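import Crest.Agent.T157.CascDef_65
import Crest.Agent.R166.Gauss_286

-- ▼ part T157/CascC_52
section

/-!
# Row 157: structural lemmas for cascades (helper52)

Lipschitz/measurability basics, `append`, the transfer principle (law invariance, shared levels,
relabelling), products over sites or replicas, zero levels, merging of levels, the annealed level.
-/

set_option autoImplicit false
set_option linter.unusedSectionVars false

noncomputable section

namespace Crest.Agent.T157.Casc.C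

open MeasureTheory Real
open Crest.Agent.T157.E Crest.Agent.T157.SL Crest.Agent.T157.Casc
open Crest.Agent.R339.Guerra (integrable_exp_abs integrable_of_exp_bound lin norm_lin_le
  continuous_lin mp_int mp_sum)

variable {Ω Ω' : Type*} [Fintype Ω] [Fintype Ω']

/-! ### basics -/


lemma cont_fld (l : Lv Ω) : Continuous l.fld := continuous_lin l.A

/-- the size of the features of a level -/
def sz (l : Lv Ω) : ℝ := ∑ a, ∑ j, |l.A a j|

lemma sz_nonneg (l : Lv Ω) : 0 ≤ sz l := by unfold sz; positivity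

lemma norm_fld_le (l : Lv Ω) (g : l.ι → ℝ) : ‖l.fld g‖ ≤ sz l * ∑ j, |g j| := norm_lin_le l.A g

/-- one-sided form of being `1`-Lipschitz for the sup norm -/
def Lp (F : (Ω → ℝ) → ℝ) : Prop := ∀ h h', F h ≤ F h' + ‖h - h'‖

lemma Lp.abs_sub {F : (Ω → ℝ) → ℝ} (hF : Lp F) (h h' : Ω → ℝ) : |F h - F h'| ≤ ‖h - h'‖ := by
  have h1 := hF h h'
  have h2 := hF h' h
  rw [norm_sub_rev] at h2
  exact abs_le.2 ⟨by linarith, by linarith⟩

lemma Lp.cont {F : (Ω → ℝ) → ℝ} (hF : Lp F) : Continuous F := by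
  refine (LipschitzWith.of_dist_le_mul (K := 1) fun h h' => ?_).continuous
  rw [Real.dist_eq, dist_eq_norm, NNReal.coe_one, one_mul]
  exact hF.abs_sub h h'

lemma Lp.meas {F : (Ω → ℝ) → ℝ} (hF : Lp F) : Measurable F := hF.cont.measurable

lemma Lp.abs_le_fld {F : (Ω → ℝ) → ℝ} (hF : Lp F) (l : Lv Ω) (h : Ω → ℝ) (g : l.ι → ℝ) :
    |F (h + l.fld g)| ≤ |F h| + sz l * ∑ j, |g j| := by
  have h1 := hF.abs_sub (h + l.fld g) h
  rw [add_sub_cancel_left] at h1
  have h2 := norm_fld_le l g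
  calc |F (h + l.fld g)| = |F h + (F (h + l.fld g) - F h)| := by ring_nf
    _ ≤ |F h| + |F (h + l.fld g) - F h| := abs_add_le _ _
    _ ≤ _ := by linarith

lemma cont_sh (l : Lv Ω) (h : Ω → ℝ) : Continuous fun g : l.ι → ℝ => h + l.fld g :=
  continuous_const.add (cont_fld l)

lemma Lp.int_exp {F : (Ω → ℝ) → ℝ} (hF : Lp F) (l : Lv Ω) (m : ℝ) (h : Ω → ℝ) :
    Integrable (fun g => exp (m * F (h + l.fld g))) (gv l.ι) := by
  refine integrable_of_exp_bound
    ((continuous_const.mul (hF.cont.comp (cont_sh l h))).rexp).aestronglyMeasurable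
    (exp (|m| * |F h|)) (|m| * sz l) fun g => ?_
  rw [abs_of_pos (exp_pos _), ← exp_add]
  refine exp_le_exp.2 ((le_abs_self _).trans ?_)
  rw [abs_mul]
  have := mul_le_mul_of_nonneg_left (hF.abs_le_fld l h g) (abs_nonneg m)
  linarith

lemma Lp.int {F : (Ω → ℝ) → ℝ} (hF : Lp F) (l : Lv Ω) (h : Ω → ℝ) :
    Integrable (fun g => F (h + l.fld g)) (gv l.ι) := by
  refine integrable_of_exp_bound (hF.cont.comp (cont_sh l h)).aestronglyMeasurable
    (|F h| + 1) (sz l) fun g => (hF.abs_le_fld l h g).trans ?_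
  have h0 : 0 ≤ sz l * ∑ j, |g j| := mul_nonneg (sz_nonneg l) (by positivity)
  have h1 := add_one_le_exp (sz l * ∑ j, |g j|)
  have h2 := one_le_exp h0
  nlinarith [abs_nonneg (F h)]

lemma Lp.pos {F : (Ω → ℝ) → ℝ} (hF : Lp F) (l : Lv Ω) (m : ℝ) (h : Ω → ℝ) :
    0 < ∫ g, exp (m * F (h + l.fld g)) ∂gv l.ι :=
  integral_exp_pos (hF.int_exp l m h)

lemma step_zero {l : Lv Ω} (hm : l.m = 0) (F : (Ω → ℝ) → ℝ) (h : Ω → ℝ) :
    step l F h = ∫ g, F (h + l.fld g) ∂gv l.ι := by rw [step, if_pos hm]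

lemma step_ne {l : Lv Ω} (hm : l.m ≠ 0) (F : (Ω → ℝ) → ℝ) (h : Ω → ℝ) :
    step l F h = l.m⁻¹ * log (∫ g, exp (l.m * F (h + l.fld g)) ∂gv l.ι) := by rw [step, if_neg hm]

lemma tE_zero {l : Lv Ω} (hm : l.m = 0) (F Φ : (Ω → ℝ) → ℝ) (h : Ω → ℝ) :
    tE l F Φ h = ∫ g, Φ (h + l.fld g) ∂gv l.ι := by
  simp [tE, hm]

/-- comparison of two steps -/
lemma step_le {F G : (Ω → ℝ) → ℝ} (hF : Lp F) (hG : Lp G) (l : Lv Ω) {h h' : Ω → ℝ} {c : ℝ}
    (H : ∀ g, F (h + l.fld g) ≤ G (h' + l.fld g) + c) : step l F h ≤ step l G h' + c := by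
  rcases lt_trichotomy l.m 0 with hm | hm | hm
  · rw [step_ne hm.ne, step_ne hm.ne]
    have h1 : (∫ g, exp (l.m * G (h' + l.fld g)) ∂gv l.ι) * exp (l.m * c) ≤
        ∫ g, exp (l.m * F (h + l.fld g)) ∂gv l.ι := by
      rw [← integral_mul_const]
      refine integral_mono ((hG.int_exp l _ _).mul_const _) (hF.int_exp l _ _) fun g => ?_
      simp only [← exp_add]
      exact exp_le_exp.2 (by nlinarith [H g])
    have h2 := log_le_log (mul_pos (hG.pos l _ _) (exp_pos _)) h1
    rw [log_mul (hG.pos l _ _).ne' (exp_pos _).ne', log_exp] at h2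
    have h3 := mul_le_mul_of_nonpos_left h2 (inv_nonpos.2 hm.le)
    rw [mul_add, ← mul_assoc, inv_mul_cancel₀ hm.ne, one_mul] at h3
    exact h3
  · rw [step_zero hm, step_zero hm]
    have := integral_mono (hF.int l h) ((hG.int l h').add (integrable_const c)) H
    rw [integral_add' (hG.int l h') (integrable_const c)] at this
    simpa using this
  · rw [step_ne hm.ne', step_ne hm.ne']
    have h1 : (∫ g, exp (l.m * F (h + l.fld g)) ∂gv l.ι) ≤
        (∫ g, exp (l.m * G (h' + l.fld g)) ∂gv l.ι) * exp (l.m * c) := by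
      rw [← integral_mul_const]
      refine integral_mono (hF.int_exp l _ _) ((hG.int_exp l _ _).mul_const _) fun g => ?_
      simp only [← exp_add]
      exact exp_le_exp.2 (by nlinarith [H g])
    have h2 := log_le_log (hF.pos l _ _) h1
    rw [log_mul (hG.pos l _ _).ne' (exp_pos _).ne', log_exp] at h2
    have h3 := mul_le_mul_of_nonneg_left h2 (inv_nonneg.2 hm.le)
    rw [mul_add, ← mul_assoc, inv_mul_cancel₀ hm.ne', one_mul] at h3
    exact h3

lemma Lp.step {F : (Ω → ℝ) → ℝ} (hF : Lp F) (l : Lv Ω) : Lp (step l F) := fun h h' =>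
  step_le hF hF l fun g => by
    have := hF (h + l.fld g) (h' + l.fld g)
    rwa [add_sub_add_right_eq_sub] at this

lemma sum_exp_pos {w : Ω → ℝ} (hw : Wt w) (h : Ω → ℝ) : 0 < ∑ x, w x * exp (h x) := by
  obtain ⟨x, -, hx⟩ := Finset.exists_lt_of_sum_lt (s := Finset.univ) (f := fun _ => (0 : ℝ))
    (g := w) (by simpa using hw.pos)
  exact Finset.sum_pos' (fun y _ => mul_nonneg (hw.nn y) (exp_pos _).le)
    ⟨x, Finset.mem_univ _, mul_pos hx (exp_pos _)⟩

lemma X_nil_le {w w' : Ω → ℝ} (hw : Wt w) {h h' : Ω → ℝ} {c : ℝ}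
    (H : ∀ x, w x * exp (h x) ≤ w' x * exp (h' x) * exp c) : X w [] h ≤ X w' [] h' + c := by
  have h0 := sum_exp_pos hw h
  have h1 : ∑ x, w x * exp (h x) ≤ (∑ x, w' x * exp (h' x)) * exp c := by
    rw [Finset.sum_mul]; exact Finset.sum_le_sum fun x _ => H x
  have h2 : 0 < ∑ x, w' x * exp (h' x) := by
    by_contra hh
    have := mul_nonpos_of_nonpos_of_nonneg (not_lt.1 hh) (exp_pos c).le
    linarith
  have h3 := log_le_log h0 h1
  rwa [log_mul h2.ne' (exp_pos _).ne', log_exp] at h3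

lemma lp_X {w : Ω → ℝ} (hw : Wt w) : ∀ L : List (Lv Ω), Lp (X w L)
  | [] => fun h h' => X_nil_le hw fun x => by
      rw [mul_assoc, ← exp_add]
      refine mul_le_mul_of_nonneg_left (exp_le_exp.2 ?_) (hw.nn x)
      have := norm_le_pi_norm (h - h') x
      rw [Real.norm_eq_abs, Pi.sub_apply] at this
      linarith [le_abs_self (h x - h' x)]
  | l :: L => (lp_X hw L).step l

/-- monotonicity in the weight and in the state -/
lemma X_le {w w' : Ω → ℝ} (hw : Wt w) (hw' : Wt w') {f : Ω → ℝ} {c : ℝ}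
    (H : ∀ x, w x * exp (f x) ≤ w' x * exp c) :
    ∀ (L : List (Lv Ω)) (h : Ω → ℝ), X w L (h + f) ≤ X w' L h + c
  | [], h => X_nil_le hw fun x => by
      have := mul_le_mul_of_nonneg_right (H x) (exp_pos (h x)).le
      rw [Pi.add_apply, exp_add]
      nlinarith
  | l :: L, h => step_le (lp_X hw L) (lp_X hw' L) l fun g => by
      have := X_le hw hw' H L (h + l.fld g)
      rwa [add_right_comm] at this

lemma X_mono_w {w w' : Ω → ℝ} (hw : Wt w) (hw' : Wt w') (H : ∀ x, w x ≤ w' x)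
    (L : List (Lv Ω)) (h : Ω → ℝ) : X w L h ≤ X w' L h := by
  simpa using X_le hw hw' (f := 0) (c := 0) (by simpa using H) L h

lemma X_add_const {w : Ω → ℝ} (hw : Wt w) (L : List (Lv Ω)) (h : Ω → ℝ) (c : ℝ) :
    X w L (h + fun _ => c) = X w L h + c := by
  refine le_antisymm (X_le hw hw (fun _ => le_rfl) L h) ?_
  have := X_le hw hw (f := fun _ => -c) (c := -c) (fun _ => le_rfl) L (h + fun _ => c)
  have e : (h + fun _ => c) + (fun _ => -c) = h := by ext x; simp
  rw [e] at this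
  linarith





/-! ### measurability -/

lemma meas_int (l : Lv Ω) {G : (Ω → ℝ) → ℝ} (hG : Measurable G) :
    Measurable fun h => ∫ g, G (h + l.fld g) ∂gv l.ι := by
  have : StronglyMeasurable fun p : (Ω → ℝ) × (l.ι → ℝ) => G (p.1 + l.fld p.2) :=
    (hG.comp (continuous_fst.add ((cont_fld l).comp continuous_snd)).measurable).stronglyMeasurable
  exact this.integral_prod_right'.measurable

lemma meas_tE (l : Lv Ω) {F Φ : (Ω → ℝ) → ℝ} (hF : Measurable F) (hΦ : Measurable Φ) :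
    Measurable (tE l F Φ) :=
  (meas_int l (G := fun h => exp (l.m * F h) * Φ h)
    ((hF.const_mul _).exp.mul hΦ)).div
    (meas_int l (G := fun h => exp (l.m * F h)) (hF.const_mul _).exp)

lemma meas_node {w : Ω → ℝ} (hw : Wt w) : ∀ (L : List (Lv Ω)) (j : ℕ) {Φ : (Ω → ℝ) → ℝ},
    Measurable Φ → Measurable (node w L j Φ)
  | _, 0, _, hΦ => by
      have : ∀ (L : List (Lv Ω)) (Φ : (Ω → ℝ) → ℝ), node w L 0 Φ = Φ := fun L Φ => by
        funext h; simp only [node]
      rw [this]; exact hΦ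
  | [], _ + 1, _, hΦ => hΦ
  | l :: L, j + 1, _, hΦ => meas_tE l (lp_X hw L).meas (meas_node hw L j hΦ)

lemma meas_P {w : Ω → ℝ} (hw : Wt w) : ∀ (L : List (Lv Ω)) (x : Ω),
    Measurable fun h => P w L h x
  | [], x => by
      simp only [P, prob]
      fun_prop
  | l :: L, x => meas_tE l (lp_X hw L).meas (meas_P hw L x)

lemma meas_qf {w : Ω → ℝ} (hw : Wt w) (L : List (Lv Ω)) (K : Ω → Ω → ℝ) :
    Measurable fun h => qf (P w L h) K := by
  unfold qf
  exact Finset.measurable_sum _ fun x _ => Finset.measurable_sum _ fun y _ =>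
    ((meas_P hw L x).mul (meas_P hw L y)).mul_const _

/-! ### `node`, `append` -/

@[simp] lemma node_zero (w : Ω → ℝ) (L : List (Lv Ω)) (Φ : (Ω → ℝ) → ℝ) : node w L 0 Φ = Φ := by
  funext h; simp only [node]

@[simp] lemma node_nil (w : Ω → ℝ) (j : ℕ) (Φ : (Ω → ℝ) → ℝ) : node w [] j Φ = Φ := by
  funext h; cases j <;> simp only [node]

lemma node_cons (w : Ω → ℝ) (l : Lv Ω) (L : List (Lv Ω)) (j : ℕ) (Φ : (Ω → ℝ) → ℝ) :
    node w (l :: L) (j + 1) Φ = tE l (X w L) (node w L j Φ) := by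
  funext h; simp only [node]

lemma X_cons (w : Ω → ℝ) (l : Lv Ω) (L : List (Lv Ω)) : X w (l :: L) = step l (X w L) := by
  funext h; simp only [X]

/-- Markov property -/
lemma node_add (w : Ω → ℝ) : ∀ (L : List (Lv Ω)) (i j : ℕ) (Φ : (Ω → ℝ) → ℝ),
    node w L (i + j) Φ = node w L i (node w (L.drop i) j Φ)
  | L, 0, j, Φ => by simp
  | [], i + 1, j, Φ => by simp
  | l :: L, i + 1, j, Φ => by
      rw [Nat.add_right_comm, node_cons, node_cons, node_add w L i j Φ, List.drop_succ_cons]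

/-- martingale property of the node laws -/
lemma P_eq_node (w : Ω → ℝ) : ∀ (L : List (Lv Ω)) (j : ℕ) (h : Ω → ℝ) (x : Ω),
    P w L h x = node w L j (fun h' => P w (L.drop j) h' x) h
  | L, 0, h, x => by simp
  | [], j + 1, h, x => by simp
  | l :: L, j + 1, h, x => by
      rw [node_cons, List.drop_succ_cons]
      simp only [P]
      congr 1
      funext h'
      exact P_eq_node w L j h' x

lemma tE_one {F : (Ω → ℝ) → ℝ} (hF : Lp F) (l : Lv Ω) (c : ℝ) (h : Ω → ℝ) :
    tE l F (fun _ => c) h = c := by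
  rw [tE, integral_mul_const, mul_div_cancel_left₀ _ (hF.pos l _ h).ne']

lemma node_const {w : Ω → ℝ} (hw : Wt w) (c : ℝ) : ∀ (L : List (Lv Ω)) (j : ℕ),
    node w L j (fun _ => c) = fun _ => c
  | L, 0 => by simp
  | [], j + 1 => by simp
  | l :: L, j + 1 => by
      rw [node_cons, node_const hw c L j]
      funext h
      exact tE_one (lp_X hw L) l c h

/-! ### the transfer principle -/

/-- the level `l` seen on states `e h'` is the level `l'` with the exponent divided by `k` -/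
structure Rel (e : (Ω' → ℝ) → Ω → ℝ) (k : ℝ) (l : Lv Ω) (l' : Lv Ω') : Prop where
  m : l.m * k = l'.m
  law : ∀ (h : Ω' → ℝ) (G : (Ω → ℝ) → ℝ), Measurable G →
    ∫ g, G (e h + l.fld g) ∂gv l.ι = ∫ g, G (e (h + l'.fld g)) ∂gv l'.ι

section transfer
variable {e : (Ω' → ℝ) → Ω → ℝ} {k c : ℝ} {l : Lv Ω} {l' : Lv Ω'}
  {F : (Ω → ℝ) → ℝ} {F' : (Ω' → ℝ) → ℝ}

lemma Rel.int_exp (H : Rel e k l l') (hF : Measurable F) (hFe : ∀ h, F (e h) = k * F' h + c)
    {Φ : (Ω → ℝ) → ℝ} (hΦ : Measurable Φ) (h : Ω' → ℝ) :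
    ∫ g, exp (l.m * F (e h + l.fld g)) * Φ (e h + l.fld g) ∂gv l.ι =
      exp (l.m * c) * ∫ g, exp (l'.m * F' (h + l'.fld g)) * Φ (e (h + l'.fld g)) ∂gv l'.ι := by
  rw [H.law h (fun h => exp (l.m * F h) * Φ h) ((hF.const_mul _).exp.mul hΦ),
    ← integral_const_mul]
  refine integral_congr_ae (Filter.Eventually.of_forall fun g => ?_)
  simp only [hFe]
  rw [← mul_assoc, ← exp_add, ← H.m]
  congr 2
  ring

lemma Rel.step (H : Rel e k l l') (hk : k ≠ 0) (hF : Measurable F) (hF' : Lp F')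
    (hFe : ∀ h, F (e h) = k * F' h + c) (h : Ω' → ℝ) :
    step l F (e h) = k * step l' F' h + c := by
  by_cases hm : l.m = 0
  · have hm' : l'.m = 0 := by rw [← H.m, hm, zero_mul]
    rw [step_zero hm, step_zero hm', H.law h F hF]
    simp only [hFe]
    rw [integral_add ((hF'.int l' h).const_mul k) (integrable_const c), integral_const_mul]
    simp
  · have hm' : l'.m ≠ 0 := by rw [← H.m]; exact mul_ne_zero hm hk
    rw [step_ne hm, step_ne hm']
    have := H.int_exp hF hFe (Φ := fun _ => 1) measurable_const h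
    simp only [mul_one] at this
    rw [this, log_mul (exp_pos _).ne' (hF'.pos l' _ h).ne', log_exp, ← H.m]
    field_simp
    ring

lemma Rel.tE (H : Rel e k l l') (hF : Measurable F) (hFe : ∀ h, F (e h) = k * F' h + c)
    {Φ : (Ω → ℝ) → ℝ} (hΦ : Measurable Φ) (h : Ω' → ℝ) :
    tE l F Φ (e h) = tE l' F' (fun h' => Φ (e h')) h := by
  have h1 := H.int_exp hF hFe (Φ := fun _ => 1) measurable_const h
  simp only [mul_one] at h1
  rw [Casc.tE, Casc.tE, H.int_exp hF hFe hΦ h, h1, mul_div_mul_left _ _ (exp_pos _).ne']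

variable {w : Ω → ℝ} {w' : Ω' → ℝ} {M : List (Lv Ω)} {M' : List (Lv Ω')}

theorem X_transfer (hw : Wt w) (hw' : Wt w') (hk : k ≠ 0)
    (hM : ∀ h, X w M (e h) = k * X w' M' h + c) {L : List (Lv Ω)} {L' : List (Lv Ω')}
    (H : List.Forall₂ (Rel e k) L L') (h : Ω' → ℝ) :
    X w (L ++ M) (e h) = k * X w' (L' ++ M') h + c := by
  induction H generalizing h with
  | nil => exact hM h
  | cons h1 _ ih => exact h1.step hk (lp_X hw _).meas (lp_X hw' _) ih h

theorem node_transfer (hw : Wt w) (hw' : Wt w') (hk : k ≠ 0)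
    (hM : ∀ h, X w M (e h) = k * X w' M' h + c) {L : List (Lv Ω)} {L' : List (Lv Ω')}
    (H : List.Forall₂ (Rel e k) L L') {j : ℕ} (hj : j ≤ L.length) {Φ : (Ω → ℝ) → ℝ}
    (hΦ : Measurable Φ) (h : Ω' → ℝ) :
    node w (L ++ M) j Φ (e h) = node w' (L' ++ M') j (fun h' => Φ (e h')) h := by
  induction H generalizing h j with
  | nil =>
    have : j = 0 := by simpa using hj
    subst this; simp
  | cons h1 h2 ih =>
    cases j with
    | zero => simp
    | succ j =>
      rw [List.cons_append, List.cons_append, node_cons, node_cons,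
        h1.tE (lp_X hw _).meas (X_transfer hw hw' hk hM h2) (meas_node hw _ j hΦ) h]
      congr 1
      funext h'
      exact ih (by simpa using hj) h'

theorem P_transfer (hw : Wt w) (hw' : Wt w') (hk : k ≠ 0)
    (hM : ∀ h, X w M (e h) = k * X w' M' h + c) {L : List (Lv Ω)} {L' : List (Lv Ω')}
    (H : List.Forall₂ (Rel e k) L L') (h : Ω' → ℝ) (x : Ω) :
    P w (L ++ M) (e h) x = node w' (L' ++ M') L.length (fun h' => P w M (e h') x) h := by
  rw [P_eq_node w (L ++ M) L.length, node_transfer hw hw' hk hM H le_rfl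
    (meas_P hw _ x), List.drop_left]

end transfer

/-! ### law invariance -/

lemma map_fld_eq {l l' : Lv Ω} (H : l.cov = l'.cov) :
    (gv l.ι).map l.fld = (gv l'.ι).map l'.fld := by
  have := Crest.Agent.R166.Gauss286.gv_map_eq_of (Matrix.of l.A) (Matrix.of l'.A) (by
    ext x y
    simpa [Matrix.mul_apply, Lv.cov] using congrFun (congrFun H x) y)
  exact this

lemma int_fld_eq {l l' : Lv Ω} (H : l.cov = l'.cov) {G : (Ω → ℝ) → ℝ} (hG : Measurable G) :
    ∫ g, G (l.fld g) ∂gv l.ι = ∫ g, G (l'.fld g) ∂gv l'.ι := by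
  rw [← integral_map (cont_fld l).aemeasurable hG.aestronglyMeasurable,
    ← integral_map (cont_fld l').aemeasurable hG.aestronglyMeasurable, map_fld_eq H]

/-- same exponent and same covariance -/
def Same (l l' : Lv Ω) : Prop := l.m = l'.m ∧ l.cov = l'.cov

lemma Same.rel {l l' : Lv Ω} (H : Same l l') : Rel (fun h => h) 1 l l' :=
  ⟨by rw [mul_one, H.1], fun h G hG =>
    int_fld_eq H.2 (G := fun f => G (h + f)) (hG.comp (measurable_const_add h))⟩

lemma Same.step {l l' : Lv Ω} (H : Same l l') {F : (Ω → ℝ) → ℝ} (hF : Lp F) :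
    step l F = step l' F := by
  funext h
  simpa using H.rel.step (c := 0) one_ne_zero hF.meas hF (by simp) h

lemma Same.tE {l l' : Lv Ω} (H : Same l l') {F Φ : (Ω → ℝ) → ℝ} (hF : Measurable F)
    (hΦ : Measurable Φ) : tE l F Φ = tE l' F Φ := by
  funext h
  exact H.rel.tE (F' := F) (c := 0) hF (by simp) hΦ h

theorem X_same {w : Ω → ℝ} (hw : Wt w) {L L' : List (Lv Ω)} (H : List.Forall₂ Same L L') :
    X w L = X w L' := by
  induction H with
  | nil => rfl
  | cons h1 _ ih => rw [X_cons, X_cons, ih, h1.step (lp_X hw _)]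

theorem node_same {w : Ω → ℝ} (hw : Wt w) {L L' : List (Lv Ω)} (H : List.Forall₂ Same L L')
    (j : ℕ) {Φ : (Ω → ℝ) → ℝ} (hΦ : Measurable Φ) : node w L j Φ = node w L' j Φ := by
  induction H generalizing j with
  | nil => rfl
  | cons h1 h2 ih =>
    cases j with
    | zero => simp
    | succ j =>
      rw [node_cons, node_cons, ih, X_same hw h2, h1.tE (lp_X hw _).meas (meas_node hw _ j hΦ)]

theorem P_same {w : Ω → ℝ} (hw : Wt w) {L L' : List (Lv Ω)} (H : List.Forall₂ Same L L') :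
    P w L = P w L' := by
  funext h x
  rw [P_eq_node w L L.length, P_eq_node w L' L.length, List.drop_length,
    node_same hw H _ (meas_P hw _ x), H.length_eq, List.drop_length]

theorem pi2_same {w : Ω → ℝ} (hw : Wt w) {L L' : List (Lv Ω)} (H : List.Forall₂ Same L L')
    (j : ℕ) (K : Ω → Ω → ℝ) : pi2 w L j K = pi2 w L' j K := by
  funext h
  rw [pi2, pi2, node_same hw H j (meas_qf hw _ K), P_same hw (List.forall₂_drop j H)]

end Crest.Agent.T157.Casc.C

end
end

-- ▼ part T157/CascP_52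

/-!
# Row 157: cascades — products, shared levels, relabelling, zero / merged / annealed levels (helper52)
-/

set_option autoImplicit false
set_option linter.unusedSectionVars false

noncomputable section

namespace Crest.Agent.T157.Casc.C

open MeasureTheory Real
open Crest.Agent.T157.E Crest.Agent.T157.SL Crest.Agent.T157.Casc
open Crest.Agent.R339.Guerra (mp_int mp_sum)

variable {Ω Ω' : Type*} [Fintype Ω] [Fintype Ω']

/-! ### products -/

section prod
variable {N : Type} [Fintype N] [DecidableEq N] {S : Type*} [Fintype S]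

/-- independent copies of a level at every site -/
def prodLv (N : Type) [Fintype N] (l : Lv S) : Lv (N → S) :=
  ⟨N × l.ι, fun x p => l.A (x p.1) p.2, l.m⟩

/-- additive states -/
def pe (hs : N → S → ℝ) : (N → S) → ℝ := fun x => ∑ i, hs i (x i)

/-- product weights -/
def pw (w : N → S → ℝ) : (N → S) → ℝ := fun x => ∏ i, w i (x i)

@[simp] lemma prodLv_m (l : Lv S) : (prodLv N l).m = l.m := rfl

lemma prodLv_cov (l : Lv S) (x y : N → S) : (prodLv N l).cov x y = ∑ i, l.cov (x i) (y i) := by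
  show ∑ p : N × l.ι, l.A (x p.1) p.2 * l.A (y p.1) p.2 = _
  rw [Fintype.sum_prod_type]
  rfl


lemma pe_add_fld (l : Lv S) (hs : N → S → ℝ) (g : N × l.ι → ℝ) :
    pe hs + (prodLv N l).fld g = pe fun i => hs i + l.fld fun j => g (i, j) := by
  funext x
  show ∑ i, hs i (x i) + ∑ p : N × l.ι, l.A (x p.1) p.2 * g p = _
  rw [Fintype.sum_prod_type, ← Finset.sum_add_distrib]
  rfl

lemma sum_pw (w : N → S → ℝ) : ∑ x, pw w x = ∏ i, ∑ s, w i s := by
  rw [Finset.prod_univ_sum, Fintype.piFinset_univ]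
  rfl


lemma pw_mul_exp (w hs : N → S → ℝ) :
    (fun x => pw w x * exp (pe hs x)) = pw fun i s => w i s * exp (hs i s) := by
  funext x
  simp only [pw, pe, exp_sum, Finset.prod_mul_distrib]


lemma int_prod {ι : Type} [Fintype ι] (f : N → (ι → ℝ) → ℝ) :
    ∫ g, ∏ i, f i (fun j => g (i, j)) ∂gv (N × ι) = ∏ i, ∫ g, f i g ∂gv ι := by
  have h : MeasurePreserving (MeasurableEquiv.curry N ι ℝ) (gv (N × ι))
      (Measure.pi fun _ : N => gv ι) :=
    ⟨(MeasurableEquiv.curry N ι ℝ).measurable, Crest.Agent.R166.Gauss286.gv_map_curry⟩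
  rw [← integral_fintype_prod_eq_prod, ← h.integral_comp']
  rfl

lemma mp_row {ι : Type} [Fintype ι] (i : N) :
    MeasurePreserving (fun (g : N × ι → ℝ) j => g (i, j)) (gv (N × ι)) (gv ι) :=
  Crest.Agent.R339.Guerra.mp_comp (fun j => (i, j)) fun _ _ h => (Prod.ext_iff.1 h).2

variable {F : ((N → S) → ℝ) → ℝ} {Fi : N → (S → ℝ) → ℝ}

lemma int_exp_prod (l : Lv S) (hF : ∀ hs, F (pe hs) = ∑ i, Fi i (hs i))
    {Φ : ((N → S) → ℝ) → ℝ} {Φi : N → (S → ℝ) → ℝ} (hΦ : ∀ hs, Φ (pe hs) = ∏ i, Φi i (hs i))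
    (hs : N → S → ℝ) :
    ∫ g, exp (l.m * F (pe hs + (prodLv N l).fld g)) * Φ (pe hs + (prodLv N l).fld g)
        ∂gv (N × l.ι) =
      ∏ i, ∫ g, exp (l.m * Fi i (hs i + l.fld g)) * Φi i (hs i + l.fld g) ∂gv l.ι := by
  rw [← int_prod]
  refine integral_congr_ae (Filter.Eventually.of_forall fun g => ?_)
  simp only [pe_add_fld, hF, hΦ, Finset.mul_sum, exp_sum, Finset.prod_mul_distrib]

lemma step_prod (l : Lv S) (hFi : ∀ i, Lp (Fi i)) (hF : ∀ hs, F (pe hs) = ∑ i, Fi i (hs i))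
    (hs : N → S → ℝ) : step (prodLv N l) F (pe hs) = ∑ i, step l (Fi i) (hs i) := by
  by_cases hm : l.m = 0
  · rw [step_zero (l := prodLv N l) hm]
    simp only [step_zero hm]
    have : ∀ i, Integrable (fun g : N × l.ι → ℝ => Fi i (hs i + l.fld fun j => g (i, j)))
        (gv (N × l.ι)) := fun i =>
      (mp_row i).integrable_comp_of_integrable ((hFi i).int l (hs i))
    show ∫ g, F (pe hs + (prodLv N l).fld g) ∂gv (N × l.ι) = _
    simp only [pe_add_fld, hF]
    rw [integral_finsetSum _ fun i _ => this i]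
    exact Finset.sum_congr rfl fun i _ => mp_int (mp_row i)
      (f := fun g => Fi i (hs i + l.fld g)) ((hFi i).int l (hs i)).aestronglyMeasurable
  · rw [step_ne (l := prodLv N l) hm]
    simp only [step_ne hm]
    have := int_exp_prod l hF (Φ := fun _ => 1) (Φi := fun _ _ => 1) (by simp) hs
    simp only [mul_one] at this
    show l.m⁻¹ * log (∫ g, exp (l.m * F (pe hs + (prodLv N l).fld g)) ∂gv (N × l.ι)) = _
    rw [this, log_prod fun i _ => ((hFi i).pos l _ _).ne', Finset.mul_sum]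


variable {w : N → S → ℝ}

/-- decoupling over sites (or independent replicas) -/
theorem X_prod (hw : ∀ i, Wt (w i)) : ∀ (L : List (Lv S)) (hs : N → S → ℝ),
    X (pw w) (L.map (prodLv N)) (pe hs) = ∑ i, X (w i) L (hs i)
  | [], hs => by
      have := sum_pw fun i s => w i s * exp (hs i s)
      rw [← pw_mul_exp] at this
      simp only [List.map_nil, X]
      rw [this, log_prod fun i _ => (sum_exp_pos (hw i) _).ne']
  | l :: L, hs => step_prod l (fun i => lp_X (hw i) L) (X_prod hw L) hs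




end prod

/-! ### shared levels -/

section shared
variable {κ : Type} [Fintype κ] [DecidableEq κ] {S : Type*} [Fintype S]


/-- the state of the replicated system -/
def dup (κ : Type) [Fintype κ] (h : S → ℝ) : (κ → S) → ℝ := pe fun _ => h









end shared

/-! ### relabelling -/

section comap

/-- a level read through a map -/
def coLv (ρ : Ω → Ω') (l : Lv Ω') : Lv Ω := ⟨l.ι, fun x => l.A (ρ x), l.m⟩

open Classical in
/-- push-forward of a weight -/
def push (ρ : Ω → Ω') (w : Ω → ℝ) (y : Ω') : ℝ := ∑ x, if ρ x = y then w x else 0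

lemma coLv_cov (ρ : Ω → Ω') (l : Lv Ω') (x y : Ω) : (coLv ρ l).cov x y = l.cov (ρ x) (ρ y) := rfl

lemma sum_push (ρ : Ω → Ω') (w : Ω → ℝ) (f : Ω' → ℝ) :
    ∑ y, push ρ w y * f y = ∑ x, w x * f (ρ x) := by
  classical
  simp only [push, Finset.sum_mul]
  rw [Finset.sum_comm]
  refine Finset.sum_congr rfl fun x _ => ?_
  rw [Finset.sum_eq_single (ρ x)]
  · simp
  · intro y _ h; simp [Ne.symm h]
  · simp

lemma wt_push (ρ : Ω → Ω') {w : Ω → ℝ} (hw : Wt w) : Wt (push ρ w) :=
  ⟨fun y => Finset.sum_nonneg fun x _ => by split_ifs; exacts [hw.nn x, le_rfl], by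
    have := sum_push ρ w fun _ => 1
    simp only [mul_one] at this
    rw [this]; exact hw.pos⟩

lemma push_equiv (ρ : Ω ≃ Ω') (w : Ω → ℝ) : push ρ w = fun y => w (ρ.symm y) := by
  funext y
  rw [push, Finset.sum_eq_single (ρ.symm y)]
  · simp
  · intro x _ h
    rw [if_neg]
    rintro rfl
    simp at h
  · simp

lemma rel_co (ρ : Ω → Ω') (l : Lv Ω') : Rel (fun h x => h (ρ x)) 1 (coLv ρ l) l :=
  ⟨mul_one _, fun _ _ _ => rfl⟩

lemma forall₂_co (ρ : Ω → Ω') (L : List (Lv Ω')) :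
    List.Forall₂ (Rel (fun h x => h (ρ x)) 1) (L.map (coLv ρ)) L := by
  induction L with
  | nil => exact .nil
  | cons l L ih => exact .cons (rel_co ρ l) ih

lemma X_nil_co (ρ : Ω → Ω') (w : Ω → ℝ) (h : Ω' → ℝ) :
    X w [] (fun x => h (ρ x)) = 1 * X (push ρ w) [] h + 0 := by
  simp only [X, sum_push ρ w fun y => exp (h y), one_mul, add_zero]

theorem X_co (ρ : Ω → Ω') {w : Ω → ℝ} (hw : Wt w) (L : List (Lv Ω')) (h : Ω' → ℝ) :
    X w (L.map (coLv ρ)) (fun x => h (ρ x)) = X (push ρ w) L h := by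
  simpa using X_transfer hw (wt_push ρ hw) one_ne_zero (X_nil_co ρ w) (forall₂_co ρ L) h


end comap

/-! ### zero levels and constant levels -/

lemma fld_of_zero {l : Lv Ω} (H : ∀ x i, l.A x i = 0) (g : l.ι → ℝ) : l.fld g = 0 := by
  funext x; simp [Lv.fld, H]

lemma step_of_zero {l : Lv Ω} (H : ∀ x i, l.A x i = 0) (F : (Ω → ℝ) → ℝ) : step l F = F := by
  funext h
  by_cases hm : l.m = 0
  · simp [step_zero hm, fld_of_zero H]
  · simp [step_ne hm, fld_of_zero H, hm]

lemma tE_of_zero {l : Lv Ω} (H : ∀ x i, l.A x i = 0) (F Φ : (Ω → ℝ) → ℝ) : tE l F Φ = Φ := by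
  funext h
  simp [tE, fld_of_zero H]

lemma X_of_zero (w : Ω → ℝ) {L : List (Lv Ω)} (H : ∀ l ∈ L, ∀ x i, l.A x i = 0)
    (M : List (Lv Ω)) : X w (L ++ M) = X w M := by
  induction L with
  | nil => rfl
  | cons l L ih =>
    rw [List.cons_append, X_cons, step_of_zero (H l (by simp)), ih fun l' h => H l' (by simp [h])]

lemma int_exp_lin {ι : Type} [Fintype ι] (a : ι → ℝ) :
    ∫ g, exp (∑ i, a i * g i) ∂gv ι = exp ((∑ i, a i * a i) / 2) := by
  simp only [exp_sum, Finset.sum_div]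
  rw [integral_fintype_prod_eq_prod (fun i x => exp (a i * x))]
  refine Finset.prod_congr rfl fun i _ => ?_
  have := ProbabilityTheory.mgf_id_gaussianReal (μ := 0) (v := 1)
  have h := congrFun this (a i)
  simp only [ProbabilityTheory.mgf, id] at h
  rw [h]
  congr 1
  simp
  ring

lemma integrable_exp_lin {ι : Type} [Fintype ι] (a : ι → ℝ) :
    Integrable (fun g : ι → ℝ => exp (∑ i, a i * g i)) (gv ι) :=
  Integrable.of_integral_ne_zero (by rw [int_exp_lin]; exact (exp_pos _).ne')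

lemma int_lin {ι : Type} [Fintype ι] (a : ι → ℝ) : ∫ g, ∑ i, a i * g i ∂gv ι = 0 := by
  rw [integral_finsetSum _ fun i _ => (Crest.Agent.R339.Guerra.integrable_coord i).const_mul _]
  simp [integral_const_mul, Crest.Agent.R339.Guerra.integral_coord]

/-- a level whose features do not depend on the configuration -/
lemma step_of_const {l : Lv Ω} {a : l.ι → ℝ} (H : ∀ x, l.A x = a) {F : (Ω → ℝ) → ℝ}
    (hF : ∀ h c, F (h + fun _ => c) = F h + c) (h : Ω → ℝ) :
    step l F h = F h + l.m * (∑ i, a i * a i) / 2 := by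
  have e : ∀ g, F (h + l.fld g) = F h + ∑ i, a i * g i := fun g => by
    rw [← hF]; congr 2; funext x; simp [Lv.fld, H]
  by_cases hm : l.m = 0
  · rw [step_zero hm]
    simp only [e]
    rw [integral_add (integrable_const _) (integrable_finsetSum _ fun i _ =>
      (Crest.Agent.R339.Guerra.integrable_coord i).const_mul _), int_lin]
    simp [hm]
  · rw [step_ne hm]
    have e2 : ∀ g, exp (l.m * F (h + l.fld g)) = exp (l.m * F h) * exp (∑ i, (l.m * a i) * g i) :=
      fun g => by rw [e, mul_add, exp_add, Finset.mul_sum]; simp only [mul_assoc]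
    simp only [e2]
    rw [integral_const_mul, int_exp_lin, ← exp_add, log_exp]
    have : ∑ i, l.m * a i * (l.m * a i) = l.m * (l.m * ∑ i, a i * a i) := by
      simp only [Finset.mul_sum]; exact Finset.sum_congr rfl fun i _ => by ring
    rw [this]
    field_simp

/-! ### the annealed level -/

lemma int_exp_fld (l : Lv Ω) (h : Ω → ℝ) (x : Ω) :
    ∫ g, exp ((h + l.fld g) x) ∂gv l.ι = exp (h x + l.cov x x / 2) := by
  simp only [Pi.add_apply, exp_add, Lv.fld, Lv.cov]
  rw [integral_const_mul, int_exp_lin]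

lemma integrable_exp_fld (l : Lv Ω) (h : Ω → ℝ) (x : Ω) :
    Integrable (fun g => exp ((h + l.fld g) x)) (gv l.ι) :=
  Integrable.of_integral_ne_zero (by rw [int_exp_fld]; exact (exp_pos _).ne')

lemma exp_X_nil {w : Ω → ℝ} (hw : Wt w) (h : Ω → ℝ) :
    exp (X w [] h) = ∑ x, w x * exp (h x) := exp_log (sum_exp_pos hw h)

lemma int_exp_X_nil {w : Ω → ℝ} (hw : Wt w) (l : Lv Ω) (h : Ω → ℝ) :
    ∫ g, exp (X w [] (h + l.fld g)) ∂gv l.ι = ∑ x, w x * exp (h x + l.cov x x / 2) := by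
  simp only [exp_X_nil hw]
  rw [integral_finsetSum _ fun x _ => (integrable_exp_fld l h x).const_mul _]
  simp only [integral_const_mul, int_exp_fld]

/-- a last level with exponent `1` is annealed -/
theorem X_annealed {w : Ω → ℝ} (hw : Wt w) {l : Lv Ω} (hm : l.m = 1) (h : Ω → ℝ) :
    X w [l] h = X w [] (h + fun x => l.cov x x / 2) := by
  rw [X_cons, step_ne (by rw [hm]; exact one_ne_zero), hm]
  simp only [inv_one, one_mul, int_exp_X_nil hw]
  rfl

theorem P_annealed {w : Ω → ℝ} (hw : Wt w) {l : Lv Ω} (hm : l.m = 1) (h : Ω → ℝ) (x : Ω) :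
    P w [l] h x = P w [] (h + fun x => l.cov x x / 2) x := by
  have e : ∀ h' : Ω → ℝ, exp (X w [] h') * P w [] h' x = w x * exp (h' x) := fun h' => by
    rw [exp_X_nil hw]
    simp only [P, prob]
    rw [mul_div_cancel₀ _ (sum_exp_pos hw h').ne']
  have : P w [l] h x = tE l (X w []) (fun h' => P w [] h' x) h := rfl
  rw [this, tE, hm]
  simp only [one_mul, e, int_exp_X_nil hw]
  rw [integral_const_mul, int_exp_fld]
  rfl

theorem X_annealed_const {w : Ω → ℝ} (hw : Wt w) {l : Lv Ω} (hm : l.m = 1) {v : ℝ}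
    (hv : ∀ x, l.cov x x = v) (h : Ω → ℝ) : X w [l] h = X w [] h + v / 2 := by
  rw [X_annealed hw hm, ← X_add_const hw]
  simp only [hv]

/-! ### merging two levels -/

/-- the sum of two independent levels (exponent of the first) -/
def addLv (l l' : Lv Ω) : Lv Ω := ⟨l.ι ⊕ l'.ι, fun x => Sum.elim (l.A x) (l'.A x), l.m⟩

lemma addLv_cov (l l' : Lv Ω) (x y : Ω) : (addLv l l').cov x y = l.cov x y + l'.cov x y := by
  show ∑ p : l.ι ⊕ l'.ι, Sum.elim (l.A x) (l'.A x) p * Sum.elim (l.A y) (l'.A y) p = _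
  rw [Fintype.sum_sum_type]
  rfl

lemma addLv_fld (l l' : Lv Ω) (g : l.ι → ℝ) (g' : l'.ι → ℝ) :
    (addLv l l').fld (Sum.elim g g') = l.fld g + l'.fld g' := by
  funext x
  show ∑ p : l.ι ⊕ l'.ι, Sum.elim (l.A x) (l'.A x) p * Sum.elim g g' p = _
  rw [Fintype.sum_sum_type]
  rfl

lemma int_addLv (l l' : Lv Ω) (h : Ω → ℝ) {G : (Ω → ℝ) → ℝ}
    (hG : Integrable (fun g => G (h + (addLv l l').fld g)) (gv (addLv l l').ι)) :
    ∫ g, G (h + (addLv l l').fld g) ∂gv (addLv l l').ι =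
      ∫ g, ∫ g', G (h + l.fld g + l'.fld g') ∂gv l'.ι ∂gv l.ι := by
  have h1 := mp_sum (ι := l.ι) (κ := l'.ι)
  have h2 := mp_int h1 hG.aestronglyMeasurable
  have h3 := h1.integrable_comp_of_integrable hG
  refine h2.symm.trans ((integral_prod _ h3).trans ?_)
  refine integral_congr_ae (Filter.Eventually.of_forall fun g => ?_)
  refine integral_congr_ae (Filter.Eventually.of_forall fun g' => ?_)
  show G (h + (addLv l l').fld (Sum.elim g g')) = G (h + l.fld g + l'.fld g')
  rw [addLv_fld, add_assoc]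

lemma exp_step {l : Lv Ω} (hm : l.m ≠ 0) {F : (Ω → ℝ) → ℝ} (hF : Lp F) (h : Ω → ℝ) :
    exp (l.m * step l F h) = ∫ g, exp (l.m * F (h + l.fld g)) ∂gv l.ι := by
  rw [step_ne hm, ← mul_assoc, mul_inv_cancel₀ hm, one_mul, exp_log (hF.pos l _ h)]

lemma int_exp_addLv {l l' : Lv Ω} (H : l.m = l'.m) {F : (Ω → ℝ) → ℝ} (hF : Lp F) (h : Ω → ℝ) :
    ∫ g, exp (l.m * F (h + (addLv l l').fld g)) ∂gv (addLv l l').ι =
      ∫ g, exp (l.m * step l' F (h + l.fld g)) ∂gv l.ι := by
  rw [int_addLv l l' h (G := fun h => exp (l.m * F h)) (hF.int_exp _ _ _)]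
  by_cases hm : l.m = 0
  · simp [hm]
  · simp only [H] at hm ⊢
    simp only [exp_step hm hF]

theorem step_addLv {l l' : Lv Ω} (H : l.m = l'.m) {F : (Ω → ℝ) → ℝ} (hF : Lp F) :
    step (addLv l l') F = step l (step l' F) := by
  funext h
  by_cases hm : l.m = 0
  · rw [step_zero (l := addLv l l') hm, step_zero hm, int_addLv l l' h (hF.int _ _)]
    simp only [step_zero (H ▸ hm : l'.m = 0)]
  · rw [step_ne (l := addLv l l') hm, step_ne hm, ← int_exp_addLv H hF]
    rfl

theorem tE_addLv {l l' : Lv Ω} (H : l.m = l'.m) {F Φ : (Ω → ℝ) → ℝ} (hF : Lp F) (h : Ω → ℝ)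
    (hΦ : Integrable (fun g => exp (l.m * F (h + (addLv l l').fld g)) *
      Φ (h + (addLv l l').fld g)) (gv (addLv l l').ι)) :
    tE (addLv l l') F Φ h = tE l (step l' F) (tE l' F Φ) h := by
  have h1 := int_addLv l l' h (G := fun h => exp (l.m * F h) * Φ h) hΦ
  have h2 := int_exp_addLv H hF h
  show (∫ g, exp (l.m * F (h + (addLv l l').fld g)) * Φ (h + (addLv l l').fld g)
    ∂gv (addLv l l').ι) / (∫ g, exp (l.m * F (h + (addLv l l').fld g)) ∂gv (addLv l l').ι) = _
  rw [h1, h2, tE]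
  congr 1
  refine integral_congr_ae (Filter.Eventually.of_forall fun g => ?_)
  by_cases hm : l.m = 0
  · simp [hm, tE_zero (H ▸ hm : l'.m = 0)]
  · simp only [H] at hm ⊢
    rw [exp_step hm hF, tE, mul_div_cancel₀ _ (hF.pos l' _ _).ne']

theorem X_addLv {w : Ω → ℝ} (hw : Wt w) {l l' : Lv Ω} (H : l.m = l'.m) (L : List (Lv Ω)) :
    X w (addLv l l' :: L) = X w (l :: l' :: L) := step_addLv H (lp_X hw L)

/-- splitting a level into two levels with the same exponent -/
theorem X_split {w : Ω → ℝ} (hw : Wt w) {l l1 l2 : Lv Ω} (h1 : l.m = l1.m) (h2 : l1.m = l2.m)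
    (hc : ∀ x y, l.cov x y = l1.cov x y + l2.cov x y) (L : List (Lv Ω)) :
    X w (l :: L) = X w (l1 :: l2 :: L) := by
  rw [← X_addLv hw h2, X_cons, X_cons]
  exact Same.step (l := l) (l' := addLv l1 l2)
    ⟨h1, by funext x y; exact (hc x y).trans (addLv_cov l1 l2 x y).symm⟩ (lp_X hw L)

/-- lists with the same value below a common prefix -/
theorem X_append_congr (w : Ω → ℝ) {M M' : List (Lv Ω)} (H : X w M = X w M') :
    ∀ L : List (Lv Ω), X w (L ++ M) = X w (L ++ M')
  | [] => H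
  | l :: L => by rw [List.cons_append, List.cons_append, X_cons, X_cons, X_append_congr w H L]

/-- comparison below a common prefix -/
theorem X_append_le {w w' : Ω → ℝ} (hw : Wt w) (hw' : Wt w') {M M' : List (Lv Ω)} {c : ℝ}
    (H : ∀ h, X w M h ≤ X w' M' h + c) :
    ∀ (L : List (Lv Ω)) (h : Ω → ℝ), X w (L ++ M) h ≤ X w' (L ++ M') h + c
  | [], h => H h
  | l :: L, _ => step_le (lp_X hw _) (lp_X hw' _) l fun _ => X_append_le hw hw' H L _

end Crest.Agent.T157.Casc.C

end
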