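import Crest.Agent.T157.CascB_65

/-!
# Row 157: cascades — nodes, two replicas, the interpolation formula (helper65)
-/

set_option autoImplicit false
set_option linter.unusedSectionVars false

noncomputable section

namespace Crest.Agent.T157.Casc

open MeasureTheory Real Filter Topology Set
open Crest.Agent.T157.E
open Crest.Agent.T157.SL (EG Pt Wt int_exp)

variable {Ω : Type*} [Fintype Ω] {I : Set ℝ} {Φ Φ' : (Ω → ℝ) → ℝ} {Ψ : Ω → (Ω → ℝ) → ℝ}
  {w w' : Ω → ℝ}

/-! ### nodes -/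

@[simp] theorem node_zero (w : Ω → ℝ) (L : List (Lv Ω)) (Φ : (Ω → ℝ) → ℝ) : node w L 0 Φ = Φ := by
  ext z; cases L <;> rfl

@[simp] theorem node_nil (w : Ω → ℝ) (j : ℕ) (Φ : (Ω → ℝ) → ℝ) : node w [] j Φ = Φ := by
  ext z; cases j <;> rfl

theorem node_cons (w : Ω → ℝ) (l : Lv Ω) (L : List (Lv Ω)) (j : ℕ) (Φ : (Ω → ℝ) → ℝ) :
    node w (l :: L) (j + 1) Φ = tE l (X w L) (node w L j Φ) := rfl

theorem Eg.node (h : Eg Φ) (hw : Wt w) : ∀ (L : List (Lv Ω)) (j : ℕ), Eg (node w L j Φ)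
  | _, 0 => by simpa using h
  | [], _ + 1 => by simpa using h
  | l :: L, j + 1 => (h.node hw L j).tE (lg_X hw L) l

theorem node_const_mul (w : Ω → ℝ) (Φ : (Ω → ℝ) → ℝ) (c : ℝ) : ∀ (L : List (Lv Ω)) (j : ℕ),
    node w L j (fun z => c * Φ z) = fun z => c * node w L j Φ z
  | _, 0 => by simp
  | [], _ + 1 => by simp
  | l :: L, j + 1 => by ext z; rw [node_cons, node_const_mul w Φ c L j, tE_const_mul, node_cons]

theorem node_const (hw : Wt w) (c : ℝ) : ∀ (L : List (Lv Ω)) (j : ℕ),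
    node w L j (fun _ => c) = fun _ => c
  | _, 0 => by simp
  | [], _ + 1 => by simp
  | l :: L, j + 1 => by ext z; rw [node_cons, node_const hw c L j, tE_const (lg_X hw L)]

theorem node_add (hw : Wt w) (h : Eg Φ) (h' : Eg Φ') : ∀ (L : List (Lv Ω)) (j : ℕ),
    node w L j (fun z => Φ z + Φ' z) = fun z => node w L j Φ z + node w L j Φ' z
  | _, 0 => by simp
  | [], _ + 1 => by simp
  | l :: L, j + 1 => by
    ext z
    rw [node_cons, node_add hw h h' L j, tE_add (lg_X hw L) (h.node hw L j) (h'.node hw L j),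
      node_cons, node_cons]

theorem node_sub (hw : Wt w) (h : Eg Φ) (h' : Eg Φ') (L : List (Lv Ω)) (j : ℕ) :
    node w L j (fun z => Φ z - Φ' z) = fun z => node w L j Φ z - node w L j Φ' z := by
  have := node_add hw h (h'.const_mul (-1)) L j
  rw [node_const_mul] at this
  simpa [sub_eq_add_neg] using this

theorem node_sum (hw : Wt w) {κ : Type*} (s : Finset κ) {Φ : κ → (Ω → ℝ) → ℝ}
    (h : ∀ k ∈ s, Eg (Φ k)) (L : List (Lv Ω)) (j : ℕ) :
    node w L j (fun z => ∑ k ∈ s, Φ k z) = fun z => ∑ k ∈ s, node w L j (Φ k) z := by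
  classical
  induction s using Finset.induction_on with
  | empty => simpa using node_const hw 0 L j
  | insert k s hk ih =>
    simp only [Finset.sum_insert hk]
    rw [node_add hw (h k (by simp)) (Eg.sum s fun i hi => h i (by simp [hi])),
      ih fun i hi => h i (by simp [hi])]

theorem node_mono (hw : Wt w) (h : Eg Φ) (h' : Eg Φ') (e : ∀ z, Φ z ≤ Φ' z) :
    ∀ (L : List (Lv Ω)) (j : ℕ) (z : Ω → ℝ), node w L j Φ z ≤ node w L j Φ' z
  | _, 0, z => by simpa using e z
  | [], _ + 1, z => by simpa using e z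
  | l :: L, j + 1, z =>
    tE_mono (lg_X hw L) (h.node hw L j) (h'.node hw L j) (node_mono hw h h' e L j) l z

theorem node_nonneg (w : Ω → ℝ) (e : ∀ z, 0 ≤ Φ z) :
    ∀ (L : List (Lv Ω)) (j : ℕ) (z : Ω → ℝ), 0 ≤ node w L j Φ z
  | _, 0, z => by simpa using e z
  | [], _ + 1, z => by simpa using e z
  | l :: L, j + 1, z => tE_nonneg l _ (node_nonneg w e L j) z

theorem node_le (hw : Wt w) (h : Eg Φ) {c : ℝ} (e : ∀ z, Φ z ≤ c) (L : List (Lv Ω)) (j : ℕ)
    (z : Ω → ℝ) : node w L j Φ z ≤ c := by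
  simpa [node_const hw] using node_mono hw h (Eg.const c) e L j z


/-- tower property -/
theorem node_node (w : Ω → ℝ) (Φ : (Ω → ℝ) → ℝ) (k : ℕ) : ∀ (L : List (Lv Ω)) (j : ℕ),
    node w L j (node w (L.drop j) k Φ) = node w L (k + j) Φ
  | _, 0 => by simp
  | [], _ + 1 => by simp
  | l :: L, j + 1 => by rw [node_cons, List.drop_succ_cons, node_node w Φ k L j]; rfl

/-- the node laws form a martingale -/
theorem node_P (w : Ω → ℝ) (x : Ω) : ∀ (L : List (Lv Ω)) (j : ℕ),
    node w L j (fun z => P w (L.drop j) z x) = fun z => P w L z x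
  | _, 0 => by simp
  | [], _ + 1 => by simp
  | l :: L, j + 1 => by rw [node_cons, List.drop_succ_cons, node_P w x L j]; rfl

theorem node_sum_P (hw : Wt w) (f : Ω → ℝ) (L : List (Lv Ω)) (j : ℕ) (z : Ω → ℝ) :
    node w L j (fun z => ∑ x, P w (L.drop j) z x * f x) z = ∑ x, P w L z x * f x := by
  simp only [mul_comm _ (f _)]
  rw [node_sum hw _ fun x _ => (eg_P hw _ x).const_mul _]
  simp only [node_const_mul, node_P]




/-- the gradient of a node expectation -/
def dnode (w : Ω → ℝ) : List (Lv Ω) → ℕ → ((Ω → ℝ) → ℝ) → ((Ω → ℝ) → ℝ) → Ω → (Ω → ℝ) → ℝ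
  | _, 0, _, ψ, _, z => ψ z
  | [], _ + 1, _, ψ, _, z => ψ z
  | l :: L, j + 1, Φ, ψ, x, z =>
    tE l (X w L) (fun z => dnode w L j Φ ψ x z + l.m * (node w L j Φ z * P w L z x)) z -
      l.m * (node w (l :: L) (j + 1) Φ z * P w (l :: L) z x)

theorem Gr.node (h : Gr Φ Ψ) (hw : Wt w) : ∀ (L : List (Lv Ω)) (j : ℕ),
    Gr (node w L j Φ) fun x => dnode w L j Φ (Ψ x) x
  | [], 0 => h
  | _ :: _, 0 => h
  | [], _ + 1 => h
  | l :: L, j + 1 => (h.node hw L j).tE (gr_X hw L) (lg_X hw L) l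

/-- Gibbs–Jensen inequality along the whole cascade -/
theorem X_ge_node (hw : Wt w) (hw' : Wt w') (f : Ω → ℝ) : ∀ (L : List (Lv Ω)), (∀ l ∈ L, 0 ≤ l.m) →
    ∀ z, X w L z + node w L L.length (fun z => X w' [] (z + f) - X w [] z) z ≤ X w' L (z + f)
  | [], _, z => by simp
  | l :: L, h, z => by
    have h1 := step_ge (lg_X hw L) ((lg_X hw' L).shift f) (h l (by simp)) z
    have h2 := tE_mono (lg_X hw L) ((((lg_X hw' []).shift f).eg.sub (lg_X hw []).eg).node hw L L.length)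
      (((lg_X hw' L).shift f).eg.sub (lg_X hw L).eg)
      (fun z => by linarith [X_ge_node hw hw' f L (fun k hk => h k (by simp [hk])) z]) l z
    have e : step l (fun z => X w' L (z + f)) z = X w' (l :: L) (z + f) := by
      simp only [X, step, add_right_comm z f]
    rw [List.length_cons, node_cons, ← e]
    exact le_trans (add_le_add le_rfl h2) h1

theorem X_nil_add_ge (hw : Wt w) (z f : Ω → ℝ) :
    X w [] z + ∑ x, P w [] z x * f x ≤ X w [] (z + f) := by
  classical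
  have hz := (wt_exp hw z).pos
  set c := ∑ x, P w [] z x * f x with hc
  have h1 : ∑ x, P w [] z x * (exp c * (1 + (f x - c))) = exp c := by
    simp only [mul_left_comm _ (exp c), ← Finset.mul_sum, mul_add, mul_sub, Finset.sum_add_distrib,
      Finset.sum_sub_distrib, ← Finset.sum_mul, sum_P hw, ← hc]
    ring
  have h2 : exp c * ∑ x, w x * exp (z x) ≤ ∑ x, w x * exp ((z + f) x) := by
    rw [← h1, Finset.sum_mul]
    refine Finset.sum_le_sum fun x _ => ?_
    have := add_one_le_exp (f x - c)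
    have e : exp ((z + f) x) = exp (z x) * (exp c * exp (f x - c)) := by
      rw [← exp_add, ← exp_add]; congr 1; simp
    rw [e, P, prob, mul_right_comm, div_mul_cancel₀ _ hz.ne', mul_assoc]
    have := hw.nn x
    gcongr
    linarith
  have := log_le_log (by positivity) h2
  rw [log_mul (exp_pos _).ne' hz.ne', log_exp] at this
  simp only [X]
  linarith

/-- convexity: `X` lies above its tangent planes -/
theorem X_add_ge (hw : Wt w) (L : List (Lv Ω)) (hL : ∀ l ∈ L, 0 ≤ l.m) (z f : Ω → ℝ) :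
    X w L z + ∑ x, P w L z x * f x ≤ X w L (z + f) := by
  refine le_trans ?_ (X_ge_node hw hw f L hL z)
  rw [← node_sum_P hw f L L.length z, List.drop_length]
  exact add_le_add le_rfl (node_mono hw (Eg.sum _ fun x _ => (eg_P hw _ x).mul_const _)
    (((lg_X hw []).shift f).eg.sub (lg_X hw []).eg)
    (fun z => by linarith [X_nil_add_ge hw z f]) L _ z)

/-! ### two replicas -/

theorem qf_add (p : Ω → ℝ) (K K' : Ω → Ω → ℝ) :
    qf p (fun x y => K x y + K' x y) = qf p K + qf p K' := by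
  simp only [qf, mul_add, Finset.sum_add_distrib]

theorem qf_const_mul (p : Ω → ℝ) (K : Ω → Ω → ℝ) (c : ℝ) :
    qf p (fun x y => c * K x y) = c * qf p K := by
  simp only [qf, Finset.mul_sum, mul_left_comm _ c]

theorem qf_sub (p : Ω → ℝ) (K K' : Ω → Ω → ℝ) :
    qf p (fun x y => K x y - K' x y) = qf p K - qf p K' := by
  simp only [qf, mul_sub, Finset.sum_sub_distrib]

theorem qf_sum {κ : Type*} (s : Finset κ) (p : Ω → ℝ) (K : κ → Ω → Ω → ℝ) :
    qf p (fun x y => ∑ k ∈ s, K k x y) = ∑ k ∈ s, qf p (K k) := by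
  simp only [qf, Finset.mul_sum]
  exact (Finset.sum_congr rfl fun x _ => Finset.sum_comm).trans Finset.sum_comm

theorem qf_mul (p f g : Ω → ℝ) :
    qf p (fun x y => f x * g y) = (∑ x, p x * f x) * ∑ y, p y * g y := by
  simp only [qf, Finset.sum_mul_sum]
  exact Finset.sum_congr rfl fun x _ => Finset.sum_congr rfl fun y _ => by ring

theorem qf_swap (p : Ω → ℝ) (K : Ω → Ω → ℝ) : qf p (fun x y => K y x) = qf p K := by
  simp only [qf]
  exact Finset.sum_comm.trans (Finset.sum_congr rfl fun x _ => Finset.sum_congr rfl fun y _ => by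
    ring)

theorem qf_const {p : Ω → ℝ} (hp : ∑ x, p x = 1) (c : ℝ) : qf p (fun _ _ => c) = c := by
  simp only [qf, ← Finset.sum_mul, ← Finset.mul_sum, hp, one_mul]

theorem qf_mono {p : Ω → ℝ} (hp : ∀ x, 0 ≤ p x) {K K' : Ω → Ω → ℝ} (h : ∀ x y, K x y ≤ K' x y) :
    qf p K ≤ qf p K' :=
  Finset.sum_le_sum fun x _ => Finset.sum_le_sum fun y _ =>
    mul_le_mul_of_nonneg_left (h x y) (mul_nonneg (hp x) (hp y))

theorem qf_nonneg {p : Ω → ℝ} (hp : ∀ x, 0 ≤ p x) {K : Ω → Ω → ℝ} (h : ∀ x y, 0 ≤ K x y) :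
    0 ≤ qf p K :=
  Finset.sum_nonneg fun x _ => Finset.sum_nonneg fun y _ =>
    mul_nonneg (mul_nonneg (hp x) (hp y)) (h x y)

theorem qf_symm (p : Ω → ℝ) {K K' : Ω → Ω → ℝ} (h : ∀ x y, K x y + K y x = K' x y + K' y x) :
    qf p K = qf p K' := by
  have h1 := qf_add p K fun x y => K y x
  have h2 := qf_add p K' fun x y => K' y x
  rw [qf_swap p K] at h1
  rw [qf_swap p K'] at h2
  simp only [h] at h1
  linarith

theorem eg_qf (hw : Wt w) (L : List (Lv Ω)) (K : Ω → Ω → ℝ) : Eg fun z => qf (P w L z) K :=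
  Eg.sum _ fun x _ => Eg.sum _ fun y _ => ((eg_P hw L x).mul (eg_P hw L y)).mul_const _

theorem eg_pi2 (hw : Wt w) (L : List (Lv Ω)) (j : ℕ) (K : Ω → Ω → ℝ) : Eg (pi2 w L j K) :=
  (eg_qf hw _ K).node hw L j

theorem pi2_zero (w : Ω → ℝ) (L : List (Lv Ω)) (K : Ω → Ω → ℝ) (z : Ω → ℝ) :
    pi2 w L 0 K z = qf (P w L z) K := by simp [pi2]

theorem pi2_cons (w : Ω → ℝ) (l : Lv Ω) (L : List (Lv Ω)) (j : ℕ) (K : Ω → Ω → ℝ) (z : Ω → ℝ) :
    pi2 w (l :: L) (j + 1) K z = tE l (X w L) (pi2 w L j K) z := rfl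

theorem pi2_add (hw : Wt w) (L : List (Lv Ω)) (j : ℕ) (K K' : Ω → Ω → ℝ) (z : Ω → ℝ) :
    pi2 w L j (fun x y => K x y + K' x y) z = pi2 w L j K z + pi2 w L j K' z := by
  simp only [pi2, qf_add, node_add hw (eg_qf hw _ K) (eg_qf hw _ K')]

theorem pi2_sub (hw : Wt w) (L : List (Lv Ω)) (j : ℕ) (K K' : Ω → Ω → ℝ) (z : Ω → ℝ) :
    pi2 w L j (fun x y => K x y - K' x y) z = pi2 w L j K z - pi2 w L j K' z := by
  simp only [pi2, qf_sub, node_sub hw (eg_qf hw _ K) (eg_qf hw _ K')]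

theorem pi2_const_mul (w : Ω → ℝ) (L : List (Lv Ω)) (j : ℕ) (K : Ω → Ω → ℝ) (c : ℝ) (z : Ω → ℝ) :
    pi2 w L j (fun x y => c * K x y) z = c * pi2 w L j K z := by
  simp only [pi2, qf_const_mul, node_const_mul]

theorem pi2_sum (hw : Wt w) (L : List (Lv Ω)) (j : ℕ) {κ : Type*} (s : Finset κ)
    (K : κ → Ω → Ω → ℝ) (z : Ω → ℝ) :
    pi2 w L j (fun x y => ∑ k ∈ s, K k x y) z = ∑ k ∈ s, pi2 w L j (K k) z := by
  simp only [pi2, qf_sum, node_sum hw s fun k _ => eg_qf hw _ (K k)]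

theorem pi2_const (hw : Wt w) (L : List (Lv Ω)) (j : ℕ) (c : ℝ) (z : Ω → ℝ) :
    pi2 w L j (fun _ _ => c) z = c := by
  simp only [pi2, qf_const (sum_P hw _ _), node_const hw]

theorem pi2_mono (hw : Wt w) (L : List (Lv Ω)) (j : ℕ) {K K' : Ω → Ω → ℝ}
    (h : ∀ x y, K x y ≤ K' x y) (z : Ω → ℝ) : pi2 w L j K z ≤ pi2 w L j K' z :=
  node_mono hw (eg_qf hw _ K) (eg_qf hw _ K') (fun z => qf_mono (P_nonneg hw _ z) h) L j z

theorem pi2_nonneg (hw : Wt w) (L : List (Lv Ω)) (j : ℕ) {K : Ω → Ω → ℝ} (h : ∀ x y, 0 ≤ K x y)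
    (z : Ω → ℝ) : 0 ≤ pi2 w L j K z :=
  node_nonneg w (fun z => qf_nonneg (P_nonneg hw _ z) h) L j z

theorem pi2_symm (w : Ω → ℝ) (L : List (Lv Ω)) (j : ℕ) {K K' : Ω → Ω → ℝ}
    (h : ∀ x y, K x y + K y x = K' x y + K' y x) (z : Ω → ℝ) : pi2 w L j K z = pi2 w L j K' z := by
  simp only [pi2, qf_symm _ h]

theorem pi2_sq_nonneg (w : Ω → ℝ) (L : List (Lv Ω)) (j : ℕ) (f z : Ω → ℝ) :
    0 ≤ pi2 w L j (fun x y => f x * f y) z :=
  node_nonneg w (fun z => by rw [qf_mul]; exact mul_self_nonneg _) L j z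

/-- the weight of the branching level `j` -/
def dm (L : List (Lv Ω)) (m0 : ℝ) (j : ℕ) : ℝ := ex L j - exP L m0 j

omit [Fintype Ω] in
theorem ex_cons_succ (l : Lv Ω) (L : List (Lv Ω)) (j : ℕ) : ex (l :: L) (j + 1) = ex L j := rfl

omit [Fintype Ω] in
theorem dm_cons_succ (l : Lv Ω) (L : List (Lv Ω)) (m0 : ℝ) (j : ℕ) :
    dm (l :: L) m0 (j + 1) = dm L l.m j := by cases j <;> rfl

omit [Fintype Ω] in
theorem dm_nonneg : ∀ {L : List (Lv Ω)} {m0 : ℝ}, Mono m0 L → ∀ j, 0 ≤ dm L m0 j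
  | [], _, h, 0 => sub_nonneg.2 h
  | [], _, _, _ + 1 => (sub_self (1 : ℝ)).ge
  | _ :: _, _, h, 0 => sub_nonneg.2 h.1
  | l :: L, m0, h, j + 1 => by rw [dm_cons_succ]; exact dm_nonneg h.2 j

omit [Fintype Ω] in
theorem sum_dm (L : List (Lv Ω)) (m0 : ℝ) (k : ℕ) :
    ∑ j ∈ Finset.range (k + 1), dm L m0 j = ex L k - m0 := by
  induction k with
  | zero => simp [dm, exP]
  | succ k ih => rw [Finset.sum_range_succ, ih]; simp [dm, exP]

omit [Fintype Ω] in
theorem ex_length (L : List (Lv Ω)) : ex L L.length = 1 := by simp [ex]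

omit [Fintype Ω] in
theorem Mono.nn : ∀ {L : List (Lv Ω)} {m0 : ℝ}, Mono m0 L → 0 ≤ m0 → ∀ l ∈ L, 0 ≤ l.m
  | [], _, _, _ => by simp
  | l :: L, m0, h, h0 => by
    simp only [List.mem_cons, forall_eq_or_imp]
    exact ⟨h0.trans h.1, h.2.nn (h0.trans h.1)⟩

theorem pair_eq_sum (hw : Wt w) : ∀ (L : List (Lv Ω)) (m0 : ℝ) (K : ℕ → Ω → Ω → ℝ) (z : Ω → ℝ),
    pair w L m0 K z = ∑ j ∈ Finset.range (L.length + 1), dm L m0 j * pi2 w L j (K j) z
  | [], m0, K, z => by simp [pair, dm, ex, exP, pi2_zero]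
  | l :: L, m0, K, z => by
    have e : pair w L l.m (fun j => K (j + 1)) = fun z =>
        ∑ j ∈ Finset.range (L.length + 1), dm L l.m j * pi2 w L j (K (j + 1)) z :=
      funext (pair_eq_sum hw L l.m _)
    rw [pair, e, tE_sum (lg_X hw L) _ fun j _ => (eg_pi2 hw L j _).const_mul _, List.length_cons,
      Finset.sum_range_succ' _ (L.length + 1), add_comm, pi2_zero]
    simp only [tE_const_mul, dm_cons_succ, pi2_cons]
    rfl

theorem eg_pair (hw : Wt w) (L : List (Lv Ω)) (m0 : ℝ) (K : ℕ → Ω → Ω → ℝ) : Eg (pair w L m0 K) := by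
  rw [show pair w L m0 K = _ from funext (pair_eq_sum hw L m0 K)]
  exact Eg.sum _ fun j _ => (eg_pi2 hw L j _).const_mul _

theorem pair_add (hw : Wt w) (L : List (Lv Ω)) (m0 : ℝ) (K K' : ℕ → Ω → Ω → ℝ) (z : Ω → ℝ) :
    pair w L m0 (fun j x y => K j x y + K' j x y) z = pair w L m0 K z + pair w L m0 K' z := by
  simp only [pair_eq_sum hw, pi2_add hw, mul_add, Finset.sum_add_distrib]

theorem pair_const (hw : Wt w) (L : List (Lv Ω)) (m0 : ℝ) (c : ℕ → ℝ) (z : Ω → ℝ) :
    pair w L m0 (fun j _ _ => c j) z = ∑ j ∈ Finset.range (L.length + 1), dm L m0 j * c j := by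
  simp only [pair_eq_sum hw, pi2_const hw]

theorem pair_mono (hw : Wt w) {L : List (Lv Ω)} {m0 : ℝ} (hL : Mono m0 L) {K K' : ℕ → Ω → Ω → ℝ}
    (h : ∀ j ≤ L.length, ∀ x y, K j x y ≤ K' j x y) (z : Ω → ℝ) :
    pair w L m0 K z ≤ pair w L m0 K' z := by
  simp only [pair_eq_sum hw]
  exact Finset.sum_le_sum fun j hj => mul_le_mul_of_nonneg_left
    (pi2_mono hw L j (h j (by simpa [Nat.lt_succ_iff] using hj)) z) (dm_nonneg hL j)


/-- the Hessian in terms of two replicas -/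
theorem sum_Hs (hw : Wt w) (K : Ω → Ω → ℝ) : ∀ (L : List (Lv Ω)) (m0 : ℝ) (z : Ω → ℝ),
    ∑ x, ∑ y, K x y * (Hs w L z x y + m0 * (P w L z x * P w L z y)) =
      ∑ x, P w L z x * K x x - pair w L m0 (fun _ => K) z
  | [], m0, z => by
    simp only [Hs, pair, qf, Finset.mul_sum, ← Finset.sum_sub_distrib]
    refine Finset.sum_congr rfl fun x _ => ?_
    simp only [mul_add, mul_sub, mul_ite, mul_zero, Finset.sum_add_distrib, Finset.sum_sub_distrib]
    rw [Finset.sum_eq_single x (fun y _ hy => if_neg hy.symm) (by simp), if_pos rfl,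
      mul_comm (K x x), sub_add, ← Finset.sum_sub_distrib]
    congr 1
    exact Finset.sum_congr rfl fun y _ => by ring
  | l :: L, m0, z => by
    have hX := lg_X hw L
    have e0 : ∀ x y, Eg fun z => K x y * (Hs w L z x y + l.m * (P w L z x * P w L z y)) :=
      fun x y => ((eg_Hs hw L x y).add (((eg_P hw L x).mul (eg_P hw L y)).const_mul _)).const_mul _
    have e1 : ∑ x, ∑ y, K x y * tE l (X w L)
        (fun z => Hs w L z x y + l.m * (P w L z x * P w L z y)) z =
        ∑ x, P w (l :: L) z x * K x x - tE l (X w L) (pair w L l.m fun _ => K) z := by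
      simp only [← tE_const_mul]
      simp only [← tE_sum hX _ fun y _ => e0 _ y]
      rw [← tE_sum hX _ fun x _ => Eg.sum _ fun y _ => e0 x y]
      simp only [sum_Hs hw K L l.m]
      rw [tE_sub hX (Eg.sum _ fun x _ => (eg_P hw L x).mul_const _) (eg_pair hw L _ _),
        tE_sum hX _ fun x _ => (eg_P hw L x).mul_const _]
      simp only [tE_mul_const]
      rfl
    rw [pair, ← sub_sub, sub_right_comm, ← e1, qf]
    simp only [Hs, Finset.mul_sum, ← Finset.sum_sub_distrib]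
    exact Finset.sum_congr rfl fun x _ => Finset.sum_congr rfl fun y _ => by ring

/-- second order upper bound for tilts -/
theorem X_add_le_sq (hw : Wt w) {L : List (Lv Ω)} (hL : Mono 0 L) (z : Ω → ℝ) {f : Ω → ℝ} {M : ℝ}
    (hf : ∀ x, w x ≠ 0 → f x ^ 2 ≤ M) : X w L (z + f) ≤ X w L z + ∑ x, P w L z x * f x + M := by
  obtain ⟨s, hs, e⟩ := (gr_X hw L).exists_sub z f
  obtain ⟨r, -, e'⟩ := (Gr.sum Finset.univ fun x _ => (gr_P hw L x).const_mul (f x)).exists_sub z
    (s • f)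
  have h1 := sum_Hs hw (fun x y => f x * f y) L 0 (z + r • s • f)
  have h2 : 0 ≤ pair w L 0 (fun _ x y => f x * f y) (z + r • s • f) := by
    rw [pair_eq_sum hw]
    exact Finset.sum_nonneg fun j _ => mul_nonneg (dm_nonneg hL j) (pi2_sq_nonneg w L j f _)
  have h3 := sum_P_le hw L (z + r • s • f) (f := fun x => f x * f x) (c := M)
    fun x hx => by simpa [sq] using hf x hx
  have h4 : ∑ y, (∑ x, f x * Hs w L (z + r • s • f) x y) * (s • f) y =
      s * ∑ x, ∑ y, f x * f y * (Hs w L (z + r • s • f) x y +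
        0 * (P w L (z + r • s • f) x * P w L (z + r • s • f) y)) := by
    simp only [Finset.sum_mul, Finset.mul_sum, Pi.smul_apply, smul_eq_mul]
    exact Finset.sum_comm.trans (Finset.sum_congr rfl fun x _ => Finset.sum_congr rfl fun y _ => by
      ring)
  have hM : 0 ≤ M := le_trans (Finset.sum_nonneg fun x _ =>
    mul_nonneg (P_nonneg hw L _ x) (mul_self_nonneg _)) h3
  rw [h4, h1] at e'
  simp only [mul_comm (f _) (P w L _ _)] at e'
  nlinarith [hs.1, hs.2]

/-! ### the interpolation formula -/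

omit [Fintype Ω] in
theorem Sacc_zero (L : List (TL Ω)) (t : ℝ) : Sacc L t 0 = fun _ _ => 0 := by
  ext x y; simp [Sacc]

omit [Fintype Ω] in
theorem Sacc_cons (l : TL Ω) (L : List (TL Ω)) (t : ℝ) (j : ℕ) :
    Sacc (l :: L) t (j + 1) = fun x y => l.S t x y + Sacc L t j x y := by
  ext x y; simp [Sacc]

open Classical in
theorem D0_eq (hw : Wt w) {t : ℝ} (ht : t ∈ I) (hI : IsOpen I) : ∀ (L : List (TL Ω)),
    (∀ l ∈ L, l.OkD I) → ∀ (m0 : ℝ) (z : Ω → ℝ), D0 w L (t, z) =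
      ∑ x, P w (atL L t) z x * Sacc L t L.length x x - pair w (atL L t) m0 (Sacc L t) z
  | [], _, m0, z => by simp [D0, Sacc_zero, atL, pair, qf]
  | l :: L, h, m0, z => by
    have hL := fun k hk => h k (List.mem_cons_of_mem l hk)
    have hX := lg_X hw (atL L t)
    have ih := D0_eq hw ht hI L hL l.m
    have e1 : Eg fun z => D0 w L (t, z) := eg_of_EG (sm_XP hI hw hL).ega ht
    have e2 : ∀ x i, Integrable (fun g : l.ι → ℝ => g i * (exp (l.m * X w (atL L t)
        (z + (l.at t).fld g)) * P w (atL L t) (z + (l.at t).fld g) x)) (gv l.ι) := fun x i =>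
      eg_int_g (I := I) (H := fun q => q.2 (.inr i) * (exp (l.m * XP w L (sh l q)) * PP w L x (sh l q)))
        ((EG.coord _).mul ((h l (by simp)).toOkC.eg_sh
          (((lg_XP hw fun k hk => (hL k hk).toOkC).exp l.m).mul
            (eg_PP hw (fun k hk => (hL k hk).toOkC) x)))) (p := (t, z)) ht
    have e3 : D0 w (l :: L) (t, z) = tE (l.at t) (X w (atL L t)) (fun z => D0 w L (t, z)) z +
        ∑ x, ∑ i, l.A' t x i * ((∫ g, g i * (exp (l.m * X w (atL L t) (z + (l.at t).fld g)) *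
          P w (atL L t) (z + (l.at t).fld g) x) ∂gv l.ι) /
          ∫ g, exp (l.m * X w (atL L t) (z + (l.at t).fld g)) ∂gv l.ι) := by
      simp only [← mul_div_assoc, ← Finset.sum_div, ← integral_const_mul]
      simp only [← integral_finsetSum _ fun i _ => (e2 _ i).const_mul _]
      rw [← integral_finsetSum _ fun x _ => integrable_finsetSum _ fun i _ => (e2 x i).const_mul _,
        tE, ← add_div, ← integral_add (hX.int e1 (l.at t) z)
          (integrable_finsetSum _ fun x _ => integrable_finsetSum _ fun i _ => (e2 x i).const_mul _)]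
      simp only [D0, tG, iL]
      congr 2
      ext g
      simp only [mul_add, Finset.mul_sum, dfl]
      congr 1
      exact Finset.sum_congr rfl fun x _ => Finset.sum_congr rfl fun i _ => by
        rw [sh_jn]; simp only [XP, PP, jn, Sum.elim_inr]; ring
    have e4 := fun x i => stein_tE (gr_P hw (atL L t) x) (gr_X hw (atL L t)) hX (l.at t) z i
    have e0 : ∀ x y, Eg fun z => l.S t x y *
        (Hs w (atL L t) z x y + l.m * (P w (atL L t) z x * P w (atL L t) z y)) := fun x y =>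
      ((eg_Hs hw _ x y).add (((eg_P hw _ x).mul (eg_P hw _ y)).const_mul _)).const_mul _
    have e5 : ∑ x, ∑ i, l.A' t x i * ∑ y, l.A t y i * tE (l.at t) (X w (atL L t))
        (fun z => Hs w (atL L t) z x y + l.m * (P w (atL L t) z x * P w (atL L t) z y)) z =
        tE (l.at t) (X w (atL L t)) (fun z => ∑ x, P w (atL L t) z x * l.S t x x -
          pair w (atL L t) l.m (fun _ => l.S t) z) z := by
      simp only [← sum_Hs hw (l.S t) (atL L t) l.m]
      rw [tE_sum hX _ fun x _ => Eg.sum _ fun y _ => e0 x y]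
      refine Finset.sum_congr rfl fun x _ => ?_
      rw [tE_sum hX _ fun y _ => e0 x y]
      simp only [tE_const_mul]
      simp only [TL.S, Finset.mul_sum, Finset.sum_mul]
      exact Finset.sum_comm.trans (Finset.sum_congr rfl fun y _ => Finset.sum_congr rfl fun i _ =>
        by ring)
    have g1 := fun K : Ω → Ω → ℝ =>
      Eg.sum Finset.univ fun x _ => (eg_P hw (atL L t) x).mul_const (K x x)
    rw [e3]
    simp only [e4, ih]
    rw [e5, tE_sub hX (g1 _) (eg_pair hw _ _ _), tE_sub hX (g1 _) (eg_pair hw _ _ _),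
      tE_sum hX _ fun x _ => (eg_P hw _ x).mul_const _,
      tE_sum hX _ fun x _ => (eg_P hw _ x).mul_const _]
    have e6 : pair w (atL L t) l.m (fun j => Sacc (l :: L) t (j + 1)) = fun z =>
        pair w (atL L t) l.m (fun _ => l.S t) z + pair w (atL L t) l.m (Sacc L t) z := by
      ext z; simp only [Sacc_cons, pair_add hw]
    have e7 : pair w (atL (l :: L) t) m0 (Sacc (l :: L) t) z = tE (l.at t) (X w (atL L t))
        (pair w (atL L t) l.m fun j => Sacc (l :: L) t (j + 1)) z := by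
      simp [atL, pair, Sacc_zero, qf]
    rw [e7, e6, tE_add hX (eg_pair hw _ _ _) (eg_pair hw _ _ _), List.length_cons, Sacc_cons]
    simp only [tE_mul_const, mul_add, Finset.sum_add_distrib]
    change _ = ∑ x, tE (l.at t) (X w (atL L t)) (fun z => P w (atL L t) z x) z * _ +
      ∑ x, tE (l.at t) (X w (atL L t)) (fun z => P w (atL L t) z x) z * _ - _
    ring

/-- continuously differentiable on `I` (no bounds) -/
structure TL.C1 (l : TL Ω) (I : Set ℝ) : Prop where
  der : ∀ t ∈ I, ∀ x i, HasDerivAt (fun t => l.A t x i) (l.A' t x i) t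
  cont' : ∀ x i, ContinuousOn (fun t => l.A' t x i) I

theorem bd_of_compact {ι : Type*} [Fintype ι] {K : Set ℝ} (hK : IsCompact K) {A : ℝ → Ω → ι → ℝ}
    (h : ∀ x i, ContinuousOn (fun t => A t x i) K) : ∃ B, ∀ t ∈ K, ∀ x i, |A t x i| ≤ B := by
  obtain ⟨B, hB⟩ := hK.exists_bound_of_continuousOn (f := A)
    (continuousOn_pi.2 fun x => continuousOn_pi.2 (h x))
  exact ⟨B, fun t ht x i => (norm_le_pi_norm (A t x) i).trans
    ((norm_le_pi_norm (A t) x).trans (hB t ht))⟩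

theorem TL.okC_of_compact {l : TL Ω} {K : Set ℝ} (hK : IsCompact K)
    (h : ∀ x i, ContinuousOn (fun t => l.A t x i) K) : l.OkC K := ⟨h, bd_of_compact hK h⟩

theorem TL.C1.okD {l : TL Ω} (h : l.C1 I) {a b : ℝ} (hab : Icc a b ⊆ I) : l.OkD (Ioo a b) := by
  have hc : ∀ x i, ContinuousOn (fun t => l.A t x i) (Icc a b) := fun x i t ht =>
    (h.der t (hab ht) x i).continuousAt.continuousWithinAt
  obtain ⟨B, hB⟩ := bd_of_compact isCompact_Icc hc
  obtain ⟨B', hB'⟩ := bd_of_compact isCompact_Icc fun x i => (h.cont' x i).mono hab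
  exact ⟨⟨fun x i => (hc x i).mono Ioo_subset_Icc_self, B, fun t ht => hB t (Ioo_subset_Icc_self ht)⟩,
    fun t ht => h.der t (hab (Ioo_subset_Icc_self ht)),
    fun x i => (h.cont' x i).mono (Ioo_subset_Icc_self.trans hab),
    B', fun t ht => hB' t (Ioo_subset_Icc_self ht)⟩

/-- the derivative of the interpolated cascade -/
def DX (w : Ω → ℝ) (L : List (TL Ω)) (t : ℝ) (z z' : Ω → ℝ) : ℝ :=
  ∑ x, P w (atL L t) z x * (z' x + Sacc L t L.length x x) - pair w (atL L t) 0 (Sacc L t) z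

open Classical in
/-- **the interpolation formula** -/
theorem hasDerivAt_X (hw : Wt w) (hI : IsOpen I) {L : List (TL Ω)} (hL : ∀ l ∈ L, l.C1 I) {t : ℝ}
    (ht : t ∈ I) {b : ℝ → Ω → ℝ} {b' : Ω → ℝ} (hb : ∀ x, HasDerivAt (fun t => b t x) (b' x) t) :
    HasDerivAt (fun t => X w (atL L t) (b t)) (DX w L t (b t) b') t := by
  obtain ⟨a, c, hac, hs⟩ := exists_Icc_mem_subset_of_mem_nhds (hI.mem_nhds ht)
  have ht' : t ∈ Ioo a c := by
    have := mem_interior_iff_mem_nhds.2 hs.1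
    rwa [interior_Icc] at this
  have hD := fun l hl => (hL l hl).okD hs.2
  have h1 := ((sm_XP isOpen_Ioo hw hD).fd (t, b t) ht').comp_hasDerivAt t
    ((hasDerivAt_id t).prodMk (hasDerivAt_pi.2 hb))
  refine h1.congr_deriv ?_
  rw [D2_apply, D0_eq hw ht' isOpen_Ioo L hD 0, DX]
  simp only [PP, mul_add, Finset.sum_add_distrib]
  ring

open Classical in
theorem continuousOn_X (hw : Wt w) {L : List (TL Ω)} (hL : ∀ l ∈ L, l.OkC I) {b : ℝ → Ω → ℝ}
    (hb : ∀ x, ContinuousOn (fun t => b t x) I) :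
    ContinuousOn (fun t => X w (atL L t) (b t)) I :=
  (lg_XP hw hL).cont.comp (continuousOn_id.prodMk (continuousOn_pi.2 hb)) fun _ ht => ⟨ht, trivial⟩

/-- **the interpolation formula**, mean value form -/
theorem exists_X_sub (hw : Wt w) {L : List (TL Ω)} {a c : ℝ} (hac : a < c)
    (hC : ∀ l ∈ L, ∀ x i, ContinuousOn (fun t => l.A t x i) (Icc a c))
    (hD : ∀ l ∈ L, l.C1 (Ioo a c)) {b b' : ℝ → Ω → ℝ}
    (hb : ∀ x, ContinuousOn (fun t => b t x) (Icc a c))
    (hb' : ∀ t ∈ Ioo a c, ∀ x, HasDerivAt (fun t => b t x) (b' t x) t) :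
    ∃ t ∈ Ioo a c, X w (atL L c) (b c) - X w (atL L a) (b a) = (c - a) * DX w L t (b t) (b' t) := by
  obtain ⟨t, ht, e⟩ := exists_hasDerivAt_eq_slope (fun t => X w (atL L t) (b t))
    (fun t => DX w L t (b t) (b' t)) hac
    (continuousOn_X hw (fun l hl => TL.okC_of_compact isCompact_Icc (hC l hl)) hb)
    fun t ht => hasDerivAt_X hw isOpen_Ioo hD ht (hb' t ht)
  exact ⟨t, ht, by rw [e, mul_div_cancel₀ _ (sub_pos.2 hac).ne']⟩

end Crest.Agent.T157.Casc

end
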