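import Crest.Agent.T157.CascP_52
import Crest.Agent.T157.Sc1_68

/-!
# Row 157: cascades with rank-one site features are one-dimensional recursions (helper52)
-/

set_option autoImplicit false
set_option linter.unusedSectionVars false

noncomputable section

namespace Crest.Agent.T157.Casc.C

open MeasureTheory ProbabilityTheory Real
open Crest.Agent.T157.E Crest.Agent.T157.Casc Crest.Agent.T157.SL
open Crest.Agent.R339.B
open Crest.ProbabilityR.InvariantGlass (gaussOp)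
open Crest.ProbabilityR.SpinGlassDynamics (spin)

section site
variable {S : Type*} [Fintype S]

/-- the level `l` has exponent `p.1` and covariance `p.2 τ τᵀ` -/
def Rk1 (τ : S → ℝ) (l : Lv S) (p : ℝ × ℝ) : Prop :=
  l.m = p.1 ∧ 0 ≤ p.2 ∧ ∀ a b, l.cov a b = p.2 * (τ a * τ b)

/-- the model rank-one level -/
abbrev sl (τ : S → ℝ) (p : ℝ × ℝ) : Lv S := ⟨Unit, fun a _ => √p.2 * τ a, p.1⟩

lemma rk1_sl (τ : S → ℝ) {p : ℝ × ℝ} (hp : 0 ≤ p.2) : Rk1 τ (sl τ p) p :=
  ⟨rfl, hp, fun a b => by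
    simp only [Lv.cov, Finset.univ_unique, Finset.sum_singleton]
    rw [mul_mul_mul_comm, mul_self_sqrt hp]⟩

lemma forall₂_sl (τ : S → ℝ) : ∀ {ℓ : List (ℝ × ℝ)}, (∀ p ∈ ℓ, 0 ≤ p.2) →
    List.Forall₂ (Rk1 τ) (ℓ.map (sl τ)) ℓ
  | [], _ => .nil
  | _ :: _, h => .cons (rk1_sl τ (h _ List.mem_cons_self))
      (forall₂_sl τ fun q hq => h q (List.mem_cons_of_mem _ hq))

lemma int_unit (f : ℝ → ℝ) : ∫ g : Unit → ℝ, f (g ()) ∂gv Unit = ∫ x, f x ∂gaussianReal 0 1 :=
  (measurePreserving_funUnique (gaussianReal 0 1) Unit).integral_comp' f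

lemma Rk1.int {τ : S → ℝ} {l : Lv S} {p : ℝ × ℝ} (H : Rk1 τ l p) (h : S → ℝ) (x : ℝ)
    {G : (S → ℝ) → ℝ} (hG : Measurable G) :
    ∫ g, G (h + x • τ + l.fld g) ∂gv l.ι =
      ∫ y, G (h + (x + √p.2 * y) • τ) ∂gaussianReal 0 1 := by
  have e : l.cov = (sl τ p).cov := by
    funext a b; rw [H.2.2, (rk1_sl τ H.2.1).2.2]
  rw [int_fld_eq e (G := fun f => G (h + x • τ + f)) (hG.comp (measurable_const_add _)),
    ← int_unit fun y => G (h + (x + √p.2 * y) • τ)]
  refine integral_congr_ae (Filter.Eventually.of_forall fun g => ?_)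
  show G _ = G _
  congr 1
  funext a
  simp only [Lv.fld, Finset.univ_unique, Finset.sum_singleton, Pi.add_apply, Pi.smul_apply,
    smul_eq_mul]
  ring

lemma Rk1.step {τ : S → ℝ} {l : Lv S} {p : ℝ × ℝ} (H : Rk1 τ l p) (h : S → ℝ) (x : ℝ)
    {F : (S → ℝ) → ℝ} (hF : Measurable F) :
    step l F (h + x • τ) = gaussOp p.1 p.2 (fun x => F (h + x • τ)) x := by
  rw [Casc.step, gaussOp, H.1, H.int h x hF,
    H.int h x (G := fun h => exp (p.1 * F h)) (hF.const_mul _).exp]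

lemma Rk1.tE {τ : S → ℝ} {l : Lv S} {p : ℝ × ℝ} (H : Rk1 τ l p) (h : S → ℝ) (x : ℝ)
    {F Φ : (S → ℝ) → ℝ} (hF : Measurable F) (hΦ : Measurable Φ) :
    tE l F Φ (h + x • τ) =
      R164.GC.tE p.1 p.2 (fun x => F (h + x • τ)) (fun x => Φ (h + x • τ)) x := by
  rw [Casc.tE, R164.GC.tE, H.1, H.int h x (G := fun h => exp (p.1 * F h)) (hF.const_mul _).exp,
    H.int h x (G := fun h => exp (p.1 * F h) * Φ h) ((hF.const_mul _).exp.mul hΦ)]
  simp only [R164.GC.H, mul_comm (exp _)]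

variable {w τ : S → ℝ} {L : List (Lv S)} {ℓ : List (ℝ × ℝ)}

/-- **the cascade is the one-dimensional recursion** -/
theorem X_rk1 (hw : Wt w) (H : List.Forall₂ (Rk1 τ) L ℓ) (M : List (Lv S)) (h : S → ℝ) (x : ℝ) :
    X w (L ++ M) (h + x • τ) = Sc.Rec ℓ (fun x => X w M (h + x • τ)) x := by
  induction H generalizing x with
  | nil => rfl
  | cons h1 _ ih =>
    rw [List.cons_append, X_cons, h1.step h x (lp_X hw _).meas, Sc.Rec, funext ih]

/-- **nodes are the tilted one-dimensional expectations** -/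
theorem node_rk1 (hw : Wt w) (H : List.Forall₂ (Rk1 τ) L ℓ) (M : List (Lv S)) (h : S → ℝ)
    {Φ : (S → ℝ) → ℝ} (hΦ : Measurable Φ) (x : ℝ) :
    node w (L ++ M) L.length Φ (h + x • τ) =
      Sc.EL ℓ (fun x => X w M (h + x • τ)) (fun x => Φ (h + x • τ)) x := by
  induction H generalizing x with
  | nil => simp [Sc.EL]
  | cons h1 h2 ih =>
    rw [List.cons_append, List.length_cons, node_cons,
      h1.tE h x (lp_X hw _).meas (meas_node hw _ _ hΦ), Sc.EL, funext ih,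
      funext (X_rk1 hw h2 M h)]

/-- nodes at an intermediate depth -/
theorem node_rk1' (hw : Wt w) (H : List.Forall₂ (Rk1 τ) L ℓ) {j : ℕ} (hj : j ≤ ℓ.length)
    (h : S → ℝ) {Φ : (S → ℝ) → ℝ} (hΦ : Measurable Φ) (x : ℝ) :
    node w L j Φ (h + x • τ) = Sc.EL (ℓ.take j)
      (Sc.Rec (ℓ.drop j) fun x => X w [] (h + x • τ)) (fun x => Φ (h + x • τ)) x := by
  have h1 := node_rk1 hw (List.forall₂_take j H) (L.drop j) h hΦ x
  have h2 := fun x => X_rk1 hw (List.forall₂_drop j H) [] h x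
  rw [List.take_append_drop, List.length_take, min_eq_left (H.length_eq ▸ hj)] at h1
  simp only [List.append_nil] at h2
  rw [h1, funext h2]

end site

/-! ### Ising spins -/

lemma wt_one {S : Type*} [Fintype S] [Nonempty S] : Wt fun _ : S => (1 : ℝ) :=
  ⟨fun _ => zero_le_one, by simpa using Fintype.card_pos⟩

lemma X_nil_spin (x : ℝ) : X (fun _ => 1) [] (0 + x • spin) = phi0 1 x := by
  simp only [X, phi0, Fintype.sum_bool, Pi.add_apply, Pi.zero_apply, Pi.smul_apply, spin,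
    cosh_eq]
  norm_num
  ring_nf

/-- one site -/
theorem X_spin {L : List (Lv Bool)} {ℓ : List (ℝ × ℝ)} (H : List.Forall₂ (Rk1 spin) L ℓ) (x : ℝ) :
    X (fun _ => 1) L (x • spin) = PhiL 1 ℓ x := by
  have := X_rk1 wt_one H [] 0 x
  rw [List.append_nil, funext X_nil_spin, Sc.rec_phi0, zero_add] at this
  exact this

theorem node_spin {L : List (Lv Bool)} {ℓ : List (ℝ × ℝ)} (H : List.Forall₂ (Rk1 spin) L ℓ)
    {j : ℕ} (hj : j ≤ ℓ.length) {Φ : (Bool → ℝ) → ℝ} (hΦ : Measurable Φ) (x : ℝ) :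
    node (fun _ => 1) L j Φ (x • spin) =
      Sc.EL (ℓ.take j) (PhiL 1 (ℓ.drop j)) (fun x => Φ (x • spin)) x := by
  have := node_rk1' wt_one H hj 0 hΦ x
  rw [funext X_nil_spin, Sc.rec_phi0] at this
  simpa only [zero_add] using this

variable {n : ℕ}

/-- a level of independent external fields on the cube -/
def Fld (l : Lv (Cube n)) (p : ℝ × ℝ) : Prop :=
  l.m = p.1 ∧ 0 ≤ p.2 ∧ ∀ x y, l.cov x y = p.2 * (sv x ⬝ᵥ sv y)

lemma same_of_fld {L : List (Lv (Cube n))} {ℓ : List (ℝ × ℝ)} (H : List.Forall₂ Fld L ℓ) :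
    List.Forall₂ Same L ((ℓ.map (sl spin)).map (prodLv (Fin n))) := by
  induction H with
  | nil => exact .nil
  | cons h1 _ ih =>
    refine .cons ⟨h1.1, ?_⟩ ih
    funext x y
    rw [h1.2.2, prodLv_cov, dotProduct, Finset.mul_sum]
    exact Finset.sum_congr rfl fun i _ => ((rk1_sl spin h1.2.1).2.2 _ _).symm

lemma nn_of_fld {L : List (Lv (Cube n))} {ℓ : List (ℝ × ℝ)} (H : List.Forall₂ Fld L ℓ) :
    ∀ p ∈ ℓ, 0 ≤ p.2 := by
  induction H with
  | nil => simp
  | cons h1 _ ih => simpa using ⟨h1.2.1, fun a b h => ih (a, b) h⟩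

lemma pe_spin (y : Fin n → ℝ) : pe (fun i => y i • spin) = fun x : Cube n => y ⬝ᵥ sv x := rfl

lemma pw_one : pw (fun (_ : Fin n) (_ : Bool) => (1 : ℝ)) = fun _ => 1 := by
  funext x; simp [pw]

/-- **decoupling on the cube** -/
theorem X_cube {L : List (Lv (Cube n))} {ℓ : List (ℝ × ℝ)} (H : List.Forall₂ Fld L ℓ)
    (y : Fin n → ℝ) : X (fun _ => 1) L (fun x => y ⬝ᵥ sv x) = ∑ i, PhiL 1 ℓ (y i) := by
  rw [X_same wt_one (same_of_fld H), ← pe_spin, ← pw_one, X_prod fun _ => wt_one]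
  exact Finset.sum_congr rfl fun i _ => X_spin (forall₂_sl spin (nn_of_fld H)) _

theorem X_cube_zero {L : List (Lv (Cube n))} {ℓ : List (ℝ × ℝ)} (H : List.Forall₂ Fld L ℓ) :
    X (fun _ => 1) L 0 = n * PhiL 1 ℓ 0 := by
  have := X_cube H 0
  simp only [zero_dotProduct, Pi.zero_apply, Finset.sum_const, Finset.card_univ, Fintype.card_fin,
    nsmul_eq_mul] at this
  exact this

lemma fld_map (s : ℝ) : ∀ {ℓ : List (ℝ × ℝ)}, (∀ p ∈ ℓ, 0 ≤ p.2) →
    List.Forall₂ Fld (ℓ.map fun p => (⟨Fin n, fun x i => s * √p.2 * sv x i, p.1⟩ : Lv (Cube n)))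
      (ℓ.map fun p => (p.1, s ^ 2 * p.2))
  | [], _ => .nil
  | p :: _, h => by
    have hp := h p List.mem_cons_self
    refine .cons ⟨rfl, by positivity, fun x y => ?_⟩
      (fld_map s fun q hq => h q (List.mem_cons_of_mem _ hq))
    simp only [Lv.cov, dotProduct, Finset.mul_sum]
    refine Finset.sum_congr rfl fun i _ => ?_
    have := mul_self_sqrt hp
    linear_combination (s ^ 2 * sv x i * sv y i) * this



end Crest.Agent.T157.Casc.C

end
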