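import Crest.Agent.T157.PfB_56
import Crest.Agent.T157.St0_44

/-!
Row 157 (helper56): the grid list, calculus in the time `s`, and the instance of `St.Site`.
-/

set_option autoImplicit false

namespace Crest.Agent.T157.Pf

open MeasureTheory ProbabilityTheory Filter Topology Set
open Crest.Agent.R164.GC Crest.Agent.R339.B Crest.Agent.R339.Var
open Crest.ProbabilityR.InvariantGlass (gaussOp)

noncomputable section

/-! ### tools -/

theorem TB_dv {Φ : ℝ → ℝ} {m : ℝ} {F LF Fx : ℝ → ℝ → ℝ} (h : TB Φ m F LF Fx) {v : ℝ} (hv : 0 < v)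
    (x : ℝ) : HasDerivAt (fun s => F s x)
      (1 / 2 * deriv (Fx v) x + Dk Φ m 1 v x * Fx v x - LF v x) v := by
  obtain ⟨Fv, Fxx, a1, _, a3, _, _, _, _, a8⟩ := h
  refine (a1 v x hv).congr_deriv ?_
  rw [a8, (a3 v x).deriv]
  ring

theorem D1_U {Φ : ℝ → ℝ} (h : Prof Φ) {m : ℝ} (hm : m ≠ 0) (v x : ℝ) :
    Dk Φ m 1 v x = m * U Φ m 1 v x := by
  rw [U1_eq h hm]
  field_simp

theorem gaussOp_dv {Φ : ℝ → ℝ} (h : Prof Φ) {m : ℝ} (hm : 0 < m) {v : ℝ} (hv : 0 < v) (x : ℝ) :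
    HasDerivAt (fun v => gaussOp m v Φ x) (1 / 2 * (deriv (deriv (gaussOp m v Φ)) x +
      m * deriv (gaussOp m v Φ) x ^ 2)) v := by
  have := TB_dv (tb_U0 h hm.ne') hv x
  simp only [U_zero] at this
  refine this.congr_deriv ?_
  rw [D1_U h hm.ne', U_one]
  ring

theorem d1_gaussOp_dv {Φ : ℝ → ℝ} (h : Prof Φ) {m : ℝ} (hm : 0 < m) {v : ℝ} (hv : 0 < v) (x : ℝ) :
    HasDerivAt (fun v => deriv (gaussOp m v Φ) x) (1 / 2 * deriv (deriv (deriv (gaussOp m v Φ))) x +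
      m * (deriv (gaussOp m v Φ) x * deriv (deriv (gaussOp m v Φ)) x)) v := by
  have := TB_dv (tb_U1 h hm.ne') hv x
  simp only [U_one] at this
  refine this.congr_deriv ?_
  rw [D1_U h hm.ne', U_one, U_two]
  ring

theorem gaussOp_cv {Φ : ℝ → ℝ} (h : Prof Φ) {m : ℝ} (hm : 0 < m) (x : ℝ) :
    Continuous fun v => gaussOp m v Φ x := by
  have := (U0_ug h hm.ne').cont.comp (by fun_prop : Continuous fun v : ℝ => (v, x))
  simpa only [U_zero, Function.comp_def] using this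

theorem d1_gaussOp_cv {Φ : ℝ → ℝ} (h : Prof Φ) {m : ℝ} (hm : 0 < m) (x : ℝ) :
    Continuous fun v => deriv (gaussOp m v Φ) x := by
  have := (tb_U1 h hm.ne').ug.cont.comp (by fun_prop : Continuous fun v : ℝ => (v, x))
  simpa only [U_one, Function.comp_def] using this


/-- mean value inequality with right derivatives -/
theorem abs_sub_le_of_rder {f f' : ℝ → ℝ} {a b C : ℝ} (hc : ContinuousOn f (Icc a b))
    (hd : ∀ r ∈ Ico a b, HasDerivWithinAt f (f' r) (Ici r) r) {s t : ℝ} (hs : s ∈ Icc a b)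
    (ht : t ∈ Icc a b) (hb : ∀ r ∈ Ico (min s t) (max s t), |f' r| ≤ C) :
    |f t - f s| ≤ C * |t - s| := by
  rcases le_total s t with h | h
  · rw [min_eq_left h, max_eq_right h] at hb
    have := norm_image_sub_le_of_norm_deriv_right_le_segment (f := f) (f' := f') (C := C)
      (hc.mono (Icc_subset_Icc hs.1 ht.2))
      (fun r hr => hd r ⟨hs.1.trans hr.1, hr.2.trans_le ht.2⟩) hb t ⟨h, le_rfl⟩
    rwa [abs_of_nonneg (sub_nonneg.2 h)]
  · rw [min_eq_right h, max_eq_left h] at hb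
    have := norm_image_sub_le_of_norm_deriv_right_le_segment (f := f) (f' := f') (C := C)
      (hc.mono (Icc_subset_Icc ht.1 hs.2))
      (fun r hr => hd r ⟨ht.1.trans hr.1, hr.2.trans_le hs.2⟩) hb s ⟨h, le_rfl⟩
    rwa [abs_sub_comm, abs_sub_comm t s, abs_of_nonneg (sub_nonneg.2 h)]

/-- one-sided version -/
theorem le_of_rder {f f' : ℝ → ℝ} {s t : ℝ} (hst : s ≤ t) (hc : ContinuousOn f (Icc s t))
    (hd : ∀ r ∈ Ico s t, HasDerivWithinAt f (f' r) (Ici r) r) (hb : ∀ r ∈ Ico s t, f' r ≤ 0) :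
    f t ≤ f s :=
  image_le_of_deriv_right_le_deriv_boundary (B := fun _ => f s) (B' := fun _ => 0) hc hd le_rfl
    continuousOn_const (fun r _ => hasDerivWithinAt_const r _ _) hb ⟨hst, le_rfl⟩

theorem lip_of_deriv_le {f f' : ℝ → ℝ} {L : ℝ} (hd : ∀ x, HasDerivAt f (f' x) x)
    (hb : ∀ x, |f' x| ≤ L) (x y : ℝ) : |f x - f y| ≤ L * |x - y| :=
  Convex.norm_image_sub_le_of_norm_hasDerivWithin_le (f := f) (f' := f') (C := L) (s := univ)
    (fun z _ => (hd z).hasDerivWithinAt) (fun z _ => hb z) convex_univ (mem_univ y) (mem_univ x)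

/-- Landau's interpolation -/
theorem landau1 {f f' : ℝ → ℝ} {δ L h : ℝ} (hd : ∀ x, HasDerivAt f (f' x) x) (h0 : ∀ x, |f x| ≤ δ)
    (hL : ∀ x y, |f' x - f' y| ≤ L * |x - y|) (hL0 : 0 ≤ L) (hh : 0 < h) (x : ℝ) :
    |f' x| ≤ 2 * δ / h + L * h := by
  obtain ⟨ξ, hξ, e⟩ := exists_hasDerivAt_eq_slope f f' (show x < x + h by linarith)
    (fun y _ => (hd y).continuousAt.continuousWithinAt) (fun y _ => hd y)
  have h1 : |f' ξ| ≤ 2 * δ / h := by
    rw [e, add_sub_cancel_left, abs_div, abs_of_pos hh]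
    refine div_le_div_of_nonneg_right ?_ hh.le
    have := abs_sub (f (x + h)) (f x)
    linarith [h0 (x + h), h0 x]
  have h2 : |f' x - f' ξ| ≤ L * h := by
    refine (hL x ξ).trans (mul_le_mul_of_nonneg_left ?_ hL0)
    rw [abs_sub_comm, abs_of_nonneg (by linarith [hξ.1])]
    linarith [hξ.2]
  have := abs_add_le (f' x - f' ξ) (f' ξ)
  rw [sub_add_cancel] at this
  linarith

theorem PhiT_end {β : ℝ} : ∀ {l : List (ℝ × ℝ)}, (∀ p ∈ l, 0 < p.1 ∧ 0 ≤ p.2) → ∀ {t : ℝ},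
    TT l ≤ t → PhiT β l t = phi0 β
  | [], _, _, _ => rfl
  | p :: l, h, t, ht => by
    have hl : ∀ q ∈ l, 0 < q.1 ∧ 0 ≤ q.2 := fun q hq => h q (by simp [hq])
    have hT : 0 ≤ TT l := TT_nonneg fun q hq => (hl q hq).2
    rw [TT_cons] at ht
    rw [PhiT_next (h p (by simp)).1.ne' (fun q hq => (hl q hq).2) (by linarith)]
    exact PhiT_end hl (by linarith)

theorem TopEq_PhiT' {β d : ℝ} (hβ : 0 < β) (hd : 0 ≤ d) : ∀ (a : ℕ) (l : List (ℝ × ℝ)),
    (∀ p ∈ l, 0 < p.1 ∧ p.2 = d) → (∀ p ∈ l.drop a, p.1 = β) → ∀ t, a * d ≤ t →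
    TopEq β (PhiT β l t)
  | 0, l, _, h, t, _ => TopEq_PhiT0 hβ l (by simpa using h) t
  | a + 1, [], _, _, t, _ => TopEq_PhiL hβ [] (by simp)
  | a + 1, p :: l, h2, h, t, ht => by
    have hp := h2 p (by simp)
    have hcast : ((a + 1 : ℕ) : ℝ) = (a:ℝ) + 1 := by push_cast; ring
    rw [hcast] at ht
    have had : 0 ≤ (a:ℝ) * d := by positivity
    rw [PhiT_next hp.1.ne' (fun q hq => by rw [(h2 q (by simp [hq])).2]; exact hd)
      (by rw [hp.2]; nlinarith)]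
    refine TopEq_PhiT' hβ hd a l (fun q hq => h2 q (by simp [hq])) (by simpa using h) _ ?_
    rw [hp.2]; linarith

theorem lvr_ofFn (β : ℝ) {d : ℝ} (hd : 0 < d) : ∀ (N : ℕ) (z : ℕ → ℝ) (t : ℝ), 0 ≤ t →
    t < N * d → lvr β (List.ofFn fun k : Fin N => (z k, d)) t = z ⌊t / d⌋₊
  | 0, _, t, h0, h1 => by simp at h1; linarith
  | N + 1, z, t, h0, h1 => by
    rw [List.ofFn_succ]
    unfold lvr
    simp only
    split_ifs with ht
    · rw [Nat.floor_eq_zero.2 ((div_lt_one hd).2 ht)]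
      rfl
    · have ht' := not_lt.1 ht
      have ih := lvr_ofFn β hd N (fun k => z (k + 1)) (t - d) (by linarith)
        (by push_cast at h1; linarith)
      have e : t / d = (t - d) / d + 1 := by field_simp; ring
      rw [e, Nat.floor_add_one (div_nonneg (by linarith) hd.le), ← ih]
      rfl

/-! ### the grid -/

namespace Par

variable {P : Par} {β : ℝ}

theorem OK.le_one (h : P.OK) (k : ℕ) : P.z k ≤ 1 := by
  rw [← h.top (max k P.a) (le_max_right _ _)]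
  exact h.mono (le_max_left _ _)

theorem OK.Kp (h : P.OK) : (0:ℝ) < P.K := by exact_mod_cast h.Kpos

theorem OK.adm (h : P.OK) (β : ℝ) (N : ℕ) : Adm 1 (P.lst β N) :=
  adm_ofFn (m := fun k : Fin N => P.z k) (by positivity) (fun _ _ hij => h.mono hij)
    (fun k => h.pos k) (fun k => h.le_one k)

theorem lst_snd (P : Par) (β : ℝ) (N : ℕ) : ∀ p ∈ P.lst β N, p.2 = β ^ 2 / P.K := by
  intro p hp
  unfold lst at hp
  rw [List.mem_ofFn] at hp
  obtain ⟨k, rfl⟩ := hp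
  rfl

theorem OK.lst_pos (h : P.OK) (hβ : 0 < β) (N : ℕ) : ∀ p ∈ P.lst β N, 0 < p.2 := fun p hp => by
  rw [lst_snd P β N p hp]
  have := h.Kp
  positivity

theorem TT_lst (P : Par) (β : ℝ) (N : ℕ) : TT (P.lst β N) = N * (β ^ 2 / P.K) := by
  unfold TT lst
  rw [List.map_ofFn]
  have : (Prod.snd ∘ fun k : Fin N => (P.z k, β ^ 2 / P.K)) = fun _ => β ^ 2 / P.K := rfl
  rw [this, List.sum_ofFn]
  simp

theorem OK.TT_K (h : P.OK) (β : ℝ) : TT (P.lst β P.K) = β ^ 2 := by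
  rw [TT_lst]
  have := h.Kp
  field_simp

theorem OK.lvr_eq (h : P.OK) (hβ : 0 < β) {N : ℕ} {s : ℝ} (h0 : 0 ≤ s) (h1 : s * P.K < N) :
    lvr 1 (P.lst β N) (β ^ 2 * s) = P.zeta s := by
  have hK := h.Kp
  unfold lst zeta
  rw [lvr_ofFn 1 (by positivity) N P.z _ (by positivity)]
  · congr 2
    field_simp
  · have : β ^ 2 * s = (s * P.K) * (β ^ 2 / P.K) := by field_simp
    rw [this]
    exact mul_lt_mul_of_pos_right h1 (by positivity)

theorem OK.lst_drop (h : P.OK) (β : ℝ) (N : ℕ) : ∀ p ∈ (P.lst β N).drop P.a, p.1 = 1 := by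
  intro p hp
  obtain ⟨i, hi, rfl⟩ := List.mem_iff_getElem.1 hp
  unfold lst
  simp only [List.getElem_drop, List.getElem_ofFn]
  exact h.top _ (Nat.le_add_right _ _)

theorem OK.zeta_pos (h : P.OK) (s : ℝ) : 0 < P.zeta s := h.pos _
theorem OK.zeta_le (h : P.OK) (s : ℝ) : P.zeta s ≤ 1 := h.le_one _

theorem OK.zeta_mono (h : P.OK) : Monotone P.zeta := fun _ _ hst =>
  h.mono (Nat.floor_le_floor (mul_le_mul_of_nonneg_right hst h.Kp.le))

theorem OK.b_nonneg (_ : P.OK) : 0 ≤ P.b := by unfold b; positivity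

theorem OK.b_le_one (h : P.OK) : P.b ≤ 1 := by
  unfold b
  rw [div_le_one h.Kp]
  exact_mod_cast h.aK

theorem OK.zeta_top (h : P.OK) {s : ℝ} (hs : P.b ≤ s) : P.zeta s = 1 := by
  refine h.top _ (Nat.le_floor ?_)
  unfold b at hs
  rwa [div_le_iff₀ h.Kp] at hs

theorem OK.zeta_rcont (h : P.OK) (s : ℝ) : ∀ᶠ r in 𝓝[≥] s, P.zeta r = P.zeta s := by
  have hK := h.Kp
  have h1 : s < ((⌊s * P.K⌋₊ : ℝ) + 1) / P.K := by
    rw [lt_div_iff₀ hK]
    exact Nat.lt_floor_add_one _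
  filter_upwards [Ico_mem_nhdsGE h1] with r hr
  unfold zeta
  congr 1
  refine le_antisymm ?_ (Nat.floor_le_floor (mul_le_mul_of_nonneg_right hr.1 hK.le))
  have h2 := hr.2
  rw [lt_div_iff₀ hK] at h2
  refine Nat.lt_succ_iff.1 ((Nat.floor_lt' (Nat.succ_ne_zero _)).2 ?_)
  push_cast
  exact h2

theorem OK.ii (h : P.OK) {g : ℝ → ℝ} (hg : Continuous g) (s t : ℝ) :
    IntervalIntegrable (fun r => g r * P.zeta r) volume s t :=
  (h.zeta_mono.intervalIntegrable).continuousOn_mul hg.continuousOn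

theorem OK.int_rder (h : P.OK) {g : ℝ → ℝ} (hg : Continuous g) (a s : ℝ) :
    HasDerivWithinAt (fun u => ∫ r in a..u, g r * P.zeta r) (g s * P.zeta s) (Ici s) s := by
  refine intervalIntegral.integral_hasDerivWithinAt_right (t := Ioi s) (h.ii hg a s)
    ((hg.measurable.mul h.zeta_mono.measurable).stronglyMeasurable.stronglyMeasurableAtFilter) ?_
  refine hg.continuousWithinAt.mul ?_
  refine (continuousWithinAt_const (b := P.zeta s)).congr_of_eventuallyEq ?_ rfl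
  exact (h.zeta_rcont s).filter_mono (nhdsWithin_mono s Ioi_subset_Ici_self)

theorem OK.int_cont (h : P.OK) {g : ℝ → ℝ} (hg : Continuous g) (a : ℝ) :
    Continuous fun u => ∫ r in a..u, g r * P.zeta r :=
  intervalIntegral.continuous_primitive (h.ii hg) a

/-- `∫_0^s ζ` -/
def Zc (P : Par) (s : ℝ) : ℝ := ∫ r in (0:ℝ)..s, P.zeta r

theorem OK.Zc_rder (h : P.OK) (s : ℝ) : HasDerivWithinAt P.Zc (P.zeta s) (Ici s) s := by
  have := h.int_rder (g := fun _ => 1) continuous_const 0 s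
  simp only [one_mul] at this
  exact this

theorem OK.Zc_cont (h : P.OK) : Continuous P.Zc := by
  have := h.int_cont (g := fun _ => 1) continuous_const 0
  simp only [one_mul] at this
  exact this

theorem OK.Zi_eq (h : P.OK) (s : ℝ) : P.Zi s = P.Zc 1 - P.Zc s := by
  unfold Zi Zc
  rw [intervalIntegral.integral_interval_sub_left h.zeta_mono.intervalIntegrable
    h.zeta_mono.intervalIntegrable]

theorem OK.Zi_rder (h : P.OK) (s : ℝ) : HasDerivWithinAt P.Zi (-P.zeta s) (Ici s) s := by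
  have e : P.Zi = fun s => P.Zc 1 - P.Zc s := funext h.Zi_eq
  rw [e]
  exact (h.Zc_rder s).const_sub _

theorem OK.Zi_cont (h : P.OK) : Continuous P.Zi := by
  have e : P.Zi = fun s => P.Zc 1 - P.Zc s := funext h.Zi_eq
  rw [e]
  exact continuous_const.sub h.Zc_cont

theorem OK.pen_eq (h : P.OK) (β s : ℝ) : P.pen β s =
    β ^ 2 / 2 * ((∫ r in (0:ℝ)..1, r * P.zeta r) - ∫ r in (0:ℝ)..s, r * P.zeta r) := by
  unfold pen
  rw [intervalIntegral.integral_interval_sub_left (h.ii continuous_id' _ _)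
    (h.ii continuous_id' _ _)]

theorem OK.pen_rder (h : P.OK) (β s : ℝ) :
    HasDerivWithinAt (P.pen β) (-(β ^ 2 / 2 * (s * P.zeta s))) (Ici s) s := by
  rw [funext (h.pen_eq β)]
  exact (((h.int_rder continuous_id' 0 s).const_sub _).const_mul _).congr_deriv (by ring)

theorem OK.pen_cont (h : P.OK) (β : ℝ) : Continuous (P.pen β) := by
  rw [funext (h.pen_eq β)]
  exact continuous_const.mul (continuous_const.sub (h.int_cont continuous_id' 0))

theorem OK.Zi_top (h : P.OK) {s : ℝ} (hs : s ∈ Icc P.b 1) : P.Zi s = 1 - s := by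
  unfold Zi
  rw [intervalIntegral.integral_congr (g := fun _ => 1) (fun r hr => by
    rw [uIcc_of_le hs.2] at hr
    exact h.zeta_top (hs.1.trans hr.1))]
  simp

theorem OK.pen_top (h : P.OK) (β : ℝ) {s : ℝ} (hs : s ∈ Icc P.b 1) :
    P.pen β s = β ^ 2 * (1 - s ^ 2) / 4 := by
  unfold pen
  rw [intervalIntegral.integral_congr (g := fun r => r) (fun r hr => by
    rw [uIcc_of_le hs.2] at hr
    simp only
    rw [h.zeta_top (hs.1.trans hr.1), mul_one]), integral_id]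
  ring

/-! ### the profile -/

theorem Ph_eq (P : Par) (β s : ℝ) : P.Ph β s = PhiT 1 (P.lst β P.K) (β ^ 2 * s) := rfl

theorem OK.inv (h : P.OK) (β s : ℝ) : ∃ m, 0 < m ∧ m ≤ 1 ∧ Inv 1 m (P.Ph β s) :=
  PhiT_inv one_pos _ (h.adm β _) _

theorem prof (P : Par) (β s : ℝ) : Prof (P.Ph β s) := PhiT_prof one_pos _ _

theorem d1 (P : Par) (β s x : ℝ) : HasDerivAt (P.Ph β s) (P.Px β s x) x := (P.prof β s).d1 x

theorem d2 (P : Par) (β s x : ℝ) : HasDerivAt (P.Px β s) (P.Pxx β s x) x :=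
  (P.prof β s).bd.hasDerivAt x

theorem d3 (P : Par) (β s x : ℝ) : HasDerivAt (P.Pxx β s) (P.Pxxx β s x) x :=
  (P.prof β s).bd.deriv.hasDerivAt x

theorem Px_bd (P : Par) (β s : ℝ) : BD (P.Px β s) := (P.prof β s).bd
theorem Pxx_bd (P : Par) (β s : ℝ) : BD (P.Pxx β s) := (P.prof β s).bd.deriv
theorem Pxxx_bd (P : Par) (β s : ℝ) : BD (P.Pxxx β s) := (P.prof β s).bd.deriv.deriv

theorem OK.Px_lt (h : P.OK) (β s x : ℝ) : |P.Px β s x| < 1 := by
  obtain ⟨m, _, _, hI⟩ := h.inv β s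
  exact d1_abs_lt hI one_pos x

theorem OK.Pxx_pos (h : P.OK) (β s x : ℝ) : 0 < P.Pxx β s x := by
  obtain ⟨m, _, _, hI⟩ := h.inv β s
  exact u2_pos hI x

theorem OK.Pxx_le (h : P.OK) (β s x : ℝ) : P.Pxx β s x ≤ 1 - P.Px β s x ^ 2 := by
  obtain ⟨m, _, _, hI⟩ := h.inv β s
  have := hI.up x
  rwa [one_mul] at this

theorem OK.Pxx_le_one (h : P.OK) (β s x : ℝ) : P.Pxx β s x ≤ 1 :=
  (h.Pxx_le β s x).trans (by nlinarith [sq_nonneg (P.Px β s x)])

theorem OK.Pxxx_le (h : P.OK) (β s x : ℝ) :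
    |P.Pxxx β s x| ≤ 2 * P.Pxx β s x * |P.Px β s x| := by
  obtain ⟨m, hm, _, hI⟩ := h.inv β s
  have := d3_abs_le hI (up2_PhiT one_pos (h.adm β _) _) hm x
  rwa [mul_one] at this

theorem OK.Pxxx_le_two (h : P.OK) (β s x : ℝ) : |P.Pxxx β s x| ≤ 2 := by
  obtain ⟨m, hm, _, hI⟩ := h.inv β s
  have := d3_abs_le' hI (up2_PhiT one_pos (h.adm β _) _) hm one_pos x
  rwa [one_pow, mul_one] at this

theorem OK.even (h : P.OK) (β s x : ℝ) : P.Ph β s (-x) = P.Ph β s x := by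
  obtain ⟨m, _, _, hI⟩ := h.inv β s
  exact hI.even x

theorem OK.Px_odd (h : P.OK) (β s x : ℝ) : P.Px β s (-x) = -P.Px β s x := by
  obtain ⟨m, _, _, hI⟩ := h.inv β s
  exact hI.odd x

theorem OK.le_Ph (h : P.OK) (β s x : ℝ) : x ≤ P.Ph β s x :=
  le_PhiT one_pos (fun p hp => (Adm.pos (h.adm β _) p hp).1) _ x

theorem OK.onto (h : P.OK) (β s : ℝ) {c : ℝ} (hc : |c| < 1) : ∃ x, P.Px β s x = c := by
  obtain ⟨m, _, _, hI⟩ := h.inv β s
  exact d1_onto hI (h.le_Ph β s) hc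


theorem OK.dec (h : P.OK) (β s x : ℝ) : |x| * P.Pxx β s x ≤ 1 := by
  obtain ⟨m, hm, _, hI⟩ := h.inv β s
  exact abs_mul_d2_le hI hm x

theorem OK.Pxx_lip (h : P.OK) (β s x y : ℝ) : |P.Pxx β s x - P.Pxx β s y| ≤ 2 * |x - y| :=
  lip_of_deriv_le (P.d3 β s) (h.Pxxx_le_two β s) x y

theorem OK.G_cont (h : P.OK) (β : ℝ) {G : (ℝ → ℝ) → ℝ}
    (hG : ∀ Φ, Prof Φ → ∀ m, 0 < m → Continuous fun v => G (gaussOp m v Φ)) :
    Continuous fun s => G (P.Ph β s) :=
  (PhiT_cont one_pos hG (h.adm β P.K)).comp (continuous_const.mul continuous_id)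

theorem OK.G_rder (h : P.OK) (hβ : 0 < β) {G : (ℝ → ℝ) → ℝ} {G' : ℝ → (ℝ → ℝ) → ℝ}
    (hG : ∀ Φ, Prof Φ → ∀ m, 0 < m → ∀ v, 0 < v →
      HasDerivAt (fun v => G (gaussOp m v Φ)) (G' m (gaussOp m v Φ)) v) {s : ℝ}
    (hs : s ∈ Ico (0:ℝ) 1) : HasDerivWithinAt (fun r => G (P.Ph β r))
      (-(β ^ 2 * G' (P.zeta s) (P.Ph β s))) (Ici s) s := by
  have hb : 0 < β ^ 2 := by positivity
  have d1 := PhiT_rder one_pos hG (h.adm β P.K) (t := β ^ 2 * s) (mul_nonneg hb.le hs.1)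
    (by rw [h.TT_K]; nlinarith [hs.2])
  rw [h.lvr_eq hβ hs.1 (by nlinarith [hs.2, h.Kp])] at d1
  have d2 : HasDerivWithinAt (fun r => β ^ 2 * r) (β ^ 2) (Ici s) s := by
    simpa using ((hasDerivAt_id' s).const_mul (β ^ 2)).hasDerivWithinAt
  have d3 := HasDerivWithinAt.comp s (h := fun r => β ^ 2 * r) d1 d2
    (fun r hr => mul_le_mul_of_nonneg_left hr hb.le)
  exact d3.congr_deriv (by rw [Ph_eq]; ring)

theorem OK.Ph_cont (h : P.OK) (β x : ℝ) : Continuous fun s => P.Ph β s x :=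
  h.G_cont β (G := fun Φ => Φ x) fun _ hΦ _ hm => gaussOp_cv hΦ hm x

theorem OK.Px_cont (h : P.OK) (β x : ℝ) : Continuous fun s => P.Px β s x :=
  h.G_cont β (G := fun Φ => deriv Φ x) fun _ hΦ _ hm => d1_gaussOp_cv hΦ hm x


/-- the Parisi PDE -/
theorem OK.Ph_rder (h : P.OK) (hβ : 0 < β) {s : ℝ} (hs : s ∈ Ico (0:ℝ) 1) (x : ℝ) :
    HasDerivWithinAt (fun r => P.Ph β r x)
      (-(β ^ 2 / 2 * (P.Pxx β s x + P.zeta s * P.Px β s x ^ 2))) (Ici s) s :=
  (h.G_rder hβ (G := fun Φ => Φ x)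
    (G' := fun m Φ => 1 / 2 * (deriv (deriv Φ) x + m * deriv Φ x ^ 2))
    (fun _ hΦ _ hm _ hv => gaussOp_dv hΦ hm hv x) hs).congr_deriv (by unfold Pxx Px; ring)

theorem OK.Px_rder (h : P.OK) (hβ : 0 < β) {s : ℝ} (hs : s ∈ Ico (0:ℝ) 1) (x : ℝ) :
    HasDerivWithinAt (fun r => P.Px β r x)
      (-(β ^ 2 * (1 / 2 * P.Pxxx β s x + P.zeta s * (P.Px β s x * P.Pxx β s x)))) (Ici s) s :=
  h.G_rder hβ (G := fun Φ => deriv Φ x)
    (G' := fun m Φ => 1 / 2 * deriv (deriv (deriv Φ)) x + m * (deriv Φ x * deriv (deriv Φ) x))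
    (fun _ hΦ _ hm _ hv => d1_gaussOp_dv hΦ hm hv x) hs

theorem OK.Px_tlip (h : P.OK) (hβ : 0 < β) {s t : ℝ} (hs : s ∈ Icc (0:ℝ) 1) (ht : t ∈ Icc (0:ℝ) 1)
    (x : ℝ) : |P.Px β s x - P.Px β t x| ≤ 2 * β ^ 2 * |s - t| := by
  refine abs_sub_le_of_rder (h.Px_cont β x).continuousOn (fun r hr => h.Px_rder hβ hr x) ht hs
    fun r _ => ?_
  rw [abs_neg, abs_mul, abs_of_nonneg (sq_nonneg β), mul_comm 2]
  refine mul_le_mul_of_nonneg_left ((abs_add_le _ _).trans ?_) (sq_nonneg β)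
  have a1 := h.Pxxx_le_two β r x
  have a2 : |P.zeta r * (P.Px β r x * P.Pxx β r x)| ≤ 1 := by
    rw [abs_mul, abs_mul, abs_of_pos (h.zeta_pos r), abs_of_pos (h.Pxx_pos β r x)]
    exact mul_le_one₀ (h.zeta_le r) (mul_nonneg (abs_nonneg _) (h.Pxx_pos β r x).le)
      (mul_le_one₀ (h.Px_lt β r x).le (h.Pxx_pos β r x).le (h.Pxx_le_one β r x))
  rw [abs_mul, abs_of_pos (by norm_num : (0:ℝ) < 1 / 2)]
  linarith

theorem OK.Pxx_thold (h : P.OK) (hβ : 0 < β) {s t : ℝ} (hs : s ∈ Icc (0:ℝ) 1)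
    (ht : t ∈ Icc (0:ℝ) 1) (x : ℝ) :
    |P.Pxx β s x - P.Pxx β t x| ≤ (4 * β ^ 2 + 4) * √|s - t| := by
  rcases eq_or_ne s t with rfl | hne
  · simp
  have h0 : 0 < |s - t| := abs_pos.2 (sub_ne_zero.2 hne)
  have hq : 0 < √|s - t| := Real.sqrt_pos.2 h0
  have := landau1 (f := fun y => P.Px β s y - P.Px β t y)
    (f' := fun y => P.Pxx β s y - P.Pxx β t y) (L := 4)
    (fun y => (P.d2 β s y).fun_sub (P.d2 β t y)) (h.Px_tlip hβ hs ht) (fun y z => by
      have a1 := abs_le.1 (h.Pxx_lip β s y z)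
      have a2 := abs_le.1 (h.Pxx_lip β t y z)
      rw [abs_le]
      constructor <;> linarith [a1.1, a1.2, a2.1, a2.2]) (by norm_num) hq x
  refine this.trans_eq ?_
  have e : |s - t| = √|s - t| * √|s - t| := (Real.mul_self_sqrt h0.le).symm
  generalize √|s - t| = w at hq e ⊢
  rw [e]
  field_simp
  ring

theorem OK.topEq (h : P.OK) (hβ : 0 < β) {s : ℝ} (hs : P.b ≤ s) (x : ℝ) :
    P.Pxx β s x = 1 - P.Px β s x ^ 2 := by
  have hK := h.Kp
  have := TopEq_PhiT' one_pos (d := β ^ 2 / P.K) (by positivity) P.a (P.lst β P.K)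
    (fun p hp => ⟨(Adm.pos (h.adm β _) p hp).1, lst_snd P β _ p hp⟩) (h.lst_drop β _) (β ^ 2 * s)
    (by
      have : (P.a : ℝ) * (β ^ 2 / P.K) = β ^ 2 * P.b := by unfold b; ring
      rw [this]
      exact mul_le_mul_of_nonneg_left hs (sq_nonneg β)) x
  rwa [one_mul] at this

theorem OK.Ph_end (h : P.OK) (β : ℝ) {s : ℝ} (hs : 1 ≤ s) : P.Ph β s = phi0 1 :=
  PhiT_end (Adm.pos (h.adm β _)) (by rw [h.TT_K]; nlinarith [sq_nonneg β])

theorem phi0_one (x : ℝ) : phi0 1 x = Real.log (2 * Real.cosh x) := by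
  unfold phi0
  rw [one_mul, div_one]

theorem OK.Ph_top (h : P.OK) (hβ : 0 < β) {s : ℝ} (hs : s ∈ Icc P.b 1) (x : ℝ) :
    P.Ph β s x = Real.log (2 * Real.cosh x) + β ^ 2 * (1 - s) / 2 := by
  have := abs_sub_le_of_rder (f := fun r => P.Ph β r x + β ^ 2 / 2 * r) (f' := fun _ => 0)
    (a := P.b) (b := 1) (C := 0)
    ((h.Ph_cont β x).add (continuous_const.mul continuous_id)).continuousOn
    (fun r hr => by
      have d1 := h.Ph_rder hβ ⟨h.b_nonneg.trans hr.1, hr.2⟩ x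
      have d2 := ((hasDerivAt_id' r).const_mul (β ^ 2 / 2)).hasDerivWithinAt (s := Ici r)
      refine (d1.fun_add d2).congr_deriv ?_
      rw [h.zeta_top hr.1, h.topEq hβ hr.1]
      ring) hs ⟨h.b_le_one, le_rfl⟩ (fun _ _ => by simp)
  rw [zero_mul, abs_nonpos_iff, h.Ph_end β le_rfl, phi0_one] at this
  linarith

theorem OK.Px_top (h : P.OK) (hβ : 0 < β) {s : ℝ} (hs : P.b ≤ s) : P.Px β s = th 1 := by
  unfold Px
  rcases le_total s 1 with h1 | h1
  · have e : P.Ph β s = fun x => phi0 1 x + β ^ 2 * (1 - s) / 2 :=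
      funext fun x => by rw [h.Ph_top hβ ⟨hs, h1⟩, phi0_one]
    rw [e]
    funext x
    rw [deriv_add_const, phi0_deriv one_pos]
  · rw [h.Ph_end β h1, phi0_deriv one_pos]

theorem mem_between {s t r : ℝ} (hs : s ∈ Icc (0:ℝ) 1) (ht : t ∈ Icc (0:ℝ) 1)
    (hr : r ∈ Ico (min s t) (max s t)) : r ∈ Icc (0:ℝ) 1 ∧ |r - t| ≤ |t - s| := by
  rcases le_total s t with h | h
  · rw [min_eq_left h, max_eq_right h] at hr
    refine ⟨⟨hs.1.trans hr.1, hr.2.le.trans ht.2⟩, ?_⟩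
    rw [abs_of_nonpos (by linarith [hr.2]), abs_of_nonneg (by linarith)]
    linarith [hr.1]
  · rw [min_eq_right h, max_eq_left h] at hr
    refine ⟨⟨ht.1.trans hr.1, hr.2.le.trans hs.2⟩, ?_⟩
    rw [abs_of_nonneg (by linarith [hr.1]), abs_of_nonpos (by linarith)]
    linarith [hr.2]

theorem abs_le_sqrt {s t : ℝ} (hs : s ∈ Icc (0:ℝ) 1) (ht : t ∈ Icc (0:ℝ) 1) :
    |t - s| ≤ √|t - s| := by
  have h1 : |t - s| ≤ 1 := by
    rw [abs_le]
    constructor <;> linarith [hs.1, hs.2, ht.1, ht.2]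
  refine Real.le_sqrt_of_sq_le ?_
  nlinarith [abs_nonneg (t - s)]

/-- the constant of the site data -/
def CS (β : ℝ) : ℝ := 4 * β ^ 4 + 4 * β ^ 2 + 4

theorem one_le_CS (β : ℝ) : 1 ≤ CS β := by
  unfold CS
  nlinarith [sq_nonneg β, sq_nonneg (β ^ 2)]

/-- **the site data** -/
def OK.site (h : P.OK) (hβ : 0 < β) : St.Site β (CS β) P.b where
  Φ := P.Ph β
  p1 := P.Px β
  p2 := P.Pxx β
  Zc := P.Zc
  pen := P.pen β
  b0 := h.b_nonneg
  b1 := h.b_le_one
  d1 := fun s _ x => P.d1 β s x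
  d2 := fun s _ x => P.d2 β s x
  abs1 := fun s _ x => h.Px_lt β s x
  pos2 := fun s _ x => h.Pxx_pos β s x
  le2 := fun s _ x => h.Pxx_le_one β s x
  onto := fun s _ _ hm => h.onto β s hm
  even := fun s _ x => h.even β s x
  lip2 := fun s _ x y => (h.Pxx_lip β s x y).trans (mul_le_mul_of_nonneg_right (by
    unfold CS; nlinarith [sq_nonneg β, sq_nonneg (β ^ 2)]) (abs_nonneg _))
  dec := fun s _ x => (h.dec β s x).trans (one_le_CS β)
  t1 := fun s hs t ht x => (h.Px_tlip hβ hs ht x).trans (mul_le_mul_of_nonneg_right (by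
    unfold CS; nlinarith [sq_nonneg β, sq_nonneg (β ^ 2)]) (abs_nonneg _))
  t2 := fun s hs t ht x => (h.Pxx_thold hβ hs ht x).trans (mul_le_mul_of_nonneg_right (by
    unfold CS; nlinarith [sq_nonneg β, sq_nonneg (β ^ 2)]) (Real.sqrt_nonneg _))
  zlip := fun s hs t ht => by
    have := abs_sub_le_of_rder (C := 1) h.Zc_cont.continuousOn (fun r _ => h.Zc_rder r) ht hs
      fun r _ => by rw [abs_of_pos (h.zeta_pos r)]; exact h.zeta_le r
    rwa [one_mul] at this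
  pde := fun s hs t ht x => by
    have hq := abs_le_sqrt hs ht
    have := abs_sub_le_of_rder (C := CS β * √|t - s|)
      (f := fun r => P.Ph β r x + β ^ 2 / 2 * (r * P.Pxx β t x + P.Zc r * P.Px β t x ^ 2))
      ((h.Ph_cont β x).add (continuous_const.mul ((continuous_id.mul continuous_const).add
        (h.Zc_cont.mul continuous_const)))).continuousOn
      (fun r hr => (h.Ph_rder hβ hr x).fun_add
        (((((hasDerivAt_id' r).hasDerivWithinAt (s := Ici r)).mul_const (P.Pxx β t x)).fun_add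
          ((h.Zc_rder r).mul_const (P.Px β t x ^ 2))).const_mul (β ^ 2 / 2))) hs ht
      (fun r hr => by
        obtain ⟨r1, r2⟩ := mem_between hs ht hr
        have a1 := (h.Pxx_thold hβ r1 ht x).trans (mul_le_mul_of_nonneg_left
          (Real.sqrt_le_sqrt r2) (by positivity))
        have a2 := (h.Px_tlip hβ r1 ht x).trans (mul_le_mul_of_nonneg_left (r2.trans hq)
          (by positivity))
        have a3 : |P.zeta r * (P.Px β r x ^ 2 - P.Px β t x ^ 2)| ≤ 4 * β ^ 2 * √|t - s| := by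
          have e : P.Px β r x ^ 2 - P.Px β t x ^ 2 =
            (P.Px β r x + P.Px β t x) * (P.Px β r x - P.Px β t x) := by ring
          rw [e, abs_mul, abs_mul, abs_of_pos (h.zeta_pos r)]
          have b1 : |P.Px β r x + P.Px β t x| ≤ 2 :=
            (abs_add_le _ _).trans (by linarith [h.Px_lt β r x, h.Px_lt β t x])
          calc _ ≤ 1 * (2 * (2 * β ^ 2 * √|t - s|)) := by
                gcongr
                exact h.zeta_le r
            _ = _ := by ring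
        have e : -(β ^ 2 / 2 * (P.Pxx β r x + P.zeta r * P.Px β r x ^ 2)) +
            β ^ 2 / 2 * (1 * P.Pxx β t x + P.zeta r * P.Px β t x ^ 2) =
            -(β ^ 2 / 2) * ((P.Pxx β r x - P.Pxx β t x) +
              P.zeta r * (P.Px β r x ^ 2 - P.Px β t x ^ 2)) := by ring
        rw [e, abs_mul, abs_neg, abs_of_nonneg (by positivity : (0:ℝ) ≤ β ^ 2 / 2)]
        have a4 := (abs_add_le _ _).trans (add_le_add a1 a3)
        refine (mul_le_mul_of_nonneg_left a4 (by positivity)).trans ?_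
        have a5 := Real.sqrt_nonneg |t - s|
        have a6 : 0 ≤ (2 * β ^ 2 + 4) * √|t - s| := by positivity
        unfold CS
        nlinarith)
    refine le_trans (le_of_eq ?_) (this.trans_eq (by ring))
    congr 1
    ring
  penD := fun s hs t ht => by
    have hq := abs_le_sqrt hs ht
    have := abs_sub_le_of_rder (C := CS β * √|t - s|)
      (f := fun r => -P.pen β r - β ^ 2 / 2 * (t * P.Zc r))
      ((h.pen_cont β).neg.sub (continuous_const.mul (continuous_const.mul h.Zc_cont))).continuousOn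
      (fun r _ => (h.pen_rder β r).fun_neg.fun_sub
        (((h.Zc_rder r).const_mul t).const_mul (β ^ 2 / 2))) hs ht
      (fun r hr => by
        obtain ⟨r1, r2⟩ := mem_between hs ht hr
        have e : - -(β ^ 2 / 2 * (r * P.zeta r)) - β ^ 2 / 2 * (t * P.zeta r) =
            β ^ 2 / 2 * (P.zeta r * (r - t)) := by ring
        rw [e, abs_mul, abs_mul, abs_of_nonneg (by positivity : (0:ℝ) ≤ β ^ 2 / 2),
          abs_of_pos (h.zeta_pos r)]
        have a5 := Real.sqrt_nonneg |t - s|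
        calc _ ≤ β ^ 2 / 2 * (1 * √|t - s|) := by
              gcongr
              · exact h.zeta_le r
              · exact r2.trans hq
          _ ≤ _ := by
              rw [one_mul]
              refine mul_le_mul_of_nonneg_right ?_ a5
              unfold CS
              nlinarith [sq_nonneg β, sq_nonneg (β ^ 2)])
    refine le_trans (le_of_eq ?_) (this.trans_eq (by ring))
    congr 1
    ring
  top := fun s hs x => h.Ph_top hβ hs x
  topP := fun s hs => h.pen_top β hs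


end Par

end

end Crest.Agent.T157.Pf
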