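import Crest.Agent.T157.ConcS_16
import Crest.Agent.R166.GaussQ_286

/-!
# Row 157, part E (helper16): Hanson-Wright inequalities

Independent entries with `E exp(t x) ≤ exp(t²/2)` (`SG1`; Gauss, `±1`, all hybrids).
* `subG_lin` linear forms; `normsq_lint` : `E exp(t |Bx|²) ≤ exp(2 t ‖B‖_F²)`;
* `subE_bilin`, `subE_offdiag`, `subE_quad` (variance one), `subE_gauss_quad` (sharp, Gaussian),
  `subE_chi`; tails `hw_tail`.
-/

set_option autoImplicit false

noncomputable section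

namespace Crest.Agent.T157.Conc

open MeasureTheory ProbabilityTheory Set Matrix
open scoped ENNReal NNReal

variable {ι κ : Type*} [Fintype ι] [Fintype κ]

/-- squared Frobenius norm -/
def fro (A : Matrix ι κ ℝ) : ℝ := ∑ i, ∑ j, A i j ^ 2

/-- operator norm at most `K` -/
def OpB (K : ℝ) (A : Matrix ι κ ℝ) : Prop := ∀ y, en (A *ᵥ y) ≤ K * en y

lemma fro_nonneg (A : Matrix ι κ ℝ) : 0 ≤ fro A :=
  Finset.sum_nonneg fun _ _ => Finset.sum_nonneg fun _ _ => sq_nonneg _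

lemma fro_transpose (A : Matrix ι κ ℝ) : fro Aᵀ = fro A := Finset.sum_comm

lemma dot_self (x : ι → ℝ) : x ⬝ᵥ x = en x ^ 2 := by
  rw [en_sq]; simp only [dotProduct, sq]

lemma abs_dotProduct_le (x y : ι → ℝ) : |x ⬝ᵥ y| ≤ en x * en y := abs_dot_le x y

lemma OpB.bilin {K : ℝ} {A : Matrix ι κ ℝ} (h : OpB K A) (x : ι → ℝ) (y : κ → ℝ) :
    |x ⬝ᵥ A *ᵥ y| ≤ K * en x * en y := by
  refine (abs_dotProduct_le _ _).trans ?_
  nlinarith [mul_le_mul_of_nonneg_left (h y) (en_nonneg x)]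

lemma opB_of_bilin {K : ℝ} (hK : 0 ≤ K) {A : Matrix ι κ ℝ}
    (h : ∀ x y, x ⬝ᵥ A *ᵥ y ≤ K * en x * en y) : OpB K A := fun y => by
  have h1 := h (A *ᵥ y) y
  rw [dot_self] at h1
  rcases (en_nonneg (A *ᵥ y)).eq_or_lt with h0 | h0
  · rw [← h0]; exact mul_nonneg hK (en_nonneg _)
  · refine le_of_mul_le_mul_left ?_ h0
    nlinarith

lemma OpB.transpose {K : ℝ} (hK : 0 ≤ K) {A : Matrix ι κ ℝ} (h : OpB K A) : OpB K Aᵀ :=
  opB_of_bilin hK fun x y => by
    have := (le_abs_self _).trans (h.bilin y x)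
    rw [dotProduct_mulVec, vecMul_transpose, dotProduct_comm]
    linarith

lemma OpB.mono {K K' : ℝ} {A : Matrix ι κ ℝ} (h : OpB K A) (hK : K ≤ K') : OpB K' A :=
  fun y => (h y).trans (mul_le_mul_of_nonneg_right hK (en_nonneg _))

lemma opB_fro (A : Matrix ι κ ℝ) : OpB (Real.sqrt (fro A)) A := fun y => by
  rw [en, en, ← Real.sqrt_mul (fro_nonneg A), fro, Finset.sum_mul]
  exact Real.sqrt_le_sqrt (Finset.sum_le_sum fun i _ =>
    Finset.sum_mul_sq_le_sq_mul_sq Finset.univ (A i) y)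

lemma en_single [DecidableEq ι] (i : ι) : en (Pi.single i (1:ℝ) : ι → ℝ) = 1 := by
  rw [en, Finset.sum_eq_single i (fun j _ hj => by simp [hj]) (by simp)]; simp

lemma OpB.entry {K : ℝ} {A : Matrix ι κ ℝ} (h : OpB K A) (i : ι) (j : κ) : |A i j| ≤ K := by
  classical
  have := h.bilin (Pi.single i 1) (Pi.single j 1)
  simpa [en_single] using this

open scoped Matrix.Norms.L2Operator in
lemma opB_l2 [DecidableEq κ] (A : Matrix ι κ ℝ) : OpB ‖A‖ A := fun y => by
  rw [en_eq_norm, en_eq_norm]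
  exact Matrix.l2_opNorm_mulVec A (WithLp.toLp 2 y)

lemma OpB.elip {K : ℝ} {A : Matrix ι κ ℝ} (h : OpB K A) : ELip K fun x => en (A *ᵥ x) :=
  fun x y => (abs_en_sub_le _ _).trans (by rw [← mulVec_sub]; exact h _)

lemma en_mask_le (p : ι → Prop) [DecidablePred p] (x : ι → ℝ) :
    en (fun i => if p i then x i else 0) ≤ en x :=
  Real.sqrt_le_sqrt (Finset.sum_le_sum fun i _ => by
    by_cases h : p i <;> simp [h, sq_nonneg])

/-- sub-block of a matrix -/
def mask (p : ι → Prop) (q : κ → Prop) [DecidablePred p] [DecidablePred q] (A : Matrix ι κ ℝ) :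
    Matrix ι κ ℝ := fun i j => if p i ∧ q j then A i j else 0

lemma fro_mask_le (p : ι → Prop) (q : κ → Prop) [DecidablePred p] [DecidablePred q]
    (A : Matrix ι κ ℝ) : fro (mask p q A) ≤ fro A :=
  Finset.sum_le_sum fun i _ => Finset.sum_le_sum fun j _ => by
    simp only [mask]; split_ifs <;> simp [sq_nonneg]

lemma dot_mask (p : ι → Prop) (q : κ → Prop) [DecidablePred p] [DecidablePred q]
    (A : Matrix ι κ ℝ) (x : ι → ℝ) (y : κ → ℝ) : x ⬝ᵥ mask p q A *ᵥ y =
      (fun i => if p i then x i else 0) ⬝ᵥ A *ᵥ (fun j => if q j then y j else 0) := by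
  simp only [dotProduct, mulVec, mask, Finset.mul_sum]
  refine Finset.sum_congr rfl fun i _ => Finset.sum_congr rfl fun j _ => ?_
  by_cases hi : p i <;> by_cases hj : q j <;> simp [hi, hj]

lemma OpB.mask {K : ℝ} (hK : 0 ≤ K) {A : Matrix ι κ ℝ} (h : OpB K A) (p : ι → Prop) (q : κ → Prop)
    [DecidablePred p] [DecidablePred q] : OpB K (mask p q A) :=
  opB_of_bilin hK fun x y => by
    rw [dot_mask]
    refine ((le_abs_self _).trans (h.bilin _ _)).trans ?_
    exact mul_le_mul (mul_le_mul_of_nonneg_left (en_mask_le _ _) hK) (en_mask_le _ _)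
      (en_nonneg _) (mul_nonneg hK (en_nonneg _))

/-- independent entries with `E exp(t x) ≤ exp(t² / 2)` -/
def SG1 (ν : ι → Measure ℝ) : Prop := ∀ i, HasSubgaussianMGF (fun x : ℝ => x) 1 (ν i)

lemma int_exp_gauss (t : ℝ) : ∫ x, Real.exp (t * x) ∂gaussianReal 0 1 = Real.exp (t ^ 2 / 2) :=
  congrFun R166.Gauss286.mgf_std t

lemma subG_gauss : HasSubgaussianMGF (fun x : ℝ => x) 1 (gaussianReal 0 1) :=
  ⟨fun t => integrable_exp_mul_gaussianReal t, fun t => by
    simpa [mgf] using (int_exp_gauss t).le⟩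

lemma integrable_coin (f : ℝ → ℝ) : Integrable f E.coin :=
  ((integrable_dirac (by simp)).smul_measure (by simp)).add_measure
    ((integrable_dirac (by simp)).smul_measure (by simp))

lemma integral_coin (f : ℝ → ℝ) : ∫ x, f x ∂E.coin = (f 1 + f (-1)) / 2 := by
  rw [integral_add_measure ((integrable_dirac (by simp)).smul_measure (by simp))
    ((integrable_dirac (by simp)).smul_measure (by simp))]
  simp only [integral_smul_measure, integral_dirac, smul_eq_mul]
  norm_num; ring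

lemma subG_coin : HasSubgaussianMGF (fun x : ℝ => x) 1 E.coin :=
  ⟨fun t => integrable_coin _, fun t => by
    have := Real.cosh_le_exp_half_sq t
    rw [Real.cosh_eq] at this
    rw [mgf, integral_coin]
    simpa using this⟩

lemma subG_entry (b : Bool) : HasSubgaussianMGF (fun x : ℝ => x) 1 (E.entryLaw b) := by
  cases b
  · exact subG_gauss
  · exact subG_coin

lemma sq_entry (b : Bool) : ∫ x, x ^ 2 ∂E.entryLaw b = 1 := by
  cases b
  · exact R166.Gauss286.int_x2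
  · exact (integral_coin _).trans (by norm_num)

omit [Fintype ι] in
lemma sg1_entry (b : Bool) : SG1 fun _ : ι => E.entryLaw b := fun _ => subG_entry b
omit [Fintype ι] in
lemma sg1_gauss : SG1 fun _ : ι => gaussianReal 0 1 := fun _ => subG_gauss

lemma lint_dot_gv (a : ι → ℝ) : ∫⁻ x, ex (a ⬝ᵥ x) ∂gv ι = ex (en a ^ 2 / 2) := by
  have hi : Integrable (fun x => Real.exp (a ⬝ᵥ x)) (gv ι) := by
    simpa only [one_mul, dotProduct] using (elip_dot a).integrable_exp 1
  rw [lintegral_ex hi, en_sq, Finset.sum_div]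
  simp only [dotProduct, Real.exp_sum, ex]
  rw [integral_fintype_prod_eq_prod (fun i x => Real.exp (a i * x))]
  simp only [int_exp_gauss]

lemma log_ineq {u : ℝ} (hu : |u| ≤ 1 / 2) : Real.exp (-(u + u ^ 2)) ≤ 1 - u := by
  obtain ⟨h1, h2⟩ := abs_le.1 hu
  rw [Real.exp_neg, inv_le_iff_one_le_mul₀ (Real.exp_pos _)]
  rcases le_total 0 u with h | h
  · have h3 := Real.quadratic_le_exp_of_nonneg (x := u + u ^ 2) (by positivity)
    have h4 : 1 ≤ (1 - u) * (1 + (u + u ^ 2) + (u + u ^ 2) ^ 2 / 2) := by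
      have : 0 ≤ u ^ 2 * (1 - u - u ^ 2 - u ^ 3) := by
        refine mul_nonneg (sq_nonneg _) ?_
        nlinarith [mul_nonneg h h, mul_nonneg (mul_nonneg h h) h]
      nlinarith
    exact h4.trans (mul_le_mul_of_nonneg_left h3 (by linarith))
  · have h3 := Real.add_one_le_exp (u + u ^ 2)
    have h4 : 1 ≤ (1 - u) * (u + u ^ 2 + 1) := by
      have : 0 ≤ -u * u ^ 2 := mul_nonneg (by linarith) (sq_nonneg _)
      nlinarith
    exact h4.trans (mul_le_mul_of_nonneg_left h3 (by linarith))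

lemma lint_sq_gauss {s : ℝ} (hs : |s| ≤ 1 / 4) :
    ∫⁻ x, ex (s * x ^ 2) ∂gaussianReal 0 1 ≤ ex (s + 2 * s ^ 2) := by
  obtain ⟨h1, h2⟩ := abs_le.1 hs
  have hm : Measurable (gaussianPDF 0 1) := measurable_gaussianPDF 0 1
  rw [gaussianReal_of_var_ne_zero _ (by norm_num),
    lintegral_withDensity_eq_lintegral_mul _ hm (by fun_prop)]
  have e : ∀ x : ℝ, (gaussianPDF 0 1 * fun x => ex (s * x ^ 2)) x =
      ex (Real.log (Real.sqrt (2 * Real.pi))⁻¹) * ex (-(1 / 2 - s) * x ^ 2) := fun x => by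
    simp only [Pi.mul_apply, pdf_eq, ← ex_add]; congr 1; ring
  simp only [e]
  have hb : 0 < 1 / 2 - s := by linarith
  rw [lintegral_const_mul' _ _ (ex_ne_top _), lintegral_ex (integrable_exp_neg_mul_sq hb),
    integral_gaussian, ex, ← ENNReal.ofReal_mul (Real.exp_pos _).le,
    Real.exp_log (by positivity), ← Real.sqrt_inv, ← Real.sqrt_mul (by positivity)]
  refine ENNReal.ofReal_le_ofReal (Real.sqrt_le_iff.2 ⟨(Real.exp_pos _).le, ?_⟩)
  have h3 := log_ineq (u := 2 * s) (by rw [abs_mul, abs_two]; linarith)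
  have e2 : (2 * Real.pi)⁻¹ * (Real.pi / (1 / 2 - s)) = (1 - 2 * s)⁻¹ := by
    have := Real.pi_pos
    have : 1 - 2 * s ≠ 0 := by linarith
    have : 1 / 2 - s ≠ 0 := by linarith
    field_simp
  rw [e2, ← Real.exp_nat_mul, inv_le_comm₀ (by linarith) (Real.exp_pos _), ← Real.exp_neg]
  refine le_trans (le_of_eq ?_) h3
  congr 1; push_cast; ring

/-- Gaussian quadratic forms through the eigenvalues -/
lemma lint_quad_gv {S : Matrix ι ι ℝ} (hS : Sᵀ = S) {K : ℝ}
    (hK : ∀ x, |x ⬝ᵥ S *ᵥ x| ≤ K * en x ^ 2) :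
    ∃ a : ι → ℝ, (∀ i, |a i| ≤ K) ∧ ∑ i, a i = S.trace ∧ ∑ i, a i ^ 2 = fro S ∧
      ((∀ x, 0 ≤ x ⬝ᵥ S *ᵥ x) → ∀ i, 0 ≤ a i) ∧
      ∀ t, (∀ i, |t * a i| ≤ 1 / 4) →
        ∫⁻ x, ex (t * (x ⬝ᵥ S *ᵥ x)) ∂gv ι ≤ ex (∑ i, (t * a i + 2 * (t * a i) ^ 2)) := by
  classical
  have hS' : S.IsHermitian := by
    rw [Matrix.IsHermitian, Matrix.conjTranspose_eq_transpose_of_trivial]; exact hS
  obtain ⟨O, h1, h2, h3⟩ := R166.Gauss286.exists_diag hS'
  set a := hS'.eigenvalues
  clear_value a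
  subst h3
  have e1 : ∀ i, (Oᵀ *ᵥ (Pi.single i 1)) ⬝ᵥ (Oᵀ * diagonal a * O) *ᵥ (Oᵀ *ᵥ (Pi.single i 1)) =
      a i := fun i => by
    rw [R166.Gauss286.quad_eq, Matrix.mulVec_mulVec, h1, Matrix.one_mulVec,
      Finset.sum_eq_single i (fun j _ hj => by simp [hj]) (by simp)]
    simp
  have e2 : ∀ i, en (Oᵀ *ᵥ (Pi.single i (1 : ℝ))) ^ 2 = 1 := fun i => by
    rw [← dot_self, Matrix.dotProduct_mulVec, Matrix.vecMul_transpose, Matrix.mulVec_mulVec, h1,
      Matrix.one_mulVec]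
    simp
  refine ⟨a, fun i => ?_, (R166.Gauss286.trace_eq h1 a).symm, (R166.Gauss286.sum_sq_eq h1 a).symm,
    fun h i => ?_, fun t ht => ?_⟩
  · have := hK (Oᵀ *ᵥ (Pi.single i 1))
    rwa [e1, e2, mul_one] at this
  · rw [← e1 i]; exact h _
  · simp only [R166.Gauss286.quad_eq]
    have hmp : MeasurePreserving (fun x => O *ᵥ x) (gv ι) (gv ι) :=
      ⟨R166.Gauss286.measurable_mulVec O, R166.Gauss286.gv_map_mulVec O h1⟩
    rw [hmp.lintegral_comp (f := fun y => ex (t * ∑ i, a i * y i ^ 2)) (by fun_prop)]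
    simp only [Finset.mul_sum, ← mul_assoc]
    exact lint_ex_sum (u := fun i x => t * a i * x ^ 2) (fun i => by fun_prop)
      fun i => lint_sq_gauss (ht i)

@[fun_prop] lemma continuous_bilin (A : Matrix ι κ ℝ) :
    Continuous fun p : (ι → ℝ) × (κ → ℝ) => p.1 ⬝ᵥ A *ᵥ p.2 := by
  simp only [dotProduct, mulVec]; fun_prop

lemma continuous_quad (A : Matrix ι ι ℝ) : Continuous fun x : ι → ℝ => x ⬝ᵥ A *ᵥ x := by
  simp only [dotProduct, mulVec]; fun_prop


/-- **Gaussian Hanson-Wright** (any real matrix; `K` bounds the quadratic form) -/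
theorem subE_gauss_quad {A : Matrix ι ι ℝ} {K : ℝ} (hK0 : 0 < K)
    (hK : ∀ x, |x ⬝ᵥ A *ᵥ x| ≤ K * en x ^ 2) :
    SubE (fun x => x ⬝ᵥ A *ᵥ x - A.trace) (2 * fro A) (1 / (4 * K)) (gv ι) := by
  have hc := continuous_quad A
  refine ⟨by fun_prop, fun t ht => ?_⟩
  set S : Matrix ι ι ℝ := Matrix.of fun i j => (A i j + A j i) / 2 with hSd
  have hq : ∀ x, x ⬝ᵥ A *ᵥ x = x ⬝ᵥ S *ᵥ x := fun x => by
    rw [R166.Gauss286.dotProduct_mulVec_eq, R166.Gauss286.quad_symm_eq]
  have htr : A.trace = S.trace := by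
    simp only [Matrix.trace, Matrix.diag, hSd, Matrix.of_apply]
    exact Finset.sum_congr rfl fun i _ => by ring
  have hS : Sᵀ = S := by
    ext i j; simp only [hSd, Matrix.transpose_apply, Matrix.of_apply]; ring
  obtain ⟨a, ha, h1, h2, -, h4⟩ := lint_quad_gv hS (K := K) (fun x => hq x ▸ hK x)
  have h5 := h4 t fun i => by
    rw [abs_mul]
    rw [le_div_iff₀ (by positivity)] at ht
    nlinarith [mul_le_mul_of_nonneg_left (ha i) (abs_nonneg t)]
  have e : ∀ x, ex (t * (x ⬝ᵥ A *ᵥ x - A.trace)) =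
      ex (-(t * S.trace)) * ex (t * (x ⬝ᵥ S *ᵥ x)) := fun x => by
    rw [← ex_add, hq, htr]; congr 1; ring
  simp only [e]
  rw [lintegral_const_mul' _ _ (ex_ne_top _)]
  refine (mul_le_mul_right h5 _).trans ?_
  rw [← ex_add]
  refine ex_mono ?_
  have h6 : fro S ≤ fro A := R166.Gauss286.sum_sym_sq_le A
  simp only [Finset.sum_add_distrib, mul_pow, ← Finset.mul_sum, h1, h2]
  nlinarith [mul_le_mul_of_nonneg_left h6 (sq_nonneg t)]

lemma normsq_gv {B : Matrix κ ι ℝ} {K : ℝ} (hB : OpB K B) {t : ℝ} (ht : 0 ≤ t)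
    (htK : t * K ^ 2 ≤ 1 / 4) : ∫⁻ x, ex (t * en (B *ᵥ x) ^ 2) ∂gv ι ≤ ex (2 * t * fro B) := by
  have hq : ∀ x, x ⬝ᵥ (Bᵀ * B) *ᵥ x = en (B *ᵥ x) ^ 2 := fun x => by
    rw [← Matrix.mulVec_mulVec, Matrix.dotProduct_mulVec, Matrix.vecMul_transpose, dot_self]
  obtain ⟨a, ha, h1, -, h3, h4⟩ := lint_quad_gv (S := Bᵀ * B) (by simp) (K := K ^ 2) (fun x => by
    rw [hq, abs_of_nonneg (sq_nonneg _), ← mul_pow]
    exact pow_le_pow_left₀ (en_nonneg _) (hB x) 2)
  have h5 := h3 fun x => by rw [hq]; exact sq_nonneg _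
  have h6 : ∀ i, t * a i ≤ 1 / 4 := fun i =>
    (mul_le_mul_of_nonneg_left ((le_abs_self _).trans (ha i)) ht).trans htK
  have h7 := h4 t fun i => by rw [abs_of_nonneg (mul_nonneg ht (h5 i))]; exact h6 i
  simp only [hq] at h7
  refine h7.trans (ex_mono ?_)
  have e : (Bᵀ * B).trace = fro B := by
    simp only [Matrix.trace, Matrix.diag, Matrix.mul_apply, Matrix.transpose_apply, fro, sq]
    exact Finset.sum_comm
  rw [← e, ← h1, Finset.mul_sum]
  refine Finset.sum_le_sum fun i _ => ?_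
  nlinarith [mul_nonneg ht (h5 i), h6 i]

section subg
variable {ν : ι → Measure ℝ} [∀ i, IsProbabilityMeasure (ν i)]
  {ν' : κ → Measure ℝ} [∀ i, IsProbabilityMeasure (ν' i)]

lemma lint_dot (hν : SG1 ν) (a : ι → ℝ) :
    ∫⁻ x, ex (a ⬝ᵥ x) ∂Measure.pi ν ≤ ex (en a ^ 2 / 2) := by
  rw [en_sq, Finset.sum_div]
  exact lint_ex_sum (u := fun i x => a i * x) (fun i => by fun_prop)
    fun i => by simpa using subG_lint (hν i) (a i)

/-- linear forms are sub-Gaussian -/
theorem subG_lin (hν : SG1 ν) (a : ι → ℝ) {c : ℝ≥0} (hc : ∑ i, a i ^ 2 ≤ c) :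
    HasSubgaussianMGF (fun x => a ⬝ᵥ x) c (Measure.pi ν) := by
  refine subG_of_lint (elip_dot a).continuous.measurable.aemeasurable fun t => ?_
  have := lint_dot hν (t • a)
  simp only [smul_dotProduct, smul_eq_mul, en_smul, mul_pow, sq_abs, en_sq] at this
  refine this.trans (ex_mono ?_)
  nlinarith [mul_le_mul_of_nonneg_left hc (sq_nonneg t)]

/-- `E exp(t |Bx|²) ≤ exp(2 t ‖B‖_F²)` for `0 ≤ t ‖B‖² ≤ 1/4` -/
theorem normsq_lint (hν : SG1 ν) {B : Matrix κ ι ℝ} {K : ℝ} (hK : 0 ≤ K) (hB : OpB K B) {t : ℝ}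
    (ht : 0 ≤ t) (htK : t * K ^ 2 ≤ 1 / 4) :
    ∫⁻ x, ex (t * en (B *ᵥ x) ^ 2) ∂Measure.pi ν ≤ ex (2 * t * fro B) := by
  set s := Real.sqrt (2 * t)
  have hs : s ^ 2 = 2 * t := Real.sq_sqrt (by linarith)
  have e1 : ∀ x, ex (t * en (B *ᵥ x) ^ 2) = ∫⁻ h, ex (s * (h ⬝ᵥ B *ᵥ x)) ∂gv κ := fun x => by
    have := lint_dot_gv (s • B *ᵥ x)
    simp only [smul_dotProduct, smul_eq_mul, en_smul, mul_pow, sq_abs, hs] at this
    simp only [dotProduct_comm _ (B *ᵥ x)]
    rw [this]; congr 1; ring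
  simp only [e1]
  have hc := (continuous_bilin B).comp continuous_swap
  rw [lintegral_lintegral_swap (f := fun (x : ι → ℝ) (h : κ → ℝ) => ex (s * (h ⬝ᵥ B *ᵥ x)))
    (Measurable.aemeasurable (measurable_ex.comp (hc.measurable.const_mul s)))]
  refine le_trans (lintegral_mono fun h => ?_) (fro_transpose B ▸ normsq_gv (hB.transpose hK) ht htK)
  have := lint_dot hν (s • Bᵀ *ᵥ h)
  simp only [smul_dotProduct, smul_eq_mul, en_smul, mul_pow, sq_abs, hs] at this
  simp only [dotProduct_mulVec h B, ← mulVec_transpose]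
  refine this.trans (le_of_eq ?_)
  congr 1; ring

lemma bilin_lint (hν : SG1 ν) (hν' : SG1 ν') {A : Matrix ι κ ℝ} {K : ℝ} (hK : 0 ≤ K)
    (hA : OpB K A) {s : ℝ} (hs : s ^ 2 * K ^ 2 ≤ 1 / 2) :
    ∫⁻ p, ex (s * (p.1 ⬝ᵥ A *ᵥ p.2)) ∂(Measure.pi ν).prod (Measure.pi ν') ≤ ex (fro A * s ^ 2) := by
  have hc := continuous_bilin A
  rw [lintegral_prod_symm' _ (by fun_prop)]
  have h1 := normsq_lint hν' hK hA (t := s ^ 2 / 2) (by positivity) (by linarith)
  rw [show 2 * (s ^ 2 / 2) * fro A = fro A * s ^ 2 by ring] at h1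
  refine le_trans (lintegral_mono fun y => ?_) h1
  have := lint_dot hν (s • A *ᵥ y)
  simp only [smul_dotProduct, smul_eq_mul, en_smul, mul_pow, sq_abs] at this
  simp only [dotProduct_comm _ (A *ᵥ y)]
  refine this.trans (le_of_eq ?_)
  congr 1; ring


lemma sum_bool_pair [DecidableEq ι] {i j : ι} (hij : i ≠ j) :
    ∑ δ : ι → Bool, (if δ i = true ∧ ¬ δ j = true then (4 : ℝ) else 0) =
      Fintype.card (ι → Bool) := by
  have h1 : ∀ δ : ι → Bool, (if δ i = true ∧ ¬ δ j = true then (4 : ℝ) else 0) =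
      ∏ k, (fun k (b : Bool) => (if k = i then (if b = true then (2:ℝ) else 0) else 1) *
        (if k = j then (if b = true then (0:ℝ) else 2) else 1)) k (δ k) := fun δ => by
    simp only [Finset.prod_mul_distrib, Finset.prod_ite_eq', Finset.mem_univ, if_true]
    cases δ i <;> cases δ j <;> norm_num
  rw [Finset.sum_congr rfl fun δ _ => h1 δ, ← Fintype.piFinset_univ,
    ← Finset.prod_univ_sum (fun _ => Finset.univ)
      (fun k (b : Bool) => (if k = i then (if b = true then (2:ℝ) else 0) else 1) *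
        (if k = j then (if b = true then (0:ℝ) else 2) else 1)), Fintype.card_pi]
  push_cast
  refine Finset.prod_congr rfl fun k _ => ?_
  by_cases hi : k = i
  · subst hi; simp [hij]
  · by_cases hj : k = j
    · subst hj; simp [hi]
    · simp [hi, hj]

/-- the off-diagonal chaos -/
def offd [DecidableEq ι] (A : Matrix ι ι ℝ) (x : ι → ℝ) : ℝ :=
  ∑ i, ∑ j, if i = j then 0 else x i * A i j * x j

lemma offd_eq [DecidableEq ι] (A : Matrix ι ι ℝ) (x : ι → ℝ) :
    offd A x = x ⬝ᵥ A *ᵥ x - ∑ i, A i i * x i ^ 2 := by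
  rw [R166.Gauss286.dotProduct_mulVec_eq, ← Finset.sum_sub_distrib]
  refine Finset.sum_congr rfl fun i _ => ?_
  have : ∀ j, (if i = j then 0 else x i * A i j * x j) =
      x i * A i j * x j - if i = j then x i * A i j * x j else 0 := fun j => by
    split_ifs <;> simp
  simp only [this, Finset.sum_sub_distrib, Finset.sum_ite_eq, Finset.mem_univ, if_true]
  ring

lemma offd_avg [DecidableEq ι] (A : Matrix ι ι ℝ) (x : ι → ℝ) :
    offd A x = ∑ δ : ι → Bool, (Fintype.card (ι → Bool) : ℝ)⁻¹ *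
      (4 * (x ⬝ᵥ mask (fun i => δ i = true) (fun j => ¬ δ j = true) A *ᵥ x)) := by
  have hN : (Fintype.card (ι → Bool) : ℝ) ≠ 0 := by exact_mod_cast Fintype.card_ne_zero
  simp only [R166.Gauss286.dotProduct_mulVec_eq, Finset.mul_sum, offd]
  symm
  rw [Finset.sum_comm]
  refine Finset.sum_congr rfl fun i _ => ?_
  rw [Finset.sum_comm]
  refine Finset.sum_congr rfl fun j _ => ?_
  symm
  have e : ∀ δ : ι → Bool, (Fintype.card (ι → Bool) : ℝ)⁻¹ *
      (4 * (x i * mask (fun i => δ i = true) (fun j => ¬ δ j = true) A i j * x j)) =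
      (Fintype.card (ι → Bool) : ℝ)⁻¹ * (x i * A i j * x j) *
        (if δ i = true ∧ ¬ δ j = true then (4 : ℝ) else 0) := fun δ => by
    simp only [mask]; split_ifs <;> ring
  simp only [e, ← Finset.mul_sum]
  split_ifs with h
  · subst h; simp
  · rw [sum_bool_pair h]; field_simp

/-- **Hanson-Wright, off-diagonal part** -/
theorem subE_offdiag [DecidableEq ι] (hν : SG1 ν) {A : Matrix ι ι ℝ} {K : ℝ} (hK : 0 < K)
    (hA : OpB K A) : SubE (offd A) (16 * fro A) (1 / (8 * K)) (Measure.pi ν) := by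
  have hc : Continuous (offd A) := by
    have := continuous_quad A
    rw [show offd A = fun x => x ⬝ᵥ A *ᵥ x - ∑ i, A i i * x i ^ 2 from funext (offd_eq A)]
    fun_prop
  refine ⟨hc.measurable.aemeasurable, fun t ht => ?_⟩
  set N : ℝ := (Fintype.card (ι → Bool) : ℝ) with hNd
  have hN : 0 < N := by rw [hNd]; exact_mod_cast Fintype.card_pos
  let M : (ι → Bool) → Matrix ι ι ℝ := fun δ => mask (fun i => δ i = true) (fun j => ¬ δ j = true) A
  have h1 : ∀ x, ex (t * offd A x) ≤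
      ∑ δ : ι → Bool, ENNReal.ofReal N⁻¹ * ex (4 * t * (x ⬝ᵥ M δ *ᵥ x)) := fun x => by
    have hj := convexOn_exp.map_sum_le (t := Finset.univ) (w := fun _ : ι → Bool => N⁻¹)
      (p := fun δ => 4 * t * (x ⬝ᵥ M δ *ᵥ x)) (fun _ _ => by positivity)
      (by simp only [Finset.sum_const, Finset.card_univ, nsmul_eq_mul, ← hNd]; field_simp)
      (fun _ _ => mem_univ _)
    simp only [ex, ← ENNReal.ofReal_mul (inv_pos.2 hN).le]
    rw [← ENNReal.ofReal_sum_of_nonneg (fun _ _ => by positivity)]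
    refine ENNReal.ofReal_le_ofReal (le_trans (le_of_eq ?_) hj)
    rw [offd_avg, Finset.mul_sum]
    congr 1
    refine Finset.sum_congr rfl fun δ _ => ?_
    simp only [smul_eq_mul, M, ← hNd]; ring
  have h2 : ∀ δ, ∫⁻ x, ex (4 * t * (x ⬝ᵥ M δ *ᵥ x)) ∂Measure.pi ν ≤ ex (16 * fro A * t ^ 2) := by
    intro δ
    have hq := continuous_quad (M δ)
    rw [← (mp_mix ν fun i => δ i = true).lintegral_comp
      (f := fun x => ex (4 * t * (x ⬝ᵥ M δ *ᵥ x))) (by fun_prop)]
    have h3 := bilin_lint hν hν hK.le (hA.mask hK.le (fun i => δ i = true) (fun j => ¬ δ j = true))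
      (s := 4 * t) (by
        rw [le_div_iff₀ (by positivity)] at ht
        have h0 : 0 ≤ |t| * (8 * K) := by positivity
        have := pow_le_pow_left₀ h0 ht 2
        rw [mul_pow, sq_abs] at this
        nlinarith)
    refine le_trans (le_of_eq ?_) (h3.trans (ex_mono ?_))
    · congr 1; ext z
      simp only [M, dot_mask]
      congr 3
      · ext i; split_ifs <;> rfl
      · congr 1; ext i; by_cases hi : δ i = true <;> simp [hi]
    · nlinarith [mul_le_mul_of_nonneg_right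
        (fro_mask_le (fun i => δ i = true) (fun j => ¬ δ j = true) A) (sq_nonneg t)]
  refine (lintegral_mono h1).trans ?_
  rw [lintegral_finsetSum _ (fun δ _ => by have hq := continuous_quad (M δ); fun_prop)]
  calc _ ≤ ∑ _δ : ι → Bool, ENNReal.ofReal N⁻¹ * ex (16 * fro A * t ^ 2) :=
        Finset.sum_le_sum fun δ _ => by
          rw [lintegral_const_mul' _ _ ENNReal.ofReal_ne_top]
          exact mul_le_mul_right (h2 δ) _
    _ = _ := by
        rw [← Finset.sum_mul, ← ENNReal.ofReal_sum_of_nonneg (fun _ _ => by positivity)]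
        simp only [Finset.sum_const, Finset.card_univ, nsmul_eq_mul, ← hNd]
        rw [mul_inv_cancel₀ hN.ne', ENNReal.ofReal_one, one_mul]

end subg

end Crest.Agent.T157.Conc
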