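import Crest.Agent.T157.ScDef_68
import Crest.Agent.T157.ConcH_16

/-!
Row 157, part D (helper68): list facts for the grid step functions.
-/

set_option autoImplicit false

noncomputable section

namespace Crest.Agent.T157.Sc

open MeasureTheory Real Set
open Crest.Agent.R164.GC Crest.Agent.R339.B Crest.Agent.R339.Var
open Crest.Agent.T157.Pf (Par)
open Crest.ProbabilityR.InvariantGlass (gaussOp)

/-- blocks of equal length `v` with exponents `z 0, …, z (N-1)` -/
def blk (z : ℕ → ℝ) (v : ℝ) (N : ℕ) : List (ℝ × ℝ) := List.ofFn fun k : Fin N => (z k, v)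

theorem blk_succ (z : ℕ → ℝ) (v : ℝ) (N : ℕ) :
    blk z v (N + 1) = (z 0, v) :: blk (fun k => z (k + 1)) v N := by
  unfold blk
  rw [List.ofFn_succ]
  rfl

theorem adm_blk {v : ℝ} (hv : 0 ≤ v) : ∀ (N : ℕ) {z : ℕ → ℝ}, Monotone z → (∀ k, 0 < z k) →
    (∀ k, z k ≤ 1) → Adm 1 (blk z v N)
  | 0, _, _, _, _ => trivial
  | N + 1, z, hm, h0, h1 => by
    rw [blk_succ]
    refine ⟨h0 0, ?_, hv, adm_blk hv N (fun a b hab => hm (Nat.succ_le_succ hab))
      (fun k => h0 _) fun k => h1 _⟩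
    cases N with
    | zero => exact h1 0
    | succ N => rw [blk_succ]; exact hm (Nat.zero_le _)

theorem TT_cons (p : ℝ × ℝ) (l : List (ℝ × ℝ)) : TT (p :: l) = p.2 + TT l := by simp [TT]

theorem TT_blk (v : ℝ) : ∀ (N : ℕ) (z : ℕ → ℝ), TT (blk z v N) = N * v
  | 0, _ => by simp [blk, TT]
  | N + 1, z => by rw [blk_succ, TT_cons, TT_blk v N]; push_cast; ring

theorem TT_cut : ∀ {l : List (ℝ × ℝ)} {t : ℝ}, 0 ≤ t → t ≤ TT l → TT (cut l t) = t
  | [], t, h0, h1 => by
    have : TT ([] : List (ℝ × ℝ)) = 0 := rfl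
    show TT [] = t
    linarith
  | p :: l, t, h0, h1 => by
    rw [TT_cons] at h1
    unfold cut
    split_ifs with h
    · simp [TT]
    · rw [TT_cons, TT_cut (by linarith) (by linarith)]; ring

theorem cut_nonneg : ∀ {l : List (ℝ × ℝ)}, (∀ p ∈ l, 0 ≤ p.2) → ∀ {t : ℝ}, 0 ≤ t →
    ∀ p ∈ cut l t, 0 ≤ p.2
  | [], _, _, _ => fun _ h => by simp [cut] at h
  | p :: l, h, t, ht => by
    unfold cut
    split_ifs with h1
    · intro q hq
      rw [List.mem_singleton.1 hq]
      exact ht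
    · intro q hq
      rcases List.mem_cons.1 hq with rfl | hq
      · exact h _ List.mem_cons_self
      · exact cut_nonneg (fun r hr => h r (List.mem_cons_of_mem _ hr)) (by linarith) q hq

theorem adm_nonneg {β : ℝ} : ∀ {l : List (ℝ × ℝ)}, Adm β l → ∀ p ∈ l, 0 ≤ p.2
  | [], _ => fun _ h => by simp at h
  | p :: l, h => by
    intro q hq
    rcases List.mem_cons.1 hq with rfl | hq
    · exact h.2.2.1
    · exact adm_nonneg h.2.2.2 q hq

theorem z_le_one {P : Par} (h : P.OK) (k : ℕ) : P.z k ≤ 1 := by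
  rw [← h.top (max k P.a) (le_max_right _ _)]
  exact h.mono (le_max_left _ _)

theorem adm_lst {P : Par} (h : P.OK) (β : ℝ) (N : ℕ) : Adm 1 (P.lst β N) :=
  adm_blk (by positivity) N h.mono h.pos (z_le_one h)

theorem TT_lst {P : Par} (h : P.OK) (β : ℝ) : TT (P.lst β P.K) = β ^ 2 := by
  have hK : (P.K : ℝ) ≠ 0 := by exact_mod_cast h.Kpos.ne'
  show TT (blk P.z (β ^ 2 / P.K) P.K) = _
  rw [TT_blk]; field_simp

theorem zeta_mono {P : Par} (h : P.OK) : Monotone P.zeta := fun _ _ hab =>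
  h.mono (Nat.floor_mono (mul_le_mul_of_nonneg_right hab (Nat.cast_nonneg _)))

theorem int_rzeta {P : Par} (h : P.OK) (a c : ℝ) :
    IntervalIntegrable (fun r => r * P.zeta r) volume a c :=
  ((zeta_mono h).intervalIntegrable (a := a) (b := c)).continuousOn_mul continuousOn_id

theorem int_block {P : Par} (h : P.OK) (j : ℕ) {s : ℝ} (h0 : (j : ℝ) / P.K ≤ s)
    (h1 : s ≤ ((j : ℝ) + 1) / P.K) :
    ∫ r in ((j : ℝ) / P.K)..s, r * P.zeta r = P.z j * (s ^ 2 - ((j : ℝ) / P.K) ^ 2) / 2 := by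
  have hK : (0 : ℝ) < P.K := by exact_mod_cast h.Kpos
  have e : ∫ r in ((j : ℝ) / P.K)..s, r * P.zeta r = ∫ r in ((j : ℝ) / P.K)..s, P.z j * r := by
    rw [intervalIntegral.integral_of_le h0, intervalIntegral.integral_of_le h0,
      integral_Ioc_eq_integral_Ioo, integral_Ioc_eq_integral_Ioo]
    refine setIntegral_congr_fun measurableSet_Ioo fun r hr => ?_
    have h2 : (j : ℝ) ≤ r * P.K := by
      have := hr.1.le; rwa [div_le_iff₀ hK] at this
    have h3 : r * P.K < (j : ℝ) + 1 := by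
      have := hr.2.trans_le h1; rwa [lt_div_iff₀ hK] at this
    have h4 : ⌊r * P.K⌋₊ = j := (Nat.floor_eq_iff ((Nat.cast_nonneg j).trans h2)).2 ⟨h2, h3⟩
    show r * P.zeta r = P.z j * r
    unfold Par.zeta
    rw [h4, mul_comm]
  rw [e, intervalIntegral.integral_const_mul, integral_id]
  ring

theorem pen_cut_aux {P : Par} (h : P.OK) (β : ℝ) (hβ : 0 < β) : ∀ (N j : ℕ) (s : ℝ),
    (j : ℝ) / P.K ≤ s → s ≤ ((j : ℝ) + N) / P.K →
    R339.Guerra.pen (β ^ 2 * (j / P.K)) (cut (blk (fun k => P.z (j + k)) (β ^ 2 / P.K) N)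
      (β ^ 2 * (s - j / P.K))) = 2 * β ^ 4 * ∫ r in ((j : ℝ) / P.K)..s, r * P.zeta r
  | 0, j, s, h0, h1 => by
    have : s = (j : ℝ) / P.K := le_antisymm (by simpa using h1) h0
    rw [this]
    simp [blk, cut, R339.Guerra.pen]
  | N + 1, j, s, h0, h1 => by
    have hK : (0 : ℝ) < P.K := by exact_mod_cast h.Kpos
    have hb : 0 < β ^ 2 := by positivity
    have e1 : ((j : ℝ) + 1) / P.K = j / P.K + 1 / P.K := by ring
    rw [blk_succ]
    unfold cut
    split_ifs with h2
    · have h3 : s ≤ ((j : ℝ) + 1) / P.K := by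
        have h4 : β ^ 2 * (s - j / P.K) ≤ β ^ 2 * (1 / P.K) := by
          simpa [div_eq_mul_inv] using h2
        have := le_of_mul_le_mul_left h4 hb
        linarith
      rw [int_block h j h0 h3]
      simp only [R339.Guerra.pen, add_zero]
      ring
    · have h3 : ((j : ℝ) + 1) / P.K ≤ s := by
        have h4 : β ^ 2 * (1 / P.K) < β ^ 2 * (s - j / P.K) := by
          simpa [div_eq_mul_inv] using not_le.1 h2
        have := lt_of_mul_lt_mul_left h4 hb.le
        linarith
      have ih := pen_cut_aux h β hβ N (j + 1) s (by push_cast; exact h3)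
        (by push_cast at h1 ⊢; rw [add_assoc, add_comm 1]; exact h1)
      push_cast at ih
      have e2 : (fun k => P.z (j + (k + 1))) = fun k => P.z (j + 1 + k) := by
        funext k; congr 1; ring
      have e3 : β ^ 2 * (s - j / P.K) - β ^ 2 / P.K = β ^ 2 * (s - (j + 1) / P.K) := by ring
      have e4 : β ^ 2 * (j / P.K) + β ^ 2 / P.K = β ^ 2 * ((j + 1) / P.K) := by ring
      simp only [R339.Guerra.pen]
      rw [e2, e3, e4, ih, ← intervalIntegral.integral_add_adjacent_intervals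
        (int_rzeta h (j / P.K) ((j + 1) / P.K)) (int_rzeta h _ s),
        int_block h j (by rw [e1]; linarith [one_div_pos.2 hK]) le_rfl]
      simp only [add_zero]
      ring

/-- the Guerra penalty of the blocks before the level `s` -/
theorem pen_cut {P : Par} (h : P.OK) {β : ℝ} (hβ : 0 < β) {s : ℝ} (hs : s ∈ Icc (0 : ℝ) 1) :
    R339.Guerra.pen 0 (cut (P.lst β P.K) (β ^ 2 * s)) = 4 * β ^ 2 * (P.pen β 0 - P.pen β s) := by
  have hK : (P.K : ℝ) ≠ 0 := by exact_mod_cast h.Kpos.ne'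
  have h1 := pen_cut_aux h β hβ P.K 0 s (by simpa using hs.1) (by simpa [hK] using hs.2)
  simp only [Nat.cast_zero, zero_div, mul_zero, zero_add, sub_zero] at h1
  have h2 := intervalIntegral.integral_add_adjacent_intervals (int_rzeta h 0 s) (int_rzeta h s 1)
  unfold Par.pen
  rw [← h2]
  calc _ = _ := h1
    _ = _ := by ring

/-! ### adding a constant, the annealed block -/


theorem gaussOp_add_const {F : ℝ → ℝ} (hF : Lip1 F) {m : ℝ} (hm : m ≠ 0) (v c : ℝ) :
    gaussOp m v (fun x => F x + c) = fun x => gaussOp m v F x + c := by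
  funext x
  have e : (fun y => exp (m * (F y + c))) = fun y => exp (m * c) * exp (m * F y) := by
    funext y; rw [← exp_add]; congr 1; ring
  rw [gaussOp_ne hm, gaussOp_ne hm, e, H_const_mul,
    log_mul (exp_pos _).ne' (den_pos hF m _ x).ne', log_exp]
  field_simp
  ring

theorem tE_add_const (F φ : ℝ → ℝ) (m v c : ℝ) :
    tE m v (fun x => F x + c) φ = tE m v F φ := by
  funext x
  have e : (fun y => exp (m * (F y + c))) = fun y => exp (m * c) * exp (m * F y) := by
    funext y; rw [← exp_add]; congr 1; ring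
  have e' : (fun y => φ y * exp (m * (F y + c))) =
      fun y => exp (m * c) * (φ y * exp (m * F y)) := by
    funext y; rw [congrFun e y]; ring
  unfold tE
  rw [e, e', H_const_mul, H_const_mul, mul_div_mul_left _ _ (exp_pos _).ne']

theorem rec_add_const {β : ℝ} {F : ℝ → ℝ} (hF : Lip1 F) (c : ℝ) : ∀ {l : List (ℝ × ℝ)}, Pos β l →
    Rec l (fun x => F x + c) = fun x => Rec l F x + c
  | [], _ => rfl
  | p :: l, h => by
    show gaussOp p.1 p.2 (Rec l fun x => F x + c) = _
    rw [rec_add_const hF c h.tail, gaussOp_add_const (lip1_rec hF h.tail) h.head.1.ne']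
    rfl

theorem EL_add_const {β : ℝ} {F : ℝ → ℝ} (hF : Lip1 F) (c : ℝ) (φ : ℝ → ℝ) :
    ∀ {l : List (ℝ × ℝ)}, Pos β l → EL l (fun x => F x + c) φ = EL l F φ
  | [], _ => rfl
  | p :: l, h => by
    show tE p.1 p.2 (Rec l fun x => F x + c) (EL l (fun x => F x + c) φ) = _
    rw [rec_add_const hF c h.tail, tE_add_const, EL_add_const hF c φ h.tail]
    rfl

theorem H_exp (a t x : ℝ) : H t (fun y => exp (a * y)) x = exp (a * x + (a * t) ^ 2 / 2) := by
  unfold H
  have e : (fun g => exp (a * (x + t * g))) = fun g => exp (a * x) * exp ((a * t) * g) := by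
    funext g; rw [← exp_add]; congr 1; ring
  rw [e, integral_const_mul, Conc.int_exp_gauss, ← exp_add]

theorem eg_exp (a : ℝ) : EG fun y => exp (a * y) :=
  EG.exp_lip (f := fun y => y) (fun x y => by linarith [le_abs_self (x - y)]) a

theorem gaussOp_phi0 {t : ℝ} (ht : 0 ≤ t) : gaussOp 1 t (phi0 1) = fun x => phi0 1 x + t / 2 := by
  funext x
  have e : (fun y => exp (1 * phi0 1 y)) = fun y => exp (1 * y) + exp (-1 * y) := by
    funext y
    unfold phi0
    rw [one_mul, div_one, exp_log (by positivity), one_mul, cosh_eq]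
    simp only [neg_mul, one_mul]
    ring
  rw [gaussOp_ne one_ne_zero, e, H_add (eg_exp 1) (eg_exp (-1)), H_exp, H_exp]
  have e2 : exp (1 * x + (1 * sqrt t) ^ 2 / 2) + exp (-1 * x + (-1 * sqrt t) ^ 2 / 2) =
      2 * cosh (1 * x) * exp (t / 2) := by
    simp only [one_mul, neg_mul, neg_sq, sq_sqrt ht]
    rw [exp_add, exp_add, cosh_eq]
    ring
  rw [e2, log_mul (by positivity) (exp_pos _).ne', log_exp]
  unfold phi0
  simp

end Crest.Agent.T157.Sc

end
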