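import Crest.Agent.T157.PfE_56
import Crest.Agent.T157.PfLip_62
import Crest.Agent.T157.Sc2_68

-- ▼ part T157/PfS_56
section

/-!
Row 157 (helper56): the scaling bridge between the words of `R339` (`β`, levels `m ≤ β`) and the
standard words (`ζ = m/β`), and the first variation of the functional.
-/

set_option autoImplicit false

namespace Crest.Agent.T157.Pf

open MeasureTheory Set Filter Topology
open Crest.Agent.R164.GC Crest.Agent.R339.B Crest.Agent.R339.Var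
open Crest.ProbabilityR.InvariantGlass (gaussOp)

noncomputable section

/-- `x ↦ β f(x/β)` -/
def sc (β : ℝ) (f : ℝ → ℝ) (x : ℝ) : ℝ := β * f (x / β)

/-- the blocks in standard words -/
def scl (β : ℝ) (l : List (ℝ × ℝ)) : List (ℝ × ℝ) := l.map fun p => (p.1 / β, β ^ 2 * p.2)

variable {β : ℝ}

theorem sqrt_sc (hβ : 0 < β) (v x g : ℝ) : (x + √(β ^ 2 * v) * g) / β = x / β + √v * g := by
  rw [Real.sqrt_mul (sq_nonneg β), Real.sqrt_sq hβ.le]
  field_simp

theorem mul_sc (hβ : 0 < β) (a : ℝ) (f : ℝ → ℝ) (y : ℝ) : a / β * sc β f y = a * f (y / β) := by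
  unfold sc
  field_simp

theorem gaussOp_sc (hβ : 0 < β) {a : ℝ} (ha : a ≠ 0) (v : ℝ) (f : ℝ → ℝ) :
    gaussOp (a / β) (β ^ 2 * v) (sc β f) = sc β (gaussOp a v f) := by
  funext x
  have h1 : a / β ≠ 0 := div_ne_zero ha hβ.ne'
  show _ = β * gaussOp a v f (x / β)
  unfold gaussOp
  rw [if_neg h1, if_neg ha]
  simp only [mul_sc hβ, sqrt_sc hβ]
  rw [inv_div, ← mul_assoc, div_eq_mul_inv]

theorem tE_sc (hβ : 0 < β) (a v : ℝ) (f F : ℝ → ℝ) :
    tE (a / β) (β ^ 2 * v) (sc β f) (fun y => F (y / β)) = fun x => tE a v f F (x / β) := by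
  funext x
  unfold tE H
  simp only [mul_sc hβ, sqrt_sc hβ]

theorem phi0_sc (hβ : 0 < β) : phi0 1 = sc β (phi0 β) := by
  funext x
  unfold sc phi0
  rw [one_mul, div_one, mul_div_cancel₀ x hβ.ne', mul_div_cancel₀ _ hβ.ne']

theorem PhiL_sc (hβ : 0 < β) : ∀ {l : List (ℝ × ℝ)}, (∀ p ∈ l, 0 < p.1) →
    PhiL 1 (scl β l) = sc β (PhiL β l)
  | [], _ => phi0_sc hβ
  | p :: l, h => by
    show gaussOp (p.1 / β) (β ^ 2 * p.2) (PhiL 1 (scl β l)) = sc β (gaussOp p.1 p.2 (PhiL β l))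
    rw [PhiL_sc hβ fun q hq => h q (List.mem_cons_of_mem _ hq),
      gaussOp_sc hβ (h p (by simp)).ne']

theorem PhiT_sc (hβ : 0 < β) : ∀ {l : List (ℝ × ℝ)}, (∀ p ∈ l, 0 < p.1) → ∀ t,
    PhiT 1 (scl β l) (β ^ 2 * t) = sc β (PhiT β l t)
  | [], _, _ => phi0_sc hβ
  | p :: l, h, t => by
    have hl := fun q hq => h q (List.mem_cons_of_mem p hq)
    have hb : 0 < β ^ 2 := by positivity
    show (if β ^ 2 * t ≤ β ^ 2 * p.2 then
        gaussOp (p.1 / β) (β ^ 2 * p.2 - β ^ 2 * t) (PhiL 1 (scl β l))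
      else PhiT 1 (scl β l) (β ^ 2 * t - β ^ 2 * p.2)) =
      sc β (if t ≤ p.2 then gaussOp p.1 (p.2 - t) (PhiL β l) else PhiT β l (t - p.2))
    simp only [mul_le_mul_iff_right₀ hb, ← mul_sub]
    split_ifs
    · rw [PhiL_sc hβ hl, gaussOp_sc hβ (h p (by simp)).ne']
    · exact PhiT_sc hβ hl _

theorem EX_sc (hβ : 0 < β) : ∀ {l : List (ℝ × ℝ)}, (∀ p ∈ l, 0 < p.1) → ∀ t (F : ℝ → ℝ),
    EX 1 (scl β l) (β ^ 2 * t) (fun y => F (y / β)) = fun x => EX β l t F (x / β)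
  | [], _, _, _ => rfl
  | p :: l, h, t, F => by
    have hl := fun q hq => h q (List.mem_cons_of_mem p hq)
    have hb : 0 < β ^ 2 := by positivity
    show (if β ^ 2 * t ≤ β ^ 2 * p.2 then tE (p.1 / β) (β ^ 2 * t)
        (gaussOp (p.1 / β) (β ^ 2 * p.2 - β ^ 2 * t) (PhiL 1 (scl β l))) (fun y => F (y / β))
      else tE (p.1 / β) (β ^ 2 * p.2) (PhiL 1 (scl β l))
        (EX 1 (scl β l) (β ^ 2 * t - β ^ 2 * p.2) fun y => F (y / β))) =
      fun x => (if t ≤ p.2 then tE p.1 t (gaussOp p.1 (p.2 - t) (PhiL β l)) F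
        else tE p.1 p.2 (PhiL β l) (EX β l (t - p.2) F)) (x / β)
    simp only [mul_le_mul_iff_right₀ hb, ← mul_sub]
    split_ifs
    · rw [PhiL_sc hβ hl, gaussOp_sc hβ (h p (by simp)).ne', tE_sc hβ]
    · rw [PhiL_sc hβ hl, EX_sc hβ hl, tE_sc hβ]

theorem deriv_sc (hβ : 0 < β) {f : ℝ → ℝ} (hf : Prof f) (x : ℝ) :
    deriv (sc β f) x = deriv f (x / β) := by
  have h1 := ((hf.d1 (x / β)).comp x ((hasDerivAt_id x).div_const β)).const_mul β
  have h2 : HasDerivAt (sc β f) (β * (deriv f (x / β) * (1 / β))) x := h1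
  rw [h2.deriv]
  field_simp

theorem pen_sc (β : ℝ) : ∀ (l : List (ℝ × ℝ)) (q : ℝ), β ≠ 0 →
    R339.Guerra.pen (β ^ 2 * q) (scl β l) = β ^ 3 * R339.Guerra.pen q l
  | [], _, _ => by simp [scl, R339.Guerra.pen]
  | p :: l, q, hβ => by
    show p.1 / β * ((β ^ 2 * q + β ^ 2 * p.2) ^ 2 - (β ^ 2 * q) ^ 2) +
      R339.Guerra.pen (β ^ 2 * q + β ^ 2 * p.2) (scl β l) =
      β ^ 3 * (p.1 * ((q + p.2) ^ 2 - q ^ 2) + R339.Guerra.pen (q + p.2) l)
    rw [← mul_add, pen_sc β l _ hβ]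
    field_simp

theorem cut_end : ∀ {l : List (ℝ × ℝ)}, (∀ p ∈ l, 0 < p.2) → Sc.cut l (TT l) = l
  | [], _ => rfl
  | [p], _ => by simp [Sc.cut, TT]
  | p :: q :: l, h => by
    have hl : ∀ r ∈ q :: l, 0 < r.2 := fun r hr => h r (List.mem_cons_of_mem p hr)
    have h1 : 0 < TT (q :: l) := by
      rw [Sc.TT_cons]
      have : 0 ≤ TT l := List.sum_nonneg fun x hx => by
        obtain ⟨r, hr, rfl⟩ := List.mem_map.1 hx
        exact (hl r (List.mem_cons_of_mem q hr)).le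
      linarith [hl q (by simp)]
    show (if TT (p :: q :: l) ≤ p.2 then [(p.1, TT (p :: q :: l))]
      else p :: Sc.cut (q :: l) (TT (p :: q :: l) - p.2)) = _
    rw [Sc.TT_cons p, if_neg (by linarith), add_sub_cancel_left, cut_end hl]

namespace Par

variable {P : Par}

/-- the levels in the words of `R339` -/
def mv (P : Par) (β : ℝ) : Fin P.K → ℝ := fun k => β * P.z k

theorem lst_sc (P : Par) (hβ : 0 < β) : P.lst β P.K = scl β (grid (P.mv β)) := by
  unfold lst scl grid mv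
  rw [List.map_ofFn]
  congr 1
  funext k
  simp only [Function.comp]
  rw [mul_div_cancel_left₀ _ hβ.ne', mul_one_div]

theorem OK.grid_pos (h : P.OK) (hβ : 0 < β) : ∀ p ∈ grid (P.mv β), 0 < p.1 := by
  intro p hp
  unfold grid at hp
  rw [List.mem_ofFn] at hp
  obtain ⟨k, rfl⟩ := hp
  exact mul_pos hβ (h.pos k)

theorem OK.Ph_sc (h : P.OK) (hβ : 0 < β) (s : ℝ) :
    P.Ph β s = sc β (PhiT β (grid (P.mv β)) s) := by
  rw [Ph_eq, lst_sc P hβ, PhiT_sc hβ (h.grid_pos hβ)]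

/-- `Γ` in the words of `R339` -/
theorem OK.Gam_sc (h : P.OK) (hβ : 0 < β) {s : ℝ} (hs : s ≤ 1) :
    P.Gam β s = QQ β (grid (P.mv β)) s 0 := by
  have e : (fun x => P.Px β s x ^ 2) =
      fun y => (fun y => deriv (PhiT β (grid (P.mv β)) s) y ^ 2) (y / β) := by
    funext x
    unfold Px
    rw [h.Ph_sc hβ, deriv_sc hβ (PhiT_prof hβ _ _)]
  unfold Gam
  rw [h.E_eq β h.aK (by nlinarith [h.Kp]), e, lst_sc P hβ]
  refine (congrFun (EX_sc hβ (h.grid_pos hβ) s
    (fun y => deriv (PhiT β (grid (P.mv β)) s) y ^ 2)) 0).trans ?_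
  simp only [zero_div]
  rfl

/-- the functional in the words of `R339` -/
theorem OK.val_sc (h : P.OK) (hβ : 0 < β) : P.val β = β * PF β (P.mv β) := by
  have h1 := Sc.pen_cut h hβ (s := 1) ⟨zero_le_one, le_rfl⟩
  have h0 := cut_end (h.lst_pos hβ P.K)
  rw [h.TT_K β] at h0
  rw [mul_one, h0, lst_sc P hβ] at h1
  have h2 := pen_sc β (grid (P.mv β)) 0 hβ.ne'
  rw [mul_zero, h1] at h2
  have h3 : P.pen β 1 = 0 := by simp [pen]
  have h4 : PhiT β (grid (P.mv β)) 0 = PhiL β (grid (P.mv β)) :=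
    PhiT_zero fun p hp => by rw [grid_snd _ p hp]; positivity
  unfold val PF PL
  rw [h.Ph_sc hβ, h4]
  unfold sc
  rw [zero_div]
  rw [h3] at h2
  have hb : β ^ 2 ≠ 0 := by positivity
  have : P.pen β 0 = β * R339.Guerra.pen 0 (grid (P.mv β)) / 4 := by
    apply mul_left_cancel₀ hb
    linarith
  rw [this]
  ring

/-- the segment between two data -/
def seg (P Q : Par) (t : ℝ) : Par := ⟨P.K, P.a, fun k => P.z k + t * (Q.z k - P.z k)⟩

theorem OK.seg (h : P.OK) {Q : Par} (h' : Q.OK) (ha : Q.a = P.a) {t : ℝ} (ht : t ∈ Icc (0:ℝ) 1) :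
    (seg P Q t).OK where
  Kpos := h.Kpos
  aK := h.aK
  mono := fun i j hij => by
    show P.z i + t * (Q.z i - P.z i) ≤ P.z j + t * (Q.z j - P.z j)
    nlinarith [mul_nonneg ht.1 (sub_nonneg.2 (h'.mono hij)),
      mul_nonneg (sub_nonneg.2 ht.2) (sub_nonneg.2 (h.mono hij))]
  pos := fun k => by
    show 0 < P.z k + t * (Q.z k - P.z k)
    rcases le_total (P.z k) (Q.z k) with h1 | h1
    · nlinarith [h.pos k, mul_nonneg ht.1 (sub_nonneg.2 h1)]
    · nlinarith [h'.pos k, mul_nonneg (sub_nonneg.2 ht.2) (sub_nonneg.2 h1)]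
  top := fun k hk => by
    show P.z k + t * (Q.z k - P.z k) = 1
    rw [h.top k hk, h'.top k (ha ▸ hk)]
    ring

theorem seg_one {Q : Par} (hK : Q.K = P.K) (ha : Q.a = P.a) (β : ℝ) :
    (P.seg Q 1).val β = Q.val β := by
  obtain ⟨K, a, z⟩ := P
  obtain ⟨K', a', z'⟩ := Q
  simp only at hK ha
  subst hK ha
  simp [Par.seg]

/-- **first variation**: near a stationary point the functional moves at second order -/
theorem OK.pert (h : P.OK) (hβ : 0 < β) {η : ℝ} (hη : 0 ≤ η)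
    (hg : ∀ s ∈ Icc 0 P.b, |P.Gam β s - s| ≤ η) {Q : Par} {e : ℝ} (h' : Q.OK) (hK : Q.K = P.K)
    (ha : Q.a = P.a) (hz : ∀ k, |Q.z k - P.z k| ≤ e) :
    Q.val β ≤ P.val β + β ^ 2 / 2 * (e * η + CG β * e ^ 2) := by
  have hKp := h.Kp
  have he : 0 ≤ e := (abs_nonneg _).trans (hz 0)
  have hCG := CG_nonneg β
  set w : Fin P.K → ℝ := fun k => β * (Q.z k - P.z k) with hw
  have emv : ∀ t, (P.seg Q t).mv β = P.mv β + t • w := fun t => by
    funext k
    show β * (P.z k + t * (Q.z k - P.z k)) = β * P.z k + t * (β * (Q.z k - P.z k))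
    ring
  set D : ℝ → ℝ := fun t => ∑ k : Fin P.K, w k * ((1/2) *
    ∫ s in ((k:ℕ):ℝ)/P.K..(((k:ℕ):ℝ)+1)/P.K, (QQ β (grid (P.mv β + t • w)) s 0 - s)) with hD
  have hd : ∀ t ∈ Icc (0:ℝ) 1, HasDerivAt (fun t => PF β (P.mv β + t • w)) (D t) t := by
    intro t ht
    have h1 := PF_hasDerivAt dmFormula hβ (m := P.mv β + t • w)
      (fun k => by rw [← emv]; exact mul_pos hβ ((h.seg h' ha ht).pos k)) w
    have h2 : HasDerivAt (fun r : ℝ => PF β (P.mv β + t • w + r • w)) (D t) (t - t) := by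
      rw [sub_self]; exact h1
    have h3 := h2.comp_sub_const t t
    refine h3.congr_of_eventuallyEq (Eventually.of_forall fun r => ?_)
    show PF β (P.mv β + r • w) = PF β (P.mv β + t • w + (r - t) • w)
    rw [add_assoc, ← add_smul, add_sub_cancel]
  have hb : ∀ t ∈ Icc (0:ℝ) 1, |D t| ≤ β * e * (η + CG β * e) / 2 := by
    intro t ht
    have hs := h.seg h' ha ht
    have hk : ∀ k : Fin P.K, |w k * ((1/2) * ∫ s in ((k:ℕ):ℝ)/P.K..(((k:ℕ):ℝ)+1)/P.K,
        (QQ β (grid (P.mv β + t • w)) s 0 - s))| ≤ β * e * (η + CG β * e) / 2 / P.K := by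
      intro k
      rcases le_or_gt P.a k with hk | hk
      · have : w k = 0 := by
          show β * (Q.z k - P.z k) = 0
          rw [h.top k hk, h'.top k (ha ▸ hk)]
          ring
        rw [this, zero_mul, abs_zero]
        positivity
      · have hle : ((k:ℕ):ℝ)/P.K ≤ (((k:ℕ):ℝ)+1)/P.K :=
          div_le_div_of_nonneg_right (by linarith) hKp.le
        have hk1 : (((k:ℕ):ℝ)+1)/P.K ≤ P.b :=
          div_le_div_of_nonneg_right (by exact_mod_cast hk) hKp.le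
        have h1 : ‖∫ s in ((k:ℕ):ℝ)/P.K..(((k:ℕ):ℝ)+1)/P.K,
            (QQ β (grid (P.mv β + t • w)) s 0 - s)‖ ≤
            (η + CG β * e) * |(((k:ℕ):ℝ)+1)/P.K - ((k:ℕ):ℝ)/P.K| := by
          apply intervalIntegral.norm_integral_le_of_norm_le_const
          intro s hs'
          rw [uIoc_of_le hle] at hs'
          have hs0 : 0 ≤ s := le_trans (by positivity) hs'.1.le
          have hsb : s ≤ P.b := hs'.2.trans hk1
          have hs1 : s ≤ 1 := hsb.trans h.b_le_one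
          have e1 : QQ β (grid (P.mv β + t • w)) s 0 = (P.seg Q t).Gam β s := by
            rw [hs.Gam_sc hβ hs1, emv]
            rfl
          have h2 := hs.Gam_zlip h (e := e) rfl (fun j => by
            show |P.z j + t * (Q.z j - P.z j) - P.z j| ≤ e
            rw [add_sub_cancel_left, abs_mul, abs_of_nonneg ht.1]
            nlinarith [hz j, abs_nonneg (Q.z j - P.z j), ht.1, ht.2]) β ⟨hs0, hs1⟩
          have h3 := hg s ⟨hs0, hsb⟩
          rw [Real.norm_eq_abs, e1, abs_le] at *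
          constructor <;> linarith [h2.1, h2.2, h3.1, h3.2]
        have e2 : (((k:ℕ):ℝ)+1)/P.K - ((k:ℕ):ℝ)/P.K = 1 / P.K := by ring
        rw [Real.norm_eq_abs, e2, abs_of_pos (a := 1 / (P.K:ℝ)) (by positivity)] at h1
        have h4 : |w k| ≤ β * e := by
          show |β * (Q.z k - P.z k)| ≤ β * e
          rw [abs_mul, abs_of_pos hβ]
          exact mul_le_mul_of_nonneg_left (hz k) hβ.le
        rw [abs_mul (w k), abs_mul (1/2), abs_of_pos (by norm_num : (0:ℝ) < 1/2)]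
        calc _ ≤ β * e * (1 / 2 * ((η + CG β * e) * (1 / P.K))) := by gcongr
          _ = _ := by ring
    refine (Finset.abs_sum_le_sum_abs _ _).trans ((Finset.sum_le_sum fun k _ => hk k).trans ?_)
    rw [Finset.sum_const, Finset.card_univ, Fintype.card_fin, nsmul_eq_mul]
    apply le_of_eq
    field_simp
  have h1 := abs_sub_le_of_rder (a := 0) (b := 1) (s := 0) (t := 1)
    (fun t ht => (hd t ht).continuousAt.continuousWithinAt)
    (fun r hr => (hd r ⟨hr.1, hr.2.le⟩).hasDerivWithinAt) ⟨le_rfl, zero_le_one⟩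
    ⟨zero_le_one, le_rfl⟩ (fun r hr => hb r (by
      simp only [zero_le_one, min_eq_left, max_eq_right] at hr
      exact ⟨hr.1, hr.2.le⟩))
  have e1 : Q.val β = β * PF β (P.mv β + (1:ℝ) • w) := by
    have h5 := (h.seg h' ha ⟨zero_le_one, le_rfl⟩).val_sc hβ
    rw [seg_one hK ha, emv] at h5
    exact h5
  rw [e1, h.val_sc hβ]
  simp only [zero_smul, add_zero, sub_zero, abs_one, mul_one] at h1
  have h2 := mul_le_mul_of_nonneg_left (abs_le.1 h1).2 hβ.le
  nlinarith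

end Par

end

end Crest.Agent.T157.Pf
end

-- ▼ part T157/PfC_56

/-!
Row 157 (helper56): the grid minimiser of the Parisi functional has all the properties `Par.Good`.
-/

set_option autoImplicit false

namespace Crest.Agent.T157.Pf

open MeasureTheory Set Filter Topology
open Crest.Agent.R164.GC Crest.Agent.R339.B Crest.Agent.R339.Var

noncomputable section

namespace Par

variable {P : Par} {β : ℝ}

theorem lst_get (P : Par) (β : ℝ) {N i : ℕ} (hi : i < N) :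
    (P.lst β N)[i]? = some (P.z i, β ^ 2 / P.K) := by
  unfold lst
  rw [List.getElem?_ofFn]
  simp [hi]

/-- `Γ''` is monotone above `b` -/
theorem OK.W_mono (h : P.OK) (hβ : 0 < β) {s t : ℝ} (hs : P.b ≤ s) (hst : s ≤ t) :
    P.E β s (G3 1 (P.Ph β s)) ≤ P.E β t (G3 1 (P.Ph β t)) := by
  have hK := h.Kp
  set N := P.K + ⌈t * P.K⌉₊ with hN
  have h0 : t * P.K ≤ (N : ℝ) := by
    rw [hN]
    push_cast
    linarith [Nat.le_ceil (t * P.K)]
  have h1 : s * P.K ≤ (N : ℝ) := (mul_le_mul_of_nonneg_right hst hK.le).trans h0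
  have hd : 0 < β ^ 2 / P.K := by positivity
  have key : ∀ j, P.a ≤ j → j ≤ N → MonotoneOn (PsiF (G3 1) 1 (P.lst β N) (nu0 1 (P.lst β N)))
      (Icc (P.a * (β ^ 2 / P.K)) (j * (β ^ 2 / P.K))) := by
    intro j hj
    induction j, hj using Nat.le_induction with
    | base =>
      intro _
      rw [Icc_self]
      exact subsingleton_singleton.monotoneOn _
    | succ j hj ih =>
      intro hjN
      have h2 := (local_struct one_pos (gclass 1) hd _ (h.adm β N) (lst_snd P β N) _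
        (gc_nu0 (P.lst β N)) j _ (P.lst_get β (by omega))).1
      simp only [h.top j hj] at h2
      have l1 : (P.a : ℝ) * (β ^ 2 / P.K) ≤ j * (β ^ 2 / P.K) :=
        mul_le_mul_of_nonneg_right (by exact_mod_cast hj) hd.le
      have l2 : (j : ℝ) * (β ^ 2 / P.K) ≤ (j + 1) * (β ^ 2 / P.K) := by nlinarith
      have := (ih (by omega)).union_right h2 (isGreatest_Icc l1) (isLeast_Icc l2)
      rw [Icc_union_Icc_eq_Icc l1 l2] at this
      push_cast
      exact this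
  have hKN : P.K ≤ N := Nat.le_add_right _ _
  rw [h.E_psi β (inv_G3 1) hKN h0, h.E_psi β (inv_G3 1) hKN h1]
  have e1 : (P.a : ℝ) * (β ^ 2 / P.K) = β ^ 2 * P.b := by unfold b; ring
  have e2 := h.le_TT β h0
  rw [TT_lst] at e2
  have hb := sq_nonneg β
  have l3 := mul_le_mul_of_nonneg_left hs hb
  have l4 := mul_le_mul_of_nonneg_left hst hb
  exact key N (h.aK.trans hKN) le_rfl ⟨by linarith, by linarith⟩ ⟨by linarith, e2⟩ l4

/-- `Γ'` is convex above `b` -/
theorem OK.Gam'_conv (h : P.OK) (hβ : 0 < β) {s t : ℝ} (hs : P.b ≤ s) (hst : s ≤ t) :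
    (t - P.b) * P.Gam' β s ≤ (t - s) * P.Gam' β P.b + (s - P.b) * P.Gam' β t := by
  have hb0 := h.b_nonneg
  set w := β ^ 2 * (β ^ 2 * P.E β s (G3 1 (P.Ph β s))) with hw
  have hd : ∀ r, P.b ≤ r → HasDerivWithinAt (P.Gam' β)
      (β ^ 2 * (β ^ 2 * P.E β r (G3 1 (P.Ph β r)))) (Ici r) r := fun r hr => by
    have := h.Gam'_rder hβ (hb0.trans hr)
    rw [h.zeta_top hr] at this
    exact this
  have hc := h.Gam'_cont hβ t
  have h1 := le_of_rder (f := fun r => P.Gam' β r - w * r) hs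
    ((hc.mono (Icc_subset_Icc hb0 hst)).sub (by fun_prop))
    (fun r hr => (hd r hr.1).sub ((hasDerivWithinAt_id r _).const_mul w))
    (fun r hr => by
      have := h.W_mono hβ hr.1 hr.2.le
      have := mul_le_mul_of_nonneg_left (mul_le_mul_of_nonneg_left this (sq_nonneg β)) (sq_nonneg β)
      linarith)
  have h2 := le_of_rder (f := fun r => w * r - P.Gam' β r) hst
    ((by fun_prop : ContinuousOn (fun r => w * r) _).sub (hc.mono (Icc_subset_Icc (hb0.trans hs) le_rfl)))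
    (fun r hr => ((hasDerivWithinAt_id r _).const_mul w).sub (hd r (hs.trans hr.1)))
    (fun r hr => by
      have := h.W_mono hβ hs hr.1
      have := mul_le_mul_of_nonneg_left (mul_le_mul_of_nonneg_left this (sq_nonneg β)) (sq_nonneg β)
      linarith)
  have a1 := mul_le_mul_of_nonneg_left h1 (sub_nonneg.2 hst)
  have a2 := mul_le_mul_of_nonneg_left h2 (sub_nonneg.2 hs)
  nlinarith

theorem OK.top_of (h : P.OK) (hβ : 0 < β) {η c : ℝ} (hη : 0 ≤ η) (hc0 : 0 ≤ c) (hc : c ≤ 1 / 8)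
    (hb : P.Gam' β P.b ≤ 1 + η) {s : ℝ} (hs : P.b ≤ s) :
    P.Gam' β s ≤ 1 + η - c * min (s - P.b) 1 := by
  have far : ∀ t, P.b + 4 ≤ t → P.Gam' β t ≤ 1 / 2 := fun t ht => by
    refine (h.Gam'_top_le hβ (by linarith)).trans ?_
    have h1 : Real.exp (-(β ^ 2 * (t - P.b) / 2)) ≤ Real.exp (-(2 * β ^ 2)) :=
      Real.exp_le_exp.2 (by nlinarith [sq_nonneg β])
    have h2 : Real.exp (-(2 * β ^ 2)) * Real.exp (2 * β ^ 2) = 1 := by
      rw [← Real.exp_add]; simp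
    have h3 := Real.add_one_le_exp (2 * β ^ 2)
    have h4 := Real.exp_pos (-(2 * β ^ 2))
    have h5 := mul_le_mul_of_nonneg_left h1 (sq_nonneg β)
    nlinarith
  rcases le_total s (P.b + 4) with h1 | h1
  · have h2 := h.Gam'_conv hβ hs h1
    have h3 := far _ le_rfl
    have h4 := mul_le_mul_of_nonneg_left (min_le_left (s - P.b) 1) hc0
    have h5 := mul_le_mul_of_nonneg_left hb (sub_nonneg.2 h1)
    have h6 := mul_le_mul_of_nonneg_left h3 (sub_nonneg.2 hs)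
    have h7 := mul_le_mul_of_nonneg_right hc (sub_nonneg.2 hs)
    have h8 := mul_nonneg hη (sub_nonneg.2 hs)
    nlinarith
  · have h4 := mul_le_mul_of_nonneg_left (min_le_right (s - P.b) 1) hc0
    linarith [far s h1]

theorem OK.gam'_of (h : P.OK) (hβ : 0 < β) {η k : ℝ} (hg : ∀ s ∈ Icc 0 P.b, |P.Gam β s - s| ≤ η)
    (hk : 0 < k) (hkb : 2 * k ≤ P.b) {s : ℝ} (hs : s ∈ Icc 0 P.b) :
    |P.Gam' β s - 1| ≤ 2 * η / k + 6 * β ^ 4 * k := by
  obtain ⟨t, ht, hts⟩ : ∃ t ∈ Icc 0 P.b, |t - s| = k := by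
    rcases le_total s k with h1 | h1
    · exact ⟨s + k, ⟨by linarith [hs.1], by linarith⟩, by rw [add_sub_cancel_left, abs_of_pos hk]⟩
    · exact ⟨s - k, ⟨by linarith, by linarith [hs.2]⟩, by
        rw [sub_sub_cancel_left, abs_neg, abs_of_pos hk]⟩
  have h1 := abs_sub_le_of_rder (f := fun r => P.Gam β r - P.Gam' β s * r) (C := 6 * β ^ 4 * k)
    ((h.Gam_cont hβ P.b).sub (by fun_prop))
    (fun r hr => (h.Gam_rder hβ hr.1).sub ((hasDerivWithinAt_id r _).const_mul _)) hs ht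
    (fun r hr => by
      have h0 : 0 ≤ r := le_trans (le_min hs.1 ht.1) hr.1
      rw [mul_one]
      refine (h.Gam'_lip hβ h0 hs.1).trans (mul_le_mul_of_nonneg_left ?_ (by positivity))
      rw [← hts]
      rcases le_total s t with h2 | h2
      · rw [min_eq_left h2, max_eq_right h2] at hr
        rw [abs_of_nonneg (sub_nonneg.2 hr.1), abs_of_nonneg (sub_nonneg.2 h2)]
        linarith [hr.2]
      · rw [min_eq_right h2, max_eq_left h2] at hr
        rw [abs_of_nonpos (sub_nonpos.2 hr.2.le), abs_of_nonpos (sub_nonpos.2 h2)]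
        linarith [hr.1])
  have h2 : |P.Gam' β s - 1| * k ≤ 2 * η + 6 * β ^ 4 * k * k := by
    rw [hts] at h1
    rw [← hts, ← abs_mul, hts]
    have a1 := abs_le.1 (hg s hs)
    have a2 := abs_le.1 (hg t ht)
    have a3 := abs_le.1 h1
    rw [abs_le]
    constructor <;> nlinarith [a1.1, a1.2, a2.1, a2.2, a3.1, a3.2]
  rw [← le_div_iff₀ hk] at h2
  refine h2.trans (le_of_eq ?_)
  field_simp

theorem OK.Gam'_ge_top (h : P.OK) (hβ : 0 < β) {s : ℝ} (hs : P.b ≤ s) :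
    β ^ 2 * (1 - P.Gam β s) ^ 2 ≤ P.Gam' β s := by
  rw [← h.EPxx_top hβ hs]
  exact mul_le_mul_of_nonneg_left (P.E_sq β s (h.Pxx_bc β s)) (sq_nonneg β)

/-- the lower bound of `q*` -/
def cc (β : ℝ) : ℝ := (β ^ 2 - 1) / (8 * β ^ 4)

theorem cc_pos (hβ : 1 < β) : 0 < cc β := by
  unfold cc
  have : 1 < β ^ 2 := by nlinarith
  apply div_pos <;> nlinarith

theorem cc_le (hβ : 1 < β) : cc β * (8 * β ^ 2) ≤ 1 := by
  have h0 : 0 < β := by linarith
  have e : cc β * (8 * β ^ 2) = (β ^ 2 - 1) / β ^ 2 := by unfold cc; field_simp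
  rw [e, div_le_one (by positivity)]
  linarith

theorem cc_le' (hβ : 1 < β) : cc β ≤ 1 / 8 := by
  have h1 := cc_le hβ
  have h2 := cc_pos hβ
  have : 1 < β ^ 2 := by nlinarith
  nlinarith

theorem OK.b_ge_of (h : P.OK) (hβ : 1 < β) {η δ : ℝ} (hg : |P.Gam β P.b - P.b| ≤ η)
    (hi : ∀ s ∈ Icc P.b 1, ∫ t in P.b..s, (P.Gam β t - t) ≤ δ)
    (hs : δ + η < (β ^ 2 - 1) * cc β ^ 2 / 4) : cc β ≤ P.b := by
  have hβ0 : 0 < β := by linarith
  have hb0 := h.b_nonneg
  have hc := cc_pos hβ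
  have hc' := cc_le' hβ
  have hη : 0 ≤ η := (abs_nonneg _).trans hg
  have hβ2 : 1 < β ^ 2 := by nlinarith
  by_contra hcon
  push Not at hcon
  set κ := (β ^ 2 - 1) / 2 with hκ
  have hτ : P.b ≤ 2 * cc β := by linarith
  have e0 : β ^ 4 * (4 * cc β) = κ := by rw [hκ]; unfold cc; field_simp; ring
  have h1 : ∀ s ∈ Icc P.b (2 * cc β), κ * (s - P.b) - η ≤ P.Gam β s - s := by
    intro s hs
    have := le_of_rder (f := fun r => (κ + 1) * r - P.Gam β r) hs.1
      ((by fun_prop : ContinuousOn (fun r => (κ + 1) * r) _).sub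
        ((h.Gam_cont hβ0 s).mono (Icc_subset_Icc hb0 le_rfl)))
      (fun r hr => ((hasDerivWithinAt_id r _).const_mul _).sub (h.Gam_rder hβ0 (hb0.trans hr.1)))
      (fun r hr => by
        have a1 := h.Gam'_ge_top hβ0 hr.1
        have a2 := h.Gam_le hβ0 (hb0.trans hr.1)
        have a3 : β ^ 2 * r ≤ β ^ 2 * (2 * cc β) :=
          mul_le_mul_of_nonneg_left (hr.2.le.trans hs.2) (sq_nonneg β)
        have a4 := mul_le_mul_of_nonneg_left (a2.trans a3) (sq_nonneg β)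
        have a5 := mul_nonneg (sq_nonneg β) (sq_nonneg (P.Gam β r))
        nlinarith)
    have a := abs_le.1 hg
    nlinarith [a.1]
  have h2 := intervalIntegral.integral_mono_on (μ := volume) hτ
    (Continuous.intervalIntegrable (by fun_prop) _ _)
    (ContinuousOn.intervalIntegrable (by
      rw [uIcc_of_le hτ]
      exact ((h.Gam_cont hβ0 (2 * cc β)).mono (Icc_subset_Icc hb0 le_rfl)).sub continuousOn_id)) h1
  have h3 : ∫ s in P.b..(2 * cc β), (κ * (s - P.b) - η) =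
      κ * (2 * cc β - P.b) ^ 2 / 2 - η * (2 * cc β - P.b) := by
    have hd : ∀ x ∈ uIcc P.b (2 * cc β), HasDerivAt (fun s => κ * (s - P.b) ^ 2 / 2 - η * s)
        (κ * (x - P.b) - η) x := fun x _ => by
      have := ((((hasDerivAt_id x).sub_const P.b).pow 2).const_mul κ).div_const 2 |>.sub
        ((hasDerivAt_id x).const_mul η)
      refine this.congr_deriv ?_
      simp only [id]
      push_cast
      ring
    rw [intervalIntegral.integral_eq_sub_of_hasDerivAt hd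
      (Continuous.intervalIntegrable (by fun_prop) _ _)]
    ring
  have h4 := hi (2 * cc β) ⟨hτ, by linarith⟩
  have h5 : cc β ^ 2 ≤ (2 * cc β - P.b) ^ 2 := pow_le_pow_left₀ hc.le (by linarith) 2
  have h6 : κ * cc β ^ 2 ≤ κ * (2 * cc β - P.b) ^ 2 :=
    mul_le_mul_of_nonneg_left h5 (by rw [hκ]; linarith)
  have h7 : η * (2 * cc β - P.b) ≤ η * 1 := mul_le_mul_of_nonneg_left (by linarith) hη
  have h8 : (β ^ 2 - 1) * cc β ^ 2 / 4 = κ * cc β ^ 2 / 2 := by rw [hκ]; ring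
  linarith

theorem OK.lam_of (h : P.OK) (hβ : 0 < β) {η η' : ℝ} (hg : |P.Gam β P.b - P.b| ≤ η)
    (hg' : ∀ s ∈ Icc 0 P.b, |P.Gam' β s - 1| ≤ η') {s : ℝ} (hs : s ∈ Icc 0 P.b) :
    |P.E β s (P.Pxx β s) - P.Zi s| ≤ η + η' := by
  have hη' : 0 ≤ η' := (abs_nonneg _).trans (hg' s hs)
  have h1 := abs_sub_le_of_rder (f := fun r => P.E β r (P.Pxx β r) - P.Zi r) (C := η')
    ((h.EPxx_cont hβ P.b).sub h.Zi_cont.continuousOn)
    (fun r hr => (h.EPxx_rder hβ hr.1).sub (h.Zi_rder r)) hs ⟨h.b_nonneg, le_rfl⟩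
    (fun r hr => by
      rw [min_eq_left hs.2, max_eq_right hs.2] at hr
      have e : -(P.zeta r * P.Gam' β r) - -P.zeta r = -(P.zeta r * (P.Gam' β r - 1)) := by ring
      rw [e, abs_neg, abs_mul, abs_of_pos (h.zeta_pos r)]
      have := hg' r ⟨hs.1.trans hr.1, hr.2.le⟩
      nlinarith [h.zeta_le r, h.zeta_pos r, abs_nonneg (P.Gam' β r - 1)])
  rw [h.EPxx_top hβ le_rfl, h.Zi_top ⟨le_rfl, h.b_le_one⟩, abs_of_nonneg (sub_nonneg.2 hs.2)] at h1
  have h2 : η' * (P.b - s) ≤ η' * 1 :=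
    mul_le_mul_of_nonneg_left (by linarith [h.b_le_one, hs.1]) hη'
  have a1 := abs_le.1 h1
  have a2 := abs_le.1 hg
  rw [abs_le]
  constructor <;> linarith [a1.1, a1.2, a2.1, a2.2]

theorem OK.lam0_of (h : P.OK) (hβ : 0 < β) {η η' : ℝ} (hl : |P.E β 0 (P.Pxx β 0) - P.Zi 0| ≤ η)
    (hg' : |P.Gam' β 0 - 1| ≤ η') : |β * P.Zi 0 - 1| ≤ β * η + η' := by
  unfold Gam' at hg'
  rw [E_zero] at hl hg'
  have h1 := mul_pos hβ (h.Pxx_pos β 0 0)
  have h2 : |β * P.Pxx β 0 0 - 1| ≤ η' := by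
    have e : β ^ 2 * P.Pxx β 0 0 ^ 2 - 1 = (β * P.Pxx β 0 0 - 1) * (β * P.Pxx β 0 0 + 1) := by ring
    rw [e, abs_mul, abs_of_pos (a := β * P.Pxx β 0 0 + 1) (by linarith)] at hg'
    nlinarith [abs_nonneg (β * P.Pxx β 0 0 - 1)]
  have a1 := abs_le.1 hl
  have a2 := abs_le.1 h2
  have a3 := mul_le_mul_of_nonneg_left a1.1 hβ.le
  have a4 := mul_le_mul_of_nonneg_left a1.2 hβ.le
  rw [abs_le]
  constructor <;> nlinarith [a2.1, a2.2]

theorem OK.E3_ge (h : P.OK) (hβ : 0 < β) {s : ℝ} (hs : 1 / 2 ≤ P.Gam' β s) :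
    1 / 4 ≤ β ^ 4 * P.E β s fun x => P.Pxx β s x ^ 3 := by
  have h1 := h.cheb3 β s
  have h2 := P.E_mono β s ((h.Pxx_bc β s).pow 2) (h.Pxx_bc β s) (fun y => by
    nlinarith [h.Pxx_pos β s y, h.Pxx_le_one β s y])
  unfold Gam' at hs
  set a := P.E β s fun x => P.Pxx β s x ^ 2
  have ha : 0 ≤ a := by
    by_contra hc
    push Not at hc
    nlinarith [sq_nonneg β]
  have h3 : a * a ≤ P.E β s fun x => P.Pxx β s x ^ 3 :=
    (mul_le_mul_of_nonneg_right h2 ha).trans h1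
  have h4 := mul_le_mul_of_nonneg_left h3 (by positivity : 0 ≤ β ^ 4)
  nlinarith

theorem OK.zlin_of (h : P.OK) (hβ : 0 < β) {η k s : ℝ} (hη : η ≤ 1 / 2)
    (hg' : ∀ s ∈ Icc 0 P.b, |P.Gam' β s - 1| ≤ η) (hk : 0 < k) (hs : 0 ≤ s) (hsk : s + k ≤ P.b) :
    P.zeta s ≤ 8 * β ^ 6 * (s + k) + 4 * η / k := by
  set w := 4 * β ^ 6 * (s + k) - P.zeta s / 2 with hw
  have h1 := le_of_rder (f := fun r => P.Gam' β r - w * r) (s := s) (t := s + k) (by linarith)
    (((h.Gam'_cont hβ (s + k)).mono (Icc_subset_Icc hs le_rfl)).sub (by fun_prop))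
    (fun r hr => (h.Gam'_rder hβ (hs.trans hr.1)).sub ((hasDerivWithinAt_id r _).const_mul w))
    (fun r hr => by
      have hr0 := hs.trans hr.1
      have e : (P.E β r fun x => P.Pxxx β r x ^ 2 - 2 * P.zeta r * P.Pxx β r x ^ 3) =
          (P.E β r fun x => P.Pxxx β r x ^ 2) -
            2 * P.zeta r * P.E β r fun x => P.Pxx β r x ^ 3 := by
        rw [P.E_sub β r ((h.Pxxx_bc β r).pow 2) (((h.Pxx_bc β r).pow 3).const_mul _), E_const_mul]
      rw [e]
      have a1 := h.EPxxx_le β r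
      have a2 := h.Gam_le hβ hr0
      have a3 := h.E3_ge hβ (s := r) (by
        linarith [(abs_le.1 (hg' r ⟨hr0, by linarith [hr.2]⟩)).1])
      have a4 := h.zeta_mono hr.1
      have a5 := mul_le_mul a4 a3 (by norm_num) (h.zeta_pos r).le
      have a6 : β ^ 2 * r ≤ β ^ 2 * (s + k) := mul_le_mul_of_nonneg_left hr.2.le (sq_nonneg β)
      have a7 := mul_le_mul_of_nonneg_left (a1.trans (mul_le_mul_of_nonneg_left (a2.trans a6)
        (by norm_num : (0:ℝ) ≤ 4))) (by positivity : 0 ≤ β ^ 4)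
      rw [hw]
      nlinarith)
  have a1 := (abs_le.1 (hg' s ⟨hs, by linarith⟩)).2
  have a2 := (abs_le.1 (hg' (s + k) ⟨by linarith, hsk⟩)).1
  have a3 : -(2 * w) ≤ 4 * η / k := by
    rw [le_div_iff₀ hk]
    nlinarith
  rw [hw] at a3
  linarith

/-- the datum of a vector of levels -/
def ofm (β : ℝ) {K : ℕ} (a : ℕ) (m : Fin K → ℝ) : Par :=
  ⟨K, a, fun k => if hk : k < K then m ⟨k, hk⟩ / β else 1⟩

theorem ofm_mv (hβ : 0 < β) {K : ℕ} (a : ℕ) (m : Fin K → ℝ) : (ofm β a m).mv β = m := by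
  funext k
  show β * (if hk : (k:ℕ) < K then m ⟨k, hk⟩ / β else 1) = m k
  have hk : (k:ℕ) < K := k.2
  rw [dif_pos hk, mul_div_cancel₀ _ hβ.ne']
  rfl

theorem ofm_ok (hβ : 0 < β) {K a : ℕ} {ε : ℝ} (hε : 0 < ε) {m : Fin K → ℝ} (hK : 0 < K)
    (haK : a ≤ K) (hm : m ∈ cone K ε β) (ht : ∀ k : Fin K, a ≤ (k:ℕ) → m k = β) :
    (ofm β a m).OK where
  Kpos := hK
  aK := haK
  mono := fun i j hij => by
    show (if hk : i < K then m ⟨i, hk⟩ / β else 1) ≤ (if hk : j < K then m ⟨j, hk⟩ / β else 1)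
    split_ifs with h1 h2 h2
    · exact div_le_div_of_nonneg_right (hm.1 (show (⟨i, h1⟩ : Fin K) ≤ ⟨j, h2⟩ from hij)) hβ.le
    · exact (div_le_one hβ).2 (hm.2 _).2
    · omega
    · exact le_rfl
  pos := fun k => by
    show 0 < (if hk : k < K then m ⟨k, hk⟩ / β else 1)
    split_ifs
    · exact div_pos (hε.trans_le (hm.2 _).1) hβ
    · exact one_pos
  top := fun k hk => by
    show (if hk : k < K then m ⟨k, hk⟩ / β else 1) = 1
    split_ifs with h1
    · rw [ht ⟨k, h1⟩ hk, div_self hβ.ne']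
    · rfl

/-- the grid minimiser in standard words -/
theorem exists_par (hβ : 1 < β) {K : ℕ} (hK : 0 < K) (hδ1 : (β ^ 2 + 1) / K ≤ 1 / (4 * β))
    (hδ2 : 4 * ((β ^ 2 + 1) / K) < (1 / (4 * β * (1 + (β ^ 2 + 1)))) ^ 2) :
    ∃ P : Par, P.K = K ∧ P.OK ∧
      (∀ s ∈ Icc 0 P.b, |P.Gam β s - s| ≤
        2 * ((β ^ 2 + 1) / K) + 3 * √((β ^ 2 + 1) * ((β ^ 2 + 1) / K))) ∧
      (∀ s ∈ Icc P.b 1, ∫ t in P.b..s, (P.Gam β t - t) ≤ (β ^ 2 + 1) / K) ∧
      ∀ l : List (ℝ × ℝ), Adm β l → TT l = 1 → P.val β ≤ β * PL β l + 2 * ((β ^ 2 + 1) / K) := by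
  have hβ0 : 0 < β := by linarith
  have hK' : (0:ℝ) < K := by exact_mod_cast hK
  set δ := (β ^ 2 + 1) / K with hδ
  have hδ0 : 0 < δ := by positivity
  set ε := δ / (2 * β ^ 3) with hεdef
  have hε : 0 < ε := by positivity
  have h2 : (1:ℝ) ≤ β ^ 3 := one_le_pow₀ hβ.le
  have hεβ : ε < β := by
    rw [hεdef, div_lt_iff₀ (by positivity)]
    have h1 : 1 / (4 * β) ≤ 1 := by
      rw [div_le_one (by positivity)]; linarith
    nlinarith
  have hδε : 2 * ε * β ^ 3 = δ := by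
    rw [hεdef]
    field_simp
  obtain ⟨m, hm, hmin⟩ := exists_min dmFormula hβ0 hε hεβ.le K
  have D := data_of_min (m := m) hβ.le (gclass β) hK hε hεβ hm hmin le_rfl hδε.le hδ1 hδ2
  obtain ⟨a, haK, ha, -, hG, -⟩ := D.main
  have htop : ∀ k : Fin K, a ≤ (k:ℕ) → m k = β := by
    intro k hk
    have h1 : ¬ (m k < β) := fun h => absurd ((ha k).2 h) (by omega)
    exact le_antisymm (hm.2 k).2 (not_lt.1 h1)
  have h := ofm_ok hβ0 hε hK haK hm htop
  have hQ : ∀ s, s ≤ 1 → (ofm β a m).Gam β s - s = GG β (grid m) s := fun s hs => by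
    rw [h.Gam_sc hβ0 hs, ofm_mv hβ0]
    rfl
  refine ⟨ofm β a m, rfl, h, fun s hs => ?_, fun s hs => ?_, fun l hl hT => ?_⟩
  · rw [hQ s (hs.2.trans h.b_le_one)]
    exact hG s hs
  · have := D.lower' (a := a) (b := K) (v := β) le_rfl (fun k hk _ => htop k hk)
      (fun k hk => (ha k).1 hk) hεβ s (by rw [div_self hK'.ne']; exact hs)
    refine le_of_eq_of_le (intervalIntegral.integral_congr fun t ht => hQ t ?_) this
    rw [uIcc_of_le hs.1] at ht
    exact ht.2.trans hs.2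
  · obtain ⟨m', hm', h1⟩ := minStmt hβ0 hε hεβ.le hK hl hT
    have h3 : (ofm β a m).val β = β * PF β m := by
      rw [h.val_sc hβ0, ofm_mv hβ0]
      rfl
    have h4 := mul_le_mul_of_nonneg_left ((hmin m' hm').trans h1) hβ0.le
    have h5 : β * (β / K) ≤ δ := by
      rw [hδ, ← mul_div_assoc]
      exact div_le_div_of_nonneg_right (by nlinarith) hK'.le
    have h6 : β * ε ≤ δ := by
      have : β ≤ β ^ 3 := by nlinarith
      nlinarith
    rw [h3]
    linarith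

end Par

open Par in
/-- **the grid minimiser** -/
theorem parStmt : ParStmt := by
  intro β hβ
  have hβ0 : 0 < β := by linarith
  have hc := cc_pos hβ
  have hc' := cc_le' hβ
  have hc8 := cc_le hβ
  have hβ2 : 1 < β ^ 2 := by nlinarith
  have hCG := CG_nonneg β
  set B := β ^ 2 + 1 with hB
  set A := 10 * B + 6 * β ^ 4 with hA
  have hB0 : 0 < B := by positivity
  have hA0 : 0 < A := by positivity
  set C := 1 + (1 + β) * (5 * B + A) + (8 * β ^ 6 + 4 * A) + 2 / cc β + β ^ 2 * (1 + CG β) with hC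
  have c1 : 0 ≤ (1 + β) * (5 * B + A) := by positivity
  have c2 : 0 ≤ 8 * β ^ 6 + 4 * A := by positivity
  have c3 : 0 ≤ 2 / cc β := by positivity
  have c4 : 0 ≤ β ^ 2 * (1 + CG β) := by positivity
  have c5 : 0 ≤ β * (5 * B + A) := by positivity
  have hu : Tendsto (fun K : ℕ => (K : ℝ) ^ (-(1 / 8 : ℝ))) atTop (𝓝 0) :=
    (tendsto_rpow_neg_atTop (by norm_num)).comp tendsto_natCast_atTop_atTop
  have ev : ∀ X ρ : ℝ, 0 < ρ → ∀ᶠ K : ℕ in atTop, X * (K : ℝ) ^ (-(1 / 8 : ℝ)) < ρ := by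
    intro X ρ hρ
    have := hu.const_mul X
    rw [mul_zero] at this
    exact this.eventually (gt_mem_nhds hρ)
  obtain ⟨K0, hK0⟩ := eventually_atTop.1 ((eventually_gt_atTop 0).and
    ((ev B (1 / (4 * β)) (by positivity)).and
    ((ev (4 * B) ((1 / (4 * β * (1 + B))) ^ 2) (by positivity)).and
    ((ev (6 * B) ((β ^ 2 - 1) * cc β ^ 2 / 4) (by have := sub_pos.2 hβ2; positivity)).and
    ((ev 2 (cc β) hc).and ((ev A (1 / 2) (by norm_num)).and
    (ev (β ^ 2 * (5 * B)) (1 / 4) (by norm_num))))))))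
  refine ⟨cc β, C, hc, by linarith, by linarith, K0, fun K hK => ?_⟩
  obtain ⟨hKp, e1, e2, e3, e4, e5, e6⟩ := hK0 K hK
  have hK' : (0:ℝ) < K := by exact_mod_cast hKp
  set u := (K : ℝ) ^ (-(1 / 8 : ℝ)) with hudef
  have hu0 : 0 < u := Real.rpow_pos_of_pos hK' _
  have hu1 : u ≤ 1 := by linarith
  have hu8 : B / K = B * u ^ 8 := by
    rw [hudef, ← Real.rpow_natCast, ← Real.rpow_mul hK'.le]
    norm_num
    rw [Real.rpow_neg_one, div_eq_mul_inv]
  have p2 : u ^ 2 ≤ u := pow_le_of_le_one hu0.le hu1 two_ne_zero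
  have p4 : u ^ 4 ≤ u := pow_le_of_le_one hu0.le hu1 (by norm_num)
  have p8 : u ^ 8 ≤ u ^ 4 := pow_le_pow_of_le_one hu0.le hu1 (by norm_num)
  have q8 : B * u ^ 8 ≤ B * u ^ 4 := mul_le_mul_of_nonneg_left p8 hB0.le
  have q4 : B * u ^ 4 ≤ B * u := mul_le_mul_of_nonneg_left p4 hB0.le
  have q2 : A * u ^ 2 ≤ A * u := mul_le_mul_of_nonneg_left p2 hA0.le
  obtain ⟨P, hPK, h, g1, g2, g3⟩ := exists_par hβ hKp (by rw [hu8]; linarith)
    (by rw [hu8]; linarith)
  have hsq : √(B * (B * u ^ 8)) = B * u ^ 4 := by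
    rw [show B * (B * u ^ 8) = (B * u ^ 4) ^ 2 by ring, Real.sqrt_sq (by positivity)]
  rw [hu8] at g1 g2 g3
  rw [hsq] at g1
  have G1 : ∀ s ∈ Icc 0 P.b, |P.Gam β s - s| ≤ 5 * B * u ^ 4 := fun s hs =>
    (g1 s hs).trans (by linarith)
  have hbb : P.b ∈ Icc 0 P.b := ⟨h.b_nonneg, le_rfl⟩
  have hb : cc β ≤ P.b := h.b_ge_of hβ (G1 _ hbb) g2 (by linarith)
  have G2 : ∀ s ∈ Icc 0 P.b, |P.Gam' β s - 1| ≤ A * u ^ 2 := fun s hs => by
    refine (h.gam'_of hβ0 G1 (k := u ^ 2) (by positivity) (by linarith) hs).trans (le_of_eq ?_)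
    rw [hA]
    field_simp
    ring
  have G3 : ∀ s ∈ Icc 0 P.b, |P.E β s (P.Pxx β s) - P.Zi s| ≤ 5 * B * u ^ 4 + A * u ^ 2 :=
    fun s hs => h.lam_of hβ0 (G1 _ hbb) G2 hs
  have k1 : (5 * B + A) * u ≤ C * u := mul_le_mul_of_nonneg_right (by nlinarith) hu0.le
  have k2 : 0 ≤ A * u := by positivity
  have k3 : 0 ≤ B * u := by positivity
  refine ⟨P, hPK, h, hb, ?_, fun s hs => (G1 s hs).trans (by linarith),
    fun s hs => (G2 s hs).trans (by linarith), fun s hs => ?_,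
    fun s hs => (G3 s hs).trans (by linarith), ?_, fun s hs => ?_,
    fun l hl hT => (g3 l hl hT).trans (by linarith), fun Q e h' hQK hQa hz => ?_⟩
  · have a1 := (abs_le.1 (G1 _ hbb)).1
    have a2 := (abs_le.1 (G2 _ hbb)).1
    have a3 := h.Gam'_le' β P.b
    have a4 := mul_le_mul_of_nonneg_left (a1.trans' (neg_le_neg (show 5 * B * u ^ 4 ≤ 5 * B * u by
      linarith))) (sq_nonneg β)
    by_contra hcon
    push Not at hcon
    have a5 : β ^ 2 * (1 - P.b) ≤ β ^ 2 * cc β :=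
      mul_le_mul_of_nonneg_left (by linarith) (sq_nonneg β)
    nlinarith
  · exact h.top_of hβ0 (by positivity) hc.le hc'
      (by linarith [(abs_le.1 (G2 _ hbb)).2]) hs
  · have h00 : (0:ℝ) ∈ Icc 0 P.b := ⟨le_rfl, h.b_nonneg⟩
    refine (h.lam0_of hβ0 (G3 0 h00) (G2 0 h00)).trans ?_
    have a1 : β * (5 * B * u ^ 4 + A * u ^ 2) ≤ β * (5 * B * u + A * u) :=
      mul_le_mul_of_nonneg_left (by linarith) hβ0.le
    have a2 : (1 + β) * (5 * B + A) * u ≤ C * u :=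
      mul_le_mul_of_nonneg_right (by linarith) hu0.le
    nlinarith
  · rcases le_total s (cc β / 2) with h1 | h1
    · refine (h.zlin_of hβ0 (k := u) (by linarith) G2 hu0 hs.1 (by linarith)).trans ?_
      have a1 : 4 * (A * u ^ 2) / u = 4 * A * u := by field_simp
      have a2 : (8 * β ^ 6 + 4 * A) * u ≤ C * u := mul_le_mul_of_nonneg_right (by linarith) hu0.le
      have a3 : 8 * β ^ 6 * s ≤ C * s := mul_le_mul_of_nonneg_right (by linarith) hs.1
      rw [a1]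
      nlinarith
    · have a1 : 2 / cc β * (cc β / 2) ≤ C * s :=
        mul_le_mul (by linarith) h1 (by positivity) (by linarith)
      have a2 : 2 / cc β * (cc β / 2) = 1 := by field_simp
      have a3 : 0 ≤ C * u := by positivity
      linarith [h.zeta_le s]
  · have he : 0 ≤ e := (abs_nonneg _).trans (hz 0)
    refine (h.pert hβ0 (by positivity) G1 h' hQK hQa hz).trans ?_
    have a1 : e * (5 * B * u ^ 4) ≤ e * (C * u) := mul_le_mul_of_nonneg_left (by linarith) he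
    have a2 : β ^ 2 / 2 * (e * (5 * B * u ^ 4)) ≤ C * (e * (C * u)) :=
      mul_le_mul (by nlinarith) a1 (by positivity) (by linarith)
    have a3 : β ^ 2 / 2 * CG β * e ^ 2 ≤ C * e ^ 2 :=
      mul_le_mul_of_nonneg_right (by nlinarith) (sq_nonneg e)
    nlinarith

end

end Crest.Agent.T157.Pf
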