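import Crest.Agent.T157.SLB_23

/-!
# Row 157: stochastic localisation, expectations along the channel (helper23)

Bayes formula, Markov property, change of the driving law, the generator formula, the law of `y_s`.
-/

set_option autoImplicit false
set_option linter.unusedSectionVars false

noncomputable section

namespace Crest.Agent.T157.SL

open MeasureTheory ProbabilityTheory Filter Topology Set Real Matrix
open Crest.Agent.T157.E

variable {Ω ι : Type*} [Fintype Ω] [Fintype ι] [DecidableEq ι] {φ : Ω → ι → ℝ} {v w f g : Ω → ℝ}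
  {I : Set ℝ} {G H a : Pt ι → ℝ} {b d : ι → Pt ι → ℝ} {s t : ℝ}

/-! ### Gaussian facts -/

/-- Cameron–Martin -/
theorem cm (h : ι → ℝ) (F : (ι → ℝ) → ℝ) :
    ∫ z, F (h + z) ∂Gs ι = ∫ z, exp (z ⬝ᵥ h - h ⬝ᵥ h / 2) * F z ∂Gs ι := by
  simpa [T145.Gs.gm_one, T145.Gs.cmd, T145.Gs.sg, add_comm, dotProduct_comm h]
    using T145.Gs.integral_shift (ι := ι) PosSemidef.one h F

theorem cm_int (h : ι → ℝ) (F : (ι → ℝ) → ℝ) : Integrable (fun z => F (h + z)) (Gs ι) ↔
    Integrable (fun z => exp (z ⬝ᵥ h - h ⬝ᵥ h / 2) * F z) (Gs ι) := by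
  simpa [T145.Gs.gm_one, T145.Gs.cmd, T145.Gs.sg, add_comm, dotProduct_comm h]
    using T145.Gs.int_shift (ι := ι) PosSemidef.one h F

theorem map_add_smul (hs : 0 ≤ s) (ht : 0 ≤ t) :
    ((Gs ι).prod (Gs ι)).map (fun p => √s • p.1 + √t • p.2) = (Gs ι).map fun z => √(s + t) • z := by
  have e : ∀ c : ℝ, (Gs ι).map (fun z => c • z) = T145.Gs.gm (c ^ 2 • (1 : Matrix ι ι ℝ)) := fun c => by
    rw [← T145.Gs.map_smul PosSemidef.one, T145.Gs.gm_one]; rfl
  rw [e, sq_sqrt (add_nonneg hs ht), add_smul, ← T145.Gs.conv (PosSemidef.one.smul hs)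
    (PosSemidef.one.smul ht), ← sq_sqrt hs, ← sq_sqrt ht, ← e, ← e, sqrt_sq (sqrt_nonneg _),
    sqrt_sq (sqrt_nonneg _), Measure.map_prod_map _ _ (by fun_prop) (by fun_prop),
    Measure.map_map (by fun_prop) (by fun_prop)]
  rfl

/-- measurable of exponential growth -/
structure MG (F : (ι → ℝ) → ℝ) : Prop where
  meas : Measurable F
  bd : ∃ C c : ℝ, 0 ≤ C ∧ 0 ≤ c ∧ ∀ y, |F y| ≤ C * exp (c * ‖y‖)

namespace MG

variable {F F' : (ι → ℝ) → ℝ}

theorem of_le (h : MG F) (hm : Measurable F') (e : ∀ y, |F' y| ≤ |F y|) : MG F' :=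
  ⟨hm, h.bd.imp fun _ => .imp fun _ h => ⟨h.1, h.2.1, fun y => (e y).trans (h.2.2 y)⟩⟩

theorem of_bdd (hm : Measurable F) (C : ℝ) (e : ∀ y, |F y| ≤ C) : MG F :=
  ⟨hm, |C|, 0, abs_nonneg _, le_rfl, fun y => by simpa using (e y).trans (le_abs_self C)⟩

theorem const (c : ℝ) : MG fun _ : ι → ℝ => c := of_bdd measurable_const |c| fun _ => le_rfl

theorem mul (h : MG F) (h' : MG F') : MG fun y => F y * F' y := by
  obtain ⟨C, c, h1, h2, h3⟩ := h.bd
  obtain ⟨C', c', h1', h2', h3'⟩ := h'.bd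
  refine ⟨h.meas.mul h'.meas, C * C', c + c', by positivity, by positivity, fun p => ?_⟩
  rw [abs_mul, add_mul, exp_add, mul_mul_mul_comm]
  exact mul_le_mul (h3 p) (h3' p) (abs_nonneg _) (by positivity)

theorem add (h : MG F) (h' : MG F') : MG fun y => F y + F' y := by
  obtain ⟨C, c, h1, h2, h3⟩ := h.bd
  obtain ⟨C', c', h1', h2', h3'⟩ := h'.bd
  refine ⟨h.meas.add h'.meas, C + C', c + c', by positivity, by positivity, fun p => ?_⟩
  rw [add_mul C]
  refine (abs_add_le _ _).trans (add_le_add ((h3 p).trans ?_) ((h3' p).trans ?_)) <;>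
  gcongr <;> linarith

theorem const_mul (c : ℝ) (h : MG F) : MG fun y => c * F y := (const c).mul h

theorem neg (h : MG F) : MG fun y => -F y := by simpa using h.const_mul (-1)

theorem sub (h : MG F) (h' : MG F') : MG fun y => F y - F' y := by
  simpa [sub_eq_add_neg] using h.add h'.neg

theorem abs (h : MG F) : MG fun y => |F y| := h.of_le h.meas.abs fun _ => (abs_abs _).le

theorem sum {κ : Type*} (S : Finset κ) {F : κ → (ι → ℝ) → ℝ} (h : ∀ k ∈ S, MG (F k)) :
    MG fun y => ∑ k ∈ S, F k y := by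
  classical
  induction S using Finset.induction_on with
  | empty => simpa using const 0
  | insert k s hk ih =>
    simpa [Finset.sum_insert hk] using (h k (by simp)).add (ih fun j hj => h j (by simp [hj]))

theorem indicator (h : MG F) {A : Set (ι → ℝ)} (hA : MeasurableSet A) : MG (A.indicator F) :=
  h.of_le (h.meas.indicator hA) fun y => by
    simpa only [Real.norm_eq_abs] using norm_indicator_le_norm_self F y

theorem affine (h : MG F) (u : ι → ℝ) (c : ℝ) : MG fun z => F (u + c • z) := by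
  obtain ⟨C, k, c1, c2, c3⟩ := h.bd
  refine ⟨h.meas.comp (by fun_prop), C * exp (k * ‖u‖), k * |c|, by positivity, by positivity,
    fun z => (c3 _).trans ?_⟩
  rw [mul_assoc, ← exp_add, mul_assoc, ← mul_add]
  gcongr
  exact (norm_add_le _ _).trans_eq (by rw [norm_smul, Real.norm_eq_abs])

theorem int (h : MG F) : Integrable F (Gs ι) := by
  obtain ⟨C, c, -, -, c3⟩ := h.bd
  exact ((int_exp c).const_mul C).mono' h.meas.aestronglyMeasurable (.of_forall c3)

/-- Gaussian smoothing -/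
theorem conv (h : MG F) (u : ι → ℝ) (c : ℝ) : MG fun y => ∫ z, F (y + (u + c • z)) ∂Gs ι := by
  obtain ⟨C, k, c1, c2, c3⟩ := h.bd
  refine ⟨(StronglyMeasurable.integral_prod_right (f := fun y z => F (y + (u + c • z)))
    (h.meas.comp (by fun_prop)).stronglyMeasurable).measurable,
    C * ∫ z, exp (k * ‖u‖) * exp (k * |c| * ‖z‖) ∂Gs ι, k, by positivity, c2, fun y => ?_⟩
  rw [mul_assoc, ← integral_mul_const, ← integral_const_mul]
  refine norm_integral_le_of_norm_le (f := fun z => F (y + (u + c • z)))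
    ((((int_exp _).const_mul _).mul_const _).const_mul _) (.of_forall fun z => (c3 _).trans ?_)
  rw [← exp_add, ← exp_add, mul_assoc, ← mul_add, ← mul_add, add_comm _ ‖y‖]
  gcongr
  exact (norm_add_le _ _).trans (by
    gcongr; exact (norm_add_le _ _).trans_eq (by rw [norm_smul, Real.norm_eq_abs]))

end MG

theorem EG.mg (h : EG I G) (ht : t ∈ I) : MG fun y => G (t, y) :=
  ⟨(h.cont_at ht).measurable, h.bd.imp fun _ => .imp fun _ h => ⟨h.1, h.2.1, fun y => h.2.2 (t, y) ht⟩⟩

theorem mg_mean (hw : Wt w) (s : ℝ) {F : Ω → (ι → ℝ) → ℝ} (hF : ∀ x, MG (F x)) :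
    MG fun y => mean (post φ w s y) fun x => F x y :=
  .sum _ fun x _ => ((eg_prob (I := univ) hw x).mg (mem_univ s)).mul (hF x)

/-! ### the expectation along the channel -/

/-- integrability along the channel -/
def SInt (φ : Ω → ι → ℝ) (s : ℝ) (F : Ω → (ι → ℝ) → ℝ) : Prop :=
  ∀ x, Integrable (fun z => F x (s • φ x + √s • z)) (Gs ι)

section
variable {F F' : Ω → (ι → ℝ) → ℝ}

theorem SInt.of_mg (h : ∀ x, MG (F x)) : SInt φ s F := fun x => ((h x).affine _ _).int

theorem EG.sint {F : Ω → Pt ι → ℝ} (h : ∀ x, EG I (F x)) (ht : t ∈ I) :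
    SInt φ t fun x y => F x (t, y) := .of_mg fun x => (h x).mg ht

theorem slE_eq_mean (F : Ω → (ι → ℝ) → ℝ) :
    slE φ v s F = mean v fun x => ∫ z, F x (s • φ x + √s • z) ∂Gs ι := rfl

theorem slE_add (h : SInt φ s F) (h' : SInt φ s F') :
    slE φ v s (fun x y => F x y + F' x y) = slE φ v s F + slE φ v s F' := by
  simp only [slE_eq_mean, ← mean_add, integral_add (h _) (h' _)]

theorem slE_sub (h : SInt φ s F) (h' : SInt φ s F') :
    slE φ v s (fun x y => F x y - F' x y) = slE φ v s F - slE φ v s F' := by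
  simp only [slE_eq_mean, ← mean_sub, integral_sub (h _) (h' _)]

theorem slE_const_mul (c : ℝ) (F : Ω → (ι → ℝ) → ℝ) :
    slE φ v s (fun x y => c * F x y) = c * slE φ v s F := by
  simp only [slE_eq_mean, ← mean_const_mul, integral_const_mul]

theorem slE_neg (F : Ω → (ι → ℝ) → ℝ) : slE φ v s (fun x y => -F x y) = -slE φ v s F := by
  simp only [slE_eq_mean, ← mean_neg, integral_neg]

theorem slE_sum {κ : Type*} (S : Finset κ) {F : κ → Ω → (ι → ℝ) → ℝ} (h : ∀ k ∈ S, SInt φ s (F k)) :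
    slE φ v s (fun x y => ∑ k ∈ S, F k x y) = ∑ k ∈ S, slE φ v s (F k) := by
  simp only [slE_eq_mean, ← mean_sum]
  congr 1; ext x
  exact integral_finsetSum _ fun k hk => h k hk x

theorem slE_fun (f : Ω → ℝ) : slE φ v s (fun x _ => f x) = mean v f := by simp [slE_eq_mean]

theorem slE_mono (hv : Wt v) (h : SInt φ s F) (h' : SInt φ s F') (e : ∀ x y, F x y ≤ F' x y) :
    slE φ v s F ≤ slE φ v s F' := hv.mean_mono fun x => integral_mono (h x) (h' x) fun _ => e _ _

theorem slE_nonneg (hv : Wt v) (e : ∀ x y, 0 ≤ F x y) : 0 ≤ slE φ v s F :=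
  hv.mean_nonneg fun _ => integral_nonneg fun _ => e _ _

theorem slE_zero (F : Ω → (ι → ℝ) → ℝ) : slE φ v 0 F = mean v fun x => F x 0 := by
  simp [slE_eq_mean]

theorem path_eq (hs : 0 ≤ s) (u z : ι → ℝ) : s • u + √s • z = √s • (√s • u + z) := by
  rw [smul_add, smul_smul, mul_self_sqrt hs]

theorem post_sqrt (hs : 0 ≤ s) (z : ι → ℝ) (x : Ω) : post φ v s (√s • z) x =
    v x * exp (z ⬝ᵥ √s • φ x - (√s • φ x) ⬝ᵥ (√s • φ x) / 2) := by
  simp only [post, smul_dotProduct, dotProduct_smul, smul_eq_mul, ← mul_assoc, mul_self_sqrt hs]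
  congr 2; ring

theorem SInt.post (h : SInt φ s F) (hs : 0 ≤ s) (v : Ω → ℝ) (x : Ω) :
    Integrable (fun z => post φ v s (√s • z) x * F x (√s • z)) (Gs ι) := by
  simpa only [post_sqrt hs, mul_assoc] using ((cm_int (√s • φ x) fun z => F x (√s • z)).1
    (by simpa only [path_eq hs] using h x)).const_mul (v x)

/-- the channel seen from the Brownian reference measure -/
theorem slE_eq_ref (hs : 0 ≤ s) (F : Ω → (ι → ℝ) → ℝ) : slE φ v s F =
    (∑ x, ∫ z, post φ v s (√s • z) x * F x (√s • z) ∂Gs ι) / ∑ x, v x := by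
  rw [slE_eq_mean, mean_eq_div]
  congr 2; ext x
  simp only [path_eq hs, post_sqrt hs, mul_assoc]
  rw [integral_const_mul, cm (√s • φ x) fun z => F x (√s • z)]

theorem slE_eq_ref' (hs : 0 ≤ s) (h : SInt φ s F) : slE φ v s F =
    (∫ z, ∑ x, post φ v s (√s • z) x * F x (√s • z) ∂Gs ι) / ∑ x, v x := by
  rw [slE_eq_ref hs, integral_finsetSum _ fun x _ => h.post hs v x]

/-- **Bayes formula** -/
theorem bayes (hv : Wt v) (hs : 0 ≤ s) (h : SInt φ s F) :
    slE φ v s F = slE φ v s fun _ y => mean (post φ v s y) fun x => F x y := by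
  rw [slE_eq_ref' hs h, slE_eq_ref hs, ← integral_finsetSum]
  · congr 2; ext z
    rw [← Finset.sum_mul, mean_eq_div, mul_div_cancel₀ _ (hv.post _ _ _).pos.ne']
  · intro x _
    simp only [mean_eq_div, ← mul_div_assoc, mul_div_right_comm]
    refine (integrable_finsetSum _ fun x' _ => h.post hs v x').bdd_mul (c := 1)
      ((cont_prob hv φ x).comp (f := fun z : ι → ℝ => (s, √s • z)) (by fun_prop)).aestronglyMeasurable
      (.of_forall fun z => (abs_of_nonneg ((hv.post _ _ _).prob_nonneg x)).trans_le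
        ((hv.post _ _ _).prob_le_one x))

/-- posterior means are martingales -/
theorem slE_mean (hv : Wt v) (hs : 0 ≤ s) (f : Ω → ℝ) :
    slE φ v s (fun _ y => mean (post φ v s y) f) = mean v f := by
  rw [← bayes hv hs (F := fun x _ => f x) fun _ => integrable_const _, slE_fun]

/-- change of the driving law -/
theorem slE_mul_weight (hw : Wt w) (f : Ω → ℝ) (F : Ω → (ι → ℝ) → ℝ) :
    slE φ (fun x => w x * f x) s F = slE φ w s (fun x y => f x * F x y) / mean w f := by
  simp only [slE_eq_mean, mean_mul_weight _ _ _ hw.pos.ne', integral_const_mul]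

theorem slE_mul_weight' (hw : Wt w) (hs : 0 ≤ s) (f : Ω → ℝ) {K : (ι → ℝ) → ℝ}
    (h : SInt φ s fun _ => K) : slE φ (fun x => w x * f x) s (fun _ => K) =
      slE φ w s (fun _ y => mean (post φ w s y) f * K y) / mean w f := by
  rw [slE_mul_weight hw, bayes hw hs fun x => (h x).const_mul (f x)]
  simp only [mean_mul_const]

/-- **Markov property** -/
theorem markov (hv : Wt v) (hs : 0 ≤ s) (ht : 0 ≤ t) (h : ∀ x, MG (F x)) :
    slE φ v (s + t) F =
      slE φ v s fun _ y => slE φ (post φ v s y) t fun x z => F x (y + z) := by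
  refine Eq.trans ?_ (bayes hv hs (.of_mg fun x => (h x).conv (t • φ x) √t))
  simp only [slE_eq_mean]
  congr 1; ext x
  have h1 := ((h x).affine ((s + t) • φ x) 1).meas
  simp only [one_smul] at h1
  have h2 : Measurable fun p : (ι → ℝ) × (ι → ℝ) => √s • p.1 + √t • p.2 := by fun_prop
  have h3 : Measurable fun z : ι → ℝ => √(s + t) • z := by fun_prop
  have h4 := (integrable_map_measure h1.aestronglyMeasurable h3.aemeasurable).2
    ((h x).affine ((s + t) • φ x) √(s + t)).int
  rw [← integral_map h3.aemeasurable h1.aestronglyMeasurable, ← map_add_smul hs ht,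
    integral_map h2.aemeasurable h1.aestronglyMeasurable]
  rw [← map_add_smul hs ht, integrable_map_measure h1.aestronglyMeasurable h2.aemeasurable] at h4
  refine (integral_prod _ h4).trans ?_
  congr 1; ext z; congr 1; ext z'
  simp only [Function.comp_apply, add_smul]
  congr 1; abel

end

/-! ### the generator formula -/

/-- expectation of `G (t, y_t)` along the localisation driven by `v` -/
def ex (φ : Ω → ι → ℝ) (v : Ω → ℝ) (G : Pt ι → ℝ) (t : ℝ) : ℝ := slE φ v t fun _ y => G (t, y)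

theorem continuousOn_slE {F : Ω → Pt ι → ℝ} (h : ∀ x, EG I (F x)) :
    ContinuousOn (fun t => slE φ v t fun x y => F x (t, y)) I := fun t ht => by
  rw [← continuousWithinAt_inter (Ioo_mem_nhds (sub_one_lt t) (lt_add_one t))]
  refine (continuousOn_finsetSum _ fun x _ => continuousOn_const.mul
    (((h x).mono inter_subset_left).path (φ x) (|t| + 1) fun r hr => ?_).continuousOn_int) t
    ⟨ht, by simp⟩
  rw [abs_le]
  constructor <;> linarith [hr.2.1, hr.2.2, le_abs_self t, neg_abs_le t]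

/-- generator formula for observables of `(X, t, y_t)` -/
theorem hasDerivAt_slE {F A : Ω → Pt ι → ℝ} {B : Ω → ι → Pt ι → ℝ}
    (h : ∀ x, Ito (fun i _ => φ x i) I (F x) (A x) (B x)) (ht : 0 < t) (hI : I ∈ 𝓝 t) :
    HasDerivAt (fun t => slE φ v t fun x y => F x (t, y)) (slE φ v t fun x y => A x (t, y)) t :=
  HasDerivAt.fun_sum fun x _ => (((h x).hasDerivAt_int (φ x) ht hI).congr_deriv
    (by simp)).const_mul _

theorem EG.continuousOn_ex (h : EG I G) : ContinuousOn (ex φ v G) I :=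
  continuousOn_slE fun _ => h

/-- **generator formula** -/
theorem Ito.hasDerivAt_ex (hv : Wt v) (h : Ito (md φ v) I G a b) (ht : 0 < t) (hI : I ∈ 𝓝 t) :
    HasDerivAt (ex φ v G) (ex φ v a t) t := by
  refine (hasDerivAt_slE (fun x => h.drift fun i _ => φ x i) ht hI).congr_deriv ?_
  rw [bayes hv ht.le (EG.sint (fun x => (h.drift fun i _ => φ x i).eg_a fun _ => .const _)
    (mem_of_mem_nhds hI)), ex]
  congr 1; ext _ y
  simp [mean_add, mean_sum, mean_mul_const, mean_sub, (hv.post φ t y).mean_const, md, meanV]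

theorem ex_zero (hv : Wt v) (G : Pt ι → ℝ) : ex φ v G 0 = G (0, 0) := by
  rw [ex, slE_zero, hv.mean_const]

theorem ex_const (hv : Wt v) (c t : ℝ) : ex φ v (fun _ => c) t = c := by
  rw [ex, slE_fun, hv.mean_const]

theorem ex_time (hv : Wt v) (k : ℝ → ℝ) (t : ℝ) : ex φ v (fun p => k p.1) t = k t :=
  ex_const hv (k t) t


theorem ex_const_mul (c : ℝ) (G : Pt ι → ℝ) (t : ℝ) :
    ex φ v (fun p => c * G p) t = c * ex φ v G t := slE_const_mul _ _

theorem ex_neg (G : Pt ι → ℝ) (t : ℝ) : ex φ v (fun p => -G p) t = -ex φ v G t := slE_neg _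

theorem ex_add (h : MG fun y => G (t, y)) (h' : MG fun y => H (t, y)) :
    ex φ v (fun p => G p + H p) t = ex φ v G t + ex φ v H t :=
  slE_add (.of_mg fun _ => h) (.of_mg fun _ => h')

theorem ex_sub (h : MG fun y => G (t, y)) (h' : MG fun y => H (t, y)) :
    ex φ v (fun p => G p - H p) t = ex φ v G t - ex φ v H t :=
  slE_sub (.of_mg fun _ => h) (.of_mg fun _ => h')

theorem ex_sum {κ : Type*} (S : Finset κ) {G : κ → Pt ι → ℝ} (h : ∀ k ∈ S, MG fun y => G k (t, y)) :
    ex φ v (fun p => ∑ k ∈ S, G k p) t = ∑ k ∈ S, ex φ v (G k) t :=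
  slE_sum S fun k hk => .of_mg fun _ => h k hk

theorem ex_mono (hv : Wt v) (h : MG fun y => G (t, y)) (h' : MG fun y => H (t, y))
    (e : ∀ y, G (t, y) ≤ H (t, y)) : ex φ v G t ≤ ex φ v H t :=
  slE_mono hv (.of_mg fun _ => h) (.of_mg fun _ => h') fun _ => e

theorem ex_nonneg (hv : Wt v) (e : ∀ y, 0 ≤ G (t, y)) : 0 ≤ ex φ v G t := slE_nonneg hv fun _ => e

theorem ex_congr (e : ∀ y, G (t, y) = H (t, y)) : ex φ v G t = ex φ v H t := by simp only [ex, e]

theorem ex_mean (hv : Wt v) (ht : 0 ≤ t) (f : Ω → ℝ) :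
    ex φ v (fun p => mean (pw φ v p) f) t = mean v f := slE_mean hv ht f

theorem ex_mul_weight (hw : Wt w) (ht : 0 ≤ t) (f : Ω → ℝ) (h : MG fun y => G (t, y)) :
    ex φ (fun x => w x * f x) G t = ex φ w (fun p => mean (pw φ w p) f * G p) t / mean w f :=
  slE_mul_weight' hw ht f (.of_mg fun _ => h)

theorem ex_markov (hv : Wt v) (hs : 0 ≤ s) (ht : 0 ≤ t) (h : MG fun y => G (s + t, y)) :
    ex φ v G (s + t) = ex φ v (fun p => ex φ (pw φ v p) (fun q => G (p + q)) t) s :=
  markov hv hs ht fun _ => h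

/-- integrated generator formula -/
theorem Ito.ex_sub (hv : Wt v) (hs : 0 ≤ s) (hst : s ≤ t) (h : Ito (md φ v) (Ioo s t) G a b)
    (hG : EG (Icc s t) G) (ha : IntervalIntegrable (ex φ v a) volume s t) :
    ex φ v G t - ex φ v G s = ∫ r in s..t, ex φ v a r :=
  (intervalIntegral.integral_eq_sub_of_hasDerivAt_of_le hst hG.continuousOn_ex
    (fun _ hr => h.hasDerivAt_ex hv (hs.trans_lt hr.1) (Ioo_mem_nhds hr.1 hr.2)) ha).symm

theorem Ito.ex_sub' (hv : Wt v) (hs : 0 ≤ s) (hst : s ≤ t) (h : Ito (md φ v) (Icc s t) G a b) :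
    ex φ v G t - ex φ v G s = ∫ r in s..t, ex φ v a r :=
  (h.mono Ioo_subset_Icc_self).ex_sub hv hs hst h.eg
    ((h.eg_a (eg_md hv)).continuousOn_ex.intervalIntegrable_of_Icc hst)

/-- supermartingales -/
theorem Ito.ex_anti (hv : Wt v) (hs : 0 ≤ s) (hst : s ≤ t) (h : Ito (md φ v) (Ioo s t) G a b)
    (hG : EG (Icc s t) G) (ha : ∀ r ∈ Ioo s t, ex φ v a r ≤ 0) : ex φ v G t ≤ ex φ v G s := by
  have hd := fun r (hr : r ∈ Ioo s t) => h.hasDerivAt_ex hv (hs.trans_lt hr.1) (Ioo_mem_nhds hr.1 hr.2)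
  exact antitoneOn_of_hasDerivWithinAt_nonpos (convex_Icc s t) hG.continuousOn_ex
    (fun r hr => (hd r (by simpa using hr)).hasDerivWithinAt) (fun r hr => ha r (by simpa using hr))
    (left_mem_Icc.2 hst) (right_mem_Icc.2 hst) hst

/-- submartingales -/
theorem Ito.ex_mono (hv : Wt v) (hs : 0 ≤ s) (hst : s ≤ t) (h : Ito (md φ v) (Ioo s t) G a b)
    (hG : EG (Icc s t) G) (ha : ∀ r ∈ Ioo s t, 0 ≤ ex φ v a r) : ex φ v G s ≤ ex φ v G t := by
  have := h.neg.ex_anti hv hs hst hG.neg fun r hr => by rw [ex_neg]; linarith [ha r hr]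
  simpa only [ex_neg, neg_le_neg_iff] using this

end Crest.Agent.T157.SL
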