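import Crest.Agent.T157.ConcG_16
import Crest.Agent.T157.EDef_39

/-!
# Row 157, part E (helper16): Talagrand's inequality for convex Lipschitz functions

Maurey's convex property (tau) for products of laws with support of diameter `≤ D`:
`subG_convex` : `F - E F` is sub-Gaussian with variance proxy `2 D² L²`.
`subG_convex_entry` : both entry laws (Gauss, `±1`), variance proxy `8 L²`.
-/

set_option autoImplicit false

noncomputable section

namespace Crest.Agent.T157.Conc

open MeasureTheory ProbabilityTheory Set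
open scoped ENNReal NNReal

/-- convex property (tau) -/
def CT (E : Type*) [AddCommGroup E] [Module ℝ E] [MeasurableSpace E] (μ : Measure E)
    (c : E → ℝ) : Prop :=
  ∀ (f : E → ℝ) (g : E → ℝ≥0∞), ConvexOn ℝ univ f → Measurable f → Measurable g →
    (∀ x y, g x ≤ ex (f y + c (x - y))) → (∫⁻ x, g x ∂μ) * (∫⁻ x, ex (-f x) ∂μ) ≤ 1

lemma exp_tau {u : ℝ} (h0 : 0 ≤ u) (h1 : u ≤ 1 / 2) :
    Real.exp (u - u ^ 2) + Real.exp (-u) ≤ 2 := by
  have h := Real.cosh_le_exp_half_sq (u - u ^ 2 / 2)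
  rw [Real.cosh_eq] at h
  have e1 : Real.exp (u - u ^ 2) = Real.exp (-(u ^ 2 / 2)) * Real.exp (u - u ^ 2 / 2) := by
    rw [← Real.exp_add]; congr 1; ring
  have e2 : Real.exp (-u) = Real.exp (-(u ^ 2 / 2)) * Real.exp (-(u - u ^ 2 / 2)) := by
    rw [← Real.exp_add]; congr 1; ring
  have e3 : Real.exp (-(u ^ 2 / 2)) * Real.exp ((u - u ^ 2 / 2) ^ 2 / 2) ≤ 1 := by
    rw [← Real.exp_add]
    refine Real.exp_le_one_iff.2 ?_
    have : (u - u ^ 2 / 2) ^ 2 ≤ u ^ 2 := by
      have a : 0 ≤ u - u ^ 2 / 2 := by nlinarith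
      have b : u - u ^ 2 / 2 ≤ u := by nlinarith
      exact pow_le_pow_left₀ a b 2
    linarith
  have hp := Real.exp_pos (-(u ^ 2 / 2))
  rw [e1, e2, ← mul_add]
  nlinarith

lemma exp_tau' {u : ℝ} (h0 : 0 ≤ u) : ∃ θ : ℝ, 0 ≤ θ ∧ θ ≤ 1 ∧
    Real.exp ((1 - θ) * u + θ ^ 2 / 4) ≤ 2 - Real.exp (-u) := by
  rcases le_total u (1 / 2) with h | h
  · refine ⟨2 * u, by linarith, by linarith, ?_⟩
    have := exp_tau h0 h
    rw [show (1 - 2 * u) * u + (2 * u) ^ 2 / 4 = u - u ^ 2 by ring]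
    linarith
  · refine ⟨1, zero_le_one, le_rfl, ?_⟩
    have h1 := exp_tau (u := 1 / 2) (by norm_num) le_rfl
    have h2 : Real.exp (-u) ≤ Real.exp (-(1 / 2)) := Real.exp_le_exp.2 (by linarith)
    rw [show (1 - 1) * u + (1:ℝ) ^ 2 / 4 = 1 / 2 - (1 / 2) ^ 2 by ring]
    linarith

lemma convex_continuous {E : Type*} [NormedAddCommGroup E] [NormedSpace ℝ E]
    [FiniteDimensional ℝ E] {f : E → ℝ} (hf : ConvexOn ℝ univ f) : Continuous f :=
  continuousOn_univ.1 (hf.continuousOn isOpen_univ)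

lemma ct_one {ν : Measure ℝ} [IsProbabilityMeasure ν] {lo D : ℝ} (hD : 0 < D)
    (hν : ∀ᵐ x ∂ν, x ∈ Icc lo (lo + D)) {f : ℝ → ℝ} (hf : ConvexOn ℝ univ f) {g : ℝ → ℝ≥0∞}
    (H : ∀ x ∈ Icc lo (lo + D), ∀ y ∈ Icc lo (lo + D),
      g x ≤ ex (f y + (x - y) ^ 2 / (4 * D ^ 2))) :
    (∫⁻ x, g x ∂ν) * (∫⁻ x, ex (-f x) ∂ν) ≤ 1 := by
  have hc := convex_continuous hf
  obtain ⟨a, ha, hmin⟩ := (isCompact_Icc (a := lo) (b := lo + D)).exists_isMinOn
    (nonempty_Icc.2 (by linarith)) hc.continuousOn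
  have hi : Integrable (fun x => Real.exp (-(f x - f a))) ν := by
    refine (integrable_const (1:ℝ)).mono' (by fun_prop) ?_
    filter_upwards [hν] with x hx
    rw [Real.norm_eq_abs, abs_of_pos (Real.exp_pos _), Real.exp_le_one_iff]
    have : f a ≤ f x := hmin hx
    linarith
  set B := ∫ x, Real.exp (-(f x - f a)) ∂ν with hB
  have hB0 : 0 ≤ B := integral_nonneg fun _ => (Real.exp_pos _).le
  have h1 : ∫⁻ x, g x ∂ν ≤ ex (f a) * ENNReal.ofReal (2 - B) := by
    have e : 2 - B = ∫ x, (2 - Real.exp (-(f x - f a))) ∂ν := by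
      rw [integral_sub (integrable_const _) hi]; simp [hB]
    have hnn : ∀ᵐ x ∂ν, 0 ≤ 2 - Real.exp (-(f x - f a)) := by
      filter_upwards [hν] with x hx
      have : f a ≤ f x := hmin hx
      have : Real.exp (-(f x - f a)) ≤ 1 := Real.exp_le_one_iff.2 (by linarith)
      linarith
    have hi2 : Integrable (fun x => 2 - Real.exp (-(f x - f a))) ν := (integrable_const _).sub hi
    rw [e, ofReal_integral_eq_lintegral_ofReal hi2 hnn,
      ← lintegral_const_mul' _ _ (ex_ne_top _)]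
    refine lintegral_mono_ae ?_
    filter_upwards [hν] with x hx
    have hu : 0 ≤ f x - f a := sub_nonneg.2 (hmin hx)
    obtain ⟨θ, h0, h1, h2⟩ := exp_tau' hu
    have hy : θ • a + (1 - θ) • x ∈ Icc lo (lo + D) :=
      (convex_Icc lo (lo + D)) ha hx h0 (by linarith) (by ring)
    have h3 := hf.2 (mem_univ a) (mem_univ x) h0 (by linarith : 0 ≤ 1 - θ) (by ring)
    have h4 : (x - (θ • a + (1 - θ) • x)) ^ 2 / (4 * D ^ 2) ≤ θ ^ 2 / 4 := by
      rw [div_le_div_iff₀ (by positivity) (by norm_num)]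
      have e : (x - (θ • a + (1 - θ) • x)) ^ 2 = θ ^ 2 * (x - a) ^ 2 := by
        simp only [smul_eq_mul]; ring
      have h5 : (x - a) ^ 2 ≤ D ^ 2 := by
        refine sq_le_sq' ?_ ?_ <;> linarith [hx.1, hx.2, ha.1, ha.2]
      rw [e]
      nlinarith [mul_le_mul_of_nonneg_left h5 (sq_nonneg θ)]
    refine (H x hx _ hy).trans ?_
    refine (ex_mono (v := f a + ((1 - θ) * (f x - f a) + θ ^ 2 / 4)) ?_).trans ?_
    · simp only [smul_eq_mul] at h3 h4 ⊢
      linarith
    · rw [ex_add]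
      exact mul_le_mul_right (ENNReal.ofReal_le_ofReal h2) _
  have h2 : ∫⁻ x, ex (-f x) ∂ν = ex (-f a) * ENNReal.ofReal B := by
    rw [hB, ← lintegral_ex hi, ← lintegral_const_mul' _ _ (ex_ne_top _)]
    congr 1; ext x; rw [← ex_add]; congr 1; ring
  rw [h2]
  refine (mul_le_mul_left h1 _).trans ?_
  rw [mul_mul_mul_comm, ← ex_add, add_neg_cancel, ex_zero, one_mul, mul_comm,
    ← ENNReal.ofReal_mul hB0]
  refine ENNReal.ofReal_le_one.2 ?_
  nlinarith [sq_nonneg (B - 1)]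

lemma le_mul_ciInf {κ : Type*} [Nonempty κ] {u : κ → ℝ} {X Y s : ℝ} (hs : 0 ≤ s)
    (h : ∀ i, X ≤ s * u i + Y) : X ≤ s * (⨅ i, u i) + Y := by
  rcases hs.eq_or_lt with rfl | hs
  · simpa using h (Classical.arbitrary κ)
  · have : (X - Y) / s ≤ ⨅ i, u i := le_ciInf fun i => by
      rw [div_le_iff₀ hs]; linarith [h i]
    rw [div_le_iff₀ hs] at this
    linarith

/-- `log ∫ exp` of convex functions is convex -/
lemma convexOn_log_integral {α E : Type*} [MeasurableSpace α] {ν : Measure α}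
    [IsProbabilityMeasure ν] [AddCommGroup E] [Module ℝ E] {φ : α → E → ℝ}
    (hφ : ∀ a, ConvexOn ℝ univ (φ a)) (hi : ∀ y, Integrable (fun a => Real.exp (φ a y)) ν) :
    ConvexOn ℝ univ fun y => Real.log (∫ a, Real.exp (φ a y) ∂ν) := by
  refine ⟨convex_univ, fun y _ z _ s t hs ht hst => ?_⟩
  have hA := integral_exp_pos (hi y)
  have hB := integral_exp_pos (hi z)
  set A := ∫ a, Real.exp (φ a y) ∂ν
  set B := ∫ a, Real.exp (φ a z) ∂ν
  rw [Real.log_le_iff_le_exp (integral_exp_pos (hi _))]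
  have h1 : ∀ a, Real.exp (φ a (s • y + t • z)) ≤ Real.exp (s • Real.log A + t • Real.log B) *
      (s / A * Real.exp (φ a y) + t / B * Real.exp (φ a z)) := fun a => by
    have h2 := (hφ a).2 (mem_univ y) (mem_univ z) hs ht hst
    have h3 := convexOn_exp.2 (mem_univ (φ a y - Real.log A)) (mem_univ (φ a z - Real.log B))
      hs ht hst
    simp only [smul_eq_mul] at h2 h3 ⊢
    rw [Real.exp_sub, Real.exp_sub, Real.exp_log hA, Real.exp_log hB] at h3
    calc Real.exp (φ a (s • y + t • z))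
        ≤ Real.exp ((s * Real.log A + t * Real.log B) +
            (s * (φ a y - Real.log A) + t * (φ a z - Real.log B))) :=
          Real.exp_le_exp.2 (by linarith)
      _ ≤ _ := by
          rw [Real.exp_add]
          refine mul_le_mul_of_nonneg_left (h3.trans (le_of_eq ?_)) (Real.exp_pos _).le
          ring
  have hi2 : Integrable (fun a => s / A * Real.exp (φ a y) + t / B * Real.exp (φ a z)) ν :=
    ((hi y).const_mul (s / A)).add ((hi z).const_mul (t / B))
  refine (integral_mono (hi _) (hi2.const_mul _) h1).trans ?_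
  rw [integral_const_mul, integral_add ((hi y).const_mul _) ((hi z).const_mul _),
    integral_const_mul, integral_const_mul, div_mul_cancel₀ _ hA.ne', div_mul_cancel₀ _ hB.ne',
    hst, mul_one]

lemma CT.step {F : Type*} [NormedAddCommGroup F] [NormedSpace ℝ F] [FiniteDimensional ℝ F]
    [MeasurableSpace F] [BorelSpace F] {μ : Measure F} [SFinite μ] {d : F → ℝ} (hF : CT F μ d)
    {ν : Measure ℝ} [IsProbabilityMeasure ν] {lo D : ℝ} (hD : 0 < D)
    (hν : ∀ᵐ x ∂ν, x ∈ Icc lo (lo + D)) :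
    CT (ℝ × F) (ν.prod μ) fun p => p.1 ^ 2 / (4 * D ^ 2) + d p.2 := by
  intro f g hf hfm hg H
  have hc := convex_continuous hf
  have : Nonempty (Icc lo (lo + D)) := ⟨⟨lo, le_rfl, by linarith⟩⟩
  let φ : ℝ × F → ℝ := fun p => ⨅ a : Icc lo (lo + D), (f (a, p.2) + (p.1 - a) ^ 2 / (4 * D ^ 2))
  have hle : ∀ (p : ℝ × F) (a : ℝ), a ∈ Icc lo (lo + D) →
      φ p ≤ f (a, p.2) + (p.1 - a) ^ 2 / (4 * D ^ 2) := fun p a ha => by
    obtain ⟨b, -, hb⟩ := (isCompact_Icc (a := lo) (b := lo + D)).exists_isMinOn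
      (nonempty_Icc.2 (by linarith))
      (by fun_prop : Continuous fun a : ℝ => f (a, p.2) + (p.1 - a) ^ 2 / (4 * D ^ 2)).continuousOn
    refine ciInf_le (f := fun a : Icc lo (lo + D) =>
      f (a, p.2) + (p.1 - a) ^ 2 / (4 * D ^ 2))
      ⟨f (b, p.2) + (p.1 - b) ^ 2 / (4 * D ^ 2), ?_⟩ ⟨a, ha⟩
    rintro _ ⟨c, rfl⟩
    exact hb c.2
  have hφ : ConvexOn ℝ univ φ := by
    refine ⟨convex_univ, fun p _ q _ s t hs ht hst => ?_⟩
    simp only [smul_eq_mul]
    refine le_mul_ciInf hs fun a => ?_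
    rw [add_comm (s * _)]
    refine le_mul_ciInf ht fun b => ?_
    have hab : s • (a : ℝ) + t • (b : ℝ) ∈ Icc lo (lo + D) :=
      (convex_Icc lo (lo + D)) a.2 b.2 hs ht hst
    refine (hle _ _ hab).trans ?_
    have h1 := hf.2 (mem_univ ((a : ℝ), p.2)) (mem_univ ((b : ℝ), q.2)) hs ht hst
    have h2 : ((s • p + t • q).1 - (s • (a : ℝ) + t • (b : ℝ))) ^ 2 / (4 * D ^ 2) ≤
        s * ((p.1 - a) ^ 2 / (4 * D ^ 2)) + t * ((q.1 - b) ^ 2 / (4 * D ^ 2)) := by
      rw [← mul_div_assoc, ← mul_div_assoc, ← add_div]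
      refine div_le_div_of_nonneg_right ?_ (by positivity)
      have e : t = 1 - s := by linarith
      simp only [Prod.fst_add, Prod.smul_fst, smul_eq_mul]
      have : 0 ≤ s * t * ((p.1 - a) - (q.1 - b)) ^ 2 := by positivity
      subst e
      nlinarith
    simp only [Prod.smul_mk, Prod.mk_add_mk, smul_eq_mul, Prod.snd_add, Prod.smul_snd] at h1 h2 ⊢
    linarith
  have hφc := convex_continuous hφ
  have hi : ∀ y : F, Integrable (fun a => Real.exp (φ (a, y))) ν := fun y => by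
    obtain ⟨b, -, hb⟩ := (isCompact_Icc (a := lo) (b := lo + D)).exists_isMaxOn
      (nonempty_Icc.2 (by linarith))
      (by fun_prop : Continuous fun a : ℝ => Real.exp (φ (a, y))).continuousOn
    refine (integrable_const (Real.exp (φ (b, y)))).mono' (by fun_prop) ?_
    filter_upwards [hν] with x hx
    rw [Real.norm_eq_abs, abs_of_pos (Real.exp_pos _)]
    exact hb hx
  let ψ : F → ℝ := fun y => Real.log (∫ a, Real.exp (φ (a, y)) ∂ν)
  have hψ : ConvexOn ℝ univ ψ := by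
    refine convexOn_log_integral (φ := fun a y => φ (a, y)) (fun a => ?_) hi
    refine ⟨convex_univ, fun y _ z _ s t hs ht hst => ?_⟩
    have := hφ.2 (mem_univ (a, y)) (mem_univ (a, z)) hs ht hst
    simpa only [Prod.smul_mk, Prod.mk_add_mk, ← add_smul, hst, one_smul] using this
  have hψe : ∀ y, ∫⁻ a, ex (φ (a, y)) ∂ν = ex (ψ y) := fun y => by
    rw [lintegral_ex (hi y)]
    simp only [ex, ψ, Real.exp_log (integral_exp_pos (hi y))]
  have key := hF ψ (fun y => ∫⁻ a, g (a, y) ∂ν) hψ (convex_continuous hψ).measurable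
    hg.lintegral_prod_left' (fun y y' => by
      rw [ex_add, ← hψe, ← lintegral_mul_const' _ _ (ex_ne_top _)]
      refine lintegral_mono fun a => ?_
      rw [← ex_add]
      by_cases h0 : g (a, y) = 0
      · rw [h0]; exact bot_le
      have ht : g (a, y) ≠ ∞ := ne_top_of_le_ne_top (ex_ne_top _) (H (a, y) 0)
      have hp : 0 < (g (a, y)).toReal := ENNReal.toReal_pos h0 ht
      have e : g (a, y) = ex (Real.log (g (a, y)).toReal) := by
        simp only [ex, Real.exp_log hp, ENNReal.ofReal_toReal ht]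
      rw [e]
      refine ex_mono ?_
      rw [← one_mul (φ _)]
      refine le_mul_ciInf zero_le_one fun b => ?_
      have := H (a, y) (b, y')
      rw [e, ex_le_iff] at this
      simp only [Prod.fst_sub, Prod.snd_sub] at this
      linarith)
  rw [lintegral_prod_symm' _ hg, lintegral_prod_symm' _ (by fun_prop)]
  refine le_trans (mul_le_mul_right (lintegral_mono fun y => ?_) _) key
  have h1 := ct_one hD hν (f := fun a => f (a, y)) (g := fun a => ex (φ (a, y)))
    ⟨convex_univ, fun a _ b _ s t hs ht hst => by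
      have := hf.2 (mem_univ (a, y)) (mem_univ (b, y)) hs ht hst
      simpa only [Prod.smul_mk, Prod.mk_add_mk, ← add_smul, hst, one_smul] using this⟩
    (fun a _ b hb => ex_mono (hle (a, y) b hb))
  rw [hψe] at h1
  calc ∫⁻ a, ex (-f (a, y)) ∂ν = ex (-ψ y) * (ex (ψ y) * ∫⁻ a, ex (-f (a, y)) ∂ν) := by
        rw [← mul_assoc, ← ex_add, neg_add_cancel, ex_zero, one_mul]
    _ ≤ ex (-ψ y) * 1 := mul_le_mul_right h1 _
    _ = _ := mul_one _

theorem CT.of_mp {E F : Type*} [AddCommGroup E] [Module ℝ E] [MeasurableSpace E]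
    [AddCommGroup F] [Module ℝ F] [MeasurableSpace F] {μ : Measure E} {ν : Measure F}
    {c : E → ℝ} {d : F → ℝ} (e : E → F) (he : MeasurePreserving e μ ν)
    (hlin : ∀ (a b : ℝ) (x y : E), e (a • x + b • y) = a • e x + b • e y)
    (hc : ∀ x y, d (e x - e y) = c (x - y)) (hE : CT E μ c) : CT F ν d := by
  intro f g hf hfm hg H
  rw [← he.lintegral_comp hg, ← he.lintegral_comp (f := fun x => ex (-f x)) (by fun_prop)]
  refine hE (fun x => f (e x)) (fun x => g (e x))
    ⟨convex_univ, fun x _ y _ s t hs ht hst => ?_⟩ (hfm.comp he.measurable)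
    (hg.comp he.measurable) fun x y => ?_
  · simp only [hlin]; exact hf.2 (mem_univ _) (mem_univ _) hs ht hst
  · rw [← hc]; exact H _ _


variable {ι : Type*} [Fintype ι]



section bounded
variable {D : ℝ} {ν : ι → Measure ℝ} [∀ i, IsProbabilityMeasure (ν i)] {lo : ι → ℝ}






end bounded



lemma subG_mono {Ω : Type*} [MeasurableSpace Ω] {μ : Measure Ω} {X : Ω → ℝ} {c c' : ℝ≥0}
    (h : HasSubgaussianMGF X c μ) (hc : (c : ℝ) ≤ c') : HasSubgaussianMGF X c' μ :=
  ⟨h.integrable_exp_mul, fun t => (h.mgf_le t).trans (Real.exp_le_exp.2 (by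
    have := mul_le_mul_of_nonneg_right hc (sq_nonneg t); linarith))⟩

lemma subG_lip' {L : ℝ} {F : (ι → ℝ) → ℝ} (h : ELip L F) {c : ℝ≥0} (hc : L ^ 2 ≤ c) :
    HasSubgaussianMGF (fun x => F x - ∫ y, F y ∂(gv ι)) c (gv ι) := subG_mono (subG_lip h) hc




end Crest.Agent.T157.Conc
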