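import Crest.Agent.T157.EDef_39

/-!
# Row 157, part E (helper53): Gaussian conditioning, part A — the GOE law

* measurable structure on real matrices, `pair M X = ∑ M i j * X i j`;
* `CF μ X = ∫ exp (i X) dμ` and the extensionality lemmas `ext_vec`, `ext_mat`;
* `goe ι s`: law of `s (G + Gᵀ)/√2` (off-diagonal variance `s²`, diagonal variance `2 s²`);
* `goe_Wmat` (GOE completion), `goe_conj` (orthogonal invariance), `goe_add`, `goe_smul`.
-/

set_option autoImplicit false
set_option linter.unusedSectionVars false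

noncomputable section

namespace Crest.Agent.T157.Cond

open MeasureTheory ProbabilityTheory Matrix Complex
open Crest.ProbabilityR.SpinGlassDynamics Crest.Agent.T157.E

instance instMSMatrix {m n : Type*} : MeasurableSpace (Matrix m n ℝ) :=
  (MeasurableSpace.pi : MeasurableSpace (m → n → ℝ))

instance instSCMatrix {m n : Type*} [Countable m] [Countable n] :
    SecondCountableTopology (Matrix m n ℝ) :=
  (inferInstance : SecondCountableTopology (m → n → ℝ))

instance instBorelMatrix {m n : Type*} [Countable m] [Countable n] : BorelSpace (Matrix m n ℝ) :=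
  (inferInstance : BorelSpace (m → n → ℝ))

section meas
variable {Ω : Type*} [MeasurableSpace Ω] {l m n : Type*}

lemma measurable_mat_iff {A : Ω → Matrix m n ℝ} :
    Measurable A ↔ ∀ i j, Measurable fun ω => A ω i j := by
  constructor
  · intro h i j
    exact (measurable_pi_apply j).comp ((measurable_pi_apply i).comp h)
  · intro h
    exact measurable_pi_lambda _ fun i => measurable_pi_lambda _ fun j => h i j

lemma _root_.Measurable.t157_entry {A : Ω → Matrix m n ℝ} (h : Measurable A) (i : m)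
    (j : n) : Measurable fun ω => A ω i j := measurable_mat_iff.1 h i j

@[fun_prop] lemma _root_.Measurable.t157_transpose {A : Ω → Matrix m n ℝ} (h : Measurable A) :
    Measurable fun ω => (A ω)ᵀ := measurable_mat_iff.2 fun i j => h.t157_entry j i

@[fun_prop] lemma _root_.Measurable.t157_add {A B : Ω → Matrix m n ℝ} (hA : Measurable A)
    (hB : Measurable B) : Measurable fun ω => A ω + B ω :=
  measurable_mat_iff.2 fun i j => (hA.t157_entry i j).add (hB.t157_entry i j)

@[fun_prop] lemma _root_.Measurable.t157_sub {A B : Ω → Matrix m n ℝ} (hA : Measurable A)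
    (hB : Measurable B) : Measurable fun ω => A ω - B ω :=
  measurable_mat_iff.2 fun i j => (hA.t157_entry i j).sub (hB.t157_entry i j)

@[fun_prop] lemma _root_.Measurable.t157_smul {c : Ω → ℝ} {A : Ω → Matrix m n ℝ}
    (hc : Measurable c) (hA : Measurable A) : Measurable fun ω => c ω • A ω :=
  measurable_mat_iff.2 fun i j => hc.mul (hA.t157_entry i j)

@[fun_prop] lemma _root_.Measurable.t157_mul [Fintype m] {A : Ω → Matrix l m ℝ}
    {B : Ω → Matrix m n ℝ} (hA : Measurable A) (hB : Measurable B) :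
    Measurable fun ω => A ω * B ω := by
  refine measurable_mat_iff.2 fun i j => ?_
  simp only [Matrix.mul_apply]
  exact Finset.measurable_sum _ fun k _ => (hA.t157_entry i k).mul (hB.t157_entry k j)

@[fun_prop] lemma _root_.Measurable.t157_dot [Fintype m] {u v : Ω → m → ℝ} (hu : Measurable u)
    (hv : Measurable v) : Measurable fun ω => u ω ⬝ᵥ v ω := by
  simp only [dotProduct]
  exact Finset.measurable_sum _ fun k _ =>
    ((measurable_pi_apply k).comp hu).mul ((measurable_pi_apply k).comp hv)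

@[fun_prop] lemma _root_.Measurable.t157_mulVec [Fintype n] {A : Ω → Matrix m n ℝ}
    {v : Ω → n → ℝ} (hA : Measurable A) (hv : Measurable v) :
    Measurable fun ω => A ω *ᵥ v ω := by
  refine measurable_pi_lambda _ fun i => ?_
  simp only [Matrix.mulVec, dotProduct]
  exact Finset.measurable_sum _ fun k _ =>
    (hA.t157_entry i k).mul ((measurable_pi_apply k).comp hv)

@[fun_prop] lemma _root_.Measurable.t157_vecMulVec {u : Ω → m → ℝ} {v : Ω → n → ℝ}
    (hu : Measurable u) (hv : Measurable v) : Measurable fun ω => vecMulVec (u ω) (v ω) :=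
  measurable_mat_iff.2 fun i j =>
    ((measurable_pi_apply i).comp hu).mul ((measurable_pi_apply j).comp hv)

@[fun_prop] lemma _root_.Measurable.t157_diagonal [DecidableEq n] {d : Ω → n → ℝ}
    (hd : Measurable d) : Measurable fun ω => diagonal (d ω) := by
  refine measurable_mat_iff.2 fun i j => ?_
  simp only [Matrix.diagonal_apply]
  split_ifs
  · exact (measurable_pi_apply i).comp hd
  · exact measurable_const

@[fun_prop] lemma _root_.Measurable.t157_trace [Fintype n] {A : Ω → Matrix n n ℝ}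
    (hA : Measurable A) : Measurable fun ω => (A ω).trace := by
  simp only [Matrix.trace, Matrix.diag]
  exact Finset.measurable_sum _ fun k _ => hA.t157_entry k k

end meas

variable {ι κ τ : Type*} [Fintype ι] [Fintype κ] [Fintype τ]

/-- Frobenius pairing -/
def pair (M X : Matrix ι κ ℝ) : ℝ := ∑ i, ∑ j, M i j * X i j

lemma pair_eq_trace (M X : Matrix ι κ ℝ) : pair M X = (Mᵀ * X).trace := by
  simp only [pair, Matrix.trace, Matrix.diag, Matrix.mul_apply, Matrix.transpose_apply]
  exact Finset.sum_comm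

lemma pair_add (M X Y : Matrix ι κ ℝ) : pair M (X + Y) = pair M X + pair M Y := by
  simp only [pair_eq_trace, Matrix.mul_add, Matrix.trace_add]

lemma pair_sub (M X Y : Matrix ι κ ℝ) : pair M (X - Y) = pair M X - pair M Y := by
  simp only [pair_eq_trace, Matrix.mul_sub, Matrix.trace_sub]

lemma pair_smul (M X : Matrix ι κ ℝ) (c : ℝ) : pair M (c • X) = c * pair M X := by
  simp only [pair_eq_trace, Matrix.mul_smul, Matrix.trace_smul, smul_eq_mul]

lemma smul_pair (M X : Matrix ι κ ℝ) (c : ℝ) : pair (c • M) X = c * pair M X := by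
  simp only [pair_eq_trace, Matrix.transpose_smul, Matrix.smul_mul, Matrix.trace_smul, smul_eq_mul]



lemma pair_mul_mul {ι' κ' : Type*} [Fintype ι'] [Fintype κ'] (M : Matrix ι' κ' ℝ)
    (A : Matrix ι' ι ℝ) (X : Matrix ι κ ℝ) (B : Matrix κ κ' ℝ) :
    pair M (A * X * B) = pair (Aᵀ * M * Bᵀ) X := by
  simp only [pair_eq_trace, Matrix.transpose_mul, Matrix.transpose_transpose]
  rw [← Matrix.mul_assoc, Matrix.trace_mul_comm]
  simp only [Matrix.mul_assoc]

lemma pair_vecMulVec (M : Matrix ι κ ℝ) (u : ι → ℝ) (v : κ → ℝ) :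
    pair M (vecMulVec u v) = u ⬝ᵥ M *ᵥ v := by
  simp only [pair, vecMulVec_apply, dotProduct, Matrix.mulVec, Finset.mul_sum]
  exact Finset.sum_congr rfl fun i _ => Finset.sum_congr rfl fun j _ => by ring

@[fun_prop] lemma _root_.Measurable.t157_pair {Ω : Type*} [MeasurableSpace Ω]
    {M X : Ω → Matrix ι κ ℝ} (hM : Measurable M) (hX : Measurable X) :
    Measurable fun ω => pair (M ω) (X ω) := by
  simp only [pair]
  exact Finset.measurable_sum _ fun i _ => Finset.measurable_sum _ fun j _ =>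
    (hM.t157_entry i j).mul (hX.t157_entry i j)

/-! ### characteristic values -/

section CF
variable {Ω Ω' : Type*} [MeasurableSpace Ω] [MeasurableSpace Ω']

/-- `E exp (i X)` -/
def CF (μ : Measure Ω) (X : Ω → ℝ) : ℂ := ∫ ω, cexp (X ω * I) ∂μ

lemma CF_map {μ : Measure Ω} {T : Ω → Ω'} (hT : Measurable T) {X : Ω' → ℝ} (hX : Measurable X) :
    CF (μ.map T) X = CF μ fun ω => X (T ω) := by
  unfold CF
  rw [integral_map hT.aemeasurable]
  exact (by fun_prop : Measurable fun ω => cexp (X ω * I)).aestronglyMeasurable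

lemma CF_prod (μ : Measure Ω) (ν : Measure Ω') [SFinite μ] [SFinite ν] (X : Ω → ℝ) (Y : Ω' → ℝ) :
    CF (μ.prod ν) (fun p => X p.1 + Y p.2) = CF μ X * CF ν Y := by
  unfold CF
  rw [← integral_prod_mul]
  congr 1
  funext p
  rw [← Complex.exp_add]
  push_cast
  ring_nf

lemma CF_gv (a : ι → ℝ) : CF (gv ι) (fun x => a ⬝ᵥ x) = cexp (-((a ⬝ᵥ a : ℝ) : ℂ) / 2) := by
  unfold CF
  have h1 : ∀ x : ι → ℝ, cexp ((a ⬝ᵥ x : ℝ) * I) = ∏ i, cexp ((x i * a i : ℝ) * I) := by
    intro x
    rw [← Complex.exp_sum, ← Finset.sum_mul]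
    congr 2
    simp only [dotProduct]
    push_cast
    exact Finset.sum_congr rfl fun i _ => mul_comm _ _
  simp_rw [h1]
  rw [integral_fintype_prod_eq_prod (f := fun i (x : ℝ) => cexp ((x * a i : ℝ) * I))]
  have h2 : ∀ i, ∫ x : ℝ, cexp ((x * a i : ℝ) * I) ∂(gaussianReal 0 1) =
      cexp (-((a i * a i : ℝ) : ℂ) / 2) := by
    intro i
    have := charFun_gaussianReal (μ := 0) (v := 1) (a i)
    rw [charFun_apply_real] at this
    have e : ∀ x : ℝ, cexp ((x * a i : ℝ) * I) = cexp (a i * x * I) := by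
      intro x; push_cast; ring_nf
    simp_rw [e, this]
    congr 1
    push_cast
    simp
    ring
  simp_rw [h2]
  rw [← Complex.exp_sum]
  congr 1
  simp only [dotProduct]
  push_cast
  rw [← Finset.sum_div, Finset.sum_neg_distrib]

/-- the law of a random vector is determined by the characteristic values of its linear forms -/
theorem ext_vec {μ : Measure Ω} {ν : Measure Ω'} [IsFiniteMeasure μ] [IsFiniteMeasure ν]
    {X : Ω → ι → ℝ} {Y : Ω' → ι → ℝ} (hX : Measurable X) (hY : Measurable Y)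
    (h : ∀ t : ι → ℝ, CF μ (fun ω => t ⬝ᵥ X ω) = CF ν fun ω => t ⬝ᵥ Y ω) :
    μ.map X = ν.map Y := by
  classical
  refine Measure.ext_of_charFunDual (funext fun L => ?_)
  obtain ⟨a, hL⟩ : ∃ a : ι → ℝ, ∀ x : ι → ℝ, L x = a ⬝ᵥ x := by
    refine ⟨fun i => L fun j => if i = j then 1 else 0, fun x => ?_⟩
    have := LinearMap.pi_apply_eq_sum_univ (L : (ι → ℝ) →ₗ[ℝ] ℝ) x
    rw [dotProduct_comm]
    exact this
  have e1 := CF_map (μ := μ) hX (X := fun x => L x) (by fun_prop)
  have e2 := CF_map (μ := ν) hY (X := fun x => L x) (by fun_prop)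
  rw [charFunDual_apply, charFunDual_apply]
  refine e1.trans (Eq.trans ?_ e2.symm)
  simp_rw [hL]
  exact h _

lemma measurable_of_uncurry :
    Measurable fun (x : ι × κ → ℝ) => (Matrix.of fun i j => x (i, j) : Matrix ι κ ℝ) :=
  measurable_mat_iff.2 fun i j => measurable_pi_apply (i, j)

/-- the law of a random matrix is determined by the characteristic values of its linear forms -/
theorem ext_mat {μ : Measure Ω} {ν : Measure Ω'} [IsFiniteMeasure μ] [IsFiniteMeasure ν]
    {X : Ω → Matrix ι κ ℝ} {Y : Ω' → Matrix ι κ ℝ} (hX : Measurable X) (hY : Measurable Y)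
    (h : ∀ M : Matrix ι κ ℝ, CF μ (fun ω => pair M (X ω)) = CF ν fun ω => pair M (Y ω)) :
    μ.map X = ν.map Y := by
  have hX' : Measurable fun ω (p : ι × κ) => X ω p.1 p.2 :=
    measurable_pi_lambda _ fun p => hX.t157_entry p.1 p.2
  have hY' : Measurable fun ω (p : ι × κ) => Y ω p.1 p.2 :=
    measurable_pi_lambda _ fun p => hY.t157_entry p.1 p.2
  have key := ext_vec (μ := μ) (ν := ν) hX' hY' (fun t => by
    have := h (Matrix.of fun i j => t (i, j))
    simpa only [pair, dotProduct, Fintype.sum_prod_type, Matrix.of_apply] using this)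
  have := congrArg (Measure.map fun (x : ι × κ → ℝ) =>
    (Matrix.of fun i j => x (i, j) : Matrix ι κ ℝ)) key
  rw [Measure.map_map measurable_of_uncurry hX', Measure.map_map measurable_of_uncurry hY'] at this
  exact this

end CF

/-! ### the GOE -/

/-- symmetrisation of an array -/
def symG (s : ℝ) (x : ι × ι → ℝ) : Matrix ι ι ℝ :=
  Matrix.of fun i j => s / Real.sqrt 2 * (x (i, j) + x (j, i))

lemma measurable_symG (s : ℝ) : Measurable (symG (ι := ι) s) :=
  measurable_mat_iff.2 fun i j => by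
    simp only [symG, Matrix.of_apply]; fun_prop

lemma symG_transpose (s : ℝ) (x : ι × ι → ℝ) : (symG s x)ᵀ = symG s x := by
  ext i j; simp [symG, add_comm]

/-- GOE law: symmetric, off-diagonal entries `N(0,s²)`, diagonal entries `N(0,2s²)` -/
def goe (ι : Type*) [Fintype ι] (s : ℝ) : Measure (Matrix ι ι ℝ) := (gv (ι × ι)).map (symG s)

instance (s : ℝ) : IsProbabilityMeasure (goe ι s) :=
  Measure.isProbabilityMeasure_map (measurable_symG s).aemeasurable

lemma measurableSet_symm : MeasurableSet {W : Matrix ι ι ℝ | Wᵀ = W} :=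
  measurableSet_eq_fun (measurable_id.t157_transpose) measurable_id

lemma goe_ae_symm (s : ℝ) : ∀ᵐ W ∂(goe ι s), Wᵀ = W := by
  rw [goe, ae_map_iff (measurable_symG s).aemeasurable measurableSet_symm]
  exact ae_of_all _ fun x => symG_transpose s x

/-- the variance form of the unit GOE: `½ tr ((M + Mᵀ)²)` -/
def Vq (M : Matrix ι ι ℝ) : ℝ := ((M + Mᵀ) * (M + Mᵀ)).trace / 2

lemma Vq_eq_sum (M : Matrix ι ι ℝ) : Vq M = (∑ i, ∑ j, (M i j + M j i) ^ 2) / 2 := by
  simp only [Vq, Matrix.trace, Matrix.diag, Matrix.mul_apply, Matrix.add_apply,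
    Matrix.transpose_apply]
  congr 1
  exact Finset.sum_congr rfl fun i _ => Finset.sum_congr rfl fun j _ => by ring

lemma Vq_smul (c : ℝ) (M : Matrix ι ι ℝ) : Vq (c • M) = c ^ 2 * Vq M := by
  simp only [Vq, Matrix.transpose_smul, ← smul_add, Matrix.smul_mul, Matrix.mul_smul,
    Matrix.trace_smul, smul_eq_mul]
  ring

theorem CF_goe (s : ℝ) (M : Matrix ι ι ℝ) :
    CF (goe ι s) (fun W => pair M W) = cexp (-((s ^ 2 * Vq M : ℝ) : ℂ) / 2) := by
  rw [goe, CF_map (measurable_symG s) (by fun_prop)]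
  have h1 : ∀ x : ι × ι → ℝ, pair M (symG s x) =
      (fun p : ι × ι => s / Real.sqrt 2 * (M p.1 p.2 + M p.2 p.1)) ⬝ᵥ x := by
    intro x
    simp only [pair, symG, Matrix.of_apply, dotProduct, Fintype.sum_prod_type, mul_add, add_mul,
      Finset.sum_add_distrib]
    congr 1
    · exact Finset.sum_congr rfl fun i _ => Finset.sum_congr rfl fun j _ => by ring
    · rw [Finset.sum_comm]
      exact Finset.sum_congr rfl fun i _ => Finset.sum_congr rfl fun j _ => by ring
  simp_rw [h1]
  rw [CF_gv]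
  congr 4
  rw [Vq_eq_sum]
  simp only [dotProduct, Fintype.sum_prod_type, Finset.sum_div, Finset.mul_sum]
  refine Finset.sum_congr rfl fun i _ => Finset.sum_congr rfl fun j _ => ?_
  have h2 : Real.sqrt 2 ^ 2 = 2 := Real.sq_sqrt (by norm_num)
  have h3 : Real.sqrt 2 ≠ 0 := by positivity
  field_simp
  rw [h2]
  ring

/-- a random matrix whose linear forms have the GOE characteristic values is a GOE matrix -/
theorem map_eq_goe {Ω : Type*} [MeasurableSpace Ω] {μ : Measure Ω} [IsFiniteMeasure μ]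
    {X : Ω → Matrix ι ι ℝ} (hX : Measurable X) {s : ℝ}
    (h : ∀ M, CF μ (fun ω => pair M (X ω)) = cexp (-((s ^ 2 * Vq M : ℝ) : ℂ) / 2)) :
    μ.map X = goe ι s := by
  have := ext_mat (μ := μ) (ν := goe ι s) hX measurable_id (fun M => by
    rw [h M]; exact (CF_goe s M).symm)
  rwa [Measure.map_id] at this

lemma Vq_conj [DecidableEq κ] (O : Matrix κ ι ℝ) (hO : O * Oᵀ = 1) (M : Matrix κ κ ℝ) :
    Vq (Oᵀ * M * O) = Vq M := by
  have h1 : Oᵀ * M * O + (Oᵀ * M * O)ᵀ = Oᵀ * (M + Mᵀ) * O := by
    simp only [Matrix.transpose_mul, Matrix.transpose_transpose, Matrix.mul_add, Matrix.add_mul,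
      Matrix.mul_assoc]
  rw [Vq, Vq, h1]
  congr 1
  have h2 : Oᵀ * (M + Mᵀ) * O * (Oᵀ * (M + Mᵀ) * O) =
      Oᵀ * ((M + Mᵀ) * (O * Oᵀ) * (M + Mᵀ) * O) := by simp only [Matrix.mul_assoc]
  rw [h2, Matrix.trace_mul_comm, hO, Matrix.mul_one, Matrix.mul_assoc, hO, Matrix.mul_one]

/-- orthogonal invariance (also compression by a co-isometry) -/
theorem goe_conj [DecidableEq κ] (s : ℝ) (O : Matrix κ ι ℝ) (hO : O * Oᵀ = 1) :
    (goe ι s).map (fun W => O * W * Oᵀ) = goe κ s := by
  refine map_eq_goe (by fun_prop) fun M => ?_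
  simp_rw [pair_mul_mul]
  rw [CF_goe, Matrix.transpose_transpose, Vq_conj O hO]

theorem goe_smul (s c : ℝ) : (goe ι s).map (fun W => c • W) = goe ι (c * s) := by
  refine map_eq_goe (by fun_prop) fun M => ?_
  simp_rw [pair_smul, ← smul_pair]
  rw [CF_goe, Vq_smul]
  congr 4
  ring

theorem goe_neg_param (s : ℝ) : goe ι (-s) = goe ι s := by
  have := map_eq_goe (μ := goe ι (-s)) (X := id) measurable_id (s := s) (fun M => by
    have := CF_goe (-s) M
    rw [neg_sq] at this
    exact this)
  rwa [Measure.map_id] at this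

theorem goe_neg (s : ℝ) : (goe ι s).map (fun W => -W) = goe ι s := by
  have := goe_smul (ι := ι) s (-1)
  simpa [goe_neg_param] using this

/-- sum of two independent GOE matrices -/
theorem goe_add (s t r : ℝ) (h : r ^ 2 = s ^ 2 + t ^ 2) :
    ((goe ι s).prod (goe ι t)).map (fun p => p.1 + p.2) = goe ι r := by
  refine map_eq_goe (by fun_prop) fun M => ?_
  simp_rw [pair_add]
  rw [CF_prod (goe ι s) (goe ι t) (fun W => pair M W) (fun W => pair M W), CF_goe, CF_goe,
    ← Complex.exp_add, h]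
  congr 1
  push_cast
  ring

/-! ### GOE completion of the SK coupling matrix -/

variable {n : ℕ}

lemma measurable_Jmat : Measurable (Jmat n) := by
  refine measurable_mat_iff.2 fun i j => ?_
  simp only [Jmat]
  split_ifs
  · fun_prop
  · fun_prop
  · exact measurable_const

lemma measurable_Wmat : Measurable fun p : (Pair n → ℝ) × (Fin n → ℝ) => Wmat n p.1 p.2 := by
  unfold Wmat
  refine (measurable_Jmat.comp measurable_fst).t157_add (Measurable.t157_diagonal ?_)
  fun_prop

lemma pair_Jmat (M : Matrix (Fin n) (Fin n) ℝ) (g : Pair n → ℝ) :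
    pair M (Jmat n g) =
      (fun p : Pair n => (M p.1.1 p.1.2 + M p.1.2 p.1.1) / Real.sqrt n) ⬝ᵥ g := by
  have h := sum_sum_eq_two_mul_pair (fun i j => (M i j + M j i) * Jmat n g i j)
    (fun i j => by rw [Jmat_symm g i j, add_comm]) (fun i => by simp [Jmat_diag])
  have h2 : ∑ i, ∑ j, (M i j + M j i) * Jmat n g i j = 2 * pair M (Jmat n g) := by
    simp only [add_mul, Finset.sum_add_distrib, pair, two_mul]
    congr 1
    rw [Finset.sum_comm]
    exact Finset.sum_congr rfl fun i _ => Finset.sum_congr rfl fun j _ => by rw [Jmat_symm g j i]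
  rw [h2] at h
  have h3 : pair M (Jmat n g) =
      ∑ p : Pair n, (M p.1.1 p.1.2 + M p.1.2 p.1.1) * Jmat n g p.1.1 p.1.2 := by linarith
  rw [h3, dotProduct]
  refine Finset.sum_congr rfl fun p _ => ?_
  rw [Jmat_apply_lt g p.2]
  ring

lemma pair_diagonal [DecidableEq ι] (M : Matrix ι ι ℝ) (d : ι → ℝ) :
    pair M (diagonal d) = (fun i => M i i) ⬝ᵥ d := by
  simp only [pair, dotProduct, Matrix.diagonal_apply, mul_ite, mul_zero, Finset.sum_ite_eq,
    Finset.mem_univ, if_true]

/-- **GOE completion**: `Wmat n g d` is a GOE matrix with off-diagonal variance `1/n`. -/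
theorem goe_Wmat : ((disorderLaw n).prod (gv (Fin n))).map (fun p => Wmat n p.1 p.2) =
    goe (Fin n) (1 / Real.sqrt n) := by
  refine map_eq_goe measurable_Wmat fun M => ?_
  have h1 : ∀ p : (Pair n → ℝ) × (Fin n → ℝ), pair M (Wmat n p.1 p.2) =
      (fun q : Pair n => (M q.1.1 q.1.2 + M q.1.2 q.1.1) / Real.sqrt n) ⬝ᵥ p.1 +
        (fun i => Real.sqrt 2 * M i i / Real.sqrt n) ⬝ᵥ p.2 := by
    intro p
    rw [Wmat, pair_add, pair_Jmat, pair_diagonal]
    congr 1
    exact Finset.sum_congr rfl fun i _ => by ring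
  simp_rw [h1]
  rw [disorderLaw_eq, CF_prod (gv (Pair n)) (gv (Fin n))
    (fun g => (fun q : Pair n => (M q.1.1 q.1.2 + M q.1.2 q.1.1) / Real.sqrt n) ⬝ᵥ g)
    (fun d => (fun i => Real.sqrt 2 * M i i / Real.sqrt n) ⬝ᵥ d), CF_gv, CF_gv, ← Complex.exp_add,
    ← add_div, ← neg_add, ← Complex.ofReal_add]
  congr 4
  have h := sum_sum_eq_two_mul_pair (fun i j => if i = j then 0 else (M i j + M j i) ^ 2)
    (fun i j => by
      by_cases hij : i = j
      · simp [hij]
      · rw [if_neg hij, if_neg (Ne.symm hij), add_comm]) (fun i => by simp)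
  have h4 : ∑ i, ∑ j, (M i j + M j i) ^ 2 =
      ∑ i, ∑ j, (if i = j then 0 else (M i j + M j i) ^ 2) + ∑ i, 4 * M i i ^ 2 := by
    rw [← Finset.sum_add_distrib]
    refine Finset.sum_congr rfl fun i _ => ?_
    have : 4 * M i i ^ 2 = ∑ j, if i = j then (M i j + M j i) ^ 2 else 0 := by
      rw [Finset.sum_ite_eq]; simp; ring
    rw [this, ← Finset.sum_add_distrib]
    refine Finset.sum_congr rfl fun j _ => ?_
    split_ifs <;> simp
  have h5 : ∑ p : Pair n, (if p.1.1 = p.1.2 then 0 else (M p.1.1 p.1.2 + M p.1.2 p.1.1) ^ 2) =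
      ∑ p : Pair n, (M p.1.1 p.1.2 + M p.1.2 p.1.1) ^ 2 :=
    Finset.sum_congr rfl fun p _ => if_neg (ne_of_lt p.2)
  rw [Vq_eq_sum, h4, h, h5]
  have h2 : Real.sqrt 2 ^ 2 = 2 := Real.sq_sqrt (by norm_num)
  simp only [dotProduct]
  rw [add_div, mul_add, mul_div_cancel_left₀ _ (two_ne_zero), Finset.mul_sum, Finset.sum_div,
    Finset.mul_sum]
  congr 1
  · exact Finset.sum_congr rfl fun p _ => by ring
  · refine Finset.sum_congr rfl fun i _ => ?_
    have : Real.sqrt 2 * M i i / Real.sqrt n * (Real.sqrt 2 * M i i / Real.sqrt n) =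
        Real.sqrt 2 ^ 2 * M i i ^ 2 * (1 / Real.sqrt n) ^ 2 := by ring
    rw [this, h2]; ring

theorem mp_Wmat : MeasurePreserving (fun p : (Pair n → ℝ) × (Fin n → ℝ) => Wmat n p.1 p.2)
    ((disorderLaw n).prod (gv (Fin n))) (goe (Fin n) (1 / Real.sqrt n)) :=
  ⟨measurable_Wmat, goe_Wmat⟩

/-- removing the diagonal -/
def offd [DecidableEq ι] (W : Matrix ι ι ℝ) : Matrix ι ι ℝ := W - diagonal fun i => W i i

lemma measurable_offd [DecidableEq ι] : Measurable (offd (ι := ι)) := by
  unfold offd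
  refine measurable_id.t157_sub (Measurable.t157_diagonal ?_)
  exact measurable_pi_lambda _ fun i => measurable_id.t157_entry i i

lemma offd_Wmat (g : Pair n → ℝ) (d : Fin n → ℝ) : offd (Wmat n g d) = Jmat n g := by
  ext i j
  by_cases h : i = j
  · subst h; simp [offd, Jmat_diag]
  · simp [offd, Wmat, h]


end Crest.Agent.T157.Cond

end
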