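import Crest.Agent.R339.Kahane
import Crest.Agent.T157.NrmS_84
import Crest.Agent.T157.CondA_53
import Crest.Agent.T157.ConcT_16

-- ▼ part T157/Sf_84
section

/-!
# Row 157, part E: Gaussian interpolation and the Sudakov–Fernique inequality (helper84)

* `kahane_gen`: Gaussian comparison under the hypothesis `∑ (Cov A - Cov B) a b * H a b ≤ 0`
  (the proof is the one of `R339.Guerra.kahane`); `kahane_two`: two different index sets;
* `smax β m h = β⁻¹ log ∑ exp (β (h a + m a))` and its derivatives;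
* `sudakov_smax`, `sudakov`: Sudakov–Fernique with deterministic shifts.
-/

set_option autoImplicit false
set_option linter.unusedSectionVars false

noncomputable section

namespace Crest.Agent.T157.Sf

open MeasureTheory ProbabilityTheory Real Crest.Agent.R339.Guerra

variable {I ι κ : Type*} [Fintype I] [Fintype ι] [Fintype κ]

/-- Gaussian interpolation inequality, general form -/
theorem kahane_gen [DecidableEq ι] {F : (I → ℝ) → ℝ} {P : I → (I → ℝ) → ℝ}
    {H : I → I → (I → ℝ) → ℝ} {c : ℝ}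
    (hF : ∀ h, HasFDerivAt F (dual fun a => P a h) h)
    (hP : ∀ a h, HasFDerivAt (P a) (dual fun b => H a b h) h)
    (hHc : ∀ a b, Continuous (H a b)) (hc : 0 ≤ c)
    (hPb : ∀ a h, |P a h| ≤ c) (hHb : ∀ a b h, |H a b h| ≤ c)
    (A B : I → ι → ℝ) (hAB : ∀ a b j, A a j * B b j = 0)
    (hsum : ∀ h, ∑ a, ∑ b, (∑ j, A a j * A b j - ∑ j, B a j * B b j) * H a b h ≤ 0) :
    ∫ g, F (lin A g) ∂(G ι) ≤ ∫ g, F (lin B g) ∂(G ι) := by
  classical
  set M : ℝ → I → ι → ℝ := fun θ a j => sin θ * A a j + cos θ * B a j with hM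
  set M' : ℝ → I → ι → ℝ := fun θ a j => cos θ * A a j - sin θ * B a j with hM'
  have hFc : Continuous F := continuous_iff_continuousAt.2 fun h => (hF h).continuousAt
  have hPc : ∀ a, Continuous (P a) := fun a =>
    continuous_iff_continuousAt.2 fun h => (hP a h).continuousAt
  have hMd : ∀ g θ, HasDerivAt (fun θ => lin (M θ) g) (lin (M' θ) g) θ := by
    intro g θ
    rw [hasDerivAt_pi]
    intro a
    unfold lin
    refine HasDerivAt.fun_sum fun j _ => ?_
    have h1 := ((hasDerivAt_sin θ).mul_const (A a j)).add ((hasDerivAt_cos θ).mul_const (B a j))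
    have h2 := h1.mul_const (g j)
    refine h2.congr_deriv ?_
    simp only [hM']; ring
  -- the bound
  set bd : (ι → ℝ) → ℝ := fun g => c * ∑ a, ∑ j, (|A a j| + |B a j|) * |g j| with hbd
  have hbdi : Integrable bd (G ι) := by
    refine Integrable.const_mul ?_ _
    refine integrable_finsetSum _ fun a _ => integrable_finsetSum _ fun j _ => ?_
    exact (integrable_coord j).abs.const_mul _
  have hM'b : ∀ θ g a, |lin (M' θ) g a| ≤ ∑ j, (|A a j| + |B a j|) * |g j| := by
    intro θ g a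
    unfold lin
    refine (Finset.abs_sum_le_sum_abs _ _).trans (Finset.sum_le_sum fun j _ => ?_)
    rw [abs_mul]
    refine mul_le_mul_of_nonneg_right ?_ (abs_nonneg _)
    simp only [hM']
    refine (abs_sub _ _).trans ?_
    rw [abs_mul, abs_mul]
    have h1 := abs_cos_le_one θ
    have h2 := abs_sin_le_one θ
    have h3 := abs_nonneg (A a j)
    have h4 := abs_nonneg (B a j)
    nlinarith
  have hderiv : ∀ θ, HasDerivAt (fun θ => ∫ g, F (lin (M θ) g) ∂(G ι))
      (∫ g, ∑ a, P a (lin (M θ) g) * lin (M' θ) g a ∂(G ι)) θ := by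
    intro θ
    refine (hasDerivAt_integral_of_dominated_loc_of_deriv_le (𝕜 := ℝ) (μ := G ι)
      (F := fun θ g => F (lin (M θ) g))
      (F' := fun θ g => ∑ a, P a (lin (M θ) g) * lin (M' θ) g a) (x₀ := θ)
      (bound := bd) Filter.univ_mem ?_ ?_ ?_ ?_ hbdi ?_).2
    · exact Filter.Eventually.of_forall fun θ' =>
        (hFc.comp (continuous_lin _)).aestronglyMeasurable
    · exact integrable_comp_lin hF hc hPb _
    · have hcc : Continuous fun g : ι → ℝ => ∑ a, P a (lin (M θ) g) * lin (M' θ) g a :=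
        continuous_finsetSum _ fun a _ => ((hPc a).comp (continuous_lin _)).mul
          ((continuous_apply a).comp (continuous_lin _))
      exact hcc.aestronglyMeasurable
    · refine Filter.Eventually.of_forall fun g θ' _ => ?_
      rw [Real.norm_eq_abs, hbd]
      simp only
      rw [Finset.mul_sum]
      refine (Finset.abs_sum_le_sum_abs _ _).trans (Finset.sum_le_sum fun a _ => ?_)
      rw [abs_mul]
      exact mul_le_mul (hPb a _) (hM'b θ' g a) (abs_nonneg _) hc
    · refine Filter.Eventually.of_forall fun g θ' _ => ?_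
      have := (hF (lin (M θ') g)).comp_hasDerivAt θ' (hMd g θ')
      refine this.congr_deriv ?_
      rw [dual_apply]
  have hstein : ∀ θ a j, ∫ g, g j * P a (lin (M θ) g) ∂(G ι) =
      ∫ g, ∑ b, H a b (lin (M θ) g) * M θ b j ∂(G ι) := by
    intro θ a j
    refine steinG j (C := c) (C' := ∑ b, c * |M θ b j|)
      ((hPc a).comp (continuous_lin _)) ?_ ?_ (fun g => hPb a _) ?_
    · refine Continuous.measurable ?_
      refine continuous_finsetSum _ fun b _ => ?_
      exact ((hHc a b).comp (continuous_lin _)).mul continuous_const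
    · intro g
      have h1 := hasDerivAt_lin_update (M θ) g j (g j)
      have h2 : HasFDerivAt (P a) (dual fun b => H a b (lin (M θ) g))
          (lin (M θ) (Function.update g j (g j))) := by
        rw [Function.update_eq_self]; exact hP a _
      have h3 := h2.comp_hasDerivAt (g j) h1
      refine h3.congr_deriv ?_
      rw [dual_apply]
    · intro g
      refine (Finset.abs_sum_le_sum_abs _ _).trans (Finset.sum_le_sum fun b _ => ?_)
      rw [abs_mul]
      exact mul_le_mul_of_nonneg_right (hHb a b _) (abs_nonneg _)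
  have hiH : ∀ θ a b, Integrable (fun g => H a b (lin (M θ) g)) (G ι) := fun θ a b =>
    (integrable_const c).mono' ((hHc a b).comp (continuous_lin _)).aestronglyMeasurable
      (Filter.Eventually.of_forall fun g => hHb a b _)
  have hiP : ∀ θ a j, Integrable (fun g => g j * P a (lin (M θ) g)) (G ι) := by
    intro θ a j
    refine ((integrable_coord j).norm.const_mul c).mono' ?_
      (Filter.Eventually.of_forall fun x => ?_)
    · exact ((continuous_apply j).mul ((hPc a).comp (continuous_lin _))).aestronglyMeasurable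
    · rw [Real.norm_eq_abs, abs_mul, Real.norm_eq_abs, mul_comm]
      exact mul_le_mul_of_nonneg_right (hPb a _) (abs_nonneg _)
  have hval : ∀ θ, ∫ g, ∑ a, P a (lin (M θ) g) * lin (M' θ) g a ∂(G ι) =
      sin θ * cos θ * ∑ a, ∑ b, (∑ j, A a j * A b j - ∑ j, B a j * B b j) *
        ∫ g, H a b (lin (M θ) g) ∂(G ι) := by
    intro θ
    have e1 : ∀ g, ∑ a, P a (lin (M θ) g) * lin (M' θ) g a =
        ∑ a, ∑ j, M' θ a j * (g j * P a (lin (M θ) g)) := by
      intro g
      refine Finset.sum_congr rfl fun a _ => ?_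
      simp only [lin, Finset.mul_sum]
      refine Finset.sum_congr rfl fun j _ => by ring
    simp only [e1]
    rw [integral_finsetSum _ fun a _ => integrable_finsetSum _ fun j _ =>
      (hiP θ a j).const_mul _]
    rw [Finset.mul_sum]
    refine Finset.sum_congr rfl fun a _ => ?_
    rw [integral_finsetSum _ fun j _ => (hiP θ a j).const_mul _]
    have e2 : ∀ j, ∫ g, M' θ a j * (g j * P a (lin (M θ) g)) ∂(G ι) =
        ∑ b, M' θ a j * M θ b j * ∫ g, H a b (lin (M θ) g) ∂(G ι) := by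
      intro j
      rw [integral_const_mul, hstein, integral_finsetSum _ fun b _ => (hiH θ a b).mul_const _,
        Finset.mul_sum]
      refine Finset.sum_congr rfl fun b _ => ?_
      rw [integral_mul_const]; ring
    simp only [e2]
    rw [Finset.sum_comm, Finset.mul_sum]
    refine Finset.sum_congr rfl fun b _ => ?_
    rw [← Finset.sum_mul, ← mul_assoc]
    congr 1
    rw [← Finset.sum_sub_distrib, Finset.mul_sum]
    refine Finset.sum_congr rfl fun j _ => ?_
    have h1 := hAB a b j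
    have h2 := hAB b a j
    simp only [hM, hM']
    have h3 : (cos θ * A a j - sin θ * B a j) * (sin θ * A b j + cos θ * B b j) =
        sin θ * cos θ * (A a j * A b j - B a j * B b j) + cos θ ^ 2 * (A a j * B b j) -
          sin θ ^ 2 * (A b j * B a j) := by ring
    rw [h3, h1, h2]; ring
  have hnp : ∀ θ, 0 ≤ sin θ * cos θ →
      ∫ g, ∑ a, P a (lin (M θ) g) * lin (M' θ) g a ∂(G ι) ≤ 0 := by
    intro θ hθ
    rw [hval]
    refine mul_nonpos_of_nonneg_of_nonpos hθ ?_
    have e : ∑ a, ∑ b, (∑ j, A a j * A b j - ∑ j, B a j * B b j) *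
        ∫ g, H a b (lin (M θ) g) ∂(G ι) =
        ∫ g, ∑ a, ∑ b, (∑ j, A a j * A b j - ∑ j, B a j * B b j) * H a b (lin (M θ) g) ∂(G ι) := by
      rw [integral_finsetSum _ fun a _ => integrable_finsetSum _ fun b _ =>
        (hiH θ a b).const_mul _]
      refine Finset.sum_congr rfl fun a _ => ?_
      rw [integral_finsetSum _ fun b _ => (hiH θ a b).const_mul _]
      exact Finset.sum_congr rfl fun b _ => (integral_const_mul _ _).symm
    rw [e]
    exact integral_nonpos fun g => hsum _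
  have hanti : AntitoneOn (fun θ => ∫ g, F (lin (M θ) g) ∂(G ι)) (Set.Icc 0 (π / 2)) := by
    refine antitoneOn_of_deriv_nonpos (convex_Icc _ _)
      (continuous_iff_continuousAt.2 fun θ => (hderiv θ).continuousAt).continuousOn
      (fun θ _ => (hderiv θ).differentiableAt.differentiableWithinAt) ?_
    intro θ hθ
    rw [interior_Icc] at hθ
    rw [(hderiv θ).deriv]
    refine hnp θ (mul_nonneg ?_ ?_)
    · exact (sin_pos_of_pos_of_lt_pi hθ.1 (by linarith [hθ.2, pi_pos])).le
    · exact (cos_pos_of_mem_Ioo ⟨by linarith [hθ.1, pi_pos], hθ.2⟩).le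
  have h := hanti (Set.left_mem_Icc.2 (by positivity)) (Set.right_mem_Icc.2 (by positivity))
    (by positivity : (0:ℝ) ≤ π / 2)
  have e1 : M (π / 2) = A := by
    ext a j; simp [hM]
  have e0 : M 0 = B := by
    ext a j; simp [hM]
  simp only [e1, e0] at h
  exact h

/-- two different Gaussian vectors -/
theorem kahane_two {F : (I → ℝ) → ℝ} {P : I → (I → ℝ) → ℝ}
    {H : I → I → (I → ℝ) → ℝ} {c : ℝ}
    (hF : ∀ h, HasFDerivAt F (dual fun a => P a h) h)
    (hP : ∀ a h, HasFDerivAt (P a) (dual fun b => H a b h) h)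
    (hHc : ∀ a b, Continuous (H a b)) (hc : 0 ≤ c)
    (hPb : ∀ a h, |P a h| ≤ c) (hHb : ∀ a b h, |H a b h| ≤ c)
    (A : I → ι → ℝ) (B : I → κ → ℝ)
    (hsum : ∀ h, ∑ a, ∑ b, (∑ j, A a j * A b j - ∑ j, B a j * B b j) * H a b h ≤ 0) :
    ∫ g, F (lin A g) ∂(G ι) ≤ ∫ g, F (lin B g) ∂(G κ) := by
  classical
  have hFc : Continuous F := continuous_iff_continuousAt.2 fun h => (hF h).continuousAt
  have h := kahane_gen (ι := ι ⊕ κ) hF hP hHc hc hPb hHb
    (fun a => Sum.elim (A a) 0) (fun a => Sum.elim 0 (B a))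
    (fun a b j => by cases j <;> simp) (by simpa using hsum)
  have e1 := mp_int (mp_comp (Sum.inl : ι → ι ⊕ κ) Sum.inl_injective) (f := fun g => F (lin A g))
    (hFc.comp (continuous_lin A)).aestronglyMeasurable
  have e2 := mp_int (mp_comp (Sum.inr : κ → ι ⊕ κ) Sum.inr_injective) (f := fun g => F (lin B g))
    (hFc.comp (continuous_lin B)).aestronglyMeasurable
  rw [← e1, ← e2]
  convert h using 4
  · funext a; simp [lin]
  · funext a; simp [lin]

section smax
variable [Nonempty I] (β : ℝ) (m : I → ℝ)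

/-- partition function -/
def Zs (h : I → ℝ) : ℝ := ∑ a, exp (β * (h a + m a))
/-- soft maximum -/
def smax (h : I → ℝ) : ℝ := β⁻¹ * log (Zs β m h)
/-- Gibbs weights -/
def pw (a : I) (h : I → ℝ) : ℝ := exp (β * (h a + m a)) / Zs β m h

/-- Hessian of the soft maximum -/
def hw [DecidableEq I] (a b : I) (h : I → ℝ) : ℝ :=
  β * ((if a = b then pw β m a h else 0) - pw β m a h * pw β m b h)

lemma Zs_pos (h : I → ℝ) : 0 < Zs β m h :=
  Finset.sum_pos (fun _ _ => exp_pos _) Finset.univ_nonempty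

lemma pw_nonneg (a : I) (h : I → ℝ) : 0 ≤ pw β m a h :=
  div_nonneg (exp_pos _).le (Zs_pos β m h).le

lemma sum_pw (h : I → ℝ) : ∑ a, pw β m a h = 1 := by
  simp only [pw]
  rw [← Finset.sum_div]
  exact div_self (Zs_pos β m h).ne'

lemma pw_le_one (a : I) (h : I → ℝ) : pw β m a h ≤ 1 := by
  rw [← sum_pw β m h]
  exact Finset.single_le_sum (f := fun a => pw β m a h) (fun b _ => pw_nonneg β m b h)
    (Finset.mem_univ a)

lemma hasFDerivAt_ex (a : I) (h : I → ℝ) :
    HasFDerivAt (fun h : I → ℝ => exp (β * (h a + m a)))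
      ((β * exp (β * (h a + m a))) • (ContinuousLinearMap.proj a : (I → ℝ) →L[ℝ] ℝ)) h := by
  have := (((hasFDerivAt_apply (𝕜 := ℝ) a h).add_const (m a)).const_mul β).exp
  refine this.congr_fderiv ?_
  ext v
  simp only [smul_apply, ContinuousLinearMap.proj_apply, smul_eq_mul]
  ring

lemma hasFDerivAt_Zs (h : I → ℝ) :
    HasFDerivAt (Zs β m) (dual fun a => β * exp (β * (h a + m a))) h :=
  HasFDerivAt.fun_sum fun a _ => hasFDerivAt_ex β m a h

lemma hasFDerivAt_smax (hβ : β ≠ 0) (h : I → ℝ) :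
    HasFDerivAt (smax β m) (dual fun a => pw β m a h) h := by
  have := ((hasFDerivAt_Zs β m h).log (Zs_pos β m h).ne').const_mul β⁻¹
  refine this.congr_fderiv ?_
  ext v
  simp only [smul_apply, dual_apply, smul_eq_mul, pw, Finset.mul_sum]
  refine Finset.sum_congr rfl fun a _ => ?_
  field_simp

lemma hasFDerivAt_pw [DecidableEq I] (a : I) (h : I → ℝ) :
    HasFDerivAt (pw β m a) (dual fun b => hw β m a b h) h := by
  have hZ := (Zs_pos β m h).ne'
  have := (hasFDerivAt_ex β m a h).mul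
    ((hasDerivAt_inv hZ).comp_hasFDerivAt h (hasFDerivAt_Zs β m h))
  refine (this.congr_fderiv ?_).congr_of_eventuallyEq (Filter.Eventually.of_forall fun x => ?_)
  · ext v
    simp only [add_apply, smul_apply, dual_apply,
      smul_eq_mul, ContinuousLinearMap.proj_apply, hw, mul_sub, sub_mul, Finset.sum_sub_distrib,
      mul_ite, mul_zero, ite_mul, zero_mul, Finset.sum_ite_eq, Finset.mem_univ, if_true, pw,
      Function.comp_apply]
    have : ∑ b, β * (exp (β * (h a + m a)) / Zs β m h * (exp (β * (h b + m b)) / Zs β m h)) * v b =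
        exp (β * (h a + m a)) / Zs β m h ^ 2 * ∑ b, β * exp (β * (h b + m b)) * v b := by
      rw [Finset.mul_sum]
      refine Finset.sum_congr rfl fun b _ => ?_
      field_simp
    rw [this]
    field_simp
    ring
  · simp [pw, div_eq_mul_inv]

lemma continuous_pw (a : I) : Continuous (pw β m a) := by
  classical
  exact continuous_iff_continuousAt.2 fun h => (hasFDerivAt_pw β m a h).continuousAt

lemma continuous_hw [DecidableEq I] (a b : I) : Continuous (hw β m a b) := by
  unfold hw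
  refine continuous_const.mul (Continuous.sub ?_ ((continuous_pw β m a).mul (continuous_pw β m b)))
  split_ifs
  · exact continuous_pw β m a
  · exact continuous_const

lemma abs_hw_le [DecidableEq I] (a b : I) (h : I → ℝ) : |hw β m a b h| ≤ |β| := by
  have h1 := pw_nonneg β m a h
  have h2 := pw_nonneg β m b h
  have h3 := pw_le_one β m a h
  have h4 := pw_le_one β m b h
  rw [hw, abs_mul]
  refine mul_le_of_le_one_right (abs_nonneg _) (abs_le.2 ⟨?_, ?_⟩) <;> split_ifs <;> nlinarith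

/-- the Hessian against a symmetric-increment form -/
lemma sum_hw [DecidableEq I] (C : I → I → ℝ) (h : I → ℝ) : ∑ a, ∑ b, C a b * hw β m a b h =
    β / 2 * ∑ a, ∑ b, (C a a + C b b - 2 * C a b) * (pw β m a h * pw β m b h) := by
  have h1 : ∑ a, ∑ b, C a a * (pw β m a h * pw β m b h) = ∑ a, C a a * pw β m a h := by
    refine Finset.sum_congr rfl fun a _ => ?_
    rw [← Finset.mul_sum, ← Finset.mul_sum, sum_pw, mul_one]
  have h2 : ∑ a, ∑ b, C b b * (pw β m a h * pw β m b h) = ∑ a, C a a * pw β m a h := by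
    rw [Finset.sum_comm, ← h1]
    exact Finset.sum_congr rfl fun a _ => Finset.sum_congr rfl fun b _ => by ring
  have h3 : ∑ a, ∑ b, C a b * hw β m a b h =
      β * (∑ a, C a a * pw β m a h - ∑ a, ∑ b, C a b * (pw β m a h * pw β m b h)) := by
    rw [← Finset.sum_sub_distrib, Finset.mul_sum]
    refine Finset.sum_congr rfl fun a _ => ?_
    simp only [hw, mul_sub, mul_ite, mul_zero, Finset.sum_sub_distrib, Finset.sum_ite_eq,
      Finset.mem_univ, if_true, Finset.mul_sum]
    congr 1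
    · ring
    · exact Finset.sum_congr rfl fun b _ => by ring
  simp only [sub_mul, add_mul, Finset.sum_sub_distrib, Finset.sum_add_distrib, mul_assoc,
    ← Finset.mul_sum] at h1 h2 h3 ⊢
  rw [h3, h1, h2]
  ring

lemma le_smax (hβ : 0 < β) (h : I → ℝ) (a : I) : h a + m a ≤ smax β m h := by
  rw [smax, le_inv_mul_iff₀ hβ, le_log_iff_exp_le (Zs_pos β m h)]
  exact Finset.single_le_sum (f := fun a => exp (β * (h a + m a))) (fun b _ => (exp_pos _).le)
    (Finset.mem_univ a)

lemma smax_le (hβ : 0 < β) (h : I → ℝ) {x : ℝ} (hx : ∀ a, h a + m a ≤ x) :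
    smax β m h ≤ x + log (Fintype.card I) / β := by
  have hc : (0 : ℝ) < Fintype.card I := Nat.cast_pos.2 Fintype.card_pos
  rw [smax, inv_mul_le_iff₀ hβ, log_le_iff_le_exp (Zs_pos β m h), mul_add,
    mul_div_cancel₀ _ hβ.ne', exp_add, exp_log hc]
  calc Zs β m h ≤ ∑ _a : I, exp (β * x) :=
        Finset.sum_le_sum fun a _ => exp_le_exp.2 (mul_le_mul_of_nonneg_left (hx a) hβ.le)
    _ = _ := by simp [mul_comm]

lemma integrable_smax (hβ : β ≠ 0) (A : I → ι → ℝ) :
    Integrable (fun g => smax β m (lin A g)) (G ι) :=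
  integrable_comp_lin (hasFDerivAt_smax β m hβ) zero_le_one
    (fun a h => by rw [abs_of_nonneg (pw_nonneg β m a h)]; exact pw_le_one β m a h) A

/-- **Sudakov–Fernique** for the soft maximum (free energies) -/
theorem sudakov_smax (hβ : 0 < β) (A : I → ι → ℝ) (B : I → κ → ℝ)
    (hinc : ∀ a b, ∑ j, (A a j - A b j) ^ 2 ≤ ∑ j, (B a j - B b j) ^ 2) :
    ∫ g, smax β m (lin A g) ∂(G ι) ≤ ∫ g, smax β m (lin B g) ∂(G κ) := by
  classical
  refine kahane_two (c := 1 + |β|) (hasFDerivAt_smax β m hβ.ne') (hasFDerivAt_pw β m)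
    (continuous_hw β m) (by positivity) (fun a h => ?_) (fun a b h => ?_) A B fun h => ?_
  · rw [abs_of_nonneg (pw_nonneg β m a h)]
    linarith [pw_le_one β m a h, abs_nonneg β]
  · linarith [abs_hw_le β m a b h]
  · rw [sum_hw]
    refine mul_nonpos_of_nonneg_of_nonpos (by positivity)
      (Finset.sum_nonpos fun a _ => Finset.sum_nonpos fun b _ => ?_)
    refine mul_nonpos_of_nonpos_of_nonneg ?_ (mul_nonneg (pw_nonneg β m a h) (pw_nonneg β m b h))
    have := hinc a b
    simp only [sub_sq, Finset.sum_add_distrib, Finset.sum_sub_distrib, mul_assoc,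
      ← Finset.mul_sum] at this
    simp only [sq] at this
    linarith

end smax

/-- the maximum of a shifted vector -/
def mx [Nonempty I] (m h : I → ℝ) : ℝ := Finset.univ.sup' Finset.univ_nonempty fun a => h a + m a

lemma le_mx [Nonempty I] (m h : I → ℝ) (a : I) : h a + m a ≤ mx m h :=
  Finset.le_sup' (fun a => h a + m a) (Finset.mem_univ a)

lemma mx_le [Nonempty I] {m h : I → ℝ} {x : ℝ} (hx : ∀ a, h a + m a ≤ x) : mx m h ≤ x :=
  Finset.sup'_le _ _ fun a _ => hx a

lemma continuous_mx [Nonempty I] (m : I → ℝ) : Continuous (mx m) :=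
  Continuous.finset_sup'_apply _ fun a _ => (continuous_apply a).add continuous_const

lemma integrable_mx [Nonempty I] (m : I → ℝ) (A : I → ι → ℝ) :
    Integrable (fun g => mx m (lin A g)) (G ι) := by
  have h1 := integrable_smax 1 m one_ne_zero A
  refine (h1.abs.add (integrable_const |log (Fintype.card I)|)).mono'
    ((continuous_mx m).comp (continuous_lin A)).aestronglyMeasurable
    (Filter.Eventually.of_forall fun g => ?_)
  have h2 : mx m (lin A g) ≤ smax 1 m (lin A g) := mx_le (le_smax 1 m one_pos _)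
  have h3 := smax_le 1 m one_pos (lin A g) (le_mx m (lin A g))
  rw [div_one] at h3
  rw [Real.norm_eq_abs, Pi.add_apply, abs_le]
  constructor
  · linarith [neg_abs_le (smax 1 m (lin A g)), le_abs_self (log (Fintype.card I : ℝ))]
  · linarith [le_abs_self (smax 1 m (lin A g)), abs_nonneg (log (Fintype.card I : ℝ))]

/-- **Sudakov–Fernique** with deterministic shifts -/
theorem sudakov [Nonempty I] (m : I → ℝ) (A : I → ι → ℝ) (B : I → κ → ℝ)
    (hinc : ∀ a b, ∑ j, (A a j - A b j) ^ 2 ≤ ∑ j, (B a j - B b j) ^ 2) :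
    ∫ g, mx m (lin A g) ∂(G ι) ≤ ∫ g, mx m (lin B g) ∂(G κ) := by
  have hL : 0 ≤ log (Fintype.card I : ℝ) := log_natCast_nonneg _
  refine le_of_forall_pos_le_add fun ε hε => ?_
  set β := (log (Fintype.card I : ℝ) + 1) / ε with hβ
  have hβ0 : 0 < β := by positivity
  have h1 : ∫ g, mx m (lin A g) ∂(G ι) ≤ ∫ g, smax β m (lin A g) ∂(G ι) :=
    integral_mono (integrable_mx m A) (integrable_smax β m hβ0.ne' A) fun g =>
      mx_le (le_smax β m hβ0 _)
  have h2 : ∫ g, smax β m (lin B g) ∂(G κ) ≤ ∫ g, (mx m (lin B g) + ε) ∂(G κ) := by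
    refine integral_mono (integrable_smax β m hβ0.ne' B)
      ((integrable_mx m B).add (integrable_const ε)) fun g => ?_
    refine (smax_le β m hβ0 (lin B g) (le_mx m (lin B g))).trans ?_
    have : log (Fintype.card I : ℝ) / β ≤ ε := by
      rw [div_le_iff₀ hβ0, hβ, mul_div_cancel₀ _ hε.ne']; linarith
    linarith
  rw [integral_add (integrable_mx m B) (integrable_const ε)] at h2
  simp only [integral_const, probReal_univ, one_smul] at h2
  exact h1.trans ((sudakov_smax β m hβ0 A B hinc).trans h2)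

end Crest.Agent.T157.Sf

end
end

-- ▼ part T157/NrmG_84

/-!
# Row 157, part E: sharp operator norm bounds for GOE and for the SK coupling matrix (helper84)

* `goe_sf`: `E λ_max (D + W) ≤ E sup_{|u| = 1} (u·Du + 2 s u·g)` (Sudakov–Fernique);
* `E_lam_symG`, `E_lam_goe`, `E_lam_Jmat`: `E λ_max ≤ 2 |s| √N`, resp. `≤ 2`;
* Lipschitz constants of the eigenvalues and of the norm as functions of the entries;
* tails `goe_lam_tail`, `goe_opn_tail`, `Wmat_opn_tail`, `Jmat_lam_tail`, `Jmat_opn_tail`: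
  `P(2 + t ≤ ‖J‖) ≤ 2 exp (-n t² / 4)`.
-/

set_option autoImplicit false
set_option linter.unusedSectionVars false

noncomputable section

namespace Crest.Agent.T157.Nrm

open Matrix Finset MeasureTheory ProbabilityTheory
open Crest.ProbabilityR.SpinGlassDynamics Crest.Agent.T157.E Crest.Agent.T157.Eig
open Crest.Agent.T157.Cond Crest.Agent.T157.Sf
open Crest.Agent.T157.Conc (en ELip)
open Crest.Agent.R339.Guerra (lin mp_int integral_coord integrable_coord)

variable {ι : Type*} [Fintype ι] [DecidableEq ι]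

lemma en_eq_nrm (x : ι → ℝ) : en x = nrm x := by rw [Conc.en_eq_norm, nrm_eq_norm]

lemma symG_herm (s : ℝ) (x : ι × ι → ℝ) : (symG s x).IsHermitian := herm_iff.2 (symG_transpose s x)

lemma symG_sub (s : ℝ) (x y : ι × ι → ℝ) : symG s x - symG s y = symG s (x - y) := by
  ext i j; simp [symG]; ring


lemma quad_symG (s : ℝ) (x : ι × ι → ℝ) (u : ι → ℝ) :
    u ⬝ᵥ symG s x *ᵥ u = ∑ p : ι × ι, √2 * s * (u p.1 * u p.2) * x p := by
  have h2 : √2 * √2 = 2 := Real.mul_self_sqrt (by norm_num)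
  have h0 : √2 ≠ 0 := by positivity
  have e1 : ∑ i, ∑ j, u i * u j * x (j, i) = ∑ i, ∑ j, u i * u j * x (i, j) := by
    rw [sum_comm]; exact sum_congr rfl fun i _ => sum_congr rfl fun j _ => by ring
  have e2 : u ⬝ᵥ symG s x *ᵥ u =
      s / √2 * (∑ i, ∑ j, u i * u j * x (i, j) + ∑ i, ∑ j, u i * u j * x (j, i)) := by
    simp only [dotProduct, mulVec, symG, of_apply, mul_sum, ← sum_add_distrib]
    exact sum_congr rfl fun i _ => sum_congr rfl fun j _ => by ring
  rw [e2, e1, Fintype.sum_prod_type, ← two_mul, ← mul_assoc, mul_sum]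
  refine sum_congr rfl fun i _ => ?_
  rw [mul_sum]
  refine sum_congr rfl fun j _ => ?_
  have : s / √2 * 2 = √2 * s := by
    rw [div_mul_eq_mul_div, div_eq_iff h0, mul_right_comm, h2, mul_comm]
  rw [this]; ring

lemma opn_symG_le (s : ℝ) (x : ι × ι → ℝ) : opn (symG s x) ≤ √2 * |s| * en x := by
  refine (opn_le_sqrt_frob _).trans (Real.sqrt_le_iff.2 ⟨by have := Conc.en_nonneg x; positivity, ?_⟩)
  have h2 : √2 ^ 2 = 2 := Real.sq_sqrt (by norm_num)
  rw [mul_pow, mul_pow, h2, sq_abs, Conc.en_sq, Fintype.sum_prod_type]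
  have e1 : ∑ i, ∑ j, x (j, i) ^ 2 = ∑ i, ∑ j, x (i, j) ^ 2 := sum_comm
  calc ∑ i, ∑ j, symG s x i j ^ 2 ≤ ∑ i, ∑ j, s ^ 2 * (x (i, j) ^ 2 + x (j, i) ^ 2) := by
        refine sum_le_sum fun i _ => sum_le_sum fun j _ => ?_
        simp only [symG, of_apply, mul_pow, div_pow, h2]
        nlinarith [mul_nonneg (sq_nonneg s) (sq_nonneg (x (i, j) - x (j, i)))]
    _ = _ := by
        simp only [← mul_sum, sum_add_distrib, e1]; ring

lemma elip_lam_symG {D : Matrix ι ι ℝ} (hD : D.IsHermitian) (s : ℝ) (k : ℕ) :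
    ELip (√2 * |s|) fun x => lam (D + symG s x) k := fun x y => by
  refine (abs_lam_sub_le (hD.add (symG_herm s x)) (hD.add (symG_herm s y)) k).trans ?_
  rw [add_sub_add_left_eq_sub, symG_sub]
  exact opn_symG_le s _

lemma elip_opn_symG (D : Matrix ι ι ℝ) (s : ℝ) :
    ELip (√2 * |s|) fun x => opn (D + symG s x) := fun x y => by
  refine (abs_opn_sub_le _ _).trans ?_
  rw [add_sub_add_left_eq_sub, symG_sub]
  exact opn_symG_le s _

/-- Sudakov–Fernique for GOE quadratic forms on a finite family of unit vectors -/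
theorem goe_sf_fin {I : Type*} [Fintype I] [Nonempty I] (s : ℝ) (u : I → ι → ℝ)
    (hu : ∀ a, u a ⬝ᵥ u a = 1) (m : I → ℝ) :
    ∫ x, mx m (fun a => u a ⬝ᵥ symG s x *ᵥ u a) ∂(gv (ι × ι)) ≤
      ∫ g, mx m (fun a => 2 * s * (u a ⬝ᵥ g)) ∂(gv ι) := by
  have h := sudakov m (fun a (p : ι × ι) => √2 * s * (u a p.1 * u a p.2))
    (fun a i => 2 * s * u a i) (fun a b => by
      have h2 : √2 ^ 2 = 2 := Real.sq_sqrt (by norm_num)
      have e1 : ∀ v w : ι → ℝ, ∑ p : ι × ι, v p.1 * v p.2 * (w p.1 * w p.2) = (v ⬝ᵥ w) ^ 2 := by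
        intro v w
        rw [sq, dotProduct, sum_mul_sum, Fintype.sum_prod_type]
        exact sum_congr rfl fun i _ => sum_congr rfl fun j _ => by ring
      have e2 : ∑ p : ι × ι, (√2 * s * (u a p.1 * u a p.2) - √2 * s * (u b p.1 * u b p.2)) ^ 2 =
          2 * s ^ 2 * ((u a ⬝ᵥ u a) ^ 2 + (u b ⬝ᵥ u b) ^ 2 - 2 * (u a ⬝ᵥ u b) ^ 2) := by
        simp only [← e1, mul_sum, ← sum_add_distrib, ← sum_sub_distrib]
        refine sum_congr rfl fun p _ => ?_
        rw [← mul_sub, mul_pow, mul_pow, h2]; ring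
      have e3 : ∑ i, (2 * s * u a i - 2 * s * u b i) ^ 2 =
          4 * s ^ 2 * (u a ⬝ᵥ u a + u b ⬝ᵥ u b - 2 * (u a ⬝ᵥ u b)) := by
        simp only [dotProduct, mul_sum, ← sum_add_distrib, ← sum_sub_distrib]
        exact sum_congr rfl fun i _ => by ring
      rw [e2, e3, hu, hu]
      nlinarith [mul_nonneg (sq_nonneg s) (sq_nonneg (1 - u a ⬝ᵥ u b))])
  convert h using 4
  · funext a; rw [quad_symG]; rfl
  · funext a; simp only [lin, dotProduct, mul_sum, mul_assoc]

/-- finite nets of the unit sphere -/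
lemma exists_sphere_net (ι : Type*) [Fintype ι] [DecidableEq ι] {ε : ℝ} (hε : 0 < ε) :
    ∃ N : Finset (ι → ℝ), (∀ c ∈ N, c ⬝ᵥ c = 1) ∧ ∀ v, v ⬝ᵥ v = 1 → ∃ c ∈ N, nrm (v - c) ≤ ε := by
  classical
  obtain ⟨t, ht, hf, hc⟩ := (isCompact_sphere (0 : EuclideanSpace ℝ ι) 1).finite_cover_balls hε
  refine ⟨hf.toFinset.image fun x => x.ofLp, fun c hc => ?_, fun v hv => ?_⟩
  · obtain ⟨x, hx, rfl⟩ := mem_image.1 hc
    have := ht (hf.mem_toFinset.1 hx)
    rw [mem_sphere_zero_iff_norm, norm_eq_nrm] at this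
    rw [← nrm_sq, this, one_pow]
  · have hv' : (WithLp.toLp 2 v : EuclideanSpace ℝ ι) ∈ Metric.sphere 0 1 := by
      rw [mem_sphere_zero_iff_norm, ← nrm_eq_norm, nrm, hv, Real.sqrt_one]
    obtain ⟨x, hx, hvx⟩ := Set.mem_iUnion₂.1 (hc hv')
    refine ⟨x.ofLp, mem_image.2 ⟨x, hf.mem_toFinset.2 hx, rfl⟩, ?_⟩
    rw [Metric.mem_ball, dist_eq_norm, norm_eq_nrm] at hvx
    exact hvx.le

lemma quad_sub_le (A : Matrix ι ι ℝ) {v c : ι → ℝ} (hv : v ⬝ᵥ v = 1) (hc : c ⬝ᵥ c = 1) :
    v ⬝ᵥ A *ᵥ v ≤ c ⬝ᵥ A *ᵥ c + 2 * opn A * nrm (v - c) := by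
  have h1 := (le_abs_self _).trans (abs_bil_le A (v - c) v)
  have h2 := (le_abs_self _).trans (abs_bil_le A c (v - c))
  rw [sub_dotProduct, show nrm v = 1 by rw [nrm, hv, Real.sqrt_one]] at h1
  rw [mulVec_sub, dotProduct_sub, show nrm c = 1 by rw [nrm, hc, Real.sqrt_one]] at h2
  linarith

/-- **Sudakov–Fernique bound for the top eigenvalue of a deformed GOE matrix** -/
theorem goe_sf [Nonempty ι] {D : Matrix ι ι ℝ} (hD : D.IsHermitian) (s : ℝ) {φ : (ι → ℝ) → ℝ}
    (hφ : Integrable φ (gv ι))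
    (h : ∀ g u : ι → ℝ, u ⬝ᵥ u = 1 → u ⬝ᵥ D *ᵥ u + 2 * s * (u ⬝ᵥ g) ≤ φ g) :
    ∫ x, lam (D + symG s x) 0 ∂(gv (ι × ι)) ≤ ∫ g, φ g ∂(gv ι) := by
  have hi := (elip_opn_symG D s).integrable
  set C := ∫ x, opn (D + symG s x) ∂(gv (ι × ι)) with hC
  have hC0 : 0 ≤ C := integral_nonneg fun x => opn_nonneg _
  refine le_of_forall_pos_le_add fun ε hε => ?_
  obtain ⟨N, hN1, hN⟩ := exists_sphere_net ι (ε := ε / (2 * C + 1)) (by positivity)
  have hcard : 0 < Fintype.card ι := Fintype.card_pos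
  have : Nonempty N := by
    obtain ⟨c, hc, -⟩ := hN _ (vec_dot_self hD hcard)
    exact ⟨⟨c, hc⟩⟩
  have h1 := goe_sf_fin s (fun a : N => a.1) (fun a => hN1 _ a.2) fun a => a.1 ⬝ᵥ D *ᵥ a.1
  have i1 : Integrable (fun x => mx (fun a : N => a.1 ⬝ᵥ D *ᵥ a.1)
      (fun a : N => a.1 ⬝ᵥ symG s x *ᵥ a.1)) (gv (ι × ι)) := by
    have := integrable_mx (fun a : N => a.1 ⬝ᵥ D *ᵥ a.1)
      (fun (a : N) (p : ι × ι) => √2 * s * (a.1 p.1 * a.1 p.2))
    convert this using 3
    funext a; rw [quad_symG]; rfl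
  have i2 : Integrable (fun g => mx (fun a : N => a.1 ⬝ᵥ D *ᵥ a.1)
      (fun a : N => 2 * s * (a.1 ⬝ᵥ g))) (gv ι) := by
    have := integrable_mx (fun a : N => a.1 ⬝ᵥ D *ᵥ a.1) (fun (a : N) i => 2 * s * a.1 i)
    convert this using 3
    funext a; simp only [lin, dotProduct, mul_sum, mul_assoc]
  have h2 : ∫ g, mx (fun a : N => a.1 ⬝ᵥ D *ᵥ a.1) (fun a : N => 2 * s * (a.1 ⬝ᵥ g)) ∂(gv ι) ≤
      ∫ g, φ g ∂(gv ι) :=
    integral_mono i2 hφ fun g => mx_le fun a => by linarith [h g a.1 (hN1 _ a.2)]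
  have h3 : ∫ x, lam (D + symG s x) 0 ∂(gv (ι × ι)) ≤
      ∫ x, (mx (fun a : N => a.1 ⬝ᵥ D *ᵥ a.1) (fun a : N => a.1 ⬝ᵥ symG s x *ᵥ a.1) +
        2 * (ε / (2 * C + 1)) * opn (D + symG s x)) ∂(gv (ι × ι)) := by
    refine integral_mono (elip_lam_symG hD s 0).integrable (i1.add (hi.const_mul _)) fun x => ?_
    refine lam_zero_le_of_unit (hD.add (symG_herm s x)) hcard fun v hv => ?_
    obtain ⟨c, hc, hvc⟩ := hN v hv
    have a1 := quad_sub_le (D + symG s x) hv (hN1 c hc)
    have a2 := le_mx (fun a : N => a.1 ⬝ᵥ D *ᵥ a.1) (fun a : N => a.1 ⬝ᵥ symG s x *ᵥ a.1) ⟨c, hc⟩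
    have a3 := mul_le_mul_of_nonneg_left hvc (opn_nonneg (D + symG s x))
    rw [add_mulVec (D) _ c, dotProduct_add] at a1
    simp only at a2 ⊢
    linarith
  rw [integral_add i1 (hi.const_mul _), integral_const_mul, ← hC] at h3
  have h4 : 2 * (ε / (2 * C + 1)) * C ≤ ε := by
    rw [show 2 * (ε / (2 * C + 1)) * C = ε * (2 * C / (2 * C + 1)) by ring]
    exact mul_le_of_le_one_right hε.le ((div_le_one (by positivity)).2 (by linarith))
  linarith

lemma integrable_sq_coord (i : ι) : Integrable (fun g : ι → ℝ => g i * g i) (gv ι) := by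
  have h : Integrable (fun x : ℝ => x * x) (gaussianReal 0 1) := by
    have := (memLp_id_gaussianReal (μ := 0) (v := 1) 2).integrable_sq
    simpa [sq] using this
  exact (measurePreserving_eval (fun _ : ι => gaussianReal 0 1) i).integrable_comp_of_integrable h

lemma integral_sq_coord (i : ι) : ∫ g : ι → ℝ, g i * g i ∂(gv ι) = 1 := by
  have h := mp_int (measurePreserving_eval (fun _ : ι => gaussianReal 0 1) i)
    (f := fun x : ℝ => x * x) (by fun_prop)
  refine h.trans ?_
  have := variance_id_gaussianReal (μ := 0) (v := 1)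
  rw [variance_eq_integral measurable_id.aemeasurable] at this
  simpa [sq] using this

lemma integrable_dot_self : Integrable (fun g : ι → ℝ => g ⬝ᵥ g) (gv ι) :=
  integrable_finsetSum _ fun i _ => integrable_sq_coord i

lemma integral_dot_self : ∫ g : ι → ℝ, g ⬝ᵥ g ∂(gv ι) = Fintype.card ι := by
  simp only [dotProduct]
  rw [integral_finsetSum _ fun i _ => integrable_sq_coord i]
  simp [integral_sq_coord]

lemma integrable_nrm : Integrable (nrm : (ι → ℝ) → ℝ) (gv ι) := by
  have := (Conc.elip_en (ι := ι)).integrable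
  rwa [show (en : (ι → ℝ) → ℝ) = nrm from funext en_eq_nrm] at this

lemma integral_nrm_le : ∫ g : ι → ℝ, nrm g ∂(gv ι) ≤ √(Fintype.card ι) := by
  rcases Nat.eq_zero_or_pos (Fintype.card ι) with h | h
  · have : IsEmpty ι := Fintype.card_eq_zero_iff.1 h
    simp [nrm, dotProduct]
  have hc : (0 : ℝ) < Fintype.card ι := Nat.cast_pos.2 h
  set r := √(Fintype.card ι : ℝ) with hr
  have hr0 : 0 < r := Real.sqrt_pos.2 hc
  have hr2 : r * r = Fintype.card ι := Real.mul_self_sqrt hc.le
  calc ∫ g : ι → ℝ, nrm g ∂(gv ι) ≤ ∫ g : ι → ℝ, (g ⬝ᵥ g / (2 * r) + r / 2) ∂(gv ι) := by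
        refine integral_mono integrable_nrm ((integrable_dot_self.div_const _).add
          (integrable_const _)) fun g => ?_
        simp only
        rw [← nrm_sq, div_add' _ _ _ (by positivity), le_div_iff₀ (by positivity)]
        nlinarith [sq_nonneg (nrm g - r)]
    _ = r := by
        rw [integral_add (integrable_dot_self.div_const _) (integrable_const _), integral_div,
          integral_dot_self, ← hr2]
        simp only [integral_const, probReal_univ, one_smul]
        field_simp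
        ring

theorem E_lam_symG (s : ℝ) :
    ∫ x, lam (symG (ι := ι) s x) 0 ∂(gv (ι × ι)) ≤ 2 * |s| * √(Fintype.card ι) := by
  rcases isEmpty_or_nonempty ι with h | h
  · simp [lam_of_le]
  have := goe_sf (ι := ι) (D := 0) isHermitian_zero s (φ := fun g => 2 * |s| * nrm g)
    (integrable_nrm.const_mul _) fun g u hu => by
      have h1 := abs_dot_le u g
      rw [show nrm u = 1 by rw [nrm, hu, Real.sqrt_one], one_mul] at h1
      have h2 : s * (u ⬝ᵥ g) ≤ |s| * nrm g :=
        (le_abs_self _).trans (by rw [abs_mul]; exact mul_le_mul_of_nonneg_left h1 (abs_nonneg s))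
      simp only [zero_mulVec, dotProduct_zero]
      linarith
  simp only [zero_add, integral_const_mul] at this
  exact this.trans (mul_le_mul_of_nonneg_left integral_nrm_le (by positivity))

/-- `lam` is measurable on all matrices -/
lemma measurable_lam' (k : ℕ) : Measurable fun W : Matrix ι ι ℝ => lam W k := by
  classical
  have e : (fun W : Matrix ι ι ℝ => lam W k) =
      fun W => if Wᵀ = W then lam (symP W) k else 0 := by
    funext W
    split_ifs with h
    · rw [symP_of_herm (herm_iff.2 h)]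
    · rw [lam, dif_neg]; exact fun h' => h (herm_iff.1 h'.1)
  rw [e]
  refine Measurable.ite measurableSet_symm ?_ measurable_const
  refine measurable_lam (F := fun W : Matrix ι ι ℝ => symP W) (fun i j => ?_)
    (fun W => symP_herm W) k
  exact ((measurable_id.t157_entry i j).add (measurable_id.t157_entry j i)).div_const 2

lemma measurable_opn' {κ : Type*} [Fintype κ] [DecidableEq κ] :
    Measurable (opn : Matrix ι κ ℝ → ℝ) := continuous_opn.measurable



/-- upper tail of the top eigenvalue of a deformed GOE matrix above any bound of its mean -/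
theorem symG_lam_tail {D : Matrix ι ι ℝ} (hD : D.IsHermitian) (s : ℝ) (k : ℕ) {M t : ℝ}
    (hM : ∫ x, lam (D + symG s x) k ∂(gv (ι × ι)) ≤ M) (ht : 0 ≤ t) :
    (gv (ι × ι)).real {x | M + t ≤ lam (D + symG s x) k} ≤ Real.exp (-t ^ 2 / (4 * s ^ 2)) := by
  have h := Conc.tail_lip (elip_lam_symG hD s k) ht
  rw [mul_pow, Real.sq_sqrt (by norm_num), sq_abs, ← mul_assoc,
    show (2 : ℝ) * 2 = 4 by norm_num] at h
  refine (measureReal_mono (fun x hx => ?_) (measure_ne_top _ _)).trans h
  simp only [Set.mem_ofPred_eq] at hx ⊢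
  linarith

theorem goe_lam_tail (s : ℝ) {t : ℝ} (ht : 0 ≤ t) :
    (goe ι s).real {W | 2 * |s| * √(Fintype.card ι) + t ≤ lam W 0} ≤
      Real.exp (-t ^ 2 / (4 * s ^ 2)) := by
  rw [goe, map_measureReal_apply (measurable_symG s)
    (measurableSet_le measurable_const (measurable_lam' 0))]
  simpa using symG_lam_tail (D := 0) isHermitian_zero s 0 (by simpa using E_lam_symG s) ht

theorem goe_opn_tail (s : ℝ) {t : ℝ} (ht : 0 ≤ t) :
    (goe ι s).real {W | 2 * |s| * √(Fintype.card ι) + t ≤ opn W} ≤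
      2 * Real.exp (-t ^ 2 / (4 * s ^ 2)) := by
  set M := 2 * |s| * √(Fintype.card ι) + t
  have h1 := goe_lam_tail (ι := ι) s ht
  have h2 : (goe ι s).real {W | M ≤ lam (-W) 0} ≤ Real.exp (-t ^ 2 / (4 * s ^ 2)) := by
    have hm : Measurable fun W : Matrix ι ι ℝ => -W := continuous_neg.measurable
    rw [← goe_neg, map_measureReal_apply hm
      (measurableSet_le measurable_const (measurable_lam' 0))] at h1
    exact h1
  have h3 : (goe ι s).real {W | M ≤ opn W} ≤
      (goe ι s).real ({W | M ≤ lam W 0} ∪ {W | M ≤ lam (-W) 0}) := by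
    refine ENNReal.toReal_mono (measure_ne_top _ _) (measure_mono_ae ?_)
    filter_upwards [goe_ae_symm (ι := ι) s] with W hW h
    have h : M ≤ opn W := h
    rw [opn_eq_max (herm_iff.2 hW), le_max_iff] at h
    exact h
  linarith [measureReal_union_le (μ := goe ι s) {W | M ≤ lam W 0} {W | M ≤ lam (-W) 0}]

variable {n : ℕ}

lemma two_mul_le (n : ℕ) : 2 * |1 / √(n : ℝ)| * √(Fintype.card (Fin n)) ≤ 2 := by
  rw [Fintype.card_fin, abs_of_nonneg (by positivity), mul_assoc, one_div, inv_mul_eq_div]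
  have : √(n : ℝ) / √n ≤ 1 := div_self_le_one _
  linarith

lemma exp_goe (n : ℕ) (t : ℝ) : -t ^ 2 / (4 * (1 / √(n : ℝ)) ^ 2) = -(n * t ^ 2 / 4) := by
  rw [div_pow, Real.sq_sqrt (Nat.cast_nonneg n)]
  rcases Nat.eq_zero_or_pos n with rfl | h
  · simp
  · have : (n : ℝ) ≠ 0 := Nat.cast_ne_zero.2 h.ne'
    field_simp


theorem goe_opn_tail_n {t : ℝ} (ht : 0 ≤ t) :
    (goe (Fin n) (1 / √n)).real {W | 2 + t ≤ opn W} ≤ 2 * Real.exp (-(n * t ^ 2 / 4)) := by
  rw [← exp_goe]
  refine (measureReal_mono (fun W hW => ?_) (measure_ne_top _ _)).trans (goe_opn_tail _ ht)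
  simp only [Set.mem_ofPred_eq] at hW ⊢
  linarith [two_mul_le n]

theorem Wmat_opn_tail {t : ℝ} (ht : 0 ≤ t) :
    ((disorderLaw n).prod (gv (Fin n))).real {p | 2 + t ≤ opn (Wmat n p.1 p.2)} ≤
      2 * Real.exp (-(n * t ^ 2 / 4)) := by
  have := goe_opn_tail_n (n := n) ht
  rwa [← goe_Wmat, map_measureReal_apply measurable_Wmat
    (measurableSet_le measurable_const measurable_opn')] at this

/-! ### the zero-diagonal matrix -/

lemma Jmat_sub (g g' : Pair n → ℝ) : Jmat n g - Jmat n g' = Jmat n (g - g') := by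
  ext i j
  simp only [Jmat, Matrix.sub_apply, Pi.sub_apply]
  split_ifs <;> ring




lemma frob_Jmat (g : Pair n → ℝ) : ∑ i, ∑ j, Jmat n g i j ^ 2 = 2 / n * ∑ p, g p ^ 2 := by
  rw [sum_sum_eq_two_mul_pair (fun i j => Jmat n g i j ^ 2) (fun i j => by rw [Jmat_symm])
    (fun i => by simp [Jmat_diag]), div_mul_eq_mul_div, mul_div_assoc, sum_div]
  congr 1
  refine sum_congr rfl fun p _ => ?_
  rw [Jmat_apply_lt g p.2, div_pow, Real.sq_sqrt (Nat.cast_nonneg n)]

lemma opn_Jmat_le (g : Pair n → ℝ) : opn (Jmat n g) ≤ √(2 / n) * en g := by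
  refine (opn_le_sqrt_frob _).trans (le_of_eq ?_)
  rw [frob_Jmat, Real.sqrt_mul (by positivity), en]

lemma elip_lam_Jmat {D : Matrix (Fin n) (Fin n) ℝ} (hD : D.IsHermitian) (c : ℝ) (k : ℕ) :
    ELip (|c| * √(2 / n)) fun g => lam (D + c • Jmat n g) k := fun x y => by
  refine (abs_lam_sub_le (hD.add (herm_smul (Jmat_isHermitian x) c))
    (hD.add (herm_smul (Jmat_isHermitian y) c)) k).trans ?_
  rw [add_sub_add_left_eq_sub, ← smul_sub, Jmat_sub, opn_smul, mul_assoc]
  exact mul_le_mul_of_nonneg_left (opn_Jmat_le _) (abs_nonneg c)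

lemma elip_opn_Jmat : ELip (√(2 / n)) fun g => opn (Jmat n g) := fun x y => by
  refine (abs_opn_sub_le _ _).trans ?_
  rw [Jmat_sub]
  exact opn_Jmat_le _



/-- removing the Gaussian diagonal does not increase the mean of the top eigenvalue -/
theorem E_lam_Jmat_le {D : Matrix (Fin n) (Fin n) ℝ} (hD : D.IsHermitian) (c : ℝ) :
    ∫ g, lam (D + c • Jmat n g) 0 ∂(disorderLaw n) ≤
      ∫ x, lam (D + symG (c * (1 / √n)) x) 0 ∂(gv (Fin n × Fin n)) := by
  rcases Nat.eq_zero_or_pos n with rfl | hn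
  · simp [lam_of_le]
  have hcard : 0 < Fintype.card (Fin n) := by simpa using hn
  have hm1 : Measurable fun W : Matrix (Fin n) (Fin n) ℝ => lam (D + W) 0 :=
    (measurable_lam' 0).comp (measurable_const.t157_add measurable_id)
  have hm2 : Measurable fun W : Matrix (Fin n) (Fin n) ℝ => c • W :=
    measurable_const.t157_smul measurable_id
  have mp1 : MeasurePreserving (symG (c * (1 / √n))) (gv (Fin n × Fin n))
      (goe (Fin n) (c * (1 / √n))) := ⟨measurable_symG _, rfl⟩
  have mp2 : MeasurePreserving (fun p : (Pair n → ℝ) × (Fin n → ℝ) => c • Wmat n p.1 p.2)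
      ((disorderLaw n).prod (gv (Fin n))) (goe (Fin n) (c * (1 / √n))) :=
    (MeasurePreserving.mk hm2 (goe_smul _ c)).comp mp_Wmat
  have hi : Integrable (fun W => lam (D + W) 0) (goe (Fin n) (c * (1 / √n))) :=
    (mp1.integrable_comp hm1.aestronglyMeasurable).1 (elip_lam_symG hD _ 0).integrable
  have hi2 : Integrable (fun p : (Pair n → ℝ) × (Fin n → ℝ) => lam (D + c • Wmat n p.1 p.2) 0)
      ((disorderLaw n).prod (gv (Fin n))) := mp2.integrable_comp_of_integrable hi
  rw [mp_int mp1 hm1.aestronglyMeasurable, ← mp_int mp2 hm1.aestronglyMeasurable,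
    integral_prod _ hi2]
  refine integral_mono_ae (elip_lam_Jmat hD c 0).integrable hi2.integral_prod_left ?_
  filter_upwards [hi2.prod_right_ae] with g hg
  have hA := hD.add (herm_smul (Jmat_isHermitian g) c)
  set v := vec (D + c • Jmat n g) 0
  have hv : v ⬝ᵥ v = 1 := vec_dot_self hA hcard
  have e : ∀ d, v ⬝ᵥ (D + c • Wmat n g d) *ᵥ v =
      lam (D + c • Jmat n g) 0 + ∑ i, c * (√2 / √n) * (v i * v i) * d i := by
    intro d
    rw [← quad_vec hA hcard, Wmat, smul_add, ← add_assoc, add_mulVec, dotProduct_add]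
    congr 1
    rw [smul_mulVec, dotProduct_smul, smul_eq_mul, dotProduct, mul_sum]
    refine sum_congr rfl fun i _ => ?_
    rw [mulVec_diagonal]; ring
  have i3 : Integrable (fun d : Fin n → ℝ => ∑ i, c * (√2 / √n) * (v i * v i) * d i) (gv (Fin n)) :=
    integrable_finsetSum _ fun i _ => (integrable_coord i).const_mul _
  calc lam (D + c • Jmat n g) 0
      = ∫ d, (lam (D + c • Jmat n g) 0 + ∑ i, c * (√2 / √n) * (v i * v i) * d i) ∂(gv (Fin n)) := by
        rw [integral_add (integrable_const _) i3,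
          integral_finsetSum _ fun i _ => (integrable_coord i).const_mul _]
        simp [integral_const_mul, integral_coord]
    _ ≤ _ := by
        refine integral_mono ((integrable_const _).add i3) hg fun d => ?_
        simp only
        rw [← e]
        exact quad_le_of_unit (hD.add (herm_smul (Wmat_isHermitian g d) c)) hv

theorem E_lam_Jmat (c : ℝ) : ∫ g, lam (c • Jmat n g) 0 ∂(disorderLaw n) ≤ 2 * |c| := by
  have h1 := E_lam_Jmat_le (n := n) (D := 0) isHermitian_zero c
  simp only [zero_add] at h1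
  refine h1.trans ((E_lam_symG _).trans ?_)
  rw [abs_mul]
  nlinarith [two_mul_le n, abs_nonneg c]

/-- upper tail of an eigenvalue of `D + c J` above any bound of its mean -/
theorem Jmat_lam_tail' {D : Matrix (Fin n) (Fin n) ℝ} (hD : D.IsHermitian) (c : ℝ) (k : ℕ)
    {M t : ℝ} (hM : ∫ g, lam (D + c • Jmat n g) k ∂(disorderLaw n) ≤ M) (ht : 0 ≤ t) :
    (disorderLaw n).real {g | M + t ≤ lam (D + c • Jmat n g) k} ≤
      Real.exp (-(n * t ^ 2 / (4 * c ^ 2))) := by
  have h := Conc.tail_lip (elip_lam_Jmat hD c k) ht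
  have e : -t ^ 2 / (2 * (|c| * √(2 / (n : ℝ))) ^ 2) = -(n * t ^ 2 / (4 * c ^ 2)) := by
    rw [mul_pow, Real.sq_sqrt (by positivity), sq_abs]
    rcases Nat.eq_zero_or_pos n with rfl | h
    · simp
    · have : (n : ℝ) ≠ 0 := Nat.cast_ne_zero.2 h.ne'
      by_cases hc : c = 0
      · simp [hc]
      · field_simp; ring
  rw [e] at h
  refine (measureReal_mono (fun x hx => ?_) (measure_ne_top _ _)).trans h
  simp only [Set.mem_ofPred_eq] at hx ⊢
  rw [disorderLaw_eq] at hM
  linarith

theorem Jmat_lam_tail {t : ℝ} (ht : 0 ≤ t) :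
    (disorderLaw n).real {g | 2 + t ≤ lam (Jmat n g) 0} ≤ Real.exp (-(n * t ^ 2 / 4)) := by
  simpa using Jmat_lam_tail' (n := n) (D := 0) isHermitian_zero 1 0 (M := 2)
    (by simpa using E_lam_Jmat (n := n) 1) ht

theorem Jmat_lam_neg_tail {t : ℝ} (ht : 0 ≤ t) :
    (disorderLaw n).real {g | 2 + t ≤ lam (-Jmat n g) 0} ≤ Real.exp (-(n * t ^ 2 / 4)) := by
  simpa using Jmat_lam_tail' (n := n) (D := 0) isHermitian_zero (-1) 0 (M := 2)
    (by simpa using E_lam_Jmat (n := n) (-1)) ht

/-- **sharp norm bound for the SK coupling matrix** -/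
theorem Jmat_opn_tail {t : ℝ} (ht : 0 ≤ t) :
    (disorderLaw n).real {g | 2 + t ≤ opn (Jmat n g)} ≤ 2 * Real.exp (-(n * t ^ 2 / 4)) := by
  have h3 : {g | 2 + t ≤ opn (Jmat n g)} ⊆
      {g | 2 + t ≤ lam (Jmat n g) 0} ∪ {g | 2 + t ≤ lam (-Jmat n g) 0} := fun g h => by
    have h : 2 + t ≤ opn (Jmat n g) := h
    rw [opn_eq_max (Jmat_isHermitian g), le_max_iff] at h
    exact h
  have := (measureReal_mono (μ := disorderLaw n) h3 (measure_ne_top _ _)).trans
    (measureReal_union_le _ _)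
  linarith [Jmat_lam_tail (n := n) ht, Jmat_lam_neg_tail (n := n) ht]

end Crest.Agent.T157.Nrm

end
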