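import Crest.Agent.T157.ChainSp_22
import Crest.Agent.T157.EDef_39

/-!
Row 157, part D (helper33): a symmetric one-flip barrier of tiny Gibbs mass forces slow mixing
from typical starts (the first two parts of S0231).
-/

set_option autoImplicit false
set_option linter.dupNamespace false

noncomputable section

namespace Crest.Agent.T157.Bar

open Finset Matrix MeasureTheory Filter
open Crest.ProbabilityR.SpinGlassDynamics
open Crest.Agent.T157.Chain22

section chain
variable {Ω : Type*} [Fintype Ω] [DecidableEq Ω]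

/-- escape from a set needs a visit to its boundary layer -/
theorem esc (c : RC Ω) {a u : Ω → ℝ} (ha : ∀ x, a x = 0 ∨ a x = 1)
    (hau : ∀ x y, c.P x y ≠ 0 → a x * (1 - a y) ≤ u y) (k : ℕ) :
    ∑ x, c.π x * (a x * (1 - ((c.P ^ k) *ᵥ a) x)) ≤ k * mean c.π u := by
  have ha0 : ∀ x, 0 ≤ a x := fun x => by rcases ha x with h | h <;> simp [h]
  have ha1 : ∀ x, a x ≤ 1 := fun x => by rcases ha x with h | h <;> simp [h]
  set h : Ω → ℝ := fun x => a x * (1 - (c.P *ᵥ a) x) with hh
  have hP1 : ∀ x, (c.P *ᵥ a) x ≤ 1 := c.P_le ha1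
  have hP0 : ∀ x, 0 ≤ (c.P *ᵥ a) x := c.P_nonneg ha0
  have h0 : ∀ x, 0 ≤ h x := fun x => mul_nonneg (ha0 x) (by linarith [hP1 x])
  have hge : ∀ x, 0 ≤ (h - (a - c.P *ᵥ a)) x := fun x => by
    simp only [hh, Pi.sub_apply]
    rcases ha x with e | e <;> rw [e] <;> linarith [hP0 x]
  have hm : mean c.π h ≤ mean c.π u := by
    rw [← c.mean_P u]
    refine c.isP.mean_mono fun x => ?_
    have e : h x = ∑ y, c.P x y * (a x * (1 - a y)) := by
      have e1 : ∑ y, c.P x y * (a x * (1 - a y)) =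
          a x * (∑ y, c.P x y - ∑ y, c.P x y * a y) := by
        rw [← sum_sub_distrib, mul_sum]; exact sum_congr rfl fun y _ => by ring
      rw [e1, c.row]; rfl
    rw [e]
    refine sum_le_sum fun y _ => ?_
    by_cases hy : c.P x y = 0
    · simp [hy]
    · exact mul_le_mul_of_nonneg_left (hau x y hy) (c.nn x y)
  induction k with
  | zero =>
    simp only [pow_zero, one_mulVec, Nat.cast_zero, zero_mul]
    refine le_of_eq (sum_eq_zero fun x _ => ?_)
    rcases ha x with e | e <;> simp [e]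
  | succ k ih =>
    have e1 : ∀ x, ((c.P ^ (k + 1)) *ᵥ a) x =
        ((c.P ^ k) *ᵥ a) x - ((c.P ^ k) *ᵥ h) x + ((c.P ^ k) *ᵥ (h - (a - c.P *ᵥ a))) x := by
      intro x
      rw [pow_succ, ← mulVec_mulVec, mulVec_sub, mulVec_sub]
      simp only [Pi.sub_apply]; ring
    have e2 : mean c.π ((c.P ^ k) *ᵥ h) = mean c.π h := (c.pow k).mean_P h
    have e3 : ∑ x, c.π x * (a x * (1 - ((c.P ^ (k + 1)) *ᵥ a) x)) ≤
        ∑ x, c.π x * (a x * (1 - ((c.P ^ k) *ᵥ a) x)) + mean c.π ((c.P ^ k) *ᵥ h) := by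
      rw [mean, ← sum_add_distrib]
      refine sum_le_sum fun x _ => ?_
      rw [← mul_add]
      refine mul_le_mul_of_nonneg_left ?_ (c.pos x).le
      have p1 : 0 ≤ ((c.P ^ k) *ᵥ h) x := (c.pow k).P_nonneg h0 x
      have p2 : 0 ≤ ((c.P ^ k) *ᵥ (h - (a - c.P *ᵥ a))) x := (c.pow k).P_nonneg hge x
      rw [e1]
      rcases ha x with e | e <;> rw [e] <;> linarith
    push_cast
    linarith

theorem hasSum_poi_mul (t : ℝ) : HasSum (fun k : ℕ => poi t k * (k : ℝ)) t := by
  rw [← hasSum_nat_add_iff' 1]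
  have h := (hasSum_poi t).mul_left t
  have e : (fun k : ℕ => poi t (k + 1) * ((k + 1 : ℕ) : ℝ)) = fun k => t * poi t k := by
    funext k
    rw [poi, poi, Nat.factorial_succ]
    push_cast
    field_simp
    ring
  rw [e]
  simpa using h

theorem esc_H (c : RC Ω) {a u : Ω → ℝ} (ha : ∀ x, a x = 0 ∨ a x = 1)
    (hau : ∀ x y, c.P x y ≠ 0 → a x * (1 - a y) ≤ u y) {t : ℝ} (ht : 0 ≤ t) :
    ∑ x, c.π x * (a x * (1 - (c.H t *ᵥ a) x)) ≤ t * mean c.π u := by
  have h1 : HasSum (fun k => poi t k * ∑ x, c.π x * (a x * (1 - ((c.P ^ k) *ᵥ a) x)))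
      (∑ x, c.π x * (a x * (1 - (c.H t *ᵥ a) x))) := by
    have h := hasSum_sum (s := univ) fun x _ =>
      (((hasSum_poi t).sub (c.hasSum_H_mulVec t a x)).mul_left (a x)).mul_left (c.π x)
    have e : (fun k => poi t k * ∑ x, c.π x * (a x * (1 - ((c.P ^ k) *ᵥ a) x))) = fun k =>
        ∑ x, c.π x * (a x * (poi t k - poi t k * ((c.P ^ k) *ᵥ a) x)) := by
      funext k
      rw [mul_sum]
      exact sum_congr rfl fun x _ => by ring
    rw [e]; exact h
  have h2 := (hasSum_poi_mul t).mul_right (mean c.π u)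
  refine hasSum_le (fun k => ?_) h1 h2
  rw [mul_assoc]
  exact mul_le_mul_of_nonneg_left (esc c ha hau k) (poi_nonneg ht k)

/-- one side of the barrier: few starts in `A` are `1/4`-close to equilibrium -/
theorem side {π : Ω → ℝ} (hπ : IsP π) {K : Matrix Ω Ω ℝ} (hK : ∀ x, IsP (K x)) {a : Ω → ℝ}
    (ha : ∀ x, a x = 0 ∨ a x = 1) (hm : mean π a ≤ 1 / 2) {s : Ω → ℝ}
    (hs : ∀ x, s x = 0 ∨ (s x = 1 ∧ tv (K x) π ≤ 1 / 4)) :
    ∑ x, π x * (s x * a x) ≤ 4 * ∑ x, π x * (a x * (1 - (K *ᵥ a) x)) := by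
  have ha0 : ∀ x, 0 ≤ a x := fun x => by rcases ha x with h | h <;> simp [h]
  have ha1 : ∀ x, a x ≤ 1 := fun x => by rcases ha x with h | h <;> simp [h]
  rw [mul_sum]
  refine sum_le_sum fun x _ => ?_
  rw [mul_left_comm 4]
  refine mul_le_mul_of_nonneg_left ?_ (hπ.nn x)
  have h1 : (K *ᵥ a) x = mean (K x) a := rfl
  have h2 : mean (K x) a ≤ 1 := by
    have := (hK x).mean_mono (g := fun _ => 1) ha1
    rwa [(hK x).mean_const] at this
  have h3 := mean_sub_le_tv (hK x) hπ ha0 ha1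
  rcases hs x with e | ⟨e, ht⟩
  · rw [e, zero_mul]
    exact mul_nonneg (by norm_num) (mul_nonneg (ha0 x) (by linarith))
  · rw [e, h1]
    rcases ha x with e' | e' <;> rw [e'] <;> linarith

end chain

open Crest.Agent.T157.E

variable {n : ℕ}

theorem sum_agree (x : Cube n) (i : Fin n) (F : Cube n → ℝ) :
    ∑ y, (if (∀ j : Fin n, j ≠ i → y j = x j) then F y else 0) =
      F (Function.update x i true) + F (Function.update x i false) := by
  rw [← sum_filter]
  have e : (univ.filter fun y : Cube n => ∀ j : Fin n, j ≠ i → y j = x j) =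
      {Function.update x i true, Function.update x i false} := by
    ext y
    simp only [mem_filter, mem_univ, true_and, mem_insert, mem_singleton]
    constructor
    · intro h
      have : y = Function.update x i (y i) := by
        funext j
        by_cases hj : j = i
        · subst hj; simp
        · rw [Function.update_of_ne hj, h j hj]
      cases hy : y i
      · right; rw [this, hy]
      · left; rw [this, hy]
    · rintro (rfl | rfl) j hj <;> rw [Function.update_of_ne hj]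
  rw [e, sum_pair]
  intro h
  simpa using congrFun h i

theorem upd_eq {x y : Cube n} {i : Fin n} (h : ∀ j : Fin n, j ≠ i → y j = x j) (b : Bool) :
    Function.update y i b = Function.update x i b := by
  funext j
  by_cases hj : j = i
  · subst hj; simp
  · rw [Function.update_of_ne hj, Function.update_of_ne hj, h j hj]

/-- the heat-bath chain of a positive weight -/
def rc (hn : 0 < n) {w : Cube n → ℝ} (hw : ∀ x, 0 < w x) : RC (Cube n) where
  π := prob w
  P := hb w
  pos x := div_pos (hw x) (sum_pos (fun y _ => hw y) univ_nonempty)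
  sum1 := by
    simp only [prob]
    rw [← sum_div, div_self (sum_pos (fun y _ => hw y) univ_nonempty).ne']
  nn x y := by
    refine mul_nonneg (by positivity) (sum_nonneg fun i _ => ?_)
    split_ifs
    · exact (div_pos (hw _) (add_pos (hw _) (hw _))).le
    · exact le_rfl
  row x := by
    simp only [hb]
    rw [← mul_sum, sum_comm]
    have : ∀ i : Fin n, ∑ y : Cube n, (if (∀ j : Fin n, j ≠ i → y j = x j) then
        w y / (w (Function.update x i true) + w (Function.update x i false)) else 0) = 1 := by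
      intro i
      rw [sum_agree x i fun y =>
        w y / (w (Function.update x i true) + w (Function.update x i false)), ← add_div,
        div_self (add_pos (hw _) (hw _)).ne']
    simp only [this, sum_const, card_univ, Fintype.card_fin, nsmul_eq_mul, mul_one]
    have : (n : ℝ) ≠ 0 := by exact_mod_cast hn.ne'
    field_simp
  rev x y := by
    simp only [hb, prob]
    rw [mul_left_comm, mul_left_comm (w y / _)]
    congr 1
    rw [mul_sum, mul_sum]
    refine sum_congr rfl fun i _ => ?_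
    by_cases h : ∀ j : Fin n, j ≠ i → y j = x j
    · have h' : ∀ j : Fin n, j ≠ i → x j = y j := fun j hj => (h j hj).symm
      rw [if_pos h, if_pos h', upd_eq h, upd_eq h]
      ring
    · have h' : ¬ ∀ j : Fin n, j ≠ i → x j = y j := fun h' => h fun j hj => (h' j hj).symm
      rw [if_neg h, if_neg h']; simp

theorem hbPow_eq (hn : 0 < n) {w : Cube n → ℝ} (hw : ∀ x, 0 < w x) (k : ℕ) (x y : Cube n) :
    hbPow w k x y = ((rc hn hw).P ^ k) x y := by
  induction k generalizing y with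
  | zero => simp [hbPow, one_apply]
  | succ k ih => rw [pow_succ, mul_apply, hbPow]; simp only [ih]; rfl

theorem hbCt_eq (hn : 0 < n) {w : Cube n → ℝ} (hw : ∀ x, 0 < w x) (t : ℝ) (x y : Cube n) :
    hbCt w t x y = (rc hn hw).H (n * t) x y := by
  simp only [hbCt, RC.H, poi, hbPow_eq hn hw]

theorem hb_ne {w : Cube n → ℝ} {x y : Cube n} (h : hb w x y ≠ 0) :
    ∃ i b, y = Function.update x i b := by
  by_contra hc
  refine h ?_
  rw [hb, sum_eq_zero, mul_zero]
  intro i _
  rw [if_neg]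
  intro h'
  exact hc ⟨i, y i, by rw [← upd_eq h', Function.update_eq_self]⟩

theorem mass_eq (w : Cube n → ℝ) (A : Set (Cube n)) :
    mass w A = Chain22.mean (prob w) (A.indicator 1) := by
  classical
  rw [mass, Chain22.mean, sum_filter]
  refine sum_congr rfl fun x _ => ?_
  by_cases hx : x ∈ A <;> simp [hx]

/-- a one-flip barrier of mass `≤ ε` separating two sets of mass `≤ 1/2` -/
def Bar (w : Cube n → ℝ) (ε : ℝ) : Prop :=
  ∃ A B : Set (Cube n), (∀ x ∈ A, ∀ i b, Function.update x i b ∉ B) ∧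
    mass w A ≤ 1 / 2 ∧ mass w B ≤ 1 / 2 ∧ mass w (A ∪ B)ᶜ ≤ ε

theorem Bar.mono {w : Cube n → ℝ} {ε ε' : ℝ} (h : Bar w ε) (hε : ε ≤ ε') : Bar w ε' := by
  obtain ⟨A, B, h1, h2, h3, h4⟩ := h
  exact ⟨A, B, h1, h2, h3, h4.trans hε⟩

theorem ind01 (A : Set (Cube n)) (x : Cube n) :
    A.indicator (1 : Cube n → ℝ) x = 0 ∨ A.indicator (1 : Cube n → ℝ) x = 1 := by
  by_cases hx : x ∈ A <;> simp [hx]

theorem Bar.mass_le (hn : 0 < n) {w : Cube n → ℝ} (hw : ∀ x, 0 < w x) {ε : ℝ} (h : Bar w ε)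
    {K : Matrix (Cube n) (Cube n) ℝ} (hK : ∀ x, IsP (K x)) {T : ℝ} (hT : 0 ≤ T)
    (hesc : ∀ a u : Cube n → ℝ, (∀ x, a x = 0 ∨ a x = 1) →
      (∀ x y, hb w x y ≠ 0 → a x * (1 - a y) ≤ u y) →
      ∑ x, prob w x * (a x * (1 - (K *ᵥ a) x)) ≤ T * Chain22.mean (prob w) u) :
    mass w {x | E.tv (K x) (prob w) ≤ 1 / 4} ≤ (8 * T + 1) * ε := by
  obtain ⟨A, B, h1, h2, h3, h4⟩ := h
  have hπ : IsP (prob w) := (rc hn hw).isP
  set S : Set (Cube n) := {x | E.tv (K x) (prob w) ≤ 1 / 4} with hS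
  have hs : ∀ x, S.indicator (1 : Cube n → ℝ) x = 0 ∨
      (S.indicator (1 : Cube n → ℝ) x = 1 ∧ Chain22.tv (K x) (prob w) ≤ 1 / 4) := fun x => by
    by_cases hx : x ∈ S
    · right; exact ⟨by simp [hx], hx⟩
    · left; simp [hx]
  rw [mass_eq] at h2 h3 h4 ⊢
  have h1' : ∀ x ∈ B, ∀ i b, Function.update x i b ∉ A := fun x hx i b hA =>
    h1 _ hA i (x i) (by simpa using hx)
  have key : ∀ C D : Set (Cube n), (∀ x ∈ C, ∀ i b, Function.update x i b ∉ D) →
      Chain22.mean (prob w) (C.indicator 1) ≤ 1 / 2 →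
      Chain22.mean (prob w) ((C ∪ D)ᶜ.indicator 1) ≤ ε →
      ∑ x, prob w x * (S.indicator 1 x * C.indicator 1 x) ≤ 4 * (T * ε) := by
    intro C D e1 e2 e3
    refine (side hπ hK (ind01 C) e2 hs).trans (mul_le_mul_of_nonneg_left ?_ (by norm_num))
    refine (hesc _ ((C ∪ D)ᶜ.indicator 1) (ind01 C) fun x y hxy => ?_).trans
      (mul_le_mul_of_nonneg_left e3 hT)
    obtain ⟨i, b, rfl⟩ := hb_ne hxy
    by_cases hx : x ∈ C
    · by_cases hy : Function.update x i b ∈ C
      · simp [hx, hy]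
      · simp [hx, hy, e1 x hx i b]
    · simp only [hx, not_false_eq_true, Set.indicator_of_notMem, zero_mul]
      rcases ind01 (C ∪ D)ᶜ (Function.update x i b) with e | e <;> rw [e] <;> norm_num
  have k1 := key A B h1 h2 h4
  have k2 := key B A h1' h3 (by rwa [Set.union_comm])
  have k3 : Chain22.mean (prob w) (S.indicator 1) ≤
      ∑ x, prob w x * (S.indicator 1 x * A.indicator 1 x) +
      ∑ x, prob w x * (S.indicator 1 x * B.indicator 1 x) +
      Chain22.mean (prob w) ((A ∪ B)ᶜ.indicator 1) := by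
    rw [Chain22.mean, Chain22.mean, ← sum_add_distrib, ← sum_add_distrib]
    refine sum_le_sum fun x _ => ?_
    rw [← mul_add, ← mul_add]
    refine mul_le_mul_of_nonneg_left ?_ (hπ.nn x)
    by_cases hx : x ∈ S <;> by_cases hA : x ∈ A <;> by_cases hB : x ∈ B <;> simp [hx, hA, hB]
  linarith

theorem Bar.disc (hn : 0 < n) {w : Cube n → ℝ} (hw : ∀ x, 0 < w x) {ε : ℝ} (h : Bar w ε)
    (k : ℕ) : mass w {x | E.tv (hbPow w k x) (prob w) ≤ 1 / 4} ≤ (8 * k + 1) * ε := by
  have e : hbPow w k = (rc hn hw).P ^ k := funext₂ (hbPow_eq hn hw k)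
  rw [e]
  exact h.mass_le hn hw ((rc hn hw).pow k).isP_row (Nat.cast_nonneg k)
    fun a u ha hau => esc (rc hn hw) ha hau k

theorem Bar.cont (hn : 0 < n) {w : Cube n → ℝ} (hw : ∀ x, 0 < w x) {ε : ℝ} (h : Bar w ε)
    {t : ℝ} (ht : 0 ≤ t) :
    mass w {x | E.tv (hbCt w t x) (prob w) ≤ 1 / 4} ≤ (8 * (n * t) + 1) * ε := by
  have e : hbCt w t = (rc hn hw).H (n * t) := funext₂ (hbCt_eq hn hw t)
  have ht' : 0 ≤ (n : ℝ) * t := by positivity
  rw [e]
  exact h.mass_le hn hw ((rc hn hw).heat _ ht').isP_row ht'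
    fun a u ha hau => esc_H (rc hn hw) ha hau ht'

/-- global spin flip -/
def neg (x : Cube n) : Cube n := fun i => !x i

theorem neg_neg' (x : Cube n) : neg (neg x) = x := by funext i; simp [neg]

theorem sv_neg (x : Cube n) : sv (neg x) = -sv x := by funext i; simp [sv, neg, spin_not]

theorem mass_neg {w : Cube n → ℝ} (hs : ∀ x, w (neg x) = w x) (A : Set (Cube n)) :
    mass w (neg ⁻¹' A) = mass w A := by
  rw [mass_eq, mass_eq, Chain22.mean, Chain22.mean,
    ← Equiv.sum_comp (Function.Involutive.toPerm neg neg_neg')]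
  refine sum_congr rfl fun x _ => ?_
  simp only [Function.Involutive.coe_toPerm, prob, hs]
  by_cases hx : x ∈ A
  · simp [hx, neg_neg']
  · simp [hx, neg_neg']

theorem gibbs_neg (β : ℝ) (g : Pair n → ℝ) (x : Cube n) :
    gibbsWeight n β g (neg x) = gibbsWeight n β g x := by
  simp only [gibbsWeight, neg, spin_not]
  congr 1
  exact sum_congr rfl fun p _ => by ring


/-- a slab `|σ·v| ≤ a` with `a ≥ ‖v‖_∞` is a barrier for a symmetric weight -/
theorem bar_of_vec {w : Cube n → ℝ} (hw : ∀ x, 0 < w x) (hs : ∀ x, w (neg x) = w x)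
    (v : Fin n → ℝ) {a ε : ℝ} (ha0 : 0 ≤ a) (ha : ∀ i, |v i| ≤ a)
    (h : mass w {x | |sv x ⬝ᵥ v| ≤ a} ≤ ε) : Bar w ε := by
  have hπ : IsP (prob w) := ⟨fun x => (div_pos (hw x) (sum_pos (fun y _ => hw y)
    univ_nonempty)).le, by
      simp only [prob]
      rw [← sum_div, div_self (sum_pos (fun y _ => hw y) univ_nonempty).ne']⟩
  set A : Set (Cube n) := {x | a < sv x ⬝ᵥ v} with hA
  have hm := mass_neg hs A
  have hsum : mass w A + mass w (neg ⁻¹' A) ≤ 1 := by
    rw [mass_eq, mass_eq, ← Chain22.mean_add, ← hπ.mean_const 1]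
    refine hπ.mean_mono fun x => ?_
    by_cases h1 : x ∈ A
    · have h2 : x ∉ neg ⁻¹' A := by
        simp only [hA, Set.mem_preimage, Set.mem_ofPred_eq, sv_neg, neg_dotProduct] at h1 ⊢
        linarith
      simp [h1, h2]
    · rcases ind01 (neg ⁻¹' A) x with e | e <;> simp [h1, e]
  refine ⟨A, neg ⁻¹' A, fun x hx i b hy => ?_, by linarith, by linarith, ?_⟩
  · simp only [hA, Set.mem_preimage, Set.mem_ofPred_eq, sv_neg, neg_dotProduct] at hx hy
    have e : sv x ⬝ᵥ v - sv (Function.update x i b) ⬝ᵥ v = (spin (x i) - spin b) * v i := by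
      rw [← sub_dotProduct, dotProduct, sum_eq_single i]
      · simp [sv]
      · intro j _ hj; simp [sv, Function.update_of_ne hj]
      · simp
    have e2 : (spin (x i) - spin b) * v i ≤ 2 * a := by
      have := ha i
      rw [abs_le] at this
      cases x i <;> cases b <;> simp [spin] <;> linarith
    linarith
  · convert h using 2
    ext x
    simp only [hA, Set.mem_compl_iff, Set.mem_union, Set.mem_ofPred_eq, Set.mem_preimage, sv_neg,
      neg_dotProduct, abs_le, not_or, not_lt]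
    constructor <;> rintro ⟨h1, h2⟩ <;> constructor <;> linarith

theorem measurable_mass {X : Type*} [MeasurableSpace X] {w : X → Cube n → ℝ}
    (hw : ∀ x, Measurable fun g => w g x) (A : Set (Cube n)) :
    Measurable fun g => mass (w g) A := by
  simp only [mass, prob]
  exact Finset.measurable_sum _ fun x _ => (hw x).div (Finset.measurable_sum _ fun y _ => hw y)

theorem measurableSet_bar {X : Type*} [MeasurableSpace X] {w : X → Cube n → ℝ}
    (hw : ∀ x, Measurable fun g => w g x) (ε : ℝ) : MeasurableSet {g | Bar (w g) ε} := by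
  simp only [Bar, Set.ofPred_exists]
  refine MeasurableSet.iUnion fun A => MeasurableSet.iUnion fun B => ?_
  simp only [Set.ofPred_and]
  exact (MeasurableSet.const _).inter ((measurableSet_le (measurable_mass hw A)
    measurable_const).inter ((measurableSet_le (measurable_mass hw B) measurable_const).inter
    (measurableSet_le (measurable_mass hw _) measurable_const)))

theorem measurable_gibbs (β : ℝ) (x : Cube n) : Measurable fun g => gibbsWeight n β g x := by
  unfold gibbsWeight; fun_prop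

/-- with high probability the low-temperature Gibbs measure has a barrier of mass `e^{-n^c}` -/
def BarStmt : Prop :=
  ∀ β : ℝ, 1 < β → ∃ c : ℝ, 1 / 10000 < c ∧
    Tendsto (fun n : ℕ => disorderLaw n
      {g | ¬ Bar (gibbsWeight n β g) (Real.exp (-(n : ℝ) ^ c))}) atTop (nhds 0)

theorem small {a c : ℝ} (ha : 0 < a) (hc : a < c) :
    Tendsto (fun n : ℕ => (8 * (n * Real.exp ((n : ℝ) ^ a)) + 1) * Real.exp (-(n : ℝ) ^ c))
      atTop (nhds 0) := by
  have h1 : Tendsto (fun n : ℕ => (n : ℝ) ^ a) atTop atTop :=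
    (tendsto_rpow_atTop ha).comp tendsto_natCast_atTop_atTop
  have h2 : Tendsto (fun n : ℕ => (n : ℝ) ^ (c - a)) atTop atTop :=
    (tendsto_rpow_atTop (sub_pos.2 hc)).comp tendsto_natCast_atTop_atTop
  have h3 := ((tendsto_rpow_mul_exp_neg_mul_atTop_nhds_zero (1 / a) 1 one_pos).comp h1).const_mul 9
  rw [mul_zero] at h3
  refine squeeze_zero' (Eventually.of_forall fun n => by positivity) ?_ h3
  filter_upwards [h2.eventually_ge_atTop 2, eventually_ge_atTop 1] with n hn hn1
  have hn0 : (1 : ℝ) ≤ n := by exact_mod_cast hn1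
  have e1 : ((n : ℝ) ^ a) ^ (1 / a) = n := by
    rw [← Real.rpow_mul (by linarith), mul_one_div_cancel ha.ne', Real.rpow_one]
  have e2 : (n : ℝ) ^ c = (n : ℝ) ^ (c - a) * (n : ℝ) ^ a := by
    rw [← Real.rpow_add (by linarith)]; ring_nf
  have p : 0 ≤ (n : ℝ) ^ a := by positivity
  have e3 : Real.exp (-(n : ℝ) ^ c) ≤ Real.exp (-(2 * (n : ℝ) ^ a)) := by
    rw [Real.exp_le_exp, e2]; nlinarith
  have e4 : 1 ≤ (n : ℝ) * Real.exp ((n : ℝ) ^ a) :=
    one_le_mul_of_one_le_of_one_le hn0 (Real.one_le_exp p)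
  have e5 : Real.exp ((n : ℝ) ^ a) * Real.exp (-(2 * (n : ℝ) ^ a)) =
      Real.exp (-1 * (n : ℝ) ^ a) := by rw [← Real.exp_add]; ring_nf
  simp only [Function.comp, e1]
  calc (8 * (n * Real.exp ((n : ℝ) ^ a)) + 1) * Real.exp (-(n : ℝ) ^ c)
      ≤ (9 * (n * Real.exp ((n : ℝ) ^ a))) * Real.exp (-(2 * (n : ℝ) ^ a)) :=
        mul_le_mul (by linarith) e3 (Real.exp_pos _).le (by positivity)
    _ = 9 * (n * Real.exp (-1 * (n : ℝ) ^ a)) := by rw [← e5]; ring

/-- first part of S0231 from the barrier statement -/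
theorem lower_cont (h : BarStmt) (β : ℝ) (hβ : 1 < β) (η : ℝ) (hη : 0 < η) :
    Tendsto (fun n : ℕ => disorderLaw n {g | η ≤ gibbsMass n β g
      {x | stateTV n β g (Real.exp ((n : ℝ) ^ (1 / 10000 : ℝ))) x ≤ 1 / 4}}) atTop (nhds 0) := by
  obtain ⟨c, hc, h⟩ := h β hβ
  refine tendsto_of_tendsto_of_tendsto_of_le_of_le' tendsto_const_nhds h
    (Eventually.of_forall fun _ => bot_le) ?_
  filter_upwards [(small (by norm_num) hc).eventually (gt_mem_nhds hη), eventually_gt_atTop 0]
    with n hn hn0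
  refine measure_mono fun g hg hb => ?_
  have := hb.cont hn0 (gibbsWeight_pos β g) (Real.exp_pos ((n : ℝ) ^ (1 / 10000 : ℝ))).le
  simp only [Set.mem_ofPred_eq, gibbsMass_eq, stateTV_eq] at hg
  linarith

/-- second part of S0231 from the barrier statement -/
theorem lower_disc (h : BarStmt) (β : ℝ) (hβ : 1 < β) (η : ℝ) (hη : 0 < η) :
    Tendsto (fun n : ℕ => disorderLaw n {g | η ≤ gibbsMass n β g
      {x | stateTVdisc n β g ⌊Real.exp ((n : ℝ) ^ (1 / 10000 : ℝ))⌋₊ x ≤ 1 / 4}})
      atTop (nhds 0) := by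
  obtain ⟨c, hc, h⟩ := h β hβ
  refine tendsto_of_tendsto_of_tendsto_of_le_of_le' tendsto_const_nhds h
    (Eventually.of_forall fun _ => bot_le) ?_
  filter_upwards [(small (by norm_num) hc).eventually (gt_mem_nhds hη), eventually_gt_atTop 0]
    with n hn hn0
  refine measure_mono fun g hg hb => ?_
  have := hb.disc hn0 (gibbsWeight_pos β g) ⌊Real.exp ((n : ℝ) ^ (1 / 10000 : ℝ))⌋₊
  simp only [Set.mem_ofPred_eq, gibbsMass_eq, stateTVdisc_eq] at hg
  have h1 : (⌊Real.exp ((n : ℝ) ^ (1 / 10000 : ℝ))⌋₊ : ℝ) ≤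
      n * Real.exp ((n : ℝ) ^ (1 / 10000 : ℝ)) := by
    have hn1 : (1 : ℝ) ≤ n := by exact_mod_cast hn0
    have := Nat.floor_le (Real.exp_pos ((n : ℝ) ^ (1 / 10000 : ℝ))).le
    nlinarith [Real.exp_pos ((n : ℝ) ^ (1 / 10000 : ℝ))]
  nlinarith [Real.exp_pos (-(n : ℝ) ^ c)]

end Crest.Agent.T157.Bar
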