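import Mathlib
import Crest.Agent.T157.CutDef_54
import Crest.Agent.T157.Bar_33
import Crest.Agent.T157.ConcG_16
import Crest.Agent.T157.CondA_53

-- ▼ part T157/ExpA_54
section

/-!
Row 157, part D (helper54): expander decomposition of a weighted finite graph (vertex boundaries)
and random unions of clusters.
-/

set_option autoImplicit false

noncomputable section

namespace Crest.Agent.T157.Exp

open Finset
open scoped Classical

variable {Ω : Type*}

/-- weight of a finite set -/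
def ms (p : Ω → ℝ) (A : Finset Ω) : ℝ := ∑ x ∈ A, p x

/-- boundary of `A` inside `V` -/
def ib (adj : Ω → Ω → Prop) (V A : Finset Ω) : Finset Ω :=
  V.filter fun x => ∃ y ∈ V, adj x y ∧ ¬ (x ∈ A ↔ y ∈ A)

/-- `V` is a `φ`-expander -/
def Ex (adj : Ω → Ω → Prop) (p : Ω → ℝ) (φ : ℝ) (V : Finset Ω) : Prop :=
  ∀ A ⊆ V, ms p A ≤ ms p V / 2 → φ * ms p A ≤ ms p (ib adj V A)

/-- points of `V` with a neighbour in `V` carrying another label -/
def lb (adj : Ω → Ω → Prop) (V : Finset Ω) (l : Ω → Finset Ω) : Finset Ω :=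
  V.filter fun x => ∃ y ∈ V, adj x y ∧ l x ≠ l y

variable {adj : Ω → Ω → Prop} {p : Ω → ℝ} {φ : ℝ}

theorem ms_nonneg (hp : ∀ x, 0 < p x) (A : Finset Ω) : 0 ≤ ms p A :=
  sum_nonneg fun x _ => (hp x).le

theorem ms_mono (hp : ∀ x, 0 < p x) {A B : Finset Ω} (h : A ⊆ B) : ms p A ≤ ms p B :=
  sum_le_sum_of_subset_of_nonneg h fun x _ _ => (hp x).le

theorem ms_union_le [DecidableEq Ω] (hp : ∀ x, 0 < p x) (A B : Finset Ω) : ms p (A ∪ B) ≤ ms p A + ms p B := by
  have h := sum_union_inter (s₁ := A) (s₂ := B) (f := p)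
  have := ms_nonneg hp (A ∩ B)
  simp only [ms] at *
  linarith

theorem ms_sdiff [DecidableEq Ω] {A V : Finset Ω} (h : A ⊆ V) : ms p (V \ A) + ms p A = ms p V := sum_sdiff h

theorem le_ms (hp : ∀ x, 0 < p x) {A : Finset Ω} {x : Ω} (hx : x ∈ A) : p x ≤ ms p A :=
  single_le_sum (fun y _ => (hp y).le) hx

/-- expander decomposition -/
theorem decomp (hp : ∀ x, 0 < p x) (hφ : 0 ≤ φ) (V : Finset Ω) :
    ∃ l : Ω → Finset Ω, (∀ x ∈ V, x ∈ l x ∧ l x ⊆ V ∧ (∀ y ∈ l x, l y = l x) ∧ Ex adj p φ (l x)) ∧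
      ms p (lb adj V l) ≤ 2 * φ * ∑ x ∈ V, p x * Real.log (ms p V / p x) := by
  induction V using Finset.strongInduction with
  | H V ih =>
  have hlog : ∀ W : Finset Ω, ∀ x ∈ W, 0 ≤ p x * Real.log (ms p W / p x) := fun W x hx =>
    mul_nonneg (hp x).le (Real.log_nonneg ((one_le_div (hp x)).2 (le_ms hp hx)))
  by_cases hV : Ex adj p φ V
  · refine ⟨fun _ => V, fun x hx => ⟨hx, subset_rfl, fun _ _ => rfl, hV⟩, ?_⟩
    have : lb adj V (fun _ => V) = ∅ := by simp [lb]
    rw [this, ms, sum_empty]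
    exact mul_nonneg (by positivity) (sum_nonneg (hlog V))
  simp only [Ex, not_forall, not_le] at hV
  obtain ⟨A, hAV, hA, hcut⟩ := hV
  have hA0 : 0 < ms p A := by
    by_contra h
    have h1 : ms p A = 0 := le_antisymm (not_lt.1 h) (ms_nonneg hp A)
    rw [h1, mul_zero] at hcut
    exact absurd hcut (not_lt.2 (ms_nonneg hp _))
  have hAne : A.Nonempty := by
    rw [nonempty_iff_ne_empty]
    rintro rfl
    simp [ms] at hA0
  have hAlt : A ⊂ V := by
    refine Finset.ssubset_iff_subset_ne.2 ⟨hAV, ?_⟩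
    rintro rfl
    linarith
  have hBlt : V \ A ⊂ V := sdiff_ssubset hAV hAne
  obtain ⟨l1, h1, c1⟩ := ih A hAlt
  obtain ⟨l2, h2, c2⟩ := ih (V \ A) hBlt
  refine ⟨fun x => if x ∈ A then l1 x else l2 x, fun x hx => ?_, ?_⟩
  · by_cases hxA : x ∈ A
    · obtain ⟨a1, a2, a3, a4⟩ := h1 x hxA
      simp only [if_pos hxA]
      exact ⟨a1, a2.trans hAV, fun y hy => by rw [if_pos (a2 hy), a3 y hy], a4⟩
    · obtain ⟨a1, a2, a3, a4⟩ := h2 x (mem_sdiff.2 ⟨hx, hxA⟩)
      simp only [if_neg hxA]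
      exact ⟨a1, a2.trans sdiff_subset,
        fun y hy => by rw [if_neg (mem_sdiff.1 (a2 hy)).2, a3 y hy], a4⟩
  have hsub : lb adj V (fun x => if x ∈ A then l1 x else l2 x) ⊆
      ib adj V A ∪ (lb adj A l1 ∪ lb adj (V \ A) l2) := by
    intro x hx
    simp only [lb, mem_filter] at hx
    obtain ⟨hxV, y, hyV, hxy, hne⟩ := hx
    simp only [mem_union, ib, lb, mem_filter, mem_sdiff]
    by_cases hxA : x ∈ A <;> by_cases hyA : y ∈ A
    · rw [if_pos hxA, if_pos hyA] at hne
      exact Or.inr (Or.inl ⟨hxA, y, hyA, hxy, hne⟩)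
    · exact Or.inl ⟨hxV, y, hyV, hxy, by simp [hxA, hyA]⟩
    · exact Or.inl ⟨hxV, y, hyV, hxy, by simp [hxA, hyA]⟩
    · rw [if_neg hxA, if_neg hyA] at hne
      exact Or.inr (Or.inr ⟨⟨hxV, hxA⟩, y, ⟨hyV, hyA⟩, hxy, hne⟩)
  have hV0 : 0 < ms p V := by linarith
  have e1 : ∑ x ∈ A, p x * Real.log (ms p A / p x) + ms p A / 2 ≤
      ∑ x ∈ A, p x * Real.log (ms p V / p x) := by
    rw [ms, sum_div, ← sum_add_distrib]
    refine sum_le_sum fun x _ => ?_
    have hx := hp x
    have a1 : Real.log (2 * (ms p A / p x)) ≤ Real.log (ms p V / p x) :=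
      Real.log_le_log (by positivity) (by
        rw [← mul_div_assoc]; exact div_le_div_of_nonneg_right (by linarith) hx.le)
    rw [Real.log_mul (by norm_num) (by positivity)] at a1
    have a2 := Real.log_two_gt_d9
    have a3 : Real.log (ms p A / p x) + 1 / 2 ≤ Real.log (ms p V / p x) := by linarith
    have := mul_le_mul_of_nonneg_left a3 hx.le
    simp only [ms] at this ⊢
    linarith
  have e2 : ∑ x ∈ V \ A, p x * Real.log (ms p (V \ A) / p x) ≤
      ∑ x ∈ V \ A, p x * Real.log (ms p V / p x) := by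
    refine sum_le_sum fun x hx => mul_le_mul_of_nonneg_left ?_ (hp x).le
    exact Real.log_le_log (div_pos ((hp x).trans_le (le_ms hp hx)) (hp x))
      (div_le_div_of_nonneg_right (ms_mono hp sdiff_subset) (hp x).le)
  have e3 := sum_sdiff (f := fun x => p x * Real.log (ms p V / p x)) hAV
  have e4 := ms_mono hp hsub
  have e5 := ms_union_le hp (ib adj V A) (lb adj A l1 ∪ lb adj (V \ A) l2)
  have e6 := ms_union_le hp (lb adj A l1) (lb adj (V \ A) l2)
  have e7 := mul_le_mul_of_nonneg_left e1 (by positivity : 0 ≤ 2 * φ)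
  have e8 := mul_le_mul_of_nonneg_left e2 (by positivity : 0 ≤ 2 * φ)
  rw [← e3]
  nlinarith

theorem entropy_le [Fintype Ω] (hp : ∀ x, 0 < p x) (h1 : ∑ x, p x = 1) :
    ∑ x, p x * Real.log (ms p univ / p x) ≤ Real.log (Fintype.card Ω) := by
  have hne : Nonempty Ω := by
    by_contra h
    rw [not_nonempty_iff] at h
    simp at h1
  have hN : (0 : ℝ) < Fintype.card Ω := by exact_mod_cast Fintype.card_pos
  have e : ∀ x, p x * Real.log (ms p univ / p x) ≤
      p x * Real.log (Fintype.card Ω) + (1 / Fintype.card Ω - p x) := by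
    intro x
    have hx := hp x
    have a1 : Real.log (1 / (Fintype.card Ω * p x)) ≤ 1 / (Fintype.card Ω * p x) - 1 :=
      Real.log_le_sub_one_of_pos (by positivity)
    rw [ms, h1, Real.log_div one_ne_zero hx.ne', Real.log_one]
    rw [Real.log_div one_ne_zero (by positivity), Real.log_one,
      Real.log_mul hN.ne' hx.ne'] at a1
    have a2 := mul_le_mul_of_nonneg_left a1 hx.le
    have a3 : p x * (1 / (Fintype.card Ω * p x) - 1) = 1 / Fintype.card Ω - p x := by field_simp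
    rw [a3] at a2
    linarith
  refine (sum_le_sum fun x _ => e x).trans (le_of_eq ?_)
  rw [sum_add_distrib, ← sum_mul, h1, sum_sub_distrib, h1, sum_const, card_univ, nsmul_eq_mul]
  field_simp
  ring

/-! ### random unions -/

section union
variable {κ : Type*} [Fintype κ] [DecidableEq κ]

/-- sign of a Boolean -/
def sg (b : Bool) : ℝ := if b then 1 else -1

theorem sg_not (b : Bool) : sg (!b) = -sg b := by cases b <;> simp [sg]

theorem sg_mul_self (b : Bool) : sg b * sg b = 1 := by cases b <;> simp [sg]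

theorem sum_sg_mul {a b : κ} (h : a ≠ b) : ∑ s : κ → Bool, sg (s a) * sg (s b) = 0 := by
  have hinv : Function.Involutive fun s : κ → Bool => Function.update s a (!s a) := by
    intro s
    funext k
    by_cases hk : k = a
    · subst hk; simp
    · simp [Function.update_of_ne hk]
  have e := Equiv.sum_comp hinv.toPerm fun s : κ → Bool => sg (s a) * sg (s b)
  simp only [Function.Involutive.coe_toPerm, Function.update_self, Function.update_of_ne h.symm,
    sg_not, neg_mul, sum_neg_distrib] at e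
  linarith

variable [Fintype Ω]

/-- if no label class has mass above `1 - a`, a fraction `a/2` of the unions of classes is
balanced -/
theorem union_count {q : Ω → ℝ} (hq : ∀ x, 0 ≤ q x) (h1 : ∑ x, q x = 1) (l : Ω → κ) {a : ℝ}
    (ha : 0 ≤ a) (h : ∀ x, ∑ y ∈ univ.filter (fun y => l y = l x), q y ≤ 1 - a) :
    a / 2 * Fintype.card (κ → Bool) ≤
      ((univ.filter fun s : κ → Bool => a / 8 ≤ ∑ x ∈ univ.filter (fun x => s (l x) = true), q x ∧
        a / 8 ≤ ∑ x ∈ univ.filter (fun x => ¬ s (l x) = true), q x).card : ℝ) := by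
  set M : (κ → Bool) → ℝ := fun s => ∑ x, q x * sg (s (l x)) with hM
  have e1 : ∑ s, M s ^ 2 ≤ (1 - a) * Fintype.card (κ → Bool) := by
    have a1 : ∀ s, M s ^ 2 = ∑ x, ∑ y, q x * q y * (sg (s (l x)) * sg (s (l y))) := by
      intro s
      rw [sq, hM, sum_mul_sum]
      exact sum_congr rfl fun x _ => sum_congr rfl fun y _ => by ring
    have a2 : ∀ x y, ∑ s : κ → Bool, q x * q y * (sg (s (l x)) * sg (s (l y))) =
        q x * ((if l y = l x then q y else 0) * Fintype.card (κ → Bool)) := by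
      intro x y
      rw [← mul_sum]
      by_cases hxy : l y = l x
      · simp only [hxy, sg_mul_self, sum_const, card_univ, nsmul_eq_mul, mul_one, if_true]; ring
      · rw [sum_sg_mul (Ne.symm hxy), if_neg hxy]; ring
    simp only [a1]
    rw [sum_comm]
    have a3 : ∀ x, ∑ s : κ → Bool, ∑ y, q x * q y * (sg (s (l x)) * sg (s (l y))) ≤
        q x * ((1 - a) * Fintype.card (κ → Bool)) := by
      intro x
      rw [sum_comm]
      simp only [a2]
      rw [← mul_sum, ← sum_mul, ← sum_filter]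
      exact mul_le_mul_of_nonneg_left (mul_le_mul_of_nonneg_right (h x) (Nat.cast_nonneg _)) (hq x)
    refine (sum_le_sum fun x _ => a3 x).trans (le_of_eq ?_)
    rw [← sum_mul, h1, one_mul]
  have e2 : ∀ s : κ → Bool, 1 - M s ^ 2 ≤ a / 2 +
      if (a / 8 ≤ ∑ x ∈ univ.filter (fun x => s (l x) = true), q x ∧
        a / 8 ≤ ∑ x ∈ univ.filter (fun x => ¬ s (l x) = true), q x) then 1 else 0 := by
    intro s
    split_ifs with hs
    · nlinarith [sq_nonneg (M s)]
    set u := ∑ x ∈ univ.filter (fun x => s (l x) = true), q x with hu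
    set v := ∑ x ∈ univ.filter (fun x => ¬ s (l x) = true), q x with hv
    have b1 : u + v = 1 := by rw [hu, hv, sum_filter_add_sum_filter_not, h1]
    have b2 : M s = u - v := by
      rw [hu, hv, sum_filter, sum_filter, ← sum_sub_distrib]
      refine sum_congr rfl fun x _ => ?_
      cases s (l x) <;> simp [sg]
    have b3 : 0 ≤ u := sum_nonneg fun x _ => hq x
    have b4 : 0 ≤ v := sum_nonneg fun x _ => hq x
    have b5 : 1 - M s ^ 2 = 4 * (u * v) := by
      rw [b2]; nlinarith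
    rw [b5]
    rcases not_and_or.1 hs with h' | h'
    · nlinarith [not_le.1 h']
    · nlinarith [not_le.1 h']
  have e3 := sum_le_sum fun s (_ : s ∈ (univ : Finset (κ → Bool))) => e2 s
  rw [sum_sub_distrib, sum_add_distrib, sum_boole] at e3
  simp only [sum_const, card_univ, nsmul_eq_mul, mul_one] at e3
  linarith

end union

end Crest.Agent.T157.Exp

end
end

-- ▼ part T157/Exp_54
section

/-!
Row 157, part D (helper54): `Cut0Stmt → CutStmt`.
-/

set_option autoImplicit false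

noncomputable section

namespace Crest.Agent.T157.Exp

open Finset MeasureTheory ProbabilityTheory Filter
open Crest.ProbabilityR.SpinGlassDynamics Crest.Agent.T157.E Crest.Agent.T157.Cut
open scoped Classical ENNReal

variable {n : ℕ}

theorem mass_ms (w : Cube n → ℝ) (A : Set (Cube n)) :
    mass w A = ms (prob w) (univ.filter (· ∈ A)) := by
  unfold mass ms
  congr

theorem prob_pos {w : Cube n → ℝ} (hw : ∀ x, 0 < w x) (x : Cube n) : 0 < prob w x :=
  div_pos (hw x) (sum_pos (fun y _ => hw y) univ_nonempty)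

theorem sum_prob {w : Cube n → ℝ} (hw : ∀ x, 0 < w x) : ∑ x, prob w x = 1 := by
  simp only [prob]
  rw [← sum_div, div_self (sum_pos (fun y _ => hw y) univ_nonempty).ne']

theorem prob_le {w v : Cube n → ℝ} (hw : ∀ x, 0 < w x) (hv : ∀ x, 0 < v x) {K : ℝ} (hK : 0 < K)
    (h1 : ∀ x, w x ≤ K * v x) (h2 : ∀ x, v x ≤ K * w x) (x : Cube n) :
    prob w x ≤ K ^ 2 * prob v x := by
  have a1 : ∑ y, v y ≤ K * ∑ y, w y := by rw [mul_sum]; exact sum_le_sum fun y _ => h2 y
  have a2 : 0 < ∑ y, v y := sum_pos (fun y _ => hv y) univ_nonempty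
  have a3 : 0 < ∑ y, w y := sum_pos (fun y _ => hw y) univ_nonempty
  rw [prob, prob, ← mul_div_assoc, div_le_div_iff₀ a3 a2]
  calc w x * ∑ y, v y ≤ (K * v x) * (K * ∑ y, w y) :=
        mul_le_mul (h1 x) a1 a2.le (mul_nonneg hK.le (hv x).le)
    _ = _ := by ring

theorem ms_le {p q : Cube n → ℝ} {K : ℝ} (h : ∀ x, p x ≤ K * q x) (A : Finset (Cube n)) :
    ms p A ≤ K * ms q A := by
  rw [ms, ms, mul_sum]; exact sum_le_sum fun x _ => h x

/-- adjacency of the cube -/
def adj (x y : Cube n) : Prop := ∃ i b, y = Function.update x i b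

/-- a large expanding cluster forbids cuts -/
theorem noCut_of_cluster {w v : Cube n → ℝ} (hw : ∀ x, 0 < w x) (hv : ∀ x, 0 < v x) {K φ d0 : ℝ}
    (hK : 0 < K) (hφ : 0 ≤ φ) (h1 : ∀ x, prob w x ≤ K * prob v x)
    (h2 : ∀ x, prob v x ≤ K * prob w x) {V : Finset (Cube n)} (hV : Ex adj (prob v) φ V)
    (hm : 1 - d0 / 2 ≤ ms (prob w) V) : NoCut w d0 (φ * d0 / (2 * K ^ 2)) := by
  have key : ∀ A : Set (Cube n), d0 ≤ mass w A →
      ms (prob v) (V.filter (· ∈ A)) ≤ ms (prob v) V / 2 → φ * d0 / (2 * K ^ 2) ≤ mass w (bd A) := by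
    intro A hA hh
    have a1 := hV _ (filter_subset _ _) hh
    have a2 : ib adj V (V.filter (· ∈ A)) ⊆ univ.filter (· ∈ bd A) := by
      intro x hx
      simp only [ib, mem_filter, adj] at hx
      obtain ⟨hx, y, hy, ⟨i, b, rfl⟩, hne⟩ := hx
      simp only [mem_filter, mem_univ, true_and, bd, Set.mem_ofPred_eq]
      exact ⟨i, b, by simpa [hx, hy] using hne⟩
    have a3 := (ms_mono (prob_pos hv) a2).trans (ms_le h2 _)
    have a4 : univ.filter (· ∈ A) ⊆ V.filter (· ∈ A) ∪ (univ \ V) := by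
      intro x hx
      by_cases hxV : x ∈ V <;> simp_all
    have a5 := (ms_mono (prob_pos hw) a4).trans (ms_union_le (prob_pos hw) _ _)
    have a6 := ms_sdiff (p := prob w) (subset_univ V)
    have a7 : ms (prob w) univ = 1 := sum_prob hw
    have a8 := ms_le h1 (V.filter (· ∈ A))
    rw [mass_ms] at hA ⊢
    have a9 : d0 / 2 ≤ K * ms (prob v) (V.filter (· ∈ A)) := by linarith
    rw [div_le_iff₀ (by positivity)]
    have b1 := mul_le_mul_of_nonneg_left a9 hφ
    have b2 := mul_le_mul_of_nonneg_left (a1.trans a3) hK.le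
    nlinarith
  intro A hA hA'
  have e := sum_filter_add_sum_filter_not V (· ∈ A) (prob v)
  by_cases h : ms (prob v) (V.filter (· ∈ A)) ≤ ms (prob v) V / 2
  · exact key A hA h
  · rw [← bd_compl]
    refine key Aᶜ hA' ?_
    have h' : ms (prob v) (V.filter (fun x => ¬ x ∈ A)) ≤ ms (prob v) V / 2 := by
      simp only [ms] at h ⊢
      linarith [not_le.1 h]
    convert h' using 2
    ext x; simp

/-- the deterministic core: a finite family of sets with small `v`-boundary, a positive fraction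
of which is balanced for every comparable weight with a cut -/
theorem family {v : Cube n → ℝ} (hv : ∀ x, 0 < v x) {φ : ℝ} (hφ : 0 ≤ φ) :
    ∃ B : (Finset (Cube n) → Bool) → Set (Cube n), (∀ s, mass v (bd (B s)) ≤ 2 * φ * n) ∧
      ∀ (w : Cube n → ℝ) (K d0 : ℝ), (∀ x, 0 < w x) → 0 < K → 0 ≤ d0 →
        (∀ x, prob w x ≤ K * prob v x) → (∀ x, prob v x ≤ K * prob w x) →
        ¬ NoCut w d0 (φ * d0 / (2 * K ^ 2)) →
        d0 / 4 * Fintype.card (Finset (Cube n) → Bool) ≤ ((univ.filter fun s =>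
          d0 / 16 ≤ mass w (B s) ∧ d0 / 16 ≤ mass w (B s)ᶜ).card : ℝ) := by
  obtain ⟨l, hl, hc⟩ := decomp (adj := adj) (prob_pos hv) hφ (univ : Finset (Cube n))
  refine ⟨fun s => {x | s (l x) = true}, fun s => ?_, fun w K d0 hw hK hd h1 h2 hn => ?_⟩
  · have a1 : univ.filter (· ∈ bd {x | s (l x) = true}) ⊆ lb adj univ l := by
      intro x hx
      simp only [mem_filter, mem_univ, true_and, bd, Set.mem_ofPred_eq] at hx
      obtain ⟨i, b, h⟩ := hx
      simp only [lb, mem_filter, mem_univ, true_and]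
      exact ⟨_, ⟨i, b, rfl⟩, fun e => h (by rw [e])⟩
    rw [mass_ms]
    refine (ms_mono (prob_pos hv) a1).trans (hc.trans ?_)
    refine mul_le_mul_of_nonneg_left ((entropy_le (prob_pos hv) (sum_prob hv)).trans ?_)
      (by positivity)
    have : (Fintype.card (Cube n) : ℝ) = 2 ^ n := by simp
    rw [this, Real.log_pow]
    have := Real.log_two_lt_d9
    have h0 : (0 : ℝ) ≤ n := Nat.cast_nonneg n
    nlinarith
  · have a1 : ∀ x, ∑ y ∈ univ.filter (fun y => l y = l x), prob w y ≤ 1 - d0 / 2 := by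
      intro x
      obtain ⟨-, -, -, b4⟩ := hl x (mem_univ x)
      have b5 : univ.filter (fun y => l y = l x) ⊆ l x := fun y hy => by
        rw [← (mem_filter.1 hy).2]; exact (hl y (mem_univ y)).1
      refine (ms_mono (prob_pos hw) b5).trans (not_lt.1 fun h => hn ?_)
      exact noCut_of_cluster hw hv hK hφ h1 h2 b4 h.le
    have a2 := union_count (fun x => (prob_pos hw x).le) (sum_prob hw) l (a := d0 / 2) (by positivity) a1
    have e1 : d0 / 2 / 2 = d0 / 4 := by ring
    have e2 : d0 / 2 / 8 = d0 / 16 := by ring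
    rw [e1, e2] at a2
    convert a2 using 4 with s
    simp only [mass_ms, ms, Set.mem_ofPred_eq, Set.mem_compl_iff]

/-! ### Gaussian inputs -/

theorem mp_mix {ι : Type*} [Fintype ι] {d : ℝ} (h0 : 0 ≤ d) (h1 : d ≤ 1) :
    MeasurePreserving (fun p : (ι → ℝ) × (ι → ℝ) => Real.sqrt (1 - d) • p.1 + Real.sqrt d • p.2)
      ((gv ι).prod (gv ι)) (gv ι) := by
  refine ⟨by fun_prop, ?_⟩
  have := Cond.ext_vec (μ := (gv ι).prod (gv ι)) (ν := gv ι)
    (X := fun p : (ι → ℝ) × (ι → ℝ) => Real.sqrt (1 - d) • p.1 + Real.sqrt d • p.2) (Y := id)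
    (by fun_prop) measurable_id fun t => by
      have e : (fun p : (ι → ℝ) × (ι → ℝ) => t ⬝ᵥ (Real.sqrt (1 - d) • p.1 + Real.sqrt d • p.2)) =
          fun p => (Real.sqrt (1 - d) • t) ⬝ᵥ p.1 + (Real.sqrt d • t) ⬝ᵥ p.2 := by
        funext p
        simp only [dotProduct_add, dotProduct_smul, smul_dotProduct]
      rw [e, Cond.CF_prod (gv ι) (gv ι) (fun x => (Real.sqrt (1 - d) • t) ⬝ᵥ x)
        (fun x => (Real.sqrt d • t) ⬝ᵥ x), Cond.CF_gv, Cond.CF_gv, ← Complex.exp_add]
      simp only [id]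
      rw [Cond.CF_gv, ← add_div, ← neg_add, ← Complex.ofReal_add]
      congr 4
      simp only [dotProduct_smul, smul_dotProduct, smul_eq_mul, ← mul_assoc,
        Real.mul_self_sqrt h0, Real.mul_self_sqrt (sub_nonneg.2 h1)]
      ring
  rw [this, Measure.map_id]

/-- the energy of `x` -/
def en1 (g : Pair n → ℝ) (x : Cube n) : ℝ :=
  ∑ p : Pair n, (spin (x p.1.1) * spin (x p.1.2) / Real.sqrt n) * g p

theorem gibbs_eq (β : ℝ) (g : Pair n → ℝ) (x : Cube n) :
    gibbsWeight n β g x = Real.exp (β * en1 g x) := by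
  rw [gibbsWeight, en1, mul_sum]
  congr 1
  exact sum_congr rfl fun p _ => by ring

theorem en1_add (g h : Pair n → ℝ) (x : Cube n) : en1 (g + h) x = en1 g x + en1 h x := by
  simp only [en1, Pi.add_apply, mul_add, sum_add_distrib]

theorem en1_smul (a : ℝ) (g : Pair n → ℝ) (x : Cube n) : en1 (a • g) x = a * en1 g x := by
  simp only [en1, Pi.smul_apply, smul_eq_mul, mul_sum]
  exact sum_congr rfl fun p _ => by ring

theorem two_card_pair_le : 2 * (Fintype.card (Pair n) : ℝ) ≤ (n : ℝ) ^ 2 := by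
  have h := sum_sum_eq_two_mul_pair (n := n) (fun i j => if i = j then (0 : ℝ) else 1)
    (fun i j => by simp only [eq_comm]) (fun i => by simp)
  have h2 : ∑ p : Pair n, (if p.1.1 = p.1.2 then (0 : ℝ) else 1) = Fintype.card (Pair n) := by
    rw [sum_congr rfl fun p _ => if_neg (ne_of_lt p.2)]
    simp
  rw [h2] at h
  rw [← h]
  calc ∑ i : Fin n, ∑ j : Fin n, (if i = j then (0 : ℝ) else 1) ≤ ∑ i : Fin n, ∑ j : Fin n, (1 : ℝ) :=
        sum_le_sum fun i _ => sum_le_sum fun j _ => by split_ifs <;> norm_num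
    _ = _ := by simp [sq]

theorem integral_en1 (x : Cube n) : ∫ g, en1 g x ∂(gv (Pair n)) = 0 := by
  unfold en1
  rw [integral_finsetSum]
  · refine sum_eq_zero fun p _ => ?_
    rw [integral_const_mul, integral_eval]
    simp
  · intro p _
    refine Integrable.const_mul ?_ _
    exact (measurePreserving_eval (fun _ : Pair n => gaussianReal 0 1) p).integrable_comp_of_integrable
      (g := id) (memLp_one_iff_integrable.1 (memLp_id_gaussianReal 1))

theorem tail_en1 (hn : 0 < n) (x : Cube n) :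
    (gv (Pair n)).real {g | (n : ℝ) ≤ |en1 g x|} ≤ 2 * Real.exp (-n) := by
  have hn' : (0 : ℝ) < n := by exact_mod_cast hn
  have hL : Conc.ELip (Real.sqrt (n / 2)) fun g : Pair n → ℝ => en1 g x := by
    refine (Conc.elip_dot _).mono (Real.sqrt_le_sqrt ?_)
    have : ∀ p : Pair n, (spin (x p.1.1) * spin (x p.1.2) / Real.sqrt n) ^ 2 = 1 / n := by
      intro p
      rw [div_pow, mul_pow, spin_sq, spin_sq, Real.sq_sqrt hn'.le, one_mul]
    simp only [this, sum_const, card_univ, nsmul_eq_mul]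
    rw [mul_one_div, div_le_div_iff₀ hn' two_pos]
    have := two_card_pair_le (n := n)
    linarith
  have h := Conc.tail_lip_abs hL hn'.le
  rw [integral_en1] at h
  simp only [sub_zero] at h
  refine h.trans (le_of_eq ?_)
  rw [Real.sq_sqrt (by positivity)]
  congr 2
  field_simp

/-- the event that some energy exceeds `n` -/
def Big (n : ℕ) : Set (Pair n → ℝ) := {g | ∃ x, (n : ℝ) ≤ |en1 g x|}

theorem tendsto_big : Tendsto (fun n => disorderLaw n (Big n)) atTop (nhds 0) := by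
  have h1 : Tendsto (fun n : ℕ => 2 * (2 * Real.exp (-1)) ^ n) atTop (nhds (2 * 0)) := by
    refine (tendsto_pow_atTop_nhds_zero_of_lt_one (by positivity) ?_).const_mul 2
    rw [Real.exp_neg, ← div_eq_mul_inv, div_lt_one (Real.exp_pos 1)]
    linarith [Real.exp_one_gt_d9]
  rw [mul_zero] at h1
  have h2 := ENNReal.tendsto_ofReal h1
  rw [ENNReal.ofReal_zero] at h2
  refine tendsto_of_tendsto_of_tendsto_of_le_of_le' tendsto_const_nhds h2
    (Eventually.of_forall fun _ => zero_le) ?_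
  filter_upwards [eventually_gt_atTop 0] with n hn
  rw [← ofReal_measureReal (measure_ne_top _ _)]
  refine ENNReal.ofReal_le_ofReal ?_
  have e : Big n = ⋃ x, {g | (n : ℝ) ≤ |en1 g x|} := by ext g; simp [Big]
  rw [e]
  refine (measureReal_iUnion_fintype_le _).trans ?_
  refine (sum_le_sum fun x _ => tail_en1 hn x).trans (le_of_eq ?_)
  rw [mul_pow, ← Real.exp_nat_mul]
  simp
  ring

theorem measurableSet_noCut {X : Type*} [MeasurableSpace X] {w : X → Cube n → ℝ}
    (hw : ∀ x, Measurable fun g => w g x) (d0 φ : ℝ) : MeasurableSet {g | ¬ NoCut (w g) d0 φ} := by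
  refine MeasurableSet.compl (s := {g | NoCut (w g) d0 φ}) ?_
  simp only [NoCut, Set.ofPred_forall]
  refine MeasurableSet.iInter fun A => ?_
  have e : (⋂ _ : True, {g | d0 ≤ mass (w g) A → d0 ≤ mass (w g) Aᶜ → φ ≤ mass (w g) (bd A)}) =
      {g | d0 ≤ mass (w g) A}ᶜ ∪ ({g | d0 ≤ mass (w g) Aᶜ}ᶜ ∪ {g | φ ≤ mass (w g) (bd A)}) := by
    ext g; simp [imp_iff_not_or]
  have m := (measurableSet_le (measurable_const (a := d0)) (Bar.measurable_mass hw A)).compl.union
    ((measurableSet_le (measurable_const (a := d0)) (Bar.measurable_mass hw Aᶜ)).compl.union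
      (measurableSet_le (measurable_const (a := φ)) (Bar.measurable_mass hw (bd A))))
  convert m using 1
  ext g
  simp [imp_iff_not_or]

/-- the fibre bound -/
theorem fibre {β d d0 δ φ ψ : ℝ} (hβ : 0 ≤ β) (hd0 : 0 < d0) (hδ' : δ ≤ d0 / 16)
    (hφ : 0 ≤ φ) (hψ : ψ ≤ φ * d0 / (2 * (Real.exp (β * Real.sqrt d * n) ^ 2) ^ 2))
    (g0 : Pair n → ℝ) (h : ¬ ∃ B, Cut0 β d δ (2 * φ * n) g0 B) :
    disorderLaw n {g1 | ¬ NoCut (gibbsWeight n β (mixG d g0 g1)) d0 ψ} ≤
      ENNReal.ofReal (4 * δ / d0) + disorderLaw n (Big n) := by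
  obtain ⟨B, hB, hfam⟩ := family (gibbsWeight_pos β (Real.sqrt (1 - d) • g0)) hφ
  set S : (Finset (Cube n) → Bool) → Set (Pair n → ℝ) := fun s =>
    {g1 | δ ≤ mass (gibbsWeight n β (mixG d g0 g1)) (B s) ∧
      δ ≤ mass (gibbsWeight n β (mixG d g0 g1)) (B s)ᶜ} with hS
  have hm : ∀ x, Measurable fun g1 => gibbsWeight n β (mixG d g0 g1) x := fun x =>
    (Bar.measurable_gibbs β x).comp (by unfold mixG; fun_prop)
  have hSm : ∀ s, MeasurableSet (S s) := fun s =>
    (measurableSet_le measurable_const (Bar.measurable_mass hm _)).inter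
      (measurableSet_le measurable_const (Bar.measurable_mass hm _))
  have hSle : ∀ s, disorderLaw n (S s) ≤ ENNReal.ofReal δ := fun s =>
    (not_le.1 fun hh => h ⟨B s, hh, hB s⟩).le
  set T : Set (Pair n → ℝ) := {g1 | ¬ NoCut (gibbsWeight n β (mixG d g0 g1)) d0 ψ} \ Big n with hT
  set N : ℕ := Fintype.card (Finset (Cube n) → Bool) with hN
  have hN0 : (0 : ℝ) < N := by exact_mod_cast Fintype.card_pos
  have hpt : ∀ g1 ∈ T, ENNReal.ofReal (d0 / 4 * N) ≤ ∑ s, (S s).indicator 1 g1 := by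
    rintro g1 ⟨h1, h2⟩
    simp only [Big, Set.mem_ofPred_eq, not_exists, not_le] at h1 h2
    set K := Real.exp (β * Real.sqrt d * n) with hK
    have hK0 : 0 < K := Real.exp_pos _
    have hb : ∀ x, |β * Real.sqrt d * en1 g1 x| ≤ β * Real.sqrt d * n := fun x => by
      rw [abs_mul, abs_of_nonneg (by positivity : 0 ≤ β * Real.sqrt d)]
      exact mul_le_mul_of_nonneg_left (h2 x).le (by positivity)
    have c1 : ∀ x, gibbsWeight n β (mixG d g0 g1) x ≤
        K * gibbsWeight n β (Real.sqrt (1 - d) • g0) x := fun x => by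
      rw [gibbs_eq, gibbs_eq, mixG, en1_add, hK, ← Real.exp_add, Real.exp_le_exp, en1_smul (√d)]
      linarith [(abs_le.1 (hb x)).2]
    have c2 : ∀ x, gibbsWeight n β (Real.sqrt (1 - d) • g0) x ≤
        K * gibbsWeight n β (mixG d g0 g1) x := fun x => by
      rw [gibbs_eq, gibbs_eq, mixG, en1_add, hK, ← Real.exp_add, Real.exp_le_exp, en1_smul (√d)]
      linarith [(abs_le.1 (hb x)).1]
    have c3 := hfam _ (K ^ 2) d0 (gibbsWeight_pos β _) (by positivity) hd0.le
      (prob_le (gibbsWeight_pos β _) (gibbsWeight_pos β _) hK0 c1 c2)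
      (prob_le (gibbsWeight_pos β _) (gibbsWeight_pos β _) hK0 c2 c1)
      fun hh => h1 (hh.mono le_rfl hψ)
    refine (ENNReal.ofReal_le_ofReal c3).trans ?_
    rw [ENNReal.ofReal_natCast, card_eq_sum_ones, Nat.cast_sum, sum_filter]
    refine sum_le_sum fun s _ => ?_
    split_ifs with hs
    · rw [Set.indicator_of_mem (show g1 ∈ S s from ⟨hδ'.trans hs.1, hδ'.trans hs.2⟩)]
      simp
    · exact zero_le
  have hF : Measurable fun g1 => ∑ s, (S s).indicator (1 : (Pair n → ℝ) → ℝ≥0∞) g1 :=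
    Finset.measurable_sum _ fun s _ => measurable_one.indicator (hSm s)
  have a1 := mul_meas_ge_le_lintegral₀ (μ := disorderLaw n) hF.aemeasurable
    (ENNReal.ofReal (d0 / 4 * N))
  rw [lintegral_finsetSum _ fun s _ => measurable_one.indicator (hSm s)] at a1
  simp only [lintegral_indicator_one (hSm _)] at a1
  have a2 : ∑ s, disorderLaw n (S s) ≤ ENNReal.ofReal (δ * N) := by
    refine (sum_le_sum fun s _ => hSle s).trans (le_of_eq ?_)
    rw [sum_const, card_univ, ← hN, nsmul_eq_mul, mul_comm δ,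
      ENNReal.ofReal_mul (Nat.cast_nonneg _), ENNReal.ofReal_natCast]
  have a3 : disorderLaw n T ≤ ENNReal.ofReal (4 * δ / d0) := by
    have b1 : ENNReal.ofReal (d0 / 4 * N) * disorderLaw n T ≤ ENNReal.ofReal (δ * N) :=
      (mul_le_mul_right (measure_mono fun g hg => hpt g hg) _).trans (a1.trans a2)
    have b2 : ENNReal.ofReal (δ * N) = ENNReal.ofReal (d0 / 4 * N) * ENNReal.ofReal (4 * δ / d0) := by
      rw [← ENNReal.ofReal_mul (by positivity)]
      congr 1
      field_simp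
    rw [b2] at b1
    exact (ENNReal.mul_le_mul_iff_right (by simpa using by positivity) ENNReal.ofReal_ne_top).1 b1
  refine (measure_mono (Set.subset_diff_union _ (Big n))).trans ((measure_union_le _ _).trans ?_)
  exact add_le_add_left a3 _

theorem event_num {β d0 c c' : ℝ} (hβ : 0 ≤ β) (hd0 : 0 < d0) (hc : c' < c) (hc1 : c' < 1) :
    ∀ᶠ n : ℕ in atTop, Real.exp (-(n : ℝ) ^ (1 - c')) ≤
      Real.exp (-(n : ℝ) ^ (1 - c)) / (2 * n) * d0 /
        (2 * (Real.exp (β * (n : ℝ) ^ (1 - c)) ^ 2) ^ 2) := by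
  obtain ⟨e, he1, he2, he3⟩ : ∃ e : ℝ, 0 < e ∧ 1 - c ≤ e ∧ e < 1 - c' :=
    ⟨max (1 - c) ((1 - c') / 2), lt_max_of_lt_right (by linarith), le_max_left _ _,
      max_lt (by linarith) (by linarith)⟩
  have h1 : Tendsto (fun n : ℕ => (n : ℝ) ^ (1 - c' - e)) atTop atTop :=
    (tendsto_rpow_atTop (by linarith)).comp tendsto_natCast_atTop_atTop
  have h2 : Tendsto (fun n : ℕ => (n : ℝ) ^ e) atTop atTop :=
    (tendsto_rpow_atTop he1).comp tendsto_natCast_atTop_atTop
  filter_upwards [h1.eventually_ge_atTop (4 * β + 2 + 1 / e), h2.eventually_ge_atTop (4 / d0),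
    eventually_ge_atTop 1] with n a1 a2 hn
  have hn1 : (1 : ℝ) ≤ n := by exact_mod_cast hn
  have hn0 : (0 : ℝ) < n := by linarith
  set u := (n : ℝ) ^ e with hu
  have hu0 : 0 < u := by positivity
  have b1 : (n : ℝ) ^ (1 - c) ≤ u := Real.rpow_le_rpow_of_exponent_le hn1 he2
  have b2 : (n : ℝ) ^ (1 - c') = (n : ℝ) ^ (1 - c' - e) * u := by
    rw [hu, ← Real.rpow_add hn0]; ring_nf
  have b3 : (n : ℝ) ≤ Real.exp (1 / e * u) := by
    have := Real.log_le_rpow_div hn0.le he1
    calc (n : ℝ) = Real.exp (Real.log n) := (Real.exp_log hn0).symm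
      _ ≤ _ := Real.exp_le_exp.2 (by rw [one_div, ← div_eq_inv_mul]; exact this)
  have b4 : 4 / d0 ≤ Real.exp u := a2.trans (by linarith [Real.add_one_le_exp u])
  rw [le_div_iff₀ (by positivity), div_mul_eq_mul_div, le_div_iff₀ (by positivity),
    ← pow_mul, ← Real.exp_nat_mul]
  rw [div_le_iff₀ hd0] at b4
  have b5 : Real.exp (-(n : ℝ) ^ (1 - c')) * Real.exp ((2 * 2 : ℕ) * (β * (n : ℝ) ^ (1 - c))) *
      Real.exp (1 / e * u) * Real.exp u ≤ Real.exp (-(n : ℝ) ^ (1 - c)) := by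
    rw [← Real.exp_add, ← Real.exp_add, ← Real.exp_add, Real.exp_le_exp, b2]
    have := mul_le_mul_of_nonneg_right a1 hu0.le
    have := mul_le_mul_of_nonneg_left b1 hβ
    push_cast
    nlinarith
  calc Real.exp (-(n : ℝ) ^ (1 - c')) * (2 * Real.exp ((2 * 2 : ℕ) * (β * (n : ℝ) ^ (1 - c)))) *
        (2 * n) = Real.exp (-(n : ℝ) ^ (1 - c')) *
        Real.exp ((2 * 2 : ℕ) * (β * (n : ℝ) ^ (1 - c))) * n * 4 := by ring
    _ ≤ Real.exp (-(n : ℝ) ^ (1 - c')) * Real.exp ((2 * 2 : ℕ) * (β * (n : ℝ) ^ (1 - c))) *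
        Real.exp (1 / e * u) * (Real.exp u * d0) := by gcongr
    _ ≤ _ := by rw [← mul_assoc]; exact mul_le_mul_of_nonneg_right b5 hd0.le

/-- `g0`-measurable cuts suffice -/
theorem cut_of_cut0 (h : Cut0Stmt) : CutStmt := by
  intro β hβ d0 hd0
  obtain ⟨c, hc, d, hd, hdc, h⟩ := h β hβ
  obtain ⟨c', hc1, hc2⟩ : ∃ c' : ℝ, 1 / 40000000 < c' ∧ c' < min c 1 :=
    exists_between (lt_min hc (by norm_num))
  refine ⟨c', hc1, ?_⟩
  rw [ENNReal.tendsto_nhds_zero]
  intro ε hε
  obtain ⟨r, hr0, hr⟩ : ∃ r : ℝ, 0 < r ∧ ENNReal.ofReal r ≤ ε := by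
    rcases eq_or_ne ε ⊤ with rfl | hε'
    · exact ⟨1, one_pos, le_top⟩
    · exact ⟨ε.toReal, ENNReal.toReal_pos hε.ne' hε', (ENNReal.ofReal_toReal hε').le⟩
  set δ := min (d0 / 16) (r / 3 * d0 / 4) with hδ
  have hδ0 : 0 < δ := lt_min (by positivity) (by positivity)
  have hr3 : (0 : ℝ≥0∞) < ENNReal.ofReal (r / 3) := ENNReal.ofReal_pos.2 (by positivity)
  filter_upwards [(ENNReal.tendsto_nhds_zero.1 (h δ hδ0)) _ hr3,
    (ENNReal.tendsto_nhds_zero.1 tendsto_big) _ hr3, hdc, eventually_ge_atTop 1,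
    event_num (by linarith : 0 ≤ β) hd0 (lt_min_iff.1 hc2).1 (lt_min_iff.1 hc2).2]
    with n a1 a2 a3 hn a4
  have hn0 : (0 : ℝ) < n := by exact_mod_cast hn
  set G := {g0 : Pair n → ℝ | ∃ B, Cut0 β (d n) δ (Real.exp (-(n : ℝ) ^ (1 - c))) g0 B} with hG
  set S := {g : Pair n → ℝ | ¬ NoCut (gibbsWeight n β g) d0 (Real.exp (-(n : ℝ) ^ (1 - c')))}
    with hS
  have hSm : MeasurableSet S := measurableSet_noCut (Bar.measurable_gibbs β) _ _
  have mp := mp_mix (ι := Pair n) (hd n).1 (hd n).2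
  have b1 : disorderLaw n S = ∫⁻ g0, disorderLaw n
      {g1 | ¬ NoCut (gibbsWeight n β (mixG (d n) g0 g1)) d0 (Real.exp (-(n : ℝ) ^ (1 - c')))}
      ∂disorderLaw n := by
    rw [disorderLaw_eq, ← mp.measure_preimage hSm.nullMeasurableSet,
      Measure.prod_apply (mp.measurable hSm)]
    rfl
  have b2 : β * Real.sqrt (d n) * n ≤ β * (n : ℝ) ^ (1 - c) := by
    rw [mul_assoc]
    refine mul_le_mul_of_nonneg_left ?_ (by linarith)
    have : Real.sqrt (d n) ≤ (n : ℝ) ^ (-c) := by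
      refine Real.sqrt_le_iff.2 ⟨by positivity, a3.trans (le_of_eq ?_)⟩
      rw [← Real.rpow_natCast, ← Real.rpow_mul hn0.le]; congr 1; push_cast; ring
    refine (mul_le_mul_of_nonneg_right this hn0.le).trans (le_of_eq ?_)
    rw [← Real.rpow_add_one hn0.ne']; congr 1; ring
  have b3 : ∀ g0, disorderLaw n
      {g1 | ¬ NoCut (gibbsWeight n β (mixG (d n) g0 g1)) d0 (Real.exp (-(n : ℝ) ^ (1 - c')))} ≤
      (toMeasurable (disorderLaw n) G).indicator 1 g0 +
        (ENNReal.ofReal (r / 3) + ENNReal.ofReal (r / 3)) := by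
    intro g0
    by_cases hg : g0 ∈ toMeasurable (disorderLaw n) G
    · rw [Set.indicator_of_mem hg]
      exact prob_le_one.trans le_self_add
    · have hg' : g0 ∉ G := fun h' => hg (subset_toMeasurable _ _ h')
      refine le_add_left ((fibre (φ := Real.exp (-(n : ℝ) ^ (1 - c)) / (2 * n)) (δ := δ)
        (by linarith) hd0 (min_le_left _ _) (by positivity) (a4.trans ?_) g0 ?_).trans
        (add_le_add (ENNReal.ofReal_le_ofReal ?_) a2))
      · gcongr
      · have e : 2 * (Real.exp (-(n : ℝ) ^ (1 - c)) / (2 * n)) * n =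
            Real.exp (-(n : ℝ) ^ (1 - c)) := by field_simp
        rw [e]; exact hg'
      · rw [div_le_iff₀ hd0]
        linarith [min_le_right (d0 / 16) (r / 3 * d0 / 4)]
  rw [b1]
  refine (lintegral_mono b3).trans ?_
  rw [lintegral_add_right _ measurable_const,
    lintegral_indicator_one (measurableSet_toMeasurable _ _), measure_toMeasurable, lintegral_const,
    measure_univ, mul_one]
  refine (add_le_add_left a1 _).trans (le_trans (le_of_eq ?_) hr)
  rw [← ENNReal.ofReal_add (by positivity) (by positivity),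
    ← ENNReal.ofReal_add (by positivity) (by positivity)]
  congr 1; ring

end Crest.Agent.T157.Exp

end
end

-- ▼ part T157/Cut1_54

/-!
Row 157, part D (helper54): the cut statement with the reference weight of `g0` at full strength.
-/

set_option autoImplicit false

noncomputable section

namespace Crest.Agent.T157.Cut

open MeasureTheory Filter
open Crest.ProbabilityR.SpinGlassDynamics Crest.Agent.T157.E Crest.Agent.T157.Exp

variable {n : ℕ}

/-- `B` (a function of `g0` only) has intermediate mass with probability `≥ δ` over `g1`, and a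
boundary of mass `≤ φ` for the Gibbs weight of `g0` -/
def Cut1 (β d δ φ : ℝ) (g0 : Pair n → ℝ) (B : Set (Cube n)) : Prop :=
  ENNReal.ofReal δ ≤ disorderLaw n {g1 | δ ≤ mass (gibbsWeight n β (mixG d g0 g1)) B ∧
      δ ≤ mass (gibbsWeight n β (mixG d g0 g1)) Bᶜ} ∧
    mass (gibbsWeight n β g0) (bd B) ≤ φ

/-- no `g0`-measurable bottleneck (reference weight at full strength) -/
def Cut1Stmt : Prop :=
  ∀ β : ℝ, 1 < β → ∃ c : ℝ, 1 / 40000000 < c ∧ ∃ d : ℕ → ℝ, (∀ n, 0 ≤ d n ∧ d n ≤ 1) ∧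
    (∀ᶠ n : ℕ in atTop, d n ≤ (n : ℝ) ^ (-(2 * c))) ∧ ∀ δ : ℝ, 0 < δ →
      Tendsto (fun n : ℕ => disorderLaw n
        {g0 | ∃ B, Cut1 β (d n) δ (Real.exp (-(n : ℝ) ^ (1 - c))) g0 B}) atTop (nhds 0)

theorem cut0_of_cut1 (h : Cut1Stmt) : Cut0Stmt := by
  intro β hβ
  obtain ⟨c, hc, d, hd, hdc, h⟩ := h β hβ
  obtain ⟨c', hc1, hc2⟩ := exists_between hc
  refine ⟨c', hc1, d, hd, ?_, fun δ hδ => ?_⟩
  · filter_upwards [hdc, eventually_ge_atTop 1] with n a1 hn
    exact a1.trans (Real.rpow_le_rpow_of_exponent_le (by exact_mod_cast hn) (by linarith))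
  have h1 : Tendsto (fun n : ℕ => (n : ℝ) ^ (c - c')) atTop atTop :=
    (tendsto_rpow_atTop (by linarith)).comp tendsto_natCast_atTop_atTop
  have h2 := (h δ hδ).add tendsto_big
  rw [add_zero] at h2
  refine tendsto_of_tendsto_of_tendsto_of_le_of_le' tendsto_const_nhds h2
    (Eventually.of_forall fun _ => zero_le) ?_
  filter_upwards [hdc, eventually_ge_atTop 1, h1.eventually_ge_atTop (2 * β + 1)] with n a1 hn a2
  have hn1 : (1 : ℝ) ≤ n := by exact_mod_cast hn
  have hn0 : (0 : ℝ) < n := by linarith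
  refine le_trans (measure_mono ?_) (measure_union_le _ _)
  rintro g0 ⟨B, b1, b2⟩
  by_cases hg : g0 ∈ Big n
  · exact Or.inr hg
  refine Or.inl ⟨B, b1, ?_⟩
  simp only [Big, Set.mem_ofPred_eq, not_exists, not_le] at hg
  set u := (n : ℝ) ^ (1 - c) with hu
  have hs1 : Real.sqrt (1 - d n) ≤ 1 := Real.sqrt_le_one.2 (by linarith [(hd n).1])
  have hs2 : 1 - d n ≤ Real.sqrt (1 - d n) := by
    have h0 := Real.sqrt_nonneg (1 - d n)
    have h3 := Real.mul_self_sqrt (sub_nonneg.2 (hd n).2)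
    nlinarith
  have hdn : d n * n ≤ u := by
    refine (mul_le_mul_of_nonneg_right a1 hn0.le).trans ?_
    rw [← Real.rpow_add_one hn0.ne']
    exact Real.rpow_le_rpow_of_exponent_le hn1 (by linarith)
  have hb : ∀ x, |β * ((1 - Real.sqrt (1 - d n)) * en1 g0 x)| ≤ β * u := fun x => by
    rw [abs_mul, abs_mul, abs_of_nonneg (by linarith : 0 ≤ β),
      abs_of_nonneg (by linarith : 0 ≤ 1 - Real.sqrt (1 - d n))]
    refine mul_le_mul_of_nonneg_left (le_trans ?_ hdn) (by linarith)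
    exact mul_le_mul (by linarith) (hg x).le (abs_nonneg _) (hd n).1
  have c1 : ∀ x, gibbsWeight n β g0 x ≤
      Real.exp (β * u) * gibbsWeight n β (Real.sqrt (1 - d n) • g0) x := fun x => by
    rw [gibbs_eq, gibbs_eq, ← Real.exp_add, Real.exp_le_exp, en1_smul]
    linarith [(abs_le.1 (hb x)).2]
  have c2 : ∀ x, gibbsWeight n β (Real.sqrt (1 - d n) • g0) x ≤
      Real.exp (β * u) * gibbsWeight n β g0 x := fun x => by
    rw [gibbs_eq, gibbs_eq, ← Real.exp_add, Real.exp_le_exp, en1_smul]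
    linarith [(abs_le.1 (hb x)).1]
  rw [mass_ms] at b2 ⊢
  refine (ms_le (prob_le (gibbsWeight_pos β _) (gibbsWeight_pos β _) (Real.exp_pos _) c1 c2)
    _).trans ((mul_le_mul_of_nonneg_left b2 (by positivity)).trans ?_)
  rw [← Real.exp_nat_mul, ← Real.exp_add, Real.exp_le_exp]
  have e : (n : ℝ) ^ (1 - c') = (n : ℝ) ^ (c - c') * u := by
    rw [hu, ← Real.rpow_add hn0]; ring_nf
  have := mul_le_mul_of_nonneg_right a2 (by positivity : 0 ≤ u)
  rw [e]
  push_cast
  linarith

theorem cut_of_cut1 (h : Cut1Stmt) : CutStmt := cut_of_cut0 (cut0_of_cut1 h)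

end Crest.Agent.T157.Cut

end
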