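import Crest.Agent.T157.Sc1_68
import Crest.Agent.T157.St0_44
import Crest.Agent.T157.PfDef_56
import Crest.Agent.T157.VgDef_54

/-!
Row 157, part D (helper68): the self-correcting bounds (SC), statements.
-/

set_option autoImplicit false

noncomputable section

namespace Crest.Agent.T157.Sc

open MeasureTheory Matrix Set
open Crest.Agent.T157.E Crest.Agent.T157.Eig Crest.Agent.T157.Conc Crest.Agent.T157.St
open Crest.Agent.T157.Pf Crest.Agent.T157.Cond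

variable {n : ℕ} {β C b : ℝ}

/-- the site data are those of the step function `P` -/
def Rel (P : Par) (S : Site β C P.b) : Prop :=
  S.Φ = P.Ph β ∧ S.p1 = P.Px β ∧ S.p2 = P.Pxx β ∧ S.pen = P.pen β

/-- below `b`: a large potential forces `κ ≈ 0` -/
def SC1 (S : Site β C b) (A : Matrix (Fin n) (Fin n) ℝ) (c e : ℝ) : Prop :=
  ∀ m ∈ box n, qq m ≤ b → V S A m + c * n * kap S m ^ 2 ≤ n * (S.P + e)

/-- above `b - η`, in a Gaussian field of variance `t`: a large potential forces `κ ≳ 0` and the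
state evolution `q ≈ Γ (q + t / β²)` -/
def SC2 (S : Site β C b) (Γ : ℝ → ℝ) (A : Matrix (Fin n) (Fin n) ℝ) (c e η t : ℝ) : Prop :=
  ∃ L : (Fin n → ℝ) → ℝ, ELip (√n) L ∧
    (∀ y, ∀ m ∈ box n, b - η ≤ qq m → V S A m + y ⬝ᵥ m + c * n * (max (-kap S m) 0 ^ 2 +
      (qq m - Γ (max (qq m) b + t / β ^ 2)) ^ 2) ≤ L y) ∧
    ∫ z, Real.exp (L (√t • z)) ∂E.gv (Fin n) ≤ Real.exp (n * (S.P + t / 2 + e))

/-- **(SC)**, non-asymptotic form -/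
def ScStmt : Prop :=
  ∀ β C c0 C0 : ℝ, 1 ≤ β → 1 ≤ C → 0 ≤ c0 → ∃ c C1 : ℝ, 0 < c ∧ c ≤ 1 ∧ 1 ≤ C1 ∧
    ∀ (P : Par) (η : ℝ), P.OK → P.Good β c0 C0 (η ^ 2) → ∀ S : Site β C P.b, Rel P S →
    0 < η → η ≤ 1 / 2 → ∀ n : ℕ, 1 ≤ n * η ^ 4 →
    goe (Fin n) (1 / √n) {W | opn W ≤ 3 ∧ ¬ SC1 S (β • W) c (C1 * η ^ 2)} ≤
      ENNReal.ofReal (C1 / η ^ 5 * Real.exp (-(n * η ^ 4 / C1))) ∧
    ∀ t : ℝ, 0 ≤ t →
      goe (Fin n) (1 / √n)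
          {W | opn W ≤ 3 ∧ ¬ SC2 S (P.Gam β) (β • W) c (C1 * (1 + t) * η ^ 2) (η ^ 4) t} ≤
        ENNReal.ofReal (C1 / η ^ 5 * Real.exp (-(n * η ^ 4 / C1)))

/-- the law of `X_{s + t/β²}` seen from the level `s` -/
def EIdStmt : Prop :=
  ∀ (β : ℝ) (P : Par), 0 < β → P.OK → ∀ s ∈ Icc (0 : ℝ) 1, ∀ t : ℝ, 0 ≤ t → (t = 0 ∨ P.b ≤ s) →
    ∀ (F : ℝ → ℝ) (K : ℝ), R164.GC.BC F K →
      P.E β (s + t / β ^ 2) F = EL (Sc.cut (P.lst β P.K) (β ^ 2 * s) ++ [(1, t)]) (P.Ph β s) F 0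


end Crest.Agent.T157.Sc

end
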