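import Crest.Agent.T157.ConcG_16
import Crest.Agent.T157.CutDef_54
import Crest.Agent.T157.ScDef_68
import Crest.Agent.T157.Cut1_54
import Crest.Agent.T157.Top_97

-- ▼ part T157/Lift_74
section

/-!
# Row 157, part D: path lifting through random steps (helper74)

* `Rep γ f T ε x z`: all but (outer) mass `ε` of the seeds `ξ` give a successor `f x ξ` that is
  joined to `z` inside `T`;
* `lift`: a path in `S` lifts to a path in `T` between representatives;
* `chain`, `chain_false`: induction over the levels and the final sign change;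
* `mp_rot`: `a ξ + b ξ'` is standard Gaussian for `a² + b² = 1`;
* `exists_rep_of_slack`: slack + small exceptional set give a representative (rotation of seeds);
* `rep_of_segment`: anchoring by segments.
-/

set_option autoImplicit false

noncomputable section

namespace Crest.Agent.T157.Lift

open MeasureTheory ProbabilityTheory Set Filter Topology
open scoped ENNReal NNReal unitInterval
open Crest.Agent.T157.Conc (gv en)

section abstract
variable {X Y E : Type*} [TopologicalSpace X] [TopologicalSpace Y] [MeasurableSpace E]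

/-- `z` represents the successors of `x`. -/
def Rep (γ : Measure E) (f : X → E → Y) (T : Set Y) (ε : ℝ≥0∞) (x : X) (z : Y) : Prop :=
  γ {ξ | ¬ JoinedIn T z (f x ξ)} ≤ ε

omit [TopologicalSpace X] in
lemma Rep.mono {γ : Measure E} {f : X → E → Y} {T : Set Y} {ε ε' : ℝ≥0∞} {x : X} {z : Y}
    (h : Rep γ f T ε x z) (hε : ε ≤ ε') : Rep γ f T ε' x z := le_trans h hε

lemma exists_not_mem {γ : Measure E} {A B G : Set E} {ε : ℝ≥0∞} (hA : γ A ≤ ε) (hB : γ B ≤ ε)
    (hG : 2 * ε < γ G) : ∃ ξ ∈ G, ξ ∉ A ∧ ξ ∉ B := by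
  by_contra hcon
  push Not at hcon
  have hsub : G ⊆ A ∪ B := fun ξ hξ => by
    by_cases h : ξ ∈ A
    · exact Or.inl h
    · exact Or.inr (hcon ξ hξ h)
  have : γ G ≤ 2 * ε := by
    calc γ G ≤ γ (A ∪ B) := measure_mono hsub
      _ ≤ γ A + γ B := measure_union_le _ _
      _ ≤ ε + ε := add_le_add hA hB
      _ = 2 * ε := (two_mul ε).symm
  exact absurd hG (not_lt.2 this)

lemma two_mul_lt {ε a : ℝ≥0∞} (hε : 3 * ε < 1) (h : 1 ≤ a + ε) : 2 * ε < a := by
  by_contra hcon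
  have h1 : a ≤ 2 * ε := not_lt.1 hcon
  have : (1 : ℝ≥0∞) ≤ 3 * ε := by
    calc (1 : ℝ≥0∞) ≤ a + ε := h
      _ ≤ 2 * ε + ε := by gcongr
      _ = 3 * ε := by ring
  exact absurd hε (not_lt.2 this)

omit [TopologicalSpace X] in
/-- two representatives of the same state are joined -/
lemma Rep.joined {γ : Measure E} [IsProbabilityMeasure γ] {f : X → E → Y} {T : Set Y}
    {ε : ℝ≥0∞} (hε : 3 * ε < 1) {x : X} {z z' : Y} (h : Rep γ f T ε x z)
    (h' : Rep γ f T ε x z') : JoinedIn T z z' := by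
  obtain ⟨ξ, -, h1, h2⟩ := exists_not_mem (G := univ) h h'
    (two_mul_lt hε (by rw [measure_univ]; exact le_self_add))
  simp only [mem_ofPred_eq, not_not] at h1 h2
  exact h1.trans h2.symm

lemma joinedIn_of_Icc {T : Set Y} {g : ℝ → Y} {a b : ℝ} (hg : ContinuousOn g (uIcc a b))
    (hT : ∀ t ∈ uIcc a b, g t ∈ T) : JoinedIn T (g a) (g b) := by
  have h1 : IsPathConnected (uIcc a b) := (convex_uIcc a b).isPathConnected ⟨a, left_mem_uIcc⟩
  have h2 := (h1.image' hg).joinedIn (g a) ⟨a, left_mem_uIcc, rfl⟩ (g b) ⟨b, right_mem_uIcc, rfl⟩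
  exact h2.mono (by rintro _ ⟨t, ht, rfl⟩; exact hT t ht)

/-- **Path lifting.** -/
theorem lift {γ : Measure E} [IsProbabilityMeasure γ] {f : X → E → Y} {S : Set X} {T : Set Y}
    {ε : ℝ≥0∞} (hε : 3 * ε < 1) (hT : IsOpen T) (hf : ∀ ξ, ContinuousOn (fun x => f x ξ) S)
    (hrep : ∀ x ∈ S, ∃ z, Rep γ f T ε x z) {x x' : X} (hx : JoinedIn S x x') {z z' : Y}
    (hz : Rep γ f T ε x z) (hz' : Rep γ f T ε x' z') : JoinedIn T z z' := by
  obtain ⟨p, hp⟩ := hx
  have hpS : ∀ t : ℝ, p.extend t ∈ S := fun t => by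
    obtain ⟨u, hu⟩ : p.extend t ∈ range p := by
      rw [← p.extend_range]; exact ⟨t, rfl⟩
    rw [← hu]; exact hp u
  have hc : ∀ ξ, Continuous fun t : ℝ => f (p.extend t) ξ := fun ξ =>
    (hf ξ).comp_continuous p.continuous_extend hpS
  choose r hr using fun t : ℝ => hrep _ (hpS t)
  -- local constancy
  have hloc : ∀ t : ℝ, ∀ᶠ u in 𝓝 t, JoinedIn T (r t) (r u) := by
    intro t
    set G : ℕ → Set E := fun k => {ξ | ∀ u, |u - t| < 1 / ((k : ℝ) + 1) → f (p.extend u) ξ ∈ T}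
      with hG
    have hmono : Monotone G := by
      intro k l hkl ξ hξ u hu
      refine hξ u (hu.trans_le ?_)
      have : (k : ℝ) ≤ l := by exact_mod_cast hkl
      gcongr
    have hU : {ξ | JoinedIn T (r t) (f (p.extend t) ξ)} ⊆ ⋃ k, G k := by
      intro ξ hξ
      have h1 : (fun u => f (p.extend u) ξ) ⁻¹' T ∈ 𝓝 t :=
        (hc ξ).continuousAt.preimage_mem_nhds (hT.mem_nhds (JoinedIn.target_mem hξ))
      obtain ⟨δ, hδ, hb⟩ := Metric.mem_nhds_iff.1 h1
      obtain ⟨k, hk⟩ := exists_nat_one_div_lt hδ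
      exact mem_iUnion.2 ⟨k, fun u hu => hb (by
        rw [Metric.mem_ball, Real.dist_eq]; exact hu.trans hk)⟩
    have h1 : (1 : ℝ≥0∞) ≤ γ (⋃ k, G k) + ε := by
      calc (1 : ℝ≥0∞) = γ univ := measure_univ.symm
        _ ≤ γ ((⋃ k, G k) ∪ {ξ | ¬ JoinedIn T (r t) (f (p.extend t) ξ)}) := by
          refine measure_mono fun ξ _ => ?_
          by_cases h : JoinedIn T (r t) (f (p.extend t) ξ)
          · exact Or.inl (hU h)
          · exact Or.inr h
        _ ≤ _ := (measure_union_le _ _).trans (add_le_add le_rfl (hr t))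
    have h2 := two_mul_lt hε h1
    rw [hmono.measure_iUnion, lt_iSup_iff] at h2
    obtain ⟨k, hk⟩ := h2
    have hpos : (0 : ℝ) < 1 / ((k : ℝ) + 1) := by positivity
    filter_upwards [Metric.ball_mem_nhds t hpos] with u hu
    rw [Metric.mem_ball, Real.dist_eq] at hu
    obtain ⟨ξ, hξ, h3, h4⟩ := exists_not_mem (hr t) (hr u) hk
    simp only [mem_ofPred_eq, not_not] at h3 h4
    have h5 : JoinedIn T (f (p.extend t) ξ) (f (p.extend u) ξ) := by
      refine joinedIn_of_Icc (g := fun v => f (p.extend v) ξ) (hc ξ).continuousOn fun v hv => ?_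
      exact hξ v ((abs_sub_left_of_mem_uIcc hv).trans_lt hu)
    exact (h3.trans h5).trans h4.symm
  have hopen : IsOpen {t : ℝ | JoinedIn T (r 0) (r t)} := by
    rw [isOpen_iff_mem_nhds]
    intro t ht
    filter_upwards [hloc t] with u hu using JoinedIn.trans ht hu
  have hclosed : IsClosed {t : ℝ | JoinedIn T (r 0) (r t)} := by
    rw [← isOpen_compl_iff, isOpen_iff_mem_nhds]
    intro t ht
    filter_upwards [hloc t] with u hu using fun h => ht (JoinedIn.trans h hu.symm)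
  have hall : {t : ℝ | JoinedIn T (r 0) (r t)} = univ :=
    IsClopen.eq_univ ⟨hclosed, hopen⟩ ⟨0, (hloc 0).self_of_nhds⟩
  have h01 : JoinedIn T (r 0) (r 1) := by
    have : (1 : ℝ) ∈ {t : ℝ | JoinedIn T (r 0) (r t)} := hall ▸ mem_univ _
    exact this
  have e0 := hr 0
  have e1 := hr 1
  rw [p.extend_zero] at e0
  rw [p.extend_one] at e1
  exact ((hz.joined hε e0).trans h01).trans (e1.joined hε hz')



end abstract

section segment
variable {X Y E : Type*} [TopologicalSpace Y] [AddCommGroup Y] [Module ℝ Y]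
  [IsTopologicalAddGroup Y] [ContinuousSMul ℝ Y] [MeasurableSpace E]

lemma joinedIn_of_segment {T : Set Y} {z w : Y}
    (h : ∀ t ∈ Icc (0 : ℝ) 1, (1 - t) • z + t • w ∈ T) : JoinedIn T z w := by
  have := joinedIn_of_Icc (T := T) (g := fun t : ℝ => (1 - t) • z + t • w) (a := 0) (b := 1)
    (by fun_prop) (fun t ht => h t (by rwa [uIcc_of_le zero_le_one] at ht))
  simpa using this


end segment

section rot
variable {ι : Type*} [Fintype ι]

lemma mp_rot_real {a b : ℝ} (h : a ^ 2 + b ^ 2 = 1) :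
    MeasurePreserving (fun p : ℝ × ℝ => a * p.1 + b * p.2)
      ((gaussianReal 0 1).prod (gaussianReal 0 1)) (gaussianReal 0 1) := by
  refine ⟨by fun_prop, ?_⟩
  have e : (fun p : ℝ × ℝ => a * p.1 + b * p.2) =
      (fun p : ℝ × ℝ => p.1 + p.2) ∘ Prod.map (fun x => a * x) (fun x => b * x) := rfl
  rw [e, ← Measure.map_map (by fun_prop) (by fun_prop),
    ← Measure.map_prod_map _ _ (by fun_prop) (by fun_prop), gaussianReal_map_const_mul,
    gaussianReal_map_const_mul]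
  change Measure.conv _ _ = _
  rw [gaussianReal_conv_gaussianReal]
  congr 1
  · simp
  · ext; simpa using h

/-- `a ξ + b ξ'` is a standard Gaussian vector -/
theorem mp_rot {a b : ℝ} (h : a ^ 2 + b ^ 2 = 1) :
    MeasurePreserving (fun p : (ι → ℝ) × (ι → ℝ) => a • p.1 + b • p.2)
      ((gv ι).prod (gv ι)) (gv ι) := by
  have h1 := (measurePreserving_arrowProdEquivProdArrow ℝ ℝ ι (fun _ => gaussianReal 0 1)
    (fun _ => gaussianReal 0 1)).symm
  have h2 := measurePreserving_pi (fun _ : ι => (gaussianReal 0 1).prod (gaussianReal 0 1))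
    (fun _ : ι => gaussianReal 0 1) (fun _ => mp_rot_real h)
  exact h2.comp h1

lemma en_rot_le (ξ ξ' : ι → ℝ) (s t : ℝ) :
    en ((Real.cos t • ξ + Real.sin t • ξ') - (Real.cos s • ξ + Real.sin s • ξ')) ≤
      |t - s| * (en ξ + en ξ') := by
  have e : (Real.cos t • ξ + Real.sin t • ξ') - (Real.cos s • ξ + Real.sin s • ξ') =
      (Real.cos t - Real.cos s) • ξ + (Real.sin t - Real.sin s) • ξ' := by
    simp only [sub_smul]; abel
  rw [e, mul_add]
  refine (Conc.en_add_le _ _).trans (add_le_add ?_ ?_) <;> rw [Conc.en_smul]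
  · exact mul_le_mul_of_nonneg_right (Real.abs_cos_sub_cos_le t s) (Conc.en_nonneg _)
  · exact mul_le_mul_of_nonneg_right (Real.abs_sin_sub_sin_le t s) (Conc.en_nonneg _)

/-- **Rotation of seeds.** If outside an exceptional set `B` the whole Euclidean `ρ`-ball of seeds
is mapped into `T`, then most pairs of seeds have joined images. -/
theorem prod_not_joined_le {Y : Type*} [TopologicalSpace Y] {F : (ι → ℝ) → Y} (hF : Continuous F)
    {T : Set Y} {B : Set (ι → ℝ)} {ρ R : ℝ} (M : ℕ) (hM : 0 < M) (hρ : 4 * R ≤ ρ * M)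
    (hB : ∀ ξ ∉ B, ∀ ξ', en (ξ' - ξ) ≤ ρ → F ξ' ∈ T) :
    (gv ι).prod (gv ι) {p | ¬ JoinedIn T (F p.1) (F p.2)} ≤
      M * gv ι B + 2 * gv ι {ξ | R < en ξ} := by
  set D : Set (ι → ℝ) := {ξ | R < en ξ} with hD
  set th : ℕ → ℝ := fun k => k * (Real.pi / 2 / M) with hth
  set rot : ℝ → (ι → ℝ) × (ι → ℝ) → (ι → ℝ) :=
    fun t p => Real.cos t • p.1 + Real.sin t • p.2 with hrot
  have hM' : (0 : ℝ) < M := by exact_mod_cast hM
  have hstep : (0 : ℝ) < Real.pi / 2 / M := by positivity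
  have hsub : {p : (ι → ℝ) × (ι → ℝ) | ¬ JoinedIn T (F p.1) (F p.2)} ⊆
      (⋃ k ∈ Finset.range M, rot (th k) ⁻¹' B) ∪ (Prod.fst ⁻¹' D ∪ Prod.snd ⁻¹' D) := by
    intro p hp
    by_contra hcon
    simp only [mem_union, mem_iUnion, mem_preimage, not_or, not_exists, Finset.mem_range, hD,
      mem_ofPred_eq, not_lt] at hcon
    obtain ⟨h1, h2, h3⟩ := hcon
    apply hp
    have key := joinedIn_of_Icc (T := T) (g := fun t => F (rot t p)) (a := 0) (b := Real.pi / 2)
      (hF.comp (by simp only [hrot]; fun_prop)).continuousOn ?_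
    · simpa [hrot] using key
    intro t ht
    rw [uIcc_of_le (by positivity)] at ht
    obtain ⟨k, hk, hkt⟩ : ∃ k < M, |t - th k| ≤ Real.pi / 2 / M := by
      set u := t / (Real.pi / 2 / M) with hu
      have hu0 : 0 ≤ u := div_nonneg ht.1 hstep.le
      have huM : u ≤ M := by
        rw [hu, div_le_iff₀ hstep]
        calc t ≤ Real.pi / 2 := ht.2
          _ = M * (Real.pi / 2 / M) := by field_simp
      have htu : t = u * (Real.pi / 2 / M) := by rw [hu]; field_simp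
      refine ⟨min ⌊u⌋₊ (M - 1), by omega, ?_⟩
      have hk1 : |u - (min ⌊u⌋₊ (M - 1) : ℕ)| ≤ 1 := by
        have f1 := Nat.floor_le hu0
        have f2 := Nat.lt_floor_add_one u
        rcases le_total ⌊u⌋₊ (M - 1) with h | h
        · rw [min_eq_left h, abs_le]; constructor <;> linarith
        · rw [min_eq_right h, abs_le]
          have e : ((M - 1 : ℕ) : ℝ) = M - 1 := by
            rw [Nat.cast_sub hM]; simp
          have h' : ((M - 1 : ℕ) : ℝ) ≤ ⌊u⌋₊ := by exact_mod_cast h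
          rw [e] at h' ⊢
          constructor <;> linarith
      rw [htu]
      simp only [hth]
      rw [← sub_mul, abs_mul, abs_of_pos hstep]
      exact mul_le_of_le_one_left hstep.le hk1
    refine hB _ (h1 k hk) _ ((en_rot_le _ _ _ _).trans ?_)
    have hR : 0 ≤ R := (Conc.en_nonneg _).trans h2
    calc |t - th k| * (en p.1 + en p.2) ≤ Real.pi / 2 / M * (R + R) :=
          mul_le_mul hkt (add_le_add h2 h3)
            (add_nonneg (Conc.en_nonneg _) (Conc.en_nonneg _)) hstep.le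
      _ = Real.pi * R / M := by ring
      _ ≤ 4 * R / M := by gcongr; exact Real.pi_le_four
      _ ≤ ρ := by rw [div_le_iff₀ hM']; exact hρ
  have hr : ∀ k, (gv ι).prod (gv ι) (rot (th k) ⁻¹' B) ≤ gv ι B := fun k =>
    (mp_rot (ι := ι) (Real.cos_sq_add_sin_sq (th k))).measure_preimage_le B
  have hf : (gv ι).prod (gv ι) (Prod.fst ⁻¹' D) ≤ gv ι D :=
    (measurePreserving_fst (μ := gv ι) (ν := gv ι)).measure_preimage_le D
  have hs : (gv ι).prod (gv ι) (Prod.snd ⁻¹' D) ≤ gv ι D :=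
    (measurePreserving_snd (μ := gv ι) (ν := gv ι)).measure_preimage_le D
  refine (measure_mono hsub).trans ((measure_union_le _ _).trans (add_le_add ?_ ?_))
  · refine (measure_biUnion_finset_le _ _).trans ?_
    refine (Finset.sum_le_sum fun k _ => hr k).trans ?_
    simp
  · rw [two_mul]
    exact (measure_union_le _ _).trans (add_le_add hf hs)

/-- from pairs to a representative -/
theorem exists_rep_of_prod {X Y E : Type*} [TopologicalSpace Y] [MeasurableSpace E]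
    {γ : Measure E} [IsProbabilityMeasure γ] {f : X → E → Y} {T : Set Y} {ε : ℝ≥0∞} {x : X}
    (h : γ.prod γ {p | ¬ JoinedIn T (f x p.1) (f x p.2)} ≤ ε) : ∃ z, Rep γ f T ε x z := by
  set A : Set (E × E) := {p | ¬ JoinedIn T (f x p.1) (f x p.2)} with hA
  have hm := measurableSet_toMeasurable (γ.prod γ) A
  have h1 : ∫⁻ ξ, γ (Prod.mk ξ ⁻¹' toMeasurable (γ.prod γ) A) ∂γ ≤ ε := by
    rw [← Measure.prod_apply hm, measure_toMeasurable]; exact h
  obtain ⟨ξ, hξ⟩ := exists_le_lintegral (μ := γ)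
    (measurable_measure_prodMk_left (ν := γ) hm).aemeasurable
  refine ⟨f x ξ, le_trans (measure_mono fun ξ' hξ' => ?_) (hξ.trans h1)⟩
  exact subset_toMeasurable _ _ hξ'

/-- **One-step hypothesis of `chain`** from slack. -/
theorem exists_rep_of_slack {X Y : Type*} [TopologicalSpace Y] {f : X → (ι → ℝ) → Y} {x : X}
    (hF : Continuous (f x)) {T : Set Y} {B : Set (ι → ℝ)} {ρ R : ℝ} (M : ℕ) (hM : 0 < M)
    (hρ : 4 * R ≤ ρ * M) (hB : ∀ ξ ∉ B, ∀ ξ', en (ξ' - ξ) ≤ ρ → f x ξ' ∈ T) {ε : ℝ≥0∞}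
    (hε : M * gv ι B + 2 * gv ι {ξ | R < en ξ} ≤ ε) : ∃ z, Rep (gv ι) f T ε x z :=
  exists_rep_of_prod ((prod_not_joined_le hF M hM hρ hB).trans hε)

end rot

end Crest.Agent.T157.Lift
end
end

-- ▼ part T157/LiftE_74
section

/-!
# Row 157, part D: the end of the lifting argument (helper74)

If no vertex of the cube near the magnetisation `μ x` of a state `x ∈ S` lies on the boundary of
`B`, then a state near `B` and a state near `Bᶜ` are not joined in `S`.
-/

set_option autoImplicit false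

noncomputable section

namespace Crest.Agent.T157.Lift

open Set Filter Topology
open Crest.ProbabilityR.SpinGlassDynamics Crest.Agent.T157.E Crest.Agent.T157.Cut

variable {n : ℕ}

/-- squared distance of a vertex to a point -/
def d2 (σ : Cube n) (m : Fin n → ℝ) : ℝ := ∑ i, (sv σ i - m i) ^ 2

/-- rounding -/
def rnd (m : Fin n → ℝ) : Cube n := fun i => decide (0 ≤ m i)

lemma sq_rnd_le (m : Fin n → ℝ) (i : Fin n) (b : Bool) :
    (spin (rnd m i) - m i) ^ 2 ≤ (spin b - m i) ^ 2 := by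
  by_cases h : 0 ≤ m i <;> cases b <;> simp [rnd, spin, h] <;> nlinarith


lemma d2_rnd_le_norm {m : Fin n → ℝ} (hm : ∀ i, |m i| ≤ 1) :
    d2 (rnd m) m ≤ n - ∑ i, m i ^ 2 := by
  have : (n : ℝ) - ∑ i, m i ^ 2 = ∑ i : Fin n, (1 - m i ^ 2) := by
    rw [Finset.sum_sub_distrib]; simp
  rw [this]
  refine Finset.sum_le_sum fun i _ => ?_
  have := abs_le.1 (hm i)
  by_cases h : 0 ≤ m i <;> simp [sv, rnd, spin, h] <;> nlinarith

lemma continuous_d2 (σ : Cube n) : Continuous (d2 σ) := by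
  unfold d2; fun_prop

/-- all vertices of a boundary-free ball are on the side of the rounding -/
lemma side_eq {B : Set (Cube n)} {m : Fin n → ℝ} {r : ℝ} (h : ∀ σ, d2 σ m < r → σ ∉ bd B)
    {σ : Cube n} (hσ : d2 σ m < r) : σ ∈ B ↔ rnd m ∈ B := by
  classical
  have key : ∀ s : Finset (Fin n), (σ ∈ B ↔ (fun i => if i ∈ s then rnd m i else σ i) ∈ B) := by
    intro s
    induction s using Finset.induction_on with
    | empty => simp
    | insert i s hi ih =>
      have h1 : d2 (fun j => if j ∈ s then rnd m j else σ j) m < r := by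
        refine lt_of_le_of_lt (Finset.sum_le_sum fun j _ => ?_) hσ
        by_cases hj : j ∈ s
        · simpa [sv, hj] using sq_rnd_le m j (σ j)
        · simp [sv, hj]
      have h2 := h _ h1
      simp only [bd, mem_ofPred_eq, not_exists, not_not] at h2
      have e : (fun j => if j ∈ insert i s then rnd m j else σ j) =
          Function.update (fun j => if j ∈ s then rnd m j else σ j) i (rnd m i) := by
        funext j
        by_cases hj : j = i
        · subst hj; simp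
        · simp [hj]
      rw [e, ← h2 i (rnd m i)]
      exact ih
  simpa using key Finset.univ

/-- **End of the lifting argument.** -/
theorem not_joined_of_ball {X : Type*} [TopologicalSpace X] {S : Set X} {μ : X → Fin n → ℝ}
    (hμ : ContinuousOn μ S) {B : Set (Cube n)} {r : ℝ}
    (h1 : ∀ x ∈ S, d2 (rnd (μ x)) (μ x) < r)
    (h2 : ∀ x ∈ S, ∀ σ, d2 σ (μ x) < r → σ ∉ bd B) {a b : X} {σ τ : Cube n} (hσ : σ ∈ B)
    (hτ : τ ∉ B) (ha : d2 σ (μ a) < r) (hb : d2 τ (μ b) < r) : ¬ JoinedIn S a b := by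
  rintro ⟨p, hp⟩
  have hc : Continuous fun t => μ (p t) := hμ.comp_continuous p.continuous hp
  have hloc : ∀ t, ∀ᶠ u in 𝓝 t, (rnd (μ (p t)) ∈ B ↔ rnd (μ (p u)) ∈ B) := by
    intro t
    have : ∀ᶠ u in 𝓝 t, d2 (rnd (μ (p t))) (μ (p u)) < r :=
      (((continuous_d2 _).comp hc).tendsto t).eventually (gt_mem_nhds (h1 _ (hp t)))
    filter_upwards [this] with u hu using side_eq (h2 _ (hp u)) hu
  have hopen : IsOpen {t | rnd (μ (p t)) ∈ B} := by
    rw [isOpen_iff_mem_nhds]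
    intro t ht
    filter_upwards [hloc t] with u hu using hu.1 ht
  have hclosed : IsClosed {t | rnd (μ (p t)) ∈ B} := by
    rw [← isOpen_compl_iff, isOpen_iff_mem_nhds]
    intro t ht
    filter_upwards [hloc t] with u hu using fun h => ht (hu.2 h)
  have h0 : rnd (μ (p 0)) ∈ B := by
    have := side_eq (h2 _ (hp 0)) (σ := σ) (by simpa using ha)
    exact this.1 hσ
  have hall : {t | rnd (μ (p t)) ∈ B} = univ := IsClopen.eq_univ ⟨hclosed, hopen⟩ ⟨0, h0⟩
  have h3 : rnd (μ (p 1)) ∈ B := by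
    have : (1 : unitInterval) ∈ {t | rnd (μ (p t)) ∈ B} := hall ▸ mem_univ _
    exact this
  have := side_eq (h2 _ (hp 1)) (σ := τ) (by simpa using hb)
  exact hτ (this.2 h3)

end Crest.Agent.T157.Lift
end
end

-- ▼ part T157/UpDef_74

/-!
# Row 157, part D (helper74): the top of the upper half, statements

`Cut1Stmt` follows from the one-step lemmas (44), (SC) (68), the Parisi facts (56) and the leaves
`AncStmt`, `FeStmt`, `GamEndStmt`, `RmtStmt`, `SiteStmt` stated here.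
All exponents are powers of `eps n = n ^ (-10⁻⁷)`.
-/

set_option autoImplicit false

noncomputable section

namespace Crest.Agent.T157.Up

open MeasureTheory Matrix Set Filter
open Crest.ProbabilityR.SpinGlassDynamics
open Crest.Agent.T157.E Crest.Agent.T157.Eig Crest.Agent.T157.Conc Crest.Agent.T157.St
open Crest.Agent.T157.Pf Crest.Agent.T157.Cond Crest.Agent.T157.Sc Crest.Agent.T157.Cut

variable {n : ℕ} {β C b : ℝ}

/-- squared Euclidean distance -/
def ds (x z : Fin n → ℝ) : ℝ := (x - z) ⬝ᵥ (x - z)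

/-- the input of the planted Markov bound: `E exp F_k (√(kτ) Z) ≤ exp n (P + kτ/2 + e)` -/
def Mom (P τ e : ℝ) (N : ℕ) (F : ℕ → (Fin n → ℝ) → ℝ) : Prop :=
  ∀ k ≤ N, ELip (√n) (F k) ∧
    ∫ z, Real.exp (F k (√(k * τ) • z)) ∂E.gv (Fin n) ≤ Real.exp (n * (P + k * τ / 2 + e))

/-- **ancestors of the set `B`**: a chain `m 0, …, m K` of good points at the levels
`q 0 ≤ … ≤ q K` below `b`, then pairs `(y k, μ k)`, `k ≤ N`, and a vertex `X ∈ B`. -/
def Anc (S : Site β C b) (A : Matrix (Fin n) (Fin n) ℝ) (F : ℕ → (Fin n → ℝ) → ℝ)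
    (D e Y r : ℝ) (N : ℕ) (B : Set (Cube n)) : Prop :=
  ∃ (K : ℕ) (q : ℕ → ℝ) (m y μ : ℕ → Fin n → ℝ) (X : Cube n),
    q 0 ≤ D ∧ b - D ≤ q K ∧
    (∀ p < K, q p ≤ q (p + 1) ∧ q (p + 1) ≤ q p + D ∧ ds (m (p + 1)) (m p) ≤ D * n) ∧
    (∀ p ≤ K, m p ∈ box n ∧ |qq (m p) - q p| ≤ D ∧ n * (S.P - e) ≤ V S A (m p)) ∧
    ds (y 0) 0 ≤ D * n ∧ ds (μ 0) (m K) ≤ D * n ∧
    (∀ k < N, ds (y (k + 1)) (y k) ≤ D * n ∧ ds (μ (k + 1)) (μ k) ≤ D * n) ∧
    (∀ k ≤ N, μ k ∈ box n ∧ b - D ≤ qq (μ k) ∧ nrm (y k) ≤ Y * √n ∧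
      F k (y k) ≤ V S A (μ k) + y k ⬝ᵥ μ k + e * n) ∧
    X ∈ B ∧ ds (sv X) (μ N) < r * n

/-- the base scale -/
def eps (n : ℕ) : ℝ := (n : ℝ) ^ (-(1 / 10000000 : ℝ))
/-- the time step -/
def tau (n : ℕ) : ℝ := eps n ^ 7560
/-- the number of steps above `b`; the total time is `1 / eps n` up to `tau n` -/
def NN (n : ℕ) : ℕ := ⌈(eps n ^ 7561)⁻¹⌉₊

/-- couplings and the diagonal of the GOE completion -/
abbrev Om (n : ℕ) : Measure ((Pair n → ℝ) × (Fin n → ℝ)) := (disorderLaw n).prod (E.gv (Fin n))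

/-- the Parisi data used at size `n` -/
def Data (β C c0 C0 : ℝ) (P : ℕ → Par) (S : ∀ n, Site β C (P n).b) : Prop :=
  ∀ᶠ n : ℕ in atTop, (P n).K = n ^ 16 ∧ (P n).OK ∧ (P n).Good β c0 C0 (1 / n) ∧ Rel (P n) (S n)

/-- **ANCESTORS** (51) -/
def AncStmt : Prop :=
  ∀ β C c0 C0 : ℝ, 1 < β → 1 ≤ C → 0 < c0 → c0 ≤ 1 → 1 ≤ C0 →
    ∀ (P : ℕ → Par) (S : ∀ n, Site β C (P n).b), Data β C c0 C0 P S →
    ∃ d : ℕ → ℝ, (∀ n, 0 ≤ d n ∧ d n ≤ 1) ∧ (∀ᶠ n : ℕ in atTop, d n ≤ eps n ^ 8) ∧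
      ∀ δ : ℝ, 0 < δ → Top.Whp Om fun n z => ∀ B : Set (Cube n),
        ENNReal.ofReal δ ≤
          disorderLaw n {g1 | δ ≤ mass (gibbsWeight n β (mixG (d n) z.1 g1)) B} →
        ∀ F : ℕ → (Fin n → ℝ) → ℝ, Mom (S n).P (tau n) (eps n ^ 43) (NN n) F →
          Anc (S n) (β • Wmat n z.1 z.2) F (eps n ^ 210) (eps n ^ 42) ((eps n ^ 2)⁻¹)
            (eps n ^ 14) (NN n) B

/-- Guerra's upper bound in tail form -/
def FeStmt : Prop :=
  ∀ β : ℝ, 1 < β → ∀ P : ℕ → Par, (∀ᶠ n : ℕ in atTop, (P n).OK) →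
    Top.Whp Om fun n z =>
      Real.log (Zw (ising (β • Wmat n z.1 z.2) 0)) ≤ n * ((P n).val β + eps n ^ 100)

/-- the scalar channel above `b` -/
def GamEndStmt : Prop :=
  ∀ (β : ℝ) (P : Par), 0 < β → P.OK → ∀ s ∈ Icc P.b 1, ∀ t : ℝ, 0 ≤ t →
    1 - Real.exp (-t / 2) ≤ P.Gam β (s + t / β ^ 2)

/-- freeness with all diagonals -/
def RmtStmt : Prop :=
  ∀ β : ℝ, 1 < β → ∀ k : ℕ, 1 ≤ k → k ≤ 126 → Top.Whp Om fun n z =>
    RMT β (β • Wmat n z.1 z.2) (((eps n ^ k) ^ 6)⁻¹) ((eps n ^ k) ^ 2) ((eps n ^ k) ^ 4)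

/-- the site data of a step function -/
def SiteStmt : Prop :=
  ∀ β : ℝ, 1 < β → ∃ C : ℝ, 1 ≤ C ∧ ∀ P : Par, P.OK → ∃ S : Site β C P.b, Rel P S

/-- `St.Step2Stmt` with the lower bound `(1 - q)² ≤ C1 (k + η²)` of the predicted increment -/
def Step2L : Prop :=
  ∀ β C CA : ℝ, 1 ≤ β → 1 ≤ C → 1 ≤ CA → ∃ C1 : ℝ, 1 ≤ C1 ∧ ∀ (n : ℕ) (b : ℝ) (S : Site β C b)
    (A : Matrix (Fin n) (Fin n) ℝ) (η τ : ℝ), Hyp β CA C1 A η τ → ∀ y : Fin n → ℝ, ∀ m ∈ box n,
    b - η ^ 4 ≤ qq m → C1 * max (-kap S m) 0 ≤ 1 → ∀ Y : ℝ, 1 ≤ Y → nrm y ≤ Y * √n →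
    ∀ x : ℝ, 1 ≤ x → ∃ k : ℝ, 0 ≤ k ∧ k ≤ 2 / η ∧ (1 - qq m) ^ 2 ≤ C1 * (k + η ^ 2) ∧
    Ball (20 * Real.exp (-x ^ 2 / 2)) 1 fun ξ =>
      (step2 S A η τ (y, m) ξ).2 ∈ box n ∧
      V S A m + y ⬝ᵥ m + (√τ * (m ⬝ᵥ fun i => ξ (Sum.inl i)) + τ * (m ⬝ᵥ m) / 2 + n * τ / 2) -
          C1 * (n * τ * (k * (max (-kap S m) 0 ^ 2 + η ^ 2) + η ^ 2) +
            x * Y * √(n * τ) / η ^ 10) ≤
        V S A (step2 S A η τ (y, m) ξ).2 +
          (step2 S A η τ (y, m) ξ).1 ⬝ᵥ (step2 S A η τ (y, m) ξ).2 ∧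
      n * |qq (step2 S A η τ (y, m) ξ).2 - qq m - τ * k| ≤
        C1 * (n * τ * η ^ 2 * (1 + k) + x * √(n * τ) / η ^ 10) ∧
      ((step2 S A η τ (y, m) ξ).2 - m) ⬝ᵥ ((step2 S A η τ (y, m) ξ).2 - m) ≤
        C1 * (n * τ / η + x * √(n * τ) / η ^ 10) ∧
      nrm ((step2 S A η τ (y, m) ξ).1 - y) ≤ τ * √n + √τ * (√n + x + 1)

/-- the assembly proved in `Up_74` -/
def UpGlue : Prop :=
  ParStmt → SiteStmt → Step1Stmt → Step2L → ContStmt → SegStmt → EndStmt → ScStmt → RmtStmt →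
    FeStmt → GamEndStmt → AncStmt → Cut1Stmt

end Crest.Agent.T157.Up

end
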