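import Crest.Agent.T157.AnDef_51
import Crest.Agent.T157.StA_44
import Crest.Agent.T157.UpDef_74
import Crest.Agent.T157.NrmG_84
import Crest.Agent.T157.ConcH_16

-- ▼ part T157/AnA_51
section

/-!
Row 157, part D (helper51): laws on the cube, shrinking of barycentres, the potential of a posterior.
-/

set_option autoImplicit false

noncomputable section

namespace Crest.Agent.T157.An

open MeasureTheory Matrix Set Finset
open Crest.Agent.T157.E Crest.Agent.T157.Eig Crest.Agent.T157.St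
open Crest.Agent.T157.SL Crest.Agent.T157.Tree

variable {n : ℕ} {β C b : ℝ} {w v : Cube n → ℝ}

lemma pr_nn (hw : Wt w) (x : Cube n) : 0 ≤ prob w x := div_nonneg (hw.nn x) hw.pos.le

lemma pr_one (hw : Wt w) : ∑ x, prob w x = 1 := by
  simp only [prob, ← Finset.sum_div]; exact div_self hw.pos.ne'

lemma pr_self (h : ∑ x, w x = 1) : prob w = w := funext fun x => by simp [prob, h]

lemma wt_of_one (h0 : ∀ x, 0 ≤ w x) (h : ∑ x, w x = 1) : Wt w := ⟨h0, by rw [h]; exact one_pos⟩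

lemma mag_prob (hw : Wt w) : mag (prob w) = mag w := by
  funext i; simp only [mag, meanV, mean, pr_self (pr_one hw)]

lemma wt_tilt (hw : Wt w) (y : Fin n → ℝ) : Wt (tilt w y) := by
  refine ⟨fun x => mul_nonneg (hw.nn x) (Real.exp_pos _).le, ?_⟩
  obtain ⟨x, hx⟩ := hw.exists_pos
  exact Finset.sum_pos' (fun x _ => mul_nonneg (hw.nn x) (Real.exp_pos _).le)
    ⟨x, Finset.mem_univ _, mul_pos hx (Real.exp_pos _)⟩

lemma mag_eq' (w : Cube n → ℝ) : mag w = ∑ x, prob w x • sv x := by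
  funext i; simp [mag, meanV, mean, Finset.sum_apply]

lemma dot_mag (u : Fin n → ℝ) (w : Cube n → ℝ) : u ⬝ᵥ mag w = ∑ x, prob w x * (u ⬝ᵥ sv x) := by
  rw [mag_eq', dotProduct_sum]; simp

lemma abs_mag_le (hw : Wt w) (i : Fin n) : |mag w i| ≤ 1 := by
  simp only [mag, meanV, mean]
  refine (Finset.abs_sum_le_sum_abs _ _).trans (le_of_eq ?_)
  rw [← pr_one hw]
  exact Finset.sum_congr rfl fun x _ => by
    rw [abs_mul, abs_of_nonneg (pr_nn hw x), sv, abs_spin, mul_one]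

lemma mag_dot_le (hw : Wt w) : mag w ⬝ᵥ mag w ≤ n := by
  rw [dot_self_eq]
  calc ∑ i, mag w i ^ 2 ≤ ∑ _i : Fin n, (1 : ℝ) := Finset.sum_le_sum fun i _ => by
        have := abs_le.1 (abs_mag_le hw i); nlinarith
    _ = n := by simp

lemma qq_nn (m : Fin n → ℝ) : 0 ≤ qq m := by
  unfold qq; rw [dot_self_eq]; positivity

lemma qq_mag_le (hw : Wt w) : qq (mag w) ≤ 1 := div_le_one_of_le₀ (mag_dot_le hw) (Nat.cast_nonneg _)

lemma qq_smul (c : ℝ) (m : Fin n → ℝ) : qq (c • m) = c ^ 2 * qq m := by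
  simp only [qq, smul_dotProduct, dotProduct_smul, smul_eq_mul]; ring

lemma abs_ovl_le (x y : Cube n) : |ovl x y| ≤ 1 := by
  rw [ovl, abs_div, Nat.abs_cast]
  refine div_le_one_of_le₀ ((abs_dot_le _ _).trans (le_of_eq ?_)) (Nat.cast_nonneg _)
  simp only [nrm, sv_dot_self]
  exact Real.mul_self_sqrt (Nat.cast_nonneg _)

lemma bil_const {p q : Cube n → ℝ} (hp : ∑ x, p x = 1) (hq : ∑ x, q x = 1) (c : ℝ) :
    bil p q (fun _ _ => c) = c := by
  simp only [bil, ← Finset.sum_mul, ← Finset.mul_sum, hq, mul_one, hp, one_mul]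

lemma dev_eq (hw : Wt w) (u : ℝ) : dev w w u = ovar w + (qq (mag w) - u) ^ 2 := by
  have h1 := bil_ovl (pr_one hw) (pr_one hw)
  rw [mag_prob hw] at h1
  have h2 := bil_const (pr_one hw) (pr_one hw) ((qq (mag w) - u) ^ 2 - 2 * (qq (mag w) - u) * qq (mag w))
  unfold ovar dev
  change bil _ _ _ = qq (mag w) at h1
  set q := qq (mag w)
  have e : bil (prob w) (prob w) (fun x y => (ovl x y - u) ^ 2) =
      bil (prob w) (prob w) (fun x y => (ovl x y - q) ^ 2) + 2 * (q - u) * bil (prob w) (prob w) ovl +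
        bil (prob w) (prob w) (fun _ _ => (q - u) ^ 2 - 2 * (q - u) * q) := by
    simp only [bil, Finset.mul_sum, ← Finset.sum_add_distrib]
    exact Finset.sum_congr rfl fun x _ => Finset.sum_congr rfl fun y _ => by ring
  rw [e, h1, h2]; ring

lemma ovar_le (hw : Wt w) (u : ℝ) : ovar w ≤ dev w w u := by
  rw [dev_eq hw]; exact le_add_of_nonneg_right (sq_nonneg _)

/-! ### mixing with the uniform law -/

/-- the uniform law -/
def unif (n : ℕ) : Cube n → ℝ := fun _ => (2 ^ n : ℝ)⁻¹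

lemma unif_one : ∑ x, unif n x = 1 := by simp [unif]

lemma sum_sv (i : Fin n) : ∑ x : Cube n, sv x i = 0 := by
  have h := Equiv.sum_comp (Function.Involutive.toPerm (fun x : Cube n => fun j => !x j)
    (fun x => by funext j; simp)) (fun x => sv x i)
  have e : ∑ x : Cube n, -sv x i = ∑ x : Cube n, sv x i :=
    (Finset.sum_congr rfl fun x _ => (spin_not (x i)).symm).trans h
  rw [Finset.sum_neg_distrib] at e
  linarith

/-- the mixture -/
def mixU (θ : ℝ) (w : Cube n → ℝ) : Cube n → ℝ := fun x => (1 - θ) * prob w x + θ * unif n x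

lemma mixU_one (hw : Wt w) (θ : ℝ) : ∑ x, mixU θ w x = 1 := by
  simp only [mixU, Finset.sum_add_distrib, ← Finset.mul_sum, pr_one hw, unif_one]; ring

lemma unif_pos (x : Cube n) : 0 < unif n x := by unfold unif; positivity

lemma mixU_nn (hw : Wt w) {θ : ℝ} (h0 : 0 ≤ θ) (h1 : θ ≤ 1) (x : Cube n) : 0 ≤ mixU θ w x :=
  add_nonneg (mul_nonneg (by linarith) (pr_nn hw x)) (mul_nonneg h0 (unif_pos x).le)

lemma mag_mixU (hw : Wt w) (θ : ℝ) : mag (mixU θ w) = (1 - θ) • mag w := by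
  funext i
  rw [mag_eq (mixU_one hw θ), Pi.smul_apply, ← mag_prob hw, mag_eq (pr_one hw)]
  simp only [mixU, unif, add_mul, Finset.sum_add_distrib, mul_assoc, ← Finset.mul_sum, sum_sv]
  simp

lemma shr_box (hw : Wt w) {θ : ℝ} (h0 : 0 < θ) (h1 : θ ≤ 1) : (1 - θ) • mag w ∈ box n := fun i => by
  rw [Pi.smul_apply, smul_eq_mul, abs_mul, abs_of_nonneg (by linarith : 0 ≤ 1 - θ)]
  have := abs_mag_le hw i
  nlinarith [abs_nonneg (mag w i)]

lemma bil_le {p q : Cube n → ℝ} (hp0 : ∀ x, 0 ≤ p x) (hp : ∑ x, p x = 1) (hq0 : ∀ x, 0 ≤ q x)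
    (hq : ∑ x, q x = 1) {K : Cube n → Cube n → ℝ} {c : ℝ} (h : ∀ x y, K x y ≤ c) :
    bil p q K ≤ c := by
  rw [← bil_const hp hq c]
  exact Finset.sum_le_sum fun x _ => Finset.sum_le_sum fun y _ =>
    mul_le_mul_of_nonneg_left (h x y) (mul_nonneg (hp0 x) (hq0 y))

lemma ovar_mixU (hw : Wt w) {θ : ℝ} (h0 : 0 ≤ θ) (h1 : θ ≤ 1) :
    ovar (mixU θ w) ≤ ovar w + 8 * θ := by
  refine (ovar_le (wt_of_one (mixU_nn hw h0 h1) (mixU_one hw θ)) (qq (mag w))).trans ?_
  unfold ovar dev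
  rw [pr_self (mixU_one hw θ)]
  set K := fun x y : Cube n => (ovl x y - qq (mag w)) ^ 2
  have hK : ∀ x y, K x y ≤ 4 := fun x y => by
    have := abs_le.1 (abs_ovl_le x y)
    have h2 := qq_nn (mag w)
    have h3 := qq_mag_le hw
    simp only [K]; nlinarith
  have e : bil (mixU θ w) (mixU θ w) K = (1 - θ) ^ 2 * bil (prob w) (prob w) K +
      (1 - θ) * θ * bil (prob w) (unif n) K + θ * bil (unif n) (mixU θ w) K := by
    simp only [bil, Finset.mul_sum, ← Finset.sum_add_distrib]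
    exact Finset.sum_congr rfl fun x _ => Finset.sum_congr rfl fun y _ => by
      simp only [mixU]; ring
  have a1 := bil_le (pr_nn hw) (pr_one hw) (fun x => (unif_pos x).le) unif_one hK
  have a2 := bil_le (fun x => (unif_pos x).le) unif_one (mixU_nn hw h0 h1) (mixU_one hw θ) hK
  have a3 : 0 ≤ bil (prob w) (prob w) K := bil_nonneg (pr_nn hw) (pr_nn hw) fun _ _ => sq_nonneg _
  have a4 : (1 - θ) * θ * bil (prob w) (unif n) K ≤ (1 - θ) * θ * 4 :=
    mul_le_mul_of_nonneg_left a1 (mul_nonneg (by linarith) h0)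
  have a5 : θ * bil (unif n) (mixU θ w) K ≤ θ * 4 := mul_le_mul_of_nonneg_left a2 h0
  have a6 : (1 - θ) ^ 2 * bil (prob w) (prob w) K ≤ 1 * bil (prob w) (prob w) K :=
    mul_le_mul_of_nonneg_right (by nlinarith) a3
  rw [e]; nlinarith

lemma free_eq (A : Matrix (Fin n) (Fin n) ℝ) (w : Cube n → ℝ) : free A w =
    ∑ x, prob w x * (1 / 2 * (sv x ⬝ᵥ A *ᵥ sv x)) + ∑ x, Real.negMulLog (prob w x) := by
  simp only [free, mean, ← Finset.sum_add_distrib, Real.negMulLog]
  exact Finset.sum_congr rfl fun x _ => by ring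

lemma abs_H_le {A : Matrix (Fin n) (Fin n) ℝ} {CA : ℝ} (hA : opn A ≤ CA) (x : Cube n) :
    |1 / 2 * (sv x ⬝ᵥ A *ᵥ sv x)| ≤ n * CA / 2 := by
  have := abs_quad_le A (sv x)
  rw [sv_dot_self] at this
  rw [abs_mul, abs_of_pos (by norm_num : (0 : ℝ) < 1 / 2)]
  nlinarith [mul_le_mul_of_nonneg_right hA (Nat.cast_nonneg (α := ℝ) n)]

lemma ent_le (hw : Wt w) : ∑ x, Real.negMulLog (prob w x) ≤ n := by
  have h : ∀ x, Real.negMulLog (prob w x) ≤ prob w x * n + (unif n x - prob w x) := fun x => by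
    rcases (pr_nn hw x).eq_or_lt with h0 | h0
    · rw [← h0]; simpa using (unif_pos x).le
    have h1 := Real.log_le_sub_one_of_pos (div_pos (unif_pos x) h0)
    rw [Real.log_div (unif_pos x).ne' h0.ne'] at h1
    have h2 : -(n : ℝ) ≤ Real.log (unif n x) := by
      rw [unif, Real.log_inv, Real.log_pow]
      have := Real.log_two_lt_d9
      nlinarith [Nat.cast_nonneg (α := ℝ) n]
    have h3 : prob w x * (unif n x / prob w x - 1) = unif n x - prob w x := by field_simp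
    rw [Real.negMulLog]
    nlinarith [mul_le_mul_of_nonneg_left h1 h0.le, mul_le_mul_of_nonneg_left h2 h0.le]
  refine (Finset.sum_le_sum fun x _ => h x).trans (le_of_eq ?_)
  simp only [Finset.sum_add_distrib, Finset.sum_sub_distrib, ← Finset.sum_mul, pr_one hw, unif_one]
  ring

lemma free_mixU (hw : Wt w) {A : Matrix (Fin n) (Fin n) ℝ} {CA θ : ℝ} (hA : opn A ≤ CA)
    (h0 : 0 ≤ θ) (h1 : θ ≤ 1) : free A w - n * (θ * (CA + 1)) ≤ free A (mixU θ w) := by
  rw [free_eq, free_eq, pr_self (mixU_one hw θ)]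
  set H := fun x : Cube n => 1 / 2 * (sv x ⬝ᵥ A *ᵥ sv x)
  have a1 : (1 - θ) * ∑ x, Real.negMulLog (prob w x) ≤ ∑ x, Real.negMulLog (mixU θ w x) := by
    rw [Finset.mul_sum]
    refine Finset.sum_le_sum fun x _ => ?_
    have h := Real.concaveOn_negMulLog.2 (pr_nn hw x) (unif_pos x).le (by linarith : 0 ≤ 1 - θ) h0
      (by ring)
    have h2 : 0 ≤ Real.negMulLog (unif n x) := Real.negMulLog_nonneg (unif_pos x).le
      (inv_le_one_of_one_le₀ (one_le_pow₀ one_le_two))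
    simp only [smul_eq_mul] at h
    exact le_trans (le_add_of_nonneg_right (mul_nonneg h0 h2)) h
  have a2 : ∑ x, mixU θ w x * H x = (1 - θ) * ∑ x, prob w x * H x + θ * ∑ x, unif n x * H x := by
    simp only [mixU, Finset.mul_sum, ← Finset.sum_add_distrib]
    exact Finset.sum_congr rfl fun x _ => by ring
  have a3 : ∑ x, prob w x * H x ≤ ∑ x, prob w x * (n * CA / 2) := Finset.sum_le_sum fun x _ =>
    mul_le_mul_of_nonneg_left (le_of_abs_le (abs_H_le hA x)) (pr_nn hw x)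
  have a4 : ∑ x, unif n x * (-(n * CA / 2)) ≤ ∑ x, unif n x * H x := Finset.sum_le_sum fun x _ =>
    mul_le_mul_of_nonneg_left (neg_le_of_abs_le (abs_H_le hA x)) (unif_pos x).le
  rw [← Finset.sum_mul, pr_one hw] at a3
  rw [← Finset.sum_mul, unif_one] at a4
  have a5 := ent_le hw
  rw [a2]
  nlinarith [mul_le_mul_of_nonneg_left a3 h0, mul_le_mul_of_nonneg_left a4 h0,
    mul_le_mul_of_nonneg_left a5 h0]

/-- TAP for the shrunk barycentre -/
theorem Tap.shr {S : Site β C b} {A : Matrix (Fin n) (Fin n) ℝ} {ρ ε CA θ : ℝ} (h : Tap S A ρ ε)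
    (hA : opn A ≤ CA) (h0 : 0 < θ) (h1 : θ ≤ 1) (hw : Wt w) (hρ : ovar w + 8 * θ ≤ ρ) :
    free A w - n * (ε + θ * (CA + 1)) ≤ V S A ((1 - θ) • mag w) := by
  have := h (mixU θ w) (wt_of_one (mixU_nn hw h0.le h1) (mixU_one hw θ))
    (by rw [mag_mixU hw]; exact shr_box hw h0 h1) ((ovar_mixU hw h0.le h1).trans hρ)
  rw [mag_mixU hw] at this
  linarith [free_mixU hw hA h0.le h1]

/-- the free energy of a tilt of a dominated law -/
theorem free_tilt (hw : Wt w) {A : Matrix (Fin n) (Fin n) ℝ} {Λ : ℝ}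
    (hd : ∀ x, prob w x ≤ Real.exp Λ * prob (ising A 0) x) (y : Fin n → ℝ) :
    Real.log (∑ x, ising A 0 x) - Λ + Real.log (mean w fun x => Real.exp (y ⬝ᵥ sv x)) ≤
      free A (tilt w y) + y ⬝ᵥ mag (tilt w y) := by
  have ht := wt_tilt hw y
  have hZ : 0 < ∑ x, ising A 0 x :=
    Finset.sum_pos (fun _ _ => Real.exp_pos _) Finset.univ_nonempty
  set M := mean w fun x => Real.exp (y ⬝ᵥ sv x) with hM
  have eM : M = (∑ x, tilt w y x) / ∑ x, w x := by
    simp only [hM, mean, prob, tilt, Finset.sum_div]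
    exact Finset.sum_congr rfl fun x _ => by ring
  have hM0 : 0 < M := by rw [eM]; exact div_pos ht.pos hw.pos
  have ep : ∀ x, prob (tilt w y) x = prob w x * Real.exp (y ⬝ᵥ sv x) / M := fun x => by
    have := hw.pos.ne'; have := ht.pos.ne'
    rw [eM, prob, prob, tilt]; field_simp
  have e0 : ∀ c : ℝ, c = ∑ x, prob (tilt w y) x * c := fun c => by
    rw [← Finset.sum_mul, pr_one ht, one_mul]
  rw [dot_mag, free, mean, ← Finset.sum_add_distrib,
    e0 (Real.log (∑ x, ising A 0 x) - Λ + Real.log M)]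
  refine Finset.sum_le_sum fun x _ => ?_
  rw [← mul_add]
  rcases (pr_nn ht x).eq_or_lt with h0 | h0
  · rw [← h0]; simp
  refine mul_le_mul_of_nonneg_left ?_ h0.le
  have h1 : prob (tilt w y) x ≤ Real.exp (Λ + 1 / 2 * (sv x ⬝ᵥ A *ᵥ sv x) + y ⬝ᵥ sv x -
      Real.log (∑ x, ising A 0 x) - Real.log M) := by
    rw [ep, Real.exp_sub, Real.exp_sub, Real.exp_log hZ, Real.exp_log hM0, Real.exp_add,
      Real.exp_add]
    refine div_le_div_of_nonneg_right ?_ hM0.le
    have := mul_le_mul_of_nonneg_right (hd x) (Real.exp_pos (y ⬝ᵥ sv x)).le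
    refine this.trans (le_of_eq ?_)
    rw [prob, ising, zero_dotProduct, add_zero]; ring
  have := (Real.log_le_iff_le_exp h0).2 h1
  linarith

end Crest.Agent.T157.An

end
end

-- ▼ part T157/AnB_51
section

/-!
Row 157, part D (helper51): the deterministic construction of the ancestors.
-/

set_option autoImplicit false

noncomputable section

namespace Crest.Agent.T157.An

open MeasureTheory Matrix Set Finset
open Crest.Agent.T157.E Crest.Agent.T157.Eig Crest.Agent.T157.St Crest.Agent.T157.Conc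
open Crest.Agent.T157.SL Crest.Agent.T157.Tree Crest.Agent.T157.Sc Crest.Agent.T157.Up

variable {n : ℕ} {β C b : ℝ}

lemma int_exp_smul {L : ℝ} {F : (Fin n → ℝ) → ℝ} (h : ELip L F) (a : ℝ) :
    Integrable (fun z => Real.exp (F (a • z))) (E.gv (Fin n)) := by
  have h1 : ELip (L * |a|) fun z => F (a • z) := fun x y => by
    have := h (a • x) (a • y)
    rwa [← smul_sub, en_smul, ← mul_assoc] at this
  simpa using h1.integrable_exp 1

/-- two families are merged into one -/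
lemma fam_max {τ : ℝ} {N : ℕ} {F G : ℕ → (Fin n → ℝ) → ℝ} {a a' : ℝ}
    (hF : ∀ j ≤ N, ELip (√n) (F j) ∧ ∫ z, Real.exp (F j (√(j * τ) • z)) ∂E.gv (Fin n) ≤
      Real.exp (a + n * (j * τ) / 2))
    (hG : ∀ j ≤ N, ELip (√n) (G j) ∧ ∫ z, Real.exp (G j (√(j * τ) • z)) ∂E.gv (Fin n) ≤
      Real.exp (a' + n * (j * τ) / 2)) :
    Fam τ N 0 fun j y => max (F j y - a) (G j y - a') - 1 := fun j hj => by
  obtain ⟨f1, f2⟩ := hF j hj
  obtain ⟨g1, g2⟩ := hG j hj
  have hL : ELip (√n) fun y => max (F j y - a) (G j y - a') - 1 := fun x y => by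
    rw [sub_sub_sub_cancel_right]
    refine (abs_max_sub_max_le_max _ _ _ _).trans (max_le ?_ ?_)
    · exact f1.sub_const a x y
    · exact g1.sub_const a' x y
  refine ⟨hL, ?_⟩
  have i1 := int_exp_smul f1 (√(j * τ))
  have i2 := int_exp_smul g1 (√(j * τ))
  have h2 : Real.exp (-1) ≤ 1 / 2 := by
    rw [Real.exp_neg, one_div]
    exact inv_anti₀ two_pos (by linarith [Real.add_one_le_exp (1 : ℝ)])
  calc _ ≤ ∫ z, (Real.exp (-a) / 2 * Real.exp (F j (√(j * τ) • z)) +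
        Real.exp (-a') / 2 * Real.exp (G j (√(j * τ) • z))) ∂E.gv (Fin n) := by
        refine integral_mono (int_exp_smul hL _) ((i1.const_mul _).add (i2.const_mul _)) fun z => ?_
        set u := F j (√(j * τ) • z)
        set v := G j (√(j * τ) • z)
        have e1 : Real.exp (-a) / 2 * Real.exp u = Real.exp (u - a) / 2 := by
          rw [sub_eq_add_neg, Real.exp_add]; ring
        have e2 : Real.exp (-a') / 2 * Real.exp v = Real.exp (v - a') / 2 := by
          rw [sub_eq_add_neg, Real.exp_add]; ring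
        show Real.exp (max (u - a) (v - a') - 1) ≤ _ * Real.exp u + _ * Real.exp v
        rw [e1, e2, sub_eq_add_neg, Real.exp_add]
        have h3 : Real.exp (max (u - a) (v - a')) ≤ Real.exp (u - a) + Real.exp (v - a') := by
          rcases max_choice (u - a) (v - a') with h | h <;> rw [h] <;>
            linarith [Real.exp_pos (u - a), Real.exp_pos (v - a')]
        nlinarith [Real.exp_pos (max (u - a) (v - a'))]
    _ ≤ _ := by
        rw [integral_add (i1.const_mul _) (i2.const_mul _), integral_const_mul, integral_const_mul]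
        have a1 := mul_le_mul_of_nonneg_left f2 (by positivity : 0 ≤ Real.exp (-a) / 2)
        have a2 := mul_le_mul_of_nonneg_left g2 (by positivity : 0 ≤ Real.exp (-a') / 2)
        have e1 : ∀ c : ℝ, Real.exp (-c) / 2 * Real.exp (c + n * (j * τ) / 2) =
            Real.exp (0 + n * (j * τ) / 2) / 2 := fun c => by
          rw [div_mul_eq_mul_div, ← Real.exp_add]; congr 2; ring
        rw [e1] at a1 a2
        linarith

lemma ds_eq (hn : 0 < n) (x z : Fin n → ℝ) : ds x z = n * (qq x + qq z - 2 * (z ⬝ᵥ x / n)) := by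
  have : (n : ℝ) ≠ 0 := by positivity
  rw [ds, sub_dotProduct, dotProduct_sub, dotProduct_sub, dotProduct_comm x z, qq, qq]
  field_simp; ring

lemma ds_nn (x z : Fin n → ℝ) : 0 ≤ ds x z := by rw [ds, dot_self_eq]; positivity

lemma ds_smul (c : ℝ) (x z : Fin n → ℝ) : ds (c • x) (c • z) = c ^ 2 * ds x z := by
  rw [ds, ds, ← smul_sub, smul_dotProduct, dotProduct_smul, smul_eq_mul, smul_eq_mul]; ring

/-- the increment of the state evolution -/
lemma incr_le {Γ : ℝ → ℝ} {b c0 η x ε r t u q q' : ℝ} (hc : 0 < c0) (hη : 0 ≤ η)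
    (hΓ : ∀ s s', b ≤ s → s ≤ s' → s' ≤ s + 1 → Γ s' - Γ s ≤ (1 + η) * (s' - s) - c0 / 2 * (s' - s) ^ 2)
    (ht : 0 ≤ t) (hu : 0 ≤ u) (hub : u ≤ b) (hb : b ≤ 1) (hq' : q' ≤ 1) (hε : 0 ≤ ε)
    (hq : b - ε ≤ q) (h1 : |q - Γ (max q b + t)| ≤ x) (h2 : |q' - Γ (max q' b + (t + u))| ≤ x)
    (hq2 : b - ε ≤ q') (hr : 0 ≤ r) (hrr : 2 * (η + 2 * x + u + ε) ≤ c0 * r ^ 2) :
    q' - q ≤ r + ε := by
  have m1 : max q b ≤ q + ε := max_le (by linarith) (by linarith)
  have m2 : max q' b ≤ q' + ε := max_le (by linarith) (by linarith)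
  have m3 := le_max_left q' b
  have m4 := le_max_right q b
  have m5 : max q' b ≤ 1 := max_le hq' hb
  have m6 := le_max_left q b
  by_cases h : max q' b ≤ max q b
  · linarith
  have h : max q b < max q' b := not_le.1 h
  have h3 := hΓ (max q b + t) (max q' b + (t + u)) (by linarith) (by linarith) (by linarith)
  have e : max q' b + (t + u) - (max q b + t) = max q' b - max q b + u := by ring
  rw [e] at h3
  set d := max q' b - max q b + u with hd
  have d1 : d ≤ 1 := by linarith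
  have d0 : 0 ≤ d := by linarith
  have a1 := abs_le.1 h1
  have a2 := abs_le.1 h2
  have h4 : c0 * d ^ 2 ≤ c0 * r ^ 2 := by nlinarith [mul_le_mul_of_nonneg_left d1 hη]
  have h5 : d ≤ r := by
    have := le_of_mul_le_mul_left h4 hc
    exact (pow_le_pow_iff_left₀ d0 hr two_ne_zero).1 this
  linarith

lemma sq_shr {θ : ℝ} (θ0 : 0 < θ) (θ1 : θ ≤ 1) : (1 - θ) ^ 2 ≤ 1 := by nlinarith

lemma shq {θ : ℝ} (θ0 : 0 < θ) (θ1 : θ ≤ 1) {w : Cube n → ℝ} (h : Wt w) :
    qq (mag w) - 2 * θ ≤ qq ((1 - θ) • mag w) ∧ qq ((1 - θ) • mag w) ≤ qq (mag w) := by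
  rw [qq_smul]
  have := qq_nn (mag w); have := qq_mag_le h; have := sq_shr θ0 θ1
  constructor <;> nlinarith

lemma num_end {θ u q k r0 x ε r : ℝ} (θ0 : 0 < θ) (θ1 : θ ≤ 1) (hq : 0 ≤ q) (hk : 0 ≤ k)
    (a1 : -k ≤ u - q) (a2 : 1 - r0 - x ≤ (1 - θ) ^ 2 * q) (a3 : 2 * k ≤ ε) (a4 : r0 + x + ε < r) :
    1 + (1 - θ) ^ 2 * q - 2 * ((1 - θ) * u) < r := by
  nlinarith [mul_le_mul_of_nonneg_left a1 (by linarith : 0 ≤ 1 - θ), mul_nonneg θ0.le hk,
    mul_nonneg (mul_nonneg θ0.le (by linarith : 0 ≤ 1 - θ)) hq]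

lemma num_inc {t u q q' k a D N : ℝ} (t0 : 0 ≤ t) (t1 : t ≤ 1) (hk : 0 ≤ k) (hN : 0 ≤ N)
    (a1 : -k ≤ u - q) (a2 : t * q' - t * q ≤ a) (a3 : a + 2 * k ≤ D) :
    t * (N * (q' + q - 2 * u)) ≤ D * N := by
  have : t * (q' + q - 2 * u) ≤ D := by
    nlinarith [mul_le_mul_of_nonneg_left a1 t0, mul_le_mul_of_nonneg_right t1 hk]
  nlinarith [mul_le_mul_of_nonneg_left this hN]

set_option maxHeartbeats 800000 in
/-- **the ancestors, deterministic form** -/
theorem anc_det {S : Site β C b} {A : Matrix (Fin n) (Fin n) ℝ} {B : Set (Cube n)} {Γ : ℝ → ℝ}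
    {F : ℕ → (Fin n → ℝ) → ℝ} {N M : ℕ}
    {τ CA ρ εt θ e0 lam ρ1 c e2 η c0 ηg r0 Y κ εs e x1 ε2 x r D e' Y' r' : ℝ}
    (hn : 0 < n) (hβ : 1 ≤ β) (hA : opn A ≤ CA) (hT : Tap S A ρ εt)
    (hZ : n * (S.P - e0) ≤ Real.log (∑ σ, ising A 0 σ))
    (hTree : TreeOn (ising A 0) B b M lam ρ1) (hM : 0 < M)
    (hSC : ∀ j ≤ N, SC2 S Γ A c e2 η (j * τ)) (hc : 0 < c) (hc0 : 0 < c0) (hηg : 0 ≤ ηg)
    (hΓ : ∀ s s', b ≤ s → s ≤ s' → s' ≤ s + 1 →
      Γ s' - Γ s ≤ (1 + ηg) * (s' - s) - c0 / 2 * (s' - s) ^ 2)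
    (hΓe : ∀ s ∈ Icc b 1, 1 - r0 ≤ Γ (s + N * τ / β ^ 2))
    (hSla : ∀ w L, Wt w → ovar w ≤ ρ1 → Fam τ N 0 L → Sla (n := n) w N L Y κ εs)
    (hF : Mom S.P τ e N F) (hτ : 0 ≤ τ) (hτb : τ ≤ b)
    (θ0 : 0 < θ) (θ1 : θ ≤ 1) (hκ : κ + 8 * θ ≤ ρ) (hρ1 : ρ1 ≤ κ) (hY : 0 ≤ Y) (hεs : 0 ≤ εs)
    (h2 : e0 + lam + εs + 1 / n + εt + θ * (CA + 1 + Y) ≤ x1)
    (h3 : 2 / n + 1 / M + 4 * √κ + 2 * θ ≤ ε2) (h3' : ε2 ≤ η)
    (h4 : e2 + x1 ≤ c * x ^ 2) (hx : 0 ≤ x)
    (h5 : 2 * (ηg + 2 * x + τ + ε2) ≤ c0 * r ^ 2) (hr : 0 ≤ r)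
    (h6 : r + 2 * ε2 ≤ D) (h7 : εs ^ 2 ≤ D) (h8 : e + x1 ≤ e') (he : 0 ≤ e) (h9 : Y ≤ Y')
    (h10 : r0 + x + ε2 < r') : Up.Anc S A F D e' Y' r' N B := by
  obtain ⟨q, γ, hC, hq⟩ := hTree
  have hn0 : (0 : ℝ) < n := by exact_mod_cast hn
  have hM0 : (0 : ℝ) < M := by exact_mod_cast hM
  have n1 : 0 < 1 / (n : ℝ) := by positivity
  have n2 : 2 / (n : ℝ) = 2 * (1 / n) := by ring
  have M1 : 0 < 1 / (M : ℝ) := by positivity
  have k0 := Real.sqrt_nonneg κ
  have k1 : √ρ1 ≤ √κ := Real.sqrt_le_sqrt hρ1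
  have b0 := S.b0
  have b1 := S.b1
  have hw : ∀ k, Wt (γ k) := fun k => wt_of_one (hC.nn k) (hC.one k)
  have hI : Wt (ising A 0) := Wt.of_pos fun _ => Real.exp_pos _
  have hd : ∀ k ≤ M, ∀ σ, prob (γ k) σ ≤ Real.exp (n * lam) * prob (ising A 0) σ := fun k hk σ => by
    rw [pr_self (hC.one k)]
    exact (hC.dom k hk σ).trans (mul_le_mul_of_nonneg_left
      (Set.indicator_apply_le' (fun _ => le_rfl) fun _ => pr_nn hI σ) (Real.exp_pos _).le)
  have hov : ∀ k ≤ M, ovar (γ k) ≤ ρ1 := fun k hk => (ovar_le (hw k) (q k)).trans (by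
    unfold dev; rw [pr_self (hC.one k)]; exact hC.pure k hk)
  have t2 := sq_shr θ0 θ1
  -- the potential of a tilt
  have pot : ∀ k ≤ M, ∀ y, ovar (tilt (γ k) y) ≤ κ → nrm y ≤ Y * √n →
      n * S.P + Real.log (mean (γ k) fun σ => Real.exp (y ⬝ᵥ sv σ)) + 1 + n * εs - n * x1 ≤
        V S A ((1 - θ) • mag (tilt (γ k) y)) + y ⬝ᵥ ((1 - θ) • mag (tilt (γ k) y)) := by
    intro k hk y h1 hy
    have a1 := free_tilt (hw k) (hd k hk) y
    have a2 := hT.shr hA θ0 θ1 (wt_tilt (hw k) y) (by linarith)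
    have a3 : y ⬝ᵥ mag (tilt (γ k) y) ≤ n * Y := by
      refine (dot_le _ _).trans ?_
      have a4 : nrm (mag (tilt (γ k) y)) ≤ √n := Real.sqrt_le_sqrt (mag_dot_le (wt_tilt (hw k) y))
      calc _ ≤ Y * √n * √n := mul_le_mul hy a4 (nrm_nonneg _) (by positivity)
        _ = n * Y := by rw [mul_assoc, Real.mul_self_sqrt hn0.le, mul_comm]
    have a5 := mul_le_mul_of_nonneg_left h2 hn0.le
    have a6 : (n : ℝ) * (1 / n) = 1 := by field_simp
    rw [dotProduct_smul, smul_eq_mul]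
    linarith [mul_le_mul_of_nonneg_left a3 θ0.le]
  choose! Ls hL1 hL2 hL3 using hSC
  have hFam := fam_max (F := F) (G := Ls) (τ := τ) (N := N) (a := n * (S.P + e))
    (a' := n * (S.P + e2))
    (fun j hj => ⟨(hF j hj).1, (hF j hj).2.trans (le_of_eq (by congr 1; ring))⟩)
    (fun j hj => ⟨hL1 j hj, (hL3 j hj).trans (le_of_eq (by congr 1; ring))⟩)
  obtain ⟨y, σ, y0, hσ, s1, s2, s3⟩ := hSla (γ M) _ (hw M) (hov M le_rfl) hFam
  set g : ℕ → Fin n → ℝ := fun j => mag (tilt (γ M) (y j)) with hg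
  have hwj : ∀ j, Wt (tilt (γ M) (y j)) := fun j => wt_tilt (hw M) _
  have qM : b - 1 / n - √κ ≤ qq (mag (γ M)) := by
    have a1 := abs_le.1 (hC.norm le_rfl)
    have a2 := abs_le.1 (hq M le_rfl)
    have e : (M : ℝ) * b / M = b := by field_simp
    rw [e] at a2
    unfold qq; linarith [a1.1, a2.1]
  have qlow : ∀ j ≤ N, b - ε2 ≤ qq ((1 - θ) • g j) := fun j hj => by
    have a1 := abs_le.1 (Real.abs_le_sqrt (s1 j hj).2.2.2)
    have a2 := ds_nn (g j) (mag (γ M))
    rw [ds_eq hn] at a2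
    have a3 := nonneg_of_mul_nonneg_right a2 hn0 |> fun h => h
    have a4 := (shq θ0 θ1 (hwj j)).1
    simp only [hg] at a3 a4 ⊢
    linarith [a1.1]
  have good : ∀ j ≤ N, F j (y j) ≤ V S A ((1 - θ) • g j) + y j ⬝ᵥ ((1 - θ) • g j) + n * (e + x1) ∧
      |qq ((1 - θ) • g j) - Γ (max (qq ((1 - θ) • g j)) b + j * τ / β ^ 2)| ≤ x := fun j hj => by
    obtain ⟨a1, a2, a3, -⟩ := s1 j hj
    have a4 := pot M le_rfl (y j) a2 a1
    have a5 := le_max_left (F j (y j) - n * (S.P + e)) (Ls j (y j) - n * (S.P + e2))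
    have a6 := le_max_right (F j (y j) - n * (S.P + e)) (Ls j (y j) - n * (S.P + e2))
    have a7 := hL2 j hj (y j) _ (shr_box (hwj j) θ0 θ1) (by linarith [qlow j hj])
    refine ⟨by simp only [hg]; linarith, abs_le.2 (abs_le_of_sq_le_sq' ?_ hx)⟩
    have a8 := mul_le_mul_of_nonneg_left h4 hn0.le
    have a9 : 0 ≤ c * n * max (-kap S ((1 - θ) • mag (tilt (γ M) (y j)))) 0 ^ 2 := by positivity
    refine le_of_mul_le_mul_left ?_ (mul_pos hc hn0)
    simp only [hg]
    linarith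
  have ε0 : 0 ≤ ε2 := by linarith
  have hβ2 : τ / β ^ 2 ≤ τ := div_le_self hτ (one_le_pow₀ hβ)
  have hβ0 : 0 < β ^ 2 := by positivity
  refine ⟨M, fun p => p * b / M, fun p => (1 - θ) • mag (γ p), y, fun j => (1 - θ) • g j, σ,
    by simp; linarith, ?_, fun p hp => ?_, fun p hp => ⟨shr_box (hw p) θ0 θ1, ?_, ?_⟩, ?_, ?_,
    fun k hk => ⟨?_, ?_⟩, fun k hk => ⟨shr_box (hwj k) θ0 θ1, by linarith [qlow k hk],
      (s1 k hk).1.trans (mul_le_mul_of_nonneg_right h9 (Real.sqrt_nonneg _)), ?_⟩, ?_, ?_⟩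
  · have e : (M : ℝ) * b / M = b := by field_simp
    simp only [e]; linarith
  · have e : ((p + 1 : ℕ) : ℝ) * b / M = p * b / M + b * (1 / M) := by push_cast; ring
    have a0 : b * (1 / M) ≤ 1 / M := mul_le_of_le_one_left M1.le b1
    have a00 : 0 ≤ b * (1 / M) := by positivity
    refine ⟨by simp only [e]; linarith, by simp only [e]; linarith, ?_⟩
    have a1 := (abs_le.1 (hC.incr hp)).2
    have a2 := abs_le.1 (hq p hp.le)
    have a3 := abs_le.1 (hq (p + 1) hp)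
    rw [e] at a3
    have a4 : ds (mag (γ (p + 1))) (mag (γ p)) / n ≤ D := by unfold ds; linarith [a2.1, a3.2]
    rw [div_le_iff₀ hn0] at a4
    rw [ds_smul]
    exact (mul_le_of_le_one_left (ds_nn _ _) t2).trans a4
  · have a1 := abs_le.1 (hC.norm hp)
    have a2 := abs_le.1 (hq p hp)
    have a3 := shq θ0 θ1 (hw p)
    unfold qq at a3 ⊢
    rw [abs_le]; constructor <;> linarith [a1.1, a1.2, a2.1, a2.2, a3.1, a3.2]
  · have a1 := pot p hp 0 (by rw [tilt_zero]; linarith [hov p hp])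
      (by rw [nrm_eq_zero.2 rfl]; positivity)
    simp only [tilt_zero, zero_dotProduct, Real.exp_zero, (hw p).mean_const, Real.log_one] at a1
    linarith [mul_nonneg hn0.le hεs, mul_nonneg hn0.le he, mul_le_mul_of_nonneg_left h8 hn0.le]
  · rw [y0]; simp only [ds, sub_self, dotProduct_zero]
    exact mul_nonneg (by linarith) hn0.le
  · simp only [hg, y0, tilt_zero, ds, sub_self, dotProduct_zero]
    exact mul_nonneg (by linarith) hn0.le
  · have a1 := (nrm_le_iff (by positivity)).1 (s2 k hk).1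
    rw [mul_pow, Real.sq_sqrt hn0.le] at a1
    exact a1.trans (mul_le_mul_of_nonneg_right h7 hn0.le)
  · have a1 := abs_le.1 (Real.abs_le_sqrt (s2 k hk).2)
    have a2 := incr_le hc0 hηg hΓ (t := k * τ / β ^ 2) (u := τ / β ^ 2) (by positivity)
      (by positivity) (by linarith) b1 ((shq θ0 θ1 (hwj (k + 1))).2.trans (qq_mag_le (hwj _))) ε0
      (qlow k hk.le) (good k hk.le).2
      (by have := (good (k + 1) hk).2
          rwa [show ((k + 1 : ℕ) : ℝ) * τ / β ^ 2 = k * τ / β ^ 2 + τ / β ^ 2 by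
            push_cast; ring] at this)
      (qlow (k + 1) hk) hr (by linarith)
    rw [ds_smul, ds_eq hn]
    rw [qq_smul, qq_smul] at a2
    exact num_inc (sq_nonneg _) t2 k0 hn0.le a1.1 a2 (by linarith)
  · have := (good k hk).1
    linarith [mul_le_mul_of_nonneg_left h8 hn0.le]
  · by_contra hB
    exact hσ.ne' (hC.supp le_rfl (Set.indicator_of_notMem hB _))
  · have a1 := abs_le.1 (Real.abs_le_sqrt s3)
    have a2 := abs_le.1 (good N le_rfl).2
    have a0 := (shq θ0 θ1 (hwj N)).2.trans (qq_mag_le (hwj N))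
    have a3 := hΓe (max (qq ((1 - θ) • g N)) b) ⟨le_max_right _ _, max_le a0 b1⟩
    have a4 : qq (sv σ) = 1 := by rw [qq, sv_dot_self, div_self hn0.ne']
    rw [ds_eq hn, a4, smul_dotProduct, dotProduct_comm, smul_eq_mul, mul_div_assoc, mul_comm r']
    refine mul_lt_mul_of_pos_left ?_ hn0
    have a5 := qq_nn (g N)
    have a6 : 1 - r0 - x ≤ (1 - θ) ^ 2 * qq (g N) := by rw [← qq_smul]; linarith [a2.1]
    rw [qq_smul]
    exact num_end θ0 θ1 a5 k0 a1.1 a6 (by linarith) h10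

end Crest.Agent.T157.An

end
end

-- ▼ part T157/AnC_51
section

/-!
Row 157, part D (helper51): the good events used by the ancestors.
-/

set_option autoImplicit false

noncomputable section

namespace Crest.Agent.T157.An

open MeasureTheory ProbabilityTheory Matrix Set Filter Topology
open Crest.ProbabilityR.SpinGlassDynamics
open Crest.Agent.T157.E Crest.Agent.T157.Eig Crest.Agent.T157.St Crest.Agent.T157.Conc
open Crest.Agent.T157.SL Crest.Agent.T157.Sc Crest.Agent.T157.Up Crest.Agent.T157.Top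
open Crest.Agent.T157.Pf Crest.Agent.T157.Cond Crest.Agent.T157.Exp

variable {n : ℕ}

lemma good_mono {P : Par} {β c C η η' : ℝ} (h : P.Good β c C η) (hC : 0 ≤ C) (hη : η ≤ η') :
    P.Good β c C η' :=
  ⟨h.b_ge, h.b_le, fun s hs => (h.gam s hs).trans hη, fun s hs => (h.gam' s hs).trans hη,
    fun s hs => by linarith [h.top s hs], fun s hs => (h.lam s hs).trans hη, h.lam0.trans hη,
    fun s hs => by linarith [h.zlin s hs], fun l h1 h2 => by linarith [h.min l h1 h2],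
    fun Q e h1 h2 h3 h4 => by
      have he : 0 ≤ e := (abs_nonneg _).trans (h4 0)
      have := mul_le_mul_of_nonneg_left (mul_le_mul_of_nonneg_left hη he) hC
      linarith [h.pert Q e h1 h2 h3 h4]⟩

lemma whp_fst {Q : ∀ n, (Pair n → ℝ) → Prop} (h : Whp disorderLaw Q) :
    Whp Om fun n z => Q n z.1 := by
  refine tendsto_of_tendsto_of_tendsto_of_le_of_le tendsto_const_nhds h (fun _ => zero_le)
    fun n => ?_
  have := Measure.le_map_apply (μ := Om n) measurable_fst.aemeasurable {g | ¬ Q n g}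
  rwa [(measurePreserving_fst (μ := disorderLaw n) (ν := E.gv (Fin n))).map_eq] at this

lemma whp_snd {Q : ∀ n, (Fin n → ℝ) → Prop} (h : Whp (fun n => E.gv (Fin n)) Q) :
    Whp Om fun n z => Q n z.2 := by
  refine tendsto_of_tendsto_of_tendsto_of_le_of_le tendsto_const_nhds h (fun _ => zero_le)
    fun n => ?_
  have := Measure.le_map_apply (μ := Om n) measurable_snd.aemeasurable {g | ¬ Q n g}
  rwa [(measurePreserving_snd (μ := disorderLaw n) (ν := E.gv (Fin n))).map_eq] at this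

lemma whp_opn : Whp Om fun n z => opn (Wmat n z.1 z.2) ≤ 3 := by
  have ha : Tendsto (fun n : ℕ => 2 * Real.exp (-((n : ℝ) * 1 ^ 2 / 4))) atTop (𝓝 0) := by
    have := (Real.tendsto_exp_neg_atTop_nhds_zero.comp
      ((tendsto_natCast_atTop_atTop (R := ℝ)).atTop_div_const four_pos)).const_mul 2
    simpa [Function.comp_def] using this
  refine whp_of_real_le ha (.of_forall fun n => le_trans (measureReal_mono fun z hz => ?_)
    (Nrm.Wmat_opn_tail zero_le_one))
  simp only [mem_ofPred_eq, not_le] at hz ⊢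
  linarith

lemma whp_goe {Q : ∀ n, Matrix (Fin n) (Fin n) ℝ → Prop} {a : ℕ → ℝ} (ha : Tendsto a atTop (𝓝 0))
    (h : ∀ᶠ n : ℕ in atTop, goe (Fin n) (1 / √n) {W | opn W ≤ 3 ∧ ¬ Q n W} ≤ ENNReal.ofReal (a n)) :
    Whp Om fun n z => Q n (Wmat n z.1 z.2) := by
  have h1 : Whp Om fun n z => ¬ (opn (Wmat n z.1 z.2) ≤ 3 ∧ ¬ Q n (Wmat n z.1 z.2)) := by
    refine whp_iff.2 fun ε hε => ?_
    filter_upwards [h, ha.eventually (gt_mem_nhds hε)] with n hn hn'
    have := Measure.le_map_apply (μ := Om n) measurable_Wmat.aemeasurable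
      {W | opn W ≤ 3 ∧ ¬ Q n W}
    rw [goe_Wmat] at this
    refine le_trans (measure_mono fun z hz => ?_)
      (this.trans (hn.trans (ENNReal.ofReal_le_ofReal hn'.le)))
    exact not_not.1 hz
  exact (h1.and whp_opn).imp fun n z hz => not_not.1 fun hq => hz.1 ⟨hz.2, hq⟩

/-- the trace term -/
def trc (β : ℝ) (d : Fin n → ℝ) : ℝ := (fun _ => β / 2 * (√2 / √n)) ⬝ᵥ d

lemma ising_W (β : ℝ) (g : Pair n → ℝ) (d : Fin n → ℝ) :
    ising (β • Wmat n g d) 0 = fun x => gibbsWeight n β g x * Real.exp (trc β d) := by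
  funext x
  rw [gibbsWeight_eq_ising, ising, ising, ← Real.exp_add, Wmat, smul_add, add_mulVec,
    dotProduct_add, zero_dotProduct, add_zero, add_zero, mul_add]
  congr 2
  simp only [trc, dotProduct, smul_mulVec, Pi.smul_apply, mulVec_diagonal, smul_eq_mul,
    Finset.mul_sum]
  refine Finset.sum_congr rfl fun i _ => ?_
  have := spin_mul_self (x i)
  simp only [sv]
  linear_combination (β / 2 * (√2 / √n) * d i) * this

lemma prob_W (β : ℝ) (g : Pair n → ℝ) (d : Fin n → ℝ) :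
    prob (ising (β • Wmat n g d) 0) = prob (gibbsWeight n β g) := by
  rw [ising_W, prob_smul _ (Real.exp_pos _).ne']

lemma logZ_W (β : ℝ) (g : Pair n → ℝ) (d : Fin n → ℝ) :
    Real.log (∑ x, ising (β • Wmat n g d) 0 x) =
      Real.log (∑ x, gibbsWeight n β g x) + trc β d := by
  rw [ising_W, ← Finset.sum_mul, Real.log_mul (Finset.sum_pos (fun x _ => gibbsWeight_pos β g x)
    Finset.univ_nonempty).ne' (Real.exp_pos _).ne', Real.log_exp]

lemma elip_logZ (hn : 0 < n) {β : ℝ} (hβ : 0 ≤ β) :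
    ELip (β * √n) fun g : Pair n → ℝ => Real.log (∑ x, gibbsWeight n β g x) := by
  have hn' : (0 : ℝ) < n := by exact_mod_cast hn
  have hL : ∀ x, ELip (√n) fun g : Pair n → ℝ => en1 g x := fun x => by
    refine (elip_dot _).mono (Real.sqrt_le_sqrt ?_)
    have : ∀ p : Pair n, (spin (x p.1.1) * spin (x p.1.2) / √n) ^ 2 = 1 / n := fun p => by
      rw [div_pow, mul_pow, spin_sq, spin_sq, Real.sq_sqrt hn'.le, one_mul]
    simp only [this, Finset.sum_const, Finset.card_univ, nsmul_eq_mul]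
    rw [mul_one_div, div_le_iff₀ hn']
    have := two_card_pair_le (n := n)
    nlinarith
  have hp : ∀ g : Pair n → ℝ, 0 < ∑ x, gibbsWeight n β g x := fun g =>
    Finset.sum_pos (fun x _ => gibbsWeight_pos β g x) Finset.univ_nonempty
  have key : ∀ g g' : Pair n → ℝ, Real.log (∑ x, gibbsWeight n β g x) -
      Real.log (∑ x, gibbsWeight n β g' x) ≤ β * √n * en (g - g') := fun g g' => by
    rw [sub_le_iff_le_add, ← Real.log_exp (β * √n * en (g - g')),
      ← Real.log_mul (Real.exp_pos _).ne' (hp g').ne', Finset.mul_sum]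
    refine Real.log_le_log (hp g) (Finset.sum_le_sum fun x _ => ?_)
    rw [gibbs_eq, gibbs_eq, ← Real.exp_add, Real.exp_le_exp]
    have := mul_le_mul_of_nonneg_left (le_of_abs_le (hL x g g')) hβ
    linarith
  intro g g'
  rw [abs_le]
  have h1 := key g' g
  rw [en_sub_comm] at h1
  exact ⟨by linarith, key g g'⟩

lemma tendsto_exp_pow {a c : ℝ} (ha : 0 < a) (hc : 0 < c) :
    Tendsto (fun n : ℕ => Real.exp (-((n : ℝ) ^ a / c))) atTop (𝓝 0) :=
  Real.tendsto_exp_neg_atTop_nhds_zero.comp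
    (((tendsto_rpow_atTop ha).comp tendsto_natCast_atTop_atTop).atTop_div_const hc)

/-- the free energy is not much below its mean -/
lemma whp_logZ {β : ℝ} (hβ : 0 < β) : Whp Om fun n z =>
    ∫ g, Real.log (∑ x, gibbsWeight n β g x) ∂disorderLaw n - 2 * (n : ℝ) ^ (10 / 11 : ℝ) ≤
      Real.log (∑ x, ising (β • Wmat n z.1 z.2) 0 x) := by
  have h1 : Whp disorderLaw fun n g => -(n : ℝ) ^ (10 / 11 : ℝ) <
      Real.log (∑ x, gibbsWeight n β g x) -
        ∫ g, Real.log (∑ x, gibbsWeight n β g x) ∂disorderLaw n := by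
    refine whp_of_real_le (tendsto_exp_pow (a := 9 / 11) (c := 2 * β ^ 2) (by norm_num)
      (by positivity)) ?_
    filter_upwards [eventually_gt_atTop 0] with n hn
    have hn' : (0 : ℝ) < n := by exact_mod_cast hn
    have := tail_lip_lower (elip_logZ hn hβ.le) (t := (n : ℝ) ^ (10 / 11 : ℝ)) (by positivity)
    simp only [not_lt]
    refine this.trans (le_of_eq ?_)
    have e : ((n : ℝ) ^ (10 / 11 : ℝ)) ^ 2 = (n : ℝ) ^ (9 / 11 : ℝ) * n := by
      rw [← Real.rpow_natCast, ← Real.rpow_mul hn'.le, ← Real.rpow_add_one hn'.ne']; norm_num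
    rw [e, mul_pow, Real.sq_sqrt hn'.le]
    congr 1; field_simp
  have h2 : Whp (fun n => E.gv (Fin n)) fun n d => -(n : ℝ) ^ (10 / 11 : ℝ) < trc β d := by
    refine whp_of_real_le (tendsto_exp_pow (a := 20 / 11) (c := 2 * β ^ 2) (by norm_num)
      (by positivity)) ?_
    filter_upwards [eventually_gt_atTop 0] with n hn
    have hn' : (0 : ℝ) < n := by exact_mod_cast hn
    have hs := subG_lin (ι := Fin n) sg1_gauss (fun _ => β / 2 * (√2 / √n))
      (c := ⟨β ^ 2, sq_nonneg β⟩) (by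
        simp only [Finset.sum_const, Finset.card_univ, Fintype.card_fin, nsmul_eq_mul, mul_pow,
          div_pow, Real.sq_sqrt hn'.le, Real.sq_sqrt zero_le_two]
        have : (n : ℝ) * (β ^ 2 / 2 ^ 2 * (2 / n)) = β ^ 2 / 2 := by field_simp
        rw [this]; show _ ≤ β ^ 2; linarith [sq_nonneg β])
    have := hs.neg.measure_ge_le (ε := (n : ℝ) ^ (10 / 11 : ℝ)) (by positivity)
    have e : ((n : ℝ) ^ (10 / 11 : ℝ)) ^ 2 = (n : ℝ) ^ (20 / 11 : ℝ) := by
      rw [← Real.rpow_natCast, ← Real.rpow_mul hn'.le]; norm_num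
    rw [e, neg_div] at this
    refine le_trans (measureReal_mono fun d hd => ?_) this
    simp only [mem_ofPred_eq, not_lt, Pi.neg_apply, trc] at hd ⊢
    linarith
  refine ((whp_fst h1).and (whp_snd h2)).imp fun n z hz => ?_
  rw [logZ_W]
  linarith [hz.1, hz.2]

lemma Sla.mono {w : Cube n → ℝ} {N : ℕ} {L : ℕ → (Fin n → ℝ) → ℝ} {Y κ ε Y' κ' ε' : ℝ}
    (h : Sla w N L Y κ ε) (hY : Y ≤ Y') (hκ : κ ≤ κ') (hε : ε ≤ ε') : Sla w N L Y' κ' ε' := by
  obtain ⟨y, σ, h0, h1, h2, h3, h4⟩ := h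
  have a1 := mul_le_mul_of_nonneg_right hY (Real.sqrt_nonneg n)
  have a2 := mul_le_mul_of_nonneg_right hε (Real.sqrt_nonneg n)
  have a3 := mul_le_mul_of_nonneg_left hε (Nat.cast_nonneg (α := ℝ) n)
  refine ⟨y, σ, h0, h1, fun j hj => ?_, fun j hj => ?_, h4.trans hκ⟩
  · obtain ⟨b1, b2, b3, b4⟩ := h2 j hj
    exact ⟨b1.trans a1, b2.trans hκ, by linarith, b4.trans hκ⟩
  · exact ⟨(h3 j hj).1.trans a2, (h3 j hj).2.trans hκ⟩

lemma sc2_mono {β C b : ℝ} {S : Site β C b} {Γ : ℝ → ℝ} {A : Matrix (Fin n) (Fin n) ℝ}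
    {c e e' η t : ℝ} (h : SC2 S Γ A c e η t) (he : e ≤ e') : SC2 S Γ A c e' η t := by
  obtain ⟨L, h1, h2, h3⟩ := h
  refine ⟨L, h1, h2, h3.trans (Real.exp_le_exp.2 ?_)⟩
  exact mul_le_mul_of_nonneg_left (by linarith) (Nat.cast_nonneg _)

end Crest.Agent.T157.An

end
end

-- ▼ part T157/An_51

/-!
Row 157, part D (helper51): the ancestors, `Up.AncStmt` from its leaves.
-/

set_option autoImplicit false

noncomputable section

namespace Crest.Agent.T157.An

open MeasureTheory Matrix Set Filter Topology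
open Crest.ProbabilityR.SpinGlassDynamics
open Crest.Agent.T157.E Crest.Agent.T157.Eig Crest.Agent.T157.St Crest.Agent.T157.Conc
open Crest.Agent.T157.SL Crest.Agent.T157.Sc Crest.Agent.T157.Up Crest.Agent.T157.Top
open Crest.Agent.T157.Pf Crest.Agent.T157.Cond Crest.Agent.T157.Cut

lemma eps_pow (n k : ℕ) : eps n ^ k = pw (k / 10000000) n := by
  rw [eps, pw, ← Real.rpow_natCast, ← Real.rpow_mul (Nat.cast_nonneg _)]
  congr 1; ring

lemma eps_pos {n : ℕ} (hn : 0 < n) : 0 < eps n := Real.rpow_pos_of_pos (by exact_mod_cast hn) _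

lemma pw_le {n : ℕ} (hn : 0 < n) {a : ℝ} (k : ℕ) (h : (k : ℝ) / 10000000 ≤ a) :
    pw a n ≤ eps n ^ k := by
  rw [eps_pow]
  exact Real.rpow_le_rpow_of_exponent_le (by exact_mod_cast hn) (by linarith)

lemma pw_one (n : ℕ) : pw 1 n = 1 / n := by rw [pw, Real.rpow_neg_one, one_div]

lemma tendsto_eps : Tendsto eps atTop (𝓝 0) :=
  (tendsto_rpow_neg_atTop (by norm_num)).comp tendsto_natCast_atTop_atTop

lemma ev_eps (K : ℝ) : ∀ᶠ n : ℕ in atTop, K * eps n ≤ 1 := by
  have := tendsto_eps.const_mul K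
  rw [mul_zero] at this
  exact this.eventually (ge_mem_nhds one_pos)

lemma pow_dom {u K : ℝ} (u0 : 0 < u) (u1 : u ≤ 1) (hK : K * u ≤ 1) {c : ℝ} (hc : c ≤ K)
    {a b : ℕ} (h : b < a) : c * u ^ a ≤ u ^ b := by
  have h1 : u ^ a ≤ u ^ (b + 1) := pow_le_pow_of_le_one u0.le u1 h
  have h2 : 0 < u ^ b := pow_pos u0 b
  have h3 : 0 < u ^ a := pow_pos u0 a
  rcases le_or_gt c 0 with h0 | h0
  · nlinarith
  rw [pow_succ] at h1
  have : c * u ≤ 1 := (mul_le_mul_of_nonneg_right hc u0.le).trans hK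
  nlinarith [mul_le_mul_of_nonneg_left h1 h0.le, mul_le_mul_of_nonneg_left this h2.le]

lemma NN_tau {n : ℕ} (hn : 0 < n) (u1 : eps n ≤ 1) :
    1 ≤ NN n * tau n * eps n ∧ NN n * tau n * eps n ≤ 2 ∧ (NN n + 2) * eps n ^ 7561 ≤ 4 := by
  have u0 := eps_pos hn
  have hp : 0 < eps n ^ 7561 := pow_pos u0 _
  have hp1 : eps n ^ 7561 ≤ 1 := pow_le_one₀ u0.le u1
  have e : (NN n : ℝ) * tau n * eps n = NN n * eps n ^ 7561 := by rw [tau, mul_assoc, ← pow_succ]
  have h1 : (eps n ^ 7561)⁻¹ ≤ NN n := Nat.le_ceil _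
  have h2 : (NN n : ℝ) ≤ (eps n ^ 7561)⁻¹ + 1 := (Nat.ceil_lt_add_one (by positivity)).le
  have h3 := mul_le_mul_of_nonneg_right h1 hp.le
  have h4 := mul_le_mul_of_nonneg_right h2 hp.le
  rw [inv_mul_cancel₀ hp.ne'] at h3
  rw [add_mul, inv_mul_cancel₀ hp.ne'] at h4
  rw [e, add_mul]
  exact ⟨h3, by linarith, by linarith⟩

lemma exp_small {u T : ℝ} (u0 : 0 < u) (hT : 1 ≤ T * u) :
    Real.exp (-T / 2) ≤ 2 ^ 16 * (Nat.factorial 16) * u ^ 16 := by
  have T0 : 0 < T := (pos_iff_pos_of_mul_pos (by linarith : 0 < T * u)).2 u0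
  have h1 := Real.pow_div_factorial_le_exp (T / 2) (by positivity) 16
  have h2 : 1 ≤ (T * u) ^ 16 := one_le_pow₀ hT
  rw [neg_div, Real.exp_neg, inv_le_comm₀ (Real.exp_pos _) (by positivity)]
  refine le_trans ?_ h1
  rw [inv_eq_one_div, div_le_div_iff₀ (by positivity) (by positivity)]
  calc 1 * (Nat.factorial 16 : ℝ) ≤ (T * u) ^ 16 * Nat.factorial 16 := by gcongr
    _ = _ := by ring

/-- the union bound for the state evolution events tends to zero -/
lemma tendsto_union {C1 : ℝ} (hC : 0 < C1) : Tendsto (fun n : ℕ => (NN n + 1) *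
    (C1 / (eps n ^ 1400) ^ 5 * Real.exp (-(n * (eps n ^ 1400) ^ 4 / C1)))) atTop (𝓝 0) := by
  have h0 : Tendsto (fun n : ℕ => 4 * C1 * (((n : ℝ) ^ (1 / 2 : ℝ)) ^ (1 : ℝ) *
      Real.exp (-C1⁻¹ * (n : ℝ) ^ (1 / 2 : ℝ)))) atTop (𝓝 0) := by
    have := ((tendsto_rpow_mul_exp_neg_mul_atTop_nhds_zero 1 C1⁻¹ (by positivity)).comp
      ((tendsto_rpow_atTop (by norm_num : (0 : ℝ) < 1 / 2)).comp
        tendsto_natCast_atTop_atTop)).const_mul (4 * C1)
    rw [mul_zero] at this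
    exact this
  refine squeeze_zero' (.of_forall fun n => ?_) ?_ h0
  · have : 0 ≤ eps n := Real.rpow_nonneg (Nat.cast_nonneg _) _
    positivity
  filter_upwards [eventually_gt_atTop 0, ev_eps 1] with n hn u1
  have hn' : (0 : ℝ) < n := by exact_mod_cast hn
  have u0 := eps_pos hn
  rw [one_mul] at u1
  obtain ⟨-, -, a1⟩ := NN_tau hn u1
  set s := (n : ℝ) ^ (1 / 2 : ℝ) with hs
  have s0 : 0 < s := by positivity
  have e1 : pw (1 / 2) n = s⁻¹ := by rw [pw, Real.rpow_neg hn'.le]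
  have e2 : s * s = n := by rw [hs, ← Real.rpow_add hn']; norm_num
  have a2 := pw_le hn (a := 1 / 2) 14561 (by norm_num)
  have a3 := pw_le hn (a := 1 / 2) 5600 (by norm_num)
  rw [e1, inv_le_iff_one_le_mul₀ s0] at a2 a3
  rw [← pow_mul, ← pow_mul, Real.rpow_one, ← mul_assoc, ← mul_assoc]
  refine mul_le_mul ?_ (Real.exp_le_exp.2 ?_) (Real.exp_pos _).le (by positivity)
  · rw [← mul_div_assoc, div_le_iff₀ (by positivity)]
    have hp : 0 < eps n ^ 7561 := pow_pos u0 _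
    refine le_of_mul_le_mul_right ?_ hp
    have e : 4 * C1 * s * eps n ^ (1400 * 5) * eps n ^ 7561 = 4 * C1 * (eps n ^ 14561 * s) := by
      rw [show 14561 = 1400 * 5 + 7561 from rfl, pow_add]; ring
    rw [e]
    nlinarith [mul_le_mul_of_nonneg_left a1 hC.le, mul_le_mul_of_nonneg_left a2 hC.le,
      mul_pos hC hp]
  · rw [neg_mul, neg_le_neg_iff, div_eq_inv_mul]
    refine mul_le_mul_of_nonneg_left ?_ (by positivity)
    rw [← e2, show 1400 * 4 = 5600 from rfl]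
    nlinarith [mul_le_mul_of_nonneg_left a3 s0.le]

set_option maxHeartbeats 800000 in
/-- **the ancestors** -/
theorem up_anc (hT : TapStmt) (hTr : TreeStmt) (hS : SlaStmt) (hF : FreeStmt) (hG : GamStmt)
    (hE : GamEndStmt) (hSc : ScStmt) : Up.AncStmt := by
  intro β C c0 C0 hβ hC hc0 _ hC0 P S hD
  have hβ0 : 0 < β := by linarith
  obtain ⟨C1, hC1, hT⟩ := hT β C hβ.le hC
  obtain ⟨Cs, hCs, hS⟩ := hS
  obtain ⟨Cf, hCf, hF⟩ := hF β hβ
  obtain ⟨c, C2, hc, -, hC2, hSc⟩ := hSc β C c0 C0 hβ.le hC hc0.le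
  refine ⟨dd, fun n => ⟨le_min zero_le_one (Real.rpow_nonneg (Nat.cast_nonneg _) _),
    min_le_left _ _⟩, ?_, fun δ hδ => ?_⟩
  · filter_upwards [eventually_gt_atTop 0] with n hn
    exact (min_le_right _ _).trans (pw_le hn 8 (by norm_num))
  have hFine : Fine β c0 C0 P := by
    filter_upwards [hD, eventually_gt_atTop 0] with n h hn
    refine ⟨h.2.1, good_mono h.2.2.1 (by linarith) ?_, ?_⟩
    · rw [← pw_one]
      exact Real.rpow_le_rpow_of_exponent_le (by exact_mod_cast hn) (by norm_num)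
    · rw [h.1]; exact Nat.le_self_pow (by norm_num) n
  have hn1 : ∀ {n : ℕ}, 0 < n → ∀ k : ℕ, k ≤ 10000000 → 1 / (n : ℝ) ≤ eps n ^ k := fun hn k hk => by
    rw [← pw_one]
    refine pw_le hn k ?_
    rw [div_le_one (by norm_num)]
    exact_mod_cast hk
  have hn2 : ∀ {n : ℕ}, 0 < n → ∀ k : ℕ, k ≤ 10000000 → 1 ≤ (n : ℝ) * eps n ^ k := fun hn k hk => by
    have := hn1 hn k hk
    rwa [div_le_iff₀ (by exact_mod_cast hn), mul_comm] at this
  have E2 : Whp Om fun n z => Tap (S n) (β • Wmat n z.1 z.2) (eps n ^ 11200)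
      (C1 * √(√(eps n ^ 11200))) := by
    refine whp_goe (Q := fun n W => Tap (S n) (β • W) (eps n ^ 11200) (C1 * √(√(eps n ^ 11200))))
      (tendsto_const_div_atTop_nhds_zero_nat C1) ?_
    filter_upwards [hD, eventually_gt_atTop 0, ev_eps 1] with n h hn u1
    exact hT (P n) h.2.1 (S n) h.2.2.2 n _ (hn2 hn _ (by norm_num))
      (pow_le_one₀ (eps_pos hn).le (by linarith))
  have E5 : Whp Om fun n z => ∀ j ≤ NN n, SC2 (S n) ((P n).Gam β) (β • Wmat n z.1 z.2) c
      (C2 * (1 + j * tau n) * (eps n ^ 1400) ^ 2) ((eps n ^ 1400) ^ 4) (j * tau n) := by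
    refine whp_goe (Q := fun n W => ∀ j ≤ NN n, SC2 (S n) ((P n).Gam β) (β • W) c
      (C2 * (1 + j * tau n) * (eps n ^ 1400) ^ 2) ((eps n ^ 1400) ^ 4) (j * tau n))
      (tendsto_union (by linarith : 0 < C2)) ?_
    filter_upwards [hD, eventually_gt_atTop 0, ev_eps 2] with n h hn u2
    have u0 := eps_pos hn
    have h1 := (hSc (P n) (eps n ^ 1400) h.2.1 (good_mono h.2.2.1 (by linarith)
      (by rw [← pow_mul]; exact hn1 hn _ (by norm_num))) (S n) h.2.2.2 (pow_pos u0 _)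
      ((pow_le_of_le_one u0.le (by linarith) (by norm_num)).trans (by linarith)) n
      (by rw [← pow_mul]; exact hn2 hn _ (by norm_num))).2
    refine le_trans (measure_mono (t := ⋃ j ∈ Finset.range (NN n + 1), {W | opn W ≤ 3 ∧
      ¬ SC2 (S n) ((P n).Gam β) (β • W) c (C2 * (1 + j * tau n) * (eps n ^ 1400) ^ 2)
        ((eps n ^ 1400) ^ 4) (j * tau n)}) fun W hW => ?_) ?_
    · obtain ⟨h2, h3⟩ := hW
      push Not at h3
      obtain ⟨j, hj, h4⟩ := h3
      exact mem_iUnion₂.2 ⟨j, Finset.mem_range.2 (by omega), h2, h4⟩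
    refine (measure_biUnion_finset_le _ _).trans ((Finset.sum_le_sum fun (j : ℕ) _ => h1 (j * tau n)
      (mul_nonneg (Nat.cast_nonneg _) (pow_pos u0 _).le)).trans (le_of_eq ?_))
    rw [Finset.sum_const, Finset.card_range, nsmul_eq_mul, ← Nat.cast_succ,
      ENNReal.ofReal_mul (Nat.cast_nonneg _), ENNReal.ofReal_natCast]
  refine ((((whp_opn.and E2).and (whp_logZ hβ0)).and
    (whp_fst (hTr β c0 C0 δ hβ hc0 hC0 hδ P hFine))).and E5).mono ?_
  set K : ℝ := 100 + 10 * Cs + C1 + Cf + 10 * β + (3 * C2 + 1) / c + 10 / c0 +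
    2 ^ 16 * (Nat.factorial 16) with hKdef
  have k1 : 0 < (3 * C2 + 1) / c := by positivity
  have k2 : 0 < 10 / c0 := by positivity
  have k3 : (0 : ℝ) < 2 ^ 16 * (Nat.factorial 16) := by positivity
  filter_upwards [hD, eventually_gt_atTop 0, ev_eps K] with n h hn hK z hz B hB F hFm
  obtain ⟨⟨⟨⟨z1, z2⟩, z3⟩, z4⟩, z5⟩ := hz
  obtain ⟨-, hOK, hGd, hR⟩ := h
  have hn' : (0 : ℝ) < n := by exact_mod_cast hn
  have u0 := eps_pos hn
  have u1 : eps n ≤ 1 := by nlinarith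
  obtain ⟨t1, t2, t3⟩ := NN_tau hn u1
  have d := fun (c' : ℝ) (h : c' ≤ K) (a b : ℕ) (hab : b < a) => pow_dom u0 u1 hK h hab
  have hp := fun k : ℕ => pow_pos u0 k
  have hl : ∀ a b : ℕ, b ≤ a → eps n ^ a ≤ eps n ^ b := fun a b h =>
    pow_le_pow_of_le_one u0.le u1 h
  have τ0 : 0 < tau n := hp _
  have T0 : 0 ≤ NN n * tau n := by positivity
  have T3 : (1 + NN n * tau n) * eps n ≤ 3 := by linarith
  have hP : (S n).P = (P n).val β := by rw [Site.P, hR.1, hR.2.2.2]; rfl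
  have lg : Real.log (NN n + 2) / n ≤ 4 * eps n ^ 12439 := by
    have a1 : Real.log (NN n + 2) ≤ NN n + 2 :=
      (Real.log_le_sub_one_of_pos (by positivity)).trans (by linarith)
    have a2 := hn1 hn 20000 (by norm_num)
    rw [show 20000 = 7561 + 12439 from rfl, pow_add] at a2
    calc _ ≤ (NN n + 2) * (1 / (n : ℝ)) := by rw [mul_one_div]; gcongr
      _ ≤ (NN n + 2) * (eps n ^ 7561 * eps n ^ 12439) := by gcongr
      _ ≤ _ := by rw [← mul_assoc]; exact mul_le_mul_of_nonneg_right t3 (hp _).le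
  have hY : Cs * (1 + NN n * tau n) * eps n ^ 2 ≤ 1 := by
    have a1 := d (3 * Cs) (by linarith) 1 0 one_pos
    have a2 := mul_le_mul_of_nonneg_left T3 (by positivity : 0 ≤ Cs * eps n)
    simp only [pow_one, pow_zero] at a1
    nlinarith
  have hρ1 := pw_le hn (a := 1 / 50) 20000 (by norm_num)
  have sq2 : ∀ k : ℕ, √(eps n ^ (k * 2)) = eps n ^ k := fun k => by
    rw [pow_mul, Real.sqrt_sq (hp k).le]
  have hτb : tau n ≤ (P n).b := by
    have a1 := d (10 / c0) (by linarith) 7560 0 (by norm_num)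
    rw [pow_zero, div_mul_eq_mul_div, div_le_one hc0] at a1
    have := hGd.b_ge
    unfold tau; linarith [hp 7560]
  have hM1 : (n : ℝ) ^ (1 / 200 : ℝ) ≤ Mc n := Nat.le_ceil _
  have hM0 : (0 : ℝ) < (n : ℝ) ^ (1 / 200 : ℝ) := by positivity
  refine anc_det (CA := 3 * β) (ρ := eps n ^ 11200) (εt := C1 * eps n ^ 2800) (θ := eps n ^ 12000)
    (e0 := eps n ^ 3000) (lam := pw (1 / 250) n) (ρ1 := pw (1 / 50) n) (M := Mc n) (c := c)
    (e2 := 3 * C2 * eps n ^ 2799) (η := eps n ^ 5600) (c0 := c0) (ηg := 1 / n)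
    (r0 := eps n ^ 15) (Y := Cs * (1 + NN n * tau n)) (κ := eps n ^ 12000) (εs := eps n ^ 3000)
    (x1 := eps n ^ 2700) (ε2 := eps n ^ 5600) (x := eps n ^ 1300) (r := eps n ^ 600)
    (Γ := (P n).Gam β) hn hβ.le ?_ ?_ ?_ ?_ (by exact_mod_cast hM0.trans_le hM1) (fun j hj => ?_)
    hc hc0 (by positivity) (fun s s' => hG β c0 C0 _ (P n) hβ hc0 hOK hGd s s') (fun s hs => ?_)
    (fun w L hw ho hL => ?_) hFm τ0.le hτb (hp _) (pow_le_one₀ u0.le u1) ?_
    (hρ1.trans (hl _ _ (by norm_num))) (by positivity) (hp _).le ?_ ?_ le_rfl ?_ (hp _).le ?_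
    (hp _).le ?_ ?_ ?_ (hp _).le ?_ ?_
  · rw [opn_smul, abs_of_pos hβ0, mul_comm]; exact mul_le_mul_of_nonneg_right z1 hβ0.le
  · rwa [show 11200 = 5600 * 2 from rfl, sq2, show 5600 = 2800 * 2 from rfl, sq2] at z2
  · have a1 := hF c0 C0 _ (P n) hOK hGd n
    have a2 := pw_le hn (a := 1 / 11) 3002 (by norm_num)
    have e : (n : ℝ) ^ (10 / 11 : ℝ) = n * pw (1 / 11) n := by
      rw [pw, mul_comm, ← Real.rpow_add_one hn'.ne']; norm_num
    have a3 := hn1 hn 3002 (by norm_num)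
    have a4 := d (Cf + 3) (by linarith) 3002 3000 (by norm_num)
    rw [e] at a1 z3
    rw [hP]
    nlinarith [mul_le_mul_of_nonneg_left a2 (by positivity : 0 ≤ n * (Cf + 2)),
      mul_le_mul_of_nonneg_left a3 hn'.le, mul_le_mul_of_nonneg_left a4 hn'.le]
  · have := z4 B hB
    unfold TreeOn at this ⊢
    rwa [prob_W]
  · have := z5 j hj
    rw [← pow_mul, ← pow_mul] at this
    refine sc2_mono this ?_
    have a1 : (j : ℝ) * tau n ≤ NN n * tau n := by gcongr
    have a2 : (1 + j * tau n) * eps n ≤ 3 := by nlinarith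
    rw [show 1400 * 2 = 2799 + 1 from rfl, pow_succ]
    nlinarith [mul_le_mul_of_nonneg_left a2 (by positivity : 0 ≤ C2 * eps n ^ 2799)]
  · have a1 := hE β (P n) hβ0 hOK s hs _ T0
    have a2 := exp_small u0 t1
    have a3 := d _ (by linarith : (2 : ℝ) ^ 16 * (Nat.factorial 16) ≤ K) 16 15 (by norm_num)
    exact le_trans (sub_le_sub_left (a2.trans a3) 1) a1
  · have a0 := d 4 (by linarith) 12439 0 (by norm_num)
    refine (hS n w (tau n) (tau n) (NN n) L hn hw τ0 le_rfl (pow_le_one₀ u0.le u1) ?_ hL).mono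
      le_rfl ?_ ?_
    · rw [pow_zero] at a0
      exact (div_le_one hn').1 (lg.trans a0)
    · have a1 : 1 / √n ≤ eps n ^ 20000 := by
        refine le_trans (le_of_eq ?_) (pw_le hn (a := 1 / 2) 20000 (by norm_num))
        rw [pw, Real.rpow_neg hn'.le, Real.sqrt_eq_rpow, one_div]
      have a2 := d (6 * Cs) (by linarith) 12439 12000 (by norm_num)
      refine le_trans ?_ a2
      calc _ ≤ Cs * (1 + NN n * tau n) / tau n * (2 * eps n ^ 20000) :=
            mul_le_mul_of_nonneg_left (by linarith) (by positivity)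
        _ = (1 + NN n * tau n) * eps n * (2 * Cs * eps n ^ 12439) := by
            rw [show 20000 = 7560 + (1 + 12439) from rfl, pow_add, pow_add, pow_one, ← tau]
            field_simp
        _ ≤ 3 * (2 * Cs * eps n ^ 12439) := mul_le_mul_of_nonneg_right T3 (by positivity)
        _ = _ := by ring
    · rw [tau, show 7560 = 3780 * 2 from rfl, sq2]
      have a1 := d (5 * Cs) (by linarith) 3780 3000 (by norm_num)
      have a2 := hl 12439 3780 (by norm_num)
      nlinarith [mul_le_mul_of_nonneg_left (lg.trans (by linarith : _ ≤ 4 * eps n ^ 3780))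
        (by linarith : 0 ≤ Cs)]
  · linarith [d 9 (by linarith) 12000 11200 (by norm_num)]
  · have a1 := pw_le hn (a := 1 / 250) 3000 (by norm_num)
    have a2 := hn1 hn 3000 (by norm_num)
    have a3 := d (3 * β + 1) (by linarith) 12000 3000 (by norm_num)
    have a4 : eps n ^ 12000 * (Cs * (1 + NN n * tau n)) ≤ eps n ^ 3000 := by
      refine le_trans ?_ (hl 11998 3000 (by norm_num))
      rw [show 12000 = 11998 + 2 from rfl, pow_add]
      nlinarith [mul_le_mul_of_nonneg_left hY (hp 11998).le]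
    have a5 := hl 3000 2800 (by norm_num)
    have a6 := d (C1 + 6) (by linarith) 2800 2700 (by norm_num)
    linarith
  · have a1 := hn1 hn 6000 (by norm_num)
    have a2 : 1 / (Mc n : ℝ) ≤ eps n ^ 6000 := by
      refine le_trans ?_ (pw_le hn (a := 1 / 200) 6000 (by norm_num))
      rw [pw, Real.rpow_neg hn'.le, one_div]
      exact inv_anti₀ hM0 hM1
    have a3 := hl 12000 6000 (by norm_num)
    have a4 := d 9 (by linarith) 6000 5600 (by norm_num)
    have a5 : 2 / (n : ℝ) = 2 * (1 / n) := by ring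
    have a6 := sq2 6000
    rw [show 6000 * 2 = 12000 from rfl] at a6
    rw [a6]
    linarith
  · have a1 := d ((3 * C2 + 1) / c) (by linarith) 2700 2600 (by norm_num)
    have a2 := hl 2799 2700 (by norm_num)
    rw [div_mul_eq_mul_div, div_le_iff₀ hc] at a1
    rw [← pow_mul, show 1300 * 2 = 2600 from rfl]
    linarith [mul_le_mul_of_nonneg_left a2 (by linarith : 0 ≤ 3 * C2)]
  · have a1 := d (10 / c0) (by linarith) 1300 1200 (by norm_num)
    rw [div_mul_eq_mul_div, div_le_iff₀ hc0] at a1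
    rw [← pow_mul, tau, show 600 * 2 = 1200 from rfl]
    linarith [hn1 hn 1300 (by norm_num), hl 7560 1300 (by norm_num), hl 5600 1300 (by norm_num)]
  · linarith [d 3 (by linarith) 600 210 (by norm_num), hl 5600 600 (by norm_num)]
  · rw [← pow_mul]; exact hl _ _ (by norm_num)
  · linarith [d 2 (by linarith) 43 42 (by norm_num), hl 2700 43 (by norm_num)]
  · rw [← one_div, le_div_iff₀ (hp 2)]; exact hY
  · linarith [d 4 (by linarith) 15 14 (by norm_num), hl 1300 15 (by norm_num),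
      hl 5600 15 (by norm_num), hp 15]

end Crest.Agent.T157.An

end
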