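import Crest.Agent.T157.EntA_34
import Crest.Agent.T157.Bar_33
import Crest.Agent.T157.CutDef_54
import Crest.Agent.T157.NrmS_84

-- ▼ part T157/Mix_49
section

/-!
Row 157, part D (helper49): absence of a cut between sets of macroscopic mass gives mixing from
typical starts.  Finite reversible chains.
-/

set_option autoImplicit false
set_option linter.dupNamespace false
set_option linter.unusedSectionVars false

noncomputable section

namespace Crest.Agent.T157.Mix

open Finset Matrix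
open Crest.Agent.T157.Chain22

variable {Ω : Type*} [Fintype Ω] (c : RC Ω)

/-- the `L¹` flux of a function -/
def fl (g : Ω → ℝ) : ℝ := (1 / 2) * ∑ x, ∑ y, c.π x * c.P x y * |g x - g y|

/-- indicator -/
abbrev I (A : Set Ω) : Ω → ℝ := A.indicator 1

theorem I_mem {A : Set Ω} {x : Ω} (h : x ∈ A) : I A x = 1 := by simp [h]
theorem I_not {A : Set Ω} {x : Ω} (h : x ∉ A) : I A x = 0 := by simp [h]
theorem I_nn (A : Set Ω) (x : Ω) : 0 ≤ I A x := by by_cases h : x ∈ A <;> simp [h]
theorem I_le (A : Set Ω) (x : Ω) : I A x ≤ 1 := by by_cases h : x ∈ A <;> simp [h]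

theorem w_nn (x y : Ω) : 0 ≤ c.π x * c.P x y := mul_nonneg (c.pos x).le (c.nn x y)

theorem fl_nonneg (g : Ω → ℝ) : 0 ≤ fl c g :=
  mul_nonneg (by norm_num) (sum_nonneg fun x _ => sum_nonneg fun y _ =>
    mul_nonneg (w_nn c x y) (abs_nonneg _))

theorem fl_le {g u v : Ω → ℝ} {a b : ℝ}
    (h : ∀ x y, |g x - g y| ≤ a * |u x - u y| + b * |v x - v y|) :
    fl c g ≤ a * fl c u + b * fl c v := by
  simp only [fl]
  rw [mul_left_comm a, mul_left_comm b, ← mul_add, mul_sum (a := a), mul_sum (a := b),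
    ← sum_add_distrib]
  refine mul_le_mul_of_nonneg_left (sum_le_sum fun x _ => ?_) (by norm_num)
  rw [mul_sum, mul_sum, ← sum_add_distrib]
  refine sum_le_sum fun y _ => ?_
  have := mul_le_mul_of_nonneg_left (h x y) (w_nn c x y)
  linarith

theorem fl_ge {g u v : Ω → ℝ} {a b : ℝ}
    (h : ∀ x y, a * |u x - u y| + b * |v x - v y| ≤ |g x - g y|) :
    a * fl c u + b * fl c v ≤ fl c g := by
  simp only [fl]
  rw [mul_left_comm a, mul_left_comm b, ← mul_add, mul_sum (a := a), mul_sum (a := b),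
    ← sum_add_distrib]
  refine mul_le_mul_of_nonneg_left (sum_le_sum fun x _ => ?_) (by norm_num)
  rw [mul_sum, mul_sum, ← sum_add_distrib]
  refine sum_le_sum fun y _ => ?_
  have := mul_le_mul_of_nonneg_left (h x y) (w_nn c x y)
  linarith

theorem fl_union (A B : Set Ω) : fl c (I (A ∪ B)) ≤ fl c (I A) + fl c (I B) := by
  have := fl_le c (g := I (A ∪ B)) (u := I A) (v := I B) (a := 1) (b := 1) fun x y => by
    by_cases h1 : x ∈ A <;> by_cases h2 : x ∈ B <;> by_cases h3 : y ∈ A <;> by_cases h4 : y ∈ B <;>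
      simp [h1, h2, h3, h4]
  linarith

theorem fl_empty : fl c (I ∅) = 0 := by simp [fl]

/-- the canonical low-flux set -/
theorem exists_core {d φ : ℝ} (hd : d ≤ 1 / 4) (hφ : 0 < φ)
    (h : ∀ A : Set Ω, d ≤ mean c.π (I A) → mean c.π (I A) ≤ 1 / 2 → φ ≤ fl c (I A)) :
    ∃ U : Set Ω, mean c.π (I U) ≤ d ∧ ∀ A : Set Ω, mean c.π (I A) ≤ 1 / 2 →
      φ * mean c.π (I (A \ U)) ≤ fl c (I A) := by
  have h0 : mean c.π (I (∅ : Set Ω)) = 0 := by simp [mean]
  have : Nonempty {A : Set Ω // mean c.π (I A) ≤ 1 / 2} := ⟨⟨∅, by rw [h0]; norm_num⟩⟩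
  obtain ⟨⟨U, hU⟩, hmin⟩ := Finite.exists_min fun A : {A : Set Ω // mean c.π (I A) ≤ 1 / 2} =>
    fl c (I A.1) - φ * mean c.π (I A.1)
  have h1 := hmin ⟨∅, by rw [h0]; norm_num⟩
  simp only [fl_empty, h0, mul_zero, sub_zero] at h1
  have hUd : mean c.π (I U) ≤ d := by
    by_contra hc
    have := h U (not_le.1 hc).le hU
    nlinarith
  refine ⟨U, hUd, fun A hA => ?_⟩
  by_cases hAd : d ≤ mean c.π (I A)
  · have h2 : mean c.π (I (A \ U)) ≤ 1 := by
      have := c.isP.mean_mono (g := fun _ => 1) (I_le (A \ U))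
      rwa [c.isP.mean_const] at this
    have := h A hAd hA
    nlinarith
  · have e : mean c.π (I (U ∪ A)) = mean c.π (I U) + mean c.π (I (A \ U)) := by
      rw [← mean_add]
      refine Ent.mean_congr fun x => ?_
      by_cases h1 : x ∈ A <;> by_cases h2 : x ∈ U <;> simp [h1, h2]
    have e2 : mean c.π (I (A \ U)) ≤ mean c.π (I A) := c.isP.mean_mono fun x => by
      by_cases h1 : x ∈ A <;> by_cases h2 : x ∈ U <;> simp [h1, h2]
    have h3 := hmin ⟨U ∪ A, by rw [e]; linarith⟩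
    simp only [e] at h3
    have := fl_union c U A
    linarith

/-- co-area -/
theorem coarea {φ : ℝ} {U : Set Ω}
    (h : ∀ A : Set Ω, mean c.π (I A) ≤ 1 / 2 → φ * mean c.π (I (A \ U)) ≤ fl c (I A)) :
    ∀ (k : ℕ) (g : Ω → ℝ), (∀ x, 0 ≤ g x) → ({x | 0 < g x} : Set Ω).ncard ≤ k →
      mean c.π (I {x | 0 < g x}) ≤ 1 / 2 → φ * mean c.π (fun x => g x * I Uᶜ x) ≤ fl c g := by
  intro k
  induction k with
  | zero =>
    intro g hg hk _
    have he : ({x | 0 < g x} : Set Ω) = ∅ :=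
      (Set.ncard_eq_zero (Set.toFinite _)).1 (Nat.le_zero.1 hk)
    have : ∀ x, g x = 0 := fun x => le_antisymm (not_lt.1 fun hx => by
      have : x ∈ ({x | 0 < g x} : Set Ω) := hx
      rw [he] at this; exact this) (hg x)
    simp only [mean, this, zero_mul, mul_zero, sum_const_zero]
    exact fl_nonneg c g
  | succ k ih =>
    intro g hg hk hm
    set S : Set Ω := {x | 0 < g x} with hS
    rcases S.eq_empty_or_nonempty with he | hne
    · exact ih g hg (by rw [← hS, he]; simp) hm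
    obtain ⟨x0, hx0, hmin⟩ := Set.exists_min_image S g (Set.toFinite _) hne
    have hm0 : 0 < g x0 := hx0
    have hz : ∀ x, x ∉ S → g x = 0 := fun x hx => le_antisymm (not_lt.1 hx) (hg x)
    set g' : Ω → ℝ := fun x => g x - g x0 * I S x with hg'
    have hg'S : ∀ x, x ∈ S → g' x = g x - g x0 := fun x hx => by simp [hg', hx]
    have hg'N : ∀ x, x ∉ S → g' x = 0 := fun x hx => by simp [hg', hx, hz x hx]
    have hnn : ∀ x, 0 ≤ g' x := fun x => by
      by_cases hx : x ∈ S
      · rw [hg'S x hx]; linarith [hmin x hx]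
      · rw [hg'N x hx]
    have hsub : ({x | 0 < g' x} : Set Ω) ⊆ S \ {x0} := fun x hx => by
      have hx' : 0 < g' x := hx
      have hxS : x ∈ S := by
        by_contra hc
        rw [hg'N x hc] at hx'; exact lt_irrefl _ hx'
      refine ⟨hxS, fun e => ?_⟩
      rw [hg'S x hxS, Set.mem_singleton_iff.1 e, sub_self] at hx'
      exact lt_irrefl _ hx'
    have hcard : ({x | 0 < g' x} : Set Ω).ncard ≤ k := by
      have h1 := Set.ncard_le_ncard hsub (Set.toFinite _)
      have h2 := Set.ncard_sdiff_singleton_add_one hx0 (Set.toFinite S)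
      omega
    have hm' : mean c.π (I {x | 0 < g' x}) ≤ 1 / 2 := by
      refine le_trans (c.isP.mean_mono fun x => ?_) hm
      by_cases hx : x ∈ ({x | 0 < g' x} : Set Ω)
      · rw [I_mem hx, I_mem (hsub hx).1]
      · rw [I_not hx]; exact I_nn _ _
    have h1 := ih g' hnn hcard hm'
    have h2 := h S hm
    have h3 : 1 * fl c g' + g x0 * fl c (I S) ≤ fl c g := fl_ge c fun x y => by
      by_cases hx : x ∈ S <;> by_cases hy : y ∈ S
      · rw [hg'S x hx, hg'S y hy, I_mem hx, I_mem hy]; simp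
      · rw [hg'S x hx, hg'N y hy, I_mem hx, I_not hy, hz y hy]
        simp only [sub_zero, abs_one]
        rw [abs_of_nonneg (by linarith [hmin x hx]), abs_of_nonneg (hg x)]; linarith
      · rw [hg'N x hx, hg'S y hy, I_not hx, I_mem hy, hz x hx]
        simp only [zero_sub, abs_neg, abs_one]
        rw [abs_of_nonneg (by linarith [hmin y hy]), abs_of_nonneg (hg y)]; linarith
      · rw [hg'N x hx, hg'N y hy, I_not hx, I_not hy, hz x hx, hz y hy]; simp
    have h4 : mean c.π (fun x => g x * I Uᶜ x) =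
        mean c.π (fun x => g' x * I Uᶜ x) + g x0 * mean c.π (I (S \ U)) := by
      rw [← Ent.mean_const_mul, ← Ent.mean_add']
      refine Ent.mean_congr fun x => ?_
      by_cases hx : x ∈ S <;> by_cases hu : x ∈ U <;> simp [hg', hx, hu]
    rw [h4]
    nlinarith

theorem exists_median (f : Ω → ℝ) : ∃ a : ℝ, (∃ x, f x = a) ∧
    mean c.π (I {x | a < f x}) ≤ 1 / 2 ∧ mean c.π (I {x | f x < a}) ≤ 1 / 2 := by
  have := c.nonempty
  obtain ⟨x1, h1⟩ := Finite.exists_max f
  have hne : ({x | mean c.π (I {y | f x < f y}) ≤ 1 / 2} : Set Ω).Nonempty := by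
    refine ⟨x1, ?_⟩
    have : ({y | f x1 < f y} : Set Ω) = ∅ := by
      ext y; simp [h1 y]
    simp only [Set.mem_ofPred_eq, this]
    simp [mean]
  obtain ⟨x0, hx0, hmin⟩ := Set.exists_min_image _ f (Set.toFinite _) hne
  refine ⟨f x0, ⟨x0, rfl⟩, hx0, ?_⟩
  rcases ({x | f x < f x0} : Set Ω).eq_empty_or_nonempty with he | hne'
  · rw [he]; simp [mean]
  obtain ⟨x2, hx2, hmax⟩ := Set.exists_max_image _ f (Set.toFinite _) hne'
  have h2 : ¬ mean c.π (I {y | f x2 < f y}) ≤ 1 / 2 := fun hc =>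
    absurd (hmin x2 hc) (not_le.2 hx2)
  have h3 : mean c.π (I {x | f x < f x0}) + mean c.π (I {y | f x2 < f y}) ≤ 1 := by
    rw [← mean_add, ← c.isP.mean_const 1]
    refine c.isP.mean_mono fun x => ?_
    by_cases hx : x ∈ ({x | f x < f x0} : Set Ω)
    · have : x ∉ ({y | f x2 < f y} : Set Ω) := not_lt.2 (hmax x hx)
      rw [Pi.add_apply, I_mem hx, I_not this]; norm_num
    · rw [Pi.add_apply, I_not hx, zero_add]; exact I_le _ _
  linarith

theorem fl_le_D {f : Ω → ℝ} (hf : ∀ x, 0 ≤ f x) {l : ℝ} (hl : 0 < l) :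
    fl c f ≤ c.D (fun x => Real.sqrt (f x)) (fun x => Real.sqrt (f x)) / (2 * l) +
      l * mean c.π f := by
  have e1 : ∑ x, ∑ y, c.π x * c.P x y * f x = mean c.π f := by
    refine sum_congr rfl fun x _ => ?_
    rw [← sum_mul, ← mul_sum, c.row, mul_one]
  have e2 : ∑ x, ∑ y, c.π x * c.P x y * f y = mean c.π f := by
    rw [sum_comm]
    refine sum_congr rfl fun y _ => ?_
    rw [← sum_mul, c.stat]
  have e3 : l * mean c.π f = (1 / 2) * ∑ x, ∑ y, c.π x * c.P x y * (l * (f x + f y)) := by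
    have : ∑ x, ∑ y, c.π x * c.P x y * (l * (f x + f y)) =
        l * (∑ x, ∑ y, c.π x * c.P x y * f x + ∑ x, ∑ y, c.π x * c.P x y * f y) := by
      rw [← sum_add_distrib, mul_sum]
      refine sum_congr rfl fun x _ => ?_
      rw [← sum_add_distrib, mul_sum]
      exact sum_congr rfl fun y _ => by ring
    rw [this, e1, e2]; ring
  rw [e3, c.D_eq, fl, mul_div_assoc, ← mul_add, sum_div, ← sum_add_distrib]
  refine mul_le_mul_of_nonneg_left (sum_le_sum fun x _ => ?_) (by norm_num)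
  rw [sum_div, ← sum_add_distrib]
  refine sum_le_sum fun y _ => ?_
  rw [mul_div_assoc, ← mul_add]
  refine mul_le_mul_of_nonneg_left ?_ (w_nn c x y)
  set a := Real.sqrt (f x)
  set b := Real.sqrt (f y)
  have ha : f x = a * a := (Real.mul_self_sqrt (hf x)).symm
  have hb : f y = b * b := (Real.mul_self_sqrt (hf y)).symm
  have ha0 : 0 ≤ a := Real.sqrt_nonneg _
  have hb0 : 0 ≤ b := Real.sqrt_nonneg _
  rw [ha, hb, div_add' _ _ _ (by positivity), le_div_iff₀ (by positivity)]
  have e : |a * a - b * b| = |a - b| * (a + b) := by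
    rw [← abs_of_nonneg (add_nonneg ha0 hb0), ← abs_mul]; congr 1; ring
  have e' : (a - b) * (a - b) = |a - b| * |a - b| := (abs_mul_abs_self _).symm
  rw [e, e']
  nlinarith [sq_nonneg (|a - b| - l * (a + b)), sq_nonneg (l * (a - b))]

/-- distance to equilibrium of one density -/
theorem tv_le {d φ : ℝ} (hd : 0 < d) (hφ : 0 < φ) {U : Set Ω} (hU : mean c.π (I U) ≤ d)
    (h : ∀ A : Set Ω, mean c.π (I A) ≤ 1 / 2 → φ * mean c.π (I (A \ U)) ≤ fl c (I A))
    {f : Ω → ℝ} (hf : ∀ x, 0 ≤ f x) (h1 : mean c.π f = 1) :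
    tv (fun x => c.π x * f x) c.π ≤ mean c.π (fun x => f x * I U x) + 3 * d +
      c.D (fun x => Real.sqrt (f x)) (fun x => Real.sqrt (f x)) / (2 * φ ^ 2 * d) := by
  obtain ⟨a, ⟨x0, hx0⟩, ha1, ha2⟩ := exists_median c f
  have ha0 : 0 ≤ a := hx0 ▸ hf x0
  have ha : a ≤ 2 := by
    have e : mean c.π (fun x => a * (1 - I {x | f x < a} x)) ≤ mean c.π f :=
      c.isP.mean_mono fun x => by
        by_cases hx : x ∈ ({x | f x < a} : Set Ω)
        · rw [I_mem hx]; simpa using hf x
        · rw [I_not hx]; simpa using hx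
    rw [Ent.mean_const_mul, Ent.mean_sub', c.isP.mean_const, h1] at e
    nlinarith
  set p : Ω → ℝ := fun x => max (f x - a) 0 with hp
  set q : Ω → ℝ := fun x => max (a - f x) 0 with hq
  have k1 := coarea c h _ p (fun x => le_max_right _ _) le_rfl (by
    convert ha1 using 4 with x; simp [hp])
  have k2 := coarea c h _ q (fun x => le_max_right _ _) le_rfl (by
    convert ha2 using 4 with x; simp [hq])
  have k3 : 1 * fl c p + 1 * fl c q ≤ fl c f := fl_ge c fun x y => by
    simp only [hp, hq]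
    rcases le_total (f x) a with hx | hx <;> rcases le_total (f y) a with hy | hy
    · rw [max_eq_right (by linarith : f x - a ≤ 0), max_eq_right (by linarith : f y - a ≤ 0),
        max_eq_left (by linarith : 0 ≤ a - f x), max_eq_left (by linarith : 0 ≤ a - f y),
        show a - f x - (a - f y) = -(f x - f y) by ring, abs_neg]; simp
    · rw [max_eq_right (by linarith : f x - a ≤ 0), max_eq_left (by linarith : 0 ≤ f y - a),
        max_eq_left (by linarith : 0 ≤ a - f x), max_eq_right (by linarith : a - f y ≤ 0),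
        abs_of_nonpos (by linarith), abs_of_nonneg (by linarith), abs_of_nonpos (by linarith)]
      linarith
    · rw [max_eq_left (by linarith : 0 ≤ f x - a), max_eq_right (by linarith : f y - a ≤ 0),
        max_eq_right (by linarith : a - f x ≤ 0), max_eq_left (by linarith : 0 ≤ a - f y),
        abs_of_nonneg (by linarith), abs_of_nonpos (by linarith), abs_of_nonneg (by linarith)]
      linarith
    · rw [max_eq_left (by linarith : 0 ≤ f x - a), max_eq_left (by linarith : 0 ≤ f y - a),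
        max_eq_right (by linarith : a - f x ≤ 0), max_eq_right (by linarith : a - f y ≤ 0),
        show f x - a - (f y - a) = f x - f y by ring]; simp
  have k4 := fl_le_D c hf (l := φ * d) (by positivity)
  rw [h1] at k4
  have t1 : tv (fun x => c.π x * f x) c.π ≤ mean c.π fun x => |f x - a| := by
    have e1 : 2 * tv (fun x => c.π x * f x) c.π = mean c.π fun x => |f x - 1| := by
      rw [tv, ← mul_assoc, mean]
      norm_num
      refine sum_congr rfl fun x _ => ?_
      rw [← abs_of_pos (c.pos x), ← abs_mul, abs_of_pos (c.pos x)]; congr 1; ring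
    have e2 : mean c.π (fun x => |f x - 1|) ≤ mean c.π fun x => |f x - a| + |a - 1| :=
      c.isP.mean_mono fun x => abs_sub_le _ _ _
    rw [Ent.mean_add', c.isP.mean_const] at e2
    have e3 : |a - 1| ≤ mean c.π fun x => |f x - a| := by
      have e4 : mean c.π (fun x => f x - a) = 1 - a := by
        rw [Ent.mean_sub', c.isP.mean_const, h1]
      have e5 : mean c.π (fun x => f x - a) ≤ mean c.π fun x => |f x - a| :=
        c.isP.mean_mono fun x => le_abs_self _
      have e6 : mean c.π (fun x => -1 * (f x - a)) ≤ mean c.π fun x => |f x - a| :=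
        c.isP.mean_mono fun x => by rw [neg_one_mul]; exact neg_le_abs _
      rw [Ent.mean_const_mul] at e6
      rw [abs_le]; constructor <;> linarith
    linarith
  have t2 : mean c.π (fun x => |f x - a|) ≤ mean c.π (fun x => p x * I Uᶜ x) +
      mean c.π (fun x => q x * I Uᶜ x) + mean c.π (fun x => f x * I U x) +
      2 * mean c.π (I U) := by
    rw [← Ent.mean_const_mul, ← Ent.mean_add', ← Ent.mean_add', ← Ent.mean_add']
    refine c.isP.mean_mono fun x => ?_
    by_cases hx : x ∈ U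
    · rw [I_mem hx, I_not (by simpa using hx), abs_le]
      constructor <;> linarith [hf x]
    · rw [I_not hx, I_mem (by simpa using hx), abs_le]
      simp only [hp, hq]
      constructor <;> linarith [le_max_left (f x - a) 0, le_max_right (f x - a) 0,
        le_max_left (a - f x) 0, le_max_right (a - f x) 0]
  have t3 : mean c.π (fun x => p x * I Uᶜ x) + mean c.π (fun x => q x * I Uᶜ x) ≤
      c.D (fun x => Real.sqrt (f x)) (fun x => Real.sqrt (f x)) / (2 * φ ^ 2 * d) + d := by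
    refine le_of_mul_le_mul_left ?_ hφ
    have e : φ * (c.D (fun x => Real.sqrt (f x)) (fun x => Real.sqrt (f x)) / (2 * φ ^ 2 * d) + d)
        = c.D (fun x => Real.sqrt (f x)) (fun x => Real.sqrt (f x)) / (2 * (φ * d)) +
          φ * d * 1 := by field_simp
    rw [e]; linarith
  linarith

variable [DecidableEq Ω]

theorem shannon_le : ∑ x, c.π x * ent c.π (c.del x) ≤ Real.log (Fintype.card Ω) := by
  have h := Ent.mean_log_le c.isP (f := fun x => 1 / c.π x) fun x => one_div_pos.2 (c.pos x)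
  have e : mean c.π (fun x => 1 / c.π x) = Fintype.card Ω := by
    simp only [mean]
    rw [sum_congr rfl fun x _ => mul_one_div_cancel (c.pos x).ne']
    simp
  rw [e] at h
  simp only [c.ent_del]
  exact h

/-- no cut between macroscopic sets ⇒ most starts are mixed after some `j < k` steps -/
theorem mix_psd (hc : c.PSD) {d φ : ℝ} (hd : 0 < d) (hd4 : d ≤ 1 / 4) (hφ : 0 < φ)
    (h : ∀ A : Set Ω, d ≤ mean c.π (I A) → mean c.π (I A) ≤ 1 / 2 → φ ≤ fl c (I A))
    {k : ℕ} (hk0 : 0 < k) (hk : Real.log (Fintype.card Ω) ≤ k * (2 * φ ^ 2 * d ^ 2)) :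
    ∃ j < k, mean c.π (fun x => tv ((c.P ^ j) x) c.π) ≤ 5 * d := by
  obtain ⟨U, hU, hc'⟩ := exists_core c hd4 hφ h
  set f : ℕ → Ω → Ω → ℝ := fun j x => (c.P ^ j) *ᵥ c.del x with hf
  have hf0 : ∀ j x y, 0 ≤ f j x y := fun j x => (c.pow j).P_nonneg (c.del_nonneg x)
  have hf1 : ∀ j x, mean c.π (f j x) = 1 := fun j x =>
    ((c.pow j).mean_P (c.del x)).trans (c.mean_del x)
  have hrow : ∀ j x, (c.P ^ j) x = fun y => c.π y * f j x y := fun j x => (c.pow j).row_eq x
  set e : ℕ → ℝ := fun j => ∑ x, c.π x * ent c.π (f j x) with he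
  set Dj : ℕ → ℝ := fun j => ∑ x, c.π x *
    c.D (fun y => Real.sqrt (f j x y)) (fun y => Real.sqrt (f j x y)) with hD
  have hstep : ∀ j, Dj j ≤ e j - e (j + 1) := fun j => by
    simp only [hD, he]
    rw [← sum_sub_distrib]
    refine sum_le_sum fun x _ => ?_
    rw [← mul_sub]
    refine mul_le_mul_of_nonneg_left ?_ (c.pos x).le
    have := hc.D_sqrt_le (hf0 j x)
    have e2 : c.P *ᵥ f j x = f (j + 1) x := by
      simp only [hf]; rw [mulVec_mulVec, ← pow_succ']
    rwa [e2] at this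
  have hsum : ∑ j ∈ range k, Dj j ≤ e 0 - e k := by
    rw [← sum_range_sub' e k]; exact sum_le_sum fun j _ => hstep j
  have he0 : e 0 ≤ Real.log (Fintype.card Ω) := by
    simp only [he, hf, pow_zero, one_mulVec]; exact shannon_le c
  have hek : 0 ≤ e k := sum_nonneg fun x _ => mul_nonneg (c.pos x).le (c.isP.ent_nonneg (hf0 k x))
  obtain ⟨j, hj, hDj⟩ : ∃ j ∈ range k, Dj j ≤ 2 * φ ^ 2 * d ^ 2 := by
    refine exists_le_of_sum_le (nonempty_range_iff.2 hk0.ne') ?_
    rw [sum_const, card_range, nsmul_eq_mul]; linarith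
  refine ⟨j, mem_range.1 hj, ?_⟩
  have k1 : mean c.π (fun x => tv ((c.P ^ j) x) c.π) ≤
      mean c.π fun x => mean c.π (fun y => f j x y * I U y) + 3 * d +
        c.D (fun y => Real.sqrt (f j x y)) (fun y => Real.sqrt (f j x y)) *
          (2 * φ ^ 2 * d)⁻¹ := c.isP.mean_mono fun x => by
    rw [hrow]; exact tv_le c hd hφ hU hc' (hf0 j x) (hf1 j x)
  rw [Ent.mean_add', Ent.mean_add', c.isP.mean_const, Ent.mean_mul_const] at k1
  have k2 : mean c.π (fun x => mean c.π (fun y => f j x y * I U y)) = mean c.π (I U) := by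
    refine Eq.trans ?_ ((c.pow j).mean_P (I U))
    refine Ent.mean_congr fun x => ?_
    show _ = mean ((c.P ^ j) x) (I U)
    rw [hrow]
    exact sum_congr rfl fun y _ => by ring
  have k3 : Dj j * (2 * φ ^ 2 * d)⁻¹ ≤ d := by
    rw [mul_inv_le_iff₀ (by positivity)]; linarith
  have k4 : mean c.π (fun x => c.D (fun y => Real.sqrt (f j x y)) (fun y => Real.sqrt (f j x y)))
      = Dj j := rfl
  rw [k2, k4] at k1
  linarith

theorem H_nat (j : ℕ) : c.H (j : ℝ) = c.H 1 ^ j := by
  induction j with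
  | zero => simp [c.H_zero]
  | succ j ih => rw [Nat.cast_succ, c.H_add, ih, pow_succ]

theorem P_le_H (x y : Ω) : c.P x y ≤ 3 * c.H 1 x y := by
  have h := (c.hasSum_H 1 x y).summable.le_tsum 1 fun k _ =>
    mul_nonneg (poi_nonneg zero_le_one k) (c.pow_nn k x y)
  rw [(c.hasSum_H 1 x y).tsum_eq] at h
  simp only [poi, pow_one, Nat.factorial_one, Nat.cast_one, div_one, mul_one] at h
  have e : 1 ≤ 3 * Real.exp (-1) := by
    rw [Real.exp_neg, ← div_eq_mul_inv, le_div_iff₀ (Real.exp_pos _)]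
    linarith [Real.exp_one_lt_three]
  nlinarith [c.nn x y]

/-- continuous-time version, in terms of the flux of the jump chain -/
theorem mix_heat {d φ : ℝ} (hd : 0 < d) (hd4 : d ≤ 1 / 4) (hφ : 0 < φ)
    (h : ∀ A : Set Ω, d ≤ mean c.π (I A) → mean c.π (I A) ≤ 1 / 2 → 3 * φ ≤ fl c (I A))
    {k : ℕ} (hk0 : 0 < k) (hk : Real.log (Fintype.card Ω) ≤ k * (2 * φ ^ 2 * d ^ 2)) :
    ∃ j < k, mean c.π (I {x | 1 / 4 < tv (c.H (j : ℕ) x) c.π}) ≤ 20 * d := by
  obtain ⟨j, hj, h1⟩ := mix_psd (c.heat 1 zero_le_one) (c.heat_psd 1 zero_le_one) hd hd4 hφ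
    (fun A h1 h2 => by
      have h3 := h A h1 h2
      have h4 : fl c (I A) ≤ 3 * fl (c.heat 1 zero_le_one) (I A) := by
        simp only [fl]
        rw [mul_left_comm, mul_sum (a := 3)]
        refine mul_le_mul_of_nonneg_left (sum_le_sum fun x _ => ?_) (by norm_num)
        rw [mul_sum]
        refine sum_le_sum fun y _ => ?_
        have := mul_le_mul_of_nonneg_right (mul_le_mul_of_nonneg_left (P_le_H c x y) (c.pos x).le)
          (abs_nonneg (I A x - I A y))
        simp only [RC.heat_π, RC.heat_P]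
        linarith
      linarith) hk0 hk
  refine ⟨j, hj, ?_⟩
  simp only [RC.heat_π, RC.heat_P, ← H_nat] at h1
  have h2 : mean c.π (I {x | 1 / 4 < tv (c.H (j : ℕ) x) c.π}) ≤
      mean c.π fun x => 4 * tv (c.H (j : ℕ) x) c.π := c.isP.mean_mono fun x => by
    by_cases hx : x ∈ ({x | 1 / 4 < tv (c.H (j : ℕ) x) c.π} : Set Ω)
    · rw [I_mem hx]
      have : 1 / 4 < tv (c.H (j : ℕ) x) c.π := hx
      linarith
    · rw [I_not hx]; linarith [tv_nonneg (c.H (j : ℕ) x) c.π]
  rw [Ent.mean_const_mul] at h2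
  linarith

end Crest.Agent.T157.Mix
end
end

-- ▼ part T157/MixC_49

/-!
Row 157, part D (helper49): `CutStmt` gives the third part of S0231; S0231 from `BarStmt` and
`CutStmt`.
-/

set_option autoImplicit false
set_option linter.dupNamespace false

noncomputable section

namespace Crest.Agent.T157.Mix

open Finset Matrix MeasureTheory Filter
open Crest.ProbabilityR.SpinGlassDynamics
open Crest.Agent.T157.E Crest.Agent.T157.Cut Crest.Agent.T157.Bar Crest.Agent.T157.Eig

variable {n : ℕ}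

theorem hb_ge {w : Cube n → ℝ} (hw : ∀ x, 0 < w x) {R : ℝ} (hR0 : 0 < R)
    (hR : ∀ x i b, w x ≤ R * w (Function.update x i b)) (x : Cube n) (i : Fin n) (b : Bool) :
    1 / n * (1 / (2 * R)) ≤ hb w x (Function.update x i b) := by
  refine mul_le_mul_of_nonneg_left ?_ (by positivity)
  refine le_trans ?_ (single_le_sum (f := fun i' : Fin n =>
    if (∀ j : Fin n, j ≠ i' → Function.update x i b j = x j) then w (Function.update x i b) /
      (w (Function.update x i' true) + w (Function.update x i' false)) else 0)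
    (fun i' _ => ?_) (mem_univ i))
  · rw [if_pos fun j hj => Function.update_of_ne hj _ _,
      div_le_div_iff₀ (by positivity) (add_pos (hw _) (hw _))]
    have h1 := hR (Function.update x i true) i b
    have h2 := hR (Function.update x i false) i b
    rw [Function.update_idem] at h1 h2
    linarith
  · split_ifs
    · exact (div_pos (hw _) (add_pos (hw _) (hw _))).le
    · exact le_rfl

theorem fl_ge_bd (hn : 0 < n) {w : Cube n → ℝ} (hw : ∀ x, 0 < w x) {R : ℝ} (hR0 : 0 < R)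
    (hR : ∀ x i b, w x ≤ R * w (Function.update x i b)) (A : Set (Cube n)) :
    mass w (bd A) / (4 * n * R) ≤ fl (rc hn hw) (I A) := by
  have hn' : (0 : ℝ) < n := by exact_mod_cast hn
  have e : mass w (bd A) / (4 * n * R) =
      (1 / 2) * ∑ x, prob w x * (I (bd A) x * (1 / n * (1 / (2 * R)))) := by
    rw [mass_eq, Chain22.mean]
    simp only [← mul_assoc, ← sum_mul]
    field_simp
    ring
  rw [e, fl]
  refine mul_le_mul_of_nonneg_left (sum_le_sum fun x _ => ?_) (by norm_num)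
  have hnn : ∀ y, 0 ≤ (rc hn hw).π x * (rc hn hw).P x y * |I A x - I A y| := fun y =>
    mul_nonneg (w_nn _ x y) (abs_nonneg _)
  by_cases hx : x ∈ bd A
  · rw [I_mem hx, one_mul]
    obtain ⟨i, b, h⟩ := hx
    refine le_trans ?_ (single_le_sum (fun y _ => hnn y) (mem_univ (Function.update x i b)))
    have e1 : |I A x - I A (Function.update x i b)| = 1 := by
      by_cases h1 : x ∈ A <;> by_cases h2 : Function.update x i b ∈ A <;> simp_all
    rw [e1, mul_one]
    exact mul_le_mul_of_nonneg_left (hb_ge hw hR0 hR x i b) ((rc hn hw).pos x).le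
  · rw [I_not hx, zero_mul, mul_zero]
    exact sum_nonneg fun y _ => hnn y

theorem mass_compl {w : Cube n → ℝ} (hn : 0 < n) (hw : ∀ x, 0 < w x) (A : Set (Cube n)) :
    mass w Aᶜ = 1 - mass w A := by
  rw [mass_eq, mass_eq, eq_sub_iff_add_eq, ← Chain22.mean_add, ← (rc hn hw).isP.mean_const 1]
  refine Ent.mean_congr fun x => ?_
  by_cases hx : x ∈ A <;> simp [hx]

theorem mass_mono {w : Cube n → ℝ} (hn : 0 < n) (hw : ∀ x, 0 < w x) {A B : Set (Cube n)}
    (h : A ⊆ B) : mass w A ≤ mass w B := by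
  rw [mass_eq, mass_eq]
  refine (rc hn hw).isP.mean_mono fun x => ?_
  by_cases hx : x ∈ A
  · simp [hx, h hx]
  · rw [Set.indicator_of_notMem hx]; exact I_nn B x

/-- mixing from typical starts for a weight without cut -/
theorem mix_cube (hn : 0 < n) {w : Cube n → ℝ} (hw : ∀ x, 0 < w x) {R : ℝ} (hR0 : 0 < R)
    (hR : ∀ x i b, w x ≤ R * w (Function.update x i b)) {d φ : ℝ} (hd : 0 < d) (hd4 : d ≤ 1 / 4)
    (hφ : 0 < φ) (h : NoCut w d φ) :
    ∃ t : ℝ, 0 ≤ t ∧ t ≤ 72 * n ^ 3 * R ^ 2 / (φ ^ 2 * d ^ 2) + 2 ∧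
      mass w {x | 1 / 4 < E.tv (hbCt w t x) (prob w)} ≤ 20 * d := by
  have hn' : (0 : ℝ) < n := by exact_mod_cast hn
  have hn1 : (1 : ℝ) ≤ n := by exact_mod_cast hn
  set ψ : ℝ := φ / (12 * n * R) with hψ
  have hψ0 : 0 < ψ := by positivity
  set T : ℝ := 72 * n ^ 3 * R ^ 2 / (φ ^ 2 * d ^ 2) with hT
  have hT0 : 0 ≤ T := by positivity
  obtain ⟨j, hj, h1⟩ := mix_heat (rc hn hw) hd hd4 hψ0 (fun A h1 h2 => by
      have h3 : d ≤ mass w A := by rwa [mass_eq]
      have h4 : mass w A ≤ 1 / 2 := by rwa [mass_eq]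
      have h5 := h A h3 (by rw [mass_compl hn hw]; linarith)
      refine le_trans ?_ (fl_ge_bd hn hw hR0 hR A)
      have : 3 * ψ = φ / (4 * n * R) := by rw [hψ]; field_simp; ring
      rw [this]
      exact div_le_div_of_nonneg_right h5 (by positivity))
    (k := ⌈T⌉₊ + 1) (Nat.succ_pos _) (by
      have e1 : Real.log (Fintype.card (Cube n)) ≤ n := by
        simp only [Fintype.card_pi, Fintype.card_bool, prod_const, card_univ, Fintype.card_fin,
          Nat.cast_pow, Nat.cast_ofNat, Real.log_pow]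
        have := Real.log_two_lt_d9
        nlinarith
      have e2 : T * (2 * ψ ^ 2 * d ^ 2) = n := by rw [hT, hψ]; field_simp; ring
      have e3 : T ≤ ((⌈T⌉₊ + 1 : ℕ) : ℝ) := by push_cast; linarith [Nat.le_ceil T]
      calc _ ≤ (n : ℝ) := e1
        _ = T * (2 * ψ ^ 2 * d ^ 2) := e2.symm
        _ ≤ _ := mul_le_mul_of_nonneg_right e3 (by positivity))
  refine ⟨j / n, by positivity, ?_, ?_⟩
  · have e1 : (j : ℝ) ≤ ⌈T⌉₊ := by exact_mod_cast Nat.lt_succ_iff.1 hj
    have e2 := (Nat.ceil_lt_add_one hT0).le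
    have e3 : (j : ℝ) / n ≤ j := div_le_self (Nat.cast_nonneg _) hn1
    linarith
  · have e : hbCt w (j / n) = (rc hn hw).H (j : ℕ) := by
      funext x y
      rw [hbCt_eq hn hw, mul_div_cancel₀ _ hn'.ne']
    rw [e, mass_eq]
    exact h1

theorem nrm_sv (x : Cube n) : nrm (sv x) = Real.sqrt n := by rw [nrm, sv_dot_self]

theorem nrm_flip (x : Cube n) (i : Fin n) (b : Bool) :
    nrm (sv x - sv (Function.update x i b)) ≤ 2 := by
  rw [nrm_le_iff (by norm_num), dotProduct, sum_eq_single i]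
  · simp only [Pi.sub_apply, sv, Function.update_self]
    cases x i <;> cases b <;> norm_num [spin]
  · intro j _ hj; simp [sv, Function.update_of_ne hj]
  · simp

/-- one flip changes an Ising weight by at most `exp (2 ‖A‖ √n)` -/
theorem ising_ratio (A : Matrix (Fin n) (Fin n) ℝ) {K : ℝ} (hK : opn A ≤ K) (x : Cube n)
    (i : Fin n) (b : Bool) :
    ising A 0 x ≤ Real.exp (2 * K * Real.sqrt n) * ising A 0 (Function.update x i b) := by
  rw [ising, ising, ← Real.exp_add, Real.exp_le_exp, zero_dotProduct, zero_dotProduct]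
  set u := sv x
  set v := sv (Function.update x i b)
  have e : u ⬝ᵥ A *ᵥ u = v ⬝ᵥ A *ᵥ v + (u - v) ⬝ᵥ A *ᵥ u + v ⬝ᵥ A *ᵥ (u - v) := by
    rw [sub_dotProduct, mulVec_sub, dotProduct_sub]; ring
  have h1 := (le_abs_self _).trans (abs_bil_le A (u - v) u)
  have h2 := (le_abs_self _).trans (abs_bil_le A v (u - v))
  have h3 : nrm (u - v) ≤ 2 := nrm_flip x i b
  rw [nrm_sv] at h1 h2
  have h4 : opn A * (nrm (u - v) * Real.sqrt n) ≤ K * (2 * Real.sqrt n) :=
    mul_le_mul hK (mul_le_mul_of_nonneg_right h3 (Real.sqrt_nonneg _))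
      (mul_nonneg (nrm_nonneg _) (Real.sqrt_nonneg _)) ((opn_nonneg A).trans hK)
  rw [mul_comm (Real.sqrt n)] at h2
  linarith

theorem gibbs_ratio {β : ℝ} (hβ : 0 ≤ β) {g : Pair n → ℝ} (hg : opn (Jmat n g) ≤ 18) (x : Cube n)
    (i : Fin n) (b : Bool) : gibbsWeight n β g x ≤
      Real.exp (2 * (β * 18) * Real.sqrt n) * gibbsWeight n β g (Function.update x i b) := by
  rw [gibbsWeight_eq_ising]
  refine ising_ratio _ ?_ x i b
  rw [opn_smul, abs_of_nonneg hβ]
  exact mul_le_mul_of_nonneg_left hg hβ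

theorem opn_small : Tendsto (fun n : ℕ => disorderLaw n {g | 18 < opn (Jmat n g)}) atTop
    (nhds 0) := by
  have h1 : Tendsto (fun n : ℕ => ENNReal.ofReal (Real.exp (-n))) atTop (nhds 0) := by
    rw [← ENNReal.ofReal_zero]
    exact ENNReal.tendsto_ofReal (Real.tendsto_exp_neg_atTop_nhds_zero.comp
      tendsto_natCast_atTop_atTop)
  refine tendsto_of_tendsto_of_tendsto_of_le_of_le tendsto_const_nhds h1 (fun _ => bot_le)
    fun n => ?_
  have h := Nrm.opn_Jmat_18 (n := n) (fun _ => ProbabilityTheory.gaussianReal 0 1)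
    fun _ => Nrm.subG_gauss
  rw [← ofReal_measureReal (measure_ne_top _ _)]
  exact ENNReal.ofReal_le_ofReal h

theorem time_le {β d c c0 : ℝ} (hβ : 0 ≤ β) (hd : 0 < d) (hc : c0 < c) (hc0 : c0 < 1 / 2) :
    ∀ᶠ n : ℕ in atTop, 72 * (n : ℝ) ^ 3 * Real.exp (2 * (β * 18) * Real.sqrt n) ^ 2 /
      (Real.exp (-(n : ℝ) ^ (1 - c)) ^ 2 * d ^ 2) + 2 ≤ Real.exp ((n : ℝ) ^ (1 - c0)) := by
  set b : ℝ := max (1 - c) (1 / 2) with hb
  have hb1 : b < 1 - c0 := max_lt (by linarith) (by linarith)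
  set K : ℝ := 72 * 720 / d ^ 2 + 2 with hK
  have hK0 : 0 < K := by positivity
  have h2 : Tendsto (fun n : ℕ => (n : ℝ) ^ (1 - c0 - b)) atTop atTop :=
    (tendsto_rpow_atTop (by linarith)).comp tendsto_natCast_atTop_atTop
  filter_upwards [h2.eventually_ge_atTop (K + 72 * β + 3), eventually_ge_atTop 1] with n hn hn1
  have hn0 : (1 : ℝ) ≤ n := by exact_mod_cast hn1
  set u : ℝ := (n : ℝ) ^ b with hu
  have u1 : 1 ≤ u := Real.one_le_rpow hn0 (by positivity)
  have u2 : Real.sqrt n ≤ u := by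
    rw [Real.sqrt_eq_rpow]; exact Real.rpow_le_rpow_of_exponent_le hn0 (le_max_right _ _)
  have u3 : (n : ℝ) ^ (1 - c) ≤ u := Real.rpow_le_rpow_of_exponent_le hn0 (le_max_left _ _)
  have u4 : (n : ℝ) ^ (1 - c0) = (n : ℝ) ^ (1 - c0 - b) * u := by
    rw [hu, ← Real.rpow_add (by linarith)]; ring_nf
  have u5 : (n : ℝ) ^ 3 ≤ 720 * Real.exp u := by
    have h1 := Real.pow_div_factorial_le_exp u (by linarith) 6
    have h3 : (n : ℝ) ^ 3 = Real.sqrt n ^ 6 := by
      rw [show 6 = 2 * 3 by norm_num, pow_mul, Real.sq_sqrt (by linarith)]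
    have h4 : Real.sqrt n ^ 6 ≤ u ^ 6 := pow_le_pow_left₀ (Real.sqrt_nonneg _) u2 6
    norm_num [Nat.factorial] at h1
    rw [div_le_iff₀ (by norm_num)] at h1
    linarith
  have e1 : 72 * (n : ℝ) ^ 3 * Real.exp (2 * (β * 18) * Real.sqrt n) ^ 2 /
      (Real.exp (-(n : ℝ) ^ (1 - c)) ^ 2 * d ^ 2) =
      72 / d ^ 2 * (n : ℝ) ^ 3 * Real.exp (72 * β * Real.sqrt n + 2 * (n : ℝ) ^ (1 - c)) := by
    rw [Real.exp_neg, Real.exp_add, show 72 * β * Real.sqrt n =
      2 * (β * 18) * Real.sqrt n + 2 * (β * 18) * Real.sqrt n by ring, Real.exp_add, two_mul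
      ((n : ℝ) ^ (1 - c)), Real.exp_add]
    field_simp
  have e2 : Real.exp (72 * β * Real.sqrt n + 2 * (n : ℝ) ^ (1 - c)) ≤
      Real.exp ((72 * β + 2) * u) := Real.exp_le_exp.2 (by nlinarith)
  have e3 : 72 / d ^ 2 * (n : ℝ) ^ 3 * Real.exp (72 * β * Real.sqrt n + 2 * (n : ℝ) ^ (1 - c)) ≤
      72 / d ^ 2 * (720 * Real.exp u) * Real.exp ((72 * β + 2) * u) := by gcongr
  have e4 : Real.exp u * Real.exp ((72 * β + 2) * u) = Real.exp ((72 * β + 3) * u) := by
    rw [← Real.exp_add]; ring_nf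
  have e5 : 1 ≤ Real.exp ((72 * β + 3) * u) := Real.one_le_exp (by positivity)
  have e6 : K ≤ Real.exp (K * u) := by
    have := Real.add_one_le_exp (K * u)
    nlinarith
  calc _ ≤ K * Real.exp ((72 * β + 3) * u) := by
        rw [e1, hK, add_mul, ← e4]
        have : 72 / d ^ 2 * (720 * Real.exp u) * Real.exp ((72 * β + 2) * u) =
          72 * 720 / d ^ 2 * (Real.exp u * Real.exp ((72 * β + 2) * u)) := by ring
        rw [e4] at this ⊢
        linarith
    _ ≤ Real.exp (K * u) * Real.exp ((72 * β + 3) * u) :=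
        mul_le_mul_of_nonneg_right e6 (Real.exp_pos _).le
    _ ≤ _ := by
        rw [← Real.exp_add, Real.exp_le_exp, u4]; nlinarith

/-- third part of S0231 from the cut statement -/
theorem upper_of_cut (h : CutStmt) (β : ℝ) (hβ : 1 < β) (η : ℝ) (hη : 0 < η) :
    Tendsto (fun n : ℕ => disorderLaw n {g | gibbsMass n β g
      {x | ∃ t : ℝ, 0 ≤ t ∧ t ≤ Real.exp ((n : ℝ) ^ (1 - 1 / 40000000 : ℝ)) ∧
        stateTV n β g t x ≤ 1 / 4} ≤ 1 - η}) atTop (nhds 0) := by
  set d : ℝ := min η 1 / 40 with hd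
  have hd0 : 0 < d := by positivity
  have hd1 : d ≤ 1 / 4 := by linarith [min_le_right η 1]
  have hd2 : 20 * d < η := by linarith [min_le_left η 1]
  obtain ⟨c, hc, h⟩ := h β hβ d hd0
  have h2 := h.add opn_small
  rw [add_zero] at h2
  refine tendsto_of_tendsto_of_tendsto_of_le_of_le' tendsto_const_nhds h2
    (Eventually.of_forall fun _ => bot_le) ?_
  filter_upwards [time_le (by linarith : 0 ≤ β) hd0 hc (by norm_num), eventually_gt_atTop 0]
    with n hn hn0
  refine le_trans (measure_mono fun g hg => ?_) (measure_union_le _ _)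
  by_contra hcon
  simp only [Set.mem_union, Set.mem_ofPred_eq, not_or, not_not, not_lt] at hcon
  obtain ⟨t, ht0, ht1, ht2⟩ := mix_cube hn0 (gibbsWeight_pos β g) (Real.exp_pos _)
    (gibbs_ratio (by linarith) hcon.2) hd0 hd1 (Real.exp_pos _) hcon.1
  simp only [Set.mem_ofPred_eq, gibbsMass_eq, stateTV_eq] at hg
  have h3 := mass_mono hn0 (gibbsWeight_pos β g)
    (A := {x | 1 / 4 < E.tv (hbCt (gibbsWeight n β g) t x) (prob (gibbsWeight n β g))}ᶜ)
    (B := {x | ∃ t : ℝ, 0 ≤ t ∧ t ≤ Real.exp ((n : ℝ) ^ (1 - 1 / 40000000 : ℝ)) ∧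
      E.tv (hbCt (gibbsWeight n β g) t x) (prob (gibbsWeight n β g)) ≤ 1 / 4})
    fun x hx => ⟨t, ht0, ht1.trans hn, not_lt.1 hx⟩
  rw [mass_compl hn0 (gibbsWeight_pos β g)] at h3
  linarith

/-- S0231 from the barrier and the cut statements -/
theorem s0231_of (h1 : BarStmt) (h2 : CutStmt) (β : ℝ) (hβ : 1 < β) (η : ℝ) (hη : 0 < η) :
    Tendsto (fun n : ℕ => disorderLaw n {g | η ≤ gibbsMass n β g
      {x | stateTV n β g (Real.exp ((n : ℝ) ^ (1 / 10000 : ℝ))) x ≤ 1 / 4}}) atTop (nhds 0) ∧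
    Tendsto (fun n : ℕ => disorderLaw n {g | η ≤ gibbsMass n β g
      {x | stateTVdisc n β g ⌊Real.exp ((n : ℝ) ^ (1 / 10000 : ℝ))⌋₊ x ≤ 1 / 4}})
      atTop (nhds 0) ∧
    Tendsto (fun n : ℕ => disorderLaw n {g | gibbsMass n β g
      {x | ∃ t : ℝ, 0 ≤ t ∧ t ≤ Real.exp ((n : ℝ) ^ (1 - 1 / 40000000 : ℝ)) ∧
        stateTV n β g t x ≤ 1 / 4} ≤ 1 - η}) atTop (nhds 0) :=
  ⟨lower_cont h1 β hβ η hη, lower_disc h1 β hβ η hη, upper_of_cut h2 β hβ η hη⟩

end Crest.Agent.T157.Mix
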