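import Crest.Agent.T157.PfSite_56

/-!
Row 157 (helper56): calculus of the expectations `P.E` along the Parisi diffusion.
-/

set_option autoImplicit false

namespace Crest.Agent.T157.Pf

open MeasureTheory ProbabilityTheory Filter Topology Set
open Crest.Agent.R164.GC Crest.Agent.R339.B Crest.Agent.R339.Var
open Crest.ProbabilityR.InvariantGlass (gaussOp)

noncomputable section

/-! ### constants -/

theorem tE_shift (m v : ℝ) (f φ : ℝ → ℝ) (c : ℝ) : tE m v (fun y => f y + c) φ = tE m v f φ := by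
  funext x
  unfold tE
  have e1 : (fun y => φ y * Real.exp (m * (f y + c))) =
      fun y => Real.exp (m * c) * (φ y * Real.exp (m * f y)) := by
    funext y; rw [mul_add, Real.exp_add]; ring
  have e2 : (fun y => Real.exp (m * (f y + c))) =
      fun y => Real.exp (m * c) * Real.exp (m * f y) := by
    funext y; rw [mul_add, Real.exp_add]; ring
  rw [e1, e2, H_const_mul, H_const_mul, mul_div_mul_left _ _ (Real.exp_pos _).ne']

theorem gaussOp_shift {f : ℝ → ℝ} (hf : Lip1 f) {m : ℝ} (hm : m ≠ 0) (v c : ℝ) :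
    gaussOp m v (fun y => f y + c) = fun x => gaussOp m v f x + c := by
  funext x
  have e2 : (fun y => Real.exp (m * (f y + c))) =
      fun y => Real.exp (m * c) * Real.exp (m * f y) := by
    funext y; rw [mul_add, Real.exp_add]; ring
  rw [gaussOp_ne hm, gaussOp_ne hm, e2, H_const_mul,
    Real.log_mul (Real.exp_pos _).ne' (den_pos hf m _ x).ne', Real.log_exp]
  field_simp
  ring

theorem tE_nonpos (m : ℝ) {v : ℝ} (hv : v ≤ 0) (f φ : ℝ → ℝ) : tE m v f φ = φ := by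
  funext x
  unfold tE
  rw [Real.sqrt_eq_zero'.2 hv, H_zero, H_zero, mul_div_cancel_right₀ _ (Real.exp_pos _).ne']

theorem gaussOp_phi0 {β : ℝ} (hβ : 0 < β) {v : ℝ} (hv : 0 ≤ v) :
    gaussOp β v (phi0 β) = fun x => phi0 β x + β * v / 2 := by
  funext x
  obtain ⟨C, hC⟩ := (phi0_prof hβ).sm
  obtain ⟨ξ, _, _, e⟩ := gaussOp_mvt hC β le_rfl hv x
  have e2 : (fun y => deriv (deriv (phi0 β)) y + β * deriv (phi0 β) y ^ 2) = fun _ => β := by
    funext y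
    rw [phi0_deriv2 hβ, phi0_deriv hβ]
    ring
  rw [e2, tE_const (phi0_prof hβ).lip, gaussOp_v0 hβ.ne'] at e
  linarith

theorem PhiL_top {β : ℝ} (hβ : 0 < β) : ∀ {l : List (ℝ × ℝ)}, (∀ p ∈ l, p.1 = β ∧ 0 ≤ p.2) →
    PhiL β l = fun x => phi0 β x + β * TT l / 2
  | [], _ => by funext x; simp [PhiL, TT]
  | p :: l, h => by
    have hp := h p (by simp)
    show gaussOp p.1 p.2 (PhiL β l) = _
    rw [PhiL_top hβ fun q hq => h q (by simp [hq]), hp.1,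
      gaussOp_shift (phi0_prof hβ).lip hβ.ne', gaussOp_phi0 hβ hp.2, TT_cons]
    funext x
    ring

theorem PhiT_top {β : ℝ} (hβ : 0 < β) : ∀ {l : List (ℝ × ℝ)}, (∀ p ∈ l, p.1 = β ∧ 0 ≤ p.2) →
    ∀ t, ∃ c, PhiT β l t = fun x => phi0 β x + c
  | [], _, _ => ⟨0, by funext x; simp [PhiT]⟩
  | p :: l, h, t => by
    have hp := h p (by simp)
    have hl : ∀ q ∈ l, q.1 = β ∧ 0 ≤ q.2 := fun q hq => h q (by simp [hq])
    unfold PhiT
    split_ifs with ht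
    · rw [PhiL_top hβ hl, hp.1, gaussOp_shift (phi0_prof hβ).lip hβ.ne',
        gaussOp_phi0 hβ (by linarith)]
      exact ⟨_, funext fun x => add_assoc _ _ _⟩
    · exact PhiT_top hβ hl _

theorem PhiL_append {β : ℝ} (hβ : 0 < β) {l' : List (ℝ × ℝ)} (h' : ∀ p ∈ l', p.1 = β ∧ 0 ≤ p.2) :
    ∀ {l : List (ℝ × ℝ)}, (∀ p ∈ l, 0 < p.1) →
    PhiL β (l ++ l') = fun x => PhiL β l x + β * TT l' / 2
  | [], _ => PhiL_top hβ h'
  | p :: l, h => by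
    show gaussOp p.1 p.2 (PhiL β (l ++ l')) = _
    rw [PhiL_append hβ h' fun q hq => h q (by simp [hq]),
      gaussOp_shift (PhiL_prof hβ l).lip (h p (by simp)).ne']
    rfl

theorem PhiT_append {β : ℝ} (hβ : 0 < β) {l' : List (ℝ × ℝ)} (h' : ∀ p ∈ l', p.1 = β ∧ 0 ≤ p.2) :
    ∀ {l : List (ℝ × ℝ)}, (∀ p ∈ l, 0 < p.1) → ∀ t,
    ∃ c, PhiT β (l ++ l') t = fun x => PhiT β l t x + c
  | [], _, t => PhiT_top hβ h' t
  | p :: l, h, t => by
    have hl : ∀ q ∈ l, 0 < q.1 := fun q hq => h q (by simp [hq])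
    rw [List.cons_append]
    unfold PhiT
    split_ifs with ht
    · rw [PhiL_append hβ h' hl, gaussOp_shift (PhiL_prof hβ l).lip (h p (by simp)).ne']
      exact ⟨_, rfl⟩
    · exact PhiT_append hβ h' hl _

theorem EX_nonpos {β : ℝ} : ∀ {l : List (ℝ × ℝ)}, (∀ p ∈ l, 0 ≤ p.2) → ∀ {t : ℝ}, t ≤ 0 →
    ∀ F, EX β l t F = F
  | [], _, _, _, _ => rfl
  | p :: l, h, t, ht, F => by
    unfold EX
    rw [if_pos (ht.trans (h p (by simp))), tE_nonpos _ ht]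

theorem EX_append {β : ℝ} (hβ : 0 < β) {l' : List (ℝ × ℝ)} (h' : ∀ p ∈ l', p.1 = β ∧ 0 ≤ p.2) :
    ∀ {l : List (ℝ × ℝ)}, (∀ p ∈ l, 0 < p.1) → ∀ {t : ℝ}, t ≤ TT l → ∀ F,
    EX β (l ++ l') t F = EX β l t F
  | [], _, t, ht, F => EX_nonpos (fun p hp => (h' p hp).2) (by simpa [TT] using ht) F
  | p :: l, h, t, ht, F => by
    have hl : ∀ q ∈ l, 0 < q.1 := fun q hq => h q (by simp [hq])
    rw [TT_cons] at ht
    rw [List.cons_append]
    unfold EX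
    split_ifs with h1
    · rw [PhiL_append hβ h' hl, gaussOp_shift (PhiL_prof hβ l).lip (h p (by simp)).ne', tE_shift]
    · rw [PhiL_append hβ h' hl, tE_shift, EX_append hβ h' hl (by linarith)]

theorem EX_next {β : ℝ} {p : ℝ × ℝ} {l : List (ℝ × ℝ)} (hp : p.1 ≠ 0) (hl : ∀ q ∈ l, 0 ≤ q.2)
    {t : ℝ} (ht : p.2 ≤ t) (F : ℝ → ℝ) :
    EX β (p :: l) t F = tE p.1 p.2 (PhiL β l) (EX β l (t - p.2) F) := by
  rcases ht.eq_or_lt with h | h
  · conv_lhs => unfold EX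
    rw [if_pos h.ge, ← h, sub_self, gaussOp_v0 hp, EX_nonpos hl le_rfl]
  · conv_lhs => unfold EX
    rw [if_neg (not_le.2 h)]

theorem tE_phi0_semi {β : ℝ} (hβ : 0 < β) {v w : ℝ} (hv : 0 ≤ v) (hw : 0 ≤ w) {F : ℝ → ℝ}
    (hF : EG F) : tE β (v + w) (phi0 β) F = tE β v (phi0 β) (tE β w (phi0 β) F) := by
  rw [tE_semi (phi0_prof hβ) hβ.ne' hv hw hF, gaussOp_phi0 hβ hw, tE_shift]

theorem EX_top {β : ℝ} (hβ : 0 < β) {F : ℝ → ℝ} (hF : EG F) : ∀ {l : List (ℝ × ℝ)},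
    (∀ p ∈ l, p.1 = β ∧ 0 ≤ p.2) → ∀ {t : ℝ}, t ≤ TT l → EX β l t F = tE β t (phi0 β) F
  | [], _, t, ht => by rw [tE_nonpos _ (by simpa [TT] using ht)]; rfl
  | p :: l, h, t, ht => by
    have hp := h p (by simp)
    have hl : ∀ q ∈ l, q.1 = β ∧ 0 ≤ q.2 := fun q hq => h q (by simp [hq])
    rw [TT_cons] at ht
    unfold EX
    split_ifs with h1
    · rw [PhiL_top hβ hl, hp.1, gaussOp_shift (phi0_prof hβ).lip hβ.ne',
        gaussOp_phi0 hβ (by linarith), tE_shift, tE_shift]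
    · rw [PhiL_top hβ hl, hp.1, tE_shift, EX_top hβ hF hl (by linarith),
        ← tE_phi0_semi hβ hp.2 (by linarith [not_le.1 h1]) hF, add_sub_cancel]

theorem EX_markov_top {β d : ℝ} (hβ : 0 < β) (hd : 0 ≤ d) {F : ℝ → ℝ} {K : ℝ} (hF : BC F K) :
    ∀ (a : ℕ) (l : List (ℝ × ℝ)), (∀ p ∈ l, 0 < p.1 ∧ p.2 = d) → (∀ p ∈ l.drop a, p.1 = β) →
    ∀ s t, a * d ≤ s → 0 ≤ t → s + t ≤ TT l →
      EX β l (s + t) F = EX β l s (tE β t (phi0 β) F)
  | 0, l, h2, h, s, t, hs, ht, hT => by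
    have hl : ∀ p ∈ l, p.1 = β ∧ 0 ≤ p.2 := fun p hp =>
      ⟨h p (by simpa using hp), by rw [(h2 p hp).2]; exact hd⟩
    rw [EX_top hβ hF.eg hl hT, EX_top hβ (tE_BC (phi0_prof hβ).lip β t hF).eg hl (by linarith),
      tE_phi0_semi hβ (by simpa using hs) ht hF.eg]
  | a + 1, [], _, _, s, t, hs, ht, hT => by
    have h0 : 0 ≤ ((a + 1 : ℕ) : ℝ) * d := by positivity
    have h1 : s + t ≤ 0 := by simpa [TT] using hT
    rw [tE_nonpos _ (by linarith)]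
    rfl
  | a + 1, p :: l, h2, h, s, t, hs, ht, hT => by
    have hp := h2 p (by simp)
    have hcast : ((a + 1 : ℕ) : ℝ) = (a:ℝ) + 1 := by push_cast; ring
    rw [hcast] at hs
    have had : 0 ≤ (a:ℝ) * d := by positivity
    have hl : ∀ q ∈ l, 0 ≤ q.2 := fun q hq => by rw [(h2 q (by simp [hq])).2]; exact hd
    rw [TT_cons] at hT
    rw [EX_next hp.1.ne' hl (by rw [hp.2]; nlinarith), EX_next hp.1.ne' hl (by rw [hp.2]; nlinarith),
      show s + t - p.2 = (s - p.2) + t by ring,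
      EX_markov_top hβ hd hF a l (fun q hq => h2 q (by simp [hq])) (by simpa using h) _ t
        (by rw [hp.2]; linarith) ht (by linarith)]

/-- `tE 1 t (log 2cosh) F ≤ e^{-t/2}` if `F cosh ≤ 1` -/
theorem tE_phi0_le {F : ℝ → ℝ} (hF : EG F) (h : ∀ y, F y * Real.cosh y ≤ 1) {t : ℝ} (ht : 0 ≤ t)
    (x : ℝ) : tE 1 t (phi0 1) F x ≤ Real.exp (-(t / 2)) := by
  have h1 := tE_eq (phi0_prof one_pos) one_ne_zero t F x
  have ex : ∀ y, Real.exp (1 * phi0 1 y) = 2 * Real.cosh y := fun y => by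
    rw [one_mul, Par.phi0_one, Real.exp_log (by positivity)]
  have h2 : H (√t) (fun y => F y * Real.exp (1 * phi0 1 y)) x ≤ H (√t) (fun _ => 2) x :=
    H_mono (hF.mul ((phi0_prof one_pos).exp_egs 1).eg) (EG.const 2) (fun y => by
      rw [ex]; linarith [h y]) _ _
  rw [H_const, ← h1, gaussOp_phi0 one_pos ht] at h2
  simp only at h2
  rw [mul_add, Real.exp_add, ex, one_mul, one_mul] at h2
  have h3 := Real.one_le_cosh x
  have h4 := Real.exp_pos (t / 2)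
  rw [Real.exp_neg, ← one_div, le_div_iff₀ h4]
  by_contra hc
  have h5 : 1 < tE 1 t (phi0 1) F x * Real.exp (t / 2) := not_le.1 hc
  nlinarith

namespace Par

variable {P : Par} {β : ℝ}

theorem OK.lst_add (h : P.OK) (β : ℝ) {N M : ℕ} (hN : P.a ≤ N) (hNM : N ≤ M) :
    ∃ l', P.lst β M = P.lst β N ++ l' ∧ ∀ p ∈ l', p.1 = 1 ∧ 0 ≤ p.2 := by
  obtain ⟨j, rfl⟩ := Nat.exists_eq_add_of_le hNM
  refine ⟨List.ofFn fun i : Fin j => (P.z (N + i), β ^ 2 / P.K), ?_, fun p hp => ?_⟩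
  · unfold lst
    rw [List.ofFn_add]
    rfl
  · rw [List.mem_ofFn] at hp
    obtain ⟨k, rfl⟩ := hp
    exact ⟨h.top _ (hN.trans (Nat.le_add_right _ _)), by positivity⟩

theorem OK.le_TT (h : P.OK) (β : ℝ) {N : ℕ} {s : ℝ} (hs : s * P.K ≤ N) :
    β ^ 2 * s ≤ TT (P.lst β N) := by
  have hK := h.Kp
  rw [TT_lst, show β ^ 2 * s = (s * P.K) * (β ^ 2 / P.K) by field_simp]
  exact mul_le_mul_of_nonneg_right hs (by positivity)

theorem OK.E_eq (h : P.OK) (β : ℝ) {N : ℕ} (hN : P.a ≤ N) {s : ℝ} (hs : s * P.K ≤ N) (F : ℝ → ℝ) :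
    P.E β s F = EX 1 (P.lst β N) (β ^ 2 * s) F 0 := by
  have key : ∀ N M : ℕ, P.a ≤ N → N ≤ M → s * P.K ≤ N →
      EX 1 (P.lst β M) (β ^ 2 * s) F = EX 1 (P.lst β N) (β ^ 2 * s) F := by
    intro N M h1 h2 h3
    obtain ⟨l', e, hl'⟩ := h.lst_add β h1 h2
    rw [e, EX_append one_pos hl' (fun p hp => (Adm.pos (h.adm β N) p hp).1) (h.le_TT β h3)]
  have h0 : s * P.K ≤ ((P.K + ⌈s * P.K⌉₊ : ℕ) : ℝ) := by
    push_cast
    linarith [Nat.le_ceil (s * P.K), h.Kp]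
  unfold E
  rw [← key _ (max N (P.K + ⌈s * P.K⌉₊)) (h.aK.trans (Nat.le_add_right _ _)) (le_max_right _ _) h0,
    key N _ hN (le_max_left _ _) hs]

theorem OK.PhiT_eq (h : P.OK) (β : ℝ) {N : ℕ} (hN : P.K ≤ N) (s : ℝ) :
    ∃ c, PhiT 1 (P.lst β N) (β ^ 2 * s) = fun x => P.Ph β s x + c := by
  obtain ⟨l', e, hl'⟩ := h.lst_add β h.aK hN
  rw [e]
  exact PhiT_append one_pos hl' (fun p hp => (Adm.pos (h.adm β _) p hp).1) _

/-! ### algebra -/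

theorem E_mono (P : Par) (β s : ℝ) {F F' : ℝ → ℝ} {K K' : ℝ} (hF : BC F K) (hF' : BC F' K')
    (h : ∀ y, F y ≤ F' y) : P.E β s F ≤ P.E β s F' := EX_mono one_pos _ _ hF hF' h 0

theorem E_const (P : Par) (β s c : ℝ) : P.E β s (fun _ => c) = c := EX_const one_pos _ _ c 0

theorem E_add (P : Par) (β s : ℝ) {F F' : ℝ → ℝ} {K K' : ℝ} (hF : BC F K) (hF' : BC F' K') :
    P.E β s (fun y => F y + F' y) = P.E β s F + P.E β s F' := EX_add one_pos _ _ hF hF' 0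

theorem E_const_mul (P : Par) (β s c : ℝ) (F : ℝ → ℝ) :
    P.E β s (fun y => c * F y) = c * P.E β s F := EX_const_mul one_pos _ _ c F 0

theorem E_sub (P : Par) (β s : ℝ) {F F' : ℝ → ℝ} {K K' : ℝ} (hF : BC F K) (hF' : BC F' K') :
    P.E β s (fun y => F y - F' y) = P.E β s F - P.E β s F' := by
  have := P.E_add β s hF (hF'.const_mul (-1))
  rw [E_const_mul] at this
  simp only [neg_mul, one_mul, ← sub_eq_add_neg] at this
  exact this

theorem E_sq (P : Par) (β s : ℝ) {F : ℝ → ℝ} {K : ℝ} (hF : BC F K) :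
    P.E β s F ^ 2 ≤ P.E β s fun y => F y ^ 2 := EX_sq one_pos _ _ hF 0

theorem E_abs_le (P : Par) (β s : ℝ) {F : ℝ → ℝ} {K : ℝ} (hF : BC F K) : |P.E β s F| ≤ K :=
  (EX_BC one_pos _ _ hF).bd 0

theorem E_nonneg (P : Par) (β s : ℝ) {F : ℝ → ℝ} {K : ℝ} (hF : BC F K) (h : ∀ y, 0 ≤ F y) :
    0 ≤ P.E β s F := by
  have := P.E_mono β s (BC.const 0) hF h
  rwa [E_const] at this

theorem E_zero (P : Par) (β : ℝ) (F : ℝ → ℝ) : P.E β 0 F = F 0 := by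
  unfold E
  rw [EX_nonpos (fun p hp => by rw [lst_snd P β _ p hp]; positivity) (by simp)]

theorem OK.Px_bc (h : P.OK) (β s : ℝ) : BC (P.Px β s) 1 :=
  ⟨(P.Px_bd β s).cont, fun x => (h.Px_lt β s x).le⟩

theorem OK.Pxx_bc (h : P.OK) (β s : ℝ) : BC (P.Pxx β s) 1 :=
  ⟨(P.Pxx_bd β s).cont, fun x => by rw [abs_of_pos (h.Pxx_pos β s x)]; exact h.Pxx_le_one β s x⟩

theorem OK.Pxxx_bc (h : P.OK) (β s : ℝ) : BC (P.Pxxx β s) 2 :=
  ⟨(P.Pxxx_bd β s).cont, h.Pxxx_le_two β s⟩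

/-- above `b` the diffusion is explicit -/
theorem OK.E_top (h : P.OK) (hβ : 0 < β) {s t : ℝ} (hs : P.b ≤ s) (ht : 0 ≤ t) {F : ℝ → ℝ} {K : ℝ}
    (hF : BC F K) : P.E β (s + t / β ^ 2) F = P.E β s (tE 1 t (phi0 1) F) := by
  have hK := h.Kp
  have hb : 0 < β ^ 2 := by positivity
  set N := P.K + ⌈(s + t / β ^ 2) * P.K⌉₊ with hN
  have h0 : (s + t / β ^ 2) * P.K ≤ (N : ℝ) := by
    rw [hN]
    push_cast
    linarith [Nat.le_ceil ((s + t / β ^ 2) * P.K)]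
  have h1 : s * P.K ≤ (N : ℝ) := by
    have : 0 ≤ t / β ^ 2 * P.K := by positivity
    nlinarith
  have ha : P.a ≤ N := h.aK.trans (Nat.le_add_right _ _)
  have e : β ^ 2 * (s + t / β ^ 2) = β ^ 2 * s + t := by field_simp
  have h2 := h.le_TT β h0
  rw [h.E_eq β ha h0, h.E_eq β ha h1, e]
  rw [e] at h2
  rw [EX_markov_top one_pos (d := β ^ 2 / P.K) (by positivity) hF P.a _
    (fun p hp => ⟨(Adm.pos (h.adm β _) p hp).1, lst_snd P β _ p hp⟩) (h.lst_drop β _) _ t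
    (by
      have : (P.a : ℝ) * (β ^ 2 / P.K) = β ^ 2 * P.b := by unfold b; ring
      rw [this]
      exact mul_le_mul_of_nonneg_left hs hb.le) ht h2]

/-! ### calculus -/

theorem OK.E_psi (h : P.OK) (β : ℝ) {G : (ℝ → ℝ) → ℝ → ℝ}
    (hinv : ∀ Φ c, G (fun x => Φ x + c) = G Φ) {N : ℕ} (hN : P.K ≤ N) {s : ℝ} (hs : s * P.K ≤ N) :
    P.E β s (G (P.Ph β s)) = PsiF G 1 (P.lst β N) (nu0 1 (P.lst β N)) (β ^ 2 * s) := by
  obtain ⟨c, hc⟩ := h.PhiT_eq β hN s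
  rw [PsiF_nu0, hc, hinv, h.E_eq β (h.aK.trans hN) hs]

theorem gc_nu0 (l : List (ℝ × ℝ)) : GC (nu0 1 l) := (gclass 1).dirac _ (Real.exp_pos _)

theorem OK.E_cont (h : P.OK) (hβ : 0 < β) {G : (ℝ → ℝ) → ℝ → ℝ} (hG : BFn G)
    (hinv : ∀ Φ c, G (fun x => Φ x + c) = G Φ) (T : ℝ) :
    ContinuousOn (fun s => P.E β s (G (P.Ph β s))) (Icc 0 T) := by
  have hK := h.Kp
  set N := P.K + ⌈T * P.K⌉₊ with hN
  have h0 : ∀ s ∈ Icc 0 T, s * P.K ≤ (N : ℝ) := fun s hs => by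
    rw [hN]
    push_cast
    have := mul_le_mul_of_nonneg_right hs.2 hK.le
    linarith [Nat.le_ceil (T * P.K)]
  have c1 := PsiF_continuousOn hG one_pos (gclass 1) _ (h.adm β N) (h.lst_pos hβ N) _ (gc_nu0 (P.lst β N))
  have c2 := c1.comp (f := fun s => β ^ 2 * s) (s := Icc 0 T) (by fun_prop)
    (fun s hs => ⟨mul_nonneg (sq_nonneg β) hs.1, h.le_TT β (h0 s hs)⟩)
  exact c2.congr fun s hs => h.E_psi β hinv (Nat.le_add_right _ _) (h0 s hs)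

theorem OK.E_rder (h : P.OK) (hβ : 0 < β) {G : (ℝ → ℝ) → ℝ → ℝ} {G' : ℝ → (ℝ → ℝ) → ℝ → ℝ}
    (hG : BFn G) (hG' : ∀ c, BFn (G' c)) (hinv : ∀ Φ c, G (fun x => Φ x + c) = G Φ)
    (hinv' : ∀ m Φ c, G' m (fun x => Φ x + c) = G' m Φ)
    (hd : ∀ Φ, Prof Φ → ∀ m, 0 < m → ∀ ν, EM ν → ∀ d τ, 0 < τ → τ < d →
      HasDerivAt (EE Φ m d ν (fun v => G (gaussOp m v Φ)))
        (EE Φ m d ν (fun v => G' m (gaussOp m v Φ)) τ) τ) {s : ℝ} (hs : 0 ≤ s) :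
    HasDerivWithinAt (fun r => P.E β r (G (P.Ph β r)))
      (β ^ 2 * P.E β s (G' (P.zeta s) (P.Ph β s))) (Ici s) s := by
  have hK := h.Kp
  have hb : 0 < β ^ 2 := by positivity
  set N := P.K + ⌈s * P.K⌉₊ with hN
  have h0 : ∀ r ∈ Icc s (s + 1), r * P.K ≤ (N : ℝ) := fun r hr => by
    rw [hN]
    push_cast
    have := mul_le_mul_of_nonneg_right hr.2 hK.le
    linarith [Nat.le_ceil (s * P.K)]
  have h1 : s * P.K < (N : ℝ) := by
    rw [hN]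
    push_cast
    linarith [Nat.le_ceil (s * P.K)]
  have hT : β ^ 2 * s < TT (P.lst β N) := by
    refine lt_of_lt_of_le ?_ (h.le_TT β (h0 (s + 1) ⟨by linarith, le_rfl⟩))
    nlinarith
  have d1 := PsiF_rder hG hG' one_pos hd _ (h.adm β N) (h.lst_pos hβ N) _ (gc_nu0 (P.lst β N))
    (β ^ 2 * s) (mul_nonneg hb.le hs) hT
  rw [h.lvr_eq hβ hs h1, ← h.E_psi β (hinv' _) (Nat.le_add_right _ _) h1.le] at d1
  have d2 : HasDerivWithinAt (fun r => β ^ 2 * r) (β ^ 2) (Ici s) s := by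
    simpa using ((hasDerivAt_id' s).const_mul (β ^ 2)).hasDerivWithinAt
  have d3 := HasDerivWithinAt.comp s (h := fun r => β ^ 2 * r) d1 d2
    (fun r hr => mul_le_mul_of_nonneg_left hr hb.le)
  refine (d3.congr_of_eventuallyEq ?_ ?_).congr_deriv (mul_comm _ _)
  · filter_upwards [Icc_mem_nhdsGE (show s < s + 1 by linarith)] with r hr
    exact h.E_psi β hinv (Nat.le_add_right _ _) (h0 r hr)
  · exact h.E_psi β hinv (Nat.le_add_right _ _) h1.le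

theorem deriv_shift (Φ : ℝ → ℝ) (c : ℝ) : deriv (fun x => Φ x + c) = deriv Φ :=
  funext fun _ => deriv_add_const c

theorem inv_G1 (Φ : ℝ → ℝ) (c : ℝ) : G1 (fun x => Φ x + c) = G1 Φ := by
  unfold G1; rw [deriv_shift]
theorem inv_G2 (Φ : ℝ → ℝ) (c : ℝ) : G2 (fun x => Φ x + c) = G2 Φ := by
  unfold G2; rw [deriv_shift]
theorem inv_G2l (Φ : ℝ → ℝ) (c : ℝ) : G2l (fun x => Φ x + c) = G2l Φ := by
  unfold G2l; rw [deriv_shift]
theorem inv_G3 (m : ℝ) (Φ : ℝ → ℝ) (c : ℝ) : G3 m (fun x => Φ x + c) = G3 m Φ := by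
  unfold G3; rw [deriv_shift]

theorem OK.Gam_cont (h : P.OK) (hβ : 0 < β) (T : ℝ) : ContinuousOn (P.Gam β) (Icc 0 T) :=
  h.E_cont hβ bfn_G1 inv_G1 T

theorem OK.Gam'_cont (h : P.OK) (hβ : 0 < β) (T : ℝ) : ContinuousOn (P.Gam' β) (Icc 0 T) :=
  continuousOn_const.mul (h.E_cont hβ bfn_G2 inv_G2 T)

theorem OK.EPxx_cont (h : P.OK) (hβ : 0 < β) (T : ℝ) :
    ContinuousOn (fun s => P.E β s (P.Pxx β s)) (Icc 0 T) :=
  h.E_cont hβ bfn_G2l inv_G2l T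

theorem OK.Gam_rder (h : P.OK) (hβ : 0 < β) {s : ℝ} (hs : 0 ≤ s) :
    HasDerivWithinAt (P.Gam β) (P.Gam' β s) (Ici s) s :=
  h.E_rder hβ (G' := fun _ => G2) bfn_G1 (fun _ => bfn_G2) inv_G1 (fun _ => inv_G2)
    (fun Φ hΦ m hm ν hν d τ h0 h1 => by
      rw [G1_eq, G2_eq]
      exact dE_U1sq hΦ hm.ne' hν h0 h1) hs

theorem OK.Gam'_rder (h : P.OK) (hβ : 0 < β) {s : ℝ} (hs : 0 ≤ s) :
    HasDerivWithinAt (P.Gam' β) (β ^ 2 * (β ^ 2 * P.E β s fun x =>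
      P.Pxxx β s x ^ 2 - 2 * P.zeta s * P.Pxx β s x ^ 3)) (Ici s) s :=
  (h.E_rder hβ (G' := G3) bfn_G2 bfn_G3 inv_G2 inv_G3
    (fun Φ hΦ m hm ν hν d τ h0 h1 => by
      rw [G2_eq, G3_eq]
      exact dE_U2sq hΦ hm.ne' hν h0 h1) hs).const_mul _

theorem OK.EPxx_rder (h : P.OK) (hβ : 0 < β) {s : ℝ} (hs : 0 ≤ s) :
    HasDerivWithinAt (fun r => P.E β r (P.Pxx β r)) (-(P.zeta s * P.Gam' β s)) (Ici s) s := by
  have hb : ∀ c : ℝ, BFn fun Φ y => -c * G2 Φ y := fun c =>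
    ⟨fun Φ hΦ => by
      obtain ⟨K, hK⟩ := bfn_G2.bc Φ hΦ
      exact ⟨_, hK.const_mul (-c)⟩, fun Φ hΦ m hm => (bfn_G2.ug Φ hΦ m hm).const_mul (-c)⟩
  have := h.E_rder hβ (G' := fun c Φ y => -c * G2 Φ y) bfn_G2l hb inv_G2l
    (fun m Φ c => by rw [inv_G2])
    (fun Φ hΦ m hm ν hν d τ h0 h1 => by
      have e1 : (fun v => G2l (gaussOp m v Φ)) = U Φ m 2 := by
        funext v x; rw [U_two]; rfl
      have e2 : (fun v y => -m * G2 (gaussOp m v Φ) y) = fun v x => -m * U Φ m 2 v x ^ 2 := by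
        funext v x; rw [U_two]; rfl
      rw [e1, e2]
      exact EE_deriv hΦ m (tb_U2 hΦ hm.ne') hν h0 h1) hs
  refine this.congr_deriv ?_
  rw [E_const_mul]
  unfold Gam'
  show β ^ 2 * (-P.zeta s * P.E β s fun x => P.Pxx β s x ^ 2) = _
  ring

theorem OK.Gam_zero (h : P.OK) (β : ℝ) : P.Gam β 0 = 0 := by
  unfold Gam
  rw [E_zero]
  have := h.Px_odd β 0 0
  rw [neg_zero] at this
  have h0 : P.Px β 0 0 = 0 := by linarith
  simp [h0]

theorem OK.Gam_nonneg (h : P.OK) (β s : ℝ) : 0 ≤ P.Gam β s :=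
  P.E_nonneg β s ((h.Px_bc β s).pow 2) fun _ => sq_nonneg _

theorem OK.Gam_le_one (h : P.OK) (β s : ℝ) : P.Gam β s ≤ 1 := by
  have := (le_abs_self _).trans (P.E_abs_le β s ((h.Px_bc β s).pow 2))
  rwa [one_pow] at this

theorem OK.Gam'_nonneg (h : P.OK) (β s : ℝ) : 0 ≤ P.Gam' β s :=
  mul_nonneg (sq_nonneg β) (P.E_nonneg β s ((h.Pxx_bc β s).pow 2) fun _ => sq_nonneg _)

theorem OK.Gam'_le (h : P.OK) (β s : ℝ) : P.Gam' β s ≤ β ^ 2 := by
  have := (le_abs_self _).trans (P.E_abs_le β s ((h.Pxx_bc β s).pow 2))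
  rw [one_pow] at this
  exact mul_le_of_le_one_right (sq_nonneg β) this

/-- `Γ' ≤ β² (1 - Γ)` -/
theorem OK.Gam'_le' (h : P.OK) (β s : ℝ) : P.Gam' β s ≤ β ^ 2 * (1 - P.Gam β s) := by
  refine mul_le_mul_of_nonneg_left ?_ (sq_nonneg β)
  have := P.E_mono β s ((h.Pxx_bc β s).pow 2) ((BC.const 1).sub ((h.Px_bc β s).pow 2))
    (fun y => by
      have a1 := h.Pxx_le β s y
      have a2 := h.Pxx_pos β s y
      have a3 := h.Pxx_le_one β s y
      nlinarith)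
  rwa [P.E_sub β s (BC.const 1) ((h.Px_bc β s).pow 2), E_const] at this

theorem OK.Gam_lip (h : P.OK) (hβ : 0 < β) {s t : ℝ} (hs : 0 ≤ s) (ht : 0 ≤ t) :
    |P.Gam β s - P.Gam β t| ≤ β ^ 2 * |s - t| :=
  abs_sub_le_of_rder (h.Gam_cont hβ (max s t)) (fun r hr => h.Gam_rder hβ hr.1)
    ⟨ht, le_max_right _ _⟩ ⟨hs, le_max_left _ _⟩
    fun r _ => by rw [abs_of_nonneg (h.Gam'_nonneg β r)]; exact h.Gam'_le β r

theorem OK.Gam_le (h : P.OK) (hβ : 0 < β) {s : ℝ} (hs : 0 ≤ s) : P.Gam β s ≤ β ^ 2 * s := by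
  have := (le_abs_self _).trans (h.Gam_lip hβ hs le_rfl)
  rwa [h.Gam_zero, sub_zero, sub_zero, abs_of_nonneg hs] at this

theorem OK.Gam_mono (h : P.OK) (hβ : 0 < β) {s t : ℝ} (hs : 0 ≤ s) (hst : s ≤ t) :
    P.Gam β s ≤ P.Gam β t := by
  have := le_of_rder (f := fun r => -P.Gam β r) hst
    ((h.Gam_cont hβ t).mono (Icc_subset_Icc hs le_rfl)).neg
    (fun r hr => (h.Gam_rder hβ (hs.trans hr.1)).neg)
    (fun r _ => by linarith [h.Gam'_nonneg β r])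
  linarith

theorem OK.EPxxx_le (h : P.OK) (β s : ℝ) :
    (P.E β s fun x => P.Pxxx β s x ^ 2) ≤ 4 * P.Gam β s := by
  have := P.E_mono β s ((h.Pxxx_bc β s).pow 2) (((h.Px_bc β s).pow 2).const_mul 4) (fun y => by
    have a1 := h.Pxxx_le β s y
    have a2 := h.Pxx_pos β s y
    have a3 := h.Pxx_le_one β s y
    have a4 : |P.Pxxx β s y| ≤ 2 * |P.Px β s y| := a1.trans (by
      have := abs_nonneg (P.Px β s y)
      nlinarith)
    have a5 := pow_le_pow_left₀ (abs_nonneg _) a4 2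
    rw [sq_abs, mul_pow, sq_abs] at a5
    linarith)
  rwa [E_const_mul] at this

theorem OK.Gam'_lip (h : P.OK) (hβ : 0 < β) {s t : ℝ} (hs : 0 ≤ s) (ht : 0 ≤ t) :
    |P.Gam' β s - P.Gam' β t| ≤ 6 * β ^ 4 * |s - t| :=
  abs_sub_le_of_rder (h.Gam'_cont hβ (max s t)) (fun r hr => h.Gam'_rder hβ hr.1)
    ⟨ht, le_max_right _ _⟩ ⟨hs, le_max_left _ _⟩
    fun r _ => by
      have b1 : BC (fun x => P.Pxxx β r x ^ 2 - 2 * P.zeta r * P.Pxx β r x ^ 3) 6 :=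
        (((h.Pxxx_bc β r).pow 2).sub (((h.Pxx_bc β r).pow 3).const_mul (2 * P.zeta r))).mono (by
          rw [abs_of_pos (by linarith [h.zeta_pos r])]
          linarith [h.zeta_le r])
      have := P.E_abs_le β r b1
      rw [abs_mul, abs_mul, abs_of_nonneg (sq_nonneg β)]
      calc _ ≤ β ^ 2 * (β ^ 2 * 6) := by gcongr
        _ = _ := by ring

/-- `E a · E a² ≤ E a³` -/
theorem OK.cheb3 (h : P.OK) (β s : ℝ) :
    P.E β s (P.Pxx β s) * (P.E β s fun x => P.Pxx β s x ^ 2) ≤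
      P.E β s fun x => P.Pxx β s x ^ 3 := by
  have b := h.Pxx_bc β s
  set c := P.E β s (P.Pxx β s) with hc
  have c0 : 0 ≤ c := P.E_nonneg β s b fun y => (h.Pxx_pos β s y).le
  have := P.E_mono β s ((((b.pow 2).const_mul c).add (b.const_mul (c ^ 2))).sub (BC.const (c ^ 3)))
    (b.pow 3) (fun y => by
      have := mul_nonneg (sq_nonneg (P.Pxx β s y - c)) (add_nonneg (h.Pxx_pos β s y).le c0)
      nlinarith)
  rw [P.E_sub β s (((b.pow 2).const_mul c).add (b.const_mul (c ^ 2))) (BC.const (c ^ 3)),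
    P.E_add β s ((b.pow 2).const_mul c) (b.const_mul (c ^ 2)), E_const_mul, E_const_mul, E_const,
    ← hc] at this
  nlinarith


/-- decay of `Γ'` above `b` -/
theorem OK.Gam'_top_le (h : P.OK) (hβ : 0 < β) {s : ℝ} (hs : P.b ≤ s) :
    P.Gam' β s ≤ β ^ 2 * Real.exp (-(β ^ 2 * (s - P.b) / 2)) := by
  refine mul_le_mul_of_nonneg_left ?_ (sq_nonneg β)
  have hb : 0 < β ^ 2 := by positivity
  have ht : 0 ≤ β ^ 2 * (s - P.b) := mul_nonneg hb.le (by linarith)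
  have b2 := (h.Pxx_bc β s).pow 2
  have e := h.E_top hβ le_rfl ht b2
  rw [show P.b + β ^ 2 * (s - P.b) / β ^ 2 = s by field_simp; ring] at e
  rw [e]
  have := P.E_mono β P.b (tE_BC (phi0_prof one_pos).lip 1 (β ^ 2 * (s - P.b)) b2) (BC.const _)
    (tE_phi0_le b2.eg (fun y => by
      rw [h.topEq hβ hs, h.Px_top hβ hs, one_sub_th_sq, one_mul]
      have c1 := Real.one_le_cosh y
      rw [div_pow, one_pow, div_mul_eq_mul_div, one_mul, div_le_one (by positivity)]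
      calc Real.cosh y = Real.cosh y ^ 1 := (pow_one _).symm
        _ ≤ Real.cosh y ^ 4 := pow_le_pow_right₀ c1 (by norm_num)
        _ = _ := by ring) ht)
  rwa [E_const] at this


theorem OK.EPxx_top (h : P.OK) (hβ : 0 < β) {s : ℝ} (hs : P.b ≤ s) :
    P.E β s (P.Pxx β s) = 1 - P.Gam β s := by
  have e : P.Pxx β s = fun x => 1 - P.Px β s x ^ 2 := funext (h.topEq hβ hs)
  rw [e, P.E_sub β s (BC.const 1) ((h.Px_bc β s).pow 2), E_const]
  rfl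

end Par

end

end Crest.Agent.T157.Pf
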