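import Crest.Agent.T157.PlbDef_78
import Crest.Agent.T157.CascC_65
import Crest.Agent.T157.SLC_23

/-!
# Row 157: density bound of an extended cascade (helper61)
-/

set_option autoImplicit false
set_option linter.unusedSectionVars false

noncomputable section

namespace Crest.Agent.T157.Plb.Den61

open MeasureTheory Real Matrix
open Crest.Agent.T157.E Crest.Agent.T157.Casc Crest.Agent.T157.SL

section gauss
variable {ι : Type} [Fintype ι]

lemma int_exp_dot (u : ι → ℝ) : Integrable (fun g : ι → ℝ => exp (g ⬝ᵥ u)) (gv ι) := by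
  classical
  have := ((cm_int u fun _ => (1 : ℝ)).1 (integrable_const _)).const_mul (exp (u ⬝ᵥ u / 2))
  refine this.congr (.of_forall fun g => ?_)
  simp only [mul_one, ← exp_add]
  congr 1; ring

lemma integral_exp_dot (u : ι → ℝ) : ∫ g : ι → ℝ, exp (g ⬝ᵥ u) ∂gv ι = exp (u ⬝ᵥ u / 2) := by
  classical
  have h := cm u fun _ => (1 : ℝ)
  simp only [mul_one, integral_const, probReal_univ, smul_eq_mul] at h
  have e : ∀ g : ι → ℝ, exp (g ⬝ᵥ u) = exp (u ⬝ᵥ u / 2) * exp (g ⬝ᵥ u - u ⬝ᵥ u / 2) := fun g => by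
    rw [← exp_add]; congr 1; ring
  simp only [e]
  rw [integral_const_mul, ← h, mul_one]

end gauss

section level
variable {Ω Ω' : Type} [Fintype Ω] [Fintype Ω']

lemma Z_eq {F : (Ω → ℝ) → ℝ} (hF : Lg F) (l : Lv Ω) (z : Ω → ℝ) :
    ∫ g, exp (l.m * F (z + l.fld g)) ∂gv l.ι = exp (l.m * step l F z) := by
  by_cases hm : l.m = 0
  · simp [hm]
  · rw [step, if_neg hm, ← mul_assoc, mul_inv_cancel₀ hm, one_mul, exp_log (hF.Z_pos l z)]

lemma step_ge_of {F : (Ω → ℝ) → ℝ} {F' : (Ω' → ℝ) → ℝ} (hF : Lg F) (hF' : Lg F') (pr : Ω' → Ω)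
    (l : Lv Ω) (hm : 0 ≤ l.m) (z : Ω → ℝ) (z' : Ω' → ℝ) (c : ℝ)
    (H : ∀ g, F (z + l.fld g) - c ≤ F' (z' + (pull pr l).fld g)) :
    step l F z - c ≤ step (pull pr l) F' z' := by
  rcases hm.eq_or_lt with hm | hm
  · have e : (pull pr l).m = 0 := hm.symm
    rw [step, step, if_pos hm.symm, if_pos e]
    have := integral_mono ((hF.eg.int l z).sub (integrable_const c)) (hF'.eg.int (pull pr l) z') H
    simp only [Pi.sub_apply] at this
    rw [integral_sub (hF.eg.int l z) (integrable_const c)] at this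
    simpa using this
  · have h1 := integral_mono (((hF.exp l.m).int l z).const_mul (exp (-(l.m * c))))
      ((hF'.exp l.m).int (pull pr l) z') fun g => by
        simp only [← exp_add, exp_le_exp]
        nlinarith [H g]
    have h2 := Z_eq hF' (pull pr l) z'
    rw [integral_const_mul, Z_eq hF l z] at h1
    have h3 := h1.trans_eq h2
    rw [← exp_add, exp_le_exp] at h3
    have h4 : l.m * (step l F z - c) ≤ l.m * step (pull pr l) F' z' := by
      simp only at h3
      linarith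
    exact le_of_mul_le_mul_left h4 hm

lemma le_step_of {F : (Ω → ℝ) → ℝ} (hF : Lg F) (l : Lv Ω) (hm : 0 ≤ l.m) (z : Ω → ℝ) (c : ℝ)
    (H : ∀ g, c ≤ F (z + l.fld g)) : c ≤ step l F z := by
  rcases hm.eq_or_lt with hm | hm
  · rw [step, if_pos hm.symm]
    simpa using integral_mono (integrable_const c) (hF.eg.int l z) H
  · have h1 := integral_mono (integrable_const (exp (l.m * c))) ((hF.exp l.m).int l z) fun g => by
      simp only [exp_le_exp]
      exact mul_le_mul_of_nonneg_left (H g) hm.le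
    rw [Z_eq hF l z] at h1
    simp only [integral_const, probReal_univ, smul_eq_mul, one_mul, exp_le_exp] at h1
    exact le_of_mul_le_mul_left h1 hm

/-- transfer through a shared level -/
lemma tE_pull {F Φ : (Ω → ℝ) → ℝ} {F' Φ' : (Ω' → ℝ) → ℝ} (hF : Lg F) (hF' : Lg F') (hΦ : Eg Φ)
    (hΦ' : Eg Φ') (pr : Ω' → Ω) (l : Lv Ω) (z : Ω → ℝ) (z' : Ω' → ℝ) (c : ℝ)
    (H : ∀ g, Φ' (z' + (pull pr l).fld g) ≤
      exp (-(l.m * (F' (z' + (pull pr l).fld g) - F (z + l.fld g))) + c) * Φ (z + l.fld g)) :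
    tE (pull pr l) F' Φ' z' ≤
      exp (-(l.m * (step (pull pr l) F' z' - step l F z)) + c) * tE l F Φ z := by
  have h1 := integral_mono (hF'.int hΦ' (pull pr l) z') ((hF.int hΦ l z).const_mul (exp c))
    fun g => by
      refine (mul_le_mul_of_nonneg_left (H g) (exp_pos _).le).trans (le_of_eq ?_)
      simp only [← mul_assoc, ← exp_add]
      congr 2; ring
  rw [integral_const_mul] at h1
  rw [tE, tE, Z_eq hF', Z_eq hF, div_le_iff₀ (exp_pos _)]
  refine h1.trans (le_of_eq ?_)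
  have e : exp c = exp (-(l.m * (step (pull pr l) F' z' - step l F z)) + c) *
      exp ((pull pr l).m * step (pull pr l) F' z') / exp (l.m * step l F z) := by
    rw [← exp_add, ← exp_sub]; congr 1; simp only; ring
  rw [e]; ring

/-- transfer through an extra level -/
lemma tE_extra {F Φ : (Ω → ℝ) → ℝ} (hF : Lg F) (hΦ : Eg Φ) (l : Lv Ω) (z : Ω → ℝ) (a c p v : ℝ)
    (u : l.ι → ℝ) (hp : 0 ≤ p) (hu : u ⬝ᵥ u / 2 ≤ v)
    (H : ∀ g, Φ (z + l.fld g) ≤ exp (-(l.m * (F (z + l.fld g) - a)) + c + g ⬝ᵥ u) * p) :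
    tE l F Φ z ≤ exp (-(l.m * (step l F z - a)) + c + v) * p := by
  have h1 := integral_mono (hF.int hΦ l z) ((int_exp_dot u).const_mul (exp (l.m * a + c) * p))
    fun g => by
      refine (mul_le_mul_of_nonneg_left (H g) (exp_pos _).le).trans (le_of_eq ?_)
      rw [← mul_assoc, ← exp_add, mul_right_comm, ← exp_add]
      congr 2; ring
  rw [integral_const_mul, integral_exp_dot] at h1
  rw [tE, Z_eq hF, div_le_iff₀ (exp_pos _)]
  refine h1.trans ?_
  rw [mul_right_comm, ← exp_add, mul_right_comm, ← exp_add]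
  refine mul_le_mul_of_nonneg_right (exp_le_exp.2 ?_) hp
  linarith

lemma fld_eq_dot (l : Lv Ω) (g : l.ι → ℝ) (x : Ω) : l.fld g x = g ⬝ᵥ l.A x := by
  rw [dotProduct_comm]; rfl

lemma cov_eq_dot (l : Lv Ω) (x : Ω) : l.cov x x = l.A x ⬝ᵥ l.A x := rfl

lemma cov_nonneg (l : Lv Ω) (x : Ω) : 0 ≤ l.cov x x :=
  Finset.sum_nonneg fun _ _ => mul_self_nonneg _

lemma add_dot_le (l : Lv Ω) (x y : Ω) :
    (l.A x + l.A y) ⬝ᵥ (l.A x + l.A y) / 2 ≤ l.cov x x + l.cov y y := by
  simp only [dotProduct, Lv.cov, Finset.sum_div, ← Finset.sum_add_distrib, Pi.add_apply]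
  exact Finset.sum_le_sum fun i _ => by nlinarith [sq_nonneg (l.A x i - l.A y i)]

/-- point version of `pair` -/
def pr2 (w : Ω → ℝ) (x y : Ω) : List (Lv Ω) → ℝ → (ℕ → ℝ) → (Ω → ℝ) → ℝ
  | [], m0, c, h => (1 - m0) * (c 0 * (P w [] h x * P w [] h y))
  | l :: L, m0, c, h => (l.m - m0) * (c 0 * (P w (l :: L) h x * P w (l :: L) h y)) +
      tE l (X w L) (pr2 w x y L l.m fun j => c (j + 1)) h

lemma eg_pr2 {w : Ω → ℝ} (hw : Wt w) (x y : Ω) : ∀ (L : List (Lv Ω)) (m0 : ℝ) (c : ℕ → ℝ),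
    Eg (pr2 w x y L m0 c)
  | [], _, _ => (((eg_P hw [] x).mul (eg_P hw [] y)).const_mul _).const_mul _
  | l :: L, _, _ => ((((eg_P hw (l :: L) x).mul (eg_P hw (l :: L) y)).const_mul _).const_mul _).add
      ((eg_pr2 hw x y L _ _).tE (lg_X hw L) l)

lemma pr2_nonneg {w : Ω → ℝ} (hw : Wt w) (x y : Ω) : ∀ (L : List (Lv Ω)) (m0 : ℝ) (c : ℕ → ℝ),
    Mono m0 L → (∀ j, 0 ≤ c j) → ∀ h, 0 ≤ pr2 w x y L m0 c h
  | [], _, _, hL, hc, _ => mul_nonneg (sub_nonneg.2 hL)
      (mul_nonneg (hc 0) (mul_nonneg (P_nonneg hw _ _ _) (P_nonneg hw _ _ _)))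
  | l :: L, _, _, hL, hc, h => add_nonneg (mul_nonneg (sub_nonneg.2 hL.1)
      (mul_nonneg (hc 0) (mul_nonneg (P_nonneg hw _ _ _) (P_nonneg hw _ _ _))))
      (tE_nonneg l _ (pr2_nonneg hw x y L _ _ hL.2 fun j => hc (j + 1)) h)

lemma pair_eq {w : Ω → ℝ} (hw : Wt w) : ∀ (L : List (Lv Ω)) (m0 : ℝ) (K : ℕ → Ω → Ω → ℝ)
    (h : Ω → ℝ), pair w L m0 K h = ∑ x, ∑ y, pr2 w x y L m0 (fun j => K j x y) h
  | [], m0, K, h => by
    simp only [pair, pr2, qf, Finset.mul_sum]
    exact Finset.sum_congr rfl fun x _ => Finset.sum_congr rfl fun y _ => by ring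
  | l :: L, m0, K, h => by
    have e : pair w L l.m (fun j => K (j + 1)) =
        fun h => ∑ x, ∑ y, pr2 w x y L l.m (fun j => K (j + 1) x y) h :=
      funext (pair_eq hw L l.m fun j => K (j + 1))
    simp only [pair, pr2, qf, Finset.sum_add_distrib, e]
    rw [tE_sum (lg_X hw L) _ fun x _ => Eg.sum _ fun y _ => eg_pr2 hw x y L _ _]
    congr 1
    · simp only [Finset.mul_sum]
      exact Finset.sum_congr rfl fun x _ => Finset.sum_congr rfl fun y _ => by ring
    · exact Finset.sum_congr rfl fun x _ => tE_sum (lg_X hw L) _ (fun y _ => eg_pr2 hw x y L _ _) l h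

end level

section main
variable {Ω Ω' : Type} [Fintype Ω] [Fintype Ω'] [Nonempty Ω] [Nonempty Ω'] {pr : Ω' → Ω}
  {C : (Ω' → ℝ) → Prop} {κ : ℝ}

lemma wt_one : Wt fun _ : Ω => (1 : ℝ) :=
  ⟨fun _ => zero_le_one, by simp [Fintype.card_pos]⟩

lemma adm_V : ∀ (M : List (Lv Ω ⊕ Lv Ω')) (m0 V : ℝ), Adm C m0 V M → 0 ≤ V
  | [], _, _, h => h.2
  | .inl _ :: M, _, _, h => adm_V M _ _ h.2
  | .inr l :: M, _, _, h => by
    obtain ⟨-, -, v, h1, h2⟩ := h
    have := adm_V M _ _ h2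
    have := (cov_nonneg l (Classical.arbitrary Ω')).trans (h1 _)
    linarith

lemma adm_mono : ∀ (M : List (Lv Ω ⊕ Lv Ω')) (m0 V : ℝ), Adm C m0 V M → Mono m0 (base M)
  | [], _, _, h => h.1
  | .inl _ :: M, _, _, h => ⟨h.1, adm_mono M _ _ h.2⟩
  | .inr _ :: M, _, _, h => by
    obtain ⟨-, -, v, -, h2⟩ := h
    exact adm_mono M _ _ h2

/-- the joint state -/
abbrev st (pr : Ω' → Ω) (h : Ω → ℝ) (b : Ω' → ℝ) : Ω' → ℝ := fun x => h (pr x) + b x

lemma st_pull (l : Lv Ω) (h : Ω → ℝ) (b : Ω' → ℝ) (g : l.ι → ℝ) :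
    st pr h b + (pull pr l).fld g = st pr (h + l.fld g) b := by
  funext x
  simp only [st, Pi.add_apply, Lv.fld]
  ring

lemma st_extra (l : Lv Ω') (h : Ω → ℝ) (b : Ω' → ℝ) (g : l.ι → ℝ) :
    st pr h b + l.fld g = st pr h (b + l.fld g) := by
  funext x
  simp only [st, Pi.add_apply]
  ring

/-- the difference of the values -/
def D (pr : Ω' → Ω) (M : List (Lv Ω ⊕ Lv Ω')) (h : Ω → ℝ) (b : Ω' → ℝ) : ℝ :=
  X (fun _ => 1) (extL pr M) (st pr h b) - X (fun _ => 1) (base M) h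

variable (h0 : ∀ (h : Ω → ℝ) (b : Ω' → ℝ), C b →
  X (fun _ => 1) [] h - κ ≤ X (fun _ => 1) [] (fun x => h (pr x) + b x))
include h0

lemma D_ge : ∀ (M : List (Lv Ω ⊕ Lv Ω')) (m0 V : ℝ), Adm C m0 V M → 0 ≤ m0 →
    ∀ h b, C b → -κ ≤ D pr M h b
  | [], _, _, _, _, h, b, hb => by
    have := h0 h b hb
    simp only [D, extL, base]
    linarith
  | .inl l :: M, _, V, hM, hm, h, b, hb => by
    have := step_ge_of (lg_X wt_one (base M)) (lg_X wt_one (extL pr M)) pr l (hm.trans hM.1) h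
      (st pr h b) κ fun g => by
        have := D_ge M _ V hM.2 (hm.trans hM.1) (h + l.fld g) b hb
        rw [st_pull]
        simp only [D] at this
        linarith
    simp only [D, extL, base, X]
    linarith
  | .inr l :: M, m0, V, hM, hm, h, b, hb => by
    obtain ⟨e, hC, v, -, h2⟩ := hM
    have := le_step_of (lg_X wt_one (extL pr M)) l (e ▸ hm) (st pr h b)
      (X (fun _ => 1) (base M) h - κ) fun g => by
        have := D_ge M _ _ h2 hm h (b + l.fld g) (hC b g hb)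
        rw [st_extra]
        simp only [D] at this
        linarith
    simp only [D, extL, base, X]
    linarith

lemma P_le : ∀ (M : List (Lv Ω ⊕ Lv Ω')) (m0 V : ℝ), Adm C m0 V M → ∀ m, 0 ≤ m → m ≤ m0 →
    ∀ h b, C b → ∀ x, P (fun _ => 1) (extL pr M) (st pr h b) x ≤
      exp (-(m * D pr M h b) + (b x + V / 2 + (1 - m) * κ)) * P (fun _ => 1) (base M) h (pr x)
  | [], m0, V, hM, m, hm, hm', h, b, hb, x => by
    classical
    have hD := D_ge h0 [] m0 V hM (hm.trans hm') h b hb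
    have p1 := (wt_exp (wt_one (Ω := Ω)) h).pos
    have p2 := (wt_exp (wt_one (Ω := Ω')) (st pr h b)).pos
    have e : P (fun _ => 1) [] (st pr h b) x =
        exp (-D pr [] h b + b x) * P (fun _ => 1) [] h (pr x) := by
      simp only [P, prob, D, extL, base, X, neg_sub]
      rw [exp_add (_ - _), exp_sub, exp_log p1, exp_log p2, show st pr h b x = h (pr x) + b x from rfl,
        exp_add]
      field_simp
    simp only [extL, base]
    rw [e]
    refine mul_le_mul_of_nonneg_right (exp_le_exp.2 ?_) (P_nonneg wt_one _ _ _)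
    have := hM.2
    nlinarith [mul_nonneg (sub_nonneg.2 (hm'.trans hM.1)) (show 0 ≤ D pr [] h b + κ by linarith)]
  | .inl l :: M, m0, V, hM, m, hm, hm', h, b, hb, x => by
    have hD := D_ge h0 _ m0 V hM (hm.trans hm') h b hb
    have hl : m ≤ l.m := hm'.trans hM.1
    have := tE_pull (lg_X wt_one (base M)) (lg_X wt_one (extL pr M)) (eg_P wt_one (base M) (pr x))
      (eg_P wt_one (extL pr M) x) pr l h (st pr h b) (b x + V / 2 + (1 - l.m) * κ) fun g => by
        rw [st_pull]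
        exact P_le M _ V hM.2 l.m (hm.trans hl) le_rfl (h + l.fld g) b hb x
    refine this.trans (mul_le_mul_of_nonneg_right (exp_le_exp.2 ?_)
      (P_nonneg wt_one (l :: base M) h (pr x)))
    have e : step (pull pr l) (X (fun _ => 1) (extL pr M)) (st pr h b) -
        step l (X (fun _ => 1) (base M)) h = D pr (.inl l :: M) h b := rfl
    rw [e]
    nlinarith [mul_nonneg (sub_nonneg.2 hl) (show 0 ≤ D pr (.inl l :: M) h b + κ by linarith)]
  | .inr l :: M, m0, V, hM, m, hm, hm', h, b, hb, x => by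
    have hD := D_ge h0 _ m0 V hM (hm.trans hm') h b hb
    obtain ⟨e, hC, v, h1, h2⟩ := hM
    have := tE_extra (lg_X wt_one (extL pr M)) (eg_P wt_one (extL pr M) x) l (st pr h b)
      (X (fun _ => 1) (base M) h) (b x + (V - v) / 2 + (1 - l.m) * κ)
      (P (fun _ => 1) (base M) h (pr x)) (v / 2) (l.A x) (P_nonneg wt_one _ _ _)
      (by have := h1 x; rw [cov_eq_dot] at this; linarith) fun g => by
        rw [st_extra]
        refine (P_le M _ _ h2 l.m (e ▸ hm.trans hm') e.le h (b + l.fld g) (hC b g hb) x).trans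
          (le_of_eq ?_)
        simp only [D, Pi.add_apply, fld_eq_dot]
        congr 2; ring
    refine this.trans (mul_le_mul_of_nonneg_right (exp_le_exp.2 ?_)
      (P_nonneg wt_one (base M) h (pr x)))
    have e' : step l (X (fun _ => 1) (extL pr M)) (st pr h b) -
        X (fun _ => 1) (base M) h = D pr (.inr l :: M) h b := rfl
    rw [e', e]
    nlinarith [mul_nonneg (sub_nonneg.2 hm') (show 0 ≤ D pr (.inr l :: M) h b + κ by linarith)]

lemma PP_le (M : List (Lv Ω ⊕ Lv Ω')) (m0 V : ℝ) (hM : Adm C m0 V M) (hm : 0 ≤ m0)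
    (h : Ω → ℝ) (b : Ω' → ℝ) (hb : C b) (x y : Ω') {a c c' : ℝ} (ha : 0 ≤ a) (hc : 0 ≤ c)
    (hc' : c' ≤ c) :
    a * (c' * (P (fun _ => 1) (extL pr M) (st pr h b) x * P (fun _ => 1) (extL pr M) (st pr h b) y))
      ≤ exp (-(m0 * D pr M h b) + (b x + b y + 2 * V + (2 - m0) * κ)) *
        (a * (c * (P (fun _ => 1) (base M) h (pr x) * P (fun _ => 1) (base M) h (pr y)))) := by
  have h1 := P_le h0 M m0 V hM m0 hm le_rfl h b hb x
  have h2 := P_le h0 M m0 V hM 0 le_rfl hm h b hb y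
  have hV := adm_V M m0 V hM
  have p1 := P_nonneg (wt_one (Ω := Ω')) (extL pr M) (st pr h b) x
  have p2 := P_nonneg (wt_one (Ω := Ω')) (extL pr M) (st pr h b) y
  have p3 := P_nonneg (wt_one (Ω := Ω)) (base M) h (pr x)
  have p4 := P_nonneg (wt_one (Ω := Ω)) (base M) h (pr y)
  have h3 := mul_le_mul h1 h2 p2 (p1.trans h1)
  rw [mul_mul_mul_comm, ← exp_add] at h3
  have h4 : P (fun _ => 1) (extL pr M) (st pr h b) x * P (fun _ => 1) (extL pr M) (st pr h b) y ≤
      exp (-(m0 * D pr M h b) + (b x + b y + 2 * V + (2 - m0) * κ)) *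
        (P (fun _ => 1) (base M) h (pr x) * P (fun _ => 1) (base M) h (pr y)) :=
    h3.trans (mul_le_mul_of_nonneg_right (exp_le_exp.2 (by linarith)) (mul_nonneg p3 p4))
  calc _ ≤ a * (c * (exp (-(m0 * D pr M h b) + (b x + b y + 2 * V + (2 - m0) * κ)) *
        (P (fun _ => 1) (base M) h (pr x) * P (fun _ => 1) (base M) h (pr y)))) :=
        mul_le_mul_of_nonneg_left (mul_le_mul hc' h4 (mul_nonneg p1 p2) hc) ha
    _ = _ := by ring

lemma pr2_le (x y : Ω') : ∀ (M : List (Lv Ω ⊕ Lv Ω')) (m0 V : ℝ), Adm C m0 V M → 0 ≤ m0 →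
    ∀ (K' : ℕ → Ω' → Ω' → ℝ) (K : ℕ → Ω → Ω → ℝ), Rel pr M K' K → (∀ j x y, 0 ≤ K j x y) →
    ∀ h b, C b → pr2 (fun _ => 1) x y (extL pr M) m0 (fun j => K' j x y) (st pr h b) ≤
      exp (-(m0 * D pr M h b) + (b x + b y + 2 * V + (2 - m0) * κ)) *
        pr2 (fun _ => 1) (pr x) (pr y) (base M) m0 (fun j => K j (pr x) (pr y)) h
  | [], m0, V, hM, hm, K', K, hR, hK, h, b, hb =>
    PP_le h0 [] m0 V hM hm h b hb x y (sub_nonneg.2 hM.1) (hK 0 _ _) (hR x y)
  | .inl l :: M, m0, V, hM, hm, K', K, hR, hK, h, b, hb => by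
    have hD := D_ge h0 _ m0 V hM hm h b hb
    have h1 := PP_le h0 _ m0 V hM hm h b hb x y (sub_nonneg.2 hM.1) (hK 0 _ _) (hR.1 x y)
    have h2 := tE_pull (lg_X wt_one (base M)) (lg_X wt_one (extL pr M))
      (eg_pr2 wt_one (pr x) (pr y) (base M) l.m fun j => K (j + 1) (pr x) (pr y))
      (eg_pr2 wt_one x y (extL pr M) l.m fun j => K' (j + 1) x y) pr l h (st pr h b)
      (b x + b y + 2 * V + (2 - l.m) * κ) fun g => by
        rw [st_pull]
        exact pr2_le x y M _ V hM.2 (hm.trans hM.1) _ _ hR.2 (fun j => hK (j + 1)) (h + l.fld g) b hb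
    have e : step (pull pr l) (X (fun _ => 1) (extL pr M)) (st pr h b) -
        step l (X (fun _ => 1) (base M)) h = D pr (.inl l :: M) h b := rfl
    rw [e] at h2
    have h3 := h2.trans (mul_le_mul_of_nonneg_right (exp_le_exp.2
      (show _ ≤ -(m0 * D pr (.inl l :: M) h b) + (b x + b y + 2 * V + (2 - m0) * κ) by
        nlinarith [mul_nonneg (sub_nonneg.2 hM.1)
          (show 0 ≤ D pr (.inl l :: M) h b + κ by linarith)]))
      (tE_nonneg l _ (pr2_nonneg wt_one _ _ _ _ _ (adm_mono M _ _ hM.2) fun j => hK (j + 1) _ _) h))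
    exact (add_le_add h1 h3).trans_eq (mul_add _ _ _).symm
  | .inr l :: M, m0, V, hM, hm, K', K, hR, hK, h, b, hb => by
    obtain ⟨e, hC, v, h1, h2⟩ := hM
    have := tE_extra (lg_X wt_one (extL pr M))
      (eg_pr2 wt_one x y (extL pr M) l.m fun j => K' (j + 1) x y) l (st pr h b)
      (X (fun _ => 1) (base M) h) (b x + b y + 2 * (V - v) + (2 - m0) * κ)
      (pr2 (fun _ => 1) (pr x) (pr y) (base M) m0 (fun j => K j (pr x) (pr y)) h) (2 * v)
      (l.A x + l.A y) (pr2_nonneg wt_one _ _ _ _ _ (adm_mono M _ _ h2) (fun j => hK j _ _) h)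
      (by linarith [add_dot_le l x y, h1 x, h1 y]) fun g => by
        rw [st_extra, e]
        refine (pr2_le x y M _ _ h2 hm _ _ hR hK h (b + l.fld g) (hC b g hb)).trans (le_of_eq ?_)
        simp only [D, Pi.add_apply, fld_eq_dot, dotProduct_add]
        congr 2; ring
    have e' : step l (X (fun _ => 1) (extL pr M)) (st pr h b) -
        X (fun _ => 1) (base M) h = D pr (.inr l :: M) h b := rfl
    rw [e'] at this
    have e2 : pr2 (fun _ => 1) x y (extL pr (.inr l :: M)) m0 (fun j => K' j x y) (st pr h b) =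
        tE l (X (fun _ => 1) (extL pr M))
          (pr2 (fun _ => 1) x y (extL pr M) l.m fun j => K' (j + 1) x y) (st pr h b) := by
      simp only [extL, pr2, e, sub_self, zero_mul, zero_add]
    rw [e2]
    refine this.trans (le_of_eq ?_)
    simp only [base, e]
    congr 2; ring

end main

lemma sum_fiber_le {Ω Ω' : Type} [Fintype Ω] [Fintype Ω'] [DecidableEq Ω] {pr : Ω' → Ω} {r : ℕ}
    (hr : ∀ s, (Finset.univ.filter fun x => pr x = s).card ≤ r) {f : Ω → ℝ} (hf : ∀ s, 0 ≤ f s) :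
    ∑ x, f (pr x) ≤ r * ∑ s, f s := by
  rw [← Finset.sum_fiberwise Finset.univ pr, Finset.mul_sum]
  refine Finset.sum_le_sum fun s _ => ?_
  rw [Finset.sum_congr rfl fun x hx => by rw [(Finset.mem_filter.1 hx).2], Finset.sum_const,
    nsmul_eq_mul]
  exact mul_le_mul_of_nonneg_right (by exact_mod_cast hr s) (hf s)

end Crest.Agent.T157.Plb.Den61

namespace Crest.Agent.T157.Plb

open Real Crest.Agent.T157.Casc Den61

theorem denStmt : DenStmt := by
  intro Ω Ω' _ _ _ _ _ pr r hr C κ _ h0 M V hM K' K hR hK h b B hb hB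
  have hn : ∀ s t, 0 ≤ pr2 (fun _ => 1) s t (base M) 0 (fun j => K j s t) h := fun s t =>
    pr2_nonneg wt_one _ _ _ _ _ (adm_mono M _ _ hM) (fun j => hK j _ _) h
  rw [pair_eq wt_one, pair_eq wt_one]
  calc _ ≤ ∑ x, ∑ y, exp (2 * B + 2 * V + 2 * κ) *
        pr2 (fun _ => 1) (pr x) (pr y) (base M) 0 (fun j => K j (pr x) (pr y)) h := by
        refine Finset.sum_le_sum fun x _ => Finset.sum_le_sum fun y _ => ?_
        refine (pr2_le h0 x y M 0 V hM le_rfl K' K hR hK h b hb).trans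
          (mul_le_mul_of_nonneg_right (exp_le_exp.2 ?_) (hn _ _))
        linarith [hB x, hB y]
    _ ≤ exp (2 * B + 2 * V + 2 * κ) * (r * ∑ s, (r * ∑ t,
        pr2 (fun _ => 1) s t (base M) 0 (fun j => K j s t) h)) := by
        simp only [← Finset.mul_sum]
        refine mul_le_mul_of_nonneg_left ?_ (exp_pos _).le
        refine (Finset.sum_le_sum fun x _ => sum_fiber_le hr
          (f := fun t => pr2 (fun _ => 1) (pr x) t (base M) 0 (fun j => K j (pr x) t) h)
          fun t => hn _ _).trans ?_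
        rw [← Finset.mul_sum]
        refine mul_le_mul_of_nonneg_left ?_ (Nat.cast_nonneg r)
        exact sum_fiber_le hr
          (f := fun s => ∑ t, pr2 (fun _ => 1) s t (base M) 0 (fun j => K j s t) h)
          fun s => Finset.sum_nonneg fun t _ => hn _ _
    _ = _ := by simp only [← Finset.mul_sum]; ring

end Crest.Agent.T157.Plb

end
private theorem rz_44d24b2154 : type_of% @_root_.Crest.Agent.T157.Plb.Den61.pr2.eq_def := @_root_.Crest.Agent.T157.Plb.Den61.pr2.eq_def -- L136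
private theorem rz_a1b5b83d55 : type_of% @_root_.Crest.Agent.T157.Plb.Den61.pr2.eq_1 := @_root_.Crest.Agent.T157.Plb.Den61.pr2.eq_1 -- L136
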