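import Crest.Agent.T157.CascA_65

/-!
# Row 157: cascades, the static API (helper65)
-/

set_option autoImplicit false
set_option linter.unusedSectionVars false

noncomputable section

namespace Crest.Agent.T157.Casc

open MeasureTheory Real Filter Topology Set
open Crest.Agent.T157.E
open Crest.Agent.T157.SL (EG Pt Wt int_exp)
open Crest.Agent.R339.Guerra (dual dual_apply norm_dual_le)

variable {Ω : Type*} [Fintype Ω] {I : Set ℝ} {Φ Φ' F G : (Ω → ℝ) → ℝ} {Ψ Ψ' : Ω → (Ω → ℝ) → ℝ}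
  {w w' : Ω → ℝ} {l : Lv Ω} {L : List (Lv Ω)}

/-! ### the classes `Eg`, `Lg`, `Gr` -/

theorem Eg.toEG (h : Eg Φ) (I : Set ℝ) : EG I fun p : Pt Ω => Φ p.2 :=
  ⟨(h.cont.comp continuous_snd).continuousOn, h.bd.imp fun _ => .imp fun _ h =>
    ⟨h.1, h.2.1, fun p _ => h.2.2 p.2⟩⟩

open Classical in
theorem eg_of_EG {G : Pt Ω → ℝ} (h : EG I G) {t : ℝ} (ht : t ∈ I) : Eg fun h => G (t, h) :=
  ⟨h.cont_at ht, h.bd.imp fun _ => .imp fun _ h => ⟨h.1, h.2.1, fun z => h.2.2 (t, z) ht⟩⟩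

namespace Eg

open Classical

theorem const (c : ℝ) : Eg fun _ : Ω → ℝ => c := eg_of_EG (EG.const (I := univ) c) (mem_univ 0)

theorem coord (x : Ω) : Eg fun h : Ω → ℝ => h x := eg_of_EG (EG.coord (I := univ) x) (mem_univ 0)

theorem add (h : Eg Φ) (h' : Eg Φ') : Eg fun z => Φ z + Φ' z :=
  eg_of_EG ((h.toEG univ).add (h'.toEG univ)) (mem_univ 0)

theorem sub (h : Eg Φ) (h' : Eg Φ') : Eg fun z => Φ z - Φ' z :=
  eg_of_EG ((h.toEG univ).sub (h'.toEG univ)) (mem_univ 0)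

theorem mul (h : Eg Φ) (h' : Eg Φ') : Eg fun z => Φ z * Φ' z :=
  eg_of_EG ((h.toEG univ).mul (h'.toEG univ)) (mem_univ 0)

theorem const_mul (c : ℝ) (h : Eg Φ) : Eg fun z => c * Φ z := (const c).mul h

theorem mul_const (h : Eg Φ) (c : ℝ) : Eg fun z => Φ z * c := h.mul (const c)

theorem neg (h : Eg Φ) : Eg fun z => -Φ z := eg_of_EG (h.toEG univ).neg (mem_univ 0)

theorem abs (h : Eg Φ) : Eg fun z => |Φ z| := eg_of_EG (h.toEG univ).abs (mem_univ 0)

theorem pow (h : Eg Φ) (k : ℕ) : Eg fun z => Φ z ^ k := eg_of_EG ((h.toEG univ).pow k) (mem_univ 0)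

theorem sum {κ : Type*} (s : Finset κ) {Φ : κ → (Ω → ℝ) → ℝ} (h : ∀ k ∈ s, Eg (Φ k)) :
    Eg fun z => ∑ k ∈ s, Φ k z :=
  eg_of_EG (EG.sum s fun k hk => (h k hk).toEG univ) (mem_univ 0)

theorem prod {κ : Type*} (s : Finset κ) {Φ : κ → (Ω → ℝ) → ℝ} (h : ∀ k ∈ s, Eg (Φ k)) :
    Eg fun z => ∏ k ∈ s, Φ k z :=
  eg_of_EG (EG.prod s fun k hk => (h k hk).toEG univ) (mem_univ 0)

theorem of_bdd (hc : Continuous Φ) (C : ℝ) (h : ∀ z, |Φ z| ≤ C) : Eg Φ :=
  eg_of_EG (EG.of_bdd (I := univ) (H := fun p => Φ p.2) (hc.comp continuous_snd).continuousOn C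
    fun p _ => h p.2) (mem_univ 0)

theorem of_le (h : Eg Φ) (hc : Continuous Φ') (e : ∀ z, |Φ' z| ≤ |Φ z|) : Eg Φ' :=
  ⟨hc, h.bd.imp fun _ => .imp fun _ h => ⟨h.1, h.2.1, fun z => (e z).trans (h.2.2 z)⟩⟩

theorem shift (h : Eg Φ) (f : Ω → ℝ) : Eg fun z => Φ (z + f) :=
  eg_of_EG ((h.toEG univ).comp (J := univ) (φ := fun p : Pt Ω => (p.1, p.2 + f)) (by fun_prop)
    (fun _ _ => trivial) ‖f‖ 1 fun p _ => by simpa [add_comm] using norm_add_le p.2 f) (mem_univ 0)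

theorem norm : Eg fun z : Ω → ℝ => ‖z‖ :=
  ⟨continuous_norm, 1, 1, zero_le_one, zero_le_one, fun z => by
    rw [abs_norm, one_mul, one_mul]; linarith [add_one_le_exp ‖z‖]⟩

end Eg

/-- continuous functions of linear growth -/
def Lg (F : (Ω → ℝ) → ℝ) : Prop := LG univ fun p : Pt Ω => F p.2

open Classical in
theorem Lg.eg (h : Lg F) : Eg F := eg_of_EG (LG.eg h) (mem_univ 0)

open Classical in
theorem Lg.exp (h : Lg F) (m : ℝ) : Eg fun z => exp (m * F z) := eg_of_EG (LG.exp h m) (mem_univ 0)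

theorem Lg.of (hc : Continuous F) (C c : ℝ) (h : ∀ z, |F z| ≤ C + c * ‖z‖) : Lg F :=
  ⟨(hc.comp continuous_snd).continuousOn, |C|, |c|, abs_nonneg _, abs_nonneg _, fun p _ =>
    (h p.2).trans (by gcongr <;> exact le_abs_self _)⟩

theorem Lg.shift (h : Lg F) (f : Ω → ℝ) : Lg fun z => F (z + f) := by
  obtain ⟨C, c, -, h2, h3⟩ := h.bd
  refine Lg.of (h.eg.cont.comp (by fun_prop)) (C + c * ‖f‖) c fun z => (h3 (0, z + f) trivial).trans ?_
  have := mul_le_mul_of_nonneg_left (norm_add_le z f) h2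
  simp only
  linarith

open Classical in
theorem Gr.toSm (h : Gr Φ Ψ) (I : Set ℝ) :
    Sm I (fun p : Pt Ω => Φ p.2) (fun _ => 0) fun x p => Ψ x p.2 :=
  ⟨h.eg.toEG I, .const 0, fun x => (h.eg' x).toEG I, fun p _ =>
    ((h.fd p.2).comp p hasFDerivAt_snd).congr_fderiv
      (ContinuousLinearMap.ext fun v => by simp)⟩

open Classical in
theorem gr_of_Sm {G a : Pt Ω → ℝ} {b : Ω → Pt Ω → ℝ} (h : Sm I G a b) {t : ℝ} (ht : t ∈ I) :
    Gr (fun z => G (t, z)) fun x z => b x (t, z) :=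
  ⟨eg_of_EG h.eg ht, fun x => eg_of_EG (h.egb x) ht, fun z =>
    ((h.fd (t, z) ht).comp z (hasFDerivAt_prodMk_right t z)).congr_fderiv
      (ContinuousLinearMap.ext fun v => by simp)⟩

namespace Gr

open Classical

theorem congr (h : Gr Φ Ψ) (e : ∀ x z, Ψ' x z = Ψ x z) : Gr Φ Ψ' := by
  rwa [show Ψ' = Ψ from funext fun x => funext (e x)]

theorem const (c : ℝ) : Gr (fun _ : Ω → ℝ => c) fun _ _ => 0 :=
  gr_of_Sm (Sm.const (I := univ) c) (mem_univ 0)

theorem add (h : Gr Φ Ψ) (h' : Gr Φ' Ψ') : Gr (fun z => Φ z + Φ' z) fun x z => Ψ x z + Ψ' x z :=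
  gr_of_Sm ((h.toSm univ).add (h'.toSm univ)) (mem_univ 0)

theorem mul (h : Gr Φ Ψ) (h' : Gr Φ' Ψ') :
    Gr (fun z => Φ z * Φ' z) fun x z => Ψ x z * Φ' z + Φ z * Ψ' x z :=
  gr_of_Sm ((h.toSm univ).mul (h'.toSm univ)) (mem_univ 0)

theorem const_mul (c : ℝ) (h : Gr Φ Ψ) : Gr (fun z => c * Φ z) fun x z => c * Ψ x z :=
  gr_of_Sm ((h.toSm univ).const_mul c) (mem_univ 0)

theorem sum {κ : Type*} (s : Finset κ) {Φ : κ → (Ω → ℝ) → ℝ} {Ψ : κ → Ω → (Ω → ℝ) → ℝ}
    (h : ∀ k ∈ s, Gr (Φ k) (Ψ k)) : Gr (fun z => ∑ k ∈ s, Φ k z) fun x z => ∑ k ∈ s, Ψ k x z :=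
  gr_of_Sm (Sm.sum s fun k hk => (h k hk).toSm univ) (mem_univ 0)

/-- derivative along a curve -/
theorem hasDerivAt (h : Gr Φ Ψ) {c : ℝ → Ω → ℝ} {c' : Ω → ℝ} {s : ℝ} (hc : HasDerivAt c c' s) :
    HasDerivAt (fun s => Φ (c s)) (∑ x, Ψ x (c s) * c' x) s :=
  ((h.fd (c s)).comp_hasDerivAt s hc).congr_deriv (dual_apply _ _)

/-- derivative along a line -/
theorem line (h : Gr Φ Ψ) (z f : Ω → ℝ) (s : ℝ) :
    HasDerivAt (fun s : ℝ => Φ (z + s • f)) (∑ x, Ψ x (z + s • f) * f x) s :=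
  h.hasDerivAt (by simpa using ((hasDerivAt_id s).smul_const f).const_add z)

/-- mean value theorem -/
theorem exists_sub (h : Gr Φ Ψ) (z f : Ω → ℝ) :
    ∃ s ∈ Ioo (0 : ℝ) 1, Φ (z + f) - Φ z = ∑ x, Ψ x (z + s • f) * f x := by
  obtain ⟨s, hs, e⟩ := exists_hasDerivAt_eq_slope (fun s : ℝ => Φ (z + s • f)) _ zero_lt_one
    (fun s _ => (h.line z f s).continuousAt.continuousWithinAt) fun s _ => h.line z f s
  exact ⟨s, hs, by simpa using e.symm⟩

end Gr

/-! ### one level -/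

theorem Lv.cst_okD (l : Lv Ω) (I : Set ℝ) : l.cst.OkD I where
  cont _ _ := continuousOn_const
  bd := ⟨∑ x, ∑ i, |l.A x i|, fun _ _ x i =>
    (Finset.single_le_sum (f := fun i => |l.A x i|) (fun _ _ => abs_nonneg _)
      (Finset.mem_univ i)).trans (Finset.single_le_sum (f := fun x => ∑ i, |l.A x i|)
        (fun _ _ => by positivity) (Finset.mem_univ x))⟩
  der _ _ _ _ := hasDerivAt_const _ _
  cont' _ _ := continuousOn_const
  bd' := ⟨0, fun _ _ _ _ => abs_zero.le⟩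

open Classical in
theorem Eg.int (h : Eg Φ) (l : Lv Ω) (z : Ω → ℝ) :
    Integrable (fun g => Φ (z + l.fld g)) (gv l.ι) :=
  eg_int_g ((l.cst_okD univ).toOkC.eg_sh (h.toEG univ)) (p := (0, z)) trivial

theorem Eg.cont_fld (h : Eg Φ) (l : Lv Ω) (z : Ω → ℝ) : Continuous fun g => Φ (z + l.fld g) :=
  h.cont.comp (by unfold Lv.fld; fun_prop)

theorem Lg.Z_pos (hF : Lg F) (l : Lv Ω) (z : Ω → ℝ) :
    0 < ∫ g, Real.exp (l.m * F (z + l.fld g)) ∂gv l.ι := integral_exp_pos ((hF.exp l.m).int l z)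

theorem Lg.int (hF : Lg F) (h : Eg Φ) (l : Lv Ω) (z : Ω → ℝ) :
    Integrable (fun g => Real.exp (l.m * F (z + l.fld g)) * Φ (z + l.fld g)) (gv l.ι) :=
  ((hF.exp l.m).mul h).int l z

open Classical in
theorem Lg.step (hF : Lg F) (l : Lv Ω) : Lg (step l F) := LG.sP (l.cst_okD univ).toOkC hF

open Classical in
theorem Eg.tE (h : Eg Φ) (hF : Lg F) (l : Lv Ω) : Eg (tE l F Φ) :=
  eg_of_EG (LG.eg_tP (l.cst_okD univ).toOkC hF (h.toEG univ)) (mem_univ 0)

open Classical in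
theorem Gr.step (h : Gr F Ψ) (hF : Lg F) (l : Lv Ω) : Gr (step l F) fun x => tE l F (Ψ x) :=
  gr_of_Sm ((h.toSm univ).sP isOpen_univ (l.cst_okD univ) hF) (mem_univ 0)

open Classical in
/-- the gradient of a tilted expectation -/
theorem Gr.tE (h' : Gr Φ Ψ') (h : Gr F Ψ) (hF : Lg F) (l : Lv Ω) :
    Gr (tE l F Φ) fun x z => tE l F (fun z => Ψ' x z + l.m * (Φ z * Ψ x z)) z -
      l.m * (tE l F Φ z * tE l F (Ψ x) z) := by
  obtain ⟨α, hα⟩ := (h.toSm univ).tP isOpen_univ (l.cst_okD univ) hF (h'.toSm univ)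
  exact gr_of_Sm hα (mem_univ 0)

theorem tE_const_mul (l : Lv Ω) (F Φ : (Ω → ℝ) → ℝ) (c : ℝ) (z : Ω → ℝ) :
    tE l F (fun z => c * Φ z) z = c * tE l F Φ z := by
  simp only [tE, mul_left_comm _ c, integral_const_mul, mul_div_assoc]

theorem tE_mul_const (l : Lv Ω) (F Φ : (Ω → ℝ) → ℝ) (c : ℝ) (z : Ω → ℝ) :
    tE l F (fun z => Φ z * c) z = tE l F Φ z * c := by
  simp only [mul_comm _ c, tE_const_mul]

theorem tE_neg (l : Lv Ω) (F Φ : (Ω → ℝ) → ℝ) (z : Ω → ℝ) :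
    tE l F (fun z => -Φ z) z = -tE l F Φ z := by
  simpa using tE_const_mul l F Φ (-1) z

theorem tE_const (hF : Lg F) (l : Lv Ω) (c : ℝ) (z : Ω → ℝ) : tE l F (fun _ => c) z = c := by
  rw [tE, integral_mul_const, mul_div_cancel_left₀ _ (hF.Z_pos l z).ne']

theorem tE_add (hF : Lg F) (h : Eg Φ) (h' : Eg Φ') (l : Lv Ω) (z : Ω → ℝ) :
    tE l F (fun z => Φ z + Φ' z) z = tE l F Φ z + tE l F Φ' z := by
  simp only [tE, mul_add]
  rw [integral_add (hF.int h l z) (hF.int h' l z), add_div]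

theorem tE_sub (hF : Lg F) (h : Eg Φ) (h' : Eg Φ') (l : Lv Ω) (z : Ω → ℝ) :
    tE l F (fun z => Φ z - Φ' z) z = tE l F Φ z - tE l F Φ' z := by
  simp only [tE, mul_sub]
  rw [integral_sub (hF.int h l z) (hF.int h' l z), sub_div]

theorem tE_sum (hF : Lg F) {κ : Type*} (s : Finset κ) {Φ : κ → (Ω → ℝ) → ℝ}
    (h : ∀ k ∈ s, Eg (Φ k)) (l : Lv Ω) (z : Ω → ℝ) :
    tE l F (fun z => ∑ k ∈ s, Φ k z) z = ∑ k ∈ s, tE l F (Φ k) z := by
  simp only [tE, Finset.mul_sum]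
  rw [integral_finsetSum _ fun k hk => hF.int (h k hk) l z, Finset.sum_div]

theorem tE_nonneg (l : Lv Ω) (F : (Ω → ℝ) → ℝ) (h : ∀ z, 0 ≤ Φ z) (z : Ω → ℝ) : 0 ≤ tE l F Φ z :=
  div_nonneg (integral_nonneg fun _ => mul_nonneg (exp_pos _).le (h _))
    (integral_nonneg fun _ => (exp_pos _).le)

/-- monotonicity; only the states `z + l.fld g` matter -/
theorem tE_mono' (hF : Lg F) (h : Eg Φ) (h' : Eg Φ') (l : Lv Ω) (z : Ω → ℝ)
    (e : ∀ g, Φ (z + l.fld g) ≤ Φ' (z + l.fld g)) : tE l F Φ z ≤ tE l F Φ' z :=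
  div_le_div_of_nonneg_right (integral_mono (hF.int h l z) (hF.int h' l z) fun g =>
    mul_le_mul_of_nonneg_left (e g) (exp_pos _).le) (hF.Z_pos l z).le

theorem tE_mono (hF : Lg F) (h : Eg Φ) (h' : Eg Φ') (e : ∀ z, Φ z ≤ Φ' z) (l : Lv Ω) (z : Ω → ℝ) :
    tE l F Φ z ≤ tE l F Φ' z := tE_mono' hF h h' l z fun _ => e _



/-- Gibbs–Jensen inequality for one level -/
theorem step_ge (hF : Lg F) (hG : Lg G) (hm : 0 ≤ l.m) (z : Ω → ℝ) :
    step l F z + tE l F (fun z => G z - F z) z ≤ step l G z := by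
  rcases hm.eq_or_lt with hm | hm
  · simp only [step, tE, ← hm, if_true, zero_mul, exp_zero, one_mul, integral_const, probReal_univ,
      one_smul, div_one]
    rw [integral_sub (hG.eg.int l z) (hF.eg.int l z)]
    linarith
  · set c := tE l F (fun z => G z - F z) z with hc
    have hZ := hF.Z_pos l z
    have he := hG.eg.sub hF.eg
    have key : Real.exp (l.m * c) * ∫ g, Real.exp (l.m * F (z + l.fld g)) ∂gv l.ι ≤
        ∫ g, Real.exp (l.m * G (z + l.fld g)) ∂gv l.ι := by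
      have e1 : tE l F (fun y => Real.exp (l.m * c) * (1 + l.m * ((G y - F y) - c))) z =
          Real.exp (l.m * c) := by
        rw [tE_const_mul, tE_add hF (Eg.const _) ((he.sub (Eg.const _)).const_mul _), tE_const hF,
          tE_const_mul, tE_sub hF he (Eg.const _), tE_const hF, ← hc]
        simp
      rw [← e1, tE, div_mul_cancel₀ _ hZ.ne']
      refine integral_mono (hF.int (((Eg.const _).add ((he.sub (Eg.const _)).const_mul _)).const_mul _)
        l z) ((hG.exp l.m).int l z) fun g => ?_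
      have := add_one_le_exp (l.m * ((G (z + l.fld g) - F (z + l.fld g)) - c))
      have e : Real.exp (l.m * G (z + l.fld g)) = Real.exp (l.m * F (z + l.fld g)) *
          (Real.exp (l.m * c) * Real.exp (l.m * ((G (z + l.fld g) - F (z + l.fld g)) - c))) := by
        rw [← exp_add, ← exp_add]; congr 1; ring
      simp only [e]
      gcongr
      linarith
    have := log_le_log (by positivity) key
    rw [log_mul (exp_pos _).ne' hZ.ne', log_exp] at this
    simp only [step, if_neg hm.ne']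
    rw [← mul_le_mul_iff_of_pos_left hm]
    field_simp
    linarith

theorem step_mono (hF : Lg F) (hG : Lg G) (hm : 0 ≤ l.m) (e : ∀ z, F z ≤ G z) (z : Ω → ℝ) :
    step l F z ≤ step l G z :=
  le_trans (le_add_of_nonneg_right (tE_nonneg l F (fun z => sub_nonneg.2 (e z)) z))
    (step_ge hF hG hm z)

open Classical in
/-- Gaussian integration by parts at one level -/
theorem stein_fld (h : Gr Φ Ψ) (l : Lv Ω) (z : Ω → ℝ) (i : l.ι) :
    ∫ g, g i * Φ (z + l.fld g) ∂gv l.ι = ∑ y, l.A y i * ∫ g, Ψ y (z + l.fld g) ∂gv l.ι := by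
  have hφ : ∀ {Θ : (Ω → ℝ) → ℝ}, Eg Θ → EG univ fun p : Pt l.ι => Θ (z + l.fld p.2) := by
    intro Θ hΘ
    obtain ⟨B, -, hB⟩ := (l.cst_okD univ).toOkC.sh_bd
    exact (hΘ.toEG univ).comp (φ := fun p : Pt l.ι => (p.1, z + l.fld p.2))
      (by unfold Lv.fld; fun_prop) (fun _ _ => trivial) ‖z‖ B fun p _ =>
        (norm_add_le _ _).trans (add_le_add le_rfl (hB 0 p.2 trivial))
  have := SL.stein (hφ h.eg) (EG.sum Finset.univ fun y _ => (hφ (h.eg' y)).const_mul (l.A y i))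
    (mem_univ 0) i fun g => by
      have h1 := (R339.Guerra.hasDerivAt_lin_update l.A g i (g i)).const_add z
      have h2 := h.hasDerivAt h1
      simp only [Function.update_eq_self] at h2
      exact h2.congr_deriv (Finset.sum_congr rfl fun y _ => mul_comm _ _)
  rw [this, integral_finsetSum _ fun y _ => ((h.eg' y).int l z).const_mul _]
  simp only [integral_const_mul]

open Classical in
theorem Gr.exp (h : Gr F Ψ) (hF : Lg F) (m : ℝ) :
    Gr (fun z => Real.exp (m * F z)) fun x z => Real.exp (m * F z) * (m * Ψ x z) :=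
  gr_of_Sm (((h.toSm univ).const_mul m).exp (LG.exp hF m)) (mem_univ 0)

/-- Gaussian integration by parts under the tilt -/
theorem stein_tE (h' : Gr Φ Ψ') (h : Gr F Ψ) (hF : Lg F) (l : Lv Ω) (z : Ω → ℝ) (i : l.ι) :
    (∫ g, g i * (Real.exp (l.m * F (z + l.fld g)) * Φ (z + l.fld g)) ∂gv l.ι) /
      ∫ g, Real.exp (l.m * F (z + l.fld g)) ∂gv l.ι =
    ∑ y, l.A y i * tE l F (fun z => Ψ' y z + l.m * (Φ z * Ψ y z)) z := by
  rw [stein_fld ((h.exp hF l.m).mul h') l z i, Finset.sum_div]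
  refine Finset.sum_congr rfl fun y _ => ?_
  rw [tE, mul_div_assoc]
  congr 3
  ext g
  ring

/-! ### the cascade -/

theorem atL_cst (L : List (Lv Ω)) (t : ℝ) : atL (L.map Lv.cst) t = L := by
  induction L with
  | nil => rfl
  | cons l L ih => exact congrArg (l :: ·) ih

theorem cst_ok (L : List (Lv Ω)) (I : Set ℝ) : ∀ l ∈ L.map Lv.cst, l.OkD I := by
  simp only [List.mem_map]
  rintro _ ⟨l, -, rfl⟩
  exact l.cst_okD I

open Classical in
theorem lg_X (hw : Wt w) (L : List (Lv Ω)) : Lg (X w L) := by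
  have := lg_XP (I := univ) hw fun l hl => (cst_ok L univ l hl).toOkC
  unfold XP at this
  simp only [atL_cst] at this
  exact this

open Classical in
/-- the gradient of `X` is the node law -/
theorem gr_X (hw : Wt w) (L : List (Lv Ω)) : Gr (X w L) fun x z => P w L z x := by
  have := gr_of_Sm (sm_XP isOpen_univ hw (cst_ok L univ)) (mem_univ 0)
  simpa only [XP, PP, atL_cst] using this

open Classical in
/-- the gradient of the node law is the Hessian -/
theorem gr_P (hw : Wt w) (L : List (Lv Ω)) (x : Ω) :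
    Gr (fun z => P w L z x) fun y z => Hs w L z x y := by
  obtain ⟨α, hα⟩ := sm_PP isOpen_univ hw (cst_ok L univ) x
  have := gr_of_Sm hα (mem_univ 0)
  simpa only [PP, HP, atL_cst] using this

theorem eg_P (hw : Wt w) (L : List (Lv Ω)) (x : Ω) : Eg fun z => P w L z x := (gr_X hw L).eg' x

theorem eg_Hs (hw : Wt w) (L : List (Lv Ω)) (x y : Ω) : Eg fun z => Hs w L z x y :=
  (gr_P hw L x).eg' y

theorem P_nonneg (hw : Wt w) : ∀ (L : List (Lv Ω)) (z : Ω → ℝ) (x : Ω), 0 ≤ P w L z x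
  | [], z, x => by classical exact (wt_exp hw z).prob_nonneg x
  | l :: L, z, x => tE_nonneg l _ (fun z => P_nonneg hw L z x) z

theorem sum_P (hw : Wt w) : ∀ (L : List (Lv Ω)) (z : Ω → ℝ), ∑ x, P w L z x = 1
  | [], z => by classical exact (wt_exp hw z).sum_prob
  | l :: L, z => by
    simp only [P]
    rw [← tE_sum (lg_X hw L) _ fun x _ => eg_P hw L x]
    simp only [sum_P hw L, tE_const (lg_X hw L)]


theorem wt_P (hw : Wt w) (L : List (Lv Ω)) (z : Ω → ℝ) : Wt (P w L z) :=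
  ⟨P_nonneg hw L z, by rw [sum_P hw]; exact one_pos⟩

theorem prob_P (hw : Wt w) (L : List (Lv Ω)) (z : Ω → ℝ) : prob (P w L z) = P w L z := by
  ext x; rw [prob, sum_P hw, div_one]

theorem P_le_one (hw : Wt w) (L : List (Lv Ω)) (z : Ω → ℝ) (x : Ω) : P w L z x ≤ 1 := by
  rw [← prob_P hw]; exact (wt_P hw L z).prob_le_one x

/-- the node law lives on the support of `w` -/
theorem P_eq_zero {x : Ω} (hx : w x = 0) : ∀ (L : List (Lv Ω)) (z : Ω → ℝ), P w L z x = 0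
  | [], z => by simp [P, prob, hx]
  | l :: L, z => by simp [P, tE, P_eq_zero hx L]

theorem sum_P_le (hw : Wt w) (L : List (Lv Ω)) (z : Ω → ℝ) {f : Ω → ℝ} {c : ℝ}
    (h : ∀ x, w x ≠ 0 → f x ≤ c) : ∑ x, P w L z x * f x ≤ c := by
  rw [← one_mul c, ← sum_P hw L z, Finset.sum_mul]
  refine Finset.sum_le_sum fun x _ => ?_
  by_cases hx : w x = 0
  · simp [P_eq_zero hx]
  · exact mul_le_mul_of_nonneg_left (h x hx) (P_nonneg hw L z x)

theorem X_add_le (hw : Wt w) (L : List (Lv Ω)) (z : Ω → ℝ) {f : Ω → ℝ} {c : ℝ}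
    (h : ∀ x, w x ≠ 0 → f x ≤ c) : X w L (z + f) ≤ X w L z + c := by
  obtain ⟨s, -, e⟩ := (gr_X hw L).exists_sub z f
  linarith [sum_P_le hw L (z + s • f) h]

theorem X_le_add (hw : Wt w) (L : List (Lv Ω)) {z z' : Ω → ℝ} {c : ℝ}
    (h : ∀ x, w x ≠ 0 → z' x ≤ z x + c) : X w L z' ≤ X w L z + c := by
  have := X_add_le hw L z (f := z' - z) (c := c) fun x hx => by
    simp only [Pi.sub_apply]; linarith [h x hx]
  rwa [add_sub_cancel] at this


theorem abs_X_sub_le (hw : Wt w) (L : List (Lv Ω)) {z z' : Ω → ℝ} {c : ℝ}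
    (h : ∀ x, w x ≠ 0 → |z' x - z x| ≤ c) : |X w L z' - X w L z| ≤ c := by
  have h1 := X_le_add hw L (z := z) (z' := z') (c := c) fun x hx => by linarith [(abs_le.1 (h x hx)).2]
  have h2 := X_le_add hw L (z := z') (z' := z) (c := c) fun x hx => by linarith [(abs_le.1 (h x hx)).1]
  rw [abs_le]; constructor <;> linarith

theorem X_add_const (hw : Wt w) (L : List (Lv Ω)) (z : Ω → ℝ) (c : ℝ) :
    X w L (fun x => z x + c) = X w L z + c := by
  have h1 := X_le_add hw L (z := z) (z' := fun x => z x + c) (c := c) fun _ _ => le_rfl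
  have h2 := X_le_add hw L (z := fun x => z x + c) (z' := z) (c := -c) fun _ _ => by simp
  linarith



theorem X_mono_w (hw : Wt w) (hw' : Wt w') (e : ∀ x, w x ≤ w' x) :
    ∀ (L : List (Lv Ω)), (∀ l ∈ L, 0 ≤ l.m) → ∀ z, X w L z ≤ X w' L z
  | [], _, z => by
    classical
    exact log_le_log (wt_exp hw z).pos (Finset.sum_le_sum fun x _ =>
      mul_le_mul_of_nonneg_right (e x) (exp_pos _).le)
  | l :: L, h, z => step_mono (lg_X hw L) (lg_X hw' L) (h l (by simp))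
      (X_mono_w hw hw' e L fun k hk => h k (by simp [hk])) z

end Crest.Agent.T157.Casc

end
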