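import Crest.Agent.T157.VgDef_54
import Crest.Agent.T157.CascB_65
import Crest.Agent.R166.GaussPi_93
import Crest.Agent.T157.CascC_65
import Crest.Agent.T157.ConcG_16

-- ▼ part T157/VgA_54
section

/-!
Row 157, part D (helper54): site decoupling and removal of idle Gaussian coordinates in cascades.
-/

set_option autoImplicit false

noncomputable section

namespace Crest.Agent.T157.Vg

open MeasureTheory ProbabilityTheory Matrix Real
open Crest.Agent.T157.E Crest.Agent.T157.Casc Crest.Agent.T157.SL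

section sel
variable {Ω : Type*} [Fintype Ω]

theorem int_sel {ι κ : Type} [Fintype ι] [Fintype κ] (e : κ → ι) (he : Function.Injective e)
    {G : (κ → ℝ) → ℝ} (hG : Continuous G) :
    ∫ g : ι → ℝ, G (fun k => g (e k)) ∂gv ι = ∫ g, G g ∂gv κ := by
  have mp : MeasurePreserving (fun g : ι → ℝ => fun k => g (e k)) (gv ι) (gv κ) :=
    R339.Guerra.mp_comp e he
  rw [← mp.map_eq, integral_map mp.measurable.aemeasurable hG.aestronglyMeasurable]

/-- a level only using some of its Gaussian coordinates -/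
theorem step_sel {F : (Ω → ℝ) → ℝ} (hF : Lg F) {l l' : Lv Ω} (e : l'.ι → l.ι)
    (he : Function.Injective e) (hm : l.m = l'.m) (hf : ∀ g, l.fld g = l'.fld fun k => g (e k))
    (z : Ω → ℝ) : step l F z = step l' F z := by
  simp only [step, hf, hm]
  rw [int_sel e he (hF.eg.cont_fld l' z), int_sel e he ((hF.exp l'.m).cont_fld l' z)]

/-- a level without features is idle -/
theorem step_zero (F : (Ω → ℝ) → ℝ) {l : Lv Ω} (h0 : ∀ x i, l.A x i = 0) (z : Ω → ℝ) :
    step l F z = F z := by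
  have : ∀ g, l.fld g = 0 := fun g => funext fun x => by simp [Lv.fld, h0]
  simp only [step, this, add_zero, integral_const, probReal_univ, one_smul, log_exp]
  split_ifs with h
  · rfl
  · rw [inv_mul_cancel_left₀ h]

theorem X_zero (w : Ω → ℝ) : ∀ (L : List (Lv Ω)), (∀ l ∈ L, ∀ x i, l.A x i = 0) → ∀ z,
    X w L z = log (∑ x, w x * exp (z x))
  | [], _, _ => rfl
  | l :: L, h, z => by
    rw [X, step_zero _ (h l (by simp)), X_zero w L fun k hk => h k (by simp [hk])]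

end sel

variable {𝒜 : Type} [Fintype 𝒜] {n : ℕ}

theorem wt_prod {w : Fin n → 𝒜 → ℝ} (hw : ∀ i, Wt (w i)) :
    Wt fun s : Fin n → 𝒜 => ∏ i, w i (s i) := by
  classical
  refine ⟨fun s => Finset.prod_nonneg fun i _ => (hw i).nn _, ?_⟩
  rw [← Fintype.piFinset_univ, ← Finset.prod_univ_sum]
  exact Finset.prod_pos fun i _ => (hw i).pos

omit [Fintype 𝒜] in
theorem prodL_fld (l : Lv 𝒜) (g : Fin n × l.ι → ℝ) (s : Fin n → 𝒜) :
    (prodL n l).fld g s = ∑ i, l.fld (fun k => g (i, k)) (s i) :=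
  Fintype.sum_prod_type (f := fun p : Fin n × l.ι => l.A (s p.1) p.2 * g p)

/-- site decoupling -/
theorem X_prod {w : Fin n → 𝒜 → ℝ} (hw : ∀ i, Wt (w i)) : ∀ (L : List (Lv 𝒜)) (h : Fin n → 𝒜 → ℝ),
    X (fun s : Fin n → 𝒜 => ∏ i, w i (s i)) (L.map (prodL n)) (fun s => ∑ i, h i (s i)) =
      ∑ i, X (w i) L (h i)
  | [], h => by
    classical
    simp only [List.map_nil, X, exp_sum, ← Finset.prod_mul_distrib]
    rw [← Fintype.piFinset_univ, ← Finset.prod_univ_sum (fun _ => Finset.univ)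
      fun i a => w i a * exp (h i a), log_prod fun i _ => (wt_exp (hw i) (h i)).pos.ne']
  | l :: L, h => by
    have e : ∀ g : Fin n × l.ι → ℝ, X (fun s : Fin n → 𝒜 => ∏ i, w i (s i)) (L.map (prodL n))
        ((fun s => ∑ i, h i (s i)) + (prodL n l).fld g) =
        ∑ i, X (w i) L (h i + l.fld fun k => g (i, k)) := by
      intro g
      rw [← X_prod hw L]
      congr 1
      funext s
      simp only [Pi.add_apply, prodL_fld, Finset.sum_add_distrib]
    have inj : ∀ i : Fin n, Function.Injective fun k : l.ι => (i, k) := fun i a b hab =>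
      (Prod.ext_iff.1 hab).2
    simp only [List.map_cons, X, step]
    change (if l.m = 0 then ∫ g : Fin n × l.ι → ℝ, _ ∂gv (Fin n × l.ι) else
      l.m⁻¹ * log (∫ g : Fin n × l.ι → ℝ, exp (l.m * _) ∂gv (Fin n × l.ι))) = _
    simp only [e]
    split_ifs with hm
    · rw [integral_finsetSum]
      · exact Finset.sum_congr rfl fun i _ =>
          int_sel _ (inj i) ((lg_X (hw i) L).eg.cont_fld l (h i))
      · exact fun i _ => (R339.Guerra.mp_comp _ (inj i)).integrable_comp_of_integrable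
          ((lg_X (hw i) L).eg.int l (h i))
    · rw [← Finset.mul_sum, ← log_prod fun i _ => ((lg_X (hw i) L).Z_pos l (h i)).ne',
        ← integral_fintype_prod_eq_prod (μ := fun _ : Fin n => gv l.ι)
          fun i g => exp (l.m * X (w i) L (h i + l.fld g))]
      congr 2
      have mp : MeasurePreserving (MeasurableEquiv.curry (Fin n) l.ι ℝ) (gv (Fin n × l.ι))
          (Measure.pi fun _ : Fin n => gv l.ι) := R166.GaussPi93.mp_curry
      rw [← mp.integral_comp']
      refine integral_congr_ae (.of_forall fun g => ?_)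
      simp only [Finset.mul_sum, exp_sum]
      rfl

end Crest.Agent.T157.Vg

end
end

-- ▼ part T157/Vg_54
section

/-!
Row 157, part D (helper54): proof of the penalised vector Guerra bound `VgStmt`.
-/

set_option autoImplicit false

noncomputable section

namespace Crest.Agent.T157.Vg

open MeasureTheory ProbabilityTheory Matrix Real Set
open Crest.Agent.T157.E Crest.Agent.T157.Casc Crest.Agent.T157.SL Crest.Agent.T157.Cond

theorem X_sel {Ω α : Type*} [Fintype Ω] {w : Ω → ℝ} (hw : Wt w) (φ ψ : α → Lv Ω)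
    (h : ∀ l, ∃ e : (ψ l).ι → (φ l).ι, Function.Injective e ∧ (φ l).m = (ψ l).m ∧
      ∀ g, (φ l).fld g = (ψ l).fld fun k => g (e k)) :
    ∀ L : List α, X w (L.map φ) = X w (L.map ψ)
  | [] => rfl
  | l :: L => by
    obtain ⟨e, h1, h2, h3⟩ := h l
    funext z
    simp only [List.map_cons, X]
    rw [X_sel hw φ ψ h L, step_sel (lg_X hw _) e h1 h2 h3]

theorem mono_map {Ω Ω' α : Type*} (φ : α → Lv Ω) (ψ : α → Lv Ω') (h : ∀ l, (φ l).m = (ψ l).m) :
    ∀ (L : List α) (m0 : ℝ), Mono m0 (L.map φ) → Mono m0 (L.map ψ)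
  | [], _, h0 => h0
  | l :: L, _, h0 => ⟨h l ▸ h0.1, mono_map φ ψ h L _ (h l ▸ h0.2)⟩

variable {M 𝒜 : Type} [Fintype M] {n : ℕ}

theorem fr2_nonneg (Q : Matrix M M ℝ) : 0 ≤ fr2 Q := by unfold fr2; positivity

theorem fr2_sub (R Q : Matrix M M ℝ) :
    fr2 (R - Q) = fr2 R - 2 * ∑ a, ∑ b, Q a b * R a b + fr2 Q := by
  simp only [fr2, Finset.mul_sum, ← Finset.sum_sub_distrib, ← Finset.sum_add_distrib,
    Matrix.sub_apply]
  exact Finset.sum_congr rfl fun a _ => Finset.sum_congr rfl fun b _ => by ring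

theorem Qtop_cons (l : VL M 𝒜) (L : List (VL M 𝒜)) : Qtop (l :: L) = l.C + Qtop L := by
  simp [Qtop]

theorem Qtop_nil : Qtop ([] : List (VL M 𝒜)) = 0 := by simp [Qtop]

theorem sum_dm_fr2 {Ω : Type*} (φ : VL M 𝒜 → Lv Ω) (h : ∀ l, (φ l).m = l.m) :
    ∀ (L : List (VL M 𝒜)) (m0 : ℝ) (Q : Matrix M M ℝ),
    ∑ j ∈ Finset.range (L.length + 1), dm (L.map φ) m0 j * fr2 (Q + Qtop (L.take j)) =
      fr2 (Q + Qtop L) - m0 * fr2 Q - corr Q L
  | [], m0, Q => by simp [dm, ex, exP, Qtop_nil, corr]; ring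
  | l :: L, m0, Q => by
    rw [List.length_cons, Finset.sum_range_succ']
    simp only [List.map_cons, dm_cons_succ, List.take_succ_cons, Qtop_cons, ← add_assoc]
    rw [sum_dm_fr2 φ h L, h l]
    simp [dm, ex, exP, Qtop_nil, corr, h l]
    ring

variable (β : ℝ) (τ : 𝒜 → M → ℝ)

/-- features of the coupling level -/
def aW (s : Fin n → 𝒜) (p : Fin n × Fin n) : ℝ :=
  β / (√n * √2) * ∑ c, τ (s p.1) c * τ (s p.2) c

/-- features of the interpolated part -/
def aI (l : VL M 𝒜) (s : Fin n → 𝒜) (p : Fin n × (l.κ ⊕ l.κ')) : ℝ :=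
  Sum.elim (fun k => β * ∑ c, τ (s p.1) c * l.B c k) (fun _ => 0) p.2

/-- features of the fixed part -/
def aF (l : VL M 𝒜) (s : Fin n → 𝒜) (p : Fin n × (l.κ ⊕ l.κ')) : ℝ :=
  Sum.elim (fun _ => 0) (l.F (s p.1)) p.2

/-- the coupling level along the interpolation -/
def tW (n : ℕ) : TL (Fin n → 𝒜) :=
  ⟨Fin n × Fin n, fun t s p => √t * aW β τ s p, fun t s p => 1 / (2 * √t) * aW β τ s p, 0⟩

/-- a site level along the interpolation -/
def tL (n : ℕ) (l : VL M 𝒜) : TL (Fin n → 𝒜) :=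
  ⟨Fin n × (l.κ ⊕ l.κ'), fun t s p => √(1 - t) * aI β τ l s p + aF l s p,
    fun t s p => -1 / (2 * √(1 - t)) * aI β τ l s p, l.m⟩

theorem sum_aW (hn : 0 < n) (s s' : Fin n → 𝒜) :
    ∑ p, aW β τ s p * aW β τ s' p = β ^ 2 * n / 2 * fr2 (ov τ s s') := by
  have hn' : (0 : ℝ) < n := by exact_mod_cast hn
  have e : ∀ p : Fin n × Fin n, aW β τ s p * aW β τ s' p = ∑ c, ∑ d, β ^ 2 / (n * 2) *
      ((τ (s p.1) c * τ (s' p.1) d) * (τ (s p.2) c * τ (s' p.2) d)) := by
    intro p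
    have h1 : β / (√n * √2) * (β / (√n * √2)) = β ^ 2 / (n * 2) := by
      rw [div_mul_div_comm, mul_mul_mul_comm, mul_self_sqrt hn'.le, mul_self_sqrt zero_le_two, sq]
    rw [aW, aW, mul_mul_mul_comm, h1, Finset.sum_mul_sum, Finset.mul_sum]
    refine Finset.sum_congr rfl fun c _ => ?_
    rw [Finset.mul_sum]
    exact Finset.sum_congr rfl fun d _ => by ring
  simp only [e, fr2, Finset.mul_sum]
  rw [Finset.sum_comm]
  refine Finset.sum_congr rfl fun c _ => ?_
  rw [Finset.sum_comm]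
  refine Finset.sum_congr rfl fun d _ => ?_
  rw [← Finset.mul_sum, Fintype.sum_prod_type]
  simp only [ov, of_apply, fv, dotProduct]
  rw [← Finset.sum_mul_sum]
  field_simp

theorem sum_aI (hn : 0 < n) (l : VL M 𝒜) (s s' : Fin n → 𝒜) :
    ∑ p, aI β τ l s p * aI β τ l s' p = β ^ 2 * n * ∑ c, ∑ d, l.C c d * ov τ s s' c d := by
  have hn' : (n : ℝ) ≠ 0 := by exact_mod_cast hn.ne'
  have e : ∀ i : Fin n, ∑ k : l.κ ⊕ l.κ', aI β τ l s (i, k) * aI β τ l s' (i, k) =
      ∑ c, ∑ d, β ^ 2 * l.C c d * (τ (s i) c * τ (s' i) d) := by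
    intro i
    have e1 : ∀ k : l.κ, (β * ∑ c, τ (s i) c * l.B c k) * (β * ∑ d, τ (s' i) d * l.B d k) =
        ∑ c, ∑ d, β ^ 2 * (l.B c k * l.B d k) * (τ (s i) c * τ (s' i) d) := by
      intro k
      rw [mul_mul_mul_comm, Finset.sum_mul_sum, Finset.mul_sum]
      refine Finset.sum_congr rfl fun c _ => ?_
      rw [Finset.mul_sum]
      exact Finset.sum_congr rfl fun d _ => by ring
    simp only [aI, Fintype.sum_sum_type, Sum.elim_inl, Sum.elim_inr, mul_zero,
      Finset.sum_const_zero, add_zero, e1]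
    rw [Finset.sum_comm]
    refine Finset.sum_congr rfl fun c _ => ?_
    rw [Finset.sum_comm]
    refine Finset.sum_congr rfl fun d _ => ?_
    simp only [VL.C, Matrix.mul_apply, transpose_apply, Finset.mul_sum, Finset.sum_mul]
  rw [Fintype.sum_prod_type]
  simp only [e, Finset.mul_sum]
  rw [Finset.sum_comm]
  refine Finset.sum_congr rfl fun c _ => ?_
  rw [Finset.sum_comm]
  refine Finset.sum_congr rfl fun d _ => ?_
  rw [← Finset.mul_sum]
  simp only [ov, of_apply, fv, dotProduct]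
  field_simp

theorem aI_mul_aF (l : VL M 𝒜) (s s' : Fin n → 𝒜) (p : Fin n × (l.κ ⊕ l.κ')) :
    aI β τ l s p * aF l s' p = 0 := by
  obtain ⟨i, k | k⟩ := p <;> simp [aI, aF]

theorem S_tW (hn : 0 < n) {t : ℝ} (ht : 0 < t) (s s' : Fin n → 𝒜) :
    (tW β τ n).S t s s' = β ^ 2 * n / 4 * fr2 (ov τ s s') := by
  have h0 : √t ≠ 0 := (sqrt_pos.2 ht).ne'
  have e : ∀ p : Fin n × Fin n, 1 / (2 * √t) * aW β τ s p * (√t * aW β τ s' p) =
      1 / 2 * (aW β τ s p * aW β τ s' p) := fun p => by field_simp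
  change ∑ p : Fin n × Fin n, 1 / (2 * √t) * aW β τ s p * (√t * aW β τ s' p) = _
  simp only [e]
  rw [← Finset.mul_sum, sum_aW β τ hn]
  ring

theorem S_tL (hn : 0 < n) {t : ℝ} (ht : t < 1) (l : VL M 𝒜) (s s' : Fin n → 𝒜) :
    (tL β τ n l).S t s s' = -(β ^ 2 * n / 2) * ∑ c, ∑ d, l.C c d * ov τ s s' c d := by
  have h0 : √(1 - t) ≠ 0 := (sqrt_pos.2 (sub_pos.2 ht)).ne'
  have e : ∀ p : Fin n × (l.κ ⊕ l.κ'), -1 / (2 * √(1 - t)) * aI β τ l s p *
      (√(1 - t) * aI β τ l s' p + aF l s' p) = -1 / 2 * (aI β τ l s p * aI β τ l s' p) := by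
    intro p
    rw [mul_add, mul_assoc _ (aI β τ l s p) (aF l s' p), aI_mul_aF]
    field_simp
    ring
  change ∑ p : Fin n × (l.κ ⊕ l.κ'), -1 / (2 * √(1 - t)) * aI β τ l s p *
      (√(1 - t) * aI β τ l s' p + aF l s' p) = _
  simp only [e]
  rw [← Finset.mul_sum, sum_aI β τ hn]
  ring

theorem Sacc_tL (hn : 0 < n) {t : ℝ} (ht : t < 1) (s s' : Fin n → 𝒜) :
    ∀ (L : List (VL M 𝒜)) (j : ℕ), Sacc (L.map (tL β τ n)) t j s s' =
      -(β ^ 2 * n / 2) * ∑ c, ∑ d, Qtop (L.take j) c d * ov τ s s' c d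
  | _, 0 => by simp [Sacc, Qtop_nil]
  | [], _ + 1 => by simp [Sacc, Qtop_nil]
  | l :: L, j + 1 => by
    rw [List.map_cons, Sacc_cons]
    simp only [Sacc_tL hn ht s s' L j, S_tL β τ hn ht, List.take_succ_cons, Qtop_cons,
      Matrix.add_apply,
      add_mul, Finset.sum_add_distrib, mul_add]

theorem Sacc_all (hn : 0 < n) {t : ℝ} (ht : t ∈ Ioo (0 : ℝ) 1) (L : List (VL M 𝒜)) (j : ℕ)
    (s s' : Fin n → 𝒜) : Sacc (tW β τ n :: L.map (tL β τ n)) t (j + 1) s s' =
      β ^ 2 * n / 4 * (fr2 (ov τ s s' - Qtop (L.take j)) - fr2 (Qtop (L.take j))) := by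
  rw [Sacc_cons]
  simp only [Sacc_tL β τ hn ht.2, S_tW β τ hn ht.1, fr2_sub]
  ring

theorem fld_tW (g : Fin n × Fin n → ℝ) (s : Fin n → 𝒜) :
    ((tW β τ n).at 1).fld g s = HW β τ (symG (1 / √n) g) s := by
  change ∑ p : Fin n × Fin n, √1 * aW β τ s p * g p = _
  have e : ∀ c, β / 2 * (fv τ s c ⬝ᵥ symG (1 / √n) g *ᵥ fv τ s c) =
      ∑ p : Fin n × Fin n, β / (√n * √2) * (τ (s p.1) c * τ (s p.2) c) * g p := by
    intro c
    have h1 : ∑ i, ∑ j, τ (s i) c * τ (s j) c * g (j, i) =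
        ∑ i, ∑ j, τ (s i) c * τ (s j) c * g (i, j) :=
      Finset.sum_comm.trans (Finset.sum_congr rfl fun i _ => Finset.sum_congr rfl fun j _ => by ring)
    have h2 : fv τ s c ⬝ᵥ symG (1 / √n) g *ᵥ fv τ s c = 1 / √n / √2 *
        (∑ i, ∑ j, τ (s i) c * τ (s j) c * g (i, j) + ∑ i, ∑ j, τ (s i) c * τ (s j) c * g (j, i)) := by
      simp only [dotProduct, mulVec, symG, of_apply, fv, Finset.mul_sum, ← Finset.sum_add_distrib]
      exact Finset.sum_congr rfl fun i _ => Finset.sum_congr rfl fun j _ => by ring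
    rw [h2, h1, Fintype.sum_prod_type]
    simp only [mul_assoc (β / _), ← Finset.mul_sum]
    ring
  simp only [HW, e, sqrt_one, one_mul, aW, Finset.mul_sum, Finset.sum_mul]
  exact Finset.sum_comm

variable [Fintype 𝒜]

theorem continuous_val (w h : Fin n → 𝒜 → ℝ) (hw : ∀ i, Wt (w i)) (L : List (VL M 𝒜)) :
    Continuous (val β τ w h L) := by
  refine (lg_X (wt_prod hw) _).eg.cont.comp (continuous_pi fun s => ?_)
  simp only [HW, dotProduct, mulVec]
  fun_prop

theorem val_symG (w h : Fin n → 𝒜 → ℝ) (L : List (VL M 𝒜)) (g : Fin n × Fin n → ℝ) :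
    val β τ w h L (symG (1 / √n) g) =
      X (fun s : Fin n → 𝒜 => ∏ i, w i (s i)) (L.map fun l => prodL n l.fix)
        ((fun s => ∑ i, h i (s i) - 1 * pen β τ (Qtop L) s) + ((tW β τ n).at 1).fld g) := by
  unfold val
  congr 1
  funext s
  rw [Pi.add_apply, fld_tW]
  ring

theorem vg (hn : 0 < n) (w h : Fin n → 𝒜 → ℝ) (hw : ∀ i, Wt (w i)) (L : List (VL M 𝒜))
    (hL : Mono 0 (L.map VL.fix)) :
    ∫ g, val β τ w h L (symG (1 / √n) g) ∂gv (Fin n × Fin n) ≤
      ∑ i, X (w i) (L.map (VL.site β τ)) (h i) - β ^ 2 * n / 4 * corr 0 L := by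
  have hW := wt_prod hw
  set T : List (TL (Fin n → 𝒜)) := tW β τ n :: L.map (tL β τ n) with hT
  have hat : ∀ t, atL T t = (tW β τ n).at t :: L.map fun l => (tL β τ n l).at t := fun t => by
    simp [hT, atL]
  obtain ⟨t, ht, e⟩ := exists_X_sub hW (L := T) zero_lt_one
    (b := fun t s => ∑ i, h i (s i) - t * pen β τ (Qtop L) s)
    (b' := fun _ s => -pen β τ (Qtop L) s)
    (by
      intro l hl
      simp only [hT, List.mem_cons, List.mem_map] at hl
      rcases hl with rfl | ⟨l, -, rfl⟩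
      · intro x i; simp only [tW]; fun_prop
      · intro x i; simp only [tL]; fun_prop)
    (by
      intro l hl
      simp only [hT, List.mem_cons, List.mem_map] at hl
      rcases hl with rfl | ⟨l, -, rfl⟩
      · refine ⟨fun t ht x i => (hasDerivAt_sqrt ht.1.ne').mul_const _, fun x i => ?_⟩
        exact ContinuousOn.mul (ContinuousOn.div (by fun_prop) (by fun_prop) fun t ht =>
          mul_ne_zero two_ne_zero (sqrt_pos.2 ht.1).ne') continuousOn_const
      · refine ⟨fun t ht x i => ?_, fun x i => ?_⟩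
        · exact ((((hasDerivAt_id t).const_sub 1).sqrt (sub_pos.2 ht.2).ne').mul_const _).add_const _
        · exact ContinuousOn.mul (ContinuousOn.div (by fun_prop) (by fun_prop) fun t ht =>
            mul_ne_zero two_ne_zero (sqrt_pos.2 (sub_pos.2 ht.2)).ne') continuousOn_const)
    (fun x => by fun_prop)
    (fun t _ x => by simpa using ((hasDerivAt_id t).mul_const (pen β τ (Qtop L) x)).const_sub _)
  have e1 : X (fun s : Fin n → 𝒜 => ∏ i, w i (s i)) (atL T 1)
      (fun s => ∑ i, h i (s i) - 1 * pen β τ (Qtop L) s) =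
      ∫ g, val β τ w h L (symG (1 / √n) g) ∂gv (Fin n × Fin n) := by
    rw [hat, X, X_sel hW (fun l => (tL β τ n l).at 1) (fun l : VL M 𝒜 => prodL n l.fix) fun l =>
      ⟨fun p => (p.1, Sum.inr p.2), fun p q hpq => ?_, rfl, fun g => funext fun s => ?_⟩]
    · simp only [val_symG]
      exact if_pos rfl
    · exact Prod.ext (Prod.ext_iff.1 hpq).1 (Sum.inr_injective (Prod.ext_iff.1 hpq).2)
    · change ∑ p : Fin n × (l.κ ⊕ l.κ'), (√(1 - 1) * aI β τ l s p + aF l s p) * g p =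
        ∑ p : Fin n × l.κ', l.F (s p.1) p.2 * g (p.1, Sum.inr p.2)
      simp [Fintype.sum_prod_type, aF]
  have e0 : X (fun s : Fin n → 𝒜 => ∏ i, w i (s i)) (atL T 0)
      (fun s => ∑ i, h i (s i) - 0 * pen β τ (Qtop L) s) =
      ∑ i, X (w i) (L.map (VL.site β τ)) (h i) := by
    rw [hat, X, step_zero _ (by intro x i; simp [tW]),
      X_sel hW (fun l => (tL β τ n l).at 0) (fun l : VL M 𝒜 => prodL n (l.site β τ)) fun l =>
        ⟨id, Function.injective_id, rfl, fun g => funext fun s => ?_⟩, ← X_prod hw, List.map_map]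
    · simp only [zero_mul, sub_zero]
      rfl
    · change ∑ p : Fin n × (l.κ ⊕ l.κ'), (√(1 - 0) * aI β τ l s p + aF l s p) * g p =
        ∑ p : Fin n × (l.κ ⊕ l.κ'), Sum.elim (fun k => β * ∑ c, τ (s p.1) c * l.B c k)
          (l.F (s p.1)) p.2 * g p
      refine Finset.sum_congr rfl fun p _ => ?_
      obtain ⟨i, k | k⟩ := p <;> simp [aI, aF]
  rw [e1, e0, sub_zero, one_mul, DX] at e
  have hlen : T.length = L.length + 1 := by simp [hT]
  have hM : Mono 0 (atL T t) := by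
    rw [hat]
    exact ⟨le_rfl, mono_map VL.fix (fun l => (tL β τ n l).at t) (fun _ => rfl) L 0 hL⟩
  have a1 : ∀ s, -pen β τ (Qtop L) s + Sacc T t T.length s s = -(β ^ 2 * n / 4 * fr2 (Qtop L)) := by
    intro s
    rw [hlen, hT, Sacc_all β τ hn ht, List.take_length, pen]
    ring
  have a2 := pair_mono hW hM (K := fun j _ _ => Nat.casesOn j 0
      fun j => -(β ^ 2 * n / 4) * fr2 (0 + Qtop (L.take j))) (K' := Sacc T t)
    (fun j _ x y => by
      cases j with
      | zero => simp [Sacc]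
      | succ j =>
        rw [hT, Sacc_all β τ hn ht]
        have := mul_nonneg (by positivity : 0 ≤ β ^ 2 * n / 4)
          (fr2_nonneg (ov τ x y - Qtop (L.take j)))
        simp only [zero_add]
        linarith)
    fun s => ∑ i, h i (s i) - t * pen β τ (Qtop L) s
  rw [pair_const hW, hat, List.length_cons, List.length_map, Finset.sum_range_succ'] at a2
  simp only [dm_cons_succ, mul_left_comm _ (-(β ^ 2 * n / 4)), ← Finset.mul_sum, Nat.rec_zero,
    mul_zero, add_zero] at a2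
  rw [sum_dm_fr2 (fun l => (tL β τ n l).at t) (fun _ => rfl), ← hat] at a2
  simp only [a1, ← Finset.sum_mul, sum_P hW, one_mul] at e
  have a3 : fr2 (0 : Matrix M M ℝ) = 0 := by simp [fr2]
  rw [a3, zero_add] at a2
  linarith


end Crest.Agent.T157.Vg

end
end

-- ▼ part T157/VgB_54

/-!
Row 157, part D (helper54): the vector Guerra bound with high probability; idle levels.
-/

set_option autoImplicit false

noncomputable section

namespace Crest.Agent.T157.Vg

open MeasureTheory ProbabilityTheory Matrix Real Set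
open Crest.Agent.T157.E Crest.Agent.T157.Casc Crest.Agent.T157.SL Crest.Agent.T157.Cond

section idle
variable {Ω : Type*} [Fintype Ω] (w : Ω → ℝ)

theorem X_append_left (L' : List (Lv Ω)) : ∀ (L : List (Lv Ω)), (∀ l ∈ L, ∀ x i, l.A x i = 0) →
    X w (L ++ L') = X w L'
  | [], _ => rfl
  | l :: L, h => by
    funext z
    rw [List.cons_append, X, step_zero _ (h l (by simp)),
      X_append_left L' L fun k hk => h k (by simp [hk])]


end idle

variable {M 𝒜 : Type} [Fintype M] {n : ℕ} (β : ℝ) (τ : 𝒜 → M → ℝ)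

theorem fr2_ov_le (hn : 0 < n) {T : ℝ} (s : Fin n → 𝒜) (hT : ∀ i, ∑ c, τ (s i) c ^ 2 ≤ T) :
    fr2 (ov τ s s) ≤ T ^ 2 := by
  have hn' : (0 : ℝ) < n := by exact_mod_cast hn
  have h1 := sum_aW 1 τ hn s s
  have hT0 : 0 ≤ T := le_trans (by positivity) (hT ⟨0, hn⟩)
  have h2 : ∀ p : Fin n × Fin n, aW 1 τ s p * aW 1 τ s p ≤ 1 / (n * 2) * T ^ 2 := by
    intro p
    have e : 1 / (√n * √2) * (1 / (√n * √2)) = 1 / (n * 2) := by
      rw [div_mul_div_comm, mul_mul_mul_comm, mul_self_sqrt hn'.le, mul_self_sqrt zero_le_two,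
        one_mul]
    rw [aW, mul_mul_mul_comm, e, ← sq, sq T]
    refine mul_le_mul_of_nonneg_left ((Finset.sum_mul_sq_le_sq_mul_sq _ _ _).trans ?_)
      (by positivity)
    exact mul_le_mul (hT _) (hT _) (by positivity) hT0
  have h3 := Finset.sum_le_sum fun p (_ : p ∈ Finset.univ) => h2 p
  rw [h1, Finset.sum_const, Finset.card_univ, Fintype.card_prod, Fintype.card_fin,
    nsmul_eq_mul] at h3
  have h4 : ((n * n : ℕ) : ℝ) * (1 / (n * 2) * T ^ 2) = 1 ^ 2 * n / 2 * T ^ 2 := by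
    push_cast; field_simp
  rw [h4] at h3
  exact le_of_mul_le_mul_left h3 (by positivity)

theorem HW_symG (g : Fin n × Fin n → ℝ) (s : Fin n → 𝒜) :
    HW β τ (symG (1 / √n) g) s = ∑ p, aW β τ s p * g p := by
  rw [← fld_tW]
  change ∑ p : Fin n × Fin n, √1 * aW β τ s p * g p = _
  simp only [sqrt_one, one_mul]

variable [Fintype 𝒜]

/-- levels without fixed features drop out -/
theorem val_eq_log (w h : Fin n → 𝒜 → ℝ) {L : List (VL M 𝒜)} (hL : ∀ l ∈ L, ∀ a k, l.F a k = 0)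
    (W : Matrix (Fin n) (Fin n) ℝ) : val β τ w h L W = log (∑ s : Fin n → 𝒜, (∏ i, w i (s i)) *
      exp (∑ i, h i (s i) + HW β τ W s - pen β τ (Qtop L) s)) := by
  refine X_zero _ _ (fun l hl => ?_) _
  obtain ⟨l, hl', rfl⟩ := List.mem_map.1 hl
  exact fun s p => hL l hl' _ _

/-- a single level with fixed features -/
theorem val_eq_step (w h : Fin n → 𝒜 → ℝ) {L L' : List (VL M 𝒜)} (l : VL M 𝒜)
    (hL : ∀ l ∈ L, ∀ a k, l.F a k = 0) (hL' : ∀ l ∈ L', ∀ a k, l.F a k = 0)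
    (W : Matrix (Fin n) (Fin n) ℝ) : val β τ w h (L ++ l :: L') W =
      step (prodL n l.fix) (fun z => log (∑ s : Fin n → 𝒜, (∏ i, w i (s i)) * exp (z s)))
        fun s => ∑ i, h i (s i) + HW β τ W s - pen β τ (Qtop (L ++ l :: L')) s := by
  have a : ∀ K : List (VL M 𝒜), (∀ l ∈ K, ∀ a k, l.F a k = 0) →
      ∀ k ∈ K.map fun l => prodL n l.fix, ∀ x i, k.A x i = 0 := by
    intro K hK k hk
    obtain ⟨k, hk', rfl⟩ := List.mem_map.1 hk
    exact fun s p => hK k hk' _ _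
  rw [val, List.map_append, X_append_left _ _ _ (a L hL), List.map_cons, X,
    show X _ (L'.map fun l => prodL n l.fix) = _ from funext (X_zero _ _ (a L' hL'))]

theorem abs_val_sub_le (w h : Fin n → 𝒜 → ℝ) (hw : ∀ i, Wt (w i)) (L : List (VL M 𝒜))
    {W W' : Matrix (Fin n) (Fin n) ℝ} {c : ℝ}
    (hc : ∀ s, (∀ i, w i (s i) ≠ 0) → |HW β τ W' s - HW β τ W s| ≤ c) :
    |val β τ w h L W' - val β τ w h L W| ≤ c := by
  refine abs_X_sub_le (wt_prod hw) _ fun s hs => ?_
  convert hc s fun i => Finset.prod_ne_zero_iff.1 hs i (Finset.mem_univ i) using 2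
  ring

theorem elip_val (hn : 0 < n) (w h : Fin n → 𝒜 → ℝ) (hw : ∀ i, Wt (w i)) (L : List (VL M 𝒜))
    {T : ℝ} (hT0 : 0 ≤ T) (hT : ∀ i a, w i a ≠ 0 → ∑ c, τ a c ^ 2 ≤ T) :
    Conc.ELip (|β| * √(n / 2) * T) fun g => val β τ w h L (symG (1 / √n) g) := by
  intro g g'
  refine abs_val_sub_le β τ w h hw L fun s hs => ?_
  rw [HW_symG, HW_symG]
  refine ((Conc.elip_dot (aW β τ s)).mono ?_) g g'
  refine Real.sqrt_le_iff.2 ⟨by positivity, ?_⟩
  simp only [sq (aW β τ s _)]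
  rw [sum_aW β τ hn, mul_pow, mul_pow, sq_abs, sq_sqrt (by positivity), mul_div_assoc]
  exact mul_le_mul_of_nonneg_left (fr2_ov_le τ hn s fun i => hT i _ (hs i)) (by positivity)

/-- the bound with high probability, Gaussian array form -/
theorem vg_tail_symG (hn : 0 < n) (w h : Fin n → 𝒜 → ℝ) (hw : ∀ i, Wt (w i))
    (L : List (VL M 𝒜)) (hL : Mono 0 (L.map VL.fix)) {T : ℝ} (hT0 : 0 ≤ T)
    (hT : ∀ i a, w i a ≠ 0 → ∑ c, τ a c ^ 2 ≤ T) {t : ℝ} (ht : 0 ≤ t) :
    (gv (Fin n × Fin n)).real {g | ∑ i, X (w i) (L.map (VL.site β τ)) (h i) -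
      β ^ 2 * n / 4 * corr 0 L + t ≤ val β τ w h L (symG (1 / √n) g)} ≤
      exp (-t ^ 2 / (β ^ 2 * n * T ^ 2)) := by
  have h1 := Conc.tail_lip (elip_val β τ hn w h hw L hT0 hT) ht
  have h2 := vg β τ hn w h hw L hL
  have e : 2 * (|β| * √(n / 2) * T) ^ 2 = β ^ 2 * n * T ^ 2 := by
    rw [mul_pow, mul_pow, sq_abs, sq_sqrt (by positivity)]; ring
  rw [e] at h1
  refine le_trans (measureReal_mono fun g hg => ?_) h1
  simp only [mem_ofPred_eq] at hg ⊢
  linarith

/-- the bound with high probability, GOE form -/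
theorem vg_tail (hn : 0 < n) (w h : Fin n → 𝒜 → ℝ) (hw : ∀ i, Wt (w i))
    (L : List (VL M 𝒜)) (hL : Mono 0 (L.map VL.fix)) {T : ℝ} (hT0 : 0 ≤ T)
    (hT : ∀ i a, w i a ≠ 0 → ∑ c, τ a c ^ 2 ≤ T) {t : ℝ} (ht : 0 ≤ t) :
    (goe (Fin n) (1 / √n)).real {W | ∑ i, X (w i) (L.map (VL.site β τ)) (h i) -
      β ^ 2 * n / 4 * corr 0 L + t ≤ val β τ w h L W} ≤ exp (-t ^ 2 / (β ^ 2 * n * T ^ 2)) := by
  rw [goe, map_measureReal_apply (measurable_symG _)
    (measurableSet_le measurable_const (continuous_val β τ w h hw L).measurable)]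
  exact vg_tail_symG β τ hn w h hw L hL hT0 hT ht

/-- the bound with high probability for the completed coupling matrix -/
theorem vg_tail_Wmat (hn : 0 < n) (w h : Fin n → 𝒜 → ℝ) (hw : ∀ i, Wt (w i))
    (L : List (VL M 𝒜)) (hL : Mono 0 (L.map VL.fix)) {T : ℝ} (hT0 : 0 ≤ T)
    (hT : ∀ i a, w i a ≠ 0 → ∑ c, τ a c ^ 2 ≤ T) {t : ℝ} (ht : 0 ≤ t) :
    ((gv (Crest.ProbabilityR.SpinGlassDynamics.Pair n)).prod (gv (Fin n))).real
      {p | ∑ i, X (w i) (L.map (VL.site β τ)) (h i) - β ^ 2 * n / 4 * corr 0 L + t ≤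
        val β τ w h L (Wmat n p.1 p.2)} ≤ exp (-t ^ 2 / (β ^ 2 * n * T ^ 2)) := by
  refine le_trans (le_of_eq ?_) (vg_tail β τ hn w h hw L hL hT0 hT ht)
  rw [← goe_Wmat, map_measureReal_apply measurable_Wmat
    (measurableSet_le measurable_const (continuous_val β τ w h hw L).measurable)]
  rfl

end Crest.Agent.T157.Vg

end
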