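import Crest.Agent.T157.Sc2b_68
import Crest.Agent.T157.StA_44
import Crest.Agent.T157.VgB_54
import Crest.Agent.T157.PfB_56
import Crest.Agent.T157.PfE_56
import Crest.Agent.T157.ScDef_68

-- ▼ part T157/ScB_68
section

/-!
Row 157, part D (helper68): the two halves of (SC), definitions and statements.
-/

set_option autoImplicit false

noncomputable section

namespace Crest.Agent.T157.Sc

open MeasureTheory Matrix Set
open Crest.Agent.T157.E Crest.Agent.T157.Eig Crest.Agent.T157.Conc Crest.Agent.T157.St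
open Crest.Agent.T157.Pf Crest.Agent.T157.Cond

variable {n : ℕ} {β C b : ℝ}

/-- the grid `(k - N) / N` of `[-1, 1]` -/
def bk (N : ℕ) (k : Fin (2 * N + 1)) : ℝ := ((k : ℝ) - N) / N

/-- the penalised and tilted energy at the level `q` -/
def En (S : Site β C b) (A : Matrix (Fin n) (Fin n) ℝ) (M q ε : ℝ) (g : ℝ → ℝ) (a : Fin n → ℝ) :
    ℝ := Psi S A q a + ε * ∑ i, g (a i) - M * β ^ 2 * n / 4 * (qq a - q) ^ 2

/-- the soft maximum over the grid, in the field `y` -/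
def LN (S : Site β C b) (A : Matrix (Fin n) (Fin n) ℝ) (N : ℕ) (δ M q ε : ℝ) (g : ℝ → ℝ)
    (y : Fin n → ℝ) : ℝ :=
  M⁻¹ * Real.log (∑ s : Fin n → Fin (2 * N + 1), Real.exp (M *
    (En S A M q ε g (fun i => (1 - δ) * bk N (s i)) + (fun i => bk N (s i)) ⬝ᵥ y)))

/-- `g` is bounded by `G` and `L`-Lipschitz on `(-1, 1)` -/
def Tst (g : ℝ → ℝ) (G L : ℝ) : Prop :=
  (∀ a, |a| < 1 → |g a| ≤ G) ∧ ∀ a a', |a| < 1 → |a'| < 1 → |g a - g a'| ≤ L * |a - a'|

/-- the probabilistic half: the Guerra bound for the soft maximum -/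
def CoreStmt : Prop :=
  ∀ (β C : ℝ) (P : Par), 0 < β → P.OK → ∀ S : Site β C P.b, Rel P S → ∀ n : ℕ, 0 < n →
    ∀ (N : ℕ) (δ M q ε t G L u : ℝ) (g : ℝ → ℝ), 0 < N → 0 < δ → δ < 1 → 1 ≤ M →
    q ∈ Icc (0 : ℝ) 1 → 0 ≤ t → (t = 0 ∨ P.b ≤ q) → Tst g G L → |ε| * G ≤ 1 → 0 ≤ u →
    (goe (Fin n) (1 / √n)).real {W | n * (S.P + t / (1 - δ) ^ 2 / 2 +
        ε * P.E β (q + t / (1 - δ) ^ 2 / β ^ 2) (fun x => g (S.p1 q x)) +
        ε ^ 2 * (G ^ 2 + L ^ 2 / 2) + Real.log (2 * N + 1) / M) + u ≤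
      Real.log (∫ z, Real.exp (LN S (β • W) N δ M q ε g (√t • z)) ∂E.gv (Fin n))} ≤
      Real.exp (-u ^ 2 / (β ^ 2 * n))

/-- the deterministic half: rounding to the grid -/
def RoundStmt : Prop :=
  ∀ β C : ℝ, 1 ≤ β → 1 ≤ C → ∃ C2 : ℝ, 1 ≤ C2 ∧ ∀ (b : ℝ) (S : Site β C b) (n : ℕ), 0 < n →
    ∀ (W : Matrix (Fin n) (Fin n) ℝ) (N : ℕ) (δ M q ε G L : ℝ) (g : ℝ → ℝ), opn W ≤ 3 →
    0 < δ → δ ≤ 1 / 2 → 1 ≤ δ * N → 0 < M → q ∈ Icc (0 : ℝ) 1 → Tst g G L → 0 ≤ L →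
    ELip (√n) (LN S (β • W) N δ M q ε g) ∧
    ∀ y, ∀ m ∈ box n, |qq m - q| ≤ 2 * δ →
      V S (β • W) m + y ⬝ᵥ m + ε * ∑ i, g (m i) - n * (C2 * δ * (1 + |ε| * L + M * δ)) ≤
        LN S (β • W) N δ M q ε g y

end Crest.Agent.T157.Sc

end
end

-- ▼ part T157/Sc3_68
section

/-!
Row 157, part D (helper68): the Guerra bound for the soft maximum (`CoreStmt`).
-/

set_option autoImplicit false

noncomputable section

namespace Crest.Agent.T157.Sc

open MeasureTheory ProbabilityTheory Matrix Set Real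
open Crest.Agent.T157.E Crest.Agent.T157.St Crest.Agent.T157.Cond
open Crest.Agent.T157.Casc (Lv X step Mono)
open Crest.Agent.T157.Vg (VL)
open Crest.Agent.T157.Pf (Par)
open Crest.Agent.R164.GC Crest.Agent.R339.B Crest.Agent.R339.Var
open Crest.ProbabilityR.InvariantGlass (gaussOp)

theorem lip1_cont {f : ℝ → ℝ} (hf : Lip1 f) : Continuous f := by
  refine (LipschitzWith.of_dist_le_mul (K := 1) fun x y => ?_).continuous
  have h1 := hf x y
  have h2 := hf y x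
  rw [abs_sub_comm] at h2
  rw [Real.dist_eq, Real.dist_eq, NNReal.coe_one, one_mul]
  exact abs_le.2 ⟨by linarith, by linarith⟩

section site

variable {𝒜 : Type} [Fintype 𝒜]

/-- the terminal function of a site -/
def Gf (h a : 𝒜 → ℝ) (M x : ℝ) : ℝ := M⁻¹ * log (∑ c, exp (h c + M * a c * x))

theorem lip1_Gf [Nonempty 𝒜] (h : 𝒜 → ℝ) {a : 𝒜 → ℝ} (ha : ∀ c, |a c| ≤ 1) {M : ℝ} (hM : 0 < M) :
    Lip1 (Gf h a M) := by
  intro x y
  have hp : ∀ x, 0 < ∑ c, exp (h c + M * a c * x) := fun x =>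
    Finset.sum_pos (fun _ _ => exp_pos _) Finset.univ_nonempty
  have h1 : ∑ c, exp (h c + M * a c * x) ≤ exp (M * |x - y|) * ∑ c, exp (h c + M * a c * y) := by
    rw [Finset.mul_sum]
    refine Finset.sum_le_sum fun c _ => ?_
    rw [← exp_add, exp_le_exp]
    have h2 : a c * (x - y) ≤ |x - y| := by
      refine (le_abs_self _).trans ?_
      rw [abs_mul]
      exact mul_le_of_le_one_left (abs_nonneg _) (ha c)
    nlinarith [mul_le_mul_of_nonneg_left h2 hM.le]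
  have h2 := log_le_log (hp x) h1
  rw [log_mul (exp_pos _).ne' (hp y).ne', log_exp] at h2
  have h3 := mul_le_mul_of_nonneg_left h2 (inv_pos.2 hM).le
  rw [mul_add, ← mul_assoc, inv_mul_cancel₀ hM.ne', one_mul] at h3
  unfold Gf
  linarith

theorem Gf_le [Nonempty 𝒜] {h a : 𝒜 → ℝ} {M x B : ℝ} (hM : 0 < M)
    (hB : ∀ c, h c + M * a c * x ≤ M * B) : Gf h a M x ≤ B + log (Fintype.card 𝒜) / M := by
  have hc : (0 : ℝ) < Fintype.card 𝒜 := by exact_mod_cast Fintype.card_pos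
  have h1 : ∑ c, exp (h c + M * a c * x) ≤ Fintype.card 𝒜 * exp (M * B) := by
    have := Finset.sum_le_card_nsmul Finset.univ (fun c => exp (h c + M * a c * x)) (exp (M * B))
      fun c _ => exp_le_exp.2 (hB c)
    rwa [Finset.card_univ, nsmul_eq_mul] at this
  have h2 := log_le_log (Finset.sum_pos (fun _ _ => exp_pos _) Finset.univ_nonempty) h1
  rw [log_mul hc.ne' (exp_pos _).ne', log_exp] at h2
  have h3 := mul_le_mul_of_nonneg_left h2 (inv_pos.2 hM).le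
  rw [mul_add, ← mul_assoc, inv_mul_cancel₀ hM.ne', one_mul] at h3
  unfold Gf
  rw [div_eq_inv_mul]
  linarith

/-- a cascade of one-dimensional levels is the Parisi recursion -/
theorem X_bridge (h a : 𝒜 → ℝ) {M : ℝ} (hM : 0 < M) (hG : Lip1 (Gf h a M)) :
    ∀ {L : List (Lv 𝒜)} {l : List (ℝ × ℝ)}, List.Forall₂ (fun (k : Lv 𝒜) (p : ℝ × ℝ) =>
      k.m = p.1 / M ∧ ∃ i, ∀ g, k.fld g = fun c => M * a c * (√p.2 * g i)) L l → Pos 1 l → ∀ x,
      X (fun _ => 1) L (fun c => h c + M * a c * x) = M * Rec l (Gf h a M) x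
  | _, _, List.Forall₂.nil, _, x => by
    simp only [X, Rec, Gf, one_mul]
    rw [← mul_assoc, mul_inv_cancel₀ hM.ne', one_mul]
  | k :: L, p :: l, List.Forall₂.cons ⟨hm, i, hf⟩ hL, hl, x => by
    have hp := hl.head.1
    have hc := lip1_cont (lip1_rec hG hl.tail)
    have e : ∀ g : k.ι → ℝ, exp (k.m * X (fun _ => 1) L ((fun c => h c + M * a c * x) + k.fld g)) =
        (fun z => exp (p.1 * Rec l (Gf h a M) (x + √p.2 * z))) (g i) := by
      intro g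
      have : (fun c => h c + M * a c * x) + k.fld g = fun c => h c + M * a c * (x + √p.2 * g i) := by
        rw [hf]; funext c; simp only [Pi.add_apply]; ring
      rw [this, X_bridge h a hM hG hL hl.tail, hm]
      congr 1
      field_simp
    have mp : MeasurePreserving (fun g : k.ι → ℝ => g i) (gv k.ι) (gaussianReal 0 1) :=
      measurePreserving_eval _ i
    have hm0 : k.m ≠ 0 := by rw [hm]; positivity
    rw [X, step, if_neg hm0]
    simp only [e]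
    rw [← integral_map (f := fun z => exp (p.1 * Rec l (Gf h a M) (x + √p.2 * z)))
      mp.measurable.aemeasurable (by
      refine Continuous.aestronglyMeasurable ?_
      fun_prop), mp.map_eq, Rec, gaussOp_ne hp.ne', hm]
    unfold H
    field_simp

/-- the constant `1 × 1` matrix -/
def cst (x : ℝ) : Matrix Unit Unit ℝ := Matrix.of fun _ _ => x

theorem cst_add (x y : ℝ) : cst x + cst y = cst (x + y) := rfl
theorem cst_zero : cst 0 = 0 := rfl
theorem fr2_cst (x : ℝ) : Vg.fr2 (cst x) = x ^ 2 := by simp [Vg.fr2, cst]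

variable (𝒜) in
/-- an interpolated level -/
def lvJ (β M : ℝ) (p : ℝ × ℝ) : VL Unit 𝒜 :=
  ⟨Unit, cst (√(M * p.2) / β), Unit, fun _ _ => 0, p.1 / M⟩

/-- the level of the external field -/
def lvY (b : 𝒜 → ℝ) (M t : ℝ) : VL Unit 𝒜 := ⟨Unit, cst 0, Unit, fun c _ => M * √t * b c, 1 / M⟩

omit [Fintype 𝒜] in
theorem C_lvJ (β : ℝ) {M : ℝ} (hM : 0 ≤ M) {p : ℝ × ℝ} (hp : 0 ≤ p.2) :
    (lvJ 𝒜 β M p).C = cst (M * p.2 / β ^ 2) := by
  ext i j
  show ∑ _k : Unit, √(M * p.2) / β * (√(M * p.2) / β) = M * p.2 / β ^ 2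
  rw [Fintype.sum_unique, div_mul_div_comm, mul_self_sqrt (by positivity), sq]

omit [Fintype 𝒜] in
theorem C_lvY (b : 𝒜 → ℝ) (M t : ℝ) : (lvY b M t).C = cst 0 := by
  ext i j
  show ∑ _k : Unit, (0 : ℝ) * 0 = 0
  simp

omit [Fintype 𝒜] in
theorem Qtop_lv (β : ℝ) {M : ℝ} (hM : 0 ≤ M) (b : 𝒜 → ℝ) (t : ℝ) : ∀ {l : List (ℝ × ℝ)},
    (∀ p ∈ l, 0 ≤ p.2) → Vg.Qtop (l.map (lvJ 𝒜 β M) ++ [lvY b M t]) = cst (M * TT l / β ^ 2)
  | [], _ => by
    rw [List.map_nil, List.nil_append, Vg.Qtop_cons, Vg.Qtop_nil, C_lvY, add_zero]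
    simp [TT]
  | p :: l, h => by
    rw [List.map_cons, List.cons_append, Vg.Qtop_cons,
      Qtop_lv β hM b t fun q hq => h q (List.mem_cons_of_mem _ hq),
      C_lvJ β hM (h p List.mem_cons_self), cst_add, TT_cons]
    congr 1; ring

omit [Fintype 𝒜] in
theorem corr_lv {β M : ℝ} (hM : 0 < M) (b : 𝒜 → ℝ) (t : ℝ) : ∀ {l : List (ℝ × ℝ)},
    (∀ p ∈ l, 0 ≤ p.2) → ∀ q, Vg.corr (cst (M * q / β ^ 2)) (l.map (lvJ 𝒜 β M) ++ [lvY b M t]) =
      M / β ^ 4 * R339.Guerra.pen q l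
  | [], _, q => by
    rw [List.map_nil, List.nil_append, Vg.corr, Vg.corr, C_lvY, cst_add, add_zero]
    simp [R339.Guerra.pen]
  | p :: l, h, q => by
    have e : M * q / β ^ 2 + M * p.2 / β ^ 2 = M * (q + p.2) / β ^ 2 := by ring
    rw [List.map_cons, List.cons_append, Vg.corr, C_lvJ β hM.le (h p List.mem_cons_self), cst_add, e,
      corr_lv hM b t fun q hq => h q (List.mem_cons_of_mem _ hq), fr2_cst, fr2_cst,
      R339.Guerra.pen]
    show p.1 / M * _ + _ = _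
    field_simp

omit [Fintype 𝒜] in
theorem mono_lv (β : ℝ) {M : ℝ} (hM : 1 ≤ M) (b : 𝒜 → ℝ) (t : ℝ) : ∀ {l : List (ℝ × ℝ)}, Adm 1 l →
    ∀ m0, m0 ≤ headLv 1 l / M → Mono m0 ((l.map (lvJ 𝒜 β M) ++ [lvY b M t]).map VL.fix)
  | [], _, _, h0 => ⟨h0, (div_le_one (by linarith)).2 hM⟩
  | _ :: _, h, _, h0 => ⟨h0, mono_lv β hM b t h.2.2.2 _
      (div_le_div_of_nonneg_right h.2.1 (by linarith))⟩

theorem headLv_cut (β : ℝ) : ∀ (l : List (ℝ × ℝ)) (t : ℝ), headLv β (cut l t) = headLv β l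
  | [], _ => rfl
  | p :: l, t => by
    unfold cut
    split_ifs <;> rfl

theorem adm_cut {β : ℝ} : ∀ {l : List (ℝ × ℝ)}, Adm β l → ∀ {t : ℝ}, 0 ≤ t → Adm β (cut l t)
  | [], _, _, _ => trivial
  | p :: l, h, t, ht => by
    unfold cut
    split_ifs with h1
    · exact ⟨h.1, h.2.1.trans h.2.2.2.head_le, ht, trivial⟩
    · exact ⟨h.1, by rw [headLv_cut]; exact h.2.1, h.2.2.1, adm_cut h.2.2.2 (by linarith)⟩

omit [Fintype 𝒜] in
theorem forall2_lv {β M : ℝ} (hβ : β ≠ 0) (hM : 0 ≤ M) {a b : 𝒜 → ℝ} {t t' : ℝ}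
    (hab : ∀ c, √t * b c = √t' * a c) : ∀ l : List (ℝ × ℝ),
    List.Forall₂ (fun (k : Lv 𝒜) (p : ℝ × ℝ) =>
      k.m = p.1 / M ∧ ∃ i, ∀ g, k.fld g = fun c => M * a c * (√p.2 * g i))
      ((l.map (lvJ 𝒜 β M) ++ [lvY b M t]).map (VL.site β fun c _ => √M * a c)) (l ++ [(1, t')])
  | [] => by
    refine List.Forall₂.cons ⟨rfl, Sum.inr (), fun g => funext fun c => ?_⟩ List.Forall₂.nil
    show ∑ i : Unit ⊕ Unit, Sum.elim (fun _ => β * ∑ _c : Unit, √M * a c * 0)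
      (fun _ => M * √t * b c) i * g i = M * a c * (√t' * g (Sum.inr ()))
    simp only [Fintype.sum_sum_type, Fintype.sum_unique, Sum.elim_inl, Sum.elim_inr,
      PUnit.default_eq_unit]
    rw [mul_assoc M, hab]
    ring_nf
    rfl
  | p :: l => by
    refine List.Forall₂.cons ⟨rfl, Sum.inl (), fun g => funext fun c => ?_⟩ (forall2_lv hβ hM hab l)
    show ∑ i : Unit ⊕ Unit, Sum.elim (fun _ => β * ∑ _c : Unit, √M * a c * (√(M * p.2) / β))
      (fun _ => (0 : ℝ)) i * g i = M * a c * (√p.2 * g (Sum.inl ()))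
    simp only [Fintype.sum_sum_type, Fintype.sum_unique, Sum.elim_inl, Sum.elim_inr,
      PUnit.default_eq_unit]
    rw [sqrt_mul hM]
    have := mul_self_sqrt hM
    field_simp
    rw [sq, this]
    ring_nf
    rfl

end site

variable {β C b : ℝ}

theorem abs_bk {N : ℕ} (hN : 0 < N) (k : Fin (2 * N + 1)) : |bk N k| ≤ 1 := by
  have hN' : (0 : ℝ) < N := by exact_mod_cast hN
  have h1 : ((k : ℕ) : ℝ) ≤ 2 * N := by exact_mod_cast Nat.lt_succ_iff.1 k.2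
  have h0 : (0 : ℝ) ≤ (k : ℕ) := Nat.cast_nonneg _
  unfold bk
  rw [abs_div, abs_of_pos hN', div_le_one hN']
  exact abs_le.2 ⟨by linarith, by linarith⟩

theorem abs_ak {N : ℕ} (hN : 0 < N) {δ : ℝ} (h0 : 0 < δ) (h1 : δ < 1) (k : Fin (2 * N + 1)) :
    |(1 - δ) * bk N k| < 1 := by
  rw [abs_mul, abs_of_pos (by linarith : 0 < 1 - δ)]
  nlinarith [abs_bk hN k]

/-- the quadratic gain in the Legendre inequality -/
theorem Lam_add_le (S : Site β C b) {s : ℝ} (hs : s ∈ Icc (0 : ℝ) 1) {a : ℝ} (ha : |a| < 1) (x : ℝ) :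
    S.Lam s a + a * x ≤ S.Φ s x - (a - S.p1 s x) ^ 2 / 2 := by
  set d := a - S.p1 s x with hd
  have h1 := S.Lam_le hs ha (x + d)
  have hD : ∀ y, HasDerivAt (fun y => S.p1 s x * (y * d) + (y * d) ^ 2 / 2 - S.Φ s (x + y * d))
      (S.p1 s x * d + y * d * d - S.p1 s (x + y * d) * d) y := by
    intro y
    have e1 : HasDerivAt (fun y : ℝ => y * d) d y := by simpa using (hasDerivAt_id y).mul_const d
    have e2 := (S.d1 s hs (x + y * d)).comp y (e1.const_add x)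
    refine (((e1.const_mul (S.p1 s x)).add ((e1.pow 2).div_const 2)).sub e2).congr_deriv ?_
    simp only [Nat.cast_ofNat, Nat.add_one_sub_one, pow_one]
    ring
  have hD2 : ∀ y, HasDerivAt (fun y => y * d * d - S.p1 s (x + y * d) * d)
      (d * d - S.p2 s (x + y * d) * d * d) y := by
    intro y
    have e1 : HasDerivAt (fun y : ℝ => y * d) d y := by simpa using (hasDerivAt_id y).mul_const d
    have e2 := (S.d2 s hs (x + y * d)).comp y (e1.const_add x)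
    exact (e1.mul_const d).sub (e2.mul_const d)
  have h2 := Site.le_of_deriv hD zero_le_one fun y hy _ => by
    have h3 := Site.le_of_deriv hD2 hy fun z _ _ => by
      nlinarith [S.le2 s hs (x + z * d), mul_self_nonneg d]
    simp only [zero_mul, add_zero, zero_sub] at h3
    linarith
  simp only [zero_mul, add_zero, mul_zero, one_mul] at h2
  have e : a = S.p1 s x + d := by rw [hd]; ring
  rw [e] at h1 ⊢
  nlinarith

theorem Tst.bc {g : ℝ → ℝ} {G L : ℝ} (hg : Tst g G L) (S : Site β C b) {s : ℝ}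
    (hs : s ∈ Icc (0 : ℝ) 1) : BC (fun x => g (S.p1 s x)) G := by
  refine ⟨?_, fun x => hg.1 _ (S.abs1 s hs x)⟩
  have hc : Continuous (S.p1 s) := continuous_iff_continuousAt.2 fun x => (S.d2 s hs x).continuousAt
  refine continuous_iff_continuousAt.2 fun x => tendsto_iff_dist_tendsto_zero.2 ?_
  refine squeeze_zero (fun _ => dist_nonneg)
    (fun y => hg.2 _ _ (S.abs1 s hs y) (S.abs1 s hs x)) ?_
  have : Continuous fun y => L * |S.p1 s y - S.p1 s x| := by fun_prop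
  simpa using this.tendsto x

/-- the site bound -/
theorem site_bound {P : Par} (hβ : 0 < β) (h : P.OK) (S : Site β C P.b) (hS : Rel P S)
    {N : ℕ} {δ M q ε t G L : ℝ} {g : ℝ → ℝ} (hN : 0 < N) (h0 : 0 < δ) (h1 : δ < 1) (hM : 0 < M)
    (hq : q ∈ Icc (0 : ℝ) 1) (ht : 0 ≤ t) (hc : t = 0 ∨ P.b ≤ q) (hg : Tst g G L)
    (hε : |ε| * G ≤ 1) :
    Rec (cut (P.lst β P.K) (β ^ 2 * q) ++ [(1, t)])
      (Gf (fun k => M * (S.Lam q ((1 - δ) * bk N k) + ε * g ((1 - δ) * bk N k) - S.pen q))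
        (fun k => (1 - δ) * bk N k) M) 0 ≤
      S.Φ 0 0 - S.pen q + t / 2 + ε * P.E β (q + t / β ^ 2) (fun x => g (S.p1 q x)) +
        ε ^ 2 * (G ^ 2 + L ^ 2 / 2) + log (2 * N + 1) / M := by
  have hA := adm_lst h β P.K
  have hP := pos_of_adm hA
  have hq0 : 0 ≤ β ^ 2 * q := mul_nonneg (sq_nonneg _) hq.1
  have hP' : Pos 1 (cut (P.lst β P.K) (β ^ 2 * q) ++ [(1, t)]) := by
    intro p hp
    rcases List.mem_append.1 hp with hp | hp
    · exact hP.cut _ p hp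
    · rw [List.mem_singleton.1 hp]; exact ⟨one_pos, le_rfl⟩
  have hL : Lip1 (P.Ph β q) := (PhiT_prof one_pos _ _).lip
  have hb := hg.bc S hq
  have hψ : BC (fun x => ε * g (S.p1 q x)) (|ε| * G) :=
    ⟨continuous_const.mul hb.cont, fun x => by
      rw [abs_mul]; exact mul_le_mul_of_nonneg_left (hb.bd x) (abs_nonneg _)⟩
  have key := rec_le one_pos (lip1_Gf (fun k => M * (S.Lam q ((1 - δ) * bk N k) +
      ε * g ((1 - δ) * bk N k) - S.pen q)) (fun k => (abs_ak hN h0 h1 k).le) hM) hL hψ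
    (c := ε ^ 2 * L ^ 2 / 2 - S.pen q + log (2 * N + 1) / M) (by rwa [one_mul]) (fun x => by
      refine (Gf_le (B := P.Ph β q x + ε * g (S.p1 q x) + (ε ^ 2 * L ^ 2 / 2 - S.pen q)) hM
        fun k => ?_).trans (le_of_eq ?_)
      · have a1 := Lam_add_le S hq (abs_ak hN h0 h1 k) x
        have a2 := hg.2 _ _ (abs_ak hN h0 h1 k) (S.abs1 q hq x)
        rw [hS.1] at a1
        set a := (1 - δ) * bk N k
        have a3 : ε * (g a - g (S.p1 q x)) ≤ |ε| * (L * |a - S.p1 q x|) := by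
          refine (le_abs_self _).trans ?_
          rw [abs_mul]
          exact mul_le_mul_of_nonneg_left a2 (abs_nonneg _)
        have a4 := sq_nonneg (|ε| * L - |a - S.p1 q x|)
        rw [sub_sq, mul_pow, sq_abs, sq_abs] at a4
        rw [mul_assoc M a x, ← mul_add]
        refine mul_le_mul_of_nonneg_left ?_ hM.le
        nlinarith
      · rw [Fintype.card_fin]; push_cast; ring) hP' 0
  have e1 : Rec [((1 : ℝ), t)] (P.Ph β q) = fun x => P.Ph β q x + t / 2 := by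
    show gaussOp 1 t (P.Ph β q) = _
    rcases hc with rfl | hc
    · rw [R339.Var.gaussOp_v0 one_ne_zero]; funext x; ring
    · rw [Ph_top (β := β) h ⟨hc, hq.2⟩, gaussOp_add_const lip1_phi0 one_ne_zero, gaussOp_phi0 ht]
      funext x; ring
  have e2 : Rec (cut (P.lst β P.K) (β ^ 2 * q) ++ [(1, t)]) (P.Ph β q) 0 = S.Φ 0 0 + t / 2 := by
    rw [rec_append, e1, rec_add_const hL _ (hP.cut _), hS.1]
    show Rec _ (PhiT 1 (P.lst β P.K) (β ^ 2 * q)) 0 + _ = PhiT 1 (P.lst β P.K) (β ^ 2 * 0) 0 + _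
    rw [rec_cut one_pos hP hq0, mul_zero, Pf.PhiT_zero (adm_nonneg hA)]
  have e3 := EL_affine hL hb 0 ε hP' 0
  simp only [zero_add] at e3
  rw [e2, e3, ← eId β P hβ h q hq t ht hc _ _ hb, mul_pow, sq_abs] at key
  linarith

theorem cont_LN {n : ℕ} (S : Site β C b) (A : Matrix (Fin n) (Fin n) ℝ) (N : ℕ) (δ M q ε : ℝ)
    (g : ℝ → ℝ) : Continuous (LN S A N δ M q ε g) := by
  unfold LN
  refine continuous_const.mul (Continuous.log (by fun_prop) fun y => ne_of_gt ?_)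
  exact Finset.sum_pos (fun _ _ => exp_pos _) Finset.univ_nonempty

theorem val_lv {n : ℕ} (S : Site β C b) (hβ : 0 < β) (W : Matrix (Fin n) (Fin n) ℝ)
    (N : ℕ) (δ : ℝ) {M q : ℝ} (hM : 0 < M) (ε t : ℝ) (g : ℝ → ℝ) {l : List (ℝ × ℝ)}
    (hl : ∀ p ∈ l, 0 ≤ p.2) (hT : TT l = β ^ 2 * q) :
    Vg.val β (fun k (_ : Unit) => √M * ((1 - δ) * bk N k)) (fun (_ : Fin n) _ => 1)
      (fun _ k => M * (S.Lam q ((1 - δ) * bk N k) + ε * g ((1 - δ) * bk N k) - S.pen q))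
      (l.map (lvJ _ β M) ++ [lvY (bk N) M t]) W =
      M * log (∫ z, exp (LN S (β • W) N δ M q ε g (√t • z)) ∂gv (Fin n)) := by
  have hm : (Vg.prodL n (lvY (bk N) M t).fix).m ≠ 0 := by
    show 1 / M ≠ 0
    positivity
  rw [Vg.val_eq_step _ _ _ _ _ (fun k hk => by
    obtain ⟨p, _, rfl⟩ := List.mem_map.1 hk
    exact fun _ _ => rfl) (by simp), step, if_neg hm, Qtop_lv β hM.le _ _ hl, hT,
    ← Vg.int_sel (fun i : Fin n => (i, ())) (fun i j hij => congrArg Prod.fst hij)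
      (G := fun z => exp (LN S (β • W) N δ M q ε g (√t • z)))
      (by have := cont_LN S (β • W) N δ M q ε g; fun_prop)]
  congr 1
  · show (1 / M)⁻¹ = M
    simp
  congr 1
  refine integral_congr_ae (Filter.Eventually.of_forall fun z => ?_)
  show exp (1 / M * log _) = exp (M⁻¹ * log _)
  rw [one_div]
  congr 3
  refine Finset.sum_congr rfl fun s _ => ?_
  rw [Finset.prod_const_one, one_mul]
  congr 1
  set a : Fin n → ℝ := fun i => (1 - δ) * bk N (s i) with ha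
  have e0 : ∀ c, Vg.fv (fun k (_ : Unit) => √M * ((1 - δ) * bk N k)) s c = √M • a := fun _ => rfl
  have hs := mul_self_sqrt hM.le
  have e1 : Vg.HW β (fun k (_ : Unit) => √M * ((1 - δ) * bk N k)) W s =
      M * (1 / 2 * (a ⬝ᵥ (β • W) *ᵥ a)) := by
    rw [Vg.HW, Fintype.sum_unique, e0, mulVec_smul, smul_mulVec, dotProduct_smul, smul_dotProduct,
      dotProduct_smul, smul_eq_mul, smul_eq_mul, smul_eq_mul, ← mul_assoc √M, hs]
    ring
  have e2 : Vg.pen β (fun k (_ : Unit) => √M * ((1 - δ) * bk N k)) (cst (M * (β ^ 2 * q) / β ^ 2)) s =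
      M * (M * β ^ 2 * n / 4 * (qq a - q) ^ 2) := by
    have : Vg.ov (fun k (_ : Unit) => √M * ((1 - δ) * bk N k)) s s - cst (M * (β ^ 2 * q) / β ^ 2) =
        cst (M * (qq a - q)) := by
      ext i j
      show Vg.fv _ s i ⬝ᵥ Vg.fv _ s j / n - M * (β ^ 2 * q) / β ^ 2 = M * (a ⬝ᵥ a / n - q)
      rw [e0 i, dotProduct_smul, smul_dotProduct, smul_eq_mul, smul_eq_mul, ← mul_assoc, hs]
      field_simp
    rw [Vg.pen, this, fr2_cst]
    ring
  have e3 : (Vg.prodL n (lvY (bk N) M t).fix).fld z s =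
      M * ((fun i => bk N (s i)) ⬝ᵥ √t • fun i => z (i, ())) := by
    show ∑ p : Fin n × Unit, M * √t * bk N (s p.1) * z p = _
    rw [Fintype.sum_prod_type, dotProduct, Finset.mul_sum]
    refine Finset.sum_congr rfl fun i _ => ?_
    rw [Fintype.sum_unique]
    show M * √t * bk N (s i) * z (i, ()) = M * (bk N (s i) * (√t * z (i, ())))
    ring
  rw [Pi.add_apply, e1, e2, e3, ← Finset.mul_sum, Finset.sum_sub_distrib, Finset.sum_add_distrib,
    ← Finset.mul_sum, Finset.sum_const, Finset.card_univ, Fintype.card_fin, nsmul_eq_mul]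
  show _ = M * (En S (β • W) M q ε g a + (fun i => bk N (s i)) ⬝ᵥ √t • fun i => z (i, ()))
  unfold En Psi
  simp only [ha]
  ring

theorem coreStmt : CoreStmt := by
  intro β C P hβ h S hS n hn N δ M q ε t G L u g hN h0 h1 hM hq ht hc hg hε hu
  have hM0 : 0 < M := by linarith
  have hn' : (0 : ℝ) < n := by exact_mod_cast hn
  have hA := adm_lst h β P.K
  have hq0 : 0 ≤ β ^ 2 * q := mul_nonneg (sq_nonneg _) hq.1
  have hq1 : β ^ 2 * q ≤ TT (P.lst β P.K) := by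
    rw [TT_lst h]; exact mul_le_of_le_one_right (sq_nonneg _) hq.2
  set l := cut (P.lst β P.K) (β ^ 2 * q) with hl
  have hl0 : ∀ p ∈ l, 0 ≤ p.2 := cut_nonneg (adm_nonneg hA) hq0
  have hd : 0 < 1 - δ := by linarith
  set t' := t / (1 - δ) ^ 2 with ht'
  have ht0 : 0 ≤ t' := by positivity
  have hP' : Pos 1 (l ++ [(1, t')]) := by
    intro p hp
    rcases List.mem_append.1 hp with hp | hp
    · exact (pos_of_adm hA).cut _ p hp
    · rw [List.mem_singleton.1 hp]; exact ⟨one_pos, le_rfl⟩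
  have key := Vg.vg_tail β (fun k (_ : Unit) => √M * ((1 - δ) * bk N k)) hn (fun (_ : Fin n) _ => 1)
    (fun _ k => M * (S.Lam q ((1 - δ) * bk N k) + ε * g ((1 - δ) * bk N k) - S.pen q))
    (fun _ => SL.Wt.of_pos fun _ => one_pos) (l.map (lvJ _ β M) ++ [lvY (bk N) M t])
    (mono_lv β hM _ _ (adm_cut hA hq0) 0 (by
      have := (adm_cut hA hq0).head_pos one_pos
      positivity)) hM0.le (fun _ k _ => by
      rw [Fintype.sum_unique, mul_pow, sq_sqrt hM0.le]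
      exact mul_le_of_le_one_right hM0.le (sq_lt_one (abs_ak hN h0 h1 k)).le)
    (t := M * u) (by positivity)
  have e : -(M * u) ^ 2 / (β ^ 2 * n * M ^ 2) = -u ^ 2 / (β ^ 2 * n) := by field_simp
  rw [e] at key
  refine le_trans (measureReal_mono fun W hW => ?_) key
  simp only [mem_ofPred_eq] at hW ⊢
  have hb := X_bridge (fun k => M * (S.Lam q ((1 - δ) * bk N k) + ε * g ((1 - δ) * bk N k) - S.pen q))
    (fun k => (1 - δ) * bk N k) hM0 (lip1_Gf _ (fun k => (abs_ak hN h0 h1 k).le) hM0)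
    (forall2_lv (b := bk N) (t := t) (t' := t') hβ.ne' hM0.le (fun k => by
      rw [ht', sqrt_div' _ (sq_nonneg _), sqrt_sq hd.le]
      field_simp) l) hP' 0
  simp only [mul_zero, add_zero] at hb
  have hs := site_bound hβ h S hS hN h0 h1 hM0 hq ht0 (hc.imp_left fun h => by
    rw [ht', h, zero_div]) hg hε
  have hcorr := corr_lv (β := β) hM0 (bk N) t hl0 0
  rw [mul_zero, zero_div, cst_zero, hl, pen_cut h hβ hq, ← hS.2.2.2, ← hl] at hcorr
  rw [val_lv S hβ W N δ hM0 ε t g hl0 (TT_cut hq0 hq1), hcorr, Finset.sum_const, Finset.card_univ,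
    Fintype.card_fin, nsmul_eq_mul, hb]
  have e4 : β ^ 2 * n / 4 * (M / β ^ 4 * (4 * β ^ 2 * (S.pen 0 - S.pen q))) =
      M * (n * (S.pen 0 - S.pen q)) := by field_simp
  rw [e4]
  refine le_trans ?_ (mul_le_mul_of_nonneg_left hW hM0.le)
  have := mul_le_mul_of_nonneg_left (mul_le_mul_of_nonneg_left hs hn'.le) hM0.le
  unfold Site.P
  nlinarith

end Crest.Agent.T157.Sc

end
end

-- ▼ part T157/ScR_62
section

/-!
Row 157, part D (helper62): rounding to the grid (`Sc.roundStmt`).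
-/

set_option autoImplicit false

noncomputable section

namespace Crest.Agent.T157.Sc

open MeasureTheory Matrix Set
open Crest.Agent.T157.E Crest.Agent.T157.Eig Crest.Agent.T157.Conc Crest.Agent.T157.St

namespace R62

variable {n : ℕ} {β C b : ℝ}

theorem abs_bk_le {N : ℕ} (hN : 0 < N) (k : Fin (2 * N + 1)) : |bk N k| ≤ 1 := by
  have hN' : (0 : ℝ) < N := by exact_mod_cast hN
  have h1 : ((k : ℕ) : ℝ) ≤ 2 * N := by exact_mod_cast Nat.lt_succ_iff.1 k.2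
  have h2 : (0 : ℝ) ≤ (k : ℕ) := Nat.cast_nonneg _
  rw [bk, abs_div, abs_of_pos hN', div_le_one hN', abs_le]
  constructor <;> linarith

theorem exists_grid {N : ℕ} (hN : 0 < N) {m : ℝ} (hm : |m| < 1) (y : ℝ) :
    ∃ k : Fin (2 * N + 1), |bk N k - m| ≤ 1 / N ∧ y * m ≤ bk N k * y := by
  have hN' : (0 : ℝ) < N := by exact_mod_cast hN
  have h0 : 0 ≤ N * m + N := by nlinarith [(abs_lt.1 hm).1]
  have h2 : N * m + N ≤ ((2 * N : ℕ) : ℝ) := by push_cast; nlinarith [(abs_lt.1 hm).2]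
  have key : ∀ k : Fin (2 * N + 1), bk N k - m = (((k : ℕ) : ℝ) - (N * m + N)) / N := by
    intro k; unfold bk; field_simp; ring
  rcases le_total 0 y with hy | hy
  · let k : Fin (2 * N + 1) := ⟨⌈N * m + N⌉₊, Nat.lt_succ_of_le (Nat.ceil_le.2 h2)⟩
    have a1 : N * m + N ≤ ((k : ℕ) : ℝ) := Nat.le_ceil _
    have a2 : ((k : ℕ) : ℝ) < N * m + N + 1 := Nat.ceil_lt_add_one h0
    have a3 : 0 ≤ bk N k - m := by rw [key]; exact div_nonneg (by linarith) hN'.le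
    refine ⟨k, ?_, by nlinarith⟩
    rw [abs_of_nonneg a3, key]
    exact div_le_div_of_nonneg_right (by linarith) hN'.le
  · let k : Fin (2 * N + 1) := ⟨⌊N * m + N⌋₊, Nat.lt_succ_of_le (by
      have := (Nat.floor_le h0).trans h2
      exact_mod_cast this)⟩
    have a1 : ((k : ℕ) : ℝ) ≤ N * m + N := Nat.floor_le h0
    have a2 : N * m + N < ((k : ℕ) : ℝ) + 1 := Nat.lt_floor_add_one _
    have a3 : bk N k - m ≤ 0 := by
      rw [key]; exact div_nonpos_of_nonpos_of_nonneg (by linarith) hN'.le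
    refine ⟨k, ?_, by nlinarith⟩
    rw [abs_of_nonpos a3, key, ← neg_div]
    exact div_le_div_of_nonneg_right (by linarith) hN'.le

theorem lse_le {Ω : Type*} [Fintype Ω] [Nonempty Ω] {u u' : Ω → ℝ} {K : ℝ}
    (h : ∀ σ, u σ ≤ u' σ + K) :
    Real.log (∑ σ, Real.exp (u σ)) ≤ Real.log (∑ σ, Real.exp (u' σ)) + K := by
  have p : ∀ v : Ω → ℝ, 0 < ∑ σ, Real.exp (v σ) := fun v =>
    Finset.sum_pos (fun _ _ => Real.exp_pos _) Finset.univ_nonempty
  have h1 : ∑ σ, Real.exp (u σ) ≤ (∑ σ, Real.exp (u' σ)) * Real.exp K := by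
    rw [Finset.sum_mul]
    exact Finset.sum_le_sum fun σ _ => by rw [← Real.exp_add, Real.exp_le_exp]; exact h σ
  have h2 := Real.log_le_log (p u) h1
  rwa [Real.log_mul (p u').ne' (Real.exp_pos K).ne', Real.log_exp] at h2

theorem elip_lse {Ω : Type*} [Fintype Ω] [Nonempty Ω] (c : Ω → ℝ) (v : Ω → Fin n → ℝ)
    (hv : ∀ σ i, |v σ i| ≤ 1) {M : ℝ} (hM : 0 < M) :
    ELip (√n) fun y => M⁻¹ * Real.log (∑ σ, Real.exp (M * (c σ + v σ ⬝ᵥ y))) := by
  have key : ∀ x y : Fin n → ℝ, M⁻¹ * Real.log (∑ σ, Real.exp (M * (c σ + v σ ⬝ᵥ x))) -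
      M⁻¹ * Real.log (∑ σ, Real.exp (M * (c σ + v σ ⬝ᵥ y))) ≤ √n * en (x - y) := by
    intro x y
    have h1 := lse_le (u := fun σ => M * (c σ + v σ ⬝ᵥ x)) (u' := fun σ => M * (c σ + v σ ⬝ᵥ y))
      (K := M * (√n * en (x - y))) fun σ => by
        have a1 := (le_abs_self _).trans (Conc.abs_dot_le (v σ) (x - y))
        have a2 : en (v σ) ≤ √n := by
          refine Real.sqrt_le_sqrt ?_
          calc ∑ i, v σ i ^ 2 ≤ ∑ _i : Fin n, (1 : ℝ) :=
                Finset.sum_le_sum fun i _ => (sq_le_one_iff_abs_le_one _).2 (hv σ i)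
            _ = n := by simp
        have a3 := mul_le_mul_of_nonneg_right a2 (en_nonneg (x - y))
        have a4 : ∑ i, v σ i * (x - y) i = v σ ⬝ᵥ x - v σ ⬝ᵥ y := by
          rw [← dotProduct_sub]; rfl
        rw [← mul_add]
        exact mul_le_mul_of_nonneg_left (by linarith) hM.le
    have h2 := mul_le_mul_of_nonneg_left h1 (inv_pos.2 hM).le
    rw [mul_add, ← mul_assoc, inv_mul_cancel₀ hM.ne', one_mul] at h2
    linarith
  intro x y
  have h1 := key x y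
  have h2 := key y x
  rw [en_sub_comm] at h2
  exact abs_le.2 ⟨by linarith, h1⟩

theorem le_lse {Ω : Type*} [Fintype Ω] (u : Ω → ℝ) {M : ℝ} (hM : 0 < M) (s : Ω) :
    u s ≤ M⁻¹ * Real.log (∑ σ, Real.exp (M * u σ)) := by
  have h1 : Real.exp (M * u s) ≤ ∑ σ, Real.exp (M * u σ) :=
    Finset.single_le_sum (f := fun σ => Real.exp (M * u σ)) (fun _ _ => (Real.exp_pos _).le)
      (Finset.mem_univ s)
  have h2 := Real.log_le_log (Real.exp_pos _) h1
  rw [Real.log_exp] at h2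
  have h3 := mul_le_mul_of_nonneg_left h2 (inv_pos.2 hM).le
  rwa [← mul_assoc, inv_mul_cancel₀ hM.ne', one_mul] at h3

theorem Lam_bounds (S : Site β C b) (hC : 0 ≤ C) {q m : ℝ} (hq : q ∈ Icc (0 : ℝ) 1)
    (hm : |m| < 1) : -(β ^ 2 + C) ≤ S.Lam q m ∧ S.Lam q m ≤ 1 + (β ^ 2 + C) := by
  have h1 : (1 : ℝ) ∈ Icc (0 : ℝ) 1 := ⟨zero_le_one, le_rfl⟩
  have hb : (1 : ℝ) ∈ Icc b 1 := ⟨S.b1, le_rfl⟩
  have hK : 0 ≤ β ^ 2 + C := by positivity
  have a1 := S.Lam_time hC h1 hq hm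
  have a2 := S.Lam_time hC hq h1 hm
  have a3 : (β ^ 2 + C) * |q - 1| ≤ β ^ 2 + C :=
    mul_le_of_le_one_right hK (abs_le.2 ⟨by linarith [hq.1], by linarith [hq.2]⟩)
  rw [abs_sub_comm] at a2
  have a4 := S.Lam_le h1 hm 0
  rw [S.top 1 hb] at a4
  have a5 : Real.log 2 ≤ 1 := by linarith [Real.log_le_sub_one_of_pos (two_pos (α := ℝ))]
  simp only [Real.cosh_zero, mul_one, sub_self, mul_zero, zero_div, add_zero, zero_mul,
    sub_zero] at a4
  have a6 : 0 ≤ S.Lam 1 m := by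
    unfold Site.Lam
    rw [S.top 1 hb]
    set x := S.X 1 m
    have b1 : Real.exp |x| ≤ 2 * Real.cosh x := by
      rw [← Real.cosh_abs, Real.cosh_eq]
      linarith [Real.exp_pos (-|x|)]
    have b2 := Real.log_le_log (Real.exp_pos _) b1
    rw [Real.log_exp] at b2
    have b3 : x * m ≤ |x| := (le_abs_self _).trans (by
      rw [abs_mul]; exact mul_le_of_le_one_right (abs_nonneg _) hm.le)
    simp only [sub_self, mul_zero, zero_div, add_zero]
    linarith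
  constructor <;> linarith

theorem nrm_le_of {v : Fin n → ℝ} {c : ℝ} (hc : 0 ≤ c) (h : ∀ i, |v i| ≤ c) :
    nrm v ≤ c * √n := by
  rw [nrm_le_iff (by positivity), mul_pow, Real.sq_sqrt (Nat.cast_nonneg n), dot_self_eq]
  calc ∑ i, v i ^ 2 ≤ ∑ _i : Fin n, c ^ 2 :=
        Finset.sum_le_sum fun i _ => by rw [← sq_abs]; exact pow_le_pow_left₀ (abs_nonneg _) (h i) 2
    _ = _ := by simp [mul_comm]

theorem quad_le (A : Matrix (Fin n) (Fin n) ℝ) {a m : Fin n → ℝ} {d : ℝ} (hd : 0 ≤ d)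
    (ha : ∀ i, |a i| ≤ 1) (hm : ∀ i, |m i| ≤ 1) (h : ∀ i, |a i - m i| ≤ d) :
    m ⬝ᵥ A *ᵥ m ≤ a ⬝ᵥ A *ᵥ a + 2 * opn A * d * n := by
  have e : a ⬝ᵥ A *ᵥ a - m ⬝ᵥ A *ᵥ m = a ⬝ᵥ A *ᵥ (a - m) + (a - m) ⬝ᵥ A *ᵥ m := by
    rw [mulVec_sub, dotProduct_sub, sub_dotProduct]; ring
  have h1 := nrm_le_of zero_le_one ha
  have h2 := nrm_le_of zero_le_one hm
  have h3 := nrm_le_of (v := a - m) hd h
  have hs : √(n : ℝ) * √n = n := Real.mul_self_sqrt (Nat.cast_nonneg n)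
  have b1 : nrm a * nrm (a - m) ≤ d * n := by
    calc _ ≤ (1 * √n) * (d * √n) := mul_le_mul h1 h3 (nrm_nonneg _) (by positivity)
      _ = d * (√n * √n) := by ring
      _ = _ := by rw [hs]
  have b2 : nrm (a - m) * nrm m ≤ d * n := by
    calc _ ≤ (d * √n) * (1 * √n) := mul_le_mul h3 h2 (nrm_nonneg _) (by positivity)
      _ = d * (√n * √n) := by ring
      _ = _ := by rw [hs]
  have c1 := (abs_le.1 ((abs_bil_le A a (a - m)).trans
    (mul_le_mul_of_nonneg_left b1 (opn_nonneg A)))).1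
  have c2 := (abs_le.1 ((abs_bil_le A (a - m) m).trans
    (mul_le_mul_of_nonneg_left b2 (opn_nonneg A)))).1
  linarith

theorem abs_qq_sub (hn : 0 < n) {a m : Fin n → ℝ} {d : ℝ}
    (ha : ∀ i, |a i| ≤ 1) (hm : ∀ i, |m i| ≤ 1) (h : ∀ i, |a i - m i| ≤ d) :
    |qq a - qq m| ≤ 2 * d := by
  have hn' : (0 : ℝ) < n := by exact_mod_cast hn
  unfold qq
  rw [← sub_div, abs_div, abs_of_pos hn', div_le_iff₀ hn', dot_self_eq, dot_self_eq,
    ← Finset.sum_sub_distrib]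
  refine (Finset.abs_sum_le_sum_abs _ _).trans ?_
  calc ∑ i, |a i ^ 2 - m i ^ 2| ≤ ∑ _i : Fin n, 2 * d := Finset.sum_le_sum fun i _ => by
        rw [sq_sub_sq, abs_mul]
        exact mul_le_mul ((abs_add_le _ _).trans (by linarith [ha i, hm i])) (h i) (abs_nonneg _)
          (by norm_num)
    _ = _ := by simp [mul_comm]

theorem sum_ge {f g : Fin n → ℝ} {c : ℝ} (h : ∀ i, f i - c ≤ g i) :
    ∑ i, f i - n * c ≤ ∑ i, g i := by
  have := Finset.sum_le_sum fun i (_ : i ∈ Finset.univ) => h i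
  simpa [Finset.sum_sub_distrib] using this

theorem fin_le {β C ν δ x M : ℝ} (hβ : 1 ≤ β) (hC : 0 ≤ C) (hν : 0 ≤ ν) (hδ : 0 ≤ δ) (hx : 0 ≤ x)
    (hz : 0 ≤ M * δ) :
    6 * β * δ * ν + ν * (δ * (1 + 2 * (β ^ 2 + C))) + 2 * (β ^ 2 + C) * (ν * (2 * δ)) +
      ν * (x * (2 * δ)) + M * β ^ 2 * ν / 4 * (6 * δ) ^ 2 ≤
      ν * ((6 * β + 3 + 6 * (β ^ 2 + C) + 9 * β ^ 2) * δ * (1 + x + M * δ)) := by
  have e : 6 * β * δ * ν + ν * (δ * (1 + 2 * (β ^ 2 + C))) + 2 * (β ^ 2 + C) * (ν * (2 * δ)) +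
      ν * (x * (2 * δ)) + M * β ^ 2 * ν / 4 * (6 * δ) ^ 2 =
      ν * δ * (6 * β + 1 + 6 * (β ^ 2 + C) + 2 * x + 9 * β ^ 2 * (M * δ)) := by ring
  rw [e, show ν * ((6 * β + 3 + 6 * (β ^ 2 + C) + 9 * β ^ 2) * δ * (1 + x + M * δ)) =
    ν * δ * ((6 * β + 3 + 6 * (β ^ 2 + C) + 9 * β ^ 2) * (1 + x + M * δ)) by ring]
  refine mul_le_mul_of_nonneg_left ?_ (mul_nonneg hν hδ)
  have hb := sq_nonneg β
  have d1 : 0 ≤ (6 * β + 1 + 6 * (β ^ 2 + C) + 9 * β ^ 2) * x := mul_nonneg (by linarith) hx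
  have d2 : 0 ≤ (6 * β + 3 + 6 * (β ^ 2 + C)) * (M * δ) := mul_nonneg (by linarith) hz
  have e2 : (6 * β + 3 + 6 * (β ^ 2 + C) + 9 * β ^ 2) * (1 + x + M * δ) =
      (6 * β + 1 + 6 * (β ^ 2 + C) + 2 * x + 9 * β ^ 2 * (M * δ)) + (2 + 9 * β ^ 2) +
        (6 * β + 1 + 6 * (β ^ 2 + C) + 9 * β ^ 2) * x +
        (6 * β + 3 + 6 * (β ^ 2 + C)) * (M * δ) := by ring
  rw [e2]
  linarith

theorem det_le (S : Site β C b) (hβ : 1 ≤ β) (hC0 : 0 ≤ C) (hn : 0 < n)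
    {A : Matrix (Fin n) (Fin n) ℝ} (hA : opn A ≤ β * 3) {δ M q ε G L : ℝ} {g : ℝ → ℝ}
    (hδ : 0 < δ) (hδ2 : δ ≤ 1 / 2) (hM : 0 < M) (hq : q ∈ Icc (0 : ℝ) 1) (hg : Tst g G L)
    (hL : 0 ≤ L) {a u m : Fin n → ℝ} (hm : ∀ i, |m i| < 1) (hqm : |qq m - q| ≤ 2 * δ)
    (hu1 : ∀ i, |u i| < 1) (ha1 : ∀ i, |a i| < 1) (hau : ∀ i, a i = (1 - δ) * m i + δ * u i) :
    V S A m + ε * ∑ i, g (m i) - n * ((6 * β + 3 + 6 * (β ^ 2 + C) + 9 * β ^ 2) * δ *
      (1 + |ε| * L + M * δ)) ≤ En S A M q ε g a := by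
  have hK : 0 ≤ β ^ 2 + C := by positivity
  have hn' : (0 : ℝ) < n := by exact_mod_cast hn
  have ham : ∀ i, |a i - m i| ≤ 2 * δ := fun i => by
    have e : a i - m i = δ * (u i - m i) := by rw [hau]; ring
    rw [e, abs_mul, abs_of_pos hδ, mul_comm]
    exact mul_le_mul_of_nonneg_right ((abs_sub _ _).trans (by linarith [hu1 i, hm i])) hδ.le
  have p2 := quad_le A (by linarith : 0 ≤ 2 * δ) (fun i => (ha1 i).le) (fun i => (hm i).le) ham
  have p2' : 2 * opn A * (2 * δ) * n ≤ 12 * β * δ * n := by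
    have := mul_le_mul_of_nonneg_right hA (by positivity : 0 ≤ 4 * δ * n)
    linarith
  have p3 : ∑ i, S.Lam q (m i) - n * (δ * (1 + 2 * (β ^ 2 + C))) ≤ ∑ i, S.Lam q (a i) :=
    sum_ge fun i => by
      have c1 := S.Lam_concave hq (hm i) (hu1 i) (t := δ) ⟨hδ.le, by linarith⟩
      have c2 := mul_le_mul_of_nonneg_left (Lam_bounds S hC0 hq (hm i)).2 hδ.le
      have c3 := mul_le_mul_of_nonneg_left (Lam_bounds S hC0 hq (hu1 i)).1 hδ.le
      rw [← hau] at c1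
      linarith
  have p4 := Psi_time S hC0 A (qq_mem hm) hq hm
  have p4' : 2 * (β ^ 2 + C) * (n * |q - qq m|) ≤ 2 * (β ^ 2 + C) * (n * (2 * δ)) := by
    rw [abs_sub_comm]
    exact mul_le_mul_of_nonneg_left (mul_le_mul_of_nonneg_left hqm hn'.le) (by positivity)
  have p5 : ∑ i, ε * g (m i) - n * (|ε| * L * (2 * δ)) ≤ ∑ i, ε * g (a i) :=
    sum_ge fun i => by
      have c1 := (hg.2 _ _ (hm i) (ha1 i)).trans
        (mul_le_mul_of_nonneg_left ((abs_sub_comm _ _).trans_le (ham i)) hL)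
      have c2 : ε * (g (m i) - g (a i)) ≤ |ε| * (L * (2 * δ)) := by
        refine (le_abs_self _).trans ?_
        rw [abs_mul]
        exact mul_le_mul_of_nonneg_left c1 (abs_nonneg _)
      linarith
  rw [← Finset.mul_sum, ← Finset.mul_sum] at p5
  have p6 : (qq a - q) ^ 2 ≤ (6 * δ) ^ 2 := by
    have c1 := abs_qq_sub hn (fun i => (ha1 i).le) (fun i => (hm i).le) ham
    have c2 : |qq a - q| ≤ 6 * δ := by
      have := abs_sub_le (qq a) (qq m) q
      linarith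
    rw [← sq_abs]
    exact pow_le_pow_left₀ (abs_nonneg _) c2 2
  have p6' : M * β ^ 2 * n / 4 * (qq a - q) ^ 2 ≤ M * β ^ 2 * n / 4 * (6 * δ) ^ 2 :=
    mul_le_mul_of_nonneg_left p6 (by positivity)
  have hx : 0 ≤ |ε| * L := by positivity
  have hz : 0 ≤ M * δ := by positivity
  have fin := fin_le hβ hC0 hn'.le hδ.le hx hz
  have e1 : Psi S A q m = 1 / 2 * (m ⬝ᵥ A *ᵥ m) + ∑ i, S.Lam q (m i) - n * S.pen q := rfl
  have e2 : En S A M q ε g a = 1 / 2 * (a ⬝ᵥ A *ᵥ a) + ∑ i, S.Lam q (a i) - n * S.pen q +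
      ε * ∑ i, g (a i) - M * β ^ 2 * n / 4 * (qq a - q) ^ 2 := rfl
  have e3 : V S A m = Psi S A (qq m) m := rfl
  rw [e2, e3]
  rw [e1] at p4
  generalize Psi S A (qq m) m = v0 at *
  generalize m ⬝ᵥ A *ᵥ m = v1 at *
  generalize a ⬝ᵥ A *ᵥ a = v2 at *
  generalize ∑ i, S.Lam q (m i) = v3 at *
  generalize ∑ i, S.Lam q (a i) = v4 at *
  generalize ∑ i, g (m i) = v5 at *
  generalize ∑ i, g (a i) = v6 at *
  linarith

end R62

open R62

theorem roundStmt : RoundStmt := by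
  intro β C hβ hC
  have hC0 : 0 ≤ C := by linarith
  refine ⟨6 * β + 3 + 6 * (β ^ 2 + C) + 9 * β ^ 2, by linarith [sq_nonneg β], ?_⟩
  intro b S n hn W N δ M q ε G L g hW hδ hδ2 hN hM hq hg hL
  have hN0 : 0 < N := by
    rcases Nat.eq_zero_or_pos N with rfl | h
    · norm_num at hN
    · exact h
  have hN' : (0 : ℝ) < N := by exact_mod_cast hN0
  have hA : opn (β • W) ≤ β * 3 := by
    rw [opn_smul, abs_of_pos (by linarith : 0 < β)]
    exact mul_le_mul_of_nonneg_left hW (by linarith)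
  generalize β • W = A at *
  constructor
  · exact elip_lse (fun s : Fin n → Fin (2 * N + 1) =>
      En S A M q ε g fun i => (1 - δ) * bk N (s i)) (fun s i => bk N (s i))
      (fun s i => abs_bk_le hN0 (s i)) hM
  intro y m hm hqm
  choose s hs1 hs2 using fun i => exists_grid hN0 (hm i) (y i)
  have h0 : En S A M q ε g (fun i => (1 - δ) * bk N (s i)) + (fun i => bk N (s i)) ⬝ᵥ y ≤
      LN S A N δ M q ε g y :=
    le_lse (fun s : Fin n → Fin (2 * N + 1) =>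
      En S A M q ε g (fun i => (1 - δ) * bk N (s i)) + (fun i => bk N (s i)) ⬝ᵥ y) hM s
  have hNd : 1 / (N : ℝ) ≤ δ := by rw [div_le_iff₀ hN']; exact hN
  have h1 : 0 < 1 - δ := by linarith
  have p1 : y ⬝ᵥ m ≤ (fun i => bk N (s i)) ⬝ᵥ y := Finset.sum_le_sum fun i _ => hs2 i
  have p2 := det_le S hβ hC0 hn hA (ε := ε) hδ hδ2 hM hq hg hL
    (a := fun i => (1 - δ) * bk N (s i)) (u := fun i => (1 - δ) * (bk N (s i) - m i) / δ) hm hqm
    (fun i => by
      rw [abs_div, abs_of_pos hδ, div_lt_one hδ, abs_mul, abs_of_pos h1]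
      have c1 := mul_le_mul_of_nonneg_left ((hs1 i).trans hNd) h1.le
      have c2 := mul_pos hδ hδ
      linarith)
    (fun i => by
      rw [abs_mul, abs_of_pos h1]
      have c1 := mul_le_mul_of_nonneg_left (abs_bk_le hN0 (s i)) h1.le
      linarith)
    (fun i => by field_simp; ring)
  linarith

end Crest.Agent.T157.Sc

end
end

-- ▼ part T157/Sc4_68
section

/-!
Row 157, part D (helper68): (SC) for a finite family of tilts, and the optimisation of the tilt.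
-/

set_option autoImplicit false

noncomputable section

namespace Crest.Agent.T157.Sc

open MeasureTheory Matrix Set Real
open Crest.Agent.T157.E Crest.Agent.T157.Eig Crest.Agent.T157.Conc Crest.Agent.T157.St
open Crest.Agent.T157.Cond
open Crest.Agent.T157.Pf (Par)

variable {n : ℕ} {β C b : ℝ}

theorem elip_lse {I ι : Type} [Fintype I] [Nonempty I] [Fintype ι] {K : ℝ} {F : I → (ι → ℝ) → ℝ}
    (h : ∀ i, ELip K (F i)) : ELip K fun y => log (∑ i, exp (F i y)) := by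
  have hp : ∀ y, 0 < ∑ i, exp (F i y) := fun y =>
    Finset.sum_pos (fun _ _ => exp_pos _) Finset.univ_nonempty
  have key : ∀ x y, log (∑ i, exp (F i x)) - log (∑ i, exp (F i y)) ≤ K * en (x - y) := by
    intro x y
    have h1 : ∑ i, exp (F i x) ≤ exp (K * en (x - y)) * ∑ i, exp (F i y) := by
      rw [Finset.mul_sum]
      refine Finset.sum_le_sum fun i _ => ?_
      rw [← exp_add, exp_le_exp]
      linarith [le_of_abs_le (h i x y)]
    have h2 := log_le_log (hp x) h1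
    rw [log_mul (exp_pos _).ne' (hp y).ne', log_exp] at h2
    linarith
  intro x y
  have h2 := key y x
  rw [en_sub_comm] at h2
  exact abs_le.2 ⟨by linarith, key x y⟩

theorem int_exp_smul {K : ℝ} {F : (Fin n → ℝ) → ℝ} (h : ELip K F) (s : ℝ) :
    Integrable (fun z => exp (F (s • z))) (E.gv (Fin n)) := by
  have h1 : ELip (K * |s|) fun z => F (s • z) := fun x y => by
    have := h (s • x) (s • y)
    rwa [← smul_sub, en_smul, ← mul_assoc] at this
  simpa using h1.integrable_exp 1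

/-- a common majorant for a family of tilts -/
def Fam (S : Site β C b) (A : Matrix (Fin n) (Fin n) ℝ) {I : Type} (q ε r : I → ℝ) (g : I → ℝ → ℝ)
    (δ K t e : ℝ) : Prop :=
  ∃ L : (Fin n → ℝ) → ℝ, ELip (√n) L ∧
    (∀ y, ∀ m ∈ box n, ∀ i, |qq m - q i| ≤ 2 * δ → V S A m + y ⬝ᵥ m +
      n * (ε i * (av (fun j => g i (m j)) - r i) - ε i ^ 2 * K) ≤ L y) ∧
    ∫ z, exp (L (√t • z)) ∂E.gv (Fin n) ≤ exp e

theorem fam (hR : RoundStmt) (hβ : 1 ≤ β) (hC : 1 ≤ C) : ∃ C2 : ℝ, 1 ≤ C2 ∧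
    ∀ (P : Par), P.OK → ∀ S : Site β C P.b, Rel P S → ∀ n : ℕ, 0 < n →
    ∀ (N : ℕ) (δ M t G L u : ℝ), 0 < δ → δ ≤ 1 / 2 → 1 ≤ δ * N → 1 ≤ M → 0 ≤ t → 1 ≤ G → 0 ≤ L →
    0 ≤ u → ∀ (I : Type) [Fintype I] [Nonempty I] (q ε : I → ℝ) (g : I → ℝ → ℝ),
    (∀ i, q i ∈ Icc (0 : ℝ) 1 ∧ (t = 0 ∨ P.b ≤ q i) ∧ Tst (g i) G L ∧ |ε i| * G ≤ 1) →
    goe (Fin n) (1 / √n) {W | opn W ≤ 3 ∧ ¬ Fam S (β • W) q ε
      (fun i => P.E β (q i + t / (1 - δ) ^ 2 / β ^ 2) fun x => g i (S.p1 (q i) x)) g δ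
      (G ^ 2 + L ^ 2 / 2) t (n * (S.P + t / (1 - δ) ^ 2 / 2 + log (2 * N + 1) / M +
        C2 * δ * (1 + L + M * δ)) + u + log (Fintype.card I))} ≤
      ENNReal.ofReal (Fintype.card I * exp (-u ^ 2 / (β ^ 2 * n))) := by
  obtain ⟨C2, hC2, hR⟩ := hR β C hβ hC
  refine ⟨C2, hC2, fun P h S hS n hn N δ M t G L u h0 h1 hN hM ht hG hL hu I _ _ q ε g hi => ?_⟩
  have hn' : (0 : ℝ) < n := by exact_mod_cast hn
  have hN0 : 0 < N := Nat.pos_of_ne_zero fun e => by rw [e] at hN; norm_num at hN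
  set r : I → ℝ := fun i => P.E β (q i + t / (1 - δ) ^ 2 / β ^ 2) fun x => g i (S.p1 (q i) x)
    with hr
  set K := G ^ 2 + L ^ 2 / 2 with hK
  set B : I → Set (Matrix (Fin n) (Fin n) ℝ) := fun i => {W | n * (S.P + t / (1 - δ) ^ 2 / 2 +
    ε i * r i + ε i ^ 2 * K + log (2 * N + 1) / M) + u ≤
      log (∫ z, exp (LN S (β • W) N δ M (q i) (ε i) (g i) (√t • z)) ∂E.gv (Fin n))} with hB
  have hb : ∀ i, goe (Fin n) (1 / √n) (B i) ≤ ENNReal.ofReal (exp (-u ^ 2 / (β ^ 2 * n))) :=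
    fun i => by
    rw [← ofReal_measureReal]
    exact ENNReal.ofReal_le_ofReal (coreStmt β C P (by linarith) h S hS n hn N δ M (q i) (ε i) t G
      L u (g i) hN0 h0 (by linarith) hM (hi i).1 ht (hi i).2.1 (hi i).2.2.1 (hi i).2.2.2 hu)
  refine le_trans (measure_mono (t := ⋃ i, B i) fun W hW => ?_)
    ((measure_iUnion_fintype_le _ _).trans ?_)
  swap
  · refine (Finset.sum_le_sum fun i _ => hb i).trans (le_of_eq ?_)
    rw [Finset.sum_const, Finset.card_univ, nsmul_eq_mul, ENNReal.ofReal_mul (Nat.cast_nonneg _),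
      ENNReal.ofReal_natCast]
  by_contra hc
  refine hW.2 ?_
  simp only [mem_iUnion, not_exists, hB, mem_ofPred_eq, not_le] at hc
  have hRi := fun i => hR P.b S n hn W N δ M (q i) (ε i) G L (g i) hW.1 h0 h1 hN (by linarith)
    (hi i).1 (hi i).2.2.1 hL
  set c : I → ℝ := fun i => n * (ε i * r i + ε i ^ 2 * K - C2 * δ * (1 + L + M * δ)) with hc'
  have hF : ∀ i, ELip (√n) fun y => LN S (β • W) N δ M (q i) (ε i) (g i) y - c i := fun i =>
    (hRi i).1.sub_const _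
  refine ⟨_, elip_lse hF, fun y m hm i hq => ?_, ?_⟩
  · have a1 := (hRi i).2 y m hm hq
    have a2 : exp (LN S (β • W) N δ M (q i) (ε i) (g i) y - c i) ≤
        ∑ i, exp (LN S (β • W) N δ M (q i) (ε i) (g i) y - c i) :=
      Finset.single_le_sum (f := fun i => exp (LN S (β • W) N δ M (q i) (ε i) (g i) y - c i))
        (fun _ _ => (exp_pos _).le) (Finset.mem_univ i)
    have a3 := log_le_log (exp_pos _) a2
    rw [log_exp] at a3
    have a4 : |ε i| * L ≤ L := mul_le_of_le_one_left hL (by nlinarith [(hi i).2.2.2, abs_nonneg (ε i)])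
    have a5 : n * (C2 * δ * (1 + |ε i| * L + M * δ)) ≤ n * (C2 * δ * (1 + L + M * δ)) := by gcongr
    have a6 : n * av (fun j => g i (m j)) = ∑ j, g i (m j) := by unfold av; field_simp
    refine le_trans ?_ a3
    rw [← a6] at a1
    simp only [hc']
    nlinarith
  · have hcard : (0 : ℝ) < Fintype.card I := by exact_mod_cast Fintype.card_pos
    have e : ∀ z : Fin n → ℝ, exp (log (∑ i, exp (LN S (β • W) N δ M (q i) (ε i) (g i) (√t • z) -
        c i))) = ∑ i, exp (LN S (β • W) N δ M (q i) (ε i) (g i) (√t • z)) * exp (-c i) := fun z => by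
      rw [exp_log (Finset.sum_pos (fun _ _ => exp_pos _) Finset.univ_nonempty)]
      exact Finset.sum_congr rfl fun i _ => by rw [← exp_add, sub_eq_add_neg]
    simp only [e]
    rw [integral_finsetSum _ fun i _ => (int_exp_smul (hRi i).1 _).mul_const _, exp_add,
      exp_log hcard, mul_comm, ← nsmul_eq_mul, ← Finset.card_univ]
    refine Finset.sum_le_card_nsmul _ _ _ fun i _ => ?_
    rw [integral_mul_const]
    refine (mul_le_mul_of_nonneg_right ((le_exp_log _).trans (exp_le_exp.2 (hc i).le))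
      (exp_pos _).le).trans (le_of_eq ?_)
    rw [← exp_add]
    congr 1
    simp only [hc']
    ring

theorem exists_bk {J : ℕ} (hJ : 0 < J) {x : ℝ} (hx : |x| ≤ 1) :
    ∃ k : Fin (2 * J + 1), |bk J k - x| ≤ 1 / J := by
  have hJ' : (0 : ℝ) < J := by exact_mod_cast hJ
  have hx' := abs_le.1 hx
  have h0 : 0 ≤ J * x + J := by nlinarith
  have h1 : J * x + J ≤ ((2 * J : ℕ) : ℝ) := by push_cast; nlinarith
  refine ⟨⟨⌊J * x + J⌋₊, Nat.lt_succ_of_le (Nat.floor_le_of_le h1)⟩, ?_⟩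
  have h2 := Nat.floor_le h0
  have h3 := Nat.lt_floor_add_one (J * x + J)
  show |((⌊J * x + J⌋₊ : ℝ) - J) / J - x| ≤ 1 / J
  rw [show ((⌊J * x + J⌋₊ : ℝ) - J) / J - x = (⌊J * x + J⌋₊ - (J * x + J)) / J by field_simp; ring,
    abs_div, abs_of_pos hJ']
  exact div_le_div_of_nonneg_right (abs_le.2 ⟨by linarith, by linarith⟩) hJ'.le

theorem exists_eps {J : ℕ} (hJ : 0 < J) {G K D η : ℝ} (hG : 1 ≤ G) (hK : G ^ 2 ≤ K)
    (hD : |D| ≤ 2 * G) (hη : 1 / J ≤ η) : ∃ k : Fin (2 * J + 1),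
      D ^ 2 / (4 * K) - K * η ^ 2 ≤ bk J k / G * D - (bk J k / G) ^ 2 * K := by
  have hG0 : 0 < G := by linarith
  have hK0 : 0 < K := lt_of_lt_of_le (by positivity) hK
  obtain ⟨k, hk⟩ := exists_bk hJ (x := G * D / (2 * K)) (by
    rw [abs_div, abs_mul, abs_of_pos hG0, abs_of_pos (by positivity : 0 < 2 * K),
      div_le_one (by positivity)]
    nlinarith)
  refine ⟨k, ?_⟩
  have e : bk J k / G * D - (bk J k / G) ^ 2 * K =
      D ^ 2 / (4 * K) - K * ((bk J k - G * D / (2 * K)) ^ 2 / G ^ 2) := by field_simp; ring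
  have h1 : (bk J k - G * D / (2 * K)) ^ 2 ≤ η ^ 2 := by
    rw [← sq_abs]; exact pow_le_pow_left₀ (abs_nonneg _) (hk.trans hη) 2
  have h2 : (bk J k - G * D / (2 * K)) ^ 2 / G ^ 2 ≤ η ^ 2 :=
    (div_le_self (sq_nonneg _) (by nlinarith)).trans h1
  rw [e]
  nlinarith

theorem sq_le_of_le_abs {x D e B : ℝ} (h0 : 0 ≤ x) (hB : x ≤ B) (he : 0 ≤ e) (h : x ≤ |D| + e) :
    x ^ 2 ≤ D ^ 2 + 2 * B * e := by
  have h1 := mul_le_mul_of_nonneg_left h h0
  have h2 := mul_le_mul_of_nonneg_right hB he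
  nlinarith [sq_nonneg (x - |D|), sq_abs D]

theorem abs_av_le (hn : 0 < n) {f : Fin n → ℝ} {G : ℝ} (h : ∀ i, |f i| ≤ G) : |av f| ≤ G := by
  have hn' : (0 : ℝ) < n := by exact_mod_cast hn
  unfold av
  rw [abs_div, abs_of_pos hn', div_le_iff₀ hn']
  refine (Finset.abs_sum_le_sum_abs _ _).trans ?_
  have := Finset.sum_le_card_nsmul Finset.univ (fun i => |f i|) G fun i _ => h i
  rw [Finset.card_univ, Fintype.card_fin, nsmul_eq_mul] at this
  linarith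

/-- the two tilts -/
def gT (S : Site β C b) (τ : Bool) (q a : ℝ) : ℝ := if τ then a ^ 2 else -β ^ 2 * S.aa q a ^ 2

theorem tst_gT (hβ : 1 ≤ β) (hC : 1 ≤ C) (S : Site β C b) (τ : Bool) {q : ℝ}
    (hq : q ∈ Icc (0 : ℝ) 1) : Tst (gT S τ q) (β ^ 2) (2 * C * β ^ 2) := by
  have hb : 1 ≤ β ^ 2 := one_le_pow₀ hβ
  cases τ
  · refine ⟨fun a _ => ?_, fun a a' ha ha' => ?_⟩
    · show |-β ^ 2 * S.aa q a ^ 2| ≤ _
      rw [abs_mul, abs_neg, abs_of_pos (by positivity), abs_of_nonneg (sq_nonneg _)]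
      exact mul_le_of_le_one_right (by positivity)
        (pow_le_one₀ (S.aa_pos hq a).le (S.aa_le hq a))
    · show |-β ^ 2 * S.aa q a ^ 2 - -β ^ 2 * S.aa q a' ^ 2| ≤ _
      rw [← mul_sub, abs_mul, abs_neg, abs_of_pos (by positivity)]
      have := mul_le_mul_of_nonneg_left (S.aa_sq_lip (by linarith) hq ha ha') (sq_nonneg β)
      linarith
  · refine ⟨fun a ha => ?_, fun a a' ha ha' => ?_⟩
    · show |a ^ 2| ≤ _
      rw [abs_of_nonneg (sq_nonneg _)]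
      linarith [sq_lt_one ha]
    · show |a ^ 2 - a' ^ 2| ≤ _
      rw [sq_sub_sq, abs_mul]
      refine mul_le_mul_of_nonneg_right ?_ (abs_nonneg _)
      nlinarith [abs_add_le a a']

/-- the levels -/
def lev (b0 : ℝ) (N : ℕ) (j : Fin (N + 1)) : ℝ := max ((j : ℕ) / N) b0

theorem lev_mem {b0 : ℝ} (hb : b0 ∈ Icc (0 : ℝ) 1) (N : ℕ) (j : Fin (N + 1)) :
    lev b0 N j ∈ Icc (0 : ℝ) 1 :=
  ⟨hb.1.trans (le_max_right _ _), max_le (div_le_one_of_le₀
    (by exact_mod_cast Nat.lt_succ_iff.1 j.2) (Nat.cast_nonneg _)) hb.2⟩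

theorem exists_lev {b0 δ x : ℝ} {N : ℕ} (h0 : 0 < δ) (hN : 1 ≤ δ * N) (hx : x ∈ Icc (0 : ℝ) 1)
    (hb : b0 - δ ≤ x) : ∃ j : Fin (N + 1), lev b0 N j ≤ max x b0 ∧ max x b0 - δ ≤ lev b0 N j ∧
      |x - lev b0 N j| ≤ 2 * δ := by
  have hN' : (0 : ℝ) < N := by
    by_contra hc
    nlinarith [mul_nonneg h0.le (neg_nonneg.2 (not_lt.1 hc))]
  have h1 : x * N ≤ (N : ℕ) := mul_le_of_le_one_left hN'.le hx.2
  have h2 := Nat.floor_le (mul_nonneg hx.1 hN'.le)
  have h3 := Nat.lt_floor_add_one (x * N)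
  have h4 : (⌊x * N⌋₊ : ℝ) / N ≤ x := by rw [div_le_iff₀ hN']; exact h2
  have h5 : x - δ ≤ (⌊x * N⌋₊ : ℝ) / N := by rw [le_div_iff₀ hN']; nlinarith
  refine ⟨⟨⌊x * N⌋₊, Nat.lt_succ_of_le (Nat.floor_le_of_le h1)⟩, max_le_max h4 le_rfl, ?_, ?_⟩
  · show max x b0 - δ ≤ max ((⌊x * N⌋₊ : ℝ) / N) b0
    rcases le_total x b0 with h | h
    · rw [max_eq_right h]; linarith [le_max_right ((⌊x * N⌋₊ : ℝ) / N) b0]
    · rw [max_eq_left h]; exact h5.trans (le_max_left _ _)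
  · show |x - max ((⌊x * N⌋₊ : ℝ) / N) b0| ≤ 2 * δ
    have h6 : max ((⌊x * N⌋₊ : ℝ) / N) b0 ≤ x + δ := max_le (by linarith) (by linarith)
    exact abs_le.2 ⟨by linarith, by linarith [le_max_left ((⌊x * N⌋₊ : ℝ) / N) b0]⟩

end Crest.Agent.T157.Sc

end
end

-- ▼ part T157/Sc5_68

/-!
Row 157, part D (helper68): (SC) from the rounding lemma.
-/

set_option autoImplicit false

noncomputable section

namespace Crest.Agent.T157.Sc

open MeasureTheory Matrix Set Real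
open Crest.Agent.T157.E Crest.Agent.T157.Eig Crest.Agent.T157.Conc Crest.Agent.T157.St
open Crest.Agent.T157.Cond
open Crest.Agent.T157.Pf (Par)

variable {n : ℕ} {β C b : ℝ}

theorem int_shift {L : (Fin n → ℝ) → ℝ} {s e : ℝ} (h : ∫ z, exp (L (s • z)) ∂E.gv (Fin n) ≤ exp e)
    (c : ℝ) : ∫ z, exp (L (s • z) - -c) ∂E.gv (Fin n) ≤ exp (e + c) := by
  simp only [sub_neg_eq_add, exp_add]
  rw [integral_mul_const]
  exact mul_le_mul_of_nonneg_right h (exp_pos _).le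

/-- both tilts, optimised -/
def Two (S : Site β C b) (A : Matrix (Fin n) (Fin n) ℝ) (r : Bool → ℝ → ℝ) (b0 δ K t e : ℝ) : Prop :=
  ∃ L : (Fin n → ℝ) → ℝ, ELip (√n) L ∧
    (∀ y, ∀ m ∈ box n, b0 - δ ≤ qq m → ∃ q ∈ Icc b0 1, q ≤ max (qq m) b0 ∧
      max (qq m) b0 - δ ≤ q ∧ |qq m - q| ≤ 2 * δ ∧ ∀ τ, V S A m + y ⬝ᵥ m +
        n * ((av (fun j => gT S τ q (m j)) - r τ q) ^ 2 / (4 * K)) ≤ L y) ∧
    ∫ z, exp (L (√t • z)) ∂E.gv (Fin n) ≤ exp (n * (S.P + t / 2 + e))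

theorem tp_le {η t : ℝ} (h0 : 0 < η) (h1 : η ≤ 1 / 2) (ht : 0 ≤ t) :
    t ≤ t / (1 - η ^ 4) ^ 2 ∧ t / (1 - η ^ 4) ^ 2 ≤ t + t * η ^ 2 := by
  have h2 : η ^ 2 ≤ 1 / 4 := by nlinarith
  have h4 : η ^ 4 ≤ η ^ 2 / 4 := by nlinarith [sq_nonneg η]
  have h5 : 0 < η ^ 4 := by positivity
  have h6 : 0 < (1 - η ^ 4) ^ 2 := pow_pos (by linarith) 2
  refine ⟨le_div_self ht h6 (by nlinarith), ?_⟩
  rw [div_le_iff₀ h6]
  have h7 : 1 ≤ (1 + η ^ 2) * (1 - η ^ 4) ^ 2 := by nlinarith [sq_nonneg η, sq_nonneg (η ^ 4)]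
  nlinarith [mul_le_mul_of_nonneg_left h7 ht]

theorem log_le_pow {x r : ℝ} (hx : 0 < x) (hr : 0 < r) (k : ℕ) (h : x ≤ r ^ k) : log x ≤ k * r := by
  have h1 := log_le_log hx h
  rw [log_pow] at h1
  exact h1.trans (mul_le_mul_of_nonneg_left ((log_le_sub_one_of_pos hr).trans (by linarith))
    (Nat.cast_nonneg _))

theorem two (hR : RoundStmt) (hβ : 1 ≤ β) (hC : 1 ≤ C) : ∃ C3 : ℝ, 1 ≤ C3 ∧
    ∀ (P : Par), P.OK → ∀ S : Site β C P.b, Rel P S → ∀ η : ℝ, 0 < η → η ≤ 1 / 2 → ∀ n : ℕ,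
    1 ≤ n * η ^ 4 → ∀ t b0 : ℝ, 0 ≤ t → b0 ∈ Icc (0 : ℝ) 1 → (t = 0 ∨ P.b ≤ b0) →
    goe (Fin n) (1 / √n) {W | opn W ≤ 3 ∧ ¬ Two S (β • W)
      (fun τ q => P.E β (q + t / (1 - η ^ 4) ^ 2 / β ^ 2) fun x => gT S τ q (S.p1 q x)) b0 (η ^ 4)
      ((β ^ 2) ^ 2 + (2 * C * β ^ 2) ^ 2 / 2) t (C3 * (1 + t) * η ^ 2)} ≤
      ENNReal.ofReal (32 / η ^ 5 * exp (-(n * η ^ 4 / β ^ 2))) := by
  obtain ⟨C2, hC2, hF⟩ := fam hR hβ hC
  have hb : 1 ≤ β ^ 2 := one_le_pow₀ hβ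
  set K := (β ^ 2) ^ 2 + (2 * C * β ^ 2) ^ 2 / 2 with hK
  have hK1 : (β ^ 2) ^ 2 ≤ K := by rw [hK]; exact le_add_of_nonneg_right (by positivity)
  have hK0 : 0 < K := lt_of_lt_of_le (by positivity) hK1
  have hL : 0 ≤ 2 * C * β ^ 2 := by positivity
  refine ⟨20 + C2 * (2 + 2 * C * β ^ 2) + K, by nlinarith, fun P h S hS η h0 h1 n hn t b0 ht hb0 hc
    => ?_⟩
  have hn' : (0 : ℝ) < n := Nat.cast_pos.2 (Nat.pos_of_ne_zero fun e => by
    rw [e] at hn; norm_num at hn)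
  have hn0 : 0 < n := by exact_mod_cast hn'
  set ρ := η⁻¹ with hρ
  have hρη : ρ * η = 1 := inv_mul_cancel₀ h0.ne'
  have hρ2 : 2 ≤ ρ := by nlinarith
  have hρ0 : 0 < ρ := by linarith
  have hρ4 : 16 ≤ ρ ^ 4 := by
    have := pow_le_pow_left₀ zero_le_two hρ2 4
    linarith
  set N := ⌈ρ ^ 4⌉₊ with hN
  set J := ⌈ρ⌉₊ with hJ
  have hN1 : ρ ^ 4 ≤ N := Nat.le_ceil _
  have hN2 : (N : ℝ) ≤ ρ ^ 4 + 1 := (Nat.ceil_lt_add_one (by positivity)).le
  have hJ1 : ρ ≤ J := Nat.le_ceil _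
  have hJ2 : (J : ℝ) ≤ ρ + 1 := (Nat.ceil_lt_add_one (by positivity)).le
  have hJ0 : 0 < J := Nat.ceil_pos.2 hρ0
  have e4 : η ^ 4 * ρ ^ 4 = 1 := by rw [← mul_pow, mul_comm, hρη, one_pow]
  have hδN : 1 ≤ η ^ 4 * N := by rw [← e4]; gcongr
  have h2 : η ^ 2 ≤ 1 / 4 := by nlinarith
  have h4 : η ^ 4 ≤ η ^ 2 := by nlinarith [sq_nonneg η]
  have hcard : (Fintype.card (Bool × Fin (N + 1) × Fin (2 * J + 1)) : ℝ) ≤ (2 * ρ) ^ 5 := by
    simp only [Fintype.card_prod, Fintype.card_bool, Fintype.card_fin]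
    push_cast
    have a1 : (N : ℝ) + 1 ≤ 2 * ρ ^ 4 := by linarith
    have a2 : 2 * (J : ℝ) + 1 ≤ 4 * ρ := by linarith
    have a3 := mul_le_mul a1 a2 (by positivity) (by positivity)
    nlinarith [pow_pos hρ0 5]
  have hε : ∀ k, |bk J k / β ^ 2| * β ^ 2 ≤ 1 := fun k => by
    rw [abs_div, abs_of_pos (by positivity : 0 < β ^ 2), div_mul_cancel₀ _ (by positivity)]
    exact abs_bk hJ0 k
  have key := hF P h S hS n hn0 N (η ^ 4) (ρ ^ 3) t (β ^ 2) (2 * C * β ^ 2) (n * η ^ 2)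
    (by positivity) (by linarith) hδN (one_le_pow₀ (by linarith)) ht hb hL (by positivity)
    (Bool × Fin (N + 1) × Fin (2 * J + 1)) (fun i => lev b0 N i.2.1) (fun i => bk J i.2.2 / β ^ 2)
    (fun i => gT S i.1 (lev b0 N i.2.1)) fun i => ⟨lev_mem hb0 N _,
      hc.imp_right fun h => h.trans (le_max_right _ _), tst_gT hβ hC S _ (lev_mem hb0 N _), hε _⟩
  clear hF
  refine le_trans (measure_mono ?_) (key.trans (ENNReal.ofReal_le_ofReal ?_))
  · refine fun W hW => ⟨hW.1, fun hf => hW.2 ?_⟩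
    obtain ⟨L, hL1, hL2, hL3⟩ := hf
    refine ⟨_, hL1.sub_const (-(n * (K * η ^ 2))), fun y m hm hq => ?_,
      (int_shift hL3 _).trans (exp_le_exp.2 ?_)⟩
    · obtain ⟨j, a1, a2, a3⟩ := exists_lev (by positivity) hδN (qq_mem hm) hq
      have hj := lev_mem hb0 N j
      refine ⟨lev b0 N j, ⟨le_max_right _ _, hj.2⟩, a1, a2, a3, fun τ => ?_⟩
      have hT := tst_gT hβ hC S τ hj
      obtain ⟨k, hk⟩ := exists_eps hJ0 hb hK1 (η := η)
        (D := av (fun i => gT S τ (lev b0 N j) (m i)) - P.E β (lev b0 N j +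
          t / (1 - η ^ 4) ^ 2 / β ^ 2) fun x => gT S τ (lev b0 N j) (S.p1 (lev b0 N j) x))
        ((abs_sub _ _).trans (by
          linarith [abs_av_le hn0 fun i => hT.1 _ (hm i), P.E_abs_le β (lev b0 N j +
            t / (1 - η ^ 4) ^ 2 / β ^ 2) (hT.bc S hj)]))
        (by rw [div_le_iff₀ (by linarith)]; nlinarith)
      have a4 := hL2 y m hm (τ, j, k) a3
      have a5 := mul_le_mul_of_nonneg_left hk hn'.le
      simp only [← hK] at a4 ⊢
      rw [mul_sub] at a5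
      linarith
    · have a1 := (tp_le h0 h1 ht).2
      have a2 : log (2 * N + 1) / ρ ^ 3 ≤ 8 * η ^ 2 := by
        have := log_le_pow (x := 2 * N + 1) (r := 2 * ρ) (by positivity) (by positivity) 4
          (by nlinarith)
        rw [div_le_iff₀ (by positivity),
          show 8 * η ^ 2 * ρ ^ 3 = 8 * ρ * (ρ * η) ^ 2 by ring, hρη]
        push_cast at this
        linarith
      have a3 : log (Fintype.card (Bool × Fin (N + 1) × Fin (2 * J + 1))) ≤ n * (10 * η ^ 2) := by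
        have := log_le_pow (by exact_mod_cast Fintype.card_pos) (by positivity) 5 hcard
        have b1 : ρ ≤ n * η ^ 2 := by
          have b2 := mul_le_mul_of_nonneg_left hn hρ0.le
          rw [show ρ * (n * η ^ 4) = n * η ^ 2 * η * (ρ * η) by ring, hρη] at b2
          nlinarith [mul_pos hn' (pow_pos h0 2)]
        push_cast at this
        linarith
      have a4 : C2 * η ^ 4 * (1 + 2 * C * β ^ 2 + ρ ^ 3 * η ^ 4) ≤
          C2 * (2 + 2 * C * β ^ 2) * η ^ 2 := by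
        rw [show ρ ^ 3 * η ^ 4 = (ρ * η) ^ 3 * η by ring, hρη, one_pow, one_mul,
          mul_right_comm C2 (2 + 2 * C * β ^ 2)]
        exact mul_le_mul (mul_le_mul_of_nonneg_left h4 (by linarith)) (by linarith) (by positivity)
          (by positivity)
      have a5 : 0 ≤ (19 + C2 * (2 + 2 * C * β ^ 2) + K) * t * η ^ 2 := by positivity
      have a6 : S.P + t / (1 - η ^ 4) ^ 2 / 2 + log (2 * N + 1) / ρ ^ 3 +
          C2 * η ^ 4 * (1 + 2 * C * β ^ 2 + ρ ^ 3 * η ^ 4) + η ^ 2 + 10 * η ^ 2 + K * η ^ 2 ≤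
          S.P + t / 2 + (20 + C2 * (2 + 2 * C * β ^ 2) + K) * (1 + t) * η ^ 2 := by
        nlinarith [mul_nonneg ht (sq_nonneg η), sq_nonneg η]
      nlinarith [mul_le_mul_of_nonneg_left a6 hn'.le]
  · have e1 : -(n * η ^ 2) ^ 2 / (β ^ 2 * n) = -(n * η ^ 4 / β ^ 2) := by field_simp
    have e2 : (2 * ρ) ^ 5 = 32 / η ^ 5 := by rw [hρ]; field_simp; norm_num
    rw [e1, ← e2]
    exact mul_le_mul_of_nonneg_right hcard (exp_pos _).le

theorem r_false {P : Par} (hβ : 0 < β) (h : P.OK) (S : Site β C P.b) (hS : Rel P S) {q u : ℝ}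
    (hq : q ∈ Icc (0 : ℝ) 1) (hu : 0 ≤ u) (hc : u = 0 ∨ P.b ≤ q) :
    P.E β (q + u) (fun x => gT S false q (S.p1 q x)) = -P.Gam' β (q + u) := by
  have e : P.Pxx β q = P.Pxx β (q + u) := by
    rcases hc with rfl | hc
    · rw [add_zero]
    · show deriv (P.Px β q) = deriv (P.Px β (q + u))
      rw [h.Px_top hβ hc, h.Px_top hβ (by linarith)]
  have e2 : (fun x => gT S false q (S.p1 q x)) = fun x => -β ^ 2 * P.Pxx β (q + u) x ^ 2 := by
    funext x
    show -β ^ 2 * S.p2 q (S.X q (S.p1 q x)) ^ 2 = _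
    rw [S.X_p1 hq, hS.2.2.1, e]
  rw [e2, Par.E_const_mul, Par.Gam', neg_mul]

theorem r_true {P : Par} (hβ : 0 < β) (h : P.OK) (S : Site β C P.b) (hS : Rel P S) {q u : ℝ}
    (hu : 0 ≤ u) (hc : P.b ≤ q) :
    P.E β (q + u) (fun x => gT S true q (S.p1 q x)) = P.Gam β (q + u) := by
  have e2 : (fun x => gT S true q (S.p1 q x)) = fun x => P.Px β (q + u) x ^ 2 := by
    funext x
    show S.p1 q x ^ 2 = _
    rw [hS.2.1, h.Px_top hβ hc, h.Px_top hβ (by linarith)]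
  rw [e2, Par.Gam]

theorem av_true (S : Site β C b) (q : ℝ) (m : Fin n → ℝ) :
    av (fun j => gT S true q (m j)) = qq m := by
  unfold av qq
  rw [dot_self_eq]
  rfl

theorem av_false (hn : 0 < n) (hC : 1 ≤ C) (S : Site β C b) {q η : ℝ} (hq : q ∈ Icc (0 : ℝ) 1)
    {m : Fin n → ℝ} (hm : m ∈ box n) (h : |qq m - q| ≤ 2 * η ^ 4) :
    |av (fun j => gT S false q (m j)) - (kap S m - 1)| ≤ 12 * C * β ^ 2 * η ^ 2 := by
  have e : av (fun j => gT S false q (m j)) - (kap S m - 1) =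
      av fun j => β ^ 2 * (S.aa (qq m) (m j) ^ 2 - S.aa q (m j) ^ 2) := by
    show av (fun j => -β ^ 2 * S.aa q (m j) ^ 2) - (kap S m - 1) = _
    unfold kap av
    rw [← Finset.mul_sum, ← Finset.mul_sum, Finset.sum_sub_distrib]
    ring
  rw [e]
  refine abs_av_le hn fun j => ?_
  have h1 := S.aa_time hC hq (qq_mem hm) (hm j)
  have h2 : √|qq m - q| ≤ 2 * η ^ 2 := sqrt_le_iff.2 ⟨by positivity, by nlinarith [sq_nonneg (η ^ 2)]⟩
  have h3 : |S.aa (qq m) (m j) + S.aa q (m j)| ≤ 2 := by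
    rw [abs_of_pos (add_pos (S.aa_pos (qq_mem hm) _) (S.aa_pos hq _))]
    linarith [S.aa_le (qq_mem hm) (m j), S.aa_le hq (m j)]
  have h4 := mul_le_mul h3 (h1.trans (mul_le_mul_of_nonneg_left h2 (by positivity)))
    (abs_nonneg _) zero_le_two
  rw [abs_mul, abs_of_nonneg (sq_nonneg β), sq_sub_sq, abs_mul]
  nlinarith [mul_le_mul_of_nonneg_left h4 (sq_nonneg β)]

theorem abs_kap_le (hn : 0 < n) (hβ : 1 ≤ β) (S : Site β C b) {m : Fin n → ℝ} (hm : m ∈ box n) :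
    |kap S m| ≤ β ^ 2 := by
  have hb : 1 ≤ β ^ 2 := one_le_pow₀ hβ
  have h1 : |av fun i => S.aa (qq m) (m i) ^ 2| ≤ 1 := abs_av_le hn fun i => by
    rw [abs_of_nonneg (sq_nonneg _)]
    exact pow_le_one₀ (S.aa_pos (qq_mem hm) _).le (S.aa_le (qq_mem hm) _)
  have h2 : 0 ≤ av fun i => S.aa (qq m) (m i) ^ 2 := by unfold av; positivity
  unfold kap
  exact abs_le.2 ⟨by nlinarith [le_of_abs_le h1], by nlinarith⟩

theorem sc_of_round (hR : RoundStmt) : ScStmt := by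
  intro β C c0 C0 hβ hC hc0
  obtain ⟨C3, hC3, hT⟩ := two hR hβ hC
  have hb : 1 ≤ β ^ 2 := one_le_pow₀ hβ
  have hβ0 : 0 < β := by linarith
  set K := (β ^ 2) ^ 2 + (2 * C * β ^ 2) ^ 2 / 2 with hK
  have hK1 : 1 ≤ K := by rw [hK]; nlinarith [sq_nonneg (2 * C * β ^ 2)]
  set C4 := 2 * β ^ 2 * (12 * C * β ^ 2 + 1) with hC4
  have hC40 : 0 ≤ C4 := by positivity
  set c := 1 / (8 * K) with hc
  have hc1 : c ≤ 1 := (div_le_one (by linarith)).2 (by linarith)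
  have hcp : 0 < c := by positivity
  have hcK : ∀ D : ℝ, D ^ 2 / (4 * K) = 2 * c * D ^ 2 := fun D => by rw [hc]; field_simp; ring
  refine ⟨c, C3 + C4 + 32 + 2 * β ^ 2, hcp, hc1, by linarith,
    fun P η h hG S hS h0 h1 n hn => ?_⟩
  have hn' : (0 : ℝ) < n := Nat.cast_pos.2 (Nat.pos_of_ne_zero fun e => by
    rw [e] at hn; norm_num at hn)
  have hn0 : 0 < n := by exact_mod_cast hn'
  have hη2 : 0 < η ^ 2 := by positivity
  have hη : η ^ 4 ≤ η ^ 2 := by nlinarith [show η ^ 2 ≤ 1 by nlinarith]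
  have hpr : ENNReal.ofReal (32 / η ^ 5 * exp (-(n * η ^ 4 / β ^ 2))) ≤
      ENNReal.ofReal ((C3 + C4 + 32 + 2 * β ^ 2) / η ^ 5 *
        exp (-(n * η ^ 4 / (C3 + C4 + 32 + 2 * β ^ 2)))) := by
    refine ENNReal.ofReal_le_ofReal ?_
    gcongr <;> linarith
  refine ⟨le_trans (measure_mono ?_)
    ((hT P h S hS η h0 h1 n hn 0 0 le_rfl ⟨le_rfl, zero_le_one⟩ (Or.inl rfl)).trans hpr),
    fun t ht => le_trans (measure_mono ?_)
    ((hT P h S hS η h0 h1 n hn t P.b ht ⟨S.b0, S.b1⟩ (Or.inr le_rfl)).trans hpr)⟩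
  · refine fun W hW => ⟨hW.1, fun hf => hW.2 ?_⟩
    obtain ⟨L, -, hL2, hL3⟩ := hf
    intro m hm hq
    have hqm := qq_mem hm
    obtain ⟨q, hq1, a1, -, a3, a4⟩ := hL2 0 m hm (by linarith [hqm.1, pow_pos h0 4])
    have a5 := a4 false
    simp only [sqrt_zero, zero_smul, integral_const, probReal_univ, smul_eq_mul, one_mul,
      exp_le_exp] at hL3
    rw [max_eq_left hqm.1] at a1
    simp only [zero_div] at a5 hL3
    rw [r_false hβ0 h S hS hq1 le_rfl (Or.inl rfl), add_zero, zero_dotProduct, hcK] at a5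
    have a6 := av_false (β := β) hn0 hC S hq1 hm a3
    have a7 := hG.gam' q ⟨hq1.1, a1.trans hq⟩
    set D := av (fun j => gT S false q (m j)) - -P.Gam' β q with hD
    have a8 := sq_le_of_le_abs (D := D) (e := (12 * C * β ^ 2 + 1) * η ^ 2) (abs_nonneg _)
      (abs_kap_le hn0 hβ S hm) (by positivity) (abs_le.2
        ⟨by linarith [neg_abs_le D, abs_le.1 a6, abs_le.1 a7],
          by linarith [le_abs_self D, abs_le.1 a6, abs_le.1 a7]⟩)
    rw [sq_abs] at a8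
    have a9 : c * kap S m ^ 2 ≤ 2 * c * D ^ 2 + (C4 + 32 + 2 * β ^ 2) * η ^ 2 := by
      have b1 := mul_le_mul_of_nonneg_left a8 hcp.le
      have b2 := mul_le_mul_of_nonneg_right hc1 (mul_nonneg hC40 hη2.le)
      have b3 := mul_nonneg hcp.le (sq_nonneg D)
      rw [hC4] at b2 ⊢
      nlinarith
    nlinarith [mul_le_mul_of_nonneg_left a9 hn'.le]
  · refine fun W hW => ⟨hW.1, fun hf => hW.2 ?_⟩
    obtain ⟨L, hL1, hL2, hL3⟩ := hf
    obtain ⟨t1, t2⟩ := tp_le h0 h1 ht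
    set t' := t / (1 - η ^ 4) ^ 2 with ht'
    refine ⟨_, hL1.sub_const (-(n * ((C4 + 32 + 2 * β ^ 2) * (1 + t) * η ^ 2))),
      fun y m hm hq => ?_, (int_shift hL3 _).trans (le_of_eq (by congr 1; ring))⟩
    have hqm := qq_mem hm
    obtain ⟨q, hq1, a1, a2, a3, a4⟩ := hL2 y m hm hq
    have hq0 : q ∈ Icc (0 : ℝ) 1 := ⟨S.b0.trans hq1.1, hq1.2⟩
    have hu : 0 ≤ t' / β ^ 2 := div_nonneg (ht.trans t1) (by positivity)
    have a5 := a4 false
    have a5' := a4 true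
    simp only at a5 a5'
    rw [r_false hβ0 h S hS hq0 hu (Or.inr hq1.1), hcK] at a5
    rw [r_true hβ0 h S hS hu hq1.1, av_true, hcK] at a5'
    have a6 := av_false (β := β) hn0 hC S hq0 hm a3
    have a7 := hG.top (q + t' / β ^ 2) (by linarith [hq1.1])
    have a7' := mul_nonneg hc0 (le_min (by linarith [hq1.1] : 0 ≤ q + t' / β ^ 2 - P.b) zero_le_one)
    set D := av (fun j => gT S false q (m j)) - -P.Gam' β (q + t' / β ^ 2) with hD
    have a8 := sq_le_of_le_abs (x := max (-kap S m) 0) (D := D) (e := (12 * C * β ^ 2 + 1) * η ^ 2)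
      (le_max_right _ _) (max_le ((neg_le_abs _).trans (abs_kap_le hn0 hβ S hm)) (by positivity))
      (by positivity) (max_le (by linarith [neg_abs_le D, abs_le.1 a6]) (by positivity))
    set s := max (qq m) P.b + t / β ^ 2 with hs
    have hs0 : 0 ≤ s := add_nonneg (hqm.1.trans (le_max_left _ _)) (by positivity)
    have g1 := h.Gam_lip hβ0 (add_nonneg hq0.1 hu) hs0
    have g2 : β ^ 2 * |q + t' / β ^ 2 - s| ≤ (β ^ 2 + t) * η ^ 2 := by
      rw [← abs_of_pos (by positivity : 0 < β ^ 2), ← abs_mul, abs_of_pos (by positivity : 0 < β ^ 2),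
        show β ^ 2 * (q + t' / β ^ 2 - s) = β ^ 2 * (q - max (qq m) P.b) + (t' - t) by
          rw [hs]; field_simp; ring]
      exact abs_le.2 ⟨by nlinarith, by nlinarith⟩
    set D' := qq m - P.Gam β (q + t' / β ^ 2) with hD'
    have a8' := sq_le_of_le_abs (x := |qq m - P.Gam β s|) (D := D') (B := 1)
      (e := (β ^ 2 + t) * η ^ 2) (abs_nonneg _) (abs_le.2
        ⟨by linarith [hqm.1, h.Gam_le_one β s], by linarith [hqm.2, h.Gam_nonneg β s]⟩)
      (by positivity) (abs_le.2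
        ⟨by linarith [neg_abs_le D', abs_le.1 g1], by linarith [le_abs_self D', abs_le.1 g1]⟩)
    rw [sq_abs] at a8'
    have a9 : c * (max (-kap S m) 0 ^ 2 + (qq m - P.Gam β s) ^ 2) ≤ c * D ^ 2 + c * D' ^ 2 +
        (C4 + 32 + 2 * β ^ 2) * (1 + t) * η ^ 2 := by
      have b1 := mul_le_mul_of_nonneg_left (add_le_add a8 a8') hcp.le
      have b2 := mul_le_mul_of_nonneg_right hc1
        (show 0 ≤ C4 * η ^ 2 + 2 * ((β ^ 2 + t) * η ^ 2) by positivity)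
      have b3 : 0 ≤ (C4 + 30 + 2 * β ^ 2) * t * η ^ 2 := by positivity
      rw [hC4] at b2 b3 ⊢
      nlinarith
    nlinarith [mul_le_mul_of_nonneg_left a9 hn'.le]

end Crest.Agent.T157.Sc

end
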