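import Crest.Agent.T157.SLE_23
import Crest.Agent.T157.ConcG_16
import Crest.Agent.T157.NrmG_84

-- ▼ part T157/SlaA_4
section

/-!
# Row 157, part D (helper4): one good path of the stochastic localisation, general tools

`path` (one path that realises all first-moment bounds at once), good times, overlaps of
consecutive barycentres, pair variance, increments, planted Markov inequality, scalar channel.
-/

set_option autoImplicit false
set_option linter.unusedSectionVars false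

noncomputable section

namespace Crest.Agent.T157.Sla

open MeasureTheory ProbabilityTheory Filter Topology Set Real Matrix
open Crest.Agent.T157.E Crest.Agent.T157.SL
open Crest.Agent.T157.Conc (en ELip)
open Crest.ProbabilityR.SpinGlassDynamics (spin)

section general
variable {Ω ι : Type*} [Fintype Ω] [Fintype ι] [DecidableEq ι] {φ : Ω → ι → ℝ} {v w f : Ω → ℝ}
  {s t : ℝ}

theorem exists_le_slE (hv : Wt v) (s : ℝ) {K : (ι → ℝ) → ℝ} (h : MG K) :
    ∃ y, K y ≤ slE φ v s fun _ => K := by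
  have := isProb_law (φ := φ) (s := s) hv
  rw [← integral_law hv h.meas (.of_mg fun _ => h)]
  exact exists_le_integral h.int_law

theorem mg_shift {K : (ι → ℝ) → ℝ} (h : MG K) (u : ι → ℝ) : MG fun z => K (u + z) := by
  simpa using h.affine u 1

/-- conditional expectations are again of exponential growth -/
theorem mg_cond (hv : Wt v) (s r : ℝ) {K : (ι → ℝ) → ℝ} (h : MG K) :
    MG fun y => slE φ (post φ v s y) r fun _ z => K (y + z) :=
  mg_mean hv s fun x => h.conv (r • φ x) √r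

/-- **One path below the mean.** `F j` = costs at the times `t j`, `G i y` = cost of the increment
after the time `t i` at the position `y` (no measurability in `y`). -/
theorem path (N : ℕ) : ∀ (v : Ω → ℝ) (_ : Wt v) (t : ℕ → ℝ) (_ : t 0 = 0) (_ : Monotone t)
    (F : ℕ → (ι → ℝ) → ℝ) (_ : ∀ j, MG (F j)) (G : ℕ → (ι → ℝ) → (ι → ℝ) → ℝ)
    (_ : ∀ i y, MG (G i y)) (g : ℕ → ℝ)
    (_ : ∀ i < N, ∀ y, (slE φ (post φ v (t i) y) (t (i + 1) - t i) fun _ => G i y) ≤ g i),
    ∃ y : ℕ → ι → ℝ, y 0 = 0 ∧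
      ∑ j ∈ Finset.range (N + 1), F j (y j) + ∑ i ∈ Finset.range N, G i (y i) (y (i + 1) - y i) ≤
        ∑ j ∈ Finset.range (N + 1), (slE φ v (t j) fun _ => F j) + ∑ i ∈ Finset.range N, g i := by
  induction N with
  | zero =>
    intro v hv t t0 _ F _ G _ g _
    refine ⟨fun _ => 0, rfl, ?_⟩
    simp only [zero_add, Finset.range_one, Finset.sum_singleton, Finset.range_zero,
      Finset.sum_empty, add_zero, t0, slE_zero, hv.mean_const, le_refl]
  | succ N ih =>
    intro v hv t t0 ht F hF G hG g hg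
    have t1 : 0 ≤ t 1 := t0 ▸ ht (Nat.zero_le 1)
    have hK : ∀ j, MG fun z => slE φ (post φ v (t 1) z) (t (j + 1) - t 1) fun _ y =>
        F (j + 1) (z + y) := fun j => mg_cond hv _ _ (hF _)
    obtain ⟨z, hz⟩ := exists_le_slE (φ := φ) hv (t 1)
      ((hG 0 0).add (MG.sum (Finset.range (N + 1)) fun j _ => hK j))
    rw [slE_add (.of_mg fun _ => hG 0 0) (.of_mg fun _ => MG.sum _ fun j _ => hK j),
      slE_sum _ fun j _ => .of_mg fun _ => hK j] at hz
    have e1 : ∀ j, (slE φ v (t 1) fun _ z => slE φ (post φ v (t 1) z) (t (j + 1) - t 1) fun _ y =>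
        F (j + 1) (z + y)) = slE φ v (t (j + 1)) fun _ => F (j + 1) := fun j => by
      rw [← markov hv t1 (sub_nonneg.2 (ht (Nat.le_add_left 1 j))) fun _ => hF (j + 1),
        add_sub_cancel]
    simp only [e1] at hz
    have g0 := hg 0 (Nat.succ_pos N) 0
    rw [t0, post_zero, zero_add, sub_zero] at g0
    obtain ⟨y, y0, hy⟩ := ih (post φ v (t 1) z) (hv.post _ _ _) (fun j => t (j + 1) - t 1)
      (by simp) (fun a b hab => sub_le_sub_right (ht (Nat.succ_le_succ hab)) _)
      (fun j y => F (j + 1) (z + y)) (fun j => mg_shift (hF _) z)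
      (fun i y => G (i + 1) (z + y)) (fun i y => hG _ _) (fun i => g (i + 1)) fun i hi y => by
        rw [post_post, add_sub_cancel, sub_sub_sub_cancel_right]
        exact hg (i + 1) (Nat.succ_lt_succ hi) _
    obtain ⟨Y, Y0, Y1⟩ : ∃ Y : ℕ → ι → ℝ, Y 0 = 0 ∧ ∀ j, Y (j + 1) = z + y j :=
      ⟨fun k => Nat.casesOn k 0 fun j => z + y j, rfl, fun _ => rfl⟩
    refine ⟨Y, Y0, ?_⟩
    rw [Finset.sum_range_succ' (fun j => F j (Y j)) (N + 1),
      Finset.sum_range_succ' (fun i => G i (Y i) (Y (i + 1) - Y i)) N,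
      Finset.sum_range_succ' (fun j => slE φ v (t j) fun _ => F j) (N + 1),
      Finset.sum_range_succ' g N]
    simp only [Y0, Y1, add_sub_add_left_eq_sub, y0, add_zero, sub_zero, t0, slE_zero,
      hv.mean_const]
    linarith

/-- squared Frobenius norm of the covariance matrix -/
def fr (φ : Ω → ι → ℝ) (w : Ω → ℝ) : ℝ := ∑ i, ∑ j, covMat w φ i j ^ 2
/-- trace of the covariance matrix -/
def trc (φ : Ω → ι → ℝ) (w : Ω → ℝ) : ℝ := ∑ i, covMat w φ i i

theorem fr_nonneg (φ : Ω → ι → ℝ) (w : Ω → ℝ) : 0 ≤ fr φ w := by unfold fr; positivity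

theorem trc_nonneg (hw : Wt w) : 0 ≤ trc φ w :=
  Finset.sum_nonneg fun i _ => by
    have := hw.var_nonneg fun x => φ x i
    rwa [var_eq_cov] at this

theorem eg_fr (hw : Wt w) (I : Set ℝ) : EG I fun p => fr φ (pw φ w p) :=
  EG.sum _ fun _ _ => EG.sum _ fun _ _ => (eg_cov hw _ _).pow 2

theorem eg_trc (hw : Wt w) (I : Set ℝ) : EG I fun p => trc φ (pw φ w p) :=
  EG.sum _ fun _ _ => eg_cov hw _ _

theorem mg_fr (hw : Wt w) (s : ℝ) : MG fun y => fr φ (post φ w s y) :=
  (eg_fr hw univ).mg (mem_univ s)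

theorem mg_trc (hw : Wt w) (s : ℝ) : MG fun y => trc φ (post φ w s y) :=
  (eg_trc hw univ).mg (mem_univ s)

theorem ex_trc_sub (hw : Wt w) (hs : 0 ≤ s) (hst : s ≤ t) :
    ex φ w (fun p => trc φ (pw φ w p)) s - ex φ w (fun p => trc φ (pw φ w p)) t =
      ∫ r in s..t, ex φ w (fun p => fr φ (pw φ w p)) r := by
  have h := (Ito.sum (Finset.univ : Finset ι) fun i _ =>
    ito_cov (φ := φ) (I := Icc s t) hw (fun x => φ x i) fun x => φ x i).neg.ex_sub' hw hs hst
  simp only [ex_neg] at h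
  have e : ∀ r, -ex φ w (fun p => ∑ k, -(covV (pw φ w p) (fun x => φ x k) φ ⬝ᵥ
      covV (pw φ w p) (fun x => φ x k) φ)) r = ex φ w (fun p => fr φ (pw φ w p)) r := fun r => by
    rw [← ex_neg]
    refine ex_congr fun y => ?_
    simp only [Finset.sum_neg_distrib, neg_neg, fr, dotProduct, covV, covMat, sq]
  simp only [e] at h
  rw [← h]
  simp only [trc, covMat]
  ring


/-- a posterior mean fluctuates less than the observable -/
theorem slE_mean_sq_le (hw : Wt w) (ht : 0 ≤ t) (f : Ω → ℝ) :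
    (slE φ w t fun _ y => (mean (post φ w t y) f - mean w f) ^ 2) ≤ var w f := by
  have h := total_cov (φ := φ) hw (fun x => f x - mean w f) (fun x => f x - mean w f) ht
  have h0 : 0 ≤ ex φ w (fun p => cov (pw φ w p) (fun x => f x - mean w f)
      fun x => f x - mean w f) t := ex_nonneg hw fun y => by
    rw [← var_eq_cov]; exact (hw.post _ _ _).var_nonneg _
  have e : ex φ w (fun p => mean (pw φ w p) (fun x => f x - mean w f) *
      mean (pw φ w p) fun x => f x - mean w f) t =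
      slE φ w t fun _ y => (mean (post φ w t y) f - mean w f) ^ 2 := by
    unfold ex
    congr 1
    funext _ y
    simp only [mean_sub, (hw.post _ _ _).mean_const, sq]
  rw [var_eq_cov, cov_eq_mean]
  linarith

theorem quad_le_fr (w : Ω → ℝ) (u : ι → ℝ) :
    u ⬝ᵥ covMat w φ *ᵥ u ≤ √(fr φ w) * (u ⬝ᵥ u) := by
  have h := Finset.sum_mul_sq_le_sq_mul_sq (Finset.univ : Finset (ι × ι))
    (fun p => covMat w φ p.1 p.2) fun p => u p.1 * u p.2
  have e1 : ∑ p : ι × ι, covMat w φ p.1 p.2 * (u p.1 * u p.2) = u ⬝ᵥ covMat w φ *ᵥ u := by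
    simp only [Fintype.sum_prod_type, dotProduct, mulVec, Finset.mul_sum]
    exact Finset.sum_congr rfl fun i _ => Finset.sum_congr rfl fun j _ => by ring
  have e2 : ∑ p : ι × ι, (u p.1 * u p.2) ^ 2 = (u ⬝ᵥ u) ^ 2 := by
    simp only [Fintype.sum_prod_type, dotProduct, sq, Finset.sum_mul_sum]
    exact Finset.sum_congr rfl fun i _ => Finset.sum_congr rfl fun j _ => by ring
  have e3 : ∑ p : ι × ι, covMat w φ p.1 p.2 ^ 2 = √(fr φ w) ^ 2 := by
    rw [sq_sqrt (fr_nonneg _ _), fr, Fintype.sum_prod_type]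
  rw [e1, e2, e3, ← mul_pow] at h
  exact (abs_le_of_sq_le_sq' h (mul_nonneg (sqrt_nonneg _) (dot_self_nonneg u))).2

/-- second moment of the overlap of two replicas around `|m|²` -/
theorem pair_eq (hw : Wt w) :
    (mean w fun x => mean w fun x' => (φ x ⬝ᵥ φ x' - meanV w φ ⬝ᵥ meanV w φ) ^ 2) =
      fr φ w + 2 * (meanV w φ ⬝ᵥ covMat w φ *ᵥ meanV w φ) := by
  set m := meanV w φ with hm
  have e1 : ∀ x, (mean w fun x' => (φ x ⬝ᵥ φ x' - m ⬝ᵥ m) ^ 2) =
      φ x ⬝ᵥ covMat w φ *ᵥ φ x + (m ⬝ᵥ φ x - m ⬝ᵥ m) ^ 2 := fun x => by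
    have a1 : (mean w fun x' => φ x ⬝ᵥ φ x') = m ⬝ᵥ φ x := by
      rw [← meanV_dot, dotProduct_comm]
    rw [covMat_quad, hw.cov_eq, a1]
    have : (fun x' => (φ x ⬝ᵥ φ x' - m ⬝ᵥ m) ^ 2) = fun x' => (φ x ⬝ᵥ φ x') * (φ x ⬝ᵥ φ x') +
        ((-2 * (m ⬝ᵥ m)) * (φ x ⬝ᵥ φ x') + (m ⬝ᵥ m) ^ 2) := by
      funext x'; ring
    rw [this, mean_add, mean_add, mean_const_mul, a1, hw.mean_const]
    ring
  have a2 : (mean w fun x => m ⬝ᵥ φ x) = m ⬝ᵥ m := by rw [← meanV_dot]
  have e2 : (mean w fun x => (m ⬝ᵥ φ x - m ⬝ᵥ m) ^ 2) = m ⬝ᵥ covMat w φ *ᵥ m := by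
    rw [covMat_quad, cov_eq_mean, a2]
    simp only [sq]
  have e3 : (mean w fun x => φ x ⬝ᵥ covMat w φ *ᵥ φ x) = fr φ w + m ⬝ᵥ covMat w φ *ᵥ m := by
    simp only [dotProduct, mulVec, Finset.mul_sum, mean_sum, fr, ← Finset.sum_add_distrib]
    refine Finset.sum_congr rfl fun i _ => Finset.sum_congr rfl fun j _ => ?_
    have : (fun x => φ x i * (covMat w φ i j * φ x j)) =
        fun x => covMat w φ i j * (φ x i * φ x j) := by funext x; ring
    have b : covMat w φ i j = mean w (fun x => φ x i * φ x j) - m i * m j := hw.cov_eq _ _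
    rw [this, mean_const_mul, show mean w (fun x => φ x i * φ x j) = covMat w φ i j + m i * m j by
      linarith]
    ring
  simp only [e1, mean_add, e2, e3]
  ring

theorem mg_exp {L : ℝ} {F : (ι → ℝ) → ℝ} (h : ELip L F) : MG fun y => exp (F y) := by
  refine ⟨(continuous_exp.comp h.continuous).measurable, exp |F 0|, |L| * Fintype.card ι,
    (exp_pos _).le, by positivity, fun y => ?_⟩
  rw [abs_of_pos (exp_pos _), ← exp_add]
  refine exp_le_exp.2 ((le_abs_self _).trans ((h.abs_le y).trans ?_))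
  rw [mul_assoc]
  gcongr
  calc ∑ i, |y i| ≤ ∑ _i : ι, ‖y‖ := Finset.sum_le_sum fun i _ => norm_le_pi_norm y i
    _ = _ := by simp

end general

end Crest.Agent.T157.Sla

end
end

-- ▼ part T157/SlaB_4

/-!
# Row 157, part D (helper4): stochastic localisation on the cube

planted Markov identity, shift of the time, size of the increments, overlaps, scalar channel,
relative entropy of the posterior.
-/

set_option autoImplicit false
set_option linter.unusedSectionVars false

noncomputable section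

namespace Crest.Agent.T157.Sla

open MeasureTheory ProbabilityTheory Filter Topology Set Real Matrix
open Crest.Agent.T157.E Crest.Agent.T157.SL
open Crest.Agent.T157.Conc (en ELip)
open Crest.Agent.T157.Eig (nrm nrm_nonneg nrm_add_le nrm_smul nrm_sq)
open Crest.Agent.T157.Nrm (en_eq_nrm)
open Crest.ProbabilityR.SpinGlassDynamics (spin)

variable {n : ℕ} {γ μ : Cube n → ℝ} {s t h : ℝ}

/-- logarithm of the tilted partition function -/
def lz (γ : Cube n → ℝ) (y : Fin n → ℝ) : ℝ := log (Zw (tilt γ y))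

theorem nrm_sv (x : Cube n) : nrm (sv x) = √n := by rw [nrm, sv_dot_self]

theorem exp_lz (hγ : Wt γ) (y : Fin n → ℝ) : exp (lz γ y) = Zw (tilt γ y) :=
  exp_log (hγ.tilt y).pos

theorem lz_zero (γ : Cube n → ℝ) : lz γ 0 = log (Zw γ) := by rw [lz, tilt_zero]

theorem lz_le (hγ : Wt γ) (y y' : Fin n → ℝ) : lz γ y ≤ lz γ y' + √n * en (y - y') := by
  rw [← exp_le_exp, exp_add, exp_lz hγ, exp_lz hγ, Zw, Zw, Finset.sum_mul]
  refine Finset.sum_le_sum fun x _ => ?_
  rw [tilt, tilt, mul_assoc, ← exp_add]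
  refine mul_le_mul_of_nonneg_left (exp_le_exp.2 ?_) (hγ.nn x)
  have := Eig.dot_le (y - y') (sv x)
  rw [nrm_sv, sub_dotProduct, ← en_eq_nrm] at this
  linarith

theorem elip_lz (hγ : Wt γ) : ELip (√n) (lz γ) := fun y y' => by
  have h1 := lz_le hγ y y'
  have h2 := lz_le hγ y' y
  rw [Conc.en_sub_comm] at h2
  rw [abs_le]
  constructor <;> linarith

theorem mg_planted (hγ : Wt γ) {K : ℝ} {L : (Fin n → ℝ) → ℝ} (hL : ELip K L) :
    MG fun y => exp (L y - lz γ y) := by
  simpa only [sub_eq_add_neg] using mg_exp (hL.add (elip_lz hγ).neg)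

/-- **planted Markov identity** -/
theorem planted (hγ : Wt γ) (hs : 0 ≤ s) {K : ℝ} {L : (Fin n → ℝ) → ℝ} (hL : ELip K L) :
    (slE sv γ s fun _ y => exp (L y - lz γ y)) =
      exp (-(s / 2 * n) - lz γ 0) * ∫ z, exp (L (√s • z)) ∂gv (Fin n) := by
  rw [slE_eq_ref' hs (.of_mg fun _ => mg_planted hγ hL), exp_sub, exp_lz hγ, tilt_zero,
    div_mul_eq_mul_div, ← integral_const_mul]
  congr 2
  funext z
  have := (hγ.tilt (√s • z)).pos
  simp only [post_sv]
  rw [← Finset.sum_mul, ← Finset.sum_mul, exp_sub, exp_lz hγ, Zw]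
  field_simp

theorem int_en_le : ∫ z, en z ∂gv (Fin n) ≤ √n := by
  have := Nrm.integral_nrm_le (ι := Fin n)
  rw [Fintype.card_fin] at this
  simpa only [en_eq_nrm] using this

theorem elip_affine {K : ℝ} {L : (Fin n → ℝ) → ℝ} (hL : ELip K L) (u : Fin n → ℝ) (c : ℝ) :
    ELip (K * |c|) fun z => L (u + c • z) := fun z z' => by
  have := hL (u + c • z) (u + c • z')
  rwa [add_sub_add_left_eq_sub, ← smul_sub, Conc.en_smul, ← mul_assoc] at this

/-- an earlier time costs `K √(t-s) √n` in the exponent -/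
theorem shift_time (hs : 0 ≤ s) (hst : s ≤ t) {K : ℝ} (hK : 0 ≤ K) {L : (Fin n → ℝ) → ℝ}
    (hL : ELip K L) : ∫ z, exp (L (√s • z)) ∂gv (Fin n) ≤
      exp (K * √(t - s) * √n) * ∫ z, exp (L (√t • z)) ∂gv (Fin n) := by
  have hw : Wt fun _ : Unit => (1 : ℝ) := Wt.of_pos fun _ => one_pos
  have e : ∀ (v : Unit → ℝ) (_ : Wt v) (r : ℝ) (F : (Fin n → ℝ) → ℝ),
      slE (fun _ : Unit => (0 : Fin n → ℝ)) v r (fun _ => F) = ∫ z, F (√r • z) ∂gv (Fin n) := by
    intro v hv r F
    rw [slE_eq_mean]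
    simp only [smul_zero, zero_add, hv.mean_const]
  have h := markov (φ := fun _ : Unit => (0 : Fin n → ℝ)) hw hs (sub_nonneg.2 hst)
    (F := fun _ y => exp (L y)) fun _ => mg_exp hL
  rw [add_sub_cancel, e _ hw] at h
  rw [h, ← e _ hw s fun y => exp (L y), ← slE_const_mul]
  refine slE_mono hw (.of_mg fun _ => mg_exp hL)
    (.of_mg fun _ => (mg_cond hw _ _ (mg_exp hL)).const_mul _) fun _ y => ?_
  rw [e _ (hw.post _ _ _)]
  have hl := elip_affine hL y √(t - s)
  have h1 := Conc.exp_integral_le hl.integrable (by simpa using hl.integrable_exp 1)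
  have h2 : ∫ z, (L y - K * √(t - s) * en z) ∂gv (Fin n) ≤
      ∫ z, L (y + √(t - s) • z) ∂gv (Fin n) :=
    integral_mono ((integrable_const _).sub (Conc.elip_en.integrable.const_mul _)) hl.integrable
      fun z => by
        have := (abs_le.1 (hL (y + √(t - s) • z) y)).1
        rw [add_sub_cancel_left, Conc.en_smul, abs_of_nonneg (sqrt_nonneg _)] at this
        simp only
        linarith
  rw [integral_sub (integrable_const _) (Conc.elip_en.integrable.const_mul _), integral_const,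
    integral_const_mul] at h2
  simp only [probReal_univ, smul_eq_mul, one_mul] at h2
  refine le_trans ?_ (mul_le_mul_of_nonneg_left h1 (exp_pos _).le)
  rw [← exp_add, exp_le_exp]
  have := mul_le_mul_of_nonneg_left (int_en_le (n := n)) (mul_nonneg hK (sqrt_nonneg (t - s)))
  linarith

/-- planted Markov bound at an earlier time -/
theorem planted_le (hγ : Wt γ) (hs : 0 ≤ s) (hst : s ≤ t) {L : (Fin n → ℝ) → ℝ}
    (hL : ELip (√n) L) {a : ℝ} (ha : ∫ z, exp (L (√t • z)) ∂gv (Fin n) ≤ exp (a + n * t / 2)) :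
    (slE sv γ s fun _ y => exp (L y - lz γ y)) ≤
      exp (a - lz γ 0 + n * ((t - s) / 2 + √(t - s))) := by
  rw [planted hγ hs hL]
  refine (mul_le_mul_of_nonneg_left ((shift_time hs hst (sqrt_nonneg _) hL).trans
    (mul_le_mul_of_nonneg_left ha (exp_pos _).le)) (exp_pos _).le).trans (le_of_eq ?_)
  rw [← exp_add, ← exp_add]
  congr 1
  have : √n * √n = (n : ℝ) := mul_self_sqrt (Nat.cast_nonneg n)
  linear_combination √(t - s) * this





theorem mag_dot_le (hγ : Wt γ) : mag γ ⬝ᵥ mag γ ≤ n := by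
  calc mag γ ⬝ᵥ mag γ ≤ ∑ _i : Fin n, (1 : ℝ) := Finset.sum_le_sum fun i _ => by
        have := hγ.abs_mean_le (f := fun x => sv x i) (c := 1) fun x => (abs_spin _).le
        exact abs_le_one_iff_mul_self_le_one.1 this
    _ = n := by simp

theorem trc_eq (hγ : Wt γ) : trc sv γ = n - mag γ ⬝ᵥ mag γ := by
  have : ∀ i, covMat γ sv i i = 1 - mag γ i * mag γ i := fun i => by
    rw [covMat, hγ.cov_eq]
    simp only [sv, spin_mul_self, hγ.mean_const, mag, meanV]
  simp only [trc, this, Finset.sum_sub_distrib, dotProduct]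
  simp

theorem trc_le (hγ : Wt γ) : trc sv γ ≤ n := by
  rw [trc_eq hγ]; linarith [dot_self_nonneg (mag γ)]


theorem fr_post (γ : Cube n → ℝ) (s : ℝ) (y : Fin n → ℝ) :
    fr sv (post sv γ s y) = fr sv (tilt γ y) := by
  simp only [fr, covMat_post_sv, covM]


theorem slE_post (γ : Cube n → ℝ) (s : ℝ) (y : Fin n → ℝ) (h : ℝ)
    (F : Cube n → (Fin n → ℝ) → ℝ) : slE sv (post sv γ s y) h F = slE sv (tilt γ y) h F := by
  simp only [slE, prob_post_sv]

/-- the overlap with a fixed vector -/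
def ovc (γ : Cube n → ℝ) (u z : Fin n → ℝ) : ℝ := (u ⬝ᵥ (mag (tilt γ z) - mag γ)) ^ 2

theorem ovc_eq (γ : Cube n → ℝ) (u : Fin n → ℝ) (h : ℝ) : ovc γ u = fun z =>
    (mean (post sv γ h z) (fun x => u ⬝ᵥ sv x) - mean γ fun x => u ⬝ᵥ sv x) ^ 2 := by
  funext z
  rw [ovc, dotProduct_sub, mag, mag, meanV_dot, meanV_dot, mean_post_sv]

theorem mg_ovc (hγ : Wt γ) (u : Fin n → ℝ) : MG (ovc γ u) := by
  rw [ovc_eq γ u 0]
  have := (mg_mean (φ := sv) hγ 0 fun x => MG.const (u ⬝ᵥ sv x)).sub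
    (MG.const (mean γ fun x => u ⬝ᵥ sv x))
  simpa only [sq] using this.mul this

theorem slE_ovc (hγ : Wt γ) (hh : 0 ≤ h) (u : Fin n → ℝ) :
    (slE sv γ h fun _ => ovc γ u) ≤ u ⬝ᵥ covM γ *ᵥ u := by
  rw [ovc_eq γ u h, covM, covMat_quad, ← var_eq_cov]
  exact slE_mean_sq_le hγ hh _





end Crest.Agent.T157.Sla

end
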