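import Crest.Agent.T157.EigN_84
import Crest.Agent.T157.CondA_53
import Crest.Agent.T157.ConcG_16

/-!
Row 157 (helper98), freeness with diagonals, part A: complex matrix norms, the resolvent
`res d W = (diag d - W)⁻¹`, its derivative along the GOE coordinates, Lipschitz bounds.
-/

set_option autoImplicit false

noncomputable section

namespace Crest.Agent.T157.Fr

open Matrix Finset MeasureTheory
open Crest.Agent.T157.Eig Crest.Agent.T157.Cond Crest.Agent.T157.Conc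

variable {ι : Type*} [Fintype ι] [DecidableEq ι]

/-! ### norms -/

/-- Euclidean norm of a complex vector -/
def cn (v : ι → ℂ) : ℝ := √(∑ i, ‖v i‖ ^ 2)

omit [DecidableEq ι] in
lemma cn_nonneg (v : ι → ℂ) : 0 ≤ cn v := Real.sqrt_nonneg _
omit [DecidableEq ι] in
lemma cn_sq (v : ι → ℂ) : cn v ^ 2 = ∑ i, ‖v i‖ ^ 2 := Real.sq_sqrt (by positivity)
omit [DecidableEq ι] in
lemma cn_eq_norm (v : ι → ℂ) : cn v = ‖(WithLp.toLp 2 v : EuclideanSpace ℂ ι)‖ := by
  rw [EuclideanSpace.norm_eq]; rfl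
omit [DecidableEq ι] in
lemma cn_add_le (u v : ι → ℂ) : cn (u + v) ≤ cn u + cn v := by
  simp only [cn_eq_norm, WithLp.toLp_add]; exact norm_add_le _ _
omit [DecidableEq ι] in
lemma cn_sub_le (u v : ι → ℂ) : cn (u - v) ≤ cn u + cn v := by
  simp only [cn_eq_norm, WithLp.toLp_sub]; exact norm_sub_le _ _
omit [DecidableEq ι] in
lemma cn_smul (c : ℂ) (v : ι → ℂ) : cn (c • v) = ‖c‖ * cn v := by
  simp only [cn_eq_norm, WithLp.toLp_smul]; exact norm_smul _ _
omit [DecidableEq ι] in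
lemma norm_le_cn (v : ι → ℂ) (i : ι) : ‖v i‖ ≤ cn v :=
  Real.le_sqrt_of_sq_le (single_le_sum (f := fun i => ‖v i‖ ^ 2) (fun _ _ => sq_nonneg _)
    (mem_univ i))
omit [DecidableEq ι] in
lemma cn_le_of_sq {v : ι → ℂ} {c : ℝ} (hc : 0 ≤ c) (h : ∑ i, ‖v i‖ ^ 2 ≤ c ^ 2) : cn v ≤ c :=
  Real.sqrt_le_iff.2 ⟨hc, h⟩
omit [DecidableEq ι] in
lemma cn_le_of_bound {v : ι → ℂ} {c : ℝ} (hc : 0 ≤ c) (h : ∀ i, ‖v i‖ ≤ c) :
    cn v ≤ √(Fintype.card ι) * c := by
  refine cn_le_of_sq (by positivity) ?_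
  rw [mul_pow, Real.sq_sqrt (Nat.cast_nonneg _)]
  calc ∑ i, ‖v i‖ ^ 2 ≤ ∑ _i : ι, c ^ 2 :=
        sum_le_sum fun i _ => pow_le_pow_left₀ (norm_nonneg _) (h i) 2
    _ = _ := by simp
omit [DecidableEq ι] in
lemma sum_mul_le_cn (u v : ι → ℂ) : ∑ i, ‖u i‖ * ‖v i‖ ≤ cn u * cn v := by
  have := Real.sum_mul_le_sqrt_mul_sqrt univ (fun i => ‖u i‖) (fun i => ‖v i‖)
  exact this
omit [DecidableEq ι] in
lemma norm_sum_mul_le (u v : ι → ℂ) : ‖∑ i, u i * v i‖ ≤ cn u * cn v :=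
  (norm_sum_le _ _).trans (by simpa only [norm_mul] using sum_mul_le_cn u v)
omit [DecidableEq ι] in
lemma sum_norm_le_cn (v : ι → ℂ) : ∑ i, ‖v i‖ ≤ √(Fintype.card ι) * cn v := by
  have := sum_mul_le_cn (fun _ => (1 : ℂ)) v
  simp only [norm_one, one_mul] at this
  refine this.trans (mul_le_mul_of_nonneg_right ?_ (cn_nonneg v))
  simpa using cn_le_of_bound (v := fun _ : ι => (1 : ℂ)) zero_le_one fun _ => by simp
lemma cn_single (i : ι) : cn (Pi.single i (1 : ℂ)) = 1 := by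
  rw [cn, Finset.sum_eq_single i] <;> simp +contextual [Pi.single_apply]

open scoped Matrix.Norms.L2Operator in
/-- operator norm of a complex matrix -/
def cop (A : Matrix ι ι ℂ) : ℝ := ‖A‖

section cop
open scoped Matrix.Norms.L2Operator
lemma cop_nonneg (A : Matrix ι ι ℂ) : 0 ≤ cop A := norm_nonneg A
@[simp] lemma cop_zero : cop (0 : Matrix ι ι ℂ) = 0 := norm_zero
lemma cop_smul (c : ℂ) (A : Matrix ι ι ℂ) : cop (c • A) = ‖c‖ * cop A := norm_smul c A
lemma cop_mul_le (A B : Matrix ι ι ℂ) : cop (A * B) ≤ cop A * cop B := l2_opNorm_mul A B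
lemma cop_conjTranspose (A : Matrix ι ι ℂ) : cop Aᴴ = cop A := l2_opNorm_conjTranspose A
lemma cn_mulVec_le (A : Matrix ι ι ℂ) (v : ι → ℂ) : cn (A *ᵥ v) ≤ cop A * cn v := by
  have := l2_opNorm_mulVec A (WithLp.toLp 2 v)
  rw [cn_eq_norm, cn_eq_norm]
  exact this
lemma cop_le_of_cn {A : Matrix ι ι ℂ} {c : ℝ} (hc : 0 ≤ c)
    (h : ∀ v, cn (A *ᵥ v) ≤ c * cn v) : cop A ≤ c := by
  rw [cop, l2_opNorm_def]
  refine ContinuousLinearMap.opNorm_le_bound _ hc fun x => ?_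
  have := h x.ofLp
  rw [cn_eq_norm, cn_eq_norm] at this
  exact this
lemma cop_diagonal_le {d : ι → ℂ} {c : ℝ} (hc : 0 ≤ c) (h : ∀ i, ‖d i‖ ≤ c) :
    cop (diagonal d) ≤ c := by
  rw [cop, l2_opNorm_diagonal]
  exact (pi_norm_le_iff_of_nonneg hc).2 h
end cop


lemma cop_mul_le' {A B : Matrix ι ι ℂ} {a b : ℝ} (hA : cop A ≤ a) (hB : cop B ≤ b) :
    cop (A * B) ≤ a * b :=
  (cop_mul_le A B).trans (mul_le_mul hA hB (cop_nonneg B) ((cop_nonneg A).trans hA))

omit [DecidableEq ι] in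
lemma cn_star (v : ι → ℂ) : cn (star v) = cn v := by simp [cn]

lemma cop_transpose (A : Matrix ι ι ℂ) : cop Aᵀ = cop A := by
  have key : ∀ B : Matrix ι ι ℂ, cop Bᵀ ≤ cop B := fun B =>
    cop_le_of_cn (cop_nonneg B) fun v => by
      have h : Bᵀ *ᵥ v = star (Bᴴ *ᵥ star v) := by
        ext i; simp [mulVec, dotProduct]
      rw [h, cn_star, ← cop_conjTranspose B, ← cn_star v]
      exact cn_mulVec_le _ _
  exact le_antisymm (key A) (by simpa using key Aᵀ)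

lemma cn_col_le (A : Matrix ι ι ℂ) (j : ι) : cn (fun i => A i j) ≤ cop A := by
  have := cn_mulVec_le A (Pi.single j 1)
  rw [cn_single, mul_one] at this
  convert this using 2
  ext i; simp

lemma entry_le (A : Matrix ι ι ℂ) (i j : ι) : ‖A i j‖ ≤ cop A :=
  (norm_le_cn (fun i => A i j) i).trans (cn_col_le A j)

lemma trace_le (A : Matrix ι ι ℂ) : ‖A.trace‖ ≤ Fintype.card ι * cop A := by
  refine (norm_sum_le _ _).trans ?_
  calc ∑ i, ‖A.diag i‖ ≤ ∑ _i : ι, cop A := sum_le_sum fun i _ => entry_le A i i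
    _ = _ := by simp

/-- Frobenius norm -/
def hs (A : Matrix ι ι ℂ) : ℝ := √(∑ i, ∑ j, ‖A i j‖ ^ 2)

omit [DecidableEq ι] in
lemma hs_nonneg (A : Matrix ι ι ℂ) : 0 ≤ hs A := Real.sqrt_nonneg _
omit [DecidableEq ι] in
lemma hs_sq (A : Matrix ι ι ℂ) : hs A ^ 2 = ∑ i, ∑ j, ‖A i j‖ ^ 2 := Real.sq_sqrt (by positivity)
omit [DecidableEq ι] in
lemma hs_transpose (A : Matrix ι ι ℂ) : hs Aᵀ = hs A := by
  simp only [hs, transpose_apply]; rw [sum_comm]

lemma hs_mul_le (P X : Matrix ι ι ℂ) : hs (P * X) ≤ cop P * hs X := by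
  refine Real.sqrt_le_iff.2 ⟨mul_nonneg (cop_nonneg P) (hs_nonneg X), ?_⟩
  rw [mul_pow, hs_sq, sum_comm, sum_comm (f := fun i j => ‖X i j‖ ^ 2), mul_sum]
  refine sum_le_sum fun j _ => ?_
  have h := cn_mulVec_le P (fun i => X i j)
  have h2 := pow_le_pow_left₀ (cn_nonneg _) h 2
  rw [mul_pow, cn_sq, cn_sq] at h2
  exact h2

lemma hs_mul_le' (X Q : Matrix ι ι ℂ) : hs (X * Q) ≤ hs X * cop Q := by
  rw [← hs_transpose, transpose_mul, mul_comm, ← cop_transpose Q, ← hs_transpose X]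
  exact hs_mul_le _ _

omit [DecidableEq ι] in
lemma cn_diag_le (A : Matrix ι ι ℂ) : cn A.diag ≤ hs A :=
  Real.sqrt_le_sqrt (sum_le_sum fun i _ =>
    single_le_sum (f := fun j => ‖A i j‖ ^ 2) (fun _ _ => sq_nonneg _) (mem_univ i))

lemma cop_le_hs (A : Matrix ι ι ℂ) : cop A ≤ hs A := by
  refine cop_le_of_cn (hs_nonneg A) fun v => cn_le_of_sq (mul_nonneg (hs_nonneg A) (cn_nonneg v)) ?_
  rw [mul_pow, hs_sq, sum_mul]
  refine sum_le_sum fun i _ => ?_
  have h := pow_le_pow_left₀ (norm_nonneg _) (norm_sum_mul_le (A i) v) 2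
  rw [mul_pow, cn_sq (A i)] at h
  exact h

lemma cn_diag_mul3 (P X Q : Matrix ι ι ℂ) : cn (P * X * Q).diag ≤ cop P * hs X * cop Q :=
  (cn_diag_le _).trans ((hs_mul_le' _ _).trans
    (mul_le_mul_of_nonneg_right (hs_mul_le P X) (cop_nonneg Q)))

lemma cn_diag_le_cop (A : Matrix ι ι ℂ) : cn A.diag ≤ √(Fintype.card ι) * cop A :=
  cn_le_of_bound (cop_nonneg A) fun i => entry_le A i i

/-- complexification -/
def cx (W : Matrix ι ι ℝ) : Matrix ι ι ℂ := W.map fun x => (x : ℂ)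

omit [Fintype ι] [DecidableEq ι] in
@[simp] lemma cx_apply (W : Matrix ι ι ℝ) (i j : ι) : cx W i j = (W i j : ℂ) := rfl
omit [Fintype ι] [DecidableEq ι] in
lemma cx_sub (W W' : Matrix ι ι ℝ) : cx (W - W') = cx W - cx W' := by ext; simp
omit [Fintype ι] [DecidableEq ι] in
lemma cx_add (W W' : Matrix ι ι ℝ) : cx (W + W') = cx W + cx W' := by ext; simp
omit [Fintype ι] [DecidableEq ι] in
lemma cx_smul (c : ℝ) (W : Matrix ι ι ℝ) : cx (c • W) = (c : ℂ) • cx W := by ext; simp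
omit [Fintype ι] [DecidableEq ι] in
lemma cx_transpose (W : Matrix ι ι ℝ) : (cx W)ᵀ = cx Wᵀ := rfl
omit [DecidableEq ι] in
lemma cx_mul (W W' : Matrix ι ι ℝ) : cx (W * W') = cx W * cx W' := by
  ext; simp [mul_apply]
omit [Fintype ι] in
lemma cx_one : cx (1 : Matrix ι ι ℝ) = 1 := by
  ext i j; by_cases h : i = j <;> simp [one_apply, h]
omit [Fintype ι] in
lemma cx_diagonal (d : ι → ℝ) : cx (diagonal d) = diagonal fun i => (d i : ℂ) := by
  ext i j; by_cases h : i = j <;> simp [diagonal_apply, h]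

lemma cop_cx_le (W : Matrix ι ι ℝ) : cop (cx W) ≤ opn W := by
  refine cop_le_of_cn (opn_nonneg W) fun v => cn_le_of_sq (mul_nonneg (opn_nonneg W) (cn_nonneg v)) ?_
  have h1 := mulVec_dot_le W (fun i => (v i).re)
  have h2 := mulVec_dot_le W (fun i => (v i).im)
  have e1 : ∑ i, ‖(cx W *ᵥ v) i‖ ^ 2 =
      (W *ᵥ fun i => (v i).re) ⬝ᵥ (W *ᵥ fun i => (v i).re) +
      (W *ᵥ fun i => (v i).im) ⬝ᵥ (W *ᵥ fun i => (v i).im) := by
    simp only [dotProduct, ← sum_add_distrib]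
    refine sum_congr rfl fun i _ => ?_
    rw [Complex.sq_norm, Complex.normSq_apply]
    simp [mulVec, dotProduct]
  have e2 : cn v ^ 2 = (fun i => (v i).re) ⬝ᵥ (fun i => (v i).re) +
      (fun i => (v i).im) ⬝ᵥ (fun i => (v i).im) := by
    rw [cn_sq]
    simp only [dotProduct, ← sum_add_distrib]
    refine sum_congr rfl fun i _ => ?_
    rw [Complex.sq_norm, Complex.normSq_apply]
  rw [e1, mul_pow, e2]
  linarith

lemma opn_le_cop (W : Matrix ι ι ℝ) : opn W ≤ cop (cx W) := by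
  refine opn_le_of_nrm (cop_nonneg _) fun v => ?_
  have h := cn_mulVec_le (cx W) (fun i => (v i : ℂ))
  have e : ∀ u : ι → ℝ, cn (fun i => (u i : ℂ)) = nrm u := fun u => by
    simp [cn, nrm, dotProduct, sq]
  have e2 : cx W *ᵥ (fun i => (v i : ℂ)) = fun i => (((W *ᵥ v) i : ℝ) : ℂ) := by
    ext i; simp [mulVec, dotProduct]
  rwa [e2, e, e] at h

lemma cop_cx (W : Matrix ι ι ℝ) : cop (cx W) = opn W := le_antisymm (cop_cx_le W) (opn_le_cop W)

lemma cx_inv (A : Matrix ι ι ℝ) : cx A⁻¹ = (cx A)⁻¹ := by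
  by_cases h : IsUnit A.det
  · refine (inv_eq_left_inv ?_).symm
    rw [← cx_mul, nonsing_inv_mul _ h, cx_one]
  · have h2 : ¬ IsUnit (cx A).det := by
      have : (cx A).det = (A.det : ℂ) := by
        have := (RingHom.map_det Complex.ofRealHom A).symm
        exact this
      rw [this, isUnit_iff_ne_zero, Complex.ofReal_ne_zero, ← isUnit_iff_ne_zero]
      exact h
    rw [nonsing_inv_apply_not_isUnit _ h, nonsing_inv_apply_not_isUnit _ h2]
    ext; simp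

/-! ### invertibility from a lower bound -/

lemma unit_of_lower {Z : Matrix ι ι ℂ} {c : ℝ} (hc : 0 < c) (h : ∀ v, c * cn v ≤ cn (Z *ᵥ v)) :
    IsUnit Z.det := by
  rw [← isUnit_iff_isUnit_det, ← mulVec_injective_iff_isUnit]
  intro u v huv
  have h1 := h (u - v)
  rw [mulVec_sub, show Z *ᵥ u = Z *ᵥ v from huv, sub_self] at h1
  have h0 : cn (0 : ι → ℂ) = 0 := by simp [cn]
  rw [h0] at h1
  have h2 : cn (u - v) ≤ 0 := by
    by_contra hh
    push Not at hh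
    nlinarith
  ext i
  have := (norm_le_cn (u - v) i).trans h2
  simpa [sub_eq_zero] using this

lemma cop_inv_le_of_lower {Z : Matrix ι ι ℂ} {c : ℝ} (hc : 0 < c)
    (h : ∀ v, c * cn v ≤ cn (Z *ᵥ v)) : cop Z⁻¹ ≤ 1 / c := by
  refine cop_le_of_cn (by positivity) fun v => ?_
  have h1 := h (Z⁻¹ *ᵥ v)
  rw [mulVec_mulVec, mul_nonsing_inv _ (unit_of_lower hc h), one_mulVec] at h1
  rw [div_mul_eq_mul_div, one_mul, le_div_iff₀ hc]
  linarith

/-- perturbation of an inverse -/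
lemma lower_of_inv {Z : Matrix ι ι ℂ} (hZ : IsUnit Z.det) {L : ℝ} (hL : cop Z⁻¹ ≤ L) (v : ι → ℂ) :
    cn v ≤ L * cn (Z *ᵥ v) := by
  have h1 := cn_mulVec_le Z⁻¹ (Z *ᵥ v)
  rw [mulVec_mulVec, nonsing_inv_mul _ hZ, one_mulVec] at h1
  exact h1.trans (mul_le_mul_of_nonneg_right hL (cn_nonneg _))

lemma perturb {Z Z' : Matrix ι ι ℂ} (hZ : IsUnit Z.det) {L : ℝ} (hL0 : 0 < L) (hL : cop Z⁻¹ ≤ L)
    (h : cop (Z' - Z) * L ≤ 1 / 2) : IsUnit Z'.det ∧ cop Z'⁻¹ ≤ 2 * L := by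
  have key : ∀ v, 1 / (2 * L) * cn v ≤ cn (Z' *ᵥ v) := fun v => by
    have h1 := lower_of_inv hZ hL v
    have h2 : Z *ᵥ v = Z' *ᵥ v - (Z' - Z) *ᵥ v := by rw [sub_mulVec]; abel
    have h3 := cn_sub_le (Z' *ᵥ v) ((Z' - Z) *ᵥ v)
    have h4 := cn_mulVec_le (Z' - Z) v
    rw [← h2] at h3
    have h5 : L * (cop (Z' - Z) * cn v) ≤ 1 / 2 * cn v := by
      nlinarith [cn_nonneg v]
    rw [div_mul_eq_mul_div, one_mul, div_le_iff₀ (by positivity)]
    nlinarith
  refine ⟨unit_of_lower (by positivity) key, ?_⟩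
  simpa using cop_inv_le_of_lower (by positivity) key

lemma inv_sub_inv' {Z Z' : Matrix ι ι ℂ} (hZ : IsUnit Z.det) (hZ' : IsUnit Z'.det) :
    Z⁻¹ - Z'⁻¹ = Z⁻¹ * (Z' - Z) * Z'⁻¹ := by
  rw [Matrix.mul_sub, nonsing_inv_mul _ hZ, Matrix.sub_mul, Matrix.mul_assoc,
    mul_nonsing_inv _ hZ', Matrix.mul_one, Matrix.one_mul]

/-! ### the resolvent -/

/-- `diag d - W` -/
def Zm (d : ι → ℂ) (W : Matrix ι ι ℝ) : Matrix ι ι ℂ := diagonal d - cx W

/-- the resolvent `(diag d - W)⁻¹` -/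
def res (d : ι → ℂ) (W : Matrix ι ι ℝ) : Matrix ι ι ℂ := (Zm d W)⁻¹

omit [Fintype ι] in
lemma Zm_transpose (d : ι → ℂ) {W : Matrix ι ι ℝ} (hW : Wᵀ = W) : (Zm d W)ᵀ = Zm d W := by
  rw [Zm, transpose_sub, diagonal_transpose, cx_transpose, hW]

lemma res_transpose (d : ι → ℂ) {W : Matrix ι ι ℝ} (hW : Wᵀ = W) : (res d W)ᵀ = res d W := by
  rw [res, transpose_nonsing_inv, Zm_transpose d hW]

omit [DecidableEq ι] in
lemma im_quad_cx {W : Matrix ι ι ℝ} (hW : Wᵀ = W) (v : ι → ℂ) :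
    (∑ i, star (v i) * (cx W *ᵥ v) i).im = 0 := by
  have h : ∀ i j, W j i = W i j := fun i j => by simpa using congrFun (congrFun hW i) j
  have e : (∑ i, star (v i) * (cx W *ᵥ v) i).im =
      ∑ i, ∑ j, W i j * ((v i).re * (v j).im - (v i).im * (v j).re) := by
    simp only [mulVec, dotProduct, mul_sum, Complex.im_sum]
    refine sum_congr rfl fun i _ => sum_congr rfl fun j _ => ?_
    simp; ring
  have e2 : ∑ i, ∑ j, W i j * ((v i).re * (v j).im - (v i).im * (v j).re) =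
      -∑ i, ∑ j, W i j * ((v i).re * (v j).im - (v i).im * (v j).re) := by
    conv_lhs => rw [sum_comm]
    simp only [← sum_neg_distrib]
    refine sum_congr rfl fun i _ => sum_congr rfl fun j _ => ?_
    rw [h i j]; ring
  rw [e]; linarith

lemma im_quad_Zm (d : ι → ℂ) {W : Matrix ι ι ℝ} (hW : Wᵀ = W) (v : ι → ℂ) :
    (∑ i, star (v i) * (Zm d W *ᵥ v) i).im = ∑ i, (d i).im * ‖v i‖ ^ 2 := by
  have h := im_quad_cx hW v
  simp only [Zm, sub_mulVec, Pi.sub_apply, mul_sub, sum_sub_distrib, Complex.sub_im, h, sub_zero,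
    mulVec_diagonal, Complex.im_sum]
  refine sum_congr rfl fun i _ => ?_
  rw [Complex.sq_norm, Complex.normSq_apply]
  simp; ring

lemma lower_Zm {d : ι → ℂ} {η : ℝ} (hd : ∀ i, η ≤ (d i).im) {W : Matrix ι ι ℝ} (hW : Wᵀ = W)
    (v : ι → ℂ) : η * cn v ≤ cn (Zm d W *ᵥ v) := by
  have h1 := im_quad_Zm d hW v
  have h2 : η * cn v ^ 2 ≤ ∑ i, (d i).im * ‖v i‖ ^ 2 := by
    rw [cn_sq, mul_sum]
    exact sum_le_sum fun i _ => mul_le_mul_of_nonneg_right (hd i) (sq_nonneg _)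
  have h3 := (Complex.im_le_norm _).trans (norm_sum_mul_le (star v) (Zm d W *ᵥ v))
  rw [cn_star] at h3
  simp only [Pi.star_apply] at h3
  rcases (cn_nonneg v).eq_or_lt with h0 | h0
  · rw [← h0, mul_zero]; exact cn_nonneg _
  · refine le_of_mul_le_mul_left ?_ h0
    nlinarith

variable {d d' : ι → ℂ} {η : ℝ} {W W' : Matrix ι ι ℝ}

lemma unit_Zm (hη : 0 < η) (hd : ∀ i, η ≤ (d i).im) (hW : Wᵀ = W) : IsUnit (Zm d W).det :=
  unit_of_lower hη (lower_Zm hd hW)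

lemma cop_res_le (hη : 0 < η) (hd : ∀ i, η ≤ (d i).im) (hW : Wᵀ = W) : cop (res d W) ≤ 1 / η :=
  cop_inv_le_of_lower hη (lower_Zm hd hW)

lemma Zm_mul_res (h : IsUnit (Zm d W).det) : Zm d W * res d W = 1 := mul_nonsing_inv _ h

lemma res_sub_res (h : IsUnit (Zm d W).det) (h' : IsUnit (Zm d W').det) :
    res d W - res d W' = res d W * cx (W - W') * res d W' := by
  rw [res, res, inv_sub_inv' h h', cx_sub]
  congr 2
  simp only [Zm]; abel

lemma res_sub_res_d (h : IsUnit (Zm d W).det) (h' : IsUnit (Zm d' W).det) :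
    res d W - res d' W = res d W * diagonal (d' - d) * res d' W := by
  rw [res, res, inv_sub_inv' h h']
  congr 2
  simp only [Zm]
  ext i j; by_cases hij : i = j <;> simp [diagonal_apply, hij]

/-- Ward identity: `-Im G_ii = ∑_j Im d_j |G_ji|²` -/
lemma ward (h : IsUnit (Zm d W).det) (hW : Wᵀ = W) (i : ι) :
    -(res d W i i).im = ∑ j, (d j).im * ‖res d W j i‖ ^ 2 := by
  rw [← im_quad_Zm d hW (fun j => res d W j i)]
  have e : Zm d W *ᵥ (fun j => res d W j i) = Pi.single i 1 := by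
    ext k
    have := congrFun (congrFun (Zm_mul_res h) k) i
    rw [mul_apply] at this
    simpa [mulVec, dotProduct, one_apply, Pi.single_apply] using this
  rw [e, Finset.sum_eq_single i] <;> simp +contextual [Pi.single_apply]

lemma im_res_nonpos (hη : 0 < η) (hd : ∀ i, η ≤ (d i).im) (hW : Wᵀ = W) (i : ι) :
    (res d W i i).im ≤ 0 := by
  have := ward (unit_Zm hη hd hW) hW i
  have h2 : 0 ≤ ∑ j, (d j).im * ‖res d W j i‖ ^ 2 :=
    sum_nonneg fun j _ => mul_nonneg (hη.le.trans (hd j)) (sq_nonneg _)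
  linarith

/-! ### GOE coordinates -/

omit [Fintype ι] [DecidableEq ι] in
lemma symG_sub (s : ℝ) (x y : ι × ι → ℝ) : symG s x - symG s y = symG s (x - y) := by
  ext i j; simp [symG]; ring

omit [DecidableEq ι] in
lemma hs_symG_le (s : ℝ) (x : ι × ι → ℝ) : hs (cx (symG s x)) ≤ √2 * |s| * en x := by
  refine Real.sqrt_le_iff.2 ⟨by have := en_nonneg x; positivity, ?_⟩
  have h2 : (√2 : ℝ) ^ 2 = 2 := Real.sq_sqrt (by norm_num)
  have e : ∀ i j, ‖cx (symG s x) i j‖ ^ 2 ≤ s ^ 2 * (x (i, j) ^ 2 + x (j, i) ^ 2) := fun i j => by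
    simp only [cx_apply, symG, of_apply, Complex.norm_real, Real.norm_eq_abs, sq_abs]
    rw [mul_pow, div_pow, h2]
    nlinarith [sq_nonneg (x (i, j) - x (j, i)), sq_nonneg s]
  calc ∑ i, ∑ j, ‖cx (symG s x) i j‖ ^ 2 ≤ ∑ i, ∑ j, s ^ 2 * (x (i, j) ^ 2 + x (j, i) ^ 2) :=
        sum_le_sum fun i _ => sum_le_sum fun j _ => e i j
    _ = (√2 * |s| * en x) ^ 2 := by
      rw [mul_pow, mul_pow, h2, sq_abs, en_sq, Fintype.sum_prod_type]
      simp only [mul_add, sum_add_distrib, ← mul_sum]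
      rw [sum_comm (f := fun i j => x (j, i) ^ 2)]
      ring

/-- the direction matrix of the coordinate `p` -/
def Ap (s : ℝ) (p : ι × ι) : Matrix ι ι ℂ := cx (symG s (Pi.single p 1))

omit [Fintype ι] in
lemma symG_update (s : ℝ) (x : ι × ι → ℝ) (p : ι × ι) (t : ℝ) :
    symG s (Function.update x p t) - symG s x = (t - x p) • symG s (Pi.single p 1) := by
  rw [symG_sub]
  have : Function.update x p t - x = (t - x p) • Pi.single p (1 : ℝ) := by
    ext q; by_cases h : q = p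
    · subst h; simp
    · simp [h]
  rw [this]
  ext i j; simp [symG]; ring

omit [Fintype ι] [DecidableEq ι] in
lemma continuous_cx_symG (s : ℝ) : Continuous fun x : ι × ι → ℝ => cx (symG s x) :=
  continuous_matrix fun i j => by
    simp only [cx_apply, symG, of_apply]; fun_prop

lemma continuous_res (hη : 0 < η) (hd : ∀ i, η ≤ (d i).im) (s : ℝ) :
    Continuous fun x : ι × ι → ℝ => res d (symG s x) := by
  have h1 : Continuous fun x : ι × ι → ℝ => Zm d (symG s x) :=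
    continuous_const.sub (continuous_cx_symG s)
  have h2 : (fun x : ι × ι → ℝ => res d (symG s x)) = fun x =>
      ((Zm d (symG s x)).det)⁻¹ • (Zm d (symG s x)).adjugate := by
    ext1 x
    rw [res, Matrix.inv_def, Ring.inverse_eq_inv']
  rw [h2]
  exact (h1.matrix_det.inv₀ fun x =>
    (unit_Zm hη hd (symG_transpose s x)).ne_zero).smul h1.matrix_adjugate

lemma hasDerivAt_of_eq {f φ : ℝ → ℂ} {a : ℝ} (hφ : Continuous φ)
    (h : ∀ t, f t - f a = ((t - a : ℝ) : ℂ) * φ t) : HasDerivAt f (φ a) a := by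
  rw [hasDerivAt_iff_tendsto_slope]
  refine ((hφ.tendsto a).mono_left nhdsWithin_le_nhds).congr' ?_
  filter_upwards [self_mem_nhdsWithin] with t ht
  have ht' : ((t - a : ℝ) : ℂ) ≠ 0 := by
    exact_mod_cast sub_ne_zero.2 ht
  rw [slope_def_module, h, Complex.real_smul]
  push_cast at ht' ⊢
  field_simp

end Crest.Agent.T157.Fr
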