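import Crest.Agent.T157.CascB_65
import Crest.Agent.T157.SdAlg_49
import Crest.Agent.T157.FrA_98
import Crest.Agent.T157.ConcM_16
import Crest.Agent.T157.PsiDef_33
import Crest.Agent.T157.G1Def_52
import Crest.Agent.T157.CascP_52
import Crest.Agent.T157.CascC_65
import Crest.Agent.T157.Psi_33
import Crest.Agent.T157.PfSite_56
import Crest.Agent.T157.AnDef_51
import Crest.Agent.T157.UpDef_74
import Crest.Agent.T157.VgB_54
import Crest.Agent.T157.Sc2_68

-- ▼ part T157/SdA_12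
section

/-!
Row 157, part D (helper12): the gradient of the two-replica laws of a cascade and its evaluation on
kernels `R(x,ρ) g(ρ,y)` when the overlaps are synchronised.
-/

set_option autoImplicit false
set_option linter.unusedSectionVars false

noncomputable section

namespace Crest.Agent.T157.Sd

open Finset Real
open Crest.Agent.T157.E Crest.Agent.T157.Casc Crest.Agent.T157.SdA
open Crest.Agent.T157.SL (Wt)

variable {Ω : Type*} [Fintype Ω] {w : Ω → ℝ}

/-- law of two replicas sharing `j` levels -/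
def pl (w : Ω → ℝ) : List (Lv Ω) → ℕ → Ω → Ω → (Ω → ℝ) → ℝ
  | L, 0, x, y => fun h => P w L h x * P w L h y
  | [], _ + 1, x, y => fun h => P w [] h x * P w [] h y
  | l :: L, j + 1, x, y => tE l (X w L) (pl w L j x y)

/-- its gradient -/
def dp (w : Ω → ℝ) : List (Lv Ω) → ℕ → Ω → Ω → Ω → (Ω → ℝ) → ℝ
  | L, 0, x, y, ρ => fun h => Hs w L h x ρ * P w L h y + P w L h x * Hs w L h y ρ
  | [], _ + 1, x, y, ρ => fun h => Hs w [] h x ρ * P w [] h y + P w [] h x * Hs w [] h y ρ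
  | l :: L, j + 1, x, y, ρ => fun h =>
      tE l (X w L) (fun h => dp w L j x y ρ h + l.m * (pl w L j x y h * P w L h ρ)) h -
        l.m * (tE l (X w L) (pl w L j x y) h * P w (l :: L) h ρ)

theorem gr_pl (hw : Wt w) : ∀ (L : List (Lv Ω)) (j : ℕ) (x y : Ω),
    Gr (pl w L j x y) fun ρ => dp w L j x y ρ
  | L, 0, x, y => by
    unfold pl dp
    exact (gr_P hw L x).mul (gr_P hw L y)
  | [], _ + 1, x, y => (gr_P hw [] x).mul (gr_P hw [] y)
  | l :: L, j + 1, x, y => (gr_pl hw L j x y).tE (gr_X hw L) (lg_X hw L) l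

theorem eg_pl (hw : Wt w) (L : List (Lv Ω)) (j : ℕ) (x y : Ω) : Eg (pl w L j x y) :=
  (gr_pl hw L j x y).eg

theorem eg_dp (hw : Wt w) (L : List (Lv Ω)) (j : ℕ) (x y ρ : Ω) : Eg (dp w L j x y ρ) :=
  (gr_pl hw L j x y).eg' ρ

theorem pl_zero (L : List (Lv Ω)) (x y : Ω) (h : Ω → ℝ) :
    pl w L 0 x y h = P w L h x * P w L h y := by unfold pl; rfl

theorem dp_zero (L : List (Lv Ω)) (x y ρ : Ω) (h : Ω → ℝ) :
    dp w L 0 x y ρ h = Hs w L h x ρ * P w L h y + P w L h x * Hs w L h y ρ := by unfold dp; rfl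

theorem pl_nonneg (hw : Wt w) : ∀ (L : List (Lv Ω)) (j : ℕ) (x y : Ω) (h : Ω → ℝ),
    0 ≤ pl w L j x y h
  | L, 0, x, y, h => by rw [pl_zero]; exact mul_nonneg (P_nonneg hw L h x) (P_nonneg hw L h y)
  | [], _ + 1, x, y, h => mul_nonneg (P_nonneg hw [] h x) (P_nonneg hw [] h y)
  | l :: L, j + 1, x, y, h => tE_nonneg l _ (pl_nonneg hw L j x y) h

theorem sum_pl_snd (hw : Wt w) : ∀ (L : List (Lv Ω)) (j : ℕ) (x : Ω) (h : Ω → ℝ),
    ∑ y, pl w L j x y h = P w L h x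
  | L, 0, x, h => by simp only [pl_zero, ← mul_sum, sum_P hw, mul_one]
  | [], _ + 1, x, h => by simp only [pl, ← mul_sum, sum_P hw, mul_one]
  | l :: L, j + 1, x, h => by
    simp only [pl]
    rw [← tE_sum (lg_X hw L) _ fun y _ => eg_pl hw L j x y]
    simp only [sum_pl_snd hw L j x]
    rfl

theorem sum_pl_fst (hw : Wt w) : ∀ (L : List (Lv Ω)) (j : ℕ) (y : Ω) (h : Ω → ℝ),
    ∑ x, pl w L j x y h = P w L h y
  | L, 0, y, h => by simp only [pl_zero, ← sum_mul, sum_P hw, one_mul]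
  | [], _ + 1, y, h => by simp only [pl, ← sum_mul, sum_P hw, one_mul]
  | l :: L, j + 1, y, h => by
    simp only [pl]
    rw [← tE_sum (lg_X hw L) _ fun x _ => eg_pl hw L j x y]
    simp only [sum_pl_fst hw L j y]
    rfl

theorem pl_symm : ∀ (L : List (Lv Ω)) (j : ℕ) (x y : Ω), pl w L j x y = pl w L j y x
  | L, 0, x, y => funext fun h => by rw [pl_zero, pl_zero, mul_comm]
  | [], _ + 1, x, y => funext fun h => mul_comm _ _
  | l :: L, j + 1, x, y => by simp only [pl, pl_symm L j x y]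

/-- expectation of a kernel -/
def p2 (w : Ω → ℝ) (L : List (Lv Ω)) (j : ℕ) (K : Ω → Ω → ℝ) (h : Ω → ℝ) : ℝ :=
  ∑ x, ∑ y, pl w L j x y h * K x y

theorem eg_p2 (hw : Wt w) (L : List (Lv Ω)) (j : ℕ) (K : Ω → Ω → ℝ) : Eg (p2 w L j K) :=
  Eg.sum _ fun x _ => Eg.sum _ fun y _ => (eg_pl hw L j x y).mul_const _

theorem tE_sum2 (hw : Wt w) (l : Lv Ω) (L : List (Lv Ω)) {Φ : Ω → Ω → (Ω → ℝ) → ℝ}
    (hΦ : ∀ x y, Eg (Φ x y)) (K : Ω → Ω → ℝ) (h : Ω → ℝ) :
    tE l (X w L) (fun h => ∑ x, ∑ y, Φ x y h * K x y) h =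
      ∑ x, ∑ y, tE l (X w L) (Φ x y) h * K x y := by
  rw [tE_sum (lg_X hw L) _ fun x _ => Eg.sum _ fun y _ => (hΦ x y).mul_const _]
  refine sum_congr rfl fun x _ => ?_
  rw [tE_sum (lg_X hw L) _ fun y _ => (hΦ x y).mul_const _]
  exact sum_congr rfl fun y _ => tE_mul_const _ _ _ _ _

theorem p2_succ (hw : Wt w) (l : Lv Ω) (L : List (Lv Ω)) (j : ℕ) (K : Ω → Ω → ℝ) (h : Ω → ℝ) :
    p2 w (l :: L) (j + 1) K h = tE l (X w L) (p2 w L j K) h :=
  (tE_sum2 hw l L (eg_pl hw L j) K h).symm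

theorem pi2_eq (hw : Wt w) : ∀ (L : List (Lv Ω)) (j : ℕ) (K : Ω → Ω → ℝ) (h : Ω → ℝ),
    pi2 w L j K h = p2 w L j K h
  | L, 0, K, h => by
    simp only [pi2, p2, pl_zero, List.drop_zero]
    unfold node
    rfl
  | [], _ + 1, K, h => rfl
  | l :: L, j + 1, K, h => by
    rw [p2_succ hw, ← funext (pi2_eq hw L j K)]
    rfl

theorem p2_mono (hw : Wt w) (L : List (Lv Ω)) (j : ℕ) {K K' : Ω → Ω → ℝ}
    (e : ∀ x y, K x y ≤ K' x y) (h : Ω → ℝ) : p2 w L j K h ≤ p2 w L j K' h :=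
  sum_le_sum fun x _ => sum_le_sum fun y _ =>
    mul_le_mul_of_nonneg_left (e x y) (pl_nonneg hw L j x y h)

theorem p2_fst (hw : Wt w) (L : List (Lv Ω)) (j : ℕ) (f : Ω → ℝ) (h : Ω → ℝ) :
    p2 w L j (fun x _ => f x) h = ∑ x, P w L h x * f x := by
  simp only [p2, ← sum_mul, sum_pl_snd hw]

theorem p2_snd (hw : Wt w) (L : List (Lv Ω)) (j : ℕ) (f : Ω → ℝ) (h : Ω → ℝ) :
    p2 w L j (fun _ y => f y) h = ∑ y, P w L h y * f y := by
  rw [p2, sum_comm]
  simp only [← sum_mul, sum_pl_fst hw]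

theorem p2_const (hw : Wt w) (L : List (Lv Ω)) (j : ℕ) (c : ℝ) (h : Ω → ℝ) :
    p2 w L j (fun _ _ => c) h = c := by
  rw [p2_fst hw L j fun _ => c, ← sum_mul, sum_P hw, one_mul]

theorem p2_add (L : List (Lv Ω)) (j : ℕ) (K K' : Ω → Ω → ℝ) (h : Ω → ℝ) :
    p2 w L j (fun x y => K x y + K' x y) h = p2 w L j K h + p2 w L j K' h := by
  simp only [p2, mul_add, sum_add_distrib]

theorem p2_smul (L : List (Lv Ω)) (j : ℕ) (c : ℝ) (K : Ω → Ω → ℝ) (h : Ω → ℝ) :
    p2 w L j (fun x y => c * K x y) h = c * p2 w L j K h := by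
  simp only [p2, mul_sum, mul_left_comm c]

theorem p2_swap (L : List (Lv Ω)) (j : ℕ) (K : Ω → Ω → ℝ) (h : Ω → ℝ) :
    p2 w L j (fun x y => K y x) h = p2 w L j K h := by
  rw [p2, sum_comm]
  simp only [p2, pl_symm (w := w) L j _ _]

theorem p2_nonneg (hw : Wt w) (L : List (Lv Ω)) (j : ℕ) {K : Ω → Ω → ℝ} (e : ∀ x y, 0 ≤ K x y)
    (h : Ω → ℝ) : 0 ≤ p2 w L j K h := by
  simpa only [p2_const hw] using p2_mono hw L j (K := fun _ _ => 0) e h

/-- the basic comparison -/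
theorem abs_p2_sub (hw : Wt w) (L : List (Lv Ω)) (j : ℕ) {K K' E : Ω → Ω → ℝ}
    (e : ∀ x y, |K x y - K' x y| ≤ E x y) (h : Ω → ℝ) :
    |p2 w L j K h - p2 w L j K' h| ≤ p2 w L j E h := by
  have h1 := p2_mono hw L j (K := K) (K' := fun x y => K' x y + E x y)
    (fun x y => by linarith [(abs_le.1 (e x y)).2]) h
  have h2 := p2_mono hw L j (K := K') (K' := fun x y => K x y + E x y)
    (fun x y => by linarith [(abs_le.1 (e x y)).1]) h
  rw [p2_add] at h1 h2
  rw [abs_le]; constructor <;> linarith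

theorem abs_p2_le (hw : Wt w) (L : List (Lv Ω)) (j : ℕ) {K : Ω → Ω → ℝ} {S : ℝ}
    (e : ∀ x y, |K x y| ≤ S) (h : Ω → ℝ) : |p2 w L j K h| ≤ S := by
  simpa only [p2_const hw, sub_zero] using
    abs_p2_sub hw L j (K := K) (K' := fun _ _ => 0) (E := fun _ _ => S) (by simpa using e) h

theorem abs_P_sub (hw : Wt w) (L : List (Lv Ω)) {f f' e : Ω → ℝ} (he : ∀ x, |f x - f' x| ≤ e x)
    (h : Ω → ℝ) : |∑ x, P w L h x * f x - ∑ x, P w L h x * f' x| ≤ ∑ x, P w L h x * e x := by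
  simpa only [p2_fst hw] using
    abs_p2_sub hw L 0 (K := fun x _ => f x) (K' := fun x _ => f' x) (E := fun x _ => e x)
      (fun x _ => he x) h

theorem abs_P_le (hw : Wt w) (L : List (Lv Ω)) {f : Ω → ℝ} {S : ℝ} (he : ∀ x, |f x| ≤ S)
    (h : Ω → ℝ) : |∑ x, P w L h x * f x| ≤ S := by
  simpa only [p2_fst hw] using abs_p2_le hw L 0 (K := fun x _ => f x) (fun x _ => he x) h

/-! ### exponents -/

theorem exP_succ (l : Lv Ω) (L : List (Lv Ω)) (m0 : ℝ) (k : ℕ) :
    exP (l :: L) m0 (k + 1) = exP L l.m k := by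
  cases k <;> simp [exP, ex]

theorem D_succ (l : Lv Ω) (L : List (Lv Ω)) (m0 : ℝ) (k : ℕ) :
    D (exP (l :: L) m0) (k + 1) = D (exP L l.m) k := by
  simp only [D, exP_succ]

theorem D_zero (l : Lv Ω) (L : List (Lv Ω)) (m0 : ℝ) : D (exP (l :: L) m0) 0 = l.m - m0 := by
  simp [D, exP, ex]

theorem exP_top : ∀ (L : List (Lv Ω)) (m0 : ℝ), exP L m0 (L.length + 1) = 1 := by
  intro L m0; simp [exP, ex]

theorem D_nonneg : ∀ {L : List (Lv Ω)} {m0 : ℝ}, Mono m0 L → ∀ k, 0 ≤ D (exP L m0) k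
  | [], m0, h, 0 => by simpa [D, exP, ex, Mono] using h
  | [], m0, _, k + 1 => by simp [D, exP, ex]
  | l :: L, m0, h, 0 => by rw [D_zero]; exact sub_nonneg.2 h.1
  | l :: L, m0, h, k + 1 => by rw [D_succ]; exact D_nonneg h.2 k

theorem sum_D (L : List (Lv Ω)) (m0 : ℝ) :
    ∑ k ∈ range (L.length + 1), D (exP L m0) k = 1 - m0 := by
  unfold D
  rw [sum_range_sub, exP_top]; rfl

theorem mono_le_one : ∀ {L : List (Lv Ω)} {m0 : ℝ}, Mono m0 L → m0 ≤ 1
  | [], _, h => h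
  | _ :: _, _, h => h.1.trans (mono_le_one h.2)

theorem mono_zero {L : List (Lv Ω)} {m0 : ℝ} (h : Mono m0 L) (h0 : 0 ≤ m0) : Mono 0 L := by
  cases L with
  | nil => exact zero_le_one
  | cons l L => exact ⟨h0.trans h.1, h.2⟩


/-- contraction of the Hessian with a kernel -/
theorem sum_Hs (hw : Wt w) : ∀ (L : List (Lv Ω)) (m0 : ℝ) (K : Ω → Ω → ℝ) (h : Ω → ℝ),
    ∑ x, ∑ y, Hs w L h x y * K x y + m0 * p2 w L 0 K h =
      ∑ x, P w L h x * K x x - ∑ k ∈ range (L.length + 1), D (exP L m0) k * p2 w L k K h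
  | [], m0, K, h => by
    classical
    simp only [Hs, List.length_nil, zero_add, sum_range_one, D, exP, ex, sub_mul, ite_mul,
      zero_mul, sum_sub_distrib, sum_ite_eq, mem_univ, if_true, p2, pl_zero,
      List.getElem?_nil]
    ring
  | l :: L, m0, K, h => by
    have e1 : ∑ x, ∑ y, Hs w (l :: L) h x y * K x y =
        tE l (X w L) (fun h => ∑ x, ∑ y, Hs w L h x y * K x y + l.m * p2 w L 0 K h) h -
          l.m * p2 w (l :: L) 0 K h := by
      have e2 := tE_sum2 hw l L (Φ := fun x y h => Hs w L h x y + l.m * (P w L h x * P w L h y))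
        (fun x y => (eg_Hs hw L x y).add (((eg_P hw L x).mul (eg_P hw L y)).const_mul _)) K h
      simp only [Hs, sub_mul, sum_sub_distrib, ← e2]
      congr 1
      · congr 1
        funext h
        simp only [add_mul, sum_add_distrib, p2, pl_zero, mul_sum, mul_assoc]
      · simp only [p2, pl_zero, mul_sum, mul_assoc]
    rw [e1, funext (sum_Hs hw L l.m K), tE_sub (lg_X hw L)
      (Eg.sum _ fun x _ => (eg_P hw L x).mul_const _)
      (Eg.sum _ fun k _ => (eg_p2 hw L k K).const_mul _),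
      tE_sum (lg_X hw L) _ fun x _ => (eg_P hw L x).mul_const _,
      tE_sum (lg_X hw L) _ fun k _ => (eg_p2 hw L k K).const_mul _, List.length_cons,
      sum_range_succ' _ (L.length + 1)]
    simp only [tE_mul_const, tE_const_mul, D_succ, D_zero, p2_succ hw]
    have : ∀ x, tE l (X w L) (fun z => P w L z x) h = P w (l :: L) h x := fun _ => rfl
    simp only [this]
    ring

theorem sum_Hs0 (hw : Wt w) (L : List (Lv Ω)) (K : Ω → Ω → ℝ) (h : Ω → ℝ) :
    ∑ x, ∑ y, Hs w L h x y * K x y =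
      ∑ x, P w L h x * K x x - ∑ k ∈ range (L.length + 1), D (exP L 0) k * p2 w L k K h := by
  simpa using sum_Hs hw L 0 K h

theorem abs_sumD_le {L : List (Lv Ω)} {m0 : ℝ} (hM : Mono m0 L) {a b e : ℕ → ℝ}
    (he : ∀ k, |a k - b k| ≤ e k) :
    |∑ k ∈ range (L.length + 1), D (exP L m0) k * a k -
      ∑ k ∈ range (L.length + 1), D (exP L m0) k * b k| ≤
      ∑ k ∈ range (L.length + 1), D (exP L m0) k * e k := by
  rw [← sum_sub_distrib]
  refine (abs_sum_le_sum_abs _ _).trans (sum_le_sum fun k _ => ?_)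
  rw [← mul_sub, abs_mul, abs_of_nonneg (D_nonneg hM k)]
  exact mul_le_mul_of_nonneg_left (he k) (D_nonneg hM k)

theorem abs_sum_Hs_le (hw : Wt w) {L : List (Lv Ω)} (hM : Mono 0 L) {K : Ω → Ω → ℝ} {S : ℝ}
    (e : ∀ x y, |K x y| ≤ S) (h : Ω → ℝ) : |∑ x, ∑ y, Hs w L h x y * K x y| ≤ 2 * S := by
  rw [sum_Hs0 hw]
  have h1 := abs_P_le hw L (f := fun x => K x x) (fun x => e x x) h
  have h2 := abs_sumD_le hM (a := fun k => p2 w L k K h) (b := fun _ => 0) (e := fun _ => S)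
    (fun k => by simpa using abs_p2_le hw L k e h)
  rw [← sum_mul, ← sum_mul, sum_D] at h2
  simp only [mul_zero, sub_zero, one_mul] at h2
  exact (abs_sub _ _).trans (by linarith)

/-! ### three replicas -/

/-- the derivative functional -/
def D3 (w : Ω → ℝ) (L : List (Lv Ω)) (j : ℕ) (K : Ω → Ω → Ω → ℝ) (h : Ω → ℝ) : ℝ :=
  ∑ ρ, ∑ x, ∑ y, dp w L j x y ρ h * K x y ρ

/-- a third replica branching at the root -/
def T3 (w : Ω → ℝ) (L : List (Lv Ω)) (j : ℕ) (K : Ω → Ω → Ω → ℝ) (h : Ω → ℝ) : ℝ :=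
  ∑ ρ, P w L h ρ * p2 w L j (fun x y => K x y ρ) h

theorem eg_D3 (hw : Wt w) (L : List (Lv Ω)) (j : ℕ) (K : Ω → Ω → Ω → ℝ) : Eg (D3 w L j K) :=
  Eg.sum _ fun ρ _ => Eg.sum _ fun x _ => Eg.sum _ fun y _ => (eg_dp hw L j x y ρ).mul_const _

theorem eg_T3 (hw : Wt w) (L : List (Lv Ω)) (j : ℕ) (K : Ω → Ω → Ω → ℝ) : Eg (T3 w L j K) :=
  Eg.sum _ fun ρ _ => (eg_P hw L ρ).mul (eg_p2 hw L j _)

theorem D3_succ (hw : Wt w) (l : Lv Ω) (L : List (Lv Ω)) (j : ℕ) (K : Ω → Ω → Ω → ℝ)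
    (h : Ω → ℝ) : D3 w (l :: L) (j + 1) K h =
      tE l (X w L) (fun h => D3 w L j K h + l.m * T3 w L j K h) h -
        l.m * T3 w (l :: L) (j + 1) K h := by
  have hΦ : ∀ ρ x y, Eg fun h => dp w L j x y ρ h + l.m * (pl w L j x y h * P w L h ρ) :=
    fun ρ x y => (eg_dp hw L j x y ρ).add (((eg_pl hw L j x y).mul (eg_P hw L ρ)).const_mul _)
  have e1 : (fun h => D3 w L j K h + l.m * T3 w L j K h) = fun h => ∑ ρ, ∑ x, ∑ y,
      (dp w L j x y ρ h + l.m * (pl w L j x y h * P w L h ρ)) * K x y ρ := by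
    funext h
    simp only [D3, T3, p2, add_mul, sum_add_distrib, mul_sum]
    congr 1
    exact sum_congr rfl fun ρ _ => sum_congr rfl fun x _ => sum_congr rfl fun y _ => by ring
  rw [e1, tE_sum (lg_X hw L) _ fun ρ _ => Eg.sum _ fun x _ => Eg.sum _ fun y _ =>
    (hΦ ρ x y).mul_const _]
  simp only [tE_sum2 hw l L (hΦ _), D3, T3, p2, dp, pl, sub_mul, sum_sub_distrib, mul_sum]
  congr 1
  exact sum_congr rfl fun ρ _ => sum_congr rfl fun x _ => sum_congr rfl fun y _ => by ring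

theorem D3_zero (L : List (Lv Ω)) (K : Ω → Ω → Ω → ℝ) (h : Ω → ℝ) : D3 w L 0 K h =
    ∑ x, ∑ ρ, Hs w L h x ρ * ∑ y, P w L h y * K x y ρ +
      ∑ y, ∑ ρ, Hs w L h y ρ * ∑ x, P w L h x * K x y ρ := by
  simp only [D3, dp_zero, add_mul, sum_add_distrib, mul_sum]
  congr 1
  · rw [sum_comm]
    exact sum_congr rfl fun x _ => sum_congr rfl fun ρ _ => sum_congr rfl fun y _ => by ring
  · rw [sum_comm]
    refine (sum_congr rfl fun x _ => sum_comm).trans (sum_comm.trans ?_)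
    refine sum_congr rfl fun y _ => sum_comm.trans ?_
    exact sum_congr rfl fun ρ _ => sum_congr rfl fun x _ => by ring

theorem abs_T3_le (hw : Wt w) (L : List (Lv Ω)) (j : ℕ) {K : Ω → Ω → Ω → ℝ} {S : ℝ}
    (e : ∀ x y ρ, |K x y ρ| ≤ S) (h : Ω → ℝ) : |T3 w L j K h| ≤ S :=
  abs_P_le hw L (fun ρ => abs_p2_le hw L j (fun x y => e x y ρ) h) h

theorem abs_tE_sub (hw : Wt w) (l : Lv Ω) (L : List (Lv Ω)) {Φ Φ' E : (Ω → ℝ) → ℝ} (h1 : Eg Φ)
    (h2 : Eg Φ') (h3 : Eg E) (e : ∀ z, |Φ z - Φ' z| ≤ E z) (z : Ω → ℝ) :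
    |tE l (X w L) Φ z - tE l (X w L) Φ' z| ≤ tE l (X w L) E z := by
  have a1 := tE_mono (lg_X hw L) h1 (h2.add h3) (fun z => by linarith [(abs_le.1 (e z)).2]) l z
  have a2 := tE_mono (lg_X hw L) h2 (h1.add h3) (fun z => by linarith [(abs_le.1 (e z)).1]) l z
  rw [tE_add (lg_X hw L) h2 h3] at a1
  rw [tE_add (lg_X hw L) h1 h3] at a2
  rw [abs_le]; constructor <;> linarith

theorem abs_D3_aux (hw : Wt w) {K : Ω → Ω → Ω → ℝ} {S : ℝ} (e : ∀ x y ρ, |K x y ρ| ≤ S) :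
    ∀ (j : ℕ) (L : List (Lv Ω)) (m0 : ℝ), j ≤ L.length → 0 ≤ m0 → Mono m0 L → ∀ h,
      |D3 w L j K h + m0 * T3 w L j K h| ≤ (6 - m0) * S
  | 0, L, m0, _, h0, hM, h => by
    have a1 := abs_sum_Hs_le hw (mono_zero hM h0) (K := fun x ρ => ∑ y, P w L h y * K x y ρ)
      (fun x ρ => abs_P_le hw L (fun y => e x y ρ) h) h
    have a2 := abs_sum_Hs_le hw (mono_zero hM h0) (K := fun y ρ => ∑ x, P w L h x * K x y ρ)
      (fun y ρ => abs_P_le hw L (fun x => e x y ρ) h) h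
    have a3 := abs_T3_le hw L 0 e h
    have hS : 0 ≤ S := (abs_nonneg _).trans a3
    have a4 := mono_le_one hM
    rw [D3_zero]
    refine (abs_add_le _ _).trans ?_
    rw [abs_mul, abs_of_nonneg h0]
    have a5 := abs_add_le (∑ x, ∑ ρ, Hs w L h x ρ * ∑ y, P w L h y * K x y ρ)
      (∑ y, ∑ ρ, Hs w L h y ρ * ∑ x, P w L h x * K x y ρ)
    nlinarith [mul_le_mul_of_nonneg_left a3 h0]
  | j + 1, [], _, hj, _, _, _ => by simp at hj
  | j + 1, l :: L, m0, hj, h0, hM, h => by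
    have ih := abs_D3_aux hw e j L l.m (by simpa using hj) (h0.trans hM.1) hM.2
    have a1 := abs_tE_sub hw l L ((eg_D3 hw L j K).add ((eg_T3 hw L j K).const_mul l.m))
      (Eg.const 0) (Eg.const ((6 - l.m) * S)) (fun z => by simpa using ih z) h
    rw [tE_const (lg_X hw L), tE_const (lg_X hw L), sub_zero] at a1
    have a3 := abs_T3_le hw (l :: L) (j + 1) e h
    have a4 : 0 ≤ l.m - m0 := sub_nonneg.2 hM.1
    rw [D3_succ hw, show ∀ a b : ℝ, a - l.m * b + m0 * b = a - (l.m - m0) * b from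
      fun a b => by ring]
    refine (abs_sub _ _).trans ?_
    rw [abs_mul, abs_of_nonneg a4]
    nlinarith [mul_le_mul_of_nonneg_left a3 a4]

/-- total variation of the gradient -/
theorem abs_D3_le (hw : Wt w) {L : List (Lv Ω)} (hM : Mono 0 L) {j : ℕ} (hj : j ≤ L.length)
    {K : Ω → Ω → Ω → ℝ} {S : ℝ} (e : ∀ x y ρ, |K x y ρ| ≤ S) (h : Ω → ℝ) :
    |D3 w L j K h| ≤ 6 * S := by
  simpa using abs_D3_aux hw e j L 0 hj le_rfl hM h

/-! ### synchronised kernels -/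

theorem hat_shift (K : ℕ) (m : ℕ → ℝ) (gd : ℝ) (g : ℕ → ℝ) (j : ℕ) :
    hat (K + 1) m gd g (j + 1) = hat K (fun k => m (k + 1)) gd (fun k => g (k + 1)) j := by
  rw [hat, hat, ← Finset.map_add_right_Ioc, sum_map]
  rfl

theorem pr_shift (K : ℕ) (m q : ℕ → ℝ) (gd : ℝ) (g : ℕ → ℝ) (j : ℕ) :
    pr (K + 1) m q gd g (j + 1) =
      pr K (fun k => m (k + 1)) (fun k => q (k + 1)) gd (fun k => g (k + 1)) j -
        D m 0 * q 0 * g 0 := by
  rw [pr, pr, hat_shift, hat_shift, sum_range_succ']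
  simp only [D]
  ring

theorem eg_pr {gd : (Ω → ℝ) → ℝ} {g : ℕ → (Ω → ℝ) → ℝ} (h1 : Eg gd) (h2 : ∀ k, Eg (g k)) (K : ℕ)
    (m q : ℕ → ℝ) (j : ℕ) : Eg fun z => pr K m q (gd z) (fun k => g k z) j := by
  unfold pr hat
  exact ((((h2 j).mul_const _).add (((h1.sub ((h2 j).const_mul _)).sub
    (Eg.sum _ fun k _ => (h2 k).const_mul _)).const_mul _)).sub
    (Eg.sum _ fun k _ => (h2 k).const_mul _)).add ((h2 j).const_mul _)

theorem tE_pr {F gd : (Ω → ℝ) → ℝ} (hF : Lg F) {g : ℕ → (Ω → ℝ) → ℝ} (h1 : Eg gd)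
    (h2 : ∀ k, Eg (g k)) (K : ℕ) (m q : ℕ → ℝ) (j : ℕ) (l : Lv Ω) (z : Ω → ℝ) :
    tE l F (fun z => pr K m q (gd z) (fun k => g k z) j) z =
      pr K m q (tE l F gd z) (fun k => tE l F (g k) z) j := by
  have s1 : ∀ (s : Finset ℕ) (c : ℕ → ℝ), Eg fun z => ∑ k ∈ s, c k * g k z :=
    fun s c => Eg.sum _ fun k _ => (h2 k).const_mul _
  have s2 : ∀ (s : Finset ℕ) (c : ℕ → ℝ), tE l F (fun z => ∑ k ∈ s, c k * g k z) z =
      ∑ k ∈ s, c k * tE l F (g k) z := fun s c => by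
    rw [tE_sum hF _ fun k _ => (h2 k).const_mul _]
    simp only [tE_const_mul]
  have e3 := (h1.sub ((h2 j).const_mul (m (j + 1)))).sub (s1 (Ioc j K) (D m))
  change tE l F (fun z => g j z * hat K m 1 q j +
      q j * (gd z - m (j + 1) * g j z - ∑ k ∈ Ioc j K, D m k * g k z) -
      ∑ k ∈ range j, (fun k => D m k * q k) k * g k z + m j * q j * g j z) z = _
  rw [tE_add hF ((((h2 j).mul_const _).add (Eg.const_mul _ e3)).sub (s1 _ _))
    ((h2 j).const_mul _), tE_sub hF (((h2 j).mul_const _).add (Eg.const_mul _ e3)) (s1 _ _),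
    tE_add hF ((h2 j).mul_const _) (Eg.const_mul _ e3), s2, tE_mul_const, tE_const_mul,
    tE_const_mul, tE_sub hF (h1.sub ((h2 j).const_mul _)) (s1 _ _),
    tE_sub hF h1 ((h2 j).const_mul _), s2, tE_const_mul]
  rfl

section sync
variable {R g : Ω → Ω → ℝ} {B : ℝ}

theorem T3_approx (hw : Wt w) (hg : ∀ x y, |g x y| ≤ B) (L : List (Lv Ω)) (j : ℕ) (q : ℝ)
    (h : Ω → ℝ) : |T3 w L j (fun x y ρ => R x ρ * g ρ y) h - q * p2 w L 0 g h| ≤
      B * p2 w L 0 (fun x y => |R x y - q|) h := by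
  have e1 : q * p2 w L 0 g h = ∑ ρ, P w L h ρ * p2 w L j (fun _ y => q * g ρ y) h := by
    simp only [p2_snd hw]
    simp only [p2, pl_zero, mul_sum]
    exact sum_congr rfl fun ρ _ => sum_congr rfl fun y _ => by ring
  have e2 : B * p2 w L 0 (fun x y => |R x y - q|) h =
      ∑ ρ, P w L h ρ * p2 w L j (fun x _ => B * |R x ρ - q|) h := by
    simp only [p2_fst hw]
    rw [← p2_swap]
    simp only [p2, pl_zero, mul_sum]
    exact sum_congr rfl fun ρ _ => sum_congr rfl fun y _ => by ring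
  rw [e1, e2]
  refine abs_P_sub hw L (fun ρ => abs_p2_sub hw L j (fun x y => ?_) h) h
  rw [← sub_mul, abs_mul, mul_comm]
  exact mul_le_mul_of_nonneg_right (hg ρ y) (abs_nonneg _)

theorem diag_approx (hw : Wt w) (hR : ∀ x, R x x = 1) (hs : ∀ x y, g x y = g y x)
    (hg : ∀ x y, |g x y| ≤ B) {L : List (Lv Ω)} (hM : Mono 0 L) (q : ℕ → ℝ) (h : Ω → ℝ) :
    |∑ x, ∑ ρ, Hs w L h x ρ * (R x ρ * g ρ x) -
      prD L.length (exP L 0) q (∑ x, P w L h x * g x x) fun k => p2 w L k g h| ≤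
      B * ∑ k ∈ range (L.length + 1), D (exP L 0) k * p2 w L k (fun x y => |R x y - q k|) h := by
  rw [sum_Hs0 hw, prD]
  simp only [hR, one_mul, mul_assoc]
  rw [sub_sub_sub_cancel_left, abs_sub_comm, mul_sum]
  simp only [mul_left_comm B]
  refine abs_sumD_le hM fun k => ?_
  rw [← p2_smul, ← p2_smul]
  refine abs_p2_sub hw L k (fun x y => ?_) h
  rw [hs y x, ← sub_mul, abs_mul, mul_comm]
  exact mul_le_mul_of_nonneg_right (hg x y) (abs_nonneg _)

theorem base_approx (hw : Wt w) (hR : ∀ x, R x x = 1) (hs : ∀ x y, g x y = g y x)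
    (hg : ∀ x y, |g x y| ≤ B) {L : List (Lv Ω)} {m0 : ℝ} (h0 : 0 ≤ m0) (hM : Mono m0 L)
    (q : ℕ → ℝ) (h : Ω → ℝ) :
    |D3 w L 0 (fun x y ρ => R x ρ * g ρ y) h + m0 * T3 w L 0 (fun x y ρ => R x ρ * g ρ y) h -
      pr L.length (exP L m0) q (∑ x, P w L h x * g x x) (fun k => p2 w L k g h) 0| ≤
      B * (4 * p2 w L 0 (fun x y => |R x y - q 0|) h +
        ∑ k ∈ range (L.length + 1), D (exP L m0) k * p2 w L k (fun x y => |R x y - q k|) h) := by
  set r : ℕ → ℝ := fun k => p2 w L k (fun x y => |R x y - q k|) h with hr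
  set γ : ℕ → ℝ := fun k => p2 w L k g h with hγ
  set gd := ∑ x, P w L h x * g x x with hgd
  have hB : 0 ≤ B := (abs_nonneg _).trans (abs_p2_le hw L 0 hg h)
  have hr0 : 0 ≤ r 0 := p2_nonneg hw L 0 (fun _ _ => abs_nonneg _) h
  have hm1 := mono_le_one hM
  -- averaged kernels
  set gh : Ω → ℝ := fun ρ => ∑ y, P w L h y * g ρ y with hgh
  set Rh : Ω → ℝ := fun ρ => ∑ x, P w L h x * R x ρ with hRh
  have hghB : ∀ ρ, |gh ρ| ≤ B := fun ρ => abs_P_le hw L (hg ρ) h
  have hγ0 : ∑ ρ, P w L h ρ * gh ρ = γ 0 := by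
    simp only [hgh, hγ, p2, pl_zero, mul_sum, mul_assoc]
  have hRh0 : ∑ ρ, P w L h ρ * |Rh ρ - q 0| ≤ r 0 := by
    have : r 0 = ∑ ρ, P w L h ρ * ∑ x, P w L h x * |R x ρ - q 0| := by
      simp only [hr]
      rw [← p2_swap]
      simp only [p2, pl_zero, mul_sum, mul_assoc]
    rw [this]
    refine sum_le_sum fun ρ _ => mul_le_mul_of_nonneg_left ?_ (P_nonneg hw L h ρ)
    have := abs_P_sub hw L (f := fun x => R x ρ) (f' := fun _ => q 0) (fun x => le_rfl) h
    rwa [← sum_mul, sum_P hw, one_mul] at this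
  -- first Hessian term
  have a1 := sum_Hs hw L m0 (fun x ρ => R x ρ * gh ρ) h
  have a2 := sum_Hs hw L m0 (fun y ρ => Rh ρ * g ρ y) h
  simp only [hR, one_mul] at a1
  rw [hγ0] at a1
  have b1 : ∀ k, |p2 w L k (fun x ρ => R x ρ * gh ρ) h - q k * γ 0| ≤ B * r k := fun k => by
    rw [← hγ0, ← p2_snd hw L k, ← p2_smul, ← p2_smul]
    refine abs_p2_sub hw L k (fun x y => ?_) h
    rw [← sub_mul, abs_mul, mul_comm]
    exact mul_le_mul_of_nonneg_right (hghB y) (abs_nonneg _)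
  have b2 : ∀ k, |p2 w L k (fun y ρ => Rh ρ * g ρ y) h - q 0 * γ k| ≤ B * r 0 := fun k => by
    rw [← p2_smul]
    refine (abs_p2_sub hw L k (E := fun _ ρ => B * |Rh ρ - q 0|) (fun x y => ?_) h).trans ?_
    · rw [hs y x, ← sub_mul, abs_mul, mul_comm]
      exact mul_le_mul_of_nonneg_right (hg x y) (abs_nonneg _)
    · rw [p2_smul, p2_snd hw]
      exact mul_le_mul_of_nonneg_left hRh0 hB
  have b3 : |∑ x, P w L h x * (Rh x * g x x) - q 0 * gd| ≤ B * r 0 := by
    rw [hgd, mul_sum]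
    simp only [mul_left_comm (q 0)]
    refine (abs_P_sub hw L (e := fun ρ => B * |Rh ρ - q 0|) (fun x => ?_) h).trans ?_
    · rw [← sub_mul, abs_mul, mul_comm]
      exact mul_le_mul_of_nonneg_right (hg x x) (abs_nonneg _)
    · simp only [mul_left_comm _ B, ← mul_sum]
      exact mul_le_mul_of_nonneg_left hRh0 hB
  have b4 := T3_approx (R := R) hw hg L 0 (q 0) h
  have c1 := abs_sumD_le hM b1
  have c2 := abs_sumD_le hM b2
  rw [← sum_mul _ _ (B * r 0), sum_D] at c2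
  have e1 : D3 w L 0 (fun x y ρ => R x ρ * g ρ y) h =
      ∑ x, ∑ ρ, Hs w L h x ρ * (R x ρ * gh ρ) + ∑ y, ∑ ρ, Hs w L h y ρ * (Rh ρ * g ρ y) := by
    rw [D3_zero]
    simp only [hgh, hRh, mul_sum, sum_mul, mul_left_comm (R _ _), mul_assoc]
  have e2 : pr L.length (exP L m0) q gd γ 0 =
      γ 0 - m0 * (q 0 * γ 0) - ∑ k ∈ range (L.length + 1), D (exP L m0) k * (q k * γ 0) +
      (q 0 * gd - m0 * (q 0 * γ 0) - ∑ k ∈ range (L.length + 1), D (exP L m0) k * (q 0 * γ k)) +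
      m0 * (q 0 * γ 0) := by
    have s : ∀ f : ℕ → ℝ, ∑ k ∈ range (L.length + 1), f k = f 0 + ∑ k ∈ Ioc 0 L.length, f k := by
      intro f
      rw [add_comm (f 0), sum_Ioc_add_eq_sum_Icc (Nat.zero_le _), range_eq_Ico]
      rfl
    rw [s, s, pr, hat, hat]
    simp only [range_zero, sum_empty, mul_sub, mul_sum, D, exP]
    have t1 : ∀ k, γ 0 * ((exP L m0 (k + 1) - exP L m0 k) * q k) =
      (exP L m0 (k + 1) - exP L m0 k) * (q k * γ 0) := fun k => by ring
    have t2 : ∀ k, q 0 * ((exP L m0 (k + 1) - exP L m0 k) * γ k) =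
      (exP L m0 (k + 1) - exP L m0 k) * (q 0 * γ k) := fun k => by ring
    simp only [exP] at t1 t2
    simp only [t1, t2]
    ring
  have c3 : ∑ k ∈ range (L.length + 1), D (exP L m0) k * (B * r k) =
      B * ∑ k ∈ range (L.length + 1), D (exP L m0) k * r k := by
    rw [mul_sum]; exact sum_congr rfl fun k _ => by ring
  rw [c3] at c1
  rw [e1, e2, eq_sub_of_add_eq a1, eq_sub_of_add_eq a2]
  have d1 := abs_le.1 (b1 0)
  have d2 := abs_le.1 (b2 0)
  have d3 := abs_le.1 b3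
  have d4 := abs_le.1 b4
  have d5 := abs_le.1 c1
  have d6 := abs_le.1 c2
  have f1 := mul_le_mul_of_nonneg_left d1.1 h0
  have f2 := mul_le_mul_of_nonneg_left d1.2 h0
  have f3 := mul_le_mul_of_nonneg_left d2.1 h0
  have f4 := mul_le_mul_of_nonneg_left d2.2 h0
  have f5 := mul_le_mul_of_nonneg_left d4.1 h0
  have f6 := mul_le_mul_of_nonneg_left d4.2 h0
  have f7 : m0 * (B * r 0) ≤ B * r 0 := mul_le_of_le_one_left (mul_nonneg hB hr0) hm1
  change _ ≤ B * (4 * r 0 + ∑ k ∈ range (L.length + 1), D (exP L m0) k * r k)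
  change -(B * r 0) ≤ _ - q 0 * γ 0 ∧ _ - q 0 * γ 0 ≤ B * r 0 at d4
  change m0 * -(B * r 0) ≤ m0 * (_ - q 0 * γ 0) at f5
  change m0 * (_ - q 0 * γ 0) ≤ m0 * (B * r 0) at f6
  rw [abs_le]
  constructor <;> nlinarith

theorem D3_approx_aux (hw : Wt w) (hR : ∀ x, R x x = 1) (hs : ∀ x y, g x y = g y x)
    (hg : ∀ x y, |g x y| ≤ B) : ∀ (j : ℕ) (L : List (Lv Ω)) (m0 : ℝ) (q : ℕ → ℝ),
    j ≤ L.length → 0 ≤ m0 → Mono m0 L → ∀ h,
    |D3 w L j (fun x y ρ => R x ρ * g ρ y) h + m0 * T3 w L j (fun x y ρ => R x ρ * g ρ y) h -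
      pr L.length (exP L m0) q (∑ x, P w L h x * g x x) (fun k => p2 w L k g h) j| ≤
      B * (4 * p2 w L j (fun x y => |R x y - q j|) h +
        ∑ k ∈ range (L.length + 1), D (exP L m0) k * p2 w L k (fun x y => |R x y - q k|) h)
  | 0, _, _, q, _, h0, hM, h => base_approx hw hR hs hg h0 hM q h
  | j + 1, [], _, _, hj, _, _, _ => by simp at hj
  | j + 1, l :: L, m0, q, hj, h0, hM, h => by
    have ih := D3_approx_aux hw hR hs hg j L l.m (fun k => q (k + 1)) (by simpa using hj)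
      (h0.trans hM.1) hM.2
    have egd : Eg fun h => ∑ x, P w L h x * g x x := Eg.sum _ fun x _ => (eg_P hw L x).mul_const _
    have es : Eg fun h => ∑ k ∈ range (L.length + 1),
        D (exP L l.m) k * p2 w L k (fun x y => |R x y - q (k + 1)|) h :=
      Eg.sum _ fun k _ => (eg_p2 hw L k _).const_mul _
    have a1 := abs_tE_sub hw l L ((eg_D3 hw L j _).add ((eg_T3 hw L j _).const_mul l.m))
      (eg_pr egd (fun k => eg_p2 hw L k g) _ _ _ _)
      ((((eg_p2 hw L j _).const_mul 4).add es).const_mul B) ih h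
    rw [tE_pr (lg_X hw L) egd (fun k => eg_p2 hw L k g), tE_const_mul,
      tE_add (lg_X hw L) ((eg_p2 hw L j _).const_mul 4) es, tE_const_mul,
      tE_sum (lg_X hw L) _ fun k _ => (eg_p2 hw L k _).const_mul _,
      tE_sum (lg_X hw L) _ fun x _ => (eg_P hw L x).mul_const _] at a1
    simp only [tE_const_mul, tE_mul_const, ← p2_succ hw] at a1
    have a2 := T3_approx (R := R) hw hg (l :: L) (j + 1) (q 0) h
    have a4 : 0 ≤ l.m - m0 := sub_nonneg.2 hM.1
    rw [D3_succ hw, List.length_cons, pr_shift, sum_range_succ' _ (L.length + 1)]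
    simp only [exP_succ, D_succ, D_zero]
    have : ∀ x, tE l (X w L) (fun z => P w L z x) h = P w (l :: L) h x := fun _ => rfl
    simp only [this] at a1
    have d1 := abs_le.1 a1
    have d2 := abs_le.1 a2
    have f1 := mul_le_mul_of_nonneg_left d2.1 a4
    have f2 := mul_le_mul_of_nonneg_left d2.2 a4
    rw [abs_le]
    constructor <;> nlinarith

/-- **the three-replica term of the Schwinger–Dyson equation** -/
theorem D3_approx (hw : Wt w) (hR : ∀ x, R x x = 1) (hs : ∀ x y, g x y = g y x)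
    (hg : ∀ x y, |g x y| ≤ B) {L : List (Lv Ω)} (hM : Mono 0 L) {j : ℕ} (hj : j ≤ L.length)
    (q : ℕ → ℝ) (h : Ω → ℝ) :
    |D3 w L j (fun x y ρ => R x ρ * g ρ y) h -
      pr L.length (exP L 0) q (∑ x, P w L h x * g x x) (fun k => p2 w L k g h) j| ≤
      B * (4 * p2 w L j (fun x y => |R x y - q j|) h +
        ∑ k ∈ range (L.length + 1), D (exP L 0) k * p2 w L k (fun x y => |R x y - q k|) h) := by
  simpa using D3_approx_aux hw hR hs hg j L 0 q hj le_rfl hM h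

end sync

end Crest.Agent.T157.Sd
end
private theorem rz_1065b1718d : type_of% @_root_.Crest.Agent.T157.Sd.dp.eq_def := @_root_.Crest.Agent.T157.Sd.dp.eq_def -- L29
private theorem rz_84047fa90e : type_of% @_root_.Crest.Agent.T157.Sd.dp.eq_1 := @_root_.Crest.Agent.T157.Sd.dp.eq_1 -- L29
private theorem rz_42c13a75cf : type_of% @_root_.Crest.Agent.T157.Sd.pl.eq_def := @_root_.Crest.Agent.T157.Sd.pl.eq_def -- L23
private theorem rz_cafa71421e : type_of% @_root_.Crest.Agent.T157.Sd.pl.eq_1 := @_root_.Crest.Agent.T157.Sd.pl.eq_1 -- L23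
end

-- ▼ part T157/SdM_49
section

/-!
Row 157, part D (helper49): the random-matrix half of the Schwinger–Dyson equations.
Gaussian integration by parts for `u·(z - J)⁻¹ v` against a weight, the averaged semicircle law
at `z = 2 + iη`, `Tau`, and the edge weight `Am` as the imaginary part of the resolvent.
-/

set_option autoImplicit false

noncomputable section

namespace Crest.Agent.T157.SdM

open Matrix Finset MeasureTheory Function
open Crest.Agent.T157.Cond Crest.Agent.T157.Conc Crest.Agent.T157.Fr Crest.Agent.T157.SdA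

/-! ### complex Stein identity -/

theorem steinC {κ : Type*} [Fintype κ] [DecidableEq κ] (j : κ) {f f' : (κ → ℝ) → ℂ}
    (hf : Continuous f) (hf' : Measurable f')
    (hd : ∀ g : κ → ℝ, HasDerivAt (fun t => f (update g j t)) (f' g) (g j))
    {C C' : ℝ} (hC : ∀ g, ‖f g‖ ≤ C) (hC' : ∀ g, ‖f' g‖ ≤ C') :
    Integrable (fun g => (g j : ℂ) * f g) (gv κ) ∧ Integrable f' (gv κ) ∧
      ∫ g, (g j : ℂ) * f g ∂(gv κ) = ∫ g, f' g ∂(gv κ) := by
  have i1 : Integrable (fun g => (g j : ℂ) * f g) (gv κ) := by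
    refine ((R339.Guerra.integrable_coord j).norm.const_mul C).mono' (by fun_prop)
      (Filter.Eventually.of_forall fun x => ?_)
    rw [norm_mul, Complex.norm_real, mul_comm]
    exact mul_le_mul_of_nonneg_right (hC x) (norm_nonneg _)
  have i2 : Integrable f' (gv κ) :=
    (integrable_const C').mono' hf'.aestronglyMeasurable (Filter.Eventually.of_forall hC')
  refine ⟨i1, i2, Complex.ext ?_ ?_⟩
  · have h := R339.Guerra.steinG j (f := fun g => (f g).re) (f' := fun g => (f' g).re)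
      (Complex.continuous_re.comp hf) (Complex.measurable_re.comp hf')
      (fun g => Complex.reCLM.hasFDerivAt.comp_hasDerivAt _ (hd g))
      (fun g => (Complex.abs_re_le_norm _).trans (hC g))
      (fun g => (Complex.abs_re_le_norm _).trans (hC' g))
    have e1 := integral_re i1
    have e2 := integral_re i2
    simp only [RCLike.re_to_complex, Complex.re_ofReal_mul] at e1 e2
    rw [← e1, ← e2]; exact h
  · have h := R339.Guerra.steinG j (f := fun g => (f g).im) (f' := fun g => (f' g).im)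
      (Complex.continuous_im.comp hf) (Complex.measurable_im.comp hf')
      (fun g => Complex.imCLM.hasFDerivAt.comp_hasDerivAt _ (hd g))
      (fun g => (Complex.abs_im_le_norm _).trans (hC g))
      (fun g => (Complex.abs_im_le_norm _).trans (hC' g))
    have e1 := integral_im i1
    have e2 := integral_im i2
    simp only [RCLike.im_to_complex, Complex.im_ofReal_mul] at e1 e2
    rw [← e1, ← e2]; exact h

variable {ι : Type*} [Fintype ι] [DecidableEq ι]

/-! ### bilinear forms and the direction matrices -/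

/-- the bilinear form `u·A v` -/
def bl (A : Matrix ι ι ℂ) (u v : ι → ℂ) : ℂ := u ⬝ᵥ A *ᵥ v

theorem norm_bl_le (A : Matrix ι ι ℂ) (u v : ι → ℂ) : ‖bl A u v‖ ≤ cop A * (cn u * cn v) := by
  refine (norm_sum_mul_le u (A *ᵥ v)).trans ?_
  have := mul_le_mul_of_nonneg_left (cn_mulVec_le A v) (cn_nonneg u)
  linarith

theorem norm_bl_le' {A : Matrix ι ι ℂ} {c : ℝ} (h : cop A ≤ c) (u v : ι → ℂ) :
    ‖bl A u v‖ ≤ c * (cn u * cn v) :=
  (norm_bl_le A u v).trans (mul_le_mul_of_nonneg_right h (mul_nonneg (cn_nonneg u) (cn_nonneg v)))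

omit [DecidableEq ι] in
theorem bl_add (A B : Matrix ι ι ℂ) (u v : ι → ℂ) : bl (A + B) u v = bl A u v + bl B u v := by
  simp [bl, add_mulVec]
omit [DecidableEq ι] in
theorem bl_sub (A B : Matrix ι ι ℂ) (u v : ι → ℂ) : bl (A - B) u v = bl A u v - bl B u v := by
  simp [bl, sub_mulVec]
omit [DecidableEq ι] in
theorem bl_smul (c : ℂ) (A : Matrix ι ι ℂ) (u v : ι → ℂ) : bl (c • A) u v = c * bl A u v := by
  simp [bl, smul_mulVec]
theorem bl_one (u v : ι → ℂ) : bl 1 u v = u ⬝ᵥ v := by simp [bl]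
omit [DecidableEq ι] in
theorem bl_sum {κ : Type*} (S : Finset κ) (A : κ → Matrix ι ι ℂ) (u v : ι → ℂ) :
    bl (∑ k ∈ S, A k) u v = ∑ k ∈ S, bl (A k) u v := by
  simp [bl, sum_mulVec, dotProduct_sum]
omit [DecidableEq ι] in
theorem bl_mul (A B : Matrix ι ι ℂ) (u v : ι → ℂ) : bl (A * B) u v = bl A u (B *ᵥ v) := by
  simp [bl]
omit [DecidableEq ι] in
theorem bl_mul' (A B : Matrix ι ι ℂ) (u v : ι → ℂ) : bl (A * B) u v = bl B (Aᵀ *ᵥ u) v := by
  simp [bl, ← mulVec_mulVec, dotProduct_mulVec, mulVec_transpose]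
omit [DecidableEq ι] in
theorem bl_transpose (A : Matrix ι ι ℂ) (u v : ι → ℂ) : bl Aᵀ u v = bl A v u := by
  simp [bl, dotProduct_mulVec, mulVec_transpose, dotProduct_comm]
theorem bl_single (A : Matrix ι ι ℂ) (i j : ι) : bl A (Pi.single i 1) (Pi.single j 1) = A i j := by
  simp [bl]
omit [DecidableEq ι] in
theorem Continuous.bl {X : Type*} [TopologicalSpace X] {A : X → Matrix ι ι ℂ} (h : Continuous A)
    (u v : ι → ℂ) : Continuous fun x => bl (A x) u v :=
  continuous_const.dotProduct (h.matrix_mulVec continuous_const)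

omit [Fintype ι] in
theorem Ap_apply (s : ℝ) (p : ι × ι) (i j : ι) : Ap s p i j =
    ((s / √2 : ℝ) : ℂ) * ((if (i, j) = p then 1 else 0) + if (j, i) = p then 1 else 0) := by
  simp only [Ap, cx_apply, symG, of_apply, Pi.single_apply]
  split_ifs <;> simp

theorem sum_Ap (s : ℝ) (c : ι × ι → ℝ) : ∑ p, (c p : ℂ) • Ap s p = cx (symG s c) := by
  ext i j
  simp only [Matrix.sum_apply, Matrix.smul_apply, Ap_apply, smul_eq_mul, cx_apply, symG, of_apply,
    mul_add, mul_ite, mul_one, mul_zero, sum_add_distrib, sum_ite_eq, mem_univ, if_true]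
  push_cast; ring

theorem bl_Ap (s : ℝ) (p : ι × ι) (u v : ι → ℂ) :
    bl (Ap s p) u v = ((s / √2 : ℝ) : ℂ) * (u p.1 * v p.2 + u p.2 * v p.1) := by
  obtain ⟨a, b⟩ := p
  simp only [bl, dotProduct, mulVec, Ap_apply, Prod.mk.injEq, mul_add, add_mul, mul_ite, ite_mul,
    mul_one, mul_zero, zero_mul, sum_add_distrib, ite_and, mul_sum]
  congr 1
  · rw [sum_eq_single a (by simp +contextual) (by simp)]; simp; ring
  · rw [sum_comm, sum_eq_single a (by simp +contextual) (by simp)]; simp; ring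

theorem sum_Ap_mul (s : ℝ) (M : Matrix ι ι ℂ) :
    ∑ p, Ap s p * M * Ap s p = ((s ^ 2 : ℝ) : ℂ) • (M.trace • (1 : Matrix ι ι ℂ) + Mᵀ) := by
  ext i j
  have h2 : ((s / √2 : ℝ) : ℂ) * ((s / √2 : ℝ) : ℂ) * 2 = ((s ^ 2 : ℝ) : ℂ) := by
    have : s / √2 * (s / √2) * 2 = s ^ 2 := by
      rw [div_mul_div_comm, Real.mul_self_sqrt (by norm_num)]; ring
    exact_mod_cast this
  have e : ∀ p : ι × ι, (Ap s p * M * Ap s p) i j = ((s / √2 : ℝ) : ℂ) * ((s / √2 : ℝ) : ℂ) *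
      ((if p.1 = i then (if p.2 = j then M p.2 p.1 else 0) else 0) +
       (if p.1 = i then (if p.1 = j then M p.2 p.2 else 0) else 0) +
       (if p.2 = i then (if p.2 = j then M p.1 p.1 else 0) else 0) +
       (if p.2 = i then (if p.1 = j then M p.1 p.2 else 0) else 0)) := fun p => by
    rw [← bl_single (Ap s p * M * Ap s p), Matrix.mul_assoc, bl_mul, bl_Ap]
    have e1 : ∀ k, ((M * Ap s p) *ᵥ Pi.single j 1) k = ((s / √2 : ℝ) : ℂ) *
        (M k p.1 * (if p.2 = j then 1 else 0) + M k p.2 * (if p.1 = j then 1 else 0)) := fun k => by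
      have := bl_Ap s p (M k) (Pi.single j 1)
      simp only [Pi.single_apply] at this
      rw [← this, ← mulVec_mulVec]; rfl
    rw [e1, e1]
    simp only [Pi.single_apply]
    split_ifs <;> ring
  simp only [Matrix.sum_apply, e, ← mul_sum, sum_add_distrib, Fintype.sum_prod_type]
  rw [sum_comm (f := fun a b => if b = i then (if b = j then M a a else 0) else 0),
    sum_comm (f := fun a b => if b = i then (if a = j then M a b else 0) else 0), ← h2]
  by_cases h : i = j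
  · subst h; simp [Matrix.trace]; ring
  · simp [h]; ring

theorem cop_symG_le (s : ℝ) (c : ι × ι → ℝ) : cop (cx (symG s c)) ≤ √2 * |s| * en c :=
  (cop_le_hs _).trans (hs_symG_le s c)

theorem cop_Ap_le (s : ℝ) (p : ι × ι) : cop (Ap s p) ≤ √2 * |s| := by
  have := cop_symG_le s (Pi.single p (1 : ℝ))
  have e : en (Pi.single p (1 : ℝ) : ι × ι → ℝ) = 1 := by
    rw [en, Finset.sum_eq_single p] <;> simp +contextual
  rwa [e, mul_one] at this

/-! ### the resolvent along Gaussian coordinates -/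

section res
variable {d : ι → ℂ} {η : ℝ}

theorem hasDerivAt_res (hη : 0 < η) (hd : ∀ i, η ≤ (d i).im) (s : ℝ) (x : ι × ι → ℝ) (p : ι × ι)
    (u v : ι → ℂ) : HasDerivAt (fun t => bl (res d (symG s (update x p t))) u v)
      (bl (res d (symG s x) * Ap s p * res d (symG s x)) u v) (x p) := by
  have hc : Continuous fun t : ℝ => update x p t := continuous_const.update p continuous_id
  have h := hasDerivAt_of_eq (f := fun t => bl (res d (symG s (update x p t))) u v)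
    (φ := fun t => bl (res d (symG s (update x p t)) * Ap s p * res d (symG s x)) u v) (a := x p)
    (Continuous.bl ((((continuous_res hη hd s).comp hc).matrix_mul continuous_const).matrix_mul
      continuous_const) u v) (fun t => by
      rw [update_eq_self, ← bl_sub, res_sub_res (unit_Zm hη hd (symG_transpose _ _))
        (unit_Zm hη hd (symG_transpose _ _)), symG_update, cx_smul, ← bl_smul, Ap]
      simp)
  simpa only [update_eq_self] using h

/-- **Stein's identity for `w · u·J G v`** -/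
theorem stein_res (hη : 0 < η) (hd : ∀ i, η ≤ (d i).im) (s : ℝ) (u v : ι → ℂ)
    {w : (ι × ι → ℝ) → ℝ} {w' : ι × ι → (ι × ι → ℝ) → ℝ} (hw : Continuous w)
    (hw' : ∀ p, Measurable (w' p))
    (hD : ∀ p x, HasDerivAt (fun t => w (update x p t)) (w' p x) (x p))
    {C C' : ℝ} (hC : ∀ x, |w x| ≤ C) (hC' : ∀ p x, |w' p x| ≤ C') :
    ∫ x, (w x : ℂ) * bl (cx (symG s x) * res d (symG s x)) u v ∂(gv (ι × ι)) =
      ∫ x, ((w x : ℂ) * (((s ^ 2 : ℝ) : ℂ) * ((res d (symG s x)).trace * bl (res d (symG s x)) u v +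
          bl (res d (symG s x) * res d (symG s x)) u v)) +
        bl (cx (symG s fun p => w' p x) * res d (symG s x)) u v) ∂(gv (ι × ι)) := by
  have hG := continuous_res hη hd s
  have hb : ∀ x, cop (res d (symG s x)) ≤ 1 / η := fun x => cop_res_le hη hd (symG_transpose s x)
  have key : ∀ p : ι × ι, _ := fun p => steinC p
    (f := fun x => (w x : ℂ) * bl (Ap s p * res d (symG s x)) u v)
    (f' := fun x => (w' p x : ℂ) * bl (Ap s p * res d (symG s x)) u v +
      (w x : ℂ) * bl (Ap s p * res d (symG s x) * Ap s p * res d (symG s x)) u v)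
    ((Complex.continuous_ofReal.comp hw).mul (Continuous.bl (continuous_const.matrix_mul hG) u v))
    (((Complex.measurable_ofReal.comp (hw' p)).mul
      (Continuous.bl (continuous_const.matrix_mul hG) u v).measurable).add
      ((Complex.continuous_ofReal.comp hw).mul (Continuous.bl (((continuous_const.matrix_mul
        hG).matrix_mul continuous_const).matrix_mul hG) u v)).measurable)
    (fun x => by
      have h1 := (hD p x).ofReal_comp
      have h2 := hasDerivAt_res hη hd s x p ((Ap s p)ᵀ *ᵥ u) v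
      have h3 := h1.mul h2
      simp only [update_eq_self, ← bl_mul', ← Matrix.mul_assoc] at h3
      exact h3)
    (C := C * ((√2 * |s|) * (1 / η) * (cn u * cn v)))
    (C' := C' * ((√2 * |s|) * (1 / η) * (cn u * cn v)) +
      C * ((√2 * |s|) * (1 / η) * (√2 * |s|) * (1 / η) * (cn u * cn v)))
    (fun x => by
      rw [norm_mul, Complex.norm_real]
      exact mul_le_mul (hC x) (norm_bl_le' (cop_mul_le' (cop_Ap_le s p) (hb x)) u v)
        (norm_nonneg _) ((abs_nonneg _).trans (hC x)))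
    (fun x => by
      refine (norm_add_le _ _).trans (add_le_add ?_ ?_)
      · rw [norm_mul, Complex.norm_real]
        exact mul_le_mul (hC' p x) (norm_bl_le' (cop_mul_le' (cop_Ap_le s p) (hb x)) u v)
          (norm_nonneg _) ((abs_nonneg _).trans (hC' p x))
      · rw [norm_mul, Complex.norm_real]
        exact mul_le_mul (hC x) (norm_bl_le' (cop_mul_le' (cop_mul_le' (cop_mul_le'
          (cop_Ap_le s p) (hb x)) (cop_Ap_le s p)) (hb x)) u v)
          (norm_nonneg _) ((abs_nonneg _).trans (hC x)))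
  have e1 : ∀ x : ι × ι → ℝ, (w x : ℂ) * bl (cx (symG s x) * res d (symG s x)) u v =
      ∑ p, (x p : ℂ) * ((w x : ℂ) * bl (Ap s p * res d (symG s x)) u v) := fun x => by
    conv_lhs => rw [← sum_Ap s x]
    rw [Finset.sum_mul, bl_sum, mul_sum]
    exact sum_congr rfl fun p _ => by rw [smul_mul_assoc, bl_smul]; ring
  simp only [e1]
  rw [integral_finsetSum _ fun p _ => (key p).1, sum_congr rfl fun p _ => (key p).2.2,
    ← integral_finsetSum _ fun p _ => (key p).2.1]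
  refine integral_congr_ae (Filter.Eventually.of_forall fun x => ?_)
  simp only
  rw [sum_add_distrib, ← mul_sum, ← bl_sum, ← Finset.sum_mul, sum_Ap_mul,
    res_transpose d (symG_transpose s x), ← sum_Ap s fun p => w' p x, Finset.sum_mul, bl_sum,
    add_comm, smul_mul_assoc, bl_smul, Matrix.add_mul, bl_add, smul_mul_assoc, bl_smul,
    Matrix.one_mul]
  congr 1
  exact sum_congr rfl fun p _ => by rw [smul_mul_assoc, bl_smul]

end res

/-! ### the averaged semicircle law at `z = 2 + iη` -/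

/-- `G = (2 + iη - W)⁻¹` -/
def Gz (η : ℝ) (W : Matrix ι ι ℝ) : Matrix ι ι ℂ := res (fun _ => 2 + η * Complex.I) W

/-- `m = s² tr G` -/
def mN (η s : ℝ) (x : ι × ι → ℝ) : ℂ := ((s ^ 2 : ℝ) : ℂ) * (Gz η (symG s x)).trace

section law
variable {η s : ℝ}

omit [Fintype ι] [DecidableEq ι] in
theorem im_z (η : ℝ) (i : ι) : η ≤ ((fun _ : ι => (2 + η * Complex.I : ℂ)) i).im := by simp

theorem cop_Gz (hη : 0 < η) {W : Matrix ι ι ℝ} (hW : Wᵀ = W) : cop (Gz η W) ≤ 1 / η :=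
  cop_res_le hη (im_z η) hW

theorem Gz_transpose (η : ℝ) {W : Matrix ι ι ℝ} (hW : Wᵀ = W) : (Gz η W)ᵀ = Gz η W :=
  res_transpose _ hW

theorem continuous_Gz (hη : 0 < η) (s : ℝ) : Continuous fun x : ι × ι → ℝ => Gz η (symG s x) :=
  continuous_res hη (im_z η) s

theorem mul_Gz (hη : 0 < η) {W : Matrix ι ι ℝ} (hW : Wᵀ = W) :
    cx W * Gz η W = (2 + η * Complex.I : ℂ) • Gz η W - 1 := by
  have h := Zm_mul_res (unit_Zm hη (im_z η) hW)
  rw [Zm, Matrix.sub_mul, ← smul_one_eq_diagonal, smul_mul_assoc, Matrix.one_mul] at h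
  rw [← h]; simp [Gz]

theorem continuous_mN (hη : 0 < η) (s : ℝ) : Continuous (mN (ι := ι) η s) :=
  continuous_const.mul (continuous_Gz hη s).matrix_trace

theorem norm_mN (hη : 0 < η) (hs : s ^ 2 * Fintype.card ι = 1) (x : ι × ι → ℝ) :
    ‖mN η s x‖ ≤ 1 / η := by
  rw [mN, norm_mul, Complex.norm_real, Real.norm_of_nonneg (sq_nonneg s)]
  have h1 := (trace_le (Gz η (symG s x))).trans (mul_le_mul_of_nonneg_left
    (cop_Gz hη (symG_transpose s x)) (Nat.cast_nonneg _))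
  calc _ ≤ s ^ 2 * (Fintype.card ι * (1 / η)) := mul_le_mul_of_nonneg_left h1 (sq_nonneg s)
    _ = _ := by rw [← mul_assoc, hs, one_mul]

theorem integrable_mN (hη : 0 < η) (hs : s ^ 2 * Fintype.card ι = 1) :
    Integrable (mN (ι := ι) η s) (gv (ι × ι)) :=
  (integrable_const (1 / η)).mono' (continuous_mN hη s).aestronglyMeasurable
    (Filter.Eventually.of_forall (norm_mN hη hs))

theorem im_mN (hη : 0 < η) (x : ι × ι → ℝ) : (mN η s x).im ≤ 0 := by
  rw [mN, Complex.im_ofReal_mul, Matrix.trace, Complex.im_sum]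
  exact mul_nonpos_of_nonneg_of_nonpos (sq_nonneg s)
    (sum_nonpos fun i _ => im_res_nonpos hη (im_z η) (symG_transpose s x) i)

theorem lip_mN (hη : 0 < η) (hs : s ^ 2 * Fintype.card ι = 1) (x y : ι × ι → ℝ) :
    ‖mN η s x - mN η s y‖ ≤ √2 * s ^ 2 / η ^ 2 * en (x - y) := by
  have hx := symG_transpose s x
  have hy := symG_transpose s y
  rw [mN, mN, ← mul_sub, ← trace_sub, Gz, Gz, res_sub_res (unit_Zm hη (im_z η) hx)
    (unit_Zm hη (im_z η) hy), symG_sub, norm_mul, Complex.norm_real,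
    Real.norm_of_nonneg (sq_nonneg s)]
  have h1 := cn_diag_mul3 (Gz η (symG s x)) (cx (symG s (x - y))) (Gz η (symG s y))
  have h2 : cop (Gz η (symG s x)) * Fr.hs (cx (symG s (x - y))) * cop (Gz η (symG s y)) ≤
      1 / η * (√2 * |s| * en (x - y)) * (1 / η) :=
    mul_le_mul (mul_le_mul (cop_Gz hη hx) (hs_symG_le s _) (hs_nonneg _) (by positivity))
      (cop_Gz hη hy) (cop_nonneg _) (by have := en_nonneg (x - y); positivity)
  have h3 := (norm_sum_le _ _).trans ((sum_norm_le_cn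
    (Gz η (symG s x) * cx (symG s (x - y)) * Gz η (symG s y)).diag).trans
      (mul_le_mul_of_nonneg_left (h1.trans h2) (Real.sqrt_nonneg _)))
  have h4 : √(Fintype.card ι) * |s| = 1 := by
    rw [← Real.sqrt_sq_eq_abs, ← Real.sqrt_mul (Nat.cast_nonneg _), mul_comm, hs, Real.sqrt_one]
  refine (mul_le_mul_of_nonneg_left h3 (sq_nonneg s)).trans (le_of_eq ?_)
  calc _ = (√(Fintype.card ι) * |s|) * (√2 * s ^ 2 / η ^ 2 * en (x - y)) := by ring
    _ = _ := by rw [h4, one_mul]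

/-- deviation of a complex Lipschitz function -/
theorem dev_lip {κ : Type*} [Fintype κ] {F : (κ → ℝ) → ℂ} {L : ℝ} (hL : 0 ≤ L)
    (h : ∀ x y, ‖F x - F y‖ ≤ L * en (x - y)) (hi : Integrable F (gv κ)) :
    ∫ x, ‖F x - ∫ y, F y ∂(gv κ)‖ ∂(gv κ) ≤ 2 * L ∧
      ∫ x, ‖F x - ∫ y, F y ∂(gv κ)‖ ^ 2 ∂(gv κ) ≤ 2 * L ^ 2 := by
  have h1 : ELip L fun x => (F x).re := fun x y =>
    (Complex.abs_re_le_norm (F x - F y)).trans (h x y)
  have h2 : ELip L fun x => (F x).im := fun x y =>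
    (Complex.abs_im_le_norm (F x - F y)).trans (h x y)
  have e1 : ∫ y, (F y).re ∂(gv κ) = (∫ y, F y ∂(gv κ)).re := integral_re hi
  have e2 : ∫ y, (F y).im ∂(gv κ) = (∫ y, F y ∂(gv κ)).im := integral_im hi
  constructor
  · have a1 := abs_dev_lip h1
    have a2 := abs_dev_lip h2
    rw [abs_of_nonneg hL, e1] at a1
    rw [abs_of_nonneg hL, e2] at a2
    have i1 := (h1.sub_const (∫ y, F y ∂(gv κ)).re).integrable.abs
    have i2 := (h2.sub_const (∫ y, F y ∂(gv κ)).im).integrable.abs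
    refine (integral_mono_of_nonneg (Filter.Eventually.of_forall fun x => norm_nonneg _) (i1.add i2)
      (Filter.Eventually.of_forall fun x => Complex.norm_le_abs_re_add_abs_im _)).trans ?_
    simp only [Pi.add_apply]
    rw [integral_add i1 i2]
    linarith
  · have a1 := var_lip h1
    have a2 := var_lip h2
    have i1 := subG_integrable_sq (subG_lip h1)
    have i2 := subG_integrable_sq (subG_lip h2)
    rw [e1] at a1 i1
    rw [e2] at a2 i2
    have e : ∀ x, ‖F x - ∫ y, F y ∂(gv κ)‖ ^ 2 = ((F x).re - (∫ y, F y ∂(gv κ)).re) ^ 2 +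
        ((F x).im - (∫ y, F y ∂(gv κ)).im) ^ 2 := fun x => by
      rw [Complex.sq_norm, Complex.normSq_apply]; simp [sq]
    simp only [e]
    rw [integral_add i1 i2]
    linarith

omit [DecidableEq ι] in
theorem card_ge (hs : s ^ 2 * Fintype.card ι = 1) : s ^ 2 ≤ 1 := by
  have h : Fintype.card ι ≠ 0 := fun h => by simp [h] at hs
  have : (1 : ℝ) ≤ Fintype.card ι := by exact_mod_cast Nat.one_le_iff_ne_zero.2 h
  nlinarith [sq_nonneg s]

/-- the self-consistent equation for the mean -/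
theorem mean_eq (hη : 0 < η) (hs : s ^ 2 * Fintype.card ι = 1) :
    ‖(∫ y, mN η s y ∂(gv (ι × ι))) * (∫ y, mN η s y ∂(gv (ι × ι))) -
      (2 + η * Complex.I) * (∫ y, mN η s y ∂(gv (ι × ι))) + 1‖ ≤
      4 * s ^ 4 / η ^ 4 + s ^ 2 / η ^ 2 := by
  have hG := continuous_Gz (ι := ι) hη s
  have hb : ∀ x : ι × ι → ℝ, cop (Gz η (symG s x)) ≤ 1 / η :=
    fun x => cop_Gz hη (symG_transpose s x)
  have hi := integrable_mN hη hs
  have hs' : ((s ^ 2 : ℝ) : ℂ) * Fintype.card ι = 1 := by exact_mod_cast hs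
  obtain ⟨μ, hμ⟩ : ∃ μ, μ = ∫ y, mN η s y ∂(gv (ι × ι)) := ⟨_, rfl⟩
  have bd : ∀ {A : (ι × ι → ℝ) → Matrix ι ι ℂ} {c : ℝ}, Continuous A → (∀ x, cop (A x) ≤ c) →
      ∀ i, Integrable (fun x => A x i i) (gv (ι × ι)) := fun {A c} h1 h2 i =>
    (integrable_const c).mono' (h1.matrix_elem i i).aestronglyMeasurable
      (Filter.Eventually.of_forall fun x => (entry_le _ i i).trans (h2 x))
  have iG := bd hG hb
  have iGG := bd (hG.matrix_mul hG) fun x => cop_mul_le' (hb x) (hb x)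
  have itG := bd (A := fun x => (Gz η (symG s x)).trace • Gz η (symG s x))
      (hG.matrix_trace.smul hG) (c := Fintype.card ι * (1 / η) * (1 / η)) fun x => by
    rw [cop_smul]
    exact mul_le_mul ((trace_le _).trans (mul_le_mul_of_nonneg_left (hb x) (Nat.cast_nonneg _)))
      (hb x) (cop_nonneg _) (by positivity)
  have st : ∀ i : ι, ∫ x, ((2 + η * Complex.I) * Gz η (symG s x) i i - 1) ∂(gv (ι × ι)) =
      ∫ x, ((s ^ 2 : ℝ) : ℂ) * (((Gz η (symG s x)).trace • Gz η (symG s x)) i i +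
        (Gz η (symG s x) * Gz η (symG s x)) i i) ∂(gv (ι × ι)) := fun i => by
    have h := stein_res hη (im_z η) s (Pi.single i 1) (Pi.single i 1) (w := fun _ => 1)
      (w' := fun _ _ => 0) continuous_const (fun _ => measurable_const)
      (fun _ _ => hasDerivAt_const _ _) (C := 1) (C' := 0) (by simp) (by simp)
    have z : cx (symG s fun _ : ι × ι => (0 : ℝ)) = 0 := by ext; simp [symG]
    simp only [bl_single, z, Matrix.zero_mul, Matrix.zero_apply, add_zero, Complex.ofReal_one,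
      one_mul] at h
    refine Eq.trans (integral_congr_ae (Filter.Eventually.of_forall fun x => ?_)) h
    have := congrFun (congrFun (mul_Gz hη (symG_transpose s x)) i) i
    simp only [Matrix.sub_apply, Matrix.smul_apply, smul_eq_mul, one_apply_eq] at this
    exact this.symm
  obtain ⟨T, hT⟩ : ∃ T : (ι × ι → ℝ) → ℂ, T = fun x =>
    ((s ^ 2 : ℝ) : ℂ) ^ 2 * (Gz η (symG s x) * Gz η (symG s x)).trace := ⟨_, rfl⟩
  have iT : Integrable T (gv (ι × ι)) := hT ▸ (integrable_finsetSum _ fun i _ => iGG i).const_mul _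
  have i2 : Integrable (fun x => mN η s x * mN η s x) (gv (ι × ι)) :=
    hi.bdd_mul (continuous_mN hη s).aestronglyMeasurable
      (Filter.Eventually.of_forall (norm_mN hη hs))
  have s1 : (2 + η * Complex.I) * μ - 1 =
      ∫ x, mN η s x * mN η s x ∂(gv (ι × ι)) + ∫ x, T x ∂(gv (ι × ι)) := by
    have h := sum_congr (rfl : (univ : Finset ι) = univ) fun i _ => st i
    rw [← integral_finsetSum _ fun i _ => ((iG i).const_mul _).sub' (integrable_const _),
      ← integral_finsetSum _ fun i _ => ((itG i).fun_add (iGG i)).const_mul _] at h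
    have h' := congrArg (fun t => ((s ^ 2 : ℝ) : ℂ) * t) h
    simp only [← integral_const_mul] at h'
    rw [← integral_add i2 iT, hμ, ← integral_const_mul]
    calc _ = ∫ x, ((2 + η * Complex.I) * mN η s x - 1) ∂(gv (ι × ι)) := by
          rw [integral_sub (hi.const_mul _) (integrable_const _)]; simp
      _ = _ := by
        refine Eq.trans (integral_congr_ae (Filter.Eventually.of_forall fun x => ?_))
          (h'.trans (integral_congr_ae (Filter.Eventually.of_forall fun x => ?_)))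
        · simp only [sum_sub_distrib, ← mul_sum, mN, Matrix.trace, Matrix.diag, sum_const, card_univ,
            nsmul_eq_mul, mul_one]
          linear_combination hs'
        · simp only [sum_add_distrib, ← mul_sum, mN, hT, Matrix.trace, Matrix.diag,
            Matrix.smul_apply, smul_eq_mul]
          ring
  have s2 : ∫ x, (mN η s x - μ) * (mN η s x - μ) ∂(gv (ι × ι)) =
      ∫ x, mN η s x * mN η s x ∂(gv (ι × ι)) - μ * μ := by
    have e : ∀ x : ι × ι → ℝ, (mN η s x - μ) * (mN η s x - μ) =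
        mN η s x * mN η s x - ((2 * μ) * mN η s x - μ * μ) := fun x => by ring
    simp only [e]
    rw [integral_sub i2 ((hi.const_mul _).sub' (integrable_const _)),
      integral_sub (hi.const_mul _) (integrable_const _), integral_const_mul, ← hμ]
    simp; ring
  have b1 : ‖∫ x, (mN η s x - μ) * (mN η s x - μ) ∂(gv (ι × ι))‖ ≤ 4 * s ^ 4 / η ^ 4 := by
    have h := (dev_lip (by positivity) (lip_mN hη hs) hi).2
    refine (norm_integral_le_integral_norm _).trans ?_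
    simp only [← sq, norm_pow, hμ]
    refine h.trans (le_of_eq ?_)
    rw [div_pow, mul_pow, Real.sq_sqrt (by norm_num)]; ring
  have b2 : ‖∫ x, T x ∂(gv (ι × ι))‖ ≤ s ^ 2 / η ^ 2 := by
    have := norm_integral_le_of_norm_le_const (μ := gv (ι × ι)) (f := T) (C := s ^ 2 / η ^ 2)
      (Filter.Eventually.of_forall fun x => by
        rw [hT, norm_mul, norm_pow, Complex.norm_real, Real.norm_of_nonneg (sq_nonneg s)]
        have h1 := (trace_le _).trans (mul_le_mul_of_nonneg_left (cop_mul_le' (hb x) (hb x))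
          (Nat.cast_nonneg (Fintype.card ι)))
        refine (mul_le_mul_of_nonneg_left h1 (sq_nonneg _)).trans (le_of_eq ?_)
        calc _ = (s ^ 2 * Fintype.card ι) * (s ^ 2 / η ^ 2) := by ring
          _ = _ := by rw [hs, one_mul])
    simpa using this
  rw [← hμ]
  have e : μ * μ - (2 + η * Complex.I) * μ + 1 =
      -(∫ x, (mN η s x - μ) * (mN η s x - μ) ∂(gv (ι × ι)) + ∫ x, T x ∂(gv (ι × ι))) := by
    rw [s2]; linear_combination -s1
  rw [e, norm_neg]
  exact (norm_add_le _ _).trans (add_le_add b1 b2)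

theorem Root.im_ge {a : ℂ} (ha : Root η a) (hη : 0 < η) (hη1 : η ≤ 1) :
    √η / 2 ≤ a.im ∧ a.im ≤ 2 * √η ∧ η ≤ √η := by
  have h1 : √η ≤ 1 := Real.sqrt_le_one.2 hη1
  have h0 : 0 < √η := Real.sqrt_pos.2 hη
  have h2 : √η ^ 2 = η := Real.sq_sqrt hη.le
  obtain ⟨-, -, h3, h4⟩ := Root.bd (s := √η) (a := a) (by rwa [h2]) h0 h1
  exact ⟨h3, h4, by nlinarith⟩

theorem mean_close {a : ℂ} (ha : Root η a) (hη : 0 < η) (hη1 : η ≤ 1)
    (hs : s ^ 2 * Fintype.card ι = 1) :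
    ‖(∫ y, mN η s y ∂(gv (ι × ι))) - a⁻¹‖ ≤ 10 * s ^ 2 / η ^ 5 := by
  have h := mean_eq hη hs
  have him : (∫ y, mN η s y ∂(gv (ι × ι))).im ≤ 0 := by
    have e : ∫ y, (mN η s y).im ∂(gv (ι × ι)) = (∫ y, mN η s y ∂(gv (ι × ι))).im :=
      integral_im (integrable_mN hη hs)
    rw [← e]; exact integral_nonpos fun x => im_mN hη x
  generalize (∫ y, mN η s y ∂(gv (ι × ι))) = μ at *
  have e : μ * μ - (2 + η * Complex.I) * μ + 1 = (μ - a⁻¹) * (μ - a) := by
    rw [ha.inv]; linear_combination ha.eq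
  obtain ⟨h1, -, h3⟩ := Root.im_ge ha hη hη1
  have h4 : η / 2 ≤ ‖μ - a‖ := by
    have := Complex.abs_im_le_norm (μ - a)
    have := neg_abs_le (μ - a).im
    have := neg_le_abs (μ - a).im
    rw [Complex.sub_im] at *
    linarith
  rw [e, norm_mul] at h
  have h5 : 4 * s ^ 4 / η ^ 4 + s ^ 2 / η ^ 2 ≤ 5 * s ^ 2 / η ^ 4 := by
    have := card_ge hs
    have e : s ^ 2 / η ^ 2 = s ^ 2 * η ^ 2 / η ^ 4 := by field_simp
    rw [e, ← add_div]
    refine div_le_div_of_nonneg_right ?_ (by positivity)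
    have : η ^ 2 ≤ 1 := pow_le_one₀ hη.le hη1
    nlinarith [sq_nonneg s]
  have h6 := (mul_le_mul_of_nonneg_left h4 (norm_nonneg (μ - a⁻¹))).trans (h.trans h5)
  rw [le_div_iff₀ (by positivity)] at h6 ⊢
  nlinarith

/-- **averaged semicircle law** -/
theorem law {a : ℂ} (ha : Root η a) (hη : 0 < η) (hη1 : η ≤ 1)
    (hs : s ^ 2 * Fintype.card ι = 1) :
    ∫ x, ‖mN η s x - a⁻¹‖ ∂(gv (ι × ι)) ≤ 13 * s ^ 2 / η ^ 5 := by
  have hi := integrable_mN hη hs
  have h1 := (dev_lip (by positivity) (lip_mN hη hs) hi).1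
  have h2 := mean_close ha hη hη1 hs
  generalize (∫ y, mN η s y ∂(gv (ι × ι))) = μ at *
  have i1 := (hi.sub' (integrable_const μ)).norm
  have h3 : ∫ x, ‖mN η s x - a⁻¹‖ ∂(gv (ι × ι)) ≤
      ∫ x, (‖mN η s x - μ‖ + ‖μ - a⁻¹‖) ∂(gv (ι × ι)) :=
    integral_mono_of_nonneg (Filter.Eventually.of_forall fun x => norm_nonneg _)
      (i1.add (integrable_const _))
      (Filter.Eventually.of_forall fun x => norm_sub_le_norm_sub_add_norm_sub _ _ _)
  rw [integral_add i1 (integrable_const _)] at h3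
  simp only [integral_const, probReal_univ, smul_eq_mul, one_mul] at h3
  have h4 : 2 * (√2 * s ^ 2 / η ^ 2) ≤ 3 * s ^ 2 / η ^ 5 := by
    have e : 2 * (√2 * s ^ 2 / η ^ 2) = (2 * √2 * η ^ 3) * s ^ 2 / η ^ 5 := by field_simp
    rw [e]
    refine div_le_div_of_nonneg_right (mul_le_mul_of_nonneg_right ?_ (sq_nonneg s)) (by positivity)
    have : η ^ 3 ≤ 1 := pow_le_one₀ hη.le hη1
    have h : √2 ≤ 3 / 2 := Real.sqrt_le_iff.2 (by norm_num)
    nlinarith [Real.sqrt_nonneg 2, pow_pos hη 3]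
  have e : 13 * s ^ 2 / η ^ 5 = 3 * s ^ 2 / η ^ 5 + 10 * s ^ 2 / η ^ 5 := by ring
  linarith

/-! ### the Schwinger–Dyson defect -/

/-- **SD identity for a finite family of weights**: `w ω` are the (pair) weights, `w' ω p` their
derivatives in the Gaussian coordinate `p`. -/
theorem sd_defect {a : ℂ} (ha : Root η a) (hη : 0 < η) (hη1 : η ≤ 1)
    (hs : s ^ 2 * Fintype.card ι = 1) {Ω : Type*} [Fintype Ω] (u v : Ω → ι → ℂ)
    {w : Ω → (ι × ι → ℝ) → ℝ} {w' : Ω → ι × ι → (ι × ι → ℝ) → ℝ} (hw : ∀ ω, Continuous (w ω))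
    (hw' : ∀ ω p, Measurable (w' ω p))
    (hD : ∀ ω p x, HasDerivAt (fun t => w ω (update x p t)) (w' ω p x) (x p))
    {C C' R : ℝ} (hC : ∀ x, ∑ ω, |w ω x| ≤ C) (hC' : ∀ ω p x, |w' ω p x| ≤ C')
    (hR0 : 0 ≤ R) (hR : ∀ ω, cn (u ω) * cn (v ω) ≤ R) :
    ‖∫ x, ∑ ω, ((w ω x : ℂ) * (a * bl (Gz η (symG s x)) (u ω) (v ω) - u ω ⬝ᵥ v ω) -
        bl (cx (symG s fun p => w' ω p x) * Gz η (symG s x)) (u ω) (v ω)) ∂(gv (ι × ι))‖ ≤
      C * R * (14 * s ^ 2 / η ^ 6) := by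
  have hG := continuous_Gz (ι := ι) hη s
  have hb : ∀ x : ι × ι → ℝ, cop (Gz η (symG s x)) ≤ 1 / η :=
    fun x => cop_Gz hη (symG_transpose s x)
  have hC1 : ∀ ω x, |w ω x| ≤ C := fun ω x =>
    (single_le_sum (f := fun ω => |w ω x|) (fun _ _ => abs_nonneg _) (mem_univ ω)).trans (hC x)
  have hC0 : 0 ≤ C := (sum_nonneg fun _ _ => abs_nonneg _).trans (hC 0)
  have iw : ∀ ω {f : (ι × ι → ℝ) → ℂ} {c : ℝ}, Continuous f → (∀ x, ‖f x‖ ≤ c) →
      Integrable (fun x => (w ω x : ℂ) * f x) (gv (ι × ι)) := fun ω {f c} h1 h2 =>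
    (integrable_const (C * c)).mono'
      ((Complex.continuous_ofReal.comp (hw ω)).mul h1).aestronglyMeasurable
      (Filter.Eventually.of_forall fun x => by
        rw [norm_mul, Complex.norm_real]
        exact mul_le_mul (hC1 ω x) (h2 x) (norm_nonneg _) hC0)
  -- the defect
  obtain ⟨E, hE⟩ : ∃ E : Ω → (ι × ι → ℝ) → ℂ, E = fun ω x =>
    (mN η s x - a⁻¹) * bl (Gz η (symG s x)) (u ω) (v ω) +
      ((s ^ 2 : ℝ) : ℂ) * bl (Gz η (symG s x) * Gz η (symG s x)) (u ω) (v ω) := ⟨_, rfl⟩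
  have cE : ∀ ω, Continuous (E ω) := fun ω => hE ▸
    (((continuous_mN hη s).sub continuous_const).mul (Continuous.bl hG _ _)).add
      (continuous_const.mul (Continuous.bl (hG.matrix_mul hG) _ _))
  have bE : ∀ ω x, ‖E ω x‖ ≤ R * (‖mN η s x - a⁻¹‖ / η + s ^ 2 / η ^ 2) := fun ω x => by
    have h1 := (norm_bl_le' (hb x) (u ω) (v ω)).trans
      (mul_le_mul_of_nonneg_left (hR ω) (by positivity))
    have h2 := (norm_bl_le' (cop_mul_le' (hb x) (hb x)) (u ω) (v ω)).trans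
      (mul_le_mul_of_nonneg_left (hR ω) (by positivity))
    rw [hE]
    refine (norm_add_le _ _).trans ?_
    rw [norm_mul, norm_mul, Complex.norm_real, Real.norm_of_nonneg (sq_nonneg s)]
    refine (add_le_add (mul_le_mul_of_nonneg_left h1 (norm_nonneg _))
      (mul_le_mul_of_nonneg_left h2 (sq_nonneg s))).trans (le_of_eq ?_)
    ring
  have bE' : ∀ ω x, ‖E ω x‖ ≤ R * ((1 / η + ‖a⁻¹‖) / η + s ^ 2 / η ^ 2) := fun ω x =>
    (bE ω x).trans (by
      have := (norm_sub_le (mN η s x) a⁻¹).trans (add_le_add_left (norm_mN hη hs x) _)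
      gcongr)
  have iE := fun ω => iw ω (cE ω) (bE' ω)
  have iB : ∀ ω, Integrable (fun x =>
      bl (cx (symG s fun p => w' ω p x) * Gz η (symG s x)) (u ω) (v ω)) (gv (ι × ι)) := fun ω => by
    simp only [← sum_Ap s fun p => w' ω p _, Finset.sum_mul, bl_sum, smul_mul_assoc, bl_smul]
    refine integrable_finsetSum _ fun p _ => (integrable_const (C' * ((√2 * |s|) * (1 / η) *
      (cn (u ω) * cn (v ω))))).mono' ((Complex.measurable_ofReal.comp (hw' ω p)).mul
      (Continuous.bl (continuous_const.matrix_mul hG) _ _).measurable).aestronglyMeasurable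
      (Filter.Eventually.of_forall fun x => ?_)
    rw [norm_mul, Complex.norm_real]
    exact mul_le_mul (hC' ω p x) (norm_bl_le' (cop_mul_le' (cop_Ap_le s p) (hb x)) _ _)
      (norm_nonneg _) ((abs_nonneg _).trans (hC' ω p x))
  have iG := fun ω => iw ω (Continuous.bl hG (u ω) (v ω)) fun x => norm_bl_le' (hb x) _ _
  have i1 := fun ω => iw ω (f := fun _ => u ω ⬝ᵥ v ω) continuous_const fun _ => le_rfl
  have key : ∀ ω, Integrable (fun x => (w ω x : ℂ) *
        (a * bl (Gz η (symG s x)) (u ω) (v ω) - u ω ⬝ᵥ v ω) -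
        bl (cx (symG s fun p => w' ω p x) * Gz η (symG s x)) (u ω) (v ω)) (gv (ι × ι)) ∧
      ∫ x, ((w ω x : ℂ) * (a * bl (Gz η (symG s x)) (u ω) (v ω) - u ω ⬝ᵥ v ω) -
        bl (cx (symG s fun p => w' ω p x) * Gz η (symG s x)) (u ω) (v ω)) ∂(gv (ι × ι)) =
      ∫ x, (w ω x : ℂ) * E ω x ∂(gv (ι × ι)) := fun ω => by
    have h := stein_res hη (im_z η) s (u ω) (v ω) (hw ω) (hw' ω) (hD ω) (hC1 ω) (hC' ω)
    have j1 : Integrable (fun x => (w ω x : ℂ) *
        bl (cx (symG s x) * Gz η (symG s x)) (u ω) (v ω)) (gv (ι × ι)) := by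
      refine (((iG ω).const_mul (2 + η * Complex.I)).sub (i1 ω)).congr
        (Filter.Eventually.of_forall fun x => ?_)
      simp only [mul_Gz hη (symG_transpose s x), bl_sub, bl_smul, bl_one, Pi.sub_apply]; ring
    have j2 := (iG ω).const_mul a⁻¹
    have e1 : ∀ x, (w ω x : ℂ) * (a * bl (Gz η (symG s x)) (u ω) (v ω) - u ω ⬝ᵥ v ω) -
        bl (cx (symG s fun p => w' ω p x) * Gz η (symG s x)) (u ω) (v ω) =
        (w ω x : ℂ) * bl (cx (symG s x) * Gz η (symG s x)) (u ω) (v ω) -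
          (a⁻¹ * ((w ω x : ℂ) * bl (Gz η (symG s x)) (u ω) (v ω)) +
          bl (cx (symG s fun p => w' ω p x) * Gz η (symG s x)) (u ω) (v ω)) := fun x => by
      rw [mul_Gz hη (symG_transpose s x), bl_sub, bl_smul, bl_one, ha.inv]; ring
    simp only [e1]
    refine ⟨j1.sub (j2.add (iB ω)), ?_⟩
    rw [integral_sub j1 (j2.fun_add (iB ω)), sub_eq_iff_eq_add,
      ← integral_add (iE ω) (j2.fun_add (iB ω))]
    refine h.trans (integral_congr_ae (Filter.Eventually.of_forall fun x => ?_))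
    simp only [hE, mN, Gz]; ring
  rw [integral_finsetSum _ fun ω _ => (key ω).1, sum_congr rfl fun ω _ => (key ω).2,
    ← integral_finsetSum _ fun ω _ => iE ω]
  have im := ((integrable_mN hη hs).sub' (integrable_const a⁻¹)).norm
  refine (norm_integral_le_of_norm_le ((((im.div_const η).fun_add
    (integrable_const (s ^ 2 / η ^ 2))).const_mul R).const_mul C)
    (Filter.Eventually.of_forall fun x => ?_)).trans ?_
  · refine (norm_sum_le _ _).trans ((sum_le_sum fun ω _ => ?_).trans ((sum_mul ..).ge.trans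
      (mul_le_mul_of_nonneg_right (hC x) (by positivity))))
    rw [norm_mul, Complex.norm_real]
    exact mul_le_mul_of_nonneg_left (bE ω x) (norm_nonneg _)
  · rw [integral_const_mul, integral_const_mul, integral_add (im.div_const η) (integrable_const _),
      integral_div, mul_assoc]
    simp only [integral_const, probReal_univ, smul_eq_mul, one_mul]
    have h1 := div_le_div_of_nonneg_right (law ha hη hη1 hs) hη.le
    have h2 : s ^ 2 / η ^ 2 ≤ s ^ 2 / η ^ 6 :=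
      div_le_div_of_nonneg_left (sq_nonneg s) (by positivity)
        (pow_le_pow_of_le_one hη.le hη1 (by norm_num))
    have e : 14 * s ^ 2 / η ^ 6 = 13 * s ^ 2 / η ^ 5 / η + s ^ 2 / η ^ 6 := by field_simp; ring
    rw [e]
    gcongr

end law

/-! ### the edge weight and the tilted Hamiltonian -/

/-- complexification of a vector -/
def cv (u : ι → ℝ) : ι → ℂ := fun i => (u i : ℂ)

omit [DecidableEq ι] in
theorem bl_cx (W : Matrix ι ι ℝ) (u v : ι → ℝ) : bl (cx W) (cv u) (cv v) = (u ⬝ᵥ W *ᵥ v : ℝ) := by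
  simp [bl, cv, dotProduct, mulVec]

omit [DecidableEq ι] in
theorem cv_dot (u v : ι → ℝ) : cv u ⬝ᵥ cv v = (u ⬝ᵥ v : ℝ) := by simp [cv, dotProduct]

omit [DecidableEq ι] in
theorem cn_cv (u : ι → ℝ) : cn (cv u) = √(u ⬝ᵥ u) := by simp [cn, cv, dotProduct, sq]

omit [DecidableEq ι] in
theorem im_bl_cv (A : Matrix ι ι ℂ) (u v : ι → ℝ) :
    (bl A (cv u) (cv v)).im = u ⬝ᵥ (A.map Complex.im) *ᵥ v := by
  simp [bl, cv, dotProduct, mulVec, Complex.im_sum]

theorem im_Gz {η : ℝ} (hη : 0 < η) {W : Matrix ι ι ℝ} (hW : Wᵀ = W) :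
    η ^ 2 • (((2 : ℝ) • 1 - W) * ((2 : ℝ) • 1 - W) + η ^ 2 • (1 : Matrix ι ι ℝ))⁻¹ =
      (-η) • (Gz η W).map Complex.im := by
  obtain ⟨B, hB⟩ : ∃ B : Matrix ι ι ℝ, B = (2 : ℝ) • 1 - W := ⟨_, rfl⟩
  have hBt : Bᴴ = B := by
    rw [conjTranspose_eq_transpose_of_trivial, hB, transpose_sub, transpose_smul, transpose_one, hW]
  rw [← hB]
  obtain ⟨M, hM⟩ : ∃ M : Matrix ι ι ℝ, M = B * B + η ^ 2 • 1 := ⟨_, rfl⟩
  have hpd : M.PosDef := by
    have h1 := posSemidef_conjTranspose_mul_self B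
    rw [hBt] at h1
    exact hM ▸ Matrix.PosDef.posSemidef_add h1 (Matrix.PosDef.one.smul (by positivity))
  have hu : M * M⁻¹ = 1 := mul_nonsing_inv _ ((isUnit_iff_isUnit_det _).1 hpd.isUnit)
  have hZ : Zm (fun _ => (2 + η * Complex.I : ℂ)) W = cx B + (η * Complex.I : ℂ) • 1 := by
    rw [Zm, hB, cx_sub, cx_smul, cx_one, ← smul_one_eq_diagonal, add_smul]
    push_cast; abel
  have hG : Gz η W = cx (B * M⁻¹) - (η * Complex.I : ℂ) • cx M⁻¹ := by
    refine inv_eq_right_inv ?_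
    have e : (cx B + (η * Complex.I : ℂ) • 1) * (cx B - (η * Complex.I : ℂ) • 1) = cx M := by
      rw [hM, cx_add, cx_mul, cx_smul, cx_one]
      simp only [Matrix.add_mul, Matrix.mul_sub, smul_mul_assoc, mul_smul_comm, Matrix.one_mul,
        Matrix.mul_one, smul_add, smul_smul]
      have : (η * Complex.I : ℂ) * (η * Complex.I) = -((η ^ 2 : ℝ) : ℂ) := by
        push_cast; linear_combination (η : ℂ) ^ 2 * Complex.I_mul_I
      rw [this, neg_smul]; abel
    have e2 : cx (B * M⁻¹) - (η * Complex.I : ℂ) • cx M⁻¹ =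
        (cx B - (η * Complex.I : ℂ) • 1) * cx M⁻¹ := by
      rw [cx_mul, Matrix.sub_mul, smul_mul_assoc, Matrix.one_mul]
    rw [hZ, e2, ← Matrix.mul_assoc, e, ← cx_mul, hu, cx_one]
  rw [← hM, hG]
  ext i j
  simp; ring

/-- the derivative of `τ·A(J)τ = -η Im τ·Gτ` in the coordinate `p` -/
def dQ (η s : ℝ) (τ : ι → ℝ) (x : ι × ι → ℝ) (p : ι × ι) : ℝ :=
  -η * (bl (Gz η (symG s x) * Ap s p * Gz η (symG s x)) (cv τ) (cv τ)).im

/-- the derivative of `τ·Jτ` in the coordinate `p` -/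
def dH (s : ℝ) (τ : ι → ℝ) (p : ι × ι) : ℝ := √2 * s * (τ p.1 * τ p.2)

theorem hasDerivAt_dQ {η : ℝ} (hη : 0 < η) (s : ℝ) (τ : ι → ℝ) (x : ι × ι → ℝ) (p : ι × ι) :
    HasDerivAt (fun t => -η * (bl (Gz η (symG s (update x p t))) (cv τ) (cv τ)).im)
      (dQ η s τ x p) (x p) :=
  (Complex.imCLM.hasFDerivAt.comp_hasDerivAt _
    (hasDerivAt_res hη (im_z η) s x p (cv τ) (cv τ))).const_mul (-η)

theorem continuous_dQ {η : ℝ} (hη : 0 < η) (s : ℝ) (τ : ι → ℝ) (p : ι × ι) :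
    Continuous fun x => dQ η s τ x p :=
  continuous_const.mul (Complex.continuous_im.comp (Continuous.bl (((continuous_Gz hη s).matrix_mul
    continuous_const).matrix_mul (continuous_Gz hη s)) _ _))

theorem sqrt2 (s : ℝ) : s / √2 * 2 = √2 * s := by
  have h : √2 * √2 = 2 := Real.mul_self_sqrt (by norm_num)
  have h0 : √2 ≠ 0 := by positivity
  field_simp; rw [sq, h]

theorem hasDerivAt_dH (s : ℝ) (τ : ι → ℝ) (x : ι × ι → ℝ) (p : ι × ι) :
    HasDerivAt (fun t => τ ⬝ᵥ symG s (update x p t) *ᵥ τ) (dH s τ p) (x p) := by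
  have e0 : τ ⬝ᵥ symG s (Pi.single p 1) *ᵥ τ = dH s τ p := by
    have h := bl_Ap s p (cv τ) (cv τ)
    rw [Ap, bl_cx] at h
    have h' : τ ⬝ᵥ symG s (Pi.single p 1) *ᵥ τ = s / √2 * (τ p.1 * τ p.2 + τ p.2 * τ p.1) := by
      simp only [cv] at h; exact_mod_cast h
    rw [h', dH, ← sqrt2]; ring
  have e : ∀ t, τ ⬝ᵥ symG s (update x p t) *ᵥ τ = τ ⬝ᵥ symG s x *ᵥ τ + (t - x p) * dH s τ p :=
    fun t => by
      rw [← e0, ← smul_eq_mul, ← dotProduct_smul, ← smul_mulVec, ← symG_update, sub_mulVec,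
        dotProduct_sub]
      ring
  simp only [e]
  simpa using (((hasDerivAt_id (x p)).sub_const (x p)).mul_const (dH s τ p)).const_add
    (τ ⬝ᵥ symG s x *ᵥ τ)

omit [DecidableEq ι] in
/-- the Hamiltonian direction produces overlaps -/
theorem bl_dH (s : ℝ) (τ : ι → ℝ) (u y : ι → ℂ) :
    bl (cx (symG s (dH s τ))) u y = 2 * ((s ^ 2 : ℝ) : ℂ) * ((u ⬝ᵥ cv τ) * (cv τ ⬝ᵥ y)) := by
  have e : ∀ i j, symG s (dH s τ) i j = 2 * s ^ 2 * (τ i * τ j) := fun i j => by
    have h : √2 * √2 = 2 := Real.mul_self_sqrt (by norm_num)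
    simp only [symG, of_apply, dH]
    linear_combination (√2 * s * τ i * τ j) * sqrt2 s + (s ^ 2 * τ i * τ j) * h
  rw [dotProduct, dotProduct, sum_mul_sum]
  simp only [bl, dotProduct, mulVec, cx_apply, e, cv, mul_sum]
  refine sum_congr rfl fun i _ => sum_congr rfl fun j _ => ?_
  push_cast; ring

/-- the tilt direction is small -/
theorem en_dQ {η : ℝ} (hη : 0 < η) (s : ℝ) (τ : ι → ℝ) (x : ι × ι → ℝ) :
    en (dQ η s τ x) ≤ √2 * |s| * (τ ⬝ᵥ τ) / η := by
  have hW := symG_transpose s x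
  have h0 : 0 ≤ τ ⬝ᵥ τ := sum_nonneg fun i _ => mul_self_nonneg _
  obtain ⟨y, hy⟩ : ∃ y, y = Gz η (symG s x) *ᵥ cv τ := ⟨_, rfl⟩
  have h1 : cn y ≤ 1 / η * √(τ ⬝ᵥ τ) := by
    rw [hy, ← cn_cv]
    exact (cn_mulVec_le _ _).trans (mul_le_mul_of_nonneg_right (cop_Gz hη hW) (cn_nonneg _))
  have h2 : ∀ p : ι × ι, dQ η s τ x p ^ 2 ≤ (η * (√2 * s)) ^ 2 * (‖y p.1‖ ^ 2 * ‖y p.2‖ ^ 2) :=
    fun p => by
      rw [dQ, bl_mul, bl_mul', Gz_transpose η hW, ← hy, bl_Ap]
      have e : ((s / √2 : ℝ) : ℂ) * (y p.1 * y p.2 + y p.2 * y p.1) =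
          ((√2 * s : ℝ) : ℂ) * (y p.1 * y p.2) := by
        rw [← sqrt2]; push_cast; ring
      rw [e, Complex.im_ofReal_mul]
      have h3 := pow_le_pow_left₀ (abs_nonneg _) (Complex.abs_im_le_norm (y p.1 * y p.2)) 2
      rw [sq_abs, norm_mul, mul_pow] at h3
      calc _ = (η * (√2 * s)) ^ 2 * (y p.1 * y p.2).im ^ 2 := by ring
        _ ≤ _ := mul_le_mul_of_nonneg_left h3 (sq_nonneg _)
  refine Real.sqrt_le_iff.2 ⟨by positivity, (sum_le_sum fun p _ => h2 p).trans ?_⟩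
  rw [← mul_sum, Fintype.sum_prod_type]
  simp only
  rw [← sum_mul_sum, ← cn_sq]
  have h4 := pow_le_pow_left₀ (cn_nonneg y) h1 2
  rw [mul_pow, Real.sq_sqrt h0] at h4
  refine (mul_le_mul_of_nonneg_left (mul_le_mul h4 h4 (sq_nonneg _) (by positivity))
    (sq_nonneg _)).trans (le_of_eq ?_)
  rw [div_pow (√2 * |s| * _), mul_pow (√2 * |s|), mul_pow √2 |s|, sq_abs]
  field_simp

theorem norm_bl_dQ {η : ℝ} (hη : 0 < η) (s : ℝ) (τ : ι → ℝ) (x : ι × ι → ℝ) (u v : ι → ℂ) :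
    ‖bl (cx (symG s (dQ η s τ x)) * Gz η (symG s x)) u v‖ ≤
      2 * s ^ 2 * (τ ⬝ᵥ τ) / η ^ 2 * (cn u * cn v) := by
  have h1 := (cop_symG_le s (dQ η s τ x)).trans
    (mul_le_mul_of_nonneg_left (en_dQ hη s τ x) (by positivity))
  refine (norm_bl_le' (cop_mul_le' h1 (cop_Gz hη (symG_transpose s x))) u v).trans (le_of_eq ?_)
  have h : √2 * √2 = 2 := Real.mul_self_sqrt (by norm_num)
  congr 1
  calc _ = (√2 * √2) * |s| ^ 2 * (τ ⬝ᵥ τ) / η ^ 2 := by ring
    _ = _ := by rw [h, sq_abs]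

omit [Fintype ι] [DecidableEq ι] in
theorem cx_symG_sum {κ : Type*} (S : Finset κ) (s : ℝ) (k : κ → ℝ) (c : κ → ι × ι → ℝ) :
    cx (symG s fun p => ∑ t ∈ S, k t * c t p) = ∑ t ∈ S, (k t : ℂ) • cx (symG s (c t)) := by
  ext i j
  simp only [cx_apply, symG, of_apply, Matrix.sum_apply, Matrix.smul_apply, smul_eq_mul,
    ← sum_add_distrib, mul_sum]
  push_cast
  exact sum_congr rfl fun t _ => by ring

omit [Fintype ι] [DecidableEq ι] in
theorem cx_symG_comb (s α β : ℝ) (c c' : ι × ι → ℝ) :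
    cx (symG s fun p => α * c p - β * c' p) =
      (α : ℂ) • cx (symG s c) - (β : ℂ) • cx (symG s c') := by
  ext i j
  simp only [cx_apply, symG, of_apply, Matrix.sub_apply, Matrix.smul_apply, smul_eq_mul]
  push_cast; ring

/-! ### the words of `PsiDef_33` -/

open Crest.Agent.T157.Ac
open Crest.Agent.T157.E (Cube sv)

variable {n : ℕ} {η : ℝ}

theorem hs_fin (hn : 0 < n) : (1 / √(n : ℝ)) ^ 2 * Fintype.card (Fin n) = 1 := by
  have : (0 : ℝ) < n := by exact_mod_cast hn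
  rw [div_pow, Real.sq_sqrt this.le, Fintype.card_fin]; field_simp

theorem sq_fin (n : ℕ) : (1 / √(n : ℝ)) ^ 2 = 1 / n := by
  rw [div_pow, Real.sq_sqrt (Nat.cast_nonneg n), one_pow]

theorem sv_dot (σ : Cube n) : sv σ ⬝ᵥ sv σ = n := by
  have : ∀ i, sv σ i * sv σ i = 1 := fun i => by
    unfold sv; cases σ i <;> simp [Crest.ProbabilityR.SpinGlassDynamics.spin]
  simp [dotProduct, this]

theorem cn_sv (σ : Cube n) : cn (cv (sv σ)) = √n := by rw [cn_cv, sv_dot]

theorem cn_sv_mul (σ τ : Cube n) : cn (cv (sv σ)) * cn (cv (sv τ)) = n := by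
  rw [cn_sv, cn_sv, Real.mul_self_sqrt (Nat.cast_nonneg n)]

theorem Qf_Am (hη : 0 < η) {J : Matrix (Fin n) (Fin n) ℝ} (hJ : Jᵀ = J) (σ : Cube n) :
    Qf (Am η J) σ = -η * (bl (Gz η J) (cv (sv σ)) (cv (sv σ))).im := by
  rw [Qf, Am, im_Gz hη hJ, im_bl_cv, smul_mulVec, dotProduct_smul, smul_eq_mul]

theorem hasDerivAt_Qf (hη : 0 < η) (σ : Cube n) (x : Fin n × Fin n → ℝ) (p : Fin n × Fin n) :
    HasDerivAt (fun t => Qf (Am η (Jg n (update x p t))) σ) (dQ η (1 / √n) (sv σ) x p) (x p) := by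
  simp only [Jg, fun t => Qf_Am hη (symG_transpose (1 / √n) (update x p t)) σ]
  exact hasDerivAt_dQ hη _ _ x p

theorem Tau_eq (hn : 0 < n) (hη : 0 < η) :
    Tau n η = -η * n * (∫ x, mN η (1 / √n) x ∂(gv (Fin n × Fin n))).im := by
  have e : ∫ y, (mN η (1 / √n) y).im ∂(gv (Fin n × Fin n)) =
      (∫ y, mN η (1 / √n) y ∂(gv (Fin n × Fin n))).im := integral_im (integrable_mN hη (hs_fin hn))
  rw [← e, ← integral_const_mul, Tau]
  refine integral_congr_ae (Filter.Eventually.of_forall fun x => ?_)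
  have : (n : ℝ) ≠ 0 := by exact_mod_cast hn.ne'
  simp only [Am, Jg, im_Gz hη (symG_transpose _ x), mN, sq_fin, Complex.im_ofReal_mul, trace_smul,
    smul_eq_mul]
  simp only [Matrix.trace, Matrix.diag, map_apply, Complex.im_sum]
  field_simp

/-- **the trace of the edge weight** -/
theorem Tau_le (hn : 0 < n) (hη : 0 < η) (hη1 : η ≤ 1) :
    Tau n η ≤ 2 * n * (η * √η) + 10 / η ^ 4 := by
  obtain ⟨a, ha⟩ := exists_root hη
  have h := mean_close ha hη hη1 (hs_fin hn)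
  obtain ⟨-, h2, -⟩ := Root.im_ge ha hη hη1
  have hn' : (0 : ℝ) < n := by exact_mod_cast hn
  rw [Tau_eq hn hη]
  rw [sq_fin] at h
  generalize (∫ y, mN η (1 / √n) y ∂(gv (Fin n × Fin n))) = μ at *
  have h3 := (neg_le_abs _).trans ((Complex.abs_im_le_norm (μ - a⁻¹)).trans h)
  have h4 : (μ - a⁻¹).im = μ.im - η + a.im := by rw [ha.inv]; simp; ring
  have h5 : -μ.im ≤ 2 * √η + 10 * (1 / n) / η ^ 5 := by linarith
  calc _ = η * n * -μ.im := by ring
    _ ≤ η * n * (2 * √η + 10 * (1 / n) / η ^ 5) := mul_le_mul_of_nonneg_left h5 (by positivity)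
    _ = _ := by field_simp

end Crest.Agent.T157.SdM
end
end

-- ▼ part T157/SdB_12
section

/-!
Row 157, part D (helper12): the Schwinger–Dyson equations for the resolvent kernel
`σ·(z - J)⁻¹ τ / n` under the pair laws of an arbitrary cascade started at the energy
`b/2 σ·Jσ - l Q(σ)`.
-/

set_option autoImplicit false
set_option linter.unusedSectionVars false

noncomputable section

namespace Crest.Agent.T157.Sd

open Finset Matrix MeasureTheory Function
open Crest.Agent.T157.E Crest.Agent.T157.Casc Crest.Agent.T157.SdA Crest.Agent.T157.SdM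
open Crest.Agent.T157.Ac Crest.Agent.T157.Cond
open Crest.Agent.T157.SL (Wt)

/-! ### complex kernels -/

section cplx
variable {Ω : Type*} [Fintype Ω] {w : Ω → ℝ}

/-- complex kernel against the pair law -/
def p2c (w : Ω → ℝ) (L : List (Lv Ω)) (j : ℕ) (g : Ω → Ω → ℂ) (h : Ω → ℝ) : ℂ :=
  ∑ x, ∑ y, (pl w L j x y h : ℂ) * g x y

/-- diagonal of a complex kernel against the one-point law -/
def p1c (w : Ω → ℝ) (L : List (Lv Ω)) (g : Ω → Ω → ℂ) (h : Ω → ℝ) : ℂ :=
  ∑ x, (P w L h x : ℂ) * g x x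

theorem norm_D3c (hw : Wt w) {L : List (Lv Ω)} (hM : Mono 0 L) {j : ℕ} (hj : j ≤ L.length)
    {K : Ω → Ω → Ω → ℂ} {S : ℝ} (e : ∀ x y ρ, ‖K x y ρ‖ ≤ S) (h : Ω → ℝ) :
    ‖∑ ρ, ∑ x, ∑ y, (dp w L j x y ρ h : ℂ) * K x y ρ‖ ≤ 12 * S := by
  have h1 := abs_D3_le hw hM hj (K := fun x y ρ => (K x y ρ).re)
    (fun x y ρ => (Complex.abs_re_le_norm _).trans (e x y ρ)) h
  have h2 := abs_D3_le hw hM hj (K := fun x y ρ => (K x y ρ).im)
    (fun x y ρ => (Complex.abs_im_le_norm _).trans (e x y ρ)) h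
  refine (Complex.norm_le_abs_re_add_abs_im _).trans ?_
  simp only [Complex.re_sum, Complex.im_sum, Complex.re_ofReal_mul, Complex.im_ofReal_mul]
  simp only [D3] at h1 h2
  linarith

theorem norm_Hsc (hw : Wt w) {L : List (Lv Ω)} (hM : Mono 0 L)
    {K : Ω → Ω → ℂ} {S : ℝ} (e : ∀ x y, ‖K x y‖ ≤ S) (h : Ω → ℝ) :
    ‖∑ x, ∑ y, (Hs w L h x y : ℂ) * K x y‖ ≤ 4 * S := by
  have h1 := abs_sum_Hs_le hw hM (K := fun x y => (K x y).re)
    (fun x y => (Complex.abs_re_le_norm _).trans (e x y)) h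
  have h2 := abs_sum_Hs_le hw hM (K := fun x y => (K x y).im)
    (fun x y => (Complex.abs_im_le_norm _).trans (e x y)) h
  refine (Complex.norm_le_abs_re_add_abs_im _).trans ?_
  simp only [Complex.re_sum, Complex.im_sum, Complex.re_ofReal_mul, Complex.im_ofReal_mul]
  linarith

theorem pr_re (K : ℕ) (m q : ℕ → ℝ) (gd : ℂ) (g : ℕ → ℂ) (j : ℕ) :
    (pr K (SdA.cx m) (SdA.cx q) gd g j).re = pr K m q gd.re (fun k => (g k).re) j := by
  simp [pr, hat, D, Complex.re_sum, Complex.im_sum]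

theorem pr_im (K : ℕ) (m q : ℕ → ℝ) (gd : ℂ) (g : ℕ → ℂ) (j : ℕ) :
    (pr K (SdA.cx m) (SdA.cx q) gd g j).im = pr K m q gd.im (fun k => (g k).im) j := by
  simp [pr, hat, D, Complex.re_sum, Complex.im_sum]

theorem prD_re (K : ℕ) (m q : ℕ → ℝ) (gd : ℂ) (g : ℕ → ℂ) :
    (prD K (SdA.cx m) (SdA.cx q) gd g).re = prD K m q gd.re fun k => (g k).re := by
  simp [prD, D, Complex.re_sum]

theorem prD_im (K : ℕ) (m q : ℕ → ℝ) (gd : ℂ) (g : ℕ → ℂ) :
    (prD K (SdA.cx m) (SdA.cx q) gd g).im = prD K m q gd.im fun k => (g k).im := by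
  simp [prD, D, Complex.im_sum]

variable {R : Ω → Ω → ℝ} {g : Ω → Ω → ℂ} {B : ℝ}

theorem D3c_approx (hw : Wt w) (hR : ∀ x, R x x = 1) (hs : ∀ x y, g x y = g y x)
    (hg : ∀ x y, ‖g x y‖ ≤ B) {L : List (Lv Ω)} (hM : Mono 0 L) {j : ℕ} (hj : j ≤ L.length)
    (q : ℕ → ℝ) (h : Ω → ℝ) :
    ‖∑ ρ, ∑ x, ∑ y, (dp w L j x y ρ h : ℂ) * (R x ρ * g ρ y) -
      pr L.length (SdA.cx (exP L 0)) (SdA.cx q) (p1c w L g h) (fun k => p2c w L k g h) j‖ ≤
      2 * B * (4 * p2 w L j (fun x y => |R x y - q j|) h +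
        ∑ k ∈ range (L.length + 1), D (exP L 0) k * p2 w L k (fun x y => |R x y - q k|) h) := by
  have h1 := D3_approx hw hR (g := fun x y => (g x y).re) (fun x y => by rw [hs])
    (fun x y => (Complex.abs_re_le_norm _).trans (hg x y)) hM hj q h
  have h2 := D3_approx hw hR (g := fun x y => (g x y).im) (fun x y => by rw [hs])
    (fun x y => (Complex.abs_im_le_norm _).trans (hg x y)) hM hj q h
  refine (Complex.norm_le_abs_re_add_abs_im _).trans ?_
  simp only [Complex.sub_re, Complex.sub_im, pr_re, pr_im, p1c, p2c, Complex.re_sum,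
    Complex.im_sum, Complex.re_ofReal_mul, Complex.im_ofReal_mul]
  simp only [D3, p2] at h1 h2 ⊢
  linarith

theorem diagc_approx (hw : Wt w) (hR : ∀ x, R x x = 1) (hs : ∀ x y, g x y = g y x)
    (hg : ∀ x y, ‖g x y‖ ≤ B) {L : List (Lv Ω)} (hM : Mono 0 L) (q : ℕ → ℝ) (h : Ω → ℝ) :
    ‖∑ x, ∑ ρ, (Hs w L h x ρ : ℂ) * (R x ρ * g ρ x) -
      prD L.length (SdA.cx (exP L 0)) (SdA.cx q) (p1c w L g h) fun k => p2c w L k g h‖ ≤
      2 * B *
        ∑ k ∈ range (L.length + 1), D (exP L 0) k * p2 w L k (fun x y => |R x y - q k|) h := by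
  have h1 := diag_approx hw hR (g := fun x y => (g x y).re) (fun x y => by rw [hs])
    (fun x y => (Complex.abs_re_le_norm _).trans (hg x y)) hM q h
  have h2 := diag_approx hw hR (g := fun x y => (g x y).im) (fun x y => by rw [hs])
    (fun x y => (Complex.abs_im_le_norm _).trans (hg x y)) hM q h
  refine (Complex.norm_le_abs_re_add_abs_im _).trans ?_
  simp only [Complex.sub_re, Complex.sub_im, prD_re, prD_im, p1c, p2c, Complex.re_sum,
    Complex.im_sum, Complex.re_ofReal_mul, Complex.im_ofReal_mul]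
  simp only [p2] at h1 h2 ⊢
  linarith

theorem abs_dp_le (hw : Wt w) {L : List (Lv Ω)} (hM : Mono 0 L) {j : ℕ} (hj : j ≤ L.length)
    (x y ρ : Ω) (h : Ω → ℝ) : |dp w L j x y ρ h| ≤ 6 := by
  classical
  have := abs_D3_le hw hM hj (S := 1)
    (K := fun x' y' ρ' => if ρ' = ρ then if x' = x then if y' = y then 1 else 0 else 0 else 0)
    (fun x' y' ρ' => by split_ifs <;> simp) h
  simpa [D3] using this

theorem abs_Hs_le (hw : Wt w) {L : List (Lv Ω)} (hM : Mono 0 L) (x y : Ω) (h : Ω → ℝ) :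
    |Hs w L h x y| ≤ 2 := by
  classical
  have := abs_sum_Hs_le hw hM (S := 1)
    (K := fun x' y' => if x' = x then if y' = y then 1 else 0 else 0)
    (fun x' y' => by split_ifs <;> simp) h
  simpa using this

theorem norm_wsum {κ : Type*} [Fintype κ] {a : κ → ℝ} (h0 : ∀ k, 0 ≤ a k) (h1 : ∑ k, a k = 1)
    {z : κ → ℂ} {S : ℝ} (hz : ∀ k, ‖z k‖ ≤ S) : ‖∑ k, (a k : ℂ) * z k‖ ≤ S := by
  refine (norm_sum_le _ _).trans ?_
  calc ∑ k, ‖(a k : ℂ) * z k‖ ≤ ∑ k, a k * S := sum_le_sum fun k _ => by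
        rw [norm_mul, Complex.norm_real, Real.norm_of_nonneg (h0 k)]
        exact mul_le_mul_of_nonneg_left (hz k) (h0 k)
    _ = S := by rw [← sum_mul, h1, one_mul]

theorem sum_pl (hw : Wt w) (L : List (Lv Ω)) (j : ℕ) (h : Ω → ℝ) :
    ∑ k : Ω × Ω, pl w L j k.1 k.2 h = 1 := by
  rw [Fintype.sum_prod_type]
  simp only [sum_pl_snd hw, sum_P hw]

theorem norm_p2c (hw : Wt w) (L : List (Lv Ω)) (j : ℕ) (hg : ∀ x y, ‖g x y‖ ≤ B) (h : Ω → ℝ) :
    ‖p2c w L j g h‖ ≤ B := by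
  rw [p2c, ← Fintype.sum_prod_type (f := fun k : Ω × Ω => (pl w L j k.1 k.2 h : ℂ) * g k.1 k.2)]
  exact norm_wsum (fun k => pl_nonneg hw L j _ _ h) (sum_pl hw L j h) fun k => hg _ _

theorem norm_p1c (hw : Wt w) (L : List (Lv Ω)) (hg : ∀ x y, ‖g x y‖ ≤ B) (h : Ω → ℝ) :
    ‖p1c w L g h‖ ≤ B :=
  norm_wsum (P_nonneg hw L h) (sum_P hw L h) fun _ => hg _ _

end cplx

section lin
variable {X : Type*} [MeasurableSpace X] {μ : Measure X}

theorem integral_prD {gd : X → ℂ} {g : ℕ → X → ℂ} (h1 : Integrable gd μ)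
    (h2 : ∀ k, Integrable (g k) μ) (K : ℕ) (m q : ℕ → ℂ) :
    Integrable (fun x => prD K m q (gd x) fun k => g k x) μ ∧
      ∫ x, prD K m q (gd x) (fun k => g k x) ∂μ = prD K m q (∫ x, gd x ∂μ) fun k => ∫ x, g k x ∂μ := by
  have s1 : ∀ (s : Finset ℕ) (c : ℕ → ℂ), Integrable (fun z => ∑ k ∈ s, c k * g k z) μ :=
    fun s c => integrable_finsetSum _ fun k _ => (h2 k).const_mul _
  unfold prD
  refine ⟨h1.sub (s1 _ _), ?_⟩
  rw [integral_sub h1 (s1 _ _), integral_finsetSum _ fun k _ => (h2 k).const_mul _]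
  simp only [integral_const_mul]

theorem integral_pr {gd : X → ℂ} {g : ℕ → X → ℂ} (h1 : Integrable gd μ)
    (h2 : ∀ k, Integrable (g k) μ) (K : ℕ) (m q : ℕ → ℂ) (j : ℕ) :
    Integrable (fun x => pr K m q (gd x) (fun k => g k x) j) μ ∧
      ∫ x, pr K m q (gd x) (fun k => g k x) j ∂μ =
        pr K m q (∫ x, gd x ∂μ) (fun k => ∫ x, g k x ∂μ) j := by
  have s1 : ∀ (s : Finset ℕ) (c : ℕ → ℂ), Integrable (fun z => ∑ k ∈ s, c k * g k z) μ :=
    fun s c => integrable_finsetSum _ fun k _ => (h2 k).const_mul _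
  have s2 : ∀ (s : Finset ℕ) (c : ℕ → ℂ), ∫ z, ∑ k ∈ s, c k * g k z ∂μ =
      ∑ k ∈ s, c k * ∫ z, g k z ∂μ := fun s c => by
    rw [integral_finsetSum _ fun k _ => (h2 k).const_mul _]
    simp only [integral_const_mul]
  have a1 : Integrable (fun x => gd x - m (j + 1) * g j x) μ := h1.sub ((h2 j).const_mul _)
  have a2 : Integrable (fun x => hat K m (gd x) (fun k => g k x) j) μ := a1.sub (s1 _ _)
  have a3 : ∫ x, hat K m (gd x) (fun k => g k x) j ∂μ =
      hat K m (∫ x, gd x ∂μ) (fun k => ∫ x, g k x ∂μ) j := by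
    unfold hat
    rw [integral_sub a1 (s1 _ _), s2, integral_sub h1 ((h2 j).const_mul _), integral_const_mul]
  have b1 : Integrable (fun x => g j x * hat K m 1 q j + q j * hat K m (gd x) (fun k => g k x) j) μ :=
    ((h2 j).mul_const _).add (a2.const_mul _)
  have b2 := b1.sub (s1 (range j) fun l => D m l * q l)
  unfold pr
  refine ⟨b2.add ((h2 j).const_mul _), ?_⟩
  rw [integral_add (by exact b2) ((h2 j).const_mul _), integral_sub b1 (s1 _ _), s2,
    integral_add ((h2 j).mul_const _) (a2.const_mul _), integral_const_mul, integral_const_mul,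
    integral_mul_const, a3]

end lin

/-! ### the SK objects -/

variable {n : ℕ} {b η l : ℝ}

/-- the energy after the first (GOE) level -/
def h0 (b η l : ℝ) (x : Fin n × Fin n → ℝ) (σ : Cube n) : ℝ :=
  b / 2 * (sv σ ⬝ᵥ Jg n x *ᵥ sv σ) - l * Qf (Am η (Jg n x)) σ

/-- its derivative in a Gaussian coordinate -/
def dh (b η l : ℝ) (x : Fin n × Fin n → ℝ) (p : Fin n × Fin n) (σ : Cube n) : ℝ :=
  b / 2 * dH (1 / √n) (sv σ) p - l * dQ η (1 / √n) (sv σ) x p

/-- the resolvent kernel -/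
def gk (η : ℝ) (x : Fin n × Fin n → ℝ) (σ τ : Cube n) : ℂ :=
  bl (Gz η (Jg n x)) (cv (sv σ)) (cv (sv τ)) / n

/-- the overlap -/
def Rv (σ τ : Cube n) : ℝ := sv σ ⬝ᵥ sv τ / n

/-- the kernel produced by the tilt -/
def Wk (η : ℝ) (x : Fin n × Fin n → ℝ) (σ τ ρ : Cube n) : ℂ :=
  bl (Fr.cx (symG (1 / √n) (dQ η (1 / √n) (sv ρ) x)) * Gz η (Jg n x)) (cv (sv σ)) (cv (sv τ)) / n

theorem Jg_t (x : Fin n × Fin n → ℝ) : (Jg n x)ᵀ = Jg n x := symG_transpose _ x

theorem Rv_self (hn : 0 < n) (σ : Cube n) : Rv σ σ = 1 := by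
  have : (n : ℝ) ≠ 0 := by positivity
  rw [Rv, sv_dot, div_self this]


theorem gk_symm (η : ℝ) (x : Fin n × Fin n → ℝ) (σ τ : Cube n) : gk η x σ τ = gk η x τ σ := by
  rw [gk, gk, ← bl_transpose, Gz_transpose η (Jg_t x)]

theorem norm_gk (hη : 0 < η) (x : Fin n × Fin n → ℝ) (σ τ : Cube n) : ‖gk η x σ τ‖ ≤ 1 / η := by
  have h := norm_bl_le' (cop_Gz hη (symG_transpose (1 / √n) x)) (cv (sv σ)) (cv (sv τ))
  rw [cn_sv_mul] at h
  rw [gk, norm_div, Complex.norm_natCast]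
  exact div_le_of_le_mul₀ (Nat.cast_nonneg n) (by positivity) h

theorem norm_Wk (hn : 0 < n) (hη : 0 < η) (x : Fin n × Fin n → ℝ) (σ τ ρ : Cube n) :
    ‖Wk η x σ τ ρ‖ ≤ 2 / η ^ 2 := by
  have h := norm_bl_dQ hη (1 / √n) (sv ρ) x (cv (sv σ)) (cv (sv τ))
  have hn' : (0 : ℝ) < n := by exact_mod_cast hn
  rw [cn_sv_mul, sv_dot, sq_fin] at h
  rw [Wk, norm_div, Complex.norm_natCast]
  refine div_le_of_le_mul₀ (Nat.cast_nonneg n) (by positivity) (h.trans (le_of_eq ?_))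
  field_simp

theorem Qf_gk (hn : 0 < n) (hη : 0 < η) (x : Fin n × Fin n → ℝ) (σ : Cube n) :
    Qf (Am η (Jg n x)) σ = -η * n * (gk η x σ σ).im := by
  have hn' : (n : ℝ) ≠ 0 := by positivity
  rw [Qf_Am hη (Jg_t x), gk, Complex.div_natCast_im]
  field_simp

theorem continuous_gk (hη : 0 < η) (σ τ : Cube n) : Continuous fun x => gk η x σ τ :=
  (Continuous.bl (continuous_Gz hη _) _ _).div_const _

theorem continuous_Qf (hη : 0 < η) (σ : Cube n) :
    Continuous fun x : Fin n × Fin n → ℝ => Qf (Am η (Jg n x)) σ := by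
  simp only [Jg, fun x => Qf_Am hη (symG_transpose (1 / √n) x) σ]
  exact continuous_const.mul
    (Complex.continuous_im.comp (Continuous.bl (continuous_Gz hη _) _ _))

theorem continuous_quad (v : Fin n → ℝ) :
    Continuous fun x : Fin n × Fin n → ℝ => v ⬝ᵥ Jg n x *ᵥ v := by
  simp only [Jg, dotProduct, mulVec, symG, of_apply]
  fun_prop

theorem continuous_h0 (hη : 0 < η) (b l : ℝ) : Continuous (h0 (n := n) b η l) :=
  continuous_pi fun σ => (continuous_const.mul (continuous_quad _)).sub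
    (continuous_const.mul (continuous_Qf hη σ))

theorem continuous_Wk (hη : 0 < η) (σ τ ρ : Cube n) : Continuous fun x => Wk η x σ τ ρ := by
  refine (Continuous.bl (Continuous.matrix_mul ?_ (continuous_Gz hη _)) _ _).div_const _
  exact (Fr.continuous_cx_symG _).comp (continuous_pi fun p => continuous_dQ hη _ _ p)

theorem hasDerivAt_h0 (hη : 0 < η) (b l : ℝ) (x : Fin n × Fin n → ℝ) (p : Fin n × Fin n) :
    HasDerivAt (fun t => h0 b η l (update x p t)) (dh b η l x p) (x p) :=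
  hasDerivAt_pi.2 fun σ => ((hasDerivAt_dH _ _ x p).const_mul _).sub
    ((hasDerivAt_Qf hη σ x p).const_mul _)

theorem exists_dh (hη : 0 < η) (b l : ℝ) :
    ∃ C, ∀ (x : Fin n × Fin n → ℝ) p σ, |dh b η l x p σ| ≤ C := by
  obtain ⟨C, hC⟩ := (Set.toFinite (Set.range fun k : Cube n × (Fin n × Fin n) =>
    |b / 2 * dH (1 / √n) (sv k.1) k.2|)).bddAbove
  refine ⟨C + |l| * (√2 * |1 / √(n : ℝ)| * n / η), fun x p σ => ?_⟩
  refine (abs_sub _ _).trans (add_le_add (hC ⟨(σ, p), rfl⟩) ?_)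
  rw [abs_mul]
  refine mul_le_mul_of_nonneg_left ?_ (abs_nonneg l)
  have h := en_dQ hη (1 / √n) (sv σ) x
  rw [sv_dot] at h
  refine le_trans ?_ h
  exact Real.le_sqrt_of_sq_le ((sq_abs _).le.trans (single_le_sum
    (f := fun i => dQ η (1 / √n) (sv σ) x i ^ 2) (fun _ _ => sq_nonneg _) (mem_univ p)))

theorem bl_dh (hn : 0 < n) (x : Fin n × Fin n → ℝ) (c : Cube n → ℝ) (σ τ : Cube n) :
    bl (Fr.cx (symG (1 / √n) fun p => ∑ ρ, c ρ * dh b η l x p ρ) * Gz η (symG (1 / √n) x))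
      (cv (sv σ)) (cv (sv τ)) =
      n * ∑ ρ, (c ρ : ℂ) * (b * (Rv σ ρ * gk η x ρ τ) - l * Wk η x σ τ ρ) := by
  have hn' : (n : ℂ) ≠ 0 := by exact_mod_cast hn.ne'
  rw [cx_symG_sum, sum_mul, bl_sum, mul_sum]
  refine sum_congr rfl fun ρ _ => ?_
  unfold dh
  rw [cx_symG_comb, smul_mul_assoc, bl_smul, Matrix.sub_mul, bl_sub, smul_mul_assoc,
    smul_mul_assoc, bl_smul, bl_smul, bl_mul (Fr.cx (symG _ (dH _ _))), bl_dH, sq_fin, cv_dot]
  simp only [Rv, gk, Wk, Jg, bl]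
  push_cast
  field_simp

section gen
variable {κ : Type} [Fintype κ] {s t : κ → Cube n} {Φ : κ → (Cube n → ℝ) → ℝ}
  {Ψ : κ → Cube n → (Cube n → ℝ) → ℝ} {a : ℂ}

theorem sd_gen (hn : 0 < n) (ha : Root η a) (hη : 0 < η) (hη1 : η ≤ 1)
    (hG : ∀ k, Gr (Φ k) (Ψ k)) (h0' : ∀ k h, 0 ≤ Φ k h) (h1 : ∀ h, ∑ k, Φ k h = 1) {C : ℝ}
    (hC : ∀ k ρ h, |Ψ k ρ h| ≤ C) (s t : κ → Cube n) (b l : ℝ) :
    ‖∫ x, ∑ k, ((Φ k (h0 b η l x) : ℂ) * (a * gk η x (s k) (t k) - Rv (s k) (t k)) -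
      ∑ ρ, (Ψ k ρ (h0 b η l x) : ℂ) * (b * (Rv (s k) ρ * gk η x ρ (t k)) -
        l * Wk η x (s k) (t k) ρ)) ∂(gv (Fin n × Fin n))‖ ≤ 14 / (n * η ^ 6) := by
  obtain ⟨C', hC'⟩ := exists_dh (n := n) hη b l
  have hc := continuous_h0 (n := n) hη b l
  have hn' : (0 : ℝ) < n := by exact_mod_cast hn
  have hnc : (n : ℂ) ≠ 0 := by exact_mod_cast hn.ne'
  have key := sd_defect ha hη hη1 (hs_fin hn) (fun k => cv (sv (s k))) (fun k => cv (sv (t k)))
    (w := fun k x => Φ k (h0 b η l x))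
    (w' := fun k p x => ∑ ρ, Ψ k ρ (h0 b η l x) * dh b η l x p ρ)
    (fun k => (hG k).eg.cont.comp hc)
    (fun k p => Continuous.measurable (continuous_finsetSum _ fun ρ _ =>
      (((hG k).eg' ρ).cont.comp hc).mul (continuous_const.sub
        (continuous_const.mul (continuous_dQ hη _ _ p)))))
    (fun k p x => by
      have := (hG k).hasDerivAt (hasDerivAt_h0 hη b l x p)
      simpa only [update_eq_self] using this)
    (C := 1) (C' := ∑ _ρ : Cube n, C * C') (R := n)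
    (fun x => by simp only [abs_of_nonneg (h0' _ _), h1, le_refl])
    (fun k p x => (abs_sum_le_sum_abs _ _).trans (sum_le_sum fun ρ _ => by
      rw [abs_mul]
      exact mul_le_mul (hC _ _ _) (hC' _ _ _) (abs_nonneg _) ((abs_nonneg _).trans (hC k ρ 0))))
    hn'.le (fun k => (cn_sv_mul _ _).le)
  have e : ∀ x, ∑ k, ((Φ k (h0 b η l x) : ℂ) * (a * bl (Gz η (symG (1 / √n) x)) (cv (sv (s k)))
      (cv (sv (t k))) - cv (sv (s k)) ⬝ᵥ cv (sv (t k))) -
      bl (Fr.cx (symG (1 / √n) fun p => ∑ ρ, Ψ k ρ (h0 b η l x) * dh b η l x p ρ) *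
        Gz η (symG (1 / √n) x)) (cv (sv (s k))) (cv (sv (t k)))) =
      n * ∑ k, ((Φ k (h0 b η l x) : ℂ) * (a * gk η x (s k) (t k) - Rv (s k) (t k)) -
      ∑ ρ, (Ψ k ρ (h0 b η l x) : ℂ) * (b * (Rv (s k) ρ * gk η x ρ (t k)) -
        l * Wk η x (s k) (t k) ρ)) := fun x => by
    rw [mul_sum]
    refine sum_congr rfl fun k _ => ?_
    rw [bl_dh hn, mul_sub (n : ℂ), cv_dot]
    congr 1
    simp only [Rv, gk, Jg]
    push_cast
    field_simp
  simp only [e] at key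
  rw [integral_const_mul, norm_mul, Complex.norm_natCast, sq_fin] at key
  refine le_of_mul_le_mul_left (key.trans (le_of_eq ?_)) hn'
  field_simp

theorem err_gen (hn : 0 < n) (ha : Root η a) (hη : 0 < η) (hη1 : η ≤ 1)
    (hG : ∀ k, Gr (Φ k) (Ψ k)) (h0' : ∀ k h, 0 ≤ Φ k h) (h1 : ∀ h, ∑ k, Φ k h = 1) {C : ℝ}
    (hC : ∀ k ρ h, |Ψ k ρ h| ≤ C) (s t : κ → Cube n) (b l : ℝ) (q : ℂ)
    {T : (Fin n × Fin n → ℝ) → ℂ} (hT : Integrable T (gv (Fin n × Fin n)))
    {E : (Fin n × Fin n → ℝ) → ℝ} (hE : Integrable E (gv (Fin n × Fin n)))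
    (hb : ∀ x, ‖(∑ k, (Φ k (h0 b η l x) : ℂ) * Rv (s k) (t k) - q) +
      b * (∑ k, ∑ ρ, (Ψ k ρ (h0 b η l x) : ℂ) * (Rv (s k) ρ * gk η x ρ (t k)) - T x) -
      l * ∑ k, ∑ ρ, (Ψ k ρ (h0 b η l x) : ℂ) * Wk η x (s k) (t k) ρ‖ ≤ E x) :
    ‖a * ∫ x, ∑ k, (Φ k (h0 b η l x) : ℂ) * gk η x (s k) (t k) ∂(gv (Fin n × Fin n)) - q -
      b * ∫ x, T x ∂(gv (Fin n × Fin n))‖ ≤ 14 / (n * η ^ 6) + ∫ x, E x ∂(gv (Fin n × Fin n)) := by
  have hc := continuous_h0 (n := n) hη b l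
  have c1 : ∀ k, Continuous fun x => (Φ k (h0 b η l x) : ℂ) := fun k =>
    Complex.continuous_ofReal.comp ((hG k).eg.cont.comp hc)
  have c2 : ∀ k ρ, Continuous fun x => (Ψ k ρ (h0 b η l x) : ℂ) := fun k ρ =>
    Complex.continuous_ofReal.comp (((hG k).eg' ρ).cont.comp hc)
  have i1 : Integrable (fun x => ∑ k, (Φ k (h0 b η l x) : ℂ) * gk η x (s k) (t k))
      (gv (Fin n × Fin n)) :=
    Integrable.of_bound (continuous_finsetSum _ fun k _ =>
      (c1 k).mul (continuous_gk hη _ _)).aestronglyMeasurable (1 / η)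
      (ae_of_all _ fun x => norm_wsum (fun k => h0' k _) (h1 _) fun k => norm_gk hη x _ _)
  have i2 : Integrable (fun x => (∑ k, (Φ k (h0 b η l x) : ℂ) * Rv (s k) (t k) - q) +
      b * (∑ k, ∑ ρ, (Ψ k ρ (h0 b η l x) : ℂ) * (Rv (s k) ρ * gk η x ρ (t k)) - T x) -
      l * ∑ k, ∑ ρ, (Ψ k ρ (h0 b η l x) : ℂ) * Wk η x (s k) (t k) ρ) (gv (Fin n × Fin n)) := by
    refine hE.mono' ?_ (ae_of_all _ hb)
    refine AEStronglyMeasurable.sub (AEStronglyMeasurable.add (Continuous.aestronglyMeasurable ?_)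
      (AEStronglyMeasurable.const_mul (AEStronglyMeasurable.sub
        (Continuous.aestronglyMeasurable ?_) hT.1) _)) (Continuous.aestronglyMeasurable ?_)
    · exact (continuous_finsetSum _ fun k _ => (c1 k).mul continuous_const).sub continuous_const
    · exact continuous_finsetSum _ fun k _ => continuous_finsetSum _ fun ρ _ =>
        (c2 k ρ).mul (continuous_const.mul (continuous_gk hη _ _))
    · exact continuous_const.mul (continuous_finsetSum _ fun k _ => continuous_finsetSum _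
        fun ρ _ => (c2 k ρ).mul (continuous_Wk hη _ _ _))
  have i3 := ((i1.const_mul a).sub (integrable_const q)).sub (hT.const_mul (b : ℂ))
  have key := sd_gen hn ha hη hη1 hG h0' h1 hC s t b l
  have e : ∀ x, ∑ k, ((Φ k (h0 b η l x) : ℂ) * (a * gk η x (s k) (t k) - Rv (s k) (t k)) -
      ∑ ρ, (Ψ k ρ (h0 b η l x) : ℂ) * (b * (Rv (s k) ρ * gk η x ρ (t k)) -
        l * Wk η x (s k) (t k) ρ)) =
      (a * ∑ k, (Φ k (h0 b η l x) : ℂ) * gk η x (s k) (t k) - q - b * T x) -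
      ((∑ k, (Φ k (h0 b η l x) : ℂ) * Rv (s k) (t k) - q) +
      b * (∑ k, ∑ ρ, (Ψ k ρ (h0 b η l x) : ℂ) * (Rv (s k) ρ * gk η x ρ (t k)) - T x) -
      l * ∑ k, ∑ ρ, (Ψ k ρ (h0 b η l x) : ℂ) * Wk η x (s k) (t k) ρ) := fun x => by
    simp only [mul_sub, sum_sub_distrib, mul_sum, mul_left_comm a, mul_left_comm (b : ℂ),
      mul_left_comm (l : ℂ)]
    ring
  simp only [e] at key
  rw [integral_sub (by exact i3) i2, integral_sub (by exact (i1.const_mul a).sub (integrable_const q))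
    (hT.const_mul _), integral_sub (i1.const_mul a) (integrable_const q), integral_const_mul,
    integral_const_mul, integral_const, probReal_univ, one_smul] at key
  have k2 := (norm_integral_le_integral_norm _).trans
    (integral_mono i2.norm hE hb)
  exact (norm_le_norm_sub_add _ _).trans (add_le_add key k2)

end gen

section main
variable {w : Cube n → ℝ} {L : List (Lv (Cube n))} {a : ℂ}

/-- averaged level entry -/
def gam (w : Cube n → ℝ) (L : List (Lv (Cube n))) (b η l : ℝ) (j : ℕ) : ℂ :=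
  ∫ x, p2c w L j (gk η x) (h0 b η l x) ∂(gv (Fin n × Fin n))

/-- averaged diagonal entry -/
def gamd (w : Cube n → ℝ) (L : List (Lv (Cube n))) (b η l : ℝ) : ℂ :=
  ∫ x, p1c w L (gk η x) (h0 b η l x) ∂(gv (Fin n × Fin n))

/-- synchronisation defect of the level `j` -/
def rho (w : Cube n → ℝ) (L : List (Lv (Cube n))) (b η l : ℝ) (q : ℕ → ℝ) (j : ℕ) : ℝ :=
  ∫ x, p2 w L j (fun σ τ => |Rv σ τ - q j|) (h0 b η l x) ∂(gv (Fin n × Fin n))

/-- total synchronisation defect -/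
def rhoT (w : Cube n → ℝ) (L : List (Lv (Cube n))) (b η l : ℝ) (q : ℕ → ℝ) : ℝ :=
  ∑ k ∈ range (L.length + 1), D (exP L 0) k * rho w L b η l q k

theorem int_p2 (hw : Wt w) (hη : 0 < η) (L : List (Lv (Cube n))) (j : ℕ)
    (K : Cube n → Cube n → ℝ) (b l : ℝ) :
    Integrable (fun x => p2 w L j K (h0 b η l x)) (gv (Fin n × Fin n)) := by
  obtain ⟨C, hC⟩ := (Set.toFinite (Set.range fun k : Cube n × Cube n => |K k.1 k.2|)).bddAbove
  exact Integrable.of_bound ((eg_p2 hw L j K).cont.comp (continuous_h0 hη b l)).aestronglyMeasurable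
    C (ae_of_all _ fun x => abs_p2_le hw L j (fun σ τ => hC ⟨(σ, τ), rfl⟩) _)

theorem int_p2c (hw : Wt w) (hη : 0 < η) (L : List (Lv (Cube n))) (j : ℕ) (b l : ℝ) :
    Integrable (fun x => p2c w L j (gk η x) (h0 b η l x)) (gv (Fin n × Fin n)) :=
  Integrable.of_bound (continuous_finsetSum _ fun σ _ => continuous_finsetSum _ fun τ _ =>
    (Complex.continuous_ofReal.comp ((eg_pl hw L j σ τ).cont.comp (continuous_h0 hη b l))).mul
      (continuous_gk hη σ τ)).aestronglyMeasurable (1 / η)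
    (ae_of_all _ fun x => norm_p2c hw L j (norm_gk hη x) _)

theorem int_p1c (hw : Wt w) (hη : 0 < η) (L : List (Lv (Cube n))) (b l : ℝ) :
    Integrable (fun x => p1c w L (gk η x) (h0 b η l x)) (gv (Fin n × Fin n)) :=
  Integrable.of_bound (continuous_finsetSum _ fun σ _ =>
    (Complex.continuous_ofReal.comp ((eg_P hw L σ).cont.comp (continuous_h0 hη b l))).mul
      (continuous_gk hη σ σ)).aestronglyMeasurable (1 / η)
    (ae_of_all _ fun x => norm_p1c hw L (norm_gk hη x) _)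

theorem int_sumD (hw : Wt w) (hη : 0 < η) (L : List (Lv (Cube n))) (q : ℕ → ℝ) (b l : ℝ) :
    Integrable (fun x => ∑ k ∈ range (L.length + 1), D (exP L 0) k *
      p2 w L k (fun σ τ => |Rv σ τ - q k|) (h0 b η l x)) (gv (Fin n × Fin n)) ∧
    ∫ x, ∑ k ∈ range (L.length + 1), D (exP L 0) k *
      p2 w L k (fun σ τ => |Rv σ τ - q k|) (h0 b η l x) ∂(gv (Fin n × Fin n)) =
      rhoT w L b η l q := by
  refine ⟨integrable_finsetSum _ fun k _ => (int_p2 hw hη L k _ b l).const_mul _, ?_⟩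
  rw [integral_finsetSum _ fun k _ => (int_p2 hw hη L k _ b l).const_mul _]
  simp only [integral_const_mul, rhoT, rho]

theorem errD_le (hn : 0 < n) (ha : Root η a) (hη : 0 < η) (hη1 : η ≤ 1) (hw : Wt w)
    (hM : Mono 0 L) (hb : 0 ≤ b) (l : ℝ) (q : ℕ → ℝ) :
    ‖errD L.length (SdA.cx (exP L 0)) (SdA.cx q) a b (gamd w L b η l) (gam w L b η l)‖ ≤
      14 / (n * η ^ 6) + (2 * b / η * rhoT w L b η l q + 8 * |l| / η ^ 2) := by
  obtain ⟨i1, e1⟩ := integral_prD (int_p1c hw hη L b l) (fun k => int_p2c hw hη L k b l)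
    L.length (SdA.cx (exP L 0)) (SdA.cx q)
  obtain ⟨i2, e2⟩ := int_sumD hw hη L q b l
  have key := err_gen (κ := Cube n) (Φ := fun σ h => P w L h σ) (Ψ := fun σ ρ h => Hs w L h σ ρ)
    hn ha hη hη1 (gr_P hw L) (fun σ h => P_nonneg hw L h σ) (sum_P hw L) (C := 2)
    (fun σ ρ h => abs_Hs_le hw hM σ ρ h) id id b l 1 i1
    ((i2.const_mul (2 * b / η)).add (integrable_const (8 * |l| / η ^ 2))) fun x => by
      have f1 := diagc_approx hw (Rv_self hn) (gk_symm η x) (norm_gk hη x) hM q (h0 b η l x)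
      have f2 := norm_Hsc hw hM (K := fun σ ρ => Wk η x σ σ ρ)
        (fun σ ρ => norm_Wk hn hη x σ σ ρ) (h0 b η l x)
      have f3 : ∑ σ, (P w L (h0 b η l x) σ : ℂ) * (Rv σ σ : ℝ) - 1 = 0 := by
        simp only [Rv_self hn, Complex.ofReal_one, mul_one]
        rw [← Complex.ofReal_sum, sum_P hw]; simp
      simp only [id, Pi.add_apply]
      rw [f3, zero_add]
      refine (norm_sub_le _ _).trans (add_le_add ?_ ?_)
      · rw [norm_mul, Complex.norm_real, Real.norm_of_nonneg hb]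
        refine (mul_le_mul_of_nonneg_left f1 hb).trans (le_of_eq ?_)
        ring
      · rw [norm_mul, Complex.norm_real, Real.norm_eq_abs]
        refine (mul_le_mul_of_nonneg_left f2 (abs_nonneg l)).trans (le_of_eq ?_)
        ring
  rw [e1] at key
  simp only [Pi.add_apply] at key
  rw [integral_add (i2.const_mul _) (integrable_const _), integral_const_mul, e2, integral_const,
    probReal_univ, one_smul] at key
  exact key

theorem err_le (hn : 0 < n) (ha : Root η a) (hη : 0 < η) (hη1 : η ≤ 1) (hw : Wt w)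
    (hM : Mono 0 L) (hb : 0 ≤ b) (l : ℝ) (q : ℕ → ℝ) {j : ℕ} (hj : j ≤ L.length) :
    ‖err L.length (SdA.cx (exP L 0)) (SdA.cx q) a b (gamd w L b η l) (gam w L b η l) j‖ ≤
      14 / (n * η ^ 6) + ((1 + 8 * b / η) * rho w L b η l q j +
        2 * b / η * rhoT w L b η l q + 24 * |l| / η ^ 2) := by
  obtain ⟨i1, e1⟩ := integral_pr (int_p1c hw hη L b l) (fun k => int_p2c hw hη L k b l)
    L.length (SdA.cx (exP L 0)) (SdA.cx q) j
  obtain ⟨i2, e2⟩ := int_sumD hw hη L q b l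
  have i3 := int_p2 hw hη L j (fun σ τ => |Rv σ τ - q j|) b l
  have key := err_gen (κ := Cube n × Cube n) (Φ := fun k => pl w L j k.1 k.2)
    (Ψ := fun k ρ => dp w L j k.1 k.2 ρ)
    hn ha hη hη1 (fun k => gr_pl hw L j k.1 k.2) (fun k h => pl_nonneg hw L j _ _ h)
    (sum_pl hw L j) (C := 6) (fun k ρ h => abs_dp_le hw hM hj _ _ ρ h) Prod.fst Prod.snd b l
    (q j) i1 (((i3.const_mul (1 + 8 * b / η)).add (i2.const_mul (2 * b / η))).add
      (integrable_const (24 * |l| / η ^ 2))) fun x => by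
      have f1 := D3c_approx hw (Rv_self hn) (gk_symm η x) (norm_gk hη x) hM hj q (h0 b η l x)
      have f2 := norm_D3c hw hM hj (K := fun σ τ ρ => Wk η x σ τ ρ)
        (fun σ τ ρ => norm_Wk hn hη x σ τ ρ) (h0 b η l x)
      have f3 := abs_p2_sub hw L j (K := Rv) (K' := fun _ _ => q j)
        (E := fun σ τ => |Rv σ τ - q j|) (fun _ _ => le_rfl) (h0 b η l x)
      rw [p2_const hw] at f3
      have f4 : ∑ k : Cube n × Cube n, (pl w L j k.1 k.2 (h0 b η l x) : ℂ) * (Rv k.1 k.2 : ℝ) -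
          (q j : ℂ) = ((p2 w L j Rv (h0 b η l x) - q j : ℝ) : ℂ) := by
        rw [Fintype.sum_prod_type, p2]; push_cast; rfl
      simp only [Pi.add_apply]
      rw [f4, sum_comm, sum_comm (f := fun (k : Cube n × Cube n) ρ =>
        (dp w L j k.1 k.2 ρ (h0 b η l x) : ℂ) * Wk η x k.1 k.2 ρ)]
      simp only [Fintype.sum_prod_type]
      refine (norm_sub_le _ _).trans (add_le_add ((norm_add_le _ _).trans ?_) ?_)
      · rw [norm_mul, Complex.norm_real, Complex.norm_real, Real.norm_of_nonneg hb,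
          Real.norm_eq_abs]
        refine (add_le_add f3 (mul_le_mul_of_nonneg_left f1 hb)).trans (le_of_eq ?_)
        ring
      · rw [norm_mul, Complex.norm_real, Real.norm_eq_abs]
        refine (mul_le_mul_of_nonneg_left f2 (abs_nonneg l)).trans (le_of_eq ?_)
        ring
  rw [e1] at key
  simp only [Pi.add_apply, Fintype.sum_prod_type] at key
  rw [integral_add (by exact (i3.const_mul _).add (i2.const_mul _)) (integrable_const _),
    integral_add (i3.const_mul _) (i2.const_mul _), integral_const_mul, integral_const_mul, e2,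
    integral_const, probReal_univ, one_smul] at key
  exact key

theorem rho_nonneg (hw : Wt w) (L : List (Lv (Cube n))) (b η l : ℝ) (q : ℕ → ℝ) (j : ℕ) :
    0 ≤ rho w L b η l q j := integral_nonneg fun _ => p2_nonneg hw L j (fun _ _ => abs_nonneg _) _

/-- **the solution of the Schwinger–Dyson system** -/
theorem sd_main (hn : 0 < n) (ha : Root η a) (hη : 0 < η) (hη1 : η ≤ 1) (hw : Wt w)
    (hM : Mono 0 L) (hb : 0 ≤ b) (l : ℝ) {q : ℕ → ℝ} (hq0 : 0 ≤ q 0)
    (hq : ∀ j < L.length, q j ≤ q (j + 1)) (hq1 : ∀ j ≤ L.length, q j ≤ 1) :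
    ‖gamd w L b η l - gId L.length (SdA.cx (exP L 0)) (SdA.cx q) a b‖ ≤
      (1 / a.im + b / a.im ^ 2) *
        (28 / (n * η ^ 6) + (1 + 12 * b / η) * rhoT w L b η l q + 32 * |l| / η ^ 2) := by
  refine (norm_sub_gId rfl (exP_top L 0) (fun j _ => D_nonneg hM j) ha.im_pos hb hq0 hq hq1 _
    (gam w L b η l)).trans (mul_le_mul_of_nonneg_left ?_ (by have := ha.im_pos; positivity))
  have h1 := errD_le hn ha hη hη1 hw hM hb l q
  have h2 : ∑ j ∈ range (L.length + 1), D (exP L 0) j *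
      ‖err L.length (SdA.cx (exP L 0)) (SdA.cx q) a b (gamd w L b η l) (gam w L b η l) j‖ ≤
      ∑ j ∈ range (L.length + 1), (D (exP L 0) j * (14 / (n * η ^ 6) +
        2 * b / η * rhoT w L b η l q + 24 * |l| / η ^ 2) +
        (1 + 8 * b / η) * (D (exP L 0) j * rho w L b η l q j)) := sum_le_sum fun j hj =>
    (mul_le_mul_of_nonneg_left (err_le hn ha hη hη1 hw hM hb l q
      (Nat.lt_succ_iff.1 (mem_range.1 hj))) (D_nonneg hM j)).trans (le_of_eq (by ring))
  rw [sum_add_distrib, ← sum_mul, ← mul_sum, sum_D, ← rhoT] at h2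
  have e : (28 : ℝ) / (n * η ^ 6) = 14 / (n * η ^ 6) + 14 / (n * η ^ 6) := by ring
  have e1 : (1 + 12 * b / η) * rhoT w L b η l q = 2 * b / η * rhoT w L b η l q +
    2 * b / η * rhoT w L b η l q + (1 + 8 * b / η) * rhoT w L b η l q := by ring
  have e2 : 32 * |l| / η ^ 2 = 8 * |l| / η ^ 2 + 24 * |l| / η ^ 2 := by ring
  linarith

/-- mean of the edge observable under the one-point law -/
def EQ (w : Cube n → ℝ) (L : List (Lv (Cube n))) (b η l : ℝ) : ℝ :=
  ∫ x, ∑ σ, P w L (h0 b η l x) σ * Qf (Am η (Jg n x)) σ ∂(gv (Fin n × Fin n))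

theorem EQ_eq (hn : 0 < n) (hη : 0 < η) (hw : Wt w) (L : List (Lv (Cube n))) (b l : ℝ) :
    EQ w L b η l = -η * n * (gamd w L b η l).im := by
  have e : ∫ x, (p1c w L (gk η x) (h0 b η l x)).im ∂(gv (Fin n × Fin n)) = (gamd w L b η l).im :=
    integral_im (int_p1c hw hη L b l)
  rw [← e, ← integral_const_mul, EQ]
  refine integral_congr_ae (ae_of_all _ fun x => ?_)
  simp only [p1c, Complex.im_sum, Complex.im_ofReal_mul, Qf_gk hn hη, mul_sum]
  exact sum_congr rfl fun σ _ => by ring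

end main

end Crest.Agent.T157.Sd
end
end

-- ▼ part T157/SdC_12
section

/-!
Row 157, part D (helper12): the tilted free energy `Psi` is bounded through Guerra's interpolation
in the last part of the disorder and the Schwinger–Dyson equations.
-/

set_option autoImplicit false
set_option linter.unusedSectionVars false

noncomputable section

namespace Crest.Agent.T157.Sd

open Finset Matrix MeasureTheory Function Real
open Crest.Agent.T157.E Crest.Agent.T157.Casc Crest.Agent.T157.SdA Crest.Agent.T157.SdM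
open Crest.Agent.T157.Ac Crest.Agent.T157.Cond Crest.Agent.T157.G1
open Crest.Agent.T157.SL (Wt)
open Crest.Agent.R339.B Crest.Agent.R339.Var

variable {n : ℕ} {β d η l : ℝ} {ℓ : List (ℝ × ℝ)}

theorem wt1 : Wt fun _ : Cube n => (1 : ℝ) :=
  ⟨fun _ => zero_le_one, by simp⟩

theorem fld_Jw (β : ℝ) (g : Fin n × Fin n → ℝ) (σ : Cube n) :
    (Jw n β).fld g σ = β / 2 * (sv σ ⬝ᵥ Jg n g *ᵥ sv σ) := by
  rw [quad_Jg, Lv.fld, mul_sum, mul_sum]
  exact sum_congr rfl fun p _ => by ring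

theorem fld_sc {Ω : Type*} (s : ℝ) (J : Lv Ω) (g : J.ι → ℝ) : (sc s J).fld g = s • J.fld g := by
  funext x
  simp only [Lv.fld, Pi.smul_apply, smul_eq_mul, mul_sum, mul_assoc]

theorem cov_sc {Ω : Type*} (s : ℝ) (J : Lv Ω) (x y : Ω) : (sc s J).cov x y = s ^ 2 * J.cov x y := by
  simp only [Lv.cov, mul_sum]
  exact sum_congr rfl fun i _ => by ring

theorem h0_zero (β d η : ℝ) (x : Fin n × Fin n → ℝ) :
    h0 (β * √(1 - d)) η 0 x = √(1 - d) • (Jw n β).fld x := by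
  funext σ
  simp only [h0, Pi.smul_apply, fld_Jw, smul_eq_mul]
  ring

theorem h0_add (b η l : ℝ) (x : Fin n × Fin n → ℝ) :
    (h0 b η l x + fun σ => l * Qf (Am η (Jg n x)) σ) = h0 b η 0 x := by
  funext σ
  simp only [h0, Pi.add_apply]
  ring

theorem abs_Qf (hη : 0 < η) (x : Fin n × Fin n → ℝ) (σ : Cube n) : |Qf (Am η (Jg n x)) σ| ≤ n := by
  have hA := good_Am (Jg_t x) hη
  rw [Qf, abs_of_nonneg (hA.nonneg _), ← sv_dot σ]
  exact hA.le _

theorem abs_h0_sub (hη : 0 < η) (b l : ℝ) (x : Fin n × Fin n → ℝ) (σ : Cube n) :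
    |h0 b η l x σ - h0 b η 0 x σ| ≤ |l| * n := by
  have : h0 b η l x σ - h0 b η 0 x σ = -(l * Qf (Am η (Jg n x)) σ) := by simp only [h0]; ring
  rw [this, abs_neg, abs_mul]
  exact mul_le_mul_of_nonneg_left (abs_Qf hη x σ) (abs_nonneg l)

theorem int_h0 (hη : 0 < η) (b l : ℝ) : Integrable (h0 (n := n) b η l) (gv (Fin n × Fin n)) := by
  refine Integrable.of_eval fun σ => Integrable.sub (Integrable.const_mul ?_ _)
    (Integrable.const_mul (Integrable.of_bound (continuous_Qf hη σ).aestronglyMeasurable n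
      (ae_of_all _ fun x => abs_Qf hη x σ)) _)
  simp only [quad_Jg]
  exact (integrable_finsetSum _ fun p _ =>
    (Crest.Agent.R339.Guerra.integrable_coord p).const_mul _).const_mul _

theorem int_X {w : Cube n → ℝ} (hw : Wt w) (hη : 0 < η) (L : List (Lv (Cube n))) (b l : ℝ) :
    Integrable (fun x => X w L (h0 b η l x)) (gv (Fin n × Fin n)) := by
  have hL := C.lp_X hw L
  refine Integrable.mono' ((integrable_const |X w L 0|).add (int_h0 hη b l).norm)
    (hL.cont.comp (continuous_h0 hη b l)).aestronglyMeasurable (ae_of_all _ fun x => ?_)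
  have := hL.abs_sub (h0 b η l x) 0
  rw [sub_zero] at this
  have h2 := abs_sub_abs_le_abs_sub (X w L (h0 b η l x)) (X w L 0)
  simp only [Real.norm_eq_abs, Pi.add_apply]
  linarith

theorem Fe_eq {J : Lv (Cube n)} (hJ : J.m = 0) (w : Cube n → ℝ) (s : ℝ) (h : Cube n → ℝ) :
    Fe J w s h = X w [sc s J] h := by
  rw [C.X_cons, C.step_zero (l := sc s J) hJ]
  simp only [fld_sc]
  rfl

theorem phi_one {J : Lv (Cube n)} (hJ : J.m = 0) (w : Cube n → ℝ) (ℓ : List (ℝ × ℝ)) (d : ℝ)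
    (h : Cube n → ℝ) : phi J w ℓ (1 - d) 1 h = Fe J w √d h := by
  have e := C.X_of_zero w (L := FL n √(1 - 1) ℓ) (fun l hl x i => by
    obtain ⟨p, -, rfl⟩ := List.mem_map.1 hl
    simp) []
  rw [List.append_nil] at e
  rw [phi, Lt, C.X_cons, e, Fe_eq hJ, C.X_cons, sub_sub_cancel]

theorem Psi_eq (n : ℕ) (β d η l : ℝ) : Psi n β d η l =
    ∫ x, Fe (Jw n β) (fun _ => 1) √d (h0 (β * √(1 - d)) η l x) ∂gv (Fin n × Fin n) := by
  refine integral_congr_ae (ae_of_all _ fun x => integral_congr_ae (ae_of_all _ fun g => ?_))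
  simp only [psi, Hm_eq, h0, fld_Jw, one_mul]
  congr 1
  refine sum_congr rfl fun σ _ => ?_
  congr 1
  ring

theorem int_first (β d η : ℝ) (L : List (Lv (Cube n))) (w : Cube n → ℝ) :
    ∫ x, X w L (h0 (β * √(1 - d)) η 0 x) ∂gv (Fin n × Fin n) =
      X w (sc √(1 - d) (Jw n β) :: L) 0 := by
  rw [C.X_cons, C.step_zero (l := sc √(1 - d) (Jw n β)) rfl]
  simp only [fld_sc, zero_add, h0_zero]

/-- the SK free energy in the GOE words -/
def FE (n : ℕ) (β : ℝ) : ℝ := ∫ g, log (∑ x, exp ((Jw n β).fld g x)) ∂gv (Fin n × Fin n)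

theorem Psi_zero (hd : 0 ≤ d) (hd1 : d ≤ 1) (n : ℕ) (β η : ℝ) : Psi n β d η 0 = FE n β := by
  rw [Psi_eq]
  simp only [Fe_eq (J := Jw n β) rfl]
  rw [int_first, ← C.X_split wt1 (l := Jw n β) (l1 := sc √(1 - d) (Jw n β))
    (l2 := sc √d (Jw n β)) rfl rfl fun x y => by
    rw [cov_sc, cov_sc, sq_sqrt hd, sq_sqrt (sub_nonneg.2 hd1)]; ring]
  rw [C.X_cons, C.step_zero (l := Jw n β) rfl]
  simp only [X, zero_add, one_mul, FE]

theorem phi_first (hd1 : d ≤ 1) {t : ℝ} (ht : 1 - d ≤ t) (β η : ℝ) (ℓ : List (ℝ × ℝ)) :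
    ∫ x, phi (Jw n β) (fun _ => 1) ℓ (1 - d) t (h0 (β * √(1 - d)) η 0 x) ∂gv (Fin n × Fin n) =
      phi (Jw n β) (fun _ => 1) ℓ 0 t 0 := by
  simp only [phi, Lt]
  rw [int_first, ← C.X_split wt1 (l := sc √(t - 0) (Jw n β)) (l1 := sc √(1 - d) (Jw n β))
    (l2 := sc √(t - (1 - d)) (Jw n β)) rfl rfl fun x y => by
    rw [cov_sc, cov_sc, cov_sc, sq_sqrt (by linarith), sq_sqrt (sub_nonneg.2 hd1),
      sq_sqrt (sub_nonneg.2 ht)]; ring]

theorem phi_mono {J : Lv (Cube n)} (hG : G1 β J ℓ) {w : Cube n → ℝ} (hw : Wt w) {a t : ℝ}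
    (ha : a < t) (ht : t < 1) (h : Cube n → ℝ) :
    phi J w ℓ a 1 h ≤ phi J w ℓ a t h - (1 - t) * (n * cor β ℓ) := by
  obtain ⟨s, hs, e⟩ := exists_hasDerivAt_eq_slope (fun t => phi J w ℓ a t h) _ ht
    ((hG.cont w hw a h).mono (Set.Icc_subset_Icc_left ha.le))
    fun s hs => hG.der w hw a s h (ha.trans hs.1) hs.2
  have h1 : 0 ≤ Rem J w β ℓ a s h := integral_nonneg fun g => hG.rem_nonneg w hw _ _
  rw [eq_div_iff (sub_pos.2 ht).ne'] at e
  have h2 : 0 ≤ β ^ 2 * n / 4 * Rem J w β ℓ a s h * (1 - t) :=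
    mul_nonneg (mul_nonneg (by positivity) h1) (sub_pos.2 ht).le
  linarith

theorem mono_FL (n : ℕ) (s : ℝ) : ∀ {ℓ : List (ℝ × ℝ)} {m0 : ℝ}, Adm 1 ℓ → m0 ≤ headLv 1 ℓ →
    Mono m0 (FL n s ℓ)
  | [], _, _, h => h
  | _ :: _, _, hA, h => ⟨h, mono_FL n s hA.2.2.2 hA.2.1⟩

theorem mono_Lt (hA : Adm 1 ℓ) (n : ℕ) (β a t : ℝ) : Mono 0 (Lt (Jw n β) ℓ a t) :=
  ⟨le_rfl, mono_FL n _ hA (hA.head_pos one_pos).le⟩

theorem int_Q (hη : 0 < η) (L : List (Lv (Cube n))) (b l : ℝ) :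
    Integrable (fun x => ∑ σ, P (fun _ => 1) L (h0 b η l x) σ * Qf (Am η (Jg n x)) σ)
      (gv (Fin n × Fin n)) := by
  have hc : Continuous fun x => ∑ σ, P (fun _ => 1) L (h0 b η l x) σ * Qf (Am η (Jg n x)) σ :=
    continuous_finsetSum _ fun σ _ =>
      ((eg_P wt1 L σ).cont.comp (continuous_h0 hη b l)).mul (continuous_Qf hη σ)
  exact Integrable.of_bound hc.aestronglyMeasurable n
    (ae_of_all _ fun x => abs_P_le wt1 L (abs_Qf hη x) (h0 b η l x))

theorem int_tilt (hη : 0 < η) {L : List (Lv (Cube n))} (hL : Mono 0 L) (b l : ℝ) :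
    ∫ x, X (fun _ => 1) L (h0 b η l x) ∂gv (Fin n × Fin n) ≤
      ∫ x, X (fun _ => 1) L (h0 b η 0 x) ∂gv (Fin n × Fin n) - l * EQ (fun _ => 1) L b η l := by
  rw [EQ, ← integral_const_mul, ← integral_sub (int_X wt1 hη L b 0) ((int_Q hη L b l).const_mul l)]
  refine integral_mono (int_X wt1 hη L b l) ((int_X wt1 hη L b 0).sub
    ((int_Q hη L b l).const_mul l)) fun x => ?_
  have h2 := X_add_ge wt1 L (hL.nn le_rfl) (h0 b η l x) fun σ => l * Qf (Am η (Jg n x)) σ
  rw [h0_add] at h2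
  simp only [mul_left_comm _ l, ← mul_sum] at h2
  exact le_sub_iff_add_le.2 h2

/-- the upper bound by the tilted mean of `Q` at time `t` -/
theorem Psi_le (hG : G1 β (Jw n β) ℓ) (hA : Adm 1 ℓ) (hd1 : d ≤ 1) (hη : 0 < η) (l : ℝ) {t : ℝ}
    (ht : 1 - d < t) (ht1 : t < 1) :
    Psi n β d η l ≤ n * val β ℓ -
      l * EQ (fun _ => 1) (Lt (Jw n β) ℓ (1 - d) t) (β * √(1 - d)) η l := by
  have iF : Integrable (fun x => Fe (Jw n β) (fun _ => 1) √d (h0 (β * √(1 - d)) η l x))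
      (gv (Fin n × Fin n)) := by
    simp only [Fe_eq (J := Jw n β) rfl]; exact int_X wt1 hη _ _ _
  have i0 := int_X (n := n) wt1 hη (Lt (Jw n β) ℓ (1 - d) t) (β * √(1 - d)) l
  have key := integral_mono iF (i0.sub (integrable_const ((1 - t) * (n * cor β ℓ)))) fun x => by
    have h1 := phi_mono hG wt1 ht ht1 (h0 (β * √(1 - d)) η l x)
    rwa [phi_one rfl] at h1
  simp only [Pi.sub_apply] at key
  rw [integral_sub i0 (integrable_const _), integral_const, probReal_univ, one_smul,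
    ← Psi_eq] at key
  have h2 := int_tilt hη (mono_Lt hA n β (1 - d) t) (β * √(1 - d)) l
  have h3 := phi_first (n := n) hd1 ht.le β η ℓ
  have h4 := hG.phi_le t (by linarith) ht1.le
  unfold phi at h3 h4
  rw [G1.val]
  linarith

/-- overlaps attached to the levels of `Lt` -/
def qq (β : ℝ) (ℓ : List (ℝ × ℝ)) : ℕ → ℝ
  | 0 => 0
  | k + 1 => qs β ℓ k

/-- exponents of `Lt` -/
def mm (ℓ : List (ℝ × ℝ)) : ℕ → ℝ
  | 0 => 0
  | 1 => 0
  | k + 2 => (ℓ[k]?.map Prod.fst).getD 1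

theorem exP_Lt (n : ℕ) (β : ℝ) (ℓ : List (ℝ × ℝ)) (a t : ℝ) :
    exP (Lt (Jw n β) ℓ a t) 0 = mm ℓ := by
  funext k
  match k with
  | 0 => rfl
  | 1 => rfl
  | k + 2 =>
    simp only [exP, ex, Lt, FL, mm, List.getElem?_cons_succ, List.getElem?_map]
    cases ℓ[k]? <;> rfl

theorem length_Lt (J : Lv (Cube n)) (ℓ : List (ℝ × ℝ)) (a t : ℝ) :
    (Lt J ℓ a t).length = ℓ.length + 1 := by simp [Lt, FL]

theorem Rem_eq (β : ℝ) (ℓ : List (ℝ × ℝ)) (a t : ℝ) (h : Cube n → ℝ) :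
    Rem (Jw n β) (fun _ => 1) β ℓ a t h =
      ∑ k ∈ range ((Lt (Jw n β) ℓ a t).length + 1), D (exP (Lt (Jw n β) ℓ a t) 0) k *
        p2 (fun _ => 1) (Lt (Jw n β) ℓ a t) k (fun σ τ => (Rv σ τ - qq β ℓ k) ^ 2) h := by
  have e := pair_eq_sum wt1 (Lt (Jw n β) ℓ a t) 0 (fun k σ τ => (Rv σ τ - qq β ℓ k) ^ 2) h
  simp only [pi2_eq wt1] at e
  refine Eq.trans ?_ e
  rw [Lt, Casc.pair, C.tE_zero (l := sc √(t - a) (Jw n β)) rfl]
  simp only [fld_sc, sub_self, zero_mul, zero_add]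
  rfl

theorem rhoT_le (hη : 0 < η) (hA : Adm 1 ℓ) (β a t b l : ℝ) {δ : ℝ} (hδ : 0 < δ) :
    rhoT (fun _ => 1) (Lt (Jw n β) ℓ a t) b η l (qq β ℓ) ≤ δ / 2 + 1 / (2 * δ) *
      ∫ x, Rem (Jw n β) (fun _ => 1) β ℓ a t (h0 b η l x) ∂gv (Fin n × Fin n) := by
  obtain ⟨i1, e1⟩ := int_sumD wt1 hη (Lt (Jw n β) ℓ a t) (qq β ℓ) b l
  have i2 : Integrable (fun x => Rem (Jw n β) (fun _ => 1) β ℓ a t (h0 b η l x))
      (gv (Fin n × Fin n)) := by
    simp only [Rem_eq]
    exact integrable_finsetSum _ fun k _ => (int_p2 wt1 hη _ k _ b l).const_mul _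
  have key := integral_mono i1 ((integrable_const (δ / 2)).add (i2.const_mul (1 / (2 * δ))))
    fun x => by
      have hM := mono_Lt hA n β a t
      simp only [Pi.add_apply]
      have hD : δ / 2 = ∑ k ∈ range ((Lt (Jw n β) ℓ a t).length + 1),
          D (exP (Lt (Jw n β) ℓ a t) 0) k * (δ / 2) := by rw [← sum_mul, sum_D]; ring
      rw [Rem_eq, mul_sum, hD, ← sum_add_distrib]
      refine sum_le_sum fun k _ => ?_
      have h1 := p2_mono wt1 (Lt (Jw n β) ℓ a t) k (K := fun σ τ => |Rv σ τ - qq β ℓ k|)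
        (K' := fun σ τ => δ / 2 + 1 / (2 * δ) * (Rv σ τ - qq β ℓ k) ^ 2) (fun σ τ => by
          rw [← sq_abs]
          have : δ / 2 + 1 / (2 * δ) * |Rv σ τ - qq β ℓ k| ^ 2 - |Rv σ τ - qq β ℓ k| =
            1 / (2 * δ) * (|Rv σ τ - qq β ℓ k| - δ) ^ 2 := by field_simp; ring
          have h2 : 0 ≤ 1 / (2 * δ) * (|Rv σ τ - qq β ℓ k| - δ) ^ 2 := by positivity
          linarith) (h0 b η l x)
      rw [p2_add, p2_const wt1, p2_smul] at h1
      refine (mul_le_mul_of_nonneg_left h1 (D_nonneg hM k)).trans (le_of_eq ?_)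
      ring
  rw [e1] at key
  simp only [Pi.add_apply] at key
  rwa [integral_add (integrable_const _) (i2.const_mul _), integral_const_mul, integral_const,
    probReal_univ, one_smul] at key

theorem exists_time (hG : G1 β (Jw n β) ℓ) (hd : 0 < d) (hd1 : d ≤ 1) (hη : 0 < η) (l : ℝ) :
    ∃ t ∈ Set.Ioo (1 - d) 1, d * (β ^ 2 * n / 4 * ∫ x, Rem (Jw n β) (fun _ => 1) β ℓ (1 - d) t
      (h0 (β * √(1 - d)) η l x) ∂gv (Fin n × Fin n)) ≤ n * val β ℓ - FE n β + 2 * |l| * n := by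
  obtain ⟨t, ht, e⟩ := hG.mvt_avg _ wt1 d hd _ (gv (Fin n × Fin n)) (h0 (β * √(1 - d)) η l)
    (continuous_h0 hη _ l).measurable (int_h0 hη _ l)
  refine ⟨t, ht, ?_⟩
  obtain ⟨i1, h1⟩ := hG.avg d hd.le hd1
  have i2 : Integrable (fun x => Y (Jw n β) (fun _ => 1) β ℓ d (h0 (β * √(1 - d)) η l x))
      (gv (Fin n × Fin n)) := by
    simp only [Y, Fe_eq (J := Jw n β) rfl]
    exact ((int_X wt1 hη _ _ _).sub (integrable_const _)).sub (int_X wt1 hη _ _ _)
  have key := integral_mono i2 (i1.add (integrable_const (2 * |l| * n))) fun x => by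
    have a1 := abs_X_sub_le wt1 (FL n √d ℓ) fun σ _ => abs_h0_sub hη (β * √(1 - d)) l x σ
    have a2 := abs_X_sub_le wt1 [sc √d (Jw n β)] fun σ _ => abs_h0_sub hη (β * √(1 - d)) l x σ
    simp only [Pi.add_apply, Y, Fe_eq (J := Jw n β) rfl, ← h0_zero β d η]
    linarith [(abs_le.1 a1).2, (abs_le.1 a2).1]
  simp only [Pi.add_apply] at key
  rw [integral_add i1 (integrable_const _), integral_const, probReal_univ, one_smul, e] at key
  unfold FE
  linarith

/-- the exact solution of the limiting system -/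
def g0 (β : ℝ) (ℓ : List (ℝ × ℝ)) (a : ℂ) (b : ℝ) : ℂ :=
  gId (ℓ.length + 1) (SdA.cx (mm ℓ)) (SdA.cx (qq β ℓ)) a b

/-- the total error per site -/
def er (n : ℕ) (β d η l δ e0 : ℝ) : ℝ :=
  (2 + 4 * β) * (28 / (n * η ^ 6) +
    (1 + 12 * β / η) * (δ / 2 + 2 * (e0 + 2 * |l|) / (δ * d * β ^ 2)) + 32 * |l| / η ^ 2)

/-- **the non-asymptotic bound** -/
theorem core (hn : 0 < n) (hβ : 0 < β) (hG : G1 β (Jw n β) ℓ) (hA : Adm 1 ℓ) (hd : 0 < d)
    (hd1 : d ≤ 1) (hη : 0 < η) (hη1 : η ≤ 1) {a : ℂ} (ha : Root η a)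
    (hq : ∀ j < ℓ.length + 1, qq β ℓ j ≤ qq β ℓ (j + 1)) (hq1 : ∀ j ≤ ℓ.length + 1, qq β ℓ j ≤ 1)
    {e0 δ : ℝ} (he : n * val β ℓ - FE n β ≤ e0 * n) (hδ : 0 < δ) (l : ℝ) :
    Psi n β d η l - Psi n β d η 0 ≤ e0 * n + l * n * (η * (g0 β ℓ a (β * √(1 - d))).im) +
      |l| * n * er n β d η l δ e0 := by
  obtain ⟨t, ht, h1⟩ := exists_time hG hd hd1 hη l
  have hn' : (0 : ℝ) < n := by exact_mod_cast hn
  have h2 := Psi_le hG hA hd1 hη l ht.1 ht.2
  have h3 := rhoT_le (n := n) hη hA β (1 - d) t (β * √(1 - d)) l hδ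
  have hb0 : 0 ≤ β * √(1 - d) := by positivity
  have hb1 : β * √(1 - d) ≤ β := mul_le_of_le_one_right hβ.le (sqrt_le_one.2 (by linarith))
  have h4 := sd_main hn ha hη hη1 wt1 (mono_Lt hA n β (1 - d) t) hb0 l (q := qq β ℓ) le_rfl
    (by rwa [length_Lt]) (by rwa [length_Lt])
  rw [length_Lt, exP_Lt, ← g0] at h4
  rw [EQ_eq hn hη wt1] at h2
  rw [Psi_zero hd.le hd1]
  have h0' : 0 ≤ rhoT (fun _ => 1) (Lt (Jw n β) ℓ (1 - d) t) (β * √(1 - d)) η l (qq β ℓ) :=
    sum_nonneg fun k _ => mul_nonneg (D_nonneg (mono_Lt hA n β _ t) k) (rho_nonneg wt1 _ _ _ _ _ _)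
  generalize gamd (fun _ => 1) (Lt (Jw n β) ℓ (1 - d) t) (β * √(1 - d)) η l = γ at *
  generalize rhoT (fun _ => 1) (Lt (Jw n β) ℓ (1 - d) t) (β * √(1 - d)) η l (qq β ℓ) = ρ at *
  generalize g0 β ℓ a (β * √(1 - d)) = γ0 at *
  generalize ∫ x, Rem (Jw n β) (fun _ => 1) β ℓ (1 - d) t
      (h0 (β * √(1 - d)) η l x) ∂gv (Fin n × Fin n) = r at *
  generalize β * √(1 - d) = b at *
  have h5 : r ≤ 4 * (e0 + 2 * |l|) / (d * β ^ 2) := by
    rw [le_div_iff₀ (by positivity)]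
    refine le_of_mul_le_mul_right ?_ hn'
    linarith
  have h6 : ρ ≤ δ / 2 + 2 * (e0 + 2 * |l|) / (δ * d * β ^ 2) := by
    refine h3.trans (add_le_add le_rfl ((mul_le_mul_of_nonneg_left h5 (by positivity)).trans
      (le_of_eq ?_)))
    field_simp
    ring
  obtain ⟨h7, -, h8⟩ := Root.im_ge ha hη hη1
  have hs : 0 < √η := sqrt_pos.2 hη
  have hs1 : √η ≤ 1 := sqrt_le_one.2 hη1
  have hss : √η * √η = η := mul_self_sqrt hη.le
  have h9 : η * (1 / a.im + b / a.im ^ 2) ≤ 2 + 4 * β := by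
    have k1 : 1 / a.im ≤ 1 / (√η / 2) := one_div_le_one_div_of_le (by positivity) h7
    have k2 : b / a.im ^ 2 ≤ β / (√η / 2) ^ 2 := by gcongr
    have k3 : η * (1 / (√η / 2) + β / (√η / 2) ^ 2) = 2 * √η + 4 * β := by
      field_simp
      rw [sq_sqrt hη.le]
      ring
    have := mul_le_mul_of_nonneg_left (add_le_add k1 k2) hη.le
    linarith
  have h10 : 28 / (n * η ^ 6) + (1 + 12 * b / η) * ρ + 32 * |l| / η ^ 2 ≤ 28 / (n * η ^ 6) +
      (1 + 12 * β / η) * (δ / 2 + 2 * (e0 + 2 * |l|) / (δ * d * β ^ 2)) + 32 * |l| / η ^ 2 := by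
    gcongr
  have h11 : η * ‖γ - γ0‖ ≤ er n β d η l δ e0 := by
    refine (mul_le_mul_of_nonneg_left h4 hη.le).trans ?_
    rw [← mul_assoc, er]
    exact mul_le_mul h9 h10 (by positivity) (by positivity)
  have h12 : l * (η * (γ.im - γ0.im)) ≤ |l| * er n β d η l δ e0 := by
    refine (le_abs_self _).trans ?_
    rw [abs_mul, abs_mul, abs_of_pos hη]
    refine mul_le_mul_of_nonneg_left (le_trans (mul_le_mul_of_nonneg_left ?_ hη.le) h11)
      (abs_nonneg l)
    rw [← Complex.sub_im]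
    exact Complex.abs_im_le_norm _
  have h13 := mul_le_mul_of_nonneg_left h12 hn'.le
  linarith

end Crest.Agent.T157.Sd
end
private theorem rz_62f4f8910f : type_of% @_root_.Crest.Agent.T157.Sd.mm.eq_1 := @_root_.Crest.Agent.T157.Sd.mm.eq_1 -- L203
private theorem rz_e96a4145ac : type_of% @_root_.Crest.Agent.T157.Sd.qq.eq_1 := @_root_.Crest.Agent.T157.Sd.qq.eq_1 -- L198
end

-- ▼ part T157/Sd_12
section

/-!
Row 157, part D (helper12): `PsiStmt` from Guerra's interpolation, the free energy lower bound and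
the grid minimiser of the Parisi functional.
-/

set_option autoImplicit false
set_option linter.unusedSectionVars false

noncomputable section

namespace Crest.Agent.T157.Sd

open Finset MeasureTheory Real Filter Topology
open Crest.Agent.T157.E Crest.Agent.T157.Casc Crest.Agent.T157.SdA Crest.Agent.T157.SdM
open Crest.Agent.T157.Ac Crest.Agent.T157.G1 Crest.Agent.T157.Pf
open Crest.Agent.R339.B Crest.Agent.R339.Var
open Crest.ProbabilityR.SpinGlassDynamics

variable {P : Par} {β : ℝ}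

theorem TT_const {c : ℝ} : ∀ {l : List (ℝ × ℝ)}, (∀ p ∈ l, p.2 = c) → TT l = l.length * c
  | [], _ => by simp [TT]
  | p :: l, h => by
    have ih := TT_const (l := l) fun q hq => h q (List.mem_cons_of_mem _ hq)
    unfold TT at ih ⊢
    rw [List.map_cons, List.sum_cons, ih, h p List.mem_cons_self, List.length_cons]
    push_cast; ring

theorem length_lst (P : Par) (β : ℝ) (N : ℕ) : (P.lst β N).length = N := by simp [Par.lst]

theorem qq_lst (h : P.OK) (hβ : 0 < β) {k : ℕ} (hk : k ≤ P.K) :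
    qq β (P.lst β P.K) (k + 1) = k / P.K := by
  have hK := h.Kp
  rw [qq, qs, TT_const fun p hp => Par.lst_snd P β P.K p (List.mem_of_mem_take hp),
    List.length_take, length_lst, min_eq_left hk]
  field_simp

theorem mm_lst (P : Par) (β : ℝ) {k : ℕ} (hk : k < P.K) : mm (P.lst β P.K) (k + 2) = P.z k := by
  simp [mm, Par.lst, hk]

theorem mm_top (ℓ : List (ℝ × ℝ)) : mm ℓ (ℓ.length + 1 + 1) = 1 := by simp [mm]

theorem qq_mono (h : P.OK) (hβ : 0 < β) : ∀ j < (P.lst β P.K).length + 1,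
    qq β (P.lst β P.K) j ≤ qq β (P.lst β P.K) (j + 1)
  | 0, _ => by rw [qq_lst h hβ (Nat.zero_le _)]; simp [qq]
  | k + 1, hk => by
    rw [length_lst] at hk
    have hK := h.Kp
    rw [qq_lst h hβ (by omega), qq_lst h hβ (by omega)]
    gcongr
    exact Nat.le_succ k

theorem qq_le (h : P.OK) (hβ : 0 < β) : ∀ j ≤ (P.lst β P.K).length + 1, qq β (P.lst β P.K) j ≤ 1
  | 0, _ => zero_le_one
  | k + 1, hk => by
    rw [length_lst] at hk
    rw [qq_lst h hβ (by omega), div_le_one h.Kp]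
    exact_mod_cast (by omega : k ≤ P.K)

/-- `∫_{k/K}^1 ζ` -/
def lam (P : Par) (k : ℕ) : ℝ := ∑ i ∈ Ico k P.K, P.z i / P.K

theorem hat_lst (h : P.OK) (hβ : 0 < β) : ∀ k ≤ P.K,
    hat ((P.lst β P.K).length + 1) (mm (P.lst β P.K)) 1 (qq β (P.lst β P.K)) (k + 1) = lam P k := by
  have hK := h.Kp
  intro k hk
  induction hk using Nat.decreasingInduction with
  | self =>
    have := hat_top (K := (P.lst β P.K).length + 1) (mm_top _) 1 (qq β (P.lst β P.K))
    rw [length_lst] at this ⊢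
    rw [this, qq_lst h hβ le_rfl, div_self hK.ne', lam]
    simp
  | of_succ k hk ih =>
    rw [hat_succ _ _ (by rw [length_lst]; omega), ih, mm_lst P β hk, qq_lst h hβ hk,
      qq_lst h hβ hk.le, lam, lam, sum_eq_sum_Ico_succ_bot hk]
    push_cast
    field_simp
    ring

theorem hat_lst' (h : P.OK) (hβ : 0 < β) (j : ℕ) (hj : j ≤ (P.lst β P.K).length + 1) :
    hat ((P.lst β P.K).length + 1) (mm (P.lst β P.K)) 1 (qq β (P.lst β P.K)) j =
      lam P (j - 1) := by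
  cases j with
  | zero =>
    rw [hat_succ _ _ (Nat.succ_pos _), hat_lst h hβ 0 (Nat.zero_le _)]
    simp [mm]
  | succ k =>
    rw [length_lst] at hj
    exact hat_lst h hβ k (by omega)

theorem lam_nonneg (h : P.OK) (k : ℕ) : 0 ≤ lam P k :=
  sum_nonneg fun i _ => div_nonneg (h.pos i).le h.Kp.le

theorem lam_split (P : Par) {k : ℕ} (hk : k ≤ P.K) :
    lam P 0 = ∑ i ∈ range k, P.z i / P.K + lam P k := by
  rw [lam, lam, range_eq_Ico, sum_Ico_consecutive _ (Nat.zero_le k) hk]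

theorem Zi_zero (h : P.OK) : P.Zi 0 = lam P 0 := by
  have hK := h.Kp
  have e := intervalIntegral.sum_integral_adjacent_intervals (f := P.zeta) (μ := volume)
    (a := fun i : ℕ => (i : ℝ) / P.K) (n := P.K) fun _ _ => h.zeta_mono.intervalIntegrable
  simp only [Nat.cast_zero, zero_div, div_self hK.ne'] at e
  rw [Par.Zi, ← e, lam, ← range_eq_Ico]
  refine sum_congr rfl fun i _ => ?_
  have hi : (i : ℝ) / P.K ≤ ((i + 1 : ℕ) : ℝ) / P.K := by gcongr; exact Nat.le_succ i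
  rw [intervalIntegral.integral_of_le hi, integral_Ioc_eq_integral_Ioo,
    setIntegral_congr_fun measurableSet_Ioo (g := fun _ => P.z i) fun r hr => by
      have h1 := (div_lt_iff₀ hK).1 hr.1
      have h2 := (lt_div_iff₀ hK).1 hr.2
      simp only [Par.zeta]
      congr 1
      rw [Nat.floor_eq_iff ((Nat.cast_nonneg i).trans h1.le)]
      exact ⟨h1.le, by exact_mod_cast h2⟩]
  rw [setIntegral_const, Real.volume_real_Ioo_of_le hi, smul_eq_mul]
  push_cast
  field_simp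
  ring

/-- the size of the exact solution -/
theorem size_lst (h : P.OK) (hβ : 1 < β) {c C ηP e : ℝ} (hC : 0 ≤ C) (hP : P.Good β c C ηP)
    (he : 0 < e) (he1 : e ≤ 1 / 2) (hη : ηP ≤ e ^ 2 / 2) (hK : 2 / e ≤ P.K) {a : ℂ}
    (ha : Root (e ^ 4) a) :
    e ^ 4 * (g0 β (P.lst β P.K) a (β * √(1 - e ^ 2))).im ≤
      -(e / (16 * ((1 + (2 + β * (C + 1))) ^ 2 + 4) ^ 2)) := by
  have hβ0 : 0 < β := by linarith
  have hK0 := h.Kp
  have hd : e ^ 2 ≤ 1 / 4 := by nlinarith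
  have hd0 : 0 < e ^ 2 := by positivity
  have s1 : √(1 - e ^ 2) ≤ 1 - e ^ 2 / 2 := sqrt_le_iff.2 ⟨by linarith, by nlinarith⟩
  have s2 : 1 - e ^ 2 ≤ √(1 - e ^ 2) := le_sqrt_of_sq_le (by nlinarith)
  have s0 : 0 < √(1 - e ^ 2) := by linarith
  have l0 := abs_le.1 hP.lam0
  rw [Zi_zero h] at l0
  have hη0 : 0 ≤ ηP := by linarith [l0.1, l0.2]
  have k0 : ⌊e * P.K⌋₊ ≤ P.K := Nat.floor_le_of_le (by nlinarith)
  have k1 : (⌊e * P.K⌋₊ : ℝ) ≤ e * P.K := Nat.floor_le (by positivity)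
  have k2 : e / 2 ≤ (⌊e * P.K⌋₊ : ℝ) / P.K := by
    have := Nat.lt_floor_add_one (e * P.K)
    rw [div_le_iff₀ he] at hK
    rw [le_div_iff₀ hK0]
    linarith
  have key := size (K := (P.lst β P.K).length + 1) (m := mm (P.lst β P.K))
    (q := qq β (P.lst β P.K)) (b := β * √(1 - e ^ 2)) (C := 2 + β * (C + 1)) he (by linarith)
    (by positivity) ha rfl (mm_top _) (by positivity) le_rfl (qq_mono h hβ0)
    (fun j hj => by rw [hat_lst' h hβ0 j hj]; exact mul_nonneg (by positivity) (lam_nonneg h _))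
    (fun j hj => by
      rw [hat_lst' h hβ0 j hj]
      rw [length_lst] at hj
      have h1 := lam_split P (k := j - 1) (by omega)
      have h2 : 0 ≤ ∑ i ∈ range (j - 1), P.z i / P.K :=
        sum_nonneg fun i _ => div_nonneg (h.pos i).le hK0.le
      have h3 : β * lam P (j - 1) ≤ 1 + e ^ 2 / 2 := by nlinarith [l0.2]
      have h4 := mul_le_mul s1 h3 (mul_nonneg hβ0.le (lam_nonneg h _)) (by linarith)
      nlinarith)
    (j0 := ⌊e * P.K⌋₊ + 1) (by rw [length_lst]; omega)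
    (fun j hj => by
      rw [hat_lst' h hβ0 j (by rw [length_lst]; omega)]
      have h1 := lam_split P (k := j - 1) (by omega)
      have hj' : ((j - 1 : ℕ) : ℝ) ≤ e * P.K := le_trans (by exact_mod_cast (by omega)) k1
      have h2 : ∑ i ∈ range (j - 1), P.z i / P.K ≤ e * (C * e + ηP) := by
        calc _ ≤ ∑ _i ∈ range (j - 1), (C * e + ηP) / P.K := sum_le_sum fun i hi => by
              have hi' : (i : ℝ) / P.K ≤ e := by
                rw [div_le_iff₀ hK0]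
                exact le_trans (by exact_mod_cast (mem_range.1 hi).le) hj'
              have := hP.zlin (i / P.K) ⟨by positivity, by linarith⟩
              rw [Par.zeta, div_mul_cancel₀ _ hK0.ne', Nat.floor_natCast] at this
              gcongr
              nlinarith
          _ ≤ _ := by
              rw [sum_const, card_range, nsmul_eq_mul, ← mul_div_assoc, div_le_iff₀ hK0]
              nlinarith [mul_le_mul_of_nonneg_right hj' (by positivity : 0 ≤ C * e + ηP)]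
      have h3 : e * (C * e + ηP) ≤ (C + 1) * e ^ 2 := by nlinarith
      have h4 : 1 - e ^ 2 / 2 - β * ((C + 1) * e ^ 2) ≤ β * lam P (j - 1) := by
        nlinarith [l0.1, mul_le_mul_of_nonneg_left (h2.trans h3) hβ0.le]
      have h5 := mul_le_mul_of_nonneg_right s2 (mul_nonneg hβ0.le (lam_nonneg h (j - 1)))
      have h6 := mul_le_mul_of_nonneg_left h4 (by linarith : 0 ≤ 1 - e ^ 2)
      have h7 : 0 ≤ e ^ 2 * (e ^ 2 / 2 + β * ((C + 1) * e ^ 2)) := by positivity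
      nlinarith)
  rw [qq_lst h hβ0 k0, ← g0] at key
  have e0 : qq β (P.lst β P.K) 0 = 0 := rfl
  rw [e0, sub_zero, div_le_iff₀ (by positivity)] at key
  rw [le_neg, div_le_iff₀ (by positivity)]
  linarith

/-- the three bridges between the words of `G1` and the words of the statement -/
def Bridge : Prop := ∀ (n : ℕ), 0 < n → ∀ β : ℝ, 0 < β → IsJ β (Jw n β) ∧
  FE n β = ∫ g, log (∑ x, gibbsWeight n β g x) ∂disorderLaw n ∧
  ∀ P : Par, P.OK → G1.val β (P.lst β P.K) = P.val β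

theorem er_le {n : ℕ} {C1 e l : ℝ} (hβ : 1 < β) (hC : 0 ≤ C1) (he : 0 < e) (he1 : e ≤ 1)
    (hn : n * e ^ 400 = 1) (hl : |l| = e ^ 16) :
    er n β (e ^ 2) (e ^ 4) l (e ^ 6) ((1 + C1) * e ^ 18) ≤
      (2 + 4 * β) * (60 + (1 + 12 * β) * (7 + 2 * C1)) * e ^ 2 := by
  have hn' : (n : ℝ) = 1 / e ^ 400 := by rw [eq_div_iff (pow_pos he 400).ne', hn]
  have p : ∀ {i j : ℕ}, i ≤ j → e ^ j ≤ e ^ i := fun h => pow_le_pow_of_le_one he.le he1 h
  rw [er, hl, hn', mul_assoc (2 + 4 * β)]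
  refine mul_le_mul_of_nonneg_left ?_ (by linarith)
  have h1 : 28 / (1 / e ^ 400 * (e ^ 4) ^ 6) = 28 * e ^ 376 := by field_simp
  have h2 : 32 * e ^ 16 / (e ^ 4) ^ 2 = 32 * e ^ 8 := by field_simp
  have h3 : 1 + 12 * β / e ^ 4 ≤ (1 + 12 * β) / e ^ 4 := by
    rw [add_div]
    exact add_le_add (one_le_one_div (pow_pos he 4) (pow_le_one₀ he.le he1)) le_rfl
  have h4 : e ^ 6 / 2 + 2 * ((1 + C1) * e ^ 18 + 2 * e ^ 16) / (e ^ 6 * e ^ 2 * β ^ 2) ≤
      (7 + 2 * C1) * e ^ 6 := by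
    have : 2 * ((1 + C1) * e ^ 18 + 2 * e ^ 16) / (e ^ 6 * e ^ 2 * β ^ 2) ≤
        (6 + 2 * C1) * e ^ 6 := by
      rw [div_le_iff₀ (by positivity)]
      have a1 : e ^ 18 ≤ e ^ 14 := p (by norm_num)
      have a2 : e ^ 16 ≤ e ^ 14 := p (by norm_num)
      have a3 : 1 ≤ β ^ 2 := one_le_pow₀ hβ.le
      have a4 : (6 + 2 * C1) * e ^ 14 * 1 ≤ (6 + 2 * C1) * e ^ 14 * β ^ 2 := by gcongr
      nlinarith [mul_le_mul_of_nonneg_left a1 hC]
    have : 0 < e ^ 6 := by positivity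
    linarith
  have h5 := mul_le_mul h3 h4 (by positivity) (by positivity)
  have h6 : (1 + 12 * β) / e ^ 4 * ((7 + 2 * C1) * e ^ 6) =
    (1 + 12 * β) * (7 + 2 * C1) * e ^ 2 := by field_simp
  have a1 : e ^ 376 ≤ e ^ 2 := p (by norm_num)
  have a2 : e ^ 8 ≤ e ^ 2 := p (by norm_num)
  rw [h1, h2]
  linarith

/-- the finite `n` statement -/
theorem fin_bound (hG : G1Stmt) (hB : Bridge) (hF : An.FreeStmt) (hP : ParStmt) (hβ : 1 < β) :
    ∃ c1 C4 : ℝ, 0 < c1 ∧ 0 < C4 ∧ ∀ (n : ℕ) (e : ℝ), 0 < n → 0 < e → e ≤ 1 / 2 →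
      n * e ^ 400 = 1 → (n : ℝ) ^ (10 / 11 : ℝ) ≤ n * e ^ 18 →
      Psi n β (e ^ 2) (e ^ 4) (e ^ 16) - Psi n β (e ^ 2) (e ^ 4) 0 ≤ n * e ^ 17 * (C4 * e - c1) ∧
      Psi n β (e ^ 2) (e ^ 4) (e ^ 16) + Psi n β (e ^ 2) (e ^ 4) (-e ^ 16) -
        2 * Psi n β (e ^ 2) (e ^ 4) 0 ≤ 2 * C4 * n * e ^ 18 := by
  have hβ0 : 0 < β := by linarith
  obtain ⟨C1, hC1, hF⟩ := hF β hβ
  obtain ⟨c, C, -, -, hC, K0, hP⟩ := hP β hβ
  refine ⟨1 / (16 * ((1 + (2 + β * (C + 1))) ^ 2 + 4) ^ 2),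
    1 + C1 + (2 + 4 * β) * (60 + (1 + 12 * β) * (7 + 2 * C1)), by positivity, by positivity,
    fun n e hn he he1 h400 h18 => ?_⟩
  have he1' : e ≤ 1 := by linarith
  have t1 : Tendsto (fun K : ℕ => C * (K : ℝ) ^ (-(1 / 8 : ℝ))) atTop (𝓝 0) := by
    simpa using ((tendsto_rpow_neg_atTop (by norm_num : (0 : ℝ) < 1 / 8)).comp
      tendsto_natCast_atTop_atTop).const_mul C
  obtain ⟨K, hK1, hK2, hK3⟩ := ((eventually_ge_atTop K0).and
    ((t1.eventually (ge_mem_nhds (by positivity : 0 < e ^ 18 / 2))).and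
      (tendsto_natCast_atTop_atTop.eventually (eventually_ge_atTop (2 / e))))).exists
  obtain ⟨P, rfl, hO, hP⟩ := hP K hK1
  obtain ⟨b1, b2, b3⟩ := hB n hn β hβ0
  obtain ⟨a, ha⟩ := exists_root (η := e ^ 4) (by positivity)
  have p : ∀ {i j : ℕ}, i ≤ j → e ^ j ≤ e ^ i := fun h => pow_le_pow_of_le_one he.le he1' h
  have h1 := size_lst hO hβ (by linarith) hP he he1
    (hK2.trans (by linarith [p (by norm_num : 2 ≤ 18)])) hK3 ha
  have h2 := hF _ _ _ P hO hP n
  have hn' : (0 : ℝ) < n := by exact_mod_cast hn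
  have h3 : n * G1.val β (P.lst β P.K) - FE n β ≤ (1 + C1) * e ^ 18 * n := by
    rw [b3 P hO, b2]
    have a1 := mul_le_mul_of_nonneg_left h18 hC1
    have a2 := mul_le_mul_of_nonneg_left hK2 hn'.le
    have a3 : 0 < n * e ^ 18 := by positivity
    linarith
  have key := core hn hβ0 (hG n hn β hβ0 _ b1 _ (hO.adm β _) (hO.TT_K β)) (hO.adm β _)
    (d := e ^ 2) (η := e ^ 4) (by positivity) (pow_le_one₀ he.le he1') (by positivity)
    (pow_le_one₀ he.le he1') ha (qq_mono hO hβ0) (qq_le hO hβ0) h3 (δ := e ^ 6) (by positivity)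
  have l1 : |e ^ 16| = e ^ 16 := abs_of_pos (by positivity)
  have l2 : |-e ^ 16| = e ^ 16 := by rw [abs_neg, l1]
  have k1 := key (e ^ 16)
  have k2 := key (-e ^ 16)
  have r1 := mul_le_mul_of_nonneg_left (er_le hβ hC1 he he1' h400 l1)
    (by positivity : 0 ≤ e ^ 16 * n)
  have r2 := mul_le_mul_of_nonneg_left (er_le hβ hC1 he he1' h400 l2)
    (by positivity : 0 ≤ e ^ 16 * n)
  have r3 := mul_le_mul_of_nonneg_left h1 (by positivity : 0 ≤ e ^ 16 * n)
  rw [l1] at k1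
  rw [l2] at k2
  rw [div_eq_mul_one_div] at r3
  constructor <;> linarith

/-- **(L2)+(L3)** -/
theorem psi_of (hG : G1Stmt) (hB : Bridge) (hF : An.FreeStmt) (hP : ParStmt) : PsiStmt := by
  intro β hβ
  have hβ0 : 0 < β := by linarith
  obtain ⟨c1, C4, hc1, hC4, H⟩ := fin_bound hG hB hF hP hβ
  obtain ⟨e, he⟩ : ∃ e : ℕ → ℝ, e = fun n : ℕ => (n : ℝ) ^ (-(1 / 400 : ℝ)) := ⟨_, rfl⟩
  have t1 : Tendsto e atTop (𝓝 0) := he ▸
    (tendsto_rpow_neg_atTop (by norm_num : (0 : ℝ) < 1 / 400)).comp tendsto_natCast_atTop_atTop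
  have t2 : Tendsto (fun n : ℕ => (n : ℝ) ^ (1 / 1000 : ℝ) * e n) atTop (𝓝 0) := by
    refine ((tendsto_rpow_neg_atTop (by norm_num : (0 : ℝ) < 3 / 2000)).comp
      tendsto_natCast_atTop_atTop).congr' ?_
    filter_upwards [eventually_gt_atTop 0] with n hn
    rw [he, ← rpow_add (by exact_mod_cast hn)]
    norm_num
  have ev : ∀ᶠ n : ℕ in atTop, 0 < n ∧ 0 < e n ∧ e n ≤ 1 / 2 ∧ e n ≤ c1 / (2 * C4) ∧
      n * e n ^ 400 = 1 ∧ (n : ℝ) ^ (10 / 11 : ℝ) ≤ n * e n ^ 18 := by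
    filter_upwards [eventually_gt_atTop 0, t1.eventually (ge_mem_nhds one_half_pos),
      t1.eventually (ge_mem_nhds (by positivity : 0 < c1 / (2 * C4)))] with n hn h1 h2
    have hn' : (0 : ℝ) < n := by exact_mod_cast hn
    refine ⟨hn, he ▸ rpow_pos_of_pos hn' _, h1, h2, ?_, ?_⟩
    · rw [he, ← rpow_mul_natCast hn'.le]
      norm_num [rpow_neg_one, hn.ne']
    · rw [he, ← rpow_mul_natCast hn'.le, ← rpow_one_add' hn'.le (by norm_num)]
      exact rpow_le_rpow_of_exponent_le (by exact_mod_cast hn) (by norm_num)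
  refine ⟨1 / 1000, by norm_num, fun n => e n ^ 2, fun n => e n ^ 4, fun n => e n ^ 16,
    fun n => c1 / 4 * e n, ?_, ?_, ?_⟩
  · filter_upwards [ev] with n ⟨hn, h0, h1, h2, h3, h4⟩
    have h1' : e n ≤ 1 := by linarith
    refine ⟨by positivity, pow_le_one₀ h0.le h1', by positivity, pow_le_one₀ h0.le h1',
      by positivity, by positivity, (H n (e n) hn h0 h1 h3 h4).1.trans ?_⟩
    rw [le_div_iff₀ (by positivity)] at h2
    have : n * e n ^ 17 * (C4 * e n - c1) ≤ n * e n ^ 17 * (-(c1 / 2)) :=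
      mul_le_mul_of_nonneg_left (by linarith) (by positivity)
    linarith
  · refine squeeze_zero' ?_ ?_ (by simpa using t2.const_mul (4 * (2 * C4 + 5) / c1))
    · filter_upwards [ev] with n ⟨hn, h0, h1, h2, h3, h4⟩
      have := bound_aux (β := β) (d := e n ^ 2) (η := e n ^ 4) (l := e n ^ 16) hn hβ0
        (by positivity) (pow_le_one₀ h0.le (by linarith)) (by positivity) (by positivity)
      positivity
    · filter_upwards [ev] with n ⟨hn, h0, h1, h2, h3, h4⟩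
      have h1' : e n ≤ 1 := by linarith
      have hn' : (0 : ℝ) < n := by exact_mod_cast hn
      have p : ∀ {i j : ℕ}, i ≤ j → e n ^ j ≤ e n ^ i := fun h => pow_le_pow_of_le_one h0.le h1' h
      have a1 := (H n (e n) hn h0 h1 h3 h4).2
      have a2 : (Psi n β (e n ^ 2) (e n ^ 4) (e n ^ 16) + Psi n β (e n ^ 2) (e n ^ 4) (-e n ^ 16) -
          2 * Psi n β (e n ^ 2) (e n ^ 4) 0 + 1) / (e n ^ 16 * n) ≤ (2 * C4 + 1) * e n ^ 2 := by
        rw [div_le_iff₀ (by positivity)]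
        have := mul_le_mul_of_nonneg_left (p (by norm_num : 18 ≤ 400)) hn'.le
        linarith
      have a3 : √(Tau n (e n ^ 4) / (n * e n ^ 2)) ≤ 4 * e n ^ 2 := by
        refine sqrt_le_iff.2 ⟨by positivity, ?_⟩
        have b1 := Tau_le hn (η := e n ^ 4) (by positivity) (pow_le_one₀ h0.le h1')
        rw [show √(e n ^ 4) = e n ^ 2 by
          rw [show e n ^ 4 = (e n ^ 2) ^ 2 by ring, sqrt_sq (by positivity)]] at b1
        have b2 : 10 / (e n ^ 4) ^ 4 ≤ 10 * (n * e n ^ 6) := by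
          rw [div_le_iff₀ (by positivity)]
          have := mul_le_mul_of_nonneg_left (p (by norm_num : 22 ≤ 400)) hn'.le
          linarith
        rw [div_le_iff₀ (by positivity)]
        have b3 : 0 < n * e n ^ 6 := by positivity
        linarith
      rw [div_le_iff₀ (by positivity)]
      refine (mul_le_mul_of_nonneg_left (add_le_add a2 a3) (by positivity)).trans (le_of_eq ?_)
      field_simp
      ring
  · refine squeeze_zero' ?_ ?_ (by simpa using t1.const_mul (8 / c1))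
    · filter_upwards [ev] with n ⟨hn, h0, h1, h2, h3, h4⟩
      positivity
    · filter_upwards [ev] with n ⟨hn, h0, h1, h2, h3, h4⟩
      have h1' : e n ≤ 1 := by linarith
      have hn' : (0 : ℝ) < n := by exact_mod_cast hn
      have p : ∀ {i j : ℕ}, i ≤ j → e n ^ j ≤ e n ^ i := fun h => pow_le_pow_of_le_one h0.le h1' h
      have a1 : 1 / e n ^ 4 ≤ 1 / e n ^ 16 :=
        one_div_le_one_div_of_le (by positivity) (p (by norm_num))
      have a2 : 1 / e n ^ 18 ≤ √n := by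
        refine le_sqrt_of_sq_le ?_
        rw [div_pow, div_le_iff₀ (by positivity)]
        have := mul_le_mul_of_nonneg_left (p (by norm_num : 36 ≤ 400)) hn'.le
        linarith
      calc _ ≤ (1 / e n ^ 16 + 1 / e n ^ 16) / (c1 / 4 * e n * (1 / e n ^ 18)) := by gcongr
        _ = _ := by field_simp; ring

end Crest.Agent.T157.Sd
end
end

-- ▼ part T157/UpFe_61

/-!
Row 157, part D (helper61): Guerra's upper bound in tail form (`Up.FeStmt`).
-/

set_option autoImplicit false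

noncomputable section

namespace Crest.Agent.T157.Up

open MeasureTheory Matrix Set Filter Real Topology
open Crest.ProbabilityR.SpinGlassDynamics
open Crest.Agent.T157.E Crest.Agent.T157.Casc Crest.Agent.T157.Vg Crest.Agent.T157.Pf
open Crest.Agent.R339.B Crest.Agent.R339.Var

namespace Fe61

/-- the spin as a one-replica feature -/
def sp : Bool → Unit → ℝ := fun a _ => spin a

/-- a block `(exponent, variance)` as a site level -/
def vl (β : ℝ) (p : ℝ × ℝ) : VL Unit Bool :=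
  ⟨Unit, Matrix.of fun _ _ => √p.2 / β, Empty, fun _ k => k.elim, p.1⟩

local instance uq : Unique (Unit ⊕ Empty) where
  default := Sum.inl ()
  uniq := fun x => by
    rcases x with x | x
    · rfl
    · exact x.elim

theorem X_site {β : ℝ} (hβ : β ≠ 0) : ∀ (l : List (ℝ × ℝ)) (x : ℝ),
    X (fun _ => 1) ((l.map (vl β)).map (VL.site β sp)) (fun b => x * spin b) = PhiL 1 l x
  | [], x => by
    simp [X, PhiL, phi0, spin, cosh_eq, mul_div_cancel₀]
  | p :: l, x => by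
    have e : ∀ g : Unit ⊕ Empty → ℝ, (fun b => x * spin b) + (VL.site β sp (vl β p)).fld g =
        fun b => (x + √p.2 * g (Sum.inl ())) * spin b := fun g => by
      funext b
      show x * spin b + ∑ i : Unit ⊕ Empty, Sum.elim
        (fun _ : Unit => β * ∑ _c : Unit, spin b * (√p.2 / β))
        (fun k : Empty => (k.elim : ℝ)) i * g i = _
      rw [Fintype.sum_sum_type]
      simp only [Finset.univ_unique, Finset.sum_singleton, Sum.elim_inl,
        Finset.univ_eq_empty, Finset.sum_empty, add_zero, PUnit.default_eq_unit]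
      field_simp
    have mp := measurePreserving_funUnique (ProbabilityTheory.gaussianReal 0 1) (Unit ⊕ Empty)
    have ih := X_site hβ l
    have h1 : ∀ F : ℝ → ℝ, ∫ g : Unit ⊕ Empty → ℝ, F (g (Sum.inl ())) ∂gv (Unit ⊕ Empty) =
        ∫ g, F g ∂ProbabilityTheory.gaussianReal 0 1 := fun F => by
      rw [← mp.integral_comp' F]
      congr!
    show step (VL.site β sp (vl β p)) _ _ = Crest.ProbabilityR.InvariantGlass.gaussOp p.1 p.2 _ x
    unfold step Crest.ProbabilityR.InvariantGlass.gaussOp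
    rw [← h1 fun g => PhiL 1 l (x + √p.2 * g), ← h1 fun g => exp (p.1 * PhiL 1 l (x + √p.2 * g))]
    simp only [e, ih]
    rfl

theorem vl_C {β : ℝ} {p : ℝ × ℝ} (hp : 0 ≤ p.2) :
    (vl β p).C = Matrix.of fun _ _ => p.2 / β ^ 2 := by
  ext i j
  show ∑ _k : Unit, √p.2 / β * (√p.2 / β) = p.2 / β ^ 2
  rw [Finset.univ_unique, Finset.sum_singleton, div_mul_div_comm, mul_self_sqrt hp, sq]

theorem corr_vl {β : ℝ} (hβ : β ≠ 0) : ∀ (l : List (ℝ × ℝ)), (∀ p ∈ l, 0 ≤ p.2) → ∀ q : ℝ,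
    corr (Matrix.of fun _ _ => q / β ^ 2) (l.map (vl β)) = R339.Guerra.pen q l / β ^ 4
  | [], _, q => by simp [corr, R339.Guerra.pen]
  | p :: l, h, q => by
    have hp := h p List.mem_cons_self
    have e : (Matrix.of fun _ _ => q / β ^ 2 : Matrix Unit Unit ℝ) + (vl β p).C =
        Matrix.of fun _ _ => (q + p.2) / β ^ 2 := by
      rw [vl_C hp]; ext i j; simp [add_div]
    rw [List.map_cons, corr, e, corr_vl hβ l (fun r hr => h r (List.mem_cons_of_mem _ hr)),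
      R339.Guerra.pen]
    show p.1 * _ + _ = _
    simp only [fr2, Finset.univ_unique, Finset.sum_singleton, Matrix.of_apply]
    field_simp

theorem Qtop_vl (β : ℝ) : ∀ (l : List (ℝ × ℝ)), (∀ p ∈ l, 0 ≤ p.2) →
    Qtop (l.map (vl β)) = Matrix.of fun _ _ => TT l / β ^ 2
  | [], _ => by ext i j; simp [Qtop, TT]
  | p :: l, h => by
    rw [List.map_cons, Qtop_cons, Qtop_vl β l (fun r hr => h r (List.mem_cons_of_mem _ hr)),
      vl_C (h p List.mem_cons_self), Sc.TT_cons]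
    ext i j; simp [add_div]

theorem mono_vl (β : ℝ) : ∀ (l : List (ℝ × ℝ)), Adm 1 l → ∀ m0 : ℝ, m0 ≤ headLv 1 l →
    Mono m0 ((l.map (vl β)).map VL.fix)
  | [], _, _, h => h
  | _ :: l, hl, _, h => ⟨h, mono_vl β l hl.2.2.2 _ hl.2.1⟩

theorem cut_TT : ∀ (l : List (ℝ × ℝ)), (∀ p ∈ l, 0 < p.2) → Sc.cut l (TT l) = l
  | [], _ => rfl
  | [p], _ => by simp [Sc.cut, TT]
  | p :: r :: l, h => by
    have h1 : 0 < TT (r :: l) := by
      rw [Sc.TT_cons]
      exact add_pos_of_pos_of_nonneg (h r (by simp)) (TT_nonneg fun q hq => (h q (by simp [hq])).le)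
    rw [Sc.TT_cons, Sc.cut, if_neg (by linarith), add_sub_cancel_left,
      cut_TT (r :: l) fun q hq => h q (List.mem_cons_of_mem _ hq)]

theorem lst_pos {P : Par} (h : P.OK) {β : ℝ} (hβ : 0 < β) : ∀ p ∈ P.lst β P.K, 0 < p.2 := by
  intro p hp
  obtain ⟨k, rfl⟩ := List.mem_ofFn.1 hp
  have : (0 : ℝ) < P.K := by exact_mod_cast h.Kpos
  positivity

theorem Ph_zero {P : Par} (h : P.OK) {β : ℝ} (hβ : 0 < β) :
    P.Ph β 0 0 = PhiL 1 (P.lst β P.K) 0 := by
  have e4 : ∀ l : List (ℝ × ℝ), (∀ p ∈ l, 0 < p.2) → PhiT 1 l 0 = PhiL 1 l := fun l hl => by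
    cases l with
    | nil => rfl
    | cons p l => simp [PhiT, PhiL, (hl p (by simp)).le]
  rw [Par.Ph, mul_zero, e4 _ (lst_pos h hβ)]

theorem pen_lst {P : Par} (h : P.OK) {β : ℝ} (hβ : 0 < β) :
    R339.Guerra.pen 0 (P.lst β P.K) = 4 * β ^ 2 * P.pen β 0 := by
  have h1 := Sc.pen_cut h hβ (s := 1) ⟨zero_le_one, le_rfl⟩
  rw [mul_one] at h1
  nth_rewrite 1 [← Sc.TT_lst h β] at h1
  rw [cut_TT _ (lst_pos h hβ)] at h1
  rw [h1]
  simp [Par.pen]

/-- the tail bound at fixed `n` -/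
theorem tail {n : ℕ} (hn : 0 < n) {P : Par} (h : P.OK) {β : ℝ} (hβ : 0 < β) {t : ℝ} (ht : 0 ≤ t) :
    (Om n).real {z | n * P.val β + t ≤ log (Zw (ising (β • Wmat n z.1 z.2) 0))} ≤
      exp (-t ^ 2 / (β ^ 2 * n)) := by
  have hl : ∀ p ∈ P.lst β P.K, 0 ≤ p.2 := fun p hp => (lst_pos h hβ p hp).le
  have hA := Sc.adm_lst h β P.K
  have h0 : (0 : ℝ) ≤ headLv 1 (P.lst β P.K) := by
    cases hc : P.lst β P.K with
    | nil => exact zero_le_one
    | cons p l => rw [hc] at hA; exact hA.1.le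
  have h1 := vg_tail_Wmat β sp hn (fun _ _ => 1) (fun _ b => 0 * spin b)
    (fun _ => SL.Wt.of_pos fun _ => one_pos) ((P.lst β P.K).map (vl β)) (mono_vl β _ hA 0 h0)
    (T := 1) zero_le_one (fun i a _ => by simp [sp, spin_sq]) ht
  have hn' : (n : ℝ) ≠ 0 := by exact_mod_cast hn.ne'
  have e1 : ∑ _i : Fin n, X (fun _ => (1 : ℝ)) (((P.lst β P.K).map (vl β)).map (VL.site β sp))
      (fun b => 0 * spin b) - β ^ 2 * n / 4 * corr 0 ((P.lst β P.K).map (vl β)) =
      n * P.val β := by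
    have e0 : (0 : Matrix Unit Unit ℝ) = Matrix.of fun _ _ => 0 / β ^ 2 := by ext i j; simp
    rw [X_site hβ.ne', e0, corr_vl hβ.ne' _ hl, pen_lst h hβ, Par.val, Ph_zero h hβ]
    simp only [Finset.sum_const, Finset.card_univ, Fintype.card_fin, nsmul_eq_mul]
    field_simp
  have e2 : ∀ W : Matrix (Fin n) (Fin n) ℝ, val β sp (fun _ _ => 1) (fun _ b => 0 * spin b)
      ((P.lst β P.K).map (vl β)) W = log (Zw (ising (β • W) 0)) := fun W => by
    rw [val_eq_log β sp _ _ (fun l hl a k => by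
      obtain ⟨p, _, rfl⟩ := List.mem_map.1 hl
      exact k.elim), Qtop_vl β _ hl, Sc.TT_lst h, Zw]
    congr 1
    refine Finset.sum_congr rfl fun s _ => ?_
    have e3 : ov sp s s = Matrix.of fun _ _ => β ^ 2 / β ^ 2 := by
      ext i j
      show sv s ⬝ᵥ sv s / n = β ^ 2 / β ^ 2
      rw [sv_dot_self, div_self hn', div_self (by positivity)]
    have e4 : HW β sp W s = β / 2 * (sv s ⬝ᵥ W *ᵥ sv s) := by
      rw [HW, Finset.univ_unique, Finset.sum_singleton]; rfl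
    rw [Vg.pen, e3, e4, ising, smul_mulVec, dotProduct_smul]
    simp [fr2]
    ring
  simp only [e1, e2, one_pow, mul_one] at h1
  exact h1

end Fe61

open Fe61

/-- Guerra's upper bound in tail form -/
theorem feStmt : FeStmt := by
  intro β hβ P hP
  have hβ0 : 0 < β := by linarith
  have ha : Tendsto (fun n : ℕ => exp (-((n : ℝ) ^ (1 - 200 / 10000000 : ℝ) / β ^ 2))) atTop
      (𝓝 0) := by
    refine tendsto_exp_neg_atTop_nhds_zero.comp (Tendsto.atTop_div_const (by positivity) ?_)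
    exact (tendsto_rpow_atTop (by norm_num)).comp tendsto_natCast_atTop_atTop
  refine Top.whp_of_real_le ha ?_
  filter_upwards [hP, eventually_gt_atTop 0] with n hn hn0
  have hn' : (0 : ℝ) < n := by exact_mod_cast hn0
  have he : 0 ≤ eps n := rpow_nonneg hn'.le _
  have h1 := tail hn0 hn hβ0 (t := n * eps n ^ 100) (by positivity)
  have e : -(n * eps n ^ 100) ^ 2 / (β ^ 2 * n) = -((n : ℝ) ^ (1 - 200 / 10000000 : ℝ) / β ^ 2) := by
    have e1 : eps n ^ 200 = (n : ℝ) ^ (-(200 / 10000000 : ℝ)) := by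
      rw [eps, ← rpow_natCast, ← rpow_mul hn'.le]; norm_num
    rw [sub_eq_add_neg, rpow_add hn', rpow_one, ← e1]
    field_simp
  rw [e] at h1
  refine le_trans (measureReal_mono fun z hz => ?_) h1
  simp only [mem_ofPred_eq, not_le] at hz ⊢
  linarith

end Crest.Agent.T157.Up

end
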