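import Crest.Agent.T157.TreeB_58
import Crest.Agent.T157.CascC_65
import Crest.Agent.T157.CascP_52
import Crest.Agent.T157.PfDef_56
import Crest.Agent.T157.Cut1_54
import Crest.Agent.T157.AnDef_51
import Crest.Agent.T157.UpDef_74
import Crest.Agent.T157.Sc2b_68
import Crest.Agent.T157.PfSite_56

-- ▼ part T157/TreeC_58
section

/-!
# Row 157, part D (helper58): Guerra's identity with remainder for a weighted SK partition function
-/

set_option autoImplicit false
set_option linter.unusedSectionVars false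

noncomputable section

namespace Crest.Agent.T157.Tree

open MeasureTheory Real Set Finset Matrix
open Crest.ProbabilityR.SpinGlassDynamics
open Crest.Agent.T157.E Crest.Agent.T157.SL Crest.Agent.T157.Casc Crest.Agent.T157.Exp
open Crest.Agent.T157.Casc.C (prodLv pe X_prod X_of_zero step_of_zero X_split)
open Crest.Agent.R339.B Crest.Agent.R339.Var

variable {n : ℕ} {w : Cube n → ℝ}

/-- the coefficients of the couplings -/
def cf (x : Cube n) (p : Pair n) : ℝ := spin (x p.1.1) * spin (x p.1.2) / √n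

/-- the coupling level (plain expectation), amplitude `a` -/
abbrev jl (n : ℕ) (a : ℝ) : Lv (Cube n) := ⟨Pair n, fun x p => a * cf x p, 0⟩

/-- a site level -/
abbrev sl (m a : ℝ) : Lv Bool := ⟨Unit, fun b _ => a * spin b, m⟩

/-- a field level: exponent `m`, amplitude `a` -/
abbrev fl (n : ℕ) (m a : ℝ) : Lv (Cube n) := ⟨Fin n × Unit, fun x p => a * spin (x p.1), m⟩

/-- `K` field levels -/
def fls (n K : ℕ) (z : ℕ → ℝ) (a : ℝ) : List (Lv (Cube n)) :=
  List.ofFn fun k : Fin K => fl n (z k) a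

/-- jumps of the exponents -/
def dz (z : ℕ → ℝ) (j : ℕ) : ℝ := z j - Nat.casesOn j 0 z

/-- `2 ∫ r ζ(r) dr` -/
def pc (K : ℕ) (z : ℕ → ℝ) : ℝ := 1 - ∑ j ∈ range (K + 1), dz z j * ((j : ℝ) / K) ^ 2

/-- Guerra's remainder -/
def rem (w : Cube n → ℝ) (L : List (Lv (Cube n))) (K : ℕ) (z : ℕ → ℝ) (h : Cube n → ℝ) : ℝ :=
  ∑ j ∈ range (K + 1), dz z j * pi2 w L (j + 1) (fun x y => (ovl x y - (j : ℝ) / K) ^ 2) h

theorem jl_fld (a : ℝ) (g : Pair n → ℝ) (x : Cube n) : (jl n a).fld g x = a * en1 g x := by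
  simp only [Lv.fld, en1, cf, Finset.mul_sum]
  exact Finset.sum_congr rfl fun p _ => by ring

theorem n_ovl (hn : 0 < n) (x y : Cube n) : ∑ i, spin (x i) * spin (y i) = n * ovl x y := by
  have : (n : ℝ) ≠ 0 := by positivity
  simp only [ovl, dotProduct, sv]
  field_simp

theorem ovl_self (hn : 0 < n) (x : Cube n) : ovl x x = 1 := by
  have : (n : ℝ) ≠ 0 := by positivity
  rw [ovl, sv_dot_self, div_self this]

theorem sum_cf (hn : 0 < n) (x y : Cube n) :
    ∑ p, cf x p * cf y p = n * ovl x y ^ 2 / 2 - 1 / 2 := by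
  have hn' : (0 : ℝ) < n := by positivity
  set a : Fin n → ℝ := fun i => spin (x i) * spin (y i)
  have ha : ∀ i, a i * a i = 1 := fun i => by
    simp only [a]
    rw [mul_mul_mul_comm, spin_mul_self, spin_mul_self, one_mul]
  have h1 := sum_sum_eq_two_mul_pair (fun i j => a i * a j - if i = j then 1 else 0)
    (fun i j => by rw [mul_comm]; simp only [eq_comm]) fun i => by simp [ha]
  have h2 : ∑ p : Pair n, (a p.1.1 * a p.1.2 - if p.1.1 = p.1.2 then 1 else 0) =
      n * ∑ p, cf x p * cf y p := by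
    rw [Finset.mul_sum]
    refine Finset.sum_congr rfl fun p _ => ?_
    rw [if_neg p.2.ne, cf, cf, div_mul_div_comm, mul_self_sqrt hn'.le]
    simp only [a]
    field_simp
    ring
  rw [h2] at h1
  simp only [Finset.sum_sub_distrib, ← Finset.sum_mul_sum, Finset.sum_ite_eq, Finset.mem_univ,
    if_true, Finset.sum_const, Finset.card_univ, Fintype.card_fin, nsmul_eq_mul, mul_one] at h1
  have h3 : ∑ i, a i = n * ovl x y := n_ovl hn x y
  rw [h3] at h1
  have : (n : ℝ) * (2 * ∑ p, cf x p * cf y p - (n * ovl x y ^ 2 - 1)) = 0 := by linarith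
  have := (mul_eq_zero.1 this).resolve_left hn'.ne'
  linarith

theorem jl_cov (hn : 0 < n) (a : ℝ) (x y : Cube n) :
    (jl n a).cov x y = a ^ 2 * (n * ovl x y ^ 2 / 2 - 1 / 2) := by
  rw [← sum_cf hn, Finset.mul_sum]
  exact Finset.sum_congr rfl fun p _ => by ring

theorem vm_jl (hn : 0 < n) (a : ℝ) : vm (jl n a) ≤ a ^ 2 * n / 2 :=
  vm_le _ (by positivity) fun x => by
    rw [jl_cov hn, ovl_self hn]
    nlinarith [sq_nonneg a]

theorem vm_fl (m a : ℝ) : vm (fl n m a) ≤ a ^ 2 * n :=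
  vm_le _ (by positivity) fun x => le_of_eq (by
    have : ∀ p : Fin n × Unit, a * spin (x p.1) * (a * spin (x p.1)) = a ^ 2 := fun p => by
      rw [mul_mul_mul_comm, spin_mul_self]; ring
    simp [Lv.cov, this, mul_comm])

theorem vs_fls (K : ℕ) (z : ℕ → ℝ) (a : ℝ) : vs (fls n K z a) ≤ K * (a ^ 2 * n) := by
  rw [vs, fls, List.map_ofFn, List.sum_ofFn]
  refine (Finset.sum_le_card_nsmul _ _ (a ^ 2 * n) fun k _ => vm_fl _ a).trans (le_of_eq ?_)
  simp

theorem sum_dz (z f : ℕ → ℝ) (N : ℕ) : ∑ j ∈ range (N + 1), dz z j * f j =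
    z N * f N - ∑ j ∈ range N, z j * (f (j + 1) - f j) := by
  induction N with
  | zero => simp [dz]
  | succ N ih =>
    rw [sum_range_succ, ih, sum_range_succ]
    simp only [dz]
    ring

theorem sum_dz_one (z : ℕ → ℝ) (N : ℕ) : ∑ j ∈ range (N + 1), dz z j = z N := by
  simpa using sum_dz z (fun _ => 1) N

theorem dz_nonneg {z : ℕ → ℝ} (hz : Monotone z) (h0 : 0 ≤ z 0) : ∀ j, 0 ≤ dz z j
  | 0 => by simpa [dz] using h0
  | j + 1 => sub_nonneg.2 (hz (Nat.le_succ j))

theorem rem_nonneg (hw : Wt w) (L : List (Lv (Cube n))) (K : ℕ) {z : ℕ → ℝ} (hz : Monotone z)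
    (h0 : 0 ≤ z 0) (h : Cube n → ℝ) : 0 ≤ rem w L K z h :=
  Finset.sum_nonneg fun j _ => mul_nonneg (dz_nonneg hz h0 j)
    (pi2_nonneg hw _ _ (fun _ _ => sq_nonneg _) _)

theorem pi2_le_rem (hw : Wt w) (L : List (Lv (Cube n))) (K : ℕ) {z : ℕ → ℝ} (hz : Monotone z)
    (h0 : 0 ≤ z 0) (h : Cube n → ℝ) {j : ℕ} (hj : j ≤ K) :
    dz z j * pi2 w L (j + 1) (fun x y => (ovl x y - (j : ℝ) / K) ^ 2) h ≤ rem w L K z h :=
  Finset.single_le_sum (f := fun j : ℕ =>
    dz z j * pi2 w L (j + 1) (fun x y => (ovl x y - (j : ℝ) / K) ^ 2) h)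
    (fun j _ => mul_nonneg (dz_nonneg hz h0 j) (pi2_nonneg hw _ _ (fun _ _ => sq_nonneg _) _))
    (mem_range.2 (Nat.lt_succ_of_le hj))

theorem ex_fls (K : ℕ) {z : ℕ → ℝ} (hK : z K = 1) (a : ℝ) {j : ℕ} (hj : j ≤ K) :
    ex (fls n K z a) j = z j := by
  rcases hj.eq_or_lt with rfl | h
  · simp [ex, fls, hK]
  · simp [ex, fls, h]

theorem Sacc_const {Ω : Type*} {t s : ℝ} {x y : Ω} : ∀ (L : List (TL Ω)) (j : ℕ),
    (∀ l ∈ L, l.S t x y = s) → j ≤ L.length → Sacc L t j x y = j * s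
  | L, 0, _, _ => by simp [Sacc]
  | [], j + 1, _, h => by simp at h
  | l :: L, j + 1, h, hj => by
    rw [Sacc_cons]
    simp only []
    rw [h l (by simp), Sacc_const L j (fun k hk => h k (by simp [hk])) (by simpa using hj)]
    push_cast
    ring

/-- the coupling level along the interpolation -/
def jT (n : ℕ) (β : ℝ) : TL (Cube n) :=
  ⟨Pair n, fun t x p => β * √t * cf x p, fun t x p => β * (1 / (2 * √t)) * cf x p, 0⟩

/-- a field level along the interpolation -/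
def fT (n K : ℕ) (β v m : ℝ) : TL (Cube n) :=
  ⟨Fin n × Unit, fun t x p => √(β ^ 2 * (v - t) / K) * spin (x p.1),
    fun t x p => -(β ^ 2 / K) / (2 * √(β ^ 2 * (v - t) / K)) * spin (x p.1), m⟩

/-- **Guerra's identity with remainder**, any weight, any base energy -/
theorem guerra_id (hw : Wt w) (hn : 0 < n) {K : ℕ} (hK : 0 < K) {β : ℝ} (hβ : 0 < β) {z : ℕ → ℝ}
    (hzK : z K = 1) {a v : ℝ} (ha : 0 < a) (hav : a ≤ v) (h : Cube n → ℝ) :
    ∃ t ∈ Set.Ioo 0 a, X w (jl n (β * √a) :: fls n K z √(β ^ 2 * (v - a) / K)) h -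
      X w (fls n K z √(β ^ 2 * v / K)) h = -(a * (β ^ 2 * n / 4)) * (pc K z +
        rem w (jl n (β * √t) :: fls n K z √(β ^ 2 * (v - t) / K)) K z h) := by
  have hK' : (0 : ℝ) < K := by positivity
  set F : List (TL (Cube n)) := List.ofFn fun k : Fin K => fT n K β v (z k) with hF
  have eL : ∀ t, atL (jT n β :: F) t = jl n (β * √t) :: fls n K z √(β ^ 2 * (v - t) / K) :=
    fun t => by
      rw [hF, atL, List.map_cons, List.map_ofFn]
      rfl
  have hmem : ∀ l ∈ jT n β :: F, l = jT n β ∨ ∃ m, l = fT n K β v m := fun l hl => by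
    rcases List.mem_cons.1 hl with h | h
    · exact Or.inl h
    · obtain ⟨k, rfl⟩ := List.mem_ofFn.1 h
      exact Or.inr ⟨_, rfl⟩
  have hpos : ∀ t ∈ Set.Ioo 0 a, 0 < β ^ 2 * (v - t) / K := fun t ht => by
    have : 0 < v - t := by linarith [ht.2]
    positivity
  obtain ⟨t, ht, e⟩ := exists_X_sub hw (L := jT n β :: F) ha (b := fun _ => h)
    (b' := fun _ _ => 0)
    (fun l hl x i => by
      rcases hmem l hl with rfl | ⟨m, rfl⟩
      · simp only [jT]; fun_prop
      · simp only [fT]; fun_prop)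
    (fun l hl => by
      rcases hmem l hl with rfl | ⟨m, rfl⟩
      · refine ⟨fun t ht x p => ((Real.hasDerivAt_sqrt ht.1.ne').const_mul β).mul_const _,
          fun x p => ?_⟩
        exact (continuousOn_const.mul (continuousOn_const.div (by fun_prop) fun t ht =>
          (mul_pos two_pos (sqrt_pos.2 ht.1)).ne')).mul continuousOn_const
      · refine ⟨fun t ht x p => (HasDerivAt.sqrt (f := fun t => β ^ 2 * (v - t) / K)
          (f' := -(β ^ 2 / K)) ?_ (hpos t ht).ne').mul_const _, fun x p => ?_⟩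
        · refine ((((hasDerivAt_id t).const_sub v).const_mul (β ^ 2)).div_const
            (K : ℝ)).congr_deriv ?_
          ring
        · exact (continuousOn_const.div (by fun_prop) fun t ht =>
            (mul_pos two_pos (sqrt_pos.2 (hpos t ht))).ne').mul continuousOn_const)
    (fun _ => continuousOn_const) fun _ _ _ => hasDerivAt_const _ _
  refine ⟨t, ht, ?_⟩
  have e0 : X w (jl n (β * √0) :: fls n K z √(β ^ 2 * (v - 0) / K)) h =
      X w (fls n K z √(β ^ 2 * v / K)) h := by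
    rw [sub_zero]
    exact congrFun (step_of_zero (l := jl n (β * √0)) (fun x i => by simp) _) h
  rw [eL, eL, e0, sub_zero] at e
  rw [e, DX, eL]
  set L := jl n (β * √t) :: fls n K z √(β ^ 2 * (v - t) / K) with hL
  have hlen : F.length = K := by simp [hF]
  have hS : ∀ j ≤ K, Sacc (jT n β :: F) t (j + 1) = fun x y =>
      β ^ 2 * n / 4 * (ovl x y - (j : ℝ) / K) ^ 2 +
        (-(β ^ 2 * n / 4 * ((j : ℝ) / K) ^ 2) - β ^ 2 / 4) := fun j hj => by
    funext x y
    have s1 : (jT n β).S t x y = β ^ 2 / 2 * (n * ovl x y ^ 2 / 2 - 1 / 2) := by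
      rw [← sum_cf hn, Finset.mul_sum]
      refine Finset.sum_congr rfl fun p _ => ?_
      have := (sqrt_pos.2 ht.1).ne'
      simp only [jT]
      field_simp
    have s2 : ∀ l ∈ F, l.S t x y = -(β ^ 2 / K) / 2 * (n * ovl x y) := fun l hl => by
      obtain ⟨k, rfl⟩ := List.mem_ofFn.1 hl
      rw [← n_ovl hn, Finset.mul_sum]
      show ∑ i : Fin n × Unit, -(β ^ 2 / K) / (2 * √(β ^ 2 * (v - t) / K)) * spin (x i.1) *
        (√(β ^ 2 * (v - t) / K) * spin (y i.1)) = _
      rw [Fintype.sum_prod_type]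
      refine Finset.sum_congr rfl fun i _ => ?_
      rw [Fintype.sum_unique]
      have := (sqrt_pos.2 (hpos t ht)).ne'
      field_simp
    rw [Sacc_cons]
    simp only []
    rw [s1, Sacc_const F j s2 (hlen ▸ hj)]
    field_simp
    ring
  have hd : ∀ j ≤ K, dm L 0 (j + 1) = dz z j := fun j hj => by
    cases j with
    | zero =>
      simp only [dm, exP, dz, hL, ex_cons_succ, ex_fls K hzK _ hj]
      rfl
    | succ j =>
      simp only [dm, exP, dz, hL, ex_cons_succ, ex_fls K hzK _ hj,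
        ex_fls K hzK _ (Nat.le_of_succ_le hj)]
  have hLlen : L.length = K + 1 := by simp [hL, fls]
  have h1 : ∑ x, P w L h x * (0 + Sacc (jT n β :: F) t (jT n β :: F).length x x) =
      -(β ^ 2 * n / 4) - β ^ 2 / 4 := by
    simp only [List.length_cons, hlen, hS K le_rfl, ovl_self hn, div_self hK'.ne']
    rw [← Finset.sum_mul, sum_P hw]
    ring
  have h2 : pair w L 0 (Sacc (jT n β :: F) t) h = β ^ 2 * n / 4 * rem w L K z h -
      β ^ 2 * n / 4 * (1 - pc K z) - β ^ 2 / 4 := by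
    rw [pair_eq_sum hw, hLlen, sum_range_succ']
    have z0 : dm L 0 0 = 0 := by simp [dm, exP, ex, hL]
    rw [z0, zero_mul, add_zero, rem, pc, sub_sub_cancel, Finset.mul_sum, Finset.mul_sum,
      ← mul_one (β ^ 2 / 4), ← hzK, ← sum_dz_one z K, Finset.mul_sum, ← Finset.sum_sub_distrib,
      ← Finset.sum_sub_distrib]
    refine Finset.sum_congr rfl fun j hj => ?_
    have hj' := Nat.lt_succ_iff.1 (mem_range.1 hj)
    rw [hd j hj', hS j hj', pi2_add hw, pi2_const_mul, pi2_const hw]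
    ring
  rw [h1, h2]
  ring

/-! ### the decoupled end -/

theorem X_site : ∀ (l : List (ℝ × ℝ)) (x : ℝ),
    X (fun _ => 1) (l.map fun p => sl p.1 √p.2) (fun b => x * spin b) = PhiL 1 l x
  | [], x => by
    simp [X, PhiL, phi0, spin, cosh_eq, mul_div_cancel₀]
  | p :: l, x => by
    have e : ∀ g : Unit → ℝ, (fun b => x * spin b) + (sl p.1 √p.2).fld g =
        fun b => (x + √p.2 * g ()) * spin b := fun g => by
      funext b
      simp [Lv.fld]
      ring
    have mp := measurePreserving_funUnique (ProbabilityTheory.gaussianReal 0 1) Unit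
    simp only [List.map_cons, X, step, PhiL, Crest.ProbabilityR.InvariantGlass.gaussOp, e,
      X_site l]
    rw [← mp.integral_comp' fun g => PhiL 1 l (x + √p.2 * g),
      ← mp.integral_comp' fun g => exp (p.1 * PhiL 1 l (x + √p.2 * g))]
    rfl

theorem X_fls_one (P : Pf.Par) (β : ℝ) :
    X (fun _ => 1) (fls n P.K P.z √(β ^ 2 * 1 / P.K)) 0 = n * P.Ph β 0 0 := by
  have h := X_prod (N := Fin n) (w := fun _ _ => (1 : ℝ)) (fun _ => Wt.of_pos fun _ => one_pos)
    ((P.lst β P.K).map fun p => sl p.1 √p.2) fun _ b => 0 * spin b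
  have e1 : Casc.C.pw (fun (_ : Fin n) (_ : Bool) => (1 : ℝ)) = fun _ => 1 := by
    funext x; simp [Casc.C.pw]
  have e2 : pe (fun (_ : Fin n) (b : Bool) => 0 * spin b) = 0 := by
    funext x; simp [pe]
  have e3 : ((P.lst β P.K).map fun p => sl p.1 √p.2).map (prodLv (Fin n)) =
      fls n P.K P.z √(β ^ 2 * 1 / P.K) := by
    rw [mul_one, Pf.Par.lst, List.map_ofFn, List.map_ofFn]
    rfl
  have e4 : ∀ l : List (ℝ × ℝ), (∀ p ∈ l, 0 ≤ p.2) → PhiT 1 l 0 = PhiL 1 l := fun l hl => by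
    cases l with
    | nil => rfl
    | cons p l => simp [PhiT, PhiL, hl p (by simp)]
  rw [e1, e2, e3] at h
  rw [h, Pf.Par.Ph, mul_zero, e4]
  · simp only [X_site]
    simp
  · intro p hp
    obtain ⟨k, rfl⟩ := List.mem_ofFn.1 hp
    positivity

theorem pen_zero (P : Pf.Par) (hP : P.OK) (β : ℝ) : P.pen β 0 = β ^ 2 / 4 * pc P.K P.z := by
  have hK : (0 : ℝ) < P.K := by exact_mod_cast hP.Kpos
  have hm : Monotone P.zeta := fun s t hst =>
    hP.mono (Nat.floor_mono (mul_le_mul_of_nonneg_right hst hK.le))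
  have hi : ∀ a b : ℝ, IntervalIntegrable (fun r => r * P.zeta r) volume a b := fun a b =>
    hm.intervalIntegrable.continuousOn_mul continuousOn_id
  have h1 := intervalIntegral.sum_integral_adjacent_intervals (μ := volume)
    (f := fun r => r * P.zeta r) (a := fun j : ℕ => (j : ℝ) / P.K) (n := P.K) fun k _ => hi _ _
  have h2 : ∀ j : ℕ, ∫ r in ((j : ℝ) / P.K)..(((j + 1 : ℕ) : ℝ) / P.K), r * P.zeta r =
      P.z j * ((((j + 1 : ℕ) : ℝ) / P.K) ^ 2 - ((j : ℝ) / P.K) ^ 2) / 2 := fun j => by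
    have hle : (j : ℝ) / P.K ≤ ((j + 1 : ℕ) : ℝ) / P.K := by gcongr; omega
    rw [intervalIntegral.integral_congr_ae (g := fun r => P.z j * r), intervalIntegral.integral_const_mul,
      integral_id]
    · ring
    · filter_upwards [Measure.ae_ne volume (((j + 1 : ℕ) : ℝ) / P.K)] with r hr hr'
      rw [uIoc_of_le hle] at hr'
      have h3 : r < ((j + 1 : ℕ) : ℝ) / P.K := lt_of_le_of_ne hr'.2 hr
      have h4 := hr'.1
      rw [lt_div_iff₀ hK] at h3
      rw [div_lt_iff₀ hK] at h4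
      have : ⌊r * P.K⌋₊ = j := (Nat.floor_eq_iff ((Nat.cast_nonneg j).trans h4.le)).2
        ⟨h4.le, by exact_mod_cast h3⟩
      rw [Pf.Par.zeta, this, mul_comm]
  simp only [h2, Nat.cast_zero, zero_div, div_self hK.ne'] at h1
  rw [Pf.Par.pen, ← h1, pc, sum_dz, hP.top _ hP.aK, div_self hK.ne', ← Finset.sum_div]
  ring

end Crest.Agent.T157.Tree

end
end

-- ▼ part T157/TreeD_58
section

/-!
# Row 157, part D (helper58): the tree ancestors of a `g0`-measurable set (`tree_sk`)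
-/

set_option autoImplicit false
set_option linter.unusedSectionVars false

noncomputable section

namespace Crest.Agent.T157.Tree

open MeasureTheory Real Set Finset Matrix
open Crest.ProbabilityR.SpinGlassDynamics
open Crest.Agent.T157.E Crest.Agent.T157.SL Crest.Agent.T157.Casc Crest.Agent.T157.Exp
open Crest.Agent.T157.Cut
open Crest.Agent.T157.Casc.C (X_of_zero X_split X_annealed)
open Crest.Agent.T157.Conc hiding gv ex

variable {n : ℕ} {w : Cube n → ℝ}

/-- the cost of restricting to a set of mass `≥ δ` with probability `≥ δ` -/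
def Gd (n : ℕ) (β d δ : ℝ) : ℝ := (1 + √(d * n)) * log (1 / δ) + β ^ 2 * √(d * n)

/-- every set which is not negligible for the perturbed couplings has a chain of ancestors -/
def TreeAt (β d δ ρ Λ : ℝ) (q : ℕ → ℝ) (M : ℕ) (g0 : Pair n → ℝ) : Prop :=
  ∀ B : Set (Cube n), ENNReal.ofReal δ ≤
      disorderLaw n {g1 | δ ≤ mass (gibbsWeight n β (mixG d g0 g1)) B} →
    ∃ γ, Chain (B.indicator (prob (gibbsWeight n β g0))) q M ρ Λ γ

theorem wt_one : Wt fun _ : Cube n => (1 : ℝ) := Wt.of_pos fun _ => one_pos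

theorem X_jl (w : Cube n → ℝ) (a : ℝ) (L : List (Lv (Cube n))) (h : Cube n → ℝ) :
    X w (jl n a :: L) h = ∫ g, X w L (h + (jl n a).fld g) ∂gv (Pair n) := by
  simp [X, step]

theorem exp_mix (β d : ℝ) (g0 g1 : Pair n → ℝ) (x : Cube n) :
    exp ((0 + (jl n (β * √(1 - d))).fld g0 + (jl n (β * √d)).fld g1) x) =
      gibbsWeight n β (mixG d g0 g1) x := by
  rw [gibbs_eq, mixG, en1_add, en1_smul, en1_smul]
  simp only [Pi.add_apply, Pi.zero_apply, jl_fld]
  congr 1
  ring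

theorem mass_eq (v : Cube n → ℝ) (B : Set (Cube n)) :
    mass v B = (∑ x, B.indicator (fun _ => (1 : ℝ)) x * v x) / ∑ x, v x := by
  classical
  rw [mass, Finset.sum_filter, Finset.sum_div]
  refine Finset.sum_congr rfl fun x _ => ?_
  by_cases h : x ∈ B <;> simp [h, prob]

theorem defect (hn : 0 < n) {β d δ : ℝ} (hd : 0 < d) (hδ : 0 < δ) (g0 : Pair n → ℝ)
    (B : Set (Cube n)) (hB : ENNReal.ofReal δ ≤
      disorderLaw n {g1 | δ ≤ mass (gibbsWeight n β (mixG d g0 g1)) B}) :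
    Wt (B.indicator fun _ => (1 : ℝ)) ∧
      X (fun _ => 1) [jl n (β * √d)] (0 + (jl n (β * √(1 - d))).fld g0) -
        X (B.indicator fun _ => 1) [jl n (β * √d)] (0 + (jl n (β * √(1 - d))).fld g0) ≤
      Gd n β d δ := by
  set w : Cube n → ℝ := B.indicator fun _ => 1
  set h0 := 0 + (jl n (β * √(1 - d))).fld g0
  set l := jl n (β * √d)
  have hZ : ∀ g : Pair n → ℝ, 0 < ∑ x, gibbsWeight n β g x := fun g =>
    Finset.sum_pos (fun x _ => gibbsWeight_pos β g x) Finset.univ_nonempty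
  have hw : Wt w := by
    refine ⟨fun x => indicator_nonneg (fun _ _ => zero_le_one) x, ?_⟩
    obtain ⟨g1, hg1⟩ := nonempty_of_measure_ne_zero
      ((ENNReal.ofReal_pos.2 hδ).trans_le hB).ne'
    have h1 : 0 < mass (gibbsWeight n β (mixG d g0 g1)) B := hδ.trans_le hg1
    rw [mass_eq, div_pos_iff_of_pos_right (hZ _)] at h1
    by_contra h2
    have h3 : ∀ x, w x = 0 := fun x => le_antisymm ((Finset.single_le_sum
      (fun y _ => indicator_nonneg (fun _ _ => zero_le_one) y) (Finset.mem_univ x)).trans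
      (not_lt.1 h2)) (indicator_nonneg (fun _ _ => zero_le_one) x)
    simp [show ∀ x, B.indicator (fun _ => (1 : ℝ)) x = 0 from h3] at h1
  refine ⟨hw, ?_⟩
  have e1 := elip_X hw l [] h0
  have e2 := elip_X wt_one l [] h0
  set f : (Pair n → ℝ) → ℝ := fun g => X w [] (h0 + l.fld g) + -X (fun _ => 1) [] (h0 + l.fld g)
  have hf : ELip (√(vm l) + √(vm l)) f := e1.add e2.neg
  have hm : ∀ g, exp (f g) = mass (gibbsWeight n β (mixG d g0 g)) B := fun g => by
    simp only [f, X]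
    rw [exp_add, exp_neg, exp_log (wt_exp hw _).pos, exp_log (wt_exp wt_one _).pos, mass_eq,
      div_eq_mul_inv]
    simp only [h0, l, exp_mix, one_mul, w]
  have hdn : 0 < d * n := by positivity
  set r := √(d * n) with hr
  have hr0 : 0 < r := sqrt_pos.2 hdn
  have hr2 : r ^ 2 = d * n := sq_sqrt hdn.le
  have h1 := mgf_le (hf.const_mul r⁻¹)
  have h2 := mul_meas_ge_le_integral_of_nonneg (μ := gv (Pair n))
    (f := fun g => exp (r⁻¹ * f g)) (.of_forall fun _ => (exp_pos _).le) (hf.integrable_exp _)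
    (exp (r⁻¹ * log δ))
  have h3 : δ ≤ (gv (Pair n)).real {g | exp (r⁻¹ * log δ) ≤ exp (r⁻¹ * f g)} := by
    refine (ENNReal.ofReal_le_iff_le_toReal (measure_ne_top _ _)).1 (hB.trans (measure_mono ?_))
    intro g hg
    have hg' : δ ≤ exp (f g) := by rw [hm]; exact hg
    exact exp_le_exp.2 (mul_le_mul_of_nonneg_left ((log_le_iff_le_exp hδ).2 hg') (by positivity))
  have h4 : (|r⁻¹| * (√(vm l) + √(vm l))) ^ 2 / 2 ≤ β ^ 2 := by
    have h5 := vm_jl hn (β * √d)
    rw [mul_pow, sq_sqrt hd.le] at h5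
    rw [← two_mul, mul_pow, mul_pow, sq_sqrt (vm_nonneg l), sq_abs, inv_pow, hr2,
      div_le_iff₀ two_pos, inv_mul_le_iff₀ hdn]
    have : vm l ≤ β ^ 2 * d * n / 2 := h5
    nlinarith
  have h5 : exp (r⁻¹ * log δ + log δ) ≤ exp (r⁻¹ * (∫ g, f g ∂gv (Pair n)) + β ^ 2) := by
    rw [exp_add, exp_log hδ]
    refine (mul_le_mul_of_nonneg_left h3 (exp_pos _).le).trans (h2.trans (h1.trans ?_))
    rw [integral_const_mul, exp_le_exp]
    linarith
  have h6 : ∫ g, f g ∂gv (Pair n) = X w [l] h0 - X (fun _ => 1) [l] h0 := by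
    rw [X_jl, X_jl, integral_add e1.integrable e2.neg.integrable, integral_neg, sub_eq_add_neg]
  rw [exp_le_exp, h6] at h5
  have h7 := mul_le_mul_of_nonneg_left h5 hr0.le
  simp only [mul_add, ← mul_assoc, mul_inv_cancel₀ hr0.ne', one_mul] at h7
  rw [Gd, one_div, log_inv, ← hr]
  linarith

/-! ### the perturbed order parameter -/

/-- number of coarse levels below `k` -/
def cnt (p : ℕ → ℕ) (M k : ℕ) : ℕ := ((range (M + 1)).filter fun j => p j ≤ k).card

theorem cnt_mono (p : ℕ → ℕ) (M : ℕ) : Monotone (cnt p M) := fun _ _ h =>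
  card_le_card (monotone_filter_right _ fun _ _ hj => hj.trans h)

theorem cnt_le (p : ℕ → ℕ) (M k : ℕ) : cnt p M k ≤ M + 1 :=
  (card_filter_le _ _).trans (card_range _).le

/-- `(1-e) ζ + e ·` atoms at the coarse levels -/
def pz (P : Pf.Par) (p : ℕ → ℕ) (M : ℕ) (e : ℝ) : Pf.Par :=
  ⟨P.K, P.a, fun k => (1 - e) * P.z k + e * (cnt p M k / (M + 1))⟩

theorem z_le_one {P : Pf.Par} (hP : P.OK) (k : ℕ) : P.z k ≤ 1 :=
  (hP.mono (le_max_left k P.a)).trans (hP.top _ (le_max_right _ _)).le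

theorem pz_ok {P : Pf.Par} (hP : P.OK) {p : ℕ → ℕ} (hp : Monotone p) {M : ℕ} (hM : p M ≤ P.a)
    {e : ℝ} (he : 0 < e) (he1 : e < 1) : (pz P p M e).OK := by
  refine ⟨hP.Kpos, hP.aK, fun a b hab => ?_, fun k => ?_, fun k hk => ?_⟩
  · have h1 := hP.mono hab
    have h2 : (cnt p M a : ℝ) ≤ cnt p M b := by exact_mod_cast cnt_mono p M hab
    simp only [pz]
    gcongr
  · have := hP.pos k
    have : 0 < 1 - e := by linarith
    simp only [pz]
    positivity
  · have h1 : cnt p M k = M + 1 := by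
      rw [cnt, filter_true_of_mem, card_range]
      exact fun j hj => (hp (Nat.lt_succ_iff.1 (mem_range.1 hj))).trans (hM.trans hk)
    simp only [pz, h1, hP.top k hk]
    push_cast
    rw [div_self (by positivity)]
    ring

theorem pz_close {P : Pf.Par} (hP : P.OK) (p : ℕ → ℕ) (M : ℕ) {e : ℝ} (he : 0 < e) (k : ℕ) :
    |(pz P p M e).z k - P.z k| ≤ e := by
  have h1 := hP.pos k
  have h2 := z_le_one hP k
  have h3 : (cnt p M k : ℝ) / (M + 1) ≤ 1 :=
    (div_le_one (by positivity)).2 (by exact_mod_cast cnt_le p M k)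
  have h4 : (0 : ℝ) ≤ cnt p M k / (M + 1) := by positivity
  simp only [pz]
  rw [abs_le]
  constructor <;> nlinarith

theorem pz_jump {P : Pf.Par} (hP : P.OK) (p : ℕ → ℕ) {M k : ℕ} (hk : k ≤ M) {e : ℝ} (he : 0 < e)
    (he1 : e < 1) : e / (M + 1) ≤ dz (pz P p M e).z (p k) := by
  have hk' := mem_range.2 (Nat.lt_succ_of_le hk)
  have h0 : 0 ≤ 1 - e := by linarith
  have hM : (0 : ℝ) < M + 1 := by positivity
  rcases h : p k with _ | i
  · have h1 : 1 ≤ cnt p M 0 := card_pos.2 ⟨k, mem_filter.2 ⟨hk', h.le⟩⟩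
    have h2 : (1 : ℝ) / (M + 1) ≤ cnt p M 0 / (M + 1) := by
      gcongr; exact_mod_cast h1
    have := mul_nonneg h0 (hP.pos 0).le
    have := mul_le_mul_of_nonneg_left h2 he.le
    show _ ≤ (1 - e) * P.z 0 + e * (cnt p M 0 / (M + 1)) - 0
    rw [div_eq_mul_one_div]
    linarith
  · have h1 : cnt p M i < cnt p M (i + 1) := Finset.card_lt_card ((Finset.ssubset_iff_of_subset
      (monotone_filter_right _ fun _ _ hj => hj.trans (Nat.le_succ i))).2
      ⟨k, mem_filter.2 ⟨hk', h.le⟩, fun h' => by have := (mem_filter.1 h').2; omega⟩)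
    have h2 : (cnt p M i + 1 : ℝ) / (M + 1) ≤ cnt p M (i + 1) / (M + 1) := by
      gcongr; exact_mod_cast h1
    have := mul_le_mul_of_nonneg_left (hP.mono (Nat.le_succ i)) h0
    have := mul_le_mul_of_nonneg_left h2 he.le
    simp only [dz, pz]
    rw [add_div, mul_add, ← div_eq_mul_one_div] at this
    linarith

/-! ### the defect of the full partition function -/

/-- the total remainder for the unrestricted partition function -/
def Yd (β d : ℝ) (Q : Pf.Par) (g0 : Pair n → ℝ) : ℝ :=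
  X (fun _ => 1) (fls n Q.K Q.z √(β ^ 2 * d / Q.K)) (0 + (jl n (β * √(1 - d))).fld g0) -
    X (fun _ => 1) [jl n (β * √d)] (0 + (jl n (β * √(1 - d))).fld g0) -
    d * (β ^ 2 * n / 4) * pc Q.K Q.z

theorem guerra_d (hw : Wt w) (hn : 0 < n) {Q : Pf.Par} (hQ : Q.OK) {β d : ℝ} (hβ : 0 < β)
    (hd : 0 < d) (h : Cube n → ℝ) : ∃ t ∈ Set.Ioo 0 d,
    X w (fls n Q.K Q.z √(β ^ 2 * d / Q.K)) h - X w [jl n (β * √d)] h -
      d * (β ^ 2 * n / 4) * pc Q.K Q.z = d * (β ^ 2 * n / 4) *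
        rem w (jl n (β * √t) :: fls n Q.K Q.z √(β ^ 2 * (d - t) / Q.K)) Q.K Q.z h := by
  obtain ⟨t, ht, e⟩ := guerra_id hw hn hQ.Kpos hβ (hQ.top _ hQ.aK) hd le_rfl h
  refine ⟨t, ht, ?_⟩
  have e1 : X w (fls n Q.K Q.z √(β ^ 2 * (d - d) / Q.K)) = X w [] := by
    have := X_of_zero w (L := fls n Q.K Q.z √(β ^ 2 * (d - d) / Q.K)) (fun l hl => by
      obtain ⟨k, rfl⟩ := List.mem_ofFn.1 hl
      simp) []
    rwa [List.append_nil] at this
  rw [X_jl, e1, ← X_jl] at e
  linarith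

theorem Yd_nonneg (hn : 0 < n) {Q : Pf.Par} (hQ : Q.OK) {β d : ℝ} (hβ : 0 < β) (hd : 0 < d)
    (g0 : Pair n → ℝ) : 0 ≤ Yd β d Q g0 := by
  obtain ⟨t, -, e⟩ := guerra_d wt_one hn hQ hβ hd (0 + (jl n (β * √(1 - d))).fld g0)
  rw [Yd, e]
  exact mul_nonneg (by positivity) (rem_nonneg wt_one _ _ hQ.mono (hQ.pos 0).le _)

theorem integrable_Yd (β d : ℝ) (Q : Pf.Par) : Integrable (Yd (n := n) β d Q) (gv (Pair n)) :=
  ((elip_X wt_one (jl n _) _ 0).integrable.sub (elip_X wt_one (jl n _) _ 0).integrable).sub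
    (integrable_const _)

theorem integral_Yd (hn : 0 < n) {Q : Pf.Par} (hQ : Q.OK) {β d : ℝ} (hβ : 0 < β) (hd : 0 < d)
    (hd1 : d < 1) : ∫ g, Yd (n := n) β d Q g ∂gv (Pair n) ≤
      n * Q.val β - ∫ g, log (∑ x, gibbsWeight n β g x) ∂disorderLaw n := by
  have i1 : Integrable _ (gv (Pair n)) :=
    (elip_X wt_one (jl n (β * √(1 - d))) (fls n Q.K Q.z √(β ^ 2 * d / Q.K)) 0).integrable
  have i2 : Integrable _ (gv (Pair n)) :=
    (elip_X wt_one (jl n (β * √(1 - d))) [jl n (β * √d)] 0).integrable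
  unfold Yd
  rw [integral_sub (i1.sub' i2) (integrable_const _), integral_sub i1 i2, ← X_jl, ← X_jl,
    ← X_split wt_one (l := jl n β) (l1 := jl n (β * √(1 - d))) (l2 := jl n (β * √d)) rfl rfl
      (fun x y => by
        rw [jl_cov hn, jl_cov hn, jl_cov hn, mul_pow, mul_pow, sq_sqrt hd.le,
          sq_sqrt (sub_pos.2 hd1).le]
        ring)]
  obtain ⟨t, -, e⟩ := guerra_id wt_one hn hQ.Kpos hβ (hQ.top _ hQ.aK) (sub_pos.2 hd1)
    (by linarith : 1 - d ≤ 1) 0
  rw [sub_sub_cancel, X_fls_one] at e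
  have h1 := rem_nonneg wt_one (jl n (β * √t) :: fls n Q.K Q.z √(β ^ 2 * (1 - t) / Q.K)) Q.K
    hQ.mono (hQ.pos 0).le 0
  have h2 : X (fun _ => 1) [jl n β] 0 = ∫ g, log (∑ x, gibbsWeight n β g x) ∂disorderLaw n := by
    rw [X_jl]
    refine integral_congr_ae (.of_forall fun g => ?_)
    simp only [X, gibbs_eq, Pi.add_apply, Pi.zero_apply, jl_fld, zero_add, one_mul]
  have h3 : 0 ≤ (1 - d) * (β ^ 2 * n / 4) * rem (fun _ => 1)
      (jl n (β * √t) :: fls n Q.K Q.z √(β ^ 2 * (1 - t) / Q.K)) Q.K Q.z 0 :=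
    mul_nonneg (mul_nonneg (by linarith) (by positivity)) h1
  rw [h2, Pf.Par.val, pen_zero Q hQ]
  simp only [integral_const, probReal_univ, smul_eq_mul, one_mul]
  nlinarith

/-! ### the ancestors -/

theorem lamC_le {β d S : ℝ} (hβ : 1 ≤ β) (hd : 0 < d) (hd1 : d ≤ 1) (M : ℕ)
    (hS : S ≤ β ^ 2 * d * n) : lamC (6 * (M + 1) * 2 ^ n) S (√d)⁻¹ ≤
      2 * log (6 * (M + 1)) + 17 / 2 * β ^ 2 * n * √d := by
  set r := √d with hr
  have hr0 : 0 < r := sqrt_pos.2 hd
  have hr1 : r ≤ 1 := sqrt_le_one.2 hd1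
  have hr2 : d = r * r := (mul_self_sqrt hd.le).symm
  have hl : 0 ≤ log (6 * ((M : ℝ) + 1)) := log_nonneg (by have := M.cast_nonneg (α := ℝ); linarith)
  have h2 : log 2 ≤ 1 := by have := log_two_lt_d9; linarith
  have hn : (0 : ℝ) ≤ n := n.cast_nonneg
  have hb : 1 ≤ β ^ 2 := one_le_pow₀ hβ
  have e : lamC (6 * (M + 1) * 2 ^ n) S r⁻¹ = 2 * r * log (6 * (M + 1)) + 2 * r * (n * log 2) +
      (1 + r) ^ 2 / r * S + 5 / 2 * S := by
    rw [lamC, log_mul (by positivity) (by positivity), log_pow]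
    field_simp
  have h3 : (1 + r) ^ 2 / r * S ≤ 4 * β ^ 2 * n * r := by
    refine (mul_le_mul_of_nonneg_left hS (by positivity)).trans ?_
    rw [hr2, show (1 + r) ^ 2 / r * (β ^ 2 * (r * r) * n) = (1 + r) ^ 2 * (β ^ 2 * n * r) by
      field_simp]
    have : (1 + r) ^ 2 ≤ 4 := by nlinarith
    have := mul_le_mul_of_nonneg_right this (by positivity : 0 ≤ β ^ 2 * n * r)
    linarith
  have h4 : S ≤ β ^ 2 * n * r := hS.trans (by
    rw [hr2]
    have := mul_le_mul_of_nonneg_left hr1 (by positivity : 0 ≤ β ^ 2 * n * r)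
    linarith)
  have h5 : r * (n * log 2) ≤ β ^ 2 * n * r := by
    have := mul_le_mul_of_nonneg_left (h2.trans hb) (by positivity : 0 ≤ n * r)
    linarith
  have h6 := mul_le_mul_of_nonneg_right hr1 hl
  rw [e]
  linarith

theorem treeAt_of (hn : 0 < n) {β d e δ y : ℝ} (hβ : 1 ≤ β) {P : Pf.Par} (hP : P.OK) {p : ℕ → ℕ}
    (hp : Monotone p) {M : ℕ} (hM : p M ≤ P.a) (hd : 0 < d) (hd1 : d < 1) (he : 0 < e)
    (he1 : e < 1) (hδ : 0 < δ) (hδ1 : δ ≤ 1) (hy : 0 < y) {g0 : Pair n → ℝ} (hg : g0 ∉ Big n)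
    (hY : Yd β d (pz P p M e) g0 ≤ y) :
    TreeAt β d δ (12 * (M + 1) ^ 2 * (y + Gd n β d δ) / (β ^ 2 * n * d * e))
      (11 * β ^ 2 * n * √d + 2 * log (6 * (M + 1)) + Gd n β d δ)
      (fun k => (p k : ℝ) / P.K) M g0 := by
  intro B hB
  obtain ⟨hw, hG⟩ := defect hn hd hδ g0 B hB
  have hβ0 : 0 < β := by linarith
  have hn' : (0 : ℝ) < n := by positivity
  have hQ := pz_ok hP hp hM he he1
  have hK : (0 : ℝ) < P.K := by exact_mod_cast hP.Kpos
  have hG0 : 0 ≤ Gd n β d δ := by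
    have : 0 ≤ log (1 / δ) := log_nonneg ((one_le_div hδ).2 hδ1)
    unfold Gd
    positivity
  set w : Cube n → ℝ := B.indicator fun _ => 1
  set h0 := 0 + (jl n (β * √(1 - d))).fld g0 with hh0
  set Q := pz P p M e
  obtain ⟨t, ht, e1⟩ := guerra_d hw hn hQ hβ0 hd h0
  set L := jl n (β * √t) :: fls n Q.K Q.z √(β ^ 2 * (d - t) / Q.K)
  have hw1 : ∀ x, w x ≤ 1 := fun x => indicator_le_self' (fun _ _ => zero_le_one) x
  have h1 := Casc.C.X_mono_w hw wt_one hw1 (fls n Q.K Q.z √(β ^ 2 * d / Q.K)) h0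
  have h2 : d * (β ^ 2 * n / 4) * rem w L Q.K Q.z h0 ≤ y + Gd n β d δ := by
    unfold Yd at hY
    rw [← hh0] at hY
    linarith
  have hL : ∀ l ∈ L, 0 ≤ l.m ∧ l.m ≤ 1 := fun l hl => by
    rcases List.mem_cons.1 hl with rfl | h
    · exact ⟨le_rfl, zero_le_one⟩
    · obtain ⟨k, rfl⟩ := List.mem_ofFn.1 h
      exact ⟨(hQ.pos _).le, z_le_one hQ _⟩
  obtain ⟨γ, hγ⟩ := tree_cube hw L hL (fun k => p k + 1) (fun a b hab => Nat.succ_le_succ (hp hab))
    M (fun k => (p k : ℝ) / P.K) h0 (ρ := 4 * (M + 1) * (y + Gd n β d δ) / (β ^ 2 * n * d * e))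
    (lam := (√d)⁻¹) (by positivity) (by positivity) fun k hk => by
      have h3 := pi2_le_rem hw L Q.K hQ.mono (hQ.pos 0).le h0 (j := p k)
        ((hp hk).trans (hM.trans hP.aK))
      have h4 := mul_le_mul_of_nonneg_right (pz_jump hP p hk he he1)
        (pi2_nonneg hw L (p k + 1) (K := fun x y => (ovl x y - (p k : ℝ) / P.K) ^ 2)
          (fun _ _ => sq_nonneg _) h0)
      have h5 := (mul_le_mul_of_nonneg_left (h4.trans h3)
        (by positivity : 0 ≤ d * (β ^ 2 * n / 4))).trans h2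
      rw [le_div_iff₀ (by positivity)]
      have h6 := mul_le_mul_of_nonneg_left h5 (by positivity : (0 : ℝ) ≤ 4 * (M + 1))
      refine le_trans (le_of_eq ?_) h6
      generalize pi2 w L (p k + 1) (fun x y => (ovl x y - (p k : ℝ) / P.K) ^ 2) h0 = A
      field_simp
  refine ⟨γ, hγ.mono (le_of_eq (by ring)) fun x => ?_⟩
  have hS : vs L ≤ β ^ 2 * d * n := by
    have a1 := vm_jl hn (β * √t)
    have a2 := vs_fls (n := n) Q.K Q.z √(β ^ 2 * (d - t) / Q.K)
    have hdt : 0 < d - t := sub_pos.2 ht.2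
    rw [mul_pow, sq_sqrt ht.1.le] at a1
    rw [sq_sqrt (by positivity), show (Q.K : ℝ) = P.K from rfl,
      show P.K * (β ^ 2 * (d - t) / P.K * n) = β ^ 2 * (d - t) * n by field_simp] at a2
    have : 0 ≤ β ^ 2 * t * n := by have := ht.1.le; positivity
    rw [vs_cons]
    have a2' : vs (fls n Q.K Q.z √(β ^ 2 * (d - t) / Q.K)) ≤ β ^ 2 * (d - t) * n := a2
    linarith
  have hlam := lamC_le hβ hd hd1.le M hS
  have hsd : d ≤ √d := by
    have := sqrt_le_one.2 hd1.le
    have h := mul_self_sqrt hd.le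
    nlinarith [sqrt_nonneg d]
  -- comparison of the two reference laws
  set u0 : Cube n → ℝ := fun x => β * en1 g0 x
  have hu : ∀ x, |h0 x - u0 x| ≤ β * d * n := fun x => by
    simp only [Big, Set.mem_ofPred_eq, not_exists, not_le] at hg
    have s1 : √(1 - d) ≤ 1 := sqrt_le_one.2 (by linarith)
    have s2 : 1 - d ≤ √(1 - d) := by
      have h := mul_self_sqrt (sub_pos.2 hd1).le
      nlinarith [sqrt_nonneg (1 - d)]
    simp only [hh0, u0, jl_fld, zero_add]
    rw [← sub_mul, abs_mul]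
    refine mul_le_mul ?_ (hg x).le (abs_nonneg _) (by positivity)
    rw [abs_le]
    constructor <;> nlinarith
  have c1 := X_le_add wt_one (c := β * d * n) [] u0 h0 fun x => by linarith [(abs_le.1 (hu x)).1]
  have c2 := nil_le_X wt_one [jl n (β * √d)] h0 (by simp)
  have c3 : X w [jl n (β * √d)] h0 ≤ X w [] h0 + β ^ 2 * d * n / 4 := by
    set l1 : Lv (Cube n) := ⟨Pair n, (jl n (β * √d)).A, 1⟩
    have a1 := mean_le_X hw l1 [] h0 zero_le_one
    rw [X_annealed hw rfl] at a1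
    have a2 := X_le_add hw (c := β ^ 2 * d * n / 4) [] (h0 + fun x => l1.cov x x / 2) h0
      fun x => by
        have a3 := (le_vm _ x).trans (vm_jl hn (β * √d))
        rw [mul_pow, sq_sqrt hd.le] at a3
        have a4 : l1.cov x x ≤ β ^ 2 * d * n / 2 := a3
        simp only [Pi.add_apply]
        linarith
    rw [X_jl]
    exact a1.trans a2
  have p1 : prob (fun y => w y * exp (h0 y)) x = w x * exp (h0 x - X w [] h0) := by
    simp only [X, prob]
    rw [exp_sub, exp_log (wt_exp hw h0).pos, mul_div_assoc]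
  have p2 : B.indicator (prob (gibbsWeight n β g0)) x =
      w x * exp (u0 x - X (fun _ => 1) [] u0) := by
    simp only [X]
    rw [exp_sub, exp_log (wt_exp wt_one u0).pos]
    by_cases hx : x ∈ B <;> simp [w, hx, prob, gibbs_eq, u0]
  rw [p1, p2, mul_left_comm, mul_left_comm (exp _), ← exp_add, ← exp_add]
  refine mul_le_mul_of_nonneg_left (exp_le_exp.2 ?_) (hw.nn x)
  have b1 : β * d * n ≤ β ^ 2 * n * √d := by
    have := mul_le_mul (by nlinarith : β ≤ β ^ 2) hsd hd.le (by positivity)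
    nlinarith
  have b2 : β ^ 2 * d * n ≤ β ^ 2 * n * √d := by
    have := mul_le_mul_of_nonneg_left hsd (by positivity : 0 ≤ β ^ 2 * n)
    linarith
  have b3 : 0 ≤ β ^ 2 * n * √d := by positivity
  linarith [(abs_le.1 (hu x)).2]

/-- **tree ancestors** -/
theorem tree_sk (hn : 0 < n) {β c C η E1 d e δ y : ℝ} (hβ : 1 ≤ β) {P : Pf.Par} (hP : P.OK)
    (hG : P.Good β c C η)
    (hL : n * P.val β - E1 ≤ ∫ g, log (∑ x, gibbsWeight n β g x) ∂disorderLaw n) {p : ℕ → ℕ}
    (hp : Monotone p) {M : ℕ} (hM : p M ≤ P.a) (hd : 0 < d) (hd1 : d < 1) (he : 0 < e)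
    (he1 : e < 1) (hδ : 0 < δ) (hδ1 : δ ≤ 1) (hy : 0 < y) :
    disorderLaw n {g0 | ¬ TreeAt β d δ (12 * (M + 1) ^ 2 * (y + Gd n β d δ) / (β ^ 2 * n * d * e))
      (11 * β ^ 2 * n * √d + 2 * log (6 * (M + 1)) + Gd n β d δ)
      (fun k => (p k : ℝ) / P.K) M g0} ≤
      ENNReal.ofReal ((E1 + n * (C * (e * η + e ^ 2))) / y) + disorderLaw n (Big n) := by
  have hβ0 : 0 < β := by linarith
  have hQ := pz_ok hP hp hM he he1
  have h1 := hG.pert _ e hQ rfl rfl (pz_close hP p M he)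
  have h2 := integral_Yd hn hQ hβ0 hd hd1
  have h3 := mul_meas_ge_le_integral_of_nonneg (.of_forall (Yd_nonneg hn hQ hβ0 hd))
    (integrable_Yd β d (pz P p M e)) y
  have h4 : disorderLaw n {g0 | y ≤ Yd β d (pz P p M e) g0} ≤
      ENNReal.ofReal ((E1 + n * (C * (e * η + e ^ 2))) / y) := by
    refine (ENNReal.ofReal_toReal (measure_ne_top _ _)).symm.le.trans
      (ENNReal.ofReal_le_ofReal ?_)
    rw [le_div_iff₀' hy]
    have := mul_le_mul_of_nonneg_left h1 (n.cast_nonneg (α := ℝ))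
    refine le_trans h3 ?_
    linarith
  refine le_trans (measure_mono ?_) ((measure_union_le _ _).trans (add_le_add h4 le_rfl))
  intro g0 hg
  by_contra h
  simp only [Set.mem_union, Set.mem_ofPred_eq, not_or, not_le] at h
  exact hg (treeAt_of hn hβ hP hp hM hd hd1 he he1 hδ hδ1 hy h.2 h.1.le)

end Crest.Agent.T157.Tree

end
end

-- ▼ part T157/TreeE_58
section

/-!
# Row 157, part D (helper58): `tree_of : FreeStmt → TreeStmt`
-/

set_option autoImplicit false

noncomputable section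

namespace Crest.Agent.T157.Tree

open MeasureTheory Real Filter Topology
open Crest.ProbabilityR.SpinGlassDynamics
open Crest.Agent.T157.E Crest.Agent.T157.Exp Crest.Agent.T157.Cut Crest.Agent.T157.Top

theorem ev_pow (C : ℝ) {a b : ℝ} (h : a < b) :
    ∀ᶠ n : ℕ in atTop, C * (n : ℝ) ^ a ≤ (n : ℝ) ^ b := by
  filter_upwards [((tendsto_rpow_atTop (sub_pos.2 h)).comp
    tendsto_natCast_atTop_atTop).eventually_ge_atTop C, eventually_gt_atTop 0] with n h1 hn
  have hn' : (0 : ℝ) < n := by exact_mod_cast hn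
  rw [show b = (b - a) + a by ring, rpow_add hn']
  exact mul_le_mul_of_nonneg_right h1 (by positivity)

theorem level_close {n a K M k : ℕ} (hn : 0 < n) (hK : n ≤ K) (hM : 0 < M) :
    |((k * a / M : ℕ) : ℝ) / K - k * ((a : ℝ) / K) / M| ≤ 1 / n := by
  have hn' : (0 : ℝ) < n := by exact_mod_cast hn
  have hK' : (n : ℝ) ≤ K := by exact_mod_cast hK
  have hM' : (0 : ℝ) < M := by exact_mod_cast hM
  have hK0 : (0 : ℝ) < K := hn'.trans_le hK'
  have h1 : ((k * a / M : ℕ) : ℝ) ≤ k * a / M := by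
    simpa using (Nat.cast_div_le (α := ℝ) (m := k * a) (n := M))
  have h2 : (k * a : ℝ) / M ≤ ((k * a / M : ℕ) : ℝ) + 1 := by
    rw [div_le_iff₀ hM']
    have := (Nat.lt_div_mul_add hM (a := k * a)).le
    have h3 : ((k * a : ℕ) : ℝ) ≤ ((k * a / M * M + M : ℕ) : ℝ) := by exact_mod_cast this
    push_cast at h3
    linarith
  rw [show ((k * a / M : ℕ) : ℝ) / K - k * ((a : ℝ) / K) / M =
    (((k * a / M : ℕ) : ℝ) - k * a / M) / K by ring, abs_div, abs_of_pos hK0]
  refine div_le_div₀ zero_le_one (abs_le.2 ⟨by linarith, by linarith⟩) hn' hK'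

theorem tree_of (hF : An.FreeStmt) : An.TreeStmt := by
  intro β c0 C0 δ hβ _ hC0 hδ P hP
  rcases lt_or_ge 1 δ with hδ1 | hδ1
  · refine whp_of_eventually (.of_forall fun n g0 B hB => absurd (hB.trans prob_le_one) ?_)
    rw [not_le, ENNReal.one_lt_ofReal]
    exact hδ1
  obtain ⟨C1, hC1, hF⟩ := hF β hβ
  have hl : 0 ≤ log (1 / δ) := log_nonneg ((one_le_div hδ).2 hδ1)
  have hb : 1 ≤ β ^ 2 := one_le_pow₀ hβ.le
  set cG := 2 * log (1 / δ) + β ^ 2
  have h0 : Tendsto (fun n : ℕ => ENNReal.ofReal ((1 + C1 + 2 * C0) * (n : ℝ) ^ (-(1 / 400) : ℝ)) +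
      disorderLaw n (Big n)) atTop (𝓝 0) := by
    have h1 := ENNReal.tendsto_ofReal ((((tendsto_rpow_neg_atTop (by norm_num :
      (0 : ℝ) < 1 / 400)).comp tendsto_natCast_atTop_atTop)).const_mul (1 + C1 + 2 * C0))
    simpa using h1.add tendsto_big
  refine tendsto_of_tendsto_of_tendsto_of_le_of_le' tendsto_const_nhds h0
    (.of_forall fun _ => zero_le) ?_
  filter_upwards [hP, eventually_ge_atTop 2,
    ev_pow cG (by norm_num : (1 / 2 : ℝ) < 10 / 11 + 1 / 400),
    ev_pow 216 (by norm_num : (1 / 200 + 1 / 200 + (10 / 11 + 1 / 400) : ℝ) <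
      -(1 / 50) + (1 + -(1 / 100) + -(1 / 22))),
    ev_pow (3 * (11 * β ^ 2)) (by norm_num : (1 + -(1 / 200) : ℝ) < 1 + -(1 / 250)),
    ev_pow (3 * 36) (by norm_num : (1 / 200 : ℝ) < 1 + -(1 / 250)),
    ev_pow (3 * cG) (by norm_num : (1 / 2 : ℝ) < 1 + -(1 / 250))] with n hPn hn a1 a2 a3 a4 a5
  obtain ⟨hOK, hG, hK⟩ := hPn
  have hn0 : 0 < n := by omega
  have hN1 : (1 : ℝ) < n := by exact_mod_cast hn
  have hN : (0 : ℝ) < n := by linarith
  have hlt : ∀ a : ℝ, 0 < a → (n : ℝ) ^ (-a) < 1 := fun a ha =>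
    rpow_lt_one_of_one_lt_of_neg hN1 (by linarith)
  have hd : An.dd n = (n : ℝ) ^ (-(1 / 100) : ℝ) := min_eq_right (hlt _ (by norm_num)).le
  set d := (n : ℝ) ^ (-(1 / 100) : ℝ) with hdd
  set e := (n : ℝ) ^ (-(1 / 22) : ℝ) with he
  set y := (n : ℝ) ^ (10 / 11 + 1 / 400 : ℝ) with hy
  set r := (n : ℝ) ^ (1 / 200 : ℝ) with hr
  set M := An.Mc n with hM
  have hd0 : 0 < d := by positivity
  have hd1 : d < 1 := hlt _ (by norm_num)
  have he0 : 0 < e := by positivity
  have he1 : e < 1 := hlt _ (by norm_num)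
  have hy0 : 0 < y := by positivity
  have hr1 : 1 ≤ r := one_le_rpow hN1.le (by norm_num)
  have hM0 : 0 < M := Nat.ceil_pos.2 (by linarith)
  have hM3 : (M : ℝ) + 1 ≤ 3 * r := by
    have : (M : ℝ) < r + 1 := Nat.ceil_lt_add_one (by linarith)
    linarith
  have hsd : √d = (n : ℝ) ^ (-(1 / 200) : ℝ) := by
    rw [sqrt_eq_rpow, hdd, ← rpow_mul hN.le]
    norm_num
  have hGd : Gd n β d δ ≤ cG * (n : ℝ) ^ (1 / 2 : ℝ) := by
    have b1 : √(d * n) ≤ (n : ℝ) ^ (1 / 2 : ℝ) := by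
      rw [← sqrt_eq_rpow]
      exact sqrt_le_sqrt (mul_le_of_le_one_left hN.le hd1.le)
    have b2 : 1 ≤ (n : ℝ) ^ (1 / 2 : ℝ) := one_le_rpow hN1.le (by norm_num)
    have b3 := mul_le_mul_of_nonneg_right (add_le_add b2 b1) hl
    have b4 := mul_le_mul_of_nonneg_left b1 (sq_nonneg β)
    simp only [Gd, cG]
    linarith
  have hG0 : 0 ≤ Gd n β d δ := by unfold Gd; positivity
  have hη : (n : ℝ) * An.pw (1 / 11) n = (n : ℝ) ^ (10 / 11 : ℝ) := by
    rw [An.pw, ← rpow_one_add' hN.le (by norm_num)]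
    norm_num
  have hL := hF c0 C0 _ _ hOK hG n
  have key := tree_sk (E1 := (1 + C1) * (n : ℝ) ^ (10 / 11 : ℝ)) hn0 hβ.le hOK hG
    (by rw [mul_sub, hη] at hL; linarith) (p := fun k => k * (P n).a / M)
    (fun a b hab => Nat.div_le_div_right (Nat.mul_le_mul_right _ hab)) (M := M)
    (Nat.mul_div_cancel_left _ hM0).le hd0 hd1 he0 he1 hδ hδ1 hy0
  refine le_trans (measure_mono ?_) (key.trans (add_le_add (ENNReal.ofReal_le_ofReal ?_) le_rfl))
  · intro g0 hg hT
    refine hg fun B hB => ?_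
    rw [hd] at hB
    obtain ⟨γ, hγ⟩ := hT B hB
    refine ⟨_, γ, hγ.mono ?_ fun x => ?_, fun k _ => level_close hn0 hK hM0⟩
    · rw [div_le_iff₀ (by positivity)]
      rw [rpow_add hN, rpow_add hN, rpow_add hN (-(1 / 50)), rpow_add hN (1 + -(1 / 100)),
        rpow_add hN 1, rpow_one, ← hy, ← hr, ← hdd, ← he] at a2
      have b1 : ((M : ℝ) + 1) ^ 2 ≤ (3 * r) ^ 2 := pow_le_pow_left₀ (by positivity) hM3 2
      have b2 : y + Gd n β d δ ≤ 2 * y := by linarith
      have b3 := mul_le_mul b1 b2 (by positivity) (by positivity)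
      have b4 := mul_le_mul_of_nonneg_right hb
        (by positivity : 0 ≤ (n : ℝ) ^ (-(1 / 50) : ℝ) * (n * d * e))
      rw [An.pw]
      linarith
    · refine mul_le_mul_of_nonneg_right (exp_le_exp.2 ?_) (Set.indicator_nonneg
        (fun x _ => div_nonneg (gibbsWeight_pos β g0 x).le
          (Finset.sum_nonneg fun x _ => (gibbsWeight_pos β g0 x).le)) x)
      have b1 : log (6 * ((M : ℝ) + 1)) ≤ 18 * r :=
        (log_le_self (by positivity)).trans (by linarith)
      rw [rpow_add hN, rpow_one] at a3 a4 a5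
      rw [rpow_add hN, rpow_one] at a3
      rw [hsd, An.pw]
      linarith
  · rw [div_le_iff₀ hy0, hy, mul_assoc, ← rpow_add hN]
    have b1 : e ^ 2 = An.pw (1 / 11) n := by
      rw [he, An.pw, ← rpow_natCast, ← rpow_mul hN.le]
      norm_num
    have b2 : 0 ≤ An.pw (1 / 11) n := by rw [← b1]; positivity
    have b3 : e * An.pw (1 / 11) n ≤ An.pw (1 / 11) n := mul_le_of_le_one_left b2 he1.le
    have b4 := mul_le_mul_of_nonneg_left b3 (by positivity : 0 ≤ n * C0)
    rw [show (-(1 / 400) + (10 / 11 + 1 / 400) : ℝ) = 10 / 11 by norm_num, b1, ← hη]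
    linarith

end Crest.Agent.T157.Tree

end
end

-- ▼ part T157/UpGam_30

/-!
# Row 157, part D (helper30): the scalar channel above `b` (`Up.GamEndStmt`)
-/

set_option autoImplicit false

noncomputable section

namespace Crest.Agent.T157.Up

open MeasureTheory Set Real
open Crest.Agent.R164.GC Crest.Agent.R339.B Crest.Agent.R339.Var
open Crest.Agent.T157.Sc Crest.Agent.T157.Pf

theorem Gam30.bc_th : BC (fun x => th 1 x ^ 2) 1 := by
  refine ⟨?_, fun x => ?_⟩
  · have : (fun x => th 1 x ^ 2) = fun x => (sinh x / cosh x) ^ 2 := by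
      funext x; simp [th]
    rw [this]
    exact (continuous_sinh.div continuous_cosh fun x => (cosh_pos x).ne').pow 2
  · have h := th_abs_le 1 x
    rw [abs_pow]
    nlinarith [abs_nonneg (th 1 x)]

theorem Gam30.block {t : ℝ} (ht : 0 ≤ t) (x : ℝ) :
    1 - exp (-t / 2) ≤ tE 1 t (phi0 1) (fun y => th 1 y ^ 2) x := by
  have e : ∀ y, exp (1 * phi0 1 y) = 2 * cosh y := fun y => by
    rw [one_mul, Par.phi0_one, exp_log (by have := cosh_pos y; positivity)]
  have hE : EG fun y => exp (1 * phi0 1 y) := EG.exp_lip lip1_phi0 1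
  have hD : H (sqrt t) (fun y => exp (1 * phi0 1 y)) x = 2 * cosh x * exp (t / 2) := by
    have h1 := congrFun (gaussOp_phi0 ht) x
    rw [gaussOp_ne one_ne_zero] at h1
    have h2 := den_pos lip1_phi0 1 (sqrt t) x
    rw [← exp_log h2]
    have h3 : log (H (sqrt t) (fun y => exp (1 * phi0 1 y)) x) = phi0 1 x + t / 2 := by
      simpa using h1
    rw [h3, exp_add, ← e x, one_mul]
  have hN : H (sqrt t) (fun y => exp (1 * phi0 1 y) - 2) x ≤
      H (sqrt t) (fun y => th 1 y ^ 2 * exp (1 * phi0 1 y)) x := by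
    refine H_mono (hE.sub (EG.const 2)) (Gam30.bc_th.eg.mul hE) (fun y => ?_) _ _
    rw [e y]
    have hc := one_le_cosh y
    have hc0 := cosh_pos y
    have h1 : th 1 y ^ 2 * (2 * cosh y) = 2 * cosh y - 2 / cosh y := by
      simp only [th, one_mul]
      field_simp
      nlinarith [cosh_sq y]
    rw [h1]
    have : 2 / cosh y ≤ 2 := by rw [div_le_iff₀ hc0]; linarith
    linarith
  rw [H_sub hE (EG.const 2), H_const, hD] at hN
  unfold tE
  rw [hD, le_div_iff₀ (by have := cosh_pos x; positivity)]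
  refine le_trans ?_ hN
  have h1 : exp (-t / 2) * exp (t / 2) = 1 := by rw [← exp_add]; simp [neg_div]
  have hc := one_le_cosh x
  nlinarith

/-- **`GamEndStmt`** -/
theorem gamEnd : GamEndStmt := by
  intro β P hβ h s hs t ht
  have hb : 0 < β ^ 2 := by positivity
  have hs0 : 0 ≤ s := h.b_nonneg.trans hs.1
  have hst : P.b ≤ s + t / β ^ 2 := hs.1.trans (le_add_of_nonneg_right (by positivity))
  have hP := (pos_of_adm (adm_lst h β P.K)).cut (β ^ 2 * s)
  have hL : Lip1 (P.Ph β s) := (PhiT_prof one_pos _ _).lip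
  have hT := Ph_top (β := β) h hs
  unfold Par.Gam
  rw [h.Px_top hβ hst, eId β P hβ h s ⟨hs0, hs.2⟩ t ht (Or.inr hs.1) _ 1 Gam30.bc_th, EL_append]
  have hR : Lip1 (Sc.Rec [((1 : ℝ), t)] (P.Ph β s)) := lip1_gaussOp hL one_pos _
  have e2 : EL [((1 : ℝ), t)] (P.Ph β s) (fun x => th 1 x ^ 2) =
      tE 1 t (phi0 1) fun x => th 1 x ^ 2 := by
    show tE 1 t (P.Ph β s) (fun x => th 1 x ^ 2) = _
    rw [hT, tE_add_const]
  rw [e2]
  have h1 := EL_mono hR (BC.const (1 - exp (-t / 2))) (tE_BC lip1_phi0 1 t Gam30.bc_th)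
    (Gam30.block ht) hP 0
  have h2 := EL_affine hR (BC.const 0) (1 - exp (-t / 2)) 0 hP 0
  simp only [zero_mul, add_zero] at h2
  rwa [h2] at h1

end Crest.Agent.T157.Up

end
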