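import Crest.Agent.T157.FrB_98

/-!
Row 157 (helper98), freeness with diagonals, part C: uniformity over all diagonals (net), the
versions for `Wmat`, `Jmat`, and the deterministic consequences (trace form, stability, Ward).
-/

set_option autoImplicit false
set_option linter.unusedSimpArgs false

noncomputable section

namespace Crest.Agent.T157.Fr

open Matrix Finset MeasureTheory ProbabilityTheory
open Crest.ProbabilityR.SpinGlassDynamics
open Crest.Agent.T157.Eig Crest.Agent.T157.Cond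
open Crest.Agent.T157.Conc (en ELip en_nonneg)
open Crest.Agent.T157.E (gv Jmat Wmat)

variable {ι : Type*} [Fintype ι] [DecidableEq ι]
variable {s A η : ℝ} {d d' : ι → ℂ} {W W' : Matrix ι ι ℝ}

/-- a finite net inside any bounded subset of `ℂ` -/
lemma exists_net_C (B : Set ℂ) {A δ : ℝ} (hA : 0 ≤ A) (hδ : 0 < δ) (hB : ∀ z ∈ B, ‖z‖ ≤ A) :
    ∃ T : Finset ℂ, (∀ z ∈ T, z ∈ B) ∧ (T.card : ℝ) ≤ (2 * A / δ + 3) ^ 2 ∧
      ∀ z ∈ B, ∃ z' ∈ T, ‖z - z'‖ ≤ 2 * δ := by
  classical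
  set M : ℕ := ⌈A / δ⌉₊ with hM
  set lab : ℂ → ℤ × ℤ := fun z => (⌊z.re / δ⌋, ⌊z.im / δ⌋) with hlab
  set I : Finset (ℤ × ℤ) := Icc (-(M : ℤ)) M ×ˢ Icc (-(M : ℤ)) M with hI
  have hfl : ∀ r : ℝ, |r| ≤ A → ⌊r / δ⌋ ∈ Icc (-(M : ℤ)) M := fun r hr => by
    have h1 : A / δ ≤ M := Nat.le_ceil _
    have h2 : r / δ ≤ A / δ := by gcongr; exact (abs_le.1 hr).2
    have h3 : -(A / δ) ≤ r / δ := by rw [← neg_div]; gcongr; exact (abs_le.1 hr).1
    rw [mem_Icc, Int.le_floor]
    refine ⟨by push_cast; linarith, ?_⟩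
    have : (⌊r / δ⌋ : ℝ) ≤ ((M : ℤ) : ℝ) := (Int.floor_le _).trans (by push_cast; linarith)
    exact_mod_cast this
  have hclose : ∀ r r' : ℝ, ⌊r / δ⌋ = ⌊r' / δ⌋ → |r - r'| ≤ δ := fun r r' h => by
    have h1 := Int.abs_sub_lt_one_of_floor_eq_floor h
    rw [← sub_div, abs_div, abs_of_pos hδ, div_lt_one hδ] at h1
    exact h1.le
  set rep : ℤ × ℤ → ℂ := fun l => if h : ∃ z ∈ B, lab z = l then h.choose else 0 with hrep
  refine ⟨(I.filter fun l => ∃ z ∈ B, lab z = l).image rep, ?_, ?_, ?_⟩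
  · intro z hz
    obtain ⟨l, hl, rfl⟩ := mem_image.1 hz
    have h := (mem_filter.1 hl).2
    simp only [hrep, dif_pos h]
    exact h.choose_spec.1
  · have h1 : ((I.filter fun l => ∃ z ∈ B, lab z = l).image rep).card ≤ (2 * M + 1) ^ 2 := by
      refine card_image_le.trans ((card_filter_le _ _).trans (le_of_eq ?_))
      rw [hI, card_product, Int.card_Icc]
      have : ((M : ℤ) + 1 - -(M : ℤ)).toNat = 2 * M + 1 := by omega
      rw [this, sq]
    have h2 : (M : ℝ) ≤ A / δ + 1 := (Nat.ceil_lt_add_one (by positivity)).le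
    calc _ ≤ (((2 * M + 1) ^ 2 : ℕ) : ℝ) := by exact_mod_cast h1
      _ ≤ _ := by
        push_cast
        refine pow_le_pow_left₀ (by positivity) ?_ 2
        rw [mul_div_assoc]; linarith
  · intro z hz
    have h : ∃ z' ∈ B, lab z' = lab z := ⟨z, hz, rfl⟩
    refine ⟨rep (lab z), mem_image.2 ⟨lab z, mem_filter.2 ⟨?_, h⟩, rfl⟩, ?_⟩
    · exact mem_product.2 ⟨hfl _ ((Complex.abs_re_le_norm z).trans (hB z hz)),
        hfl _ ((Complex.abs_im_le_norm z).trans (hB z hz))⟩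
    · simp only [hrep, dif_pos h]
      have h2 := h.choose_spec.2
      have h3 := hclose _ _ (congrArg Prod.fst h2).symm
      have h4 := hclose _ _ (congrArg Prod.snd h2).symm
      refine (Complex.norm_le_abs_re_add_abs_im _).trans ?_
      rw [Complex.sub_re, Complex.sub_im]
      linarith

lemma measurable_res (d : ι → ℂ) (i j : ι) : Measurable fun W : Matrix ι ι ℝ => res d W i j := by
  have h1 : Continuous fun W : Matrix ι ι ℝ => Zm d W :=
    continuous_const.sub (continuous_matrix fun i j =>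
      Complex.continuous_ofReal.comp (continuous_id.matrix_elem i j))
  have h2 : (fun W : Matrix ι ι ℝ => res d W i j) = fun W =>
      ((Zm d W).det)⁻¹ * (Zm d W).adjugate i j := by
    ext1 W
    rw [res, Matrix.inv_def, Ring.inverse_eq_inv', Matrix.smul_apply, smul_eq_mul]
  rw [h2]
  exact h1.matrix_det.measurable.inv.mul (h1.matrix_adjugate.matrix_elem i j).measurable

lemma measurable_cn_err (s : ℝ) (d : ι → ℂ) : Measurable fun W : Matrix ι ι ℝ => cn (err s d W) := by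
  have h := measurable_res d
  unfold cn err mtr trace
  simp only [diag_apply]
  refine Measurable.sqrt (Finset.measurable_sum _ fun i _ => Measurable.pow_const
    (Measurable.norm ?_) 2)
  exact ((measurable_const.sub (measurable_const.mul
    (Finset.measurable_sum _ fun j _ => h j j))).mul (h i i)).sub measurable_const

/-- the threshold of the uniform Dyson equation -/
def thr (ι : Type*) [Fintype ι] (s A η δ t : ℝ) : ℝ :=
  √(Fintype.card ι) * (2 * s ^ 2 / η ^ 2 + (6 * s + 4 * δ) * Lam ι s A η) + t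

/-- the failure probability -/
def pfail (ι : Type*) [Fintype ι] (s A η δ t : ℝ) : ℝ :=
  (2 * A / δ + 3) ^ (2 * Fintype.card ι) * Real.exp (-t ^ 2 / (4 * s ^ 2 * Lam ι s A η ^ 2))

/-- **uniform vector Dyson equation** for the GOE -/
theorem unif_goe (hs : 0 < s) (hη : 0 < η) (hA : η ≤ A) {δ t : ℝ} (hδ : 0 < δ) (ht : 0 ≤ t) :
    (goe ι s).real {W | ∃ d, Box A η d ∧ thr ι s A η δ t < cn (err s d W)} ≤
      pfail ι s A η δ t := by
  have hA0 : 0 < A := hη.trans_le hA
  obtain ⟨T, hT, hcard, hnet⟩ := exists_net_C {z : ℂ | η ≤ z.im ∧ ‖z‖ ≤ A} hA0.le hδ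
    fun z hz => hz.2
  set E : (ι → ℂ) → Set (Matrix ι ι ℝ) := fun d => {W | √(Fintype.card ι) *
    (2 * s ^ 2 / η ^ 2 + 6 * s * Lam ι s A η) + t ≤ cn (err s d W)} with hE
  have hEm : ∀ d, MeasurableSet (E d) := fun d =>
    measurableSet_le measurable_const (measurable_cn_err s d)
  have hEp : ∀ d ∈ Fintype.piFinset fun _ : ι => T, (goe ι s).real (E d) ≤
      Real.exp (-t ^ 2 / (4 * s ^ 2 * Lam ι s A η ^ 2)) := fun d hd => by
    rw [goe, map_measureReal_apply (measurable_symG s) (hEm d)]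
    exact tail_err hs hη hA0 (fun i => hT _ (Fintype.mem_piFinset.1 hd i)) ht
  have hsub : {W | ∃ d, Box A η d ∧ thr ι s A η δ t < cn (err s d W)} ≤ᵐ[goe ι s]
      ⋃ d ∈ Fintype.piFinset fun _ : ι => T, E d := by
    filter_upwards [goe_ae_symm (ι := ι) s] with W hW
    rintro ⟨d, hd, h⟩
    choose d' hd'T hd' using fun i => hnet (d i) (hd i)
    refine Set.mem_iUnion₂.2 ⟨d', Fintype.mem_piFinset.2 hd'T, ?_⟩
    have h1 := err_sub_d hη hA hd (fun i => hT _ (hd'T i)) hW s (by positivity) hd'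
    have h2 := (abs_le.1 (abs_cn_sub_le (err s d W) (err s d' W))).2
    simp only [hE, Set.mem_setOf_eq]
    unfold thr at h
    nlinarith
  calc _ ≤ (goe ι s).real (⋃ d ∈ Fintype.piFinset fun _ : ι => T, E d) :=
        ENNReal.toReal_mono (measure_ne_top _ _) (measure_mono_ae hsub)
    _ ≤ ∑ d ∈ Fintype.piFinset fun _ : ι => T, (goe ι s).real (E d) :=
        measureReal_biUnion_finset_le _ _
    _ ≤ ∑ _d ∈ Fintype.piFinset fun _ : ι => T,
        Real.exp (-t ^ 2 / (4 * s ^ 2 * Lam ι s A η ^ 2)) := sum_le_sum hEp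
    _ ≤ _ := by
      rw [sum_const, Fintype.card_piFinset, prod_const, card_univ, nsmul_eq_mul, pfail, pow_mul]
      push_cast
      gcongr

lemma real_preimage_le {α β : Type*} [MeasurableSpace α] [MeasurableSpace β] {μ : Measure α}
    {ν : Measure β} [IsFiniteMeasure ν] {f : α → β} (h : MeasurePreserving f μ ν) (S : Set β) :
    μ.real (f ⁻¹' S) ≤ ν.real S := by
  refine ENNReal.toReal_mono (measure_ne_top _ _) ?_
  rw [← h.map_eq]
  exact Measure.le_map_apply h.measurable.aemeasurable S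

variable {n : ℕ}

lemma mp_smul_Wmat (β : ℝ) : MeasurePreserving
    (fun p : (Pair n → ℝ) × (Fin n → ℝ) => β • Wmat n p.1 p.2)
    ((disorderLaw n).prod (gv (Fin n))) (goe (Fin n) (β / √n)) := by
  have h : MeasurePreserving (fun W : Matrix (Fin n) (Fin n) ℝ => β • W)
      (goe (Fin n) (1 / √n)) (goe (Fin n) (β / √n)) :=
    ⟨(continuous_const_smul β).measurable, by rw [goe_smul, mul_one_div]⟩
  exact h.comp mp_Wmat

/-- uniform Dyson equation for `β • Wmat` -/
theorem unif_Wmat {β : ℝ} (hβ : 0 < β) (hn : 0 < n) (hη : 0 < η) (hA : η ≤ A) {δ t : ℝ}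
    (hδ : 0 < δ) (ht : 0 ≤ t) : ((disorderLaw n).prod (gv (Fin n))).real
      {p | ∃ d, Box A η d ∧ thr (Fin n) (β / √n) A η δ t <
        cn (err (β / √n) d (β • Wmat n p.1 p.2))} ≤ pfail (Fin n) (β / √n) A η δ t :=
  (real_preimage_le (mp_smul_Wmat β) _).trans
    (unif_goe (by have : (0 : ℝ) < n := Nat.cast_pos.2 hn; positivity) hη hA hδ ht)

lemma en_tail (n : ℕ) : (gv (Fin n)).real {z | 2 * √n ≤ en z} ≤ Real.exp (-(n / 2)) := by
  have h := Crest.Agent.T157.Conc.tail_lip (Crest.Agent.T157.Conc.elip_en (ι := Fin n))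
    (Real.sqrt_nonneg n)
  have hm : ∫ z, en z ∂(gv (Fin n)) ≤ √n := by
    simp only [Nrm.en_eq_nrm]
    simpa using Nrm.integral_nrm_le (ι := Fin n)
  rw [Real.sq_sqrt (Nat.cast_nonneg n)] at h
  refine le_trans (measureReal_mono fun z hz => ?_) (h.trans (le_of_eq (by congr 1; ring)))
  simp only [Set.mem_setOf_eq] at hz ⊢
  linarith


/-! ### deterministic consequences -/





/-- the diagonal of `G` is on the stable branch -/
theorem diag_stable (hη : 0 < η) (hd : ∀ i, η ≤ (d i).im) (hW : Wᵀ = W) (s : ℝ)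
    (he : |s| * cn (err s d W) ≤ η) : |s| * cn (res d W).diag ≤ 1 := by
  set y := -(mtr s d W).im with hy
  have hy0 : 0 ≤ y := neg_nonneg.2 (im_mtr_nonpos hη hd hW s)
  set X := |s| * cn (res d W).diag with hX
  have h1 : ∀ i, (η + y) * ‖res d W i i‖ ^ 2 ≤ -(res d W i i).im +
      ‖err s d W i‖ * ‖res d W i i‖ := fun i => by
    have e : (d i - mtr s d W) * (res d W i i * star (res d W i i)) =
        star (res d W i i) + err s d W i * star (res d W i i) := by
      simp only [err]; ring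
    have e2 := congrArg Complex.im e
    rw [Complex.star_def, Complex.mul_conj, Complex.normSq_eq_norm_sq, mul_comm,
      Complex.im_ofReal_mul, Complex.add_im, Complex.conj_im] at e2
    have h2 := Complex.im_le_norm (err s d W i * (starRingEnd ℂ) (res d W i i))
    rw [norm_mul, Complex.norm_conj] at h2
    have h3 : η + y ≤ (d i - mtr s d W).im := by rw [Complex.sub_im]; linarith [hd i]
    nlinarith [sq_nonneg ‖res d W i i‖]
  have h2 : (η + y) * cn (res d W).diag ^ 2 ≤ ∑ i, -(res d W i i).im +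
      cn (err s d W) * cn (res d W).diag := by
    rw [cn_sq, mul_sum]
    refine (sum_le_sum fun i _ => h1 i).trans ?_
    rw [sum_add_distrib]
    gcongr
    exact sum_mul_le_cn (err s d W) (res d W).diag
  have h3 : s ^ 2 * ∑ i, -(res d W i i).im = y := by
    rw [hy, mtr, Complex.im_ofReal_mul, trace, Complex.im_sum, sum_neg_distrib]
    simp
  have h4 : (η + y) * X ^ 2 ≤ y + |s| * cn (err s d W) * X := by
    have := mul_le_mul_of_nonneg_left h2 (sq_nonneg s)
    rw [mul_add, h3, ← sq_abs s] at this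
    calc _ = |s| ^ 2 * ((η + y) * cn (res d W).diag ^ 2) := by rw [hX]; ring
      _ ≤ _ := this
      _ = _ := by rw [hX]; ring
  by_contra hc
  push Not at hc
  have h5 : |s| * cn (err s d W) * X ≤ η * X := by gcongr
  nlinarith [mul_pos hη (sub_pos.2 hc), mul_nonneg hy0 (sub_pos.2 hc).le]

/-- `m(a) = s² ∑ 1/a_i` -/
def mv (s : ℝ) (a : ι → ℂ) : ℂ := ((s ^ 2 : ℝ) : ℂ) * ∑ i, (a i)⁻¹

/-- `S(a) = s² ∑ |a_i|⁻²` -/
def Sv (s : ℝ) (a : ι → ℂ) : ℝ := s ^ 2 * ∑ i, ‖(a i)⁻¹‖ ^ 2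

omit [DecidableEq ι] in
lemma Sv_eq (s : ℝ) (a : ι → ℂ) : Sv s a = (|s| * cn fun i => (a i)⁻¹) ^ 2 := by
  rw [mul_pow, sq_abs, cn_sq, Sv]

/-- **stability**: on the branch `S(a) ≤ 1 - κ`, `d = a + m(a)` -/
theorem mtr_sub_mv {a : ι → ℂ} (ha : ∀ i, a i ≠ 0) {κ : ℝ} (hκ : 0 < κ) (hS : Sv s a ≤ 1 - κ)
    (hη : 0 < η) (hd : ∀ i, η ≤ (a i + mv s a).im) (hW : Wᵀ = W)
    (he : |s| * cn (err s (fun i => a i + mv s a) W) ≤ η) :
    ‖mtr s (fun i => a i + mv s a) W - mv s a‖ ≤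
      2 * (|s| * cn (err s (fun i => a i + mv s a) W)) / κ := by
  set d : ι → ℂ := fun i => a i + mv s a with hdd
  have hX := diag_stable hη hd hW s he
  set Y := |s| * cn fun i => (a i)⁻¹ with hY
  have hY0 : 0 ≤ Y := mul_nonneg (abs_nonneg s) (cn_nonneg _)
  have hY1 : Y ≤ 1 - κ / 2 := by
    rw [Sv_eq] at hS
    have hκ1 : κ ≤ 1 := by nlinarith [sq_nonneg Y]
    exact abs_le_of_sq_le_sq' (by nlinarith [sq_nonneg κ]) (by linarith) |>.2
  set Δ := mtr s d W - mv s a with hΔ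
  have e : Δ = ((s ^ 2 : ℝ) : ℂ) * ∑ i, err s d W i * (a i)⁻¹ +
      Δ * (((s ^ 2 : ℝ) : ℂ) * ∑ i, (res d W).diag i * (a i)⁻¹) := by
    have : ∀ i, res d W i i - (a i)⁻¹ = err s d W i * (a i)⁻¹ +
        Δ * (res d W i i * (a i)⁻¹) := fun i => by
      have := ha i
      simp only [err, hΔ, hdd]; field_simp; ring
    calc Δ = ((s ^ 2 : ℝ) : ℂ) * ∑ i, (res d W i i - (a i)⁻¹) := by
          rw [hΔ, mtr, mv, trace, sum_sub_distrib, mul_sub]; rfl
      _ = _ := by
          simp only [this, sum_add_distrib, ← mul_sum, diag_apply]; ring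
  have hn : ∀ u : ι → ℂ, ‖((s ^ 2 : ℝ) : ℂ) * ∑ i, u i * (a i)⁻¹‖ ≤ |s| * cn u * Y := fun u => by
    rw [norm_mul, Complex.norm_real, Real.norm_of_nonneg (sq_nonneg s), ← sq_abs s, hY]
    calc _ ≤ |s| ^ 2 * (cn u * cn fun i => (a i)⁻¹) :=
          mul_le_mul_of_nonneg_left (norm_sum_mul_le _ _) (sq_nonneg _)
      _ = _ := by ring
  have h1 : ‖Δ‖ ≤ |s| * cn (err s d W) * Y + ‖Δ‖ * (|s| * cn (res d W).diag * Y) := by
    conv_lhs => rw [e]
    refine (norm_add_le _ _).trans (add_le_add (hn _) ?_)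
    rw [norm_mul]
    exact mul_le_mul_of_nonneg_left (hn _) (norm_nonneg _)
  have he0 : 0 ≤ |s| * cn (err s d W) := mul_nonneg (abs_nonneg s) (cn_nonneg _)
  have h2 : |s| * cn (res d W).diag * Y ≤ 1 - κ / 2 := by nlinarith
  have h3 : |s| * cn (err s d W) * Y ≤ |s| * cn (err s d W) := by nlinarith
  rw [le_div_iff₀ hκ]
  nlinarith [mul_le_mul_of_nonneg_left h2 (norm_nonneg Δ)]




end Crest.Agent.T157.Fr
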