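import Crest.Agent.T157.PlbDef_78
import Crest.Agent.T157.CascC_65
import Crest.Agent.T157.CascP_52
import Crest.Agent.T157.ConcG_16
import Crest.Agent.T157.CascB_65

-- ▼ part T157/PlbS_78
section

/-!
# Row 157: synchronisation of overlaps under a cascade of external fields (helper78)
-/

set_option autoImplicit false
set_option linter.unusedSectionVars false

noncomputable section

namespace Crest.Agent.T157.Plb

open MeasureTheory Real Set
open Crest.Agent.T157.E Crest.Agent.T157.Casc Crest.Agent.T157.SL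

variable {N : ℕ} {w : Cube N → ℝ}

/-! ### overlaps and magnetisations -/

theorem sv_sq (x : Cube N) (i : Fin N) : sv x i ^ 2 = 1 := spin_sq _

theorem abs_sv (x : Cube N) (i : Fin N) : |sv x i| = 1 := abs_spin _

theorem ov_self (hN : 0 < N) (x : Cube N) : ov x x = 1 := by
  rw [ov, sv_dot_self, div_self (by positivity)]

theorem abs_ov_le (x y : Cube N) : |ov x y| ≤ 1 := by
  rcases Nat.eq_zero_or_pos N with rfl | hN
  · simp [ov]
  rw [ov, abs_div, abs_of_pos (by positivity : (0 : ℝ) < N), div_le_one (by positivity), dotProduct]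
  refine (Finset.abs_sum_le_sum_abs _ _).trans (le_of_eq ?_)
  simp [abs_mul, abs_sv]

/-- magnetisation at a node -/
def mg (w : Cube N → ℝ) (L : List (Lv (Cube N))) (z : Cube N → ℝ) (i : Fin N) : ℝ :=
  ∑ x, P w L z x * sv x i

/-- mean overlap at a node -/
def mu (w : Cube N → ℝ) (L : List (Lv (Cube N))) (z : Cube N → ℝ) : ℝ := qf (P w L z) ov

theorem mu_eq (L : List (Lv (Cube N))) (z : Cube N → ℝ) :
    mu w L z = (∑ i, mg w L z i ^ 2) / N := by
  have : (ov : Cube N → Cube N → ℝ) = fun x y => (N : ℝ)⁻¹ * ∑ i, sv x i * sv y i := by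
    funext x y; rw [ov, div_eq_inv_mul]; rfl
  rw [mu, this, qf_const_mul, qf_sum, div_eq_inv_mul]
  congr 1
  exact Finset.sum_congr rfl fun i _ => by rw [qf_mul, sq]; rfl

theorem mu_nonneg (L : List (Lv (Cube N))) (z : Cube N → ℝ) : 0 ≤ mu w L z := by
  rw [mu_eq]; positivity

theorem mu_le_one (hw : Wt w) (L : List (Lv (Cube N))) (z : Cube N → ℝ) : mu w L z ≤ 1 :=
  (qf_mono (P_nonneg hw L z) fun x y => (le_abs_self _).trans (abs_ov_le x y)).trans
    (qf_const (sum_P hw L z) 1).le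

theorem eg_mu (hw : Wt w) (L : List (Lv (Cube N))) : Eg (mu w L) := eg_qf hw L ov

theorem eg_mg (hw : Wt w) (L : List (Lv (Cube N))) (i : Fin N) : Eg fun z => mg w L z i :=
  Eg.sum _ fun x _ => (eg_P hw L x).mul_const _

theorem mg_cons (hw : Wt w) (l : Lv (Cube N)) (L : List (Lv (Cube N))) (z : Cube N → ℝ) (i : Fin N) :
    mg w (l :: L) z i = tE l (X w L) (fun z' => mg w L z' i) z := by
  simp only [mg]
  rw [tE_sum (lg_X hw L) _ fun x _ => (eg_P hw L x).mul_const _]
  exact Finset.sum_congr rfl fun x _ => by rw [tE_mul_const]; rfl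

theorem sum_mg_sq_le (hw : Wt w) (hN : 0 < N) (L : List (Lv (Cube N))) (z : Cube N → ℝ) :
    ∑ i, mg w L z i ^ 2 ≤ N := by
  have := mu_le_one hw L z
  rwa [mu_eq, div_le_one (by positivity)] at this

/-- the trace of the covariance of the next magnetisation -/
theorem tE_tr (hw : Wt w) (hN : 0 < N) (l : Lv (Cube N)) (L : List (Lv (Cube N))) (z : Cube N → ℝ) :
    tE l (X w L) (fun z' => ∑ i, (mg w L z' i - mg w (l :: L) z i) ^ 2) z =
      N * (tE l (X w L) (mu w L) z - mu w (l :: L) z) := by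
  have hF := lg_X hw L
  have h1 : ∀ i, tE l (X w L) (fun z' => (mg w L z' i - mg w (l :: L) z i) ^ 2) z =
      tE l (X w L) (fun z' => mg w L z' i ^ 2) z - mg w (l :: L) z i ^ 2 := fun i => by
    have e : (fun z' => (mg w L z' i - mg w (l :: L) z i) ^ 2) = fun z' => (mg w L z' i ^ 2 +
        mg w (l :: L) z i ^ 2) - (2 * mg w (l :: L) z i) * mg w L z' i := by funext z'; ring
    rw [e, tE_sub hF (((eg_mg hw L i).pow 2).add (Eg.const _)) ((eg_mg hw L i).const_mul _),
      tE_add hF ((eg_mg hw L i).pow 2) (Eg.const _), tE_const hF, tE_const_mul, ← mg_cons hw]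
    ring
  have h2 : mu w L = fun z' => (N : ℝ)⁻¹ * ∑ i, mg w L z' i ^ 2 := by
    funext z'; rw [mu_eq, div_eq_inv_mul]
  rw [tE_sum hF _ fun i _ => ((eg_mg hw L i).sub (Eg.const _)).pow 2, h2, tE_const_mul,
    tE_sum hF _ fun i _ => (eg_mg hw L i).pow 2, mu_eq]
  simp only [h1, Finset.sum_sub_distrib]
  field_simp

theorem mu_le_tE (hw : Wt w) (l : Lv (Cube N)) (L : List (Lv (Cube N))) (z : Cube N → ℝ) :
    mu w (l :: L) z ≤ tE l (X w L) (mu w L) z := by
  rcases Nat.eq_zero_or_pos N with rfl | hN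
  · rw [mu_eq]; simpa using tE_nonneg l _ (mu_nonneg L) z
  have h := tE_nonneg l (X w L) (Φ := fun z' => ∑ i, (mg w L z' i - mg w (l :: L) z i) ^ 2)
    (fun _ => by positivity) z
  rw [tE_tr hw hN] at h
  have : (0 : ℝ) < N := by positivity
  nlinarith

theorem tE_mu_le (hw : Wt w) (l : Lv (Cube N)) (L : List (Lv (Cube N))) (z : Cube N → ℝ) :
    tE l (X w L) (mu w L) z ≤ 1 :=
  (tE_mono (lg_X hw L) (eg_mu hw L) (Eg.const 1) (mu_le_one hw L) l z).trans
    (tE_const (lg_X hw L) l 1 z).le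

/-! ### the overlap at a node is close to the squared magnetisation -/

theorem lin_dev (hV : VarStmt) (hw : Wt w) (hN : 0 < N) {m σ μ θ : ℝ} (hm : 0 ≤ m) (hσ : 0 < σ)
    (hμ : 0 < μ) (hθ : 0 ≤ θ) (hθ2 : 1 / (μ * σ * √N) ≤ θ ^ 2) {L : List (Lv (Cube N))}
    (hL : Mono μ L) (z : Cube N → ℝ) (v : Fin N → ℝ) (hv : ∑ i, v i ^ 2 ≤ N) :
    ∑ x, P w (fl N (m, σ) :: L) z x * |∑ i, v i * (sv x i - mg w (fl N (m, σ) :: L) z i)| ≤
      N * (√(tE (fl N (m, σ)) (X w L) (mu w L) z - mu w (fl N (m, σ) :: L) z) + θ) := by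
  set l := fl N (m, σ) with hl
  set κ := tE l (X w L) (mu w L) z - mu w (l :: L) z with hκ
  have hκ0 : 0 ≤ κ := sub_nonneg.2 (mu_le_tE hw l L z)
  have hκ1 : κ ≤ 1 := by have := tE_mu_le hw l L z; have := mu_nonneg (w := w) (l :: L) z; linarith
  have hN' : (0 : ℝ) < N := by positivity
  have hf : ∀ x, l.fld v x = σ * ∑ i, v i * sv x i := fun x => by
    simp only [Lv.fld, Finset.mul_sum]
    exact Finset.sum_congr rfl fun i _ => by ring
  have hm' : ∀ (L' : List (Lv (Cube N))) (z' : Cube N → ℝ),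
      ∑ x, P w L' z' x * l.fld v x = σ * ∑ i, v i * mg w L' z' i := fun L' z' => by
    simp only [hf, mg, Finset.mul_sum]
    rw [Finset.sum_comm]
    exact Finset.sum_congr rfl fun i _ => Finset.sum_congr rfl fun x _ => by ring
  have h1 := hV (Cube N) w hw l L μ hm hμ hL z v _ _ rfl rfl
  set Vf := tE l (X w L) (fun h' => (∑ x, P w L h' x * l.fld v x -
    ∑ x, P w (l :: L) z x * l.fld v x) ^ 2) z with hVf
  have h2 : Vf ≤ (σ * N * √κ) ^ 2 := by
    have e : (σ * N * √κ) ^ 2 = σ ^ 2 * N * (N * κ) := by rw [mul_pow, sq_sqrt hκ0]; ring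
    rw [e, hκ, ← tE_tr hw hN, ← tE_const_mul]
    refine tE_mono (lg_X hw L) (((Eg.sum _ fun x _ => (eg_P hw L x).mul_const _).sub
      (Eg.const _)).pow 2) ((Eg.sum _ fun i _ => ((eg_mg hw L i).sub (Eg.const _)).pow 2).const_mul _)
      (fun z' => ?_) l z
    rw [hm', hm', ← mul_sub, ← Finset.sum_sub_distrib, mul_pow, mul_assoc]
    refine mul_le_mul_of_nonneg_left ?_ (sq_nonneg _)
    simp only [← mul_sub]
    exact (Finset.sum_mul_sq_le_sq_mul_sq _ _ _).trans
      (mul_le_mul_of_nonneg_right hv (by positivity))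
  have h3 : √Vf ≤ σ * N * √κ := sqrt_le_iff.2 ⟨by positivity, h2⟩
  have h4 : √(∑ i, v i ^ 2) ≤ √N := sqrt_le_sqrt hv
  have hs1 : √κ ≤ 1 := sqrt_le_one.2 hκ1
  have hsN : 0 < √(N : ℝ) := sqrt_pos.2 hN'
  have h5 : √(∑ i, v i ^ 2) * √Vf / μ ≤ σ ^ 2 * N ^ 2 * θ ^ 2 := by
    have a1 : √(∑ i, v i ^ 2) * √Vf ≤ √N * (σ * N) :=
      mul_le_mul h4 (h3.trans (mul_le_of_le_one_right (by positivity) hs1)) (sqrt_nonneg _) hsN.le
    refine (div_le_div_of_nonneg_right a1 hμ.le).trans (le_trans (le_of_eq ?_)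
      (mul_le_mul_of_nonneg_left hθ2 (by positivity)))
    have : (N : ℝ) = √N * √N := (mul_self_sqrt hN'.le).symm
    field_simp
    rw [sq_sqrt hN'.le]
  set T := ∑ x, P w (l :: L) z x * |∑ i, v i * (sv x i - mg w (l :: L) z i)| with hT
  have h6 : T ^ 2 ≤ ∑ x, P w (l :: L) z x * (∑ i, v i * (sv x i - mg w (l :: L) z i)) ^ 2 := by
    have := Finset.sum_mul_sq_le_sq_mul_sq Finset.univ (fun x => √(P w (l :: L) z x))
      (fun x => √(P w (l :: L) z x) * |∑ i, v i * (sv x i - mg w (l :: L) z i)|)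
    simp only [← mul_assoc, mul_self_sqrt (P_nonneg hw _ _ _), mul_pow, sq_sqrt (P_nonneg hw _ _ _),
      sq_abs, sum_P hw, one_mul] at this
    exact this
  have h7 : ∑ x, P w (l :: L) z x * (l.fld v x - ∑ x, P w (l :: L) z x * l.fld v x) ^ 2 =
      σ ^ 2 * ∑ x, P w (l :: L) z x * (∑ i, v i * (sv x i - mg w (l :: L) z i)) ^ 2 := by
    rw [hm', Finset.mul_sum _ _ (σ ^ 2)]
    refine Finset.sum_congr rfl fun x _ => ?_
    simp only [hf, mul_sub, Finset.sum_sub_distrib]
    ring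
  have h8 : σ ^ 2 * T ^ 2 ≤ σ ^ 2 * (N * (√κ + θ)) ^ 2 := by
    have a1 := mul_le_mul_of_nonneg_left h6 (sq_nonneg σ)
    have a2 : 0 ≤ σ ^ 2 * N ^ 2 * (√κ * θ) := by positivity
    nlinarith
  exact (abs_le_of_sq_le_sq' (le_of_mul_le_mul_left h8 (by positivity)) (by positivity)).2

theorem node_dev (hV : VarStmt) (hw : Wt w) (hN : 0 < N) {m σ μ θ : ℝ} (hm : 0 ≤ m) (hσ : 0 < σ)
    (hμ : 0 < μ) (hθ : 0 ≤ θ) (hθ2 : 1 / (μ * σ * √N) ≤ θ ^ 2) {L : List (Lv (Cube N))}
    (hL : Mono μ L) (z : Cube N → ℝ) :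
    qf (P w (fl N (m, σ) :: L) z) (fun x y => |ov x y - mu w (fl N (m, σ) :: L) z|) ≤
      2 * (√(tE (fl N (m, σ)) (X w L) (mu w L) z - mu w (fl N (m, σ) :: L) z) + θ) := by
  have h1 := lin_dev hV hw hN hm hσ hμ hθ hθ2 hL z
  set l := fl N (m, σ) with hl
  set A := √(tE l (X w L) (mu w L) z - mu w (l :: L) z) + θ
  set p := P w (l :: L) z
  set a := mg w (l :: L) z
  have hp : ∀ x, 0 ≤ p x := P_nonneg hw _ _
  have hs : ∑ x, p x = 1 := sum_P hw _ _
  have hN' : (0 : ℝ) < N := by positivity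
  have h2 : ∀ x y : Cube N, |ov x y - mu w (l :: L) z| ≤
      (N : ℝ)⁻¹ * (|∑ i, sv y i * (sv x i - a i)| + |∑ i, a i * (sv y i - a i)|) := fun x y => by
    have e : ov x y - mu w (l :: L) z =
        (N : ℝ)⁻¹ * (∑ i, sv y i * (sv x i - a i) + ∑ i, a i * (sv y i - a i)) := by
      rw [mu_eq, ov, dotProduct, ← sub_div, div_eq_inv_mul, ← Finset.sum_sub_distrib,
        ← Finset.sum_add_distrib]
      congr 1
      exact Finset.sum_congr rfl fun i _ => by ring
    rw [e, abs_mul, abs_of_pos (inv_pos.2 hN')]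
    exact mul_le_mul_of_nonneg_left (abs_add_le _ _) (by positivity)
  refine (qf_mono hp h2).trans ?_
  rw [qf_const_mul, qf_add, inv_mul_le_iff₀ hN']
  have h3 : qf p (fun x y => |∑ i, sv y i * (sv x i - a i)|) ≤ N * A := by
    rw [← qf_swap, qf]
    calc _ = ∑ x, p x * ∑ y, p y * |∑ i, sv x i * (sv y i - a i)| := by
          simp only [Finset.mul_sum, mul_assoc]
      _ ≤ ∑ x, p x * (N * A) := Finset.sum_le_sum fun x _ =>
          mul_le_mul_of_nonneg_left (h1 (sv x) (by simp [sv_sq])) (hp x)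
      _ = N * A := by rw [← Finset.sum_mul, hs, one_mul]
  have h4 : qf p (fun _ y => |∑ i, a i * (sv y i - a i)|) ≤ N * A := by
    have := qf_mul p (fun _ => 1) fun y => |∑ i, a i * (sv y i - a i)|
    simp only [one_mul, mul_one, hs] at this
    rw [this]
    exact h1 a (sum_mg_sq_le hw hN _ _)
  linarith

/-! ### the amplitude of one level -/

theorem Sacc_cst {Ω : Type*} (L : List (Lv Ω)) (t : ℝ) :
    ∀ j, Sacc (L.map Lv.cst) t j = fun _ _ => 0 := by
  intro j
  funext x y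
  refine List.sum_eq_zero fun a ha => ?_
  obtain ⟨l, hl, rfl⟩ := List.mem_map.1 ha
  obtain ⟨l', -, rfl⟩ := List.mem_map.1 (List.mem_of_mem_take hl)
  simp [TL.S, Lv.cst]

theorem cst_C1 {Ω : Type*} (l : Lv Ω) (I : Set ℝ) : l.cst.C1 I :=
  ⟨fun _ _ _ _ => hasDerivAt_const _ _, fun _ _ => continuousOn_const⟩

/-- a field level with amplitude `s * t` -/
def tf (N : ℕ) (m s : ℝ) : TL (Cube N) :=
  ⟨Fin N, fun t x i => s * t * sv x i, fun _ x i => s * sv x i, m⟩

/-- the weighted mean overlap below a level -/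
def Bf (w : Cube N → ℝ) (l : Lv (Cube N)) (L : List (Lv (Cube N))) : (Cube N → ℝ) → ℝ :=
  tE l (X w L) (pair w L l.m fun _ => ov)

theorem eg_Bf (hw : Wt w) (l : Lv (Cube N)) (L : List (Lv (Cube N))) : Eg (Bf w l L) :=
  (eg_pair hw L _ _).tE (lg_X hw L) l

theorem pi2_ov_nonneg (L : List (Lv (Cube N))) (j : ℕ) (z : Cube N → ℝ) : 0 ≤ pi2 w L j ov z :=
  node_nonneg w (mu_nonneg _) L j z

theorem pi2_ov_le (hw : Wt w) (L : List (Lv (Cube N))) (j : ℕ) (z : Cube N → ℝ) :
    pi2 w L j ov z ≤ 1 := node_le hw (eg_mu hw _) (mu_le_one hw _) L j z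

theorem Bf_mem (hw : Wt w) {l : Lv (Cube N)} {L : List (Lv (Cube N))} (hm : 0 ≤ l.m)
    (hL : Mono l.m L) (z : Cube N → ℝ) : 0 ≤ Bf w l L z ∧ Bf w l L z ≤ 1 := by
  refine ⟨tE_nonneg l _ (fun z => ?_) z, (tE_mono (lg_X hw L) (eg_pair hw L _ _) (Eg.const 1)
    (fun z => ?_) l z).trans (tE_const (lg_X hw L) l 1 z).le⟩
  · rw [pair_eq_sum hw]
    exact Finset.sum_nonneg fun j _ => mul_nonneg (dm_nonneg hL j) (pi2_ov_nonneg L j z)
  · rw [pair_eq_sum hw]
    refine (Finset.sum_le_sum fun j _ => mul_le_of_le_one_right (dm_nonneg hL j)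
      (pi2_ov_le hw L j z)).trans ?_
    rw [sum_dm, ex_length]; linarith

theorem hasDerivAt_amp (hw : Wt w) (hN : 0 < N) (m s t : ℝ) (L : List (Lv (Cube N)))
    (z : Cube N → ℝ) : HasDerivAt (fun t => X w (fl N (m, s * t) :: L) z)
      (t * s ^ 2 * N * (1 - Bf w (fl N (m, s * t)) L z)) t := by
  have h := hasDerivAt_X hw isOpen_univ (L := tf N m s :: L.map Lv.cst) (fun l hl => by
    rcases List.mem_cons.1 hl with rfl | hl
    · exact ⟨fun t _ x i => by
        simpa [tf] using (((hasDerivAt_id t).const_mul s).mul_const (sv x i)),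
        fun _ _ => continuousOn_const⟩
    · obtain ⟨l', -, rfl⟩ := List.mem_map.1 hl
      exact cst_C1 _ _) (mem_univ t) (b := fun _ => z) (b' := fun _ => 0)
    fun _ => hasDerivAt_const _ _
  have e : ∀ t, atL (tf N m s :: L.map Lv.cst) t = fl N (m, s * t) :: L := fun t => by
    have := atL_cst L t
    simp only [atL, List.map_cons] at this ⊢
    rw [this]; rfl
  have hS : (tf N m s).S t = fun x y => t * s ^ 2 * N * ov x y := by
    funext x y
    have : (N : ℝ) ≠ 0 := by positivity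
    simp only [TL.S, tf, ov, dotProduct]
    rw [mul_assoc, mul_div_cancel₀ _ this, Finset.mul_sum]
    exact Finset.sum_congr rfl fun i _ => by ring
  simp only [e] at h
  convert h using 1
  rw [DX, e]
  simp only [List.length_cons, Sacc_cons, Sacc_cst, hS, pair, Sacc_zero, add_zero, zero_add,
    ov_self hN, mul_one, qf_const (sum_P hw _ _), mul_zero, ← Finset.sum_mul, sum_P hw, one_mul]
  have : (pair w L m fun _ x y => t * s ^ 2 * N * ov x y) =
      fun z => t * s ^ 2 * N * pair w L m (fun _ => ov) z := by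
    funext z
    simp only [pair_eq_sum hw, pi2_const_mul, Finset.mul_sum]
    exact Finset.sum_congr rfl fun i _ => by ring
  rw [this, tE_const_mul, Bf]
  ring

theorem amp_convex (hw : Wt w) (hN : 0 < N) {m s t : ℝ} (hm : 0 ≤ m) (ht : t ≠ 0)
    {L : List (Lv (Cube N))} (hL : ∀ l ∈ L, 0 ≤ l.m) (z : Cube N → ℝ) (t' : ℝ) :
    X w (fl N (m, s * t) :: L) z + (t' - t) * (t * s ^ 2 * N * (1 - Bf w (fl N (m, s * t)) L z)) ≤
      X w (fl N (m, s * t') :: L) z := by
  set l := fl N (m, s * t) with hl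
  have hF := lg_X hw L
  have hq : Eg fun z' => ∑ x, P w L z' x * (z' x - z x) :=
    Eg.sum _ fun x _ => (eg_P hw L x).mul ((Eg.coord x).sub (Eg.const _))
  set c := t⁻¹ * tE l (X w L) (fun z' => ∑ x, P w L z' x * (z' x - z x)) z with hc
  have key : ∀ t', X w (l :: L) z + (t' - t) * c ≤ X w (fl N (m, s * t') :: L) z := fun t' => by
    set r := t' / t with hr
    have hG : Lg fun z' => X w L (z + r • (z' - z)) := by
      obtain ⟨C, c, h1, h2, h3⟩ := hF.bd
      refine Lg.of (hF.eg.cont.comp (by fun_prop)) (C + c * (‖z‖ + |r| * ‖z‖)) (c * |r|)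
        fun z' => (h3 (0, z + r • (z' - z)) trivial).trans ?_
      have a1 : ‖z + r • (z' - z)‖ ≤ ‖z‖ + |r| * (‖z'‖ + ‖z‖) := (norm_add_le _ _).trans (by
        rw [norm_smul, Real.norm_eq_abs]
        exact add_le_add le_rfl (mul_le_mul_of_nonneg_left (norm_sub_le _ _) (abs_nonneg _)))
      have := mul_le_mul_of_nonneg_left a1 h2
      simp only
      linarith
    have h1 := step_ge hF hG (l := l) hm z
    have h2 : step l (fun z' => X w L (z + r • (z' - z))) z = X w (fl N (m, s * t') :: L) z := by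
      have : ∀ g, z + r • (z + l.fld g - z) = z + (fl N (m, s * t')).fld g := fun g => by
        funext x
        simp only [add_sub_cancel_left, Pi.add_apply, Pi.smul_apply, smul_eq_mul, Lv.fld,
          Finset.mul_sum, hr]
        congr 1
        refine Finset.sum_congr rfl fun i _ => ?_
        show t' / t * (s * t * sv x i * g i) = s * t' * sv x i * g i
        field_simp
      simp only [step, X, this]
      rfl
    have h3 : (t' - t) * c ≤ tE l (X w L) (fun z' => X w L (z + r • (z' - z)) - X w L z') z := by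
      rw [hc, ← mul_assoc, ← tE_const_mul]
      refine tE_mono hF (hq.const_mul _) (hG.eg.sub hF.eg) (fun z' => ?_) l z
      have a1 := X_add_ge hw L hL z' (((t' - t) * t⁻¹) • (z' - z))
      have a2 : z' + ((t' - t) * t⁻¹) • (z' - z) = z + r • (z' - z) := by
        funext x
        simp only [Pi.add_apply, Pi.smul_apply, Pi.sub_apply, smul_eq_mul, hr]
        field_simp
        ring
      rw [a2] at a1
      have a3 : ∑ x, P w L z' x * (((t' - t) * t⁻¹) • (z' - z)) x =
          (t' - t) * t⁻¹ * ∑ x, P w L z' x * (z' x - z x) := by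
        rw [Finset.mul_sum]
        exact Finset.sum_congr rfl fun x _ => by simp only [Pi.smul_apply, Pi.sub_apply, smul_eq_mul]; ring
      linarith
    rw [← h2]
    exact le_trans (add_le_add le_rfl h3) h1
  have hmin : IsLocalMin (fun t' => X w (fl N (m, s * t') :: L) z - (t' - t) * c) t :=
    Filter.Eventually.of_forall fun t' => by
      have := key t'
      simp only [sub_self, zero_mul, sub_zero]
      linarith
  have hd := hmin.hasDerivAt_eq_zero ((hasDerivAt_amp hw hN m s t L z).sub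
    (((hasDerivAt_id t).sub_const t).mul_const c))
  rw [one_mul, sub_eq_zero] at hd
  rw [hd]
  exact key t'

/-! ### the list of levels -/

section par
variable (N) (k : ℕ) (s : ℝ) (lam : ℕ → ℝ)

theorem len_par : (fL N (par k s lam)).length = k := by simp [fL, par]

theorem drop_par {j : ℕ} (hj : j < k) : (fL N (par k s lam)).drop j =
    fl N (((j : ℝ) + 1) / ((k : ℝ) + 1), s * lam j) :: (fL N (par k s lam)).drop (j + 1) := by
  rw [List.drop_eq_getElem_cons (by rwa [len_par])]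
  simp [fL, par]

theorem mem_par {l : Lv (Cube N)} (h : l ∈ fL N (par k s lam)) : 1 / ((k : ℝ) + 1) ≤ l.m := by
  simp only [fL, par, List.map_map, List.mem_map] at h
  obtain ⟨j, -, rfl⟩ := h
  exact div_le_div_of_nonneg_right (by simp) (by positivity)

theorem mono_drop : ∀ (r j : ℕ), j + r = k → ∀ μ : ℝ, μ ≤ ((j : ℝ) + 1) / ((k : ℝ) + 1) →
    Mono μ ((fL N (par k s lam)).drop j)
  | 0, j, h, μ, hμ => by
    obtain rfl : j = k := h
    rw [List.drop_of_length_le (len_par ..).le]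
    rwa [div_self (by positivity)] at hμ
  | r + 1, j, h, μ, hμ => by
    rw [drop_par N k s lam (by omega)]
    exact ⟨hμ, mono_drop r (j + 1) (by omega) _
      (div_le_div_of_nonneg_right (by simp) (by positivity))⟩

theorem mono_par : Mono 0 (fL N (par k s lam)) := by
  simpa using mono_drop N k s lam k 0 (by simp) 0 (by positivity)

theorem ex_par {j : ℕ} (hj : j ≤ k) : ex (fL N (par k s lam)) j = ((j : ℝ) + 1) / ((k : ℝ) + 1) := by
  rcases hj.lt_or_eq with hj | rfl
  · simp [ex, fL, par, hj]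
  · rw [div_self (by positivity)]
    simpa [len_par] using ex_length (fL N (par j s lam))

theorem dm_par {j : ℕ} (hj : j ≤ k) : dm (fL N (par k s lam)) 0 j = 1 / ((k : ℝ) + 1) := by
  cases j with
  | zero => simp [dm, exP, ex_par N k s lam hj]
  | succ j =>
    simp only [dm, exP, ex_par N k s lam hj, ex_par N k s lam (Nat.le_of_succ_le hj)]
    push_cast; ring

theorem par_update {j : ℕ} (hj : j < k) (a : ℝ) : fL N (par k s (Function.update lam j a)) =
    (fL N (par k s lam)).take j ++ fl N (((j : ℝ) + 1) / ((k : ℝ) + 1), s * a) ::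
      (fL N (par k s lam)).drop (j + 1) := by
  have e := List.set_eq_take_append_cons_drop (l := fL N (par k s lam)) (i := j)
    (a := fl N (((j : ℝ) + 1) / ((k : ℝ) + 1), s * a))
  rw [if_pos (by rwa [len_par])] at e
  rw [← e]
  refine List.ext_getElem (by simp [len_par]) fun i h1 h2 => ?_
  rw [List.getElem_set]
  split_ifs with h
  · subst h; simp [fL, par]
  · simp [fL, par, Function.update_of_ne (Ne.symm h)]

end par

/-! ### assembly -/

theorem abs_tE_le {Ω : Type*} [Fintype Ω] {F Φ : (Ω → ℝ) → ℝ} (hF : Lg F) (h : Eg Φ) (l : Lv Ω)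
    (z : Ω → ℝ) : |tE l F Φ z| ≤ tE l F (fun z => |Φ z|) z := by
  refine abs_le.2 ⟨?_, tE_mono hF h h.abs (fun _ => le_abs_self _) l z⟩
  rw [← tE_neg]
  exact tE_mono hF h.abs.neg h (fun _ => neg_abs_le _) l z

/-- concentration of `Bf` at the node above its level -/
theorem Bf_conc (hC : CmpStmt) (hw : Wt w) (hN : 0 < N) {k : ℕ} {s u : ℝ} (hs : 0 < s) (hu : 0 < u)
    {lam : ℕ → ℝ} (hlam : ∀ j, 1 ≤ lam j) (h : Cube N → ℝ) {j : ℕ} (hj : j < k)
    {B : (Cube N → ℝ) → ℝ} (hB : B = Bf w (fl N (((j : ℝ) + 1) / ((k : ℝ) + 1), s * lam j))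
      ((fL N (par k s lam)).drop (j + 1))) :
    node w (fL N (par k s lam)) j (fun z => |B z - node w (fL N (par k s lam)) j B h|) h ≤
      ((k + 1) * log 2 + d2 (fun lam => X w (fL N (par k s lam)) h) u lam j) / (u * s ^ 2 * N) := by
  set L := fL N (par k s lam) with hL
  set m : ℝ := ((j : ℝ) + 1) / ((k : ℝ) + 1) with hm
  have hk : (0 : ℝ) < (k : ℝ) + 1 := by positivity
  have hm0 : 0 ≤ m := by positivity
  have hl0 : ∀ l ∈ L, 0 ≤ l.m := fun l hl => le_trans (by positivity) (mem_par N k s lam hl)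
  have hD : ∀ l ∈ L.drop (j + 1), 0 ≤ l.m := fun l hl => hl0 l (List.mem_of_mem_drop hl)
  have hc : ∀ a, ∀ l ∈ fl N (m, a) :: L.drop (j + 1), 0 ≤ l.m := fun a l hl => by
    rcases List.mem_cons.1 hl with rfl | hl
    exacts [hm0, hD l hl]
  have hlj : lam j ≠ 0 := by have := hlam j; positivity
  set c := u * (lam j * s ^ 2 * N) with hcd
  have hc0 : u * s ^ 2 * N ≤ c := by
    have : 0 ≤ u * s ^ 2 * N := by positivity
    nlinarith [hlam j]
  have hc1 : 0 < u * s ^ 2 * N := by positivity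
  have hBe : Eg B := hB ▸ eg_Bf hw _ _
  have hBm : ∀ z, 0 ≤ B z ∧ B z ≤ 1 := fun z => hB ▸ Bf_mem hw hm0 (mono_drop N k s lam (k - (j + 1))
    (j + 1) (by omega) _ (div_le_div_of_nonneg_right (by simp) hk.le)) z
  have h1 := hC (Cube N) w hw (L.take j) (fl N (m, s * lam j) :: L.drop (j + 1))
    (fl N (m, s * (lam j + u)) :: L.drop (j + 1)) (fl N (m, s * (lam j - u)) :: L.drop (j + 1))
    (1 / ((k : ℝ) + 1)) (by positivity)
    (fun l hl => mem_par N k s lam (List.mem_of_mem_take hl)) (hc _) (hc _) (hc _)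
    (fun z => c * (1 - B z)) c (continuous_const.mul (continuous_const.sub hBe.cont))
    (fun z => by
      rw [abs_mul, abs_of_pos (hc1.trans_le hc0), abs_of_nonneg (sub_nonneg.2 (hBm z).2)]
      exact mul_le_of_le_one_right (hc1.trans_le hc0).le (by linarith [(hBm z).1]))
    (fun z => by
      have := amp_convex hw hN hm0 hlj hD z (s := s) (lam j + u)
      rw [← hB] at this
      rw [hcd]; linarith)
    (fun z => by
      have := amp_convex hw hN hm0 hlj hD z (s := s) (lam j - u)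
      rw [← hB] at this
      rw [hcd]; linarith) h
  rw [← drop_par N k s lam hj, List.take_append_drop, List.length_take_of_le
    (by rw [len_par]; exact hj.le), ← par_update N k s lam hj, ← par_update N k s lam hj] at h1
  have h2 : node w L j (fun z => c * (1 - B z)) h = c * (1 - node w L j B h) := by
    rw [node_const_mul, node_sub hw (Eg.const 1) hBe, node_const hw]
  have h3 : (fun z => |c * (1 - B z) - c * (1 - node w L j B h)|) =
      fun z => c * |B z - node w L j B h| := by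
    funext z
    rw [← mul_sub, abs_mul, abs_of_pos (hc1.trans_le hc0), abs_sub_comm]
    congr 2; ring
  rw [h2, h3, node_const_mul] at h1
  have h4 := node_nonneg w (Φ := fun z => |B z - node w L j B h|) (fun _ => abs_nonneg _) L j h
  rw [le_div_iff₀ hc1, d2]
  have h5 := mul_le_mul_of_nonneg_left h1 hk.le
  have h6 : ∀ a : ℝ, ((k : ℝ) + 1) * (1 / ((k : ℝ) + 1) * a) = a := fun a => by field_simp
  simp only [mul_add, h6] at h5
  nlinarith

theorem fin_sum (k : ℕ) {δ η θ : ℝ} (hδ0 : 0 < δ) (hη : 0 < η) (hθ0 : 0 ≤ θ)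
    (hk : ((k : ℝ) + 1) * δ = 1) {t p e q : ℕ → ℝ} (ht : ∀ j, t j ≤ 2)
    (hmain : ∀ j < k, t j ≤ (p (j + 1) - p j) * (1 / η + 2) + η + 2 * θ + q j)
    (hQc : ∀ j, j + 1 < k → δ * q j ≤ e j + e (j + 1)) (he0 : ∀ j, 0 ≤ e j) (hp0 : ∀ j, 0 ≤ p j)
    (hp1 : ∀ j, p j ≤ 1) : ∑ j ∈ Finset.range (k + 1), δ * t j ≤
      6 * δ + δ * (1 / η) + η + 2 * θ + 2 * ∑ j ∈ Finset.range k, e j := by
  have hη' : 0 ≤ δ * (1 / η) := by positivity
  cases k with
  | zero =>
    have := mul_le_mul_of_nonneg_left (ht 0) hδ0.le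
    simp only [zero_add, Finset.range_one, Finset.sum_singleton, Finset.range_zero, Finset.sum_empty]
    linarith
  | succ k =>
    rw [Finset.sum_range_succ, Finset.sum_range_succ]
    have a1 := mul_le_mul_of_nonneg_left (ht k) hδ0.le
    have a2 := mul_le_mul_of_nonneg_left (ht (k + 1)) hδ0.le
    have a3 : ∑ j ∈ Finset.range k, δ * t j ≤
        ∑ j ∈ Finset.range k, (δ * (1 / η + 2) * (p (j + 1) - p j) + δ * (η + 2 * θ) +
          (e j + e (j + 1))) := Finset.sum_le_sum fun j hj => by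
      have hj := Finset.mem_range.1 hj
      have b1 := mul_le_mul_of_nonneg_left (hmain j (by omega)) hδ0.le
      have b2 := hQc j (by omega)
      linarith
    rw [Finset.sum_add_distrib, Finset.sum_add_distrib, Finset.sum_add_distrib,
      ← Finset.mul_sum _ _ (δ * (1 / η + 2)),
      Finset.sum_range_sub, Finset.sum_const, Finset.card_range, nsmul_eq_mul] at a3
    have a4 : δ * (1 / η + 2) * (p k - p 0) ≤ δ * (1 / η + 2) :=
      mul_le_of_le_one_right (by positivity) (by linarith [hp0 0, hp1 k])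
    have a5 : k * (δ * (η + 2 * θ)) ≤ η + 2 * θ := by
      rw [← mul_assoc]
      refine mul_le_of_le_one_left (by positivity) ?_
      push_cast at hk; nlinarith
    have a6 := Finset.sum_range_succ e k
    have a7 := Finset.sum_range_succ' e k
    linarith [he0 0, he0 k]

theorem syncStmt (hV : VarStmt) (hC : CmpStmt) : SyncStmt := by
  intro N k w hw hN s u η hs hu hη lam hlam h
  set L := fL N (par k s lam) with hL
  set θ := √(((k : ℝ) + 1) / (s * √N)) with hθ
  set δ : ℝ := 1 / ((k : ℝ) + 1) with hδ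
  have hk : (0 : ℝ) < (k : ℝ) + 1 := by positivity
  have hδ0 : 0 < δ := by positivity
  set lv : ℕ → Lv (Cube N) := fun j => fl N (((j : ℝ) + 1) / ((k : ℝ) + 1), s * lam j) with hlv
  have hdr : ∀ j < k, L.drop j = lv j :: L.drop (j + 1) := fun j hj => drop_par N k s lam hj
  set p := pj w L h with hp
  set B : ℕ → (Cube N → ℝ) → ℝ := fun j => Bf w (lv j) (L.drop (j + 1)) with hB
  set Q : ℕ → (Cube N → ℝ) → ℝ := fun j => tE (lv j) (X w (L.drop (j + 1))) (mu w (L.drop (j + 1)))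
    with hQ
  set e : ℕ → ℝ := fun j => node w L j (fun z => |B j z - node w L j (B j) h|) h with he
  have he0 : ∀ j, 0 ≤ e j := fun j => node_nonneg w (fun _ => abs_nonneg _) L j h
  have hBe : ∀ j, Eg (B j) := fun j => eg_Bf hw _ _
  have hQe : ∀ j, Eg (Q j) := fun j => (eg_mu hw _).tE (lg_X hw _) _
  have htow : ∀ j < k, ∀ Φ, node w L j (tE (lv j) (X w (L.drop (j + 1))) Φ) = node w L (j + 1) Φ :=
    fun j hj Φ => by
      have := node_node w Φ 1 L j
      rwa [hdr j hj, node_cons, node_zero, add_comm 1 j] at this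
  have hpj : ∀ j, p j = node w L j (mu w (L.drop j)) h := fun j => rfl
  have hQp : ∀ j < k, node w L j (Q j) h = p (j + 1) := fun j hj => by rw [hQ, htow j hj, hpj]
  have hp0 : ∀ j, 0 ≤ p j := fun j => pi2_ov_nonneg L j h
  have hp1 : ∀ j, p j ≤ 1 := fun j => pi2_ov_le hw L j h
  have hmQ : ∀ j < k, ∀ z, mu w (L.drop j) z ≤ Q j z := fun j hj z => by
    rw [hdr j hj]; exact mu_le_tE hw _ _ z
  have hpm : ∀ j < k, p j ≤ p (j + 1) := fun j hj => by
    rw [← hQp j hj, hpj]; exact node_mono hw (eg_mu hw _) (hQe j) (hmQ j hj) L j h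
  -- the trivial bound
  have ht : ∀ j, pi2 w L j (fun x y => |ov x y - p j|) h ≤ 2 := fun j =>
    (pi2_mono hw L j (fun x y => (abs_sub _ _).trans (by
      have := abs_ov_le x y
      rw [abs_of_nonneg (hp0 j)]; linarith [hp1 j])) h).trans (pi2_const hw L j 2 h).le
  -- recursion for `B`
  have hrec : ∀ j, j + 1 < k → ∀ z, δ * Q j z = B j z - tE (lv j) (X w (L.drop (j + 1))) (B (j + 1)) z :=
    fun j hj z => by
      have e1 : pair w (L.drop (j + 1)) (lv j).m (fun _ => ov) =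
          fun z => δ * mu w (L.drop (j + 1)) z + B (j + 1) z := by
        funext z
        conv_lhs => rw [hdr _ hj]
        rw [pair, ← hdr _ hj]
        congr 2
        simp only [hlv, hδ]; push_cast; ring
      have e2 : B j z = tE (lv j) (X w (L.drop (j + 1)))
          (pair w (L.drop (j + 1)) (lv j).m fun _ => ov) z := rfl
      rw [e2, e1, tE_add (lg_X hw _) ((eg_mu hw _).const_mul _) (hBe (j + 1)), tE_const_mul]
      simp only [hQ]
      ring
  have hQc : ∀ j, j + 1 < k → δ * node w L j (fun z => |Q j z - p (j + 1)|) h ≤ e j + e (j + 1) :=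
    fun j hj => by
      have hj' : j < k := by omega
      have e1 : δ * p (j + 1) = node w L j (B j) h - node w L (j + 1) (B (j + 1)) h := by
        rw [← hQp j hj', ← congrFun (node_const_mul w (Q j) δ L j) h, funext (hrec j hj),
          node_sub hw (hBe j) ((hBe _).tE (lg_X hw _) _), htow j hj']
      have hA := ((hBe (j + 1)).sub (Eg.const (node w L (j + 1) (B (j + 1)) h)))
      rw [← congrFun (node_const_mul w _ δ L j) h]
      simp only [he]
      rw [← htow j hj', ← congrFun (node_add hw ((hBe j).sub (Eg.const _)).abs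
        (hA.abs.tE (lg_X hw _) _) L j) h]
      refine node_mono hw (((hQe j).sub (Eg.const _)).abs.const_mul _)
        (((hBe j).sub (Eg.const _)).abs.add (hA.abs.tE (lg_X hw _) _)) (fun z => ?_) L j h
      have a1 := abs_tE_le (lg_X hw (L.drop (j + 1))) hA (lv j) z
      rw [tE_sub (lg_X hw _) (hBe _) (Eg.const _), tE_const (lg_X hw _)] at a1
      rw [← abs_of_pos hδ0, ← abs_mul, mul_sub, hrec j hj, e1]
      refine le_trans (le_of_eq ?_) ((abs_sub _ _).trans (add_le_add le_rfl a1))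
      congr 1; ring
  have hmain : ∀ j < k, pi2 w L j (fun x y => |ov x y - p j|) h ≤
      (p (j + 1) - p j) * (1 / η + 2) + η + 2 * θ + node w L j (fun z => |Q j z - p (j + 1)|) h :=
    fun j hj => by
      have hA := ((hQe j).sub (eg_mu hw (L.drop j))).const_mul (1 / η + 1)
      have hA' := ((hQe j).sub (Eg.const (p (j + 1)))).abs
      have a0 : node w L j (fun z => ((1 / η + 1) * (Q j z - mu w (L.drop j) z) +
          |Q j z - p (j + 1)|) + (η + 2 * θ + (p (j + 1) - p j))) h =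
          (p (j + 1) - p j) * (1 / η + 2) + η + 2 * θ +
            node w L j (fun z => |Q j z - p (j + 1)|) h := by
        rw [node_add hw (hA.add hA') (Eg.const _), node_add hw hA hA', node_const_mul,
          node_sub hw (hQe j) (eg_mu hw _), node_const hw]
        simp only [hQp j hj, ← hpj]
        ring
      rw [← a0]
      refine node_mono hw (eg_qf hw _ _) ((hA.add hA').add (Eg.const _)) (fun z => ?_) L j h
      have hsj : 0 < s * lam j := by have := hlam j; positivity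
      have a1 := node_dev hV hw hN (m := ((j : ℝ) + 1) / ((k : ℝ) + 1)) (by positivity) hsj hδ0
        (sqrt_nonneg _ : 0 ≤ θ) (by
          rw [sq_sqrt (by positivity), hδ]
          have hsN : 0 < √(N : ℝ) := sqrt_pos.2 (by positivity)
          rw [div_le_div_iff₀ (by positivity) (by positivity)]
          have : ((k : ℝ) + 1) * (1 / ((k : ℝ) + 1) * (s * lam j) * √N) = s * √N * lam j := by
            field_simp
          rw [this]
          nlinarith [hlam j, mul_pos hs hsN])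
        (mono_drop N k s lam (k - (j + 1)) (j + 1) (by omega) δ
          (div_le_div_of_nonneg_right (by simp; positivity) hk.le)) z
      change qf (P w (lv j :: L.drop (j + 1)) z) (fun x y => |ov x y - mu w (lv j :: L.drop (j + 1)) z|)
        ≤ 2 * (√(Q j z - mu w (lv j :: L.drop (j + 1)) z) + θ) at a1
      rw [← hdr j hj] at a1
      have a2 := qf_mono (P_nonneg hw (L.drop j) z) (K := fun x y => |ov x y - p j|)
        (K' := fun x y => |ov x y - mu w (L.drop j) z| + |mu w (L.drop j) z - p j|)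
        fun x y => abs_sub_le _ _ _
      rw [qf_add, qf_const (sum_P hw _ _)] at a2
      have a3 := sub_nonneg.2 (hmQ j hj z)
      set κ := Q j z - mu w (L.drop j) z with hκ
      have a4 : 2 * √κ ≤ 1 / η * κ + η := by
        have : 1 / η * κ + η - 2 * √κ = 1 / η * (√κ - η) ^ 2 := by
          rw [sub_sq, sq_sqrt a3]; field_simp; ring
        have : 0 ≤ 1 / η * (√κ - η) ^ 2 := by positivity
        linarith
      have a5 : |mu w (L.drop j) z - p j| ≤ κ + |Q j z - p (j + 1)| + (p (j + 1) - p j) := by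
        have := hpm j hj
        have := le_abs_self (Q j z - p (j + 1))
        have := neg_abs_le (Q j z - p (j + 1))
        rw [abs_le]; constructor <;> linarith
      linarith
  have hE : ∑ j ∈ Finset.range k, e j ≤ ∑ j ∈ Finset.range k, ((k + 1) * log 2 +
      d2 (fun lam => X w (fL N (par k s lam)) h) u lam j) / (u * s ^ 2 * N) :=
    Finset.sum_le_sum fun j hj => Bf_conc hC hw hN hs hu hlam h (Finset.mem_range.1 hj) rfl
  have hS : sync w L h = ∑ j ∈ Finset.range (k + 1), δ * pi2 w L j (fun x y => |ov x y - p j|) h := by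
    rw [sync, pair_eq_sum hw, hL, len_par]
    exact Finset.sum_congr rfl fun j hj => by
      rw [dm_par N k s lam (Nat.lt_succ_iff.1 (Finset.mem_range.1 hj))]
  have hθ0 : 0 ≤ θ := sqrt_nonneg _
  have e6 : 6 / ((k : ℝ) + 1) = 6 * δ := by rw [hδ]; ring
  have e7 : 1 / (((k : ℝ) + 1) * η) = δ * (1 / η) := by rw [hδ]; field_simp
  rw [hS, e6, e7]
  refine le_trans ?_ (add_le_add le_rfl (mul_le_mul_of_nonneg_left hE zero_le_two))
  exact fin_sum k hδ0 hη hθ0 (by rw [hδ]; field_simp) ht hmain hQc he0 hp0 hp1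

end Crest.Agent.T157.Plb

end
end

-- ▼ part T157/PlbA_78
section

/-!
# Row 157: the cavity step for the new spin (helper78)
-/

set_option autoImplicit false
set_option linter.unusedSectionVars false

noncomputable section

namespace Crest.Agent.T157.Plb

open MeasureTheory Real Set
open Crest.Agent.T157.E Crest.Agent.T157.Casc Crest.Agent.T157.SL
open Crest.Agent.R339.Guerra (Phi T pen Good mh γ Lev Lip lip_Phi int_exp_γ)

variable {N : ℕ} {β : ℝ}

theorem wt1 {Ω : Type*} [Fintype Ω] [Nonempty Ω] : Wt fun _ : Ω => (1 : ℝ) :=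
  Wt.of_pos fun _ => one_pos

theorem pi2_ov_mono {w : Cube N → ℝ} (hw : Wt w) : ∀ (L : List (Lv (Cube N))) (j : ℕ)
    (z : Cube N → ℝ), pi2 w L j ov z ≤ pi2 w L (j + 1) ov z
  | [], _, _ => by simp [pi2]
  | l :: L, 0, z => by
    rw [pi2_cons, pi2_zero, funext (pi2_zero w L ov)]; exact mu_le_tE hw l L z
  | l :: L, j + 1, z => tE_mono (lg_X hw L) (eg_pi2 hw L j ov) (eg_pi2 hw L (j + 1) ov)
      (pi2_ov_mono hw L j) l z

/-! ### the interpolating cascade -/

/-- a scalar field on the new spin -/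
def e1 (N : ℕ) (c m : ℝ) (f f' : ℝ → ℝ) : TL (Cube (N + 1)) :=
  ⟨Unit, fun t x _ => f t * (c * sv x 0), fun t x _ => f' t * (c * sv x 0), m⟩

/-- the cavity field -/
def tz (N : ℕ) (β : ℝ) : TL (Cube (N + 1)) :=
  ⟨Fin N, fun t x i => sin t * (β / √((N : ℝ) + 1) * (sv x 0 * sv x i.succ)),
    fun t x i => cos t * (β / √((N : ℝ) + 1) * (sv x 0 * sv x i.succ)), 0⟩

/-- blocks of three levels -/
def blk (N : ℕ) (β : ℝ) : List (ℝ × ℝ) → (ℕ → ℝ) → List (TL (Cube (N + 1)))
  | [], _ => []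
  | a :: ℓ, q => (pull Fin.tail (fl N a)).cst :: e1 N a.2 a.1 sin cos ::
      e1 N (β * √(q 1 - q 0)) a.1 cos (fun t => -sin t) :: blk N β ℓ fun j => q (j + 1)

/-- the same as a mixed list -/
def mix (N : ℕ) (β t : ℝ) : List (ℝ × ℝ) → (ℕ → ℝ) → List (Lv (Cube N) ⊕ Lv (Cube (N + 1)))
  | [], _ => []
  | a :: ℓ, q => .inl (fl N a) :: .inr ((e1 N a.2 a.1 sin cos).at t) ::
      .inr ((e1 N (β * √(q 1 - q 0)) a.1 cos fun t => -sin t).at t) :: mix N β t ℓ fun j => q (j + 1)

/-- the Parisi list -/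
def parF (β : ℝ) : List (ℝ × ℝ) → (ℕ → ℝ) → Lev
  | [], q => [(β, 1 - q 0)]
  | a :: ℓ, q => (β * a.1, q 1 - q 0) :: parF β ℓ fun j => q (j + 1)

/-- total variance of the perturbation -/
def tot (ℓ : List (ℝ × ℝ)) : ℝ := (ℓ.map fun a => a.2 ^ 2).sum

theorem tot_nonneg (ℓ : List (ℝ × ℝ)) : 0 ≤ tot ℓ :=
  List.sum_nonneg fun a ha => by obtain ⟨b, -, rfl⟩ := List.mem_map.1 ha; positivity

theorem ext_mix (t : ℝ) : ∀ (ℓ : List (ℝ × ℝ)) (q : ℕ → ℝ),
    extL Fin.tail (mix N β t ℓ q) = atL (blk N β ℓ q) t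
  | [], _ => rfl
  | a :: ℓ, q => by
    have := ext_mix t ℓ fun j => q (j + 1)
    simp only [mix, extL, blk, atL, List.map_cons] at this ⊢
    rw [this]; rfl

theorem base_mix (t : ℝ) : ∀ (ℓ : List (ℝ × ℝ)) (q : ℕ → ℝ), base (mix N β t ℓ q) = fL N ℓ
  | [], _ => rfl
  | a :: ℓ, q => by
    have := base_mix t ℓ fun j => q (j + 1)
    simp only [mix, base, fL, List.map_cons] at this ⊢
    rw [this]

theorem blk_C1 : ∀ (ℓ : List (ℝ × ℝ)) (q : ℕ → ℝ), ∀ l ∈ blk N β ℓ q, l.C1 univ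
  | [], _ => by simp [blk]
  | a :: ℓ, q => by
    simp only [blk, List.mem_cons, forall_eq_or_imp]
    exact ⟨cst_C1 _ _, ⟨fun t _ _ _ => (hasDerivAt_sin t).mul_const _,
      fun _ _ => (continuous_cos.mul continuous_const).continuousOn⟩,
      ⟨fun t _ _ _ => (hasDerivAt_cos t).mul_const _,
      fun _ _ => (continuous_sin.neg.mul continuous_const).continuousOn⟩, blk_C1 ℓ _⟩

/-- fields which are odd in the new spin -/
def Od (b : Cube (N + 1) → ℝ) : Prop := ∃ a : Cube N → ℝ, ∀ x, b x = sv x 0 * a (Fin.tail x)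

theorem fld_e1 (c m t : ℝ) (f f' : ℝ → ℝ) (g : Unit → ℝ) (x : Cube (N + 1)) :
    ((e1 N c m f f').at t).fld g x = f t * c * g () * sv x 0 := by
  show ∑ i : Unit, f t * (c * sv x 0) * g i = _
  rw [Fintype.sum_unique]; ring

theorem od_e1 (c m t : ℝ) (f f' : ℝ → ℝ) (b : Cube (N + 1) → ℝ) (g : Unit → ℝ) (hb : Od b) :
    Od (b + ((e1 N c m f f').at t).fld g) := by
  obtain ⟨a, ha⟩ := hb
  refine ⟨fun s => a s + f t * c * g (), fun x => ?_⟩
  rw [Pi.add_apply, ha, fld_e1]
  ring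

theorem od_tz (t : ℝ) (b : Cube (N + 1) → ℝ) (g : Fin N → ℝ) (hb : Od b) :
    Od (b + ((tz N β).at t).fld g) := by
  obtain ⟨a, ha⟩ := hb
  refine ⟨fun s => a s + ∑ i, sin t * (β / √((N : ℝ) + 1) * sv s i) * g i, fun x => ?_⟩
  simp only [Pi.add_apply, ha, Lv.fld, tz, mul_add, Finset.mul_sum]
  congr 1
  exact Finset.sum_congr rfl fun i _ => by
    have : sv (Fin.tail x) i = sv x i.succ := rfl
    rw [this]; ring

theorem cov_e1 (c m t : ℝ) (f f' : ℝ → ℝ) (x y : Cube (N + 1)) :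
    ((e1 N c m f f').at t).cov x y = f t ^ 2 * c ^ 2 * (sv x 0 * sv y 0) := by
  show ∑ _i : Unit, f t * (c * sv x 0) * (f t * (c * sv y 0)) = _
  rw [Fintype.sum_unique]; ring

theorem S_e1 (c m t : ℝ) (f f' : ℝ → ℝ) (x y : Cube (N + 1)) :
    (e1 N c m f f').S t x y = f' t * f t * c ^ 2 * (sv x 0 * sv y 0) := by
  show ∑ _i : Unit, f' t * (c * sv x 0) * (f t * (c * sv y 0)) = _
  rw [Fintype.sum_unique]; ring

theorem S_cst {Ω : Type*} (l : Lv Ω) (t : ℝ) (x y : Ω) : l.cst.S t x y = 0 := by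
  simp [TL.S, Lv.cst]

theorem sv_mul_self (x : Cube N) (i : Fin N) : sv x i * sv x i = 1 := spin_mul_self _

theorem sum_tail (hN : 0 < N) (x y : Cube (N + 1)) :
    ∑ i : Fin N, sv x i.succ * sv y i.succ = N * ov (Fin.tail x) (Fin.tail y) := by
  rw [ov, mul_div_cancel₀ _ (by positivity)]; rfl

theorem S_tz (hN : 0 < N) (t : ℝ) (x y : Cube (N + 1)) : (tz N β).S t x y =
    sin t * cos t * (sv x 0 * sv y 0) * (β ^ 2 * (N / (N + 1) * ov (Fin.tail x) (Fin.tail y))) := by
  have h : (β / √((N : ℝ) + 1)) ^ 2 = β ^ 2 / (N + 1) := by rw [div_pow, sq_sqrt (by positivity)]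
  have : (tz N β).S t x y = sin t * cos t * (sv x 0 * sv y 0) * ((β / √((N : ℝ) + 1)) ^ 2 *
      ∑ i : Fin N, sv x i.succ * sv y i.succ) := by
    simp only [TL.S, tz, Finset.mul_sum]
    exact Finset.sum_congr rfl fun i _ => by ring
  rw [this, h, sum_tail hN]; ring

theorem cov_tz_le (hN : 0 < N) (t : ℝ) (x : Cube (N + 1)) : ((tz N β).at t).cov x x ≤ β ^ 2 := by
  have h : (β / √((N : ℝ) + 1)) ^ 2 = β ^ 2 / (N + 1) := by rw [div_pow, sq_sqrt (by positivity)]
  have : ((tz N β).at t).cov x x = sin t ^ 2 * (sv x 0 * sv x 0) * ((β / √((N : ℝ) + 1)) ^ 2 *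
      ∑ i : Fin N, sv x i.succ * sv x i.succ) := by
    simp only [Lv.cov, tz, Finset.mul_sum]
    exact Finset.sum_congr rfl fun i _ => by ring
  rw [this, h, sum_tail hN, ov_self hN, sv_mul_self, mul_one, mul_one]
  have h1 : β ^ 2 / (N + 1) * N ≤ β ^ 2 := by
    rw [div_mul_eq_mul_div, div_le_iff₀ (by positivity)]; nlinarith [sq_nonneg β]
  exact (mul_le_of_le_one_left (by positivity) (sin_sq_le_one t)).trans h1

theorem adm_mix (t : ℝ) : ∀ (ℓ : List (ℝ × ℝ)) (q : ℕ → ℝ) (m0 V : ℝ), Mono m0 (fL N ℓ) →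
    (∀ j, q j ≤ q (j + 1)) → (∀ j, q j ≤ 1) → tot ℓ + β ^ 2 * (1 - q 0) ≤ V →
    Adm Od m0 V (mix N β t ℓ q)
  | [], q, _, _, h, _, h1, hV => ⟨h, le_trans (by
      have := sub_nonneg.2 (h1 0); have := tot_nonneg []; positivity) hV⟩
  | a :: ℓ, q, _, V, h, hq, h1, hV => by
    refine ⟨h.1, rfl, od_e1 _ _ _ _ _, a.2 ^ 2, fun x => ?_, rfl, od_e1 _ _ _ _ _,
      β ^ 2 * (q 1 - q 0), fun x => ?_, adm_mix t ℓ _ _ _ h.2 (fun j => hq _) (fun j => h1 _) ?_⟩
    · rw [cov_e1, sv_mul_self, mul_one]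
      exact mul_le_of_le_one_left (sq_nonneg _) (sin_sq_le_one t)
    · have := sub_nonneg.2 (hq 0)
      rw [cov_e1, sv_mul_self, mul_one, mul_pow, sq_sqrt this]
      exact mul_le_of_le_one_left (by positivity) (cos_sq_le_one t)
    · simp only [tot, List.map_cons, List.sum_cons, zero_add] at hV ⊢
      linarith

theorem rel_mix {t T : ℝ} (ht : 0 ≤ sin t * cos t) : ∀ (ℓ : List (ℝ × ℝ)) (q : ℕ → ℝ) (τ : ℝ),
    (∀ j, q j ≤ q (j + 1)) → 0 ≤ τ → τ + tot ℓ ≤ T →
    Rel Fin.tail (mix N β t ℓ q) (fun j x y => sin t * cos t * (sv x 0 * sv y 0) *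
        (β ^ 2 * (N / (N + 1) * ov (Fin.tail x) (Fin.tail y) - q 0) + τ) +
        Sacc (blk N β ℓ q) t j x y)
      fun j s s' => sin t * cos t * (β ^ 2 * |ov s s' - q j| + (β ^ 2 / (N + 1) + T)) := by
  have key : ∀ (q0 τ : ℝ), 0 ≤ τ → τ ≤ T → ∀ x y : Cube (N + 1), sin t * cos t * (sv x 0 * sv y 0) *
      (β ^ 2 * (N / (N + 1) * ov (Fin.tail x) (Fin.tail y) - q0) + τ) + 0 ≤ sin t * cos t *
      (β ^ 2 * |ov (Fin.tail x) (Fin.tail y) - q0| + (β ^ 2 / (N + 1) + T)) := by
    intro q0 τ h0 h1 x y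
    rw [add_zero, mul_assoc]
    refine mul_le_mul_of_nonneg_left ((le_abs_self _).trans ?_) ht
    set r := ov (Fin.tail x) (Fin.tail y)
    have hr : |r| ≤ 1 := abs_ov_le _ _
    have e : (N : ℝ) / (N + 1) * r - q0 = (r - q0) - r / (N + 1) := by field_simp; ring
    rw [abs_mul, abs_mul, abs_sv, abs_sv, one_mul, one_mul, e]
    refine (abs_add_le _ _).trans ?_
    rw [abs_of_nonneg h0, abs_mul, abs_of_nonneg (sq_nonneg β)]
    have h2 : |r - q0 - r / (N + 1)| ≤ |r - q0| + 1 / (N + 1) := (abs_sub _ _).trans (by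
      rw [abs_div, abs_of_pos (by positivity : (0 : ℝ) < N + 1)]
      exact add_le_add le_rfl (div_le_div_of_nonneg_right hr (by positivity)))
    have h3 := mul_le_mul_of_nonneg_left h2 (sq_nonneg β)
    have h4 : β ^ 2 / (N + 1) = β ^ 2 * (1 / (N + 1)) := by ring
    linarith
  intro ℓ
  induction ℓ with
  | nil => exact fun q τ _ h0 h1 => key _ τ h0 (by simpa [tot] using h1)
  | cons a ℓ ih =>
    intro q τ hq h0 h1
    simp only [tot, List.map_cons, List.sum_cons] at h1
    have h2 := tot_nonneg ℓ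
    refine ⟨key _ τ h0 (by simp only [tot] at h2; nlinarith [sq_nonneg a.2]), ?_⟩
    have := ih (fun j => q (j + 1)) (τ + a.2 ^ 2) (fun j => hq _) (by positivity)
      (by simp only [tot]; linarith)
    simp only [Rel]
    convert this using 4 with j x y
    simp only [blk, Sacc_cons, S_cst, S_e1, mul_pow, sq_sqrt (sub_nonneg.2 (hq 0)), zero_add]
    ring

theorem diag_blk (t : ℝ) (x : Cube (N + 1)) : ∀ (ℓ : List (ℝ × ℝ)) (q : ℕ → ℝ),
    (∀ j, q j ≤ q (j + 1)) → Sacc (blk N β ℓ q) t (blk N β ℓ q).length x x =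
      sin t * cos t * (tot ℓ - β ^ 2 * (q ℓ.length - q 0))
  | [], q, _ => by simp [blk, Sacc_zero, tot]
  | a :: ℓ, q, hq => by
    have := diag_blk t x ℓ (fun j => q (j + 1)) fun j => hq _
    simp only [blk, List.length_cons, Sacc_cons, S_cst, S_e1, mul_pow,
      sq_sqrt (sub_nonneg.2 (hq 0)), this, sv_mul_self, tot, List.map_cons, List.sum_cons, zero_add]
    ring

/-! ### the end points -/

theorem sum_cube (F : Cube (N + 1) → ℝ) :
    ∑ x, F x = ∑ s : Cube N, (F (Fin.cons true s) + F (Fin.cons false s)) := by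
  rw [← (Fin.consEquiv fun _ : Fin (N + 1) => Bool).sum_comp, Fintype.sum_prod_type_right]
  exact Finset.sum_congr rfl fun s _ => by rw [Fintype.sum_bool]; rfl

theorem sv_t (s : Cube N) : sv (Fin.cons true s : Cube (N + 1)) 0 = 1 := by
  simp [sv, Crest.ProbabilityR.SpinGlassDynamics.spin]

theorem sv_f (s : Cube N) : sv (Fin.cons false s : Cube (N + 1)) 0 = -1 := by
  simp [sv, Crest.ProbabilityR.SpinGlassDynamics.spin]

theorem od_ge (h : Cube N → ℝ) (b : Cube (N + 1) → ℝ) (hb : Od b) :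
    X (fun _ => 1) [] h - 0 ≤ X (fun _ => 1) [] fun x => h (Fin.tail x) + b x := by
  obtain ⟨a, ha⟩ := hb
  simp only [X, one_mul, sub_zero]
  refine log_le_log (Finset.sum_pos (fun _ _ => exp_pos _) Finset.univ_nonempty) ?_
  rw [sum_cube]
  refine Finset.sum_le_sum fun s _ => ?_
  simp only [ha, Fin.tail_cons, sv_t, sv_f, exp_add, ← mul_add]
  refine le_mul_of_one_le_right (exp_pos _).le ?_
  have := add_one_le_exp (1 * a s)
  have := add_one_le_exp (-1 * a s)
  linarith

theorem card_tail (s : Cube N) :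
    (Finset.univ.filter fun x : Cube (N + 1) => Fin.tail x = s).card ≤ 2 := by
  refine le_trans (Finset.card_le_card (t := {Fin.cons true s, Fin.cons false s}) fun x hx => ?_)
    Finset.card_le_two
  have := (Finset.mem_filter.1 hx).2
  rw [← this, ← Fin.cons_self_tail x]
  cases x 0 <;> simp

theorem top_blk : ∀ (ℓ : List (ℝ × ℝ)) (q : ℕ → ℝ),
    X (fun _ => 1) (atL (blk N β ℓ q) (π / 2)) = X (fun _ => 1) (fL (N + 1) ℓ)
  | [], _ => rfl
  | a :: ℓ, q => by
    have := top_blk ℓ fun j => q (j + 1)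
    simp only [blk, atL, fL, List.map_cons] at this ⊢
    rw [C.X_split wt1 (l := fl (N + 1) a) (l1 := pull Fin.tail (fl N a))
      (l2 := (e1 N a.2 a.1 sin cos).at (π / 2)) rfl rfl fun x y => ?_]
    · simp only [C.X_cons, this]
      rw [C.step_of_zero (l := (e1 N (β * √(q 1 - q 0)) a.1 cos fun t => -sin t).at (π / 2))
        fun x i => by simp [e1]]
      rfl
    · rw [cov_e1, sin_pi_div_two]
      show ∑ i : Fin (N + 1), a.2 * sv x i * (a.2 * sv y i) =
        ∑ i : Fin N, a.2 * sv x i.succ * (a.2 * sv y i.succ) + _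
      rw [Fin.sum_univ_succ]
      ring

/-- states of product form -/
def st (h : Cube N → ℝ) (c : ℝ) : Cube (N + 1) → ℝ := fun x => h (Fin.tail x) + c * sv x 0

theorem int_unit (F : ℝ → ℝ) : ∫ g : Unit → ℝ, F (g ()) ∂gv Unit = ∫ y, F y ∂γ :=
  (measurePreserving_funUnique γ Unit).integral_comp' F

theorem bot_nil (hβ : 0 < β) {δ : ℝ} (hδ : 0 ≤ δ) (h : Cube N → ℝ) (c : ℝ) :
    X (fun _ => 1) [] (st h c) + β ^ 2 * δ / 2 =
      X (fun _ => 1) [] h + β * Phi β [(β, δ)] (c / β) := by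
  have h0 : 0 < ∑ s, exp (h s) := Finset.sum_pos (fun _ _ => exp_pos _) Finset.univ_nonempty
  have h1 : 0 < exp c + exp (-c) := by positivity
  have e1 : ∑ x, exp (st h c x) = (∑ s, exp (h s)) * (exp c + exp (-c)) := by
    rw [sum_cube, Finset.sum_mul]
    exact Finset.sum_congr rfl fun s _ => by
      simp only [st, Fin.tail_cons, sv_t, sv_f, exp_add, mul_one, mul_neg, mul_add]
  have e2 : ∀ y, exp (β * (log (2 * cosh (β * (c / β + √δ * y))) / β)) =
      exp c * exp (β * √δ * y) + exp (-c) * exp (-(β * √δ) * y) := fun y => by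
    rw [mul_div_cancel₀ _ hβ.ne', exp_log (by have := cosh_pos (β * (c / β + √δ * y)); positivity),
      cosh_eq, ← exp_add, ← exp_add, mul_add, mul_div_cancel₀ _ hβ.ne']
    ring_nf
  have hi : ∀ t : ℝ, Integrable (fun y => exp (t * y)) γ := fun t =>
    Integrable.of_integral_ne_zero (by rw [int_exp_γ]; exact (exp_pos _).ne')
  simp only [X, one_mul, Phi, T, e1, e2]
  rw [integral_add ((hi _).const_mul _) ((hi _).const_mul _), integral_const_mul, integral_const_mul,
    int_exp_γ, int_exp_γ, neg_sq, ← add_mul, log_mul h0.ne' h1.ne', log_mul h1.ne' (exp_pos _).ne',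
    log_exp, mul_pow, sq_sqrt hδ]
  field_simp
  ring

theorem good_parF (hβ : 0 < β) : ∀ (ℓ : List (ℝ × ℝ)) (q : ℕ → ℝ) (m0 : ℝ), Mono m0 (fL N ℓ) →
    (∀ a ∈ ℓ, 0 < a.1) → (∀ j, q j ≤ q (j + 1)) → (∀ j, q j ≤ 1) →
    Good β (parF β ℓ q) ∧ β * m0 ≤ mh β (parF β ℓ q)
  | [], q, _, h, _, _, h1 => ⟨⟨hβ, le_rfl, sub_nonneg.2 (h1 0), trivial⟩,
      mul_le_of_le_one_right hβ.le h⟩
  | a :: ℓ, q, _, h, ha, hq, h1 => by
    have := good_parF hβ ℓ (fun j => q (j + 1)) a.1 h.2 (fun b hb => ha b (by simp [hb]))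
      (fun j => hq _) fun j => h1 _
    exact ⟨⟨mul_pos hβ (ha a (by simp)), this.2, sub_nonneg.2 (hq 0), this.1⟩,
      mul_le_mul_of_nonneg_left h.1 hβ.le⟩

theorem sum_parF : ∀ (ℓ : List (ℝ × ℝ)) (q : ℕ → ℝ), ((parF β ℓ q).map Prod.snd).sum = 1 - q 0
  | [], q => by simp [parF]
  | a :: ℓ, q => by simp [parF, sum_parF ℓ]

theorem pen_parF : ∀ (ℓ : List (ℝ × ℝ)) (q : ℕ → ℝ) (m0 : ℝ), pen (q 0) (parF β ℓ q) =
    β * (1 - m0 * q 0 ^ 2 - ∑ j ∈ Finset.range ((fL N ℓ).length + 1), dm (fL N ℓ) m0 j * q j ^ 2)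
  | [], q, m0 => by
    have : dm ([] : List (Lv (Cube N))) m0 0 = 1 - m0 := rfl
    simp only [parF, pen, fL, List.map_nil, List.length_nil, zero_add, Finset.sum_range_one, this]
    ring
  | a :: ℓ, q, m0 => by
    have := pen_parF ℓ (fun j => q (j + 1)) a.1
    simp only [fL, List.map_cons, List.length_cons] at this ⊢
    rw [Finset.sum_range_succ']
    simp only [dm_cons_succ, parF, pen, add_sub_cancel, zero_add] at this ⊢
    rw [this]
    simp only [dm, ex, exP, List.getElem?_cons_zero]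
    ring

theorem bot_blk (hβ : 0 < β) : ∀ (ℓ : List (ℝ × ℝ)) (q : ℕ → ℝ) (m0 : ℝ), Mono m0 (fL N ℓ) →
    (∀ a ∈ ℓ, 0 < a.1) → (∀ j, q j ≤ q (j + 1)) → (∀ j, q j ≤ 1) → ∀ (h : Cube N → ℝ) (c : ℝ),
    X (fun _ => 1) (atL (blk N β ℓ q) 0) (st h c) + β ^ 2 * (1 - q ℓ.length) / 2 =
      X (fun _ => 1) (fL N ℓ) h + β * Phi β (parF β ℓ q) (c / β)
  | [], q, _, _, _, _, h1, h, c => bot_nil hβ (sub_nonneg.2 (h1 0)) h c
  | a :: ℓ, q, _, hM, ha, hq, h1, h, c => by
    have ih := bot_blk hβ ℓ (fun j => q (j + 1)) a.1 hM.2 (fun b hb => ha b (by simp [hb]))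
      (fun j => hq _) fun j => h1 _
    have hG := (good_parF (N := N) hβ ℓ (fun j => q (j + 1)) a.1 hM.2
      (fun b hb => ha b (by simp [hb])) (fun j => hq _) fun j => h1 _).1
    have hm : 0 < a.1 := ha a (by simp)
    set f := Phi β (parF β ℓ fun j => q (j + 1)) with hf
    set r := β ^ 2 * (1 - q (ℓ.length + 1)) / 2 with hr
    set F' := X (fun _ => 1) (atL (blk N β ℓ fun j => q (j + 1)) 0) with hF'
    set F := X (fun _ : Cube N => (1 : ℝ)) (fL N ℓ) with hF
    have hI : 0 < ∫ y, exp (β * a.1 * f (c / β + √(q 1 - q 0) * y)) ∂γ :=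
      integral_exp_pos ((lip_Phi hβ _ hG).integrable_exp _ _ _)
    set l3 := (e1 N (β * √(q 1 - q 0)) a.1 cos fun t => -sin t).at 0 with hl3
    have h3 : ∀ h, step l3 F' (st h c) = F h + (β * T (β * a.1) (q 1 - q 0) f (c / β) - r) :=
      fun h => by
      have e : ∀ g : Unit → ℝ, exp (a.1 * F' (st h c + l3.fld g)) =
          exp (a.1 * (F h - r)) * exp (β * a.1 * f (c / β + √(q 1 - q 0) * g ())) := fun g => by
        have e0 : st h c + l3.fld g = st h (c + β * √(q 1 - q 0) * g ()) := by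
          funext x
          have := fld_e1 (β * √(q 1 - q 0)) a.1 0 cos (fun t => -sin t) g x
          rw [Pi.add_apply, show l3.fld g x = _ from this, cos_zero]
          simp only [st]
          ring
        have e1 := ih h (c + β * √(q 1 - q 0) * g ())
        rw [add_div, mul_assoc, mul_div_cancel_left₀ _ hβ.ne'] at e1
        rw [e0, ← exp_add, mul_assoc β, eq_sub_of_add_eq e1]
        congr 1; ring
      rw [C.step_ne (l := l3) hm.ne']
      show a.1⁻¹ * log (∫ g : Unit → ℝ, exp (a.1 * F' (st h c + l3.fld g)) ∂gv Unit) = _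
      simp only [e]
      rw [integral_const_mul, int_unit fun y => exp (β * a.1 * f (c / β + √(q 1 - q 0) * y)),
        log_mul (exp_pos _).ne' hI.ne', log_exp, T]
      field_simp
      ring
    have hF0 := (lg_X (wt1 (Ω := Cube N)) (fL N ℓ)).Z_pos (fl N a) h
    show step (pull Fin.tail (fl N a)) (step ((e1 N a.2 a.1 sin cos).at 0) (step l3 F')) (st h c) + r =
      step (fl N a) F h + β * T (β * a.1) (q 1 - q 0) f (c / β)
    rw [C.step_of_zero (l := (e1 N a.2 a.1 sin cos).at 0) fun x i => by simp [e1],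
      C.step_ne (Ω := Cube (N + 1)) (l := pull Fin.tail (fl N a)) hm.ne',
      C.step_ne (l := fl N a) hm.ne']
    have e : ∀ g, st h c + (pull (Ω' := Cube (N + 1)) Fin.tail (fl N a)).fld g =
        st (h + (fl N a).fld g) c := fun g => by
      funext x
      simp only [st, Pi.add_apply, Lv.fld]
      ring
    simp only [e, h3, mul_add, exp_add]
    rw [integral_mul_const, log_mul hF0.ne' (exp_pos _).ne', log_exp]
    field_simp
    ring

/-! ### the cavity step -/

theorem tot_par (k : ℕ) (s : ℝ) {lam : ℕ → ℝ} (hl : Box lam) : tot (par k s lam) ≤ 4 * (k * s ^ 2) := by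
  have := List.sum_le_card_nsmul ((par k s lam).map fun a => a.2 ^ 2) (4 * s ^ 2) fun a ha => by
    simp only [par, List.map_map, List.mem_map] at ha
    obtain ⟨j, -, rfl⟩ := ha
    have h1 := (hl j).1
    have h2 := (hl j).2
    have : lam j ^ 2 ≤ 4 := by nlinarith
    simp only [Function.comp, mul_pow]
    nlinarith [sq_nonneg s]
  simp only [par, List.length_map, List.length_range, nsmul_eq_mul] at this
  simp only [tot, par]
  linarith

theorem pair_cmul {Ω : Type*} [Fintype Ω] {w : Ω → ℝ} (hw : Wt w) (L : List (Lv Ω)) (m0 c : ℝ)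
    (K : ℕ → Ω → Ω → ℝ) (z : Ω → ℝ) :
    pair w L m0 (fun j x y => c * K j x y) z = c * pair w L m0 K z := by
  simp only [pair_eq_sum hw, pi2_const_mul, Finset.mul_sum]
  exact Finset.sum_congr rfl fun i _ => by ring

theorem pair_one {Ω : Type*} [Fintype Ω] {w : Ω → ℝ} (hw : Wt w) (L : List (Lv Ω)) (c : ℝ)
    (z : Ω → ℝ) : pair w L 0 (fun _ _ _ => c) z = c := by
  rw [pair_const hw L 0 fun _ => c, ← Finset.sum_mul, sum_dm, ex_length, sub_zero, one_mul]

theorem a_arith {β c0 σ δ n v T r X1 X0 X Ph P S pp qk : ℝ} (hβ : 0 ≤ β) (hc1 : 1 ≤ c0) (hσ : 0 ≤ σ)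
    (hδ : 0 ≤ δ) (hn : 0 ≤ n) (hv : 0 ≤ v) (hr : r ≤ β ^ 2 * n) (hT : T ≤ 4 * v)
    (b1 : 0 ≤ X1 - (β ^ 2 * (1 - qk) - r - c0 * (β ^ 2 * (σ + δ) + (r + T))) * (1 ^ 2 / 2) -
      (X0 - (β ^ 2 * (1 - qk) - r - c0 * (β ^ 2 * (σ + δ) + (r + T))) * (0 ^ 2 / 2)))
    (b3 : X0 + β ^ 2 * (1 - qk) / 2 = X + β * Ph) (b4 : P ≤ Ph - β * (1 - 0 * 0 ^ 2 - S) / 4)
    (b6 : S ≤ pp) :
    X + β * P + β ^ 2 / 4 * (1 - pp) - c0 * (β ^ 2 + 2) * (σ + n + v + δ) ≤ X1 := by
  have b7 := mul_le_mul_of_nonneg_left b4 hβ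
  have b8 := mul_le_mul_of_nonneg_left b6 (sq_nonneg β)
  have e1 : r ≤ c0 * (β ^ 2 * n) := hr.trans (le_mul_of_one_le_left (by positivity) hc1)
  have e2 : β ^ 2 * n + (β ^ 2 * (σ + δ) + (r + T)) ≤ 2 * ((β ^ 2 + 2) * (σ + n + v + δ)) := by
    have := mul_nonneg (sq_nonneg β) hσ
    have := mul_nonneg (sq_nonneg β) hδ
    have := mul_nonneg (sq_nonneg β) hv
    linarith
  have e3 := mul_le_mul_of_nonneg_left e2 (zero_le_one.trans hc1)
  linarith

theorem aStmt (hD : DenStmt) : AStmt := by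
  intro β hβ
  set c0 := 4 * exp (2 * (2 * β ^ 2 + 4)) with hc0
  have hc1 : 1 ≤ c0 := by
    have := add_one_le_exp (2 * (2 * β ^ 2 + 4)); nlinarith [sq_nonneg β]
  refine ⟨c0 * (β ^ 2 + 2), by positivity, fun P hP N k hN s lam hl hs h => ?_⟩
  set ℓ := par k s lam with hℓ
  set L := fL N ℓ with hL
  set p := pj (fun _ => 1) L h with hp
  set q : ℕ → ℝ := fun j => if j = 0 then 0 else p j with hq
  have hp0 : ∀ j, 0 ≤ p j := fun j => pi2_ov_nonneg L j h
  have hp1 : ∀ j, p j ≤ 1 := fun j => pi2_ov_le wt1 L j h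
  have hq0 : q 0 = 0 := rfl
  have hqp : ∀ j, 0 ≤ q j ∧ q j ≤ p j := fun j => by
    simp only [hq]; split_ifs; exacts [⟨le_rfl, hp0 j⟩, ⟨hp0 j, le_rfl⟩]
  have hq1 : ∀ j, q j ≤ 1 := fun j => (hqp j).2.trans (hp1 j)
  have hqm : ∀ j, q j ≤ q (j + 1) := fun j => (hqp j).2.trans (pi2_ov_mono wt1 L j h)
  have hM : Mono 0 L := mono_par N k s lam
  have hpos : ∀ a ∈ ℓ, 0 < a.1 := fun a ha =>
    lt_of_lt_of_le (by positivity) (mem_par N k s lam (List.mem_map_of_mem ha))
  have hlen : ℓ.length = k := by simp [hℓ, par]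
  have hT := tot_par k s hl
  have hT0 := tot_nonneg ℓ
  set σ := sync (fun _ => 1) L h with hσ
  set δ : ℝ := 1 / ((k : ℝ) + 1) with hδ
  have hδ0 : 0 ≤ δ := by positivity
  have hσ0 : 0 ≤ σ := by
    rw [hσ, sync, pair_eq_sum wt1]
    exact Finset.sum_nonneg fun j _ => mul_nonneg (dm_nonneg hM j)
      (pi2_nonneg wt1 L j (fun _ _ => abs_nonneg _) h)
  -- the base functional
  have hq' : pair (fun _ => 1) L 0 (fun j x y => |ov x y - q j|) h ≤ σ + δ := by
    have h1 := pair_mono wt1 hM (K := fun j x y => |ov x y - q j|)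
      (K' := fun j x y => |ov x y - p j| + if j = 0 then 1 else 0) (fun j _ x y => by
        simp only [hq]
        split_ifs with hj
        · have := abs_sub_le (ov x y) (p j) 0
          rw [sub_zero (p j), abs_of_nonneg (hp0 j)] at this
          linarith [hp1 j]
        · simp) h
    rw [Casc.pair_add wt1, pair_const wt1, Finset.sum_range_succ'] at h1
    simpa [hL, hℓ, dm_par N k s lam (Nat.zero_le k), hδ, hσ, sync, hp] using h1
  set G := β ^ 2 * (1 - q k) - β ^ 2 / (N + 1) - c0 * (β ^ 2 * (σ + δ) + (β ^ 2 / (N + 1) + tot ℓ))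
    with hG
  set TA := tz N β :: blk N β ℓ q with hTA
  have hC1 : ∀ l ∈ TA, l.C1 univ := by
    simp only [hTA, List.mem_cons, forall_eq_or_imp]
    exact ⟨⟨fun t _ _ _ => (hasDerivAt_sin t).mul_const _,
      fun _ _ => (continuous_cos.mul continuous_const).continuousOn⟩, blk_C1 ℓ q⟩
  set h' : Cube (N + 1) → ℝ := fun x => h (Fin.tail x) with hh'
  have hder : ∀ t, HasDerivAt (fun t => X (fun _ => 1) (atL TA t) h' - G * (sin t ^ 2 / 2))
      (DX (fun _ => 1) TA t h' 0 - G * (sin t * cos t)) t := fun t => by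
    refine (hasDerivAt_X wt1 isOpen_univ hC1 (mem_univ t) (b := fun _ => h') (b' := 0)
      fun _ => hasDerivAt_const _ _).sub (HasDerivAt.const_mul G ?_)
    refine (((hasDerivAt_sin t).pow 2).div_const 2).congr_deriv ?_
    simp only [Nat.cast_ofNat, Nat.add_one_sub_one, pow_one]
    ring
  have hDX : ∀ t, 0 ≤ sin t * cos t → G * (sin t * cos t) ≤ DX (fun _ => 1) TA t h' 0 := fun t ht => by
    have a1 := hD (Cube N) (Cube (N + 1)) Fin.tail 2 card_tail Od 0 le_rfl od_ge
      (.inr ((tz N β).at t) :: mix N β t ℓ q) (2 * β ^ 2 + 4)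
      ⟨rfl, od_tz t, β ^ 2, cov_tz_le hN t, adm_mix t ℓ q 0 _ hM hqm hq1 (by rw [hq0]; linarith)⟩
      (Sacc TA t) (fun j s s' => sin t * cos t * (β ^ 2 * |ov s s' - q j| + (β ^ 2 / (N + 1) + tot ℓ)))
      (by
        have := rel_mix (N := N) (β := β) (T := tot ℓ) ht ℓ q 0 hqm le_rfl (by simp)
        simp only [Rel, hTA, Sacc_cons, S_tz hN]
        simpa only [hq0, sub_zero, add_zero] using this)
      (fun j x y => by positivity) h 0 0 ⟨0, fun _ => by simp⟩ fun _ => le_rfl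
    have a2 : extL Fin.tail (.inr ((tz N β).at t) :: mix N β t ℓ q) = atL TA t := by
      simp only [extL, ext_mix, hTA, atL, List.map_cons]
    have a3 : pair (fun _ => 1) L 0 (fun j s s' => sin t * cos t * (β ^ 2 * |ov s s' - q j| +
        (β ^ 2 / (N + 1) + tot ℓ))) h = sin t * cos t * (β ^ 2 * pair (fun _ => 1) L 0
          (fun j x y => |ov x y - q j|) h + (β ^ 2 / (N + 1) + tot ℓ)) := by
      rw [pair_cmul wt1, Casc.pair_add wt1, pair_cmul wt1, pair_one wt1]
    simp only [base, base_mix, a2, Pi.zero_apply, add_zero, mul_zero, zero_add] at a1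
    rw [a3] at a1
    have a4 : ∀ x, Sacc TA t TA.length x x =
        sin t * cos t * (β ^ 2 * (1 - q k) - β ^ 2 / (N + 1) + tot ℓ) := fun x => by
      simp only [hTA, List.length_cons, Sacc_cons, S_tz hN, diag_blk t x ℓ q hqm, ov_self hN,
        sv_mul_self, hlen, hq0]
      field_simp
      ring
    rw [DX]
    simp only [a4, Pi.zero_apply, zero_add, ← Finset.sum_mul, sum_P wt1, one_mul]
    have a5 : sin t * cos t * (β ^ 2 * pair (fun _ => 1) L 0 (fun j x y => |ov x y - q j|) h +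
        (β ^ 2 / (N + 1) + tot ℓ)) ≤ sin t * cos t * (β ^ 2 * (σ + δ) + (β ^ 2 / (N + 1) + tot ℓ)) :=
      mul_le_mul_of_nonneg_left (add_le_add (mul_le_mul_of_nonneg_left hq' (sq_nonneg β)) le_rfl) ht
    have a6 := mul_le_mul_of_nonneg_left a5 (zero_le_one.trans hc1)
    have a7 := mul_nonneg ht hT0
    have a8 : ((2 : ℕ) : ℝ) ^ 2 * exp (2 * (2 * β ^ 2 + 4)) = c0 := by rw [hc0]; norm_num
    rw [a8] at a1
    rw [hG]
    linarith
  obtain ⟨t, ht, he⟩ := exists_hasDerivAt_eq_slope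
    (fun t => X (fun _ => 1) (atL TA t) h' - G * (sin t ^ 2 / 2)) _ pi_div_two_pos
    (fun t _ => (hder t).continuousAt.continuousWithinAt) fun t _ => hder t
  have b1 := sub_nonneg.2 (hDX t (mul_nonneg
    (sin_nonneg_of_nonneg_of_le_pi ht.1.le (by linarith [ht.2, pi_pos]))
    (cos_nonneg_of_mem_Icc ⟨by linarith [ht.1, pi_pos], ht.2.le⟩)))
  rw [he, sub_zero, le_div_iff₀ pi_div_two_pos, zero_mul, sin_pi_div_two, sin_zero] at b1
  have b2 : X (fun _ => 1) (atL TA (π / 2)) = X (fun _ => 1) (lz N β :: fL (N + 1) ℓ) := by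
    have := top_blk (N := N) (β := β) ℓ q
    simp only [hTA, atL, List.map_cons, C.X_cons] at this ⊢
    rw [this]
    congr 1
    simp only [tz, TL.at, sin_pi_div_two, one_mul]
    rfl
  have b3 : X (fun _ => 1) (atL TA 0) h' + β ^ 2 * (1 - q k) / 2 =
      X (fun _ => 1) L h + β * Phi β (parF β ℓ q) 0 := by
    have := bot_blk hβ ℓ q 0 hM hpos hqm hq1 h 0
    rw [zero_div, hlen] at this
    rw [← this]
    simp only [hTA, atL, List.map_cons, C.X_cons]
    rw [C.step_of_zero (l := (tz N β).at 0) fun x i => by simp [tz]]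
    congr 2
    funext x; simp [st, hh']
  have b4 := hP _ (good_parF hβ ℓ q 0 hM hpos hqm hq1).1 (by rw [sum_parF, hq0, sub_zero])
  have b5 := pen_parF (N := N) (β := β) ℓ q 0
  have b6 : ∑ j ∈ Finset.range (L.length + 1), dm L 0 j * q j ^ 2 ≤ pp (fun _ => 1) L h := by
    rw [pp, pair_const wt1]
    exact Finset.sum_le_sum fun j _ => mul_le_mul_of_nonneg_left
      (pow_le_pow_left₀ (hqp j).1 (hqp j).2 2) (dm_nonneg hM j)
  rw [hq0] at b5
  rw [b5] at b4
  rw [b2] at b1
  have b9 : β ^ 2 / (N + 1) ≤ β ^ 2 * (1 / N) := by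
    rw [mul_one_div]; exact div_le_div_of_nonneg_left (sq_nonneg β) (by positivity) (by linarith)
  exact a_arith hβ.le hc1 hσ0 hδ0 (by positivity) (by positivity) b9 hT b1 b3 b4 b6

end Crest.Agent.T157.Plb

end
private theorem rz_11c2c9a9c5 : type_of% @_root_.Crest.Agent.T157.Plb.blk.eq_def := @_root_.Crest.Agent.T157.Plb.blk.eq_def -- L44
private theorem rz_aa281e6542 : type_of% @_root_.Crest.Agent.T157.Plb.blk.eq_1 := @_root_.Crest.Agent.T157.Plb.blk.eq_1 -- L44
private theorem rz_250efd035e : type_of% @_root_.Crest.Agent.T157.Plb.mix.eq_def := @_root_.Crest.Agent.T157.Plb.mix.eq_def -- L50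
private theorem rz_de2b797cfe : type_of% @_root_.Crest.Agent.T157.Plb.mix.eq_1 := @_root_.Crest.Agent.T157.Plb.mix.eq_1 -- L50
private theorem rz_e5b996cc1e : type_of% @_root_.Crest.Agent.T157.Plb.parF.eq_def := @_root_.Crest.Agent.T157.Plb.parF.eq_def -- L56
private theorem rz_a808768837 : type_of% @_root_.Crest.Agent.T157.Plb.parF.eq_1 := @_root_.Crest.Agent.T157.Plb.parF.eq_1 -- L56
end

-- ▼ part T157/PlbB_78
section

/-!
# Row 157: the cavity step, change of temperature; one increment (helper78)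
-/

set_option autoImplicit false
set_option linter.unusedSectionVars false

noncomputable section

namespace Crest.Agent.T157.Plb

open MeasureTheory Real Set
open Crest.Agent.T157.E Crest.Agent.T157.Casc Crest.Agent.T157.SL
open Crest.ProbabilityR.SpinGlassDynamics

variable {N : ℕ} {β : ℝ}

theorem sum_pair (hN : 0 < N) (x y : Cube N) :
    ∑ p : Pair N, (sv x p.1.1 * sv x p.1.2) * (sv y p.1.1 * sv y p.1.2) =
      ((N * ov x y) ^ 2 - N) / 2 := by
  have h := sum_sum_eq_two_mul_pair (n := N) (fun i j => (sv x i * sv y i) * (sv x j * sv y j) -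
    if i = j then 1 else 0) (fun i j => by simp only [eq_comm]; ring) fun i => by
      have h1 := sv_mul_self x i
      have h2 := sv_mul_self y i
      rw [if_pos rfl, mul_mul_mul_comm, h1, h2]; ring
  simp only [Finset.sum_sub_distrib, Finset.sum_ite_eq, Finset.mem_univ, if_true, Finset.sum_const,
    Finset.card_univ, Fintype.card_fin, nsmul_eq_mul, mul_one, ← Finset.sum_mul_sum] at h
  rw [Finset.sum_congr rfl fun (p : Pair N) _ => if_neg (ne_of_lt p.2), Finset.sum_const_zero,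
    sub_zero] at h
  rw [ov, mul_div_cancel₀ _ (by positivity), sq, dotProduct, h, mul_div_cancel_left₀ _ two_ne_zero]
  exact Finset.sum_congr rfl fun p _ => by ring

theorem cov_lW (hN : 0 < N) (c : ℝ) (x y : Cube N) :
    (lW N c).cov x y = c ^ 2 / N * (((N * ov x y) ^ 2 - N) / 2) := by
  rw [← sum_pair hN, Finset.mul_sum]
  refine Finset.sum_congr rfl fun p _ => ?_
  have : c ^ 2 / N = (c / √(N : ℝ)) ^ 2 := by rw [div_pow, sq_sqrt (by positivity)]
  rw [this]; ring

/-- the SK level with the inverse temperature as a parameter -/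
def tW (N : ℕ) : TL (Cube N) :=
  ⟨Pair N, fun t x p => t / √N * (sv x p.1.1 * sv x p.1.2),
    fun _ x p => 1 / √N * (sv x p.1.1 * sv x p.1.2), 0⟩

theorem hasDerivAt_W (hN : 0 < N) (L : List (Lv (Cube N))) (t : ℝ) :
    HasDerivAt (fun t => X (fun _ => 1) (lW N t :: L) 0) (t * N / 2 * (1 - ∫ g, pair (fun _ => 1) L 0
      (fun _ x y => ov x y ^ 2) ((lW N t).fld g) ∂gv (Pair N))) t := by
  have h := hasDerivAt_X wt1 isOpen_univ (L := tW N :: L.map Lv.cst) (fun l hl => by
    rcases List.mem_cons.1 hl with rfl | hl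
    · exact ⟨fun t _ x i => ((hasDerivAt_id t).div_const _).mul_const _,
        fun _ _ => continuousOn_const⟩
    · obtain ⟨l', -, rfl⟩ := List.mem_map.1 hl
      exact cst_C1 _ _) (mem_univ t) (b := fun _ => 0) (b' := fun _ => 0)
    fun _ => hasDerivAt_const _ _
  have e : ∀ t, atL (tW N :: L.map Lv.cst) t = lW N t :: L := fun t => by
    have := atL_cst L t
    simp only [atL, List.map_cons] at this ⊢
    rw [this]; rfl
  have hN' : (0 : ℝ) < N := by positivity
  have hS : (tW N).S t = fun x y => t * N / 2 * ov x y ^ 2 + -(t / 2) := by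
    funext x y
    have e1 : (tW N).S t x y = t / N *
        ∑ p : Pair N, (sv x p.1.1 * sv x p.1.2) * (sv y p.1.1 * sv y p.1.2) := by
      rw [Finset.mul_sum]
      refine Finset.sum_congr rfl fun p _ => ?_
      have : t / N = 1 / √(N : ℝ) * (t / √N) := by
        rw [div_mul_div_comm, mul_self_sqrt hN'.le, one_mul]
      rw [this]; simp only [tW]; ring
    rw [e1, sum_pair hN]; field_simp; ring
  simp only [e] at h
  refine h.congr_deriv ?_
  rw [DX, e]
  simp only [List.length_cons, Sacc_cons, Sacc_cst, hS, pair, Sacc_zero, add_zero, zero_add,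
    ov_self hN, sub_self, zero_mul, ← Finset.sum_mul, sum_P wt1, one_mul]
  rw [C.tE_zero rfl]
  simp only [zero_add, Casc.pair_add wt1, pair_cmul wt1, pair_one wt1]
  have hi := (eg_pair wt1 L 0 fun _ x y => ov x y ^ 2).int (lW N t) 0
  simp only [zero_add] at hi
  rw [integral_add (hi.const_mul _) (integrable_const _), integral_const_mul]
  simp only [integral_const, probReal_univ, smul_eq_mul]
  ring

theorem adm_inl {Ω Ω' : Type} (C : (Ω' → ℝ) → Prop) : ∀ (L : List (Lv Ω)) (m0 : ℝ), Mono m0 L →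
    Adm C m0 0 (L.map Sum.inl)
  | [], _, h => ⟨h, le_rfl⟩
  | l :: L, _, h => ⟨h.1, adm_inl C L l.m h.2⟩

theorem rel_inl {Ω : Type} : ∀ (L : List (Lv Ω)) (K : ℕ → Ω → Ω → ℝ), Rel id (L.map Sum.inl) K K
  | [], _ => fun _ _ => le_rfl
  | _ :: L, _ => ⟨fun _ _ => le_rfl, rel_inl L _⟩

theorem ext_inl {Ω : Type} : ∀ L : List (Lv Ω), extL id (L.map Sum.inl) = L
  | [] => rfl
  | l :: L => by rw [List.map_cons, extL, ext_inl L]; rfl

theorem base_inl {Ω Ω' : Type} : ∀ L : List (Lv Ω),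
    base (L.map Sum.inl : List (Lv Ω ⊕ Lv Ω')) = L
  | [] => rfl
  | l :: L => by rw [List.map_cons, base, base_inl L]

/-- a bounded change of the Hamiltonian -/
theorem pair_shift (hD : DenStmt) {Ω : Type} [Fintype Ω] [Nonempty Ω] {L : List (Lv Ω)}
    (hL : Mono 0 L) {K : ℕ → Ω → Ω → ℝ} (hK : ∀ j x y, 0 ≤ K j x y) (h b : Ω → ℝ) {κ : ℝ}
    (hb : ∀ x, |b x| ≤ κ) :
    pair (fun _ => 1) L 0 K (h + b) ≤ exp (4 * κ) * pair (fun _ => 1) L 0 K h := by
  classical
  have := hD Ω Ω id 1 (fun s => Finset.card_le_one.2 fun a ha b hb =>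
    (Finset.mem_filter.1 ha).2.trans (Finset.mem_filter.1 hb).2.symm) (· = b) κ
    ((abs_nonneg _).trans (hb (Classical.arbitrary _))) (fun h b' hb' => by
      rw [sub_le_iff_le_add, hb']
      exact X_le_add wt1 [] fun x _ => by have := neg_abs_le (b x); have := hb x; simp; linarith)
    (L.map Sum.inl) 0 (adm_inl _ L 0 hL) K K (rel_inl L K) hK h b κ rfl
    fun x => (le_abs_self _).trans (hb x)
  rw [ext_inl, base_inl] at this
  have e : ((1 : ℕ) : ℝ) ^ 2 * exp (2 * κ + 2 * 0 + 2 * κ) = exp (4 * κ) := by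
    rw [Nat.cast_one, one_pow, one_mul]; congr 1; ring
  rw [e] at this
  exact this

theorem eg_pp {w : Cube N → ℝ} (hw : Wt w) (L : List (Lv (Cube N))) : Eg (pp w L) := by
  have : pp w L = fun h => ∑ j ∈ Finset.range (L.length + 1), dm L 0 j * pi2 w L j ov h ^ 2 :=
    funext fun h => pair_const hw L 0 _ h
  rw [this]
  exact Eg.sum _ fun j _ => ((eg_pi2 hw L j ov).pow 2).const_mul _

theorem pp_le_one {w : Cube N → ℝ} (hw : Wt w) {L : List (Lv (Cube N))} (hL : Mono 0 L)
    (h : Cube N → ℝ) : pp w L h ≤ 1 :=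
  (pair_mono hw hL (K' := fun _ _ _ => 1) (fun j _ _ _ =>
    pow_le_one₀ (pi2_ov_nonneg L j h) (pi2_ov_le hw L j h)) h).trans (pair_one hw L 1 h).le

theorem sync_nonneg {w : Cube N → ℝ} (hw : Wt w) {L : List (Lv (Cube N))} (hL : Mono 0 L)
    (h : Cube N → ℝ) : 0 ≤ sync w L h :=
  (pair_one hw L 0 h).ge.trans (pair_mono hw hL (fun _ _ _ _ => abs_nonneg _) h)

theorem eg_om (N : ℕ) : Eg (om N) :=
  ⟨by unfold om; fun_prop, 1, 4 / N, zero_le_one, by positivity, fun h => by
    rw [om, abs_of_pos (exp_pos _), one_mul]; exact le_of_eq (by congr 1; ring)⟩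

theorem one_le_om (h : Cube N → ℝ) : 1 ≤ om N h := one_le_exp (by positivity)

theorem Eg.int0 {Ω : Type*} [Fintype Ω] {Φ : (Ω → ℝ) → ℝ} (h : Eg Φ) (l : Lv Ω) :
    Integrable (fun g => Φ (l.fld g)) (gv l.ι) := by simpa using h.int l 0

theorem bStmt (hD : DenStmt) : BStmt := by
  intro β hβ N k hN s lam Em hE hEm β' hβ'
  set L := fL N (par k s lam) with hL
  have hM : Mono 0 L := mono_par N k s lam
  have hN' : (0 : ℝ) < N := by positivity
  set r := √((N : ℝ) / (N + 1)) with hr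
  have hr2 : r ^ 2 = N / (N + 1) := sq_sqrt (by positivity)
  have hr0 : 0 < r := sqrt_pos.2 (by positivity)
  have hr1 : r < 1 := by
    rw [hr, sqrt_lt' one_pos, one_pow, div_lt_one (by positivity)]; linarith
  have h0 : 0 < β' := by rw [hβ']; positivity
  have h1 : β' < β := by rw [hβ']; exact mul_lt_of_lt_one_right hβ hr1
  have h2 : β / β' - 1 ≤ 1 / N := by
    have : N / (N + 1) ≤ r := by rw [← hr2]; nlinarith
    rw [div_le_iff₀ (by positivity)] at this
    rw [hβ', sub_le_iff_le_add, div_le_iff₀ (by positivity)]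
    have e : (1 / (N : ℝ) + 1) * (β * r) = β * (r * (N + 1) / N) := by field_simp; ring
    rw [e]
    exact le_mul_of_one_le_right hβ.le (by rwa [le_div_iff₀ hN', one_mul])
  set I1 := ∫ g, (1 - pp (fun _ => 1) L ((lW N β').fld g)) ∂gv (Pair N) with hI1
  set I2 := ∫ g, om N ((lW N β').fld g) * Em ((lW N β').fld g) ∂gv (Pair N) with hI2
  have hI10 : 0 ≤ I1 := integral_nonneg fun g => sub_nonneg.2 (pp_le_one wt1 hM _)
  have hI20 : 0 ≤ I2 := integral_nonneg fun g =>
    mul_nonneg (exp_pos _).le ((sync_nonneg wt1 hM _).trans (hEm _))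
  have key : ∀ t ∈ Ioo β' β, 1 - ∫ g, pair (fun _ => 1) L 0 (fun _ x y => ov x y ^ 2)
      ((lW N t).fld g) ∂gv (Pair N) ≤ I1 + 2 * I2 := fun t ht => by
    have i1 := Eg.int0 ((Eg.const 1).sub (eg_pp wt1 L)) (lW N β')
    have i2 := Eg.int0 ((eg_om N).mul hE) (lW N β')
    have i3 := Eg.int0 (eg_pair wt1 L 0 fun _ x y => ov x y ^ 2) (lW N t)
    have e : (1 : ℝ) = ∫ _g, 1 ∂gv (Pair N) := by simp
    rw [hI1, hI2, ← integral_const_mul, ← integral_add i1 (i2.const_mul _)]
    nth_rewrite 1 [e]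
    rw [← integral_sub (integrable_const _) i3]
    refine integral_mono ((integrable_const _).sub i3) (i1.add (i2.const_mul _)) fun g => ?_
    set H := (lW N β').fld g with hH
    have a1 : (lW N t).fld g = H + (t / β' - 1) • H := by
      funext x
      simp only [hH, Pi.add_apply, Pi.smul_apply, smul_eq_mul, Lv.fld, Finset.mul_sum,
        ← Finset.sum_add_distrib]
      exact Finset.sum_congr rfl fun p _ => by field_simp; ring
    have a2 := pair_shift hD hM (K := fun j x y => |ov x y - pj (fun _ => 1) L H j|)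
      (fun _ _ _ => abs_nonneg _) H ((t / β' - 1) • H) (κ := ‖H‖ / N) fun x => by
        have b1 : 0 ≤ t / β' - 1 := by rw [sub_nonneg, le_div_iff₀ h0]; linarith [ht.1]
        have b2 : t / β' - 1 ≤ 1 / N :=
          le_trans (sub_le_sub_right (div_le_div_of_nonneg_right ht.2.le h0.le) 1) h2
        rw [Pi.smul_apply, smul_eq_mul, abs_mul, abs_of_nonneg b1, div_eq_inv_mul ‖H‖, ← one_div]
        exact mul_le_mul b2 (norm_le_pi_norm H x) (abs_nonneg _) (by positivity)
    have a3 := pair_mono wt1 hM (K := fun j _ _ => pj (fun _ => 1) L H j ^ 2)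
      (K' := fun j x y => ov x y ^ 2 + 2 * |ov x y - pj (fun _ => 1) L H j|) (fun j _ x y => by
        have b1 := abs_le.1 (abs_ov_le x y)
        have b2 : 0 ≤ pj (fun _ => 1) L H j := pi2_ov_nonneg L j H
        have b3 : pj (fun _ => 1) L H j ≤ 1 := pi2_ov_le wt1 L j H
        have b4 := neg_abs_le (ov x y - pj (fun _ => 1) L H j)
        have b5 := le_abs_self (ov x y - pj (fun _ => 1) L H j)
        rcases le_total 0 (ov x y + pj (fun _ => 1) L H j) with b6 | b6 <;> nlinarith)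
      (H + (t / β' - 1) • H)
    rw [Casc.pair_add wt1, pair_cmul wt1, pair_const wt1, ← pair_const wt1 L 0 _ H] at a3
    have a4 := mul_le_mul_of_nonneg_left (hEm H) (exp_pos (4 * (‖H‖ / N))).le
    have a5 : om N H = exp (4 * (‖H‖ / N)) := by rw [om, mul_div_assoc]
    simp only [a1, a5, pp]
    simp only [sync] at a4
    linarith
  obtain ⟨t, ht, he⟩ := exists_hasDerivAt_eq_slope
    (fun t => X (fun _ => 1) (lW N t :: L) 0 - (I1 + 2 * I2) * N / 4 * t ^ 2) _ h1
    (fun t _ => ((hasDerivAt_W hN L t).sub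
      ((hasDerivAt_pow 2 t).const_mul _)).continuousAt.continuousWithinAt)
    fun t _ => (hasDerivAt_W hN L t).sub ((hasDerivAt_pow 2 t).const_mul _)
  have b1 := mul_le_mul_of_nonneg_left (key t ht) (show 0 ≤ t * N / 2 by
    have := h0.trans ht.1; positivity)
  rw [eq_div_iff (sub_pos.2 h1).ne'] at he
  have b2 : X (fun _ => 1) (lW N β :: L) 0 - (I1 + 2 * I2) * N / 4 * β ^ 2 -
      (X (fun _ => 1) (lW N β' :: L) 0 - (I1 + 2 * I2) * N / 4 * β' ^ 2) ≤ 0 := by
    rw [← he]
    refine mul_nonpos_of_nonpos_of_nonneg ?_ (sub_pos.2 h1).le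
    simp only [Nat.cast_ofNat, Nat.add_one_sub_one, pow_one]
    linarith
  have b3 : N * (β ^ 2 - β' ^ 2) ≤ β ^ 2 := by
    have : N * (β ^ 2 - β' ^ 2) = β ^ 2 * (N / (N + 1)) := by
      rw [hβ', mul_pow, hr2]; field_simp; ring
    rw [this]
    exact mul_le_of_le_one_right (sq_nonneg _) (by rw [div_le_one (by positivity)]; linarith)
  have b4 := mul_le_mul_of_nonneg_left b3 (show 0 ≤ I1 + 2 * I2 by positivity)
  linarith

/-- the SK level of `N + 1` spins splits into the level of `N` spins and the cavity level -/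
theorem split_W (hN : 0 < N) (L : List (Lv (Cube (N + 1)))) {β' : ℝ}
    (hβ' : β' = β * √(N / (N + 1))) : X (fun _ => 1) (lW (N + 1) β :: L) 0 =
      ∫ g, X (fun _ => 1) (lz N β :: L) (fun x => (lW N β').fld g (Fin.tail x)) ∂gv (Pair N) := by
  rw [C.X_split wt1 (l := lW (N + 1) β) (l1 := pull Fin.tail (lW N β')) (l2 := lz N β) rfl rfl
    fun x y => ?_, C.X_cons, C.step_zero rfl]
  · simp only [zero_add]; rfl
  · have h : (β / √((N : ℝ) + 1)) ^ 2 = β ^ 2 / (N + 1) := by rw [div_pow, sq_sqrt (by positivity)]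
    have e1 : (lz N β).cov x y = (sv x 0 * sv y 0) * ((β / √((N : ℝ) + 1)) ^ 2 *
        ∑ i : Fin N, sv x i.succ * sv y i.succ) := by
      simp only [Lv.cov, Finset.mul_sum]
      exact Finset.sum_congr rfl fun i _ => by ring
    have e2 : (pull (Ω' := Cube (N + 1)) Fin.tail (lW N β')).cov x y =
      (lW N β').cov (Fin.tail x) (Fin.tail y) := rfl
    have e3 : ((N + 1 : ℕ) : ℝ) * ov x y = sv x 0 * sv y 0 + N * ov (Fin.tail x) (Fin.tail y) := by
      rw [← sum_tail hN, ov, mul_div_cancel₀ _ (by positivity), dotProduct, Fin.sum_univ_succ]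
    have e4 : (sv x 0 * sv y 0) ^ 2 = 1 := by rw [mul_pow, sv_sq, sv_sq, one_mul]
    rw [e1, e2, cov_lW hN, cov_lW (Nat.succ_pos N), e3, h, sum_tail hN, hβ', mul_pow,
      sq_sqrt (by positivity), add_sq, e4]
    push_cast
    field_simp
    ring

end Crest.Agent.T157.Plb

end
end

-- ▼ part T157/PlbCmp_33
section

/-!
# Row 157: `CmpStmt`, `FlatStmt`, `OmStmt` (helper33)
-/

set_option autoImplicit false
set_option linter.unusedSectionVars false

noncomputable section

namespace Crest.Agent.T157.Plb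

open MeasureTheory Real
open Crest.Agent.T157.E Crest.Agent.T157.Casc Crest.Agent.T157.SL
open Crest.ProbabilityR.SpinGlassDynamics

namespace C33

variable {Ω : Type} [Fintype Ω] {w : Ω → ℝ}

theorem eg_exp {a : (Ω → ℝ) → ℝ} {A : ℝ} (hc : Continuous a) (hA : ∀ h, |a h| ≤ A) (ζ : ℝ) :
    Eg fun h => exp (ζ * a h) :=
  (Lg.of hc A 0 fun z => by simpa using hA z).exp ζ

theorem node_jensen (hw : Wt w) {a : (Ω → ℝ) → ℝ} {A : ℝ} (hc : Continuous a)
    (hA : ∀ h, |a h| ≤ A) (ζ : ℝ) (L : List (Lv Ω)) (j : ℕ) (h : Ω → ℝ) :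
    exp (ζ * node w L j a h) ≤ node w L j (fun z => exp (ζ * a z)) h := by
  have ha : Eg a := Eg.of_bdd hc A hA
  set c := node w L j a h with hcd
  have h1 := node_mono hw (Φ := fun z => exp (ζ * c) * (ζ * a z + (1 - ζ * c)))
    (((ha.const_mul ζ).add (Eg.const _)).const_mul _) (eg_exp hc hA ζ) (fun z => by
      have := mul_le_mul_of_nonneg_left (add_one_le_exp (ζ * a z - ζ * c)) (exp_pos (ζ * c)).le
      rw [← exp_add, add_sub_cancel] at this
      linarith) L j h
  rw [node_const_mul, node_add hw (ha.const_mul ζ) (Eg.const _), node_const_mul, node_const hw] at h1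
  simpa [← hcd] using h1

theorem node_pos (hw : Wt w) {a : (Ω → ℝ) → ℝ} {A : ℝ} (hc : Continuous a)
    (hA : ∀ h, |a h| ≤ A) (ζ : ℝ) (L : List (Lv Ω)) (j : ℕ) (h : Ω → ℝ) :
    0 < node w L j (fun z => exp (ζ * a z)) h :=
  (exp_pos _).trans_le (node_jensen hw hc hA ζ L j h)

theorem step_cmp {F G Y : (Ω → ℝ) → ℝ} (hF : Lg F) (hG : Lg G) (hY : Eg Y) (hY0 : ∀ z, 0 < Y z)
    {l : Lv Ω} {ζ : ℝ} (hζ : 0 < ζ) (hm : ζ ≤ l.m) (e : ∀ z, F z + ζ⁻¹ * log (Y z) ≤ G z)
    (z : Ω → ℝ) (hT : 0 < tE l F Y z) : step l F z + ζ⁻¹ * log (tE l F Y z) ≤ step l G z := by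
  have hm0 : 0 < l.m := hζ.trans_le hm
  have hZ := hF.Z_pos l z
  set T := tE l F Y z with hTd
  set r := l.m / ζ with hr
  have hr1 : 1 ≤ r := by rw [hr, le_div_iff₀ hζ]; linarith
  have key : exp (r * log T) * ∫ g, exp (l.m * F (z + l.fld g)) ∂gv l.ι ≤
      ∫ g, exp (l.m * G (z + l.fld g)) ∂gv l.ι := by
    have e1 : tE l F (fun y => exp (r * log T) * (r / T * Y y + (1 - r))) z = exp (r * log T) := by
      rw [tE_const_mul, tE_add hF (hY.const_mul _) (Eg.const _), tE_const hF, tE_const_mul, ← hTd]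
      field_simp; ring
    rw [← e1, tE, div_mul_cancel₀ _ hZ.ne']
    refine integral_mono (hF.int (((hY.const_mul _).add (Eg.const _)).const_mul _) l z)
      ((hG.exp l.m).int l z) fun g => ?_
    have y0 := hY0 (z + l.fld g)
    have b := one_add_mul_self_le_rpow_one_add (s := Y (z + l.fld g) / T - 1)
      (by linarith [div_pos y0 hT]) hr1
    rw [add_sub_cancel, rpow_def_of_pos (div_pos y0 hT), log_div y0.ne' hT.ne'] at b
    have e2 : exp (l.m * F (z + l.fld g)) * (exp (r * log T) *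
        exp ((log (Y (z + l.fld g)) - log T) * r)) ≤ exp (l.m * G (z + l.fld g)) := by
      rw [← exp_add, ← exp_add, exp_le_exp]
      have := mul_le_mul_of_nonneg_left (e (z + l.fld g)) hm0.le
      have e3 : r * log (Y (z + l.fld g)) = l.m * (ζ⁻¹ * log (Y (z + l.fld g))) := by
        rw [hr]; ring
      linarith
    refine le_trans ?_ e2
    simp only
    gcongr
    refine le_trans (le_of_eq ?_) b
    ring
  have := log_le_log (by positivity) key
  rw [log_mul (exp_pos _).ne' hZ.ne', log_exp] at this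
  simp only [step, if_neg hm0.ne']
  have e4 : ζ⁻¹ * log T = l.m⁻¹ * (r * log T) := by rw [hr]; field_simp
  rw [e4, ← mul_add]
  exact mul_le_mul_of_nonneg_left (by linarith) (inv_pos.2 hm0).le

theorem cmp_aux (hw : Wt w) (L₂ Lp : List (Lv Ω)) {ζ : ℝ} (hζ : 0 < ζ) {a : (Ω → ℝ) → ℝ} {A : ℝ}
    (hc : Continuous a) (hA : ∀ h, |a h| ≤ A) (e : ∀ h, X w L₂ h + a h ≤ X w Lp h) :
    ∀ L₁ : List (Lv Ω), (∀ l ∈ L₁, ζ ≤ l.m) → ∀ h, X w (L₁ ++ L₂) h +
      ζ⁻¹ * log (node w (L₁ ++ L₂) L₁.length (fun z => exp (ζ * a z)) h) ≤ X w (L₁ ++ Lp) h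
  | [], _, h => by
    have : node w ([] ++ L₂) ([] : List (Lv Ω)).length (fun z => exp (ζ * a z)) h =
      exp (ζ * a h) := by cases L₂ <;> rfl
    rw [this, log_exp, inv_mul_cancel_left₀ hζ.ne']
    exact e h
  | l :: L₁, hL, h =>
    step_cmp (lg_X hw _) (lg_X hw _) ((eg_exp hc hA ζ).node hw _ _) (node_pos hw hc hA ζ _ _) hζ
      (hL l (by simp)) (cmp_aux hw L₂ Lp hζ hc hA e L₁ fun k hk => hL k (by simp [hk])) h
      (node_pos hw hc hA ζ (l :: (L₁ ++ L₂)) (L₁.length + 1) h)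

end C33

open C33

theorem cmpStmt : CmpStmt := by
  intro Ω _ w hw L₁ L₂ Lp Lm ζ hζ hL _ _ _ a A hc hA hp hm h
  have hA' : ∀ h, |(-a h)| ≤ A := fun h => by rw [abs_neg]; exact hA h
  have hc' : Continuous fun z => -a z := hc.neg
  have h1 := cmp_aux hw L₂ Lp hζ hc hA hp L₁ hL h
  have h2 := cmp_aux hw L₂ Lm hζ hc' hA' (fun h => by
    simpa [sub_eq_add_neg] using hm h) L₁ hL h
  have j1 := node_jensen hw hc hA ζ (L₁ ++ L₂) L₁.length h
  have j2 := node_jensen hw hc' hA' ζ (L₁ ++ L₂) L₁.length h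
  have e0 : node w (L₁ ++ L₂) L₁.length (fun z => -a z) h = -node w (L₁ ++ L₂) L₁.length a h := by
    simpa using congrFun (node_const_mul w a (-1) (L₁ ++ L₂) L₁.length) h
  set c := node w (L₁ ++ L₂) L₁.length a h with hcd
  have j3 := node_jensen hw (a := fun z => |a z - c|) (A := A + |c|)
    ((hc.sub continuous_const).abs) (fun z => by
      rw [abs_abs]; exact (abs_sub _ _).trans (by linarith [hA z])) ζ (L₁ ++ L₂) L₁.length h
  have j4 := node_mono hw (Φ := fun z => exp (ζ * |a z - c|))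
    (Φ' := fun z => exp (-(ζ * c)) * exp (ζ * a z) + exp (ζ * c) * exp (ζ * -a z))
    (eg_exp ((hc.sub continuous_const).abs) (A := A + |c|) (fun z => by
      rw [abs_abs]; exact (abs_sub _ _).trans (by linarith [hA z])) ζ)
    (((eg_exp hc hA ζ).const_mul _).add ((eg_exp hc' hA' ζ).const_mul _)) (fun z => by
      rw [← exp_add, ← exp_add]
      rcases abs_cases (a z - c) with h | h <;> rw [h.1]
      · refine le_add_of_le_of_nonneg (le_of_eq ?_) (exp_pos _).le; congr 1; ring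
      · refine le_add_of_nonneg_of_le (exp_pos _).le (le_of_eq ?_); congr 1; ring)
    (L₁ ++ L₂) L₁.length h
  rw [node_add hw ((eg_exp hc hA ζ).const_mul _) ((eg_exp hc' hA' ζ).const_mul _),
    node_const_mul, node_const_mul] at j4
  simp only at j4
  rw [e0] at j2
  set α := node w (L₁ ++ L₂) L₁.length (fun z => exp (ζ * a z)) h
  set β := node w (L₁ ++ L₂) L₁.length (fun z => exp (ζ * -a z)) h
  have α0 : 0 < α := (exp_pos _).trans_le j1
  have β0 : 0 < β := (exp_pos _).trans_le j2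
  have e1 : exp (-(ζ * c)) * exp (ζ * c) = 1 := by rw [← exp_add]; simp
  rw [mul_neg] at j2
  have j5 : exp (-(ζ * c)) * α + exp (ζ * c) * β ≤ 2 * (α * β) := by
    nlinarith [mul_le_mul_of_nonneg_right j1 β0.le, mul_le_mul_of_nonneg_right j2 α0.le]
  have j6 := log_le_log (exp_pos _) (j3.trans (j4.trans j5))
  rw [log_exp, log_mul two_ne_zero (by positivity), log_mul α0.ne' β0.ne'] at j6
  have k1 := mul_le_mul_of_nonneg_left h1 hζ.le
  have k2 := mul_le_mul_of_nonneg_left h2 hζ.le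
  rw [mul_add, mul_inv_cancel_left₀ hζ.ne'] at k1 k2
  linarith

theorem flatStmt : FlatStmt := by
  classical
  intro k M hM Ψ Lp hLp hΨ
  have hM0 : (2 : ℝ) ≤ M := by exact_mod_cast hM
  set lam : (Fin k → Fin (M + 1)) → ℕ → ℝ :=
    fun i j => if h : j < k then 1 + ((i ⟨j, h⟩ : ℕ) : ℝ) / M else 1 with hlam
  have hv : ∀ v : Fin (M + 1), 0 ≤ ((v : ℕ) : ℝ) / M ∧ ((v : ℕ) : ℝ) / M ≤ 1 := fun v =>
    ⟨by positivity, by
      rw [div_le_one (by linarith)]; exact_mod_cast Nat.lt_succ_iff.1 v.2⟩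
  have hbox : ∀ i, Box (lam i) := fun i j => by
    simp only [hlam]
    split_ifs with h
    · constructor <;> linarith [hv (i ⟨j, h⟩)]
    · norm_num
  have hupd : ∀ i (j : Fin k) v, lam (Function.update i j v) =
      Function.update (lam i) j (1 + ((v : ℕ) : ℝ) / M) := by
    intro i j v
    funext t
    by_cases ht : t = j
    · subst ht; simp [hlam]
    · rw [Function.update_of_ne ht]
      simp only [hlam]
      split_ifs with h
      · rw [Function.update_of_ne fun e => ht (congrArg Fin.val e)]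
      · rfl
  set φ : Fin (M + 1) → ℝ := fun v => (((v : ℕ) : ℝ) / M - 1 / 2) ^ 2 with hφ
  obtain ⟨i, hi⟩ := Finite.exists_max fun i : Fin k → Fin (M + 1) =>
    Ψ (lam i) - 4 * Lp * ∑ j, φ (i j)
  have key : ∀ (j : Fin k) (v : Fin (M + 1)),
      Ψ (Function.update (lam i) j (1 + ((v : ℕ) : ℝ) / M)) - Ψ (lam i) ≤
        4 * Lp * (φ v - φ (i j)) := by
    intro j v
    have h := hi (Function.update i j v)
    have e : ∑ t, φ (Function.update i j v t) = ∑ t, φ (i t) + (φ v - φ (i j)) := by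
      rw [← Finset.add_sum_erase _ _ (Finset.mem_univ j),
        ← Finset.add_sum_erase _ (fun t => φ (i t)) (Finset.mem_univ j), Function.update_self,
        Finset.sum_congr rfl fun t ht => by
          rw [Function.update_of_ne (Finset.ne_of_mem_erase ht)]]
      ring
    rw [hupd, e] at h
    linarith
  refine ⟨lam i, hbox i, fun j hj => ?_⟩
  have hj' : lam i j = 1 + ((i ⟨j, hj⟩ : ℕ) : ℝ) / M := by simp [hlam, hj]
  have hu : 0 < 1 / (M : ℝ) := by positivity
  have hu2 : 1 / (M : ℝ) ≤ 1 / 2 := one_div_le_one_div_of_le two_pos hM0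
  have lip : ∀ v : Fin (M + 1), -(Lp * |((v : ℕ) : ℝ) / M - ((i ⟨j, hj⟩ : ℕ) : ℝ) / M|) ≤
      4 * Lp * (φ v - φ (i ⟨j, hj⟩)) := fun v => by
    have h := hΨ (lam i) j (1 + ((v : ℕ) : ℝ) / M) (lam i j) (hbox i) (by linarith [hv v])
      (by linarith [hv v]) (hbox i j).1 (hbox i j).2
    rw [Function.update_eq_self, hj', add_sub_add_left_eq_sub] at h
    exact le_trans (abs_le.1 h).1 (key ⟨j, hj⟩ v)
  obtain ⟨t, ht⟩ : ∃ t, t = i ⟨j, hj⟩ := ⟨_, rfl⟩
  rw [← ht] at lip hj'
  have h0 : (t : ℕ) ≠ 0 := fun h0 => by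
    have := lip ⟨1, by omega⟩
    simp only [hφ, h0, Nat.cast_one, Nat.cast_zero, zero_div, sub_zero, abs_of_pos hu] at this
    nlinarith [mul_pos hLp hu]
  have hM' : (t : ℕ) ≠ M := fun h0 => by
    have := lip ⟨M - 1, by omega⟩
    have e1 : ((M - 1 : ℕ) : ℝ) / M = 1 - 1 / M := by
      rw [Nat.cast_sub (by omega)]; field_simp; simp
    have e2 : (M : ℝ) / M = 1 := div_self (by linarith)
    simp only [hφ, h0, e1, e2, sub_sub_cancel_left, abs_neg, abs_of_pos hu] at this
    nlinarith [mul_pos hLp hu]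
  have k1 := key ⟨j, hj⟩ ⟨t + 1, by omega⟩
  have k2 := key ⟨j, hj⟩ ⟨t - 1, by omega⟩
  have e1 : (((t : ℕ) + 1 : ℕ) : ℝ) / M = ((t : ℕ) : ℝ) / M + 1 / M := by push_cast; ring
  have e2 : (((t : ℕ) - 1 : ℕ) : ℝ) / M = ((t : ℕ) : ℝ) / M - 1 / M := by
    rw [Nat.cast_sub (by omega)]; push_cast; ring
  simp only [hφ, ← ht, e1, e2] at k1 k2
  rw [d2, hj', add_assoc 1, add_sub_assoc 1]
  have e3 : 8 * Lp / (M : ℝ) ^ 2 = 8 * Lp * (1 / M) ^ 2 := by ring
  rw [e3]
  linarith

theorem omStmt : OmStmt := by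
  classical
  intro N hN β
  have hN' : (0 : ℝ) < N := by exact_mod_cast hN
  have hcard : 2 * (Fintype.card (Pair N) : ℝ) ≤ (N : ℝ) ^ 2 := by
    have h := sum_sum_eq_two_mul_pair (n := N) (fun i j => if i = j then (0 : ℝ) else 1)
      (fun i j => by simp [eq_comm]) (fun i => by simp)
    have h2 : ∑ p : Pair N, (if p.1.1 = p.1.2 then (0 : ℝ) else 1) = Fintype.card (Pair N) := by
      rw [Finset.sum_congr rfl fun p _ => if_neg (ne_of_lt p.2)]; simp
    rw [← h2, ← h]
    calc _ ≤ ∑ _i : Fin N, ∑ _j : Fin N, (1 : ℝ) :=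
          Finset.sum_le_sum fun i _ => Finset.sum_le_sum fun j _ => by split_ifs <;> norm_num
      _ = _ := by simp [sq]
  have hm : ∀ (x : Cube N) (s : ℝ), s ^ 2 = 16 → Integrable (fun g => exp (s * (lW N β).fld g x))
      (gv (Pair N)) ∧ ∫ g, exp (s * (lW N β).fld g x) ∂gv (Pair N) ≤ exp (4 * β ^ 2 * N) := by
    intro x s hs
    have hl := Conc.elip_dot ((lW N β).A x)
    refine ⟨hl.integrable_exp s, ?_⟩
    have h := Conc.mgf_lip hl s
    have e0 : ∫ y : Pair N → ℝ, ∑ i, (lW N β).A x i * y i ∂gv (Pair N) = 0 := by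
      rw [integral_finsetSum _ fun i _ => (R339.Guerra.integrable_coord i).const_mul _]
      simp [integral_const_mul, R339.Guerra.integral_coord]
    rw [e0] at h
    simp only [sub_zero] at h
    refine h.trans (exp_le_exp.2 ?_)
    rw [Conc.en_sq, hs]
    have e1 : ∑ i, (lW N β).A x i ^ 2 = Fintype.card (Pair N) * (β ^ 2 / N) := by
      simp only [mul_pow, div_pow, sq_sqrt hN'.le, sv, spin_sq, mul_one]
      simp
    rw [e1]
    have : (N : ℝ) ^ 2 * (β ^ 2 / N) = β ^ 2 * N := by field_simp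
    nlinarith [mul_le_mul_of_nonneg_right hcard (by positivity : 0 ≤ β ^ 2 / N)]
  set a := 2 * exp (4 * β ^ 2) with ha
  have ha0 : 0 < a := by positivity
  have i1 : Integrable (fun g => ∑ x : Cube N, (exp (4 * (lW N β).fld g x) +
      exp (-4 * (lW N β).fld g x))) (gv (Pair N)) :=
    integrable_finsetSum _ fun x _ => (hm x 4 (by norm_num)).1.add (hm x (-4) (by norm_num)).1
  have i2 : ∫ g, ∑ x : Cube N, (exp (4 * (lW N β).fld g x) + exp (-4 * (lW N β).fld g x))
      ∂gv (Pair N) ≤ 2 * a ^ N := by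
    rw [integral_finsetSum (f := fun x g => exp (4 * (lW N β).fld g x) +
      exp (-4 * (lW N β).fld g x)) _ fun x _ =>
        (hm x 4 (by norm_num)).1.add (hm x (-4) (by norm_num)).1]
    calc _ ≤ ∑ _x : Cube N, 2 * exp (4 * β ^ 2 * N) := Finset.sum_le_sum fun x _ => by
          rw [integral_add (hm x 4 (by norm_num)).1 (hm x (-4) (by norm_num)).1]
          linarith [(hm x 4 (by norm_num)).2, (hm x (-4) (by norm_num)).2]
      _ = _ := by
          rw [ha, mul_pow, ← exp_nat_mul]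
          simp [mul_comm, mul_left_comm]
  have h1 := integral_mono_of_nonneg (f := fun g => om N ((lW N β).fld g))
    (.of_forall fun g => (exp_pos _).le) ((integrable_const a).add (i1.const_mul (a / a ^ N)))
    (.of_forall fun g => by
      simp only [Pi.add_apply]
      set h := (lW N β).fld g
      have p1 : om N h ^ N ≤ ∑ x : Cube N, (exp (4 * h x) + exp (-4 * h x)) := by
        rw [om, ← exp_nat_mul, mul_div_cancel₀ _ hN'.ne']
        obtain ⟨x, hx⟩ := Finite.exists_max fun x => ‖h x‖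
        have e : ‖h‖ ≤ |h x| := (pi_norm_le_iff_of_nonneg (abs_nonneg _)).2 hx
        refine le_trans ?_ (Finset.single_le_sum (f := fun x => exp (4 * h x) + exp (-4 * h x))
          (fun _ _ => by positivity) (Finset.mem_univ x))
        rcases abs_cases (h x) with h' | h'
        · exact le_add_of_le_of_nonneg (exp_le_exp.2 (by linarith)) (exp_pos _).le
        · exact le_add_of_nonneg_of_le (exp_pos _).le (exp_le_exp.2 (by linarith))
      have p0 : 0 < om N h := exp_pos _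
      by_cases hc : om N h ≤ a
      · exact le_add_of_le_of_nonneg hc (mul_nonneg (by positivity) ((by positivity :
          0 ≤ om N h ^ N).trans p1))
      · have q1 : 1 ≤ om N h / a := by rw [one_le_div ha0]; exact (not_le.1 hc).le
        have q2 := le_self_pow₀ q1 hN.ne'
        rw [div_pow, div_le_iff₀ ha0] at q2
        have q3 := mul_le_mul_of_nonneg_left p1 (by positivity : 0 ≤ a / a ^ N)
        have q4 : om N h ^ N / a ^ N * a = a / a ^ N * om N h ^ N := by ring
        linarith)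
  simp only [Pi.add_apply] at h1
  rw [integral_add (integrable_const a) (i1.const_mul _), integral_const_mul (a / a ^ N)] at h1
  simp only [integral_const, probReal_univ, smul_eq_mul, one_mul] at h1
  have h2 := mul_le_mul_of_nonneg_left i2 (by positivity : 0 ≤ a / a ^ N)
  have e : a / a ^ N * (2 * a ^ N) = 2 * a := by field_simp
  linarith

end Crest.Agent.T157.Plb

end
end

-- ▼ part T157/PlbVar_36

/-!
# Row 157 (helper36): `Plb.VarStmt`, the Stein variance bound at a node of a cascade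
-/

set_option autoImplicit false
set_option linter.unusedSectionVars false

noncomputable section

namespace Crest.Agent.T157.Plb

open MeasureTheory Real
open Crest.Agent.T157.E Crest.Agent.T157.Casc
open Crest.Agent.T157.SL (EG Pt Wt)
open Crest.Agent.R339.Guerra (dual dual_apply)

namespace Var36

variable {Ω : Type} [Fintype Ω] {w : Ω → ℝ}

/-- mean of `b` at a node -/
def mb (w : Ω → ℝ) (L : List (Lv Ω)) (b : Ω → ℝ) (z : Ω → ℝ) : ℝ := ∑ x, P w L z x * b x

/-- derivative of `mb` in the direction `b` -/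
def eta (w : Ω → ℝ) (L : List (Lv Ω)) (b : Ω → ℝ) (z : Ω → ℝ) : ℝ :=
  ∑ y, b y * ∑ x, b x * Hs w L z x y

theorem eg_mb (hw : Wt w) (L : List (Lv Ω)) (b : Ω → ℝ) : Eg (mb w L b) :=
  Eg.sum _ fun x _ => (eg_P hw L x).mul_const _

theorem eg_eta (hw : Wt w) (L : List (Lv Ω)) (b : Ω → ℝ) : Eg (eta w L b) :=
  Eg.sum _ fun y _ => (Eg.sum _ fun x _ => (eg_Hs hw L x y).const_mul _).const_mul _

theorem gr_mb (hw : Wt w) (L : List (Lv Ω)) (b : Ω → ℝ) :
    Gr (mb w L b) fun y z => ∑ x, b x * Hs w L z x y := by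
  have := Gr.sum Finset.univ fun x _ => (gr_P hw L x).const_mul (b x)
  have e : mb w L b = fun z => ∑ x, b x * P w L z x :=
    funext fun z => Finset.sum_congr rfl fun x _ => mul_comm _ _
  rw [e]; exact this

theorem mb_cons (hw : Wt w) (l : Lv Ω) (L : List (Lv Ω)) (b z : Ω → ℝ) :
    mb w (l :: L) b z = tE l (X w L) (mb w L b) z := by
  unfold mb
  rw [tE_sum (lg_X hw L) _ fun x _ => (eg_P hw L x).mul_const _]
  simp only [tE_mul_const]
  rfl

theorem sum_sq (hw : Wt w) (L : List (Lv Ω)) (b z : Ω → ℝ) (a : ℝ) :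
    ∑ x, P w L z x * (b x - a) ^ 2 =
      (mb w L (fun x => b x ^ 2) z - mb w L b z ^ 2) + (mb w L b z - a) ^ 2 := by
  have h1 := sum_P hw L z
  have : ∑ x, P w L z x * (b x - a) ^ 2 = ∑ x, P w L z x * b x ^ 2 -
      2 * a * ∑ x, P w L z x * b x + a ^ 2 * ∑ x, P w L z x := by
    simp only [Finset.mul_sum, ← Finset.sum_sub_distrib, ← Finset.sum_add_distrib]
    exact Finset.sum_congr rfl fun x _ => by ring
  rw [this, h1]
  simp only [mb]
  ring

theorem var_nonneg (hw : Wt w) (L : List (Lv Ω)) (b z : Ω → ℝ) :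
    0 ≤ mb w L (fun x => b x ^ 2) z - mb w L b z ^ 2 := by
  have h := sum_sq hw L b z (mb w L b z)
  have h0 : 0 ≤ ∑ x, P w L z x * (b x - mb w L b z) ^ 2 :=
    Finset.sum_nonneg fun x _ => mul_nonneg (P_nonneg hw L z x) (sq_nonneg _)
  rw [h] at h0
  simpa using h0

theorem sum_PP (p b : Ω → ℝ) (m : ℝ) :
    ∑ y, b y * ∑ x, b x * (m * (p x * p y)) = m * (∑ x, p x * b x) ^ 2 := by
  rw [sq, Finset.sum_mul_sum, Finset.mul_sum]
  simp only [Finset.mul_sum]
  exact Finset.sum_comm.trans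
    (Finset.sum_congr rfl fun y _ => Finset.sum_congr rfl fun x _ => by ring)

theorem eta_nil (b z : Ω → ℝ) :
    eta w [] b z = mb w [] (fun x => b x ^ 2) z - mb w [] b z ^ 2 := by
  classical
  have h := sum_PP (P w [] z) b 1
  simp only [one_mul] at h
  simp only [eta, Hs, mul_sub, Finset.sum_sub_distrib, mb]
  rw [h]
  congr 1
  refine Finset.sum_congr rfl fun y _ => ?_
  rw [Finset.sum_eq_single y (fun x _ hx => by rw [if_neg hx, mul_zero]) (by simp), if_pos rfl]
  ring

theorem eta_cons (hw : Wt w) (l : Lv Ω) (L : List (Lv Ω)) (b z : Ω → ℝ) :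
    eta w (l :: L) b z = tE l (X w L) (fun z => eta w L b z + l.m * mb w L b z ^ 2) z -
      l.m * mb w (l :: L) b z ^ 2 := by
  have hX := lg_X hw L
  have e0 : ∀ x y, Eg fun z => b x * (Hs w L z x y + l.m * (P w L z x * P w L z y)) := fun x y =>
    ((eg_Hs hw L x y).add (((eg_P hw L x).mul (eg_P hw L y)).const_mul _)).const_mul _
  have e1 : (fun z => eta w L b z + l.m * mb w L b z ^ 2) =
      fun z => ∑ y, b y * ∑ x, b x * (Hs w L z x y + l.m * (P w L z x * P w L z y)) := by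
    funext z
    simp only [mul_add, Finset.sum_add_distrib]
    rw [sum_PP]
    rfl
  rw [e1, tE_sum hX _ fun y _ => (Eg.sum _ fun x _ => e0 x y).const_mul _]
  simp only [tE_const_mul, fun y => tE_sum hX Finset.univ (fun x _ => e0 x y) l z]
  simp only [eta, Hs, mul_sub, Finset.sum_sub_distrib]
  rw [sum_PP]
  rfl

theorem eta_ge (hw : Wt w) (b : Ω → ℝ) : ∀ (L : List (Lv Ω)) (μ : ℝ), Mono μ L → ∀ z,
    μ * (mb w L (fun x => b x ^ 2) z - mb w L b z ^ 2) ≤ eta w L b z
  | [], μ, hμ, z => by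
    rw [eta_nil]
    have h := var_nonneg hw [] b z
    have h1 : μ ≤ 1 := hμ
    nlinarith
  | l :: L, μ, hμ, z => by
    have hX := lg_X hw L
    have h := var_nonneg hw (l :: L) b z
    have h1 : μ ≤ l.m := hμ.1
    have h2 : tE l (X w L) (fun z => l.m * mb w L (fun x => b x ^ 2) z) z ≤
        tE l (X w L) (fun z => eta w L b z + l.m * mb w L b z ^ 2) z :=
      tE_mono hX ((eg_mb hw L _).const_mul _)
        ((eg_eta hw L b).add (((eg_mb hw L b).pow 2).const_mul _))
        (fun z => by linarith [eta_ge hw b L l.m hμ.2 z]) l z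
    rw [tE_const_mul, ← mb_cons hw] at h2
    rw [eta_cons hw]
    nlinarith

/-! ### Stein calculus on the Gaussian space -/

section gauss
variable {ι : Type} [Fintype ι] {Φ : (ι → ℝ) → ℝ} {Ψ : ι → (ι → ℝ) → ℝ}

theorem eg_int (h : Eg Φ) : Integrable Φ (gv ι) := by
  classical
  exact (h.toEG Set.univ).int (t := 0) trivial

theorem stein0 (h : Gr Φ Ψ) (i : ι) : ∫ g, g i * Φ g ∂gv ι = ∫ g, Ψ i g ∂gv ι := by
  classical
  refine SL.stein (h.eg.toEG Set.univ) ((h.eg' i).toEG Set.univ) (Set.mem_univ 0) i fun g => ?_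
  have h2 := h.hasDerivAt (hasDerivAt_update g i (g i))
  simp only [Function.update_eq_self] at h2
  refine h2.congr_deriv ?_
  rw [Finset.sum_eq_single i (fun j _ hj => by simp [hj]) (by simp)]
  simp

theorem stein_dir (h : Gr Φ Ψ) (v : ι → ℝ) :
    ∫ g, (∑ i, v i * g i) * Φ g ∂gv ι = ∫ g, ∑ i, v i * Ψ i g ∂gv ι := by
  simp only [Finset.sum_mul, mul_assoc]
  rw [integral_finsetSum _ fun i _ => eg_int (((Eg.coord i).mul h.eg).const_mul _),
    integral_finsetSum _ fun i _ => eg_int ((h.eg' i).const_mul _)]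
  simp only [integral_const_mul, stein0 h]

theorem gr_coord (i : ι) : Gr (fun g : ι → ℝ => g i) fun j _ => by
    classical exact if j = i then 1 else 0 := by
  classical
  refine ⟨Eg.coord i, fun j => Eg.const _, fun g => ?_⟩
  refine ((ContinuousLinearMap.proj i : (ι → ℝ) →L[ℝ] ℝ).hasFDerivAt (x := g)).congr_fderiv ?_
  refine ContinuousLinearMap.ext fun u => ?_
  rw [dual_apply, Finset.sum_eq_single i (fun j _ hj => by simp [hj]) (by simp)]
  simp

theorem gr_lin (v : ι → ℝ) : Gr (fun g : ι → ℝ => ∑ i, v i * g i) fun j _ => v j := by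
  classical
  refine (Gr.sum Finset.univ fun i _ => (gr_coord i).const_mul (v i)).congr fun j g => ?_
  rw [Finset.sum_eq_single j (fun i _ hi => by simp [hi.symm]) (by simp)]
  simp

end gauss

section pull
variable {Φ : (Ω → ℝ) → ℝ} {Ψ : Ω → (Ω → ℝ) → ℝ}

theorem eg_pull (h : Eg Φ) (l : Lv Ω) (z : Ω → ℝ) : Eg fun g : l.ι → ℝ => Φ (z + l.fld g) := by
  classical
  obtain ⟨B, -, hB⟩ := (l.cst_okD Set.univ).toOkC.sh_bd
  exact eg_of_EG ((h.toEG Set.univ).comp (J := Set.univ)
    (φ := fun p : Pt l.ι => (p.1, z + l.fld p.2))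
    (by unfold Lv.fld; fun_prop) (fun _ _ => trivial) ‖z‖ B fun p _ =>
      (norm_add_le _ _).trans (add_le_add le_rfl (hB 0 p.2 trivial))) (Set.mem_univ 0)

theorem gr_pull (h : Gr Φ Ψ) (l : Lv Ω) (z : Ω → ℝ) :
    Gr (fun g : l.ι → ℝ => Φ (z + l.fld g)) fun i g => ∑ y, l.A y i * Ψ y (z + l.fld g) := by
  refine ⟨eg_pull h.eg l z, fun i => Eg.sum _ fun y _ => (eg_pull (h.eg' y) l z).const_mul _,
    fun g => ?_⟩
  have h1 : HasFDerivAt (fun g : l.ι → ℝ => z + l.fld g)
      (ContinuousLinearMap.pi fun x => dual (l.A x)) g := by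
    refine HasFDerivAt.const_add z ?_
    have := (ContinuousLinearMap.pi fun x => dual (l.A x)).hasFDerivAt (x := g)
    refine this.congr_of_eventuallyEq (Filter.Eventually.of_forall fun u => ?_)
    funext x
    simp [Lv.fld]
  refine ((h.fd _).comp g h1).congr_fderiv (ContinuousLinearMap.ext fun u => ?_)
  simp only [ContinuousLinearMap.comp_apply, dual_apply, ContinuousLinearMap.pi_apply,
    Finset.mul_sum, Finset.sum_mul]
  exact Finset.sum_comm.trans
    (Finset.sum_congr rfl fun i _ => Finset.sum_congr rfl fun y _ => by ring)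

end pull

theorem sum_dir (l : Lv Ω) (v : l.ι → ℝ) (q : Ω → ℝ) :
    ∑ i, v i * ∑ y, l.A y i * q y = ∑ y, l.fld v y * q y := by
  simp only [Lv.fld, Finset.mul_sum, Finset.sum_mul]
  exact Finset.sum_comm.trans
    (Finset.sum_congr rfl fun y _ => Finset.sum_congr rfl fun i _ => by ring)

/-- the Stein bound on the mean derivative -/
theorem tE_eta_le (hw : Wt w) (l : Lv Ω) (L : List (Lv Ω)) (hm : 0 ≤ l.m)
    (h0 : ∀ b z, 0 ≤ eta w L b z) (h : Ω → ℝ) (v : l.ι → ℝ) (a : ℝ) :
    tE l (X w L) (eta w L (l.fld v)) h ≤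
      √(∑ i, v i ^ 2) * √(tE l (X w L) (fun z => (mb w L (l.fld v) z - a) ^ 2) h) := by
  have hX := lg_X hw L
  set b := l.fld v with hb
  set ρ : (l.ι → ℝ) → ℝ := fun g => exp (l.m * X w L (h + l.fld g)) with hρ
  set f : (l.ι → ℝ) → ℝ := fun g => mb w L b (h + l.fld g) with hf
  set η : (l.ι → ℝ) → ℝ := fun g => eta w L b (h + l.fld g) with hη
  set s : (l.ι → ℝ) → ℝ := fun g => ∑ i, v i * g i with hs
  have gρ := gr_pull ((gr_X hw L).exp hX l.m) l h
  have gf := gr_pull (gr_mb hw L b) l h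
  have eρ : Eg ρ := gρ.eg
  have ef : Eg f := gf.eg
  have eη : Eg η := eg_pull (eg_eta hw L b) l h
  have es : Eg s := (gr_lin v).eg
  have dρ : ∀ g, ∑ i, v i * ∑ y, l.A y i * (exp (l.m * X w L (h + l.fld g)) *
      (l.m * P w L (h + l.fld g) y)) = ρ g * (l.m * f g) := by
    intro g
    rw [sum_dir]
    simp only [hρ, hf, mb, Finset.mul_sum]
    exact Finset.sum_congr rfl fun y _ => by ring
  have df : ∀ g, ∑ i, v i * ∑ y, l.A y i * ∑ x, b x * Hs w L (h + l.fld g) x y = η g := by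
    intro g
    rw [sum_dir]
    rfl
  -- the Stein identity under the tilt
  have key : ∀ {Φ : (l.ι → ℝ) → ℝ} {Ψ : l.ι → (l.ι → ℝ) → ℝ}, Gr Φ Ψ →
      ∫ g, ρ g * ((s g - l.m * f g) * Φ g) ∂gv l.ι = ∫ g, ρ g * ∑ i, v i * Ψ i g ∂gv l.ι := by
    intro Φ Ψ hΦ
    have h1 := stein_dir (gρ.mul hΦ) v
    have eD : Eg fun g => ∑ i, v i * Ψ i g := Eg.sum _ fun i _ => (hΦ.eg' i).const_mul _
    have h2 : ∀ g, ∑ i, v i * ((∑ y, l.A y i * (exp (l.m * X w L (h + l.fld g)) *
        (l.m * P w L (h + l.fld g) y))) * Φ g + exp (l.m * X w L (h + l.fld g)) * Ψ i g) =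
        ρ g * (l.m * f g) * Φ g + ρ g * ∑ i, v i * Ψ i g := by
      intro g
      rw [← dρ g, Finset.sum_mul, Finset.mul_sum, ← Finset.sum_add_distrib]
      exact Finset.sum_congr rfl fun i _ => by simp only [hρ]; ring
    simp only [h2] at h1
    rw [integral_add (eg_int ((eρ.mul (ef.const_mul _)).mul hΦ.eg)) (eg_int (eρ.mul eD))] at h1
    have h3 : ∀ g, ρ g * ((s g - l.m * f g) * Φ g) =
        s g * (ρ g * Φ g) - ρ g * (l.m * f g) * Φ g := fun g => by ring
    simp only [h3]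
    rw [integral_sub (eg_int (es.mul (eρ.mul hΦ.eg)))
      (eg_int ((eρ.mul (ef.const_mul _)).mul hΦ.eg))]
    linarith
  have k1 := key (gf.add (Gr.const (-a)))
  have k2 := key ((gr_lin v).add (gf.const_mul (-l.m)))
  simp only [add_zero, df] at k1
  have d2 : ∀ g, ∑ i, v i * (v i + -l.m * ∑ y, l.A y i * ∑ x, b x * Hs w L (h + l.fld g) x y) =
      ∑ i, v i ^ 2 - l.m * η g := by
    intro g
    rw [← df g, Finset.mul_sum, ← Finset.sum_sub_distrib]
    exact Finset.sum_congr rfl fun i _ => by ring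
  simp only [d2] at k2
  have hZ : 0 < ∫ g, ρ g ∂gv l.ι := hX.Z_pos l h
  set Z := ∫ g, ρ g ∂gv l.ι with hZd
  set E := ∫ g, ρ g * η g ∂gv l.ι with hE
  set V := ∫ g, ρ g * (f g - a) ^ 2 ∂gv l.ι with hV
  set N := ∑ i, v i ^ 2 with hN
  have hE0 : 0 ≤ E := integral_nonneg fun g => mul_nonneg (exp_pos _).le (h0 _ _)
  have hV0 : 0 ≤ V := integral_nonneg fun g => mul_nonneg (exp_pos _).le (sq_nonneg _)
  have hN0 : 0 ≤ N := Finset.sum_nonneg fun i _ => sq_nonneg _
  have eU : Eg fun g => s g - l.m * f g := es.sub (ef.const_mul _)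
  have efa : Eg fun g => f g - a := ef.sub (Eg.const a)
  have k3 : ∫ g, ρ g * (N - l.m * η g) ∂gv l.ι = N * Z - l.m * E := by
    have : ∀ g, ρ g * (N - l.m * η g) = N * ρ g - l.m * (ρ g * η g) := fun g => by ring
    simp only [this]
    rw [integral_sub (eg_int (eρ.const_mul _)) (eg_int ((eρ.mul eη).const_mul _)),
      integral_const_mul, integral_const_mul]
  have k1' : ∫ g, ρ g * ((s g - l.m * f g) * (f g - a)) ∂gv l.ι = E := by
    rw [← k1]; rfl
  have k2' : ∫ g, ρ g * (s g - l.m * f g) ^ 2 ∂gv l.ι = N * Z - l.m * E := by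
    rw [← k3, ← k2]
    congr 1
    funext g
    simp only [hs, hf]
    ring
  have hq : ∀ t : ℝ, 0 ≤ V * (t * t) + (-2 * E) * t + N * Z := by
    intro t
    have h1 : 0 ≤ ∫ g, ρ g * (t * (f g - a) - (s g - l.m * f g)) ^ 2 ∂gv l.ι :=
      integral_nonneg fun g => mul_nonneg (exp_pos _).le (sq_nonneg _)
    have h2 : ∀ g, ρ g * (t * (f g - a) - (s g - l.m * f g)) ^ 2 =
        t * t * (ρ g * (f g - a) ^ 2) - 2 * t * (ρ g * ((s g - l.m * f g) * (f g - a))) +
          ρ g * (s g - l.m * f g) ^ 2 := fun g => by ring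
    simp only [h2] at h1
    rw [integral_add (eg_int (((eρ.mul (efa.pow 2)).const_mul _).sub
        ((eρ.mul (eU.mul efa)).const_mul _))) (eg_int (eρ.mul (eU.pow 2))),
      integral_sub (eg_int ((eρ.mul (efa.pow 2)).const_mul _))
        (eg_int ((eρ.mul (eU.mul efa)).const_mul _)), integral_const_mul, integral_const_mul,
      k1', k2'] at h1
    nlinarith [mul_nonneg hm hE0]
  have hd := discrim_le_zero hq
  rw [discrim] at hd
  have e1 : tE l (X w L) (eta w L b) h = E / Z := rfl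
  have e2 : tE l (X w L) (fun z => (mb w L b z - a) ^ 2) h = V / Z := rfl
  rw [e1, e2, ← Real.sqrt_mul hN0]
  refine Real.le_sqrt_of_sq_le ?_
  rw [div_pow, div_le_iff₀ (by positivity)]
  have : N * (V / Z) * Z ^ 2 = V * (N * Z) := by field_simp
  rw [this]
  nlinarith

end Var36

open Var36

theorem varStmt : VarStmt := by
  intro Ω _ w hw l L μ hm hμ hL h v a Vf ha hV
  have hX := lg_X hw L
  have h0 : ∀ b z, 0 ≤ eta w L b z := fun b z =>
    (mul_nonneg hμ.le (var_nonneg hw L b z)).trans (eta_ge hw b L μ hL z)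
  have h1 := tE_eta_le hw l L hm h0 h v a
  have hV' : Vf = tE l (X w L) (fun z => (mb w L (l.fld v) z - a) ^ 2) h := hV
  rw [← hV'] at h1
  have e1 := (eg_mb hw L fun x => l.fld v x ^ 2).sub ((eg_mb hw L (l.fld v)).pow 2)
  have h2 : ∑ x, P w (l :: L) h x * (l.fld v x - a) ^ 2 =
      tE l (X w L) (fun z => mb w L (fun x => l.fld v x ^ 2) z - mb w L (l.fld v) z ^ 2) h + Vf := by
    have := mb_cons hw l L (fun x => (l.fld v x - a) ^ 2) h
    rw [mb] at this
    rw [this, hV', ← tE_add hX e1 (((eg_mb hw L (l.fld v)).sub (Eg.const a)).pow 2)]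
    congr 1
    funext z
    exact sum_sq hw L (l.fld v) z a
  have h3 : tE l (X w L)
      (fun z => μ * (mb w L (fun x => l.fld v x ^ 2) z - mb w L (l.fld v) z ^ 2)) h ≤
      tE l (X w L) (eta w L (l.fld v)) h :=
    tE_mono hX (e1.const_mul μ) (eg_eta hw L _) (eta_ge hw _ L μ hL) l h
  rw [tE_const_mul] at h3
  rw [h2, add_comm]
  refine add_le_add le_rfl ?_
  rw [le_div_iff₀ hμ]
  linarith

end Crest.Agent.T157.Plb

end
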