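import Crest.Agent.T157.UpFe_61_Mg
import Crest.Agent.T157.AnFree_50
import Crest.Agent.T157.PlbVar_36_Mg
import Crest.Agent.T157.PlbDen_61
import Crest.Agent.T157.St0_44
import Crest.Agent.T157.UpDef_74
import Crest.Agent.T157.FrC_98

-- ▼ part T157/SdBr_12
section

/-!
Row 157, part D (helper12): the bridges of `Sd_12`, and `PsiStmt` from `G1Stmt`, `PlbStmt`,
`ParStmt`.
-/

set_option autoImplicit false

noncomputable section

namespace Crest.Agent.T157.Sd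

open Finset Matrix MeasureTheory Real
open Crest.Agent.T157.E Crest.Agent.T157.Casc Crest.Agent.T157.SdM
open Crest.Agent.T157.Ac Crest.Agent.T157.G1 Crest.Agent.T157.Pf
open Crest.ProbabilityR.SpinGlassDynamics

variable {n : ℕ}

theorem sv_sq (σ : Cube n) (i : Fin n) : sv σ i * sv σ i = 1 := by
  unfold sv; cases σ i <;> simp [spin]

theorem dot_sq (x y : Cube n) :
    (sv x ⬝ᵥ sv y) ^ 2 = ∑ i, ∑ j, sv x i * sv x j * (sv y i * sv y j) := by
  rw [sq, dotProduct, sum_mul_sum]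
  exact sum_congr rfl fun i _ => sum_congr rfl fun j _ => by ring

theorem cov_Jw (hn : 0 < n) (β : ℝ) (x y : Cube n) :
    (Jw n β).cov x y = β ^ 2 / (2 * n) * (sv x ⬝ᵥ sv y) ^ 2 := by
  have hn' : (0 : ℝ) < n := by exact_mod_cast hn
  have h : β / 2 * (√2 / √n) * (β / 2 * (√2 / √n)) = β ^ 2 / (2 * n) := by
    rw [mul_mul_mul_comm, div_mul_div_comm √2, mul_self_sqrt (by norm_num), mul_self_sqrt hn'.le]
    field_simp
  rw [dot_sq, Lv.cov, Fintype.sum_prod_type, ← h, mul_sum]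
  refine sum_congr rfl fun i _ => ?_
  rw [mul_sum]
  exact sum_congr rfl fun j _ => by ring

theorem cov_Jp (hn : 0 < n) (β : ℝ) (x y : Cube n) :
    (Jp n β).cov x y = β ^ 2 / (2 * n) * (sv x ⬝ᵥ sv y) ^ 2 - β ^ 2 / 2 := by
  have hn' : (0 : ℝ) < n := by exact_mod_cast hn
  have h : β / √n * (β / √n) = β ^ 2 / n := by
    rw [div_mul_div_comm, mul_self_sqrt hn'.le, sq]
  have e := sum_sum_eq_two_mul_pair (fun i j : Fin n =>
    sv x i * sv x j * (sv y i * sv y j) - if i = j then 1 else 0)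
    (fun i j => by simp only [eq_comm (a := i)]; ring) fun i => by simp [sv_sq]
  simp only [sum_sub_distrib, sum_ite_eq, mem_univ, if_true, sum_const, card_univ,
    Fintype.card_fin, nsmul_eq_mul, mul_one, fun p : Pair n => ne_of_lt p.2, if_false,
    sub_zero, ← dot_sq] at e
  have e2 : (Jp n β).cov x y =
      β ^ 2 / n * ∑ p : Pair n, sv x p.1.1 * sv x p.1.2 * (sv y p.1.1 * sv y p.1.2) := by
    rw [Lv.cov, mul_sum, ← h]
    exact sum_congr rfl fun p _ => by ring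
  rw [e2]
  generalize ∑ p : Pair n, sv x p.1.1 * sv x p.1.2 * (sv y p.1.1 * sv y p.1.2) = S at e
  field_simp
  linear_combination (-β ^ 2) * e

theorem bridge : Bridge := fun n hn β hβ => by
  have hn' : (0 : ℝ) < n := by exact_mod_cast hn
  refine ⟨⟨rfl, 0, fun x y => ?_⟩, ?_, fun P h => ?_⟩
  · rw [cov_Jw hn, ov]; field_simp; ring
  · have e := C.X_split wt1 (l := Jw n β) (l1 := ⟨Unit, fun _ _ => β / √2, 0⟩) (l2 := Jp n β)
      rfl rfl (fun x y => by
        rw [cov_Jw hn, cov_Jp hn]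
        simp only [Lv.cov, univ_unique, sum_singleton]
        rw [div_mul_div_comm, mul_self_sqrt (by norm_num)]
        ring) []
    have e2 := congrFun e 0
    rw [C.X_cons _ ⟨Unit, _, 0⟩, C.step_of_const (a := fun _ => β / √2) (fun _ => rfl)
      (C.X_add_const wt1 _), C.X_cons, C.X_cons, C.step_zero (l := Jw n β) rfl,
      C.step_zero (l := Jp n β) rfl] at e2
    simp only [X, zero_add, one_mul, zero_mul, zero_div, add_zero] at e2
    rw [FE, e2]
    refine integral_congr_ae (ae_of_all _ fun g => ?_)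
    simp only [gibbsWeight, Lv.fld, sv]
    congr 1
    refine sum_congr rfl fun x _ => ?_
    congr 1
    exact sum_congr rfl fun p _ => by ring
  · rw [G1.val, cor, Up.Fe61.pen_lst h hβ, Par.val, Up.Fe61.Ph_zero h hβ]
    field_simp

/-- **the lower half of S0231 from the three remaining inputs** -/
theorem psi_of' (hG : G1Stmt) (hL : Plb.PlbStmt) (hP : ParStmt) : PsiStmt :=
  psi_of hG bridge (An.free_of hL) hP

end Crest.Agent.T157.Sd
end
end

-- ▼ part T157/Plb_78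
section

/-!
# Row 157: the polynomial-rate Parisi lower bound (helper78)
-/

set_option autoImplicit false
set_option linter.unusedSectionVars false

noncomputable section

namespace Crest.Agent.T157.Plb

open MeasureTheory Real Set
open Crest.Agent.T157.E Crest.Agent.T157.Casc Crest.Agent.T157.SL
open Crest.ProbabilityR.SpinGlassDynamics

variable {N : ℕ} {β : ℝ} {w : Cube N → ℝ}

/-- **synchronisation**, unconditional -/
theorem sync_le : SyncStmt := syncStmt varStmt cmpStmt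

/-! ### the cost of the perturbation -/

theorem amp_lip (hw : Wt w) (hN : 0 < N) {m : ℝ} (hm : 0 ≤ m) (s : ℝ) {L : List (Lv (Cube N))}
    (hL : Mono m L) (z : Cube N → ℝ) {a b : ℝ} (ha : 0 ≤ a) (hab : a ≤ b) :
    0 ≤ X w (fl N (m, s * b) :: L) z - X w (fl N (m, s * a) :: L) z ∧
      X w (fl N (m, s * b) :: L) z - X w (fl N (m, s * a) :: L) z ≤ b * s ^ 2 * N * (b - a) := by
  rcases hab.eq_or_lt with rfl | hab
  · simp
  obtain ⟨t, ht, he⟩ := exists_hasDerivAt_eq_slope (fun t => X w (fl N (m, s * t) :: L) z) _ hab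
    (fun t _ => (hasDerivAt_amp hw hN m s t L z).continuousAt.continuousWithinAt)
    fun t _ => hasDerivAt_amp hw hN m s t L z
  rw [eq_div_iff (sub_pos.2 hab).ne'] at he
  have hB := Bf_mem hw (l := fl N (m, s * t)) hm hL z
  have h0 : 0 ≤ t := ha.trans ht.1.le
  have h1 := sub_nonneg.2 hB.2
  have h2 := (sub_pos.2 hab).le
  rw [← he]
  refine ⟨by positivity, mul_le_mul_of_nonneg_right ((mul_le_of_le_one_right (by positivity)
    (by linarith [hB.1])).trans ?_) h2⟩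
  gcongr
  exact ht.2.le

theorem pert (hw : Wt w) (hN : 0 < N) : ∀ (ℓ : List (ℝ × ℝ)) (m0 : ℝ), 0 ≤ m0 → Mono m0 (fL N ℓ) →
    ∀ z, X w [] z ≤ X w (fL N ℓ) z ∧ X w (fL N ℓ) z ≤ X w [] z + N * tot ℓ
  | [], _, _, _, z => by simp [fL, tot]
  | a :: ℓ, _, h0, h, z => by
    have h1 := pert hw hN ℓ a.1 (h0.trans h.1) h.2 z
    have h2 := amp_lip hw hN (h0.trans h.1) a.2 h.2 z le_rfl zero_le_one
    rw [C.X_cons w (fl N (a.1, a.2 * 0)), C.step_of_zero (l := fl N (a.1, a.2 * 0))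
      fun x i => by simp, mul_one] at h2
    simp only [tot, fL, List.map_cons, List.sum_cons] at h1 h2 ⊢
    constructor <;> linarith [h1.1, h1.2, h2.1, h2.2]

theorem par_lip (hw : Wt w) (hN : 0 < N) (k : ℕ) (s : ℝ) (lam : ℕ → ℝ) (j : ℕ) {a b : ℝ}
    (ha : 1 ≤ a) (ha2 : a ≤ 2) (hb : 1 ≤ b) (hb2 : b ≤ 2) (z : Cube N → ℝ) :
    |X w (fL N (par k s (Function.update lam j a))) z -
      X w (fL N (par k s (Function.update lam j b))) z| ≤ 2 * s ^ 2 * N * |a - b| := by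
  wlog hab : b ≤ a generalizing a b
  · rw [abs_sub_comm, abs_sub_comm a]
    exact this hb hb2 ha ha2 (le_of_not_ge hab)
  rcases lt_or_ge j k with hj | hj
  · have hM := mono_drop N k s lam (k - (j + 1)) (j + 1) (by omega) (((j : ℝ) + 1) / ((k : ℝ) + 1))
      (div_le_div_of_nonneg_right (by simp) (by positivity))
    have h := fun z => amp_lip hw hN (by positivity) s hM z (zero_le_one.trans hb) hab
    have hc : a * s ^ 2 * N * (a - b) ≤ 2 * s ^ 2 * N * (a - b) := by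
      have := sub_nonneg.2 hab
      gcongr
    rw [par_update N k s lam hj, par_update N k s lam hj, abs_of_nonneg (sub_nonneg.2 hab), abs_le]
    have h1 := C.X_append_le hw hw (c := 0) (fun z => (sub_nonneg.1 (h z).1).trans (add_zero _).ge)
      ((fL N (par k s lam)).take j) z
    have h2 := C.X_append_le hw hw (fun z => sub_le_iff_le_add'.1 ((h z).2.trans hc))
      ((fL N (par k s lam)).take j) z
    have : 0 ≤ 2 * s ^ 2 * N * (a - b) := by have := sub_nonneg.2 hab; positivity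
    constructor <;> linarith
  · have e : ∀ c, par k s (Function.update lam j c) = par k s lam := fun c =>
      List.map_congr_left fun i hi => by
        rw [Function.update_of_ne (by have := List.mem_range.1 hi; omega)]
    rw [e, e, sub_self, abs_zero]; positivity

/-- the perturbed free energy -/
def FE (N : ℕ) (β : ℝ) (ℓ : List (ℝ × ℝ)) : ℝ := X (fun _ => 1) (lW N β :: fL N ℓ) 0

theorem FE_nil (n : ℕ) (β : ℝ) : FE n β [] = ∫ g, log (∑ x, gibbsWeight n β g x) ∂disorderLaw n := by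
  rw [FE, C.X_cons, C.step_zero rfl, disorderLaw_eq]
  refine integral_congr_ae (.of_forall fun g => ?_)
  simp only [fL, List.map_nil, X, zero_add, one_mul, gibbsWeight, Lv.fld, sv]
  congr 1
  refine Finset.sum_congr rfl fun x _ => ?_
  congr 1
  exact Finset.sum_congr rfl fun p _ => by ring

theorem FE_nonneg (n : ℕ) (β : ℝ) : 0 ≤ FE n β [] := by
  have h := C.int_lin ((lW n β).A fun _ => true)
  rw [FE, C.X_cons, C.step_zero rfl, ← h]
  refine integral_mono (integrable_finsetSum _ fun i _ =>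
    (R339.Guerra.integrable_coord i).const_mul _) ((lg_X wt1 _).eg.int _ _) fun g => ?_
  simp only [fL, List.map_nil, X, zero_add, one_mul]
  rw [le_log_iff_exp_le (Finset.sum_pos (fun _ _ => exp_pos _) Finset.univ_nonempty)]
  exact Finset.single_le_sum (f := fun x => exp ((lW n β).fld g x)) (fun _ _ => (exp_pos _).le)
    (Finset.mem_univ _)

theorem FE_pert (hN : 0 < N) (β : ℝ) (k : ℕ) (s : ℝ) {lam : ℕ → ℝ} (hl : Box lam) :
    FE N β [] ≤ FE N β (par k s lam) ∧ FE N β (par k s lam) ≤ FE N β [] + N * (4 * (k * s ^ 2)) := by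
  have h := pert (wt1 (Ω := Cube N)) hN (par k s lam) 0 le_rfl (mono_par N k s lam)
  have h1 := C.X_append_le wt1 wt1 (c := 0) (fun z => (h z).1.trans (add_zero _).ge) [lW N β] 0
  have h2 := C.X_append_le wt1 wt1 (fun z => (h z).2) [lW N β] 0
  have h3 := mul_le_mul_of_nonneg_left (tot_par k s hl) (Nat.cast_nonneg (α := ℝ) N)
  simp only [List.cons_append, List.nil_append, add_zero] at h1 h2
  exact ⟨h1, h2.trans (add_le_add le_rfl h3)⟩

/-- the temperature of the cavity system -/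
def bt (β : ℝ) (N : ℕ) : ℝ := β * √(N / (N + 1))

theorem int_om_le (hN : 0 < N) (β : ℝ) :
    ∫ g, om N ((lW N (bt β N)).fld g) ∂gv (Pair N) ≤ 6 * exp (4 * β ^ 2) := by
  refine (omStmt N hN _).trans (mul_le_mul_of_nonneg_left (exp_le_exp.2 ?_) (by norm_num))
  rw [bt, mul_pow, sq_sqrt (by positivity)]
  have : (N : ℝ) / (N + 1) ≤ 1 := by rw [div_le_one (by positivity)]; linarith
  nlinarith [sq_nonneg β]

theorem eg_tail {Φ : (Cube (N + 1) → ℝ) → ℝ} (h : Eg Φ) :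
    Eg fun z : Cube N → ℝ => Φ fun x => z (Fin.tail x) := by
  obtain ⟨C, c, h1, h2, h3⟩ := h.bd
  refine ⟨h.cont.comp (by fun_prop), C, c, h1, h2, fun z => (h3 _).trans ?_⟩
  gcongr
  exact (pi_norm_le_iff_of_nonneg (norm_nonneg _)).2 fun x => norm_le_pi_norm z _

/-- weighted expectation over the cavity Hamiltonian -/
def Iw (β : ℝ) (N : ℕ) (Φ : (Cube N → ℝ) → ℝ) : ℝ :=
  ∫ g, om N ((lW N (bt β N)).fld g) * Φ ((lW N (bt β N)).fld g) ∂gv (Pair N)

section Iw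
variable {Φ Φ' : (Cube N → ℝ) → ℝ}

theorem Iw_int (h : Eg Φ) : Integrable (fun g => om N ((lW N (bt β N)).fld g) *
    Φ ((lW N (bt β N)).fld g)) (gv (Pair N)) := Eg.int0 ((eg_om N).mul h) (lW N (bt β N))

theorem Iw_add (h : Eg Φ) (h' : Eg Φ') : Iw β N (fun z => Φ z + Φ' z) = Iw β N Φ + Iw β N Φ' := by
  simp only [Iw, mul_add]; exact integral_add (Iw_int h) (Iw_int h')

theorem Iw_sub (h : Eg Φ) (h' : Eg Φ') : Iw β N (fun z => Φ z - Φ' z) = Iw β N Φ - Iw β N Φ' := by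
  simp only [Iw, mul_sub]; exact integral_sub (Iw_int h) (Iw_int h')

theorem Iw_cmul (c : ℝ) : Iw β N (fun z => c * Φ z) = c * Iw β N Φ := by
  simp only [Iw, mul_left_comm _ c]; exact integral_const_mul _ _

theorem Iw_sum {κ : Type*} (s : Finset κ) {Φ : κ → (Cube N → ℝ) → ℝ} (h : ∀ j, Eg (Φ j)) :
    Iw β N (fun z => ∑ j ∈ s, Φ j z) = ∑ j ∈ s, Iw β N (Φ j) := by
  simp only [Iw, Finset.mul_sum]; exact integral_finsetSum _ fun j _ => Iw_int (h j)

theorem Iw_le (hN : 0 < N) (h : Eg Φ) {c : ℝ} (hc : 0 ≤ c) (e : ∀ z, Φ z ≤ c) :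
    Iw β N Φ ≤ c * (6 * exp (4 * β ^ 2)) := by
  refine (integral_mono (Iw_int h) (Iw_int (Eg.const c)) fun g =>
    mul_le_mul_of_nonneg_left (e _) (zero_le_one.trans (one_le_om _))).trans ?_
  rw [integral_mul_const, mul_comm]
  exact mul_le_mul_of_nonneg_left (int_om_le hN β) hc

end Iw

/-- one increment -/
theorem incr (hβ : 0 < β) : ∃ C : ℝ, 0 ≤ C ∧ ∀ P : ℝ, IsLB β P → ∀ (N k : ℕ), 0 < N →
    ∀ (s : ℝ) (lam : ℕ → ℝ), Box lam → k * s ^ 2 ≤ 1 → ∀ Em : (Cube N → ℝ) → ℝ, Eg Em →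
    (∀ h, sync (fun _ => 1) (fL N (par k s lam)) h ≤ Em h) →
    FE N β (par k s lam) + β * P - C * (Iw β N Em + (1 / N + k * s ^ 2 + 1 / (k + 1))) ≤
      FE (N + 1) β (par k s lam) := by
  obtain ⟨C, hC, hA⟩ := aStmt denStmt β hβ
  refine ⟨C + β ^ 2 / 2, by positivity, fun P hP N k hN s lam hl hs Em hE hEm => ?_⟩
  have hB := bStmt denStmt β hβ N k hN s lam Em hE hEm (bt β N) rfl
  set L := fL N (par k s lam) with hL
  set c : ℝ := 1 / N + k * s ^ 2 + 1 / (k + 1) with hc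
  have hc0 : 0 ≤ c := by positivity
  have i1 := Eg.int0 (lg_X wt1 L).eg (lW N (bt β N))
  have i2 := (Eg.int0 ((Eg.const 1).sub (eg_pp wt1 L)) (lW N (bt β N))).const_mul (β ^ 2 / 4)
  have i3 := (Iw_int (β := β) hE).const_mul C
  have i4 := Eg.int0 (eg_tail (lg_X wt1 (lz N β :: fL (N + 1) (par k s lam))).eg) (lW N (bt β N))
  have h1 := integral_mono ((i1.add i2).add (integrable_const (β * P - C * c))) (i4.add i3) fun g => by
      have a1 := hA P hP N k hN s lam hl hs ((lW N (bt β N)).fld g)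
      have a2 := (hEm ((lW N (bt β N)).fld g)).trans (le_mul_of_one_le_left
        ((sync_nonneg wt1 (mono_par N k s lam) _).trans (hEm _)) (one_le_om ((lW N (bt β N)).fld g)))
      have a3 := mul_le_mul_of_nonneg_left a2 hC
      simp only [Pi.add_apply, hc]
      linarith
  rw [integral_add' (i1.add i2) (integrable_const _), integral_add' i1 i2, integral_add' i4 i3,
    integral_const_mul, integral_const_mul] at h1
  simp only [integral_const, probReal_univ, smul_eq_mul, one_mul] at h1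
  have h2 : X (fun _ => 1) (lW N (bt β N) :: L) 0 =
      ∫ g, X (fun _ => 1) L ((lW N (bt β N)).fld g) ∂gv (Pair N) := by
    rw [Casc.C.X_cons, Casc.C.step_zero rfl]; simp only [zero_add]
  have h3 := mul_nonneg (sq_nonneg β) hc0
  rw [FE, FE, split_W hN _ (β' := bt β N) rfl, Iw]
  linarith

/-- the numerical bounds for the chosen parameters -/
theorem num {r n N k s u : ℝ} (hr1 : 2 ≤ r) (hn0 : 0 < n) (hN3 : n ≤ 3 * N) (hk' : k = r ^ 2)
    (hs0 : 0 < s) (hs2 : s ^ 2 = r ^ 8 / n) (hu' : u = 1 / r ^ 3) :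
    6 / (k + 1) + 1 / ((k + 1) * (1 / r)) + 1 / r + 2 * √((k + 1) / (s * √N)) +
      2 * (k * ((k + 1) * log 2 / (u * s ^ 2 * N))) ≤ 24 / r := by
  have hr0 : 0 < r := by linarith
  have hN1 : 0 < N := by linarith
  have hk1 : 1 / (k + 1) ≤ 1 / r := one_div_le_one_div_of_le hr0 (by rw [hk']; nlinarith)
  have b1 : √((k + 1) / (s * √N)) ≤ 2 / r := by
    refine sqrt_le_iff.2 ⟨by positivity, ?_⟩
    have a1 : r ^ 4 / 2 ≤ s * √N := by
      refine abs_le_of_sq_le_sq' ?_ (by positivity) |>.2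
      rw [mul_pow, hs2, sq_sqrt hN1.le, div_mul_eq_mul_div, le_div_iff₀ hn0]
      have : 0 < r ^ 8 := by positivity
      nlinarith
    rw [div_le_iff₀ (by positivity)]
    refine le_trans ?_ (mul_le_mul_of_nonneg_left a1 (by positivity))
    rw [hk', show (2 / r) ^ 2 * (r ^ 4 / 2) = 2 * r ^ 2 by field_simp]
    nlinarith
  have b2 : 2 * (k * ((k + 1) * log 2 / (u * s ^ 2 * N))) ≤ 12 / r := by
    have a1 : log 2 ≤ 1 := by have := log_two_lt_d9; linarith
    have a2 : r ^ 5 / 3 ≤ u * s ^ 2 * N := by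
      rw [hu', hs2, show 1 / r ^ 3 * (r ^ 8 / n) * N = r ^ 5 * N / n by field_simp,
        div_le_div_iff₀ (by norm_num) hn0]
      have : 0 < r ^ 5 := by positivity
      nlinarith
    have a3 : (k + 1) * log 2 ≤ 2 * r ^ 2 := by
      rw [hk']; nlinarith [log_pos one_lt_two]
    have a4 := div_le_div₀ (by positivity) a3 (by positivity) a2
    refine (mul_le_mul_of_nonneg_left (mul_le_mul_of_nonneg_left a4 (by rw [hk']; positivity))
      zero_le_two).trans (le_of_eq ?_)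
    rw [hk']; field_simp; ring
  have b3 : 1 / ((k + 1) * (1 / r)) ≤ 1 / r := by
    refine one_div_le_one_div_of_le hr0 ?_
    rw [hk', mul_one_div, le_div_iff₀ hr0]; nlinarith
  have a3 : 6 / (k + 1) = 6 * (1 / (k + 1)) := by ring
  have a4 : 24 / r = 24 * (1 / r) := by ring
  have a5 : 12 / r = 12 * (1 / r) := by ring
  have a6 : 2 / r = 2 * (1 / r) := by ring
  linarith

theorem eg_d2 (k : ℕ) (s u : ℝ) (lam : ℕ → ℝ) (j : ℕ) :
    Eg fun z : Cube N → ℝ => d2 (fun lam => X (fun _ => 1) (fL N (par k s lam)) z) u lam j :=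
  ((lg_X wt1 _).eg.add (lg_X wt1 _).eg).sub ((lg_X wt1 _).eg.const_mul 2)

/-- a good value of the perturbation -/
theorem exists_lam (β : ℝ) (k M n : ℕ) (hM : 2 ≤ M) (hn : 2 ≤ n) {s : ℝ} (hs : 0 < s) :
    ∃ lam, Box lam ∧ ∀ j < k, ∑ N ∈ Finset.Ico (n / 2) n, (N : ℝ)⁻¹ * Iw β N (fun z =>
      d2 (fun lam => X (fun _ => 1) (fL N (par k s lam)) z) (1 / M) lam j) ≤
      16 * n * (6 * exp (4 * β ^ 2)) * (s ^ 2 * (1 / M) ^ 2) := by
  set Ω := 6 * exp (4 * β ^ 2) with hΩ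
  have hX : ∀ N lam, Eg (X (fun _ => 1) (fL N (par k s lam))) := fun N lam => (lg_X wt1 _).eg
  obtain ⟨lam, hl, hd⟩ := flatStmt k M hM
    (fun lam => ∑ N ∈ Finset.Ico (n / 2) n, (N : ℝ)⁻¹ * Iw β N (X (fun _ => 1) (fL N (par k s lam))))
    (n * (2 * s ^ 2 * Ω)) (by positivity) fun lam j a b _ ha ha2 hb hb2 => by
      rw [← Finset.sum_sub_distrib]
      refine (Finset.abs_sum_le_sum_abs _ _).trans ((Finset.sum_le_card_nsmul _ _
        (2 * s ^ 2 * Ω * |a - b|) fun N hN => ?_).trans ?_)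
      · have hN0 : 0 < N := by have := (Finset.mem_Ico.1 hN).1; omega
        have hN1 : (0 : ℝ) < N := by positivity
        have h := fun z => abs_le.1 (par_lip wt1 hN0 k s lam j ha ha2 hb hb2 z)
        have h1 := Iw_le (β := β) hN0 ((hX N _).sub (hX N _)) (by positivity) fun z => (h z).2
        have h2 := Iw_le (β := β) hN0 ((hX N _).sub (hX N _)) (by positivity) fun z =>
          (neg_sub _ _).ge.trans (neg_le.1 (h z).1)
        rw [Iw_sub (hX _ _) (hX _ _)] at h1 h2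
        rw [← mul_sub, abs_mul, abs_of_pos (inv_pos.2 hN1), inv_mul_le_iff₀ hN1, abs_le]
        constructor <;> linarith
      · have : ((Finset.Ico (n / 2) n).card : ℝ) ≤ n := by
          exact_mod_cast (by simp : (Finset.Ico (n / 2) n).card ≤ n)
        rw [nsmul_eq_mul, ← mul_assoc]
        gcongr
  refine ⟨lam, hl, fun j hj => le_trans (le_of_eq ?_) ((hd j hj).trans (le_of_eq (by ring)))⟩
  simp only [d2, Finset.mul_sum, ← Finset.sum_add_distrib, ← Finset.sum_sub_distrib]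
  refine Finset.sum_congr rfl fun N _ => ?_
  rw [Iw_sub ((hX _ _).add (hX _ _)) ((hX _ _).const_mul 2), Iw_add (hX _ _) (hX _ _), Iw_cmul]
  ring

/-- the dyadic step -/
theorem dyadic (hβ : 0 < β) : ∃ C : ℝ, 0 ≤ C ∧ ∀ P : ℝ, IsLB β P → ∀ n r : ℕ, 2 ≤ r → r ^ 11 ≤ n →
    FE (n / 2) β [] + (n - (n / 2 : ℕ)) * (β * P) - C * (n / r) ≤ FE n β [] := by
  obtain ⟨C, hC, hI⟩ := incr hβ
  set Ω := 6 * exp (4 * β ^ 2) with hΩ
  have hΩ0 : 0 < Ω := by positivity
  refine ⟨C * (56 * Ω + 5) + 4, by positivity, fun P hP n r hr hn => ?_⟩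
  have hr1 : (2 : ℝ) ≤ r := by exact_mod_cast hr
  have hr0 : (0 : ℝ) < r := by linarith
  have hn1 : (r : ℝ) ^ 11 ≤ n := by exact_mod_cast hn
  have hrn : r ≤ n := (Nat.le_self_pow (by norm_num) r).trans hn
  have hrn' : (r : ℝ) ≤ n := by exact_mod_cast hrn
  have hn0 : (0 : ℝ) < n := by linarith
  obtain ⟨k, hk'⟩ : ∃ k : ℕ, (k : ℝ) = r ^ 2 := ⟨r ^ 2, by simp⟩
  obtain ⟨s, hs0, hs2⟩ : ∃ s : ℝ, 0 < s ∧ s ^ 2 = r ^ 8 / n :=
    ⟨√((r : ℝ) ^ 8 / n), sqrt_pos.2 (by positivity), sq_sqrt (by positivity)⟩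
  have hks : k * s ^ 2 ≤ 1 / r := by
    rw [hk', hs2, ← mul_div_assoc, div_le_div_iff₀ hn0 hr0]; linarith
  have hr2 : 1 / (r : ℝ) ≤ 1 := by rw [div_le_one hr0]; linarith
  have hk1 : 1 / ((k : ℝ) + 1) ≤ 1 / r := one_div_le_one_div_of_le hr0 (by rw [hk']; nlinarith)
  obtain ⟨lam, hl, hd'⟩ := exists_lam β k (r ^ 3) n
    ((by norm_num : 2 ≤ 2 ^ 3).trans (Nat.pow_le_pow_left hr 3)) (by omega) hs0
  obtain ⟨u, hu, hu'⟩ : ∃ u : ℝ, 1 / ((r ^ 3 : ℕ) : ℝ) = u ∧ u = 1 / r ^ 3 := ⟨_, rfl, by simp⟩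
  have hu0 : 0 < u := by rw [hu']; positivity
  rw [hu, ← hΩ] at hd'
  set S := Finset.Ico (n / 2) n with hS
  have hcard : (S.card : ℝ) ≤ n := by exact_mod_cast (by simp [hS] : S.card ≤ n)
  obtain ⟨D, hD⟩ : ∃ D : ℕ → ℕ → ℝ, ∀ N j, Iw β N (fun z =>
      d2 (fun lam => X (fun _ => 1) (fL N (par k s lam)) z) u lam j) = D N j := ⟨_, fun _ _ => rfl⟩
  simp only [hD] at hd'
  have hinc : ∀ N ∈ S, β * P - C * ((24 * Ω + 5) / r +
      2 / (u * s ^ 2) * ∑ j ∈ Finset.range k, (N : ℝ)⁻¹ * D N j) ≤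
      FE (N + 1) β (par k s lam) - FE N β (par k s lam) := fun N hN => by
    have hN' := (Finset.mem_Ico.1 hN).1
    have hN0 : 0 < N := by omega
    have hN3 : (n : ℝ) ≤ 3 * N := by exact_mod_cast (by omega : n ≤ 3 * N)
    have hN1 : (0 : ℝ) < N := by positivity
    have hE := (Eg.sum (Finset.range k) fun j _ =>
      (eg_d2 (N := N) k s u lam j).const_mul (N : ℝ)⁻¹).const_mul (2 / (u * s ^ 2))
    have h1 := hI P hP N k hN0 s lam hl (hks.trans hr2) _ ((Eg.const (24 / r)).add hE) fun h => by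
      have a1 := sync_le N k _ wt1 hN0 s u (1 / r) hs0 hu0 (by positivity) lam (fun j => (hl j).1) h
      have a2 := num hr1 hn0 hN3 hk' hs0 hs2 hu'
      refine a1.trans (le_trans (le_of_eq ?_) (add_le_add a2 le_rfl))
      simp only [add_div, Finset.sum_add_distrib, Finset.sum_const, Finset.card_range,
        nsmul_eq_mul, mul_add, Finset.mul_sum, add_assoc]
      congr 5
      exact Finset.sum_congr rfl fun j _ => by field_simp
    rw [Iw_add (Eg.const _) hE, Iw_cmul, Iw_sum _ fun j => (eg_d2 k s u lam j).const_mul _] at h1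
    simp only [Iw_cmul, hD] at h1
    have h3 := Iw_le (β := β) hN0 (Eg.const (24 / r)) (by positivity) fun _ => le_rfl
    have h4 : 1 / (N : ℝ) ≤ 3 * (1 / r) := by
      rw [mul_one_div, div_le_div_iff₀ hN1 hr0]; linarith
    have h5 : Iw β N (fun _ => 24 / r) + (1 / N + k * s ^ 2 + 1 / (k + 1)) ≤ (24 * Ω + 5) / r := by
      rw [show (24 * Ω + 5) / r = 24 / r * Ω + 5 * (1 / r) by ring]
      linarith
    have h6 := mul_le_mul_of_nonneg_left h5 hC
    linarith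
  have h1 := Finset.sum_le_sum hinc
  rw [Finset.sum_Ico_sub (fun N => FE N β (par k s lam)) (Nat.div_le_self n 2),
    Finset.sum_sub_distrib, ← Finset.mul_sum _ _ C, Finset.sum_add_distrib,
    ← Finset.mul_sum _ _ (2 / (u * s ^ 2)), Finset.sum_comm, Finset.sum_const, Finset.sum_const,
    nsmul_eq_mul, nsmul_eq_mul] at h1
  have h2 : 2 / (u * s ^ 2) * ∑ j ∈ Finset.range k, ∑ N ∈ S, (N : ℝ)⁻¹ * D N j ≤ 32 * Ω * (n / r) := by
    have := Finset.sum_le_card_nsmul _ _ _ fun j hj => hd' j (Finset.mem_range.1 hj)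
    rw [Finset.card_range, nsmul_eq_mul] at this
    refine (mul_le_mul_of_nonneg_left this (by positivity)).trans (le_of_eq ?_)
    rw [hk', hu']; field_simp; ring
  have h3 : (S.card : ℝ) * ((24 * Ω + 5) / r) ≤ (24 * Ω + 5) * (n / r) :=
    (mul_le_mul_of_nonneg_right hcard (by positivity)).trans (le_of_eq (by ring))
  have h4 := mul_le_mul_of_nonneg_left (add_le_add h3 h2) hC
  have h5 : (S.card : ℝ) = n - (n / 2 : ℕ) := by
    rw [hS, Nat.card_Ico, Nat.cast_sub (Nat.div_le_self n 2)]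
  have h6 := (FE_pert (N := n / 2) (by omega) β k s hl).1
  have h7 := (FE_pert (N := n) (by omega) β k s hl).2
  have h8 : n * (4 * (k * s ^ 2)) ≤ 4 * ((n : ℝ) / r) :=
    (mul_le_mul_of_nonneg_left (mul_le_mul_of_nonneg_left hks zero_le_four) hn0.le).trans
      (le_of_eq (by ring))
  rw [← h5]
  linarith

/-- **polynomial-rate Parisi lower bound** -/
theorem plbStmt : PlbStmt := by
  intro β hβ
  obtain ⟨C, hC, hD⟩ := dyadic hβ
  set θ : ℝ := (1 / 2) ^ ((10 : ℝ) / 11) with hθ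
  have hθ1 : θ < 1 := rpow_lt_one (by norm_num) (by norm_num) (by norm_num)
  set P0 := |R339.Guerra.Phi β [(β, 1)] 0 - R339.Guerra.pen 0 [(β, 1)] / 4| with hP0
  set C' := 2 * C / (1 - θ) + 2 * (β * P0) with hC'
  have h1 : 0 ≤ 2 * C / (1 - θ) := by have := sub_pos.2 hθ1; positivity
  have h2 : 0 ≤ β * P0 := by positivity
  refine ⟨C', fun P hP n => ?_⟩
  have hPP : β * P ≤ β * P0 := mul_le_mul_of_nonneg_left
    ((hP [(β, 1)] ⟨hβ, le_rfl, zero_le_one, trivial⟩ (by simp)).trans (le_abs_self _)) hβ.le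
  rw [← FE_nil]
  induction n using Nat.strong_induction_on with
  | _ n ih =>
  set x := (n : ℝ) ^ ((1 : ℝ) / 11) with hx
  set y := (n : ℝ) ^ ((10 : ℝ) / 11) with hy
  have hx0 : 0 ≤ x := by positivity
  have hy0 : 0 ≤ y := by positivity
  have hxy : x * y = n := by
    rw [hx, hy, ← rpow_add' (by positivity) (by norm_num)]; norm_num
  have hx11 : x ^ 11 = n := by
    rw [hx, ← rpow_natCast, ← rpow_mul (by positivity)]; norm_num
  rcases le_or_gt 2 x with h | h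
  · have hr : 2 ≤ ⌊x⌋₊ := Nat.le_floor (by exact_mod_cast h)
    have hr1 : (2 : ℝ) ≤ ⌊x⌋₊ := by exact_mod_cast hr
    have hn : ⌊x⌋₊ ^ 11 ≤ n := by
      have : ((⌊x⌋₊ : ℝ)) ^ 11 ≤ n := hx11 ▸ pow_le_pow_left₀ (by positivity) (Nat.floor_le hx0) 11
      exact_mod_cast this
    have hn2 : 0 < n := lt_of_lt_of_le (by positivity) hn
    have a1 := hD P hP n _ hr hn
    have a2 := ih (n / 2) (by omega)
    have a3 : (n : ℝ) / ⌊x⌋₊ ≤ 2 * y := by
      rw [div_le_iff₀ (by linarith), ← hxy]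
      have := Nat.lt_floor_add_one x
      nlinarith
    have a4 : ((n / 2 : ℕ) : ℝ) ^ ((10 : ℝ) / 11) ≤ θ * y := by
      rw [hθ, hy, ← mul_rpow (by norm_num) (by positivity)]
      exact rpow_le_rpow (by positivity) (Nat.cast_div_le.trans (le_of_eq (by push_cast; ring)))
        (by norm_num)
    have a5 := mul_le_mul_of_nonneg_left a3 hC
    have a6 := mul_le_mul_of_nonneg_left a4 (show 0 ≤ C' by positivity)
    have a7 : 2 * C ≤ C' * (1 - θ) := by
      rw [hC', add_mul, div_mul_cancel₀ _ (sub_pos.2 hθ1).ne']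
      have := sub_pos.2 hθ1
      nlinarith
    have a8 := mul_le_mul_of_nonneg_right a7 hy0
    linarith
  · have a1 := FE_nonneg n β
    have a2 := mul_le_mul_of_nonneg_left hPP (Nat.cast_nonneg (α := ℝ) n)
    have a3 : (n : ℝ) ≤ 2 * y := by rw [← hxy]; exact mul_le_mul_of_nonneg_right h.le hy0
    have a4 := mul_le_mul_of_nonneg_right a3 h2
    have a5 := mul_nonneg h1 hy0
    rw [hC']
    linarith


end Crest.Agent.T157.Plb

end
end

-- ▼ part T157/StD_49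
section

/-!
Row 157, part D (helper49): scalar algebra for the choice of the spectral parameter `u` in the
two steps of the self-correcting ascent.
-/

set_option autoImplicit false

noncomputable section

namespace Crest.Agent.T157.St.D49

open Finset

variable {n : ℕ}

theorem av_le {f g : Fin n → ℝ} (h : ∀ i, f i ≤ g i) : av f ≤ av g :=
  div_le_div_of_nonneg_right (sum_le_sum fun i _ => h i) (Nat.cast_nonneg n)

theorem av_const (hn : 0 < n) (c : ℝ) : av (fun _ : Fin n => c) = c := by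
  have : (n : ℝ) ≠ 0 := by exact_mod_cast hn.ne'
  simp only [av, sum_const, card_univ, Fintype.card_fin, nsmul_eq_mul]
  field_simp

theorem av_add (f g : Fin n → ℝ) : av (fun i => f i + g i) = av f + av g := by
  simp only [av, sum_add_distrib, add_div]

theorem av_sub (f g : Fin n → ℝ) : av (fun i => f i - g i) = av f - av g := by
  simp only [av, sum_sub_distrib, sub_div]

theorem av_mul (c : ℝ) (f : Fin n → ℝ) : av (fun i => c * f i) = c * av f := by
  simp only [av, ← mul_sum, mul_div_assoc]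

theorem av_nonneg {f : Fin n → ℝ} (h : ∀ i, 0 ≤ f i) : 0 ≤ av f :=
  div_nonneg (sum_nonneg fun i _ => h i) (Nat.cast_nonneg n)

theorem av_pos (hn : 0 < n) {f : Fin n → ℝ} (h : ∀ i, 0 < f i) : 0 < av f :=
  div_pos (sum_pos (fun i _ => h i) ⟨⟨0, hn⟩, mem_univ _⟩) (by exact_mod_cast hn)

theorem av_le_const (hn : 0 < n) {f : Fin n → ℝ} {c : ℝ} (h : ∀ i, f i ≤ c) : av f ≤ c :=
  (av_le h).trans (av_const hn c).le

theorem abs_av_le {f g : Fin n → ℝ} (h : ∀ i, |f i| ≤ g i) : |av f| ≤ av g := by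
  have h1 := av_le fun i => (abs_le.1 (h i)).2
  have h2 := av_le fun i => (abs_le.1 (h i)).1
  have e : av (fun i => -g i) = -av g := by simp only [av, sum_neg_distrib, neg_div]
  rw [abs_le]; constructor <;> linarith

theorem sq_av_le (hn : 0 < n) (f : Fin n → ℝ) : av f ^ 2 ≤ av fun i => f i ^ 2 := by
  have h := av_nonneg (f := fun i => (f i - av f) ^ 2) fun i => sq_nonneg _
  have e : (fun i => (f i - av f) ^ 2) = fun i => (f i ^ 2 - (2 * av f) * f i) + av f ^ 2 := by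
    ext i; ring
  rw [e, av_add, av_sub, av_mul, av_const hn] at h
  nlinarith

/-- the remainder in the expansion of `gr` -/
def hh (D : Fin n → ℝ) (u1 u2 : ℝ) : ℝ := av fun i => (D i * ((D i + u1) ^ 2 + u2 ^ 2))⁻¹

variable {D : Fin n → ℝ} {β u1 u2 η : ℝ}

theorem den_ge (hD : ∀ i, 1 ≤ D i) (hu : -(1 / 2) ≤ u1) (u2 : ℝ) (i : Fin n) :
    1 / 4 ≤ (D i + u1) ^ 2 + u2 ^ 2 := by
  have := hD i
  nlinarith [sq_nonneg u2]

/-- **(D0)** -/
theorem ident (hD : ∀ i, 1 ≤ D i) (hu : -(1 / 2) ≤ u1) (u2 : ℝ) :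
    gr D u1 u2 - av (fun i => (D i)⁻¹) = -u1 * g2 D u1 u2 - (u1 ^ 2 + u2 ^ 2) * hh D u1 u2 := by
  rw [gr, g2, hh, ← av_sub, ← av_mul, ← av_mul, ← av_sub]
  congr 1
  ext i
  have h1 := den_ge hD hu u2 i
  have h2 := hD i
  have h3 : (D i + u1) ^ 2 + u2 ^ 2 ≠ 0 := by linarith
  have h4 : D i ≠ 0 := by linarith
  field_simp
  ring

theorem hh_nonneg (hD : ∀ i, 1 ≤ D i) (u1 u2 : ℝ) : 0 ≤ hh D u1 u2 :=
  av_nonneg fun i => by have := hD i; positivity

theorem hh_le (hD : ∀ i, 1 ≤ D i) (hu : -(1 / 2) ≤ u1) (u2 : ℝ) : hh D u1 u2 ≤ g2 D u1 u2 :=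
  av_le fun i => by
    have h1 := den_ge hD hu u2 i
    have h2 := hD i
    exact inv_anti₀ (by linarith) (by nlinarith)

theorem g2_pos (hn : 0 < n) (hD : ∀ i, 1 ≤ D i) (hu : -(1 / 2) ≤ u1) (u2 : ℝ) : 0 < g2 D u1 u2 :=
  av_pos hn fun i => inv_pos.2 (by linarith [den_ge hD hu u2 i])

theorem g2_le (hn : 0 < n) (hD : ∀ i, 1 ≤ D i) (hu : -(1 / 2) ≤ u1) (u2 : ℝ) : g2 D u1 u2 ≤ 4 :=
  av_le_const hn fun i => by
    have := inv_anti₀ (by norm_num) (den_ge hD hu u2 i)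
    norm_num at this ⊢; exact this

theorem abs_gr_le (hn : 0 < n) (hD : ∀ i, 1 ≤ D i) (hu : -(1 / 2) ≤ u1) (u2 : ℝ) :
    |gr D u1 u2| ≤ 2 := by
  refine (abs_av_le (g := fun _ => 2) fun i => ?_).trans (av_const hn 2).le
  have h1 := den_ge hD hu u2 i
  have h2 := hD i
  rw [abs_of_nonneg (mul_nonneg (by linarith) (by positivity)), ← div_eq_mul_inv,
    div_le_iff₀ (by linarith)]
  nlinarith [sq_nonneg u2]

theorem ku_le_one (β : ℝ) (D : Fin n → ℝ) (u1 u2 : ℝ) : ku β D u1 u2 ≤ 1 := by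
  have : 0 ≤ g2 D u1 u2 := av_nonneg fun i => by positivity
  rw [ku]; nlinarith [sq_nonneg β]

theorem ku_zero (β : ℝ) (D : Fin n → ℝ) : ku β D 0 0 = 1 - β ^ 2 * av fun i => (D i)⁻¹ ^ 2 := by
  simp [ku, g2]

/-- `u₁ + β² (gr - g₀) = u₁ κ_u - β² |u|² h` -/
theorem ident' (hD : ∀ i, 1 ≤ D i) (hu : -(1 / 2) ≤ u1) (β u2 : ℝ) :
    u1 + β ^ 2 * (gr D u1 u2 - av fun i => (D i)⁻¹) =
      u1 * ku β D u1 u2 - β ^ 2 * (u1 ^ 2 + u2 ^ 2) * hh D u1 u2 := by
  rw [ident hD hu, ku]; ring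

theorem inv_mem (hD : ∀ i, 1 ≤ D i) (i : Fin n) : 0 < (D i)⁻¹ ∧ (D i)⁻¹ ≤ 1 :=
  ⟨inv_pos.2 (by linarith [hD i]), inv_le_one_of_one_le₀ (hD i)⟩

theorem cube_ge (hn : 0 < n) (hD : ∀ i, 1 ≤ D i) (β : ℝ) :
    (1 - ku β D 0 0) ^ 2 ≤ β ^ 4 * av fun i => (D i)⁻¹ ^ 3 := by
  have h1 := sq_av_le hn fun i => (D i)⁻¹ ^ 2
  have h2 : av (fun i => ((D i)⁻¹ ^ 2) ^ 2) ≤ av fun i => (D i)⁻¹ ^ 3 := av_le fun i => by
    rw [← pow_mul]; exact pow_le_pow_of_le_one (inv_mem hD i).1.le (inv_mem hD i).2 (by norm_num)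
  rw [ku_zero]
  have := mul_le_mul_of_nonneg_left (h1.trans h2) (by positivity : 0 ≤ β ^ 4)
  nlinarith

theorem cube_le (hn : 0 < n) (hD : ∀ i, 1 ≤ D i) : (av fun i => (D i)⁻¹ ^ 3) ≤ 1 :=
  av_le_const hn fun i => pow_le_one₀ (inv_mem hD i).1.le (inv_mem hD i).2

theorem pt2 {d u v : ℝ} (hd : 1 ≤ d) (h0 : 0 ≤ u) (h1 : u ≤ 1 / 3) :
    ((d + u) ^ 2 + v ^ 2)⁻¹ ≤ d⁻¹ ^ 2 - u * d⁻¹ ^ 3 := by
  have e : d⁻¹ ^ 2 - u * d⁻¹ ^ 3 = (d - u) / d ^ 3 := by field_simp
  rw [e, inv_eq_one_div, div_le_div_iff₀ (by positivity) (by positivity)]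
  have h2 : 0 ≤ (d - u) * v ^ 2 := mul_nonneg (by linarith) (sq_nonneg v)
  have h3 : 0 ≤ u * (d ^ 2 - d * u - u ^ 2) := mul_nonneg h0 (by nlinarith)
  nlinarith

/-- **(D2)** -/
theorem d2 (hn : 0 < n) (hβ : 1 ≤ β) (hD : ∀ i, 1 ≤ D i) (hη : 0 < η) (h1 : 24 * β ^ 2 * η ≤ 1)
    (h2 : 24 * β ^ 2 * max (-ku β D 0 0) 0 ≤ 1)
    (hu : u1 = 4 * β ^ 2 * (max (-ku β D 0 0) 0 + η)) (u2 : ℝ) :
    0 ≤ u1 ∧ u1 ≤ 1 ∧ max (ku β D 0 0) η ≤ ku β D u1 u2 ∧ ku β D u1 u2 ≤ 1 ∧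
      -(g2 D u1 u2 / ku β D u1 u2) * (u1 ^ 2 + u2 ^ 2) ≤
        (gr D u1 u2 - av fun i => (D i)⁻¹) +
          (u1 + β ^ 2 * (gr D u1 u2 - av fun i => (D i)⁻¹)) * (g2 D u1 u2 / ku β D u1 u2) := by
  have hm := le_max_right (-ku β D 0 0) 0
  have hm' := le_max_left (-ku β D 0 0) 0
  have hb : 1 ≤ β ^ 2 := one_le_pow₀ hβ
  have u0 : 0 ≤ u1 := by rw [hu]; positivity
  have u3 : u1 ≤ 1 / 3 := by rw [hu]; linarith
  have hc := cube_ge hn hD β
  have hA : 0 ≤ av fun i => (D i)⁻¹ ^ 3 := av_nonneg fun i => pow_nonneg (inv_mem hD i).1.le 3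
  have k1 : ku β D 0 0 + β ^ 2 * (u1 * av fun i => (D i)⁻¹ ^ 3) ≤ ku β D u1 u2 := by
    have : g2 D u1 u2 ≤ av (fun i => (D i)⁻¹ ^ 2) - u1 * av fun i => (D i)⁻¹ ^ 3 := by
      rw [← av_mul, ← av_sub]; exact av_le fun i => pt2 (hD i) u0 u3
    rw [ku_zero, ku]
    nlinarith
  have k2 : max (ku β D 0 0) η ≤ ku β D u1 u2 := by
    have p : 0 ≤ β ^ 2 * (u1 * av fun i => (D i)⁻¹ ^ 3) := by positivity
    rcases le_total η (ku β D 0 0) with h | h
    · rw [max_eq_left h]; linarith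
    · rw [max_eq_right h]
      have e : β ^ 2 * (u1 * av fun i => (D i)⁻¹ ^ 3) =
          4 * (max (-ku β D 0 0) 0 + η) * (β ^ 4 * av fun i => (D i)⁻¹ ^ 3) := by rw [hu]; ring
      have h3 : η ≤ 1 / 2 := by nlinarith
      have h4 : 1 / 4 ≤ β ^ 4 * av fun i => (D i)⁻¹ ^ 3 := by nlinarith
      nlinarith
  have k0 : 0 < ku β D u1 u2 := hη.trans_le ((le_max_right _ _).trans k2)
  refine ⟨u0, by linarith, k2, ku_le_one .., ?_⟩
  have hu' : -(1 / 2) ≤ u1 := by linarith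
  rw [ident' hD hu', ident hD hu']
  have e : -u1 * g2 D u1 u2 - (u1 ^ 2 + u2 ^ 2) * hh D u1 u2 +
      (u1 * ku β D u1 u2 - β ^ 2 * (u1 ^ 2 + u2 ^ 2) * hh D u1 u2) * (g2 D u1 u2 / ku β D u1 u2) =
      -(hh D u1 u2 / ku β D u1 u2) * (u1 ^ 2 + u2 ^ 2) := by
    have e1 : β ^ 2 * g2 D u1 u2 = 1 - ku β D u1 u2 := by rw [ku]; ring
    field_simp
    linear_combination (-(u1 ^ 2 + u2 ^ 2) * hh D u1 u2) * e1
  rw [e]
  exact mul_le_mul_of_nonneg_right (neg_le_neg (div_le_div_of_nonneg_right (hh_le hD hu' u2) k0.le))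
    (by positivity)

theorem pt1 {d u v : ℝ} (hd : 1 ≤ d) (h : |u| ≤ 1 / 4) :
    |((d + u) ^ 2 + v ^ 2)⁻¹ - (d⁻¹ ^ 2 - 2 * u * d⁻¹ ^ 3)| ≤ 7 * (u ^ 2 + v ^ 2) * d⁻¹ ^ 2 := by
  obtain ⟨h1, h2⟩ := abs_le.1 h
  have hN : 9 / 16 * d ^ 2 ≤ (d + u) ^ 2 + v ^ 2 := by nlinarith [sq_nonneg v]
  have hN0 : 0 < (d + u) ^ 2 + v ^ 2 := by nlinarith
  have hd0 : 0 < d := by linarith
  have e : ((d + u) ^ 2 + v ^ 2)⁻¹ - (d⁻¹ ^ 2 - 2 * u * d⁻¹ ^ 3) =
      ((4 * u ^ 2 - (u ^ 2 + v ^ 2)) * d + 2 * u * (u ^ 2 + v ^ 2)) / (d * ((d + u) ^ 2 + v ^ 2)) *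
        d⁻¹ ^ 2 := by
    field_simp; ring
  rw [e, abs_mul, abs_of_nonneg (sq_nonneg d⁻¹)]
  refine mul_le_mul_of_nonneg_right ?_ (sq_nonneg _)
  rw [abs_div, abs_of_pos (mul_pos hd0 hN0), div_le_iff₀ (mul_pos hd0 hN0)]
  have hr : 0 ≤ u ^ 2 + v ^ 2 := by positivity
  have h3 : 9 / 16 * d ≤ d * ((d + u) ^ 2 + v ^ 2) := by nlinarith
  have h4 := mul_le_mul_of_nonneg_left h3 hr
  have h5 := mul_le_mul_of_nonneg_left hd hr
  have h6 := mul_le_mul_of_nonneg_right h1 hr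
  have h7 := mul_le_mul_of_nonneg_right h2 hr
  have h8 := mul_nonneg (sq_nonneg u) hd0.le
  have h9 := mul_nonneg (sq_nonneg v) hd0.le
  rw [abs_le]; constructor <;> nlinarith

set_option maxHeartbeats 800000 in
/-- **(D1)** -/
theorem d1 (hn : 0 < n) (hβ : 1 ≤ β) (hD : ∀ i, 1 ≤ D i) (hη : 0 < η) {t : ℝ}
    (ht : t = |ku β D 0 0| + η) (h1 : 1200 * β ^ 10 * t ≤ 1)
    (hu : u1 = -ku β D 0 0 / (2 * β ^ 2 * av fun i => (D i)⁻¹ ^ 3) + 200 * β ^ 8 * t ^ 2) :
    |u1| ≤ 3 * β ^ 2 * t ∧ t ^ 2 ≤ ku β D u1 (η ^ 2) ∧ ku β D u1 (η ^ 2) ≤ 600 * β ^ 10 * t ^ 2 ∧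
      1 / (2 * β ^ 2) ≤ g2 D u1 (η ^ 2) ∧
      |u1 + β ^ 2 * (gr D u1 (η ^ 2) - av fun i => (D i)⁻¹)| ≤ 600 * β ^ 10 * t ^ 2 := by
  have hk := abs_nonneg (ku β D 0 0)
  have t0 : 0 < t := by linarith
  have b2 : 1 ≤ β ^ 2 := one_le_pow₀ hβ
  have b4 : β ^ 2 ≤ β ^ 4 := pow_le_pow_right₀ hβ (by norm_num)
  have b6 : β ^ 4 ≤ β ^ 6 := pow_le_pow_right₀ hβ (by norm_num)
  have b10 : β ^ 6 ≤ β ^ 10 := pow_le_pow_right₀ hβ (by norm_num)
  have t6 : β ^ 6 * t ≤ 1 / 1200 := by nlinarith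
  have t2 : β ^ 2 * t ≤ 1 / 1200 := by nlinarith
  have t1 : t ≤ 1 / 1200 := by nlinarith
  obtain ⟨A, hA⟩ : ∃ A, A = av fun i => (D i)⁻¹ ^ 3 := ⟨_, rfl⟩
  obtain ⟨k, hk0⟩ : ∃ k, k = ku β D 0 0 := ⟨_, rfl⟩
  have hc := cube_ge hn hD β
  have A1 := cube_le hn hD
  have A0 : 0 < av fun i => (D i)⁻¹ ^ 3 := av_pos hn fun i => pow_pos (inv_mem hD i).1 3
  have kz := ku_zero β D
  rw [← hA] at hc A1 A0 hu
  rw [← hk0] at hc kz hu ht hk
  have k0 : |k| ≤ t := by linarith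
  obtain ⟨k1, k2⟩ := abs_le.1 k0
  have A2 : 1 / 2 ≤ β ^ 4 * A := by nlinarith
  have q1 : |-k / (2 * β ^ 2 * A)| ≤ β ^ 2 * t := by
    rw [abs_div, abs_neg, abs_of_pos (by positivity : 0 < 2 * β ^ 2 * A), div_le_iff₀ (by positivity)]
    nlinarith [mul_le_mul_of_nonneg_left A2 t0.le]
  have q2 : 200 * β ^ 8 * t ^ 2 ≤ 2 * β ^ 2 * t := by
    have : β ^ 8 * t ^ 2 = (β ^ 6 * t) * (β ^ 2 * t) := by ring
    nlinarith [mul_pos (by positivity : 0 < β ^ 2) t0]
  have q3 : |u1| ≤ 3 * β ^ 2 * t := by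
    rw [hu]
    refine (abs_add_le _ _).trans ?_
    rw [abs_of_nonneg (by positivity : 0 ≤ 200 * β ^ 8 * t ^ 2)]
    linarith
  have q4 : |u1| ≤ 1 / 4 := by linarith
  have hu' : -(1 / 2) ≤ u1 := by linarith [(abs_le.1 q4).1]
  have r1 : u1 ^ 2 + (η ^ 2) ^ 2 ≤ 10 * β ^ 4 * t ^ 2 := by
    have a1 := pow_le_pow_left₀ (abs_nonneg _) q3 2
    rw [sq_abs] at a1
    have a2 : η ^ 2 ≤ t := by nlinarith
    have a3 := pow_le_pow_left₀ (sq_nonneg _) a2 2
    nlinarith [sq_nonneg t]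
  have r2 : |g2 D u1 (η ^ 2) - ((av fun i => (D i)⁻¹ ^ 2) - 2 * u1 * A)| ≤
      7 * (u1 ^ 2 + (η ^ 2) ^ 2) * av fun i => (D i)⁻¹ ^ 2 := by
    rw [hA, ← av_mul, ← av_sub, g2, ← av_sub, ← av_mul]
    exact abs_av_le fun i => pt1 (hD i) q4
  have r3 : |ku β D u1 (η ^ 2) - 400 * β ^ 10 * A * t ^ 2| ≤ 140 * β ^ 4 * t ^ 2 := by
    have e : ku β D u1 (η ^ 2) - 400 * β ^ 10 * A * t ^ 2 =
        -β ^ 2 * (g2 D u1 (η ^ 2) - ((av fun i => (D i)⁻¹ ^ 2) - 2 * u1 * A)) := by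
      have e1 : 2 * β ^ 2 * A * u1 = -k + 400 * β ^ 10 * A * t ^ 2 := by rw [hu]; field_simp; ring
      rw [ku]; linear_combination e1 - kz
    rw [e, abs_mul, abs_neg, abs_of_nonneg (sq_nonneg β)]
    refine (mul_le_mul_of_nonneg_left r2 (sq_nonneg β)).trans ?_
    have e2 : β ^ 2 * (7 * (u1 ^ 2 + (η ^ 2) ^ 2) * av fun i => (D i)⁻¹ ^ 2) =
        7 * (u1 ^ 2 + (η ^ 2) ^ 2) * (1 - k) := by rw [kz]; ring
    rw [e2]
    calc _ ≤ 7 * (10 * β ^ 4 * t ^ 2) * 2 :=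
          mul_le_mul (by linarith) (by linarith) (by linarith) (by positivity)
      _ = _ := by ring
  obtain ⟨r4, r5⟩ := abs_le.1 r3
  have tt : 0 < t ^ 2 := by positivity
  have s1 : 200 * β ^ 6 * t ^ 2 ≤ 400 * β ^ 10 * A * t ^ 2 := by
    refine mul_le_mul_of_nonneg_right ?_ tt.le
    have := mul_le_mul_of_nonneg_left A2 (by positivity : 0 ≤ β ^ 6)
    linarith
  have s2 : 400 * β ^ 10 * A * t ^ 2 ≤ 400 * β ^ 10 * t ^ 2 := by
    refine mul_le_mul_of_nonneg_right ?_ tt.le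
    have := mul_le_mul_of_nonneg_left A1 (by positivity : 0 ≤ β ^ 10)
    linarith
  have c4 := mul_le_mul_of_nonneg_right (b2.trans b4) tt.le
  have c6 := mul_le_mul_of_nonneg_right b6 tt.le
  have c10 := mul_le_mul_of_nonneg_right b10 tt.le
  have s3 : t ^ 2 ≤ ku β D u1 (η ^ 2) := by linarith
  have s4 : ku β D u1 (η ^ 2) ≤ 540 * β ^ 10 * t ^ 2 := by linarith
  refine ⟨q3, s3, by linarith, ?_, ?_⟩
  · have : ku β D u1 (η ^ 2) ≤ 1 / 2 := by
      have := mul_le_mul h1 (show t ≤ 1 by linarith) t0.le zero_le_one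
      linarith
    rw [ku] at this
    rw [div_le_iff₀ (by positivity)]; linarith
  · rw [ident' hD hu']
    refine (abs_sub _ _).trans ?_
    have a1 := hh_nonneg hD u1 (η ^ 2)
    have a2 := (hh_le hD hu' (η ^ 2)).trans (g2_le hn hD hu' _)
    rw [abs_mul, abs_of_nonneg (tt.le.trans s3), abs_of_nonneg (mul_nonneg (by positivity) a1)]
    have a3 : |u1| * ku β D u1 (η ^ 2) ≤ 1 * ku β D u1 (η ^ 2) :=
      mul_le_mul_of_nonneg_right (by linarith) (tt.le.trans s3)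
    have a4 : β ^ 2 * (u1 ^ 2 + (η ^ 2) ^ 2) * hh D u1 (η ^ 2) ≤ β ^ 2 * (10 * β ^ 4 * t ^ 2) * 4 := by
      gcongr
    linarith

end Crest.Agent.T157.St.D49
end
end

-- ▼ part T157/StE_65
section

/-!
# Row 157, part D: `ContStmt`, `SegStmt`, `EndStmt` (helper65)
-/

set_option autoImplicit false

noncomputable section

namespace Crest.Agent.T157.St

open MeasureTheory Matrix Set Filter Topology
open Crest.Agent.T157.E Crest.Agent.T157.Eig

namespace E65

variable {n : ℕ} {β C b : ℝ} (S : Site β C b) {s s' m m' : ℝ}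

/-! ### one site -/

theorem p1_mono (hs : s ∈ Icc (0 : ℝ) 1) : StrictMono (S.p1 s) :=
  strictMono_of_deriv_pos fun x => by rw [(S.d2 s hs x).deriv]; exact S.pos2 s hs x

theorem p1_X (hs : s ∈ Icc (0 : ℝ) 1) (hm : |m| < 1) : S.p1 s (S.X s m) = m :=
  Function.invFun_eq (S.onto s hs m hm)

theorem Lam_le (hs : s ∈ Icc (0 : ℝ) 1) (hm : |m| < 1) (x : ℝ) : S.Lam s m ≤ S.Φ s x - x * m := by
  have hc : ConvexOn ℝ univ (S.Φ s) := by
    refine Monotone.convexOn_univ_of_deriv (fun x => (S.d1 s hs x).differentiableAt) ?_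
    rw [show deriv (S.Φ s) = S.p1 s from funext fun x => (S.d1 s hs x).deriv]
    exact (p1_mono S hs).monotone
  have h1 := p1_X S hs hm
  rw [Site.Lam]
  rcases lt_trichotomy x (S.X s m) with h | h | h
  · have := hc.slope_le_of_hasDerivAt (mem_univ x) (mem_univ _) h (S.d1 s hs _)
    rw [h1, slope_def_field, div_le_iff₀ (sub_pos.2 h)] at this
    linarith
  · rw [h]
  · have := hc.le_slope_of_hasDerivAt (mem_univ _) (mem_univ x) h (S.d1 s hs _)
    rw [h1, slope_def_field, le_div_iff₀ (sub_pos.2 h)] at this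
    linarith

theorem abs_seg {t : ℝ} (ht : t ∈ Icc (0 : ℝ) 1) (hm : |m| < 1) (hm' : |m'| < 1) :
    |(1 - t) * m + t * m'| < 1 := by
  have h := (convex_Ioo (-1 : ℝ) 1) (abs_lt.1 hm) (abs_lt.1 hm') (sub_nonneg.2 ht.2) ht.1 (by ring)
  exact abs_lt.2 h

theorem Lam_concave (hs : s ∈ Icc (0 : ℝ) 1) (hm : |m| < 1) (hm' : |m'| < 1) {t : ℝ}
    (ht : t ∈ Icc (0 : ℝ) 1) :
    (1 - t) * S.Lam s m + t * S.Lam s m' ≤ S.Lam s ((1 - t) * m + t * m') := by
  have h1 := mul_le_mul_of_nonneg_left (Lam_le S hs hm (S.X s ((1 - t) * m + t * m')))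
    (sub_nonneg.2 ht.2)
  have h2 := mul_le_mul_of_nonneg_left (Lam_le S hs hm' (S.X s ((1 - t) * m + t * m'))) ht.1
  rw [Site.Lam, Site.Lam, Site.Lam] at *
  linarith

theorem sqrt_mul_le (hs : s ∈ Icc (0 : ℝ) 1) (hs' : s' ∈ Icc (0 : ℝ) 1) :
    |s' - s| * √|s' - s| ≤ |s' - s| :=
  mul_le_of_le_one_right (abs_nonneg _) (Real.sqrt_le_one.2 (abs_le.2
    ⟨by linarith [hs.2, hs'.1], by linarith [hs.1, hs'.2]⟩))

theorem Phi_lip (hC : 0 ≤ C) (hs : s ∈ Icc (0 : ℝ) 1) (hs' : s' ∈ Icc (0 : ℝ) 1) (x : ℝ) :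
    |S.Φ s' x - S.Φ s x| ≤ (β ^ 2 + C) * |s' - s| := by
  have h1 := (S.pde s hs s' hs' x).trans (mul_le_mul_of_nonneg_left (sqrt_mul_le hs hs') hC)
  have h2 : |(s' - s) * S.p2 s' x| ≤ |s' - s| := by
    rw [abs_mul, abs_of_pos (S.pos2 s' hs' x)]
    exact mul_le_of_le_one_right (abs_nonneg _) (S.le2 s' hs' x)
  have h3 : |(S.Zc s' - S.Zc s) * S.p1 s' x ^ 2| ≤ |s' - s| := by
    rw [abs_mul, abs_pow]
    exact (mul_le_of_le_one_right (abs_nonneg _) (pow_le_one₀ (abs_nonneg _)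
      (S.abs1 s' hs' x).le)).trans (S.zlip s' hs' s hs)
  have h4 := mul_le_mul_of_nonneg_left ((abs_add_le _ _).trans (add_le_add h2 h3))
    (by positivity : 0 ≤ β ^ 2 / 2)
  have h5 := abs_sub (S.Φ s' x - S.Φ s x + β ^ 2 / 2 * ((s' - s) * S.p2 s' x +
    (S.Zc s' - S.Zc s) * S.p1 s' x ^ 2)) (β ^ 2 / 2 * ((s' - s) * S.p2 s' x +
    (S.Zc s' - S.Zc s) * S.p1 s' x ^ 2))
  rw [add_sub_cancel_right, abs_mul (β ^ 2 / 2), abs_of_nonneg (by positivity : 0 ≤ β ^ 2 / 2)] at h5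
  linarith

theorem pen_lip (hC : 0 ≤ C) (hs : s ∈ Icc (0 : ℝ) 1) (hs' : s' ∈ Icc (0 : ℝ) 1) :
    |S.pen s - S.pen s'| ≤ (β ^ 2 + C) * |s' - s| := by
  have h1 := (S.penD s hs s' hs').trans (mul_le_mul_of_nonneg_left (sqrt_mul_le hs hs') hC)
  have h3 : |s' * (S.Zc s' - S.Zc s)| ≤ |s' - s| := by
    rw [abs_mul, abs_of_nonneg hs'.1]
    exact (mul_le_of_le_one_left (abs_nonneg _) hs'.2).trans (S.zlip s' hs' s hs)
  have h4 := mul_le_mul_of_nonneg_left h3 (by positivity : 0 ≤ β ^ 2 / 2)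
  have h5 := abs_add_le (S.pen s - S.pen s' - β ^ 2 / 2 * (s' * (S.Zc s' - S.Zc s)))
    (β ^ 2 / 2 * (s' * (S.Zc s' - S.Zc s)))
  rw [sub_add_cancel, abs_mul (β ^ 2 / 2), abs_of_nonneg (by positivity : 0 ≤ β ^ 2 / 2)] at h5
  nlinarith [abs_nonneg (s' - s), sq_nonneg β]

theorem Lam_lip (hC : 0 ≤ C) (hs : s ∈ Icc (0 : ℝ) 1) (hs' : s' ∈ Icc (0 : ℝ) 1) (hm : |m| < 1) :
    S.Lam s m ≤ S.Lam s' m + (β ^ 2 + C) * |s' - s| := by
  have h1 := Lam_le S hs hm (S.X s' m)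
  have h2 := (abs_le.1 (Phi_lip S hC hs hs' (S.X s' m))).1
  rw [Site.Lam, Site.Lam] at *
  linarith

/-! ### continuity -/

section cont

variable {T : Type*} [TopologicalSpace T] {q x μ : T → ℝ}

theorem cont_two {f : ℝ → ℝ → ℝ} {ω : ℝ → ℝ} (hω : Continuous ω) (h0 : ω 0 = 0)
    (h1 : ∀ s ∈ Icc (0 : ℝ) 1, ∀ s' ∈ Icc (0 : ℝ) 1, ∀ x, |f s x - f s' x| ≤ ω (s - s'))
    (h2 : ∀ s ∈ Icc (0 : ℝ) 1, Continuous (f s)) (hq : Continuous q) (hq' : ∀ t, q t ∈ Icc (0 : ℝ) 1)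
    (hx : Continuous x) : Continuous fun t => f (q t) (x t) := by
  refine continuous_iff_continuousAt.2 fun t0 => ?_
  have e1 : Tendsto (fun t => f (q t) (x t) - f (q t0) (x t)) (𝓝 t0) (𝓝 0) := by
    refine squeeze_zero_norm (fun t => h1 _ (hq' t) _ (hq' t0) _) ?_
    have : Continuous fun t => ω (q t - q t0) := by fun_prop
    simpa [h0] using this.tendsto t0
  have e2 := ((h2 _ (hq' t0)).comp hx).tendsto t0
  simpa [ContinuousAt] using e1.add e2

theorem cont_Phi (hC : 0 ≤ C) (hq : Continuous q) (hq' : ∀ t, q t ∈ Icc (0 : ℝ) 1)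
    (hx : Continuous x) : Continuous fun t => S.Φ (q t) (x t) :=
  cont_two (ω := fun u => (β ^ 2 + C) * |u|) (by fun_prop) (by simp)
    (fun _ hs _ hs' x => Phi_lip S hC hs' hs x)
    (fun s hs => continuous_iff_continuousAt.2 fun x => (S.d1 s hs x).continuousAt) hq hq' hx

theorem cont_p1 (hq : Continuous q) (hq' : ∀ t, q t ∈ Icc (0 : ℝ) 1) (hx : Continuous x) :
    Continuous fun t => S.p1 (q t) (x t) :=
  cont_two (ω := fun u => C * |u|) (by fun_prop) (by simp) S.t1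
    (fun s hs => continuous_iff_continuousAt.2 fun x => (S.d2 s hs x).continuousAt) hq hq' hx

theorem cont_p2 (hq : Continuous q) (hq' : ∀ t, q t ∈ Icc (0 : ℝ) 1) (hx : Continuous x) :
    Continuous fun t => S.p2 (q t) (x t) :=
  cont_two (ω := fun u => C * √|u|) (by fun_prop) (by simp) S.t2
    (fun s hs => continuous_iff_continuousAt.2 fun x0 => by
      have e1 : Tendsto (fun x => S.p2 s x - S.p2 s x0) (𝓝 x0) (𝓝 0) := by
        refine squeeze_zero_norm (fun x => S.lip2 s hs x x0) ?_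
        have : Continuous fun x => C * |x - x0| := by fun_prop
        simpa using this.tendsto x0
      simpa [ContinuousAt] using e1.add_const (S.p2 s x0)) hq hq' hx

theorem cont_pen (hC : 0 ≤ C) (hq : Continuous q) (hq' : ∀ t, q t ∈ Icc (0 : ℝ) 1) :
    Continuous fun t => S.pen (q t) :=
  cont_two (f := fun s _ => S.pen s) (ω := fun u => (β ^ 2 + C) * |u|) (x := q) (by fun_prop)
    (by simp) (fun _ hs _ hs' _ => by simpa [abs_sub_comm] using pen_lip S hC hs hs')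
    (fun _ _ => continuous_const) hq hq' hq

theorem cont_X (hq : Continuous q) (hq' : ∀ t, q t ∈ Icc (0 : ℝ) 1) (hμ : Continuous μ)
    (hμ' : ∀ t, |μ t| < 1) : Continuous fun t => S.X (q t) (μ t) := by
  refine continuous_iff_continuousAt.2 fun t0 => tendsto_order.2 ⟨fun a ha => ?_, fun a ha => ?_⟩
  · have h1 := p1_mono S (hq' t0) ha
    rw [p1_X S (hq' t0) (hμ' t0)] at h1
    refine ((cont_p1 S hq hq' (continuous_const (y := a))).continuousAt.eventually_lt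
      hμ.continuousAt h1).mono fun t ht => ?_
    rw [← p1_X S (hq' t) (hμ' t)] at ht
    exact (p1_mono S (hq' t)).lt_iff_lt.1 ht
  · have h1 := p1_mono S (hq' t0) ha
    rw [p1_X S (hq' t0) (hμ' t0)] at h1
    refine (hμ.continuousAt.eventually_lt
      (cont_p1 S hq hq' (continuous_const (y := a))).continuousAt h1).mono fun t ht => ?_
    rw [← p1_X S (hq' t) (hμ' t)] at ht
    exact (p1_mono S (hq' t)).lt_iff_lt.1 ht

theorem dot_le_card {m : Fin n → ℝ} (hm : m ∈ box n) : m ⬝ᵥ m ≤ n := by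
  calc m ⬝ᵥ m ≤ ∑ _i : Fin n, (1 : ℝ) := Finset.sum_le_sum fun i _ => by
        have := abs_lt.1 (hm i); nlinarith
    _ = n := by simp

theorem qq_mem {m : Fin n → ℝ} (hm : m ∈ box n) : qq m ∈ Icc (0 : ℝ) 1 :=
  ⟨div_nonneg (dot_self_nonneg m) (Nat.cast_nonneg n),
    div_le_one_of_le₀ (dot_le_card hm) (Nat.cast_nonneg n)⟩

variable {M : T → Fin n → ℝ} {η : ℝ}

theorem cont_qq (hM : Continuous M) : Continuous fun t => qq (M t) := by
  unfold qq dotProduct; fun_prop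

theorem cont_av {f : T → Fin n → ℝ} (hf : ∀ i, Continuous fun t => f t i) :
    Continuous fun t => av (f t) := by
  unfold av; fun_prop

theorem cont_aa (hM : Continuous M) (hM' : ∀ t, M t ∈ box n) (i : Fin n) :
    Continuous fun t => S.aa (qq (M t)) (M t i) :=
  cont_p2 S (cont_qq hM) (fun t => qq_mem (hM' t)) (cont_X S (cont_qq hM) (fun t => qq_mem (hM' t))
    ((continuous_apply i).comp hM) fun t => hM' t i)

theorem cont_V (hC : 0 ≤ C) (A : Matrix (Fin n) (Fin n) ℝ) (hM : Continuous M)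
    (hM' : ∀ t, M t ∈ box n) : Continuous fun t => V S A (M t) := by
  have hq := cont_qq hM
  have hq' := fun t => qq_mem (hM' t)
  have hX := fun i => cont_X S hq hq' ((continuous_apply i).comp hM) fun t => hM' t i
  refine (Continuous.add ?_ (continuous_finsetSum _ fun i _ => (cont_Phi S hC hq hq' (hX i)).sub
    ((hX i).mul ((continuous_apply i).comp hM)))).sub (continuous_const.mul (cont_pen S hC hq hq'))
  unfold dotProduct mulVec dotProduct
  fun_prop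

theorem Dt_pos (hη : 0 < η) (m : Fin n → ℝ) (i : Fin n) : 0 < Dt S η m i :=
  inv_pos.2 (lt_max_of_lt_right (by positivity))

theorem cont_Dt (hη : 0 < η) (hM : Continuous M) (hM' : ∀ t, M t ∈ box n) (i : Fin n) :
    Continuous fun t => Dt S η (M t) i :=
  ((cont_aa S hM hM' i).max continuous_const).inv₀ fun _ =>
    (lt_max_of_lt_right (by positivity)).ne'

variable {D : T → Fin n → ℝ} {u1 u2 τ : T → ℝ}

theorem cont_g2 (hD : ∀ i, Continuous fun t => D t i) (h1 : Continuous u1) (h2 : Continuous u2)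
    (h0 : ∀ t i, (D t i + u1 t) ^ 2 + u2 t ^ 2 ≠ 0) : Continuous fun t => g2 (D t) (u1 t) (u2 t) :=
  cont_av fun i => Continuous.inv₀ (by have := hD i; fun_prop) fun t => h0 t i

theorem cont_gr (hD : ∀ i, Continuous fun t => D t i) (h1 : Continuous u1) (h2 : Continuous u2)
    (h0 : ∀ t i, (D t i + u1 t) ^ 2 + u2 t ^ 2 ≠ 0) : Continuous fun t => gr (D t) (u1 t) (u2 t) :=
  cont_av fun i => ((hD i).add h1).mul (Continuous.inv₀ (by have := hD i; fun_prop) fun t => h0 t i)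

theorem cont_ku (β : ℝ) (hD : ∀ i, Continuous fun t => D t i) (h1 : Continuous u1)
    (h2 : Continuous u2) (h0 : ∀ t i, (D t i + u1 t) ^ 2 + u2 t ^ 2 ≠ 0) :
    Continuous fun t => ku β (D t) (u1 t) (u2 t) :=
  continuous_const.sub (continuous_const.mul (cont_g2 hD h1 h2 h0))

theorem cont_kt (hη : 0 < η) (hM : Continuous M) (hM' : ∀ t, M t ∈ box n) :
    Continuous fun t => kt S η (M t) :=
  cont_ku β (cont_Dt S hη hM hM') continuous_const continuous_const fun t i => by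
    have := Dt_pos S hη (M t) i
    positivity

theorem det_ne {B : Matrix (Fin n) (Fin n) ℝ} (hB : B.IsHermitian) {w : ℝ} (hw : w ≠ 0) :
    (B * B + (w ^ 2) • (1 : Matrix (Fin n) (Fin n) ℝ)).det ≠ 0 := by
  have h1 : (B * B).PosSemidef := by
    have := posSemidef_conjTranspose_mul_self B
    rwa [hB.eq] at this
  have h2 : ((w ^ 2) • (1 : Matrix (Fin n) (Fin n) ℝ)).PosDef :=
    PosDef.one.smul (by positivity : 0 < w ^ 2)
  exact (h2.posSemidef_add h1).det_pos.ne'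

theorem cont_Mm {A : Matrix (Fin n) (Fin n) ℝ} (hA : A.IsHermitian)
    (hD : ∀ i, Continuous fun t => D t i) (h1 : Continuous u1) (h2 : Continuous u2)
    (h0 : ∀ t, u2 t ≠ 0) : Continuous fun t => Mm A (D t) (u1 t) (u2 t) := by
  have hB : Continuous fun t => Bm A (D t) (u1 t) :=
    (Continuous.matrix_diagonal (continuous_pi fun i => (hD i).add h1)).sub continuous_const
  have hN : Continuous fun t => Bm A (D t) (u1 t) * Bm A (D t) (u1 t) +
      (u2 t ^ 2) • (1 : Matrix (Fin n) (Fin n) ℝ) := (hB.matrix_mul hB).add (by fun_prop)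
  have hK : Continuous fun t => Km A (D t) (u1 t) (u2 t) := by
    simp only [Km, Matrix.inv_def, Ring.inverse_eq_inv']
    exact (hN.matrix_det.inv₀ fun t => det_ne ((isHermitian_diagonal _).sub hA) (h0 t)).smul
      hN.matrix_adjugate
  refine continuous_matrix fun i j => ?_
  cases j with
  | inl j => exact (hB.matrix_mul hK).matrix_elem i j
  | inr j => exact (h2.smul hK).matrix_elem i j

theorem cont_inc {A : Matrix (Fin n) (Fin n) ℝ} (hA : A.IsHermitian) (hη : 0 < η)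
    (hM : Continuous M) (hM' : ∀ t, M t ∈ box n) (h1 : Continuous u1) {c : ℝ} (hc : c ≠ 0)
    (hτ : Continuous τ) (ξ : Fin n ⊕ Fin n → ℝ) :
    Continuous fun t => inc S A η (u1 t) c (τ t) (M t) ξ := by
  have hD := cont_Dt S hη hM hM'
  have h0 : ∀ t i, (Dt S η (M t) i + u1 t) ^ 2 + c ^ 2 ≠ 0 := fun t i => by positivity
  have hm := cont_Mm (u2 := fun t => max (c * ku β (Dt S η (M t)) (u1 t) c) (η ^ 4)) hA hD
    (h1.add ((continuous_const (y := β ^ 2)).mul (cont_gr hD h1 continuous_const h0)))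
    ((continuous_const.mul (cont_ku β hD h1 continuous_const h0)).max continuous_const)
    fun t => (lt_max_of_lt_right (by positivity)).ne'
  refine continuous_pi fun i => ?_
  have ha := cont_aa S hM hM' i
  have hc : Continuous fun t => cl S η (M t) i := by unfold cl; fun_prop
  exact hc.neg.max (hc.min (hτ.sqrt.mul ((continuous_apply i).comp
    (hm.matrix_mulVec continuous_const))))

theorem cont_inc' (A : Matrix (Fin n) (Fin n) ℝ) (η u1 u2 τ : ℝ) (m : Fin n → ℝ) :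
    Continuous (inc S A η u1 u2 τ m) :=
  continuous_pi fun i => continuous_const.max (continuous_const.min (continuous_const.mul
    ((continuous_apply i).comp (continuous_const.matrix_mulVec continuous_id))))

theorem av_pos (hn : 0 < n) {f : Fin n → ℝ} (hf : ∀ i, 0 < f i) : 0 < av f :=
  haveI : Nonempty (Fin n) := ⟨⟨0, hn⟩⟩
  div_pos (Finset.sum_pos (fun i _ => hf i) Finset.univ_nonempty) (Nat.cast_pos.2 hn)

end cont

end E65

open E65

theorem contStmt : ContStmt := by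
  intro n β C b S A η τ hn hβ hC hA hη
  have hC0 : 0 ≤ C := zero_le_one.trans hC
  have hv : Continuous (Subtype.val : box n → Fin n → ℝ) := continuous_subtype_val
  have hv' : ∀ t : box n, (t : Fin n → ℝ) ∈ box n := fun t => t.2
  refine ⟨?_, continuousOn_iff_continuous_domRestrict.2 (cont_V S hC0 A hv hv'),
    continuousOn_iff_continuous_domRestrict.2 (continuous_const.sub (continuous_const.mul
      (cont_av fun i => (cont_aa S hv hv' i).pow 2))), fun ξ => ?_,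
    fun m => continuous_const.add (cont_inc' S A _ _ _ _ m), fun ξ => ?_, fun x => ?_⟩
  · rw [show box n = ⋂ i, {m : Fin n → ℝ | |m i| < 1} by ext; simp [box]]
    exact isOpen_iInter_of_finite fun i => isOpen_lt (by fun_prop) continuous_const
  · have hD := cont_Dt S hη hv hv'
    have hk := cont_kt S hη hv hv'
    have hu : Continuous fun t : box n => u11 S η (t : Fin n → ℝ) := by
      refine (hk.neg.div (continuous_const.mul (cont_av fun i => ((hD i).inv₀ fun t =>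
        (Dt_pos S hη _ i).ne').pow 3)) fun t => ?_).add (by fun_prop)
      have := av_pos hn fun i => pow_pos (inv_pos.2 (Dt_pos S hη (t : Fin n → ℝ) i)) 3
      exact (mul_pos (by positivity) this).ne'
    have h0 : ∀ (t : box n) i,
        (Dt S η (t : Fin n → ℝ) i + u11 S η (t : Fin n → ℝ)) ^ 2 + (η ^ 2) ^ 2 ≠ 0 :=
      fun t i => by positivity
    refine continuousOn_iff_continuous_domRestrict.2 (hv.add (cont_inc S hA hη hv hv' hu
      (by positivity) ?_ ξ))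
    exact (continuous_const.mul ((cont_ku β hD hu continuous_const h0).max continuous_const)).div
      (cont_g2 hD hu continuous_const h0) fun t => (av_pos hn fun i => by positivity).ne'
  · have hw : Continuous fun t : {x : (Fin n → ℝ) × (Fin n → ℝ) | x.2 ∈ box n} => t.1.2 := by
      fun_prop
    have hw' : ∀ t : {x : (Fin n → ℝ) × (Fin n → ℝ) | x.2 ∈ box n}, t.1.2 ∈ box n := fun t => t.2
    have hk := cont_kt S hη hw hw'
    refine continuousOn_iff_continuous_domRestrict.2 (Continuous.prodMk (by fun_prop)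
      (hw.add (cont_inc S hA hη hw hw' ?_ hη.ne' continuous_const ξ)))
    unfold u21
    fun_prop
  · exact Continuous.prodMk (by fun_prop) (continuous_const.add (cont_inc' S A _ _ _ _ x.2))

theorem segStmt : SegStmt := by
  intro β C CA hβ hC hCA
  refine ⟨CA + 2 * (β ^ 2 + C), by nlinarith, fun n b S A hn hA m hm m' hm' t ht => ?_⟩
  have hC0 : 0 ≤ C := zero_le_one.trans hC
  have hn' : (0 : ℝ) < n := Nat.cast_pos.2 hn
  have hb : (1 - t) • m + t • m' ∈ box n := fun i => abs_seg ht (hm i) (hm' i)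
  have hq : qq ((1 - t) • m + t • m') =
      (1 - t) * qq m + t * qq m' - t * (1 - t) * ((m' - m) ⬝ᵥ (m' - m)) / n := by
    simp only [qq, add_dotProduct, dotProduct_add, smul_dotProduct, dotProduct_smul, sub_dotProduct,
      dotProduct_sub, smul_eq_mul]
    ring
  refine ⟨hb, ?_, hq⟩
  set d := (m' - m) ⬝ᵥ (m' - m) with hd
  have hd0 : 0 ≤ d := dot_self_nonneg _
  set q := qq ((1 - t) • m + t • m') with hqd
  have ht1 : 0 ≤ 1 - t := sub_nonneg.2 ht.2
  have htt : 0 ≤ t * (1 - t) := mul_nonneg ht.1 ht1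
  have htt' : t * (1 - t) ≤ 1 := by nlinarith [ht.1]
  have hdn : 0 ≤ t * (1 - t) * d / n := by positivity
  have hdn' : t * (1 - t) * d / n ≤ d / n := by gcongr; exact mul_le_of_le_one_left hd0 htt'
  have ha := abs_nonneg (qq m' - qq m)
  have e1 : |q - qq m| ≤ |qq m' - qq m| + d / n := by
    have h1 := mul_le_mul_of_nonneg_left (le_abs_self (qq m' - qq m)) ht.1
    have h2 := mul_le_mul_of_nonneg_left (neg_abs_le (qq m' - qq m)) ht.1
    have h3 := mul_le_mul_of_nonneg_right ht.2 ha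
    rw [hq, abs_le]; constructor <;> linarith
  have e2 : |q - qq m'| ≤ |qq m' - qq m| + d / n := by
    have h1 := mul_le_mul_of_nonneg_left (le_abs_self (qq m' - qq m)) ht1
    have h2 := mul_le_mul_of_nonneg_left (neg_abs_le (qq m' - qq m)) ht1
    have h3 := mul_nonneg ht.1 ha
    rw [hq, abs_le]; constructor <;> linarith
  set K := (β ^ 2 + C) * (|qq m' - qq m| + d / n) with hK
  have hK0 : 0 ≤ β ^ 2 + C := by positivity
  have f1 := mul_le_mul_of_nonneg_left e1 hK0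
  have f2 := mul_le_mul_of_nonneg_left e2 hK0
  have l1 : ∑ i, ((1 - t) * S.Lam (qq m) (m i) + t * S.Lam (qq m') (m' i) - K) ≤
      ∑ i, S.Lam q (((1 - t) • m + t • m') i) := Finset.sum_le_sum fun i _ => by
    have h1 := mul_le_mul_of_nonneg_left (Lam_lip S hC0 (qq_mem hm) (qq_mem hb) (hm i)) ht1
    have h2 := mul_le_mul_of_nonneg_left (Lam_lip S hC0 (qq_mem hm') (qq_mem hb) (hm' i)) ht.1
    have h3 := Lam_concave S (qq_mem hb) (hm i) (hm' i) ht
    have h4 := mul_le_mul_of_nonneg_left f1 ht1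
    have h5 := mul_le_mul_of_nonneg_left f2 ht.1
    change _ ≤ S.Lam q ((1 - t) * m i + t * m' i)
    linarith
  have l2 : S.pen q ≤ (1 - t) * S.pen (qq m) + t * S.pen (qq m') + K := by
    have h1 := mul_le_mul_of_nonneg_left (abs_le.1 (pen_lip S hC0 (qq_mem hm) (qq_mem hb))).1 ht1
    have h2 := mul_le_mul_of_nonneg_left (abs_le.1 (pen_lip S hC0 (qq_mem hm') (qq_mem hb))).1 ht.1
    have h4 := mul_le_mul_of_nonneg_left f1 ht1
    have h5 := mul_le_mul_of_nonneg_left f2 ht.1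
    linarith
  have l3 : ((1 - t) • m + t • m') ⬝ᵥ A *ᵥ ((1 - t) • m + t • m') = (1 - t) * (m ⬝ᵥ A *ᵥ m) +
      t * (m' ⬝ᵥ A *ᵥ m') - t * (1 - t) * ((m' - m) ⬝ᵥ A *ᵥ (m' - m)) := by
    simp only [add_dotProduct, dotProduct_add, smul_dotProduct, dotProduct_smul, sub_dotProduct,
      dotProduct_sub, mulVec_add, mulVec_smul, mulVec_sub, smul_eq_mul]
    ring
  have l4 : t * (1 - t) * ((m' - m) ⬝ᵥ A *ᵥ (m' - m)) ≤ CA * d := by
    have h1 : (m' - m) ⬝ᵥ A *ᵥ (m' - m) ≤ CA * d :=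
      ((le_abs_self _).trans (abs_quad_le A _)).trans (mul_le_mul_of_nonneg_right hA hd0)
    exact (mul_le_mul_of_nonneg_left h1 htt).trans (mul_le_of_le_one_left (by positivity) htt')
  have l5 : n * K = (β ^ 2 + C) * (d + n * |qq m' - qq m|) := by rw [hK]; field_simp; ring
  simp only [Finset.sum_sub_distrib, Finset.sum_add_distrib, ← Finset.mul_sum, Finset.sum_const,
    Finset.card_univ, Fintype.card_fin, nsmul_eq_mul] at l1
  have l6 := mul_le_mul_of_nonneg_left l2 hn'.le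
  have l7 : 0 ≤ CA * (n * |qq m' - qq m|) := by positivity
  have l8 : 0 ≤ CA * d := by positivity
  simp only [V, Psi, ← hqd, l3]
  nlinarith

theorem endStmt : EndStmt := by
  intro β C CA hβ hC hCA
  refine ⟨CA + 3 + β ^ 2, by nlinarith, fun n b S A hn hA y m hm hb Y hY hy => ?_⟩
  have hn' : (0 : ℝ) < n := Nat.cast_pos.2 hn
  have hq := qq_mem hm
  set δ := 1 - qq m with hδ
  have hs : ∑ i, (1 - m i * m i) = n * δ := by
    rw [hδ, qq, dotProduct]; simp; field_simp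
  have hδ0 : 0 < δ := by
    have : Nonempty (Fin n) := ⟨⟨0, hn⟩⟩
    rw [← mul_pos_iff_of_pos_left hn', ← hs]
    refine Finset.sum_pos (fun i _ => ?_) Finset.univ_nonempty
    have := abs_lt.1 (hm i); nlinarith
  have hδ1 : δ ≤ 1 := by linarith [hq.1]
  have hσ : ∀ i, sv (sgn m) i * m i = |m i| := fun i => by
    by_cases h : 0 ≤ m i <;> simp [sv, sgn, h, ProbabilityR.SpinGlassDynamics.spin, abs_of_nonneg,
      abs_of_neg, not_le.1]
  have hσ2 : ∀ i, sv (sgn m) i * sv (sgn m) i = 1 := fun i => spin_mul_self _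
  have h2 : (sv (sgn m) - m) ⬝ᵥ (sv (sgn m) - m) ≤ n * δ := by
    rw [← hs]
    refine Finset.sum_le_sum fun i _ => ?_
    have := hσ i; have := hσ2 i; have := hm i; have := abs_mul_abs_self (m i)
    simp only [Pi.sub_apply]
    nlinarith [abs_nonneg (m i)]
  refine ⟨?_, h2⟩
  have hr : 0 < √δ := Real.sqrt_pos.2 hδ0
  have hr2 : √δ * √δ = δ := Real.mul_self_sqrt hδ0.le
  have hr1 : δ ≤ √δ := by nlinarith [Real.sqrt_le_one.2 hδ1]
  have hL : Real.log (2 * Real.cosh (√δ)⁻¹) ≤ (√δ)⁻¹ + √δ := by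
    have e1 : 2 * Real.cosh (√δ)⁻¹ = Real.exp (√δ)⁻¹ * (1 + Real.exp (-(2 * (√δ)⁻¹))) := by
      rw [Real.cosh_eq, mul_add, ← Real.exp_add]; ring_nf
    have e2 : Real.exp (-(2 * (√δ)⁻¹)) ≤ √δ := by
      rw [Real.exp_neg, inv_le_comm₀ (Real.exp_pos _) hr]
      linarith [Real.add_one_le_exp (2 * (√δ)⁻¹), inv_pos.2 hr]
    rw [e1, Real.log_mul (Real.exp_pos _).ne' (by positivity), Real.log_exp]
    linarith [Real.log_le_sub_one_of_pos (by positivity : 0 < 1 + Real.exp (-(2 * (√δ)⁻¹)))]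
  have l1 : ∑ i, S.Lam (qq m) (m i) ≤
      ∑ i, ((√δ)⁻¹ * (1 - m i * m i) + (√δ + β ^ 2 * δ / 2)) := Finset.sum_le_sum fun i _ => by
    have h1 := Lam_le S hq (hm i) ((√δ)⁻¹ * sv (sgn m) i)
    have h3 : Real.cosh ((√δ)⁻¹ * sv (sgn m) i) = Real.cosh (√δ)⁻¹ := by
      rw [← Real.cosh_abs, abs_mul, sv, abs_spin, mul_one, Real.cosh_abs]
    rw [S.top _ ⟨hb, hq.2⟩, h3, mul_assoc, hσ] at h1
    have h4 : 1 - |m i| ≤ 1 - m i * m i := by
      have := hm i; have := abs_mul_abs_self (m i); nlinarith [abs_nonneg (m i)]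
    have := mul_le_mul_of_nonneg_left h4 (inv_pos.2 hr).le
    linarith
  rw [Finset.sum_add_distrib, ← Finset.mul_sum, hs] at l1
  simp only [Finset.sum_const, Finset.card_univ, Fintype.card_fin, nsmul_eq_mul] at l1
  have l2 : (√δ)⁻¹ * (n * δ) = n * √δ := by field_simp; linarith
  have l3 : 0 ≤ S.pen (qq m) := by
    rw [S.topP _ ⟨hb, hq.2⟩]
    have : 0 ≤ 1 - qq m ^ 2 := by nlinarith [hq.1, hq.2]
    positivity
  have n1 : nrm (sv (sgn m) - m) ≤ √n * √δ := by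
    rw [← Real.sqrt_mul hn'.le]; exact Real.sqrt_le_sqrt h2
  have n2 : nrm (sv (sgn m)) ≤ √n := by rw [nrm, sv_dot_self]
  have n3 : nrm m ≤ √n := Real.sqrt_le_sqrt (dot_le_card hm)
  have hnn : √(n : ℝ) * √n = n := Real.mul_self_sqrt hn'.le
  have k0 := opn_nonneg A
  have l4 : |(sv (sgn m) - m) ⬝ᵥ A *ᵥ sv (sgn m)| ≤ CA * (n * √δ) := by
    refine (abs_dot_le _ _).trans ((mul_le_mul n1 ((nrm_mulVec_le _ _).trans
      (mul_le_mul hA n2 (nrm_nonneg _) (by linarith))) (nrm_nonneg _) (by positivity)).trans ?_)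
    exact le_of_eq (by linear_combination CA * √δ * hnn)
  have l5 : |m ⬝ᵥ A *ᵥ (sv (sgn m) - m)| ≤ CA * (n * √δ) := by
    refine (abs_dot_le _ _).trans ((mul_le_mul n3 ((nrm_mulVec_le _ _).trans
      (mul_le_mul hA n1 (nrm_nonneg _) (by linarith))) (nrm_nonneg _) (by positivity)).trans ?_)
    exact le_of_eq (by linear_combination CA * √δ * hnn)
  have l6 : |y ⬝ᵥ (sv (sgn m) - m)| ≤ Y * (n * √δ) := by
    refine (abs_dot_le _ _).trans ((mul_le_mul hy n1 (nrm_nonneg _) (by positivity)).trans ?_)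
    exact le_of_eq (by linear_combination Y * √δ * hnn)
  rw [sub_dotProduct] at l4
  rw [mulVec_sub, dotProduct_sub] at l5
  rw [dotProduct_sub] at l6
  have m1 := (abs_le.1 l4).1
  have m2 := (abs_le.1 l5).1
  have m3 := (abs_le.1 l6).1
  have m4 := mul_nonneg hn'.le l3
  have m5 : n * (β ^ 2 * δ / 2) ≤ β ^ 2 * (n * √δ) := by
    have := mul_le_mul_of_nonneg_left hr1 (by positivity : 0 ≤ n * β ^ 2)
    have : 0 ≤ n * β ^ 2 * δ := by positivity
    linarith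
  have m6 : (CA + 2 + β ^ 2) * (n * √δ) ≤ (CA + 2 + β ^ 2) * Y * (n * √δ) := by
    gcongr
    exact le_mul_of_one_le_right (by positivity) hY
  rw [ising, Real.log_exp, V, Psi]
  linarith

end Crest.Agent.T157.St

end
end

-- ▼ part T157/UpRmt_54

/-!
# Row 157, part D (helper54): `Up.RmtStmt` from the uniform vector Dyson equation
-/

set_option autoImplicit false

noncomputable section

namespace Crest.Agent.T157.Up.Rmt54

open MeasureTheory Matrix Filter Topology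
open Crest.ProbabilityR.SpinGlassDynamics
open Crest.Agent.T157.E Crest.Agent.T157.St Crest.Agent.T157.Fr

variable {n : ℕ}

/-- the resolvent in real words -/
lemma res_eq {A : Matrix (Fin n) (Fin n) ℝ} (hA : Aᵀ = A) (D : Fin n → ℝ) (w1 : ℝ) {w2 : ℝ}
    (hw : 0 < w2) : res (fun i => ((D i + w1 : ℝ) : ℂ) + (w2 : ℂ) * Complex.I) A =
      cx (Bm A D w1 * Km A D w1 w2) - ((w2 : ℂ) * Complex.I) • cx (Km A D w1 w2) := by
  set B := Bm A D w1 with hB
  set c : ℂ := (w2 : ℂ) * Complex.I with hc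
  set d : Fin n → ℂ := fun i => ((D i + w1 : ℝ) : ℂ) + c with hd
  have hZ : Zm d A = cx B + c • (1 : Matrix (Fin n) (Fin n) ℂ) := by
    ext i j
    by_cases h : i = j
    · subst h; simp [Zm, hB, Bm, hd]; ring
    · simp [Zm, hB, Bm, h]
  have hu : IsUnit (Zm d A).det := unit_Zm hw (fun i => by simp [hd, hc]) hA
  have hBt : (cx B)ᴴ = cx B := by
    ext i j
    have : B j i = B i j := by
      have h1 : A j i = A i j := by simpa using congrFun (congrFun hA i) j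
      by_cases h : i = j
      · subst h; rfl
      · simp [hB, Bm, h, Ne.symm h, h1]
    simp [conjTranspose_apply, this]
  have hZ' : (Zm d A)ᴴ = cx B - c • (1 : Matrix (Fin n) (Fin n) ℂ) := by
    rw [hZ, conjTranspose_add, hBt, conjTranspose_smul, conjTranspose_one]
    have : star c = -c := by simp [hc]
    rw [this, neg_smul, sub_eq_add_neg]
  have hu' : IsUnit (cx B - c • (1 : Matrix (Fin n) (Fin n) ℂ)).det := by
    rw [← hZ', det_conjTranspose]; exact hu.star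
  have hcc : c * c = -((w2 ^ 2 : ℝ) : ℂ) := by
    rw [hc]; push_cast
    linear_combination (w2 : ℂ) ^ 2 * Complex.I_mul_I
  have hprod : Zm d A * (cx B - c • (1 : Matrix (Fin n) (Fin n) ℂ)) =
      cx (B * B + (w2 ^ 2) • (1 : Matrix (Fin n) (Fin n) ℝ)) := by
    rw [hZ, cx_add, cx_mul, cx_smul, cx_one, add_mul, mul_sub, mul_sub, Matrix.mul_smul,
      Matrix.smul_mul, Matrix.smul_mul, Matrix.mul_smul, smul_smul, hcc]
    simp only [Matrix.mul_one, Matrix.one_mul, neg_smul]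
    abel
  have hK : cx (Km A D w1 w2) = (Zm d A * (cx B - c • (1 : Matrix (Fin n) (Fin n) ℂ)))⁻¹ := by
    rw [hprod, Km, cx_inv]
  have e : cx (B * Km A D w1 w2) - c • cx (Km A D w1 w2) =
      (cx B - c • (1 : Matrix (Fin n) (Fin n) ℂ)) * cx (Km A D w1 w2) := by
    rw [cx_mul, sub_mul, Matrix.smul_mul, Matrix.one_mul]
  rw [e, hK, Matrix.mul_inv_rev, ← Matrix.mul_assoc, mul_nonsing_inv _ hu', Matrix.one_mul]
  rfl

lemma trace_cx (M : Matrix (Fin n) (Fin n) ℝ) : (cx M).trace = (M.trace : ℂ) := by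
  simp [trace]

lemma inv_eq (x y : ℝ) : ((x : ℂ) + (y : ℂ) * Complex.I)⁻¹ =
    ((x * (x ^ 2 + y ^ 2)⁻¹ : ℝ) : ℂ) - ((y * (x ^ 2 + y ^ 2)⁻¹ : ℝ) : ℂ) * Complex.I := by
  rw [Complex.inv_def, Complex.normSq_add_mul_I]
  simp
  ring

lemma mv_eq (hn : 0 < n) (β : ℝ) (D : Fin n → ℝ) (u1 u2 : ℝ) :
    mv (β / √n) (fun i => ((D i + u1 : ℝ) : ℂ) + (u2 : ℂ) * Complex.I) =
      ((β ^ 2 * gr D u1 u2 : ℝ) : ℂ) - ((β ^ 2 * (u2 * g2 D u1 u2) : ℝ) : ℂ) * Complex.I := by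
  have hn' : (0 : ℝ) < n := Nat.cast_pos.2 hn
  simp only [mv, inv_eq, Finset.sum_sub_distrib, ← Finset.sum_mul, gr, g2, av]
  rw [div_pow, Real.sq_sqrt hn'.le, ← Complex.ofReal_sum, ← Complex.ofReal_sum,
    ← Finset.mul_sum]
  push_cast
  ring

lemma Sv_eq' (hn : 0 < n) (β : ℝ) (D : Fin n → ℝ) (u1 u2 : ℝ) :
    Sv (β / √n) (fun i => ((D i + u1 : ℝ) : ℂ) + (u2 : ℂ) * Complex.I) = β ^ 2 * g2 D u1 u2 := by
  have hn' : (0 : ℝ) < n := Nat.cast_pos.2 hn
  simp only [Sv, g2, av, norm_inv, inv_pow, Complex.sq_norm, Complex.normSq_add_mul_I]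
  rw [div_pow, Real.sq_sqrt hn'.le]
  ring

/-- deterministic part -/
theorem rmt_of_err (hn : 0 < n) {β K γ ε : ℝ} (hβ : 1 ≤ β) (hγ : 0 < γ)
    {A : Matrix (Fin n) (Fin n) ℝ} (hA : Aᵀ = A) {θ : ℝ}
    (h : ∀ d, Box (K + 2 + 2 * β ^ 2) (γ ^ 2) d → β / √n * cn (err (β / √n) d A) ≤ θ)
    (h1 : θ ≤ γ ^ 2) (h2 : 2 * θ ≤ γ * ε) : RMT β A K γ ε := by
  have hn' : (0 : ℝ) < n := Nat.cast_pos.2 hn
  intro D hD u1 u2 hu1 hu1' hu2 hu2' hk
  set a : Fin n → ℂ := fun i => ((D i + u1 : ℝ) : ℂ) + (u2 : ℂ) * Complex.I with ha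
  set w1 := u1 + β ^ 2 * gr D u1 u2 with hw1
  set w2 := u2 * ku β D u1 u2 with hw2
  have hw : γ ^ 2 ≤ w2 := by rw [hw2, sq]; exact mul_le_mul hu2 hk hγ.le (hγ.le.trans hu2)
  have hγ2 : 0 < γ ^ 2 := by positivity
  have hm := mv_eq hn β D u1 u2
  have hd : (fun i => a i + mv (β / √n) a) =
      fun i => ((D i + w1 : ℝ) : ℂ) + (w2 : ℂ) * Complex.I := by
    ext i
    rw [ha, hm, hw1, hw2, ku]
    push_cast
    ring
  have hre : ∀ i, 1 / 2 ≤ ‖a i‖ := fun i => by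
    refine le_trans ?_ (Complex.re_le_norm _)
    simp only [ha, Complex.add_re, Complex.ofReal_re, Complex.mul_re, Complex.I_re, mul_zero,
      Complex.ofReal_im, Complex.I_im, mul_one, sub_self, add_zero]
    linarith [(hD i).1]
  have ha0 : ∀ i, a i ≠ 0 := fun i => norm_pos_iff.1 (lt_of_lt_of_le (by norm_num) (hre i))
  have hmv : ‖mv (β / √n) a‖ ≤ 2 * β ^ 2 := by
    rw [mv, norm_mul, Complex.norm_real, Real.norm_of_nonneg (sq_nonneg _), div_pow,
      Real.sq_sqrt hn'.le]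
    have : ‖∑ i, (a i)⁻¹‖ ≤ n * 2 := by
      refine (norm_sum_le _ _).trans ?_
      calc ∑ i, ‖(a i)⁻¹‖ ≤ ∑ _i : Fin n, (2 : ℝ) := Finset.sum_le_sum fun i _ => by
            rw [norm_inv]
            exact inv_le_of_inv_le₀ (by norm_num) (by simpa using hre i)
        _ = n * 2 := by simp
    calc β ^ 2 / n * ‖∑ i, (a i)⁻¹‖ ≤ β ^ 2 / n * (n * 2) := by gcongr
      _ = 2 * β ^ 2 := by field_simp
  have him : ∀ i, γ ^ 2 ≤ (a i + mv (β / √n) a).im := fun i => by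
    rw [congrFun hd i]; simpa using hw
  have hbox : Box (K + 2 + 2 * β ^ 2) (γ ^ 2) fun i => a i + mv (β / √n) a := fun i => by
    refine ⟨him i, (norm_add_le _ _).trans (add_le_add ?_ hmv)⟩
    refine (norm_add_le _ _).trans ?_
    rw [norm_mul, Complex.norm_I, mul_one, Complex.norm_real, Complex.norm_real,
      Real.norm_of_nonneg (by linarith [(hD i).1]), Real.norm_of_nonneg (hγ.le.trans hu2)]
    linarith [(hD i).2]
  have hs0 : 0 ≤ β / √n := by positivity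
  have he := h _ hbox
  have hS : Sv (β / √n) a ≤ 1 - γ := by
    rw [ha, Sv_eq' hn]; unfold ku at hk; linarith
  have key := mtr_sub_mv ha0 hγ hS hγ2 him hA (by rw [abs_of_nonneg hs0]; linarith)
  rw [abs_of_nonneg hs0] at key
  have key2 : ‖mtr (β / √n) (fun i => a i + mv (β / √n) a) A - mv (β / √n) a‖ ≤ ε := by
    refine key.trans ?_
    rw [div_le_iff₀ hγ]; linarith
  have e : mtr (β / √n) (fun i => a i + mv (β / √n) a) A - mv (β / √n) a =
      ((β ^ 2 * ((Bm A D w1 * Km A D w1 w2).trace / n - gr D u1 u2) : ℝ) : ℂ) +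
      ((-(β ^ 2 * (w2 * (Km A D w1 w2).trace / n - u2 * g2 D u1 u2)) : ℝ) : ℂ) * Complex.I := by
    rw [hd, mtr, res_eq hA D w1 (hγ2.trans_le hw), trace_sub, trace_smul, trace_cx, trace_cx, ha,
      hm, div_pow, Real.sq_sqrt hn'.le, smul_eq_mul]
    push_cast
    ring
  rw [e] at key2
  have hb : 1 ≤ β ^ 2 := one_le_pow₀ hβ
  have r1 := (Complex.abs_re_le_norm _).trans key2
  have r2 := (Complex.abs_im_le_norm _).trans key2
  simp only [Complex.add_re, Complex.ofReal_re, Complex.mul_re, Complex.I_re, mul_zero,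
    Complex.ofReal_im, Complex.I_im, mul_one, sub_self, add_zero, Complex.add_im, Complex.mul_im,
    zero_add, abs_neg, abs_mul, abs_of_nonneg (sq_nonneg β)] at r1 r2
  exact ⟨(le_mul_of_one_le_left (abs_nonneg _) hb).trans r1,
    (le_mul_of_one_le_left (abs_nonneg _) hb).trans r2⟩

/-- the numbers -/
lemma numeric {β : ℝ} (hβ : 1 ≤ β) {x η N : ℝ} (hx : 1000 * β ^ 5 ≤ x) (hη : 0 < η) (hη1 : η ≤ 1)
    (hηx : η⁻¹ ≤ x) (hN : N = x ^ 1000) {L : ℝ}
    (hL : L = ((η ^ 6)⁻¹ + 2 + 2 * β ^ 2) / ((η ^ 2) ^ 2) ^ 2 +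
      2 * ((β / x ^ 500) ^ 2 * N) / ((η ^ 2) ^ 2) ^ 3) :
    β / x ^ 500 * (x ^ 500 * (2 * (β / x ^ 500) ^ 2 / ((η ^ 2) ^ 2) ^ 2 +
      (6 * (β / x ^ 500) + 4 * (1 / x ^ 500)) * L) + x ^ 100) ≤ η ^ 6 / 2 ∧
    2 * Real.log (2 * ((η ^ 6)⁻¹ + 2 + 2 * β ^ 2) / (1 / x ^ 500) + 3) + 1 ≤
      (x ^ 100) ^ 2 / (4 * β ^ 2 * L ^ 2) := by
  set y := η⁻¹ with hy
  have hy1 : 1 ≤ y := one_le_inv₀ hη |>.2 hη1
  have hb5 : ∀ k, k ≤ 5 → β ^ k ≤ β ^ 5 := fun k hk => pow_le_pow_right₀ hβ hk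
  have hb1 : ∀ k, 1 ≤ β ^ k := fun k => one_le_pow₀ hβ
  have hx1 : 1000 ≤ x := by nlinarith [hb1 5]
  have hx0 : 0 < x := by linarith
  have hx1' : 1 ≤ x := by linarith
  have hyx : ∀ k m, k ≤ m → y ^ k ≤ x ^ m := fun k m h =>
    (pow_le_pow_left₀ (by linarith) hηx k).trans (pow_le_pow_right₀ hx1' h)
  have hxp : ∀ m, 1 ≤ x ^ m := fun m => one_le_pow₀ hx1'
  have hL' : L = (y ^ 6 + 2 + 2 * β ^ 2) * y ^ 8 + 2 * β ^ 2 * y ^ 12 := by
    rw [hL, hN, hy]; field_simp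
  have hA : y ^ 6 + 2 + 2 * β ^ 2 ≤ 5 * β ^ 2 * x ^ 6 := by
    have := hyx 6 6 le_rfl
    nlinarith [hb1 2, hxp 6, mul_le_mul (hb1 2) (hxp 6) zero_le_one (by positivity)]
  have hL0 : 0 < L := by rw [hL']; positivity
  have hL1 : L ≤ 7 * β ^ 2 * x ^ 14 := by
    rw [hL']
    have h1 : (y ^ 6 + 2 + 2 * β ^ 2) * y ^ 8 ≤ 5 * β ^ 2 * x ^ 6 * x ^ 8 :=
      mul_le_mul hA (hyx 8 8 le_rfl) (by positivity) (by positivity)
    have h2 : 2 * β ^ 2 * y ^ 12 ≤ 2 * β ^ 2 * x ^ 14 := by gcongr; exact hyx 12 14 (by norm_num)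
    calc _ ≤ 5 * β ^ 2 * x ^ 6 * x ^ 8 + 2 * β ^ 2 * x ^ 14 := add_le_add h1 h2
      _ = _ := by ring
  constructor
  · have e : β / x ^ 500 * (x ^ 500 * (2 * (β / x ^ 500) ^ 2 / ((η ^ 2) ^ 2) ^ 2 +
        (6 * (β / x ^ 500) + 4 * (1 / x ^ 500)) * L) + x ^ 100) =
        (2 * β ^ 3 * y ^ 8 / x ^ 500 + β * (6 * β + 4) * L + β * x ^ 100) / x ^ 500 := by
      rw [hy]; field_simp
    have h1 : 2 * β ^ 3 * y ^ 8 / x ^ 500 ≤ 2 * β ^ 5 * x ^ 100 := by
      refine (div_le_self (by positivity) (hxp 500)).trans ?_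
      exact mul_le_mul (by linarith [hb5 3 (by norm_num)]) (hyx 8 100 (by norm_num))
        (by positivity) (by positivity)
    have h2 : β * (6 * β + 4) * L ≤ 70 * β ^ 5 * x ^ 100 := by
      calc β * (6 * β + 4) * L ≤ β * (10 * β) * (7 * β ^ 2 * x ^ 14) := by
            gcongr; linarith
        _ = 70 * β ^ 4 * x ^ 14 := by ring
        _ ≤ _ := mul_le_mul (by linarith [hb5 4 (by norm_num)])
            (pow_le_pow_right₀ hx1' (by norm_num)) (by positivity) (by positivity)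
    have h3 : β * x ^ 100 ≤ β ^ 5 * x ^ 100 := by
      gcongr; simpa using hb5 1 (by norm_num)
    have h4 : η ^ 6 = 1 / y ^ 6 := by rw [hy]; field_simp
    rw [e, h4, div_div, div_le_div_iff₀ (by positivity) (by positivity)]
    calc _ ≤ (73 * β ^ 5 * x ^ 100) * (x ^ 6 * 2) :=
          mul_le_mul (by linarith) (by linarith [hyx 6 6 le_rfl]) (by positivity) (by positivity)
      _ = (146 * β ^ 5) * x ^ 106 := by ring
      _ ≤ x * x ^ 499 :=
          mul_le_mul (by linarith [hb1 5]) (pow_le_pow_right₀ hx1' (by norm_num))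
            (by positivity) hx0.le
      _ = _ := by ring
  · have h1 : 2 * ((η ^ 6)⁻¹ + 2 + 2 * β ^ 2) / (1 / x ^ 500) + 3 ≤ x ^ 507 := by
      rw [← inv_pow, ← hy, div_div_eq_mul_div, div_one]
      have h2 : 2 * (y ^ 6 + 2 + 2 * β ^ 2) * x ^ 500 ≤ 2 * (5 * β ^ 2 * x ^ 6) * x ^ 500 := by
        gcongr
      have h3 : 3 ≤ 3 * β ^ 2 * x ^ 506 := by
        nlinarith [mul_le_mul (hb1 2) (hxp 506) zero_le_one (by positivity)]
      calc _ ≤ 2 * (5 * β ^ 2 * x ^ 6) * x ^ 500 + 3 * β ^ 2 * x ^ 506 := add_le_add h2 h3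
        _ = (13 * β ^ 2) * x ^ 506 := by ring
        _ ≤ x * x ^ 506 := by gcongr; linarith [hb5 2 (by norm_num), hb1 5]
        _ = _ := by ring
    have h2 : Real.log (2 * ((η ^ 6)⁻¹ + 2 + 2 * β ^ 2) / (1 / x ^ 500) + 3) ≤ 507 * x := by
      refine (Real.log_le_log (by positivity) h1).trans ?_
      rw [Real.log_pow]
      push_cast
      have := Real.log_le_sub_one_of_pos hx0
      linarith
    rw [le_div_iff₀ (by positivity)]
    calc _ ≤ (1015 * x) * (4 * β ^ 2 * (7 * β ^ 2 * x ^ 14) ^ 2) :=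
          mul_le_mul (by linarith) (by gcongr) (by positivity) (by positivity)
      _ = (1015 * (196 * (β ^ 3 * β ^ 3))) * x ^ 29 := by ring
      _ ≤ (x ^ 2 * (x * x)) * x ^ 196 := by
          refine mul_le_mul (mul_le_mul (by nlinarith) ?_ (by positivity) (by positivity))
            (pow_le_pow_right₀ hx1' (by norm_num)) (by positivity) (by positivity)
          have h5 : 14 * β ^ 3 ≤ x := by linarith [hb5 3 (by norm_num), hb1 5]
          calc 196 * (β ^ 3 * β ^ 3) = (14 * β ^ 3) * (14 * β ^ 3) := by ring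
            _ ≤ x * x := mul_le_mul h5 h5 (by positivity) hx0.le
      _ = _ := by ring

/-- the tail bound -/
theorem tail {β : ℝ} (hβ : 1 ≤ β) {x η : ℝ} (hx : 1000 * β ^ 5 ≤ x) (hη : 0 < η) (hη1 : η ≤ 1)
    (hηx : η⁻¹ ≤ x) (hN : (n : ℝ) = x ^ 1000) :
    (Om n).real {z | ¬ RMT β (β • Wmat n z.1 z.2) ((η ^ 6)⁻¹) (η ^ 2) (η ^ 4)} ≤
      Real.exp (-n) := by
  have hx0 : 0 < x := lt_of_lt_of_le (by positivity) hx
  have hn' : (0 : ℝ) < n := by rw [hN]; positivity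
  have hn : 0 < n := Nat.cast_pos.1 hn'
  have hsq : √(n : ℝ) = x ^ 500 := by
    rw [hN, show x ^ 1000 = (x ^ 500) ^ 2 by ring, Real.sqrt_sq (by positivity)]
  obtain ⟨n1, n2⟩ := numeric hβ hx hη hη1 hηx hN rfl
  have hle : (η ^ 2) ^ 2 ≤ (η ^ 6)⁻¹ + 2 + 2 * β ^ 2 := by
    have : (η ^ 2) ^ 2 ≤ 1 := pow_le_one₀ (by positivity) (pow_le_one₀ hη.le hη1)
    have : 0 ≤ (η ^ 6)⁻¹ := by positivity
    nlinarith [sq_nonneg β]
  have h := unif_Wmat (n := n) (A := (η ^ 6)⁻¹ + 2 + 2 * β ^ 2) (η := (η ^ 2) ^ 2)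
    (by linarith : 0 < β) hn (by positivity) hle (δ := 1 / x ^ 500) (t := x ^ 100)
    (by positivity) (by positivity)
  refine le_trans (measureReal_mono fun z hz => ?_) (h.trans ?_)
  · by_contra hc
    simp only [Set.mem_setOf_eq, not_exists, not_and, not_lt] at hc
    refine hz (rmt_of_err hn hβ (by positivity) (by rw [transpose_smul, Wmat_transpose])
      (θ := η ^ 6 / 2) (fun d hd => ?_) ?_ (le_of_eq (by ring)))
    · refine le_trans (mul_le_mul_of_nonneg_left (hc d hd) (by positivity)) ?_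
      simpa only [thr, Lam, Fintype.card_fin, hsq] using n1
    · have : η ^ 6 ≤ η ^ 4 := pow_le_pow_of_le_one hη.le hη1 (by norm_num)
      have : 0 ≤ η ^ 6 := by positivity
      nlinarith
  · simp only [pfail, Lam, Fintype.card_fin, hsq]
    set L := ((η ^ 6)⁻¹ + 2 + 2 * β ^ 2) / ((η ^ 2) ^ 2) ^ 2 +
      2 * ((β / x ^ 500) ^ 2 * n) / ((η ^ 2) ^ 2) ^ 3 with hL
    set M := 2 * ((η ^ 6)⁻¹ + 2 + 2 * β ^ 2) / (1 / x ^ 500) + 3 with hM
    have hM0 : 0 < M := by positivity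
    have hL0 : 0 < L := by positivity
    rw [← Real.exp_log (pow_pos hM0 _), ← Real.exp_add, Real.log_pow]
    refine Real.exp_le_exp.2 ?_
    have e : -(x ^ 100) ^ 2 / (4 * (β / x ^ 500) ^ 2 * L ^ 2) =
        -(n * ((x ^ 100) ^ 2 / (4 * β ^ 2 * L ^ 2))) := by
      rw [hN]; field_simp
    rw [e]
    push_cast
    nlinarith [mul_le_mul_of_nonneg_left n2 hn'.le]

end Crest.Agent.T157.Up.Rmt54

namespace Crest.Agent.T157.Up

open MeasureTheory Filter Topology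

/-- **freeness with all diagonals** -/
theorem rmtStmt : RmtStmt := by
  intro β hβ k _ hk
  refine Top.whp_of_real_le (a := fun n : ℕ => Real.exp (-n))
    (Real.tendsto_exp_neg_atTop_nhds_zero.comp tendsto_natCast_atTop_atTop) ?_
  have ht : Tendsto (fun n : ℕ => (n : ℝ) ^ (1 / 1000 : ℝ)) atTop atTop :=
    (tendsto_rpow_atTop (by norm_num)).comp tendsto_natCast_atTop_atTop
  filter_upwards [ht.eventually_ge_atTop (1000 * β ^ 5), eventually_ge_atTop 1] with n h1 h2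
  have hn : (1 : ℝ) ≤ n := by exact_mod_cast h2
  have hn0 : (0 : ℝ) < n := by linarith
  have he0 : 0 < eps n := Real.rpow_pos_of_pos hn0 _
  have he1 : eps n ≤ 1 := Real.rpow_le_one_of_one_le_of_nonpos hn (by norm_num)
  refine Rmt54.tail hβ.le h1 (pow_pos he0 k) (pow_le_one₀ he0.le he1) ?_ ?_
  · rw [eps, ← Real.rpow_natCast, ← Real.rpow_mul hn0.le, ← Real.rpow_neg hn0.le]
    refine Real.rpow_le_rpow_of_exponent_le hn ?_
    have : (k : ℝ) ≤ 126 := by exact_mod_cast hk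
    linarith
  · rw [← Real.rpow_natCast, ← Real.rpow_mul hn0.le]
    norm_num

end Crest.Agent.T157.Up

end
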