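import Crest.Agent.T157.AnDef_51
import Crest.Agent.T157.PfE_56
import Crest.Agent.T157.An_51
import Crest.Agent.T157.AnFree_50
import Crest.Agent.T157.UpGam_30_Mg
import Crest.Agent.T157.SlaE_4
import Crest.Agent.T157.Sc5_68_Mg
import Crest.Agent.T157.UpDef_74
import Crest.Agent.T157.PfSite_56
import Crest.Agent.T157.MixC_49
import Crest.Agent.T157.Psi_33
import Crest.Agent.T157.UpRmt_54_Mg
import Crest.Agent.T157.G1_52
import Crest.Agent.T157.PfC_56
import Crest.Agent.T157.StH_44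
import Crest.Agent.T157.UpFe_61_Mg
import Crest.Agent.T157.Cut1_54
import Crest.Agent.T157.Top_97
import Crest.Agent.T157.VgB_54
import Crest.Agent.T157.SLC_23
import Crest.Agent.T157.PfLip_62
import Crest.Agent.T157.Sc2_68
import Crest.Agent.T157.StA_44
import Crest.Agent.T157.StB_44
import Crest.Agent.T157.SlaB_4
import Crest.Agent.T157.ConcS_16
import Crest.Agent.T157.PlbDen_61

-- ▼ part T157/AnGam_68
section

/-! Row 157, part D (helper68): the growth of `Γ` above `b`. -/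

set_option autoImplicit false

namespace Crest.Agent.T157.An

open Set Crest.Agent.T157.Pf

theorem gamStmt : GamStmt := by
  intro β c0 C0 η P hβ hc h hG s s' hs hss hs1
  have hβ0 : 0 < β := by linarith
  have h0 : 0 ≤ s := h.b_nonneg.trans hs
  have key := le_of_rder (f := fun r => P.Gam β r - ((1 + η) * (r - s) - c0 / 2 * (r - s) ^ 2))
    (f' := fun r => P.Gam' β r - ((1 + η) - c0 * (r - s))) hss
    (((h.Gam_cont hβ0 s').mono (Icc_subset_Icc_left h0)).sub (by fun_prop))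
    (fun r hr => (h.Gam_rder hβ0 (h0.trans hr.1)).sub (HasDerivAt.hasDerivWithinAt (by
      have e := (hasDerivAt_id r).sub_const s
      refine ((e.const_mul (1 + η)).sub ((e.pow 2).const_mul (c0 / 2))).congr_deriv ?_
      simp only [id, Nat.cast_ofNat, Nat.add_one_sub_one, pow_one]
      ring)))
    (fun r hr => by
      have h1 := hG.top r (hs.trans hr.1)
      have h2 : r - s ≤ min (r - P.b) 1 := le_min (by linarith) (by linarith [hr.2])
      have h3 := mul_le_mul_of_nonneg_left h2 hc.le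
      show P.Gam' β r - ((1 + η) - c0 * (r - s)) ≤ 0
      linarith)
  simp only [sub_self, mul_zero] at key
  linarith

end Crest.Agent.T157.An
end

-- ▼ part T157/AnAll_51
section

/-!
Row 157, part D (helper51): `Up.AncStmt` from the leaves that are still open.
-/

namespace Crest.Agent.T157.An

theorem anc_of (hT : TapStmt) (hP : Plb.PlbStmt) (hSc : Sc.ScStmt) : Up.AncStmt :=
  up_anc hT (Tree.tree_of (free_of hP)) Sla.slaStmt (free_of hP) gamStmt Up.gamEnd hSc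

end Crest.Agent.T157.An
end

-- ▼ part T157/Sc_68
section

/-! Row 157, part D (helper68): the self-correcting bounds (SC). -/

namespace Crest.Agent.T157.Sc

theorem scStmt : ScStmt := sc_of_round roundStmt

end Crest.Agent.T157.Sc
end

-- ▼ part T157/UpSite_41
section

/-! Row 157: `Up.SiteStmt` from helper56's site construction (helper41). -/

set_option autoImplicit false

namespace Crest.Agent.T157.Up

open Crest.Agent.T157.Pf

theorem siteStmt : SiteStmt := fun β hβ =>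
  ⟨Par.CS β, Par.one_le_CS β, fun _ h => ⟨h.site (zero_lt_one.trans hβ), rfl, rfl, rfl, rfl⟩⟩

end Crest.Agent.T157.Up
end

-- ▼ part T157/DTop_68
section

/-! Row 157, part D (helper68): the top of S0231. -/

namespace Crest.Agent.T157.DTop

theorem psiStmt : Ac.PsiStmt := Sd.psi_of' G1.g1Stmt Plb.plbStmt Pf.parStmt

theorem r31_of (hT : An.TapStmt) (hU : Up.UpGlue) : Top.R31 := fun β hβ η hη =>
  Mix.s0231_of (Ac.bar_of_psi psiStmt)
    (Cut.cut_of_cut1 (hU Pf.parStmt Up.siteStmt St.step1Stmt St.step2L St.contStmt St.segStmt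
      St.endStmt Sc.scStmt Up.rmtStmt Up.feStmt Up.gamEnd (An.anc_of hT Plb.plbStmt Sc.scStmt)))
    β hβ η hη

end Crest.Agent.T157.DTop
end

-- ▼ part T157/AnTapA_46
section

/-!
Row 157, part D (helper46): the one-site bound of the many-replica Guerra estimate behind `TapStmt`.
-/

set_option autoImplicit false

noncomputable section

namespace Crest.Agent.T157.An.Tap46

open MeasureTheory ProbabilityTheory Matrix Real
open Crest.ProbabilityR.SpinGlassDynamics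
open Crest.ProbabilityR.InvariantGlass (gaussOp)
open Crest.Agent.R164.GC Crest.Agent.R339.B Crest.Agent.R339.Var
open Crest.Agent.T157.E Crest.Agent.T157.Casc Crest.Agent.T157.SL Crest.Agent.T157.Vg

/-! ### lists -/

/-- `∑ m d` -/
def II (l : List (ℝ × ℝ)) : ℝ := (l.map fun p => p.1 * p.2).sum

theorem II_cons (p : ℝ × ℝ) (l : List (ℝ × ℝ)) : II (p :: l) = p.1 * p.2 + II l := by simp [II]

theorem II_nonneg : ∀ {l : List (ℝ × ℝ)}, Adm 1 l → 0 ≤ II l
  | [], _ => le_rfl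
  | p :: l, h => by
    rw [II_cons]; exact add_nonneg (mul_nonneg h.1.le h.2.2.1) (II_nonneg h.2.2.2)

theorem pen_eq : ∀ (l : List (ℝ × ℝ)) (t : ℝ),
    R339.Guerra.pen t l = R339.Guerra.pen 0 l + 2 * t * II l
  | [], t => by simp [R339.Guerra.pen, II]
  | p :: l, t => by
    simp only [R339.Guerra.pen]
    rw [pen_eq l (t + p.2), pen_eq l (0 + p.2), II_cons]
    ring

theorem pen_split : ∀ (l : List (ℝ × ℝ)) (q t : ℝ), 0 ≤ t → t ≤ TT l →
    R339.Guerra.pen q l = R339.Guerra.pen q (Sc.cut l t) + R339.Guerra.pen (q + t) (Pf.rest l t)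
  | [], _, _, _, _ => by simp [R339.Guerra.pen, Sc.cut, Pf.rest]
  | p :: l, q, t, h0, h1 => by
    rw [Sc.TT_cons] at h1
    unfold Sc.cut Pf.rest
    split_ifs with h
    · simp only [R339.Guerra.pen]
      rw [show q + t + (p.2 - t) = q + p.2 by ring]
      ring
    · simp only [R339.Guerra.pen]
      rw [pen_split l (q + p.2) (t - p.2) (by linarith) (by linarith),
        show q + p.2 + (t - p.2) = q + t by ring]
      ring

theorem cut_all : ∀ {l : List (ℝ × ℝ)}, (∀ p ∈ l, 0 ≤ p.2) → ∀ q : ℝ,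
    R339.Guerra.pen q (Pf.rest l (TT l)) = 0
  | [], _, _ => rfl
  | p :: l, h, q => by
    have hl : ∀ r ∈ l, 0 ≤ r.2 := fun r hr => h r (List.mem_cons_of_mem _ hr)
    have h0 := TT_nonneg hl
    rw [Sc.TT_cons]
    unfold Pf.rest
    split_ifs with h1
    · have e : TT l = 0 := by linarith
      have : ∀ {l : List (ℝ × ℝ)}, (∀ p ∈ l, 0 ≤ p.2) → TT l = 0 → ∀ q,
          R339.Guerra.pen q l = 0 := by
        intro l
        induction l with
        | nil => intro _ _ _; rfl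
        | cons r l ih =>
          intro h e q
          have hl : ∀ s ∈ l, 0 ≤ s.2 := fun s hs => h s (List.mem_cons_of_mem _ hs)
          have h0 := TT_nonneg hl
          have h1 := h r List.mem_cons_self
          rw [Sc.TT_cons] at e
          have e2 : r.2 = 0 := by linarith
          simp only [R339.Guerra.pen, e2, add_zero, sub_self, mul_zero, zero_add]
          exact ih hl (by linarith) q
      simp only [R339.Guerra.pen, e, add_zero, sub_self, mul_zero, zero_add]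
      exact this hl e q
    · rw [add_sub_cancel_left]; exact cut_all hl q

/-- the penalty of the blocks after the level `s` -/
theorem pen_rest {P : Pf.Par} (h : P.OK) {β : ℝ} (hβ : 0 < β) {s : ℝ} (hs : s ∈ Set.Icc (0 : ℝ) 1) :
    R339.Guerra.pen (β ^ 2 * s) (Pf.rest (P.lst β P.K) (β ^ 2 * s)) = 4 * β ^ 2 * P.pen β s := by
  have hb : 0 < β ^ 2 := by positivity
  have hT := Sc.TT_lst h β
  have h1 := pen_split (P.lst β P.K) 0 (β ^ 2 * s) (mul_nonneg hb.le hs.1)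
    (by rw [hT]; nlinarith [hs.2])
  have h2 := pen_split (P.lst β P.K) 0 (β ^ 2 * 1) (by positivity) (by rw [hT, mul_one])
  have h3 := cut_all (Sc.adm_nonneg (Sc.adm_lst h β P.K)) (0 + β ^ 2 * 1)
  rw [hT, ← mul_one (β ^ 2)] at h3
  rw [mul_one, mul_one] at h3
  rw [Sc.pen_cut h hβ hs, zero_add] at h1
  rw [Sc.pen_cut h hβ ⟨zero_le_one, le_rfl⟩, mul_one, h3] at h2
  have h4 : P.pen β 1 = 0 := by simp [Pf.Par.pen]
  rw [h4] at h2
  linarith

/-- exponents raised to at least `θ` -/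
def up (θ : ℝ) (l : List (ℝ × ℝ)) : List (ℝ × ℝ) := l.map fun p => (max p.1 θ, p.2)

theorem up_cons (θ : ℝ) (p : ℝ × ℝ) (l : List (ℝ × ℝ)) :
    up θ (p :: l) = (max p.1 θ, p.2) :: up θ l := rfl

theorem adm_up {θ : ℝ} (h1 : θ ≤ 1) : ∀ {l : List (ℝ × ℝ)}, Adm 1 l →
    Adm 1 (up θ l) ∧ max (headLv 1 l) θ = headLv 1 (up θ l)
  | [], _ => ⟨trivial, max_eq_left h1⟩
  | p :: l, h => by
    obtain ⟨a, b⟩ := adm_up h1 h.2.2.2
    refine ⟨⟨lt_max_of_lt_left h.1, ?_, h.2.2.1, a⟩, rfl⟩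
    exact (max_le_max h.2.1 le_rfl).trans b.le

theorem near_up {θ : ℝ} (h0 : 0 ≤ θ) : ∀ {l : List (ℝ × ℝ)}, Adm 1 l → Pf.Lip62.Near θ l (up θ l)
  | [], _ => List.Forall₂.nil
  | p :: l, h => by
    refine List.Forall₂.cons ⟨?_, rfl⟩ (near_up h0 h.2.2.2)
    have := h.1
    show |p.1 - max p.1 θ| ≤ θ
    rw [abs_le]
    constructor
    · have : max p.1 θ ≤ p.1 + θ := max_le (by linarith) (by linarith)
      linarith
    · linarith [le_max_left p.1 θ]

theorem pen_up (θ : ℝ) : ∀ {l : List (ℝ × ℝ)}, Adm 1 l → ∀ q : ℝ, 0 ≤ q →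
    R339.Guerra.pen q l ≤ R339.Guerra.pen q (up θ l)
  | [], _, _, _ => le_rfl
  | p :: l, h, q, hq => by
    rw [up_cons]
    simp only [R339.Guerra.pen]
    have h1 := h.2.2.1
    exact add_le_add (mul_le_mul_of_nonneg_right (le_max_left _ _) (by nlinarith))
      (pen_up θ h.2.2.2 _ (by linarith))

theorem TT_up (θ : ℝ) : ∀ l : List (ℝ × ℝ), TT (up θ l) = TT l
  | [] => rfl
  | p :: l => by rw [up_cons, Sc.TT_cons, Sc.TT_cons, TT_up θ l]

/-! ### the product recursion with centred features -/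

/-- a level with features `√d φ` -/
abbrev lev {Ω ι : Type} [Fintype ι] (φ : Ω → ι → ℝ) (p : ℝ × ℝ) : Lv Ω :=
  ⟨ι, fun x k => √p.2 * φ x k, p.1⟩

/-- the one-replica value -/
def GG (l : List (ℝ × ℝ)) (r y : ℝ) : ℝ := PhiL 1 l (y - r * II l) - r * y + r ^ 2 * II l / 2

variable {M : ℕ}

theorem X_nil_prod (r e : ℝ) (y : Fin M → ℝ) :
    X (fun _ : Fin M → Bool => (1 : ℝ)) [] (fun a => ∑ c, y c * (spin (a c) - r) + e) =
      ∑ c, GG [] r (y c) + e := by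
  simp only [X, one_mul, exp_add, exp_sum, ← Finset.sum_mul]
  rw [← Fintype.piFinset_univ, ← Finset.prod_univ_sum (fun _ => Finset.univ)
    fun c b => exp (y c * (spin b - r)), log_mul (Finset.prod_pos fun c _ => by positivity).ne'
    (exp_pos _).ne', log_exp, log_prod fun c _ => by positivity]
  congr 1
  refine Finset.sum_congr rfl fun c _ => ?_
  have e1 : ∑ b : Bool, exp (y c * (spin b - r)) = 2 * cosh (1 * y c) * exp (-(r * y c)) := by
    rw [Fintype.sum_bool, one_mul, cosh_eq]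
    simp only [spin, if_true, Bool.false_eq_true, if_false]
    rw [show y c * (1 - r) = y c + -(r * y c) by ring,
      show y c * (-1 - r) = -y c + -(r * y c) by ring, exp_add, exp_add]
    ring
  rw [e1, log_mul (by positivity) (exp_pos _).ne', log_exp]
  simp [GG, II, PhiL, phi0, sub_eq_add_neg]

theorem X_prod_cen (r : ℝ) : ∀ {l : List (ℝ × ℝ)}, Adm 1 l → ∀ (e : ℝ) (y : Fin M → ℝ),
    X (fun _ : Fin M → Bool => (1 : ℝ)) (l.map (lev fun a c => spin (a c) - r))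
      (fun a => ∑ c, y c * (spin (a c) - r) + e) = ∑ c, GG l r (y c) + e
  | [], _, e, y => X_nil_prod r e y
  | p :: l, h, e, y => by
    have hm := h.1
    have hd := h.2.2.1
    have hL := (PhiL_prof one_pos l).lip
    have e1 : ∀ g : Fin M → ℝ, X (fun _ : Fin M → Bool => (1 : ℝ))
        (l.map (lev fun a c => spin (a c) - r))
        ((fun a => ∑ c, y c * (spin (a c) - r) + e) +
          (lev (fun (a : Fin M → Bool) c => spin (a c) - r) p).fld g) =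
        ∑ c, GG l r (y c + √p.2 * g c) + e := by
      intro g
      rw [← X_prod_cen r h.2.2.2]
      congr 1
      funext a
      simp only [Pi.add_apply, Lv.fld, lev, add_mul, Finset.sum_add_distrib]
      rw [add_right_comm]
      congr 2
      exact Finset.sum_congr rfl fun c _ => by ring
    rw [List.map_cons, X, step, if_neg (show (lev _ p).m ≠ 0 from hm.ne')]
    change p.1⁻¹ * log (∫ g : Fin M → ℝ, exp (p.1 * _) ∂gv (Fin M)) = _
    simp only [e1]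
    set k : Fin M → ℝ := fun _ => -(p.1 * r * √p.2) with hk
    set c0 : ℝ := ∑ c : Fin M, (-(r * y c) + r ^ 2 * II (p :: l) / 2) + e with hc0
    have hs : √p.2 * √p.2 = p.2 := mul_self_sqrt hd
    have e2 : ∀ g : Fin M → ℝ, exp (p.1 * (∑ c, GG l r (y c + √p.2 * g c) + e)) =
        exp (p.1 * c0) * (exp (g ⬝ᵥ k - k ⬝ᵥ k / 2) *
          ∏ c, exp (p.1 * PhiL 1 l (y c - r * II l + √p.2 * g c))) := by
      intro g
      rw [← exp_sum, ← exp_add, ← exp_add, hc0]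
      congr 1
      simp only [dotProduct, hk, Finset.sum_div, mul_add, Finset.mul_sum, ← Finset.sum_sub_distrib]
      rw [add_right_comm _ (p.1 * e), ← Finset.sum_add_distrib, ← Finset.sum_add_distrib]
      congr 1
      refine Finset.sum_congr rfl fun c _ => ?_
      rw [GG, II_cons, show y c + √p.2 * g c - r * II l = y c - r * II l + √p.2 * g c by ring]
      linear_combination (p.1 ^ 2 * r ^ 2 / 2) * hs
    simp only [e2]
    rw [integral_const_mul, ← cm k fun g => ∏ c, exp (p.1 * PhiL 1 l (y c - r * II l + √p.2 * g c))]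
    have e3 : ∀ g : Fin M → ℝ, ∏ c, exp (p.1 * PhiL 1 l (y c - r * II l + √p.2 * (k + g) c)) =
        ∏ c, exp (p.1 * PhiL 1 l (y c - r * II (p :: l) + √p.2 * g c)) := by
      intro g
      refine Finset.prod_congr rfl fun c _ => ?_
      congr 3
      rw [II_cons, Pi.add_apply, hk]
      linear_combination (-(p.1 * r)) * hs
    simp only [e3]
    rw [integral_fintype_prod_eq_prod (μ := fun _ : Fin M => gaussianReal 0 1)
      fun c g => exp (p.1 * PhiL 1 l (y c - r * II (p :: l) + √p.2 * g))]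
    have hp : ∀ c, 0 < ∫ g, exp (p.1 * PhiL 1 l (y c - r * II (p :: l) + √p.2 * g))
        ∂gaussianReal 0 1 := fun c => den_pos hL p.1 (√p.2) _
    rw [log_mul (exp_pos _).ne' (Finset.prod_pos fun c _ => hp c).ne', log_exp,
      log_prod fun c _ => (hp c).ne', mul_add, inv_mul_cancel_left₀ hm.ne', hc0, Finset.mul_sum,
      add_right_comm, ← Finset.sum_add_distrib]
    congr 1
    refine Finset.sum_congr rfl fun c _ => ?_
    rw [GG, PhiL, gaussOp, if_neg hm.ne']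
    ring

/-! ### the union bound inside a cascade -/

theorem exp_mul_le_sum {K : Type} [Fintype K] {s a : ℝ} {b : K → ℝ} (h0 : 0 ≤ s) (h1 : s ≤ 1)
    (h : exp a ≤ ∑ k, exp (b k)) : exp (s * a) ≤ ∑ k, exp (s * b k) := by
  have hS : 0 < ∑ k, exp (b k) := (exp_pos _).trans_le h
  set A := log (∑ k, exp (b k)) with hA
  have h2 : a ≤ A := (le_log_iff_exp_le hS).2 h
  have h3 : ∀ k, b k ≤ A := fun k => (le_log_iff_exp_le hS).2
    (Finset.single_le_sum (f := fun k => exp (b k)) (fun _ _ => (exp_pos _).le) (Finset.mem_univ k))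
  have h4 : ∀ k, exp ((s - 1) * A) * exp (b k) ≤ exp (s * b k) := fun k => by
    rw [← exp_add]
    exact exp_le_exp.2 (by nlinarith [h3 k])
  calc exp (s * a) ≤ exp (s * A) := exp_le_exp.2 (mul_le_mul_of_nonneg_left h2 h0)
    _ = exp ((s - 1) * A) * ∑ k, exp (b k) := by
        rw [← exp_log hS, ← hA, ← exp_add]; congr 1; ring
    _ ≤ _ := by rw [Finset.mul_sum]; exact Finset.sum_le_sum fun k _ => h4 k

theorem union {Ω ι K : Type} [Fintype Ω] [Fintype ι] [Fintype K] {w : Ω → ℝ} (hw : Wt w)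
    (κ : Ω → K) (φ : Ω → ι → ℝ) (ψ : K → Ω → ι → ℝ) (hφ : ∀ x, φ x = ψ (κ x) x) :
    ∀ {l : List (ℝ × ℝ)}, Adm 1 l → ∀ m : ℝ, 0 < m → m ≤ headLv 1 l →
      ∀ (z : Ω → ℝ) (zk : K → Ω → ℝ), (∀ x, z x ≤ zk (κ x) x) →
      exp (m * X w (l.map (lev φ)) z) ≤ ∑ k, exp (m * X w (l.map (lev (ψ k))) (zk k))
  | [], _, m, h0, h1, z, zk, hz => by
    classical
    refine exp_mul_le_sum h0.le h1 ?_
    simp only [List.map_nil, X]
    rw [exp_log (wt_exp hw z).pos]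
    simp only [exp_log (wt_exp hw _).pos]
    rw [Finset.sum_comm]
    refine Finset.sum_le_sum fun x _ => le_trans ?_ (Finset.single_le_sum
      (f := fun k => w x * exp (zk k x)) (fun _ _ => mul_nonneg (hw.nn x) (exp_pos _).le)
      (Finset.mem_univ (κ x)))
    exact mul_le_mul_of_nonneg_left (exp_le_exp.2 (hz x)) (hw.nn x)
  | p :: l, h, m, h0, h1, z, zk, hz => by
    have hm := h.1
    have e : ∀ (χ : Ω → ι → ℝ) (v : Ω → ℝ), exp (p.1 * X w ((p :: l).map (lev χ)) v) =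
        ∫ g, exp (p.1 * X w (l.map (lev χ)) (v + (lev χ p).fld g)) ∂gv ι := by
      intro χ v
      rw [List.map_cons, X, step, if_neg (show (lev χ p).m ≠ 0 from hm.ne')]
      exact (congrArg exp (mul_inv_cancel_left₀ hm.ne' _)).trans
        (exp_log ((lg_X hw _).Z_pos (lev χ p) v))
    have h2 : exp (p.1 * X w ((p :: l).map (lev φ)) z) ≤
        ∑ k, exp (p.1 * X w ((p :: l).map (lev (ψ k))) (zk k)) := by
      simp only [e]
      have hi : ∀ (χ : Ω → ι → ℝ) (v : Ω → ℝ), Integrable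
          (fun g => exp (p.1 * X w (l.map (lev χ)) (v + (lev χ p).fld g))) (gv ι) := fun χ v =>
        ((lg_X hw _).exp p.1).int (lev χ p) v
      refine le_trans (integral_mono (hi φ z) (integrable_finsetSum Finset.univ fun k _ =>
        hi (ψ k) (zk k)) fun g => ?_) (integral_finsetSum _ fun k _ => hi (ψ k) (zk k)).le
      refine union hw κ φ ψ hφ h.2.2.2 p.1 hm h.2.1 _ _ fun x => ?_
      simp only [Pi.add_apply, Lv.fld, lev, hφ x]
      linarith [hz x]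
    have h3 := exp_mul_le_sum (s := m / p.1) (by positivity) ((div_le_one hm).2 h1) h2
    simpa only [← mul_assoc, div_mul_cancel₀ m hm.ne'] using h3

/-! ### the site bound -/

/-- the empirical mean of the replicas -/
def bar (a : Fin M → Bool) : ℝ := (∑ c, spin (a c)) / M

/-- centred spins -/
def tau (a : Fin M → Bool) (c : Fin M) : ℝ := spin (a c) - bar a

/-- the number of `+` spins -/
def cnt (a : Fin M → Bool) : Fin (M + 1) :=
  ⟨(Finset.univ.filter fun c => a c = true).card,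
    Nat.lt_succ_of_le ((Finset.card_filter_le _ _).trans (by simp))⟩

theorem bar_eq (a : Fin M → Bool) : bar a = (2 * (cnt a : ℕ) - M) / M := by
  have : ∀ c, spin (a c) = 2 * (if a c = true then 1 else 0) - 1 := fun c => by
    cases a c <;> norm_num [spin]
  simp only [bar, this, Finset.sum_sub_distrib, ← Finset.mul_sum, Finset.sum_boole, cnt]
  simp

theorem abs_bar_le (hM : 0 < M) (a : Fin M → Bool) : |bar a| ≤ 1 := by
  have hM' : (0 : ℝ) < M := by exact_mod_cast hM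
  rw [bar, abs_div, abs_of_pos hM', div_le_one hM']
  refine (Finset.abs_sum_le_sum_abs _ _).trans ?_
  simp [abs_spin]

theorem sum_tau (hM : 0 < M) (a : Fin M → Bool) : ∑ c, (spin (a c) - bar a) = 0 := by
  have hM' : (M : ℝ) ≠ 0 := by exact_mod_cast hM.ne'
  rw [Finset.sum_sub_distrib, Finset.sum_const, Finset.card_univ, Fintype.card_fin, nsmul_eq_mul,
    bar, mul_div_cancel₀ _ hM', sub_self]

theorem sum_tau_sq (hM : 0 < M) (a : Fin M → Bool) : ∑ c, tau a c ^ 2 ≤ 4 * M := by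
  have h : ∀ c, tau a c ^ 2 ≤ 4 := fun c => by
    have h1 := abs_le.1 (abs_bar_le hM a)
    have h2 := abs_le.1 (abs_spin (a c)).le
    unfold tau
    nlinarith
  refine (Finset.sum_le_sum fun c _ => h c).trans ?_
  simp [mul_comm]

theorem site_le (hM : 0 < M) {l : List (ℝ × ℝ)} (h : Adm 1 l) {θ : ℝ} (h0 : 0 < θ)
    (h1 : θ ≤ headLv 1 l) (x : ℝ → ℝ) :
    X (fun _ : Fin M → Bool => (1 : ℝ)) (l.map (lev tau))
      (fun a => -(M * GG l (bar a) (x (bar a)))) ≤ log (M + 1) / θ := by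
  have hw : Wt fun _ : Fin M → Bool => (1 : ℝ) := Wt.of_pos fun _ => one_pos
  set rk : Fin (M + 1) → ℝ := fun k => (2 * (k : ℕ) - M) / M with hrk
  have hb : ∀ a, rk (cnt a) = bar a := fun a => (bar_eq a).symm
  have h2 := union hw cnt tau (fun k a c => spin (a c) - rk k)
    (fun a => funext fun c => by rw [hb]; rfl) h θ h0 h1
    (fun a => -(M * GG l (bar a) (x (bar a))))
    (fun k a => ∑ c, x (rk k) * (spin (a c) - rk k) + -(M * GG l (rk k) (x (rk k))))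
    (fun a => by rw [hb, ← Finset.mul_sum, sum_tau hM, mul_zero, zero_add])
  simp only [X_prod_cen _ h, Finset.sum_const, Finset.card_univ, Fintype.card_fin, nsmul_eq_mul,
    add_neg_cancel, mul_zero, exp_zero, mul_one] at h2
  rw [le_div_iff₀ h0, mul_comm, le_log_iff_exp_le (by positivity)]
  exact_mod_cast h2

/-- near minimisers of `Φ y - r y` -/
theorem exists_chi {l : List (ℝ × ℝ)} (h : Adm 1 l) {δ : ℝ} (hδ : 0 < δ) :
    ∃ χ : ℝ → ℝ, ∀ r, |r| ≤ 1 → ∀ y, PhiL 1 l (χ r) - r * χ r ≤ PhiL 1 l y - r * y + δ := by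
  have hp : ∀ p ∈ l, 0 < p.1 := fun p hp => (Sc.pos_of_adm h p hp).1
  have h0 : ∀ r, |r| ≤ 1 → ∀ y, 0 ≤ PhiL 1 l y - r * y := by
    intro r hr y
    have h1 := Pf.le_PhiL one_pos hp y
    have h2 := Pf.le_PhiL one_pos hp (-y)
    rw [(PhiL_inv one_pos h).even] at h2
    have h3 : r * y ≤ |y| := (le_abs_self _).trans (by
      rw [abs_mul]; exact mul_le_of_le_one_left (abs_nonneg _) hr)
    have h4 : |y| ≤ PhiL 1 l y := abs_le.2 ⟨by linarith, h1⟩
    linarith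
  have : ∀ r : ℝ, ∃ c : ℝ, |r| ≤ 1 → ∀ y, PhiL 1 l c - r * c ≤ PhiL 1 l y - r * y + δ := by
    intro r
    by_cases hr : |r| ≤ 1
    · have hb : BddBelow (Set.range fun y => PhiL 1 l y - r * y) :=
        ⟨0, by rintro _ ⟨y, rfl⟩; exact h0 r hr y⟩
      obtain ⟨c, hc⟩ := exists_lt_of_ciInf_lt
        (lt_add_of_pos_right (⨅ y, (PhiL 1 l y - r * y)) hδ)
      exact ⟨c, fun _ y => by linarith [ciInf_le hb y]⟩
    · exact ⟨0, fun h => absurd h hr⟩
  choose χ hχ using this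
  exact ⟨χ, hχ⟩

/-! ### the instance of the vector Guerra bound -/

/-- a diagonal level -/
abbrev vl (β : ℝ) (M : ℕ) (p : ℝ × ℝ) : VL (Fin M) (Fin M → Bool) :=
  ⟨Fin M, (√p.2 / β) • (1 : Matrix (Fin M) (Fin M) ℝ), Empty, fun _ k => k.elim, p.1⟩

theorem vl_C {β : ℝ} {p : ℝ × ℝ} (hp : 0 ≤ p.2) :
    (vl β M p).C = (p.2 / β ^ 2) • (1 : Matrix (Fin M) (Fin M) ℝ) := by
  show ((√p.2 / β) • (1 : Matrix (Fin M) (Fin M) ℝ)) *
    ((√p.2 / β) • (1 : Matrix (Fin M) (Fin M) ℝ))ᵀ = _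
  rw [transpose_smul, transpose_one, smul_mul_smul_comm, mul_one, div_mul_div_comm,
    mul_self_sqrt hp, sq]

theorem fr2_smul_one (s : ℝ) : fr2 (s • (1 : Matrix (Fin M) (Fin M) ℝ)) = M * s ^ 2 := by
  simp [fr2, Matrix.one_apply]

theorem Qtop_vl (β : ℝ) : ∀ {l : List (ℝ × ℝ)}, Adm 1 l →
    Qtop (l.map (vl β M)) = (TT l / β ^ 2) • (1 : Matrix (Fin M) (Fin M) ℝ)
  | [], _ => by simp [Qtop_nil, TT]
  | p :: l, h => by
    rw [List.map_cons, Qtop_cons, Qtop_vl β h.2.2.2, vl_C h.2.2.1, Sc.TT_cons, add_div, add_smul]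

theorem corr_vl (β : ℝ) : ∀ {l : List (ℝ × ℝ)}, Adm 1 l → ∀ t : ℝ,
    corr ((t / β ^ 2) • (1 : Matrix (Fin M) (Fin M) ℝ)) (l.map (vl β M)) =
      M / β ^ 4 * R339.Guerra.pen t l
  | [], _, _ => by simp [corr, R339.Guerra.pen]
  | p :: l, h, t => by
    rw [List.map_cons, corr, vl_C h.2.2.1, ← add_smul, ← add_div, corr_vl β h.2.2.2, fr2_smul_one,
      fr2_smul_one, R339.Guerra.pen]
    show p.1 * _ + _ = _
    ring

theorem mono_vl (β : ℝ) : ∀ {l : List (ℝ × ℝ)}, Adm 1 l → ∀ m : ℝ, m ≤ headLv 1 l →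
    Mono m ((l.map (vl β M)).map VL.fix)
  | [], _, _, h1 => h1
  | _ :: _, h, _, h1 => ⟨h1, mono_vl β h.2.2.2 _ h.2.1⟩

theorem X_site {β : ℝ} (hβ : β ≠ 0) (l : List (ℝ × ℝ)) :
    X (fun _ : Fin M → Bool => (1 : ℝ)) ((l.map (vl β M)).map (VL.site β tau)) =
      X (fun _ => 1) (l.map (lev tau)) := by
  rw [List.map_map]
  refine X_sel (Wt.of_pos fun _ => one_pos) (VL.site β tau ∘ vl β M) (lev tau) (fun p => ?_) l
  have hi : Function.Injective (Sum.inl : Fin M → Fin M ⊕ Empty) := Sum.inl_injective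
  refine ⟨_, hi, rfl, fun g => funext fun a => ?_⟩
  change ∑ k : Fin M ⊕ Empty, Sum.elim (fun k => β * ∑ c, tau a c *
    ((√p.2 / β) • (1 : Matrix (Fin M) (Fin M) ℝ)) c k) (fun k : Empty => k.elim) k * g k =
    ∑ k : Fin M, √p.2 * tau a k * g (Sum.inl k)
  rw [Fintype.sum_sum_type]
  simp only [Finset.univ_eq_empty, Finset.sum_empty, add_zero, Sum.elim_inl, Matrix.smul_apply,
    Matrix.one_apply, smul_eq_mul, mul_ite, mul_one, mul_zero, Finset.sum_ite_eq',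
    Finset.mem_univ, if_true]
  refine Finset.sum_congr rfl fun k _ => ?_
  field_simp

end Crest.Agent.T157.An.Tap46

end
end

-- ▼ part T157/AnTapB_46
section

/-!
Row 157, part D (helper46): the lower bound of the many-replica functional by a product law.
-/

set_option autoImplicit false

noncomputable section

namespace Crest.Agent.T157.An.Tap46

open MeasureTheory Matrix Real
open Crest.ProbabilityR.SpinGlassDynamics
open Crest.Agent.R339.B Crest.Agent.R339.Var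
open Crest.Agent.T157.E Crest.Agent.T157.SL Crest.Agent.T157.Vg Crest.Agent.T157.Eig
open Crest.Agent.T157.St Crest.Agent.T157.Tree

variable {M n : ℕ}

section prod
variable {Ω : Type} [Fintype Ω] {w : Ω → ℝ}

/-- the product law -/
def pw2 (M : ℕ) (w : Ω → ℝ) (σ : Fin M → Ω) : ℝ := ∏ c, prob w (σ c)

theorem sum_pw2_mul (w : Ω → ℝ) (g : Fin M → Ω → ℝ) :
    ∑ σ, pw2 M w σ * ∏ c, g c (σ c) = ∏ c, mean w (g c) := by
  classical
  simp only [pw2, ← Finset.prod_mul_distrib, mean]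
  rw [← Fintype.piFinset_univ, ← Finset.prod_univ_sum (fun _ => Finset.univ)
    fun c x => prob w x * g c x]

theorem sum_pw2 (hw : Wt w) : ∑ σ, pw2 M w σ = 1 := by
  simpa [hw.mean_const] using sum_pw2_mul (M := M) w fun _ _ => 1

theorem wt_pw2 (hw : Wt w) : Wt (pw2 M w) :=
  ⟨fun _ => Finset.prod_nonneg fun _ _ => hw.prob_nonneg _, by rw [sum_pw2 hw]; exact one_pos⟩

theorem prob_pw2 (hw : Wt w) (σ : Fin M → Ω) : prob (pw2 M w) σ = pw2 M w σ := by
  rw [prob, sum_pw2 hw, div_one]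

theorem mean_prod (hw : Wt w) (g : Fin M → Ω → ℝ) :
    mean (pw2 M w) (fun σ => ∏ c, g c (σ c)) = ∏ c, mean w (g c) := by
  rw [← sum_pw2_mul, mean]
  simp only [prob_pw2 hw]

theorem mean_one (hw : Wt w) (a : Fin M) (f : Ω → ℝ) :
    mean (pw2 M w) (fun σ => f (σ a)) = mean w f := by
  have h := mean_prod hw fun (c : Fin M) x => if c = a then f x else 1
  have e : ∀ c : Fin M, mean w (fun x => if c = a then f x else 1) =
      if c = a then mean w f else 1 := fun c => by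
    split_ifs
    · rfl
    · exact hw.mean_const 1
  simpa only [e, Finset.prod_ite_eq', Finset.mem_univ, if_true] using h

theorem mean_two' (hw : Wt w) {a b : Fin M} (hab : a ≠ b) (f g : Ω → ℝ) :
    mean (pw2 M w) (fun σ => f (σ a) * g (σ b)) = mean w f * mean w g := by
  have h := mean_prod hw fun (c : Fin M) x =>
    (if c = a then f x else 1) * if c = b then g x else 1
  have e : ∀ c : Fin M, mean w (fun x => (if c = a then f x else 1) * if c = b then g x else 1) =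
      (if c = a then mean w f else 1) * if c = b then mean w g else 1 := fun c => by
    by_cases h1 : c = a
    · have h2 : c ≠ b := h1 ▸ hab
      simp only [if_pos h1, if_neg h2, mul_one]
    · by_cases h2 : c = b
      · simp only [if_neg h1, if_pos h2, one_mul]
      · simp only [if_neg h1, if_neg h2, mul_one, hw.mean_const]
  simpa only [e, Finset.prod_mul_distrib, Finset.prod_ite_eq', Finset.mem_univ, if_true] using h

theorem bil_eq (w : Ω → ℝ) (K : Ω → Ω → ℝ) :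
    bil (prob w) (prob w) K = mean w fun x => mean w fun y => K x y := by
  simp only [bil, mean, Finset.mul_sum, mul_assoc]

theorem mean_two (hw : Wt w) {a b : Fin M} (hab : a ≠ b) (K : Ω → Ω → ℝ) :
    mean (pw2 M w) (fun σ => K (σ a) (σ b)) = bil (prob w) (prob w) K := by
  classical
  have e : (fun σ : Fin M → Ω => K (σ a) (σ b)) = fun σ => ∑ x, ∑ y, K x y *
      ((Pi.single x 1 : Ω → ℝ) (σ a) * (Pi.single y 1 : Ω → ℝ) (σ b)) := by
    funext σ
    simp [Pi.single_apply]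
  rw [e]
  simp only [mean_sum, mean_const_mul, mean_two' hw hab, mean_single, bil]
  exact Finset.sum_congr rfl fun x _ => Finset.sum_congr rfl fun y _ => mul_comm _ _

/-- the Gibbs variational principle for the product law -/
theorem gibbs (hw : Wt w) (z : (Fin M → Ω) → ℝ) :
    mean (pw2 M w) z - M * mean w (fun x => log (prob w x)) ≤ log (∑ σ, exp (z σ)) := by
  classical
  have hW := wt_pw2 (M := M) hw
  have h := Casc.X_nil_add_ge hW 0 fun σ => z σ - ∑ c, log (prob w (σ c))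
  simp only [Casc.X, Casc.P, Pi.zero_apply, exp_zero, mul_one, sum_pw2 hw, log_one, zero_add] at h
  have e : ∑ σ, prob (pw2 M w) σ * (z σ - ∑ c, log (prob w (σ c))) =
      mean (pw2 M w) z - M * mean w fun x => log (prob w x) := by
    change mean (pw2 M w) _ = _
    rw [mean_sub, mean_sum]
    simp only [mean_one hw _ fun x => log (prob w x), Finset.sum_const, Finset.card_univ,
      Fintype.card_fin, nsmul_eq_mul]
  rw [← e]
  refine h.trans (log_le_log (hW.mul_pos fun _ => exp_pos _).pos (Finset.sum_le_sum fun σ _ => ?_))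
  by_cases h0 : ∀ c, 0 < prob w (σ c)
  · rw [exp_sub, exp_sum]
    simp only [exp_log (h0 _)]
    rw [pw2, mul_div_cancel₀ _ (Finset.prod_pos fun c _ => h0 c).ne']
  · push Not at h0
    obtain ⟨c, hc⟩ := h0
    rw [pw2, Finset.prod_eq_zero (Finset.mem_univ c) (le_antisymm hc (hw.prob_nonneg _)), zero_mul]
    exact (exp_pos _).le

end prod

/-! ### centring -/

/-- double centring -/
def cen (R : Fin M → Fin M → ℝ) (a b : Fin M) : ℝ :=
  R a b - (M : ℝ)⁻¹ * ∑ d, R a d - (M : ℝ)⁻¹ * ∑ c, R c b + (M : ℝ)⁻¹ * ((M : ℝ)⁻¹ * ∑ c, ∑ d, R c d)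

theorem sum_cen (hM : 0 < M) (R : Fin M → Fin M → ℝ) :
    ∑ a, cen R a a = ∑ a, R a a - (M : ℝ)⁻¹ * ∑ c, ∑ d, R c d := by
  have hM' : (M : ℝ) ≠ 0 := by exact_mod_cast hM.ne'
  simp only [cen, Finset.sum_add_distrib, Finset.sum_sub_distrib, ← Finset.mul_sum,
    Finset.sum_const, Finset.card_univ, Fintype.card_fin, nsmul_eq_mul]
  rw [Finset.sum_comm (f := fun a c => R c a)]
  field_simp
  ring

theorem cen_sq (hM : 0 < M) (D : Fin M → Fin M → ℝ) {c : ℝ} (hc : c ^ 2 ≤ 1) :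
    ∑ a, ∑ b, (cen D a b - c / M) ^ 2 ≤ 20 * ∑ a, ∑ b, D a b ^ 2 + 5 := by
  have hM' : (0 : ℝ) < M := by exact_mod_cast hM
  have cs : ∀ f : Fin M → ℝ, ((M : ℝ)⁻¹ * ∑ d, f d) ^ 2 ≤ (M : ℝ)⁻¹ * ∑ d, f d ^ 2 := by
    intro f
    have h := sq_sum_le_card_mul_sum_sq (s := Finset.univ) (f := f)
    rw [Finset.card_univ, Fintype.card_fin] at h
    rw [mul_pow]
    calc _ ≤ (M : ℝ)⁻¹ ^ 2 * (M * ∑ d, f d ^ 2) := by gcongr
      _ = _ := by field_simp
  have h4 : ((M : ℝ)⁻¹ * ((M : ℝ)⁻¹ * ∑ c, ∑ d, D c d)) ^ 2 ≤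
      (M : ℝ)⁻¹ * ((M : ℝ)⁻¹ * ∑ c, ∑ d, D c d ^ 2) := by
    rw [Finset.mul_sum, Finset.mul_sum Finset.univ fun c => ∑ d, D c d ^ 2]
    refine (cs _).trans (mul_le_mul_of_nonneg_left (Finset.sum_le_sum fun c _ => cs _) ?_)
    positivity
  have h5 : (c / M) ^ 2 ≤ (M : ℝ)⁻¹ * (M : ℝ)⁻¹ := by
    rw [div_eq_mul_inv, mul_pow, ← sq]
    exact mul_le_of_le_one_left (by positivity) hc
  have h : ∀ a b, (cen D a b - c / M) ^ 2 ≤ 5 * (D a b ^ 2 + (M : ℝ)⁻¹ * ∑ d, D a d ^ 2 +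
      (M : ℝ)⁻¹ * ∑ c, D c b ^ 2 + (M : ℝ)⁻¹ * ((M : ℝ)⁻¹ * ∑ c, ∑ d, D c d ^ 2) +
      (M : ℝ)⁻¹ * (M : ℝ)⁻¹) := by
    intro a b
    have h2 := cs fun d => D a d
    have h3 := cs fun c => D c b
    have key : ∀ x1 x2 x3 x4 x5 : ℝ, (x1 - x2 - x3 + x4 - x5) ^ 2 ≤
        5 * (x1 ^ 2 + x2 ^ 2 + x3 ^ 2 + x4 ^ 2 + x5 ^ 2) := by
      intro x1 x2 x3 x4 x5
      nlinarith [sq_nonneg (x1 + x2), sq_nonneg (x1 + x3), sq_nonneg (x1 - x4),
        sq_nonneg (x1 + x5), sq_nonneg (x2 - x3), sq_nonneg (x2 + x4), sq_nonneg (x2 - x5),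
        sq_nonneg (x3 + x4), sq_nonneg (x3 - x5), sq_nonneg (x4 + x5)]
    refine (key _ _ _ _ _).trans ?_
    linarith
  refine (Finset.sum_le_sum fun a _ => Finset.sum_le_sum fun b _ => h a b).trans (le_of_eq ?_)
  simp only [← Finset.mul_sum, Finset.sum_add_distrib, Finset.sum_const, Finset.card_univ,
    Fintype.card_fin, nsmul_eq_mul]
  rw [Finset.sum_comm (f := fun b c => D c b ^ 2)]
  field_simp
  ring

/-- exchange of the site and replica indices -/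
def sw (σ : Fin M → Cube n) : Fin n → Fin M → Bool := fun i c => σ c i

theorem fv_tau (σ : Fin M → Cube n) (c : Fin M) :
    fv tau (sw σ) c = sv (σ c) - (M : ℝ)⁻¹ • ∑ d, sv (σ d) := by
  funext i
  simp only [fv, tau, bar, sw, sv, Pi.sub_apply, Pi.smul_apply, Finset.sum_apply, smul_eq_mul]
  ring

theorem quad_tau (A : Matrix (Fin n) (Fin n) ℝ) (σ : Fin M → Cube n) (a b : Fin M) :
    fv tau (sw σ) a ⬝ᵥ A *ᵥ fv tau (sw σ) b =
      cen (fun c d => sv (σ c) ⬝ᵥ A *ᵥ sv (σ d)) a b := by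
  simp only [fv_tau, cen, sub_dotProduct, mulVec_sub, dotProduct_sub, smul_dotProduct,
    mulVec_smul, dotProduct_smul, sum_dotProduct, mulVec_sum, dotProduct_sum, smul_eq_mul,
    Finset.sum_sub_distrib, ← Finset.mul_sum]
  rw [Finset.sum_comm (f := fun c d => sv (σ c) ⬝ᵥ A *ᵥ sv (σ d))]
  ring

variable {w : Cube n → ℝ}

theorem bil_quad (A : Matrix (Fin n) (Fin n) ℝ) (w : Cube n → ℝ) :
    bil (prob w) (prob w) (fun x y => sv x ⬝ᵥ A *ᵥ sv y) = mag w ⬝ᵥ A *ᵥ mag w := by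
  rw [bil_eq]
  simp only [dotProduct_mulVec, ← meanV_dot]
  simp only [← dotProduct_mulVec, dotProduct_comm (sv _), ← meanV_dot]
  exact dotProduct_comm _ _

theorem mean_HW (hM : 0 < M) (hw : Wt w) (β : ℝ) (W : Matrix (Fin n) (Fin n) ℝ) :
    mean (pw2 M w) (fun σ => HW β tau W (sw σ)) =
      β / 2 * ((M - 1) * (mean w (fun x => sv x ⬝ᵥ W *ᵥ sv x) - mag w ⬝ᵥ W *ᵥ mag w)) := by
  have hM' : (M : ℝ) ≠ 0 := by exact_mod_cast hM.ne'
  have e : ∀ c d : Fin M, mean (pw2 M w) (fun σ => sv (σ c) ⬝ᵥ W *ᵥ sv (σ d)) =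
      mag w ⬝ᵥ W *ᵥ mag w + if c = d then
        mean w (fun x => sv x ⬝ᵥ W *ᵥ sv x) - mag w ⬝ᵥ W *ᵥ mag w else 0 := by
    intro c d
    split_ifs with h
    · subst h
      rw [mean_one hw c fun x => sv x ⬝ᵥ W *ᵥ sv x]; ring
    · rw [mean_two hw h fun x y => sv x ⬝ᵥ W *ᵥ sv y, bil_quad, add_zero]
  simp only [HW, ← Finset.mul_sum, quad_tau, sum_cen hM, mean_const_mul, mean_sub, mean_sum, e,
    if_true, Finset.sum_add_distrib, Finset.sum_ite_eq, Finset.mem_univ, Finset.sum_const,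
    Finset.card_univ, Fintype.card_fin, nsmul_eq_mul]
  field_simp
  ring

theorem dev_nonneg (hw : Wt w) (u : ℝ) : 0 ≤ dev w w u := by
  rw [dev, bil_eq]
  exact hw.mean_nonneg fun _ => hw.mean_nonneg fun _ => sq_nonneg _

theorem dev_le (hw : Wt w) (u : ℝ) : dev w w u ≤ 2 * ovar w + 2 * (qq (mag w) - u) ^ 2 := by
  rw [ovar, dev, dev, bil_eq, bil_eq, ← mean_const_mul, ← hw.mean_const (2 * _), ← mean_add]
  refine hw.mean_mono fun x => ?_
  rw [← mean_const_mul, ← hw.mean_const (2 * _), ← mean_add]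
  refine hw.mean_mono fun y => ?_
  nlinarith [sq_nonneg (ovl x y - 2 * qq (mag w) + u)]

theorem mean_pen (hM : 0 < M) (hn : 0 < n) (hw : Wt w) (β : ℝ) {u : ℝ} (h0 : 0 ≤ u) (h1 : u ≤ 1) :
    mean (pw2 M w) (fun σ => Vg.pen β tau ((1 - u) • (1 : Matrix (Fin M) (Fin M) ℝ)) (sw σ)) ≤
      β ^ 2 * n / 4 * (20 * (M ^ 2 * dev w w u) + 5) := by
  have hM' : (M : ℝ) ≠ 0 := by exact_mod_cast hM.ne'
  have hn' : (n : ℝ) ≠ 0 := by exact_mod_cast hn.ne'
  have hW := wt_pw2 (M := M) hw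
  set D : (Fin M → Cube n) → Fin M → Fin M → ℝ := fun σ a b =>
    ovl (σ a) (σ b) - u - if a = b then 1 - u else 0 with hD
  have e1 : ∀ σ : Fin M → Cube n, fr2 (ov tau (sw σ) (sw σ) - (1 - u) • 1) ≤
      20 * ∑ a, ∑ b, D σ a b ^ 2 + 5 := by
    intro σ
    refine le_trans (le_of_eq ?_) (cen_sq hM (D σ) (c := 1 - u) (by nlinarith))
    refine Finset.sum_congr rfl fun a _ => Finset.sum_congr rfl fun b _ => ?_
    congr 1
    have h := quad_tau 1 σ a b
    simp only [one_mulVec] at h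
    simp only [Matrix.sub_apply, ov, of_apply, h, Matrix.smul_apply, Matrix.one_apply, smul_eq_mul,
      mul_ite, mul_one, mul_zero, cen, hD, ovl, Finset.sum_sub_distrib, ← Finset.sum_div,
      Finset.sum_ite_eq, Finset.sum_ite_eq', Finset.mem_univ, if_true, Finset.sum_const,
      Finset.card_univ, Fintype.card_fin, nsmul_eq_mul]
    field_simp
    ring
  have e2 : ∀ a b, mean (pw2 M w) (fun σ => D σ a b ^ 2) ≤ dev w w u := by
    intro a b
    by_cases h : a = b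
    · subst h
      refine hW.mean_le fun σ => le_trans (le_of_eq ?_) (dev_nonneg hw u)
      simp [hD, ovl, sv_dot_self, hn']
    · simp only [hD, if_neg h, sub_zero]
      exact (mean_two hw h fun x y => (ovl x y - u) ^ 2).le
  simp only [Vg.pen]
  rw [mean_const_mul]
  refine mul_le_mul_of_nonneg_left ((hW.mean_mono e1).trans ?_) (by positivity)
  rw [mean_add, hW.mean_const, mean_const_mul]
  simp only [mean_sum]
  refine add_le_add (mul_le_mul_of_nonneg_left ((Finset.sum_le_sum fun a _ =>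
    Finset.sum_le_sum fun b _ => e2 a b).trans (le_of_eq ?_)) (by norm_num)) le_rfl
  simp only [Finset.sum_const, Finset.card_univ, Fintype.card_fin, nsmul_eq_mul]
  ring

theorem mean_bar (hM : 0 < M) (hw : Wt w) (i : Fin n) :
    mean (pw2 M w) (fun σ => bar (sw σ i)) = mag w i := by
  have hM' : (M : ℝ) ≠ 0 := by exact_mod_cast hM.ne'
  simp only [bar, sw, mean_div_const, mean_sum, mean_one hw _ fun x : Cube n => spin (x i),
    Finset.sum_const, Finset.card_univ, Fintype.card_fin, nsmul_eq_mul]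
  rw [mul_div_cancel_left₀ _ hM']
  rfl

/-- the site energy -/
def hs (M : ℕ) (l : List (ℝ × ℝ)) (χ : ℝ → ℝ) (a : Fin M → Bool) : ℝ :=
  -(M * GG l (bar a) (χ (bar a) + bar a * II l))

theorem mean_hs (hM : 0 < M) (hw : Wt w) {l : List (ℝ × ℝ)} (h : Adm 1 l) {χ : ℝ → ℝ} {δ : ℝ}
    (hχ : ∀ r, |r| ≤ 1 → ∀ y, PhiL 1 l (χ r) - r * χ r ≤ PhiL 1 l y - r * y + δ) (i : Fin n)
    (y : ℝ) : M * (II l / 2 * (mag w i * mag w i) - (PhiL 1 l y - y * mag w i) - δ) ≤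
      mean (pw2 M w) fun σ => hs M l χ (sw σ i) := by
  have hW := wt_pw2 (M := M) hw
  have hI := II_nonneg h
  have e : M * (II l / 2 * (mag w i * mag w i) - (PhiL 1 l y - y * mag w i) - δ) =
      mean (pw2 M w) fun σ => M * ((II l * mag w i + y) * bar (sw σ i) -
        (II l / 2 * (mag w i * mag w i) + PhiL 1 l y + δ)) := by
    rw [mean_const_mul, mean_sub, mean_const_mul, mean_bar hM hw, hW.mean_const]
    ring
  rw [e]
  refine hW.mean_mono fun σ => ?_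
  rw [hs, ← mul_neg, GG, add_sub_cancel_right]
  refine mul_le_mul_of_nonneg_left ?_ (Nat.cast_nonneg _)
  have h1 := hχ _ (abs_bar_le hM (sw σ i)) y
  nlinarith [mul_nonneg hI (sq_nonneg (bar (sw σ i) - mag w i))]

/-- the deterministic lower bound -/
theorem val_ge (hM : 0 < M) (hn : 0 < n) (hw : Wt w) {β : ℝ} (hβ : 0 < β) {l : List (ℝ × ℝ)}
    (h : Adm 1 l) {u : ℝ} (h0 : 0 ≤ u) (h1 : u ≤ 1) (hT : TT l = β ^ 2 * (1 - u)) {χ : ℝ → ℝ}
    {δ : ℝ} (hχ : ∀ r, |r| ≤ 1 → ∀ y, PhiL 1 l (χ r) - r * χ r ≤ PhiL 1 l y - r * y + δ)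
    {W : Matrix (Fin n) (Fin n) ℝ} (hW : opn W ≤ 3) (hq : mag w ⬝ᵥ mag w ≤ n) (y : Fin n → ℝ) :
    M * (free (β • W) w - 1 / 2 * (mag w ⬝ᵥ (β • W) *ᵥ mag w) + II l / 2 * (mag w ⬝ᵥ mag w) -
        ∑ i, (PhiL 1 l (y i) - y i * mag w i) - n * δ) - 3 * β * n -
        β ^ 2 * n / 4 * (20 * (M ^ 2 * dev w w u) + 5) ≤
      val β tau (fun _ _ => 1) (fun _ => hs M l χ) (l.map (vl β M)) W := by
  have hQ : Qtop (l.map (vl β M)) = (1 - u) • (1 : Matrix (Fin M) (Fin M) ℝ) := by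
    rw [Qtop_vl β h, hT, mul_div_cancel_left₀ _ (by positivity)]
  rw [val_eq_log β tau _ _ (fun k hk a j => by
    obtain ⟨p, -, rfl⟩ := List.mem_map.1 hk
    exact j.elim), hQ]
  simp only [Finset.prod_const_one, one_mul]
  rw [← Equiv.sum_comp (Equiv.piComm fun (_ : Fin M) (_ : Fin n) => Bool)]
  refine le_trans ?_ (gibbs hw fun σ => ∑ i, hs M l χ (sw σ i) + HW β tau W (sw σ) -
    Vg.pen β tau ((1 - u) • 1) (sw σ))
  rw [mean_sub, mean_add, mean_sum, mean_HW hM hw]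
  have a1 := mean_pen hM hn hw β h0 h1
  have a2 := Finset.sum_le_sum fun i (_ : i ∈ Finset.univ) => mean_hs hM hw h hχ i (y i)
  rw [← Finset.mul_sum, Finset.sum_sub_distrib, Finset.sum_sub_distrib, ← Finset.mul_sum,
    Finset.sum_const, Finset.card_univ, Fintype.card_fin, nsmul_eq_mul] at a2
  have a3 : free (β • W) w = β / 2 * mean w (fun x => sv x ⬝ᵥ W *ᵥ sv x) -
      mean w fun x => log (prob w x) := by
    rw [free, mean_sub, ← mean_const_mul]
    congr 2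
    funext x
    rw [smul_mulVec, dotProduct_smul, smul_eq_mul]
    ring
  have a4 : mean w (fun x => sv x ⬝ᵥ W *ᵥ sv x) ≤ 3 * n := hw.mean_le fun x => by
    have := (le_abs_self _).trans (abs_quad_le W (sv x))
    rw [sv_dot_self] at this
    exact this.trans (mul_le_mul_of_nonneg_right hW (Nat.cast_nonneg _))
  have a5 : -(3 * n) ≤ mag w ⬝ᵥ W *ᵥ mag w := by
    have := abs_quad_le W (mag w)
    have h2 : opn W * (mag w ⬝ᵥ mag w) ≤ 3 * n :=
      mul_le_mul hW hq (Finset.sum_nonneg fun _ _ => mul_self_nonneg _) (by norm_num)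
    linarith [neg_abs_le (mag w ⬝ᵥ W *ᵥ mag w)]
  rw [a3, smul_mulVec, dotProduct_smul, smul_eq_mul]
  change _ ≤ _ at a2
  have a6 : mag w ⬝ᵥ mag w = ∑ i, mag w i * mag w i := rfl
  rw [← a6] at a2
  nlinarith

end Crest.Agent.T157.An.Tap46

end
end

-- ▼ part T157/AnTap_46
section

/-!
Row 157, part D (helper46): `An.TapStmt`.
-/

set_option autoImplicit false

noncomputable section

namespace Crest.Agent.T157.An

open MeasureTheory Matrix Real
open Crest.Agent.R339.B Crest.Agent.R339.Var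
open Crest.Agent.T157.E Crest.Agent.T157.SL Crest.Agent.T157.Vg Crest.Agent.T157.Eig
open Crest.Agent.T157.St Crest.Agent.T157.Cond Crest.Agent.T157.Pf

namespace Tap46

theorem dot_le_of_box {n : ℕ} {m : Fin n → ℝ} (hm : m ∈ box n) : m ⬝ᵥ m ≤ n := by
  have h : ∀ i, m i * m i ≤ 1 := fun i => by
    have := abs_lt.1 (hm i); nlinarith
  refine (Finset.sum_le_sum fun i _ => h i).trans ?_
  simp

/-- the bound at one level -/
theorem level {β C : ℝ} (hβ : 0 < β) {P : Par} (hP : P.OK) (S : Site β C P.b) (hS : Sc.Rel P S)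
    {n M : ℕ} (hn : 0 < n) (hM : 0 < M) {θ u t : ℝ} (h0 : 0 < θ) (h1 : θ ≤ 1)
    (hu : u ∈ Set.Icc (0 : ℝ) 1) (ht : 0 ≤ t) :
    ∃ B : Set (Matrix (Fin n) (Fin n) ℝ),
      (goe (Fin n) (1 / √n)).real B ≤ exp (-t ^ 2 / (β ^ 2 * n * (4 * M) ^ 2)) ∧
      ∀ W ∉ B, opn W ≤ 3 → ∀ w : Cube n → ℝ, Wt w → mag w ∈ box n → u ≤ qq (mag w) →
        M * free (β • W) w ≤ M * Psi S (β • W) u (mag w) + (3 * β * n +
          n * M * (θ + θ * β ^ 2 / 2) + β ^ 2 * n / 4 * (20 * (M ^ 2 * dev w w u) + 5) +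
          n * (log (M + 1) / θ) + t) := by
  have hb : 0 < β ^ 2 := by positivity
  have hn' : (0 : ℝ) < n := by exact_mod_cast hn
  have hM' : (0 : ℝ) < M := by exact_mod_cast hM
  have hT := Sc.TT_lst hP β
  obtain ⟨a0, t0, -⟩ := Min62.rest_adm (Sc.adm_lst hP β P.K) (β ^ 2 * u) (mul_nonneg hb.le hu.1)
    (by rw [hT]; nlinarith [hu.2])
  have hpen := pen_rest hP hβ hu
  have hΦ : S.Φ u = PhiL 1 (rest (P.lst β P.K) (β ^ 2 * u)) := by
    rw [hS.1, ← Lip62.PhiT_eq_rest]; rfl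
  set l0 := rest (P.lst β P.K) (β ^ 2 * u) with hl0
  obtain ⟨a1, hh⟩ := adm_up h1 a0
  have hnear := Lip62.PhiL_near (near_up h0.le a0) a0 a1
  have hpu := pen_up θ a0 (β ^ 2 * u) (mul_nonneg hb.le hu.1)
  rw [hpen, pen_eq] at hpu
  have t1 : TT (up θ l0) = β ^ 2 * (1 - u) := by rw [TT_up, t0, hT]; ring
  set l := up θ l0 with hl
  obtain ⟨χ, hχ⟩ := exists_chi a1 h0
  refine ⟨_, vg_tail β tau hn (fun _ _ => 1) (fun _ => hs M l χ)
    (fun _ => Wt.of_pos fun _ => one_pos) (l.map (vl β M))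
    (mono_vl β a1 0 (h0.le.trans ((le_max_right _ _).trans hh.le))) (T := 4 * M) (by positivity)
    (fun _ a _ => sum_tau_sq hM a) ht, fun W hW hop w hw hm hq => ?_⟩
  simp only [Set.mem_ofPred_eq, not_le] at hW
  have b1 := val_ge hM hn hw hβ a1 hu.1 hu.2 t1 hχ hop (dot_le_of_box hm)
    fun i => S.X u (mag w i)
  have b2 := site_le hM a1 h0 ((le_max_right _ _).trans hh.le) fun r => χ r + r * II l
  rw [X_site hβ.ne', Finset.sum_const, Finset.card_univ, Fintype.card_fin, nsmul_eq_mul] at hW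
  have b3 := mul_le_mul_of_nonneg_left b2 hn'.le
  have b4 := corr_vl (M := M) β a1 0
  rw [zero_div, zero_smul] at b4
  set p0 := R339.Guerra.pen 0 l / (4 * β ^ 2) with hp0
  have b5 : β ^ 2 * n / 4 * corr 0 (l.map (vl β M)) = M * (n * p0) := by
    rw [b4, hp0]; field_simp
  have b6 : P.pen β u ≤ p0 + u * II l / 2 := by
    rw [hp0, div_add' _ _ _ (by positivity), le_div_iff₀ (by positivity)]
    linarith
  have b7 : n * u ≤ mag w ⬝ᵥ mag w := by
    rw [qq, le_div_iff₀ hn'] at hq; linarith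
  have b8 : ∑ i, (PhiL 1 l (S.X u (mag w i)) - S.X u (mag w i) * mag w i) ≤
      ∑ i, S.Lam u (mag w i) + n * (θ * β ^ 2 / 2) := by
    have : ∀ i, PhiL 1 l (S.X u (mag w i)) - S.X u (mag w i) * mag w i ≤
        S.Lam u (mag w i) + θ * β ^ 2 / 2 := fun i => by
      have h2 := (abs_le.1 (hnear (S.X u (mag w i)))).1
      have h3 : θ * TT l0 ≤ θ * β ^ 2 := by
        rw [t0, hT]
        exact mul_le_mul_of_nonneg_left (by nlinarith [hu.1]) h0.le
      rw [Site.Lam, hΦ]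
      linarith
    refine (Finset.sum_le_sum fun i _ => this i).trans (le_of_eq ?_)
    simp [Finset.sum_add_distrib]
  have b9 : n * P.pen β u ≤ n * p0 + II l / 2 * (mag w ⬝ᵥ mag w) := by
    have := mul_le_mul_of_nonneg_left b6 hn'.le
    have := mul_le_mul_of_nonneg_left b7 (II_nonneg a1)
    linarith
  have c1 := mul_le_mul_of_nonneg_left b8 hM'.le
  have c2 := mul_le_mul_of_nonneg_left b9 hM'.le
  rw [b5] at hW
  rw [Psi, hS.2.2.2]
  change _ < n * Casc.X _ _ (fun a => -(M * GG l (bar a) (χ (bar a) + bar a * II l))) - _ + _ at hW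
  linarith

theorem exp_neg_le {n : ℕ} (hn : 0 < n) {x : ℝ} (h0 : 0 ≤ x) (hx : (n : ℝ) ≤ x ^ 2) :
    exp (-x) ≤ 24 / (n : ℝ) ^ 2 := by
  have hn' : (0 : ℝ) < n := by exact_mod_cast hn
  have h1 := Real.pow_div_factorial_le_exp x h0 4
  have h2 : (n : ℝ) ^ 2 ≤ x ^ 4 := by nlinarith
  rw [exp_neg, inv_le_comm₀ (exp_pos _) (by positivity), inv_div]
  refine le_trans ?_ h1
  norm_num [Nat.factorial]
  linarith

theorem log_le {N : ℕ} (hN : 0 < N) : log (((N ^ 3 : ℕ) : ℝ) + 1) ≤ 3 * N := by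
  have hN' : (0 : ℝ) < N := by exact_mod_cast hN
  have h1 : ((N ^ 3 : ℕ) : ℝ) + 1 ≤ ((N : ℝ) + 1) ^ 3 := by push_cast; nlinarith [sq_nonneg (N : ℝ)]
  refine (log_le_log (by positivity) h1).trans ?_
  rw [log_pow]
  have := log_le_sub_one_of_pos (show (0 : ℝ) < N + 1 by positivity)
  push_cast
  linarith

theorem sizes {θ N M d L : ℝ} (θ0 : 0 < θ) (θ1 : θ ≤ 1) (N0 : 0 < N) (N1 : 1 ≤ θ * N)
    (N2 : θ * N ≤ 2) (hM : M = N ^ 3) (d1 : d ≤ 4 * θ ^ 4) (hL : L ≤ 3 * N) :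
    1 ≤ M * θ ∧ M * d ≤ 32 * θ ∧ L / θ ≤ 3 * (M * θ) := by
  have hM' : 0 < M := by rw [hM]; positivity
  refine ⟨?_, ?_, ?_⟩
  · have a : 1 ≤ (θ * N) ^ 3 := one_le_pow₀ N1
    have b : θ ^ 2 ≤ 1 := pow_le_one₀ θ0.le θ1
    have c : (θ * N) ^ 3 = θ ^ 2 * (M * θ) := by rw [hM]; ring
    have d := mul_le_mul_of_nonneg_right b (show 0 ≤ M * θ by positivity)
    linarith
  · have a : (θ * N) ^ 3 ≤ 2 ^ 3 := pow_le_pow_left₀ (by positivity) N2 3
    have b := mul_le_mul_of_nonneg_left d1 hM'.le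
    have c : M * (4 * θ ^ 4) = 4 * θ * (θ * N) ^ 3 := by rw [hM]; ring
    have d := mul_le_mul_of_nonneg_left a (show 0 ≤ 4 * θ by positivity)
    linarith
  · rw [div_le_iff₀ θ0]
    have a : 1 ≤ (θ * N) ^ 2 := one_le_pow₀ N1
    have c : 3 * (M * θ) * θ = 3 * N * (θ * N) ^ 2 := by rw [hM]; ring
    have d := mul_le_mul_of_nonneg_left a (show 0 ≤ 3 * N by positivity)
    linarith

theorem arith {β C n M θ F Ps V d L δ : ℝ} (hβ : 1 ≤ β) (hC : 1 ≤ C) (hn : 0 < n) (hM : 0 < M)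
    (θ0 : 0 < θ) (s1 : 1 ≤ M * θ) (s2 : M * d ≤ 32 * θ) (s3 : L ≤ 3 * (M * θ)) (s4 : δ ≤ n * θ)
    (k1 : M * F ≤ M * Ps + (3 * β * n + n * M * (θ + θ * β ^ 2 / 2) +
      β ^ 2 * n / 4 * (20 * (M ^ 2 * d) + 5) + n * L + 4 * β * n * M * θ))
    (k2 : Ps - 2 * (β ^ 2 + C) * δ ≤ V) : F - n * ((200 * β ^ 2 + 2 * C) * θ) ≤ V := by
  have hb1 : β ≤ β ^ 2 := by nlinarith
  have hb2 : 1 ≤ β ^ 2 := hβ.trans hb1
  have Y0 : 0 < n * (M * θ) := by positivity
  have e1 : n ≤ n * (M * θ) := le_mul_of_one_le_right hn.le s1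
  have e2 := mul_le_mul hb1 e1 hn.le (by positivity)
  have e3 := mul_le_mul_of_nonneg_right hb2 Y0.le
  have e4 := mul_le_mul_of_nonneg_left s2 (show 0 ≤ β ^ 2 * n * M by positivity)
  have e5 := mul_le_mul_of_nonneg_left e1 (show 0 ≤ β ^ 2 by positivity)
  have e6 := mul_le_mul_of_nonneg_left s3 hn.le
  have e7 := mul_le_mul_of_nonneg_right hb1 Y0.le
  have e8 : 0 ≤ β ^ 2 * (n * (M * θ)) := by positivity
  have e9 : M * F ≤ M * (Ps + 180 * β ^ 2 * (n * θ)) := by linarith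
  have e10 := le_of_mul_le_mul_left e9 hM
  have e11 := mul_le_mul_of_nonneg_left s4 (show 0 ≤ 2 * (β ^ 2 + C) by positivity)
  have e12 : 0 ≤ β ^ 2 * (n * θ) := by positivity
  linarith

end Tap46

open Tap46 in
theorem tapStmt : TapStmt := by
  intro β C hβ hC
  refine ⟨200 * β ^ 2 + 2 * C, by nlinarith, fun P hP S hS n ρ h1 h2 => ?_⟩
  have hβ0 : 0 < β := by linarith
  have hn : 0 < n := Nat.pos_of_ne_zero fun h => by rw [h] at h1; norm_num at h1
  have hn' : (0 : ℝ) < n := by exact_mod_cast hn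
  have hn1 : (1 : ℝ) ≤ n := by exact_mod_cast hn
  have hρ : 0 < ρ := pos_of_mul_pos_left (one_pos.trans_le (mul_comm (n : ℝ) ρ ▸ h1)) hn'.le
  set θ := √(√ρ) with hθ
  have θ0 : 0 < θ := by positivity
  have θ4 : θ ^ 4 = ρ := by
    rw [show θ ^ 4 = (θ ^ 2) ^ 2 by ring, hθ, sq_sqrt (sqrt_nonneg _), sq_sqrt hρ.le]
  have θ1 : θ ≤ 1 := sqrt_le_one.2 (sqrt_le_one.2 h2)
  set N := ⌈1 / θ⌉₊ with hN
  have N1 : 1 ≤ θ * N := by
    have := Nat.le_ceil (1 / θ); rw [div_le_iff₀ θ0] at this; linarith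
  have N2 : θ * N ≤ 2 := by
    have := (Nat.ceil_lt_add_one (show 0 ≤ 1 / θ by positivity)).le
    have h3 := mul_le_mul_of_nonneg_left this θ0.le
    rw [mul_add, mul_one_div_cancel θ0.ne'] at h3
    linarith
  have N0 : 0 < N := Nat.ceil_pos.2 (by positivity)
  have N0' : (0 : ℝ) < N := by exact_mod_cast N0
  have hM : 0 < N ^ 3 := by positivity
  have hlog := log_le N0
  set M := N ^ 3 with hMd
  have hMr : (M : ℝ) = (N : ℝ) ^ 3 := by rw [hMd]; push_cast; rfl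
  have hM' : (0 : ℝ) < M := by exact_mod_cast hM
  have hu : ∀ j : Fin (n + 1), ((j : ℕ) : ℝ) / n ∈ Set.Icc (0 : ℝ) 1 := fun j =>
    ⟨by positivity, (div_le_one hn').2 (by exact_mod_cast Nat.lt_succ_iff.1 j.2)⟩
  choose B hB1 hB2 using fun j : Fin (n + 1) => level hβ0 hP S hS hn hM θ0 θ1 (hu j)
    (t := 4 * β * n * M * θ) (by positivity)
  have hsub : {W | opn W ≤ 3 ∧ ¬ Tap S (β • W) ρ ((200 * β ^ 2 + 2 * C) * θ)} ⊆ ⋃ j, B j := by
    intro W hW
    by_contra hc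
    simp only [Set.mem_iUnion, not_exists] at hc
    refine hW.2 fun w hw hm hov => ?_
    have q0 : 0 ≤ qq (mag w) :=
      div_nonneg (Finset.sum_nonneg fun _ _ => mul_self_nonneg _) hn'.le
    have q1 : qq (mag w) ≤ 1 := (div_le_one hn').2 (dot_le_of_box hm)
    have f1 := Nat.floor_le (mul_nonneg q0 hn'.le)
    have f2 := (Nat.lt_floor_add_one (qq (mag w) * n)).le
    have hj : ⌊qq (mag w) * n⌋₊ < n + 1 := by
      rw [Nat.lt_succ_iff]
      exact_mod_cast f1.trans (mul_le_of_le_one_left hn'.le q1)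
    have k1 := hB2 ⟨_, hj⟩ W (hc _) hW.1 w hw hm ((div_le_iff₀ hn').2 f1)
    have k0 := hu ⟨_, hj⟩
    have k2 := St.Psi_time S (by linarith) (β • W) k0 ⟨q0, q1⟩ hm
    have k3 := dev_le hw ((⌊qq (mag w) * n⌋₊ : ℝ) / n)
    simp only at k1 k0 k2
    set u := (⌊qq (mag w) * n⌋₊ : ℝ) / n with hud
    have u1 : 0 ≤ qq (mag w) - u := sub_nonneg.2 ((div_le_iff₀ hn').2 f1)
    have u2 : n * (qq (mag w) - u) ≤ 1 := by
      rw [hud, mul_sub, mul_div_cancel₀ _ hn'.ne']; linarith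
    have u3 : qq (mag w) - u ≤ ρ := le_of_mul_le_mul_left (u2.trans h1) hn'
    have u4 : (qq (mag w) - u) ^ 2 ≤ ρ :=
      (pow_le_of_le_one u1 (u3.trans h2) two_ne_zero).trans u3
    have d1 : dev w w u ≤ 4 * θ ^ 4 := by linarith
    rw [abs_of_nonneg u1] at k2
    obtain ⟨s1, s2, s3⟩ := sizes θ0 θ1 N0' N1 N2 hMr d1 hlog
    have s4 : 1 ≤ n * θ := h1.trans (mul_le_mul_of_nonneg_left
      (θ4 ▸ pow_le_of_le_one θ0.le θ1 (by norm_num)) hn'.le)
    exact arith hβ hC hn' hM' θ0 s1 s2 s3 (u2.trans s4) k1 k2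
  have hx : ∀ j, (goe (Fin n) (1 / √n)).real (B j) ≤ 24 / (n : ℝ) ^ 2 := fun j => by
    refine (hB1 j).trans ?_
    have e : -(4 * β * n * M * θ) ^ 2 / (β ^ 2 * n * (4 * M) ^ 2) = -(n * θ ^ 2) := by
      field_simp
    rw [e]
    refine exp_neg_le hn (by positivity) ?_
    rw [mul_pow, ← pow_mul, θ4]
    nlinarith
  refine (measure_mono hsub).trans ?_
  rw [← ofReal_measureReal]
  refine ENNReal.ofReal_le_ofReal ((measureReal_iUnion_fintype_le _).trans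
    ((Finset.sum_le_sum fun j _ => hx j).trans ?_))
  rw [Finset.sum_const, Finset.card_univ, Fintype.card_fin, nsmul_eq_mul, ← mul_div_assoc,
    div_le_div_iff₀ (by positivity) hn']
  push_cast
  have : 48 ≤ 200 * β ^ 2 + 2 * C := by nlinarith
  nlinarith [mul_le_mul_of_nonneg_right this (sq_nonneg (n : ℝ))]

end Crest.Agent.T157.An

end
end

-- ▼ part T157/UpA_74
section

/-!
# Row 157, part D (helper74): the top of the upper half, geometry

`Stp dom G`: a continuous random map sends every state `x ∈ dom` robustly into `G x`.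
Segments between close good states.
-/

set_option autoImplicit false

noncomputable section

namespace Crest.Agent.T157.Up

open MeasureTheory Matrix Set Filter
open scoped ENNReal
open Crest.Agent.T157.E Crest.Agent.T157.Eig Crest.Agent.T157.St Crest.Agent.T157.Lift
open Crest.Agent.T157.Conc (ELip en)

section stp
variable {X : Type*} [TopologicalSpace X]

/-- a liftable step -/
def Stp (dom : Set X) (G : X → Set X) : Prop :=
  ∃ (ι : Type) (_ : Fintype ι) (f : X → (ι → ℝ) → X),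
    (∀ ξ, ContinuousOn (fun x => f x ξ) dom) ∧
      ∀ x ∈ dom, ∃ z, Rep (Conc.gv ι) f (G x) (1 / 4) x z

lemma three_quarter : 3 * (1 / 4 : ℝ≥0∞) < 1 := by
  rw [one_div, ← div_eq_mul_inv, ENNReal.div_lt_iff (by simp) (by simp)]
  norm_num

theorem Stp.lift {dom S T : Set X} {G : X → Set X} (h : Stp dom G) (hS : S ⊆ dom)
    (hT : IsOpen T) (hG : ∀ x ∈ S, G x ⊆ T) {a b a' b' : X} (hab : JoinedIn S a b)
    (ha : ∀ z ∈ G a, JoinedIn T a' z) (hb : ∀ z ∈ G b, JoinedIn T b' z) : JoinedIn T a' b' := by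
  obtain ⟨ι, _, f, hf, hrep⟩ := h
  have key : ∀ x ∈ S, ∀ x', (∀ z ∈ G x, JoinedIn T x' z) → Rep (Conc.gv ι) f T (1 / 4) x x' := by
    intro x hx x' hx'
    obtain ⟨z, hz⟩ := hrep x (hS hx)
    refine le_trans (measure_mono fun ξ hξ => ?_) hz
    exact fun h => hξ (hx' _ h.target_mem)
  refine Lift.lift three_quarter hT (fun ξ => (hf ξ).mono hS) (fun x hx => ?_) hab
    (key a hab.source_mem a' ha) (key b hab.target_mem b' hb)
  obtain ⟨z, hz⟩ := hrep x (hS hx)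
  refine ⟨z, le_trans (measure_mono fun ξ hξ => ?_) hz⟩
  exact fun h => hξ (h.mono (hG x hx))

theorem walk {T : Set X} {m : ℕ → X} {p0 p1 : ℕ} (hp : p0 ≤ p1) (h0 : m p0 ∈ T)
    (h : ∀ p, p0 ≤ p → p < p1 → JoinedIn T (m p) (m (p + 1))) : JoinedIn T (m p0) (m p1) := by
  induction p1, hp using Nat.le_induction with
  | base => exact JoinedIn.refl h0
  | succ p hp ih =>
    exact (ih fun r h1 h2 => h r h1 (h2.trans (Nat.lt_succ_self p))).trans
      (h p hp (Nat.lt_succ_self p))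

end stp

variable {n : ℕ}

lemma ds_eq (x z : Fin n → ℝ) : ds x z = nrm (x - z) ^ 2 := (nrm_sq _).symm

lemma nrm_sub_comm (x z : Fin n → ℝ) : nrm (x - z) = nrm (z - x) := by rw [← nrm_neg, neg_sub]

lemma nrm_tri (x y z : Fin n → ℝ) : nrm (x - z) ≤ nrm (x - y) + nrm (y - z) := by
  have := nrm_add_le (x - y) (y - z)
  rwa [sub_add_sub_cancel] at this

lemma nrm_le_of_ds {x z : Fin n → ℝ} {ρ : ℝ} (hρ : 0 ≤ ρ) (h : ds x z ≤ ρ ^ 2 * n) :
    nrm (x - z) ≤ ρ * √n := by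
  rw [nrm_le_iff (by positivity), mul_pow, Real.sq_sqrt (Nat.cast_nonneg n)]
  exact h

lemma ds_le_of_nrm {x z : Fin n → ℝ} {ρ : ℝ} (hρ : 0 ≤ ρ) (h : nrm (x - z) ≤ ρ * √n) :
    ds x z ≤ ρ ^ 2 * n := by
  rw [nrm_le_iff (by positivity), mul_pow, Real.sq_sqrt (Nat.cast_nonneg n)] at h
  exact h

lemma nrm_box {m : Fin n → ℝ} (hm : m ∈ box n) : nrm m ≤ √n :=
  Real.sqrt_le_sqrt (dot_le_n hm)

lemma en_eq_nrm {ι : Type*} [Fintype ι] [DecidableEq ι] (x : ι → ℝ) : en x = nrm x := by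
  rw [Conc.en_eq_norm, nrm_eq_norm]

lemma d2_eq (σ : Cube n) (m : Fin n → ℝ) : d2 σ m = ds (sv σ) m := by
  simp only [d2, ds, dotProduct, Pi.sub_apply, sq]

lemma isOpen_box : IsOpen (box n) := by
  have : box n = ⋂ i, {m : Fin n → ℝ | |m i| < 1} := by ext m; simp [box]
  rw [this]
  exact isOpen_iInter_of_finite fun i => isOpen_lt (by fun_prop) continuous_const

lemma continuous_qq : Continuous (qq : (Fin n → ℝ) → ℝ) := by
  unfold qq dotProduct; fun_prop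

lemma box_seg {x z : Fin n → ℝ} (hx : x ∈ box n) (hz : z ∈ box n) {t : ℝ} (ht : t ∈ Icc (0 : ℝ) 1) :
    (1 - t) • x + t • z ∈ box n := by
  intro i
  have h1 := abs_lt.1 (hx i)
  have h2 := abs_lt.1 (hz i)
  simp only [Pi.add_apply, Pi.smul_apply, smul_eq_mul]
  rcases eq_or_lt_of_le ht.1 with h | h
  · rw [← h]; simpa using hx i
  · rw [abs_lt]
    constructor <;> nlinarith [ht.2, h1.1, h1.2, h2.1, h2.2]

lemma dot_seg (y y' m m' : Fin n → ℝ) (t : ℝ) :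
    ((1 - t) • y + t • y') ⬝ᵥ ((1 - t) • m + t • m') =
      (1 - t) * (y ⬝ᵥ m) + t * (y' ⬝ᵥ m') - t * (1 - t) * ((y' - y) ⬝ᵥ (m' - m)) := by
  simp only [add_dotProduct, dotProduct_add, smul_dotProduct, dotProduct_smul, sub_dotProduct,
    dotProduct_sub, smul_eq_mul]
  ring

lemma qq_seg (hn : 0 < n) {x z : Fin n → ℝ} {ρ t : ℝ} (hρ : 0 ≤ ρ) (ht : t ∈ Icc (0 : ℝ) 1)
    (h : nrm (z - x) ≤ 2 * ρ * √n) :
    min (qq x) (qq z) - ρ ^ 2 ≤ qq ((1 - t) • x + t • z) ∧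
      qq ((1 - t) • x + t • z) ≤ max (qq x) (qq z) := by
  have hn' : (0 : ℝ) < n := by exact_mod_cast hn
  have h1 := ds_le_of_nrm (by positivity) h
  have h0 : 0 ≤ ds z x := by rw [ds_eq]; positivity
  have h2 : n * qq ((1 - t) • x + t • z) =
      (1 - t) * (n * qq x) + t * (n * qq z) - t * (1 - t) * ds z x := by
    simp only [n_qq hn, dot_seg, ds]
  have h3 : 0 ≤ t * (1 - t) := mul_nonneg ht.1 (sub_nonneg.2 ht.2)
  have h4 : t * (1 - t) ≤ 1 / 4 := by nlinarith [sq_nonneg (t - 1 / 2)]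
  have h5 : t * (1 - t) * ds z x ≤ ρ ^ 2 * n := by nlinarith
  have a1 := min_le_left (qq x) (qq z)
  have a2 := min_le_right (qq x) (qq z)
  have a3 := le_max_left (qq x) (qq z)
  have a4 := le_max_right (qq x) (qq z)
  have ht1 := sub_nonneg.2 ht.2
  constructor
  · refine le_of_mul_le_mul_left ?_ hn'
    rw [h2]
    nlinarith [mul_le_mul_of_nonneg_left a1 (mul_nonneg ht1 hn'.le),
      mul_le_mul_of_nonneg_left a2 (mul_nonneg ht.1 hn'.le)]
  · refine le_of_mul_le_mul_left ?_ hn'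
    rw [h2]
    nlinarith [mul_le_mul_of_nonneg_left a3 (mul_nonneg ht1 hn'.le),
      mul_le_mul_of_nonneg_left a4 (mul_nonneg ht.1 hn'.le), mul_nonneg h3 h0]

lemma abs_qq_sub (hn : 0 < n) {x z : Fin n → ℝ} (hx : x ∈ box n) (hz : z ∈ box n) {ρ : ℝ}
    (h : nrm (z - x) ≤ 2 * ρ * √n) : n * |qq z - qq x| ≤ 4 * ρ * n := by
  have hn' : (0 : ℝ) < n := by exact_mod_cast hn
  have h1 : n * |qq z - qq x| = |(z - x) ⬝ᵥ (z + x)| := by
    have : (n : ℝ) * |qq z - qq x| = |n * (qq z - qq x)| := by rw [abs_mul, abs_of_pos hn']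
    rw [this, mul_sub, n_qq hn, n_qq hn]
    congr 1
    simp only [sub_dotProduct, dotProduct_add, dotProduct_comm x z]
    ring
  have h2 : nrm (z + x) ≤ 2 * √n := by
    linarith [nrm_add_le z x, nrm_box hx, nrm_box hz]
  have h3 := mul_le_mul h h2 (nrm_nonneg _) ((nrm_nonneg _).trans h)
  have h4 : √(n : ℝ) * √n = n := Real.mul_self_sqrt hn'.le
  rw [h1]
  refine (abs_dot_le _ _).trans (h3.trans (le_of_eq ?_))
  calc 2 * ρ * √n * (2 * √n) = 4 * ρ * (√n * √n) := by ring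
    _ = _ := by rw [h4]

/-- semiconcavity along segments -/
def Seg (V : (Fin n → ℝ) → ℝ) (A : ℝ) : Prop :=
  ∀ m ∈ box n, ∀ m' ∈ box n, ∀ t ∈ Icc (0 : ℝ) 1,
    (1 - t) * V m + t * V m' - A * ((m' - m) ⬝ᵥ (m' - m) + n * |qq m' - qq m|) ≤
      V ((1 - t) • m + t • m')

lemma Seg.le {V : (Fin n → ℝ) → ℝ} {A : ℝ} (h : Seg V A) (hA : 0 ≤ A) (hn : 0 < n)
    {x z : Fin n → ℝ} (hx : x ∈ box n) (hz : z ∈ box n) {ρ t : ℝ} (hρ : 0 ≤ ρ) (hρ1 : ρ ≤ 1)
    (ht : t ∈ Icc (0 : ℝ) 1) (hd : nrm (z - x) ≤ 2 * ρ * √n) :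
    (1 - t) * V x + t * V z - 8 * A * ρ * n ≤ V ((1 - t) • x + t • z) := by
  have h1 := h x hx z hz t ht
  have h2 : (z - x) ⬝ᵥ (z - x) ≤ (2 * ρ) ^ 2 * n := ds_le_of_nrm (by positivity) hd
  have h3 := abs_qq_sub hn hx hz hd
  have hn' : (0 : ℝ) ≤ n := Nat.cast_nonneg n
  have h4 : (2 * ρ) ^ 2 * n ≤ 4 * ρ * n := mul_le_mul_of_nonneg_right (by nlinarith) hn'
  have h5 := mul_le_mul_of_nonneg_left (add_le_add (h2.trans h4) h3) hA
  linarith

/-- states below `b` -/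
def W1 (V : (Fin n → ℝ) → ℝ) (P lo hi e : ℝ) : Set (Fin n → ℝ) :=
  {m | m ∈ box n ∧ lo < qq m ∧ qq m < hi ∧ n * P - V m < e * n}

lemma isOpen_W1 {V : (Fin n → ℝ) → ℝ} (hV : ContinuousOn V (box n)) (P lo hi e : ℝ) :
    IsOpen (W1 V P lo hi e) := by
  have h1 : IsOpen (box n ∩ (fun m => n * P - V m) ⁻¹' Iio (e * n)) :=
    (continuousOn_const.sub hV).isOpen_inter_preimage isOpen_box isOpen_Iio
  have h2 : W1 V P lo hi e = (box n ∩ (fun m => n * P - V m) ⁻¹' Iio (e * n)) ∩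
      ({m | lo < qq m} ∩ {m | qq m < hi}) := by
    ext m
    simp only [W1, mem_ofPred_eq, mem_inter_iff, mem_preimage, mem_Iio]
    tauto
  rw [h2]
  exact h1.inter ((isOpen_lt continuous_const continuous_qq).inter
    (isOpen_lt continuous_qq continuous_const))

lemma seg1 {V : (Fin n → ℝ) → ℝ} {A : ℝ} (h : Seg V A) (hA : 0 ≤ A) (hn : 0 < n)
    {x z : Fin n → ℝ} (hx : x ∈ box n) (hz : z ∈ box n) {ρ P lo hi e a : ℝ} (hρ : 0 ≤ ρ)
    (hρ1 : ρ ≤ 1) (hd : nrm (z - x) ≤ 2 * ρ * √n) (x1 : lo + ρ ^ 2 < qq x) (z1 : lo + ρ ^ 2 < qq z)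
    (x2 : qq x < hi) (z2 : qq z < hi) (x3 : n * P - V x ≤ a * n) (z3 : n * P - V z ≤ a * n)
    (he : a + 8 * A * ρ < e) : JoinedIn (W1 V P lo hi e) x z := by
  have hn' : (0 : ℝ) < n := by exact_mod_cast hn
  refine joinedIn_of_segment fun t ht => ⟨box_seg hx hz ht, ?_, ?_, ?_⟩
  · have := (qq_seg hn hρ ht hd).1
    have := lt_min x1 z1
    linarith
  · exact (qq_seg hn hρ ht hd).2.trans_lt (max_lt x2 z2)
  · have h1 := h.le hA hn hx hz hρ hρ1 ht hd
    have h2 := mul_le_mul_of_nonneg_left x3 (sub_nonneg.2 ht.2)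
    have h3 := mul_le_mul_of_nonneg_left z3 ht.1
    have h4 := mul_lt_mul_of_pos_right he hn'
    nlinarith

/-- the deficit of a pair (field, mean) -/
def Df (V F : (Fin n → ℝ) → ℝ) (x : (Fin n → ℝ) × (Fin n → ℝ)) : ℝ := F x.1 - V x.2 - x.1 ⬝ᵥ x.2

/-- states above `b` -/
def W2 (V F : (Fin n → ℝ) → ℝ) (lo Y E c : ℝ) : Set ((Fin n → ℝ) × (Fin n → ℝ)) :=
  {x | x.2 ∈ box n ∧ lo < qq x.2 ∧ nrm x.1 < Y * √n ∧ Df V F x < E * Real.exp (c * qq x.2) * n}

lemma isOpen_W2 {V F : (Fin n → ℝ) → ℝ} (hV : ContinuousOn V (box n)) (hF : Continuous F)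
    (lo Y E c : ℝ) : IsOpen (W2 V F lo Y E c) := by
  have h0 : IsOpen {x : (Fin n → ℝ) × (Fin n → ℝ) | x.2 ∈ box n} :=
    isOpen_box.preimage continuous_snd
  have hq : Continuous fun x : (Fin n → ℝ) × (Fin n → ℝ) => qq x.2 :=
    continuous_qq.comp continuous_snd
  have hc : ContinuousOn (fun x : (Fin n → ℝ) × (Fin n → ℝ) =>
      Df V F x - E * Real.exp (c * qq x.2) * n) {x | x.2 ∈ box n} := by
    refine ContinuousOn.sub (ContinuousOn.sub (ContinuousOn.sub ?_ ?_) ?_) ?_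
    · exact (hF.comp continuous_fst).continuousOn
    · exact hV.comp continuous_snd.continuousOn fun x hx => hx
    · refine Continuous.continuousOn ?_
      unfold dotProduct; fun_prop
    · exact Continuous.continuousOn (by fun_prop)
  have h1 := hc.isOpen_inter_preimage h0 (isOpen_Iio (a := (0 : ℝ)))
  have h2 : W2 V F lo Y E c = ({x : (Fin n → ℝ) × (Fin n → ℝ) | x.2 ∈ box n} ∩
      (fun x => Df V F x - E * Real.exp (c * qq x.2) * n) ⁻¹' Iio 0) ∩
      ({x | lo < qq x.2} ∩ {x | nrm x.1 < Y * √n}) := by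
    ext m
    simp only [W2, mem_ofPred_eq, mem_inter_iff, mem_preimage, mem_Iio, sub_neg]
    tauto
  rw [h2]
  exact h1.inter ((isOpen_lt continuous_const hq).inter
    (isOpen_lt (continuous_nrm.comp continuous_fst) continuous_const))

lemma seg2 {V F : (Fin n → ℝ) → ℝ} {A : ℝ} (h : Seg V A) (hA : 1 ≤ A) (hF : ELip (√n) F)
    (hn : 0 < n) {x z : (Fin n → ℝ) × (Fin n → ℝ)} (hx : x.2 ∈ box n) (hz : z.2 ∈ box n)
    {ρ lo Y E c a : ℝ} (hρ : 0 ≤ ρ) (hρ1 : ρ ≤ 1) (hc : 0 ≤ c) (ha : 0 ≤ a)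
    (hd1 : nrm (z.1 - x.1) ≤ 2 * ρ * √n) (hd2 : nrm (z.2 - x.2) ≤ 2 * ρ * √n)
    (x1 : lo + ρ ^ 2 < qq x.2) (z1 : lo + ρ ^ 2 < qq z.2)
    (x2 : nrm x.1 < Y * √n) (z2 : nrm z.1 < Y * √n) (x3 : Df V F x ≤ a * n)
    (z3 : Df V F z ≤ a * n) (he : a + 14 * A * ρ < E) : JoinedIn (W2 V F lo Y E c) x z := by
  have hn' : (0 : ℝ) < n := by exact_mod_cast hn
  have hs : √(n : ℝ) * √n = n := Real.mul_self_sqrt hn'.le
  have hs0 : 0 ≤ √(n : ℝ) := Real.sqrt_nonneg _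
  refine joinedIn_of_segment fun t ht => ?_
  have ht1 := sub_nonneg.2 ht.2
  have e1 : ((1 - t) • x + t • z).1 = (1 - t) • x.1 + t • z.1 := rfl
  have e2 : ((1 - t) • x + t • z).2 = (1 - t) • x.2 + t • z.2 := rfl
  have hb := box_seg hx hz ht
  refine ⟨hb, ?_, ?_, ?_⟩
  · have := (qq_seg hn hρ ht hd2).1
    have := lt_min x1 z1
    rw [e2]
    linarith
  · rw [e1]
    have h1 := nrm_add_le ((1 - t) • x.1) (t • z.1)
    rw [nrm_smul, nrm_smul, abs_of_nonneg ht1, abs_of_nonneg ht.1] at h1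
    have h2 := max_lt x2 z2
    have h3 := mul_le_mul_of_nonneg_left (le_max_left (nrm x.1) (nrm z.1)) ht1
    have h4 := mul_le_mul_of_nonneg_left (le_max_right (nrm x.1) (nrm z.1)) ht.1
    linarith
  · have h1 := h.le (by linarith) hn hx hz hρ hρ1 ht hd2
    have f1 : F ((1 - t) • x.1 + t • z.1) - F x.1 ≤ 2 * ρ * n := by
      have := (le_abs_self _).trans (hF ((1 - t) • x.1 + t • z.1) x.1)
      have e : (1 - t) • x.1 + t • z.1 - x.1 = t • (z.1 - x.1) := by module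
      rw [e, en_eq_nrm, nrm_smul, abs_of_nonneg ht.1] at this
      have h2 : t * nrm (z.1 - x.1) ≤ 2 * ρ * √n :=
        (mul_le_of_le_one_left (nrm_nonneg _) ht.2).trans hd1
      have h3 := mul_le_mul_of_nonneg_left h2 hs0
      nlinarith
    have f2 : F ((1 - t) • x.1 + t • z.1) - F z.1 ≤ 2 * ρ * n := by
      have := (le_abs_self _).trans (hF ((1 - t) • x.1 + t • z.1) z.1)
      have e : (1 - t) • x.1 + t • z.1 - z.1 = (1 - t) • (x.1 - z.1) := by module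
      rw [e, en_eq_nrm, nrm_smul, abs_of_nonneg ht1, nrm_sub_comm] at this
      have h2 : (1 - t) * nrm (z.1 - x.1) ≤ 2 * ρ * √n :=
        (mul_le_of_le_one_left (nrm_nonneg _) (by linarith [ht.1])).trans hd1
      have h3 := mul_le_mul_of_nonneg_left h2 hs0
      nlinarith
    have f3 : (z.1 - x.1) ⬝ᵥ (z.2 - x.2) ≤ 4 * ρ * n := by
      refine (dot_le _ _).trans ((mul_le_mul hd1 hd2 (nrm_nonneg _) (by positivity)).trans ?_)
      have : 2 * ρ * √n * (2 * ρ * √n) = 4 * ρ * ρ * (√n * √n) := by ring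
      rw [this, hs]
      exact mul_le_mul_of_nonneg_right (by nlinarith) hn'.le
    have f4 : t * (1 - t) * ((z.1 - x.1) ⬝ᵥ (z.2 - x.2)) ≤ 4 * ρ * n := by
      have h3 : 0 ≤ t * (1 - t) := mul_nonneg ht.1 ht1
      have h4 : t * (1 - t) ≤ 1 := by nlinarith [sq_nonneg (t - 1 / 2)]
      have h5 : 0 ≤ 4 * ρ * n := by positivity
      nlinarith
    have g1 := mul_le_mul_of_nonneg_left f1 ht1
    have g2 := mul_le_mul_of_nonneg_left f2 ht.1
    have g3 := mul_le_mul_of_nonneg_left x3 ht1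
    have g4 := mul_le_mul_of_nonneg_left z3 ht.1
    have g5 : ρ * n ≤ A * ρ * n := by
      have : 0 ≤ ρ * n := by positivity
      nlinarith
    have g6 : E * n ≤ E * Real.exp (c * qq ((1 - t) • x + t • z).2) * n := by
      have hE : 0 ≤ E := by nlinarith
      have : 1 ≤ Real.exp (c * qq ((1 - t) • x + t • z).2) :=
        Real.one_le_exp (mul_nonneg hc (qq_mem hb).1)
      exact mul_le_mul_of_nonneg_right (le_mul_of_one_le_right hE this) hn'.le
    have g7 := mul_lt_mul_of_pos_right he hn'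
    refine lt_of_lt_of_le ?_ g6
    simp only [Df] at g3 g4 ⊢
    rw [e1, e2, dot_seg]
    nlinarith

end Crest.Agent.T157.Up

end
end

-- ▼ part T157/UpB_74
section

/-!
# Row 157, part D (helper74): the top of the upper half, the two chains
-/

set_option autoImplicit false

noncomputable section

namespace Crest.Agent.T157.Up

open MeasureTheory Matrix Set Filter
open Crest.Agent.T157.E Crest.Agent.T157.Eig Crest.Agent.T157.St Crest.Agent.T157.Lift
open Crest.Agent.T157.Conc (ELip en)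
open Crest.Agent.T157.Cut (bd)

variable {n : ℕ}

/-- domain of the steps below `b` -/
def dom1 (V : (Fin n → ℝ) → ℝ) (P b E : ℝ) : Set (Fin n → ℝ) :=
  {m | m ∈ box n ∧ qq m ≤ b ∧ n * P - V m ≤ E * n}

/-- good successors below `b` -/
def G1 (V : (Fin n → ℝ) → ℝ) (P c Δ s ρ : ℝ) (m : Fin n → ℝ) : Set (Fin n → ℝ) :=
  {m' | m' ∈ box n ∧ nrm (m' - m) ≤ ρ * √n ∧ |qq m' - qq m - Δ| ≤ s * Δ ∧
    n * P - V m' ≤ (1 + c * Δ) * max (n * P - V m) 0 + s * Δ * n}

/-- domain of the steps above `b` -/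
def dom2 (V F : (Fin n → ℝ) → ℝ) (lo Y E : ℝ) : Set ((Fin n → ℝ) × (Fin n → ℝ)) :=
  {x | x.2 ∈ box n ∧ lo ≤ qq x.2 ∧ nrm x.1 ≤ Y * √n ∧ Df V F x ≤ E * n}

/-- good successors above `b` -/
def G2 (V F F' : (Fin n → ℝ) → ℝ) (b c τ s ρ : ℝ) (x : (Fin n → ℝ) × (Fin n → ℝ)) :
    Set ((Fin n → ℝ) × (Fin n → ℝ)) :=
  {x' | x'.2 ∈ box n ∧ nrm (x'.1 - x.1) ≤ ρ * √n ∧ nrm (x'.2 - x.2) ≤ ρ * √n ∧
    min (qq x.2) (b - ρ ^ 2) ≤ qq x'.2 ∧ qq x.2 - s * τ ≤ qq x'.2 ∧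
    (∀ Y, 1 ≤ Y → nrm x.1 ≤ Y * √n → nrm x'.1 ≤ (Y + 7 * τ) * √n) ∧
    Df V F' x' ≤ Df V F x + c * (qq x'.2 - qq x.2 + s * τ) * (max (Df V F x) 0 + s * n) +
      s * τ * n}

/-- the chain of ancestors below `b` -/
structure Ch1 (V : (Fin n → ℝ) → ℝ) (P b ρ e : ℝ) (K : ℕ) (q : ℕ → ℝ) (m : ℕ → Fin n → ℝ) :
    Prop where
  q0 : q 0 ≤ ρ ^ 2
  qK : b - ρ ^ 2 ≤ q K
  st : ∀ p < K, q p ≤ q (p + 1) ∧ q (p + 1) ≤ q p + ρ ^ 2 ∧ nrm (m (p + 1) - m p) ≤ ρ * √n
  pt : ∀ p ≤ K, m p ∈ box n ∧ |qq (m p) - q p| ≤ ρ ^ 2 ∧ n * P - V (m p) ≤ e * n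

namespace Ch1
variable {V : (Fin n → ℝ) → ℝ} {P b ρ e : ℝ} {K : ℕ} {q : ℕ → ℝ} {m : ℕ → Fin n → ℝ}

lemma mono (h : Ch1 V P b ρ e K q m) {p p' : ℕ} (hp : p ≤ p') (hK : p' ≤ K) : q p ≤ q p' := by
  induction p', hp using Nat.le_induction with
  | base => exact le_rfl
  | succ r hr ih => exact (ih (by omega)).trans (h.st r (by omega)).1

open Classical in
/-- the last ancestor below the level `l` -/
def ix (K : ℕ) (q : ℕ → ℝ) (ρ l : ℝ) : ℕ := Nat.findGreatest (fun p => q p ≤ l + ρ ^ 2) K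

lemma ix_le (l : ℝ) : ix K q ρ l ≤ K := by
  classical
  exact Nat.findGreatest_le _

lemma ix_spec (h : Ch1 V P b ρ e K q m) {l : ℝ} (h0 : 0 ≤ l) (hb : l ≤ b) :
    l - ρ ^ 2 ≤ q (ix K q ρ l) ∧ q (ix K q ρ l) ≤ l + ρ ^ 2 := by
  classical
  have h1 : q (ix K q ρ l) ≤ l + ρ ^ 2 :=
    Nat.findGreatest_spec (P := fun p => q p ≤ l + ρ ^ 2) (Nat.zero_le K) (by linarith [h.q0])
  refine ⟨?_, h1⟩
  rcases eq_or_lt_of_le (ix_le (K := K) (q := q) (ρ := ρ) l) with h2 | h2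
  · rw [h2]; linarith [h.qK]
  · have h3 : ¬ q (ix K q ρ l + 1) ≤ l + ρ ^ 2 :=
      Nat.findGreatest_is_greatest (P := fun p => q p ≤ l + ρ ^ 2) (Nat.lt_succ_self _) h2
    have := (h.st _ h2).2.1
    nlinarith [sq_nonneg ρ]

lemma ix_mono (h : Ch1 V P b ρ e K q m) {l l' : ℝ} (h0 : 0 ≤ l) (hb : l ≤ b) (hl : l ≤ l') :
    ix K q ρ l ≤ ix K q ρ l' := by
  classical
  exact Nat.le_findGreatest (P := fun p => q p ≤ l' + ρ ^ 2) (ix_le l)
    (by linarith [(h.ix_spec h0 hb).2])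

lemma walk (h : Ch1 V P b ρ e K q m) {A : ℝ} (hs : Seg V A) (hA : 0 ≤ A) (hn : 0 < n)
    (hρ : 0 ≤ ρ) (hρ1 : ρ ≤ 1) {p0 p1 : ℕ} (hp : p0 ≤ p1) (hK : p1 ≤ K) {lo hi e' : ℝ}
    (h1 : lo + 2 * ρ ^ 2 < q p0) (h2 : q p1 + ρ ^ 2 < hi ∨ 1 < hi) (he : e + 8 * A * ρ < e') :
    JoinedIn (W1 V P lo hi e') (m p0) (m p1) := by
  have hn' : (0 : ℝ) < n := by exact_mod_cast hn
  have key : ∀ p, p0 ≤ p → p ≤ p1 → lo + ρ ^ 2 < qq (m p) ∧ qq (m p) < hi := by
    intro p a1 a2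
    obtain ⟨b1, b2, -⟩ := h.pt p (a2.trans hK)
    have b3 := abs_le.1 b2
    refine ⟨by linarith [h.mono a1 (a2.trans hK)], ?_⟩
    rcases h2 with h2 | h2
    · linarith [h.mono a2 hK]
    · linarith [(qq_mem b1).2]
  refine Up.walk hp ?_ fun p a1 a2 => ?_
  · obtain ⟨b1, -, b3⟩ := h.pt p0 (hp.trans hK)
    refine ⟨b1, by nlinarith [(key p0 le_rfl hp).1, sq_nonneg ρ], (key p0 le_rfl hp).2, ?_⟩
    have : 0 ≤ 8 * A * ρ := by positivity
    exact b3.trans_lt (mul_lt_mul_of_pos_right (by linarith) hn')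
  · obtain ⟨b1, -, b3⟩ := h.pt p (by omega)
    obtain ⟨c1, -, c3⟩ := h.pt (p + 1) (by omega)
    have d := (h.st p (by omega)).2.2
    have : 0 ≤ ρ * √(n : ℝ) := by positivity
    exact seg1 hs hA hn b1 c1 hρ hρ1 (by linarith) (key p a1 a2.le).1
      (key (p + 1) (by omega) a2).1 (key p a1 a2.le).2 (key (p + 1) (by omega) a2).2 b3 c3 he

end Ch1

lemma gron1 {c Δ s e0 l D D' N : ℝ} (hN : 0 < N) (hc : 0 ≤ c) (hΔ : 0 ≤ Δ) (hs : 0 ≤ s)
    (he : 0 < e0) (hl : 0 ≤ l) (h : D < (e0 + s * l) * Real.exp (c * l) * N)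
    (h' : D' ≤ (1 + c * Δ) * max D 0 + s * Δ * N) :
    D' < (e0 + s * (l + Δ)) * Real.exp (c * (l + Δ)) * N := by
  have h1 : max D 0 < (e0 + s * l) * Real.exp (c * l) * N := max_lt h (by positivity)
  have h2 : 1 + c * Δ ≤ Real.exp (c * Δ) := by linarith [Real.add_one_le_exp (c * Δ)]
  have h3 : (1 + c * Δ) * max D 0 < Real.exp (c * Δ) * ((e0 + s * l) * Real.exp (c * l) * N) :=
    (mul_lt_mul_of_pos_left h1 (by positivity)).trans_le
      (mul_le_mul_of_nonneg_right h2 (by positivity))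
  have h4 : 1 ≤ Real.exp (c * (l + Δ)) := Real.one_le_exp (by positivity)
  have h5 : s * Δ * N ≤ s * Δ * Real.exp (c * (l + Δ)) * N :=
    mul_le_mul_of_nonneg_right (le_mul_of_one_le_right (by positivity) h4) hN.le
  have h6 : Real.exp (c * (l + Δ)) = Real.exp (c * Δ) * Real.exp (c * l) := by
    rw [← Real.exp_add]; ring_nf
  calc D' < Real.exp (c * Δ) * ((e0 + s * l) * Real.exp (c * l) * N) +
        s * Δ * Real.exp (c * (l + Δ)) * N := by linarith
    _ = _ := by rw [h6]; ring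

/-- **the chain below `b`** -/
theorem stage1 {V : (Fin n → ℝ) → ℝ} {A P b c Δ s ρ e e0 E : ℝ} (hn : 0 < n) (hs : Seg V A)
    (hA : 0 ≤ A) (hV : ContinuousOn V (box n)) (hρ : 0 < ρ) (hρ1 : ρ ≤ 1) (hΔ : 0 < Δ)
    (hΔρ : Δ ≤ ρ ^ 2) (hs0 : 0 ≤ s) (hs1 : s ≤ 1) (hc : 0 ≤ c) (he : 0 ≤ e) (hb1 : b ≤ 1)
    (hb : 5 * ρ ^ 2 + s ≤ b) (he0 : (1 + c) * e + s + 8 * A * ρ < e0)
    (hE : (e0 + s) * Real.exp c ≤ E) (h0 : n * P - V 0 ≤ e * n)
    (hst : Stp (dom1 V P b E) (G1 V P c Δ s ρ))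
    {K K' : ℕ} {q q' : ℕ → ℝ} {m m' : ℕ → Fin n → ℝ} (h : Ch1 V P b ρ e K q m)
    (h' : Ch1 V P b ρ e K' q' m') :
    JoinedIn (W1 V P (b - (11 * ρ ^ 2 + 2 * s)) 2 E) (m K) (m' K') := by
  have hn' : (0 : ℝ) < n := by exact_mod_cast hn
  have hAρ : 0 ≤ 8 * A * ρ := by positivity
  have hce : 0 ≤ c * e := mul_nonneg hc he
  have he0' : 0 < e0 := by nlinarith
  have hρ2 : 0 < ρ ^ 2 := by positivity
  have hρ21 : ρ ^ 2 ≤ 1 := pow_le_one₀ hρ.le hρ1
  set S : ℝ → Set (Fin n → ℝ) := fun l => W1 V P (l - (5 * ρ ^ 2 + s * l))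
    (l + (5 * ρ ^ 2 + s * l)) ((e0 + s * l) * Real.exp (c * l)) with hS
  have hexp : ∀ l, 0 ≤ l → e0 ≤ (e0 + s * l) * Real.exp (c * l) := fun l hl =>
    (le_add_of_nonneg_right (mul_nonneg hs0 hl)).trans
      (le_mul_of_one_le_right (by positivity) (Real.one_le_exp (mul_nonneg hc hl)))
  have hexp' : ∀ l, 0 ≤ l → l ≤ 1 → (e0 + s * l) * Real.exp (c * l) ≤ E := fun l hl hl1 =>
    le_trans (mul_le_mul (by nlinarith) (Real.exp_le_exp.2 (by nlinarith)) (Real.exp_pos _).le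
      (by positivity)) hE
  -- the anchors
  have start : ∀ {K : ℕ} {q : ℕ → ℝ} {m : ℕ → Fin n → ℝ}, Ch1 V P b ρ e K q m →
      JoinedIn (S 0) 0 (m (Ch1.ix K q ρ 0)) := by
    intro K q m h
    obtain ⟨a1, a2, a3⟩ := h.pt _ (Ch1.ix_le (K := K) (q := q) (ρ := ρ) 0)
    obtain ⟨a4, a5⟩ := h.ix_spec le_rfl (by linarith)
    have a6 := abs_le.1 a2
    have z0 : qq (0 : Fin n → ℝ) = 0 := by simp [qq]
    have a7 : nrm (m (Ch1.ix K q ρ 0) - 0) ≤ 2 * ρ * √n := by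
      refine nrm_le_of_ds (by positivity) ?_
      rw [ds, sub_zero, ← n_qq hn]
      nlinarith
    refine seg1 hs hA hn (fun i => by simp) a1 hρ.le hρ1 a7 ?_ ?_ ?_ ?_ h0 a3 ?_
    · rw [z0]; linarith
    · linarith [(qq_mem a1).1]
    · rw [z0]; linarith
    · linarith
    · linarith [hexp 0 le_rfl]
  have anchor : ∀ {K : ℕ} {q : ℕ → ℝ} {m : ℕ → Fin n → ℝ}, Ch1 V P b ρ e K q m → ∀ l, 0 ≤ l →
      l + Δ ≤ b → ∀ z ∈ G1 V P c Δ s ρ (m (Ch1.ix K q ρ l)),
      JoinedIn (S (l + Δ)) (m (Ch1.ix K q ρ (l + Δ))) z := by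
    intro K q m h l hl hlb z ⟨z1, z2, z3, z4⟩
    obtain ⟨a1, a2, a3⟩ := h.pt _ (Ch1.ix_le (K := K) (q := q) (ρ := ρ) l)
    obtain ⟨a4, a5⟩ := h.ix_spec hl (by linarith)
    obtain ⟨a8, a9⟩ := h.ix_spec (l := l + Δ) (by linarith) hlb
    have a6 := abs_le.1 a2
    have z5 := abs_le.1 z3
    have s1 : 0 ≤ s * (l + Δ) := by positivity
    have s2 : s * Δ ≤ Δ := mul_le_of_le_one_left hΔ.le hs1
    have s3 := hexp (l + Δ) (by linarith)
    refine (h.walk hs hA hn hρ.le hρ1 (h.ix_mono hl (by linarith) (by linarith)) (Ch1.ix_le _)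
      (by linarith) (Or.inl (by linarith)) (by linarith)).symm.trans ?_
    have d : 0 ≤ ρ * √(n : ℝ) := by positivity
    refine seg1 (a := (1 + c) * e + s) hs hA hn a1 z1 hρ.le hρ1 (by linarith) (by linarith)
      (by linarith) (by linarith) (by linarith) ?_ ?_ (by linarith)
    · exact a3.trans (mul_le_mul_of_nonneg_right (by linarith) hn'.le)
    · have b1 : max (n * P - V (m (Ch1.ix K q ρ l))) 0 ≤ e * n := max_le a3 (by positivity)
      have b2 : c * Δ ≤ c := mul_le_of_le_one_right hc (by linarith)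
      have b3 := mul_le_mul (show 1 + c * Δ ≤ 1 + c by linarith) b1 (le_max_right _ _)
        (by linarith)
      have b4 : s * Δ * n ≤ s * n :=
        mul_le_mul_of_nonneg_right (mul_le_of_le_one_right hs0 (by linarith)) hn'.le
      linarith
  have ind : ∀ j : ℕ, j * Δ ≤ b - (5 * ρ ^ 2 + s) →
      JoinedIn (S (j * Δ)) (m (Ch1.ix K q ρ (j * Δ))) (m' (Ch1.ix K' q' ρ (j * Δ))) := by
    intro j
    induction j with
    | zero =>
      intro _
      simp only [Nat.cast_zero, zero_mul]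
      exact (start h).symm.trans (start h')
    | succ j ih =>
      intro hj
      have e1 : ((j + 1 : ℕ) : ℝ) * Δ = j * Δ + Δ := by push_cast; ring
      rw [e1] at hj ⊢
      have hl : 0 ≤ j * Δ := by positivity
      have s2 : s * (j * Δ) ≤ s := mul_le_of_le_one_right hs0 (by linarith)
      refine hst.lift (S := S (j * Δ)) ?_ (isOpen_W1 hV _ _ _ _) ?_ (ih (by linarith))
        (anchor h _ hl (by linarith)) (anchor h' _ hl (by linarith))
      · rintro x ⟨x1, -, x3, x4⟩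
        exact ⟨x1, by linarith, x4.le.trans
          (mul_le_mul_of_nonneg_right (hexp' _ hl (by linarith)) hn'.le)⟩
      · rintro x ⟨-, x2, x3, x4⟩ z ⟨z1, -, z3, z4⟩
        have z5 := abs_le.1 z3
        exact ⟨z1, by nlinarith, by nlinarith, gron1 hn' hc hΔ.le hs0 he0' hl x4 z4⟩
  set N := ⌊(b - (5 * ρ ^ 2 + s)) / Δ⌋₊ with hN
  have hN1 : N * Δ ≤ b - (5 * ρ ^ 2 + s) := by
    rw [← le_div_iff₀ hΔ]; exact Nat.floor_le (div_nonneg (by linarith) hΔ.le)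
  have hN2 : b - (5 * ρ ^ 2 + s) < N * Δ + Δ := by
    have := Nat.lt_floor_add_one ((b - (5 * ρ ^ 2 + s)) / Δ)
    rw [div_lt_iff₀ hΔ] at this
    linarith
  have hl : 0 ≤ N * Δ := by positivity
  have s2 : s * (N * Δ) ≤ s := mul_le_of_le_one_right hs0 (by linarith)
  have fin : ∀ {K : ℕ} {q : ℕ → ℝ} {m : ℕ → Fin n → ℝ}, Ch1 V P b ρ e K q m →
      JoinedIn (W1 V P (b - (11 * ρ ^ 2 + 2 * s)) 2 E) (m (Ch1.ix K q ρ (N * Δ))) (m K) := by
    intro K q m h
    obtain ⟨a4, -⟩ := h.ix_spec hl (by linarith)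
    refine h.walk hs hA hn hρ.le hρ1 (Ch1.ix_le _) le_rfl (by linarith) (Or.inr one_lt_two) ?_
    linarith [hexp 0 le_rfl, hexp' 0 le_rfl zero_le_one]
  refine (fin h).symm.trans (((ind N hN1).mono ?_).trans (fin h'))
  rintro x ⟨x1, x2, -, x4⟩
  exact ⟨x1, by linarith, by linarith [(qq_mem x1).2],
    x4.trans_le (mul_le_mul_of_nonneg_right (hexp' _ hl (by linarith)) hn'.le)⟩

lemma gron2 {c τ s e2 t q q' D D' N : ℝ} (hN : 0 < N) (hc : 0 ≤ c) (hτ : 0 ≤ τ) (hs : 0 ≤ s)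
    (he : 0 < e2) (hse : s ≤ e2) (ht : 0 ≤ t) (hq : 0 ≤ q) (hq0 : 0 ≤ q') (hq' : q - s * τ ≤ q')
    (h : D < (e2 + s * t) * Real.exp (2 * c * s * t) * Real.exp (2 * c * q) * N)
    (h' : D' ≤ D + c * (q' - q + s * τ) * (max D 0 + s * N) + s * τ * N) :
    D' < (e2 + s * (t + τ)) * Real.exp (2 * c * s * (t + τ)) * Real.exp (2 * c * q') * N := by
  set M := (e2 + s * t) * Real.exp (2 * c * s * t) * Real.exp (2 * c * q) with hM
  have m1 : e2 ≤ M := by
    have a1 : 1 ≤ Real.exp (2 * c * s * t) := Real.one_le_exp (by positivity)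
    have a2 : 1 ≤ Real.exp (2 * c * q) := Real.one_le_exp (by positivity)
    have a3 : e2 ≤ e2 + s * t := le_add_of_nonneg_right (by positivity)
    exact a3.trans ((le_mul_of_one_le_right (by positivity) a1).trans
      (le_mul_of_one_le_right (by positivity) a2))
  have u0 : 0 ≤ q' - q + s * τ := by linarith
  have h1 : max D 0 ≤ M * N := max_le h.le (mul_nonneg (by linarith) hN.le)
  have h2 : s * N ≤ M * N := mul_le_mul_of_nonneg_right (by linarith) hN.le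
  have h3 := mul_le_mul_of_nonneg_left (add_le_add h1 h2) (mul_nonneg hc u0)
  have h4 : 1 + 2 * c * (q' - q + s * τ) ≤ Real.exp (2 * c * (q' - q + s * τ)) := by
    linarith [Real.add_one_le_exp (2 * c * (q' - q + s * τ))]
  have h5 := mul_le_mul_of_nonneg_left h4 (mul_nonneg (by linarith : 0 ≤ M) hN.le)
  have h6 : M * N * Real.exp (2 * c * (q' - q + s * τ)) =
      (e2 + s * t) * (Real.exp (2 * c * s * (t + τ)) * Real.exp (2 * c * q')) * N := by
    have : Real.exp (2 * c * s * (t + τ)) * Real.exp (2 * c * q') = Real.exp (2 * c * s * t) *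
        Real.exp (2 * c * q) * Real.exp (2 * c * (q' - q + s * τ)) := by
      rw [← Real.exp_add, ← Real.exp_add, ← Real.exp_add]; ring_nf
    rw [this, hM]; ring
  have h7 : 1 ≤ Real.exp (2 * c * s * (t + τ)) * Real.exp (2 * c * q') := by
    rw [← Real.exp_add]; exact Real.one_le_exp (by positivity)
  have h8 : s * τ * N ≤ s * τ * (Real.exp (2 * c * s * (t + τ)) * Real.exp (2 * c * q')) * N :=
    mul_le_mul_of_nonneg_right (le_mul_of_one_le_right (by positivity) h7) hN.le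
  calc D' < (e2 + s * t) * (Real.exp (2 * c * s * (t + τ)) * Real.exp (2 * c * q')) * N +
        s * τ * (Real.exp (2 * c * s * (t + τ)) * Real.exp (2 * c * q')) * N := by
        rw [← h6]; nlinarith
    _ = _ := by ring

/-- the chain of ancestors above `b` -/
structure Ch2 (V : (Fin n → ℝ) → ℝ) (F : ℕ → (Fin n → ℝ) → ℝ) (b ρ e Y : ℝ) (N : ℕ)
    (y μ : ℕ → Fin n → ℝ) : Prop where
  st : ∀ k < N, nrm (y (k + 1) - y k) ≤ ρ * √n ∧ nrm (μ (k + 1) - μ k) ≤ ρ * √n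
  pt : ∀ k ≤ N, μ k ∈ box n ∧ b - ρ ^ 2 ≤ qq (μ k) ∧ nrm (y k) ≤ Y * √n ∧
    Df V (F k) (y k, μ k) ≤ e * n

/-- **the chain above `b`** -/
theorem stage2 {V : (Fin n → ℝ) → ℝ} {F : ℕ → (Fin n → ℝ) → ℝ} {A b c τ s ρ e e2 w lo Y Ym E : ℝ}
    {N : ℕ} (hn : 0 < n) (hs : Seg V A) (hA : 1 ≤ A) (hV : ContinuousOn V (box n))
    (hF : ∀ k ≤ N, ELip (√n) (F k)) (hρ : 0 < ρ) (hρ1 : ρ ≤ 1) (hτ : 0 < τ) (hτ1 : τ ≤ 1)
    (hs0 : 0 ≤ s) (hs1 : s ≤ 1) (hc : 0 ≤ c) (he : 0 ≤ e) (hw : 2 * ρ ^ 2 < w) (hlo : lo ≤ b - w)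
    (hY : 1 ≤ Y) (hYm : Y + 8 + 7 * (N * τ) ≤ Ym)
    (he2 : e + 2 * c * (e + s) + s + 14 * A * ρ < e2)
    (hE : (e2 + s * (N * τ)) * Real.exp (2 * c * s * (N * τ)) * Real.exp (2 * c) ≤ E)
    (hst : ∀ k < N, Stp (dom2 V (F k) lo Ym E) (G2 V (F k) (F (k + 1)) b c τ s ρ))
    {y μ y' μ' : ℕ → Fin n → ℝ} (h : Ch2 V F b ρ e Y N y μ) (h' : Ch2 V F b ρ e Y N y' μ')
    (h0 : JoinedIn (W2 V (F 0) (b - w) (Y + 8) e2 (2 * c)) (y 0, μ 0) (y' 0, μ' 0)) :
    JoinedIn (dom2 V (F N) lo Ym E) (y N, μ N) (y' N, μ' N) := by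
  have hn' : (0 : ℝ) < n := by exact_mod_cast hn
  have hsq : 0 < √(n : ℝ) := Real.sqrt_pos.2 hn'
  have hAρ : 0 < 14 * A * ρ := by positivity
  have hce : 0 ≤ 2 * c * (e + s) := by positivity
  have he2' : 0 < e2 := by linarith
  have hρ2 : 0 < ρ ^ 2 := by positivity
  set S : ℕ → Set ((Fin n → ℝ) × (Fin n → ℝ)) := fun k => W2 V (F k) (b - w) (Y + 8 + 7 * (k * τ))
    ((e2 + s * (k * τ)) * Real.exp (2 * c * s * (k * τ))) (2 * c) with hS
  have sub : ∀ k ≤ N, S k ⊆ dom2 V (F k) lo Ym E := by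
    rintro k hk x ⟨x1, x2, x3, x4⟩
    have a1 : (k : ℝ) * τ ≤ N * τ := mul_le_mul_of_nonneg_right (by exact_mod_cast hk) hτ.le
    refine ⟨x1, by linarith, x3.le.trans (mul_le_mul_of_nonneg_right (by linarith) hsq.le),
      x4.le.trans (mul_le_mul_of_nonneg_right (le_trans ?_ hE) hn'.le)⟩
    have a2 : 2 * c * qq x.2 ≤ 2 * c := mul_le_of_le_one_right (by positivity) (qq_mem x1).2
    have a3 : 2 * c * s * (k * τ) ≤ 2 * c * s * (N * τ) :=
      mul_le_mul_of_nonneg_left a1 (by positivity)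
    have a4 := mul_le_mul_of_nonneg_left a1 hs0
    exact mul_le_mul (mul_le_mul (by linarith) (Real.exp_le_exp.2 a3) (Real.exp_pos _).le
      (by positivity)) (Real.exp_le_exp.2 a2) (Real.exp_pos _).le (by positivity)
  have anchor : ∀ {y μ : ℕ → Fin n → ℝ}, Ch2 V F b ρ e Y N y μ → ∀ k < N,
      ∀ z ∈ G2 V (F k) (F (k + 1)) b c τ s ρ (y k, μ k),
      JoinedIn (S (k + 1)) (y (k + 1), μ (k + 1)) z := by
    intro y μ h k hk z ⟨z1, z2, z3, z4, z5, z6, z7⟩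
    obtain ⟨a1, a2, a3, a4⟩ := h.pt k hk.le
    obtain ⟨b1, b2, b3, b4⟩ := h.pt (k + 1) hk
    obtain ⟨c1, c2⟩ := h.st k hk
    have t0 : 0 ≤ ((k + 1 : ℕ) : ℝ) * τ := by positivity
    simp only at z2 z3 z4 z5 z6 z7
    refine seg2 (a := e + 2 * c * (e + s) + s) hs hA (hF _ hk) hn b1 z1 hρ.le hρ1 (by positivity)
      (by positivity) ?_ ?_ (by simp only; linarith) ?_ ?_ ?_ ?_ ?_ ?_
    · have := nrm_tri z.1 (y k) (y (k + 1))
      rw [nrm_sub_comm (y k)] at this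
      simp only; linarith
    · have := nrm_tri z.2 (μ k) (μ (k + 1))
      rw [nrm_sub_comm (μ k)] at this
      simp only; linarith
    · rw [min_eq_right a2] at z4; linarith
    · exact b3.trans_lt (mul_lt_mul_of_pos_right (by linarith) hsq)
    · exact (z6 Y hY a3).trans_lt (mul_lt_mul_of_pos_right (by linarith) hsq)
    · exact b4.trans (mul_le_mul_of_nonneg_right (by linarith) hn'.le)
    · have d1 : max (Df V (F k) (y k, μ k)) 0 ≤ e * n := max_le a4 (by positivity)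
      have d2 : s * τ ≤ s := mul_le_of_le_one_right hs0 hτ1
      have d3 : c * (qq z.2 - qq (μ k) + s * τ) ≤ c * 2 :=
        mul_le_mul_of_nonneg_left (by linarith [(qq_mem z1).2, (qq_mem a1).1]) hc
      have d4 := mul_le_mul d3 (add_le_add d1 (le_refl (s * n))) (by positivity) (by positivity)
      have d5 := mul_le_mul_of_nonneg_right d2 hn'.le
      linarith
    · refine he2.trans_le ((le_add_of_nonneg_right (mul_nonneg hs0 t0)).trans
        (le_mul_of_one_le_right (by positivity) (Real.one_le_exp (by positivity))))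
  have ind : ∀ k ≤ N, JoinedIn (S k) (y k, μ k) (y' k, μ' k) := by
    intro k
    induction k with
    | zero => intro _; simpa [hS] using h0
    | succ k ih =>
      intro hk
      refine (hst k hk).lift (sub k (by omega)) (isOpen_W2 hV (hF _ hk).continuous _ _ _ _) ?_
        (ih (by omega)) (anchor h k hk) (anchor h' k hk)
      rintro x ⟨x1, x2, x3, x4⟩ z ⟨z1, -, -, z4, z5, z6, z7⟩
      have e1 : ((k + 1 : ℕ) : ℝ) * τ = k * τ + τ := by push_cast; ring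
      have t0 : 0 ≤ (k : ℝ) * τ := by positivity
      refine ⟨z1, (lt_min x2 (by linarith)).trans_le z4, ?_, ?_⟩
      · obtain ⟨Y', y1, y2⟩ : ∃ Y', max 1 (nrm x.1 / √n) ≤ Y' ∧ Y' < Y + 8 + 7 * (k * τ) :=
          ⟨_, le_rfl, max_lt (by linarith) ((div_lt_iff₀ hsq).2 x3)⟩
        refine (z6 Y' ((le_max_left _ _).trans y1)
          ((div_le_iff₀ hsq).1 ((le_max_right _ _).trans y1))).trans_lt
          (mul_lt_mul_of_pos_right ?_ hsq)
        rw [e1]; linarith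
      · rw [e1]
        exact gron2 hn' hc hτ.le hs0 he2' (by linarith) t0 (qq_mem x1).1 (qq_mem z1).1 z5 x4 z7
  exact (ind N le_rfl).mono (sub N le_rfl)

/-- **no cut** (deterministic form) -/
theorem no_cut {β C b : ℝ} {S : Site β C b} {W : Matrix (Fin n) (Fin n) ℝ}
    {F : ℕ → (Fin n → ℝ) → ℝ} {A c Δ τ s1 s2 ρ e e1 eF e0 e2 E1 E2 lo Y Ym r : ℝ} {N : ℕ}
    {B : Set (Cube n)} (hn : 0 < n) (hs : Seg (V S W) A) (hA : 1 ≤ A)
    (hV : ContinuousOn (V S W) (box n)) (hF : ∀ k ≤ N, ELip (√n) (F k)) (hρ : 0 < ρ)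
    (hρ1 : ρ ≤ 1) (hΔ : 0 < Δ) (hΔρ : Δ ≤ ρ ^ 2) (hτ : 0 < τ) (hτ1 : τ ≤ 1) (hs1 : 0 ≤ s1)
    (hs1' : s1 ≤ 1) (hs2 : 0 ≤ s2) (hs2' : s2 ≤ 1) (hc : 0 ≤ c) (he : 0 ≤ e) (he1 : 0 ≤ e1)
    (heF : 0 ≤ eF) (hb : 5 * ρ ^ 2 + s1 ≤ b) (hlo : lo ≤ b - (11 * ρ ^ 2 + 2 * s1)) (hY : 1 ≤ Y)
    (hYm : Y + 8 + 7 * (N * τ) ≤ Ym) (he0 : (1 + c) * (e + e1) + s1 + 8 * A * ρ < e0)
    (hE1 : (e0 + s1) * Real.exp c ≤ E1) (he2 : e + 2 * c * (e + s2) + s2 + 14 * A * ρ < e2)
    (he2' : E1 + eF ≤ e2) (he2'' : e + eF + 14 * A * ρ < e2)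
    (hE2 : (e2 + s2 * (N * τ)) * Real.exp (2 * c * s2 * (N * τ)) * Real.exp (2 * c) ≤ E2)
    (hF0 : F 0 0 ≤ n * (S.P + eF))
    (st1 : Stp (dom1 (V S W) (S.P + e1) b E1) (G1 (V S W) (S.P + e1) c Δ s1 ρ))
    (st2 : ∀ k < N, Stp (dom2 (V S W) (F k) lo Ym E2) (G2 (V S W) (F k) (F (k + 1)) b c τ s2 ρ))
    (en1 : ∀ x ∈ dom2 (V S W) (F N) lo Ym E2, 1 - qq x.2 < r)
    (en2 : ∀ x ∈ dom2 (V S W) (F N) lo Ym E2, ∀ σ, ds (sv σ) x.2 < r * n → σ ∉ bd B)
    (h : Anc S W F (ρ ^ 2) e Y r N B) (h' : Anc S W F (ρ ^ 2) e Y r N Bᶜ) : False := by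
  have hn' : (0 : ℝ) < n := by exact_mod_cast hn
  have hsq : 0 < √(n : ℝ) := Real.sqrt_pos.2 hn'
  have hρ2 : 0 < ρ ^ 2 := by positivity
  have hAρ : 0 < 14 * A * ρ := by positivity
  have key : ∀ {B : Set (Cube n)}, Anc S W F (ρ ^ 2) e Y r N B →
      ∃ (K : ℕ) (q : ℕ → ℝ) (m y μ : ℕ → Fin n → ℝ) (X : Cube n),
        Ch1 (V S W) (S.P + e1) b ρ (e + e1) K q m ∧ Ch2 (V S W) F b ρ e Y N y μ ∧
        JoinedIn (W2 (V S W) (F 0) (b - (11 * ρ ^ 2 + 2 * s1)) (Y + 8) e2 (2 * c))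
          (0, m K) (y 0, μ 0) ∧ X ∈ B ∧ d2 X (μ N) < r * n := by
    rintro B ⟨K, q, m, y, μ, X, a1, a2, a3, a4, a5, a6, a7, a8, a9, a10⟩
    have c2 : Ch2 (V S W) F b ρ e Y N y μ :=
      ⟨fun k hk => ⟨nrm_le_of_ds hρ.le (a7 k hk).1, nrm_le_of_ds hρ.le (a7 k hk).2⟩,
        fun k hk => ⟨(a8 k hk).1, (a8 k hk).2.1, (a8 k hk).2.2.1, by
          have := (a8 k hk).2.2.2
          simp only [Df]; linarith⟩⟩
    refine ⟨K, q, m, y, μ, X, ⟨a1, a2, fun p hp => ⟨(a3 p hp).1, (a3 p hp).2.1,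
      nrm_le_of_ds hρ.le (a3 p hp).2.2⟩, fun p hp => ⟨(a4 p hp).1, (a4 p hp).2.1, by
        linarith [(a4 p hp).2.2]⟩⟩, c2, ?_, a9, by rwa [d2_eq]⟩
    obtain ⟨b1, b2, b3⟩ := a4 K le_rfl
    obtain ⟨d1, d2, d3, d4⟩ := c2.pt 0 (Nat.zero_le N)
    have b4 := abs_le.1 b2
    have g1 := nrm_le_of_ds hρ.le a5
    have g2 := nrm_le_of_ds hρ.le a6
    have g3 : 0 ≤ ρ * √(n : ℝ) := by positivity
    refine seg2 (a := e + eF) hs hA (hF 0 (Nat.zero_le N)) hn b1 d1 hρ.le hρ1 (by positivity)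
      (by positivity) (by simp only; linarith) (by simp only; linarith) (by simp only; linarith)
      (by simp only; linarith) ?_ ?_ ?_ ?_ he2''
    · simp only [nrm_zero]; positivity
    · exact d3.trans_lt (mul_lt_mul_of_pos_right (by linarith) hsq)
    · simp only [Df, zero_dotProduct]; linarith
    · exact d4.trans (mul_le_mul_of_nonneg_right (by linarith) hn'.le)
  obtain ⟨K, q, m, y, μ, X, a1, a2, a3, a4, a5⟩ := key h
  obtain ⟨K', q', m', y', μ', X', b1, b2, b3, b4, b5⟩ := key h'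
  have j1 := stage1 hn hs (by linarith) hV hρ hρ1 hΔ hΔρ hs1 hs1' hc (by linarith) S.b1 hb he0 hE1
    (by rw [V_zero]; nlinarith) st1 a1 b1
  have j2 : JoinedIn (W2 (V S W) (F 0) (b - (11 * ρ ^ 2 + 2 * s1)) (Y + 8) e2 (2 * c))
      (0, m K) (0, m' K') := by
    refine (j1.map (f := fun m => ((0 : Fin n → ℝ), m)) (by fun_prop)).mono ?_
    rintro _ ⟨x, ⟨x1, x2, -, x4⟩, rfl⟩
    refine ⟨x1, x2, by simp only [nrm_zero]; positivity, ?_⟩
    have g1 : 1 ≤ Real.exp (2 * c * qq x) := Real.one_le_exp (mul_nonneg (by positivity) (qq_mem x1).1)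
    have g2 : e2 * n ≤ e2 * Real.exp (2 * c * qq x) * n :=
      mul_le_mul_of_nonneg_right (le_mul_of_one_le_right (by linarith) g1) hn'.le
    have g3 := mul_le_mul_of_nonneg_right he2' hn'.le
    have g4 := mul_nonneg hn'.le he1
    simp only [Df, zero_dotProduct]
    linarith
  have j3 := stage2 hn hs hA hV hF hρ hρ1 hτ hτ1 hs2 hs2' hc he (by linarith) hlo hY hYm he2 hE2 st2
    a2 b2 (a3.symm.trans (j2.trans b3))
  refine not_joined_of_ball (μ := Prod.snd) continuous_snd.continuousOn (fun x hx => ?_)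
    (fun x hx σ hσ => en2 x hx σ (by rwa [← d2_eq])) a4 b4 a5 b5 j3
  refine (d2_rnd_le_norm fun i => (hx.1 i).le).trans_lt ?_
  rw [← dot_self_eq, ← n_qq hn]
  nlinarith [en1 x hx]

end Crest.Agent.T157.Up

end
end

-- ▼ part T157/UpC_74
section

/-!
# Row 157, part D (helper74): the top of the upper half, the steps are liftable
-/

set_option autoImplicit false

noncomputable section

namespace Crest.Agent.T157.Up

open MeasureTheory Matrix Set Filter
open scoped ENNReal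
open Crest.Agent.T157.E Crest.Agent.T157.Eig Crest.Agent.T157.St Crest.Agent.T157.Lift
open Crest.Agent.T157.Conc (ELip en)
open Crest.Agent.T157.Sc (SC1 SC2)

variable {n : ℕ} {β C b : ℝ}

theorem rep_of_ball {X Y : Type*} [TopologicalSpace Y] {f : X → (Fin n ⊕ Fin n → ℝ) → Y} {x : X}
    (hn : 0 < n) (hf : Continuous (f x)) {T : Set Y} {p : ℝ} (hp : p * (24 * n) ≤ 1 / 8)
    (h : Ball p 1 fun ξ => f x ξ ∈ T) : ∃ z, Rep (Conc.gv _) f T (1 / 4) x z := by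
  obtain ⟨B, hB, h⟩ := h
  have hn1 : (1 : ℝ) ≤ n := by exact_mod_cast hn
  have h1 : √(2 * n : ℝ) ≤ 2 * n := Real.sqrt_le_iff.2 ⟨by positivity, by nlinarith⟩
  refine exists_rep_of_slack hf (ρ := 1) (R := √(2 * n) + 4) (24 * n) (by omega)
    (by push_cast; linarith) h ?_
  have t1 := Conc.tail_lip (Conc.elip_en (ι := Fin n ⊕ Fin n)) (t := 4) (by norm_num)
  have t2 : ∫ z, en z ∂Conc.gv (Fin n ⊕ Fin n) ≤ √(2 * n) := by
    have := Nrm.integral_nrm_le (ι := Fin n ⊕ Fin n)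
    rw [Fintype.card_sum, Fintype.card_fin, Nat.cast_add, ← two_mul] at this
    simpa only [Up.en_eq_nrm] using this
  have t3 : Real.exp (-4 ^ 2 / (2 * 1 ^ 2)) ≤ 1 / 16 := by
    have e : (-4 ^ 2 / (2 * 1 ^ 2) : ℝ) = -(2 + 2 + 2 + 2) := by norm_num
    have := Real.add_one_le_exp 2
    rw [e, Real.exp_neg, one_div, Real.exp_add, Real.exp_add, Real.exp_add]
    refine inv_anti₀ (by norm_num) ?_
    have a : 9 ≤ Real.exp 2 * Real.exp 2 := by nlinarith
    nlinarith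
  have t4 : Conc.gv (Fin n ⊕ Fin n) {ξ | √(2 * n) + 4 < en ξ} ≤ ENNReal.ofReal (1 / 16) := by
    rw [← ofReal_measureReal]
    refine ENNReal.ofReal_le_ofReal (le_trans (measureReal_mono fun ξ hξ => ?_) (t1.trans t3))
    simp only [mem_ofPred_eq] at hξ ⊢
    linarith
  have t5 : ((24 * n : ℕ) : ℝ≥0∞) * Conc.gv (Fin n ⊕ Fin n) B ≤ ENNReal.ofReal (1 / 8) := by
    refine (mul_le_mul_right hB _).trans ?_
    rw [← ENNReal.ofReal_natCast, ← ENNReal.ofReal_mul (Nat.cast_nonneg _)]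
    refine ENNReal.ofReal_le_ofReal ?_
    push_cast; linarith
  calc _ ≤ ENNReal.ofReal (1 / 8) + 2 * ENNReal.ofReal (1 / 16) :=
        add_le_add t5 (mul_le_mul_right t4 _)
    _ = ENNReal.ofReal (1 / 4) := by
        rw [two_mul, ← ENNReal.ofReal_add (by norm_num) (by norm_num),
          ← ENNReal.ofReal_add (by norm_num) (by norm_num)]
        norm_num
    _ = 1 / 4 := by
        rw [ENNReal.ofReal_div_of_pos (by norm_num)]; simp

lemma fst_sub (ξ ξ' : Fin n ⊕ Fin n → ℝ) : St.fst (ξ - ξ') = St.fst ξ - St.fst ξ' := rfl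

lemma ball_comp_fst {p : ℝ} {Q : (Fin n → ℝ) → Prop} (h : Ball p 1 Q) :
    Ball p 1 fun ξ : Fin n ⊕ Fin n → ℝ => Q (St.fst ξ) := by
  obtain ⟨B, hB, h⟩ := h
  have hm := R339.Guerra.mp_comp (Sum.inl : Fin n → Fin n ⊕ Fin n) Sum.inl_injective
  refine ⟨St.fst ⁻¹' B, ?_, fun ξ hξ ξ' h' => h _ hξ _ ?_⟩
  · refine le_trans ?_ hB
    have := Measure.le_map_apply hm.measurable.aemeasurable (μ := E.gv (Fin n ⊕ Fin n)) B
    rw [hm.map_eq] at this
    exact this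
  · rw [← fst_sub, Up.en_eq_nrm]
    exact (nrm_fst_le _).trans h'

lemma sqrt_mul_n {τ : ℝ} : √(n * τ) = √n * √τ := Real.sqrt_mul (Nat.cast_nonneg n) τ

/-- Markov's inequality for the majorants -/
lemma ball_mart {F' : (Fin n → ℝ) → ℝ} (hF : ELip (√n) F') {y m : Fin n → ℝ} (hm : m ∈ box n)
    {τ c : ℝ} (hτ : 0 ≤ τ) (h : ∫ z, Real.exp (F' (y + √τ • z)) ∂E.gv (Fin n) ≤ Real.exp c)
    (a : ℝ) : Ball (Real.exp (-a)) 1 fun g : Fin n → ℝ =>
      F' (y + τ • m + √τ • g) ≤ c + (√τ * (m ⬝ᵥ g) + τ * (m ⬝ᵥ m) / 2) + a + 2 * √(n * τ) := by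
  set X : (Fin n → ℝ) → ℝ := fun g => F' (y + τ • m + √τ • g) - √τ * (m ⬝ᵥ g) - τ * (m ⬝ᵥ m) / 2
    with hX
  have hs := Real.sqrt_nonneg τ
  have hss := Real.mul_self_sqrt hτ
  have l1 : ELip (2 * √(n * τ)) X := by
    have a1 := Sla.elip_affine hF (y + τ • m) √τ
    have a2 := ((elip_lin m).const_mul √τ).neg
    refine ((a1.add a2).sub_const (τ * (m ⬝ᵥ m) / 2)).mono ?_
    rw [abs_of_nonneg hs, sqrt_mul_n]
    nlinarith [mul_le_mul_of_nonneg_left (nrm_box hm) hs]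
  have e1 : ∫ g, Real.exp (X g) ∂E.gv (Fin n) = ∫ z, Real.exp (F' (y + √τ • z)) ∂E.gv (Fin n) := by
    have := SL.cm (-(√τ • m)) fun z => Real.exp (F' (y + τ • m + √τ • z))
    have e2 : ∀ z : Fin n → ℝ, y + τ • m + √τ • (-(√τ • m) + z) = y + √τ • z := fun z => by
      rw [smul_add, smul_neg, smul_smul, hss]; abel
    simp only [e2] at this
    refine Eq.trans (integral_congr_ae (.of_forall fun g => ?_)) this.symm
    simp only [hX, ← Real.exp_add, dotProduct_neg, neg_dotProduct, dotProduct_smul,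
      smul_dotProduct, smul_eq_mul, dotProduct_comm g m]
    congr 1
    linear_combination (m ⬝ᵥ m / 2) * hss
  have i1 : Integrable (fun g => Real.exp (X g)) (E.gv (Fin n)) := by
    simpa using l1.integrable_exp 1
  have c1 := Conc.chernoff (μ := E.gv (Fin n)) (X := X) l1.continuous.measurable.aemeasurable
    (t := 1) (c := c) zero_le_one
    (by simpa using Conc.lint_ex_le_of_integral i1 (e1.le.trans h)) (c + a)
  refine ⟨{g | c + a ≤ X g}, c1.trans (le_of_eq ?_), fun g hg g' h' => ?_⟩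
  · rw [Conc.ex]; congr 2; ring
  · have b1 := (le_abs_self _).trans (l1 g' g)
    have b2 := mul_le_mul_of_nonneg_left h' (show 0 ≤ 2 * √(n * τ) by positivity)
    simp only [mem_ofPred_eq, not_le] at hg
    simp only [hX] at b1 hg
    linarith

lemma ball_dot (y : Fin n → ℝ) {x : ℝ} (hx : 1 ≤ x) :
    Ball (Real.exp (-x ^ 2 / 2)) 1 fun g : Fin n → ℝ => y ⬝ᵥ g ≤ 2 * x * nrm y := by
  refine (ball_upper (elip_lin y) (nrm_nonneg y) hx).mono le_rfl fun g hg => ?_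
  rw [int_odd (elip_lin y).continuous (fun ξ => dotProduct_neg _ _), zero_add] at hg
  exact hg

lemma abs_le_of_sq {c C1 E k N : ℝ} (hN : 0 < N) (hc : 0 < c) (hC : 0 ≤ C1) (hE : C1 ^ 2 * E ≤ c)
    (h : c * N * k ^ 2 ≤ E * N) : C1 * |k| ≤ 1 := by
  have h1 : c * k ^ 2 ≤ E := le_of_mul_le_mul_right (by linarith) hN
  have h2 : c * (C1 * |k|) ^ 2 ≤ c * 1 := by
    rw [mul_pow, sq_abs]
    nlinarith [mul_le_mul_of_nonneg_left h1 (sq_nonneg C1)]
  exact (sq_le_one_iff₀ (by positivity)).1 (le_of_mul_le_mul_left h2 hc)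

/-- the conclusion of `Step1Stmt` -/
def Raw1 (S : Site β C b) (A : Matrix (Fin n) (Fin n) ℝ) (C1 η Δ : ℝ) : Prop :=
  ∀ m ∈ box n, C1 * |kap S m| ≤ 1 → ∀ x : ℝ, 1 ≤ x →
    Ball (20 * Real.exp (-x ^ 2 / 2)) 1 fun ξ =>
      step1 S A η Δ m ξ ∈ box n ∧
      V S A m - C1 * (n * Δ * (kap S m ^ 2 + η ^ 2) + x * √(n * Δ) / η ^ 10) ≤
        V S A (step1 S A η Δ m ξ) ∧
      n * |qq (step1 S A η Δ m ξ) - qq m - Δ| ≤ C1 * (n * Δ * η ^ 2 + x * √(n * Δ) / η ^ 10) ∧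
      (step1 S A η Δ m ξ - m) ⬝ᵥ (step1 S A η Δ m ξ - m) ≤
        2 * n * Δ + C1 * x * √(n * Δ) / η ^ 10 ∧
      |m ⬝ᵥ (step1 S A η Δ m ξ - m)| ≤ C1 * x * √(n * Δ) / η ^ 10

theorem stp1 {S : Site β C b} {A : Matrix (Fin n) (Fin n) ℝ} {C1 η Δ c cg e1 E s σ ρ x : ℝ}
    (hn : 0 < n) (h : Raw1 S A C1 η Δ)
    (hc1 : ∀ ξ, ContinuousOn (fun m => step1 S A η Δ m ξ) (box n))
    (hc2 : ∀ m, Continuous (step1 S A η Δ m)) (sc : SC1 S A c e1) (hc : 0 < c) (hC : 0 ≤ C1)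
    (hE : C1 ^ 2 * E ≤ c) (hcg : C1 ≤ cg * c) (hΔ : 0 < Δ) (hx : 1 ≤ x)
    (hp : 22 * Real.exp (-x ^ 2 / 2) * (24 * n) ≤ 1 / 8)
    (hσ : C1 * x * √(n * Δ) / η ^ 10 ≤ σ * (n * Δ)) (hσ1 : σ ≤ 1) (hs : C1 * η ^ 2 + σ ≤ s)
    (hρ : 0 ≤ ρ) (hρΔ : 3 * Δ ≤ ρ ^ 2) :
    Stp (dom1 (V S A) (S.P + e1) b E) (G1 (V S A) (S.P + e1) cg Δ s ρ) := by
  have hn' : (0 : ℝ) < n := by exact_mod_cast hn
  refine ⟨_, inferInstance, step1 S A η Δ, fun ξ => (hc1 ξ).mono fun m hm => hm.1, ?_⟩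
  rintro m ⟨m1, m2, m3⟩
  have k1 := sc m m1 m2
  refine rep_of_ball hn (hc2 m) hp ((h m m1 (abs_le_of_sq hn' hc hC hE (by linarith)) x hx).mono
    (by linarith [Real.exp_pos (-x ^ 2 / 2)]) ?_)
  rintro ξ ⟨a1, a2, a3, a4, -⟩
  have e : C1 * x * √(n * Δ) / η ^ 10 = C1 * (x * √(n * Δ) / η ^ 10) := by ring
  have hnΔ : 0 < n * Δ := by positivity
  have b1 := mul_le_mul_of_nonneg_right hs hnΔ.le
  refine ⟨a1, nrm_le_of_ds hρ ?_, le_of_mul_le_mul_left ?_ hn', ?_⟩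
  · have := mul_le_mul_of_nonneg_right hσ1 hnΔ.le
    have := mul_le_mul_of_nonneg_right hρΔ hn'.le
    rw [ds]; linarith
  · linarith
  · have b2 : c * n * kap S m ^ 2 ≤ max (n * (S.P + e1) - V S A m) 0 :=
      le_trans (by linarith) (le_max_left _ _)
    have b3 : 0 ≤ cg := by
      by_contra h0
      nlinarith [mul_neg_of_neg_of_pos (not_le.1 h0) hc]
    have b4 := mul_le_mul_of_nonneg_left b2 (mul_nonneg b3 hΔ.le)
    have b5 := mul_le_mul_of_nonneg_right hcg (show 0 ≤ n * Δ * kap S m ^ 2 by positivity)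
    have b6 := le_max_left (n * (S.P + e1) - V S A m) 0
    nlinarith

/-- the conclusion of `Step2L` -/
def Raw2 (S : Site β C b) (A : Matrix (Fin n) (Fin n) ℝ) (C1 η τ : ℝ) : Prop :=
  ∀ y : Fin n → ℝ, ∀ m ∈ box n,
    b - η ^ 4 ≤ qq m → C1 * max (-kap S m) 0 ≤ 1 → ∀ Y : ℝ, 1 ≤ Y → nrm y ≤ Y * √n →
    ∀ x : ℝ, 1 ≤ x → ∃ k : ℝ, 0 ≤ k ∧ k ≤ 2 / η ∧ (1 - qq m) ^ 2 ≤ C1 * (k + η ^ 2) ∧
    Ball (20 * Real.exp (-x ^ 2 / 2)) 1 fun ξ =>
      (step2 S A η τ (y, m) ξ).2 ∈ box n ∧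
      V S A m + y ⬝ᵥ m + (√τ * (m ⬝ᵥ fun i => ξ (Sum.inl i)) + τ * (m ⬝ᵥ m) / 2 + n * τ / 2) -
          C1 * (n * τ * (k * (max (-kap S m) 0 ^ 2 + η ^ 2) + η ^ 2) +
            x * Y * √(n * τ) / η ^ 10) ≤
        V S A (step2 S A η τ (y, m) ξ).2 +
          (step2 S A η τ (y, m) ξ).1 ⬝ᵥ (step2 S A η τ (y, m) ξ).2 ∧
      n * |qq (step2 S A η τ (y, m) ξ).2 - qq m - τ * k| ≤
        C1 * (n * τ * η ^ 2 * (1 + k) + x * √(n * τ) / η ^ 10) ∧
      ((step2 S A η τ (y, m) ξ).2 - m) ⬝ᵥ ((step2 S A η τ (y, m) ξ).2 - m) ≤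
        C1 * (n * τ / η + x * √(n * τ) / η ^ 10) ∧
      nrm ((step2 S A η τ (y, m) ξ).1 - y) ≤ τ * √n + √τ * (√n + x + 1)

lemma nrm_next {y u : Fin n → ℝ} {τ Y : ℝ} (hτ : 0 ≤ τ) (hY : 1 ≤ Y) (hy : nrm y ≤ Y * √n)
    (h1 : y ⬝ᵥ u ≤ 2 * τ * √n * nrm y) (h2 : nrm u ≤ 3 * √τ * √n) :
    nrm (y + u) ≤ (Y + 7 * τ) * √n := by
  have hn : (0 : ℝ) ≤ n := Nat.cast_nonneg n
  have hs := Real.sqrt_nonneg (n : ℝ)
  have a1 : y ⬝ᵥ y ≤ (Y * √n) ^ 2 := (nrm_le_iff (by positivity)).1 hy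
  have a2 : u ⬝ᵥ u ≤ (3 * √τ * √n) ^ 2 := (nrm_le_iff (by positivity)).1 h2
  have a3 := mul_le_mul_of_nonneg_left hy (show 0 ≤ 2 * τ * √n by positivity)
  rw [nrm_le_iff (by positivity), add_dotProduct, dotProduct_add, dotProduct_add,
    dotProduct_comm u y]
  simp only [mul_pow, Real.sq_sqrt hn, Real.sq_sqrt hτ] at a1 a2 ⊢
  have a4 : 2 * τ * √n * (Y * √n) = 2 * τ * Y * n := by
    rw [show 2 * τ * √n * (Y * √n) = 2 * τ * Y * (√n * √n) by ring, Real.mul_self_sqrt hn]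
  have a5 : τ * n ≤ τ * Y * n := by nlinarith [mul_nonneg hτ hn]
  nlinarith [mul_nonneg (mul_nonneg hτ hτ) hn]

theorem stp2 {S : Site β C b} {A : Matrix (Fin n) (Fin n) ℝ} {F F' : (Fin n → ℝ) → ℝ}
    {C1 η τ c cg c0 E s ρ x Y : ℝ} (hn : 0 < n) (h : Raw2 S A C1 η τ)
    (hc1 : ∀ ξ, ContinuousOn (fun x => step2 S A η τ x ξ) {x | x.2 ∈ box n})
    (hc2 : ∀ x, Continuous (step2 S A η τ x)) (hF : ELip (√n) F')
    (sup : ∀ y, ∫ z, Real.exp (F' (y + √τ • z)) ∂gv (Fin n) ≤ Real.exp (F y + n * τ / 2))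
    (dom : ∀ y, ∀ m ∈ box n, b - η ^ 4 ≤ qq m →
      V S A m + y ⬝ᵥ m + c * n * max (-kap S m) 0 ^ 2 ≤ F y)
    (hc : 0 < c) (hc' : c ≤ 1) (hC : 1 ≤ C1) (hE : C1 ^ 2 * E ≤ c) (hcg : C1 ≤ cg * c)
    (hη : 0 < η) (hs : 8 * C1 * η ≤ s) (hs1 : s ≤ 1) (hτ : 0 < τ) (hx : 1 ≤ x) (hY : 1 ≤ Y)
    (hp : 22 * Real.exp (-x ^ 2 / 2) * (24 * n) ≤ 1 / 8)
    (hσ : C1 * x * Y * √(n * τ) / η ^ 10 ≤ η ^ 2 * (n * τ)) (hc0 : 0 ≤ c0) (hb : b ≤ 1 - c0)
    (hc0' : 2 * C1 * (C1 + 2) * η ^ 2 ≤ c0 ^ 2) (hρ : 0 ≤ ρ) (hρ1 : ρ ≤ 1)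
    (hρτ : (9 + C1 / η) * τ ≤ ρ ^ 2) :
    Stp (dom2 (V S A) F (b - η ^ 4) Y E) (G2 (V S A) F F' b cg τ s ρ) := by
  have hn' : (0 : ℝ) < n := by exact_mod_cast hn
  have hnτ : 0 < n * τ := by positivity
  have hq := Real.sqrt_pos.2 hnτ
  have hqq := Real.mul_self_sqrt hnτ.le
  have hη8 : η ≤ 1 / 8 := by nlinarith
  have hη2 : η ^ 2 ≤ η / 8 := by nlinarith
  have hCη : 0 < C1 / η := by positivity
  have hτρ : 9 * τ ≤ ρ ^ 2 := by nlinarith
  have hτ1 : τ ≤ 1 := by nlinarith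
  have hη10 : η ^ 10 ≤ 1 := pow_le_one₀ hη.le (by linarith)
  have g0 : 0 < x * √(n * τ) / η ^ 10 := by positivity
  have g1 : C1 * (x * √(n * τ) / η ^ 10) ≤ η ^ 2 * (n * τ) := by
    refine le_trans ?_ hσ
    rw [show C1 * x * Y * √(n * τ) / η ^ 10 = C1 * (x * √(n * τ) / η ^ 10) * Y by ring]
    exact le_mul_of_one_le_right (by positivity) hY
  have g2 : x * √(n * τ) ≤ η ^ 2 * (n * τ) := by
    refine le_trans ?_ ((le_mul_of_one_le_left g0.le hC).trans g1)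
    rw [le_div_iff₀ (by positivity)]
    exact mul_le_of_le_one_right (by positivity) hη10
  have g3 : 2 * x ≤ √(n * τ) := by
    refine le_of_mul_le_mul_right ?_ hq
    rw [hqq]; nlinarith
  have g4 : √τ * (2 * x) ≤ τ * √n := by
    refine (mul_le_mul_of_nonneg_left g3 (Real.sqrt_nonneg τ)).trans (le_of_eq ?_)
    rw [sqrt_mul_n, mul_left_comm, Real.mul_self_sqrt hτ.le, mul_comm]
  have g5 : τ ≤ √τ := Real.le_sqrt_of_sq_le (by nlinarith)
  have g6 : 0 ≤ cg := by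
    by_contra h0
    nlinarith [mul_neg_of_neg_of_pos (not_le.1 h0) hc]
  refine ⟨_, inferInstance, step2 S A η τ, fun ξ => (hc1 ξ).mono fun m hm => hm.1, ?_⟩
  rintro ⟨y, m⟩ ⟨m1, m2, m3, m4⟩
  simp only at m1 m2 m3
  have k1 : c * n * max (-kap S m) 0 ^ 2 ≤ Df (V S A) F (y, m) := by
    have := dom y m m1 m2
    simp only [Df]; linarith
  have k2 := abs_le_of_sq hn' hc (by linarith) hE (k1.trans m4)
  rw [abs_of_nonneg (le_max_right _ _)] at k2
  obtain ⟨k, k0, kη, kl, hB⟩ := h y m m1 m2 k2 Y hY m3 x hx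
  have hB2 := ball_comp_fst (ball_mart hF m1 hτ.le (sup y) (x ^ 2 / 2))
  have hB3 := ball_comp_fst (ball_dot y hx)
  have p0 := Real.exp_pos (-x ^ 2 / 2)
  refine rep_of_ball hn (hc2 _) hp (((hB.and hB2 (by positivity) (by positivity)).and hB3
    (by positivity) p0.le).mono (by rw [← neg_div]; linarith) ?_)
  rintro ξ ⟨⟨⟨a1, a2, a3, a4, a5⟩, a6⟩, a7⟩
  have ey : (step2 S A η τ (y, m) ξ).1 = y + τ • m + √τ • St.fst ξ := rfl
  have ef : (fun i => ξ (Sum.inl i)) = St.fst ξ := rfl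
  rw [ef] at a2
  rw [← ey] at a6
  set z := step2 S A η τ (y, m) ξ with hz
  have hsn := Real.sqrt_nonneg (n : ℝ)
  have b1 : nrm (z.1 - y) ≤ 3 * √τ * √n := by
    have := mul_le_mul_of_nonneg_left (show x + 1 ≤ 2 * x by linarith) (Real.sqrt_nonneg τ)
    have := mul_le_mul_of_nonneg_right g5 hsn
    linarith
  have b2 : |qq z.2 - qq m - τ * k| ≤ (C1 * η ^ 2 * (1 + k) + η ^ 2) * τ :=
    le_of_mul_le_mul_left (by linarith) hn'
  have b3 := abs_le.1 b2
  have b4 : η ^ 2 * k ≤ 2 * η := by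
    rw [le_div_iff₀ hη] at kη
    nlinarith
  have b5 : C1 * η ^ 2 * (1 + k) + η ^ 2 ≤ s := by
    have := mul_le_mul_of_nonneg_left (show η ^ 2 * (1 + k) ≤ 3 * η by nlinarith)
      (show 0 ≤ C1 by linarith)
    nlinarith
  have b6 := mul_le_mul_of_nonneg_right b5 hτ.le
  have b7 : 0 ≤ τ * k := by positivity
  refine ⟨a1, b1.trans (mul_le_mul_of_nonneg_right ?_ hsn), nrm_le_of_ds hρ ?_, ?_,
    by simp only; linarith, fun Y' y1 y2 => ?_, ?_⟩
  · refine le_of_sq_le_sq ?_ hρ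
    rw [mul_pow, Real.sq_sqrt hτ.le]; linarith
  · have := mul_le_mul_of_nonneg_right hρτ hn'.le
    have e : C1 * (n * τ / η) = C1 / η * τ * n := by ring
    have : η ^ 2 * (n * τ) ≤ 1 * (n * τ) := mul_le_mul_of_nonneg_right (by nlinarith) hnτ.le
    simp only [ds]; linarith
  · rcases le_total (qq m) b with q1 | q1
    · refine (min_le_left _ _).trans ?_
      have d1 : c0 ^ 2 ≤ (1 - qq m) ^ 2 := pow_le_pow_left₀ hc0 (by linarith) 2
      have d2 : 2 * (C1 + 2) * η ^ 2 ≤ k + η ^ 2 :=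
        le_of_mul_le_mul_left (by linarith) (show 0 < C1 by linarith)
      have d3 : C1 * η ^ 2 ≤ 1 / 2 := by nlinarith
      have d4 := mul_le_mul_of_nonneg_right d3 k0
      have d5 : C1 * η ^ 2 * (1 + k) + η ^ 2 ≤ k := by nlinarith [sq_nonneg η]
      have d6 := mul_le_mul_of_nonneg_right d5 hτ.le
      simp only; linarith
    · refine (min_le_right _ _).trans ?_
      have := mul_le_mul_of_nonneg_right hs1 hτ.le
      linarith
  · have e : z.1 = y + (z.1 - y) := by abel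
    rw [e]
    refine nrm_next hτ.le y1 y2 ?_ b1
    have e2 : z.1 - y = τ • m + √τ • St.fst ξ := by rw [ey]; abel
    rw [e2, dotProduct_add, dotProduct_smul, dotProduct_smul, smul_eq_mul, smul_eq_mul]
    have d1 := mul_le_mul_of_nonneg_left ((dot_le y m).trans
      (mul_le_mul_of_nonneg_left (nrm_box m1) (nrm_nonneg y))) hτ.le
    have d2 := mul_le_mul_of_nonneg_left a7 (Real.sqrt_nonneg τ)
    have d3 := mul_le_mul_of_nonneg_right g4 (nrm_nonneg y)
    linarith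
  · set D := Df (V S A) F (y, m) with hD
    set κ := max (-kap S m) 0 ^ 2 with hκ
    have κ0 : 0 ≤ κ := sq_nonneg _
    have d1 : C1 * (n * κ) ≤ cg * max D 0 := by
      have := mul_le_mul_of_nonneg_left (k1.trans (le_max_left D 0)) g6
      have := mul_le_mul_of_nonneg_right hcg (show 0 ≤ n * κ by positivity)
      linarith
    have d2 : C1 * (η ^ 2 * n) ≤ cg * (s * n) :=
      mul_le_mul (hcg.trans (mul_le_of_le_one_right g6 hc'))
        (mul_le_mul_of_nonneg_right (by nlinarith) hn'.le) (by positivity) g6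
    have d3 : τ * k * (C1 * (n * κ) + C1 * (η ^ 2 * n)) ≤
        (qq z.2 - qq m + s * τ) * (cg * max D 0 + cg * (s * n)) :=
      mul_le_mul (by linarith) (add_le_add d1 d2) (by positivity) (by linarith)
    have d4 : x ^ 2 / 2 ≤ x * √(n * τ) := by nlinarith
    have d5 : √(n * τ) ≤ x * √(n * τ) := le_mul_of_one_le_left hq.le hx
    have d6 : (C1 * η ^ 2 + 4 * η ^ 2) * (n * τ) ≤ s * (n * τ) :=
      mul_le_mul_of_nonneg_right (by nlinarith) hnτ.le
    have e : C1 * x * Y * √(n * τ) / η ^ 10 = C1 * (x * Y * √(n * τ) / η ^ 10) := by ring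
    have e3 : D = F y - V S A m - y ⬝ᵥ m := rfl
    change F' z.1 - V S A z.2 - z.1 ⬝ᵥ z.2 ≤
      D + cg * (qq z.2 - qq m + s * τ) * (max D 0 + s * n) + s * τ * n
    linarith

end Crest.Agent.T157.Up

end
end

-- ▼ part T157/UpDef2_74
section

/-!
# Row 157, part D (helper74): the family of majorants, statement
-/

set_option autoImplicit false

noncomputable section

namespace Crest.Agent.T157.Up

open MeasureTheory
open Crest.Agent.T157.E
open Crest.Agent.T157.Conc (ELip)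

/-- the supermartingale family built from the majorants `L k` and the weight `w` of a bad set -/
def FamStmt : Prop :=
  ∀ (n N : ℕ) (τ a Lb : ℝ) (L : ℕ → (Fin n → ℝ) → ℝ) (w : Cube n → ℝ), 0 ≤ τ →
    (∀ k ≤ N, ELip (√n) (L k) ∧
      ∫ z, Real.exp (L k (√(k * τ) • z)) ∂gv (Fin n) ≤ Real.exp (a + n * (k * τ) / 2)) →
    (∀ x, 0 ≤ w x) → Real.exp Lb * ∑ x, w x ≤ Real.exp a →
    ∃ F : ℕ → (Fin n → ℝ) → ℝ,
      (∀ k ≤ N, ELip (√n) (F k) ∧ (∀ y, L k y ≤ F k y) ∧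
        ∫ z, Real.exp (F k (√(k * τ) • z)) ∂gv (Fin n) ≤
          (N + 2) * Real.exp (a + n * (k * τ) / 2)) ∧
      (∀ k < N, ∀ y, ∫ z, Real.exp (F (k + 1) (y + √τ • z)) ∂gv (Fin n) ≤
        Real.exp (F k y + n * τ / 2)) ∧
      ∀ y σ, Real.exp Lb * tilt w y σ ≤ Real.exp (F N y)

end Crest.Agent.T157.Up

end
end

-- ▼ part T157/UpD_74
section

/-!
# Row 157, part D (helper74): the top of the upper half, the end and the parameters
-/

set_option autoImplicit false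

noncomputable section

namespace Crest.Agent.T157.Up

open MeasureTheory Matrix Set Filter
open Crest.Agent.T157.E Crest.Agent.T157.Eig Crest.Agent.T157.St Crest.Agent.T157.Lift
open Crest.Agent.T157.Conc (ELip en)
open Crest.Agent.T157.Sc (SC1 SC2)
open Crest.Agent.T157.Cut (bd)
open Crest.Agent.T157.An (pow_dom exp_small sc2_mono)

variable {n : ℕ} {β C b : ℝ}

lemma log_ising_sub {A : Matrix (Fin n) (Fin n) ℝ} {CA Y ρ : ℝ} (hA : opn A ≤ CA) {y : Fin n → ℝ}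
    (hy : nrm y ≤ Y * √n) {σ σ' : Cube n} (h : nrm (sv σ' - sv σ) ≤ ρ * √n) :
    Real.log (ising A y σ') - (CA + Y) * ρ * n ≤ Real.log (ising A y σ) := by
  have hn : (0 : ℝ) ≤ n := Nat.cast_nonneg n
  have hs := Real.sqrt_nonneg (n : ℝ)
  have hss := Real.mul_self_sqrt hn
  have hA0 := opn_nonneg A
  have e : sv σ' ⬝ᵥ A *ᵥ sv σ' - sv σ ⬝ᵥ A *ᵥ sv σ =
      (sv σ' - sv σ) ⬝ᵥ A *ᵥ sv σ' + sv σ ⬝ᵥ A *ᵥ (sv σ' - sv σ) := by
    simp only [sub_dotProduct, mulVec_sub, dotProduct_sub]; ring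
  have d0 := nrm_nonneg (sv σ' - sv σ)
  have a1 : (sv σ' - sv σ) ⬝ᵥ A *ᵥ sv σ' ≤ ρ * √n * (CA * √n) := by
    refine (dot_le _ _).trans (mul_le_mul h ((nrm_mulVec_le _ _).trans ?_) (nrm_nonneg _)
      (d0.trans h))
    rw [Sla.nrm_sv]; exact mul_le_mul_of_nonneg_right hA hs
  have a2 : sv σ ⬝ᵥ A *ᵥ (sv σ' - sv σ) ≤ √n * (CA * (ρ * √n)) := by
    refine (dot_le _ _).trans ?_
    rw [Sla.nrm_sv]
    exact mul_le_mul_of_nonneg_left ((nrm_mulVec_le _ _).trans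
      (mul_le_mul hA h d0 (hA0.trans hA))) hs
  have a3 : y ⬝ᵥ (sv σ' - sv σ) ≤ Y * √n * (ρ * √n) :=
    (dot_le _ _).trans (mul_le_mul hy h d0 ((nrm_nonneg _).trans hy))
  rw [dotProduct_sub] at a3
  have e1 : ρ * √n * (CA * √n) = CA * ρ * n := by linear_combination (CA * ρ) * hss
  have e2 : √n * (CA * (ρ * √n)) = CA * ρ * n := by linear_combination (CA * ρ) * hss
  have e3 : Y * √n * (ρ * √n) = Y * ρ * n := by linear_combination (Y * ρ) * hss
  simp only [ising, Real.log_exp]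
  linarith

/-- the conclusion of `EndStmt` -/
def RawE (S : Site β C b) (A : Matrix (Fin n) (Fin n) ℝ) (C1 : ℝ) : Prop :=
  ∀ y : Fin n → ℝ, ∀ m ∈ box n, b ≤ qq m → ∀ Y : ℝ, 1 ≤ Y → nrm y ≤ Y * √n →
    V S A m + y ⬝ᵥ m - C1 * Y * n * √(1 - qq m) ≤ Real.log (ising A y (sgn m)) ∧
      (sv (sgn m) - m) ⬝ᵥ (sv (sgn m) - m) ≤ n * (1 - qq m)

lemma end2 {S : Site β C b} {A : Matrix (Fin n) (Fin n) ℝ} {C1 CA Y ρ : ℝ} (h : RawE S A C1)
    (hA : opn A ≤ CA) (hC : 0 ≤ C1) {y m : Fin n → ℝ} (hm : m ∈ box n) (hb : b ≤ qq m)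
    (hY : 1 ≤ Y) (hy : nrm y ≤ Y * √n) (hρ : 0 ≤ ρ) (hq : 1 - qq m ≤ ρ ^ 2) {σ : Cube n}
    (hσ : ds (sv σ) m ≤ ρ ^ 2 * n) :
    V S A m + y ⬝ᵥ m - (C1 + 2 * CA + 2) * Y * ρ * n ≤ Real.log (ising A y σ) := by
  have hn : (0 : ℝ) ≤ n := Nat.cast_nonneg n
  obtain ⟨h1, h2⟩ := h y m hm hb Y hY hy
  have a1 : nrm (sv (sgn m) - m) ≤ ρ * √n :=
    nrm_le_of_ds hρ (h2.trans (by rw [mul_comm]; exact mul_le_mul_of_nonneg_right hq hn))
  have a2 := nrm_le_of_ds hρ hσ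
  have a3 := nrm_tri (sv (sgn m)) m (sv σ)
  rw [nrm_sub_comm m] at a3
  have a4 := log_ising_sub hA hy (σ := σ) (σ' := sgn m) (ρ := 2 * ρ) (by linarith)
  have a5 : √(1 - qq m) ≤ ρ := Real.sqrt_le_iff.2 ⟨hρ, hq⟩
  have a6 := mul_le_mul_of_nonneg_left a5 (show 0 ≤ C1 * Y * n by positivity)
  have a7 := mul_le_mul_of_nonneg_left hY
    (show 0 ≤ CA * ρ * n from mul_nonneg (mul_nonneg ((opn_nonneg A).trans hA) hρ) hn)
  linarith

open Classical in
lemma sum_indicator_eq {w : Cube n → ℝ} (hw : ∀ x, 0 < w x) (B : Set (Cube n)) :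
    ∑ x, B.indicator w x = mass w B * Zw w := by
  have h0 : (∑ x, w x) ≠ 0 := (Finset.sum_pos (fun x _ => hw x) Finset.univ_nonempty).ne'
  rw [mass, Zw, Finset.sum_mul, Finset.sum_filter]
  refine Finset.sum_congr rfl fun x _ => ?_
  by_cases hx : x ∈ B <;> simp [hx, prob, h0]

set_option maxHeartbeats 1600000 in
/-- **no cut**, with the parameters -/
theorem det (hFam : FamStmt) {S : Site β C b} {A : Matrix (Fin n) (Fin n) ℝ} {Γ : ℝ → ℝ}
    {C1 C2 C3 C4 Cs CA c c0 K u x τ : ℝ} {N : ℕ} {B : Set (Cube n)} (hn : 0 < n)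
    (hC1 : 1 ≤ C1) (hC2 : 1 ≤ C2) (hC3 : 1 ≤ C3) (hC4 : 1 ≤ C4) (hCs : 1 ≤ Cs) (hCA : 1 ≤ CA)
    (hc : 0 < c) (hc1 : c ≤ 1) (hc0 : 0 < c0) (hb0 : c0 ≤ b) (hb1 : b ≤ 1 - c0)
    (hK : 100 + 30 * C1 + 30 * C2 + 30 * C3 + 30 * C4 + 10 * Cs + 50 * CA +
      (1 + (C1 + C2) / c) * (5 + Cs) + 9 * Real.exp (2 * ((C1 + C2) / c)) + C1 ^ 2 / c +
      C2 ^ 2 / c + 6 / c0 + 2 * C2 * (C2 + 2) / c0 ^ 2 + 2 ^ 16 * (Nat.factorial 16) ≤ K)
    (u0 : 0 < u) (hu : K * u ≤ 1) (hτ : τ = u ^ 7560) (t1 : 1 ≤ N * τ * u) (t2 : N * τ * u ≤ 2)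
    (t3 : (N + 2) * u ^ 7561 ≤ 4) (hx : 1 ≤ x * u ^ 6000) (hxn : (n : ℝ) = x ^ 4)
    (hn2 : (1622016 : ℝ) ≤ n) (opA : opn A ≤ CA)
    (r1 : Raw1 S A C1 (u ^ 126) τ) (r2 : Raw2 S A C2 (u ^ 42) τ) (seg : Seg (V S A) C3)
    (re : RawE S A C4) (hV : ContinuousOn (V S A) (box n))
    (c1 : ∀ ξ, ContinuousOn (fun m => step1 S A (u ^ 126) τ m ξ) (box n))
    (c2 : ∀ m, Continuous (step1 S A (u ^ 126) τ m))
    (c3 : ∀ ξ, ContinuousOn (fun x => step2 S A (u ^ 42) τ x ξ) {x | x.2 ∈ box n})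
    (c4 : ∀ x, Continuous (step2 S A (u ^ 42) τ x))
    (sc1 : SC1 S A c (Cs * (u ^ 42) ^ 2))
    (sc2 : ∀ k ≤ N, SC2 S Γ A c (Cs * (1 + k * τ) * (u ^ 42) ^ 2) ((u ^ 42) ^ 4) (k * τ))
    (hΓ : ∀ s ∈ Icc b 1, 1 - Real.exp (-(N * τ) / 2) ≤ Γ (s + N * τ / β ^ 2))
    (hZ : Real.log (Zw (ising A 0)) ≤ n * (S.P + u ^ 100))
    (hbd : mass (ising A 0) (bd B) ≤ Real.exp (-(n * u ^ 4)))
    (anc : ∀ F, Mom S.P τ (u ^ 43) N F → Anc S A F (u ^ 210) (u ^ 42) (u ^ 2)⁻¹ (u ^ 14) N B ∧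
      Anc S A F (u ^ 210) (u ^ 42) (u ^ 2)⁻¹ (u ^ 14) N Bᶜ) : False := by
  have hn' : (0 : ℝ) < n := by exact_mod_cast hn
  set g := (C1 + C2) / c with hg
  have g0 : 0 < g := by positivity
  have gc : g * c = C1 + C2 := div_mul_cancel₀ _ hc.ne'
  have k1 : 0 < (1 + g) * (5 + Cs) := by positivity
  have k2 : 0 < Real.exp (2 * g) := Real.exp_pos _
  have k3 : 0 < C1 ^ 2 / c := by positivity
  have k4 : 0 < C2 ^ 2 / c := by positivity
  have k5 : 0 < 6 / c0 := by positivity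
  have k6 : 0 < 2 * C2 * (C2 + 2) / c0 ^ 2 := by positivity
  have k7 : (0 : ℝ) < 2 ^ 16 * (Nat.factorial 16) := by positivity
  have k8 : 0 ≤ g * Cs := by positivity
  have K100 : 100 ≤ K := by linarith
  have q1 : 3 * Cs ≤ K := by linarith
  have q2 : (2 : ℝ) ^ 16 * (Nat.factorial 16) ≤ K := by
    generalize (2 : ℝ) ^ 16 * (Nat.factorial 16) = f at hK k7 ⊢
    linarith
  have q3 : C1 ^ 2 / c ≤ K := by linarith
  have q4 : C2 ^ 2 / c ≤ K := by linarith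
  have q5 : 6 / c0 ≤ K := by linarith
  have q6 : (1 + g) * (1 + Cs) + 2 + 8 * C3 ≤ K := by linarith
  have q7 : 9 * Real.exp (2 * g) ≤ K := by linarith
  have q8 : 4 * g + 3 + 14 * C3 ≤ K := by linarith
  have q9 : C1 + 1 ≤ K := by linarith
  have q10 : 9 + 23 * C2 ≤ K := by linarith
  have q11 : 2 * C2 * (C2 + 2) / c0 ^ 2 ≤ K := by linarith
  have q12 : 23 * (C4 + 2 * CA + 2) + 2 ≤ K := by linarith
  clear hK k1 k3 k4 k5 k6 k7 k8
  have u1 : u ≤ 1 := by nlinarith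
  have d := fun (c' : ℝ) (h : c' ≤ K) (a b : ℕ) (hab : b < a) => pow_dom u0 u1 hu h hab
  have hp := fun k : ℕ => pow_pos u0 k
  have hl : ∀ a b : ℕ, b ≤ a → u ^ a ≤ u ^ b := fun a b h => pow_le_pow_of_le_one u0.le u1 h
  have h1 : ∀ a : ℕ, u ^ a ≤ 1 := fun a => pow_le_one₀ u0.le u1
  have τ0 : 0 < τ := hτ ▸ hp _
  have T0 : 0 ≤ N * τ := by positivity
  have x0 : 0 < x := (pos_iff_pos_of_mul_pos (by linarith : 0 < x * u ^ 6000)).2 (hp _)
  have x1 : 1 ≤ x := hx.trans (mul_le_of_le_one_right x0.le (h1 _))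
  have sq : √(n * τ) = x ^ 2 * u ^ 3780 := by
    rw [hxn, hτ, show x ^ 4 * u ^ 7560 = (x ^ 2 * u ^ 3780) ^ 2 by ring, Real.sqrt_sq (by positivity)]
  have hq : √(n * τ) * √(n * τ) = n * τ := Real.mul_self_sqrt (by positivity)
  have hpx : 22 * Real.exp (-x ^ 2 / 2) * (24 * n) ≤ 1 / 8 := by
    have a1 := Real.pow_div_factorial_le_exp (x ^ 2 / 2) (by positivity) 4
    have a2 : (x ^ 2 / 2) ^ 4 / (Nat.factorial 4 : ℕ) = n * n / 384 := by
      rw [hxn]; norm_num [Nat.factorial]; ring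
    rw [a2] at a1
    rw [neg_div, Real.exp_neg, mul_right_comm, ← div_eq_mul_inv, div_le_iff₀ (Real.exp_pos _)]
    nlinarith
  have slack : ∀ (c' : ℝ) (j : ℕ), c' ≤ K → j ≤ 126 →
      c' * x * (u ^ 2)⁻¹ * √(n * τ) / (u ^ j) ^ 10 ≤ (u ^ j) ^ 2 * (n * τ) := by
    intro c' j a1 a2
    have a3 : c' * u ^ (2218 - 12 * j) ≤ 1 := by
      have := d c' a1 (2218 - 12 * j) 0 (by omega)
      rwa [pow_zero] at this
    have a4 : u ^ 6000 = u ^ (2218 - 12 * j) * (u ^ 2 * (u ^ j) ^ 12 * u ^ 3780) := by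
      rw [← pow_mul, ← pow_add, ← pow_add, ← pow_add,
        show 2218 - 12 * j + (2 + j * 12 + 3780) = 6000 by omega]
    have a5 : c' ≤ x * (u ^ 2 * (u ^ j) ^ 12 * u ^ 3780) := by
      refine le_of_mul_le_mul_right ?_ (hp (2218 - 12 * j))
      rw [a4] at hx
      linarith
    rw [div_le_iff₀ (by positivity)]
    have a6 : c' * x * (u ^ 2)⁻¹ ≤ (u ^ j) ^ 12 * √(n * τ) := by
      rw [← div_eq_mul_inv, div_le_iff₀ (hp 2), sq]
      calc c' * x ≤ x * (u ^ 2 * (u ^ j) ^ 12 * u ^ 3780) * x :=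
            mul_le_mul_of_nonneg_right a5 x0.le
        _ = _ := by ring
    calc _ ≤ (u ^ j) ^ 12 * √(n * τ) * √(n * τ) :=
          mul_le_mul_of_nonneg_right a6 (Real.sqrt_nonneg _)
      _ = _ := by rw [mul_assoc, hq]; ring
  have Y1 : 1 ≤ (u ^ 2)⁻¹ := (one_le_inv₀ (hp 2)).2 (h1 2)
  -- the family
  choose! L L1 L2 L3 using sc2
  obtain ⟨F, F1, F2, F3⟩ := hFam n N τ (n * (S.P + u ^ 82)) (n * u ^ 4) L
    ((bd B).indicator (ising A 0)) τ0.le (fun k hk => ⟨L1 k hk, (L3 k hk).trans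
      (Real.exp_le_exp.2 (by
        have a1 : (k : ℝ) * τ ≤ N * τ := mul_le_mul_of_nonneg_right (by exact_mod_cast hk) τ0.le
        have a2 : (1 + k * τ) * u ≤ 3 := by nlinarith
        have a3 := mul_le_mul_of_nonneg_left a2 (by positivity : 0 ≤ Cs * u ^ 83)
        have a4 := d (3 * Cs) (by linarith) 83 82 (by norm_num)
        have a5 : Cs * (1 + k * τ) * (u ^ 42) ^ 2 = Cs * u ^ 83 * ((1 + k * τ) * u) := by ring
        have a6 := mul_le_mul_of_nonneg_left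
          (show Cs * (1 + k * τ) * (u ^ 42) ^ 2 ≤ u ^ 82 by linarith) hn'.le
        linarith))⟩)
    (fun σ => indicator_nonneg (fun _ _ => (Real.exp_pos _).le) σ) (by
      have w0 : ∀ σ, 0 < ising A 0 σ := fun σ => Real.exp_pos _
      have z0 : 0 < Zw (ising A 0) := Finset.sum_pos (fun x _ => w0 x) Finset.univ_nonempty
      rw [sum_indicator_eq w0, ← Real.exp_log z0]
      calc _ ≤ Real.exp (n * u ^ 4) * (Real.exp (-(n * u ^ 4)) * Real.exp (n * (S.P + u ^ 82))) := by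
            gcongr
            exact hZ.trans (mul_le_mul_of_nonneg_left (by linarith [hl 100 82 (by norm_num)]) hn'.le)
        _ = _ := by rw [← mul_assoc, ← Real.exp_add, add_neg_cancel, Real.exp_zero, one_mul])
  have mom : Mom S.P τ (u ^ 43) N F := fun k hk => ⟨(F1 k hk).1, (F1 k hk).2.2.trans (by
    have a1 : (N + 2 : ℝ) ≤ n * u ^ 44 := by
      refine le_of_mul_le_mul_right (t3.trans ?_) (hp 7561)
      have a2 : 1 ≤ (x * u ^ 6000) ^ 4 := one_le_pow₀ hx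
      have a3 := d 4 (by linarith) 24000 7605 (by norm_num)
      have a4 := mul_le_mul_of_nonneg_left a3 hn'.le
      have a5 : (x * u ^ 6000) ^ 4 = n * u ^ 24000 := by rw [hxn]; ring
      have a6 : n * u ^ 44 * u ^ 7561 = n * u ^ 7605 := by ring
      linarith
    have a2 : (N + 2 : ℝ) ≤ Real.exp (n * u ^ 44) := by linarith [Real.add_one_le_exp (n * u ^ 44)]
    refine (mul_le_mul_of_nonneg_right a2 (Real.exp_pos _).le).trans ?_
    rw [← Real.exp_add]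
    have a3 := mul_le_mul_of_nonneg_left (show u ^ 44 + u ^ 82 ≤ u ^ 43 by
      linarith [d 2 (by linarith) 44 43 (by norm_num), hl 82 44 (by norm_num)]) hn'.le
    exact Real.exp_le_exp.2 (by linarith))⟩
  obtain ⟨an1, an2⟩ := anc F mom
  have ρ2 : (u ^ 105) ^ 2 = u ^ 210 := by ring
  rw [← ρ2] at an1 an2
  have e84 : (u ^ 42) ^ 2 = u ^ 84 := by ring
  have T40 : u ^ 41 * (N * τ) ≤ 2 * u ^ 40 := by
    have := mul_le_mul_of_nonneg_left t2 (hp 40).le
    calc _ = u ^ 40 * (N * τ * u) := by ring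
      _ ≤ _ := by linarith
  have en1 : ∀ z ∈ dom2 (V S A) (F N) (b - (u ^ 42) ^ 4) (23 * (u ^ 2)⁻¹) (u ^ 38),
      1 - qq z.2 < u ^ 14 := by
    rintro z ⟨z1, z2, -, z4⟩
    have a1 := (L2 N le_rfl z.1 z.2 z1 z2).trans ((F1 N le_rfl).2.1 z.1)
    have a2 := hΓ (max (qq z.2) b) ⟨le_max_right _ _, max_le (qq_mem z1).2 S.b1⟩
    have a3 := (exp_small u0 t1).trans (d _ q2 16 15 (by norm_num))
    set γ := Γ (max (qq z.2) b + N * τ / β ^ 2)
    have a5 : c * n * (qq z.2 - γ) ^ 2 ≤ u ^ 38 * n := by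
      have := mul_nonneg (mul_nonneg hc.le hn'.le) (sq_nonneg (max (-kap S z.2) 0))
      simp only [Df] at z4
      linarith
    have a6 : c * (qq z.2 - γ) ^ 2 ≤ u ^ 38 := le_of_mul_le_mul_right (by linarith) hn'
    have a7 := d (C1 ^ 2 / c) (by linarith) 38 36 (by norm_num)
    rw [div_mul_eq_mul_div, div_le_iff₀ hc] at a7
    have a8 : u ^ 38 ≤ C1 ^ 2 * u ^ 38 := le_mul_of_one_le_left (hp _).le (one_le_pow₀ hC1)
    have a9 : (qq z.2 - γ) ^ 2 ≤ (u ^ 18) ^ 2 :=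
      le_of_mul_le_mul_left (by rw [show (u ^ 18) ^ 2 = u ^ 36 by ring]; linarith) hc
    have a10 := (abs_le_of_sq_le_sq' a9 (hp _).le).1
    linarith [d 3 (by linarith) 15 14 (by norm_num), hl 18 15 (by norm_num), hp 15]
  refine no_cut (A := C3) (c := g) (Δ := τ) (τ := τ) (s1 := u ^ 251) (s2 := u ^ 41)
    (e1 := Cs * (u ^ 42) ^ 2) (eF := u ^ 43) (e0 := u ^ 41) (e2 := u ^ 39) (E1 := u ^ 40)
    (E2 := u ^ 38) (lo := b - (u ^ 42) ^ 4) (Ym := 23 * (u ^ 2)⁻¹) hn seg hC3 hV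
    (fun k hk => (F1 k hk).1) (hp 105) (h1 _) τ0 ?_ τ0 (hτ ▸ h1 _) (hp _).le (h1 _) (hp _).le (h1 _)
    g0.le (hp _).le (by positivity) (hp _).le ?_ ?_ Y1 ?_ ?_ ?_ ?_ ?_ ?_ ?_ ?_
    (stp1 (σ := (u ^ 126) ^ 2) hn r1 c1 c2 sc1 hc (by linarith) ?_ (by linarith) τ0 x1 hpx ?_
      (by rw [← pow_mul]; exact h1 _) ?_ (hp _).le ?_)
    (fun k hk => stp2 hn r2 c3 c4 (F1 _ hk).1 (F2 k hk) (fun y m m1 m2 => ?_) hc hc1 hC2 ?_
      (by linarith) (hp _) ?_ (h1 _) τ0 x1 (by linarith) hpx ?_ hc0.le hb1 ?_ (hp _).le (h1 _) ?_)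
    en1 (fun z hz σ hσ hbad => ?_) an1 an2
  · rw [ρ2, hτ]; exact hl _ _ (by norm_num)
  · have a1 := d (6 / c0) (by linarith) 210 0 (by norm_num)
    rw [pow_zero, div_mul_eq_mul_div, div_le_one hc0] at a1
    rw [ρ2]; linarith [hl 251 210 (by norm_num)]
  · rw [ρ2, show (u ^ 42) ^ 4 = u ^ 168 by ring]
    linarith [d 13 (by linarith) 210 168 (by norm_num), hl 251 210 (by norm_num)]
  · have a1 : N * τ ≤ 2 * (u ^ 2)⁻¹ := by
      rw [← div_eq_mul_inv, le_div_iff₀ (hp 2)]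
      nlinarith [mul_le_mul_of_nonneg_left u1 (mul_nonneg T0 u0.le)]
    linarith
  · have a1 := mul_le_mul_of_nonneg_left (hl 84 42 (by norm_num)) (by linarith : 0 ≤ Cs)
    have a2 := mul_le_mul_of_nonneg_left (add_le_add_right a1 (u ^ 42)) (by linarith : 0 ≤ 1 + g)
    have a3 := mul_le_mul_of_nonneg_left (hl 105 42 (by norm_num)) (by linarith : 0 ≤ C3)
    have a4 := d ((1 + g) * (1 + Cs) + 2 + 8 * C3) (by linarith) 42 41 (by norm_num)
    rw [e84]
    linarith [hl 251 42 (by norm_num), hp 42]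
  · have a1 : Real.exp g ≤ Real.exp (2 * g) := Real.exp_le_exp.2 (by linarith)
    have a2 := d (2 * Real.exp (2 * g)) (by linarith) 41 40 (by norm_num)
    have a3 := mul_le_mul (show u ^ 41 + u ^ 251 ≤ 2 * u ^ 41 by linarith [hl 251 41 (by norm_num)])
      a1 (Real.exp_pos _).le (by positivity)
    linarith
  · have a1 := mul_le_mul_of_nonneg_left (hl 42 41 (by norm_num)) g0.le
    have a3 := mul_le_mul_of_nonneg_left (hl 105 41 (by norm_num)) (by linarith : 0 ≤ C3)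
    have a4 := d (4 * g + 3 + 14 * C3) (by linarith) 41 39 (by norm_num)
    linarith [hl 42 41 (by norm_num), hp 41]
  · linarith [d 2 (by linarith) 40 39 (by norm_num), hl 43 40 (by norm_num)]
  · have a3 := mul_le_mul_of_nonneg_left (hl 105 42 (by norm_num)) (by linarith : 0 ≤ C3)
    have a4 := d (3 + 14 * C3) (by linarith) 42 39 (by norm_num)
    linarith [hl 43 42 (by norm_num), hp 42]
  · have a1 := d (4 * g) (by linarith) 40 0 (by norm_num)
    have a2 := mul_le_mul_of_nonneg_left T40 (by linarith : 0 ≤ 2 * g)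
    have a3 : Real.exp (2 * g * u ^ 41 * (N * τ)) ≤ 3 :=
      (Real.exp_le_exp.2 (by rw [pow_zero] at a1; linarith)).trans
        (Real.exp_one_lt_d9.le.trans (by norm_num))
    have a4 := mul_le_mul (show u ^ 39 + u ^ 41 * (N * τ) ≤ 3 * u ^ 39 by
      linarith [hl 40 39 (by norm_num)]) a3 (Real.exp_pos _).le (by positivity)
    have a5 := mul_le_mul_of_nonneg_right a4 k2.le
    have a6 := d (9 * Real.exp (2 * g)) (by linarith) 39 38 (by norm_num)
    linarith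
  · have := (mom 0 (Nat.zero_le N)).2
    simp only [Nat.cast_zero, zero_mul, Real.sqrt_zero, zero_smul, integral_const, probReal_univ,
      smul_eq_mul, one_mul, zero_div, add_zero] at this
    exact Real.exp_le_exp.1 this
  · have a1 := d (C1 ^ 2 / c) (by linarith) 40 0 (by norm_num)
    rwa [pow_zero, div_mul_eq_mul_div, div_le_one hc] at a1
  · refine le_trans ?_ (slack C1 126 (by linarith) le_rfl)
    exact div_le_div_of_nonneg_right (mul_le_mul_of_nonneg_right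
      (le_mul_of_one_le_right (by positivity) Y1) (Real.sqrt_nonneg _)) (by positivity)
  · rw [show (u ^ 126) ^ 2 = u ^ 252 by ring]
    linarith [d (C1 + 1) q9 252 251 (by norm_num)]
  · rw [ρ2, hτ]; exact d 3 (by linarith) _ _ (by norm_num)
  · have a1 := (L2 k hk.le y m m1 m2).trans ((F1 k hk.le).2.1 y)
    have := mul_nonneg (mul_nonneg hc.le hn'.le)
      (sq_nonneg (qq m - Γ (max (qq m) b + k * τ / β ^ 2)))
    linarith
  · have a1 := d (C2 ^ 2 / c) (by linarith) 38 0 (by norm_num)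
    rwa [pow_zero, div_mul_eq_mul_div, div_le_one hc] at a1
  · exact d (8 * C2) (by linarith) _ _ (by norm_num)
  · refine le_trans (le_of_eq ?_) (slack (23 * C2) 42 (by linarith) (by norm_num))
    ring
  · have a1 := d (2 * C2 * (C2 + 2) / c0 ^ 2) (by linarith) 84 0 (by norm_num)
    rwa [pow_zero, div_mul_eq_mul_div, div_le_one (by positivity), ← e84] at a1
  · have e : (9 + C2 / u ^ 42) * τ = 9 * u ^ 7560 + C2 * u ^ 7518 := by
      rw [hτ, show 7560 = 7518 + 42 from rfl, pow_add]; field_simp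
    rw [e, ρ2]
    linarith [d (9 + C2) (by linarith) 7518 210 (by norm_num), hl 7560 7518 (by norm_num)]
  · have a0 := en1 z hz
    obtain ⟨z1, -, z3, z4⟩ := hz
    have a1 := d (6 / c0) (by linarith) 14 0 (by norm_num)
    rw [pow_zero, div_mul_eq_mul_div, div_le_one hc0] at a1
    have e14 : (u ^ 7) ^ 2 = u ^ 14 := by ring
    have a2 := end2 re opA (by linarith) z1 (by linarith [hp 14]) (by linarith) z3 (hp 7).le
      (by rw [e14]; exact a0.le) (by rw [e14]; exact hσ.le)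
    have a3 := F3 z.1 σ
    have e2 : tilt ((bd B).indicator (ising A 0)) z.1 σ =
        Real.exp (Real.log (ising A z.1 σ)) := by
      rw [Real.exp_log (show 0 < ising A z.1 σ from Real.exp_pos _), tilt, indicator_of_mem hbad,
        ← tilt, tilt_ising, zero_add]
    rw [e2, ← Real.exp_add, Real.exp_le_exp] at a3
    have e3 : (C4 + 2 * CA + 2) * (23 * (u ^ 2)⁻¹) * u ^ 7 * n =
        23 * (C4 + 2 * CA + 2) * u ^ 5 * n := by field_simp
    have a4 := mul_lt_mul_of_pos_right (show 23 * (C4 + 2 * CA + 2) * u ^ 5 + u ^ 38 < u ^ 4 by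
      linarith [d (23 * (C4 + 2 * CA + 2) + 2) (by linarith) 5 4 (by norm_num),
        hl 38 5 (by norm_num), hp 5]) hn'
    simp only [Df] at z4
    linarith

end Crest.Agent.T157.Up

end
end

-- ▼ part T157/UpFam_65
section

/-!
# Row 157, part D (helper65): the family of majorants
-/

set_option autoImplicit false

noncomputable section

namespace Crest.Agent.T157.Up

open MeasureTheory Real
open Crest.Agent.T157.E
open Crest.Agent.T157.Conc (ELip en)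

namespace F65

variable {n : ℕ}

/-- nonnegative with log-Lipschitz growth -/
def Lg (c : ℝ) (U : (Fin n → ℝ) → ℝ) : Prop :=
  (∀ y, 0 ≤ U y) ∧ ∀ y y', U y ≤ exp (c * en (y - y')) * U y'

variable {c : ℝ} {U V : (Fin n → ℝ) → ℝ}

lemma lg_exp {L : (Fin n → ℝ) → ℝ} (h : ELip c L) : Lg c fun y => exp (L y) :=
  ⟨fun _ => (exp_pos _).le, fun y y' => by
    rw [← exp_add]
    exact exp_le_exp.2 (by linarith [(abs_le.1 (h y y')).2])⟩

lemma Lg.add (hU : Lg c U) (hV : Lg c V) : Lg c fun y => U y + V y :=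
  ⟨fun y => add_nonneg (hU.1 y) (hV.1 y), fun y y' => by
    rw [mul_add]; exact add_le_add (hU.2 y y') (hV.2 y y')⟩

lemma Lg.const_mul (hU : Lg c U) {b : ℝ} (hb : 0 ≤ b) : Lg c fun y => b * U y :=
  ⟨fun y => mul_nonneg hb (hU.1 y), fun y y' => by
    rw [mul_left_comm]; exact mul_le_mul_of_nonneg_left (hU.2 y y') hb⟩

lemma Lg.elip (hU : Lg c U) (hp : ∀ y, 0 < U y) : ELip c fun y => log (U y) := by
  have key : ∀ y y', log (U y) - log (U y') ≤ c * en (y - y') := fun y y' => by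
    have := log_le_log (hp y) (hU.2 y y')
    rw [log_mul (exp_pos _).ne' (hp y').ne', log_exp] at this
    linarith
  intro y y'
  refine abs_le.2 ⟨?_, key y y'⟩
  have := key y' y
  rw [Conc.en_sub_comm] at this
  linarith

lemma Lg.integrable (hU : Lg c U) (hp : ∀ y, 0 < U y) (y : Fin n → ℝ) (s : ℝ) :
    Integrable (fun z => U (y + s • z)) (gv (Fin n)) := by
  have h1 : ELip (c * |s|) fun z => log (U (y + s • z)) := fun z z' => by
    have := hU.elip hp (y + s • z) (y + s • z')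
    rwa [add_sub_add_left_eq_sub, ← smul_sub, Conc.en_smul, ← mul_assoc] at this
  refine (h1.integrable_exp 1).congr (.of_forall fun z => ?_)
  simp only [one_mul, exp_log (hp _)]

lemma Lg.continuous (hU : Lg c U) (hp : ∀ y, 0 < U y) : Continuous U := by
  have := continuous_exp.comp (hU.elip hp).continuous
  refine this.congr fun y => ?_
  simp only [Function.comp, exp_log (hp _)]

lemma Lg.conv (hU : Lg c U) (hp : ∀ y, 0 < U y) (s : ℝ) :
    Lg c fun y => ∫ z, U (y + s • z) ∂gv (Fin n) :=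
  ⟨fun y => integral_nonneg fun z => hU.1 _, fun y y' => by
    rw [← integral_const_mul]
    refine integral_mono (hU.integrable hp y s) ((hU.integrable hp y' s).const_mul _) fun z => ?_
    have := hU.2 (y + s • z) (y' + s • z)
    rwa [add_sub_add_right_eq_sub] at this⟩

lemma Lg.fubini (hU : Lg c U) (hp : ∀ y, 0 < U y) {s t : ℝ} (hs : 0 ≤ s) (ht : 0 ≤ t) :
    Integrable (fun z => ∫ z', U (√s • z + √t • z') ∂gv (Fin n)) (gv (Fin n)) ∧
    ∫ z, ∫ z', U (√s • z + √t • z') ∂gv (Fin n) ∂gv (Fin n) =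
      ∫ z, U (√(s + t) • z) ∂gv (Fin n) := by
  have hc := hU.continuous hp
  have hm := SL.map_add_smul (ι := Fin n) hs ht
  have h0 : Integrable (fun z => U (√(s + t) • z)) (gv (Fin n)) := by
    simpa using hU.integrable hp 0 √(s + t)
  have h1 : Integrable U ((gv (Fin n)).map fun z => √(s + t) • z) :=
    (integrable_map_measure hc.aestronglyMeasurable (by fun_prop)).2 h0
  have h2 : Integrable (fun p : (Fin n → ℝ) × (Fin n → ℝ) => U (√s • p.1 + √t • p.2))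
      ((gv (Fin n)).prod (gv (Fin n))) := by
    have h3 : Integrable U (((gv (Fin n)).prod (gv (Fin n))).map
        fun p => √s • p.1 + √t • p.2) := hm ▸ h1
    exact (integrable_map_measure hc.aestronglyMeasurable (by fun_prop)).1 h3
  refine ⟨h2.integral_prod_left, ?_⟩
  rw [← integral_prod _ h2, ← integral_map (f := U) (by fun_prop) hc.aestronglyMeasurable,
    ← integral_map (f := U) (φ := fun z => √(s + t) • z) (by fun_prop) hc.aestronglyMeasurable]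
  exact congrArg (fun μ => ∫ y, U y ∂μ) hm

lemma en_sv (x : Cube n) : en (sv x) = √n := by
  rw [en, ← sv_dot_self x]
  simp only [dotProduct, sq]

lemma lg_tilt {w : Cube n → ℝ} (hw : ∀ x, 0 ≤ w x) : Lg (√n) fun y => ∑ x, tilt w y x :=
  ⟨fun y => Finset.sum_nonneg fun x _ => mul_nonneg (hw x) (exp_pos _).le, fun y y' => by
    rw [Finset.mul_sum]
    refine Finset.sum_le_sum fun x _ => ?_
    rw [tilt, tilt, mul_left_comm, ← exp_add]
    refine mul_le_mul_of_nonneg_left (exp_le_exp.2 ?_) (hw x)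
    have := Conc.abs_dot_le (y - y') (sv x)
    rw [en_sv] at this
    have h2 : y ⬝ᵥ sv x = ∑ i, (y - y') i * sv x i + y' ⬝ᵥ sv x := by
      rw [← dotProduct, sub_dotProduct]; ring
    rw [h2]
    linarith [le_abs_self (∑ i, (y - y') i * sv x i), mul_comm (en (y - y')) √(n : ℝ)]⟩

lemma int_tilt (w : Cube n → ℝ) {s : ℝ} (hs : 0 ≤ s) :
    Integrable (fun z => ∑ x, tilt w (√s • z) x) (gv (Fin n)) ∧
    ∫ z, ∑ x, tilt w (√s • z) x ∂gv (Fin n) = (∑ x, w x) * exp (n * s / 2) := by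
  have e : ∀ (z : Fin n → ℝ) (x : Cube n), tilt w (√s • z) x = w x * exp (z ⬝ᵥ (√s • sv x)) :=
    fun z x => by rw [tilt, smul_dotProduct, dotProduct_smul]
  simp only [e]
  have hi : ∀ x ∈ (Finset.univ : Finset (Cube n)),
      Integrable (fun z : Fin n → ℝ => w x * exp (z ⬝ᵥ (√s • sv x))) (gv (Fin n)) :=
    fun x _ => (Plb.Den61.int_exp_dot _).const_mul _
  refine ⟨integrable_finsetSum _ hi, ?_⟩
  rw [integral_finsetSum _ hi, Finset.sum_mul]
  refine Finset.sum_congr rfl fun x _ => ?_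
  rw [integral_const_mul, Plb.Den61.integral_exp_dot, smul_dotProduct, dotProduct_smul,
    sv_dot_self, smul_eq_mul, smul_eq_mul, ← mul_assoc, mul_self_sqrt hs, mul_comm s]

/-- the backward recursion; `j` steps are left -/
def UU (N : ℕ) (τ Lb : ℝ) (L : ℕ → (Fin n → ℝ) → ℝ) (w : Cube n → ℝ) : ℕ → (Fin n → ℝ) → ℝ
  | 0 => fun y => exp (L N y) + exp Lb * ∑ x, tilt w y x
  | j + 1 => fun y => exp (L (N - (j + 1)) y) +
      exp (-(n * τ / 2)) * ∫ z, UU N τ Lb L w j (y + √τ • z) ∂gv (Fin n)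

end F65

open F65 in
theorem famStmt : FamStmt := by
  intro n N τ a Lb L w hτ hL hw hb
  have int_L : ∀ k ≤ N, Integrable (fun z => exp (L k (√(k * τ) • z))) (gv (Fin n)) :=
    fun k hk => by simpa using (lg_exp (hL k hk).1).integrable (fun _ => exp_pos _) 0 √(k * τ)
  have main : ∀ j k, j + k = N → Lg (√n) (UU N τ Lb L w j) ∧
      (∀ y, exp (L k y) ≤ UU N τ Lb L w j y) ∧
      ∫ z, UU N τ Lb L w j (√(k * τ) • z) ∂gv (Fin n) ≤ (j + 2) * exp (a + n * (k * τ) / 2) := by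
    intro j
    induction j with
    | zero =>
      intro k hk
      obtain rfl : k = N := by omega
      have h2 := (lg_tilt hw).const_mul (exp_pos Lb).le
      refine ⟨(lg_exp (hL k le_rfl).1).add h2, fun y => le_add_of_nonneg_right (h2.1 y), ?_⟩
      have hs : 0 ≤ (k : ℝ) * τ := by positivity
      simp only [UU]
      rw [integral_add (int_L k le_rfl) ((int_tilt w hs).1.const_mul _), integral_const_mul,
        (int_tilt w hs).2, ← mul_assoc]
      have h3 := mul_le_mul_of_nonneg_right hb (exp_pos (n * (k * τ) / 2)).le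
      rw [← exp_add] at h3
      have := (hL k le_rfl).2
      push_cast
      linarith
    | succ j ih =>
      intro k hk
      obtain ⟨h1, h2, h3⟩ := ih (k + 1) (by omega)
      have hp : ∀ y, 0 < UU N τ Lb L w j y := fun y => (exp_pos _).trans_le (h2 y)
      have e : N - (j + 1) = k := by omega
      have hkN : k ≤ N := by omega
      have h4 := (h1.conv hp √τ).const_mul (exp_pos (-(n * τ / 2))).le
      simp only [UU, e]
      refine ⟨(lg_exp (hL k hkN).1).add h4, fun y => le_add_of_nonneg_right (h4.1 y), ?_⟩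
      have hs : 0 ≤ (k : ℝ) * τ := by positivity
      have h5 := h1.fubini hp hs hτ
      rw [integral_add (int_L k hkN) (h5.1.const_mul _), integral_const_mul, h5.2]
      have e2 : (k : ℝ) * τ + τ = ((k + 1 : ℕ) : ℝ) * τ := by push_cast; ring
      rw [e2]
      have h6 := mul_le_mul_of_nonneg_left h3 (exp_pos (-(n * τ / 2))).le
      rw [mul_left_comm, ← exp_add] at h6
      have e3 : -(n * τ / 2) + (a + n * (((k + 1 : ℕ) : ℝ) * τ) / 2) = a + n * (k * τ) / 2 := by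
        push_cast; ring
      rw [e3] at h6
      have := (hL k hkN).2
      rw [Nat.cast_succ j]
      linarith
  have pos : ∀ k ≤ N, ∀ y, 0 < UU N τ Lb L w (N - k) y := fun k hk y =>
    (exp_pos _).trans_le ((main (N - k) k (by omega)).2.1 y)
  refine ⟨fun k y => log (UU N τ Lb L w (N - k) y), fun k hk => ?_, fun k hk y => ?_,
    fun y σ => ?_⟩
  · obtain ⟨h1, h2, h3⟩ := main (N - k) k (by omega)
    refine ⟨h1.elip (pos k hk), fun y => (le_log_iff_exp_le (pos k hk y)).2 (h2 y), ?_⟩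
    simp only [exp_log (pos k hk _)]
    refine h3.trans (mul_le_mul_of_nonneg_right ?_ (exp_pos _).le)
    have : ((N - k : ℕ) : ℝ) ≤ N := by exact_mod_cast Nat.sub_le N k
    linarith
  · simp only [exp_log (pos (k + 1) hk _)]
    rw [exp_add, exp_log (pos k hk.le _)]
    have e : N - k = (N - (k + 1)) + 1 := by omega
    rw [e]
    simp only [UU]
    rw [add_mul, mul_right_comm, ← exp_add (-(n * τ / 2)), neg_add_cancel, exp_zero, one_mul]
    exact le_add_of_nonneg_left (by positivity)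
  · rw [exp_log (pos N le_rfl y), Nat.sub_self]
    simp only [UU]
    refine le_trans ?_ (le_add_of_nonneg_left (exp_pos _).le)
    refine mul_le_mul_of_nonneg_left ?_ (exp_pos _).le
    exact Finset.single_le_sum (f := fun x => tilt w y x)
      (fun x _ => mul_nonneg (hw x) (exp_pos _).le) (Finset.mem_univ σ)

end Crest.Agent.T157.Up

end
private theorem rz_b036ed893d : type_of% @_root_.Crest.Agent.T157.Up.F65.UU.eq_def := @_root_.Crest.Agent.T157.Up.F65.UU.eq_def -- L126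
private theorem rz_c821b1d5d2 : type_of% @_root_.Crest.Agent.T157.Up.F65.UU.eq_1 := @_root_.Crest.Agent.T157.Up.F65.UU.eq_1 -- L126
end

-- ▼ part T157/Up_74

/-!
# Row 157, part D (helper74): the top of the upper half
-/

set_option autoImplicit false

noncomputable section

namespace Crest.Agent.T157.Up

open MeasureTheory Matrix Set Filter Topology
open Crest.ProbabilityR.SpinGlassDynamics
open Crest.Agent.T157.E Crest.Agent.T157.Eig Crest.Agent.T157.St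
open Crest.Agent.T157.Sc Crest.Agent.T157.Top Crest.Agent.T157.Pf Crest.Agent.T157.Cond
open Crest.Agent.T157.Cut Crest.Agent.T157.An

lemma exists_data {β : ℝ} (hβ : 1 < β) (hP : ParStmt) (hS : SiteStmt) :
    ∃ C c0 C0 : ℝ, 1 ≤ C ∧ 0 < c0 ∧ c0 ≤ 1 ∧ 1 ≤ C0 ∧
      ∃ (P : ℕ → Par) (S : ∀ n, Site β C (P n).b), Data β C c0 C0 P S := by
  obtain ⟨c0, C0, h1, h2, h3, K0, hP⟩ := hP β hβ
  obtain ⟨C, hC, hS⟩ := hS β hβ
  choose P hP using fun n : ℕ => hP (max K0 (n ^ 16)) (le_max_left _ _)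
  choose S hS using fun n : ℕ => hS (P n) (hP n).2.1
  refine ⟨C, c0, C0, hC, h1, h2, h3, P, S, ?_⟩
  filter_upwards [eventually_ge_atTop K0, eventually_gt_atTop 0,
    tendsto_natCast_atTop_atTop.eventually_ge_atTop C0] with n a1 a2 a3
  have hn : (0 : ℝ) < n := by exact_mod_cast a2
  have e : max K0 (n ^ 16) = n ^ 16 := max_eq_right (a1.trans (Nat.le_self_pow (by norm_num) n))
  obtain ⟨b1, b2, b3⟩ := hP n
  rw [e] at b1 b3
  refine ⟨b1, b2, good_mono b3 (by linarith) ?_, hS n⟩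
  have e2 : ((n ^ 16 : ℕ) : ℝ) ^ (-(1 / 8 : ℝ)) = ((n : ℝ) * n)⁻¹ := by
    rw [Nat.cast_pow, ← Real.rpow_natCast, ← Real.rpow_mul hn.le, ← sq, ← Real.rpow_natCast,
      ← Real.rpow_neg hn.le]
    norm_num
  rw [e2, ← div_eq_mul_inv, div_le_div_iff₀ (by positivity) hn]
  nlinarith

lemma tail_mono {C u N : ℝ} (hC : 0 < C) (u0 : 0 < u) (u1 : u ≤ 1) (hN : 0 ≤ N) :
    C / (u ^ 42) ^ 5 * Real.exp (-(N * (u ^ 42) ^ 4 / C)) ≤
      C / (u ^ 1400) ^ 5 * Real.exp (-(N * (u ^ 1400) ^ 4 / C)) := by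
  have h : u ^ 1400 ≤ u ^ 42 := pow_le_pow_of_le_one u0.le u1 (by norm_num)
  have h0 : 0 < u ^ 1400 := pow_pos u0 _
  generalize u ^ 1400 = a at h h0
  generalize u ^ 42 = b at h
  gcongr

theorem upGlue : UpGlue := by
  intro hPar hSite h1 h2 hCont hSeg hEnd hSc hRmt hFe hGam hAnc β hβ
  have hβ0 : 0 < β := by linarith
  obtain ⟨C, c0, C0, hC, hc0, hc01, hC0, P, S, hD⟩ := exists_data hβ hPar hSite
  obtain ⟨d, hd1, hd2, hAnc⟩ := hAnc β C c0 C0 hβ hC hc0 hc01 hC0 P S hD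
  have hCA : 1 ≤ 3 * β := by linarith
  obtain ⟨C1, hC1, h1⟩ := h1 β C _ hβ.le hC hCA
  obtain ⟨C2, hC2, h2⟩ := h2 β C _ hβ.le hC hCA
  obtain ⟨C3, hC3, hSeg⟩ := hSeg β C _ hβ.le hC hCA
  obtain ⟨C4, hC4, hEnd⟩ := hEnd β C _ hβ.le hC hCA
  obtain ⟨c, Cs, hc, hc1, hCs, hSc⟩ := hSc β C c0 C0 hβ.le hC hc0.le
  refine ⟨4 / 10000000, by norm_num, d, hd1, ?_, fun δ hδ => ?_⟩
  · filter_upwards [hd2] with n hn
    rw [eps_pow, pw] at hn
    refine hn.trans (le_of_eq ?_)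
    congr 1; norm_num
  have hn1 : ∀ {n : ℕ}, 0 < n → ∀ k : ℕ, k ≤ 10000000 → 1 / (n : ℝ) ≤ eps n ^ k := fun hn k hk => by
    rw [← pw_one]
    refine pw_le hn k ?_
    rw [div_le_one (by norm_num)]
    exact_mod_cast hk
  have hsc : ∀ᶠ n : ℕ in atTop,
      goe (Fin n) (1 / √n) {W | opn W ≤ 3 ∧ ¬ SC1 (S n) (β • W) c (Cs * (eps n ^ 42) ^ 2)} ≤
        ENNReal.ofReal (Cs / (eps n ^ 1400) ^ 5 * Real.exp (-(n * (eps n ^ 1400) ^ 4 / Cs))) ∧
      ∀ t : ℝ, 0 ≤ t → goe (Fin n) (1 / √n) {W | opn W ≤ 3 ∧ ¬ SC2 (S n) ((P n).Gam β) (β • W) c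
        (Cs * (1 + t) * (eps n ^ 42) ^ 2) ((eps n ^ 42) ^ 4) t} ≤
        ENNReal.ofReal (Cs / (eps n ^ 1400) ^ 5 * Real.exp (-(n * (eps n ^ 1400) ^ 4 / Cs))) := by
    filter_upwards [hD, eventually_gt_atTop 0, ev_eps 2] with n h hn u2
    have u0 := eps_pos hn
    have a0 := hn1 hn (42 * 4) (by norm_num)
    rw [div_le_iff₀ (by exact_mod_cast hn), mul_comm, pow_mul] at a0
    have a1 := hSc (P n) (eps n ^ 42) h.2.1 (good_mono h.2.2.1 (by linarith)
      (by rw [← pow_mul]; exact hn1 hn _ (by norm_num))) (S n) h.2.2.2 (pow_pos u0 _)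
      ((pow_le_of_le_one u0.le (by linarith) (by norm_num)).trans (by linarith)) n a0
    have a2 := ENNReal.ofReal_le_ofReal
      (tail_mono (by linarith : 0 < Cs) u0 (by linarith) (Nat.cast_nonneg n))
    exact ⟨a1.1.trans a2, fun t ht => (a1.2 t ht).trans a2⟩
  have E1 : Whp Om fun n z => SC1 (S n) (β • Wmat n z.1 z.2) c (Cs * (eps n ^ 42) ^ 2) := by
    refine whp_goe (Q := fun n W => SC1 (S n) (β • W) c (Cs * (eps n ^ 42) ^ 2))
      (tendsto_union (by linarith : 0 < Cs)) ?_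
    filter_upwards [hsc, eventually_gt_atTop 0] with n h hn
    have u0 := eps_pos hn
    exact h.1.trans (ENNReal.ofReal_le_ofReal (le_mul_of_one_le_left (by positivity)
      (le_add_of_nonneg_left (Nat.cast_nonneg _))))
  have E2 : Whp Om fun n z => ∀ j ≤ NN n, SC2 (S n) ((P n).Gam β) (β • Wmat n z.1 z.2) c
      (Cs * (1 + j * tau n) * (eps n ^ 42) ^ 2) ((eps n ^ 42) ^ 4) (j * tau n) := by
    refine whp_goe (Q := fun n W => ∀ j ≤ NN n, SC2 (S n) ((P n).Gam β) (β • W) c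
      (Cs * (1 + j * tau n) * (eps n ^ 42) ^ 2) ((eps n ^ 42) ^ 4) (j * tau n))
      (tendsto_union (by linarith : 0 < Cs)) ?_
    filter_upwards [hsc, eventually_gt_atTop 0] with n h hn
    have u0 := eps_pos hn
    refine le_trans (measure_mono (t := ⋃ j ∈ Finset.range (NN n + 1), {W | opn W ≤ 3 ∧
      ¬ SC2 (S n) ((P n).Gam β) (β • W) c (Cs * (1 + j * tau n) * (eps n ^ 42) ^ 2)
        ((eps n ^ 42) ^ 4) (j * tau n)}) fun W hW => ?_) ?_
    · obtain ⟨a2, a3⟩ := hW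
      push Not at a3
      obtain ⟨j, hj, a4⟩ := a3
      exact mem_iUnion₂.2 ⟨j, Finset.mem_range.2 (by omega), a2, a4⟩
    refine (measure_biUnion_finset_le _ _).trans ((Finset.sum_le_sum fun (j : ℕ) _ =>
      h.2 (j * tau n) (mul_nonneg (Nat.cast_nonneg _) (pow_pos u0 _).le)).trans (le_of_eq ?_))
    rw [Finset.sum_const, Finset.card_range, nsmul_eq_mul, ← Nat.cast_succ,
      ENNReal.ofReal_mul (Nat.cast_nonneg _), ENNReal.ofReal_natCast]
  have main : Whp Om fun n z =>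
      ¬ ∃ B, Cut1 β (d n) δ (Real.exp (-(n : ℝ) ^ (1 - 4 / 10000000 : ℝ))) z.1 B := by
    refine ((((((whp_opn.and (hRmt β hβ 126 (by norm_num) le_rfl)).and
      (hRmt β hβ 42 (by norm_num) (by norm_num))).and E1).and E2).and
      (hFe β hβ P (hD.mono fun n h => h.2.1))).and (hAnc δ hδ)).mono ?_
    filter_upwards [hD, eventually_gt_atTop 0, ev_eps (100 + 30 * C1 + 30 * C2 + 30 * C3 + 30 * C4 +
      10 * Cs + 50 * (3 * β) + (1 + (C1 + C2) / c) * (5 + Cs) +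
      9 * Real.exp (2 * ((C1 + C2) / c)) + C1 ^ 2 / c + C2 ^ 2 / c + 6 / c0 +
      2 * C2 * (C2 + 2) / c0 ^ 2 + 2 ^ 16 * (Nat.factorial 16)), ev_eps 1, ev_eps C1, ev_eps C2,
      tendsto_natCast_atTop_atTop.eventually_ge_atTop (1622016 : ℝ)] with n h hn hK u1 k1 k2 hn2 z hz
    rintro ⟨B, b1, b2⟩
    obtain ⟨⟨⟨⟨⟨⟨z1, z2⟩, z3⟩, z4⟩, z5⟩, z6⟩, z7⟩ := hz
    obtain ⟨-, hOK, hGd, hR⟩ := h
    have hn' : (0 : ℝ) < n := by exact_mod_cast hn
    have u0 := eps_pos hn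
    rw [one_mul] at u1
    obtain ⟨t1, t2, t3⟩ := NN_tau hn u1
    have hP : (S n).P = (P n).val β := by rw [Site.P, hR.1, hR.2.2.2]; rfl
    have τ0 : 0 < tau n := pow_pos u0 _
    have opA : opn (β • Wmat n z.1 z.2) ≤ 3 * β := by
      rw [opn_smul, abs_of_pos hβ0, mul_comm]; exact mul_le_mul_of_nonneg_right z1 hβ0.le
    have her : (β • Wmat n z.1 z.2).IsHermitian := herm_smul (Wmat_isHermitian _ _) β
    have pw1 : ∀ {C' : ℝ} (k : ℕ), 1 ≤ C' → C' * eps n ≤ 1 → C' * eps n ^ (k + 1) ≤ 1 :=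
      fun k a1 a2 => (mul_le_mul_of_nonneg_left (pow_le_of_le_one u0.le u1 k.succ_ne_zero)
        (by linarith)).trans a2
    have H1 : Hyp β (3 * β) C1 (β • Wmat n z.1 z.2) (eps n ^ 126) (tau n) :=
      ⟨hn, her, opA, pow_pos u0 _, pw1 125 hC1 k1, τ0, by rw [← pow_mul]; exact le_rfl, z2⟩
    have H2 : Hyp β (3 * β) C2 (β • Wmat n z.1 z.2) (eps n ^ 42) (tau n) :=
      ⟨hn, her, opA, pow_pos u0 _, pw1 41 hC2 k2, τ0, by
        rw [← pow_mul]; exact pow_le_pow_of_le_one u0.le u1 (by norm_num), z3⟩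
    obtain ⟨-, c1, -, c2, c3, -, -⟩ := hCont n β C _ (S n) _ (eps n ^ 126) (tau n) hn hβ.le hC her
      (pow_pos u0 _)
    obtain ⟨-, -, -, -, -, c4, c5⟩ := hCont n β C _ (S n) _ (eps n ^ 42) (tau n) hn hβ.le hC her
      (pow_pos u0 _)
    refine det famStmt (x := (n : ℝ) ^ (1 / 4 : ℝ)) (B := B) hn hC1 hC2 hC3 hC4 hCs hCA hc hc1 hc0
      hGd.b_ge hGd.b_le le_rfl u0 hK rfl t1 t2 t3 ?_ ?_ hn2 opA (h1 n _ (S n) _ _ _ H1)
      (h2 n _ (S n) _ _ _ H2) (fun m hm m' hm' t ht => (hSeg n _ (S n) _ hn opA m hm m' hm' t ht).2.1)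
      (hEnd n _ (S n) _ hn opA) c1 c2 c3 c4 c5 z4 z5
      (fun s hs => hGam β (P n) hβ0 hOK s hs _ (by positivity)) (hP ▸ z6) ?_ fun F hF =>
      ⟨z7 B (b1.trans (measure_mono fun g hg => hg.1)) F hF,
        z7 Bᶜ (b1.trans (measure_mono fun g hg => hg.2)) F hF⟩
    · have a := pw_le hn (a := 1 / 4) 6000 (by norm_num)
      rwa [pw, Real.rpow_neg hn'.le, inv_le_iff_one_le_mul₀' (by positivity)] at a
    · rw [← Real.rpow_natCast, ← Real.rpow_mul hn'.le]; norm_num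
    · have e : (n : ℝ) * eps n ^ 4 = (n : ℝ) ^ (1 - 4 / 10000000 : ℝ) := by
        rw [eps_pow, pw, sub_eq_add_neg, Real.rpow_add hn', Real.rpow_one]; norm_num
      rw [e]
      refine le_trans (le_of_eq ?_) b2
      rw [mass, mass, prob_W]
  have := Whp.of_prod_fst (μ := disorderLaw) (ν := fun n => E.gv (Fin n))
    (P := fun n g => ¬ ∃ B, Cut1 β (d n) δ (Real.exp (-(n : ℝ) ^ (1 - 4 / 10000000 : ℝ))) g B) main
  simpa only [Whp, not_not] using this

end Crest.Agent.T157.Up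

end
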