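import Crest.Agent.T157.ConcH_16

/-!
# Row 157, part E (helper16): Hanson-Wright with diagonal, chi-square, tails, complex forms
-/

set_option autoImplicit false

noncomputable section

namespace Crest.Agent.T157.Conc

open MeasureTheory ProbabilityTheory Set Matrix
open scoped ENNReal NNReal

section one
variable {ν : Measure ℝ} [IsProbabilityMeasure ν]

lemma poly_le_cosh (x : ℝ) : 1 + x ^ 2 / 2 + x ^ 4 / 24 ≤ (Real.exp x + Real.exp (-x)) / 2 := by
  have h := sum_le_hasSum (Finset.range 3) (fun i _ => by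
    have : 0 ≤ x ^ (2 * i) := by rw [pow_mul]; positivity
    positivity) (Real.hasSum_cosh x)
  rw [Real.cosh_eq] at h
  simp only [Finset.sum_range_succ, Finset.sum_range_zero, Nat.factorial] at h
  norm_num at h
  linarith

omit [IsProbabilityMeasure ν] in
lemma subG_integrable_pow (h : HasSubgaussianMGF (fun x : ℝ => x) 1 ν) (p : ℕ) :
    Integrable (fun x : ℝ => x ^ p) ν := by
  refine ((SubE.of_subG h 1).integrable_pow one_pos p).mono' (by fun_prop)
    (ae_of_all _ fun x => ?_)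
  rw [Real.norm_eq_abs, abs_pow]

lemma fourth_le (h : HasSubgaussianMGF (fun x : ℝ => x) 1 ν) (h2 : ∫ x, x ^ 2 ∂ν = 1) :
    ∫ x, x ^ 4 ∂ν ≤ 4 := by
  have i2 := subG_integrable_pow h 2
  have i4 := subG_integrable_pow h 4
  have a1 := h.integrable_exp_mul 1
  have a2 := h.integrable_exp_mul (-1)
  have b1 := h.mgf_le 1
  have b2 := h.mgf_le (-1)
  simp only [mgf, one_mul, neg_mul, NNReal.coe_one, one_pow, neg_sq] at a1 a2 b1 b2
  have c1 : Integrable (fun x : ℝ => 1 + x ^ 2 / 2) ν := (integrable_const _).add (i2.div_const _)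
  have c2 : Integrable (fun x : ℝ => 1 + x ^ 2 / 2 + x ^ 4 / 24) ν := c1.add (i4.div_const _)
  have c3 : Integrable (fun x : ℝ => Real.exp x + Real.exp (-x)) ν := a1.add a2
  have h3 := integral_mono c2 (c3.div_const 2) poly_le_cosh
  rw [integral_add c1 (i4.div_const _), integral_add (integrable_const _) (i2.div_const _),
    integral_div, integral_div, integral_div, integral_add a1 a2, h2] at h3
  simp only [integral_const, probReal_univ, smul_eq_mul, mul_one] at h3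
  have h4 : Real.exp (1 / 2) ≤ 5 / 3 := by
    refine (abs_le_of_sq_le_sq' ?_ (by norm_num)).2
    rw [← Real.exp_nat_mul]
    norm_num
    linarith [Real.exp_one_lt_d9]
  linarith

lemma exp_neg_le_quad {u : ℝ} (hu : 0 ≤ u) : Real.exp (-u) ≤ 1 - u + u ^ 2 / 2 := by
  rw [Real.exp_neg, inv_le_iff_one_le_mul₀ (Real.exp_pos _)]
  have h1 := Real.quadratic_le_exp_of_nonneg hu
  have h2 : 0 ≤ 1 - u + u ^ 2 / 2 := by nlinarith [sq_nonneg (u - 1)]
  refine le_trans ?_ (mul_le_mul_of_nonneg_left h1 h2)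
  nlinarith [sq_nonneg (u ^ 2)]

lemma lint_sq_pos (h : HasSubgaussianMGF (fun x : ℝ => x) 1 ν) {s : ℝ} (h0 : 0 ≤ s)
    (hs : s ≤ 1 / 4) : ∫⁻ x, ex (s * x ^ 2) ∂ν ≤ ex (s + 2 * s ^ 2) := by
  set r := Real.sqrt (2 * s)
  have hr : r ^ 2 = 2 * s := Real.sq_sqrt (by linarith)
  have e1 : ∀ x, ex (s * x ^ 2) = ∫⁻ y, ex (r * x * y) ∂gaussianReal 0 1 := fun x => by
    rw [lintegral_ex (integrable_exp_mul_gaussianReal _), int_exp_gauss, mul_pow, hr]
    simp only [ex]; congr 2; ring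
  simp only [e1]
  rw [lintegral_lintegral_swap (f := fun (x y : ℝ) => ex (r * x * y))
    (Measurable.aemeasurable (by unfold Function.uncurry; fun_prop))]
  refine le_trans (lintegral_mono fun y => ?_) (lint_sq_gauss (by rwa [abs_of_nonneg h0]))
  have := subG_lint h (r * y)
  simp only [mul_right_comm r _ y]
  refine this.trans (le_of_eq ?_)
  rw [mul_pow, hr]; congr 1; simp; ring

lemma lint_sq (h : HasSubgaussianMGF (fun x : ℝ => x) 1 ν) (h2 : ∫ x, x ^ 2 ∂ν = 1) {s : ℝ}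
    (hs : |s| ≤ 1 / 4) : ∫⁻ x, ex (s * x ^ 2) ∂ν ≤ ex (s + 2 * s ^ 2) := by
  rcases le_total 0 s with h0 | h0
  · exact lint_sq_pos h h0 ((le_abs_self _).trans hs)
  have i2 := subG_integrable_pow h 2
  have i4 := subG_integrable_pow h 4
  have hi : Integrable (fun x : ℝ => Real.exp (s * x ^ 2)) ν := by
    refine (integrable_const (1:ℝ)).mono' (by fun_prop) (ae_of_all _ fun x => ?_)
    rw [Real.norm_eq_abs, abs_of_pos (Real.exp_pos _), Real.exp_le_one_iff]
    exact mul_nonpos_of_nonpos_of_nonneg h0 (sq_nonneg _)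
  refine lint_ex_le_of_integral hi ?_
  have c1 : Integrable (fun x : ℝ => 1 + s * x ^ 2) ν := (integrable_const _).add (i2.const_mul _)
  have c2 : Integrable (fun x : ℝ => 1 + s * x ^ 2 + s ^ 2 / 2 * x ^ 4) ν := c1.add (i4.const_mul _)
  have h3 := integral_mono hi c2 fun x => by
    have := exp_neg_le_quad (u := -(s * x ^ 2))
      (neg_nonneg.2 (mul_nonpos_of_nonpos_of_nonneg h0 (sq_nonneg _)))
    rw [neg_neg] at this
    refine this.trans (le_of_eq ?_)
    ring
  rw [integral_add c1 (i4.const_mul _), integral_add (integrable_const _) (i2.const_mul _),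
    integral_const_mul, integral_const_mul, h2] at h3
  simp only [integral_const, probReal_univ, smul_eq_mul, mul_one] at h3
  have h4 := mul_le_mul_of_nonneg_left (fourth_le h h2) (by positivity : 0 ≤ s ^ 2 / 2)
  have h5 := Real.add_one_le_exp (s + 2 * s ^ 2)
  linarith

lemma subE_sq (h : HasSubgaussianMGF (fun x : ℝ => x) 1 ν) (h2 : ∫ x, x ^ 2 ∂ν = 1) :
    SubE (fun x : ℝ => x ^ 2 - 1) 2 (1 / 4) ν := by
  refine ⟨by fun_prop, fun t ht => ?_⟩
  have e : ∀ x : ℝ, ex (t * (x ^ 2 - 1)) = ex (-t) * ex (t * x ^ 2) := fun x => by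
    rw [← ex_add]; congr 1; ring
  simp only [e]
  rw [lintegral_const_mul' _ _ (ex_ne_top _)]
  refine (mul_le_mul_right (lint_sq h h2 ht) _).trans (le_of_eq ?_)
  rw [← ex_add]; congr 1; ring

end one

variable {ι κ : Type*} [Fintype ι] [Fintype κ]
  {ν : ι → Measure ℝ} [∀ i, IsProbabilityMeasure (ν i)]

/-- weighted chi-square sums -/
theorem subE_chi (hν : SG1 ν) (h2 : ∀ i, ∫ x, x ^ 2 ∂ν i = 1) {a : ι → ℝ} {K : ℝ} (hK : 0 < K)
    (ha : ∀ i, |a i| ≤ K) :
    SubE (fun x : ι → ℝ => ∑ i, a i * (x i ^ 2 - 1)) (2 * ∑ i, a i ^ 2) (1 / (4 * K))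
      (Measure.pi ν) := by
  rw [Finset.mul_sum]
  refine subE_sum (X := fun i x => a i * (x ^ 2 - 1)) fun i => ⟨by fun_prop, fun t ht => ?_⟩
  have h1 : |t * a i| ≤ 1 / 4 := by
    rw [abs_mul]
    rw [le_div_iff₀ (by positivity)] at ht
    nlinarith [mul_le_mul_of_nonneg_left (ha i) (abs_nonneg t)]
  have := (subE_sq (hν i) (h2 i)).2 _ h1
  simp only [← mul_assoc]
  refine this.trans (le_of_eq ?_)
  congr 1; ring

/-- **Hanson-Wright inequality** (entries of variance one) -/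
theorem subE_quad (hν : SG1 ν) (h2 : ∀ i, ∫ x, x ^ 2 ∂ν i = 1) {A : Matrix ι ι ℝ} {K : ℝ}
    (hK : 0 < K) (hA : OpB K A) :
    SubE (fun x => x ⬝ᵥ A *ᵥ x - A.trace) (64 * fro A) (1 / (16 * K)) (Measure.pi ν) := by
  classical
  have h1 := subE_offdiag hν hK hA
  have h3 := (subE_chi hν h2 hK (a := fun i => A i i) fun i => hA.entry i i).mono
    (v' := 16 * fro A) (b' := 1 / (8 * K)) (by
      have : ∑ i, A i i ^ 2 ≤ fro A := Finset.sum_le_sum fun i _ =>
        Finset.single_le_sum (f := fun j => A i j ^ 2) (fun _ _ => sq_nonneg _) (Finset.mem_univ i)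
      linarith [fro_nonneg A]) (one_div_le_one_div_of_le (by positivity) (by linarith))
  have h4 := h1.add h3
  have e : (fun x => x ⬝ᵥ A *ᵥ x - A.trace) =
      fun x : ι → ℝ => offd A x + ∑ i, A i i * (x i ^ 2 - 1) := by
    ext x
    simp only [offd_eq, mul_sub, Finset.sum_sub_distrib, mul_one, Matrix.trace, Matrix.diag]
    ring
  rw [e]
  refine h4.mono (le_of_eq (by ring)) (le_of_eq ?_)
  field_simp; norm_num

/-- Hanson-Wright tail; `F` is any bound of the squared Frobenius norm -/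
theorem hw_tail (hν : SG1 ν) (h2 : ∀ i, ∫ x, x ^ 2 ∂ν i = 1) {A : Matrix ι ι ℝ} {K F : ℝ}
    (hK : 0 < K) (hA : OpB K A) (hF0 : 0 < F) (hF : fro A ≤ F) {u : ℝ} (hu : 0 ≤ u) :
    (Measure.pi ν).real {x | u ≤ |x ⬝ᵥ A *ᵥ x - A.trace|} ≤
      2 * Real.exp (-min (u ^ 2 / (256 * F)) (u / (32 * K))) := by
  have := ((subE_quad hν h2 hK hA).mono (v' := 64 * F) (by linarith) le_rfl).tail_abs
    (by positivity) (by positivity) hu
  rwa [show 4 * (64 * F) = 256 * F by ring,
    show 1 / (16 * K) * u / 2 = u / (32 * K) by field_simp; ring] at this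

/-- Hanson-Wright tail with the Frobenius norm only: deviation `u √F` -/
theorem hw_tail_fro (hν : SG1 ν) (h2 : ∀ i, ∫ x, x ^ 2 ∂ν i = 1) {A : Matrix ι ι ℝ} {F : ℝ}
    (hF0 : 0 < F) (hF : fro A ≤ F) {u : ℝ} (hu : 8 ≤ u) :
    (Measure.pi ν).real {x | u * Real.sqrt F ≤ |x ⬝ᵥ A *ᵥ x - A.trace|} ≤
      2 * Real.exp (-(u / 32)) := by
  have hs : 0 < Real.sqrt F := Real.sqrt_pos.2 hF0
  refine (hw_tail hν h2 hs ((opB_fro A).mono (Real.sqrt_le_sqrt hF)) hF0 hF
    (by positivity)).trans ?_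
  gcongr
  rw [mul_pow, Real.sq_sqrt hF0.le, show u ^ 2 * F / (256 * F) = u ^ 2 / 256 by field_simp,
    show u * Real.sqrt F / (32 * Real.sqrt F) = u / 32 by field_simp]
  exact le_min (by nlinarith) le_rfl

/-- chi-square: `| |x|² - card | ≥ u` -/
theorem chi_tail (hν : SG1 ν) (h2 : ∀ i, ∫ x, x ^ 2 ∂ν i = 1) {N : ℝ} (hN0 : 0 < N)
    (hN : (Fintype.card ι : ℝ) ≤ N) {u : ℝ} (hu : 0 ≤ u) :
    (Measure.pi ν).real {x | u ≤ |∑ i, x i ^ 2 - Fintype.card ι|} ≤
      2 * Real.exp (-min (u ^ 2 / (8 * N)) (u / 8)) := by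
  have := ((subE_chi hν h2 one_pos (a := fun _ => 1) fun i => by simp).mono (v' := 2 * N)
    (by simpa using hN) le_rfl).tail_abs (by positivity) (by positivity) hu
  simp only [one_mul, Finset.sum_sub_distrib, Finset.sum_const, Finset.card_univ, nsmul_eq_mul,
    mul_one] at this
  rwa [show 4 * (2 * N) = 8 * N by ring, show 1 / 4 * u / 2 = u / 8 by ring] at this

/-- upper tail of `|Bx|²` -/
theorem normsq_tail (hν : SG1 ν) {B : Matrix κ ι ℝ} {K : ℝ} (hK : 0 < K) (hB : OpB K B) (u : ℝ) :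
    (Measure.pi ν).real {x | 2 * fro B + u ≤ en (B *ᵥ x) ^ 2} ≤ Real.exp (-(u / (4 * K ^ 2))) := by
  have hc := hB.elip.continuous
  have h1 := normsq_lint hν hK.le hB (t := 1 / (4 * K ^ 2)) (by positivity)
    (le_of_eq (by field_simp))
  refine (real_le_of_le_ex (chernoff (X := fun x => en (B *ᵥ x) ^ 2) (by fun_prop) (by positivity)
    h1 _)).trans (le_of_eq ?_)
  congr 1; ring

/-- linear forms: two-sided tail -/
theorem lin_tail (hν : SG1 ν) (a : ι → ℝ) {c : ℝ} (hc : ∑ i, a i ^ 2 ≤ c) {u : ℝ} (hu : 0 ≤ u) :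
    (Measure.pi ν).real {x | u ≤ |a ⬝ᵥ x|} ≤ 2 * Real.exp (-u ^ 2 / (2 * c)) :=
  subG_abs (subG_lin hν a
    (c := NNReal.mk c ((Finset.sum_nonneg fun _ _ => sq_nonneg _).trans hc)) hc) hu


end Crest.Agent.T157.Conc
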