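import Crest.Agent.T157.TapDef_29
import Crest.Agent.T157.ConcHW_16
import Crest.Agent.T157.LpG0_17
import Crest.Agent.T157.TapSE_6

-- ▼ part T157/TapFroz_10
section

/-!
# Row 157, part A: the frozen regime (helper10)

One application of the window lemma with the Hubbard-Stratonovich driver `Qᵀ Q = θ W + 3`.
-/

set_option autoImplicit false

noncomputable section

namespace Crest.Agent.T157.Tap

open MeasureTheory ProbabilityTheory Matrix Filter Set
open Crest.ProbabilityR.SpinGlassDynamics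
open Crest.Agent.T157.E Crest.Agent.T157.Eig

namespace Froz10

variable {n : ℕ}

theorem gv_normsq_tail (n : ℕ) :
    (gv (Fin n)).real {g | 10 * (n : ℝ) ≤ g ⬝ᵥ g} ≤ Real.exp (-(2 * n)) := by
  have h := Conc.normsq_tail (ι := Fin n) Conc.sg1_gauss (B := (1 : Mx n)) one_pos
    (fun y => by simp) (8 * n)
  have e1 : Conc.fro (1 : Mx n) = n := by simp [Conc.fro, one_apply]
  have e2 : -(8 * (n : ℝ) / (4 * 1 ^ 2)) = -(2 * n) := by ring
  rw [e1, e2] at h
  refine le_trans (le_of_eq ?_) h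
  congr 1
  ext g
  simp only [mem_ofPred_eq, one_mulVec, Conc.en_sq]
  simp only [dotProduct, sq]
  constructor <;> intro <;> linarith

theorem dot_add_le (u v : V n) : (u + v) ⬝ᵥ (u + v) ≤ 2 * (u ⬝ᵥ u) + 2 * (v ⬝ᵥ v) := by
  simp only [dotProduct, Pi.add_apply, Finset.mul_sum, ← Finset.sum_add_distrib]
  exact Finset.sum_le_sum fun i _ => by nlinarith [sq_nonneg (u i - v i)]

theorem exit_le {φ : Cube n → V n} (hφ : ∀ σ, φ σ ⬝ᵥ φ σ ≤ 6 * n) {w : Cube n → ℝ} (hw : SL.Wt w)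
    {t : ℝ} (ht : t ∈ Icc (0 : ℝ) 1) :
    (SL.law φ w t).real {z | (8 * Real.sqrt n) ^ 2 ≤ 2 * (z ⬝ᵥ z)} ≤ Real.exp (-(2 * n)) := by
  have hA : MeasurableSet {z : V n | (8 * Real.sqrt n) ^ 2 ≤ 2 * (z ⬝ᵥ z)} :=
    measurableSet_le measurable_const (by unfold dotProduct; fun_prop)
  rw [SL.law_real hw hA]
  refine hw.mean_le fun σ => ?_
  rw [SL.px, map_measureReal_apply (by fun_prop) hA]
  refine le_trans (measureReal_mono fun g hg => ?_) (gv_normsq_tail n)
  simp only [mem_preimage, mem_ofPred_eq] at hg ⊢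
  have h1 := dot_add_le (t • φ σ) (Real.sqrt t • g)
  simp only [smul_dotProduct, dotProduct_smul, smul_eq_mul] at h1
  rw [← mul_assoc (Real.sqrt t), Real.mul_self_sqrt ht.1] at h1
  rw [mul_pow, Real.sq_sqrt (Nat.cast_nonneg n)] at hg
  simp only [add_dotProduct, dotProduct_add, smul_dotProduct, dotProduct_smul, smul_eq_mul] at hg h1
  have h2 := dot_self_nonneg g
  have h3 := dot_self_nonneg (φ σ)
  have h4 : t * (t * (φ σ ⬝ᵥ φ σ)) ≤ 6 * n := by
    have : t * t ≤ 1 := mul_le_one₀ ht.2 ht.1 ht.2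
    nlinarith [hφ σ]
  have h5 : t * (g ⬝ᵥ g) ≤ g ⬝ᵥ g := mul_le_of_le_one_left h2 ht.2
  linarith

theorem sum_prod_cube (F : Fin n → Bool → ℝ) :
    ∑ y : Cube n, ∏ i, F i (y i) = ∏ i, (F i true + F i false) := by
  have := Finset.prod_univ_sum (fun _ : Fin n => (Finset.univ : Finset Bool)) F
  rw [Fintype.piFinset_univ] at this
  rw [← this]
  exact Finset.prod_congr rfl fun i _ => by simp

theorem mag_ising_zero (y : V n) : mag (ising 0 y) = th y := by
  funext i
  have e : ∀ x : Cube n, ising 0 y x = ∏ j, Real.exp (y j * spin (x j)) := fun x => by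
    simp [ising, dotProduct, sv, Real.exp_sum]
  have e1 : ∀ x : Cube n, (∏ j, Real.exp (y j * spin (x j))) * spin (x i) =
      ∏ j, (Real.exp (y j * spin (x j)) * if j = i then spin (x j) else 1) := fun x => by
    rw [Finset.prod_mul_distrib, Finset.prod_ite_eq']; simp
  simp only [mag, meanV, mean, prob, e, sv, div_mul_eq_mul_div, ← Finset.sum_div, e1]
  rw [sum_prod_cube fun j b => Real.exp (y j * spin b) * if j = i then spin b else 1,
    sum_prod_cube fun j b => Real.exp (y j * spin b), ← Finset.prod_div_distrib,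
    Finset.prod_eq_single i]
  · simp [spin, th, Real.tanh_eq_sinh_div_cosh, Real.sinh_eq, Real.cosh_eq, sub_eq_add_neg]
    field_simp
  · intro j _ hj
    simp only [hj, if_false, mul_one]
    exact div_self (by positivity)
  · simp

theorem abs_tanh_le (x : ℝ) : |Real.tanh x| ≤ 1 :=
  abs_le.2 ⟨(Real.neg_one_lt_tanh x).le, (Real.tanh_lt_one x).le⟩

theorem cb_th (x : V n) : Cb (th x) := fun i => abs_tanh_le (x i)

theorem one_sub_tanh_sq {T : ℝ} (hT : 0 < T) (x : ℝ) :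
    (Real.tanh x - 1) ^ 2 ≤ (4 + 16 * (x - T) ^ 2) / T ^ 2 := by
  have h0 := Real.tanh_lt_one x
  have h1 := Real.neg_one_lt_tanh x
  rw [le_div_iff₀ (by positivity)]
  rcases le_total (T / 2) x with h | h
  · have h2 : (1 - Real.tanh x) * T ≤ 2 := by
      have e : 1 - Real.tanh x = 2 / (Real.exp (2 * x) + 1) := by
        rw [Real.tanh_eq_sinh_div_cosh, Real.sinh_eq, Real.cosh_eq, two_mul, Real.exp_add,
          Real.exp_neg]
        field_simp
        ring
      have := Real.add_one_le_exp (2 * x)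
      rw [e, div_mul_eq_mul_div, div_le_iff₀ (by positivity)]
      linarith
    have h3 : 0 ≤ (1 - Real.tanh x) * T := mul_nonneg (by linarith) hT.le
    nlinarith [sq_nonneg (x - T)]
  · have h2 : T ^ 2 ≤ 4 * (x - T) ^ 2 := by nlinarith
    have h3 : (Real.tanh x - 1) ^ 2 ≤ 4 := by nlinarith
    nlinarith [mul_le_mul h3 h2 (sq_nonneg _) (by norm_num)]

theorem tanh_sub_spin_sq {T : ℝ} (hT : 0 < T) (x : ℝ) (b : Bool) :
    (Real.tanh x - spin b) ^ 2 ≤ (4 + 16 * (x - T * spin b) ^ 2) / T ^ 2 := by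
  cases b
  · have := one_sub_tanh_sq hT (-x)
    rw [Real.tanh_neg] at this
    simp only [spin, Bool.false_eq_true, if_false]
    convert this using 1 <;> ring
  · simpa [spin] using one_sub_tanh_sq hT x

theorem nrm_le_sqrt {p : V n} (hp : Cb p) : nrm p ≤ Real.sqrt n := by
  refine Real.sqrt_le_sqrt ?_
  refine (Finset.sum_le_card_nsmul _ _ 1 fun i _ => ?_).trans_eq (by simp)
  have := abs_le.1 (hp i)
  nlinarith

theorem DD_nonneg {p : V n} (hp : Cb p) (i : Fin n) : 0 ≤ DD p i := by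
  have := abs_le.1 (hp i)
  simp only [DD]; nlinarith

theorem avg_DD_nonneg {p : V n} (hp : Cb p) : 0 ≤ avg (DD p) :=
  div_nonneg (Finset.sum_nonneg fun i _ => DD_nonneg hp i) (Nat.cast_nonneg n)

theorem avg_DD_le (p : V n) : avg (DD p) ≤ 1 := by
  refine div_le_one_of_le₀ ?_ (Nat.cast_nonneg n)
  refine (Finset.sum_le_card_nsmul _ _ 1 fun i _ => ?_).trans_eq (by simp)
  simp only [DD]; nlinarith [sq_nonneg (p i)]

theorem dd_sq {p : V n} (hp : Cb p) : (fun i => dd p i ^ 2) = DD p :=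
  funext fun i => Real.sq_sqrt (DD_nonneg hp i)

theorem ub_dd (p : V n) : Ub (dd p) := fun i =>
  ⟨Real.sqrt_nonneg _, Real.sqrt_le_one.2 (by nlinarith [sq_nonneg (p i)])⟩

/-- every TAP solution is close to the field -/
theorem nrm_sub_le_of_sol {J : Mx n} {b : ℝ} (hJ : opn J ≤ 3) (hb : b ∈ Icc (0 : ℝ) 1) (x : V n) :
    nrm (x - Ymap J b x) ≤ 4 * Real.sqrt n := by
  have e : x - Ymap J b x = J *ᵥ th x - (b * avg (DD (th x))) • th x := by
    rw [Ymap]; abel
  have h1 := nrm_le_sqrt (cb_th x)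
  have h0 := nrm_nonneg (th x)
  have h2 := nrm_mulVec_le J (th x)
  have h3 : |b * avg (DD (th x))| ≤ 1 := by
    rw [abs_of_nonneg (mul_nonneg hb.1 (avg_DD_nonneg (cb_th x)))]
    exact mul_le_one₀ hb.2 (avg_DD_nonneg (cb_th x)) (avg_DD_le _)
  have h4 := nrm_sub_le (J *ᵥ th x) ((b * avg (DD (th x))) • th x)
  rw [nrm_smul] at h4
  rw [e]
  nlinarith [mul_le_mul_of_nonneg_right hJ h0, mul_le_mul_of_nonneg_right h3 h0]

theorem ball_of_near (hn : 0 < n) {r T : ℝ} (hr : 0 < r) (hT : 400 / r ≤ T) (σ : Cube n) {x : V n}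
    (hx : nrm (x - T • sv σ) ≤ (r / 8 * T + 45) * Real.sqrt n) :
    nrm (th x - sv σ) < r * Real.sqrt n := by
  have hn' : (0 : ℝ) < n := by exact_mod_cast hn
  have hT0 : 0 < T := lt_of_lt_of_le (by positivity) hT
  have hrT : 400 ≤ r * T := by rwa [div_le_iff₀' hr] at hT
  rw [nrm_le_iff (by positivity), mul_pow, Real.sq_sqrt hn'.le] at hx
  refine lt_of_pow_lt_pow_left₀ 2 (by positivity) ?_
  rw [nrm_sq, mul_pow, Real.sq_sqrt hn'.le]
  have h1 : (th x - sv σ) ⬝ᵥ (th x - sv σ) ≤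
      (4 * n + 16 * ((x - T • sv σ) ⬝ᵥ (x - T • sv σ))) / T ^ 2 := by
    refine (Finset.sum_le_sum fun i _ => ?_ : _ ≤ ∑ i, (4 + 16 * (x i - T * spin (σ i)) ^ 2) / T ^ 2).trans_eq ?_
    · rw [← sq]; exact tanh_sub_spin_sq hT0 (x i) (σ i)
    · rw [← Finset.sum_div, Finset.sum_add_distrib, ← Finset.mul_sum]
      simp [dotProduct, sv, sq, mul_comm]
  refine h1.trans_lt ?_
  rw [div_lt_iff₀ (by positivity)]
  have h2 : 4 + 16 * (r / 8 * T + 45) ^ 2 < r ^ 2 * T ^ 2 := by nlinarith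
  nlinarith [mul_lt_mul_of_pos_right h2 hn']

theorem avg_DD_ball (hn : 0 < n) {r : ℝ} (σ : Cube n) {p : V n} (hp : Cb p)
    (h : nrm (p - sv σ) ≤ r * Real.sqrt n) : avg (DD p) ≤ 2 * r := by
  have hn' : (0 : ℝ) < n := by exact_mod_cast hn
  have h1 : ∑ i, DD p i = -((p - sv σ) ⬝ᵥ (p + sv σ)) := by
    simp only [dotProduct, ← Finset.sum_neg_distrib, DD, Pi.sub_apply, Pi.add_apply, sv]
    exact Finset.sum_congr rfl fun i _ => by have := spin_sq (σ i); nlinarith
  have h2 := abs_dot_le (p - sv σ) (p + sv σ)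
  have h3 := nrm_add_le p (sv σ)
  have h4 := nrm_le_sqrt hp
  have h5 : nrm (sv σ) ≤ Real.sqrt n := nrm_le_sqrt fun i => (abs_spin _).le
  have h6 : nrm (p - sv σ) * nrm (p + sv σ) ≤ r * Real.sqrt n * (2 * Real.sqrt n) :=
    mul_le_mul h (by linarith) (nrm_nonneg _) ((nrm_nonneg _).trans h)
  have h7 : r * Real.sqrt n * (2 * Real.sqrt n) = 2 * r * n := by
    rw [show r * Real.sqrt n * (2 * Real.sqrt n) = 2 * r * (Real.sqrt n * Real.sqrt n) by ring,
      Real.mul_self_sqrt hn'.le]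
  rw [avg, div_le_iff₀ hn', h1]
  linarith [neg_abs_le ((p - sv σ) ⬝ᵥ (p + sv σ))]

theorem quad_NN (B : Mx n) (d u : V n) :
    u ⬝ᵥ NN B d *ᵥ u = u ⬝ᵥ u - (diagonal d *ᵥ u) ⬝ᵥ B *ᵥ (diagonal d *ᵥ u) := by
  rw [NN, sub_mulVec, one_mulVec, dotProduct_sub, ← mulVec_mulVec, ← mulVec_mulVec,
    dotProduct_mulVec u (diagonal d), ← mulVec_transpose, diagonal_transpose]

theorem good (hn : 0 < n) {W : Mx n} {ε r θ : ℝ} (hF : Frz W ε) (hrε : 2 * r ≤ ε)
    (hr : r ≤ 3 / 32) (hθ : θ ∈ Icc (0 : ℝ) 1) (σ : Cube n) :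
    GoodB (θ • W) (θ ^ 2) (1 / 2) (r * Real.sqrt n) (sv σ) := fun p hp h => by
  have hn' : (0 : ℝ) < n := by exact_mod_cast hn
  have ha := avg_DD_ball hn σ hp h
  have ha0 := avg_DD_nonneg hp
  have hθ2 : θ ^ 2 ≤ 1 := pow_le_one₀ hθ.1 hθ.2
  refine ⟨fun u => ?_, by nlinarith⟩
  have hu := dot_self_nonneg u
  set v := diagonal (dd p) *ᵥ u with hv
  have h1 : v ⬝ᵥ W *ᵥ v ≤ 1 / 8 * (u ⬝ᵥ u) := by
    have e : v ⬝ᵥ W *ᵥ v = u ⬝ᵥ (diagonal (dd p) * W * diagonal (dd p)) *ᵥ u := by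
      rw [← mulVec_mulVec, ← mulVec_mulVec, dotProduct_mulVec u (diagonal _), ← mulVec_transpose,
        diagonal_transpose]
    rw [e]
    exact ((le_abs_self _).trans (abs_quad_le _ u)).trans (mul_le_mul_of_nonneg_right
      (hF _ (ub_dd p) (by rw [dd_sq hp]; linarith)) hu)
  have h2 : (p ⬝ᵥ v) ^ 2 ≤ n * (2 * r) * (u ⬝ᵥ u) := by
    have e : p ⬝ᵥ v = (fun i => p i * dd p i) ⬝ᵥ u := by
      simp only [hv, dotProduct, mulVec_diagonal, mul_assoc]
    rw [e]
    refine (dot_sq_le _ _).trans (mul_le_mul_of_nonneg_right ?_ hu)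
    rw [avg, div_le_iff₀' hn'] at ha
    refine le_trans (Finset.sum_le_sum fun i _ => ?_) ha
    have e1 := congrFun (dd_sq hp) i
    have e2 := DD_nonneg hp i
    have e3 : p i ^ 2 ≤ 1 := by have := abs_le.1 (hp i); nlinarith
    nlinarith [mul_le_mul_of_nonneg_right e3 e2]
  have h3 : v ⬝ᵥ vecMulVec p p *ᵥ v = (p ⬝ᵥ v) ^ 2 := by
    rw [vecMulVec_mulVec, op_smul_eq_smul, dotProduct_smul, smul_eq_mul, dotProduct_comm v p, sq]
  rw [quad_NN, ← hv, B1, B0, dd_sq hp]
  simp only [add_mulVec, sub_mulVec, smul_mulVec, one_mulVec, dotProduct_add, dotProduct_sub,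
    dotProduct_smul, smul_eq_mul, h3]
  have h4 : θ * (v ⬝ᵥ W *ᵥ v) ≤ 1 / 8 * (u ⬝ᵥ u) :=
    (mul_le_mul_of_nonneg_left h1 hθ.1).trans (mul_le_of_le_one_left (by positivity) hθ.2)
  have h5 : 0 ≤ θ ^ 2 * avg (DD p) * (v ⬝ᵥ v) := mul_nonneg (by positivity) (dot_self_nonneg v)
  have h6 : 2 * θ ^ 2 / n * (p ⬝ᵥ v) ^ 2 ≤ 3 / 8 * (u ⬝ᵥ u) := by
    rw [div_mul_eq_mul_div, div_le_iff₀ hn']
    have h7 := mul_le_of_le_one_left (sq_nonneg (p ⬝ᵥ v)) hθ2
    have h8 : n * (2 * r) * (u ⬝ᵥ u) ≤ n * (3 / 16) * (u ⬝ᵥ u) := by gcongr; linarith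
    nlinarith
  linarith

theorem err_lin (B : Mx n) (d : V n) (b a c k l : ℝ) (S S' : Mx n) :
    err B d b (a • S + c • S') (a * k + c * l) = a • err B d b S k + c • err B d b S' l := by
  funext i
  simp only [err, Matrix.mul_add, Matrix.add_mul, Matrix.mul_smul, Matrix.smul_mul, trace_add,
    trace_smul, Matrix.add_apply, Matrix.smul_apply, Pi.add_apply, Pi.smul_apply, smul_eq_mul]
  ring

open scoped MatrixOrder in
theorem exists_root {A : Mx n} (hA : Aᵀ = A) (h : opn A ≤ 3) :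
    ∃ Q : Mx n, Qᵀ * Q = (1 : ℝ) • A + (3 : ℝ) • (1 : Mx n) := by
  have hP : ((1 : ℝ) • A + (3 : ℝ) • (1 : Mx n)).PosSemidef := by
    refine PosSemidef.of_dotProduct_mulVec_nonneg ?_ fun u => ?_
    · rw [herm_iff]; simp [hA]
    · have h1 := abs_quad_le A u
      have h2 := mul_le_mul_of_nonneg_right h (dot_self_nonneg u)
      simp only [star_trivial, add_mulVec, smul_mulVec, one_mulVec, dotProduct_add,
        dotProduct_smul, smul_eq_mul]
      linarith [neg_abs_le (u ⬝ᵥ A *ᵥ u)]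
  obtain ⟨Q, hQ⟩ := CStarAlgebra.nonneg_iff_eq_star_mul_self.mp hP.nonneg
  exact ⟨Q, by rw [hQ, star_eq_conjTranspose, conjTranspose_eq_transpose_of_trivial]⟩

end Froz10

open Froz10

theorem frozGlue : FrozGlue := by
  intro hEx hErr hLip hWin ε hε K
  obtain ⟨Ke, hKe⟩ := hErr (1 / 2) (by norm_num) 6
  obtain ⟨K', hK'0, hK'⟩ := hWin (1 / 2) (by norm_num) (4 * |K| + |Ke| + 3) (by positivity)
  set r := min (ε / 2) (3 / 32) with hrdef
  have hr0 : 0 < r := by positivity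
  have hr1 : 2 * r ≤ ε := by linarith [min_le_left (ε / 2) (3 / 32)]
  have hr2 : r ≤ 3 / 32 := min_le_right _ _
  set M0 := Real.exp K' * (2 * K') with hM0
  have hM00 : 0 ≤ M0 := by positivity
  refine ⟨r / 8, by positivity, 400 / r, max M0 (2 * Real.exp (2 * Real.sqrt M0 + 2)), ?_⟩
  intro n W β hn hW hβ hWn hF hU T hT θ hθ σ y hy
  have hn' : (0 : ℝ) < n := by exact_mod_cast hn
  have hn1 : (1 : ℝ) ≤ n := by exact_mod_cast hn
  have hs1 : 1 ≤ Real.sqrt n := Real.one_le_sqrt.2 hn1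
  have hsym : ∀ a : ℝ, (a • W)ᵀ = a • W := fun a => by rw [transpose_smul, hW]
  have hop : ∀ a ∈ Icc (0 : ℝ) 1, opn (a • W) ≤ 3 := fun a ha => by
    rw [opn_smul, abs_of_nonneg ha.1]
    exact (mul_le_of_le_one_left (opn_nonneg W) ha.2).trans hWn
  have hsq : ∀ a ∈ Icc (0 : ℝ) 1, a ^ 2 ∈ Icc (0 : ℝ) 1 := fun a ha =>
    ⟨sq_nonneg a, pow_le_one₀ ha.1 ha.2⟩
  have hθ1 : θ ∈ Icc (0 : ℝ) 1 := ⟨hθ.1, hθ.2.trans hβ.2⟩
  have hθt : ∀ t ∈ Icc (0 : ℝ) 1, (1 - 1 * t) * θ ∈ Icc 0 β := fun t ht =>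
    ⟨mul_nonneg (by linarith [ht.2]) hθ.1,
      (mul_le_of_le_one_left hθ.1 (by linarith [ht.1])).trans hθ.2⟩
  have hθt1 : ∀ t ∈ Icc (0 : ℝ) 1, (1 - 1 * t) * θ ∈ Icc (0 : ℝ) 1 := fun t ht =>
    ⟨(hθt t ht).1, (hθt t ht).2.trans hβ.2⟩
  obtain ⟨Q, hQ⟩ := exists_root (hsym θ) (hop θ hθ1)
  have hS : opn ((1 : ℝ) • θ • W + (3 : ℝ) • (1 : Mx n)) ≤ 6 := by
    refine (opn_add_le _ _).trans ?_
    rw [one_smul, opn_smul 3]
    have := opn_one_le (ι := Fin n)
    have := hop θ hθ1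
    norm_num
    linarith
  have hQ2 : opn Q ^ 2 ≤ 6 := by rw [sq, ← opn_transpose_mul_self, hQ]; exact hS
  have hQ1 : opn Q ≤ 5 / 2 := by nlinarith [opn_nonneg Q]
  -- every solution near the strong field lies in the ball
  have hball : ∀ a ∈ Icc (0 : ℝ) 1, ∀ x : V n, nrm (Ymap (a • W) (a ^ 2) x - y) ≤ 41 * Real.sqrt n →
      nrm (th x - sv σ) < r * Real.sqrt n := fun a ha x hx => by
    refine ball_of_near hn hr0 hT σ ?_
    have h1 := nrm_sub_le_of_sol (hop a ha) (hsq a ha) x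
    have e : x - T • sv σ = (x - Ymap (a • W) (a ^ 2) x) + ((Ymap (a • W) (a ^ 2) x - y) +
      (y - T • sv σ)) := by abel
    have h2 := nrm_add_le (x - Ymap (a • W) (a ^ 2) x) ((Ymap (a • W) (a ^ 2) x - y) +
      (y - T • sv σ))
    have h3 := nrm_add_le (Ymap (a • W) (a ^ 2) x - y) (y - T • sv σ)
    rw [e]
    linarith
  have key : ∀ v : V n, nrm v ≤ 1 → ∀ x, Ymap (θ • W) (θ ^ 2) x = y + v →
      nrm (th x - sv σ) < r * Real.sqrt n ∧ nrm (mag (ising (θ • W) (y + v)) - th x) ^ 2 ≤ M0 := by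
    intro v hv x hx
    have hb : nrm (th x - sv σ) < r * Real.sqrt n :=
      hball θ hθ1 x (by rw [hx, add_sub_cancel_left]; linarith)
    refine ⟨hb, ?_⟩
    have hwt : SL.Wt (ising (θ • W) (y + v)) := SL.Wt.of_pos fun _ => Real.exp_pos _
    have h := hK' n (θ • W) Q (θ ^ 2) 1 3 1 (r * Real.sqrt n) (8 * Real.sqrt n)
      (Real.exp (-(2 * n))) (y + v) (sv σ) (fun _ => 0) hn (hsym θ)
      ((hop θ hθ1).trans (by linarith [abs_nonneg K, abs_nonneg Ke])) (hsq θ hθ1)
      ⟨zero_le_one, le_rfl⟩ zero_le_one (by norm_num)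
      (by rw [abs_of_pos (by norm_num : (0 : ℝ) < 3)]; linarith [abs_nonneg K, abs_nonneg Ke]) hQ
      (by positivity)
      (by rw [mul_pow, Real.sq_sqrt hn'.le]; nlinarith [abs_nonneg K, abs_nonneg Ke])
      (fun t ht => by
        rw [smul_smul, ← mul_pow]; exact good hn hF hr1 hr2 (hθt1 t ht) σ)
      (fun t ht z hz => by
        rw [smul_smul, ← mul_pow]
        obtain ⟨x', hx'⟩ := (hEx n _ (((1 - 1 * t) * θ) ^ 2) (hsym ((1 - 1 * t) * θ))).1
          (y + v + Qᵀ *ᵥ z)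
        refine ⟨x', hball _ (hθt1 t ht) x' ?_, hx'⟩
        rw [hx', add_assoc, add_sub_cancel_left]
        have h1 := nrm_add_le v (Qᵀ *ᵥ z)
        have h2 := nrm_mulVec_le Qᵀ z
        rw [opn_transpose] at h2
        have h3 := mul_le_mul hQ1 hz (nrm_nonneg z) (by norm_num)
        linarith)
      (fun t ht p hp hpr => by
        rw [smul_smul (1 - 1 * t), ← mul_pow]
        have hg := good hn hF hr1 hr2 (hθt1 t ht) σ p hp hpr
        have h1 := hKe n _ ((1 : ℝ) • θ • W + (3 : ℝ) • (1 : Mx n)) _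
          (3 + 2 * 1 * (1 - 1 * t) * θ ^ 2 * avg (DD p)) p (hsym _)
          ((hop _ (hθt1 t ht)).trans (by norm_num)) hS (hsq _ (hθt1 t ht)) hp hg.1
        have h2 := hU _ (hθt t ht) (dd p) (ub_dd p) (by rw [dd_sq hp]; exact hg.2) h1.1
        refine h1.2.trans ?_
        have e : 3 + 2 * 1 * (1 - 1 * t) * θ ^ 2 * avg (DD p) =
            θ * (2 * ((1 - 1 * t) * θ) * avg fun i => dd p i ^ 2) + 3 * 1 := by
          rw [dd_sq hp]; ring
        rw [one_smul, e, err_lin]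
        refine (add_le_add_left (nrm_add_le _ _) _).trans ?_
        rw [nrm_smul, nrm_smul, abs_of_nonneg hθ.1, abs_of_pos (by norm_num : (0 : ℝ) < 3)]
        have h3 := mul_le_mul hθ1.2 (h2.2.trans (le_abs_self K)) (nrm_nonneg _) zero_le_one
        linarith [h2.1, le_abs_self K, le_abs_self Ke])
      (SL.MG.const 0) (fun _ => le_rfl)
      (fun z _ x' _ hx' => by
        have e : x' = y + v + Qᵀ *ᵥ z := by simpa [Ymap] using hx'
        simp [mag_ising_zero, e])
      (fun t ht => exit_le (fun σ' => (mulVec_dot_le Q _).trans (by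
        rw [sv_dot_self]; exact mul_le_mul_of_nonneg_right hQ2 hn'.le)) hwt ht)
      x hb hx
    refine h.trans ?_
    have h0 : (n : ℝ) * Real.exp (-(2 * n)) ≤ 1 := by
      rw [Real.exp_neg, ← div_eq_mul_inv, div_le_one (Real.exp_pos _)]
      linarith [Real.add_one_le_exp (2 * (n : ℝ))]
    simp only [slE, integral_zero, mul_zero, Finset.sum_const_zero, mul_one, zero_add]
    rw [hM0]
    refine mul_le_mul_of_nonneg_left ?_ (Real.exp_pos _).le
    nlinarith [mul_le_mul_of_nonneg_left h0 hK'0.le]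
  have key0 : ∀ x, Ymap (θ • W) (θ ^ 2) x = y →
      nrm (th x - sv σ) < r * Real.sqrt n ∧ nrm (mag (ising (θ • W) y) - th x) ^ 2 ≤ M0 := by
    simpa using key 0 (by simp)
  refine ⟨fun x hx => (key0 x hx).2.trans (le_max_left _ _), fun u => ?_⟩
  refine (hLip n (ising (θ • W) y) (2 * Real.sqrt M0 + 2) (fun _ => Real.exp_pos _) (fun v hv => ?_) u).trans
    (mul_le_mul_of_nonneg_right (le_max_right _ _) (dot_self_nonneg u))
  obtain ⟨x, hx⟩ := (hEx n _ (θ ^ 2) (hsym θ)).1 y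
  obtain ⟨x', hx'⟩ := (hEx n _ (θ ^ 2) (hsym θ)).1 (y + v)
  have h1 := key0 x hx
  have h2 := key v hv x' hx'
  have h3 := ((hEx n _ (θ ^ 2) (hsym θ)).2 (1 / 2) _ _ (by norm_num)
    (good hn hF hr1 hr2 hθ1 σ)).1 x' x h2.1.le h1.1.le
  rw [hx, hx', add_sub_cancel_left] at h3
  have h4 := Real.le_sqrt_of_sq_le h1.2
  have h5 := Real.le_sqrt_of_sq_le h2.2
  rw [tilt_ising]
  have e : mag (ising (θ • W) (y + v)) - mag (ising (θ • W) y) =
      (mag (ising (θ • W) (y + v)) - th x') + ((th x' - th x) - (mag (ising (θ • W) y) - th x)) := by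
    abel
  have h6 := nrm_add_le (mag (ising (θ • W) (y + v)) - th x')
    ((th x' - th x) - (mag (ising (θ • W) y) - th x))
  have h7 := nrm_sub_le (th x' - th x) (mag (ising (θ • W) y) - th x)
  rw [e]
  linarith

end Crest.Agent.T157.Tap

end
end

-- ▼ part T157/LpG1_17

/-!
# Row 157, part A: elementary facts for the pieces of `Lp.LpGlue` (helper17)
-/

set_option autoImplicit false

noncomputable section

namespace Crest.Agent.T157.Lp.G1

open MeasureTheory ProbabilityTheory Matrix Filter Set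
open Crest.ProbabilityR.SpinGlassDynamics
open Crest.Agent.T157.E Crest.Agent.T157.Eig Crest.Agent.T157.Tap Crest.Agent.T157.Tap.Froz10

variable {n : ℕ} {J : Mx n} {b : ℝ} {v : Cube n → ℝ}

/-! ### the cube -/

theorem cb_sv (σ : Cube n) : Cb (sv σ) := fun i => by
  simp only [sv, spin]; split_ifs <;> simp

theorem cb_mag (hv : SL.Wt v) : Cb (mag v) := fun i => hv.abs_mean_le fun x => cb_sv x i

theorem tilt_tilt (v : Cube n → ℝ) (y z : V n) : tilt (tilt v y) z = tilt v (y + z) := by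
  ext x; simp only [tilt, add_dotProduct, Real.exp_add, mul_assoc]

theorem tilt_zero (v : Cube n → ℝ) : tilt v 0 = v := by ext x; simp [tilt]

theorem ising_eq_tilt (J : Mx n) (y : V n) : ising J y = tilt (ising J 0) y := by
  ext x; simp [ising, tilt, Real.exp_add]

theorem nrm_sub_comm (u w : V n) : nrm (u - w) = nrm (w - u) := by rw [← nrm_neg, neg_sub]

theorem nrm_tri (u w z : V n) : nrm (u - z) ≤ nrm (u - w) + nrm (w - z) := by
  have := nrm_add_le (u - w) (w - z); rwa [sub_add_sub_cancel] at this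

theorem nrm_sub_cb {p q : V n} (hp : Cb p) (hq : Cb q) : nrm (p - q) ≤ 2 * Real.sqrt n := by
  linarith [nrm_sub_le p q, nrm_le_sqrt hp, nrm_le_sqrt hq]

theorem sq_sqrt_n : Real.sqrt n * Real.sqrt n = n := Real.mul_self_sqrt (Nat.cast_nonneg n)

theorem abs_dot_cb (y : V n) {p : V n} (hp : Cb p) : |y ⬝ᵥ p| ≤ nrm y * Real.sqrt n :=
  (abs_dot_le y p).trans (mul_le_mul_of_nonneg_left (nrm_le_sqrt hp) (nrm_nonneg y))

theorem avg_DD_eq (hn : 0 < n) (p : V n) : avg (DD p) = 1 - p ⬝ᵥ p / n := by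
  have : (n : ℝ) ≠ 0 := by positivity
  simp only [avg, DD, dotProduct, Finset.sum_sub_distrib, sq, Finset.sum_const, Finset.card_univ,
    Fintype.card_fin, nsmul_eq_mul, mul_one]
  field_simp

/-! ### the cavity field -/

theorem ons_lip (hb : b ∈ Icc (0 : ℝ) 1) {p q : V n} (hp : Cb p) (hq : Cb q) :
    nrm ((b * avg (DD p)) • p - (b * avg (DD q)) • q) ≤ 3 * nrm (p - q) := by
  rcases Nat.eq_zero_or_pos n with rfl | hn
  · simp [nrm]
  have hn' : (0 : ℝ) < n := by positivity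
  have e : (b * avg (DD p)) • p - (b * avg (DD q)) • q =
      (b * avg (DD p)) • (p - q) + (b * (avg (DD p) - avg (DD q))) • q := by
    ext i; simp; ring
  have h0 := nrm_nonneg (p - q)
  have h1 : |b * avg (DD p)| ≤ 1 := by
    rw [abs_of_nonneg (mul_nonneg hb.1 (avg_DD_nonneg hp))]
    exact mul_le_one₀ hb.2 (avg_DD_nonneg hp) (avg_DD_le _)
  have h2 : |avg (DD p) - avg (DD q)| * n ≤ nrm (p - q) * (2 * Real.sqrt n) := by
    have : (avg (DD p) - avg (DD q)) * n = -((p - q) ⬝ᵥ (p + q)) := by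
      rw [avg_DD_eq hn, avg_DD_eq hn, sub_dotProduct, dotProduct_add, dotProduct_add,
        dotProduct_comm q p]
      field_simp; ring
    rw [← abs_of_pos hn', ← abs_mul, this, abs_neg, abs_of_pos hn']
    refine (abs_dot_le _ _).trans (mul_le_mul_of_nonneg_left ?_ h0)
    linarith [nrm_add_le p q, nrm_le_sqrt hp, nrm_le_sqrt hq]
  have h3 : |b * (avg (DD p) - avg (DD q))| * nrm q ≤ 2 * nrm (p - q) := by
    have hs : 0 < Real.sqrt n := Real.sqrt_pos.2 hn'
    have a1 : |b * (avg (DD p) - avg (DD q))| ≤ |avg (DD p) - avg (DD q)| := by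
      rw [abs_mul, abs_of_nonneg hb.1]; exact mul_le_of_le_one_left (abs_nonneg _) hb.2
    have a2 : |avg (DD p) - avg (DD q)| * Real.sqrt n ≤ 2 * nrm (p - q) := by
      refine le_of_mul_le_mul_right ?_ hs
      rw [mul_assoc, sq_sqrt_n]; linarith
    exact (mul_le_mul a1 (nrm_le_sqrt hq) (nrm_nonneg q) (abs_nonneg _)).trans a2
  rw [e]
  refine (nrm_add_le _ _).trans ?_
  rw [nrm_smul, nrm_smul]
  nlinarith [mul_le_mul_of_nonneg_right h1 h0]

theorem cav_lip (hJ : opn J ≤ 3) (hb : b ∈ Icc (0 : ℝ) 1) (y y' : V n) {p q : V n} (hp : Cb p)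
    (hq : Cb q) : nrm (cav J b y p - cav J b y' q) ≤ nrm (y - y') + 6 * nrm (p - q) := by
  have e : cav J b y p - cav J b y' q =
      (y - y') + J *ᵥ (p - q) - ((b * avg (DD p)) • p - (b * avg (DD q)) • q) := by
    simp only [cav, mulVec_sub]; abel
  have h1 := nrm_mulVec_le J (p - q)
  have h2 := mul_le_mul_of_nonneg_right hJ (nrm_nonneg (p - q))
  rw [e]
  linarith [nrm_sub_le ((y - y') + J *ᵥ (p - q)) ((b * avg (DD p)) • p - (b * avg (DD q)) • q),
    nrm_add_le (y - y') (J *ᵥ (p - q)), ons_lip hb hp hq]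

theorem cav_Ymap (J : Mx n) (b : ℝ) (x : V n) : cav J b (Ymap J b x) (th x) = x := by
  simp only [cav, Ymap]; abel

/-- the cavity field is an approximate TAP solution -/
theorem nrm_Ymap_cav (hJ : opn J ≤ 3) (hb : b ∈ Icc (0 : ℝ) 1) (y : V n) {m : V n} (hm : Cb m) :
    nrm (Ymap J b (cav J b y m) - y) ≤ 6 * dfc J b y m := by
  have e : Ymap J b (cav J b y m) - y = cav J b y m - cav J b y (th (cav J b y m)) := by
    generalize cav J b y m = x
    simp only [cav, Ymap]; abel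
  simpa [e, dfc] using cav_lip hJ hb y y hm (cb_th (cav J b y m))

theorem nrm_cav_sub (hJ : opn J ≤ 3) (hb : b ∈ Icc (0 : ℝ) 1) (y : V n) {m : V n} (hm : Cb m) :
    nrm (cav J b y m - y) ≤ 4 * Real.sqrt n := by
  have e : cav J b y m - y = J *ᵥ m - (b * avg (DD m)) • m := by rw [cav]; abel
  have h1 := nrm_le_sqrt hm
  have h0 := nrm_nonneg m
  have h2 := nrm_mulVec_le J m
  have h3 : |b * avg (DD m)| ≤ 1 := by
    rw [abs_of_nonneg (mul_nonneg hb.1 (avg_DD_nonneg hm))]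
    exact mul_le_one₀ hb.2 (avg_DD_nonneg hm) (avg_DD_le _)
  have h4 := nrm_sub_le (J *ᵥ m) ((b * avg (DD m)) • m)
  rw [nrm_smul] at h4
  rw [e]
  nlinarith [mul_le_mul_of_nonneg_right hJ h0, mul_le_mul_of_nonneg_right h3 h0]

theorem dfc_nonneg (J : Mx n) (b : ℝ) (y m : V n) : 0 ≤ dfc J b y m := nrm_nonneg _

theorem dfc_le (J : Mx n) (b : ℝ) (y : V n) {m : V n} (hm : Cb m) : dfc J b y m ≤ 2 * Real.sqrt n :=
  nrm_sub_cb hm (cb_th _)

theorem dfc_sq_le (J : Mx n) (b : ℝ) (y : V n) {m : V n} (hm : Cb m) : dfc J b y m ^ 2 ≤ 4 * n := by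
  have := pow_le_pow_left₀ (dfc_nonneg J b y m) (dfc_le J b y hm) 2
  rw [mul_pow, Real.sq_sqrt (Nat.cast_nonneg n)] at this
  linarith

theorem Dv_nonneg (J : Mx n) (b : ℝ) (v : Cube n → ℝ) (y : V n) : 0 ≤ Dv J b v y := sq_nonneg _

theorem Dv_le (J : Mx n) (b : ℝ) (hv : SL.Wt v) (y : V n) : Dv J b v y ≤ 4 * n :=
  dfc_sq_le J b y (cb_mag (hv.tilt y))

/-! ### the TAP value -/

theorem hb2_eq (t : ℝ) : Real.log 2 - hb2 t = ((1 + Real.tanh t) * Real.log (1 + Real.tanh t) +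
    (1 - Real.tanh t) * Real.log (1 - Real.tanh t)) / 2 := by
  have hc := Real.cosh_pos t
  have e1 : 1 + Real.tanh t = Real.exp t / Real.cosh t := by
    rw [Real.tanh_eq_sinh_div_cosh, ← Real.cosh_add_sinh]; field_simp
  have e2 : 1 - Real.tanh t = Real.exp (-t) / Real.cosh t := by
    rw [Real.tanh_eq_sinh_div_cosh, ← Real.cosh_sub_sinh]; field_simp
  have l1 : Real.log (1 + Real.tanh t) = t - Real.log (Real.cosh t) := by
    rw [e1, Real.log_div (Real.exp_pos _).ne' hc.ne', Real.log_exp]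
  have l2 : Real.log (1 - Real.tanh t) = -t - Real.log (Real.cosh t) := by
    rw [e2, Real.log_div (Real.exp_pos _).ne' hc.ne', Real.log_exp]
  rw [l1, l2, hb2, Real.log_mul two_ne_zero hc.ne']; ring

theorem le_hb2 (t : ℝ) : Real.log 2 - Real.tanh t ^ 2 ≤ hb2 t := by
  have h := abs_lt.1 (Real.abs_tanh_lt_one t)
  have a1 := Real.log_le_sub_one_of_pos (show 0 < 1 + Real.tanh t by linarith)
  have a2 := Real.log_le_sub_one_of_pos (show 0 < 1 - Real.tanh t by linarith)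
  have := hb2_eq t
  nlinarith [mul_le_mul_of_nonneg_left a1 (show 0 ≤ 1 + Real.tanh t by linarith),
    mul_le_mul_of_nonneg_left a2 (show 0 ≤ 1 - Real.tanh t by linarith)]

theorem hb2_le (t : ℝ) : hb2 t ≤ Real.log 2 := by
  have h := abs_lt.1 (Real.abs_tanh_lt_one t)
  have a1 := Real.self_sub_one_le_mul_log (show 0 ≤ 1 + Real.tanh t by linarith)
  have a2 := Real.self_sub_one_le_mul_log (show 0 ≤ 1 - Real.tanh t by linarith)
  have := hb2_eq t
  linarith

theorem abs_hb2_le (t : ℝ) : |hb2 t| ≤ 1 := by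
  have := Real.log_two_lt_d9
  have := Real.log_two_gt_d9
  rw [abs_le]; constructor <;> linarith [le_hb2 t, hb2_le t, Real.tanh_sq_lt_one t]

theorem abs_quad_cb (hJ : opn J ≤ 3) {p : V n} (hp : Cb p) : |p ⬝ᵥ J *ᵥ p| ≤ 3 * n := by
  have h := pow_le_pow_left₀ (nrm_nonneg p) (nrm_le_sqrt hp) 2
  rw [nrm_sq, Real.sq_sqrt (Nat.cast_nonneg n)] at h
  exact (abs_quad_le J p).trans (mul_le_mul hJ h (dot_self_nonneg p) (by norm_num))

theorem abs_Phi_sub_le (hJ : opn J ≤ 3) (hb : b ∈ Icc (0 : ℝ) 1) (y x : V n) :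
    |Phi J b y x - y ⬝ᵥ th x| ≤ 3 * n := by
  have h1 := abs_le.1 (abs_quad_cb hJ (cb_th x))
  have h2 : |∑ i, hb2 (x i)| ≤ n := (Finset.abs_sum_le_sum_abs _ _).trans
    ((Finset.sum_le_card_nsmul _ _ 1 fun i _ => abs_hb2_le _).trans_eq (by simp))
  have h2 := abs_le.1 h2
  have a0 := avg_DD_nonneg (cb_th x)
  have h3 : b * avg (DD (th x)) ^ 2 ≤ 1 := mul_le_one₀ hb.2 (sq_nonneg _) (pow_le_one₀ a0 (avg_DD_le _))
  have h4 : 0 ≤ b * avg (DD (th x)) ^ 2 := mul_nonneg hb.1 (sq_nonneg _)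
  have hn : (0 : ℝ) ≤ n := Nat.cast_nonneg n
  rw [Phi, abs_le]
  constructor <;> nlinarith [mul_le_mul_of_nonneg_left h3 hn, mul_nonneg hn h4]

theorem abs_Phi_le (hJ : opn J ≤ 3) (hb : b ∈ Icc (0 : ℝ) 1) (y x : V n) :
    |Phi J b y x| ≤ 3 * n + nrm y * Real.sqrt n := by
  have h1 := abs_le.1 (abs_Phi_sub_le hJ hb y x)
  have h2 := abs_le.1 (abs_dot_cb y (cb_th x))
  rw [abs_le]; constructor <;> linarith

/-! ### the normaliser -/

theorem log_Zw_tilt_le (hv : SL.Wt v) (z : V n) :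
    Real.log (Zw (tilt v z)) ≤ Real.log (Zw v) + nrm z * Real.sqrt n := by
  have h0 : 0 < Zw v := hv.pos
  rw [← Real.log_exp (nrm z * Real.sqrt n), ← Real.log_mul h0.ne' (Real.exp_pos _).ne']
  refine Real.log_le_log (hv.tilt z).pos ?_
  rw [Zw, Zw, Finset.sum_mul]
  exact Finset.sum_le_sum fun x _ => mul_le_mul_of_nonneg_left
    (Real.exp_le_exp.2 ((le_abs_self _).trans (abs_dot_cb z (cb_sv x)))) (hv.nn x)

theorem abs_log_Zw_sub (hv : SL.Wt v) (z : V n) :
    |Real.log (Zw (tilt v z)) - Real.log (Zw v)| ≤ nrm z * Real.sqrt n := by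
  have h1 := log_Zw_tilt_le hv z
  have h2 := log_Zw_tilt_le (hv.tilt z) (-z)
  rw [tilt_tilt, add_neg_cancel, tilt_zero, nrm_neg] at h2
  rw [abs_le]; constructor <;> linarith

theorem Xi_sub_le (hJ : opn J ≤ 3) (hb : b ∈ Icc (0 : ℝ) 1) (hv : SL.Wt v) (y z : V n) :
    Xi J b v (y + z) ≤ Xi J b v y + 6 * n + 2 * (nrm y + nrm z) * Real.sqrt n := by
  have h1 := log_Zw_tilt_le (hv.tilt y) z
  rw [tilt_tilt] at h1
  have h2 := abs_le.1 (abs_Phi_le hJ hb y (cav J b y (mag (tilt v y))))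
  have h3 := abs_le.1 (abs_Phi_le hJ hb (y + z) (cav J b (y + z) (mag (tilt v (y + z)))))
  have h4 := mul_le_mul_of_nonneg_right (nrm_add_le y z) (Real.sqrt_nonneg n)
  simp only [Xi]; linarith

/-! ### measurability and growth -/

theorem continuous_Zw_tilt (v : Cube n → ℝ) : Continuous fun y => Zw (tilt v y) := by
  unfold Zw tilt dotProduct; fun_prop

theorem continuous_mean_tilt (hv : SL.Wt v) (f : Cube n → ℝ) :
    Continuous fun y => mean (tilt v y) f := by
  refine continuous_finsetSum _ fun x _ => Continuous.mul ?_ continuous_const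
  exact Continuous.div (by unfold tilt dotProduct; fun_prop) (continuous_Zw_tilt v)
    fun y => (hv.tilt y).pos.ne'

theorem continuous_mag_tilt (hv : SL.Wt v) : Continuous fun y => mag (tilt v y) :=
  continuous_pi fun _ => continuous_mean_tilt hv _

theorem continuous_th : Continuous (th : V n → V n) := by unfold th; fun_prop

theorem continuous_cav (J : Mx n) (b : ℝ) : Continuous fun p : V n × V n => cav J b p.1 p.2 := by
  unfold cav avg DD mulVec dotProduct; fun_prop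

theorem continuous_hb2 : Continuous hb2 := by
  refine Continuous.sub (Continuous.log (by fun_prop) fun t => ?_) (by fun_prop)
  have := Real.cosh_pos t; positivity

theorem continuous_Phi (J : Mx n) (b : ℝ) : Continuous fun p : V n × V n => Phi J b p.1 p.2 := by
  have := continuous_hb2
  unfold Phi avg DD th mulVec dotProduct; fun_prop

theorem continuous_cav_tilt (J : Mx n) (b : ℝ) (hv : SL.Wt v) :
    Continuous fun y => cav J b y (mag (tilt v y)) :=
  (continuous_cav J b).comp (continuous_id.prodMk (continuous_mag_tilt hv))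

theorem continuous_Dv (J : Mx n) (b : ℝ) (hv : SL.Wt v) : Continuous (Dv J b v) :=
  (continuous_nrm.comp ((continuous_mag_tilt hv).sub
    (continuous_th.comp (continuous_cav_tilt J b hv)))).pow 2

theorem continuous_Xi (J : Mx n) (b : ℝ) (hv : SL.Wt v) : Continuous (Xi J b v) := by
  have h1 : Continuous fun y => Real.log (Zw (tilt v y)) :=
    (continuous_Zw_tilt v).log fun y => (hv.tilt y).pos.ne'
  have h2 := (continuous_Phi J b).comp (continuous_id.prodMk (continuous_cav_tilt J b hv))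
  simp only [Function.comp_def, id] at h2
  exact h1.sub h2

theorem mg_nrm : SL.MG (nrm : V n → ℝ) := by
  refine ⟨continuous_nrm.measurable, Real.sqrt n, 1, Real.sqrt_nonneg _, zero_le_one, fun y => ?_⟩
  have h : nrm y ≤ Real.sqrt n * ‖y‖ := by
    rw [nrm_le_iff (by positivity), mul_pow, Real.sq_sqrt (Nat.cast_nonneg n)]
    refine (Finset.sum_le_card_nsmul _ _ (‖y‖ ^ 2) fun i _ => ?_).trans_eq (by simp)
    rw [← sq, ← sq_abs]
    exact pow_le_pow_left₀ (abs_nonneg _) (norm_le_pi_norm y i) 2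
  rw [abs_of_nonneg (nrm_nonneg y), one_mul]
  exact h.trans (mul_le_mul_of_nonneg_left (by linarith [Real.add_one_le_exp ‖y‖])
    (Real.sqrt_nonneg _))

theorem mg_dot : SL.MG fun y : V n => y ⬝ᵥ y := by simpa only [nrm_mul_self] using mg_nrm.mul mg_nrm

theorem mg_of_lin {F : V n → ℝ} (hm : Measurable F) (C c : ℝ) (h : ∀ y, |F y| ≤ C + c * nrm y) :
    SL.MG F := ((SL.MG.const C).add (mg_nrm.const_mul c)).of_le hm fun y => (h y).trans (le_abs_self _)

theorem mg_shift {F : V n → ℝ} (h : SL.MG F) (y : V n) : SL.MG fun z => F (y + z) := by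
  simpa using h.affine y 1

theorem mg_Dv (J : Mx n) (b : ℝ) (hv : SL.Wt v) : SL.MG (Dv J b v) :=
  .of_bdd (continuous_Dv J b hv).measurable (4 * n) fun y => by
    rw [abs_of_nonneg (Dv_nonneg J b v y)]; exact Dv_le J b hv y

theorem mg_Xi (hJ : opn J ≤ 3) (hb : b ∈ Icc (0 : ℝ) 1) (hv : SL.Wt v) : SL.MG (Xi J b v) := by
  refine mg_of_lin (continuous_Xi J b hv).measurable (|Real.log (Zw v)| + 3 * n) (2 * Real.sqrt n)
    fun y => ?_
  have h1 := abs_le.1 (abs_log_Zw_sub hv y)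
  have h2 := abs_le.1 (abs_Phi_le hJ hb y (cav J b y (mag (tilt v y))))
  have h3 := le_abs_self (Real.log (Zw v))
  have h4 := neg_abs_le (Real.log (Zw v))
  rw [Xi, abs_le]; constructor <;> linarith

/-! ### expectations along the localisation -/

theorem slE_const (hv : SL.Wt v) (s c : ℝ) : slE sv v s (fun _ _ => c) = c := by
  rw [SL.slE_fun, hv.mean_const]

theorem slE_ind (hv : SL.Wt v) (s c : ℝ) {A : Set (V n)} (hA : MeasurableSet A) :
    slE sv v s (fun _ => A.indicator fun _ => c) = c * (SL.law sv v s).real A := by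
  rw [SL.slE_indicator hA, SL.law_real hv hA, SL.mean_const_mul]

theorem exists_lt (hv : SL.Wt v) {s c : ℝ} {F : V n → ℝ} (hF : SL.MG F)
    (h : slE sv v s (fun _ y => F y) < c) : ∃ y, F y < c := by
  by_contra hc
  push Not at hc
  have := SL.slE_mono (φ := sv) (s := s) hv (.of_mg fun _ => SL.MG.const c) (.of_mg fun _ => hF)
    fun _ y => hc y
  rw [slE_const hv] at this
  linarith

theorem slE_normsq (hv : SL.Wt v) {s : ℝ} (hs : 0 ≤ s) :
    slE sv v s (fun _ y => y ⬝ᵥ y) = (s ^ 2 + s) * n := by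
  have key : ∀ σ : Cube n, ∫ g, (s • sv σ + Real.sqrt s • g) ⬝ᵥ (s • sv σ + Real.sqrt s • g) ∂gv (Fin n) =
      (s ^ 2 + s) * n := fun σ => by
    have one : ∀ i : Fin n, Integrable (fun g : V n => (s * sv σ i + Real.sqrt s * g i) *
        (s * sv σ i + Real.sqrt s * g i)) (gv (Fin n)) ∧ ∫ g : V n, (s * sv σ i + Real.sqrt s * g i) *
        (s * sv σ i + Real.sqrt s * g i) ∂gv (Fin n) = s ^ 2 + s := fun i => by
      have hp := measurePreserving_eval (fun _ : Fin n => gaussianReal 0 1) i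
      have m2 : MemLp id 2 (gaussianReal 0 1) := memLp_id_gaussianReal 2
      have i1 : Integrable (fun x : ℝ => x) (gaussianReal 0 1) := m2.integrable one_le_two
      have i2 : Integrable (fun x : ℝ => x ^ 2) (gaussianReal 0 1) := m2.integrable_sq
      have e2 : ∫ x, x ^ 2 ∂gaussianReal 0 1 = 1 := by
        have := variance_id_gaussianReal (μ := 0) (v := 1)
        rw [variance_eq_integral measurable_id.aemeasurable] at this
        simpa using this
      have hσ : sv σ i * sv σ i = 1 := by simp only [sv, spin]; split_ifs <;> simp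
      have e : (fun x : ℝ => (s * sv σ i + Real.sqrt s * x) * (s * sv σ i + Real.sqrt s * x)) =
          fun x => s ^ 2 + (2 * s * sv σ i * Real.sqrt s * x + s * x ^ 2) := by
        ext x; linear_combination s ^ 2 * hσ + x ^ 2 * Real.mul_self_sqrt hs
      have i3 : Integrable (fun x : ℝ => (s * sv σ i + Real.sqrt s * x) * (s * sv σ i + Real.sqrt s * x))
          (gaussianReal 0 1) := by
        rw [e]; exact (integrable_const _).add ((i1.const_mul _).add (i2.const_mul _))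
      refine ⟨hp.integrable_comp_of_integrable i3, ?_⟩
      have := integral_map (μ := gv (Fin n)) hp.measurable.aemeasurable (hp.map_eq ▸ i3.1)
      rw [hp.map_eq] at this
      refine Eq.trans this.symm ?_
      have i4 : Integrable (fun x : ℝ => 2 * s * sv σ i * Real.sqrt s * x + s * x ^ 2)
          (gaussianReal 0 1) := (i1.const_mul _).add (i2.const_mul _)
      rw [e, integral_add (integrable_const _) i4,
        integral_add (i1.const_mul _) (i2.const_mul _), integral_const_mul, integral_const_mul, e2]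
      simp
    simp only [dotProduct, Pi.add_apply, Pi.smul_apply, smul_eq_mul]
    rw [integral_finsetSum _ fun i _ => (one i).1]
    rw [Finset.sum_congr rfl fun i _ => (one i).2]
    simp; ring
  rw [SL.slE_eq_mean]
  simp only [key]
  exact hv.mean_const _

theorem exit_le (hv : SL.Wt v) {t R : ℝ} (ht : t ∈ Icc (0 : ℝ) 1) (hR : 44 * t * n < R ^ 2) :
    (SL.law sv v t).real {z | R ^ 2 ≤ 2 * (z ⬝ᵥ z)} ≤ Real.exp (-(2 * n)) := by
  have hA : MeasurableSet {z : V n | R ^ 2 ≤ 2 * (z ⬝ᵥ z)} :=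
    measurableSet_le measurable_const (by unfold dotProduct; fun_prop)
  rw [SL.law_real hv hA]
  refine hv.mean_le fun σ => ?_
  rw [SL.px, map_measureReal_apply (by fun_prop) hA]
  refine le_trans (measureReal_mono fun g hg => ?_) (gv_normsq_tail n)
  simp only [mem_preimage, mem_ofPred_eq] at hg ⊢
  have h1 := dot_add_le (t • sv σ) (Real.sqrt t • g)
  rw [smul_dotProduct, dotProduct_smul, smul_dotProduct, dotProduct_smul, sv_dot_self] at h1
  simp only [smul_eq_mul] at h1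
  rw [← mul_assoc (Real.sqrt t), Real.mul_self_sqrt ht.1] at h1
  by_contra hc
  have h4 : t * (t * n) ≤ t * n :=
    mul_le_of_le_one_left (mul_nonneg ht.1 (Nat.cast_nonneg n)) ht.2
  have h5 : t * (g ⬝ᵥ g) ≤ t * (10 * n) := mul_le_mul_of_nonneg_left (not_le.1 hc).le ht.1
  linarith

theorem mg_lin_sq (hv : SL.Wt v) (m u : V n) : SL.MG fun z => ((mag (tilt v z) - m) ⬝ᵥ u) ^ 2 := by
  have hc := continuous_mag_tilt hv
  refine .of_bdd (Continuous.measurable (by unfold dotProduct; fun_prop))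
    (((Real.sqrt n + nrm m) * nrm u) ^ 2) fun z => ?_
  rw [abs_pow]
  refine pow_le_pow_left₀ (abs_nonneg _) ((abs_dot_le _ _).trans ?_) 2
  exact mul_le_mul_of_nonneg_right
    (by linarith [nrm_sub_le (mag (tilt v z)) m, nrm_le_sqrt (cb_mag (hv.tilt z))]) (nrm_nonneg u)

/-- the fluctuation of the posterior mean is bounded by the covariance of the prior -/
theorem slE_lin_sq_le (hv : SL.Wt v) {s : ℝ} (hs : 0 ≤ s) (u : V n) :
    slE sv v s (fun _ z => ((mag (tilt v z) - mag v) ⬝ᵥ u) ^ 2) ≤ u ⬝ᵥ covM v *ᵥ u := by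
  set f : Cube n → ℝ := fun x => u ⬝ᵥ sv x - mean v fun x => u ⬝ᵥ sv x with hf
  have h := SL.total_cov (φ := sv) hv f f hs
  have h0 : 0 ≤ SL.ex sv v (fun p => cov (SL.pw sv v p) f f) s :=
    SL.ex_nonneg hv fun y => by rw [← SL.var_eq_cov]; exact (hv.post _ _ _).var_nonneg _
  have e1 : mean v (fun x => f x * f x) = u ⬝ᵥ covM v *ᵥ u := by
    rw [covM, SL.covMat_quad, SL.cov_eq_mean]
  have e2 : ∀ z, mean (post sv v s z) f = (mag (tilt v z) - mag v) ⬝ᵥ u := fun z => by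
    rw [SL.mean_post_sv, hf, SL.mean_sub, (hv.tilt z).mean_const, dotProduct_comm, dotProduct_sub,
      mag, mag, SL.meanV_dot, SL.meanV_dot]
  simp only [SL.ex, SL.pw, e2, ← sq] at h h0
  simp only [← sq] at e1
  linarith

theorem quad_le_frob (v : Cube n → ℝ) {a : ℝ} (ha : 0 ≤ a) (h : frob v ≤ a ^ 2) (u : V n) :
    u ⬝ᵥ covM v *ᵥ u ≤ a * (u ⬝ᵥ u) :=
  ((le_abs_self _).trans (abs_quad_le _ u)).trans (mul_le_mul_of_nonneg_right
    (abs_le_of_sq_le_sq' ((opn_sq_le_frob _).trans h) ha).2 (dot_self_nonneg u))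

end Crest.Agent.T157.Lp.G1
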