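import Crest.Agent.T157.SLE_23
import Crest.Agent.T157.EigN_84
import Crest.Agent.T157.LpG1_17
import Crest.Agent.T157.LpKs_17
import Crest.Agent.T157.KrM_53
import Crest.Agent.T157.KrR_53
import Crest.Agent.T157.ConcP_16
import Crest.Agent.T157.TapCell_53
import Crest.Agent.T157.TapSE_6

-- ▼ part T157/TapWinB_29
section

/-!
# Row 157: local Itô calculus on `[0,h] × O`, extension by zero, a flat cutoff (helper29)
-/

set_option autoImplicit false

noncomputable section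

namespace Crest.Agent.T157.SL

open Matrix Filter Set Topology MeasureTheory
open Crest.Agent.T157.E Crest.Agent.T157.Eig

variable {ι : Type*} [Fintype ι] [DecidableEq ι] {d : ι → Pt ι → ℝ} {h : ℝ} {O : Set (ι → ℝ)}
  {G H a a' : Pt ι → ℝ} {b b' : ι → Pt ι → ℝ}

/-- local Itô data on `[0,h] × O` -/
def LI (d : ι → Pt ι → ℝ) (h : ℝ) (O : Set (ι → ℝ)) (G a : Pt ι → ℝ) (b : ι → Pt ι → ℝ) : Prop :=
  ∃ (g : Pt ι → ℝ) (k : ι → Pt ι → ℝ), ContinuousOn G (Icc 0 h ×ˢ O) ∧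
    ContinuousOn g (Icc 0 h ×ˢ O) ∧ (∀ i, ContinuousOn (b i) (Icc 0 h ×ˢ O)) ∧
    (∀ i, ContinuousOn (k i) (Icc 0 h ×ˢ O)) ∧
    (∀ (c : ℝ → Pt ι) (c' : Pt ι) (s : ℝ), HasDerivAt c c' s → c s ∈ Ioo 0 h ×ˢ O →
      HasDerivAt (fun s => G (c s)) (g (c s) * c'.1 + ∑ i, b i (c s) * c'.2 i) s) ∧
    (∀ i, ∀ p ∈ Ioo 0 h ×ˢ O,
      HasDerivAt (fun s => b i (p.1, Function.update p.2 i s)) (k i p) (p.2 i)) ∧
    ∀ p ∈ Ioo 0 h ×ˢ O, a p = g p + ∑ i, (d i p * b i p + k i p / 2)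

theorem upd_curve (p : Pt ι) (i : ι) : HasDerivAt
    (fun s => ((p.1, Function.update p.2 i s) : Pt ι)) (0, Pi.single i 1) (p.2 i) :=
  (hasDerivAt_const _ _).prodMk (hasDerivAt_update _ _ _)

theorem dp_of_df {g : Pt ι → ℝ} {S : Set (Pt ι)}
    (h5 : ∀ (c : ℝ → Pt ι) (c' : Pt ι) (s : ℝ), HasDerivAt c c' s → c s ∈ S →
      HasDerivAt (fun s => G (c s)) (g (c s) * c'.1 + ∑ i, b i (c s) * c'.2 i) s)
    (i : ι) {p : Pt ι} (hp : p ∈ S) :
    HasDerivAt (fun s => G (p.1, Function.update p.2 i s)) (b i p) (p.2 i) := by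
  simpa [Pi.single_apply] using h5 _ _ _ (upd_curve p i) (by simpa using hp)

theorem Ito.li (hI : Ito d univ G a b) (h : ℝ) (O : Set (ι → ℝ)) : LI d h O G a b := by
  obtain ⟨g, k, h1, h2, h3, h4, h5, h6, h7⟩ := hI
  have hs : (Icc 0 h ×ˢ O : Set (Pt ι)) ⊆ univ ×ˢ univ := prod_mono (subset_univ _) (subset_univ _)
  exact ⟨g, k, h1.cont.mono hs, h2.cont.mono hs, fun i => (h3 i).cont.mono hs,
    fun i => (h4 i).cont.mono hs, fun c c' s hc _ => h5 c c' s hc trivial,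
    fun i p _ => h6 i p trivial, fun p _ => h7 p trivial⟩

namespace LI

theorem cont (hI : LI d h O G a b) : ContinuousOn G (Icc 0 h ×ˢ O) := hI.choose_spec.choose_spec.1

theorem congr (hI : LI d h O G a b) (ea : ∀ p ∈ Ioo 0 h ×ˢ O, a' p = a p)
    (eb : ∀ i p, b' i p = b i p) : LI d h O G a' b' := by
  obtain rfl : b' = b := funext fun i => funext (eb i)
  obtain ⟨g, k, h1, h2, h3, h4, h5, h6, h7⟩ := hI
  exact ⟨g, k, h1, h2, h3, h4, h5, h6, fun p hp => (ea p hp).trans (h7 p hp)⟩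

theorem add (hI : LI d h O G a b) (h' : LI d h O H a' b') :
    LI d h O (fun p => G p + H p) (fun p => a p + a' p) fun i p => b i p + b' i p := by
  obtain ⟨g, k, h1, h2, h3, h4, h5, h6, h7⟩ := hI
  obtain ⟨g', k', h1', h2', h3', h4', h5', h6', h7'⟩ := h'
  refine ⟨_, _, h1.add h1', h2.add h2', fun i => (h3 i).add (h3' i), fun i => (h4 i).add (h4' i),
    fun c c' s hc hs => ((h5 c c' s hc hs).add (h5' c c' s hc hs)).congr_deriv ?_,
    fun i p hp => (h6 i p hp).add (h6' i p hp), fun p hp => ?_⟩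
  · simp only [Pi.add_apply, add_mul, Finset.sum_add_distrib]; ring
  · simp only [Pi.add_apply, h7 p hp, h7' p hp, mul_add, add_div, Finset.sum_add_distrib]; ring

theorem mul (hI : LI d h O G a b) (h' : LI d h O H a' b') :
    LI d h O (fun p => G p * H p) (fun p => a p * H p + G p * a' p + ∑ i, b i p * b' i p)
      fun i p => b i p * H p + G p * b' i p := by
  obtain ⟨g, k, h1, h2, h3, h4, h5, h6, h7⟩ := hI
  obtain ⟨g', k', h1', h2', h3', h4', h5', h6', h7'⟩ := h'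
  refine ⟨fun p => g p * H p + G p * g' p, fun i p => k i p * H p + b i p * b' i p +
    (b i p * b' i p + G p * k' i p), h1.mul h1', (h2.mul h1').add (h1.mul h2'),
    fun i => ((h3 i).mul h1').add (h1.mul (h3' i)), fun i => (((h4 i).mul h1').add
      ((h3 i).mul (h3' i))).add (((h3 i).mul (h3' i)).add (h1.mul (h4' i))),
    fun c c' s hc hs => ((h5 c c' s hc hs).mul (h5' c c' s hc hs)).congr_deriv ?_,
    fun i p hp => ?_, fun p hp => ?_⟩
  · simp only [add_mul, mul_add, Finset.sum_add_distrib, Finset.sum_mul, Finset.mul_sum]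
    simp only [mul_assoc, mul_comm, mul_left_comm]
    ring
  · exact (((h6 i p hp).mul (dp_of_df h5' i hp)).add ((dp_of_df h5 i hp).mul
      (h6' i p hp))).congr_deriv (by simp)
  · simp only [h7 p hp, h7' p hp, add_mul, mul_add, Finset.sum_mul, Finset.mul_sum, add_assoc,
      ← Finset.sum_add_distrib]
    rw [add_left_comm (∑ _, _), ← Finset.sum_add_distrib]
    exact congrArg _ (congrArg _ (Finset.sum_congr rfl fun i _ => by ring))

theorem const (c : ℝ) : LI d h O (fun _ => c) (fun _ => 0) fun _ _ => 0 := (Ito.const c).li h O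

theorem const_mul (c : ℝ) (hI : LI d h O G a b) :
    LI d h O (fun p => c * G p) (fun p => c * a p) fun i p => c * b i p :=
  ((const c).mul hI).congr (fun _ _ => by simp) fun _ _ => by simp

theorem sub (hI : LI d h O G a b) (h' : LI d h O H a' b') :
    LI d h O (fun p => G p - H p) (fun p => a p - a' p) fun i p => b i p - b' i p := by
  simpa [sub_eq_add_neg] using hI.add (h'.const_mul (-1))

theorem sum {κ : Type*} (s : Finset κ) {G a : κ → Pt ι → ℝ} {b : κ → ι → Pt ι → ℝ}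
    (hI : ∀ k ∈ s, LI d h O (G k) (a k) (b k)) :
    LI d h O (fun p => ∑ k ∈ s, G k p) (fun p => ∑ k ∈ s, a k p) fun i p => ∑ k ∈ s, b k i p := by
  classical
  induction s using Finset.induction_on with
  | empty => simpa using const 0
  | insert k s hk ih =>
    simpa [Finset.sum_insert hk] using (hI k (by simp)).add (ih fun j hj => hI j (by simp [hj]))

theorem comp (hI : LI d h O G a b) {φ φ' φ'' : ℝ → ℝ} {S : Set ℝ} (hS : ∀ p ∈ Icc 0 h ×ˢ O, G p ∈ S)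
    (d1 : ∀ x ∈ S, HasDerivAt φ (φ' x) x) (d2 : ∀ x ∈ S, HasDerivAt φ' (φ'' x) x)
    (e2 : ContinuousOn φ'' S) :
    LI d h O (fun p => φ (G p)) (fun p => φ' (G p) * a p + φ'' (G p) * (∑ i, b i p ^ 2) / 2)
      fun i p => φ' (G p) * b i p := by
  obtain ⟨g, k, h1, h2, h3, h4, h5, h6, h7⟩ := hI
  have hs : (Ioo 0 h ×ˢ O : Set (Pt ι)) ⊆ Icc 0 h ×ˢ O := prod_mono Ioo_subset_Icc_self le_rfl
  have e0 : ContinuousOn (fun p => φ (G p)) (Icc 0 h ×ˢ O) :=
    ContinuousOn.comp (fun x hx => (d1 x hx).continuousAt.continuousWithinAt) h1 hS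
  have e1 : ContinuousOn (fun p => φ' (G p)) (Icc 0 h ×ˢ O) :=
    ContinuousOn.comp (fun x hx => (d2 x hx).continuousAt.continuousWithinAt) h1 hS
  have e2 : ContinuousOn (fun p => φ'' (G p)) (Icc 0 h ×ˢ O) := e2.comp h1 hS
  refine ⟨fun p => φ' (G p) * g p, fun i p => φ'' (G p) * b i p * b i p + φ' (G p) * k i p, e0,
    e1.mul h2, fun i => e1.mul (h3 i), fun i => ((e2.mul (h3 i)).mul (h3 i)).add (e1.mul (h4 i)),
    fun c c' s hc hs' => ((d1 _ (hS _ (hs hs'))).comp s (h5 c c' s hc hs')).congr_deriv ?_,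
    fun i p hp => ?_, fun p hp => ?_⟩
  · simp only [mul_add, Finset.mul_sum, mul_assoc]
  · have := (show HasDerivAt φ' (φ'' (G p)) (G (p.1, Function.update p.2 i (p.2 i))) by
      simpa using d2 _ (hS p (hs hp))).comp (p.2 i) (dp_of_df h5 i hp)
    exact (this.mul (h6 i p hp)).congr_deriv (by simp)
  · simp only [h7 p hp, mul_add, Finset.mul_sum, Finset.sum_div, add_assoc, ← Finset.sum_add_distrib]
    exact congrArg _ (Finset.sum_congr rfl fun i _ => by ring)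

end LI

theorem eg_ext {I : Set ℝ} {K : Set (ι → ℝ)} {f f' : Pt ι → ℝ} (hI : I ⊆ Icc 0 h) (hO : IsOpen O)
    (hK : IsCompact K) (hKO : K ⊆ O) (hf : ContinuousOn f (Icc 0 h ×ˢ O))
    (e : ∀ p ∈ I ×ˢ O, f' p = f p) (z : ∀ p : Pt ι, p.2 ∉ K → f' p = 0) : EG I f' := by
  obtain ⟨C, hC⟩ := (isCompact_Icc.prod hK).exists_bound_of_continuousOn
    (hf.mono (prod_mono le_rfl hKO))
  refine .of_bdd (fun p hp => ?_) |C| fun p hp => ?_
  · by_cases hp2 : p.2 ∈ K
    · refine (((hf.mono (prod_mono hI le_rfl)).congr e) p ⟨hp.1, hKO hp2⟩).mono_of_mem_nhdsWithin ?_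
      filter_upwards [self_mem_nhdsWithin, mem_nhdsWithin_of_mem_nhds
        (continuous_snd.continuousAt.preimage_mem_nhds (hO.mem_nhds (hKO hp2)))] with q h1 h2
      exact ⟨h1.1, h2⟩
    · refine ((continuousAt_const (y := (0 : ℝ))).congr ?_).continuousWithinAt
      filter_upwards [continuous_snd.continuousAt.preimage_mem_nhds
        (hK.isClosed.isOpen_compl.mem_nhds hp2)] with q h1
      exact (z q h1).symm
  · by_cases hp2 : p.2 ∈ K
    · rw [e p ⟨hp, hKO hp2⟩]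
      exact (hC p ⟨hI hp, hp2⟩).trans (le_abs_self C)
    · simp [z p hp2]

open Classical in
/-- extension by zero -/
theorem LI.ext0 {K : Set (ι → ℝ)} (hI : LI d h O G a b) (hO : IsOpen O) (hK : IsCompact K)
    (hKO : K ⊆ O) (z : ∀ p : Pt ι, p.2 ∉ K → G p = 0) :
    Ito d (Ioo 0 h) G (fun p => if p.2 ∈ K then a p else 0)
      (fun i p => if p.2 ∈ K then b i p else 0) ∧ EG (Icc 0 h) G := by
  obtain ⟨g, k, h1, h2, h3, h4, h5, h6, h7⟩ := hI
  have hV : IsOpen (Ioo 0 h ×ˢ O : Set (Pt ι)) := isOpen_Ioo.prod hO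
  have near : ∀ {c : ℝ → Pt ι} {c' : Pt ι} {s : ℝ}, HasDerivAt c c' s → (c s).2 ∉ K →
      ∀ᶠ r in 𝓝 s, (c r).2 ∉ K := fun hc hs =>
    hc.continuousAt.snd.preimage_mem_nhds (hK.isClosed.isOpen_compl.mem_nhds hs)
  have zero : ∀ {c : ℝ → Pt ι} {c' : Pt ι} {s : ℝ}, HasDerivAt c c' s → (c s).2 ∉ K →
      HasDerivAt (fun r => G (c r)) 0 s := fun hc hs =>
    (hasDerivAt_const _ (0 : ℝ)).congr_of_eventuallyEq ((near hc hs).mono fun r hr => z _ hr)
  have zb : ∀ i, ∀ p ∈ Ioo 0 h ×ˢ O, p.2 ∉ K → b i p = 0 := fun i p hp hp2 =>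
    (dp_of_df h5 i hp).unique (zero (upd_curve p i) (by simpa using hp2))
  have zg : ∀ p ∈ Ioo 0 h ×ˢ O, p.2 ∉ K → g p = 0 := fun p hp hp2 => by
    have hc : HasDerivAt (fun s => ((s, p.2) : Pt ι)) (1, 0) p.1 :=
      (hasDerivAt_id' _).prodMk (hasDerivAt_const _ _)
    simpa using (h5 _ _ _ hc hp).unique (zero hc hp2)
  have inV : ∀ i, ∀ p ∈ Ioo 0 h ×ˢ O, ∀ᶠ s in 𝓝 (p.2 i),
      ((p.1, Function.update p.2 i s) : Pt ι) ∈ Ioo 0 h ×ˢ O := fun i p hp =>
    (upd_curve p i).continuousAt.preimage_mem_nhds (hV.mem_nhds (by simpa using hp))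
  have zk : ∀ i, ∀ p ∈ Ioo 0 h ×ˢ O, p.2 ∉ K → k i p = 0 := fun i p hp hp2 =>
    (h6 i p hp).unique ((hasDerivAt_const _ (0 : ℝ)).congr_of_eventuallyEq
      (((inV i p hp).and (near (upd_curve p i) (by simpa using hp2))).mono
        fun r hr => zb i _ hr.1 hr.2))
  have cut : ∀ f : Pt ι → ℝ, (∀ p ∈ Ioo 0 h ×ˢ O, p.2 ∉ K → f p = 0) → ∀ p ∈ Ioo 0 h ×ˢ O,
      (if p.2 ∈ K then f p else 0) = f p := fun f hf p hp => by
    by_cases hp2 : p.2 ∈ K <;> simp [hp2, hf p hp]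
  have eg : ∀ f : Pt ι → ℝ, ContinuousOn f (Icc 0 h ×ˢ O) →
      (∀ p ∈ Ioo 0 h ×ˢ O, p.2 ∉ K → f p = 0) → EG (Ioo 0 h) fun p => if p.2 ∈ K then f p else 0 :=
    fun f hf h0 => eg_ext Ioo_subset_Icc_self hO hK hKO hf (cut f h0) fun p hp => if_neg hp
  have hG : EG (Icc 0 h) G := eg_ext le_rfl hO hK hKO h1 (fun _ _ => rfl) z
  refine ⟨⟨fun p => if p.2 ∈ K then g p else 0, fun i p => if p.2 ∈ K then k i p else 0,
    hG.mono Ioo_subset_Icc_self, eg g h2 zg, fun i => eg _ (h3 i) (zb i), fun i => eg _ (h4 i) (zk i),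
    fun c c' s hc hs => ?_, fun i p hp => ?_, fun p hp => ?_⟩, hG⟩
  · by_cases h2 : (c s).2 ∈ K
    · simpa [h2] using h5 c c' s hc ⟨hs, hKO h2⟩
    · simpa [h2] using zero hc h2
  · by_cases h2 : p.2 ∈ K
    · simp only [if_pos h2]
      exact (h6 i p ⟨hp, hKO h2⟩).congr_of_eventuallyEq
        ((inV i p ⟨hp, hKO h2⟩).mono fun r hr => cut _ (zb i) _ hr)
    · simp only [if_neg h2]
      exact (hasDerivAt_const _ (0 : ℝ)).congr_of_eventuallyEq
        ((near (upd_curve p i) (by simpa using h2)).mono fun r hr => if_neg hr)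
  · by_cases h2 : p.2 ∈ K
    · simpa [h2] using h7 p ⟨hp, hKO h2⟩
    · simp [h2]

/-- data of a flat cutoff at radius `R` -/
structure Cut (d : ι → Pt ι → ℝ) (R C : ℝ) (ζ a : Pt ι → ℝ) (b : ι → Pt ι → ℝ) : Prop where
  li : ∀ h O, LI d h O ζ a b
  nn : ∀ p, 0 ≤ ζ p
  le : ∀ p, ζ p ≤ 1
  out : ∀ p, R ^ 2 ≤ p.2 ⬝ᵥ p.2 → ζ p = 0
  mid : ∀ p, 2 * (p.2 ⬝ᵥ p.2) < R ^ 2 → ζ p = 1 ∧ a p = 0 ∧ ∀ i, b i p = 0
  bd : ∀ p, p.2 ⬝ᵥ p.2 ≤ R ^ 2 → |a p| ≤ C ∧ ∑ i, b i p ^ 2 ≤ C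

theorem exists_cut : ∃ C > (0 : ℝ), ∀ (n : ℕ) (d : Fin n → Pt (Fin n) → ℝ) (R K : ℝ), 0 < n → 0 < R →
    (n : ℝ) ≤ K * R ^ 2 → (∀ p, nrm (fun i => d i p) ≤ K * R) →
    ∃ ζ a b, Cut d R (C * K) ζ a b := by
  let φ := Real.smoothTransition
  have c0 : ContDiff ℝ 2 φ := Real.smoothTransition.contDiff
  have c1 : ContDiff ℝ 1 (deriv φ) := c0.deriv' 
  have c2 : Continuous (deriv (deriv φ)) := c1.continuous_deriv le_rfl
  obtain ⟨A, hA⟩ := (isCompact_Icc (a := (0 : ℝ)) (b := 2)).exists_bound_of_continuousOn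
    c1.continuous.continuousOn
  obtain ⟨B, hB⟩ := (isCompact_Icc (a := (0 : ℝ)) (b := 2)).exists_bound_of_continuousOn
    c2.continuousOn
  have hA0 : 0 ≤ A := (norm_nonneg _).trans (hA 0 (by simp))
  have hB0 : 0 ≤ B := (norm_nonneg _).trans (hB 0 (by simp))
  have f1 : ∀ x > (1 : ℝ), deriv φ x = 0 := fun x hx => by
    rw [← deriv_const x (1 : ℝ)]
    exact EventuallyEq.deriv_eq ((lt_mem_nhds hx).mono fun y hy =>
      Real.smoothTransition.one_of_one_le hy.le)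
  have f2 : ∀ x > (1 : ℝ), deriv (deriv φ) x = 0 := fun x hx => by
    rw [← deriv_const x (0 : ℝ)]
    exact EventuallyEq.deriv_eq ((lt_mem_nhds hx).mono f1)
  refine ⟨6 * A + 8 * B + 16 * A ^ 2 + 1, by positivity, fun n d R K hn hR hK hd => ?_⟩
  have hn1 : (1 : ℝ) ≤ n := Nat.one_le_cast.2 hn
  have hR2 : 0 < R ^ 2 := by positivity
  have hK0 : 0 < K := by nlinarith
  have hK1 : 1 / R ^ 2 ≤ K := by rw [div_le_iff₀ hR2]; linarith
  have hv : ∀ h O, LI d h O (fun p => 2 - 2 / R ^ 2 * (p.2 ⬝ᵥ p.2))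
      (fun p => -(2 / R ^ 2 * (2 * (p.2 ⬝ᵥ fun i => d i p) + n))) fun i p => -(4 / R ^ 2 * p.2 i) :=
    fun h O => ((LI.const 2).sub ((LI.sum Finset.univ fun j _ =>
      ((Ito.coord j).li h O).mul ((Ito.coord j).li h O)).const_mul (2 / R ^ 2))).congr
      (fun p _ => by simp [dotProduct, Finset.sum_add_distrib, mul_comm, two_mul])
      fun i p => by simp [Finset.sum_add_distrib]; ring
  refine ⟨_, _, _, fun h O => (hv h O).comp (S := univ) (φ := φ) (fun _ _ => trivial)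
    (fun x _ => (c0.differentiable (by simp) x).hasDerivAt)
    (fun x _ => (c1.differentiable (by simp) x).hasDerivAt) c2.continuousOn,
    fun _ => Real.smoothTransition.nonneg _, fun _ => Real.smoothTransition.le_one _,
    fun p hp => Real.smoothTransition.zero_of_nonpos ?_, fun p hp => ?_, fun p hp => ?_⟩
  · rw [sub_nonpos, div_mul_eq_mul_div, le_div_iff₀ hR2]; linarith
  · have : 1 < 2 - 2 / R ^ 2 * (p.2 ⬝ᵥ p.2) := by
      rw [lt_sub_comm, div_mul_eq_mul_div, div_lt_iff₀ hR2]; linarith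
    exact ⟨Real.smoothTransition.one_of_one_le this.le, by simp [f1 _ this, f2 _ this],
      fun i => by simp [f1 _ this]⟩
  · have h0 := dot_self_nonneg p.2
    have hm : 2 - 2 / R ^ 2 * (p.2 ⬝ᵥ p.2) ∈ Icc (0 : ℝ) 2 := by
      refine ⟨?_, sub_le_self _ (by positivity)⟩
      rw [sub_nonneg, div_mul_eq_mul_div, div_le_iff₀ hR2]; linarith
    have h1 := hA _ hm
    have h2 := hB _ hm
    rw [Real.norm_eq_abs] at h1 h2
    set x := deriv φ (2 - 2 / R ^ 2 * (p.2 ⬝ᵥ p.2))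
    set y := deriv (deriv φ) (2 - 2 / R ^ 2 * (p.2 ⬝ᵥ p.2))
    have e1 : ∑ i, (-(4 / R ^ 2 * p.2 i)) ^ 2 = 16 / R ^ 2 * (p.2 ⬝ᵥ p.2 / R ^ 2) := by
      simp only [dotProduct, Finset.sum_div, Finset.mul_sum]
      exact Finset.sum_congr rfl fun i _ => by ring
    have e2 : ∑ i, (-(4 / R ^ 2 * p.2 i)) ^ 2 ≤ 16 * K := by
      rw [e1]
      have : p.2 ⬝ᵥ p.2 / R ^ 2 ≤ 1 := (div_le_one hR2).2 hp
      calc _ ≤ 16 / R ^ 2 * 1 := by gcongr
        _ = 16 * (1 / R ^ 2) := by ring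
        _ ≤ _ := by gcongr
    have e3 : |2 / R ^ 2 * (2 * (p.2 ⬝ᵥ fun i => d i p) + n)| ≤ 6 * K := by
      have h3 : nrm p.2 ≤ R := (nrm_le_iff hR.le).2 hp
      have h4 : |p.2 ⬝ᵥ fun i => d i p| ≤ R * (K * R) :=
        (abs_dot_le _ _).trans (mul_le_mul h3 (hd p) (nrm_nonneg _) hR.le)
      rw [abs_mul, abs_of_pos (by positivity), div_mul_eq_mul_div, div_le_iff₀ hR2]
      have := abs_add_le (2 * (p.2 ⬝ᵥ fun i => d i p)) n
      rw [abs_mul, abs_two, Nat.abs_cast] at this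
      nlinarith
    have e4 : 0 ≤ ∑ i, (-(4 / R ^ 2 * p.2 i)) ^ 2 := Finset.sum_nonneg fun i _ => sq_nonneg _
    constructor
    · refine (abs_add_le _ _).trans ?_
      rw [abs_mul x, abs_neg, abs_div (y * _), abs_mul y, abs_of_nonneg e4, abs_two]
      have := mul_le_mul h1 e3 (abs_nonneg _) hA0
      have := mul_le_mul h2 e2 e4 hB0
      nlinarith [mul_nonneg (sq_nonneg A) hK0.le]
    · simp only [mul_pow x, ← Finset.mul_sum]
      have := mul_le_mul (sq_le_sq' (abs_le.1 h1).1 (abs_le.1 h1).2) e2 e4 (sq_nonneg A)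
      nlinarith [mul_nonneg hA0 hK0.le, mul_nonneg hB0 hK0.le]

variable {Ω : Type*} [Fintype Ω] {φ : Ω → ι → ℝ} {v : Ω → ℝ} {t : ℝ}

theorem mg_ind {A : Set (ι → ℝ)} (hA : MeasurableSet A) : MG (A.indicator fun _ => (1 : ℝ)) :=
  (MG.const 1).indicator hA

theorem ex_ind (hv : Wt v) {A : Set (ι → ℝ)} (hA : MeasurableSet A) :
    ex φ v (fun p => A.indicator (fun _ => (1 : ℝ)) p.2) t = (law φ v t).real A := by
  rw [ex_eq_integral hv (mg_ind hA)]
  exact integral_indicator_one hA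

/-- the logarithm of the normaliser of the posterior -/
theorem li_logZ (hv : Wt v) (h : ℝ) (O : Set (ι → ℝ)) : LI (md φ v) h O
    (fun p => Real.log (Zw (pw φ v p))) (fun p => (∑ i, md φ v i p ^ 2) / 2) (md φ v) := by
  have hs : (Icc 0 h ×ˢ O : Set (Pt ι)) ⊆ univ ×ˢ univ := prod_mono (subset_univ _) (subset_univ _)
  have hp : ∀ p : Pt ι, Wt (pw φ v p) := fun p => hv.post _ _ _
  refine ⟨fun p => -(mean (pw φ v p) fun x => φ x ⬝ᵥ φ x) / 2, fun i p => covMat (pw φ v p) φ i i,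
    ((continuous_finsetSum _ fun x _ => cont_pw φ v x).log fun p => (hp p).pos.ne').continuousOn,
    (((eg_mean hv _).neg.div_const 2).cont.mono hs), fun i => (eg_md hv i).cont.mono hs,
    fun i => (eg_cov hv _ _).cont.mono hs, fun c c' s hc _ => ?_,
    fun i p _ => (ito_md (I := univ) hv i).dp i p trivial, fun p _ => ?_⟩
  · have h1 : ∀ x, HasDerivAt (fun s => pw φ v (c s) x)
        (pw φ v (c s) x * (c'.2 ⬝ᵥ φ x - c'.1 / 2 * (φ x ⬝ᵥ φ x))) s := fun x =>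
      (((HasDerivAt.fun_sum fun i _ => (hasDerivAt_pi.1 hc.snd i).mul_const (φ x i)).sub
        (((show HasDerivAt (fun s => (c s).1) c'.1 s from hc.fst).div_const 2).mul_const
          _)).exp.const_mul (v x)).congr_deriv (mul_assoc _ _ _).symm
    refine ((HasDerivAt.fun_sum fun x _ => h1 x).log (hp _).pos.ne').congr_deriv ?_
    rw [← mean_eq_div, mean_sub, mean_const_mul, ← meanV_dot]
    simp only [dotProduct, md, mul_comm]
    ring
  · simp only [dotProduct, mean_sum, neg_div, Finset.sum_div, ← Finset.sum_neg_distrib,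
      ← Finset.sum_add_distrib]
    refine Finset.sum_congr rfl fun i _ => ?_
    simp only [covMat, md, meanV, (hp p).cov_eq]
    ring

end Crest.Agent.T157.SL
end
end

-- ▼ part T157/LpChain_6
section

/-!
# Row 157, part A: the grid of times and the iteration of the step (helper6)
-/

set_option autoImplicit false

noncomputable section

namespace Crest.Agent.T157.Lp

open MeasureTheory ProbabilityTheory Matrix Filter Set
open Crest.ProbabilityR.SpinGlassDynamics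
open Crest.Agent.T157.E Crest.Agent.T157.Eig Crest.Agent.T157.Tap Crest.Agent.T157.Lp.G1

variable {n : ℕ} {J : Mx n} {b : ℝ} {v : Cube n → ℝ}

namespace Ch6

theorem frob_eq (v : Cube n → ℝ) (s : ℝ) (y : V n) : frob (tilt v y) = ∑ i,
    covV (SL.pw sv v (s, y)) (fun x => sv x i) sv ⬝ᵥ covV (SL.pw sv v (s, y)) (fun x => sv x i) sv := by
  simp only [frob, SL.pw, SL.covV_post_sv, dotProduct, sq]
  rfl

theorem frob_nonneg (v : Cube n → ℝ) : 0 ≤ frob v :=
  Finset.sum_nonneg fun _ _ => Finset.sum_nonneg fun _ _ => sq_nonneg _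

theorem mg_frob (hv : SL.Wt v) : SL.MG fun y => frob (tilt v y) := by
  simp only [frob_eq v 0]
  exact .sum _ fun i _ => (SL.eg_covV_dot (I := univ) hv _ _).mg (mem_univ 0)

theorem cov_mem {w : Cube n → ℝ} (hw : SL.Wt w) (i : Fin n) :
    cov w (fun x => sv x i) (fun x => sv x i) ∈ Icc (0 : ℝ) 1 := by
  rw [← SL.var_eq_cov]
  refine ⟨hw.var_nonneg _, (hw.var_le_mean _ 0).trans (hw.mean_le fun x => ?_)⟩
  rw [sub_zero, ← sq_abs]
  exact pow_le_one₀ (abs_nonneg _) (cb_sv x i)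

theorem chain {K e : ℝ} (hK : 1 ≤ K) (he : 0 ≤ e) : ∀ (M : ℕ) (d x : ℕ → ℝ), d M ≤ e →
    (∀ j < M, d j ≤ K * d (j + 1) + e) → (∀ j < M, x (j + 1) ≤ x j + (K * d (j + 1) + e)) →
    d 0 ≤ (K + 1) ^ M * e ∧ x M ≤ x 0 + M * ((K + 1) ^ M * e)
  | 0, d, x, h0, _, _ => by simpa using h0
  | M + 1, d, x, h0, h1, h2 => by
    obtain ⟨i1, i2⟩ := chain hK he M (fun j => d (j + 1)) (fun j => x (j + 1)) h0
      (fun j hj => h1 (j + 1) (by omega)) fun j hj => h2 (j + 1) (by omega)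
    have a1 : e ≤ (K + 1) ^ M * e := le_mul_of_one_le_left he (one_le_pow₀ (by linarith))
    have a2 := mul_le_mul_of_nonneg_left i1 (show 0 ≤ K by linarith)
    have a3 : K * d 1 + e ≤ (K + 1) ^ (M + 1) * e := by rw [pow_succ]; simp only [zero_add] at a2; nlinarith
    have a4 : (K + 1) ^ M * e ≤ (K + 1) ^ (M + 1) * e := by rw [pow_succ]; nlinarith
    have a5 := mul_le_mul_of_nonneg_left a4 (Nat.cast_nonneg (α := ℝ) M)
    have b1 := h1 0 (by omega)
    have b2 := h2 0 (by omega)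
    simp only [zero_add] at b1 b2 i2
    refine ⟨b1.trans a3, ?_⟩
    push_cast
    linarith

/-- the transition operator -/
def Qo (v : Cube n → ℝ) (h : ℝ) (F : V n → ℝ) (y : V n) : ℝ :=
  slE sv (tilt v y) h fun _ z => F (y + z)

theorem Qo_eq (v : Cube n → ℝ) (s h : ℝ) (F : V n → ℝ) (y : V n) :
    Qo v h F y = slE sv (post sv v s y) h fun _ z => F (y + z) := by
  simp only [Qo, SL.slE_eq_mean, SL.mean_post_sv]

theorem mg_Qo (hv : SL.Wt v) (h : ℝ) {F : V n → ℝ} (hF : SL.MG F) : SL.MG (Qo v h F) := by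
  rw [funext (Qo_eq v 0 h F)]
  exact SL.mg_mean (φ := sv) hv 0 fun x => hF.conv (h • sv x) (Real.sqrt h)

theorem markov (hv : SL.Wt v) {s h : ℝ} (hs : 0 ≤ s) (hh : 0 ≤ h) {F : V n → ℝ} (hF : SL.MG F) :
    slE sv v (s + h) (fun _ y => F y) = slE sv v s fun _ y => Qo v h F y := by
  simp only [Qo_eq v s]
  exact SL.markov hv hs hh fun _ => hF

theorem Qo_Xi_le (hJ : opn J ≤ 3) (hb : b ∈ Icc (0 : ℝ) 1) (hv : SL.Wt v) {h : ℝ}
    (hh : h ∈ Icc (0 : ℝ) 1) (y : V n) :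
    Qo v h (Xi J b v) y ≤ Xi J b v y + 9 * n + 2 * nrm y * Real.sqrt n := by
  have hw := hv.tilt y
  have m : SL.MG fun z : V n => (Xi J b v y + 7 * n + 2 * nrm y * Real.sqrt n) + z ⬝ᵥ z :=
    (SL.MG.const _).add mg_dot
  refine (SL.slE_mono hw (.of_mg fun _ => mg_shift (mg_Xi hJ hb hv) y) (.of_mg fun _ => m)
    fun _ z => ?_).trans ?_
  · have h1 := Xi_sub_le hJ hb hv y z
    have h2 := sq_sqrt_n (n := n)
    have h3 := nrm_mul_self z
    nlinarith [sq_nonneg (nrm z - Real.sqrt n)]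
  · rw [SL.slE_add (.of_mg fun _ => SL.MG.const _) (.of_mg fun _ => mg_dot), slE_const hw,
      slE_normsq hw hh.1]
    have : h ^ 2 + h ≤ 2 := by nlinarith [hh.1, hh.2]
    nlinarith [mul_le_mul_of_nonneg_right this (Nat.cast_nonneg (α := ℝ) n)]

/-- one step, `W ≥ 1` on bad parents -/
theorem step (hJ : opn J ≤ 3) (hb : b ∈ Icc (0 : ℝ) 1) (hv : SL.Wt v) {κ0 R h0 K σ δ' s h l p : ℝ}
    (hS : StepP J b κ0 R h0 K σ δ') (hK : 0 ≤ K) (hσ : 0 ≤ σ) (hs : 0 ≤ s) (hh : h ∈ Icc 0 h0)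
    (h1 : h ≤ 1) (hl : 0 < l) {W : V n → ℝ} (mW : SL.MG W) (W0 : ∀ y, 0 ≤ W y)
    (W1 : ∀ y, W y < 1 → nrm y ≤ R * Real.sqrt n ∧ κ0 * n ≤ th y ⬝ᵥ th y ∧
      frob (tilt v y) ≤ δ' ^ 2 * (n : ℝ) ^ 2) (hp : slE sv v s (fun _ y => W y) ≤ p) :
    slE sv v s (fun _ y => Dv J b v y) ≤
      K * slE sv v (s + h) (fun _ y => Dv J b v y) + (K * σ + 4 * p) * n ∧
    slE sv v (s + h) (fun _ y => Xi J b v y) ≤ slE sv v s (fun _ y => Xi J b v y) +
      (K * slE sv v (s + h) (fun _ y => Dv J b v y) +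
        (K * σ + (9 + 1 / l) * p + l * (s ^ 2 + s)) * n) := by
  have n0 : (0 : ℝ) ≤ n := Nat.cast_nonneg n
  have mD := mg_Dv J b hv
  have mX := mg_Xi hJ hb hv
  have mQ := mg_Qo hv h mD
  have Q0 : ∀ y, 0 ≤ K * (Qo v h (Dv J b v) y + σ * n) := fun y => mul_nonneg hK (add_nonneg
    (SL.slE_nonneg (hv.tilt y) fun _ _ => Dv_nonneg _ _ _ _) (by positivity))
  have mK : SL.MG fun y => K * (Qo v h (Dv J b v) y + σ * n) := (mQ.add (.const _)).const_mul K
  have eK : slE sv v s (fun _ y => K * (Qo v h (Dv J b v) y + σ * n)) =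
      K * (slE sv v (s + h) (fun _ y => Dv J b v y) + σ * n) := by
    rw [SL.slE_const_mul, SL.slE_add (.of_mg fun _ => mQ) (.of_mg fun _ => .const _), slE_const hv,
      markov hv hs hh.1 mD]
  constructor
  · refine (SL.slE_mono hv (.of_mg fun _ => mD) (.of_mg fun _ => mK.add (mW.const_mul (4 * n)))
      fun _ y => ?_).trans ?_
    · rcases lt_or_ge (W y) 1 with hy | hy
      · obtain ⟨a1, a2, a3⟩ := W1 y hy
        exact (hS v hv y a1 a2 a3 h hh).1.trans (le_add_of_nonneg_right (mul_nonneg (by positivity) (W0 y)))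
      · nlinarith [Dv_le J b hv y, Q0 y, mul_le_mul_of_nonneg_left hy n0]
    · rw [SL.slE_add (.of_mg fun _ => mK) (.of_mg fun _ => mW.const_mul _), eK, SL.slE_const_mul]
      nlinarith [mul_le_mul_of_nonneg_left hp n0]
  · have l1 : 0 < 1 / l := by positivity
    rw [markov hv hs hh.1 mX]
    refine (SL.slE_mono hv (.of_mg fun _ => mg_Qo hv h mX) (.of_mg fun _ => (mX.add mK).add
      ((mW.const_mul ((9 + 1 / l) * n)).add (mg_dot.const_mul l))) fun _ y => ?_).trans ?_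
    · have y0 := mul_nonneg hl.le (dot_self_nonneg y)
      rcases lt_or_ge (W y) 1 with hy | hy
      · obtain ⟨a1, a2, a3⟩ := W1 y hy
        exact (hS v hv y a1 a2 a3 h hh).2.trans (le_add_of_nonneg_right
          (add_nonneg (mul_nonneg (by positivity) (W0 y)) y0))
      · have a1 := Qo_Xi_le hJ hb hv ⟨hh.1, h1⟩ y
        have a2 : 2 * nrm y * Real.sqrt n ≤ l * (y ⬝ᵥ y) + 1 / l * n := by
          have e : l * (y ⬝ᵥ y) + 1 / l * n - 2 * nrm y * Real.sqrt n =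
              1 / l * (l * nrm y - Real.sqrt n) ^ 2 := by
            rw [← nrm_mul_self y, sub_sq, Real.sq_sqrt n0]; field_simp; ring
          nlinarith [mul_nonneg l1.le (sq_nonneg (l * nrm y - Real.sqrt n))]
        have a3 := mul_le_mul_of_nonneg_left hy (show 0 ≤ (9 + 1 / l) * n by positivity)
        linarith [Q0 y]
    · rw [SL.slE_add (.of_mg fun _ => mX.add mK) (.of_mg fun _ => (mW.const_mul _).add
        (mg_dot.const_mul l)), SL.slE_add (.of_mg fun _ => mX) (.of_mg fun _ => mK), eK,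
        SL.slE_add (.of_mg fun _ => mW.const_mul _) (.of_mg fun _ => mg_dot.const_mul l),
        SL.slE_const_mul, SL.slE_const_mul, slE_normsq hv hs]
      nlinarith [mul_le_mul_of_nonneg_left hp (show 0 ≤ (9 + 1 / l) * n by positivity)]

end Ch6

open Ch6

theorem gridStmt : GridStmt := by
  intro n v a h hv ha hh
  refine ⟨mg_frob hv, ?_⟩
  obtain ⟨s, hs, e⟩ := exists_hasDerivAt_eq_slope
    (fun s => ∑ i, SL.ex sv v (fun p => cov (SL.pw sv v p) (fun x => sv x i) fun x => sv x i) s)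
    (fun s => -slE sv v s fun _ y => frob (tilt v y)) (show a < a + h by linarith)
    (continuousOn_finsetSum _ fun i _ => (SL.eg_cov hv _ _).continuousOn_ex) fun s hs => by
      refine (HasDerivAt.fun_sum fun i _ =>
        SL.hasDerivAt_ex_cov hv _ _ (ha.trans_lt hs.1)).congr_deriv ?_
      rw [Finset.sum_neg_distrib, ← SL.ex_sum _ fun i _ =>
        (SL.eg_covV_dot (I := univ) hv _ _).mg (mem_univ s)]
      simp only [frob_eq v s, SL.ex]
  refine ⟨s, Ioo_subset_Icc_self hs, ?_⟩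
  have b1 : 0 ≤ ∑ i, SL.ex sv v (fun p => cov (SL.pw sv v p) (fun x => sv x i) fun x => sv x i) (a + h) :=
    Finset.sum_nonneg fun i _ => SL.ex_nonneg hv fun y => (cov_mem (hv.post _ _ _) i).1
  have b2 : ∑ i, SL.ex sv v (fun p => cov (SL.pw sv v p) (fun x => sv x i) fun x => sv x i) a ≤ n :=
    (Finset.sum_le_card_nsmul _ _ 1 fun i _ => (SL.ex_mono (H := fun _ => 1) hv
      ((SL.eg_cov (I := univ) hv _ _).mg (mem_univ a)) (.const 1)
      fun y => (cov_mem (hv.post _ _ _) i).2).trans_eq (SL.ex_const hv 1 a)).trans_eq (by simp)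
  rw [add_sub_cancel_left, neg_eq_iff_eq_neg, ← neg_div] at e
  rw [e]
  exact div_le_div_of_nonneg_right (by linarith) hh.le

theorem chainGlue : ChainGlue := by
  intro hG t0 ht0 T hT h0 hh0 K hK τ hτ
  obtain ⟨h1, p1, a1, a2, a3⟩ : ∃ h1 > (0 : ℝ), 2 * h1 ≤ h0 ∧ h1 ≤ t0 ∧ 2 * h1 ≤ 1 :=
    ⟨min h0 (min t0 1) / 2, by positivity, by linarith [min_le_left h0 (min t0 1)],
      by linarith [(min_le_right h0 _).trans (min_le_left t0 1)],
      by linarith [(min_le_right h0 _).trans (min_le_right t0 1)]⟩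
  obtain ⟨M, M1, M2⟩ : ∃ M : ℕ, T ≤ t0 + M * h1 ∧ t0 + M * h1 ≤ T + h1 := by
    have q : 0 ≤ (T - t0) / h1 := div_nonneg (by linarith) p1.le
    have q1 := (div_le_iff₀ p1).1 (Nat.le_ceil ((T - t0) / h1))
    have q2 := mul_le_mul_of_nonneg_right (Nat.ceil_lt_add_one q).le p1.le
    rw [add_mul, div_mul_cancel₀ _ p1.ne'] at q2
    exact ⟨⌈(T - t0) / h1⌉₊, by linarith, by linarith⟩
  have T0 : 0 < T := by linarith
  have K0 : 0 < K := by linarith
  obtain ⟨η, η0, hη⟩ : ∃ η > (0 : ℝ), (M + 1) * ((K + 1) ^ M * η) = τ :=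
    ⟨τ / ((M + 1) * (K + 1) ^ M), by positivity, by field_simp⟩
  obtain ⟨l, l0, hl⟩ : ∃ l > (0 : ℝ), l * ((T + 1) ^ 2 + (T + 1)) = η / 3 :=
    ⟨η / 3 / ((T + 1) ^ 2 + (T + 1)), by positivity, by field_simp⟩
  obtain ⟨ε, ε0, hε⟩ : ∃ ε > (0 : ℝ), (9 + 1 / l) * (2 * ε) = η / 3 :=
    ⟨η / 3 / (9 + 1 / l) / 2, by positivity, by field_simp⟩
  obtain ⟨σ, σ0, hσ⟩ : ∃ σ > (0 : ℝ), K * σ = η / 3 := ⟨η / 3 / K, by positivity, by field_simp⟩
  refine ⟨σ, σ0, ε, ε0, fun δ' δ0 => ?_⟩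
  filter_upwards [eventually_gt_atTop 0, tendsto_natCast_atTop_atTop.eventually_ge_atTop
    (1 / (h1 * δ' ^ 2 * ε))] with n hn hn1 J b κ0 R hJ hb hS v hv hB hL
  have n0 : (0 : ℝ) < n := by positivity
  choose s hs hf using fun j : ℕ => (hG n v (t0 + j * h1) h1 hv (by positivity) p1).2
  have sl : ∀ j, t0 ≤ s j := fun j => le_trans (le_add_of_nonneg_right (by positivity)) (hs j).1
  have su : ∀ j ≤ M, s j ≤ T + 1 := fun j hj => by
    have := mul_le_mul_of_nonneg_right (Nat.cast_le (α := ℝ).2 hj) p1.le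
    linarith [(hs j).2]
  set A := {y : V n | ¬ (nrm y ≤ R * Real.sqrt n ∧ κ0 * n ≤ th y ⬝ᵥ th y)} with hA
  have mA : MeasurableSet A := ((isClosed_le continuous_nrm continuous_const).inter
    (isClosed_le continuous_const (continuous_th.dotProduct continuous_th))).measurableSet.compl
  have c0 : 0 < 1 / (δ' ^ 2 * (n : ℝ) ^ 2) := by positivity
  have m1 := (SL.MG.const (ι := Fin n) 1).indicator mA
  have m2 := (mg_frob hv).const_mul (1 / (δ' ^ 2 * (n : ℝ) ^ 2))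
  have key := fun j (hj : j < M) => step (s := s j) (h := s (j + 1) - s j) (p := 2 * ε) hJ hb hv hS
    K0.le σ0.le (ht0.le.trans (sl j))
    (by have := hs j; have := hs (j + 1); simp only [mem_Icc] at *; push_cast at *
        constructor <;> linarith)
    (by have := hs j; have := hs (j + 1); simp only [mem_Icc] at *; push_cast at *; linarith) l0
    (m1.add m2) (fun y => add_nonneg (indicator_nonneg (fun _ _ => zero_le_one) y)
      (mul_nonneg c0.le (frob_nonneg _)))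
    (fun y hy => by
      have b1 := mul_nonneg c0.le (frob_nonneg (tilt v y))
      by_cases hy' : y ∈ A
      · rw [indicator_of_mem hy'] at hy; linarith
      · rw [indicator_of_notMem hy', zero_add, one_div, inv_mul_lt_iff₀ (by positivity), mul_one] at hy
        have := not_not.1 hy'
        exact ⟨this.1, this.2, hy.le⟩)
    (by
      rw [SL.slE_add (.of_mg fun _ => m1) (.of_mg fun _ => m2), SL.slE_const_mul, slE_ind hv _ _ mA]
      have b1 := hB (s j) ⟨sl j, su j hj.le⟩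
      have b2 := mul_le_mul_of_nonneg_left (hf j) c0.le
      have b3 : 1 / (δ' ^ 2 * (n : ℝ) ^ 2) * (n / h1) ≤ ε := by
        rw [div_le_iff₀ (by positivity)] at hn1
        rw [div_mul_div_comm, div_le_iff₀ (by positivity)]
        nlinarith [mul_le_mul_of_nonneg_left hn1 n0.le]
      linarith)
  simp only [add_sub_cancel] at key
  have sM : s M ∈ Icc T (T + 1) := ⟨M1.trans (hs M).1, su M le_rfl⟩
  have l1 : 0 < 1 / l := by positivity
  obtain ⟨r1, r2⟩ := chain hK (show 0 ≤ η * n by positivity) M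
    (fun j => slE sv v (s j) fun _ y => Dv J b v y) (fun j => slE sv v (s j) fun _ y => Xi J b v y)
    ((hL _ sM).trans (mul_le_mul_of_nonneg_right (by nlinarith) n0.le))
    (fun j hj => (key j hj).1.trans (add_le_add le_rfl (mul_le_mul_of_nonneg_right (by nlinarith) n0.le)))
    fun j hj => (key j hj).2.trans (add_le_add le_rfl (add_le_add le_rfl (mul_le_mul_of_nonneg_right (by
      have b1 := su j hj.le
      have b2 := ht0.le.trans (sl j)
      have b3 : s j ^ 2 + s j ≤ (T + 1) ^ 2 + (T + 1) := by nlinarith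
      linarith [mul_le_mul_of_nonneg_left b3 l0.le]) n0.le)))
  have z : 0 ≤ (K + 1) ^ M * (η * n) := by positivity
  have z1 : τ * n = (M + 1) * ((K + 1) ^ M * (η * n)) := by rw [← hη]; ring
  refine ⟨s 0, ⟨sl 0, by have := (hs 0).2; simp at this; linarith⟩, s M, sM, ?_, ?_⟩
  · nlinarith [mul_nonneg (Nat.cast_nonneg (α := ℝ) M) z]
  · linarith

end Crest.Agent.T157.Lp
end
end

-- ▼ part T157/LpMulti_53
section

/-!
# Row 157, part A (helper53): almost orthogonal queries are almost independent, `Lp.MultiStmt`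
-/

set_option autoImplicit false
set_option linter.unusedSectionVars false

noncomputable section

namespace Crest.Agent.T157.Lp.Multi

open MeasureTheory ProbabilityTheory Matrix Filter Set
open Crest.Agent.T157.E Crest.Agent.T157.Eig Crest.Agent.T157.Cond Crest.Agent.T157.Tap
open Crest.Agent.T157.Kr
open scoped ENNReal

variable {n : ℕ}

lemma abs_dot_le' (u v : V n) : |u ⬝ᵥ v| ≤ nrm u * nrm v := by
  have h := Finset.sum_mul_sq_le_sq_mul_sq Finset.univ u v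
  refine abs_le.2 (abs_le_of_sq_le_sq' ?_ (mul_nonneg (nrm_nonneg _) (nrm_nonneg _)))
  rw [mul_pow, nrm_sq, nrm_sq]
  simpa only [dotProduct, sq] using h

/-- the optimal tilt `Σ⁻¹ X` of one query -/
def lam (β τ : ℝ) (v X : V n) : V n :=
  blk (unitv v) (τ + β ^ 2 * (v ⬝ᵥ v / n))⁻¹ (τ + 2 * (β ^ 2 * (v ⬝ᵥ v / n)))⁻¹ *ᵥ X

lemma phi_tilt {τ : ℝ} (hτ : 0 < τ) (X u l : V n) :
    phi τ (X - u) = Real.exp (l ⬝ᵥ u) * (Real.exp (-(l ⬝ᵥ X) + τ * (l ⬝ᵥ l) / 2) *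
      phi τ (X - τ • l - u)) := by
  unfold phi
  have key : ∀ c x₁ x₂ x₃ x₄ : ℝ, x₁ = x₂ + x₃ + x₄ →
      c * Real.exp x₁ = Real.exp x₂ * (Real.exp x₃ * (c * Real.exp x₄)) := by
    intro c x₁ x₂ x₃ x₄ h1
    rw [h1, Real.exp_add, Real.exp_add]; ring
  refine key _ _ _ _ _ ?_
  simp only [sub_dotProduct, dotProduct_sub, smul_dotProduct, dotProduct_smul, smul_eq_mul,
    dotProduct_comm u X, dotProduct_comm u l, dotProduct_comm X l]
  field_simp
  ring

section one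
variable {β τ B : ℝ} {v X : V n} (hn : 0 < n) (hβ : β ∈ Ioc (0 : ℝ) 1) (hτ : 0 < τ)
  (hv : τ * n ≤ β ^ 2 * (v ⬝ᵥ v))
include hn hβ hτ hv

lemma rho_ge : τ ≤ β ^ 2 * (v ⬝ᵥ v / n) := by
  have : (0 : ℝ) < n := by positivity
  rwa [← mul_div_assoc, le_div_iff₀ this]

lemma v_ne : v ≠ 0 := by
  intro h
  have := rho_ge hn hβ hτ hv
  rw [h, dotProduct_zero, zero_div, mul_zero] at this
  linarith

lemma diag_eq : -(lam β τ v X ⬝ᵥ X) + τ * (lam β τ v X ⬝ᵥ lam β τ v X) / 2 +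
    β ^ 2 / n * ((lam β τ v X ⬝ᵥ lam β τ v X) * (v ⬝ᵥ v) +
      (lam β τ v X ⬝ᵥ v) * (lam β τ v X ⬝ᵥ v)) / 2 =
    -(X ⬝ᵥ X) / (2 * (τ + β ^ 2 * (v ⬝ᵥ v / n))) + β ^ 2 * (v ⬝ᵥ v / n) * (unitv v ⬝ᵥ X) ^ 2 /
      (2 * (τ + β ^ 2 * (v ⬝ᵥ v / n)) * (τ + 2 * (β ^ 2 * (v ⬝ᵥ v / n)))) := by
  have he := unitv_dot (v_ne hn hβ hτ hv)
  have hρ := rho_ge hn hβ hτ hv
  have hN : (0 : ℝ) < n := by positivity
  have h1 : lam β τ v X ⬝ᵥ v = len v * ((τ + 2 * (β ^ 2 * (v ⬝ᵥ v / n)))⁻¹ * (unitv v ⬝ᵥ X)) := by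
    conv_lhs => enter [2]; rw [← len_smul_unitv v]
    rw [dotProduct_smul, dotProduct_comm, lam, dot_blk he, smul_eq_mul]
  have h2 : (v ⬝ᵥ v) = n * (v ⬝ᵥ v / n) := by field_simp
  have h3 : len v * len v = n * (v ⬝ᵥ v / n) := by rw [← sq, len_sq, ← h2]
  rw [h1, mul_mul_mul_comm, h3, lam, blk_dot_blk he, dotProduct_comm _ X, dot_blk']
  generalize v ⬝ᵥ v / n = ρ at *
  have h6 : ∀ Q R : ℝ, β ^ 2 / n * (Q * (n * ρ) + n * ρ * R) = β ^ 2 * ρ * (Q + R) := by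
    intro Q R; field_simp
  rw [h2, h6]
  generalize β ^ 2 * ρ = y at *
  obtain ⟨G, hG⟩ : ∃ G, G = τ + y := ⟨_, rfl⟩
  obtain ⟨H, hH⟩ : ∃ H, H = τ + 2 * y := ⟨_, rfl⟩
  have h4 : G ≠ 0 := by rw [hG]; linarith
  have h5 : H ≠ 0 := by rw [hH]; linarith
  rw [← hG, ← hH, show τ = 2 * G - H by linarith, show y = H - G by linarith]
  field_simp
  ring

lemma lam_nrm (hB : 0 ≤ B) (hX : X ⬝ᵥ X ≤ B ^ 2 * (τ + β ^ 2 * (v ⬝ᵥ v / n)) * n) :
    nrm (lam β τ v X) * Real.sqrt (τ + β ^ 2 * (v ⬝ᵥ v / n)) ≤ B * Real.sqrt n := by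
  have he := unitv_dot (v_ne hn hβ hτ hv)
  have hρ := rho_ge hn hβ hτ hv
  refine abs_le_of_sq_le_sq' ?_ (by positivity) |>.2
  rw [mul_pow, mul_pow, nrm_sq, Real.sq_sqrt (by linarith), Real.sq_sqrt (Nat.cast_nonneg _), lam,
    blk_dot_blk he]
  generalize β ^ 2 * (v ⬝ᵥ v / n) = ρ at *
  have h4 : 0 < τ + ρ := by linarith
  have h1 : (τ + 2 * ρ)⁻¹ ^ 2 ≤ (τ + ρ)⁻¹ ^ 2 :=
    pow_le_pow_left₀ (inv_nonneg.2 (by linarith)) (inv_anti₀ h4 (by linarith)) 2
  have h2 := mul_le_mul_of_nonneg_right h1 (sq_nonneg (unitv v ⬝ᵥ X))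
  calc _ ≤ ((τ + ρ)⁻¹ ^ 2 * (X ⬝ᵥ X)) * (τ + ρ) :=
        mul_le_mul_of_nonneg_right (by linarith) h4.le
    _ ≤ ((τ + ρ)⁻¹ ^ 2 * (B ^ 2 * (τ + ρ) * n)) * (τ + ρ) := by gcongr
    _ = _ := by field_simp

omit hv in
lemma v_nrm : β * nrm v ≤ Real.sqrt (τ + β ^ 2 * (v ⬝ᵥ v / n)) * Real.sqrt n := by
  have hN : (0 : ℝ) < n := by positivity
  have h0 := Cond.dot_self_nonneg v
  refine abs_le_of_sq_le_sq' ?_ (by positivity) |>.2
  rw [mul_pow, mul_pow, nrm_sq, Real.sq_sqrt (by positivity), Real.sq_sqrt hN.le, add_mul,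
    mul_assoc, div_mul_cancel₀ _ hN.ne']
  have := mul_pos hτ hN
  linarith

lemma lam_dot (hB : 0 ≤ B) (hX : X ⬝ᵥ X ≤ B ^ 2 * (τ + β ^ 2 * (v ⬝ᵥ v / n)) * n) {w : V n} {T : ℝ}
    (h1 : |X ⬝ᵥ w| ≤ T) (h2 : |v ⬝ᵥ w| ≤ T) :
    |lam β τ v X ⬝ᵥ w| * (τ + β ^ 2 * (v ⬝ᵥ v / n)) ≤ (1 + B) * T := by
  have he := unitv_dot (v_ne hn hβ hτ hv)
  have hρ := rho_ge hn hβ hτ hv
  have hN : (0 : ℝ) < n := by positivity
  have hT : 0 ≤ T := (abs_nonneg _).trans h1
  have hL : 0 < len v := lt_of_le_of_ne (len_nonneg v) fun h =>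
    v_ne hn hβ hτ hv (len_eq_zero.1 h.symm)
  have h3 : len v * |unitv v ⬝ᵥ w| ≤ T := by
    rw [← abs_of_pos hL, ← abs_mul, ← smul_eq_mul, ← smul_dotProduct, len_smul_unitv]
    exact h2
  have h4 : (unitv v ⬝ᵥ X) ^ 2 ≤ X ⬝ᵥ X := by
    have := abs_dot_le' (unitv v) X
    rw [← nrm_sq, ← sq_abs]
    refine pow_le_pow_left₀ (abs_nonneg _) (this.trans_eq ?_) 2
    rw [nrm, he, Real.sqrt_one, one_mul]
  have h5 : β ^ 2 * len v ^ 2 = β ^ 2 * (v ⬝ᵥ v / n) * n := by rw [len_sq]; field_simp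
  rw [dotProduct_comm, lam, dot_blk', dotProduct_comm w X]
  generalize β ^ 2 * (v ⬝ᵥ v / n) = ρ at *
  have g1 : 0 < τ + ρ := by linarith
  have g2 : 0 < τ + 2 * ρ := by linarith
  have g0 : 0 < ρ := by linarith
  have h6 : ρ * |unitv v ⬝ᵥ X| ≤ B * (τ + 2 * ρ) * len v := by
    refine abs_le_of_sq_le_sq' ?_ (by positivity) |>.2
    have hβ2 : β ^ 2 ≤ 1 := pow_le_one₀ hβ.1.le hβ.2
    have a1 : ρ * n ≤ len v ^ 2 := by rw [← h5]; exact mul_le_of_le_one_left (sq_nonneg _) hβ2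
    have a2 : ρ * (τ + ρ) ≤ (τ + 2 * ρ) ^ 2 := by nlinarith
    calc (ρ * |unitv v ⬝ᵥ X|) ^ 2 = ρ ^ 2 * (unitv v ⬝ᵥ X) ^ 2 := by rw [mul_pow, sq_abs]
      _ ≤ ρ ^ 2 * (B ^ 2 * (τ + ρ) * n) := by gcongr; exact h4.trans hX
      _ = B ^ 2 * (ρ * (τ + ρ)) * (ρ * n) := by ring
      _ ≤ B ^ 2 * (τ + 2 * ρ) ^ 2 * len v ^ 2 := by gcongr
      _ = _ := by ring
  have h7 : ((τ + ρ)⁻¹ * X ⬝ᵥ w + ((τ + 2 * ρ)⁻¹ - (τ + ρ)⁻¹) * unitv v ⬝ᵥ X * unitv v ⬝ᵥ w) *
      (τ + ρ) = X ⬝ᵥ w - ρ * (unitv v ⬝ᵥ X) * (unitv v ⬝ᵥ w) / (τ + 2 * ρ) := by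
    field_simp
    ring
  rw [← abs_of_pos g1, ← abs_mul, abs_of_pos g1, h7]
  refine (abs_sub _ _).trans ?_
  rw [abs_div, abs_mul, abs_mul, abs_of_pos g0, abs_of_pos g2, add_mul, one_mul]
  refine add_le_add h1 ((div_le_iff₀ g2).2 ?_)
  calc _ ≤ B * (τ + 2 * ρ) * len v * |unitv v ⬝ᵥ w| :=
        mul_le_mul_of_nonneg_right h6 (abs_nonneg _)
    _ = B * (τ + 2 * ρ) * (len v * |unitv v ⬝ᵥ w|) := by ring
    _ ≤ B * (τ + 2 * ρ) * T := by gcongr
    _ = _ := by ring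

end one

lemma cross_le {β τ B t : ℝ} {v X v' X' : V n} (hn : 0 < n) (hβ : β ∈ Ioc (0 : ℝ) 1) (hτ : 0 < τ)
    (hv : τ * n ≤ β ^ 2 * (v ⬝ᵥ v)) (hv' : τ * n ≤ β ^ 2 * (v' ⬝ᵥ v')) (hB : 0 ≤ B) (ht : 0 ≤ t)
    (hX : X ⬝ᵥ X ≤ B ^ 2 * (τ + β ^ 2 * (v ⬝ᵥ v / n)) * n)
    (hX' : X' ⬝ᵥ X' ≤ B ^ 2 * (τ + β ^ 2 * (v' ⬝ᵥ v' / n)) * n)
    (h1 : |v ⬝ᵥ v'| ≤ t * Real.sqrt ((τ + β ^ 2 * (v ⬝ᵥ v / n)) * (τ + β ^ 2 * (v' ⬝ᵥ v' / n))) * n)
    (h2 : |X ⬝ᵥ v'| ≤ t * Real.sqrt ((τ + β ^ 2 * (v ⬝ᵥ v / n)) * (τ + β ^ 2 * (v' ⬝ᵥ v' / n))) * n) :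
    β ^ 2 / n * ((lam β τ v X ⬝ᵥ lam β τ v' X') * (v ⬝ᵥ v') +
      (lam β τ v X ⬝ᵥ v') * (lam β τ v' X' ⬝ᵥ v)) ≤ (B ^ 2 + B * (1 + B)) * t * n := by
  have hN : (0 : ℝ) < n := by positivity
  have a1 := lam_nrm hn hβ hτ hv hB hX
  have a2 := lam_nrm hn hβ hτ hv' hB hX'
  have a3 := v_nrm (v := v) hn hβ hτ
  have a4 := lam_dot hn hβ hτ hv hB hX h2 h1
  have a5 := abs_dot_le' (lam β τ v X) (lam β τ v' X')
  have a6 := abs_dot_le' (lam β τ v' X') v
  have hρ := rho_ge hn hβ hτ hv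
  have hρ' := rho_ge hn hβ hτ hv'
  have hg : 0 < τ + β ^ 2 * (v ⬝ᵥ v / n) := by linarith
  have hg' : 0 < τ + β ^ 2 * (v' ⬝ᵥ v' / n) := by linarith
  rw [Real.sqrt_mul hg.le] at h1 a4
  have e1 := Real.mul_self_sqrt hg.le
  have e2 := Real.mul_self_sqrt hN.le
  have p1 := Real.sqrt_pos.2 hg
  have p2 := Real.sqrt_pos.2 hg'
  have p3 := Real.sqrt_pos.2 hN
  rw [← e1] at a4
  rw [Real.sqrt_mul_self p1.le] at a4
  generalize Real.sqrt (τ + β ^ 2 * (v ⬝ᵥ v / n)) = g at *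
  generalize Real.sqrt (τ + β ^ 2 * (v' ⬝ᵥ v' / n)) = g' at *
  generalize Real.sqrt (n : ℝ) = r at *
  have n1 := nrm_nonneg (lam β τ v X)
  have n2 := nrm_nonneg (lam β τ v' X')
  have n3 := nrm_nonneg v
  have hβ2 : β ^ 2 ≤ 1 := pow_le_one₀ hβ.1.le hβ.2
  have b1 : (lam β τ v X ⬝ᵥ lam β τ v' X') * (v ⬝ᵥ v') ≤ B ^ 2 * t * n * n := by
    calc _ ≤ |lam β τ v X ⬝ᵥ lam β τ v' X'| * |v ⬝ᵥ v'| := by rw [← abs_mul]; exact le_abs_self _
      _ ≤ (nrm (lam β τ v X) * nrm (lam β τ v' X')) * (t * (g * g') * n) := by gcongr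
      _ = (nrm (lam β τ v X) * g) * (nrm (lam β τ v' X') * g') * (t * n) := by ring
      _ ≤ (B * r) * (B * r) * (t * n) := by gcongr
      _ = B ^ 2 * t * n * (r * r) := by ring
      _ = _ := by rw [e2]
  have b2 : β * ((lam β τ v X ⬝ᵥ v') * (lam β τ v' X' ⬝ᵥ v)) ≤ B * (1 + B) * t * n * n := by
    have c1 : |lam β τ v X ⬝ᵥ v'| * g ≤ (1 + B) * (t * g' * n) := by
      refine le_of_mul_le_mul_right ?_ p1
      calc _ = |lam β τ v X ⬝ᵥ v'| * (g * g) := by ring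
        _ ≤ _ := a4
        _ = _ := by ring
    calc _ ≤ β * (|lam β τ v X ⬝ᵥ v'| * |lam β τ v' X' ⬝ᵥ v|) := by
          rw [← abs_mul]; exact mul_le_mul_of_nonneg_left (le_abs_self _) hβ.1.le
      _ ≤ β * (|lam β τ v X ⬝ᵥ v'| * (nrm (lam β τ v' X') * nrm v)) := by gcongr; exact hβ.1.le
      _ = |lam β τ v X ⬝ᵥ v'| * nrm (lam β τ v' X') * (β * nrm v) := by ring
      _ ≤ |lam β τ v X ⬝ᵥ v'| * nrm (lam β τ v' X') * (g * r) := by gcongr
      _ = (|lam β τ v X ⬝ᵥ v'| * g) * (nrm (lam β τ v' X') * r) := by ring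
      _ ≤ ((1 + B) * (t * g' * n)) * (nrm (lam β τ v' X') * r) := by gcongr
      _ = (1 + B) * t * n * r * (nrm (lam β τ v' X') * g') := by ring
      _ ≤ (1 + B) * t * n * r * (B * r) := by gcongr
      _ = B * (1 + B) * t * n * (r * r) := by ring
      _ = _ := by rw [e2]
  rw [div_mul_eq_mul_div, div_le_iff₀ hN]
  have d1 : β ^ 2 * ((lam β τ v X ⬝ᵥ lam β τ v' X') * (v ⬝ᵥ v')) ≤ B ^ 2 * t * n * n :=
    (mul_le_mul_of_nonneg_left b1 (sq_nonneg β)).trans (mul_le_of_le_one_left (by positivity) hβ2)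
  have d2 : β * (β * ((lam β τ v X ⬝ᵥ v') * (lam β τ v' X' ⬝ᵥ v))) ≤ B * (1 + B) * t * n * n :=
    (mul_le_mul_of_nonneg_left b2 hβ.1.le).trans (mul_le_of_le_one_left (by positivity) hβ.2)
  nlinarith

lemma sum_le_diag {k : ℕ} {f : Fin k → Fin k → ℝ} {c : ℝ} (hc : 0 ≤ c)
    (hs : ∀ a b, f a b = f b a) (h : ∀ a b, a < b → f a b ≤ c) :
    ∑ a, ∑ b, f a b ≤ ∑ a, f a a + k ^ 2 * c := by
  have h1 : ∀ a b, f a b ≤ (if a = b then f a a else 0) + c := by
    intro a b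
    rcases lt_trichotomy a b with hab | hab | hab
    · rw [if_neg hab.ne, zero_add]; exact h a b hab
    · subst hab; rw [if_pos rfl]; linarith
    · rw [if_neg hab.ne', zero_add, hs]; exact h b a hab
  refine (Finset.sum_le_sum fun a _ => Finset.sum_le_sum fun b _ => h1 a b).trans_eq ?_
  simp only [Finset.sum_add_distrib, Finset.sum_ite_eq, Finset.mem_univ, if_true, Finset.sum_const,
    Finset.card_univ, Fintype.card_fin, nsmul_eq_mul]
  ring

lemma one_le {β τ x C : ℝ} {k : ℕ} {v X : V n} (hn : 0 < n) (hk : 0 < k) (hβ : β ∈ Ioc (0 : ℝ) 1)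
    (hτ : τ ∈ Ioc (0 : ℝ) 1) (hv : τ * n ≤ β ^ 2 * (v ⬝ᵥ v)) (hv4 : v ⬝ᵥ v ≤ 4 * n) (hx0 : 0 ≤ x)
    (hx : x ≤ 1 / 2) (hC : 10 ≤ C) :
    Real.exp (-(X ⬝ᵥ X) / (2 * (τ + β ^ 2 * (v ⬝ᵥ v / n))) +
      β ^ 2 * (v ⬝ᵥ v / n) * (unitv v ⬝ᵥ X) ^ 2 /
        (2 * (τ + β ^ 2 * (v ⬝ᵥ v / n)) * (τ + 2 * (β ^ 2 * (v ⬝ᵥ v / n))))) *
      ((Real.sqrt (2 * Real.pi * τ))⁻¹ ^ n *
        ((Real.sqrt ((1 - x) * (τ + β ^ 2 * (v ⬝ᵥ v / n)) / τ))⁻¹ ^ n *
          Real.sqrt ((1 - x) * (τ + β ^ 2 * (v ⬝ᵥ v / n)) / τ) ^ k)) ≤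
    Real.exp (x * n) * (C / τ) ^ k * phiS τ (β * (1 / Real.sqrt n) * len v) (unitv v) X := by
  have hN : (0 : ℝ) < n := by positivity
  have hρ := rho_ge hn hβ hτ.1 hv
  have h0 : (β * (1 / Real.sqrt n) * len v) ^ 2 = β ^ 2 * (v ⬝ᵥ v / n) := by
    rw [mul_pow, mul_pow, len_sq, div_pow, Real.sq_sqrt hN.le]; ring
  have h4 : β ^ 2 * (v ⬝ᵥ v / n) ≤ 4 :=
    (mul_le_of_le_one_left (div_nonneg (Cond.dot_self_nonneg v) hN.le)
      (pow_le_one₀ hβ.1.le hβ.2)).trans ((div_le_iff₀ hN).2 hv4)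
  rw [phiS, h0, phi, Fintype.card_fin, Real.exp_add]
  generalize β ^ 2 * (v ⬝ᵥ v / n) = ρ at *
  obtain ⟨hτ0, hτ1⟩ := hτ
  have g1 : 0 < τ + ρ := by linarith
  have g2 : 0 < τ + 2 * ρ := by linarith
  have g3 : 0 < 1 - x := by linarith
  have a1 : (Real.sqrt (2 * Real.pi * τ))⁻¹ * (Real.sqrt ((1 - x) * (τ + ρ) / τ))⁻¹ ≤
      Real.exp x * (Real.sqrt (2 * Real.pi * (τ + ρ)))⁻¹ := by
    rw [← mul_inv, ← Real.sqrt_mul (by positivity), show 2 * Real.pi * τ * ((1 - x) * (τ + ρ) / τ) =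
      (1 - x) * (2 * Real.pi * (τ + ρ)) by field_simp, Real.sqrt_mul g3.le, mul_inv]
    refine mul_le_mul_of_nonneg_right ?_ (by positivity)
    rw [inv_le_comm₀ (Real.sqrt_pos.2 g3) (Real.exp_pos _)]
    refine Real.le_sqrt_of_sq_le ?_
    rw [inv_pow, ← Real.exp_nat_mul, inv_le_comm₀ (Real.exp_pos _) g3]
    refine le_trans ?_ (Real.add_one_le_exp _)
    rw [inv_le_iff_one_le_mul₀ g3]
    push_cast
    nlinarith
  have a2 : Real.sqrt ((1 - x) * (τ + ρ) / τ) ≤ C / 2 / τ := by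
    have b1 : (1 - x) * (τ + ρ) / τ ≤ C / 2 / τ :=
      div_le_div_of_nonneg_right (by nlinarith) hτ0.le
    have b2 : 1 ≤ C / 2 / τ := (one_le_div hτ0).2 (by linarith)
    exact Real.sqrt_le_iff.2 ⟨by linarith, by nlinarith⟩
  have a3 : 1 ≤ 2 * (Real.sqrt (τ + ρ) / Real.sqrt (τ + 2 * ρ)) := by
    rw [← mul_div_assoc, one_le_div (Real.sqrt_pos.2 g2)]
    refine Real.sqrt_le_iff.2 ⟨by positivity, ?_⟩
    rw [mul_pow, Real.sq_sqrt g1.le]
    linarith
  have a4 : Real.sqrt ((1 - x) * (τ + ρ) / τ) ^ k ≤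
      (C / τ) ^ k * (Real.sqrt (τ + ρ) / Real.sqrt (τ + 2 * ρ)) := by
    have hC0 : 0 ≤ C / 2 / τ := by have : 0 < C := by linarith
                                   positivity
    have b1 : (2 : ℝ) ≤ 2 ^ k := le_self_pow₀ one_le_two hk.ne'
    calc _ ≤ (C / 2 / τ) ^ k * 1 := by
          rw [mul_one]; exact pow_le_pow_left₀ (Real.sqrt_nonneg _) a2 k
      _ ≤ (C / 2 / τ) ^ k * (2 ^ k * (Real.sqrt (τ + ρ) / Real.sqrt (τ + 2 * ρ))) :=
          mul_le_mul_of_nonneg_left (a3.trans (mul_le_mul_of_nonneg_right b1 (by positivity)))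
            (pow_nonneg hC0 _)
      _ = _ := by rw [← mul_assoc, ← mul_pow]; congr 2; ring
  have a5 := pow_le_pow_left₀ (by positivity) a1 n
  rw [mul_pow, mul_pow, ← Real.exp_nat_mul, mul_comm (n : ℝ) x] at a5
  have a6 := mul_le_mul a5 a4 (by positivity) (by positivity)
  rw [mul_assoc] at a6
  refine (mul_le_mul_of_nonneg_left a6 (by positivity)).trans_eq ?_
  ring

end Crest.Agent.T157.Lp.Multi

namespace Crest.Agent.T157.Lp

open MeasureTheory ProbabilityTheory Matrix Filter Set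
open Crest.Agent.T157.E Crest.Agent.T157.Eig Crest.Agent.T157.Cond Crest.Agent.T157.Tap
open Crest.Agent.T157.Kr Multi
open scoped ENNReal

theorem multiStmt : MultiStmt := by
  intro A
  set B := |A| + 1 with hBdef
  have hB : 0 ≤ B := by positivity
  have hAB : A ≤ B ^ 2 := by have := le_abs_self A; have := abs_nonneg A; nlinarith
  set C := B ^ 2 + B * (1 + B) + 10 with hC
  have hC' : 0 ≤ B ^ 2 + B * (1 + B) := by positivity
  refine ⟨C, by positivity, fun n k β τ t v X hn hβ hτ ht hkt hv4 hX ho hv => ?_⟩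
  have hN : (0 : ℝ) < n := by positivity
  have hτ0 := hτ.1
  have hst : 0 < Real.sqrt τ := Real.sqrt_pos.2 hτ0
  set γ : Fin k → ℝ := fun a => τ + β ^ 2 * (v a ⬝ᵥ v a / n) with hγ
  have hρ : ∀ a, τ ≤ β ^ 2 * (v a ⬝ᵥ v a / n) := fun a => rho_ge hn hβ hτ0 (hv a)
  have hγ0 : ∀ a, 0 < γ a := fun a => by have := hρ a; simp only [hγ]; linarith
  have hX' : ∀ a, X a ⬝ᵥ X a ≤ B ^ 2 * (τ + β ^ 2 * (v a ⬝ᵥ v a / n)) * n := fun a =>
    (hX a).trans (mul_le_mul_of_nonneg_right (mul_le_mul_of_nonneg_right hAB (hγ0 a).le) hN.le)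
  set l : Fin k → V n := fun a => lam β τ (v a) (X a) with hl
  set M : Mx n := β • ∑ a, vecMulVec (l a) (v a) with hM
  set K := Real.exp (∑ a, (-(l a ⬝ᵥ X a) + τ * (l a ⬝ᵥ l a) / 2)) with hK
  have h1 : ∀ W : Mx n, ∏ a, ENNReal.ofReal (phi τ (X a - β • W *ᵥ v a)) =
      ENNReal.ofReal (Real.exp (pair M W)) *
        ENNReal.ofReal (K * ∏ a, phi τ (X a - τ • l a - β • W *ᵥ v a)) := by
    intro W
    rw [← ENNReal.ofReal_prod_of_nonneg fun a _ => phi_nonneg _ _,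
      ← ENNReal.ofReal_mul (Real.exp_pos _).le, hM, smul_pair, pair_sum_vmv, Finset.mul_sum, hK,
      Real.exp_sum, Real.exp_sum, ← Finset.prod_mul_distrib, ← Finset.prod_mul_distrib]
    congr 1
    refine Finset.prod_congr rfl fun a _ => ?_
    rw [phi_tilt hτ0 _ _ (l a), dotProduct_smul, smul_eq_mul]
  simp only [h1]
  rw [goe_cm _ M (by fun_prop)]
  set Y : Fin k → V n := fun a => (Real.sqrt τ)⁻¹ •
    (X a - τ • l a - β • ((1 / Real.sqrt n) ^ 2 • (M + Mᵀ)) *ᵥ v a) with hY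
  set F : Mx n → ℝ := fun W => ∏ a, Real.exp (-((Y a - (β / Real.sqrt τ) • W *ᵥ v a) ⬝ᵥ
    (Y a - (β / Real.sqrt τ) • W *ᵥ v a)) / 2) with hF
  set c := ∏ _a : Fin k, (Real.sqrt (2 * Real.pi * τ))⁻¹ ^ n with hc
  have hc0 : 0 ≤ c := by positivity
  have h2 : ∀ W : Mx n, ∏ a, phi τ (X a - τ • l a -
      β • (W + (1 / Real.sqrt n) ^ 2 • (M + Mᵀ)) *ᵥ v a) = c * F W := by
    intro W
    rw [hc, hF, ← Finset.prod_mul_distrib]
    refine Finset.prod_congr rfl fun a _ => ?_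
    have e : Y a - (β / Real.sqrt τ) • W *ᵥ v a = (Real.sqrt τ)⁻¹ • (X a - τ • l a -
        β • (W + (1 / Real.sqrt n) ^ 2 • (M + Mᵀ)) *ᵥ v a) := by
      rw [hY, Matrix.add_mulVec, div_eq_mul_inv β]
      module
    rw [e, smul_dotProduct, dotProduct_smul, phi, Fintype.card_fin, smul_eq_mul, smul_eq_mul,
      ← mul_assoc, ← mul_inv, Real.mul_self_sqrt hτ0.le]
    congr 2
    field_simp
  simp only [h2]
  have hFm : Measurable F := by rw [hF]; fun_prop
  have hF0 : ∀ W, 0 ≤ F W := fun W => by rw [hF]; positivity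
  have hFi : Integrable F (GOE n) :=
    (integrable_const (1 : ℝ)).mono' hFm.aestronglyMeasurable (ae_of_all _ fun W => by
      rw [Real.norm_of_nonneg (hF0 W)]
      refine Finset.prod_le_one (fun a _ => (Real.exp_pos _).le) fun a _ =>
        Real.exp_le_one_iff.2 ?_
      have := Cond.dot_self_nonneg (Y a - (β / Real.sqrt τ) • W *ᵥ v a)
      linarith)
  have hs2 : (1 / Real.sqrt n) ^ 2 = 1 / (n : ℝ) := by rw [div_pow, Real.sq_sqrt hN.le, one_pow]
  have h3 := centre_le (1 / Real.sqrt n) (β / Real.sqrt τ) v Y (fun a => (1 - k * t) * γ a / τ)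
    (fun a => by
      rw [one_le_div hτ0]
      have := hρ a
      have := hγ0 a
      simp only [hγ] at *
      nlinarith)
    (fun x => by
      have hp : ∀ a b, (if a = b then β ^ 2 * (v a ⬝ᵥ v a / n) * (x a ⬝ᵥ x a) else 0) -
          t * (γ a * (x a ⬝ᵥ x a) + γ b * (x b ⬝ᵥ x b)) / 2 ≤
          β ^ 2 / n * ((x a ⬝ᵥ x b) * (v a ⬝ᵥ v b)) := by
        intro a b
        have p1 := mul_nonneg (hγ0 a).le (Cond.dot_self_nonneg (x a))
        have p2 := mul_nonneg (hγ0 b).le (Cond.dot_self_nonneg (x b))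
        split_ifs with hab
        · subst hab
          have := mul_nonneg ht p1
          have e : β ^ 2 / n * ((x a ⬝ᵥ x a) * (v a ⬝ᵥ v a)) =
            β ^ 2 * (v a ⬝ᵥ v a / n) * (x a ⬝ᵥ x a) := by ring
          rw [e]; linarith
        · have q1 : |v a ⬝ᵥ v b| ≤ t * Real.sqrt (γ a * γ b) * n := by
            rcases lt_or_gt_of_ne hab with h | h
            · exact (ho a b h).1
            · rw [dotProduct_comm, mul_comm (γ a)]; exact (ho b a h).1
          rw [Real.sqrt_mul (hγ0 a).le] at q1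
          have q2 := abs_dot_le' (x a) (x b)
          have q3 : |(x a ⬝ᵥ x b) * (v a ⬝ᵥ v b)| ≤
              t * (γ a * (x a ⬝ᵥ x a) + γ b * (x b ⬝ᵥ x b)) / 2 * n := by
            rw [abs_mul]
            refine (mul_le_mul q2 q1 (abs_nonneg _)
              (mul_nonneg (nrm_nonneg _) (nrm_nonneg _))).trans ?_
            have r1 := two_mul_le_add_sq (Real.sqrt (γ a) * nrm (x a)) (Real.sqrt (γ b) * nrm (x b))
            rw [mul_pow, mul_pow, nrm_sq, nrm_sq, Real.sq_sqrt (hγ0 a).le,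
              Real.sq_sqrt (hγ0 b).le] at r1
            have r2 := mul_le_mul_of_nonneg_left r1 (mul_nonneg ht hN.le)
            linarith
          have q4 : β ^ 2 / n * |(x a ⬝ᵥ x b) * (v a ⬝ᵥ v b)| ≤
              t * (γ a * (x a ⬝ᵥ x a) + γ b * (x b ⬝ᵥ x b)) / 2 := by
            rw [div_mul_eq_mul_div, div_le_iff₀ hN]
            exact (mul_le_of_le_one_left (abs_nonneg _) (pow_le_one₀ hβ.1.le hβ.2)).trans q3
          have q5 := mul_le_mul_of_nonneg_left (neg_abs_le ((x a ⬝ᵥ x b) * (v a ⬝ᵥ v b)))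
            (by positivity : 0 ≤ β ^ 2 / n)
          linarith
      have hs := Finset.sum_le_sum fun a (_ : a ∈ Finset.univ) =>
        Finset.sum_le_sum fun b (_ : b ∈ Finset.univ) => hp a b
      simp only [Finset.sum_sub_distrib, Finset.sum_ite_eq, Finset.mem_univ, if_true,
        ← Finset.sum_div, ← Finset.mul_sum, Finset.sum_add_distrib, Finset.sum_const,
        Finset.card_univ, Fintype.card_fin, nsmul_eq_mul] at hs
      simp only [mul_left_comm (γ _) (k : ℝ), ← Finset.mul_sum] at hs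
      have e : ∑ a, ((1 - k * t) * γ a / τ - 1) * (x a ⬝ᵥ x a) =
          (∑ a, β ^ 2 * (v a ⬝ᵥ v a / n) * (x a ⬝ᵥ x a) - k * t * ∑ a, γ a * (x a ⬝ᵥ x a)) / τ := by
        rw [Finset.mul_sum, ← Finset.sum_sub_distrib, Finset.sum_div]
        refine Finset.sum_congr rfl fun a _ => ?_
        simp only [hγ]
        field_simp
        ring
      rw [e, hs2, div_pow, Real.sq_sqrt hτ0.le, div_le_iff₀ hτ0]
      refine le_trans (by linarith) (hs.trans_eq ?_)
      field_simp)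
  have h4 : ∫⁻ W, ENNReal.ofReal (K * (c * F W)) ∂(GOE n) = ENNReal.ofReal (K * (c * ∫ W, F W ∂(GOE n))) := by
    rw [← integral_const_mul, ← integral_const_mul, ofReal_integral_eq_lintegral_ofReal
      ((hFi.const_mul c).const_mul K) (ae_of_all _ fun W => by have := hF0 W; positivity)]
  rw [h4, ← ENNReal.ofReal_mul (Real.exp_pos _).le]
  refine ENNReal.ofReal_le_ofReal ?_
  rw [Fintype.card_fin] at h3
  have h5 := sum_le_diag (f := fun a b => β ^ 2 / n * ((l a ⬝ᵥ l b) * (v a ⬝ᵥ v b) +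
      (l a ⬝ᵥ v b) * (l b ⬝ᵥ v a))) (c := (B ^ 2 + B * (1 + B)) * t * n) (by positivity)
    (fun a b => by simp only [dotProduct_comm (l a) (l b), dotProduct_comm (v a) (v b)]; ring)
    (fun a b hab => cross_le hn hβ hτ0 (hv a) (hv b) hB ht (hX' a) (hX' b) (ho a b hab).1
      (ho a b hab).2)
  have h6 : Real.exp ((1 / Real.sqrt n) ^ 2 * Vq M / 2) * K ≤
      Real.exp (k ^ 2 * ((B ^ 2 + B * (1 + B)) * t * n)) * ∏ a,
      Real.exp (-(X a ⬝ᵥ X a) / (2 * (τ + β ^ 2 * (v a ⬝ᵥ v a / n))) +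
        β ^ 2 * (v a ⬝ᵥ v a / n) * (unitv (v a) ⬝ᵥ X a) ^ 2 /
        (2 * (τ + β ^ 2 * (v a ⬝ᵥ v a / n)) * (τ + 2 * (β ^ 2 * (v a ⬝ᵥ v a / n))))) := by
    rw [← Real.exp_sum, hK, ← Real.exp_add, ← Real.exp_add]
    refine Real.exp_le_exp.2 ?_
    rw [← Finset.sum_congr rfl fun a _ => diag_eq (X := X a) hn hβ hτ0 (hv a), hM, Vq_smul,
      Vq_sum_vmv, hs2, Finset.sum_add_distrib (f := fun a => -(lam β τ (v a) (X a) ⬝ᵥ X a) +
        τ * (lam β τ (v a) (X a) ⬝ᵥ lam β τ (v a) (X a)) / 2), ← Finset.sum_div]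
    simp only [← Finset.mul_sum] at h5
    have : 0 ≤ (k : ℝ) ^ 2 * ((B ^ 2 + B * (1 + B)) * t * n) := by positivity
    have e : 1 / (n : ℝ) * (β ^ 2 * ∑ a, ∑ b, ((l a ⬝ᵥ l b) * (v a ⬝ᵥ v b) +
      (l a ⬝ᵥ v b) * (l b ⬝ᵥ v a))) = β ^ 2 / n * ∑ a, ∑ b, ((l a ⬝ᵥ l b) * (v a ⬝ᵥ v b) +
      (l a ⬝ᵥ v b) * (l b ⬝ᵥ v a)) := by ring
    rw [e, ← Finset.mul_sum]
    simp only [hl] at h5 ⊢
    linarith
  have h7 : Real.exp (k ^ 2 * ((B ^ 2 + B * (1 + B)) * t * n)) * Real.exp (k * t * n) ^ k ≤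
      Real.exp (C * k ^ 2 * t * n / β ^ 2) := by
    rw [← Real.exp_nat_mul, ← Real.exp_add]
    refine Real.exp_le_exp.2 (le_trans ?_ (le_div_self (by positivity) (pow_pos hβ.1 2)
      (pow_le_one₀ hβ.1.le hβ.2)))
    have : 0 ≤ (k : ℝ) ^ 2 * t * n := by positivity
    rw [hC]
    nlinarith
  calc _ = Real.exp ((1 / Real.sqrt n) ^ 2 * Vq M / 2) * K * (c * ∫ W, F W ∂(GOE n)) := by ring
    _ ≤ _ := mul_le_mul h6 (mul_le_mul_of_nonneg_left h3 hc0)
        (mul_nonneg hc0 (integral_nonneg hF0)) (by positivity)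
    _ ≤ Real.exp (k ^ 2 * ((B ^ 2 + B * (1 + B)) * t * n)) * ∏ a, (Real.exp (k * t * n) *
          (C / τ) ^ k * phiS τ (β * (1 / Real.sqrt n) * len (v a)) (unitv (v a)) (X a)) := by
        rw [mul_assoc, hc, ← Finset.prod_mul_distrib, ← Finset.prod_mul_distrib]
        refine mul_le_mul_of_nonneg_left (Finset.prod_le_prod (fun a _ => by positivity)
          fun a _ => ?_) (Real.exp_pos _).le
        exact one_le hn a.pos hβ hτ (hv a) (hv4 a) (by positivity) hkt (by linarith)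
    _ ≤ _ := by
        rw [Finset.prod_mul_distrib, Finset.prod_mul_distrib, Finset.prod_const, Finset.prod_const,
          Finset.card_univ, Fintype.card_fin, ← pow_mul, ← sq, ← mul_assoc, ← mul_assoc]
        refine mul_le_mul_of_nonneg_right (mul_le_mul_of_nonneg_right h7 (by positivity))
          (Finset.prod_nonneg fun a _ => phiS_nonneg _ _ _ _)

end Crest.Agent.T157.Lp

end
end

-- ▼ part T157/KrN_53
section

/-!
# Row 157, part E (helper53): a contraction of independent Gaussians stays near its mean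

`far_mean`: if `0 ≤ ψ' ≤ 1` then `avg ψ' ≤ 1 - k` and `avg (ψ - Eψ)² ≥ 1 - k/4` hold together with
probability at most `exp (-n k² / 200)`; `cell_int` adds the weight `exp (κ n S²)`.
-/

set_option autoImplicit false
set_option linter.unusedSectionVars false

noncomputable section

namespace Crest.Agent.T157.Kr

open MeasureTheory ProbabilityTheory Real Filter
open Crest.Agent.T157.E
open Crest.Agent.T157.Conc hiding gv
open scoped ENNReal

universe u

variable {ι : Type u} [Fintype ι] {ψ ψ' : ι → ℝ → ℝ}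

lemma integral_eval {f : ℝ → ℝ} (hf : Measurable f) (i : ι) :
    ∫ z, f (z i) ∂(gv ι) = ∫ x, f x ∂(gaussianReal 0 1) := by
  have hi := measurePreserving_eval (fun _ : ι => gaussianReal 0 1) i
  rw [← hi.map_eq, integral_map hi.measurable.aemeasurable hf.aestronglyMeasurable]

theorem hoeff_site {f : ι → ℝ → ℝ} (hf : ∀ i, Measurable (f i)) (hb : ∀ i x, |f i x| ≤ 1) {t : ℝ}
    (ht : 0 ≤ t) :
    (gv ι).real {z | t ≤ ∑ i, (f i (z i) - ∫ x, f i x ∂(gaussianReal 0 1))} ≤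
      exp (-t ^ 2 / (2 * Fintype.card ι)) := by
  have h1 : ∀ i, HasSubgaussianMGF (fun x => f i x - ∫ x, f i x ∂(gaussianReal 0 1)) 1
      (gaussianReal 0 1) := fun i => by
    have := hasSubgaussianMGF_of_mem_Icc (μ := gaussianReal 0 1) (X := f i) (a := -1) (b := 1)
      (hf i).aemeasurable (Eventually.of_forall fun x => abs_le.1 (hb i x))
    convert this using 1
    ext; norm_num
  have h2 : ∀ i, HasSubgaussianMGF (fun ω : ι → ℝ => f i (ω i) - ∫ x, f i x ∂(gaussianReal 0 1)) 1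
      (gv ι) := fun i => by
    have hi := measurePreserving_eval (fun _ : ι => gaussianReal 0 1) i
    exact HasSubgaussianMGF.of_map (Y := Function.eval i)
      (X := fun x => f i x - ∫ x, f i x ∂(gaussianReal 0 1))
      hi.measurable.aemeasurable (by rw [hi.map_eq]; exact h1 i)
  have h3 := HasSubgaussianMGF.measure_sum_ge_le_of_iIndepFun
    (iIndepFun_pi (μ := fun _ : ι => gaussianReal 0 1)
      (X := fun i x => f i x - ∫ x, f i x ∂(gaussianReal 0 1))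
      fun i => ((hf i).sub_const _).aemeasurable) (c := fun _ => 1) (s := Finset.univ)
    (fun i _ => h2 i) ht
  simpa using h3

lemma Slope.lip (h : Slope ψ ψ') (i : ι) (x y : ℝ) : |ψ i x - ψ i y| ≤ |x - y| := by
  have := Convex.norm_image_sub_le_of_norm_hasDerivWithin_le (f := ψ i) (f' := ψ' i) (C := 1)
    (s := Set.univ) (fun z _ => (h.hd i z).hasDerivWithinAt)
    (fun z _ => by rw [Real.norm_of_nonneg (h.h0 i z)]; exact h.h1 i z) convex_univ
    (Set.mem_univ y) (Set.mem_univ x)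
  simpa using this

lemma Slope.elip (h : Slope ψ ψ') (i : ι) : ELip 1 fun z : ι → ℝ => ψ i (z i) := fun x y => by
  rw [one_mul]
  exact (h.lip i _ _).trans (abs_le_en (x - y) i)

lemma Slope.var_le (h : Slope ψ ψ') (i : ι) :
    ∫ z, (ψ i (z i) - ∫ x, ψ i x ∂(gaussianReal 0 1)) ^ 2 ∂(gv ι) ≤
      ∫ x, ψ' i x ∂(gaussianReal 0 1) := by
  classical
  have h1 := poincare_partial (h.elip i) (D := fun j z => if j = i then ψ' i (z i) else 0)
    (fun x j => by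
      split_ifs with hj
      · subst hj
        simpa using h.hd j (x j)
      · simpa [Function.update_of_ne (Ne.symm hj)] using hasDerivAt_const (x j) (ψ i (x i)))
  rw [integral_eval (h.measurable i)] at h1
  refine h1.trans ?_
  rw [← integral_eval (h.measurable' i) i]
  have hm := h.measurable' i
  refine integral_mono_of_nonneg (ae_of_all _ fun z => Finset.sum_nonneg fun _ _ => sq_nonneg _)
    ((integrable_const (1 : ℝ)).mono' (hm.comp (measurable_pi_apply i)).aestronglyMeasurable (ae_of_all _ fun z => by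
      rw [Real.norm_of_nonneg (h.h0 i _)]; exact h.h1 i _)) (ae_of_all _ fun z => ?_)
  have a0 := h.h0 i (z i)
  have a1 := h.h1 i (z i)
  simp only [ite_pow, ne_eq, OfNat.ofNat_ne_zero, not_false_eq_true, zero_pow, Finset.sum_ite_eq',
    Finset.mem_univ, if_true]
  nlinarith

/-- `avg (ψ - E ψ)² ≥ 1 - k / 4` -/
def Far (ψ : ι → ℝ → ℝ) (k : ℝ) : Set (ι → ℝ) :=
  {z | Fintype.card ι * (1 - k / 4) ≤ ∑ i, (ψ i (z i) - ∫ x, ψ i x ∂(gaussianReal 0 1)) ^ 2}

lemma Slope.measurableSet_Far (h : Slope ψ ψ') (k : ℝ) : MeasurableSet (Far ψ k) := by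
  have := h.measurable
  exact measurableSet_le measurable_const (by fun_prop)

theorem far_mean [Nonempty ι] (h : Slope ψ ψ') {k : ℝ} (hk : 0 < k) (hk1 : k ≤ 1) :
    (gv ι).real (Adm ψ ψ' k ∩ Far ψ k) ≤ exp (-(k ^ 2 / 200 * Fintype.card ι)) := by
  have hn : (0 : ℝ) < Fintype.card ι := by exact_mod_cast Fintype.card_pos
  set n : ℝ := (Fintype.card ι : ℝ) with hndef
  rcases le_total (n * (1 - k / 2)) (∑ i, ∫ x, ψ' i x ∂(gaussianReal 0 1)) with hm | hm
  · have h1 := hoeff_site (f := fun i x => -ψ' i x) (fun i => (h.measurable' i).neg)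
      (fun i x => by rw [abs_neg, abs_of_nonneg (h.h0 i x)]; exact h.h1 i x)
      (t := n * (k / 2)) (by positivity)
    refine (measureReal_mono fun z hz => ?_).trans (h1.trans (exp_le_exp.2 ?_))
    · have := hz.1.1
      simp only [Set.mem_ofPred_eq, integral_neg, Finset.sum_sub_distrib, Finset.sum_neg_distrib]
      linarith
    · rw [← hndef, div_le_iff₀ (by positivity)]
      nlinarith [mul_pos (mul_pos hn hn) (mul_pos hk hk)]
  · set μ : ι → ℝ := fun i => ∫ x, ψ i x ∂(gaussianReal 0 1) with hμ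
    set F : (ι → ℝ) → ℝ := fun z => en fun i => ψ i (z i) - μ i with hF
    have hL : ELip 1 F := fun x y => by
      rw [one_mul]
      refine (abs_en_sub_le _ _).trans (Real.sqrt_le_sqrt (Finset.sum_le_sum fun i _ => ?_))
      have := h.lip i (x i) (y i)
      simp only [Pi.sub_apply, sub_sub_sub_cancel_right]
      exact sq_le_sq.2 this
    have h2 : ∫ z, F z ^ 2 ∂(gv ι) ≤ n * (1 - k / 2) := by
      simp only [hF, en_sq]
      rw [integral_finsetSum _ fun i _ => ((h.elip i).sub_const _).integrable_pow 2]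
      exact (Finset.sum_le_sum fun i _ => h.var_le i).trans hm
    have h3 : (∫ z, F z ∂(gv ι)) ^ 2 ≤ ∫ z, F z ^ 2 ∂(gv ι) := by
      have a := integral_nonneg (μ := gv ι) (f := fun z => (F z - ∫ z, F z ∂(gv ι)) ^ 2)
        fun z => sq_nonneg _
      simp only [sub_sq] at a
      have i1 : Integrable (fun z => F z ^ 2) (gv ι) := hL.integrable_pow 2
      have i2 : Integrable (fun z => 2 * F z * ∫ z, F z ∂(gv ι)) (gv ι) :=
        (hL.integrable.const_mul 2).mul_const _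
      have i3 : Integrable (fun z => F z ^ 2 - 2 * F z * ∫ z, F z ∂(gv ι)) (gv ι) := i1.sub i2
      rw [integral_add i3 (integrable_const _), integral_sub i1 i2, integral_mul_const,
        integral_const_mul, integral_const] at a
      simp only [probReal_univ, smul_eq_mul, one_mul] at a
      linarith
    have hr : 0 < √n := sqrt_pos.2 hn
    have hrr : √n ^ 2 = n := sq_sqrt hn.le
    have h4 : ∫ z, F z ∂(gv ι) ≤ √n * (1 - k / 4) :=
      (abs_le_of_sq_le_sq' (by rw [mul_pow, hrr]; nlinarith [mul_pos hn (mul_pos hk hk)])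
        (mul_nonneg hr.le (by linarith))).2
    have h5 := tail_lip hL (t := √n * (k / 10)) (by positivity)
    refine (measureReal_mono fun z hz => ?_).trans (h5.trans (le_of_eq ?_))
    · have a : n * (1 - k / 4) ≤ F z ^ 2 := by rw [hF, en_sq]; exact hz.2
      have b : √n * (1 - k / 7) ≤ F z :=
        (abs_le_of_sq_le_sq' (by rw [mul_pow, hrr]; nlinarith [mul_pos hn hk]) (en_nonneg _)).2
      have c := mul_pos hr hk
      simp only [Set.mem_ofPred_eq]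
      linarith
    · rw [mul_pow, hrr]
      congr 1
      ring

/-- the weighted integral over one cell of the single-child model -/
theorem cell_int {k : ℝ} (hk : 0 < k) (hk1 : k ≤ 1) : ∃ C c : ℝ, 0 ≤ C ∧ 0 < c ∧
    ∀ {ι : Type u} [Fintype ι] [Nonempty ι] {ψ ψ' : ι → ℝ → ℝ}, Slope ψ ψ' →
      ∫⁻ z in Adm ψ ψ' k ∩ Far ψ k,
        ENNReal.ofReal (exp ((1 + k / 24) / 4 * Fintype.card ι * Sd ψ ψ' z ^ 2)) ∂(gv ι) ≤
        ENNReal.ofReal (C * exp (-(c * Fintype.card ι))) := by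
  obtain ⟨C, c, hC, hc, h⟩ := ramer_int.{u} (κ := (1 + k / 24) / 4) (δ := k / 15) hk hk1
    (by positivity) (by linarith) (by positivity)
  refine ⟨C + 1, min c (k ^ 2 / 400), by positivity, lt_min hc (by positivity), ?_⟩
  intro ι _ _ ψ ψ' hψ
  have hn : (0 : ℝ) < Fintype.card ι := by exact_mod_cast Fintype.card_pos
  have h1 := h hψ
  have h2 := far_mean hψ hk hk1
  set n : ℝ := (Fintype.card ι : ℝ) with hndef
  have hS := hψ.measurable_Sd
  have hsub : Adm ψ ψ' k ∩ Far ψ k ⊆ (Adm ψ ψ' k ∩ {z | k / 15 ≤ |Sd ψ ψ' z|}) ∪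
      ((Adm ψ ψ' k ∩ Far ψ k) ∩ {z | |Sd ψ ψ' z| ≤ k / 15}) := fun z hz =>
    (le_total (k / 15) |Sd ψ ψ' z|).imp (fun h => ⟨hz.1, h⟩) fun h => ⟨hz, h⟩
  have h3 : ∫⁻ z in (Adm ψ ψ' k ∩ Far ψ k) ∩ {z | |Sd ψ ψ' z| ≤ k / 15},
      ENNReal.ofReal (exp ((1 + k / 24) / 4 * n * Sd ψ ψ' z ^ 2)) ∂(gv ι) ≤
      ENNReal.ofReal (exp (-(k ^ 2 / 400 * n))) := by
    refine (setLIntegral_mono' (((hψ.measurableSet_Adm k).inter (hψ.measurableSet_Far k)).inter
      (measurableSet_le (by fun_prop) measurable_const))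
      (g := fun _ => ENNReal.ofReal (exp (k ^ 2 / 400 * n))) fun z hz => ?_).trans ?_
    · refine ENNReal.ofReal_le_ofReal (exp_le_exp.2 ?_)
      have a : Sd ψ ψ' z ^ 2 ≤ (k / 15) ^ 2 := by
        rw [← sq_abs]; exact pow_le_pow_left₀ (abs_nonneg _) hz.2 2
      have b : (1 + k / 24) / 4 * Sd ψ ψ' z ^ 2 ≤ 1 / 2 * (k / 15) ^ 2 :=
        mul_le_mul (by linarith) a (sq_nonneg _) (by norm_num)
      nlinarith [mul_le_mul_of_nonneg_left b hn.le, mul_pos hn (mul_pos hk hk)]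
    · rw [setLIntegral_const]
      refine (mul_le_mul_right (measure_mono Set.inter_subset_left) _).trans ?_
      rw [← ofReal_measureReal, ← ENNReal.ofReal_mul (exp_pos _).le]
      refine ENNReal.ofReal_le_ofReal ((mul_le_mul_of_nonneg_left h2 (exp_pos _).le).trans_eq ?_)
      rw [← exp_add]
      congr 1
      ring
  refine (lintegral_mono_set hsub).trans ((lintegral_union_le _ _ _).trans
    ((add_le_add h1 h3).trans ?_))
  rw [← ENNReal.ofReal_add (by positivity) (exp_pos _).le, add_mul, one_mul]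
  refine ENNReal.ofReal_le_ofReal (add_le_add (mul_le_mul_of_nonneg_left ?_ hC) ?_) <;>
    refine exp_le_exp.2 (neg_le_neg (mul_le_mul_of_nonneg_right ?_ hn.le))
  · exact min_le_left _ _
  · exact min_le_right _ _

end Crest.Agent.T157.Kr

end
end

-- ▼ part T157/LpChild_53

/-!
# Row 157, part A (helper53): negative complexity of one child, `Lp.ChildStmt`
-/

set_option autoImplicit false
set_option linter.unusedSectionVars false

noncomputable section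

namespace Crest.Agent.T157.Lp.Chi

open MeasureTheory ProbabilityTheory Matrix Filter Set
open Crest.Agent.T157.E Crest.Agent.T157.Eig Crest.Agent.T157.Cond Crest.Agent.T157.Tap
open Crest.Agent.T157.Kr Crest.Agent.T157.Tap.Cell Crest.Agent.T157.Lp.Multi
open scoped ENNReal

variable {n : ℕ}

/-- site functions of the reference model -/
def ps (β γ : ℝ) (m p0 : V n) (i : Fin n) (z : ℝ) : ℝ :=
  β / Real.sqrt γ * (Real.tanh (m i + Real.sqrt γ * z) - p0 i)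
def ps' (β γ : ℝ) (m : V n) (i : Fin n) (z : ℝ) : ℝ :=
  β * (1 - Real.tanh (m i + Real.sqrt γ * z) ^ 2)

lemma slope_ps {β γ : ℝ} (hβ : β ∈ Ioc (0 : ℝ) 1) (hγ : 0 < γ) (m p0 : V n) :
    Slope (ps β γ m p0) (ps' β γ m) := by
  have hs : Real.sqrt γ ≠ 0 := (Real.sqrt_pos.2 hγ).ne'
  refine ⟨fun i z => ?_, fun i z => mul_nonneg hβ.1.le (sub_nonneg.2 (SE.tanh_sq_le _)),
    fun i z => mul_le_one₀ hβ.2 (sub_nonneg.2 (SE.tanh_sq_le _)) (sub_le_self _ (sq_nonneg _))⟩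
  have h1 : HasDerivAt (fun z => m i + Real.sqrt γ * z) (Real.sqrt γ * 1) z :=
    ((hasDerivAt_id z).const_mul _).const_add _
  have h2 := (((hasDerivAt_tanh _).comp z h1).sub_const (p0 i)).const_mul (β / Real.sqrt γ)
  refine HasDerivAt.congr_deriv h2 ?_
  rw [ps']
  field_simp

lemma int_ps (β γ : ℝ) (m p0 : V n) (i : Fin n) :
    ∫ x, ps β γ m p0 i x ∂(gaussianReal 0 1) = β / Real.sqrt γ * (gE Real.tanh (m i) γ - p0 i) := by
  simp only [ps]
  rw [integral_const_mul, integral_sub (SE.integrable_gE continuous_tanh.measurable SE.abs_tanh_le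
    _ _) (integrable_const _)]
  simp [gE]

lemma gE_lip (m v m' v' : ℝ) : |gE Real.tanh m v - gE Real.tanh m' v'| ≤
    |m - m'| + |Real.sqrt v - Real.sqrt v'| := by
  have h1 : ∫ x : ℝ, x ^ 2 ∂gaussianReal 0 1 = 1 := by
    have := variance_fun_id_gaussianReal (μ := 0) (v := 1)
    rw [variance_eq_integral (by fun_prop)] at this
    simpa using this
  have h2 : Integrable (fun x : ℝ => x ^ 2) (gaussianReal 0 1) :=
    (memLp_id_gaussianReal 2).integrable_sq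
  have i1 := SE.integrable_gE continuous_tanh.measurable SE.abs_tanh_le m (Real.sqrt v)
  have i2 := SE.integrable_gE continuous_tanh.measurable SE.abs_tanh_le m' (Real.sqrt v')
  have i3 : Integrable (fun x : ℝ => |Real.sqrt v - Real.sqrt v'| / 2 * x ^ 2) (gaussianReal 0 1) :=
    h2.const_mul _
  rw [gE, gE, ← integral_sub i1 i2]
  refine abs_integral_le_integral_abs.trans ((integral_mono (i1.sub i2).abs
    ((integrable_const (|m - m'| + |Real.sqrt v - Real.sqrt v'| / 2)).add i3) fun z => ?_).trans_eq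
    ?_)
  · refine (SE.abs_tanh_sub_le _ _).trans ?_
    rw [show m + Real.sqrt v * z - (m' + Real.sqrt v' * z) =
      (m - m') + (Real.sqrt v - Real.sqrt v') * z by ring]
    refine (abs_add_le _ _).trans ?_
    have : |z| ≤ (1 + z ^ 2) / 2 := by nlinarith [sq_nonneg (|z| - 1), sq_abs z]
    have := mul_le_mul_of_nonneg_left this (abs_nonneg (Real.sqrt v - Real.sqrt v'))
    simp only [abs_mul, Pi.add_apply]
    linarith
  · simp only [Pi.add_apply]
    rw [integral_add (integrable_const _) i3, integral_const_mul, h1]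
    simp only [integral_const, probReal_univ, smul_eq_mul]
    ring

lemma nrm_le_of_abs {u : V n} {a : ℝ} (ha : 0 ≤ a) (h : ∀ i, |u i| ≤ a) :
    nrm u ≤ a * Real.sqrt n := by
  rw [nrm_le_iff (by positivity), mul_pow, Real.sq_sqrt (Nat.cast_nonneg _)]
  calc u ⬝ᵥ u ≤ ∑ _i : Fin n, a ^ 2 := Finset.sum_le_sum fun i _ => by
        rw [← sq, ← sq_abs]; exact pow_le_pow_left₀ (abs_nonneg _) (h i) 2
    _ = _ := by simp [mul_comm]

/-- the exact Kac–Rice weight -/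
lemma weight_eq {β τ e : ℝ} {v d : V n} (hn : 0 < n) (hτ : 0 < τ) (hv : 0 < v ⬝ᵥ v) :
    n * (β ^ 2 * e ^ 2 / 2) + -((d + (β ^ 2 * e) • v) ⬝ᵥ (d + (β ^ 2 * e) • v)) /
        (2 * (τ + β ^ 2 * (v ⬝ᵥ v / n))) +
      β ^ 2 * (v ⬝ᵥ v / n) * (unitv v ⬝ᵥ (d + (β ^ 2 * e) • v)) ^ 2 /
        (2 * (τ + β ^ 2 * (v ⬝ᵥ v / n)) * (τ + 2 * (β ^ 2 * (v ⬝ᵥ v / n)))) =
    -(d ⬝ᵥ d) / (2 * (τ + β ^ 2 * (v ⬝ᵥ v / n))) +
      n * (β * (d ⬝ᵥ v) / (n * (τ + β ^ 2 * (v ⬝ᵥ v / n))) - β * e) ^ 2 *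
        ((τ + β ^ 2 * (v ⬝ᵥ v / n)) / (2 * (τ + 2 * (β ^ 2 * (v ⬝ᵥ v / n))))) := by
  have hN : (0 : ℝ) < n := by positivity
  have h1 : (unitv v ⬝ᵥ (d + (β ^ 2 * e) • v)) ^ 2 =
      (d ⬝ᵥ v + β ^ 2 * e * (v ⬝ᵥ v)) ^ 2 / (v ⬝ᵥ v) := by
    rw [unitv, smul_dotProduct, smul_eq_mul, mul_pow, inv_pow, len_sq, dotProduct_add,
      dotProduct_smul, smul_eq_mul, dotProduct_comm v d, inv_mul_eq_div]
  rw [h1]
  simp only [add_dotProduct, dotProduct_add, dotProduct_smul, smul_dotProduct, smul_eq_mul,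
    dotProduct_comm v d]
  obtain ⟨ρ, hρ⟩ : ∃ ρ, v ⬝ᵥ v = n * ρ := ⟨v ⬝ᵥ v / n, by field_simp⟩
  have hρ0 : 0 < ρ := by rw [hρ] at hv; exact (mul_pos_iff_of_pos_left hN).1 hv
  rw [hρ, mul_div_cancel_left₀ _ hN.ne']
  obtain ⟨G, hG⟩ : ∃ G, G = τ + β ^ 2 * ρ := ⟨_, rfl⟩
  obtain ⟨H, hH⟩ : ∃ H, H = τ + 2 * (β ^ 2 * ρ) := ⟨_, rfl⟩
  have h4 : G ≠ 0 := by rw [hG]; positivity
  have h5 : H ≠ 0 := by rw [hH]; positivity
  rw [← hG, ← hH]
  have h6 : H = G + β ^ 2 * ρ := by rw [hG, hH]; ring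
  field_simp
  rw [h6]
  ring

/-- comparison of Gaussian densities with nearby variances -/
lemma phi_var_le {γ γ0 τ ε : ℝ} (hτ : 0 < τ) (h1 : τ ≤ γ) (h2 : γ ≤ γ0) (h3 : γ0 ≤ γ + ε)
    (d : V n) : (Real.sqrt (2 * Real.pi * γ))⁻¹ ^ n * Real.exp (-(d ⬝ᵥ d) / (2 * γ)) ≤
      Real.exp (n * (ε / τ)) * phi γ0 d := by
  have hγ : 0 < γ := by linarith
  have hγ0 : 0 < γ0 := by linarith
  have hε : 0 ≤ ε := by linarith
  rw [phi, Fintype.card_fin, ← mul_assoc, Real.exp_nat_mul, ← mul_pow]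
  refine mul_le_mul (pow_le_pow_left₀ (by positivity) ?_ n) (Real.exp_le_exp.2 ?_)
    (Real.exp_pos _).le (by positivity)
  · rw [← div_eq_mul_inv, le_div_iff₀ (by positivity), inv_mul_eq_div, div_le_iff₀ (by positivity)]
    refine Real.sqrt_le_iff.2 ⟨by positivity, ?_⟩
    rw [mul_pow, Real.sq_sqrt (by positivity)]
    have a : 1 + ε / τ ≤ Real.exp (ε / τ) := by linarith [Real.add_one_le_exp (ε / τ)]
    have b : ε ≤ ε / τ * γ := by rw [div_mul_eq_mul_div, le_div_iff₀ hτ]; nlinarith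
    have c : 0 ≤ ε / τ := by positivity
    have d1 : Real.exp (ε / τ) ≤ Real.exp (ε / τ) ^ 2 := by nlinarith
    have d : γ0 ≤ Real.exp (ε / τ) ^ 2 * γ := by
      nlinarith [mul_le_mul_of_nonneg_right (a.trans d1) hγ.le]
    nlinarith [Real.pi_pos]
  · rw [neg_div, neg_div, neg_le_neg_iff]
    exact div_le_div_of_nonneg_left (Cond.dot_self_nonneg d) (by positivity) (by linarith)

/-- the constant in front of the mesh of the cells -/
def cE (A k : ℝ) : ℝ :=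
  (Real.sqrt (5 * |A|) + 4) + (1 + 200 / k) * (2 * (Real.sqrt (5 * |A|) + 2) + 2) ^ 2

section point
variable {β τ A k1 k u e0 γ0 : ℝ} {c p0 x : V n} (hn : 0 < n) (hβ : β ∈ Ioc (0 : ℝ) 1)
  (hτ : τ ∈ Ioc (0 : ℝ) 1) (hk : 0 < k) (hk1 : k ≤ 1) (hkk : k ≤ k1) (hu0 : 0 < u) (hu : u ≤ k / 90)
  (hp0 : Cb p0) (h : Child (β ^ 2) τ A k1 (200 / (k * β ^ 2)) (k / 20) c p0 x)
  (he : |avg (DD (th x)) - e0| ≤ u * τ ^ 2) (hγ1 : gam (β ^ 2) τ p0 x ≤ γ0)
  (hγ2 : γ0 ≤ gam (β ^ 2) τ p0 x + u * τ ^ 2)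

omit hn in
include hp0 in
lemma nrm_v : nrm (th x - p0) ≤ 2 * Real.sqrt n := nrm_le_of_abs two_pos.le fun i =>
  (abs_sub _ _).trans (by linarith [abs_th_le x i, hp0 i])

include hn hβ hk h in
lemma tau_le : τ ≤ k / 200 * (β ^ 2 * ((th x - p0) ⬝ᵥ (th x - p0) / n)) := by
  have hN : (0 : ℝ) < n := by positivity
  have hb := hβ.1
  have h1 := mul_le_mul_of_nonneg_left h.2.1 (by positivity : 0 ≤ k / 200 * β ^ 2 / n)
  calc τ = k / 200 * β ^ 2 / n * (200 / (k * β ^ 2) * τ * n) := by field_simp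
    _ ≤ _ := h1
    _ = _ := by ring

include hn hβ hp0 in
lemma y_le : β ^ 2 * ((th x - p0) ⬝ᵥ (th x - p0) / n) ≤ 4 := by
  have hN : (0 : ℝ) < n := by positivity
  have h1 := (nrm_le_iff (by positivity)).1 (nrm_v (x := x) hp0)
  rw [mul_pow, Real.sq_sqrt hN.le] at h1
  exact (mul_le_of_le_one_left (div_nonneg (Cond.dot_self_nonneg _) hN.le)
    (pow_le_one₀ hβ.1.le hβ.2)).trans ((div_le_iff₀ hN).2 (by linarith))

lemma back {γ0 : ℝ} (hγ : 0 < γ0) (m x : V n) (i : Fin n) :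
    m i + Real.sqrt γ0 * ((Real.sqrt γ0)⁻¹ • (x - m)) i = x i := by
  have hs : Real.sqrt γ0 ≠ 0 := (Real.sqrt_pos.2 hγ).ne'
  simp only [Pi.smul_apply, Pi.sub_apply, smul_eq_mul]
  field_simp
  ring

include hn hβ hτ hk hk1 hkk hu0 hu hp0 h he hγ1 hγ2

lemma point_mem : (Real.sqrt γ0)⁻¹ • (x - (c - (β ^ 2 * e0) • p0)) ∈
    Adm (ps β γ0 (c - (β ^ 2 * e0) • p0) p0) (ps' β γ0 (c - (β ^ 2 * e0) • p0)) k ∩
      Far (ps β γ0 (c - (β ^ 2 * e0) • p0) p0) k := by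
  have hN : (0 : ℝ) < n := by positivity
  have hy := tau_le hn hβ hk h
  have hv := nrm_v (x := x) hp0
  obtain ⟨h1, -, -, h4⟩ := h
  obtain ⟨hτ0, hτ1⟩ := hτ
  have hb1 : β ^ 2 ≤ 1 := pow_le_one₀ hβ.1.le hβ.2
  rw [gam] at hγ1 hγ2 h4
  have hyv : β ^ 2 * ((th x - p0) ⬝ᵥ (th x - p0)) =
    n * (β ^ 2 * ((th x - p0) ⬝ᵥ (th x - p0) / n)) := by field_simp
  generalize β ^ 2 * ((th x - p0) ⬝ᵥ (th x - p0) / n) = y at *
  have hy0 : 0 < y := by nlinarith
  have hγ : 0 < γ0 := by linarith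
  have hsq : (β / Real.sqrt γ0) ^ 2 = β ^ 2 / γ0 := by rw [div_pow, Real.sq_sqrt hγ.le]
  refine ⟨⟨?_, ?_⟩, ?_⟩
  · simp only [ps', back hγ, Fintype.card_fin, ← Finset.mul_sum]
    have e1 : ∑ i, (1 - Real.tanh (x i) ^ 2) = n * avg (DD (th x)) := by
      rw [avg, mul_div_cancel₀ _ hN.ne']; rfl
    have e2 : 0 ≤ avg (DD (th x)) := by rw [avg_DD_th x hn]; linarith [aS_le_one x]
    rw [e1]
    refine (mul_le_of_le_one_left (by positivity) hβ.2).trans ?_
    exact mul_le_mul_of_nonneg_left (by linarith) hN.le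
  · simp only [ps, back hγ, Fintype.card_fin, mul_pow, ← Finset.mul_sum, hsq]
    have e1 : ∑ i, (Real.tanh (x i) - p0 i) ^ 2 = (th x - p0) ⬝ᵥ (th x - p0) := by
      simp only [dotProduct, sq]; rfl
    rw [e1, div_mul_eq_mul_div, hyv, div_le_iff₀ hγ]
    exact mul_le_mul_of_nonneg_left (by linarith) hN.le
  · set r0 := rv (β ^ 2) e0 γ0 c p0 with hr0
    set r := rv (β ^ 2) (avg (DD (th x))) (τ + y) c p0 with hr
    have e1 : ∑ i, (ps β γ0 (c - (β ^ 2 * e0) • p0) p0 i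
        (((Real.sqrt γ0)⁻¹ • (x - (c - (β ^ 2 * e0) • p0))) i) -
        ∫ x, ps β γ0 (c - (β ^ 2 * e0) • p0) p0 i x ∂(gaussianReal 0 1)) ^ 2 =
        β ^ 2 / γ0 * ((th x - p0 - r0) ⬝ᵥ (th x - p0 - r0)) := by
      simp only [int_ps]
      simp only [ps, back hγ, ← mul_sub, mul_pow, hsq, ← Finset.mul_sum]
      congr 1
      exact Finset.sum_congr rfl fun i _ => sq _
    have e2 : nrm (r0 - r) ≤ 2 * (u * τ) * Real.sqrt n := by
      refine nrm_le_of_abs (by positivity) fun i => ?_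
      simp only [hr0, hr, rv, Pi.sub_apply, sub_sub_sub_cancel_right]
      refine (gE_lip _ _ _ _).trans ?_
      have a1 : |c i - β ^ 2 * e0 * p0 i - (c i - β ^ 2 * avg (DD (th x)) * p0 i)| ≤ u * τ := by
        rw [show c i - β ^ 2 * e0 * p0 i - (c i - β ^ 2 * avg (DD (th x)) * p0 i) =
          β ^ 2 * p0 i * (avg (DD (th x)) - e0) by ring, abs_mul, abs_mul, abs_of_nonneg (sq_nonneg β)]
        refine (mul_le_of_le_one_left (abs_nonneg _)
          (mul_le_one₀ hb1 (abs_nonneg _) (hp0 i))).trans (he.trans ?_)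
        exact mul_le_mul_of_nonneg_left (by nlinarith) hu0.le
      have a2 : |Real.sqrt γ0 - Real.sqrt (τ + y)| ≤ u * τ := by
        have b1 : Real.sqrt (τ + y) ≤ Real.sqrt γ0 := Real.sqrt_le_sqrt hγ1
        have b2 : τ ≤ Real.sqrt (τ + y) := Real.le_sqrt_of_sq_le (by nlinarith)
        rw [abs_of_nonneg (by linarith), sub_le_iff_le_add]
        refine Real.sqrt_le_iff.2 ⟨by positivity, ?_⟩
        have b3 := Real.sq_sqrt (by positivity : 0 ≤ τ + y)
        have b4 := mul_le_mul_of_nonneg_left b2 (by positivity : 0 ≤ u * τ)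
        nlinarith [sq_nonneg (u * τ)]
      linarith
    have e3 : (th x - p0) ⬝ᵥ r0 ≤ k / 20 * (τ + y) * n + 4 * (u * τ) * n := by
      have a1 := abs_dot_le' (th x - p0) (r0 - r)
      have a2 := mul_le_mul hv e2 (nrm_nonneg _) (by positivity)
      have a3 := Real.mul_self_sqrt hN.le
      have a4 := le_abs_self ((th x - p0) ⬝ᵥ (r0 - r))
      have a5 := le_abs_self ((th x - p0) ⬝ᵥ r)
      rw [dotProduct_sub] at a4
      have a6 : 2 * Real.sqrt n * (2 * (u * τ) * Real.sqrt n) = 4 * (u * τ) * n := by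
        linear_combination 4 * (u * τ) * a3
      rw [dotProduct_sub] at a1
      linarith
    simp only [Far, Set.mem_ofPred_eq, Fintype.card_fin]
    rw [e1, div_mul_eq_mul_div, le_div_iff₀ hγ]
    have e4 : (th x - p0 - r0) ⬝ᵥ (th x - p0 - r0) =
        (th x - p0) ⬝ᵥ (th x - p0) - 2 * ((th x - p0) ⬝ᵥ r0) + r0 ⬝ᵥ r0 := by
      rw [sub_dotProduct (th x - p0), dotProduct_sub (th x - p0) (th x - p0),
        dotProduct_sub r0 (th x - p0), dotProduct_comm r0 (th x - p0)]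
      ring
    have e5 : β ^ 2 * ((th x - p0) ⬝ᵥ r0) ≤ k / 20 * (τ + y) * n + 4 * (u * τ) * n :=
      (mul_le_mul_of_nonneg_left e3 (sq_nonneg β)).trans
        (mul_le_of_le_one_left (by positivity) hb1)
    have e6 := mul_nonneg (sq_nonneg β) (Cond.dot_self_nonneg r0)
    have e7 : (1 - k / 4) * γ0 ≤ y - k / 10 * (τ + y) - 8 * (u * τ) := by
      have a1 : u * τ ^ 2 ≤ u * τ := mul_le_mul_of_nonneg_left (by nlinarith) hu0.le
      have a2 : u * τ ≤ k / 90 * τ := mul_le_mul_of_nonneg_right hu hτ0.le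
      have a3 : (1 - k / 4) * γ0 ≤ (1 - k / 4) * (τ + y + u * τ) :=
        mul_le_mul_of_nonneg_left (by linarith) (by linarith)
      have a4 : 0 ≤ k * (u * τ) := by positivity
      have a5 : 0 ≤ k * τ := by positivity
      have a6 : 0 ≤ k * y := by positivity
      nlinarith
    have e8 := mul_le_mul_of_nonneg_left e7 hN.le
    rw [e4]
    nlinarith

lemma point_le : jac (β ^ 2) x *
    phiS τ (β * (1 / Real.sqrt n) * len (th x - p0)) (unitv (th x - p0)) (Xc (β ^ 2) c x) ≤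
    Real.exp (n * (cE A k * u)) * (phi γ0 (x - (c - (β ^ 2 * e0) • p0)) *
      Real.exp ((1 + k / 24) / 4 * Fintype.card (Fin n) *
        Sd (ps β γ0 (c - (β ^ 2 * e0) • p0) p0) (ps' β γ0 (c - (β ^ 2 * e0) • p0))
          ((Real.sqrt γ0)⁻¹ • (x - (c - (β ^ 2 * e0) • p0))) ^ 2)) := by
  have hN : (0 : ℝ) < n := by positivity
  have hy := tau_le hn hβ hk h
  have hy4 := y_le (x := x) hn hβ hp0
  have hv := nrm_v (x := x) hp0
  obtain ⟨-, -, h3, -⟩ := h
  obtain ⟨hτ0, hτ1⟩ := hτ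
  have hb1 : β ^ 2 ≤ 1 := pow_le_one₀ hβ.1.le hβ.2
  rw [gam] at hγ1 hγ2 h3
  set e := avg (DD (th x)) with hedef
  have he0 : 0 ≤ e := by rw [hedef, avg_DD_th x hn]; linarith [aS_le_one x]
  have he1 : e ≤ 1 := by rw [hedef, avg_DD_th x hn]; linarith [aS_nonneg x]
  set v := th x - p0 with hvdef
  set d := x - (c - (β ^ 2 * e) • p0) with hd
  set Δ := (β ^ 2 * (e0 - e)) • p0 with hΔ
  have hX : Xc (β ^ 2) c x = d + (β ^ 2 * e) • v := by rw [Xc, hd, hvdef, ← hedef]; module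
  have hm : x - (c - (β ^ 2 * e0) • p0) = d + Δ := by rw [hd, hΔ]; module
  have hvv : 0 < v ⬝ᵥ v := by
    refine lt_of_le_of_ne (Cond.dot_self_nonneg v) fun h0 => ?_
    rw [← h0] at hy
    simp only [zero_div, mul_zero] at hy
    linarith
  have hw := weight_eq (β := β) (e := e) (d := d) hn hτ0 hvv
  have h0 : (β * (1 / Real.sqrt n) * len v) ^ 2 = β ^ 2 * (v ⬝ᵥ v / n) := by
    rw [mul_pow, mul_pow, len_sq, div_pow, Real.sq_sqrt hN.le]; ring
  have hγ : 0 < γ0 := by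
    have : 0 ≤ β ^ 2 * (v ⬝ᵥ v / n) := by positivity
    linarith
  have hS0 : Sd (ps β γ0 (c - (β ^ 2 * e0) • p0) p0) (ps' β γ0 (c - (β ^ 2 * e0) • p0))
      ((Real.sqrt γ0)⁻¹ • (x - (c - (β ^ 2 * e0) • p0))) =
      β * ((d + Δ) ⬝ᵥ v) / (n * γ0) - β * e := by
    have a1 : ∀ i, ((Real.sqrt γ0)⁻¹ • (x - (c - (β ^ 2 * e0) • p0))) i *
        (β / Real.sqrt γ0 * (Real.tanh (x i) - p0 i)) = β / γ0 * ((d + Δ) i * v i) := by
      intro i
      have hs : Real.sqrt γ0 ≠ 0 := (Real.sqrt_pos.2 hγ).ne'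
      rw [hm, Pi.smul_apply, smul_eq_mul, show Real.tanh (x i) - p0 i = v i from rfl]
      conv_rhs => rw [← Real.mul_self_sqrt hγ.le]
      field_simp
    simp only [Sd, ps, ps', back hγ, a1, Finset.sum_sub_distrib, ← Finset.mul_sum,
      Fintype.card_fin]
    rw [hedef, avg_DD]
    simp only [dotProduct, th, sq, Finset.sum_const, Finset.card_univ, Fintype.card_fin,
      nsmul_eq_mul, mul_one]
    field_simp
  rw [hS0, hm, jac, phiS, h0, phi, Fintype.card_fin, ← hedef, hX]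
  rw [hX] at h3
  generalize β ^ 2 * (v ⬝ᵥ v / n) = y at *
  have hy0 : 0 < y := by nlinarith
  set r := Real.sqrt n with hr
  have hr0 : 0 < r := Real.sqrt_pos.2 hN
  have hrr : r * r = n := Real.mul_self_sqrt hN.le
  set R := Real.sqrt (5 * |A|) + 2 with hR
  have hR0 : 0 < R := by positivity
  have huτ : u * τ ^ 2 ≤ u * τ := mul_le_mul_of_nonneg_left (by nlinarith) hu0.le
  have huτ' : u * τ ≤ u := mul_le_of_le_one_right hu0.le hτ1
  have hu1 : u ≤ 1 := by linarith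
  have hdn : nrm d ≤ R * r := by
    have a1 : nrm (d + (β ^ 2 * e) • v) ≤ Real.sqrt (5 * |A|) * r := by
      rw [nrm_le_iff (by positivity), mul_pow, Real.sq_sqrt (by positivity), sq r, hrr]
      refine h3.trans (mul_le_mul_of_nonneg_right ?_ hN.le)
      have := mul_le_mul (le_abs_self A) (by linarith : τ + y ≤ 5) (by linarith) (abs_nonneg A)
      linarith
    have a2 := nrm_sub_le (d + (β ^ 2 * e) • v) ((β ^ 2 * e) • v)
    rw [add_sub_cancel_right, nrm_smul, abs_of_nonneg (by positivity)] at a2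
    have a3 := mul_le_of_le_one_left (nrm_nonneg v) (mul_le_one₀ hb1 he0 he1)
    rw [hR]
    linarith
  have hΔn : nrm Δ ≤ u * τ ^ 2 * r := nrm_le_of_abs (by positivity) fun i => by
    rw [hΔ, Pi.smul_apply, smul_eq_mul, mul_right_comm, abs_mul, abs_mul,
      abs_of_nonneg (sq_nonneg β), abs_sub_comm]
    exact (mul_le_of_le_one_left (abs_nonneg _) (mul_le_one₀ hb1 (abs_nonneg _) (hp0 i))).trans he
  have p1 := phi_var_le hτ0 (by linarith : τ ≤ τ + y) hγ1 hγ2 d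
  have p2 := phi_le_shift hγ hdn hΔn
  have q1 : (n : ℝ) * (u * τ ^ 2 / τ) ≤ n * u := mul_le_mul_of_nonneg_left
    ((div_le_iff₀ hτ0).2 huτ) hN.le
  have q2 : (2 * (R * r) * (u * τ ^ 2 * r) + (u * τ ^ 2 * r) ^ 2) / (2 * γ0) ≤ n * ((R + 1) * u) := by
    rw [div_le_iff₀ (by positivity)]
    have a1 : u * τ ^ 2 ≤ u * γ0 := huτ.trans (mul_le_mul_of_nonneg_left (by linarith) hu0.le)
    have a2 : (u * τ ^ 2) ^ 2 ≤ u * γ0 :=
      (pow_le_of_le_one (by positivity) (by linarith) two_ne_zero).trans a1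
    calc _ = n * (2 * R * (u * τ ^ 2) + (u * τ ^ 2) ^ 2) := by rw [← hrr]; ring
      _ ≤ n * (2 * R * (u * γ0) + 2 * (u * γ0)) := by
          have : 0 ≤ u * γ0 := by positivity
          gcongr
          linarith
      _ = _ := by ring
  set S := β * (d ⬝ᵥ v) / (n * (τ + y)) - β * e with hS
  set S0 := β * ((d + Δ) ⬝ᵥ v) / (n * γ0) - β * e with hS0'
  have q3 : |S - S0| ≤ (2 * R + 2) * u := by
    have g0 : 0 < τ + y := by linarith
    have a1 : S - S0 = β * ((d ⬝ᵥ v) / n * ((γ0 - (τ + y)) / ((τ + y) * γ0)) - (Δ ⬝ᵥ v) / n / γ0) := by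
      rw [hS, hS0', add_dotProduct]; field_simp; ring
    have a2 : |d ⬝ᵥ v| / n ≤ 2 * R := by
      rw [div_le_iff₀ hN, ← hrr]
      exact (abs_dot_le' d v).trans ((mul_le_mul hdn hv (nrm_nonneg _) (by positivity)).trans_eq
        (by ring))
    have a3 : |Δ ⬝ᵥ v| / n ≤ 2 * (u * τ ^ 2) := by
      rw [div_le_iff₀ hN, ← hrr]
      exact (abs_dot_le' Δ v).trans ((mul_le_mul hΔn hv (nrm_nonneg _) (by positivity)).trans_eq
        (by ring))
    have a4 : (γ0 - (τ + y)) / ((τ + y) * γ0) ≤ u := by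
      rw [div_le_iff₀ (by positivity)]
      have : τ ^ 2 ≤ (τ + y) * γ0 := by nlinarith
      nlinarith
    have a5 : |Δ ⬝ᵥ v| / n / γ0 ≤ 2 * u := by
      rw [div_le_iff₀ hγ]
      have : u * τ ≤ u * γ0 := mul_le_mul_of_nonneg_left (by linarith) hu0.le
      linarith
    have a6 : 0 ≤ (γ0 - (τ + y)) / ((τ + y) * γ0) := div_nonneg (by linarith) (by positivity)
    rw [a1, abs_mul, abs_of_pos hβ.1]
    refine (mul_le_of_le_one_left (abs_nonneg _) hβ.2).trans ((abs_sub _ _).trans ?_)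
    rw [abs_mul, abs_div, abs_div, abs_div, abs_div, Nat.abs_cast, ← abs_div, abs_of_nonneg a6,
      abs_of_pos hγ]
    have := mul_le_mul a2 a4 a6 (by positivity)
    linarith
  have q4 : S ^ 2 * ((τ + y) / (2 * (τ + 2 * y))) ≤
      (1 + k / 24) / 4 * S0 ^ 2 + (1 + 200 / k) * (2 * R + 2) ^ 2 * u := by
    have a1 : S ^ 2 ≤ (1 + k / 200) * S0 ^ 2 + (1 + 200 / k) * (S - S0) ^ 2 := by
      have b1 : 0 ≤ 200 / k * (k / 200 * S0 - (S - S0)) ^ 2 := by positivity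
      have b2 : 200 / k * (k / 200 * S0 - (S - S0)) ^ 2 =
          k / 200 * S0 ^ 2 - 2 * S0 * (S - S0) + 200 / k * (S - S0) ^ 2 := by field_simp; ring
      nlinarith
    have a2 : (S - S0) ^ 2 ≤ (2 * R + 2) ^ 2 * u := by
      rw [← sq_abs]
      refine (pow_le_pow_left₀ (abs_nonneg _) q3 2).trans ?_
      rw [mul_pow]
      exact mul_le_mul_of_nonneg_left (by nlinarith) (sq_nonneg _)
    have a3 : (τ + y) / (2 * (τ + 2 * y)) ≤ 1 := (div_le_one (by positivity)).2 (by linarith)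
    have a4 : (1 + k / 200) * ((τ + y) / (2 * (τ + 2 * y))) ≤ (1 + k / 24) / 4 := by
      rw [← mul_div_assoc, div_le_div_iff₀ (by positivity) (by norm_num)]
      have b1 : 0 ≤ k * τ := by positivity
      have b2 : 0 ≤ k * y := by positivity
      nlinarith
    have a5 : 0 ≤ (τ + y) / (2 * (τ + 2 * y)) := by positivity
    have a6 := mul_le_mul_of_nonneg_left a2 (by positivity : 0 ≤ 1 + 200 / k)
    have a7 := mul_le_mul_of_nonneg_right a4 (sq_nonneg S0)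
    have a8 := mul_le_of_le_one_right (by positivity : 0 ≤ (1 + 200 / k) * (S - S0) ^ 2) a3
    have a9 := mul_le_mul_of_nonneg_right a1 a5
    nlinarith
  have q5 : Real.sqrt (τ + y) / Real.sqrt (τ + 2 * y) ≤ 1 :=
    div_le_one_of_le₀ (Real.sqrt_le_sqrt (by linarith)) (Real.sqrt_nonneg _)
  have hφ := phi_nonneg γ0 (d + Δ)
  calc _ ≤ Real.exp (n * (β ^ 2 * e ^ 2 / 2)) * ((Real.sqrt (2 * Real.pi * (τ + y)))⁻¹ ^ n *
        Real.exp (-((d + (β ^ 2 * e) • v) ⬝ᵥ (d + (β ^ 2 * e) • v)) / (2 * (τ + y))) * 1 *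
        Real.exp (y * (unitv v ⬝ᵥ (d + (β ^ 2 * e) • v)) ^ 2 / (2 * (τ + y) * (τ + 2 * y)))) := by
        gcongr
    _ = (Real.sqrt (2 * Real.pi * (τ + y)))⁻¹ ^ n * Real.exp (-(d ⬝ᵥ d) / (2 * (τ + y))) *
        Real.exp (n * S ^ 2 * ((τ + y) / (2 * (τ + 2 * y)))) := by
        rw [mul_assoc _ (Real.exp _) (Real.exp (n * S ^ 2 * _)), ← Real.exp_add, ← hw,
          Real.exp_add, Real.exp_add]
        ring
    _ ≤ (Real.exp (n * u) * (phi γ0 (d + Δ) * Real.exp (n * ((R + 1) * u)))) *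
        Real.exp (n * ((1 + k / 24) / 4 * S0 ^ 2 + (1 + 200 / k) * (2 * R + 2) ^ 2 * u)) := by
        refine mul_le_mul (p1.trans (mul_le_mul (Real.exp_le_exp.2 q1) (p2.trans
          (mul_le_mul_of_nonneg_left (Real.exp_le_exp.2 q2) hφ)) (phi_nonneg _ _)
          (Real.exp_pos _).le)) (Real.exp_le_exp.2 ?_) (Real.exp_pos _).le (by positivity)
        rw [mul_assoc]
        exact mul_le_mul_of_nonneg_left q4 hN.le
    _ = _ := by
        have : (n : ℝ) * (cE A k * u) = n * u + n * ((R + 1) * u) +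
            n * ((1 + 200 / k) * (2 * R + 2) ^ 2 * u) := by rw [cE, hR]; ring
        rw [this, mul_add (n : ℝ) (_ * S0 ^ 2), Real.exp_add, Real.exp_add, Real.exp_add,
          show (1 + k / 24) / 4 * (n : ℝ) * S0 ^ 2 = n * ((1 + k / 24) / 4 * S0 ^ 2) by ring]
        ring

end point

lemma setLIntegral_le_of_le {α : Type*} [MeasurableSpace α] (μ : Measure α) {S : Set α}
    {f g : α → ℝ≥0∞} (hf : Measurable f) (hg : Measurable g) (h : ∀ x ∈ S, f x ≤ g x) :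
    ∫⁻ x in S, f x ∂μ ≤ ∫⁻ x, g x ∂μ :=
  (lintegral_mono_set (t := {x | f x ≤ g x}) h).trans
    ((setLIntegral_mono' (measurableSet_le hf hg) fun _ hx => hx).trans
      (setLIntegral_le_lintegral _ _))

lemma grid {ε t : ℝ} (hε : 0 < ε) (h0 : 0 ≤ t) (h4 : t ≤ 4) :
    ∃ i ∈ Finset.range (⌈4 / ε⌉₊ + 1), t ≤ i * ε ∧ i * ε ≤ t + ε := by
  refine ⟨⌈t / ε⌉₊, Finset.mem_range.2 (Nat.lt_succ_of_le (Nat.ceil_le_ceil (by gcongr))),
    (div_le_iff₀ hε).1 (Nat.le_ceil _), ?_⟩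
  have := mul_le_mul_of_nonneg_right (Nat.ceil_lt_add_one (div_nonneg h0 hε.le)).le hε.le
  rwa [add_mul, div_mul_cancel₀ _ hε.ne', one_mul] at this

end Crest.Agent.T157.Lp.Chi

namespace Crest.Agent.T157.Lp

open MeasureTheory ProbabilityTheory Matrix Filter Set
open Crest.Agent.T157.E Crest.Agent.T157.Eig Crest.Agent.T157.Cond Crest.Agent.T157.Tap
open Crest.Agent.T157.Kr Crest.Agent.T157.Tap.Cell Chi
open scoped ENNReal

theorem childStmt : ChildStmt := by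
  intro β hβ k1 hk1 A
  set k := min k1 1 with hkdef
  have hk : 0 < k := lt_min hk1 one_pos
  have hk' : k ≤ 1 := min_le_right _ _
  obtain ⟨C, c1, hC, hc1, hcell⟩ := cell_int.{0} hk hk'
  have hb : 0 < β ^ 2 := pow_pos hβ.1 2
  refine ⟨c1 / 4, by positivity, k / 20, by positivity, 200 / (k * β ^ 2), by positivity,
    fun τ hτ => ?_⟩
  have hE : 0 < cE A k := by unfold cE; positivity
  set u := min (k / 90) (c1 / 2 / cE A k) with hu
  have hu0 : 0 < u := lt_min (by positivity) (by positivity)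
  have hu1 : cE A k * u ≤ c1 / 2 := by
    rw [mul_comm]; exact (le_div_iff₀ hE).1 (min_le_right _ _)
  have hτ0 := hτ.1
  have hε : 0 < u * τ ^ 2 := by positivity
  set I := Finset.range (⌈4 / (u * τ ^ 2)⌉₊ + 1) with hI
  have hev : Tendsto (fun n : ℕ => Real.exp (c1 / 4 * n)) atTop atTop :=
    Real.tendsto_exp_atTop.comp (tendsto_natCast_atTop_atTop.const_mul_atTop (by positivity))
  filter_upwards [hev.eventually_ge_atTop (((I ×ˢ I).card : ℝ) * C), eventually_gt_atTop 0]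
    with n hn1 hn c p0 hp0
  have : Nonempty (Fin n) := ⟨⟨0, hn⟩⟩
  set m : ℕ → V n := fun i => c - (β ^ 2 * (i * (u * τ ^ 2))) • p0 with hm
  set g : ℕ → ℝ := fun j => τ + j * (u * τ ^ 2) with hg
  have hg0 : ∀ j, 0 < g j := fun j => by simp only [hg]; positivity
  set H : ℕ × ℕ → V n → ℝ≥0∞ := fun q => (Adm (ps β (g q.2) (m q.1) p0) (ps' β (g q.2) (m q.1)) k ∩
    Far (ps β (g q.2) (m q.1) p0) k).indicator fun z => ENNReal.ofReal (Real.exp ((1 + k / 24) / 4 *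
      Fintype.card (Fin n) * Sd (ps β (g q.2) (m q.1) p0) (ps' β (g q.2) (m q.1)) z ^ 2)) with hH
  have hsl : ∀ q : ℕ × ℕ, Slope (ps β (g q.2) (m q.1) p0) (ps' β (g q.2) (m q.1)) := fun q =>
    slope_ps hβ (hg0 _) _ _
  have hms := fun q : ℕ × ℕ => ((hsl q).measurableSet_Adm k).inter ((hsl q).measurableSet_Far k)
  have hHm : ∀ q, Measurable (H q) := fun q => by
    have := (hsl q).measurable_Sd
    exact Measurable.indicator (by fun_prop) (hms q)
  set G : ℕ × ℕ → V n → ℝ≥0∞ := fun q x => ENNReal.ofReal (Real.exp (n * (cE A k * u))) *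
    (ENNReal.ofReal (phi (g q.2) (x - m q.1)) * H q ((Real.sqrt (g q.2))⁻¹ • (x - m q.1))) with hG
  have hGm : ∀ q, Measurable (G q) := fun q => by
    have := hHm q
    simp only [hG]
    fun_prop
  have hGi : ∀ q, ∫⁻ x, G q x ≤ ENNReal.ofReal (C * Real.exp (-(c1 / 2 * n))) := by
    intro q
    have h1 := lintegral_gv_scale (hg0 q.2) (m q.1)
      (G := fun x => H q ((Real.sqrt (g q.2))⁻¹ • (x - m q.1))) (by have := hHm q; fun_prop)
    simp only [add_sub_cancel_left, smul_smul,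
      inv_mul_cancel₀ (Real.sqrt_pos.2 (hg0 q.2)).ne', one_smul] at h1
    simp only [hG]
    rw [lintegral_const_mul' _ _ ENNReal.ofReal_ne_top, ← h1]
    simp only [hH]
    rw [lintegral_indicator (hms q)]
    refine (mul_le_mul_right (hcell (hsl q)) _).trans ?_
    rw [← ENNReal.ofReal_mul (Real.exp_pos _).le, mul_left_comm, ← Real.exp_add, Fintype.card_fin]
    refine ENNReal.ofReal_le_ofReal (mul_le_mul_of_nonneg_left (Real.exp_le_exp.2 ?_) hC)
    have := mul_le_mul_of_nonneg_left hu1 (Nat.cast_nonneg n)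
    linarith
  refine (setLIntegral_le_of_le volume (g := fun x => ∑ q ∈ I ×ˢ I, G q x) ?_
    (Finset.measurable_sum _ fun q _ => hGm q) fun x hx => ?_).trans ?_
  · have h1 : Measurable fun x : V n => avg (DD (th x)) :=
      (by fun_prop : Continuous fun x : V n => avg (DD (th x))).measurable
    unfold jac phiS Xc
    fun_prop
  · obtain ⟨i, hi, hi1, hi2⟩ := grid hε (t := avg (DD (th x)))
      (by rw [avg_DD_th x hn]; linarith [aS_le_one x])
      (by rw [avg_DD_th x hn]; linarith [aS_nonneg x])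
    obtain ⟨j, hj, hj1, hj2⟩ := grid hε (t := β ^ 2 * ((th x - p0) ⬝ᵥ (th x - p0) / n))
      (mul_nonneg hb.le (div_nonneg (Cond.dot_self_nonneg _) (Nat.cast_nonneg _)))
      (y_le hn hβ hp0)
    have he : |avg (DD (th x)) - i * (u * τ ^ 2)| ≤ u * τ ^ 2 := abs_le.2 ⟨by linarith, by linarith⟩
    have hγ1 : gam (β ^ 2) τ p0 x ≤ g j := by simp only [gam, hg]; linarith
    have hγ2 : g j ≤ gam (β ^ 2) τ p0 x + u * τ ^ 2 := by simp only [gam, hg]; linarith
    have h1 := point_mem hn hβ hτ hk hk' (min_le_left _ _) hu0 (min_le_left _ _) hp0 hx he hγ1 hγ2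
    have h2 := point_le hn hβ hτ hk hk' (min_le_left _ _) hu0 (min_le_left _ _) hp0 hx he hγ1 hγ2
    refine le_trans ?_ (Finset.single_le_sum (f := fun q => G q x) (fun _ _ => zero_le)
      (Finset.mk_mem_product hi hj))
    simp only [hG, hH, hm]
    rw [Set.indicator_of_mem h1, ← ENNReal.ofReal_mul (phi_nonneg _ _),
      ← ENNReal.ofReal_mul (Real.exp_pos _).le]
    exact ENNReal.ofReal_le_ofReal h2
  · rw [lintegral_finsetSum _ fun q _ => hGm q]
    refine (Finset.sum_le_sum fun q _ => hGi q).trans ?_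
    rw [Finset.sum_const, nsmul_eq_mul, ← ENNReal.ofReal_natCast,
      ← ENNReal.ofReal_mul (Nat.cast_nonneg _), ← mul_assoc]
    refine ENNReal.ofReal_le_ofReal ((mul_le_mul_of_nonneg_right hn1 (Real.exp_pos _).le).trans_eq ?_)
    rw [← Real.exp_add]
    congr 1
    ring

end Crest.Agent.T157.Lp

end
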