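import Crest.Agent.T157.LpG1_17
import Crest.Agent.T157.LpKs_17
import Crest.Agent.T157.TapSE_6

-- ▼ part T157/LpG2_17
section

/-!
# Row 157, part A: the window lemma along the plain localisation, good children (helper17)
-/

set_option autoImplicit false

noncomputable section

namespace Crest.Agent.T157.Lp.G2

open MeasureTheory ProbabilityTheory Matrix Filter Set
open Crest.ProbabilityR.SpinGlassDynamics
open Crest.Agent.T157.E Crest.Agent.T157.Eig Crest.Agent.T157.Tap Crest.Agent.T157.Tap.Froz10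
open Crest.Agent.T157.Lp.G1

variable {n : ℕ} {J E : Mx n} {b : ℝ} {v : Cube n → ℝ}

theorem log_Zw_post (hv : SL.Wt v) (t : ℝ) (z : V n) :
    Real.log (Zw (post sv v t z)) = Real.log (Zw (tilt v z)) - t * n / 2 := by
  have h0 : 0 < Zw (tilt v z) := (hv.tilt z).pos
  rw [SL.post_sv, Zw, ← Finset.sum_mul, ← Zw, Real.log_mul h0.ne' (Real.exp_pos _).ne', Real.log_exp]
  ring

/-- the window lemma for the driver `Q = 1` -/
theorem win1 (hW : WinGStmt) {c K : ℝ} (hc : 0 < c) (hK : 1 ≤ K) : ∃ K' > (0 : ℝ), ∀ (n : ℕ)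
    (J E : Mx n) (b h r R ε ω : ℝ) (y0 p0 : V n) (v : Cube n → ℝ) (ψ : V n → ℝ),
    0 < n → Jᵀ = J → opn J ≤ K → Eᵀ = E → opn E ≤ K → b ∈ Icc (0 : ℝ) 1 → h ∈ Icc (0 : ℝ) 1 → 0 < R →
    (n : ℝ) ≤ K * R ^ 2 → R ^ 2 ≤ K * n → Cb p0 → SL.Wt v → 0 ≤ ω → GoodE J b E c r p0 →
    (∀ z : V n, nrm z ≤ 2 * R → ∃ x, nrm (th x - p0) < r ∧ YE J b E p0 x = y0 + z) →
    (∀ p : V n, Cb p → nrm (p - p0) ≤ r → nrm (err (B1 J b p - E) (dd p) b 1 1) ≤ ω) →
    SL.MG ψ → (∀ z, 0 ≤ ψ z) →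
    (∀ z : V n, nrm z ≤ R → ∀ x, nrm (th x - p0) < r → YE J b E p0 x = y0 + z →
      nrm (mag (tilt v z) - th x) ^ 2 ≤ ψ z) →
    (∀ t ∈ Icc 0 h, (SL.law sv v t).real {z | R ^ 2 ≤ 2 * (z ⬝ᵥ z)} ≤ ε) →
    ∀ x0, nrm (th x0 - p0) < r → YE J b E p0 x0 = y0 →
      nrm (mag v - th x0) ^ 2 ≤ K' * (slE sv v h (fun _ z => ψ z) + ω ^ 2 + 1 + n * ε) ∧
      ∀ (ω' u : ℝ) (U : V n → ℝ), 0 ≤ ω' → 0 ≤ u →
        (∀ p : V n, Cb p → nrm (p - p0) ≤ r →
          |(GG (B1 J b p - E) (dd p)).trace - n * avg (DD p)| ≤ 2 * ω') →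
        SL.MG U → (∀ z, U z ≤ u) →
        (∀ z : V n, nrm z ≤ R → ∀ x, nrm (th x - p0) < r → YE J b E p0 x = y0 + z →
          U z ≤ Real.log (Zw (tilt v z)) - PhiE J b E p0 (y0 + z) x -
            (Real.log (Zw v) - PhiE J b E p0 y0 x0)) →
        slE sv v h (fun _ z => U z) ≤
          K' * (slE sv v h (fun _ z => ψ z) + ω ^ 2 + 1 + n * ε) + ω' + u * ε := by
  obtain ⟨K', hK', H⟩ := hW c hc K (by linarith)
  refine ⟨K', hK', fun n J E b h r R ε ω y0 p0 v ψ hn hJ hJK hE hEK hb hh hR h1 h2 hp hv hω hG hex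
    herr hψ hψ0 hend hexit x0 hx0 hy0 => ?_⟩
  have hφ : (fun σ : Cube n => (1 : Mx n) *ᵥ sv σ) = sv := funext fun σ => one_mulVec _
  have hm : ∀ t z, mag (post sv v t z) = mag (tilt v z) := fun t z => SL.meanV_post_sv _ _ _ _
  have := H n J 1 E b 0 1 h r R ε ω y0 p0 v ψ hn hJ hJK hE hEK hb ⟨le_rfl, zero_le_one⟩ hh.1 hh.2
    (by simpa using hK) (by simp) hR h1 h2 hp hv hω
  simp only [val, hφ, hm, log_Zw_post hv, zero_mul, sub_zero, one_smul, one_pow, one_mul, mul_one,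
    transpose_one, one_mulVec, zero_smul, zero_add, mul_zero, add_zero, zero_div, G1.tilt_zero] at this
  obtain ⟨c1, c2⟩ := this (fun _ _ => hG) (fun _ _ => hex) (fun _ _ => herr) hψ hψ0 hend hexit x0 hx0 hy0
  refine ⟨c1, fun ω' u U a1 a2 a3 a4 a5 a6 => c2 ω' u U a1 a2 (fun _ _ p hp hr => ?_) a4 a5
    fun z hz x hx hy => by linarith [a6 z hz x hx hy]⟩
  have := abs_le.1 (a3 p hp hr)
  rw [abs_le]; constructor <;> linarith

/-! ### penalties -/

theorem pen_mulVec {r : ℕ} (L : ℝ) (u : Fin r → V n) (q : V n) :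
    (L • ∑ j, vecMulVec (u j) (u j)) *ᵥ q = L • ∑ j, (q ⬝ᵥ u j) • u j := by
  rw [smul_mulVec, sum_mulVec]
  simp only [vecMulVec_mulVec, dotProduct_comm q, op_smul_eq_smul]

theorem pen_symm {r : ℕ} {L : ℝ} (h : Pen r L E) : Eᵀ = E := by
  obtain ⟨u, -, rfl⟩ := h
  simp [transpose_smul, transpose_sum, transpose_vecMulVec]

theorem pen_opn {r : ℕ} {L : ℝ} (hL : 0 ≤ L) (h : Pen r L E) : opn E ≤ L * r := by
  obtain ⟨u, hu, rfl⟩ := h
  rw [opn_smul, abs_of_nonneg hL]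
  refine mul_le_mul_of_nonneg_left ((opn_sum_le _ _).trans ?_) hL
  exact (Finset.sum_le_card_nsmul _ _ 1 fun j _ =>
    (opn_vecMulVec_le _ _).trans ((nrm_mul_self _).trans_le (hu j))).trans_eq (by simp)

theorem pen_nrm {r : ℕ} {L : ℝ} (hL : 0 ≤ L) (h : Pen r L E) (q : V n) :
    nrm (E *ᵥ q) ≤ L * r * nrm q :=
  (nrm_mulVec_le E q).trans (mul_le_mul_of_nonneg_right (pen_opn hL h) (nrm_nonneg q))

theorem pen_quad {r : ℕ} {L : ℝ} (hL : 0 ≤ L) (h : Pen r L E) (q : V n) :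
    0 ≤ q ⬝ᵥ E *ᵥ q ∧ q ⬝ᵥ E *ᵥ q ≤ L * r * nrm q ^ 2 := by
  refine ⟨?_, ((le_abs_self _).trans (abs_quad_le E q)).trans ?_⟩
  · obtain ⟨u, -, rfl⟩ := h
    rw [pen_mulVec, dotProduct_smul, dotProduct_sum]
    exact mul_nonneg hL (Finset.sum_nonneg fun j _ => by
      rw [dotProduct_smul]; exact mul_self_nonneg _)
  · rw [nrm_sq]; exact mul_le_mul_of_nonneg_right (pen_opn hL h) (dot_self_nonneg q)

theorem nrm_sum_le {r : ℕ} (f : Fin r → V n) : nrm (∑ j, f j) ≤ ∑ j, nrm (f j) :=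
  Finset.le_sum_of_subadditive nrm nrm_zero.le nrm_add_le _ f

theorem pen_nrm_sq {r : ℕ} {L : ℝ} (hL : 0 ≤ L) {u : Fin r → V n} (hu : ∀ j, u j ⬝ᵥ u j ≤ 1)
    (q : V n) : nrm ((L • ∑ j, vecMulVec (u j) (u j)) *ᵥ q) ^ 2 ≤ L ^ 2 * r * ∑ j, (q ⬝ᵥ u j) ^ 2 := by
  rw [pen_mulVec, nrm_smul, abs_of_nonneg hL, mul_pow, mul_assoc]
  refine mul_le_mul_of_nonneg_left ?_ (sq_nonneg L)
  have h1 : nrm (∑ j, (q ⬝ᵥ u j) • u j) ≤ ∑ j, |q ⬝ᵥ u j| := (nrm_sum_le _).trans
    (Finset.sum_le_sum fun j _ => by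
      rw [nrm_smul]
      exact mul_le_of_le_one_right (abs_nonneg _) ((nrm_le_iff zero_le_one).2 (by simpa using hu j)))
  refine (pow_le_pow_left₀ (nrm_nonneg _) h1 2).trans (sq_sum_le_card_mul_sum_sq.trans_eq ?_)
  simp

/-- the defect is controlled by the distance to the penalised branch -/
theorem dfc_le_branch (hJ : opn J ≤ 3) (hb : b ∈ Icc (0 : ℝ) 1) {r : ℕ} {L : ℝ} (hL : 0 ≤ L)
    (h : Pen r L E) {m x y : V n} (hm : Cb m) (hx : YE J b E m x = y) :
    dfc J b y m ≤ (7 + L * r) * nrm (m - th x) := by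
  have e : y - Ymap J b x = E *ᵥ (th x - m) := by rw [← hx, YE]; abel
  have h1 := cav_lip hJ hb y (Ymap J b x) hm (cb_th x)
  rw [cav_Ymap, e] at h1
  have h2 := pen_nrm hL h (th x - m)
  rw [nrm_sub_comm (th x)] at h2
  have h3 := SE.nrm_th_sub_le x (cav J b y m)
  rw [nrm_sub_comm x] at h3
  have := nrm_tri m (th x) (th (cav J b y m))
  rw [dfc]; linarith

/-- a good child lies close to the parent magnetisation -/
theorem child (hn : 0 < n) (hJ : opn J ≤ 3) (hb : b ∈ Icc (0 : ℝ) 1) {k η θ K2 C δ : ℝ} {N : ℕ}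
    (hk : 0 ≤ k) (hη : η ≤ k / 2) (hθ : 12 * θ ≤ η) (hθ0 : 0 ≤ θ) (hC : θ * |C| ≤ δ / 2) {y m0 : V n}
    (hy : k * Real.sqrt n ≤ nrm (th y)) {rr : Fin N → V n} (hr : ∀ j, nrm (rr j) ≤ C * Real.sqrt n)
    (hK : ∀ x, nrm (Ymap J b x - y) ≤ η * Real.sqrt n → avg (DD (th x)) ≤ 1 - k ^ 2 / 100 →
      K2 * η * Real.sqrt n ≤ nrm (th x - m0) → ∃ j, δ * n ≤ |(th x - m0) ⬝ᵥ rr j|)
    {z m : V n} (hz : nrm z ≤ η * Real.sqrt n / 2) (hm : Cb m)
    (hd : dfc J b (y + z) m ≤ θ * Real.sqrt n) (hj : ∀ j, |(m - m0) ⬝ᵥ rr j| < δ * n / 2) :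
    nrm (Ymap J b (cav J b (y + z) m) - y) ≤ η * Real.sqrt n ∧
      k * Real.sqrt n / 10 ≤ nrm (th (cav J b (y + z) m)) ∧
      nrm (th (cav J b (y + z) m) - m0) < K2 * η * Real.sqrt n := by
  have h1 := nrm_Ymap_cav hJ hb (y + z) hm
  rw [dfc] at hd h1
  set x := cav J b (y + z) m
  have hs : 0 ≤ Real.sqrt n := Real.sqrt_nonneg _
  have hn' : (0 : ℝ) < n := by positivity
  have a1 : nrm (Ymap J b x - y) ≤ η * Real.sqrt n := by
    have := nrm_tri (Ymap J b x) (y + z) y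
    rw [add_sub_cancel_left] at this
    nlinarith [mul_le_mul_of_nonneg_right hθ hs]
  have a2 : k * Real.sqrt n / 10 ≤ nrm (th x) := by
    have b1 := SE.nrm_th_sub_le y x
    have b2 := SE.nrm_sub_Ymap_le hJ hb x
    have b3 := nrm_tri x (Ymap J b x) y
    have b4 := nrm_add_le (th y - th x) (th x)
    rw [sub_add_cancel] at b4
    rw [nrm_sub_comm y] at b1
    rw [nrm_sub_comm x (Ymap J b x)] at b3
    nlinarith [mul_le_mul_of_nonneg_right hη hs]
  refine ⟨a1, a2, not_le.1 fun hc => ?_⟩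
  obtain ⟨j, hj'⟩ := hK x a1 (by
    have := pow_le_pow_left₀ (by positivity) a2 2
    rw [nrm_sq, div_pow, mul_pow, Real.sq_sqrt hn'.le] at this
    rw [avg_DD_eq hn, sub_le_sub_iff_left, le_div_iff₀ hn']
    linarith) hc
  have e : (th x - m0) ⬝ᵥ rr j = (m - m0) ⬝ᵥ rr j - (m - th x) ⬝ᵥ rr j := by
    simp only [sub_dotProduct]; ring
  have b1 : |(m - th x) ⬝ᵥ rr j| ≤ θ * Real.sqrt n * (|C| * Real.sqrt n) := (abs_dot_le _ _).trans
    (mul_le_mul hd ((hr j).trans (mul_le_mul_of_nonneg_right (le_abs_self C) hs)) (nrm_nonneg _)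
      (by positivity))
  have b2 : θ * Real.sqrt n * (|C| * Real.sqrt n) = θ * |C| * n := by
    linear_combination θ * |C| * sq_sqrt_n (n := n)
  have b3 := abs_sub ((m - m0) ⬝ᵥ rr j) ((m - th x) ⬝ᵥ rr j)
  rw [← e] at b3
  nlinarith [hj j, mul_le_mul_of_nonneg_right hC hn'.le]

/-- comparison of the branch with the cavity field of a child inside the good ball -/
theorem compare (hX : ExEStmt) (hJs : Jᵀ = J) (hJ : opn J ≤ 3) (hb : b ∈ Icc (0 : ℝ) 1) {r : ℕ}
    {L c ρ : ℝ} (hL : 0 ≤ L) (hc : 0 < c) {u : Fin r → V n} (hu : ∀ j, u j ⬝ᵥ u j ≤ 1)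
    (hE : E = L • ∑ j, vecMulVec (u j) (u j)) {m0 y m x : V n} (hG : GoodE J b E c ρ m0) (hm : Cb m)
    (hx : nrm (th x - m0) ≤ ρ) (hy : YE J b E m0 x = y) (hx' : nrm (th (cav J b y m) - m0) ≤ ρ) :
    nrm (m - th x) ^ 2 ≤ (2 + 2 * (2 * (6 + L * r) ^ 2 + 2 * (L ^ 2 * r)) / c ^ 2) *
        (dfc J b y m ^ 2 + ∑ j, ((m - m0) ⬝ᵥ u j) ^ 2) ∧
      PhiE J b E m0 y x ≤ Phi J b y (cav J b y m) + (2 * (6 + L * r) ^ 2 + 2 * (L ^ 2 * r)) / c *
        (dfc J b y m ^ 2 + ∑ j, ((m - m0) ⬝ᵥ u j) ^ 2) := by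
  have hP : Pen r L E := ⟨u, hu, hE⟩
  obtain ⟨c1, c2⟩ := (hX n J E b c ρ m0 hJs (pen_symm hP) hc hG).1 x _ hx hx'
  have c2 := c2 y
  have h1 := nrm_Ymap_cav hJ hb y hm
  have h2 := pen_nrm_sq hL hu (m - m0)
  rw [← hE] at h2
  have hd : dfc J b y m = nrm (m - th (cav J b y m)) := rfl
  set x' := cav J b y m
  set S := ∑ j, ((m - m0) ⬝ᵥ u j) ^ 2
  have hS : 0 ≤ S := Finset.sum_nonneg fun j _ => sq_nonneg _
  set d := dfc J b y m
  have hd0 : 0 ≤ d := dfc_nonneg J b y m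
  set B := 2 * (6 + L * r) ^ 2 + 2 * (L ^ 2 * r)
  rw [hy] at c1
  set e := y - YE J b E m0 x' with he
  have h3 : nrm e ≤ (6 + L * r) * d + nrm (E *ᵥ (m - m0)) := by
    have e1 : e = E *ᵥ (m - th x') - ((Ymap J b x' - y) + E *ᵥ (m - m0)) := by
      simp only [he, YE, mulVec_sub]; abel
    have := pen_nrm hL hP (m - th x')
    rw [← hd] at this
    rw [e1]
    linarith [nrm_sub_le (E *ᵥ (m - th x')) ((Ymap J b x' - y) + E *ᵥ (m - m0)),
      nrm_add_le (Ymap J b x' - y) (E *ᵥ (m - m0))]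
  have h4 : nrm e ^ 2 ≤ B * (d ^ 2 + S) := by
    have := pow_le_pow_left₀ (nrm_nonneg e) h3 2
    have p1 : 0 ≤ L ^ 2 * r * d ^ 2 := by positivity
    have p2 : 0 ≤ (6 + L * r) ^ 2 * S := by positivity
    nlinarith [sq_nonneg ((6 + L * r) * d - nrm (E *ᵥ (m - m0)))]
  have h5 : nrm (th x - th x') ≤ nrm e / c := by rw [le_div_iff₀ hc]; linarith
  constructor
  · have b1 := nrm_tri m (th x') (th x)
    rw [← hd, nrm_sub_comm (th x')] at b1
    have b2 := pow_le_pow_left₀ (nrm_nonneg _) (b1.trans (add_le_add le_rfl h5)) 2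
    have b3 : (nrm e / c) ^ 2 ≤ B / c ^ 2 * (d ^ 2 + S) := by
      rw [div_pow, div_mul_eq_mul_div]; exact div_le_div_of_nonneg_right h4 (sq_nonneg c)
    rw [mul_div_assoc]
    nlinarith [sq_nonneg (d - nrm e / c)]
  · have b1 := (dot_le e (th x - th x')).trans (mul_le_mul_of_nonneg_left h5 (nrm_nonneg e))
    have b2 : nrm e * (nrm e / c) ≤ B / c * (d ^ 2 + S) := by
      rw [← mul_div_assoc, ← sq, div_mul_eq_mul_div]; exact div_le_div_of_nonneg_right h4 hc.le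
    have b3 := (pen_quad hL hP (th x' - m0)).1
    have b4 : PhiE J b E m0 y x' = Phi J b y x' - 1 / 2 * ((th x' - m0) ⬝ᵥ E *ᵥ (th x' - m0)) := rfl
    linarith

/-- the value at the parent -/
theorem parent (hX : ExEStmt) (hJs : Jᵀ = J) (hJ : opn J ≤ 3) (hb : b ∈ Icc (0 : ℝ) 1) {r : ℕ}
    {L c ρ R : ℝ} (hL : 0 ≤ L) (hc : 0 < c) (hρ : 0 < ρ) (hR : 0 ≤ R) (hP : Pen r L E) {m0 y x : V n}
    (hG : GoodE J b E c (ρ * Real.sqrt n) m0) (hm : Cb m0) (hx : nrm (th x - m0) ≤ ρ * Real.sqrt n)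
    (hy : YE J b E m0 x = y) (hyR : nrm y ≤ R * Real.sqrt n) :
    Phi J b y (cav J b y m0) ≤ PhiE J b E m0 y x +
      (L * r / 2 + (6 + 2 * R + 2 * (L * r)) / ρ ^ 2) * dfc J b y m0 ^ 2 := by
  have hd : dfc J b y m0 = nrm (th (cav J b y m0) - m0) := nrm_sub_comm _ _
  set x' := cav J b y m0
  have hn : (0 : ℝ) ≤ n := Nat.cast_nonneg n
  have p1 : 0 ≤ (6 + 2 * R + 2 * (L * r)) / ρ ^ 2 := by positivity
  have p2 : 0 ≤ L * r / 2 := by positivity
  rw [hd]
  by_cases h : nrm (th x' - m0) ≤ ρ * Real.sqrt n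
  · have c2 := ((hX n J E b c _ m0 hJs (pen_symm hP) hc hG).1 x' x h hx).2 y
    rw [hy, sub_self, zero_dotProduct, add_zero] at c2
    have b3 := (pen_quad hL hP (th x' - m0)).2
    have b4 : PhiE J b E m0 y x' = Phi J b y x' - 1 / 2 * ((th x' - m0) ⬝ᵥ E *ᵥ (th x' - m0)) := rfl
    nlinarith [mul_nonneg p1 (sq_nonneg (nrm (th x' - m0)))]
  · have b1 := pow_le_pow_left₀ (by positivity) (not_le.1 h).le 2
    rw [mul_pow, Real.sq_sqrt hn] at b1
    have b2 : (6 + 2 * R + 2 * (L * r)) * n ≤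
        (6 + 2 * R + 2 * (L * r)) / ρ ^ 2 * nrm (th x' - m0) ^ 2 := by
      refine le_trans (le_of_eq ?_) (mul_le_mul_of_nonneg_left b1 p1)
      field_simp
    have b3 := (pen_quad hL hP (th x - m0)).2
    have b4 : PhiE J b E m0 y x = Phi J b y x - 1 / 2 * ((th x - m0) ⬝ᵥ E *ᵥ (th x - m0)) := rfl
    have b5 := pow_le_pow_left₀ (nrm_nonneg _) (nrm_sub_cb (cb_th x) hm) 2
    rw [mul_pow, Real.sq_sqrt hn] at b5
    have b6 := abs_le.1 (abs_Phi_le hJ hb y x)
    have b7 := abs_le.1 (abs_Phi_le hJ hb y x')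
    have b8 := mul_le_mul_of_nonneg_right hyR (Real.sqrt_nonneg n)
    rw [mul_assoc, sq_sqrt_n] at b8
    nlinarith [mul_nonneg p2 (sq_nonneg (nrm (th x' - m0))),
      mul_le_mul_of_nonneg_left b5 (show 0 ≤ L * r by positivity)]

end Crest.Agent.T157.Lp.G2
end
end

-- ▼ part T157/LpG3_17
section

/-!
# Row 157, part A: one step of the backward induction (helper17)
-/

set_option autoImplicit false

noncomputable section

namespace Crest.Agent.T157.Lp.G3

open MeasureTheory ProbabilityTheory Matrix Filter Set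
open Crest.ProbabilityR.SpinGlassDynamics
open Crest.Agent.T157.E Crest.Agent.T157.Eig Crest.Agent.T157.Tap Crest.Agent.T157.Tap.Froz10
open Crest.Agent.T157.Lp.G1 Crest.Agent.T157.Lp.G2

variable {n : ℕ} {J E : Mx n} {b : ℝ} {v : Cube n → ℝ}

/-- squared displacement of the magnetisation along finitely many directions -/
def Sq (v : Cube n → ℝ) {N : ℕ} (w : Fin N → V n) (z : V n) : ℝ :=
  ∑ j, ((mag (tilt v z) - mag v) ⬝ᵥ w j) ^ 2

theorem Sq_nonneg {N : ℕ} (w : Fin N → V n) (z : V n) : 0 ≤ Sq v w z :=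
  Finset.sum_nonneg fun _ _ => sq_nonneg _

theorem mg_Sq (hv : SL.Wt v) {N : ℕ} (w : Fin N → V n) : SL.MG (Sq v w) :=
  SL.MG.sum _ fun _ _ => mg_lin_sq hv _ _

theorem slE_Sq (hv : SL.Wt v) {s a q : ℝ} (hs : 0 ≤ s) (ha : 0 ≤ a) (h : frob v ≤ a ^ 2) {N : ℕ}
    {w : Fin N → V n} (hw : ∀ j, w j ⬝ᵥ w j ≤ q) : slE sv v s (fun _ z => Sq v w z) ≤ N * (a * q) := by
  simp only [Sq]
  rw [SL.slE_sum _ fun j _ => .of_mg fun _ => mg_lin_sq hv _ _]
  exact (Finset.sum_le_card_nsmul _ _ (a * q) fun j _ => ((slE_lin_sq_le hv hs _).trans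
    (quad_le_frob v ha h _)).trans (mul_le_mul_of_nonneg_left (hw j) ha)).trans_eq (by simp)

theorem slE_lin3 {s : ℝ} {F G H : V n → ℝ} (hF : SL.MG F) (hG : SL.MG G) (hH : SL.MG H) (a c d : ℝ) :
    slE sv v s (fun _ z => a * F z + c * G z + d * H z) = a * slE sv v s (fun _ z => F z) +
      c * slE sv v s (fun _ z => G z) + d * slE sv v s (fun _ z => H z) := by
  rw [SL.slE_add (.of_mg fun _ => (hF.const_mul a).add (hG.const_mul c)) (.of_mg fun _ => hH.const_mul d),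
    SL.slE_add (.of_mg fun _ => hF.const_mul a) (.of_mg fun _ => hG.const_mul c), SL.slE_const_mul,
    SL.slE_const_mul, SL.slE_const_mul]

theorem slE_normsq_le (hv : SL.Wt v) {h : ℝ} (hh : h ∈ Icc (0 : ℝ) 1) :
    slE sv v h (fun _ z => z ⬝ᵥ z) ≤ 2 * h * n := by
  rw [slE_normsq hv hh.1]
  exact mul_le_mul_of_nonneg_right (by nlinarith [hh.1, hh.2]) (Nat.cast_nonneg n)

/-- the crude bound of the value increment -/
theorem slE_Xi_crude (hJ : opn J ≤ 3) (hb : b ∈ Icc (0 : ℝ) 1) (hv : SL.Wt v) {h R : ℝ}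
    (hh : h ∈ Icc (0 : ℝ) 1) {y : V n} (hy : nrm y ≤ R * Real.sqrt n) :
    slE sv (tilt v y) h (fun _ z => Xi J b v (y + z)) ≤ Xi J b v y + (9 + 2 * R) * n := by
  have h1 := SL.slE_mono (φ := sv) (s := h) (hv.tilt y) (.of_mg fun _ => mg_shift (mg_Xi hJ hb hv) y)
    (.of_mg fun _ => (SL.MG.const (Xi J b v y + (7 + 2 * R) * n)).add mg_dot) fun _ z => by
      have a := Xi_sub_le hJ hb hv y z
      have a2 := mul_le_mul_of_nonneg_right hy (Real.sqrt_nonneg n)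
      rw [mul_assoc, sq_sqrt_n] at a2
      nlinarith [sq_nonneg (nrm z - Real.sqrt n), sq_sqrt_n (n := n), nrm_sq z]
  rw [SL.slE_add (.of_mg fun _ => SL.MG.const _) (.of_mg fun _ => mg_dot), slE_const (hv.tilt y)] at h1
  have h2 := slE_normsq_le (hv.tilt y) hh
  nlinarith [mul_le_mul_of_nonneg_right hh.2 (Nat.cast_nonneg (α := ℝ) n)]

/-- either the child is good or the majorant exceeds `n` -/
theorem good_or (hn : 0 < n) {θ δ d : ℝ} (hθ : 0 < θ) (hδ : 0 < δ) (hd : 0 ≤ d) {N : ℕ}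
    (w : Fin N → V n) (z : V n) :
    (d ≤ θ * Real.sqrt n ∧ ∀ j, |(mag (tilt v z) - mag v) ⬝ᵥ w j| < δ * n / 2) ∨
      n ≤ 1 / θ ^ 2 * d ^ 2 + 4 / (δ ^ 2 * n) * Sq v w z := by
  have hn' : (0 : ℝ) < n := by positivity
  have p1 : 0 ≤ 1 / θ ^ 2 * d ^ 2 := by positivity
  have p2 : 0 ≤ 4 / (δ ^ 2 * n) * Sq v w z := mul_nonneg (by positivity) (Sq_nonneg w z)
  by_cases h1 : d ≤ θ * Real.sqrt n
  · by_cases h2 : ∀ j, |(mag (tilt v z) - mag v) ⬝ᵥ w j| < δ * n / 2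
    · exact .inl ⟨h1, h2⟩
    · push Not at h2
      obtain ⟨j, hj⟩ := h2
      have a1 := pow_le_pow_left₀ (by positivity) hj 2
      rw [sq_abs] at a1
      have a2 : ((mag (tilt v z) - mag v) ⬝ᵥ w j) ^ 2 ≤ Sq v w z :=
        Finset.single_le_sum (f := fun j => ((mag (tilt v z) - mag v) ⬝ᵥ w j) ^ 2)
          (fun _ _ => sq_nonneg _) (Finset.mem_univ j)
      have a3 := mul_le_mul_of_nonneg_left (a1.trans a2) (show 0 ≤ 4 / (δ ^ 2 * n) by positivity)
      have a4 : 4 / (δ ^ 2 * n) * (δ * n / 2) ^ 2 = n := by field_simp; norm_num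
      exact .inr (by linarith)
  · have a1 := pow_le_pow_left₀ (by positivity) (not_le.1 h1).le 2
    have a3 := mul_le_mul_of_nonneg_left a1 (show 0 ≤ 1 / θ ^ 2 by positivity)
    have a4 : 1 / θ ^ 2 * (θ * Real.sqrt n) ^ 2 = n := by
      rw [mul_pow, Real.sq_sqrt hn'.le]; field_simp
    exact .inr (by linarith)

theorem mul_exp_le (n : ℕ) : (n : ℝ) * Real.exp (-(2 * n)) ≤ 1 := by
  rw [Real.exp_neg, ← div_eq_mul_inv, div_le_one (Real.exp_pos _)]
  linarith [Real.add_one_le_exp (2 * (n : ℝ)), Nat.cast_nonneg (α := ℝ) n]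

set_option maxHeartbeats 1600000 in
theorem stepGlue : StepGlue := by
  intro hX hW κ0 hκ c hc L hL r ρ hρ K2 hK2
  obtain ⟨k, hk, rfl⟩ : ∃ k > 0, κ0 = k ^ 2 := ⟨_, Real.sqrt_pos.2 hκ.1, (Real.sq_sqrt hκ.1.le).symm⟩
  have hk1 : k ≤ 1 := by nlinarith [hκ.2]
  obtain ⟨D0, hD0⟩ : ∃ D0, D0 = K2 + (2 + L * r * K2) / c := ⟨_, rfl⟩
  have D0p : 0 < D0 := by rw [hD0]; positivity
  refine ⟨min (k / 2) (min (k / (20 * K2)) (ρ / (2 * D0))), by positivity,
    fun η hη N C δ hδ R hR => ?_⟩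
  have η0 := hη.1
  have η1 : η ≤ k / 2 := hη.2.trans (min_le_left _ _)
  have η2 : K2 * η ≤ k / 20 := by
    have := hη.2.trans ((min_le_right _ _).trans (min_le_left _ _))
    rw [le_div_iff₀ (by positivity)] at this; linarith
  have η3 : D0 * η < ρ := by
    have := hη.2.trans ((min_le_right _ _).trans (min_le_right _ _))
    rw [le_div_iff₀ (by positivity)] at this; linarith
  have η4 : K2 * η ≤ ρ := by
    have : 0 ≤ (2 + L * r * K2) / c * η := by positivity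
    rw [hD0] at η3; linarith
  obtain ⟨θ, θ0, θ1, θ2⟩ : ∃ θ > 0, 12 * θ ≤ η ∧ θ * |C| ≤ δ / 2 := by
    refine ⟨min (η / 12) (δ / (2 * (|C| + 1))), by positivity, by linarith [min_le_left (η / 12) (δ / (2 * (|C| + 1)))], ?_⟩
    have := min_le_right (η / 12) (δ / (2 * (|C| + 1)))
    rw [le_div_iff₀ (by positivity)] at this
    have : 0 < min (η / 12) (δ / (2 * (|C| + 1))) := by positivity
    linarith
  have hLr : 0 ≤ L * r := by positivity
  obtain ⟨K', hK', HW⟩ := win1 hW hc (K := 3 + L * r + 4 / η ^ 2)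
    (by have : 0 ≤ 4 / η ^ 2 := by positivity
        linarith)
  obtain ⟨B, hB⟩ : ∃ B, B = 2 * (6 + L * r) ^ 2 + 2 * (L ^ 2 * r) := ⟨_, rfl⟩
  have B0 : 0 ≤ B := by rw [hB]; positivity
  obtain ⟨A, A1, A2, A3⟩ : ∃ A, 2 + 2 * B / c ^ 2 ≤ A ∧ B / c ≤ A ∧ 8 + 2 * R ≤ A := by
    have p1 : 0 ≤ 2 * B / c ^ 2 := by positivity
    have p2 : 0 ≤ B / c := by positivity
    exact ⟨2 + 2 * B / c ^ 2 + B / c + (8 + 2 * R), by linarith, by linarith, by linarith⟩
  have A0 : 1 ≤ A := by linarith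
  obtain ⟨C4, hC4⟩ : ∃ C4, C4 = L * r / 2 + (6 + 2 * R + 2 * (L * r)) / ρ ^ 2 := ⟨_, rfl⟩
  have C40 : 0 ≤ C4 := by rw [hC4]; positivity
  obtain ⟨K1, hK1⟩ : ∃ K1, K1 = (7 + L * r) ^ 2 * K' := ⟨_, rfl⟩
  have K10 : 0 ≤ K1 := by rw [hK1]; positivity
  obtain ⟨A', hA'⟩ : ∃ A', A' = A * (1 / θ ^ 2 + 1) := ⟨_, rfl⟩
  have A'1 : 1 ≤ A' := by
    have : 0 ≤ A * (1 / θ ^ 2) := by positivity
    rw [hA']; linarith
  obtain ⟨K0, hK0⟩ : ∃ K0, K0 = (K' + 1 + C4 * K1 + K1) * A' := ⟨_, rfl⟩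
  have K00 : 0 ≤ K0 := by rw [hK0]; positivity
  obtain ⟨K3, hK3⟩ : ∃ K3, K3 = 4 * (9 + 2 * R) / θ ^ 2 := ⟨_, rfl⟩
  have K30 : 0 ≤ K3 := by rw [hK3]; positivity
  refine ⟨min 1 (η ^ 2 / 200), ⟨by positivity, min_le_left _ _⟩, K0 + 1 + K3, by linarith,
    fun σ hσ => ?_⟩
  obtain ⟨δ', δ0, δ1, δ2⟩ : ∃ δ' > 0, 4 * N * C ^ 2 / δ ^ 2 * δ' ≤ 1 / 4 ∧
      A * ((4 * N * C ^ 2 / δ ^ 2 + r) * δ') ≤ σ / 4 := by
    obtain ⟨G, hG⟩ : ∃ G, G = 4 * N * C ^ 2 / δ ^ 2 := ⟨_, rfl⟩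
    have G0 : 0 ≤ G := by rw [hG]; positivity
    rw [← hG]
    have a1 := min_le_left (1 / (4 * (G + 1))) (σ / (4 * (A * (G + r + 1))))
    have a2 := min_le_right (1 / (4 * (G + 1))) (σ / (4 * (A * (G + r + 1))))
    have a0 : 0 < min (1 / (4 * (G + 1))) (σ / (4 * (A * (G + r + 1)))) := by positivity
    rw [le_div_iff₀ (by positivity)] at a1 a2
    have a3 := mul_nonneg (zero_le_one.trans A0) a0.le
    exact ⟨_, a0, by linarith only [a1, a0], by linarith only [a2, a3]⟩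
  obtain ⟨ε1, ε0, ε11, ε12⟩ : ∃ ε1 > 0, ε1 ≤ 1 ∧ ε1 ≤ σ / 4 :=
    ⟨min 1 (σ / 4), by positivity, min_le_left _ _, min_le_right _ _⟩
  refine ⟨ε1, ε0, δ', δ0, ?_⟩
  filter_upwards [eventually_gt_atTop 0,
    tendsto_natCast_atTop_atTop.eventually_ge_atTop ((6 + 2 * R + 8 / σ) / (σ / 4))]
    with n hn hn2 J b hJs hJ hb hU hF hKs v hv y hy hty hfr h hh
  have hn' : (0 : ℝ) < n := by positivity
  have hs : 0 < Real.sqrt n := Real.sqrt_pos.2 hn'
  have ss := sq_sqrt_n (n := n)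
  rw [div_le_iff₀ (by positivity)] at hn2
  have p8 : 0 < 8 / σ := by positivity
  have hh1 : h ∈ Icc (0 : ℝ) 1 := ⟨hh.1, hh.2.trans (min_le_left _ _)⟩
  have hh2 : h ≤ η ^ 2 / 200 := hh.2.trans (min_le_right _ _)
  have hv' := hv.tilt y
  have mD := mg_shift (mg_Dv J b hv) y
  have eD : ∀ z, Dv J b v (y + z) = dfc J b (y + z) (mag (tilt (tilt v y) z)) ^ 2 := fun z => by
    rw [G1.tilt_tilt, Dv]
  obtain ⟨d1, hd1⟩ : ∃ d1, d1 = slE sv (tilt v y) h fun _ z => Dv J b v (y + z) := ⟨_, rfl⟩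
  have d0 : 0 ≤ d1 := hd1 ▸ SL.slE_nonneg hv' fun _ _ => Dv_nonneg _ _ _ _
  have σn : 0 ≤ σ * n := by positivity
  rw [← hd1]
  by_cases htr : θ ^ 2 * n / 4 ≤ d1
  · have a1 : (9 + 2 * R) * n ≤ K3 * d1 := by
      refine le_trans (le_of_eq ?_) (mul_le_mul_of_nonneg_left htr K30)
      rw [hK3]; field_simp
    have a2 : K3 * d1 ≤ (K0 + 1 + K3) * (d1 + σ * n) :=
      mul_le_mul (by linarith) (by linarith) d0 (by linarith)
    exact ⟨by linarith only [Dv_le J b hv y, a1, a2, hn', mul_pos hR hn'],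
      by linarith only [slE_Xi_crude hJ hb hv hh1 hy, a1, a2]⟩
  have hm0 := cb_mag hv'
  obtain ⟨rr, hrr, hK⟩ := hKs y _ hy hm0
  have hty' : k * Real.sqrt n ≤ nrm (th y) := by
    refine abs_le_of_sq_le_sq' ?_ (nrm_nonneg _) |>.2
    rw [nrm_sq, mul_pow, Real.sq_sqrt hn'.le]; exact hty
  have hfr' : frob (tilt v y) ≤ (δ' * n) ^ 2 := by rwa [mul_pow]
  have eR : slE sv (tilt v y) h (fun _ z => Sq (tilt v y) rr z) ≤ N * (δ' * n * (C ^ 2 * n)) :=
    slE_Sq hv' hh.1 (by positivity) hfr' fun j => by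
      have := pow_le_pow_left₀ (nrm_nonneg _) (hrr j) 2
      rwa [nrm_sq, mul_pow, Real.sq_sqrt hn'.le] at this
  have eR' : 4 / (δ ^ 2 * n) * slE sv (tilt v y) h (fun _ z => Sq (tilt v y) rr z) ≤
      4 * N * C ^ 2 / δ ^ 2 * δ' * n := by
    refine (mul_le_mul_of_nonneg_left eR (by positivity)).trans (le_of_eq ?_)
    field_simp
  have eN := slE_normsq_le hv' hh1
  have hch := fun z hz => @child n J b hn hJ hb k η θ K2 C δ N hk.le η1 θ1 θ0.le θ2 y _ hty' rr hrr hK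
    z _ hz (cb_mag (hv'.tilt z))
  -- a good child
  obtain ⟨z0, hz0⟩ := exists_lt hv' (s := h) (c := n)
    (((mg_dot.const_mul (4 / η ^ 2)).add (mD.const_mul (1 / θ ^ 2))).add
      ((mg_Sq hv' rr).const_mul (4 / (δ ^ 2 * n)))) (by
      rw [slE_lin3 mg_dot mD (mg_Sq hv' rr), ← hd1]
      have a1 : 4 / η ^ 2 * (2 * (η ^ 2 / 200) * n) = n / 25 := by field_simp; norm_num
      have a2 := mul_le_mul_of_nonneg_left (eN.trans (mul_le_mul_of_nonneg_right
        (mul_le_mul_of_nonneg_left hh2 zero_le_two) hn'.le)) (show 0 ≤ 4 / η ^ 2 by positivity)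
      have a3 := mul_le_mul_of_nonneg_left (not_le.1 htr).le (show 0 ≤ 1 / θ ^ 2 by positivity)
      have a4 : 1 / θ ^ 2 * (θ ^ 2 * n / 4) = n / 4 := by field_simp
      have a5 := mul_le_mul_of_nonneg_right δ1 hn'.le
      linarith)
  have q1 : 0 ≤ 4 / η ^ 2 * (z0 ⬝ᵥ z0) := mul_nonneg (by positivity) (dot_self_nonneg _)
  have q2 : 0 ≤ 1 / θ ^ 2 * Dv J b v (y + z0) := mul_nonneg (by positivity) (Dv_nonneg _ _ _ _)
  have q3 : 0 ≤ 4 / (δ ^ 2 * n) * Sq (tilt v y) rr z0 := mul_nonneg (by positivity) (Sq_nonneg _ _)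
  have z0n : nrm z0 ≤ η * Real.sqrt n / 2 := by
    rw [nrm_le_iff (by positivity), div_pow, mul_pow, Real.sq_sqrt hn'.le]
    have : 4 / η ^ 2 * (z0 ⬝ᵥ z0) ≤ n := by linarith
    rw [div_mul_eq_mul_div, div_le_iff₀ (by positivity)] at this
    linarith
  obtain ⟨g1, g2⟩ := (good_or (v := tilt v y) hn θ0 hδ
    (dfc_nonneg J b (y + z0) (mag (tilt (tilt v y) z0))) rr z0).resolve_right (by
      rw [← eD]; linarith)
  obtain ⟨c1, c2, c3⟩ := hch z0 z0n g1 g2
  generalize cav J b (y + z0) (mag (tilt (tilt v y) z0)) = xs at c1 c2 c3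
  clear hz0 q1 q2 q3 z0n g1 g2
  -- the penalised good ball
  obtain ⟨E, hP, hG⟩ := hU _ hm0 (by
    have b1 := nrm_add_le (th xs - mag (tilt v y)) (mag (tilt v y))
    rw [sub_add_cancel] at b1
    have b2 : k * Real.sqrt n / 20 ≤ nrm (mag (tilt v y)) := by
      linarith only [mul_le_mul_of_nonneg_right η2 hs.le, b1, c2, c3]
    have := pow_le_pow_left₀ (by positivity) b2 2
    rw [nrm_sq, div_pow, mul_pow, Real.sq_sqrt hn'.le] at this
    rw [avg_DD_eq hn, sub_le_sub_iff_left, le_div_iff₀ hn']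
    linarith)
  have hex : ∀ z : V n, nrm z ≤ 2 * (η * Real.sqrt n / 2) → ∃ x,
      nrm (th x - mag (tilt v y)) < ρ * Real.sqrt n ∧ YE J b E (mag (tilt v y)) x = y + z := by
    intro z hz
    obtain ⟨x, h1, h2⟩ := (hX n J E b c _ _ hJs (pen_symm hP) hc hG).2 xs (y + z) (by
      have e : y + z - YE J b E (mag (tilt v y)) xs =
          z - ((Ymap J b xs - y) + E *ᵥ (th xs - mag (tilt v y))) := by rw [YE]; abel
      have b1 := pen_nrm hL hP (th xs - mag (tilt v y))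
      have b2 := mul_le_mul_of_nonneg_left c3.le hLr
      have b3 : nrm (y + z - YE J b E (mag (tilt v y)) xs) / c ≤
          (2 + L * r * K2) * (η * Real.sqrt n) / c := by
        refine div_le_div_of_nonneg_right ?_ hc.le
        rw [e]
        linarith [nrm_sub_le z ((Ymap J b xs - y) + E *ᵥ (th xs - mag (tilt v y))),
          nrm_add_le (Ymap J b xs - y) (E *ᵥ (th xs - mag (tilt v y)))]
      have b4 := mul_lt_mul_of_pos_right η3 hs
      rw [hD0] at b4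
      rw [mul_div_right_comm] at b3
      linarith)
    exact ⟨x, h2, h1⟩
  obtain ⟨x0, hx0, hy0⟩ := hex 0 (by rw [nrm_zero]; positivity)
  rw [add_zero] at hy0
  obtain ⟨u, hu, hE⟩ := id hP
  have eU : slE sv (tilt v y) h (fun _ z => Sq (tilt v y) u z) ≤ r * (δ' * n * 1) :=
    slE_Sq hv' hh.1 (by positivity) hfr' hu
  obtain ⟨ψ, hψ⟩ : ∃ ψ : V n → ℝ, ψ = fun z => A' * Dv J b v (y + z) +
    A * (4 / (δ ^ 2 * n)) * Sq (tilt v y) rr z + A * Sq (tilt v y) u z := ⟨_, rfl⟩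
  have mψ : SL.MG ψ := hψ ▸ ((mD.const_mul _).add ((mg_Sq hv' rr).const_mul _)).add
    ((mg_Sq hv' u).const_mul _)
  have ψ0 : ∀ z, 0 ≤ ψ z := fun z => by
    have := Dv_nonneg J b v (y + z)
    have := Sq_nonneg (v := tilt v y) rr z
    have := Sq_nonneg (v := tilt v y) u z
    rw [hψ]; positivity
  have eψ : slE sv (tilt v y) h (fun _ z => ψ z) ≤ A' * d1 + σ * n / 4 := by
    simp only [hψ]
    rw [slE_lin3 mD (mg_Sq hv' rr) (mg_Sq hv' u), ← hd1, mul_assoc A]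
    have a1 := mul_le_mul_of_nonneg_left (add_le_add eR' eU) (zero_le_one.trans A0)
    have a2 := mul_le_mul_of_nonneg_right δ2 hn'.le
    linarith
  have hend : ∀ z : V n, nrm z ≤ η * Real.sqrt n / 2 → ∀ x, nrm (th x - mag (tilt v y)) < ρ * Real.sqrt n →
      YE J b E (mag (tilt v y)) x = y + z → nrm (mag (tilt (tilt v y) z) - th x) ^ 2 ≤ ψ z ∧
        PhiE J b E (mag (tilt v y)) (y + z) x ≤
          Phi J b (y + z) (cav J b (y + z) (mag (tilt (tilt v y) z))) + ψ z := by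
    intro z hz x hx hyx
    have s1 := Sq_nonneg (v := tilt v y) rr z
    have s2 := Sq_nonneg (v := tilt v y) u z
    have e : ψ z = A * (1 / θ ^ 2 * dfc J b (y + z) (mag (tilt (tilt v y) z)) ^ 2 +
        4 / (δ ^ 2 * n) * Sq (tilt v y) rr z) +
        A * (dfc J b (y + z) (mag (tilt (tilt v y) z)) ^ 2 + Sq (tilt v y) u z) := by
      simp only [hψ, hA', eD]; ring
    have p1 : 0 ≤ A * (1 / θ ^ 2 * dfc J b (y + z) (mag (tilt (tilt v y) z)) ^ 2 +
        4 / (δ ^ 2 * n) * Sq (tilt v y) rr z) := by positivity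
    have p2 : 0 ≤ dfc J b (y + z) (mag (tilt (tilt v y) z)) ^ 2 + Sq (tilt v y) u z := by positivity
    rcases good_or (v := tilt v y) hn θ0 hδ
      (dfc_nonneg J b (y + z) (mag (tilt (tilt v y) z))) rr z with ⟨g1, g2⟩ | g
    · have b0 := ((hch z hz g1 g2).2.2.trans_le (mul_le_mul_of_nonneg_right η4 hs.le)).le
      obtain ⟨b1, b2⟩ := compare hX hJs hJ hb hL hc hu hE hG (cb_mag (hv'.tilt z)) hx.le hyx b0
      rw [← hB] at b1 b2
      have b3 := mul_le_mul_of_nonneg_right A1 p2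
      have b4 := mul_le_mul_of_nonneg_right A2 p2
      simp only [Sq] at e p1 p2 b3 b4
      constructor <;> linarith
    · have b1 := pow_le_pow_left₀ (nrm_nonneg _) (nrm_sub_cb (cb_mag (hv'.tilt z)) (cb_th x)) 2
      rw [mul_pow, Real.sq_sqrt hn'.le] at b1
      have b2 := (mul_le_mul_of_nonneg_right A3 hn'.le).trans
        (mul_le_mul_of_nonneg_left g (zero_le_one.trans A0))
      have b3 := mul_nonneg (zero_le_one.trans A0) p2
      have b4 := (abs_le.1 (abs_Phi_le hJ hb (y + z) x)).2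
      have b5 := (abs_le.1 (abs_Phi_le hJ hb (y + z) (cav J b (y + z) (mag (tilt (tilt v y) z))))).1
      have b6 := (pen_quad hL hP (th x - mag (tilt v y))).1
      have b7 : nrm (y + z) * Real.sqrt n ≤ (R + 1) * n := by
        have : nrm (y + z) ≤ (R + 1) * Real.sqrt n := by
          linarith only [nrm_add_le y z, hy, hz, hs,
            mul_le_mul_of_nonneg_right (η1.trans (by linarith only [hk1] : k / 2 ≤ 1)) hs.le]
        refine (mul_le_mul_of_nonneg_right this hs.le).trans_eq ?_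
        rw [mul_assoc, ss]
      have b8 := mul_nonneg hR.le hn'.le
      rw [PhiE]
      constructor <;> linarith
  have hRw : (η * Real.sqrt n / 2) ^ 2 = η ^ 2 * n / 4 := by
    rw [div_pow, mul_pow, Real.sq_sqrt hn'.le]; norm_num
  obtain ⟨w1, w2⟩ := HW n J E b h (ρ * Real.sqrt n) (η * Real.sqrt n / 2) (Real.exp (-(2 * n)))
    (ε1 * Real.sqrt n) y _ (tilt v y) ψ hn hJs (by have : 0 ≤ 4 / η ^ 2 := by positivity
                                                   linarith) (pen_symm hP)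
    (by have : 0 ≤ 4 / η ^ 2 := by positivity
        linarith [pen_opn hL hP]) hb hh1 (by positivity)
    (by have a : 4 / η ^ 2 * (η ^ 2 * n / 4) = n := by field_simp
        have : 0 ≤ (3 + L * r) * (η ^ 2 * n / 4) := by positivity
        rw [hRw]; linarith)
    (by have : 0 ≤ (L * r + 4 / η ^ 2) * n := by positivity
        have : η ^ 2 * n ≤ 1 * n := mul_le_mul_of_nonneg_right
          (pow_le_one₀ η0.le (by linarith only [η1, hk1])) hn'.le
        rw [hRw]; linarith)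
    hm0 hv' (by positivity) hG hex (fun p hp hr => (hF p E hp (hG p hp hr).2 hP (hG p hp hr).1).1) mψ ψ0
    (fun z hz x hx hyx => (hend z hz x hx hyx).1)
    (fun t ht => exit_le hv' ⟨ht.1, ht.2.trans hh1.2⟩ (by
      have := mul_le_mul_of_nonneg_right (ht.2.trans hh2) hn'.le
      have : 0 < η ^ 2 * n := by positivity
      rw [hRw]; linarith)) x0 hx0 hy0
  obtain ⟨P, hPd⟩ : ∃ P, P = slE sv (tilt v y) h (fun _ z => ψ z) + (ε1 * Real.sqrt n) ^ 2 + 1 +
    n * Real.exp (-(2 * n)) := ⟨_, rfl⟩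
  rw [← hPd] at w1 w2
  have e2 := mul_exp_le n
  have e3 : 0 ≤ n * Real.exp (-(2 * n)) := by positivity
  have e4 : (ε1 * Real.sqrt n) ^ 2 ≤ σ * n / 4 := by
    rw [mul_pow, Real.sq_sqrt hn'.le]
    have : ε1 ^ 2 * n ≤ σ / 4 * n :=
      mul_le_mul_of_nonneg_right (by nlinarith only [ε0, ε11, ε12]) hn'.le
    linarith
  have P1 : P ≤ A' * (d1 + σ * n) := by
    have := mul_le_mul_of_nonneg_right A'1 σn
    rw [hPd]; linarith
  have P2 : slE sv (tilt v y) h (fun _ z => ψ z) ≤ P := by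
    rw [hPd]; linarith [sq_nonneg (ε1 * Real.sqrt n)]
  have P0 : 0 ≤ P := (SL.slE_nonneg hv' fun _ z => ψ0 z).trans P2
  have D1 : Dv J b v y ≤ K1 * P := by
    have := pow_le_pow_left₀ (dfc_nonneg _ _ _ _) (dfc_le_branch hJ hb hL hP hm0 hy0) 2
    rw [mul_pow] at this
    rw [hK1, mul_assoc]
    exact this.trans (mul_le_mul_of_nonneg_left w1 (sq_nonneg _))
  have hpar := parent hX hJs hJ hb hL hc hρ hR.le hP hG hm0 hx0.le hy0 hy
  rw [← hC4, ← Dv] at hpar
  have mX := mg_shift (mg_Xi hJ hb hv) y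
  have w3 := w2 (ε1 * n / 2) ((6 + 2 * R + 8 / σ) * n)
    (fun z => 1 * Xi J b v (y + z) + (-1) * ψ z + (-(σ / 8)) * (z ⬝ᵥ z) + -(Xi J b v y + C4 * Dv J b v y))
    (by positivity) (by positivity)
    (fun p hp hr => by linarith [(hF p E hp (hG p hp hr).2 hP (hG p hp hr).1).2])
    ((((mX.const_mul _).add (mψ.const_mul _)).add (mg_dot.const_mul _)).add (SL.MG.const _))
    (fun z => by
      have a := Xi_sub_le hJ hb hv y z
      have a2 := mul_le_mul_of_nonneg_right hy hs.le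
      rw [mul_assoc, ss] at a2
      have a3 : 2 * nrm z * Real.sqrt n ≤ σ / 8 * (z ⬝ᵥ z) + 8 / σ * n := by
        have e : σ / 8 * (nrm z - 8 / σ * Real.sqrt n) ^ 2 =
            σ / 8 * nrm z ^ 2 - 2 * nrm z * Real.sqrt n + 8 / σ * (Real.sqrt n * Real.sqrt n) := by
          field_simp; ring
        have : 0 ≤ σ / 8 * (nrm z - 8 / σ * Real.sqrt n) ^ 2 := by positivity
        rw [e, ss, nrm_sq] at this
        linarith
      have a4 := mul_nonneg C40 (Dv_nonneg J b v y)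
      linarith [ψ0 z])
    (fun z hz x hx hyx => by
      have a1 := (hend z hz x hx hyx).2
      have a2 : 0 ≤ σ / 8 * (z ⬝ᵥ z) := mul_nonneg (by positivity) (dot_self_nonneg z)
      rw [G1.tilt_tilt] at a1 ⊢
      simp only [Xi]
      linarith)
  rw [SL.slE_add (.of_mg fun _ => ((mX.const_mul _).add (mψ.const_mul _)).add (mg_dot.const_mul _))
    (.of_mg fun _ => SL.MG.const _), slE_lin3 mX mψ mg_dot, slE_const hv'] at w3
  have f1 : σ / 8 * slE sv (tilt v y) h (fun _ z => z ⬝ᵥ z) ≤ σ / 8 * (2 * n) :=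
    mul_le_mul_of_nonneg_left (eN.trans (by nlinarith only [hh1.2, hn'])) (by positivity)
  have f2 : (6 + 2 * R + 8 / σ) * (n * Real.exp (-(2 * n))) ≤ 6 + 2 * R + 8 / σ :=
    mul_le_of_le_one_right (by positivity) e2
  have f3 := mul_le_mul_of_nonneg_right ε12 hn'.le
  have f4 := mul_le_mul_of_nonneg_left D1 C40
  have f5 : (K' + 1 + C4 * K1 + K1) * P ≤ K0 * (d1 + σ * n) := by
    rw [hK0, mul_assoc]; exact mul_le_mul_of_nonneg_left P1 (by positivity)
  have f6 := mul_nonneg K30 (add_nonneg d0 σn)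
  have f7 := mul_nonneg hK'.le P0
  have f8 := mul_nonneg K10 P0
  have f9 := mul_nonneg C40 f8
  constructor <;> linarith

end Crest.Agent.T157.Lp.G3
end
end

-- ▼ part T157/LpEnd_10
section

/-!
# Row 157, part A: the end of the chain (helper10)

`Lp.EndGlue`: the frozen regime for a general prior.
-/

set_option autoImplicit false

noncomputable section

namespace Crest.Agent.T157.Lp

open MeasureTheory ProbabilityTheory Matrix Filter Set
open Crest.ProbabilityR.SpinGlassDynamics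
open Crest.Agent.T157.E Crest.Agent.T157.Eig Crest.Agent.T157.Tap Crest.Agent.T157.Tap.Froz10

namespace End10

variable {n : ℕ}

/-- one site of a product law: the shift of the mean is bounded by the Dirichlet form -/
theorem site_le {u : Cube n → ℝ} (hu : ∀ x, 0 < u x) (f : Cube n → ℝ) (i : Fin n) {t : ℝ}
    (ht : ∀ x, u (Function.update x i true) * (1 - t) = u (Function.update x i false) * (1 + t)) :
    mean u (fun x => f x ^ 2 * (sv x i - t)) ^ 2 ≤
      (∑ x, SL.edge (prob u) i x * (SL.incr f i x * SL.incr f i x)) *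
        (2 * mean u fun x => f x ^ 2) := by
  have hW := SL.Wt.of_pos hu
  have hp : ∀ x, 0 < prob u x := fun x => div_pos (hu x) hW.pos
  have ht' : ∀ x, prob u (Function.update x i true) * (1 - t) =
      prob u (Function.update x i false) * (1 + t) := fun x => by
    simp only [prob, div_mul_eq_mul_div, ht x]
  have e1 : mean u (fun x => f x ^ 2 * (sv x i - t)) = ∑ x, SL.edge (prob u) i x *
      (SL.incr f i x * (f (Function.update x i true) + f (Function.update x i false))) := by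
    rw [mean, SL.sum_flip i, Finset.sum_div]
    refine Finset.sum_congr rfl fun x _ => ?_
    have h1 := hp (Function.update x i true)
    have h2 := hp (Function.update x i false)
    have h3 := ht' x
    simp only [SL.edge, SL.incr, sv, Function.update_self, spin, if_true, Bool.false_eq_true,
      if_false]
    generalize prob u (Function.update x i true) = a at *
    generalize prob u (Function.update x i false) = b at *
    have h4 : t = (a - b) / (a + b) := by rw [eq_div_iff (by positivity)]; linarith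
    rw [h4]
    field_simp
    ring
  have e2 : 2 * mean u (fun x => f x ^ 2) = ∑ x, (prob u (Function.update x i true) *
      f (Function.update x i true) ^ 2 + prob u (Function.update x i false) *
      f (Function.update x i false) ^ 2) := by
    rw [mean, SL.sum_flip i]; ring
  rw [e1, e2]
  refine Finset.sum_sq_le_sum_mul_sum_of_sq_le_mul _ (fun x _ => ?_) (fun x _ => ?_) fun x _ => ?_
  · have h1 := hp (Function.update x i true)
    have h2 := hp (Function.update x i false)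
    exact mul_nonneg (by rw [SL.edge]; positivity) (mul_self_nonneg _)
  · have h1 := hp (Function.update x i true)
    have h2 := hp (Function.update x i false)
    positivity
  · have h1 := hp (Function.update x i true)
    have h2 := hp (Function.update x i false)
    simp only [SL.edge]
    generalize prob u (Function.update x i true) = a at *
    generalize prob u (Function.update x i false) = b at *
    generalize f (Function.update x i true) = p
    generalize f (Function.update x i false) = q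
    generalize SL.incr f i x = d
    have h3 : a * b / (a + b) * (p + q) ^ 2 ≤ a * p ^ 2 + b * q ^ 2 := by
      rw [div_mul_eq_mul_div, div_le_iff₀ (by positivity)]
      nlinarith [sq_nonneg (a * p - b * q)]
    have h4 : 0 ≤ a * b / (a + b) * (d * d) := mul_nonneg (by positivity) (mul_self_nonneg d)
    calc _ = a * b / (a + b) * (d * d) * (a * b / (a + b) * (p + q) ^ 2) := by ring
      _ ≤ _ := mul_le_mul_of_nonneg_left h3 h4

/-- the mean of `u f²` against the mean of the product law `u` -/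
theorem shift_le {u : Cube n → ℝ} (hu : ∀ x, 0 < u x) (f : Cube n → ℝ) {c : ℝ} (hc : 0 < c)
    (h0 : 0 < mean u fun x => f x ^ 2) {t : V n} (ht : ∀ i x, u (Function.update x i true) *
      (1 - t i) = u (Function.update x i false) * (1 + t i)) :
    mean u (fun x => c * f x ^ 2) * nrm (mag (fun x => u x * (c * f x ^ 2)) - t) ^ 2 ≤
      4 * c * dir u f := by
  have hW := SL.Wt.of_pos hu
  set M := mean u fun x => f x ^ 2 with hM
  have e : ∀ i, (mag (fun x => u x * (c * f x ^ 2)) - t) i =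
      mean u (fun x => f x ^ 2 * (sv x i - t i)) / M := fun i => by
    simp only [Pi.sub_apply, mag, meanV, SL.mean_mul_weight _ _ _ hW.pos.ne', mul_assoc,
      SL.mean_const_mul, mul_sub, SL.mean_sub, SL.mean_mul_const, ← hM]
    field_simp
  rw [nrm_sq, SL.mean_const_mul, ← hM, SL.dir_eq_dir2, SL.dir2_eq hu, dotProduct, Finset.mul_sum,
    Finset.sum_div, Finset.mul_sum]
  refine Finset.sum_le_sum fun i _ => ?_
  have h := site_le hu f i (ht i)
  rw [e, ← hM] at *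
  rw [← sq, div_pow, show c * M * (mean u (fun x => f x ^ 2 * (sv x i - t i)) ^ 2 / M ^ 2) =
    c * (mean u (fun x => f x ^ 2 * (sv x i - t i)) ^ 2 / M) by field_simp, mul_comm 4 c, mul_assoc]
  refine mul_le_mul_of_nonneg_left ?_ hc.le
  rw [div_le_iff₀ h0]
  linarith

theorem dot_upd (a : V n) (x : Cube n) (i : Fin n) (b : Bool) :
    a ⬝ᵥ sv (Function.update x i b) = a ⬝ᵥ sv x - a i * spin (x i) + a i * spin b := by
  have h : sv (Function.update x i b) = sv x + Pi.single i (spin b - spin (x i)) := by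
    funext j
    by_cases hj : j = i
    · subst hj; simp [sv]
    · simp [sv, Function.update_of_ne hj, Pi.single_eq_of_ne hj]
  rw [h, dotProduct_add, dotProduct_single]; ring

theorem post_ising {J Q : Mx n} (hQ : Qᵀ * Q = (1 : ℝ) • J + (3 : ℝ) • (1 : Mx n)) (y z : V n)
    (x : Cube n) : post (fun σ => Q *ᵥ sv σ) (ising J y) 1 z x =
      Real.exp ((y + Qᵀ *ᵥ z) ⬝ᵥ sv x - 3 * n / 2) := by
  have e1 : (Q *ᵥ sv x) ⬝ᵥ (Q *ᵥ sv x) = sv x ⬝ᵥ J *ᵥ sv x + 3 * n := by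
    rw [dotProduct_mulVec, ← mulVec_transpose, mulVec_mulVec, hQ, dotProduct_comm]
    simp [add_mulVec, smul_mulVec, sv_dot_self]
  have e2 : z ⬝ᵥ (Q *ᵥ sv x) = (Qᵀ *ᵥ z) ⬝ᵥ sv x := by
    rw [dotProduct_mulVec, ← mulVec_transpose]
  rw [post, ising, ← Real.exp_add, e1, e2, add_dotProduct]
  congr 1; ring

theorem post_ratio {J Q : Mx n} (hQ : Qᵀ * Q = (1 : ℝ) • J + (3 : ℝ) • (1 : Mx n)) (y z : V n)
    (i : Fin n) (x : Cube n) :
    post (fun σ => Q *ᵥ sv σ) (ising J y) 1 z (Function.update x i true) *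
        (1 - th (y + Qᵀ *ᵥ z) i) =
      post (fun σ => Q *ᵥ sv σ) (ising J y) 1 z (Function.update x i false) *
        (1 + th (y + Qᵀ *ᵥ z) i) := by
  rw [post_ising hQ, post_ising hQ, dot_upd, dot_upd, th]
  generalize (y + Qᵀ *ᵥ z) i = a
  generalize (y + Qᵀ *ᵥ z) ⬝ᵥ sv x - a * spin (x i) = s
  simp only [spin, if_true, Bool.false_eq_true, if_false, mul_one, mul_neg]
  rw [show s + a - 3 * (n : ℝ) / 2 = (s - 3 * n / 2) + a by ring,
    show s + -a - 3 * (n : ℝ) / 2 = (s - 3 * n / 2) + -a by ring, Real.exp_add, Real.exp_add,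
    Real.tanh_eq_sinh_div_cosh, Real.sinh_eq, Real.cosh_eq, Real.exp_neg]
  field_simp
  ring

/-- the terminal error -/
def psi (Q : Mx n) (y : V n) (v : Cube n → ℝ) (z : V n) : ℝ :=
  nrm (mag (post (fun σ => Q *ᵥ sv σ) v 1 z) - th (y + Qᵀ *ᵥ z)) ^ 2

theorem mg_psi (Q : Mx n) (y : V n) {v : Cube n → ℝ} (hv : SL.Wt v) : SL.MG (psi Q y v) := by
  have h1 : Continuous fun z : V n => mag (post (fun σ => Q *ᵥ sv σ) v 1 z) :=
    continuous_pi fun i => continuous_finsetSum _ fun x _ =>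
      ((SL.cont_prob hv (fun σ => Q *ᵥ sv σ) x).comp (Continuous.prodMk_right (1 : ℝ))).mul
        continuous_const
  have h2 : Continuous fun z : V n => th (y + Qᵀ *ᵥ z) :=
    G1.continuous_th.comp (by unfold mulVec dotProduct; fun_prop)
  refine .of_bdd ((continuous_nrm.comp (h1.sub h2)).pow 2).measurable (4 * n) fun z => ?_
  rw [psi, abs_of_nonneg (sq_nonneg _)]
  refine (pow_le_pow_left₀ (nrm_nonneg _) (G1.nrm_sub_cb (G1.cb_mag (hv.post _ _ _)) (cb_th _)) 2).trans_eq ?_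
  rw [mul_pow, Real.sq_sqrt (Nat.cast_nonneg n)]; norm_num

theorem slE_psi_le {J Q : Mx n} (hQ : Qᵀ * Q = (1 : ℝ) • J + (3 : ℝ) • (1 : Mx n)) (y : V n)
    {v : Cube n → ℝ} (hv : SL.Wt v) :
    slE (fun σ => Q *ᵥ sv σ) v 1 (fun _ z => psi Q y v z) ≤ 4 * fis (ising J y) v := by
  set w := ising J y with hw
  have hw0 : ∀ x, 0 < w x := fun _ => Real.exp_pos _
  have hW := SL.Wt.of_pos hw0
  set f : Cube n → ℝ := fun σ => Real.sqrt (prob v σ / prob w σ) with hf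
  set c := (∑ x, v x) / ∑ x, w x with hc
  have hc0 : 0 < c := div_pos hv.pos hW.pos
  have hf2 : ∀ x, f x ^ 2 = prob v x / prob w x := fun x =>
    Real.sq_sqrt (div_nonneg (hv.prob_nonneg x) (hW.prob_nonneg x))
  have ev : v = fun x => w x * (c * f x ^ 2) := funext fun x => by
    have h1 := hw0 x
    have h2 := hW.pos
    have h3 := hv.pos
    rw [hf2, hc, prob, prob]; field_simp
  have h1 : mean w (fun x => f x ^ 2) = 1 := by
    rw [mean, ← hv.sum_prob]
    exact Finset.sum_congr rfl fun x _ => by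
      rw [hf2]; exact mul_div_cancel₀ _ (div_pos (hw0 x) hW.pos).ne'
  have hm := mg_psi Q y hv
  have h2 := SL.ex_mul_weight (φ := fun σ => Q *ᵥ sv σ) (G := fun p => psi Q y v p.2) hW zero_le_one
    (fun x => c * f x ^ 2) hm
  rw [← ev, SL.mean_const_mul, h1, mul_one] at h2
  refine le_of_eq_of_le h2 ?_
  rw [div_le_iff₀ hc0]
  refine (SL.ex_mono (H := fun p => 4 * c * dir (SL.pw (fun σ => Q *ᵥ sv σ) w p) f) hW
    (((SL.eg_mean hW _).mg (mem_univ 1)).mul hm)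
    (((SL.eg_dir hw0 f).mg (mem_univ 1)).const_mul _) fun z => ?_).trans ?_
  · have h3 := shift_le (u := post (fun σ => Q *ᵥ sv σ) w 1 z)
      (fun x => mul_pos (hw0 x) (Real.exp_pos _)) f hc0
      (hW.mean_post_pos (fun x => sq_nonneg _) (by rw [h1]; exact one_pos) _ _ _)
      (post_ratio hQ y z)
    rw [← SL.post_mul, ← ev] at h3
    exact h3
  · rw [SL.ex_const_mul]
    have h3 := SL.ex_dir_le (φ := fun σ => Q *ᵥ sv σ) hw0 zero_le_one f
    have e : fis w v = dir w f := rfl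
    rw [e]
    nlinarith

theorem fis_nonneg {w : Cube n → ℝ} (hw : ∀ x, 0 < w x) (v : Cube n → ℝ) : 0 ≤ fis w v := by
  rw [fis, dir]
  exact Finset.sum_nonneg fun _ _ => Finset.sum_nonneg fun x _ =>
    mul_nonneg ((SL.Wt.of_pos hw).prob_nonneg x) (sq_nonneg _)

end End10

open End10

theorem endGlue : EndGlue := by
  intro hEx hErr hWin ε hε K
  obtain ⟨Ke, hKe⟩ := hErr (1 / 2) (by norm_num) 6
  obtain ⟨K', hK'0, hK'⟩ := hWin (1 / 2) (by norm_num) 64 (by norm_num)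
  set r := min (ε / 2) (3 / 32) with hrdef
  have hr0 : 0 < r := by positivity
  have hr1 : 2 * r ≤ ε := by linarith [min_le_left (ε / 2) (3 / 32)]
  have hr2 : r ≤ 3 / 32 := min_le_right _ _
  set ω := 4 * |K| + |Ke| with hω
  refine ⟨r / 8, by positivity, 400 / r, 49 * K' * (ω ^ 2 + 6), by positivity, ?_⟩
  intro n W β hn hW hβ hWn hF hU T hT σ y hy v hv
  have hn' : (0 : ℝ) < n := by exact_mod_cast hn
  have hsym : ∀ a : ℝ, (a • W)ᵀ = a • W := fun a => by rw [transpose_smul, hW]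
  have hop : ∀ a ∈ Icc (0 : ℝ) 1, opn (a • W) ≤ 3 := fun a ha => by
    rw [opn_smul, abs_of_nonneg ha.1]
    exact (mul_le_of_le_one_left (opn_nonneg W) ha.2).trans hWn
  have hsq : ∀ a ∈ Icc (0 : ℝ) 1, a ^ 2 ∈ Icc (0 : ℝ) 1 := fun a ha =>
    ⟨sq_nonneg a, pow_le_one₀ ha.1 ha.2⟩
  have hθt : ∀ t ∈ Icc (0 : ℝ) 1, (1 - 1 * t) * β ∈ Icc 0 β := fun t ht =>
    ⟨mul_nonneg (by linarith [ht.2]) hβ.1, mul_le_of_le_one_left hβ.1 (by linarith [ht.1])⟩
  have hθt1 : ∀ t ∈ Icc (0 : ℝ) 1, (1 - 1 * t) * β ∈ Icc (0 : ℝ) 1 := fun t ht =>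
    ⟨(hθt t ht).1, (hθt t ht).2.trans hβ.2⟩
  obtain ⟨Q, hQ⟩ := exists_root (hsym β) (hop β hβ)
  have hS : opn ((1 : ℝ) • β • W + (3 : ℝ) • (1 : Mx n)) ≤ 6 := by
    refine (opn_add_le _ _).trans ?_
    rw [one_smul, opn_smul 3]
    have := opn_one_le (ι := Fin n)
    have := hop β hβ
    norm_num
    linarith
  have hQ2 : opn Q ^ 2 ≤ 6 := by rw [sq, ← opn_transpose_mul_self, hQ]; exact hS
  have hQ1 : opn Q ≤ 5 / 2 := by nlinarith [opn_nonneg Q]
  have hball : ∀ a ∈ Icc (0 : ℝ) 1, ∀ x : V n, nrm (Ymap (a • W) (a ^ 2) x - y) ≤ 41 * Real.sqrt n →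
      nrm (th x - sv σ) < r * Real.sqrt n := fun a ha x hx => by
    refine ball_of_near hn hr0 hT σ ?_
    have h1 := nrm_sub_le_of_sol (hop a ha) (hsq a ha) x
    have h2 := G1.nrm_tri x (Ymap (a • W) (a ^ 2) x) (T • sv σ)
    have h3 := G1.nrm_tri (Ymap (a • W) (a ^ 2) x) y (T • sv σ)
    linarith
  have eY : ∀ (J : Mx n) (b : ℝ) (p x : V n), YE J b 0 p x = Ymap J b x := fun J b p x => by
    rw [YE, zero_mulVec, add_zero]
  obtain ⟨x, hx⟩ := (hEx n _ (β ^ 2) (hsym β)).1 y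
  have hb : nrm (th x - sv σ) < r * Real.sqrt n :=
    hball β hβ x (by rw [hx, sub_self, nrm_zero]; positivity)
  have h := (hK' n (β • W) Q 0 (β ^ 2) 1 3 1 (r * Real.sqrt n) (8 * Real.sqrt n)
    (Real.exp (-(2 * n))) ω y (sv σ) v (psi Q y v) hn (hsym β)
    ((hop β hβ).trans (by norm_num)) transpose_zero (by rw [opn_zero]; norm_num) (hsq β hβ)
    ⟨zero_le_one, le_rfl⟩ zero_le_one le_rfl (by norm_num) hQ (by positivity)
    (by rw [mul_pow, Real.sq_sqrt hn'.le]; linarith)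
    (by rw [mul_pow, Real.sq_sqrt hn'.le]; linarith) (G1.cb_sv σ) hv (by positivity)
    (fun t ht p hp hpr => by
      rw [smul_smul, ← mul_pow, sub_zero]; exact good hn hF hr1 hr2 (hθt1 t ht) σ p hp hpr)
    (fun t ht z hz => by
      simp only [eY]
      rw [smul_smul, ← mul_pow]
      obtain ⟨x', hx'⟩ := (hEx n _ (((1 - 1 * t) * β) ^ 2) (hsym ((1 - 1 * t) * β))).1
        (y + Qᵀ *ᵥ z)
      refine ⟨x', hball _ (hθt1 t ht) x' ?_, hx'⟩
      rw [hx', add_sub_cancel_left]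
      have h2 := nrm_mulVec_le Qᵀ z
      rw [opn_transpose] at h2
      have h3 := mul_le_mul hQ1 hz (nrm_nonneg z) (by norm_num)
      have h4 := Real.sqrt_nonneg n
      linarith)
    (fun t ht p hp hpr => by
      rw [smul_smul (1 - 1 * t), ← mul_pow, sub_zero]
      have hg := good hn hF hr1 hr2 (hθt1 t ht) σ p hp hpr
      have h1 := hKe n _ ((1 : ℝ) • β • W + (3 : ℝ) • (1 : Mx n)) _
        (3 + 2 * 1 * (1 - 1 * t) * β ^ 2 * avg (DD p)) p (hsym _)
        ((hop _ (hθt1 t ht)).trans (by norm_num)) hS (hsq _ (hθt1 t ht)) hp hg.1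
      have h2 := hU _ (hθt t ht) (dd p) (ub_dd p) (by rw [dd_sq hp]; exact hg.2) h1.1
      refine h1.2.trans ?_
      have e : 3 + 2 * 1 * (1 - 1 * t) * β ^ 2 * avg (DD p) =
          β * (2 * ((1 - 1 * t) * β) * avg fun i => dd p i ^ 2) + 3 * 1 := by
        rw [dd_sq hp]; ring
      rw [one_smul, e, err_lin]
      refine (add_le_add_left (nrm_add_le _ _) _).trans ?_
      rw [nrm_smul, nrm_smul, abs_of_nonneg hβ.1, abs_of_pos (by norm_num : (0 : ℝ) < 3)]
      have h3 := mul_le_mul hβ.2 (h2.2.trans (le_abs_self K)) (nrm_nonneg _) zero_le_one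
      linarith [h2.1, le_abs_self K, le_abs_self Ke])
    (mg_psi Q y hv) (fun _ => sq_nonneg _)
    (fun z _ x' _ hx' => by
      have e : x' = y + Qᵀ *ᵥ z := by simpa [YE, Ymap] using hx'
      rw [e]; exact le_rfl)
    (fun t ht => exit_le (fun σ' => (mulVec_dot_le Q _).trans (by
      rw [sv_dot_self]; exact mul_le_mul_of_nonneg_right hQ2 hn'.le)) hv ht)
    x hb (by rw [eY, hx])).1
  have h0 : (n : ℝ) * Real.exp (-(2 * n)) ≤ 1 := by
    rw [Real.exp_neg, ← div_eq_mul_inv, div_le_one (Real.exp_pos _)]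
    linarith [Real.add_one_le_exp (2 * (n : ℝ))]
  have h1 := slE_psi_le hQ y hv
  have h2 := fis_nonneg (w := ising (β • W) y) (fun _ => Real.exp_pos _) v
  have h3 : dfc (β • W) (β ^ 2) y (mag v) ≤ 7 * nrm (mag v - th x) := by
    have a1 := G1.nrm_tri (mag v) (th x) (th (cav (β • W) (β ^ 2) y (mag v)))
    have a2 := SE.nrm_th_sub_le x (cav (β • W) (β ^ 2) y (mag v))
    have a3 := G1.cav_lip (hop β hβ) (hsq β hβ) (Ymap (β • W) (β ^ 2) x) y (cb_th x) (G1.cb_mag hv)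
    rw [G1.cav_Ymap, hx, sub_self, nrm_zero, G1.nrm_sub_comm (th x)] at a3
    rw [dfc]
    linarith
  refine (pow_le_pow_left₀ (G1.dfc_nonneg _ _ _ _) h3 2).trans ?_
  have h4 : K' * (slE (fun σ => Q *ᵥ sv σ) v 1 (fun _ z => psi Q y v z) + ω ^ 2 + 1 +
      n * Real.exp (-(2 * n))) ≤ K' * ((ω ^ 2 + 6) * (fis (ising (β • W) y) v + 1)) :=
    mul_le_mul_of_nonneg_left (by nlinarith [mul_nonneg (sq_nonneg ω) h2]) hK'0.le
  nlinarith

end Crest.Agent.T157.Lp

end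
end

-- ▼ part T157/LpKsA_99
section

/-!
# Row 157, part A: first-moment bound for tuples of smeared children (helper99)
-/

set_option autoImplicit false

noncomputable section

namespace Crest.Agent.T157.Lp.K99

open MeasureTheory ProbabilityTheory Matrix Filter Set
open Crest.Agent.T157.E Crest.Agent.T157.Eig Crest.Agent.T157.Cond Crest.Agent.T157.Tap
open Crest.Agent.T157.Kr (phi phiS phi_nonneg phiS_nonneg)
open scoped ENNReal

variable {n : ℕ}

theorem lint_pi_prod {X : Type*} [MeasurableSpace X] (μ : Measure X) [SigmaFinite μ] {k : ℕ}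
    (f : Fin k → X → ℝ≥0∞) (hf : ∀ i, Measurable (f i)) :
    ∫⁻ x, ∏ j, f j (x j) ∂(Measure.pi fun _ : Fin k => μ) = ∏ j, ∫⁻ t, f j t ∂μ := by
  induction k with
  | zero =>
    simp [Measure.pi_of_empty (fun _ : Fin 0 => μ) Fin.elim0]
  | succ k ih =>
    have hmp := (measurePreserving_piFinSuccAbove (fun _ : Fin (k + 1) => μ) 0).symm
    have hF : Measurable fun x : Fin (k + 1) → X => ∏ j, f j (x j) :=
      Finset.measurable_prod _ fun i _ => (hf i).comp (measurable_pi_apply i)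
    have h1 := hmp.lintegral_comp hF
    rw [← h1]
    have h2 : ∀ p : X × (Fin k → X),
        (∏ j, f j ((MeasurableEquiv.piFinSuccAbove (fun _ : Fin (k + 1) => X) 0).symm p j))
          = f 0 p.1 * ∏ j : Fin k, f j.succ (p.2 j) := by
      intro p
      rw [Fin.prod_univ_succ]
      simp [MeasurableEquiv.piFinSuccAbove, Fin.insertNthEquiv]
    simp_rw [h2]
    have h3 : Measurable fun y : Fin k → X => ∏ j : Fin k, f j.succ (y j) :=
      Finset.measurable_prod _ fun (i : Fin k) _ => (hf i.succ).comp (measurable_pi_apply i)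
    have h4 := ih (fun i : Fin k => f i.succ) fun i : Fin k => hf i.succ
    rw [lintegral_prod_mul (hf 0).aemeasurable h3.aemeasurable, Fin.prod_univ_succ]
    congr 1

lemma cb_th (x : V n) : Cb (th x) := fun i => SE.abs_tanh_le _

lemma dot_le_of_abs {v : V n} {a : ℝ} (h : ∀ i, |v i| ≤ a) : v ⬝ᵥ v ≤ a ^ 2 * n := by
  have : ∀ i, v i * v i ≤ a ^ 2 := fun i => by
    have := h i
    have h0 := abs_nonneg (v i)
    nlinarith [abs_mul_abs_self (v i)]
  calc v ⬝ᵥ v ≤ ∑ _i : Fin n, a ^ 2 := Finset.sum_le_sum fun i _ => this i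
    _ = a ^ 2 * n := by simp [mul_comm]

lemma nrm_le_of_abs {v : V n} {a : ℝ} (ha : 0 ≤ a) (h : ∀ i, |v i| ≤ a) :
    nrm v ≤ a * Real.sqrt n := by
  rw [nrm_le_iff (by positivity), mul_pow, Real.sq_sqrt (Nat.cast_nonneg n)]
  exact dot_le_of_abs h

lemma abs_sub_cb {p q : V n} (hp : Cb p) (hq : Cb q) (i : Fin n) : |(p - q) i| ≤ 2 := by
  have := abs_sub (p i) (q i)
  have := hp i
  have := hq i
  simp only [Pi.sub_apply]
  linarith

lemma dot_sub_cb {p q : V n} (hp : Cb p) (hq : Cb q) : (p - q) ⬝ᵥ (p - q) ≤ 4 * n := by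
  have := dot_le_of_abs (abs_sub_cb hp hq)
  linarith

lemma nrm_sub_cb {p q : V n} (hp : Cb p) (hq : Cb q) : nrm (p - q) ≤ 2 * Real.sqrt n :=
  nrm_le_of_abs (by norm_num) (abs_sub_cb hp hq)

lemma int_abs_le : ∫ z, |z| ∂(gaussianReal 0 1) ≤ 1 := by
  have h2 : Integrable (fun z : ℝ => z ^ 2) (gaussianReal 0 1) :=
    (memLp_id_gaussianReal (μ := 0) (v := 1) 2).integrable_sq
  have h1 : Integrable (fun z : ℝ => |z|) (gaussianReal 0 1) :=
    ((memLp_id_gaussianReal (μ := 0) (v := 1) 1).integrable le_rfl).abs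
  have hv : ∫ z, z ^ 2 ∂(gaussianReal 0 1) = 1 := by
    have h := variance_id_gaussianReal (μ := 0) (v := 1)
    rw [variance_eq_integral aemeasurable_id] at h
    simpa using h
  have : ∫ z, |z| ∂(gaussianReal 0 1) ≤ ∫ z, (1 / 2 + 1 / 2 * z ^ 2) ∂(gaussianReal 0 1) :=
    integral_mono h1 ((integrable_const _).add (h2.const_mul _)) fun z => by
      simp only
      nlinarith [sq_nonneg (|z| - 1), sq_abs z]
  rw [integral_add (integrable_const _) (h2.const_mul _), integral_const_mul, hv] at this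
  simp only [integral_const, probReal_univ, smul_eq_mul] at this
  linarith

lemma gE_tanh_lip (m m' v v' : ℝ) :
    |gE Real.tanh m v - gE Real.tanh m' v'| ≤ |m - m'| + |Real.sqrt v - Real.sqrt v'| := by
  have i1 := SE.integrable_gE SE.measurable_tanh SE.abs_tanh_le m (Real.sqrt v)
  have i2 := SE.integrable_gE SE.measurable_tanh SE.abs_tanh_le m' (Real.sqrt v')
  have h1 : Integrable (fun z : ℝ => |z|) (gaussianReal 0 1) :=
    ((memLp_id_gaussianReal (μ := 0) (v := 1) 1).integrable le_rfl).abs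
  unfold gE
  rw [← integral_sub i1 i2]
  refine (abs_integral_le_integral_abs).trans ?_
  calc ∫ z, |Real.tanh (m + Real.sqrt v * z) - Real.tanh (m' + Real.sqrt v' * z)| ∂gaussianReal 0 1
      ≤ ∫ z, (|m - m'| + |Real.sqrt v - Real.sqrt v'| * |z|) ∂gaussianReal 0 1 := by
        refine integral_mono (i1.sub i2).abs ((integrable_const _).add (h1.const_mul _)) fun z => ?_
        refine (SE.abs_tanh_sub_le _ _).trans ?_
        have : m + Real.sqrt v * z - (m' + Real.sqrt v' * z) =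
            (m - m') + (Real.sqrt v - Real.sqrt v') * z := by ring
        rw [this, ← abs_mul]
        exact abs_add_le _ _
    _ = |m - m'| + |Real.sqrt v - Real.sqrt v'| * ∫ z, |z| ∂gaussianReal 0 1 := by
        rw [integral_add (integrable_const _) (h1.const_mul _), integral_const_mul]
        simp
    _ ≤ _ := by
        have := mul_le_mul_of_nonneg_left int_abs_le (abs_nonneg (Real.sqrt v - Real.sqrt v'))
        linarith

lemma gE_tanh_zero (v : ℝ) : gE Real.tanh 0 v = 0 := by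
  have h : ∫ z, Real.tanh (0 + Real.sqrt v * -z) ∂(gaussianReal 0 1) =
      ∫ z, Real.tanh (0 + Real.sqrt v * z) ∂(gaussianReal 0 1) := by
    have hm : (gaussianReal 0 1).map (fun z : ℝ => -z) = gaussianReal 0 1 := by
      rw [gaussianReal_map_neg, neg_zero]
    have hc : Continuous fun z : ℝ => Real.tanh (0 + Real.sqrt v * z) :=
      SE.continuous_tanh.comp (by fun_prop)
    conv_rhs => rw [← hm]
    rw [integral_map measurable_neg.aemeasurable hc.aestronglyMeasurable]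
  unfold gE
  have e : ∀ z : ℝ, Real.tanh (0 + Real.sqrt v * -z) = -Real.tanh (0 + Real.sqrt v * z) := by
    intro z
    rw [zero_add, zero_add, mul_neg, Real.tanh_neg]
  simp_rw [e, integral_neg] at h
  linarith

/-! ### continuity and measurability -/

lemma cont_th : Continuous (th : V n → V n) :=
  continuous_pi fun i => SE.continuous_tanh.comp (continuous_apply i)

lemma cont_e : Continuous fun x : V n => avg (DD (th x)) := by
  unfold avg DD
  have := cont_th (n := n)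
  fun_prop

lemma cont_Xc (b : ℝ) (c : V n) : Continuous (Xc b c) := by
  unfold Xc
  have := cont_th (n := n)
  have := cont_e (n := n)
  fun_prop

lemma cont_gam (b τ : ℝ) (p0 : V n) : Continuous (gam b τ p0) := by
  unfold gam
  have := cont_th (n := n)
  fun_prop

lemma cont_rv (b τ : ℝ) (c p0 : V n) :
    Continuous fun x : V n => rv b (avg (DD (th x))) (gam b τ p0 x) c p0 := by
  refine continuous_pi fun i => ?_
  unfold rv
  have h1 := cont_e (n := n)
  refine (SE.continuous_gE SE.continuous_tanh SE.abs_tanh_le ?_ (cont_gam b τ p0)).sub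
    continuous_const
  fun_prop

lemma cont_jac (b : ℝ) : Continuous (jac b : V n → ℝ) := by
  unfold jac
  have := cont_e (n := n)
  fun_prop

lemma jac_nonneg (b : ℝ) (x : V n) : 0 ≤ jac b x := (Real.exp_pos _).le

lemma meas_Child (b τ A k1 K3 t : ℝ) (c p0 : V n) :
    MeasurableSet {x | Child b τ A k1 K3 t c p0 x} := by
  have h1 := cont_th (n := n)
  have h2 := cont_e (n := n)
  have h3 := cont_Xc b c
  have h4 := cont_gam b τ p0
  have h5 := cont_rv b τ c p0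
  refine IsClosed.measurableSet ?_
  simp only [Child, setOf_and]
  refine (isClosed_le h2 continuous_const).inter ((isClosed_le continuous_const ?_).inter
    ((isClosed_le ?_ ?_).inter (isClosed_le ?_ ?_))) <;> fun_prop

lemma meas_Tup (k : ℕ) (b τ A k1 K3 t t' : ℝ) (c p0 : V n) :
    MeasurableSet (Tup k b τ A k1 K3 t t' c p0) := by
  have h1 := cont_th (n := n)
  have h3 := cont_Xc b c
  have h4 := cont_gam b τ p0
  have e : Tup k b τ A k1 K3 t t' c p0 =
      (⋂ a, (fun x : Fin k → V n => x a) ⁻¹' {x | Child b τ A k1 K3 t c p0 x}) ∩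
      ⋂ a, ⋂ a', ⋂ _ : a < a', {x : Fin k → V n | Orth b τ t' c p0 (x a) (x a')} := by
    ext x
    simp [Tup]
  rw [e]
  refine (MeasurableSet.iInter fun a => measurable_pi_apply a (meas_Child _ _ _ _ _ _ _ _)).inter
    (MeasurableSet.iInter fun a => MeasurableSet.iInter fun a' => MeasurableSet.iInter fun _ => ?_)
  refine IsClosed.measurableSet ?_
  simp only [Orth, setOf_and]
  refine (isClosed_le ?_ ?_).inter (isClosed_le ?_ ?_) <;> fun_prop

/-- the smeared counting functional -/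
def Fq (k : ℕ) (β τ A k1 K3 t t' : ℝ) (c p0 : V n) (W : Mx n) : ℝ≥0∞ :=
  ∫⁻ x' in Tup k (β ^ 2) τ A k1 K3 t t' c p0, ∏ a, ENNReal.ofReal (jac (β ^ 2) (x' a) *
    phi τ (Xc (β ^ 2) c (x' a) - (β • W) *ᵥ (th (x' a) - p0)))

lemma meas_integrand (k : ℕ) (β τ : ℝ) (c p0 : V n) :
    Measurable fun z : Mx n × (Fin k → V n) => ∏ a, ENNReal.ofReal (jac (β ^ 2) (z.2 a) *
      phi τ (Xc (β ^ 2) c (z.2 a) - (β • z.1) *ᵥ (th (z.2 a) - p0))) := by
  have h1 := (cont_th (n := n)).measurable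
  have h3 := (cont_Xc (β ^ 2) c).measurable
  have h4 := (cont_jac (n := n) (β ^ 2)).measurable
  refine Finset.measurable_prod _ fun a _ => ENNReal.measurable_ofReal.comp ?_
  have ha : Measurable fun z : Mx n × (Fin k → V n) => z.2 a :=
    (measurable_pi_apply a).comp measurable_snd
  refine (h4.comp ha).mul (Measurable.t157_phi measurable_const ((h3.comp ha).sub ?_))
  have h5 : Measurable fun z : Mx n × (Fin k → V n) => th (z.2 a) - p0 :=
    (h1.comp ha).sub measurable_const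
  have h6 : Measurable fun z : Mx n × (Fin k → V n) => β • z.1 := measurable_fst.const_smul β
  fun_prop

lemma meas_Fq (k : ℕ) (β τ A k1 K3 t t' : ℝ) (c p0 : V n) :
    Measurable (Fq k β τ A k1 K3 t t' c p0) :=
  (meas_integrand k β τ c p0).lintegral_prod_right'

/-- one child -/
def gC (β τ : ℝ) (c p0 x : V n) : ℝ≥0∞ := ENNReal.ofReal (jac (β ^ 2) x *
  phiS τ (β * (1 / Real.sqrt n) * len (th x - p0)) (unitv (th x - p0)) (Xc (β ^ 2) c x))

lemma meas_gC (β τ : ℝ) (c p0 : V n) : Measurable (gC β τ c p0) := by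
  have h1 := (cont_th (n := n)).measurable
  have h3 := (cont_Xc (β ^ 2) c).measurable
  have h4 := (cont_jac (n := n) (β ^ 2)).measurable
  have h5 : Measurable fun x : V n => th x - p0 := h1.sub measurable_const
  have h6 : Measurable fun x : V n => β * (1 / Real.sqrt n) * len (th x - p0) := by
    unfold len; fun_prop
  have h7 : Measurable fun x : V n => unitv (th x - p0) := h5.t157_unitv
  refine ENNReal.measurable_ofReal.comp (h4.mul ?_)
  unfold phiS
  refine ((Measurable.t157_phi (by fun_prop) h3).mul (by fun_prop)).mul ?_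
  fun_prop

/-- **first moment** -/
theorem first_moment {A Cm : ℝ} (hCm : 0 < Cm)
    (hM : ∀ (n k : ℕ) (β τ t : ℝ) (v X : Fin k → V n),
      0 < n → β ∈ Ioc (0 : ℝ) 1 → τ ∈ Ioc (0 : ℝ) 1 → 0 ≤ t → k * t ≤ 1 / 2 →
      (∀ a, v a ⬝ᵥ v a ≤ 4 * n) →
      (∀ a, X a ⬝ᵥ X a ≤ A * (τ + β ^ 2 * (v a ⬝ᵥ v a / n)) * n) →
      (∀ a a', a < a' → |v a ⬝ᵥ v a'| ≤ t * Real.sqrt ((τ + β ^ 2 * (v a ⬝ᵥ v a / n)) *
          (τ + β ^ 2 * (v a' ⬝ᵥ v a' / n))) * n ∧
        |X a ⬝ᵥ v a'| ≤ t * Real.sqrt ((τ + β ^ 2 * (v a ⬝ᵥ v a / n)) *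
          (τ + β ^ 2 * (v a' ⬝ᵥ v a' / n))) * n) → (∀ a, τ * n ≤ β ^ 2 * (v a ⬝ᵥ v a)) →
      ∫⁻ W, ∏ a, ENNReal.ofReal (phi τ (X a - β • W *ᵥ v a)) ∂(GOE n) ≤
        ENNReal.ofReal (Real.exp (Cm * k ^ 2 * t * n / β ^ 2) * (Cm / τ) ^ (k ^ 2) *
          ∏ a, phiS τ (β * (1 / Real.sqrt n) * len (v a)) (unitv (v a)) (X a)))
    {k : ℕ} {β τ k1 K3 K3' t t' c0 : ℝ} (hn : 0 < n) (hβ : β ∈ Ioc (0 : ℝ) 1)
    (hτ : τ ∈ Ioc (0 : ℝ) 1) (ht' : 0 ≤ t') (hkt : k * t' ≤ 1 / 2) (hK : K3 ≤ K3')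
    (hK' : 1 ≤ β ^ 2 * K3') {c p0 : V n} (hp0 : Cb p0)
    (hC : ∫⁻ x in {x | Child (β ^ 2) τ A k1 K3 t c p0 x}, gC β τ c p0 x ≤
      ENNReal.ofReal (Real.exp (-c0 * n))) :
    ∫⁻ W, Fq k β τ A k1 K3' t t' c p0 W ∂(GOE n) ≤
      ENNReal.ofReal (Real.exp (Cm * k ^ 2 * t' * n / β ^ 2) * (Cm / τ) ^ (k ^ 2) *
        Real.exp (-c0 * n) ^ k) := by
  have hn' : (0 : ℝ) < n := Nat.cast_pos.2 hn
  set M : ℝ := Real.exp (Cm * k ^ 2 * t' * n / β ^ 2) * (Cm / τ) ^ (k ^ 2) with hMdef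
  have hM0 : 0 ≤ M := by have := hτ.1; positivity
  set S : Set (V n) := {x | Child (β ^ 2) τ A k1 K3 t c p0 x} with hS
  have hSm : MeasurableSet S := meas_Child _ _ _ _ _ _ _ _
  unfold Fq
  rw [lintegral_lintegral_swap (meas_integrand k β τ c p0).aemeasurable]
  have hT := meas_Tup k (β ^ 2) τ A k1 K3' t t' c p0
  calc ∫⁻ x' in Tup k (β ^ 2) τ A k1 K3' t t' c p0, ∫⁻ W, ∏ a, ENNReal.ofReal (jac (β ^ 2) (x' a) *
          phi τ (Xc (β ^ 2) c (x' a) - (β • W) *ᵥ (th (x' a) - p0))) ∂(GOE n)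
      ≤ ∫⁻ x' in Tup k (β ^ 2) τ A k1 K3' t t' c p0,
          ENNReal.ofReal M * ∏ a, S.indicator (gC β τ c p0) (x' a) := by
        refine setLIntegral_mono' hT fun x' hx' => ?_
        have hch : ∀ a, x' a ∈ S := fun a => by
          obtain ⟨h1, h2, h3, h4⟩ := hx'.1 a
          refine ⟨h1, le_trans ?_ h2, h3, h4⟩
          have := hτ.1
          gcongr
        have e1 : ∀ W : Mx n, ∏ a, ENNReal.ofReal (jac (β ^ 2) (x' a) *
            phi τ (Xc (β ^ 2) c (x' a) - (β • W) *ᵥ (th (x' a) - p0))) =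
            (∏ a, ENNReal.ofReal (jac (β ^ 2) (x' a))) * ∏ a, ENNReal.ofReal
              (phi τ (Xc (β ^ 2) c (x' a) - β • W *ᵥ (th (x' a) - p0))) := fun W => by
          rw [← Finset.prod_mul_distrib]
          refine Finset.prod_congr rfl fun a _ => ?_
          rw [ENNReal.ofReal_mul (jac_nonneg _ _), Matrix.smul_mulVec]
        simp_rw [e1]
        rw [lintegral_const_mul' _ _ (ENNReal.prod_ne_top fun a _ => ENNReal.ofReal_ne_top)]
        have hb := hM n k β τ t' (fun a => th (x' a) - p0) (fun a => Xc (β ^ 2) c (x' a)) hn hβ hτ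
          ht' hkt (fun a => dot_sub_cb (cb_th _) hp0) (fun a => (hx'.1 a).2.2.1)
          (fun a a' h => hx'.2 a a' h) (fun a => by
            have h2 := (hx'.1 a).2.1
            have := hτ.1
            calc τ * n ≤ β ^ 2 * K3' * (τ * n) := le_mul_of_one_le_left (by positivity) hK'
              _ = β ^ 2 * (K3' * τ * n) := by ring
              _ ≤ _ := by gcongr)
        refine (mul_le_mul_right hb _).trans (le_of_eq ?_)
        rw [ENNReal.ofReal_mul hM0, ENNReal.ofReal_prod_of_nonneg fun a _ => phiS_nonneg _ _ _ _,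
          mul_left_comm, ← Finset.prod_mul_distrib]
        congr 1
        refine Finset.prod_congr rfl fun a _ => ?_
        rw [indicator_of_mem (hch a), gC, ENNReal.ofReal_mul (jac_nonneg _ _)]
    _ ≤ ∫⁻ x' : Fin k → V n, ENNReal.ofReal M * ∏ a, S.indicator (gC β τ c p0) (x' a) :=
        setLIntegral_le_lintegral _ _
    _ = ENNReal.ofReal M * ∏ _a : Fin k, ∫⁻ x, S.indicator (gC β τ c p0) x := by
        rw [lintegral_const_mul' _ _ ENNReal.ofReal_ne_top, volume_pi,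
          lint_pi_prod volume (fun _ => S.indicator (gC β τ c p0))
            fun _ => (meas_gC β τ c p0).indicator hSm]
    _ ≤ ENNReal.ofReal M * ∏ _a : Fin k, ENNReal.ofReal (Real.exp (-c0 * n)) := by
        refine mul_le_mul_right (Finset.prod_le_prod' fun a _ => ?_) _
        rw [lintegral_indicator hSm]
        exact hC
    _ = _ := by
        rw [Finset.prod_const, Finset.card_univ, Fintype.card_fin, ENNReal.ofReal_mul hM0,
          ENNReal.ofReal_pow (Real.exp_pos _).le]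

/-- Markov's inequality in the form used below -/
theorem markov {F : Mx n → ℝ≥0∞} (hF : Measurable F) {a B : ℝ} (ha : 0 < a)
    (h : ∫⁻ W, F W ∂(GOE n) ≤ ENNReal.ofReal B) :
    GOE n {W | ENNReal.ofReal a ≤ F W} ≤ ENNReal.ofReal (B / a) := by
  have h1 := meas_ge_le_lintegral_div (μ := GOE n) hF.aemeasurable
    (ε := ENNReal.ofReal a) (ENNReal.ofReal_pos.2 ha).ne' ENNReal.ofReal_ne_top
  refine h1.trans ?_
  rw [ENNReal.ofReal_div_of_pos ha]
  exact ENNReal.div_le_div_right h _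

end Crest.Agent.T157.Lp.K99
end
end

-- ▼ part T157/LpKsB_99
section

/-!
# Row 157, part A: with high probability there is no long chain of children (helper99)
-/

set_option autoImplicit false

noncomputable section

namespace Crest.Agent.T157.Lp.K99

open MeasureTheory ProbabilityTheory Matrix Filter Set Topology
open Crest.Agent.T157.E Crest.Agent.T157.Eig Crest.Agent.T157.Cond Crest.Agent.T157.Tap
open Crest.Agent.T157.Kr (phi phiS phi_nonneg phiS_nonneg)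
open scoped ENNReal

variable {n : ℕ}

/-- the hypotheses of `SmearStmt` on one child -/
def H2 (b τ η k1 K4 t : ℝ) (J : Mx n) (c p0 x : V n) : Prop :=
  nrm (Xc b c x - J *ᵥ (th x - p0)) ≤ η * Real.sqrt n ∧ avg (DD (th x)) ≤ 1 - k1 ∧
    K4 * τ * n ≤ (th x - p0) ⬝ᵥ (th x - p0) ∧
    |(th x - p0) ⬝ᵥ rv b (avg (DD (th x))) (gam b τ p0 x) c p0| ≤ t / 2 * gam b τ p0 x * n

/-- the hypotheses of `SmearStmt` on an ordered pair -/
def H3 (b δ : ℝ) (c p0 x x' : V n) : Prop :=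
  |(th x - p0) ⬝ᵥ (th x' - p0)| ≤ δ * n ∧ |Xc b c x ⬝ᵥ (th x' - p0)| ≤ δ * n

/-- no chain of length `k` -/
def NoCh (k : ℕ) (b τ η k1 K4 t δ : ℝ) (J : Mx n) (c p0 : V n) : Prop :=
  ¬ ∃ x : Fin k → V n, (∀ a, H2 b τ η k1 K4 t J c p0 (x a)) ∧
    ∀ a a', a < a' → H3 b δ c p0 (x a) (x a')

lemma whp_symm : Top.Whp GOE fun _ W => Wᵀ = W := by
  have : (fun n => GOE n {W | ¬ Wᵀ = W}) = fun _ => 0 :=
    funext fun n => ae_iff.1 (goe_ae_symm _)
  rw [Top.Whp, this]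
  exact tendsto_const_nhds

lemma tend_exp (M : ℝ) {γ : ℝ} (hγ : 0 < γ) :
    Tendsto (fun n : ℕ => M * Real.exp (-(n * γ))) atTop (𝓝 0) := by
  have := (Real.tendsto_exp_neg_atTop_nhds_zero.comp
    (tendsto_natCast_atTop_atTop.atTop_mul_const hγ)).const_mul M
  rwa [mul_zero] at this

lemma whp_of_exp {P : ∀ n, Mx n → Prop} (M : ℝ) {γ : ℝ} (hγ : 0 < γ)
    (h : ∀ᶠ n : ℕ in atTop, GOE n {W | ¬ P n W} ≤ ENNReal.ofReal (M * Real.exp (-(n * γ)))) :
    Top.Whp GOE P := by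
  refine Top.whp_iff.2 fun ε hε => ?_
  filter_upwards [h, (tend_exp M hγ).eventually (gt_mem_nhds hε)] with n h1 h2
  exact h1.trans (ENNReal.ofReal_le_ofReal h2.le)

lemma whp_opn : Top.Whp GOE fun _ W => opn W ≤ 3 := by
  refine Top.whp_of_real_le (tend_exp 2 (show (0 : ℝ) < 1 / 4 by norm_num))
    (Eventually.of_forall fun n => ?_)
  have := Nrm.goe_opn_tail_n (n := n) zero_le_one
  rw [one_pow, mul_div_assoc] at this
  refine le_trans (measureReal_mono fun W hW => ?_) this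
  simp only [mem_ofPred_eq, not_le] at hW ⊢
  linarith

lemma union_bound {ι : Type*} (S : Finset ι) (B : ι → Set (Mx n)) {a N : ℝ} (ha : 0 ≤ a)
    (hN : (S.card : ℝ) ≤ N) (h : ∀ z ∈ S, GOE n (B z) ≤ ENNReal.ofReal a) :
    GOE n {W | ¬ ∀ z ∈ S, W ∉ B z} ≤ ENNReal.ofReal (N * a) := by
  have e : {W | ¬ ∀ z ∈ S, W ∉ B z} = ⋃ z ∈ S, B z := by
    ext W
    simp
  rw [e]
  refine (measure_biUnion_finset_le S B).trans ((Finset.sum_le_sum h).trans ?_)
  rw [Finset.sum_const, nsmul_eq_mul, ← ENNReal.ofReal_natCast,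
    ← ENNReal.ofReal_mul (Nat.cast_nonneg _)]
  exact ENNReal.ofReal_le_ofReal (mul_le_mul_of_nonneg_right hN ha)

/-- **no long chain**, simultaneously on a net of exponential size -/
theorem core (hC : ChildStmt) (hM : MultiStmt) (hS : SmearStmt) (hU : U2Stmt) (hD : DetEStmt)
    {β k1 : ℝ} (hβ : β ∈ Ioc (0 : ℝ) 1) (hk1 : 0 < k1) :
    ∃ c0 > (0 : ℝ), ∃ t > (0 : ℝ), ∃ K4 > (0 : ℝ), ∃ s1 ≥ (2 : ℝ), ∃ κ > (0 : ℝ), ∃ τ1 > (0 : ℝ),
      ∃ Cs > (0 : ℝ), ∀ (η : ℝ) (k : ℕ) (δ : ℝ), 0 < η → (s1 * η) ^ 2 ≤ τ1 → 0 < k → 0 < δ →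
        k * (2 * δ / (s1 * η) ^ 2 + Cs * (s1 * η)) ≤ κ →
        ∀ S : ∀ n, Finset (V n × V n), (∀ n, ∀ z ∈ S n, Cb z.2) →
          (∀ n, ((S n).card : ℝ) ≤ Real.exp (k * c0 * n / 8)) →
          Top.Whp GOE fun n W => Wᵀ = W ∧ opn W ≤ 3 ∧
            ∀ z ∈ S n, NoCh k (β ^ 2) ((s1 * η) ^ 2) (2 * η) k1 K4 t δ (β • W) z.1 z.2 := by
  obtain ⟨c1, hc1, L, hL, r, ρ, hρ, hU'⟩ := hU β hβ k1 hk1
  obtain ⟨A, Cs, hCs, hS'⟩ := hS c1 hc1 L hL r β hβ
  obtain ⟨c0, hc0, t, ht, K3, hK3, hC'⟩ := hC β hβ (k1 / 2) (by positivity) A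
  have hβ0 := hβ.1
  obtain ⟨K4, hK4, τ0, hτ0, hS''⟩ := hS' (k1 / 2) (by positivity) t ht (max K3 (1 / β ^ 2))
    (lt_max_of_lt_left hK3)
  obtain ⟨Cm, hCm, hM'⟩ := hM A
  have hD' := hD β hβ c1 hc1 L hL r (c0 / 8) (by positivity)
  refine ⟨c0, hc0, t, ht, K4, hK4, max 2 (16 * Cs / c0), le_max_left _ _,
    min (1 / 2) (c0 * β ^ 2 / (8 * Cm)), by positivity, min (min 1 τ0) ((c0 / (8 * Cs)) ^ 2),
    by positivity, Cs, hCs, fun η k δ hη hτ1 hk hδ hκ S hSc hSN => ?_⟩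
  set s1 : ℝ := max 2 (16 * Cs / c0) with hs1
  have hs2 : 2 ≤ s1 := le_max_left _ _
  have hs3 : 16 * Cs / c0 ≤ s1 := le_max_right _ _
  have hs0 : 0 < s1 := by linarith
  set τ : ℝ := (s1 * η) ^ 2 with hτ
  have hτp : 0 < τ := by positivity
  have hsq : Real.sqrt τ = s1 * η := Real.sqrt_sq (by positivity)
  have hτa : τ ≤ 1 := hτ1.trans ((min_le_left _ _).trans (min_le_left _ _))
  have hτb : τ ≤ τ0 := hτ1.trans ((min_le_left _ _).trans (min_le_right _ _))
  have hτc : Cs * (s1 * η) ≤ c0 / 8 := by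
    have h1 : (s1 * η) ^ 2 ≤ (c0 / (8 * Cs)) ^ 2 := hτ1.trans (min_le_right _ _)
    have h2 : s1 * η ≤ c0 / (8 * Cs) := (pow_le_pow_iff_left₀ (by positivity)
      (by positivity) two_ne_zero).1 h1
    calc Cs * (s1 * η) ≤ Cs * (c0 / (8 * Cs)) := by gcongr
      _ = c0 / 8 := by field_simp
  have hηs : Cs * (2 * η / (s1 * η)) ≤ c0 / 8 := by
    have h1 : 2 * η / (s1 * η) = 2 / s1 := by field_simp
    rw [h1, ← mul_div_assoc, div_le_div_iff₀ hs0 (by norm_num)]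
    rw [div_le_iff₀ hc0] at hs3
    linarith
  set t' : ℝ := 2 * δ / τ + Cs * Real.sqrt τ with ht'
  have ht'0 : 0 ≤ t' := by positivity
  have hkt : k * t' ≤ min (1 / 2) (c0 * β ^ 2 / (8 * Cm)) := by rwa [ht', hsq]
  have hk' : (1 : ℝ) ≤ k := by exact_mod_cast hk
  -- the lower bound `a n` and the bad event
  set a : ℕ → ℝ := fun n =>
    Real.exp (-(k * n * (Cs * (2 * η / Real.sqrt τ + Real.sqrt τ) + c0 / 8)) - 1) with ha
  have hBad : Top.Whp GOE fun n W => ∀ z ∈ S n, W ∉ {W : Mx n | ENNReal.ofReal (a n) ≤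
      Fq k β τ A (k1 / 2) (max K3 (1 / β ^ 2)) t t' z.1 z.2 W} := by
    refine whp_of_exp (Real.exp 1 * (Cm / τ) ^ (k ^ 2)) (γ := 3 * c0 / 8) (by positivity) ?_
    filter_upwards [eventually_gt_atTop 0, hC' τ ⟨hτp, hτa⟩] with n hn hCn
    have hn0 : (0 : ℝ) ≤ n := Nat.cast_nonneg n
    have h1 := union_bound (S n) (fun z => {W : Mx n | ENNReal.ofReal (a n) ≤
      Fq k β τ A (k1 / 2) (max K3 (1 / β ^ 2)) t t' z.1 z.2 W})
      (a := Real.exp (Cm * k ^ 2 * t' * n / β ^ 2) * (Cm / τ) ^ (k ^ 2) *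
        Real.exp (-c0 * n) ^ k / a n) (by positivity) (hSN n) fun z hz =>
      markov (meas_Fq _ _ _ _ _ _ _ _ _ _) (Real.exp_pos _)
        (first_moment hCm hM' hn hβ ⟨hτp, hτa⟩ ht'0 (hkt.trans (min_le_left _ _))
          (le_max_left _ _) (by
            calc (1 : ℝ) = β ^ 2 * (1 / β ^ 2) := by field_simp
              _ ≤ _ := by gcongr; exact le_max_right _ _)
          (hSc n z hz) (hCn z.1 z.2 (hSc n z hz)))
    refine h1.trans (ENNReal.ofReal_le_ofReal ?_)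
    have e1 : Real.exp (k * c0 * n / 8) * (Real.exp (Cm * k ^ 2 * t' * n / β ^ 2) *
        (Cm / τ) ^ (k ^ 2) * Real.exp (-c0 * n) ^ k / a n) = (Cm / τ) ^ (k ^ 2) *
        Real.exp (k * c0 * n / 8 + Cm * k ^ 2 * t' * n / β ^ 2 + k * (-c0 * n) -
          (-(k * n * (Cs * (2 * η / Real.sqrt τ + Real.sqrt τ) + c0 / 8)) - 1)) := by
      rw [Real.exp_sub, Real.exp_add, Real.exp_add, Real.exp_nat_mul]
      simp only [ha]
      ring
    rw [e1, mul_comm (Real.exp 1), mul_assoc ((Cm / τ) ^ (k ^ 2)), ← Real.exp_add]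
    refine mul_le_mul_of_nonneg_left (Real.exp_le_exp.2 ?_) (by positivity)
    have h2 : Cm * k ^ 2 * t' * n / β ^ 2 ≤ k * n * (c0 / 8) := by
      have h3 : k * t' ≤ c0 * β ^ 2 / (8 * Cm) := hkt.trans (min_le_right _ _)
      calc Cm * k ^ 2 * t' * n / β ^ 2 = k * n * (Cm / β ^ 2 * (k * t')) := by ring
        _ ≤ k * n * (Cm / β ^ 2 * (c0 * β ^ 2 / (8 * Cm))) := by gcongr
        _ = k * n * (c0 / 8) := by field_simp
    have h4 : k * n * (Cs * (2 * η / Real.sqrt τ + Real.sqrt τ) + c0 / 8) ≤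
        k * n * (3 * c0 / 8) := by
      rw [hsq]
      refine mul_le_mul_of_nonneg_left ?_ (by positivity)
      linarith
    have h5 : n * (3 * c0 / 8) ≤ k * n * (3 * c0 / 8) := by
      rw [mul_assoc]
      exact le_mul_of_one_le_left (by positivity) hk'
    linarith
  refine ((((whp_symm.and whp_opn).and hU').and hD').and hBad).mono ?_
  filter_upwards [hS'' τ ⟨hτp, hτb⟩ k (2 * η) δ (c0 / 8) (by positivity)
    (by rw [hτ]; gcongr) hδ (by positivity)] with n hSn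
  rintro W ⟨⟨⟨⟨h1, h2⟩, h3⟩, h4⟩, h5⟩
  refine ⟨h1, h2, fun z hz => ?_⟩
  rintro ⟨x, hx1, hx2⟩
  refine h5 z hz (hSn (β • W) z.1 z.2 x (by rw [transpose_smul, h1]) ?_ (hSc n z hz)
    (fun a => ?_) (fun a => ?_) hx2)
  · rw [opn_smul, abs_of_pos hβ0]
    have := opn_nonneg W
    nlinarith [hβ.2]
  · obtain ⟨E, hE, hG⟩ := h3 (th (x a)) (cb_th _) (hx1 a).2.1
    have hG' := hG (th (x a)) (cb_th _) (by
      rw [sub_self, nrm_eq_zero.2 rfl]
      positivity)
    exact ⟨E, hE, hG'.1, h4 _ E (cb_th _) hG'.2 hE hG'.1⟩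
  · obtain ⟨g1, g2, g3, g4⟩ := hx1 a
    exact ⟨g1, by linarith, g3, g4⟩

end Crest.Agent.T157.Lp.K99
end
end

-- ▼ part T157/LpKsTop_99

/-!
# Row 157, part A: `Lp.KsTop` (greedy choice, nets, parameters) (helper99)
-/

set_option autoImplicit false

noncomputable section

namespace Crest.Agent.T157.Lp.K99

open MeasureTheory ProbabilityTheory Matrix Filter Set Topology
open Crest.Agent.T157.E Crest.Agent.T157.Eig Crest.Agent.T157.Cond Crest.Agent.T157.Tap
open scoped ENNReal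

variable {n : ℕ}

/-- a maximal chain -/
lemma greedy {X : Type*} [Inhabited X] (P : X → Prop) (Q : X → X → Prop) (k : ℕ)
    (h : ¬ ∃ x : Fin k → X, (∀ a, P (x a)) ∧ ∀ a a', a < a' → Q (x a) (x a')) :
    ∃ x : Fin k → X, ∀ z, P z → ∃ a, P (x a) ∧ ¬ Q (x a) z := by
  induction k with
  | zero => exact absurd ⟨Fin.elim0, fun a => a.elim0, fun a => a.elim0⟩ h
  | succ k ih =>
    by_cases hk : ∃ x : Fin k → X, (∀ a, P (x a)) ∧ ∀ a a', a < a' → Q (x a) (x a')
    · obtain ⟨x, h1, h2⟩ := hk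
      refine ⟨Fin.snoc (α := fun _ => X) x default, fun z hz => ?_⟩
      by_contra hc
      push Not at hc
      refine h ⟨Fin.snoc (α := fun _ => X) x z, fun a => ?_, fun a a' haa => ?_⟩
      · refine Fin.lastCases ?_ (fun i => ?_) a
        · simpa using hz
        · simpa using h1 i
      · revert haa
        refine Fin.lastCases ?_ (fun i => ?_) a
        · intro haa
          exact absurd haa (not_lt.2 (Fin.le_last _))
        · refine Fin.lastCases ?_ (fun i' => ?_) a'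
          · intro _
            have := hc i.castSucc (by simpa using h1 i)
            simpa using this
          · intro haa
            simpa using h2 i i' (Fin.castSucc_lt_castSucc_iff.1 haa)
    · obtain ⟨x, hx⟩ := ih hk
      refine ⟨Fin.snoc (α := fun _ => X) x default, fun z hz => ?_⟩
      obtain ⟨a, h1, h2⟩ := hx z hz
      exact ⟨a.castSucc, by simpa using h1, by simpa using h2⟩

lemma exists_grid {m v : ℝ} (hm : 0 < m) (hv : 0 ≤ v) {G : ℕ} (hG : v ≤ G * m) :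
    ∃ i : Fin (G + 1), |v - i * m| ≤ m := by
  have h0 : 0 ≤ v / m := by positivity
  have h1 : ⌊v / m⌋₊ ≤ G := Nat.floor_le_of_le ((div_le_iff₀ hm).2 hG)
  refine ⟨⟨⌊v / m⌋₊, Nat.lt_succ_of_le h1⟩, ?_⟩
  have h2 := Nat.floor_le h0
  have h3 := Nat.lt_floor_add_one (v / m)
  rw [le_div_iff₀ hm] at h2
  rw [div_lt_iff₀ hm] at h3
  simp only
  rw [abs_le]
  constructor <;> nlinarith

lemma nrm_mono {u v : V n} (h : ∀ i, |u i| ≤ |v i|) : nrm u ≤ nrm v :=
  Real.sqrt_le_sqrt (Finset.sum_le_sum fun i _ => by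
    rw [← abs_mul_abs_self (u i), ← abs_mul_abs_self (v i)]
    exact mul_self_le_mul_self (abs_nonneg _) (h i))

/-- projection onto the cube -/
def clamp (q : V n) : V n := fun i => max (-1) (min 1 (q i))

lemma cb_clamp (q : V n) : Cb (clamp q) := fun i =>
  abs_le.2 ⟨le_max_left _ _, max_le (by norm_num) (min_le_left _ _)⟩

lemma nrm_sub_clamp {p : V n} (hp : Cb p) (q : V n) : nrm (p - clamp q) ≤ nrm (p - q) := by
  refine nrm_mono fun i => ?_
  obtain ⟨h1, h2⟩ := abs_le.1 (hp i)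
  simp only [Pi.sub_apply, clamp]
  rcases le_total 1 (q i) with h | h
  · rw [min_eq_left h, max_eq_right (by norm_num), abs_of_nonpos (by linarith),
      abs_of_nonpos (by linarith)]
    linarith
  · rw [min_eq_right h]
    rcases le_total (-1) (q i) with h' | h'
    · rw [max_eq_right h']
    · rw [max_eq_left h', abs_of_nonneg (by linarith), abs_of_nonneg (by linarith)]
      linarith

/-- the net of pairs `(c, p0)` -/
lemma exists_net2 (n j : ℕ) {B : ℝ} (hB : 1 ≤ B) : ∃ S : Finset (V n × V n),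
    (∀ z ∈ S, Cb z.2) ∧ (S.card : ℝ) ≤ Real.exp (4 * j * n) ∧
    ∀ c p : V n, nrm c ≤ B * Real.sqrt n → Cb p → ∃ z ∈ S,
      nrm (c - z.1) ≤ B * (1 / 2) ^ j * Real.sqrt n ∧
      nrm (p - z.2) ≤ B * (1 / 2) ^ j * Real.sqrt n := by
  classical
  obtain ⟨N, hN, hN2⟩ := Nrm.exists_net (Fin n) j
  have key : ∀ c : V n, nrm c ≤ B * Real.sqrt n → ∃ q ∈ N,
      nrm (c - (B * Real.sqrt n) • q) ≤ B * (1 / 2) ^ j * Real.sqrt n := by
    intro c hc
    rcases (show 0 ≤ B * Real.sqrt n by positivity).eq_or_lt with h0 | h0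
    · obtain ⟨q, hq, -⟩ := hN2 0 (by rw [nrm_eq_zero.2 rfl]; norm_num)
      refine ⟨q, hq, ?_⟩
      rw [← h0, zero_smul, sub_zero]
      rw [← h0] at hc
      exact hc.trans (by positivity)
    · obtain ⟨q, hq, hq2⟩ := hN2 ((B * Real.sqrt n)⁻¹ • c) (by
        rw [nrm_smul, abs_of_pos (inv_pos.2 h0), inv_mul_le_iff₀ h0, mul_one]
        exact hc)
      refine ⟨q, hq, ?_⟩
      have e : c - (B * Real.sqrt n) • q = (B * Real.sqrt n) • ((B * Real.sqrt n)⁻¹ • c - q) := by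
        rw [smul_sub, smul_smul, mul_inv_cancel₀ h0.ne', one_smul]
      rw [e, nrm_smul, abs_of_pos h0]
      calc B * Real.sqrt n * nrm ((B * Real.sqrt n)⁻¹ • c - q) ≤ B * Real.sqrt n * (1 / 2) ^ j := by
            gcongr
        _ = _ := by ring
  refine ⟨(N ×ˢ N).image fun q => ((B * Real.sqrt n) • q.1, clamp ((B * Real.sqrt n) • q.2)),
    fun z hz => ?_, ?_, fun c p hc hp => ?_⟩
  · obtain ⟨q, -, rfl⟩ := Finset.mem_image.1 hz
    exact cb_clamp _
  · have h1 : ((N ×ˢ N).image fun q : V n × V n =>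
        ((B * Real.sqrt n) • q.1, clamp ((B * Real.sqrt n) • q.2))).card ≤ 25 ^ (j * n) := by
      refine Finset.card_image_le.trans ?_
      rw [Finset.card_product]
      rw [Fintype.card_fin, ← pow_mul] at hN
      calc N.card * N.card ≤ 5 ^ (j * n) * 5 ^ (j * n) := Nat.mul_le_mul hN hN
        _ = 25 ^ (j * n) := by rw [← mul_pow]; norm_num
    have h2 : (25 : ℝ) ≤ Real.exp 4 := by
      have h3 := Real.add_one_le_exp (1 / 2 : ℝ)
      calc (25 : ℝ) ≤ (1 / 2 + 1) ^ 8 := by norm_num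
        _ ≤ Real.exp (1 / 2) ^ 8 := by gcongr
        _ = Real.exp 4 := by rw [← Real.exp_nat_mul]; norm_num
    calc _ ≤ ((25 ^ (j * n) : ℕ) : ℝ) := by exact_mod_cast h1
      _ = (25 : ℝ) ^ (j * n) := by push_cast; rfl
      _ ≤ Real.exp 4 ^ (j * n) := by gcongr
      _ = _ := by rw [← Real.exp_nat_mul]; push_cast; ring_nf
  · obtain ⟨q, hq, hq2⟩ := key c hc
    obtain ⟨q', hq', hq2'⟩ := key p ((nrm_le_of_abs zero_le_one hp).trans (by gcongr))
    exact ⟨_, Finset.mem_image.2 ⟨(q, q'), Finset.mem_product.2 ⟨hq, hq'⟩, rfl⟩, hq2,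
      (nrm_sub_clamp hp _).trans hq2'⟩

lemma exists_j {a D : ℝ} (ha : 0 < a) (hD : 0 < D) : ∃ η0 > (0 : ℝ), ∀ η ∈ Ioc (0 : ℝ) η0,
    ∃ j : ℕ, (1 / 2 : ℝ) ^ j ≤ D * η ^ 3 ∧ j ≤ a / η := by
  refine ⟨min (a / 2) (D * (a / 4) ^ 4 / 24), by positivity, fun η hη => ⟨⌈a / (2 * η)⌉₊, ?_, ?_⟩⟩
  · have h0 := hη.1
    have h1 : a / (2 * η) ≤ ⌈a / (2 * η)⌉₊ := Nat.le_ceil _
    set j := ⌈a / (2 * η)⌉₊
    have h2 : (1 / 2 : ℝ) ≤ Real.exp (-(1 / 2)) := by
      have := Real.add_one_le_exp (-(1 / 2) : ℝ)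
      linarith
    have h3 : (a / (4 * η)) ^ 4 / 24 ≤ Real.exp (a / (4 * η)) := by
      have := Real.pow_div_factorial_le_exp (a / (4 * η)) (by positivity) 4
      simpa [Nat.factorial] using this
    have h4 : η ≤ D * (a / 4) ^ 4 / 24 := hη.2.trans (min_le_right _ _)
    calc (1 / 2 : ℝ) ^ j ≤ Real.exp (-(1 / 2)) ^ j := by gcongr
      _ = Real.exp (-(j / 2)) := by rw [← Real.exp_nat_mul]; ring_nf
      _ ≤ Real.exp (-(a / (4 * η))) := by
          refine Real.exp_le_exp.2 (neg_le_neg ?_)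
          have : a / (4 * η) = a / (2 * η) / 2 := by field_simp; norm_num
          linarith
      _ ≤ ((a / (4 * η)) ^ 4 / 24)⁻¹ := by
          rw [Real.exp_neg]
          exact inv_anti₀ (by positivity) h3
      _ = η ^ 3 * (η / ((a / 4) ^ 4 / 24)) := by field_simp
      _ ≤ η ^ 3 * D := by
          refine mul_le_mul_of_nonneg_left ?_ (by positivity)
          rw [div_le_iff₀ (by positivity)]
          linarith
      _ = _ := mul_comm _ _
  · have h0 := hη.1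
    have h1 := (Nat.ceil_lt_add_one (show 0 ≤ a / (2 * η) by positivity)).le
    have h2 : η ≤ a / 2 := hη.2.trans (min_le_left _ _)
    have h3 : 1 ≤ a / (2 * η) := by
      rw [le_div_iff₀ (by positivity)]
      linarith
    have h4 : a / η = a / (2 * η) + a / (2 * η) := by field_simp; norm_num
    linarith

lemma sq_sqrt_n : Real.sqrt n * Real.sqrt n = n := Real.mul_self_sqrt (Nat.cast_nonneg n)

lemma abs_dot_le' {u v : V n} {a b : ℝ} (hu : nrm u ≤ a * Real.sqrt n)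
    (hv : nrm v ≤ b * Real.sqrt n) : |u ⬝ᵥ v| ≤ a * b * n := by
  have h1 := nrm_nonneg u
  have h2 := nrm_nonneg v
  calc |u ⬝ᵥ v| ≤ nrm u * nrm v := abs_dot_le u v
    _ ≤ (a * Real.sqrt n) * (b * Real.sqrt n) := mul_le_mul hu hv h2 (h1.trans hu)
    _ = a * b * (Real.sqrt n * Real.sqrt n) := by ring
    _ = _ := by rw [sq_sqrt_n]

lemma nrm_rv_le (b e γ : ℝ) (c : V n) {p0 : V n} (hp : Cb p0) :
    nrm (rv b e γ c p0) ≤ 2 * Real.sqrt n := by
  refine nrm_le_of_abs (by norm_num) fun i => ?_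
  have h1 := SE.abs_gE_le SE.abs_tanh_le (c i - b * e * p0 i) γ
  have h2 := hp i
  have h3 := abs_sub (gE Real.tanh (c i - b * e * p0 i) γ) (p0 i)
  unfold rv
  linarith

lemma nrm_rv_sub {b e e' γ g m : ℝ} (hb : b ∈ Icc (0 : ℝ) 1) (hg : 0 ≤ g) (he : |e - e'| ≤ m)
    (hγ : |Real.sqrt γ - g| ≤ m) (c : V n) {p0 : V n} (hp : Cb p0) :
    nrm (rv b e γ c p0 - rv b e' (g ^ 2) c p0) ≤ 2 * m * Real.sqrt n := by
  have hm : 0 ≤ m := (abs_nonneg _).trans he
  refine nrm_le_of_abs (by positivity) fun i => ?_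
  have h1 := gE_tanh_lip (c i - b * e * p0 i) (c i - b * e' * p0 i) γ (g ^ 2)
  rw [Real.sqrt_sq hg] at h1
  have h2 : |c i - b * e * p0 i - (c i - b * e' * p0 i)| ≤ m := by
    have : c i - b * e * p0 i - (c i - b * e' * p0 i) = -(b * ((e - e') * p0 i)) := by ring
    rw [this, abs_neg, abs_mul, abs_mul, abs_of_nonneg hb.1]
    calc b * (|e - e'| * |p0 i|) ≤ 1 * (m * 1) := by
          gcongr
          · exact hb.2
          · exact hp i
      _ = m := by ring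
  have h3 : (rv b e γ c p0 - rv b e' (g ^ 2) c p0) i =
      gE Real.tanh (c i - b * e * p0 i) γ - gE Real.tanh (c i - b * e' * p0 i) (g ^ 2) := by
    simp [rv]
  rw [h3]
  linarith

/-- **deterministic part of (K*)** -/
lemma det_ks {k G : ℕ} (hn : 0 < n) {b τ η k1 K2 K4 t m : ℝ} {J : Mx n} {y p0 c' p' : V n}
    (hb : b ∈ Icc (0 : ℝ) 1) (hJ : opn J ≤ 3) (hp' : Cb p') (hm : 0 < m)
    (hη : η ≤ 1) (hmη : 4 * m ≤ η) (hτ : τ ∈ Ioc (0 : ℝ) 1) (ht : 0 < t) (hmt : 14 * m ≤ t * τ)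
    (hG : 3 ≤ G * m) (hK : K4 * τ ≤ (K2 * η - m) ^ 2) (hK' : m ≤ K2 * η)
    (hc : nrm (y + J *ᵥ p0 - c') ≤ m * Real.sqrt n) (hp : nrm (p0 - p') ≤ m * Real.sqrt n)
    (h : NoCh k b τ (2 * η) k1 K4 t (9 * m) J c' p') :
    ∃ r : (Fin k × Bool) ⊕ (Fin (G + 1) × Fin (G + 1)) → V n,
      (∀ j, nrm (r j) ≤ 8 * Real.sqrt n) ∧
      ∀ x, nrm (Ymap J b x - y) ≤ η * Real.sqrt n → avg (DD (th x)) ≤ 1 - k1 →
        K2 * η * Real.sqrt n ≤ nrm (th x - p0) → ∃ j, m * n ≤ |(th x - p0) ⬝ᵥ r j| := by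
  classical
  have hn' : (0 : ℝ) < n := Nat.cast_pos.2 hn
  have hs : 0 ≤ Real.sqrt n := Real.sqrt_nonneg _
  set P : V n → Prop := H2 b τ (2 * η) k1 K4 t J c' p' with hP
  have hX : ∀ x, P x → nrm (Xc b c' x) ≤ 8 * Real.sqrt n := by
    intro x hx
    have h1 := hx.1
    have h2 := nrm_add_le (Xc b c' x - J *ᵥ (th x - p')) (J *ᵥ (th x - p'))
    rw [sub_add_cancel] at h2
    have h3 := nrm_mulVec_le J (th x - p')
    have h4 := nrm_sub_cb (cb_th x) hp'
    have h5 : opn J * nrm (th x - p') ≤ 3 * (2 * Real.sqrt n) :=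
      mul_le_mul hJ h4 (nrm_nonneg _) (by norm_num)
    nlinarith
  obtain ⟨x, hx⟩ := greedy P (H3 b (9 * m) c' p') k h
  refine ⟨Sum.elim (fun q => if q.2 then th (x q.1) - p' else if P (x q.1) then Xc b c' (x q.1) else 0)
    fun q => rv b (q.1 * m) ((q.2 * m) ^ 2) c' p', ?_, fun z h1 h2 h3 => ?_⟩
  · rintro (⟨a, _ | _⟩ | q)
    · simp only [Sum.elim_inl, Bool.false_eq_true, if_false]
      split_ifs with hh
      · exact hX _ hh
      · rw [nrm_eq_zero.2 rfl]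
        positivity
    · simp only [Sum.elim_inl, if_true]
      exact (nrm_sub_cb (cb_th _) hp').trans (by linarith)
    · exact (nrm_rv_le _ _ _ _ hp').trans (by linarith)
  by_contra hcon
  push Not at hcon
  have hz2 : nrm (th z - p') ≤ 2 * Real.sqrt n := nrm_sub_cb (cb_th _) hp'
  have hsplit : th z - p' = (th z - p0) + (p0 - p') := by abel
  have hPz : P z := by
    refine ⟨?_, h2, ?_, ?_⟩
    · have e : Xc b c' z - J *ᵥ (th z - p') =
          (Ymap J b z - y) + ((y + J *ᵥ p0 - c') + -(J *ᵥ (p0 - p'))) := by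
        simp only [Xc, Ymap, mulVec_sub]
        abel
      have h4 := nrm_add_le (Ymap J b z - y) ((y + J *ᵥ p0 - c') + -(J *ᵥ (p0 - p')))
      have h5 := nrm_add_le (y + J *ᵥ p0 - c') (-(J *ᵥ (p0 - p')))
      rw [nrm_neg] at h5
      have h6 := nrm_mulVec_le J (p0 - p')
      have h7 : opn J * nrm (p0 - p') ≤ 3 * (m * Real.sqrt n) :=
        mul_le_mul hJ hp (nrm_nonneg _) (by norm_num)
      rw [e]
      nlinarith
    · have h4 := nrm_sub_le (th z - p') (p0 - p')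
      rw [show th z - p' - (p0 - p') = th z - p0 by abel] at h4
      have h5 : (K2 * η - m) * Real.sqrt n ≤ nrm (th z - p') := by nlinarith
      rw [← nrm_sq]
      calc K4 * τ * n ≤ (K2 * η - m) ^ 2 * n := by gcongr
        _ = ((K2 * η - m) * Real.sqrt n) ^ 2 := by rw [mul_pow, Real.sq_sqrt hn'.le]
        _ ≤ _ := pow_le_pow_left₀ (mul_nonneg (by linarith) hs) h5 2
    · have he := SE.avg_DD_mem z
      have hd0 : 0 ≤ (th z - p') ⬝ᵥ (th z - p') / n := div_nonneg (Eig.dot_self_nonneg _) hn'.le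
      have hd1 : (th z - p') ⬝ᵥ (th z - p') / n ≤ 4 := by
        rw [div_le_iff₀ hn']
        exact dot_sub_cb (cb_th _) hp'
      have hγ0 : τ ≤ gam b τ p' z := le_add_of_nonneg_right (mul_nonneg hb.1 hd0)
      have hγ1 : Real.sqrt (gam b τ p' z) ≤ 3 := by
        refine Real.sqrt_le_iff.2 ⟨by norm_num, ?_⟩
        have := mul_le_mul hb.2 hd1 hd0 zero_le_one
        have := hτ.2
        unfold gam
        linarith
      obtain ⟨i, hi⟩ := exists_grid hm he.1 (G := G) (by linarith [he.2])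
      obtain ⟨i', hi'⟩ := exists_grid hm (Real.sqrt_nonneg (gam b τ p' z)) (G := G) (by linarith)
      have h4 := hcon (Sum.inr (i, i'))
      simp only [Sum.elim_inr] at h4
      have h5 := abs_dot_le' hp (nrm_rv_le b (i * m) ((i' * m) ^ 2) c' hp')
      have h6 := abs_dot_le' hz2 (nrm_rv_sub hb (by positivity) hi hi' c' hp')
      set r1 := rv b (avg (DD (th z))) (gam b τ p' z) c' p'
      set r2 := rv b (i * m) ((i' * m) ^ 2) c' p'
      have e : (th z - p') ⬝ᵥ r1 = (th z - p0) ⬝ᵥ r2 + (p0 - p') ⬝ᵥ r2 +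
          (th z - p') ⬝ᵥ (r1 - r2) := by
        rw [← add_dotProduct, ← hsplit, dotProduct_sub]
        ring
      have h7 := abs_add_three ((th z - p0) ⬝ᵥ r2) ((p0 - p') ⬝ᵥ r2) ((th z - p') ⬝ᵥ (r1 - r2))
      rw [e]
      calc _ ≤ 7 * m * n := by linarith
        _ ≤ t / 2 * gam b τ p' z * n := by
          refine mul_le_mul_of_nonneg_right ?_ hn'.le
          nlinarith
  obtain ⟨a, ha, hQ⟩ := hx z hPz
  refine hQ ⟨?_, ?_⟩
  · have h4 := hcon (Sum.inl (a, true))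
    simp only [Sum.elim_inl, if_true] at h4
    have h5 := abs_dot_le' (nrm_sub_cb (cb_th (x a)) hp') hp
    rw [dotProduct_comm] at h4
    rw [hsplit, dotProduct_add]
    have := abs_add_le ((th (x a) - p') ⬝ᵥ (th z - p0)) ((th (x a) - p') ⬝ᵥ (p0 - p'))
    nlinarith
  · have h4 := hcon (Sum.inl (a, false))
    simp only [Sum.elim_inl, Bool.false_eq_true, if_false, if_pos ha] at h4
    have h5 := abs_dot_le' (hX _ ha) hp
    rw [dotProduct_comm] at h4
    rw [hsplit, dotProduct_add]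
    have := abs_add_le (Xc b c' (x a) ⬝ᵥ (th z - p0)) (Xc b c' (x a) ⬝ᵥ (p0 - p'))
    nlinarith

/-- the choice of the mesh and of the chain length -/
lemma params {c0 t s1 κ τ1 Cs B : ℝ} (hc0 : 0 < c0) (ht : 0 < t) (hs0 : 0 < s1) (hκ : 0 < κ)
    (hτ1 : 0 < τ1) (hCs : 0 < Cs) (hB : 0 < B) : ∃ η0 > (0 : ℝ), ∀ η ∈ Ioc (0 : ℝ) η0,
    ∃ (j k : ℕ) (m : ℝ), m = B * (1 / 2) ^ j ∧ 0 < k ∧ η ≤ 1 ∧ (s1 * η) ^ 2 ≤ min 1 τ1 ∧
      4 * m ≤ η ∧ 14 * m ≤ t * (s1 * η) ^ 2 ∧ 32 * j ≤ k * c0 ∧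
      k * (2 * (9 * m) / (s1 * η) ^ 2 + Cs * (s1 * η)) ≤ κ := by
  obtain ⟨u, hu⟩ : ∃ u : ℝ, u = κ / (2 * Cs * s1) := ⟨_, rfl⟩
  have hu0 : 0 < u := by rw [hu]; positivity
  obtain ⟨D, hD⟩ : ∃ D : ℝ, D = min (min (1 / 4) (t * s1 ^ 2 / 14)) (κ * s1 ^ 2 / (36 * u)) :=
    ⟨_, rfl⟩
  have hD0 : 0 < D := by rw [hD]; positivity
  have hD1 : D ≤ 1 / 4 := hD ▸ (min_le_left _ _).trans (min_le_left _ _)
  have hD2 : D ≤ t * s1 ^ 2 / 14 := hD ▸ (min_le_left _ _).trans (min_le_right _ _)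
  have hD3 : D ≤ κ * s1 ^ 2 / (36 * u) := hD ▸ min_le_right _ _
  obtain ⟨η1, hη1, hj⟩ := exists_j (a := u * c0 / 64) (D := D / B) (by positivity) (by positivity)
  refine ⟨min (min η1 (u / 4)) (min 1 (Real.sqrt (min 1 τ1) / s1)), by positivity, fun η hη => ?_⟩
  have h0 := hη.1
  have hηa : η ≤ η1 := hη.2.trans ((min_le_left _ _).trans (min_le_left _ _))
  have hηb : η ≤ u / 4 := hη.2.trans ((min_le_left _ _).trans (min_le_right _ _))
  have hηc : η ≤ 1 := hη.2.trans ((min_le_right _ _).trans (min_le_left _ _))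
  have hηd : (s1 * η) ^ 2 ≤ min 1 τ1 := by
    have h1 : η ≤ Real.sqrt (min 1 τ1) / s1 :=
      hη.2.trans ((min_le_right _ _).trans (min_le_right _ _))
    rw [le_div_iff₀ hs0, mul_comm] at h1
    calc (s1 * η) ^ 2 ≤ Real.sqrt (min 1 τ1) ^ 2 := by gcongr
      _ = _ := Real.sq_sqrt (by positivity)
  obtain ⟨j, hj1, hj2⟩ := hj η ⟨h0, hηa⟩
  obtain ⟨m, hm⟩ : ∃ m : ℝ, m = B * (1 / 2) ^ j := ⟨_, rfl⟩
  have hm0 : 0 < m := by rw [hm]; positivity
  have hmD : m ≤ D * η ^ 3 := by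
    calc m ≤ B * (D / B * η ^ 3) := by rw [hm]; gcongr
      _ = _ := by field_simp
  have hη3 : η ^ 3 ≤ η ^ 2 := pow_le_pow_of_le_one h0.le hηc (by norm_num)
  have hη2 : η ^ 2 ≤ η := by nlinarith
  have hm3 : m ≤ κ * s1 ^ 2 / (36 * u) * η ^ 3 :=
    hmD.trans (mul_le_mul_of_nonneg_right hD3 (by positivity))
  have hk2 : ((⌈32 * j / c0⌉₊ + 1 : ℕ) : ℝ) ≤ u / η := by
    have h1 := (Nat.ceil_lt_add_one (show 0 ≤ 32 * j / c0 by positivity)).le
    have h2 : 32 * j / c0 ≤ u / η / 2 := by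
      calc 32 * j / c0 ≤ 32 * (u * c0 / 64 / η) / c0 := by gcongr
        _ = u / η / 2 := by field_simp; norm_num
    have h3 : 4 ≤ u / η := by
      rw [le_div_iff₀ h0]
      linarith
    push_cast
    linarith
  refine ⟨j, ⌈32 * j / c0⌉₊ + 1, m, hm, Nat.succ_pos _, hηc, hηd, ?_, ?_, ?_, ?_⟩
  · have : D * η ^ 3 ≤ 1 / 4 * η := mul_le_mul hD1 (hη3.trans hη2) (by positivity) (by norm_num)
    linarith
  · have : D * η ^ 3 ≤ t * s1 ^ 2 / 14 * η ^ 2 := mul_le_mul hD2 hη3 (by positivity) (by positivity)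
    have e : t * (s1 * η) ^ 2 = 14 * (t * s1 ^ 2 / 14 * η ^ 2) := by ring
    linarith
  · rw [← div_le_iff₀ hc0]
    have := Nat.le_ceil (32 * j / c0)
    push_cast
    linarith
  · calc _ ≤ u / η *
          (2 * (9 * (κ * s1 ^ 2 / (36 * u) * η ^ 3)) / (s1 * η) ^ 2 + Cs * (s1 * η)) := by gcongr
      _ = κ / 2 + u * (Cs * s1) := by field_simp; ring
      _ = κ := by rw [hu]; field_simp; norm_num

lemma opn_smul_le {β : ℝ} (hβ : β ∈ Ioc (0 : ℝ) 1) {W : Mx n} (h : opn W ≤ 3) :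
    opn (β • W) ≤ 3 := by
  rw [opn_smul, abs_of_pos hβ.1]
  have := opn_nonneg W
  nlinarith [hβ.2]

lemma nrm_c_le {R : ℝ} {J : Mx n} (hJ : opn J ≤ 3) {y p0 : V n} (hy : nrm y ≤ R * Real.sqrt n)
    (hp0 : Cb p0) : nrm (y + J *ᵥ p0) ≤ (|R| + 4) * Real.sqrt n := by
  have hs : 0 ≤ Real.sqrt n := Real.sqrt_nonneg _
  have g1 := nrm_add_le y (J *ᵥ p0)
  have g2 := nrm_mulVec_le J p0
  have g3 : opn J * nrm p0 ≤ 3 * (1 * Real.sqrt n) :=
    mul_le_mul hJ (nrm_le_of_abs zero_le_one hp0) (nrm_nonneg _) (by norm_num)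
  have g4 : R * Real.sqrt n ≤ |R| * Real.sqrt n := mul_le_mul_of_nonneg_right (le_abs_self R) hs
  linarith

lemma far {s1 K4 η m : ℝ} (hs1 : 2 ≤ s1) (hK4 : 0 < K4) (h0 : 0 < η) (hm : 4 * m ≤ η) :
    K4 * (s1 * η) ^ 2 ≤ (2 * s1 * (K4 + 1) * η - m) ^ 2 ∧ m ≤ 2 * s1 * (K4 + 1) * η := by
  have h1 : 1 * η ≤ s1 * (K4 + 1) * η := mul_le_mul_of_nonneg_right (by nlinarith) h0.le
  have h2 : s1 * (K4 + 1) * η ≤ 2 * s1 * (K4 + 1) * η - m := by linarith
  refine ⟨?_, by linarith⟩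
  calc K4 * (s1 * η) ^ 2 ≤ (K4 + 1) ^ 2 * (s1 * η) ^ 2 :=
        mul_le_mul_of_nonneg_right (by nlinarith) (sq_nonneg _)
    _ = (s1 * (K4 + 1) * η) ^ 2 := by ring
    _ ≤ _ := pow_le_pow_left₀ (by linarith) h2 2

theorem ksStmt (hC : ChildStmt) (hM : MultiStmt) (hS : SmearStmt) (hU : U2Stmt) (hD : DetEStmt) :
    KsStmt := by
  intro β hβ k1 hk1 R
  obtain ⟨c0, hc0, t, ht, K4, hK4, s1, hs1, κ, hκ, τ1, hτ1, Cs, hCs, hcore⟩ :=
    core hC hM hS hU hD hβ hk1
  have hs0 : 0 < s1 := by linarith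
  have hB1 : 1 ≤ |R| + 4 := by linarith [abs_nonneg R]
  obtain ⟨η0, hη0, hpar⟩ := params hc0 ht hs0 hκ hτ1 hCs (B := |R| + 4) (by linarith)
  refine ⟨2 * s1 * (K4 + 1), by positivity, η0, hη0, fun η hη => ?_⟩
  obtain ⟨j, k, m, hm, hk, hηc, hηd, hm1, hm2, hjk, hkκ⟩ := hpar η hη
  have h0 := hη.1
  have hm0 : 0 < m := by rw [hm]; positivity
  choose S hS1 hS2 hS3 using fun n => exists_net2 n j hB1
  have hW := hcore η k (9 * m) h0 (hηd.trans (min_le_right _ _)) hk (by positivity)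
    hkκ S hS1 fun n => (hS2 n).trans (Real.exp_le_exp.2 (by
      have := mul_le_mul_of_nonneg_right hjk (Nat.cast_nonneg (α := ℝ) n)
      linarith))
  obtain ⟨G, hG3⟩ : ∃ G : ℕ, 3 ≤ G * m := ⟨⌈3 / m⌉₊, (div_le_iff₀ hm0).1 (Nat.le_ceil _)⟩
  refine ⟨Fintype.card ((Fin k × Bool) ⊕ (Fin (G + 1) × Fin (G + 1))), 8, m, hm0, hW.mono ?_⟩
  filter_upwards [eventually_gt_atTop 0] with n hn
  rintro W ⟨-, h2, h3⟩ y p0 hy hp0
  have hJ := opn_smul_le hβ h2
  obtain ⟨z, hz, hz1, hz2⟩ := hS3 n _ p0 (nrm_c_le hJ hy hp0) hp0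
  rw [← hm] at hz1 hz2
  obtain ⟨r, hr1, hr2⟩ := det_ks hn ⟨sq_nonneg β, pow_le_one₀ hβ.1.le hβ.2⟩ hJ (hS1 n z hz)
    hm0 hηc hm1 ⟨by positivity, hηd.trans (min_le_left _ _)⟩ ht hm2 hG3
    (far hs1 hK4 h0 hm1).1 (far hs1 hK4 h0 hm1).2 hz1 hz2 (h3 z hz)
  refine ⟨fun i => r ((Fintype.equivFin _).symm i), fun i => hr1 _, fun x g1 g2 g3 => ?_⟩
  obtain ⟨i, hi⟩ := hr2 x g1 g2 g3
  exact ⟨Fintype.equivFin _ i, by simp only [Equiv.symm_apply_apply]; exact hi⟩

theorem zStmt (hC : ChildStmt) (hM : MultiStmt) (hS : SmearStmt) (hU : U2Stmt) (hD : DetEStmt) :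
    ZStmt := by
  intro β hβ k1 hk1
  obtain ⟨c0, hc0, t, ht, K4, hK4, s1, hs1, κ, hκ, τ1, hτ1, Cs, hCs, hcore⟩ :=
    core hC hM hS hU hD hβ hk1
  have hs0 : 0 < s1 := by linarith
  set v : ℝ := min (Real.sqrt (min τ1 (k1 / K4))) (κ / (2 * Cs)) with hv
  have hv0 : 0 < v := by positivity
  have hv1 : v ^ 2 ≤ min τ1 (k1 / K4) := by
    calc v ^ 2 ≤ Real.sqrt (min τ1 (k1 / K4)) ^ 2 := by
          gcongr
          exact min_le_left _ _
      _ = _ := Real.sq_sqrt (by positivity)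
  have e : s1 * (v / s1) = v := by field_simp
  have hW := hcore (v / s1) 1 (κ * v ^ 2 / 4) (by positivity)
    (by rw [e]; exact hv1.trans (min_le_left _ _)) one_pos (by positivity) (by
      rw [e]
      have h1 : Cs * v ≤ Cs * (κ / (2 * Cs)) := by
        gcongr
        exact min_le_right _ _
      have h2 : Cs * (κ / (2 * Cs)) = κ / 2 := by field_simp
      have h3 : 2 * (κ * v ^ 2 / 4) / v ^ 2 = κ / 2 := by field_simp; norm_num
      push_cast
      linarith) (fun _ => {(0, 0)}) (fun n z hz => by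
        rw [Finset.mem_singleton.1 hz]
        intro i
        simp) fun n => by
      rw [Finset.card_singleton, Nat.cast_one]
      exact Real.one_le_exp (by positivity)
  rw [e] at hW
  refine ⟨v / s1, by positivity, hW.mono ?_⟩
  filter_upwards [eventually_gt_atTop 0] with n hn
  rintro W ⟨-, -, h3⟩ x hx
  have hn' : (0 : ℝ) < n := Nat.cast_pos.2 hn
  by_contra hcon
  push Not at hcon
  refine h3 (0, 0) (Finset.mem_singleton_self _) ⟨fun _ => x, fun _ => ⟨?_, hcon, ?_, ?_⟩,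
    fun a a' h => absurd h (by rw [Subsingleton.elim a a']; exact lt_irrefl _)⟩
  · have e1 : Xc (β ^ 2) 0 x - (β • W) *ᵥ (th x - 0) = Ymap (β • W) (β ^ 2) x := by
      simp only [Xc, Ymap, sub_zero]
      abel
    rw [e1]
    refine hx.trans ?_
    have : 0 ≤ v / s1 * Real.sqrt n := by positivity
    linarith
  · have e2 : avg (DD (th x)) = 1 - th x ⬝ᵥ th x / n := by
      simp only [avg, DD, dotProduct, Finset.sum_sub_distrib, sq]
      field_simp
      simp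
    have h4 : K4 * v ^ 2 ≤ k1 := by
      have := hv1.trans (min_le_right _ _)
      rw [le_div_iff₀ hK4] at this
      linarith
    have h5 : k1 ≤ th x ⬝ᵥ th x / n := by linarith
    rw [le_div_iff₀ hn'] at h5
    simp only [sub_zero]
    nlinarith
  · have e3 : rv (β ^ 2) (avg (DD (th x))) (gam (β ^ 2) (v ^ 2) 0 x) (0 : V n) 0 = 0 := by
      funext i
      simp [rv, gE_tanh_zero]
    have h4 : 0 ≤ gam (β ^ 2) (v ^ 2) 0 x :=
      add_nonneg (sq_nonneg _) (mul_nonneg (sq_nonneg _) (div_nonneg (Eig.dot_self_nonneg _) hn'.le))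
    simp only
    rw [e3, dotProduct_zero, abs_zero]
    positivity

end Crest.Agent.T157.Lp.K99

namespace Crest.Agent.T157.Lp

/-- **task 602** -/
theorem ksTop : KsTop := fun hC hM hS hU hD =>
  ⟨K99.ksStmt hC hM hS hU hD, K99.zStmt hC hM hS hU hD⟩

end Crest.Agent.T157.Lp
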