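import Crest.Agent.T157.CondC_53

/-!
# Row 157, part E (helper53): Gaussian conditioning, part D — a whole run of adaptive queries

`Alg 𝒳 ι`: causal query rule `v k x r` (data `x`, earlier responses `r j`, `j < k`).
`a.out W x k = W *ᵥ a.v k x (a.out W x)` are the true responses, `a.hist W x K` their truncation;
`a.fA`, `a.fR` the revealed part and the unrevealed projector as functions of the responses;
`a.sout`, `a.shist` the responses simulated from independent Gaussian vectors.

* `IsCond.run`      : after `K` queries the matrix is conditionally GOE;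
* `IsCond.run_law`  : law of the data and responses = law of the simulation;
* `IsCond.run_joint`: joint law with the matrix;
* `Alg.fR_eq`, `Alg.fA_eq`, `Alg.sout_eq` : explicit Gram–Schmidt / Onsager form; rank bounds.
-/

set_option autoImplicit false
set_option linter.unusedSectionVars false

noncomputable section

namespace Crest.Agent.T157.Cond

open MeasureTheory ProbabilityTheory Matrix Finset
open Crest.Agent.T157.E
open scoped ENNReal

/-- resampling one coordinate of a finite product -/
theorem mp_update {τ α : Type*} [Fintype τ] [DecidableEq τ] [MeasurableSpace α] (μ : Measure α)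
    [IsProbabilityMeasure μ] (j : τ) :
    MeasurePreserving (fun p : (τ → α) × α => Function.update p.1 j p.2)
      ((Measure.pi fun _ : τ => μ).prod μ) (Measure.pi fun _ : τ => μ) := by
  have hm : Measurable (fun p : (τ → α) × α => Function.update p.1 j p.2) := measurable_update'
  refine ⟨hm, (Measure.pi_eq fun s hs => ?_).symm⟩
  rw [Measure.map_apply hm (MeasurableSet.univ_pi hs)]
  have : (fun p : (τ → α) × α => Function.update p.1 j p.2) ⁻¹' (Set.univ.pi s) =
      (Set.univ.pi (Function.update s j Set.univ)) ×ˢ (s j) := by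
    ext ⟨g, t⟩
    simp only [Set.mem_preimage, Set.mem_pi, Set.mem_univ, true_implies, Set.mem_prod]
    constructor
    · intro h
      refine ⟨fun i => ?_, by simpa using h j⟩
      by_cases hi : i = j
      · subst hi; simp
      · simpa [Function.update_of_ne hi] using h i
    · rintro ⟨h1, h2⟩ i
      by_cases hi : i = j
      · subst hi; simpa using h2
      · simpa [Function.update_of_ne hi] using h1 i
  rw [this, Measure.prod_prod, Measure.pi_pi]
  rw [← Finset.mul_prod_erase Finset.univ (fun i => μ (s i)) (Finset.mem_univ j),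
    ← Finset.mul_prod_erase Finset.univ (fun i => μ (Function.update s j Set.univ i))
      (Finset.mem_univ j)]
  simp only [Function.update_self, measure_univ, one_mul]
  rw [mul_comm]
  congr 1
  refine Finset.prod_congr rfl fun i hi => ?_
  rw [Function.update_of_ne (Finset.ne_of_mem_erase hi)]

variable {ι : Type*} [Fintype ι] {Ω 𝒳 : Type*} [MeasurableSpace Ω] [MeasurableSpace 𝒳]

/-- `K` independent standard Gaussian vectors -/
abbrev gK (K : ℕ) (ι : Type*) [Fintype ι] : Measure (Fin K → ι → ℝ) :=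
  Measure.pi fun _ : Fin K => gv ι

/-- extension by zero of a finite family of vectors -/
def nz {K : ℕ} {β : Type*} [Zero β] (ξ : Fin K → β) (k : ℕ) : β :=
  if h : k < K then ξ ⟨k, h⟩ else 0




@[fun_prop] lemma _root_.Measurable.t157_nz {K : ℕ} {β : Type*} [Zero β] [MeasurableSpace β]
    {ξ : Ω → Fin K → β} (hξ : Measurable ξ) : Measurable fun ω => nz (ξ ω) := by
  refine measurable_pi_lambda _ fun k => ?_
  unfold nz
  split_ifs
  · exact (measurable_pi_apply _).comp hξ
  · exact measurable_const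

/-- a causal query rule -/
structure Alg (𝒳 ι : Type*) [MeasurableSpace 𝒳] where
  /-- the `k`-th query, given the data and the responses -/
  v : ℕ → 𝒳 → (ℕ → ι → ℝ) → ι → ℝ
  meas : ∀ k, Measurable fun p : 𝒳 × (ℕ → ι → ℝ) => v k p.1 p.2
  causal : ∀ k x r r', (∀ j < k, r j = r' j) → v k x r = v k x r'

namespace Alg

variable (a : Alg 𝒳 ι)

@[fun_prop] lemma measurable_v (k : ℕ) {X : Ω → 𝒳} {r : Ω → ℕ → ι → ℝ} (hX : Measurable X)
    (hr : Measurable r) : Measurable fun ω => a.v k (X ω) (r ω) :=
  (a.meas k).comp (hX.prodMk hr)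

/-- the first `k` true responses (zero afterwards) -/
def hist (W : Matrix ι ι ℝ) (x : 𝒳) : ℕ → ℕ → ι → ℝ
  | 0 => 0
  | k + 1 => Function.update (hist W x k) k (W *ᵥ a.v k x (hist W x k))

/-- the true responses -/
def out (W : Matrix ι ι ℝ) (x : 𝒳) (k : ℕ) : ι → ℝ := a.hist W x (k + 1) k






@[fun_prop] lemma measurable_hist (k : ℕ) {W : Ω → Matrix ι ι ℝ} {X : Ω → 𝒳} (hW : Measurable W)
    (hX : Measurable X) : Measurable fun ω => a.hist (W ω) (X ω) k := by
  induction k with
  | zero => exact measurable_const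
  | succ k ih =>
    exact measurable_update'.comp (ih.prodMk (hW.t157_mulVec (a.measurable_v k hX ih)))

@[fun_prop] lemma measurable_out {W : Ω → Matrix ι ι ℝ} {X : Ω → 𝒳} (hW : Measurable W)
    (hX : Measurable X) : Measurable fun ω => a.out (W ω) (X ω) :=
  measurable_pi_lambda _ fun k => (measurable_pi_apply k).comp (a.measurable_hist (k + 1) hW hX)

variable (A₀ R₀ : 𝒳 → Matrix ι ι ℝ)

/-- unrevealed projector after `k` queries -/
def fR (x : 𝒳) (r : ℕ → ι → ℝ) : ℕ → Matrix ι ι ℝ
  | 0 => R₀ x
  | k + 1 => nextR (fR x r k) (a.v k x r)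

/-- revealed part after `k` queries -/
def fA (x : 𝒳) (r : ℕ → ι → ℝ) : ℕ → Matrix ι ι ℝ
  | 0 => A₀ x
  | k + 1 => nextA (fA x r k) (a.fR R₀ x r k) (a.v k x r) (r k)

/-- `k`-th Gram–Schmidt direction -/
def e (x : 𝒳) (r : ℕ → ι → ℝ) (k : ℕ) : ι → ℝ := dirv (a.fR R₀ x r k) (a.v k x r)

lemma fR_causal (x : 𝒳) {r r' : ℕ → ι → ℝ} {k : ℕ} (h : ∀ j, j + 1 < k → r j = r' j) :
    a.fR R₀ x r k = a.fR R₀ x r' k := by
  induction k with
  | zero => rfl
  | succ k ih =>
    rw [fR, fR, ih fun j hj => h j (by omega), a.causal k x r r' fun j hj => h j (by omega)]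

lemma fA_causal (x : 𝒳) {r r' : ℕ → ι → ℝ} {k : ℕ} (h : ∀ j < k, r j = r' j) :
    a.fA A₀ R₀ x r k = a.fA A₀ R₀ x r' k := by
  induction k with
  | zero => rfl
  | succ k ih =>
    rw [fA, fA, ih fun j hj => h j (by omega), a.causal k x r r' fun j hj => h j (by omega),
      a.fR_causal R₀ x (r := r) (r' := r') fun j hj => h j (by omega), h k (by omega)]


variable {A₀ R₀}

@[fun_prop] lemma measurable_fR (hR : Measurable R₀) (k : ℕ) {X : Ω → 𝒳} {r : Ω → ℕ → ι → ℝ}
    (hX : Measurable X) (hr : Measurable r) : Measurable fun ω => a.fR R₀ (X ω) (r ω) k := by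
  induction k with
  | zero => exact hR.comp hX
  | succ k ih => exact ih.t157_nextR (a.measurable_v k hX hr)

@[fun_prop] lemma measurable_fA (hA : Measurable A₀) (hR : Measurable R₀) (k : ℕ) {X : Ω → 𝒳}
    {r : Ω → ℕ → ι → ℝ} (hX : Measurable X) (hr : Measurable r) :
    Measurable fun ω => a.fA A₀ R₀ (X ω) (r ω) k := by
  induction k with
  | zero => exact hA.comp hX
  | succ k ih =>
    exact ih.t157_nextA (a.measurable_fR hR k hX hr) (a.measurable_v k hX hr)
      ((measurable_pi_apply k).comp hr)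

@[fun_prop] lemma measurable_e (hR : Measurable R₀) (k : ℕ) {X : Ω → 𝒳} {r : Ω → ℕ → ι → ℝ}
    (hX : Measurable X) (hr : Measurable r) : Measurable fun ω => a.e R₀ (X ω) (r ω) k :=
  (a.measurable_fR hR k hX hr).t157_dirv (a.measurable_v k hX hr)

section frame
variable {x : 𝒳} (hp : IsProj (R₀ x)) (r : ℕ → ι → ℝ)
include hp

lemma fR_proj (k : ℕ) : IsProj (a.fR R₀ x r k) := by
  induction k with
  | zero => exact hp
  | succ k ih => exact ih.nextR _

















end frame

variable (A₀ R₀)

/-- simulated responses: the first `k` of them -/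
def shist (s : ℝ) (x : 𝒳) (ξ : ℕ → ι → ℝ) : ℕ → ℕ → ι → ℝ
  | 0 => 0
  | k + 1 => Function.update (shist s x ξ k) k
      (resp s (a.fA A₀ R₀ x (shist s x ξ k) k) (a.fR R₀ x (shist s x ξ k) k)
        (a.v k x (shist s x ξ k)) (ξ k))

/-- simulated responses -/
def sout (s : ℝ) (x : 𝒳) (ξ : ℕ → ι → ℝ) (k : ℕ) : ι → ℝ := a.shist A₀ R₀ s x ξ (k + 1) k







variable {A₀ R₀}

@[fun_prop] lemma measurable_shist (hA : Measurable A₀) (hR : Measurable R₀) (s : ℝ) (k : ℕ)
    {X : Ω → 𝒳} {ξ : Ω → ℕ → ι → ℝ} (hX : Measurable X) (hξ : Measurable ξ) :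
    Measurable fun ω => a.shist A₀ R₀ s (X ω) (ξ ω) k := by
  induction k with
  | zero => exact measurable_const
  | succ k ih =>
    exact measurable_update'.comp (ih.prodMk ((a.measurable_fA hA hR k hX ih).t157_resp s
      (a.measurable_fR hR k hX ih) (a.measurable_v k hX ih) ((measurable_pi_apply k).comp hξ)))

@[fun_prop] lemma measurable_sout (hA : Measurable A₀) (hR : Measurable R₀) (s : ℝ)
    {X : Ω → 𝒳} {ξ : Ω → ℕ → ι → ℝ} (hX : Measurable X) (hξ : Measurable ξ) :
    Measurable fun ω => a.sout A₀ R₀ s (X ω) (ξ ω) :=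
  measurable_pi_lambda _ fun k =>
    (measurable_pi_apply k).comp (a.measurable_shist hA hR s (k + 1) hX hξ)

end Alg

variable {s : ℝ} {P : Measure Ω} [IsProbabilityMeasure P] {X : Ω → 𝒳} {W : Ω → Matrix ι ι ℝ}
  {A R : 𝒳 → Matrix ι ι ℝ}

/-- **after `k` adaptive queries the matrix is conditionally GOE** -/
theorem IsCond.run (h : IsCond s P X W A R) (a : Alg 𝒳 ι) (k : ℕ) :
    IsCond s P (fun ω => (X ω, a.hist (W ω) (X ω) k)) W (fun y => a.fA A R y.1 y.2 k)
      fun y => a.fR R y.1 y.2 k := by
  have hA := h.mA; have hR := h.mR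
  induction k with
  | zero => exact h.extend (g := fun _ => (0 : ℕ → ι → ℝ)) measurable_const
  | succ k ih =>
    have hq := ih.query (v := fun y => a.v k y.1 y.2) (a.meas k)
    refine hq.relabel (f := fun z : (𝒳 × (ℕ → ι → ℝ)) × (ι → ℝ) =>
      (z.1.1, Function.update z.1.2 k z.2))
      (measurable_fst.fst.prodMk (measurable_update'.comp (measurable_fst.snd.prodMk measurable_snd)))
      (a.measurable_fA hA hR _ measurable_fst measurable_snd)
      (a.measurable_fR hR _ measurable_fst measurable_snd)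
      (fun y => a.fR_proj (h.proj y.1) _ _) (fun z => ?_) fun z => ?_
    · have hc : ∀ j < k, Function.update z.1.2 k z.2 j = z.1.2 j :=
        fun j hj => Function.update_of_ne hj.ne _ _
      simp only [Alg.fA, Function.update_self]
      rw [a.fA_causal A R _ hc, a.causal k _ _ _ hc,
        a.fR_causal R _ (r' := z.1.2) fun j hj => hc j (by omega)]
    · have hc : ∀ j < k, Function.update z.1.2 k z.2 j = z.1.2 j :=
        fun j hj => Function.update_of_ne hj.ne _ _
      simp only [Alg.fR]
      rw [a.causal k _ _ _ hc, a.fR_causal R _ (r' := z.1.2) fun j hj => hc j (by omega)]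



end Crest.Agent.T157.Cond

end
private theorem rz_abf7450121 : type_of% @_root_.Crest.Agent.T157.Cond.Alg.fA.eq_def := @_root_.Crest.Agent.T157.Cond.Alg.fA.eq_def -- L165
private theorem rz_8049597312 : type_of% @_root_.Crest.Agent.T157.Cond.Alg.fA.eq_1 := @_root_.Crest.Agent.T157.Cond.Alg.fA.eq_1 -- L165
private theorem rz_5e9da55edb : type_of% @_root_.Crest.Agent.T157.Cond.Alg.fR.eq_def := @_root_.Crest.Agent.T157.Cond.Alg.fR.eq_def -- L160
private theorem rz_277ba40046 : type_of% @_root_.Crest.Agent.T157.Cond.Alg.fR.eq_1 := @_root_.Crest.Agent.T157.Cond.Alg.fR.eq_1 -- L160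
private theorem rz_265a54e9dd : type_of% @_root_.Crest.Agent.T157.Cond.Alg.hist.eq_def := @_root_.Crest.Agent.T157.Cond.Alg.hist.eq_def -- L108
private theorem rz_9ba5e847df : type_of% @_root_.Crest.Agent.T157.Cond.Alg.hist.eq_1 := @_root_.Crest.Agent.T157.Cond.Alg.hist.eq_1 -- L108
private theorem rz_2a7a3cd6e3 : type_of% @_root_.Crest.Agent.T157.Cond.Alg.shist.eq_def := @_root_.Crest.Agent.T157.Cond.Alg.shist.eq_def -- L311
private theorem rz_9545ac7958 : type_of% @_root_.Crest.Agent.T157.Cond.Alg.shist.eq_1 := @_root_.Crest.Agent.T157.Cond.Alg.shist.eq_1 -- L311
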