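import Crest.Agent.T157.TapUfD_14
import Crest.Agent.T157.ConcM_16
import Crest.Agent.T157.TapDef_29
import Crest.Agent.T157.ConcH_16

-- ▼ part T157/TapUfB_14
section

/-!
# Row 157, part A: uniform freeness, the chaining (helper14)

`Tap.ufStmt_of : UFfixP → UFStmt`.  Also `Uf14.vc` (vector concentration on a good set),
`Uf14.sf_pos` (positivity of `N` for a fixed diagonal), `Uf14.chain`.
-/

set_option autoImplicit false

noncomputable section

namespace Crest.Agent.T157.Tap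

open MeasureTheory ProbabilityTheory Matrix Filter Set Topology
open Crest.Agent.T157.E Crest.Agent.T157.Eig Crest.Agent.T157.Cond
open Crest.Agent.T157.Kr (fro fro_nonneg)

namespace Uf14

variable {n : ℕ}

lemma continuous_fro : Continuous (fro : Mx n → ℝ) := by
  unfold fro
  fun_prop

/-- vector concentration on a set where the vector function is Lipschitz -/
theorem vc {s L : ℝ} (hs : 0 < s) (hL : 0 < L) (hn : 0 < n) (A : Set (Mx n)) (F : Mx n → V n)
    (hF : ∀ W ∈ A, ∀ W' ∈ A, nrm (F W - F W') ≤ L * fro (W - W'))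
    (hA : (goe (Fin n) s).real Aᶜ ≤ 1 / 4) :
    ∃ m : V n, ∀ t, 0 ≤ t → (goe (Fin n) s).real
      {W | W ∈ A ∧ √2 * s * L * (2 * √n + 2 + t) < nrm (F W - m)} ≤ Real.exp (-t ^ 2 / 2) := by
  have hn' : (0 : ℝ) < n := by exact_mod_cast hn
  set L' := √2 * s * L with hL'
  have hL0 : 0 < L' := by positivity
  have hfro : ∀ x y : Fin n × Fin n → ℝ, fro (symG s x - symG s y) ≤ √2 * s * Conc.en (x - y) := by
    intro x y
    have := Kr.fro_symG_le s x y
    rwa [abs_of_pos hs] at this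
  have hlip : ∀ i, Conc.ELipOn L' (fun x => F (symG s x) i) (symG s ⁻¹' A) := by
    intro i x hx y hy
    refine (abs_apply_le_nrm (F (symG s x) - F (symG s y)) i).trans ((hF _ hx _ hy).trans ?_)
    calc L * fro (symG s x - symG s y) ≤ L * (√2 * s * Conc.en (x - y)) :=
          mul_le_mul_of_nonneg_left (hfro x y) hL.le
      _ = _ := by rw [hL']; ring
  choose G hG hGF using fun i => (hlip i).exists_ext hL0.le
  set m : V n := fun i => ∫ y, G i y ∂gv (Fin n × Fin n) with hm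
  set Q : (Fin n × Fin n → ℝ) → ℝ := fun x => ∑ i, (G i x - m i) ^ 2 with hQ
  have hQi : ∀ i, Integrable (fun x => (G i x - m i) ^ 2) (gv (Fin n × Fin n)) := fun i =>
    Conc.subG_integrable_sq (Conc.subG_lip (hG i))
  have hQI : ∫ x, Q x ∂gv (Fin n × Fin n) ≤ n * L' ^ 2 := by
    rw [hQ, integral_finsetSum _ fun i _ => hQi i]
    have := Finset.sum_le_card_nsmul Finset.univ
      (fun i => ∫ x, (G i x - m i) ^ 2 ∂gv (Fin n × Fin n)) (L' ^ 2) fun i _ => Conc.var_lip (hG i)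
    simpa using this
  have hM := mul_meas_ge_le_integral_of_nonneg (μ := gv (Fin n × Fin n)) (f := Q)
    (Eventually.of_forall fun x => by rw [hQ]; positivity)
    (integrable_finsetSum _ fun i _ => hQi i) (4 * (n * L' ^ 2))
  have hM' : (gv (Fin n × Fin n)).real {x | 4 * (n * L' ^ 2) ≤ Q x} ≤ 1 / 4 := by
    refine le_of_mul_le_mul_left (a := 4 * (n * L' ^ 2)) ?_ (by positivity)
    linarith
  set A' : Set (Fin n × Fin n → ℝ) := {x | symG s x ∈ A ∧ Q x < 4 * (n * L' ^ 2)} with hA'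
  have hAc : (gv (Fin n × Fin n)).real (symG s ⁻¹' Aᶜ) ≤ 1 / 4 := by
    refine le_trans ?_ hA
    exact ENNReal.toReal_mono (measure_ne_top _ _)
      (Measure.le_map_apply (measurable_symG s).aemeasurable _)
  have hhalf : Real.exp (-(2 : ℝ) ^ 2 / 2) < (gv (Fin n × Fin n)).real A' := by
    have h1 : (1 : ℝ) ≤ (gv (Fin n × Fin n)).real A' + ((gv (Fin n × Fin n)).real (symG s ⁻¹' Aᶜ) +
        (gv (Fin n × Fin n)).real {x | 4 * (n * L' ^ 2) ≤ Q x}) := by
      calc (1 : ℝ) = (gv (Fin n × Fin n)).real univ := probReal_univ.symm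
        _ ≤ (gv (Fin n × Fin n)).real (A' ∪ (symG s ⁻¹' Aᶜ ∪ {x | 4 * (n * L' ^ 2) ≤ Q x})) := by
          refine measureReal_mono fun x _ => ?_
          by_cases h1 : symG s x ∈ A
          · by_cases h2 : Q x < 4 * (n * L' ^ 2)
            · exact Or.inl ⟨h1, h2⟩
            · exact Or.inr (Or.inr (not_lt.1 h2))
          · exact Or.inr (Or.inl h1)
        _ ≤ _ := (measureReal_union_le _ _).trans (add_le_add le_rfl (measureReal_union_le _ _))
    have h2 : Real.exp (-(2 : ℝ) ^ 2 / 2) < 1 / 2 := by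
      rw [show -(2 : ℝ) ^ 2 / 2 = -2 by norm_num, Real.exp_neg, ← one_div,
        one_div_lt_one_div (Real.exp_pos _) (by norm_num)]
      linarith [Real.add_one_le_exp 2]
    linarith
  refine ⟨m, fun t ht => ?_⟩
  set B : Set (Mx n) := {W | ∀ a ∈ A', √2 * s * (2 + t) ≤ fro (W - symG s a)} with hB
  have hBc : IsClosed B := by
    have : B = ⋂ a ∈ A', {W | √2 * s * (2 + t) ≤ fro (W - symG s a)} := by
      ext W; simp [hB]
    rw [this]
    exact isClosed_biInter fun a _ => isClosed_le continuous_const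
      (continuous_fro.comp (continuous_id.sub continuous_const))
  refine le_trans (measureReal_mono (s₂ := B) fun W hW a ha => ?_) ?_
  · by_contra hlt
    push Not at hlt
    have h1 := hF W hW.1 _ ha.1
    have h2 : nrm (F (symG s a) - m) ≤ 2 * √n * L' := by
      rw [nrm_le_iff (by positivity), mul_pow, mul_pow, Real.sq_sqrt hn'.le]
      have h3 : (F (symG s a) - m) ⬝ᵥ (F (symG s a) - m) = Q a := by
        simp only [hQ, dotProduct, Pi.sub_apply, ← sq]
        exact Finset.sum_congr rfl fun i _ => by rw [hGF i a ha.1]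
      rw [h3]
      linarith [ha.2]
    have h3 := nrm_add_le (F W - F (symG s a)) (F (symG s a) - m)
    rw [sub_add_sub_cancel] at h3
    have h4 := mul_le_mul_of_nonneg_left hlt.le hL.le
    have h5 := hW.2
    have e : L' * (2 * √n + 2 + t) = L * (√2 * s * (2 + t)) + 2 * √n * L' := by rw [hL']; ring
    linarith
  · rw [goe, map_measureReal_apply (measurable_symG s) hBc.measurableSet]
    refine le_trans (measureReal_mono fun x hx => ?_) (Conc.enlarge A' zero_le_two ht hhalf)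
    exact fun a ha => le_of_mul_le_mul_left ((hx a ha).trans (hfro x a)) (by positivity)

/-- one level of the chaining -/
theorem level {α : Type} (hn : 0 < n) (P : Finset α) (A : α → Set (Mx n)) (F : α → Mx n → V n)
    {L τ : ℝ} (hL : 0 < L) (hτ : 0 ≤ τ)
    (hF : ∀ p ∈ P, ∀ W ∈ A p, ∀ W' ∈ A p, nrm (F p W - F p W') ≤ L * fro (W - W'))
    (hA : ∀ p ∈ P, (GOE n).real (A p)ᶜ ≤ 1 / 4) :
    ∃ B : Set (Mx n), (GOE n).real B ≤ P.card * Real.exp (-(τ ^ 2 / 2 * n)) ∧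
      ∀ W, W ∉ B → ∀ W', W' ∉ B → ∀ p ∈ P, W ∈ A p → W' ∈ A p →
        nrm (F p W - F p W') ≤ 3 * L * (4 + τ) := by
  have hn' : (1 : ℝ) ≤ n := by exact_mod_cast hn
  have hr : 1 ≤ √(n : ℝ) := Real.one_le_sqrt.2 hn'
  have h : ∀ p : α, ∃ m : V n, p ∈ P → (GOE n).real {W | W ∈ A p ∧
      √2 * (1 / √n) * L * (2 * √n + 2 + τ * √n) < nrm (F p W - m)} ≤
      Real.exp (-(τ * √n) ^ 2 / 2) := by
    intro p
    by_cases hp : p ∈ P
    · obtain ⟨m, hm⟩ := vc (s := 1 / √n) (by positivity) hL hn (A p) (F p) (hF p hp) (hA p hp)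
      exact ⟨m, fun _ => hm _ (by positivity)⟩
    · exact ⟨0, fun h => absurd h hp⟩
  choose m hm using h
  refine ⟨⋃ p ∈ P, {W | W ∈ A p ∧
    √2 * (1 / √n) * L * (2 * √n + 2 + τ * √n) < nrm (F p W - m p)}, ?_, ?_⟩
  · refine (measureReal_biUnion_finset_le _ _).trans ?_
    have := Finset.sum_le_card_nsmul P _ _ hm
    rw [nsmul_eq_mul, mul_pow, Real.sq_sqrt (by positivity)] at this
    refine this.trans_eq ?_
    congr 2
    ring
  · intro W hW W' hW' p hp h1 h2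
    have key : ∀ X, X ∉ (⋃ p ∈ P, {W | W ∈ A p ∧
        √2 * (1 / √n) * L * (2 * √n + 2 + τ * √n) < nrm (F p W - m p)}) → X ∈ A p →
        nrm (F p X - m p) ≤ 3 / 2 * L * (4 + τ) := by
      intro X hX hXA
      have h3 : nrm (F p X - m p) ≤ √2 * (1 / √n) * L * (2 * √n + 2 + τ * √n) := by
        by_contra h4
        exact hX (mem_biUnion hp ⟨hXA, not_le.1 h4⟩)
      refine h3.trans ?_
      have h5 : √2 ≤ 3 / 2 := Real.sqrt_le_iff.2 ⟨by norm_num, by norm_num⟩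
      have h6 : 1 / √n * (2 * √n + 2 + τ * √n) ≤ 4 + τ := by
        rw [one_div, inv_mul_le_iff₀ (by positivity)]
        linarith
      calc √2 * (1 / √n) * L * (2 * √n + 2 + τ * √n)
          = √2 * L * (1 / √n * (2 * √n + 2 + τ * √n)) := by ring
        _ ≤ 3 / 2 * L * (4 + τ) := by gcongr
    have h3 := nrm_sub_le (F p W - m p) (F p W' - m p)
    rw [sub_sub_sub_cancel_right] at h3
    linarith [key W hW h1, key W' hW' h2]

/-! ### dyadic rounding -/

/-- rounding down -/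
def rd (k : ℕ) (d : V n) : V n := fun i => (⌊2 ^ k * d i⌋₊ : ℝ) / 2 ^ k

/-- the dyadic grid -/
def Gr (n k : ℕ) : Finset (V n) :=
  Fintype.piFinset fun _ => (Finset.range (2 ^ k + 1)).image fun j : ℕ => (j : ℝ) / 2 ^ k

lemma card_Gr (k : ℕ) : ((Gr n k).card : ℝ) ≤ Real.exp ((k + 1) * n) := by
  have h1 : (Gr n k).card ≤ (2 ^ (k + 1)) ^ n := by
    unfold Gr
    rw [Fintype.card_piFinset, Finset.prod_const, Finset.card_univ, Fintype.card_fin]
    refine Nat.pow_le_pow_left (Finset.card_image_le.trans ?_) n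
    rw [Finset.card_range, pow_succ]
    have := Nat.one_le_two_pow (n := k)
    omega
  have h2 : (2 : ℝ) ≤ Real.exp 1 := by linarith [Real.add_one_le_exp 1]
  calc ((Gr n k).card : ℝ) ≤ ((2 : ℝ) ^ (k + 1)) ^ n := by exact_mod_cast h1
    _ ≤ (Real.exp 1 ^ (k + 1)) ^ n := by gcongr
    _ = _ := by
      rw [← pow_mul, ← Real.exp_nat_mul]
      congr 1
      push_cast
      ring

lemma rd_nonneg (k : ℕ) (d : V n) (i : Fin n) : 0 ≤ rd k d i := by unfold rd; positivity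

lemma rd_le (k : ℕ) {d : V n} (hd : Ub d) (i : Fin n) : rd k d i ≤ d i := by
  unfold rd
  rw [div_le_iff₀ (by positivity), mul_comm (d i)]
  exact Nat.floor_le (mul_nonneg (by positivity) (hd i).1)

lemma le_rd (k : ℕ) (d : V n) (i : Fin n) : d i - (1 / 2) ^ k ≤ rd k d i := by
  unfold rd
  rw [le_div_iff₀ (by positivity), sub_mul, ← mul_pow]
  have := Nat.lt_floor_add_one (2 ^ k * d i)
  norm_num
  linarith

lemma rd_ub (k : ℕ) {d : V n} (hd : Ub d) : Ub (rd k d) := fun i =>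
  ⟨rd_nonneg k d i, (rd_le k hd i).trans (hd i).2⟩

lemma rd_mem (k : ℕ) {d : V n} (hd : Ub d) : rd k d ∈ Gr n k := by
  unfold Gr
  rw [Fintype.mem_piFinset]
  intro i
  refine Finset.mem_image.2 ⟨⌊2 ^ k * d i⌋₊, Finset.mem_range.2 (Nat.lt_succ_of_le ?_), rfl⟩
  refine Nat.floor_le_of_le ?_
  push_cast
  exact mul_le_of_le_one_right (by positivity) (hd i).2

lemma rd_avg (k : ℕ) {d : V n} (hd : Ub d) :
    avg (fun i => rd k d i ^ 2) ≤ avg fun i => d i ^ 2 := by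
  unfold avg
  refine div_le_div_of_nonneg_right (Finset.sum_le_sum fun i _ => ?_) (Nat.cast_nonneg n)
  exact pow_le_pow_left₀ (rd_nonneg k d i) (rd_le k hd i) 2

lemma rd_close (k : ℕ) {d : V n} (hd : Ub d) (i : Fin n) : |d i - rd k d i| ≤ (1 / 2) ^ k := by
  rw [abs_of_nonneg (sub_nonneg.2 (rd_le k hd i))]
  linarith [le_rd k d i]

lemma half_pow_le {a b : ℕ} (h : a ≤ b) : ((1 : ℝ) / 2) ^ b ≤ (1 / 2) ^ a :=
  pow_le_pow_of_le_one (by norm_num) (by norm_num) h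

lemma rd_close' (k : ℕ) {d : V n} (hd : Ub d) (i : Fin n) :
    |rd (k + 1) d i - rd k d i| ≤ (1 / 2) ^ k := by
  have h1 : ((1 : ℝ) / 2) ^ (k + 1) ≤ (1 / 2) ^ k := half_pow_le (Nat.le_succ k)
  rw [abs_le]
  constructor <;> linarith [le_rd k d i, le_rd (k + 1) d i, rd_le k hd i, rd_le (k + 1) hd i]

/-- **the chaining** -/
theorem chain {Φ : ∀ n, Mx n → V n → V n} {c c1 : ℝ} (hc1 : 0 < c1) (hΦ : Dif (G1 (c1 / 2)) Φ) :
    ∃ C : ℝ, ∀ n : ℕ, 0 < n → (∀ d : V n, Ub d → avg (fun i => d i ^ 2) ≤ 1 - c →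
      (GOE n).real {W | ¬ G1 (c1 / 2) n W d} ≤ 1 / 8) →
      ∃ B : Set (Mx n), (GOE n).real B ≤ (n + 1) * Real.exp (-n) ∧
        ∀ W, W ∉ B → ∀ W', W' ∉ B → ∀ d : V n, avg (fun i => d i ^ 2) ≤ 1 - c →
          G1 c1 n W d → G1 c1 n W' d → nrm (Φ n W d - Φ n W' d) ≤ C := by
  classical
  obtain ⟨K0, hK0, hΦ⟩ := hΦ
  obtain ⟨k0, hk0⟩ := g1_stable hc1
  set K := K0 + 1 with hK
  have hKp : 0 < K := by positivity
  refine ⟨3 * K * (k0 + 7) + 3 * K * (2 * k0 + 16) + 6 * K, fun n hn hp => ?_⟩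
  have hn0 : (0 : ℝ) ≤ n := Nat.cast_nonneg n
  set T : V n → Prop := fun d => Ub d ∧ avg (fun i => d i ^ 2) ≤ 1 - c with hT
  obtain ⟨B0, hB0, hB0'⟩ := level hn ((Gr n k0).filter T) (fun d => {W | G1 (c1 / 2) n W d})
    (fun d W => Φ n W d) hKp (τ := k0 + 3) (by positivity)
    (fun d _ W hW W' hW' => ((hΦ n W W').1 d hW hW').trans
      (mul_le_mul_of_nonneg_right (by linarith) (fro_nonneg _)))
    (fun d hd => (hp d (Finset.mem_filter.1 hd).2.1 (Finset.mem_filter.1 hd).2.2).trans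
      (by norm_num))
  have hlev : ∀ k : ℕ, ∃ B : Set (Mx n), (GOE n).real B ≤ Real.exp (-n) ∧
      ∀ W, W ∉ B → ∀ W', W' ∉ B → ∀ d : V n, T d → G1 (c1 / 2) n W (rd (k + 1) d) →
        G1 (c1 / 2) n W (rd k d) → G1 (c1 / 2) n W' (rd (k + 1) d) → G1 (c1 / 2) n W' (rd k d) →
        nrm (Φ n W (rd (k + 1) d) - Φ n W (rd k d) - (Φ n W' (rd (k + 1) d) - Φ n W' (rd k d))) ≤
          3 * (K * (1 / 2) ^ k) * (k + 7) := by
    intro k
    obtain ⟨B, hB, hB'⟩ := level hn ((Gr n (k + 1) ×ˢ Gr n k).filter fun p =>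
        T p.1 ∧ T p.2 ∧ ∀ i, |p.1 i - p.2 i| ≤ (1 / 2) ^ k)
      (fun p => {W | G1 (c1 / 2) n W p.1 ∧ G1 (c1 / 2) n W p.2})
      (fun p W => Φ n W p.1 - Φ n W p.2) (L := K * (1 / 2) ^ k) (by positivity) (τ := k + 3)
      (by positivity)
      (fun p hp' W hW W' hW' => ((hΦ n W W').2 p.1 p.2 _ (by positivity) hW.1 hW.2 hW'.1 hW'.2
        (Finset.mem_filter.1 hp').2.2.2).trans (mul_le_mul_of_nonneg_right
          (mul_le_mul_of_nonneg_right (by linarith) (by positivity)) (fro_nonneg _)))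
      (fun p hp' => by
        obtain ⟨-, h1, h2, -⟩ := Finset.mem_filter.1 hp'
        have e : {W | G1 (c1 / 2) n W p.1 ∧ G1 (c1 / 2) n W p.2}ᶜ =
            {W | ¬ G1 (c1 / 2) n W p.1} ∪ {W | ¬ G1 (c1 / 2) n W p.2} := by
          ext W; simp only [mem_compl_iff, mem_ofPred_eq, mem_union, not_and_or]
        rw [e]
        linarith [measureReal_union_le (μ := GOE n) {W | ¬ G1 (c1 / 2) n W p.1}
          {W | ¬ G1 (c1 / 2) n W p.2}, hp _ h1.1 h1.2, hp _ h2.1 h2.2])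
    refine ⟨B, hB.trans ?_, fun W hW W' hW' d hd h1 h2 h3 h4 => ?_⟩
    · have h1 : ((((Gr n (k + 1) ×ˢ Gr n k).filter fun p =>
          T p.1 ∧ T p.2 ∧ ∀ i, |p.1 i - p.2 i| ≤ (1 / 2) ^ k).card : ℕ) : ℝ) ≤
          Real.exp (((k + 1 : ℕ) + 1) * n) * Real.exp ((k + 1) * n) := by
        refine le_trans ?_ (mul_le_mul (card_Gr (k + 1)) (card_Gr k) (Nat.cast_nonneg _)
          (Real.exp_pos _).le)
        rw [← Nat.cast_mul, ← Finset.card_product]
        exact_mod_cast Finset.card_filter_le _ _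
      refine (mul_le_mul_of_nonneg_right h1 (Real.exp_pos _).le).trans ?_
      rw [← Real.exp_add, ← Real.exp_add, Real.exp_le_exp]
      push_cast
      have hk : (0 : ℝ) ≤ k := Nat.cast_nonneg k
      nlinarith [mul_nonneg hk hn0, mul_nonneg (mul_nonneg hk hk) hn0]
    · have := hB' W hW W' hW' (rd (k + 1) d, rd k d) (Finset.mem_filter.2
        ⟨Finset.mem_product.2 ⟨rd_mem _ hd.1, rd_mem _ hd.1⟩,
          ⟨rd_ub _ hd.1, (rd_avg _ hd.1).trans hd.2⟩, ⟨rd_ub _ hd.1, (rd_avg _ hd.1).trans hd.2⟩,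
          rd_close' k hd.1⟩) ⟨h1, h2⟩ ⟨h3, h4⟩
      refine this.trans_eq ?_
      ring
  choose B hB hB' using hlev
  refine ⟨B0 ∪ ⋃ j ∈ Finset.range n, B (k0 + j), ?_, fun W hW W' hW' d hd h1 h2 => ?_⟩
  · have h1 : (GOE n).real B0 ≤ Real.exp (-n) := by
      have h1 : ((((Gr n k0).filter T).card : ℕ) : ℝ) ≤ Real.exp ((k0 + 1) * n) :=
        le_trans (by exact_mod_cast Finset.card_filter_le _ _) (card_Gr k0)
      refine hB0.trans ((mul_le_mul_of_nonneg_right h1 (Real.exp_pos _).le).trans ?_)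
      rw [← Real.exp_add, Real.exp_le_exp]
      have hk : (0 : ℝ) ≤ k0 := Nat.cast_nonneg k0
      nlinarith [mul_nonneg hk hn0, mul_nonneg (mul_nonneg hk hk) hn0]
    have h2 := Finset.sum_le_card_nsmul (Finset.range n) (fun j => (GOE n).real (B (k0 + j))) _
      fun j _ => hB (k0 + j)
    rw [Finset.card_range, nsmul_eq_mul] at h2
    have h3 := measureReal_biUnion_finset_le (μ := GOE n) (Finset.range n) fun j => B (k0 + j)
    linarith [measureReal_union_le (μ := GOE n) B0 (⋃ j ∈ Finset.range n, B (k0 + j))]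
  · have hdU : Ub d := h1.2.1
    have hTd : T d := ⟨hdU, hd⟩
    have hg : ∀ X, G1 c1 n X d → ∀ j, G1 (c1 / 2) n X (rd (k0 + j) d) := fun X hX j =>
      hk0 n X d _ hX (rd_ub _ hdU) fun i =>
        (rd_close _ hdU i).trans (half_pow_le (Nat.le_add_right _ _))
    have hg0 : ∀ X, G1 c1 n X d → G1 (c1 / 2) n X d := fun X hX =>
      ⟨hX.1, hX.2.1, Pos.mono hX.2.2 (by linarith)⟩
    have hnot : ∀ X, X ∉ B0 ∪ ⋃ j ∈ Finset.range n, B (k0 + j) → ∀ j < n, X ∉ B (k0 + j) :=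
      fun X hX j hj h => hX (Or.inr (mem_biUnion (Finset.mem_range.2 hj) h))
    have hind : ∀ j ≤ n, nrm (Φ n W (rd (k0 + j) d) - Φ n W' (rd (k0 + j) d)) +
        3 * K * ((2 * (k0 + j) + 16) * (1 / 2) ^ (k0 + j)) ≤
        3 * K * (k0 + 7) + 3 * K * (2 * k0 + 16) := by
      intro j hj
      induction j with
      | zero =>
        have h3 := hB0' W (fun h => hW (Or.inl h)) W' (fun h => hW' (Or.inl h)) (rd k0 d)
          (Finset.mem_filter.2 ⟨rd_mem _ hdU, rd_ub _ hdU, (rd_avg _ hdU).trans hd⟩)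
          (hg W h1 0) (hg W' h2 0)
        have h4 : ((1 : ℝ) / 2) ^ k0 ≤ 1 := pow_le_one₀ (by norm_num) (by norm_num)
        have h5 := mul_le_mul_of_nonneg_left h4 (show 0 ≤ 3 * K * (2 * k0 + 16) by positivity)
        simp only [Nat.cast_zero, add_zero]
        linarith
      | succ j ih =>
        have h3 := ih (Nat.le_of_succ_le hj)
        have h4 := hB' (k0 + j) W (hnot W hW j hj) W' (hnot W' hW' j hj) d hTd (hg W h1 (j + 1))
          (hg W h1 j) (hg W' h2 (j + 1)) (hg W' h2 j)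
        have h5 := nrm_add_le (Φ n W (rd (k0 + j) d) - Φ n W' (rd (k0 + j) d))
          (Φ n W (rd (k0 + j + 1) d) - Φ n W (rd (k0 + j) d) -
            (Φ n W' (rd (k0 + j + 1) d) - Φ n W' (rd (k0 + j) d)))
        have e : Φ n W (rd (k0 + j) d) - Φ n W' (rd (k0 + j) d) +
            (Φ n W (rd (k0 + j + 1) d) - Φ n W (rd (k0 + j) d) -
            (Φ n W' (rd (k0 + j + 1) d) - Φ n W' (rd (k0 + j) d))) =
            Φ n W (rd (k0 + j + 1) d) - Φ n W' (rd (k0 + j + 1) d) := by abel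
        rw [e] at h5
        rw [← Nat.add_assoc, pow_succ]
        push_cast at h4 ⊢
        linarith
    have h3 := hind n le_rfl
    have h4 := (hΦ n W W').2 d (rd (k0 + n) d) _ (by positivity) (hg0 W h1) (hg W h1 n) (hg0 W' h2)
      (hg W' h2 n) (rd_close (k0 + n) hdU)
    have h5 : fro (W - W') ≤ 6 * √n :=
      (fro_le_opn _).trans (mul_le_mul_of_nonneg_right
        ((opn_sub_le _ _).trans (by linarith [h1.1, h2.1])) (Real.sqrt_nonneg _))
    have h6 : ((1 : ℝ) / 2) ^ (k0 + n) * √n ≤ 1 := by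
      have h7 : √(n : ℝ) ≤ 2 ^ n := by
        refine Real.sqrt_le_iff.2 ⟨by positivity, ?_⟩
        have h8 : (n : ℝ) ≤ 2 ^ n := by exact_mod_cast Nat.lt_two_pow_self.le
        have h9 : (1 : ℝ) ≤ 2 ^ n := one_le_pow₀ (by norm_num)
        nlinarith
      calc ((1 : ℝ) / 2) ^ (k0 + n) * √n ≤ (1 / 2) ^ n * 2 ^ n :=
            mul_le_mul (half_pow_le (Nat.le_add_left _ _)) h7 (Real.sqrt_nonneg _) (by positivity)
        _ = 1 := by rw [← mul_pow]; norm_num
    have h7 : K0 * (1 / 2) ^ (k0 + n) * fro (W - W') ≤ 6 * K := by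
      calc K0 * (1 / 2) ^ (k0 + n) * fro (W - W') ≤ K0 * (1 / 2) ^ (k0 + n) * (6 * √n) :=
            mul_le_mul_of_nonneg_left h5 (by positivity)
        _ = 6 * K0 * ((1 / 2) ^ (k0 + n) * √n) := by ring
        _ ≤ 6 * K0 * 1 := mul_le_mul_of_nonneg_left h6 (by positivity)
        _ ≤ _ := by linarith
    have h8 := nrm_add_le (Φ n W (rd (k0 + n) d) - Φ n W' (rd (k0 + n) d))
      (Φ n W d - Φ n W (rd (k0 + n) d) - (Φ n W' d - Φ n W' (rd (k0 + n) d)))
    have e : Φ n W (rd (k0 + n) d) - Φ n W' (rd (k0 + n) d) +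
        (Φ n W d - Φ n W (rd (k0 + n) d) - (Φ n W' d - Φ n W' (rd (k0 + n) d))) =
        Φ n W d - Φ n W' d := by abel
    rw [e] at h8
    have h9 : 0 ≤ 3 * K * ((2 * ((k0 : ℝ) + n) + 16) * (1 / 2) ^ (k0 + n)) := by positivity
    linarith

/-! ### positivity at a fixed diagonal -/

lemma quad_NN (W : Mx n) (d u : V n) : u ⬝ᵥ NN (B0 W 1 d) d *ᵥ u = u ⬝ᵥ u -
    ((fun i => d i * u i) ⬝ᵥ W *ᵥ (fun i => d i * u i) -
      avg (fun i => d i ^ 2) * ((fun i => d i * u i) ⬝ᵥ fun i => d i * u i)) := by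
  have hv : diagonal d *ᵥ u = fun i => d i * u i := funext fun i => mulVec_diagonal d u i
  unfold NN B0
  rw [sub_mulVec, one_mulVec, dotProduct_sub, ← mulVec_mulVec, ← mulVec_mulVec,
    Cond.dot_symm (diagonal_transpose d), hv, sub_mulVec, dotProduct_sub, smul_mulVec, one_mulVec,
    dotProduct_smul, one_mul, smul_eq_mul]

theorem sf_pos (hn : 0 < n) {c : ℝ} (hc : 0 < c) {d : V n} (hd : Ub d)
    (ha : avg (fun i => d i ^ 2) ≤ 1 - c) :
    (GOE n).real {W | ¬ Pos (c ^ 2 / 8) (NN (B0 W 1 d) d)} ≤ Real.exp (-(n * (c ^ 2 / 8) ^ 2 / 4)) := by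
  have hn' : (0 : ℝ) < n := by exact_mod_cast hn
  obtain ⟨ha0, -⟩ := avg_sq_le hd
  set a := avg fun i => d i ^ 2 with ha_def
  set l := 1 - c / 2 with hl
  have hl0 : 0 < l := by linarith
  have hi : ∀ i, Integrable (fun ξ : V n => d i ^ 2 * (ξ i * ξ i)) (gv (Fin n)) := fun i =>
    (Nrm.integrable_sq_coord i).const_mul _
  have hI : Integrable (fun ξ : V n => (∑ i, d i ^ 2 * (ξ i * ξ i)) / (n * l)) (gv (Fin n)) :=
    (integrable_finsetSum _ fun i _ => hi i).div_const _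
  have hE : ∫ ξ : V n, ((l - a) + (∑ i, d i ^ 2 * (ξ i * ξ i)) / (n * l)) ∂gv (Fin n) ≤
      1 - c ^ 2 / 4 := by
    rw [integral_add (integrable_const _) hI, integral_const, probReal_univ, one_smul, integral_div,
      integral_finsetSum _ fun i _ => hi i]
    simp only [integral_const_mul, Nrm.integral_sq_coord, mul_one]
    have e : (∑ i, d i ^ 2) / (n * l) = a / l := by rw [ha_def, avg, div_div]
    rw [e]
    have : a / l ≤ 1 - c ^ 2 / 4 - l + a := by
      rw [div_le_iff₀ hl0, hl]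
      nlinarith [mul_nonneg hc.le (sub_nonneg.2 ha), mul_pos hc (mul_pos hc hc)]
    linarith
  have hvv : ∀ t : V n, ((fun i => d i * t i) ⬝ᵥ fun i => d i * t i) ≤ t ⬝ᵥ t := fun t =>
    Finset.sum_le_sum fun i _ => by
      have := mul_le_mul_of_nonneg_right (mul_le_one₀ (hd i).2 (hd i).1 (hd i).2)
        (mul_self_nonneg (t i))
      linarith
  have hcu : Continuous fun (t : {t : V n // t ⬝ᵥ t = 1}) i => d i * t.1 i :=
    continuous_pi fun i => continuous_const.mul ((continuous_apply i).comp continuous_subtype_val)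
  have key := Kr.sf_goe_tail (T := {t : V n // t ⬝ᵥ t = 1}) (1 / √n)
    (u := fun t i => d i * t.1 i)
    (f := fun t => -(a * ((fun i => d i * t.1 i) ⬝ᵥ fun i => d i * t.1 i)))
    hcu (continuous_const.mul (hcu.dotProduct hcu)).neg (ρ := 1) (fun t => (hvv t.1).trans_eq t.2)
    (Γ := fun ξ => (l - a) + (∑ i, d i ^ 2 * (ξ i * ξ i)) / (n * l))
    ((integrable_const _).add hI) (fun ξ t => by
      set v : V n := fun i => d i * t.1 i with hv
      have h1 : ξ ⬝ᵥ v ≤ nrm fun i => d i * ξ i := by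
        have h2 := dot_le (fun i => d i * ξ i) t.1
        have h3 : nrm t.1 = 1 := by rw [nrm, t.2, Real.sqrt_one]
        rw [h3, mul_one] at h2
        refine le_trans (le_of_eq ?_) h2
        exact Finset.sum_congr rfl fun i _ => by simp only [hv]; ring
      have h2 : (nrm fun i => d i * ξ i) ^ 2 = ∑ i, d i ^ 2 * (ξ i * ξ i) := by
        rw [nrm_sq]
        exact Finset.sum_congr rfl fun i _ => by ring
      set y := nrm fun i => d i * ξ i
      have h3 : len v ^ 2 ≤ 1 := by rw [len_sq]; exact (hvv t.1).trans_eq t.2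
      have h4 := len_nonneg v
      rw [← h2, ← len_sq]
      have h5 : 2 * (1 / √n) * len v * (ξ ⬝ᵥ v) ≤ 2 * (1 / √n) * len v * y :=
        mul_le_mul_of_nonneg_left h1 (by positivity)
      have h6 : y ^ 2 / (n * l) = (y / √n) ^ 2 / l := by
        rw [div_pow, Real.sq_sqrt hn'.le, div_div]
      have h7 : 2 * (1 / √n) * len v * y ≤ l * len v ^ 2 + (y / √n) ^ 2 / l := by
        have h8 : 2 * (1 / √n) * len v * y = 2 * len v * (y / √n) := by ring
        rw [h8, ← sub_le_iff_le_add', le_div_iff₀ hl0]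
        nlinarith [sq_nonneg (l * len v - y / √n)]
      have h9 := mul_le_mul_of_nonneg_left h3 (show 0 ≤ l - a by linarith)
      rw [h6]
      linarith) (r := c ^ 2 / 8) (by positivity)
  rw [one_pow, mul_one, Nrm.exp_goe] at key
  refine le_trans (measureReal_mono fun W hW => ?_) key
  simp only [Pos, not_forall, not_le, mem_ofPred_eq] at hW
  obtain ⟨u, hu⟩ := hW
  have hu0 : u ≠ 0 := by
    rintro rfl
    simp at hu
  have hr := nrm_pos hu0
  have ht : ((nrm u)⁻¹ • u) ⬝ᵥ ((nrm u)⁻¹ • u) = 1 := by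
    rw [smul_dotProduct, dotProduct_smul, ← nrm_mul_self, smul_eq_mul, smul_eq_mul]
    field_simp
  have hq : ((nrm u)⁻¹ • u) ⬝ᵥ NN (B0 W 1 d) d *ᵥ ((nrm u)⁻¹ • u) < c ^ 2 / 8 := by
    rw [mulVec_smul, smul_dotProduct, dotProduct_smul, smul_eq_mul, smul_eq_mul,
      inv_mul_lt_iff₀ hr, inv_mul_lt_iff₀ hr]
    rw [← nrm_mul_self] at hu
    linarith
  refine ⟨⟨_, ht⟩, ?_⟩
  rw [quad_NN, ht] at hq
  simp only
  linarith

lemma tend_exp {κ : ℝ} (hκ : 0 < κ) : Tendsto (fun n : ℕ => Real.exp (-(n * κ))) atTop (𝓝 0) :=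
  Real.tendsto_exp_neg_atTop_nhds_zero.comp (tendsto_natCast_atTop_atTop.atTop_mul_const hκ)

lemma tend_lin : Tendsto (fun n : ℕ => ((n : ℝ) + 1) * Real.exp (-n)) atTop (𝓝 0) := by
  have h1 := (Real.tendsto_pow_mul_exp_neg_atTop_nhds_zero 1).add
    Real.tendsto_exp_neg_atTop_nhds_zero
  have h2 := h1.comp tendsto_natCast_atTop_atTop
  rw [add_zero] at h2
  refine h2.congr fun n => ?_
  simp only [Function.comp, pow_one]
  ring

lemma opn_tail : (GOE n).real {W | ¬ opn W ≤ 3} ≤ 2 * Real.exp (-(n * (1 / 4))) := by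
  have := Nrm.goe_opn_tail_n (n := n) zero_le_one
  rw [one_pow, mul_div_assoc] at this
  refine le_trans (measureReal_mono fun W hW => ?_) this
  simp only [mem_ofPred_eq, not_le] at hW ⊢
  linarith

/-- the good event has probability close to one, uniformly in the diagonal -/
lemma ev_g1 {c : ℝ} (hc : 0 < c) : ∀ᶠ n : ℕ in atTop, ∀ d : V n, Ub d →
    avg (fun i => d i ^ 2) ≤ 1 - c → (GOE n).real {W | ¬ G1 (c ^ 2 / 8) n W d} ≤ 1 / 8 := by
  filter_upwards [eventually_gt_atTop 0,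
    (tend_exp (show 0 < (c ^ 2 / 8) ^ 2 / 4 by positivity)).eventually
      (gt_mem_nhds (show (0 : ℝ) < 1 / 16 by norm_num)),
    (tend_exp (show (0 : ℝ) < 1 / 4 by norm_num)).eventually
      (gt_mem_nhds (show (0 : ℝ) < 1 / 32 by norm_num))] with n hn h1 h2 d hd ha
  have h3 := sf_pos hn hc hd ha
  rw [mul_div_assoc] at h3
  have h4 : (GOE n).real {W | ¬ G1 (c ^ 2 / 8) n W d} ≤ (GOE n).real
      ({W | ¬ opn W ≤ 3} ∪ {W | ¬ Pos (c ^ 2 / 8) (NN (B0 W 1 d) d)}) := by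
    refine measureReal_mono fun W hW => ?_
    by_cases h5 : opn W ≤ 3
    · exact Or.inr fun h6 => hW ⟨h5, hd, h6⟩
    · exact Or.inl h5
  linarith [measureReal_union_le (μ := GOE n) {W | ¬ opn W ≤ 3}
    {W | ¬ Pos (c ^ 2 / 8) (NN (B0 W 1 d) d)}, opn_tail (n := n)]

theorem uf1_whp (h : UFfixP) {c : ℝ} (hc : 0 < c) :
    ∃ K : ℝ, Top.Whp GOE fun _ W => UF1 W c K := by
  have hc1 : 0 < c ^ 2 / 8 := by positivity
  obtain ⟨K, hK⟩ := h _ hc1
  obtain ⟨C1, h1⟩ := chain (c := c) hc1 (dif_e1 (half_pos hc1))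
  obtain ⟨C2, h2⟩ := chain (c := c) hc1 (dif_e2 (half_pos hc1))
  refine ⟨K + max C1 C2, Top.whp_of_real_le (a := fun n : ℕ => 2 * Real.exp (-(n * (1 / 4))) +
    2 * (((n : ℝ) + 1) * Real.exp (-n))) ?_ ?_⟩
  · have := ((tend_exp (show (0 : ℝ) < 1 / 4 by norm_num)).const_mul 2).add (tend_lin.const_mul 2)
    simpa using this
  filter_upwards [eventually_gt_atTop 0, hK, ev_g1 hc,
    tend_lin.eventually (gt_mem_nhds (show (0 : ℝ) < 1 / 8 by norm_num))] with n hn hK hg hs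
  have hg' : ∀ d : V n, Ub d → avg (fun i => d i ^ 2) ≤ 1 - c →
      (GOE n).real {W | ¬ G1 (c ^ 2 / 8 / 2) n W d} ≤ 1 / 8 := fun d hd ha => by
    refine le_trans (measureReal_mono fun W hW => ?_) (hg d hd ha)
    exact fun hG => hW ⟨hG.1, hG.2.1, Pos.mono hG.2.2 (by linarith)⟩
  obtain ⟨B1, hB1, h1⟩ := h1 n hn hg'
  obtain ⟨B2, hB2, h2⟩ := h2 n hn hg'
  have hsub : {W : Mx n | ¬ UF1 W c (K + max C1 C2)} ⊆ {W | ¬ opn W ≤ 3} ∪ (B1 ∪ B2) := by
    intro W hW
    by_contra hcon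
    simp only [mem_union, mem_ofPred_eq, not_or, not_not] at hcon
    obtain ⟨h3, hW1, hW2⟩ := hcon
    refine hW fun d hd ha hp => ?_
    have hc2 : c ^ 2 / 8 ≤ c := by nlinarith [(avg_sq_le hd).1]
    have hGW : G1 (c ^ 2 / 8) n W d := ⟨h3, hd, Pos.mono hp hc2⟩
    have hsym : (GOE n).real {W' : Mx n | ¬ W'ᵀ = W'} = 0 := by
      rw [measureReal_eq_zero_iff (measure_ne_top _ _)]
      exact goe_ae_symm _
    obtain ⟨W', hW'⟩ : ∃ W' : Mx n, W' ∉ (B1 ∪ B2) ∪ (({W' : Mx n | ¬ W'ᵀ = W'} ∪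
        {W' | ¬ G1 (c ^ 2 / 8) n W' d}) ∪ {W | Wᵀ = W ∧ opn W ≤ 3 ∧
          Pos (c ^ 2 / 8) (NN (B0 W 1 d) d) ∧ ¬ (nrm (err (B0 W 1 d) d 1 1 1) ≤ K ∧
          nrm (err (B0 W 1 d) d 1 W (2 * avg fun i => d i ^ 2)) ≤ K)}) := by
      by_contra hall
      have h5 := measureReal_mono (μ := GOE n) (s₁ := univ)
        (fun W' _ => not_not.1 (not_exists.1 hall W'))
      rw [probReal_univ] at h5
      have h6 := h5.trans ((measureReal_union_le _ _).trans (add_le_add (measureReal_union_le _ _)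
        ((measureReal_union_le _ _).trans (add_le_add (measureReal_union_le _ _) le_rfl))))
      linarith [hg d hd ha, hK d hd (by linarith)]
    simp only [mem_union, mem_ofPred_eq, not_or, not_not] at hW'
    obtain ⟨⟨hW1', hW2'⟩, ⟨hs', hG'⟩, hfix⟩ := hW'
    have hf : nrm (e1 n W' d) ≤ K ∧ nrm (e2 n W' d) ≤ K := by
      by_contra h7
      exact hfix ⟨hs', hG'.1, hG'.2.2, h7⟩
    have a1 := nrm_add_le (e1 n W d - e1 n W' d) (e1 n W' d)
    have a2 := nrm_add_le (e2 n W d - e2 n W' d) (e2 n W' d)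
    rw [sub_add_cancel] at a1 a2
    exact ⟨by linarith [h1 W hW1 W' hW1' d ha hGW hG', hf.1, le_max_left C1 C2],
      by linarith [h2 W hW2 W' hW2' d ha hGW hG', hf.2, le_max_right C1 C2]⟩
  have h3 := (measureReal_mono (μ := GOE n) hsub).trans ((measureReal_union_le _ _).trans
    (add_le_add opn_tail (measureReal_union_le _ _)))
  linarith

end Uf14

/-- **uniform freeness from the fixed-diagonal bound** -/
theorem ufStmt_of (h : UFfixP) : UFStmt := by
  intro β hβ c hc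
  obtain ⟨K, hK⟩ := Uf14.uf1_whp h (half_pos hc)
  exact ⟨K, hK.imp fun _ _ hW => Uf14.uf_of_uf1 hβ.2 hc hW⟩

end Crest.Agent.T157.Tap
end
end

-- ▼ part T157/TapUfD_23
section

/-!
# Row 157, part A (helper23): the fixed-`d` freeness bound — statement and measurability
-/

set_option autoImplicit false

noncomputable section

namespace Crest.Agent.T157.Tap

open MeasureTheory ProbabilityTheory Matrix Filter Set
open Crest.Agent.T157.E Crest.Agent.T157.Eig Crest.Agent.T157.Cond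

variable {n : ℕ}

/-- the good event of a fixed diagonal -/
def Om (c θ : ℝ) (d : V n) : Set (Mx n) :=
  {W | Wᵀ = W ∧ opn W ≤ 3 ∧ Pos c (NN (B0 (θ • W) (θ ^ 2) d) d)}

/-- first error vector of `UF` -/
def er1 (θ : ℝ) (d : V n) (W : Mx n) : V n := err (B0 (θ • W) (θ ^ 2) d) d (θ ^ 2) 1 1

/-- second error vector of `UF` -/
def er2 (θ : ℝ) (d : V n) (W : Mx n) : V n :=
  err (B0 (θ • W) (θ ^ 2) d) d (θ ^ 2) W (2 * θ * avg fun i => d i ^ 2)

/-- `L²` freeness bound for a fixed diagonal -/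
def UFfixStmt : Prop := ∀ c > (0 : ℝ), ∃ K : ℝ, ∀ n : ℕ, 0 < n → ∀ θ ∈ Icc (0 : ℝ) 1, ∀ d : V n,
  Ub d → θ ^ 2 * avg (fun i => d i ^ 2) ≤ 1 - c →
    ∫ W in Om c θ d, nrm (er1 θ d W) ^ 2 ∂GOE n ≤ K ∧
    ∫ W in Om c θ d, nrm (er2 θ d W) ^ 2 ∂GOE n ≤ K

namespace Uf

section meas
variable {Ω : Type*} [MeasurableSpace Ω]

@[fun_prop] lemma _root_.Measurable.t157_det23 {A : Ω → Mx n} (h : Measurable A) :
    Measurable fun ω => (A ω).det :=
  (continuous_id.matrix_det).measurable.comp h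

@[fun_prop] lemma _root_.Measurable.t157_inv23 {A : Ω → Mx n} (h : Measurable A) :
    Measurable fun ω => (A ω)⁻¹ := by
  simp only [Matrix.inv_def, Ring.inverse_eq_inv']
  exact Measurable.t157_smul h.t157_det23.inv
    ((continuous_id.matrix_adjugate).measurable.comp h)

@[fun_prop] lemma _root_.Measurable.t157_nrm23 {v : Ω → V n} (h : Measurable v) :
    Measurable fun ω => nrm (v ω) := continuous_nrm.measurable.comp h

@[fun_prop] lemma _root_.Measurable.t157_opn23 {A : Ω → Mx n} (h : Measurable A) :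
    Measurable fun ω => opn (A ω) := continuous_opn.measurable.comp h

@[fun_prop] lemma _root_.Measurable.t157_NN23 {B : Ω → Mx n} (h : Measurable B) (d : V n) :
    Measurable fun ω => NN (B ω) d := by unfold NN; fun_prop

@[fun_prop] lemma _root_.Measurable.t157_GG23 {B : Ω → Mx n} (h : Measurable B) (d : V n) :
    Measurable fun ω => GG (B ω) d := by unfold GG; fun_prop

@[fun_prop] lemma _root_.Measurable.t157_RR23 {B : Ω → Mx n} (h : Measurable B) (d : V n) :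
    Measurable fun ω => RR (B ω) d := by unfold RR; fun_prop

@[fun_prop] lemma _root_.Measurable.t157_B023 {J : Ω → Mx n} (h : Measurable J) (b : ℝ) (d : V n) :
    Measurable fun ω => B0 (J ω) b d := by unfold B0; fun_prop

lemma measurable_err {B S : Ω → Mx n} (hB : Measurable B) (hS : Measurable S) (d : V n)
    (b k : ℝ) : Measurable fun ω => err (B ω) d b (S ω) k := by
  refine measurable_pi_lambda _ fun i => ?_
  unfold err
  refine Measurable.sub (by fun_prop) (Measurable.t157_entry (by fun_prop) i i)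

lemma measurableSet_pos {M : Ω → Mx n} (h : Measurable M) (c : ℝ) :
    MeasurableSet {ω | Pos c (M ω)} := by
  have hc : IsClosed {M : Mx n | Pos c M} := by
    simp only [Pos, Set.ofPred_forall]
    refine isClosed_iInter fun u => isClosed_le continuous_const ?_
    simp only [dotProduct, mulVec]
    fun_prop
  exact h hc.measurableSet

end meas

lemma measurable_er1 (θ : ℝ) (d : V n) : Measurable (er1 θ d) :=
  measurable_err (by fun_prop) measurable_const d _ _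

lemma measurable_er2 (θ : ℝ) (d : V n) : Measurable (er2 θ d) :=
  measurable_err (by fun_prop) measurable_id d _ _

lemma measurableSet_Om (c θ : ℝ) (d : V n) : MeasurableSet (Om c θ d) :=
  measurableSet_symm.inter ((measurableSet_le (f := fun W : Mx n => opn W) (by fun_prop)
    measurable_const).inter (measurableSet_pos
      (M := fun W : Mx n => NN (B0 (θ • W) (θ ^ 2) d) d) (by fun_prop) c))

end Uf

end Crest.Agent.T157.Tap
end
end

-- ▼ part T157/TapUfC_14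
section

/-!
# Row 157, part A: uniform freeness from the `L²` bound at a fixed diagonal (helper14)
-/

set_option autoImplicit false

noncomputable section

namespace Crest.Agent.T157.Tap

open MeasureTheory ProbabilityTheory Matrix Filter Set Topology
open Crest.Agent.T157.E Crest.Agent.T157.Eig Crest.Agent.T157.Cond
open Crest.Agent.T157.Kr (fro fro_nonneg)

namespace Uf14

lemma markov {n : ℕ} {c K : ℝ} {d : V n} (hd : Ub d) {Φ : ∀ n, Mx n → V n → V n}
    (hΦ : Dif (G1 c) Φ) (hm : Measurable fun W => Φ n W d)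
    (h : ∫ W in Om c 1 d, nrm (Φ n W d) ^ 2 ∂GOE n ≤ K) :
    (GOE n).real {W | W ∈ Om c 1 d ∧ ¬ nrm (Φ n W d) ≤ √(8 * (|K| + 1))} ≤ 1 / 8 := by
  obtain ⟨L, hL, hΦ⟩ := hΦ
  have hG : ∀ W ∈ Om c 1 d, G1 c n W d := fun W hW =>
    ⟨hW.2.1, hd, by simpa only [one_smul, one_pow] using hW.2.2⟩
  have hmn : Measurable fun W => nrm (Φ n W d) ^ 2 := (continuous_nrm.measurable.comp hm).pow_const 2
  have hi : Integrable (fun W => nrm (Φ n W d) ^ 2) ((GOE n).restrict (Om c 1 d)) := by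
    rcases (Om c 1 d).eq_empty_or_nonempty with h0 | ⟨W0, hW0⟩
    · rw [h0, Measure.restrict_empty]; exact integrable_zero_measure
    refine Integrable.of_bound hmn.aestronglyMeasurable ((L * (6 * √n) + nrm (Φ n W0 d)) ^ 2) ?_
    refine (ae_restrict_iff' (Uf.measurableSet_Om c 1 d)).2 (Eventually.of_forall fun W hW => ?_)
    rw [Real.norm_of_nonneg (sq_nonneg _)]
    refine pow_le_pow_left₀ (nrm_nonneg _) ?_ 2
    have h1 := (hΦ n W W0).1 d (hG W hW) (hG W0 hW0)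
    have h2 : fro (W - W0) ≤ 6 * √n :=
      (fro_le_opn _).trans (mul_le_mul_of_nonneg_right
        ((opn_sub_le _ _).trans (by linarith [hW.2.1, hW0.2.1])) (Real.sqrt_nonneg _))
    have h3 := nrm_add_le (Φ n W d - Φ n W0 d) (Φ n W0 d)
    rw [sub_add_cancel] at h3
    linarith [mul_le_mul_of_nonneg_left h2 hL]
  have hM := mul_meas_ge_le_integral_of_nonneg (Eventually.of_forall fun W => sq_nonneg _) hi
    (8 * (|K| + 1))
  rw [measureReal_restrict_apply' (Uf.measurableSet_Om c 1 d)] at hM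
  have h1 : (GOE n).real {W | W ∈ Om c 1 d ∧ ¬ nrm (Φ n W d) ≤ √(8 * (|K| + 1))} ≤
      (GOE n).real ({W | 8 * (|K| + 1) ≤ nrm (Φ n W d) ^ 2} ∩ Om c 1 d) := by
    refine measureReal_mono fun W hW => ⟨?_, hW.1⟩
    exact (Real.sqrt_le_left (nrm_nonneg _)).1 (not_le.1 hW.2).le
  refine le_of_mul_le_mul_left (a := 8 * (|K| + 1)) ?_ (by positivity)
  have h2 := mul_le_mul_of_nonneg_left h1 (show 0 ≤ 8 * (|K| + 1) by positivity)
  linarith [le_abs_self K]

end Uf14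

open Uf14 in
theorem ufFixP_of (h : UFfixStmt) : UFfixP := by
  intro c hc
  obtain ⟨K, hK⟩ := h c hc
  refine ⟨√(8 * (|K| + 1)), ?_⟩
  filter_upwards [eventually_gt_atTop 0] with n hn d hd ha
  obtain ⟨h1, h2⟩ := hK n hn 1 ⟨zero_le_one, le_rfl⟩ d hd (by simpa using ha)
  have e1' : er1 1 d = fun W => e1 n W d := by
    funext W; simp only [er1, e1, one_smul, one_pow]
  have e2' : er2 1 d = fun W => e2 n W d := by
    funext W; simp only [er2, e2, one_smul, one_pow, mul_one]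
  have m1 := Uf.measurable_er1 1 d
  have m2 := Uf.measurable_er2 1 d
  rw [e1'] at h1 m1
  rw [e2'] at h2 m2
  have a1 := markov hd (dif_e1 hc) m1 h1
  have a2 := markov hd (dif_e2 hc) m2 h2
  refine le_trans (measureReal_mono fun W hW => ?_) ((measureReal_union_le _ _).trans
    ((add_le_add a1 a2).trans (by norm_num)))
  have hO : W ∈ Om c 1 d := ⟨hW.1, hW.2.1, by simpa only [one_smul, one_pow] using hW.2.2.1⟩
  rcases not_and_or.1 hW.2.2.2 with h3 | h3
  · exact Or.inl ⟨hO, h3⟩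
  · exact Or.inr ⟨hO, h3⟩

/-- **uniform freeness** from the fixed-diagonal `L²` bound -/
theorem ufStmt_of_fix (h : UFfixStmt) : UFStmt := ufStmt_of (ufFixP_of h)

end Crest.Agent.T157.Tap
end
end

-- ▼ part T157/TapUfA_23
section

/-!
# Row 157, part A (helper23): cavity identities for the TAP resolvent `G = d N⁻¹ d`
-/

set_option autoImplicit false

noncomputable section

namespace Crest.Agent.T157.Tap.Uf

open MeasureTheory ProbabilityTheory Matrix Filter Set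
open Crest.Agent.T157.E Crest.Agent.T157.Eig Crest.Agent.T157.Cond

variable {n : ℕ}

/-! ### deterministic bounds -/

lemma pos_nrm {c : ℝ} {M : Mx n} (h : Pos c M) (u : V n) : c * nrm u ≤ nrm (M *ᵥ u) := by
  by_cases hu : u = 0
  · simp [hu, nrm]
  · have h1 := (h u).trans (dot_le u (M *ᵥ u))
    rw [← nrm_mul_self, ← mul_assoc, mul_comm (nrm u)] at h1
    exact le_of_mul_le_mul_right h1 (nrm_pos hu)

lemma pos_unit {c : ℝ} (hc : 0 < c) {M : Mx n} (h : Pos c M) : IsUnit M.det := by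
  rw [isUnit_iff_ne_zero]
  intro h0
  obtain ⟨v, hv, h1⟩ := Matrix.exists_mulVec_eq_zero_iff.2 h0
  have h2 := pos_nrm h v
  rw [h1, nrm_eq_zero.2 rfl] at h2
  nlinarith [nrm_pos hv]

lemma opn_inv_le {c : ℝ} (hc : 0 < c) {M : Mx n} (h : Pos c M) : opn M⁻¹ ≤ 1 / c := by
  refine opn_le_of_nrm (by positivity) fun v => ?_
  have h1 := pos_nrm h (M⁻¹ *ᵥ v)
  rw [Matrix.mulVec_mulVec, Matrix.mul_nonsing_inv _ (pos_unit hc h), Matrix.one_mulVec] at h1
  rw [one_div, inv_mul_eq_div, le_div_iff₀ hc]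
  linarith

lemma opn_mul_le' {A B : Mx n} {a b : ℝ} (hA : opn A ≤ a) (hB : opn B ≤ b) :
    opn (A * B) ≤ a * b :=
  (opn_mul_le A B).trans (mul_le_mul hA hB (opn_nonneg _) ((opn_nonneg _).trans hA))

lemma opn_diag_le {d : V n} (hd : Ub d) : opn (diagonal d) ≤ 1 :=
  opn_diagonal_le zero_le_one fun i => by rw [abs_of_nonneg (hd i).1]; exact (hd i).2

lemma opn_GG_le {c : ℝ} (hc : 0 < c) {B : Mx n} {d : V n} (hd : Ub d) (h : Pos c (NN B d)) :
    opn (GG B d) ≤ 1 / c := by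
  simpa [GG] using opn_mul_le' (opn_mul_le' (opn_diag_le hd) (opn_inv_le hc h)) (opn_diag_le hd)

lemma abs_trace_le {M : Mx n} {L : ℝ} (h : opn M ≤ L) : |M.trace| ≤ n * L := by
  refine (Finset.abs_sum_le_sum_abs _ _).trans ?_
  refine (Finset.sum_le_card_nsmul _ _ L fun i _ => (abs_entry_le M i i).trans h).trans ?_
  simp

lemma fro_le {M : Mx n} {L : ℝ} (h : opn M ≤ L) : Conc.fro M ≤ n * L ^ 2 := by
  rw [← Conc.fro_transpose]
  refine (Finset.sum_le_card_nsmul _ _ (L ^ 2) fun i _ => ?_).trans (by simp)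
  have h1 := nrm_mulVec_le M (Pi.single i 1)
  rw [nrm_single, mul_one] at h1
  have h2 := pow_le_pow_left₀ (nrm_nonneg _) (h1.trans h) 2
  rw [nrm_sq] at h2
  simpa [dotProduct, sq] using h2

lemma NN_symm {B : Mx n} (hB : Bᵀ = B) (d : V n) : (NN B d)ᵀ = NN B d := by
  simp [NN, Matrix.transpose_mul, hB, Matrix.mul_assoc]

lemma GG_symm {B : Mx n} (hB : Bᵀ = B) (d : V n) : (GG B d)ᵀ = GG B d := by
  simp [GG, Matrix.transpose_mul, Matrix.transpose_nonsing_inv, NN_symm hB, Matrix.mul_assoc]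

/-- `D = d²` as a matrix -/
def Dm (d : V n) : Mx n := diagonal fun j => d j ^ 2

lemma Dm_eq (d : V n) : Dm d = diagonal d * diagonal d := by
  simp [Dm, Matrix.diagonal_mul_diagonal, sq]

lemma GG_left {B : Mx n} {d : V n} (h : IsUnit (NN B d).det) : GG B d = Dm d * RR B d := by
  have h1 : (NN B d)⁻¹ = 1 + diagonal d * B * diagonal d * (NN B d)⁻¹ := by
    have := Matrix.mul_nonsing_inv _ h
    rw [NN, Matrix.sub_mul, Matrix.one_mul] at this
    rw [← this, NN]; abel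
  rw [RR, Dm_eq]
  conv_lhs => rw [GG, h1]
  simp only [GG, Matrix.mul_add, Matrix.add_mul, Matrix.mul_one, Matrix.mul_assoc]

lemma GG_right {B : Mx n} {d : V n} (h : IsUnit (NN B d).det) :
    GG B d = (1 + GG B d * B) * Dm d := by
  have h1 : (NN B d)⁻¹ = 1 + (NN B d)⁻¹ * (diagonal d * B * diagonal d) := by
    have := Matrix.nonsing_inv_mul _ h
    rw [NN, Matrix.mul_sub, Matrix.mul_one] at this
    rw [← this, NN]; abel
  rw [Dm_eq]
  conv_lhs => rw [GG, h1]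
  simp only [GG, Matrix.mul_add, Matrix.add_mul, Matrix.mul_one, Matrix.one_mul, Matrix.mul_assoc]

/-! ### removing one site -/

/-- basis vector -/
abbrev ev (i : Fin n) : V n := Pi.single i 1
/-- the diagonal with site `i` removed -/
def rm (d : V n) (i : Fin n) : V n := Function.update d i 0

lemma ub_rm {d : V n} (hd : Ub d) (i : Fin n) : Ub (rm d i) := fun j => by
  by_cases h : j = i
  · subst h; simp [rm]
  · simpa [rm, h] using hd j

lemma Dm_rm (d : V n) (i : Fin n) :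
    Dm d = Dm (rm d i) + d i ^ 2 • vecMulVec (ev i) (ev i) := by
  ext j k
  by_cases h : j = k
  · subst h
    by_cases h' : j = i
    · subst h'; simp [Dm, rm, vecMulVec_apply]
    · simp [Dm, rm, vecMulVec_apply, h']
  · by_cases h' : j = i
    · subst h'; simp [Dm, vecMulVec_apply, h, Ne.symm h]
    · simp [Dm, vecMulVec_apply, h, h']

lemma quad_NN (B : Mx n) (d u : V n) :
    u ⬝ᵥ NN B d *ᵥ u = u ⬝ᵥ u - (fun j => d j * u j) ⬝ᵥ B *ᵥ fun j => d j * u j := by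
  have e : diagonal d *ᵥ u = fun j => d j * u j := funext fun j => Matrix.mulVec_diagonal d u j
  rw [NN, Matrix.sub_mulVec, Matrix.one_mulVec, dotProduct_sub, ← Matrix.mulVec_mulVec,
    ← Matrix.mulVec_mulVec, Cond.dot_symm (Matrix.diagonal_transpose d), e]

lemma pos_rm {c : ℝ} (hc : c ≤ 1) {B : Mx n} {d : V n} (h : Pos c (NN B d)) (i : Fin n) :
    Pos c (NN B (rm d i)) := fun u => by
  have h1 := h (rm u i)
  have e : (fun j => d j * rm u i j) = fun j => rm d i j * u j := funext fun j => by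
    by_cases h : j = i
    · subst h; simp [rm]
    · simp [rm, h]
  have e2 : u ⬝ᵥ u = rm u i ⬝ᵥ rm u i + u i ^ 2 := by
    simp only [dotProduct]
    rw [← Finset.add_sum_erase _ _ (Finset.mem_univ i),
      ← Finset.add_sum_erase _ (fun j => rm u i j * rm u i j) (Finset.mem_univ i)]
    have : ∑ j ∈ Finset.univ.erase i, rm u i j * rm u i j = ∑ j ∈ Finset.univ.erase i, u j * u j :=
      Finset.sum_congr rfl fun j hj => by simp [rm, Finset.ne_of_mem_erase hj]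
    rw [this]; simp [rm, sq, add_comm]
  rw [quad_NN, e] at h1
  rw [quad_NN, e2]
  nlinarith [sq_nonneg (u i)]

lemma GG_rm_ev (B : Mx n) (d : V n) (i : Fin n) : GG B (rm d i) *ᵥ ev i = 0 := by
  have : diagonal (rm d i) *ᵥ ev i = 0 := by
    funext j
    rw [Matrix.mulVec_diagonal]
    by_cases h : j = i
    · subst h; simp [rm]
    · simp [h]
  rw [GG, ← Matrix.mulVec_mulVec, this, Matrix.mulVec_zero]

/-- the cavity vector -/
def rv (B : Mx n) (d : V n) (i : Fin n) : V n := ev i + GG B (rm d i) *ᵥ (B *ᵥ ev i)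

lemma ev_dot (i : Fin n) (v : V n) : ev i ⬝ᵥ v = v i := by simp

/-- **cavity identities** -/
theorem cavity {B : Mx n} (hB : Bᵀ = B) {d : V n} (i : Fin n) (h : IsUnit (NN B d).det)
    (h' : IsUnit (NN B (rm d i)).det) :
    (RR B d)ᵀ *ᵥ ev i = RR B d i i • rv B d i ∧
    RR B d i i = 1 + d i ^ 2 * RR B d i i * (B *ᵥ ev i ⬝ᵥ rv B d i) ∧
    GG B d = GG B (rm d i) + (d i ^ 2 * RR B d i i) • vecMulVec (rv B d i) (rv B d i) := by
  have g1 := GG_left h
  have g2 := GG_right h'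
  have s1 := GG_symm hB d
  have s2 := GG_symm hB (rm d i)
  have z1 := GG_rm_ev B d i
  have hr : rv B d i = (1 + GG B (rm d i) * B) *ᵥ ev i := by
    rw [rv, Matrix.add_mulVec, Matrix.one_mulVec, Matrix.mulVec_mulVec]
  have hR : RR B d = 1 + B * GG B d := rfl
  generalize RR B d = R at *
  generalize GG B d = G at *
  generalize GG B (rm d i) = G' at *
  generalize rv B d i = r at *
  have k1 : G = G' + d i ^ 2 • vecMulVec r (Rᵀ *ᵥ ev i) := by
    have a1 : (1 + G' * B) * (G - Dm (rm d i) * B * G) = G := by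
      have : (1 + G' * B) * (G - Dm (rm d i) * B * G) =
          G + (G' - (1 + G' * B) * Dm (rm d i)) * B * G := by noncomm_ring
      rw [this, ← g2]; simp
    have a2 : G - Dm (rm d i) * B * G = Dm (rm d i) + d i ^ 2 • (vecMulVec (ev i) (ev i) * R) := by
      have : G - Dm (rm d i) * B * G = G - Dm (rm d i) * R + Dm (rm d i) := by
        rw [hR]; noncomm_ring
      rw [this]
      conv_lhs => rw [g1, Dm_rm d i, Matrix.add_mul, Matrix.smul_mul]
      abel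
    rw [← a1, a2, Matrix.mul_add, ← g2, vmv_mul, Matrix.mul_smul, Matrix.mul_vecMulVec, ← hr]
  have k2 : Rᵀ *ᵥ ev i = (1 + d i ^ 2 * (Rᵀ *ᵥ ev i ⬝ᵥ B *ᵥ ev i)) • r := by
    have : Rᵀ *ᵥ ev i = ev i + G *ᵥ (B *ᵥ ev i) := by
      rw [hR, Matrix.transpose_add, Matrix.transpose_one, Matrix.transpose_mul, s1, hB,
        Matrix.add_mulVec, Matrix.one_mulVec, Matrix.mulVec_mulVec]
    conv_lhs => rw [this, k1, Matrix.add_mulVec, Matrix.smul_mulVec, vmv_mulVec]
    rw [add_smul, one_smul, smul_smul, ← add_assoc]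
    congr 1
    rw [hr, Matrix.add_mulVec, Matrix.one_mulVec, Matrix.mulVec_mulVec]
  have k3 : r i = 1 := by
    rw [← ev_dot i r, hr, Matrix.add_mulVec, Matrix.one_mulVec, ← Matrix.mulVec_mulVec, dotProduct_add,
      Cond.dot_symm s2, z1]
    simp
  have k4 : R i i = 1 + d i ^ 2 * (Rᵀ *ᵥ ev i ⬝ᵥ B *ᵥ ev i) := by
    have := congrFun k2 i
    rw [Pi.smul_apply, k3, smul_eq_mul, mul_one] at this
    rw [← this]; simp
  rw [← k4] at k2
  refine ⟨k2, ?_, ?_⟩
  · conv_lhs => rw [k4, k2]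
    rw [smul_dotProduct, smul_eq_mul, dotProduct_comm r]; ring
  · conv_lhs => rw [k1, k2]
    rw [Matrix.vecMulVec_smul, smul_smul]

/-! ### the scalar closure -/

lemma avg_mul_sq {a b : V n} {A : ℝ} (ha : ∀ i, |a i| ≤ A) :
    n * avg (fun i => a i * b i) ^ 2 ≤ A ^ 2 * ∑ i, b i ^ 2 := by
  rcases Nat.eq_zero_or_pos n with rfl | hn
  · simp
  have hn' : (0:ℝ) < n := by exact_mod_cast hn
  have h1 := Finset.sum_mul_sq_le_sq_mul_sq Finset.univ a b
  have h2 : ∑ i, a i ^ 2 ≤ n * A ^ 2 :=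
    (Finset.sum_le_card_nsmul _ _ (A ^ 2) fun i _ => sq_le_sq' (abs_le.1 (ha i)).1
      (abs_le.1 (ha i)).2).trans (by simp)
  have h3 : 0 ≤ ∑ i, b i ^ 2 := Finset.sum_nonneg fun _ _ => sq_nonneg _
  rw [avg, div_pow, ← mul_div_assoc, div_le_iff₀ (by positivity)]
  nlinarith [mul_le_mul_of_nonneg_right h2 h3]

lemma avg_add (f g : V n) : avg (fun i => f i + g i) = avg f + avg g := by
  simp [avg, Finset.sum_add_distrib, add_div]

lemma avg_mul (c : ℝ) (f : V n) : avg (fun i => c * f i) = c * avg f := by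
  simp [avg, ← Finset.mul_sum, mul_div_assoc]

lemma avg_mono {f g : V n} (h : ∀ i, f i ≤ g i) : avg f ≤ avg g :=
  div_le_div_of_nonneg_right (Finset.sum_le_sum fun i _ => h i) (Nat.cast_nonneg _)

lemma avg_nonneg {f : V n} (h : ∀ i, 0 ≤ f i) : 0 ≤ avg f :=
  div_nonneg (Finset.sum_nonneg fun i _ => h i) (Nat.cast_nonneg _)

lemma avg_le {f : V n} {A : ℝ} (hA : 0 ≤ A) (h : ∀ i, f i ≤ A) : avg f ≤ A := by
  rcases Nat.eq_zero_or_pos n with rfl | hn
  · simpa [avg] using hA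
  have hn' : (0:ℝ) < n := by exact_mod_cast hn
  rw [avg, div_le_iff₀ hn']
  exact (Finset.sum_le_card_nsmul _ _ A fun i _ => h i).trans (by simp [mul_comm])

lemma closure_sc {P Q Y Z a b c H v T : ℝ} (hb0 : 0 ≤ b) (hb1 : b ≤ 1) (hc : 0 < c)
    (hv : |v| ≤ 2 * H) (hT : 0 ≤ T) (ha : b * a ≤ 1 - c) (f1 : T = (1 + b * T) * P + b * Y)
    (f2 : v = b * v * Q + Z) (f3 : 2 * Q ≤ P + a) :
    c ^ 2 * v ^ 2 ≤ 8 * Z ^ 2 + 8 * H ^ 2 * Y ^ 2 := by
  have f4 : b * P ≤ 1 + |Y| := by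
    have h1 : 0 ≤ b * T := mul_nonneg hb0 hT
    have h2 : -(b * (b * Y)) ≤ |Y| := by
      have : |b * (b * Y)| ≤ |Y| := by
        rw [abs_mul, abs_mul, abs_of_nonneg hb0]
        nlinarith [abs_nonneg Y, mul_le_mul_of_nonneg_right hb1 (abs_nonneg Y)]
      exact (neg_le_abs _).trans this
    have h3 : (1 + b * T) * (b * P) ≤ (1 + b * T) * (1 + |Y|) := by
      have : b * T = b * ((1 + b * T) * P + b * Y) := congrArg (b * ·) f1
      linarith [mul_nonneg h1 (abs_nonneg Y)]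
    exact le_of_mul_le_mul_left h3 (by linarith)
  have f5 : c - |Y| ≤ 2 * (1 - b * Q) := by linarith [mul_le_mul_of_nonneg_left f3 hb0]
  have f6 : c * |v| ≤ 2 * |Z| + 2 * H * |Y| := by
    have h1 : |v| * (1 - b * Q) ≤ |Z| := by
      have : Z = v * (1 - b * Q) := by linarith
      rw [this, abs_mul]
      exact mul_le_mul_of_nonneg_left (le_abs_self _) (abs_nonneg _)
    linarith [mul_le_mul_of_nonneg_left f5 (abs_nonneg v),
      mul_le_mul_of_nonneg_right hv (abs_nonneg Y)]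
  have h1 := pow_le_pow_left₀ (by positivity) f6 2
  rw [mul_pow, sq_abs] at h1
  rw [← sq_abs Z, ← sq_abs Y]
  linarith [sq_nonneg (|Z| - H * |Y|)]

/-- stability of the self-consistent equation through the Ward identity -/
lemma closure {D h η ε : V n} {b c H v T : ℝ} (hb0 : 0 ≤ b) (hb1 : b ≤ 1) (hc : 0 < c)
    (hD0 : ∀ i, 0 ≤ D i) (hD1 : ∀ i, D i ≤ 1) (hH : ∀ i, |h i| ≤ H) (hv : |v| ≤ 2 * H)
    (hT : 0 ≤ T) (ha : b * avg D ≤ 1 - c)
    (e1 : ∀ i, h i = 1 + D i * h i * (η i + b * v)) (e2 : v = avg (fun i => D i * h i) - avg D)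
    (e3 : T = avg fun i => D i ^ 2 * h i ^ 2 * (1 + b * (T + ε i))) :
    c ^ 2 * (n * v ^ 2) ≤ 8 * H ^ 2 * ∑ i, η i ^ 2 + 8 * H ^ 6 * ∑ i, ε i ^ 2 := by
  have hD2 : ∀ i, D i ^ 2 ≤ D i := fun i => by nlinarith [hD0 i, hD1 i]
  have b1 : n * avg (fun i => (D i ^ 2 * h i ^ 2) * ε i) ^ 2 ≤ (H ^ 2) ^ 2 * ∑ i, ε i ^ 2 :=
    avg_mul_sq fun i => by
      rw [abs_of_nonneg (by positivity)]
      exact (mul_le_of_le_one_left (sq_nonneg _) ((hD2 i).trans (hD1 i))).trans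
        (sq_le_sq' (abs_le.1 (hH i)).1 (abs_le.1 (hH i)).2)
  have b2 : n * avg (fun i => (D i ^ 2 * h i) * η i) ^ 2 ≤ H ^ 2 * ∑ i, η i ^ 2 :=
    avg_mul_sq fun i => by
      rw [abs_mul, abs_of_nonneg (sq_nonneg _)]
      exact (mul_le_of_le_one_left (abs_nonneg _) ((hD2 i).trans (hD1 i))).trans (hH i)
  have f1 : T = (1 + b * T) * avg (fun i => D i ^ 2 * h i ^ 2) +
      b * avg (fun i => (D i ^ 2 * h i ^ 2) * ε i) := by
    rw [← avg_mul, ← avg_mul, ← avg_add]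
    exact e3.trans (congrArg avg (funext fun i => by ring))
  have f2 : v = b * v * avg (fun i => D i ^ 2 * h i) + avg (fun i => (D i ^ 2 * h i) * η i) := by
    have : avg (fun i => D i * h i) = avg D + (b * v * avg (fun i => D i ^ 2 * h i) +
        avg (fun i => (D i ^ 2 * h i) * η i)) := by
      rw [← avg_mul, ← avg_add, ← avg_add]
      refine congrArg avg (funext fun i => ?_)
      conv_lhs => rw [e1 i]
      ring
    linarith
  have f3 : 2 * avg (fun i => D i ^ 2 * h i) ≤ avg (fun i => D i ^ 2 * h i ^ 2) + avg D := by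
    rw [← avg_mul, ← avg_add]
    exact avg_mono fun i => by linarith [hD2 i, sq_nonneg (D i * h i - D i)]
  have f7 := closure_sc hb0 hb1 hc hv hT ha f1 f2 f3
  linarith [mul_le_mul_of_nonneg_left f7 (Nat.cast_nonneg (α := ℝ) n),
    mul_le_mul_of_nonneg_left b1 (sq_nonneg H)]

end Crest.Agent.T157.Tap.Uf
end
end

-- ▼ part T157/TapUfC_23

/-!
# Row 157, part A (helper23): the fixed-`d` freeness bound `UFfixStmt`
-/

set_option autoImplicit false

noncomputable section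

namespace Crest.Agent.T157.Tap.Uf

open MeasureTheory ProbabilityTheory Matrix Filter Set
open Crest.Agent.T157.E Crest.Agent.T157.Eig Crest.Agent.T157.Cond

variable {n : ℕ}

/-- quadratic form of row `i` -/
def qf (i : Fin n) (W M : Mx n) : ℝ := W *ᵥ ev i ⬝ᵥ M *ᵥ (W *ᵥ ev i)
/-- its fluctuation -/
def fl (i : Fin n) (W M : Mx n) : ℝ := qf i W M - M.trace / n
/-- the interaction -/
abbrev Bw (θ : ℝ) (d : V n) (W : Mx n) : Mx n := B0 (θ • W) (θ ^ 2) d
/-- the cavity resolvent -/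
def Gc (θ : ℝ) (d : V n) (i : Fin n) (W : Mx n) : Mx n := GG (Bw θ d W) (rm d i)
/-- total fluctuation at site `i` -/
def xi (θ : ℝ) (d : V n) (W : Mx n) (i : Fin n) : ℝ :=
  W i i ^ 2 + fl i W (Gc θ d i W) ^ 2 + fl i W (Gc θ d i W * 1 * Gc θ d i W) ^ 2 +
    fl i W (Gc θ d i W * W * Gc θ d i W) ^ 2

lemma Bw_symm {W : Mx n} (hW : Wᵀ = W) (θ : ℝ) (d : V n) : (Bw θ d W)ᵀ = Bw θ d W := by
  simp [Bw, B0, hW]

lemma avg_sq_mem {d : V n} (hd : Ub d) :
    0 ≤ avg (fun i => d i ^ 2) ∧ avg (fun i => d i ^ 2) ≤ 1 :=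
  ⟨avg_nonneg fun _ => sq_nonneg _, avg_le zero_le_one fun i => pow_le_one₀ (hd i).1 (hd i).2⟩

lemma opn_Bw_le {W : Mx n} (hW : opn W ≤ 3) {θ : ℝ} (hθ : θ ∈ Icc (0:ℝ) 1) {d : V n} (hd : Ub d) :
    opn (Bw θ d W) ≤ 4 := by
  refine (opn_sub_le _ _).trans ?_
  obtain ⟨a0, a1⟩ := avg_sq_mem hd
  have h2 : θ ^ 2 ≤ 1 := pow_le_one₀ hθ.1 hθ.2
  rw [opn_smul, opn_smul, abs_of_nonneg hθ.1, abs_of_nonneg (by positivity)]
  have h3 := mul_le_mul hθ.2 hW (opn_nonneg _) zero_le_one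
  have h4 := mul_le_mul (mul_le_one₀ h2 a0 a1) (opn_one_le (ι := Fin n)) (opn_nonneg _) zero_le_one
  linarith

lemma opn_one_add_le {A : Mx n} {a : ℝ} (h : opn A ≤ a) : opn (1 + A) ≤ 1 + a :=
  (opn_add_le _ _).trans (add_le_add opn_one_le h)

lemma abs_quad_le' {A : Mx n} {r : V n} {a ρ : ℝ} (h : opn A ≤ a) (hr : nrm r ≤ ρ) :
    |r ⬝ᵥ A *ᵥ r| ≤ a * ρ ^ 2 := by
  refine (abs_quad_le A r).trans ?_
  rw [← nrm_sq]
  exact mul_le_mul h (pow_le_pow_left₀ (nrm_nonneg _) hr 2) (sq_nonneg _)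
    ((opn_nonneg _).trans h)

lemma trace_diff {G G' S : Mx n} {r : V n} {κ H : ℝ} (e : G = G' + κ • vecMulVec r r)
    (hκ : |κ| ≤ H) (hr : nrm r ≤ H) (hG : opn G ≤ H) (hG' : opn G' ≤ H) (hS : opn S ≤ 3) :
    |(G * S * G).trace - (G' * S * G').trace| ≤ 6 * H ^ 4 := by
  have h1 : (G * S * G).trace - (G' * S * G').trace =
      κ * (r ⬝ᵥ (S * G) *ᵥ r + r ⬝ᵥ (G' * S) *ᵥ r) := by
    have : G * S * G = G' * S * G' + κ • (vecMulVec r r * (S * G) + G' * S * vecMulVec r r) := by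
      have e' : G * S * G = G' * S * G' + ((G - G') * (S * G) + G' * S * (G - G')) := by
        noncomm_ring
      rw [e', show G - G' = κ • vecMulVec r r by rw [e]; abel, Matrix.smul_mul, Matrix.mul_smul,
        smul_add]
    rw [this, Matrix.trace_add, Matrix.trace_smul, Matrix.trace_add,
      Matrix.trace_mul_comm (vecMulVec r r), trace_mul_vmv, trace_mul_vmv, smul_eq_mul]
    ring
  have h2 := abs_quad_le' (opn_mul_le' hS hG) hr
  have h3 := abs_quad_le' (opn_mul_le' hG' hS) hr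
  rw [h1, abs_mul]
  refine (mul_le_mul hκ ((abs_add_le _ _).trans (add_le_add h2 h3)) (abs_nonneg _)
    ((abs_nonneg _).trans hκ)).trans (le_of_eq (by ring))

lemma sq_shift {x t t' L : ℝ} (hn : 0 < n) (h : |t - t'| ≤ L) :
    (x - t / n) ^ 2 ≤ 2 * (x - t' / n) ^ 2 + 2 * L ^ 2 / n := by
  have hn' : (1:ℝ) ≤ n := by exact_mod_cast hn
  have h1 : ((t - t') / n) ^ 2 ≤ L ^ 2 / n := by
    rw [div_pow]
    exact div_le_div₀ (sq_nonneg _) (sq_le_sq' (abs_le.1 h).1 (abs_le.1 h).2) (by linarith)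
      (by nlinarith)
  have e : x - t / n = (x - t' / n) - (t - t') / n := by ring
  rw [e, mul_div_assoc]
  linarith [sq_nonneg ((x - t' / n) + (t - t') / n)]

/-- all the facts at one site -/
lemma site {c θ : ℝ} (hc : 0 < c) (hc1 : c ≤ 1) (hθ : θ ∈ Icc (0:ℝ) 1) {d : V n} (hd : Ub d)
    {W : Mx n} (hW : W ∈ Om c θ d) (i : Fin n) :
    opn (Gc θ d i W) ≤ 1 + 4 / c ∧ |RR (Bw θ d W) d i i| ≤ 1 + 4 / c ∧
    RR (Bw θ d W) d i i = 1 + d i ^ 2 * RR (Bw θ d W) d i i *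
      (θ * W i i - θ ^ 2 * avg (fun i => d i ^ 2) + θ ^ 2 * qf i W (Gc θ d i W)) ∧
    (RR (Bw θ d W) d * 1 * (RR (Bw θ d W) d)ᵀ) i i =
      RR (Bw θ d W) d i i ^ 2 * (1 + θ ^ 2 * qf i W (Gc θ d i W * 1 * Gc θ d i W)) ∧
    (RR (Bw θ d W) d * W * (RR (Bw θ d W) d)ᵀ) i i = RR (Bw θ d W) d i i ^ 2 *
      (W i i + 2 * θ * qf i W (Gc θ d i W) + θ ^ 2 * qf i W (Gc θ d i W * W * Gc θ d i W)) ∧
    |(GG (Bw θ d W) d).trace - (Gc θ d i W).trace| ≤ 6 * (1 + 4 / c) ^ 4 ∧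
    ∀ S : Mx n, opn S ≤ 3 → |(GG (Bw θ d W) d * S * GG (Bw θ d W) d).trace -
      (Gc θ d i W * S * Gc θ d i W).trace| ≤ 6 * (1 + 4 / c) ^ 4 := by
  obtain ⟨w1, w2, w3⟩ := hW
  have hB := Bw_symm w1 θ d
  have p' := pos_rm hc1 w3 i
  obtain ⟨c1, c2, c3⟩ := cavity hB i (pos_unit hc w3) (pos_unit hc p')
  have oB := opn_Bw_le w2 hθ hd
  have oG := opn_GG_le hc hd w3
  have oG' := opn_GG_le hc (ub_rm hd i) p'
  have s' := GG_symm hB (rm d i)
  have z := GG_rm_ev (Bw θ d W) d i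
  have hH : 1 / c ≤ 1 + 4 / c := by
    have : 0 < 1 / c := by positivity
    rw [show 4 / c = 4 * (1 / c) by ring]; linarith
  have hH1 : 1 ≤ 1 + 4 / c := le_add_of_nonneg_right (by positivity)
  have oh : |RR (Bw θ d W) d i i| ≤ 1 + 4 / c := (abs_entry_le _ i i).trans
    ((opn_one_add_le (opn_mul_le' oB oG)).trans (le_of_eq (by ring)))
  have or : nrm (rv (Bw θ d W) d i) ≤ 1 + 4 / c := by
    have : rv (Bw θ d W) d i = (1 + GG (Bw θ d W) (rm d i) * Bw θ d W) *ᵥ ev i := by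
      rw [rv, Matrix.add_mulVec, Matrix.one_mulVec, Matrix.mulVec_mulVec]
    rw [this]
    refine (nrm_mulVec_le _ _).trans ?_
    rw [nrm_single, mul_one]
    exact (opn_one_add_le (opn_mul_le' oG' oB)).trans (le_of_eq (by ring))
  have oκ : |d i ^ 2 * RR (Bw θ d W) d i i| ≤ 1 + 4 / c := by
    rw [abs_mul, abs_of_nonneg (sq_nonneg _)]
    exact (mul_le_of_le_one_left (abs_nonneg _) (pow_le_one₀ (hd i).1 (hd i).2)).trans oh
  have eB : Bw θ d W *ᵥ ev i = θ • W *ᵥ ev i - (θ ^ 2 * avg fun i => d i ^ 2) • ev i := by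
    rw [Bw, B0, Matrix.sub_mulVec, Matrix.smul_mulVec, Matrix.smul_mulVec, Matrix.one_mulVec]
  have er : rv (Bw θ d W) d i = ev i + θ • Gc θ d i W *ᵥ (W *ᵥ ev i) := by
    rw [rv, eB, Matrix.mulVec_sub, Matrix.mulVec_smul, Matrix.mulVec_smul, z, smul_zero, sub_zero,
      Gc]
  have eS : ∀ S : Mx n, (RR (Bw θ d W) d * S * (RR (Bw θ d W) d)ᵀ) i i =
      RR (Bw θ d W) d i i ^ 2 * (rv (Bw θ d W) d i ⬝ᵥ S *ᵥ rv (Bw θ d W) d i) := fun S => by
    have : (RR (Bw θ d W) d * S * (RR (Bw θ d W) d)ᵀ) i i =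
        (RR (Bw θ d W) d)ᵀ *ᵥ ev i ⬝ᵥ S *ᵥ ((RR (Bw θ d W) d)ᵀ *ᵥ ev i) := by
      rw [Matrix.mulVec_transpose, ← Matrix.dotProduct_mulVec, ← Matrix.mulVec_transpose,
        Matrix.mulVec_mulVec, Matrix.mulVec_mulVec, ev_dot]
      simp
    rw [this, c1, smul_dotProduct, Matrix.mulVec_smul, dotProduct_smul, smul_eq_mul, smul_eq_mul]
    ring
  have z' : ∀ x : V n, ev i ⬝ᵥ Gc θ d i W *ᵥ x = 0 := fun x => by
    rw [Gc, Cond.dot_symm s', z, zero_dotProduct]
  have ww : W *ᵥ ev i ⬝ᵥ ev i = W i i := by simp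
  have q3 : ∀ S : Mx n, Gc θ d i W *ᵥ (W *ᵥ ev i) ⬝ᵥ S *ᵥ (Gc θ d i W *ᵥ (W *ᵥ ev i)) =
      qf i W (Gc θ d i W * S * Gc θ d i W) := fun S => by
    rw [qf, ← Matrix.mulVec_mulVec (W *ᵥ ev i), ← Matrix.mulVec_mulVec _ (Gc θ d i W) S]
    exact (Cond.dot_symm s' _ _).symm
  refine ⟨oG'.trans hH, oh, ?_, ?_, ?_, ?_, fun S hS =>
    trace_diff c3 oκ or (oG.trans hH) (oG'.trans hH) hS⟩
  · refine c2.trans ?_
    congr 2
    rw [eB, er]
    simp only [sub_dotProduct, dotProduct_add, smul_dotProduct, dotProduct_smul, smul_eq_mul, z',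
      ww, qf]
    simp; ring
  · rw [eS, er, ← q3, Matrix.one_mulVec, Matrix.one_mulVec]
    simp only [add_dotProduct, dotProduct_add, smul_dotProduct, dotProduct_smul, smul_eq_mul, z',
      dotProduct_comm _ (ev i)]
    rw [show ev i ⬝ᵥ ev i = 1 by simp]; ring
  · rw [eS, er, ← q3]
    have a1 : ev i ⬝ᵥ W *ᵥ (Gc θ d i W *ᵥ (W *ᵥ ev i)) = qf i W (Gc θ d i W) :=
      Cond.dot_symm w1 _ _
    have a2 : Gc θ d i W *ᵥ (W *ᵥ ev i) ⬝ᵥ W *ᵥ ev i = qf i W (Gc θ d i W) := dotProduct_comm _ _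
    have a3 : ev i ⬝ᵥ W *ᵥ ev i = W i i := by simp
    simp only [add_dotProduct, dotProduct_add, smul_dotProduct, dotProduct_smul, smul_eq_mul,
      Matrix.mulVec_add, Matrix.mulVec_smul, a1, a2, a3]
    ring
  · have : (GG (Bw θ d W) d).trace - (Gc θ d i W).trace =
        d i ^ 2 * RR (Bw θ d W) d i i * nrm (rv (Bw θ d W) d i) ^ 2 := by
      rw [c3, Matrix.trace_add, Matrix.trace_smul, Matrix.trace_vecMulVec, nrm_sq, Gc, smul_eq_mul]
      ring
    rw [this, abs_mul, abs_of_nonneg (sq_nonneg (nrm _))]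
    refine (mul_le_mul oκ (pow_le_pow_left₀ (nrm_nonneg _) or 2) (sq_nonneg _) (by linarith)).trans ?_
    generalize 1 + 4 / c = H at hH1
    nlinarith [pow_pos (show 0 < H by linarith) 3]

lemma err_sc {h D θ w e1 e2 e3 v A X H : ℝ} (hH : 1 ≤ H) (hh : |h| ≤ H) (D0 : 0 ≤ D) (D1 : D ≤ 1)
    (t0 : 0 ≤ θ) (t1 : θ ≤ 1) (e : h = 1 + D * h * (θ * w + θ ^ 2 * e1 + θ ^ 2 * v))
    (hA : |A| ≤ 5 * H ^ 2) (hX : |X| ≤ 2 * (|w| + |e1| + |e2| + |e3| + |v|)) :
    (h - 1) ^ 2 ≤ θ ^ 2 * (720 * H ^ 8 * (w ^ 2 + e1 ^ 2 + e2 ^ 2 + e3 ^ 2 + v ^ 2)) ∧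
    ((1 - h ^ 2) * A - h ^ 2 * X) ^ 2 ≤
      720 * H ^ 8 * (w ^ 2 + e1 ^ 2 + e2 ^ 2 + e3 ^ 2 + v ^ 2) := by
  have m2 : (|w| + |e1| + |e2| + |e3| + |v|) ^ 2 ≤
      5 * (w ^ 2 + e1 ^ 2 + e2 ^ 2 + e3 ^ 2 + v ^ 2) := by
    rw [← sq_abs w, ← sq_abs e1, ← sq_abs e2, ← sq_abs e3, ← sq_abs v]
    linarith [sq_nonneg (|w| - |e1|), sq_nonneg (|w| - |e2|), sq_nonneg (|w| - |e3|),
      sq_nonneg (|w| - |v|), sq_nonneg (|e1| - |e2|), sq_nonneg (|e1| - |e3|),
      sq_nonneg (|e1| - |v|), sq_nonneg (|e2| - |e3|), sq_nonneg (|e2| - |v|),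
      sq_nonneg (|e3| - |v|)]
  have m1 : |w + θ * e1 + θ * v| ≤ |w| + |e1| + |e2| + |e3| + |v| := by
    have a1 := abs_add_three w (θ * e1) (θ * v)
    rw [abs_mul, abs_mul, abs_of_nonneg t0] at a1
    linarith [mul_le_of_le_one_left (abs_nonneg e1) t1, mul_le_of_le_one_left (abs_nonneg v) t1,
      abs_nonneg e2, abs_nonneg e3]
  have m0 : 0 ≤ |w| + |e1| + |e2| + |e3| + |v| := by positivity
  generalize |w| + |e1| + |e2| + |e3| + |v| = m at *
  generalize w ^ 2 + e1 ^ 2 + e2 ^ 2 + e3 ^ 2 + v ^ 2 = S at *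
  have H0 : 0 < H := by linarith
  have h1 : |h - 1| ≤ θ * (H * m) := by
    have : h - 1 = θ * (D * h * (w + θ * e1 + θ * v)) := by linarith
    rw [this, abs_mul, abs_mul, abs_mul, abs_of_nonneg t0, abs_of_nonneg D0]
    exact mul_le_mul_of_nonneg_left (mul_le_mul ((mul_le_of_le_one_left (abs_nonneg _) D1).trans hh)
      m1 (abs_nonneg _) H0.le) t0
  have h2 : |1 - h ^ 2| ≤ 2 * H * (H * m) := by
    rw [show 1 - h ^ 2 = -(h + 1) * (h - 1) by ring, abs_mul, abs_neg]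
    refine mul_le_mul ((abs_add_le _ _).trans ?_)
      (h1.trans (mul_le_of_le_one_left (by positivity) t1)) (abs_nonneg _) (by positivity)
    rw [abs_one]; linarith
  have h3 : h ^ 2 ≤ H ^ 4 := (sq_le_sq' (abs_le.1 hh).1 (abs_le.1 hh).2).trans
    (pow_le_pow_right₀ hH (by norm_num))
  have h4 : |(1 - h ^ 2) * A - h ^ 2 * X| ≤ 12 * H ^ 4 * m := by
    refine (abs_sub _ _).trans ?_
    rw [abs_mul, abs_mul, abs_of_nonneg (sq_nonneg h)]
    linarith [mul_le_mul h2 hA (abs_nonneg _) (by positivity),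
      mul_le_mul h3 hX (abs_nonneg _) (by positivity)]
  have h5 : (H * m) ^ 2 ≤ (12 * H ^ 4 * m) ^ 2 := by
    refine pow_le_pow_left₀ (by positivity) (mul_le_mul_of_nonneg_right ?_ m0) 2
    linarith [pow_le_pow_right₀ hH (show 1 ≤ 4 by norm_num), pow_one H]
  have h6 : (12 * H ^ 4 * m) ^ 2 ≤ 720 * H ^ 8 * S := by
    linarith [mul_le_mul_of_nonneg_left m2 (show 0 ≤ 144 * H ^ 8 by positivity)]
  refine ⟨?_, (sq_le_sq' (abs_le.1 h4).1 (abs_le.1 h4).2).trans h6⟩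
  refine (sq_le_sq' (abs_le.1 h1).1 (abs_le.1 h1).2).trans ?_
  rw [mul_pow]
  exact mul_le_mul_of_nonneg_left (h5.trans h6) (sq_nonneg _)

lemma abs_tr_div {M : Mx n} {L : ℝ} (h : opn M ≤ L) : |M.trace / n| ≤ L := by
  rcases Nat.eq_zero_or_pos n with rfl | hn
  · simpa using (opn_nonneg _).trans h
  have hn' : (0:ℝ) < n := by exact_mod_cast hn
  rw [abs_div, abs_of_pos hn', div_le_iff₀ hn', mul_comm]
  exact abs_trace_le h

lemma trace_div (M : Mx n) : M.trace / n = avg fun i => M i i := rfl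

lemma xi_nonneg (θ : ℝ) (d : V n) (W : Mx n) (i : Fin n) : 0 ≤ xi θ d W i := by
  unfold xi; positivity

/-- **deterministic part**: on the good event everything is bounded by the row fluctuations -/
theorem det_bound {c : ℝ} (hc : 0 < c) : ∃ K ≥ (0:ℝ), ∀ n : ℕ, 0 < n → ∀ θ ∈ Icc (0 : ℝ) 1,
    ∀ d : V n, Ub d → θ ^ 2 * avg (fun i => d i ^ 2) ≤ 1 - c → ∀ W ∈ Om c θ d,
      nrm (er1 θ d W) ^ 2 ≤ K * (∑ i, xi θ d W i + 1) ∧
      nrm (er2 θ d W) ^ 2 ≤ K * (∑ i, xi θ d W i + 1) ∧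
      n * ((GG (Bw θ d W) d).trace / n - avg fun i => d i ^ 2) ^ 2 ≤ K * (∑ i, xi θ d W i + 1) ∧
      ∑ i, (RR (Bw θ d W) d i i - 1) ^ 2 ≤ θ ^ 2 * (K * (∑ i, xi θ d W i + 1)) := by
  obtain ⟨H, hH⟩ : ∃ H, H = 1 + 4 / c := ⟨_, rfl⟩
  have H1 : 1 ≤ H := hH ▸ le_add_of_nonneg_right (by positivity)
  have Hc : 1 ≤ c * H := by rw [hH]; field_simp; linarith
  have H0 : 0 < H := by linarith
  refine ⟨720 * H ^ 8 * (17 * H ^ 8 * (216 * H ^ 8)), by positivity,
    fun n hn θ hθ d hd ha W hW => ?_⟩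
  obtain ⟨a0, a1⟩ := avg_sq_mem hd
  have hc1 : c ≤ 1 := by linarith [mul_nonneg (sq_nonneg θ) a0]
  have st := fun i => site hc hc1 hθ hd hW i
  rw [← hH] at st
  have oG : opn (GG (Bw θ d W) d) ≤ H := (opn_GG_le hc hd hW.2.2).trans (by
    rw [div_le_iff₀ hc]; linarith)
  have gl := GG_left (pos_unit hc hW.2.2)
  have gs := GG_symm (Bw_symm hW.1 θ d) d
  have t2 : θ ^ 2 ≤ 1 := pow_le_one₀ hθ.1 hθ.2
  have hw3 := hW.2.1
  have x1 : er1 θ d W = fun i => 1 + θ ^ 2 / n * (GG (Bw θ d W) d * 1 * GG (Bw θ d W) d).trace -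
    (RR (Bw θ d W) d * 1 * (RR (Bw θ d W) d)ᵀ) i i := rfl
  have x2 : er2 θ d W = fun i => (2 * θ * avg fun i => d i ^ 2) + θ ^ 2 / n *
    (GG (Bw θ d W) d * W * GG (Bw θ d W) d).trace -
    (RR (Bw θ d W) d * W * (RR (Bw θ d W) d)ᵀ) i i := rfl
  rw [x1, x2]
  change GG (Bw θ d W) d = Dm d * RR (Bw θ d W) d at gl
  generalize GG (Bw θ d W) d = G at *
  generalize RR (Bw θ d W) d = R at *
  obtain ⟨a, ea⟩ : ∃ a, a = avg fun i => d i ^ 2 := ⟨_, rfl⟩
  obtain ⟨v, hv⟩ : ∃ v, v = G.trace / n - a := ⟨_, rfl⟩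
  obtain ⟨e1, he1⟩ : ∃ e1 : V n, ∀ i, e1 i = qf i W (Gc θ d i W) - G.trace / n := ⟨_, fun _ => rfl⟩
  obtain ⟨e2, he2⟩ : ∃ e2 : V n, ∀ i, e2 i = qf i W (Gc θ d i W * 1 * Gc θ d i W) -
    (G * 1 * G).trace / n := ⟨_, fun _ => rfl⟩
  obtain ⟨e3, he3⟩ : ∃ e3 : V n, ∀ i, e3 i = qf i W (Gc θ d i W * W * Gc θ d i W) -
    (G * W * G).trace / n := ⟨_, fun _ => rfl⟩
  have o2 : |(G * 1 * G).trace / n| ≤ H * 1 * H :=
    abs_tr_div (opn_mul_le' (opn_mul_le' oG opn_one_le) oG)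
  have o3 : |(G * W * G).trace / n| ≤ H * 3 * H := abs_tr_div (opn_mul_le' (opn_mul_le' oG hw3) oG)
  have k1 : ∀ i, R i i = 1 + d i ^ 2 * R i i * (θ * W i i + θ ^ 2 * e1 i + θ ^ 2 * v) := fun i =>
    (st i).2.2.1.trans (by rw [he1, hv, ea]; ring)
  have k2 : G.trace / n = avg fun i => d i ^ 2 * R i i := by
    rw [trace_div]
    exact congrArg avg (funext fun i => by rw [gl, Dm, Matrix.diagonal_mul])
  have k3 : ∀ i, (G * 1 * G) i i = (d i ^ 2) ^ 2 * (R * 1 * Rᵀ) i i := fun i => by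
    have : G * 1 * G = Dm d * (R * 1 * Rᵀ) * Dm d := by
      conv_lhs => rw [← gs]
      rw [gs]
      conv_lhs => arg 2; rw [← gs]
      rw [gl, Matrix.transpose_mul, Dm, Matrix.diagonal_transpose]
      simp only [Matrix.mul_assoc]
    rw [this, Dm, Matrix.mul_diagonal, Matrix.diagonal_mul]; ring
  have k4 : 0 ≤ (G * 1 * G).trace / n := by
    rw [trace_div]
    refine avg_nonneg fun i => ?_
    rw [k3, Matrix.mul_one, Matrix.mul_apply]
    exact mul_nonneg (sq_nonneg _) (Finset.sum_nonneg fun j _ => mul_self_nonneg _)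
  have cl := closure (D := fun i => d i ^ 2) (h := fun i => R i i)
    (η := fun i => θ * W i i + θ ^ 2 * e1 i) (ε := e2) (H := H) (v := v)
    (T := (G * 1 * G).trace / n) (sq_nonneg θ) t2 hc (fun _ => sq_nonneg _)
    (fun i => pow_le_one₀ (hd i).1 (hd i).2) (fun i => (st i).2.1)
    (by
      have := abs_le.1 (abs_tr_div oG)
      rw [hv, ea, abs_le]; constructor <;> linarith)
    k4 ha k1 (by rw [hv, k2, ea])
    (by
      conv_lhs => rw [trace_div]
      refine congrArg avg (funext fun i => ?_)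
      rw [k3, (st i).2.2.2.1, he2]; ring)
  obtain ⟨S, hS⟩ : ∃ S, S = ∑ i, (W i i ^ 2 + e1 i ^ 2 + e2 i ^ 2 + e3 i ^ 2) := ⟨_, rfl⟩
  have S0 : 0 ≤ S := hS ▸ Finset.sum_nonneg fun i _ => by positivity
  have X0 : 0 ≤ ∑ i, xi θ d W i := Finset.sum_nonneg fun i _ => xi_nonneg θ d W i
  have H8 : 1 ≤ H ^ 8 := one_le_pow₀ H1
  have s1 : S ≤ 216 * H ^ 8 * (∑ i, xi θ d W i + 1) := by
    have hn' : (0:ℝ) < n := by exact_mod_cast hn
    have : S ≤ ∑ i, (2 * xi θ d W i + 216 * H ^ 8 / n) := by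
      rw [hS]
      refine Finset.sum_le_sum fun i _ => ?_
      have b1 := sq_shift (x := qf i W (Gc θ d i W)) hn (st i).2.2.2.2.2.1
      have b2 := sq_shift (x := qf i W (Gc θ d i W * 1 * Gc θ d i W)) hn
        ((st i).2.2.2.2.2.2 1 (opn_one_le.trans (by norm_num)))
      have b3 := sq_shift (x := qf i W (Gc θ d i W * W * Gc θ d i W)) hn
        ((st i).2.2.2.2.2.2 W hw3)
      rw [he1, he2, he3, xi, fl, fl, fl]
      have : 216 * H ^ 8 / n = 3 * (2 * (6 * H ^ 4) ^ 2 / n) := by ring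
      linarith [sq_nonneg (W i i)]
    rw [Finset.sum_add_distrib, ← Finset.mul_sum, Finset.sum_const, Finset.card_univ,
      Fintype.card_fin, nsmul_eq_mul, mul_div_cancel₀ _ hn'.ne'] at this
    linarith [mul_le_mul_of_nonneg_right H8 X0]
  have s2 : n * v ^ 2 ≤ 16 * H ^ 8 * S := by
    have b1 : ∑ i, (θ * W i i + θ ^ 2 * e1 i) ^ 2 * H ^ 2 + ∑ i, e2 i ^ 2 * H ^ 6 ≤
        2 * H ^ 6 * S := by
      rw [hS, Finset.mul_sum, ← Finset.sum_add_distrib]
      refine Finset.sum_le_sum fun i _ => ?_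
      have p1 : (θ * W i i + θ ^ 2 * e1 i) ^ 2 ≤ 2 * (W i i ^ 2 + e1 i ^ 2) := by
        have u1 := mul_le_of_le_one_left (sq_nonneg (W i i + θ * e1 i)) t2
        have u2 := mul_le_of_le_one_left (sq_nonneg (e1 i)) t2
        linarith [sq_nonneg (W i i - θ * e1 i)]
      have p2 := mul_le_mul p1 (pow_le_pow_right₀ H1 (show 2 ≤ 6 by norm_num)) (by positivity)
        (by positivity)
      linarith [mul_nonneg (sq_nonneg (e2 i)) (pow_pos H0 6).le,
        mul_nonneg (sq_nonneg (e3 i)) (pow_pos H0 6).le]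
    rw [← Finset.sum_mul, ← Finset.sum_mul] at b1
    have b2 : c ^ 2 * (n * v ^ 2) ≤ 16 * H ^ 6 * S := by linarith
    have b3 := mul_le_mul_of_nonneg_right (one_le_pow₀ (n := 2) Hc)
      (show 0 ≤ n * v ^ 2 by positivity)
    linarith [mul_le_mul_of_nonneg_left b2 (sq_nonneg H)]
  have s3 : S + n * v ^ 2 ≤ 17 * H ^ 8 * (216 * H ^ 8) * (∑ i, xi θ d W i + 1) := by
    linarith [mul_le_mul_of_nonneg_right H8 S0,
      mul_le_mul_of_nonneg_left s1 (show 0 ≤ 17 * H ^ 8 by positivity)]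
  have s4 : ∑ i, 720 * H ^ 8 * (W i i ^ 2 + e1 i ^ 2 + e2 i ^ 2 + e3 i ^ 2 + v ^ 2) ≤
      720 * H ^ 8 * (17 * H ^ 8 * (216 * H ^ 8)) * (∑ i, xi θ d W i + 1) := by
    rw [← Finset.mul_sum, Finset.sum_add_distrib, ← hS, Finset.sum_const, Finset.card_univ,
      Fintype.card_fin, nsmul_eq_mul, mul_assoc (720 * H ^ 8)]
    exact mul_le_mul_of_nonneg_left s3 (by positivity)
  have es := fun i {A X : ℝ} => err_sc (e2 := e2 i) (e3 := e3 i) (A := A) (X := X) H1 (st i).2.1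
    (sq_nonneg (d i)) (pow_le_one₀ (hd i).1 (hd i).2) hθ.1 hθ.2 (k1 i)
  have H2 : 1 ≤ H ^ 2 := one_le_pow₀ H1
  have hm : ∀ x : ℝ, |θ ^ 2 * x| ≤ |x| := fun x => by
    rw [abs_mul, abs_of_nonneg (sq_nonneg θ)]; exact mul_le_of_le_one_left (abs_nonneg _) t2
  have hm' : ∀ x : ℝ, |2 * θ * x| ≤ 2 * |x| := fun x => by
    rw [abs_mul, abs_mul, abs_of_nonneg hθ.1, abs_two]
    linarith [mul_le_of_le_one_left (abs_nonneg x) hθ.2]
  refine ⟨le_trans ?_ s4, le_trans ?_ s4, ?_, ?_⟩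
  · rw [nrm_sq, dotProduct]
    refine Finset.sum_le_sum fun i _ => le_trans (le_of_eq ?_)
      (es i (A := 1 + θ ^ 2 * ((G * 1 * G).trace / n)) (X := θ ^ 2 * e2 i) ?_ ?_).2
    · rw [(st i).2.2.2.1, he2]; ring
    · refine (abs_add_le _ _).trans ?_
      rw [abs_one]; linarith [hm ((G * 1 * G).trace / n)]
    · linarith [hm (e2 i), abs_nonneg (W i i), abs_nonneg (e1 i), abs_nonneg (e2 i),
        abs_nonneg (e3 i), abs_nonneg v]
  · rw [nrm_sq, dotProduct]
    refine Finset.sum_le_sum fun i _ => le_trans (le_of_eq ?_)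
      (es i (A := 2 * θ * a + θ ^ 2 * ((G * W * G).trace / n))
        (X := W i i + 2 * θ * v + (2 * θ * e1 i + θ ^ 2 * e3 i)) ?_ ?_).2
    · rw [(st i).2.2.2.2.1, he1, he3, hv, ← ea]; ring
    · refine (abs_add_le _ _).trans ?_
      have : |a| ≤ 1 := by rw [ea, abs_of_nonneg a0]; exact a1
      linarith [hm ((G * W * G).trace / n), hm' a]
    · linarith [abs_add_three (W i i) (2 * θ * v) (2 * θ * e1 i + θ ^ 2 * e3 i),
        abs_add_le (2 * θ * e1 i) (θ ^ 2 * e3 i), hm (e3 i), hm' v, hm' (e1 i), abs_nonneg (W i i),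
        abs_nonneg (e2 i), abs_nonneg (e3 i)]
  · rw [← ea, ← hv, mul_assoc (720 * H ^ 8)]
    have : 0 ≤ 17 * H ^ 8 * (216 * H ^ 8) * (∑ i, xi θ d W i + 1) := by positivity
    linarith [mul_le_mul_of_nonneg_right H8 this]
  · refine le_trans ?_ (mul_le_mul_of_nonneg_left s4 (sq_nonneg θ))
    rw [Finset.mul_sum]
    exact Finset.sum_le_sum fun i _ => (es i (A := 0) (X := 0) (by simpa using by positivity)
      (by simpa using by positivity)).1

/-! ### the probabilistic part -/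

lemma quad_l2 {A : Mx n} {F : ℝ} (hF : 0 < F) (h : Conc.fro A ≤ F) :
    ∫⁻ x, ENNReal.ofReal ((x ⬝ᵥ A *ᵥ x - A.trace) ^ 2) ∂gv (Fin n) ≤ ENNReal.ofReal (128 * F) := by
  have hK : 0 < √F := Real.sqrt_pos.2 hF
  have h1 := Conc.subE_gauss_quad (A := A) hK fun x => by
    have := ((Conc.opB_fro A).mono (Real.sqrt_le_sqrt h)).bilin x x
    linarith
  have ht : 0 < 1 / (4 * √F) := by positivity
  have h2 := h1.moment ht le_rfl 2
  have h3 := h1.integrable_pow ht 2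
  simp only [sq_abs] at h2 h3
  rw [← ofReal_integral_eq_lintegral_ofReal h3 (ae_of_all _ fun _ => sq_nonneg _)]
  refine ENNReal.ofReal_le_ofReal (h2.trans ?_)
  have e : (1 / (4 * √F)) ^ 2 = 1 / (16 * F) := by
    rw [div_pow, mul_pow, Real.sq_sqrt hF.le]; norm_num
  rw [e]
  have h4 : Real.exp (2 * Conc.fro A * (1 / (16 * F))) ≤ 2 := by
    have : 2 * Conc.fro A * (1 / (16 * F)) ≤ 1 / 2 := by
      rw [mul_one_div, div_le_iff₀ (by positivity)]; linarith
    refine (Real.exp_le_exp.2 this).trans ?_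
    have h5 := Real.exp_one_lt_d9
    have h6 : Real.exp (1 / 2) ^ 2 = Real.exp 1 := by rw [← Real.exp_nat_mul]; norm_num
    nlinarith [Real.exp_pos (1 / 2)]
  have e2 : 2 * ((2 : ℕ).factorial : ℝ) / (1 / (16 * F)) = 64 * F := by
    rw [Nat.factorial_two]; field_simp; norm_num
  rw [e2]
  linarith [mul_le_mul_of_nonneg_left h4 (show 0 ≤ 64 * F by positivity)]

/-- projector off site `i` -/
def Pm (i : Fin n) : Mx n := nextR 1 (ev i)
/-- the GOE rebuilt from its `i`-th row and the rest -/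
def Ps (i : Fin n) (ξ : V n) (W : Mx n) : Mx n :=
  (1 / √n : ℝ) • rk2 (noise 1 (ev i) ξ) (dirv 1 (ev i)) + Pm i * W * Pm i

lemma len_ev (i : Fin n) : len ((1 : Mx n) *ᵥ ev i) = 1 := by
  rw [Matrix.one_mulVec]; simp [len]

lemma dirv_ev (i : Fin n) : dirv 1 (ev i) = ev i := by
  rw [dirv, unitv, len_ev, Matrix.one_mulVec, inv_one, one_smul]

lemma proj_Pm (i : Fin n) : IsProj (Pm i) := IsProj.one.nextR _

lemma Pm_ev (i : Fin n) : Pm i *ᵥ ev i = 0 := nextR_v IsProj.one _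

lemma Ps_ev (i : Fin n) (ξ : V n) (W : Mx n) :
    Ps i ξ W *ᵥ ev i = (1 / √n : ℝ) • (ξ + ((√2 - 1) * ξ i) • ev i) := by
  rw [Ps, Matrix.add_mulVec, ← Matrix.mulVec_mulVec, Pm_ev, Matrix.mulVec_zero, add_zero,
    Matrix.smul_mulVec, rk2_mulVec_v IsProj.one _ (Matrix.one_mulVec _), len_ev, one_smul,
    noise_eq IsProj.one, dirv_ev, ev_dot, Matrix.one_mulVec]

lemma Pm_Ps (i : Fin n) (ξ : V n) (W : Mx n) : Pm i * Ps i ξ W * Pm i = Pm i * W * Pm i := by
  rw [Ps, Matrix.mul_add, Matrix.add_mul, Matrix.mul_smul, Matrix.smul_mul, Pm,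
    nextR_rk2_nextR IsProj.one, smul_zero, zero_add, ← Pm]
  calc _ = (Pm i * Pm i) * W * (Pm i * Pm i) := by simp only [Matrix.mul_assoc]
    _ = _ := by rw [(proj_Pm i).idem]

lemma lint_row (i : Fin n) {f : Mx n → ENNReal} (hf : Measurable f) {C : ENNReal}
    (h : ∀ W, ∫⁻ ξ, f (Ps i ξ W) ∂gv (Fin n) ≤ C) : ∫⁻ W, f W ∂GOE n ≤ C := by
  have h1 := goe_step0 (IsProj.one (ι := Fin n)) (ev i) (1 / √n)
  simp only [Matrix.one_mul, Matrix.mul_one, Measure.map_id'] at h1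
  have hm : Measurable fun p : V n × Mx n => Ps i p.1 p.2 := by unfold Ps; fun_prop
  have h2 : GOE n = ((gv (Fin n)).prod (GOE n)).map fun p => Ps i p.1 p.2 := h1
  rw [h2, lintegral_map hf hm,
    lintegral_prod_symm' (fun p : V n × Mx n => f (Ps i p.1 p.2)) (hf.comp hm)]
  exact (lintegral_mono h).trans (by simp)

lemma measurable_fl (i : Fin n) {M : Mx n → Mx n} (hM : Measurable M) :
    Measurable fun W => fl i W (M W) := by unfold fl qf; fun_prop

/-- the truncated squared fluctuation -/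
def tf (L : ℝ) (i : Fin n) (M : Mx n → Mx n) (W : Mx n) : ℝ :=
  if opn (M W) ≤ L then fl i W (M W) ^ 2 else 0

lemma tf_nonneg (L : ℝ) (i : Fin n) (M : Mx n → Mx n) (W : Mx n) : 0 ≤ tf L i M W := by
  unfold tf; split_ifs <;> positivity

lemma measurable_tf (L : ℝ) (i : Fin n) {M : Mx n → Mx n} (hM : Measurable M) :
    Measurable (tf L i M) :=
  Measurable.ite (measurableSet_le (by fun_prop) measurable_const)
    ((measurable_fl i hM).pow_const 2) measurable_const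

lemma int_of_lint {f : Mx n → ℝ} (hf : Measurable f) (h0 : ∀ W, 0 ≤ f W) {C : ℝ} (hC : 0 ≤ C)
    (h : ∫⁻ W, ENNReal.ofReal (f W) ∂GOE n ≤ ENNReal.ofReal C) :
    Integrable f (GOE n) ∧ ∫ W, f W ∂GOE n ≤ C := by
  refine ⟨⟨hf.aestronglyMeasurable, (hasFiniteIntegral_iff_ofReal (ae_of_all _ h0)).2
    (h.trans_lt ENNReal.ofReal_lt_top)⟩, ?_⟩
  rw [integral_eq_lintegral_of_nonneg_ae (ae_of_all _ h0) hf.aestronglyMeasurable]
  exact ENNReal.toReal_le_of_le_ofReal hC h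

/-- **quadratic forms of a row** in a matrix that does not see the row -/
theorem row_l2 (hn : 0 < n) (i : Fin n) {M : Mx n → Mx n} (hM : Measurable M)
    (h1 : ∀ W, M (Pm i * W * Pm i) = M W) (h2 : ∀ W, Pm i * M W * Pm i = M W) {L : ℝ}
    (hL : 0 < L) : Integrable (tf L i M) (GOE n) ∧ ∫ W, tf L i M W ∂GOE n ≤ 128 * L ^ 2 / n := by
  have hn' : (0:ℝ) < n := by exact_mod_cast hn
  refine int_of_lint (measurable_tf L i hM) (tf_nonneg L i M) (by positivity)
    (lint_row i (measurable_tf L i hM).ennreal_ofReal fun W => ?_)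
  have e1 : ∀ ξ, M (Ps i ξ W) = M W := fun ξ => by rw [← h1, Pm_Ps, h1]
  by_cases hW : opn (M W) ≤ L
  · have e2 : ∀ ξ, tf L i M (Ps i ξ W) = 1 / n ^ 2 * (ξ ⬝ᵥ M W *ᵥ ξ - (M W).trace) ^ 2 := fun ξ => by
      have a : ∀ x : V n, x ⬝ᵥ M W *ᵥ x = Pm i *ᵥ x ⬝ᵥ M W *ᵥ (Pm i *ᵥ x) := fun x => by
        conv_lhs => rw [← h2 W, ← Matrix.mulVec_mulVec, ← Matrix.mulVec_mulVec, (proj_Pm i).dot]
      have b : (1 / √n : ℝ) * (1 / √n) = 1 / n := by
        rw [div_mul_div_comm, Real.mul_self_sqrt hn'.le, one_mul]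
      rw [tf, e1, if_pos hW, fl, qf, Ps_ev, Matrix.mulVec_smul, smul_dotProduct, dotProduct_smul,
        a (ξ + _), Matrix.mulVec_add, Matrix.mulVec_smul, Pm_ev, smul_zero, add_zero, ← a,
        smul_eq_mul, smul_eq_mul, ← mul_assoc, b]
      ring
    simp only [e2, ENNReal.ofReal_mul (show (0:ℝ) ≤ 1 / n ^ 2 by positivity)]
    rw [lintegral_const_mul' _ _ ENNReal.ofReal_ne_top]
    refine (mul_le_mul_right (quad_l2 (by positivity) (fro_le hW)) _).trans (le_of_eq ?_)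
    rw [← ENNReal.ofReal_mul (by positivity)]
    congr 1; field_simp
  · simp [tf, e1, hW]

lemma diag_l2 (hn : 0 < n) (i : Fin n) :
    Integrable (fun W : Mx n => W i i ^ 2) (GOE n) ∧ ∫ W, W i i ^ 2 ∂GOE n ≤ 260 / n := by
  have hn' : (0:ℝ) < n := by exact_mod_cast hn
  have hm : Measurable fun W : Mx n => W i i ^ 2 := (measurable_id.t157_entry i i).pow_const 2
  refine int_of_lint hm (fun _ => sq_nonneg _) (by positivity)
    (lint_row i hm.ennreal_ofReal fun W => ?_)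
  have e : ∀ ξ : V n, Ps i ξ W i i ^ 2 ≤ 2 / n * ((ξ ⬝ᵥ vecMulVec (ev i) (ev i) *ᵥ ξ -
      (vecMulVec (ev i) (ev i)).trace) ^ 2 + 2) := fun ξ => by
    have a := congrFun (Ps_ev i ξ W) i
    have a' : Ps i ξ W i i = 1 / √n * (√2 * ξ i) := by
      simp only [Matrix.mulVec_single_one, Matrix.col_apply, Pi.smul_apply, Pi.add_apply,
        Pi.single_eq_same, smul_eq_mul] at a
      rw [a]; ring
    rw [a', vmv_mulVec, Matrix.trace_vecMulVec, ev_dot, ev_dot, dotProduct_smul, dotProduct_comm,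
      ev_dot, mul_pow, mul_pow, div_pow, Real.sq_sqrt hn'.le, Real.sq_sqrt zero_le_two]
    simp only [Pi.single_eq_same, smul_eq_mul]
    rw [show 1 ^ 2 / (n:ℝ) * (2 * ξ i ^ 2) = 2 / n * ξ i ^ 2 by ring]
    exact mul_le_mul_of_nonneg_left (by nlinarith [sq_nonneg (ξ i * ξ i - 2)]) (by positivity)
  refine (lintegral_mono fun ξ => ENNReal.ofReal_le_ofReal (e ξ)).trans ?_
  simp only [ENNReal.ofReal_mul (show (0:ℝ) ≤ 2 / n by positivity),
    ENNReal.ofReal_add (sq_nonneg _) zero_le_two]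
  rw [lintegral_const_mul' _ _ ENNReal.ofReal_ne_top, lintegral_add_right _ measurable_const]
  have hf : Conc.fro (vecMulVec (ev i) (ev i)) ≤ 1 := by
    simp [Conc.fro, vecMulVec_apply, Pi.single_apply]
  refine (mul_le_mul_right (add_le_add_left (quad_l2 one_pos hf) _) _).trans (le_of_eq ?_)
  rw [lintegral_const, measure_univ, mul_one, mul_one,
    ← ENNReal.ofReal_add (by norm_num) zero_le_two, ← ENNReal.ofReal_mul (by positivity)]
  congr 1; ring

lemma diag_Pm (d : V n) (i : Fin n) : diagonal (rm d i) * Pm i = diagonal (rm d i) := by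
  have : diagonal (rm d i) *ᵥ ev i = 0 := by
    funext j
    rw [Matrix.mulVec_diagonal]
    by_cases h : j = i
    · subst h; simp [rm]
    · simp [h]
  rw [Pm, nextR, dirv_ev, Matrix.mul_sub, Matrix.mul_vecMulVec, this]; simp

lemma Pm_diag (d : V n) (i : Fin n) : Pm i * diagonal (rm d i) = diagonal (rm d i) := by
  have := congrArg Matrix.transpose (diag_Pm d i)
  rwa [Matrix.transpose_mul, (proj_Pm i).symm, Matrix.diagonal_transpose] at this

lemma Gc_Pm (θ : ℝ) (d : V n) (i : Fin n) (W : Mx n) : Gc θ d i W * Pm i = Gc θ d i W := by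
  rw [Gc, GG, Matrix.mul_assoc, diag_Pm]

lemma Pm_Gc (θ : ℝ) (d : V n) (i : Fin n) (W : Mx n) : Pm i * Gc θ d i W = Gc θ d i W := by
  rw [Gc, GG, ← Matrix.mul_assoc, ← Matrix.mul_assoc, Pm_diag]

lemma Gc_compress (θ : ℝ) (d : V n) (i : Fin n) (W : Mx n) :
    Gc θ d i (Pm i * W * Pm i) = Gc θ d i W := by
  have : diagonal (rm d i) * (Pm i * W * Pm i) * diagonal (rm d i) =
      diagonal (rm d i) * W * diagonal (rm d i) := by
    calc _ = (diagonal (rm d i) * Pm i) * W * (Pm i * diagonal (rm d i)) := by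
          simp only [Matrix.mul_assoc]
      _ = _ := by rw [diag_Pm, Pm_diag]
  simp only [Gc, GG, NN, Bw, B0, Matrix.mul_sub, Matrix.sub_mul, Matrix.mul_smul, Matrix.smul_mul,
    this]

lemma measurable_Gc (θ : ℝ) (d : V n) (i : Fin n) : Measurable (Gc θ d i) := by
  unfold Gc; fun_prop

/-- every function dominated by the row fluctuations has a bounded integral over `Om` -/
theorem xi_l2 {c : ℝ} (hc : 0 < c) : ∃ K₀ ≥ (0:ℝ), ∀ n : ℕ, 0 < n → ∀ θ ∈ Icc (0 : ℝ) 1,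
    ∀ d : V n, Ub d → c ≤ 1 → ∀ (K : ℝ) (f : Mx n → ℝ), 0 ≤ K → (∀ W, 0 ≤ f W) →
      (∀ W ∈ Om c θ d, f W ≤ K * (∑ i, xi θ d W i + 1)) →
      ∫ W in Om c θ d, f W ∂GOE n ≤ K * K₀ := by
  obtain ⟨H, hH⟩ : ∃ H, H = 1 + 4 / c := ⟨_, rfl⟩
  have H1 : 1 ≤ H := hH ▸ le_add_of_nonneg_right (by positivity)
  have hL : 0 < 3 * H ^ 2 := by positivity
  refine ⟨260 + 3 * (128 * (3 * H ^ 2) ^ 2) + 1, by positivity,
    fun n hn θ hθ d hd hc1 K f hK f0 hf => ?_⟩
  have hn' : (0:ℝ) < n := by exact_mod_cast hn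
  have r0 := fun i => diag_l2 hn i
  have r1 := fun i => row_l2 hn i (measurable_Gc θ d i) (Gc_compress θ d i)
    (fun W => by rw [Pm_Gc, Gc_Pm]) hL
  have r2 := fun i => row_l2 hn i (M := fun W => Gc θ d i W * 1 * Gc θ d i W)
    (by have := measurable_Gc θ d i; fun_prop) (fun W => by rw [Gc_compress])
    (fun W => by rw [← Matrix.mul_assoc, ← Matrix.mul_assoc, Pm_Gc, Matrix.mul_assoc, Gc_Pm]) hL
  have r3 := fun i => row_l2 hn i (M := fun W => Gc θ d i W * W * Gc θ d i W)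
    (by have := measurable_Gc θ d i; fun_prop) (fun W => by
      rw [Gc_compress]
      calc _ = (Gc θ d i W * Pm i) * W * (Pm i * Gc θ d i W) := by simp only [Matrix.mul_assoc]
        _ = _ := by rw [Pm_Gc, Gc_Pm])
    (fun W => by rw [← Matrix.mul_assoc, ← Matrix.mul_assoc, Pm_Gc, Matrix.mul_assoc, Gc_Pm]) hL
  obtain ⟨g, hg⟩ : ∃ g : Fin n → Mx n → ℝ, ∀ i, g i = fun W => W i i ^ 2 +
    tf (3 * H ^ 2) i (Gc θ d i) W + tf (3 * H ^ 2) i (fun W => Gc θ d i W * 1 * Gc θ d i W) W +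
    tf (3 * H ^ 2) i (fun W => Gc θ d i W * W * Gc θ d i W) W := ⟨_, fun _ => rfl⟩
  have gi : ∀ i, Integrable (g i) (GOE n) := fun i => by
    rw [hg]; exact (((r0 i).1.add (r1 i).1).add (r2 i).1).add (r3 i).1
  have gb : ∀ i, ∫ W, g i W ∂GOE n ≤ (260 + 3 * (128 * (3 * H ^ 2) ^ 2)) / n := fun i => by
    rw [hg]
    have i1 := (r0 i).1.add (r1 i).1
    have i2 := i1.add (r2 i).1
    beta_reduce
    erw [integral_add i2 (r3 i).1, integral_add i1 (r2 i).1, integral_add (r0 i).1 (r1 i).1]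
    rw [add_div, mul_div_assoc]
    linarith [(r0 i).2, (r1 i).2, (r2 i).2, (r3 i).2]
  have g0 : ∀ i W, 0 ≤ g i W := fun i W => by
    rw [hg]
    exact add_nonneg (add_nonneg (add_nonneg (sq_nonneg _) (tf_nonneg ..)) (tf_nonneg ..))
      (tf_nonneg ..)
  have gx : ∀ W ∈ Om c θ d, ∀ i, xi θ d W i = g i W := fun W hW i => by
    have o := hH ▸ (site hc hc1 hθ hd hW i).1
    have o1 : opn (Gc θ d i W) ≤ 3 * H ^ 2 := by nlinarith
    have o2 : opn (Gc θ d i W * 1 * Gc θ d i W) ≤ 3 * H ^ 2 :=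
      (opn_mul_le' (opn_mul_le' o opn_one_le) o).trans (by nlinarith)
    have o3 : opn (Gc θ d i W * W * Gc θ d i W) ≤ 3 * H ^ 2 :=
      (opn_mul_le' (opn_mul_le' o hW.2.1) o).trans (le_of_eq (by ring))
    rw [hg]
    simp only [xi, tf, if_pos o1, if_pos o2, if_pos o3]
  have gs : Integrable (fun W => ∑ i, g i W) (GOE n) := integrable_finsetSum _ fun i _ => gi i
  have gI : Integrable (fun W => K * (∑ i, g i W + 1)) (GOE n) :=
    (gs.add (integrable_const 1)).const_mul K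
  calc ∫ W in Om c θ d, f W ∂GOE n ≤ ∫ W in Om c θ d, K * (∑ i, g i W + 1) ∂GOE n := by
        refine integral_mono_of_nonneg (ae_of_all _ f0) gI.integrableOn ?_
        filter_upwards [ae_restrict_mem (measurableSet_Om c θ d)] with W hW
        simpa only [gx W hW] using hf W hW
    _ ≤ ∫ W, K * (∑ i, g i W + 1) ∂GOE n := setIntegral_le_integral gI (ae_of_all _ fun W =>
        mul_nonneg hK (add_nonneg (Finset.sum_nonneg fun i _ => g0 i W) zero_le_one))
    _ ≤ _ := by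
        rw [integral_const_mul, integral_add gs (integrable_const 1),
          integral_finsetSum _ fun i _ => gi i]
        refine mul_le_mul_of_nonneg_left (add_le_add ?_ (by simp)) hK
        refine (Finset.sum_le_card_nsmul _ _ _ fun i _ => gb i).trans (le_of_eq ?_)
        rw [Finset.card_univ, Fintype.card_fin, nsmul_eq_mul, mul_div_cancel₀ _ hn'.ne']

/-- the four `L²` bounds -/
theorem fix_l2 {c : ℝ} (hc : 0 < c) : ∃ K : ℝ, ∀ n : ℕ, 0 < n → ∀ θ ∈ Icc (0 : ℝ) 1, ∀ d : V n,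
    Ub d → θ ^ 2 * avg (fun i => d i ^ 2) ≤ 1 - c →
      ∫ W in Om c θ d, nrm (er1 θ d W) ^ 2 ∂GOE n ≤ K ∧
      ∫ W in Om c θ d, nrm (er2 θ d W) ^ 2 ∂GOE n ≤ K ∧
      ∫ W in Om c θ d, n * ((GG (Bw θ d W) d).trace / n - avg fun i => d i ^ 2) ^ 2 ∂GOE n ≤ K ∧
      ∫ W in Om c θ d, ∑ i, (RR (Bw θ d W) d i i - 1) ^ 2 ∂GOE n ≤ θ ^ 2 * K := by
  obtain ⟨K, hK, h⟩ := det_bound hc
  obtain ⟨K₀, -, h0⟩ := xi_l2 hc
  refine ⟨K * K₀, fun n hn θ hθ d hd ha => ?_⟩
  have hc1 : c ≤ 1 := by linarith [mul_nonneg (sq_nonneg θ) (avg_sq_mem hd).1]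
  have h1 := h0 n hn θ hθ d hd hc1
  have h2 := h n hn θ hθ d hd ha
  refine ⟨h1 K _ hK (fun _ => sq_nonneg _) fun W hW => (h2 W hW).1,
    h1 K _ hK (fun _ => sq_nonneg _) fun W hW => (h2 W hW).2.1,
    h1 K _ hK (fun _ => by positivity) fun W hW => (h2 W hW).2.2.1, ?_⟩
  rw [← mul_assoc]
  exact h1 _ _ (by positivity) (fun _ => by positivity) fun W hW =>
    (h2 W hW).2.2.2.trans (le_of_eq (by ring))


end Crest.Agent.T157.Tap.Uf

namespace Crest.Agent.T157.Tap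

/-- **the fixed-`d` freeness bound** -/
theorem ufFix : UFfixStmt := fun _ hc =>
  let ⟨K, h⟩ := Uf.fix_l2 hc
  ⟨K, fun n hn θ hθ d hd ha => ⟨(h n hn θ hθ d hd ha).1, (h n hn θ hθ d hd ha).2.1⟩⟩

end Crest.Agent.T157.Tap
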