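import Crest.Agent.T157.LpG1_17
import Crest.Agent.T157.LpKs_17
import Crest.Agent.T157.CondD_53
import Crest.Agent.T157.ConcH_16
import Crest.Agent.T157.NrmG_84
import Crest.Agent.T157.LpSmB_61
import Crest.Agent.T157.TapUfD_14
import Crest.Agent.T157.TapDef_29
import Crest.Agent.T157.KrR_53
import Crest.Agent.T157.TapUfC_23_Mg
import Crest.Agent.T157.Glue_34

-- ▼ part T157/LpFis_23
section

/-!
# Row 157, part A (helper23): `Lp.FisStmt` and `Lp.LastGlue`
-/

set_option autoImplicit false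

noncomputable section

namespace Crest.Agent.T157.Lp

open MeasureTheory ProbabilityTheory Matrix Filter Set
open Crest.Agent.T157.E Crest.Agent.T157.Eig Crest.Agent.T157.Tap

variable {n : ℕ}

namespace Fis23

lemma dir_nonneg {u : Cube n → ℝ} (hu : SL.Wt u) (f : Cube n → ℝ) : 0 ≤ dir u f :=
  Finset.sum_nonneg fun _ _ => Finset.sum_nonneg fun x _ =>
    mul_nonneg (hu.prob_nonneg x) (sq_nonneg _)

lemma dir_div (u f : Cube n → ℝ) (c : ℝ) : dir u (fun x => f x / c) = dir u f / c ^ 2 := by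
  simp only [dir, Finset.sum_div, siteM]
  refine Finset.sum_congr rfl fun i _ => Finset.sum_congr rfl fun x _ => ?_
  ring

lemma dir_le {u : Cube n → ℝ} (hu : ∀ x, 0 < u x) (f : Cube n → ℝ) :
    dir u f ≤ n * mean u fun x => f x ^ 2 := by
  have hp : ∀ x, 0 < prob u x := fun x => div_pos (hu x) (SL.Wt.of_pos hu).pos
  rw [SL.dir_eq_dir2, SL.dir2_eq hu, Finset.sum_div]
  refine (Finset.sum_le_card_nsmul _ _ (mean u fun x => f x ^ 2) fun i _ => ?_).trans (by simp)
  rw [mean, SL.sum_flip i fun x => prob u x * f x ^ 2]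
  refine div_le_div_of_nonneg_right (Finset.sum_le_sum fun x _ => ?_) zero_le_two
  have h1 := hp (Function.update x i true)
  have h2 := hp (Function.update x i false)
  rw [SL.edge, SL.incr, div_mul_eq_mul_div, div_le_iff₀ (by positivity)]
  nlinarith [sq_nonneg (prob u (Function.update x i true) * f (Function.update x i true) +
    prob u (Function.update x i false) * f (Function.update x i false))]

lemma fis_mul {u g : Cube n → ℝ} (hu : ∀ x, 0 < u x) (h0 : 0 < mean u g) :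
    fis u (fun x => u x * g x) = dir u (fun x => √(g x)) / mean u g := by
  have hw := SL.Wt.of_pos hu
  have e : (fun σ => √(prob (fun x => u x * g x) σ / prob u σ)) = fun σ => √(g σ) / √(mean u g) := by
    funext σ
    have hp : prob u σ ≠ 0 := (div_pos (hu σ) hw.pos).ne'
    rw [SL.prob_mul_weight _ _ hw.pos.ne', ← Real.sqrt_div' _ h0.le]
    congr 1; field_simp
  rw [fis, e, dir_div, Real.sq_sqrt h0.le]

end Fis23

open Fis23 G1

theorem fisStmt : FisStmt := fun n w v t hw hv ht => by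
  have hW := SL.Wt.of_pos hw
  obtain ⟨g, hg⟩ : ∃ g : Cube n → ℝ, g = fun x => v x / w x := ⟨_, rfl⟩
  have g0 : ∀ x, 0 ≤ g x := fun x => hg ▸ div_nonneg (hv.nn x) (hw x).le
  have ev : v = fun x => w x * g x := funext fun x => by rw [hg, mul_div_cancel₀ _ (hw x).ne']
  have m0 : 0 < mean w g := by
    obtain ⟨x, hx⟩ := hv.exists_pos
    exact (hW.mean_pos_iff g0).2 ⟨x, hw x, hg ▸ div_pos hx (hw x)⟩
  have tp : ∀ y x, 0 < tilt w y x := fun y x => mul_pos (hw x) (Real.exp_pos _)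
  have m1 : ∀ y, 0 < mean (tilt w y) g := fun y => by
    rw [← SL.mean_post_sv w t]; exact hW.mean_post_pos g0 m0 _ _ _
  have e : ∀ y, fis (tilt w y) (tilt v y) =
      dir (tilt w y) (fun x => √(g x)) / mean (tilt w y) g := fun y => by
    rw [← fis_mul (tp y) (m1 y)]
    congr 1; funext x; rw [ev]; simp only [tilt]; ring
  have md : SL.MG fun y => dir (tilt w y) fun x => √(g x) := by
    simpa only [SL.pw, SL.dir_post_sv] using
      (SL.eg_dir (φ := sv) (I := {0}) hw fun x => √(g x)).mg (t := 0) rfl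
  have mg : SL.MG fun y => fis (tilt w y) (tilt v y) := by
    simp only [e]
    refine .of_bdd (md.meas.div (continuous_mean_tilt hW g).measurable) n fun y => ?_
    rw [abs_of_nonneg (div_nonneg (dir_nonneg (hW.tilt y) _) (m1 y).le), div_le_iff₀ (m1 y)]
    simpa only [Real.sq_sqrt (g0 _)] using dir_le (tp y) fun x => √(g x)
  refine ⟨mg, ?_⟩
  have h1 := SL.slE_mul_weight' (φ := sv) hW ht g (.of_mg fun _ => mg)
  rw [← ev] at h1
  have h2 := SL.ex_dir_le (φ := sv) hw ht fun x => √(g x)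
  have h3 := fis_mul hw m0
  rw [← ev] at h3
  rw [h1, h3]
  refine div_le_div_of_nonneg_right (le_trans (le_of_eq ?_) h2) m0.le
  simp only [SL.ex, SL.pw, SL.dir_post_sv, SL.mean_post_sv, e, mul_div_cancel₀ _ (m1 _).ne']

theorem lastGlue : LastGlue := fun hF η hη => by
  refine ⟨10 / η ^ 2, fun M hM τ hτ => ?_⟩
  filter_upwards [(tendsto_natCast_atTop_atTop (R := ℝ)).eventually_ge_atTop ((M + 4) / τ)] with
    n hn J b T0 hE T h0 h2 v hv
  have hT : 0 < T := lt_of_lt_of_le (by positivity) h2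
  have hw : ∀ x, 0 < ising J 0 x := fun x => Real.exp_pos _
  obtain ⟨mg, hle⟩ := hF n (ising J 0) v T hw hv hT.le
  have hA : ∀ σ : Cube n, MeasurableSet {y : V n | η * T * √n < nrm (y - T • sv σ)} := fun σ =>
    measurableSet_lt measurable_const (continuous_nrm.measurable.comp (by fun_prop))
  have m1 : ∀ σ : Cube n, SL.MG ({y : V n | η * T * √n < nrm (y - T • sv σ)}.indicator
    fun _ => (4 * n : ℝ)) := fun σ => (SL.MG.const _).indicator (hA σ)
  have m2 := (mg.add (.const 1)).const_mul M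
  have k1 := SL.slE_mono (φ := sv) (s := T) hv (.of_mg fun _ => mg_Dv J b hv)
    (.of_mg fun σ => m2.add (m1 σ)) fun σ y => by
      have f0 : 0 ≤ fis (tilt (ising J 0) y) (tilt v y) := dir_nonneg ((SL.Wt.of_pos hw).tilt y) _
      by_cases hy : η * T * √n < nrm (y - T • sv σ)
      · rw [indicator_of_mem (by exact hy)]
        linarith [Dv_le J b hv y, mul_nonneg hM (add_nonneg f0 zero_le_one)]
      · rw [indicator_of_notMem (by exact hy), add_zero, ← ising_eq_tilt]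
        exact hE T h0 σ y (not_lt.1 hy) _ (hv.tilt y)
  rw [SL.slE_add (.of_mg fun _ => m2) (.of_mg m1), SL.slE_const_mul,
    SL.slE_add (.of_mg fun _ => mg) (.of_mg fun _ => .const 1), slE_const hv] at k1
  have k2 : slE sv v T (fun σ => {y : V n | η * T * √n < nrm (y - T • sv σ)}.indicator
      fun _ => (4 * n : ℝ)) ≤ 4 := by
    rw [SL.slE_eq_mean]
    refine hv.mean_le fun σ => ?_
    have hB : MeasurableSet {g : V n | 10 * (n : ℝ) ≤ g ⬝ᵥ g} :=
      measurableSet_le measurable_const (by fun_prop)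
    refine (integral_mono ((m1 σ).affine _ _).int ((SL.MG.const (4 * n : ℝ)).indicator hB).int
      fun z => ?_).trans ?_
    · by_cases hz : 10 * (n : ℝ) ≤ z ⬝ᵥ z
      · rw [indicator_of_mem (s := {g : V n | 10 * (n : ℝ) ≤ g ⬝ᵥ g}) hz]
        exact indicator_le' (fun _ _ => le_rfl) (fun _ _ => by positivity) _
      · rw [indicator_of_notMem (s := {g : V n | 10 * (n : ℝ) ≤ g ⬝ᵥ g}) hz]
        refine (indicator_of_notMem ?_ _).le
        rw [mem_ofPred_eq, not_lt, add_sub_cancel_left, nrm_le_iff (by positivity), smul_dotProduct, dotProduct_smul,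
          smul_eq_mul, smul_eq_mul, ← mul_assoc, Real.mul_self_sqrt hT.le, mul_pow, mul_pow,
          Real.sq_sqrt (Nat.cast_nonneg _)]
        rw [div_le_iff₀ (by positivity)] at h2
        have a1 := mul_le_mul_of_nonneg_left (not_le.1 hz).le hT.le
        have a2 := mul_le_mul_of_nonneg_left h2 (show 0 ≤ T * n by positivity)
        linarith
    · rw [integral_indicator_const _ hB, smul_eq_mul]
      have a1 := Froz10.gv_normsq_tail n
      have a2 : Real.exp (-(2 * n)) * (n : ℝ) ≤ 1 := by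
        rw [Real.exp_neg, inv_mul_le_iff₀ (Real.exp_pos _)]
        linarith [Real.add_one_le_exp (2 * (n:ℝ)), Nat.cast_nonneg (α := ℝ) n]
      linarith [mul_le_mul_of_nonneg_right a1 (Nat.cast_nonneg (α := ℝ) n)]
  rw [div_le_iff₀ hτ] at hn
  linarith [mul_le_mul_of_nonneg_left hle hM]

theorem lastStmt : LastStmt := lastGlue fisStmt

end Crest.Agent.T157.Lp
end
end

-- ▼ part T157/LpSmA_61
section

/-!
# Row 157, part A (helper61): `Lp.SmearStmt`, probabilistic part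

Fourth moments of Gaussian linear forms, the good event of `k` independent Gaussian vectors, and the
change of variables.
-/

set_option autoImplicit false

noncomputable section

namespace Crest.Agent.T157.Lp.Sm61

open MeasureTheory ProbabilityTheory Matrix Filter Set
open Crest.Agent.T157.E Crest.Agent.T157.Eig Crest.Agent.T157.Cond Crest.Agent.T157.Tap
open Crest.Agent.T157.Kr (phi)
open Crest.Agent.T157.Conc (ex)
open scoped ENNReal

variable {n k : ℕ}

lemma pow_four_le (x : ℝ) : x ^ 4 ≤ 24 * (Real.exp x + Real.exp (-x)) := by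
  have h := Real.pow_div_factorial_le_exp |x| (abs_nonneg x) 4
  have h1 : |x| ^ 4 = x ^ 4 := by
    rw [show (4 : ℕ) = 2 * 2 from rfl, pow_mul, sq_abs, ← pow_mul]
  have h2 : Real.exp |x| ≤ Real.exp x + Real.exp (-x) := by
    rcases abs_cases x with h | h <;> rw [h.1] <;>
      linarith [Real.exp_pos x, Real.exp_pos (-x)]
  rw [h1] at h
  norm_num [Nat.factorial] at h
  linarith

lemma lint_ex_le {w : V n} (hw : nrm w ≤ 1) : ∫⁻ g, ex (w ⬝ᵥ g) ∂gv (Fin n) ≤ ENNReal.ofReal 2 := by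
  rw [Conc.lint_dot_gv, Nrm.en_eq_nrm]
  refine ENNReal.ofReal_le_ofReal ?_
  have h1 : nrm w ^ 2 / 2 ≤ Real.log 2 := by
    have := Real.log_two_gt_d9
    have := nrm_nonneg w
    nlinarith
  exact (Real.exp_le_exp.2 h1).trans (Real.exp_log two_pos).le

/-- fourth moment of a linear form -/
lemma mom4 {u : V n} {c : ℝ} (hc : 0 < c) (hu : nrm u ≤ c) :
    ∫⁻ g, ENNReal.ofReal ((u ⬝ᵥ g) ^ 4) ∂gv (Fin n) ≤ ENNReal.ofReal (96 * c ^ 4) := by
  have hw : nrm (c⁻¹ • u) ≤ 1 := by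
    rw [nrm_smul, abs_of_pos (inv_pos.2 hc), inv_mul_le_iff₀ hc, mul_one]; exact hu
  have hw' : nrm (-(c⁻¹ • u)) ≤ 1 := by rwa [nrm_neg]
  have h1 : ∀ g : V n, ENNReal.ofReal ((u ⬝ᵥ g) ^ 4) ≤ ENNReal.ofReal (24 * c ^ 4) *
      (ex ((c⁻¹ • u) ⬝ᵥ g) + ex ((-(c⁻¹ • u)) ⬝ᵥ g)) := fun g => by
    rw [ex, ex, ← ENNReal.ofReal_add (Real.exp_pos _).le (Real.exp_pos _).le,
      ← ENNReal.ofReal_mul (by positivity)]
    refine ENNReal.ofReal_le_ofReal ?_
    have h2 := pow_four_le ((c⁻¹ • u) ⬝ᵥ g)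
    have h3 : (u ⬝ᵥ g) ^ 4 = c ^ 4 * ((c⁻¹ • u) ⬝ᵥ g) ^ 4 := by
      rw [smul_dotProduct, smul_eq_mul]; field_simp
    rw [h3, neg_dotProduct]
    nlinarith [pow_pos hc 4]
  refine (lintegral_mono h1).trans ?_
  rw [lintegral_const_mul _ (by fun_prop), lintegral_add_left (by fun_prop)]
  refine (mul_le_mul_right (add_le_add (lint_ex_le hw) (lint_ex_le hw')) _).trans (le_of_eq ?_)
  rw [← ENNReal.ofReal_add (by norm_num) (by norm_num), ← ENNReal.ofReal_mul (by positivity)]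
  congr 1; ring

lemma markov {Ω : Type*} [MeasurableSpace Ω] (μ : Measure Ω) {f : Ω → ℝ} (hf : Measurable f)
    {A B : ℝ} (hB : 0 < B) (h : ∫⁻ g, ENNReal.ofReal (f g) ∂μ ≤ ENNReal.ofReal A) :
    μ {g | B ≤ f g} ≤ ENNReal.ofReal (A / B) := by
  have h1 := meas_ge_le_lintegral_div (μ := μ) (f := fun g => ENNReal.ofReal (f g))
    (by fun_prop) (ε := ENNReal.ofReal B) (by simpa using hB) ENNReal.ofReal_ne_top
  rw [ENNReal.ofReal_div_of_pos hB]
  refine le_trans (measure_mono fun g hg => ENNReal.ofReal_le_ofReal hg) (h1.trans ?_)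
  exact ENNReal.div_le_div_right h _

lemma lin_tail {u : V n} {c θ : ℝ} (hc : 0 < c) (hθ : 0 < θ) (hu : nrm u ≤ c) :
    gv (Fin n) {g | θ ≤ |u ⬝ᵥ g|} ≤ ENNReal.ofReal (96 * c ^ 4 / θ ^ 4) := by
  refine le_trans (measure_mono fun g hg => ?_)
    (markov _ (f := fun g => (u ⬝ᵥ g) ^ 4) (by fun_prop) (by positivity) (mom4 hc hu))
  have := pow_le_pow_left₀ hθ.le (show θ ≤ |u ⬝ᵥ g| from hg) 4
  rwa [show (4 : ℕ) = 2 * 2 from rfl, pow_mul |_|, sq_abs, ← pow_mul] at this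

lemma four_tail (hn : 0 < n) {R : Mx n} {c : ℝ} (hc : 0 < c) (hR : opn R ≤ c) :
    gv (Fin n) {g | 400 * c ^ 4 * n ≤ ∑ i, (R *ᵥ g) i ^ 4} ≤ ENNReal.ofReal (1 / 4) := by
  have hn' : (0 : ℝ) < n := by exact_mod_cast hn
  have h1 : ∫⁻ g, ENNReal.ofReal (∑ i, (R *ᵥ g) i ^ 4) ∂gv (Fin n) ≤
      ENNReal.ofReal (96 * c ^ 4 * n) := by
    have e : ∀ g : V n, ENNReal.ofReal (∑ i, (R *ᵥ g) i ^ 4) =
        ∑ i, ENNReal.ofReal ((R i ⬝ᵥ g) ^ 4) := fun g =>
      ENNReal.ofReal_sum_of_nonneg fun i _ => by positivity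
    simp only [e]
    rw [lintegral_finsetSum _ fun i _ => by fun_prop]
    have h2 : ∀ i, nrm (R i) ≤ c := fun i => by
      have h3 := nrm_mulVec_le Rᵀ (Pi.single i 1)
      rw [nrm_single, mul_one, opn_transpose] at h3
      have e2 : Rᵀ *ᵥ Pi.single i 1 = R i := by ext j; simp
      rw [e2] at h3
      exact h3.trans hR
    refine (Finset.sum_le_sum fun i _ => mom4 hc (h2 i)).trans (le_of_eq ?_)
    rw [Finset.sum_const, Finset.card_univ, Fintype.card_fin, nsmul_eq_mul, mul_comm,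
      ENNReal.ofReal_mul (p := 96 * c ^ 4) (by positivity), ENNReal.ofReal_natCast]
  refine (markov _ (by fun_prop) (by positivity) h1).trans (ENNReal.ofReal_le_ofReal ?_)
  rw [div_le_iff₀ (by positivity)]
  nlinarith [mul_pos (pow_pos hc 4) hn']

/-- the single-vector good event -/
def A1 (c : ℝ) (R : Mx n) : Set (V n) :=
  {g | nrm g ≤ 5 * √n ∧ ∑ i, (R *ᵥ g) i ^ 4 ≤ 400 * c ^ 4 * n}

lemma A1_ge (hn : 0 < n) {R : Mx n} {c : ℝ} (hc : 0 < c) (hR : opn R ≤ c) :
    ENNReal.ofReal (1 / 2) ≤ gv (Fin n) (A1 c R) := by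
  have hn' : (0 : ℝ) < n := by exact_mod_cast hn
  have h1 := four_tail hn hc hR
  have h2 := four_tail hn one_pos (opn_one_le (ι := Fin n))
  have h3 : (univ : Set (V n)) ⊆ A1 c R ∪ ({g | 400 * c ^ 4 * n ≤ ∑ i, (R *ᵥ g) i ^ 4} ∪
      {g | 400 * 1 ^ 4 * n ≤ ∑ i, ((1 : Mx n) *ᵥ g) i ^ 4}) := fun g _ => by
    by_contra hg
    simp only [mem_union, mem_ofPred_eq, not_or, not_le, one_mulVec, one_pow, mul_one] at hg
    refine hg.1 ⟨(nrm_le_iff (by positivity)).2 ?_, hg.2.1.le⟩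
    have h4 := Finset.sum_mul_sq_le_sq_mul_sq Finset.univ (fun _ : Fin n => (1 : ℝ))
      fun i => g i * g i
    simp only [one_mul, one_pow, Finset.sum_const, Finset.card_univ, Fintype.card_fin,
      nsmul_eq_mul, mul_one] at h4
    have h5 : ∑ i, (g i * g i) ^ 2 = ∑ i, g i ^ 4 := Finset.sum_congr rfl fun i _ => by ring
    rw [mul_pow, Real.sq_sqrt hn'.le]
    refine abs_le_of_sq_le_sq' ?_ (by positivity) |>.2
    change (∑ i, g i * g i) ^ 2 ≤ _
    nlinarith [hg.2.2]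
  have h6 := (measure_mono (μ := gv (Fin n)) h3).trans ((measure_union_le _ _).trans
    (add_le_add le_rfl ((measure_union_le _ _).trans (add_le_add h1 h2))))
  rw [measure_univ, ← ENNReal.ofReal_add (by norm_num) (by norm_num)] at h6
  have h7 : (1 : ℝ≥0∞) = ENNReal.ofReal (1 / 2) + ENNReal.ofReal (1 / 4 + 1 / 4) := by
    rw [← ENNReal.ofReal_add (by norm_num) (by norm_num)]; norm_num
  rw [h7] at h6
  exact (ENNReal.add_le_add_iff_right ENNReal.ofReal_ne_top).1 h6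

lemma pi_le (j : Fin k) {S : Set (Fin k → V n)} (hS : MeasurableSet S) {ε : ℝ≥0∞}
    (h : ∀ g, gv (Fin n) {t | Function.update g j t ∈ S} ≤ ε) : gK k (Fin n) S ≤ ε := by
  have mp := mp_update (τ := Fin k) (gv (Fin n)) j
  rw [← mp.measure_preimage hS.nullMeasurableSet, Measure.prod_apply (mp.measurable hS)]
  refine (lintegral_mono fun g => h g).trans ?_
  simp

/-- finitely many forms, each linear in one of the vectors -/
lemma forms {I : Type*} [Fintype I] (a : I → Fin k) (U : I → (Fin k → V n) → V n)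
    (hm : ∀ i, Continuous (U i)) (hU : ∀ i g t, U i (Function.update g (a i) t) = U i g)
    {c θ : ℝ} (hc : 0 < c) (hθ : 0 < θ) :
    gK k (Fin n) {g | ∃ i, nrm (U i g) ≤ c ∧ θ ≤ |U i g ⬝ᵥ g (a i)|} ≤
      ENNReal.ofReal (Fintype.card I * (96 * c ^ 4 / θ ^ 4)) := by
  rw [ofPred_exists]
  refine (measure_iUnion_fintype_le _ _).trans ?_
  rw [ENNReal.ofReal_mul (Nat.cast_nonneg _), ENNReal.ofReal_natCast, ← nsmul_eq_mul,
    ← Finset.card_univ]
  refine Finset.sum_le_card_nsmul _ _ _ fun i _ => pi_le (a i) ?_ fun g => ?_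
  · have := hm i
    have h1 : Continuous fun g : Fin k → V n => nrm (U i g) := continuous_nrm.comp this
    have h2 : Continuous fun g : Fin k → V n => |U i g ⬝ᵥ g (a i)| := by fun_prop
    exact ((isClosed_le h1 continuous_const).inter
      (isClosed_le continuous_const h2)).measurableSet
  · simp only [mem_ofPred_eq, hU, Function.update_self]
    by_cases h : nrm (U i g) ≤ c
    · exact le_trans (measure_mono fun t ht => ht.2) (lin_tail hc hθ h)
    · simp [h]

/-- the good event -/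
def Gd {I : Type*} (c θ : ℝ) (R G : Fin k → Mx n) (w : I → V n) : Set (Fin k → V n) :=
  {g | (∀ a, g a ∈ A1 c (R a)) ∧
    (∀ a i, |w i ⬝ᵥ G a *ᵥ g a| ≤ θ * n ∧ |w i ⬝ᵥ R a *ᵥ g a| ≤ θ * n) ∧
    ∀ a b, a ≠ b → |(G b *ᵥ g b) ⬝ᵥ G a *ᵥ g a| ≤ θ * n ∧ |(G b *ᵥ g b) ⬝ᵥ R a *ᵥ g a| ≤ θ * n}

lemma dot_tr (M : Mx n) (u v : V n) : (Mᵀ *ᵥ u) ⬝ᵥ v = u ⬝ᵥ M *ᵥ v := by
  rw [dotProduct_mulVec, mulVec_transpose]

theorem Gd_ge (k m : ℕ) {c θ s : ℝ} (hc : 1 ≤ c) (hθ : 0 < θ) (hs : 0 < s) :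
    ∀ᶠ n : ℕ in atTop, ∀ (I : Type) [Fintype I], Fintype.card I = m →
      ∀ (R G : Fin k → Mx n) (w : I → V n), (∀ a, opn (R a) ≤ c) → (∀ a, opn (G a) ≤ c) →
      (∀ i, nrm (w i) ≤ 7 * √n) →
      ENNReal.ofReal (Real.exp (-(k * n * s) - 1)) ≤ gK k (Fin n) (Gd c θ R G w) := by
  have hc0 : 0 < c := by linarith
  set Q : ℝ := (k * 2 * (m + k) : ℕ) * (96 * (7 * c ^ 2) ^ 4 / θ ^ 4) with hQ
  have hQ0 : 0 ≤ Q := by positivity
  filter_upwards [eventually_gt_atTop 0, tendsto_natCast_atTop_atTop.eventually_ge_atTop (1 / s),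
    tendsto_natCast_atTop_atTop.eventually_ge_atTop (2 * 2 ^ k * Q)]
    with n hn h1 h2 I _ hI R G w hR hG hw
  have hn' : (0 : ℝ) < n := by exact_mod_cast hn
  have hn1 : (1 : ℝ) ≤ n := by exact_mod_cast hn
  have hN : 0 < √(n : ℝ) := Real.sqrt_pos.2 hn'
  let Mt : Fin k × Bool → Mx n := fun p => if p.2 then G p.1 else R p.1
  have hMt : ∀ p, opn (Mt p) ≤ c := fun p => by
    simp only [Mt]; split_ifs
    · exact hG _
    · exact hR _
  let U : (Fin k × Bool) × (I ⊕ Fin k) → (Fin k → V n) → V n := fun q g =>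
    (Mt q.1)ᵀ *ᵥ Sum.elim w (fun b => if b = q.1.1 then 0 else G b *ᵥ g b) q.2
  have hb := forms (fun q : (Fin k × Bool) × (I ⊕ Fin k) => q.1.1) U (fun q => by
      rcases q with ⟨p, i | b⟩
      · simp only [U, Sum.elim_inl]; fun_prop
      · simp only [U, Sum.elim_inr]; split_ifs <;> fun_prop)
    (fun q g t => by
      rcases q with ⟨p, i | b⟩
      · rfl
      · simp only [U, Sum.elim_inr]; split_ifs with h
        · rfl
        · rw [Function.update_of_ne h])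
    (c := 7 * c ^ 2 * √n) (θ := θ * n) (by positivity) (by positivity)
  have e1 : (Fintype.card ((Fin k × Bool) × (I ⊕ Fin k)) : ℝ) *
      (96 * (7 * c ^ 2 * √n) ^ 4 / (θ * n) ^ 4) = Q / n ^ 2 := by
    have e2 : √(n : ℝ) ^ 4 = n ^ 2 := by
      rw [show (4 : ℕ) = 2 * 2 from rfl, pow_mul, Real.sq_sqrt hn'.le]
    rw [hQ, mul_pow (7 * c ^ 2), e2]
    simp only [Fintype.card_prod, Fintype.card_sum, Fintype.card_fin, Fintype.card_bool, hI]
    field_simp
  rw [e1] at hb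
  have hA : ENNReal.ofReal ((1 / 2) ^ k) ≤ gK k (Fin n) (univ.pi fun a => A1 c (R a)) := by
    rw [Measure.pi_pi, ENNReal.ofReal_pow (by norm_num)]
    have := Finset.prod_le_prod' (s := Finset.univ) (f := fun _ : Fin k => ENNReal.ofReal (1 / 2))
      fun a _ => A1_ge hn hc0 (hR a)
    rwa [Finset.prod_const, Finset.card_univ, Fintype.card_fin] at this
  have hsub : (univ.pi fun a => A1 c (R a)) \
      {g | ∃ q, nrm (U q g) ≤ 7 * c ^ 2 * √n ∧ θ * n ≤ |U q g ⬝ᵥ g q.1.1|} ⊆ Gd c θ R G w := by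
    rintro g ⟨hg, hg'⟩
    simp only [mem_ofPred_eq, not_exists, not_and, not_le] at hg'
    have key : ∀ (q : (Fin k × Bool) × (I ⊕ Fin k)) (z : V n), U q g = (Mt q.1)ᵀ *ᵥ z →
        nrm z ≤ 7 * c * √n → |z ⬝ᵥ Mt q.1 *ᵥ g q.1.1| ≤ θ * n := fun q z e hz => by
      rw [← dot_tr, ← e]
      refine (hg' q ?_).le
      rw [e]
      refine (nrm_mulVec_le _ _).trans ?_
      rw [opn_transpose]
      calc _ ≤ c * (7 * c * √n) := mul_le_mul (hMt _) hz (nrm_nonneg _) hc0.le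
        _ = _ := by ring
    refine ⟨fun a => hg a trivial, fun a i => ?_, fun a b hab => ?_⟩
    · have hz : nrm (w i) ≤ 7 * c * √n := (hw i).trans (by nlinarith)
      exact ⟨key ((a, true), Sum.inl i) _ rfl hz, key ((a, false), Sum.inl i) _ rfl hz⟩
    · have hz : nrm (G b *ᵥ g b) ≤ 7 * c * √n := by
        refine (nrm_mulVec_le _ _).trans ?_
        calc _ ≤ c * (5 * √n) := mul_le_mul (hG b) (hg b trivial).1 (nrm_nonneg _) hc0.le
          _ ≤ _ := by nlinarith [mul_pos hc0 hN]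
      exact ⟨key ((a, true), Sum.inr b) _ (by simp [U, hab.symm]) hz,
        key ((a, false), Sum.inr b) _ (by simp [U, hab.symm]) hz⟩
  refine le_trans ?_ (le_measure_sdiff.trans (measure_mono hsub))
  refine le_trans ?_ (tsub_le_tsub hA hb)
  rw [← ENNReal.ofReal_sub _ (by positivity)]
  refine ENNReal.ofReal_le_ofReal ?_
  have h3 : Real.exp (-1) ≤ 1 / 2 := by
    have := Real.exp_neg_one_lt_d9; linarith
  have h4 : Real.exp (-(k * n * s)) ≤ (1 / 2) ^ k := by
    have h5 : 1 ≤ n * s := by rwa [div_le_iff₀ hs] at h1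
    calc Real.exp (-(k * n * s)) ≤ Real.exp (k * (-1)) :=
          Real.exp_le_exp.2 (by nlinarith [Nat.cast_nonneg (α := ℝ) k])
      _ = Real.exp (-1) ^ k := Real.exp_nat_mul _ _
      _ ≤ _ := pow_le_pow_left₀ (Real.exp_pos _).le h3 k
  have h6 : Q / n ^ 2 ≤ (1 / 2) ^ k / 2 := by
    rw [div_le_iff₀ (by positivity), one_div, inv_pow]
    have h7 : (0 : ℝ) < 2 ^ k := by positivity
    have h8 : Q ≤ (2 ^ k)⁻¹ / 2 * n := by
      rw [div_mul_eq_mul_div, le_div_iff₀ two_pos, inv_mul_eq_div, le_div_iff₀ h7]; linarith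
    refine h8.trans (mul_le_mul_of_nonneg_left (by nlinarith) (by positivity))
  rw [sub_eq_add_neg, Real.exp_add]
  have := mul_le_mul h4 h3 (Real.exp_pos _).le (by positivity)
  linarith

/-- change of variables, lower bound -/
theorem vol_ge (M : Fin k → Mx n) (hM : ∀ a, (M a).det ≠ 0) (x : Fin k → V n)
    (F : Fin k → V n → ℝ) (hF : ∀ a, Measurable (F a)) {κ : ℝ} (hκ : 0 ≤ κ)
    (S T : Set (Fin k → V n)) (hT : ∀ g ∈ T, (fun a => x a + M a *ᵥ g a) ∈ S ∧
      ∀ a, κ * (|(M a).det⁻¹| * phi 1 (g a)) ≤ F a (x a + M a *ᵥ g a)) :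
    ENNReal.ofReal (κ ^ k) * gK k (Fin n) T ≤ ∫⁻ y in S, ∏ a, ENNReal.ofReal (F a (y a)) := by
  let ρ : Fin k → V n → ℝ := fun a y => |(M a).det⁻¹| * phi 1 ((M a)⁻¹ *ᵥ (y - x a))
  have hρ0 : ∀ a y, 0 ≤ ρ a y := fun a y => mul_nonneg (abs_nonneg _) (Kr.phi_nonneg _ _)
  have hρm : ∀ a, Measurable (ρ a) := fun a => by simp only [ρ]; fun_prop
  have hmap : ∀ a, (gv (Fin n)).map (fun g => x a + M a *ᵥ g) =
      (volume : Measure (V n)).withDensity fun y => ENNReal.ofReal (ρ a y) := fun a => by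
    ext S hS
    rw [← lintegral_indicator_one hS, ← lintegral_indicator_one hS,
      lintegral_map (measurable_one.indicator hS) (by fun_prop),
      Kr.lintegral_gv_affine (hM a) (x a) (measurable_one.indicator hS),
      lintegral_withDensity_eq_lintegral_mul _ (hρm a).ennreal_ofReal
        (measurable_one.indicator hS)]
    rfl
  have hint : ∀ a, Integrable (ρ a) := fun a => by
    refine ⟨(hρm a).aestronglyMeasurable, ?_⟩
    rw [hasFiniteIntegral_iff_ofReal (ae_of_all _ (hρ0 a))]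
    have h := Kr.lintegral_gv_affine (hM a) (x a) (G := fun _ => 1) measurable_const
    simp only [lintegral_const, measure_univ, mul_one] at h
    rw [← h]
    exact ENNReal.one_lt_top
  have hpi : (gK k (Fin n)).map (fun g a => x a + M a *ᵥ g a) =
      (volume : Measure (Fin k → V n)).withDensity fun y => ENNReal.ofReal (∏ a, ρ a (y a)) := by
    rw [Measure.pi_map_pi (f := fun a g => x a + M a *ᵥ g) fun a => by fun_prop]
    simp only [hmap]
    exact Kr.pi_withDensity_ofReal (fun _ => volume) ρ hρ0 hint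
  let S' : Set (Fin k → V n) := {y | y ∈ S ∧ ∀ a, κ * ρ a (y a) ≤ F a (y a)}
  have h1 : gK k (Fin n) T ≤ ∫⁻ y in S', ENNReal.ofReal (∏ a, ρ a (y a)) := by
    rw [← withDensity_apply', ← hpi]
    refine le_trans (measure_mono fun g hg => ?_) (Measure.le_map_apply
      (Measurable.aemeasurable (by fun_prop)) S')
    refine ⟨(hT g hg).1, fun a => ?_⟩
    have hu : IsUnit (M a).det := isUnit_iff_ne_zero.2 (hM a)
    simp only [ρ, add_sub_cancel_left, mulVec_mulVec, nonsing_inv_mul _ hu, one_mulVec]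
    exact (hT g hg).2 a
  refine (mul_le_mul_right h1 _).trans ?_
  rw [← lintegral_const_mul' _ _ ENNReal.ofReal_ne_top]
  refine le_trans (setLIntegral_mono ?_ fun y hy => ?_) (lintegral_mono_set fun y hy => hy.1)
  · exact Finset.measurable_prod _ fun a _ =>
      ((hF a).comp (measurable_pi_apply a)).ennreal_ofReal
  · rw [← ENNReal.ofReal_mul (by positivity), ← ENNReal.ofReal_prod_of_nonneg fun a _ =>
      (mul_nonneg hκ (hρ0 a _)).trans (hy.2 a)]
    refine ENNReal.ofReal_le_ofReal ?_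
    have := Finset.prod_le_prod (s := Finset.univ) (fun a _ => mul_nonneg hκ (hρ0 a (y a)))
      fun a _ => hy.2 a
    rwa [Finset.prod_mul_distrib, Finset.prod_const, Finset.card_univ, Fintype.card_fin] at this

end Crest.Agent.T157.Lp.Sm61

end
end

-- ▼ part T157/LpSmear_61
section

/-!
# Row 157, part A (helper61): approximate solutions carry volume, `Lp.SmearStmt`
-/

set_option autoImplicit false

noncomputable section

namespace Crest.Agent.T157.Lp

open MeasureTheory ProbabilityTheory Matrix Filter Set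
open Crest.Agent.T157.E Crest.Agent.T157.Eig Crest.Agent.T157.Cond Crest.Agent.T157.Tap
open Crest.Agent.T157.Kr (phi)

namespace Sm61

variable {n : ℕ}

lemma D_mul_R {B : Mx n} {p : V n} (hp : Cb p) (hu : IsUnit (NN B (dd p)).det) :
    diagonal (DD p) * RR B (dd p) = GG B (dd p) := by
  have e : diagonal (DD p) = diagonal (dd p) * diagonal (dd p) := by
    rw [Matrix.diagonal_mul_diagonal]
    congr 1
    funext i
    rw [← Cell.dd_sq hp, sq]
  have h1 : diagonal (dd p) * B * diagonal (dd p) = 1 - NN B (dd p) := by rw [NN, sub_sub_cancel]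
  have h2 : diagonal (dd p) * diagonal (dd p) * (B * GG B (dd p)) =
      diagonal (dd p) * ((diagonal (dd p) * B * diagonal (dd p)) * (NN B (dd p))⁻¹) *
        diagonal (dd p) := by
    rw [GG]; simp only [Matrix.mul_assoc]
  rw [e, RR, Matrix.mul_add, h2, h1, Matrix.sub_mul, mul_nonsing_inv _ hu, Matrix.mul_sub,
    Matrix.sub_mul, GG]
  simp

lemma det_R {B : Mx n} {p : V n} (hp : Cb p) (hu : IsUnit (NN B (dd p)).det) :
    (NN B (dd p)).det * (RR B (dd p)).det = 1 := by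
  rw [← Cell.det_jac B hp, ← det_mul, Matrix.sub_mul, Matrix.mul_assoc, D_mul_R hp hu, RR]
  simp

lemma opn_G {B : Mx n} {p : V n} {c : ℝ} (hc : 0 < c) (h : Pos c (NN B (dd p))) :
    opn (GG B (dd p)) ≤ 1 / c := by
  have hd : opn (diagonal (dd p)) ≤ 1 := opn_diagonal_le zero_le_one fun i => by
    rw [dd, abs_of_nonneg (Real.sqrt_nonneg _)]
    exact Real.sqrt_le_one.2 (by nlinarith [sq_nonneg (p i)])
  simpa [GG] using Uf14.opn_mul_le' (Uf14.opn_mul_le' hd (Uf14.Pos.opn_inv hc h)) hd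

lemma opn_pen {r : ℕ} {L : ℝ} (hL : 0 ≤ L) {u : Fin r → V n} (hu : ∀ j, u j ⬝ᵥ u j ≤ 1) :
    opn (L • ∑ j, vecMulVec (u j) (u j)) ≤ L * r := by
  rw [opn_smul, abs_of_nonneg hL]
  refine mul_le_mul_of_nonneg_left ((opn_sum_le _ _).trans ?_) hL
  refine (Finset.sum_le_sum fun j _ => (opn_vecMulVec_le (u j) (u j)).trans
    ((nrm_mul_self _).le.trans (hu j))).trans ?_
  simp

lemma opn_B1 (hn : 0 < n) {J : Mx n} (hJ : opn J ≤ 3) {b : ℝ} (hb0 : 0 ≤ b) (hb : b ≤ 1) (x : V n) :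
    opn (B1 J b (th x)) ≤ 6 := by
  have hn' : (0 : ℝ) < n := by exact_mod_cast hn
  have he := e_mem hn x
  have hd : (fun i => dd (th x) i ^ 2) = DD (th x) := funext (Cell.dd_sq (Cell.abs_th_le x))
  have h1 : opn ((b * avg (DD (th x))) • (1 : Mx n)) ≤ 1 := by
    rw [opn_smul, abs_of_nonneg (mul_nonneg hb0 he.1)]
    exact mul_le_one₀ (mul_le_one₀ hb he.1 he.2) (opn_nonneg _) opn_one_le
  have h2 : opn ((2 * b / n) • vecMulVec (th x) (th x)) ≤ 2 := by
    rw [opn_smul, abs_of_nonneg (by positivity)]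
    have h3 : opn (vecMulVec (th x) (th x)) ≤ n := (opn_vecMulVec_le _ _).trans
      ((mul_le_mul (nrm_th x) (nrm_th x) (nrm_nonneg _) (Real.sqrt_nonneg _)).trans (NN_eq n).le)
    calc _ ≤ (2 : ℝ) * 1 / n * n :=
          mul_le_mul (by gcongr) h3 (opn_nonneg _) (by positivity)
      _ = 2 := by field_simp
  rw [B1, B0, hd]
  linarith [opn_add_le (J - (b * avg (DD (th x))) • (1 : Mx n))
    ((2 * b / n) • vecMulVec (th x) (th x)), opn_sub_le J ((b * avg (DD (th x))) • (1 : Mx n))]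

lemma xi_eq (J E : Mx n) (b s : ℝ) (x g : V n) :
    x + (s • RR (B1 J b (th x) - E) (dd (th x))) *ᵥ g - x =
      s • g + J *ᵥ (s • GG (B1 J b (th x) - E) (dd (th x)) *ᵥ g) -
        (b * avg (DD (th x))) • (s • GG (B1 J b (th x) - E) (dd (th x)) *ᵥ g) +
        (2 * b / n * (th x ⬝ᵥ (s • GG (B1 J b (th x) - E) (dd (th x)) *ᵥ g))) • th x -
        E *ᵥ (s • GG (B1 J b (th x) - E) (dd (th x)) *ᵥ g) := by
  have hd : (fun i => dd (th x) i ^ 2) = DD (th x) := funext (Cell.dd_sq (Cell.abs_th_le x))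
  rw [add_sub_cancel_left, RR, smul_mulVec, add_mulVec, one_mulVec, ← mulVec_mulVec, smul_add,
    ← mulVec_smul]
  generalize s • GG (B1 J b (th x) - E) (dd (th x)) *ᵥ g = u
  rw [B1, B0, hd, sub_mulVec, add_mulVec, sub_mulVec, smul_mulVec, smul_mulVec, one_mulVec,
    vmv_mulVec, smul_smul]
  abel

lemma nrm_pen {r : ℕ} {L t : ℝ} (hL : 0 ≤ L) {u : Fin r → V n} (hu : ∀ j, u j ⬝ᵥ u j ≤ 1)
    {z : V n} (hz : ∀ j, |u j ⬝ᵥ z| ≤ t) :
    nrm ((L • ∑ j, vecMulVec (u j) (u j)) *ᵥ z) ≤ L * (r * t) := by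
  rw [smul_mulVec, nrm_smul, abs_of_nonneg hL, sum_mulVec]
  refine mul_le_mul_of_nonneg_left ?_ hL
  have h1 : ∀ S : Finset (Fin r), nrm (∑ j ∈ S, vecMulVec (u j) (u j) *ᵥ z) ≤ S.card * t := by
    intro S
    induction S using Finset.induction_on with
    | empty => simp
    | insert j S hj ih =>
      rw [Finset.sum_insert hj, Finset.card_insert_of_notMem hj]
      refine (nrm_add_le _ _).trans ?_
      have h2 : nrm (u j) ≤ 1 := (nrm_le_iff zero_le_one).2 (by simpa using hu j)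
      rw [vmv_mulVec, nrm_smul]
      have := (mul_le_of_le_one_right (abs_nonneg (u j ⬝ᵥ z)) h2).trans (hz j)
      push_cast
      linarith
  simpa using h1 Finset.univ

lemma abs_dot_smul {s t : ℝ} (hs : 0 ≤ s) (hs1 : s ≤ 1) {a z : V n} (h : |a ⬝ᵥ z| ≤ t) :
    |a ⬝ᵥ s • z| ≤ t := by
  rw [dotProduct_smul, smul_eq_mul, abs_mul, abs_of_nonneg hs]
  exact (mul_le_of_le_one_left (abs_nonneg _) hs1).trans h

lemma abs_smul_dot {s t : ℝ} (hs : 0 ≤ s) (hs1 : s ≤ 1) {a z : V n} (h : |a ⬝ᵥ z| ≤ t) :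
    |s • a ⬝ᵥ z| ≤ t := by
  rw [dotProduct_comm] at h ⊢
  exact abs_dot_smul hs hs1 h

lemma kid {c s θ β K4 : ℝ} (hc : 1 ≤ c) (P : Pm n (40 * c ^ 2) s θ β) {R G : Mx n} {x p0 g : V n}
    (hR : opn R ≤ c) (hG : opn G ≤ c) (hD : diagonal (DD (th x)) * R = G) (hg : g ∈ A1 c R)
    (h1 : |th x ⬝ᵥ G *ᵥ g| ≤ θ * n) (h2 : |(th x - p0) ⬝ᵥ G *ᵥ g| ≤ θ * n)
    (h3 : K4 * s ^ 2 * n ≤ (th x - p0) ⬝ᵥ (th x - p0)) (h4 : 16 * (40 * c ^ 2) ^ 2 ≤ K4) :
    Kid (40 * c ^ 2) s θ p0 x (x + (s • R) *ᵥ g) (s • G *ᵥ g) := by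
  have hN := P.N0
  have hn := P.n0'
  have hs := P.s0
  have key : ∀ M : Mx n, opn M ≤ c → nrm (s • M *ᵥ g) ≤ 40 * c ^ 2 * s * √n := fun M hM => by
    rw [nrm_smul, abs_of_pos hs]
    calc s * nrm (M *ᵥ g) ≤ s * (c * (5 * √n)) := mul_le_mul_of_nonneg_left
          ((nrm_mulVec_le _ _).trans (mul_le_mul hM hg.1 (nrm_nonneg _) (by linarith))) hs.le
      _ = 5 * c * (s * √n) := by ring
      _ ≤ 40 * c ^ 2 * (s * √n) := mul_le_mul_of_nonneg_right (by nlinarith) (by positivity)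
      _ = _ := by ring
  refine ⟨by rw [add_sub_cancel_left, smul_mulVec]; exact key R hR, key G hG, ?_,
    abs_dot_smul hs.le P.s1 h1, abs_dot_smul hs.le P.s1 h2, ?_⟩
  · rw [nrm_le_iff (by positivity)]
    calc _ ≤ ∑ i, 4 * s ^ 4 * (R *ᵥ g) i ^ 4 := Finset.sum_le_sum fun i _ => by
          have h5 := tanh_taylor (x i) (s * (R *ᵥ g) i)
          have e : (th (x + (s • R) *ᵥ g) - th x - s • G *ᵥ g) i =
              Real.tanh (x i + s * (R *ᵥ g) i) - Real.tanh (x i) -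
                (1 - Real.tanh (x i) ^ 2) * (s * (R *ᵥ g) i) := by
            rw [← hD, ← mulVec_mulVec, smul_mulVec]
            simp only [th, Pi.sub_apply, Pi.add_apply, Pi.smul_apply, smul_eq_mul,
              mulVec_diagonal, DD]
            ring
          rw [← sq, ← sq_abs, e]
          refine (pow_le_pow_left₀ (abs_nonneg _) h5 2).trans (le_of_eq (by ring))
      _ = 4 * s ^ 4 * ∑ i, (R *ᵥ g) i ^ 4 := by rw [Finset.mul_sum]
      _ ≤ 4 * s ^ 4 * (400 * c ^ 4 * n) := mul_le_mul_of_nonneg_left hg.2 (by positivity)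
      _ = _ := by rw [mul_pow, Real.sq_sqrt hn.le]; ring
  · refine Real.le_sqrt_of_sq_le (le_trans ?_ h3)
    rw [mul_pow, Real.sq_sqrt hn.le]
    have := mul_le_mul_of_nonneg_right h4 (show 0 ≤ s ^ 2 * n by positivity)
    linarith

end Sm61

open Sm61

/-- approximate solutions carry volume -/
theorem smearStmt : SmearStmt := by
  intro c1 hc1 L hL r β hβ
  obtain ⟨hβ0, hβ1⟩ := hβ
  have hLr : 0 ≤ L * r := by positivity
  set c : ℝ := 1 + (7 + L * r) / c1 with hcdef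
  have hc : 1 ≤ c := le_add_of_nonneg_right (by positivity)
  set K : ℝ := 40 * c ^ 2 with hKdef
  have hK : 1 ≤ K := by nlinarith
  refine ⟨2 * (23 * K ^ 2) ^ 2 + 18 / β ^ 2, 250 * K ^ 4 / β, by positivity,
    fun k1 hk1 t ht K3 hK3 => ⟨16 * K ^ 2 + 4 * K3 + 8 * (5 * t + 33 / β) * K ^ 2 / (t * β ^ 2),
      by positivity, min 1 (k1 / (10 * K ^ 2)), by positivity, ?_⟩⟩
  intro τ hτ k η δ ε hη hητ hδ hε
  obtain ⟨s, hs, rfl⟩ : ∃ s : ℝ, 0 < s ∧ τ = s ^ 2 :=
    ⟨√τ, Real.sqrt_pos.2 hτ.1, (Real.sq_sqrt hτ.1.le).symm⟩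
  have hs1 : s ≤ 1 := by
    have := hτ.2.trans (min_le_left _ _)
    nlinarith
  have hsk : 10 * K ^ 2 * s ^ 2 ≤ k1 := by
    have := hτ.2.trans (min_le_right _ _)
    rw [le_div_iff₀ (by positivity)] at this
    linarith
  have hηs : η ≤ s := abs_le_of_sq_le_sq' hητ hs.le |>.2
  set θ : ℝ := min (s ^ 2 / (1 + L * r)) (δ / 5) with hθdef
  have hθ : 0 < θ := by positivity
  have hθ1 : θ * (1 + L * r) ≤ s ^ 2 := by
    rw [← le_div_iff₀ (by positivity)]; exact min_le_left _ _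
  have hθδ : 5 * θ ≤ δ := by have := min_le_right (s ^ 2 / (1 + L * r)) (δ / 5); linarith
  rw [Real.sqrt_sq hs.le]
  filter_upwards [Gd_ge k (k * (r + 4)) hc hθ hs, eventually_gt_atTop 0] with n hGd hn
  intro J cc p0 x _ hJ hp H1 H2 H3
  have P : Pm n K s θ β := ⟨hn, hK, hs, hs1, hθ.le, by nlinarith, hβ0, hβ1⟩
  have hN := P.N0
  have hn' := P.n0'
  choose E hE hPos hdet using H1
  choose uu huu hEu using hE
  set R : Fin k → Mx n := fun a => RR (B1 J (β ^ 2) (th (x a)) - E a) (dd (th (x a))) with hRdef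
  set G : Fin k → Mx n := fun a => GG (B1 J (β ^ 2) (th (x a)) - E a) (dd (th (x a))) with hGdef
  have hu : ∀ a, IsUnit (NN (B1 J (β ^ 2) (th (x a)) - E a) (dd (th (x a)))).det := fun a =>
    Uf14.Pos.unit hc1 (hPos a)
  have hG1 : ∀ a, opn (G a) ≤ 1 / c1 := fun a => opn_G hc1 (hPos a)
  have hG : ∀ a, opn (G a) ≤ c := fun a => (hG1 a).trans (by
    have : 1 / c1 ≤ (7 + L * r) / c1 := by gcongr; linarith
    linarith)
  have hR : ∀ a, opn (R a) ≤ c := fun a => by
    have h1 : opn (B1 J (β ^ 2) (th (x a)) - E a) ≤ 7 + L * r := by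
      have h2 := opn_B1 hn hJ (sq_nonneg β) (pow_le_one₀ hβ0.le hβ1) (x a)
      have h3 : opn (E a) ≤ L * r := by rw [hEu a]; exact opn_pen hL (huu a)
      linarith [opn_sub_le (B1 J (β ^ 2) (th (x a))) (E a)]
    have h4 := Uf14.opn_mul_le' h1 (hG1 a)
    rw [mul_one_div] at h4
    exact (opn_add_le _ _).trans (add_le_add opn_one_le h4)
  let w : Fin k × (Fin r ⊕ Fin 4) → V n := fun q => Sum.elim (fun j => √n • uu q.1 j)
    ![th (x q.1), th (x q.1) - p0, Xc (β ^ 2) cc (x q.1),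
      rv (β ^ 2) (avg (DD (th (x q.1)))) (gam (β ^ 2) (s ^ 2) p0 (x q.1)) cc p0] q.2
  have hY1 : ∀ a, nrm (Xc (β ^ 2) cc (x a) - J *ᵥ (th (x a) - p0)) ≤ s * √n := fun a =>
    (H2 a).1.trans (mul_le_mul_of_nonneg_right hηs hN.le)
  have hw : ∀ q, nrm (w q) ≤ 7 * √n := by
    rintro ⟨a, j | j⟩
    · have h2 : nrm (uu a j) ≤ 1 := (nrm_le_iff zero_le_one).2 (by simpa using huu a j)
      show nrm (√n • uu a j) ≤ _
      rw [nrm_smul, abs_of_pos hN]
      nlinarith
    · fin_cases j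
      · exact (nrm_th (x a)).trans (by linarith)
      · exact (nrm_v (x a) hp).trans (by linarith)
      · show nrm (Xc (β ^ 2) cc (x a)) ≤ _
        have h1 := nrm_add_le (Xc (β ^ 2) cc (x a) - J *ᵥ (th (x a) - p0)) (J *ᵥ (th (x a) - p0))
        rw [sub_add_cancel] at h1
        have h2 : nrm (J *ᵥ (th (x a) - p0)) ≤ 3 * (2 * √n) :=
          (nrm_mulVec_le _ _).trans (mul_le_mul hJ (nrm_v _ hp) (nrm_nonneg _) (by norm_num))
        nlinarith [hY1 a]
      · exact (nrm_rv _ _ _ cc hp).trans (by linarith)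
  have hprob := hGd (Fin k × (Fin r ⊕ Fin 4)) (by simp) R G w hR hG hw
  have hdetM : ∀ a, (s • R a).det⁻¹ =
      s⁻¹ ^ n * (NN (B1 J (β ^ 2) (th (x a)) - E a) (dd (th (x a)))).det := fun a => by
    rw [det_smul, Fintype.card_fin, mul_inv, inv_pow,
      ← eq_inv_of_mul_eq_one_left (det_R (Cell.abs_th_le (x a)) (hu a))]
  have hvol := vol_ge (fun a => s • R a) (fun a h => by
      have h1 := hdetM a
      rw [h, _root_.inv_zero] at h1
      exact (mul_ne_zero (by positivity) (hu a).ne_zero) h1.symm) x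
    (fun _ y => jac (β ^ 2) y * phi (s ^ 2) (Xc (β ^ 2) cc y - J *ᵥ (th y - p0)))
    (fun _ => by
      refine Continuous.measurable ?_
      unfold jac Xc phi
      fun_prop)
    (κ := Real.exp (-(n * (248 * K ^ 4 * (η / s + s) + ε)))) (Real.exp_pos _).le
    (Tup k (β ^ 2) (s ^ 2) (2 * (23 * K ^ 2) ^ 2 + 18 / β ^ 2) k1 K3 t
      (2 * δ / s ^ 2 + 250 * K ^ 4 / β * s) cc p0) (Gd c θ R G w) (by
      rintro g ⟨g1, g2, g3⟩
      have hpos : 0 ≤ 8 * (5 * t + 33 / β) * K ^ 2 / (t * β ^ 2) := by positivity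
      have hkid : ∀ a, Kid K s θ p0 (x a) (x a + (s • R a) *ᵥ g a) (s • G a *ᵥ g a) := fun a =>
        kid hc P (hR a) (hG a) (D_mul_R (Cell.abs_th_le (x a)) (hu a)) (g1 a)
          (g2 a (a, Sum.inr 0)).1 (g2 a (a, Sum.inr 1)).1 (H2 a).2.2.1 (by linarith)
      have hdel : ∀ a, nrm (Xc (β ^ 2) cc (x a + (s • R a) *ᵥ g a) -
          J *ᵥ (th (x a + (s • R a) *ᵥ g a) - p0) - s • g a) ≤
          (η + 17 * K ^ 2 * s ^ 2) * √n := fun a => by
        refine (hkid a).delta P hJ (H2 a).1 ?_ (xi_eq J (E a) (β ^ 2) s (x a) (g a))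
        have h1 : ∀ j, |uu a j ⬝ᵥ G a *ᵥ g a| ≤ θ * √n := fun j => by
          have h2 : |(√n • uu a j) ⬝ᵥ G a *ᵥ g a| ≤ θ * n := (g2 a (a, Sum.inl j)).1
          rw [smul_dotProduct, smul_eq_mul, abs_mul, abs_of_pos hN, ← NN_eq n, ← mul_assoc,
            mul_comm] at h2
          rw [NN_eq] at h2
          exact le_of_mul_le_mul_right h2 hN
        have h3 := nrm_pen hL (huu a) fun j => abs_dot_smul hs.le hs1 (h1 j)
        rw [← hEu a] at h3
        refine h3.trans ?_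
        nlinarith [mul_le_mul_of_nonneg_right hθ1 hN.le, mul_pos hθ hN]
      refine ⟨⟨fun a => ?_, fun a b hab => ?_⟩, fun a => ?_⟩
      · refine (hkid a).child P hp hJ ht ?_ (H2 a).2.1 hsk (H2 a).2.2.1 (by nlinarith)
          (by nlinarith) (H2 a).2.2.2 (abs_dot_smul hs.le hs1 (g2 a (a, Sum.inr 3)).1)
        have h1 := nrm_add_le (Xc (β ^ 2) cc (x a + (s • R a) *ᵥ g a) -
          J *ᵥ (th (x a + (s • R a) *ᵥ g a) - p0) - s • g a) (s • g a)
        rw [sub_add_cancel, nrm_smul, abs_of_pos hs] at h1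
        have h2 := mul_le_mul_of_nonneg_left (g1 a).1 hs.le
        have h3 : η + 17 * K ^ 2 * s ^ 2 + 5 * s ≤ 23 * K ^ 2 * s := by
          have h4 : 1 ≤ K ^ 2 := by nlinarith
          have h5 : K ^ 2 * s ^ 2 ≤ K ^ 2 * s := by gcongr; nlinarith
          nlinarith
        have h6 := mul_le_mul_of_nonneg_right h3 hN.le
        linarith [hdel a]
      · have hC : 23 * K ^ 2 / β ≤ 250 * K ^ 4 / β := by
          gcongr ?_ / β
          nlinarith [show 1 ≤ K ^ 2 by nlinarith]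
        refine (hkid a).orth (hkid b) P hJ (hY1 a) hθδ hC (H3 a b hab).1 (H3 a b hab).2
          (abs_dot_smul hs.le hs1 (g2 b (a, Sum.inr 1)).1)
          (abs_dot_smul hs.le hs1 (g2 a (b, Sum.inr 1)).1)
          (abs_smul_dot hs.le hs1 (abs_dot_smul hs.le hs1 (g3 a b hab.ne).1))
          (abs_dot_smul hs.le hs1 (g2 b (a, Sum.inr 2)).1) ?_ ?_
        · rw [add_sub_cancel_left, smul_mulVec]
          exact abs_dot_smul hs.le hs1 (g2 a (b, Sum.inr 1)).2
        · rw [add_sub_cancel_left, smul_mulVec]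
          exact abs_smul_dot hs.le hs1 (abs_dot_smul hs.le hs1 (g3 a b hab.ne).2)
      · have h1 := (hkid a).dens P hη hηs (g1 a).1 (hdel a) (hdet a)
        rwa [hdetM, abs_mul, abs_of_pos (show 0 < s⁻¹ ^ n by positivity)])
  refine le_trans ?_ ((mul_le_mul_right hprob _).trans hvol)
  rw [← ENNReal.ofReal_mul (by positivity), ← Real.exp_nat_mul, ← Real.exp_add]
  refine ENNReal.ofReal_le_ofReal (Real.exp_le_exp.2 ?_)
  have h1 : 248 * K ^ 4 * (η / s + s) + s ≤ 250 * K ^ 4 / β * (η / s + s) := by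
    have h2 : 1 ≤ K ^ 4 := one_le_pow₀ hK
    have h3 : 250 * K ^ 4 ≤ 250 * K ^ 4 / β := by
      rw [le_div_iff₀ hβ0]; exact mul_le_of_le_one_right (by positivity) hβ1
    have h4 : 0 ≤ η / s := by positivity
    have h5 := mul_le_mul_of_nonneg_right h3 (show 0 ≤ η / s + s by positivity)
    nlinarith
  have := mul_le_mul_of_nonneg_left h1 (show 0 ≤ (k : ℝ) * n by positivity)
  linarith

end Crest.Agent.T157.Lp

end
end

-- ▼ part T157/LpStart_22
section

/-!
# Row 157, part A: `Lp.StartStmt` (helper22)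
-/

set_option autoImplicit false

noncomputable section

namespace Crest.Agent.T157.Lp

open MeasureTheory ProbabilityTheory Matrix Filter Set
open Crest.ProbabilityR.SpinGlassDynamics
open Crest.Agent.T157.E Crest.Agent.T157.Eig Crest.Agent.T157.Tap Crest.Agent.T157.Tap.Froz10
open G1

namespace Start22

variable {n : ℕ} {J : Mx n} {b : ℝ} {v : Cube n → ℝ}

/-- the TAP value at a point of small magnetisation -/
theorem le_Phi (hn : 0 < n) (hJ : opn J ≤ 3) (hb : b ∈ Icc (0 : ℝ) 1) {k1 : ℝ} (y x : V n)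
    (h : 1 - k1 < avg (DD (th x))) :
    n * (Real.log 2 + b / 4) - 3 * k1 * n - nrm y * Real.sqrt n ≤ Phi J b y x := by
  have hn' : (0 : ℝ) < n := by positivity
  have hp : th x ⬝ᵥ th x ≤ k1 * n := by
    rw [avg_DD_eq hn] at h
    have : th x ⬝ᵥ th x / n ≤ k1 := by linarith
    rwa [div_le_iff₀ hn'] at this
  have h0 : 0 ≤ th x ⬝ᵥ th x := SL.dot_self_nonneg _
  have h1 : |th x ⬝ᵥ J *ᵥ th x| ≤ 3 * (th x ⬝ᵥ th x) :=
    (abs_quad_le J _).trans (mul_le_mul_of_nonneg_right hJ h0)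
  have h2 := abs_dot_cb y (cb_th x)
  have h3 : n * Real.log 2 - th x ⬝ᵥ th x ≤ ∑ i, hb2 (x i) := by
    have : ∑ i, (Real.log 2 - Real.tanh (x i) ^ 2) ≤ ∑ i, hb2 (x i) :=
      Finset.sum_le_sum fun i _ => le_hb2 _
    simpa [Finset.sum_sub_distrib, dotProduct, th, sq] using this
  have hk : 0 ≤ k1 * n := h0.trans hp
  have h4 : 1 - 2 * k1 ≤ avg (DD (th x)) ^ 2 := by nlinarith [sq_nonneg (avg (DD (th x)) - 1)]
  have h5 : n * b * (1 - 2 * k1) ≤ n * b * avg (DD (th x)) ^ 2 :=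
    mul_le_mul_of_nonneg_left h4 (mul_nonneg hn'.le hb.1)
  have h6 : b * (k1 * n) ≤ k1 * n := mul_le_of_le_one_left hk hb.2
  rw [Phi]
  linarith [(abs_le.1 h1).1, (abs_le.1 h2).1]

theorem Xi_le (hn : 0 < n) (hJ : opn J ≤ 3) (hb : b ∈ Icc (0 : ℝ) 1) {k1 η a : ℝ} (hk : 0 < k1)
    (hη : 0 < η) (ha : 0 < a) (hZ : ZP J b k1 η) (hv : SL.Wt v) (y : V n) :
    Xi J b v y ≤ (Real.log (Zw v) - n * (Real.log 2 + b / 4) + 3 * k1 * n + a * n) +
      (576 / η ^ 2 * Dv J b v y + (16 / η ^ 2 + 1 / a) * (y ⬝ᵥ y)) := by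
  have hn' : (0 : ℝ) < n := by positivity
  have hs : 0 < Real.sqrt n := Real.sqrt_pos.2 hn'
  have hZw := log_Zw_tilt_le hv y
  have hy0 := nrm_nonneg y
  have hyy : nrm y ^ 2 = y ⬝ᵥ y := nrm_sq y
  have hD := Dv_nonneg J b v y
  have ham : 2 * (nrm y * Real.sqrt n) ≤ a * n + 1 / a * (y ⬝ᵥ y) := by
    rw [← hyy]
    have : 0 ≤ (a * Real.sqrt n - nrm y) ^ 2 / a := by positivity
    have e : (a * Real.sqrt n - nrm y) ^ 2 / a =
        a * (Real.sqrt n * Real.sqrt n) + 1 / a * nrm y ^ 2 - 2 * (nrm y * Real.sqrt n) := by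
      field_simp; ring
    rw [e, sq_sqrt_n] at this
    linarith
  have t1 : 0 ≤ 576 / η ^ 2 * Dv J b v y := by positivity
  have t2 : 0 ≤ 16 / η ^ 2 * (y ⬝ᵥ y) := by rw [← hyy]; positivity
  have hkn : 0 ≤ 3 * k1 * n := by positivity
  rw [add_mul, Xi]
  set m := mag (tilt v y) with hm
  have hcb : Cb m := cb_mag (hv.tilt y)
  by_cases hg : dfc J b y m ≤ η / 12 * Real.sqrt n ∧ nrm y ≤ η / 2 * Real.sqrt n
  · have h1 := nrm_Ymap_cav hJ hb y hcb
    have h2 := nrm_add_le (Ymap J b (cav J b y m) - y) y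
    rw [sub_add_cancel] at h2
    have h3 := le_Phi hn hJ hb y _ (hZ (cav J b y m) (by linarith [hg.1, hg.2]))
    linarith
  · have h1 := (abs_le.1 (abs_Phi_le hJ hb y (cav J b y m))).1
    have h2 : n * (Real.log 2 + b / 4) ≤ n :=
      mul_le_of_le_one_right hn'.le (by linarith [Real.log_two_lt_d9, hb.2])
    have h3 : 4 * n ≤ 576 / η ^ 2 * Dv J b v y + 16 / η ^ 2 * (y ⬝ᵥ y) := by
      rw [not_and_or, not_le, not_le] at hg
      rcases hg with hg | hg
      · have := pow_le_pow_left₀ (by positivity) hg.le 2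
        rw [mul_pow, Real.sq_sqrt hn'.le] at this
        have h4 : 576 / η ^ 2 * ((η / 12) ^ 2 * n) ≤ 576 / η ^ 2 * Dv J b v y :=
          mul_le_mul_of_nonneg_left this (by positivity)
        have e : 576 / η ^ 2 * ((η / 12) ^ 2 * n) = 4 * n := by field_simp; ring
        linarith
      · have := pow_le_pow_left₀ (by positivity) hg.le 2
        rw [mul_pow, Real.sq_sqrt hn'.le, hyy] at this
        have h4 : 16 / η ^ 2 * ((η / 2) ^ 2 * n) ≤ 16 / η ^ 2 * (y ⬝ᵥ y) :=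
          mul_le_mul_of_nonneg_left this (by positivity)
        have e : 16 / η ^ 2 * ((η / 2) ^ 2 * n) = 4 * n := by field_simp; ring
        linarith
    linarith

end Start22

open Start22 in
theorem startStmt : StartStmt := by
  intro ε hε
  refine ⟨ε / 12, by positivity, fun η hη => ?_⟩
  set A : ℝ := 16 / η ^ 2 + 1 / (ε / 4) with hA
  have hA0 : 0 < A := by positivity
  refine ⟨min 1 (ε / (8 * A)), by positivity, ε * η ^ 2 / 2304, by positivity, ?_⟩
  intro n J b hn hJ hb hZ v hv s hs hD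
  have hn' : (0 : ℝ) < n := by positivity
  have m1 := (mg_Dv J b hv).const_mul (576 / η ^ 2)
  have m2 := (mg_dot (n := n)).const_mul A
  have h := SL.slE_mono (φ := sv) (s := s) hv (.of_mg fun _ => mg_Xi hJ hb hv)
    (.of_mg fun _ => (SL.MG.const _).add (m1.add m2))
    fun _ y => Xi_le hn hJ hb (by positivity : 0 < ε / 12) hη (by positivity : 0 < ε / 4) hZ hv y
  rw [SL.slE_add (.of_mg fun _ => SL.MG.const _) (.of_mg fun _ => m1.add m2),
    SL.slE_add (.of_mg fun _ => m1) (.of_mg fun _ => m2), slE_const hv, SL.slE_const_mul,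
    SL.slE_const_mul, slE_normsq hv hs.1] at h
  have s1 : s ≤ 1 := hs.2.trans (min_le_left _ _)
  have s2 : s ≤ ε / (8 * A) := hs.2.trans (min_le_right _ _)
  have h1 : 576 / η ^ 2 * slE sv v s (fun _ y => Dv J b v y) ≤ ε / 4 * n := by
    refine (mul_le_mul_of_nonneg_left hD (by positivity)).trans_eq ?_
    field_simp; ring
  have h2 : A * ((s ^ 2 + s) * n) ≤ ε / 4 * n := by
    rw [← mul_assoc]
    refine mul_le_mul_of_nonneg_right ?_ hn'.le
    have : s ^ 2 + s ≤ 2 * (ε / (8 * A)) := by nlinarith [hs.1]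
    refine (mul_le_mul_of_nonneg_left this hA0.le).trans_eq ?_
    field_simp; ring
  linarith

end Crest.Agent.T157.Lp
end
end

-- ▼ part T157/LpTerm_42
section

/-!
# Row 157, part A: `Lp.TermStmt` (helper42)

At large times the field determines the spin configuration: the TAP value at the cavity field is
the energy of the planted configuration up to `ε n`.
-/

set_option autoImplicit false

noncomputable section

namespace Crest.Agent.T157.Lp

open MeasureTheory ProbabilityTheory Matrix Filter Set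
open Crest.ProbabilityR.SpinGlassDynamics
open Crest.Agent.T157.E Crest.Agent.T157.Eig Crest.Agent.T157.Tap Crest.Agent.T157.Tap.Froz10
open Crest.Agent.T157.Lp.G1

namespace Term42

variable {n : ℕ}

theorem one_sub_tanh (t : ℝ) : 1 - Real.tanh t = Real.exp (-t) / Real.cosh t := by
  have hc := Real.cosh_pos t
  rw [Real.tanh_eq_sinh_div_cosh, ← Real.cosh_sub_sinh]; field_simp

theorem hb2_neg (t : ℝ) : hb2 (-t) = hb2 t := by simp [hb2]

theorem hb2_le_exp (u : ℝ) : hb2 u ≤ 2 * Real.exp (-u) := by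
  have he := Real.exp_pos (-u)
  rcases le_total u 0 with hu | hu
  · have h1 := Real.one_le_exp (neg_nonneg.2 hu)
    linarith [(abs_le.1 (abs_hb2_le u)).2]
  have hc := Real.cosh_pos u
  have h1 : Real.log (2 * Real.cosh u) ≤ u + Real.exp (-u) := by
    have e : 2 * Real.cosh u = Real.exp u * (1 + Real.exp (-u) * Real.exp (-u)) := by
      rw [Real.cosh_eq, mul_add, ← mul_assoc, ← Real.exp_add]; simp; ring
    have h2 : Real.exp (-u) ≤ 1 := Real.exp_le_one_iff.2 (neg_nonpos.2 hu)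
    rw [e, Real.log_mul (Real.exp_pos _).ne' (by positivity), Real.log_exp]
    have := Real.log_le_sub_one_of_pos (show 0 < 1 + Real.exp (-u) * Real.exp (-u) by positivity)
    nlinarith
  have h2 : u * (1 - Real.tanh u) ≤ Real.exp (-u) := by
    rw [one_sub_tanh, mul_div_assoc', div_le_iff₀ hc]
    have : u ≤ Real.cosh u := (Real.self_le_sinh_iff.2 hu).trans (Real.sinh_lt_cosh u).le
    nlinarith
  rw [hb2]; linarith

theorem site0 {A : ℝ} (hA : 0 < A) (u z : ℝ) :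
    1 - Real.tanh u ≤ 2 * (Real.exp A * Real.exp (-z) + (u - z) ^ 2 / A ^ 2) ∧
    hb2 u ≤ 2 * (Real.exp A * Real.exp (-z) + (u - z) ^ 2 / A ^ 2) ∧
    z * (Real.tanh u - 1) ≤ 2 * Real.exp (-z) := by
  have ht := abs_lt.1 (Real.abs_tanh_lt_one u)
  have h0 : 0 < Real.exp A * Real.exp (-z) := by positivity
  have h1 : 0 ≤ (u - z) ^ 2 / A ^ 2 := by positivity
  have h3 : z * (Real.tanh u - 1) ≤ 2 * Real.exp (-z) := by
    have := Real.add_one_le_exp (-z)
    have := Real.exp_pos (-z)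
    rcases le_total z 0 with hz | hz <;> nlinarith
  rcases le_total (|u - z|) A with h | h
  · have h4 : Real.exp (-u) ≤ Real.exp A * Real.exp (-z) := by
      rw [← Real.exp_add]; exact Real.exp_le_exp.2 (by linarith [(abs_le.1 h).1])
    have h5 : 1 - Real.tanh u ≤ Real.exp (-u) := by
      rw [one_sub_tanh]; exact div_le_self (Real.exp_pos _).le (Real.one_le_cosh u)
    exact ⟨by linarith, by linarith [hb2_le_exp u], h3⟩
  · have h4 : 1 ≤ (u - z) ^ 2 / A ^ 2 := by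
      rw [one_le_div (by positivity), ← sq_abs (u - z)]
      exact pow_le_pow_left₀ hA.le h 2
    exact ⟨by linarith, by linarith [(abs_le.1 (abs_hb2_le u)).2], h3⟩

theorem site {A : ℝ} (hA : 0 < A) {s : ℝ} (hs : s = 1 ∨ s = -1) (x y : ℝ) :
    (Real.tanh x - s) * (Real.tanh x - s) ≤
      4 * (Real.exp A * Real.exp (-(s * y)) + (x - y) * (x - y) / A ^ 2) ∧
    1 - Real.tanh x ^ 2 ≤ 4 * (Real.exp A * Real.exp (-(s * y)) + (x - y) * (x - y) / A ^ 2) ∧
    hb2 x ≤ 2 * (Real.exp A * Real.exp (-(s * y)) + (x - y) * (x - y) / A ^ 2) ∧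
    y * (Real.tanh x - s) ≤ 2 * Real.exp (-(s * y)) := by
  have ht := abs_lt.1 (Real.abs_tanh_lt_one x)
  obtain ⟨h1, h2, h3⟩ := site0 hA (s * x) (s * y)
  rcases hs with rfl | rfl
  · simp only [one_mul] at *
    rw [sq (x - y)] at h1 h2
    exact ⟨by nlinarith, by nlinarith, h2, h3⟩
  · have e : (-1 * x - -1 * y) ^ 2 = (x - y) * (x - y) := by ring
    rw [e] at h1 h2
    simp only [neg_mul, one_mul, Real.tanh_neg, hb2_neg] at *
    exact ⟨by nlinarith, by nlinarith, h2, by linarith⟩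

theorem sv_cases (σ : Cube n) (i : Fin n) : sv σ i = 1 ∨ sv σ i = -1 := by
  simp only [sv, spin]; split_ifs <;> simp

/-- the deterministic bound -/
theorem phi_le {J : Mx n} {b A l : ℝ} (hT : Jᵀ = J) (hJ : opn J ≤ 3) (hb : b ∈ Icc (0 : ℝ) 1)
    (hA : 0 < A) (hl : 0 < l) (σ : Cube n) (x y : V n) (hxy : nrm (x - y) ≤ 4 * Real.sqrt n) :
    Phi J b y x - y ⬝ᵥ sv σ - 1 / 2 * (sv σ ⬝ᵥ J *ᵥ sv σ) ≤ (l + (9 / l + 3) * 16 / A ^ 2) * n +
      ((9 / l + 3) * Real.exp A + 2) * ∑ i, Real.exp (-(sv σ i * y i)) := by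
  set S := ∑ i, Real.exp (-(sv σ i * y i)) with hS
  set Q := ∑ i, (Real.exp A * Real.exp (-(sv σ i * y i)) + (x i - y i) * (x i - y i) / A ^ 2) with hQ
  have hn : (0 : ℝ) ≤ n := Nat.cast_nonneg n
  have key := fun i => site hA (sv_cases σ i) (x i) (y i)
  have q0 : Q ≤ Real.exp A * S + 16 / A ^ 2 * n := by
    have h : (x - y) ⬝ᵥ (x - y) ≤ 16 * n := by
      have := (nrm_le_iff (by positivity)).1 hxy
      rw [mul_pow, Real.sq_sqrt hn] at this; linarith
    rw [hQ, Finset.sum_add_distrib, ← Finset.mul_sum, ← Finset.sum_div, div_mul_eq_mul_div]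
    gcongr
    exact h
  have q1 : (th x - sv σ) ⬝ᵥ (th x - sv σ) ≤ 4 * Q := by
    rw [hQ, Finset.mul_sum]; exact Finset.sum_le_sum fun i _ => (key i).1
  have q2 : n * avg (DD (th x)) ≤ 4 * Q := by
    have h : ∑ i, DD (th x) i ≤ 4 * Q := by
      rw [hQ, Finset.mul_sum]; exact Finset.sum_le_sum fun i _ => (key i).2.1
    rcases Nat.eq_zero_or_pos n with rfl | h0
    · simp [hQ]
    · have : (n : ℝ) ≠ 0 := by positivity
      rwa [avg, mul_div_cancel₀ _ this]
  have q3 : ∑ i, hb2 (x i) ≤ 2 * Q := by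
    rw [hQ, Finset.mul_sum]; exact Finset.sum_le_sum fun i _ => (key i).2.2.1
  have q4 : y ⬝ᵥ th x - y ⬝ᵥ sv σ ≤ 2 * S := by
    rw [← dotProduct_sub, hS, Finset.mul_sum]; exact Finset.sum_le_sum fun i _ => (key i).2.2.2
  have q5 : n * b * avg (DD (th x)) ^ 2 ≤ 4 * Q := by
    have a0 := avg_DD_nonneg (cb_th x)
    have a1 : b * avg (DD (th x)) ≤ 1 := mul_le_one₀ hb.2 a0 (avg_DD_le _)
    nlinarith [mul_le_mul_of_nonneg_left a1 (mul_nonneg hn a0)]
  have q6 : th x ⬝ᵥ J *ᵥ th x - sv σ ⬝ᵥ J *ᵥ sv σ ≤ 2 * (l * n + 9 / l * Q) := by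
    have e : th x ⬝ᵥ J *ᵥ th x - sv σ ⬝ᵥ J *ᵥ sv σ = (th x - sv σ) ⬝ᵥ J *ᵥ (th x + sv σ) := by
      have : th x ⬝ᵥ J *ᵥ sv σ = sv σ ⬝ᵥ J *ᵥ th x := by
        rw [dotProduct_mulVec, ← mulVec_transpose, hT, dotProduct_comm]
      rw [mulVec_add, sub_dotProduct, dotProduct_add, dotProduct_add, this]; ring
    have h1 : nrm (J *ᵥ (th x + sv σ)) ≤ 6 * Real.sqrt n := by
      have := nrm_add_le (th x) (sv σ)
      have := nrm_le_sqrt (cb_th x)
      have := nrm_le_sqrt (cb_sv σ)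
      have := mul_le_mul_of_nonneg_right hJ (nrm_nonneg (th x + sv σ))
      linarith [nrm_mulVec_le J (th x + sv σ)]
    have h2 := (dot_le (th x - sv σ) (J *ᵥ (th x + sv σ))).trans
      (mul_le_mul_of_nonneg_left h1 (nrm_nonneg _))
    rw [← nrm_mul_self] at q1
    rw [e]
    refine h2.trans (le_of_mul_le_mul_left ?_ hl)
    have e2 : l * (2 * (l * n + 9 / l * Q)) = 2 * (l * l * n + 9 * Q) := by field_simp
    rw [e2]
    nlinarith [sq_nonneg (2 * l * Real.sqrt n - 3 * nrm (th x - sv σ)), sq_sqrt_n (n := n)]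
  have q7 : (9 / l + 3) * Q ≤ (9 / l + 3) * (Real.exp A * S + 16 / A ^ 2 * n) :=
    mul_le_mul_of_nonneg_left q0 (by positivity)
  have e3 : (l + (9 / l + 3) * 16 / A ^ 2) * n + ((9 / l + 3) * Real.exp A + 2) * S =
      l * n + (9 / l + 3) * (Real.exp A * S + 16 / A ^ 2 * n) + 2 * S := by ring
  rw [e3, Phi]
  linarith

theorem int_exp {T : ℝ} (hT : 0 ≤ T) (σ : Cube n) (i : Fin n) :
    Integrable (fun g : V n => Real.exp (-(sv σ i * (T • sv σ + Real.sqrt T • g) i))) (gv (Fin n)) ∧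
    ∫ g : V n, Real.exp (-(sv σ i * (T • sv σ + Real.sqrt T • g) i)) ∂gv (Fin n) =
      Real.exp (-(T / 2)) := by
  have hp := measurePreserving_eval (fun _ : Fin n => gaussianReal 0 1) i
  have hσ : sv σ i * sv σ i = 1 := by rcases sv_cases σ i with h | h <;> simp [h]
  have e : (fun g : V n => Real.exp (-(sv σ i * (T • sv σ + Real.sqrt T • g) i))) =
      fun g => Real.exp (-T) * Real.exp (-(sv σ i * Real.sqrt T) * g i) := by
    ext g
    rw [← Real.exp_add]; congr 1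
    simp only [Pi.add_apply, Pi.smul_apply, smul_eq_mul]
    linear_combination (-T) * hσ
  have i1 := integrable_exp_mul_gaussianReal (μ := 0) (v := 1) (-(sv σ i * Real.sqrt T))
  rw [e]
  refine ⟨(hp.integrable_comp_of_integrable i1).const_mul _, ?_⟩
  have h := integral_map (μ := gv (Fin n)) hp.measurable.aemeasurable (hp.map_eq ▸ i1.1)
  rw [hp.map_eq] at h
  have h2 := congrFun (mgf_fun_id_gaussianReal (μ := 0) (v := 1)) (-(sv σ i * Real.sqrt T))
  rw [mgf] at h2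
  rw [integral_const_mul]
  erw [← h]
  rw [h2, ← Real.exp_add]; congr 1
  have := Real.mul_self_sqrt hT
  simp only [NNReal.coe_one]
  linear_combination (1 / 2 * T) * hσ + (1 / 2 * sv σ i * sv σ i) * this

theorem log_le {J : Mx n} {v : Cube n → ℝ} (hv : SL.Wt v) {σ : Cube n} (h : 0 < v σ) (y : V n) :
    Real.log (prob v σ / prob (ising J 0) σ) ≤ Real.log (Zw (ising J 0)) - Real.log (Zw v) +
      (Real.log (Zw (tilt v y)) - y ⬝ᵥ sv σ - 1 / 2 * (sv σ ⬝ᵥ J *ᵥ sv σ)) := by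
  have hw : SL.Wt (ising J 0) := .of_pos fun _ => Real.exp_pos _
  have z1 : 0 < Zw v := hv.pos
  have z2 : 0 < Zw (ising J 0) := hw.pos
  have z3 : 0 < ising J 0 σ := Real.exp_pos _
  have h1 : Real.log (v σ) + y ⬝ᵥ sv σ ≤ Real.log (Zw (tilt v y)) := by
    rw [← Real.log_exp (y ⬝ᵥ sv σ), ← Real.log_mul h.ne' (Real.exp_pos _).ne']
    exact Real.log_le_log (by positivity)
      (Finset.single_le_sum (f := tilt v y) (fun x _ => (hv.tilt y).nn x) (Finset.mem_univ σ))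
  have h2 : Real.log (ising J 0 σ) = 1 / 2 * (sv σ ⬝ᵥ J *ᵥ sv σ) := by simp [ising]
  change Real.log (v σ / Zw v / (ising J 0 σ / Zw (ising J 0))) ≤ _
  rw [Real.log_div (by positivity) (by positivity), Real.log_div h.ne' z1.ne',
    Real.log_div z3.ne' z2.ne', h2]
  linarith

end Term42

open Term42 in
theorem termStmt : TermStmt := by
  intro ε hε
  set l := ε / 3 with hl
  have hl0 : 0 < l := by positivity
  set K := 9 / l + 3 with hK
  have hK0 : 0 < K := by positivity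
  set A := Real.sqrt (K * 16 / l) with hA
  have hA0 : 0 < A := Real.sqrt_pos.2 (by positivity)
  have hA2 : K * 16 / A ^ 2 = l := by rw [hA, Real.sq_sqrt (by positivity)]; field_simp
  set M := K * Real.exp A + 2 with hM
  have hM0 : 0 < M := by positivity
  refine ⟨max 0 (2 * Real.log (M / l)), fun T hT n J b hJT hJ hb v hv => ?_⟩
  have hT0 : 0 ≤ T := (le_max_left _ _).trans hT
  have hMT : M * Real.exp (-(T / 2)) ≤ l := by
    have h1 : Real.log (M / l) ≤ T / 2 := by linarith [(le_max_right _ _).trans hT]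
    rw [Real.log_le_iff_le_exp (by positivity), div_le_iff₀ hl0] at h1
    rw [Real.exp_neg, ← div_eq_mul_inv, div_le_iff₀ (Real.exp_pos _)]
    linarith
  set c := Real.log (Zw (ising J 0)) - Real.log (Zw v) with hc
  have key : ∀ σ, 0 < v σ → Real.log (prob v σ / prob (ising J 0) σ) ≤ c +
      (∫ g, Xi J b v (T • sv σ + Real.sqrt T • g) ∂gv (Fin n)) + ε * n := fun σ hσ => by
    have iX : Integrable (fun g => Xi J b v (T • sv σ + Real.sqrt T • g)) (gv (Fin n)) :=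
      ((mg_Xi hJ hb hv).affine _ _).int
    have iE : Integrable (fun g : V n =>
        ∑ i, Real.exp (-(sv σ i * (T • sv σ + Real.sqrt T • g) i))) (gv (Fin n)) :=
      integrable_finsetSum _ fun i _ => (int_exp hT0 σ i).1
    have h := integral_mono (μ := gv (Fin n))
      (integrable_const (Real.log (prob v σ / prob (ising J 0) σ) - c - 2 * l * n))
      (iX.add (iE.const_mul M)) fun g => by
        have h1 := log_le (J := J) hv hσ (T • sv σ + Real.sqrt T • g)
        have h2 := phi_le hJT hJ hb hA0 hl0 σ _ _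
          (nrm_cav_sub hJ hb (T • sv σ + Real.sqrt T • g)
            (cb_mag (hv.tilt (T • sv σ + Real.sqrt T • g))))
        rw [← hK, hA2, ← hM] at h2
        simp only [Pi.add_apply] at h2 ⊢
        rw [Xi]; linarith
    erw [integral_add iX (iE.const_mul M)] at h
    rw [integral_const_mul, integral_finsetSum _ fun i _ => (int_exp hT0 σ i).1,
      Finset.sum_congr rfl fun i _ => (int_exp hT0 σ i).2] at h
    simp only [integral_const, probReal_univ, smul_eq_mul, one_mul, Finset.sum_const,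
      Finset.card_univ, Fintype.card_fin, nsmul_eq_mul] at h
    nlinarith [mul_le_mul_of_nonneg_left hMT (Nat.cast_nonneg (α := ℝ) n)]
  have h2 : kl v (ising J 0) ≤ ∑ σ, prob v σ * (c + (∫ g, Xi J b v (T • sv σ + Real.sqrt T • g)
      ∂gv (Fin n)) + ε * n) := Finset.sum_le_sum fun σ _ => by
    rcases (hv.nn σ).eq_or_lt with h | h
    · simp [prob, ← h]
    · exact mul_le_mul_of_nonneg_left (key σ h) (hv.prob_nonneg σ)
  simp only [mul_add, Finset.sum_add_distrib, ← Finset.sum_mul, hv.sum_prob, one_mul] at h2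
  exact h2

end Crest.Agent.T157.Lp
end
end

-- ▼ part T157/TapRam_43
section

/-!
# Row 157, part A (helper43): `Tap.RamStmt`

For slopes in `[0,1]` and every `|t| ≤ 5` there are `κ, τ` with `κ + τ ≤ t² - t⁴/74` and
`E exp (t (z ψ - ψ') - κ ψ²) ≤ exp τ`; Chernoff's bound with `t = S₀/2`.
-/

set_option autoImplicit false

noncomputable section

namespace Crest.Agent.T157.Tap

open MeasureTheory ProbabilityTheory Real Set
open Crest.Agent.T157.E Crest.Agent.T157.Kr

namespace Ram43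

/-- the tilt: parameters of the Ramer map and the pointwise comparison -/
lemma exists_par {t : ℝ} (ht : |t| ≤ 5) : ∃ κ τ θ a : ℝ, 0 ≤ κ ∧ κ ≤ 25 ∧
    κ + τ ≤ t ^ 2 - t ^ 4 / 74 ∧ θ < 1 ∧ 0 < a ∧ ∀ z p d : ℝ, 0 ≤ d → d ≤ 1 →
      t * (z * p - d) - κ * p ^ 2 - τ ≤
        (1 - a ^ 2) / 2 * z ^ 2 + a ^ 2 * θ * (z * p) - a ^ 2 * θ ^ 2 / 2 * p ^ 2 + log a +
          log (1 - θ) * d := by
  obtain ⟨h1, h2⟩ := abs_le.1 ht
  rcases le_total 0 t with h0 | h0
  · set Q := 1 + t + t ^ 2 / 2 with hQ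
    have hQ0 : 0 < Q := by positivity
    set δ := t - 1 + Q⁻¹ with hδ
    have e1 : δ * Q = (t ^ 2 + t ^ 3) / 2 := by rw [hδ, hQ]; field_simp; ring
    have hδ0 : 0 ≤ δ := by
      by_contra hc
      push Not at hc
      nlinarith [mul_pos (neg_pos.2 hc) hQ0, pow_nonneg h0 2, pow_nonneg h0 3]
    have e2 : (t ^ 2 / 2 - δ) * Q = t ^ 4 / 4 := by rw [sub_mul, e1, hQ]; ring
    have hQ1 : Q ≤ 37 / 2 := by rw [hQ]; nlinarith
    have h3 : t ^ 4 / 74 ≤ t ^ 2 / 2 - δ := by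
      by_contra hc
      push Not at hc
      have h4 := mul_lt_mul_of_pos_right hc hQ0
      have h5 := mul_le_mul_of_nonneg_left hQ1 (show 0 ≤ t ^ 4 / 74 by positivity)
      linarith
    have h4 : 0 ≤ t ^ 4 := by positivity
    have h5 : t ^ 2 ≤ 25 := by nlinarith
    have hD : 0 < 1 + δ := by linarith
    have hs : 0 < √(1 + δ) := sqrt_pos.2 hD
    have ha2 : (√(1 + δ))⁻¹ ^ 2 = (1 + δ)⁻¹ := by rw [inv_pow, sq_sqrt hD.le]
    refine ⟨(t ^ 2 + δ) / 2, δ / 2, t - δ, (√(1 + δ))⁻¹, by positivity, by linarith, by linarith,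
      ?_, by positivity, fun z p d d0 _ => ?_⟩
    · have : 0 < Q⁻¹ := by positivity
      linarith
    · have l1 : -(δ / 2) ≤ log (√(1 + δ))⁻¹ := by
        rw [log_inv, log_sqrt hD.le]
        linarith [log_le_sub_one_of_pos hD]
      have l2 : -t ≤ log (1 - (t - δ)) := by
        rw [show 1 - (t - δ) = Q⁻¹ by rw [hδ]; ring, log_inv, neg_le_neg_iff,
          log_le_iff_le_exp hQ0]
        exact quadratic_le_exp_of_nonneg h0
      have l3 := mul_le_mul_of_nonneg_right l2 d0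
      have l4 : (1 - (1 + δ)⁻¹) / 2 * z ^ 2 + (1 + δ)⁻¹ * (t - δ) * (z * p) -
          (1 + δ)⁻¹ * (t - δ) ^ 2 / 2 * p ^ 2 - (t * (z * p) - (t ^ 2 + δ) / 2 * p ^ 2) =
          δ * (z - (1 + t) * p) ^ 2 / (2 * (1 + δ)) := by
        field_simp; ring
      have l5 : 0 ≤ δ * (z - (1 + t) * p) ^ 2 / (2 * (1 + δ)) := by positivity
      rw [ha2]
      linarith
  · have r0 : 0 ≤ -t := by linarith
    have l1 := le_log_one_add_of_nonneg r0
    have l2 : log (1 - t) ≤ -t := by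
      linarith [log_le_sub_one_of_pos (show 0 < 1 - t by linarith)]
    rw [show 1 + -t = 1 - t by ring, div_le_iff₀ (by linarith)] at l1
    have h5 : t ^ 2 ≤ 25 := by nlinarith
    refine ⟨t ^ 2 / 2, -t - log (1 - t), t, 1, by positivity, by linarith, ?_, by linarith,
      one_pos, fun z p d _ d1 => ?_⟩
    · by_contra hc
      push Not at hc
      have h4 := mul_lt_mul_of_pos_right hc (show 0 < -t + 2 by linarith)
      have h6 : 0 ≤ (-t) ^ 3 := by positivity
      have h7 : 0 ≤ (-t) ^ 3 * (37 - (-t) * (-t + 2)) := mul_nonneg h6 (by nlinarith)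
      nlinarith
    · rw [log_one]
      nlinarith [mul_nonneg (sub_nonneg.2 l2) (sub_nonneg.2 d1)]

/-- Chernoff form of the Ramer inequality -/
theorem tilt {t : ℝ} (ht : |t| ≤ 5) : ∃ κ τ : ℝ, 0 ≤ κ ∧ κ ≤ 25 ∧ κ + τ ≤ t ^ 2 - t ^ 4 / 74 ∧
    ∀ (n : ℕ) (ψ ψ' : Fin n → ℝ → ℝ), Slope ψ ψ' → ∀ V : ℝ,
      (gv (Fin n)).real {z | V ≤ ∑ i, (t * (z i * ψ i (z i) - ψ' i (z i)) - κ * ψ i (z i) ^ 2 - τ)}
        ≤ exp (-V) := by
  obtain ⟨κ, τ, θ, a, h0, h1, h2, hθ, ha, h⟩ := exists_par ht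
  refine ⟨κ, τ, h0, h1, h2, fun n ψ ψ' hs V => ?_⟩
  refine le_trans (measureReal_mono fun z hz => ?_) (ramer_markov hs.hd ha.le (θ := θ)
    (fun i z => ?_) V)
  · refine le_trans (exp_le_exp.2 (le_trans hz ?_)) (prod_ram_ge hs hθ ha z)
    have e : (Fintype.card (Fin n) : ℝ) * log a = ∑ _i : Fin n, log a := by simp
    rw [e]
    simp only [Finset.mul_sum, ← Finset.sum_add_distrib, ← Finset.sum_sub_distrib]
    exact Finset.sum_le_sum fun i _ => h _ _ _ (hs.h0 i _) (hs.h1 i _)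
  · have := hs.h0 i z
    have := hs.h1 i z
    nlinarith

lemma hasDerivAt_tanh (x : ℝ) : HasDerivAt Real.tanh (1 - Real.tanh x ^ 2) x := by
  have h := (Real.hasDerivAt_sinh x).div (Real.hasDerivAt_cosh x) (Real.cosh_pos x).ne'
  have e : Real.sinh / Real.cosh = Real.tanh :=
    funext fun y => (Real.tanh_eq_sinh_div_cosh y).symm
  rw [e] at h
  refine h.congr_deriv ?_
  rw [Real.tanh_eq_sinh_div_cosh]
  field_simp

lemma tanh_sq_le (x : ℝ) : Real.tanh x ^ 2 ≤ 1 := by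
  have := Real.tanh_lt_one x
  have := Real.neg_one_lt_tanh x
  nlinarith

lemma slope {n : ℕ} (m : Fin n → ℝ) {β a0 : ℝ} (hβ : β ∈ Icc (0 : ℝ) 1) (ha : 0 < a0) :
    Slope (fun i z => Real.tanh (m i + β * √a0 * z) / √a0)
      (fun i z => β * (1 - Real.tanh (m i + β * √a0 * z) ^ 2)) := by
  have hs : 0 < √a0 := sqrt_pos.2 ha
  refine ⟨fun i z => ?_, fun i z => mul_nonneg hβ.1 (sub_nonneg.2 (tanh_sq_le _)), fun i z => ?_⟩
  · have h1 : HasDerivAt (fun z => m i + β * √a0 * z) (β * √a0 * 1) z :=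
      ((hasDerivAt_id z).const_mul _).const_add _
    refine (((hasDerivAt_tanh _).comp z h1).div_const (√a0)).congr_deriv ?_
    field_simp
  · exact mul_le_one₀ hβ.2 (sub_nonneg.2 (tanh_sq_le _)) (by nlinarith [sq_nonneg (Real.tanh
      (m i + β * √a0 * z))])

/-- the scalar bookkeeping -/
lemma num {am e1 ε a0 S0 β A u κ τ : ℝ} (ham : 0 < am) (he : 0 < e1) (hβ : β ∈ Icc (0 : ℝ) 1)
    (hε : 0 < ε) (hεa : ε ≤ am / 2) (ha : a0 ∈ Icc am 1) (h1 : e1 ≤ |S0|) (h2 : |S0| ≤ 10)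
    (hA1 : A ≤ 1) (hA : |A - a0| ≤ ε) (hS : |u / √A - β * (1 - A) - S0| ≤ ε) (k0 : 0 ≤ κ)
    (k1 : κ ≤ 25) (k2 : κ + τ ≤ (S0 / 2) ^ 2 - (S0 / 2) ^ 4 / 74) :
    S0 ^ 2 / 4 + (e1 / 2) ^ 4 / 74 - (5 + 85 / am) * ε ≤
      S0 / 2 * (u / √a0 - β * (1 - A)) - κ * (A / a0) - τ := by
  have ha0 : 0 < a0 := ham.trans_le ha.1
  obtain ⟨hA2, hA3⟩ := abs_le.1 hA
  have hA0 : 0 < A := by linarith [ha.1]
  have sA : 0 < √A := sqrt_pos.2 hA0
  have sa : 0 < √a0 := sqrt_pos.2 ha0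
  set η := u / √A with hη
  set ρ := √A / √a0 with hρ
  have ρ0 : 0 < ρ := by positivity
  have e1' : u / √a0 = η * ρ := by rw [hη, hρ]; field_simp
  have e2 : A / a0 = ρ ^ 2 := by rw [hρ, div_pow, sq_sqrt hA0.le, sq_sqrt ha0.le]
  set w := ε / am with hw
  have w0 : 0 < w := by positivity
  have hρ2 : |ρ ^ 2 - 1| ≤ w := by
    rw [← e2, show A / a0 - 1 = (A - a0) / a0 by field_simp, abs_div, abs_of_pos ha0]
    exact div_le_div₀ hε.le hA ham ha.1
  have hρ1 : |ρ - 1| ≤ w := by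
    refine le_trans ?_ hρ2
    rw [show ρ ^ 2 - 1 = (ρ - 1) * (ρ + 1) by ring, abs_mul]
    exact le_mul_of_one_le_right (abs_nonneg _) (by rw [abs_of_pos (by linarith)]; linarith)
  have b0 : 0 ≤ β * (1 - A) := mul_nonneg hβ.1 (by linarith)
  have b1 : β * (1 - A) ≤ 1 := mul_le_one₀ hβ.2 (by linarith) (by linarith)
  have hη1 : |η| ≤ 12 := by
    obtain ⟨s1, s2⟩ := abs_le.1 hS
    obtain ⟨s3, s4⟩ := abs_le.1 h2
    rw [abs_le]
    constructor <;> linarith [ha.1, ha.2]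
  have ht : |S0 / 2| ≤ 5 := by rw [abs_div, abs_two]; linarith
  have c1 : |S0 / 2 * (η - β * (1 - A) - S0)| ≤ 5 * ε := by
    rw [abs_mul]; exact mul_le_mul ht hS (abs_nonneg _) (by norm_num)
  have c2 : |S0 / 2 * (η * (ρ - 1))| ≤ 5 * (12 * w) := by
    rw [abs_mul, abs_mul η]
    exact mul_le_mul ht (mul_le_mul hη1 hρ1 (abs_nonneg _) (by norm_num)) (by positivity)
      (by norm_num)
  have c3 : κ * (ρ ^ 2 - 1) ≤ 25 * w :=
    (mul_le_mul_of_nonneg_left (abs_le.1 hρ2).2 k0).trans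
      (mul_le_mul_of_nonneg_right k1 w0.le)
  have c4 : (e1 / 2) ^ 4 ≤ (S0 / 2) ^ 4 := by
    have : (S0 / 2) ^ 4 = (|S0| / 2) ^ 4 := by
      rw [div_pow, div_pow, show (4 : ℕ) = 2 * 2 from rfl, pow_mul, pow_mul |S0|, sq_abs]
    rw [this]
    exact pow_le_pow_left₀ (by positivity) (by linarith) 4
  have e3 : (5 + 85 / am) * ε = 5 * ε + 85 * w := by rw [hw]; ring
  rw [e1', e2, e3]
  have d1 := (abs_le.1 c1).1
  have d2 := (abs_le.1 c2).1
  nlinarith

end Ram43

open Ram43 in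
theorem ramStmt : RamStmt := by
  intro am ham e1 he
  refine ⟨(e1 / 2) ^ 4 / 74, by positivity, 5 + 85 / am, ?_⟩
  intro n β s ε a0 b0 S0 hn hβ hε hεa ha h1 h2
  have ha0 : 0 < a0 := ham.trans_le ha.1
  have hn' : (0 : ℝ) < n := Nat.cast_pos.2 hn
  obtain ⟨κ, τ, k0, k1, k2, hT⟩ := tilt (t := S0 / 2) (by rw [abs_div, abs_two]; linarith)
  set Vv : ℝ := n * (S0 ^ 2 / 4 + (e1 / 2) ^ 4 / 74 - (5 + 85 / am) * ε) with hV
  set F : V n × V n → ℝ := fun z => ∑ i, (S0 / 2 *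
    (z.2 i * (Real.tanh (s + β ^ 2 * b0 + √s * z.1 i + β * √a0 * z.2 i) / √a0) -
      β * (1 - Real.tanh (s + β ^ 2 * b0 + √s * z.1 i + β * √a0 * z.2 i) ^ 2)) -
    κ * (Real.tanh (s + β ^ 2 * b0 + √s * z.1 i + β * √a0 * z.2 i) / √a0) ^ 2 - τ) with hF
  have hc : Continuous Real.tanh :=
    continuous_iff_continuousAt.2 fun x => (Ram43.hasDerivAt_tanh x).continuousAt
  have hFm : Measurable F := by
    have := hc.measurable
    rw [hF]; fun_prop
  have hB : MeasurableSet {z | Vv ≤ F z} := measurableSet_le measurable_const hFm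
  refine le_trans (measure_mono (t := {z | Vv ≤ F z}) fun z hz => ?_) ?_
  · obtain ⟨z1, z2⟩ := hz
    have hA1 : aS (xv β s a0 b0 z.1 z.2) ≤ 1 := by
      rw [aS, avg, div_le_one hn']
      exact (Finset.sum_le_sum fun i _ => tanh_sq_le _).trans (by simp)
    have key := mul_le_mul_of_nonneg_left
      (num ham he hβ hε hεa ha h1 h2 hA1 z1 z2 k0 k1 k2) hn'.le
    refine key.trans (le_of_eq ?_)
    simp only [hF, aS, avg, th, xv, Finset.sum_sub_distrib, ← Finset.mul_sum, div_pow,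
      sq_sqrt ha0.le, ← mul_div_assoc, ← Finset.sum_div, Finset.sum_const, Finset.card_univ,
      Fintype.card_fin, nsmul_eq_mul]
    generalize ∑ i, z.2 i * Real.tanh (s + β ^ 2 * b0 + √s * z.1 i + β * √a0 * z.2 i) = X
    generalize ∑ i, Real.tanh (s + β ^ 2 * b0 + √s * z.1 i + β * √a0 * z.2 i) ^ 2 = Y
    field_simp
  · rw [Measure.prod_apply hB]
    refine (lintegral_mono (g := fun _ => ENNReal.ofReal (exp (-Vv))) fun g => ?_).trans ?_
    · have h := hT n _ _ (slope (fun i => s + β ^ 2 * b0 + √s * g i) hβ ha0) Vv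
      rw [← ofReal_measureReal]
      exact ENNReal.ofReal_le_ofReal h
    · rw [lintegral_const, measure_univ, mul_one, hV, neg_mul]

end Crest.Agent.T157.Tap

end
end

-- ▼ part T157/TapUf_23
section

/-!
# Row 157, part A: uniform freeness, unconditional
-/

namespace Crest.Agent.T157.Tap

theorem ufStmt : UFStmt := ufStmt_of_fix ufFix

end Crest.Agent.T157.Tap
end

-- ▼ part T157/LpTop_41

/-!
Row 157, part A (helper41): the final assembly of (L') and the bridge to `Top.LpStmt`.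
-/

set_option autoImplicit false

noncomputable section

namespace Crest.Agent.T157.Lp

open MeasureTheory ProbabilityTheory Matrix Filter Set
open Crest.ProbabilityR.SpinGlassDynamics
open Crest.Agent.T157.E Crest.Agent.T157.Eig Crest.Agent.T157.Cond Crest.Agent.T157.Tap

variable {n : ℕ}

namespace Top41

/-- crude bound of the relative entropy -/
theorem kl_crude {J : Mx n} (hJ : opn J ≤ 3) {v : Cube n → ℝ} (hv : SL.Wt v) :
    kl v (ising J 0) ≤ Real.log (Zw (ising J 0)) + 3 / 2 * n := by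
  have hw : ∀ x, 0 < ising J 0 x := fun _ => Real.exp_pos _
  have hW := SL.Wt.of_pos hw
  have h1 : ∑ x, prob v x = 1 := by
    simp only [prob, ← Finset.sum_div]; exact div_self hv.pos.ne'
  have h2 : ∀ x, prob v x ≤ 1 := fun x => h1 ▸
    Finset.single_le_sum (f := prob v) (fun y _ => hv.prob_nonneg y) (Finset.mem_univ x)
  calc kl v (ising J 0) ≤ ∑ x, prob v x * (Real.log (Zw (ising J 0)) + 3 / 2 * n) := by
        refine Finset.sum_le_sum fun x _ => ?_
        rcases (hv.prob_nonneg x).eq_or_lt with h0 | h0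
        · rw [← h0]; simp
        refine mul_le_mul_of_nonneg_left ?_ h0.le
        have hp : 0 < prob (ising J 0) x := div_pos (hw x) hW.pos
        rw [Real.log_div h0.ne' hp.ne', prob, prob, Real.log_div (hw x).ne' hW.pos.ne']
        have h3 : Real.log (v x / ∑ y, v y) ≤ 0 := Real.log_nonpos h0.le (h2 x)
        have h4 : Real.log (ising J 0 x) = 1 / 2 * (sv x ⬝ᵥ J *ᵥ sv x) := by
          simp [ising]
        have h5 := (abs_le.1 (G1.abs_quad_cb hJ (G1.cb_sv x))).1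
        rw [h4, Zw]
        linarith
    _ = _ := by rw [← Finset.sum_mul, h1, one_mul]

/-- from laws to functions -/
theorem dlsi_of_kl {w : Cube n → ℝ} (hw : ∀ x, 0 < w x) {κ ε C : ℝ} (hκ : 0 < κ) (hε : 0 ≤ ε)
    (hC : 0 ≤ C) (h1 : ∀ v, SL.Wt v → fis w v ≤ κ * n → kl v w ≤ ε * n)
    (h2 : ∀ v, SL.Wt v → kl v w ≤ C * n) (f : Cube n → ℝ) :
    ent w (fun x => f x ^ 2) ≤ C / κ * dir w f + ε * n * mean w fun x => f x ^ 2 := by
  have hW := SL.Wt.of_pos hw
  have hd := Ent.dir_nonneg hw f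
  rcases (hW.mean_nonneg (f := fun x => f x ^ 2) fun _ => sq_nonneg _).eq_or_lt with e | e
  · have hz : ∀ x, f x ^ 2 = 0 := fun x => by
      have := (Finset.sum_eq_zero_iff_of_nonneg fun y _ =>
        mul_nonneg (hW.prob_nonneg y) (sq_nonneg (f y))).1 e.symm x (Finset.mem_univ x)
      exact (mul_eq_zero.1 this).resolve_left (div_pos (hw x) hW.pos).ne'
    have : ent w (fun x => f x ^ 2) = 0 := by simp [ent, mean, hz]
    rw [this, ← e, mul_zero, add_zero]
    positivity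
  set m := mean w fun x => f x ^ 2 with hm
  have hv : SL.Wt fun x => w x * f x ^ 2 := by
    refine ⟨fun x => mul_nonneg (hw x).le (sq_nonneg _), ?_⟩
    have : m = (∑ x, w x * f x ^ 2) / ∑ y, w y := by
      simp only [hm, mean, prob, Finset.sum_div]
      exact Finset.sum_congr rfl fun x _ => by ring
    rw [this] at e
    exact (div_pos_iff_of_pos_right hW.pos).1 e
  have hk := SL.kl_mul (f := fun x => f x ^ 2) hW e.ne'
  have hf := Fis23.fis_mul (g := fun x => f x ^ 2) hw e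
  have hf' : dir w (fun x => √(f x ^ 2)) ≤ dir w f :=
    Glue.dir_le_of_abs hw fun x y => by
      rw [Real.sqrt_sq_eq_abs, Real.sqrt_sq_eq_abs]; exact abs_abs_sub_abs_le _ _
  have hn : (0 : ℝ) ≤ n := Nat.cast_nonneg n
  by_cases h : fis w (fun x => w x * f x ^ 2) ≤ κ * n
  · have := h1 _ hv h
    rw [hk, div_le_iff₀ e] at this
    have : 0 ≤ C / κ * dir w f := by positivity
    linarith
  · have h3 := h2 _ hv
    rw [hk, div_le_iff₀ e] at h3
    rw [hf, not_le, lt_div_iff₀ e] at h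
    have h4 : C / κ * (κ * n * m) ≤ C / κ * dir w f :=
      mul_le_mul_of_nonneg_left (h.le.trans hf') (by positivity)
    have h5 : C / κ * (κ * n * m) = C * n * m := by field_simp
    have h6 : 0 ≤ ε * n * m := by positivity
    linarith

end Top41

open Top41

theorem lpTop : LpTop := by
  intro hStep hBad hStart hTerm hLast hZw hChain hUF hFrz hEnd hU2 hUfE hKs hZ β hβ ε hε
  have hβ' : β ∈ Icc (0 : ℝ) 1 := ⟨hβ.1.le, hβ.2⟩
  have hb : β ^ 2 ∈ Icc (0 : ℝ) 1 := ⟨sq_nonneg _, pow_le_one₀ hβ.1.le hβ.2⟩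
  have he : 0 < ε / 5 := by positivity
  obtain ⟨k1, hk1, hStart⟩ := hStart _ he
  obtain ⟨ηZ, hηZ, wZ⟩ := hZ β hβ k1 hk1
  obtain ⟨t1, ht1, τ, hτ, hStart⟩ := hStart ηZ hηZ
  have ht0 : 0 < t1 / 2 := half_pos ht1
  obtain ⟨κ0, hκ0, hBad⟩ := hBad _ ht0
  obtain ⟨c, hc, L, hL, r, ρ, hρ, wU2⟩ := hU2 β hβ (κ0 / 400) (by have := hκ0.1; positivity)
  obtain ⟨εF, hεF, wF⟩ := hFrz
  obtain ⟨KU, wUF⟩ := hUF β hβ' (1 / 2) (by norm_num)
  obtain ⟨ηE, hηE, T0, M, hM, hEnd⟩ := hEnd εF hεF KU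
  obtain ⟨T1, hTerm⟩ := hTerm _ he
  obtain ⟨T2, hLast⟩ := hLast ηE hηE
  set T := max (max T0 T1) (max T2 (t1 / 2)) with hT
  have hT0 : T0 ≤ T := (le_max_left _ _).trans (le_max_left _ _)
  have hT1 : T1 ≤ T := (le_max_right _ _).trans (le_max_left _ _)
  have hT2 : T2 ≤ T := (le_max_left _ _).trans (le_max_right _ _)
  have hT3 : t1 / 2 ≤ T := (le_max_right _ _).trans (le_max_right _ _)
  obtain ⟨R, hR, hBad⟩ := hBad (T + 1)
  obtain ⟨K2, hK2, η0, hη0, hKs⟩ := hKs β hβ (κ0 / 100) (by have := hκ0.1; positivity) R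
  obtain ⟨η1, hη1, hStep⟩ := hStep κ0 hκ0 c hc L hL r ρ hρ K2 hK2
  have hη : 0 < min η0 η1 := lt_min hη0 hη1
  obtain ⟨N, C, δ, hδ, wKs⟩ := hKs _ ⟨hη, min_le_left _ _⟩
  obtain ⟨h0, hh0, K, hK, hStep⟩ := hStep _ ⟨hη, min_le_right _ _⟩ N C δ hδ R hR
  obtain ⟨σ, hσ, ε', hε', hChain⟩ := hChain _ ht0 T hT3 h0 hh0.1 K hK _ (lt_min hτ he)
  obtain ⟨ε1, hε1, δ', hδ', hStep⟩ := hStep σ hσ
  have hκ : 0 < σ / (2 * (M + 1)) := by positivity
  have hlog : 0 ≤ Real.log 2 := Real.log_nonneg one_le_two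
  have hC : 0 ≤ Real.log 2 + 1 / 4 + ε / 5 + 3 / 2 := by positivity
  refine ⟨(Real.log 2 + 1 / 4 + ε / 5 + 3 / 2) / (σ / (2 * (M + 1))), by positivity, ?_⟩
  refine GoeT.transfer β (fun n w => ∀ f : Cube n → ℝ, ent w (fun x => f x ^ 2) ≤
      (Real.log 2 + 1 / 4 + ε / 5 + 3 / 2) / (σ / (2 * (M + 1))) * dir w f +
        ε * n * mean w fun x => f x ^ 2) (fun n w hw => ?_) ?_
  · have h := (SL.Wt.of_pos hw).pos.ne'
    simp only [GoeT.ent_prob h, GoeT.dir_prob h, GoeT.mean_prob h]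
  refine (Glue.whp_symm.and (Glue.whp_opn.and (wF.and (wUF.and (wU2.and
    ((hUfE β hβ c hc L hL r ε1 hε1).and (wKs.and (wZ.and (hZw β hβ' _ he))))))))).mono ?_
  filter_upwards [hStep, hChain δ' hδ', hBad ε' hε', hLast M hM (σ / 2) (half_pos hσ),
    eventually_gt_atTop 0] with n hStep hChain hBad hLast hn W hW
  obtain ⟨hs, ho, hF, hU, hU2, hUf, hKs, hZ, hZw⟩ := hW
  have hJs : (β • W)ᵀ = β • W := by rw [transpose_smul, hs]
  have hJo : opn (β • W) ≤ 3 := by
    rw [opn_smul, abs_of_pos hβ.1]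
    have := opn_nonneg W
    nlinarith [hβ.2]
  have hn' : (0 : ℝ) ≤ n := Nat.cast_nonneg n
  have hSP := hStep (β • W) (β ^ 2) hJs hJo hb hU2 hUf hKs
  have hEP : EndP (β • W) (β ^ 2) ηE T0 M := hEnd n W β hn hs hβ' ho hF hU
  refine dlsi_of_kl (w := ising (β • W) 0) (fun _ => Real.exp_pos _) hκ hε.le hC
    (fun v hv hf => ?_) (fun v hv => ?_)
  · obtain ⟨s0, hs0, s1, hs1, h1, h2⟩ := hChain (β • W) (β ^ 2) κ0 R hJo hb hSP v hv
      (fun s hs => hBad v hv s hs) (fun s hs => by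
        have h3 := hLast (β • W) (β ^ 2) T0 hEP s (hT0.trans hs.1) (hT2.trans hs.1) v hv
        have h4 : M * fis (ising (β • W) 0) v ≤ M * (σ / (2 * (M + 1)) * n) :=
          mul_le_mul_of_nonneg_left hf hM
        have h5 : M * (σ / (2 * (M + 1)) * n) ≤ σ / 2 * n := by
          rw [← mul_assoc]
          refine mul_le_mul_of_nonneg_right ?_ hn'
          rw [← mul_div_assoc, div_le_div_iff₀ (by positivity) two_pos]
          nlinarith
        linarith)
    have h3 := hStart n (β • W) (β ^ 2) hn hJo hb hZ v hv s0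
      ⟨ht0.le.trans hs0.1, by linarith [hs0.2]⟩
      (h1.trans (mul_le_mul_of_nonneg_right (min_le_left _ _) hn'))
    have h4 := hTerm s1 (hT1.trans hs1.1) n (β • W) (β ^ 2) hJs hJo hb v hv
    have h5 := mul_le_mul_of_nonneg_right (min_le_right τ (ε / 5)) hn'
    have h6 : 0 ≤ ε / 5 * n := by positivity
    linarith
  · have h1 := kl_crude hJo hv
    have h2 := mul_le_mul_of_nonneg_left hb.2 hn'
    linarith

/-- bridge to the words of the architect -/
theorem top_lp (h : LpStmt) : Top.LpStmt := by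
  intro β h0 h1 ε hε
  rcases h0.eq_or_lt with rfl | h0
  · refine ⟨ε / 3, by positivity, Top.whp_of_eventually (.of_forall fun n g f _ _ hd => ?_)⟩
    rw [gibbsWeight_eq_ising, zero_smul, ← diagonal_zero] at hd ⊢
    have hp := Ent.isProd_ising (n := n) (fun _ => 0) 0
    have := hp.at.lsi hp.pos zero_le_one (L := 0) le_rfl (fun i x => by
      rw [Ent.lf_ising (by simp)]; simp) f
    linarith
  obtain ⟨K, hK, h⟩ := h β ⟨h0, h1⟩ (ε / 2) (half_pos hε)
  refine ⟨ε / (2 * (K + 1)), by positivity, h.imp fun n g hg f _ hm hd => ?_⟩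
  have h2 := hg f
  rw [hm] at h2
  have hn' : (0 : ℝ) ≤ n := Nat.cast_nonneg n
  have h3 : K * (ε / (2 * (K + 1)) * n) ≤ ε / 2 * n := by
    rw [← mul_assoc]
    refine mul_le_mul_of_nonneg_right ?_ hn'
    rw [← mul_div_assoc, div_le_div_iff₀ (by positivity) two_pos]
    nlinarith
  have h4 := mul_le_mul_of_nonneg_left hd hK
  linarith

end Crest.Agent.T157.Lp

end
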