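import Crest.Agent.T157.CondB_53
import Crest.Agent.T157.SF_33
import Crest.Agent.T157.ConcG_16
import Crest.Agent.T157.EigN_84

/-!
# Row 157, part E (helper53): Sudakov–Fernique with shifts, GOE version, GOE concentration

* `sf_shift`     : `E max (X_a + f_a) ≤ E max (Y_a + f_a)`;
* `FLip`, `goe_tail`, `goe_tail_lower`, `goe_tail_abs` : Lipschitz concentration for `goe ι s`;
* `sf_goe`       : `E sup_t [u_t·W u_t + f_t] ≤ E sup_t [2 s |u_t| ξ·u_t + f_t]`;
* `sf_goe_tail`  : the corresponding deviation bound.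
-/

set_option autoImplicit false
set_option linter.unusedSectionVars false

noncomputable section

namespace Crest.Agent.T157.Kr

open MeasureTheory ProbabilityTheory Matrix Real Filter Topology
open Crest.Agent.T157.E Crest.Agent.T157.Cond Crest.Agent.T157.SF
open Crest.Agent.R339.Guerra (lin dual G mp_int mp_comp continuous_lin integrable_comp_lin)

section shift
variable {I ι κ : Type*} [Fintype I] [Fintype ι] [Fintype κ] [Nonempty I]

lemma sign_cond [DecidableEq I] {D : I → I → ℝ} {p : I → ℝ} {l : ℝ} (hl : 0 ≤ l)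
    (hp0 : ∀ a, 0 ≤ p a) (hp1 : ∑ a, p a = 1) (hD : ∀ a b, D a a + D b b - 2 * D a b ≤ 0) :
    ∑ a, ∑ b, D a b * (l * ((if a = b then p a else 0) - p a * p b)) ≤ 0 := by
  have e1 : ∑ a, ∑ b, D a b * (l * ((if a = b then p a else 0) - p a * p b)) =
      l * (∑ a, p a * D a a - ∑ a, ∑ b, p a * p b * D a b) := by
    rw [← Finset.sum_sub_distrib, Finset.mul_sum]
    refine Finset.sum_congr rfl fun a _ => ?_
    have : p a * D a a = ∑ b, if a = b then p a * D a b else 0 := by simp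
    rw [this, ← Finset.sum_sub_distrib, Finset.mul_sum]
    refine Finset.sum_congr rfl fun b _ => ?_
    split_ifs <;> ring
  have e2 : ∑ a, ∑ b, p a * p b * (D a a + D b b - 2 * D a b) =
      2 * (∑ a, p a * D a a - ∑ a, ∑ b, p a * p b * D a b) := by
    have a1 : ∑ a, ∑ b, p a * p b * D a a = ∑ a, p a * D a a := by
      refine Finset.sum_congr rfl fun a _ => ?_
      rw [← Finset.sum_mul, ← Finset.mul_sum, hp1, mul_one]
    have a2 : ∑ a, ∑ b, p a * p b * D b b = ∑ a, p a * D a a := by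
      rw [Finset.sum_comm, ← a1]
      exact Finset.sum_congr rfl fun a _ => Finset.sum_congr rfl fun b _ => by ring
    have a3 : ∑ a, ∑ b, p a * p b * (D a a + D b b - 2 * D a b) =
        ∑ a, ∑ b, p a * p b * D a a + ∑ a, ∑ b, p a * p b * D b b -
          2 * ∑ a, ∑ b, p a * p b * D a b := by
      rw [Finset.mul_sum, ← Finset.sum_add_distrib, ← Finset.sum_sub_distrib]
      refine Finset.sum_congr rfl fun a _ => ?_
      rw [Finset.mul_sum, ← Finset.sum_add_distrib, ← Finset.sum_sub_distrib]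
      exact Finset.sum_congr rfl fun b _ => by ring
    rw [a3, a1, a2]; ring
  have e3 : ∑ a, ∑ b, p a * p b * (D a a + D b b - 2 * D a b) ≤ 0 :=
    Finset.sum_nonpos fun a _ => Finset.sum_nonpos fun b _ =>
      mul_nonpos_of_nonneg_of_nonpos (mul_nonneg (hp0 a) (hp0 b)) (hD a b)
  rw [e1]
  exact mul_nonpos_of_nonneg_of_nonpos hl (by linarith)

lemma integrable_mx_shift (A : I → ι → ℝ) (f : I → ℝ) :
    Integrable (fun g => mx (lin A g + f)) (G ι) := by
  refine ((integrable_mx A).abs.add (integrable_const (2 * ‖f‖))).mono'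
    (continuous_mx.comp ((continuous_lin A).add continuous_const)).aestronglyMeasurable
    (Eventually.of_forall fun g => ?_)
  have hf : ∀ a, |f a| ≤ ‖f‖ := fun a => norm_le_pi_norm f a
  have h0 := norm_nonneg f
  rw [Real.norm_eq_abs, Pi.add_apply, abs_le]
  constructor
  · obtain ⟨a, ha⟩ := exists_mx (lin A g)
    have h1 := le_mx (lin A g + f) a
    rw [Pi.add_apply, ← ha] at h1
    have := neg_abs_le (mx (lin A g))
    have := (abs_le.1 (hf a)).1
    linarith
  · refine mx_le fun a => ?_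
    have h1 := le_mx (lin A g) a
    have := le_abs_self (mx (lin A g))
    have := (abs_le.1 (hf a)).2
    rw [Pi.add_apply]
    linarith

theorem sf_shift_aux (A B : I → ι → ℝ) (f : I → ℝ) (hAB : ∀ a b j, A a j * B b j = 0)
    (h : ∀ a b, ∑ j, (A a j - A b j) ^ 2 ≤ ∑ j, (B a j - B b j) ^ 2) :
    ∫ g, mx (lin A g + f) ∂(G ι) ≤ ∫ g, mx (lin B g + f) ∂(G ι) := by
  classical
  refine le_of_forall_pos_le_add fun ε hε => ?_
  have hc1 : (1 : ℝ) ≤ Fintype.card I := by exact_mod_cast Fintype.card_pos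
  have hlog := log_nonneg hc1
  set l : ℝ := (log (Fintype.card I) + 1) / ε with hl
  have hl0 : 0 < l := by positivity
  have hε' : log (Fintype.card I) / l ≤ ε := by
    rw [div_le_iff₀ hl0, hl, mul_div_cancel₀ _ hε.ne']; linarith
  have hPb : ∀ (a : I) (h : I → ℝ), |sm l (h + f) a| ≤ l + 1 := fun a h => by
    rw [abs_of_nonneg (sm_nonneg l _ a)]; linarith [sm_le l (h + f) a]
  have hF : ∀ h : I → ℝ, HasFDerivAt (fun h : I → ℝ => (1 / l) * log (∑ b, exp (l * (h + f) b)))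
      (dual fun a => sm l (h + f) a) h := fun h =>
    (hasFDerivAt_comp_add_right (f := fun h : I → ℝ => (1 / l) * log (∑ b, exp (l * h b))) f).2
      (fd_lse hl0 (h + f))
  have hk := kahane_gen (F := fun h : I → ℝ => (1 / l) * log (∑ b, exp (l * (h + f) b)))
    (P := fun a h => sm l (h + f) a)
    (H := fun a b h => l * ((if a = b then sm l (h + f) a else 0) - sm l (h + f) a * sm l (h + f) b))
    (c := l + 1) hF
    (fun a h => (hasFDerivAt_comp_add_right (f := fun h : I → ℝ => sm l h a) f).2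
      (fd_sm l a (h + f))) (fun a b => by
      have h1 : Continuous fun h : I → ℝ => sm l (h + f) a :=
        (continuous_sm l a).comp (continuous_id.add continuous_const)
      have h2 : Continuous fun h : I → ℝ => sm l (h + f) b :=
        (continuous_sm l b).comp (continuous_id.add continuous_const)
      split_ifs <;> fun_prop) (by linarith) hPb (fun a b h => by
      have h1 := sm_nonneg l (h + f) a
      have h2 := sm_nonneg l (h + f) b
      have h3 := sm_le l (h + f) a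
      have h4 := sm_le l (h + f) b
      have h5 := mul_nonneg h1 h2
      have h6 : sm l (h + f) a * sm l (h + f) b ≤ 1 := mul_le_one₀ h3 h2 h4
      rw [abs_mul, abs_of_pos hl0]
      have : |(if a = b then sm l (h + f) a else 0) - sm l (h + f) a * sm l (h + f) b| ≤ 1 := by
        rw [abs_le]; split_ifs <;> constructor <;> linarith
      nlinarith) A B hAB (fun x => sign_cond hl0.le (sm_nonneg l _) (sm_sum l _) fun a b => by
        have q : ∀ C : I → ι → ℝ, ∑ j, (C a j - C b j) ^ 2 =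
            ∑ j, C a j * C a j + ∑ j, C b j * C b j - 2 * ∑ j, C a j * C b j := fun C => by
          rw [Finset.mul_sum, ← Finset.sum_add_distrib, ← Finset.sum_sub_distrib]
          exact Finset.sum_congr rfl fun j _ => by ring
        have := h a b
        rw [q A, q B] at this
        linarith)
  have iA := integrable_comp_lin hF (by linarith) hPb A
  have iB := integrable_comp_lin hF (by linarith) hPb B
  have h1 := integral_mono (integrable_mx_shift A f) iA fun g => mx_le_lse hl0 (lin A g + f)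
  have h2 := integral_mono iB ((integrable_mx_shift B f).add (integrable_const ε)) fun g =>
    (lse_le_mx hl0 (lin B g + f)).trans (add_le_add_right hε' _)
  simp only [Pi.add_apply] at h1 h2 hk
  rw [integral_add (integrable_mx_shift B f) (integrable_const ε)] at h2
  simp only [integral_const, probReal_univ, smul_eq_mul, one_mul] at h2
  linarith

/-- **Sudakov–Fernique with deterministic shifts** -/
theorem sf_shift (A : I → ι → ℝ) (B : I → κ → ℝ) (f : I → ℝ)
    (h : ∀ a b, ∑ j, (A a j - A b j) ^ 2 ≤ ∑ j, (B a j - B b j) ^ 2) :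
    ∫ g, mx (lin A g + f) ∂(G ι) ≤ ∫ g, mx (lin B g + f) ∂(G κ) := by
  have hk := sf_shift_aux (ι := ι ⊕ κ) (fun a => Sum.elim (A a) fun _ => 0)
    (fun a => Sum.elim (fun _ => 0) (B a)) f (fun a b j => by rcases j with j | j <;> simp)
    (fun a b => by simpa [Fintype.sum_sum_type] using h a b)
  have hA1 : ∀ g : ι ⊕ κ → ℝ, lin (fun a => Sum.elim (A a) fun _ => 0) g =
      lin A (fun k => g (Sum.inl k)) := by
    intro g; ext a
    simp [lin, Fintype.sum_sum_type]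
  have hB1 : ∀ g : ι ⊕ κ → ℝ, lin (fun a => Sum.elim (fun _ => 0) (B a)) g =
      lin B (fun k => g (Sum.inr k)) := by
    intro g; ext a
    simp [lin, Fintype.sum_sum_type]
  simp only [hA1, hB1] at hk
  rw [mp_int (mp_comp (Sum.inl : ι → ι ⊕ κ) Sum.inl_injective)
      (integrable_mx_shift A f).aestronglyMeasurable,
    mp_int (mp_comp (Sum.inr : κ → ι ⊕ κ) Sum.inr_injective)
      (integrable_mx_shift B f).aestronglyMeasurable] at hk
  exact hk

end shift

variable {ι : Type*} [Fintype ι]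

/-! ### Lipschitz concentration for the GOE -/

/-- Frobenius norm -/
def fro (M : Matrix ι ι ℝ) : ℝ := Real.sqrt (∑ i, ∑ j, M i j ^ 2)

lemma fro_nonneg (M : Matrix ι ι ℝ) : 0 ≤ fro M := Real.sqrt_nonneg _

/-- Lipschitz on symmetric matrices for the Frobenius norm -/
def FLip (L : ℝ) (Λ : Matrix ι ι ℝ → ℝ) : Prop :=
  ∀ W W' : Matrix ι ι ℝ, Wᵀ = W → W'ᵀ = W' → |Λ W - Λ W'| ≤ L * fro (W - W')

lemma fro_symG_le (s : ℝ) (x y : ι × ι → ℝ) :
    fro (symG s x - symG s y) ≤ Real.sqrt 2 * |s| * Conc.en (x - y) := by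
  have h2 : Real.sqrt 2 ^ 2 = 2 := Real.sq_sqrt (by norm_num)
  have h3 : Real.sqrt 2 ≠ 0 := by positivity
  refine Real.sqrt_le_iff.2 ⟨by have := Conc.en_nonneg (x - y); positivity, ?_⟩
  rw [mul_pow, mul_pow, h2, sq_abs, Conc.en_sq, Fintype.sum_prod_type]
  have h4 : ∑ i, ∑ j, (x - y) (j, i) ^ 2 = ∑ i, ∑ j, (x - y) (i, j) ^ 2 := Finset.sum_comm
  calc ∑ i, ∑ j, (symG s x - symG s y) i j ^ 2
      ≤ ∑ i, ∑ j, (s ^ 2 * (x - y) (i, j) ^ 2 + s ^ 2 * (x - y) (j, i) ^ 2) := by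
        refine Finset.sum_le_sum fun i _ => Finset.sum_le_sum fun j _ => ?_
        have e : (symG s x - symG s y) i j ^ 2 =
            s ^ 2 / 2 * ((x - y) (i, j) + (x - y) (j, i)) ^ 2 := by
          simp only [symG, Matrix.sub_apply, Matrix.of_apply, Pi.sub_apply]
          have : s ^ 2 / 2 = (s / Real.sqrt 2) ^ 2 := by rw [div_pow, h2]
          rw [this]; ring
        rw [e]
        nlinarith [mul_nonneg (sq_nonneg s) (sq_nonneg ((x - y) (i, j) - (x - y) (j, i)))]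
    _ = 2 * s ^ 2 * ∑ i, ∑ j, (x - y) (i, j) ^ 2 := by
        simp only [Finset.sum_add_distrib, ← Finset.mul_sum, h4]; ring

lemma FLip.elip {L : ℝ} (hL : 0 ≤ L) {Λ : Matrix ι ι ℝ → ℝ} (h : FLip L Λ) (s : ℝ) :
    Conc.ELip (Real.sqrt 2 * |s| * L) fun x : ι × ι → ℝ => Λ (symG s x) := fun x y =>
  (h _ _ (symG_transpose s x) (symG_transpose s y)).trans
    ((mul_le_mul_of_nonneg_left (fro_symG_le s x y) hL).trans_eq (by ring))

lemma integral_goe {Λ : Matrix ι ι ℝ → ℝ} (hm : Measurable Λ) (s : ℝ) :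
    ∫ W, Λ W ∂(goe ι s) = ∫ x, Λ (symG s x) ∂(gv (ι × ι)) := by
  rw [goe, integral_map (measurable_symG s).aemeasurable hm.aestronglyMeasurable]

lemma FLip.integrable {L : ℝ} (hL : 0 ≤ L) {Λ : Matrix ι ι ℝ → ℝ} (h : FLip L Λ)
    (hm : Measurable Λ) (s : ℝ) : Integrable Λ (goe ι s) := by
  rw [goe, integrable_map_measure hm.aestronglyMeasurable (measurable_symG s).aemeasurable]
  exact (h.elip hL s).integrable

theorem FLip.subG {L : ℝ} (hL : 0 ≤ L) {Λ : Matrix ι ι ℝ → ℝ} (h : FLip L Λ) (hm : Measurable Λ)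
    (s : ℝ) : HasSubgaussianMGF (fun W => Λ W - ∫ W', Λ W' ∂(goe ι s))
      ⟨2 * s ^ 2 * L ^ 2, by positivity⟩ (goe ι s) := by
  have h1 := Conc.subG_lip (h.elip hL s)
  have e : (⟨(Real.sqrt 2 * |s| * L) ^ 2, sq_nonneg _⟩ : NNReal) =
      ⟨2 * s ^ 2 * L ^ 2, by positivity⟩ := by
    apply NNReal.eq
    show (Real.sqrt 2 * |s| * L) ^ 2 = 2 * s ^ 2 * L ^ 2
    rw [mul_pow, mul_pow, Real.sq_sqrt (by norm_num), sq_abs]
  rw [e, ← integral_goe hm] at h1
  refine ⟨fun t => ?_, fun t => ?_⟩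
  · rw [goe, integrable_map_measure (by fun_prop) (measurable_symG s).aemeasurable]
    exact h1.integrable_exp_mul t
  · have := h1.mgf_le t
    rw [mgf, integral_goe (by fun_prop)]
    exact this

theorem goe_tail {L : ℝ} (hL : 0 ≤ L) {Λ : Matrix ι ι ℝ → ℝ} (h : FLip L Λ) (hm : Measurable Λ)
    (s : ℝ) {t : ℝ} (ht : 0 ≤ t) :
    (goe ι s).real {W | t ≤ Λ W - ∫ W', Λ W' ∂(goe ι s)} ≤
      Real.exp (-t ^ 2 / (4 * s ^ 2 * L ^ 2)) := by
  refine ((h.subG hL hm s).measure_ge_le ht).trans_eq ?_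
  show Real.exp (-t ^ 2 / (2 * (2 * s ^ 2 * L ^ 2))) = _
  congr 2
  ring

theorem goe_tail_lower {L : ℝ} (hL : 0 ≤ L) {Λ : Matrix ι ι ℝ → ℝ} (h : FLip L Λ)
    (hm : Measurable Λ) (s : ℝ) {t : ℝ} (ht : 0 ≤ t) :
    (goe ι s).real {W | Λ W - ∫ W', Λ W' ∂(goe ι s) ≤ -t} ≤
      Real.exp (-t ^ 2 / (4 * s ^ 2 * L ^ 2)) := by
  have := (h.subG hL hm s).neg.measure_ge_le ht
  refine le_trans (le_of_eq ?_) (this.trans_eq ?_)
  · congr 1; ext x; simp only [Set.mem_ofPred_eq, Pi.neg_apply]; constructor <;> intro <;> linarith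
  · show Real.exp (-t ^ 2 / (2 * (2 * s ^ 2 * L ^ 2))) = _
    congr 2
    ring


lemma abs_quad_le_fro (M : Matrix ι ι ℝ) (v : ι → ℝ) : |v ⬝ᵥ M *ᵥ v| ≤ (v ⬝ᵥ v) * fro M := by
  classical
  refine (Eig.abs_quad_le M v).trans ?_
  rw [mul_comm]
  exact mul_le_mul_of_nonneg_left (Eig.opn_le_sqrt_frob M) (dot_self_nonneg v)

/-! ### Sudakov–Fernique for GOE quadratic forms -/

lemma incr_le (s : ℝ) (u w : ι → ℝ) :
    ∑ p : ι × ι, (Real.sqrt 2 * s * (u p.1 * u p.2) - Real.sqrt 2 * s * (w p.1 * w p.2)) ^ 2 ≤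
      ∑ j, (2 * s * len u * u j - 2 * s * len w * w j) ^ 2 := by
  have h2 : Real.sqrt 2 ^ 2 = 2 := Real.sq_sqrt (by norm_num)
  have e1 : ∑ p : ι × ι, (Real.sqrt 2 * s * (u p.1 * u p.2) -
      Real.sqrt 2 * s * (w p.1 * w p.2)) ^ 2 =
      2 * s ^ 2 * ((u ⬝ᵥ u) ^ 2 + (w ⬝ᵥ w) ^ 2 - 2 * (u ⬝ᵥ w) ^ 2) := by
    have q : ∀ a b : ι → ℝ, (a ⬝ᵥ b) ^ 2 = ∑ i, ∑ j, a i * b i * (a j * b j) := fun a b => by
      rw [sq, dotProduct, Finset.sum_mul_sum]
    rw [q, q, q, Fintype.sum_prod_type]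
    simp only [Finset.mul_sum, ← Finset.sum_add_distrib, ← Finset.sum_sub_distrib]
    refine Finset.sum_congr rfl fun i _ => Finset.sum_congr rfl fun j _ => ?_
    linear_combination (s * (u i * u j - w i * w j)) ^ 2 * h2
  have e2 : ∑ j, (2 * s * len u * u j - 2 * s * len w * w j) ^ 2 =
      4 * s ^ 2 * (len u ^ 2 * (u ⬝ᵥ u) + len w ^ 2 * (w ⬝ᵥ w) - 2 * (len u * len w) * (u ⬝ᵥ w)) := by
    simp only [dotProduct, Finset.mul_sum, ← Finset.sum_add_distrib, ← Finset.sum_sub_distrib]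
    exact Finset.sum_congr rfl fun i _ => by ring
  rw [e1, e2, len_sq, len_sq]
  have h3 : (len u * len w) ^ 2 = (u ⬝ᵥ u) * (w ⬝ᵥ w) := by rw [mul_pow, len_sq, len_sq]
  nlinarith [mul_nonneg (sq_nonneg s) (sq_nonneg (len u * len w - u ⬝ᵥ w)),
    mul_nonneg (sq_nonneg s) (sq_nonneg (u ⬝ᵥ u - w ⬝ᵥ w))]

lemma quad_symG (s : ℝ) (x : ι × ι → ℝ) (u : ι → ℝ) :
    u ⬝ᵥ symG s x *ᵥ u = ∑ p : ι × ι, Real.sqrt 2 * s * (u p.1 * u p.2) * x p := by
  have h2 : Real.sqrt 2 ^ 2 = 2 := Real.sq_sqrt (by norm_num)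
  have h3 : Real.sqrt 2 ≠ 0 := by positivity
  have h4 : ∑ i, ∑ j, u i * u j * x (j, i) = ∑ i, ∑ j, u i * u j * x (i, j) := by
    rw [Finset.sum_comm]
    exact Finset.sum_congr rfl fun i _ => Finset.sum_congr rfl fun j _ => by ring
  have h5 : u ⬝ᵥ symG s x *ᵥ u = s / Real.sqrt 2 *
      (∑ i, ∑ j, u i * u j * x (i, j) + ∑ i, ∑ j, u i * u j * x (j, i)) := by
    simp only [dotProduct, Matrix.mulVec, symG, Matrix.of_apply, Finset.mul_sum,
      ← Finset.sum_add_distrib]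
    exact Finset.sum_congr rfl fun i _ => Finset.sum_congr rfl fun j _ => by ring
  rw [h5, h4, ← two_mul, Fintype.sum_prod_type, ← mul_assoc, Finset.mul_sum]
  refine Finset.sum_congr rfl fun i _ => ?_
  rw [Finset.mul_sum]
  refine Finset.sum_congr rfl fun j _ => ?_
  have : s / Real.sqrt 2 * 2 = Real.sqrt 2 * s := by
    field_simp
    rw [h2]
  rw [this]; ring

/-- finite index set -/
theorem sf_goe_fin {I : Type*} [Fintype I] [Nonempty I] (s : ℝ) (u : I → ι → ℝ) (f : I → ℝ) :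
    Integrable (fun W : Matrix ι ι ℝ => mx fun a => u a ⬝ᵥ W *ᵥ u a + f a) (goe ι s) ∧
    Integrable (fun ξ : ι → ℝ => mx fun a => 2 * s * len (u a) * (ξ ⬝ᵥ u a) + f a) (gv ι) ∧
    ∫ W, mx (fun a => u a ⬝ᵥ W *ᵥ u a + f a) ∂(goe ι s) ≤
      ∫ ξ, mx (fun a => 2 * s * len (u a) * (ξ ⬝ᵥ u a) + f a) ∂(gv ι) := by
  have hm : Measurable fun W : Matrix ι ι ℝ => mx fun a => u a ⬝ᵥ W *ᵥ u a + f a :=
    continuous_mx.measurable.comp (measurable_pi_lambda _ fun a => by fun_prop)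
  have e1 : ∀ x : ι × ι → ℝ, (fun a => u a ⬝ᵥ symG s x *ᵥ u a + f a) =
      lin (fun a (p : ι × ι) => Real.sqrt 2 * s * (u a p.1 * u a p.2)) x + f := by
    intro x; funext a; rw [quad_symG]; rfl
  have e2 : ∀ ξ : ι → ℝ, (fun a => 2 * s * len (u a) * (ξ ⬝ᵥ u a) + f a) =
      lin (fun a j => 2 * s * len (u a) * u a j) ξ + f := by
    intro ξ; funext a
    simp only [lin, Pi.add_apply, dotProduct, Finset.mul_sum]
    congr 1
    exact Finset.sum_congr rfl fun j _ => by ring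
  refine ⟨?_, ?_, ?_⟩
  · rw [goe, integrable_map_measure hm.aestronglyMeasurable (measurable_symG s).aemeasurable]
    simp only [Function.comp_def, e1]
    exact integrable_mx_shift _ f
  · simp only [e2]
    exact integrable_mx_shift _ f
  · rw [integral_goe hm]
    simp only [e1, e2]
    exact sf_shift _ _ f fun a b => incr_le s (u a) (u b)

/-- **Sudakov–Fernique for the GOE**: if `Λ W ≤ sup_t [u_t·W u_t + f_t]` and
`sup_t [2 s |u_t| ξ·u_t + f_t] ≤ Γ ξ` then `E Λ ≤ E Γ`. -/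
theorem sf_goe {T : Type*} [TopologicalSpace T] [TopologicalSpace.SeparableSpace T] [Nonempty T]
    (s : ℝ) {u : T → ι → ℝ} {f : T → ℝ} (hu : Continuous u) (hf : Continuous f)
    {Λ : Matrix ι ι ℝ → ℝ} (hΛi : Integrable Λ (goe ι s))
    (hΛ : ∀ W : Matrix ι ι ℝ, Wᵀ = W → ∀ ε > 0, ∃ t, Λ W ≤ u t ⬝ᵥ W *ᵥ u t + f t + ε)
    {Γ : (ι → ℝ) → ℝ} (hΓi : Integrable Γ (gv ι))
    (hΓ : ∀ ξ t, 2 * s * len (u t) * (ξ ⬝ᵥ u t) + f t ≤ Γ ξ) :
    ∫ W, Λ W ∂(goe ι s) ≤ ∫ ξ, Γ ξ ∂(gv ι) := by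
  set d := TopologicalSpace.denseSeq T with hd
  set M : ℕ → Matrix ι ι ℝ → ℝ := fun N W =>
    mx fun a : Fin (N + 1) => u (d a) ⬝ᵥ W *ᵥ u (d a) + f (d a) with hM
  have hN := fun N : ℕ => sf_goe_fin s (fun a : Fin (N + 1) => u (d a)) fun a => f (d a)
  have hle : ∀ N, ∫ W, min (Λ W) (M N W) ∂(goe ι s) ≤ ∫ ξ, Γ ξ ∂(gv ι) := fun N =>
    (integral_mono (hΛi.inf (hN N).1) (hN N).1 fun W => min_le_right _ _).trans
      ((hN N).2.2.trans (integral_mono (hN N).2.1 hΓi fun ξ => mx_le fun a => hΓ ξ _))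
  have hge : ∀ W {k N : ℕ}, k ≤ N → u (d k) ⬝ᵥ W *ᵥ u (d k) + f (d k) ≤ M N W := fun W k N hk =>
    le_mx (fun a : Fin (N + 1) => u (d a) ⬝ᵥ W *ᵥ u (d a) + f (d a)) ⟨k, by omega⟩
  have hlim : Tendsto (fun N => ∫ W, min (Λ W) (M N W) ∂(goe ι s)) atTop
      (𝓝 (∫ W, Λ W ∂(goe ι s))) := by
    refine tendsto_integral_of_dominated_convergence (fun W => |Λ W| + |M 0 W|)
      (fun N => (hΛi.inf (hN N).1).aestronglyMeasurable) (hΛi.abs.add (hN 0).1.abs)
      (fun N => ae_of_all _ fun W => ?_) ((goe_ae_symm s).mono fun W hW => ?_)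
    · have h1 : M 0 W ≤ M N W := mx_le fun a => hge W (k := a) (by omega)
      rw [Real.norm_eq_abs, abs_le]
      have := le_abs_self (Λ W); have := neg_abs_le (Λ W)
      have := neg_abs_le (M 0 W); have := abs_nonneg (Λ W); have := abs_nonneg (M 0 W)
      constructor
      · exact le_min (by linarith) (by linarith)
      · exact (min_le_left _ _).trans (by linarith)
    · rw [Metric.tendsto_atTop]
      intro ε hε
      obtain ⟨t, ht⟩ := hΛ W hW (ε / 4) (by positivity)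
      have hc : Continuous fun t => u t ⬝ᵥ W *ᵥ u t + f t := by
        simp only [dotProduct, Matrix.mulVec]; fun_prop
      obtain ⟨k, hk⟩ := (TopologicalSpace.denseRange_denseSeq T).exists_mem_open
        (isOpen_lt continuous_const hc :
          IsOpen {t' | u t ⬝ᵥ W *ᵥ u t + f t - ε / 4 < u t' ⬝ᵥ W *ᵥ u t' + f t'})
        ⟨t, by simp only [Set.mem_ofPred_eq]; linarith⟩
      refine ⟨k, fun N hN' => ?_⟩
      have h1 := hge W hN'
      have h2 : u t ⬝ᵥ W *ᵥ u t + f t - ε / 4 < u (d k) ⬝ᵥ W *ᵥ u (d k) + f (d k) := hk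
      rw [Real.dist_eq, abs_lt]
      constructor
      · have : Λ W - ε / 2 ≤ min (Λ W) (M N W) := le_min (by linarith) (by linarith)
        linarith
      · have := min_le_left (Λ W) (M N W)
        linarith
  exact le_of_tendsto' hlim hle

/-- **deviation form**: if `|u_t|² ≤ ρ`, then off an event of probability `exp (-r²/(4 s² ρ²))`
all the forms `u_t·W u_t + f_t` are below `E Γ + r`. -/
theorem sf_goe_tail {T : Type*} [TopologicalSpace T] [TopologicalSpace.SeparableSpace T]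
    (s : ℝ) {u : T → ι → ℝ} {f : T → ℝ} (hu : Continuous u) (hf : Continuous f) {ρ : ℝ}
    (hρ : ∀ t, u t ⬝ᵥ u t ≤ ρ) {Γ : (ι → ℝ) → ℝ} (hΓi : Integrable Γ (gv ι))
    (hΓ : ∀ ξ t, 2 * s * len (u t) * (ξ ⬝ᵥ u t) + f t ≤ Γ ξ) {r : ℝ} (hr : 0 ≤ r) :
    (goe ι s).real {W | ∃ t, ∫ ξ, Γ ξ ∂(gv ι) + r ≤ u t ⬝ᵥ W *ᵥ u t + f t} ≤
      Real.exp (-r ^ 2 / (4 * s ^ 2 * ρ ^ 2)) := by
  rcases isEmpty_or_nonempty T with hT | hT
  · simp only [IsEmpty.exists_iff, Set.ofPred_false, measureReal_empty]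
    positivity
  have hρ0 : 0 ≤ ρ := (dot_self_nonneg _).trans (hρ (Classical.arbitrary T))
  have hq : ∀ (W : Matrix ι ι ℝ) t, |u t ⬝ᵥ W *ᵥ u t| ≤ ρ * fro W := fun W t =>
    (abs_quad_le_fro W (u t)).trans (mul_le_mul_of_nonneg_right (hρ t) (fro_nonneg W))
  have hb : ∀ W : Matrix ι ι ℝ, BddAbove (Set.range fun t => u t ⬝ᵥ W *ᵥ u t + f t) := fun W => by
    refine ⟨ρ * fro W + Γ 0, ?_⟩
    rintro _ ⟨t, rfl⟩
    have h1 := hΓ 0 t
    rw [zero_dotProduct, mul_zero, zero_add] at h1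
    have := (abs_le.1 (hq W t)).2
    linarith
  set Λ : Matrix ι ι ℝ → ℝ := fun W => ⨆ t, (u t ⬝ᵥ W *ᵥ u t + f t) with hΛ
  have h1 : ∀ W W', Λ W ≤ Λ W' + ρ * fro (W - W') := fun W W' => ciSup_le fun t => by
    have h2 : u t ⬝ᵥ W' *ᵥ u t + f t ≤ Λ W' := le_ciSup (hb W') t
    have h3 := (abs_le.1 (hq (W - W') t)).2
    rw [Matrix.sub_mulVec, dotProduct_sub] at h3
    linarith
  have hfs : ∀ W W' : Matrix ι ι ℝ, fro (W - W') = fro (W' - W) := fun W W' => by
    unfold fro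
    congr 1
    exact Finset.sum_congr rfl fun i _ => Finset.sum_congr rfl fun j _ => by
      simp only [Matrix.sub_apply]; ring
  have hL : ∀ W W', |Λ W - Λ W'| ≤ ρ * fro (W - W') := fun W W' => by
    have := h1 W W'; have := h1 W' W
    rw [hfs W' W] at this
    rw [abs_le]; constructor <;> linarith
  have hc : Continuous Λ := by
    refine continuous_iff_continuousAt.2 fun W => tendsto_iff_norm_sub_tendsto_zero.2 ?_
    have hcf : Continuous fun W' : Matrix ι ι ℝ => ρ * fro (W' - W) := by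
      unfold fro
      refine continuous_const.mul (Real.continuous_sqrt.comp (continuous_finsetSum _ fun i _ =>
        continuous_finsetSum _ fun j _ => ?_))
      exact ((continuous_id.sub continuous_const).matrix_elem i j).pow 2
    have h0 := hcf.tendsto W
    rw [sub_self, show fro (0 : Matrix ι ι ℝ) = 0 by simp [fro], mul_zero] at h0
    exact squeeze_zero (fun _ => norm_nonneg _) (fun W' => hL W' W) h0
  have hF : FLip ρ Λ := fun W W' _ _ => hL W W'
  have hE := sf_goe s hu hf (hF.integrable hρ0 hc.measurable s) (fun W _ ε hε => by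
    obtain ⟨t, ht⟩ := exists_lt_of_lt_ciSup (show Λ W - ε < Λ W by linarith)
    exact ⟨t, by linarith⟩) hΓi hΓ
  refine le_trans (measureReal_mono fun W hW => ?_) (goe_tail hρ0 hF hc.measurable s hr)
  obtain ⟨t, ht⟩ := hW
  have h2 : u t ⬝ᵥ W *ᵥ u t + f t ≤ Λ W := le_ciSup (hb W) t
  simp only [Set.mem_ofPred_eq]
  linarith

end Crest.Agent.T157.Kr

end
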