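import Crest.Agent.T157.TapDef_29

/-!
# Row 157, part A: the exact leaves of (L'), the defective LSI with defect `ε n` (helper17)

Words of `TapDef_29`; a penalty `E` (symmetric, finite rank) centred at `p0` is added to the TAP
functional.  Paper proof: `docs/T157_A_Lp.md`.
-/

set_option autoImplicit false

noncomputable section

namespace Crest.Agent.T157.Lp

open MeasureTheory ProbabilityTheory Matrix Filter Set
open Crest.ProbabilityR.SpinGlassDynamics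
open Crest.Agent.T157.E Crest.Agent.T157.Eig Crest.Agent.T157.Cond Crest.Agent.T157.Tap

variable {n : ℕ}

/-- a penalty `L ∑ u_j u_jᵀ` of rank at most `r` -/
def Pen (r : ℕ) (L : ℝ) (E : Mx n) : Prop :=
  ∃ u : Fin r → V n, (∀ j, u j ⬝ᵥ u j ≤ 1) ∧ E = L • ∑ j, vecMulVec (u j) (u j)
/-- penalised TAP map -/
def YE (J : Mx n) (b : ℝ) (E : Mx n) (p0 x : V n) : V n := Ymap J b x + E *ᵥ (th x - p0)
/-- the penalised TAP Hessian is `⪰ c` on the ball of radius `r` around `p0` -/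
def GoodE (J : Mx n) (b : ℝ) (E : Mx n) (c r : ℝ) (p0 : V n) : Prop :=
  ∀ p', Cb p' → nrm (p' - p0) ≤ r → Pos c (NN (B1 J b p' - E) (dd p')) ∧ b * avg (DD p') ≤ 1 - c
/-- binary entropy of the spin with mean `tanh t` -/
def hb2 (t : ℝ) : ℝ := Real.log (2 * Real.cosh t) - t * Real.tanh t
/-- the TAP value at `p = tanh x` in the field `y` -/
def Phi (J : Mx n) (b : ℝ) (y x : V n) : ℝ :=
  1 / 2 * (th x ⬝ᵥ J *ᵥ th x) + y ⬝ᵥ th x + ∑ i, hb2 (x i) + n * b * avg (DD (th x)) ^ 2 / 4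
/-- penalised TAP value; its gradient in `p` is `y - YE x` -/
def PhiE (J : Mx n) (b : ℝ) (E : Mx n) (p0 y x : V n) : ℝ :=
  Phi J b y x - 1 / 2 * ((th x - p0) ⬝ᵥ E *ᵥ (th x - p0))
/-- cavity field predicted from a magnetisation -/
def cav (J : Mx n) (b : ℝ) (y m : V n) : V n := y + J *ᵥ m - (b * avg (DD m)) • m
/-- bounded TAP defect -/
def dfc (J : Mx n) (b : ℝ) (y m : V n) : ℝ := nrm (m - th (cav J b y m))
/-- Dirichlet form of the square root of the density of `v` with respect to `w` -/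
def fis (w v : Cube n → ℝ) : ℝ := dir w fun σ => Real.sqrt (prob v σ / prob w σ)
/-- value process of a window: log-normaliser of the posterior of `v` minus the TAP value -/
def val (J Q E : Mx n) (b κ c0 : ℝ) (y0 p0 : V n) (v : Cube n → ℝ) (t : ℝ) (z x : V n) : ℝ :=
  Real.log (Zw (post (fun σ => Q *ᵥ sv σ) v t z)) -
    PhiE ((1 - κ * t) • J) ((1 - κ * t) ^ 2 * b) E p0 (y0 + Qᵀ *ᵥ z) x + t * c0 * n / 2

/-! ### deterministic leaves -/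

/-- inverse Lipschitz bound, concavity and existence on a good ball (penalised `Tap.ExStmt`) -/
def ExEStmt : Prop := ∀ (n : ℕ) (J E : Mx n) (b c r : ℝ) (p0 : V n), Jᵀ = J → Eᵀ = E → 0 < c →
  GoodE J b E c r p0 →
    (∀ x x' : V n, nrm (th x - p0) ≤ r → nrm (th x' - p0) ≤ r →
      c * nrm (th x - th x') ≤ nrm (YE J b E p0 x - YE J b E p0 x') ∧
      ∀ y, PhiE J b E p0 y x ≤ PhiE J b E p0 y x' + (y - YE J b E p0 x') ⬝ᵥ (th x - th x')) ∧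
    ∀ x0 y : V n, nrm (th x0 - p0) + nrm (y - YE J b E p0 x0) / c < r →
      ∃ x, YE J b E p0 x = y ∧ nrm (th x - p0) < r

/-- **general window lemma**: any prior `v`, penalty `E`, error level `ω`; the second conclusion is
the value inequality.  (`Tap.WinStmt` is the case `v = ising J y0`, `E = 0`, `ω = K`.) -/
def WinGStmt : Prop := ∀ c > (0 : ℝ), ∀ K > (0 : ℝ), ∃ K' > (0 : ℝ), ∀ (n : ℕ) (J Q E : Mx n)
    (b κ c0 h r R ε ω : ℝ) (y0 p0 : V n) (v : Cube n → ℝ) (ψ : V n → ℝ),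
  0 < n → Jᵀ = J → opn J ≤ K → Eᵀ = E → opn E ≤ K → b ∈ Icc (0 : ℝ) 1 → κ ∈ Icc (0 : ℝ) 1 →
  0 ≤ h → h ≤ 1 → |c0| ≤ K → Qᵀ * Q = κ • J + c0 • (1 : Mx n) → 0 < R → (n : ℝ) ≤ K * R ^ 2 →
  R ^ 2 ≤ K * n → Cb p0 → SL.Wt v → 0 ≤ ω →
  (∀ t ∈ Icc 0 h, GoodE ((1 - κ * t) • J) ((1 - κ * t) ^ 2 * b) E c r p0) →
  (∀ t ∈ Icc 0 h, ∀ z : V n, nrm z ≤ 2 * R → ∃ x, nrm (th x - p0) < r ∧
    YE ((1 - κ * t) • J) ((1 - κ * t) ^ 2 * b) E p0 x = y0 + Qᵀ *ᵥ z) →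
  (∀ t ∈ Icc 0 h, ∀ p : V n, Cb p → nrm (p - p0) ≤ r →
    nrm (err (B1 ((1 - κ * t) • J) ((1 - κ * t) ^ 2 * b) p - E) (dd p) ((1 - κ * t) ^ 2 * b)
      (κ • J + c0 • (1 : Mx n)) (c0 + 2 * κ * (1 - κ * t) * b * avg (DD p))) ≤ ω) →
  SL.MG ψ → (∀ z, 0 ≤ ψ z) →
  (∀ z : V n, nrm z ≤ R → ∀ x, nrm (th x - p0) < r →
    YE ((1 - κ * h) • J) ((1 - κ * h) ^ 2 * b) E p0 x = y0 + Qᵀ *ᵥ z →
    nrm (mag (post (fun σ => Q *ᵥ sv σ) v h z) - th x) ^ 2 ≤ ψ z) →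
  (∀ t ∈ Icc 0 h, (SL.law (fun σ => Q *ᵥ sv σ) v t).real {z | R ^ 2 ≤ 2 * (z ⬝ᵥ z)} ≤ ε) →
  ∀ x0, nrm (th x0 - p0) < r → YE J b E p0 x0 = y0 →
    nrm (mag v - th x0) ^ 2 ≤
      K' * (slE (fun σ => Q *ᵥ sv σ) v h (fun _ z => ψ z) + ω ^ 2 + 1 + n * ε) ∧
    ∀ (ω' u : ℝ) (U : V n → ℝ), 0 ≤ ω' → 0 ≤ u →
      (∀ t ∈ Icc 0 h, ∀ p : V n, Cb p → nrm (p - p0) ≤ r →
        |((κ • J + c0 • (1 : Mx n)) *
            GG (B1 ((1 - κ * t) • J) ((1 - κ * t) ^ 2 * b) p - E) (dd p)).trace / 2 -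
          c0 * n * avg (DD p) / 2 - n * κ * (1 - κ * t) * b * avg (DD p) ^ 2 / 2| ≤ ω') →
      SL.MG U → (∀ z, U z ≤ u) →
      (∀ z : V n, nrm z ≤ R → ∀ x, nrm (th x - p0) < r →
        YE ((1 - κ * h) • J) ((1 - κ * h) ^ 2 * b) E p0 x = y0 + Qᵀ *ᵥ z →
        U z ≤ val J Q E b κ c0 y0 p0 v h z x - val J Q E b κ c0 y0 p0 v 0 0 x0) →
      slE (fun σ => Q *ᵥ sv σ) v h (fun _ z => U z) ≤
        K' * (slE (fun σ => Q *ᵥ sv σ) v h (fun _ z => ψ z) + ω ^ 2 + 1 + n * ε) + ω' + u * ε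

def WinGGlue : Prop := ExEStmt → WinGStmt

/-- in a strong field, local stationarity of ANY `v` gives the TAP equation for its mean -/
def EndStmt : Prop := ∀ ε > (0 : ℝ), ∀ K : ℝ, ∃ η > (0 : ℝ), ∃ T0 M : ℝ, 0 ≤ M ∧ ∀ (n : ℕ) (W : Mx n)
    (β : ℝ), 0 < n → Wᵀ = W → β ∈ Icc (0 : ℝ) 1 → opn W ≤ 3 → Frz W ε → UF W β (1 / 2) K →
  ∀ T ≥ T0, ∀ (σ : Cube n) (y : V n), nrm (y - T • sv σ) ≤ η * T * Real.sqrt n →
    ∀ v : Cube n → ℝ, SL.Wt v →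
      dfc (β • W) (β ^ 2) y (mag v) ^ 2 ≤ M * (fis (ising (β • W) y) v + 1)

def EndGlue : Prop := ExStmt → ErrStmt → WinGStmt → EndStmt

/-! ### random-matrix leaves -/

/-- (U2) the TAP functional is locally strongly convex modulo `O(1)` directions, everywhere -/
def U2Stmt : Prop := ∀ β ∈ Ioc (0 : ℝ) 1, ∀ k1 > (0 : ℝ), ∃ c > (0 : ℝ), ∃ L ≥ (0 : ℝ), ∃ r : ℕ,
  ∃ ρ > (0 : ℝ), Top.Whp GOE fun n W => ∀ p0 : V n, Cb p0 → avg (DD p0) ≤ 1 - k1 →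
    ∃ E, Pen r L E ∧ GoodE (β • W) (β ^ 2) E c (ρ * Real.sqrt n) p0

/-- determinant bound with a finite-rank penalty -/
def DetEStmt : Prop := ∀ β ∈ Ioc (0 : ℝ) 1, ∀ c > (0 : ℝ), ∀ L ≥ (0 : ℝ), ∀ r : ℕ, ∀ ε > (0 : ℝ),
  Top.Whp GOE fun n W => ∀ (p : V n) (E : Mx n), Cb p → β ^ 2 * avg (DD p) ≤ 1 - c → Pen r L E →
    Pos c (NN (B1 (β • W) (β ^ 2) p - E) (dd p)) →
    |(NN (B1 (β • W) (β ^ 2) p - E) (dd p)).det| ≤
      Real.exp (n * (β ^ 2 * avg (DD p) ^ 2 / 2 + ε))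

/-- uniform freeness with a finite-rank penalty, error `o(√n)` -/
def UfEStmt : Prop := ∀ β ∈ Ioc (0 : ℝ) 1, ∀ c > (0 : ℝ), ∀ L ≥ (0 : ℝ), ∀ r : ℕ, ∀ ε > (0 : ℝ),
  Top.Whp GOE fun n W => ∀ (p : V n) (E : Mx n), Cb p → β ^ 2 * avg (DD p) ≤ 1 - c → Pen r L E →
    Pos c (NN (B1 (β • W) (β ^ 2) p - E) (dd p)) →
    nrm (err (B1 (β • W) (β ^ 2) p - E) (dd p) (β ^ 2) 1 1) ≤ ε * Real.sqrt n ∧
    |(GG (B1 (β • W) (β ^ 2) p - E) (dd p)).trace - n * avg (DD p)| ≤ ε * n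

/-- (K*) no jump: approximate TAP solutions in one field far from `p0` see one of `N` directions -/
def KsStmt : Prop := ∀ β ∈ Ioc (0 : ℝ) 1, ∀ k1 > (0 : ℝ), ∀ R : ℝ, ∃ K2 > (0 : ℝ), ∃ η0 > (0 : ℝ),
  ∀ η ∈ Ioc (0 : ℝ) η0, ∃ (N : ℕ) (C : ℝ), ∃ δ > (0 : ℝ), Top.Whp GOE fun n W =>
    ∀ y p0 : V n, nrm y ≤ R * Real.sqrt n → Cb p0 → ∃ r : Fin N → V n,
      (∀ j, nrm (r j) ≤ C * Real.sqrt n) ∧
      ∀ x, nrm (Ymap (β • W) (β ^ 2) x - y) ≤ η * Real.sqrt n → avg (DD (th x)) ≤ 1 - k1 →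
        K2 * η * Real.sqrt n ≤ nrm (th x - p0) → ∃ j, δ * n ≤ |(th x - p0) ⬝ᵥ r j|

/-- (Z) approximate TAP solutions in a small field are small -/
def ZStmt : Prop := ∀ β ∈ Ioc (0 : ℝ) 1, ∀ k1 > (0 : ℝ), ∃ η > (0 : ℝ), Top.Whp GOE fun n W =>
  ∀ x : V n, nrm (Ymap (β • W) (β ^ 2) x) ≤ η * Real.sqrt n → 1 - k1 < avg (DD (th x))

def KsGlue : Prop := U2Stmt → DetEStmt → KsStmt ∧ ZStmt

/-- **(L')** defective logarithmic Sobolev inequality with defect `ε n` -/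
def LpStmt : Prop := ∀ β ∈ Ioc (0 : ℝ) 1, ∀ ε > (0 : ℝ), ∃ K ≥ (0 : ℝ),
  Top.Whp disorderLaw fun n g => ∀ f : Cube n → ℝ,
    ent (gibbsWeight n β g) (fun x => f x ^ 2) ≤
      K * dir (gibbsWeight n β g) f + ε * n * mean (gibbsWeight n β g) fun x => f x ^ 2


end Crest.Agent.T157.Lp
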