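import Crest.Agent.T157.TapUfC_23_Mg
import Crest.Agent.T157.KrS_53
import Crest.Agent.T157.NrmG_84
import Crest.Agent.T157.LpDef_17

-- ▼ part T157/TapUfR_14
section

/-!
# Row 157, part A: ROBUST uniform freeness (helper14)

`Tap.ufR`: with high probability, for every matrix `X` within Frobenius distance `ρ` of `W`, every
`θ ∈ [0,1]` and every diagonal with `N ⪰ c`, the two error vectors are `O(1)` and
`tr (B G)`, `θ (tr G - n a)` are `O(√n)`.
-/

set_option autoImplicit false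

noncomputable section

namespace Crest.Agent.T157.Tap

open MeasureTheory ProbabilityTheory Matrix Filter Set Topology
open Crest.Agent.T157.E Crest.Agent.T157.Eig Crest.Agent.T157.Cond
open Crest.Agent.T157.Kr (fro fro_nonneg)

/-- robust uniform freeness -/
def UFR {n : ℕ} (W : Mx n) (ρ c K : ℝ) : Prop :=
  ∀ X : Mx n, fro (X - W) ≤ ρ → ∀ θ ∈ Icc (0 : ℝ) 1, ∀ d : V n, Ub d →
    θ ^ 2 * avg (fun i => d i ^ 2) ≤ 1 - c → Pos c (NN (B0 (θ • X) (θ ^ 2) d) d) →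
    nrm (err (B0 (θ • X) (θ ^ 2) d) d (θ ^ 2) 1 1) ≤ K ∧
    nrm (err (B0 (θ • X) (θ ^ 2) d) d (θ ^ 2) X (2 * θ * avg fun i => d i ^ 2)) ≤ K ∧
    |(B0 (θ • X) (θ ^ 2) d * GG (B0 (θ • X) (θ ^ 2) d) d).trace| ≤ K * √n ∧
    θ * |(GG (B0 (θ • X) (θ ^ 2) d) d).trace - n * avg fun i => d i ^ 2| ≤ K * √n

namespace Uf14

variable {n : ℕ}

lemma fro_sub_comm (A B : Mx n) : fro (A - B) = fro (B - A) := by rw [← fro_neg, neg_sub]

/-- robust vector concentration -/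
theorem vcR {s L : ℝ} (hs : 0 < s) (hL : 0 < L) (hn : 0 < n) (A : Set (Mx n)) (F : Mx n → V n)
    (hF : ∀ W ∈ A, ∀ W' ∈ A, nrm (F W - F W') ≤ L * fro (W - W'))
    (hA : (goe (Fin n) s).real Aᶜ ≤ 1 / 4) :
    ∃ m : V n, ∀ t, 0 ≤ t → ∃ B : Set (Mx n), (goe (Fin n) s).real B ≤ Real.exp (-t ^ 2 / 2) ∧
      ∀ W, W ∉ B → ∀ X ∈ A, nrm (F X - m) ≤ √2 * s * L * (2 * √n + 6 + t) + L * fro (X - W) := by
  obtain ⟨m, hm⟩ := vc hs hL hn A F hF hA
  have hfro : ∀ x y : Fin n × Fin n → ℝ, fro (symG s x - symG s y) ≤ √2 * s * Conc.en (x - y) := by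
    intro x y
    have := Kr.fro_symG_le s x y
    rwa [abs_of_pos hs] at this
  set A' : Set (Fin n × Fin n → ℝ) :=
    {x | symG s x ∈ A ∧ nrm (F (symG s x) - m) ≤ √2 * s * L * (2 * √n + 2 + 2)} with hA'
  have h2 : Real.exp (-(2 : ℝ) ^ 2 / 2) < 1 / 3 := by
    rw [show -(2 : ℝ) ^ 2 / 2 = -2 by norm_num, Real.exp_neg, ← one_div,
      one_div_lt_one_div (Real.exp_pos _) (by norm_num)]
    linarith [Real.add_one_lt_exp (two_ne_zero (α := ℝ))]
  have hpre : ∀ S : Set (Mx n), (gv (Fin n × Fin n)).real (symG s ⁻¹' S) ≤ (goe (Fin n) s).real S :=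
    fun S => ENNReal.toReal_mono (measure_ne_top _ _)
      (Measure.le_map_apply (measurable_symG s).aemeasurable _)
  have hhalf : Real.exp (-(2 : ℝ) ^ 2 / 2) < (gv (Fin n × Fin n)).real A' := by
    have h1 : (1 : ℝ) ≤ (gv (Fin n × Fin n)).real A' + ((gv (Fin n × Fin n)).real (symG s ⁻¹' Aᶜ) +
        (gv (Fin n × Fin n)).real (symG s ⁻¹'
          {W | W ∈ A ∧ √2 * s * L * (2 * √n + 2 + 2) < nrm (F W - m)})) := by
      calc (1 : ℝ) = (gv (Fin n × Fin n)).real univ := probReal_univ.symm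
        _ ≤ (gv (Fin n × Fin n)).real (A' ∪ (symG s ⁻¹' Aᶜ ∪ symG s ⁻¹'
          {W | W ∈ A ∧ √2 * s * L * (2 * √n + 2 + 2) < nrm (F W - m)})) := by
          refine measureReal_mono fun x _ => ?_
          by_cases h1 : symG s x ∈ A
          · by_cases h2 : nrm (F (symG s x) - m) ≤ √2 * s * L * (2 * √n + 2 + 2)
            · exact Or.inl ⟨h1, h2⟩
            · exact Or.inr (Or.inr ⟨h1, not_le.1 h2⟩)
          · exact Or.inr (Or.inl h1)
        _ ≤ _ := (measureReal_union_le _ _).trans (add_le_add le_rfl (measureReal_union_le _ _))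
    linarith [hpre Aᶜ, (hpre _).trans (hm 2 zero_le_two)]
  refine ⟨m, fun t ht => ⟨{W | ∀ a ∈ A', √2 * s * (2 + t) ≤ fro (W - symG s a)}, ?_, ?_⟩⟩
  · have hBc : IsClosed {W : Mx n | ∀ a ∈ A', √2 * s * (2 + t) ≤ fro (W - symG s a)} := by
      have : {W : Mx n | ∀ a ∈ A', √2 * s * (2 + t) ≤ fro (W - symG s a)} =
          ⋂ a ∈ A', {W | √2 * s * (2 + t) ≤ fro (W - symG s a)} := by
        ext W; simp
      rw [this]
      exact isClosed_biInter fun a _ => isClosed_le continuous_const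
        (continuous_fro.comp (continuous_id.sub continuous_const))
    rw [goe, map_measureReal_apply (measurable_symG s) hBc.measurableSet]
    refine le_trans (measureReal_mono fun x hx => ?_) (Conc.enlarge A' zero_le_two ht hhalf)
    exact fun a ha => le_of_mul_le_mul_left ((hx a ha).trans (hfro x a)) (by positivity)
  · intro W hW X hX
    simp only [mem_ofPred_eq, not_forall, not_le] at hW
    obtain ⟨a, ha, hlt⟩ := hW
    have h1 := hF X hX _ ha.1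
    have h3 := nrm_add_le (F X - F (symG s a)) (F (symG s a) - m)
    rw [sub_add_sub_cancel] at h3
    have h4 := fro_add_le (X - W) (W - symG s a)
    rw [sub_add_sub_cancel] at h4
    have h5 := mul_le_mul_of_nonneg_left (h4.trans (add_le_add le_rfl hlt.le)) hL.le
    linarith [ha.2]

theorem levelR {α : Type} (hn : 0 < n) (P : Finset α) (A : α → Set (Mx n)) (F : α → Mx n → V n)
    {L τ : ℝ} (hL : 0 < L) (hτ : 0 ≤ τ)
    (hF : ∀ p ∈ P, ∀ W ∈ A p, ∀ W' ∈ A p, nrm (F p W - F p W') ≤ L * fro (W - W'))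
    (hA : ∀ p ∈ P, (GOE n).real (A p)ᶜ ≤ 1 / 4) :
    ∃ B : Set (Mx n), (GOE n).real B ≤ P.card * Real.exp (-(τ ^ 2 / 2 * n)) ∧
      ∀ W, W ∉ B → ∀ W', W' ∉ B → ∀ X, ∀ p ∈ P, X ∈ A p → W' ∈ A p →
        nrm (F p X - F p W') ≤ L * (3 * (8 + τ) + fro (X - W)) := by
  have hn' : (1 : ℝ) ≤ n := by exact_mod_cast hn
  have hr : 1 ≤ √(n : ℝ) := Real.one_le_sqrt.2 hn'
  have h : ∀ p : α, ∃ (m : V n) (B : Set (Mx n)), p ∈ P →
      (GOE n).real B ≤ Real.exp (-(τ * √n) ^ 2 / 2) ∧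
      ∀ W, W ∉ B → ∀ X ∈ A p, nrm (F p X - m) ≤ 3 / 2 * L * (8 + τ) + L * fro (X - W) := by
    intro p
    by_cases hp : p ∈ P
    · obtain ⟨m, hm⟩ := vcR (s := 1 / √n) (by positivity) hL hn (A p) (F p) (hF p hp) (hA p hp)
      obtain ⟨B, hB, hB'⟩ := hm (τ * √n) (by positivity)
      refine ⟨m, B, fun _ => ⟨hB, fun W hW X hX => (hB' W hW X hX).trans (add_le_add ?_ le_rfl)⟩⟩
      have h5 : √2 ≤ 3 / 2 := Real.sqrt_le_iff.2 ⟨by norm_num, by norm_num⟩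
      have h6 : 1 / √n * (2 * √n + 6 + τ * √n) ≤ 8 + τ := by
        rw [one_div, inv_mul_le_iff₀ (by positivity)]
        linarith
      calc √2 * (1 / √n) * L * (2 * √n + 6 + τ * √n)
          = √2 * L * (1 / √n * (2 * √n + 6 + τ * √n)) := by ring
        _ ≤ 3 / 2 * L * (8 + τ) := by gcongr
    · exact ⟨0, ∅, fun h => absurd h hp⟩
  choose m B hm using h
  refine ⟨⋃ p ∈ P, B p, ?_, fun W hW W' hW' X p hp h1 h2 => ?_⟩
  · refine (measureReal_biUnion_finset_le _ _).trans ?_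
    have := Finset.sum_le_card_nsmul P _ _ fun p hp => (hm p hp).1
    rw [nsmul_eq_mul, mul_pow, Real.sq_sqrt (by positivity)] at this
    refine this.trans_eq ?_
    congr 2
    ring
  · have h3 := nrm_sub_le (F p X - m p) (F p W' - m p)
    rw [sub_sub_sub_cancel_right] at h3
    have h4 := (hm p hp).2 W (fun h => hW (mem_biUnion hp h)) X h1
    have h5 := (hm p hp).2 W' (fun h => hW' (mem_biUnion hp h)) W' h2
    rw [sub_self, fro_zero, mul_zero] at h5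
    linarith

/-- **the robust chaining**, for abstract good events -/
theorem chainR {Gd Gd' : ∀ n, Mx n → V n → Prop} {Φ : ∀ n, Mx n → V n → V n} {c κ : ℝ}
    (hst : ∃ k0 : ℕ, ∀ (n : ℕ) (W : Mx n) (d d' : V n), Gd n W d → Ub d' →
      (∀ i, |d i - d' i| ≤ (1 / 2) ^ k0) → Gd' n W d')
    (hop : ∀ n W d, Gd n W d → opn W ≤ κ ∧ Ub d) (hΦ : Dif Gd' Φ) :
    ∃ C : ℝ, 0 ≤ C ∧ ∀ n : ℕ, 0 < n → (∀ d : V n, Ub d → avg (fun i => d i ^ 2) ≤ 1 - c →
      (GOE n).real {W | ¬ Gd' n W d} ≤ 1 / 8) →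
      ∃ B : Set (Mx n), (GOE n).real B ≤ (n + 1) * Real.exp (-n) ∧
        ∀ W, W ∉ B → ∀ W', W' ∉ B → ∀ (X : Mx n) (d : V n), avg (fun i => d i ^ 2) ≤ 1 - c →
          Gd n X d → Gd n W' d → nrm (Φ n X d - Φ n W' d) ≤ C * (1 + fro (X - W)) := by
  classical
  obtain ⟨K0, hK0, hΦ⟩ := hΦ
  obtain ⟨k0, hk0⟩ := hst
  set K := K0 + 1 with hK
  have hKp : 0 < K := by positivity
  refine ⟨3 * K * (k0 + 11) + 3 * K * (2 * k0 + 24) + 2 * |κ| * K, by positivity,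
    fun n hn hp => ?_⟩
  have hn0 : (0 : ℝ) ≤ n := Nat.cast_nonneg n
  set T : V n → Prop := fun d => Ub d ∧ avg (fun i => d i ^ 2) ≤ 1 - c with hT
  obtain ⟨B0, hB0, hB0'⟩ := levelR hn ((Gr n k0).filter T) (fun d => {W | Gd' n W d})
    (fun d W => Φ n W d) hKp (τ := k0 + 3) (by positivity)
    (fun d _ W hW W' hW' => ((hΦ n W W').1 d hW hW').trans
      (mul_le_mul_of_nonneg_right (by linarith) (fro_nonneg _)))
    (fun d hd => (hp d (Finset.mem_filter.1 hd).2.1 (Finset.mem_filter.1 hd).2.2).trans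
      (by norm_num))
  have hlev : ∀ k : ℕ, ∃ B : Set (Mx n), (GOE n).real B ≤ Real.exp (-n) ∧
      ∀ W, W ∉ B → ∀ W', W' ∉ B → ∀ (X : Mx n) (d : V n), T d → Gd' n X (rd (k + 1) d) →
        Gd' n X (rd k d) → Gd' n W' (rd (k + 1) d) → Gd' n W' (rd k d) →
        nrm (Φ n X (rd (k + 1) d) - Φ n X (rd k d) - (Φ n W' (rd (k + 1) d) - Φ n W' (rd k d))) ≤
          K * (1 / 2) ^ k * (3 * (k + 11) + fro (X - W)) := by
    intro k
    obtain ⟨B, hB, hB'⟩ := levelR hn ((Gr n (k + 1) ×ˢ Gr n k).filter fun p =>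
        T p.1 ∧ T p.2 ∧ ∀ i, |p.1 i - p.2 i| ≤ (1 / 2) ^ k)
      (fun p => {W | Gd' n W p.1 ∧ Gd' n W p.2})
      (fun p W => Φ n W p.1 - Φ n W p.2) (L := K * (1 / 2) ^ k) (by positivity) (τ := k + 3)
      (by positivity)
      (fun p hp' W hW W' hW' => ((hΦ n W W').2 p.1 p.2 _ (by positivity) hW.1 hW.2 hW'.1 hW'.2
        (Finset.mem_filter.1 hp').2.2.2).trans (mul_le_mul_of_nonneg_right
          (mul_le_mul_of_nonneg_right (by linarith) (by positivity)) (fro_nonneg _)))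
      (fun p hp' => by
        obtain ⟨-, h1, h2, -⟩ := Finset.mem_filter.1 hp'
        have e : {W | Gd' n W p.1 ∧ Gd' n W p.2}ᶜ =
            {W | ¬ Gd' n W p.1} ∪ {W | ¬ Gd' n W p.2} := by
          ext W; simp only [mem_compl_iff, mem_ofPred_eq, mem_union, not_and_or]
        rw [e]
        linarith [measureReal_union_le (μ := GOE n) {W | ¬ Gd' n W p.1}
          {W | ¬ Gd' n W p.2}, hp _ h1.1 h1.2, hp _ h2.1 h2.2])
    refine ⟨B, hB.trans ?_, fun W hW W' hW' X d hd h1 h2 h3 h4 => ?_⟩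
    · have h1 : ((((Gr n (k + 1) ×ˢ Gr n k).filter fun p =>
          T p.1 ∧ T p.2 ∧ ∀ i, |p.1 i - p.2 i| ≤ (1 / 2) ^ k).card : ℕ) : ℝ) ≤
          Real.exp (((k + 1 : ℕ) + 1) * n) * Real.exp ((k + 1) * n) := by
        refine le_trans ?_ (mul_le_mul (card_Gr (k + 1)) (card_Gr k) (Nat.cast_nonneg _)
          (Real.exp_pos _).le)
        rw [← Nat.cast_mul, ← Finset.card_product]
        exact_mod_cast Finset.card_filter_le _ _
      refine (mul_le_mul_of_nonneg_right h1 (Real.exp_pos _).le).trans ?_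
      rw [← Real.exp_add, ← Real.exp_add, Real.exp_le_exp]
      push_cast
      have hk : (0 : ℝ) ≤ k := Nat.cast_nonneg k
      nlinarith [mul_nonneg hk hn0, mul_nonneg (mul_nonneg hk hk) hn0]
    · have := hB' W hW W' hW' X (rd (k + 1) d, rd k d) (Finset.mem_filter.2
        ⟨Finset.mem_product.2 ⟨rd_mem _ hd.1, rd_mem _ hd.1⟩,
          ⟨rd_ub _ hd.1, (rd_avg _ hd.1).trans hd.2⟩, ⟨rd_ub _ hd.1, (rd_avg _ hd.1).trans hd.2⟩,
          rd_close' k hd.1⟩) ⟨h1, h2⟩ ⟨h3, h4⟩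
      refine this.trans_eq ?_
      ring
  choose B hB hB' using hlev
  refine ⟨B0 ∪ ⋃ j ∈ Finset.range n, B (k0 + j), ?_, fun W hW W' hW' X d hd h1 h2 => ?_⟩
  · have h1 : (GOE n).real B0 ≤ Real.exp (-n) := by
      have h1 : ((((Gr n k0).filter T).card : ℕ) : ℝ) ≤ Real.exp ((k0 + 1) * n) :=
        le_trans (by exact_mod_cast Finset.card_filter_le _ _) (card_Gr k0)
      refine hB0.trans ((mul_le_mul_of_nonneg_right h1 (Real.exp_pos _).le).trans ?_)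
      rw [← Real.exp_add, Real.exp_le_exp]
      have hk : (0 : ℝ) ≤ k0 := Nat.cast_nonneg k0
      nlinarith [mul_nonneg hk hn0, mul_nonneg (mul_nonneg hk hk) hn0]
    have h2 := Finset.sum_le_card_nsmul (Finset.range n) (fun j => (GOE n).real (B (k0 + j))) _
      fun j _ => hB (k0 + j)
    rw [Finset.card_range, nsmul_eq_mul] at h2
    have h3 := measureReal_biUnion_finset_le (μ := GOE n) (Finset.range n) fun j => B (k0 + j)
    linarith [measureReal_union_le (μ := GOE n) B0 (⋃ j ∈ Finset.range n, B (k0 + j))]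
  · have hdU : Ub d := (hop _ _ _ h1).2
    have hTd : T d := ⟨hdU, hd⟩
    have hg : ∀ Y, Gd n Y d → ∀ j, Gd' n Y (rd (k0 + j) d) := fun Y hY j =>
      hk0 n Y d _ hY (rd_ub _ hdU) fun i =>
        (rd_close _ hdU i).trans (half_pow_le (Nat.le_add_right _ _))
    have hg0 : ∀ Y, Gd n Y d → Gd' n Y d := fun Y hY =>
      hk0 n Y d d hY hdU fun i => by rw [sub_self, abs_zero]; positivity
    have hnot : ∀ Y, Y ∉ B0 ∪ ⋃ j ∈ Finset.range n, B (k0 + j) → ∀ j < n, Y ∉ B (k0 + j) :=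
      fun Y hY j hj h => hY (Or.inr (mem_biUnion (Finset.mem_range.2 hj) h))
    set φ := fro (X - W) with hφ
    have hφ0 : 0 ≤ φ := fro_nonneg _
    have hind : ∀ j ≤ n, nrm (Φ n X (rd (k0 + j) d) - Φ n W' (rd (k0 + j) d)) +
        K * ((3 * (2 * (k0 + j) + 24) + 2 * φ) * (1 / 2) ^ (k0 + j)) ≤
        K * (3 * (k0 + 11) + φ) + K * (3 * (2 * k0 + 24) + 2 * φ) := by
      intro j hj
      induction j with
      | zero =>
        have h3 := hB0' W (fun h => hW (Or.inl h)) W' (fun h => hW' (Or.inl h)) X (rd k0 d)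
          (Finset.mem_filter.2 ⟨rd_mem _ hdU, rd_ub _ hdU, (rd_avg _ hdU).trans hd⟩)
          (hg X h1 0) (hg W' h2 0)
        have h4 : ((1 : ℝ) / 2) ^ k0 ≤ 1 := pow_le_one₀ (by norm_num) (by norm_num)
        have h5 := mul_le_mul_of_nonneg_left h4
          (show 0 ≤ K * (3 * (2 * k0 + 24) + 2 * φ) by positivity)
        simp only [Nat.cast_zero, add_zero]
        linarith
      | succ j ih =>
        have h3 := ih (Nat.le_of_succ_le hj)
        have h4 := hB' (k0 + j) W (hnot W hW j hj) W' (hnot W' hW' j hj) X d hTd (hg X h1 (j + 1))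
          (hg X h1 j) (hg W' h2 (j + 1)) (hg W' h2 j)
        have h5 := nrm_add_le (Φ n X (rd (k0 + j) d) - Φ n W' (rd (k0 + j) d))
          (Φ n X (rd (k0 + j + 1) d) - Φ n X (rd (k0 + j) d) -
            (Φ n W' (rd (k0 + j + 1) d) - Φ n W' (rd (k0 + j) d)))
        have e : Φ n X (rd (k0 + j) d) - Φ n W' (rd (k0 + j) d) +
            (Φ n X (rd (k0 + j + 1) d) - Φ n X (rd (k0 + j) d) -
            (Φ n W' (rd (k0 + j + 1) d) - Φ n W' (rd (k0 + j) d))) =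
            Φ n X (rd (k0 + j + 1) d) - Φ n W' (rd (k0 + j + 1) d) := by abel
        rw [e] at h5
        rw [← Nat.add_assoc, pow_succ]
        push_cast at h4 ⊢
        linarith
    have h3 := hind n le_rfl
    have h4 := (hΦ n X W').2 d (rd (k0 + n) d) _ (by positivity) (hg0 X h1) (hg X h1 n) (hg0 W' h2)
      (hg W' h2 n) (rd_close (k0 + n) hdU)
    have h5 : fro (X - W') ≤ 2 * |κ| * √n :=
      (fro_le_opn _).trans (mul_le_mul_of_nonneg_right ((opn_sub_le _ _).trans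
        (by linarith [(hop _ _ _ h1).1, (hop _ _ _ h2).1, le_abs_self κ])) (Real.sqrt_nonneg _))
    have h6 : ((1 : ℝ) / 2) ^ (k0 + n) * √n ≤ 1 := by
      have h7 : √(n : ℝ) ≤ 2 ^ n := by
        refine Real.sqrt_le_iff.2 ⟨by positivity, ?_⟩
        have h8 : (n : ℝ) ≤ 2 ^ n := by exact_mod_cast Nat.lt_two_pow_self.le
        have h9 : (1 : ℝ) ≤ 2 ^ n := one_le_pow₀ (by norm_num)
        nlinarith
      calc ((1 : ℝ) / 2) ^ (k0 + n) * √n ≤ (1 / 2) ^ n * 2 ^ n :=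
            mul_le_mul (half_pow_le (Nat.le_add_left _ _)) h7 (Real.sqrt_nonneg _) (by positivity)
        _ = 1 := by rw [← mul_pow]; norm_num
    have h7 : K0 * (1 / 2) ^ (k0 + n) * fro (X - W') ≤ 2 * |κ| * K := by
      calc K0 * (1 / 2) ^ (k0 + n) * fro (X - W') ≤ K0 * (1 / 2) ^ (k0 + n) * (2 * |κ| * √n) :=
            mul_le_mul_of_nonneg_left h5 (by positivity)
        _ = 2 * |κ| * K0 * ((1 / 2) ^ (k0 + n) * √n) := by ring
        _ ≤ 2 * |κ| * K0 * 1 := mul_le_mul_of_nonneg_left h6 (by positivity)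
        _ ≤ _ := by rw [mul_one]; exact mul_le_mul_of_nonneg_left (by linarith) (by positivity)
    have h8 := nrm_add_le (Φ n X (rd (k0 + n) d) - Φ n W' (rd (k0 + n) d))
      (Φ n X d - Φ n X (rd (k0 + n) d) - (Φ n W' d - Φ n W' (rd (k0 + n) d)))
    have e : Φ n X (rd (k0 + n) d) - Φ n W' (rd (k0 + n) d) +
        (Φ n X d - Φ n X (rd (k0 + n) d) - (Φ n W' d - Φ n W' (rd (k0 + n) d))) =
        Φ n X d - Φ n W' d := by abel
    rw [e] at h8
    have h9 : 0 ≤ K * ((3 * (2 * ((k0 : ℝ) + n) + 24) + 2 * φ) * (1 / 2) ^ (k0 + n)) := by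
      positivity
    have h10 : 0 ≤ K * φ := by positivity
    have h11 : 0 ≤ K * φ * k0 := by positivity
    have h12 : 0 ≤ |κ| * K * φ := by positivity
    linarith

/-! ### good events with a general norm bound -/

def H0 (κ : ℝ) (n : ℕ) (W : Mx n) (d : V n) : Prop := opn W ≤ κ ∧ Ub d

def H1 (κ c : ℝ) (n : ℕ) (W : Mx n) (d : V n) : Prop :=
  opn W ≤ κ ∧ Ub d ∧ Pos c (NN (B0 W 1 d) d)

section fams
variable {κ c : ℝ}

lemma famW : Fam (H0 κ) fun _ W _ => W :=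
  ⟨|κ| + 1, fun n W d ε hε hg _ => ⟨fun a b => by linarith [(hg a b).1, le_abs_self κ],
    fun _ => by rw [sub_self, opn_zero]; positivity,
    fun _ => by nlinarith [fro_nonneg (W true - W false), abs_nonneg κ],
    by
      rw [sub_self, sub_self, sub_self, fro_zero]
      have := fro_nonneg (W true - W false)
      positivity⟩⟩

lemma famD : Fam (H0 κ) fun _ _ d => diagonal d :=
  ⟨1, fun n W d ε hε hg hd => ⟨fun a b => opn_diagonal_le zero_le_one fun i => by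
      rw [abs_of_nonneg ((hg a b).2 i).1]; exact ((hg a b).2 i).2,
    fun _ => by rw [diagonal_sub, one_mul]; exact opn_diagonal_le hε hd,
    fun _ => by simpa [fro_zero] using fro_nonneg _,
    by simpa [fro_zero] using mul_nonneg hε (fro_nonneg _)⟩⟩

lemma famB : Fam (H0 κ) fun _ W d => B0 W 1 d := by
  have := (famW (κ := κ)).sub (famD.mul famD).nt
  simpa only [nt_DD, B0, one_mul] using this

lemma famN : Fam (H0 κ) fun _ W d => NN (B0 W 1 d) d := fam_one.sub ((famD.mul famB).mul famD)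

lemma h1_h0 (n : ℕ) (W : Mx n) (d : V n) (h : H1 κ c n W d) : H0 κ n W d := ⟨h.1, h.2.1⟩

lemma famG (hc : 0 < c) : Fam (H1 κ c) fun _ W d => GG (B0 W 1 d) d :=
  ((famD.mono h1_h0).mul ((famN.mono h1_h0).inv hc fun _ _ _ h => h.2.2)).mul (famD.mono h1_h0)

lemma famR (hc : 0 < c) : Fam (H1 κ c) fun _ W d => RR (B0 W 1 d) d :=
  fam_one.add ((famB.mono h1_h0).mul (famG hc))

def e3 (n : ℕ) (W : Mx n) (d : V n) : V n := (B0 W 1 d * GG (B0 W 1 d) d).diag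
def e4 (n : ℕ) (W : Mx n) (d : V n) : V n :=
  (nt (GG (B0 W 1 d) d) - nt (diagonal d * diagonal d)).diag

lemma difE1 (hc : 0 < c) : Dif (H1 κ c) e1 := by
  have := ((fam_one.add (((famG (κ := κ) hc).mul fam_one).mul (famG hc)).nt).sub
    (((famR hc).mul fam_one).mul (famR hc).tr)).dif
  have e : e1 = fun n W d => (1 + nt (GG (B0 W 1 d) d * 1 * GG (B0 W 1 d) d) -
      RR (B0 W 1 d) d * 1 * (RR (B0 W 1 d) d)ᵀ).diag := by
    funext n W d
    rw [e1, err_eq, one_smul]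
  rw [e]
  exact this

lemma difE2 (hc : 0 < c) : Dif (H1 κ c) e2 := by
  have hD : Fam (H1 κ c) fun _ _ d => nt (diagonal d * diagonal d) :=
    ((famD.mul famD).nt).mono h1_h0
  have := (((hD.add hD).add (((famG hc).mul (famW.mono h1_h0)).mul (famG hc)).nt).sub
    (((famR hc).mul (famW.mono h1_h0)).mul (famR hc).tr)).dif
  have e : e2 = fun n W d => (nt (diagonal d * diagonal d) + nt (diagonal d * diagonal d) +
      nt (GG (B0 W 1 d) d * W * GG (B0 W 1 d) d) -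
      RR (B0 W 1 d) d * W * (RR (B0 W 1 d) d)ᵀ).diag := by
    funext n W d
    rw [e2, err_eq, nt_DD, two_mul, add_smul]
  rw [e]
  exact this

lemma difE3 (hc : 0 < c) : Dif (H1 κ c) e3 := ((famB.mono h1_h0).mul (famG hc)).dif

lemma difE4 (hc : 0 < c) : Dif (H1 κ c) e4 :=
  ((famG hc).nt.sub (((famD.mul famD).nt).mono h1_h0)).dif

lemma h1_stable (hc : 0 < c) : ∃ k0 : ℕ, ∀ (n : ℕ) (W : Mx n) (d d' : V n),
    H1 κ c n W d → Ub d' → (∀ i, |d i - d' i| ≤ (1 / 2) ^ k0) → H1 κ (c / 2) n W d' := by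
  obtain ⟨K, h⟩ := famN (κ := κ)
  obtain ⟨k0, hk⟩ := exists_pow_lt_of_lt_one (show 0 < c / 2 / (|K| + 1) by positivity)
    (show (1 / 2 : ℝ) < 1 by norm_num)
  refine ⟨k0, fun n W d d' hg hd' hdd => ⟨hg.1, hd', ?_⟩⟩
  have q := h n (fun _ => W) (fun b => if b then d else d') ((1 / 2) ^ k0) (by positivity)
    (fun a b => by cases b; exacts [⟨hg.1, hd'⟩, ⟨hg.1, hg.2.1⟩]) (by simpa using hdd)
  have h1 := q.dd true
  simp only [if_true, Bool.false_eq_true, if_false] at h1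
  refine Pos.mono (Pos.pert hg.2.2 h1) ?_
  rw [lt_div_iff₀ (by positivity)] at hk
  have h2 : K * (1 / 2) ^ k0 ≤ (|K| + 1) * (1 / 2) ^ k0 :=
    mul_le_mul_of_nonneg_right (by linarith [le_abs_self K]) (by positivity)
  linarith

end fams

/-- robust uniform bound of one vector function -/
theorem robust {Φ : ∀ n, Mx n → V n → V n} (hΦ : ∀ κ c, 0 < c → Dif (H1 κ c) Φ)
    (hm : ∀ n d, Measurable fun W => Φ n W d)
    (hfix : ∀ c > (0 : ℝ), ∃ K : ℝ, ∀ n : ℕ, 0 < n → ∀ d : V n, Ub d →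
      avg (fun i => d i ^ 2) ≤ 1 - c → ∫ W in Om c 1 d, nrm (Φ n W d) ^ 2 ∂GOE n ≤ K)
    {c : ℝ} (hc : 0 < c) (ρ : ℝ) : ∃ K : ℝ, 0 ≤ K ∧ Top.Whp GOE fun n W => ∀ X : Mx n,
      fro (X - W) ≤ ρ → ∀ d : V n, Ub d → avg (fun i => d i ^ 2) ≤ 1 - c →
        Pos c (NN (B0 X 1 d) d) → nrm (Φ n X d) ≤ K := by
  have hc1 : 0 < c ^ 2 / 8 := by positivity
  obtain ⟨K, hK⟩ := hfix _ hc1
  obtain ⟨C, hC, h1⟩ := chainR (c := c) (κ := 3 + |ρ|) (h1_stable (κ := 3 + |ρ|) hc1)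
    (fun _ _ _ h => ⟨h.1, h.2.1⟩) (hΦ _ _ (half_pos hc1))
  refine ⟨√(8 * (|K| + 1)) + C * (1 + |ρ|), by positivity, Top.whp_of_real_le
    (a := fun n : ℕ => 2 * Real.exp (-(n * (1 / 4))) + ((n : ℝ) + 1) * Real.exp (-n)) ?_ ?_⟩
  · have := ((tend_exp (show (0 : ℝ) < 1 / 4 by norm_num)).const_mul 2).add tend_lin
    simpa using this
  filter_upwards [eventually_gt_atTop 0, ev_g1 hc,
    tend_lin.eventually (gt_mem_nhds (show (0 : ℝ) < 1 / 8 by norm_num))] with n hn hg hs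
  have hρ := abs_nonneg ρ
  have hg' : ∀ d : V n, Ub d → avg (fun i => d i ^ 2) ≤ 1 - c →
      (GOE n).real {W | ¬ H1 (3 + |ρ|) (c ^ 2 / 8 / 2) n W d} ≤ 1 / 8 := fun d hd ha => by
    refine le_trans (measureReal_mono fun W hW => ?_) (hg d hd ha)
    exact fun hG => hW ⟨by linarith [hG.1], hG.2.1, Pos.mono hG.2.2 (by linarith)⟩
  obtain ⟨B, hB, h1⟩ := h1 n hn hg'
  refine le_trans (measureReal_mono (s₂ := {W | ¬ opn W ≤ 3} ∪ B) fun W hW => ?_)
    ((measureReal_union_le _ _).trans (add_le_add opn_tail hB))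
  by_contra hcon
  simp only [mem_union, mem_ofPred_eq, not_or, not_not] at hcon
  obtain ⟨h3, hW1⟩ := hcon
  refine hW fun X hX d hd ha hp => ?_
  have hc2 : c ^ 2 / 8 ≤ c := by nlinarith [(avg_sq_le hd).1]
  have hGX : H1 (3 + |ρ|) (c ^ 2 / 8) n X d := by
    refine ⟨?_, hd, Pos.mono hp hc2⟩
    have h4 := opn_add_le (X - W) W
    rw [sub_add_cancel] at h4
    linarith [opn_le_sqrt_frob (X - W), show √(∑ i, ∑ j, (X - W) i j ^ 2) ≤ ρ from hX,
      le_abs_self ρ]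
  have hsym : (GOE n).real {W' : Mx n | ¬ W'ᵀ = W'} = 0 := by
    rw [measureReal_eq_zero_iff (measure_ne_top _ _)]
    exact goe_ae_symm _
  obtain ⟨W', hW'⟩ : ∃ W' : Mx n, W' ∉ B ∪ (({W' : Mx n | ¬ W'ᵀ = W'} ∪
      {W' | ¬ G1 (c ^ 2 / 8) n W' d}) ∪
      {W | W ∈ Om (c ^ 2 / 8) 1 d ∧ ¬ nrm (Φ n W d) ≤ √(8 * (|K| + 1))}) := by
    by_contra hall
    have h5 := measureReal_mono (μ := GOE n) (s₁ := univ)
      (fun W' _ => not_not.1 (not_exists.1 hall W'))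
    rw [probReal_univ] at h5
    have h6 := h5.trans ((measureReal_union_le _ _).trans (add_le_add hB
      ((measureReal_union_le _ _).trans (add_le_add (measureReal_union_le _ _)
        (markov hd (hΦ 3 _ hc1) (hm n d) (hK n hn d hd (by linarith)))))))
    linarith [hg d hd ha]
  simp only [mem_union, mem_ofPred_eq, not_or, not_not] at hW'
  obtain ⟨hW1', ⟨hs', hG'⟩, hfx⟩ := hW'
  have hf : nrm (Φ n W' d) ≤ √(8 * (|K| + 1)) := by
    by_contra h7
    exact hfx ⟨⟨hs', hG'.1, by simpa only [one_smul, one_pow] using hG'.2.2⟩, h7⟩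
  have a1 := nrm_add_le (Φ n X d - Φ n W' d) (Φ n W' d)
  rw [sub_add_cancel] at a1
  have a2 := h1 W hW1 W' hW1' X d ha hGX ⟨by linarith [hG'.1], hG'.2⟩
  have a3 := mul_le_mul_of_nonneg_left (add_le_add (le_refl (1 : ℝ)) (hX.trans (le_abs_self ρ))) hC
  linarith

/-- the scaling `d ↦ r d` removes `θ = r²` -/
lemma scale (X : Mx n) (d : V n) (r : ℝ) :
    avg (fun i => (r • d) i ^ 2) = r ^ 2 * avg (fun i => d i ^ 2) ∧
    NN (B0 (r ^ 2 • X) ((r ^ 2) ^ 2) d) d = NN (B0 X 1 (r • d)) (r • d) ∧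
    GG (B0 X 1 (r • d)) (r • d) = r ^ 2 • GG (B0 (r ^ 2 • X) ((r ^ 2) ^ 2) d) d ∧
    B0 X 1 (r • d) * GG (B0 X 1 (r • d)) (r • d) =
      B0 (r ^ 2 • X) ((r ^ 2) ^ 2) d * GG (B0 (r ^ 2 • X) ((r ^ 2) ^ 2) d) d ∧
    ∀ (S : Mx n) (k : ℝ), err (B0 (r ^ 2 • X) ((r ^ 2) ^ 2) d) d ((r ^ 2) ^ 2) S k =
      err (B0 X 1 (r • d)) (r • d) 1 S k := by
  have hav : avg (fun i => (r • d) i ^ 2) = r ^ 2 * avg fun i => d i ^ 2 := by
    unfold avg
    simp only [Pi.smul_apply, smul_eq_mul, mul_pow]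
    rw [← Finset.mul_sum, mul_div_assoc]
  have hD : diagonal (r • d) = r • diagonal d := diagonal_smul r d
  have hB : B0 (r ^ 2 • X) ((r ^ 2) ^ 2) d = r ^ 2 • B0 X 1 (r • d) := by
    unfold B0
    rw [hav, smul_sub, smul_smul]
    congr 2
    ring
  have hN : NN (r ^ 2 • B0 X 1 (r • d)) d = NN (B0 X 1 (r • d)) (r • d) := by
    unfold NN
    rw [hD]
    simp only [Matrix.smul_mul, Matrix.mul_smul, smul_smul, sq]
  have hG : GG (B0 X 1 (r • d)) (r • d) = r ^ 2 • GG (r ^ 2 • B0 X 1 (r • d)) d := by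
    unfold GG
    rw [hN, hD]
    simp only [Matrix.smul_mul, Matrix.mul_smul, smul_smul, sq]
  have hR : RR (B0 X 1 (r • d)) (r • d) = RR (r ^ 2 • B0 X 1 (r • d)) d := by
    unfold RR
    rw [hG]
    simp only [Matrix.smul_mul, Matrix.mul_smul]
  rw [hB]
  refine ⟨hav, hN, hG, ?_, fun S k => ?_⟩
  · rw [hG]
    simp only [Matrix.smul_mul, Matrix.mul_smul]
  · funext i
    unfold err
    rw [hG, hR]
    simp only [Matrix.smul_mul, Matrix.mul_smul, smul_smul, trace_smul, smul_eq_mul]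
    ring

lemma abs_trace_le_diag (M : Mx n) : |M.trace| ≤ nrm M.diag * √n := by
  have h1 := abs_dot_le (fun _ : Fin n => (1 : ℝ)) M.diag
  have h2 : nrm (fun _ : Fin n => (1 : ℝ)) = √n := by simp [nrm, dotProduct]
  have h3 : (fun _ : Fin n => (1 : ℝ)) ⬝ᵥ M.diag = M.trace := by simp [dotProduct, Matrix.trace]
  rwa [h2, h3, mul_comm] at h1

lemma nrm_e4_sq (W : Mx n) (d : V n) : nrm (e4 n W d) ^ 2 =
    n * ((GG (B0 W 1 d) d).trace / n - avg fun i => d i ^ 2) ^ 2 := by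
  rw [nrm_sq, e4, nt_DD]
  simp [nt, dotProduct, sq]

lemma trace_e4 (hn : 0 < n) (W : Mx n) (d : V n) :
    (nt (GG (B0 W 1 d) d) - nt (diagonal d * diagonal d)).trace =
      (GG (B0 W 1 d) d).trace - n * avg fun i => d i ^ 2 := by
  have hn' : (n : ℝ) ≠ 0 := by positivity
  rw [nt_DD, nt, trace_sub, trace_smul, trace_smul, trace_one, Fintype.card_fin, smul_eq_mul,
    smul_eq_mul]
  field_simp

end Uf14

open Uf14 in
/-- **robust uniform freeness** -/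
theorem ufR {c : ℝ} (hc : 0 < c) (ρ : ℝ) :
    ∃ K : ℝ, 0 ≤ K ∧ Top.Whp GOE fun _ W => UFR W ρ c K := by
  have hθ : (1 : ℝ) ∈ Icc (0 : ℝ) 1 := ⟨zero_le_one, le_rfl⟩
  have m1 : ∀ n (d : V n), er1 1 d = fun W => e1 n W d := fun n d => by
    funext W; simp only [er1, e1, one_smul, one_pow]
  have m2 : ∀ n (d : V n), er2 1 d = fun W => e2 n W d := fun n d => by
    funext W; simp only [er2, e2, one_smul, one_pow, mul_one]
  obtain ⟨K1, p1, h1⟩ := robust (Φ := e1) (fun _ _ => difE1)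
    (fun n d => m1 n d ▸ Uf.measurable_er1 1 d) (fun c hc => by
      obtain ⟨K, h⟩ := Uf.fix_l2 hc
      exact ⟨K, fun n hn d hd ha => by
        have := (h n hn 1 hθ d hd (by simpa using ha)).1
        rwa [m1] at this⟩) (half_pos hc) ρ
  obtain ⟨K2, p2, h2⟩ := robust (Φ := e2) (fun _ _ => difE2)
    (fun n d => m2 n d ▸ Uf.measurable_er2 1 d) (fun c hc => by
      obtain ⟨K, h⟩ := Uf.fix_l2 hc
      exact ⟨K, fun n hn d hd ha => by
        have := (h n hn 1 hθ d hd (by simpa using ha)).2.1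
        rwa [m2] at this⟩) (half_pos hc) ρ
  obtain ⟨K3, p3, h3⟩ := robust (Φ := e3) (fun _ _ => difE3)
    (fun n d => measurable_pi_lambda _ fun i => Measurable.t157_entry (by fun_prop) i i)
    (fun c hc => by
      obtain ⟨K, h⟩ := Uf.fix_l2 hc
      refine ⟨K, fun n hn d hd ha => ?_⟩
      have := (h n hn 1 hθ d hd (by simpa using ha)).2.2.2
      rw [one_pow, one_mul] at this
      refine le_trans (le_of_eq ?_) this
      congr 1
      funext W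
      rw [nrm_sq]
      simp [e3, dotProduct, RR, Uf.Bw, sq]) (half_pos hc) ρ
  obtain ⟨K4, p4, h4⟩ := robust (Φ := e4) (fun _ _ => difE4)
    (fun n d => measurable_pi_lambda _ fun i => Measurable.t157_entry (by unfold nt; fun_prop) i i)
    (fun c hc => by
      obtain ⟨K, h⟩ := Uf.fix_l2 hc
      refine ⟨K, fun n hn d hd ha => ?_⟩
      have := (h n hn 1 hθ d hd (by simpa using ha)).2.2.1
      simpa only [nrm_e4_sq, Uf.Bw, one_smul, one_pow] using this) (half_pos hc) ρ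
  refine ⟨K1 + K2 + K3 + K4, by positivity, ((h1.and h2).and (h3.and h4)).mono ?_⟩
  filter_upwards [eventually_gt_atTop 0] with n hn W hW X hX θ hθ d hd ha hp
  obtain ⟨r, hr0, rfl⟩ : ∃ r : ℝ, 0 ≤ r ∧ θ = r ^ 2 :=
    ⟨√θ, Real.sqrt_nonneg _, (Real.sq_sqrt hθ.1).symm⟩
  have hr1 : r ≤ 1 := by nlinarith [hθ.2]
  obtain ⟨ha0, ha1⟩ := avg_sq_le hd
  obtain ⟨hav, hN, hG, hBG, hE⟩ := scale X d r
  have hc1 : c ≤ 1 := by nlinarith [mul_nonneg (sq_nonneg (r ^ 2)) ha0]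
  have hu : Ub (r • d) := fun i => ⟨mul_nonneg hr0 (hd i).1, mul_le_one₀ hr1 (hd i).1 (hd i).2⟩
  have ha' : avg (fun i => (r • d) i ^ 2) ≤ 1 - c / 2 := by
    rw [hav]
    refine abs_le_of_sq_le_sq' ?_ (by linarith) |>.2
    have h2 : (r ^ 2 * avg fun i => d i ^ 2) ^ 2 ≤ 1 - c := by
      have := mul_le_mul ha ha1 ha0 (by linarith)
      nlinarith
    nlinarith [sq_nonneg c]
  have hp' : Pos (c / 2) (NN (B0 X 1 (r • d)) (r • d)) := Pos.mono (hN ▸ hp) (by linarith)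
  have a1 := hW.1.1 X hX _ hu ha' hp'
  have a2 := hW.1.2 X hX _ hu ha' hp'
  have a3 := hW.2.1 X hX _ hu ha' hp'
  have a4 := hW.2.2 X hX _ hu ha' hp'
  have hs := Real.sqrt_nonneg (n : ℝ)
  refine ⟨?_, ?_, ?_, ?_⟩
  · rw [hE]; exact le_trans a1 (by linarith)
  · have e : 2 * r ^ 2 * avg (fun i => d i ^ 2) = 2 * avg fun i => (r • d) i ^ 2 := by
      rw [hav, mul_assoc]
    rw [hE, e]; exact le_trans a2 (by linarith)
  · rw [← hBG]
    exact (abs_trace_le_diag _).trans (mul_le_mul_of_nonneg_right (le_trans a3 (by linarith)) hs)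
  · have b := (abs_trace_le_diag _).trans (mul_le_mul_of_nonneg_right
      (le_trans a4 (show K4 ≤ K1 + K2 + K3 + K4 by linarith)) hs)
    rw [trace_e4 hn, hG, hav, trace_smul, smul_eq_mul, mul_left_comm, ← mul_sub, abs_mul,
      abs_of_nonneg (sq_nonneg r)] at b
    exact b

end Crest.Agent.T157.Tap
end
end

-- ▼ part T157/U2A_11
section

/-!
# Row 157, part A (helper11): orthonormal frames, Ky Fan tail for a deformed GOE matrix

* `ON`, `OZ`: orthonormal families, orthogonal families of unit or zero vectors; `greedy`;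
* `kf_tail`: the Ky Fan sum of `c W - diag a` concentrates at speed `k n`;
* `penalty`: positivity on the complement of a family plus a penalty gives positivity.
-/

set_option autoImplicit false
set_option linter.unusedSectionVars false

noncomputable section

namespace Crest.Agent.T157.U2

open MeasureTheory ProbabilityTheory Matrix Filter Topology
open Crest.Agent.T157.E Crest.Agent.T157.Cond Crest.Agent.T157.Kr
open Crest.Agent.T157.Eig (nrm opn nrm_nonneg nrm_sq nrm_mul_self abs_bil_le)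

variable {ι : Type*} [Fintype ι]

/-- orthonormal family -/
def ON {k : ℕ} (u : Fin k → ι → ℝ) : Prop :=
  (∀ i, u i ⬝ᵥ u i = 1) ∧ ∀ i j, i ≠ j → u i ⬝ᵥ u j = 0

/-- orthogonal family of unit or zero vectors -/
def OZ {k : ℕ} (u : Fin k → ι → ℝ) : Prop :=
  (∀ i, u i ⬝ᵥ u i = 1 ∨ u i = 0) ∧ ∀ i j, i ≠ j → u i ⬝ᵥ u j = 0

lemma cons_orth {k : ℕ} {u : Fin k → ι → ℝ} {v : ι → ℝ} (hu : ∀ i j, i ≠ j → u i ⬝ᵥ u j = 0)
    (hv : ∀ j, u j ⬝ᵥ v = 0) (i j : Fin (k + 1)) (hij : i ≠ j) :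
    (Fin.cons v u : Fin (k + 1) → ι → ℝ) i ⬝ᵥ (Fin.cons v u : Fin (k + 1) → ι → ℝ) j = 0 := by
  rcases Fin.eq_zero_or_eq_succ i with rfl | ⟨i, rfl⟩ <;>
    rcases Fin.eq_zero_or_eq_succ j with rfl | ⟨j, rfl⟩
  · exact absurd rfl hij
  · simp only [Fin.cons_zero, Fin.cons_succ]; rw [dotProduct_comm]; exact hv j
  · simp only [Fin.cons_zero, Fin.cons_succ]; exact hv i
  · simp only [Fin.cons_succ]; exact hu i j fun h => hij (by rw [h])

/-- greedy choice of an orthonormal family of bad vectors -/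
theorem greedy (Bad : (ι → ℝ) → Prop) (k : ℕ) :
    (∃ u : Fin k → ι → ℝ, ON u ∧ ∀ j, Bad (u j)) ∨
    ∃ u : Fin k → ι → ℝ, OZ u ∧ (∀ j, u j = 0 ∨ Bad (u j)) ∧
      ∀ v, v ⬝ᵥ v = 1 → (∀ j, u j ⬝ᵥ v = 0) → ¬ Bad v := by
  induction k with
  | zero => exact Or.inl ⟨fun j => j.elim0, ⟨fun j => j.elim0, fun j => j.elim0⟩, fun j => j.elim0⟩
  | succ k ih =>
    have pad : ∀ u : Fin k → ι → ℝ, OZ u → (∀ j, u j = 0 ∨ Bad (u j)) →
        (∀ v, v ⬝ᵥ v = 1 → (∀ j, u j ⬝ᵥ v = 0) → ¬ Bad v) →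
        ∃ u : Fin (k + 1) → ι → ℝ, OZ u ∧ (∀ j, u j = 0 ∨ Bad (u j)) ∧
          ∀ v, v ⬝ᵥ v = 1 → (∀ j, u j ⬝ᵥ v = 0) → ¬ Bad v := by
      intro u hu hb hv
      refine ⟨Fin.cons 0 u, ⟨fun i => ?_, cons_orth hu.2 fun j => dotProduct_zero _⟩, fun j => ?_,
        fun v h1 h2 => hv v h1 fun j => by simpa using h2 j.succ⟩
      · rcases Fin.eq_zero_or_eq_succ i with rfl | ⟨i, rfl⟩
        · exact Or.inr rfl
        · simpa using hu.1 i
      · rcases Fin.eq_zero_or_eq_succ j with rfl | ⟨j, rfl⟩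
        · exact Or.inl rfl
        · simpa using hb j
    rcases ih with ⟨u, hu, hb⟩ | ⟨u, hu, hb, hv⟩
    · by_cases h : ∃ v, v ⬝ᵥ v = 1 ∧ (∀ j, u j ⬝ᵥ v = 0) ∧ Bad v
      · obtain ⟨v, h1, h2, h3⟩ := h
        refine Or.inl ⟨Fin.cons v u, ⟨fun i => ?_, cons_orth hu.2 h2⟩, fun j => ?_⟩
        · rcases Fin.eq_zero_or_eq_succ i with rfl | ⟨i, rfl⟩
          · exact h1
          · simpa using hu.1 i
        · rcases Fin.eq_zero_or_eq_succ j with rfl | ⟨j, rfl⟩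
          · exact h3
          · simpa using hb j
      · exact Or.inr (pad u ⟨fun i => Or.inl (hu.1 i), hu.2⟩ (fun j => Or.inr (hb j))
          fun v h1 h2 h3 => h ⟨v, h1, h2, h3⟩)
    · exact Or.inr (pad u hu hb hv)

/-- a Ky Fan sum is bounded by `√k` times the Frobenius norm -/
lemma frame_le {k : ℕ} {u : Fin k → ι → ℝ} (hu : ON u) (M : Matrix ι ι ℝ) :
    |∑ j, u j ⬝ᵥ M *ᵥ u j| ≤ Real.sqrt k * fro M := by
  have e1 : ∑ j, u j ⬝ᵥ M *ᵥ u j = ∑ p : ι × ι, (∑ j, u j p.1 * u j p.2) * M p.1 p.2 := by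
    rw [Fintype.sum_prod_type]
    simp only [dotProduct, mulVec, Finset.mul_sum, Finset.sum_mul]
    rw [Finset.sum_comm]
    refine Finset.sum_congr rfl fun a _ => ?_
    rw [Finset.sum_comm]
    exact Finset.sum_congr rfl fun b _ => Finset.sum_congr rfl fun j _ => by ring
  have e2 : ∑ p : ι × ι, (∑ j, u j p.1 * u j p.2) ^ 2 = k := by
    have h1 : ∀ p : ι × ι, (∑ j, u j p.1 * u j p.2) ^ 2 =
        ∑ j, ∑ l, (u j p.1 * u l p.1) * (u j p.2 * u l p.2) := fun p => by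
      rw [sq, Finset.sum_mul_sum]
      exact Finset.sum_congr rfl fun j _ => Finset.sum_congr rfl fun l _ => by ring
    simp only [h1]
    rw [Finset.sum_comm]
    have h2 : ∀ j, ∑ p : ι × ι, ∑ l, (u j p.1 * u l p.1) * (u j p.2 * u l p.2) = 1 := fun j => by
      rw [Finset.sum_comm]
      have h3 : ∀ l, ∑ p : ι × ι, (u j p.1 * u l p.1) * (u j p.2 * u l p.2) =
          (u j ⬝ᵥ u l) * (u j ⬝ᵥ u l) := fun l => by
        rw [Fintype.sum_prod_type, dotProduct, Finset.sum_mul_sum]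
      simp only [h3]
      rw [Finset.sum_eq_single j (fun l _ hl => by rw [hu.2 j l (Ne.symm hl), mul_zero])
        (fun h => absurd (Finset.mem_univ j) h), hu.1 j, mul_one]
    simp [h2]
  rw [e1, fro, ← Real.sqrt_mul (Nat.cast_nonneg k), ← e2, ← Fintype.sum_prod_type']
  exact Real.abs_le_sqrt (Finset.sum_mul_sq_le_sq_mul_sq _ _ _)

lemma fro_sub_comm (W W' : Matrix ι ι ℝ) : fro (W - W') = fro (W' - W) := by
  unfold fro
  congr 1
  exact Finset.sum_congr rfl fun i _ => Finset.sum_congr rfl fun j _ => by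
    simp only [Matrix.sub_apply]; ring

lemma continuous_of_fro {Λ : Matrix ι ι ℝ → ℝ} {L : ℝ}
    (hL : ∀ W W', |Λ W - Λ W'| ≤ L * fro (W - W')) : Continuous Λ := by
  refine continuous_iff_continuousAt.2 fun W => tendsto_iff_norm_sub_tendsto_zero.2 ?_
  have hcf : Continuous fun W' : Matrix ι ι ℝ => L * fro (W' - W) := by
    unfold fro
    refine continuous_const.mul (Real.continuous_sqrt.comp (continuous_finsetSum _ fun i _ =>
      continuous_finsetSum _ fun j _ => ?_))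
    exact ((continuous_id.sub continuous_const).matrix_elem i j).pow 2
  have h0 := hcf.tendsto W
  rw [sub_self, show fro (0 : Matrix ι ι ℝ) = 0 by simp [fro], mul_zero] at h0
  exact squeeze_zero (fun _ => norm_nonneg _) (fun W' => hL W' W) h0

/-- the form `c v·Wv - ∑ a v²` -/
def qf (c : ℝ) (a : ι → ℝ) (W : Matrix ι ι ℝ) (v : ι → ℝ) : ℝ :=
  c * (v ⬝ᵥ W *ᵥ v) - ∑ i, a i * v i ^ 2

lemma young_term {x y e : ℝ} (he : 0 < e) : 2 * x * y ≤ e * y ^ 2 + x ^ 2 / e := by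
  rw [← sub_nonneg]
  have : e * y ^ 2 + x ^ 2 / e - 2 * x * y = (e * y - x) ^ 2 / e := by field_simp; ring
  rw [this]; positivity

/-- **Ky Fan tail**: speed `k` times the speed of the top eigenvalue -/
theorem kf_tail [DecidableEq ι] (s : ℝ) {c c' τ t : ℝ} (hc : 0 ≤ c) (hcc : c ≤ c') (a : ι → ℝ)
    (ha : ∀ i, τ < a i) {k : ℕ} (hk : 0 < k) (ht : 0 ≤ t) :
    (goe ι s).real {W | ∃ u : Fin k → ι → ℝ, ON u ∧
      k * (-τ + (c * s) ^ 2 * ∑ i, 1 / (a i - τ) + t) ≤ ∑ j, qf c a W (u j)} ≤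
      Real.exp (-(k * t ^ 2 / (4 * s ^ 2 * c' ^ 2))) := by
  have hk' : (0 : ℝ) < k := Nat.cast_pos.2 hk
  by_cases hex : ∃ u : Fin k → ι → ℝ, ON u
  swap
  · have : {W : Matrix ι ι ℝ | ∃ u : Fin k → ι → ℝ, ON u ∧
        k * (-τ + (c * s) ^ 2 * ∑ i, 1 / (a i - τ) + t) ≤ ∑ j, qf c a W (u j)} = ∅ := by
      ext W
      simp only [Set.mem_ofPred_eq, Set.mem_empty_iff_false, iff_false]
      rintro ⟨u, hu, -⟩
      exact hex ⟨u, hu⟩
    rw [this, measureReal_empty]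
    positivity
  obtain ⟨u0, hu0⟩ := hex
  have : Nonempty {u : Fin k → ι → ℝ // ON u} := ⟨⟨u0, hu0⟩⟩
  have hsq : ∀ v : ι → ℝ, v ⬝ᵥ v = 1 → τ ≤ ∑ i, a i * v i ^ 2 := fun v hv => by
    calc τ = ∑ i, τ * v i ^ 2 := by
          rw [← Finset.mul_sum]
          have : ∑ i, v i ^ 2 = 1 := by rw [← hv, dotProduct]; simp only [sq]
          rw [this, mul_one]
      _ ≤ _ := Finset.sum_le_sum fun i _ => mul_le_mul_of_nonneg_right (ha i).le (sq_nonneg _)
  have hsum : ∀ (W : Matrix ι ι ℝ) (u : Fin k → ι → ℝ), ∑ j, qf c a W (u j) =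
      c * ∑ j, u j ⬝ᵥ W *ᵥ u j - ∑ j, ∑ i, a i * u j i ^ 2 := fun W u => by
    simp only [qf, Finset.sum_sub_distrib, Finset.mul_sum]
  have hb : ∀ W : Matrix ι ι ℝ, BddAbove (Set.range fun u : {u : Fin k → ι → ℝ // ON u} =>
      ∑ j, qf c a W (u.1 j)) := fun W => by
    refine ⟨c * (Real.sqrt k * fro W) - k * τ, ?_⟩
    rintro _ ⟨u, rfl⟩
    have h1 := mul_le_mul_of_nonneg_left (abs_le.1 (frame_le u.2 W)).2 hc
    have h2 : ∑ _j : Fin k, τ ≤ ∑ j, ∑ i, a i * u.1 j i ^ 2 :=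
      Finset.sum_le_sum fun j _ => hsq _ (u.2.1 j)
    simp only [Finset.sum_const, Finset.card_univ, Fintype.card_fin, nsmul_eq_mul] at h2
    simp only [hsum]
    linarith
  set Λ : Matrix ι ι ℝ → ℝ := fun W => ⨆ u : {u : Fin k → ι → ℝ // ON u}, ∑ j, qf c a W (u.1 j)
    with hΛ
  have hL0 : 0 ≤ c' * Real.sqrt k := mul_nonneg (hc.trans hcc) (Real.sqrt_nonneg _)
  have h1 : ∀ W W', Λ W ≤ Λ W' + c' * Real.sqrt k * fro (W - W') := fun W W' => ciSup_le fun u => by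
    have h2 : ∑ j, qf c a W' (u.1 j) ≤ Λ W' := le_ciSup (hb W') u
    have h3 := (abs_le.1 (frame_le u.2 (W - W'))).2
    simp only [Matrix.sub_mulVec, dotProduct_sub, Finset.sum_sub_distrib] at h3
    have h4 := mul_le_mul_of_nonneg_left h3 hc
    have h5 : c * (Real.sqrt k * fro (W - W')) ≤ c' * (Real.sqrt k * fro (W - W')) :=
      mul_le_mul_of_nonneg_right hcc (mul_nonneg (Real.sqrt_nonneg _) (fro_nonneg _))
    rw [hsum] at h2 ⊢
    rw [mul_sub] at h4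
    linarith
  have hL : ∀ W W', |Λ W - Λ W'| ≤ c' * Real.sqrt k * fro (W - W') := fun W W' => by
    have := h1 W W'
    have := h1 W' W
    rw [fro_sub_comm W' W] at this
    rw [abs_le]; constructor <;> linarith
  have hcont := continuous_of_fro hL
  have hF : FLip (c' * Real.sqrt k) Λ := fun W W' _ _ => hL W W'
  have hi := hF.integrable hL0 hcont.measurable s
  have : Nonempty {v : ι → ℝ // v ⬝ᵥ v = 1} := ⟨⟨u0 ⟨0, hk⟩, hu0.1 _⟩⟩
  have hΓi : Integrable (fun ξ : ι → ℝ => -τ + (c * s) ^ 2 * ∑ i, ξ i * ξ i / (a i - τ)) (gv ι) :=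
    (integrable_const _).add ((integrable_finsetSum _ fun i _ =>
      (Nrm.integrable_sq_coord i).div_const _).const_mul _)
  have hsc : Real.sqrt c * Real.sqrt c = c := Real.mul_self_sqrt hc
  have hE := sf_goe (T := {v : ι → ℝ // v ⬝ᵥ v = 1}) s (u := fun v => Real.sqrt c • v.1)
    (f := fun v => -∑ i, a i * v.1 i ^ 2) (Λ := fun W => Λ W / k)
    (continuous_pi fun i => continuous_const.mul ((continuous_apply i).comp continuous_subtype_val))
    (by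
      refine (continuous_finsetSum _ fun i _ => continuous_const.mul ?_).neg
      exact ((continuous_apply i).comp continuous_subtype_val).pow 2)
    (hi.div_const _) (fun W _ ε hε => by
      obtain ⟨u, hu⟩ := exists_lt_of_lt_ciSup
        (show Λ W - k * ε < Λ W by linarith [mul_pos hk' hε])
      have h2 : ∑ _j : Fin k, (Λ W / k - ε) ≤ ∑ j, qf c a W (u.1 j) := by
        simp only [Finset.sum_const, Finset.card_univ, Fintype.card_fin, nsmul_eq_mul]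
        rw [mul_sub, mul_div_cancel₀ _ hk'.ne']
        exact hu.le
      have : Nonempty (Fin k) := ⟨⟨0, hk⟩⟩
      obtain ⟨j, -, hj⟩ := Finset.exists_le_of_sum_le Finset.univ_nonempty h2
      refine ⟨⟨u.1 j, u.2.1 j⟩, ?_⟩
      simp only [mulVec_smul, dotProduct_smul, smul_dotProduct, smul_eq_mul]
      rw [← mul_assoc, hsc]
      unfold qf at hj
      linarith) hΓi (fun ξ v => by
      have hl : len (Real.sqrt c • v.1) = Real.sqrt c := by
        rw [len, smul_dotProduct, dotProduct_smul, v.2, smul_eq_mul, smul_eq_mul, mul_one, hsc]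
      rw [hl, dotProduct_smul, smul_eq_mul]
      have h2 : ∑ i, 2 * (c * s * ξ i) * v.1 i ≤
          ∑ i, ((a i - τ) * v.1 i ^ 2 + (c * s * ξ i) ^ 2 / (a i - τ)) :=
        Finset.sum_le_sum fun i _ => young_term (sub_pos.2 (ha i))
      have h3 : ∑ i, v.1 i ^ 2 = 1 := by simpa only [sq, dotProduct] using v.2
      have h4 : ∑ i, ((a i - τ) * v.1 i ^ 2 + (c * s * ξ i) ^ 2 / (a i - τ)) =
          ∑ i, a i * v.1 i ^ 2 - τ + (c * s) ^ 2 * ∑ i, ξ i * ξ i / (a i - τ) := by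
        rw [Finset.sum_add_distrib, Finset.mul_sum]
        congr 1
        · simp only [sub_mul, Finset.sum_sub_distrib, ← Finset.mul_sum, h3, mul_one]
        · exact Finset.sum_congr rfl fun i _ => by ring
      have h5 : ∑ i, 2 * (c * s * ξ i) * v.1 i =
          2 * s * Real.sqrt c * (Real.sqrt c * ξ ⬝ᵥ v.1) := by
        rw [← mul_assoc, mul_assoc (2 * s), hsc, dotProduct, Finset.mul_sum]
        exact Finset.sum_congr rfl fun i _ => by ring
      linarith)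
  have hΓ : ∫ ξ : ι → ℝ, (-τ + (c * s) ^ 2 * ∑ i, ξ i * ξ i / (a i - τ)) ∂(gv ι) =
      -τ + (c * s) ^ 2 * ∑ i, 1 / (a i - τ) := by
    rw [integral_add (integrable_const _) ((integrable_finsetSum _ fun i _ =>
      (Nrm.integrable_sq_coord i).div_const _).const_mul _), integral_const_mul,
      integral_finsetSum _ fun i _ => (Nrm.integrable_sq_coord i).div_const _]
    simp only [integral_div, Nrm.integral_sq_coord, integral_const, probReal_univ, one_smul]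
  rw [hΓ, integral_div, div_le_iff₀ hk'] at hE
  have ht' := goe_tail hL0 hF hcont.measurable s (t := k * t) (by positivity)
  have he : -(k * t) ^ 2 / (4 * s ^ 2 * (c' * Real.sqrt k) ^ 2) =
      -(k * t ^ 2 / (4 * s ^ 2 * c' ^ 2)) := by
    rw [mul_pow c', Real.sq_sqrt hk'.le, ← mul_assoc, neg_div, mul_pow, sq (k : ℝ),
      mul_assoc (k : ℝ) k, mul_comm (k : ℝ) (k * t ^ 2), mul_div_mul_right _ _ hk'.ne']
  rw [he] at ht'
  refine le_trans (measureReal_mono fun W hW => ?_) ht'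
  obtain ⟨u, hu, hW⟩ := hW
  have h2 : ∑ j, qf c a W (u j) ≤ Λ W := le_ciSup (hb W) ⟨u, hu⟩
  simp only [Set.mem_ofPred_eq]
  linarith

/-! ### the projection onto an orthogonal family -/

section proj
variable {k : ℕ} {U : Fin k → ι → ℝ}

/-- component along the family -/
def pr (U : Fin k → ι → ℝ) (v : ι → ℝ) : ι → ℝ := ∑ j, (U j ⬝ᵥ v) • U j

lemma dot_pr (x v : ι → ℝ) : x ⬝ᵥ pr U v = ∑ j, (U j ⬝ᵥ v) * (U j ⬝ᵥ x) := by
  rw [pr, dotProduct_sum]
  exact Finset.sum_congr rfl fun j _ => by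
    rw [dotProduct_smul, smul_eq_mul, dotProduct_comm x]

lemma OZ.dot_pr (hU : OZ U) (j : Fin k) (v : ι → ℝ) : U j ⬝ᵥ pr U v = U j ⬝ᵥ v := by
  rw [U2.dot_pr, Finset.sum_eq_single j (fun l _ hl => by rw [hU.2 l j hl, mul_zero])
    (fun h => absurd (Finset.mem_univ j) h)]
  rcases hU.1 j with h | h
  · rw [h, mul_one]
  · simp [h]

lemma OZ.pr_sq (hU : OZ U) (v : ι → ℝ) : pr U v ⬝ᵥ pr U v = ∑ j, (U j ⬝ᵥ v) ^ 2 := by
  rw [U2.dot_pr]
  exact Finset.sum_congr rfl fun j _ => by rw [hU.dot_pr, sq]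

lemma dot_pr_self (v : ι → ℝ) : v ⬝ᵥ pr U v = ∑ j, (U j ⬝ᵥ v) ^ 2 := by
  rw [dot_pr]
  exact Finset.sum_congr rfl fun j _ => by rw [sq]

lemma OZ.dot_sub_pr (hU : OZ U) (j : Fin k) (v : ι → ℝ) : U j ⬝ᵥ (v - pr U v) = 0 := by
  rw [dotProduct_sub, hU.dot_pr, sub_self]

lemma OZ.pyth (hU : OZ U) (v : ι → ℝ) :
    v ⬝ᵥ v = ∑ j, (U j ⬝ᵥ v) ^ 2 + (v - pr U v) ⬝ᵥ (v - pr U v) := by
  rw [sub_dotProduct, dotProduct_sub, dotProduct_sub, hU.pr_sq, dotProduct_comm (pr U v) v,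
    dot_pr_self]
  ring

/-- Bessel -/
lemma OZ.bessel (hU : OZ U) (v : ι → ℝ) : ∑ j, (U j ⬝ᵥ v) ^ 2 ≤ v ⬝ᵥ v := by
  have := hU.pyth v
  linarith [dot_self_nonneg (v - pr U v)]

lemma pen_num {g K x y q11 q12 q21 q22 : ℝ} (hg : 0 < g) (h22 : 2 * g * y ^ 2 ≤ q22)
    (h11 : -(K * (x * x)) ≤ q11) (h12 : -(K * (x * y)) ≤ q12) (h21 : -(K * (y * x)) ≤ q21) :
    g * (x ^ 2 + y ^ 2) ≤ q11 + q12 + q21 + q22 + (K ^ 2 / g + K + g) * x ^ 2 := by
  have h := young_term (x := K * x) (y := y) hg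
  have e : (K * x) ^ 2 / g = K ^ 2 / g * x ^ 2 := by ring
  rw [e] at h
  nlinarith

/-- **penalty**: `M ⪰ 2g` on the complement of the family and `‖M‖ ≤ K` give
`M + (K²/g + K + g) P ⪰ g` -/
theorem penalty [DecidableEq ι] (hU : OZ U) {M : Matrix ι ι ℝ} {K g : ℝ} (hg : 0 < g)
    (hK : opn M ≤ K)
    (h : ∀ v : ι → ℝ, v ⬝ᵥ v = 1 → (∀ j, U j ⬝ᵥ v = 0) → 2 * g ≤ v ⬝ᵥ M *ᵥ v) (v : ι → ℝ) :
    g * (v ⬝ᵥ v) ≤ v ⬝ᵥ M *ᵥ v + (K ^ 2 / g + K + g) * ∑ j, (U j ⬝ᵥ v) ^ 2 := by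
  have hb : ∀ x y : ι → ℝ, -(K * (nrm x * nrm y)) ≤ x ⬝ᵥ M *ᵥ y := fun x y => by
    have h1 := (abs_le.1 (abs_bil_le M x y)).1
    have h2 := mul_le_mul_of_nonneg_right hK (mul_nonneg (nrm_nonneg x) (nrm_nonneg y))
    linarith
  set v1 := pr U v with hv1
  set v2 := v - pr U v with hv2
  have h22 : 2 * g * nrm v2 ^ 2 ≤ v2 ⬝ᵥ M *ᵥ v2 := by
    by_cases h0 : v2 = 0
    · simp [h0]
    · have h1 := h (unitv v2) (unitv_dot h0) fun j => by
        rw [unitv, dotProduct_smul, hv2, hU.dot_sub_pr, smul_zero]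
      have h2 : v2 ⬝ᵥ M *ᵥ v2 = len v2 ^ 2 * (unitv v2 ⬝ᵥ M *ᵥ unitv v2) := by
        conv_lhs => rw [← len_smul_unitv v2]
        rw [mulVec_smul, dotProduct_smul, smul_dotProduct, smul_eq_mul, smul_eq_mul]
        ring
      rw [h2, nrm_sq, ← len_sq, mul_comm]
      exact mul_le_mul_of_nonneg_left h1 (sq_nonneg _)
  have hv : v = v1 + v2 := by rw [hv1, hv2, add_sub_cancel]
  have e1 : v ⬝ᵥ M *ᵥ v = v1 ⬝ᵥ M *ᵥ v1 + v1 ⬝ᵥ M *ᵥ v2 + v2 ⬝ᵥ M *ᵥ v1 + v2 ⬝ᵥ M *ᵥ v2 := by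
    conv_lhs => rw [hv]
    rw [mulVec_add, add_dotProduct, dotProduct_add, dotProduct_add]
    ring
  have e2 : ∑ j, (U j ⬝ᵥ v) ^ 2 = nrm v1 ^ 2 := by rw [nrm_sq, hv1, hU.pr_sq]
  have e3 : v ⬝ᵥ v = nrm v1 ^ 2 + nrm v2 ^ 2 := by rw [hU.pyth v, e2, nrm_sq v2]
  rw [e1, e2, e3]
  exact pen_num hg h22 (hb v1 v1) (hb v1 v2) (hb v2 v1)

/-- the projection matrix of a family -/
def pm (U : Fin k → ι → ℝ) : Matrix ι ι ℝ := ∑ j, vecMulVec (U j) (U j)

lemma pm_mulVec (v : ι → ℝ) : pm U *ᵥ v = pr U v := by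
  rw [pm, pr, Matrix.sum_mulVec]
  refine Finset.sum_congr rfl fun j _ => ?_
  funext i
  simp only [mulVec, dotProduct, vecMulVec_apply, Pi.smul_apply, smul_eq_mul, Finset.sum_mul]
  exact Finset.sum_congr rfl fun l _ => by ring

lemma quad_pm (v : ι → ℝ) : v ⬝ᵥ pm U *ᵥ v = ∑ j, (U j ⬝ᵥ v) ^ 2 := by
  rw [pm_mulVec, dot_pr_self]








end proj

end Crest.Agent.T157.U2

end
end

-- ▼ part T157/U2_11
section

/-!
# Row 157, part A (helper11): `(U2)`, local strong convexity of TAP modulo `O(1)` directions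

`u2Stmt : Lp.U2Stmt`; the general form `u2_tail` needs only `β² avg D² ≤ 1 - κ` at the centre, gives
an orthogonal projection and an exponentially small failure probability.
-/

set_option autoImplicit false
set_option linter.unusedSectionVars false

noncomputable section

namespace Crest.Agent.T157.U2

open MeasureTheory ProbabilityTheory Matrix Filter Topology Set
open Crest.Agent.T157.E Crest.Agent.T157.Cond Crest.Agent.T157.Tap
open Crest.Agent.T157.Eig (nrm opn nrm_nonneg nrm_sq)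

variable {n : ℕ}

/-! ### the grid -/

/-- grid value `(j+1)/(M+1)` -/
def gD (M : ℕ) (j : Fin (M + 1)) : ℝ := (((j : ℕ) : ℝ) + 1) / ((M : ℝ) + 1)

lemma gD_pos (M : ℕ) (j : Fin (M + 1)) : 0 < gD M j := by unfold gD; positivity

lemma gD_le_one (M : ℕ) (j : Fin (M + 1)) : gD M j ≤ 1 := by
  have : ((j : ℕ) : ℝ) ≤ M := by exact_mod_cast Nat.lt_succ_iff.1 j.2
  rw [gD, div_le_one (by positivity)]; linarith

lemma inv_gD_le (M : ℕ) (j : Fin (M + 1)) : 1 / gD M j ≤ (M : ℝ) + 1 := by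
  have : (0 : ℝ) ≤ ((j : ℕ) : ℝ) := Nat.cast_nonneg _
  rw [gD, one_div_div, div_le_iff₀ (by positivity)]
  nlinarith [(Nat.cast_nonneg M : (0 : ℝ) ≤ M)]

lemma one_le_inv_gD (M : ℕ) (j : Fin (M + 1)) : 1 ≤ 1 / gD M j :=
  one_le_one_div (gD_pos M j) (gD_le_one M j)

lemma gD_last (M : ℕ) : gD M (Fin.last M) = 1 := by
  rw [gD, Fin.val_last, div_self (by positivity)]

/-- rounding up, with a margin of two grid steps -/
def rd (M : ℕ) (x : ℝ) : Fin (M + 1) := ⟨min M (⌊((M : ℝ) + 1) * x⌋₊ + 2), by omega⟩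

lemma le_rd (M : ℕ) {x y : ℝ} (h1 : y ≤ 1) (h2 : y ≤ x + 2 / ((M : ℝ) + 1)) : y ≤ gD M (rd M x) := by
  have hM : (0 : ℝ) < (M : ℝ) + 1 := by positivity
  rcases le_total M (⌊((M : ℝ) + 1) * x⌋₊ + 2) with h | h
  · rw [gD, rd]
    simp only [min_eq_left h]
    rw [div_self hM.ne']; exact h1
  · rw [gD, rd]
    simp only [min_eq_right h]
    have h3 := Nat.lt_floor_add_one (((M : ℝ) + 1) * x)
    refine h2.trans ?_
    rw [add_div' _ _ _ hM.ne', div_le_div_iff_of_pos_right hM]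
    push_cast
    linarith

lemma rd_le (M : ℕ) {x : ℝ} (hx : 0 ≤ x) : gD M (rd M x) ≤ x + 3 / ((M : ℝ) + 1) := by
  have hM : (0 : ℝ) < (M : ℝ) + 1 := by positivity
  have h1 : ((min M (⌊((M : ℝ) + 1) * x⌋₊ + 2) : ℕ) : ℝ) ≤ (⌊((M : ℝ) + 1) * x⌋₊ + 2 : ℕ) := by
    exact_mod_cast min_le_right _ _
  have h3 := Nat.floor_le (mul_nonneg hM.le hx)
  rw [gD, rd, add_div' _ _ _ hM.ne', div_le_div_iff_of_pos_right hM]
  push_cast at h1 ⊢
  linarith

/-- the rounded diagonal, equal to `1` on `S` -/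
def jS (M : ℕ) (m : V n) (S : Finset (Fin n)) (i : Fin n) : Fin (M + 1) :=
  if i ∈ S then Fin.last M else rd M (DD m i)

lemma DD_nonneg {m : V n} (hm : Cb m) (i : Fin n) : 0 ≤ DD m i := by
  have := hm i
  rw [DD, sub_nonneg, ← sq_abs]
  exact pow_le_one₀ (abs_nonneg _) this

lemma DD_le_one (m : V n) (i : Fin n) : DD m i ≤ 1 := by
  rw [DD]; linarith [sq_nonneg (m i)]

lemma dd_sq {m : V n} (hm : Cb m) (i : Fin n) : dd m i ^ 2 = DD m i :=
  Real.sq_sqrt (DD_nonneg hm i)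

lemma jS_mono (M : ℕ) (m : V n) {S S' : Finset (Fin n)} (h : S ⊆ S') (i : Fin n) :
    gD M (jS M m S i) ≤ gD M (jS M m S' i) := by
  by_cases h' : i ∈ S'
  · rw [jS, jS, if_pos h', gD_last]; exact gD_le_one _ _
  · rw [jS, jS, if_neg h', if_neg fun h1 => h' (h h1)]

lemma sum_ite_card (S : Finset (Fin n)) : ∑ i, (if i ∈ S then (1 : ℝ) else 0) = S.card := by
  simp

lemma sum_jS_le (M : ℕ) {m : V n} (hm : Cb m) (S : Finset (Fin n)) :
    ∑ i, gD M (jS M m S i) ≤ ∑ i, DD m i + n * (3 / ((M : ℝ) + 1)) + S.card := by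
  have h3 : (0 : ℝ) ≤ 3 / ((M : ℝ) + 1) := by positivity
  calc ∑ i, gD M (jS M m S i)
      ≤ ∑ i, (DD m i + 3 / ((M : ℝ) + 1) + if i ∈ S then (1 : ℝ) else 0) := by
        refine Finset.sum_le_sum fun i _ => ?_
        have := DD_nonneg hm i
        rw [jS]
        split_ifs
        · rw [gD_last]; linarith
        · linarith [rd_le M this]
    _ = _ := by
        rw [Finset.sum_add_distrib, Finset.sum_add_distrib, sum_ite_card]
        simp

lemma sq_num {x y e : ℝ} (hx : 0 ≤ x) (hx1 : x ≤ 1) (hy : 0 ≤ y) (hy1 : y ≤ 1) (he : 0 ≤ e)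
    (h : y ≤ x + e) : y ^ 2 ≤ x ^ 2 + 2 * e := by
  rcases le_total y x with h' | h'
  · nlinarith
  · nlinarith

lemma sum_jS_sq_le (M : ℕ) {m : V n} (hm : Cb m) (S : Finset (Fin n)) :
    ∑ i, gD M (jS M m S i) ^ 2 ≤ ∑ i, DD m i ^ 2 + n * (6 / ((M : ℝ) + 1)) + S.card := by
  have h3 : (0 : ℝ) ≤ 3 / ((M : ℝ) + 1) := by positivity
  have h6 : 6 / ((M : ℝ) + 1) = 2 * (3 / ((M : ℝ) + 1)) := by ring
  calc ∑ i, gD M (jS M m S i) ^ 2
      ≤ ∑ i, (DD m i ^ 2 + 6 / ((M : ℝ) + 1) + if i ∈ S then (1 : ℝ) else 0) := by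
        refine Finset.sum_le_sum fun i _ => ?_
        have := DD_nonneg hm i
        rw [jS]
        split_ifs
        · rw [gD_last]; linarith [sq_nonneg (DD m i)]
        · linarith [sq_num this (DD_le_one m i) (gD_pos M _).le (gD_le_one M _) h3 (rd_le M this)]
    _ = _ := by
        rw [Finset.sum_add_distrib, Finset.sum_add_distrib, sum_ite_card]
        simp

lemma res_num {D τ : ℝ} (hD : 0 < D) (hD1 : D ≤ 1) (hτ : 0 ≤ τ) (hτ1 : τ ≤ 1 / 2) :
    1 / (1 / D - τ) ≤ D + τ * (1 + 2 * τ) * D ^ 2 := by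
  have h1 : τ * D ≤ τ := mul_le_of_le_one_right hτ hD1
  have h0 : 0 ≤ τ * D := mul_nonneg hτ hD.le
  have h2 : 0 < 1 - τ * D := by linarith
  have e : 1 / (1 / D - τ) = D / (1 - τ * D) := by field_simp
  rw [e, div_le_iff₀ h2]
  have h3 : 1 ≤ (1 + 2 * τ) * (1 - τ * D) := by nlinarith
  have h4 : τ * D ^ 2 * 1 ≤ τ * D ^ 2 * ((1 + 2 * τ) * (1 - τ * D)) :=
    mul_le_mul_of_nonneg_left h3 (by positivity)
  nlinarith

/-! ### the random event -/

/-- all Ky Fan sums over the grid of diagonals are typical -/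
def Good1 (W : Mx n) (β τ t : ℝ) (M k : ℕ) : Prop :=
  ∀ (j : Fin n → Fin (M + 1)) (u : Fin k → V n), ON u →
    ∑ a, qf β (fun i => 1 / gD M (j i)) W (u a) <
      k * (-τ + β ^ 2 / n * ∑ i, 1 / (1 / gD M (j i) - τ) + t)

lemma good1_tail {β τ t : ℝ} (hβ : β ∈ Icc (0 : ℝ) 1) (hτ : τ < 1) (ht : 0 ≤ t) (M : ℕ) {k : ℕ}
    (hk : 0 < k) (hn : 0 < n) :
    (GOE n).real {W | ¬ Good1 W β τ t M k} ≤
      ((M : ℝ) + 1) ^ n * Real.exp (-(k * t ^ 2 * n / 4)) := by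
  have hn' : (0 : ℝ) < n := Nat.cast_pos.2 hn
  have hs : (1 / Real.sqrt n) ^ 2 = 1 / (n : ℝ) := by rw [div_pow, one_pow, Real.sq_sqrt hn'.le]
  have h1 : {W : Mx n | ¬ Good1 W β τ t M k} ⊆ ⋃ j : Fin n → Fin (M + 1),
      {W | ∃ u : Fin k → V n, ON u ∧ k * (-τ + (β * (1 / Real.sqrt n)) ^ 2 *
        ∑ i, 1 / (1 / gD M (j i) - τ) + t) ≤ ∑ a, qf β (fun i => 1 / gD M (j i)) W (u a)} := by
    intro W hW
    simp only [Good1, mem_ofPred_eq, not_forall, not_lt] at hW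
    obtain ⟨j, u, hu, h⟩ := hW
    refine mem_iUnion.2 ⟨j, u, hu, ?_⟩
    rwa [mul_pow, hs, mul_one_div]
  refine (measureReal_mono h1).trans ((measureReal_iUnion_fintype_le _).trans ?_)
  refine (Finset.sum_le_sum fun j _ => kf_tail (1 / Real.sqrt n) hβ.1 hβ.2
    (fun i => 1 / gD M (j i)) (fun i => hτ.trans_le (one_le_inv_gD M _)) hk ht).trans ?_
  rw [hs, Finset.sum_const, Finset.card_univ, Fintype.card_fun, Fintype.card_fin, Fintype.card_fin,
    nsmul_eq_mul]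
  push_cast
  refine le_of_eq ?_
  congr 3
  field_simp

/-! ### the deterministic part -/

/-- the comparison matrix -/
def AS (β : ℝ) (W : Mx n) (M : ℕ) (m : V n) (S : Finset (Fin n)) : Mx n :=
  diagonal (fun i => 1 / gD M (jS M m S i)) - β • W + (β ^ 2 * avg (DD m)) • (1 : Mx n)

lemma quad_AS (β : ℝ) (W : Mx n) (M : ℕ) (m : V n) (S : Finset (Fin n)) (v : V n) :
    v ⬝ᵥ AS β W M m S *ᵥ v =
      -qf β (fun i => 1 / gD M (jS M m S i)) W v + β ^ 2 * avg (DD m) * (v ⬝ᵥ v) := by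
  have e : v ⬝ᵥ diagonal (fun i => 1 / gD M (jS M m S i)) *ᵥ v =
      ∑ i, 1 / gD M (jS M m S i) * v i ^ 2 := by
    simp only [dotProduct, mulVec_diagonal]
    exact Finset.sum_congr rfl fun i _ => by ring
  rw [AS, add_mulVec, sub_mulVec, dotProduct_add, dotProduct_sub, e, smul_mulVec, smul_mulVec,
    one_mulVec, dotProduct_smul, dotProduct_smul, qf, smul_eq_mul, smul_eq_mul]
  ring

lemma avg_DD_mem {m : V n} (hm : Cb m) : avg (DD m) ∈ Icc (0 : ℝ) 1 := by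
  refine ⟨div_nonneg (Finset.sum_nonneg fun i _ => DD_nonneg hm i) (Nat.cast_nonneg n), ?_⟩
  refine div_le_one_of_le₀ ?_ (Nat.cast_nonneg n)
  calc ∑ i, DD m i ≤ ∑ _i : Fin n, (1 : ℝ) := Finset.sum_le_sum fun i _ => DD_le_one m i
    _ = n := by simp

lemma opn_AS {β : ℝ} (hβ : β ∈ Icc (0 : ℝ) 1) {W : Mx n} (hW : opn W ≤ 3) (M : ℕ) {m : V n}
    (hm : Cb m) (S : Finset (Fin n)) : opn (AS β W M m S) ≤ (M : ℝ) + 5 := by
  have h1 : opn (diagonal fun i => 1 / gD M (jS M m S i)) ≤ (M : ℝ) + 1 :=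
    Eig.opn_diagonal_le (by positivity) fun i => by
      rw [abs_of_nonneg (zero_le_one.trans (one_le_inv_gD M _))]; exact inv_gD_le M _
  have h2 : opn (β • W) ≤ 3 := by
    rw [Eig.opn_smul, abs_of_nonneg hβ.1]
    exact (mul_le_of_le_one_left (Eig.opn_nonneg W) hβ.2).trans hW
  have h3 : opn ((β ^ 2 * avg (DD m)) • (1 : Mx n)) ≤ 1 := by
    have h4 := avg_DD_mem hm
    rw [Eig.opn_smul, abs_of_nonneg (mul_nonneg (sq_nonneg β) h4.1)]
    exact mul_le_one₀ (mul_le_one₀ (pow_le_one₀ hβ.1 hβ.2) h4.1 h4.2) (Eig.opn_nonneg _)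
      Eig.opn_one_le
  have h5 := Eig.opn_add_le (diagonal (fun i => 1 / gD M (jS M m S i)) - β • W)
    ((β ^ 2 * avg (DD m)) • (1 : Mx n))
  have h6 := Eig.opn_sub_le (diagonal fun i => 1 / gD M (jS M m S i)) (β • W)
  rw [AS]
  linarith

lemma contra_num {b κ w l r a0 a2 x : ℝ} (hb : 0 ≤ b) (hb1 : b ≤ 1) (hκ : 0 < κ) (hκ1 : κ ≤ 1)
    (hw : w = κ ^ 2 / 64) (hl : 0 ≤ l) (hlw : 9 * l ≤ w) (hr : 0 ≤ r) (hrw : 2 * r ≤ w)
    (h2 : b * a2 ≤ 1 - κ)
    (hx : x ≤ a0 + 3 * l + r + κ / 4 * (1 + 2 * (κ / 4)) * (a2 + 6 * l + r)) :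
    -(κ / 4) + b * x + w ≤ b * a0 - 2 * w := by
  have h1 := mul_le_mul_of_nonneg_left hx hb
  have hθ0 : 0 ≤ κ / 4 * (1 + 2 * (κ / 4)) := by positivity
  have hθ1 : κ / 4 * (1 + 2 * (κ / 4)) ≤ 1 := by nlinarith
  have h3 := mul_le_mul_of_nonneg_left h2 hθ0
  have h4 : κ / 4 * (1 + 2 * (κ / 4)) * (1 - κ) ≤ κ / 4 - κ ^ 2 / 8 := by
    nlinarith [pow_pos hκ 3]
  have h5 : b * (3 * l + r) ≤ 3 * l + r := mul_le_of_le_one_left (by positivity) hb1
  have h6 : κ / 4 * (1 + 2 * (κ / 4)) * b * (6 * l + r) ≤ 6 * l + r :=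
    mul_le_of_le_one_left (by positivity) (mul_le_one₀ hθ1 hb hb1)
  nlinarith

/-- no `k` orthonormal bad directions -/
lemma no_frame {β κ w ρ : ℝ} (hβ : β ∈ Icc (0 : ℝ) 1) (hκ : 0 < κ) (hκ1 : κ ≤ 1)
    (hw : w = κ ^ 2 / 64) {M k : ℕ} (hM : 9 * (1 / ((M : ℝ) + 1)) ≤ w) (hk : 0 < k) (hρ : 0 ≤ ρ)
    (hρw : 2 * (k * ρ) ≤ w) (hn : 0 < n) {W : Mx n} (hG : Good1 W β (κ / 4) w M k) {m : V n}
    (hm : Cb m) (h2 : β ^ 2 * avg (fun i => DD m i ^ 2) ≤ 1 - κ) {u : Fin k → V n} (hu : ON u)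
    (hb : ∀ a, ∃ S : Finset (Fin n), (S.card : ℝ) ≤ ρ * n ∧
      u a ⬝ᵥ AS β W M m S *ᵥ u a < 2 * w) : False := by
  classical
  have hn' : (0 : ℝ) < n := Nat.cast_pos.2 hn
  have hk' : (0 : ℝ) < k := Nat.cast_pos.2 hk
  choose S hS hq using hb
  set T := Finset.univ.biUnion S with hT
  have hTc : (T.card : ℝ) ≤ k * ρ * n := by
    calc (T.card : ℝ) ≤ ((∑ a, (S a).card : ℕ) : ℝ) := by exact_mod_cast Finset.card_biUnion_le
      _ ≤ ∑ _a : Fin k, ρ * n := by push_cast; exact Finset.sum_le_sum fun a _ => hS a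
      _ = k * ρ * n := by simp [mul_assoc]
  have h3 := hG (jS M m T) u hu
  have h4 : ∀ a, β ^ 2 * avg (DD m) - 2 * w ≤ qf β (fun i => 1 / gD M (jS M m T i)) W (u a) := by
    intro a
    have h5 := hq a
    rw [quad_AS, hu.1 a, mul_one] at h5
    have h6 : ∑ i, 1 / gD M (jS M m T i) * u a i ^ 2 ≤
        ∑ i, 1 / gD M (jS M m (S a) i) * u a i ^ 2 :=
      Finset.sum_le_sum fun i _ => mul_le_mul_of_nonneg_right
        (one_div_le_one_div_of_le (gD_pos M _)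
          (jS_mono M m (Finset.subset_biUnion_of_mem S (Finset.mem_univ a)) i)) (sq_nonneg _)
    unfold qf at h5 ⊢
    linarith
  have h5 : k * (β ^ 2 * avg (DD m) - 2 * w) ≤
      ∑ a, qf β (fun i => 1 / gD M (jS M m T i)) W (u a) := by
    have := Finset.sum_le_sum fun a (_ : a ∈ Finset.univ) => h4 a
    rwa [Finset.sum_const, Finset.card_univ, Fintype.card_fin, nsmul_eq_mul] at this
  have h6 : ∑ i, 1 / (1 / gD M (jS M m T i) - κ / 4) ≤ ∑ i, gD M (jS M m T i) +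
      κ / 4 * (1 + 2 * (κ / 4)) * ∑ i, gD M (jS M m T i) ^ 2 := by
    rw [Finset.mul_sum, ← Finset.sum_add_distrib]
    exact Finset.sum_le_sum fun i _ =>
      res_num (gD_pos M _) (gD_le_one M _) (by positivity) (by linarith)
  have h7 := sum_jS_le M hm T
  have h8 := mul_le_mul_of_nonneg_left (sum_jS_sq_le M hm T)
    (by positivity : 0 ≤ κ / 4 * (1 + 2 * (κ / 4)))
  have h9 := mul_le_mul_of_nonneg_left hTc (by positivity : 0 ≤ κ / 4 * (1 + 2 * (κ / 4)))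
  have h10 : (∑ i, 1 / (1 / gD M (jS M m T i) - κ / 4)) / n ≤ avg (DD m) +
      3 * (1 / ((M : ℝ) + 1)) + k * ρ + κ / 4 * (1 + 2 * (κ / 4)) *
        (avg (fun i => DD m i ^ 2) + 6 * (1 / ((M : ℝ) + 1)) + k * ρ) := by
    rw [div_le_iff₀ hn']
    have e : (avg (DD m) + 3 * (1 / ((M : ℝ) + 1)) + k * ρ + κ / 4 * (1 + 2 * (κ / 4)) *
        (avg (fun i => DD m i ^ 2) + 6 * (1 / ((M : ℝ) + 1)) + k * ρ)) * n =
        ∑ i, DD m i + n * (3 / ((M : ℝ) + 1)) + k * ρ * n + κ / 4 * (1 + 2 * (κ / 4)) *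
          (∑ i, DD m i ^ 2 + n * (6 / ((M : ℝ) + 1)) + k * ρ * n) := by
      simp only [avg]; field_simp
    rw [e]
    linarith
  have h11 := contra_num (sq_nonneg β) (pow_le_one₀ hβ.1 hβ.2) hκ hκ1 hw (by positivity) hM
    (by positivity) hρw h2 h10
  have h12 := mul_le_mul_of_nonneg_left h11 hk'.le
  rw [← mul_div_assoc, mul_div_right_comm] at h12
  linarith

lemma quad_B1 (β : ℝ) (W : Mx n) {p : V n} (hp : Cb p) (v : V n) :
    v ⬝ᵥ B1 (β • W) (β ^ 2) p *ᵥ v = β * (v ⬝ᵥ W *ᵥ v) - β ^ 2 * avg (DD p) * (v ⬝ᵥ v) +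
      2 * β ^ 2 / n * (p ⬝ᵥ v) ^ 2 := by
  have e : (fun i => dd p i ^ 2) = DD p := funext (dd_sq hp)
  have e2 : v ⬝ᵥ vecMulVec p p *ᵥ v = (p ⬝ᵥ v) ^ 2 := by
    rw [vmv_mulVec, dotProduct_smul, smul_eq_mul, dotProduct_comm v p, sq]
  rw [B1, B0, e, add_mulVec, sub_mulVec, dotProduct_add, dotProduct_sub, smul_mulVec, smul_mulVec,
    smul_mulVec, one_mulVec, dotProduct_smul, dotProduct_smul, dotProduct_smul, e2]
  simp only [smul_eq_mul]

lemma quad_NN (B : Mx n) (d u : V n) :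
    u ⬝ᵥ NN B d *ᵥ u = u ⬝ᵥ u - (d * u) ⬝ᵥ B *ᵥ (d * u) := by
  have e : diagonal d *ᵥ u = d * u := funext fun i => mulVec_diagonal d u i
  rw [NN, sub_mulVec, one_mulVec, dotProduct_sub, ← mulVec_mulVec, ← mulVec_mulVec, e,
    dotProduct_mulVec u, ← mulVec_transpose, diagonal_transpose, e]

lemma cb_dot {p : V n} (hp : Cb p) : p ⬝ᵥ p ≤ n := by
  calc p ⬝ᵥ p ≤ ∑ _i : Fin n, (1 : ℝ) := Finset.sum_le_sum fun i _ => by
        have := DD_nonneg hp i
        rw [DD] at this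
        nlinarith
    _ = n := by simp

/-- the set of sites where `p` is far from `m` -/
lemma far_set (M : ℕ) {m p : V n} (hm : Cb m) (hp : Cb p) {ρ : ℝ}
    (h : ((M : ℝ) + 1) ^ 2 * ((p - m) ⬝ᵥ (p - m)) ≤ ρ * n) :
    ∃ S : Finset (Fin n), (S.card : ℝ) ≤ ρ * n ∧
      ∀ i, i ∉ S → |DD p i - DD m i| ≤ 2 / ((M : ℝ) + 1) := by
  classical
  have hM : (0 : ℝ) < (M : ℝ) + 1 := by positivity
  refine ⟨Finset.univ.filter fun i => 1 < ((M : ℝ) + 1) * |p i - m i|, ?_, fun i hi => ?_⟩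
  · refine le_trans ?_ h
    rw [← sum_ite_card, dotProduct, Finset.mul_sum]
    refine Finset.sum_le_sum fun i _ => ?_
    have e : ((M : ℝ) + 1) ^ 2 * ((p - m) i * (p - m) i) = (((M : ℝ) + 1) * |p i - m i|) ^ 2 := by
      rw [mul_pow, sq_abs, Pi.sub_apply, sq (p i - m i)]
    rw [e]
    split_ifs with h1
    · exact one_le_pow₀ (Finset.mem_filter.1 h1).2.le
    · positivity
  · simp only [Finset.mem_filter, Finset.mem_univ, true_and, not_lt] at hi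
    have e : DD p i - DD m i = -((p i - m i) * (p i + m i)) := by simp only [DD]; ring
    rw [e, abs_neg, abs_mul, le_div_iff₀ hM]
    have h1 : |p i + m i| ≤ 2 := (abs_add_le _ _).trans (by linarith [hm i, hp i])
    have h2 := mul_le_mul hi h1 (abs_nonneg _) zero_le_one
    linarith

lemma avg_close (M : ℕ) {m p : V n} (hm : Cb m) (hp : Cb p) {ρ : ℝ} (hn : 0 < n)
    {S : Finset (Fin n)} (hS : (S.card : ℝ) ≤ ρ * n)
    (h : ∀ i, i ∉ S → |DD p i - DD m i| ≤ 2 / ((M : ℝ) + 1)) :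
    |avg (DD p) - avg (DD m)| ≤ 2 * (1 / ((M : ℝ) + 1)) + ρ := by
  have hn' : (0 : ℝ) < n := Nat.cast_pos.2 hn
  rw [avg, avg, ← sub_div, abs_div, abs_of_pos hn', div_le_iff₀ hn', ← Finset.sum_sub_distrib]
  refine (Finset.abs_sum_le_sum_abs _ _).trans ?_
  have h2 : (0 : ℝ) ≤ 2 / ((M : ℝ) + 1) := by positivity
  calc ∑ i, |DD p i - DD m i| ≤ ∑ i, (2 / ((M : ℝ) + 1) + if i ∈ S then (1 : ℝ) else 0) := by
        refine Finset.sum_le_sum fun i _ => ?_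
        split_ifs with h1
        · have := DD_nonneg hm i; have := DD_nonneg hp i
          have := DD_le_one m i; have := DD_le_one p i
          have : |DD p i - DD m i| ≤ 1 := abs_le.2 ⟨by linarith, by linarith⟩
          linarith
        · linarith [h i h1]
    _ ≤ _ := by
        rw [Finset.sum_add_distrib, sum_ite_card, Finset.sum_const, Finset.card_univ,
          Fintype.card_fin, nsmul_eq_mul, add_mul, mul_one_div, mul_comm (n : ℝ)]
        linarith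

lemma fin_num {b w l ρ L0 uu q s x y a a0 P vv : ℝ} (hb : 0 ≤ b) (hb1 : b ≤ 1) (hl : 0 ≤ l)
    (hρ : 0 ≤ ρ) (hlw : 9 * l ≤ w) (hρw : 20 * ρ ≤ w) (hvv : 0 ≤ vv) (hP : 0 ≤ P)
    (h1 : w * vv ≤ -(q - s) + b * a0 * vv + L0 * P) (h2 : s ≤ uu) (h3 : a0 - a ≤ 2 * l + ρ)
    (h4 : x ≤ 2 * P + 2 * (ρ * vv)) (hy : y = 2 * b * x) :
    w / 2 * vv ≤ uu - (q - b * a * vv + y - (L0 + 4) * P) := by
  have h5 : b * (a0 - a) ≤ 2 * l + ρ :=
    (mul_le_mul_of_nonneg_left h3 hb).trans (mul_le_of_le_one_left (by positivity) hb1)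
  have h6 := mul_le_mul_of_nonneg_right h5 hvv
  have h7 : b * x ≤ 2 * P + 2 * (ρ * vv) :=
    (mul_le_mul_of_nonneg_left h4 hb).trans (mul_le_of_le_one_left (by positivity) hb1)
  have h8 : (2 * l + 5 * ρ) * vv ≤ w / 2 * vv := mul_le_mul_of_nonneg_right (by linarith) hvv
  nlinarith

lemma pos_num {g uu vv z : ℝ} (hg : 0 < g) (h1 : g * vv ≤ z) (h2 : uu - 5 * vv ≤ z) :
    g / (g + 5) * uu ≤ z := by
  rw [div_mul_eq_mul_div, div_le_iff₀ (by linarith)]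
  nlinarith

/-- **deterministic part of (U2)** -/
theorem u2_det {β κ w ρ : ℝ} (hβ : β ∈ Icc (0 : ℝ) 1) (hκ : 0 < κ) (hκ1 : κ ≤ 1)
    (hw : w = κ ^ 2 / 64) {M k : ℕ} (hM : 9 * (1 / ((M : ℝ) + 1)) ≤ w) (hk : 0 < k) (hρ : 0 ≤ ρ)
    (hρw : 20 * (k * ρ) ≤ w) (hn : 0 < n) {W : Mx n} (hW : opn W ≤ 3)
    (hG : Good1 W β (κ / 4) w M k) {m : V n} (hm : Cb m)
    (h2 : β ^ 2 * avg (fun i => DD m i ^ 2) ≤ 1 - κ) :
    ∃ U : Fin (k + 1) → V n, OZ U ∧ ∀ p : V n, Cb p →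
      ((M : ℝ) + 1) ^ 2 * ((p - m) ⬝ᵥ (p - m)) ≤ ρ * n →
      |avg (DD p) - avg (DD m)| ≤ w ∧ Pos (w / 2 / (w / 2 + 5))
        (NN (B1 (β • W) (β ^ 2) p -
          (((M : ℝ) + 5) ^ 2 / w + ((M : ℝ) + 5) + w + 4) • pm U) (dd p)) := by
  have hn' : (0 : ℝ) < n := Nat.cast_pos.2 hn
  have hk1 : (1 : ℝ) ≤ k := by exact_mod_cast hk
  have hw0 : 0 < w := by rw [hw]; positivity
  have hkρ : ρ ≤ k * ρ := le_mul_of_one_le_left hρ hk1
  have hb1 : β ^ 2 ≤ 1 := pow_le_one₀ hβ.1 hβ.2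
  rcases greedy (fun v : V n => m ⬝ᵥ v = 0 ∧ ∃ S : Finset (Fin n), (S.card : ℝ) ≤ ρ * n ∧
    v ⬝ᵥ AS β W M m S *ᵥ v < 2 * w) k with ⟨u, hu, hb⟩ | ⟨u, hu, hb, hv⟩
  · exact (no_frame hβ hκ hκ1 hw hM hk hρ (by linarith) hn hG hm h2 hu fun a => (hb a).2).elim
  have hU : OZ (Fin.cons (unitv m) u : Fin (k + 1) → V n) := by
    refine ⟨fun i => ?_, cons_orth hu.2 fun j => ?_⟩
    · rcases Fin.eq_zero_or_eq_succ i with rfl | ⟨i, rfl⟩
      · exact unitv_cases m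
      · simpa using hu.1 i
    · rcases hb j with h | h
      · rw [h, zero_dotProduct]
      · rw [unitv, dotProduct_smul, dotProduct_comm, h.1, smul_zero]
  refine ⟨_, hU, fun p hp hpm => ?_⟩
  set U : Fin (k + 1) → V n := Fin.cons (unitv m) u with hUd
  obtain ⟨S, hS, hS'⟩ := far_set M hm hp hpm
  have hav := avg_close M hm hp hn hS hS'
  refine ⟨hav.trans (by linarith), fun x => ?_⟩
  set v : V n := dd p * x with hvd
  have h1 := penalty hU hw0 (opn_AS hβ hW M hm S) (fun y hy hy' => by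
    by_contra hlt
    refine hv y hy (fun j => by simpa [hUd] using hy' j.succ) ⟨?_, S, hS, not_le.1 hlt⟩
    have h0 : unitv m ⬝ᵥ y = 0 := by simpa [hUd] using hy' 0
    rw [← len_smul_unitv m, smul_dotProduct, h0, smul_zero]) v
  rw [quad_AS, qf] at h1
  have h3 : ∑ i, 1 / gD M (jS M m S i) * v i ^ 2 ≤ x ⬝ᵥ x := by
    refine Finset.sum_le_sum fun i _ => ?_
    have h4 : DD p i ≤ gD M (jS M m S i) := by
      rw [jS]
      split_ifs with h5
      · rw [gD_last]; exact DD_le_one p i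
      · exact le_rd M (DD_le_one p i) (by linarith [(abs_le.1 (hS' i h5)).2])
    rw [hvd, Pi.mul_apply, mul_pow, dd_sq hp, ← mul_assoc, ← sq, one_div_mul_eq_div]
    exact mul_le_of_le_one_left (sq_nonneg _) (div_le_one_of_le₀ h4 (gD_pos M _).le)
  have hvv := dot_self_nonneg v
  have hP : 0 ≤ ∑ j, (U j ⬝ᵥ v) ^ 2 := Finset.sum_nonneg fun j _ => sq_nonneg _
  have h4 : (p ⬝ᵥ v) ^ 2 / n ≤ 2 * ∑ j, (U j ⬝ᵥ v) ^ 2 + 2 * (ρ * (v ⬝ᵥ v)) := by
    have e1 : p ⬝ᵥ v = m ⬝ᵥ v + (p - m) ⬝ᵥ v := by rw [sub_dotProduct]; ring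
    have a1 : (m ⬝ᵥ v) ^ 2 ≤ n * ∑ j, (U j ⬝ᵥ v) ^ 2 := by
      have e2 : m ⬝ᵥ v = len m * (U 0 ⬝ᵥ v) := by
        conv_lhs => rw [← len_smul_unitv m]
        rw [smul_dotProduct, smul_eq_mul, hUd, Fin.cons_zero]
      rw [e2, mul_pow, len_sq]
      exact mul_le_mul (cb_dot hm) (Finset.single_le_sum (f := fun j => (U j ⬝ᵥ v) ^ 2)
        (fun j _ => sq_nonneg _) (Finset.mem_univ 0)) (sq_nonneg _) hn'.le
    have a2 : ((p - m) ⬝ᵥ v) ^ 2 ≤ ρ * n * (v ⬝ᵥ v) := by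
      refine (Eig.dot_sq_le _ _).trans (mul_le_mul_of_nonneg_right (le_trans ?_ hpm) hvv)
      exact le_mul_of_one_le_left (dot_self_nonneg _)
        (one_le_pow₀ (by linarith [(Nat.cast_nonneg M : (0 : ℝ) ≤ M)]))
    rw [div_le_iff₀ hn', e1]
    nlinarith [sq_nonneg (m ⬝ᵥ v - (p - m) ⬝ᵥ v)]
  have h5 := fin_num (a := avg (DD p)) (sq_nonneg β) hb1 (by positivity) hρ hM (by linarith) hvv hP h1 h3
    (by linarith [(abs_le.1 hav).1]) h4 (y := 2 * β ^ 2 / n * (p ⬝ᵥ v) ^ 2) (by ring)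
  rw [quad_NN, ← hvd, sub_mulVec, dotProduct_sub, quad_B1 β W hp, smul_mulVec, dotProduct_smul,
    quad_pm, smul_eq_mul]
  refine pos_num (by positivity) h5 ?_
  have a1 : β * (v ⬝ᵥ W *ᵥ v) ≤ 3 * (v ⬝ᵥ v) := by
    have a2 := (abs_le.1 (Eig.abs_quad_le W v)).2
    have a3 := mul_le_mul_of_nonneg_right hW hvv
    have a4 := mul_le_mul_of_nonneg_left (a2.trans a3) hβ.1
    exact a4.trans (mul_le_of_le_one_left (by positivity) hβ.2)
  have a2 : 2 * β ^ 2 / n * (p ⬝ᵥ v) ^ 2 ≤ 2 * (v ⬝ᵥ v) := by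
    have a3 := (Eig.dot_sq_le p v).trans (mul_le_mul_of_nonneg_right (cb_dot hp) hvv)
    have a4 : (p ⬝ᵥ v) ^ 2 / n ≤ v ⬝ᵥ v := by rw [div_le_iff₀ hn', mul_comm]; exact a3
    have a5 : β ^ 2 * ((p ⬝ᵥ v) ^ 2 / n) ≤ v ⬝ᵥ v :=
      (mul_le_of_le_one_left (by positivity) hb1).trans a4
    calc _ = 2 * (β ^ 2 * ((p ⬝ᵥ v) ^ 2 / n)) := by ring
      _ ≤ _ := by linarith
  have a3 : 0 ≤ β ^ 2 * avg (DD p) * (v ⬝ᵥ v) :=
    mul_nonneg (mul_nonneg (sq_nonneg β) (avg_DD_mem hp).1) hvv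
  have a4 : 0 ≤ (((M : ℝ) + 5) ^ 2 / w + ((M : ℝ) + 5) + w + 4) * ∑ j, (U j ⬝ᵥ v) ^ 2 := by
    positivity
  linarith

/-- the event of `(U2)`, with an orthogonal projection -/
def Ev (W : Mx n) (β κ c L ρ : ℝ) (r : ℕ) : Prop :=
  ∀ m : V n, Cb m → β ^ 2 * avg (fun i => DD m i ^ 2) ≤ 1 - κ → ∃ U : Fin r → V n, OZ U ∧
    ∀ p : V n, Cb p → nrm (p - m) ≤ ρ * Real.sqrt n →
      |avg (DD p) - avg (DD m)| ≤ κ / 2 ∧ Pos c (NN (B1 (β • W) (β ^ 2) p - L • pm U) (dd p))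

/-- **(U2)** with an exponentially small failure probability -/
theorem u2_tail {κ : ℝ} (hκ : 0 < κ) : ∃ c > (0 : ℝ), ∃ L ≥ (0 : ℝ), ∃ r : ℕ, ∃ ρ > (0 : ℝ),
    c ≤ κ / 2 ∧ ∀ β ∈ Icc (0 : ℝ) 1, ∀ n : ℕ, 0 < n →
      (GOE n).real {W | ¬ Ev W β κ c L ρ r} ≤ 3 * Real.exp (-(n / 4)) := by
  set κ' := min κ 1 with hκ'
  have h0 : 0 < κ' := lt_min hκ one_pos
  have h1 : κ' ≤ 1 := min_le_right _ _
  have h2 : κ' ≤ κ := min_le_left _ _
  set w := κ' ^ 2 / 64 with hw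
  have hw0 : 0 < w := by positivity
  have hwκ : w ≤ κ / 2 := by rw [hw]; nlinarith
  obtain ⟨M, hM⟩ := exists_nat_ge (9 / w)
  have hM' : 9 * (1 / ((M : ℝ) + 1)) ≤ w := by
    rw [mul_one_div, div_le_iff₀ (by positivity)]
    rw [div_le_iff₀ hw0] at hM
    nlinarith
  obtain ⟨k, hk⟩ := exists_nat_ge (4 * (Real.log ((M : ℝ) + 1) + 1) / w ^ 2)
  have hlog : 0 ≤ Real.log ((M : ℝ) + 1) :=
    Real.log_nonneg (by linarith [(Nat.cast_nonneg M : (0 : ℝ) ≤ M)])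
  have hk0 : (0 : ℝ) < k := lt_of_lt_of_le (by positivity) hk
  have hk' : 0 < k := Nat.cast_pos.1 hk0
  refine ⟨w / 2 / (w / 2 + 5), by positivity, ((M : ℝ) + 5) ^ 2 / w + ((M : ℝ) + 5) + w + 4,
    by positivity, k + 1, Real.sqrt (w / (20 * k)) / ((M : ℝ) + 1), by positivity, ?_,
    fun β hβ n hn => ?_⟩
  · rw [div_le_iff₀ (by positivity)]; nlinarith
  have hn' : (0 : ℝ) < n := Nat.cast_pos.2 hn
  have a1 := good1_tail (n := n) hβ (τ := κ' / 4) (by linarith) hw0.le M hk' hn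
  have a2 := Nrm.goe_opn_tail_n (n := n) (t := 1) zero_le_one
  have a3 : ((M : ℝ) + 1) ^ n * Real.exp (-(k * w ^ 2 * n / 4)) ≤ Real.exp (-(n / 4)) := by
    rw [← Real.exp_log (by positivity : (0 : ℝ) < (M : ℝ) + 1), ← Real.exp_nat_mul, ← Real.exp_add,
      Real.exp_le_exp]
    rw [div_le_iff₀ (by positivity)] at hk
    nlinarith
  have a4 : {W : Mx n | ¬ Ev W β κ (w / 2 / (w / 2 + 5))
      (((M : ℝ) + 5) ^ 2 / w + ((M : ℝ) + 5) + w + 4)
      (Real.sqrt (w / (20 * k)) / ((M : ℝ) + 1)) (k + 1)} ⊆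
      {W | ¬ Good1 W β (κ' / 4) w M k} ∪ {W | 2 + 1 ≤ opn W} := by
    intro W hW
    by_contra hc
    simp only [mem_union, mem_ofPred_eq, not_or, not_not, not_le] at hc
    refine hW fun m hm hm2 => ?_
    obtain ⟨U, hU, h⟩ := u2_det hβ h0 h1 hw hM' hk' (ρ := w / (20 * k)) (by positivity)
      (le_of_eq (by field_simp)) hn (by linarith [hc.2]) hc.1 hm (by linarith)
    refine ⟨U, hU, fun p hp hpm => ?_⟩
    have b1 : ((M : ℝ) + 1) ^ 2 * ((p - m) ⬝ᵥ (p - m)) ≤ w / (20 * k) * n := by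
      have b2 := pow_le_pow_left₀ (nrm_nonneg _) hpm 2
      rw [nrm_sq, mul_pow, div_pow, Real.sq_sqrt (by positivity), Real.sq_sqrt hn'.le,
        div_mul_eq_mul_div, le_div_iff₀ (by positivity)] at b2
      linarith
    exact ⟨(h p hp b1).1.trans hwκ, (h p hp b1).2⟩
  have a5 := (measureReal_mono (μ := GOE n) a4).trans (measureReal_union_le _ _)
  rw [one_pow, mul_one] at a2
  linarith

theorem u2_whp {κ : ℝ} (hκ : 0 < κ) : ∃ c > (0 : ℝ), ∃ L ≥ (0 : ℝ), ∃ r : ℕ, ∃ ρ > (0 : ℝ),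
    c ≤ κ / 2 ∧ ∀ β ∈ Icc (0 : ℝ) 1, Top.Whp GOE fun _ W => Ev W β κ c L ρ r := by
  obtain ⟨c, hc, L, hL, r, ρ, hρ, hcκ, h⟩ := u2_tail hκ
  refine ⟨c, hc, L, hL, r, ρ, hρ, hcκ, fun β hβ => ?_⟩
  refine Top.whp_of_real_le (a := fun n : ℕ => 3 * Real.exp (-((n : ℝ) / 4))) ?_
    ((eventually_gt_atTop 0).mono fun n hn => h β hβ n hn)
  have h1 : Tendsto (fun n : ℕ => (n : ℝ) / 4) atTop atTop :=
    tendsto_natCast_atTop_atTop.atTop_div_const (by norm_num)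
  simpa using (Real.tendsto_exp_neg_atTop_nhds_zero.comp h1).const_mul 3

lemma OZ.pen {r : ℕ} {U : Fin r → V n} (hU : OZ U) (L : ℝ) : Lp.Pen r L (L • pm U) := by
  refine ⟨U, fun j => ?_, rfl⟩
  rcases hU.1 j with h | h
  · exact h.le
  · simp [h]

theorem u2Stmt : Lp.U2Stmt := by
  intro β hβ k1 hk1
  obtain ⟨c, hc, L, hL, r, ρ, hρ, hcκ, h⟩ := u2_whp hk1
  refine ⟨c, hc, L, hL, r, ρ, hρ, (h β ⟨hβ.1.le, hβ.2⟩).imp fun n W hW m hm hm1 => ?_⟩
  have hb1 : β ^ 2 ≤ 1 := pow_le_one₀ hβ.1.le hβ.2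
  have h1 : avg (fun i => DD m i ^ 2) ≤ avg (DD m) :=
    div_le_div_of_nonneg_right (Finset.sum_le_sum fun i _ => by
      rw [sq]; exact mul_le_of_le_one_right (DD_nonneg hm i) (DD_le_one m i)) (Nat.cast_nonneg n)
  have h2 : 0 ≤ avg (fun i => DD m i ^ 2) :=
    div_nonneg (Finset.sum_nonneg fun i _ => sq_nonneg _) (Nat.cast_nonneg n)
  obtain ⟨U, hU, h3⟩ := hW m hm ((mul_le_of_le_one_left h2 hb1).trans (h1.trans hm1))
  refine ⟨_, hU.pen L, fun p hp hpm => ⟨(h3 p hp hpm).2, ?_⟩⟩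
  have h4 := (abs_le.1 (h3 p hp hpm).1).2
  have h5 := mul_le_of_le_one_left (avg_DD_mem hp).1 hb1
  linarith

end Crest.Agent.T157.U2

end
end

-- ▼ part T157/LpUfE_14

/-!
# Row 157, part A: `UfEStmt`, `DetEStmt` and `Tap.DETStmt` from robust uniform freeness (helper14)
-/

set_option autoImplicit false

noncomputable section

namespace Crest.Agent.T157.Lp

open MeasureTheory ProbabilityTheory Matrix Filter Set Topology
open Crest.Agent.T157.E Crest.Agent.T157.Eig Crest.Agent.T157.Cond Crest.Agent.T157.Tap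
open Crest.Agent.T157.Kr (fro fro_nonneg)
open Crest.Agent.T157.Tap.Uf14
open scoped MatrixOrder

namespace E14

variable {n : ℕ}

lemma det_le_exp {M : Mx n} (hM : M.PosSemidef) : M.det ≤ Real.exp (M.trace - n) := by
  have hH := hM.1
  rw [hH.det_eq_prod_eigenvalues, hH.trace_eq_sum_eigenvalues]
  simp only [RCLike.ofReal_real_eq_id, id]
  have : ∑ i, hH.eigenvalues i - n = ∑ i : Fin n, (hH.eigenvalues i - 1) := by simp
  rw [this, Real.exp_sum]
  refine Finset.prod_le_prod (fun i _ => hM.eigenvalues_nonneg i) fun i _ => ?_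
  linarith [Real.add_one_le_exp (hH.eigenvalues i - 1)]

lemma det_le_det_mul_exp {G M : Mx n} (hG : G.PosSemidef) (hdet : G.det ≠ 0) (hM : M.PosSemidef) :
    M.det ≤ G.det * Real.exp ((G⁻¹ * M).trace - n) := by
  obtain ⟨B, hB⟩ := CStarAlgebra.nonneg_iff_eq_star_mul_self.mp hG.nonneg
  have hB' : G = Bᵀ * B := by
    rw [hB, Matrix.star_eq_conjTranspose, Matrix.conjTranspose_eq_transpose_of_trivial]
  have hdetG : G.det = B.det ^ 2 := by
    rw [hB', Matrix.det_mul, Matrix.det_transpose]; ring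
  have hBdet : B.det ≠ 0 := by
    intro h0
    apply hdet
    rw [hdetG, h0]; ring
  have hN := hM.conjTranspose_mul_mul_same B⁻¹
  rw [Matrix.conjTranspose_eq_transpose_of_trivial] at hN
  have h1 := det_le_exp hN
  have h2 : (B⁻¹ᵀ * M * B⁻¹).trace = (G⁻¹ * M).trace := by
    rw [Matrix.mul_assoc, Matrix.trace_mul_comm, Matrix.mul_assoc, Matrix.trace_mul_comm, hB',
      Matrix.mul_inv_rev, Matrix.transpose_nonsing_inv]
  have h3 : (B⁻¹ᵀ * M * B⁻¹).det = M.det / G.det := by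
    rw [Matrix.det_mul, Matrix.det_mul, Matrix.det_transpose, Matrix.det_nonsing_inv,
      Ring.inverse_eq_inv', hdetG]
    field_simp
  rw [h2, h3] at h1
  have hGpos : 0 < G.det := by rw [hdetG]; positivity
  rw [div_le_iff₀ hGpos] at h1
  linarith

lemma psd {c : ℝ} (hc : 0 < c) {M : Mx n} (hs : Mᵀ = M) (h : Pos c M) : M.PosSemidef :=
  Matrix.PosSemidef.of_dotProduct_mulVec_nonneg (herm_iff.2 hs) fun x => by
    rw [star_trivial]
    exact (mul_nonneg hc.le (Cond.dot_self_nonneg x)).trans (h x)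

/-- the path of matrices -/
def Nt (X : Mx n) (d : V n) (θ : ℝ) : Mx n := NN (B0 (θ • X) (θ ^ 2) d) d

lemma Nt_eq (X : Mx n) (d : V n) (θ : ℝ) : Nt X d θ = 1 - θ • (diagonal d * X * diagonal d) +
    (θ ^ 2 * avg fun i => d i ^ 2) • (diagonal d * diagonal d) := by
  unfold Nt NN B0
  simp only [Matrix.mul_sub, Matrix.sub_mul, Matrix.mul_smul, Matrix.smul_mul, Matrix.mul_one]
  abel

lemma Nt_symm {X : Mx n} (hX : Xᵀ = X) (d : V n) (θ : ℝ) : (Nt X d θ)ᵀ = Nt X d θ :=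
  Uf.NN_symm (by simp [B0, hX]) d

lemma opn_D {d : V n} (hd : Ub d) : opn (diagonal d) ≤ 1 := Uf.opn_diag_le hd

lemma Nt_pos {X : Mx n} {d : V n} (hd : Ub d) {β c τ : ℝ} (h : Pos c (Nt X d β))
    (ha : β ^ 2 * avg (fun i => d i ^ 2) ≤ 1 - c) (h0 : 0 ≤ τ) (h1 : τ ≤ 1) :
    Pos c (Nt X d (τ * β)) := by
  intro u
  have hu := h u
  rw [Nt_eq] at hu ⊢
  simp only [add_mulVec, sub_mulVec, one_mulVec, smul_mulVec, dotProduct_add, dotProduct_sub,
    dotProduct_smul, smul_eq_mul] at hu ⊢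
  have hδ : u ⬝ᵥ (diagonal d * diagonal d) *ᵥ u ≤ u ⬝ᵥ u := by
    have := (le_abs_self _).trans (abs_quad_le (diagonal d * diagonal d) u)
    have h2 := mul_le_mul_of_nonneg_right (opn_mul_le' (opn_D hd) (opn_D hd))
      (Cond.dot_self_nonneg u)
    linarith
  have hu0 := Cond.dot_self_nonneg u
  have hb0 : 0 ≤ β ^ 2 * avg fun i => d i ^ 2 := mul_nonneg (sq_nonneg _) (avg_sq_le hd).1
  generalize u ⬝ᵥ (diagonal d * diagonal d) *ᵥ u = δ at *
  generalize u ⬝ᵥ (diagonal d * X * diagonal d) *ᵥ u = y at *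
  generalize u ⬝ᵥ u = s at *
  generalize avg (fun i => d i ^ 2) = a at *
  have h3 : τ * (β ^ 2 * a) * δ ≤ (1 - c) * s := by
    have h4 : τ * (β ^ 2 * a) ≤ 1 - c := (mul_le_of_le_one_left hb0 h1).trans ha
    exact (mul_le_mul_of_nonneg_left hδ (mul_nonneg h0 hb0)).trans
      (mul_le_mul_of_nonneg_right h4 hu0)
  have h5 := mul_le_mul_of_nonneg_left h3 (sub_nonneg.2 h1)
  have h6 := mul_le_mul_of_nonneg_left hu h0
  nlinarith

lemma step {X : Mx n} (hX : Xᵀ = X) {d : V n} (hd : Ub d) {c θ θ' K : ℝ} (hc : 0 < c) (h0 : 0 < θ)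
    (h1 : θ ≤ θ') (h2 : θ' ≤ 1) (p : Pos c (Nt X d θ)) (p' : Pos c (Nt X d θ'))
    (t1 : |(B0 (θ • X) (θ ^ 2) d * GG (B0 (θ • X) (θ ^ 2) d) d).trace| ≤ K)
    (t2 : θ * |(GG (B0 (θ • X) (θ ^ 2) d) d).trace - n * avg fun i => d i ^ 2| ≤ K) :
    (Nt X d θ').det ≤ (Nt X d θ).det *
      Real.exp ((θ' - θ) * (θ' * n * avg (fun i => d i ^ 2) ^ 2 + 2 * K / θ)) := by
  have hu := Pos.unit hc p
  refine (det_le_det_mul_exp (psd hc (Nt_symm hX d θ) p) hu.ne_zero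
    (psd hc (Nt_symm hX d θ') p')).trans (mul_le_mul_of_nonneg_left (Real.exp_le_exp.2 ?_)
      (psd hc (Nt_symm hX d θ) p).det_nonneg)
  obtain ⟨a0, a1⟩ := avg_sq_le hd
  set a := avg fun i => d i ^ 2 with ha
  set G := GG (B0 (θ • X) (θ ^ 2) d) d with hG
  have hG' : G = diagonal d * (Nt X d θ)⁻¹ * diagonal d := rfl
  have e1 : Nt X d θ' = Nt X d θ - (θ' - θ) • (diagonal d * X * diagonal d) +
      ((θ' ^ 2 - θ ^ 2) * a) • (diagonal d * diagonal d) := by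
    rw [Nt_eq, Nt_eq, sub_mul, sub_smul, sub_smul]
    abel
  have e2 : ((Nt X d θ)⁻¹ * (diagonal d * X * diagonal d)).trace = (X * G).trace := by
    rw [hG', ← Matrix.mul_assoc, trace_mul_comm, ← Matrix.mul_assoc, ← Matrix.mul_assoc,
      trace_mul_comm]
  have e3 : ((Nt X d θ)⁻¹ * (diagonal d * diagonal d)).trace = G.trace := by
    rw [hG', ← Matrix.mul_assoc, trace_mul_comm, ← Matrix.mul_assoc]
  have e4 : (B0 (θ • X) (θ ^ 2) d * G).trace = θ * (X * G).trace - θ ^ 2 * a * G.trace := by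
    unfold B0
    rw [Matrix.sub_mul, Matrix.smul_mul, Matrix.smul_mul, Matrix.one_mul, trace_sub, trace_smul,
      trace_smul, smul_eq_mul, smul_eq_mul]
  rw [e1, Matrix.mul_add, Matrix.mul_sub, nonsing_inv_mul _ hu, Matrix.mul_smul, Matrix.mul_smul,
    trace_add, trace_sub, trace_smul, trace_smul, trace_one, Fintype.card_fin, e2, e3, smul_eq_mul,
    smul_eq_mul]
  rw [e4] at t1
  have b1 := (abs_le.1 t1).1
  have b2 : θ * (G.trace - n * a) ≤ K := (mul_le_mul_of_nonneg_left (le_abs_self _) h0.le).trans t2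
  have hK : 0 ≤ K := (abs_nonneg _).trans t1
  have b3 : -(X * G).trace + (θ' + θ) * a * G.trace ≤ θ' * n * a ^ 2 + 2 * K / θ := by
    refine le_of_mul_le_mul_left ?_ h0
    have h5 : θ * (2 * K / θ) = 2 * K := by field_simp
    have h6 : θ' * a ≤ 1 := mul_le_one₀ h2 a0 a1
    have h7 := mul_le_mul_of_nonneg_left b2 (mul_nonneg (h0.le.trans h1) a0)
    have h8 := mul_le_mul_of_nonneg_right h6 hK
    rw [mul_add θ (θ' * n * a ^ 2), h5]
    linarith
  have := mul_le_mul_of_nonneg_left b3 (sub_nonneg.2 h1)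
  linarith

lemma det_path {X : Mx n} (hX : Xᵀ = X) {d : V n} (hd : Ub d) {β c K κ : ℝ} (hc : 0 < c)
    (hβ : β ∈ Ioc (0 : ℝ) 1) (hκ : opn X ≤ κ) (p : Pos c (Nt X d β))
    (ha : β ^ 2 * avg (fun i => d i ^ 2) ≤ 1 - c)
    (t : ∀ θ ∈ Icc (0 : ℝ) 1, θ ^ 2 * avg (fun i => d i ^ 2) ≤ 1 - c → Pos c (Nt X d θ) →
      |(B0 (θ • X) (θ ^ 2) d * GG (B0 (θ • X) (θ ^ 2) d) d).trace| ≤ K ∧
      θ * |(GG (B0 (θ • X) (θ ^ 2) d) d).trace - n * avg fun i => d i ^ 2| ≤ K)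
    {m : ℕ} (hm : 0 < m) :
    (Nt X d β).det ≤ Real.exp (n * (β ^ 2 * avg (fun i => d i ^ 2) ^ 2 / 2 + (κ + 2) / m) +
      2 * K * m) := by
  have hm' : (0 : ℝ) < m := by exact_mod_cast hm
  have hm1 : (1 : ℝ) ≤ m := by exact_mod_cast hm
  have hn0 : (0 : ℝ) ≤ n := Nat.cast_nonneg n
  have hκ0 : 0 ≤ κ := (opn_nonneg _).trans hκ
  obtain ⟨a0, a1⟩ := avg_sq_le hd
  have hK : 0 ≤ K := (abs_nonneg _).trans (t β ⟨hβ.1.le, hβ.2⟩ ha p).1
  set a := avg fun i => d i ^ 2 with ha_def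
  set h := β / m with hh
  have h0 : 0 < h := div_pos hβ.1 hm'
  have hmh : m * h = β := by rw [hh]; field_simp
  have hpos : ∀ x : ℝ, 0 ≤ x → x ≤ m → Pos c (Nt X d (x * h)) ∧ x * h ≤ β := fun x x0 x1 => by
    have e : x * h = x / m * β := by rw [hh]; ring
    refine ⟨e ▸ Nt_pos hd p ha (by positivity) (div_le_one_of_le₀ x1 hm'.le), ?_⟩
    rw [← hmh]
    exact mul_le_mul_of_nonneg_right x1 h0.le
  have hind : ∀ j : ℕ, j + 1 ≤ m → (Nt X d ((j + 1) * h)).det ≤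
      Real.exp (n * (κ + 1) * h + h ^ 2 * n * a ^ 2 * ((j + 1) * (j + 2) / 2) + 2 * K * (j + 1)) := by
    intro j hj
    induction j with
    | zero =>
      obtain ⟨q, q1⟩ := hpos 1 zero_le_one hm1
      simp only [Nat.cast_zero, zero_add]
      refine (det_le_exp (psd hc (Nt_symm hX d _) q)).trans (Real.exp_le_exp.2 ?_)
      rw [one_mul] at q1 ⊢
      have h1 : h ≤ 1 := q1.trans hβ.2
      rw [Nt_eq, trace_add, trace_sub, trace_one, Fintype.card_fin, trace_smul, trace_smul,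
        smul_eq_mul, smul_eq_mul]
      have b1 := (abs_le.1 (Uf.abs_trace_le (opn_mul_le' (opn_mul_le' (opn_D hd) hκ) (opn_D hd)))).1
      have b2 := (abs_le.1 (Uf.abs_trace_le (opn_mul_le' (opn_D hd) (opn_D hd)))).2
      have b3 := mul_le_mul_of_nonneg_left b1 h0.le
      have b4 : h ^ 2 * a ≤ h := by nlinarith [mul_le_one₀ h1 a0 a1]
      have b5 := mul_le_mul_of_nonneg_left b2 (show 0 ≤ h ^ 2 * a by positivity)
      have b6 := mul_le_mul_of_nonneg_right b4 hn0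
      have b7 : 0 ≤ h ^ 2 * n * a ^ 2 := by positivity
      linarith
    | succ j ih =>
      have hj' : ((j : ℝ) + 1) + 1 ≤ m := by exact_mod_cast hj
      have hj0 : (0 : ℝ) ≤ j := Nat.cast_nonneg j
      obtain ⟨q, q1⟩ := hpos (j + 1) (by positivity) (by linarith)
      obtain ⟨q', q1'⟩ := hpos (j + 1 + 1) (by positivity) hj'
      have θ0 : 0 < ((j : ℝ) + 1) * h := by positivity
      have hle : (((j : ℝ) + 1) * h) ^ 2 * a ≤ 1 - c :=
        (mul_le_mul_of_nonneg_right (pow_le_pow_left₀ θ0.le q1 2) a0).trans ha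
      obtain ⟨t1, t2⟩ := t _ ⟨θ0.le, q1.trans hβ.2⟩ hle q
      have s := step hX hd hc θ0 (by nlinarith) (q1'.trans hβ.2) q q' t1 t2
      push_cast
      refine s.trans ((mul_le_mul_of_nonneg_right (ih (Nat.le_of_succ_le hj))
        (Real.exp_pos _).le).trans ?_)
      rw [← Real.exp_add, Real.exp_le_exp]
      have e : (((j : ℝ) + 1 + 1) * h - (j + 1) * h) * ((j + 1 + 1) * h * n * a ^ 2 +
          2 * K / ((j + 1) * h)) = (j + 2) * (h ^ 2 * n * a ^ 2) + 2 * K / (j + 1) := by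
        field_simp
        ring
      rw [e]
      have : 2 * K / ((j : ℝ) + 1) ≤ 2 * K := div_le_self (by positivity) (by linarith)
      linarith
  obtain ⟨j, rfl⟩ : ∃ j, m = j + 1 := ⟨m - 1, by omega⟩
  have := hind j le_rfl
  push_cast at hmh hm' hm1 hh ⊢
  rw [hmh] at this
  refine this.trans (Real.exp_le_exp.2 ?_)
  have e : h ^ 2 * n * a ^ 2 * (((j : ℝ) + 1) * (j + 2) / 2) =
      n * (β ^ 2 * a ^ 2 / 2) + n * (β * a ^ 2 / 2 * h) := by rw [← hmh]; ring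
  have b1 : h ≤ 1 / ((j : ℝ) + 1) := by rw [hh]; exact div_le_div_of_nonneg_right hβ.2 hm'.le
  have b2 : β * a ^ 2 / 2 ≤ 1 := by
    nlinarith [mul_le_one₀ hβ.2 (sq_nonneg a) (pow_le_one₀ a0 a1)]
  have b3 : (κ + 1) * h + β * a ^ 2 / 2 * h ≤ (κ + 2) / ((j : ℝ) + 1) := by
    have := mul_le_mul_of_nonneg_right b2 h0.le
    have h3 := mul_le_mul_of_nonneg_left b1 (show 0 ≤ κ + 2 by positivity)
    rw [mul_one_div] at h3
    linarith
  have b4 := mul_le_mul_of_nonneg_left b3 hn0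
  rw [e]
  linarith

lemma fro_vv (u : V n) : fro (vecMulVec u u) = u ⬝ᵥ u := by
  unfold fro
  rw [Real.sqrt_eq_iff_mul_self_eq (by positivity) (Cond.dot_self_nonneg u), dotProduct,
    Finset.sum_mul_sum]
  exact Finset.sum_congr rfl fun i _ => Finset.sum_congr rfl fun j _ => by
    rw [vecMulVec_apply]; ring

lemma fro_sum_le {σ : Type} (s : Finset σ) (A : σ → Mx n) :
    fro (∑ j ∈ s, A j) ≤ ∑ j ∈ s, fro (A j) :=
  Finset.le_sum_of_subadditive fro fro_zero.le fro_add_le s A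

lemma ub_dd {p : V n} : Ub (dd p) := fun i =>
  ⟨Real.sqrt_nonneg _, Real.sqrt_le_one.2 (by linarith [sq_nonneg (p i)])⟩

lemma avg_dd {p : V n} (hp : Cb p) : avg (fun i => dd p i ^ 2) = avg (DD p) := by
  congr 1
  funext i
  exact Real.sq_sqrt (by nlinarith [hp i, sq_abs (p i), abs_nonneg (p i)])

/-- the penalised interaction is a bulk interaction of a nearby matrix -/
lemma pert {β L : ℝ} {r : ℕ} (hβ : β ∈ Ioc (0 : ℝ) 1) (hL : 0 ≤ L) (W : Mx n) {p : V n} (hp : Cb p)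
    {E : Mx n} (hE : Pen r L E) : ∃ X : Mx n, fro (X - W) ≤ (2 + L * r) / β ∧ (Wᵀ = W → Xᵀ = X) ∧
      B1 (β • W) (β ^ 2) p - E = B0 (β • X) (β ^ 2) (dd p) := by
  obtain ⟨u, hu, rfl⟩ := hE
  refine ⟨W + β⁻¹ • ((2 * β ^ 2 / n) • vecMulVec p p - L • ∑ j, vecMulVec (u j) (u j)), ?_,
    fun hW => ?_, ?_⟩
  · rw [add_sub_cancel_left, fro_smul, abs_of_pos (inv_pos.2 hβ.1), div_eq_inv_mul (2 + L * r)]
    refine mul_le_mul_of_nonneg_left ((fro_sub_le _ _).trans (add_le_add ?_ ?_)) (inv_pos.2 hβ.1).le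
    · rw [fro_smul, fro_vv, abs_of_nonneg (by positivity)]
      have h1 : p ⬝ᵥ p ≤ n := by
        have := Finset.sum_le_card_nsmul Finset.univ (fun i => p i * p i) 1 fun i _ => by
          nlinarith [hp i, abs_mul_abs_self (p i), abs_nonneg (p i)]
        simpa [dotProduct] using this
      have h2 : p ⬝ᵥ p / n ≤ 1 := div_le_one_of_le₀ h1 (Nat.cast_nonneg n)
      have h3 : β ^ 2 ≤ 1 := pow_le_one₀ hβ.1.le hβ.2
      have h4 := mul_le_one₀ h3 (div_nonneg (Cond.dot_self_nonneg p) (Nat.cast_nonneg n)) h2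
      calc 2 * β ^ 2 / n * (p ⬝ᵥ p) = 2 * (β ^ 2 * (p ⬝ᵥ p / n)) := by ring
        _ ≤ 2 := by linarith
    · rw [fro_smul, abs_of_nonneg hL]
      refine mul_le_mul_of_nonneg_left ((fro_sum_le _ _).trans ?_) hL
      have := Finset.sum_le_card_nsmul Finset.univ (fun j => fro (vecMulVec (u j) (u j))) 1
        fun j _ => (fro_vv _).trans_le (hu j)
      simpa using this
  · simp [hW, transpose_sum]
  · unfold B1 B0
    rw [smul_add, smul_smul, mul_inv_cancel₀ hβ.1.ne', one_smul]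
    abel

lemma whp_symm : Top.Whp GOE fun _ W => Wᵀ = W := by
  refine tendsto_const_nhds.congr fun n => ?_
  exact (goe_ae_symm (ι := Fin n) _).symm

lemma whp_opn3 : Top.Whp GOE fun _ W => opn W ≤ 3 :=
  Top.whp_of_real_le (a := fun n : ℕ => 2 * Real.exp (-(n * (1 / 4))))
    (by simpa using (tend_exp (show (0 : ℝ) < 1 / 4 by norm_num)).const_mul 2)
    (Eventually.of_forall fun _ => opn_tail)

lemma ev_sqrt (K : ℝ) {ε : ℝ} (hε : 0 < ε) : ∀ᶠ n : ℕ in atTop, K ≤ ε * √n :=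
  ((Real.tendsto_sqrt_atTop.comp tendsto_natCast_atTop_atTop).const_mul_atTop hε).eventually_ge_atTop K

end E14

open E14 in
theorem ufEStmt : UfEStmt := by
  intro β hβ c hc L hL r ε hε
  obtain ⟨K, hK, h⟩ := ufR hc ((2 + L * r) / β)
  refine h.mono ?_
  filter_upwards [ev_sqrt K hε, ev_sqrt K (mul_pos hβ.1 hε)] with n h1 h2 W hW p E hp ha hE hpos
  obtain ⟨X, hX, -, e⟩ := pert hβ hL W hp hE
  rw [e] at hpos ⊢
  rw [← avg_dd hp] at ha ⊢
  obtain ⟨a1, -, -, a4⟩ := hW X hX β ⟨hβ.1.le, hβ.2⟩ _ ub_dd ha hpos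
  refine ⟨a1.trans h1, le_of_mul_le_mul_left (a4.trans ?_) hβ.1⟩
  have h3 := mul_le_mul_of_nonneg_right h2 (Real.sqrt_nonneg (n : ℝ))
  rw [mul_assoc, Real.mul_self_sqrt (Nat.cast_nonneg n), mul_assoc] at h3
  exact h3

open E14 in
theorem detEStmt : DetEStmt := by
  intro β hβ c hc L hL r ε hε
  obtain ⟨K, hK, h⟩ := ufR hc ((2 + L * r) / β)
  set κ := 3 + (2 + L * r) / β with hκ
  have hκ0 : 0 ≤ κ := by have := hβ.1; positivity
  obtain ⟨m, hm⟩ := exists_nat_gt ((κ + 2) / (ε / 2))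
  have hm0 : (0 : ℝ) < m := lt_of_le_of_lt (by positivity) hm
  refine ((h.and whp_symm).and whp_opn3).mono ?_
  filter_upwards [ev_sqrt (2 * K * m) (half_pos hε)] with n h1 W hW p E hp ha hE hpos
  obtain ⟨X, hX, hs, e⟩ := pert hβ hL W hp hE
  rw [e] at hpos ⊢
  rw [← avg_dd hp] at ha ⊢
  have hop : opn X ≤ κ := by
    have h4 := opn_add_le (X - W) W
    rw [sub_add_cancel] at h4
    linarith [opn_le_sqrt_frob (X - W), show √(∑ i, ∑ j, (X - W) i j ^ 2) ≤ _ from hX, hW.2]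
  have key := det_path (hs hW.1.2) ub_dd hc hβ hop hpos ha (K := K * √n)
    (fun θ hθ h2 h3 => (hW.1.1 X hX θ hθ _ ub_dd h2 h3).2.2) (m := m) (by exact_mod_cast hm0)
  refine (abs_of_nonneg (psd hc (Nt_symm (hs hW.1.2) _ β) hpos).det_nonneg).trans_le
    (key.trans (Real.exp_le_exp.2 ?_))
  have h2 : (κ + 2) / m ≤ ε / 2 := by
    rw [div_lt_iff₀ (half_pos hε)] at hm
    rw [div_le_iff₀ hm0]
    linarith
  have h3 := mul_le_mul_of_nonneg_right h1 (Real.sqrt_nonneg (n : ℝ))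
  rw [mul_assoc (ε / 2), Real.mul_self_sqrt (Nat.cast_nonneg n)] at h3
  have h4 := mul_le_mul_of_nonneg_left h2 (Nat.cast_nonneg (α := ℝ) n)
  linarith

namespace E14

/-- removing a finite-rank penalty changes the determinant by a bounded factor -/
lemma det_remove {n r : ℕ} {B E : Mx n} {d : V n} (hd : Ub d) {c L : ℝ} (hc : 0 < c) (hL : 0 ≤ L)
    (hE : Pen r L E) (hp : Pos c (NN (B - E) d)) :
    |(NN B d).det| ≤ |(NN (B - E) d).det| * (r.factorial * (1 + L / c) ^ r) := by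
  obtain ⟨u, hu, hE⟩ := hE
  set U : Matrix (Fin n) (Fin r) ℝ := Matrix.of fun i j => L * u j i with hU
  set P : Matrix (Fin r) (Fin n) ℝ := Matrix.of fun j i => u j i with hP
  have hUP : E = U * P := by
    rw [hE]
    ext i k
    simp [hU, hP, Matrix.mul_apply, Matrix.sum_apply, vecMulVec_apply, Finset.mul_sum, mul_assoc]
  have hu' := Pos.unit hc hp
  have e : NN B d = NN (B - E) d *
      (1 - ((NN (B - E) d)⁻¹ * diagonal d * U) * (P * diagonal d)) := by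
    rw [Matrix.mul_sub, Matrix.mul_one, ← Matrix.mul_assoc, ← Matrix.mul_assoc, ← Matrix.mul_assoc,
      ← Matrix.mul_assoc, mul_nonsing_inv _ hu', Matrix.one_mul, Matrix.mul_assoc _ U, ← hUP]
    unfold NN
    rw [Matrix.mul_sub, Matrix.sub_mul]
    abel
  rw [e, det_mul, abs_mul, det_one_sub_mul_comm]
  refine mul_le_mul_of_nonneg_left ?_ (abs_nonneg _)
  have h := Matrix.det_le (A := 1 - P * diagonal d * ((NN (B - E) d)⁻¹ * diagonal d * U))
    (abv := AbsoluteValue.abs) (x := 1 + L / c) fun j k => by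
      have e2 : P * diagonal d * ((NN (B - E) d)⁻¹ * diagonal d * U) = P * (GG (B - E) d * U) := by
        unfold GG
        simp only [Matrix.mul_assoc]
      have e3 : (P * (GG (B - E) d * U)) j k = L * (u j ⬝ᵥ GG (B - E) d *ᵥ u k) := by
        simp only [hU, hP, Matrix.mul_apply, Matrix.of_apply, dotProduct, mulVec, Finset.mul_sum]
        exact Finset.sum_congr rfl fun i _ => Finset.sum_congr rfl fun l _ => by ring
      rw [e2, AbsoluteValue.abs_apply, Matrix.sub_apply, e3]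
      refine (abs_sub _ _).trans (add_le_add ?_ ?_)
      · rw [Matrix.one_apply]; split_ifs <;> simp
      · rw [abs_mul, abs_of_nonneg hL, div_eq_mul_one_div]
        refine mul_le_mul_of_nonneg_left ((abs_bil_le _ _ _).trans ?_) hL
        have n1 : ∀ j, nrm (u j) ≤ 1 := fun j => Real.sqrt_le_one.2 (hu j)
        calc _ ≤ 1 / c * 1 := mul_le_mul (Uf.opn_GG_le hc hd hp)
              (mul_le_one₀ (n1 j) (nrm_nonneg _) (n1 k))
              (mul_nonneg (nrm_nonneg _) (nrm_nonneg _)) (by positivity)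
          _ = _ := mul_one _
  simpa using h

end E14

end Crest.Agent.T157.Lp

namespace Crest.Agent.T157.Tap

open Matrix Filter Set Crest.Agent.T157.Eig Crest.Agent.T157.Lp Crest.Agent.T157.Lp.E14

theorem detStmt14 : DETStmt := by
  intro β hβ c hc ε hε
  rcases hβ.1.eq_or_lt with rfl | hβ0
  · refine Top.whp_of_eventually (Eventually.of_forall fun n W p _ _ => ?_)
    have : NN (B1 ((0 : ℝ) • W) (0 ^ 2) p) (dd p) = 1 := by simp [NN, B1, B0]
    rw [this, det_one, abs_one]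
    exact Real.one_le_exp (by positivity)
  obtain ⟨c', hc', L, hL, r, ρ, hρ, hU⟩ := U2.u2Stmt β ⟨hβ0, hβ.2⟩ c hc
  refine (hU.and (detEStmt β ⟨hβ0, hβ.2⟩ c' hc' L hL r (ε / 2) (half_pos hε))).mono ?_
  filter_upwards [(tendsto_natCast_atTop_atTop.atTop_mul_const (half_pos hε)).eventually_ge_atTop
    ((r.factorial : ℝ) * (1 + L / c') ^ r)] with n hn W hW p hp ha
  obtain ⟨E, hE, hG⟩ := hW.1 p hp ha
  obtain ⟨h1, h2⟩ := hG p hp (by rw [sub_self, nrm_eq_zero.2 rfl]; positivity)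
  refine (det_remove ub_dd hc' hL hE h1).trans ((mul_le_mul (hW.2 p E hp h2 hE h1)
    (hn.trans ((le_add_of_nonneg_right zero_le_one).trans (Real.add_one_le_exp _)))
    (by positivity) (Real.exp_pos _).le).trans ?_)
  rw [← Real.exp_add, Real.exp_le_exp]
  linarith

end Crest.Agent.T157.Tap
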