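import Crest.Agent.T157.PlD_37
import Crest.Agent.T157.NrmG_84

/-!
# Row 157, part E: the planted model, E (helper37)

The planted model for the GOE completion `W`: planted matrix `W + (β / n) σ σᵀ`.
-/

set_option autoImplicit false
set_option linter.unusedSectionVars false

noncomputable section

namespace Crest.Agent.T157.Pl

open MeasureTheory ProbabilityTheory Matrix Real Set Filter Topology
open Crest.ProbabilityR.SpinGlassDynamics Crest.Agent.T157.E Crest.Agent.T157.SL
open Crest.Agent.T157.Cond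

lemma markov_log {α : Type*} [MeasurableSpace α] {μ : Measure α} [IsProbabilityMeasure μ] {Y : α → ℝ}
    (h0 : ∀ x, 0 < Y x) (h1 : Integrable Y μ) (h2 : Integrable (fun x => log (Y x)) μ)
    (h3 : ∫ x, Y x ∂μ = 1) {A : ℝ} (hA : 1 < A) :
    μ.real {x | Y x < exp (-A)} ≤ (-∫ x, log (Y x) ∂μ) / (A - 1) := by
  have i1 : Integrable (fun x => Y x - 1) μ := h1.sub (integrable_const 1)
  have h := mul_meas_ge_le_integral_of_nonneg (f := fun x => Y x - 1 - log (Y x)) (.of_forall fun g =>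
    sub_nonneg.2 (log_le_sub_one_of_pos (h0 g))) (i1.sub h2) (A - 1)
  rw [integral_sub i1 h2, integral_sub h1 (integrable_const 1), h3] at h
  rw [le_div_iff₀' (by linarith)]
  refine le_trans (mul_le_mul_of_nonneg_left (measureReal_mono fun g hg => ?_) (by linarith))
    (h.trans_eq (by simp))
  have := (log_lt_iff_lt_exp (h0 g)).2 hg
  have := h0 g
  simp only [mem_ofPred_eq]
  linarith

variable {n : ℕ}

/-- GOE with off-diagonal variance `1 / n` -/
abbrev GO (n : ℕ) : Measure (Matrix (Fin n) (Fin n) ℝ) := goe (Fin n) (1 / √n)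

/-- the features of the Ising weight in the Gaussian coordinates of the GOE -/
def aW (n : ℕ) (β : ℝ) (σ : Cube n) (p : Fin n × Fin n) : ℝ :=
  β / 2 * (√2 * (1 / √n) * (sv σ p.1 * sv σ p.2))

lemma ising_symG (β : ℝ) (x : Fin n × Fin n → ℝ) (h : Fin n → ℝ) :
    ising (β • symG (1 / √n) x) h = rwt (fun σ => exp (h ⬝ᵥ sv σ)) (aW n β) x := by
  funext σ
  rw [ising, rwt, ← exp_add, smul_mulVec, dotProduct_smul, Nrm.quad_symG, add_comm, dotProduct,
    dotProduct, smul_eq_mul, Finset.mul_sum, Finset.mul_sum]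
  congr 2
  exact Finset.sum_congr rfl fun p _ => by rw [aW]; ring

lemma inv_sqrt_mul_self (n : ℕ) : 1 / √n * (1 / √n) = 1 / n := by
  rw [div_mul_div_comm, mul_one, mul_self_sqrt (Nat.cast_nonneg n)]

lemma symG_add_aW (β : ℝ) (x : Fin n × Fin n → ℝ) (σ : Cube n) :
    symG (1 / √n) (x + aW n β σ) = symG (1 / √n) x + (β / n) • vecMulVec (sv σ) (sv σ) := by
  ext i j
  have h2 : (√2 : ℝ) ≠ 0 := by positivity
  simp only [symG, of_apply, Matrix.add_apply, Matrix.smul_apply, vecMulVec_apply, Pi.add_apply, aW,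
    smul_eq_mul]
  rw [div_eq_mul_one_div β (n : ℝ), ← inv_sqrt_mul_self]
  generalize 1 / √(n : ℝ) = s
  field_simp
  ring

lemma MM_aW (β : ℝ) (σ : Cube n) : MM false (aW n β σ) = exp (β ^ 2 * n / 4) := by
  have e : ∀ p, aW n β σ p * aW n β σ p = β ^ 2 / 2 * (1 / n) := fun p => by
    have h1 := spin_mul_self (σ p.1)
    have h2 := spin_mul_self (σ p.2)
    have h3 : (√2 : ℝ) * √2 = 2 := mul_self_sqrt zero_le_two
    rw [← inv_sqrt_mul_self, aW, sv, sv]
    calc _ = β ^ 2 / 4 * (√2 * √2) * (1 / √n * (1 / √n)) * (spin (σ p.1) * spin (σ p.1)) *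
        (spin (σ p.2) * spin (σ p.2)) := by ring
      _ = _ := by rw [h1, h2, h3]; ring
  rw [MM_false, dotProduct]
  simp only [e, Finset.sum_const, Finset.card_univ, Fintype.card_prod, Fintype.card_fin,
    nsmul_eq_mul, Nat.cast_mul]
  congr 1
  rcases Nat.eq_zero_or_pos n with rfl | hn
  · simp
  · have hn' : (0 : ℝ) < n := Nat.cast_pos.2 hn
    field_simp
    ring

/-- `Z / E Z` for the GOE completion -/
def LRW (n : ℕ) (β : ℝ) (W : Matrix (Fin n) (Fin n) ℝ) : ℝ :=
  Zw (ising (β • W) 0) / (2 ^ n * exp (β ^ 2 * n / 4))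

lemma wt_ising (A : Matrix (Fin n) (Fin n) ℝ) (h : Fin n → ℝ) : Wt (ising A h) :=
  .of_pos fun _ => exp_pos _

lemma LRW_pos (β : ℝ) (W : Matrix (Fin n) (Fin n) ℝ) : 0 < LRW n β W :=
  div_pos (wt_ising _ _).pos (by positivity)

lemma measurable_ising {α : Type*} [MeasurableSpace α] {A : α → Matrix (Fin n) (Fin n) ℝ}
    {h : α → Fin n → ℝ} (hA : Measurable A) (hh : Measurable h) (σ : Cube n) :
    Measurable fun a => ising (A a) (h a) σ := by
  unfold ising; fun_prop

lemma measurable_mean_ising {α : Type*} [MeasurableSpace α] {A : α → Matrix (Fin n) (Fin n) ℝ}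
    {h : α → Fin n → ℝ} (hA : Measurable A) (hh : Measurable h) {F : Cube n → α → ℝ}
    (hF : ∀ σ, Measurable (F σ)) : Measurable fun a => mean (ising (A a) (h a)) fun σ => F σ a :=
  Finset.measurable_sum _ fun σ _ => ((measurable_ising hA hh σ).div
    (Finset.measurable_sum _ fun σ _ => measurable_ising hA hh σ)).mul (hF σ)

lemma measurable_LRW (β : ℝ) : Measurable (LRW n β) :=
  (Finset.measurable_sum _ fun σ _ => measurable_ising (by fun_prop) measurable_const σ).div_const _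

lemma measurable_meanW (β : ℝ) {F : Cube n → Matrix (Fin n) (Fin n) ℝ → ℝ}
    (hF : ∀ σ, Measurable (F σ)) : Measurable fun W => mean (ising (β • W) 0) fun σ => F σ W :=
  measurable_mean_ising (by fun_prop) measurable_const hF

lemma mp_symG (n : ℕ) : MeasurePreserving (symG (1 / √n)) (gv (Fin n × Fin n)) (GO n) :=
  ⟨measurable_symG _, rfl⟩

lemma integral_tilted_aW (β : ℝ) (σ : Cube n) {F : Matrix (Fin n) (Fin n) ℝ → ℝ} (hF : Measurable F) :
    ∫ x, F (symG (1 / √n) x) ∂tilted false (aW n β σ) =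
      ∫ W, F (W + (β / n) • vecMulVec (sv σ) (sv σ)) ∂GO n := by
  rw [integral_tilted_false, ← R339.Guerra.mp_int (mp_symG n) (Measurable.aestronglyMeasurable
    (by fun_prop))]
  simp only [symG_add_aW]

lemma integrable_tilted_aW (β : ℝ) (σ : Cube n) {F : Matrix (Fin n) (Fin n) ℝ → ℝ}
    (hF : Integrable (fun W => F (W + (β / n) • vecMulVec (sv σ) (sv σ))) (GO n)) :
    Integrable (fun x => F (symG (1 / √n) x)) (tilted false (aW n β σ)) := by
  rw [integrable_tilted_false]
  simpa only [symG_add_aW, Function.comp_def] using (mp_symG n).integrable_comp_of_integrable hF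

/-- **the planted identity** for the GOE -/
theorem plantedW (β : ℝ) {F : Cube n → Matrix (Fin n) (Fin n) ℝ → ℝ} (hm : ∀ σ, Measurable (F σ))
    (hF : ∀ σ, Integrable (fun W => F σ (W + (β / n) • vecMulVec (sv σ) (sv σ))) (GO n)) :
    ∫ W, LRW n β W * mean (ising (β • W) 0) (fun σ => F σ W) ∂GO n =
      (∑ σ, ∫ W, F σ (W + (β / n) • vecMulVec (sv σ) (sv σ)) ∂GO n) / 2 ^ n := by
  rw [← R339.Guerra.mp_int (mp_symG n) ((measurable_LRW β).fun_mul
    (measurable_meanW β hm)).aestronglyMeasurable]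
  simp only [LRW, div_mul_eq_mul_div, Zw_mul_mean (wt_ising _ _).pos.ne']
  simp only [ising_symG]
  rw [integral_div]
  erw [integral_sum_rwt false _ _ fun σ => integrable_tilted_aW β σ (hF σ)]
  simp only [MM_aW, zero_dotProduct, exp_zero, one_mul, ← Finset.mul_sum,
    integral_tilted_aW β _ (hm _)]
  field_simp

/-- **transfer** for the GOE, function form -/
theorem transferW_mean (β : ℝ) {F : Cube n → Matrix (Fin n) (Fin n) ℝ → ℝ}
    (hm : ∀ σ, Measurable (F σ)) (h0 : ∀ σ W, 0 ≤ F σ W)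
    (hF : ∀ σ, Integrable (fun W => F σ (W + (β / n) • vecMulVec (sv σ) (sv σ))) (GO n))
    {ε η : ℝ} (hε : 0 < ε) (hη : 0 < η) :
    (GO n).real {W | ε ≤ mean (ising (β • W) 0) fun σ => F σ W} ≤
      (GO n).real {W | LRW n β W < η} +
        (∑ σ, ∫ W, F σ (W + (β / n) • vecMulVec (sv σ) (sv σ)) ∂GO n) / 2 ^ n / (ε * η) := by
  have h := transfer_fun false (c := fun σ : Cube n => exp ((0 : Fin n → ℝ) ⬝ᵥ sv σ))
    (fun _ => (exp_pos _).le) (aW n β) (F := fun σ x => F σ (symG (1 / √n) x)) (fun _ _ => h0 _ _)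
    (fun σ => integrable_tilted_aW β σ (hF σ)) hε
    (mul_pos hη (by positivity : (0 : ℝ) < 2 ^ n * exp (β ^ 2 * n / 4)))
  simp only [← ising_symG] at h
  simp only [MM_aW, zero_dotProduct, exp_zero, one_mul, ← Finset.mul_sum,
    integral_tilted_aW β _ (hm _)] at h
  rw [← (mp_symG n).measureReal_preimage (measurableSet_le measurable_const
    (measurable_meanW β hm)).nullMeasurableSet,
    ← (mp_symG n).measureReal_preimage
      (measurableSet_lt (measurable_LRW β) measurable_const).nullMeasurableSet]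
  refine h.trans (add_le_add (measureReal_mono fun x hx => ?_) (le_of_eq (by field_simp)))
  exact (div_lt_iff₀ (by positivity : (0 : ℝ) < 2 ^ n * exp (β ^ 2 * n / 4))).2 hx


lemma ising_Wmat (β : ℝ) (g : Pair n → ℝ) (d : Fin n → ℝ) : ising (β • Wmat n g d) 0 =
    fun x => gibbsWeight n β g x * exp (d ⬝ᵥ fun _ => β / 2 * (√2 / √n)) := by
  rw [Wmat, smul_add, ← diagonal_smul, ising_add_diagonal, gibbsWeight_eq_ising]
  funext x
  congr 2
  rw [dotProduct, Finset.sum_div]
  exact Finset.sum_congr rfl fun i _ => by simp only [Pi.smul_apply, smul_eq_mul]; ring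

lemma prob_ising_Wmat (β : ℝ) (g : Pair n → ℝ) (d : Fin n → ℝ) :
    prob (ising (β • Wmat n g d) 0) = prob (gibbsWeight n β g) := by
  rw [ising_Wmat, prob_smul _ (exp_pos _).ne']

lemma LRW_Wmat (hn : n ≠ 0) (β : ℝ) (g : Pair n → ℝ) (d : Fin n → ℝ) : LRW n β (Wmat n g d) =
    LR false n β g * (exp (d ⬝ᵥ fun _ => β / 2 * (√2 / √n)) / exp (β ^ 2 / 4)) := by
  rw [LRW, LR, ising_Wmat, EZ_false hn, Zw, Zw, ← Finset.sum_mul,
    show β ^ 2 * n / 4 = β ^ 2 * (n - 1) / 4 + β ^ 2 / 4 by ring, exp_add, ← mul_assoc,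
    mul_div_mul_comm]

theorem tail_LRW (hn : n ≠ 0) (β : ℝ) {A : ℝ} (hA : 1 < A) :
    (GO n).real {W | LRW n β W < exp (-A)} ≤ (DD false n β + β ^ 2 / 4) / (A - 1) := by
  have hM : MM false (fun _ : Fin n => β / 2 * (√2 / √n)) = exp (β ^ 2 / 4) := by
    have hn' : (0 : ℝ) < n := Nat.cast_pos.2 (Nat.pos_of_ne_zero hn)
    simp only [MM_false, dotProduct, Finset.sum_const, Finset.card_univ, Fintype.card_fin,
      nsmul_eq_mul]
    rw [mul_mul_mul_comm, div_mul_div_comm √2, mul_self_sqrt zero_le_two, mul_self_sqrt hn'.le]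
    congr 1
    field_simp
    ring
  have i1 := (integrable_exp_dot false fun _ : Fin n => β / 2 * (√2 / √n)).div_const (exp (β ^ 2 / 4))
  have i2 : Integrable (fun d : Fin n → ℝ => (d ⬝ᵥ fun _ => β / 2 * (√2 / √n)) - β ^ 2 / 4) (gv _) :=
    (integrable_finsetSum _ fun i _ => (R339.Guerra.integrable_coord i).mul_const _).sub
      (integrable_const _)
  have e : ∀ p : (Pair n → ℝ) × (Fin n → ℝ), log (LRW n β (Wmat n p.1 p.2)) =
      log (LR false n β p.1) + ((p.2 ⬝ᵥ fun _ => β / 2 * (√2 / √n)) - β ^ 2 / 4) := fun p => by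
    rw [LRW_Wmat hn, ← exp_sub, log_mul (LR_pos _ _ _).ne' (exp_pos _).ne', log_exp]
  have j1 := (integrable_log_LR (n := n) false β).comp_fst (gv (Fin n))
  have j2 := i2.comp_snd (couplingLaw false n)
  rw [← mp_Wmat.measureReal_preimage
    (measurableSet_lt (measurable_LRW β) measurable_const).nullMeasurableSet]
  refine (markov_log (μ := (couplingLaw false n).prod (gv (Fin n)))
    (Y := fun p => LRW n β (Wmat n p.1 p.2)) (fun _ => LRW_pos _ _) ?_ ?_ ?_ hA).trans_eq ?_
  · simp only [LRW_Wmat hn]; exact (integrable_LR false β).mul_prod i1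
  · simp only [e]; exact j1.add j2
  · simp only [LRW_Wmat hn]
    rw [integral_prod_mul (LR false n β) fun d : Fin n → ℝ =>
      exp (d ⬝ᵥ fun _ => β / 2 * (√2 / √n)) / exp (β ^ 2 / 4), integral_LR, integral_div]
    erw [integral_exp_dot false]
    rw [hM, one_mul, div_self (exp_pos _).ne']
  · simp only [e]
    rw [integral_add j1 j2, integral_fun_fst fun g => log (LR false n β g),
      integral_fun_snd fun d : Fin n → ℝ => (d ⬝ᵥ fun _ => β / 2 * (√2 / √n)) - β ^ 2 / 4]
    simp only [dotProduct]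
    rw [integral_sub (integrable_finsetSum _ fun i _ => (R339.Guerra.integrable_coord i).mul_const _)
        (integrable_const _), integral_finsetSum _ fun i _ =>
          (R339.Guerra.integrable_coord i).mul_const _]
    simp only [integral_mul_const, R339.Guerra.integral_coord, DD]
    simp
    ring

theorem tendsto_LRW_lt_exp {β : ℝ} (h0 : 0 ≤ β) (h1 : β ≤ 1) {A : ℕ → ℝ}
    (hA : Tendsto (fun n => A n / log n ^ 2) atTop atTop) :
    Tendsto (fun n => (GO n).real {W | LRW n β W < exp (-A n)}) atTop (𝓝 0) := by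
  refine squeeze_zero' (.of_forall fun _ => measureReal_nonneg) ?_
    (hA.inv_tendsto_atTop.const_mul 4 |>.trans_eq (by simp))
  filter_upwards [hA.eventually_ge_atTop 2, eventually_ge_atTop 3] with n h2 h3
  have hn : (3 : ℝ) ≤ n := by exact_mod_cast h3
  have hl : 1 ≤ log (n : ℝ) := by
    rw [le_log_iff_exp_le (by linarith)]; linarith [exp_one_lt_d9]
  have hl2 : 1 ≤ log (n : ℝ) ^ 2 := one_le_pow₀ hl
  rw [le_div_iff₀ (by positivity)] at h2
  refine (tail_LRW (by omega) β (by linarith)).trans ?_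
  have h4 : log (2 * n : ℝ) ≤ 2 * log n := by
    rw [log_mul two_ne_zero (by linarith)]; linarith [log_le_log two_pos (by linarith : (2 : ℝ) ≤ n)]
  have h5 : log (2 * n : ℝ) ^ 2 ≤ (2 * log n) ^ 2 :=
    pow_le_pow_left₀ (log_nonneg (by linarith)) h4 2
  have h6 := DD_false_le_crit n h0 h1
  have h7 : β ^ 2 ≤ 1 := pow_le_one₀ h0 h1
  rw [Pi.inv_apply, inv_div, ← mul_div_assoc, div_le_div_iff₀ (by linarith) (by linarith)]
  nlinarith [DD_nonneg false n β, sq_nonneg β]

lemma tendsto_rpow_div_log_sq {c : ℝ} (hc : 0 < c) :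
    Tendsto (fun n : ℕ => (n : ℝ) ^ c / log n ^ 2) atTop atTop := by
  have h := ((isLittleO_log_rpow_rpow_atTop 2 hc).tendsto_div_nhds_zero).comp
    tendsto_natCast_atTop_atTop
  have h2 : Tendsto (fun n : ℕ => log n ^ (2 : ℝ) / (n : ℝ) ^ c) atTop (𝓝[>] 0) := by
    refine tendsto_nhdsWithin_iff.2 ⟨h, ?_⟩
    filter_upwards [eventually_ge_atTop 2] with n hn
    have : (1 : ℝ) < n := by exact_mod_cast hn
    exact div_pos (rpow_pos_of_pos (log_pos this) _) (by positivity)
  refine h2.inv_tendsto_nhdsGT_zero.congr fun n => ?_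
  simp

theorem tendsto_LRW_lt_rpow {β : ℝ} (h0 : 0 ≤ β) (h1 : β ≤ 1) {a c : ℝ} (ha : 0 < a) (hc : 0 < c) :
    Tendsto (fun n : ℕ => (GO n).real {W | LRW n β W < exp (-(a * (n : ℝ) ^ c))}) atTop (𝓝 0) :=
  tendsto_LRW_lt_exp h0 h1 (((tendsto_rpow_div_log_sq hc).const_mul_atTop ha).congr fun _ =>
    (mul_div_assoc _ _ _).symm)

theorem tight_LRW {β : ℝ} (h0 : 0 ≤ β) (h1 : β < 1) {ε : ℝ} (hε : 0 < ε) :
    ∃ η > 0, ∀ n ≠ 0, (GO n).real {W | LRW n β W < η} ≤ ε := by
  set C := log (2 / (1 - β ^ 2)) ^ 2 / 4 + 1 / 4 with hCd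
  have hC : 0 < C := by positivity
  refine ⟨exp (-(C / ε + 1)), exp_pos _, fun n hn => (tail_LRW hn β (by
    linarith [div_pos hC hε])).trans ?_⟩
  rw [add_sub_cancel_right, div_le_iff₀ (div_pos hC hε), mul_div_cancel₀ _ hε.ne']
  linarith [DD_false_le n h0 h1, pow_le_one₀ (n := 2) h0 h1.le]

end Crest.Agent.T157.Pl

end
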