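import Crest.Agent.T157.TapWinA_29
import Crest.Agent.T157.LpChild_53_Mg
import Crest.Agent.T157.LpG0_17
import Crest.Agent.T157.TapSE_6
import Crest.Agent.T157.TapAlg_29
import Crest.Agent.T157.PlE_37
import Crest.Agent.T157.LpDef_17
import Crest.Agent.T157.TapEx_80

-- ▼ part T157/TapWinC_29
section

/-!
# Row 157, part A: the window lemma (helper29)
-/

set_option autoImplicit false

noncomputable section

namespace Crest.Agent.T157.SL

open Matrix Filter Set Topology MeasureTheory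
open Crest.Agent.T157.E Crest.Agent.T157.Eig

variable {ι : Type*} [Fintype ι] [DecidableEq ι] {d : ι → Pt ι → ℝ} {h : ℝ} {O K A : Set (ι → ℝ)}
  {G F a : Pt ι → ℝ} {b : ι → Pt ι → ℝ} {Ω : Type*} [Fintype Ω] {φ : Ω → ι → ℝ} {v : Ω → ℝ}

/-- a squared norm with a cutoff -/
theorem LI.cut_sq {κ : Type*} [Fintype κ] {ζ : Pt ι → ℝ} (hζ : LI d h O ζ a b)
    {δ α : κ → Pt ι → ℝ} {β : κ → ι → Pt ι → ℝ} (hδ : ∀ j, LI d h O (δ j) (α j) (β j)) :
    ∃ a' b', LI d h O (fun p => ζ p ^ 2 * ∑ j, δ j p ^ 2) a' b' ∧ ∀ p,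
      2 * ζ p ^ 2 * ∑ j, δ j p * α j p + (2 * ζ p * a p - 3 * ∑ i, b i p ^ 2) * ∑ j, δ j p ^ 2 ≤
        a' p := by
  have h1 := LI.sum Finset.univ fun j _ => (hζ.mul (hδ j)).mul (hζ.mul (hδ j))
  refine ⟨_, _, by
    convert h1 using 2 with p
    rw [Finset.mul_sum]
    exact Finset.sum_congr rfl fun j _ => by ring, fun p => ?_⟩
  rw [Finset.mul_sum, Finset.mul_sum, ← Finset.sum_add_distrib]
  refine Finset.sum_le_sum fun j _ => ?_
  have : -3 * (∑ i, b i p ^ 2) * δ j p ^ 2 ≤ 2 * (ζ p * δ j p) * ∑ i, b i p * β j i p +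
      ∑ i, (b i p * δ j p + ζ p * β j i p) * (b i p * δ j p + ζ p * β j i p) := by
    rw [Finset.mul_sum, Finset.mul_sum, Finset.sum_mul, ← Finset.sum_add_distrib]
    exact Finset.sum_le_sum fun i _ => by nlinarith [sq_nonneg (ζ p * β j i p + 2 * b i p * δ j p)]
  linarith

theorem ex_aff (hv : Wt v) {t κ e0 e1 : ℝ} (hA : MeasurableSet A) (hF : MG fun y => F (t, y)) :
    MG (fun y => κ * F (t, y) + (e0 + e1 * A.indicator (fun _ => (1 : ℝ)) y)) ∧
    ex φ v (fun p => κ * F p + (e0 + e1 * A.indicator (fun _ => (1 : ℝ)) p.2)) t =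
      κ * ex φ v F t + (e0 + e1 * (law φ v t).real A) := by
  have h1 := (mg_ind hA).const_mul e1
  refine ⟨(hF.const_mul κ).add ((MG.const e0).add h1), ?_⟩
  rw [ex_add (hF.const_mul κ) ((MG.const e0).add h1), ex_add (MG.const e0) h1, ex_const_mul,
    ex_const_mul, ex_const hv, ex_ind hv hA]

theorem LI.gron (hv : Wt v) (hI : LI (md φ v) h O G a b) (hO : IsOpen O) (hK : IsCompact K)
    (hKO : K ⊆ O) (z : ∀ p : Pt ι, p.2 ∉ K → G p = 0) (hA : MeasurableSet A) {κ e0 e1 ε : ℝ}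
    (κ0 : 0 ≤ κ) (h0 : 0 ≤ e0) (h1 : 0 ≤ e1) (hε : ∀ t ∈ Icc 0 h, (law φ v t).real A ≤ ε)
    (ha : ∀ p ∈ Ioo 0 h ×ˢ K, -(κ * G p + (e0 + e1 * A.indicator (fun _ => (1 : ℝ)) p.2)) ≤ a p)
    {s : ℝ} (hs : s ∈ Icc 0 h) :
    ex φ v G s ≤ Real.exp (κ * h) * (max (ex φ v G h) 0 + (e0 + e1 * ε) * h) := by
  obtain ⟨hI, hG⟩ := hI.ext0 hO hK hKO z
  have ε0 : 0 ≤ ε := measureReal_nonneg.trans (hε s hs)
  have hsub : Ioo s h ⊆ Ioo 0 h := Ioo_subset_Ioo_left hs.1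
  have := (hI.mono hsub).ex_lower hv hs.1 hs.2 (hG.mono (Icc_subset_Icc_left hs.1))
    (κ := fun _ => κ) (ε := fun _ => e0 + e1 * ε) continuousOn_const continuousOn_const
    (fun _ _ => κ0) (fun _ _ => by positivity) fun r hr => by
      have hr' := hsub hr
      obtain ⟨m1, m2⟩ := ex_aff (φ := φ) (κ := κ) (e0 := e0) (e1 := e1) hv hA
        (hG.mg (Ioo_subset_Icc_self hr'))
      refine le_trans ?_ (ex_mono (G := fun p => -(κ * G p +
        (e0 + e1 * A.indicator (fun _ => (1 : ℝ)) p.2))) hv m1.neg ((hI.eg_a fun i => eg_md hv i).mg hr') fun y => ?_)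
      · rw [ex_neg, m2]
        nlinarith [hε r (Ioo_subset_Icc_self hr')]
      · by_cases hy : y ∈ K
        · simpa [hy] using ha (r, y) ⟨hr', hy⟩
        · have : 0 ≤ A.indicator (fun _ => (1 : ℝ)) y := indicator_nonneg (fun _ _ => zero_le_one) _
          simp only [hy, z (r, y) hy, if_false]
          nlinarith
  simp only [intervalIntegral.integral_const, smul_eq_mul] at this
  refine this.trans (le_trans (mul_le_mul_of_nonneg_left (add_le_add (le_max_left _ 0) le_rfl)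
    (Real.exp_pos _).le) ?_)
  have e : 0 ≤ e0 + e1 * ε := by positivity
  refine mul_le_mul (Real.exp_le_exp.2 (by nlinarith [hs.1])) (add_le_add le_rfl (by nlinarith [hs.1]))
    (add_nonneg (le_max_right _ _) (mul_nonneg (sub_nonneg.2 hs.2) e)) (Real.exp_pos _).le

theorem LI.ex_le (hv : Wt v) (hI : LI (md φ v) h O G a b) (hO : IsOpen O) (hK : IsCompact K)
    (hKO : K ⊆ O) (z : ∀ p : Pt ι, p.2 ∉ K → G p = 0) (hA : MeasurableSet A) {κ e0 e1 ε M : ℝ}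
    (hh : 0 ≤ h) (κ0 : 0 ≤ κ) (h0 : 0 ≤ e0) (h1 : 0 ≤ e1) (M0 : 0 ≤ M)
    (hε : ∀ t ∈ Icc 0 h, (law φ v t).real A ≤ ε) (hF : EG (Icc 0 h) F) (F0 : ∀ p, 0 ≤ F p)
    (hM : ∀ t ∈ Icc 0 h, ex φ v F t ≤ M)
    (ha : ∀ p ∈ Ioo 0 h ×ˢ K, a p ≤ κ * F p + (e0 + e1 * A.indicator (fun _ => (1 : ℝ)) p.2)) :
    ex φ v G h ≤ G (0, 0) + (κ * M + (e0 + e1 * ε)) * h := by
  obtain ⟨hI, hG⟩ := hI.ext0 hO hK hKO z
  have ε0 : 0 ≤ ε := measureReal_nonneg.trans (hε 0 ⟨le_rfl, hh⟩)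
  have := hI.ex_upper hv le_rfl hh hG
    (κ := fun _ => 0) (ε := fun _ => κ * M + (e0 + e1 * ε)) continuousOn_const continuousOn_const
    (fun _ _ => le_rfl) (fun _ _ => by positivity) fun r hr => by
      have hr' := Ioo_subset_Icc_self hr
      obtain ⟨m1, m2⟩ := ex_aff (φ := φ) (κ := κ) (e0 := e0) (e1 := e1) hv hA (hF.mg hr')
      refine le_trans (ex_mono (H := fun p => κ * F p +
        (e0 + e1 * A.indicator (fun _ => (1 : ℝ)) p.2)) hv ((hI.eg_a fun i => eg_md hv i).mg hr) m1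
        fun y => ?_) ?_
      · by_cases hy : y ∈ K
        · simpa [hy] using ha (r, y) ⟨hr, hy⟩
        · have : 0 ≤ A.indicator (fun _ => (1 : ℝ)) y := indicator_nonneg (fun _ _ => zero_le_one) _
          have := F0 (r, y)
          simp only [hy, if_false]
          positivity
      · rw [m2]
        nlinarith [hε r hr', hM r hr']
  simp only [intervalIntegral.integral_const, smul_eq_mul, mul_zero, Real.exp_zero, ex_zero hv] at this
  linarith

end Crest.Agent.T157.SL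

namespace Crest.Agent.T157.Tap

open Matrix Filter Set Topology MeasureTheory
open Crest.Agent.T157.E Crest.Agent.T157.Eig Crest.Agent.T157.SL

variable {n : ℕ}

lemma cb_mag {w : Cube n → ℝ} (hw : Wt w) : Cb (mag w) := fun i =>
  hw.abs_mean_le fun x => by cases h : x i <;> simp [sv, h, Crest.ProbabilityR.SpinGlassDynamics.spin]

/-- closed ball -/
def Kb (n : ℕ) (R : ℝ) : Set (V n) := {z | z ⬝ᵥ z ≤ R ^ 2}
/-- outer shell -/
def Ab (n : ℕ) (R : ℝ) : Set (V n) := {z | R ^ 2 ≤ 2 * (z ⬝ᵥ z)}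

lemma mem_Kb {R : ℝ} (hR : 0 < R) {z : V n} : z ∈ Kb n R ↔ nrm z ≤ R := (nrm_le_iff hR.le).symm

lemma isCompact_Kb {R : ℝ} (hR : 0 < R) : IsCompact (Kb n R) := by
  refine (isCompact_closedBall (0 : V n) R).of_isClosed_subset
    (isClosed_le (by fun_prop) continuous_const) fun z hz => ?_
  rw [mem_closedBall_zero_iff, pi_norm_le_iff_of_nonneg hR.le]
  exact fun i => (abs_apply_le_nrm z i).trans ((mem_Kb hR).1 hz)

lemma measurableSet_Ab (R : ℝ) : MeasurableSet (Ab n R) :=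
  (isClosed_le continuous_const (by fun_prop)).measurableSet

namespace WS

variable (W : WS n) (w : Cube n → ℝ)

/-- the feature map -/
def ph (σ : Cube n) : V n := W.Q *ᵥ sv σ
/-- posterior mean -/
def mg (q : Pt (Fin n)) : V n := mag (pw W.ph w q)
/-- the difference between the mean and the branch -/
def dl (q : Pt (Fin n)) : V n := W.mg w q - W.pp q

lemma Kb_sub : Kb n W.R ⊆ W.O := fun _ hz =>
  ((mem_Kb W.hR).1 hz).trans_lt (by linarith [W.hR])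

lemma md_eq (k : Fin n) (q : Pt (Fin n)) : md W.ph w k q = (W.Q *ᵥ W.mg w q) k :=
  (meanV_dot (pw W.ph w q) sv (W.Q k)).symm

lemma dot_Q (u v : V n) : W.Q *ᵥ u ⬝ᵥ W.Q *ᵥ v = u ⬝ᵥ W.Sg *ᵥ v := by
  rw [Sg, ← W.hQ, ← mulVec_mulVec, dotProduct_mulVec u, vecMul_transpose]

variable {w} {K : ℝ}

lemma nrm_Q_sq (hS : opn W.Sg ≤ K) (u : V n) : nrm (W.Q *ᵥ u) ^ 2 ≤ K * (u ⬝ᵥ u) := by
  rw [nrm_sq, dot_Q]
  exact ((le_abs_self _).trans (abs_quad_le _ _)).trans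
    (mul_le_mul_of_nonneg_right hS (Eig.dot_self_nonneg _))

lemma dl_le (hw : Wt w) (q : Pt (Fin n)) : W.dl w q ⬝ᵥ W.dl w q ≤ 4 * n := by
  have h1 := (cb_mag (hw.post W.ph q.1 q.2)).nrm_le
  have h2 := (W.cb q).nrm_le
  have h3 : nrm (W.dl w q) ≤ 2 * √n := (nrm_sub_le _ _).trans (by simp only [mg, pw]; linarith)
  rw [nrm_le_iff (by positivity), mul_pow, Real.sq_sqrt (Nat.cast_nonneg n)] at h3
  linarith

lemma li_pp (i : Fin n) : LI (md W.ph w) W.h W.O (fun q => W.pp q i)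
    (fun q => (W.Gq q *ᵥ (W.Sg *ᵥ W.dl w q + W.rho q)) i) fun k q => (W.Gq q *ᵥ W.Q k) i := by
  have hc : ∀ {u : Pt (Fin n) → V n}, ContinuousOn u W.U →
      ContinuousOn (fun q => (W.Gq q *ᵥ u q) i) W.U := fun hu =>
    (show Continuous fun a : Mx n × V n => (a.1 *ᵥ a.2) i by fun_prop).comp_continuousOn
      (cont_Gq.prodMk hu)
  refine ⟨fun q => -(W.Gq q *ᵥ W.Yt q) i, fun k q => (W.Gq q *ᵥ W.Hv q k) i,
    continuousOn_pi.1 cont_pp i, (hc cont_Yt).neg, fun k => hc continuousOn_const,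
    fun k => hc (cont_Hv k), fun c c' s hc hs => ?_,
    fun k p hp => hasDerivAt_pi.1 (hasDerivAt_GQ hp.1 hp.2 k) i, fun p _ => ?_⟩
  · refine (hasDerivAt_pi.1 (hasDerivAt_pp hc hs.1 hs.2) i).congr_deriv ?_
    have e : W.Qᵀ *ᵥ c'.2 = ∑ k, c'.2 k • W.Q k := by
      ext j; simp [mulVec, dotProduct, mul_comm]
    rw [e, mulVec_sub, mulVec_sum]
    simp only [mulVec_smul, Pi.sub_apply, Finset.sum_apply, Pi.smul_apply, smul_eq_mul, mul_comm]
    ring
  · simp only [dl, ← gen_pp]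
    simp only [md_eq, Pi.add_apply, Pi.neg_apply, Pi.smul_apply, Finset.sum_apply, smul_eq_mul,
      Finset.sum_add_distrib, Finset.mul_sum, add_assoc]
    congr 2
    exact Finset.sum_congr rfl fun _ _ => by ring

/-- the cut squared distance -/
def FF (w : Cube n → ℝ) (ζ : Pt (Fin n) → ℝ) (q : Pt (Fin n)) : ℝ := ζ q ^ 2 * ∑ j, W.dl w q j ^ 2

lemma FF_eq (ζ : Pt (Fin n) → ℝ) (q : Pt (Fin n)) :
    W.FF w ζ q = ζ q ^ 2 * (W.dl w q ⬝ᵥ W.dl w q) := by simp only [FF, dotProduct, sq]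

lemma md_le (hw : Wt w) (hn : (n : ℝ) ≤ K * W.R ^ 2) (hS : opn W.Sg ≤ K) (q : Pt (Fin n)) :
    nrm (fun i => md W.ph w i q) ≤ K * W.R := by
  have hK := (opn_nonneg _).trans hS
  have h1 := W.nrm_Q_sq hS (W.mg w q)
  have h2 := (cb_mag (hw.post W.ph q.1 q.2)).dot_le
  simp only [md_eq]
  refine (abs_le_of_sq_le_sq' ?_ (mul_nonneg hK W.hR.le)).2
  calc _ ≤ K * (K * W.R ^ 2) := h1.trans (mul_le_mul_of_nonneg_left (h2.trans hn) hK)
    _ = _ := by ring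

/-- Gronwall bound of the cut squared distance -/
theorem gron (hw : Wt w) {ζ a : Pt (Fin n) → ℝ} {b : Fin n → Pt (Fin n) → ℝ} {C ρ ε : ℝ}
    (hζ : Cut (md W.ph w) W.R C ζ a b) (hh : 0 ≤ W.h) (hS : opn W.Sg ≤ K) (hc : 1 / W.c ≤ K)
    (hρ : ∀ q ∈ W.U, nrm (W.rho q) ≤ ρ) (hε : ∀ t ∈ Icc 0 W.h, (law W.ph w t).real (Ab n W.R) ≤ ε)
    {ψ : V n → ℝ} (hψ : MG ψ) (ψ0 : ∀ z, 0 ≤ ψ z)
    (hT : ∀ z, nrm z ≤ W.R → nrm (W.dl w (W.h, z)) ^ 2 ≤ ψ z) :
    EG (Icc 0 W.h) (W.FF w ζ) ∧ ∀ s ∈ Icc 0 W.h, SL.ex W.ph w (W.FF w ζ) s ≤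
      Real.exp (3 * K ^ 2 * W.h) * (slE W.ph w W.h (fun _ z => ψ z) + (ρ ^ 2 + 20 * C * n * ε) * W.h) := by
  have hK := (opn_nonneg _).trans hS
  have hC : 0 ≤ C := (abs_nonneg _).trans (hζ.bd (0, 0) (by simp [sq_nonneg])).1
  obtain ⟨a', b', hI, ha⟩ := (hζ.li W.h W.O).cut_sq fun j =>
    ((ito_mean hw fun x => sv x j).li W.h W.O).sub (W.li_pp j)
  have z : ∀ p : Pt (Fin n), p.2 ∉ Kb n W.R → W.FF w ζ p = 0 := fun p hp => by
    simp [FF, hζ.out p (not_le.1 hp).le]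
  have hG : EG (Icc 0 W.h) (W.FF w ζ) := (hI.ext0 W.isOpen_O (isCompact_Kb W.hR) W.Kb_sub z).2
  refine ⟨hG, fun s hs => (LI.gron (G := W.FF w ζ) hw hI W.isOpen_O (isCompact_Kb W.hR) W.Kb_sub z
    (measurableSet_Ab W.R) (κ := 3 * K ^ 2) (e0 := ρ ^ 2) (e1 := 20 * C * n) (by positivity)
    (by positivity) (by positivity) hε (fun p hp => le_trans ?_ (ha p)) hs).trans ?_⟩
  · have hU : p ∈ W.U := ⟨Ioo_subset_Icc_self hp.1, W.Kb_sub hp.2⟩
    have e1 : ∑ j, W.dl w p j ^ 2 = nrm (W.dl w p) ^ 2 := by rw [nrm_sq]; simp only [dotProduct, sq]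
    have e2 : W.dl w p ⬝ᵥ W.Gq p *ᵥ (W.Sg *ᵥ W.dl w p + W.rho p) ≤
        nrm (W.dl w p) * (K * (K * nrm (W.dl w p) + ρ)) := by
      refine (dot_le _ _).trans (mul_le_mul_of_nonneg_left ((nrm_mulVec_le _ _).trans
        (mul_le_mul ((opn_Gq hU).trans hc) ((nrm_add_le _ _).trans (add_le_add
          ((nrm_mulVec_le _ _).trans ?_) (hρ p hU))) (nrm_nonneg _) hK)) (nrm_nonneg _))
      exact mul_le_mul_of_nonneg_right hS (nrm_nonneg _)
    have e3 := W.dl_le hw p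
    have e4 : -(20 * C * n * (Ab n W.R).indicator (fun _ => (1 : ℝ)) p.2) ≤
        (2 * ζ p * a p - 3 * ∑ i, b i p ^ 2) * nrm (W.dl w p) ^ 2 := by
      by_cases hA : p.2 ∈ Ab n W.R
      · obtain ⟨h1, h2⟩ := hζ.bd p hp.2
        have h3 : -C ≤ ζ p * a p := by
          nlinarith [hζ.nn p, hζ.le p, abs_le.1 h1]
        rw [indicator_of_mem hA, nrm_sq]
        nlinarith [Eig.dot_self_nonneg (W.dl w p)]
      · obtain ⟨-, h1, h2⟩ := hζ.mid p (not_le.1 hA)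
        simp [hA, h1, h2]
    change _ ≤ 2 * ζ p ^ 2 * ∑ j, W.dl w p j * (0 - (W.Gq p *ᵥ (W.Sg *ᵥ W.dl w p + W.rho p)) j) +
      _ * ∑ j, W.dl w p j ^ 2
    simp only [zero_sub, mul_neg, Finset.sum_neg_distrib, FF, e1]
    have e5 : ζ p ^ 2 ≤ 1 := pow_le_one₀ (hζ.nn p) (hζ.le p)
    have e6 := mul_le_mul_of_nonneg_left e2 (sq_nonneg (ζ p))
    have e7 := mul_nonneg (sq_nonneg (ζ p)) (sq_nonneg (K * nrm (W.dl w p) - ρ))
    rw [dotProduct] at e6
    nlinarith [mul_le_mul_of_nonneg_right e5 (sq_nonneg ρ)]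
  · refine mul_le_mul_of_nonneg_left (add_le_add (max_le ?_ (slE_nonneg hw fun _ => ψ0)) le_rfl)
      (Real.exp_pos _).le
    refine ex_mono (H := fun p => ψ p.2) hw (hG.mg ⟨hh, le_rfl⟩) hψ fun y => ?_
    by_cases hy : y ∈ Kb n W.R
    · rw [FF_eq, ← nrm_sq]
      exact (mul_le_of_le_one_left (sq_nonneg _) (pow_le_one₀ (hζ.nn _) (hζ.le _))).trans
        (hT y ((mem_Kb W.hR).1 hy))
    · exact (z _ hy).trans_le (ψ0 y)

lemma ex_FF_zero (hw : Wt w) {ζ a : Pt (Fin n) → ℝ} {b : Fin n → Pt (Fin n) → ℝ} {C : ℝ}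
    (hζ : Cut (md W.ph w) W.R C ζ a b) :
    SL.ex W.ph w (W.FF w ζ) 0 = nrm (mag w - W.pp (0, 0)) ^ 2 := by
  rw [ex_zero hw, FF_eq, (hζ.mid (0, 0) (by simpa using pow_pos W.hR 2)).1, nrm_sq]
  simp only [dl, mg, pw, post_zero, one_pow, one_mul]

/-- the remainder is bounded by the freeness error -/
lemma nrm_rho_le {q : Pt (Fin n)} (hq : q ∈ W.U) (hn : 0 < n) (hb : |W.b q.1| ≤ 1)
    (hS : opn W.Sg ≤ K) (hc : 1 / W.c ≤ K) : nrm (W.rho q) ≤
    nrm (err (W.Bq q) (dd (W.pp q)) (W.b q.1) W.Sg (W.c0 - W.b1 q.1 * avg (DD (W.pp q)))) +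
      2 * K ^ 3 := by
  have hK := (opn_nonneg _).trans hS
  have hG := (opn_Gq hq).trans hc
  have hn1 : (1 : ℝ) ≤ n := Nat.one_le_cast.2 hn
  have e : W.rho q = diagonal (W.pp q) *ᵥ err (W.Bq q) (dd (W.pp q)) (W.b q.1) W.Sg
      (W.c0 - W.b1 q.1 * avg (DD (W.pp q))) +
      (2 * W.b q.1 / n) • ((W.Gq q * W.Sg * W.Gq q) *ᵥ W.pp q) := by
    ext j; simp [rho, mulVec_diagonal]
  rw [e]
  refine (nrm_add_le _ _).trans (add_le_add ((nrm_mulVec_le _ _).trans (mul_le_of_le_one_left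
    (nrm_nonneg _) (opn_diagonal_le zero_le_one (W.cb q)))) ?_)
  have h1 : opn (W.Gq q * W.Sg * W.Gq q) ≤ K * K * K := (opn_mul_le _ _).trans
    (mul_le_mul ((opn_mul_le _ _).trans (mul_le_mul hG hS (opn_nonneg _) hK)) hG (opn_nonneg _)
      (by positivity))
  have h2 : nrm (W.pp q) ≤ n := (W.cb q).nrm_le.trans (Real.sqrt_le_iff.2 ⟨by positivity, by nlinarith⟩)
  have h3 := (nrm_mulVec_le _ _).trans (mul_le_mul h1 h2 (nrm_nonneg _) (by positivity))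
  rw [nrm_smul, abs_div, abs_mul, abs_two, Nat.abs_cast, div_mul_eq_mul_div, div_le_iff₀ (by positivity)]
  nlinarith [mul_le_mul hb h3 (nrm_nonneg _) zero_le_one]

end WS

lemma post_ising {J Q : Mx n} {κ c0 : ℝ} (hQ : Qᵀ * Q = κ • J + c0 • (1 : Mx n)) (y z : V n) (t : ℝ) :
    post (fun σ => Q *ᵥ sv σ) (ising J y) t z =
      fun σ => ising ((1 - κ * t) • J) (y + Qᵀ *ᵥ z) σ * Real.exp (-(t * c0 * n / 2)) := by
  ext σ
  have e1 : Q *ᵥ sv σ ⬝ᵥ Q *ᵥ sv σ = κ * (sv σ ⬝ᵥ J *ᵥ sv σ) + c0 * n := by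
    rw [show Q *ᵥ sv σ ⬝ᵥ Q *ᵥ sv σ = sv σ ⬝ᵥ (Qᵀ * Q) *ᵥ sv σ by
      rw [← mulVec_mulVec, dotProduct_mulVec (sv σ), vecMul_transpose], hQ, add_mulVec, smul_mulVec,
      smul_mulVec, one_mulVec, dotProduct_add, dotProduct_smul, dotProduct_smul, sv_dot_self]
    rfl
  have e2 : z ⬝ᵥ Q *ᵥ sv σ = Qᵀ *ᵥ z ⬝ᵥ sv σ := by rw [dotProduct_mulVec, mulVec_transpose]
  simp only [post, ising, e1, e2, ← Real.exp_add, smul_mulVec, dotProduct_smul, add_dotProduct,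
    smul_eq_mul]
  congr 1
  ring

lemma prob_post_ising {J Q : Mx n} {κ c0 : ℝ} (hQ : Qᵀ * Q = κ • J + c0 • (1 : Mx n)) (y z : V n)
    (t : ℝ) : prob (post (fun σ => Q *ᵥ sv σ) (ising J y) t z) =
      prob (ising ((1 - κ * t) • J) (y + Qᵀ *ᵥ z)) := by
  rw [post_ising hQ, prob_smul _ (Real.exp_pos _).ne']

lemma mag_post_ising {J Q : Mx n} {κ c0 : ℝ} (hQ : Qᵀ * Q = κ • J + c0 • (1 : Mx n)) (y z : V n)
    (t : ℝ) : mag (post (fun σ => Q *ᵥ sv σ) (ising J y) t z) =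
      mag (ising ((1 - κ * t) • J) (y + Qᵀ *ᵥ z)) := by
  ext i
  simp only [mag, meanV, mean, prob_post_ising hQ]

lemma opn_drv {J : Mx n} {κ c0 K : ℝ} (hJ : opn J ≤ K) (hκ : κ ∈ Icc (0 : ℝ) 1) (hc : |c0| ≤ K) :
    opn (κ • J + c0 • (1 : Mx n)) ≤ 2 * K := by
  refine (opn_add_le _ _).trans ?_
  rw [opn_smul, opn_smul, abs_of_nonneg hκ.1]
  nlinarith [mul_le_of_le_one_right (abs_nonneg c0) (opn_one_le (ι := Fin n)), opn_nonneg J, hκ.2]

lemma hasDerivAt_bt (κ b t : ℝ) :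
    HasDerivAt (fun t => (1 - κ * t) ^ 2 * b) (-(2 * κ * (1 - κ * t) * b)) t :=
  (((((hasDerivAt_id' t).const_mul κ).const_sub 1).pow 2).mul_const b).congr_deriv (by ring)

lemma abs_bt_le {κ b t : ℝ} (hb : b ∈ Icc (0 : ℝ) 1) (h0 : 0 ≤ κ * t) (h1 : κ * t ≤ 1) :
    |(1 - κ * t) ^ 2 * b| ≤ 1 := by
  rw [abs_of_nonneg (mul_nonneg (sq_nonneg _) hb.1)]
  exact mul_le_one₀ (pow_le_one₀ (by linarith) (by linarith)) hb.1 hb.2

theorem winStmt (hEx : ExStmt) : WinStmt := by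
  intro c hc K hK
  obtain ⟨C, hC, hcut⟩ := exists_cut
  set K1 := 2 * K + 1 / c with hK1
  have hc' : 0 < 1 / c := by positivity
  have k0 : 0 < K1 := by positivity
  refine ⟨3 * K1 ^ 2 + (K + 2 * K1 ^ 3) ^ 2 + 20 * (C * K1), by positivity, ?_⟩
  intro n J Q b κ c0 h r R ε y0 p0 ψ hn hJ hJK hb hκ hh hκh hc0 hQ hR hnR good ex er hψ ψ0 hT hε x0
    hx0 hy0
  have e : ∀ t : ℝ, J - t • κ • J = (1 - κ * t) • J := fun t => by
    rw [sub_smul, one_smul, smul_smul, mul_comm]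
  let W : WS n := ⟨J, κ • J, Q, fun t => (1 - κ * t) ^ 2 * b, fun t => -(2 * κ * (1 - κ * t) * b),
    c, c0, h, r, R, y0, p0, hc, hJ, by rw [transpose_smul, hJ], hasDerivAt_bt κ b, by fun_prop, hQ,
    hR, fun t ht => e t ▸ good t ht, fun t ht => e t ▸ ex t ht, fun t ht => e t ▸
      ((hEx n _ _ (by rw [transpose_smul, hJ])).2 c r p0 hc (good t ht)).1⟩
  have eJ : ∀ t, W.Jt t = (1 - κ * t) • J := e
  have hw : Wt (ising J y0) := .of_pos fun _ => Real.exp_pos _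
  have hS : opn W.Sg ≤ K1 := (opn_drv hJK hκ hc0).trans (by linarith)
  have hcK : 1 / W.c ≤ K1 := by show 1 / c ≤ _; linarith
  have hnR' : (n : ℝ) ≤ K1 * W.R ^ 2 := hnR.trans (mul_le_mul_of_nonneg_right (by linarith) (sq_nonneg _))
  obtain ⟨ζ, a, bb, hζ⟩ := hcut n _ R K1 hn hR hnR' (W.md_le hw hnR' hS)
  have hρ : ∀ q ∈ W.U, nrm (W.rho q) ≤ K + 2 * K1 ^ 3 := fun q hq => by
    refine (W.nrm_rho_le hq hn (abs_bt_le hb (mul_nonneg hκ.1 hq.1.1)
      ((mul_le_mul_of_nonneg_left hq.1.2 hκ.1).trans hκh)) hS hcK).trans (add_le_add ?_ le_rfl)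
    have := er q.1 hq.1 _ (W.cb q) (WS.spec hq).1.le
    rw [← sub_neg_eq_add c0 (2 * _ * _ * _ * _), ← neg_mul, ← eJ] at this
    exact this
  have := (W.gron hw hζ hh hS hcK hρ hε hψ ψ0 fun z hz => by
    have hq : ((h, z) : Pt (Fin n)) ∈ W.U := ⟨⟨hh, le_rfl⟩, W.Kb_sub ((mem_Kb hR).2 hz)⟩
    have h1 := hT z hz _ (WS.spec hq).1 (eJ h ▸ (WS.spec hq).2)
    rwa [← mag_post_ising hQ] at h1).2 0 ⟨le_rfl, hh⟩
  have hq : ((0, 0) : Pt (Fin n)) ∈ W.U := ⟨⟨le_rfl, hh⟩, W.Kb_sub (by simp [Kb, sq_nonneg])⟩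
  rw [W.ex_FF_zero hw hζ, ← WS.uniq hq hx0.le (by simpa [eJ, W] using hy0)] at this
  have ε0 : 0 ≤ ε := measureReal_nonneg.trans (hε 0 ⟨le_rfl, hh⟩)
  have s0 := slE_nonneg (φ := W.ph) (s := h) hw fun _ => ψ0
  refine this.trans (mul_le_mul (Real.exp_le_exp.2 (mul_le_mul_of_nonneg_right ?_ hh)) ?_
    (by positivity) (Real.exp_pos _).le)
  · nlinarith [sq_nonneg (K + 2 * K1 ^ 3), mul_pos hC k0]
  · rw [add_assoc]
    refine add_le_add le_rfl ?_
    show _ * h ≤ _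
    have h1 : 0 ≤ (3 * K1 ^ 2 + 20 * (C * K1)) * h := by positivity
    have h2 : 0 ≤ (3 * K1 ^ 2 + (K + 2 * K1 ^ 3) ^ 2) * n * h * ε := by positivity
    nlinarith

end Crest.Agent.T157.Tap
end
end

-- ▼ part T157/LpBad_80
section

/-!
# Row 157, part A: `Lp.BadStmt` and `Lp.ZwStmt` (helper80)
-/

set_option autoImplicit false

noncomputable section

namespace Crest.Agent.T157.Lp

open MeasureTheory ProbabilityTheory Matrix Filter Set Topology
open Crest.Agent.T157.E Crest.Agent.T157.Eig Crest.Agent.T157.Tap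

namespace Bad80

variable {n : ℕ}

lemma tendsto_exp_neg {κ : ℝ} (hκ : 0 < κ) :
    Tendsto (fun n : ℕ => Real.exp (-κ * n)) atTop (𝓝 0) :=
  Real.tendsto_exp_atBot.comp (tendsto_natCast_atTop_atTop.const_mul_atTop_of_neg (by linarith))

/-- Markov's inequality for the partition function -/
lemma markov_LRW (β : ℝ) {η : ℝ} (hη : 0 < η) : (GOE n).real {W | η ≤ Pl.LRW n β W} ≤ η⁻¹ := by
  have hA : MeasurableSet {W : Mx n | η ≤ Pl.LRW n β W} :=
    measurableSet_le measurable_const (Pl.measurable_LRW β)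
  set F : Mx n → ℝ := {W : Mx n | η ≤ Pl.LRW n β W}.indicator fun W => (Pl.LRW n β W)⁻¹ with hF
  have hm : Measurable F := (Pl.measurable_LRW β).inv.indicator hA
  have hb : ∀ W, ‖F W‖ ≤ η⁻¹ := fun W => by
    by_cases h : W ∈ {W : Mx n | η ≤ Pl.LRW n β W}
    · rw [hF, indicator_of_mem h, Real.norm_of_nonneg (inv_pos.2 (Pl.LRW_pos _ _)).le]
      exact inv_anti₀ hη h
    · rw [hF, indicator_of_notMem h, norm_zero]; positivity
  have h := Pl.plantedW (n := n) β (F := fun _ => F) (fun _ => hm) fun σ =>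
    (integrable_const η⁻¹).mono' (hm.comp (by fun_prop)).aestronglyMeasurable
      (.of_forall fun W => hb _)
  have e : (fun W => Pl.LRW n β W * mean (ising (β • W) 0) fun _ => F W) =
      {W : Mx n | η ≤ Pl.LRW n β W}.indicator 1 := by
    funext W
    rw [(Pl.wt_ising _ _).mean_const]
    by_cases h : W ∈ {W : Mx n | η ≤ Pl.LRW n β W}
    · rw [hF, indicator_of_mem h, indicator_of_mem h, mul_inv_cancel₀ (Pl.LRW_pos _ _).ne']; rfl
    · rw [hF, indicator_of_notMem h, indicator_of_notMem h, mul_zero]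
  rw [e, integral_indicator_one hA] at h
  rw [h, div_le_iff₀ (by positivity), ← Pl.card_cube, mul_comm, ← nsmul_eq_mul, ← Finset.card_univ,
    ← Finset.sum_const]
  refine Finset.sum_le_sum fun σ _ => (le_abs_self _).trans ?_
  simpa using norm_integral_le_of_norm_le_const (μ := GOE n) (.of_forall fun W => hb
    (W + (β / n) • vecMulVec (sv σ) (sv σ)))

lemma px_le {s : ℝ} {A : Set (V n)} (hA : MeasurableSet A) (σ : Cube n) {B : Set (V n)}
    (hB : MeasurableSet B) (h : ∀ g, s • sv σ + √s • g ∈ A → sv σ * g ∈ B) :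
    SL.px sv s A σ ≤ (gv (Fin n)).real B := by
  have h1 : MeasurePreserving (fun g => sv σ * g) (gv (Fin n)) (gv (Fin n)) :=
    Pl.mp_sign_law false (Pl.isSign_sv σ)
  rw [SL.px, map_measureReal_apply (by fun_prop) hA,
    ← h1.measureReal_preimage hB.nullMeasurableSet]
  exact measureReal_mono h

end Bad80

open Bad80

theorem zwStmt : ZwStmt := by
  intro β _ ε hε
  refine Top.whp_of_real_le (tendsto_exp_neg hε) (.of_forall fun n => ?_)
  refine le_trans (measureReal_mono fun W hW => ?_) ((markov_LRW (n := n) β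
    (Real.exp_pos (ε * n))).trans_eq (by rw [← Real.exp_neg, neg_mul]))
  have h := (Real.lt_log_iff_exp_lt (Pl.wt_ising _ _).pos).1 (not_le.1 hW)
  rw [mem_ofPred_eq, Pl.LRW, le_div_iff₀ (by positivity)]
  refine le_trans (le_of_eq ?_) h.le
  rw [mul_add, Real.exp_add, Real.exp_add, Real.exp_nat_mul, Real.exp_log two_pos, mul_comm]
  congr 3; ring

theorem badStmt : BadStmt := by
  intro t0 ht0
  obtain ⟨a, ha, hl⟩ := SE.lower ht0
  have ha1 : a ≤ 1 := (hl 0 t0 le_rfl).trans ((le_abs_self _).trans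
    (SE.abs_gE_le (SE.abs_tanh_pow_le 2) _ _))
  refine ⟨a / 2, ⟨by positivity, by linarith⟩, fun T => ⟨|T| + 2 * √|T| + 1, by positivity,
    fun ε hε => ?_⟩⟩
  have h0 := ((tendsto_exp_neg (κ := 1 / 2) (by norm_num)).add
    (tendsto_exp_neg (κ := a ^ 2 / 8) (by positivity))).eventually
      (gt_mem_nhds (by simpa using hε : (0 : ℝ) + 0 < ε))
  filter_upwards [h0, eventually_gt_atTop 0] with n hn hn0 v hv s hs
  have hn' : (0 : ℝ) < n := by exact_mod_cast hn0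
  have hs0 : 0 < s := ht0.trans_le hs.1
  have hsT : s ≤ |T| := hs.2.trans (le_abs_self T)
  have hA : MeasurableSet {y : V n | ¬ (nrm y ≤ (|T| + 2 * √|T| + 1) * √n ∧
      a / 2 * n ≤ th y ⬝ᵥ th y)} :=
    ((measurableSet_le continuous_nrm.measurable measurable_const).inter (measurableSet_le
      measurable_const (continuous_th.dotProduct continuous_th).measurable)).compl
  have h1 := SE.nrm_tail n
  have h2 := SE.hoeff_pi (gaussianReal 0 1) hn0 (f := fun z => -Real.tanh (s + √s * z) ^ 2)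
    (by fun_prop) (fun z => by rw [abs_neg]; exact SE.abs_tanh_pow_le 2 _) (t := a / 2)
    (by positivity)
  rw [SL.law_real hv hA]
  refine hv.mean_le fun σ => (px_le hA σ (B := {g | 2 * √n < nrm g} ∪ {ω | a / 2 ≤
    avg (fun i => -Real.tanh (s + √s * ω i) ^ 2) -
      ∫ z, -Real.tanh (s + √s * z) ^ 2 ∂gaussianReal 0 1}) ((measurableSet_lt measurable_const
        continuous_nrm.measurable).union (measurableSet_le measurable_const
          (by unfold avg; fun_prop))) fun g hg => ?_).trans ((measureReal_union_le _ _).trans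
      ((add_le_add h1 h2).trans (le_trans (le_of_eq ?_) hn.le)))
  · have hσ := Pl.isSign_sv σ
    rcases not_and_or.1 hg with hg | hg
    · refine Or.inl (show 2 * √n < nrm (sv σ * g) from lt_of_not_ge fun hc => hg ?_)
      have e : nrm (sv σ * g) = nrm g := by
        unfold nrm; congr 1
        exact Finset.sum_congr rfl fun i _ => by rcases hσ i with e | e <;> simp [e]
      have h3 : nrm (sv σ) ≤ √n := Cb.nrm_le fun i => by rcases hσ i with e | e <;> simp [e]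
      have h4 : √s ≤ √|T| := Real.sqrt_le_sqrt hsT
      rw [e] at hc
      refine (nrm_add_le _ _).trans ?_
      rw [nrm_smul, nrm_smul, abs_of_pos hs0, abs_of_nonneg (Real.sqrt_nonneg _)]
      have h5 := nrm_nonneg g
      have h6 := nrm_nonneg (sv σ)
      calc _ ≤ |T| * √n + √|T| * (2 * √n) := by gcongr
        _ ≤ _ := by nlinarith [Real.sqrt_nonneg (n : ℝ)]
    · refine Or.inr ?_
      have e : th (s • sv σ + √s • g) ⬝ᵥ th (s • sv σ + √s • g) =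
          ∑ i, Real.tanh (s + √s * (sv σ * g) i) ^ 2 := Finset.sum_congr rfl fun i _ => by
        rcases hσ i with e | e
        · simp [th, e, sq]
        · have : -s + √s * g i = -(s + -(√s * g i)) := by ring
          simp only [th, e, sq, Pi.add_apply, Pi.smul_apply, smul_eq_mul, Pi.mul_apply, mul_neg,
            mul_one, neg_mul, one_mul, this, Real.tanh_neg, neg_neg]
      have h5 := hl s s hs.1
      rw [e, not_le, ← div_lt_iff₀ hn'] at hg
      change a / 2 ≤ (∑ i, -Real.tanh (s + √s * (sv σ * g) i) ^ 2) / n -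
        ∫ z, -Real.tanh (s + √s * z) ^ 2 ∂gaussianReal 0 1
      rw [Finset.sum_neg_distrib, integral_neg, neg_div]
      rw [gE] at h5
      linarith
  · congr 2 <;> ring

end Crest.Agent.T157.Lp
end
end

-- ▼ part T157/LpEx_80
section

/-!
# Row 157, part A: existence, inverse Lipschitz bound and concavity for the penalised TAP functional
(helper80)
-/

set_option autoImplicit false

noncomputable section

namespace Crest.Agent.T157.Lp

open Matrix Filter Set Topology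
open Crest.Agent.T157.E Crest.Agent.T157.Eig Crest.Agent.T157.Tap Crest.Agent.T157.Tap.Ex80

namespace Ex80

variable {n : ℕ}

lemma YE_eq (J E : Mx n) (b : ℝ) (p0 x : V n) : YE J b E p0 x = Ymap (J - E) b x - E *ᵥ p0 := by
  simp only [YE, Ymap, sub_mulVec, mulVec_sub]; abel

lemma B1_sub (J E : Mx n) (b : ℝ) (p : V n) : B1 (J - E) b p = B1 J b p - E := by
  simp only [B1, B0]; abel

lemma goodE_iff (J E : Mx n) (b c r : ℝ) (p0 : V n) :
    GoodE J b E c r p0 ↔ GoodB (J - E) b c r p0 := by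
  simp only [GoodE, GoodB, B1_sub]

lemma hb2_eq (t : ℝ) : hb2 t = Real.log 2 - hh (Real.tanh t) := by
  have hc := Real.cosh_pos t
  have e : 1 - Real.tanh t ^ 2 = (Real.cosh t ^ 2)⁻¹ := by
    rw [Real.tanh_eq_sinh_div_cosh]; field_simp; exact Real.cosh_sq_sub_sinh_sq t
  rw [hb2, hh, Real.artanh_tanh, e, Real.log_inv, Real.log_pow, Real.log_mul two_ne_zero hc.ne']
  push_cast; ring

lemma Phi_eq (J : Mx n) (b : ℝ) (y x : V n) : Phi J b y x = n * Real.log 2 - FF J b y (th x) := by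
  simp only [Phi, FF, hb2_eq, Finset.sum_sub_distrib, Finset.sum_const, Finset.card_univ,
    Fintype.card_fin, nsmul_eq_mul, th]
  ring

lemma PhiE_eq (J : Mx n) {E : Mx n} (hE : Eᵀ = E) (b : ℝ) (p0 y x : V n) :
    PhiE J b E p0 y x = Phi (J - E) b (y + E *ᵥ p0) x - 1 / 2 * (p0 ⬝ᵥ E *ᵥ p0) := by
  have e : p0 ⬝ᵥ E *ᵥ th x = th x ⬝ᵥ E *ᵥ p0 := by
    rw [dotProduct_mulVec, ← mulVec_transpose, hE, dotProduct_comm]
  simp only [PhiE, Phi, sub_mulVec, mulVec_sub, dotProduct_sub, sub_dotProduct, add_dotProduct, e,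
    dotProduct_comm (E *ᵥ p0)]
  ring

/-- convexity of the TAP free energy on a good ball -/
lemma FF_convex {J : Mx n} (hJ : Jᵀ = J) {b c r : ℝ} {p0 p q : V n} (hc : 0 < c)
    (hG : GoodB J b c r p0) (hp : Oc p) (hq : Oc q) (hpr : nrm (p - p0) ≤ r)
    (hqr : nrm (q - p0) ≤ r) (y : V n) :
    FF J b y p + (q - p) ⬝ᵥ (Ymap J b (ath p) - y) ≤ FF J b y q := by
  set v := q - p with hv
  have key : ∀ s ∈ Icc (0 : ℝ) 1, HasDerivAt (fun s : ℝ => FF J b y (p + s • v))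
      (v ⬝ᵥ (Ymap J b (ath (p + s • v)) - y)) s := fun s hs => by
    have h := hasDerivAt_FF hJ b y v (hp.seg hq hs)
    rw [← sub_self s] at h
    have h' := h.comp_sub_const s s
    simpa only [← hv, sub_smul, add_assoc, add_sub_cancel] using h'
  obtain ⟨s, hs, he⟩ := exists_hasDerivAt_eq_slope _ _ zero_lt_one
    (fun s hs => (key s hs).continuousAt.continuousWithinAt)
    fun s hs => key s (Ioo_subset_Icc_self hs)
  have hs' := Ioo_subset_Icc_self hs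
  have hm := mono hc hG hp (hp.seg hq hs') hpr ((Tap.Ex80.convex_ball p0 r).add_smul_sub_mem hpr hqr hs')
  rw [← hv, add_sub_cancel_left, ← nrm_mul_self, smul_dotProduct, smul_eq_mul] at hm
  have h0 := nonneg_of_mul_nonneg_right
    ((mul_nonneg hc.le (mul_self_nonneg _)).trans hm) hs.1
  simp only [one_smul, zero_smul, add_zero, sub_zero, div_one, hv, add_sub_cancel] at he
  simp only [dotProduct_sub, ← hv] at h0 he ⊢
  linarith

lemma Phi_concave {J : Mx n} (hJ : Jᵀ = J) {b c r : ℝ} {p0 x x' : V n} (hc : 0 < c)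
    (hG : GoodB J b c r p0) (hx : nrm (th x - p0) ≤ r) (hx' : nrm (th x' - p0) ≤ r) (y : V n) :
    Phi J b y x ≤ Phi J b y x' + (y - Ymap J b x') ⬝ᵥ (th x - th x') := by
  have h := FF_convex hJ hc hG (th_lt x') (th_lt x) hx' hx y
  rw [ath_th, dotProduct_comm, ← neg_sub y, neg_dotProduct] at h
  rw [Phi_eq, Phi_eq]; linarith

end Ex80

open Ex80

theorem exEStmt : ExEStmt := by
  intro n J E b c r p0 hJ hE hc hG
  have hJE : (J - E)ᵀ = J - E := by rw [transpose_sub, hJ, hE]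
  rw [goodE_iff] at hG
  obtain ⟨h1, h2⟩ := (exStmt n (J - E) b hJE).2 c r p0 hc hG
  refine ⟨fun x x' hx hx' => ⟨?_, fun y => ?_⟩, fun x0 y h => ?_⟩
  · rw [YE_eq, YE_eq, sub_sub_sub_cancel_right]; exact h1 x x' hx hx'
  · have := Phi_concave hJE hc hG hx hx' (y + E *ᵥ p0)
    rw [PhiE_eq J hE, PhiE_eq J hE, YE_eq,
      show y - (Ymap (J - E) b x' - E *ᵥ p0) = y + E *ᵥ p0 - Ymap (J - E) b x' by abel]
    linarith
  · rw [YE_eq, show y - (Ymap (J - E) b x0 - E *ᵥ p0) = y + E *ᵥ p0 - Ymap (J - E) b x0 by abel] at h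
    obtain ⟨x, hx, hr⟩ := h2 x0 _ h
    exact ⟨x, by rw [YE_eq, hx, add_sub_cancel_right], hr⟩

end Crest.Agent.T157.Lp
end
end

-- ▼ part T157/LpWin_29

/-!
# Row 157, part A: the general window lemma with the value inequality (helper29)
-/

set_option autoImplicit false

noncomputable section

namespace Crest.Agent.T157.Tap

open Matrix Filter Set Topology MeasureTheory
open Crest.Agent.T157.E Crest.Agent.T157.Eig Crest.Agent.T157.SL Crest.Agent.T157.Lp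

variable {n : ℕ}

lemma hasDerivAt_hb2 (t : ℝ) : HasDerivAt hb2 (-(t * (1 - Real.tanh t ^ 2))) t := by
  have h := Real.cosh_pos t
  refine ((((Real.hasDerivAt_cosh t).const_mul 2).log (by positivity)).sub
    ((hasDerivAt_id' t).mul (hasDerivAt_tanh' t))).congr_deriv ?_
  rw [Real.tanh_eq_sinh_div_cosh]
  field_simp
  ring

lemma continuous_hb2 : Continuous hb2 :=
  continuous_iff_continuousAt.2 fun t => (hasDerivAt_hb2 t).continuousAt

lemma abs_logZ_le {Ω : Type*} [Fintype Ω] {w l : Ω → ℝ} (hw : Wt w) {B : ℝ} (h : ∀ x, |l x| ≤ B) :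
    |Real.log (Zw fun x => w x * Real.exp (l x)) - Real.log (Zw w)| ≤ B := by
  have h1 : 0 < Zw fun x => w x * Real.exp (l x) := (hw.mul_pos fun _ => Real.exp_pos _).pos
  have h0 : 0 < Zw w := hw.pos
  rw [← Real.log_div h1.ne' h0.ne', abs_le, Real.le_log_iff_exp_le (by positivity),
    Real.log_le_iff_le_exp (by positivity), Zw, Zw, ← mean_eq_div]
  exact ⟨hw.le_mean fun x => Real.exp_le_exp.2 (abs_le.1 (h x)).1,
    hw.mean_le fun x => Real.exp_le_exp.2 (abs_le.1 (h x)).2⟩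

namespace WS

variable (W : WS n)

/-- the TAP value on the branch -/
def Ph (q : Pt (Fin n)) : ℝ := Phi (W.Jt q.1) (W.b q.1) (W.y0 + W.Qᵀ *ᵥ q.2) (W.xi q)
/-- its time derivative -/
def Pg (q : Pt (Fin n)) : ℝ :=
  -(W.pp q ⬝ᵥ W.S *ᵥ W.pp q) / 2 + n * W.b1 q.1 * avg (DD (W.pp q)) ^ 2 / 4
/-- the value process -/
def XX (w : Cube n → ℝ) (q : Pt (Fin n)) : ℝ :=
  Real.log (Zw (pw W.ph w q)) - W.Ph q + q.1 * (W.c0 * n / 2)
/-- the remainder of the value identity -/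
def rv (q : Pt (Fin n)) : ℝ := (W.Sg * W.Gq q).trace / 2 - W.c0 * n * avg (DD (W.pp q)) / 2 +
  n * W.b1 q.1 * avg (DD (W.pp q)) ^ 2 / 4

variable {W} {w : Cube n → ℝ} {K : ℝ}

lemma cont_Ph : ContinuousOn W.Ph W.U := by
  have hb := W.cont_b
  have h2 := continuous_hb2
  have h3 := continuous_tanh'
  have hc : Continuous fun a : Pt (Fin n) × V n =>
      Phi (W.J0 - a.1.1 • W.S) (W.b a.1.1) (W.y0 + W.Qᵀ *ᵥ a.1.2) a.2 := by
    simp only [Phi, avg, DD]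
    unfold th
    fun_prop
  exact (hc.comp_continuousOn (continuousOn_id.prodMk (cont_xi (W := W)))).congr fun _ _ => rfl

lemma cont_Pg : ContinuousOn W.Pg W.U := by
  have hb := W.hb1
  have hc : Continuous fun a : Pt (Fin n) × V n =>
      -(a.2 ⬝ᵥ W.S *ᵥ a.2) / 2 + n * W.b1 a.1.1 * avg (DD a.2) ^ 2 / 4 := by
    simp only [avg, DD]; fun_prop
  exact (hc.comp_continuousOn (continuousOn_id.prodMk (cont_pp (W := W)))).congr fun _ _ => rfl

lemma hasDerivAt_dot {u v : ℝ → V n} {u' v' : V n} {s : ℝ} (hu : HasDerivAt u u' s)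
    (hv : HasDerivAt v v' s) : HasDerivAt (fun s => u s ⬝ᵥ v s) (u' ⬝ᵥ v s + u s ⬝ᵥ v') s :=
  (HasDerivAt.fun_sum fun i _ => (hasDerivAt_pi.1 hu i).mul (hasDerivAt_pi.1 hv i)).congr_deriv
    Finset.sum_add_distrib

/-- envelope theorem -/
lemma hasDerivAt_Ph (hn : 0 < n) {c : ℝ → Pt (Fin n)} {c' : Pt (Fin n)} {s : ℝ}
    (hc : HasDerivAt c c' s) (h1 : (c s).1 ∈ Ioo 0 W.h) (h2 : (c s).2 ∈ W.O) :
    HasDerivAt (fun s => W.Ph (c s)) (W.Pg (c s) * c'.1 + W.Q *ᵥ W.pp (c s) ⬝ᵥ c'.2) s := by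
  have hc1 : HasDerivAt (fun s => (c s).1) c'.1 s :=
    (ContinuousLinearMap.fst ℝ ℝ (V n)).hasFDerivAt.comp_hasDerivAt s hc
  have hc2 : HasDerivAt (fun s => (c s).2) c'.2 s :=
    (ContinuousLinearMap.snd ℝ ℝ (V n)).hasFDerivAt.comp_hasDerivAt s hc
  have hx := hasDerivAt_xi hc h1 h2
  generalize W.Rq (c s) *ᵥ (W.Qᵀ *ᵥ c'.2 - c'.1 • W.Yt (c s)) = x' at hx
  have hp : HasDerivAt (fun s => W.pp (c s)) (fun i => DD (W.pp (c s)) i * x' i) s :=
    hasDerivAt_th hx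
  have hs := (spec (mem_of_mem_nhds (U_mem h1 h2))).2
  have e : ∀ s, W.Ph (c s) = 1 / 2 * (W.pp (c s) ⬝ᵥ (W.J0 *ᵥ W.pp (c s) -
      (c s).1 • W.S *ᵥ W.pp (c s))) + (W.y0 + W.Qᵀ *ᵥ (c s).2) ⬝ᵥ W.pp (c s) +
      ∑ i, hb2 (W.xi (c s) i) + n * W.b (c s).1 * avg (DD (W.pp (c s))) ^ 2 / 4 := fun s => by
    simp only [Ph, Phi, Jt, sub_mulVec, smul_mulVec, pp]
  simp only [e]
  refine (((((hasDerivAt_dot hp ((hasDerivAt_mulVec W.J0 hp).sub (hc1.smul
    (hasDerivAt_mulVec W.S hp)))).const_mul _).add (hasDerivAt_dot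
      ((hasDerivAt_mulVec W.Qᵀ hc2).const_add W.y0) hp)).add (HasDerivAt.fun_sum fun i _ =>
      (hasDerivAt_hb2 _).comp s (hasDerivAt_pi.1 hx i))).add
      (((((W.hb _).comp s hc1).const_mul _).mul ((hasDerivAt_avgDD hp).pow 2)).div_const
        4)).congr_deriv ?_
  set p := W.pp (c s) with hp0
  set p' : V n := fun i => DD p i * x' i with hp'
  have e1 : ∀ M : Mx n, Mᵀ = M → p ⬝ᵥ M *ᵥ p' = p' ⬝ᵥ M *ᵥ p := fun M hM => by
    rw [dotProduct_mulVec, ← mulVec_transpose, hM, dotProduct_comm]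
  have e2 : ∑ i, -(W.xi (c s) i * (1 - Real.tanh (W.xi (c s) i) ^ 2)) * x' i =
      -(p' ⬝ᵥ W.xi (c s)) := by
    simp only [dotProduct, ← Finset.sum_neg_distrib]
    exact Finset.sum_congr rfl fun i _ => by simp only [hp', hp0, DD, pp, th]; ring
  have e3 : W.Qᵀ *ᵥ c'.2 ⬝ᵥ p = W.Q *ᵥ p ⬝ᵥ c'.2 := by
    rw [mulVec_transpose, ← dotProduct_mulVec, dotProduct_comm]
  have hn' : (n : ℝ) ≠ 0 := by positivity
  rw [← hs, e2, e3, dotProduct_comm _ p']
  simp only [Pi.sub_apply (ι := ℝ), Pi.smul_apply' (ι := ℝ), ← hp0]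
  simp only [Ymap, Jt, sub_mulVec, smul_mulVec, dotProduct_add, dotProduct_sub, dotProduct_smul,
    e1 _ W.hJ, e1 _ W.hS, Pg, smul_eq_mul, Function.comp, show th (W.xi (c s)) = p from rfl,
    ← hp0, dotProduct_comm p p', Pi.pow_apply]
  field_simp
  ring

lemma li_Ph (hn : 0 < n) : LI (md W.ph w) W.h W.O W.Ph
    (fun q => W.Pg q + W.mg w q ⬝ᵥ W.Sg *ᵥ W.pp q + (W.Sg * W.Gq q).trace / 2)
    fun k q => (W.Q *ᵥ W.pp q) k := by
  refine ⟨W.Pg, fun k q => W.Q k ⬝ᵥ W.Gq q *ᵥ W.Q k, cont_Ph, cont_Pg, fun k =>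
    (show Continuous fun a : V n => (W.Q *ᵥ a) k by fun_prop).comp_continuousOn cont_pp, fun k =>
    (show Continuous fun a : Mx n => W.Q k ⬝ᵥ a *ᵥ W.Q k by fun_prop).comp_continuousOn cont_Gq,
    fun c c' s hc hs => hasDerivAt_Ph hn hc hs.1 hs.2, fun k p hp => ?_, fun p _ => ?_⟩
  · have := hasDerivAt_pp (upd_curve p k) (by simpa using hp.1) (by simpa using hp.2)
    simp only [zero_smul, sub_zero, QT_single, Function.update_eq_self] at this
    exact hasDerivAt_pi.1 (hasDerivAt_mulVec W.Q this) k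
  · have e : ∑ k, W.Q k ⬝ᵥ W.Gq p *ᵥ W.Q k = (W.Sg * W.Gq p).trace := by
      rw [Sg, ← W.hQ, Matrix.mul_assoc, trace_mul_comm, trace]
      refine Finset.sum_congr rfl fun k _ => ?_
      simp only [diag_apply, Matrix.mul_apply, dotProduct, mulVec, transpose_apply, Finset.mul_sum,
        mul_assoc]
    simp only [md_eq, Finset.sum_add_distrib, ← Finset.sum_div, e, ← dot_Q, add_assoc]
    rfl

/-- **value identity** -/
lemma li_XX (hn : 0 < n) (hw : Wt w) : LI (md W.ph w) W.h W.O (W.XX w)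
    (fun q => W.dl w q ⬝ᵥ W.Sg *ᵥ W.dl w q / 2 - W.rv q) fun k q => (W.Q *ᵥ W.dl w q) k := by
  have ht : LI (md W.ph w) W.h W.O (fun q => q.1 * (W.c0 * n / 2)) (fun _ => W.c0 * n / 2)
      fun _ _ => 0 := ⟨fun _ => W.c0 * n / 2, fun _ _ => 0, by fun_prop, continuousOn_const,
    fun _ => continuousOn_const, fun _ => continuousOn_const, fun c c' s hc _ =>
      ((show HasDerivAt (fun s => (c s).1) c'.1 s from hc.fst).mul_const _).congr_deriv
        (by simp [mul_comm]), fun _ _ _ => hasDerivAt_const _ _, fun _ _ => by simp⟩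
  refine (((li_logZ hw _ _).sub (li_Ph hn)).add ht).congr (fun q _ => ?_) fun k q => ?_
  · have e1 : ∑ i, md W.ph w i q ^ 2 = W.Q *ᵥ W.mg w q ⬝ᵥ W.Q *ᵥ W.mg w q := by
      simp only [md_eq, dotProduct, sq]
    have e2 : W.pp q ⬝ᵥ W.S *ᵥ W.pp q =
        W.Q *ᵥ W.pp q ⬝ᵥ W.Q *ᵥ W.pp q - W.c0 * (n - n * avg (DD (W.pp q))) := by
      rw [dot_Q, Sg, add_mulVec, smul_mulVec, one_mulVec, dotProduct_add, dotProduct_smul, avg,
        mul_div_cancel₀ _ (by positivity)]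
      simp [DD, dotProduct, sq]
    rw [e1, ← dot_Q, ← dot_Q, dl, mulVec_sub, Pg, rv, e2]
    simp only [sub_dotProduct, dotProduct_sub, dotProduct_comm (W.Q *ᵥ W.pp q) (W.Q *ᵥ W.mg w q)]
    ring
  · simp [md_eq, dl, mulVec_sub]

lemma abs_XX_le (hn : 0 < n) (hw : Wt w) (hh : W.h ≤ 1) (hS : opn W.Sg ≤ K) (hS' : opn W.S ≤ K)
    (hb : ∀ t ∈ Icc 0 W.h, |W.b1 t| ≤ K) (hc0 : |W.c0| ≤ K) (hR : W.R ^ 2 ≤ K * n) {q : Pt (Fin n)}
    (hq : q ∈ Ioo 0 W.h ×ˢ Kb n W.R) : |W.XX w q - W.XX w (0, 0)| ≤ 4 * K * n := by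
  have hK := (opn_nonneg _).trans hS
  have t1 : q.1 ≤ 1 := hq.1.2.le.trans hh
  have t0 := hq.1.1
  have key : ∀ p : V n, p ⬝ᵥ p ≤ n → |W.Q *ᵥ p ⬝ᵥ q.2| ≤ K * n := fun p hp => by
    refine abs_le_of_sq_le_sq ((dot_sq_le _ _).trans ?_) (by positivity)
    rw [← nrm_sq, sq (K * n)]
    exact mul_le_mul ((W.nrm_Q_sq hS p).trans (mul_le_mul_of_nonneg_left hp hK)) (hq.2.trans hR)
      (Eig.dot_self_nonneg _) (by positivity)
  have h1 : |Real.log (Zw (pw W.ph w q)) - Real.log (Zw w)| ≤ 3 / 2 * (K * n) := by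
    refine abs_logZ_le hw fun σ => (abs_sub _ _).trans ?_
    have h2 := key (sv σ) (sv_dot_self σ).le
    have h3 := W.nrm_Q_sq hS (sv σ)
    rw [nrm_sq, sv_dot_self] at h3
    rw [dotProduct_comm, abs_mul, abs_of_nonneg (Eig.dot_self_nonneg _), abs_of_pos (half_pos t0)]
    simp only [ph]
    nlinarith [Eig.dot_self_nonneg (W.Q *ᵥ sv σ)]
  have hO : ∀ s ∈ Icc (0 : ℝ) 1, s • q.2 ∈ W.O := fun s hs => W.Kb_sub (by
    rw [mem_Kb W.hR, nrm_smul, abs_of_nonneg hs.1]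
    exact (mul_le_of_le_one_left (nrm_nonneg _) hs.2).trans ((mem_Kb W.hR).1 hq.2))
  obtain ⟨s, hs, e⟩ := exists_hasDerivAt_eq_slope (fun s : ℝ => W.Ph (s • q))
    (fun s => W.Pg (s • q) * q.1 + W.Q *ᵥ W.pp (s • q) ⬝ᵥ q.2) zero_lt_one
    (cont_Ph.comp (by fun_prop) fun s hs => ⟨⟨mul_nonneg hs.1 t0.le,
      (mul_le_of_le_one_left t0.le hs.2).trans hq.1.2.le⟩, hO s hs⟩) fun s hs =>
    hasDerivAt_Ph hn (c := fun s => s • q) (by simpa using (hasDerivAt_id' s).smul_const q)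
      ⟨mul_pos hs.1 t0, (mul_le_of_le_one_left t0.le hs.2.le).trans_lt hq.1.2⟩
      (hO s (Ioo_subset_Icc_self hs))
  have h4 : |W.Pg (s • q)| ≤ 3 / 4 * (K * n) := by
    have hp := W.cb (s • q)
    have a1 := (abs_quad_le W.S (W.pp (s • q))).trans (mul_le_mul hS' hp.dot_le
      (Eig.dot_self_nonneg _) hK)
    have a2 : avg (DD (W.pp (s • q))) ^ 2 ≤ 1 :=
      pow_le_one₀ (avg_nonneg hp.DD_nonneg) (avg_le_one (DD_le _))
    have a3 := mul_le_mul (hb (s • q).1 ⟨mul_nonneg hs.1.le t0.le,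
      (mul_le_of_le_one_left t0.le hs.2.le).trans hq.1.2.le⟩) a2 (sq_nonneg _) hK
    refine (abs_add_le _ _).trans ?_
    rw [abs_div, abs_neg, abs_div, mul_assoc, abs_mul, abs_mul, abs_of_nonneg (sq_nonneg (avg _)),
      Nat.abs_cast, abs_two, abs_of_pos (four_pos (α := ℝ))]
    nlinarith [mul_le_mul_of_nonneg_left a3 (Nat.cast_nonneg n)]
  have h5 := key _ (W.cb (s • q)).dot_le
  have h6 : |W.Pg (s • q) * q.1| ≤ 3 / 4 * (K * n) := by
    rw [abs_mul, abs_of_pos t0]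
    exact (mul_le_of_le_one_right (abs_nonneg _) t1).trans h4
  have h7 : |q.1 * (W.c0 * n / 2)| ≤ K * n / 2 := by
    rw [abs_mul, abs_of_pos t0, abs_div, abs_mul, Nat.abs_cast, abs_two]
    exact (mul_le_of_le_one_left (by positivity) t1).trans (by gcongr)
  simp only [one_smul, zero_smul, sub_zero, div_one] at e
  have : 0 ≤ K * n := by positivity
  simp only [XX, pw, post_zero, zero_mul, add_zero] at h1 ⊢
  rw [show ((0, 0) : Pt (Fin n)) = 0 from rfl]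
  rw [abs_le] at *
  constructor <;> linarith [h1.1, h1.2, h5.1, h5.2, h6.1, h6.2, h7.1, h7.2]

/-- the value inequality -/
theorem value (hn : 0 < n) (hw : Wt w) {ζ a : Pt (Fin n) → ℝ} {b : Fin n → Pt (Fin n) → ℝ}
    {C M ω ε u : ℝ} (hζ : Cut (md W.ph w) W.R C ζ a b) (h0 : 0 ≤ W.h) (hh : W.h ≤ 1)
    (hS : opn W.Sg ≤ K) (hS' : opn W.S ≤ K) (hb : ∀ t ∈ Icc 0 W.h, |W.b1 t| ≤ K) (hc0 : |W.c0| ≤ K)
    (hR : W.R ^ 2 ≤ K * n) (hε : ∀ t ∈ Icc 0 W.h, (law W.ph w t).real (Ab n W.R) ≤ ε)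
    (hF : EG (Icc 0 W.h) (W.FF w ζ)) (hM : ∀ t ∈ Icc 0 W.h, SL.ex W.ph w (W.FF w ζ) t ≤ M)
    (ω0 : 0 ≤ ω) (hω : ∀ q ∈ W.U, |W.rv q| ≤ ω) {U : V n → ℝ} (hU : MG U) (u0 : 0 ≤ u)
    (hu : ∀ z, U z ≤ u) (hT : ∀ z, nrm z ≤ W.R → U z ≤ W.XX w (W.h, z) - W.XX w (0, 0)) :
    slE W.ph w W.h (fun _ z => U z) ≤ K * M + (ω + (12 * C * K + C + 4 * K) * n * ε) + u * ε := by
  have hK := (opn_nonneg _).trans hS
  have hC : 0 ≤ C := (abs_nonneg _).trans (hζ.bd (0, 0) (by simp [sq_nonneg])).1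
  have hn1 : (1 : ℝ) ≤ n := Nat.one_le_cast.2 hn
  have F0 : ∀ p, 0 ≤ W.FF w ζ p := fun p => by rw [FF]; positivity
  have M0 : 0 ≤ M := (ex_nonneg hw fun _ => F0 _).trans (hM 0 ⟨le_rfl, h0⟩)
  have ε0 : 0 ≤ ε := measureReal_nonneg.trans (hε 0 ⟨le_rfl, h0⟩)
  have hI := ((hζ.li W.h W.O).mul (hζ.li W.h W.O)).mul
    ((li_XX hn hw).sub (LI.const (W.XX w (0, 0))))
  have z : ∀ p : Pt (Fin n), p.2 ∉ Kb n W.R → ζ p * ζ p * (W.XX w p - W.XX w (0, 0)) = 0 :=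
    fun p hp => by simp [hζ.out p (not_le.1 hp).le]
  have hG := (hI.ext0 W.isOpen_O (isCompact_Kb W.hR) W.Kb_sub z).2
  have h1 := LI.ex_le hw hI W.isOpen_O (isCompact_Kb W.hR) W.Kb_sub z (measurableSet_Ab W.R)
    (e1 := (12 * C * K + C + 4 * K) * n) h0 hK ω0 (by positivity) M0 hε hF F0 hM fun p hp => by
      have hpU : p ∈ W.U := ⟨Ioo_subset_Icc_self hp.1, W.Kb_sub hp.2⟩
      have z1 : ζ p * ζ p ≤ 1 := mul_le_one₀ (hζ.le p) (hζ.nn p) (hζ.le p)
      have e1 := W.nrm_Q_sq hS (W.dl w p)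
      have e2 : ζ p * ζ p * (W.dl w p ⬝ᵥ W.Sg *ᵥ W.dl w p / 2 - W.rv p - 0) ≤ K * W.FF w ζ p + ω := by
        rw [← dot_Q, ← nrm_sq, FF_eq]
        have := abs_le.1 (hω p hpU)
        nlinarith [mul_self_nonneg (ζ p), sq_nonneg (nrm (W.Q *ᵥ W.dl w p)),
          mul_le_mul_of_nonneg_left e1 (mul_self_nonneg (ζ p))]
      by_cases hA : p.2 ∈ Ab n W.R
      · obtain ⟨b1, b2⟩ := hζ.bd p hp.2
        have e3 := abs_XX_le hn hw hh hS hS' hb hc0 hR hp
        have e4 : |a p * ζ p + ζ p * a p + ∑ i, b i p * b i p| ≤ 3 * C := by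
          have : 0 ≤ ∑ i, b i p * b i p := Finset.sum_nonneg fun _ _ => mul_self_nonneg _
          simp only [sq] at b2
          rw [abs_le] at b1 ⊢
          constructor <;> nlinarith [hζ.nn p, hζ.le p]
        have e5 := (le_abs_self _).trans ((abs_mul _ _).trans_le
          (mul_le_mul e4 e3 (abs_nonneg _) (by positivity)))
        have e6 : ∑ i, (b i p * ζ p + ζ p * b i p) * ((W.Q *ᵥ W.dl w p) i - 0) ≤
            ∑ i, b i p ^ 2 + nrm (W.Q *ᵥ W.dl w p) ^ 2 := by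
          rw [nrm_sq, dotProduct, ← Finset.sum_add_distrib]
          exact Finset.sum_le_sum fun i _ => by
            nlinarith [sq_nonneg (b i p * ζ p - (W.Q *ᵥ W.dl w p) i),
              mul_le_mul_of_nonneg_left z1 (sq_nonneg (b i p))]
        have e7 := mul_le_mul_of_nonneg_left (W.dl_le hw p) hK
        rw [indicator_of_mem hA]
        nlinarith
      · obtain ⟨-, a0, b0⟩ := hζ.mid p (not_le.1 hA)
        simpa [hA, a0, b0] using e2
  obtain ⟨m1, m2⟩ := ex_aff (φ := W.ph) (κ := 1) (e0 := 0) (e1 := u) (t := W.h)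
    (F := fun p => ζ p * ζ p * (W.XX w p - W.XX w (0, 0))) hw (measurableSet_Ab W.R)
    (hG.mg ⟨h0, le_rfl⟩)
  refine (ex_mono (G := fun p => U p.2) (H := fun p => 1 * (ζ p * ζ p * (W.XX w p - W.XX w (0, 0))) +
    (0 + u * (Ab n W.R).indicator (fun _ => (1 : ℝ)) p.2)) hw hU m1 fun y => ?_).trans ?_
  · by_cases hA : y ∈ Ab n W.R
    · rw [indicator_of_mem hA]
      by_cases hy : y ∈ Kb n W.R
      · have z1 : ζ (W.h, y) * ζ (W.h, y) ≤ 1 := mul_le_one₀ (hζ.le _) (hζ.nn _) (hζ.le _)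
        nlinarith [hT y ((mem_Kb W.hR).1 hy), hu y, mul_self_nonneg (ζ (W.h, y))]
      · simpa [z (W.h, y) hy] using hu y
    · have hy : y ∈ Kb n W.R := by
        have : 2 * (y ⬝ᵥ y) < W.R ^ 2 := not_le.1 hA
        have := Eig.dot_self_nonneg y
        show y ⬝ᵥ y ≤ W.R ^ 2
        linarith
      simpa [hA, (hζ.mid (W.h, y) (not_le.1 hA)).1] using hT y ((mem_Kb W.hR).1 hy)
  · rw [m2]
    have : 0 ≤ K * M + (ω + (12 * C * K + C + 4 * K) * n * ε) := by positivity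
    simp only [sub_self, mul_zero, zero_add] at h1
    nlinarith [mul_le_mul_of_nonneg_left (hε _ ⟨h0, le_rfl⟩) u0, mul_le_of_le_one_right this hh]

end WS

lemma B1_sub (J E : Mx n) (b : ℝ) (p : V n) : B1 J b p - E = B1 (J - E) b p := by
  simp only [B1, B0]; abel

lemma YE_eq (J E : Mx n) (b : ℝ) (p0 x : V n) : YE J b E p0 x = Ymap (J - E) b x - E *ᵥ p0 := by
  simp only [YE, Ymap, sub_mulVec, mulVec_sub]; abel

lemma PhiE_eq (J : Mx n) {E : Mx n} (hE : Eᵀ = E) (b : ℝ) (p0 y x : V n) :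
    PhiE J b E p0 y x = Phi (J - E) b (y + E *ᵥ p0) x - 1 / 2 * (p0 ⬝ᵥ E *ᵥ p0) := by
  have e : p0 ⬝ᵥ E *ᵥ th x = th x ⬝ᵥ E *ᵥ p0 := by
    rw [dotProduct_mulVec, ← mulVec_transpose, hE, dotProduct_comm]
  simp only [PhiE, Phi, sub_mulVec, mulVec_sub, dotProduct_sub, sub_dotProduct, add_dotProduct, e,
    dotProduct_comm (E *ᵥ p0)]
  ring

set_option maxHeartbeats 400000 in
theorem winG : WinGGlue := by
  intro hEx c hc K hK
  obtain ⟨C, hC, hcut⟩ := exists_cut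
  set K1 := 2 * K + 1 / c + 2 with hK1
  have hc' : 0 < 1 / c := by positivity
  have k0 : 0 < K1 := by positivity
  set A := Real.exp (3 * K1 ^ 2) * (2 + 8 * K1 ^ 6 + 20 * (C * K1)) with hA
  have A0 : 0 < A := by positivity
  set B := 12 * (C * K1) * K1 + C * K1 + 4 * K1 with hB
  have B0 : 0 < B := by positivity
  refine ⟨A + K1 * A + B, by positivity, ?_⟩
  intro n J Q E b κ c0 h r R ε ω y0 p0 v ψ hn hJ hJK hE _ hb hκ hh hh1 hc0 hQ hR hnR hRn _ hw ω0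
    good ex er hψ ψ0 hT hε x0 hx0 hy0
  have e : ∀ t : ℝ, (1 - κ * t) • J - E = J - E - t • κ • J := fun t => by
    rw [sub_smul, one_smul, smul_smul, mul_comm]; abel
  have eY : ∀ (t : ℝ) (x y : V n), YE ((1 - κ * t) • J) ((1 - κ * t) ^ 2 * b) E p0 x = y0 + y ↔
      Ymap (J - E - t • κ • J) ((1 - κ * t) ^ 2 * b) x = y0 + E *ᵥ p0 + y := fun t x y => by
    rw [YE_eq, e, sub_eq_iff_eq_add, add_right_comm]
  let W : WS n := ⟨J - E, κ • J, Q, fun t => (1 - κ * t) ^ 2 * b,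
    fun t => -(2 * κ * (1 - κ * t) * b), c, c0, h, r, R, y0 + E *ᵥ p0, p0, hc,
    by rw [transpose_sub, hJ, hE], by rw [transpose_smul, hJ], hasDerivAt_bt κ b, by fun_prop, hQ,
    hR, fun t ht p h1 h2 => by rw [← e, ← B1_sub]; exact good t ht p h1 h2,
    fun t ht z hz => (ex t ht z hz).imp fun x hx => ⟨hx.1, (eY t x _).1 hx.2⟩, fun t ht x x' h1 h2 => by
      have := (((hEx n _ E _ c r p0 (by rw [transpose_smul, hJ]) hE hc (good t ht)).1 x x' h1 h2).1)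
      rwa [YE_eq, YE_eq, sub_sub_sub_cancel_right, e] at this⟩
  have eB : ∀ q, B1 ((1 - κ * q.1) • J) ((1 - κ * q.1) ^ 2 * b) (W.pp q) - E = W.Bq q := fun q => by
    rw [B1_sub, e]; rfl
  have hS : opn W.Sg ≤ K1 := (opn_drv hJK hκ hc0).trans (by linarith)
  have hcK : 1 / W.c ≤ K1 := by show 1 / c ≤ _; linarith
  have hnR' : (n : ℝ) ≤ K1 * W.R ^ 2 := hnR.trans (mul_le_mul_of_nonneg_right (by linarith) (sq_nonneg _))
  have kt : ∀ t ∈ Icc 0 h, 0 ≤ κ * t ∧ κ * t ≤ 1 := fun t ht =>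
    ⟨mul_nonneg hκ.1 ht.1, mul_le_one₀ hκ.2 ht.1 (ht.2.trans hh1)⟩
  obtain ⟨ζ, a, bb, hζ⟩ := hcut n _ R K1 hn hR hnR' (W.md_le hw hnR' hS)
  have hρ : ∀ q ∈ W.U, nrm (W.rho q) ≤ ω + 2 * K1 ^ 3 := fun q hq => by
    refine (W.nrm_rho_le hq hn (abs_bt_le hb (kt _ hq.1).1 (kt _ hq.1).2) hS hcK).trans
      (add_le_add ?_ le_rfl)
    have := er q.1 hq.1 _ (W.cb q) (WS.spec hq).1.le
    rw [← sub_neg_eq_add c0 (2 * _ * _ * _ * _), ← neg_mul, eB] at this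
    exact this
  have hU : ∀ z, nrm z ≤ R → ((h, z) : Pt (Fin n)) ∈ W.U := fun z hz =>
    ⟨⟨hh, le_rfl⟩, W.Kb_sub ((mem_Kb hR).2 hz)⟩
  obtain ⟨hF, hM⟩ := W.gron hw hζ hh hS hcK hρ hε hψ ψ0 fun z hz =>
    hT z hz _ (WS.spec (hU z hz)).1 ((eY h _ _).2 (WS.spec (hU z hz)).2)
  have hq : ((0, 0) : Pt (Fin n)) ∈ W.U := ⟨⟨le_rfl, hh⟩, W.Kb_sub (by simp [Kb, sq_nonneg])⟩
  have e0 : th x0 = W.pp (0, 0) := WS.uniq hq hx0.le ((eY 0 x0 _).1 (by simpa using hy0))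
  have ε0 : 0 ≤ ε := measureReal_nonneg.trans (hε 0 ⟨le_rfl, hh⟩)
  have s0 := slE_nonneg (φ := W.ph) (s := h) hw fun _ => ψ0
  change (nrm (mag v - th x0) ^ 2 ≤ _ * (slE W.ph v h _ + _ + _ + _)) ∧ ∀ ω' u U, _ → _ → _ → _ →
    _ → _ → _ ≤ _ * (slE W.ph v h _ + _ + _ + _) + _ + _
  change ∀ s ∈ _, _ ≤ Real.exp (_ * h) * (slE W.ph v h _ + _ * h) at hM
  set S := slE W.ph v h fun _ z => ψ z
  have T0 : 0 ≤ n * ε := by positivity
  have T1 : 0 ≤ S + ω ^ 2 + 1 + n * ε := by positivity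
  have hM' : ∀ s ∈ Icc 0 h, SL.ex W.ph v (W.FF v ζ) s ≤ A * (S + ω ^ 2 + 1 + n * ε) := fun s hs => by
    refine (hM s hs).trans ?_
    rw [hA, mul_assoc (Real.exp _)]
    refine mul_le_mul (Real.exp_le_exp.2 (mul_le_of_le_one_right (by positivity) hh1))
      ((add_le_add le_rfl (mul_le_of_le_one_right (by positivity) hh1)).trans ?_) (by positivity)
      (Real.exp_pos _).le
    have a1 : 0 ≤ (8 * K1 ^ 6 + 20 * (C * K1)) * (S + ω ^ 2) := by positivity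
    have a2 : 0 ≤ 8 * K1 ^ 6 * (n * ε) := by positivity
    linear_combination a1 + a2 + sq_nonneg (ω - 2 * K1 ^ 3) + 20 * (mul_pos hC k0).le + s0 + 2 * T0 +
      2 * zero_le_one (α := ℝ)
  refine ⟨?_, fun ω' u U ω0' u0 hω hUm hu hUT => ?_⟩
  · have := hM' 0 ⟨le_rfl, hh⟩
    rw [W.ex_FF_zero hw hζ, ← e0] at this
    linear_combination this + mul_nonneg (mul_pos k0 A0).le T1 + mul_nonneg B0.le T1
  · have ex0 : x0 = W.xi (0, 0) := funext fun i => Real.tanh_injective (congrFun e0 i)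
    have ev : ∀ t z, val J Q E b κ c0 y0 p0 v t z (W.xi (t, z)) =
        W.XX v (t, z) + 1 / 2 * (p0 ⬝ᵥ E *ᵥ p0) := fun t z => by
      rw [val, PhiE_eq _ hE, e, add_right_comm y0]
      simp only [WS.XX, WS.Ph]
      change _ = Real.log (Zw (post (fun σ => Q *ᵥ sv σ) v t z)) - Phi (J - E - t • κ • J)
        ((1 - κ * t) ^ 2 * b) (y0 + E *ᵥ p0 + Qᵀ *ᵥ z) _ + t * (c0 * n / 2) + _
      ring
    have := WS.value hn hw hζ hh hh1 hS (K := K1) (by
        show opn (κ • J) ≤ _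
        rw [opn_smul, abs_of_nonneg hκ.1]
        nlinarith [opn_nonneg J, hκ.2])
      (fun t ht => by
        show |-(2 * κ * (1 - κ * t) * b)| ≤ _
        have h1 := kt t ht
        have h2 : κ * (1 - κ * t) ≤ 1 := mul_le_one₀ hκ.2 (by linarith) (by linarith)
        have h3 : 0 ≤ κ * (1 - κ * t) := mul_nonneg hκ.1 (by linarith)
        rw [abs_neg, abs_le]
        constructor <;> nlinarith [hb.1, hb.2])
      (hc0.trans (by linarith)) (hRn.trans (mul_le_mul_of_nonneg_right (by linarith) (by positivity)))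
      hε hF hM' ω0' (fun q hq => by
        have := hω q.1 hq.1 _ (W.cb q) (WS.spec hq).1.le
        rw [eB] at this
        refine le_of_eq_of_le (congrArg _ ?_) this
        show (W.Sg * W.Gq q).trace / 2 - c0 * n * _ / 2 + n * -(2 * κ * (1 - κ * q.1) * b) * _ / 4 =
          (W.Sg * W.Gq q).trace / 2 - _ - _
        ring) hUm u0 hu fun z hz => by
        have := hUT z hz _ (WS.spec (hU z hz)).1 ((eY h _ _).2 (WS.spec (hU z hz)).2)
        rw [ex0, ev, ev] at this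
        linarith
    refine this.trans ?_
    rw [← hB]
    have a1 := mul_nonneg A0.le T1
    have a2 := mul_nonneg B0.le (show 0 ≤ S + ω ^ 2 + 1 by positivity)
    clear_value A B S K1
    linear_combination a1 + a2

end Crest.Agent.T157.Tap
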