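import Crest.Agent.T157.TapFrz_25
import Crest.Agent.T157.TapAlg_29
import Crest.Agent.T157.ConcP_16
import Crest.Agent.T157.ConcS_16
import Crest.Agent.T157.TapKr_50
import Crest.Agent.T157.LpKsTop_99_Mg
import Crest.Agent.T157.LpUfE_14
import Crest.Agent.T157.LpWin_29_Mg
import Crest.Agent.T157.LpChild_53_Mg
import Crest.Agent.T157.LpTop_41_Mg
import Crest.Agent.T157.TapPl_37
import Crest.Agent.T157.TapEx_80
import Crest.Agent.T157.TapCell_53
import Crest.Agent.T157.TapCov_15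
import Crest.Agent.T157.Glue_34

-- ▼ part T157/TapSfgA_18
section

/-!
# Row 157, part A, `SFGStmt` (helper18): exponential law of large numbers

* `subE_of_exp`: a variable with an exponential moment is sub-exponential after centring;
* `lln2`: `P_x (η ≤ E_y |∑ (f (x_i, y_i) - m)| / n) ≤ 2 exp (-κ n)`;
* `lln3`: the same for `f (g_i, Z_i, ξ_i)` of quadratic growth, `x = (g, Z)`, `y = ξ`.
-/

set_option autoImplicit false

noncomputable section

namespace Crest.Agent.T157.Tap.Sfg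

open MeasureTheory ProbabilityTheory Matrix Filter Set
open Crest.Agent.T157.E Crest.Agent.T157.Conc
open Crest.Agent.R339.Guerra (γ)

section general
variable {Ω Ω' : Type*} [MeasurableSpace Ω] [MeasurableSpace Ω']

lemma subE_of_exp {μ : Measure Ω} [IsProbabilityMeasure μ] {X : Ω → ℝ} (hX : Measurable X)
    {b : ℝ} (hb : 0 < b) (h : Integrable (fun x => Real.exp (b * |X x|)) μ) :
    ∃ v > (0 : ℝ), SubE (fun x => X x - ∫ y, X y ∂μ) v (b / 2) μ := by
  set m := ∫ y, X y ∂μ with hm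
  have hXi : Integrable X μ := by
    refine (h.const_mul (1 / b)).mono' hX.aestronglyMeasurable (ae_of_all _ fun x => ?_)
    have h1 := Real.add_one_le_exp (b * |X x|)
    rw [Real.norm_eq_abs, one_div, inv_mul_eq_div, le_div_iff₀ hb]
    linarith
  have hY : Integrable (fun x => Real.exp (b * |X x - m|)) μ := by
    refine (h.const_mul (Real.exp (b * |m|))).mono' (by fun_prop) (ae_of_all _ fun x => ?_)
    rw [Real.norm_eq_abs, abs_of_pos (Real.exp_pos _), ← Real.exp_add]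
    refine Real.exp_le_exp.2 ?_
    have := abs_sub (X x) m
    nlinarith
  have hsq : ∀ y : ℝ, y ^ 2 * Real.exp (b / 2 * |y|) ≤ 8 / b ^ 2 * Real.exp (b * |y|) := by
    intro y
    have h1 := abs_pow_le_exp_abs (b / 2 * y) 2
    rw [abs_mul, abs_of_pos (by positivity : 0 < b / 2), mul_pow, sq_abs] at h1
    have h2 : Real.exp (b * |y|) = Real.exp (b / 2 * |y|) * Real.exp (b / 2 * |y|) := by
      rw [← Real.exp_add]; congr 1; ring
    rw [h2, ← mul_assoc]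
    refine mul_le_mul_of_nonneg_right ?_ (Real.exp_pos _).le
    rw [div_mul_eq_mul_div, le_div_iff₀ (by positivity)]
    norm_num at h1
    nlinarith
  set v := 8 / b ^ 2 * ∫ x, Real.exp (b * |X x - m|) ∂μ with hv
  have hv0 : 0 ≤ v := mul_nonneg (by positivity) (integral_nonneg fun x => (Real.exp_pos _).le)
  refine ⟨v + 1, by linarith, (hX.sub_const m).aemeasurable, fun t ht => ?_⟩
  have hpt : ∀ x, Real.exp (t * (X x - m)) ≤
      1 + t * (X x - m) + t ^ 2 * (8 / b ^ 2 * Real.exp (b * |X x - m|)) := by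
    intro x
    have h1 := abs_exp_sub_le (t * (X x - m)) 2
    simp only [Finset.sum_range_succ, Finset.sum_range_zero, pow_zero, Nat.factorial_zero,
      Nat.cast_one, div_one, zero_add, pow_one, Nat.factorial_one] at h1
    have h2 : |t * (X x - m)| ^ 2 * Real.exp |t * (X x - m)| ≤
        t ^ 2 * ((X x - m) ^ 2 * Real.exp (b / 2 * |X x - m|)) := by
      rw [sq_abs, mul_pow, mul_assoc]
      refine mul_le_mul_of_nonneg_left (mul_le_mul_of_nonneg_left (Real.exp_le_exp.2 ?_)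
        (sq_nonneg _)) (sq_nonneg _)
      rw [abs_mul]
      exact mul_le_mul_of_nonneg_right ht (abs_nonneg _)
    have h3 := mul_le_mul_of_nonneg_left (hsq (X x - m)) (sq_nonneg t)
    have h4 := (abs_le.1 h1).2
    linarith
  have hI : Integrable (fun x => 1 + t * (X x - m) +
      t ^ 2 * (8 / b ^ 2 * Real.exp (b * |X x - m|))) μ :=
    ((integrable_const 1).add ((hXi.sub (integrable_const m)).const_mul t)).add
      ((hY.const_mul _).const_mul _)
  have hE : Integrable (fun x => Real.exp (t * (X x - m))) μ :=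
    hI.mono' (by fun_prop) (ae_of_all _ fun x => by
      rw [Real.norm_eq_abs, abs_of_pos (Real.exp_pos _)]; exact hpt x)
  refine lint_ex_le_of_integral hE ((integral_mono hE hI hpt).trans ?_)
  have hA : Integrable (fun x => t * (X x - m)) μ := (hXi.sub (integrable_const m)).const_mul t
  have hB : Integrable (fun x => 1 + t * (X x - m)) μ := (integrable_const 1).add hA
  have hC : Integrable (fun x => t ^ 2 * (8 / b ^ 2 * Real.exp (b * |X x - m|))) μ :=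
    (hY.const_mul _).const_mul _
  rw [integral_add hB hC, integral_add (integrable_const 1) hA, integral_const_mul,
    integral_sub hXi (integrable_const m), integral_const_mul, integral_const_mul]
  simp only [integral_const, probReal_univ, smul_eq_mul, one_mul]
  have h1 := Real.add_one_le_exp ((v + 1) * t ^ 2)
  rw [← hm, ← hv]
  nlinarith [sq_nonneg t]

/-- Jensen in lower-integral form -/
lemma ex_integral_le {ν : Measure Ω'} [IsProbabilityMeasure ν] {u : Ω' → ℝ} (hm : Measurable u)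
    (hu : Integrable u ν) : ex (∫ y, u y ∂ν) ≤ ∫⁻ y, ex (u y) ∂ν := by
  by_cases h : Integrable (fun y => Real.exp (u y)) ν
  · rw [lintegral_ex h]
    exact ENNReal.ofReal_le_ofReal (exp_integral_le hu h)
  · have : ∫⁻ y, ex (u y) ∂ν = ⊤ := by
      by_contra hne
      exact h ((lintegral_ofReal_ne_top_iff_integrable (by fun_prop)
        (ae_of_all _ fun y => (Real.exp_pos _).le)).1 hne)
    rw [this]; exact le_top

lemma ex_abs_le (t y : ℝ) : ex (t * |y|) ≤ ex (t * y) + ex (-t * y) := by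
  rcases abs_cases y with h | h
  · rw [h.1]; exact le_self_add
  · rw [h.1, show t * -y = -t * y by ring]; exact le_add_self

/-- tail of a partial expectation of `|S|` -/
lemma partial_tail {μ : Measure Ω} {ν : Measure Ω'} [IsProbabilityMeasure μ]
    [IsProbabilityMeasure ν] {S : Ω × Ω' → ℝ} (hS : Measurable S)
    (hi : ∀ x, Integrable (fun y => S (x, y)) ν) {v b t : ℝ} (h : SubE S v b (μ.prod ν))
    (ht0 : 0 ≤ t) (ht : t ≤ b) (u : ℝ) :
    μ {x | u ≤ ∫ y, |S (x, y)| ∂ν} ≤ ENNReal.ofReal (2 * Real.exp (v * t ^ 2 - t * u)) := by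
  have hΦ : Measurable fun x => ∫ y, |S (x, y)| ∂ν :=
    (hS.abs.stronglyMeasurable.integral_prod_right' (ν := ν)).measurable
  have h1 : ∫⁻ x, ex (t * ∫ y, |S (x, y)| ∂ν) ∂μ ≤ ex (Real.log 2 + v * t ^ 2) := by
    calc ∫⁻ x, ex (t * ∫ y, |S (x, y)| ∂ν) ∂μ
        ≤ ∫⁻ x, ∫⁻ y, ex (t * |S (x, y)|) ∂ν ∂μ := by
          refine lintegral_mono fun x => ?_
          rw [← integral_const_mul]
          exact ex_integral_le (by fun_prop) ((hi x).abs.const_mul t)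
      _ = ∫⁻ z, ex (t * |S z|) ∂(μ.prod ν) :=
          (lintegral_prod (fun z => ex (t * |S z|)) (by fun_prop)).symm
      _ ≤ ∫⁻ z, (ex (t * S z) + ex (-t * S z)) ∂(μ.prod ν) := lintegral_mono fun z => ex_abs_le _ _
      _ = ∫⁻ z, ex (t * S z) ∂(μ.prod ν) + ∫⁻ z, ex (-t * S z) ∂(μ.prod ν) :=
          lintegral_add_left (by fun_prop) _
      _ ≤ ex (v * t ^ 2) + ex (v * (-t) ^ 2) :=
          add_le_add (h.2 t (by rwa [abs_of_nonneg ht0])) (h.2 (-t) (by rwa [abs_neg, abs_of_nonneg ht0]))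
      _ = ex (Real.log 2 + v * t ^ 2) := by
          rw [neg_sq, ex_add, ← two_mul]
          congr 1
          rw [ex, Real.exp_log (by norm_num)]
          simp
  refine (chernoff hΦ.aemeasurable ht0 h1 u).trans (le_of_eq ?_)
  rw [ex, show Real.log 2 + v * t ^ 2 - t * u = Real.log 2 + (v * t ^ 2 - t * u) by ring,
    Real.exp_add, Real.exp_log (by norm_num)]

lemma SubE.of_mp {μ : Measure Ω} {ν : Measure Ω'} {e : Ω → Ω'} (he : MeasurePreserving e μ ν)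
    {S : Ω' → ℝ} (hS : Measurable S) {v b : ℝ} (h : SubE (fun x => S (e x)) v b μ) :
    SubE S v b ν := by
  refine ⟨hS.aemeasurable, fun t ht => ?_⟩
  rw [← he.lintegral_comp (f := fun y => ex (t * S y)) (by fun_prop)]
  exact h.2 t ht

end general

/-- expectation over three independent standard Gaussians -/
def E3 (f : ℝ → ℝ → ℝ → ℝ) : ℝ := ∫ w : (ℝ × ℝ) × ℝ, f w.1.1 w.1.2 w.2 ∂((γ.prod γ).prod γ)

lemma integrable_exp_sq : ∃ C > (0 : ℝ), Integrable (fun x : ℝ => Real.exp (C * x ^ 2)) γ := by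
  obtain ⟨C, hC, h⟩ := IsGaussian.exists_integrable_exp_sq (gaussianReal 0 1)
  exact ⟨C, hC, by simpa [Real.norm_eq_abs, sq_abs] using h⟩

lemma integrable_sq : Integrable (fun x : ℝ => x ^ 2) γ :=
  (memLp_id_gaussianReal (μ := 0) (v := 1) 2).integrable_sq

variable {n : ℕ}

lemma integrable_avg {f : ℝ → ℝ → ℝ → ℝ}
    (hf : Measurable fun w : (ℝ × ℝ) × ℝ => f w.1.1 w.1.2 w.2) {K : ℝ}
    (hK : ∀ g z ξ, |f g z ξ| ≤ K * (1 + z ^ 2 + ξ ^ 2)) (g Z : V n) :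
    Integrable (fun ξ : V n => ∑ i, f (g i) (Z i) (ξ i)) (E.gv (Fin n)) := by
  refine integrable_finsetSum _ fun i _ => ?_
  have h1 : Integrable (fun x => f (g i) (Z i) x) γ := by
    refine (((integrable_const (1 + Z i ^ 2)).add integrable_sq).const_mul K).mono'
      (hf.comp (measurable_prodMk_left (x := (g i, Z i)))).aestronglyMeasurable
      (ae_of_all _ fun x => ?_)
    exact hK _ _ _
  exact (measurePreserving_eval (fun _ : Fin n => γ) i).integrable_comp_of_integrable h1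

/-- **exponential law of large numbers**, partially averaged over the last variable -/
theorem lln3 {f : ℝ → ℝ → ℝ → ℝ}
    (hf : Measurable fun w : (ℝ × ℝ) × ℝ => f w.1.1 w.1.2 w.2) {K : ℝ} (hK0 : 0 < K)
    (hK : ∀ g z ξ, |f g z ξ| ≤ K * (1 + z ^ 2 + ξ ^ 2)) {η : ℝ} (hη : 0 < η) :
    ∃ κ > (0 : ℝ), ∀ n : ℕ, 0 < n → ((E.gv (Fin n)).prod (E.gv (Fin n)))
      {z | η ≤ ∫ ξ, |avg (fun i => f (z.1 i) (z.2 i) (ξ i)) - E3 f| ∂E.gv (Fin n)} ≤
        ENNReal.ofReal (2 * Real.exp (-κ * n)) := by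
  obtain ⟨C, hC, hCi⟩ := integrable_exp_sq
  have hb : 0 < C / K := by positivity
  have hexp : Integrable (fun w : (ℝ × ℝ) × ℝ => Real.exp (C / K * |f w.1.1 w.1.2 w.2|))
      ((γ.prod γ).prod γ) := by
    have h1 : Integrable (fun w : (ℝ × ℝ) × ℝ =>
        (Real.exp C * Real.exp (C * w.1.2 ^ 2)) * Real.exp (C * w.2 ^ 2)) ((γ.prod γ).prod γ) :=
      Integrable.mul_prod (f := fun w : ℝ × ℝ => Real.exp C * Real.exp (C * w.2 ^ 2))
        (Integrable.mul_prod (f := fun _ : ℝ => Real.exp C) (integrable_const _) hCi) hCi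
    refine h1.mono' (hf.abs.const_mul _).exp.aestronglyMeasurable (ae_of_all _ fun w => ?_)
    rw [Real.norm_eq_abs, abs_of_pos (Real.exp_pos _), ← Real.exp_add, ← Real.exp_add]
    refine Real.exp_le_exp.2 ?_
    have := mul_le_mul_of_nonneg_left (hK w.1.1 w.1.2 w.2) hb.le
    rw [← mul_assoc, div_mul_cancel₀ _ hK0.ne'] at this
    linarith
  obtain ⟨v, hv, hS⟩ := subE_of_exp hf hb hexp
  set t := min (C / K / 2) (η / (2 * v)) with ht
  have ht0 : 0 < t := lt_min (by positivity) (by positivity)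
  refine ⟨t * η / 2, by positivity, fun n hn => ?_⟩
  have hn' : (0 : ℝ) < n := by exact_mod_cast hn
  have h1 := subE_sum (ι := Fin n) (ν := fun _ => (γ.prod γ).prod γ) (fun _ => hS)
  have e1 := measurePreserving_arrowProdEquivProdArrow (ℝ × ℝ) ℝ (Fin n) (fun _ => γ.prod γ)
    (fun _ => γ)
  have e2 := (measurePreserving_arrowProdEquivProdArrow ℝ ℝ (Fin n) (fun _ => γ)
    (fun _ => γ)).prod (MeasurePreserving.id (E.gv (Fin n)))
  have hm : Measurable fun y : (V n × V n) × V n =>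
      ∑ i, (f (y.1.1 i) (y.1.2 i) (y.2 i) - E3 f) := by
    refine Finset.measurable_sum _ fun i _ => Measurable.sub_const ?_ _
    exact hf.comp (f := fun y : (V n × V n) × V n => ((y.1.1 i, y.1.2 i), y.2 i)) (by fun_prop)
  have h2 : SubE (fun y : (V n × V n) × V n => ∑ i, (f (y.1.1 i) (y.1.2 i) (y.2 i) - E3 f))
      (∑ _i : Fin n, v) (C / K / 2) (((E.gv (Fin n)).prod (E.gv (Fin n))).prod (E.gv (Fin n))) :=
    SubE.of_mp (e2.comp e1) hm h1
  have h3 := partial_tail hm (fun x => by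
    simp only [Finset.sum_sub_distrib]
    exact (integrable_avg hf hK x.1 x.2).sub (integrable_const _)) h2 ht0.le (min_le_left _ _)
    (n * η)
  refine le_trans (measure_mono fun z hz => ?_) (h3.trans (ENNReal.ofReal_le_ofReal ?_))
  · have hz' : η ≤ ∫ ξ, |avg (fun i => f (z.1 i) (z.2 i) (ξ i)) - E3 f| ∂E.gv (Fin n) := hz
    have : ∀ ξ : V n, |∑ i, (f (z.1 i) (z.2 i) (ξ i) - E3 f)| =
        n * |avg (fun i => f (z.1 i) (z.2 i) (ξ i)) - E3 f| := by
      intro ξ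
      have : ∑ i, (f (z.1 i) (z.2 i) (ξ i) - E3 f) =
          n * (avg (fun i => f (z.1 i) (z.2 i) (ξ i)) - E3 f) := by
        rw [Finset.sum_sub_distrib, avg]
        simp only [Finset.sum_const, Finset.card_univ, Fintype.card_fin, nsmul_eq_mul]
        field_simp
      rw [this, abs_mul, abs_of_pos hn']
    show n * η ≤ ∫ ξ, |∑ i, (f (z.1 i) (z.2 i) (ξ i) - E3 f)| ∂E.gv (Fin n)
    simp only [this, integral_const_mul]
    exact mul_le_mul_of_nonneg_left hz' hn'.le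
  · refine mul_le_mul_of_nonneg_left (Real.exp_le_exp.2 ?_) (by norm_num)
    simp only [Finset.sum_const, Finset.card_univ, Fintype.card_fin, nsmul_eq_mul]
    have h4 : t * (2 * v) ≤ η := (le_div_iff₀ (by positivity)).1 (min_le_right _ _)
    have h5 := mul_le_mul_of_nonneg_left h4 (mul_nonneg hn'.le ht0.le)
    nlinarith

end Crest.Agent.T157.Tap.Sfg

end
end

-- ▼ part T157/TapSfgB_18
section

/-!
# Row 157, part A, `SFGStmt` (helper18): population values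

`G2 m a σ k F = E [z^k F (m + a g + σ z)]`; Stein identities; the thirteen test functions `tf` and
their expectations `tm` at a state-evolution fixed point.
-/

set_option autoImplicit false

noncomputable section

namespace Crest.Agent.T157.Tap.Sfg

open MeasureTheory ProbabilityTheory Matrix Filter Set
open Crest.Agent.T157.E Crest.Agent.T157.Conc
open Crest.Agent.R339.Guerra (γ hasDerivAt_pdf integrable_pdf_mul integrable_id_γ)

lemma stein_gen {f f' : ℝ → ℝ} (hf : ∀ x, HasDerivAt f (f' x) x) (hif : Integrable f γ)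
    (hif' : Integrable f' γ) (hixf : Integrable (fun x => x * f x) γ) :
    ∫ x, x * f x ∂γ = ∫ x, f' x ∂γ := by
  rw [integral_gaussianReal_eq_integral_smul (by norm_num),
    integral_gaussianReal_eq_integral_smul (by norm_num)]
  have h := integral_mul_deriv_eq_deriv_mul_of_integrable (A := ℝ)
    (u := f) (v := gaussianPDFReal 0 1)
    (u' := f') (v' := fun x => -(x * gaussianPDFReal 0 1 x))
    (fun x _ => hf x) (fun x _ => hasDerivAt_pdf x)
    (by
      have := (integrable_pdf_mul hixf).neg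
      refine this.congr (ae_of_all _ fun x => ?_)
      simp only [Pi.neg_apply, Pi.mul_apply]; ring)
    (by
      have := (integrable_pdf_mul hif')
      refine this.congr (ae_of_all _ fun x => ?_)
      simp only [Pi.mul_apply]; ring)
    (by
      refine (integrable_pdf_mul hif).congr (ae_of_all _ fun x => ?_)
      simp only [Pi.mul_apply]; ring)
  have h1 : ∫ x, gaussianPDFReal 0 1 x • (x * f x) =
      - ∫ x, f x * -(x * gaussianPDFReal 0 1 x) := by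
    rw [← integral_neg]; congr 1; ext x; simp only [smul_eq_mul]; ring
  have h2 : ∫ x, gaussianPDFReal 0 1 x • f' x =
      ∫ x, f' x * gaussianPDFReal 0 1 x := by
    congr 1; ext x; simp only [smul_eq_mul]; ring
  rw [h1, h2, h, neg_neg]

lemma integrable_pow (k : ℕ) : Integrable (fun x : ℝ => x ^ k) γ := by
  have := (memLp_id_gaussianReal (μ := 0) (v := 1) k).integrable_norm_pow' 
  refine this.mono' (by fun_prop) (ae_of_all _ fun x => ?_)
  simp

/-- bounded continuous functions -/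
structure BC (F : ℝ → ℝ) : Prop where
  cont : Continuous F
  bdd : ∃ C, ∀ x, |F x| ≤ C

lemma BC.int1 {F : ℝ → ℝ} (h : BC F) (c σ : ℝ) (k : ℕ) :
    Integrable (fun z : ℝ => z ^ k * F (c + σ * z)) γ := by
  obtain ⟨C, hC⟩ := h.bdd
  have := h.cont
  exact (integrable_pow k).mul_bdd (c := C) (by fun_prop) (ae_of_all _ fun z => hC _)

lemma BC.int2 {F : ℝ → ℝ} (h : BC F) (m a σ : ℝ) (k : ℕ) :
    Integrable (fun w : ℝ × ℝ => w.2 ^ k * F (m + a * w.1 + σ * w.2)) (γ.prod γ) := by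
  obtain ⟨C, hC⟩ := h.bdd
  have := h.cont
  have h1 : Integrable (fun w : ℝ × ℝ => w.2 ^ k) (γ.prod γ) := (integrable_pow k).comp_snd γ
  exact h1.mul_bdd (c := C) (by fun_prop) (ae_of_all _ fun z => hC _)

/-- `E [z^k F (m + a g + σ z)]` -/
def G2 (m a σ : ℝ) (k : ℕ) (F : ℝ → ℝ) : ℝ :=
  ∫ w : ℝ × ℝ, w.2 ^ k * F (m + a * w.1 + σ * w.2) ∂(γ.prod γ)

lemma G2_eq {F : ℝ → ℝ} (h : BC F) (m a σ : ℝ) (k : ℕ) :
    G2 m a σ k F = ∫ g, ∫ z, z ^ k * F (m + a * g + σ * z) ∂γ ∂γ :=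
  integral_prod _ (h.int2 m a σ k)

lemma G2_zero {F : ℝ → ℝ} (h : BC F) (m a σ : ℝ) : G2 m a σ 0 F = gE F m (a ^ 2 + σ ^ 2) := by
  have hc := h.cont
  have h1 : (γ.prod γ).map (fun w : ℝ × ℝ => a * w.1 + σ * w.2) =
      γ.map (fun z => √(a ^ 2 + σ ^ 2) * z) := by
    have : (γ.prod γ).map (fun w : ℝ × ℝ => a * w.1 + σ * w.2) =
        (γ.map (a * ·)) ∗ (γ.map (σ * ·)) := by
      rw [Measure.conv, Measure.map_prod_map _ _ (by fun_prop) (by fun_prop),
        Measure.map_map (by fun_prop) (by fun_prop)]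
      rfl
    rw [this, gaussianReal_map_const_mul, gaussianReal_map_const_mul, gaussianReal_map_const_mul,
      gaussianReal_conv_gaussianReal]
    congr 1
    · simp
    · ext
      simp [Real.sq_sqrt (by positivity : 0 ≤ a ^ 2 + σ ^ 2)]
  have h2 : G2 m a σ 0 F = ∫ y, F (m + y) ∂((γ.prod γ).map fun w : ℝ × ℝ => a * w.1 + σ * w.2) := by
    rw [integral_map (by fun_prop) (by fun_prop), G2]
    simp only [pow_zero, one_mul, add_assoc]
  rw [h2, h1, integral_map (by fun_prop) (by fun_prop), gE]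

lemma G2_one {F F' : ℝ → ℝ} (h : BC F) (h' : BC F') (hd : ∀ x, HasDerivAt F (F' x) x)
    (m a σ : ℝ) : G2 m a σ 1 F = σ * G2 m a σ 0 F' := by
  rw [G2_eq h, G2_eq h', ← integral_const_mul]
  congr 1
  funext g
  rw [← integral_const_mul]
  have := stein_gen (f := fun z => F (m + a * g + σ * z))
    (f' := fun z => σ * (z ^ 0 * F' (m + a * g + σ * z)))
    (fun z => by
      have := (hd (m + a * g + σ * z)).comp z
        (((hasDerivAt_id' z).const_mul σ).const_add (m + a * g))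
      exact this.congr_deriv (by ring))
    (by simpa using h.int1 (m + a * g) σ 0) ((h'.int1 (m + a * g) σ 0).const_mul σ)
    (by simpa using h.int1 (m + a * g) σ 1)
  simpa using this

lemma G2_two {F F' : ℝ → ℝ} (h : BC F) (h' : BC F') (hd : ∀ x, HasDerivAt F (F' x) x)
    (m a σ : ℝ) : G2 m a σ 2 F = G2 m a σ 0 F + σ * G2 m a σ 1 F' := by
  rw [G2_eq h, G2_eq h, G2_eq h', ← integral_const_mul, ← integral_add
    (h.int2 m a σ 0).integral_prod_left ((h'.int2 m a σ 1).integral_prod_left.const_mul σ)]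
  congr 1
  funext g
  rw [← integral_const_mul, ← integral_add (h.int1 (m + a * g) σ 0)
    ((h'.int1 (m + a * g) σ 1).const_mul σ)]
  have := stein_gen (f := fun z => z * F (m + a * g + σ * z))
    (f' := fun z => z ^ 0 * F (m + a * g + σ * z) + σ * (z ^ 1 * F' (m + a * g + σ * z)))
    (fun z => by
      have h1 : HasDerivAt (fun z => F (m + a * g + σ * z)) (F' (m + a * g + σ * z) * (σ * 1)) z :=
        (hd (m + a * g + σ * z)).comp z (((hasDerivAt_id' z).const_mul σ).const_add (m + a * g))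
      exact ((hasDerivAt_id' z).fun_mul h1).congr_deriv (by ring))
    (by simpa using h.int1 (m + a * g) σ 1)
    ((h.int1 (m + a * g) σ 0).add ((h'.int1 (m + a * g) σ 1).const_mul σ))
    (by simpa [sq, mul_assoc] using h.int1 (m + a * g) σ 2)
  rw [← this]
  simp only [sq, mul_assoc]

/-- quartic polynomial of `tanh` -/
def pt (c0 c1 c2 c3 c4 : ℝ) (x : ℝ) : ℝ :=
  c0 + c1 * Real.tanh x + c2 * Real.tanh x ^ 2 + c3 * Real.tanh x ^ 3 + c4 * Real.tanh x ^ 4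

lemma abs_tanh_pow (x : ℝ) (k : ℕ) : |Real.tanh x ^ k| ≤ 1 := by
  rw [abs_pow]
  exact pow_le_one₀ (abs_nonneg _) (Real.abs_tanh_lt_one x).le

lemma bc_pow (k : ℕ) : BC fun x => Real.tanh x ^ k :=
  ⟨continuous_tanh'.pow k, 1, fun x => abs_tanh_pow x k⟩

lemma bc_pt (c0 c1 c2 c3 c4 : ℝ) : BC (pt c0 c1 c2 c3 c4) := by
  have := continuous_tanh'
  refine ⟨by unfold pt; fun_prop, |c0| + |c1| + |c2| + |c3| + |c4|, fun x => ?_⟩
  have key : ∀ (c : ℝ) (k : ℕ), |c * Real.tanh x ^ k| ≤ |c| := fun c k => by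
    rw [abs_mul]; exact mul_le_of_le_one_right (abs_nonneg _) (abs_tanh_pow x k)
  have h1 := key c1 1
  rw [pow_one] at h1
  unfold pt
  have := key c2 2
  have := key c3 3
  have := key c4 4
  refine (abs_add_le _ _).trans (add_le_add ((abs_add_le _ _).trans (add_le_add
    ((abs_add_le _ _).trans (add_le_add ((abs_add_le _ _).trans (add_le_add le_rfl ?_)) ?_)) ?_)) ?_)
  all_goals assumption

lemma gE_pt (c0 c1 c2 c3 c4 m v : ℝ) : gE (pt c0 c1 c2 c3 c4) m v =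
    c0 + c1 * gE Real.tanh m v + c2 * gE (fun x => Real.tanh x ^ 2) m v +
      c3 * gE (fun x => Real.tanh x ^ 3) m v + c4 * gE (fun x => Real.tanh x ^ 4) m v := by
  have hi : ∀ (c : ℝ) (k : ℕ), Integrable (fun z => c * Real.tanh (m + √v * z) ^ k) γ := fun c k => by
    simpa using ((bc_pow k).int1 m (√v) 0).const_mul c
  have h1 : Integrable (fun z => c1 * Real.tanh (m + √v * z)) γ := by simpa using hi c1 1
  have a1 : Integrable (fun z => c0 + c1 * Real.tanh (m + √v * z)) γ := (integrable_const _).add h1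
  have a2 : Integrable (fun z => c0 + c1 * Real.tanh (m + √v * z) +
      c2 * Real.tanh (m + √v * z) ^ 2) γ := a1.add (hi c2 2)
  have a3 : Integrable (fun z => c0 + c1 * Real.tanh (m + √v * z) +
      c2 * Real.tanh (m + √v * z) ^ 2 + c3 * Real.tanh (m + √v * z) ^ 3) γ := a2.add (hi c3 3)
  simp only [gE, pt]
  rw [integral_add a3 (hi c4 4), integral_add a2 (hi c3 3), integral_add a1 (hi c2 2),
    integral_add (integrable_const _) h1]
  simp only [integral_const_mul, integral_const, probReal_univ, smul_eq_mul, one_mul]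

lemma hasDerivAt_pt2 (c0 c1 c2 c3 : ℝ) (x : ℝ) :
    HasDerivAt (pt c0 c1 c2 c3 0) (pt c1 (2 * c2) (3 * c3 - c1) (-(2 * c2)) (-(3 * c3)) x) x := by
  have h := hasDerivAt_tanh' x
  have := ((((h.const_mul c1).const_add c0).fun_add ((h.fun_pow 2).const_mul c2)).fun_add
    ((h.fun_pow 3).const_mul c3)).fun_add ((h.fun_pow 4).const_mul 0)
  refine this.congr_deriv ?_
  simp only [pt]
  push_cast
  ring

/-- tail function -/
def tau (M z : ℝ) : ℝ := max (z ^ 2 - M) 0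

lemma tau_nonneg (M z : ℝ) : 0 ≤ tau M z := le_max_right _ _

lemma tau_le_sq {M : ℝ} (hM : 0 ≤ M) (z : ℝ) : tau M z ≤ z ^ 2 :=
  max_le (by linarith) (sq_nonneg _)

lemma sq_le_tau (M z : ℝ) : z ^ 2 ≤ M + tau M z := by
  have := le_max_left (z ^ 2 - M) 0
  unfold tau; linarith

@[fun_prop] lemma continuous_tau (M : ℝ) : Continuous (tau M) := by unfold tau; fun_prop

/-- mean of the tail function -/
def tauE (M : ℝ) : ℝ := ∫ z, tau M z ∂γ

lemma tauE_le {M : ℝ} (hM : 0 < M) : tauE M ≤ TapFrz.m4 / (4 * M) := by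
  rw [tauE, TapFrz.m4, ← integral_div]
  refine integral_mono_of_nonneg (ae_of_all _ fun z => tau_nonneg M z)
    (TapFrz.integrable_four.div_const _) (ae_of_all _ fun z => max_le ?_ (by positivity))
  rw [le_div_iff₀ (by positivity)]
  nlinarith [sq_nonneg (z ^ 2 - 2 * M)]

/-- the test functions of `(t, z, ξ)`, `t = tanh x` -/
def tf (M t z ξ : ℝ) : Fin 13 → ℝ :=
  ![(1 - t ^ 2) * z ^ 2, (1 - t ^ 2) * ξ ^ 2, (1 - t ^ 2) * z * ξ, (1 - t ^ 2) * z,
    (1 - t ^ 2) * t * z, (1 - t ^ 2) * ξ, (1 - t ^ 2) * t * ξ, 1 - t ^ 2, (1 - t ^ 2) * t,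
    (1 - t ^ 2) * t ^ 2, t * ξ, tau M z, tau M ξ]

/-- their population values -/
def tm (M σ q k : ℝ) : Fin 13 → ℝ :=
  ![1 - q - 2 * σ ^ 2 * (1 - q - 3 * k), 1 - q, 0, -(2 * σ * k), σ * (1 - q - 3 * k), 0, 0, 1 - q,
    k, k, 0, tauE M, tauE M]

lemma abs_tf_le {M t : ℝ} (hM : 0 ≤ M) (ht : |t| ≤ 1) (z ξ : ℝ) (j : Fin 13) :
    |tf M t z ξ j| ≤ 1 * (1 + z ^ 2 + ξ ^ 2) := by
  have ht2 : t ^ 2 ≤ 1 := by rw [← sq_abs]; exact pow_le_one₀ (abs_nonneg _) ht
  have hD : |1 - t ^ 2| ≤ 1 := abs_le.2 ⟨by linarith, by nlinarith [sq_nonneg t]⟩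
  have hDt : |(1 - t ^ 2) * t| ≤ 1 := by
    rw [abs_mul]; exact mul_le_one₀ hD (abs_nonneg _) ht
  have key : ∀ a y : ℝ, |a| ≤ 1 → |y| ≤ 1 + z ^ 2 + ξ ^ 2 → |a * y| ≤ 1 * (1 + z ^ 2 + ξ ^ 2) :=
    fun a y ha hy => by rw [abs_mul]; exact mul_le_mul ha hy (abs_nonneg _) zero_le_one
  have hz2 := sq_nonneg z
  have hx2 := sq_nonneg ξ
  have hz : |z| ≤ 1 + z ^ 2 + ξ ^ 2 := abs_le.2 ⟨by nlinarith, by nlinarith⟩
  have hx : |ξ| ≤ 1 + z ^ 2 + ξ ^ 2 := abs_le.2 ⟨by nlinarith, by nlinarith⟩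
  fin_cases j
  · exact key _ _ hD (by rw [abs_of_nonneg hz2]; linarith)
  · exact key _ _ hD (by rw [abs_of_nonneg hx2]; linarith)
  · show |(1 - t ^ 2) * z * ξ| ≤ _
    rw [mul_assoc]
    exact key _ _ hD (abs_le.2 ⟨by nlinarith [sq_nonneg (z + ξ)], by nlinarith [sq_nonneg (z - ξ)]⟩)
  · exact key _ _ hD hz
  · exact key _ _ hDt hz
  · exact key _ _ hD hx
  · exact key _ _ hDt hx
  · show |1 - t ^ 2| ≤ _
    linarith
  · show |(1 - t ^ 2) * t| ≤ _
    linarith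
  · exact key _ _ hD (by rw [abs_of_nonneg (sq_nonneg t)]; linarith)
  · exact key _ _ ht hx
  · show |tau M z| ≤ _
    rw [abs_of_nonneg (tau_nonneg _ _)]
    linarith [tau_le_sq hM z]
  · show |tau M ξ| ≤ _
    rw [abs_of_nonneg (tau_nonneg _ _)]
    linarith [tau_le_sq hM ξ]

lemma continuous_tf (M : ℝ) (j : Fin 13) :
    Continuous fun w : ℝ × ℝ × ℝ => tf M w.1 w.2.1 w.2.2 j := by
  fin_cases j <;> simp only [tf] <;> simp <;> fun_prop

lemma E3_mul (m a σ : ℝ) (k : ℕ) (F h : ℝ → ℝ) :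
    E3 (fun g z ξ => z ^ k * F (m + a * g + σ * z) * h ξ) = G2 m a σ k F * ∫ ξ, h ξ ∂γ :=
  integral_prod_mul (μ := γ.prod γ) (ν := γ)
    (fun w : ℝ × ℝ => w.2 ^ k * F (m + a * w.1 + σ * w.2)) h

lemma int_id : ∫ x : ℝ, x ∂γ = 0 := by simp [integral_id_gaussianReal]

lemma int_sq : ∫ x : ℝ, x ^ 2 ∂γ = 1 := by
  have h := variance_id_gaussianReal (μ := 0) (v := 1)
  rw [variance_eq_integral measurable_id.aemeasurable] at h
  simpa [integral_id_gaussianReal] using h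

/-- **population values** -/
theorem E3_tf {m a σ q q4 : ℝ} (M : ℝ) (h1 : gE Real.tanh m (a ^ 2 + σ ^ 2) = q)
    (h2 : gE (fun x => Real.tanh x ^ 2) m (a ^ 2 + σ ^ 2) = q)
    (h3 : gE (fun x => Real.tanh x ^ 3) m (a ^ 2 + σ ^ 2) = q4)
    (h4 : gE (fun x => Real.tanh x ^ 4) m (a ^ 2 + σ ^ 2) = q4) (j : Fin 13) :
    E3 (fun g z ξ => tf M (Real.tanh (m + a * g + σ * z)) z ξ j) = tm M σ q (q - q4) j := by
  have g0 : ∀ c0 c1 c2 c3 c4, G2 m a σ 0 (pt c0 c1 c2 c3 c4) =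
      c0 + c1 * q + c2 * q + c3 * q4 + c4 * q4 := fun c0 c1 c2 c3 c4 => by
    rw [G2_zero (bc_pt _ _ _ _ _), gE_pt, h1, h2, h3, h4]
  have g1 : ∀ c0 c1 c2 c3, G2 m a σ 1 (pt c0 c1 c2 c3 0) =
      σ * (c1 + 2 * c2 * q + (3 * c3 - c1) * q + -(2 * c2) * q4 + -(3 * c3) * q4) :=
    fun c0 c1 c2 c3 => by
      rw [G2_one (bc_pt _ _ _ _ _) (bc_pt _ _ _ _ _) (hasDerivAt_pt2 c0 c1 c2 c3), g0]
  have g2 : G2 m a σ 2 (pt 1 0 (-1) 0 0) = 1 - q - 2 * σ ^ 2 * (1 - q - 3 * (q - q4)) := by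
    rw [G2_two (bc_pt _ _ _ _ _) (bc_pt _ _ _ _ _) (hasDerivAt_pt2 1 0 (-1) 0), g0]
    simp only [mul_zero, neg_zero]
    rw [g1]
    ring
  have key : ∀ (k : ℕ) (F h : ℝ → ℝ) (f : ℝ → ℝ → ℝ → ℝ) (r : ℝ),
      (∀ g z ξ, f g z ξ = z ^ k * F (m + a * g + σ * z) * h ξ) →
      G2 m a σ k F * ∫ ξ, h ξ ∂γ = r → E3 f = r := by
    intro k F h f r hf hr
    rw [← hr, ← E3_mul]
    congr 1
    funext g z ξ
    exact hf g z ξ
  have hone : ∫ _ : ℝ, (1 : ℝ) ∂γ = 1 := by simp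
  fin_cases j
  · exact key 2 (pt 1 0 (-1) 0 0) (fun _ => 1) _ _
      (fun g z ξ => by show (1 - _ ^ 2) * z ^ 2 = _; unfold pt; ring)
      (by rw [g2, hone]; exact mul_one _)
  · exact key 0 (pt 1 0 (-1) 0 0) (fun ξ => ξ ^ 2) _ _
      (fun g z ξ => by show (1 - _ ^ 2) * ξ ^ 2 = _; unfold pt; ring)
      (by rw [g0, int_sq]; show _ = 1 - q; ring)
  · exact key 1 (pt 1 0 (-1) 0 0) (fun ξ => ξ) _ _
      (fun g z ξ => by show (1 - _ ^ 2) * z * ξ = _; unfold pt; ring)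
      (by rw [int_id]; exact mul_zero _)
  · exact key 1 (pt 1 0 (-1) 0 0) (fun _ => 1) _ _
      (fun g z ξ => by show (1 - _ ^ 2) * z = _; unfold pt; ring)
      (by rw [g1, hone]; show _ = -(2 * σ * (q - q4)); ring)
  · exact key 1 (pt 0 1 0 (-1) 0) (fun _ => 1) _ _
      (fun g z ξ => by show (1 - _ ^ 2) * _ * z = _; unfold pt; ring)
      (by rw [g1, hone]; show _ = σ * (1 - q - 3 * (q - q4)); ring)
  · exact key 0 (pt 1 0 (-1) 0 0) (fun ξ => ξ) _ _
      (fun g z ξ => by show (1 - _ ^ 2) * ξ = _; unfold pt; ring)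
      (by rw [int_id]; exact mul_zero _)
  · exact key 0 (pt 0 1 0 (-1) 0) (fun ξ => ξ) _ _
      (fun g z ξ => by show (1 - _ ^ 2) * _ * ξ = _; unfold pt; ring)
      (by rw [int_id]; exact mul_zero _)
  · exact key 0 (pt 1 0 (-1) 0 0) (fun _ => 1) _ _
      (fun g z ξ => by show 1 - _ ^ 2 = _; unfold pt; ring)
      (by rw [g0, hone]; show _ = 1 - q; ring)
  · exact key 0 (pt 0 1 0 (-1) 0) (fun _ => 1) _ _
      (fun g z ξ => by show (1 - _ ^ 2) * _ = _; unfold pt; ring)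
      (by rw [g0, hone]; show _ = q - q4; ring)
  · exact key 0 (pt 0 0 1 0 (-1)) (fun _ => 1) _ _
      (fun g z ξ => by show (1 - _ ^ 2) * _ ^ 2 = _; unfold pt; ring)
      (by rw [g0, hone]; show _ = q - q4; ring)
  · exact key 0 (pt 0 1 0 0 0) (fun ξ => ξ) _ _
      (fun g z ξ => by show _ * ξ = _; unfold pt; ring)
      (by rw [int_id]; exact mul_zero _)
  · show E3 (fun _ z _ => tau M z) = tauE M
    have : E3 (fun _ z _ => tau M z) =
        ∫ w : (ℝ × ℝ) × ℝ, ((1 : ℝ) * tau M w.1.2) * (1 : ℝ) ∂((γ.prod γ).prod γ) := by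
      simp [E3]
    rw [this, integral_prod_mul (μ := γ.prod γ) (ν := γ) (fun w : ℝ × ℝ => (1 : ℝ) * tau M w.2)
      (fun _ => (1 : ℝ)), integral_prod_mul (μ := γ) (ν := γ) (fun _ => (1 : ℝ)) (tau M), hone]
    simp [tauE]
  · exact key 0 (pt 1 0 0 0 0) (tau M) _ _ (fun g z ξ => by show tau M ξ = _; unfold pt; ring)
      (by rw [g0]; show _ = tauE M; unfold tauE; ring)

end Crest.Agent.T157.Tap.Sfg

end
end

-- ▼ part T157/TapSfgC_18
section

/-!
# Row 157, part A, `SFGStmt` (helper18): the deterministic inequality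
-/

set_option autoImplicit false

noncomputable section

namespace Crest.Agent.T157.Tap.Sfg

open Matrix Set
open Crest.Agent.T157.E Crest.Agent.T157.Eig Crest.Agent.T157.Cond

lemma scalar {β q ρ k a0 α μ A0 A1 A1' vZ vξ ζ S e' Y δ1 δ2 r ε z0 T c : ℝ}
    (hβ0 : 0 < β) (hβ1 : β ≤ 1) (ha0 : 0 < a0) (hq : a0 ≤ q) (hq1 : q ≤ 1) (hρ0 : 0 ≤ ρ)
    (hρ : ρ ^ 2 = q) (hk : 0 ≤ k) (hl : α ^ 2 + μ ^ 2 ≤ 1) (hA0 : |A0| ≤ 1)
    (hA1 : |A1 - ρ * α| ≤ δ1) (hA1' : |A1' - A1| ≤ r)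
    (hCS : 2 * (β * α * vZ + β * μ * vξ + β ^ 2 * A0 * A0 + β ^ 2 * (2 * (ρ * α) - A0) * A1) ≤
      (1 - a0 / 2) + Y / (1 - a0 / 2))
    (hY : Y ≤ β ^ 2 * (1 - q) * (α ^ 2 + μ ^ 2) +
      β ^ 4 * (1 - q - k) * ((A0 - ρ * α) ^ 2 + (ρ * α) ^ 2) + T) (hT : 0 ≤ T)
    (he : 1 - q - δ2 ≤ e') (hδ2 : 0 ≤ δ2) (hS : |S| ≤ ε) (hζ : |ζ| ≤ z0) :
    2 * β * μ * (vξ - ζ * α) + β * (2 * α * vZ - S * α ^ 2) + β ^ 2 * A0 ^ 2 -
        β ^ 2 * e' * (α ^ 2 + μ ^ 2) + 2 * β ^ 2 * A1' ^ 2 - 1 + c ≤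
      c - a0 ^ 2 / 4 + 2 * T + δ2 + 6 * δ1 + 4 * (δ1 + r) + 2 * (δ1 + r) ^ 2 + ε + 2 * z0 := by
  have hb0 : 0 ≤ β ^ 2 := sq_nonneg _
  have hb1 : β ^ 2 ≤ 1 := pow_le_one₀ hβ0.le hβ1
  have hc : 1 / 2 ≤ 1 - a0 / 2 := by linarith
  have hα : |α| ≤ 1 := by
    rw [← sq_le_one_iff_abs_le_one]; linarith [sq_nonneg μ]
  have hμ : |μ| ≤ 1 := by
    rw [← sq_le_one_iff_abs_le_one]; linarith [sq_nonneg α]
  have hρ1 : ρ ≤ 1 := (sq_le_one_iff₀ hρ0).1 (by linarith)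
  have hA : |ρ * α| ≤ 1 := by
    rw [abs_mul, abs_of_nonneg hρ0]; exact mul_le_one₀ hρ1 (abs_nonneg _) hα
  set A := ρ * α with hAdef
  set l := α ^ 2 + μ ^ 2 with hldef
  have hl0 : 0 ≤ l := by positivity
  set Q := (A0 - A) ^ 2 + A ^ 2 with hQ
  have hQ0 : 0 ≤ Q := by positivity
  set X := β ^ 2 * (1 - q) * l with hX
  have hbl : β ^ 2 * l ≤ 1 := mul_le_one₀ hb1 hl0 hl
  have hX1 : X ≤ (1 - a0 / 2) ^ 2 := by
    have : X = (1 - q) * (β ^ 2 * l) := by rw [hX]; ring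
    have h2 : (1 - q) * (β ^ 2 * l) ≤ 1 - q := mul_le_of_le_one_right (by linarith) hbl
    linarith [sq_nonneg a0]
  have h1 : β ^ 2 * (1 - q - k) ≤ 1 - a0 / 2 := by
    have : β ^ 2 * (1 - q - k) ≤ β ^ 2 * (1 - q) := mul_le_mul_of_nonneg_left (by linarith) hb0
    have : β ^ 2 * (1 - q) ≤ 1 - q := mul_le_of_le_one_left (by linarith) hb1
    linarith
  have h2 : Y / (1 - a0 / 2) ≤ X + a0 / 2 * (1 - a0 / 2) + β ^ 2 * Q + 2 * T := by
    rw [div_le_iff₀ (by linarith)]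
    have e1 : β ^ 4 * (1 - q - k) * Q ≤ β ^ 2 * Q * (1 - a0 / 2) := by
      have := mul_le_mul_of_nonneg_left h1 (mul_nonneg hb0 hQ0)
      calc β ^ 4 * (1 - q - k) * Q = β ^ 2 * Q * (β ^ 2 * (1 - q - k)) := by ring
        _ ≤ _ := this
    have e2 := mul_le_mul_of_nonneg_left hX1 (by linarith : 0 ≤ a0 / 2)
    have e3 := mul_le_mul_of_nonneg_left hc hT
    linarith
  have h3 : -(β ^ 2 * e' * l) ≤ -X + δ2 := by
    have e1 := mul_le_mul_of_nonneg_left he (mul_nonneg hb0 hl0)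
    have e2 : β ^ 2 * l * δ2 ≤ δ2 := mul_le_of_le_one_left hδ2 hbl
    have : X = β ^ 2 * l * (1 - q) := by rw [hX]; ring
    linarith
  have hd : |A1' - A| ≤ δ1 + r := by
    have := abs_add_le (A1 - A) (A1' - A1)
    rw [show A1 - A + (A1' - A1) = A1' - A by ring] at this
    linarith
  have h4 : -(A0 ^ 2) - 2 * (2 * A - A0) * A1 + 2 * A1' ^ 2 + Q ≤
      6 * δ1 + 4 * (δ1 + r) + 2 * (δ1 + r) ^ 2 := by
    have e0 : -(A0 ^ 2) - 2 * (2 * A - A0) * A1 + 2 * A1' ^ 2 + Q =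
        -(2 * ((2 * A - A0) * (A1 - A))) + 4 * (A * (A1' - A)) + 2 * (A1' - A) ^ 2 := by
      rw [hQ]; ring
    have e1 : |(2 * A - A0) * (A1 - A)| ≤ 3 * δ1 := by
      rw [abs_mul]
      refine mul_le_mul ?_ hA1 (abs_nonneg _) (by norm_num)
      have := abs_le.1 hA
      have := abs_le.1 hA0
      rw [abs_le]; constructor <;> linarith
    have e2 : |A * (A1' - A)| ≤ 1 * (δ1 + r) := by
      rw [abs_mul]; exact mul_le_mul hA hd (abs_nonneg _) zero_le_one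
    have e3 : (A1' - A) ^ 2 ≤ (δ1 + r) ^ 2 := by
      rw [← sq_abs]; exact pow_le_pow_left₀ (abs_nonneg _) hd 2
    have := abs_le.1 e1
    have := abs_le.1 e2
    rw [e0]; linarith
  have hR0 : 0 ≤ 6 * δ1 + 4 * (δ1 + r) + 2 * (δ1 + r) ^ 2 := by
    have := (abs_nonneg _).trans hA1
    have := (abs_nonneg _).trans hA1'
    positivity
  have h5 : β ^ 2 * (-(A0 ^ 2) - 2 * (2 * A - A0) * A1 + 2 * A1' ^ 2 + Q) ≤
      6 * δ1 + 4 * (δ1 + r) + 2 * (δ1 + r) ^ 2 :=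
    (mul_le_mul_of_nonneg_left h4 hb0).trans (mul_le_of_le_one_left hR0 hb1)
  have hβa : |β| ≤ 1 := by rwa [abs_of_pos hβ0]
  have h6 : |β * μ * α * ζ| ≤ 1 * z0 := by
    rw [abs_mul]
    refine mul_le_mul ?_ hζ (abs_nonneg _) zero_le_one
    rw [abs_mul, abs_mul]
    exact mul_le_one₀ (mul_le_one₀ hβa (abs_nonneg _) hμ) (abs_nonneg _) hα
  have h7 : |β * α * α * S| ≤ 1 * ε := by
    rw [abs_mul]
    refine mul_le_mul ?_ hS (abs_nonneg _) zero_le_one
    rw [abs_mul, abs_mul]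
    exact mul_le_one₀ (mul_le_one₀ hβa (abs_nonneg _) hα) (abs_nonneg _) hα
  have h6' := (abs_le.1 h6).1
  have h7' := (abs_le.1 h7).1
  linarith

/-- coefficients of the test functions in `D Ξ²` and in the tail terms -/
def cf (c1 c2 c3 c4 : ℝ) : Fin 13 → ℝ :=
  ![c1 ^ 2, c2 ^ 2, 2 * c1 * c2, 2 * c1 * c3, 2 * c1 * c4, 2 * c2 * c3, 2 * c2 * c4, c3 ^ 2,
    2 * c3 * c4, c4 ^ 2, 0, 3, 3]

lemma abs_cf_le {c1 c2 c3 c4 : ℝ} (h1 : |c1| ≤ 1) (h2 : |c2| ≤ 1) (h3 : |c3| ≤ 1) (h4 : |c4| ≤ 3)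
    (j : Fin 13) : |cf c1 c2 c3 c4 j| ≤ 9 := by
  have k1 : ∀ a : ℝ, |a| ≤ 3 → |a ^ 2| ≤ 9 := fun a ha => by
    rw [abs_pow]; nlinarith [abs_nonneg a]
  have k2 : ∀ a b : ℝ, |a| ≤ 1 → |b| ≤ 3 → |2 * a * b| ≤ 9 := fun a b ha hb => by
    rw [abs_mul, abs_mul, abs_two]; nlinarith [abs_nonneg a, abs_nonneg b]
  have h1' : |c1| ≤ 3 := by linarith
  have h2' : |c2| ≤ 3 := by linarith
  have h3' : |c3| ≤ 3 := by linarith
  fin_cases j
  exacts [k1 _ h1', k1 _ h2', k2 _ _ h1 h2', k2 _ _ h1 h3', k2 _ _ h1 h4, k2 _ _ h2 h3',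
    k2 _ _ h2 h4, k1 _ h3', k2 _ _ h3 h4, k1 _ h4, by show |(0 : ℝ)| ≤ 9; norm_num,
    by show |(3 : ℝ)| ≤ 9; norm_num, by show |(3 : ℝ)| ≤ 9; norm_num]

lemma sum_cf_tf (c1 c2 c3 c4 M t z ξ : ℝ) : ∑ j, cf c1 c2 c3 c4 j * tf M t z ξ j =
    (1 - t ^ 2) * (c1 * z + c2 * ξ + c3 + c4 * t) ^ 2 + 3 * (tau M z + tau M ξ) := by
  simp only [Fin.sum_univ_succ, cf, tf, Matrix.cons_val_zero, Matrix.cons_val_succ,
    Finset.univ_eq_empty, Finset.sum_empty]
  ring

lemma sum_cf_tm {β ρ q : ℝ} (hρ : ρ ^ 2 = q) (k M α μ A0 : ℝ) :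
    ∑ j, cf (β * α) (β * μ) (β ^ 2 * A0) (β ^ 2 * (2 * (ρ * α) - A0)) j * tm M (β * ρ) q k j =
      β ^ 2 * (1 - q) * (α ^ 2 + μ ^ 2) +
        β ^ 4 * (1 - q - k) * ((A0 - ρ * α) ^ 2 + (ρ * α) ^ 2) + 6 * tauE M := by
  simp only [Fin.sum_univ_succ, cf, tm, Matrix.cons_val_zero, Matrix.cons_val_succ,
    Finset.univ_eq_empty, Finset.sum_empty]
  subst hρ
  ring

lemma pointwise {c1 c2 c3 c4 M t t' : ℝ} (h1 : |c1| ≤ 1) (h2 : |c2| ≤ 1) (h3 : |c3| ≤ 1)
    (h4 : |c4| ≤ 3) (hM : 0 ≤ M) (ht : |t| ≤ 1) (ht' : |t'| ≤ 1) (z ξ : ℝ) :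
    (1 - t' ^ 2) * (c1 * z + c2 * ξ + c3 + c4 * t) ^ 2 ≤
      ∑ j, cf c1 c2 c3 c4 j * tf M t z ξ j + 6 * (2 * M + 16) * |t' - t| := by
  rw [sum_cf_tf]
  have a1 : (c1 * z) ^ 2 ≤ M + tau M z := by
    refine le_trans ?_ (sq_le_tau M z)
    rw [mul_pow]
    exact mul_le_of_le_one_left (sq_nonneg _) ((sq_le_one_iff_abs_le_one _).2 h1)
  have a2 : (c2 * ξ) ^ 2 ≤ M + tau M ξ := by
    refine le_trans ?_ (sq_le_tau M ξ)
    rw [mul_pow]
    exact mul_le_of_le_one_left (sq_nonneg _) ((sq_le_one_iff_abs_le_one _).2 h2)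
  have a3 : (c3 + c4 * t) ^ 2 ≤ 16 := by
    have : |c4 * t| ≤ 3 * 1 := by rw [abs_mul]; exact mul_le_mul h4 ht (abs_nonneg _) (by norm_num)
    have h5 : |c3 + c4 * t| ≤ 4 := by linarith [abs_add_le c3 (c4 * t)]
    rw [← sq_abs]
    exact (pow_le_pow_left₀ (abs_nonneg _) h5 2).trans (by norm_num)
  set Ξ := c1 * z + c2 * ξ + c3 + c4 * t with hΞ
  have a4 : Ξ ^ 2 ≤ 3 * (2 * M + 16) + 3 * (tau M z + tau M ξ) := by
    have : Ξ ^ 2 ≤ 3 * ((c1 * z) ^ 2 + (c2 * ξ) ^ 2 + (c3 + c4 * t) ^ 2) := by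
      rw [hΞ]
      linarith [sq_nonneg (c1 * z - c2 * ξ), sq_nonneg (c1 * z - (c3 + c4 * t)),
        sq_nonneg (c2 * ξ - (c3 + c4 * t))]
    linarith
  set δ := |t ^ 2 - t' ^ 2| with hδ
  have d0 : 0 ≤ δ := abs_nonneg _
  have d1 : δ ≤ 1 := by
    have := (sq_le_one_iff_abs_le_one _).2 ht
    have := (sq_le_one_iff_abs_le_one _).2 ht'
    rw [hδ, abs_le]; constructor <;> linarith [sq_nonneg t, sq_nonneg t']
  have d2 : δ ≤ 2 * |t' - t| := by
    rw [hδ, show t ^ 2 - t' ^ 2 = (t + t') * (t - t') by ring, abs_mul, abs_sub_comm t t']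
    refine mul_le_mul_of_nonneg_right ?_ (abs_nonneg _)
    have := abs_add_le t t'
    linarith
  have a5 : (t ^ 2 - t' ^ 2) * Ξ ^ 2 ≤ δ * Ξ ^ 2 :=
    mul_le_mul_of_nonneg_right (le_abs_self _) (sq_nonneg _)
  have a6 := mul_le_mul_of_nonneg_left a4 d0
  have a7 : δ * (tau M z + tau M ξ) ≤ tau M z + tau M ξ :=
    mul_le_of_le_one_left (add_nonneg (tau_nonneg _ _) (tau_nonneg _ _)) d1
  have a8 := mul_le_mul_of_nonneg_right d2 (by positivity : 0 ≤ 3 * (2 * M + 16))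
  linarith

variable {n : ℕ}

/-- total deviation of the thirteen empirical averages -/
def Err (M σ q k : ℝ) (p Z ξ : V n) : ℝ :=
  ∑ j, |avg (fun i => tf M (p i) (Z i) (ξ i) j) - tm M σ q k j|

lemma Err_nonneg (M σ q k : ℝ) (p Z ξ : V n) : 0 ≤ Err M σ q k p Z ξ :=
  Finset.sum_nonneg fun _ _ => abs_nonneg _

lemma avg_abs_le (hn : 0 < n) {w : V n} {r : ℝ} (h : nrm w ≤ r * √n) :
    avg (fun i => |w i|) ≤ r := by
  have hn' : (0 : ℝ) < n := by exact_mod_cast hn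
  have hs : 0 < √(n : ℝ) := Real.sqrt_pos.2 hn'
  have h1 : (fun i => |w i|) ⬝ᵥ (1 : V n) ≤ nrm (fun i => |w i|) * nrm (1 : V n) := dot_le _ _
  have h2 : nrm (fun i => |w i|) = nrm w := by
    simp only [nrm, dotProduct, abs_mul_abs_self]
  have h3 : nrm (1 : V n) = √n := by simp [nrm, dotProduct]
  rw [h2, h3] at h1
  simp only [dotProduct, Pi.one_apply, mul_one] at h1
  rw [avg, div_le_iff₀ hn']
  have h4 := mul_le_mul_of_nonneg_right h hs.le
  rw [mul_assoc, Real.mul_self_sqrt hn'.le] at h4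
  linarith

lemma avgY_le (hn : 0 < n) {c1 c2 c3 c4 M r : ℝ} (h1 : |c1| ≤ 1) (h2 : |c2| ≤ 1) (h3 : |c3| ≤ 1)
    (h4 : |c4| ≤ 3) (hM : 0 ≤ M) {p p' : V n} (hp : Cb p) (hp' : Cb p')
    (hr : nrm (p' - p) ≤ r * √n) (σ q k : ℝ) (Z ξ : V n) :
    avg (fun i => DD p' i * (c1 * Z i + c2 * ξ i + c3 + c4 * p i) ^ 2) ≤
      ∑ j, cf c1 c2 c3 c4 j * tm M σ q k j + 9 * Err M σ q k p Z ξ + 6 * (2 * M + 16) * r := by
  have hn' : (0 : ℝ) < n := by exact_mod_cast hn
  have e1 : avg (fun i => DD p' i * (c1 * Z i + c2 * ξ i + c3 + c4 * p i) ^ 2) ≤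
      ∑ j, cf c1 c2 c3 c4 j * avg (fun i => tf M (p i) (Z i) (ξ i) j) +
        6 * (2 * M + 16) * avg (fun i => |(p' - p) i|) := by
    simp only [avg, ← mul_div_assoc, ← Finset.sum_div, ← add_div]
    refine div_le_div_of_nonneg_right ?_ hn'.le
    simp only [Finset.mul_sum]
    rw [Finset.sum_comm, ← Finset.sum_add_distrib]
    exact Finset.sum_le_sum fun i _ => pointwise h1 h2 h3 h4 hM (hp i) (hp' i) _ _
  have e2 := mul_le_mul_of_nonneg_left (avg_abs_le hn hr) (by positivity : 0 ≤ 6 * (2 * M + 16))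
  have e3 : ∑ j, cf c1 c2 c3 c4 j * avg (fun i => tf M (p i) (Z i) (ξ i) j) ≤
      ∑ j, cf c1 c2 c3 c4 j * tm M σ q k j + 9 * Err M σ q k p Z ξ := by
    rw [Err, Finset.mul_sum, ← Finset.sum_add_distrib]
    refine Finset.sum_le_sum fun j _ => ?_
    have := (le_abs_self _).trans ((abs_mul _ _).le.trans (mul_le_mul_of_nonneg_right
      (abs_cf_le h1 h2 h3 h4 j) (abs_nonneg (avg (fun i => tf M (p i) (Z i) (ξ i) j) -
        tm M σ q k j))))
    linarith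
  linarith

lemma avgDD_le (hn : 0 < n) {p p' : V n} (hp : Cb p) (hp' : Cb p') {r : ℝ}
    (hr : nrm (p' - p) ≤ r * √n) : |avg (DD p') - avg (DD p)| ≤ 2 * r := by
  have hn' : (0 : ℝ) < n := by exact_mod_cast hn
  refine le_trans ?_ (mul_le_mul_of_nonneg_left (avg_abs_le hn hr) (by norm_num : (0 : ℝ) ≤ 2))
  rw [avg, avg, avg, ← sub_div, abs_div, abs_of_pos hn', ← mul_div_assoc, ← Finset.sum_sub_distrib,
    Finset.mul_sum]
  refine div_le_div_of_nonneg_right ((Finset.abs_sum_le_sum_abs _ _).trans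
    (Finset.sum_le_sum fun i _ => ?_)) hn'.le
  rw [DD, DD, show 1 - p' i ^ 2 - (1 - p i ^ 2) = -((p i + p' i) * (p' i - p i)) by ring, abs_neg,
    abs_mul, Pi.sub_apply]
  refine mul_le_mul_of_nonneg_right ?_ (abs_nonneg _)
  have := abs_add_le (p i) (p' i)
  linarith [hp i, hp' i]

/-- completing the square -/
lemma cs_le (hn : 0 < n) {p' u : V n} (hp' : Cb p') (hu : u ⬝ᵥ u = 1) {θ : ℝ} (hθ : 0 < θ)
    (Ξ : V n) : 2 * (1 / √(n : ℝ) * ((dd p' * u) ⬝ᵥ Ξ)) ≤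
      θ + avg (fun i => DD p' i * Ξ i ^ 2) / θ := by
  have hn' : (0 : ℝ) < n := by exact_mod_cast hn
  have hs : (1 / √(n : ℝ)) ^ 2 = 1 / n := by rw [div_pow, Real.sq_sqrt hn'.le, one_pow]
  have h1 : θ = ∑ i, θ * (u i * u i) := by rw [← Finset.mul_sum]; exact (by rw [show ∑ i, u i * u i = 1 from hu, mul_one])
  rw [avg, Finset.sum_div, Finset.sum_div, dotProduct, Finset.mul_sum, Finset.mul_sum]
  nth_rewrite 1 [h1]
  rw [← Finset.sum_add_distrib]
  refine Finset.sum_le_sum fun i _ => ?_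
  have h2 : DD p' i * Ξ i ^ 2 / n / θ = (1 / √(n : ℝ) * dd p' i * Ξ i) ^ 2 / θ := by
    rw [mul_pow, mul_pow, hs, hp'.dd_sq]; ring
  rw [h2, Pi.mul_apply, ← sub_nonneg]
  have h3 : θ * (u i * u i) + (1 / √(n : ℝ) * dd p' i * Ξ i) ^ 2 / θ -
      2 * (1 / √(n : ℝ) * (dd p' i * u i * Ξ i)) =
      (θ * u i - 1 / √(n : ℝ) * dd p' i * Ξ i) ^ 2 / θ := by
    field_simp; ring
  rw [h3]; positivity

end Crest.Agent.T157.Tap.Sfg

end
end

-- ▼ part T157/TapSfgD_18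
section

/-!
# Row 157, part A, `SFGStmt` (helper18): the comparison on one slice
-/

set_option autoImplicit false

noncomputable section

namespace Crest.Agent.T157.Tap.Sfg

open MeasureTheory ProbabilityTheory Matrix Filter Set Topology
open Crest.Agent.T157.E Crest.Agent.T157.Eig Crest.Agent.T157.Cond

variable {n : ℕ}

/-- the revealed column -/
def om (β : ℝ) (x Z : V n) : V n :=
  (1 / √(n : ℝ)) • (Z + (β * (1 - aS x) / √(aS x)) • th x)

/-- the shift of the Sudakov-Fernique comparison -/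
def fT (β c : ℝ) (e ω p' v : V n) : ℝ :=
  β * (2 * (v ⬝ᵥ ω) * (e ⬝ᵥ v) - (e ⬝ᵥ ω) * (e ⬝ᵥ v) ^ 2) + β ^ 2 / n * ((1 : V n) ⬝ᵥ v) ^ 2 -
    β ^ 2 * avg (DD p') * (v ⬝ᵥ v) + 2 * β ^ 2 / n * (p' ⬝ᵥ v) ^ 2 - 1 + c

lemma quad_eq (β c : ℝ) (x Z : V n) (W : Mx n) {p' u : V n} (hp' : Cb p') (hu : u ⬝ᵥ u = 1) :
    c * (u ⬝ᵥ u) - u ⬝ᵥ NN (B1 (β • plW β (glueW β x Z W) 1) (β ^ 2) p') (dd p') *ᵥ u =
      β * ((nextR 1 (th x) *ᵥ (dd p' * u)) ⬝ᵥ W *ᵥ (nextR 1 (th x) *ᵥ (dd p' * u))) +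
        fT β c (unitv (th x)) (om β x Z) p' (dd p' * u) := by
  rw [NN, sub_mulVec, one_mulVec, dotProduct_sub, TapFrz.quad_diag, hp'.B1_eq, hu]
  set v := dd p' * u
  have h1 : v ⬝ᵥ (nextR 1 (th x) * W * nextR 1 (th x)) *ᵥ v =
      (nextR 1 (th x) *ᵥ v) ⬝ᵥ W *ᵥ (nextR 1 (th x) *ᵥ v) := by
    rw [← mulVec_mulVec, ← mulVec_mulVec, Cond.dot_symm (nextR_symm IsProj.one (th x))]
  simp only [plW, glueW, rk2, add_mulVec, sub_mulVec, smul_mulVec, one_mulVec, vmv_mulVec,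
    dotProduct_add, dotProduct_sub, dotProduct_smul, smul_eq_mul, h1, fT, om]
  simp only [dotProduct_comm v (unitv (th x)), dotProduct_comm v (1 : V n), dotProduct_comm v p',
    smul_dotProduct, add_dotProduct, smul_eq_mul, dotProduct_comm Z v, dotProduct_comm (th x) v]
  ring

lemma gam_le (hn : 0 < n) {β q k a0 M r ε c : ℝ} (hβ0 : 0 < β) (hβ1 : β ≤ 1) (ha0 : 0 < a0)
    (hq : a0 ≤ q) (hq1 : q ≤ 1) (hk : 0 ≤ k) (hM : 0 ≤ M) (hr : 0 ≤ r) (hε : ε ≤ a0 / 2)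
    {x Z : V n} (ha : |aS x - q| ≤ ε) (hS : |SS β x Z| ≤ ε) {p' u : V n} (hp' : Cb p')
    (hpr : nrm (p' - th x) ≤ r * √n) (hu : u ⬝ᵥ u = 1) (ξ : V n) :
    2 * (1 / √(n : ℝ)) * len (√β • (nextR 1 (th x) *ᵥ (dd p' * u))) *
        (ξ ⬝ᵥ √β • (nextR 1 (th x) *ᵥ (dd p' * u))) +
      fT β c (unitv (th x)) (om β x Z) p' (dd p' * u) ≤
      c - a0 ^ 2 / 4 + 2 * (6 * tauE M + 9 * Err M (β * √q) q k (th x) Z ξ + 6 * (2 * M + 16) * r) +
        (ε + 2 * r) + 6 * (ε / a0) + 4 * (ε / a0 + r) + 2 * (ε / a0 + r) ^ 2 + ε +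
        2 * (2 / a0 * Err M (β * √q) q k (th x) Z ξ) := by
  have hn' : (0 : ℝ) < n := by exact_mod_cast hn
  have hε0 : 0 ≤ ε := (abs_nonneg _).trans ha
  have ha1 := abs_le.1 ha
  have hapos : 0 < aS x := by linarith
  have hvv : (dd p' * u) ⬝ᵥ (dd p' * u) ≤ 1 := (TapFrz.mul_dot_le (ub_dd p')).trans hu.le
  have hcs := fun c1 c2 c3 c4 : ℝ => cs_le hn hp' hu (θ := 1 - a0 / 2) (by linarith)
    (fun i => c1 * Z i + c2 * ξ i + c3 + c4 * th x i)
  set v := dd p' * u with hv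
  set e := unitv (th x) with he
  set R := √(n : ℝ) with hR
  set w := √(aS x) with hw
  have hR0 : 0 < R := Real.sqrt_pos.2 hn'
  have hw0 : 0 < w := Real.sqrt_pos.2 hapos
  have hRR : (n : ℝ) = R ^ 2 := (Real.sq_sqrt hn'.le).symm
  have hww : w ^ 2 = aS x := Real.sq_sqrt hapos.le
  have hlen : len (th x) = R * w := by rw [len, Kr50.dot_th hn, Real.sqrt_mul hn'.le]
  have hp0 : th x ≠ 0 := fun h => by
    have := len_eq_zero.2 h
    rw [hlen] at this
    exact (mul_pos hR0 hw0).ne' this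
  have hee : e ⬝ᵥ e = 1 := unitv_dot hp0
  have hpe : ∀ y : V n, th x ⬝ᵥ y = R * w * (e ⬝ᵥ y) := fun y => by
    conv_lhs => rw [← len_smul_unitv (th x), hlen]
    rw [smul_dotProduct, smul_eq_mul]
  have hP : nextR 1 (th x) *ᵥ v = v - (e ⬝ᵥ v) • e := by
    rw [nextR, dirv, one_mulVec, sub_mulVec, one_mulVec, vmv_mulVec]
  set μ := len (nextR 1 (th x) *ᵥ v) with hμ
  have hμ2 : (e ⬝ᵥ v) ^ 2 + μ ^ 2 = v ⬝ᵥ v := by
    rw [hμ, len_sq, hP]
    simp only [sub_dotProduct, dotProduct_sub, smul_dotProduct, dotProduct_smul, smul_eq_mul, hee,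
      dotProduct_comm v e]
    ring
  have hlenβ : len (√β • (nextR 1 (th x) *ᵥ v)) = √β * μ := by
    have := nrm_smul (√β) (nextR 1 (th x) *ᵥ v)
    rw [abs_of_nonneg (Real.sqrt_nonneg _)] at this
    exact this
  have hnv : nrm v ≤ 1 := (nrm_le_iff zero_le_one).2 (by simpa using hvv)
  have hbd : ∀ (y : V n) (K : ℝ), nrm y ≤ K * R → |1 / R * (y ⬝ᵥ v)| ≤ K := by
    intro y K hy
    rw [abs_mul, abs_of_pos (by positivity : 0 < 1 / R), one_div, inv_mul_le_iff₀ hR0]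
    have h1 := abs_dot_le y v
    have h2 := mul_le_of_le_one_right (nrm_nonneg y) hnv
    linarith
  have hρ : √q ^ 2 = q := Real.sq_sqrt (by linarith)
  have hρ0 := Real.sqrt_nonneg q
  have hα : |e ⬝ᵥ v| ≤ 1 := by
    rw [← sq_le_one_iff_abs_le_one]; linarith [sq_nonneg μ]
  have hμ1 : |μ| ≤ 1 := by
    rw [← sq_le_one_iff_abs_le_one]; linarith [sq_nonneg (e ⬝ᵥ v)]
  have hρ1 : √q ≤ 1 := Real.sqrt_le_one.2 hq1
  have hA0 : |1 / R * ((1 : V n) ⬝ᵥ v)| ≤ 1 := hbd _ _ (by simp [nrm, dotProduct, hR])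
  have hA1 : |w * (e ⬝ᵥ v) - √q * (e ⬝ᵥ v)| ≤ ε / a0 := by
    rw [← sub_mul, abs_mul]
    refine (mul_le_of_le_one_right (abs_nonneg _) hα).trans ?_
    rw [le_div_iff₀ ha0]
    have h1 : |w - √q| * (w + √q) ≤ ε := by
      rw [← abs_of_nonneg (by positivity : 0 ≤ w + √q), ← abs_mul,
        show (w - √q) * (w + √q) = w ^ 2 - √q ^ 2 by ring, hww, hρ]
      exact ha
    have h2 : a0 ≤ w + √q := by
      have := mul_le_of_le_one_right hρ0 hρ1
      rw [← sq, hρ] at this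
      linarith
    exact (mul_le_mul_of_nonneg_left h2 (abs_nonneg _)).trans h1
  have hA1' : |1 / R * (p' ⬝ᵥ v) - w * (e ⬝ᵥ v)| ≤ r := by
    have := hbd _ _ hpr
    rw [sub_dotProduct, hpe] at this
    convert this using 2
    field_simp
  have hβa : |β| ≤ 1 := by rwa [abs_of_pos hβ0]
  have hb : |β ^ 2| ≤ 1 := by rw [abs_pow]; exact pow_le_one₀ (abs_nonneg _) hβa
  have m1 : ∀ a b : ℝ, |a| ≤ 1 → |b| ≤ 1 → |a * b| ≤ 1 := fun a b ha hb => by
    rw [abs_mul]; exact mul_le_one₀ ha (abs_nonneg _) hb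
  have hC : |β ^ 2 * (2 * (√q * (e ⬝ᵥ v)) - 1 / R * ((1 : V n) ⬝ᵥ v))| ≤ 3 := by
    rw [abs_mul]
    refine (mul_le_of_le_one_left (abs_nonneg _) hb).trans ?_
    have := abs_le.1 (m1 _ _ (by rwa [abs_of_nonneg hρ0] : |√q| ≤ 1) hα)
    have := abs_le.1 hA0
    rw [abs_le]; constructor <;> linarith
  have hY := avgY_le hn (m1 _ _ hβa hα) (m1 _ _ hβa hμ1) (m1 _ _ hb hA0) hC hM (cb_th x) hp' hpr
    (β * √q) q k Z ξ
  rw [sum_cf_tm hρ] at hY
  have hE0 := Err_nonneg M (β * √q) q k (th x) Z ξ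
  have hT0 : 0 ≤ tauE M := integral_nonneg fun z => tau_nonneg M z
  have hDD := abs_le.1 (avgDD_le hn (cb_th x) hp' hpr)
  rw [Kr50.avg_DD hn] at hDD
  have hζ : |1 / R * (e ⬝ᵥ ξ)| ≤ 2 / a0 * Err M (β * √q) q k (th x) Z ξ := by
    have h1 : |avg (fun i => th x i * ξ i) - 0| ≤ Err M (β * √q) q k (th x) Z ξ :=
      Finset.single_le_sum (f := fun j => |avg (fun i => tf M (th x i) (Z i) (ξ i) j) -
        tm M (β * √q) q k j|) (fun _ _ => abs_nonneg _) (Finset.mem_univ (10 : Fin 13))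
    have h2 : avg (fun i => th x i * ξ i) - 0 = w * (1 / R * (e ⬝ᵥ ξ)) := by
      rw [sub_zero, avg, show ∑ i, th x i * ξ i = th x ⬝ᵥ ξ from rfl, hpe, hRR]
      field_simp
    rw [h2, abs_mul, abs_of_pos hw0] at h1
    have h3 : a0 / 2 ≤ w := by
      have := mul_le_of_le_one_right hw0.le (Real.sqrt_le_one.2 (Kr50.aS_le_one x))
      rw [← hw, ← sq, hww] at this
      linarith
    rw [div_mul_eq_mul_div 2, le_div_iff₀ ha0]
    have := mul_le_mul_of_nonneg_right h3 (abs_nonneg (1 / R * (e ⬝ᵥ ξ)))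
    linarith
  have hSS : SS β x Z = 1 / R * (e ⬝ᵥ Z) - β * (1 - aS x) := by
    rw [SS, avg, show ∑ i, Z i * th x i = Z ⬝ᵥ th x from rfl, dotProduct_comm, hpe, hRR, ← hw]
    field_simp
  have key := scalar (vZ := 1 / R * (v ⬝ᵥ Z)) (vξ := 1 / R * (v ⬝ᵥ ξ)) (c := c) hβ0 hβ1 ha0 hq hq1
    hρ0 hρ hk (hμ2.le.trans hvv) hA0 hA1 hA1' (le_of_eq_of_le ?_ (hcs _ _ _ _))
    (T := 6 * tauE M + 9 * Err M (β * √q) q k (th x) Z ξ + 6 * (2 * M + 16) * r)
    (hY.trans (le_of_eq (by ring))) (by positivity) (e' := avg (DD p')) (δ2 := ε + 2 * r)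
    (by linarith) (by positivity) hS hζ
  · refine le_of_eq_of_le ?_ key
    have hββ : √β * √β = β := Real.mul_self_sqrt hβ0.le
    rw [hlenβ, hP, hμ2, hSS, fT, om, ← hR, ← hw]
    simp only [dotProduct_smul, dotProduct_add, dotProduct_sub, smul_eq_mul,
      dotProduct_comm v (th x), dotProduct_comm e (th x), hpe, hee, dotProduct_comm ξ v,
      dotProduct_comm ξ e]
    rw [hRR]
    have : ∀ y : ℝ, 2 * (1 / R) * (√β * μ) * (√β * y) = 2 * (1 / R) * β * μ * y := fun y => by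
      linear_combination (2 * (1 / R) * μ * y) * hββ
    rw [this]
    field_simp
    ring
  · have : v ⬝ᵥ (fun i => β * (e ⬝ᵥ v) * Z i + β * μ * ξ i + β ^ 2 * (1 / R * ((1 : V n) ⬝ᵥ v)) +
        β ^ 2 * (2 * (√q * (e ⬝ᵥ v)) - 1 / R * ((1 : V n) ⬝ᵥ v)) * th x i) =
        β * (e ⬝ᵥ v) * (v ⬝ᵥ Z) + β * μ * (v ⬝ᵥ ξ) +
          β ^ 2 * (1 / R * ((1 : V n) ⬝ᵥ v)) * ((1 : V n) ⬝ᵥ v) +
          β ^ 2 * (2 * (√q * (e ⬝ᵥ v)) - 1 / R * ((1 : V n) ⬝ᵥ v)) * (th x ⬝ᵥ v) := by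
      generalize β * (e ⬝ᵥ v) = c1
      generalize β * μ = c2
      generalize β ^ 2 * (2 * (√q * (e ⬝ᵥ v)) - 1 / R * ((1 : V n) ⬝ᵥ v)) = c4
      generalize β ^ 2 * (1 / R * ((1 : V n) ⬝ᵥ v)) = c3
      simp only [dotProduct, Finset.mul_sum, ← Finset.sum_add_distrib, Pi.one_apply]
      exact Finset.sum_congr rfl fun i _ => by ring
    rw [this, hpe]
    field_simp

lemma prod_le {X Y : Type*} [MeasurableSpace X] [MeasurableSpace Y] (μ : Measure X)
    (ν : Measure Y) [IsProbabilityMeasure μ] [IsProbabilityMeasure ν] {N S : Set (X × Y)}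
    (hN : MeasurableSet N) (B : Set X) (δ : ENNReal)
    (h : ∀ z ∈ S, z ∈ N ∧ (z.1 ∈ B ∨ ν (Prod.mk z.1 ⁻¹' N) ≤ δ)) : μ.prod ν S ≤ μ B + δ := by
  have hG : MeasurableSet {x | ν (Prod.mk x ⁻¹' N) ≤ δ} :=
    measurableSet_le (measurable_measure_prodMk_left hN) measurable_const
  have h1 : S ⊆ B ×ˢ univ ∪ N ∩ {x | ν (Prod.mk x ⁻¹' N) ≤ δ} ×ˢ univ := fun z hz => by
    rcases (h z hz).2 with h2 | h2
    · exact Or.inl ⟨h2, trivial⟩
    · exact Or.inr ⟨(h z hz).1, h2, trivial⟩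
  refine (measure_mono h1).trans ((measure_union_le _ _).trans (add_le_add ?_ ?_))
  · rw [Measure.prod_prod, measure_univ, mul_one]
  · rw [Measure.prod_apply (hN.inter (hG.prod MeasurableSet.univ))]
    refine (lintegral_mono (g := fun _ => δ) fun x => ?_).trans (by simp)
    by_cases hx : ν (Prod.mk x ⁻¹' N) ≤ δ
    · exact le_trans (measure_mono fun y hy => hy.1) hx
    · refine le_trans (measure_mono (t := ∅) fun y hy => hx hy.2.1) (by simp)

/-- the index set of the comparison -/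
abbrev TT (p : V n) (ρ : ℝ) : Set (V n × V n) :=
  {t | Cb t.1 ∧ nrm (t.1 - p) ≤ ρ ∧ t.2 ⬝ᵥ t.2 = 1}

lemma exists_unit {M : Mx n} {c : ℝ} (h : ¬ Pos c M) :
    ∃ u : V n, u ⬝ᵥ u = 1 ∧ 0 < c * (u ⬝ᵥ u) - u ⬝ᵥ M *ᵥ u := by
  simp only [Pos, not_forall, not_le] at h
  obtain ⟨u, hu⟩ := h
  have hu0 : u ≠ 0 := by rintro rfl; simp at hu
  have hl : 0 < (len u)⁻¹ := inv_pos.2 (lt_of_le_of_ne (len_nonneg u) (Ne.symm (mt len_eq_zero.1 hu0)))
  refine ⟨unitv u, unitv_dot hu0, ?_⟩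
  simp only [unitv, mulVec_smul, smul_dotProduct, dotProduct_smul, smul_eq_mul]
  have := mul_pos (mul_pos hl hl) (sub_pos.2 hu)
  linarith

/-- the slice bound -/
lemma slice (hn : 0 < n) {β q k a0 M r η : ℝ} (hβ0 : 0 < β) (hβ1 : β ≤ 1) (ha0 : 0 < a0)
    (hq : a0 ≤ q) (hq1 : q ≤ 1) (hk : 0 ≤ k) (hM : 0 ≤ M) (hη : η = a0 ^ 2 / 32) (hr : 0 ≤ r)
    (hrη : (24 * M + 218) * r ≤ η) (hτ : 12 * tauE M ≤ η) {x Z : V n}
    (ha : |aS x - q| ≤ r * a0) (hS : |SS β x Z| ≤ r * a0)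
    (hi : Integrable (Err M (β * √q) q k (th x) Z) (gv (Fin n)))
    (hE : (18 + 4 / a0) * ∫ ξ, Err M (β * √q) q k (th x) Z ξ ∂gv (Fin n) ≤ η) :
    GOE n {W | ¬ GoodB (β • plW β (glueW β x Z W) 1) (β ^ 2) η (r * √n) (th x)} ≤
      ENNReal.ofReal (Real.exp (-(4 * η ^ 2) * n)) := by
  have hn' : (0 : ℝ) < n := by exact_mod_cast hn
  have ha1 : a0 ≤ 1 := hq.trans hq1
  have hη0 : 0 < η := by rw [hη]; positivity
  have hη1 : 32 * η ≤ a0 := by
    have := mul_le_of_le_one_right ha0.le ha1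
    rw [hη]; linarith
  have hr1 : 218 * r ≤ η := by linarith [mul_nonneg hM hr]
  have hra : r * a0 ≤ r := mul_le_of_le_one_right hr ha1
  have hdiv : r * a0 / a0 = r := mul_div_cancel_right₀ _ ha0.ne'
  have hcu : Continuous fun t : TT (th x) (r * √n) => dd t.1.1 * t.1.2 :=
    (TapFrz.cont_dd (continuous_fst.comp continuous_subtype_val)).mul
      (continuous_snd.comp continuous_subtype_val)
  have hcp : Continuous fun t : TT (th x) (r * √n) => t.1.1 :=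
    continuous_fst.comp continuous_subtype_val
  have hcv : Continuous fun t : TT (th x) (r * √n) =>
      √β • (nextR 1 (th x) *ᵥ (dd t.1.1 * t.1.2)) :=
    (continuous_const.matrix_mulVec hcu).const_smul (√β)
  have h := Kr.sf_goe_tail (T := TT (th x) (r * √n)) (1 / √(n : ℝ))
    (u := fun t => √β • (nextR 1 (th x) *ᵥ (dd t.1.1 * t.1.2)))
    (f := fun t => fT β η (unitv (th x)) (om β x Z) t.1.1 (dd t.1.1 * t.1.2))
    hcv
    (by
      have := TapFrz.cont_avg (TapFrz.cont_DD hcp)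
      unfold fT
      fun_prop) (ρ := 1)
    (fun t => by
      rw [smul_dotProduct, dotProduct_smul, smul_eq_mul, smul_eq_mul, ← mul_assoc,
        Real.mul_self_sqrt hβ0.le]
      have h1 := ((IsProj.one.nextR (th x)).dot_le (dd t.1.1 * t.1.2)).trans
        ((TapFrz.mul_dot_le (ub_dd t.1.1)).trans t.2.2.2.le)
      exact mul_le_one₀ hβ1 (Cond.dot_self_nonneg _) h1)
    (Γ := fun ξ => -(5 * η) + (18 + 4 / a0) * Err M (β * √q) q k (th x) Z ξ)
    ((integrable_const _).add (hi.const_mul _))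
    (fun ξ t => by
      refine (gam_le hn hβ0 hβ1 ha0 hq hq1 hk hM hr (by linarith) ha hS t.2.1 t.2.2.1 t.2.2.2
        ξ).trans ?_
      rw [hdiv]
      have h1 : r * r ≤ r := mul_le_of_le_one_right hr (by linarith)
      have h2 : a0 ^ 2 / 4 = 8 * η := by rw [hη]; ring
      have h3 : 2 * (2 / a0 * Err M (β * √q) q k (th x) Z ξ) =
          4 / a0 * Err M (β * √q) q k (th x) Z ξ := by ring
      rw [h2, h3]
      linarith) (r := 4 * η) (by positivity)
  rw [integral_add (integrable_const _) (hi.const_mul _), integral_const_mul] at h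
  simp only [integral_const, probReal_univ, smul_eq_mul, one_mul] at h
  have he : -(4 * η) ^ 2 / (4 * (1 / √(n : ℝ)) ^ 2 * 1 ^ 2) = -(4 * η ^ 2) * n := by
    rw [div_pow (1 : ℝ) √(n : ℝ), Real.sq_sqrt hn'.le]
    field_simp
  rw [he] at h
  rw [← ofReal_measureReal (measure_ne_top _ _)]
  refine ENNReal.ofReal_le_ofReal
    (le_trans (measureReal_mono (fun W hW => ?_) (measure_ne_top _ _)) h)
  have hW' : ¬ GoodB (β • plW β (glueW β x Z W) 1) (β ^ 2) η (r * √n) (th x) := hW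
  simp only [GoodB, not_forall] at hW'
  obtain ⟨p', hp', hpr, hW'⟩ := hW'
  have h2 : β ^ 2 * avg (DD p') ≤ 1 - η := by
    have h3 := (abs_le.1 (avgDD_le hn (cb_th x) hp' hpr)).2
    rw [Kr50.avg_DD hn] at h3
    have h4 := mul_le_of_le_one_left (avg_nonneg hp'.DD_nonneg) (pow_le_one₀ (n := 2) hβ0.le hβ1)
    linarith [(abs_le.1 ha).1]
  obtain ⟨u, hu, h3⟩ := exists_unit fun h => hW' ⟨h, h2⟩
  rw [quad_eq β η x Z W hp' hu] at h3
  refine ⟨⟨(p', u), hp', hpr, hu⟩, ?_⟩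
  simp only [mulVec_smul, smul_dotProduct, dotProduct_smul, smul_eq_mul]
  rw [← mul_assoc, Real.mul_self_sqrt hβ0.le]
  linarith

lemma measurable_bad (n : ℕ) (β s q c ρ : ℝ) : MeasurableSet {z : (V n × V n) × Mx n |
    ¬ GoodB (β • plW β (glueW β (xv β s q q z.1.1 z.1.2) z.1.2 z.2) 1) (β ^ 2) c ρ
      (th (xv β s q q z.1.1 z.1.2))} := by
  have hx : Continuous fun z : (V n × V n) × Mx n => xv β s q q z.1.1 z.1.2 := by
    unfold xv; fun_prop
  have hp : Measurable fun z : (V n × V n) × Mx n => th (xv β s q q z.1.1 z.1.2) :=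
    (TapFrz.cont_th hx).measurable
  have ha : Measurable fun z : (V n × V n) × Mx n => aS (xv β s q q z.1.1 z.1.2) := by
    have := TapFrz.cont_th hx
    exact (TapFrz.cont_avg (f := fun z : (V n × V n) × Mx n =>
      fun i => th (xv β s q q z.1.1 z.1.2) i ^ 2) (by fun_prop)).measurable
  have hW : Measurable fun z : (V n × V n) × Mx n =>
      plW β (glueW β (xv β s q q z.1.1 z.1.2) z.1.2 z.2) 1 := by
    unfold plW glueW
    fun_prop
  exact (hW.prodMk hx.measurable) (TapFrz.measStmt n β c ρ 0 0).1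

/-- the test functions in the reference model -/
def ff (M β s q : ℝ) (j : Fin 13) (g z ξ : ℝ) : ℝ :=
  tf M (Real.tanh (s + β ^ 2 * q + √s * g + β * √q * z)) z ξ j

lemma measurable_ff (M β s q : ℝ) (j : Fin 13) :
    Measurable fun w : (ℝ × ℝ) × ℝ => ff M β s q j w.1.1 w.1.2 w.2 := by
  have := continuous_tanh'
  exact ((continuous_tf M j).comp (f := fun w : (ℝ × ℝ) × ℝ =>
    (Real.tanh (s + β ^ 2 * q + √s * w.1.1 + β * √q * w.1.2), w.1.2, w.2))
    (by fun_prop)).measurable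

lemma Err_eq (M β s q σ k : ℝ) (g Z : V n) : Err M σ q k (th (xv β s q q g Z)) Z =
    fun ξ => ∑ j, |avg (fun i => ff M β s q j (g i) (Z i) (ξ i)) - tm M σ q k j| := by
  funext ξ
  simp only [Err, ff, th, xv]

end Crest.Agent.T157.Tap.Sfg

end
end

-- ▼ part T157/TapSfg_18
section

/-!
# Row 157, part A: `sfgGlue : Tap.SFGGlue` (helper18)
-/

set_option autoImplicit false

noncomputable section

namespace Crest.Agent.T157.Tap

open MeasureTheory ProbabilityTheory Matrix Filter Set Topology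
open Crest.Agent.T157.E Crest.Agent.T157.Eig Crest.Agent.T157.Cond Sfg

/-- **Sudakov-Fernique in the typical cell** -/
theorem sfgGlue : SFGGlue := by
  rintro ⟨hN, hA, -⟩ β ⟨hβ0, hβ1⟩ t0 ht0 T
  obtain ⟨a0, ha0, hA⟩ := hA t0 ht0
  have hm4 := TapFrz.m4_nonneg
  set η := a0 ^ 2 / 32 with hη
  have hη0 : 0 < η := by positivity
  set M := 3 * (TapFrz.m4 + 1) / η with hM
  have hM0 : 0 < M := by positivity
  have hτ : 12 * tauE M ≤ η := by
    have h1 := tauE_le hM0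
    rw [le_div_iff₀ (by positivity)] at h1
    have h2 : M * η = 3 * (TapFrz.m4 + 1) := by rw [hM]; field_simp
    by_contra h3
    have := mul_lt_mul_of_pos_left (not_le.1 h3) hM0
    linarith
  set r := η / (24 * M + 218) with hr
  have hr0 : 0 < r := by positivity
  have hrη : (24 * M + 218) * r ≤ η := le_of_eq (by rw [hr]; field_simp)
  refine ⟨η, hη0, r, hr0, fun s hs q hq => ?_⟩
  have hs0 : 0 ≤ s := ht0.le.trans hs.1
  have hγ : t0 ≤ s + β ^ 2 * q := by linarith [hs.1, mul_nonneg (sq_nonneg β) hq.1.1]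
  have haq : a0 ≤ q := by rw [hq.2]; exact hA _ _ hγ
  obtain ⟨hN1, hN2⟩ := hN (s + β ^ 2 * q) (ht0.le.trans hγ)
  set q4 := gE (fun x => Real.tanh x ^ 4) (s + β ^ 2 * q) (s + β ^ 2 * q) with hq4
  have hk : 0 ≤ q - q4 := by
    have h1 := gE_pt 0 0 1 0 (-1) (s + β ^ 2 * q) (s + β ^ 2 * q)
    have h2 : 0 ≤ gE (pt 0 0 1 0 (-1)) (s + β ^ 2 * q) (s + β ^ 2 * q) :=
      integral_nonneg fun z => by
        have h3 := (abs_le.1 (abs_tanh_pow (s + β ^ 2 * q + √(s + β ^ 2 * q) * z) 2)).2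
        have h4 := mul_le_of_le_one_right
          (sq_nonneg (Real.tanh (s + β ^ 2 * q + √(s + β ^ 2 * q) * z))) h3
        simp only [pt, Pi.zero_apply]
        linarith
    rw [← hq.2, ← hq4] at h1
    linarith
  have hvar : √s ^ 2 + (β * √q) ^ 2 = s + β ^ 2 * q := by
    rw [mul_pow, Real.sq_sqrt hs0, Real.sq_sqrt hq.1.1]
  have hfm := measurable_ff M β s q
  have hfb : ∀ j g z ξ, |ff M β s q j g z ξ| ≤ 1 * (1 + z ^ 2 + ξ ^ 2) := fun j g z ξ =>
    abs_tf_le hM0.le (Real.abs_tanh_lt_one _).le z ξ j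
  have hfE : ∀ j, E3 (ff M β s q j) = tm M (β * √q) q (q - q4) j := fun j =>
    E3_tf M (by rw [hvar, hN1, ← hq.2]) (by rw [hvar, ← hq.2]) (by rw [hvar, hN2]) (by rw [hvar]) j
  set η1 := η / (13 * (18 + 4 / a0)) with hη1
  have hη10 : 0 < η1 := by positivity
  choose κ hκ0 hκ using fun j => lln3 (hfm j) one_pos (hfb j) hη10
  obtain ⟨j0, -, hj0⟩ := Finset.exists_min_image Finset.univ κ ⟨0, Finset.mem_univ _⟩
  set κ1 := min (κ j0) (4 * η ^ 2) with hκ1
  have hκ10 : 0 < κ1 := lt_min (hκ0 j0) (by positivity)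
  refine ⟨r * a0, by positivity, κ1 / 2, by positivity, ?_⟩
  filter_upwards [eventually_gt_atTop 0, Kr50.ev_exp 27 hκ10] with n hn hev
  have hn' : (0 : ℝ) < n := by exact_mod_cast hn
  have hmono : ∀ κ' : ℝ, κ1 ≤ κ' → Real.exp (-κ' * n) ≤ Real.exp (-κ1 * n) := fun κ' h =>
    Real.exp_le_exp.2 (by linarith [mul_le_mul_of_nonneg_right h hn'.le])
  refine (prod_le _ _ (measurable_bad n β s q η (r * √n))
    (⋃ j, {z : V n × V n | η1 ≤ ∫ ξ, |avg (fun i => ff M β s q j (z.1 i) (z.2 i) (ξ i)) - E3 (ff M β s q j)|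
      ∂gv (Fin n)}) (ENNReal.ofReal (Real.exp (-(4 * η ^ 2) * n))) fun z hz => ⟨hz.2.2, ?_⟩).trans ?_
  · rw [or_iff_not_imp_left]
    intro hB
    simp only [mem_iUnion, mem_ofPred_eq, not_exists, not_le] at hB
    have hi : ∀ j, Integrable (fun ξ : V n =>
        |avg (fun i => ff M β s q j (z.1.1 i) (z.1.2 i) (ξ i)) - tm M (β * √q) q (q - q4) j|) (gv (Fin n)) :=
      fun j => (((integrable_avg (hfm j) (hfb j) z.1.1 z.1.2).div_const _).sub
        (integrable_const _)).abs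
    have hiE : Integrable (Err M (β * √q) q (q - q4) (th (xv β s q q z.1.1 z.1.2)) z.1.2)
        (gv (Fin n)) := by
      rw [Err_eq]
      exact integrable_finsetSum _ fun j _ => hi j
    have h1 : ∫ ξ, Err M (β * √q) q (q - q4) (th (xv β s q q z.1.1 z.1.2)) z.1.2 ξ ∂gv (Fin n) ≤
        13 * η1 := by
      rw [Err_eq, integral_finsetSum _ fun j _ => hi j]
      refine (Finset.sum_le_sum (g := fun _ => η1) fun j _ => ?_).trans (by simp)
      rw [← hfE]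
      exact (hB j).le
    have h2 := slice hn hβ0 hβ1 ha0 haq hq.1.2 hk hM0.le hη hr0.le hrη hτ hz.1 hz.2.1 hiE
      ((mul_le_mul_of_nonneg_left h1 (by positivity)).trans (le_of_eq (by rw [hη1]; field_simp)))
    exact le_trans (measure_mono fun W hW => hW) h2
  · refine (add_le_add ((measure_iUnion_fintype_le _ _).trans (Finset.sum_le_sum
      (g := fun _ => ENNReal.ofReal (2 * Real.exp (-κ1 * n))) fun j _ => (hκ j n hn).trans
        (ENNReal.ofReal_le_ofReal (mul_le_mul_of_nonneg_left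
          (hmono _ ((min_le_left _ _).trans (hj0 j (Finset.mem_univ _)))) (by norm_num)))))
      (ENNReal.ofReal_le_ofReal (hmono _ (min_le_right _ _)))).trans ?_
    rw [← ENNReal.ofReal_sum_of_nonneg (fun _ _ => by positivity),
      ← ENNReal.ofReal_add (Finset.sum_nonneg fun _ _ => by positivity) (by positivity)]
    refine ENNReal.ofReal_le_ofReal (le_trans (le_of_eq ?_) hev)
    simp only [Finset.sum_const, Finset.card_univ, Fintype.card_fin, nsmul_eq_mul]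
    push_cast
    ring

end Crest.Agent.T157.Tap

end
end

-- ▼ part T157/LpAll_17

/-!
# Row 157, part A: assembly of the covariance bound and of (L') (helper17)
-/

set_option autoImplicit false

namespace Crest.Agent.T157.LpAll

open Crest.Agent.T157.Tap Crest.Agent.T157.Lp Crest.Agent.T157.TapFrz

theorem frozStmt : FrozStmt := frozGlue exStmt errStmt lipCovStmt (winStmt exStmt)

theorem krStmt : KRStmt := krGlue measStmt cellStmt ramStmt seStmt hoefStmt (sfgGlue seStmt)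

theorem allGoodStmt : AllGoodStmt := TapPl.allGoodGlue measStmt detStmt14 TapPl.plantStmt krStmt

theorem covStmt : CovStmt :=
  covGlue measStmt ufStmt frzStmt exStmt errStmt lipCovStmt (winStmt exStmt) frozStmt allGoodStmt

theorem winGStmt : WinGStmt := winG exEStmt

theorem ksz : KsStmt ∧ ZStmt := ksTop childStmt multiStmt smearStmt U2.u2Stmt detEStmt

theorem lpStmt : LpStmt :=
  lpTop (G3.stepGlue exEStmt winGStmt) badStmt startStmt termStmt lastStmt zwStmt (chainGlue gridStmt)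
    ufStmt frzStmt (endGlue exStmt errStmt winGStmt) U2.u2Stmt ufEStmt ksz.1 ksz.2

theorem topLp : Top.LpStmt := top_lp lpStmt

theorem r34 : Top.R34 := Glue.r34_of_lp lpStmt ufStmt frzStmt frozStmt covStmt

end Crest.Agent.T157.LpAll
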