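import Crest.Agent.T157.RecB_77
import Crest.Agent.T157.EntE_34

/-!
# Row 157, block S3 (helper39): approximate tensorisation with a sup-norm defect

`ATd w K δ` is what holds at a typical field of the localisation (`AtY_39`), with `δ = e^{-κ n}`.
Consequences: Herbst's bound for all parameters, the Poincare inequality with a defect.
-/

set_option autoImplicit false

noncomputable section

namespace Crest.Agent.T157.Atd

open Finset Function Real
open Crest.Agent.T157.E (Cube sv siteM prob dir dir2)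
open Crest.Agent.T157.Rec (fl)
open Crest.Agent.T157.Chain22
open Crest.Agent.T157.Ent

variable {n : ℕ} {w : Cube n → ℝ} {K δ : ℝ}

/-- approximate tensorisation, defect `δ · sup (√F - c)²` -/
def ATd (w : Cube n → ℝ) (K δ : ℝ) : Prop := ∀ F : Cube n → ℝ, (∀ x, 0 ≤ F x) → ∀ c B : ℝ,
  (∀ x, (√(F x) - c) ^ 2 ≤ B) → E.ent w F ≤ K * ∑ i, entS w F i + δ * B

/-- one-sided square gradient `V₊` -/
def vp (G : Cube n → ℝ) (x : Cube n) : ℝ := ∑ j, max (G x - G (fl x j)) 0 ^ 2

theorem vp_nonneg (G : Cube n → ℝ) (x : Cube n) : 0 ≤ vp G x := sum_nonneg fun _ _ => sq_nonneg _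

theorem ATd.mono {K' δ' : ℝ} (h : ATd w K δ) (hw : ∀ x, 0 < w x) (hK : K ≤ K') (hδ : δ ≤ δ') :
    ATd w K' δ' := fun F hF c B hB =>
  (h F hF c B hB).trans (add_le_add
    (mul_le_mul_of_nonneg_right hK (sum_nonneg fun i _ => entS_nonneg hw hF i))
    (mul_le_mul_of_nonneg_right hδ ((sq_nonneg _).trans (hB default))))

theorem atd_of_at (h : AT w K 0) (hδ : 0 ≤ δ) : ATd w K δ := fun F hF c B hB => by
  have := h F hF
  have := mul_nonneg hδ ((sq_nonneg _).trans (hB default))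
  linarith

theorem ATd.at (h : ATd w K 0) : AT w K 0 := fun F hF => by
  obtain ⟨M, hM⟩ := exists_abs_le fun x => (√(F x) - 0) ^ 2
  simpa using h F hF 0 M fun x => (le_abs_self _).trans (hM x)

/-- exponentials of a function of oscillation `Ω` -/
theorem ATd.expo (h : ATd w K δ) (hw : ∀ x, 0 < w x) (hδ : 0 ≤ δ) {G : Cube n → ℝ} {Ω : ℝ}
    (hΩ : ∀ x x', G x - G x' ≤ Ω) :
    E.ent w (fun x => exp (G x)) ≤ K * ∑ i, entS w (fun x => exp (G x)) i +
      δ * (Ω ^ 2 * exp Ω / 4) * E.mean w fun x => exp (G x) := by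
  obtain ⟨x0, -, h0⟩ := exists_min_image univ G univ_nonempty
  have hm : exp (G x0) ≤ E.mean w fun x => exp (G x) := by
    rw [← (isP_prob' hw).mean_const (exp (G x0))]
    exact (isP_prob' hw).mean_mono fun x => exp_le_exp.2 (h0 x (mem_univ x))
  have Ω0 : 0 ≤ Ω := by simpa using hΩ x0 x0
  refine (h _ (fun x => (exp_pos _).le) (exp (G x0 / 2)) (Ω ^ 2 * exp Ω / 4 * exp (G x0))
    fun x => ?_).trans ?_
  · rw [← exp_half]
    set u := (G x - G x0) / 2 with hu
    have u0 : 0 ≤ u := by have := h0 x (mem_univ x); linarith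
    have u1 : u ≤ Ω / 2 := by have := hΩ x x0; linarith
    have e : exp (G x / 2) - exp (G x0 / 2) = exp (G x0 / 2) * (exp u - 1) := by
      rw [mul_sub, ← exp_add, mul_one]; congr 2; rw [hu]; ring
    have h1 : exp u - 1 ≤ u * exp u := by
      have := mul_le_mul_of_nonneg_left (add_one_le_exp (-u)) (exp_pos u).le
      rw [← exp_add, add_neg_cancel, exp_zero] at this
      linarith
    have h2 : exp u - 1 ≤ Ω / 2 * exp (Ω / 2) :=
      h1.trans (mul_le_mul u1 (exp_le_exp.2 u1) (exp_pos _).le (by linarith))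
    have h3 := pow_le_pow_left₀ (sub_nonneg.2 (one_le_exp u0)) h2 2
    have e1 : ∀ a : ℝ, exp (a / 2) ^ 2 = exp a := fun a => by
      rw [sq, ← exp_add, add_halves]
    rw [mul_pow, e1] at h3
    rw [e, mul_pow, e1, mul_comm]
    exact mul_le_mul_of_nonneg_right (h3.trans_eq (by ring)) (exp_pos _).le
  · rw [mul_assoc δ]
    exact add_le_add le_rfl (mul_le_mul_of_nonneg_left
      (mul_le_mul_of_nonneg_left hm (by positivity)) hδ)

/-- the trivial bound -/
theorem ent_exp_le_osc (hw : ∀ x, 0 < w x) {G : Cube n → ℝ} {Ω : ℝ} (hΩ : ∀ x x', G x - G x' ≤ Ω) :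
    E.ent w (fun x => exp (G x)) ≤ Ω * E.mean w fun x => exp (G x) := by
  have := ent_le_of_bdd (isP_prob' hw) (f := fun x => exp (G x)) (fun x => (exp_pos _).le)
    (M := exp Ω) fun x _ => by
      rw [← mean_const_mul, ← (isP_prob' hw).mean_const (exp (G x))]
      exact (isP_prob' hw).mean_mono fun y => by
        rw [← exp_add]; exact exp_le_exp.2 (by linarith [hΩ x y])
  rwa [log_exp] at this

/-- Poincare inequality with a defect -/
theorem ATd.poinc (h : ATd w K δ) (hw : ∀ x, 0 < w x) (hK : 0 ≤ K) (hδ : 0 ≤ δ) (g : Cube n → ℝ)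
    {c Ω : ℝ} (hΩ : ∀ x, |g x - c| ≤ Ω) : E.var w g ≤ K * dir w g + 2 * δ * Ω ^ 2 := by
  have hp := isP_prob' hw
  have e1 : E.var w g = var (prob w) fun x => g x - c := by
    rw [evar_eq, ← hp.var_add_const g (-c)]; rfl
  have e2 : dir w g = dir w fun x => g x - c := by
    simp only [dir]
    refine sum_congr rfl fun i _ => sum_congr rfl fun x _ => ?_
    have := (den_pos hw i x).ne'
    congr 2
    simp only [siteM]; field_simp; ring
  rw [e1, e2]
  set u := fun x => g x - c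
  refine var_le_of_ent_le hp u hΩ fun ε hε hεM => ?_
  have b : ∀ x, 1 - ε * Ω ≤ 1 + ε * u x := fun x => by nlinarith [(abs_le.1 (hΩ x)).1]
  have h1 := h (fun x => 1 + ε * u x) (fun x => by linarith [b x]) 1 ((ε * Ω) ^ 2) fun x => by
    have a0 : 0 ≤ 1 + ε * u x := by linarith [b x]
    have s0 := sqrt_nonneg (1 + ε * u x)
    have s1 := sq_sqrt a0
    have h3 : (ε * u x) ^ 2 ≤ (ε * Ω) ^ 2 := by
      rw [mul_pow, mul_pow, ← sq_abs (u x)]
      exact mul_le_mul_of_nonneg_left (pow_le_pow_left₀ (abs_nonneg _) (hΩ x) 2) (sq_nonneg _)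
    set s := √(1 + ε * u x)
    have h4 : ε * u x = (s - 1) * (s + 1) := by linarith
    rw [h4, mul_pow] at h3
    nlinarith [mul_nonneg (sq_nonneg (s - 1)) (by nlinarith : 0 ≤ (s + 1) ^ 2 - 1)]
  have h2 : 2 * (1 - ε * Ω) * ∑ i, entS w (fun x => 1 + ε * u x) i ≤ ε ^ 2 * dir w u := by
    rw [dir_eq_sum, mul_sum, mul_sum]
    refine sum_le_sum fun i _ => ?_
    rw [← dirS_lin hw]
    exact entS_le_dirS_of_ge hw (by linarith) b i
  rw [eent_eq] at h1
  have Ω0 : 0 ≤ ε * Ω := mul_nonneg hε.le ((abs_nonneg _).trans (hΩ default))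
  nlinarith [mul_le_mul_of_nonneg_left h1 (by linarith : 0 ≤ 2 * (1 - ε * Ω)),
    mul_le_mul_of_nonneg_left h2 hK, mul_nonneg (mul_nonneg hδ Ω0) (sq_nonneg (ε * Ω))]

/-! ### the oscillation is controlled by `V₊` -/

theorem osc_aux {G : Cube n → ℝ} {A : ℝ} (hA : 0 ≤ A) (h : ∀ x, vp G x ≤ A ^ 2) (x' : Cube n) :
    ∀ (d : ℕ) (x : Cube n), #{j | x j ≠ x' j} = d → G x - G x' ≤ 2 * A * √d := by
  intro d
  induction d with
  | zero =>
    intro x hx
    have : x = x' := funext fun j => by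
      by_contra hj
      exact (card_eq_zero.1 hx ▸ notMem_empty j) (mem_filter.2 ⟨mem_univ j, hj⟩)
    simp [this]
  | succ d ih =>
    intro x hx
    set S : Finset (Fin n) := {j | x j ≠ x' j} with hS
    have hne : S.Nonempty := card_pos.1 (by omega)
    obtain ⟨j, hj, hmin⟩ := exists_min_image S (fun j => max (G x - G (fl x j)) 0 ^ 2) hne
    have h1 : ((d : ℝ) + 1) * max (G x - G (fl x j)) 0 ^ 2 ≤ A ^ 2 := by
      have := card_nsmul_le_sum S _ _ hmin
      rw [hx, nsmul_eq_mul, Nat.cast_succ] at this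
      exact this.trans ((sum_le_sum_of_subset_of_nonneg (subset_univ S)
        fun _ _ _ => sq_nonneg _).trans (h x))
    have h2 := ih (fl x j) (by
      have : ({k | fl x j k ≠ x' k} : Finset (Fin n)) = S.erase j := by
        ext k
        by_cases hk : k = j
        · subst hk
          have := (mem_filter.1 hj).2
          simp only [fl, update_self, mem_filter, mem_univ, true_and, mem_erase, ne_eq,
            not_true_eq_false, false_and, iff_false, not_not]
          revert this; cases x k <;> cases x' k <;> simp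
        · simp [fl, hk, hS]
      rw [this, card_erase_of_mem hj, hx]; rfl)
    have m0 := le_max_right (G x - G (fl x j)) 0
    have m1 := le_max_left (G x - G (fl x j)) 0
    set m := max (G x - G (fl x j)) 0
    have d0 : (0 : ℝ) ≤ d := d.cast_nonneg
    rw [Nat.cast_succ]
    have a0 := sqrt_nonneg (d : ℝ)
    have a1 := sq_sqrt d0
    have b0 : 0 < √((d : ℝ) + 1) := sqrt_pos.2 (by linarith)
    have b1 := sq_sqrt (by linarith : (0 : ℝ) ≤ d + 1)
    set a := √(d : ℝ)
    set b := √((d : ℝ) + 1)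
    have h3 : b * m ≤ A := le_of_sq_le_sq (by rw [mul_pow, b1]; exact h1) hA
    have h4 : 1 ≤ 2 * b * (b - a) := by nlinarith [sq_nonneg (b - a)]
    have h5 : m ≤ 2 * A * (b - a) := by
      refine le_of_mul_le_mul_left (h3.trans ?_) b0
      nlinarith [mul_le_mul_of_nonneg_left h4 hA]
    linarith

theorem osc {G : Cube n → ℝ} {A : ℝ} (hA : 0 ≤ A) (h : ∀ x, vp G x ≤ A ^ 2) (x x' : Cube n) :
    G x - G x' ≤ 2 * A * √n :=
  (osc_aux hA h x' _ x rfl).trans (mul_le_mul_of_nonneg_left (sqrt_le_sqrt (by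
    exact_mod_cast (card_le_univ _).trans_eq (Fintype.card_fin n))) (by positivity))

/-! ### Herbst -/

theorem gam_site_le (hw : ∀ x, 0 < w x) (G : Cube n → ℝ) (i : Fin n) (x : Cube n) :
    gam (siteRC hw i) G x ≤ max (G x - G (fl x i)) 0 ^ 2 := by
  have e := congrFun (sk_mulVec w i fun y => max (G x - G y) 0 ^ 2) x
  refine le_of_eq_of_le (b := siteM w (fun y => max (G x - G y) 0 ^ 2) i x) e ?_
  rw [← mean_cnd, ← (isP_cnd hw i x).mean_const (max (G x - G (fl x i)) 0 ^ 2)]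
  refine (isP_cnd hw i x).mean_mono fun b => ?_
  by_cases hb : b = x i
  · simp [hb]
  · rw [show b = !x i by revert hb; cases b <;> cases x i <;> simp]; exact le_rfl

/-- (H0), summed over the sites -/
theorem sum_entS_exp_le (hw : ∀ x, 0 < w x) (G : Cube n → ℝ) {t : ℝ} (ht : 0 ≤ t) :
    ∑ i, entS w (fun x => exp (t * G x)) i ≤
      t ^ 2 * E.mean w fun x => exp (t * G x) * vp G x := by
  refine (sum_entS_le_dir2 hw fun x => exp_pos _).trans ?_
  simp only [log_exp, vp, mul_sum]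
  rw [dir2_eq_sum hw, emean_eq, mean_sum', mul_sum]
  refine sum_le_sum fun i _ => (D_exp_le (c := siteRC hw i) G ht).trans ?_
  exact mul_le_mul_of_nonneg_left ((isP_prob' hw).mean_mono fun x =>
    mul_le_mul_of_nonneg_left (gam_site_le hw G i x) (exp_pos _).le) (sq_nonneg t)

theorem ATd.ent_exp_le {κ : ℝ} (h : ATd w K (exp (-(κ * n)))) (hw : ∀ x, 0 < w x) (hK : 0 ≤ K)
    (hκ : 0 < κ) {G : Cube n → ℝ} {A : ℝ} (hA : 0 ≤ A) (hG : ∀ x, vp G x ≤ A ^ 2) {t : ℝ}
    (ht : 0 ≤ t) : E.ent w (fun x => exp (t * G x)) ≤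
      (K + 8 / κ) * A ^ 2 * t ^ 2 * E.mean w fun x => exp (t * G x) := by
  have hp := isP_prob' hw
  have hΩ : ∀ x x', t * G x - t * G x' ≤ t * (2 * A * √n) := fun x x' => by
    rw [← mul_sub]; exact mul_le_mul_of_nonneg_left (osc hA hG x x') ht
  have m0 : 0 ≤ E.mean w fun x => exp (t * G x) := hp.mean_nonneg fun _ => (exp_pos _).le
  have n0 : (0 : ℝ) ≤ n := n.cast_nonneg
  have s0 := sqrt_nonneg (n : ℝ)
  have s1 := sq_sqrt n0
  have k0 : 0 ≤ 8 / κ := by positivity
  rcases le_total (t * (2 * A * √n)) (κ * n / 2) with h1 | h1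
  · refine (h.expo hw (exp_pos _).le hΩ).trans ?_
    have h2 := (sum_entS_exp_le hw G ht).trans (mul_le_mul_of_nonneg_left
      (hp.mean_mono (g := fun x => exp (t * G x) * A ^ 2) fun x =>
        mul_le_mul_of_nonneg_left (hG x) (exp_pos _).le) (sq_nonneg t))
    rw [mean_mul_const, ← emean_eq] at h2
    have h3 : exp (-(κ * n)) * exp (t * (2 * A * √n)) ≤ exp (-(κ * n / 2)) := by
      rw [← exp_add]; exact exp_le_exp.2 (by linarith)
    have h4 : n * exp (-(κ * n / 2)) ≤ 8 / κ := by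
      have := mul_le_mul_of_nonneg_right (add_one_le_exp (κ * n / 2)) (exp_pos (-(κ * n / 2))).le
      rw [← exp_add, add_neg_cancel, exp_zero] at this
      rw [le_div_iff₀ hκ]
      nlinarith [exp_pos (-(κ * n / 2))]
    have h5 : exp (-(κ * n)) * ((t * (2 * A * √n)) ^ 2 * exp (t * (2 * A * √n)) / 4) ≤
        8 / κ * A ^ 2 * t ^ 2 := by
      have e : exp (-(κ * n)) * ((t * (2 * A * √n)) ^ 2 * exp (t * (2 * A * √n)) / 4) =
          A ^ 2 * t ^ 2 * (n * (exp (-(κ * n)) * exp (t * (2 * A * √n)))) := by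
        rw [mul_pow, mul_pow, s1]; ring
      rw [e]
      have := mul_le_mul_of_nonneg_left ((mul_le_mul_of_nonneg_left h3 n0).trans h4)
        (by positivity : 0 ≤ A ^ 2 * t ^ 2)
      linarith
    nlinarith [mul_le_mul_of_nonneg_left h2 hK, mul_le_mul_of_nonneg_right h5 m0]
  · refine (ent_exp_le_osc hw hΩ).trans (mul_le_mul_of_nonneg_right ?_ m0)
    have tA : 0 ≤ t * A := mul_nonneg ht hA
    have h2 : κ * √n ≤ 4 * (t * A) := by
      rcases s0.eq_or_lt with e | e
      · rw [← e]; linarith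
      · exact le_of_mul_le_mul_right (by nlinarith) e
    have h3 : t * (2 * A * √n) ≤ 8 / κ * A ^ 2 * t ^ 2 := by
      rw [div_mul_eq_mul_div, div_mul_eq_mul_div, le_div_iff₀ hκ]
      nlinarith [mul_le_mul_of_nonneg_left h2 tA]
    nlinarith [mul_nonneg hK (by positivity : 0 ≤ A ^ 2 * t ^ 2)]

/-- **(H1)** Herbst's bound, for all parameters -/
theorem ATd.lmgf_le {κ : ℝ} (h : ATd w K (exp (-(κ * n)))) (hw : ∀ x, 0 < w x) (hK : 0 ≤ K)
    (hκ : 0 < κ) {G : Cube n → ℝ} {A : ℝ} (hA : 0 ≤ A) (hG : ∀ x, vp G x ≤ A ^ 2) {t : ℝ}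
    (ht : 0 ≤ t) : lmgf (prob w) G t ≤ t * mean (prob w) G + (K + 8 / κ) * A ^ 2 * t ^ 2 :=
  herbst (isP_prob' hw) G ht fun _ hu _ => h.ent_exp_le hw hK hκ hA hG hu.le


end Crest.Agent.T157.Atd

end
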