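import Crest.Agent.T157.RegDefB_94

/-!
# Row 157, part B, REG: the bridge `ColGlue` (helper13)
-/

set_option autoImplicit false

noncomputable section

namespace Crest.Agent.T157.Reg

open Matrix Real Filter Topology Finset
open Crest.ProbabilityR.SpinGlassDynamics (disorderLaw gibbsWeight)
open Crest.Agent.T157.E hiding mean
open Crest.Agent.T157.Tap (V Mx)
open Crest.Agent.T157.Rec (grad fl)
open Crest.Agent.T157.Chain22 (sg IsP mean)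

namespace Col13

variable {n : ℕ}

lemma nice_mono {W : Mx n} {K K' : ℝ} (h : Nice W K) (K0 : 0 ≤ K) (hK : K ≤ K') : Nice W K' :=
  ⟨h.1, h.2.1.trans hK, fun i => (h.2.2 i).trans
    (div_le_div_of_nonneg_right (pow_le_pow_left₀ K0 hK 4) n.cast_nonneg)⟩

lemma wm_of {w f : Cube n → ℝ} (hw : ∀ x, 0 < w x) {H : ℝ} (hf : Rv.Warm w H f) :
    Wm w H fun x => prob w x * f x := by
  have p0 := (Chain22.isP_prob' hw).nn
  refine ⟨⟨fun x => mul_nonneg (p0 x) (hf.1 x).le, hf.2.1⟩, fun x => ?_⟩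
  exact (mul_le_mul_of_nonneg_left (hf.2.2 x) (p0 x)).trans_eq (mul_comm _ _)

lemma mean_of (w f F : Cube n → ℝ) :
    E.mean w (fun x => f x * F x) = mean (fun x => prob w x * f x) F := by
  simp only [E.mean, Chain22.mean, mul_assoc]


/-- the numerics -/
lemma num {C1 C2 P A e0 ρ0 H S N : ℝ} (c1 : 1 ≤ C1) (c2 : 1 ≤ C2) (hP : 11 * C2 * C1 ^ 2 ≤ P)
    (A0 : 0 < A) (N0 : 0 ≤ N) (H0 : 0 ≤ H) (r0 : 0 ≤ ρ0) (hρ : P ^ 8 * ρ0 ≤ 1)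
    (hz : N * e0 ^ 2 ≤ P ^ 2) (hq : P ^ 18 * (e0 ^ 2 * H) ≤ 1) (hs : P ^ 14 * (e0 ^ 2 * S) ≤ 2) :
    C2 * ((C1 * P * A ^ 2 * (ρ0 + N * e0 ^ 2 / (P ^ 5) ^ 2 + (P ^ 5) ^ 2 * e0 ^ 2 * H) +
        A ^ 2 / P ^ 7) +
      √((C1 * P * A ^ 2 * (ρ0 + N * e0 ^ 2 / (P ^ 5) ^ 2 + (P ^ 5) ^ 2 * e0 ^ 2 * H) +
        A ^ 2 / P ^ 7) * (4 * C1 * A ^ 2 * P ^ 3 + (C1 * P ^ 5 * P * A * e0) ^ 2 * H)) +
      (C1 * P ^ 5 * P * A * e0) ^ 2 * S) ≤ A ^ 2 * P⁻¹ := by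
  have c3 : 1 ≤ C1 ^ 2 := one_le_pow₀ c1
  have c4 : C1 ≤ C1 ^ 2 := by nlinarith
  have P1 : 1 ≤ P := by linarith [one_le_mul_of_one_le_of_one_le c2 c3]
  have P0 : 0 < P := by linarith
  have b1 : ρ0 ≤ 1 / P ^ 8 := by rw [le_div_iff₀' (by positivity)]; exact hρ
  have b2 : N * e0 ^ 2 / (P ^ 5) ^ 2 ≤ 1 / P ^ 8 := by
    refine (div_le_div_of_nonneg_right hz (by positivity)).trans (le_of_eq ?_)
    field_simp
  have b3 : (P ^ 5) ^ 2 * e0 ^ 2 * H ≤ 1 / P ^ 8 := by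
    rw [le_div_iff₀' (by positivity)]
    exact le_of_eq_of_le (by ring) hq
  set ρ := C1 * P * A ^ 2 * (ρ0 + N * e0 ^ 2 / (P ^ 5) ^ 2 + (P ^ 5) ^ 2 * e0 ^ 2 * H) +
    A ^ 2 / P ^ 7 with hρ1
  have ρ0' : 0 ≤ ρ := by positivity
  have b4 : ρ ≤ 4 * C1 * (A ^ 2 / P ^ 7) := by
    have h1 : C1 * P * A ^ 2 * (ρ0 + N * e0 ^ 2 / (P ^ 5) ^ 2 + (P ^ 5) ^ 2 * e0 ^ 2 * H) ≤
        C1 * P * A ^ 2 * (3 * (1 / P ^ 8)) :=
      mul_le_mul_of_nonneg_left (by linarith) (by positivity)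
    have h2 : C1 * P * A ^ 2 * (3 * (1 / P ^ 8)) = 3 * C1 * (A ^ 2 / P ^ 7) := by field_simp
    have h3 : A ^ 2 / P ^ 7 ≤ C1 * (A ^ 2 / P ^ 7) := le_mul_of_one_le_left (by positivity) c1
    linarith
  have b5 : 4 * C1 * A ^ 2 * P ^ 3 + (C1 * P ^ 5 * P * A * e0) ^ 2 * H ≤
      5 * C1 ^ 2 * (A ^ 2 * P ^ 3) := by
    have h1 : (C1 * P ^ 5 * P * A * e0) ^ 2 * H =
        C1 ^ 2 * A ^ 2 * P ^ 2 * ((P ^ 5) ^ 2 * e0 ^ 2 * H) := by ring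
    have h2 : 1 / P ^ 8 ≤ P := (div_le_one (by positivity)).2 (one_le_pow₀ P1) |>.trans P1
    have h3 := mul_le_mul_of_nonneg_left (b3.trans h2)
      (show 0 ≤ C1 ^ 2 * A ^ 2 * P ^ 2 by positivity)
    have h4 := mul_le_mul_of_nonneg_right c4 (show 0 ≤ A ^ 2 * P ^ 3 by positivity)
    rw [h1]
    nlinarith
  have b6 : √(ρ * (4 * C1 * A ^ 2 * P ^ 3 + (C1 * P ^ 5 * P * A * e0) ^ 2 * H)) ≤
      5 * C1 ^ 2 * (A ^ 2 / P ^ 2) := by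
    refine sqrt_le_iff.2 ⟨by positivity, ?_⟩
    refine (mul_le_mul b4 b5 (by positivity) (by positivity)).trans ?_
    have e : 4 * C1 * (A ^ 2 / P ^ 7) * (5 * C1 ^ 2 * (A ^ 2 * P ^ 3)) =
        20 * C1 * C1 ^ 2 * (A ^ 2 / P ^ 2) ^ 2 := by field_simp; ring
    rw [e, mul_pow]
    refine mul_le_mul_of_nonneg_right ?_ (sq_nonneg _)
    nlinarith [mul_le_mul_of_nonneg_right c4 (show 0 ≤ C1 ^ 2 by positivity)]
  have b7 : (C1 * P ^ 5 * P * A * e0) ^ 2 * S ≤ 2 * C1 ^ 2 * (A ^ 2 / P ^ 2) := by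
    have e : (C1 * P ^ 5 * P * A * e0) ^ 2 * S =
        C1 ^ 2 * (A ^ 2 / P ^ 2) * (P ^ 14 * (e0 ^ 2 * S)) := by field_simp
    rw [e]
    have := mul_le_mul_of_nonneg_left hs (show 0 ≤ C1 ^ 2 * (A ^ 2 / P ^ 2) by positivity)
    linarith
  have b8 : ρ ≤ 4 * C1 ^ 2 * (A ^ 2 / P ^ 2) := by
    refine b4.trans (mul_le_mul (by linarith) ?_ (by positivity) (by positivity))
    exact div_le_div_of_nonneg_left (sq_nonneg _) (by positivity)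
      (pow_le_pow_right₀ P1 (by norm_num))
  calc _ ≤ C2 * (11 * C1 ^ 2 * (A ^ 2 / P ^ 2)) :=
        mul_le_mul_of_nonneg_left (by linarith) (by linarith)
    _ = 11 * C2 * C1 ^ 2 * (A ^ 2 / P ^ 2) := by ring
    _ ≤ P * (A ^ 2 / P ^ 2) := mul_le_mul_of_nonneg_right hP (by positivity)
    _ = _ := by field_simp

end Col13

open Col13


end Crest.Agent.T157.Reg

end
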