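import Crest.Agent.T157.RegDef_94
import Crest.Agent.T157.LowB_85

/-!
# Row 157, part B (helper51): self-bounding Herbst argument, transport at warm measures
-/

set_option autoImplicit false

noncomputable section

namespace Crest.Agent.T157.Reg

open Matrix Real Filter Topology Finset
open Crest.Agent.T157.E hiding mean
open Crest.Agent.T157.Eig
open Crest.Agent.T157.Rec (grad fl grad_eq)
open Crest.Agent.T157.Chain22 (IsP mean isP_prob' prob_pos')
open Crest.Agent.T157.Ent (brg entS AT lmgf ind AC)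

variable {n : ℕ} {w : Cube n → ℝ}

namespace Sb51

lemma exp_neg_le {d : ℝ} (hd : 0 ≤ d) : exp (-d) ≤ 1 - d + d ^ 2 / 2 := by
  have h := quadratic_le_exp_of_nonneg hd
  have h1 : 0 < 1 - d + d ^ 2 / 2 := by nlinarith [sq_nonneg (d - 1)]
  rw [exp_neg, inv_le_iff_one_le_mul₀ (exp_pos _)]
  nlinarith [mul_le_mul_of_nonneg_left h h1.le, sq_nonneg (d ^ 2)]

lemma brg_exp_le {g c : ℝ} (h : c ≤ g) : brg (exp g) (exp c) ≤ exp g * (g - c) ^ 2 / 2 := by
  have h1 := exp_neg_le (sub_nonneg.2 h)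
  have e : exp c = exp g * exp (-(g - c)) := by rw [← exp_add]; congr 1; ring
  rw [brg, log_exp, log_exp]
  nlinarith [mul_le_mul_of_nonneg_left h1 (exp_pos g).le]

lemma min_update (f : Cube n → ℝ) (x : Cube n) (i : Fin n) :
    min (f (Function.update x i true)) (f (Function.update x i false)) = min (f x) (f (fl x i)) := by
  have e : f x = f (Function.update x i (x i)) := by rw [Function.update_eq_self]
  rw [fl, e]
  cases x i
  · exact min_comm _ _
  · rfl

end Sb51

open Sb51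

/-- the site entropy of an exponential -/
theorem entS_exp_le (hw : ∀ x, 0 < w x) (f : Cube n → ℝ) {t : ℝ} (ht : 0 ≤ t) (i : Fin n) :
    entS w (fun x => exp (t * f x)) i ≤
      t ^ 2 / 2 * mean (prob w) fun x => exp (t * f x) * max (f x - f (fl x i)) 0 ^ 2 := by
  refine (Ent.entS_le_brg hw (fun x => (exp_pos _).le) i
    (g := fun x => exp (t * min (f (Function.update x i true)) (f (Function.update x i false))))
    (fun x b => by simp only [Function.update_idem]) fun x => .inl (exp_pos _)).trans ?_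
  rw [← Ent.mean_const_mul]
  refine (isP_prob' hw).mean_mono fun x => ?_
  rw [min_update]
  refine (brg_exp_le (mul_le_mul_of_nonneg_left (min_le_left _ _) ht)).trans (le_of_eq ?_)
  have : f x - min (f x) (f (fl x i)) = max (f x - f (fl x i)) 0 := by
    rcases le_total (f x) (f (fl x i)) with h | h
    · rw [min_eq_left h, max_eq_right (sub_nonpos.2 h), sub_self]
    · rw [min_eq_right h, max_eq_left (sub_nonneg.2 h)]
  rw [← mul_sub, this]; ring

/-- the entropy of an exponential under approximate tensorisation -/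
theorem ent_exp_le (hw : ∀ x, 0 < w x) {K : ℝ} (hK : 0 ≤ K) (hA : AT w K 0) (f : Cube n → ℝ)
    {t : ℝ} (ht : 0 ≤ t) {g : Cube n → ℝ} (hg : ∀ x, ∑ j, max (f x - f (fl x j)) 0 ^ 2 ≤ g x) :
    Chain22.ent (prob w) (fun x => exp (t * f x)) ≤
      K * t ^ 2 / 2 * mean (prob w) fun x => exp (t * f x) * g x := by
  have h := hA (fun x => exp (t * f x)) fun x => (exp_pos _).le
  rw [zero_mul, add_zero, Chain22.eent_eq] at h
  refine h.trans ?_
  have h2 := sum_le_sum fun i (_ : i ∈ univ) => entS_exp_le hw f ht i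
  rw [← mul_sum, ← Ent.mean_sum'] at h2
  have h3 : mean (prob w) (fun x => ∑ i, exp (t * f x) * max (f x - f (fl x i)) 0 ^ 2) ≤
      mean (prob w) fun x => exp (t * f x) * g x := (isP_prob' hw).mean_mono fun x => by
    rw [← mul_sum]; exact mul_le_mul_of_nonneg_left (hg x) (exp_pos _).le
  have h4 := h2.trans (mul_le_mul_of_nonneg_left h3 (by positivity))
  calc K * ∑ i, entS w (fun x => exp (t * f x)) i ≤ K * _ := mul_le_mul_of_nonneg_left h4 hK
    _ = _ := by ring

namespace Sb51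

/-- Herbst's argument for self-bounding functions -/
theorem herbst_sb {Ω : Type*} [Fintype Ω] {μ : Ω → ℝ} (h : IsP μ) (F : Ω → ℝ) {b t : ℝ}
    (ht : 0 < t) (hE : ∀ u, 0 < u → Chain22.ent μ (fun x => exp (u * F x)) ≤
      b * u ^ 2 * mean μ fun x => exp (u * F x) * F x) :
    lmgf μ F t / t - b * lmgf μ F t ≤ mean μ F := by
  have hd : ∀ u, 0 < u → HasDerivAt (fun u => lmgf μ F u / u - b * lmgf μ F u)
      ((Chain22.ent μ (fun x => exp (u * F x)) - b * u ^ 2 * mean μ fun x => exp (u * F x) * F x) /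
        ((mean μ fun x => exp (u * F x)) * u ^ 2)) u := fun u hu => by
    have d1 := (Ent.hasDerivAt_lmgf h F u).fun_div (hasDerivAt_id u) hu.ne'
    have d2 := (Ent.hasDerivAt_lmgf h F u).const_mul b
    refine (d1.fun_sub d2).congr_deriv ?_
    rw [Ent.ent_exp]
    have := (Ent.mean_exp_pos h fun x => u * F x).ne'
    simp only [id]
    field_simp
  have ha : AntitoneOn (fun u => lmgf μ F u / u - b * lmgf μ F u) (Set.Ioi 0) :=
    antitoneOn_of_deriv_nonpos (convex_Ioi 0)
      (fun u hu => (hd u hu).continuousAt.continuousWithinAt)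
      (fun u hu => by
        rw [interior_Ioi] at hu
        exact (hd u hu).differentiableAt.differentiableWithinAt)
      fun u hu => by
        rw [interior_Ioi] at hu
        rw [(hd u hu).deriv]
        exact div_nonpos_of_nonpos_of_nonneg (sub_nonpos.2 (hE u hu))
          (mul_nonneg (Ent.mean_exp_pos h _).le (sq_nonneg _))
  have h0 := Ent.hasDerivAt_lmgf h F 0
  simp only [zero_mul, exp_zero, one_mul, h.mean_const, div_one] at h0
  have hl : Tendsto (fun s => lmgf μ F s / s - b * lmgf μ F s) (𝓝[>] 0)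
      (𝓝 (mean μ F - b * lmgf μ F 0)) := by
    refine Tendsto.sub ?_ ((h0.continuousAt.tendsto.mono_left nhdsWithin_le_nhds).const_mul b)
    have := h0.tendsto_slope_zero_right
    simp only [zero_add, Ent.lmgf_zero h, sub_zero, smul_eq_mul] at this
    exact this.congr fun s => by rw [div_eq_inv_mul]
  rw [Ent.lmgf_zero h, mul_zero, sub_zero] at hl
  refine ge_of_tendsto hl ?_
  filter_upwards [Ioo_mem_nhdsGT ht] with s hs
  exact ha hs.1 ht hs.2.le

theorem gen (hw : ∀ x, 0 < w x) {K : ℝ} (hK : 0 < K) (hA : AT w K 0) (f : Cube n → ℝ) {B : ℝ}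
    (hB : 0 < B) (hf : ∀ x, ∑ j, max (f x - f (fl x j)) 0 ^ 2 ≤ B * f x) {v : Cube n → ℝ}
    (hv : IsP v) : mean v f ≤ 2 * mean (prob w) f + K * B * Ent.kl v (prob w) := by
  have hp := isP_prob' hw
  have hKB : 0 < K * B := mul_pos hK hB
  have h1 := herbst_sb hp f (b := K * B / 2) (t := 1 / (K * B)) (by positivity) fun u hu => by
    refine (ent_exp_le hw hK.le hA f hu.le hf).trans (le_of_eq ?_)
    rw [show (fun x => exp (u * f x) * (B * f x)) = fun x => B * (exp (u * f x) * f x) from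
      funext fun x => by ring, Ent.mean_const_mul]
    ring
  have h2 := Ent.mean_le_kl_theta hv hp (AC.of_pos v (prob_pos' hw)) f (θ := 1 / (K * B))
    (by positivity)
  rw [div_div_eq_mul_div, div_one] at h1 h2
  rw [lmgf] at h1
  linarith

lemma kl_le {H : ℝ} {v : Cube n → ℝ} (hw : ∀ x, 0 < w x) (hv : Wm w H v) :
    Ent.kl v (prob w) ≤ H := by
  simpa using Ent.kl_le_log hv.1 (isP_prob' hw) hv.2

lemma sq2_flip (ω : VF n) (x : Cube n) :
    ∑ j, max (sq2 ω x - sq2 ω (fl x j)) 0 ^ 2 ≤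
      4 * (((jac ω x)ᵀ *ᵥ ω x) ⬝ᵥ ((jac ω x)ᵀ *ᵥ ω x)) := by
  rw [dotProduct, mul_sum]
  refine sum_le_sum fun j _ => ?_
  have e : ((jac ω x)ᵀ *ᵥ ω x) j = (ω (fl x j) - ω x) ⬝ᵥ ω x := rfl
  have h0 := Eig.dot_self_nonneg (ω (fl x j) - ω x)
  have h1 : sq2 ω x - sq2 ω (fl x j) ≤ -2 * ((jac ω x)ᵀ *ᵥ ω x) j := by
    rw [e]
    simp only [sq2, sub_dotProduct, dotProduct_sub, dotProduct_comm (ω x) (ω (fl x j))] at h0 ⊢
    linarith
  rcases le_total (sq2 ω x - sq2 ω (fl x j)) 0 with h | h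
  · rw [max_eq_right h]; nlinarith [mul_self_nonneg (((jac ω x)ᵀ *ᵥ ω x) j)]
  · rw [max_eq_left h]; nlinarith

lemma flip_grad (G : Cube n → ℝ) (x : Cube n) :
    ∑ j, max (G x - G (fl x j)) 0 ^ 2 ≤ 4 * sq2 (grad G) x := by
  rw [sq2, dotProduct, mul_sum]
  refine sum_le_sum fun j _ => ?_
  have e : 4 * (grad G x j * grad G x j) = (G x - G (fl x j)) ^ 2 := by
    rw [grad_eq]
    linear_combination (G x - G (fl x j)) ^ 2 * Rec.sv_mul_self x j
  rw [e]
  rcases le_total (G x - G (fl x j)) 0 with h | h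
  · rw [max_eq_right h]; simpa using sq_nonneg _
  · rw [max_eq_left h]

/-- moment generating function on the warm range -/
lemma mgf_le (hw : ∀ x, 0 < w x) {K : ℝ} (hK : 0 < K) (hA : AT w K 0) {X : Cube n → ℝ}
    {B D H : ℝ} (hX : ∀ x, X x ≤ B) (h0 : mean (prob w) X = 0)
    (hD : ∀ v, Wm w H v → mean v (sq2 (grad X)) ≤ D) {t : ℝ} (ht : 0 ≤ t) (hB : 0 ≤ B)
    (htB : t * B ≤ H) : mean (prob w) (fun x => exp (t * X x)) ≤ exp (2 * K * D * t ^ 2) := by
  have hp := isP_prob' hw
  have h := Ent.herbst hp X (c := 2 * K * D) ht fun u hu hut => by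
    refine (ent_exp_le hw hK.le hA X hu.le (flip_grad X)).trans ?_
    set Z := mean (prob w) fun x => exp (u * X x) with hZ
    have hZ0 : 0 < Z := Ent.mean_exp_pos hp _
    have hZ1 : 1 ≤ Z := by
      have := Ent.mean_le_log_mean_exp hp fun x => u * X x
      rw [Ent.mean_const_mul, h0, mul_zero] at this
      exact (log_nonneg_iff hZ0).1 this
    have hm : mean (prob w) (fun x => exp (u * X x) / Z) = 1 := by
      simp only [div_eq_mul_inv]
      rw [Ent.mean_mul_const, mul_inv_cancel₀ hZ0.ne']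
    have h1 := hD (fun x => prob w x * (exp (u * X x) / Z))
      ⟨Ent.isP_dens hp (fun x => by positivity) hm, fun x => by
        rw [mul_comm (exp H)]
        refine mul_le_mul_of_nonneg_left ((div_le_self (exp_pos _).le hZ1).trans
          (exp_le_exp.2 ?_)) (hp.nn x)
        nlinarith [mul_le_mul_of_nonneg_left (hX x) hu.le, mul_le_mul_of_nonneg_right hut.le hB]⟩
    rw [Ent.mean_dens, show (fun x => exp (u * X x) / Z * sq2 (grad X) x) =
      fun x => (exp (u * X x) * (4 * sq2 (grad X) x)) * (4 * Z)⁻¹ from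
        funext fun x => by field_simp, Ent.mean_mul_const, ← div_eq_mul_inv,
      div_le_iff₀ (by positivity)] at h1
    calc _ ≤ K * u ^ 2 / 2 * (D * (4 * Z)) := by gcongr
      _ = _ := by ring
  rw [h0, mul_zero, zero_add, lmgf] at h
  exact (log_le_iff_le_exp (Ent.mean_exp_pos hp _)).1 h

lemma cosh_clamp_le {r τ t0 : ℝ} (hr : 0 ≤ r) (ht : t0 ≤ |τ|) (x : ℝ) :
    cosh (τ * max (-r) (min r x)) ≤ cosh (t0 * x) * exp ((|τ| - t0) * r) := by
  set y := max (-r) (min r x) with hy
  have y1 : |y| ≤ r := abs_le.2 ⟨le_max_left _ _, max_le (by linarith) (min_le_left _ _)⟩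
  have y2 : |y| ≤ |x| := by
    rw [abs_le]
    constructor
    · exact le_max_of_le_right (le_min (by linarith [abs_nonneg x]) (neg_abs_le x))
    · exact max_le (by linarith [abs_nonneg x]) ((min_le_right _ _).trans (le_abs_self x))
  have e1 : cosh (τ * y) = cosh (t0 * |y| + (|τ| - t0) * |y|) := by
    rw [← cosh_abs, abs_mul]; congr 1; ring
  have hd : 0 ≤ (|τ| - t0) * |y| := mul_nonneg (sub_nonneg.2 ht) (abs_nonneg _)
  have e2 : cosh (t0 * |y| + (|τ| - t0) * |y|) ≤ cosh (t0 * |y|) * exp ((|τ| - t0) * |y|) := by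
    rw [cosh_add, ← cosh_add_sinh, mul_add]
    exact add_le_add_right (mul_le_mul_of_nonneg_right (sinh_lt_cosh _).le
      (sinh_nonneg_iff.2 hd)) _
  rw [e1]
  refine e2.trans (mul_le_mul ?_ (exp_le_exp.2
    (mul_le_mul_of_nonneg_left y1 (sub_nonneg.2 ht))) (exp_pos _).le (cosh_pos _).le)
  rw [cosh_le_cosh, abs_mul, abs_mul, abs_abs]
  exact mul_le_mul_of_nonneg_left y2 (abs_nonneg _)

/-- from a local bound of the moment generating function to second moments -/
theorem sq_le_of_mgf {Ω : Type*} [Fintype Ω] {μ v X : Ω → ℝ} (hμ : IsP μ) (hv : IsP v)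
    {c t0 B H : ℝ} (hc : 0 < c) (h0 : 0 ≤ t0) (hX : ∀ x, |X x| ≤ B) (hH : ∀ x, v x ≤ exp H * μ x)
    (h : ∀ t, |t| ≤ t0 → mean μ (fun x => exp (t * X x)) ≤ exp (c / 2 * t ^ 2)) :
    mean v (fun x => X x ^ 2) ≤
      4 * c * (Ent.kl v μ + 1) + 2 * B ^ 2 * exp (H - c / 2 * t0 ^ 2) := by
  have hr : 0 ≤ c * t0 := by positivity
  set Y : Ω → ℝ := fun x => max (-(c * t0)) (min (c * t0) (X x)) with hY
  have hch : ∀ t, |t| ≤ t0 → mean μ (fun x => cosh (t * X x)) ≤ exp (c / 2 * t ^ 2) := fun t ht => by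
    have a1 := h t ht
    have a2 := h (-t) (by rwa [abs_neg])
    simp only [cosh_eq, div_eq_mul_inv _ (2 : ℝ)]
    rw [Ent.mean_mul_const, Ent.mean_add']
    simp only [neg_mul, neg_sq, div_eq_mul_inv _ (2 : ℝ)] at a1 a2
    linarith
  have hY1 : ∀ τ, mean μ (fun x => cosh (τ * Y x)) ≤ exp (c / 2 * τ ^ 2) := fun τ => by
    rcases le_total |τ| t0 with ht | ht
    · refine le_trans (hμ.mean_mono fun x => ?_) (hch |τ| (by rwa [abs_abs]) |>.trans_eq (by rw [sq_abs]))
      simpa using cosh_clamp_le hr le_rfl (X x)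
    · refine (hμ.mean_mono fun x => cosh_clamp_le hr ht (X x)).trans ?_
      rw [Ent.mean_mul_const]
      refine (mul_le_mul_of_nonneg_right (hch t0 (abs_of_nonneg h0).le) (exp_pos _).le).trans ?_
      rw [← exp_add, exp_le_exp, ← sq_abs τ]
      nlinarith [mul_nonneg hc.le (sq_nonneg (|τ| - t0))]
  have h2 := Low.exp_sq_le (μ := fun p : Ω × Bool => μ p.1 / 2)
    (X := fun p => if p.2 then Y p.1 else -Y p.1) hc fun τ => by
      refine le_trans (le_of_eq ?_) (hY1 τ)
      simp only [mean, Fintype.sum_prod_type, Fintype.sum_bool, if_true, Bool.false_eq_true,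
        if_false, cosh_eq, mul_neg]
      exact sum_congr rfl fun x _ => by ring
  have h3 : mean μ (fun x => exp (1 / (4 * c) * Y x ^ 2)) ≤ exp 1 := by
    refine le_trans (le_of_eq ?_) h2
    simp only [mean, Fintype.sum_prod_type, Fintype.sum_bool, if_true, Bool.false_eq_true,
      if_false, neg_sq]
    exact sum_congr rfl fun x _ => by ring
  have hac : AC v μ := fun x hx => le_antisymm (by simpa [hx] using hH x) (hv.nn x)
  have h4 := Ent.mean_le_kl_theta hv hμ hac (fun x => Y x ^ 2) (θ := 1 / (4 * c)) (by positivity)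
  have h5 := (log_le_iff_le_exp (Ent.mean_exp_pos hμ _)).2 h3
  rw [div_div_eq_mul_div, div_one, mul_comm] at h4
  have h6 : mean v (fun x => Y x ^ 2) ≤ 4 * c * (Ent.kl v μ + 1) :=
    h4.trans (mul_le_mul_of_nonneg_left (by linarith) (by positivity))
  have h7 : ∀ x, X x ^ 2 ≤ Y x ^ 2 + 2 * B ^ 2 * exp (-(c * t0 ^ 2)) * cosh (t0 * X x) := fun x => by
    have p : 0 ≤ 2 * B ^ 2 * exp (-(c * t0 ^ 2)) * cosh (t0 * X x) := by
      have := cosh_pos (t0 * X x); positivity
    rcases le_total |X x| (c * t0) with hx | hx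
    · have : Y x = X x := by
        simp only [hY]
        rw [min_eq_right (abs_le.1 hx).2, max_eq_right (abs_le.1 hx).1]
      rw [this]; linarith
    · have b1 : X x ^ 2 ≤ B ^ 2 := by
        rw [← sq_abs]; exact pow_le_pow_left₀ (abs_nonneg _) (hX x) 2
      have b2 : 1 ≤ exp (-(c * t0 ^ 2)) * (2 * cosh (t0 * X x)) := by
        have : exp (t0 * |X x|) ≤ 2 * cosh (t0 * X x) := by
          rw [← cosh_abs, abs_mul, abs_of_nonneg h0, cosh_eq]
          linarith [exp_pos (-(t0 * |X x|))]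
        refine le_trans ?_ (mul_le_mul_of_nonneg_left this (exp_pos _).le)
        rw [← exp_add]
        exact one_le_exp (by nlinarith [mul_le_mul_of_nonneg_left hx h0])
      nlinarith [mul_le_mul_of_nonneg_left b2 (sq_nonneg B), sq_nonneg (Y x)]
  refine (hv.mean_mono h7).trans ?_
  rw [Ent.mean_add', Ent.mean_const_mul]
  have h8 := (Ent.mean_le_of_le hH (f := fun x => cosh (t0 * X x)) fun x => (cosh_pos _).le).trans
    (mul_le_mul_of_nonneg_left (hch t0 (abs_of_nonneg h0).le) (exp_pos _).le)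
  have h9 : 2 * B ^ 2 * exp (-(c * t0 ^ 2)) * (exp H * exp (c / 2 * t0 ^ 2)) =
      2 * B ^ 2 * exp (H - c / 2 * t0 ^ 2) := by
    rw [mul_assoc, ← exp_add, ← exp_add]; congr 2; ring
  have h10 := mul_le_mul_of_nonneg_left h8
    (show 0 ≤ 2 * B ^ 2 * exp (-(c * t0 ^ 2)) by positivity)
  linarith

end Sb51

theorem sbStmt : SbStmt where
  gen := fun _ _ hw _ hK hA f _ hB _ hf _ hv => Sb51.gen hw hK hA f hB hf hv
  vec := fun _ w hw K hK hA ω M hM hJ H v hv => by
    have h := Sb51.gen hw hK hA (sq2 ω) (B := 4 * M ^ 2) (by positivity) (fun x => by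
      refine (sq2_flip ω x).trans ?_
      have h1 := mulVec_dot_le (jac ω x)ᵀ (ω x)
      rw [opn_transpose] at h1
      have h2 : opn (jac ω x) ^ 2 ≤ M ^ 2 := pow_le_pow_left₀ (opn_nonneg _) (hJ x) 2
      have h3 := mul_le_mul_of_nonneg_right h2 (Eig.dot_self_nonneg (ω x))
      rw [sq2]; linarith) hv.1
    have h2 := mul_le_mul_of_nonneg_left (kl_le hw hv) (show 0 ≤ K * (4 * M ^ 2) by positivity)
    linarith


end Crest.Agent.T157.Reg

end
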