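import Crest.Agent.T157.RegBas_66
import Crest.Agent.T157.RegDefB_94
import Crest.Agent.T157.RegSb_51
import Crest.Agent.T157.LowC_85
import Crest.Agent.T157.RegJb_45
import Crest.Agent.T157.RegTool_31
import Crest.Agent.T157.RegJac_75
import Crest.Agent.T157.RegCoef_54
import Crest.Agent.T157.RegOp_34_Mg
import Crest.Agent.T157.RegS4_2
import Crest.Agent.T157.RegNice_66
import Crest.Agent.T157.RegCol_13

-- ▼ part T157/RegGl_45
section

/-!
# Row 157, part B (helper45): the glue of (REG)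

For a fixed small step `h` we compare the gradient flow, the clipped flow and the linear flow;
then `h → 0`.
-/

set_option autoImplicit false

noncomputable section

namespace Crest.Agent.T157.Reg

open Matrix Real Filter Topology Finset
open Crest.Agent.T157.E hiding mean
open Crest.Agent.T157.Eig
open Crest.Agent.T157.Tap (V Mx)
open Crest.Agent.T157.Rec (grad fl)
open Crest.Agent.T157.Da.Gr (loc tt)
open Crest.Agent.T157.Chain22 (sg IsP mean)

namespace G45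

variable {n : ℕ}

theorem sq2_eq (ω : VF n) (x : Cube n) : sq2 ω x = ∑ i, ω x i ^ 2 := by
  simp [sq2, dotProduct, sq]

theorem sq2_nn (ω : VF n) (x : Cube n) : 0 ≤ sq2 ω x := by rw [sq2_eq]; positivity

theorem S4_nn (M : Mx n) : 0 ≤ S4 M := by unfold S4; positivity

theorem So_nn (M : Mx n) : 0 ≤ So M := by
  unfold So; have := S4_nn (off M); positivity

theorem mu_pos (W : Mx n) (x : Cube n) : 0 < mu W x := exp_pos _

theorem isP_mu (W : Mx n) : IsP (prob (mu W)) := Chain22.isP_prob' (mu_pos W)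

theorem wm_mu (W : Mx n) {H : ℝ} (hH : 0 ≤ H) : Wm (mu W) H (prob (mu W)) :=
  ⟨isP_mu W, fun x => le_mul_of_one_le_left ((isP_mu W).nn x) (one_le_exp hH)⟩

theorem wm_zero {W : Mx n} {v : Cube n → ℝ} (h : Wm (mu W) 0 v) : v = prob (mu W) := by
  have h1 : ∀ x ∈ univ, 0 ≤ prob (mu W) x - v x := fun x _ => by
    have := h.2 x; rw [exp_zero, one_mul] at this; linarith
  have h2 : ∑ x, (prob (mu W) x - v x) = 0 := by
    rw [sum_sub_distrib, (isP_mu W).sum1, h.1.sum1, sub_self]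
  ext x
  have := (sum_eq_zero_iff_of_nonneg h1).1 h2 x (mem_univ x); linarith

theorem mean_le4 {v : Cube n → ℝ} (hv : IsP v) {F f1 f2 f3 f4 : Cube n → ℝ} {a1 a2 a3 a4 : ℝ}
    (h : ∀ x, F x ≤ a1 * f1 x + a2 * f2 x + a3 * f3 x + a4 * f4 x) :
    mean v F ≤ a1 * mean v f1 + a2 * mean v f2 + a3 * mean v f3 + a4 * mean v f4 := by
  refine (hv.mean_mono h).trans_eq ?_
  simp only [mean, mul_sum, ← sum_add_distrib]
  exact sum_congr rfl fun x _ => by ring

theorem mean_le2 {v : Cube n → ℝ} (hv : IsP v) {F f1 f2 : Cube n → ℝ} {a1 a2 : ℝ}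
    (h : ∀ x, F x ≤ a1 * f1 x + a2 * f2 x) : mean v F ≤ a1 * mean v f1 + a2 * mean v f2 := by
  have := mean_le4 (F := F) (f1 := f1) (f2 := f2) (f3 := f1) (f4 := f1) (a1 := a1) (a2 := a2)
    (a3 := 0) (a4 := 0) hv fun x => by simpa using h x
  simpa using this

theorem mean_le1 {v : Cube n → ℝ} (hv : IsP v) {F f1 : Cube n → ℝ} {a1 : ℝ}
    (h : ∀ x, F x ≤ a1 * f1 x) : mean v F ≤ a1 * mean v f1 := by
  have := mean_le2 (F := F) (f1 := f1) (f2 := f1) (a1 := a1) (a2 := 0) hv fun x => by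
    simpa using h x
  simpa using this

theorem jac_sub (ω ω' : VF n) (x : Cube n) : jac (ω - ω') x = jac ω x - jac ω' x := by
  ext i j; simp only [jac, of_apply, Pi.sub_apply, Matrix.sub_apply]; ring

theorem bb_sub (W : Mx n) (ω ω' : VF n) : bb W (ω - ω') = bb W ω - bb W ω' := by
  ext x i; simp [bb, mulVec_sub]

theorem stp_sub (W : Mx n) (h : ℝ) (ω σ ω' σ' : VF n) :
    stp W h ω σ - stp W h ω' σ' = stp W h (ω - ω') (σ - σ') := by
  ext x i
  have : ∑ k, (Tk W x k + al W x i k) * jac (ω - ω') x i k =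
      ∑ k, (Tk W x k + al W x i k) * jac ω x i k - ∑ k, (Tk W x k + al W x i k) * jac ω' x i k := by
    rw [← sum_sub_distrib]
    exact sum_congr rfl fun k _ => by rw [jac_sub, Matrix.sub_apply]; ring
  simp only [stp, Pi.sub_apply, this]; ring

/-! ### linear combinations -/

/-- linear combination of fields -/
def cmb {d : ℕ} (α : Fin d → ℝ) (w : Fin d → VF n) : VF n := fun x i => ∑ j, α j * w j x i

theorem cmb_sq {d : ℕ} (α : Fin d → ℝ) (w : Fin d → VF n) (x : Cube n) (i : Fin n) :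
    cmb α w x i ^ 2 ≤ (∑ j, |α j|) * ∑ j, |α j| * w j x i ^ 2 :=
  sum_sq_le_sum_mul_sum_of_sq_le_mul _ (fun _ _ => abs_nonneg _) (fun _ _ => by positivity)
    fun j _ => by rw [mul_pow, ← sq_abs (α j)]; exact le_of_eq (by ring)

theorem cmb_mean {d : ℕ} (α : Fin d → ℝ) (w : Fin d → VF n) {v : Cube n → ℝ} (hv : IsP v)
    (θ : VF n) (hθ : ∀ x i, 0 ≤ θ x i) {R : ℝ}
    (h : ∀ j, mean v (fun x => ∑ i, θ x i * w j x i ^ 2) ≤ R) :
    mean v (fun x => ∑ i, θ x i * cmb α w x i ^ 2) ≤ (∑ j, |α j|) ^ 2 * R := by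
  have ha : 0 ≤ ∑ j, |α j| := by positivity
  calc mean v (fun x => ∑ i, θ x i * cmb α w x i ^ 2)
      ≤ (∑ j, |α j|) * mean v (fun x => ∑ j, |α j| * ∑ i, θ x i * w j x i ^ 2) := by
        refine mean_le1 hv fun x => ?_
        calc ∑ i, θ x i * cmb α w x i ^ 2
            ≤ ∑ i, θ x i * ((∑ j, |α j|) * ∑ j, |α j| * w j x i ^ 2) :=
              sum_le_sum fun i _ => mul_le_mul_of_nonneg_left (cmb_sq α w x i) (hθ x i)
          _ = _ := by
              generalize (∑ j, |α j|) = a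
              simp only [mul_sum]
              rw [sum_comm]
              exact sum_congr rfl fun j _ => sum_congr rfl fun i _ => by ring
    _ = (∑ j, |α j|) * ∑ j, |α j| * mean v (fun x => ∑ i, θ x i * w j x i ^ 2) := by
        congr 1
        generalize hF : (fun j x => ∑ i, θ x i * w j x i ^ 2) = F
        have e : ∀ j x, ∑ i, θ x i * w j x i ^ 2 = F j x := fun j x => by rw [← hF]
        simp only [e, mean, mul_sum]
        rw [sum_comm]
        exact sum_congr rfl fun j _ => sum_congr rfl fun x _ => by ring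
    _ ≤ (∑ j, |α j|) * ∑ j, |α j| * R := by gcongr with j; exact h j
    _ = _ := by rw [← sum_mul]; ring

theorem cmb_sq2 {d : ℕ} (α : Fin d → ℝ) (w : Fin d → VF n) {v : Cube n → ℝ} (hv : IsP v) {R : ℝ}
    (h : ∀ j, mean v (sq2 (w j)) ≤ R) : mean v (sq2 (cmb α w)) ≤ (∑ j, |α j|) ^ 2 * R := by
  have e : ∀ ω : VF n, sq2 ω = fun x => ∑ i, (fun _ _ => (1 : ℝ)) x i * ω x i ^ 2 := fun ω => by
    ext x; simp [sq2_eq]
  rw [e]
  exact cmb_mean α w hv _ (fun _ _ => zero_le_one) fun j => by rw [← e]; exact h j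

theorem cmb_op {d : ℕ} (α : Fin d → ℝ) (w : Fin d → VF n) (x : Cube n) {Y : ℝ}
    (h : ∀ j, opn (jac (w j) x) ≤ Y) : opn (jac (cmb α w) x) ≤ (∑ j, |α j|) * Y := by
  have e : jac (cmb α w) x = ∑ j, α j • jac (w j) x := by
    ext i k
    simp only [jac, cmb, of_apply, Matrix.sum_apply, Matrix.smul_apply, smul_eq_mul, mul_sub,
      sum_sub_distrib]
  rw [e, sum_mul]
  refine (opn_sum_le _ _).trans (sum_le_sum fun j _ => ?_)
  rw [opn_smul]
  exact mul_le_mul_of_nonneg_left (h j) (abs_nonneg _)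

theorem cmb_sub {d : ℕ} (α : Fin d → ℝ) (w w' : Fin d → VF n) (x : Cube n) (i : Fin n) :
    cmb α (fun j => w j - w' j) x i = cmb α w x i - cmb α w' x i := by
  simp only [cmb, Pi.sub_apply, mul_sub, sum_sub_distrib]

theorem grad_cmb {d : ℕ} (α : Fin d → ℝ) (F : Fin d → Cube n → ℝ) :
    grad (fun x => ∑ j, α j * F j x) = cmb α fun j => grad (F j) := by
  ext x i
  simp only [Rec.grad_eq, cmb, ← sum_sub_distrib, mul_sum, sum_div]
  exact sum_congr rfl fun j _ => by ring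


/-! ### the hypotheses at a fixed step -/

/-- everything the leaves give at a fixed step `h` -/
structure Hy (W : Mx n) (K C h : ℝ) : Prop where
  C1 : 1 ≤ C
  K0 : 0 < K
  h0 : 0 ≤ h
  int : ∀ f, grad (Qh W h f) = stp W h (grad f) (bb W (grad f))
  wm : ∀ H v, Wm (mu W) H v → ∃ v', Wm (mu W) H v' ∧ ∀ f, mean v (Qh W h f) = mean v' f
  obb : ∀ ω : VF n, Odd ω → Odd (bb W ω)
  ostp : ∀ ω σ : VF n, Odd ω → Odd σ → Odd (stp W h ω σ)
  jb1 : ∀ (ω : VF n) x y, 0 ≤ y → (∀ k, |ω x k| ≤ y) →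
    opn (jac (bb W ω) x) ≤ C * (opn (jac ω x) + y)
  jb2 : ∀ (ω : VF n) x, S4 (jac (bb W ω) x) ≤ C * (S4 (jac ω x) + ∑ k, ω x k ^ 4)
  jb3 : ∀ (ω : VF n) x, sq2 (bb W ω) x ≤ C * sq2 ω x
  bo1 : ∀ (ξ σ : VF n) x,
    sq2 (stp W h ξ σ) x ≤ Qh W h (sq2 ξ) x + h * (C * sq2 ξ x + 2 * sq2 σ x)
  bo2 : ∀ (ξ σ : VF n) y z, (∀ x i, |ξ x i| ≤ y) → (∀ x i, |σ x i| ≤ z) →
    ∀ x i, |stp W h ξ σ x i| ≤ (1 - h) * y + h * z
  op : ∀ (ω σ : VF n) (M N : ℝ), (∀ x, opn (jac ω x) ≤ M) → (∀ x, opn (jac σ x) ≤ N) →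
    ∀ x, opn (jac (stp W h ω σ) x) ≤ (1 + C * h) * M + h * N
  s4 : ∀ ω σ : VF n, mean (prob (mu W)) (fun x => So (jac (stp W h ω σ) x)) ≤
    (1 + C * h) * mean (prob (mu W)) (fun x => So (jac ω x)) +
      C * h * mean (prob (mu W)) fun x => S4 (jac σ x)
  p4 : ∀ ω : VF n, Odd ω → mean (prob (mu W)) (fun x => ∑ i, ω x i ^ 4) ≤
    C * mean (prob (mu W)) fun x => S4 (jac ω x)
  cl : ClStmt
  vec : ∀ (ω : VF n) (M : ℝ), 0 < M → (∀ x, opn (jac ω x) ≤ M) → ∀ H v, Wm (mu W) H v →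
    mean v (sq2 ω) ≤ 2 * mean (prob (mu W)) (sq2 ω) + 4 * K * M ^ 2 * H
  so : ∀ M : Mx n, So M ≤ 17 * S4 M ∧ S4 M ≤ 8 * So M
  s4op : ∀ M : Mx n, S4 M ≤ n * opn M ^ 4

variable {W : Mx n} {K C h : ℝ}

theorem Hy.r1 (c : Hy W K C h) : 1 ≤ 1 + 5 * C * h := by
  have := c.C1; have := c.h0; have : 0 ≤ 5 * C * h := by positivity
  linarith

theorem Hy.flow (c : Hy W K C h) (H : ℝ) (ξ σ : ℕ → VF n)
    (hr : ∀ m, ξ (m + 1) = stp W h (ξ m) (σ m)) (M : ℕ) {a b : ℝ} (hb : 0 ≤ b)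
    (h0 : ∀ v, Wm (mu W) H v → mean v (sq2 (ξ 0)) ≤ a)
    (hσ : ∀ m < M, ∀ v, Wm (mu W) H v → mean v (sq2 (σ m)) ≤ 2 * C * mean v (sq2 (ξ m)) + b) :
    ∀ m ≤ M, ∀ v, Wm (mu W) H v →
      mean v (sq2 (ξ m)) ≤ (1 + 5 * C * h) ^ m * (a + m * h * (2 * b)) := by
  intro m
  have hC := c.C1
  have hh := c.h0
  induction m with
  | zero => intro _ v hv; simpa using h0 v hv
  | succ m ih =>
    intro hm v hv
    obtain ⟨v', hv', e⟩ := c.wm H v hv
    have i1 := ih (by omega) v hv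
    have i2 := ih (by omega) v' hv'
    have i3 := hσ m (by omega) v hv
    have i4 : mean v (sq2 (ξ (m + 1))) ≤ 1 * mean v (Qh W h (sq2 (ξ m))) +
        h * C * mean v (sq2 (ξ m)) + 2 * h * mean v (sq2 (σ m)) + 0 * mean v (sq2 (σ m)) :=
      mean_le4 hv.1 fun x => by rw [hr]; have := c.bo1 (ξ m) (σ m) x; linarith
    rw [e] at i4
    have r1 : 1 ≤ (1 + 5 * C * h) ^ (m + 1) := one_le_pow₀ c.r1
    have e2 : (1 + 5 * C * h) ^ (m + 1) * (a + ((m + 1 : ℕ) : ℝ) * h * (2 * b)) =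
        (1 + 5 * C * h) * ((1 + 5 * C * h) ^ m * (a + m * h * (2 * b))) +
          (1 + 5 * C * h) ^ (m + 1) * (h * (2 * b)) := by push_cast; ring
    rw [e2]
    generalize (1 + 5 * C * h) ^ m * (a + m * h * (2 * b)) = R at *
    have j1 : h * C * mean v (sq2 (ξ m)) ≤ h * C * R := by gcongr
    have j2 : 2 * h * mean v (sq2 (σ m)) ≤ 2 * h * (2 * C * R + b) := by
      refine mul_le_mul_of_nonneg_left (i3.trans ?_) (by positivity); gcongr
    have j3 : 1 * (h * (2 * b)) ≤ (1 + 5 * C * h) ^ (m + 1) * (h * (2 * b)) := by gcongr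
    nlinarith

/-- clip level -/
def et (C h y : ℝ) (m : ℕ) : ℝ := 2 * C * y * (1 + 5 * C * h) ^ m
/-- the clipped flow with our parameters -/
def cf (W : Mx n) (C h y : ℝ) (ω0 : VF n) : ℕ → VF n := clf W h (2 * C * y) (1 + 5 * C * h) ω0
/-- the clipped source -/
def cs (W : Mx n) (C h y : ℝ) (ω0 : VF n) (m : ℕ) : VF n := fun x i =>
  clip (et C h y m) (bb W (cf W C h y ω0 m) x i)

theorem cf_succ (y : ℝ) (ω0 : VF n) (m : ℕ) :
    cf W C h y ω0 (m + 1) = stp W h (cf W C h y ω0 m) (cs W C h y ω0 m) := rfl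

theorem Hy.et_pos (c : Hy W K C h) {y : ℝ} (hy : 0 < y) (m : ℕ) : 0 < et C h y m := by
  have := c.C1; have := c.r1; unfold et; positivity

theorem Hy.src (c : Hy W K C h) {ω0 : VF n} {y : ℝ} (hy : 0 < y) {m : ℕ}
    (h1 : ∀ x i, |cf W C h y ω0 m x i| ≤ y * (1 + 5 * C * h) ^ m)
    (h2 : ∀ x, opn (jac (cf W C h y ω0 m) x) ≤ y * (1 + 5 * C * h) ^ m) (x : Cube n) :
    opn (jac (bb W (cf W C h y ω0 m)) x) ≤ et C h y m ∧
      opn (jac (cs W C h y ω0 m) x) ≤ 2 * et C h y m := by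
  have hC := c.C1
  have hr := c.r1
  have he := c.et_pos hy m
  have a1 : opn (jac (bb W (cf W C h y ω0 m)) x) ≤ et C h y m := by
    refine (c.jb1 _ x _ (by positivity) (h1 x)).trans ?_
    calc _ ≤ C * (y * (1 + 5 * C * h) ^ m + y * (1 + 5 * C * h) ^ m) := by gcongr; exact h2 x
      _ = _ := by unfold et; ring
  refine ⟨a1, ((c.cl _ he).2.2 n _ x _ a1).trans_eq ?_⟩
  field_simp; ring

theorem Hy.inv (c : Hy W K C h) {ω0 : VF n} {y : ℝ} (hy : 0 < y) (h1 : ∀ x i, |ω0 x i| ≤ y)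
    (h2 : ∀ x, opn (jac ω0 x) ≤ y) (m : ℕ) :
    (∀ x i, |cf W C h y ω0 m x i| ≤ y * (1 + 5 * C * h) ^ m) ∧
      ∀ x, opn (jac (cf W C h y ω0 m) x) ≤ y * (1 + 5 * C * h) ^ m := by
  have hC := c.C1
  have hr := c.r1
  have hh := c.h0
  induction m with
  | zero => simpa [cf, clf] using ⟨h1, h2⟩
  | succ m ih =>
    have hY : 0 ≤ y * (1 + 5 * C * h) ^ m := by positivity
    have ee : et C h y m = 2 * C * (y * (1 + 5 * C * h) ^ m) := by unfold et; ring
    have e2 : y * (1 + 5 * C * h) ^ (m + 1) = (1 + 5 * C * h) * (y * (1 + 5 * C * h) ^ m) := by ring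
    rw [cf_succ, e2]
    refine ⟨fun x i => ?_, fun x => ?_⟩
    · refine (c.bo2 _ _ _ (et C h y m) ih.1
        (fun x i => ((c.cl _ (c.et_pos hy m)).1 _).1) x i).trans ?_
      rw [ee]
      generalize y * (1 + 5 * C * h) ^ m = Y at *
      have : 0 ≤ h * Y := by positivity
      have : 0 ≤ C * (h * Y) := by positivity
      nlinarith
    · refine (c.op _ _ _ _ ih.2 (fun x => (c.src hy ih.1 ih.2 x).2) x).trans_eq ?_
      rw [ee]; ring

theorem Hy.odd_lin (c : Hy W K C h) {ω0 : VF n} (ho : Odd ω0) (m : ℕ) : Odd (lin W h ω0 m) := by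
  induction m with
  | zero => exact ho
  | succ m ih => exact c.ostp _ _ ih (c.obb _ ih)

theorem Hy.l4 (c : Hy W K C h) {ω : VF n} (ho : Odd ω) :
    mean (prob (mu W)) (fun x => ∑ i, ω x i ^ 4) ≤
      8 * C * mean (prob (mu W)) fun x => So (jac ω x) := by
  have hC := c.C1
  have := mean_le1 (isP_mu W) fun x => (c.so (jac ω x)).2
  refine (c.p4 ω ho).trans ?_
  calc _ ≤ C * (8 * mean (prob (mu W)) fun x => So (jac ω x)) := by gcongr
    _ = _ := by ring

theorem Hy.s4b (c : Hy W K C h) {ω : VF n} (ho : Odd ω) :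
    mean (prob (mu W)) (fun x => S4 (jac (bb W ω) x)) ≤
      16 * C ^ 2 * mean (prob (mu W)) fun x => So (jac ω x) := by
  have hC := c.C1
  have h1 := c.l4 ho
  have h2 : mean (prob (mu W)) (fun x => S4 (jac (bb W ω) x)) ≤
      8 * C * mean (prob (mu W)) (fun x => So (jac ω x)) +
        C * mean (prob (mu W)) (fun x => ∑ i, ω x i ^ 4) :=
    mean_le2 (isP_mu W) fun x => by
      have := c.jb2 ω x
      have h3 : C * S4 (jac ω x) ≤ C * (8 * So (jac ω x)) := by gcongr; exact (c.so _).2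
      linarith
  have h3 : 0 ≤ mean (prob (mu W)) fun x => So (jac ω x) :=
    (isP_mu W).mean_nonneg fun x => So_nn _
  generalize (mean (prob (mu W)) fun x => So (jac ω x)) = s at *
  have h4 : C * mean (prob (mu W)) (fun x => ∑ i, ω x i ^ 4) ≤ C * (8 * C * s) := by gcongr
  have h5 : 0 ≤ C * s * (C - 1) := by have : 0 ≤ C - 1 := by linarith
                                      positivity
  nlinarith

theorem Hy.so_lin (c : Hy W K C h) {ω0 : VF n} (ho : Odd ω0) {e : ℝ}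
    (h2 : ∀ x, opn (jac ω0 x) ≤ e) (m : ℕ) :
    mean (prob (mu W)) (fun x => So (jac (lin W h ω0 m) x)) ≤
      (1 + 17 * C ^ 3 * h) ^ m * (17 * (n * e ^ 4)) := by
  have hC := c.C1
  have hh := c.h0
  induction m with
  | zero =>
    rw [pow_zero, one_mul, ← (isP_mu W).mean_const (17 * (n * e ^ 4))]
    refine (isP_mu W).mean_mono fun x => (c.so _).1.trans ?_
    have := opn_nonneg (jac ω0 x)
    have h3 : (n : ℝ) * opn (jac ω0 x) ^ 4 ≤ n * e ^ 4 := by gcongr; exact h2 x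
    have := c.s4op (jac ω0 x)
    simp only [lin]; linarith
  | succ m ih =>
    have h1 := c.s4 (lin W h ω0 m) (bb W (lin W h ω0 m))
    have h3 := c.s4b (c.odd_lin ho m)
    have h4 : 0 ≤ mean (prob (mu W)) fun x => So (jac (lin W h ω0 m) x) :=
      (isP_mu W).mean_nonneg fun x => So_nn _
    rw [pow_succ', mul_assoc]
    simp only [lin]
    generalize (mean (prob (mu W)) fun x => So (jac (lin W h ω0 m) x)) = s at *
    have h5 : C * h * mean (prob (mu W)) (fun x => S4 (jac (bb W (lin W h ω0 m)) x)) ≤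
        C * h * (16 * C ^ 2 * s) := by gcongr
    have h6 : C ≤ C ^ 3 := by simpa using pow_le_pow_right₀ hC (show 1 ≤ 3 by norm_num)
    have h7 : C * (h * s) ≤ C ^ 3 * (h * s) := by gcongr
    calc _ ≤ (1 + 17 * C ^ 3 * h) * s := by nlinarith
      _ ≤ _ := by gcongr

/-- the data of the fixed-step estimate -/
structure Dt (W : Mx n) (K C h : ℝ) (ω0 : VF n) (e y H Z q : ℝ) (M : ℕ) : Prop where
  e0 : 0 < e
  ey : e ≤ y
  H0 : 0 ≤ H
  Z0 : 0 ≤ Z
  yH : y ^ 2 * H ≤ Z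
  nZ : n * e ^ 4 ≤ Z * y ^ 2
  Cq : C ≤ q
  Kq : K ≤ q
  Mq : M * h ≤ q
  gq : (1 + 17 * C ^ 3 * h) ^ M ≤ q
  odd : Odd ω0
  sup : ∀ x i, |ω0 x i| ≤ e
  op : ∀ x, opn (jac ω0 x) ≤ e

variable {ω0 : VF n} {e y H Z q : ℝ} {M : ℕ}

theorem Dt.y0 (t : Dt W K C h ω0 e y H Z q M) : 0 < y := t.e0.trans_le t.ey

theorem Hy.gq (c : Hy W K C h) (t : Dt W K C h ω0 e y H Z q M) {m : ℕ} (hm : m ≤ M) :
    (1 + 17 * C ^ 3 * h) ^ m ≤ q ∧ (1 + 5 * C * h) ^ m ≤ q ∧ m * h ≤ q := by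
  have hC := c.C1
  have hh := c.h0
  have h6 : C ≤ C ^ 3 := by simpa using pow_le_pow_right₀ hC (show 1 ≤ 3 by norm_num)
  have h7 : 1 + 5 * C * h ≤ 1 + 17 * C ^ 3 * h := by gcongr; norm_num
  have h1 : (1 + 17 * C ^ 3 * h) ^ m ≤ q := (pow_le_pow_right₀ (c.r1.trans h7) hm).trans t.gq
  refine ⟨h1, (pow_le_pow_left₀ (zero_le_one.trans c.r1) h7 m).trans h1, le_trans ?_ t.Mq⟩
  gcongr

theorem Hy.so_le (c : Hy W K C h) (t : Dt W K C h ω0 e y H Z q M) {m : ℕ} (hm : m ≤ M) :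
    mean (prob (mu W)) (fun x => So (jac (lin W h ω0 m) x)) ≤ q * (17 * (n * e ^ 4)) := by
  refine (c.so_lin t.odd t.op m).trans ?_
  gcongr
  exact (c.gq t hm).1

theorem Hy.b4 (c : Hy W K C h) (t : Dt W K C h ω0 e y H Z q M) {m : ℕ} (hm : m ≤ M) :
    1 / et C h y m ^ 2 * mean (prob (mu W)) (fun x => ∑ i, bb W (lin W h ω0 m) x i ^ 4) ≤
      68 * q ^ 2 * Z := by
  have hC := c.C1
  have hq := c.C1.trans t.Cq
  have hZ := t.Z0
  have hy := t.y0
  have h1 := c.p4 _ (c.obb _ (c.odd_lin t.odd m))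
  have h2 := c.s4b (c.odd_lin t.odd m)
  have h3 := c.so_le t hm
  have he := c.et_pos hy m
  have h4 : 2 * C * y ≤ et C h y m :=
    le_mul_of_one_le_right (by positivity) (one_le_pow₀ c.r1)
  rw [one_div_mul_eq_div, div_le_iff₀ (by positivity)]
  calc _ ≤ C * (16 * C ^ 2 * (q * (17 * (Z * y ^ 2)))) := by
        refine h1.trans ?_
        gcongr
        refine h2.trans ?_
        gcongr
        refine h3.trans ?_
        gcongr q * (17 * ?_)
        exact t.nZ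
    _ = 68 * (C * q) * Z * (2 * C * y) ^ 2 := by ring
    _ ≤ 68 * (q * q) * Z * et C h y m ^ 2 := by gcongr; exact t.Cq
    _ = _ := by ring

theorem sq_add_le {a b s η : ℝ} (hη : 0 < η) (h : |s| ≤ |a| + b ^ 2 / η) :
    s ^ 2 ≤ 2 * a ^ 2 + 2 * (1 / η ^ 2 * b ^ 4) := by
  have e : 1 / η ^ 2 * b ^ 4 = (b ^ 2 / η) ^ 2 := by field_simp
  rw [e, ← sq_abs s, ← sq_abs a]
  have : |s| ^ 2 ≤ (|a| + b ^ 2 / η) ^ 2 := by gcongr
  nlinarith [sq_nonneg (|a| - b ^ 2 / η)]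

theorem Hy.pt (c : Hy W K C h) (l k σ : VF n) {η : ℝ} (hη : 0 < η) (x : Cube n)
    (hs : ∀ i, |σ x i| ≤ |bb W l x i - bb W k x i| + bb W l x i ^ 2 / η) :
    sq2 σ x ≤ 2 * C * sq2 (l - k) x + 2 * (1 / η ^ 2) * ∑ i, bb W l x i ^ 4 := by
  have h1 := c.jb3 (l - k) x
  rw [bb_sub, sq2_eq] at h1
  have h2 : sq2 σ x ≤ ∑ i, (2 * (bb W l - bb W k) x i ^ 2 + 2 * (1 / η ^ 2 * bb W l x i ^ 4)) := by
    rw [sq2_eq]; exact sum_le_sum fun i _ => sq_add_le hη (hs i)
  rw [sum_add_distrib, ← mul_sum, ← mul_sum, ← mul_sum] at h2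
  linarith

theorem Hy.dl (c : Hy W K C h) (t : Dt W K C h ω0 e y H Z q M) {m : ℕ} (hm : m ≤ M) :
    mean (prob (mu W)) (sq2 (lin W h ω0 m - cf W C h y ω0 m)) ≤ 272 * q ^ 4 * Z := by
  have hq := c.C1.trans t.Cq
  have hZ := t.Z0
  have hh := c.h0
  have := c.flow 0 (fun m => lin W h ω0 m - cf W C h y ω0 m)
    (fun m => bb W (lin W h ω0 m) - cs W C h y ω0 m) (fun m => by rw [← stp_sub]; rfl) M
    (a := 0) (b := 136 * q ^ 2 * Z) (by positivity)
    (fun v hv => by simp [lin, cf, clf, mean, sq2]) (fun m hm v hv => by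
      rw [wm_zero hv]
      have he := c.et_pos t.y0 m
      have h1 := mean_le2 (isP_mu W) fun x =>
        c.pt (lin W h ω0 m) (cf W C h y ω0 m) (bb W (lin W h ω0 m) - cs W C h y ω0 m) he x
          fun i => by
            have a1 := ((c.cl _ he).1 (bb W (lin W h ω0 m) x i)).2
            have a2 := ((c.cl _ he).2.1 (bb W (lin W h ω0 m) x i) (bb W (cf W C h y ω0 m) x i)).1
            have a3 := abs_sub_le (bb W (lin W h ω0 m) x i)
              (clip (et C h y m) (bb W (lin W h ω0 m) x i))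
              (clip (et C h y m) (bb W (cf W C h y ω0 m) x i))
            simp only [Pi.sub_apply, cs]
            linarith
      have h2 := c.b4 t hm.le
      linarith) m hm _ (wm_mu W le_rfl)
  refine this.trans ?_
  obtain ⟨-, g2, g3⟩ := c.gq t hm
  calc _ ≤ q * (0 + q * (2 * (136 * q ^ 2 * Z))) := by gcongr
    _ = _ := by ring

theorem Hy.ex (c : Hy W K C h) (t : Dt W K C h ω0 e y H Z q M) {m : ℕ} (hm : m ≤ M)
    {v : Cube n → ℝ} (hv : Wm (mu W) H v) :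
    mean v (sq2 (bb W (cf W C h y ω0 m) - cs W C h y ω0 m)) ≤ 1504 * q ^ 5 * Z := by
  have hC := c.C1
  have hq := c.C1.trans t.Cq
  have hZ := t.Z0
  have hy := t.y0
  have hK := c.K0
  have hH := t.H0
  have hr := c.r1
  have he := c.et_pos t.y0 m
  have hi := c.inv t.y0 (fun x i => (t.sup x i).trans t.ey) (fun x => (t.op x).trans t.ey) m
  have h0 := c.vec (bb W (cf W C h y ω0 m) - cs W C h y ω0 m) (3 * et C h y m) (by positivity)
    (fun x => by
      have := c.src t.y0 hi.1 hi.2 x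
      rw [jac_sub]
      refine (opn_sub_le _ _).trans ?_
      linarith) H v hv
  have h1 := mean_le2 (isP_mu W) fun x =>
    c.pt (lin W h ω0 m) (cf W C h y ω0 m) (bb W (cf W C h y ω0 m) - cs W C h y ω0 m) he x
      fun i => by
        have a1 := ((c.cl _ he).1 (bb W (lin W h ω0 m) x i)).2
        have a2 := ((c.cl _ he).2.1 (bb W (lin W h ω0 m) x i) (bb W (cf W C h y ω0 m) x i)).2
        have a3 := abs_sub_abs_le_abs_sub
          (bb W (cf W C h y ω0 m) x i - clip (et C h y m) (bb W (cf W C h y ω0 m) x i))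
          (bb W (lin W h ω0 m) x i - clip (et C h y m) (bb W (lin W h ω0 m) x i))
        rw [abs_sub_comm (bb W (cf W C h y ω0 m) x i - _)] at a3
        simp only [Pi.sub_apply, cs]
        linarith
  have h2 := c.b4 t hm
  have h3 : C * mean (prob (mu W)) (sq2 (lin W h ω0 m - cf W C h y ω0 m)) ≤
      q * (272 * q ^ 4 * Z) := by
    refine mul_le_mul t.Cq (c.dl t hm) ((isP_mu W).mean_nonneg (sq2_nn _)) (by positivity)
  have h4 : q ^ 2 * Z ≤ q ^ 5 * Z := by gcongr; norm_num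
  have h5 : 4 * K * (3 * et C h y m) ^ 2 * H ≤ 144 * q ^ 5 * Z := by
    calc _ = 144 * (K * C ^ 2 * ((1 + 5 * C * h) ^ m) ^ 2) * (y ^ 2 * H) := by unfold et; ring
      _ ≤ 144 * (q * q ^ 2 * q ^ 2) * Z := by
          gcongr
          exacts [t.Kq, t.Cq, (c.gq t hm).2.1, t.yH]
      _ = _ := by ring
  nlinarith

theorem Hy.gm (c : Hy W K C h) (t : Dt W K C h ω0 e y H Z q M) (Φ : Cube n → ℝ) {ρ : ℝ}
    (hρ : ∀ v, Wm (mu W) H v → mean v (sq2 (grad Φ - ω0)) ≤ ρ) {m : ℕ} (hm : m ≤ M)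
    {v : Cube n → ℝ} (hv : Wm (mu W) H v) :
    mean v (sq2 (grad ((Qh W h)^[m] Φ) - cf W C h y ω0 m)) ≤ 6016 * q ^ 7 * (ρ + Z) := by
  have hC := c.C1
  have hq := c.C1.trans t.Cq
  have hZ := t.Z0
  have hh := c.h0
  have hρ0 : 0 ≤ ρ := (hv.1.mean_nonneg (sq2_nn _)).trans (hρ v hv)
  have := c.flow H (fun m => grad ((Qh W h)^[m] Φ) - cf W C h y ω0 m)
    (fun m => bb W (grad ((Qh W h)^[m] Φ)) - cs W C h y ω0 m)
    (fun m => by rw [← stp_sub, Function.iterate_succ_apply', c.int]; rfl) M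
    (a := ρ) (b := 3008 * q ^ 5 * Z) (by positivity) hρ (fun m hm v hv => by
      have h1 : mean v (sq2 (bb W (grad ((Qh W h)^[m] Φ)) - cs W C h y ω0 m)) ≤
          2 * C * mean v (sq2 (grad ((Qh W h)^[m] Φ) - cf W C h y ω0 m)) +
          2 * mean v (sq2 (bb W (cf W C h y ω0 m) - cs W C h y ω0 m)) :=
        mean_le2 hv.1 fun x => by
          have a1 := c.jb3 (grad ((Qh W h)^[m] Φ) - cf W C h y ω0 m) x
          rw [bb_sub] at a1
          generalize bb W (grad ((Qh W h)^[m] Φ)) = A at *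
          generalize bb W (cf W C h y ω0 m) = B at *
          have a2 : sq2 (A - cs W C h y ω0 m) x ≤
              2 * sq2 (A - B) x + 2 * sq2 (B - cs W C h y ω0 m) x := by
            simp only [sq2_eq, mul_sum, ← sum_add_distrib, Pi.sub_apply]
            exact sum_le_sum fun i _ => by
              nlinarith [sq_nonneg (A x i - B x i - (B x i - cs W C h y ω0 m x i))]
          linarith
      have h2 := c.ex t hm.le hv
      linarith) m hm v hv
  refine this.trans ?_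
  obtain ⟨-, g2, g3⟩ := c.gq t hm
  have h1 : q ≤ q ^ 7 := by simpa using pow_le_pow_right₀ hq (show 1 ≤ 7 by norm_num)
  have h2 : q * ρ ≤ q ^ 7 * ρ := by gcongr
  have h3 : 0 ≤ q ^ 7 * ρ := by positivity
  calc _ ≤ q * (ρ + q * (2 * (3008 * q ^ 5 * Z))) := by gcongr
    _ ≤ _ := by nlinarith

theorem Hy.tl (c : Hy W K C h) (t : Dt W K C h ω0 e y H Z q M) {m : ℕ} (hm : m ≤ M) (θ : VF n)
    (hθ : ∀ x i, θ x i = 1 ∨ θ x i = 0) {ε : ℝ} (hε : 0 < ε)
    (ht : mean (prob (mu W)) (fun x => ∑ k, θ x k) ≤ 2 * n * ε ^ 2) :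
    mean (prob (mu W)) (fun x => ∑ k, θ x k * lin W h ω0 m x k ^ 2) ≤
      69 * q ^ 2 * (n * e ^ 2 * ε) := by
  have hC := c.C1
  have hq := c.C1.trans t.Cq
  have he := t.e0
  have h1 : mean (prob (mu W)) (fun x => ∑ k, θ x k * lin W h ω0 m x k ^ 2) ≤
      e ^ 2 / (2 * ε) * mean (prob (mu W)) (fun x => ∑ k, θ x k) +
        ε / (2 * e ^ 2) * mean (prob (mu W)) (fun x => ∑ k, lin W h ω0 m x k ^ 4) :=
    mean_le2 (isP_mu W) fun x => by
      simp only [mul_sum, ← sum_add_distrib]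
      refine sum_le_sum fun k _ => ?_
      rcases hθ x k with h1 | h1 <;> rw [h1]
      · have : e ^ 2 / (2 * ε) * 1 + ε / (2 * e ^ 2) * lin W h ω0 m x k ^ 4 -
            1 * lin W h ω0 m x k ^ 2 =
            (e ^ 2 - ε * lin W h ω0 m x k ^ 2) ^ 2 / (2 * ε * e ^ 2) := by field_simp; ring
        have h2 : 0 ≤ (e ^ 2 - ε * lin W h ω0 m x k ^ 2) ^ 2 / (2 * ε * e ^ 2) := by positivity
        linarith
      · simp only [zero_mul, mul_zero, zero_add]; positivity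
  have h2 : mean (prob (mu W)) (fun x => ∑ k, lin W h ω0 m x k ^ 4) ≤
      8 * q * (q * (17 * (n * e ^ 4))) := by
    refine (c.l4 (c.odd_lin t.odd m)).trans (mul_le_mul (by linarith [t.Cq]) (c.so_le t hm)
      ((isP_mu W).mean_nonneg fun x => So_nn _) (by positivity))
  have h3 : 1 * (n * e ^ 2 * ε) ≤ q ^ 2 * (n * e ^ 2 * ε) := by
    gcongr; exact one_le_pow₀ hq
  calc _ ≤ e ^ 2 / (2 * ε) * (2 * n * ε ^ 2) +
        ε / (2 * e ^ 2) * (8 * q * (q * (17 * (n * e ^ 4)))) := by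
        refine h1.trans ?_; gcongr
    _ = n * e ^ 2 * ε + 68 * q ^ 2 * (n * e ^ 2 * ε) := by field_simp; ring
    _ ≤ _ := by linarith




theorem setup (tl : ToolStmt) (bas : BasStmt) (jb : JbStmt) (bo : BoStmt) (op : OpStmt)
    (s4 : S4Stmt) (cl : ClStmt) (sb : SbStmt) (p4 : P4Stmt) {K : ℝ} (hK : 0 < K) :
    ∃ C ≥ (1 : ℝ), ∀ (n : ℕ) (W : Mx n), Nice W K → Ent.AT (mu W) K 0 →
      (∀ A ≥ (0 : ℝ), mean (prob (mu W))
        (fun x => ∑ k, if A < |loc W 0 x k| then (1 : ℝ) else 0) ≤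
          2 * n * exp (-(A ^ 2 / (2 * C))) ^ 2) ∧
      ∀ᶠ h : ℝ in 𝓝[>] 0, 0 < h ∧ Hy W K C h := by
  obtain ⟨Cb, b1, jb⟩ := jb K
  obtain ⟨Co, o1, bo⟩ := bo K
  obtain ⟨Cp, p1, op⟩ := op K
  obtain ⟨Cs, s1, s4⟩ := s4 K
  obtain ⟨C4, f1, p4⟩ := p4 K hK
  obtain ⟨C, hb, ho, hp, hs, hf⟩ : ∃ C : ℝ, Cb ≤ C ∧ Co ≤ C ∧ Cp ≤ C ∧ Cs ≤ C ∧ C4 ≤ C :=
    ⟨Cb + Co + Cp + Cs + C4, by linarith, by linarith, by linarith, by linarith, by linarith⟩
  have hC : 1 ≤ C := b1.trans hb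
  refine ⟨C, hC, fun n W hW hAT => ⟨fun A hA => ?_, ?_⟩⟩
  · refine ((p4 n W hW hAT).2 A hA).trans ?_
    rw [← exp_nat_mul]
    gcongr
    have : A ^ 2 / C ≤ A ^ 2 / C4 := by gcongr
    have e2 : ((2 : ℕ) : ℝ) * -(A ^ 2 / (2 * C)) = -(A ^ 2 / C) := by push_cast; field_simp
    rw [e2]; linarith
  filter_upwards [s4 n W hW, Ioo_mem_nhdsGT (show (0 : ℝ) < 1 / (C * (n + 1)) by positivity)]
    with h h4 hh
  have h0 : 0 < h := hh.1
  have h1 : C * h * (n + 1) ≤ 1 := by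
    have := hh.2.le
    rw [le_div_iff₀ (by positivity)] at this
    linarith
  have h2 : Co * h * (n + 1) ≤ 1 := le_trans (by gcongr) h1
  have h3 : h * n ≤ 1 := by
    have : 1 * h * (n + 1) ≤ C * h * (n + 1) := by gcongr
    nlinarith
  exact ⟨h0,
    { C1 := hC
      K0 := hK
      h0 := h0.le
      int := bas.int n W hW.1 h
      wm := fun H v hv => Bas66.wm W h0.le h3 hv
      obb := bas.odd_bb n W
      ostp := bas.odd_stp n W h
      jb1 := fun ω x y hy h1 => ((jb n W hW ω x).1 y hy h1).trans (by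
        have := opn_nonneg (jac ω x); gcongr)
      jb2 := fun ω x => (jb n W hW ω x).2.1.trans (by have := S4_nn (jac ω x); gcongr)
      jb3 := fun ω x => (jb n W hW ω x).2.2.trans (by have := sq2_nn ω x; gcongr)
      bo1 := fun ξ σ x => ((bo n W hW h h0.le h2 ξ σ).1 x).trans (by
        have := sq2_nn ξ x; gcongr)
      bo2 := fun ξ σ => (bo n W hW h h0.le h2 ξ σ).2
      op := fun ω σ M N h5 h6 x => (op n W hW h h0.le h3 ω σ M N h5 h6 x).trans (by
        have := (opn_nonneg _).trans (h5 x); gcongr)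
      s4 := fun ω σ => (h4 ω σ).trans (by
        have := (isP_mu W).mean_nonneg fun x => So_nn (jac ω x)
        have := (isP_mu W).mean_nonneg fun x => S4_nn (jac σ x)
        gcongr)
      p4 := fun ω ho => ((p4 n W hW hAT).1 ω ho).trans (by
        have := (isP_mu W).mean_nonneg fun x => S4_nn (jac ω x)
        gcongr)
      cl := cl
      vec := sb.vec n (mu W) (mu_pos W) K hK hAT
      so := tl.so_le n
      s4op := tl.s4_op n }⟩

/-- the common size of all growth factors -/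
def qq (K C U : ℝ) : ℝ := (C + K) * exp ((17 * C ^ 3 + 1) * U)

theorem Hy.dt (c : Hy W K C h) (h0 : 0 < h) {U : ℝ} (hU : 0 ≤ U) (he : 0 < e) (ey : e ≤ y)
    (H0 : 0 ≤ H) (Z0 : 0 ≤ Z) (yH : y ^ 2 * H ≤ Z) (nZ : n * e ^ 4 ≤ Z * y ^ 2) (odd : Odd ω0)
    (sup : ∀ x i, |ω0 x i| ≤ e) (op : ∀ x, opn (jac ω0 x) ≤ e) :
    Dt W K C h ω0 e y H Z (qq K C U) ⌊U / h⌋₊ := by
  have hC := c.C1
  have hK := c.K0
  have x1 : 1 ≤ exp ((17 * C ^ 3 + 1) * U) := one_le_exp (by positivity)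
  have q1 : exp ((17 * C ^ 3 + 1) * U) ≤ qq K C U :=
    le_mul_of_one_le_left (by positivity) (by linarith)
  have q2 : C + K ≤ qq K C U := le_mul_of_one_le_right (by positivity) x1
  have hM : (⌊U / h⌋₊ : ℝ) * h ≤ U := by
    have := Nat.floor_le (show 0 ≤ U / h by positivity)
    rwa [le_div_iff₀ h0] at this
  have hC3 : 0 ≤ 17 * C ^ 3 * U := by positivity
  refine ⟨he, ey, H0, Z0, yH, nZ, by linarith, by linarith, ?_, ?_, odd, sup, op⟩
  · have := add_one_le_exp ((17 * C ^ 3 + 1) * U)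
    nlinarith
  · refine le_trans ?_ q1
    calc _ ≤ exp (17 * C ^ 3 * h) ^ ⌊U / h⌋₊ := by
          gcongr; rw [add_comm]; exact add_one_le_exp _
      _ = exp (17 * C ^ 3 * (⌊U / h⌋₊ * h)) := by rw [← exp_nat_mul]; congr 1; ring
      _ ≤ exp (17 * C ^ 3 * U) := by gcongr
      _ ≤ _ := by gcongr; linarith

theorem exF {K C : ℝ} (hK : 0 < K) (hC : 1 ≤ C) : ∃ F : ℝ, 2 * C ≤ F ∧ ∀ U ≥ (0 : ℝ),
    1 ≤ qq K C U ∧ 63000 * qq K C U ^ 7 ≤ F * exp (F * U) := by
  have k1 : 0 ≤ 63000 * (C + K) ^ 7 := by positivity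
  have k2 : 0 ≤ 7 * (17 * C ^ 3 + 1) := by positivity
  obtain ⟨F, F1, F2, F3⟩ : ∃ F : ℝ, 63000 * (C + K) ^ 7 ≤ F ∧ 7 * (17 * C ^ 3 + 1) ≤ F ∧
      2 * C ≤ F :=
    ⟨63000 * (C + K) ^ 7 + 7 * (17 * C ^ 3 + 1) + 2 * C, by linarith, by linarith, by linarith⟩
  refine ⟨F, F3, fun U hU => ⟨one_le_mul_of_one_le_of_one_le (by linarith)
    (one_le_exp (by positivity)), ?_⟩⟩
  calc 63000 * qq K C U ^ 7 = 63000 * (C + K) ^ 7 * exp (7 * (17 * C ^ 3 + 1) * U) := by
        rw [qq, mul_pow, ← exp_nat_mul]; push_cast; ring_nf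
    _ ≤ _ := by
        have : 0 ≤ F := by linarith
        gcongr

theorem lim_all (bas : BasStmt) (W : Mx n) (hn : 0 < n) (Φ : Cube n → ℝ) {d : ℕ} {u : Fin d → ℝ}
    (hu : ∀ j, 0 ≤ u j) :
    Tendsto (fun (h : ℝ) (j : Fin d) => (Qh W h)^[⌊u j / h⌋₊] Φ) (𝓝[>] 0)
      (𝓝 fun j => sg (mu W) (u j) Φ) :=
  tendsto_pi_nhds.2 fun j => tendsto_pi_nhds.2 fun x => bas.lim n W hn (u j) (hu j) Φ x

theorem wm_H {v : Cube n → ℝ} (hv : Wm (mu W) H v) : 0 ≤ H := by
  have : ∑ x, v x ≤ ∑ x, exp H * prob (mu W) x := sum_le_sum fun x _ => hv.2 x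
  rw [← mul_sum, hv.1.sum1, (isP_mu W).sum1, mul_one] at this
  exact one_le_exp_iff.1 this

theorem Hy.odd_cf (c : Hy W K C h) (ho : Odd ω0) (m : ℕ) : Odd (cf W C h y ω0 m) := by
  induction m with
  | zero => exact ho
  | succ m ih =>
    rw [cf_succ]
    refine c.ostp _ _ ih fun x => ?_
    ext i
    simp only [cs, c.obb _ ih x, Pi.neg_apply, clip, neg_div, tanh_neg, mul_neg]

theorem odd_cmb {d : ℕ} (α : Fin d → ℝ) {w : Fin d → VF n} (ho : ∀ j, Odd (w j)) :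
    Odd (cmb α w) := fun x => by
  ext i
  simp only [cmb, ho _ x, Pi.neg_apply, mul_neg, sum_neg_distrib]

theorem cmb_sup {d : ℕ} (α : Fin d → ℝ) (w : Fin d → VF n) (x : Cube n) (i : Fin n) {Y : ℝ}
    (h : ∀ j, |w j x i| ≤ Y) : |cmb α w x i| ≤ (∑ j, |α j|) * Y := by
  rw [sum_mul]
  refine (abs_sum_le_sum_abs _ _).trans (sum_le_sum fun j _ => ?_)
  rw [abs_mul]
  exact mul_le_mul_of_nonneg_left (h j) (abs_nonneg _)

theorem cmb_four {d : ℕ} (α : Fin d → ℝ) (w : Fin d → VF n) {v : Cube n → ℝ} (hv : IsP v) {R : ℝ}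
    (h : ∀ j, mean v (fun x => ∑ i, w j x i ^ 4) ≤ R) :
    mean v (fun x => ∑ i, cmb α w x i ^ 4) ≤ (∑ j, |α j|) ^ 4 * R := by
  have h1 := cmb_mean (fun j => |α j|) (fun j x i => w j x i ^ 2) hv (fun _ _ => 1)
    (fun _ _ => zero_le_one) (R := R) fun j => by
      simpa only [one_mul, ← pow_mul] using h j
  simp only [abs_abs, one_mul] at h1
  have h2 : mean v (fun x => ∑ i, cmb α w x i ^ 4) ≤ (∑ j, |α j|) ^ 2 *
      mean v (fun x => ∑ i, cmb (fun j => |α j|) (fun j x i => w j x i ^ 2) x i ^ 2) :=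
    mean_le1 hv fun x => by
      rw [mul_sum]
      refine sum_le_sum fun i _ => ?_
      rw [← mul_pow, show cmb α w x i ^ 4 = (cmb α w x i ^ 2) ^ 2 by ring]
      gcongr
      exact cmb_sq α w x i
  refine h2.trans ?_
  calc _ ≤ (∑ j, |α j|) ^ 2 * ((∑ j, |α j|) ^ 2 * R) := by gcongr
    _ = _ := by ring

theorem near {d : ℕ} (α : Fin d → ℝ) {f : ℝ → Fin d → Cube n → ℝ} {g : Fin d → Cube n → ℝ}
    (hl : Tendsto f (𝓝[>] 0) (𝓝 g)) {ε : ℝ} (hε : 0 < ε) :
    ∀ᶠ h in 𝓝[>] (0 : ℝ), ∀ x, sq2 ((grad fun x => ∑ j, α j * g j x) -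
      grad fun x => ∑ j, α j * f h j x) x ≤ ε := by
  refine eventually_all.2 fun x => ?_
  have hc : Continuous fun k : Fin d → Cube n → ℝ =>
      sq2 ((grad fun x => ∑ j, α j * g j x) - grad fun x => ∑ j, α j * k j x) x := by
    simp only [sq2_eq, Pi.sub_apply, Rec.grad_eq]
    fun_prop
  have := (hc.tendsto g).comp hl
  rw [sub_self, show sq2 (0 : VF n) x = 0 by simp [sq2]] at this
  exact (this.eventually (gt_mem_nhds hε)).mono fun h hh => hh.le

end G45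


open G45 in
theorem regSGlue : RegSGlue := by
  intro tl bas jb bo op s4 cl sb p4 K hK
  obtain ⟨C, hC, st⟩ := setup tl bas jb bo op s4 cl sb p4 hK
  obtain ⟨F, F3, hF⟩ := exF hK hC
  refine ⟨F, by linarith, ?_⟩
  intro n W hn hW hAT Φ ω0 e ρ H U L he hU hL fd d u α a hu ha ε hε
  obtain ⟨h, ⟨h0, c⟩, hn⟩ := ((st n W hW hAT).2.and
    (near α (lim_all bas W hn Φ fun j => (hu j).1) (half_pos hε))).exists
  obtain ⟨q1, q7⟩ := hF U hU
  have a0 : 0 ≤ ∑ j, |α j| := by positivity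
  have a1 : 0 ≤ a := a0.trans ha
  have hm : ∀ j, ⌊u j / h⌋₊ ≤ ⌊U / h⌋₊ := fun j =>
    Nat.floor_le_floor (by gcongr; exact (hu j).2)
  have ey : e ≤ e * L := le_mul_of_one_le_right he.le hL
  have eZ : n * e ^ 4 = n * e ^ 2 / L ^ 2 * (e * L) ^ 2 := by field_simp
  have t0 := c.dt (H := 0) (Z := n * e ^ 2 / L ^ 2) h0 hU he ey le_rfl (by positivity)
    (by rw [mul_zero]; positivity) eZ.le fd.odd fd.sup fd.op
  have hi := c.inv t0.y0 (fun x i => (fd.sup x i).trans ey) fun x => (fd.op x).trans ey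
  have qk : ∀ (k : ℕ) (b : ℝ), k ≤ 7 → 0 ≤ b → b ≤ 63000 →
      b * qq K C U ^ k ≤ F * exp (F * U) := fun k b hk b0 hb =>
    le_trans (by gcongr) q7
  have hY : ∀ j, e * L * (1 + 5 * C * h) ^ ⌊u j / h⌋₊ ≤ e * L * qq K C U :=
    fun j => by gcongr; exact (c.gq t0 (hm j)).2.1
  have hZ : (∑ j, |α j|) * (e * L * qq K C U) ≤ F * L * exp (F * U) * a * e := by
    have := qk 1 1 (by norm_num) zero_le_one (by norm_num)
    rw [one_mul, pow_one] at this
    calc _ ≤ a * (e * L * (F * exp (F * U))) := by gcongr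
      _ = _ := by ring
  refine ⟨cmb α fun j => cf W C h (e * L) ω0 ⌊u j / h⌋₊, cmb α fun j => lin W h ω0 ⌊u j / h⌋₊,
    ⟨odd_cmb α fun j => c.odd_cf fd.odd _, fun x i => ?_, fun x => ?_, fun v hv => ?_⟩, ?_, ?_⟩
  · exact (cmb_sup α _ x i fun j => ((hi _).1 x i).trans (hY j)).trans hZ
  · exact (cmb_op α _ x fun j => ((hi _).2 x).trans (hY j)).trans hZ
  · have hH := wm_H hv
    have hρ0 : 0 ≤ ρ := (hv.1.mean_nonneg (sq2_nn _)).trans (fd.cl v hv)
    have t := c.dt (H := H) (Z := n * e ^ 2 / L ^ 2 + L ^ 2 * e ^ 2 * H) h0 hU he ey hH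
      (by positivity) (by
        have : 0 ≤ n * e ^ 2 / L ^ 2 := by positivity
        nlinarith) (by
        rw [eZ]; gcongr; exact le_add_of_nonneg_right (by positivity)) fd.odd fd.sup fd.op
    have g1 := cmb_sq2 α _ hv.1 fun j => c.gm t Φ fd.cl (hm j) hv
    have s1 := cmb_sub α (fun j => grad ((Qh W h)^[⌊u j / h⌋₊] Φ))
      fun j => cf W C h (e * L) ω0 ⌊u j / h⌋₊
    rw [grad_cmb α fun j => (Qh W h)^[⌊u j / h⌋₊] Φ] at hn
    have g2 : mean v (sq2 ((grad fun x => ∑ j, α j * sg (mu W) (u j) Φ x) -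
        cmb α fun j => cf W C h (e * L) ω0 ⌊u j / h⌋₊)) ≤ 2 * mean v (fun _ => ε / 2) +
        2 * mean v (sq2 (cmb α fun j =>
          grad ((Qh W h)^[⌊u j / h⌋₊] Φ) - cf W C h (e * L) ω0 ⌊u j / h⌋₊)) :=
      mean_le2 hv.1 fun x => by
        have b1 := hn x
        generalize (grad fun x => ∑ j, α j * sg (mu W) (u j) Φ x) = G at *
        generalize (cmb α fun j =>
          grad ((Qh W h)^[⌊u j / h⌋₊] Φ) - cf W C h (e * L) ω0 ⌊u j / h⌋₊) = Γ at *
        generalize (cmb α fun j => grad ((Qh W h)^[⌊u j / h⌋₊] Φ)) = g at *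
        generalize (cmb α fun j => cf W C h (e * L) ω0 ⌊u j / h⌋₊) = B at *
        have b2 : sq2 (G - B) x ≤ 2 * sq2 (G - g) x + 2 * sq2 Γ x := by
          simp only [sq2_eq, mul_sum, ← sum_add_distrib, s1, Pi.sub_apply]
          exact sum_le_sum fun i _ => by nlinarith [sq_nonneg (G x i - g x i - (g x i - B x i))]
        linarith
    rw [hv.1.mean_const] at g2
    have g3 : 2 * ((∑ j, |α j|) ^ 2 *
        (6016 * qq K C U ^ 7 * (ρ + (n * e ^ 2 / L ^ 2 + L ^ 2 * e ^ 2 * H)))) ≤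
        F * exp (F * U) * a ^ 2 * (ρ + n * e ^ 2 / L ^ 2 + L ^ 2 * e ^ 2 * H) := by
      calc _ = 12032 * qq K C U ^ 7 * (∑ j, |α j|) ^ 2 *
            (ρ + n * e ^ 2 / L ^ 2 + L ^ 2 * e ^ 2 * H) := by ring
        _ ≤ _ := by
          have := qk 7 12032 le_rfl (by norm_num) (by norm_num)
          have : 0 ≤ F := by linarith
          gcongr
    linarith
  · have hq : 0 ≤ qq K C U := by linarith
    refine (cmb_four α _ (isP_mu W) (R := 8 * qq K C U * (qq K C U * (17 * (n * e ^ 4)))) fun j =>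
      (c.l4 (c.odd_lin fd.odd _)).trans (mul_le_mul (by linarith [t0.Cq]) (c.so_le t0 (hm j))
        ((isP_mu W).mean_nonneg fun x => So_nn _) (by positivity))).trans ?_
    calc _ = 136 * qq K C U ^ 2 * (∑ j, |α j|) ^ 4 * (n * e ^ 4) := by ring
      _ ≤ _ := by
        have := qk 2 136 (by norm_num) (by norm_num) (by norm_num)
        have : 0 ≤ F := by linarith
        gcongr
  · have e1 : sq2 ((cmb α fun j => cf W C h (e * L) ω0 ⌊u j / h⌋₊) -
        cmb α fun j => lin W h ω0 ⌊u j / h⌋₊) =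
        sq2 (cmb α fun j => lin W h ω0 ⌊u j / h⌋₊ - cf W C h (e * L) ω0 ⌊u j / h⌋₊) := by
      ext x
      simp only [sq2_eq, cmb_sub, Pi.sub_apply]
      exact sum_congr rfl fun i _ => by ring
    rw [e1]
    refine (cmb_sq2 α _ (isP_mu W) fun j => c.dl t0 (hm j)).trans ?_
    calc _ = 272 * qq K C U ^ 4 * (∑ j, |α j|) ^ 2 * (n * e ^ 2 / L ^ 2) := by ring
      _ ≤ _ := by
        have := qk 4 272 (by norm_num) (by norm_num) (by norm_num)
        have : 0 ≤ F := by linarith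
        gcongr

end Crest.Agent.T157.Reg

end
end

-- ▼ part T157/RegRg_10
section

/-!
# Row 157, part B (helper10): `Reg.RegOfS`, `Reg.RgGlue`
-/

set_option autoImplicit false

noncomputable section

namespace Crest.Agent.T157.Reg

open Matrix Real Filter Topology Finset
open Crest.Agent.T157.E hiding mean
open Crest.Agent.T157.Eig
open Crest.Agent.T157.Tap (V Mx)
open Crest.Agent.T157.Rec (grad fl grad_eq sv_mul_self)
open Crest.Agent.T157.Da.Gr (loc tt ising_pos)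
open Crest.Agent.T157.Chain22 (sg IsP mean isP_prob' hbRC)

variable {n : ℕ}

namespace Rg10

lemma mu_pos (W : Mx n) (x : Cube n) : 0 < mu W x := ising_pos W 0 x

lemma sq2_eq (ω : VF n) (x : Cube n) : sq2 ω x = ∑ k, ω x k ^ 2 := by
  simp only [sq2, dotProduct, sq]

lemma sq2_nonneg (ω : VF n) (x : Cube n) : 0 ≤ sq2 ω x := dot_self_nonneg _

lemma wm_nonneg {w v : Cube n → ℝ} {H : ℝ} (hw : ∀ x, 0 < w x) (hv : Wm w H v) : 0 ≤ H := by
  have := sum_le_sum fun x (_ : x ∈ univ) => hv.2 x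
  rwa [hv.1.sum1, ← mul_sum, (isP_prob' hw).sum1, mul_one, one_le_exp_iff] at this

lemma wm_self {w : Cube n → ℝ} {H : ℝ} (hw : ∀ x, 0 < w x) (hH : 0 ≤ H) : Wm w H (prob w) :=
  ⟨isP_prob' hw, fun x => le_mul_of_one_le_left ((isP_prob' hw).nn x) (one_le_exp hH)⟩

/-- Cauchy-Schwarz in the configuration and the site -/
lemma cs {v : Cube n → ℝ} (hv : IsP v) (p q : Cube n → Fin n → ℝ) :
    mean v (fun x => ∑ k, p x k * q x k) ≤
      √(mean v (fun x => ∑ k, p x k ^ 2) * mean v fun x => ∑ k, q x k ^ 2) := by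
  refine (hv.mean_mono fun x => sum_mul_le_sqrt_mul_sqrt _ _ _).trans (le_sqrt_of_sq_le ?_)
  have := hv.ip_sq_le (fun x => √(∑ k, p x k ^ 2)) fun x => √(∑ k, q x k ^ 2)
  simpa only [Chain22.ip_eq_mean, mul_self_sqrt (sum_nonneg fun _ _ => sq_nonneg _)] using this

lemma flip_sq (G : Cube n → ℝ) (x : Cube n) (k : Fin n) :
    (G x - G (fl x k)) ^ 2 = 4 * grad G x k ^ 2 := by
  rw [grad_eq]
  linear_combination -(G x - G (fl x k)) ^ 2 * sv_mul_self x k

lemma hb_sum (b : BasStmt) (hn : 0 < n) {W : Mx n} (hW : Wᵀ = W) (x : Cube n) {φ : Cube n → ℝ}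
    (h : φ x = 0) : n / 2 * ∑ y, hb (mu W) x y * φ y = (∑ k, Tk W x k * φ (fl x k)) / 2 := by
  have := b.gen_eq n W hW φ x
  rw [Chain22.gen_eq hn (mu_pos W), h] at this
  simp only [sub_zero] at this
  rw [← this, div_mul_eq_mul_div]
  rfl

lemma Gm_eq (b : BasStmt) (hn : 0 < n) {W : Mx n} (hW : Wᵀ = W) (G : Cube n → ℝ) (x : Cube n) :
    Low.Gm (mu W) G G x = 2 * ∑ k, Tk W x k * grad G x k ^ 2 := by
  rw [Low.Gm, hb_sum b hn hW x (φ := fun y => (G x - G y) * (G x - G y)) (by simp), sum_div, mul_sum]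
  exact sum_congr rfl fun k _ => by rw [← sq, flip_sq]; ring

lemma mean_Gm (hn : 0 < n) {w : Cube n → ℝ} (hw : ∀ x, 0 < w x) (G : Cube n → ℝ) :
    mean (prob w) (Low.Gm w G G) = dir w G := by
  rw [Chain22.dir_eq_D hn hw, Chain22.RC.D_eq]
  simp only [mean, Low.Gm, mul_sum]
  refine sum_congr rfl fun x _ => sum_congr rfl fun y _ => ?_
  change _ = _ * (_ * (prob w x * hb w x y * _))
  ring

/-- the gradient of the regularised carré du champ -/
lemma grad_le (t : ToolStmt) {W : Mx n} {ω : VF n} {C e : ℝ}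
    (hT : ∀ x k, 0 < Tk W x k ∧ Tk W x k < 1)
    (hA : ∀ x i k, 0 ≤ Tk W x k + al W x i k ∧ Tk W x k + al W x i k ≤ 1)
    (hC : ∀ x, opn (al W x) ≤ C) (h1 : ∀ x i, |ω x i| ≤ e) (h2 : ∀ x, opn (jac ω x) ≤ e)
    (x : Cube n) : grad (fun x => 2 * ∑ k, Tk W x k * ω x k ^ 2) x ⬝ᵥ
      grad (fun x => 2 * ∑ k, Tk W x k * ω x k ^ 2) x ≤
        3 * (C ^ 2 + 4 + (C ^ 2 + 5) ^ 2) * (n * e ^ 4) := by
  set J := jac ω x with hJ
  have s1 : ∀ k, ω x k ^ 2 ≤ e ^ 2 := fun k => sq_le_sq' (abs_le.1 (h1 x k)).1 (abs_le.1 (h1 x k)).2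
  have oC : opn (al W x) ^ 2 ≤ C ^ 2 := pow_le_pow_left₀ (opn_nonneg _) (hC x) 2
  have oJ : opn J ^ 2 ≤ e ^ 2 := pow_le_pow_left₀ (opn_nonneg _) (h2 x) 2
  have cJ : ∀ j, ∑ k, J k j ^ 2 ≤ e ^ 2 := fun j => (t.row_le n J j).2.trans oJ
  have a1 : (al W x *ᵥ fun k => ω x k ^ 2) ⬝ᵥ (al W x *ᵥ fun k => ω x k ^ 2) ≤
      C ^ 2 * (n * e ^ 4) := (mulVec_dot_le _ _).trans (mul_le_mul oC
    ((sum_le_sum fun k _ => mul_self_le_mul_self (sq_nonneg _) (s1 k)).trans_eq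
      (by rw [sum_const, card_univ, Fintype.card_fin, nsmul_eq_mul]; ring))
      (dot_self_nonneg _) (sq_nonneg _))
  have a2 : (Jᵀ *ᵥ fun k => Tk W x k * ω x k) ⬝ᵥ (Jᵀ *ᵥ fun k => Tk W x k * ω x k) ≤
      e ^ 2 * (n * e ^ 2) := (mulVec_dot_le _ _).trans (mul_le_mul (by rwa [opn_transpose])
    ((sum_le_sum (g := fun _ => e ^ 2) fun k _ => by
      rw [mul_mul_mul_comm, ← sq (ω x k)]
      exact (mul_le_of_le_one_left (sq_nonneg _)
        (mul_le_one₀ (hT x k).2.le (hT x k).1.le (hT x k).2.le)).trans (s1 k)).trans_eq (by simp))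
      (dot_self_nonneg _) (sq_nonneg _))
  have key : ∀ j, grad (fun x => 2 * ∑ k, Tk W x k * ω x k ^ 2) x j ^ 2 ≤
      3 * ((al W x *ᵥ fun k => ω x k ^ 2) j ^ 2 + 4 * (Jᵀ *ᵥ fun k => Tk W x k * ω x k) j ^ 2 +
        ((C ^ 2 + 5) * e ^ 2) ^ 2) := fun j => by
    set B := Tk W (fl x j) j - Tk W x j - al W x j j with hB
    have hB1 : |B| ≤ 1 := abs_le.2 ⟨by linarith [(hT (fl x j) j).1, (hA x j j).2],
      by linarith [(hT (fl x j) j).2, (hA x j j).1]⟩
    have e1 : ∀ k, Tk W (fl x j) k * ω (fl x j) k ^ 2 - Tk W x k * ω x k ^ 2 =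
        al W x j k * ω x k ^ 2 + 2 * (J k j * (Tk W x k * ω x k)) +
          (2 * (al W x j k * ω x k) * J k j + Tk W (fl x j) k * J k j ^ 2 +
            if j = k then B * (ω x k ^ 2 + 2 * ω x k * J k j) else 0) := fun k => by
      have : ω (fl x j) k = ω x k + J k j := by simp [hJ, jac]
      rw [this]
      split_ifs with h
      · subst h; rw [hB]; ring
      · have : Tk W (fl x j) k = Tk W x k + al W x j k := by
          simp only [Tk, al, of_apply, Rec.sv_fl_ne x (Ne.symm h)]; ring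
        rw [this]; ring
    have e2 : |∑ k, (2 * (al W x j k * ω x k) * J k j + Tk W (fl x j) k * J k j ^ 2 +
        if j = k then B * (ω x k ^ 2 + 2 * ω x k * J k j) else 0)| ≤ (C ^ 2 + 5) * e ^ 2 := by
      rw [sum_add_distrib, sum_ite_eq, if_pos (mem_univ _)]
      have b1 : |∑ k, (2 * (al W x j k * ω x k) * J k j + Tk W (fl x j) k * J k j ^ 2)| ≤
          ∑ k, (e ^ 2 * al W x j k ^ 2 + 2 * J k j ^ 2) :=
        (abs_sum_le_sum_abs _ _).trans (sum_le_sum fun k _ => by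
          have c1 := mul_le_mul_of_nonneg_right (s1 k) (sq_nonneg (al W x j k))
          have c2 := mul_le_of_le_one_left (sq_nonneg (J k j)) (hT (fl x j) k).2.le
          have c3 := mul_nonneg (hT (fl x j) k).1.le (sq_nonneg (J k j))
          rw [abs_le]
          constructor <;> nlinarith [sq_nonneg (al W x j k * ω x k - J k j),
            sq_nonneg (al W x j k * ω x k + J k j)])
      rw [sum_add_distrib (f := fun k => e ^ 2 * al W x j k ^ 2), ← mul_sum, ← mul_sum] at b1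
      have b2 := mul_le_mul_of_nonneg_left ((t.row_le n (al W x) j).1.trans oC) (sq_nonneg e)
      have b3 : J j j ^ 2 ≤ e ^ 2 :=
        (single_le_sum (f := fun k => J k j ^ 2) (fun _ _ => sq_nonneg _) (mem_univ j)).trans (cJ j)
      have b4 : |B * (ω x j ^ 2 + 2 * ω x j * J j j)| ≤ 3 * e ^ 2 := by
        rw [abs_mul]
        refine (mul_le_of_le_one_left (abs_nonneg _) hB1).trans (abs_le.2 ⟨?_, ?_⟩) <;>
          nlinarith [sq_nonneg (ω x j - J j j), sq_nonneg (ω x j + J j j), s1 j, sq_nonneg e]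
      linarith [abs_add_le (∑ k, (2 * (al W x j k * ω x k) * J k j + Tk W (fl x j) k * J k j ^ 2))
        (B * (ω x j ^ 2 + 2 * ω x j * J j j)), cJ j]
    have e3 := sum_congr rfl fun k (_ : k ∈ univ) => e1 k
    rw [sum_sub_distrib, sum_add_distrib, sum_add_distrib, ← mul_sum] at e3
    have e4 := flip_sq (fun x => 2 * ∑ k, Tk W x k * ω x k ^ 2) x j
    have e5 := sq_le_sq' (abs_le.1 e2).1 (abs_le.1 e2).2
    change _ ≤ 3 * ((∑ k, al W x j k * ω x k ^ 2) ^ 2 +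
      4 * (∑ k, J k j * (Tk W x k * ω x k)) ^ 2 + _)
    generalize ∑ k, al W x j k * ω x k ^ 2 = p at *
    generalize ∑ k, J k j * (Tk W x k * ω x k) = q at *
    generalize (∑ k, (2 * (al W x j k * ω x k) * J k j + Tk W (fl x j) k * J k j ^ 2 +
      if j = k then B * (ω x k ^ 2 + 2 * ω x k * J k j) else 0)) = r at *
    rw [← mul_sub, ← neg_sub, e3] at e4
    nlinarith [sq_nonneg (p - 2 * q), sq_nonneg (p - r), sq_nonneg (2 * q - r)]
  have := sum_le_sum fun j (_ : j ∈ univ) => key j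
  simp only [← mul_sum, sum_add_distrib, sum_const, card_univ, Fintype.card_fin, nsmul_eq_mul,
    dotProduct, ← sq] at this a1 a2 ⊢
  linarith



end Rg10

open Rg10

theorem rgGlue : RgGlue := by
  intro t b hc sb K hK
  obtain ⟨C, hC1, hc⟩ := hc K
  set c1 := 32 * K * (3 * (C ^ 2 + 4 + (C ^ 2 + 5) ^ 2)) with hc1
  refine ⟨4 + 8 * √(2 + 4 * K) + √c1, by linarith [sqrt_nonneg (2 + 4 * K), sqrt_nonneg c1],
    fun n W hn hW hA G ω e ρ H hF v hv => ⟨fun N hN => ?_, fun η hη => ?_⟩⟩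
  · have hw := mu_pos W
    have hp := isP_prob' hw
    have hH := wm_nonneg hw hv
    have hT := fun x => (hc n W hW x).1
    have N0 : 0 ≤ N := (hp.mean_nonneg (sq2_nonneg ω)).trans hN
    have ρ0 : 0 ≤ ρ := (hv.1.mean_nonneg (sq2_nonneg _)).trans (hF.cl v hv)
    have e0 : 0 ≤ e := (abs_nonneg _).trans (hF.sup (fun _ => true) ⟨0, hn⟩)
    set Γ : Cube n → ℝ := fun x => 2 * ∑ k, Tk W x k * ω x k ^ 2 with hΓ
    have d1 : ∀ u M, Wm (mu W) H u → mean u (sq2 ω) ≤ M →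
        mean u (fun x => |Low.Gm (mu W) G G x - Γ x|) ≤ 2 * ρ + 4 * √(ρ * M) := fun u M hu hM => by
      have p : ∀ x, |Low.Gm (mu W) G G x - Γ x| ≤ 2 * sq2 (grad G - ω) x +
          4 * ∑ k, |(grad G - ω) x k| * |ω x k| := fun x => by
        rw [Gm_eq b hn hW.1, hΓ, ← mul_sub, ← sum_sub_distrib, sq2_eq, mul_sum, mul_sum, mul_sum,
          ← sum_add_distrib]
        refine (abs_sum_le_sum_abs _ _).trans (sum_le_sum fun k _ => ?_)
        simp only [Pi.sub_apply]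
        rw [← mul_sub, abs_mul, abs_mul, abs_two, abs_of_pos (hT x k).1, ← abs_mul,
          show grad G x k ^ 2 - ω x k ^ 2 = (grad G x k - ω x k) ^ 2 +
            2 * ((grad G x k - ω x k) * ω x k) by ring]
        have c1 := abs_add_le ((grad G x k - ω x k) ^ 2) (2 * ((grad G x k - ω x k) * ω x k))
        have c2 := mul_le_of_le_one_left (abs_nonneg ((grad G x k - ω x k) ^ 2 +
          2 * ((grad G x k - ω x k) * ω x k))) (hT x k).2.le
        rw [abs_sq, abs_mul, abs_two] at c1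
        linarith
      have c := cs hu.1 (fun x k => |(grad G - ω) x k|) fun x k => |ω x k|
      simp only [sq_abs, ← sq2_eq] at c
      have c' := c.trans (sqrt_le_sqrt (mul_le_mul (hF.cl u hu) hM
        (hu.1.mean_nonneg (sq2_nonneg ω)) ρ0))
      refine (hu.1.mean_mono p).trans ?_
      rw [Ent.mean_add', Ent.mean_const_mul, Ent.mean_const_mul]
      linarith [hF.cl u hu]
    have d2 : |mean (prob (mu W)) Γ - dir (mu W) G| ≤ 2 * ρ + 4 * √(ρ * N) := by
      refine le_trans ?_ (d1 _ N (wm_self hw hH) hN)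
      rw [← mean_Gm hn hw, abs_sub_comm, ← Ent.mean_sub', abs_le, ← neg_one_mul,
        ← Ent.mean_const_mul]
      exact ⟨hp.mean_mono fun x => by rw [neg_one_mul]; exact neg_abs_le _,
        hp.mean_mono fun x => le_abs_self _⟩
    have main : ∀ e' > e, mean v (fun x => |Low.Gm (mu W) G G x - dir (mu W) G|) ≤
        (4 + 8 * √(2 + 4 * K) + √c1) *
          (ρ + √(ρ * (N + e' ^ 2 * H)) + e' ^ 2 * √(n * (H + 1))) := fun e' he => by
      have e1 : 0 < e' := e0.trans_lt he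
      have op := fun x => (hF.op x).trans he.le
      have d3 := d1 v _ hv ((sb.vec n _ hw K hK hA ω e' e1 op H v hv).trans
        (show _ ≤ (2 + 4 * K) * (N + e' ^ 2 * H) by
          nlinarith [mul_nonneg hK.le N0, mul_nonneg (sq_nonneg e') hH]))
      have d4 := Low.sq_le_kl hn hw hK hA (F := fun x => Γ x - mean (prob (mu W)) Γ)
        (γ := 3 * (C ^ 2 + 4 + (C ^ 2 + 5) ^ 2) * (n * e' ^ 4)) (by positivity)
        (fun x => by
          rw [Rec.grad_sub, Rec.grad_const, sub_zero]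
          exact grad_le t hT (fun x => (hc n W hW x).2.1) (fun x => (hc n W hW x).2.2.2.1)
            (fun x i => (hF.sup x i).trans he.le) op x)
        (by rw [Chain22.emean_eq, Ent.mean_sub', hp.mean_const, sub_self]) hv.1
      have d5 : mean v (fun x => |Γ x - mean (prob (mu W)) Γ|) ≤
          √c1 * (e' ^ 2 * √(n * (H + 1))) := by
        refine (pow_le_pow_iff_left₀ (hv.1.mean_nonneg fun _ => abs_nonneg _) (by positivity)
          two_ne_zero).1 ((hv.1.mean_sq_le _).trans ?_)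
        simp only [Chain22.ip_eq_mean, ← sq, sq_abs]
        rw [mul_pow, mul_pow, sq_sqrt (by positivity), sq_sqrt (by positivity)]
        refine (d4.trans (mul_le_mul_of_nonneg_left (add_le_add_left (Sb51.kl_le hw hv) 1)
          (by positivity))).trans_eq ?_
        rw [hc1]; ring
      have d6 : √(ρ * N) ≤ √(2 + 4 * K) * √(ρ * (N + e' ^ 2 * H)) :=
        (sqrt_le_sqrt (mul_le_mul_of_nonneg_left (le_add_of_nonneg_right (by positivity)) ρ0)).trans
          (le_mul_of_one_le_left (sqrt_nonneg _) (one_le_sqrt.2 (by linarith)))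
      rw [mul_left_comm, sqrt_mul (by positivity)] at d3
      refine (hv.1.mean_mono (g := fun x => |Low.Gm (mu W) G G x - Γ x| +
        |Γ x - mean (prob (mu W)) Γ| + |mean (prob (mu W)) Γ - dir (mu W) G|) fun x =>
          (abs_sub_le _ _ _).trans (add_le_add_left (abs_sub_le _ _ _) _)).trans ?_
      rw [Ent.mean_add', Ent.mean_add', hv.1.mean_const]
      have p1 := sqrt_nonneg (2 + 4 * K)
      have p2 := sqrt_nonneg c1
      have p3 := sqrt_nonneg (ρ * (N + e' ^ 2 * H))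
      have p4 : 0 ≤ e' ^ 2 * √(n * (H + 1)) := by positivity
      nlinarith [mul_nonneg p1 ρ0, mul_nonneg p2 ρ0, mul_nonneg p2 p3, mul_nonneg p1 p4]
    refine ge_of_tendsto (x := 𝓝[>] e) (Tendsto.mono_left (Continuous.tendsto (f := fun e' : ℝ =>
      (4 + 8 * √(2 + 4 * K) + √c1) * (ρ + √(ρ * (N + e' ^ 2 * H)) + e' ^ 2 * √(n * (H + 1))))
        (by fun_prop) e) nhdsWithin_le_nhds) (eventually_mem_nhdsWithin.mono main)
  · refine (hv.1.mean_mono (g := fun x => 8 * sq2 (grad G - ω) x) fun x => ?_).trans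
      (by rw [Ent.mean_const_mul]; linarith [hF.cl v hv])
    rw [Low.Ex, hb_sum b hn hW.1 x (φ := fun y => if η < |G x - G y| then (G x - G y) ^ 2 else 0)
      (by simp), sq2_eq, sum_div, mul_sum]
    refine sum_le_sum fun k _ => ?_
    have hT := (hc n W hW x).1 k
    simp only [Pi.sub_apply]
    split_ifs with h
    · have e0 : 0 ≤ e := (abs_nonneg _).trans (hF.sup x k)
      have c1 : (4 * e) ^ 2 ≤ 4 * grad G x k ^ 2 := by
        rw [← flip_sq, ← sq_abs (_ - _)]; exact pow_le_pow_left₀ (by positivity) (by linarith) 2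
      have c2 := sq_le_sq' (abs_le.1 (hF.sup x k)).1 (abs_le.1 (hF.sup x k)).2
      have c3 := mul_le_of_le_one_left (sq_nonneg (grad G x k)) hT.2.le
      rw [flip_sq]
      nlinarith [sq_nonneg (grad G x k - 2 * ω x k)]
    · rw [mul_zero, zero_div]; positivity


end Crest.Agent.T157.Reg

end
end

-- ▼ part T157/RegAll_45

/-!
# Row 157, part B (helper45): (REG) assembled, unconditional
-/

set_option autoImplicit false

namespace Crest.Agent.T157.Reg.All

theorem jbStmt : JbStmt := jbGlue_45 toolStmt jacStmt coefStmt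
theorem boStmt : BoStmt := boGlue basStmt coefStmt
theorem opStmt : OpStmt := opGlue toolStmt jacStmt coefStmt
theorem ptStmt : PtStmt := ptGlue toolStmt basStmt jacStmt coefStmt
theorem s4Stmt : S4Stmt := s4Glue toolStmt jacStmt ptStmt
theorem clStmt : ClStmt := clGlue toolStmt
theorem p4Stmt : P4Stmt := p4Glue toolStmt basStmt
theorem regS : RegS :=
  regSGlue toolStmt basStmt jbStmt boStmt opStmt s4Stmt clStmt sbStmt p4Stmt
theorem rgStmt : RgStmt := rgGlue toolStmt basStmt coefStmt sbStmt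

end Crest.Agent.T157.Reg.All
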