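import Crest.Agent.T157.WsTop_32
import Crest.Agent.T157.LpAll_17

/-!
# Row 157, part B (helper32): the unconditional top of part B
-/

set_option autoImplicit false

namespace Crest.Agent.T157.Rv

open Crest.Agent.T157.Top Crest.Agent.T157.Tap Crest.Agent.T157.Lp Crest.Agent.T157.TapFrz

theorem at0 : At0 := Glue.atTight LpAll.lpStmt ufStmt frzStmt LpAll.frozStmt LpAll.covStmt

theorem poinHi : PoinHi := Glue.AtTight.poinHi at0

theorem subGHi : TopL.SubGHi := TopL.subGHi LpAll.covStmt








end Crest.Agent.T157.Rv
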