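import Crest.Agent.T157.LcDef_30

-- ▼ part T157/LcAp_79
section

/-!
# Row 157, block B/S4c: near-minimisers in finitely many polynomial families, `ApGlue` (helper79)
-/

set_option autoImplicit false

noncomputable section

namespace Crest.Agent.T157.Tw

open MeasureTheory Real Matrix Set

namespace Ap79

lemma cs {V : Type} [AddCommGroup V] [Module ℝ V] {B : V →ₗ[ℝ] V →ₗ[ℝ] ℝ}
    (hs : ∀ u v, B u v = B v u) (hp : ∀ u, 0 ≤ B u u) (t : ℝ) (u v : V) :
    2 * t * B u v ≤ t ^ 2 * B u u + B v v := by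
  have := hp (t • u - v)
  simp only [map_sub, map_smul, LinearMap.sub_apply, LinearMap.smul_apply, smul_eq_mul, hs v u]
    at this
  nlinarith

lemma sech2_le_one (ξ : ℝ) : sech2 ξ ≤ 1 := by
  have := one_le_cosh ξ
  rw [sech2, div_le_one (by positivity)]; nlinarith

lemma sech2_small {ε ξ : ℝ} (hε : 0 < ε) (h : ξ ∉ Icc (-ε⁻¹) ε⁻¹) : sech2 ξ ≤ ε := by
  have h1 := one_le_cosh ξ
  have h2 : ε⁻¹ ≤ cosh ξ := by
    rw [← cosh_abs]
    exact (not_le.1 fun e => h (abs_le.1 e)).le.trans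
      ((self_le_sinh_iff.2 (abs_nonneg _)).trans (sinh_lt_cosh _).le)
  rw [inv_le_iff_one_le_mul₀ hε] at h2
  rw [sech2, div_le_iff₀ (by positivity)]
  nlinarith [mul_nonneg hε.le (sub_nonneg.2 h1), mul_pos hε (cosh_pos ξ)]

lemma poly_mem {m : ℕ} (p : Polynomial ℝ) :
    (fun ξ => algebraMap ℝ (SV m) (p.eval (tanh ξ))) ∈ N0 m := by
  have hτ : (fun ξ => algebraMap ℝ (SV m) (tanh ξ)) ∈ N0 m :=
    Algebra.subset_adjoin (Or.inl (Or.inl rfl))
  induction p using Polynomial.induction_on' with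
  | add p q hp hq => convert add_mem hp hq using 2; simp
  | monomial n a =>
    convert (N0 m).smul_mem (pow_mem hτ n) a using 2
    simp [Algebra.smul_def]

variable {b : Bath} {ξ y l : ℝ} {D : ℕ}

lemma Nc (c : Cal) (F : SV b.m) : (imS b ξ).N 1 F = 0 := by rw [c.N, one_mul, c.ex1]; ring
lemma E1 (c : Cal) (F : SV b.m) : (imS b ξ).En 1 F = 0 := by simp [c.En, c.done, rsS]

lemma J_const (c : Cal) (r : ℝ) (F : SV b.m) : Jf b ξ y (F - r • 1) = Jf b ξ y F := by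
  have h1 : ∀ G, (imS b ξ).N G 1 = 0 := fun G => ((c.ok b ξ).sN _ _).trans (Nc c G)
  have h2 : ∀ G, (imS b ξ).En G 1 = 0 := fun G => ((c.ok b ξ).sE _ _).trans (E1 c G)
  simp [Jf, Mf, Nc c, E1 c, h1, h2]

lemma M_ge (hc : Coer b l) {F : SV b.m} (hF : F ∈ PolS b.m D) :
    (y + l) * (imS b ξ).N F F ≤ Mf b ξ y F := by
  have := hc.2 ξ D F hF
  rw [Mf]; linarith

lemma M_pos (c : Cal) (hc : Coer b l) (hy : -l < y) {F : SV b.m} (hF : F ∈ PolS b.m D) :
    0 ≤ Mf b ξ y F := (mul_nonneg (by linarith) ((c.ok b ξ).pN F)).trans (M_ge hc hF)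

lemma M_par (F G : SV b.m) :
    Mf b ξ y (F + G) + Mf b ξ y (F - G) = 2 * Mf b ξ y F + 2 * Mf b ξ y G := by
  simp only [Mf, map_add, map_sub, LinearMap.add_apply, LinearMap.sub_apply]; ring

lemma M_smul (r : ℝ) (F : SV b.m) : Mf b ξ y (r • F) = r ^ 2 * Mf b ξ y F := by
  simp only [Mf, map_smul, LinearMap.smul_apply, smul_eq_mul]; ring

lemma J_mid (F G : SV b.m) : Jf b ξ y ((1 / 2 : ℝ) • (F + G)) =
    (Jf b ξ y F + Jf b ξ y G) / 2 - Mf b ξ y (F - G) / 4 := by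
  have := M_par (ξ := ξ) (y := y) F G
  simp only [Jf, M_smul, map_add, map_smul, smul_eq_mul]; linarith

lemma s_mem (p : PolApi) (m D : ℕ) : sS m ∈ PolS m D := by simpa using p.s (p.one m D)

lemma tail (c : Cal) (p : PolApi) {C : ℝ} (hC : 0 < C) (hy : 0 < y)
    (h : ∀ F ∈ PolS b.m D, (imS b ξ).En F F ≤ C * (imS b ξ).N F F) {P : SV b.m}
    (hP : P ∈ PolS b.m D) : Jf b ξ y (y⁻¹ • stS _ ξ) ≤ Jf b ξ y P + C / y ^ 3 := by
  have o := c.ok b ξ
  obtain ⟨Q, rfl⟩ : ∃ Q, P = y⁻¹ • sS _ + Q := ⟨P - y⁻¹ • sS _, by abel⟩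
  have hQ := h Q (by simpa using sub_mem hP (Submodule.smul_mem _ y⁻¹ (s_mem p _ D)))
  have h1 := cs o.sE o.pE (-(C / y ^ 2)) (sS _) Q
  have h2 := (c.Es b ξ).trans (sech2_le_one ξ)
  have h3 := o.pE Q
  rw [stS, Algebra.algebraMap_eq_smul_one, smul_sub, smul_smul, J_const c]
  have h4 : -2 * y⁻¹ * (imS b ξ).En (sS _) Q ≤ C / y ^ 3 + y * (imS b ξ).N Q Q := by
    have h5 : 2 * -(C / y ^ 2) * (imS b ξ).En (sS _) Q ≤ (C / y ^ 2) ^ 2 + C * (imS b ξ).N Q Q := by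
      nlinarith [sq_nonneg (C / y ^ 2)]
    have h6 := mul_le_mul_of_nonneg_left h5 (div_pos hy hC).le
    have h7 : ∀ x : ℝ, y / C * (2 * -(C / y ^ 2) * x) = -2 * y⁻¹ * x ∧
        y / C * ((C / y ^ 2) ^ 2 + C * x) = C / y ^ 3 + y * x := fun x => by
      constructor <;> field_simp
    rwa [(h7 _).1, (h7 _).2] at h6
  have e : y * (y⁻¹ * (imS b ξ).N (sS _) Q) = (imS b ξ).N (sS _) Q := by field_simp
  simp only [Jf, Mf, map_add, map_smul, LinearMap.add_apply, LinearMap.smul_apply, smul_eq_mul,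
    o.sN Q (sS _), o.sE Q (sS _)]
  linarith

lemma approx (c : Cal) (fa : FamApi) (ws : WsStmt) (ga : GalStmt) (hc : Coer b l) (hy : -l < y)
    {ε : ℝ} (hε : 0 < ε) : ∃ w ∈ N0 b.m, (∀ ξ, w ξ ∈ PolS b.m D) ∧
      ∀ ξ, ∀ P ∈ PolS b.m D, Jf b ξ y (w ξ) ≤ Jf b ξ y P + ε := by
  obtain ⟨⟨n, P, cc, hP, hG⟩, hJ⟩ := ga b l hc D y hy
  have hl : 0 < y + l := by linarith
  have m1 : ∀ i, (fun _ => P i) ∈ N1 b := fun i => fa.le b (fa.cst (hP i).1)
  choose M hM using fun i j => (((BM.const y).mul (fa.N b _ (m1 j) _ (m1 i)).2).add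
    (fa.En b _ (m1 j) _ (m1 i)).2).2
  have hK : 0 ≤ ∑ i, ∑ j, M i j :=
    Finset.sum_nonneg fun i _ => Finset.sum_nonneg fun j _ => (abs_nonneg _).trans (hM i j 0)
  set η := √(ε / (4 * (∑ i, ∑ j, M i j + 1))) with hη
  have η2 : η ^ 2 = ε / (4 * (∑ i, ∑ j, M i j + 1)) := sq_sqrt (by positivity)
  have small : ∀ ξ (e : Fin n → ℝ), (∀ i, |e i| ≤ η) → Mf b ξ y (∑ i, e i • P i) ≤ ε / 4 := by
    intro ξ e he
    have : Mf b ξ y (∑ i, e i • P i) ≤ η ^ 2 * ∑ i, ∑ j, M i j := by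
      simp only [Mf, map_sum, map_smul, LinearMap.sum_apply, LinearMap.smul_apply, smul_eq_mul,
        Finset.mul_sum, ← Finset.sum_add_distrib]
      refine Finset.sum_le_sum fun i _ => Finset.sum_le_sum fun j _ => ?_
      have h1 := mul_le_mul (mul_le_mul (he i) (he j) (abs_nonneg _) (sqrt_nonneg _)) (hM i j ξ)
        (abs_nonneg _) (by positivity)
      rw [← abs_mul, ← abs_mul] at h1
      beta_reduce at h1
      linarith [le_abs_self (e i * e j * (y * (imS b ξ).N (P j) (P i) + (imS b ξ).En (P j) (P i)))]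
    refine this.trans ?_
    rw [η2, div_mul_eq_mul_div, div_le_div_iff₀ (by positivity) (by positivity)]
    nlinarith
  obtain ⟨χ, h1, -, h2, h3⟩ := exists_continuous_one_zero_of_isCompact
    (isCompact_Icc (a := -(ε * (y + l) / 4)⁻¹) (b := (ε * (y + l) / 4)⁻¹)) isClosed_empty
    (disjoint_empty _)
  choose q hq using fun i => ws (fun ξ => χ ξ * cc i ξ) (χ.continuous.mul (hP i).2) h2.mul_right η
    (by positivity)
  have mem : ∀ e : Fin n → ℝ, ∑ i, e i • P i ∈ PolS b.m D := fun e =>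
    sum_mem fun i _ => Submodule.smul_mem _ _ (hP i).1
  refine ⟨fun ξ => ∑ i, (q i).eval (tanh ξ) • P i, ?_, fun ξ => mem _, fun ξ Q hQ => ?_⟩
  · convert sum_mem fun i (_ : i ∈ Finset.univ) => mul_mem (poly_mem (q i)) (fa.cst (hP i).1)
      using 2
    simp [Algebra.smul_def]
  have o := c.ok b ξ
  have g := hG ξ
  have hφ : Mf b ξ y (∑ i, cc i ξ • P i) ≤ sech2 ξ / (y + l) := by
    have e1 := g.2.2 _ g.1
    have e2 := mul_le_mul_of_nonneg_left (cs o.sN o.pN (y + l)⁻¹ (sS _) (∑ i, cc i ξ • P i)) hl.le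
    have e3 := M_ge (ξ := ξ) (y := y) hc g.1
    rw [c.Ns] at e2
    have e4 : ∀ x z : ℝ, (y + l) * (2 * (y + l)⁻¹ * x) = 2 * x ∧
        (y + l) * ((y + l)⁻¹ ^ 2 * sech2 ξ + z) = sech2 ξ / (y + l) + (y + l) * z := fun x z => by
      constructor <;> field_simp
    rw [(e4 _ 0).1, (e4 0 _).2] at e2
    rw [Mf] at e3 ⊢
    linarith
  have a1 := small ξ (fun i => (q i).eval (tanh ξ) - χ ξ * cc i ξ) fun i => by
    rw [abs_sub_comm]; exact hq i ξ
  have a2 : Mf b ξ y ((χ ξ - 1) • ∑ i, cc i ξ • P i) ≤ ε / 4 := by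
    rw [M_smul]
    by_cases h : ξ ∈ Icc (-(ε * (y + l) / 4)⁻¹) (ε * (y + l) / 4)⁻¹
    · rw [h1 h]; simp; positivity
    · have e1 := (div_le_iff₀ hl).2 ((sech2_small (by positivity) h).trans_eq
        (show _ = ε / 4 * (y + l) by ring))
      have e2 := M_pos (ξ := ξ) c hc hy g.1
      have e3 := h3 ξ
      nlinarith [mul_nonneg e3.1 e2, mul_nonneg (mul_nonneg e3.1 (sub_nonneg.2 e3.2)) e2]
  have a3 := M_par (ξ := ξ) (y := y) (∑ i, ((q i).eval (tanh ξ) - χ ξ * cc i ξ) • P i)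
    ((χ ξ - 1) • ∑ i, cc i ξ • P i)
  have a4 := M_pos (ξ := ξ) c hc hy (sub_mem (mem fun i => (q i).eval (tanh ξ) - χ ξ * cc i ξ)
    (Submodule.smul_mem _ (χ ξ - 1) g.1))
  have a5 := M_pos (ξ := ξ) c hc hy (sub_mem hQ g.1)
  have e : ∑ i, ((q i).eval (tanh ξ) - χ ξ * cc i ξ) • P i + (χ ξ - 1) • ∑ i, cc i ξ • P i =
      ∑ i, (q i).eval (tanh ξ) • P i - ∑ i, cc i ξ • P i := by
    simp only [Finset.smul_sum, smul_smul, ← Finset.sum_add_distrib, ← Finset.sum_sub_distrib,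
      ← add_smul, ← sub_smul]
    exact Finset.sum_congr rfl fun i _ => by congr 1; ring
  rw [e] at a3
  rw [(hJ ξ _ g).2 _ (mem _), (hJ ξ _ g).2 Q hQ]
  linarith

lemma odd (c : Cal) (p : PolApi) (fa : FamApi) (ws : WsStmt) (ga : GalStmt) (hc : Coer b l)
    (hy : -l < y) {ε : ℝ} (hε : 0 < ε) : ∃ v, Cl0 b D v ∧
      ∀ ξ, ∀ P ∈ PolS b.m D, Jf b ξ y (v ξ) ≤ Jf b ξ y P + ε := by
  obtain ⟨w0, n0, p0, j0⟩ := approx (D := D) c fa ws ga hc hy hε
  obtain ⟨w, nw, pw, cw, jw⟩ : ∃ w ∈ N0 b.m, (∀ ξ, w ξ ∈ PolS b.m D) ∧ Cen b w ∧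
      ∀ ξ, ∀ P ∈ PolS b.m D, Jf b ξ y (w ξ) ≤ Jf b ξ y P + ε := by
    refine ⟨fun ξ => w0 ξ - exS b ξ (w0 ξ) • 1, ?_,
      fun ξ => sub_mem (p0 ξ) (Submodule.smul_mem _ _ (p.one _ _)), fun ξ => by simp [c.ex1],
      fun ξ P hP => by rw [J_const c]; exact j0 ξ P hP⟩
    convert sub_mem n0 (fa.ex0 b _ n0) using 2
    simp [Algebra.algebraMap_eq_smul_one]
  obtain ⟨ρ, r1, r2, r3, r4⟩ := fa.refl b.m
  replace r4 := r4 b.A b.g b.psd
  have rs : sS b.m = -ρ (sS _) := Subtype.ext (funext fun s => funext fun X => by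
    have := r1 (sS _) s X
    change _ = -(ρ (sS _)).1 s X
    rw [this]; cases s <;> simp [sS, sg])
  have rJ : ∀ ξ F, Jf b (-ξ) y (-ρ F) = Jf b ξ y F := fun ξ F => by
    have h1 : (imS b (-ξ)).N (sS _) (-ρ F) = (imS b ξ).N (sS _) F := by
      nth_rw 1 [rs]
      simpa using (r4 ξ (sS _) F).2.1
    have h2 : (imS b (-ξ)).N (ρ F) (ρ F) = (imS b ξ).N F F := (r4 ξ F F).2.1
    have h3 : (imS b (-ξ)).En (ρ F) (ρ F) = (imS b ξ).En F F := (r4 ξ F F).2.2
    rw [Jf, Jf, h1]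
    simp [Mf, h2, h3]
  refine ⟨fun ξ => (1 / 2 : ℝ) • (w ξ + -ρ (w (-ξ))), ⟨?_, fun ξ s X => ?_, fun ξ => ?_, fun ξ =>
    Submodule.smul_mem _ _ (add_mem (pw ξ) (neg_mem (r2 D _ (pw _))))⟩, fun ξ P hP => ?_⟩
  · exact (N0 _).smul_mem (add_mem nw (neg_mem (r3 w nw))) (1 / 2)
  · change (1 / 2 : ℝ) * ((w (-ξ)).1 (!s) (-X) + -(ρ (w (- -ξ))).1 (!s) (-X)) =
      -((1 / 2 : ℝ) * ((w ξ).1 s X + -(ρ (w (-ξ))).1 s X))
    rw [r1, r1, neg_neg, neg_neg, Bool.not_not]; ring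
  · have h : exS b (- -ξ) (ρ (w (-ξ))) = exS b (-ξ) (w (-ξ)) := (r4 (-ξ) _ 0).1
    rw [neg_neg, cw] at h
    simp [h, cw ξ]
  · have h1 := rJ (-ξ) (w (-ξ))
    rw [neg_neg] at h1
    have h2 := jw (-ξ) _ (neg_mem (r2 D P hP))
    have h3 := jw ξ P hP
    have h4 := M_pos (ξ := ξ) c hc hy (sub_mem (pw ξ) (neg_mem (r2 D _ (pw (-ξ)))))
    rw [rJ] at h2
    rw [J_mid, h1]
    linarith

lemma st_cl (c : Cal) (p : PolApi) : Cl0 b D (stS b.m) := by
  refine ⟨sub_mem (Algebra.subset_adjoin (Or.inl (Or.inr rfl)))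
    (Algebra.subset_adjoin (Or.inl (Or.inl rfl))), fun ξ s X => ?_, fun ξ => ?_, fun ξ => ?_⟩
  · change sg (!s) - tanh (-ξ) = -(sg s - tanh ξ)
    cases s <;> simp [sg] <;> ring
  · simp [stS, Algebra.algebraMap_eq_smul_one, c.ex1, c.exs]
  · rw [stS, Algebra.algebraMap_eq_smul_one]
    exact sub_mem (s_mem p _ _) (Submodule.smul_mem _ _ (p.one _ _))

end Ap79

open Ap79 in
theorem apGlue : ApGlue := by
  intro c p fa ws bd ga b l a ha hl hc D δ hδ
  obtain ⟨C, hC, hB⟩ := bd ⟨b, b, 1, by simp, by simp, by simp⟩ D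
  have hla : 0 < l - a := by linarith
  set Y := 1 + a + 4 * (C + 1) / δ with hY
  have hq : 0 < 4 * (C + 1) / δ := by positivity
  set ε := min 1 (δ / (1 + Y) ^ 2 / 2) with hε
  have ε0 : 0 < ε := by positivity
  set K := 2 / (l - a) * (1 + 2 / (l - a)) with hK
  have K0 : 0 < K := by positivity
  choose v hv hJ using fun k : ℕ => odd (D := D) (y := -a + k * (ε / K)) c p fa ws ga hc
    (by have : 0 ≤ k * (ε / K) := by positivity
        linarith) ε0
  refine ⟨insert (stS b.m) (v '' Iic ⌊(Y + a) / (ε / K)⌋₊), ((finite_Iic _).image v).insert _, ?_,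
    fun y hy => ?_⟩
  · rintro _ (rfl | ⟨k, -, rfl⟩)
    exacts [st_cl c p, hv k]
  rcases le_total Y y with h | h
  · have y0 : 0 < y := by linarith
    refine ⟨_, mem_insert _ _, y⁻¹, fun ξ P hP => (tail c p (C := C + 1) (by positivity) y0
      (fun F hF => (hB ξ F hF).1.trans ?_) hP).trans ?_⟩
    · exact mul_le_mul_of_nonneg_right (by linarith) ((c.ok b ξ).pN F)
    · have h1 : 4 * (C + 1) ≤ y * δ := (div_le_iff₀ hδ).1 (by linarith)
      rw [abs_of_pos y0, add_le_add_iff_left, div_le_div_iff₀ (by positivity) (by positivity)]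
      have h2 : (1 + y) ^ 2 ≤ 4 * y ^ 2 := by nlinarith
      nlinarith [mul_le_mul_of_nonneg_left h2 (show 0 ≤ C + 1 by positivity),
        mul_le_mul_of_nonneg_left h1 (sq_nonneg y)]
  · set k := ⌊(y + a) / (ε / K)⌋₊ with hk
    have k1 : k * (ε / K) ≤ y + a :=
      (le_div_iff₀ (by positivity)).1 (Nat.floor_le (div_nonneg (by linarith) (by positivity)))
    have k2 : y + a ≤ (k + 1) * (ε / K) :=
      (div_le_iff₀ (by positivity)).1 (Nat.lt_floor_add_one _).le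
    refine ⟨v k, mem_insert_of_mem _ ⟨k, Nat.floor_le_floor (by gcongr), rfl⟩, 1,
      fun ξ P hP => ?_⟩
    have o := c.ok b ξ
    have k0 : 0 ≤ k * (ε / K) := by positivity
    have j1 := hJ k ξ P hP
    have j2 := hJ k ξ 0 (zero_mem _)
    have n0 := o.pN (v k ξ)
    have n1 : (imS b ξ).N (v k ξ) (v k ξ) ≤ K := by
      have e1 := M_ge (ξ := ξ) (y := -a + k * (ε / K)) hc ((hv k).2.2.2 ξ)
      have e2 := cs o.sN o.pN (2 / (l - a)) (sS _) (v k ξ)
      have e3 := sech2_le_one ξ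
      have e4 : ε ≤ 1 := min_le_left _ _
      have e5 : Jf b ξ (-a + k * (ε / K)) 0 = 0 := by simp [Jf, Mf]
      rw [c.Ns] at e2
      rw [e5, Jf] at j2
      have e6 : (l - a) * (imS b ξ).N (v k ξ) (v k ξ) ≤ 1 + 2 * (imS b ξ).N (sS _) (v k ξ) := by
        nlinarith [mul_nonneg k0 n0]
      have e7 := mul_le_mul_of_nonneg_left e6 (show 0 ≤ 2 / (l - a) by positivity)
      have e8 : 2 / (l - a) * ((l - a) * (imS b ξ).N (v k ξ) (v k ξ)) =
          2 * (imS b ξ).N (v k ξ) (v k ξ) := by field_simp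
      nlinarith [mul_le_mul_of_nonneg_left e3 (sq_nonneg (2 / (l - a)))]
    have d1 : 2 * ε ≤ δ / (1 + |y|) ^ 2 := by
      have e1 : ε ≤ δ / (1 + Y) ^ 2 / 2 := min_le_right _ _
      have e2 : |y| ≤ Y := abs_le.2 ⟨by linarith, h⟩
      have e3 : δ / (1 + Y) ^ 2 ≤ δ / (1 + |y|) ^ 2 := by gcongr
      linarith
    have d2 : (y + a - k * (ε / K)) * (imS b ξ).N (v k ξ) (v k ξ) ≤ ε / K * K :=
      mul_le_mul (by linarith) n1 n0 (by positivity)
    rw [div_mul_cancel₀ _ K0.ne'] at d2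
    have d3 := mul_nonneg (sub_nonneg.2 k1) (o.pN P)
    simp only [one_smul, Jf, Mf] at j1 ⊢
    linarith

end Crest.Agent.T157.Tw

end
end

-- ▼ part T157/LcBd_77
section

/-!
# Row 157, block B/S4b (helper77): bounds on polynomials, uniform in the static field
-/

set_option autoImplicit false
set_option linter.all false

noncomputable section

namespace Crest.Agent.T157.Tw

open Real Matrix Set

namespace Bd77

/-- finite-dimensional comparison of forms -/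
lemma fin_bd {V : Type} [AddCommGroup V] [Module ℝ V] {H : Pre V} (ok : H.Ok) {S : Submodule ℝ V}
    (hS : S.FG) : ∃ C ≥ (0 : ℝ), ∀ y ∈ S, H.En y y ≤ C * H.N y y := by
  obtain ⟨T, rfl⟩ := hS
  obtain ⟨b, f, hc, -, hs⟩ := compStmt V H ok ⊤ T T.finite_toSet (subset_univ _)
  refine ⟨∑ i, ∑ j, |b.A i j|, by positivity, fun y hy => ?_⟩
  rw [← hc.En_co ok (hs y hy) (hs y hy), ← hc.N_co ok (hs y hy)]
  generalize co H f y = u
  have h : ∀ i, u i * u i ≤ u ⬝ᵥ u := fun i =>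
    Finset.single_le_sum (f := fun i => u i * u i) (fun i _ => mul_self_nonneg _) (Finset.mem_univ i)
  rw [dotProduct, Finset.sum_mul]
  refine Finset.sum_le_sum fun i _ => ?_
  rw [mulVec, dotProduct, Finset.mul_sum, Finset.sum_mul]
  refine Finset.sum_le_sum fun j _ => ?_
  have a : |u i * u j| ≤ u ⬝ᵥ u := abs_le.2 ⟨by nlinarith [h i, h j, sq_nonneg (u i + u j)],
    by nlinarith [h i, h j, sq_nonneg (u i - u j)]⟩
  calc _ = b.A i j * (u i * u j) := by ring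
    _ ≤ |b.A i j| * |u i * u j| := by rw [← abs_mul]; exact le_abs_self _
    _ ≤ _ := by gcongr

/-- second moment -/
def q (b : Bath) (ξ : ℝ) (F : SV b.m) : ℝ := exS b ξ (F * F)

variable (c : Cal) {b bt : Bath} {D : ℕ}
include c

lemma q_nonneg (ξ : ℝ) (F : SV b.m) : 0 ≤ q b ξ F := c.pos b ξ _ fun _ _ => mul_self_nonneg _

lemma ip_le (ξ : ℝ) (F G : SV b.m) : 2 * |exS b ξ (F * G)| ≤ q b ξ F + q b ξ G := by
  have h1 := q_nonneg c ξ (F + G)
  have h2 := q_nonneg c ξ (F - G)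
  rw [q, show (F + G) * (F + G) = F * F + G * G + (F * G + F * G) by ring] at h1
  rw [q, show (F - G) * (F - G) = F * F + G * G - (F * G + F * G) by ring] at h2
  simp only [map_add, map_sub] at h1 h2
  unfold q
  rcases abs_cases (exS b ξ (F * G)) with h | h <;> linarith [h.1]

lemma En_le (ξ : ℝ) (G : SV b.m) : (imS b ξ).En G G ≤
    q b ξ G + (∑ i, ∑ j, |b.A i j|) * ∑ j, q b ξ (dd j G) := by
  have h : ∀ i, q b ξ (dd i G) ≤ ∑ j, q b ξ (dd j G) := fun i => Finset.single_le_sum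
    (f := fun j => q b ξ (dd j G)) (fun i _ => q_nonneg c ξ _) (Finset.mem_univ i)
  rw [c.En, Finset.sum_mul]
  refine add_le_add (c.rs_le b ξ G) (Finset.sum_le_sum fun i _ => ?_)
  rw [Finset.sum_mul]
  refine Finset.sum_le_sum fun j _ => ((le_abs_self _).trans (abs_mul _ _).le).trans ?_
  gcongr
  linarith [ip_le c ξ (dd i G) (dd j G), h i, h j]

omit c in
/-- `T` is bounded on polynomials, uniformly in the field -/
def Bd (b bt : Bath) (D : ℕ) (T : ℝ → SV b.m → SV bt.m) : Prop :=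
  ∃ C ≥ (0 : ℝ), ∀ ξ, ∀ F ∈ PolS b.m D, q bt ξ (T ξ F) ≤ C * q b ξ F

variable {T T' : ℝ → SV b.m → SV bt.m}

lemma Bd.add (h : Bd b bt D T) (h' : Bd b bt D T') : Bd b bt D fun ξ F => T ξ F + T' ξ F := by
  obtain ⟨C, h0, h⟩ := h
  obtain ⟨C', h0', h'⟩ := h'
  refine ⟨2 * C + 2 * C', by positivity, fun ξ F hF => ?_⟩
  have a := ip_le c ξ (T ξ F) (T' ξ F)
  have e : q bt ξ (T ξ F + T' ξ F) =
      q bt ξ (T ξ F) + q bt ξ (T' ξ F) + 2 * exS bt ξ (T ξ F * T' ξ F) := by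
    unfold q
    rw [two_mul, ← map_add, ← map_add, ← map_add]
    congr 1; ring
  rw [e]
  linarith [h ξ F hF, h' ξ F hF, le_abs_self (exS bt ξ (T ξ F * T' ξ F))]

omit c in
lemma Bd.smul (h : Bd b bt D T) (a : ℝ) : Bd b bt D fun ξ F => a • T ξ F := by
  obtain ⟨C, h0, h⟩ := h
  refine ⟨a ^ 2 * C, by positivity, fun ξ F hF => ?_⟩
  rw [q, smul_mul_smul_comm, map_smul, smul_eq_mul, ← sq, mul_assoc]
  exact mul_le_mul_of_nonneg_left (h ξ F hF) (sq_nonneg a)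

lemma Bd.rs (h : Bd b bt D T) : Bd b bt D fun ξ F => rsS bt ξ (T ξ F) := by
  obtain ⟨C, h0, h⟩ := h
  exact ⟨C, h0, fun ξ F hF => (c.rs_le bt ξ _).trans (h ξ F hF)⟩

lemma Bd.psi (h : Bd b bt D T) : Bd b bt D fun ξ F => psi bt ξ (T ξ F) := by
  obtain ⟨C, h0, h⟩ := h.rs c
  exact ⟨C, h0, fun ξ F hF => (c.psi_le bt ξ _).trans (h ξ F hF)⟩

lemma q_sec (ξ : ℝ) (F : SV b.m) : q b ξ F =
    (1 + tanh ξ) / 4 * q b 0 (F + sS _ * F) + (1 - tanh ξ) / 4 * q b 0 (F - sS _ * F) := by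
  have e1 : (F + sS _ * F) * (F + sS _ * F) =
      F * F + F * F + (sS _ * (F * F) + sS _ * (F * F)) := by
    linear_combination (F * F) * c.ss b.m
  have e2 : (F - sS _ * F) * (F - sS _ * F) =
      F * F + F * F - (sS _ * (F * F) + sS _ * (F * F)) := by
    linear_combination (F * F) * c.ss b.m
  unfold q
  rw [e1, e2, c.aff b ξ]
  simp only [map_add, map_sub]
  ring

/-- linear maps acting sectorwise -/
lemma sec (p : PolApi) (L : SV b.m →ₗ[ℝ] SV bt.m) (hL : ∀ F, L (sS _ * F) = sS _ * L F) :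
    Bd b bt D fun _ F => L F := by
  obtain ⟨C, h0, h⟩ := fin_bd (H := ⟨(LinearMap.mul ℝ _).compr₂ (exS b 0),
    ((LinearMap.mul ℝ _).compr₂ (exS bt 0)).compl₁₂ L L, 0⟩)
    ⟨fun u v => congrArg (exS b 0) (mul_comm u v),
      fun u v => congrArg (exS bt 0) (mul_comm (L u) (L v)), q_nonneg c 0,
      fun u => q_nonneg c 0 (L u), fun u hu => by
        obtain rfl := c.defn b 0 u hu
        simp⟩ (p.fg b.m D)
  refine ⟨C, h0, fun ξ F hF => ?_⟩
  have a1 : q bt 0 (L _) ≤ C * q b 0 _ := h _ (add_mem hF (p.s hF))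
  have a2 : q bt 0 (L _) ≤ C * q b 0 _ := h _ (sub_mem hF (p.s hF))
  rw [map_add, hL] at a1
  rw [map_sub, hL] at a2
  rw [q_sec c, q_sec c ξ F]
  have t := abs_lt.1 (abs_tanh_lt_one ξ)
  have b1 := mul_le_mul_of_nonneg_left a1 (by linarith : 0 ≤ (1 + tanh ξ) / 4)
  have b2 := mul_le_mul_of_nonneg_left a2 (by linarith : 0 ≤ (1 - tanh ξ) / 4)
  linarith

lemma dd_s {m : ℕ} (j : Fin m) (F : SV m) : dd j (sS m * F) = sS m * dd j F := by
  rw [c.dmul, c.ds, zero_mul, zero_add]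

lemma ou_s (F : SV b.m) : ouS b (sS _ * F) = sS _ * ouS b F := by
  simp only [ouS, LinearMap.sum_apply, LinearMap.smul_apply, LinearMap.sub_apply,
    LinearMap.comp_apply, LinearMap.mul_apply', dd_s c, Finset.mul_sum, mul_smul_comm]
  refine Finset.sum_congr rfl fun i _ => Finset.sum_congr rfl fun j _ => ?_
  congr 1; ring

lemma gen_one (ξ : ℝ) : gen b ξ 1 = 0 := by
  simp [gen, rsS, ouS, c.done]

/-- from second moments of the function and its gradient to the energy -/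
lemma Bd.mf (h : Bd b bt D T) (h' : ∀ j, Bd b bt D fun ξ F => dd j (T ξ F)) :
    ∃ C ≥ (0 : ℝ), ∀ ξ, ∀ F ∈ PolS b.m D, (imS bt ξ).En (T ξ F) (T ξ F) ≤ C * q b ξ F ∧
      Mf bt ξ 1 (T ξ F) ≤ C * q b ξ F := by
  obtain ⟨C, h0, h⟩ := h
  choose K k0 hK using h'
  have s0 : 0 ≤ ∑ j, K j := Finset.sum_nonneg fun j _ => k0 j
  refine ⟨2 * C + (∑ i, ∑ j, |bt.A i j|) * ∑ j, K j, by positivity, fun ξ F hF => ?_⟩
  have a1 := En_le c ξ (T ξ F)
  have a2 : ∑ j, q bt ξ (dd j (T ξ F)) ≤ (∑ j, K j) * q b ξ F := by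
    rw [Finset.sum_mul]; exact Finset.sum_le_sum fun j _ => hK j ξ F hF
  have a3 := mul_le_mul_of_nonneg_left a2 (by positivity : 0 ≤ ∑ i, ∑ j, |bt.A i j|)
  have a4 := h ξ F hF
  have a5 : (imS bt ξ).N (T ξ F) (T ξ F) ≤ q bt ξ (T ξ F) := by
    rw [c.N]; exact sub_le_self _ (mul_self_nonneg _)
  have a6 := mul_nonneg h0 (q_nonneg c ξ F)
  rw [Mf]
  constructor <;> nlinarith

end Bd77

open Bd77 in
theorem bdGlue : BdGlue := by
  intro c p e D
  have ps : ∀ F, pull e.ι (sS _ * F) = sS _ * pull e.ι F := fun F => map_mul _ _ _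
  have b0 : Bd e.b e.bt D fun _ F => pull e.ι F := sec c p (pull e.ι).toLinearMap ps
  obtain ⟨C1, c1, h1⟩ := Bd.mf c (b := e.b) (bt := e.b) (D := D) (T := fun _ F => F)
    (sec c p .id fun _ => rfl) fun j => sec c p (dd j) (dd_s c j)
  obtain ⟨C2, c2, h2⟩ := Bd.mf c (b := e.b) (bt := e.bt) (D := D)
    (T := fun ξ F => gen e.bt ξ (pull e.ι F))
    ((b0.rs c).add c (sec c p (ouS e.bt ∘ₗ (pull e.ι).toLinearMap) fun F =>
      (congrArg (ouS e.bt) (ps F)).trans (ou_s c _))) fun j => by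
      have a := (((sec c p (D := D) (dd j ∘ₗ (pull e.ι).toLinearMap) fun F =>
        (congrArg (dd j) (ps F)).trans (dd_s c j _)).rs c).add c
        ((b0.psi c).smul (-e.bt.g j))).add c
        (sec c p (dd j ∘ₗ ouS e.bt ∘ₗ (pull e.ι).toLinearMap) fun F =>
          (congrArg (dd j) ((congrArg (ouS e.bt) (ps F)).trans (ou_s c _))).trans (dd_s c j _))
      convert a using 3 with ξ F
      rw [gen, LinearMap.add_apply, map_add, c.drs, neg_smul, ← sub_eq_add_neg]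
      rfl
  refine ⟨C1 + C2, by positivity, fun ξ F hF => ?_⟩
  have hF' : F - exS e.b ξ F • 1 ∈ PolS e.b.m D :=
    sub_mem hF (Submodule.smul_mem _ _ (p.one _ _))
  have eN : q e.b ξ (F - exS e.b ξ F • 1) = (imS e.b ξ).N F F := by
    rw [c.N, q]
    simp only [sub_mul, mul_sub, smul_mul_assoc, mul_smul_comm, one_mul, mul_one, map_sub, map_smul,
      c.ex1, smul_eq_mul]
    ring
  have z : ∀ G, (imS e.b ξ).En G 1 = 0 := fun G => by rw [← c.l0, gen_one c, mul_zero, map_zero]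
  have a1 := (h1 ξ _ hF').1
  have a2 := (h2 ξ _ hF').2
  have n0 := (c.ok e.b ξ).pN F
  simp only [eN, map_sub, map_smul, map_one, gen_one c, smul_zero, sub_zero, z,
    LinearMap.sub_apply, LinearMap.smul_apply, (c.ok e.b ξ).sE 1 F] at a1 a2
  constructor <;> nlinarith [mul_nonneg c1 n0, mul_nonneg c2 n0]

end Crest.Agent.T157.Tw

end
end

-- ▼ part T157/LcFam_29
section

/-!
# Row 157, block B/S4b (helper29): families in the static field (`famGlue`, `wsStmt`)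
-/

set_option autoImplicit false

noncomputable section

namespace Crest.Agent.T157.Tw

open MeasureTheory Real Matrix Set
open Crest.Agent.R238.Gap Crest.Agent.R238.GapPc Crest.Agent.R253.Meh74

namespace Fam29

variable {m k : ℕ}

/-! ### closure of generated algebras -/

lemma cmem (A : Subalgebra ℝ (ℝ → SV m)) (r : ℝ) : (fun _ => algebraMap ℝ (SV m) r) ∈ A :=
  A.algebraMap_mem r

lemma hom {T : Set (ℝ → SV m)} {A : Subalgebra ℝ (ℝ → SV k)} (φ : SV m →ₐ[ℝ] SV k) (τ : ℝ → ℝ)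
    (hT : ∀ F ∈ T, (fun ξ => φ (F (τ ξ))) ∈ A) :
    ∀ F ∈ Algebra.adjoin ℝ T, (fun ξ => φ (F (τ ξ))) ∈ A := fun F hF => by
  induction hF using Algebra.adjoin_induction with
  | mem x hx => exact hT x hx
  | algebraMap r => simpa using cmem A r
  | add x y _ _ hx hy =>
    simp only [Pi.add_apply, map_add]
    exact add_mem hx hy
  | mul x y _ _ hx hy =>
    simp only [Pi.mul_apply, map_mul]
    exact mul_mem hx hy

lemma dd_alg (c : Cal) (j : Fin m) (r : ℝ) : dd j (algebraMap ℝ (SV m) r) = 0 := by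
  rw [Algebra.algebraMap_eq_smul_one, map_smul, c.done, smul_zero]

lemma der (c : Cal) {T : Set (ℝ → SV m)} (j : Fin m)
    (hT : ∀ F ∈ T, (fun ξ => dd j (F ξ)) ∈ Algebra.adjoin ℝ T) :
    ∀ F ∈ Algebra.adjoin ℝ T, (fun ξ => dd j (F ξ)) ∈ Algebra.adjoin ℝ T := fun F hF => by
  induction hF using Algebra.adjoin_induction with
  | mem x hx => exact hT x hx
  | algebraMap r =>
    simp only [Pi.algebraMap_apply, dd_alg c]
    exact zero_mem _
  | add x y _ _ hx hy =>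
    simp only [Pi.add_apply, map_add]
    exact add_mem hx hy
  | mul x y mx my hx hy =>
    simp only [Pi.mul_apply, c.dmul]
    exact add_mem (mul_mem hx my) (mul_mem mx hy)

lemma th_mem : (fun ξ => algebraMap ℝ (SV m) (tanh ξ)) ∈ N0 m :=
  Algebra.subset_adjoin (Or.inl (Or.inl rfl))
lemma s_mem : (fun _ => sS m) ∈ N0 m := Algebra.subset_adjoin (Or.inl (Or.inr rfl))
lemma x_mem (j : Fin m) : (fun _ => xS j) ∈ N0 m := Algebra.subset_adjoin (Or.inr ⟨j, rfl⟩)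
lemma le (b : Bath) : N0 b.m ≤ N1 b := Algebra.adjoin_mono (subset_insert _ _)
lemma t_mem (b : Bath) : tS b ∈ N1 b := Algebra.subset_adjoin (mem_insert _ _)

lemma g0_cases {p : (ℝ → SV m) → Prop} (h1 : p fun ξ => algebraMap ℝ (SV m) (tanh ξ))
    (h2 : p fun _ => sS m) (h3 : ∀ j, p fun _ => xS j) : ∀ F ∈ G0 m, p F := by
  rintro F ((rfl | rfl) | ⟨j, rfl⟩)
  exacts [h1, h2, h3 j]

lemma d_g0 (c : Cal) (j : Fin m) : ∀ F ∈ G0 m, (fun ξ => dd j (F ξ)) ∈ N0 m :=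
  g0_cases (by simp only [dd_alg c]; exact zero_mem _) (by simp only [c.ds]; exact zero_mem _)
    fun i => by
      simp only [c.dx]
      split_ifs
      exacts [one_mem _, zero_mem _]

lemma d0 (c : Cal) (j : Fin m) : ∀ F ∈ N0 m, (fun ξ => dd j (F ξ)) ∈ N0 m := der c j (d_g0 c j)

lemma d1 (c : Cal) (b : Bath) (j : Fin b.m) : ∀ F ∈ N1 b, (fun ξ => dd j (F ξ)) ∈ N1 b :=
  der c j (by
    rintro F (rfl | hF)
    · simp only [c.dt]
      exact (N1 b).smul_mem (sub_mem (one_mem _) (pow_mem (t_mem b) 2)) (b.g j)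
    · exact le b (d_g0 c j F hF))

lemma fl_g0 (c : Cal) : ∀ F ∈ G0 m, (fun ξ => fl m (F ξ)) ∈ N0 m :=
  g0_cases (by simp only [AlgHom.commutes]; exact th_mem)
    (by simp only [c.fls]; exact neg_mem s_mem) fun j => x_mem j

lemma fl0 (c : Cal) : ∀ F ∈ N0 m, (fun ξ => fl m (F ξ)) ∈ N0 m := hom (fl m) id (fl_g0 c)

lemma fl1 (c : Cal) (b : Bath) : ∀ F ∈ N1 b, (fun ξ => fl _ (F ξ)) ∈ N1 b :=
  hom (fl _) id (by
    rintro F (rfl | hF)
    · exact t_mem b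
    · exact le b (fl_g0 c F hF))

lemma rs_apply (b : Bath) (ξ : ℝ) (F : SV b.m) :
    rsS b ξ F = (1 / 2 : ℝ) • (1 - sS _ * tS b ξ) * (F - fl _ F) := rfl


lemma ou_apply (b : Bath) (F : SV b.m) :
    ouS b F = ∑ i, ∑ j, b.A i j • (zS b i * dd j F - dd i (dd j F)) := by
  simp only [ouS, LinearMap.sum_apply, LinearMap.smul_apply, LinearMap.sub_apply,
    LinearMap.comp_apply, LinearMap.mul_apply']

lemma rs1 (c : Cal) (b : Bath) {F : ℝ → SV b.m} (hF : F ∈ N1 b) :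
    (fun ξ => rsS b ξ (F ξ)) ∈ N1 b :=
  mul_mem ((N1 b).smul_mem (sub_mem (one_mem _) (mul_mem (le b s_mem) (t_mem b))) (1 / 2 : ℝ))
    (sub_mem hF (fl1 c b F hF))

lemma ou1 (c : Cal) (b : Bath) {F : ℝ → SV b.m} (hF : F ∈ N1 b) :
    (fun ξ => ouS b (F ξ)) ∈ N1 b := by
  have e : (fun ξ => ouS b (F ξ)) = ∑ i, ∑ j, b.A i j •
      (((fun _ : ℝ => (xS i : SV b.m)) - b.g i • fun _ : ℝ => sS b.m) *
      (fun ξ => dd j (F ξ)) - fun ξ => dd i (dd j (F ξ))) := by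
    funext ξ
    simp only [ou_apply, Finset.sum_apply]
    rfl
  rw [e]
  exact sum_mem fun i _ => sum_mem fun j _ => (N1 b).smul_mem (sub_mem (mul_mem
    (sub_mem (le b (x_mem i)) ((N1 b).smul_mem (le b s_mem) _)) (d1 c b j F hF))
    (d1 c b i _ (d1 c b j F hF))) _

/-! ### averages -/

/-- jointly continuous, of uniform polynomial growth -/
def Jc (F : ℝ → SV m) : Prop := (∀ s, Continuous fun p : ℝ × E m => (F p.1).1 s p.2) ∧
  ∃ K : ℝ, ∃ j : ℕ, 0 ≤ K ∧ ∀ ξ s X, |(F ξ).1 s X| ≤ K * (1 + ‖X‖) ^ j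

lemma cont_tanh : Continuous tanh := contDiff_tanh'.continuous

lemma jc (b : Bath) : ∀ F ∈ N1 b, Jc F := fun F hF => by
  induction hF using Algebra.adjoin_induction with
  | mem F hF =>
    rcases hF with rfl | hF
    · exact ⟨fun _ => cont_tanh.comp (by unfold fld; fun_prop), 1, 0, zero_le_one,
        fun ξ _ X => by
          change |tanh (fld b ξ X)| ≤ _
          simpa using (abs_tanh_lt_one _).le⟩
    · refine g0_cases ?_ ?_ (fun j => ?_) F hF
      · exact ⟨fun _ => cont_tanh.comp continuous_fst, 1, 0, zero_le_one,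
          fun ξ _ _ => by simpa using (abs_tanh_lt_one ξ).le⟩
      · refine ⟨fun _ => continuous_const, 1, 0, zero_le_one, fun _ s _ => ?_⟩
        change |sg s| ≤ _
        cases s <;> simp [sg]
      · refine ⟨fun _ => ?_, 1, 1, zero_le_one, fun _ s X => ?_⟩
        · change Continuous fun p : ℝ × E b.m => p.2 j
          fun_prop
        · change |X j| ≤ _
          have := PiLp.norm_apply_le X j
          rw [Real.norm_eq_abs] at this
          linarith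
  | algebraMap r => exact ⟨fun _ => continuous_const, |r|, 0, abs_nonneg _,
      fun _ _ _ => by simp⟩
  | add x y _ _ hx hy =>
    obtain ⟨K, j, hK, h⟩ := hx.2
    obtain ⟨K', j', hK', h'⟩ := hy.2
    refine ⟨fun s => (hx.1 s).add (hy.1 s), K + K', j + j', by positivity, fun ξ s X => ?_⟩
    have h1 : 1 ≤ 1 + ‖X‖ := by linarith [norm_nonneg X]
    have h2 := mul_le_mul_of_nonneg_left (pow_le_pow_right₀ h1 (Nat.le_add_right j j')) hK
    have h3 := mul_le_mul_of_nonneg_left (pow_le_pow_right₀ h1 (Nat.le_add_left j' j)) hK'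
    have h4 := abs_add_le ((x ξ).1 s X) ((y ξ).1 s X)
    change |(x ξ).1 s X + (y ξ).1 s X| ≤ _
    linarith [h ξ s X, h' ξ s X]
  | mul x y _ _ hx hy =>
    obtain ⟨K, j, hK, h⟩ := hx.2
    obtain ⟨K', j', hK', h'⟩ := hy.2
    refine ⟨fun s => (hx.1 s).mul (hy.1 s), K * K', j + j', by positivity, fun ξ s X => ?_⟩
    change |(x ξ).1 s X * (y ξ).1 s X| ≤ _
    rw [abs_mul]
    exact (mul_le_mul (h ξ s X) (h' ξ s X) (abs_nonneg _) (by positivity)).trans_eq (by ring)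

/-- continuous and bounded -/
def CB (c : ℝ → ℝ) : Prop := Continuous c ∧ BM c

lemma CB.const (r : ℝ) : CB fun _ => r := ⟨continuous_const, BM.const r⟩
lemma CB.add {c d : ℝ → ℝ} (hc : CB c) (hd : CB d) : CB fun ξ => c ξ + d ξ :=
  ⟨hc.1.add hd.1, hc.2.add hd.2⟩
lemma CB.mul {c d : ℝ → ℝ} (hc : CB c) (hd : CB d) : CB fun ξ => c ξ * d ξ :=
  ⟨hc.1.mul hd.1, hc.2.mul hd.2⟩
lemma CB.sub {c d : ℝ → ℝ} (hc : CB c) (hd : CB d) : CB fun ξ => c ξ - d ξ := by
  simpa [sub_eq_add_neg] using hc.add ((CB.const (-1)).mul hd)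
lemma CB.sum {ι : Type*} (S : Finset ι) {c : ι → ℝ → ℝ} (h : ∀ i, CB (c i)) :
    CB fun ξ => ∑ i ∈ S, c i ξ := by
  classical
  induction S using Finset.induction_on with
  | empty => simpa using CB.const 0
  | insert a S ha ih => simpa [Finset.sum_insert ha] using (h a).add ih
lemma CB.of {c : ℝ → ℝ} (hc : Continuous c) {M : ℝ} (h : ∀ ξ, |c ξ| ≤ M) : CB c :=
  ⟨hc, hc.measurable, M, h⟩

lemma cb_ex (b : Bath) {F : ℝ → SV b.m} (hF : F ∈ N1 b) : CB fun ξ => exS b ξ (F ξ) := by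
  obtain ⟨hc, K, j, hK, h⟩ := jc b F hF
  change CB fun ξ => ∑ s, hb ξ s * ∫ z, (F ξ).1 s (z + sg s • b.v) ∂gam b.m
  refine CB.sum _ fun s => CB.mul (CB.of (continuous_hb s) (M := 1) fun ξ => by
    rw [abs_of_pos (hb_pos _ _)]; exact hb_le _ _) ?_
  have hi : Integrable (fun z : E b.m => K * (1 + ‖z + sg s • b.v‖) ^ j) (gam b.m) :=
    int_shift (f := fun z => K * (1 + ‖z‖) ^ j) (by fun_prop)
      ⟨K, j, fun z => (abs_of_nonneg (by positivity)).le⟩ _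
  refine CB.of (continuous_of_dominated (fun ξ => Continuous.aestronglyMeasurable ?_)
    (fun ξ => ae_of_all _ fun z => h ξ s _) hi (ae_of_all _ fun z => ?_))
    (M := ∫ z, K * (1 + ‖z + sg s • b.v‖) ^ j ∂gam b.m) fun ξ =>
      norm_integral_le_of_norm_le (f := fun z => (F ξ).1 s (z + sg s • b.v)) hi
        (ae_of_all _ fun z => h ξ s _)
  · exact (hc s).comp (f := fun z => (ξ, z + sg s • b.v)) (by fun_prop)
  · exact (hc s).comp (f := fun ξ => (ξ, z + sg s • b.v)) (by fun_prop)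

lemma fn_mem {F : ℝ → SV m} (hF : F ∈ N0 m) (ℓ : SV m →ₗ[ℝ] ℝ) :
    (fun ξ => algebraMap ℝ (SV k) (ℓ (F ξ))) ∈ N0 k := by
  have key : ∀ G : ℝ → SV m, (∀ ℓ : SV m →ₗ[ℝ] ℝ, (fun ξ => algebraMap ℝ (SV k) (ℓ (G ξ))) ∈ N0 k) →
      ∀ ℓ : SV m →ₗ[ℝ] ℝ, (fun ξ => algebraMap ℝ (SV k) (ℓ (F ξ * G ξ))) ∈ N0 k := by
    induction hF using Algebra.adjoin_induction with
    | mem F hF =>
      intro G hG ℓ
      refine g0_cases (p := fun F => (fun ξ => algebraMap ℝ (SV k) (ℓ (F ξ * G ξ))) ∈ N0 k)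
        ?_ (hG (ℓ ∘ₗ LinearMap.mul ℝ _ (sS m))) (fun j => hG (ℓ ∘ₗ LinearMap.mul ℝ _ (xS j))) F hF
      simp only [← Algebra.smul_def, map_smul, smul_eq_mul, map_mul]
      exact mul_mem th_mem (hG ℓ)
    | algebraMap r => exact fun G hG ℓ => hG (ℓ ∘ₗ LinearMap.mul ℝ _ (algebraMap ℝ _ r))
    | add x y _ _ hx hy =>
      intro G hG ℓ
      simp only [Pi.add_apply, add_mul, map_add]
      exact add_mem (hx G hG ℓ) (hy G hG ℓ)
    | mul x y _ _ hx hy =>
      intro G hG ℓ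
      simp only [Pi.mul_apply, mul_assoc]
      exact hx (fun ξ => y ξ * G ξ) (hy G hG) ℓ
  simpa using key (fun _ => 1) (fun ℓ => cmem _ _) ℓ

lemma poly_mem (p : MvPolynomial (Fin m) ℝ) : ∃ Q : SV m,
    (∀ s X, Q.1 s X = MvPolynomial.eval (fun i => X i) p) ∧ (fun _ => Q) ∈ N0 m := by
  induction p using MvPolynomial.induction_on with
  | C a => exact ⟨algebraMap ℝ _ a, fun _ _ => by simp, cmem _ _⟩
  | add p q hp hq =>
    obtain ⟨P, h1, h2⟩ := hp
    obtain ⟨Q, h3, h4⟩ := hq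
    exact ⟨P + Q, fun s X => by rw [map_add, ← h1 s, ← h3 s]; rfl, add_mem h2 h4⟩
  | mul_X p i hp =>
    obtain ⟨P, h1, h2⟩ := hp
    exact ⟨P * xS i, fun s X => by rw [map_mul, ← h1 s, MvPolynomial.eval_X]; rfl,
      mul_mem h2 (x_mem i)⟩

lemma cst {D : ℕ} {P : SV m} (hP : P ∈ PolS m D) : (fun _ => P) ∈ N0 m := by
  obtain ⟨p, -, hp⟩ := hP true
  obtain ⟨q, -, hq⟩ := hP false
  obtain ⟨P1, h1, m1⟩ := poly_mem p
  obtain ⟨P2, h2, m2⟩ := poly_mem q
  have e : P = (1 / 2 : ℝ) • ((1 + sS m) * P1 + (1 - sS m) * P2) := by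
    refine Subtype.ext (funext fun s => funext fun X => ?_)
    change P.1 s X = 1 / 2 * ((1 + sg s) * P1.1 s X + (1 - sg s) * P2.1 s X)
    rw [h1, h2]
    cases s
    · rw [hq]; simp only [sg, Bool.false_eq_true, if_false]; ring
    · rw [hp]; simp only [sg, if_true]; ring
  rw [e]
  exact (N0 m).smul_mem (add_mem (mul_mem (add_mem (one_mem _) s_mem) m1)
    (mul_mem (sub_mem (one_mem _) s_mem) m2)) (1 / 2 : ℝ)

/-! ### the reflection -/

/-- `F (-s, -X)` -/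
def rho (m : ℕ) : SV m →ₐ[ℝ] SV m := (pull (-1 : Matrix (Fin m) (Fin m) ℝ)).comp (fl m)

lemma rho_apply (F : SV m) (s : Bool) (X : E m) : (rho m F).1 s X = F.1 (!s) (-X) := by
  change F.1 (!s) (mv (-1 : Matrix (Fin m) (Fin m) ℝ)ᵀ X) = _
  have : mv (-1 : Matrix (Fin m) (Fin m) ℝ)ᵀ X = -X := by
    ext i
    simp [M1.mv_apply, Matrix.one_apply]
  rw [this]

lemma sg_not (s : Bool) : sg (!s) = -sg s := by cases s <;> simp [sg]

lemma rho_s : rho m (sS m) = -sS m :=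
  Subtype.ext (funext fun s => funext fun X => by rw [rho_apply]; exact sg_not s)

lemma rho_x (j : Fin m) : rho m (xS j) = -xS j :=
  Subtype.ext (funext fun s => funext fun X => by rw [rho_apply]; rfl)

lemma rho_t (b : Bath) (ξ : ℝ) : rho _ (tS b (-ξ)) = -tS b ξ :=
  Subtype.ext (funext fun s => funext fun X => by
    rw [rho_apply]
    change tanh (fld b (-ξ) (-X)) = -tanh (fld b ξ X)
    rw [← tanh_neg, fld, fld, inner_neg_right, neg_add])

lemma rho_fl (F : SV m) : rho m (fl m F) = fl m (rho m F) := rfl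

lemma rho_d (j : Fin m) (F : SV m) : rho m (dd j F) = -dd j (rho m F) :=
  Subtype.ext (funext fun s => funext fun X => by
    rw [rho_apply]
    change pd j (F.1 (!s)) (-X) = -pd j ((rho m F).1 s) X
    rw [show (rho m F).1 s = fun X => F.1 (!s) (-X) from funext (rho_apply F s), O42.pd_neg, neg_neg])

lemma rho_rs (b : Bath) (ξ : ℝ) (F : SV b.m) : rho _ (rsS b (-ξ) F) = rsS b ξ (rho _ F) := by
  simp only [rs_apply, map_mul, map_smul, map_sub, map_one, rho_s, rho_t, rho_fl]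
  rw [show -sS b.m * -tS b ξ = sS b.m * tS b ξ by ring]

lemma rho_ou (b : Bath) (F : SV b.m) : rho _ (ouS b F) = ouS b (rho _ F) := by
  simp only [ou_apply, map_sum, map_smul, map_sub, map_mul, rho_d, zS, rho_s, rho_x, map_neg]
  exact Finset.sum_congr rfl fun i _ => Finset.sum_congr rfl fun j _ => by
    congr 1
    simp only [smul_neg]
    ring

lemma odd_iff {F : ℝ → SV m} : OddF F ↔ ∀ ξ, rho m (F (-ξ)) = -F ξ :=
  forall_congr' fun ξ => ⟨fun h => Subtype.ext (funext fun s => funext fun X => by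
    rw [rho_apply]; exact h s X), fun h s X => by rw [← rho_apply, h]; rfl⟩

lemma hb_neg (ξ : ℝ) (s : Bool) : hb (-ξ) s = hb ξ (!s) := by
  simp only [hb, sg_not, cosh_neg, mul_neg, neg_mul]

lemma ex_rho (b : Bath) (ξ : ℝ) (F : SV b.m) : exS b (-ξ) (rho _ F) = exS b ξ F := by
  change ∑ s, hb (-ξ) s * ∫ z, (rho _ F).1 s (z + sg s • b.v) ∂gam b.m =
    ∑ s, hb ξ s * ∫ z, F.1 s (z + sg s • b.v) ∂gam b.m
  have e : ∀ s, ∫ z, (rho _ F).1 s (z + sg s • b.v) ∂gam b.m =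
      ∫ z, F.1 (!s) (z + sg (!s) • b.v) ∂gam b.m := fun s => by
    rw [← O42.int_neg fun z => F.1 (!s) (z + sg (!s) • b.v)]
    simp only [rho_apply, sg_not, neg_add, neg_smul]
  simp only [e, hb_neg, Fintype.sum_bool, Bool.not_true, Bool.not_false]
  ring


lemma rho_pol {D : ℕ} {F : SV m} (hF : F ∈ PolS m D) : rho m F ∈ PolS m D := fun s => by
  obtain ⟨p, hp, e⟩ := hF (!s)
  refine ⟨∑ d ∈ p.support, MvPolynomial.monomial d (p.coeff d * d.prod fun _ j => (-1) ^ j),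
    (MvPolynomial.totalDegree_finsetSum_le fun d hd => (MvPolynomial.totalDegree_monomial_le _ _).trans
      ((MvPolynomial.le_totalDegree hd).trans hp)), fun X => ?_⟩
  rw [rho_apply, e, map_sum]
  conv_lhs => rw [p.as_sum, map_sum]
  refine Finset.sum_congr rfl fun d _ => ?_
  rw [MvPolynomial.eval_monomial, MvPolynomial.eval_monomial, mul_assoc, ← Finsupp.prod_mul]
  congr 1
  exact Finsupp.prod_congr fun i _ => by rw [← mul_pow]; simp

lemma rho_g0 : ∀ F ∈ G0 m, (fun ξ => rho m (F (-ξ))) ∈ N0 m :=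
  g0_cases (by simp only [AlgHom.commutes, tanh_neg, map_neg]; exact neg_mem th_mem)
    (by simp only [rho_s]; exact neg_mem s_mem) fun j => by
      simp only [rho_x]; exact neg_mem (x_mem j)

/-! ### the relative bound -/

lemma w_le (b : Bath) (ξ : ℝ) (X : E b.m) :
    M1.wX b ξ X * (1 - tanh (fld b ξ X) ^ 2) ≤ 2 * sech2 ξ * M1.wX b 0 X := by
  have h1 := cosh_pos ξ
  have h2 := cosh_pos (fld b ξ X)
  have h3 := cosh_pos (fld b 0 X)
  have h4 : cosh ξ ≤ 2 * (cosh (fld b ξ X) * cosh (fld b 0 X)) := by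
    have e : ξ = fld b ξ X - fld b 0 X := by simp [fld]
    conv_lhs => rw [e, cosh_sub]
    have a1 := sinh_lt_cosh (fld b ξ X)
    have a2 := sinh_lt_cosh (fld b 0 X)
    have a3 := sinh_lt_cosh (-fld b ξ X)
    have a4 := sinh_lt_cosh (-fld b 0 X)
    rw [sinh_neg, cosh_neg] at a3 a4
    nlinarith
  have h5 : 1 - tanh (fld b ξ X) ^ 2 = 1 / cosh (fld b ξ X) ^ 2 := by
    rw [tanh_eq_sinh_div_cosh]
    field_simp
    rw [cosh_sq']
    ring
  have h6 : 0 < R285.gdens X * exp (-‖b.v‖ ^ 2 / 2) := mul_pos (R285.gdens_pos X) (exp_pos _)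
  rw [h5, M1.wX, M1.wX, sech2, cosh_zero]
  generalize R285.gdens X * exp (-‖b.v‖ ^ 2 / 2) = g at h6
  have e : 2 * (1 / cosh ξ ^ 2) * (g * cosh (fld b 0 X) / 1) -
      g * cosh (fld b ξ X) / cosh ξ * (1 / cosh (fld b ξ X) ^ 2) =
      g * (2 * (cosh (fld b ξ X) * cosh (fld b 0 X)) - cosh ξ) /
        (cosh ξ ^ 2 * cosh (fld b ξ X)) := by
    field_simp
  have : 0 ≤ g * (2 * (cosh (fld b ξ X) * cosh (fld b 0 X)) - cosh ξ) /
      (cosh ξ ^ 2 * cosh (fld b ξ X)) := by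
    have := sub_nonneg.2 h4
    positivity
  linarith

lemma rel (c : Cal) (b : Bath) (P : SV b.m) :
    ∃ C, ∀ ξ, |(imS b ξ).En (sS _) P| ≤ C * sech2 ξ := by
  have hc : ∀ F : SV b.m, F.1 ∈ CP b.m := fun F s => ⟨(F.2 s).c1.cont, (F.2 s).c1.g⟩
  set Δ : E b.m → ℝ := fun X => (P.1 true X - P.1 false X) / 2 with hΔ
  have hD : (fun (_ : Bool) X => |Δ X|) ∈ CP b.m := fun _ => by
    refine ⟨(((hc P true).1.sub (hc P false).1).div_const 2).abs, ?_⟩
    obtain ⟨K, j, h⟩ := (hc P true).2.sub (hc P false).2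
    refine ⟨K, j, fun X => le_trans ?_ (h X)⟩
    simp only [hΔ, abs_abs, abs_div, abs_two]
    linarith [abs_nonneg (P.1 true X - P.1 false X)]
  have h0 := (M1.ex_eq b 0 hD).1
  refine ⟨2 * ∫ X, M1.wX b 0 X * ∑ s, hb (fld b 0 X) s * |Δ X|, fun ξ => ?_⟩
  rw [← c.psi_ex]
  change |ex b ξ (psi b ξ P).1| ≤ _
  rw [(M1.ex_eq b ξ (hc _)).2, mul_right_comm, ← integral_const_mul, ← Real.norm_eq_abs]
  refine norm_integral_le_of_norm_le (h0.const_mul _) (ae_of_all _ fun X => ?_)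
  have e : ∀ s, (psi b ξ P).1 s X = (1 - tanh (fld b ξ X) ^ 2) * Δ X := fun s => by
    change 1 / 2 * ((1 - tanh (fld b ξ X) ^ 2) * sg s) * (P.1 s X - P.1 (!s) X) = _
    cases s <;> simp only [sg, hΔ, Bool.false_eq_true, if_false, if_true, Bool.not_true,
      Bool.not_false] <;> ring
  have h1 : 0 ≤ 1 - tanh (fld b ξ X) ^ 2 := (sub_pos.2 (tanh_sq_lt_one _)).le
  simp only [e, ← Finset.sum_mul, Fintype.sum_bool, hb_sum, one_mul, Real.norm_eq_abs]
  rw [← mul_assoc, abs_mul, abs_of_nonneg (mul_nonneg (M1.wX_nonneg b ξ X) h1), ← mul_assoc]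
  exact mul_le_mul_of_nonneg_right (w_le b ξ X) (abs_nonneg _)

end Fam29

open Fam29

theorem famGlue : FamGlue := fun c _ =>
  { le := le
    ex := fun b _ hF => cb_ex b hF
    d0 := d0 c
    d1 := d1 c
    fl0 := fl0 c
    fl1 := fl1 c
    gen := fun b F hF => ⟨add_mem (rs1 c b hF.1) (ou1 c b hF.1), odd_iff.2 fun ξ => by
        simp only [Tw.gen, LinearMap.add_apply, map_add, rho_rs, rho_ou, odd_iff.1 hF.2.1 ξ,
          map_neg, neg_add],
      fun ξ => by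
        have h := c.l0 b ξ (F ξ) 1
        rw [one_mul, c.En] at h
        simpa [c.done, rs_apply] using h⟩
    pull := fun e D F hF => ⟨le e.bt (hom (Tw.pull e.ι) id (g0_cases
        (by simp only [AlgHom.commutes]; exact th_mem) s_mem fun i => by
          have : (fun _ : ℝ => Tw.pull e.ι (xS i)) = ∑ j, e.ι j i • fun _ => xS j := by
            funext ξ
            simp only [c.p_x, Finset.sum_apply]
            rfl
          exact this ▸ sum_mem fun j _ => (N0 _).smul_mem (x_mem j) _) F hF.1),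
      fun ξ s X => by
        have := hF.2.1 ξ s (mv e.ιᵀ X)
        rwa [← map_neg] at this,
      fun ξ => (c.p_ex e ξ _).trans (hF.2.2.1 ξ)⟩
    ex0 := fun b F hF => by
      rw [show (fun ξ => algebraMap ℝ (SV b.m) (exS b ξ (F ξ))) = fun ξ =>
        algebraMap ℝ (SV b.m) (exS b 0 (F ξ)) + algebraMap ℝ (SV b.m) (tanh ξ) *
          algebraMap ℝ (SV b.m) (exS b 0 (sS _ * F ξ)) from
        funext fun ξ => by rw [c.aff b ξ (F ξ), map_add, map_mul]]
      exact add_mem (fn_mem hF (exS b 0))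
        (mul_mem th_mem (fn_mem hF (exS b 0 ∘ₗ LinearMap.mul ℝ _ (sS _))))
    N := fun b F hF G hG => by
      simp only [c.N]
      exact (cb_ex b (mul_mem hF hG)).sub ((cb_ex b hF).mul (cb_ex b hG))
    En := fun b F hF G hG => by
      simp only [c.En]
      exact (cb_ex b (mul_mem (rs1 c b hF) (rs1 c b hG))).add (CB.sum _ fun i => CB.sum _ fun j =>
        (CB.const _).mul (cb_ex b (mul_mem (d1 c b i F hF) (d1 c b j G hG))))
    cst := cst
    refl := fun m => ⟨rho m, rho_apply, fun _ _ => rho_pol, hom (rho m) Neg.neg rho_g0,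
      fun A g hA ξ F G => by
        refine ⟨ex_rho ⟨m, A, g, hA⟩ ξ F, ?_, ?_⟩
        · rw [c.N, c.N, ← map_mul, ex_rho, ex_rho, ex_rho]
        · rw [c.En, c.En]
          have h1 : ∀ H, rsS ⟨m, A, g, hA⟩ (-ξ) (rho m H) = rho m (rsS ⟨m, A, g, hA⟩ ξ H) :=
            fun H => by rw [← rho_rs ⟨m, A, g, hA⟩, neg_neg]
          have h2 : ∀ i j, dd i (rho m F) * dd j (rho m G) = rho m (dd i F * dd j G) :=
            fun i j => by rw [map_mul, rho_d, rho_d]; ring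
          simp only [h1, h2, ← map_mul, ex_rho ⟨m, A, g, hA⟩]⟩
    rel := rel c }

theorem wsStmt : WsStmt := by
  intro c hc hs η hη
  obtain ⟨R, hR0, hR⟩ := hs.exists_pos_le_norm
  have ha : tanh R < 1 := tanh_lt_one R
  have hm : StrictMono tanh := fun x y h => by
    rw [← artanh_lt_artanh_iff ⟨neg_one_lt_tanh x, tanh_lt_one x⟩
      ⟨neg_one_lt_tanh y, tanh_lt_one y⟩, artanh_tanh, artanh_tanh]
    exact h
  set cl : ℝ → ℝ := fun t => max (-tanh R) (min t (tanh R)) with hcl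
  have hcc : Continuous cl := by fun_prop
  have hc1 : ∀ t, -1 < cl t ∧ cl t < 1 := fun t =>
    ⟨lt_max_of_lt_left (by linarith), max_lt (by linarith [neg_one_lt_tanh R])
      ((min_le_right _ _).trans_lt ha)⟩
  have hart : Continuous fun t => artanh (cl t) := by
    have e : (fun t => artanh (cl t)) = fun t => 1 / 2 * log ((1 + cl t) / (1 - cl t)) :=
      funext fun t => artanh_eq_half_log ⟨(hc1 t).1.le, (hc1 t).2.le⟩
    rw [e]
    refine continuous_const.mul (Continuous.log (Continuous.div (by fun_prop) (by fun_prop)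
      fun t => (sub_pos.2 (hc1 t).2).ne') fun t => (div_pos ?_ (sub_pos.2 (hc1 t).2)).ne')
    linarith [(hc1 t).1]
  obtain ⟨p, hp⟩ := exists_polynomial_near_of_continuousOn (-1) 1 (fun t => c (artanh (cl t)))
    (hc.comp hart).continuousOn η hη
  refine ⟨p, fun ξ => ?_⟩
  have e : c (artanh (cl (tanh ξ))) = c ξ := by
    have h0 : -tanh R ≤ tanh R := by
      rw [← tanh_neg]
      exact hm.monotone (by linarith)
    rcases le_total R ξ with h | h
    · rw [hcl]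
      simp only
      rw [min_eq_right (hm.monotone h), max_eq_right h0, artanh_tanh,
        hR R (by rw [Real.norm_eq_abs, abs_of_pos hR0]), hR ξ (h.trans (le_abs_self ξ))]
    · rcases le_total ξ (-R) with h' | h'
      · have h1 : tanh ξ ≤ -tanh R := by
          rw [← tanh_neg]
          exact hm.monotone h'
        rw [hcl]
        simp only
        rw [max_eq_left ((min_le_left _ _).trans h1), ← tanh_neg, artanh_tanh,
          hR (-R) (by rw [Real.norm_eq_abs, abs_neg, abs_of_pos hR0]),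
          hR ξ (le_trans (by linarith) (neg_le_abs ξ))]
      · have h1 : -tanh R ≤ tanh ξ := by
          rw [← tanh_neg]
          exact hm.monotone h'
        rw [hcl]
        simp only
        rw [min_eq_left (hm.monotone h), max_eq_right h1, artanh_tanh]
  have := hp (tanh ξ) ⟨(neg_one_lt_tanh ξ).le, (tanh_lt_one ξ).le⟩
  rw [abs_sub_comm]
  simpa only [e] using this.le

end Crest.Agent.T157.Tw

end
end

-- ▼ part T157/LcFix_20
section

/-! Row 157, block B/S4b: one step at a fixed static field, (E1) and (E2) (helper20). -/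

set_option autoImplicit false

noncomputable section

namespace Crest.Agent.T157.Tw

open Real Matrix Finset

namespace Fix20

variable (c : Cal)
include c

section one
variable {b : Bath} {ξ : ℝ}

lemma sq_nn (F : SV b.m) : 0 ≤ exS b ξ (F * F) := c.pos b ξ _ fun s X => mul_self_nonneg (F.1 s X)

lemma sq_add (F G : SV b.m) :
    exS b ξ ((F + G) * (F + G)) ≤ 2 * exS b ξ (F * F) + 2 * exS b ξ (G * G) := by
  have h := sq_nn c (b := b) (ξ := ξ) (F - G)
  have e : (F + G) * (F + G) + (F - G) * (F - G) = (2 : ℝ) • (F * F) + (2 : ℝ) • (G * G) := by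
    simp only [two_smul]; ring
  have := congrArg (exS b ξ) e
  simp only [map_add, map_smul, smul_eq_mul] at this
  linarith

omit c in
lemma sq_smul (r : ℝ) (F : SV b.m) : exS b ξ (r • F * r • F) = r ^ 2 * exS b ξ (F * F) := by
  rw [smul_mul_smul_comm, map_smul, smul_eq_mul, sq]

lemma sq_sub (F G : SV b.m) (r : ℝ) :
    exS b ξ ((F - r • G) * (F - r • G)) ≤ 2 * exS b ξ (F * F) + 2 * (r ^ 2 * exS b ξ (G * G)) := by
  have := sq_add c (b := b) (ξ := ξ) F ((-r) • G)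
  rwa [sq_smul, neg_sq, neg_smul, ← sub_eq_add_neg] at this

lemma abs_ip (F G : SV b.m) : |exS b ξ (F * G)| ≤ (exS b ξ (F * F) + exS b ξ (G * G)) / 2 := by
  have h1 := sq_nn c (b := b) (ξ := ξ) (F - G)
  have h2 := sq_nn c (b := b) (ξ := ξ) (F + G)
  rw [show (F - G) * (F - G) = F * F + G * G - (F * G + F * G) by ring] at h1
  rw [show (F + G) * (F + G) = F * F + G * G + (F * G + F * G) by ring] at h2
  simp only [map_add, map_sub] at h1 h2
  rw [abs_le]; constructor <;> linarith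

/-- the gradient energy -/
lemma en_up (F : SV b.m) : (imS b ξ).En F F ≤
    exS b ξ (F * F) + (∑ i, ∑ j, |b.A i j|) * ∑ k, exS b ξ (dd k F * dd k F) := by
  rw [c.En, sum_mul]
  refine add_le_add (c.rs_le b ξ F) (sum_le_sum fun i _ => ?_)
  rw [sum_mul]
  refine sum_le_sum fun j _ => (le_abs_self _).trans ?_
  rw [abs_mul]
  refine mul_le_mul_of_nonneg_left ((abs_ip c _ _).trans ?_) (abs_nonneg _)
  have h := fun i => single_le_sum (f := fun k => exS b ξ (dd k F * dd k F))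
    (fun k _ => sq_nn c _) (mem_univ i)
  linarith [h i, h j]

lemma en_low {l : ℝ} (h : b.Ge l) (F : SV b.m) :
    l * ∑ k, exS b ξ (dd k F * dd k F) ≤ (imS b ξ).En F F := by
  have p := c.pos b ξ (∑ i, ∑ j, b.A i j • (dd i F * dd j F) - l • ∑ k, dd k F * dd k F) fun s X => by
    have := h fun i => (dd i F).1 s X
    simp only [dotProduct, mulVec, mul_sum] at this
    simp only [AddSubgroupClass.coe_sub, AddSubmonoidClass.coe_finsetSum, SetLike.val_smul,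
      MulMemClass.coe_mul, Pi.sub_apply, Finset.sum_apply, Pi.smul_apply, Pi.mul_apply, smul_eq_mul,
      mul_sum, sub_nonneg]
    refine this.trans_eq (sum_congr rfl fun i _ => sum_congr rfl fun j _ => by ring)
  simp only [map_sub, map_sum, map_smul, smul_eq_mul] at p
  rw [c.En]
  linarith [sq_nn c (b := b) (ξ := ξ) (rsS b ξ F)]

lemma en_one (F : SV b.m) : (imS b ξ).En 1 F = 0 := by
  have : rsS b ξ 1 = 0 := by simp [rsS]
  simp [c.En, this, c.done]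

lemma psi_le' (F : SV b.m) : exS b ξ (psi b ξ F * psi b ξ F) ≤ exS b ξ (F * F) :=
  (c.psi_le b ξ F).trans (c.rs_le b ξ F)

variable (p : PolApi)
include p

lemma orth_d {D : ℕ} {G : SV b.m} (h : ∀ q ∈ PolS b.m (D + 1), exS b ξ (G * q) = 0) (j : Fin b.m) :
    ∀ q ∈ PolS b.m D, exS b ξ (dd j G * q) = 0 := fun q hq => by
  have h1 := c.stein b ξ j (G * q)
  have h2 := h (zS b j * q) (by
    rw [zS, sub_mul, smul_mul_assoc]
    exact sub_mem (p.x j hq) (Submodule.smul_mem _ _ (p.mono _ (Nat.le_succ D) (p.s hq))))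
  have h3 := h (dd j q) (p.d j (p.mono _ (by omega) hq))
  rw [c.dmul, map_add, h3, mul_left_comm, h2] at h1
  linarith

lemma pyth {D : ℕ} {G H : SV b.m} (h : ∀ q ∈ PolS b.m D, exS b ξ (G * q) = 0)
    (hH : G - H ∈ PolS b.m D) : (D + 1) * exS b ξ (G * G) ≤ ∑ k, exS b ξ (dd k H * dd k H) := by
  refine (p.p2 b ξ D G h).trans (sum_le_sum fun k _ => ?_)
  have h0 : exS b ξ (dd k G * dd k (G - H)) = 0 := by
    cases D with
    | zero => rw [p.d0 k hH, mul_zero, map_zero]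
    | succ D => exact orth_d c p h k _ (p.d k hH)
  have h1 := sq_nn c (b := b) (ξ := ξ) (dd k (G - H))
  have e : dd k H * dd k H = dd k G * dd k G + dd k (G - H) * dd k (G - H) -
      (dd k G * dd k (G - H) + dd k G * dd k (G - H)) := by rw [map_sub]; ring
  rw [e]
  simp only [map_add, map_sub (exS b ξ), h0]
  linarith

end one

section prod
variable {b : Bath} {ξ : ℝ}

/-- derivative in the direction `w` -/
def Dw {m : ℕ} (w : Fin m → ℝ) (F : SV m) : SV m := ∑ j, w j • dd j F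

lemma Dw_mul {m : ℕ} (w : Fin m → ℝ) (F G : SV m) : Dw w (F * G) = Dw w F * G + F * Dw w G := by
  simp only [Dw, c.dmul, smul_add, sum_add_distrib, sum_mul, mul_sum, smul_mul_assoc, mul_smul_comm]

lemma Dw_d {m : ℕ} (w : Fin m → ℝ) (i : Fin m) (F : SV m) : Dw w (dd i F) = dd i (Dw w F) := by
  simp only [Dw, map_sum, map_smul, c.dcomm i]

lemma d_lin {m : ℕ} (w : Fin m → ℝ) (j : Fin m) : dd j (linS m w) = w j • 1 := by
  simp only [linS, emb_apply, map_sum, map_smul, c.dx, smul_ite, smul_zero, sum_ite_eq', mem_univ,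
    if_true]

lemma Dw_lin {m : ℕ} (w w' : Fin m → ℝ) : Dw w (linS m w') = (w ⬝ᵥ w') • 1 := by
  simp only [Dw, d_lin c, smul_smul, ← sum_smul, dotProduct]

lemma Dw_pull {m k : ℕ} {ι : Matrix (Fin k) (Fin m) ℝ} {w : Fin k → ℝ} (h : ιᵀ *ᵥ w = 0) (F : SV m) :
    Dw w (pull ι F) = 0 := by
  simp only [Dw, c.p_d, smul_sum, smul_smul]
  rw [sum_comm]
  refine sum_eq_zero fun i _ => ?_
  have := congrFun h i
  simp only [mulVec, dotProduct, transpose_apply, Pi.zero_apply] at this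
  rw [← sum_smul, show ∑ j, w j * ι j i = 0 by simpa only [mul_comm] using this, zero_smul]

lemma ex_lin {w : Fin b.m → ℝ} (hw : w ⬝ᵥ b.g = 0) (F : SV b.m) :
    exS b ξ (linS _ w * F) = exS b ξ (Dw w F) := by
  have e : linS _ w = ∑ j, w j • zS b j := by
    simp only [zS, smul_sub, sum_sub_distrib, smul_smul, ← sum_smul]
    rw [show ∑ j, w j * b.g j = 0 from hw, zero_smul, sub_zero, linS, emb_apply]
  simp only [e, Dw, sum_mul, smul_mul_assoc, map_sum, map_smul, c.stein]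

lemma ex_lin2 {w : Fin b.m → ℝ} (hw : w ⬝ᵥ b.g = 0) (w' : Fin b.m → ℝ) {F : SV b.m} (h : Dw w F = 0) :
    exS b ξ (linS _ w * (F * linS _ w')) = w ⬝ᵥ w' * exS b ξ F := by
  rw [ex_lin c hw, Dw_mul c, h, Dw_lin c, zero_mul, zero_add, mul_smul_comm, mul_one, map_smul,
    smul_eq_mul]

omit c in
lemma rs_lin (F : SV b.m) (w : Fin b.m → ℝ) : rsS b ξ (F * linS _ w) = rsS b ξ F * linS _ w := by
  have e : fl _ (linS b.m w) = linS _ w := by
    simp only [linS, emb_apply, map_sum, map_smul]; rfl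
  simp only [rsS, LinearMap.comp_apply, LinearMap.sub_apply, LinearMap.id_apply,
    AlgHom.toLinearMap_apply, map_mul, e, LinearMap.mul_apply']
  ring

end prod

omit c in
lemma w_orth (e : Ext) (u : Fin e.b.m → ℝ) : e.ιᵀ *ᵥ e.w u = 0 := by
  rw [Ext.w, mulVec_sub, mulVec_mulVec, mulVec_mulVec, mulVec_mulVec, ← e.hA, e.iso, one_mulVec,
    sub_self]

omit c in
lemma w_g (e : Ext) {w : Fin e.bt.m → ℝ} (h : e.ιᵀ *ᵥ w = 0) : w ⬝ᵥ e.bt.g = 0 := by
  rw [e.hg, dotProduct_mulVec, ← mulVec_transpose, h, zero_dotProduct]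

/-- the form `r N + En` -/
def Bf (b : Bath) (ξ r : ℝ) : SV b.m →ₗ[ℝ] SV b.m →ₗ[ℝ] ℝ := r • (imS b ξ).N + (imS b ξ).En

omit c in
lemma Mf_eq (b : Bath) (ξ r : ℝ) (F : SV b.m) : Mf b ξ r F = Bf b ξ r F F := rfl

/-- **product formula** -/
lemma prod (e : Ext) (ξ r : ℝ) {w w' : Fin e.bt.m → ℝ} (h : e.ιᵀ *ᵥ w = 0) (h' : e.ιᵀ *ᵥ w' = 0)
    (F G : SV e.b.m) : Bf e.bt ξ r (pull e.ι F * linS _ w) (pull e.ι G * linS _ w') =
      (r * (w ⬝ᵥ w') + w ⬝ᵥ e.bt.A *ᵥ w') * exS e.b ξ (F * G) + w ⬝ᵥ w' * (imS e.b ξ).En F G := by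
  have g := w_g e h
  have g' := w_g e h'
  have z : ∀ {v}, e.ιᵀ *ᵥ v = 0 → ∀ H : SV e.bt.m, Dw v H = 0 → exS e.bt ξ (linS _ v * H) = 0 :=
    fun hv H hH => by rw [ex_lin c (w_g e hv), hH, map_zero]
  have t : ∀ H K : SV e.bt.m, Dw w H = 0 → Dw w K = 0 →
      exS e.bt ξ (H * linS _ w * (K * linS _ w')) = w ⬝ᵥ w' * exS e.bt ξ (H * K) := fun H K hH hK => by
    rw [← ex_lin2 c g w' (F := H * K) (by rw [Dw_mul c, hH, hK, zero_mul, mul_zero, add_zero])]
    congr 1; ring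
  have dp : ∀ {v}, e.ιᵀ *ᵥ v = 0 → ∀ i (H : SV e.b.m), Dw v (dd i (pull e.ι H)) = 0 :=
    fun hv i H => by rw [Dw_d c, Dw_pull c hv, map_zero]
  have n : (imS e.bt ξ).N (pull e.ι F * linS _ w) (pull e.ι G * linS _ w') =
      w ⬝ᵥ w' * exS e.b ξ (F * G) := by
    rw [c.N, t _ _ (Dw_pull c h F) (Dw_pull c h G), mul_comm (pull e.ι F) (linS _ w),
      z h _ (Dw_pull c h F), zero_mul, sub_zero, ← map_mul, c.p_ex]
  have d : ∀ i j, exS e.bt ξ (dd i (pull e.ι F * linS _ w) * dd j (pull e.ι G * linS _ w')) =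
      w ⬝ᵥ w' * exS e.bt ξ (dd i (pull e.ι F) * dd j (pull e.ι G)) + w i * w' j * exS e.b ξ (F * G) := by
    intro i j
    have z1 := z h (dd i (pull e.ι F) * pull e.ι G)
      (by rw [Dw_mul c, dp h, Dw_pull c h, zero_mul, mul_zero, add_zero])
    have z2 := z h' (pull e.ι F * dd j (pull e.ι G))
      (by rw [Dw_mul c, dp h', Dw_pull c h', zero_mul, mul_zero, add_zero])
    have x : dd i (pull e.ι F * linS _ w) * dd j (pull e.ι G * linS _ w') =
        dd i (pull e.ι F) * linS _ w * (dd j (pull e.ι G) * linS _ w') +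
        w' j • (linS _ w * (dd i (pull e.ι F) * pull e.ι G)) +
        w i • (linS _ w' * (pull e.ι F * dd j (pull e.ι G))) + (w i * w' j) • pull e.ι (F * G) := by
      simp only [c.dmul, d_lin c, map_mul, Algebra.smul_def, map_mul]; ring
    rw [x]
    simp only [map_add, map_smul, z1, z2, t _ _ (dp h i F) (dp h j G), c.p_ex, smul_eq_mul]
    ring
  have en : (imS e.bt ξ).En (pull e.ι F * linS _ w) (pull e.ι G * linS _ w') =
      w ⬝ᵥ w' * (imS e.b ξ).En F G + w ⬝ᵥ e.bt.A *ᵥ w' * exS e.b ξ (F * G) := by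
    rw [← c.p_En, c.En, c.En, rs_lin, rs_lin, t _ _ (by rw [c.p_rs, Dw_pull c h])
      (by rw [c.p_rs, Dw_pull c h])]
    generalize w ⬝ᵥ w' = σ at d
    simp only [d, mul_add, sum_add_distrib, mul_sum, dotProduct, mulVec, sum_mul, add_assoc]
    congr 2 <;> exact sum_congr rfl fun i _ => sum_congr rfl fun j _ => by ring
  change r * _ + _ = _
  rw [n, en]; ring

omit c in
lemma w_sum (e : Ext) (u : Fin e.b.m → ℝ) : ∑ i, u i • e.w (Pi.single i 1) = e.w u := by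
  have : u = ∑ i, u i • (Pi.single i 1 : Fin e.b.m → ℝ) := by
    ext j; simp [Finset.sum_apply, Pi.single_apply]
  conv_rhs => rw [this]
  simp only [Ext.w, mulVec_sum, mulVec_smul, smul_sub, sum_sub_distrib]

omit c in
lemma U_le {b : Bath} {l y μ c0 : ℝ} (h : b.Ge l) (hc : 0 < c0) (hy : c0 ≤ y + l)
    {U : Fin b.m → ℝ} (hU : b.A *ᵥ U + (y + μ) • U = b.g) : μ * (U ⬝ᵥ U) ≤ b.g ⬝ᵥ b.g / (4 * c0) := by
  have h1 := h U
  have h2 := congrArg (U ⬝ᵥ ·) hU
  simp only [dotProduct_add, dotProduct_smul, smul_eq_mul] at h2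
  have h3 := dot_nonneg ((2 * c0) • U - b.g)
  simp only [sub_dotProduct, dotProduct_sub, dotProduct_smul, smul_dotProduct, smul_eq_mul,
    dotProduct_comm b.g U] at h3
  have h4 := mul_le_mul_of_nonneg_right hy (dot_nonneg U)
  rw [le_div_iff₀ (by positivity)]
  nlinarith

omit c in
lemma num1 {y l a c0 N En t σ K : ℝ} (ha : 0 ≤ a) (hy : -a ≤ y) (c0p : 0 < c0) (cy : c0 ≤ y + l)
    (hK : K = 1 + a / c0) (N0 : 0 ≤ N) (En0 : 0 ≤ En) (s1 : σ ≤ 1) (g1 : y * N + En = t)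
    (g2 : l * N ≤ En) (g3 : 0 ≤ (y + l) * ((y + l) * N - t) - ((y + l) * t - σ)) :
    (y + l) * N ≤ 1 / c0 ∧ (y + l) * En ≤ K ∧ En ≤ K / c0 ∧ N ≤ 1 / c0 ^ 2 := by
  have c1 := c0p.le.trans cy
  have k0 := mul_le_mul_of_nonneg_left (show (y + l) * N ≤ t by linarith) c1
  have k1 : (y + l) * t ≤ 1 := by linarith
  have k2 := mul_le_mul_of_nonneg_right cy (mul_nonneg c1 N0)
  have k3 : (y + l) * N ≤ 1 / c0 := by rw [le_div_iff₀ c0p]; linarith
  have k4 : (y + l) * En ≤ K := by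
    have h1 := mul_le_mul_of_nonneg_left k3 ha
    have h2 := mul_le_mul_of_nonneg_right hy (mul_nonneg c1 N0)
    have h3 : (y + l) * En = (y + l) * t - y * ((y + l) * N) := by rw [← g1]; ring
    rw [hK, div_eq_mul_one_div a]
    linarith
  refine ⟨k3, k4, ?_, ?_⟩
  · rw [le_div_iff₀ c0p]; linarith [mul_le_mul_of_nonneg_left cy En0]
  · rw [le_div_iff₀ (by positivity)]
    linarith [mul_le_mul_of_nonneg_left (mul_le_mul_of_nonneg_right cy N0) c0p.le]

omit c in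
lemma num2 {x l c0 N En K D γ2 α G1 R S T m E : ℝ} (l0 : 0 < l) (c0p : 0 < c0) (cy : c0 ≤ x)
    (K0 : 0 ≤ K) (D0 : 0 ≤ D) (γ0 : 0 ≤ γ2) (α0 : 0 ≤ α) (R0 : 0 ≤ R) (k3 : x * N ≤ 1 / c0)
    (k4 : x * En ≤ K) (k5 : En ≤ K / c0) (k6 : N ≤ 1 / c0 ^ 2) (k7 : G1 ≤ En / l)
    (k8 : T ≤ γ2 / (4 * c0) * (K / c0) / l) (p1 : (D + 1 + 1) * R ≤ 2 * G1 + 2 * (γ2 * N))
    (p3 : (D + 1) * S ≤ 4 * T + 8 * (γ2 * G1) + 16 * (γ2 * (γ2 * N))) (up : E ≤ R + α * S) :
    (x * (R - m * m) + E) * (D + 1) ≤ (1 + 1 / c0) * (2 * K / l + 2 * γ2 / c0) +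
      α * (4 * (γ2 / (4 * c0) * (K / c0) / l) + 12 * γ2 * (K / c0 / l) + 32 * γ2 ^ 2 / c0 ^ 2) := by
  have c1 := c0p.le.trans cy
  have f1 : x * ((D + 1) * R) ≤ 2 * K / l + 2 * γ2 / c0 := by
    have b1 : x * G1 ≤ K / l :=
      (mul_le_mul_of_nonneg_left k7 c1).trans (by
        rw [← mul_div_assoc]; exact div_le_div_of_nonneg_right k4 l0.le)
    have b2 := mul_le_mul_of_nonneg_left k3 γ0
    have b3 := mul_le_mul_of_nonneg_left (show (D + 1) * R ≤ 2 * G1 + 2 * (γ2 * N) by linarith) c1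
    rw [mul_div_assoc 2 K, div_eq_mul_one_div (2 * γ2)]
    linarith
  have f2 : (D + 1) * R ≤ 1 / c0 * (2 * K / l + 2 * γ2 / c0) := by
    rw [one_div_mul_eq_div, le_div_iff₀ c0p]
    linarith [mul_le_mul_of_nonneg_right cy (show 0 ≤ (D + 1) * R by positivity)]
  have f3 : (D + 1) * S ≤
      4 * (γ2 / (4 * c0) * (K / c0) / l) + 12 * γ2 * (K / c0 / l) + 32 * γ2 ^ 2 / c0 ^ 2 := by
    have b1 := mul_le_mul_of_nonneg_left (k7.trans (div_le_div_of_nonneg_right k5 l0.le)) γ0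
    have b2 := mul_le_mul_of_nonneg_left k6 (mul_nonneg γ0 γ0)
    have b3 : 0 ≤ γ2 * (K / c0 / l) := by positivity
    have b4 : 0 ≤ γ2 * γ2 * (1 / c0 ^ 2) := by positivity
    rw [div_eq_mul_one_div (32 * _)]
    linarith
  have f4 := mul_le_mul_of_nonneg_left f3 α0
  have f5 := mul_le_mul_of_nonneg_left up (show 0 ≤ D + 1 by positivity)
  have f6 := mul_nonneg (mul_nonneg c1 (show 0 ≤ D + 1 by positivity)) (mul_self_nonneg m)
  linarith

end Fix20

set_option maxHeartbeats 800000 in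
open Fix20 in
theorem fixGlue : FixGlue := by
  intro c p sp e l a ha hal co
  have l0 : 0 < l := by linarith
  obtain ⟨c0, hc0, c0p⟩ : ∃ c0, c0 = l - a ∧ 0 < c0 := ⟨_, rfl, by linarith⟩
  obtain ⟨γ2, hγ, γ0⟩ : ∃ γ2, γ2 = e.b.g ⬝ᵥ e.b.g ∧ 0 ≤ γ2 := ⟨_, rfl, dot_nonneg _⟩
  obtain ⟨α, hα, α0⟩ : ∃ α, α = ∑ i, ∑ j, |e.b.A i j| ∧ 0 ≤ α := ⟨_, rfl, by positivity⟩
  obtain ⟨K, hK, K0⟩ : ∃ K, K = 1 + a / c0 ∧ 0 ≤ K := ⟨_, rfl, by positivity⟩
  refine ⟨(1 + 1 / c0) * (2 * K / l + 2 * γ2 / c0) +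
    α * (4 * (γ2 / (4 * c0) * (K / c0) / l) + 12 * γ2 * (K / c0 / l) + 32 * γ2 ^ 2 / c0 ^ 2),
    by positivity, fun D hD ξ y hy φ hφ η hη u hu => ?_⟩
  obtain ⟨D, rfl⟩ : ∃ D', D = D' + 1 := ⟨D - 1, by omega⟩
  obtain ⟨orth, n, f, μ, ψ, U, hf, hon, hd, hb⟩ := sp e.b l co D ξ y (by linarith) φ hφ u hu
  have ok := c.ok e.b ξ
  set γ := (imS e.b ξ).En (sS _) φ with hγd
  set En := (imS e.b ξ).En φ φ with hEn
  have cy : c0 ≤ y + l := by linarith
  have η0 : 0 ≤ η := by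
    obtain ⟨r, hr⟩ := solve e.b co.1 (a := -(y + l)) (by linarith) e.b.g
    refine le_trans ?_ (hη _ le_rfl r (by rw [hr, neg_smul, neg_add_cancel_right]))
    exact add_nonneg (mul_nonneg (by linarith) (dot_nonneg _))
      (by simpa using e.bt.psd.dotProduct_mulVec_nonneg (e.w r))
  refine ⟨fun j => by
    simp only [hd, map_add, map_sum, map_smul, (hf _).2.1, mul_zero, sum_const_zero, add_zero,
      Algebra.algebraMap_eq_smul_one, c.ex1, smul_eq_mul, mul_one], ?_⟩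
  set r := y • φ + gen e.b ξ φ - stS _ ξ with hr
  set r2 := ∑ i, ψ i • (pull e.ι (f i) * linS _ (e.w (U i))) with hr2
  have m2 : Mf e.bt ξ (y + l) r2 ≤ En * η := by
    have : Mf e.bt ξ (y + l) r2 = ∑ i, ψ i ^ 2 * e.res (y + μ i + l) (U i) := by
      simp only [Mf_eq, hr2, map_sum, map_smul, LinearMap.sum_apply, LinearMap.smul_apply,
        smul_eq_mul, prod c e ξ _ (w_orth e _) (w_orth e _), hon, mul_ite, mul_one, mul_zero,
        ite_add_ite, add_zero, sum_ite_eq', mem_univ, if_true]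
      exact sum_congr rfl fun i _ => by rw [Ext.res]; ring
    rw [this]
    refine (sum_le_sum fun i _ => mul_le_mul_of_nonneg_left
      (hη (y + μ i) (by linarith [(hf i).2.2.1]) _ (hf i).2.2.2) (sq_nonneg _)).trans ?_
    rw [← sum_mul]
    exact mul_le_mul_of_nonneg_right (by linarith [sq_nonneg γ]) η0
  refine ⟨pull e.ι r, r2, ?_, ?_, m2, ?_⟩
  · have e1 : pull e.ι (stS _ ξ) = stS _ ξ := rfl
    rw [c.p_gen, hr, map_sub, map_add, map_smul, e1, hr2]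
    simp only [hd, map_add, map_sum, map_smul, Algebra.algebraMap_eq_smul_one, map_one, add_mul,
      sum_mul, smul_mul_assoc, one_mul, sum_add_distrib, mul_smul]
    rw [← w_sum e u, sum_comm]
    simp only [← fun i => w_sum e (U i), map_sum, map_smul, smul_sum, mul_sum, mul_smul_comm]
    abel
  · -- (E1)
    set N := exS e.b ξ (φ * φ) with hN
    have N0 : 0 ≤ N := sq_nn c φ
    have eN : (imS e.b ξ).N φ φ = N := by rw [c.N, hφ.2.1, mul_zero, sub_zero]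
    have g1 := hφ.2.2 φ hφ.1
    have g2 := co.2 ξ _ φ hφ.1
    have g3 := ok.pN ((y + l) • φ - sS _)
    simp only [map_sub, map_smul, LinearMap.sub_apply, LinearMap.smul_apply, smul_eq_mul, c.Ns,
      ok.sN φ (sS _)] at g3
    rw [eN] at g1 g2 g3
    rw [← hEn] at g1 g2
    obtain ⟨k3, k4, k5, k6⟩ := num1 ha hy c0p cy hK N0 (ok.pE φ) (sech2_le ξ) g1 g2 g3
    set G1 := ∑ k, exS e.b ξ (dd k φ * dd k φ) with hG1
    have k7 : G1 ≤ En / l := by rw [le_div_iff₀ l0, mul_comm]; exact en_low c co.1 φ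
    have gg : ∑ k, e.b.g k ^ 2 = γ2 := by simp only [hγ, dotProduct, sq]
    have k8 : ∑ j, ∑ k, exS e.b ξ (dd k (dd j φ) * dd k (dd j φ)) ≤ γ2 / (4 * c0) * (K / c0) / l := by
      rw [le_div_iff₀ l0, mul_comm, mul_sum]
      refine (sum_le_sum fun j _ => en_low c co.1 (dd j φ)).trans ?_
      have : ∀ j, (imS e.b ξ).En (dd j φ) (dd j φ) = ∑ i, ψ i ^ 2 * (μ i * (U i j * U i j)) := fun j => by
        simp only [hd, map_add, map_sum, map_smul, LinearMap.add_apply, LinearMap.sum_apply,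
          LinearMap.smul_apply, smul_eq_mul, Algebra.algebraMap_eq_smul_one, en_one c,
          ok.sE _ (1 : SV e.b.m), hon, mul_ite, mul_zero, sum_ite_eq', mem_univ, if_true,
          zero_add, sum_const_zero]
        exact sum_congr rfl fun i _ => by ring
      simp only [this]
      rw [sum_comm]
      simp only [← mul_sum]
      refine (sum_le_sum fun i _ => mul_le_mul_of_nonneg_left
        (U_le co.1 c0p cy (hf i).2.2.2) (sq_nonneg _)).trans ?_
      rw [← sum_mul, ← hγ, mul_comm]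
      exact mul_le_mul_of_nonneg_left (by linarith [sq_nonneg γ]) (by positivity)
    have mem : r - rsS e.b ξ φ ∈ PolS e.b.m (D + 1) := by
      have : r - rsS e.b ξ φ = y • φ + ouS e.b φ - (sS _ * 1 - tanh ξ • 1) := by
        rw [hr, gen, LinearMap.add_apply, stS, Algebra.algebraMap_eq_smul_one, mul_one]; abel
      rw [this]
      exact sub_mem (add_mem (Submodule.smul_mem _ _ hφ.1) (p.ou _ hφ.1))
        (sub_mem (p.s (p.one _ _)) (Submodule.smul_mem _ _ (p.one _ _)))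
    have p1 := pyth c p orth mem
    have p2 := fun j => pyth c p (orth_d c p orth j) (H := dd j (rsS e.b ξ φ))
      (by rw [← map_sub]; exact p.d j mem)
    have q1 : ∑ k, exS e.b ξ (dd k (rsS e.b ξ φ) * dd k (rsS e.b ξ φ)) ≤ 2 * G1 + 2 * (γ2 * N) := by
      rw [← gg, hG1, sum_mul, mul_sum, mul_sum, ← sum_add_distrib]
      refine sum_le_sum fun k _ => ?_
      rw [c.drs]
      refine (sq_sub c _ _ _).trans ?_
      have := mul_le_mul_of_nonneg_left (psi_le' c (ξ := ξ) φ) (sq_nonneg (e.b.g k))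
      linarith [c.rs_le e.b ξ (dd k φ)]
    have q2 : ∑ j, ∑ k, exS e.b ξ (dd k (dd j (rsS e.b ξ φ)) * dd k (dd j (rsS e.b ξ φ))) ≤
        4 * ∑ j, ∑ k, exS e.b ξ (dd k (dd j φ) * dd k (dd j φ)) + 8 * (γ2 * G1) +
          16 * (γ2 * (γ2 * N)) := by
      have : ∀ j k, exS e.b ξ (dd k (dd j (rsS e.b ξ φ)) * dd k (dd j (rsS e.b ξ φ))) ≤
          4 * exS e.b ξ (dd k (dd j φ) * dd k (dd j φ)) +
          4 * (e.b.g k ^ 2 * exS e.b ξ (dd j φ * dd j φ)) +
          4 * (e.b.g j ^ 2 * exS e.b ξ (dd k φ * dd k φ)) +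
          16 * (e.b.g j ^ 2 * (e.b.g k ^ 2 * N)) := fun j k => by
        rw [c.drs, map_sub, map_smul, c.drs, c.dpsi]
        refine (sq_sub c _ _ _).trans ?_
        have a1 := sq_sub c (ξ := ξ) (rsS e.b ξ (dd k (dd j φ))) (psi e.b ξ (dd j φ)) (e.b.g k)
        have a2 := mul_le_mul_of_nonneg_left (sq_sub c (ξ := ξ) (psi e.b ξ (dd k φ))
          (tS e.b ξ * psi e.b ξ φ) (2 * e.b.g k)) (sq_nonneg (e.b.g j))
        have a3 := c.rs_le e.b ξ (dd k (dd j φ))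
        have a4 := mul_le_mul_of_nonneg_left (psi_le' c (ξ := ξ) (dd j φ)) (sq_nonneg (e.b.g k))
        have a5 := mul_le_mul_of_nonneg_left (psi_le' c (ξ := ξ) (dd k φ)) (sq_nonneg (e.b.g j))
        have a6 := mul_le_mul_of_nonneg_left (mul_le_mul_of_nonneg_left
          ((c.t_le e.b ξ (psi e.b ξ φ)).trans (psi_le' c (ξ := ξ) φ)) (sq_nonneg (e.b.g k)))
          (sq_nonneg (e.b.g j))
        linarith
      refine (sum_le_sum fun j _ => sum_le_sum fun k _ => this j k).trans (le_of_eq ?_)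
      simp only [sum_add_distrib, ← mul_sum, ← sum_mul, gg, ← hG1]
      ring
    have R0 : 0 ≤ exS e.b ξ (r * r) := sq_nn c r
    have up := en_up c (ξ := ξ) r
    have p3 := (sum_le_sum fun j (_ : j ∈ univ) => p2 j).trans q2
    rw [← mul_sum] at p3
    rw [Mf, c.p_N, c.p_En, c.N, le_div_iff₀ (by positivity)]
    rw [← hα] at up
    push_cast at p1 ⊢
    exact num2 l0 c0p cy K0 (Nat.cast_nonneg D) γ0 α0 R0 k3 k4 k5 k6 k7 k8 (p1.trans q1) p3 up
  · have e1 : linS _ (e.w u) = pull e.ι 1 * linS _ (e.w u) := by rw [map_one, one_mul]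
    have z1 : Bf e.bt ξ (y + l) (linS _ (e.w u)) r2 = 0 := by
      rw [e1]
      simp only [hr2, map_sum, map_smul, prod c e ξ _ (w_orth e _) (w_orth e _), one_mul, (hf _).2.1,
        en_one c, mul_zero, add_zero, smul_zero, sum_const_zero]
    have z2 : Bf e.bt ξ (y + l) r2 (linS _ (e.w u)) = 0 := by
      rw [e1]
      simp only [hr2, map_sum, map_smul, LinearMap.sum_apply, LinearMap.smul_apply,
        prod c e ξ _ (w_orth e _) (w_orth e _), mul_one, (hf _).2.1, ok.sE _ (1 : SV e.b.m),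
        en_one c, mul_zero, add_zero, smul_zero, sum_const_zero]
    have z3 : Bf e.bt ξ (y + l) (linS _ (e.w u)) (linS _ (e.w u)) = e.res (y + l) u := by
      rw [e1, prod c e ξ _ (w_orth e _) (w_orth e _), en_one c, mul_one, c.ex1, Ext.res]; ring
    rw [Mf_eq] at m2 ⊢
    simp only [map_add, map_smul, LinearMap.add_apply, LinearMap.smul_apply, smul_eq_mul, z1, z2, z3]
    linarith

end Crest.Agent.T157.Tw
end
end

-- ▼ part T157/LcGal_44
section

/-!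
# Row 157, block B/S4c (helper44): Galerkin solutions and the response of degree `D`
-/

set_option autoImplicit false

noncomputable section

namespace Crest.Agent.T157.Tw

open MeasureTheory Real Matrix Set

namespace Gal44

lemma basis_of_fg {V : Type} [AddCommGroup V] [Module ℝ V] {S : Submodule ℝ V} (h : S.FG) :
    ∃ (n : ℕ) (e : Fin n → V), (∀ i, e i ∈ S) ∧ (∀ v : Fin n → ℝ, ∑ i, v i • e i = 0 → v = 0) ∧
      ∀ φ ψ : V →ₗ[ℝ] ℝ, (∀ i, φ (e i) = ψ (e i)) → ∀ P ∈ S, φ P = ψ P := by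
  haveI : Module.Finite ℝ S := Module.Finite.iff_fg.2 h
  have e := Module.finBasis ℝ S
  refine ⟨_, fun i => e i, fun i => (e i).2, fun v hv => funext
    (Fintype.linearIndependent_iff.1 e.linearIndependent v (Subtype.ext (by simpa using hv))),
    fun φ ψ H P hP => ?_⟩
  exact LinearMap.congr_fun (e.ext (f₁ := φ ∘ₗ S.subtype) (f₂ := ψ ∘ₗ S.subtype) H) ⟨P, hP⟩

variable (c : Cal) (p : PolApi) (f : FamApi) {b : Bath} {l y : ℝ} {D : ℕ}

/-- the form `y N + En + E ⊗ E` -/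
def Bf (b : Bath) (ξ y : ℝ) : SV b.m →ₗ[ℝ] SV b.m →ₗ[ℝ] ℝ :=
  y • (imS b ξ).N + (imS b ξ).En + (LinearMap.mul ℝ ℝ).compl₁₂ (exS b ξ) (exS b ξ)

lemma Bf_apply (ξ : ℝ) (F G : SV b.m) : Bf b ξ y F G =
    y * (imS b ξ).N F G + (imS b ξ).En F G + exS b ξ F * exS b ξ G := rfl

include c in
lemma mf_nonneg (h : Coer b l) (hy : -l < y) (ξ : ℝ) {F : SV b.m} (hF : F ∈ PolS b.m D) :
    0 ≤ Mf b ξ y F := by
  have h1 := h.2 ξ D F hF
  have h2 := (c.ok b ξ).pN F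
  unfold Mf
  nlinarith

include c in
lemma defn (h : Coer b l) (hy : -l < y) (ξ : ℝ) {F : SV b.m} (hF : F ∈ PolS b.m D)
    (h0 : Bf b ξ y F F = 0) : F = 0 := by
  have h1 := h.2 ξ D F hF
  have h2 := (c.ok b ξ).pN F
  have h3 := c.N b ξ F F
  have h4 := mul_self_nonneg (exS b ξ F)
  rw [Bf_apply] at h0
  have h5 : (imS b ξ).N F F = 0 :=
    le_antisymm (le_of_mul_le_mul_left (by nlinarith) (by linarith : 0 < y + l)) h2
  refine c.defn b ξ F ?_
  rw [h5] at h0 h1 h3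
  linarith

include c in
lemma N_one (ξ : ℝ) (F : SV b.m) : (imS b ξ).N F 1 = 0 := by
  rw [c.N, c.ex1, mul_one, mul_one, sub_self]

include c in
lemma En_one (ξ : ℝ) (F : SV b.m) : (imS b ξ).En F 1 = 0 := by
  have : rsS b ξ 1 = 0 := by simp [rsS]
  simp [c.En, this, c.done]

include p in
lemma s_mem (m D : ℕ) : sS m ∈ PolS m D := by simpa using p.s (p.one m D)

include f in
lemma cont {F G : SV b.m} (hF : F ∈ PolS b.m D) (hG : G ∈ PolS b.m D) :
    (Continuous fun ξ => (imS b ξ).N F G) ∧ (Continuous fun ξ => (imS b ξ).En F G) ∧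
      Continuous fun ξ => exS b ξ F :=
  have h1 := f.le b (f.cst hF)
  have h2 := f.le b (f.cst hG)
  ⟨(f.N b _ h1 _ h2).1, (f.En b _ h1 _ h2).1, (f.ex b _ h1).1⟩

include c p f in
theorem exi (h : Coer b l) (hy : -l < y) : ∃ (n : ℕ) (P : Fin n → SV b.m) (c : Fin n → ℝ → ℝ),
    (∀ i, P i ∈ PolS b.m D ∧ Continuous (c i)) ∧ ∀ ξ, Gal b ξ y D (∑ i, c i ξ • P i) := by
  obtain ⟨n, e, he, li, ext⟩ := basis_of_fg (p.fg b.m D)
  obtain ⟨M, hM⟩ : ∃ M : ℝ → Matrix (Fin n) (Fin n) ℝ, ∀ ξ i j, M ξ i j = Bf b ξ y (e j) (e i) :=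
    ⟨fun ξ => Matrix.of _, fun _ _ _ => rfl⟩
  have mem : ∀ v : Fin n → ℝ, ∑ i, v i • e i ∈ PolS b.m D := fun v =>
    sum_mem fun i _ => Submodule.smul_mem _ _ (he i)
  have row : ∀ ξ (v : Fin n → ℝ) i, (M ξ *ᵥ v) i = Bf b ξ y (∑ j, v j • e j) (e i) := by
    intro ξ v i
    simp [mulVec, dotProduct, hM, mul_comm]
  have cM : Continuous M := continuous_matrix fun i j => by
    simp only [hM, Bf_apply]
    exact ((continuous_const.mul (cont f (he j) (he i)).1).add (cont f (he j) (he i)).2.1).add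
      ((cont f (he j) (he i)).2.2.mul (cont f (he i) (he i)).2.2)
  have dM : ∀ ξ, (M ξ).det ≠ 0 := fun ξ h0 => by
    obtain ⟨v, hv, h1⟩ := exists_mulVec_eq_zero_iff.2 h0
    exact hv (li v (defn c h hy ξ (mem v) (ext _ 0 (fun i => by rw [← row, h1]; rfl) _ (mem v))))
  have cr : Continuous fun ξ i => (imS b ξ).N (sS _) (e i) :=
    continuous_pi fun i => (cont f (s_mem p _ D) (he i)).1
  obtain ⟨v, hv, cv⟩ : ∃ v : ℝ → Fin n → ℝ, (∀ ξ, M ξ *ᵥ v ξ = fun i => (imS b ξ).N (sS _) (e i)) ∧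
      Continuous v := by
    refine ⟨fun ξ => ((M ξ).det)⁻¹ • ((M ξ).adjugate *ᵥ fun i => (imS b ξ).N (sS _) (e i)),
      fun ξ => ?_, (cM.matrix_det.inv₀ dM).smul (cM.matrix_adjugate.matrix_mulVec cr)⟩
    rw [mulVec_smul, mulVec_mulVec, mul_adjugate, smul_mulVec, one_mulVec, smul_smul,
      inv_mul_cancel₀ (dM ξ), one_smul]
  refine ⟨n, e, fun i ξ => v ξ i, fun i => ⟨he i, (continuous_apply i).comp cv⟩,
    fun ξ => ?_⟩
  have key := ext (Bf b ξ y (∑ j, v ξ j • e j)) ((imS b ξ).N (sS _))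
    fun i => by rw [← row, hv]
  have h0 : exS b ξ (∑ j, v ξ j • e j) = 0 := by
    have := key 1 (p.one _ _)
    rwa [Bf_apply, N_one c, N_one c, En_one c, c.ex1, mul_zero, add_zero, zero_add, mul_one] at this
  refine ⟨mem _, h0, fun P hP => ?_⟩
  have := key P hP
  rwa [Bf_apply, h0, zero_mul, add_zero] at this

include c in
lemma expand {ξ : ℝ} {φ : SV b.m} (g : Gal b ξ y D φ) {P : SV b.m} (hP : P ∈ PolS b.m D) :
    Jf b ξ y P = Jf b ξ y φ + Mf b ξ y (P - φ) := by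
  have h1 := g.2.2 P hP
  have h2 := g.2.2 φ g.1
  simp only [Jf, Mf, map_sub, LinearMap.sub_apply, (c.ok b ξ).sN P φ, (c.ok b ξ).sE P φ]
  linear_combination 2 * h1 - 2 * h2

include c p in
lemma gam_eq (h : Coer b l) (hy : -l < y) {ξ : ℝ} {φ : SV b.m} (g : Gal b ξ y D φ) :
    gamD b (-y) D ξ = (imS b ξ).En (sS _) φ := by
  have h1 : IsGreatest {r | ∃ F ∈ PolS b.m D, r = -Jf b ξ y F} (-Jf b ξ y φ) := by
    refine ⟨⟨φ, g.1, rfl⟩, ?_⟩
    rintro _ ⟨F, hF, rfl⟩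
    linarith [expand c g hF, mf_nonneg c h hy ξ (sub_mem hF g.1)]
  have h2 := g.2.2 φ g.1
  have h3 := g.2.2 _ (s_mem p _ D)
  rw [c.Ns, (c.ok b ξ).sN, (c.ok b ξ).sE] at h3
  rw [gamD, neg_neg, h1.csSup_eq, Jf, Mf, h2]
  linear_combination -h3

include f in
lemma refl_sub (ξ : ℝ) : {r | ∃ F ∈ PolS b.m D, r = -Jf b ξ y F} ⊆
    {r | ∃ F ∈ PolS b.m D, r = -Jf b (-ξ) y F} := by
  obtain ⟨ρ, h1, h2, -, h3⟩ := f.refl b.m
  rintro _ ⟨F, hF, rfl⟩
  have hs : ρ (sS _) = -sS _ := Subtype.ext (funext fun s => funext fun X => by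
    rw [h1]; cases s <;> simp [sS, sg])
  have a1 : (imS b (-ξ)).N (ρ F) (ρ F) = _ := (h3 b.A b.g b.psd ξ F F).2.1
  have a2 : (imS b (-ξ)).En (ρ F) (ρ F) = _ := (h3 b.A b.g b.psd ξ F F).2.2
  have a3 : (imS b (-ξ)).N (ρ (sS _)) (ρ F) = _ := (h3 b.A b.g b.psd ξ (sS _) F).2.1
  refine ⟨-ρ F, neg_mem (h2 D F hF), ?_⟩
  rw [hs, map_neg, LinearMap.neg_apply] at a3
  simp only [Jf, Mf, map_neg, LinearMap.neg_apply, neg_neg, a1, a2, a3]

end Gal44

open Gal44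

theorem galGlue : GalGlue := fun c p f => by
  refine ⟨fun b l h D y hy => ⟨exi c p f h hy, fun ξ φ g =>
    ⟨gam_eq c p h hy g, fun P hP => expand c g hP⟩⟩, fun b l a G ha hl h R D => ⟨?_, fun ξ => ?_⟩⟩
  · obtain ⟨n, P, v, hP, g⟩ := exi c p f (D := D) h (neg_lt_neg hl)
    have : gamD b a D = fun ξ => ∑ i, v i ξ * (imS b ξ).En (sS _) (P i) := funext fun ξ => by
      simpa using gam_eq c p h (neg_lt_neg hl) (g ξ)
    rw [this]
    exact continuous_finsetSum _ fun i _ => (hP i).2.mul (cont f (s_mem p _ D) (hP i).1).2.1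
  · have h0 : (0 : ℝ) ∈ {r | ∃ F ∈ PolS b.m D, r = -Jf b ξ (-a) F} :=
      ⟨0, zero_mem _, by simp [Jf, Mf]⟩
    have h1 : sSup {r | ∃ F ∈ PolS b.m D, r = -Jf b ξ (-a) F} ≤ sech2 ξ * G :=
      csSup_le ⟨0, h0⟩ (by rintro _ ⟨F, hF, rfl⟩; exact R ξ D F hF _ le_rfl (by linarith))
    refine ⟨?_, le_add_of_nonneg_right (mul_nonneg ha (Real.sSup_nonneg' ⟨0, h0, le_rfl⟩)), ?_⟩
    · have := refl_sub f (b := b) (D := D) (y := -a) (-ξ)
      rw [neg_neg] at this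
      rw [gamD, gamD, this.antisymm (refl_sub f ξ), sech2, sech2, cosh_neg]
    · unfold gamD
      linarith [mul_le_mul_of_nonneg_left h1 ha]

end Crest.Agent.T157.Tw

end
end

-- ▼ part T157/LcOne_67
section

/-!
# Row 157, block B/S4b (helper67): `OneGlue`, the contraction
-/

set_option autoImplicit false

noncomputable section

namespace Crest.Agent.T157.Tw

open MeasureTheory Real Matrix Set

namespace One67

section abs
variable {V : Type} [AddCommGroup V] [Module ℝ V]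

lemma cs {B : V →ₗ[ℝ] V →ₗ[ℝ] ℝ} (hs : ∀ u v, B u v = B v u) (hp : ∀ u, 0 ≤ B u u) (u v : V) :
    B u v ^ 2 ≤ B u u * B v v := by
  have h := discrim_le_zero (a := B v v) (b := 2 * B u v) (c := B u u) fun t => by
    have := hp (u + t • v)
    simp only [map_add, map_smul, LinearMap.add_apply, LinearMap.smul_apply, smul_eq_mul,
      hs v u] at this
    nlinarith
  unfold discrim at h
  nlinarith

lemma split {B : V →ₗ[ℝ] V →ₗ[ℝ] ℝ} (hs : ∀ u v, B u v = B v u) (hp : ∀ u, 0 ≤ B u u) {ε : ℝ}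
    (hε : 0 < ε) (u v : V) : B (u + v) (u + v) ≤ (1 + ε) * B u u + (1 + 1 / ε) * B v v := by
  have := hp (ε • u - v)
  simp only [map_sub, map_add, map_smul, LinearMap.add_apply, LinearMap.sub_apply,
    LinearMap.smul_apply, smul_eq_mul, hs v u] at this ⊢
  have h2 : 2 * B u v ≤ ε * B u u + 1 / ε * B v v := by
    have e : ε * B u u + 1 / ε * B v v - 2 * B u v =
        (ε * (ε * B u u - B u v) - (ε * B u v - B v v)) / ε := by field_simp; ring
    have : 0 ≤ (ε * (ε * B u u - B u v) - (ε * B u v - B v v)) / ε := div_nonneg this hε.le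
    linarith
  linarith

/-- linear combination of families -/
def Ph {k : ℕ} (f : Fin k → ℝ → V) (u : Fin k → ℝ) (ξ : ℝ) : V := ∑ l, u l • f l ξ

lemma Ph_add {k : ℕ} (f : Fin k → ℝ → V) (u w : Fin k → ℝ) (ξ : ℝ) :
    Ph f (u + w) ξ = Ph f u ξ + Ph f w ξ := by
  simp [Ph, add_smul, Finset.sum_add_distrib]

lemma Ph_sub {k : ℕ} (f : Fin k → ℝ → V) (u w : Fin k → ℝ) (ξ : ℝ) :
    Ph f (u - w) ξ = Ph f u ξ - Ph f w ξ := by
  simp [Ph, sub_smul, Finset.sum_sub_distrib]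

lemma Ph_smul {k : ℕ} (f : Fin k → ℝ → V) (t : ℝ) (u : Fin k → ℝ) (ξ : ℝ) :
    Ph f (t • u) ξ = t • Ph f u ξ := by
  simp [Ph, Finset.smul_sum, mul_smul]

lemma Ph_mat {k n : ℕ} (f : Fin k → ℝ → V) (M : Matrix (Fin k) (Fin n) ℝ) (u : Fin n → ℝ)
    (ξ : ℝ) : ∑ l, u l • ∑ j, M j l • f j ξ = Ph f (M *ᵥ u) ξ := by
  simp only [Ph, Finset.smul_sum, mulVec, dotProduct, Finset.sum_smul, smul_smul]
  rw [Finset.sum_comm]
  simp only [mul_comm]

lemma int1 (ν : Measure ℝ) (B : ℝ → V →ₗ[ℝ] ℝ) {k : ℕ} (f : Fin k → ℝ → V)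
    (hi : ∀ j, Integrable (fun ξ => B ξ (f j ξ)) ν) (w : Fin k → ℝ) :
    ∫ ξ, B ξ (Ph f w ξ) ∂ν = ∑ j, w j * ∫ ξ, B ξ (f j ξ) ∂ν := by
  simp only [Ph, map_sum, map_smul, smul_eq_mul]
  rw [integral_finsetSum _ fun j _ => (hi j).const_mul _]
  simp only [integral_const_mul]

lemma int2 (ν : Measure ℝ) (B : ℝ → V →ₗ[ℝ] V →ₗ[ℝ] ℝ) {k : ℕ} (f : Fin k → ℝ → V)
    (hi : ∀ i j, Integrable (fun ξ => B ξ (f i ξ) (f j ξ)) ν) (w w' : Fin k → ℝ) :
    ∫ ξ, B ξ (Ph f w ξ) (Ph f w' ξ) ∂ν =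
      w ⬝ᵥ (of fun i j => ∫ ξ, B ξ (f i ξ) (f j ξ) ∂ν) *ᵥ w' := by
  have e : ∀ ξ, B ξ (Ph f w ξ) (Ph f w' ξ) = ∑ i, ∑ j, w i * w' j * B ξ (f i ξ) (f j ξ) := by
    intro ξ
    simp only [Ph, map_sum, map_smul, LinearMap.sum_apply, LinearMap.smul_apply, smul_eq_mul,
      Finset.mul_sum]
    rw [Finset.sum_comm]
    exact Finset.sum_congr rfl fun i _ => Finset.sum_congr rfl fun j _ => by ring
  simp only [e]
  rw [integral_finsetSum _ fun i _ => integrable_finsetSum _ fun j _ => (hi i j).const_mul _]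
  simp only [dotProduct, mulVec, of_apply, Finset.mul_sum]
  refine Finset.sum_congr rfl fun i _ => ?_
  rw [integral_finsetSum _ fun j _ => (hi i j).const_mul _]
  exact Finset.sum_congr rfl fun j _ => by rw [integral_const_mul]; ring

end abs

lemma solve {b : Bath} {l c : ℝ} (h : b.Ge l) (hc : 0 < c + l) :
    ∃ w, b.A *ᵥ w + c • w = b.g := by
  let L : (Fin b.m → ℝ) →ₗ[ℝ] (Fin b.m → ℝ) := b.A.mulVecLin + c • LinearMap.id
  have : Function.Injective L := (injective_iff_map_eq_zero L).2 fun w hw => by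
    have h1 := h w
    have h2 : w ⬝ᵥ (b.A *ᵥ w + c • w) = w ⬝ᵥ 0 := congrArg (fun z => w ⬝ᵥ z) hw
    simp only [dotProduct_add, dotProduct_smul, smul_eq_mul, dotProduct_zero] at h2
    have h3 : 0 ≤ w ⬝ᵥ w := Finset.sum_nonneg fun i _ => mul_self_nonneg _
    exact dotProduct_self_eq_zero.1 (by nlinarith)
  exact LinearMap.injective_iff_surjective.1 this b.g

lemma sech2_pos (ξ : ℝ) : 0 < sech2 ξ := by unfold sech2; have := cosh_pos ξ; positivity

lemma sech2_le (ξ : ℝ) : sech2 ξ ≤ 1 := by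
  unfold sech2
  have := one_le_cosh ξ
  rw [div_le_one (by positivity)]
  nlinarith

lemma mf_smul (b : Bath) (ξ c t : ℝ) (F : SV b.m) : Mf b ξ c (t • F) = t ^ 2 * Mf b ξ c F := by
  simp only [Mf, map_smul, LinearMap.smul_apply, smul_eq_mul]; ring

variable (c : Cal)
include c

lemma mf_split (b : Bath) (ξ : ℝ) {y ε : ℝ} (hy : 0 ≤ y) (hε : 0 < ε) (F G : SV b.m) :
    Mf b ξ y (F + G) ≤ (1 + ε) * Mf b ξ y F + (1 + 1 / ε) * Mf b ξ y G := by
  have ok := c.ok b ξ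
  have h1 := mul_le_mul_of_nonneg_left (split ok.sN ok.pN hε F G) hy
  have h2 := split ok.sE ok.pE hε F G
  simp only [Mf]
  linarith

lemma mf_two (b : Bath) (ξ : ℝ) {y : ℝ} (hy : 0 ≤ y) (F G : SV b.m) :
    Mf b ξ y (F + G) ≤ 2 * Mf b ξ y F + 2 * Mf b ξ y G := by
  have := mf_split c b ξ hy one_pos F G
  norm_num at this
  linarith

lemma N_st (b : Bath) (ξ : ℝ) : (imS b ξ).N (sS _) (stS _ ξ) = sech2 ξ := by
  have h : (imS b ξ).N (sS _) 1 = 0 := by rw [c.N, mul_one, c.ex1]; ring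
  rw [stS, map_sub, c.Ns, Algebra.algebraMap_eq_smul_one, map_smul, h]; simp

/-- the Galerkin solution: response and energy -/
lemma gal_facts (p : PolApi) {b : Bath} {l a G y ξ : ℝ} {D : ℕ} (ha : 0 ≤ a) (hl : a < l)
    (hG : 0 ≤ G) (hC : Coer b l) (hR : Resp b a G) (hy : -a ≤ y) {φ : SV b.m}
    (h : Gal b ξ y D φ) :
    (imS b ξ).En (sS _) φ = sech2 ξ + y * Jf b ξ y φ ∧ (imS b ξ).En (sS _) φ ^ 2 ≤ (1 + a * G) ^ 2 ∧
    (imS b ξ).En φ φ ≤ l / (l - a) ^ 2 ∧ (0 < y → (imS b ξ).En φ φ ≤ 1 / (4 * y)) := by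
  have ok := c.ok b ξ
  have hs : sS b.m ∈ PolS b.m D := by simpa using p.s (p.one b.m D)
  have e1 := h.2.2 _ hs
  have e2 := h.2.2 _ h.1
  have e3 := hC.2 ξ D φ h.1
  have e4 := cs ok.sN ok.pN (sS _) φ
  have e5 := ok.pN φ
  have e6 := ok.pE φ
  rw [c.Ns] at e1 e4
  rw [ok.sN φ, ok.sE φ] at e1
  have hJ : Jf b ξ y φ = -(imS b ξ).N (sS _) φ := by simp only [Jf, Mf]; linarith
  have p0 := sech2_pos ξ
  have p1 := sech2_le ξ
  have hr := fun h0 => hR ξ D φ h.1 y hy h0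
  rw [hJ] at hr ⊢
  set x := (imS b ξ).N (sS _) φ
  set N := (imS b ξ).N φ φ
  set E := (imS b ξ).En φ φ
  set γ := (imS b ξ).En (sS _) φ
  set q := sech2 ξ
  have x0 : 0 ≤ x := by nlinarith
  have hx : x ^ 2 ≤ N := by nlinarith
  have aG : 0 ≤ a * G := mul_nonneg ha hG
  refine ⟨by linarith, ?_, ?_, fun y0 => ?_⟩
  · have : 0 ≤ γ ∧ γ ≤ 1 + a * G := by
      rcases le_or_gt y 0 with y0 | y0
      · have h1 := hr y0
        have h2 : x ≤ G := by nlinarith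
        have h3 : -y * x ≤ a * G := mul_le_mul (by linarith) h2 x0 ha
        have h4 : 0 ≤ -y * x := mul_nonneg (by linarith) x0
        constructor <;> linarith
      · have h1 : 0 ≤ y * x := mul_nonneg y0.le x0
        have h2 : y * x ≤ q := by
          rcases x0.eq_or_lt with h0 | h0
          · rw [← h0]; linarith
          · have h3 : y * x ^ 2 ≤ y * (q * N) := mul_le_mul_of_nonneg_left e4 y0.le
            have h4 : q * (y * N) ≤ q * x := mul_le_mul_of_nonneg_left (by linarith) p0.le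
            exact le_of_mul_le_mul_right (by nlinarith) h0
        constructor <;> linarith
    exact pow_le_pow_left₀ this.1 this.2 2
  · have l0 : 0 < l := by linarith
    have la : 0 < l - a := by linarith
    have h1 : (l - a) * E ≤ l * x := by
      rw [← e2]
      nlinarith [mul_le_mul_of_nonneg_left e3 ha,
        mul_nonneg (by linarith : 0 ≤ y + a) (mul_nonneg l0.le e5)]
    have h2 : ((l - a) * E) ^ 2 ≤ (l * x) ^ 2 := pow_le_pow_left₀ (by positivity) h1 2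
    have h3 : (l * x) ^ 2 ≤ l * E := by
      have : l * (l * x ^ 2) ≤ l * E :=
        mul_le_mul_of_nonneg_left ((mul_le_mul_of_nonneg_left hx l0.le).trans e3) l0.le
      nlinarith
    rw [le_div_iff₀ (by positivity)]
    rcases e6.eq_or_lt with h0 | h0
    · rw [← h0]; linarith
    · exact le_of_mul_le_mul_right (by nlinarith) h0
  · rw [le_div_iff₀ (by positivity)]
    rcases e5.eq_or_lt with h0 | h0
    · have : E = 0 := ok.null φ h0.symm
      rw [this]; linarith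
    · have h1 : 4 * (y * N) * E ≤ x ^ 2 := by rw [← e2]; nlinarith [sq_nonneg (y * N - E)]
      exact le_of_mul_le_mul_right (by nlinarith) h0

/-- the error of a trial function -/
lemma third {e : Ext} {l a C y ξ : ℝ} {D : ℕ} (hl : a < l) (hC : Coer e.b l) (hy : -a ≤ y)
    (hC0 : 0 ≤ C) {ψ : SV e.b.m} (hψ : ψ ∈ PolS e.b.m D)
    (h1 : (imS e.b ξ).En ψ ψ ≤ C * (imS e.b ξ).N ψ ψ)
    (h2 : Mf e.bt ξ 1 (gen e.bt ξ (pull e.ι ψ)) ≤ C * (imS e.b ξ).N ψ ψ) :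
    Mf e.bt ξ (y + l) (y • pull e.ι ψ + gen e.bt ξ (pull e.ι ψ)) ≤
      (2 * (1 + C / (l - a)) + 2 * C * (1 + 1 / (l - a))) * (1 + |y|) ^ 2 * Mf e.b ξ y ψ := by
  have la : 0 < l - a := by linarith
  have yl : l - a ≤ y + l := by linarith
  have h3 := mf_two c e.bt ξ (y := y + l) (by linarith) (y • pull e.ι ψ) (gen e.bt ξ (pull e.ι ψ))
  rw [mf_smul] at h3
  have h4 : Mf e.bt ξ (y + l) (pull e.ι ψ) = (y + l) * (imS e.b ξ).N ψ ψ + (imS e.b ξ).En ψ ψ := by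
    simp only [Mf, c.p_N, c.p_En]
  have h5 := hC.2 ξ D ψ hψ
  have n0 := (c.ok e.b ξ).pN ψ
  have g1 := (c.ok e.bt ξ).pN (gen e.bt ξ (pull e.ι ψ))
  have g2 := (c.ok e.bt ξ).pE (gen e.bt ξ (pull e.ι ψ))
  have h6 : Mf e.bt ξ (y + l) (gen e.bt ξ (pull e.ι ψ)) ≤
      (1 + (y + l)) * (C * (imS e.b ξ).N ψ ψ) := by
    refine le_trans ?_ (mul_le_mul_of_nonneg_left h2 (by linarith))
    simp only [Mf]
    nlinarith [mul_nonneg (by linarith : 0 ≤ y + l) g2]
  have hM : (y + l) * (imS e.b ξ).N ψ ψ ≤ Mf e.b ξ y ψ := by simp only [Mf]; linarith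
  rw [h4] at h3
  set N := (imS e.b ξ).N ψ ψ
  set M := Mf e.b ξ y ψ
  have hN : N ≤ 1 / (l - a) * M := by
    rw [one_div, ← div_eq_inv_mul, le_div_iff₀ la]; nlinarith
  have M0 : 0 ≤ M := le_trans (mul_nonneg (by linarith) n0) hM
  have hCN : C * N ≤ C / (l - a) * M := by
    have := mul_le_mul_of_nonneg_left hN hC0
    rwa [← mul_assoc, mul_one_div] at this
  have k1 : (y + l) * N + (imS e.b ξ).En ψ ψ ≤ (1 + C / (l - a)) * M := by linarith
  have k2 : (1 + (y + l)) * (C * N) ≤ C * (1 + 1 / (l - a)) * M := by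
    have := mul_le_mul_of_nonneg_left (add_le_add hN hM) hC0
    linarith
  have y1 : y ^ 2 ≤ (1 + |y|) ^ 2 := by rw [← sq_abs y]; nlinarith [abs_nonneg y]
  have y2 : 1 ≤ (1 + |y|) ^ 2 := by nlinarith [abs_nonneg y]
  have k0 : 0 ≤ (1 + C / (l - a)) * M := by positivity
  have k0' : 0 ≤ C * (1 + 1 / (l - a)) * M := by positivity
  have k3 : y ^ 2 * ((y + l) * N + (imS e.b ξ).En ψ ψ) ≤ (1 + |y|) ^ 2 * ((1 + C / (l - a)) * M) :=
    (mul_le_mul_of_nonneg_left k1 (sq_nonneg y)).trans (mul_le_mul_of_nonneg_right y1 k0)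
  have k4 : C * (1 + 1 / (l - a)) * M ≤ (1 + |y|) ^ 2 * (C * (1 + 1 / (l - a)) * M) :=
    le_mul_of_one_le_left k0' y2
  linarith

section step
variable (fa : FamApi) {β : ℝ} {ν : Measure ℝ} [IsProbabilityMeasure ν] {D : ℕ} {e e' : Ext}
  {f0 : Fin e'.b.m → ℝ → SV e.b.m} {f : Fin e'.bt.m → ℝ → SV e.bt.m} (st : Step β ν D e e' f0 f)

omit c in
lemma Ph_mem {m k : ℕ} {S : Subalgebra ℝ (ℝ → SV m)} {f : Fin k → ℝ → SV m} (hf : ∀ l, f l ∈ S)
    (u : Fin k → ℝ) : Ph f u ∈ S := by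
  have : Ph f u = ∑ l, u l • f l := by funext ξ; simp [Ph, Finset.sum_apply]
  rw [this]
  exact sum_mem fun l _ => S.smul_mem (hf l) _

omit c in
lemma s_mem (m : ℕ) : (fun _ => sS m) ∈ N0 m := Algebra.subset_adjoin (Or.inl (Or.inr rfl))

include fa st
omit c

lemma big_N (w w' : Fin e'.bt.m → ℝ) :
    ∫ ξ, (imS e.bt ξ).N (Ph f w ξ) (Ph f w' ξ) ∂ν = w ⬝ᵥ w' := by
  rw [int2 ν (fun ξ => (imS e.bt ξ).N) f fun i j =>
    (fa.N _ _ (st.c1 i).1 _ (st.c1 j).1).2.int ν]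
  have : (of fun i j => ∫ ξ, (imS e.bt ξ).N (f i ξ) (f j ξ) ∂ν) = 1 := by
    ext i j; rw [of_apply, one_apply]; exact st.on i j
  rw [this, one_mulVec]

lemma big_E (w w' : Fin e'.bt.m → ℝ) :
    ∫ ξ, (imS e.bt ξ).En (Ph f w ξ) (Ph f w' ξ) ∂ν = w ⬝ᵥ e'.bt.A *ᵥ w' := by
  rw [int2 ν (fun ξ => (imS e.bt ξ).En) f fun i j =>
    (fa.En _ _ (st.c1 i).1 _ (st.c1 j).1).2.int ν]
  have : (of fun i j => ∫ ξ, (imS e.bt ξ).En (f i ξ) (f j ξ) ∂ν) = e'.bt.A := by
    ext i j; rw [of_apply]; exact st.en i j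
  rw [this]

lemma big_s (w : Fin e'.bt.m → ℝ) :
    β * ∫ ξ, (imS e.bt ξ).N (sS _) (Ph f w ξ) ∂ν = e'.bt.g ⬝ᵥ w := by
  rw [int1 ν (fun ξ => (imS e.bt ξ).N (sS _)) f fun j =>
    (fa.N _ _ (fa.le _ (s_mem _)) _ (st.c1 j).1).2.int ν, Finset.mul_sum]
  refine Finset.sum_congr rfl fun j _ => ?_
  rw [← st.g j, Nb]; ring

lemma big_M (y : ℝ) (w : Fin e'.bt.m → ℝ) :
    Integrable (fun ξ => Mf e.bt ξ y (Ph f w ξ)) ν ∧
    ∫ ξ, Mf e.bt ξ y (Ph f w ξ) ∂ν = y * (w ⬝ᵥ w) + w ⬝ᵥ e'.bt.A *ᵥ w := by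
  have hm := Ph_mem (fun l => (st.c1 l).1) w
  have i1 := ((fa.N _ _ hm _ hm).2.int ν).const_mul y
  have i2 := (fa.En _ _ hm _ hm).2.int ν
  refine ⟨i1.add i2, ?_⟩
  simp only [Mf]
  rw [integral_add i1 i2, integral_const_mul, big_N fa st, big_E fa st]

omit fa [IsProbabilityMeasure ν] in
lemma pull_Ph : ∀ᵐ ξ ∂ν, ∀ u, pull e.ι (Ph f0 u ξ) = Ph f (e'.ι *ᵥ u) ξ := by
  filter_upwards [ae_all_iff.2 st.inc] with ξ h u
  rw [← Ph_mat, Ph, map_sum]
  simp only [map_smul, h]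

omit fa [IsProbabilityMeasure ν] in
lemma gen_Ph : ∀ᵐ ξ ∂ν, ∀ u,
    gen e.bt ξ (pull e.ι (Ph f0 u ξ)) = Ph f (e'.bt.A *ᵥ (e'.ι *ᵥ u)) ξ := by
  filter_upwards [ae_all_iff.2 st.cl] with ξ h u
  rw [mulVec_mulVec, ← Ph_mat, Ph, map_sum, map_sum]
  simp only [map_smul, h]

omit fa st [IsProbabilityMeasure ν] in
lemma iso_dot (e' : Ext) (u v : Fin e'.b.m → ℝ) : (e'.ι *ᵥ u) ⬝ᵥ (e'.ι *ᵥ v) = u ⬝ᵥ v := by
  rw [dotProduct_mulVec, ← mulVec_transpose, mulVec_mulVec, e'.iso, one_mulVec]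

include c

lemma small_N (u v : Fin e'.b.m → ℝ) :
    ∫ ξ, (imS e.b ξ).N (Ph f0 u ξ) (Ph f0 v ξ) ∂ν = u ⬝ᵥ v := by
  rw [← iso_dot, ← big_N fa st]
  refine integral_congr_ae ?_
  filter_upwards [pull_Ph st] with ξ h
  rw [← h, ← h, c.p_N]

lemma small_E (u v : Fin e'.b.m → ℝ) :
    ∫ ξ, (imS e.b ξ).En (Ph f0 u ξ) (Ph f0 v ξ) ∂ν = u ⬝ᵥ e'.b.A *ᵥ v := by
  have : u ⬝ᵥ e'.b.A *ᵥ v = (e'.ι *ᵥ u) ⬝ᵥ e'.bt.A *ᵥ (e'.ι *ᵥ v) := by
    rw [e'.hA, ← mulVec_mulVec, ← mulVec_mulVec, dotProduct_mulVec u, vecMul_transpose]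
  rw [this, ← big_E fa st]
  refine integral_congr_ae ?_
  filter_upwards [pull_Ph st] with ξ h
  rw [← h, ← h, c.p_En]

lemma small_s (u : Fin e'.b.m → ℝ) :
    β * ∫ ξ, (imS e.b ξ).N (sS _) (Ph f0 u ξ) ∂ν = e'.b.g ⬝ᵥ u := by
  rw [← iso_dot, ← e'.hg, ← big_s fa st]
  congr 1
  refine integral_congr_ae ?_
  filter_upwards [pull_Ph st] with ξ h
  rw [← h, ← c.p_N]
  rfl

lemma small_J (y : ℝ) (u : Fin e'.b.m → ℝ) :
    Integrable (fun ξ => Jf e.b ξ y (Ph f0 u ξ)) ν ∧ β * ∫ ξ, Jf e.b ξ y (Ph f0 u ξ) ∂ν =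
      β * (y * (u ⬝ᵥ u) + u ⬝ᵥ e'.b.A *ᵥ u) - 2 * (e'.b.g ⬝ᵥ u) := by
  have hm := fa.le _ (Ph_mem (fun l => (st.c0 l).1) u)
  have i1 := ((fa.N _ _ hm _ hm).2.int ν).const_mul y
  have i2 := (fa.En _ _ hm _ hm).2.int ν
  have i3 := ((fa.N _ _ (fa.le _ (s_mem _)) _ hm).2.int ν).const_mul 2
  have i12 : Integrable (fun ξ => y * (imS e.b ξ).N (Ph f0 u ξ) (Ph f0 u ξ) +
      (imS e.b ξ).En (Ph f0 u ξ) (Ph f0 u ξ)) ν := i1.add i2
  refine ⟨i12.sub i3, ?_⟩
  simp only [Jf, Mf]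
  rw [integral_sub i12 i3, integral_add i1 i2, integral_const_mul, integral_const_mul,
    small_N c fa st, small_E c fa st, ← small_s c fa st]
  ring

omit c fa [IsProbabilityMeasure ν] in
lemma Ph_pol (u : Fin e'.b.m → ℝ) (ξ : ℝ) : Ph f0 u ξ ∈ PolS e.b.m D :=
  Submodule.sum_mem _ fun l _ => Submodule.smul_mem _ _ ((st.c0 l).2.2.2 ξ)

lemma small_pos {l y : ℝ} (hC : Coer e.b l) (hy : 0 ≤ y + l) (u : Fin e'.b.m → ℝ) :
    0 ≤ y * (u ⬝ᵥ u) + u ⬝ᵥ e'.b.A *ᵥ u := by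
  have hm := fa.le _ (Ph_mem (fun l => (st.c0 l).1) u)
  have i1 := ((fa.N _ _ hm _ hm).2.int ν).const_mul y
  have i2 := (fa.En _ _ hm _ hm).2.int ν
  rw [← small_N c fa st, ← small_E c fa st, ← integral_const_mul, ← integral_add i1 i2]
  refine integral_nonneg fun ξ => ?_
  have h1 := hC.2 ξ D _ (Ph_pol st u ξ)
  have h2 := mul_nonneg hy ((c.ok e.b ξ).pN (Ph f0 u ξ))
  simp only [Pi.zero_apply]
  linarith

/-- the Galerkin solution of the next level minimises the averaged functional -/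
lemma small_min {l y : ℝ} (hβ : 0 < β) (hC : Coer e.b l) (hy : 0 ≤ y + l) {u : Fin e'.b.m → ℝ}
    (hu : e'.b.A *ᵥ u + y • u = e'.b.g) (x : Fin e'.b.m → ℝ) :
    β ^ 2 * ∫ ξ, Jf e.b ξ y (Ph f0 (β⁻¹ • u) ξ) ∂ν = -(e'.b.g ⬝ᵥ u) ∧
    ∫ ξ, Jf e.b ξ y (Ph f0 (β⁻¹ • u) ξ) ∂ν ≤ ∫ ξ, Jf e.b ξ y (Ph f0 x ξ) ∂ν := by
  have h1 := (small_J c fa st y (β⁻¹ • u)).2
  have h2 := (small_J c fa st y x).2
  have h3 := small_pos c fa st hC hy (β • x - u)
  have hg : ∀ z, e'.b.g ⬝ᵥ z = z ⬝ᵥ e'.b.A *ᵥ u + y * (z ⬝ᵥ u) := fun z => by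
    rw [← hu, dotProduct_comm, dotProduct_add, dotProduct_smul, smul_eq_mul]
  have hs : u ⬝ᵥ e'.b.A *ᵥ x = x ⬝ᵥ e'.b.A *ᵥ u := by rw [e'.b.symm, dotProduct_comm]
  have e1 : β ^ 2 * ∫ ξ, Jf e.b ξ y (Ph f0 (β⁻¹ • u) ξ) ∂ν = -(e'.b.g ⬝ᵥ u) := by
    rw [sq, mul_assoc, h1]
    simp only [mulVec_smul, dotProduct_smul, smul_dotProduct, smul_eq_mul, hg]
    field_simp
    ring
  refine ⟨e1, le_of_mul_le_mul_left ?_ (pow_pos hβ 2)⟩
  rw [e1, sq, mul_assoc, h2]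
  simp only [mulVec_sub, mulVec_smul, dotProduct_sub, sub_dotProduct, dotProduct_smul,
    smul_dotProduct, smul_eq_mul, hs, dotProduct_comm u x] at h3
  rw [hg, hg]
  nlinarith

lemma gg : e'.b.g ⬝ᵥ e'.b.g = β ^ 2 * ∫ ξ, sech2 ξ ∂ν := by
  have : ∫ ξ, (imS e.b ξ).N (sS _) (Ph f0 e'.b.g ξ) ∂ν = ∫ ξ, β * sech2 ξ ∂ν := by
    refine integral_congr_ae ?_
    filter_upwards [st.st] with ξ h
    rw [Ph, ← h, map_smul, N_st c, smul_eq_mul]
  rw [← small_s c fa st, this, integral_const_mul]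
  ring

omit c fa [IsProbabilityMeasure ν] in
lemma res_Ph (hβ : β ≠ 0) {y : ℝ} {u : Fin e'.b.m → ℝ} (hu : e'.b.A *ᵥ u + y • u = e'.b.g) :
    ∀ᵐ ξ ∂ν, Ph f (e'.w u) ξ = β • (y • pull e.ι (Ph f0 (β⁻¹ • u) ξ) +
      gen e.bt ξ (pull e.ι (Ph f0 (β⁻¹ • u) ξ)) - stS _ ξ) := by
  filter_upwards [pull_Ph st, gen_Ph st, st.st] with ξ h1 h2 h3
  have e1 : e'.b.A *ᵥ u = e'.b.g - y • u := eq_sub_of_add_eq hu
  have e2 : pull e.ι (stS e.b.m ξ) = stS e.bt.m ξ := by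
    rw [stS, map_sub, AlgHom.commutes]; rfl
  have e3 : β • stS e.bt.m ξ = Ph f (e'.ι *ᵥ e'.b.g) ξ := by
    rw [← h1, Ph, ← h3, map_smul, e2]
  rw [smul_sub, e3, h2, h1, Ext.w, e1, ← Ph_smul, ← Ph_add, ← Ph_smul, ← Ph_sub]
  congr 1
  simp only [mulVec_sub, mulVec_smul, smul_add, smul_smul]
  rw [mul_inv_cancel₀ hβ, show β * (y * β⁻¹) = y by field_simp, one_smul]
  abel

end step

omit c in
lemma weights {l a K τ : ℝ} (hl : 0 < l) (ha : 0 ≤ a) (hK : 0 ≤ K) (hτ : 0 < τ) :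
    ∃ (ω : ℝ → ℝ) (Ω : ℝ), (∀ y, 1 ≤ ω y ∧ ω y ≤ Ω) ∧ Antitone ω ∧ ∀ y ≥ -a, ∀ E ≤ K,
      (0 < y → E ≤ 1 / (4 * y)) → E * ω (y + l) ≤ τ / 4 * ω y := by
  have hκ : 0 ≤ 4 * K / τ / l := by positivity
  have hy0 : 0 < 1 / τ := by positivity
  have an : Antitone fun y => exp (4 * K / τ / l * max 0 (1 / τ + l - max y (-a))) :=
    fun y y' h => exp_le_exp.2 (mul_le_mul_of_nonneg_left
      (max_le_max le_rfl (by linarith [max_le_max h (le_refl (-a))])) hκ)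
  refine ⟨fun y => exp (4 * K / τ / l * max 0 (1 / τ + l - max y (-a))),
    exp (4 * K / τ / l * (1 / τ + l + a)), fun y => ⟨one_le_exp (by positivity), exp_le_exp.2
      (mul_le_mul_of_nonneg_left (max_le (by positivity) (by linarith [le_max_right y (-a)])) hκ)⟩,
    an, fun y hy E hE h2 => ?_⟩
  rcases le_or_gt (1 / τ) y with h | h
  · have y0 : 0 < y := hy0.trans_le h
    have h3 : 1 / (4 * y) ≤ τ / 4 := by
      rw [div_le_iff₀ hτ] at h
      rw [div_le_div_iff₀ (by positivity) (by norm_num)]; linarith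
    exact mul_le_mul ((h2 y0).trans h3) (an (by linarith)) (exp_pos _).le (by positivity)
  · simp only
    rw [max_eq_left hy, max_eq_left (by linarith : -a ≤ y + l),
      max_eq_right (by linarith : 0 ≤ 1 / τ + l - y),
      max_eq_right (by linarith : 0 ≤ 1 / τ + l - (y + l))]
    have e : 4 * K / τ / l * (1 / τ + l - y) =
        4 * K / τ + 4 * K / τ / l * (1 / τ + l - (y + l)) := by field_simp; ring
    rw [e, exp_add, ← mul_assoc]
    refine mul_le_mul_of_nonneg_right (hE.trans ?_) (exp_pos _).le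
    have h3 : τ / 4 * (4 * K / τ) = K := by field_simp
    have h4 := mul_le_mul_of_nonneg_left (add_one_le_exp (4 * K / τ)) (by positivity : 0 ≤ τ / 4)
    linarith

omit c in
/-- the arithmetic of the pointwise bound -/
lemma num {β a G th ε T C' η δ S w w' Y k γ E r M M1 M2 M3 M4 M5 J J' J0 : ℝ} (β1 : β ^ 2 ≤ 1)
    (hth : th = (β * (1 + a * G)) ^ 2) (th1 : th < 1) (ε0 : 0 < ε) (hT : T = 2 * (1 + 1 / ε))
    (C'0 : 0 ≤ C') (η0 : 0 < η) (hδ : 0 < δ) (k0 : 0 ≤ k) (hk : T * k ≤ δ / 2)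
    (hη : T * (C' * η) ≤ δ / 2) (hS : 0 ≤ S) (w1 : 1 ≤ w) (y0 : 0 < Y)
    (s1 : M ≤ (1 + ε) * M1 + (1 + 1 / ε) * M2) (s2 : M2 ≤ 2 * M3 + 2 * M4) (b1 : M3 ≤ k)
    (b2 : M1 ≤ γ ^ 2 * r + E * (S * w')) (b3 : M4 ≤ C' * Y * M5) (j1 : J' = J + M5)
    (j2 : J0 ≤ J + η / Y) (f1 : γ ^ 2 ≤ (1 + a * G) ^ 2) (f4 : E * w' ≤ (1 - th) / 4 * w)
    (f5 : r ≤ S * w) :
    β ^ 2 * M ≤ ((1 + ε) * ((3 * th + 1) / 4) * S + δ) * w + β ^ 2 * T * C' * Y * (J' - J0) := by
  have Sω : 0 ≤ S * w := by positivity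
  have T0 : 0 < T := by rw [hT]; positivity
  have m1 : β ^ 2 * M1 ≤ (3 * th + 1) / 4 * (S * w) := by
    have a1 : γ ^ 2 * r ≤ (1 + a * G) ^ 2 * (S * w) :=
      (mul_le_mul_of_nonneg_left f5 (sq_nonneg _)).trans (mul_le_mul_of_nonneg_right f1 Sω)
    have a2 : E * (S * w') ≤ (1 - th) / 4 * (S * w) := by
      have := mul_le_mul_of_nonneg_left f4 hS
      linarith
    have a3 := mul_le_mul_of_nonneg_left (b2.trans (add_le_add a1 a2)) (sq_nonneg β)
    have a4 : β ^ 2 * ((1 - th) / 4 * (S * w)) ≤ 1 * ((1 - th) / 4 * (S * w)) :=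
      mul_le_mul_of_nonneg_right β1 (mul_nonneg (by linarith) Sω)
    have a5 : β ^ 2 * ((1 + a * G) ^ 2 * (S * w)) = th * (S * w) := by rw [hth]; ring
    linarith
  have m2 : M4 ≤ C' * Y * (J' - J0) + C' * η := by
    have a1 : M5 ≤ J' - J0 + η / Y := by linarith
    have a2 := mul_le_mul_of_nonneg_left a1 (mul_nonneg C'0 y0.le)
    have a3 : C' * Y * (η / Y) = C' * η := by field_simp
    linarith
  have m3 := mul_le_mul_of_nonneg_left (s2.trans (add_le_add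
    (mul_le_mul_of_nonneg_left b1 zero_le_two) (mul_le_mul_of_nonneg_left m2 zero_le_two)))
    (by positivity : 0 ≤ β ^ 2 * (1 + 1 / ε))
  have m4 := mul_le_mul_of_nonneg_left s1 (sq_nonneg β)
  have m5 := mul_le_mul_of_nonneg_left m1 (by positivity : 0 ≤ 1 + ε)
  have m6 : β ^ 2 * (T * k + T * (C' * η)) ≤ 1 * δ :=
    mul_le_mul β1 (by linarith) (by positivity) zero_le_one
  have m7 : δ ≤ δ * w := le_mul_of_one_le_right hδ.le w1
  rw [hT] at m6 ⊢
  linarith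

omit c in
lemma int_sech2 (ν : Measure ℝ) [IsProbabilityMeasure ν] : Integrable sech2 ν :=
  BM.int ⟨by unfold sech2; fun_prop, 1, fun ξ => by
    rw [abs_of_pos (sech2_pos ξ)]; exact sech2_le ξ⟩ ν

/-- the response of the next level -/
lemma resp (p : PolApi) (fa : FamApi) (ga : GalStmt) (gm : GamStmt) {β l a G δ η : ℝ}
    {ν : Measure ℝ} [IsProbabilityMeasure ν] {D : ℕ} {e e' : Ext}
    {f0 : Fin e'.b.m → ℝ → SV e.b.m} {f : Fin e'.bt.m → ℝ → SV e.bt.m} (st : Step β ν D e e' f0 f)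
    (hβ : 0 < β) (β1 : β ^ 2 ≤ 1) (ha : 0 ≤ a) (hl : a < l) (hG : 0 ≤ G) (hC : Coer e.b l)
    (hR : Resp e.b a G) (η0 : 0 < η) (hη3 : a * η ≤ δ) {x : Fin e'.b.m → ℝ}
    (hx : ∀ᵐ ξ ∂ν, ∀ P ∈ PolS e.b.m D,
      Jf e.b ξ (-a) (Ph f0 x ξ) ≤ Jf e.b ξ (-a) P + η / (1 + |-a|) ^ 2)
    {u : Fin e'.b.m → ℝ} (hu : e'.b.A *ᵥ u + (-a) • u = e'.b.g) :
    β ^ 2 * ∫ ξ, gamD e.b a D ξ ∂ν - δ ≤ e'.b.g ⬝ᵥ e'.b.A *ᵥ u := by
  have hδ : 0 ≤ δ := (mul_nonneg ha η0.le).trans hη3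
  have aG : 0 ≤ a * G := mul_nonneg ha hG
  have g2 := gg c fa st
  have ip := int_sech2 ν
  obtain ⟨⟨n, P, co, -, hP⟩, hg⟩ := ga e.b l hC D (-a) (by linarith)
  obtain ⟨m1, m2⟩ := small_min c fa st hβ hC (by linarith : 0 ≤ -a + l) hu x
  obtain ⟨gc, gb⟩ := gm e.b l a G ha hl hC hR D
  have ig : Integrable (gamD e.b a D) ν := BM.int ⟨gc.measurable, 1 + a * G, fun ξ => by
    obtain ⟨-, k1, k2⟩ := gb ξ
    have := sech2_pos ξ
    have := sech2_le ξ
    rw [abs_of_pos (by linarith)]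
    nlinarith⟩ ν
  have i2 := (small_J c fa st (-a) x).1
  have key : ∀ᵐ ξ ∂ν, gamD e.b a D ξ ≤ sech2 ξ + δ - a * Jf e.b ξ (-a) (Ph f0 x ξ) := by
    filter_upwards [hx] with ξ hx
    have hφ := hP ξ
    generalize ∑ i, co i ξ • P i = φ at hφ
    have k1 := (hg ξ _ hφ).1
    have k2 := (gal_facts c p ha hl hG hC hR le_rfl hφ).1
    have k3 := hx _ hφ.1
    have k4 : η / (1 + |-a|) ^ 2 ≤ η := div_le_self η0.le (by nlinarith [abs_nonneg (-a)])
    rw [neg_neg] at k1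
    have k5 := mul_le_mul_of_nonneg_left (k3.trans (add_le_add le_rfl k4)) ha
    rw [k1, k2]
    linarith only [k5, hη3]
  have i3 : Integrable (fun ξ => sech2 ξ + δ) ν := ip.add (integrable_const _)
  have fin := integral_mono_ae ig (i3.sub (i2.const_mul a)) key
  simp only [Pi.sub_apply] at fin
  rw [integral_sub i3 (i2.const_mul a), integral_add ip (integrable_const _),
    integral_const_mul] at fin
  simp only [integral_const, probReal_univ, smul_eq_mul, one_mul] at fin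
  have e1 : e'.b.g ⬝ᵥ e'.b.A *ᵥ u = e'.b.g ⬝ᵥ e'.b.g + a * (e'.b.g ⬝ᵥ u) := by
    rw [eq_sub_of_add_eq hu, dotProduct_sub, dotProduct_smul, smul_eq_mul]; ring
  have k1 := mul_le_mul_of_nonneg_left fin (sq_nonneg β)
  have k2 := mul_le_mul_of_nonneg_left m2 (mul_nonneg ha (sq_nonneg β))
  have k3 : β ^ 2 * δ ≤ 1 * δ := mul_le_mul_of_nonneg_right β1 hδ
  have k4 : a * β ^ 2 * ∫ ξ, Jf e.b ξ (-a) (Ph f0 (β⁻¹ • u) ξ) ∂ν = -(a * (e'.b.g ⬝ᵥ u)) := by
    rw [mul_assoc, m1]; ring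
  rw [e1, g2]
  linarith only [k1, k2, k3, k4]

/-- integration of the pointwise bound -/
lemma integ (fa : FamApi) {β l y A K : ℝ} {ν : Measure ℝ} [IsProbabilityMeasure ν] {D : ℕ}
    {e e' : Ext} {f0 : Fin e'.b.m → ℝ → SV e.b.m} {f : Fin e'.bt.m → ℝ → SV e.bt.m}
    (st : Step β ν D e e' f0 f) (hβ : 0 < β) (hC : Coer e.b l) (yl : 0 ≤ y + l) (hK : 0 ≤ K)
    {u x : Fin e'.b.m → ℝ} (hu : e'.b.A *ᵥ u + y • u = e'.b.g)
    (key : ∀ᵐ ξ ∂ν, Mf e.bt ξ (y + l) (Ph f (e'.w u) ξ) ≤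
      A + K * (Jf e.b ξ y (Ph f0 (β⁻¹ • u) ξ) - Jf e.b ξ y (Ph f0 x ξ))) :
    e'.res (y + l) u ≤ A := by
  have hmin := (small_min c fa st hβ hC yl hu x).2
  obtain ⟨i0, e0⟩ := big_M fa st (y + l) (e'.w u)
  have i1 := (small_J c fa st y (β⁻¹ • u)).1
  have i2 := (small_J c fa st y x).1
  have i3 : Integrable (fun ξ => K * (Jf e.b ξ y (Ph f0 (β⁻¹ • u) ξ) - Jf e.b ξ y (Ph f0 x ξ))) ν :=
    (i1.sub i2).const_mul K
  have fin := integral_mono_ae i0 ((integrable_const A).add i3) key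
  rw [e0] at fin
  refine fin.trans ?_
  simp only [Pi.add_apply]
  rw [integral_add (integrable_const _) i3, integral_const_mul, integral_sub i1 i2]
  simp only [integral_const, probReal_univ, smul_eq_mul, one_mul]
  have := mul_nonneg hK (sub_nonneg.2 hmin)
  linarith

end One67

open One67 in
/-- **the contraction** -/
theorem oneGlue : OneGlue := by
  intro c p fa bd fx ga gm ap β l a G hβ ha hl hG hb
  have aG : 0 ≤ a * G := mul_nonneg ha hG
  have l0 : 0 < l := by linarith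
  have la : 0 < l - a := by linarith
  have β1 : β ^ 2 ≤ 1 := by nlinarith
  obtain ⟨th, hth⟩ : ∃ th, th = (β * (1 + a * G)) ^ 2 := ⟨_, rfl⟩
  have th0 : 0 ≤ th := hth ▸ sq_nonneg _
  have th1 : th < 1 := hth ▸ pow_lt_one₀ (by positivity) hb two_ne_zero
  obtain ⟨ω, Ω, hω, an, hw⟩ := weights (K := l / (l - a) ^ 2) (τ := 1 - th) l0 ha (by positivity)
    (by linarith)
  obtain ⟨ε, hε⟩ : ∃ ε, ε = 3 * (1 - th) / 8 := ⟨_, rfl⟩
  have ε0 : 0 < ε := by linarith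
  refine ⟨ω, Ω, (1 + ε) * ((3 * th + 1) / 4), by positivity, by nlinarith, hω, ?_⟩
  intro ν _ e hC hR S hS hE δ hδ
  obtain ⟨C1, C10, h1⟩ := fx e l a ha hl hC
  obtain ⟨T, hT⟩ : ∃ T, T = 2 * (1 + 1 / ε) := ⟨_, rfl⟩
  have T0 : 0 < T := by rw [hT]; positivity
  refine ⟨⌈2 * T * C1 / δ⌉₊ + 1, fun D hD => ?_⟩
  have D1 : 1 ≤ D := by omega
  have D0 : (0 : ℝ) < D := by exact_mod_cast D1
  have hC1 : T * (C1 / D) ≤ δ / 2 := by
    have h : 2 * T * C1 / δ ≤ D :=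
      (Nat.le_ceil _).trans (by exact_mod_cast (by omega : ⌈2 * T * C1 / δ⌉₊ ≤ D))
    rw [div_le_iff₀ hδ] at h
    rw [← mul_div_assoc, div_le_iff₀ D0]; linarith
  obtain ⟨C, C0, h2⟩ := bd e D
  obtain ⟨C', hC'⟩ : ∃ C', C' = 2 * (1 + C / (l - a)) + 2 * C * (1 + 1 / (l - a)) := ⟨_, rfl⟩
  have C'0 : 0 ≤ C' := by rw [hC']; positivity
  obtain ⟨η, hη⟩ : ∃ η, η = δ / (2 * T * C' + a + 1) := ⟨_, rfl⟩
  have η0 : 0 < η := by rw [hη]; positivity
  have hη1 : (2 * T * C' + a + 1) * η = δ := by rw [hη]; field_simp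
  have hη2 : T * (C' * η) ≤ δ / 2 := by nlinarith [mul_nonneg ha η0.le]
  have hη3 : a * η ≤ δ := by nlinarith [mul_nonneg (mul_nonneg T0.le C'0) η0.le]
  obtain ⟨𝒱, fin, cl, h3⟩ := ap e.b l a ha hl hC D η η0
  refine ⟨𝒱, fin, cl, fun e' f0 f st hin => ?_⟩
  -- near-minimisers in the span
  have near : ∀ y ≥ -a, ∃ x, ∀ᵐ ξ ∂ν, ∀ P ∈ PolS e.b.m D,
      Jf e.b ξ y (Ph f0 x ξ) ≤ Jf e.b ξ y P + η / (1 + |y|) ^ 2 := fun y hy => by
    obtain ⟨v, hv, t, h⟩ := h3 y hy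
    obtain ⟨x, hx⟩ := hin v hv
    refine ⟨t • x, ?_⟩
    filter_upwards [hx] with ξ hξ
    rw [Ph_smul, Ph, ← hξ]
    exact h ξ
  refine ⟨fun y hy u hu => ?_, ?_, fun u hu => ?_⟩
  · obtain ⟨x, hx⟩ := near y hy
    obtain ⟨⟨n, P, co, -, hP⟩, hg⟩ := ga e.b l hC D y (by linarith)
    obtain ⟨u0, hu0⟩ := One67.solve (c := y) hC.1 (by linarith)
    have yl : 0 ≤ y + l := by linarith
    refine integ c fa st hβ hC yl (x := x) (K := β ^ 2 * T * C' * (1 + |y|) ^ 2) (by positivity)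
      hu ?_
    filter_upwards [hx, res_Ph st hβ.ne' hu] with ξ hx hr
    have hφ := hP ξ
    generalize ∑ i, co i ξ • P i = φ at hφ
    have hφ' := Ph_pol st (β⁻¹ • u) ξ
    rw [hr, mf_smul]
    generalize Ph f0 (β⁻¹ • u) ξ = φ' at hφ' ⊢
    have hψ := sub_mem hφ' hφ.1
    obtain ⟨-, r1, r2, e1, b1, -, b2⟩ := h1 D D1 ξ y hy φ hφ (S * ω (y + l))
      (fun y' hy' v hv => (hE y' (by linarith) v hv).trans
        (mul_le_mul_of_nonneg_left (an hy') hS)) u0 hu0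
    have b3 := third c hl hC hy C0 hψ (h2 ξ _ hψ).1 (h2 ξ _ hψ).2
    obtain ⟨-, f1, f2, f3⟩ := gal_facts c p ha hl hG hC hR hy hφ
    have e2 : y • pull e.ι φ' + gen e.bt ξ (pull e.ι φ') - stS _ ξ =
        ((imS e.b ξ).En (sS _) φ • linS _ (e.w u0) + r2) +
        (r1 + (y • pull e.ι (φ' - φ) + gen e.bt ξ (pull e.ι (φ' - φ)))) := by
      rw [← add_assoc, add_comm _ r1, ← e1]
      simp only [map_sub, smul_sub]
      abel
    rw [e2]
    rw [← hC'] at b3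
    exact num β1 hth th1 ε0 hT C'0 η0 hδ (by positivity) hC1 hη2 hS (hω y).1 (by positivity)
      (mf_split c e.bt ξ yl ε0 _ _) (mf_two c e.bt ξ yl _ _) b1 b2 b3 ((hg ξ φ hφ).2 φ' hφ')
      (hx φ hφ.1) f1 (hw y hy _ f2 f3) (hE y hy u0 hu0)
  · have := integral_mono (int_sech2 ν) (integrable_const 1) sech2_le
    simp only [integral_const, probReal_univ, smul_eq_mul, one_mul] at this
    rw [gg c fa st]
    exact mul_le_of_le_one_right (sq_nonneg β) this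
  · obtain ⟨x, hx⟩ := near (-a) le_rfl
    exact resp c p fa ga gm st hβ β1 ha hl hG hC hR η0 hη3 hx hu

end Crest.Agent.T157.Tw
end
end

-- ▼ part T157/LcSpec_3

/-!
# Row 157, block B/S4b (helper3): `SpecGlue`
-/

set_option autoImplicit false
set_option linter.all false

noncomputable section

namespace Crest.Agent.T157.Tw

open MeasureTheory Real Matrix Set
open Crest.Agent.R238.Gap Crest.Agent.R253.Meh74

namespace Spec3

section abs
variable {V : Type} [AddCommGroup V] [Module ℝ V] {H : Pre V}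

lemma bessel (ok : H.Ok) {n : ℕ} {f : Fin n → V}
    (on : ∀ k l, H.N (f k) (f l) = if k = l then 1 else 0) (P : V) :
    ∑ k, H.N P (f k) ^ 2 ≤ H.N P P := by
  have h := ok.pN (P - ∑ k, H.N P (f k) • f k)
  simp only [map_sub, map_sum, map_smul, LinearMap.sub_apply, LinearMap.sum_apply,
    LinearMap.smul_apply, smul_eq_mul, on, mul_ite, mul_one, mul_zero, Finset.sum_ite_eq',
    Finset.mem_univ, if_true, ok.sN (f _) P, sub_self, Finset.sum_const_zero, sub_zero] at h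
  simp only [sq]; linarith

/-- simultaneous diagonalisation on a finitely generated subspace -/
lemma exists_eig (ok : H.Ok) {S : Submodule ℝ V} (hS : S.FG) :
    ∃ (n : ℕ) (f : Fin n → V) (μ : Fin n → ℝ), (∀ k, f k ∈ S) ∧
      (∀ k l, H.N (f k) (f l) = if k = l then 1 else 0) ∧
      (∀ k l, H.En (f k) (f l) = if k = l then μ k else 0) ∧ ∀ y ∈ S, InSp H f y := by
  obtain ⟨T, hT⟩ := hS
  obtain ⟨b, f, hc, hf, hsp⟩ := compStmt V H ok S T T.finite_toSet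
    (by rw [← hT]; exact Submodule.subset_span)
  have hA := b.psd.isHermitian
  set v : Fin b.m → Fin b.m → ℝ := fun k => (hA.eigenvectorBasis k).ofLp with hv
  have hon : ∀ k l, v k ⬝ᵥ v l = if k = l then 1 else 0 := fun k l => by
    have := orthonormal_iff_ite.1 hA.eigenvectorBasis.orthonormal k l
    rw [← this, EuclideanSpace.inner_eq_star_dotProduct, dotProduct_comm]
    simp [hv]
  refine ⟨b.m, fun k => emb f (v k), hA.eigenvalues, fun k => emb_mem hf _,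
    fun k l => by rw [hc.N_emb, hon], fun k l => ?_, fun y hy => ?_⟩
  · rw [hc.En_emb, hA.mulVec_eigenvectorBasis l, dotProduct_smul, hon]
    split_ifs with h <;> simp [h]
  · have h1 := hsp y (by rw [hT]; exact hy)
    have h2 : ∑ k, H.N y (emb f (v k)) • emb f (v k) = emb f (co H f y) := by
      have h3 := hA.eigenvectorBasis.sum_repr' (WithLp.toLp 2 (co H f y))
      have h4 : ∑ k, (co H f y ⬝ᵥ v k) • v k = co H f y := by
        have := congrArg WithLp.ofLp h3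
        simp only [WithLp.ofLp_sum, WithLp.ofLp_smul, EuclideanSpace.inner_eq_star_dotProduct,
          star_trivial] at this
        exact this
      conv_rhs => rw [← h4]
      simp only [map_sum, map_smul, bil_emb]
      rfl
    unfold InSp
    rw [h2]; exact (inSp_iff f y).1 h1

lemma fg_of_le {S T : Submodule ℝ V} (hT : T.FG) (h : S ≤ T) : S.FG := by
  haveI : FiniteDimensional ℝ T := Module.Finite.iff_fg.2 hT
  exact Module.Finite.iff_fg.1 (Submodule.finiteDimensional_of_le h)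

end abs

lemma inj {b : Bath} {l c : ℝ} (h : b.Ge l) (hc : 0 < l + c) {w : Fin b.m → ℝ}
    (hw : b.A *ᵥ w + c • w = 0) : w = 0 := by
  have h1 := h w
  have h2 := congrArg (fun z => w ⬝ᵥ z) hw
  simp only [dotProduct_add, dotProduct_smul, smul_eq_mul, dotProduct_zero] at h2
  have h3 : 0 ≤ w ⬝ᵥ w := Finset.sum_nonneg fun i _ => mul_self_nonneg _
  exact dotProduct_self_eq_zero.1 (by nlinarith)

lemma solve {b : Bath} {l c : ℝ} (h : b.Ge l) (hc : 0 < l + c) (g : Fin b.m → ℝ) :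
    ∃ w, b.A *ᵥ w + c • w = g := by
  let L : (Fin b.m → ℝ) →ₗ[ℝ] (Fin b.m → ℝ) := b.A.mulVecLin + c • LinearMap.id
  have : Function.Injective L := (injective_iff_map_eq_zero L).2 fun w hw => inj h hc hw
  exact LinearMap.injective_iff_surjective.1 this g

lemma uniq {b : Bath} {l c : ℝ} (h : b.Ge l) (hc : 0 < l + c) {u w : Fin b.m → ℝ} {t : ℝ}
    (hu : b.A *ᵥ u + c • u = b.g) (hw : b.A *ᵥ w + c • w = t • b.g) : w = t • u := by
  refine sub_eq_zero.1 (inj h hc ?_)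
  rw [mulVec_sub, mulVec_smul, smul_sub, ← hu, smul_add] at *
  rw [smul_comm c t u]
  linear_combination (exp := 1) hw

variable (c : Cal)
include c

lemma En_one (b : Bath) (ξ : ℝ) (F : SV b.m) : (imS b ξ).En 1 F = 0 :=
  null_left (c.ok b ξ).sE (c.ok b ξ).pE ((c.ok b ξ).null _ (by rw [c.N]; simp [c.ex1])) F

lemma ex_alg (b : Bath) (ξ r : ℝ) : exS b ξ (algebraMap ℝ _ r) = r := by
  rw [Algebra.algebraMap_eq_smul_one, map_smul, c.ex1, smul_eq_mul, mul_one]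

lemma bath_nonneg (b : Bath) (ξ : ℝ) (F : SV b.m) :
    0 ≤ ∑ i, ∑ j, b.A i j * exS b ξ (dd i F * dd j F) := by
  have h := c.pos b ξ (∑ i, ∑ j, b.A i j • (dd i F * dd j F)) fun s X => by
    have := O42.be_ge (O42.ge_zero b) (F.1 s) X
    simp only [AddSubmonoidClass.coe_finsetSum, Finset.sum_apply]
    rw [zero_mul] at this
    exact this
  simpa only [map_sum, map_smul, smul_eq_mul] using h

lemma orth {b : Bath} {ξ y : ℝ} {D : ℕ} {φ : SV b.m} (h : Gal b ξ y D φ) :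
    ∀ q ∈ PolS b.m D, exS b ξ ((y • φ + gen b ξ φ - stS _ ξ) * q) = 0 := by
  intro q hq
  have h1 := h.2.2 q hq
  rw [c.N, c.N, h.2.1, c.exs, (c.ok b ξ).sE, ← c.l0] at h1
  have e : (y • φ + gen b ξ φ - stS _ ξ) * q =
      y • (φ * q) + q * gen b ξ φ - (sS _ * q - tanh ξ • q) := by
    simp only [stS, Algebra.algebraMap_eq_smul_one, sub_mul, add_mul, smul_mul_assoc, one_mul,
      mul_comm q]
  rw [e]
  simp only [map_sub, map_add, map_smul, smul_eq_mul]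
  linarith

/-- the differentiated equation -/
lemma deq (p : PolApi) {b : Bath} {ξ y : ℝ} {D : ℕ} {φ : SV b.m} (h : Gal b ξ y (D + 1) φ)
    {f : SV b.m} (hf : f ∈ PolS b.m D) (j : Fin b.m) :
    y * exS b ξ (dd j φ * f) + (imS b ξ).En f (dd j φ) + ∑ i, b.A j i * exS b ξ (dd i φ * f) =
      b.g j * exS b ξ (psi b ξ φ * f) := by
  set r := y • φ + gen b ξ φ - stS _ ξ with hr
  have hf1 := p.mono _ (Nat.le_succ D) hf
  have hq : zS b j * f - dd j f ∈ PolS b.m (D + 1) := by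
    refine sub_mem ?_ (p.mono _ (Nat.le_succ D) (p.d j hf1))
    rw [zS, sub_mul, smul_mul_assoc]
    exact sub_mem (p.x j hf) (Submodule.smul_mem _ _ (p.s hf1))
  have h1 := orth c h _ hq
  have h2 := c.stein b ξ j (r * f)
  rw [c.dmul, map_add] at h2
  rw [← hr, mul_sub, map_sub, mul_left_comm, h2, add_sub_cancel_right] at h1
  have e : dd j r = y • dd j φ + (gen b ξ (dd j φ) + ∑ i, b.A j i • dd i φ - b.g j • psi b ξ φ) := by
    rw [hr, map_sub, map_add, map_smul, c.dgen, stS, map_sub, c.ds,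
      Algebra.algebraMap_eq_smul_one, map_smul, c.done]
    simp
  rw [e] at h1
  simp only [add_mul, sub_mul, Finset.sum_mul, smul_mul_assoc, map_add, map_sub, map_sum, map_smul,
    smul_eq_mul] at h1
  rw [← c.l0, mul_comm f]
  linarith

end Spec3

open Spec3 in
theorem specGlue : SpecGlue := by
  intro c p b l hco D ξ y hy φ hφ u hu
  refine ⟨orth c hφ, ?_⟩
  have ok := c.ok b ξ
  set S : Submodule ℝ (SV b.m) := PolS b.m D ⊓ LinearMap.ker (exS b ξ) with hS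
  have hfg : S.FG := fg_of_le (p.fg _ D) inf_le_left
  obtain ⟨n, f, μ, hf, on, en, hsp⟩ := exists_eig ok hfg
  have f0 : ∀ k, exS b ξ (f k) = 0 := fun k => (hf k).2
  have hN : ∀ G k, (imS b ξ).N G (f k) = exS b ξ (G * f k) := fun G k => by
    rw [c.N, f0, mul_zero, sub_zero]
  have hμ : ∀ k, l ≤ μ k := fun k => by
    simpa [on, en] using hco.2 ξ D _ (hf k).1
  have hμ0 : ∀ k, 0 ≤ μ k := fun k => by simpa [en] using ok.pE (f k)
  have hpos : ∀ k, 0 < l + (y + μ k) := fun k => by linarith [hμ0 k]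
  choose U hU using fun k => Spec3.solve hco.1 (hpos k) b.g
  have hd : ∀ j, dd j φ ∈ PolS b.m D := fun j => p.d j hφ.1
  -- expansion
  have hexp : ∀ j, dd j φ = algebraMap ℝ _ (exS b ξ (dd j φ)) +
      ∑ k, exS b ξ (dd j φ * f k) • f k := fun j => by
    set w := dd j φ - algebraMap ℝ _ (exS b ξ (dd j φ)) with hw
    have hw0 : exS b ξ w = 0 := by rw [hw, map_sub, ex_alg c, sub_self]
    have hwS : w ∈ S := ⟨sub_mem (hd j) (by
      rw [Algebra.algebraMap_eq_smul_one]; exact Submodule.smul_mem _ _ (p.one _ _)), hw0⟩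
    have h1 := hsp w hwS
    have h2 : ∀ k, (imS b ξ).N w (f k) = exS b ξ (dd j φ * f k) := fun k => by
      rw [hN, hw, sub_mul, map_sub, Algebra.algebraMap_eq_smul_one, smul_mul_assoc, one_mul,
        map_smul, f0, smul_zero, sub_zero]
    unfold InSp at h1
    have h3 : exS b ξ (w - ∑ k, (imS b ξ).N w (f k) • f k) = 0 := by
      simp only [map_sub, map_sum, map_smul, hw0, f0, smul_zero, Finset.sum_const_zero, sub_zero]
    rw [c.N, h3, mul_zero, sub_zero] at h1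
    have h4 := sub_eq_zero.1 (c.defn b ξ _ h1)
    simp only [h2] at h4
    rw [← h4, hw]; abel
  have hE : ∀ j k, (imS b ξ).En (f k) (dd j φ) = μ k * exS b ξ (dd j φ * f k) := fun j k => by
    conv_lhs => rw [hexp j]
    rw [map_add, Algebra.algebraMap_eq_smul_one, map_smul, ok.sE, En_one c, smul_zero, zero_add]
    simp [en, mul_comm]
  have h0 : (fun j => exS b ξ (dd j φ)) = (imS b ξ).En (sS _) φ • u := by
    refine uniq hco.1 (by linarith) hu (funext fun j => ?_)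
    have := deq c p hφ (p.one _ D) j
    simp only [mul_one, En_one c, c.psi_ex] at this
    simp only [Pi.add_apply, Pi.smul_apply, smul_eq_mul, mulVec, dotProduct]
    linarith
  have h1 : ∀ k, (fun j => exS b ξ (dd j φ * f k)) = exS b ξ (psi b ξ φ * f k) • U k := fun k => by
    refine uniq hco.1 (hpos k) (hU k) (funext fun j => ?_)
    have := deq c p hφ (hf k).1 j
    rw [hE] at this
    simp only [Pi.add_apply, Pi.smul_apply, smul_eq_mul, mulVec, dotProduct]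
    linarith
  refine ⟨n, f, μ, fun k => exS b ξ (psi b ξ φ * f k), U, fun k => ⟨(hf k).1, f0 k, hμ k, hU k⟩,
    fun k k' => ⟨by rw [← hN, on], en k k'⟩, fun j => ?_, ?_⟩
  · conv_lhs => rw [hexp j]
    rw [congrFun h0 j]
    simp only [fun k => congrFun (h1 k) j, Pi.smul_apply, smul_eq_mul]
  · have a1 := bessel ok on (psi b ξ φ)
    simp only [hN] at a1
    rw [c.N, c.psi_ex] at a1
    have a2 := c.psi_le b ξ φ
    have a3 := bath_nonneg c b ξ φ
    rw [c.En b ξ φ φ]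
    nlinarith

end Crest.Agent.T157.Tw
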