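import Crest.Agent.T157.TwA_30
import Crest.Agent.T157.TwOk_42

-- ▼ part T157/HmA_3
section

/-!
# Row 157, block B/S4b (helper3): Gaussian polynomial calculus, part A (algebra, projections)
-/

set_option autoImplicit false
set_option linter.all false

noncomputable section

namespace Crest.Agent.T157.Hm

open MeasureTheory ProbabilityTheory Real Set Filter
open Crest.Agent.R238.Gap Crest.Agent.R238.GapPc Crest.Agent.R238.GapPoinc Crest.Agent.R253.Meh74
open Crest.Agent.T157.Tw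

variable {m : ℕ}

/-- polynomial functions of degree `< D` -/
def Pl (m : ℕ) : ℕ → Submodule ℝ (E m → ℝ)
  | 0 => ⊥
  | D + 1 =>
    { carrier := {f | ∃ (c : ℝ) (r : Fin m → E m → ℝ), (∀ j, r j ∈ Pl m D) ∧
        f = fun x => c + ∑ j, x j * r j x}
      add_mem' := by
        rintro _ _ ⟨c, r, hr, rfl⟩ ⟨c', r', hr', rfl⟩
        refine ⟨c + c', fun j => r j + r' j, fun j => add_mem (hr j) (hr' j), funext fun x => ?_⟩
        simp only [Pi.add_apply, mul_add, Finset.sum_add_distrib]; ring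
      zero_mem' := ⟨0, fun _ => 0, fun _ => zero_mem _, funext fun x => by simp⟩
      smul_mem' := by
        rintro a _ ⟨c, r, hr, rfl⟩
        refine ⟨a * c, fun j => a • r j, fun j => Submodule.smul_mem _ a (hr j), funext fun x => ?_⟩
        simp only [Pi.smul_apply, smul_eq_mul, mul_add, Finset.mul_sum]
        congr 1
        exact Finset.sum_congr rfl fun j _ => by ring }

lemma mem_zero {f : E m → ℝ} : f ∈ Pl m 0 ↔ f = 0 := Submodule.mem_bot ℝ

lemma mem_succ {D : ℕ} {f : E m → ℝ} : f ∈ Pl m (D + 1) ↔ ∃ (c : ℝ) (r : Fin m → E m → ℝ),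
    (∀ j, r j ∈ Pl m D) ∧ f = fun x => c + ∑ j, x j * r j x := Iff.rfl

lemma le_succ : ∀ D : ℕ, Pl m D ≤ Pl m (D + 1)
  | 0 => bot_le
  | D + 1 => by
    rintro _ ⟨c, r, hr, rfl⟩
    exact ⟨c, r, fun j => le_succ D (hr j), rfl⟩

lemma mono {D D' : ℕ} (h : D ≤ D') : Pl m D ≤ Pl m D' := monotone_nat_of_le_succ le_succ h

lemma const_mem (D : ℕ) (c : ℝ) : (fun _ => c) ∈ Pl m (D + 1) :=
  ⟨c, fun _ => 0, fun _ => zero_mem _, funext fun x => by simp⟩

lemma add_mem' {D : ℕ} {f g : E m → ℝ} (hf : f ∈ Pl m D) (hg : g ∈ Pl m D) :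
    (fun x => f x + g x) ∈ Pl m D := add_mem hf hg
lemma sub_mem' {D : ℕ} {f g : E m → ℝ} (hf : f ∈ Pl m D) (hg : g ∈ Pl m D) :
    (fun x => f x - g x) ∈ Pl m D := sub_mem hf hg
lemma smul_mem' {D : ℕ} (c : ℝ) {f : E m → ℝ} (hf : f ∈ Pl m D) :
    (fun x => c * f x) ∈ Pl m D := Submodule.smul_mem _ c hf
lemma sum_mem' {D : ℕ} {ι : Type*} (S : Finset ι) {f : ι → E m → ℝ} (hf : ∀ i ∈ S, f i ∈ Pl m D) :
    (fun x => ∑ i ∈ S, f i x) ∈ Pl m D := by
  have := Submodule.sum_mem _ hf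
  rwa [show ∑ i ∈ S, f i = fun x => ∑ i ∈ S, f i x from funext fun x => Finset.sum_apply _ _ _]
    at this

lemma lin_mul_mem {D : ℕ} (u : Fin m → ℝ) {r : E m → ℝ} (hr : r ∈ Pl m D) :
    (fun x => (∑ j, u j * x j) * r x) ∈ Pl m (D + 1) :=
  ⟨0, fun j x => u j * r x, fun j => smul_mem' _ hr, funext fun x => by
    rw [zero_add, Finset.sum_mul]; exact Finset.sum_congr rfl fun j _ => by ring⟩

lemma mulX_mem {D : ℕ} (j : Fin m) {r : E m → ℝ} (hr : r ∈ Pl m D) :
    (fun x => x j * r x) ∈ Pl m (D + 1) := by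
  have := lin_mul_mem (Pi.single j 1) hr
  simpa [Pi.single_apply] using this

lemma mulX_mem' {D : ℕ} (j : Fin m) {r : E m → ℝ} (hr : r ∈ Pl m (D - 1)) :
    (fun x => x j * r x) ∈ Pl m D := by
  cases D with
  | zero => rw [mem_zero.1 hr]; exact mem_zero.2 (funext fun x => by simp)
  | succ D => exact mulX_mem j hr

lemma c1 : ∀ {D : ℕ} {f : E m → ℝ}, f ∈ Pl m D → C1 f
  | 0, f, h => by rw [mem_zero.1 h]; exact c1_const 0
  | D + 1, _, ⟨c, r, hr, rfl⟩ =>
    (c1_const c).add (C1.sum fun j _ => (c1_coord j).mul (c1 (hr j)))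

lemma pd_const (c : ℝ) (i : Fin m) (x : E m) : pd i (fun _ : E m => c) x = 0 := by simp [pd]

lemma pd_form (c : ℝ) {r : Fin m → E m → ℝ} (hr : ∀ j, C1 (r j)) (i : Fin m) :
    pd i (fun x => c + ∑ j, x j * r j x) = fun x => r i x + ∑ j, x j * pd i (r j) x := by
  funext x
  rw [(c1_const c).pd_add (C1.sum fun j _ => (c1_coord j).mul (hr j)), pd_const, zero_add,
    pd_sum' fun j _ => (c1_coord j).mul (hr j)]
  simp only [(c1_coord _).pd_mul (hr _), pd_coord, Finset.sum_add_distrib, ite_mul, one_mul,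
    zero_mul, Finset.sum_ite_eq', Finset.mem_univ, if_true]

lemma pd_mem' : ∀ {D : ℕ} {f : E m → ℝ}, f ∈ Pl m D → ∀ i, pd i f ∈ Pl m (D - 1)
  | 0, f, h, i => by
    rw [mem_zero.1 h]; exact mem_zero.2 (funext fun x => pd_const 0 i x)
  | D + 1, _, ⟨c, r, hr, rfl⟩, i => by
    rw [pd_form c fun j => c1 (hr j)]
    exact add_mem' (hr i) (sum_mem' _ fun j _ => mulX_mem' j (pd_mem' (hr j) i))

lemma pd_mem {D : ℕ} {f : E m → ℝ} (h : f ∈ Pl m (D + 1)) (i : Fin m) : pd i f ∈ Pl m D :=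
  pd_mem' h i

lemma pd_mem_self {D : ℕ} {f : E m → ℝ} (h : f ∈ Pl m D) (i : Fin m) : pd i f ∈ Pl m D :=
  pd_mem (le_succ D h) i

lemma mul_mem : ∀ {D D' : ℕ} {f g : E m → ℝ}, f ∈ Pl m (D + 1) → g ∈ Pl m D' →
    (fun x => f x * g x) ∈ Pl m (D + D')
  | 0, D', _, g, ⟨c, r, hr, rfl⟩, hg => by
    have : (fun x : E m => (c + ∑ j, x j * r j x) * g x) = fun x => c * g x :=
      funext fun x => by simp [fun j => mem_zero.1 (hr j)]
    rw [this, zero_add]; exact smul_mem' c hg
  | D + 1, D', _, g, ⟨c, r, hr, rfl⟩, hg => by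
    have : (fun x : E m => (c + ∑ j, x j * r j x) * g x) =
        fun x => c * g x + ∑ j, x j * (r j x * g x) := funext fun x => by
      rw [add_mul, Finset.sum_mul]; simp only [mul_assoc]
    rw [this, show D + 1 + D' = D + D' + 1 by ring]
    exact add_mem' (smul_mem' c (mono (by omega) hg))
      (sum_mem' _ fun j _ => mulX_mem j (mul_mem (hr j) hg))

lemma shift_mem : ∀ {D : ℕ} {f : E m → ℝ}, f ∈ Pl m D → ∀ v : E m, (fun z => f (z + v)) ∈ Pl m D
  | 0, f, h, v => by rw [mem_zero.1 h]; exact zero_mem _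
  | D + 1, _, ⟨c, r, hr, rfl⟩, v => by
    have : (fun z : E m => c + ∑ j, (z + v) j * r j (z + v)) =
        fun z => (c + ∑ j, z j * r j (z + v)) + ∑ j, v j * r j (z + v) := funext fun z => by
      simp only [PiLp.add_apply, add_mul, Finset.sum_add_distrib]; ring
    show (fun z : E m => c + ∑ j, (z + v) j * r j (z + v)) ∈ _
    rw [this]
    exact add_mem' ⟨c, _, fun j => shift_mem (hr j) v, rfl⟩
      (sum_mem' _ fun j _ => smul_mem' _ (le_succ D (shift_mem (hr j) v)))


/-- Euler operator -/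
def Eu (f : E m → ℝ) (x : E m) : ℝ := ∑ j, x j * pd j f x

lemma euler : ∀ {D : ℕ} {f : E m → ℝ}, f ∈ Pl m (D + 1) → (fun x => Eu f x - D * f x) ∈ Pl m D
  | 0, _, ⟨c, r, hr, rfl⟩ => mem_zero.2 (funext fun x => by
      simp [Eu, fun j => mem_zero.1 (hr j), pd_const])
  | D + 1, _, ⟨c, r, hr, rfl⟩ => by
    refine ⟨-(D + 1 : ℕ) * c, fun j x => Eu (r j) x - D * r j x, fun j => euler (hr j),
      funext fun x => ?_⟩
    simp only [Eu, pd_form c fun j => c1 (hr j), mul_add, mul_sub, Finset.mul_sum,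
      Finset.sum_add_distrib, Finset.sum_sub_distrib]
    rw [Finset.sum_comm]
    have e1 : ∑ y, ∑ i, x i * (x y * pd i (r y) x) = ∑ y, ∑ i, x y * (x i * pd i (r y) x) :=
      Finset.sum_congr rfl fun _ _ => Finset.sum_congr rfl fun _ _ => by ring
    have e2 : ∑ i, ((D + 1 : ℕ) : ℝ) * (x i * r i x) =
        ∑ i, x i * (D * r i x) + ∑ i, x i * r i x := by
      rw [← Finset.sum_add_distrib]
      exact Finset.sum_congr rfl fun _ _ => by push_cast; ring
    rw [e1, e2]; ring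

/-- the number operator -/
def N0 (f : E m → ℝ) (x : E m) : ℝ := ∑ j, (x j * pd j f x - pd j (pd j f) x)

lemma N0_sub {D : ℕ} {f : E m → ℝ} (h : f ∈ Pl m (D + 1)) :
    (fun x => N0 f x - D * f x) ∈ Pl m D := by
  have : (fun x => N0 f x - D * f x) =
      fun x => (Eu f x - D * f x) - ∑ j, pd j (pd j f) x := funext fun x => by
    simp only [N0, Eu, Finset.sum_sub_distrib]; ring
  rw [this]
  exact sub_mem' (euler h) (sum_mem' _ fun j _ => pd_mem_self (pd_mem h j) j)

lemma N0_mem {D : ℕ} {f : E m → ℝ} (h : f ∈ Pl m D) : N0 f ∈ Pl m D :=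
  sum_mem' _ fun j _ => sub_mem' (mulX_mem' j (pd_mem' h j)) (pd_mem_self (pd_mem_self h j) j)

instance fin_Pl : ∀ D : ℕ, Module.Finite ℝ (Pl m D)
  | 0 => Module.Finite.bot ℝ _
  | D + 1 => by
    haveI := fin_Pl D
    let L : (ℝ × (Fin m → Pl m D)) →ₗ[ℝ] Pl m (D + 1) :=
      { toFun := fun p => ⟨fun x => p.1 + ∑ j, x j * (p.2 j).1 x, p.1, _, fun j => (p.2 j).2, rfl⟩
        map_add' := fun p q => Subtype.ext (funext fun x => by
          simp [mul_add, Finset.sum_add_distrib]; ring)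
        map_smul' := fun a p => Subtype.ext (funext fun x => by
          simp only [Prod.smul_fst, Prod.smul_snd, Pi.smul_apply, Submodule.coe_smul, smul_eq_mul,
            RingHom.id_apply, mul_add, Finset.mul_sum]
          congr 1
          exact Finset.sum_congr rfl fun j _ => by ring) }
    refine Module.Finite.of_surjective L ?_
    rintro ⟨_, c, r, hr, rfl⟩
    exact ⟨(c, fun j => ⟨r j, hr j⟩), rfl⟩

/-! ### the scalar product -/

/-- continuous, of polynomial growth -/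
structure C0 (f : E m → ℝ) : Prop where
  c : Continuous f
  g : PG f

lemma C0.add {f g : E m → ℝ} (hf : C0 f) (hg : C0 g) : C0 fun x => f x + g x :=
  ⟨hf.c.add hg.c, hf.g.add hg.g⟩
lemma C0.sub {f g : E m → ℝ} (hf : C0 f) (hg : C0 g) : C0 fun x => f x - g x :=
  ⟨hf.c.sub hg.c, hf.g.sub hg.g⟩
lemma C0.mul {f g : E m → ℝ} (hf : C0 f) (hg : C0 g) : C0 fun x => f x * g x :=
  ⟨hf.c.mul hg.c, hf.g.mul hg.g⟩
lemma c0_const (c : ℝ) : C0 fun _ : E m => c := ⟨continuous_const, pg_const c⟩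
lemma C0.sum {ι : Type*} (S : Finset ι) {f : ι → E m → ℝ} (hf : ∀ i ∈ S, C0 (f i)) :
    C0 fun x => ∑ i ∈ S, f i x :=
  ⟨continuous_finsetSum _ fun i hi => (hf i hi).c, PG.sum _ fun i hi => (hf i hi).g⟩
lemma C0.int {f : E m → ℝ} (hf : C0 f) : Integrable f (gam m) := integrable_of_PG hf.c hf.g
lemma C0.shift {f : E m → ℝ} (hf : C0 f) (v : E m) : C0 fun z => f (z + v) :=
  ⟨hf.c.comp (continuous_id.add continuous_const), pg_shift hf.g v⟩
lemma c0_of {f : E m → ℝ} (hf : C1 f) : C0 f := ⟨hf.cont, hf.g⟩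
lemma c0_pd {f : E m → ℝ} (hf : C1 f) (i : Fin m) : C0 (pd i f) := ⟨hf.contp i, hf.p i⟩
lemma c0 {D : ℕ} {f : E m → ℝ} (h : f ∈ Pl m D) : C0 f := c0_of (c1 h)

/-- Gaussian scalar product -/
def ip (f g : E m → ℝ) : ℝ := ∫ x, f x * g x ∂gam m

lemma ip_comm (f g : E m → ℝ) : ip f g = ip g f := by simp only [ip, mul_comm]
lemma ip_self_nonneg (f : E m → ℝ) : 0 ≤ ip f f := integral_nonneg fun _ => mul_self_nonneg _
lemma ip_add {f g h : E m → ℝ} (hf : C0 f) (hg : C0 g) (hh : C0 h) :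
    ip (fun x => f x + g x) h = ip f h + ip g h := by
  simp only [ip, add_mul]; exact integral_add (hf.mul hh).int (hg.mul hh).int
lemma ip_sub {f g h : E m → ℝ} (hf : C0 f) (hg : C0 g) (hh : C0 h) :
    ip (fun x => f x - g x) h = ip f h - ip g h := by
  simp only [ip, sub_mul]; exact integral_sub (hf.mul hh).int (hg.mul hh).int
lemma ip_smul (c : ℝ) (f h : E m → ℝ) : ip (fun x => c * f x) h = c * ip f h := by
  simp only [ip, mul_assoc]; exact integral_const_mul _ _
lemma ip_sum {ι : Type*} (S : Finset ι) {f : ι → E m → ℝ} {h : E m → ℝ} (hf : ∀ i ∈ S, C0 (f i))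
    (hh : C0 h) : ip (fun x => ∑ i ∈ S, f i x) h = ∑ i ∈ S, ip (f i) h := by
  simp only [ip, Finset.sum_mul]
  exact integral_finsetSum _ fun i hi => ((hf i hi).mul hh).int
lemma ip_add' {f g h : E m → ℝ} (hf : C0 f) (hg : C0 g) (hh : C0 h) :
    ip h (fun x => f x + g x) = ip h f + ip h g := by
  rw [ip_comm, ip_add hf hg hh, ip_comm f, ip_comm g]
lemma ip_sub' {f g h : E m → ℝ} (hf : C0 f) (hg : C0 g) (hh : C0 h) :
    ip h (fun x => f x - g x) = ip h f - ip h g := by
  rw [ip_comm, ip_sub hf hg hh, ip_comm f, ip_comm g]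
lemma ip_smul' (c : ℝ) (f h : E m → ℝ) : ip h (fun x => c * f x) = c * ip h f := by
  rw [ip_comm, ip_smul, ip_comm]
lemma ip_sum' {ι : Type*} (S : Finset ι) {f : ι → E m → ℝ} {h : E m → ℝ}
    (hf : ∀ i ∈ S, C0 (f i)) (hh : C0 h) :
    ip h (fun x => ∑ i ∈ S, f i x) = ∑ i ∈ S, ip h (f i) := by
  rw [ip_comm, ip_sum S hf hh]; simp only [ip_comm h]

lemma eq_zero_of_ip {f : E m → ℝ} (hf : C0 f) (h : ip f f = 0) : f = 0 := by
  haveI := O42.openPos (m := m)
  have h1 := (integral_eq_zero_iff_of_nonneg (fun x => mul_self_nonneg (f x)) (hf.mul hf).int).1 h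
  have h2 := (Continuous.ae_eq_iff_eq (gam m) (hf.mul hf).c continuous_const).1 h1
  exact funext fun x => mul_self_eq_zero.1 (congrFun h2 x)

lemma ip_sq_le {f g : E m → ℝ} (hf : C0 f) (hg : C0 g) : ip f g ^ 2 ≤ ip f f * ip g g := by
  have h : ∀ t : ℝ, 0 ≤ ip f f * (t * t) + 2 * ip f g * t + ip g g := fun t => by
    have h1 := ip_self_nonneg fun x => t * f x + g x
    have ht := (c0_const t).mul hf
    rw [ip_add ht hg (ht.add hg), ip_add' ht hg ht, ip_add' ht hg hg, ip_smul, ip_smul, ip_smul',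
      ip_smul', ip_comm g f] at h1
    linarith
  have := discrim_le_zero h
  unfold discrim at this
  nlinarith

/-- adjoint of the derivative -/
lemma ip_adj {f g : E m → ℝ} (hf : C1 f) (hg : C1 g) (i : Fin m) :
    ip f (fun x => x i * g x - pd i g x) = ip (pd i f) g := by
  have h := ibp_prod hf hg i
  have e : ∀ x : E m, f x * (x i * g x - pd i g x) = -(f x * (pd i g x - x i * g x)) :=
    fun x => by ring
  simp only [ip, e, integral_neg, h, neg_neg]

lemma ip_N0 {D : ℕ} {f g : E m → ℝ} (hf : C1 f) (hg : g ∈ Pl m D) :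
    ip f (N0 g) = ∑ j, ip (pd j f) (pd j g) := by
  have h1 : ∀ j, C1 (pd j g) := fun j => c1 (pd_mem_self hg j)
  unfold N0
  rw [ip_sum' _ (fun j _ => ((c0_of (c1_coord j)).mul (c0_of (h1 j))).sub (c0_pd (h1 j) j))
    (c0_of hf)]
  exact Finset.sum_congr rfl fun j _ => ip_adj hf (h1 j) j

/-! ### orthonormal bases and projections -/

/-- the space of continuous functions of polynomial growth -/
def V0 (m : ℕ) : Submodule ℝ (E m → ℝ) where
  carrier := {f | C0 f}
  add_mem' hf hg := hf.add hg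
  zero_mem' := c0_const 0
  smul_mem' c _ hf := (c0_const c).mul hf

/-- the scalar product, bundled -/
def ipB (m : ℕ) : V0 m →ₗ[ℝ] V0 m →ₗ[ℝ] ℝ :=
  LinearMap.mk₂ ℝ (fun f g => ip f.1 g.1) (fun f g h => ip_add f.2 g.2 h.2)
    (fun c f g => ip_smul c f.1 g.1) (fun h f g => ip_add' f.2 g.2 h.2)
    (fun c f g => ip_smul' c g.1 f.1)

lemma exists_on (m D : ℕ) : ∃ (M : ℕ) (h : Fin M → E m → ℝ), (∀ k, h k ∈ Pl m D) ∧
    (∀ k l, ip (h k) (h l) = if k = l then 1 else 0) ∧
    ∀ q ∈ Pl m D, q = fun x => ∑ k, ip q (h k) * h k x := by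
  let H : Pre (V0 m) := ⟨ipB m, 0, 0⟩
  have ok : H.Ok := ⟨fun u v => ip_comm _ _, fun _ _ => rfl, fun u => ip_self_nonneg _,
    fun _ => le_rfl, fun _ _ => rfl⟩
  let S : Submodule ℝ (V0 m) := (Pl m D).comap (V0 m).subtype
  let ι : Pl m D →ₗ[ℝ] V0 m := Submodule.inclusion fun f hf => c0 hf
  obtain ⟨n, b, hb⟩ := Module.Finite.exists_fin (R := ℝ) (M := Pl m D)
  obtain ⟨M, f, on, hf, hT⟩ := gram ok S (T := range fun k => ι (b k)) (finite_range _)
    (by rintro _ ⟨k, rfl⟩; exact (b k).2)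
  refine ⟨M, fun k => (f k).1, hf, on, fun q hq => ?_⟩
  have h1 : ∀ y : Pl m D, ι y ∈ spn ok f := fun y => by
    have hy : y ∈ Submodule.span ℝ (range b) := by rw [hb]; trivial
    refine Submodule.span_induction (p := fun y _ => ι y ∈ spn ok f) ?_ ?_ ?_ ?_ hy
    · rintro _ ⟨k, rfl⟩; exact hT _ ⟨k, rfl⟩
    · rw [map_zero]; exact zero_mem _
    · intro x y _ _ h1 h2; rw [map_add]; exact add_mem h1 h2
    · intro a x _ h1; rw [map_smul]; exact Submodule.smul_mem _ a h1
  have h2 : InSp H f (ι ⟨q, hq⟩) := h1 _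
  have h3 := eq_zero_of_ip (ι ⟨q, hq⟩ - ∑ k, H.N (ι ⟨q, hq⟩) (f k) • f k).2 h2
  funext x
  have h4 := congrFun h3 x
  simp only [Submodule.coe_sub, Submodule.coe_sum, Submodule.coe_smul, Pi.sub_apply,
    Finset.sum_apply, Pi.smul_apply, smul_eq_mul, Pi.zero_apply] at h4
  exact sub_eq_zero.1 h4

/-- the dimension of `Pl m D` -/
def dm (m D : ℕ) : ℕ := (exists_on m D).choose
/-- an orthonormal basis of `Pl m D` -/
def hm (m D : ℕ) : Fin (dm m D) → E m → ℝ := (exists_on m D).choose_spec.choose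

lemma hm_mem (D : ℕ) (k : Fin (dm m D)) : hm m D k ∈ Pl m D :=
  (exists_on m D).choose_spec.choose_spec.1 k
lemma hm_on (D : ℕ) (k l : Fin (dm m D)) : ip (hm m D k) (hm m D l) = if k = l then 1 else 0 :=
  (exists_on m D).choose_spec.choose_spec.2.1 k l
lemma hm_span {D : ℕ} {q : E m → ℝ} (hq : q ∈ Pl m D) :
    q = fun x => ∑ k, ip q (hm m D k) * hm m D k x :=
  (exists_on m D).choose_spec.choose_spec.2.2 q hq

/-- orthogonal projection onto `Pl m D` -/
def pr (D : ℕ) (G : E m → ℝ) (x : E m) : ℝ := ∑ k, ip G (hm m D k) * hm m D k x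

lemma pr_mem (D : ℕ) (G : E m → ℝ) : pr D G ∈ Pl m D :=
  sum_mem' _ fun k _ => smul_mem' _ (hm_mem D k)

lemma pr_of_mem {D : ℕ} {q : E m → ℝ} (hq : q ∈ Pl m D) : pr D q = q := (hm_span hq).symm

lemma ip_pr {D : ℕ} {G r : E m → ℝ} (hG : C0 G) (hr : r ∈ Pl m D) : ip (pr D G) r = ip G r := by
  have h0 : ∀ k, C0 (hm m D k) := fun k => c0 (hm_mem D k)
  have h1 : ∀ l, ip (pr D G) (hm m D l) = ip G (hm m D l) := fun l => by
    unfold pr
    rw [ip_sum _ (fun k _ => (c0_const _).mul (h0 k)) (h0 l)]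
    simp only [ip_smul, hm_on, mul_ite, mul_one, mul_zero, Finset.sum_ite_eq', Finset.mem_univ,
      if_true]
  rw [hm_span hr, ip_sum' _ (fun k _ => (c0_const _).mul (h0 k)) (c0 (pr_mem D G)),
    ip_sum' _ (fun k _ => (c0_const _).mul (h0 k)) hG]
  simp only [ip_smul', h1]

lemma ip_res {D : ℕ} {G r : E m → ℝ} (hG : C0 G) (hr : r ∈ Pl m D) :
    ip (fun x => G x - pr D G x) r = 0 := by
  rw [ip_sub hG (c0 (pr_mem D G)) (c0 hr), ip_pr hG hr, sub_self]

lemma pr_unique {D : ℕ} {G q : E m → ℝ} (hG : C0 G) (hq : q ∈ Pl m D)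
    (h : ∀ r ∈ Pl m D, ip q r = ip G r) : pr D G = q := by
  rw [← pr_of_mem hq]
  funext x
  simp only [pr, h _ (hm_mem D _)]



/-- Pythagoras -/
lemma pyth {D : ℕ} {G : E m → ℝ} (hG : C0 G) : ip G G = ip (pr D G) (pr D G) +
    ip (fun x => G x - pr D G x) (fun x => G x - pr D G x) := by
  have hp := c0 (pr_mem D G)
  rw [ip_sub' hG hp (hG.sub hp), ip_res hG (pr_mem D G), ip_sub hG hp hG, ip_pr hG (pr_mem D G),
    ip_comm G (pr D G)]
  ring

lemma pr_le {D : ℕ} {G : E m → ℝ} (hG : C0 G) : ip (pr D G) (pr D G) ≤ ip G G := by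
  rw [pyth (D := D) hG]; linarith [ip_self_nonneg fun x => G x - pr D G x]

lemma res_le {D : ℕ} {G : E m → ℝ} (hG : C0 G) :
    ip (fun x => G x - pr D G x) (fun x => G x - pr D G x) ≤ ip G G := by
  rw [pyth (D := D) hG]; linarith [ip_self_nonneg (pr D G)]

/-- **(P1)** -/
theorem pd_pr (D : ℕ) {G : E m → ℝ} (hG : C1 G) (j : Fin m) :
    pd j (pr (D + 1) G) = pr D (pd j G) := by
  refine (pr_unique (c0_pd hG j) (pd_mem (pr_mem _ G) j) fun r hr => ?_).symm
  rw [← ip_adj (c1 (pr_mem _ G)) (c1 hr), ← ip_adj hG (c1 hr)]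
  exact ip_pr (c0_of hG) (sub_mem' (mulX_mem j hr) (le_succ D (pd_mem_self hr j)))

/-- the Dirichlet energy -/
def en (f : E m → ℝ) : ℝ := ∑ j, ip (pd j f) (pd j f)

lemma en_nonneg (f : E m → ℝ) : 0 ≤ en f := Finset.sum_nonneg fun _ _ => ip_self_nonneg _

lemma split {D : ℕ} {q : E m → ℝ} (hq : q ∈ Pl m (D + 1)) :
    en q = en (pr D q) + D * ip (fun x => q x - pr D q x) (fun x => q x - pr D q x) := by
  have hp := pr_mem D q
  set h : E m → ℝ := fun x => q x - pr D q x with hh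
  have hm' : h ∈ Pl m (D + 1) := sub_mem' hq (le_succ D hp)
  have o : ∀ r ∈ Pl m D, ip h r = 0 := fun r hr => ip_res (c0 hq) hr
  have e1 : en h = D * ip h h := by
    have := o _ (N0_sub hm')
    rw [ip_sub' (c0 (N0_mem hm')) ((c0_const _).mul (c0 hm')) (c0 hm'), ip_smul',
      ip_N0 (c1 hm') hm'] at this
    exact sub_eq_zero.1 this
  have e2 : ∑ j, ip (pd j h) (pd j (pr D q)) = 0 := by
    rw [← ip_N0 (c1 hm') hp]; exact o _ (N0_mem hp)
  have e3 : ∀ j, pd j q = fun x => pd j h x + pd j (pr D q) x := fun j => by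
    funext x
    rw [← (c1 hm').pd_add (c1 hp)]
    congr 1; funext y; simp [hh]
  have e4 : ∀ j, ip (pd j q) (pd j q) = ip (pd j h) (pd j h) + 2 * ip (pd j h) (pd j (pr D q)) +
      ip (pd j (pr D q)) (pd j (pr D q)) := fun j => by
    have a := c0_pd (c1 hm') j
    have b := c0_pd (c1 hp) j
    rw [e3 j, ip_add a b (a.add b), ip_add' a b a, ip_add' a b b, ip_comm (pd j (pr D q)) (pd j h)]
    ring
  rw [← e1]
  simp only [en, e4, Finset.sum_add_distrib, ← Finset.mul_sum, e2]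
  ring

/-- **(P3)** -/
theorem en_le : ∀ {D : ℕ} {q : E m → ℝ}, q ∈ Pl m (D + 1) → en q ≤ D * ip q q
  | 0, q, hq => by
    have : ∀ j, pd j q = 0 := fun j => mem_zero.1 (pd_mem hq j)
    simp [en, this, ip]
  | D + 1, q, hq => by
    have h1 := en_le (pr_mem (D + 1) q)
    have h2 := ip_self_nonneg (pr (D + 1) q)
    rw [split hq, pyth (D := D + 1) (c0 hq)]
    push_cast
    linarith

/-- **(P2)** for polynomials -/
theorem le_en_poly (D : ℕ) : ∀ {D' : ℕ} {q : E m → ℝ}, q ∈ Pl m D' → (∀ r ∈ Pl m D, ip q r = 0) →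
    D * ip q q ≤ en q
  | 0, q, hq, _ => by rw [mem_zero.1 hq]; simpa [ip] using en_nonneg (0 : E m → ℝ)
  | D' + 1, q, hq, ho => by
    rcases le_or_gt D D' with h | h
    · have h1 := le_en_poly D (pr_mem D' q) fun r hr => by
        rw [ip_pr (c0 hq) (mono h hr)]; exact ho r hr
      have h2 := ip_self_nonneg fun x => q x - pr D' q x
      have h3 : (D : ℝ) ≤ D' := by exact_mod_cast h
      rw [split hq, pyth (D := D') (c0 hq)]
      nlinarith
    · rw [ho q (mono h hq), mul_zero]; exact en_nonneg q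

end Crest.Agent.T157.Hm
end
end

-- ▼ part T157/HmB_3

/-!
# Row 157, block B/S4b (helper3): Gaussian polynomial calculus, part B (density, (P2))
-/

set_option autoImplicit false
set_option linter.all false

noncomputable section

namespace Crest.Agent.T157.Hm

open MeasureTheory ProbabilityTheory Real Set Filter Topology
open Crest.Agent.R238.Gap Crest.Agent.R238.GapPc Crest.Agent.R238.GapPoinc Crest.Agent.R253.Meh74
open Crest.Agent.T157.Tw
open scoped ENNReal

variable {m : ℕ}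

lemma inner_pow_mem (t : E m) : ∀ k : ℕ, (fun x : E m => (inner ℝ x t) ^ k) ∈ Pl m (k + 1)
  | 0 => by simpa using const_mem (m := m) 0 1
  | k + 1 => by
    have := lin_mul_mem (fun j => t j) (inner_pow_mem t k)
    convert this using 2 with x
    rw [pow_succ', PiLp.inner_apply]
    simp [mul_comm]

lemma int_exp (t : E m) (c : ℝ) : Integrable (fun x : E m => exp (c * inner ℝ x t)) (gam m) := by
  have h := IsGaussian.map_eq_gaussianReal (μ := gam m) (innerSL ℝ t)
  have h1 := integrable_exp_mul_gaussianReal (μ := (gam m)[innerSL ℝ t])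
    (v := (Var[innerSL ℝ t; gam m]).toNNReal) c
  rw [← h] at h1
  have h2 := (integrable_map_measure h1.aestronglyMeasurable
    (innerSL ℝ t).continuous.measurable.aemeasurable).1 h1
  refine h2.congr (ae_of_all _ fun x => ?_)
  simp [real_inner_comm]

lemma memLp_exp (t : E m) : MemLp (fun x : E m => exp |inner ℝ x t|) 2 (gam m) := by
  have hc : Continuous fun x : E m => exp |inner ℝ x t| := by fun_prop
  rw [memLp_two_iff_integrable_sq hc.aestronglyMeasurable]
  refine ((int_exp t 2).add (int_exp t (-2))).mono' (hc.pow 2).aestronglyMeasurable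
    (ae_of_all _ fun x => ?_)
  rw [Real.norm_eq_abs, abs_of_nonneg (sq_nonneg _), ← exp_nat_mul]
  have h1 := exp_pos (2 * inner ℝ x t)
  have h2 := exp_pos (-2 * inner ℝ x t)
  simp only [Pi.add_apply]
  rcases abs_cases (inner ℝ x t) with h | h
  · rw [h.1]; push_cast; linarith
  · rw [h.1]; push_cast; rw [mul_neg, ← neg_mul]; linarith

lemma C0.memLp {f : E m → ℝ} (hf : C0 f) : MemLp f 2 (gam m) :=
  (memLp_two_iff_integrable_sq hf.c.aestronglyMeasurable).2
    (by simpa only [sq] using (hf.mul hf).int)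

lemma fourier_zero {u : E m → ℝ} (hu : MemLp u 2 (gam m))
    (h : ∀ D, ∀ p ∈ Pl m D, ∫ x, u x * p x ∂gam m = 0) (t : E m) :
    ∫ x, (u x : ℂ) * Complex.exp (inner ℝ x t * Complex.I) ∂gam m = 0 := by
  set F : ℕ → E m → ℂ := fun N x => ∑ k ∈ Finset.range N,
    (Complex.I ^ k / k.factorial) * ((u x * (inner ℝ x t) ^ k : ℝ) : ℂ) with hF
  have hi : ∀ k : ℕ, Integrable (fun x => u x * (inner ℝ x t) ^ k) (gam m) := fun k =>
    hu.integrable_mul (c0 (inner_pow_mem t k)).memLp
  have hi' : ∀ k : ℕ, Integrable (fun x => (Complex.I ^ k / k.factorial) *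
      ((u x * (inner ℝ x t) ^ k : ℝ) : ℂ)) (gam m) := fun k => (hi k).ofReal.const_mul _
  have h0 : ∀ N, ∫ x, F N x ∂gam m = 0 := fun N => by
    simp only [hF]
    rw [integral_finsetSum _ fun k _ => hi' k]
    refine Finset.sum_eq_zero fun k _ => ?_
    rw [integral_const_mul, integral_complex_ofReal, h _ _ (inner_pow_mem t k)]
    simp
  have hb : Integrable (fun x => |u x| * exp |inner ℝ x t|) (gam m) :=
    hu.abs.integrable_mul (memLp_exp t)
  have hlim := tendsto_integral_of_dominated_convergence (F := F)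
    (f := fun x => (u x : ℂ) * Complex.exp (inner ℝ x t * Complex.I)) _
    (fun N => (integrable_finsetSum _ fun k _ => hi' k).aestronglyMeasurable) hb
    (fun N => ae_of_all _ fun x => by
      refine (norm_sum_le _ _).trans ?_
      have e : ∀ k : ℕ, ‖(Complex.I ^ k / k.factorial) * ((u x * (inner ℝ x t) ^ k : ℝ) : ℂ)‖ =
          |u x| * (|inner ℝ x t| ^ k / k.factorial) := fun k => by
        rw [norm_mul, norm_div, norm_pow, Complex.norm_I, one_pow, Complex.norm_real,
          Complex.norm_natCast, Real.norm_eq_abs, abs_mul, abs_pow]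
        ring
      simp only [e, ← Finset.mul_sum]
      exact mul_le_mul_of_nonneg_left (Real.sum_le_exp_of_nonneg (abs_nonneg _) N) (abs_nonneg _))
    (ae_of_all _ fun x => by
      have hs := ((NormedSpace.expSeries_div_hasSum_exp
        ((inner ℝ x t : ℝ) * Complex.I)).mul_left (u x : ℂ)).tendsto_sum_nat
      rw [← Complex.exp_eq_exp_ℂ] at hs
      refine hs.congr fun N => Finset.sum_congr rfl fun k _ => ?_
      push_cast
      rw [mul_pow]; ring)
  simp only [h0] at hlim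
  exact (tendsto_nhds_unique hlim tendsto_const_nhds)

/-- polynomials are total in Gaussian `L²` -/
theorem ae_zero_of_orth {u : E m → ℝ} (hu : MemLp u 2 (gam m))
    (h : ∀ D, ∀ p ∈ Pl m D, ∫ x, u x * p x ∂gam m = 0) : u =ᵐ[gam m] 0 := by
  have hi : Integrable u (gam m) := hu.integrable one_le_two
  have hm := hi.aestronglyMeasurable.aemeasurable
  have hm' : AEMeasurable (fun x => -u x) (gam m) := hm.neg
  have f1 : ∫⁻ x, ENNReal.ofReal (u x) ∂gam m ≠ ∞ := hi.lintegral_lt_top.ne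
  have f2 : ∫⁻ x, ENNReal.ofReal (-u x) ∂gam m ≠ ∞ := hi.neg.lintegral_lt_top.ne
  haveI := isFiniteMeasure_withDensity f1
  haveI := isFiniteMeasure_withDensity f2
  have hb : ∀ t : E m, ∀ {v : E m → ℝ}, Integrable v (gam m) →
      Integrable (fun x => v x • Complex.exp (inner ℝ x t * Complex.I)) (gam m) := by
    intro t v hv
    refine hv.norm.mono' (hv.aestronglyMeasurable.smul
      (by fun_prop : Continuous fun x : E m =>
        Complex.exp (inner ℝ x t * Complex.I)).aestronglyMeasurable) (ae_of_all _ fun x => ?_)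
    rw [norm_smul, Complex.norm_exp_ofReal_mul_I, mul_one]
  have key : (gam m).withDensity (fun x => ENNReal.ofReal (u x)) =
      (gam m).withDensity (fun x => ENNReal.ofReal (-u x)) := by
    refine Measure.ext_of_charFun (funext fun t => ?_)
    rw [charFun_apply, charFun_apply,
      integral_withDensity_eq_integral_toReal_smul₀ hm.ennreal_ofReal
        (ae_of_all _ fun _ => ENNReal.ofReal_lt_top),
      integral_withDensity_eq_integral_toReal_smul₀ hm'.ennreal_ofReal
        (ae_of_all _ fun _ => ENNReal.ofReal_lt_top), ← sub_eq_zero]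
    simp only [ENNReal.toReal_ofReal', Pi.neg_apply]
    rw [← integral_sub (hb t (v := fun x => max (u x) 0) hi.pos_part)
      (hb t (v := fun x => max (-u x) 0) hi.neg_part), ← fourier_zero hu h t]
    refine integral_congr_ae (ae_of_all _ fun x => ?_)
    simp only [Complex.real_smul]
    rw [← sub_mul, ← Complex.ofReal_sub, max_zero_sub_max_neg_zero_eq_self]
  have h2 := (withDensity_eq_iff hm.ennreal_ofReal hm'.ennreal_ofReal f1).1 key
  filter_upwards [h2] with x hx
  show u x = 0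
  rcases le_total 0 (u x) with h0 | h0
  · rw [ENNReal.ofReal_of_nonpos (show -u x ≤ 0 by linarith), ENNReal.ofReal_eq_zero] at hx
    exact le_antisymm hx h0
  · rw [ENNReal.ofReal_of_nonpos h0, eq_comm, ENNReal.ofReal_eq_zero] at hx
    exact le_antisymm h0 (by linarith)

/-- testing against polynomials controls the norm -/
theorem ip_le_of_test {f : E m → ℝ} (hf : C0 f) {c : ℝ} (hc : 0 ≤ c)
    (h : ∀ D, ∀ p ∈ Pl m D, ip f p ^ 2 ≤ c * ip p p) : ip f f ≤ c := by
  let S : Submodule ℝ (Lp ℝ 2 (gam m)) :=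
    { carrier := {u | ∃ D, ∃ p ∈ Pl m D, (u : E m → ℝ) =ᵐ[gam m] p}
      add_mem' := by
        rintro u v ⟨D, p, hp, hu⟩ ⟨D', q, hq, hv⟩
        exact ⟨max D D', p + q, add_mem (mono (le_max_left _ _) hp) (mono (le_max_right _ _) hq),
          (Lp.coeFn_add u v).trans (hu.add hv)⟩
      zero_mem' := ⟨0, 0, zero_mem _, Lp.coeFn_zero _ _ _⟩
      smul_mem' := by
        rintro a u ⟨D, p, hp, hu⟩
        exact ⟨D, a • p, Submodule.smul_mem _ a hp, (Lp.coeFn_smul a u).trans (hu.const_smul a)⟩ }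
  have hin : ∀ (u v : Lp ℝ 2 (gam m)) (p q : E m → ℝ), (u : E m → ℝ) =ᵐ[gam m] p →
      (v : E m → ℝ) =ᵐ[gam m] q → inner ℝ u v = ip p q := by
    intro u v p q hu hv
    rw [L2.inner_def]
    refine integral_congr_ae ?_
    filter_upwards [hu, hv] with x h1 h2
    simp [h1, h2, mul_comm]
  have hS : S.topologicalClosure = ⊤ := by
    rw [Submodule.topologicalClosure_eq_top_iff, Submodule.eq_bot_iff]
    intro u hu
    rw [Lp.eq_zero_iff_ae_eq_zero]
    refine ae_zero_of_orth (Lp.memLp u) fun D p hp => ?_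
    have h1 := (Submodule.mem_orthogonal' S u).1 hu ((c0 hp).memLp.toLp p)
      ⟨D, p, hp, MemLp.coeFn_toLp _⟩
    rwa [hin u _ u p (ae_eq_refl _) (MemLp.coeFn_toLp _)] at h1
  set F := hf.memLp.toLp f with hF
  have hFf : (F : E m → ℝ) =ᵐ[gam m] f := MemLp.coeFn_toLp _
  have hcl : IsClosed {u : Lp ℝ 2 (gam m) | inner ℝ F u ^ 2 ≤ c * inner ℝ u u} :=
    isClosed_le (by fun_prop) (by fun_prop)
  have hsub : (S : Set (Lp ℝ 2 (gam m))) ⊆ {u | inner ℝ F u ^ 2 ≤ c * inner ℝ u u} := by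
    rintro u ⟨D, p, hp, hu⟩
    rw [mem_setOf_eq, hin F u f p hFf hu, hin u u p p hu hu]
    exact h D p hp
  have hFm : F ∈ S.topologicalClosure := by rw [hS]; trivial
  have h3 := closure_minimal hsub hcl hFm
  rw [mem_setOf_eq, hin F F f f hFf hFf] at h3
  by_contra hcon
  push Not at hcon
  nlinarith

/-- **(P2)**, orthogonality form -/
theorem le_en (D : ℕ) {f : E m → ℝ} (hf : C1 f) (ho : ∀ r ∈ Pl m D, ip f r = 0) :
    D * ip f f ≤ en f := by
  rcases Nat.eq_zero_or_pos D with rfl | hD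
  · simpa using en_nonneg f
  have hD' : (0 : ℝ) < D := by exact_mod_cast hD
  rw [mul_comm, ← le_div_iff₀ hD']
  refine ip_le_of_test (c0_of hf) (div_nonneg (en_nonneg f) hD'.le) fun D' p hp => ?_
  set K := max D D' with hK
  have hp' : p ∈ Pl m (K + 1) := mono ((le_max_right _ _).trans (Nat.le_succ _)) hp
  have h1 := le_en_poly D (pr_mem (K + 1) f) fun r hr => by
    rw [ip_pr (c0_of hf) (mono ((le_max_left _ _).trans (Nat.le_succ _)) hr)]; exact ho r hr
  have h2 : en (pr (K + 1) f) ≤ en f := Finset.sum_le_sum fun j _ => by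
    rw [pd_pr K hf j]; exact pr_le (c0_pd hf j)
  rw [← ip_pr (c0_of hf) hp']
  refine (ip_sq_le (c0 (pr_mem _ f)) (c0 hp)).trans
    (mul_le_mul_of_nonneg_right ?_ (ip_self_nonneg p))
  rw [le_div_iff₀ hD']; linarith

lemma c1_res (D : ℕ) {G : E m → ℝ} (hG : C1 G) : C1 fun x => G x - pr D G x :=
  hG.sub (c1 (pr_mem D G))

lemma pd_sub {f g : E m → ℝ} (hf : C1 f) (hg : C1 g) (j : Fin m) :
    pd j (fun x => f x - g x) = fun x => pd j f x - pd j g x := by
  funext x
  have h := (hf.sub hg).pd_add hg j x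
  simp only [sub_add_cancel] at h
  linarith

/-- the derivative of the residual is the residual of the derivative -/
lemma pd_res (D : ℕ) {G : E m → ℝ} (hG : C1 G) (j : Fin m) :
    pd j (fun x => G x - pr (D + 1) G x) = fun x => pd j G x - pr D (pd j G) x := by
  rw [pd_sub hG (c1 (pr_mem _ G)), pd_pr D hG]

/-- **(P2)** -/
theorem res_le_en (D : ℕ) {G : E m → ℝ} (hG : C1 G) :
    D * ip (fun x => G x - pr D G x) (fun x => G x - pr D G x) ≤ en G := by
  cases D with
  | zero => simpa using en_nonneg G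
  | succ D =>
    refine (le_en (D + 1) (c1_res _ hG) fun r hr => ip_res (c0_of hG) hr).trans
      (Finset.sum_le_sum fun j _ => ?_)
    rw [pd_res D hG j]; exact res_le (c0_pd hG j)

/-! ### dictionary with `MvPolynomial` -/

lemma monomial_mem : ∀ (k : ℕ) (α : Fin m →₀ ℕ), (α.sum fun _ e => e) = k →
    (fun x : E m => α.prod fun i e => x i ^ e) ∈ Pl m (k + 1) := by
  intro k α
  induction α using Finsupp.induction_linear generalizing k with
  | zero => rintro rfl; simpa using const_mem (m := m) 0 1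
  | add a b ha hb =>
    rintro rfl
    have := mul_mem (ha _ rfl) (hb _ rfl)
    rw [Finsupp.sum_add_index' (fun _ => rfl) (fun _ _ _ => rfl), add_assoc]
    convert this using 2 with x
    rw [Finsupp.prod_add_index' (fun _ => pow_zero _) (fun _ _ _ => pow_add _ _ _)]
  | single i e =>
    rintro rfl
    simp only [Finsupp.sum_single_index, Finsupp.prod_single_index, pow_zero]
    induction e with
    | zero => simpa using const_mem (m := m) 0 1
    | succ e ih => simpa only [pow_succ'] using mulX_mem i ih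

lemma eval_mem {D : ℕ} (p : MvPolynomial (Fin m) ℝ) (hp : p.totalDegree < D) :
    (fun x : E m => MvPolynomial.eval (fun i => x i) p) ∈ Pl m D := by
  have e : (fun x : E m => MvPolynomial.eval (fun i => x i) p) =
      fun x => ∑ α ∈ p.support, p.coeff α * α.prod fun i e => x i ^ e :=
    funext fun x => MvPolynomial.eval_eq _ _
  rw [e]
  exact sum_mem' _ fun α hα => smul_mem' _
    (mono ((Nat.succ_le_succ (MvPolynomial.le_totalDegree hα)).trans hp) (monomial_mem _ α rfl))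

lemma exists_eval : ∀ {D : ℕ} {f : E m → ℝ}, f ∈ Pl m D → ∃ p : MvPolynomial (Fin m) ℝ,
    p.totalDegree ≤ D - 1 ∧ ∀ x, f x = MvPolynomial.eval (fun i => x i) p
  | 0, f, h => ⟨0, by simp, fun x => by simp [mem_zero.1 h]⟩
  | D + 1, _, ⟨c, r, hr, rfl⟩ => by
    cases D with
    | zero => exact ⟨MvPolynomial.C c, by simp, fun x => by simp [fun j => mem_zero.1 (hr j)]⟩
    | succ D =>
      choose p hp hp' using fun j => exists_eval (hr j)
      refine ⟨MvPolynomial.C c + ∑ j, MvPolynomial.X j * p j, ?_, fun x => by simp [hp']⟩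
      refine (MvPolynomial.totalDegree_add _ _).trans (max_le (by simp) ?_)
      refine MvPolynomial.totalDegree_finsetSum_le fun j _ => ?_
      refine (MvPolynomial.totalDegree_mul _ _).trans ?_
      have := hp j
      rw [MvPolynomial.totalDegree_X]
      omega

end Crest.Agent.T157.Hm
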