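import Crest.Agent.T157.EntA_34

/-!
Row 157, part E (helper34): finite entropy toolbox II.
Relative entropy `kl` (log-sum, data processing, joint convexity, chain rule), Rothaus' lemma,
defective ⇒ tight log-Sobolev, Herbst's argument.
-/

set_option autoImplicit false
set_option linter.unusedSectionVars false

namespace Crest.Agent.T157.Ent

open Finset Matrix Chain22 Filter Topology

variable {Ω : Type*} [Fintype Ω] {π : Ω → ℝ}

/-! ### Relative entropy -/

/-- relative entropy of two vectors (`E.kl v w = kl (E.prob v) (E.prob w)` by `rfl`) -/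
noncomputable def kl (ν μ : Ω → ℝ) : ℝ := ∑ x, ν x * Real.log (ν x / μ x)

/-- absolute continuity -/
def AC (ν μ : Ω → ℝ) : Prop := ∀ x, μ x = 0 → ν x = 0

theorem AC.of_pos (ν : Ω → ℝ) {μ : Ω → ℝ} (h : ∀ x, 0 < μ x) : AC ν μ :=
  fun x hx => absurd hx (h x).ne'

theorem AC.mul_div {ν μ : Ω → ℝ} (h : AC ν μ) (x : Ω) : μ x * (ν x / μ x) = ν x := by
  by_cases hx : μ x = 0
  · rw [hx, h x hx, zero_mul]
  · field_simp

theorem AC.mean_div_mul {ν μ : Ω → ℝ} (h : AC ν μ) (g : Ω → ℝ) :
    mean μ (fun x => ν x / μ x * g x) = mean ν g :=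
  sum_congr rfl fun x _ => by rw [← mul_assoc, h.mul_div]

theorem AC.mean_div {ν μ : Ω → ℝ} (h : AC ν μ) (hν : IsP ν) : mean μ (fun x => ν x / μ x) = 1 := by
  rw [← hν.sum1]; exact sum_congr rfl fun x _ => h.mul_div x

theorem kl_eq_ent {ν μ : Ω → ℝ} (hν : IsP ν) (h : AC ν μ) :
    kl ν μ = ent μ (fun x => ν x / μ x) := by
  rw [ent_eq, h.mean_div hν, h.mean_div_mul]; simp [kl, mean]

theorem isP_dens (h : IsP π) {f : Ω → ℝ} (hf : ∀ x, 0 ≤ f x) (h1 : mean π f = 1) :
    IsP fun x => π x * f x := ⟨fun x => mul_nonneg (h.nn x) (hf x), h1⟩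

theorem mean_dens (f g : Ω → ℝ) : mean (fun x => π x * f x) g = mean π fun x => f x * g x :=
  sum_congr rfl fun x _ => by ring

theorem ent_eq_kl {f : Ω → ℝ} (h1 : mean π f = 1) : ent π f = kl (fun x => π x * f x) π := by
  rw [ent_eq, h1, kl]
  simp only [Real.log_one, mul_zero, sub_zero]
  refine sum_congr rfl fun x _ => ?_
  by_cases hx : π x = 0
  · simp [hx]
  · rw [mul_div_cancel_left₀ _ hx, mul_assoc]

section klbasic

variable {ν μ : Ω → ℝ}

theorem kl_nonneg (hν : IsP ν) (hμ : IsP μ) (h : AC ν μ) : 0 ≤ kl ν μ := by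
  rw [kl_eq_ent hν h]; exact hμ.ent_nonneg fun x => div_nonneg (hν.nn x) (hμ.nn x)

theorem kl_self (ν : Ω → ℝ) : kl ν ν = 0 :=
  sum_eq_zero fun x _ => by
    by_cases hx : ν x = 0
    · simp [hx]
    · rw [div_self hx, Real.log_one, mul_zero]

/-- Pinsker (constant one). -/
theorem tv_sq_le_kl (hν : IsP ν) (hμ : IsP μ) (h : AC ν μ) : tv ν μ ^ 2 ≤ kl ν μ := by
  have := hμ.pinsker (f := fun x => ν x / μ x) (fun x => div_nonneg (hν.nn x) (hμ.nn x))
    (h.mean_div hν)
  simp only [h.mul_div] at this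
  rwa [kl_eq_ent hν h]

/-- Donsker–Varadhan. -/
theorem mean_le_kl (hν : IsP ν) (hμ : IsP μ) (h : AC ν μ) (F : Ω → ℝ) :
    mean ν F ≤ kl ν μ + Real.log (mean μ fun x => Real.exp (F x)) := by
  have := hμ.mean_mul_le_ent (f := fun x => ν x / μ x) (fun x => div_nonneg (hν.nn x) (hμ.nn x)) F
  rw [ip_eq_mean, h.mean_div_mul, h.mean_div hν, one_mul, ← kl_eq_ent hν h] at this
  exact this

theorem mean_le_kl_theta (hν : IsP ν) (hμ : IsP μ) (h : AC ν μ) (F : Ω → ℝ) {θ : ℝ} (hθ : 0 < θ) :
    mean ν F ≤ (kl ν μ + Real.log (mean μ fun x => Real.exp (θ * F x))) / θ := by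
  have := mean_le_kl hν hμ h fun x => θ * F x
  rw [mean_const_mul] at this
  rw [le_div_iff₀ hθ]; linarith


theorem kl_le_log (hν : IsP ν) (hμ : IsP μ) {M : ℝ} (hM : ∀ x, ν x ≤ M * μ x) :
    kl ν μ ≤ Real.log M := by
  have h : AC ν μ := fun x hx => le_antisymm (by simpa [hx] using hM x) (hν.nn x)
  have := ent_le_of_bdd hμ (f := fun x => ν x / μ x) (fun x => div_nonneg (hν.nn x) (hμ.nn x))
    (M := M) fun x hx => by
      rw [h.mean_div hν, mul_one, div_le_iff₀ (lt_of_le_of_ne (hμ.nn x) (Ne.symm hx))]; exact hM x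
  rwa [h.mean_div hν, mul_one, ← kl_eq_ent hν h] at this


end klbasic



/-- The log-sum inequality. -/
theorem log_sum {a b : Ω → ℝ} (ha : ∀ x, 0 ≤ a x) (hb : ∀ x, 0 ≤ b x) (h : AC a b) :
    (∑ x, a x) * Real.log ((∑ x, a x) / ∑ x, b x) ≤ ∑ x, a x * Real.log (a x / b x) := by
  rcases eq_or_lt_of_le (sum_nonneg fun x (_ : x ∈ univ) => ha x) with hA | hA
  · have := (sum_eq_zero_iff_of_nonneg fun x _ => ha x).1 hA.symm
    rw [← hA, zero_mul]
    exact le_of_eq (sum_eq_zero fun x hx => by rw [this x hx, zero_mul]).symm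
  have hB : 0 < ∑ x, b x := by
    refine lt_of_le_of_ne (sum_nonneg fun x _ => hb x) fun e => hA.ne' ?_
    have := (sum_eq_zero_iff_of_nonneg fun x _ => hb x).1 e.symm
    exact sum_eq_zero fun x hx => h x (this x hx)
  set A := ∑ x, a x with hAe
  set B := ∑ x, b x with hBe
  have pt : ∀ x, a x * Real.log (A / B) + a x - A / B * b x ≤ a x * Real.log (a x / b x) := by
    intro x
    rcases eq_or_lt_of_le (ha x) with hx | hx
    · have : 0 ≤ A / B * b x := mul_nonneg (by positivity) (hb x)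
      rw [← hx]; linarith
    have hbx : 0 < b x := lt_of_le_of_ne (hb x) fun e => hx.ne' (h x e.symm)
    have h1 := brg_nonneg (ha x) (a := A / B * b x) (by positivity)
    unfold brg at h1
    rw [Real.log_mul (by positivity) hbx.ne'] at h1
    rw [Real.log_div hx.ne' hbx.ne']
    nlinarith
  refine le_trans (le_of_eq ?_) (sum_le_sum fun x _ => pt x)
  rw [sum_sub_distrib, sum_add_distrib, ← sum_mul, ← mul_sum, ← hAe, ← hBe,
    div_mul_cancel₀ _ hB.ne']
  ring

section klmix

variable {A : Type*} [Fintype A]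


/-- Data processing. -/
theorem kl_mix_le {ν μ : A → ℝ} (hν : ∀ a, 0 ≤ ν a) (hμ : ∀ a, 0 ≤ μ a) (h : AC ν μ)
    {K : A → Ω → ℝ} (hK : ∀ a, IsP (K a)) : kl (mix ν K) (mix μ K) ≤ kl ν μ := by
  calc kl (mix ν K) (mix μ K) ≤ ∑ x, ∑ a, ν a * K a x * Real.log (ν a * K a x / (μ a * K a x)) :=
        sum_le_sum fun x _ => log_sum (fun a => mul_nonneg (hν a) ((hK a).nn x))
          (fun a => mul_nonneg (hμ a) ((hK a).nn x)) fun a ha => by
            rcases mul_eq_zero.1 ha with e | e
            · rw [h a e, zero_mul]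
            · rw [e, mul_zero]
    _ = ∑ a, ∑ x, K a x * (ν a * Real.log (ν a / μ a)) := by
        rw [sum_comm]
        refine sum_congr rfl fun a _ => sum_congr rfl fun x _ => ?_
        by_cases hx : K a x = 0
        · simp [hx]
        · rw [mul_div_mul_right _ _ hx]; ring
    _ = kl ν μ := by simp only [← sum_mul, (hK _).sum1, one_mul, kl]

/-- Joint convexity. -/
theorem kl_mix_mix_le {ρ : A → ℝ} (hρ : ∀ a, 0 ≤ ρ a) {N M : A → Ω → ℝ} (hN : ∀ a x, 0 ≤ N a x)
    (hM : ∀ a x, 0 ≤ M a x) (h : ∀ a, AC (N a) (M a)) :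
    kl (mix ρ N) (mix ρ M) ≤ mean ρ fun a => kl (N a) (M a) := by
  calc kl (mix ρ N) (mix ρ M) ≤ ∑ x, ∑ a, ρ a * N a x * Real.log (ρ a * N a x / (ρ a * M a x)) :=
        sum_le_sum fun x _ => log_sum (fun a => mul_nonneg (hρ a) (hN a x))
          (fun a => mul_nonneg (hρ a) (hM a x)) fun a ha => by
            rcases mul_eq_zero.1 ha with e | e
            · rw [e, zero_mul]
            · rw [h a x e, mul_zero]
    _ = _ := by
        rw [sum_comm]
        refine sum_congr rfl fun a _ => ?_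
        beta_reduce
        rw [kl, mul_sum]
        refine sum_congr rfl fun x _ => ?_
        by_cases ha : ρ a = 0
        · simp [ha]
        · rw [mul_div_mul_left _ _ ha]; ring

theorem mix_const {ρ : A → ℝ} (hρ : IsP ρ) (μ : Ω → ℝ) : mix ρ (fun _ => μ) = μ := by
  funext x; simp only [mix, ← sum_mul, hρ.sum1, one_mul]

/-- Convexity in the first argument. -/
theorem kl_mix_left_le {ρ : A → ℝ} (hρ : IsP ρ) {N : A → Ω → ℝ} (hN : ∀ a x, 0 ≤ N a x)
    {μ : Ω → ℝ} (hμ : ∀ x, 0 ≤ μ x) (h : ∀ a, AC (N a) μ) :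
    kl (mix ρ N) μ ≤ mean ρ fun a => kl (N a) μ := by
  have := kl_mix_mix_le hρ.nn hN (M := fun _ => μ) (fun _ => hμ) h
  rwa [mix_const hρ] at this

/-- Chain rule for relative entropy. -/
theorem kl_chain {ν μ : A → ℝ} (h : AC ν μ) {K L : A → Ω → ℝ} (hK : ∀ a, IsP (K a))
    (hKL : ∀ a, ν a ≠ 0 → AC (K a) (L a)) :
    kl (fun p : A × Ω => ν p.1 * K p.1 p.2) (fun p => μ p.1 * L p.1 p.2) =
      kl ν μ + mean ν fun a => kl (K a) (L a) := by
  rw [kl, Fintype.sum_prod_type, kl, mean, ← sum_add_distrib]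
  refine sum_congr rfl fun a _ => ?_
  by_cases ha : ν a = 0
  · simp [ha]
  have hμ : μ a ≠ 0 := fun e => ha (h a e)
  have e1 : ν a * Real.log (ν a / μ a) = ∑ x, ν a * (K a x * Real.log (ν a / μ a)) := by
    rw [← mul_sum, ← sum_mul, (hK a).sum1, one_mul]
  rw [e1, kl, mul_sum, ← sum_add_distrib]
  refine sum_congr rfl fun x _ => ?_
  by_cases hx : K a x = 0
  · simp [hx]
  have hL : L a x ≠ 0 := fun e => hx (hKL a ha x e)
  rw [mul_div_mul_comm, Real.log_mul (div_ne_zero ha hμ) (div_ne_zero hx hL)]; ring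


end klmix

/-! ### Rothaus -/

theorem nonneg_of_second {k k1 k2 : ℝ → ℝ} (h1 : ∀ t, HasDerivAt k (k1 t) t)
    (h2 : ∀ t, HasDerivAt k1 (k2 t) t) (h0 : k 0 = 0) (h0' : k1 0 = 0) (hk : ∀ t, 0 ≤ k2 t) :
    0 ≤ k 1 := by
  have m1 : Monotone k1 := monotone_of_deriv_nonneg (fun t => (h2 t).differentiableAt)
    fun t => by rw [(h2 t).deriv]; exact hk t
  have m0 : MonotoneOn k (Set.Ici 0) := monotoneOn_of_deriv_nonneg (convex_Ici 0)
    (fun t _ => (h1 t).continuousAt.continuousWithinAt)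
    (fun t _ => (h1 t).differentiableAt.differentiableWithinAt) fun t ht => by
      rw [(h1 t).deriv, ← h0']
      rw [interior_Ici] at ht
      exact m1 (le_of_lt ht)
  rw [← h0]
  exact m0 (by simp) (by simp) zero_le_one

theorem hasDerivAt_mean {F : ℝ → Ω → ℝ} {F' : Ω → ℝ} {t : ℝ}
    (h : ∀ x, HasDerivAt (fun s => F s x) (F' x) t) :
    HasDerivAt (fun s => mean π (F s)) (mean π F') t :=
  HasDerivAt.fun_sum (u := univ) fun x _ => (h x).const_mul (π x)

theorem rothaus_aux (h : IsP π) {g : Ω → ℝ} (hg : mean π g = 0) (a : ℝ) {δ : ℝ} (hδ : 0 < δ) :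
    ent π (fun x => (a + g x) ^ 2 + δ) ≤ ent π (fun x => g x ^ 2) + 2 * mean π fun x => g x ^ 2 := by
  set v := mean π fun x => g x ^ 2 with hv
  set S := ent π fun x => g x ^ 2 with hS
  have hv0 : 0 ≤ v := h.mean_nonneg fun x => sq_nonneg _
  have hu : ∀ t x, 0 < (a + t * g x) ^ 2 + δ := fun t x => by positivity
  have hM : ∀ t : ℝ, 0 < a ^ 2 + δ + t ^ 2 * v := fun t => by positivity
  have hmean : ∀ t, mean π (fun x => (a + t * g x) ^ 2 + δ) = a ^ 2 + δ + t ^ 2 * v := fun t => by
    have : mean π (fun x => (a + t * g x) ^ 2 + δ) =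
        mean π fun x => (a ^ 2 + δ) + (2 * a * t) * g x + t ^ 2 * g x ^ 2 := mean_congr fun x => by ring
    rw [this, mean_add', mean_add', h.mean_const, mean_const_mul, mean_const_mul, hg]; ring
  have du : ∀ t x, HasDerivAt (fun s => (a + s * g x) ^ 2 + δ) (2 * (a + t * g x) * g x) t :=
    fun t x => by
      have := ((((hasDerivAt_id t).mul_const (g x)).const_add a).pow 2).add_const δ
      simpa using this
  have dM : ∀ t, HasDerivAt (fun s : ℝ => a ^ 2 + δ + s ^ 2 * v) (2 * t * v) t := fun t => by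
    have := (((hasDerivAt_id t).pow 2).mul_const v).const_add (a ^ 2 + δ)
    simpa using this
  have key := nonneg_of_second
    (k := fun t => t ^ 2 * (S + 2 * v) - (mean π (fun x => ((a + t * g x) ^ 2 + δ) *
      Real.log ((a + t * g x) ^ 2 + δ)) - (a ^ 2 + δ + t ^ 2 * v) * Real.log (a ^ 2 + δ + t ^ 2 * v)))
    (k1 := fun t => 2 * t * (S + 2 * v) - (mean π (fun x => 2 * (a + t * g x) * g x *
      (Real.log ((a + t * g x) ^ 2 + δ) + 1)) - 2 * t * v * (Real.log (a ^ 2 + δ + t ^ 2 * v) + 1)))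
    (k2 := fun t => 2 * (S + 2 * v) - (mean π (fun x => 2 * g x * g x *
      (Real.log ((a + t * g x) ^ 2 + δ) + 1) + 2 * (a + t * g x) * g x *
        (2 * (a + t * g x) * g x / ((a + t * g x) ^ 2 + δ))) -
      (2 * v * (Real.log (a ^ 2 + δ + t ^ 2 * v) + 1) +
        2 * t * v * (2 * t * v / (a ^ 2 + δ + t ^ 2 * v)))))
    (fun t => by
      refine HasDerivAt.fun_sub ?_ (HasDerivAt.fun_sub (hasDerivAt_mean fun x => ?_) ?_)
      · simpa using ((hasDerivAt_id t).pow 2).mul_const (S + 2 * v)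
      · refine ((du t x).fun_mul ((du t x).log (hu t x).ne')).congr_deriv ?_
        field_simp [(hu t x).ne']
      · refine ((dM t).fun_mul ((dM t).log (hM t).ne')).congr_deriv ?_
        field_simp [(hM t).ne'])
    (fun t => by
      refine HasDerivAt.fun_sub ?_ (HasDerivAt.fun_sub (hasDerivAt_mean fun x => ?_) ?_)
      · simpa using ((hasDerivAt_id t).const_mul 2).mul_const (S + 2 * v)
      · have d1 : HasDerivAt (fun s => 2 * (a + s * g x) * g x) (2 * g x * g x) t := by
          simpa using ((((hasDerivAt_id t).mul_const (g x)).const_add a).const_mul 2).mul_const (g x)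
        exact d1.fun_mul (((du t x).log (hu t x).ne').add_const 1)
      · have d1 : HasDerivAt (fun s => 2 * s * v) (2 * v) t := by
          simpa using ((hasDerivAt_id t).const_mul 2).mul_const v
        exact d1.fun_mul (((dM t).log (hM t).ne').add_const 1))
    (by simp [h.mean_const])
    (by
      have : mean π (fun x => 2 * (a + 0 * g x) * g x * (Real.log ((a + 0 * g x) ^ 2 + δ) + 1)) =
          mean π fun x => (2 * a * (Real.log (a ^ 2 + δ) + 1)) * g x :=
        mean_congr fun x => by simp only [zero_mul, add_zero]; ring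
      simp only [this, mean_const_mul, hg]; ring)
    (fun t => by
      have b1 : mean π (fun x => 2 * g x * g x * (Real.log ((a + t * g x) ^ 2 + δ) + 1) +
          2 * (a + t * g x) * g x * (2 * (a + t * g x) * g x / ((a + t * g x) ^ 2 + δ))) ≤
          mean π fun x => 2 * (g x ^ 2 * Real.log ((a + t * g x) ^ 2 + δ)) + 6 * g x ^ 2 :=
        h.mean_mono fun x => by
          have : 2 * (a + t * g x) * g x * (2 * (a + t * g x) * g x / ((a + t * g x) ^ 2 + δ)) ≤
              4 * g x ^ 2 := by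
            rw [← mul_div_assoc, div_le_iff₀ (hu t x)]
            nlinarith [mul_nonneg hδ.le (sq_nonneg (g x))]
          nlinarith
      rw [mean_add' (fun x => 2 * (g x ^ 2 * Real.log ((a + t * g x) ^ 2 + δ))), mean_const_mul,
        mean_const_mul] at b1
      have b2 := mean_mul_log_le h (f := fun x => g x ^ 2) (g := fun x => (a + t * g x) ^ 2 + δ)
        (fun x => sq_nonneg _) (fun x => (hu t x).le) fun x _ => (hu t x).ne'
      rw [hmean] at b2
      have b3 : 0 ≤ 2 * t * v * (2 * t * v / (a ^ 2 + δ + t ^ 2 * v)) := by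
        rw [← mul_div_assoc]; exact div_nonneg (mul_self_nonneg _) (hM t).le
      linarith)
  have e := hmean 1
  simp only [one_mul, one_pow] at key e
  rw [ent_eq, e]
  linarith

/-- Rothaus' lemma. -/
theorem rothaus (h : IsP π) (f : Ω → ℝ) :
    ent π (fun x => f x ^ 2) ≤ ent π (fun x => (f x - mean π f) ^ 2) + 2 * var π f := by
  have hg : mean π (fun x => f x - mean π f) = 0 := by rw [mean_sub', h.mean_const, sub_self]
  have hc : Continuous fun δ : ℝ => ent π fun x => f x ^ 2 + δ :=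
    continuous_ent_comp π fun x => by fun_prop
  have ht : Tendsto (fun δ : ℝ => ent π fun x => f x ^ 2 + δ) (𝓝[>] 0)
      (𝓝 (ent π fun x => f x ^ 2)) := by
    have := (hc.tendsto 0).mono_left (nhdsWithin_le_nhds (s := Set.Ioi 0))
    simpa using this
  refine le_of_tendsto ht (eventually_nhdsWithin_of_forall fun δ hδ => ?_)
  have := rothaus_aux h hg (mean π f) hδ
  simp only [add_sub_cancel] at this
  exact this

/-- Defective log-Sobolev + Poincaré ⇒ tight log-Sobolev, for any shift invariant energy. -/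
theorem tight_lsi (h : IsP π) (𝓔 : (Ω → ℝ) → ℝ) (hE : ∀ f a, 𝓔 (fun x => f x - a) = 𝓔 f)
    {K B C : ℝ} (hB : 0 ≤ B)
    (hL : ∀ f, ent π (fun x => f x ^ 2) ≤ K * 𝓔 f + B * mean π fun x => f x ^ 2)
    (hP : ∀ f, var π f ≤ C * 𝓔 f) (f : Ω → ℝ) :
    ent π (fun x => f x ^ 2) ≤ (K + (B + 2) * C) * 𝓔 f := by
  have h1 := rothaus h f
  have h2 := hL fun x => f x - mean π f
  rw [hE] at h2
  have h3 : mean π (fun x => (f x - mean π f) ^ 2) = var π f := rfl
  rw [h3] at h2
  have h4 := mul_le_mul_of_nonneg_left (hP f) (by linarith : 0 ≤ B + 2)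
  nlinarith

/-- log-Sobolev inequality of the complete graph (in particular of two points). -/
theorem ent_sq_le_var (h : IsP π) {a : ℝ} (ha : 0 < a) (hπ : ∀ x, π x ≠ 0 → a ≤ π x) (f : Ω → ℝ) :
    ent π (fun x => f x ^ 2) ≤ (2 + Real.log (1 / a)) * var π f := by
  have h1 := rothaus h f
  have h2 := ent_le_of_min h (f := fun x => (f x - mean π f) ^ 2) (fun x => sq_nonneg _) ha hπ
  have h3 : mean π (fun x => (f x - mean π f) ^ 2) = var π f := rfl
  rw [h3] at h2
  linarith

/-! ### Herbst -/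

/-- log-moment generating function -/
noncomputable def lmgf (π F : Ω → ℝ) (t : ℝ) : ℝ := Real.log (mean π fun x => Real.exp (t * F x))

theorem hasDerivAt_mgf (F : Ω → ℝ) (t : ℝ) :
    HasDerivAt (fun s => mean π fun x => Real.exp (s * F x))
      (mean π fun x => Real.exp (t * F x) * F x) t :=
  hasDerivAt_mean fun x => by simpa using ((hasDerivAt_id t).mul_const (F x)).exp

theorem hasDerivAt_lmgf (h : IsP π) (F : Ω → ℝ) (t : ℝ) :
    HasDerivAt (lmgf π F)
      ((mean π fun x => Real.exp (t * F x) * F x) / mean π fun x => Real.exp (t * F x)) t :=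
  (hasDerivAt_mgf F t).log (mean_exp_pos h _).ne'

theorem lmgf_zero (h : IsP π) (F : Ω → ℝ) : lmgf π F 0 = 0 := by simp [lmgf, h.mean_const]

theorem ent_exp (F : Ω → ℝ) (t : ℝ) :
    ent π (fun x => Real.exp (t * F x)) = t * (mean π fun x => Real.exp (t * F x) * F x) -
      (mean π fun x => Real.exp (t * F x)) * lmgf π F t := by
  rw [ent_eq, ← mean_const_mul, lmgf]
  congr 1
  exact mean_congr fun x => by rw [Real.log_exp]; ring

/-- Herbst's argument between two positive parameters, with a defect `B`. -/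
theorem herbst_between (h : IsP π) (F : Ω → ℝ) {c B s t : ℝ} (hs : 0 < s) (hst : s ≤ t)
    (hE : ∀ u, s < u → u < t → ent π (fun x => Real.exp (u * F x)) ≤
      (c * u ^ 2 + B) * mean π fun x => Real.exp (u * F x)) :
    lmgf π F t / t ≤ lmgf π F s / s + c * (t - s) + B * (1 / s - 1 / t) := by
  have hd : ∀ u, 0 < u → HasDerivAt (fun u => lmgf π F u / u - c * u + B / u)
      (ent π (fun x => Real.exp (u * F x)) / (mean π fun x => Real.exp (u * F x)) / u ^ 2 - c
        - B / u ^ 2) u := fun u hu => by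
    have d1 := (hasDerivAt_lmgf h F u).fun_div (hasDerivAt_id u) hu.ne'
    have d2 := (hasDerivAt_id u).const_mul c
    have d3 := (hasDerivAt_const u B).fun_div (hasDerivAt_id u) hu.ne'
    refine ((d1.fun_sub d2).fun_add d3).congr_deriv ?_
    rw [ent_exp]
    have := (mean_exp_pos h fun x => u * F x).ne'
    simp only [id]
    field_simp
    ring
  have ha : AntitoneOn (fun u => lmgf π F u / u - c * u + B / u) (Set.Icc s t) :=
    antitoneOn_of_deriv_nonpos (convex_Icc s t)
      (fun u hu => (hd u (hs.trans_le hu.1)).continuousAt.continuousWithinAt)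
      (fun u hu => by
        rw [interior_Icc] at hu
        exact (hd u (hs.trans hu.1)).differentiableAt.differentiableWithinAt)
      fun u hu => by
        rw [interior_Icc] at hu
        have hu0 := hs.trans hu.1
        rw [(hd u hu0).deriv]
        have h1 := hE u hu.1 hu.2
        rw [← div_le_iff₀ (mean_exp_pos h _)] at h1
        have h2 := div_le_div_of_nonneg_right h1 (sq_nonneg u)
        have h3 : (c * u ^ 2 + B) / u ^ 2 = c + B / u ^ 2 := by field_simp
        linarith
  have := ha ⟨le_rfl, hst⟩ ⟨hst, le_rfl⟩ hst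
  simp only [div_eq_mul_inv] at this ⊢
  linarith

/-- Herbst's argument. -/
theorem herbst (h : IsP π) (F : Ω → ℝ) {c t : ℝ} (ht : 0 ≤ t)
    (hE : ∀ u, 0 < u → u < t → ent π (fun x => Real.exp (u * F x)) ≤
      c * u ^ 2 * mean π fun x => Real.exp (u * F x)) :
    lmgf π F t ≤ t * mean π F + c * t ^ 2 := by
  rcases eq_or_lt_of_le ht with h0 | h0
  · rw [← h0, lmgf_zero h]; simp
  have hd := hasDerivAt_lmgf h F 0
  simp only [zero_mul, Real.exp_zero, one_mul, h.mean_const, div_one] at hd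
  have hl : Tendsto (fun s => lmgf π F s / s + c * (t - s)) (𝓝[>] 0) (𝓝 (mean π F + c * (t - 0))) := by
    refine Tendsto.add ?_ ?_
    · have := hd.tendsto_slope_zero_right
      simp only [zero_add, lmgf_zero h, sub_zero, smul_eq_mul] at this
      refine this.congr fun s => by rw [div_eq_inv_mul]
    · exact (Continuous.tendsto (by fun_prop) 0).mono_left nhdsWithin_le_nhds
  have : lmgf π F t / t ≤ mean π F + c * (t - 0) := by
    refine ge_of_tendsto hl ?_
    filter_upwards [Ioo_mem_nhdsGT h0] with s hs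
    have := herbst_between h F (c := c) (B := 0) hs.1 hs.2.le fun u hu hu' => by
      rw [add_zero]; exact hE u (hs.1.trans hu) hu'
    simpa using this
  rw [div_le_iff₀ h0] at this
  nlinarith

/-- sub-Gaussian tail from a moment generating function bound -/
theorem tail_of_lmgf (h : IsP π) (F : Ω → ℝ) {m c r : ℝ} (hc : 0 < c) (hr : 0 ≤ r)
    (hl : lmgf π F (r / (2 * c)) ≤ r / (2 * c) * m + c * (r / (2 * c)) ^ 2) :
    mean π (ind fun x => m + r ≤ F x) ≤ Real.exp (-(r ^ 2 / (4 * c))) := by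
  refine (chernoff h F (m + r) (t := r / (2 * c)) (by positivity)).trans ?_
  rw [← Real.exp_log (mean_exp_pos h fun x => r / (2 * c) * F x), ← Real.exp_add]
  refine Real.exp_le_exp.2 ?_
  have : r / (2 * c) * m + c * (r / (2 * c)) ^ 2 - r / (2 * c) * (m + r) = -(r ^ 2 / (4 * c)) := by
    field_simp; ring
  unfold lmgf at hl
  linarith

end Crest.Agent.T157.Ent
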