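import Crest.Agent.T157.Top2_97
import Crest.Agent.T157.ChainMix_22
import Crest.Agent.T157.EntB_34

/-!
# Row 157, part B (helper85): the words of "lower bound from upper bound"

`S_t = X_0 · X_t` for the stationary chain.
-/

set_option autoImplicit false

noncomputable section

namespace Crest.Agent.T157.Low

open Matrix Real
open Crest.ProbabilityR.SpinGlassDynamics
open Crest.Agent.T157.E Crest.Agent.T157.Top
open Crest.Agent.T157.Chain22 (sg)

variable {n : ℕ}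

/-- `E S_t = n C_n(t)` -/
def B1 (w : Cube n → ℝ) (t : ℝ) : ℝ := mean w fun x => sg w t (fun y => sv x ⬝ᵥ sv y) x

/-- `E S_t²` -/
def A2 (w : Cube n → ℝ) (t : ℝ) : ℝ := mean w fun x => sg w t (fun y => (sv x ⬝ᵥ sv y) ^ 2) x

/-- `H (P_t(x,·) | μ)` -/
def Hx (w : Cube n → ℝ) (t : ℝ) (x : Cube n) : ℝ := Ent.kl (hbCt w t x) (prob w)

/-- the cutoff time `log n / (2 λ)` -/
def tn (lam : ℝ) (n : ℕ) : ℝ := log n / (2 * lam)

/-- **(UX)** entropy upper bound from every start, up to the cutoff time -/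
def UX (β lam : ℝ) : Prop := ∀ e > (0 : ℝ), Whp disorderLaw fun n g =>
  ∀ t, 0 ≤ t → t ≤ tn lam n → ∀ x,
    Hx (gibbsWeight n β g) t x ≤ (n : ℝ) ^ (1 + e) * exp (-(2 * lam * t))

/-- **(UE)** entropy upper bound, averaged over a stationary start -/
def UE (β lam : ℝ) : Prop := ∀ e > (0 : ℝ), Whp disorderLaw fun n g =>
  ∀ t, 0 ≤ t → t ≤ tn lam n →
    mean (gibbsWeight n β g) (Hx (gibbsWeight n β g) t) ≤ (n : ℝ) ^ (1 + e) * exp (-(2 * lam * t))

/-- **(U2)** second moment of the overlap -/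
def U2 (β lam : ℝ) : Prop := ∀ e > (0 : ℝ), Whp disorderLaw fun n g =>
  ∀ t, 0 ≤ t → t ≤ tn lam n →
    A2 (gibbsWeight n β g) t ≤ (n : ℝ) ^ (2 + e) * exp (-(2 * lam * t))

/-- **(L)** autocorrelation at a fixed time -/
def LB (β lam : ℝ) : Prop := ∀ e > (0 : ℝ), ∃ T > (0 : ℝ), Whp disorderLaw fun n g =>
  n * exp (-((lam + e) * T)) ≤ B1 (gibbsWeight n β g) T

/-- **(R)** crude variance bound -/
def RV (β : ℝ) : Prop := ∃ K ≥ (0 : ℝ), ∃ C ≥ (0 : ℝ), Whp disorderLaw fun n g =>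
  ∀ t, 0 ≤ t → A2 (gibbsWeight n β g) t - B1 (gibbsWeight n β g) t ^ 2 ≤ K * n * exp (C * t)


end Crest.Agent.T157.Low

end
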