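import Mathlib
import Crest.Agent.T157.LowDef_85
import Crest.Agent.T157.RecD_77

-- ▼ part T157/Lag_85
section

/-!
# Row 157, part B (helper85): exponential sums, propagation of smallness

Pure real analysis.
* `PE f`: `f t = ∑ a_i exp (-(t s_i))` with `a_i ≥ 0`, `s_i` real (finite sum);
* `PE.lag`: extrapolation from `d` equally spaced nodes with weights of total size `9^d`;
* `prop`: a difference of two such sums that is small on `[0, b]` stays small;
* `PE.jensen`: log-convexity.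
-/

set_option autoImplicit false

noncomputable section

namespace Crest.Agent.T157.Lag

open Finset Real

/-! ### the extrapolation weights -/

/-- coefficients of `∑_{k<d} C(2d,k) (q-1)^k` -/
def al (d j : ℕ) : ℝ := ∑ k ∈ range d, ((2 * d).choose k : ℝ) * ((k.choose j : ℝ) * (-1) ^ (k - j))

theorem sum_al (d : ℕ) (q : ℝ) :
    ∑ j ∈ range d, al d j * q ^ j = ∑ k ∈ range d, ((2 * d).choose k : ℝ) * (q - 1) ^ k := by
  simp only [al, sum_mul]
  rw [sum_comm]
  refine sum_congr rfl fun k hk => ?_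
  rw [sub_eq_add_neg, add_pow, mul_sum]
  symm
  refine (sum_subset (range_subset_range.2 (mem_range.1 hk)) fun j _ hj => ?_).trans
    (sum_congr rfl fun j _ => by ring)
  rw [Nat.choose_eq_zero_of_lt (n := k) (k := j) (by simpa using hj)]; simp

theorem sum_abs_al (d : ℕ) : ∑ j ∈ range d, |al d j| ≤ 9 ^ d := by
  have h1 : ∀ j, |al d j| ≤ ∑ k ∈ range d, ((2 * d).choose k : ℝ) * (k.choose j : ℝ) := fun j =>
    (abs_sum_le_sum_abs _ _).trans (le_of_eq (sum_congr rfl fun k _ => by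
      simp [abs_mul, abs_pow]))
  refine (sum_le_sum fun j _ => h1 j).trans ?_
  rw [sum_comm]
  have h2 : ∀ k ∈ range d, ∑ j ∈ range d, ((2 * d).choose k : ℝ) * (k.choose j : ℝ) =
      2 ^ k * 1 ^ (2 * d - k) * ((2 * d).choose k : ℝ) := fun k hk => by
    rw [← mul_sum, ← sum_subset (range_subset_range.2 (mem_range.1 hk)) fun j _ hj => by
      rw [Nat.choose_eq_zero_of_lt (by simpa using hj)]; simp]
    have := Nat.sum_range_choose k
    rw [one_pow, mul_one, mul_comm]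
    congr 1
    exact_mod_cast this
  rw [sum_congr rfl h2, show (9 : ℝ) ^ d = (2 + 1) ^ (2 * d) by rw [pow_mul]; norm_num, add_pow]
  exact sum_le_sum_of_subset_of_nonneg (range_subset_range.2 (by omega)) fun _ _ _ => by positivity

theorem rem_le (d : ℕ) {q m : ℝ} (hm : 1 ≤ m) (hq : |q - 1| ≤ m) :
    |q ^ (2 * d) - ∑ j ∈ range d, al d j * q ^ j| ≤ (4 * (|q - 1| * m)) ^ d := by
  have e : q ^ (2 * d) = ∑ k ∈ range (2 * d + 1), ((2 * d).choose k : ℝ) * (q - 1) ^ k := by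
    conv_lhs => rw [show q = (q - 1) + 1 by ring, add_pow]
    exact sum_congr rfl fun k _ => by ring
  rw [sum_al, e, ← sum_Ico_eq_sub _ (by omega)]
  refine (abs_sum_le_sum_abs _ _).trans ?_
  have h1 : ∀ k ∈ Ico d (2 * d + 1), |((2 * d).choose k : ℝ) * (q - 1) ^ k| ≤
      ((2 * d).choose k : ℝ) * (|q - 1| * m) ^ d := fun k hk => by
    obtain ⟨h1, h2⟩ := mem_Ico.1 hk
    rw [abs_mul, abs_pow, Nat.abs_cast, mul_pow]
    refine mul_le_mul_of_nonneg_left ?_ (by positivity)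
    rw [show k = d + (k - d) by omega, pow_add]
    refine mul_le_mul_of_nonneg_left ((pow_le_pow_left₀ (abs_nonneg _) hq _).trans
      (pow_le_pow_right₀ hm (by omega))) (by positivity)
  refine (sum_le_sum h1).trans ?_
  rw [← sum_mul, mul_pow 4]
  refine mul_le_mul_of_nonneg_right ?_ (by positivity)
  have h2 : ∑ k ∈ range (2 * d + 1), ((2 * d).choose k : ℝ) = 4 ^ d := by
    have := Nat.sum_range_choose (2 * d)
    rw [show (4 : ℝ) ^ d = 2 ^ (2 * d) by rw [pow_mul]; norm_num]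
    exact_mod_cast this
  rw [← h2]
  exact sum_le_sum_of_subset_of_nonneg (fun k hk => mem_range.2 (mem_Ico.1 hk).2)
    fun _ _ _ => by positivity

/-- **(LAG)**, polynomial form -/
theorem lagq (d : ℕ) {q : ℝ} (hq : 0 ≤ q) :
    |q ^ (10 * d) - ∑ j ∈ range d, al d j * q ^ (8 * d + j)| ≤ (1 / 2) ^ d * (1 + q ^ (20 * d)) := by
  have e : q ^ (10 * d) - ∑ j ∈ range d, al d j * q ^ (8 * d + j) =
      (q ^ 8) ^ d * (q ^ (2 * d) - ∑ j ∈ range d, al d j * q ^ j) := by
    rw [mul_sub, mul_sum, ← pow_mul, ← pow_add, show 8 * d + 2 * d = 10 * d by ring]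
    congr 1
    exact sum_congr rfl fun j _ => by rw [pow_add]; ring
  rw [e, abs_mul, abs_of_nonneg (by positivity)]
  rcases le_total q 1 with h | h
  · have h0 : |q - 1| = 1 - q := by rw [abs_sub_comm, abs_of_nonneg (by linarith)]
    refine (mul_le_mul_of_nonneg_left (rem_le d le_rfl (by rw [h0]; linarith))
      (by positivity)).trans ?_
    rw [← mul_pow, h0]
    have h1 : q ^ 8 * (4 * ((1 - q) * 1)) ≤ 1 / 2 := by
      have p : ∀ k ≤ 8, q ^ 8 ≤ q ^ k := fun k hk => pow_le_pow_of_le_one hq h hk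
      have s : 8 * q ^ 8 ≤ q ^ 0 + q ^ 1 + q ^ 2 + q ^ 3 + q ^ 4 + q ^ 5 + q ^ 6 + q ^ 7 := by
        linarith [p 0 (by omega), p 1 (by omega), p 2 (by omega), p 3 (by omega), p 4 (by omega),
          p 5 (by omega), p 6 (by omega), p 7 (by omega)]
      have t := mul_le_mul_of_nonneg_right s (sub_nonneg.2 h)
      have u : (q ^ 0 + q ^ 1 + q ^ 2 + q ^ 3 + q ^ 4 + q ^ 5 + q ^ 6 + q ^ 7) * (1 - q) =
        1 - q ^ 8 := by ring
      have v : 0 ≤ q ^ 8 := by positivity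
      linarith
    refine (pow_le_pow_left₀ (by have := sub_nonneg.2 h; positivity) h1 d).trans ?_
    exact le_mul_of_one_le_right (by positivity) (le_add_of_nonneg_right (by positivity))
  · have h0 : |q - 1| = q - 1 := abs_of_nonneg (by linarith)
    refine (mul_le_mul_of_nonneg_left (rem_le d h (by rw [h0]; linarith)) (by positivity)).trans ?_
    rw [← mul_pow, h0]
    have h1 : q ^ 8 * (4 * ((q - 1) * q)) ≤ 1 / 2 * q ^ 20 := by
      have b := one_add_mul_le_pow (a := q - 1) (by linarith) 11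
      rw [add_sub_cancel] at b
      have c : 8 * (q - 1) ≤ q ^ 11 := by push_cast at b; linarith
      have := mul_le_mul_of_nonneg_left c (show 0 ≤ q ^ 9 by positivity)
      calc q ^ 8 * (4 * ((q - 1) * q)) = 1 / 2 * (q ^ 9 * (8 * (q - 1))) := by ring
        _ ≤ 1 / 2 * (q ^ 9 * q ^ 11) := by linarith
        _ = _ := by ring
    refine (pow_le_pow_left₀ (by have := sub_nonneg.2 h; positivity) h1 d).trans ?_
    rw [mul_pow, ← pow_mul]
    exact mul_le_mul_of_nonneg_left (le_add_of_nonneg_left zero_le_one) (by positivity)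

/-- **(LAG)**: nodes `τ + (8d + j) h`, target `τ + 10 d h`, every real rate `s` -/
theorem lag (d : ℕ) (τ h s : ℝ) :
    |exp (-((τ + 10 * d * h) * s)) - ∑ j ∈ range d, al d j * exp (-((τ + (8 * d + j) * h) * s))| ≤
      (1 / 2) ^ d * (exp (-(τ * s)) + exp (-((τ + 20 * d * h) * s))) := by
  have e : ∀ k : ℕ, exp (-((τ + k * h) * s)) = exp (-(τ * s)) * exp (-(h * s)) ^ k := fun k => by
    rw [← exp_nat_mul, ← exp_add]; congr 1; ring
  have e1 := e (10 * d)
  have e2 := e (20 * d)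
  have e3 := fun j => e (8 * d + j)
  push_cast at e1 e2 e3
  simp only [e1, e2, e3]
  have := mul_le_mul_of_nonneg_left (lagq d (exp_pos (-(h * s))).le) (exp_pos (-(τ * s))).le
  rw [← abs_of_pos (exp_pos (-(τ * s))), ← abs_mul, abs_of_pos (exp_pos (-(τ * s))), mul_sub,
    mul_sum] at this
  simp only [mul_left_comm (exp (-(τ * s)))] at this
  rw [mul_add, mul_one] at this
  exact this

/-! ### positive exponential sums -/

/-- a finite sum of exponentials with nonnegative coefficients -/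
def PE (f : ℝ → ℝ) : Prop := ∃ (ι : Type) (_ : Fintype ι) (a s : ι → ℝ), (∀ i, 0 ≤ a i) ∧
  ∀ t, f t = ∑ i, a i * exp (-(t * s i))

variable {f g : ℝ → ℝ}

theorem PE.congr (h : PE f) (e : ∀ t, f t = g t) : PE g := by rwa [← funext e]

theorem PE.nonneg (h : PE f) (t : ℝ) : 0 ≤ f t := by
  obtain ⟨ι, _, a, s, ha, e⟩ := h
  rw [e]; exact sum_nonneg fun i _ => mul_nonneg (ha i) (exp_pos _).le

theorem pe_exp {a : ℝ} (ha : 0 ≤ a) (s : ℝ) : PE fun t => a * exp (-(t * s)) :=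
  ⟨Unit, inferInstance, fun _ => a, fun _ => s, fun _ => ha, fun t => by simp⟩

theorem pe_const {a : ℝ} (ha : 0 ≤ a) : PE fun _ => a := (pe_exp ha 0).congr fun t => by simp

theorem PE.add (h : PE f) (h' : PE g) : PE fun t => f t + g t := by
  obtain ⟨ι, _, a, s, ha, e⟩ := h
  obtain ⟨κ, _, b, u, hb, e'⟩ := h'
  refine ⟨ι ⊕ κ, inferInstance, Sum.elim a b, Sum.elim s u, ?_, fun t => ?_⟩
  · rintro (i | i)
    exacts [ha i, hb i]
  · simp [e, e', Fintype.sum_sum_type]

theorem PE.mul (h : PE f) (h' : PE g) : PE fun t => f t * g t := by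
  obtain ⟨ι, _, a, s, ha, e⟩ := h
  obtain ⟨κ, _, b, u, hb, e'⟩ := h'
  refine ⟨ι × κ, inferInstance, fun p => a p.1 * b p.2, fun p => s p.1 + u p.2,
    fun p => mul_nonneg (ha _) (hb _), fun t => ?_⟩
  beta_reduce
  rw [e, e', sum_mul_sum, Fintype.sum_prod_type]
  refine sum_congr rfl fun i _ => sum_congr rfl fun j _ => ?_
  rw [mul_add, neg_add, exp_add]; ring

theorem PE.sum {κ : Type*} (S : Finset κ) {F : κ → ℝ → ℝ} (h : ∀ k ∈ S, PE (F k)) :
    PE fun t => ∑ k ∈ S, F k t := by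
  classical
  induction S using Finset.induction_on with
  | empty => exact (pe_const le_rfl).congr fun t => by simp
  | insert k S hk ih =>
    exact ((h k (mem_insert_self _ _)).add (ih fun j hj => h j (mem_insert_of_mem hj))).congr
      fun t => by rw [sum_insert hk]

theorem PE.const_mul (h : PE f) {c : ℝ} (hc : 0 ≤ c) : PE fun t => c * f t := (pe_const hc).mul h

theorem PE.exp_mul (h : PE f) (c : ℝ) : PE fun t => exp (c * t) * f t :=
  ((pe_exp zero_le_one (-c)).mul h).congr fun t => by rw [one_mul]; congr 2; ring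

theorem PE.sq (h : PE f) : PE fun t => f t ^ 2 := (h.mul h).congr fun _ => (pow_two _).symm


theorem PE.continuous (h : PE f) : Continuous f := by
  obtain ⟨ι, _, a, s, -, e⟩ := h
  rw [funext e]; fun_prop

/-- **(LAG)** for a positive exponential sum -/
theorem PE.lag (h : PE f) (d : ℕ) (τ k : ℝ) :
    |f (τ + 10 * d * k) - ∑ j ∈ range d, al d j * f (τ + (8 * d + j) * k)| ≤
      (1 / 2) ^ d * (f τ + f (τ + 20 * d * k)) := by
  obtain ⟨ι, _, a, s, ha, e⟩ := h
  simp only [e, mul_sum]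
  rw [sum_comm, ← sum_sub_distrib, ← sum_add_distrib, mul_sum]
  refine (abs_sum_le_sum_abs _ _).trans (sum_le_sum fun i _ => ?_)
  have := mul_le_mul_of_nonneg_left (Lag.lag d τ k (s i)) (ha i)
  rw [← abs_of_nonneg (ha i), ← abs_mul, abs_of_nonneg (ha i), mul_sub, mul_sum] at this
  simp only [mul_left_comm (a i)] at this
  rw [mul_add (a i)] at this
  exact this

/-- one extrapolation step for a difference -/
theorem step (hf : PE f) (hg : PE g) {d : ℕ} (hd : 0 < d) {r t η M : ℝ} (hr : 0 ≤ r)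
    (h1 : f (t - 10 * r) + g (t - 10 * r) ≤ M) (h2 : f (t + 10 * r) + g (t + 10 * r) ≤ M)
    (h : ∀ u, t - 2 * r ≤ u → u ≤ t - r → |f u - g u| ≤ η) :
    |f t - g t| ≤ 9 ^ d * η + 2 * (1 / 2) ^ d * M := by
  have d0 : (0 : ℝ) < d := by exact_mod_cast hd
  have a := hf.lag d (t - 10 * r) (r / d)
  have b := hg.lag d (t - 10 * r) (r / d)
  rw [show t - 10 * r + 10 * d * (r / d) = t by field_simp; ring,
    show t - 10 * r + 20 * d * (r / d) = t + 10 * r by field_simp; ring] at a b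
  have η0 : 0 ≤ η := (abs_nonneg _).trans (h (t - r) (by linarith) le_rfl)
  have c : |∑ j ∈ range d, al d j * f (t - 10 * r + (8 * d + j) * (r / d)) -
      ∑ j ∈ range d, al d j * g (t - 10 * r + (8 * d + j) * (r / d))| ≤ 9 ^ d * η := by
    rw [← sum_sub_distrib]
    refine (abs_sum_le_sum_abs _ _).trans (le_trans ?_ (mul_le_mul_of_nonneg_right (sum_abs_al d) η0))
    rw [sum_mul]
    refine sum_le_sum fun j hj => ?_
    have j1 : (j : ℝ) ≤ d := by exact_mod_cast (mem_range.1 hj).le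
    have e : (8 * d + j) * (r / d) = 8 * r + r * (j / d) := by field_simp
    have j2 : (j : ℝ) / d ≤ 1 := (div_le_one d0).2 j1
    have j3 : 0 ≤ r * (j / d) := by positivity
    rw [← mul_sub, abs_mul]
    exact mul_le_mul_of_nonneg_left (h _ (by rw [e]; linarith) (by rw [e]; nlinarith)) (abs_nonneg _)
  have p : (0 : ℝ) ≤ (1 / 2) ^ d := by positivity
  have q := mul_le_mul_of_nonneg_left (add_le_add h1 h2) p
  rw [abs_le] at a b c ⊢
  constructor <;> nlinarith [a.1, a.2, b.1, b.2, c.1, c.2]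

theorem num_le {x : ℝ} (hx : 80 ≤ x) :
    9 ^ ⌊x / 4⌋₊ * exp (-x) + 2 * (1 / 2) ^ ⌊x / 4⌋₊ ≤ exp (-(x / 10)) := by
  set d := ⌊x / 4⌋₊
  have h1 : (d : ℝ) ≤ x / 4 := Nat.floor_le (by linarith)
  have h2 : x / 4 < d + 1 := Nat.lt_floor_add_one _
  have e3 : (9 : ℝ) ≤ exp 3 := by
    have := quadratic_le_exp_of_nonneg (x := 3 / 2) (by norm_num)
    rw [show (3 : ℝ) = 3 / 2 + 3 / 2 by norm_num, exp_add]; nlinarith
  have e4 : (1 / 2 : ℝ) ≤ exp (-(1 / 2)) * (1 / 1) := by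
    have := add_one_le_exp (-(1 / 2) : ℝ); linarith
  have e5 : (5 : ℝ) * exp (1 / 2) ≤ exp (5 / 2) := by
    have := quadratic_le_exp_of_nonneg (x := 2) (by norm_num)
    rw [show (5 / 2 : ℝ) = 2 + 1 / 2 by norm_num, exp_add]
    exact mul_le_mul_of_nonneg_right (by linarith) (exp_pos _).le
  have a : (9 : ℝ) ^ d * exp (-x) ≤ exp (1 / 2 - x / 8) := by
    refine (mul_le_mul_of_nonneg_right (pow_le_pow_left₀ (by norm_num) e3 d) (exp_pos _).le).trans ?_
    rw [← exp_nat_mul, ← exp_add]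
    exact exp_le_exp.2 (by linarith)
  have b : (1 / 2 : ℝ) ^ d ≤ exp (1 / 2 - x / 8) := by
    refine (pow_le_pow_left₀ (by norm_num) e4 d).trans ?_
    rw [div_one, mul_one, ← exp_nat_mul]
    exact exp_le_exp.2 (by linarith)
  have c : 3 * exp (1 / 2 - x / 8) ≤ exp (-(x / 10)) := by
    have e6 : (3 : ℝ) ≤ exp (3 / 2) := by
      have := quadratic_le_exp_of_nonneg (x := 3 / 2) (by norm_num); linarith
    refine (mul_le_mul_of_nonneg_right e6 (exp_pos _).le).trans ?_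
    rw [← exp_add]
    exact exp_le_exp.2 (by linarith)
  linarith

/-- **propagation of smallness** -/
theorem prop (hf : PE f) (hg : PE g) {T b r x M : ℝ} (N : ℕ) (hr : 0 ≤ r) (hb : 10 * r ≤ b)
    (hx : 80 * 10 ^ N ≤ x) (hM : ∀ t, 0 ≤ t → t ≤ T → f t + g t ≤ M)
    (h0 : ∀ t, 0 ≤ t → t ≤ b → t ≤ T → |f t - g t| ≤ exp (-x) * M) :
    ∀ t, 0 ≤ t → t ≤ b + N * r → t + 10 * r ≤ T → |f t - g t| ≤ exp (-(x / 10 ^ N)) * M := by
  induction N with
  | zero => exact fun t h1 h2 h3 => by simpa using h0 t h1 (by simpa using h2) (by linarith)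
  | succ N ih =>
    intro t h1 h2 h3
    have p : (0 : ℝ) < 10 ^ N := by positivity
    have hx' : 80 * 10 ^ N ≤ x := by rw [pow_succ] at hx; linarith
    have M0 : 0 ≤ M := (add_nonneg (hf.nonneg t) (hg.nonneg t)).trans (hM t h1 (by linarith))
    have y : 80 ≤ x / 10 ^ N := (le_div_iff₀ p).2 hx'
    have e : x / 10 ^ (N + 1) = x / 10 ^ N / 10 := by rw [pow_succ, div_div]
    rw [e]
    rcases le_total t b with hb' | hb'
    · refine (ih hx' t h1 (hb'.trans (le_add_of_nonneg_right (by positivity))) h3).trans ?_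
      exact mul_le_mul_of_nonneg_right (exp_le_exp.2 (by linarith)) M0
    · have hd : 0 < ⌊x / 10 ^ N / 4⌋₊ := Nat.floor_pos.2 (by linarith)
      refine (step hf hg hd hr (hM _ (by linarith) (by linarith)) (hM _ (by linarith) h3)
        fun u hu hu' => ih hx' u (by linarith) (by push_cast at h2; linarith) (by linarith)).trans ?_
      have := mul_le_mul_of_nonneg_right (num_le y) M0
      linarith

/-- **Jensen**: `f(T)^θ f(0)^{1-θ} ≤ f(θ T)` for `θ ≥ 1`, in exponential form -/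
theorem PE.jensen (h : PE f) {m ρ T t : ℝ} (hT : 0 < T) (ht : T ≤ t) (h0 : f 0 ≤ m)
    (h1 : m * exp (-(ρ * T)) ≤ f T) : m * exp (-(ρ * t)) ≤ f t := by
  rcases le_or_gt m 0 with hm | hm
  · exact (mul_nonpos_of_nonpos_of_nonneg hm (exp_pos _).le).trans (h.nonneg t)
  obtain ⟨ι, _, a, s, ha, e⟩ := h
  have θ1 : 1 ≤ t / T := (one_le_div hT).2 ht
  have key : ∀ i, exp (-(ρ * t)) * (1 + t / T * (exp (ρ * T) * exp (-(T * s i)) - 1)) ≤
      exp (-(t * s i)) := fun i => by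
    have h2 := one_add_mul_self_le_rpow_one_add (s := exp (ρ * T) * exp (-(T * s i)) - 1)
      (by have : 0 < exp (ρ * T) * exp (-(T * s i)) := by positivity
          linarith) θ1
    refine (mul_le_mul_of_nonneg_left h2 (exp_pos _).le).trans (le_of_eq ?_)
    rw [add_sub_cancel, ← exp_add, ← Real.exp_mul, ← exp_add]; congr 1; field_simp; ring
  rw [e] at h0 h1 ⊢
  simp only [zero_mul, neg_zero, exp_zero, mul_one] at h0
  refine le_trans ?_ (sum_le_sum fun i _ => mul_le_mul_of_nonneg_left (key i) (ha i))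
  have e2 : ∑ i, a i * (exp (-(ρ * t)) * (1 + t / T * (exp (ρ * T) * exp (-(T * s i)) - 1))) =
      exp (-(ρ * t)) * ((1 - t / T) * ∑ i, a i +
        t / T * (exp (ρ * T) * ∑ i, a i * exp (-(T * s i)))) := by
    simp only [mul_sum, ← sum_add_distrib]
    exact sum_congr rfl fun i _ => by ring
  have h3 : m ≤ exp (ρ * T) * ∑ i, a i * exp (-(T * s i)) := by
    have := mul_le_mul_of_nonneg_left h1 (exp_pos (ρ * T)).le
    rwa [mul_left_comm, ← exp_add, add_neg_cancel, exp_zero, mul_one] at this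
  rw [e2, mul_comm m]
  refine mul_le_mul_of_nonneg_left ?_ (exp_pos _).le
  nlinarith [mul_le_mul_of_nonneg_left h3 (zero_le_one.trans θ1),
    mul_le_mul_of_nonneg_left h0 (sub_nonneg.2 θ1)]

end Crest.Agent.T157.Lag

end
end

-- ▼ part T157/LowA_85

/-!
# Row 157, part B (helper85): the overlap test at fixed `n`

`S_t = φ(X_0) · φ(X_t)` for any feature map `φ`; `low_fix`: second-moment bound up to time `T`
and a variance bound for short times give a start far from equilibrium.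
-/

set_option autoImplicit false

noncomputable section

namespace Crest.Agent.T157.Low

open Matrix Real Finset
open Crest.Agent.T157.E Crest.Agent.T157.Lag
open Crest.Agent.T157.Chain22 (sg hbRC ip sg_eq sg_add sg_zero isP_hbCt isP_prob' IsP ip_sg_symm)
open Crest.Agent.T157.Rec (sg_sum sg_const_mul sg_const sg_mono sg_add_fun sg_sub_fun)

variable {n : ℕ} {κ : Type*} [Fintype κ] {w : Cube n → ℝ} {φ : Cube n → κ → ℝ} {t : ℝ}

/-- `E S_t` -/
def Bf (φ : Cube n → κ → ℝ) (w : Cube n → ℝ) (t : ℝ) : ℝ :=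
  mean w fun x => sg w t (fun y => φ x ⬝ᵥ φ y) x

/-- `E S_t²` -/
def Af (φ : Cube n → κ → ℝ) (w : Cube n → ℝ) (t : ℝ) : ℝ :=
  mean w fun x => sg w t (fun y => (φ x ⬝ᵥ φ y) ^ 2) x

/-- `E S²` for two independent copies -/
def Vf (φ : Cube n → κ → ℝ) (w : Cube n → ℝ) : ℝ := mean w fun x => mean w fun y => (φ x ⬝ᵥ φ y) ^ 2

theorem B1_eq (w : Cube n → ℝ) : B1 w = Bf sv w := rfl
theorem A2_eq (w : Cube n → ℝ) : A2 w = Af sv w := rfl

theorem pe_ip (hn : 0 < n) (hw : ∀ x, 0 < w x) (f : Cube n → ℝ) :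
    PE fun t => ip (prob w) f (sg w t f) :=
  ⟨Cube n, inferInstance,
    fun j => ip (prob w) f ((hbRC hn hw).φ j) * ip (prob w) f ((hbRC hn hw).φ j),
    fun j => n * (1 - (hbRC hn hw).ev j), fun _ => mul_self_nonneg _, fun t => by
      have := (hbRC hn hw).ip_H_spec (n * t) f f
      beta_reduce
      rw [sg_eq hn hw]
      refine this.trans (sum_congr rfl fun j _ => ?_)
      rw [mul_comm]; congr 3; ring⟩

theorem mean_sq_le_ip (hn : 0 < n) (hw : ∀ x, 0 < w x) (t : ℝ) (f : Cube n → ℝ) :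
    mean w f ^ 2 ≤ ip (prob w) f (sg w t f) := by
  have e := sg_add hn hw (t / 2) (t / 2) f
  rw [add_halves] at e
  rw [e, ip_sg_symm hn hw, ← Rec.mean_sg' hn hw (t / 2) f]
  exact (isP_prob' hw).mean_sq_le _

theorem Bf_eq (φ : Cube n → κ → ℝ) (w : Cube n → ℝ) (t : ℝ) :
    Bf φ w t = ∑ i, ip (prob w) (fun x => φ x i) (sg w t fun x => φ x i) := by
  simp only [Bf, dotProduct, sg_sum, sg_const_mul, mean, mul_sum, ip]
  exact sum_comm

theorem dot_sq (a b : κ → ℝ) : (a ⬝ᵥ b) ^ 2 = ∑ p : κ × κ, a p.1 * a p.2 * (b p.1 * b p.2) := by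
  rw [sq, dotProduct, sum_mul_sum, Fintype.sum_prod_type]
  exact sum_congr rfl fun i _ => sum_congr rfl fun j _ => by ring

theorem Af_eq (φ : Cube n → κ → ℝ) (w : Cube n → ℝ) (t : ℝ) : Af φ w t =
    ∑ p : κ × κ, ip (prob w) (fun x => φ x p.1 * φ x p.2) (sg w t fun x => φ x p.1 * φ x p.2) := by
  simp only [Af, dot_sq, sg_sum, sg_const_mul, mean, mul_sum, ip]
  exact sum_comm

theorem Vf_eq (φ : Cube n → κ → ℝ) (w : Cube n → ℝ) :
    Vf φ w = ∑ p : κ × κ, mean w (fun x => φ x p.1 * φ x p.2) ^ 2 := by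
  simp only [Vf, dot_sq, SL.mean_sum, SL.mean_const_mul]
  refine sum_congr rfl fun p _ => ?_
  rw [sq]
  exact Ent.mean_mul_const _ _

theorem pe_Bf (hn : 0 < n) (hw : ∀ x, 0 < w x) : PE (Bf φ w) :=
  (PE.sum univ fun i _ => pe_ip hn hw fun x => φ x i).congr fun t => (Bf_eq φ w t).symm

theorem pe_Af (hn : 0 < n) (hw : ∀ x, 0 < w x) : PE (Af φ w) :=
  (PE.sum univ fun (p : κ × κ) _ => pe_ip hn hw fun x => φ x p.1 * φ x p.2).congr
    fun t => (Af_eq φ w t).symm

theorem Vf_le_Af (hn : 0 < n) (hw : ∀ x, 0 < w x) (t : ℝ) : Vf φ w ≤ Af φ w t := by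
  rw [Vf_eq, Af_eq]
  exact sum_le_sum fun p _ => mean_sq_le_ip hn hw t _

theorem sg_sq_le (hn : 0 < n) (hw : ∀ x, 0 < w x) (ht : 0 ≤ t) (f : Cube n → ℝ) (x : Cube n) :
    sg w t f x ^ 2 ≤ sg w t (fun y => f y ^ 2) x := by
  have := (isP_hbCt hn hw ht x).mean_sq_le f
  simp only [ip, ← sq] at this
  exact this

theorem Bf_sq_le (hn : 0 < n) (hw : ∀ x, 0 < w x) (ht : 0 ≤ t) : Bf φ w t ^ 2 ≤ Af φ w t := by
  refine ((isP_prob' hw).mean_sq_le _).trans ((isP_prob' hw).mean_mono fun x => ?_)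
  rw [← sq]
  exact sg_sq_le hn hw ht _ x

theorem B1_zero (hn : 0 < n) (hw : ∀ x, 0 < w x) : B1 w 0 = n := by
  simp only [B1, sg_zero hn hw, sv_dot_self]
  exact (isP_prob' hw).mean_const _

/-- Chebyshev under both laws -/
theorem tv_low (hn : 0 < n) (hw : ∀ x, 0 < w x) (ht : 0 ≤ t) {η : ℝ}
    (h : ∀ x, tv (hbCt w t x) (prob w) ≤ 1 - η) :
    η * Bf φ w t ^ 2 ≤ 4 * (Af φ w t - Bf φ w t ^ 2) + 4 * Vf φ w := by
  have hP := isP_prob' hw
  have B0 : 0 ≤ Bf φ w t := (pe_Bf hn hw).nonneg t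
  set B := Bf φ w t with hB
  have key : ∀ x, η * B ^ 2 ≤ 4 * sg w t (fun y => (φ x ⬝ᵥ φ y) ^ 2) x +
      (-(8 * B) * sg w t (fun y => φ x ⬝ᵥ φ y) x + 4 * B ^ 2) +
        4 * mean w fun y => (φ x ⬝ᵥ φ y) ^ 2 := fun x => by
    set p : Cube n → Prop := fun y => B / 2 < φ x ⬝ᵥ φ y
    have h1 := (Chain22.mean_sub_le_tv (isP_hbCt hn hw ht x) hP (Ent.ind_nonneg p)
      (Ent.ind_le_one p)).trans (h x)
    have h2 : sg w t (fun _ => B ^ 2) x ≤ sg w t (fun y => B ^ 2 * Ent.ind p y +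
        (4 * (φ x ⬝ᵥ φ y) ^ 2 + (-(8 * B) * (φ x ⬝ᵥ φ y) + 4 * B ^ 2))) x :=
      sg_mono hn hw ht (fun y => by
        by_cases hy : p y
        · rw [Ent.ind_pos hy]; nlinarith [sq_nonneg (φ x ⬝ᵥ φ y - B)]
        · rw [Ent.ind_neg hy]
          have : φ x ⬝ᵥ φ y ≤ B / 2 := not_lt.1 hy
          nlinarith) x
    have h3 : Chain22.mean (prob w) (fun y => B ^ 2 * Ent.ind p y) ≤
        Chain22.mean (prob w) fun y => 4 * (φ x ⬝ᵥ φ y) ^ 2 := hP.mean_mono fun y => by
      by_cases hy : p y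
      · rw [Ent.ind_pos hy]
        have : B / 2 < φ x ⬝ᵥ φ y := hy
        nlinarith
      · rw [Ent.ind_neg hy]; nlinarith [sq_nonneg (φ x ⬝ᵥ φ y)]
    simp only [sg_add_fun, sg_const_mul, sg_const hn hw] at h2
    rw [Ent.mean_const_mul, Ent.mean_const_mul] at h3
    have h4 := mul_le_mul_of_nonneg_left h1 (sq_nonneg B)
    have e1 : Chain22.mean (hbCt w t x) (Ent.ind p) = sg w t (Ent.ind p) x := rfl
    have e2 : sg w t (fun z => Ent.ind p z) x = sg w t (Ent.ind p) x := rfl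
    have e3 : Chain22.mean (prob w) (fun z => Ent.ind p z) = Chain22.mean (prob w) (Ent.ind p) := rfl
    have e4 : (Chain22.mean (prob w) fun y => (φ x ⬝ᵥ φ y) ^ 2) =
      mean w fun y => (φ x ⬝ᵥ φ y) ^ 2 := rfl
    rw [e1] at h4
    rw [e2] at h2
    rw [e3, e4] at h3
    nlinarith
  have := hP.mean_mono key
  simp only [Ent.mean_add', Ent.mean_const_mul, hP.mean_const] at this
  change _ ≤ 4 * Af φ w t + (-(8 * B) * B + _) + 4 * Vf φ w at this
  nlinarith

/-- **lower bound from upper bound at fixed `n`.** `M`: bound of `e^{2λt} E S_t²` on `[0,T]`;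
`e^{-x} M`: bound of `e^{2λt} Var S_t` on `[0,b]`. -/
theorem var_prop (hn : 0 < n) (hw : ∀ x, 0 < w x) {lam T b r x M : ℝ} (N : ℕ) (hr : 0 ≤ r)
    (hb : 10 * r ≤ b) (hx : 80 * 10 ^ N ≤ x)
    (hM : ∀ t, 0 ≤ t → t ≤ T → Af φ w t ≤ M * exp (-(2 * lam * t)))
    (h0 : ∀ t, 0 ≤ t → t ≤ b → exp (2 * lam * t) * (Af φ w t - Bf φ w t ^ 2) ≤ exp (-x) * (2 * M))
    (ht : 0 ≤ t) (h1 : t ≤ b + N * r) (h2 : t + 10 * r ≤ T) :
    exp (2 * lam * t) * (Af φ w t - Bf φ w t ^ 2) ≤ exp (-(x / 10 ^ N)) * (2 * M) := by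
  have := prop ((pe_Af (φ := φ) hn hw).exp_mul (2 * lam)) ((pe_Bf (φ := φ) hn hw).sq.exp_mul (2 * lam))
    (T := T) (M := 2 * M) N hr hb hx (fun t h h' => by
      have a := mul_le_mul_of_nonneg_left (hM t h h') (exp_pos (2 * lam * t)).le
      rw [mul_left_comm, ← exp_add, add_neg_cancel, exp_zero, mul_one] at a
      have b := mul_le_mul_of_nonneg_left (Bf_sq_le (φ := φ) hn hw h) (exp_pos (2 * lam * t)).le
      linarith)
    (fun t h h' _ => by
      rw [← mul_sub, abs_of_nonneg (mul_nonneg (exp_pos _).le (sub_nonneg.2 (Bf_sq_le hn hw h)))]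
      exact h0 t h h') t ht h1 h2
  rw [← mul_sub] at this
  exact (le_abs_self _).trans this

end Crest.Agent.T157.Low

end
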