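import Crest.Agent.T157.TwDef_30

/-!
# Row 157, block B/S4 (helper84): `LinStmt`, `AdmStmt`, `LevOk`, `PolyStmt`
-/

set_option autoImplicit false

noncomputable section

namespace Crest.Agent.T157.Tw

open MeasureTheory ProbabilityTheory Real Matrix Set Filter
open Crest.Agent.R238.Gap Crest.Agent.R238.GapPc Crest.Agent.R253.Meh74

namespace Lin84

lemma N_eq (b : Bath) (ξ : ℝ) (F G : CV b.m) :
    (imp b ξ).N F G = ex b ξ (F.1 * G.1) - ex b ξ F.1 * ex b ξ G.1 := rfl

lemma En_eq (b : Bath) (ξ : ℝ) (F G : CV b.m) :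
    (imp b ξ).En F G = ex b ξ ((rsL b ξ (inc _ F)).1 * (rsL b ξ (inc _ G)).1) +
      ∑ i, ∑ j, b.A i j * ex b ξ ((pdL b.m i F).1 * (pdL b.m j G).1) := by
  have h : bathL b ξ F G = ∑ i, ∑ j, b.A i j * ex b ξ ((pdL b.m i F).1 * (pdL b.m j G).1) := by
    simp only [bathL, LinearMap.sum_apply, LinearMap.smul_apply, smul_eq_mul]
    rfl
  rw [← h]
  rfl

lemma N_symm (b : Bath) (ξ : ℝ) (F G : CV b.m) : (imp b ξ).N F G = (imp b ξ).N G F := by
  rw [N_eq, N_eq, mul_comm F.1, mul_comm (ex b ξ F.1)]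

lemma ex_spin (b : Bath) (ξ : ℝ) (φ : Bool → ℝ) :
    ex b ξ (fun s _ => φ s) = hb ξ true * φ true + hb ξ false * φ false := by
  simp [ex]

lemma ex_zero (b : Bath) (ξ : ℝ) : ex b ξ 0 = 0 := by simp [ex]

lemma N_sp (b : Bath) (ξ : ℝ) : (imp b ξ).N (sp _) (sp _) = sech2 ξ := by
  have h1 : ex b ξ ((sp b.m).1 * (sp b.m).1) = _ := ex_spin b ξ fun s => sg s * sg s
  have h2 : ex b ξ (sp b.m).1 = _ := ex_spin b ξ sg
  rw [N_eq, h1, h2]
  have hc := cosh_pos ξ
  have e : exp ξ * exp (-ξ) = 1 := by rw [← exp_add]; simp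
  simp only [hb, sg, sech2, if_true, Bool.false_eq_true, if_false, one_mul, neg_mul, mul_one,
    mul_neg, neg_neg]
  field_simp
  rw [cosh_eq]
  nlinarith [e]

lemma c1_shift {m : ℕ} {f : E m → ℝ} (hf : C1 f) (v : E m) : C1 fun z => f (z + v) := by
  have hp : ∀ i, pd i (fun z => f (z + v)) = fun z => pd i f (z + v) := fun i => by
    funext z
    simp only [pd]
    rw [fderiv_comp_add_right]
  exact ⟨hf.c.comp (contDiff_id.add contDiff_const), pg_shift hf.g v,
    fun i => by rw [hp]; exact pg_shift (hf.p i) v⟩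

/-- Stein's identity for one coordinate -/
lemma stein1 {m : ℕ} {f : E m → ℝ} (hf : C1 f) (v : E m) (i : Fin m) :
    ∫ z, (z + v) i * f (z + v) ∂gam m =
      (∫ z, pd i f (z + v) ∂gam m) + v i * ∫ z, f (z + v) ∂gam m := by
  have h1 := c1_shift hf v
  have h := ibp_gam h1.c h1.g i (h1.p i)
  have hp : pd i (fun z => f (z + v)) = fun z => pd i f (z + v) := by
    funext z
    simp only [pd]
    rw [fderiv_comp_add_right]
  rw [hp] at h
  beta_reduce at h
  have i1 : Integrable (fun z : E m => f (z + v) * z i) (gam m) :=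
    integrable_of_PG (h1.cont.mul (c1_coord i).cont) (h1.g.mul (pg_coord i))
  have i2 : Integrable (fun z : E m => v i * f (z + v)) (gam m) :=
    (integrable_of_PG h1.cont h1.g).const_mul _
  rw [← h, ← integral_const_mul, ← integral_add i1 i2]
  refine integral_congr_ae (ae_of_all _ fun z => ?_)
  simp only [PiLp.add_apply]
  ring

lemma ex_lin_mul (b : Bath) (ξ : ℝ) (u : Fin b.m → ℝ) (F : CV b.m) :
    ex b ξ ((lin b.m u).1 * F.1) =
      (∑ i, u i * ex b ξ (pdL b.m i F).1) + u ⬝ᵥ b.g * ex b ξ ((sp b.m).1 * F.1) := by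
  have h : ∀ s, ∫ z, ((lin b.m u).1 * F.1) s (z + sg s • b.v) ∂gam b.m =
      (∑ i, u i * ∫ z, pd i (F.1 s) (z + sg s • b.v) ∂gam b.m) +
        u ⬝ᵥ b.g * ∫ z, sg s * F.1 s (z + sg s • b.v) ∂gam b.m := fun s => by
    have e : ∀ z : E b.m, ((lin b.m u).1 * F.1) s (z + sg s • b.v) =
        ∑ i, u i * ((z + sg s • b.v) i * F.1 s (z + sg s • b.v)) := fun z => by
      change (∑ i, u i * (z + sg s • b.v) i) * F.1 s (z + sg s • b.v) = _
      rw [Finset.sum_mul]
      exact Finset.sum_congr rfl fun i _ => mul_assoc _ _ _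
    simp_rw [e]
    rw [integral_finsetSum _ fun i _ => (int_shift ((c1_coord i).mul (F.2 s)).cont
      ((c1_coord i).mul (F.2 s)).g _).const_mul _]
    simp_rw [integral_const_mul, stein1 (F.2 s)]
    rw [dotProduct, Finset.sum_mul, ← Finset.sum_add_distrib]
    refine Finset.sum_congr rfl fun i _ => ?_
    have : (sg s • b.v) i = sg s * b.g i := rfl
    rw [this]
    ring
  unfold ex
  simp_rw [h]
  change _ = (∑ i, u i * ∑ s, hb ξ s * ∫ z, pd i (F.1 s) (z + sg s • b.v) ∂gam b.m) +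
    u ⬝ᵥ b.g * ∑ s, hb ξ s * ∫ z, sg s * F.1 s (z + sg s • b.v) ∂gam b.m
  simp only [Fintype.sum_bool, mul_add, Finset.mul_sum, Finset.sum_add_distrib]
  have c : ∀ (a : ℝ) (w : Fin b.m → ℝ), ∑ i, a * (u i * w i) = ∑ i, u i * (a * w i) :=
    fun a w => Finset.sum_congr rfl fun i _ => by ring
  rw [c, c]
  ring

/-- the constant function -/
def one (m : ℕ) : CV m := ⟨fun _ _ => 1, fun _ => c1_const _⟩

lemma pd_sp (m : ℕ) (i : Fin m) : (pdL m i (sp m)).1 = 0 := by
  funext s X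
  change pd i (fun _ => sg s) X = 0
  simp [pd]

lemma pd_lin (m : ℕ) (i : Fin m) (u : Fin m → ℝ) : (pdL m i (lin m u)).1 = fun _ _ => u i := by
  funext s X
  change pd i (fun X : E m => ∑ k, u k * X k) X = u i
  rw [pd_sum' fun k _ => (c1_coord k).smul (u k)]
  have : ∀ k, pd i (fun X : E m => u k * X k) X = if k = i then u k else 0 := fun k => by
    rw [(c1_const (u k)).pd_mul (c1_coord k), pd_coord]
    simp [pd]
  simp [this]

lemma ex_lin (b : Bath) (ξ : ℝ) (u : Fin b.m → ℝ) :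
    ex b ξ (lin b.m u).1 = u ⬝ᵥ b.g * ex b ξ (sp b.m).1 := by
  have h := ex_lin_mul b ξ u (one _)
  have e1 : ∀ i, (pdL b.m i (one b.m)).1 = 0 := fun i => by
    funext s X
    change pd i (fun _ => (1 : ℝ)) X = 0
    simp [pd]
  have e2 : (one b.m).1 = 1 := rfl
  simpa [e1, e2, ex_zero] using h

/-- **Stein** -/
lemma N_lin (b : Bath) (ξ : ℝ) (u : Fin b.m → ℝ) (F : CV b.m) :
    (imp b ξ).N (lin _ u) F =
      (∑ i, u i * ex b ξ (pdL b.m i F).1) + u ⬝ᵥ b.g * (imp b ξ).N (sp _) F := by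
  rw [N_eq, N_eq, ex_lin_mul, ex_lin]
  ring

lemma rs_lin (b : Bath) (ξ : ℝ) (u : Fin b.m → ℝ) : (rsL b ξ (inc _ (lin b.m u))).1 = 0 := by
  funext s X
  change (∑ k, u k * X k) - ∑ t, hb (fld b ξ X) t * (∑ k, u k * X k) = 0
  rw [Fintype.sum_bool, ← add_mul, hb_sum]
  ring

lemma bm_hb (s : Bool) : BM fun ξ => hb ξ s :=
  ⟨(continuous_hb s).measurable, 1, fun ξ => by rw [abs_of_pos (hb_pos _ _)]; exact hb_le _ _⟩

lemma bm_sum {ι : Type} (t : Finset ι) {c : ι → ℝ → ℝ} (h : ∀ i, BM (c i)) :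
    BM fun ξ => ∑ i ∈ t, c i ξ := by
  classical
  induction t using Finset.induction_on with
  | empty => simpa using BM.const 0
  | insert a t ha ih => simpa [Finset.sum_insert ha] using (h a).add ih

lemma bm_ex (b : Bath) (F : Bool → E b.m → ℝ) : BM fun ξ => ex b ξ F :=
  bm_sum _ fun s => (bm_hb s).mul (BM.const _)

lemma rs_abs (b : Bath) (ξ : ℝ) (F : CV b.m) (s : Bool) (X : E b.m) :
    |(rsL b ξ (inc _ F)).1 s X| ≤ |F.1 s X| + (|F.1 true X| + |F.1 false X|) := by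
  change |F.1 s X - ∑ t, hb (fld b ξ X) t * F.1 t X| ≤ _
  rw [Fintype.sum_bool]
  refine (abs_sub _ _).trans (add_le_add le_rfl ((abs_add_le _ _).trans (add_le_add ?_ ?_))) <;>
  · rw [abs_mul, abs_of_pos (hb_pos _ _)]
    exact mul_le_of_le_one_left (abs_nonneg _) (hb_le _ _)

lemma rs_cont (b : Bath) (F : CV b.m) (s : Bool) :
    Continuous fun p : ℝ × E b.m => (rsL b p.1 (inc _ F)).1 s p.2 := by
  change Continuous fun p : ℝ × E b.m => F.1 s p.2 - ∑ t, hb (fld b p.1 p.2) t * F.1 t p.2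
  refine ((F.2 s).cont.comp continuous_snd).sub (continuous_finsetSum _ fun t _ => ?_)
  refine ((continuous_hb t).comp ?_).mul ((F.2 t).cont.comp continuous_snd)
  unfold fld
  fun_prop

lemma bm_spin (b : Bath) (F G : CV b.m) :
    BM fun ξ => ex b ξ ((rsL b ξ (inc _ F)).1 * (rsL b ξ (inc _ G)).1) := by
  refine bm_sum _ fun s => (bm_hb s).mul ⟨?_, ?_⟩
  · have hc : Continuous fun p : ℝ × E b.m => (p.1, p.2 + sg s • b.v) := by fun_prop
    have : Continuous fun p : ℝ × E b.m =>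
        ((rsL b p.1 (inc _ F)).1 * (rsL b p.1 (inc _ G)).1) s (p.2 + sg s • b.v) :=
      ((rs_cont b F s).comp hc).mul ((rs_cont b G s).comp hc)
    exact (this.stronglyMeasurable.integral_prod_right' (ν := gam b.m)).measurable
  · have hB : ∀ F : CV b.m, Continuous (fun X => |F.1 s X| + (|F.1 true X| + |F.1 false X|)) ∧
        PG fun X => |F.1 s X| + (|F.1 true X| + |F.1 false X|) := fun F =>
      ⟨(F.2 s).cont.abs.add ((F.2 true).cont.abs.add (F.2 false).cont.abs),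
        (F.2 s).g.abs.add ((F.2 true).g.abs.add (F.2 false).g.abs)⟩
    refine ⟨_, fun ξ => (Real.norm_eq_abs _).symm.trans_le (norm_integral_le_of_norm_le
      (int_shift ((hB F).1.mul (hB G).1) ((hB F).2.mul (hB G).2) (sg s • b.v))
      (ae_of_all _ fun z => ?_))⟩
    rw [Real.norm_eq_abs, Pi.mul_apply, Pi.mul_apply, abs_mul]
    exact mul_le_mul (rs_abs b ξ F s _) (rs_abs b ξ G s _) (abs_nonneg _) (by positivity)

lemma ev_bind {σ τ : Type} (f : τ → ℝ) (g : σ → MvPolynomial τ ℝ) (p : MvPolynomial σ ℝ) :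
    MvPolynomial.eval f (MvPolynomial.bind₁ g p) =
      MvPolynomial.eval (fun i => MvPolynomial.eval f (g i)) p :=
  MvPolynomial.eval₂Hom_bind₁ _ _ _ _

lemma pg_prod {m : ℕ} {ι : Type} (t : Finset ι) {f : ι → E m → ℝ} (h : ∀ i, PG (f i)) :
    PG fun x => ∏ i ∈ t, f i x := by
  classical
  induction t using Finset.induction_on with
  | empty => simpa using pg_const (n := m) 1
  | insert a t ha ih => simpa [Finset.prod_insert ha] using (h a).mul ih

/-- integrating out a group of variables of a polynomial gives a polynomial -/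
lemma int_poly {m1 m2 : ℕ} (q : MvPolynomial (Fin m2 ⊕ Fin m1) ℝ) :
    ∃ r : MvPolynomial (Fin m2) ℝ, ∀ X : Fin m2 → ℝ,
      ∫ y : E m1, MvPolynomial.eval (Sum.elim X fun k => y k) q ∂gam m1 = MvPolynomial.eval X r := by
  refine ⟨∑ d ∈ q.support, MvPolynomial.C (q.coeff d * ∫ y : E m1, ∏ k, y k ^ d (Sum.inr k) ∂gam m1)
    * ∏ j, MvPolynomial.X j ^ d (Sum.inl j), fun X => ?_⟩
  have hi : ∀ d : Fin m2 ⊕ Fin m1 →₀ ℕ,
      Integrable (fun y : E m1 => ∏ k, y k ^ d (Sum.inr k)) (gam m1) := fun d =>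
    integrable_of_PG (continuous_finsetProd _ fun k _ => (c1_coord k).cont.pow _)
      (pg_prod _ fun k => (pg_coord k).pow _)
  simp only [MvPolynomial.eval_eq' _ q, Fintype.prod_sum_type, Sum.elim_inl, Sum.elim_inr]
  rw [integral_finsetSum _ fun d _ => ((hi d).const_mul _).const_mul _, map_sum]
  refine Finset.sum_congr rfl fun d _ => ?_
  simp only [integral_const_mul, map_mul, MvPolynomial.eval_C, map_prod, map_pow,
    MvPolynomial.eval_X]
  ring

lemma mv_apply {k l : ℕ} (M : Matrix (Fin k) (Fin l) ℝ) (X : E l) (i : Fin k) :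
    mv M X i = ∑ j, M i j * X j := rfl

end Lin84

open Lin84

theorem linStmt : LinStmt := by
  intro b ξ u
  have h2 : ∀ u : Fin b.m → ℝ, (imp b ξ).N (sp _) (lin _ u) = sech2 ξ * (u ⬝ᵥ b.g) := fun u => by
    rw [N_symm, N_lin, N_sp]
    simp [pd_sp, ex_zero, mul_comm]
  have hone : ∀ c : ℝ, ex b ξ (fun _ _ => c) = c := fun c => by
    rw [ex_spin b ξ fun _ => c, ← add_mul, hb_sum, one_mul]
  refine ⟨fun s X => ?_, h2 u, fun v => ?_, fun F => ?_⟩
  · change (∑ i, u i * (-X) i) = -∑ i, u i * X i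
    simp
  · rw [N_lin, h2]
    simp only [pd_lin, hone]
    have e : ∑ i, u i * v i = u ⬝ᵥ v := rfl
    rw [e]
    ring
  · rw [N_lin, En_eq, rs_lin, zero_mul, ex_zero, zero_add, add_sub_cancel_right, Finset.sum_comm]
    refine Finset.sum_congr rfl fun j _ => ?_
    rw [Matrix.mulVec, dotProduct, Finset.sum_mul]
    refine Finset.sum_congr rfl fun i _ => ?_
    have hs : b.A j i = b.A i j := by simpa using b.psd.isHermitian.apply j i |>.symm
    have e : (pdL b.m i (lin b.m u)).1 * (pdL b.m j F).1 = u i • (pdL b.m j F).1 := by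
      rw [pd_lin]; rfl
    rw [e, ex_smul, hs]
    ring

theorem admStmt : AdmStmt := by
  intro b P P'
  constructor
  · simp only [N_eq, sub_eq_add_neg, ← neg_one_mul (ex b _ P.1 * ex b _ P'.1)]
    exact (bm_ex b _).add ((BM.const _).mul ((bm_ex b _).mul (bm_ex b _)))
  · simp only [En_eq]
    exact (bm_spin b P P').add (bm_sum _ fun i => bm_sum _ fun j => (BM.const _).mul (bm_ex b _))


theorem polyStmt : PolyStmt := by
  refine ⟨⟨PV, fun m s => ⟨MvPolynomial.C (sg s), fun X => ?_⟩,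
    fun m u s => ⟨∑ i, MvPolynomial.C (u i) * MvPolynomial.X i, fun X => ?_⟩,
    fun m F G hG hF s => ?_, fun m1 m2 P R F G hG hF s => ?_⟩, fun _ => rfl⟩
  · simp [sp]
  · simp [lin]
  · obtain ⟨p, hp⟩ := hF s
    obtain ⟨q, hq⟩ := hF (!s)
    refine ⟨MvPolynomial.C (1 / 2) * (p - MvPolynomial.bind₁ (fun i => -MvPolynomial.X i) q),
      fun X => ?_⟩
    rw [hG, hp, hq, map_mul, map_sub, ev_bind]
    simp only [MvPolynomial.eval_C, map_neg, MvPolynomial.eval_X, PiLp.neg_apply]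
    ring
  · obtain ⟨p, hp⟩ := hF s
    obtain ⟨r, hr⟩ := int_poly (MvPolynomial.bind₁ (fun i =>
      (∑ j, MvPolynomial.C (P i j) * MvPolynomial.X (Sum.inl j)) +
        ∑ k, MvPolynomial.C (R i k) * MvPolynomial.X (Sum.inr k)) p)
    refine ⟨r, fun X => ?_⟩
    rw [hG, ← hr]
    refine integral_congr_ae (ae_of_all _ fun y => ?_)
    simp only [hp, ev_bind, map_add, map_sum, map_mul, MvPolynomial.eval_C, MvPolynomial.eval_X,
      Sum.elim_inl, Sum.elim_inr, PiLp.add_apply, mv_apply]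

end Crest.Agent.T157.Tw
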