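import Crest.Agent.T157.TwDef_30

/-!
# Row 157, block B/S4 (helper52): `(M1)`, monotonicity of the impurity in the bath

`L F s X = E_y F s (P X + R y)` with `P Pᵀ + R Rᵀ = 1`.
-/

set_option autoImplicit false

noncomputable section

namespace Crest.Agent.T157.Tw

open MeasureTheory ProbabilityTheory Real Matrix Set Filter
open Crest.Agent.R238.Gap Crest.Agent.R238.GapPc Crest.Agent.R253.Meh74
open scoped MatrixOrder

namespace M1

variable {k l m : ℕ}

lemma mv_apply (M : Matrix (Fin k) (Fin l) ℝ) (x : E l) (i : Fin k) :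
    mv M x i = ∑ j, M i j * x j := rfl

lemma inner_eq (x y : E k) : inner ℝ x y = ∑ i, x i * y i := by
  simp [PiLp.inner_apply, mul_comm]

lemma inner_mv (M : Matrix (Fin k) (Fin l) ℝ) (x : E l) (t : E k) :
    inner ℝ (mv M x) t = inner ℝ x (mv Mᵀ t) := by
  simp only [inner_eq, mv_apply, transpose_apply, Finset.sum_mul, Finset.mul_sum]
  rw [Finset.sum_comm]
  exact Finset.sum_congr rfl fun j _ => Finset.sum_congr rfl fun i _ => by ring

/-! ### affine substitutions -/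

lemma grow (p : E l →L[ℝ] E k) (r : E m →L[ℝ] E k) (X : E l) (y : E m) :
    1 + ‖p X + r y‖ ≤ (1 + ‖p‖ + ‖r‖) * ((1 + ‖X‖) * (1 + ‖y‖)) := by
  have h1 := norm_add_le (p X) (r y)
  have h2 := p.le_opNorm X
  have h3 := r.le_opNorm y
  have a := norm_nonneg p
  have b := norm_nonneg r
  have c := norm_nonneg X
  have d := norm_nonneg y
  nlinarith [mul_nonneg a c, mul_nonneg b d, mul_nonneg c d, mul_nonneg a d, mul_nonneg b c,
    mul_nonneg a (mul_nonneg c d), mul_nonneg b (mul_nonneg c d)]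

lemma bound {F : Type*} [NormedAddCommGroup F] {g : E k → F} {K : ℝ} {j : ℕ} (hK0 : 0 ≤ K)
    (hK : ∀ x, ‖g x‖ ≤ K * (1 + ‖x‖) ^ j) (p : E l →L[ℝ] E k) (r : E m →L[ℝ] E k) (X : E l)
    (y : E m) :
    ‖g (p X + r y)‖ ≤ K * (1 + ‖p‖ + ‖r‖) ^ j * (1 + ‖X‖) ^ j * (1 + ‖y‖) ^ j := by
  refine (hK _).trans ?_
  rw [mul_assoc, mul_assoc, ← mul_pow, ← mul_pow]
  exact mul_le_mul_of_nonneg_left (pow_le_pow_left₀ (by positivity) (grow p r X y) j) hK0

lemma pg_aff {f : E k → ℝ} (hf : PG f) (c : E k) (r : E m →L[ℝ] E k) : PG fun y => f (c + r y) := by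
  obtain ⟨K, j, hK0, hK⟩ := pg_nonneg hf
  exact ⟨_, j, fun y => bound (g := f) hK0 hK (ContinuousLinearMap.id ℝ _) r c y⟩

lemma pd_aff {f : E k → ℝ} (hf : Differentiable ℝ f) (c : E k) (R : Matrix (Fin k) (Fin m) ℝ)
    (j : Fin m) (y : E m) :
    pd j (fun y => f (c + mv R y)) y = ∑ i, R i j * pd i f (c + mv R y) := by
  have h := ((hf (c + mv R y)).hasFDerivAt).comp y ((mv R).hasFDerivAt.const_add c)
  unfold pd
  have h3 : fderiv ℝ (fun y => f (c + mv R y)) y = _ := h.fderiv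
  rw [h3, ContinuousLinearMap.comp_apply, clm_apply_eq_sum]
  refine Finset.sum_congr rfl fun i _ => ?_
  rw [mv_apply]
  simp

lemma c1_aff {f : E k → ℝ} (hf : C1 f) (c : E k) (R : Matrix (Fin k) (Fin m) ℝ) :
    C1 fun y => f (c + mv R y) :=
  ⟨hf.c.comp (contDiff_const.add (mv R).contDiff), pg_aff hf.g c _, fun j => by
    have : pd j (fun y => f (c + mv R y)) = fun y => ∑ i, R i j * pd i f (c + mv R y) :=
      funext (pd_aff hf.diff c R j)
    rw [this]
    exact PG.sum _ fun i _ => (pg_const _).mul (pg_aff (hf.p i) c _)⟩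

/-! ### the Gaussian average -/

/-- `E_y g (p X + r y)` -/
def av {F : Type*} [NormedAddCommGroup F] [NormedSpace ℝ F] (p : E l →L[ℝ] E k)
    (r : E m →L[ℝ] E k) (g : E k → F) (X : E l) : F := ∫ y, g (p X + r y) ∂gam m

section av
variable (p : E l →L[ℝ] E k) (r : E m →L[ℝ] E k)

lemma int_y {F : Type*} [NormedAddCommGroup F] [SecondCountableTopologyEither (E m) F]
    {g : E k → F} (hg : Continuous g) {K : ℝ} {j : ℕ} (hK0 : 0 ≤ K)
    (hK : ∀ x, ‖g x‖ ≤ K * (1 + ‖x‖) ^ j) (X : E l) :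
    Integrable (fun y => g (p X + r y)) (gam m) :=
  ((integrable_pow_stdGaussian j).const_mul _).mono'
    (hg.comp (by fun_prop)).aestronglyMeasurable (ae_of_all _ fun y => bound hK0 hK p r X y)

lemma int_pg {f : E k → ℝ} (hc : Continuous f) (hf : PG f) (X : E l) :
    Integrable (fun y => f (p X + r y)) (gam m) :=
  integrable_of_PG (hc.comp (by fun_prop)) (pg_aff hf _ r)

lemma cont_av {F : Type*} [NormedAddCommGroup F] [NormedSpace ℝ F]
    {g : E k → F} (hg : Continuous g) {K : ℝ} {j : ℕ} (hK0 : 0 ≤ K)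
    (hK : ∀ x, ‖g x‖ ≤ K * (1 + ‖x‖) ^ j) : Continuous (av p r g) := by
  refine continuous_iff_continuousAt.2 fun x0 => ?_
  refine continuousAt_of_dominated
    (bound := fun y => K * (1 + ‖p‖ + ‖r‖) ^ j * (2 + ‖x0‖) ^ j * (1 + ‖y‖) ^ j)
    (Eventually.of_forall fun x => (hg.comp (by fun_prop)).aestronglyMeasurable) ?_
    ((integrable_pow_stdGaussian j).const_mul _) (ae_of_all _ fun y => ?_)
  · filter_upwards [Metric.ball_mem_nhds x0 one_pos] with x hx
    refine ae_of_all _ fun y => (bound hK0 hK p r x y).trans ?_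
    have := near_bound hx j
    gcongr
  · exact (hg.comp (by fun_prop)).continuousAt

lemma cont_av' {f : E k → ℝ} (hc : Continuous f) (hf : PG f) : Continuous (av p r f) := by
  obtain ⟨K, j, hK0, hK⟩ := pg_nonneg hf
  exact cont_av p r hc hK0 hK

lemma pg_av {f : E k → ℝ} (hf : PG f) : PG (av p r f) := by
  obtain ⟨K, j, hK0, hK⟩ := pg_nonneg hf
  refine ⟨K * (1 + ‖p‖ + ‖r‖) ^ j * ∫ y, (1 + ‖y‖) ^ j ∂gam m, j, fun X => ?_⟩
  have := norm_integral_le_of_norm_le (μ := gam m) (f := fun y => f (p X + r y))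
    ((integrable_pow_stdGaussian j).const_mul (K * (1 + ‖p‖ + ‖r‖) ^ j * (1 + ‖X‖) ^ j))
    (ae_of_all _ fun y => bound hK0 hK p r X y)
  rw [integral_const_mul] at this
  exact this.trans (le_of_eq (by ring))

lemma hasFDerivAt_av {f : E k → ℝ} (hf : C1 f) (x0 : E l) :
    HasFDerivAt (av p r f) ((av p r (fderiv ℝ f) x0).comp p) x0 := by
  obtain ⟨K, j, hK0, hK⟩ := norm_fderiv_bound hf
  have hc : Continuous (fderiv ℝ f) := hf.c.continuous_fderiv one_ne_zero
  have h := hasFDerivAt_integral_of_dominated_of_fderiv_le (μ := gam m)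
    (F := fun X y => f (p X + r y)) (F' := fun X y => (fderiv ℝ f (p X + r y)).comp p)
    (x₀ := x0) (s := Metric.ball x0 1)
    (bound := fun y => K * (1 + ‖p‖ + ‖r‖) ^ j * (2 + ‖x0‖) ^ j * ‖p‖ * (1 + ‖y‖) ^ j)
    (Metric.ball_mem_nhds x0 one_pos)
    (Eventually.of_forall fun x => (hf.cont.comp (by fun_prop)).aestronglyMeasurable)
    (int_pg p r hf.cont hf.g x0)
    (Continuous.aestronglyMeasurable (by fun_prop))
    (ae_of_all _ fun y x hx => ?_) ((integrable_pow_stdGaussian j).const_mul _)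
    (ae_of_all _ fun y x _ => ?_)
  · have e : ∫ y, (fderiv ℝ f (p x0 + r y)).comp p ∂gam m = (av p r (fderiv ℝ f) x0).comp p :=
      (ContinuousLinearMap.precomp ℝ p).integral_comp_comm (int_y p r hc hK0 hK x0)
    rw [← e]
    exact h
  · refine (ContinuousLinearMap.opNorm_comp_le _ _).trans ?_
    have h1 := bound hK0 hK p r x y
    have h2 := near_bound hx j
    calc _ ≤ K * (1 + ‖p‖ + ‖r‖) ^ j * (1 + ‖x‖) ^ j * (1 + ‖y‖) ^ j * ‖p‖ := by gcongr
      _ ≤ K * (1 + ‖p‖ + ‖r‖) ^ j * (2 + ‖x0‖) ^ j * (1 + ‖y‖) ^ j * ‖p‖ := by gcongr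
      _ = _ := by ring
  · exact ((hf.diff _).hasFDerivAt).comp x (p.hasFDerivAt.add_const (r y))

end av

lemma pd_av {f : E k → ℝ} (hf : C1 f) (P : Matrix (Fin k) (Fin l) ℝ) (r : E m →L[ℝ] E k)
    (j : Fin l) (X : E l) :
    pd j (av (mv P) r f) X = av (mv P) r (fun x => ∑ i, P i j * pd i f x) X := by
  obtain ⟨K, j', hK0, hK⟩ := norm_fderiv_bound hf
  have hc : Continuous (fderiv ℝ f) := hf.c.continuous_fderiv one_ne_zero
  unfold pd
  rw [(hasFDerivAt_av (mv P) r hf X).fderiv, ContinuousLinearMap.comp_apply, av,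
    ContinuousLinearMap.integral_apply (int_y (mv P) r hc hK0 hK X)]
  refine integral_congr_ae (ae_of_all _ fun y => ?_)
  simp only
  rw [clm_apply_eq_sum]
  refine Finset.sum_congr rfl fun i _ => ?_
  rw [mv_apply]
  simp

lemma cont_lin {f : E k → ℝ} (hf : C1 f) (u : Fin k → ℝ) :
    Continuous fun x => ∑ i, u i * pd i f x :=
  continuous_finsetSum _ fun i _ => continuous_const.mul (hf.contp i)

lemma pg_lin {f : E k → ℝ} (hf : C1 f) (u : Fin k → ℝ) : PG fun x => ∑ i, u i * pd i f x :=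
  PG.sum _ fun i _ => (pg_const _).mul (hf.p i)

lemma c1_av {f : E k → ℝ} (hf : C1 f) (P : Matrix (Fin k) (Fin l) ℝ) (r : E m →L[ℝ] E k) :
    C1 (av (mv P) r f) := by
  obtain ⟨K, j', hK0, hK⟩ := norm_fderiv_bound hf
  have hc : Continuous (fderiv ℝ f) := hf.c.continuous_fderiv one_ne_zero
  refine ⟨?_, pg_av _ _ hf.g, fun j => ?_⟩
  · rw [contDiff_one_iff_fderiv]
    refine ⟨fun x => (hasFDerivAt_av (mv P) r hf x).differentiableAt, ?_⟩
    have : fderiv ℝ (av (mv P) r f) = fun x => (av (mv P) r (fderiv ℝ f) x).comp (mv P) :=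
      funext fun x => (hasFDerivAt_av (mv P) r hf x).fderiv
    rw [this]
    exact (cont_av (mv P) r hc hK0 hK).clm_comp continuous_const
  · have : pd j (av (mv P) r f) = av (mv P) r fun x => ∑ i, P i j * pd i f x :=
      funext (pd_av hf P r j)
    rw [this]
    exact pg_av _ _ (pg_lin hf _)

/-! ### the law of `P z + R y` -/

lemma norm_mv (M : Matrix (Fin k) (Fin l) ℝ) (t : E k) :
    ‖mv Mᵀ t‖ ^ 2 = t.ofLp ⬝ᵥ (M * Mᵀ) *ᵥ t.ofLp := by
  rw [← mulVec_mulVec, dotProduct_mulVec, ← mulVec_transpose, EuclideanSpace.real_norm_sq_eq]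
  exact Finset.sum_congr rfl fun i _ => by rw [sq]; rfl

theorem law {P : Matrix (Fin k) (Fin l) ℝ} {R : Matrix (Fin k) (Fin m) ℝ}
    (h : P * Pᵀ + R * Rᵀ = 1) :
    ((gam l).prod (gam m)).map (fun q => mv P q.1 + mv R q.2) = gam k := by
  refine Measure.ext_of_charFun (funext fun t => ?_)
  rw [charFun_apply, integral_map (by fun_prop) (by fun_prop), charFun_stdGaussian]
  have e : ∀ q : E l × E m, Complex.exp ((inner ℝ (mv P q.1 + mv R q.2) t : ℝ) * Complex.I) =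
      Complex.exp ((inner ℝ q.1 (mv Pᵀ t) : ℝ) * Complex.I) *
        Complex.exp ((inner ℝ q.2 (mv Rᵀ t) : ℝ) * Complex.I) := fun q => by
    rw [inner_add_left, inner_mv, inner_mv, ← Complex.exp_add]
    push_cast; ring_nf
  simp_rw [e]
  rw [integral_prod_mul (fun z : E l => Complex.exp ((inner ℝ z (mv Pᵀ t) : ℝ) * Complex.I))
    (fun y : E m => Complex.exp ((inner ℝ y (mv Rᵀ t) : ℝ) * Complex.I)), ← charFun_apply,
    ← charFun_apply, charFun_stdGaussian, charFun_stdGaussian, ← Complex.exp_add]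
  have h2 : ‖mv Pᵀ t‖ ^ 2 + ‖mv Rᵀ t‖ ^ 2 = ‖t‖ ^ 2 := by
    rw [norm_mv, norm_mv, ← dotProduct_add, ← add_mulVec, h, one_mulVec,
      EuclideanSpace.real_norm_sq_eq]
    exact Finset.sum_congr rfl fun i _ => by rw [sq]
  congr 1
  have h3 : ((‖t‖ : ℝ) : ℂ) ^ 2 = ((‖mv Pᵀ t‖ : ℝ) : ℂ) ^ 2 + ((‖mv Rᵀ t‖ : ℝ) : ℂ) ^ 2 := by
    exact_mod_cast h2.symm
  rw [h3]; ring

theorem int_av {P : Matrix (Fin k) (Fin l) ℝ} {R : Matrix (Fin k) (Fin m) ℝ}
    (h : P * Pᵀ + R * Rᵀ = 1) {f : E k → ℝ} (hc : Continuous f) (hf : PG f) (v : E l) :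
    ∫ z, av (mv P) (mv R) f (z + v) ∂gam l = ∫ x, f (x + mv P v) ∂gam k := by
  have hi := int_shift hc hf (mv P v)
  rw [← law h] at hi ⊢
  have hm : AEMeasurable (fun q : E l × E m => mv P q.1 + mv R q.2) ((gam l).prod (gam m)) := by
    fun_prop
  have hs : AEStronglyMeasurable (fun x => f (x + mv P v))
      (((gam l).prod (gam m)).map fun q => mv P q.1 + mv R q.2) :=
    (hc.comp (by fun_prop)).aestronglyMeasurable
  have hi' : Integrable (fun q : E l × E m => f (mv P q.1 + mv R q.2 + mv P v))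
      ((gam l).prod (gam m)) := (integrable_map_measure hs hm).1 hi
  rw [integral_map hm hs, integral_prod _ hi']
  refine integral_congr_ae (ae_of_all _ fun z => integral_congr_ae (ae_of_all _ fun y => ?_))
  simp only [map_add]
  congr 1
  abel

/-! ### Jensen and Poincaré in `y` -/

lemma jensen {ι : Type*} [Fintype ι] {A : Matrix ι ι ℝ} (hA : ∀ u, 0 ≤ u ⬝ᵥ A *ᵥ u)
    {u : ι → E m → ℝ} (hc : ∀ i, Continuous (u i)) (hu : ∀ i, PG (u i)) :
    ∑ i, ∑ j, A i j * ((∫ y, u i y ∂gam m) * ∫ y, u j y ∂gam m) ≤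
      ∫ y, ∑ i, ∑ j, A i j * (u i y * u j y) ∂gam m := by
  set c : ι → ℝ := fun i => ∫ y, u i y ∂gam m with hcd
  have i1 : ∀ i, Integrable (u i) (gam m) := fun i => integrable_of_PG (hc i) (hu i)
  have i2 : ∀ i j, Integrable (fun y => u i y * u j y) (gam m) := fun i j =>
    integrable_of_PG ((hc i).mul (hc j)) ((hu i).mul (hu j))
  have i3 : ∀ i j, Integrable (fun y => c j * u i y + c i * u j y - c i * c j) (gam m) :=
    fun i j => (((i1 i).const_mul _).add ((i1 j).const_mul _)).sub (integrable_const _)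
  have e : ∀ i j, ∫ y, (c j * u i y + c i * u j y - c i * c j) ∂gam m = c i * c j := fun i j => by
    have i4 : Integrable (fun y => c j * u i y + c i * u j y) (gam m) :=
      ((i1 i).const_mul _).add ((i1 j).const_mul _)
    rw [integral_sub i4 (integrable_const _),
      integral_add ((i1 i).const_mul _) ((i1 j).const_mul _), integral_const_mul,
      integral_const_mul, integral_const]
    simp only [probReal_univ, one_smul]
    change c j * c i + c i * c j - c i * c j = _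
    ring
  calc ∑ i, ∑ j, A i j * (c i * c j)
      = ∫ y, ∑ i, ∑ j, A i j * (c j * u i y + c i * u j y - c i * c j) ∂gam m := by
        rw [integral_finsetSum _ fun i _ => integrable_finsetSum _ fun j _ =>
          (i3 i j).const_mul (A i j)]
        refine Finset.sum_congr rfl fun i _ => ?_
        rw [integral_finsetSum _ fun j _ => (i3 i j).const_mul (A i j)]
        exact Finset.sum_congr rfl fun j _ => by rw [integral_const_mul, e]
    _ ≤ _ := by
        refine integral_mono (integrable_finsetSum _ fun i _ => integrable_finsetSum _ fun j _ =>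
          (i3 i j).const_mul _) (integrable_finsetSum _ fun i _ => integrable_finsetSum _
            fun j _ => (i2 i j).const_mul _) fun y => ?_
        have h0 := hA fun i => u i y - c i
        simp only [dotProduct, mulVec, Finset.mul_sum] at h0
        have h1 : ∑ i, ∑ j, A i j * (u i y * u j y) -
            ∑ i, ∑ j, A i j * (c j * u i y + c i * u j y - c i * c j) =
            ∑ i, ∑ j, (u i y - c i) * (A i j * (u j y - c j)) := by
          rw [← Finset.sum_sub_distrib]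
          refine Finset.sum_congr rfl fun i _ => ?_
          rw [← Finset.sum_sub_distrib]
          exact Finset.sum_congr rfl fun j _ => by ring
        simp only
        linarith

lemma sq_le {u : E m → ℝ} (hc : Continuous u) (hu : PG u) :
    (∫ y, u y ∂gam m) * ∫ y, u y ∂gam m ≤ ∫ y, u y * u y ∂gam m := by
  have := jensen (ι := Unit) (A := 1) (fun v => by simp [dotProduct, mul_self_nonneg])
    (u := fun _ => u) (fun _ => hc) fun _ => hu
  simpa using this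

/-! ### the impurity measure -/

lemma ex_mono (b : Bath) (ξ : ℝ) {F G : Bool → E b.m → ℝ} (hF : F ∈ CP b.m) (hG : G ∈ CP b.m)
    (h : ∀ s X, F s X ≤ G s X) : ex b ξ F ≤ ex b ξ G :=
  Finset.sum_le_sum fun s _ => mul_le_mul_of_nonneg_left
    (integral_mono (int_shift (hF s).1 (hF s).2 _) (int_shift (hG s).1 (hG s).2 _)
      fun _ => h _ _) (hb_pos _ _).le

/-- the density of `X` -/
def wX (b : Bath) (ξ : ℝ) (X : E b.m) : ℝ :=
  R285.gdens X * exp (-‖b.v‖ ^ 2 / 2) * cosh (fld b ξ X) / cosh ξ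

lemma wX_nonneg (b : Bath) (ξ : ℝ) (X : E b.m) : 0 ≤ wX b ξ X := by
  have h1 := R285.gdens_pos X
  have h2 := cosh_pos (fld b ξ X)
  have h3 := cosh_pos ξ
  unfold wX
  positivity

/-- detailed balance -/
lemma db (b : Bath) (ξ : ℝ) (s : Bool) (X : E b.m) :
    hb ξ s * R285.gdens (X - sg s • b.v) = wX b ξ X * hb (fld b ξ X) s := by
  have h2 := (cosh_pos (fld b ξ X)).ne'
  have h3 := (cosh_pos ξ).ne'
  have h1 : ‖X - sg s • b.v‖ ^ 2 = ‖X‖ ^ 2 - 2 * (sg s * inner ℝ b.v X) + ‖b.v‖ ^ 2 := by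
    rw [norm_sub_sq_real, inner_smul_right, real_inner_comm, norm_smul]
    cases s <;> simp [sg]
  have h4 : exp (sg s * ξ) * exp (-‖X - sg s • b.v‖ ^ 2 / 2) =
      exp (-‖X‖ ^ 2 / 2) * exp (-‖b.v‖ ^ 2 / 2) * exp (sg s * fld b ξ X) := by
    rw [← exp_add, ← exp_add, ← exp_add, h1, fld]
    congr 1
    ring
  unfold wX hb R285.gdens
  field_simp
  simp only [neg_div] at h4 ⊢
  linear_combination h4

lemma ex_eq (b : Bath) (ξ : ℝ) {F : Bool → E b.m → ℝ} (hF : F ∈ CP b.m) :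
    Integrable (fun X => wX b ξ X * ∑ s, hb (fld b ξ X) s * F s X) ∧
      ex b ξ F = ∫ X, wX b ξ X * ∑ s, hb (fld b ξ X) s * F s X := by
  have e : ∀ X, wX b ξ X * ∑ s, hb (fld b ξ X) s * F s X =
      ∑ s, hb ξ s * (R285.gdens (X - sg s • b.v) * F s X) := fun X => by
    rw [Finset.mul_sum]
    exact Finset.sum_congr rfl fun s _ => by rw [← mul_assoc, ← mul_assoc, db]
  have i : ∀ s, Integrable fun X => R285.gdens (X - sg s • b.v) * F s X := fun s => by
    have h := (R285.integrable_stdGaussian_iff _).1 (int_shift (hF s).1 (hF s).2 (sg s • b.v))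
    simpa using h.comp_sub_right (sg s • b.v)
  simp_rw [e]
  refine ⟨integrable_finsetSum _ fun s _ => (i s).const_mul _, ?_⟩
  rw [integral_finsetSum _ fun s _ => (i s).const_mul _]
  refine Finset.sum_congr rfl fun s _ => ?_
  rw [integral_const_mul, R285.integral_stdGaussian,
    ← integral_add_right_eq_self (fun X => R285.gdens (X - sg s • b.v) * F s X) (sg s • b.v)]
  simp

/-- the conditional expectation is the best predictor -/
lemma spin_le (b : Bath) (ξ : ℝ) (G : CP b.m) {M : E b.m → ℝ} (hc : Continuous M) (hM : PG M) :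
    spinL b ξ G G ≤ ex b ξ fun s X => (G.1 s X - M X) * (G.1 s X - M X) := by
  have h1 := ex_eq b ξ (cp_mul (rsL b ξ G).2 (rsL b ξ G).2)
  have hD : (fun s X => G.1 s X - M X) ∈ CP b.m := fun s => ⟨(G.2 s).1.sub hc, (G.2 s).2.sub hM⟩
  have h2 := ex_eq b ξ (cp_mul hD hD)
  change ex b ξ ((rsL b ξ G).1 * (rsL b ξ G).1) ≤
    ex b ξ ((fun s X => G.1 s X - M X) * fun s X => G.1 s X - M X)
  rw [h1.2, h2.2]
  refine integral_mono h1.1 h2.1 fun X => mul_le_mul_of_nonneg_left ?_ (wX_nonneg b ξ X)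
  have h3 := hb_sum (fld b ξ X)
  change ∑ s, hb (fld b ξ X) s * ((G.1 s X - ∑ t, hb (fld b ξ X) t * G.1 t X) *
      (G.1 s X - ∑ t, hb (fld b ξ X) t * G.1 t X)) ≤
    ∑ s, hb (fld b ξ X) s * ((G.1 s X - M X) * (G.1 s X - M X))
  simp only [Fintype.sum_bool]
  obtain h4 : hb (fld b ξ X) false = 1 - hb (fld b ξ X) true := by linarith
  rw [h4]
  nlinarith [sq_nonneg (hb (fld b ξ X) true * G.1 true X +
    (1 - hb (fld b ξ X) true) * G.1 false X - M X)]

lemma N_eq (b : Bath) (ξ : ℝ) (F G : CV b.m) :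
    (imp b ξ).N F G = ex b ξ (F.1 * G.1) - ex b ξ F.1 * ex b ξ G.1 := rfl

lemma cp_of {F : Bool → E m → ℝ} (hF : F ∈ CV m) : F ∈ CP m := fun s => ⟨(hF s).cont, (hF s).g⟩


/-- the bath energy density -/
def bd (A : Matrix (Fin m) (Fin m) ℝ) (F : Bool → E m → ℝ) (s : Bool) (X : E m) : ℝ :=
  ∑ i, ∑ j, A i j * (pd i (F s) X * pd j (F s) X)

lemma bd_cp (A : Matrix (Fin m) (Fin m) ℝ) {F : Bool → E m → ℝ} (hF : F ∈ CV m) :
    bd A F ∈ CP m := fun s =>
  ⟨continuous_finsetSum _ fun i _ => continuous_finsetSum _ fun j _ =>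
    continuous_const.mul (((hF s).contp i).mul ((hF s).contp j)),
    PG.sum _ fun i _ => PG.sum _ fun j _ => (pg_const _).mul (((hF s).p i).mul ((hF s).p j))⟩

lemma bath_eq (b : Bath) (ξ : ℝ) (F : CV b.m) : bathL b ξ F F = ex b ξ (bd b.A F.1) := by
  have h : bathL b ξ F F = exL b ξ (∑ i, ∑ j, b.A i j • mulL b.m (pdL b.m i F) (pdL b.m j F)) := by
    simp only [bathL, map_sum, map_smul, LinearMap.sum_apply, LinearMap.smul_apply]
    rfl
  rw [h]
  change ex b ξ (∑ i, ∑ j, b.A i j • mulL b.m (pdL b.m i F) (pdL b.m j F)).1 = _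
  congr 1
  funext s X
  simp only [Submodule.coe_sum, Submodule.coe_smul, Finset.sum_apply, Pi.smul_apply, smul_eq_mul]
  rfl

lemma En_eq (b : Bath) (ξ : ℝ) (F : CV b.m) :
    (imp b ξ).En F F = spinL b ξ (inc _ F) (inc _ F) + ex b ξ (bd b.A F.1) := by
  rw [← bath_eq]; rfl

/-! ### the lift -/

/-- the lift as a linear map -/
def lift (P : Matrix (Fin k) (Fin l) ℝ) (R : Matrix (Fin k) (Fin m) ℝ) : CV k →ₗ[ℝ] CV l where
  toFun F := ⟨fun s => av (mv P) (mv R) (F.1 s), fun s => c1_av (F.2 s) P _⟩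
  map_add' F G := Subtype.ext (funext fun s => funext fun X =>
    integral_add (int_pg _ _ (F.2 s).cont (F.2 s).g X) (int_pg _ _ (G.2 s).cont (G.2 s).g X))
  map_smul' c _ := Subtype.ext (funext fun _ => funext fun _ => integral_const_mul c _)

lemma av_cp (P : Matrix (Fin k) (Fin l) ℝ) (R : Matrix (Fin k) (Fin m) ℝ) {F : Bool → E k → ℝ}
    (hF : F ∈ CP k) : (fun s => av (mv P) (mv R) (F s)) ∈ CP l := fun s =>
  ⟨cont_av' _ _ (hF s).1 (hF s).2, pg_av _ _ (hF s).2⟩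

section main
variable {b1 b2 : Bath} {P : Matrix (Fin b1.m) (Fin b2.m) ℝ} {R : Matrix (Fin b1.m) (Fin m) ℝ}

theorem ex_av (h : P * Pᵀ + R * Rᵀ = 1) (hg : P *ᵥ b2.g = b1.g) (ξ : ℝ)
    {F : Bool → E b1.m → ℝ} (hF : F ∈ CP b1.m) :
    ex b2 ξ (fun s => av (mv P) (mv R) (F s)) = ex b1 ξ F := by
  refine Finset.sum_congr rfl fun s _ => ?_
  have e : mv P b2.v = b1.v := by
    ext i
    rw [mv_apply]
    exact congrFun hg i
  simp only
  rw [int_av h (hF s).1 (hF s).2, map_smul, e]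

/-- comparison of a function of level 2 with the average of a function of level 1 -/
lemma ex_le (h : P * Pᵀ + R * Rᵀ = 1) (hg : P *ᵥ b2.g = b1.g) (ξ : ℝ)
    {F : Bool → E b1.m → ℝ} (hF : F ∈ CP b1.m) {G : Bool → E b2.m → ℝ} (hG : G ∈ CP b2.m)
    (hle : ∀ s X, G s X ≤ av (mv P) (mv R) (F s) X) : ex b2 ξ G ≤ ex b1 ξ F :=
  (ex_mono b2 ξ hG (av_cp P R hF) hle).trans (ex_av h hg ξ hF).le

lemma sq_lift (h : P * Pᵀ + R * Rᵀ = 1) (hg : P *ᵥ b2.g = b1.g) (ξ : ℝ) (F : CV b1.m) :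
    ex b2 ξ ((lift P R F).1 * (lift P R F).1) ≤ ex b1 ξ (F.1 * F.1) :=
  ex_le h hg ξ (cp_mul (cp_of F.2) (cp_of F.2))
    (cp_mul (cp_of (lift P R F).2) (cp_of (lift P R F).2)) fun s _ =>
      sq_le ((F.2 s).cont.comp (by fun_prop)) (pg_aff (F.2 s).g _ _)

lemma spin_lift (h : P * Pᵀ + R * Rᵀ = 1) (hg : P *ᵥ b2.g = b1.g) (ξ : ℝ) (F : CV b1.m) :
    spinL b2 ξ (inc _ (lift P R F)) (inc _ (lift P R F)) ≤ spinL b1 ξ (inc _ F) (inc _ F) := by
  set M : E b1.m → ℝ := fun X => ∑ t, hb (fld b1 ξ X) t * F.1 t X with hM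
  have hc : Continuous M :=
    continuous_finsetSum _ fun t _ => (hb_cp b1 ξ t true).1.mul (F.2 t).cont
  have hp : PG M := PG.sum _ fun t _ => (hb_cp b1 ξ t true).2.mul (F.2 t).g
  have hc' := cont_av' (mv P) (mv R) hc hp
  have hp' := pg_av (mv P) (mv R) hp
  refine (spin_le b2 ξ _ hc' hp').trans ?_
  have hD : (fun s X => (inc _ (lift P R F)).1 s X - av (mv P) (mv R) M X) ∈ CP b2.m :=
    fun s => ⟨((inc _ (lift P R F)).2 s).1.sub hc', ((inc _ (lift P R F)).2 s).2.sub hp'⟩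
  refine ex_le h hg ξ (cp_mul (rsL b1 ξ (inc _ F)).2 (rsL b1 ξ (inc _ F)).2) (cp_mul hD hD)
    fun s X => ?_
  have e : (inc _ (lift P R F)).1 s X - av (mv P) (mv R) M X =
      ∫ y, (rsL b1 ξ (inc _ F)).1 s (mv P X + mv R y) ∂gam m :=
    (integral_sub (int_pg _ _ (F.2 s).cont (F.2 s).g X) (int_pg _ _ hc hp X)).symm
  change ((inc _ (lift P R F)).1 s X - av (mv P) (mv R) M X) *
    ((inc _ (lift P R F)).1 s X - av (mv P) (mv R) M X) ≤ _
  rw [e]
  exact sq_le (((rsL b1 ξ (inc _ F)).2 s).1.comp (by fun_prop))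
    (pg_aff ((rsL b1 ξ (inc _ F)).2 s).2 _ _)

lemma bd_eq (A : Matrix (Fin k) (Fin k) ℝ) (F : Bool → E k → ℝ) (s : Bool) (X : E k) :
    bd A F s X = (fun i => pd i (F s) X) ⬝ᵥ A *ᵥ fun i => pd i (F s) X := by
  simp only [bd, dotProduct, mulVec, Finset.mul_sum]
  exact Finset.sum_congr rfl fun i _ => Finset.sum_congr rfl fun j _ => by ring

lemma conj_eq (Q : Matrix (Fin k) (Fin l) ℝ) (A : Matrix (Fin l) (Fin l) ℝ) (u : Fin k → ℝ) :
    u ⬝ᵥ (Q * A * Qᵀ) *ᵥ u =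
      ∑ i, ∑ j, A i j * ((∑ a, Q a i * u a) * ∑ a, Q a j * u a) := by
  rw [← mulVec_mulVec, ← mulVec_mulVec, dotProduct_mulVec, ← mulVec_transpose]
  simp only [dotProduct, mulVec, Finset.mul_sum (s := Finset.univ) (f := fun j => A _ j * _)]
  exact Finset.sum_congr rfl fun i _ => Finset.sum_congr rfl fun j _ => by
    simp only [transpose_apply]; ring

lemma bath_lift (h : P * Pᵀ + R * Rᵀ = 1) (hg : P *ᵥ b2.g = b1.g) (ξ : ℝ) (F : CV b1.m) :
    ex b2 ξ (bd b2.A (lift P R F).1) ≤ ex b1 ξ (bd (P * b2.A * Pᵀ) F.1) := by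
  refine ex_le h hg ξ (bd_cp _ F.2) (bd_cp _ (lift P R F).2) fun s X => ?_
  have hj := jensen (A := b2.A) (fun u => by simpa using b2.psd.dotProduct_mulVec_nonneg u)
    (u := fun j y => ∑ i, P i j * pd i (F.1 s) (mv P X + mv R y))
    (fun j => (cont_lin (F.2 s) _).comp (by fun_prop))
    (fun j => pg_aff (pg_lin (F.2 s) fun i => P i j) _ _)
  have e : ∀ j, pd j ((lift P R F).1 s) X =
      ∫ y, ∑ i, P i j * pd i (F.1 s) (mv P X + mv R y) ∂gam m := fun j => pd_av (F.2 s) P _ j X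
  unfold bd
  simp only [e]
  refine hj.trans (le_of_eq (integral_congr_ae (ae_of_all _ fun y => ?_)))
  exact (conj_eq P b2.A _).symm.trans (bd_eq _ F.1 s _).symm

lemma var_lift (h : P * Pᵀ + R * Rᵀ = 1) (hg : P *ᵥ b2.g = b1.g) (ξ : ℝ) (F : CV b1.m) :
    ex b1 ξ (F.1 * F.1) ≤
      ex b2 ξ ((lift P R F).1 * (lift P R F).1) + ex b1 ξ (bd (R * Rᵀ) F.1) := by
  have h1 := cp_mul (cp_of F.2) (cp_of F.2)
  have h2 := cp_mul (cp_of (lift P R F).2) (cp_of (lift P R F).2)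
  have h3 := bd_cp (R * Rᵀ) F.2
  rw [← ex_av h hg ξ h1, ← ex_av h hg ξ h3, ← ex_add b2 ξ h2 (av_cp P R h3)]
  refine ex_mono b2 ξ (av_cp P R h1) (add_mem h2 (av_cp P R h3)) fun s X => ?_
  have hc := c1_aff (F.2 s) (mv P X) R
  have hp := poincare1 hc
  have i1 : ∀ i, Integrable (fun y => pd i (fun y => F.1 s (mv P X + mv R y)) y ^ 2) (gam m) :=
    fun i => integrable_of_PG ((hc.contp i).pow 2) (PG_sq (hc.p i))
  rw [← integral_finsetSum _ fun i _ => i1 i] at hp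
  have e : ∀ y, ∑ j, pd j (fun y => F.1 s (mv P X + mv R y)) y ^ 2 =
      bd (R * Rᵀ) F.1 s (mv P X + mv R y) := fun y => by
    have h4 := conj_eq R 1 fun i => pd i (F.1 s) (mv P X + mv R y)
    rw [Matrix.mul_one] at h4
    rw [bd_eq, h4]
    refine Finset.sum_congr rfl fun j _ => ?_
    rw [pd_aff (F.2 s).diff, sq]
    simp [one_apply]
  simp only [e] at hp
  simp only [sq] at hp
  change ∫ y, F.1 s (mv P X + mv R y) * F.1 s (mv P X + mv R y) ∂gam m ≤
    (∫ y, F.1 s (mv P X + mv R y) ∂gam m) * (∫ y, F.1 s (mv P X + mv R y) ∂gam m) +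
      ∫ y, bd (R * Rᵀ) F.1 s (mv P X + mv R y) ∂gam m
  linarith

/-- the lift is a morphism -/
theorem mor_lift {a : ℝ} (ha : 0 ≤ a) (h : P * Pᵀ + R * Rᵀ = 1) (hg : P *ᵥ b2.g = b1.g)
    (hQ : ∀ u, u ⬝ᵥ (P * b2.A * Pᵀ) *ᵥ u + a * (u ⬝ᵥ (R * Rᵀ) *ᵥ u) ≤ u ⬝ᵥ b1.A *ᵥ u) (ξ : ℝ) :
    Mor a (imp b1 ξ) (imp b2 ξ) (lift P R) := by
  have hm : ∀ F : CV b1.m, ex b2 ξ (lift P R F).1 = ex b1 ξ F.1 := fun F =>
    ex_av h hg ξ (cp_of F.2)
  refine ⟨fun F => ?_, fun F => ?_, fun F => ?_⟩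
  · rw [N_eq, N_eq, hm]
    linarith [sq_lift h hg ξ F]
  · change (imp b2 ξ).N (sp _) _ = (imp b1 ξ).N (sp _) _
    have e1 : (sp b2.m).1 * (lift P R F).1 = fun s => av (mv P) (mv R) (((sp b1.m).1 * F.1) s) :=
      funext fun s => funext fun X => (integral_const_mul (sg s) _).symm
    have e2 : (sp b2.m).1 = fun s => av (mv P) (mv R) ((sp b1.m).1 s) :=
      funext fun s => funext fun X => by simp [av, sp]
    rw [N_eq, N_eq, hm, e1, e2, ex_av h hg ξ (cp_mul (cp_of (sp _).2) (cp_of F.2)),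
      ex_av h hg ξ (cp_of (sp _).2)]
  · have h1 := spin_lift h hg ξ F
    have h2 := bath_lift h hg ξ F
    have h3 := mul_le_mul_of_nonneg_left (var_lift h hg ξ F) ha
    have h4 : ex b1 ξ (bd (P * b2.A * Pᵀ) F.1) + a * ex b1 ξ (bd (R * Rᵀ) F.1) ≤
        ex b1 ξ (bd b1.A F.1) := by
      have c1 := bd_cp (P * b2.A * Pᵀ) F.2
      have c2 := (CP b1.m).smul_mem a (bd_cp (R * Rᵀ) F.2)
      rw [← ex_smul, ← ex_add b1 ξ c1 c2]
      refine ex_mono b1 ξ (add_mem c1 c2) (bd_cp _ F.2) fun s X => ?_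
      change bd _ F.1 s X + a * bd _ F.1 s X ≤ _
      simp only [bd_eq]
      exact hQ _
    unfold Pre.Q
    rw [En_eq, En_eq, N_eq, N_eq, hm]
    linarith

end main

end M1

open M1 in
/-- **(M1)** -/
theorem m1Stmt : M1Stmt := by
  intro a b1 b2 W ha _ hW
  set P : Matrix (Fin b1.m) (Fin b2.m) ℝ := (LinearMap.toMatrix' W)ᵀ with hP
  have hWu : ∀ u, W u = Pᵀ *ᵥ u := fun u => by
    rw [hP, transpose_transpose, ← toLin'_apply, toLin'_toMatrix']
  have hq : ∀ (A : Matrix (Fin b2.m) (Fin b2.m) ℝ) (u : Fin b1.m → ℝ),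
      u ⬝ᵥ (P * A * Pᵀ) *ᵥ u = W u ⬝ᵥ A *ᵥ W u := fun A u => by
    rw [← mulVec_mulVec, ← mulVec_mulVec, dotProduct_mulVec, ← mulVec_transpose, hWu]
  have hn : ∀ u : Fin b1.m → ℝ, u ⬝ᵥ (P * Pᵀ) *ᵥ u = W u ⬝ᵥ W u := fun u => by
    simpa using hq 1 u
  have hpsd : (1 - P * Pᵀ).PosSemidef := by
    refine .of_dotProduct_mulVec_nonneg ?_ fun u => ?_
    · simp [IsHermitian]
    · have := hW.N u
      simp only [Bath.pre, dotProductBilin_apply_apply] at this
      rw [star_trivial, sub_mulVec, one_mulVec, dotProduct_sub, hn]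
      linarith
  obtain ⟨B, hB⟩ := CStarAlgebra.nonneg_iff_eq_star_mul_self.mp hpsd.nonneg
  have hR : Bᵀ * Bᵀᵀ = 1 - P * Pᵀ := by rw [hB]; rfl
  refine ⟨P, Bᵀ, lift P Bᵀ, fun F s X => rfl, fun ξ => mor_lift ha ?_ ?_ (fun u => ?_) ξ⟩
  · rw [hR]; abel
  · ext i
    have := hW.σ (Pi.single i 1)
    simp only [Bath.pre, dotProductBilin_apply_apply, hWu] at this
    rw [dotProduct_mulVec, vecMul_transpose] at this
    simpa using this
  · have := hW.Q u
    simp only [Pre.Q, Bath.pre, dotProductBilin_apply_apply, toLinearMap₂'_apply'] at this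
    rw [hR, hq, sub_mulVec, one_mulVec, dotProduct_sub, hn]
    linarith

end Crest.Agent.T157.Tw
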