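import Crest.Agent.T157.RnDef_60
import Crest.Agent.T157.TwM2_42
import Crest.Agent.T157.TwAll_30
import Crest.Agent.T157.HmB_3
import Crest.Agent.T157.RnSm_16
import Crest.Agent.T157.LowA_85
import Crest.Agent.T157.RnOb_60
import Crest.Agent.T157.TwM1_52

-- ▼ part T157/RnMod_54
section

/-!
# Row 157, block B/S4 (helper54): odd functions in the gauge `s = +1` (`Rn.ModelStmt`)
-/

set_option autoImplicit false

noncomputable section

namespace Crest.Agent.T157.Rn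

open MeasureTheory ProbabilityTheory Real Matrix Filter Topology
open Crest.Agent.R238.Gap Crest.Agent.R238.GapPc Crest.Agent.R253.Meh74
open Crest.Agent.T157.Tw Crest.Agent.T157.Tw.O42

namespace Mod54

/-- equal conditional means give equal expectations -/
lemma ex_cond (b : Bath) (ξ : ℝ) {Φ Ψ : Bool → E b.m → ℝ} (hΦ : Φ ∈ CP b.m) (hΨ : Ψ ∈ CP b.m)
    (h : ∀ X, hb (fld b ξ X) true * Φ true X + hb (fld b ξ X) false * Φ false X =
      hb (fld b ξ X) true * Ψ true X + hb (fld b ξ X) false * Ψ false X) :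
    ex b ξ Φ = ex b ξ Ψ := by
  have h1 := ex_nonneg_cond b ξ ((CP _).sub_mem hΦ hΨ) fun X => by
    simp only [Fintype.sum_bool, Pi.sub_apply]; linarith [h X]
  have h2 := ex_nonneg_cond b ξ ((CP _).sub_mem hΨ hΦ) fun X => by
    simp only [Fintype.sum_bool, Pi.sub_apply]; linarith [h X]
  rw [ex_sub b ξ hΦ hΨ] at h1
  rw [ex_sub b ξ hΨ hΦ] at h2
  linarith

lemma ex_even (b : Bath) {Φ : Bool → E b.m → ℝ} (hΦ : Φ ∈ CP b.m)
    (h : ∀ X, Φ false (-X) = Φ true X) : ex b 0 Φ = ∫ z, Φ true (z + b.v) ∂gam b.m := by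
  rw [ex_fo b 0 hΦ]
  refine integral_congr_ae (ae_of_all _ fun z => ?_)
  simp only [fo, hb_zero, h]
  ring

lemma ex_odd (b : Bath) {F : CV b.m} (hF : F ∈ Od b.m) : ex b 0 F.1 = 0 := by
  rw [ex_fo b 0 (cv_cp F)]
  refine (integral_congr_ae (ae_of_all _ fun z => ?_)).trans (integral_zero _ _)
  have := hF true (z + b.v)
  simp only [Bool.not_true] at this
  simp only [fo, hb_zero, this]
  ring

lemma fld_neg (b : Bath) (X : E b.m) : fld b 0 (-X) = -fld b 0 X := by simp [fld]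

lemma hb_neg (h : ℝ) : hb (-h) true = hb h false := by simp [hb, sg]

lemma sech2_neg (h : ℝ) : sech2 (-h) = sech2 h := by simp [sech2]

lemma dl_neg {m : ℕ} {F : CV m} (hF : F ∈ Od m) (X : E m) :
    F.1 true (-X) - F.1 false (-X) = F.1 true X - F.1 false X := by
  have h1 := hF true X
  have h2 := hF false X
  simp only [Bool.not_true, Bool.not_false] at h1 h2
  rw [h1, h2]; ring

lemma pd_even {m : ℕ} {F : CV m} (hF : F ∈ Od m) (i : Fin m) (X : E m) :
    pd i (F.1 false) (-X) = pd i (F.1 true) X := by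
  have h1 : (fun X => F.1 false (-X)) = fun X => (-1) * F.1 true X + 0 * F.1 true X := by
    funext X
    have := hF true X
    simp only [Bool.not_true] at this
    rw [this]; ring
  have h2 := pd_neg (F.1 false) i X
  rw [h1, pd_lin (F.2 true) (F.2 true)] at h2
  linarith

lemma dl_cp {m : ℕ} (F : CV m) : (fun (_ : Bool) X => F.1 true X - F.1 false X) ∈ CP m :=
  cp_of ((F.2 true).cont.sub (F.2 false).cont) ((F.2 true).g.sub (F.2 false).g)

end Mod54

open Mod54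

theorem modelStmt : ModelStmt := by
  intro b F hF
  have hw : ∀ h, hb h true = 1 - hb h false := fun h => by linarith [hb_sum h]
  refine ⟨fun h => ?_, ?_, fun G hG => ⟨?_, ?_⟩⟩
  · rw [var_eq, ex_odd b hF] at h
    refine Subtype.ext (funext fun s => funext fun X => ?_)
    have := eq_zero_of_ex b 0 (cp_sq ((CP _).sub_mem (cv_cp F) (cp_const 0)))
      (fun _ _ => sq_nonneg _) h s X
    simpa using this
  · have h4 : (fun s => be b.A ((sp b.m).1 s) (F.1 s)) = fun _ _ => (0 : ℝ) := by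
      funext s X
      simp [be, pd, sp]
    have hΨ : (fun (_ : Bool) X => sech2 (fld b 0 X) / 2 * (F.1 true X - F.1 false X)) ∈ CP b.m := by
      have := (CP _).smul_mem 2 (cp_mul (cp_mul (hb_cp b 0 true) (hb_cp b 0 false)) (dl_cp F))
      convert this using 1
      funext s X
      simp only [Pi.smul_apply, Pi.mul_apply, smul_eq_mul, ← hb_mul]
      ring
    rw [imp_En, bath_ex, h4, ex_const, add_zero, spin_ex,
      ex_cond b 0 (cp_mul (rsL b 0 _).2 (rsL b 0 _).2) hΨ fun X => ?_, ex_even b hΨ fun X => ?_]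
    · rw [fld_neg, sech2_neg, dl_neg hF]
    · simp only [Pi.mul_apply, rs_apply, ← hb_mul, hw, show (inc b.m F).1 = F.1 from rfl,
        show (inc b.m (sp b.m)).1 = fun s _ => sg s from rfl, sg, if_true, Bool.false_eq_true,
        if_false]
      ring
  · rw [imp_N, ex_odd b hF, zero_mul, sub_zero, ex_even b (cp_mul (cv_cp F) (cv_cp G)) fun X => ?_]
    · rfl
    · have h1 := hF true X
      have h2 := hG true X
      simp only [Bool.not_true] at h1 h2
      simp only [Pi.mul_apply, h1, h2]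
      ring
  · have h0 : (fun (s : Bool) X => hb (fld b 0 X) (!s)) ∈ CP b.m := fun s => hb_cp b 0 (!s) s
    have hΨ := (CP _).smul_mem (1 / 2) (cp_mul h0 (cp_mul (dl_cp F) (dl_cp G)))
    have hB := be_cp b.A F G
    rw [imp_En, bath_ex, spin_ex, ex_cond b 0 (cp_mul (rsL b 0 _).2 (rsL b 0 _).2) hΨ fun X => ?_,
      ← ex_add b 0 hΨ hB, ex_even b ((CP _).add_mem hΨ hB) fun X => ?_, ← integral_const_mul]
    · refine integral_congr_ae (ae_of_all _ fun z => ?_)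
      simp only [gm, be, Pi.add_apply, Pi.smul_apply, Pi.mul_apply, smul_eq_mul, Bool.not_true]
      ring
    · simp only [be, Pi.add_apply, Pi.smul_apply, Pi.mul_apply, smul_eq_mul, Bool.not_true,
        Bool.not_false, fld_neg, hb_neg, dl_neg hF, dl_neg hG, pd_even hF, pd_even hG]
    · simp only [Pi.mul_apply, Pi.smul_apply, smul_eq_mul, rs_apply, hw, Bool.not_true,
        Bool.not_false, show (inc b.m F).1 = F.1 from rfl, show (inc b.m G).1 = G.1 from rfl]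
      ring

end Crest.Agent.T157.Rn

end
end

-- ▼ part T157/RnEdge_60
section

/-!
# Row 157, block B/R (helper60): the edge of the response function

`Gs` is not Lipschitz at `lam`:  `β γ(a) → 1` and `(1 - β γ(a))² ≥ (1 - β)² (1 - a / lam)`.
-/

set_option autoImplicit false

noncomputable section

namespace Crest.Agent.T157.Rn.Edge

open MeasureTheory ProbabilityTheory Real Matrix Set Filter
open Crest.Agent.R238.Gap Crest.Agent.R238.GapPc Crest.Agent.R253.Meh74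
open Crest.Agent.T157.Tw
open scoped MatrixOrder

variable {𝒞 : Cls} {β a : ℝ}

/-- the mean gradient -/
def dE (b : Bath) : CV b.m →ₗ[ℝ] (Fin b.m → ℝ) := LinearMap.pi fun i => exL b 0 ∘ₗ pdL b.m i

lemma dE_apply (b : Bath) (F : CV b.m) (i : Fin b.m) : dE b F i = ex b 0 (pdL b.m i F).1 := rfl

/-- overlap with the spin -/
def cc (b : Bath) (F : CV b.m) : ℝ := (imp b 0).N (sp _) F
/-- shifted energy, the spin component not being shifted -/
def BB (b : Bath) (a : ℝ) (F : CV b.m) : ℝ := (imp b 0).Q a F + a * cc b F ^ 2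

lemma N_lin (b : Bath) (u : Fin b.m → ℝ) (F : CV b.m) :
    (imp b 0).N (lin _ u) F = u ⬝ᵥ dE b F + u ⬝ᵥ b.g * cc b F := Lin84.N_lin b 0 u F

lemma En_lin (b : Bath) (u : Fin b.m → ℝ) (F : CV b.m) :
    (imp b 0).En (lin _ u) F = (b.A *ᵥ u) ⬝ᵥ dE b F := by
  rw [(linStmt b 0 u).2.2.2 F, N_lin, cc]; ring

lemma dE_lin (b : Bath) (u : Fin b.m → ℝ) : dE b (lin _ u) = u := by
  funext i; rw [dE_apply, Lin84.pd_lin, O42.ex_const]

lemma cc_lin (b : Bath) (u : Fin b.m → ℝ) : cc b (lin _ u) = u ⬝ᵥ b.g := by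
  rw [cc, (linStmt b 0 u).2.1, sech2_zero, one_mul]

lemma cc_smul (b : Bath) (c : ℝ) (F : CV b.m) : cc b (c • F) = c * cc b F := by simp [cc]

lemma BB_smul (b : Bath) (a c : ℝ) (F : CV b.m) : BB b a (c • F) = c ^ 2 * BB b a F := by
  simp only [BB, cc_smul, Pre.Q, map_smul, LinearMap.smul_apply, smul_eq_mul]; ring

lemma split (b : Bath) (a : ℝ) {F : CV b.m} (h : dE b F = 0) (u : Fin b.m → ℝ) :
    cc b (F + lin _ u) = cc b F + u ⬝ᵥ b.g ∧ BB b a (F + lin _ u) = BB b a F + b.pre.Q a u := by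
  have o := (okStmt b 0).1
  have h1 : cc b (F + lin _ u) = cc b F + u ⬝ᵥ b.g := by rw [← cc_lin]; simp [cc]
  refine ⟨h1, ?_⟩
  simp only [BB, h1, pre_Q]
  simp only [Pre.Q, map_add, LinearMap.add_apply, o.sN F (lin _ u), o.sE F (lin _ u), N_lin, En_lin,
    h, dE_lin, cc_lin, dotProduct_zero, dotProduct_comm (b.A *ᵥ u) u]
  ring

lemma cc_sq_le (b : Bath) (F : CV b.m) : cc b F ^ 2 ≤ (imp b 0).N F F := by
  have o := okStmt b 0
  have h := o.1.pN (F - cc b F • sp _)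
  simp only [map_sub, map_smul, LinearMap.sub_apply, LinearMap.smul_apply, smul_eq_mul,
    o.1.sN F (sp _), o.2.1, sech2_zero] at h
  unfold cc at h ⊢
  nlinarith

lemma BB_eq (b : Bath) (a : ℝ) (F : CV b.m) :
    BB b a F = (imp b 0).En F F - a * ((imp b 0).N F F - cc b F ^ 2) := by
  rw [BB, Pre.Q]; ring

/-- the irreducible part lives in the chaos of order at least two -/
lemma chaos {b : Bath} (ha : 0 ≤ a) (hb : b.Ge a) {F : CV b.m} (hF : F ∈ Od b.m) (h : dE b F = 0) :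
    2 * a * ((imp b 0).N F F - cc b F ^ 2) ≤ (imp b 0).En F F := by
  have h1 := O42.c1_shift (F.2 true) b.v
  have hc : cc b F = ∫ z, F.1 true (z + b.v) ∂gam b.m := by
    rw [cc, ((modelStmt b _ (sp_odd _)).2.2 F hF).1]; simp [sp, sg]
  set f : E b.m → ℝ := fun z => F.1 true (z + b.v) - cc b F with hf
  have hf1 : C1 f := h1.sub (c1_const _)
  have hp : ∀ i, pd i f = fun z => pd i (F.1 true) (z + b.v) := fun i => by
    funext z
    simp only [pd, hf]
    rw [fderiv_sub_const, fderiv_comp_add_right]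
  have i1 : Integrable (fun z => F.1 true (z + b.v)) (gam b.m) := integrable_of_PG h1.cont h1.g
  have i2 : Integrable (fun z => F.1 true (z + b.v) * F.1 true (z + b.v)) (gam b.m) :=
    integrable_of_PG (h1.mul h1).cont (h1.mul h1).g
  have m0 : ∫ z, f z ∂gam b.m = 0 := by
    rw [integral_sub i1 (integrable_const _), ← hc]; simp
  have m1 : ∀ j, ∫ z, f z * z j ∂gam b.m = 0 := fun j => by
    have h2 := Hm.ip_adj hf1 (c1_const 1) j
    have h3 := congrFun h j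
    rw [dE_apply, Mod54.ex_even b (pdL b.m j F).2 fun X => Mod54.pd_even hF j X] at h3
    simp only [Hm.ip, mul_one, hp] at h2
    rw [show (∫ z, pd j (F.1 true) (z + b.v) ∂gam b.m) = 0 from h3] at h2
    simpa [pd] using h2
  have ho : ∀ r ∈ Hm.Pl b.m 2, Hm.ip f r = 0 := by
    rintro _ ⟨c, r, hr, rfl⟩
    choose d s hs hr using hr
    have hs0 : ∀ j k, s j k = 0 := fun j k => Hm.mem_zero.1 (hs j k)
    have i3 : ∀ j, Integrable (fun z : E b.m => d j * (f z * z j)) (gam b.m) := fun j =>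
      (integrable_of_PG (hf1.mul (c1_coord j)).cont (hf1.mul (c1_coord j)).g).const_mul _
    have e : ∀ z : E b.m, f z * (c + ∑ j, z j * r j z) = c * f z + ∑ j, d j * (f z * z j) :=
      fun z => by
        rw [mul_add, Finset.mul_sum, mul_comm]
        congr 1
        exact Finset.sum_congr rfl fun j _ => by simp [hr j, hs0]; ring
    simp only [Hm.ip, e]
    rw [integral_add ((integrable_of_PG hf1.cont hf1.g).const_mul _)
      (integrable_finsetSum _ fun j _ => i3 j), integral_finsetSum _ fun j _ => i3 j]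
    simp [integral_const_mul, m0, m1]
  have h4 := Hm.le_en 2 hf1 ho
  have h5 : Hm.ip f f = (imp b 0).N F F - cc b F ^ 2 := by
    have e : ∀ z, f z * f z = F.1 true (z + b.v) * F.1 true (z + b.v) -
        (2 * cc b F * F.1 true (z + b.v) - cc b F ^ 2) := fun z => by simp only [hf]; ring
    simp only [Hm.ip, e]
    have i5 : Integrable (fun z => 2 * cc b F * F.1 true (z + b.v) - cc b F ^ 2) (gam b.m) :=
      (i1.const_mul _).sub (integrable_const _)
    rw [integral_sub i2 i5,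
      integral_sub (i1.const_mul _) (integrable_const _), integral_const_mul, ← hc,
      ((modelStmt b F hF).2.2 F hF).1]
    simp; ring
  have i4 : ∀ j, Integrable (fun z => pd j f z * pd j f z) (gam b.m) := fun j =>
    integrable_of_PG ((hf1.contp j).mul (hf1.contp j)) ((hf1.p j).mul (hf1.p j))
  have h6 : a * Hm.en f ≤ bathL b 0 F F := by
    rw [O42.bath_ex, Mod54.ex_even b (O42.be_cp b.A F F) fun X => by
      simp only [O42.be, Mod54.pd_even hF]]
    simp only [Hm.en, Hm.ip]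
    rw [← integral_finsetSum _ fun j _ => i4 j, ← integral_const_mul]
    refine integral_mono ((integrable_finsetSum _ fun j _ => i4 j).const_mul _)
      (int_shift (O42.be_cp b.A F F true).1 (O42.be_cp b.A F F true).2 _) fun z => ?_
    simpa only [hp, sq] using O42.be_ge hb (F.1 true) (z + b.v)
  have h7 : 0 ≤ spinL b 0 (inc _ F) (inc _ F) := O42.ex_nonneg b 0 fun _ _ => mul_self_nonneg _
  rw [O42.imp_En, ← h5]
  push_cast at h4
  nlinarith [mul_le_mul_of_nonneg_left h4 ha]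

/-- `(M1)` keeps irreducible odd functions irreducible and odd -/
lemma lift_irr (𝒞 : Cls) (ha : 0 ≤ a) {b1 b2 : Bath} {W : (Fin b1.m → ℝ) →ₗ[ℝ] (Fin b2.m → ℝ)}
    (hW : Mor a b1.pre b2.pre W) {F : CV b1.m} (hF : F ∈ 𝒞.D b1.m) (h : dE b1 F = 0) :
    ∃ G ∈ 𝒞.D b2.m, dE b2 G = 0 ∧ cc b2 G = cc b1 F ∧ (imp b2 0).Q a G ≤ (imp b1 0).Q a F ∧
      (imp b2 0).N G G ≤ (imp b1 0).N F F := by
  set P : Matrix (Fin b1.m) (Fin b2.m) ℝ := (LinearMap.toMatrix' W)ᵀ with hP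
  have hWu : ∀ u, W u = Pᵀ *ᵥ u := fun u => by
    rw [hP, transpose_transpose, ← toLin'_apply, toLin'_toMatrix']
  have hq : ∀ (A : Matrix (Fin b2.m) (Fin b2.m) ℝ) (u : Fin b1.m → ℝ),
      u ⬝ᵥ (P * A * Pᵀ) *ᵥ u = W u ⬝ᵥ A *ᵥ W u := fun A u => by
    rw [← mulVec_mulVec, ← mulVec_mulVec, dotProduct_mulVec, ← mulVec_transpose, hWu]
  have hn : ∀ u : Fin b1.m → ℝ, u ⬝ᵥ (P * Pᵀ) *ᵥ u = W u ⬝ᵥ W u := fun u => by
    simpa using hq 1 u
  have hpsd : (1 - P * Pᵀ).PosSemidef := by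
    refine .of_dotProduct_mulVec_nonneg ?_ fun u => ?_
    · simp [IsHermitian]
    · have := hW.N u
      simp only [pre_N] at this
      rw [star_trivial, sub_mulVec, one_mulVec, dotProduct_sub, hn]
      linarith
  obtain ⟨B, hB⟩ := CStarAlgebra.nonneg_iff_eq_star_mul_self.mp hpsd.nonneg
  have hR : Bᵀ * Bᵀᵀ = 1 - P * Pᵀ := by rw [hB]; rfl
  have h1 : P * Pᵀ + Bᵀ * Bᵀᵀ = 1 := by rw [hR]; abel
  have h2 : P *ᵥ b2.g = b1.g := by
    ext i
    have := hW.σ (Pi.single i 1)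
    simp only [pre_N, pre_σ, hWu] at this
    rw [dotProduct_mulVec, vecMul_transpose] at this
    simpa using this
  have hM : Mor a (imp b1 0) (imp b2 0) (M1.lift P Bᵀ) := M1.mor_lift ha h1 h2 (fun u => by
    have := hW.Q u
    simp only [pre_Q] at this
    rw [hR, hq, sub_mulVec, one_mulVec, dotProduct_sub, hn]
    linarith) 0
  refine ⟨M1.lift P Bᵀ F, ⟨𝒞.lift _ _ P Bᵀ F _ (fun s X => rfl) hF.1, fun s X => ?_⟩, ?_, hM.σ F,
    hM.Q F, hM.N F⟩
  · change ∫ y, F.1 (!s) (mv P (-X) + mv Bᵀ y) ∂gam b1.m = -∫ y, F.1 s (mv P X + mv Bᵀ y) ∂gam b1.m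
    rw [← integral_neg, ← O42.int_neg]
    refine integral_congr_ae (ae_of_all _ fun y => ?_)
    simp only [map_neg, ← neg_add]
    exact hF.2 s _
  · funext j
    have e : (pdL b2.m j (M1.lift P Bᵀ F)).1 = fun s => M1.av (mv P) (mv Bᵀ)
        ((∑ i, P i j • pdL b1.m i F).1 s) := by
      funext s X
      refine (M1.pd_av (F.2 s) P _ j X).trans ?_
      congr 1
      funext x
      simp only [AddSubmonoidClass.coe_finsetSum, Finset.sum_apply, SetLike.val_smul, Pi.smul_apply,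
        smul_eq_mul]
      rfl
    rw [dE_apply, e, M1.ex_av h1 h2 0 (∑ i, P i j • pdL b1.m i F).2]
    change exL b1 0 (∑ i, P i j • pdL b1.m i F) = 0
    rw [map_sum]
    refine Finset.sum_eq_zero fun i _ => ?_
    rw [map_smul, show exL b1 0 (pdL b1.m i F) = 0 from congrFun h i, smul_zero]

/-- response bound of a bath -/
def Rb (t : Bath) (a R : ℝ) : Prop := ∀ u, 2 * (u ⬝ᵥ t.g) - t.pre.Q a u ≤ R
/-- bound on irreducible functions -/
def Irr (𝒞 : Cls) (t : Bath) (a p : ℝ) : Prop :=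
  ∀ F ∈ 𝒞.D t.m, dE t F = 0 → cc t F ^ 2 ≤ p * BB t a F

lemma sq_le_of_quad {x q R : ℝ} (h : ∀ τ : ℝ, 2 * (τ * x) - τ ^ 2 * q ≤ R) : 0 ≤ q ∧ x ^ 2 ≤ R * q := by
  have := discrim_le_zero (a := q) (b := -2 * x) (c := R) fun τ => by linarith [h τ]
  refine ⟨?_, by rw [discrim] at this; linarith⟩
  by_contra hq
  have hq' : 0 < -q := by linarith
  have h0 : 0 ≤ R := by simpa using h 0
  have h1 := h (√(R / -q) + 1)
  have h2 := h (-(√(R / -q) + 1))
  have h3 : √(R / -q) ^ 2 * -q = R := by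
    rw [sq_sqrt (by positivity), div_mul_cancel₀ _ hq'.ne']
  nlinarith [sqrt_nonneg (R / -q)]

lemma Rb.sq {t : Bath} {R : ℝ} (h : Rb t a R) (u : Fin t.m → ℝ) :
    0 ≤ t.pre.Q a u ∧ (u ⬝ᵥ t.g) ^ 2 ≤ R * t.pre.Q a u :=
  sq_le_of_quad fun τ => by
    have := h (τ • u)
    simp only [pre_Q, smul_dotProduct, dotProduct_smul, mulVec_smul, smul_eq_mul] at this ⊢
    linarith

/-- one level -/
lemma step {t : Bath} {R p : ℝ} (hR : 0 ≤ R) (hp : 0 < p) (h1 : Rb t a R) (h2 : Irr 𝒞 t a p)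
    {F : CV t.m} (hF : F ∈ 𝒞.D t.m) : 0 ≤ BB t a F ∧ cc t F ^ 2 ≤ (R + p) * BB t a F := by
  have h0 : dE t (F - lin _ (dE t F)) = 0 := by rw [map_sub, dE_lin, sub_self]
  have h3 := split t a h0 (dE t F)
  have h4 := h2 _ (sub_mem hF (lin_mem linStmt 𝒞 t _)) h0
  have h5 := h1.sq (dE t F)
  rw [sub_add_cancel] at h3
  rw [h3.1, h3.2]
  set x := cc t (F - lin _ (dE t F))
  set y := dE t F ⬝ᵥ t.g
  set B := BB t a (F - lin _ (dE t F))
  set A := t.pre.Q a (dE t F)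
  have hB : 0 ≤ B := nonneg_of_mul_nonneg_right ((sq_nonneg x).trans h4) hp
  refine ⟨by linarith [h5.1], ?_⟩
  have h6 : (2 * (x * y)) ^ 2 ≤ (R * B + p * A) ^ 2 := by
    have := mul_le_mul h4 h5.2 (sq_nonneg y) (by positivity)
    nlinarith [sq_nonneg (R * B - p * A)]
  have h7 := abs_le_of_sq_le_sq' h6 (by have := h5.1; positivity)
  nlinarith [h7.2, h5.2]

lemma Rb.step {b b' : Bath} {f : Fin b'.m → CV b.m} (hc : Comp (imp b 0) b' f)
    (hf : ∀ k, f k ∈ 𝒞.D b.m) {R : ℝ}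
    (h : ∀ F ∈ 𝒞.D b.m, 2 * (β * cc b F) - (imp b 0).Q a F ≤ R) : Rb (b'.scale β) a R := by
  intro (u : Fin b'.m → ℝ)
  have h1 := h _ (emb_mem hf u)
  have h2 : cc b (emb f u) = b'.g ⬝ᵥ u := hc.σ_emb u
  rw [show (imp b 0).Q a (emb f u) = b'.pre.Q a u from hc.Q_emb a u, h2] at h1
  change 2 * (u ⬝ᵥ β • b'.g) - b'.pre.Q a u ≤ R
  rwa [dotProduct_smul, dotProduct_comm, smul_eq_mul]

lemma Rb.nil {R : ℝ} (hR : 0 ≤ R) : Rb Bath.nil a R := fun u => by
  obtain rfl : u = 0 := funext fun i => i.elim0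
  simpa [Pre.Q] using hR

lemma cc_le_Gs {t : Bath} (ht : Tw0 𝒞 β t) {F : CV t.m} (hF : F ∈ 𝒞.D t.m) (ha : a < lam 𝒞 β) :
    0 ≤ (imp t 0).Q a F ∧ cc t F ^ 2 ≤ Gs 𝒞 β a * (imp t 0).Q a F :=
  sq_le_of_quad fun τ => by
    have := le_Gs okStmt ht (Submodule.smul_mem _ τ hF) ha
    simp only [Pre.Q, map_smul, LinearMap.smul_apply, smul_eq_mul, cc] at this ⊢
    linarith

lemma rb_Gs {t : Bath} (ht : Tw0 𝒞 β t) (ha : a ∈ Ico 0 (lam 𝒞 β)) :
    Rb t a (β ^ 2 * Gs 𝒞 β a) := by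
  have hG := one_le_Gs okStmt ha
  cases ht with
  | nil => exact Rb.nil (by positivity)
  | step ht hf hc _ =>
    refine Rb.step hc hf fun F hF => ?_
    have h := cc_le_Gs ht hF ha.2
    have h2 : (2 * (β * cc _ F)) ^ 2 ≤ (β ^ 2 * Gs 𝒞 β a + (imp _ 0).Q a F) ^ 2 := by
      nlinarith [sq_nonneg (β ^ 2 * Gs 𝒞 β a - (imp _ 0).Q a F),
        mul_le_mul_of_nonneg_left h.2 (sq_nonneg β)]
    have h3 := abs_le_of_sq_le_sq' h2 (by have := h.1; positivity)
    linarith [h3.2]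

/-- the best constant for irreducible functions -/
def p1 (𝒞 : Cls) (β a : ℝ) : ℝ := Gs 𝒞 β a / (1 + a * Gs 𝒞 β a) - β ^ 2 * Gs 𝒞 β a

lemma K2 (ha : a ∈ Ico 0 (lam 𝒞 β)) {p : ℝ} (hp : 0 < p) (h : ∀ t, Tw0 𝒞 β t → Irr 𝒞 t a p) :
    p1 𝒞 β a ≤ p := by
  have hG := one_le_Gs okStmt ha
  have h0 := ha.1
  set ρ := β ^ 2 * Gs 𝒞 β a + p with hρ
  have hρ0 : 0 < ρ := by positivity
  rw [p1, sub_le_iff_le_add', div_le_iff₀ (by positivity), ← hρ]
  rcases le_or_gt 1 (a * ρ) with h1 | h1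
  · nlinarith
  have h2 : Gs 𝒞 β a ≤ ρ / (1 - a * ρ) := by
    refine csSup_le (Gs_ne _ _ _) ?_
    rintro _ ⟨t, ht, F, hF, rfl⟩
    have h3 := (step (by positivity) hp (rb_Gs ht ha) (h t ht) hF).2
    rw [← hρ, BB] at h3
    rw [le_div_iff₀ (by linarith), ← mul_le_mul_iff_right₀ hρ0]
    change ρ * ((2 * cc t F - _) * _) ≤ _
    nlinarith [sq_nonneg (ρ - (1 - a * ρ) * cc t F), mul_le_mul_of_nonneg_left h3 (sub_pos.2 h1).le]
  rw [le_div_iff₀ (by linarith)] at h2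
  linarith

lemma merge {b : Bath} (hb : Tw0 𝒞 β b) {t : Bath} (ht : Tw0 𝒞 β t) (hg : Good 𝒞 β t) :
    ∃ t', Tw0 𝒞 β t' ∧ Good 𝒞 β t' ∧ (∃ W, Mor (lam 𝒞 β) b.pre t'.pre W) ∧
      ∃ W, Mor (lam 𝒞 β) t.pre t'.pre W := by
  induction hb with
  | nil =>
    refine ⟨t, ht, hg, ⟨0, ⟨fun u => ?_, fun u => ?_, fun u => ?_⟩⟩, _, Mor.refl _ _⟩ <;>
      obtain rfl : u = 0 := (funext fun i => i.elim0) <;> simp [Pre.Q]
  | @step b b' f _ hf hc _ ih =>
    obtain ⟨t', ht', hg', ⟨W, hW⟩, W', hW'⟩ := ih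
    obtain ⟨Φ, hΦ, hΦ'⟩ := lift0 m1Stmt m2Stmt ht' hW
    obtain ⟨V, hV, hD⟩ := id hg'
    obtain ⟨b'', f'', hc'', hb'', -, hs, hg'', -⟩ := good_next okStmt m1Stmt m2Stmt ht' hg'
      ((finite_range fun k => (Φ ∘ₗ emb f) (Pi.single k 1)).union
        (finite_range fun k => V (Pi.single k 1)))
      (union_subset (by rintro _ ⟨k, rfl⟩; exact hΦ' _ (emb_mem hf _).1)
        (by rintro _ ⟨k, rfl⟩; exact hD _))
    exact ⟨_, hb'', hg'', ⟨_, hc''.mor_co (okStmt t' 0).1 (((hc.mor _).comp hΦ).scale β) fun u =>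
      hs _ (Submodule.span_mono subset_union_left (mem_span_range (Φ ∘ₗ emb f) u))⟩, _,
      hW'.comp (hc''.mor_co (okStmt t' 0).1 hV fun u =>
        hs _ (Submodule.span_mono subset_union_right (mem_span_range V u)))⟩

/-- above every tower there is one with almost maximal response -/
lemma above (ha : a < lam 𝒞 β) {x : ℝ} (hx : x < Gs 𝒞 β a) {t : Bath} (ht : Tw0 𝒞 β t) :
    ∃ t', Tw0 𝒞 β t' ∧ (∃ W, Mor (lam 𝒞 β) t.pre t'.pre W) ∧
      ∃ r, t'.A *ᵥ r = t'.g + a • r ∧ β ^ 2 * x ≤ r ⬝ᵥ t'.g := by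
  obtain ⟨_, ⟨t0, ht0, F0, hF0, rfl⟩, hx0⟩ := exists_lt_of_lt_csSup (Gs_ne 𝒞 β a) hx
  obtain ⟨t1, ht1, hg1, W1, hW1⟩ := exists_good okStmt m1Stmt m2Stmt ht
  obtain ⟨t2, ht2, hg2, ⟨W0, hW0⟩, W2, hW2⟩ := merge ht0 ht1 hg1
  obtain ⟨Φ, hΦ, hΦ'⟩ := lift0 m1Stmt m2Stmt ht2 hW0
  obtain ⟨F, hF, hxF⟩ := Near.lift (𝒞 := 𝒞) ⟨F0, hF0, hx0.le⟩ ha.le hΦ hΦ'
  obtain ⟨V, hV, hD⟩ := id hg2
  obtain ⟨b, f, hc, hb, -, hs, -, -⟩ := good_next okStmt m1Stmt m2Stmt ht2 hg2
    ((finite_range fun k => V (Pi.single k 1)).insert F)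
    (insert_subset hF (by rintro _ ⟨k, rfl⟩; exact hD _))
  have o := okStmt t2 0
  have hge : b.Ge (lam 𝒞 β) := hb.ge
  obtain ⟨r, hr⟩ := solve b hge ha b.g
  have hy := hs F (Submodule.subset_span (mem_insert _ _))
  have h1 := gal (fun u => (mul_le_mul_of_nonneg_right ha.le (dot_nonneg u)).trans (hge u)) hr
    (co (imp t2 0) f F)
  rw [hc.σ_co o.1 hy, hc.Q_co o.1 hy] at h1
  refine ⟨_, hb, ⟨_, (hW1.comp hW2).comp (hc.mor_co o.1 hV fun u =>
    hs _ (Submodule.span_mono (subset_insert _ _) (mem_span_range V u)))⟩, β • r, ?_, ?_⟩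
  · change b.A *ᵥ β • r = β • b.g + a • β • r
    rw [mulVec_smul, hr, smul_add, smul_comm β a]
  · change _ ≤ (β • r) ⬝ᵥ β • b.g
    rw [smul_dotProduct, dotProduct_smul, smul_eq_mul, smul_eq_mul, ← mul_assoc, ← sq]
    exact mul_le_mul_of_nonneg_left (hxF.trans h1) (sq_nonneg β)

lemma p1_pos (h0 : 0 ≤ β) (h1 : β < 1) (ha : a ∈ Ico 0 (lam 𝒞 β)) : 0 < p1 𝒞 β a := by
  have hG := one_le_Gs okStmt ha
  have he := edge okStmt m1Stmt m2Stmt linStmt h0 h1 ha
  have h2 := ha.1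
  rw [p1, sub_pos, lt_div_iff₀ (by positivity)]
  nlinarith [mul_le_mul_of_nonneg_left he h0]

lemma K1 (ha : a ∈ Ico 0 (lam 𝒞 β)) {t : Bath} (ht : Tw0 𝒞 β t) :
    Irr 𝒞 t a (p1 𝒞 β a) := fun F hF hd => by
  have hG := one_le_Gs okStmt ha
  have h2 := ha.1
  have hγ : 0 < 1 + a * Gs 𝒞 β a := by positivity
  have hB : 0 ≤ BB t a F := add_nonneg (cc_le_Gs ht hF ha.2).1 (by positivity)
  have key : ∀ x ∈ Ioo 0 (Gs 𝒞 β a),
      cc t F ^ 2 + β ^ 2 * x * BB t a F ≤ Gs 𝒞 β a / (1 + a * Gs 𝒞 β a) * BB t a F := fun x hx => by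
    obtain ⟨t', ht', ⟨W, hW⟩, r, hr, hx'⟩ := above ha.2 hx.2 ht
    obtain ⟨G, hGm, hd', hc, hQ, -⟩ := lift_irr 𝒞 h2 (hW.mono ha.2.le) hF hd
    have hBG : BB t' a G ≤ BB t a F := by rw [BB, BB, hc]; linarith
    have hQr : t'.pre.Q a r = r ⬝ᵥ t'.g := by rw [pre_Q, hr]; simp
    set R := r ⬝ᵥ t'.g with hR
    have hR0 : 0 ≤ R := le_trans (by have := hx.1; positivity) hx'
    have h3 : ∀ α τ : ℝ, (α * cc t F + τ * R) ^ 2 ≤
        Gs 𝒞 β a / (1 + a * Gs 𝒞 β a) * (α ^ 2 * BB t a F + τ ^ 2 * R) := fun α τ => by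
      have h4 := split t' a (F := α • G) (by rw [map_smul, hd', smul_zero]) (τ • r)
      have h5 := (cc_le_Gs ht' (add_mem (Submodule.smul_mem _ α hGm)
        (lin_mem linStmt 𝒞 t' (τ • r))) ha.2).2
      have h6 : t'.pre.Q a (τ • r) = τ ^ 2 * R := by
        rw [← hQr]; simp only [Pre.Q, map_smul, LinearMap.smul_apply, smul_eq_mul]; ring
      rw [cc_smul, BB_smul, h6, smul_dotProduct, smul_eq_mul, hc, ← hR, BB] at h4
      rw [div_mul_eq_mul_div, le_div_iff₀ hγ, ← h4.1]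
      nlinarith [mul_le_mul_of_nonneg_left hBG (mul_nonneg (zero_le_one.trans hG) (sq_nonneg α)),
        h4.2]
    rcases hB.eq_or_lt with hB0 | hB0
    · simpa [← hB0] using h3 1 0
    · rcases (add_nonneg (sq_nonneg (cc t F)) (mul_nonneg hB hR0)).eq_or_lt with h7 | h7
      · have := mul_le_mul_of_nonneg_left hx' hB
        have : 0 ≤ Gs 𝒞 β a / (1 + a * Gs 𝒞 β a) * BB t a F := by positivity
        nlinarith
      · have h8 := h3 (cc t F) (BB t a F)
        have h9 : cc t F ^ 2 + BB t a F * R ≤ Gs 𝒞 β a / (1 + a * Gs 𝒞 β a) * BB t a F :=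
          le_of_mul_le_mul_left (by nlinarith) h7
        nlinarith [mul_le_mul_of_nonneg_left hx' hB]
  have h10 : cc t F ^ 2 + β ^ 2 * Gs 𝒞 β a * BB t a F ≤
      Gs 𝒞 β a / (1 + a * Gs 𝒞 β a) * BB t a F := by
    have hc : ContinuousWithinAt (fun x => cc t F ^ 2 + β ^ 2 * x * BB t a F) (Ioo 0 (Gs 𝒞 β a))
        (Gs 𝒞 β a) := by fun_prop
    exact ContinuousWithinAt.closure_le (by
      rw [closure_Ioo (by linarith)]; exact right_mem_Icc.2 (by linarith)) hc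
      continuousWithinAt_const key
  rw [p1]
  linarith

lemma p1_mono (h0 : 0 ≤ β) (h1 : β < 1) {a' : ℝ} (ha : 0 ≤ a) (h : a ≤ a') (ha' : a' < lam 𝒞 β) :
    p1 𝒞 β a ≤ p1 𝒞 β a' := by
  have hp := p1_pos h0 h1 ⟨ha.trans h, ha'⟩
  refine K2 ⟨ha, h.trans_lt ha'⟩ hp fun t ht F hF hd =>
    (K1 ⟨ha.trans h, ha'⟩ ht F hF hd).trans (mul_le_mul_of_nonneg_left ?_ hp.le)
  rw [BB_eq, BB_eq]
  nlinarith [cc_sq_le t F]

lemma mul_p1 (ha : a ∈ Ico 0 (lam 𝒞 β)) : a * p1 𝒞 β a =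
    (1 - β) ^ 2 - (1 - β * (1 + a * Gs 𝒞 β a)) ^ 2 / (1 + a * Gs 𝒞 β a) := by
  have hG := one_le_Gs okStmt ha
  have h2 := ha.1
  have hγ : 0 < 1 + a * Gs 𝒞 β a := by positivity
  rw [p1]; field_simp; ring

/-- **(E1)** square-root behaviour -/
lemma E1 (h0 : 0 ≤ β) (h1 : β < 1) {a' : ℝ} (ha : 0 ≤ a) (h : a ≤ a') (ha' : a' < lam 𝒞 β) :
    (1 - β) ^ 2 * (a' - a) ≤ a' * (1 - β * (1 + a * Gs 𝒞 β a)) ^ 2 := by
  have m1 : a ∈ Ico 0 (lam 𝒞 β) := ⟨ha, h.trans_lt ha'⟩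
  have m2 : a' ∈ Ico 0 (lam 𝒞 β) := ⟨ha.trans h, ha'⟩
  have hG := one_le_Gs okStmt m1
  have hG' := one_le_Gs okStmt m2
  have h2 := mul_p1 m1
  have h3 : a' * p1 𝒞 β a' ≤ (1 - β) ^ 2 := by
    rw [mul_p1 m2]; exact sub_le_self _ (by have := m2.1; positivity)
  have h4 : (1 - β * (1 + a * Gs 𝒞 β a)) ^ 2 / (1 + a * Gs 𝒞 β a) ≤
      (1 - β * (1 + a * Gs 𝒞 β a)) ^ 2 := div_le_self (sq_nonneg _) (by nlinarith)
  have h5 := mul_le_mul_of_nonneg_left (p1_mono h0 h1 ha h ha') (mul_nonneg ha m2.1)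
  nlinarith [mul_le_mul_of_nonneg_left h3 ha, mul_le_mul_of_nonneg_left h4 m2.1]

/-- **(E2)** the edge -/
lemma E2 (h0 : 0 < β) (h1 : β < 1) (hl : 0 < lam 𝒞 β) {η : ℝ} (hη : 0 < η) :
    ∃ a ∈ Ico 0 (lam 𝒞 β), 1 - η < β * (1 + a * Gs 𝒞 β a) := by
  by_contra hc
  push Not at hc
  set l := lam 𝒞 β with hl'
  have hd : 0 < 1 - β := sub_pos.2 h1
  set δ := min (l / 2) (η ^ 2 * β * l / 8) with hδ
  have hδ0 : 0 < δ := lt_min (by positivity) (by positivity)
  have hδ1 : δ ≤ l / 2 := min_le_left _ _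
  have hδ2 : δ ≤ η ^ 2 * β * l / 8 := min_le_right _ _
  have m : l - δ ∈ Ico 0 l := ⟨by linarith, by linarith⟩
  have hG := one_le_Gs okStmt m
  have hp := p1_pos h0.le h1 m
  set p := p1 𝒞 β (l - δ)
  have h2 : (l - δ) * p ≤ (1 - β) ^ 2 - η ^ 2 * β := by
    have h3 := hc _ m
    have h4 := m.1
    rw [mul_p1 m]
    refine sub_le_sub_left ?_ _
    rw [le_div_iff₀ (by positivity)]
    have : η ^ 2 ≤ (1 - β * (1 + (l - δ) * Gs 𝒞 β (l - δ))) ^ 2 :=
      pow_le_pow_left₀ hη.le (by linarith) 2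
    nlinarith [sq_nonneg η]
  have h3 : (l + 3 * δ) * p ≤ (1 - β) ^ 2 := by
    have h4 : l / 2 * p ≤ 1 := by nlinarith [mul_pos (pow_pos hη 2) h0]
    have h5 : δ * p ≤ η ^ 2 * β * l / 8 * p := mul_le_mul_of_nonneg_right hδ2 hp.le
    nlinarith [mul_le_mul_of_nonneg_left h4 (mul_pos (pow_pos hη 2) h0).le]
  have ha : 0 < l + δ := by linarith
  have key : ∀ t, Tw0 𝒞 β t → Rb t (l + δ) (β * (1 - β) / (l + δ)) := fun t ht => by
    induction ht with
    | nil => exact Rb.nil (by positivity)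
    | @step b b' f hb hf hc' _ ih =>
      have hge : b.Ge (l + δ) := (ge_iff _ _).2 fun u => (ih.sq u).1
      have hi : Irr 𝒞 b (l + δ) ((l + 3 * δ) * p / (l + δ)) := fun F hF hdF => by
        have h4 := K1 m hb F hF hdF
        have h5 := chaos ha.le hge hF.2 hdF
        rw [div_mul_eq_mul_div, le_div_iff₀ ha]
        rw [BB_eq] at h4 ⊢
        nlinarith [mul_le_mul_of_nonneg_left h4 ha.le,
          mul_le_mul_of_nonneg_left h5 (mul_pos hδ0 hp).le]
      refine Rb.step hc' hf fun F hF => ?_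
      obtain ⟨h4, h5⟩ := step (by positivity) (by positivity) ih hi hF
      have h6 : (l + δ) * cc b F ^ 2 ≤ (1 - β) * BB b (l + δ) F := by
        rw [← add_div, div_mul_eq_mul_div, le_div_iff₀ ha] at h5
        nlinarith [mul_le_mul_of_nonneg_right h3 h4]
      rw [BB] at h6
      rw [le_div_iff₀ ha, ← mul_le_mul_iff_right₀ hd]
      nlinarith [mul_nonneg h0.le (sq_nonneg ((1 - β) - (l + δ) * cc b F)),
        mul_le_mul_of_nonneg_left h6 ha.le]
  have : l + δ ≤ l := by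
    refine le_csInf (Set.nonempty_iff_ne_empty.2 fun he => ?_) ?_
    · rw [hl', lam, he, Real.sInf_empty] at hl; exact lt_irrefl _ hl
    · rintro _ ⟨t, ht, u, hu, rfl⟩
      have := ((key t ht).sq u).1
      rw [pre_Q, hu] at this
      linarith
  linarith

/-- **the response is not Lipschitz at the edge** -/
theorem edge_gap (h0 : 0 < β) (h1 : β < 1) (hl : 0 < lam 𝒞 β) (K : ℝ) :
    ∃ a a', 0 ≤ a ∧ a < a' ∧ a' < lam 𝒞 β ∧ K * (lam 𝒞 β - a) < Gs 𝒞 β a' - Gs 𝒞 β a := by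
  set l := lam 𝒞 β with hl'
  have hd : 0 < 1 - β := sub_pos.2 h1
  set s := min (1 / 2) ((1 - β) / (8 + 8 * (|K| * l ^ 2))) with hs
  have hs0 : 0 < s := lt_min (by norm_num) (by positivity)
  have hs1 : s ≤ 1 / 2 := min_le_left _ _
  have hs2 : s * (8 + 8 * (|K| * l ^ 2)) ≤ 1 - β := (le_div_iff₀ (by positivity)).1 (min_le_right _ _)
  have hq : s ^ 2 ≤ 1 / 4 := by nlinarith
  have hls : 0 < l * s ^ 2 := by positivity
  have ha2 : l / 2 ≤ l - 2 * (l * s ^ 2) := by nlinarith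
  set a := l - 2 * (l * s ^ 2) with ha
  have m : a ∈ Ico 0 l := ⟨by linarith, by linarith⟩
  have hG := one_le_Gs okStmt m
  have he := edge okStmt m1Stmt m2Stmt linStmt h0.le h1 m
  have h2 := E1 h0.le h1 m.1 (a' := l - l * s ^ 2) (by linarith) (by linarith)
  have h3 : (1 - β) * s ≤ 1 - β * (1 + a * Gs 𝒞 β a) := by
    refine abs_le_of_sq_le_sq' (le_of_mul_le_mul_left ?_ hl) (by linarith) |>.2
    nlinarith [sq_nonneg (1 - β * (1 + a * Gs 𝒞 β a))]
  obtain ⟨a', m', h4⟩ := E2 h0 h1 hl (η := (1 - β) * s / 2) (by positivity)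
  have hG' := one_le_Gs okStmt m'
  have h5 : a < a' := by
    by_contra h
    have h6 := Gs_mono okStmt (not_lt.1 h) m.2
    have h7 : a' * Gs 𝒞 β a' ≤ a * Gs 𝒞 β a := mul_le_mul (not_lt.1 h) h6 (by linarith) m.1
    nlinarith [mul_le_mul_of_nonneg_left h7 h0.le, mul_pos hd hs0]
  have h6 := Gs_mono okStmt h5.le m'.2
  refine ⟨a, a', m.1, h5, m'.2, ?_⟩
  have h7 : β * (l * Gs 𝒞 β a) ≤ 2 := by
    nlinarith [mul_le_mul_of_nonneg_left (mul_le_mul_of_nonneg_right ha2 (zero_le_one.trans hG)) h0.le]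
  have h8 : a' * Gs 𝒞 β a' - a * Gs 𝒞 β a ≤
      l * (Gs 𝒞 β a' - Gs 𝒞 β a) + 2 * s ^ 2 * (l * Gs 𝒞 β a) := by
    nlinarith [mul_le_mul_of_nonneg_right m'.2.le (zero_le_one.trans hG')]
  have h9 : (1 - β) * s / 2 - 4 * s ^ 2 < β * (l * (Gs 𝒞 β a' - Gs 𝒞 β a)) := by
    nlinarith [mul_le_mul_of_nonneg_left h8 h0.le, mul_le_mul_of_nonneg_left h7 (sq_nonneg s)]
  have h10 : β * (l * (Gs 𝒞 β a' - Gs 𝒞 β a)) ≤ l * (Gs 𝒞 β a' - Gs 𝒞 β a) :=
    mul_le_of_le_one_left (mul_nonneg hl.le (sub_nonneg.2 h6)) h1.le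
  have h11 : K * (l - a) ≤ |K| * (2 * (l * s ^ 2)) := by
    rw [show l - a = 2 * (l * s ^ 2) by rw [ha]; ring]
    exact mul_le_mul_of_nonneg_right (le_abs_self K) (by positivity)
  refine h11.trans_lt (lt_of_mul_lt_mul_left ?_ hl.le)
  nlinarith [mul_le_mul_of_nonneg_left hs2 hs0.le, mul_nonneg (abs_nonneg K) (sq_nonneg (l * s))]

end Crest.Agent.T157.Rn.Edge

end
end

-- ▼ part T157/RnLB_60
section

/-!
# Row 157, block B/R (helper60): the lower bound on the autocorrelation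

Approximate solutions of `(-L - a) φ = s` at two values of `a` near the edge force spectral mass
of the spins near `lam`.
-/

set_option autoImplicit false

noncomputable section

namespace Crest.Agent.T157.Rn

open MeasureTheory Real Matrix Set Filter
open Crest.ProbabilityR.SpinGlassDynamics
open Crest.Agent.T157.E (Cube mean gen prob sv)
open Crest.Agent.T157.Tw
open Crest.Agent.T157.Chain22 (ip hbRC sg_eq gen_eq ip_smul_left ip_sub_left ip_add_left isP_prob')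

/-- approximate local solutions of `(-L - a) φ = s` with the maximal response -/
def Loc0 : Prop := ∀ 𝒞 : Cls, (∀ m, 𝒞.C m = PV m) → ∀ β, 0 < β → β < 1 →
  ∀ a ∈ Ico 0 (lam 𝒞 β), ∀ e > (0 : ℝ), ∃ b U, XT β 0 b U ∧ ∃ φ ∈ Od b.m, ∃ G ∈ Od b.m,
    (∀ s, Sm (φ.1 s)) ∧ (∀ s, Sm (G.1 s)) ∧ UF U φ.1 ∧ (∀ s X, G.1 s X = AA b 0 φ.1 s X) ∧
    (imp b 0).N (G - a • φ - sp _) (G - a • φ - sp _) ≤ e ∧
    |(imp b 0).N (sp _) φ - Gs 𝒞 β a| ≤ e ∧ (imp b 0).N φ φ ≤ 1 / (lam 𝒞 β - a) ^ 2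

/-- approximate resolvent in SK: overlap `x`, squared norm at most `M` -/
def Res (β a x M : ℝ) : Prop := ∀ ε > (0 : ℝ), Top.Whp disorderLaw fun n g =>
  ∃ φ : Fin n → Cube n → ℝ,
    |(∑ i, mean (gibbsWeight n β g) fun σ => sv σ i * φ i σ) / n - x| ≤ ε ∧
    (∑ i, mean (gibbsWeight n β g) fun σ =>
      (gen (gibbsWeight n β g) (φ i) σ + a * φ i σ + sv σ i) ^ 2) / n ≤ ε ∧
    (∑ i, mean (gibbsWeight n β g) fun σ => φ i σ * φ i σ) / n ≤ M + ε

namespace LB

lemma mode {x s p p' a a' l e δ τ T : ℝ} (haa : a ≤ a') (ha' : a' ≤ l) (he : 0 < e) (hδ : 0 < δ)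
    (hτ : 0 < τ) (hT : 0 ≤ T) : s * p' - s * p ≤ ((l - a) / e ^ 2 + δ) * (s * s) +
      (((x - a) * p - s) ^ 2 + ((x - a') * p' - s) ^ 2) / (2 * δ * e ^ 2) +
      τ * (p * p + p' * p') / 2 + exp ((l + e) * T) / τ * (exp (-(x * T)) * (s * s)) := by
  have s0 := mul_self_nonneg s
  have h0 : 0 ≤ (l - a) / e ^ 2 := div_nonneg (by linarith) (sq_nonneg e)
  rcases le_total x (l + e) with hx | hx
  · have h1 : 1 / τ * (s * s) ≤ exp ((l + e) * T) / τ * (exp (-(x * T)) * (s * s)) := by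
      rw [← mul_assoc (_ / τ) (exp _), div_mul_eq_mul_div (exp _), ← exp_add]
      exact mul_le_mul_of_nonneg_right (div_le_div_of_nonneg_right
        (one_le_exp (by nlinarith)) hτ.le) s0
    have h2 : s * p' - s * p ≤ τ * (p * p + p' * p') / 2 + 1 / τ * (s * s) := by
      rw [← mul_le_mul_iff_right₀ hτ, mul_add, ← mul_assoc τ (1 / τ), mul_one_div_cancel hτ.ne']
      nlinarith [sq_nonneg (τ * p' - s), sq_nonneg (τ * p + s)]
    have h3 : 0 ≤ (((x - a) * p - s) ^ 2 + ((x - a') * p' - s) ^ 2) / (2 * δ * e ^ 2) := by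
      positivity
    nlinarith [mul_nonneg (add_nonneg h0 hδ.le) s0]
  · have k : ∀ r u, e ≤ u → s * (r / u) ≤ δ / 2 * (s * s) + r ^ 2 / (2 * δ * e ^ 2) := fun r u hu => by
      have u0 := he.trans_le hu
      have h1 : (r / u) ^ 2 / (2 * δ) ≤ r ^ 2 / (2 * δ * e ^ 2) := by
        rw [div_pow, div_div, mul_comm]; gcongr
      refine le_trans ?_ (add_le_add le_rfl h1)
      rw [← sub_le_iff_le_add', le_div_iff₀ (by positivity)]
      nlinarith [sq_nonneg (δ * s - r / u)]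
    have u0 : 0 < x - a := by linarith
    have u1 : 0 < x - a' := by linarith
    have k1 := k (-((x - a) * p - s)) (x - a) (by linarith)
    have k2 := k ((x - a') * p' - s) (x - a') (by linarith)
    have k3 : (a' - a) / ((x - a) * (x - a')) ≤ (l - a) / e ^ 2 := by
      rw [sq]; gcongr <;> linarith
    have e1 : s * p' - s * p = (a' - a) / ((x - a) * (x - a')) * (s * s) +
        s * (-((x - a) * p - s) / (x - a)) + s * (((x - a') * p' - s) / (x - a')) := by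
      field_simp; ring
    have h3 : 0 ≤ τ * (p * p + p' * p') / 2 := by
      have := mul_self_nonneg p; have := mul_self_nonneg p'; positivity
    have h4 : 0 ≤ exp ((l + e) * T) / τ * (exp (-(x * T)) * (s * s)) := by positivity
    rw [neg_sq] at k1
    rw [e1, add_div]
    nlinarith [mul_le_mul_of_nonneg_right k3 s0]

variable {n : ℕ} {w : Cube n → ℝ}

lemma res_sq (hn : 0 < n) (hw : ∀ x, 0 < w x) (a : ℝ) (f φ : Cube n → ℝ) :
    mean w (fun σ => (gen w φ σ + a * φ σ + f σ) ^ 2) = ∑ j, ((n * (1 - (hbRC hn hw).ev j) - a) *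
      ip (prob w) φ ((hbRC hn hw).φ j) - ip (prob w) f ((hbRC hn hw).φ j)) ^ 2 := by
  have e : (fun σ => gen w φ σ + a * φ σ + f σ) =
      (n : ℝ) • ((hbRC hn hw).P *ᵥ φ - φ) + a • φ + f := funext fun σ => by
    rw [gen_eq hn hw]; rfl
  have h := (hbRC hn hw).parseval (fun σ => gen w φ σ + a * φ σ + f σ)
    fun σ => gen w φ σ + a * φ σ + f σ
  simp only [sq]
  refine h.trans (Finset.sum_congr rfl fun j _ => ?_)
  rw [e, ip_add_left, ip_add_left, ip_smul_left, ip_smul_left, ip_sub_left, (hbRC hn hw).ip_P_φ]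
  change _ = (_ * ip (hbRC hn hw).π _ _ - ip (hbRC hn hw).π _ _) *
    (_ * ip (hbRC hn hw).π _ _ - ip (hbRC hn hw).π _ _)
  ring

/-- **spectral inequality** -/
lemma spec (hn : 0 < n) (hw : ∀ x, 0 < w x) (f φ φ' : Cube n → ℝ) {a a' l e δ τ T : ℝ} (haa : a ≤ a')
    (ha' : a' ≤ l) (he : 0 < e) (hδ : 0 < δ) (hτ : 0 < τ) (hT : 0 ≤ T) :
    ip (prob w) f φ' - ip (prob w) f φ ≤ ((l - a) / e ^ 2 + δ) * ip (prob w) f f +
      (mean w (fun σ => (gen w φ σ + a * φ σ + f σ) ^ 2) +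
        mean w fun σ => (gen w φ' σ + a' * φ' σ + f σ) ^ 2) / (2 * δ * e ^ 2) +
      τ * (ip (prob w) φ φ + ip (prob w) φ' φ') / 2 +
      exp ((l + e) * T) / τ * ip (prob w) f (Chain22.sg w T f) := by
  have p : ∀ f g, ip (prob w) f g = ∑ j, ip (prob w) f ((hbRC hn hw).φ j) *
    ip (prob w) g ((hbRC hn hw).φ j) := (hbRC hn hw).parseval
  have q : ip (prob w) f (Chain22.sg w T f) = ∑ j, exp (-(n * T * (1 - (hbRC hn hw).ev j))) *
      (ip (prob w) f ((hbRC hn hw).φ j) * ip (prob w) f ((hbRC hn hw).φ j)) := by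
    rw [sg_eq hn hw]; exact (hbRC hn hw).ip_H_spec _ f f
  rw [q, res_sq hn hw, res_sq hn hw, p f φ', p f φ, p f f, p φ φ, p φ' φ']
  simp only [← Finset.sum_add_distrib, ← Finset.sum_sub_distrib, Finset.mul_sum, Finset.sum_div]
  refine Finset.sum_le_sum fun j _ => ?_
  have := mode (x := n * (1 - (hbRC hn hw).ev j)) (s := ip (prob w) f ((hbRC hn hw).φ j))
    (p := ip (prob w) φ ((hbRC hn hw).φ j)) (p' := ip (prob w) φ' ((hbRC hn hw).φ j))
    haa ha' he hδ hτ hT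
  rwa [mul_right_comm (n : ℝ) _ T] at this

end LB

open LB

/-- realisation of the local solutions -/
theorem res_of (hL : Loc0) (hO : OutStmt) {𝒞 : Cls} (h𝒞 : ∀ m, 𝒞.C m = PV m) {β a : ℝ} (h0 : 0 < β)
    (h1 : β < 1) (ha : a ∈ Ico 0 (lam 𝒞 β)) : Res β a (Gs 𝒞 β a) (1 / (lam 𝒞 β - a) ^ 2) := by
  intro ε hε
  have he : 0 < ε / 6 := by positivity
  obtain ⟨b, U, hx, φ, o1, G, o2, s1, s2, uf, hG, k1, k2, k3⟩ := hL 𝒞 h𝒞 β h0 h1 a ha _ he
  obtain ⟨Y, hY⟩ := hO β h0.le h1 b U hx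
  have s0 : ∀ s, Sm ((sp b.m).1 s) := fun s k => smStmt.const _ k _
  have o3 : G - a • φ - sp _ ∈ Od b.m := sub_mem (sub_mem o2 (Submodule.smul_mem _ _ o1)) (sp_odd _)
  have e3 : ∀ s X, (G - a • φ - sp b.m).1 s X = G.1 s X + (-a * φ.1 s X + -1 * sg s) := fun s X => by
    change G.1 s X - a * φ.1 s X - sg s = _; ring
  have s3 : ∀ s, Sm ((G - a • φ - sp b.m).1 s) := fun s k => by
    rw [funext (e3 s)]
    exact smStmt.add _ _ _ _ (s2 s k) (smStmt.add _ _ _ _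
      (smStmt.mul _ _ _ _ (smStmt.const _ _ _) (s1 s k)) (smStmt.const _ _ _))
  refine ((((hY.N _ (sp_odd _) φ o1 s0 s1 _ he).and (hY.N φ o1 φ o1 s1 s1 _ he)).and
    (hY.N _ o3 _ o3 s3 s3 _ he)).and (hY.gen φ o1 G o2 s1 uf hG _ he)).imp ?_
  rintro n g ⟨⟨⟨a1, a2⟩, a3⟩, a4⟩
  refine ⟨fun i σ => φ.1 (σ i) (Y n g i σ), ?_, ?_, by linarith [(abs_le.1 a2).2]⟩
  · have := (abs_sub_le _ _ _).trans (add_le_add a1 k2)
    exact this.trans (by linarith)
  · have a5 := add_le_add (mul_le_mul_of_nonneg_left ((sub_le_iff_le_add.1 (abs_le.1 a3).2).trans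
      (add_le_add le_rfl k1)) zero_le_two) (mul_le_mul_of_nonneg_left a4 zero_le_two)
    refine le_trans ?_ (a5.trans (by linarith))
    rw [← mul_add, ← add_div, ← mul_div_assoc, ← Finset.sum_add_distrib, Finset.mul_sum]
    refine div_le_div_of_nonneg_right (Finset.sum_le_sum fun i _ => ?_) n.cast_nonneg
    simp only [mean, ← Finset.sum_add_distrib, Finset.mul_sum, ← mul_add]
    refine Finset.sum_le_sum fun σ _ => ?_
    rw [mul_left_comm]
    refine mul_le_mul_of_nonneg_left ?_ ((isP_prob' fun _ => exp_pos _).nn σ)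
    rw [e3, show sv σ i = sg (σ i) from rfl]
    nlinarith [sq_nonneg (gen (gibbsWeight n β g) (fun σ => φ.1 (σ i) (Y n g i σ)) σ +
      2 * G.1 (σ i) (Y n g i σ) - a * φ.1 (σ i) (Y n g i σ) - sg (σ i))]

/-- **the lower bound** from approximate resolvents -/
theorem lb_of_res {𝒞 : Cls} {β : ℝ} (h0 : 0 < β) (h1 : β < 1) (hl : 0 < lam 𝒞 β)
    (h : ∀ a ∈ Ico 0 (lam 𝒞 β), Res β a (Gs 𝒞 β a) (1 / (lam 𝒞 β - a) ^ 2)) :
    Low.LB β (lam 𝒞 β) := by
  intro e2 he2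
  obtain ⟨e, rfl⟩ : ∃ e, e2 = 2 * e := ⟨e2 / 2, by ring⟩
  have he : 0 < e := by linarith
  obtain ⟨a, a', a0, haa, ha', hK⟩ := Edge.edge_gap h0 h1 hl (2 / e ^ 2)
  set l := lam 𝒞 β
  have c0 : 0 < l - a' := sub_pos.2 ha'
  have c1 : 0 < l - a := by linarith
  set m := (l - a) / e ^ 2 with hm
  have m0 : 0 < m := by positivity
  set M := 1 / (l - a') ^ 2
  have hM : 1 / (l - a) ^ 2 ≤ M := by
    refine one_div_le_one_div_of_le (by positivity) (pow_le_pow_left₀ c0.le (by linarith) 2)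
  have M0 : 0 < M := by positivity
  set τ := m / (8 * (M + 1)) with hτ
  have τ0 : 0 < τ := by positivity
  set ε := min (min 1 (m / 16)) (m ^ 2 * e ^ 2 / 64)
  have ε0 : 0 < ε := lt_min (lt_min one_pos (by positivity)) (by positivity)
  have ε1 : ε ≤ 1 := (min_le_left _ _).trans (min_le_left _ _)
  have ε2 : ε ≤ m / 16 := (min_le_left _ _).trans (min_le_right _ _)
  have ε3 : ε ≤ m ^ 2 * e ^ 2 / 64 := min_le_right _ _
  set T := (|log (τ * m / 2)| + 1) / e with hT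
  have T0 : 0 < T := by positivity
  have hT' : exp (-(e * T)) ≤ τ * m / 2 := by
    rw [← exp_log (show 0 < τ * m / 2 by positivity), hT, mul_div_cancel₀ _ he.ne']
    exact exp_le_exp.2 (by linarith [neg_abs_le (log (τ * m / 2))])
  refine ⟨T, T0, ((h a ⟨a0, by linarith⟩ ε ε0).and (h a' ⟨by linarith, ha'⟩ ε ε0)).mono ?_⟩
  filter_upwards [eventually_gt_atTop 0]
  rintro n hn g ⟨⟨φ, b1, b2, b3⟩, φ', d1, d2, d3⟩
  have n0 : (0 : ℝ) < n := by exact_mod_cast hn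
  set w := gibbsWeight n β g
  have hw : ∀ x, 0 < w x := fun _ => exp_pos _
  have k := Finset.sum_le_sum fun i (_ : i ∈ Finset.univ) =>
    spec hn hw (fun σ => sv σ i) (φ i) (φ' i) haa.le ha'.le he (show 0 < m / 8 by positivity) τ0 T0.le
  have e1 : ∀ i, ip (prob w) (fun σ => sv σ i) (fun σ => sv σ i) = 1 := fun i => by
    have : ∀ σ : Cube n, sv σ i * sv σ i = 1 := fun σ => by
      unfold sv spin; split_ifs <;> norm_num
    simp only [ip, this, mul_one]; exact (isP_prob' hw).sum1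
  rw [← hm] at k
  clear_value m
  simp only [e1, Finset.sum_add_distrib, Finset.sum_sub_distrib, ← Finset.mul_sum, ← Finset.sum_div,
    Finset.sum_const, Finset.card_univ, Fintype.card_fin, nsmul_eq_mul, mul_one] at k
  rw [← Low.Bf_eq, ← Low.B1_eq] at k
  rw [abs_le, le_sub_iff_add_le, sub_le_iff_le_add, le_div_iff₀ n0, div_le_iff₀ n0] at b1 d1
  rw [div_le_iff₀ n0] at b2 b3 d2 d3
  have k1 : (_ + _) / (2 * (m / 8) * e ^ 2) ≤ m / 8 * n :=
    (div_le_div_of_nonneg_right (add_le_add b2 d2) (by positivity)).trans (by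
      rw [div_le_iff₀ (by positivity)]; nlinarith)
  have k2 : τ * (_ + _) / 2 ≤ m / 8 * n :=
    (div_le_div_of_nonneg_right (mul_le_mul_of_nonneg_left (add_le_add b3 d3) τ0.le)
      zero_le_two).trans (by
        have : τ * (M + 1) = m / 8 := by rw [hτ]; field_simp
        nlinarith [mul_le_mul_of_nonneg_left (add_le_add hM ε1) (mul_pos τ0 n0).le,
          mul_le_mul_of_nonneg_left ε1 (mul_pos τ0 n0).le])
  have hK' : 2 * m < Gs 𝒞 β a' - Gs 𝒞 β a := by rwa [hm, ← mul_div_assoc, ← div_mul_eq_mul_div]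
  have k3 : m / 2 * n ≤ exp ((l + e) * T) / τ * Low.B1 w T := by
    have b : ∑ i, ip (prob w) (fun σ => sv σ i) (φ i) ≤ _ := b1.2
    have d : _ ≤ ∑ i, ip (prob w) (fun σ => sv σ i) (φ' i) := d1.1
    have k4 : τ * (∑ i, ip (prob w) (φ i) (φ i) + ∑ i, ip (prob w) (φ' i) (φ' i)) / 2 ≤ _ := k2
    linarith [mul_le_mul_of_nonneg_right hK'.le n0.le, mul_le_mul_of_nonneg_right ε2 n0.le]
  rw [div_mul_eq_mul_div, div_mul_eq_mul_div, le_div_iff₀ τ0] at k3
  rw [← mul_le_mul_iff_right₀ (exp_pos ((l + e) * T)), mul_left_comm, ← exp_add,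
    show (l + e) * T + -((l + 2 * e) * T) = -(e * T) by ring]
  linarith [mul_le_mul_of_nonneg_left hT' n0.le]

/-- **the lower bound** -/
theorem lb_of (hL : Loc0) (hO : OutStmt) (hP : LamPos) {𝒞 : Cls} (h𝒞 : ∀ m, 𝒞.C m = PV m) {β : ℝ}
    (h0 : 0 < β) (h1 : β < 1) : Low.LB β (lam 𝒞 β) :=
  lb_of_res h0 h1 (hP 𝒞 h𝒞 β h0.le h1) fun _ ha => res_of hL hO h𝒞 h0 h1 ha

end Crest.Agent.T157.Rn

end
end

-- ▼ part T157/RnBase_54
section

/-!
# Row 157, block B/R (helper54): the first layer (`Rn.BaseGlue`)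
-/

set_option autoImplicit false

noncomputable section

namespace Crest.Agent.T157.Rn

open MeasureTheory ProbabilityTheory Real Matrix Filter Topology
open Crest.Agent.R238.Gap Crest.Agent.R238.GapPc Crest.Agent.R253.Meh74
open Crest.Agent.T157.E (Cube)
open Crest.Agent.T157.Tw
open Crest.Agent.T157.Pl (one cmul)

namespace Base54

lemma fl_ne {n : ℕ} (σ : Cube n) {k i : Fin n} (h : k ≠ i) : fl σ k i = σ i :=
  Function.update_of_ne h.symm _ _

lemma fl_one {n : ℕ} (l : Fin n) : fl (Pl.one n) l l = false := by simp [fl, Pl.one]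

lemma one_ap {n : ℕ} (l : Fin n) : Pl.one n l = true := rfl

lemma sp_od (m : ℕ) : Tw.sp m ∈ Od m := fun s _ => by cases s <;> simp [Tw.sp, sg]

/-- the spins -/
def us {m : ℕ} (α : Fin m → ℝ) : Fm m := fun _ _ l σ _ => WithLp.toLp 2 fun a => α a * sg (σ l)

lemma net (β ρ : ℝ) {m : ℕ} (α : Fin m → ℝ) : Net β ρ (us α) := by
  refine ⟨fun n I l σ => measurable_const, fun n I l σ σ' ω ω' hl h1 _ => ?_,
    fun n I l σ z ω => ?_, fun a => ?_, fun a => ?_, fun a => ?_, fun a => ?_⟩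
  · simp only [us, h1 l hl]
  · ext a
    simp only [us, cmul, PiLp.smul_apply, smul_eq_mul]
    cases z l <;> cases σ l <;> simp [sg]
  · refine Ob.const (fun n (t : Ix n) => α a * sg (t.σ t.i)) |α a| (.of_forall fun n t _ => ?_)
    cases t.σ t.i <;> simp [sg, rt]
  · refine Ob.zero.congr (fun _ _ => by simp only [us]; exact measurable_const)
      (.of_forall fun n t ht ω => ?_)
    simp only [us, fl_ne t.σ ht, sub_self]
  · exact Ob.zero.congr' fun n t ω => by simp only [us, sub_self]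
  · exact Ob.zero.congr' fun n t ω => by simp only [us, sub_self]

end Base54

open Base54

theorem baseGlue : BaseGlue := by
  intro hS hM h0 hL β ρ b c α hb
  have v1 : V1 β ρ b c (us α) := by
    refine ⟨net β ρ α, fun n I l σ ω => ?_, hb.hc, hb.hc0, fun a a' N => ?_, fun a N => ?_⟩
    · simp only [us, ← mul_assoc, ← Finset.sum_mul, ← hb.sp, dotProduct]
    · refine ((Oo.card (T := Ix) (fun _ t => t.I) N fun _ _ h => h).smul (α a * α a')).congr'
        fun n t ω => ?_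
      rw [← hb.on a a']
      simp only [us, one_ap, sg, if_true, Finset.sum_const, nsmul_eq_mul]
      ring
    · refine ((Oo.card (T := Ix) (fun _ t => t.I) N fun _ _ h => h).smul (β * α a)).congr'
        fun n t ω => ?_
      rw [← hb.g a]
      simp only [us, one_ap, sg, if_true, Finset.sum_const, nsmul_eq_mul]
      ring
  have x0 := h0 β ρ b c _ v1
  have ll := hL β ρ b c _ v1
  have md := hM b _ (sp_od b.m)
  refine ⟨_, v1, fun a a' N => ?_, fun a a' N => ?_, fun a N => ?_⟩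
  · have hc : ∀ s, Tm 2 ((Tw.sp b.m).1 s) := fun s => hS.const _ 2 (sg s)
    refine ((ll _ (hS.gm b 1 _ _ hc hc) N).smul (α a * α a')).congr' fun n t ω => ?_
    rw [← (md.2.2 _ (sp_od b.m)).2, hb.en, mul_sub, ← mul_div_assoc, Finset.mul_sum]
    congr 1
    · congr 1
      refine Finset.sum_congr rfl fun l hl => ?_
      rw [Gm, Finset.sum_eq_single_of_mem l hl fun k _ hk => by simp only [us, fl_ne _ hk]; ring]
      simp only [us, gm, x0.fld, pk, fl_one, one_ap, Tw.sp, pd, Bool.not_true]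
      simp [sg]
      ring
    · ring
  · refine Oo.zero.congr (fun n t => ?_) (.of_forall fun n t ht ω => ?_)
    · simp only [Gm, us]
      exact Finset.measurable_sum _ fun k _ => (measurable_pk _ _ _ _ _).mul_const _
    · refine (Finset.sum_eq_zero fun k _ => ?_).symm
      by_cases hk : k = t.i
      · simp only [us, fl_ne _ (hk ▸ ht.2.2.2 : k ≠ t.j)]; ring
      · simp only [us, fl_ne _ hk]; ring
  · have hφ : Tm 1 fun z : E b.m => sech2 (fld b 0 z) / 2 *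
        ((Tw.sp b.m).1 true z - (Tw.sp b.m).1 false z) := by
      have := hS.mul _ 1 _ _ (hS.const _ 1 4)
        (hS.mul _ 1 _ _ (hS.hb b 0 true 1) (hS.hb b 0 false 1))
      convert this using 2 with z
      rw [hS.sech]
      simp only [Tw.sp, sg, if_true, Bool.false_eq_true, if_false]
      ring
    refine ((ll _ hφ N).smul (β * α a)).congr' fun n t ω => ?_
    have e2 : (b.A *ᵥ b.g) a = β * α a * (imp b 0).En (Tw.sp _) (Tw.sp _) := by
      rw [← hb.sp]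
      simp only [Matrix.mulVec, dotProduct, hb.en, Finset.sum_mul]
      exact Finset.sum_congr rfl fun a' _ => by ring
    rw [← md.2.1, mul_sub, e2, mul_assoc, ← mul_div_assoc, Finset.mul_sum]
    congr 3
    refine Finset.sum_congr rfl fun l _ => ?_
    simp only [us, x0.fld, fl_one, one_ap, Tw.sp]
    ring

end Crest.Agent.T157.Rn

end
end

-- ▼ part T157/RnCav_89

/-!
# Row 157, block B/R (helper89): row averages, the cavity law of large numbers, continuity of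
Gaussian averages
-/

set_option autoImplicit false

noncomputable section

namespace Crest.Agent.T157.Rn

open MeasureTheory ProbabilityTheory Real Matrix Filter Topology
open Crest.Agent.R238.Gap Crest.Agent.R238.GapPc Crest.Agent.R253.Meh74
open Crest.Agent.T157.E (Cube gv)
open Crest.Agent.T157.Tw
open scoped NNReal ENNReal MatrixOrder

namespace Cav89

/-! ### Jensen in one factor -/

section jensen
variable {α γ : Type*} [MeasurableSpace α] [MeasurableSpace γ] {μ : Measure α} {ν : Measure γ}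

theorem eLp_int_le [IsProbabilityMeasure ν] {F : α × γ → ℝ} (hF : Measurable F) (q : ℕ) :
    eLpNorm (fun a => ∫ z, F (a, z) ∂ν) q μ ≤ eLpNorm F q (μ.prod ν) := by
  rcases Nat.eq_zero_or_pos q with rfl | hq
  · simp
  have h0 : (q : ℝ≥0∞) ≠ 0 := by exact_mod_cast hq.ne'
  have h1 : (q : ℝ≥0∞) ≠ ⊤ := ENNReal.natCast_ne_top q
  have hq' : (0 : ℝ) < (q : ℝ≥0∞).toReal := ENNReal.toReal_pos h0 h1
  rw [eLpNorm_eq_lintegral_rpow_enorm_toReal h0 h1, eLpNorm_eq_lintegral_rpow_enorm_toReal h0 h1,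
    lintegral_prod _ (hF.enorm.pow_const _).aemeasurable]
  refine ENNReal.rpow_le_rpow (lintegral_mono fun a => ?_) (by positivity)
  have hm : AEStronglyMeasurable (fun z => F (a, z)) ν :=
    (hF.comp measurable_prodMk_left).aestronglyMeasurable
  have h2 : ‖∫ z, F (a, z) ∂ν‖ₑ ≤ eLpNorm (fun z => F (a, z)) q ν := by
    refine (enorm_integral_le_lintegral_enorm _).trans ?_
    rw [← eLpNorm_one_eq_lintegral_enorm]
    exact eLpNorm_le_eLpNorm_of_exponent_le (by exact_mod_cast hq) hm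
  refine (ENNReal.rpow_le_rpow h2 hq'.le).trans (le_of_eq ?_)
  rw [eLpNorm_eq_lintegral_rpow_enorm_toReal h0 h1, ← ENNReal.rpow_mul, one_div_mul_cancel hq'.ne',
    ENNReal.rpow_one]

/-- Cauchy-Schwarz -/
theorem cs {f g : α → ℝ} {a b : ℝ≥0} (hf : AEStronglyMeasurable f μ) (hg : AEStronglyMeasurable g μ)
    (ha : eLpNorm f 2 μ ≤ a) (hb : eLpNorm g 2 μ ≤ b) :
    Integrable (fun x => f x * g x) μ ∧ |∫ x, f x * g x ∂μ| ≤ a * b := by
  have mf : MemLp f 2 μ := ⟨hf, ha.trans_lt ENNReal.coe_lt_top⟩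
  have mg : MemLp g 2 μ := ⟨hg, hb.trans_lt ENNReal.coe_lt_top⟩
  refine ⟨mf.integrable_mul mg, ?_⟩
  have h1 : ∫ x, f x * g x ∂μ = inner ℝ (mg.toLp g) (mf.toLp f) := by
    rw [L2.inner_def]
    refine integral_congr_ae ?_
    filter_upwards [mf.coeFn_toLp, mg.coeFn_toLp] with x h h'
    simp [h, h']
  rw [h1]
  refine (abs_real_inner_le_norm _ _).trans ?_
  rw [Lp.norm_toLp, Lp.norm_toLp, mul_comm]
  exact mul_le_mul (ENNReal.toReal_le_coe_of_le_coe ha) (ENNReal.toReal_le_coe_of_le_coe hb)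
    ENNReal.toReal_nonneg a.2

/-- interpolation -/
theorem interp {f : α → ℝ} (hf : Measurable f) {q : ℕ} (hq : 1 ≤ q) {e c : ℝ≥0}
    (h2 : eLpNorm f 2 μ ≤ e) (hc : eLpNorm f (2 * (q - 1) : ℕ) μ ≤ c) [IsProbabilityMeasure μ] :
    eLpNorm f q μ ≤ ((e ^ (1 / (q : ℝ)) * c ^ (((q : ℝ) - 1) / q) : ℝ≥0) : ℝ≥0∞) := by
  obtain ⟨k, rfl⟩ := Nat.exists_eq_add_of_le' hq
  have h0 : ((k + 1 : ℕ) : ℝ≥0∞) ≠ 0 := by simp
  have h1 : ((k + 1 : ℕ) : ℝ≥0∞) ≠ ⊤ := ENNReal.natCast_ne_top _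
  have hk : (0 : ℝ) < (k + 1 : ℕ) := by positivity
  have hA : (∫⁻ x, ‖f x‖ₑ ^ (2 : ℝ) ∂μ) ^ (1 / (2 : ℝ)) ≤ e := by
    rwa [eLpNorm_eq_lintegral_rpow_enorm_toReal two_ne_zero ENNReal.ofNat_ne_top,
      ENNReal.toReal_ofNat] at h2
  have hB : (∫⁻ x, (‖f x‖ₑ ^ (k : ℝ)) ^ (2 : ℝ) ∂μ) ^ (1 / (2 : ℝ)) ≤ (c : ℝ≥0∞) ^ (k : ℝ) := by
    rcases Nat.eq_zero_or_pos k with rfl | hk0
    · simp
    have g0 : ((2 * k : ℕ) : ℝ≥0∞) ≠ 0 := by simp [hk0.ne']
    have hk1 : (0 : ℝ) < k := by exact_mod_cast hk0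
    rw [Nat.add_sub_cancel, eLpNorm_eq_lintegral_rpow_enorm_toReal g0 (ENNReal.natCast_ne_top _),
      ENNReal.toReal_natCast] at hc
    refine le_trans (le_of_eq ?_) (ENNReal.rpow_le_rpow hc hk1.le)
    rw [← ENNReal.rpow_mul]
    congr 1
    · refine lintegral_congr fun x => ?_
      rw [← ENNReal.rpow_mul]; congr 1; push_cast; ring
    · push_cast; field_simp
  have hH := ENNReal.lintegral_mul_le_Lp_mul_Lq μ (p := 2) (q := 2) Real.HolderConjugate.two_two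
    (f := fun x => ‖f x‖ₑ) (g := fun x => ‖f x‖ₑ ^ (k : ℝ)) hf.enorm.aemeasurable
    (hf.enorm.pow_const _).aemeasurable
  rw [eLpNorm_eq_lintegral_rpow_enorm_toReal h0 h1, ENNReal.toReal_natCast]
  have h3 : ∫⁻ x, ‖f x‖ₑ ^ ((k + 1 : ℕ) : ℝ) ∂μ ≤ e * (c : ℝ≥0∞) ^ (k : ℝ) := by
    refine le_trans (le_of_eq (lintegral_congr fun x => ?_)) (hH.trans (mul_le_mul' hA hB))
    simp only [Pi.mul_apply, ENNReal.rpow_natCast, pow_succ']
  refine (ENNReal.rpow_le_rpow h3 (by positivity)).trans (le_of_eq ?_)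
  rw [ENNReal.mul_rpow_of_nonneg _ _ (by positivity), ← ENNReal.rpow_mul, ENNReal.coe_mul,
    ENNReal.coe_rpow_of_nonneg _ (by positivity), ENNReal.coe_rpow_of_nonneg _ (by
      push_cast; rw [add_sub_cancel_right]; positivity)]
  congr 2
  push_cast; rw [add_sub_cancel_right]; ring

end jensen

/-- bounded in every `L^q` and small in `L²` -/
theorem of_l2 {Ω : ℕ → Type} [∀ n, MeasurableSpace (Ω n)] {T : ℕ → Type} {P : ∀ n, Measure (Ω n)}
    [∀ n, IsProbabilityMeasure (P n)] {A : ∀ n, T n → Prop} {X : ∀ n, T n → Ω n → ℝ}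
    (hm : ∀ n t, Measurable (X n t))
    (hB : ∀ q : ℕ, ∃ C : ℝ≥0, ∀ᶠ n in atTop, ∀ t, A n t → eLpNorm (X n t) q (P n) ≤ C)
    {e : ℕ → ℝ≥0} (he : Tendsto e atTop (𝓝 0))
    (h2 : ∀ᶠ n in atTop, ∀ t, A n t → eLpNorm (X n t) 2 (P n) ≤ e n) : Oo P A X := by
  set u : ℕ → ℝ := fun n => e n + 1 / ((n : ℝ) + 1) with hu
  have u0 : ∀ n, 0 < u n := fun n => by positivity
  have u1 : Tendsto u atTop (𝓝 0) := by
    have := (NNReal.tendsto_coe.2 he).add tendsto_one_div_add_atTop_nhds_zero_nat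
    rw [NNReal.coe_zero, add_zero] at this
    exact this
  have u2 : Tendsto (fun n => |Real.log (u n)|) atTop atTop :=
    tendsto_abs_atBot_atTop.comp (Real.tendsto_log_nhdsGT_zero.comp
      (tendsto_nhdsWithin_iff.2 ⟨u1, .of_forall u0⟩))
  refine ⟨fun n => |Real.log (u n)|⁻¹, u2.inv_tendsto_atTop, hm, fun q => ?_⟩
  rcases Nat.eq_zero_or_pos q with rfl | hq
  · exact ⟨0, .of_forall fun n t _ => by simp⟩
  obtain ⟨c, hc⟩ := hB (2 * (q - 1))
  refine ⟨q * c ^ (((q : ℝ) - 1) / q), ?_⟩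
  filter_upwards [hc, h2, u1.eventually (ge_mem_nhds one_pos), u2.eventually_gt_atTop 0]
    with n hc h2 h3 h4 t ht
  refine (interp (hm n t) hq (h2 t ht) (hc t ht)).trans ?_
  rw [← ofReal_norm, ENNReal.ofReal, ← ENNReal.coe_mul, ENNReal.coe_le_coe,
    ← NNReal.coe_le_coe]
  have hq' : (0 : ℝ) < q := by exact_mod_cast hq
  have h5 := Real.abs_log_mul_self_rpow_lt (u n) (1 / q) (u0 n) h3 (by positivity)
  rw [abs_mul, one_div_one_div, abs_of_pos (Real.rpow_pos_of_pos (u0 n) _)] at h5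
  have h6 : (e n : ℝ) ^ (1 / (q : ℝ)) ≤ q * |Real.log (u n)|⁻¹ := by
    refine (Real.rpow_le_rpow (e n).2 (le_add_of_nonneg_right (by positivity) : _ ≤ u n)
      (by positivity)).trans ?_
    rw [← div_eq_mul_inv, le_div_iff₀ h4, mul_comm]
    exact h5.le
  simp only [NNReal.coe_mul, NNReal.coe_rpow, NNReal.coe_natCast, Real.norm_eq_abs, abs_inv, abs_abs,
    Real.coe_toNNReal _ (inv_nonneg.2 (abs_nonneg _))]
  rw [mul_right_comm]
  exact mul_le_mul_of_nonneg_right h6 (by positivity)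

/-! ### rows -/

section rows
variable {n : ℕ} {β ρ : ℝ}

theorem rs_of_not (i : Fin n) (ω : Env n) (z : Fin n → ℝ) {e : Sym2 (Fin n)} (he : i ∉ e) :
    rs i ω z e = ω e := by
  refine Function.extend_apply' _ _ _ ?_
  rintro ⟨l, rfl⟩
  exact he (Sym2.mem_mk_left i l)

theorem RI.rs {i : Fin n} {Y : Env n → ℝ} (h : RI i Y) (ω : Env n) (z : Fin n → ℝ) :
    Y (rs i ω z) = Y ω := h _ _ fun _ he => rs_of_not i ω z he

theorem RI.ei {k : Fin n} {Y : Env n → ℝ} (h : RI k Y) (l : Fin n) : RI k (Ei β ρ l Y) := by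
  intro ω ω' hω
  refine integral_congr_ae (ae_of_all _ fun z => h _ _ fun e he => ?_)
  by_cases hz : ∃ a, s(l, a) = e
  · simp only [Rn.rs, Function.extend_def, dif_pos hz]
  · simp only [Rn.rs, Function.extend_def, dif_neg hz, hω e he]

variable (hM : MpStmt)
include hM

theorem meas_ei (i : Fin n) {Y : Env n → ℝ} (hY : Measurable Y) : Measurable (Ei β ρ i Y) :=
  ((hY.comp ((hM β ρ n).1 i).measurable).stronglyMeasurable.integral_prod_right').measurable

theorem ei_le (i : Fin n) {Y : Env n → ℝ} (hY : Measurable Y) (q : ℕ) :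
    eLpNorm (Ei β ρ i Y) q (PP β ρ n) ≤ eLpNorm Y q (PP β ρ n) := by
  have h := (hM β ρ n).1 i
  rw [← eLpNorm_comp_measurePreserving hY.aestronglyMeasurable h]
  exact eLp_int_le (hY.comp h.measurable) q

theorem dev_le (i : Fin n) {Y : Env n → ℝ} (hY : Measurable Y) {q : ℕ} {c : ℝ≥0}
    (h : eLpNorm Y q (PP β ρ n) ≤ c) :
    eLpNorm (fun ω => Y ω - Ei β ρ i Y ω) q (PP β ρ n) ≤ (2 * c : ℝ≥0) := by
  rcases Nat.eq_zero_or_pos q with rfl | hq
  · simp
  refine (eLpNorm_sub_le hY.aestronglyMeasurable (meas_ei hM i hY).aestronglyMeasurable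
    (by exact_mod_cast hq)).trans ?_
  rw [two_mul, ENNReal.coe_add]
  exact add_le_add h ((ei_le hM i hY q).trans h)

/-- orthogonality -/
theorem orth (k : Fin n) {X Y : Env n → ℝ} (hX : Measurable X) (hY : Measurable Y) (hk : RI k Y)
    {a b : ℝ≥0} (ha : eLpNorm X 2 (PP β ρ n) ≤ a) (hb : eLpNorm Y 2 (PP β ρ n) ≤ b) :
    ∫ ω, Y ω * (X ω - Ei β ρ k X ω) ∂PP β ρ n = 0 := by
  have h := (hM β ρ n).1 k
  have i1 := (cs hY.aestronglyMeasurable hX.aestronglyMeasurable hb ha).1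
  have i2 := (cs hY.aestronglyMeasurable (meas_ei hM k hX).aestronglyMeasurable hb
    ((ei_le hM k hX 2).trans ha)).1
  simp only [mul_sub]
  rw [integral_sub i1 i2, sub_eq_zero, ← h.map_eq, integral_map (f := fun ω => Y ω * X ω)
    h.measurable.aemeasurable (hY.mul hX).aestronglyMeasurable, h.map_eq,
    integral_prod (fun p : Env n × (Fin n → ℝ) => Y (rs k p.1 p.2) * X (rs k p.1 p.2))
      (h.integrable_comp_of_integrable i1)]
  refine integral_congr_ae (ae_of_all _ fun ω => ?_)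
  simp only [RI.rs hk, integral_const_mul, Ei]

/-- the second moment of a sum -/
theorem sum_sq (S : Finset (Fin n)) {X : Fin n → Env n → ℝ} {X' : Fin n → Fin n → Env n → ℝ}
    (hX : ∀ l, Measurable (X l)) (hX' : ∀ l k, Measurable fun ω => X l ω - X' l k ω) {c d : ℝ≥0}
    (hc : ∀ l ∈ S, eLpNorm (X l) 2 (PP β ρ n) ≤ c)
    (hR : ∀ l ∈ S, ∀ k ∈ S, l ≠ k → RI k (X' l k))
    (hd : ∀ l ∈ S, ∀ k ∈ S, l ≠ k → eLpNorm (fun ω => X l ω - X' l k ω) 2 (PP β ρ n) ≤ d) :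
    ∫ ω, (∑ l ∈ S, (X l ω - Ei β ρ l (X l) ω)) ^ 2 ∂PP β ρ n ≤ 4 * n * c ^ 2 + 4 * n ^ 2 * (d * c) := by
  classical
  set D : Fin n → Env n → ℝ := fun l ω => X l ω - Ei β ρ l (X l) ω with hD
  have mD : ∀ l, Measurable (D l) := fun l => (hX l).sub (meas_ei hM l (hX l))
  have bD : ∀ l ∈ S, eLpNorm (D l) 2 (PP β ρ n) ≤ (2 * c : ℝ≥0) := fun l hl =>
    dev_le hM l (hX l) (q := 2) (hc l hl)
  have h1 : ∀ l ∈ S, ∀ k ∈ S, ∫ ω, D l ω * D k ω ∂PP β ρ n ≤
      (if l = k then 4 * (c : ℝ) ^ 2 else 0) + 4 * (d * c) := by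
    intro l hl k hk
    by_cases e : l = k
    · have := (cs (mD l).aestronglyMeasurable (mD k).aestronglyMeasurable (bD l hl) (bD k hk)).2
      rw [if_pos e]
      push_cast at this
      have h0 : (0 : ℝ) ≤ d * c := by positivity
      nlinarith [le_abs_self (∫ ω, D l ω * D k ω ∂PP β ρ n)]
    · set U : Env n → ℝ := fun ω => X l ω - X' l k ω with hU
      have mX' : Measurable (X' l k) := by
        have := (hX l).sub (hX' l k)
        rwa [show X l - (fun ω => X l ω - X' l k ω) = X' l k from funext fun ω => by simp] at this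
      have bX' : eLpNorm (X' l k) 2 (PP β ρ n) ≤ (c + d : ℝ≥0) := by
        have := eLpNorm_sub_le (μ := PP β ρ n) (hX l).aestronglyMeasurable
          (hX' l k).aestronglyMeasurable (p := 2) (by norm_num)
        rw [show X l - (fun ω => X l ω - X' l k ω) = X' l k from funext fun ω => by simp] at this
        rw [ENNReal.coe_add]
        exact this.trans (add_le_add (hc l hl) (hd l hl k hk e))
      set Y : Env n → ℝ := fun ω => X' l k ω - Ei β ρ l (X' l k) ω with hY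
      have mY : Measurable Y := mX'.sub (meas_ei hM l mX')
      have bY : eLpNorm Y 2 (PP β ρ n) ≤ (2 * (c + d) : ℝ≥0) := dev_le hM l mX' (q := 2) bX'
      have rY : RI k Y := fun ω ω' h => by
        simp only [hY, hR l hl k hk e ω ω' h, RI.ei (hR l hl k hk e) l ω ω' h]
      have o := orth hM k (hX k) mY rY (hc k hk) bY
      set V : Env n → ℝ := fun ω => U ω - Ei β ρ l U ω with hV
      have mV : Measurable V := (hX' l k).sub (meas_ei hM l (hX' l k))
      have bV : eLpNorm V 2 (PP β ρ n) ≤ (2 * d : ℝ≥0) :=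
        dev_le hM l (hX' l k) (q := 2) (hd l hl k hk e)
      have hp := (hM β ρ n).1 l
      have int1 : ∀ {Z : Env n → ℝ} {a : ℝ≥0}, Measurable Z → eLpNorm Z 2 (PP β ρ n) ≤ a →
          ∀ᵐ ω ∂PP β ρ n, Integrable (fun z => Z (rs l ω z)) (PR β ρ l) := fun mZ bZ =>
        (hp.integrable_comp_of_integrable ((MemLp.integrable (by norm_num)
          ⟨mZ.aestronglyMeasurable, bZ.trans_lt ENNReal.coe_lt_top⟩))).prod_right_ae
      have dec : ∀ᵐ ω ∂PP β ρ n, D l ω * D k ω = V ω * D k ω + Y ω * D k ω := by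
        filter_upwards [int1 (hX l) (hc l hl), int1 mX' bX'] with ω g1 g2
        simp only [hD, hV, hY, hU, Ei, integral_sub g1 g2]
        ring
      have c1 := cs mV.aestronglyMeasurable (mD k).aestronglyMeasurable bV (bD k hk)
      have c2 := cs mY.aestronglyMeasurable (mD k).aestronglyMeasurable bY (bD k hk)
      rw [integral_congr_ae dec, integral_add c1.1 c2.1, if_neg e, o]
      have := c1.2
      push_cast at this
      nlinarith [le_abs_self (∫ ω, V ω * D k ω ∂PP β ρ n)]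
  have h2 : ∀ l ∈ S, ∀ k ∈ S, Integrable (fun ω => D l ω * D k ω) (PP β ρ n) := fun l hl k hk =>
    (cs (mD l).aestronglyMeasurable (mD k).aestronglyMeasurable (bD l hl) (bD k hk)).1
  have hS : (S.card : ℝ) ≤ n := by exact_mod_cast (by simpa using S.card_le_univ : S.card ≤ n)
  calc ∫ ω, (∑ l ∈ S, D l ω) ^ 2 ∂PP β ρ n
      = ∑ l ∈ S, ∑ k ∈ S, ∫ ω, D l ω * D k ω ∂PP β ρ n := by
        simp only [sq, Finset.sum_mul_sum]
        rw [integral_finsetSum _ fun l hl => integrable_finsetSum _ (h2 l hl)]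
        exact Finset.sum_congr rfl fun l hl => integral_finsetSum _ (h2 l hl)
    _ ≤ ∑ l ∈ S, ∑ k ∈ S, ((if l = k then 4 * (c : ℝ) ^ 2 else 0) + 4 * ((d : ℝ) * c)) :=
        Finset.sum_le_sum fun l hl => Finset.sum_le_sum fun k hk => h1 l hl k hk
    _ = ∑ l ∈ S, (4 * (c : ℝ) ^ 2 + S.card * (4 * (d * c))) :=
        Finset.sum_congr rfl fun l hl => by
          rw [Finset.sum_add_distrib, Finset.sum_ite_eq, if_pos hl, Finset.sum_const, nsmul_eq_mul]
    _ = S.card * (4 * (c : ℝ) ^ 2) + S.card * S.card * (4 * (d * c)) := by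
        rw [Finset.sum_const, nsmul_eq_mul]; ring
    _ ≤ n * (4 * (c : ℝ) ^ 2) + n * n * (4 * (d * c)) := by gcongr
    _ = _ := by ring

end rows

theorem eLp_two_le {α : Type*} [MeasurableSpace α] {μ : Measure α} {f : α → ℝ} (hf : MemLp f 2 μ)
    {a : ℝ} (h : ∫ x, f x ^ 2 ∂μ ≤ a) : eLpNorm f 2 μ ≤ NNReal.sqrt a.toNNReal := by
  rw [hf.eLpNorm_eq_integral_rpow_norm two_ne_zero ENNReal.ofNat_ne_top, ENNReal.ofReal,
    ENNReal.coe_le_coe, ← NNReal.coe_le_coe, Real.coe_toNNReal _ (by positivity), Real.coe_sqrt,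
    ENNReal.toReal_ofNat, ← one_div, ← Real.sqrt_eq_rpow]
  refine Real.sqrt_le_sqrt (le_trans (le_of_eq ?_) (h.trans (Real.le_coe_toNNReal a)))
  simp

/-! ### Gaussian averages -/

theorem law2 {m k l : ℕ} {W : Matrix (Fin m) (Fin k) ℝ} {S : Matrix (Fin m) (Fin l) ℝ}
    (h : W * Wᵀ = S * Sᵀ) : (gam k).map (mv W) = (gam l).map (mv S) := by
  refine Measure.ext_of_charFun (funext fun t => ?_)
  rw [charFun_apply, charFun_apply, integral_map (by fun_prop) (by fun_prop),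
    integral_map (by fun_prop) (by fun_prop)]
  simp_rw [M1.inner_mv]
  rw [← charFun_apply, ← charFun_apply, charFun_stdGaussian, charFun_stdGaussian]
  have h2 : ‖mv Wᵀ t‖ ^ 2 = ‖mv Sᵀ t‖ ^ 2 := by rw [M1.norm_mv, M1.norm_mv, h]
  have h3 : ((‖mv Wᵀ t‖ : ℝ) : ℂ) ^ 2 = ((‖mv Sᵀ t‖ : ℝ) : ℂ) ^ 2 := by exact_mod_cast h2
  rw [h3]

theorem cont_av {m : ℕ} {φ : E m → ℝ} (hc : Continuous φ) (hφ : PG φ) :
    Continuous fun p : (E m →L[ℝ] E m) × E m => ∫ x, φ (p.1 x + p.2) ∂gam m := by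
  obtain ⟨K, j, hK0, hK⟩ := pg_nonneg hφ
  refine continuous_iff_continuousAt.2 fun p0 => ?_
  refine continuousAt_of_dominated
    (bound := fun x => K * (2 + ‖p0‖) ^ j * (1 + ‖x‖) ^ j)
    (Eventually.of_forall fun p => (hc.comp (by fun_prop)).aestronglyMeasurable) ?_
    ((integrable_pow_stdGaussian j).const_mul _) (ae_of_all _ fun x => ?_)
  · filter_upwards [Metric.ball_mem_nhds p0 one_pos] with p hp
    refine ae_of_all _ fun x => (hK _).trans ?_
    have h1 : ‖p‖ ≤ ‖p0‖ + 1 := by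
      have := norm_sub_norm_le p p0
      rw [Metric.mem_ball, dist_eq_norm] at hp
      linarith
    have h2 : ‖p.1 x + p.2‖ ≤ ‖p‖ * ‖x‖ + ‖p‖ :=
      (norm_add_le _ _).trans (add_le_add ((p.1.le_opNorm x).trans
        (mul_le_mul_of_nonneg_right (norm_fst_le p) (norm_nonneg _))) (norm_snd_le p))
    rw [mul_assoc, ← mul_pow]
    refine mul_le_mul_of_nonneg_left (pow_le_pow_left₀ (by positivity) ?_ _) hK0
    nlinarith [norm_nonneg x, mul_le_mul_of_nonneg_right h1 (norm_nonneg x)]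
  · exact (hc.comp (by fun_prop)).continuousAt

theorem sqrt_near {m : ℕ} {M : Matrix (Fin m) (Fin m) ℝ} (hM : M.PosSemidef) {δ : ℝ}
    (h : ∀ a a', |M a a' - if a = a' then 1 else 0| ≤ δ) :
    ∃ S : Matrix (Fin m) (Fin m) ℝ, M = S * Sᵀ ∧ ∀ a a', (S a a' - (1 : Matrix _ _ ℝ) a a') ^ 2 ≤ m * δ ^ 2 := by
  have hS : (CFC.sqrt M).PosSemidef := nonneg_iff_posSemidef.1 (CFC.sqrt_nonneg M)
  have hSS : CFC.sqrt M * CFC.sqrt M = M := CFC.sqrt_mul_sqrt_self M hM.nonneg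
  generalize CFC.sqrt M = S at hS hSS
  have hT : Sᵀ = S := by simpa using hS.1.eq
  refine ⟨S, by rw [hT, hSS], fun a a' => ?_⟩
  set u : Fin m → ℝ := (S - 1) *ᵥ Pi.single a' 1 with hu
  set v : Fin m → ℝ := (M - 1) *ᵥ Pi.single a' 1 with hv
  have h1 : S *ᵥ u + u = v := by
    rw [hu, hv, mulVec_mulVec, ← add_mulVec, ← hSS]
    congr 1
    noncomm_ring
  have h2 : 0 ≤ u ⬝ᵥ S *ᵥ u := by simpa using hS.dotProduct_mulVec_nonneg u
  have h3 : u ⬝ᵥ u ≤ u ⬝ᵥ v := by rw [← h1, dotProduct_add]; linarith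
  have h4 : u ⬝ᵥ u ≤ v ⬝ᵥ v := by
    have : 0 ≤ (u - v) ⬝ᵥ (u - v) := Finset.sum_nonneg fun i _ => mul_self_nonneg _
    rw [sub_dotProduct, dotProduct_sub, dotProduct_sub, dotProduct_comm v u] at this
    linarith
  have h5 : v ⬝ᵥ v ≤ m * δ ^ 2 := by
    have : ∀ b, v b * v b ≤ δ ^ 2 := fun b => by
      have e : v b = M b a' - if b = a' then 1 else 0 := by simp [hv, one_apply]
      rw [← sq, e]
      exact sq_le_sq' (abs_le.1 (h b a')).1 (abs_le.1 (h b a')).2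
    simpa [dotProduct] using Finset.sum_le_card_nsmul Finset.univ _ _ fun b _ => this b
  have h6 : u a * u a ≤ u ⬝ᵥ u :=
    Finset.single_le_sum (f := fun i => u i * u i) (fun i _ => mul_self_nonneg _) (Finset.mem_univ a)
  have e : u a = S a a' - (1 : Matrix _ _ ℝ) a a' := by simp [hu]
  rw [← e, sq]
  linarith

end Cav89

open Cav89

theorem gcStmt : GcStmt := by
  intro m φ hφ g ε hε
  have hc : Continuous φ := hφ.1.cont
  have c1 : Continuous fun S : Fin m → Fin m → ℝ => mv (Matrix.of S) :=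
    LinearMap.continuous_of_finiteDimensional
      ((LinearMap.toContinuousLinearMap (𝕜 := ℝ) (E := E m) (F' := E m)).toLinearMap ∘ₗ
        (Matrix.toEuclideanLin (𝕜 := ℝ) (m := Fin m) (n := Fin m)).toLinearMap ∘ₗ
        (Matrix.ofLinearEquiv ℝ).toLinearMap)
  have c2 : Continuous fun p : (Fin m → Fin m → ℝ) × (Fin m → ℝ) =>
      ∫ x, φ (mv (Matrix.of p.1) x + WithLp.toLp 2 p.2) ∂gam m :=
    (cont_av hc hφ.1.g).comp (f := fun p : (Fin m → Fin m → ℝ) × (Fin m → ℝ) =>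
      (mv (Matrix.of p.1), WithLp.toLp 2 p.2)) ((c1.comp continuous_fst).prodMk (by fun_prop))
  obtain ⟨δ, hδ, h⟩ := Metric.continuousAt_iff.1
    (c2.continuousAt (x := (fun a a' => (1 : Matrix _ _ ℝ) a a', g.ofLp))) ε hε
  refine ⟨δ / (m + 2), by positivity, fun N W μ hμ hW => ?_⟩
  obtain ⟨S, hS, hS1⟩ := sqrt_near (by simpa using posSemidef_self_mul_conjTranspose W) hW
  have hm : (0 : ℝ) ≤ m := m.cast_nonneg
  have hlt : δ / (m + 2) < δ := div_lt_self hδ (by linarith)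
  have := @h (fun a a' => S a a', μ.ofLp) (by
    rw [Prod.dist_eq, max_lt_iff]
    refine ⟨(dist_pi_lt_iff hδ).2 fun a => (dist_pi_lt_iff hδ).2 fun a' => ?_,
      (dist_pi_lt_iff hδ).2 fun a => (hμ a).trans_lt hlt⟩
    refine abs_lt_of_sq_lt_sq ((hS1 a a').trans_lt ?_) hδ.le
    rw [div_pow, ← mul_div_assoc, div_lt_iff₀ (by positivity)]
    nlinarith [mul_pos (pow_pos hδ 2) (by positivity : (0 : ℝ) < (m : ℝ) ^ 2 + 3 * m + 4)])
  rw [Real.dist_eq] at this
  refine le_trans (le_of_eq ?_) this.le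
  have hφμ : Continuous fun x : E m => φ (x + μ) := hc.comp (by fun_prop)
  have e1 : ∫ z, φ (WithLp.toLp 2 (W *ᵥ z) + μ) ∂gv (Fin N) = ∫ x, φ (mv S x + μ) ∂gam m := by
    rw [← integral_map (μ := gam m) (φ := mv S) (f := fun x => φ (x + μ)) (by fun_prop)
      hφμ.aestronglyMeasurable, ← law2 hS, integral_map (by fun_prop) hφμ.aestronglyMeasurable,
      gam, ← map_pi_eq_stdGaussian, integral_map (f := fun x => φ (mv W x + μ)) (by fun_prop)
        (hφμ.comp (mv W).continuous).aestronglyMeasurable]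
    rfl
  have e2 : ∀ x : E m, mv (Matrix.of fun a a' => (1 : Matrix (Fin m) (Fin m) ℝ) a a') x = x :=
    fun x => by ext i; rw [M1.mv_apply]; simp [one_apply]
  simp only [e1, e2]
  rfl

theorem cavGlue : CavGlue := by
  intro hM β ρ T A
  refine ⟨fun a i X hX => ⟨fun n t => meas_ei hM _ (hX.1 n t), fun q => ?_⟩, ?_⟩
  · obtain ⟨C, hC⟩ := hX.2 q
    exact ⟨C, hC.mono fun n hn t ht => (ei_le hM _ (hX.1 n t) q).trans (hn t ht)⟩
  intro S X X' hX hR hO
  obtain ⟨d, hd, hO⟩ := hO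
  have mX : ∀ n t l, Measurable (X n t l) := fun n t l => hX.1 n (t, l)
  have mD : ∀ n t l, Measurable fun ω => X n t l ω - Ei β ρ l (X n t l) ω := fun n t l =>
    (mX n t l).sub (meas_ei hM l (mX n t l))
  have mS : ∀ n t, Measurable fun ω => (∑ l ∈ S n t, (X n t l ω - Ei β ρ l (X n t l) ω)) / n :=
    fun n t => (Finset.measurable_sum _ fun l _ => mD n t l).div_const _
  have bX : ∀ q : ℕ, ∃ C : ℝ≥0, ∀ᶠ n in atTop, ∀ t, A n t → ∀ l ∈ S n t,
      eLpNorm (X n t l) q (PP β ρ n) ≤ C := fun q => by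
    obtain ⟨C, hC⟩ := hX.2 q
    refine ⟨C, hC.mono fun n hn t ht l hl => ?_⟩
    simpa [rt] using hn (t, l) ⟨ht, hl⟩
  have bS : ∀ q : ℕ, ∃ C : ℝ≥0, ∀ᶠ n in atTop, ∀ t, A n t → eLpNorm
      (fun ω => (∑ l ∈ S n t, (X n t l ω - Ei β ρ l (X n t l) ω)) / n) q (PP β ρ n) ≤ C := fun q => by
    rcases Nat.eq_zero_or_pos q with rfl | hq
    · exact ⟨0, .of_forall fun n t _ => by simp⟩
    obtain ⟨C, hC⟩ := bX q
    refine ⟨2 * C, ?_⟩
    filter_upwards [hC, eventually_gt_atTop 0] with n hn hn0 t ht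
    have e : (fun ω => (∑ l ∈ S n t, (X n t l ω - Ei β ρ l (X n t l) ω)) / n) =
        (n : ℝ)⁻¹ • ∑ l ∈ S n t, fun ω => X n t l ω - Ei β ρ l (X n t l) ω := by
      funext ω; simp [div_eq_inv_mul, Finset.sum_apply]
    rw [e, eLpNorm_const_smul]
    have h1 := (eLpNorm_sum_le (μ := PP β ρ n) (s := S n t)
      (fun l _ => (mD n t l).aestronglyMeasurable) (p := q) (by exact_mod_cast hq)).trans
      (Finset.sum_le_card_nsmul _ _ _ fun l hl => dev_le hM l (mX n t l) (hn t ht l hl))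
    have h2 : ((S n t).card : ℝ≥0∞) ≤ n := by
      exact_mod_cast (by simpa using (S n t).card_le_univ : (S n t).card ≤ n)
    rw [nsmul_eq_mul] at h1
    refine (mul_le_mul_right (h1.trans (mul_le_mul_left h2 _)) _).trans (le_of_eq ?_)
    rw [← mul_assoc, enorm_inv (by positivity), Real.enorm_natCast, ENNReal.inv_mul_cancel
      (by exact_mod_cast hn0.ne') (ENNReal.natCast_ne_top n), one_mul]
  obtain ⟨c, hc⟩ := bX 2
  obtain ⟨c', hc'⟩ := hO.2 2
  obtain ⟨c2, hc2⟩ := bS 2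
  refine of_l2 mS bS
    (e := fun n => NNReal.sqrt (4 * (c : ℝ) ^ 2 / n + 4 * ((c' * ‖d n‖₊ : ℝ≥0) * c)).toNNReal) ?_ ?_
  · have h1 : Tendsto (fun n : ℕ => 4 * (c : ℝ) ^ 2 / n + 4 * ((c' * ‖d n‖) * c)) atTop (𝓝 0) := by
      have := (tendsto_const_div_atTop_nhds_zero_nat (4 * (c : ℝ) ^ 2)).add
        (((hd.norm.const_mul (c' : ℝ)).mul_const (c : ℝ)).const_mul 4)
      simpa using this
    have := (NNReal.continuous_sqrt.tendsto _).comp ((continuous_real_toNNReal.tendsto _).comp h1)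
    simpa [Function.comp_def] using this
  · filter_upwards [hc, hc', hc2, eventually_gt_atTop 0] with n hn hn' hn2 hn0 t ht
    refine eLp_two_le ⟨(mS n t).aestronglyMeasurable, (hn2 t ht).trans_lt ENNReal.coe_lt_top⟩ ?_
    have h1 := sum_sq hM (β := β) (ρ := ρ) (S n t) (mX n t) (X' := X' n t)
      (fun l k => hO.1 n (t, l, k)) (hn t ht) (hR n t ht) (d := c' * ‖d n‖₊)
      fun l hl k hk e => hn' (t, l, k) ⟨ht, hl, hk, e⟩
    have hn1 : (0 : ℝ) < n := by exact_mod_cast hn0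
    simp only [div_pow, integral_div]
    rw [div_le_iff₀ (by positivity)]
    refine h1.trans (le_of_eq ?_)
    field_simp

end Crest.Agent.T157.Rn

end
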