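import Crest.Agent.T157.TwAll_30

/-!
# Row 157, block B/S4b (helper30): smooth algebra, generator, extended towers; exact leaves

Mathematics: `docs/T157_B_S4b.md` (helper60), cut as in `docs/T157_B_S4c.md`.
-/

set_option autoImplicit false

noncomputable section

namespace Crest.Agent.T157.Tw

open MeasureTheory Real Matrix Set
open Crest.Agent.R238.Gap Crest.Agent.R253.Meh74

variable {m k : ℕ}

/-! ### smooth functions, all derivatives of polynomial growth -/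

def Sm (f : E m → ℝ) : Prop := ∀ l : List (Fin m), C1 (l.foldl (fun h i => pd i h) f)

lemma Sm.c1 {f : E m → ℝ} (hf : Sm f) : C1 f := hf []
lemma Sm.pd {f : E m → ℝ} (hf : Sm f) (i : Fin m) : Sm (pd i f) := fun l => hf (i :: l)

lemma sm_of {S : Set (E m → ℝ)} (hS : ∀ h ∈ S, C1 h ∧ ∀ i, pd i h ∈ S) {f : E m → ℝ} (hf : f ∈ S) :
    Sm f := fun l => by
  induction l generalizing f with
  | nil => exact (hS f hf).1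
  | cons i l ih => exact ih ((hS f hf).2 i)

lemma sm_adjoin {T : Set (E m → ℝ)} (hT : ∀ h ∈ T, C1 h ∧ ∀ i, pd i h ∈ Algebra.adjoin ℝ T)
    {f : E m → ℝ} (hf : f ∈ Algebra.adjoin ℝ T) : Sm f := by
  refine sm_of (S := Algebra.adjoin ℝ T) (fun h hh => ?_) hf
  induction hh using Algebra.adjoin_induction with
  | mem x hx => exact hT x hx
  | algebraMap r => exact ⟨c1_const r, fun i => by
      have : pd i (algebraMap ℝ (E m → ℝ) r) = 0 := by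
        funext x; change pd i (fun _ => r) x = 0; simp [pd]
      rw [this]; exact zero_mem _⟩
  | add x y _ _ hx hy => exact ⟨hx.1.add hy.1, fun i => by
      have : pd i (x + y) = pd i x + pd i y := funext (hx.1.pd_add hy.1 i)
      rw [this]; exact add_mem (hx.2 i) (hy.2 i)⟩
  | mul x y mx my hx hy => exact ⟨hx.1.mul hy.1, fun i => by
      have : pd i (x * y) = pd i x * y + x * pd i y := funext (hx.1.pd_mul hy.1 i)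
      rw [this]; exact add_mem (mul_mem (hx.2 i) my) (mul_mem mx (hy.2 i))⟩

lemma sm_alg {f : E m → ℝ} (hf : f ∈ Algebra.adjoin ℝ {h : E m → ℝ | Sm h}) : Sm f :=
  sm_adjoin (fun _ hh => ⟨Sm.c1 hh, fun i => Algebra.subset_adjoin (Sm.pd hh i)⟩) hf

lemma sm_coord (j : Fin m) : Sm fun X : E m => X j :=
  sm_adjoin (T := {fun X : E m => X j}) (by
    rintro _ rfl
    exact ⟨c1_coord j, fun i => by
      have : pd i (fun X : E m => X j) = algebraMap ℝ _ (if j = i then (1 : ℝ) else 0) :=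
        funext (pd_coord i j)
      rw [this]; exact Subalgebra.algebraMap_mem _ _⟩) (Algebra.subset_adjoin rfl)

lemma hasDerivAt_tanh' (x : ℝ) : HasDerivAt tanh (1 - tanh x ^ 2) x := by
  have hc := (cosh_pos x).ne'
  have h := (hasDerivAt_sinh x).div (hasDerivAt_cosh x) hc
  have e : tanh = sinh / cosh := funext fun y => tanh_eq_sinh_div_cosh y
  have e2 : 1 - tanh x ^ 2 = (cosh x * cosh x - sinh x * sinh x) / cosh x ^ 2 := by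
    rw [tanh_eq_sinh_div_cosh]; field_simp
  rw [e2, e]; exact h

lemma contDiff_tanh' : ContDiff ℝ 1 tanh := by
  have e : tanh = fun y => sinh y / cosh y := funext fun y => tanh_eq_sinh_div_cosh y
  rw [e]; exact contDiff_sinh.div contDiff_cosh fun x => (cosh_pos x).ne'

lemma pd_tanh (b : Bath) (ξ : ℝ) (i : Fin b.m) (X : E b.m) :
    pd i (fun X => tanh (fld b ξ X)) X = b.g i * (1 - tanh (fld b ξ X) ^ 2) := by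
  have h1 : HasFDerivAt (fld b ξ) (innerSL ℝ b.v) X := ((innerSL ℝ b.v).hasFDerivAt).const_add ξ
  have h2 := (hasDerivAt_tanh' (fld b ξ X)).comp_hasFDerivAt X h1
  unfold pd
  erw [h2.fderiv]
  simp [Bath.v, mul_comm, EuclideanSpace.inner_single_right]

lemma sm_tanh (b : Bath) (ξ : ℝ) : Sm fun X => tanh (fld b ξ X) :=
  sm_adjoin (T := {fun X => tanh (fld b ξ X)}) (by
    rintro _ rfl
    have hb : PG fun X => tanh (fld b ξ X) := PG.of_bdd (K := 1) fun _ => (abs_tanh_lt_one _).le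
    have e : ∀ i, pd i (fun X => tanh (fld b ξ X)) = fun X => b.g i * (1 - tanh (fld b ξ X) ^ 2) :=
      fun i => funext (pd_tanh b ξ i)
    refine ⟨⟨contDiff_tanh'.comp (contDiff_const.add (innerSL ℝ b.v).contDiff), hb, fun i => ?_⟩,
      fun i => ?_⟩
    · rw [e]; exact (pg_const _).mul ((pg_const 1).sub (hb.pow 2))
    · rw [e]
      exact Subalgebra.smul_mem _ (sub_mem (one_mem _)
        (pow_mem (Algebra.subset_adjoin (mem_singleton _)) 2)) (b.g i))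
    (Algebra.subset_adjoin rfl)

lemma Sm.comp {f : E m → ℝ} (hf : Sm f) (P : Matrix (Fin m) (Fin k) ℝ) : Sm fun X => f (mv P X) :=
  sm_adjoin (T := {h | ∃ f, Sm f ∧ h = fun X => f (mv P X)}) (by
    rintro _ ⟨f, hf, rfl⟩
    refine ⟨by simpa using M1.c1_aff hf.c1 0 P, fun j => ?_⟩
    have : Crest.Agent.R238.Gap.pd j (fun X => f (mv P X)) =
        ∑ i, P i j • fun X => Crest.Agent.R238.Gap.pd i f (mv P X) := by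
      funext X; simpa using M1.pd_aff hf.c1.diff 0 P j X
    rw [this]
    exact sum_mem fun i _ => Subalgebra.smul_mem _ (Algebra.subset_adjoin
      (by exact ⟨_, hf.pd i, rfl⟩)) _)
    (Algebra.subset_adjoin ⟨f, hf, rfl⟩)

/-- the algebra of smooth functions of `(s, X)` -/
def SV (m : ℕ) : Subalgebra ℝ (Bool → E m → ℝ) where
  carrier := {F | ∀ s, Sm (F s)}
  mul_mem' hF hG s := sm_alg (mul_mem (Algebra.subset_adjoin (hF s)) (Algebra.subset_adjoin (hG s)))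
  add_mem' hF hG s := sm_alg (add_mem (Algebra.subset_adjoin (hF s)) (Algebra.subset_adjoin (hG s)))
  algebraMap_mem' r _ := sm_alg (Subalgebra.algebraMap_mem _ r)

def cv (m : ℕ) : SV m →ₗ[ℝ] CV m where
  toFun F := ⟨F.1, fun s => (F.2 s).c1⟩
  map_add' _ _ := rfl
  map_smul' _ _ := rfl

/-- partial derivative -/
def dd (j : Fin m) : SV m →ₗ[ℝ] SV m where
  toFun F := ⟨fun s => pd j (F.1 s), fun s => (F.2 s).pd j⟩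
  map_add' F G := by
    have h := congrArg Subtype.val ((pdL m j).map_add (cv m F) (cv m G))
    exact Subtype.ext h
  map_smul' c F := by
    have h := congrArg Subtype.val ((pdL m j).map_smul c (cv m F))
    exact Subtype.ext h

/-- spin flip -/
def fl (m : ℕ) : SV m →ₐ[ℝ] SV m where
  toFun F := ⟨fun s => F.1 (!s), fun s => F.2 (!s)⟩
  map_one' := rfl
  map_mul' _ _ := rfl
  map_zero' := rfl
  map_add' _ _ := rfl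
  commutes' _ := rfl

/-- `F (s, ιᵀ X)` -/
def pull (ι : Matrix (Fin k) (Fin m) ℝ) : SV m →ₐ[ℝ] SV k where
  toFun F := ⟨fun s X => F.1 s (mv ιᵀ X), fun s => (F.2 s).comp _⟩
  map_one' := rfl
  map_mul' _ _ := rfl
  map_zero' := rfl
  map_add' _ _ := rfl
  commutes' _ := rfl

def sS (m : ℕ) : SV m := ⟨fun s _ => sg s, fun s => sm_alg (Subalgebra.algebraMap_mem _ (sg s))⟩
def xS (j : Fin m) : SV m := ⟨fun _ X => X j, fun _ => sm_coord j⟩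
def tS (b : Bath) (ξ : ℝ) : SV b.m := ⟨fun _ X => tanh (fld b ξ X), fun _ => sm_tanh b ξ⟩
/-- `s - tanh ξ` -/
def stS (m : ℕ) (ξ : ℝ) : SV m := sS m - algebraMap ℝ _ (tanh ξ)
/-- `Z_j = X_j - s g_j` -/
def zS (b : Bath) (j : Fin b.m) : SV b.m := xS j - b.g j • sS b.m
def linS (m : ℕ) : (Fin m → ℝ) →ₗ[ℝ] SV m := emb xS
def exS (b : Bath) (ξ : ℝ) : SV b.m →ₗ[ℝ] ℝ := exL b ξ ∘ₗ inc _ ∘ₗ cv _
/-- the impurity on smooth functions -/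
def imS (b : Bath) (ξ : ℝ) : Pre (SV b.m) :=
  ⟨(imp b ξ).N.compl₁₂ (cv _) (cv _), (imp b ξ).En.compl₁₂ (cv _) (cv _), sS _⟩
/-- `F - E[F | X]` -/
def rsS (b : Bath) (ξ : ℝ) : SV b.m →ₗ[ℝ] SV b.m :=
  LinearMap.mul ℝ _ ((1 / 2 : ℝ) • (1 - sS _ * tS b ξ)) ∘ₗ (LinearMap.id - (fl _).toLinearMap)
/-- `Cov (F, s | X)` -/
def psi (b : Bath) (ξ : ℝ) : SV b.m →ₗ[ℝ] SV b.m :=
  LinearMap.mul ℝ _ ((1 / 2 : ℝ) • ((1 - tS b ξ ^ 2) * sS _)) ∘ₗ (LinearMap.id - (fl _).toLinearMap)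
/-- Ornstein–Uhlenbeck part of minus the generator -/
def ouS (b : Bath) : SV b.m →ₗ[ℝ] SV b.m :=
  ∑ i, ∑ j, b.A i j • (LinearMap.mul ℝ _ (zS b i) ∘ₗ dd j - dd i ∘ₗ dd j)
/-- **minus the generator** of the impurity -/
def gen (b : Bath) (ξ : ℝ) : SV b.m →ₗ[ℝ] SV b.m := rsS b ξ + ouS b
/-- `c N + En` -/
def Mf (b : Bath) (ξ c : ℝ) (F : SV b.m) : ℝ := c * (imS b ξ).N F F + (imS b ξ).En F F
/-- the Galerkin functional -/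
def Jf (b : Bath) (ξ y : ℝ) (F : SV b.m) : ℝ := Mf b ξ y F - 2 * (imS b ξ).N (sS _) F

/-- pairs of polynomials of degree at most `D` -/
def PolS (m D : ℕ) : Submodule ℝ (SV m) where
  carrier := {F | ∀ s, ∃ p : MvPolynomial (Fin m) ℝ, p.totalDegree ≤ D ∧
    ∀ X, F.1 s X = MvPolynomial.eval (fun i => X i) p}
  add_mem' {F G} hF hG s := by
    obtain ⟨p, hp, ep⟩ := hF s
    obtain ⟨q, hq, eq⟩ := hG s
    exact ⟨p + q, (MvPolynomial.totalDegree_add p q).trans (max_le hp hq), fun X => by simp [ep, eq]⟩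
  zero_mem' s := ⟨0, by simp, fun X => by simp⟩
  smul_mem' c F hF s := by
    obtain ⟨p, hp, ep⟩ := hF s
    exact ⟨c • p, (MvPolynomial.totalDegree_smul_le c p).trans hp, fun X => by simp [ep]⟩

/-! ### families in the static field, extended baths -/

/-- generators `tanh ξ, s, X_j` -/
def G0 (m : ℕ) : Set (ℝ → SV m) :=
  {fun ξ => algebraMap ℝ _ (tanh ξ), fun _ => sS m} ∪ range fun j _ => xS j
/-- polynomials in `(tanh ξ, s, X)` -/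
def N0 (m : ℕ) : Subalgebra ℝ (ℝ → SV m) := Algebra.adjoin ℝ (G0 m)
/-- polynomials in `(tanh ξ, s, X, tanh (ξ + ⟨g, X⟩))` -/
def N1 (b : Bath) : Subalgebra ℝ (ℝ → SV b.m) := Algebra.adjoin ℝ (insert (tS b) (G0 b.m))
/-- jointly odd -/
def OddF (F : ℝ → SV m) : Prop := ∀ ξ s X, (F (-ξ)).1 (!s) (-X) = -(F ξ).1 s X
/-- centred for every static field -/
def Cen (b : Bath) (F : ℝ → SV b.m) : Prop := ∀ ξ, exS b ξ (F ξ) = 0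
def Cl0 (b : Bath) (D : ℕ) (F : ℝ → SV b.m) : Prop :=
  F ∈ N0 b.m ∧ OddF F ∧ Cen b F ∧ ∀ ξ, F ξ ∈ PolS b.m D
def Cl1 (b : Bath) (F : ℝ → SV b.m) : Prop := F ∈ N1 b ∧ OddF F ∧ Cen b F
def Nb (ν : Measure ℝ) (b : Bath) (F G : ℝ → SV b.m) : ℝ := ∫ ξ, (imS b ξ).N (F ξ) (G ξ) ∂ν
def Eb (ν : Measure ℝ) (b : Bath) (F G : ℝ → SV b.m) : ℝ := ∫ ξ, (imS b ξ).En (F ξ) (G ξ) ∂ν
/-- in the span, almost everywhere -/
def InU (ν : Measure ℝ) {n : ℕ} (f : Fin n → ℝ → SV m) (v : ℝ → SV m) : Prop :=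
  ∃ c : Fin n → ℝ, ∀ᵐ ξ ∂ν, v ξ = ∑ l, c l • f l ξ

/-- extended bath `U ≤ U~` -/
structure Ext where
  b : Bath
  bt : Bath
  ι : Matrix (Fin bt.m) (Fin b.m) ℝ
  iso : ιᵀ * ι = 1
  hA : b.A = ιᵀ * bt.A * ι
  hg : bt.g = ι *ᵥ b.g

/-- `B u` -/
def Ext.w (e : Ext) (u : Fin e.b.m → ℝ) : Fin e.bt.m → ℝ :=
  e.bt.A *ᵥ (e.ι *ᵥ u) - e.ι *ᵥ (e.b.A *ᵥ u)
def Ext.res (e : Ext) (c : ℝ) (u : Fin e.b.m → ℝ) : ℝ :=
  c * (e.w u ⬝ᵥ e.w u) + e.w u ⬝ᵥ e.bt.A *ᵥ e.w u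
/-- the residual functional at `y` is at most `η` -/
def Ext.Eps (e : Ext) (l y η : ℝ) : Prop :=
  ∀ u, e.b.A *ᵥ u + y • u = e.b.g → e.res (y + l) u ≤ η

/-- one level of an extended tower: `f0` basis of `U'`, `f` basis of `U~'` -/
structure Step (β : ℝ) (ν : Measure ℝ) (D : ℕ) (e e' : Ext) (f0 : Fin e'.b.m → ℝ → SV e.b.m)
    (f : Fin e'.bt.m → ℝ → SV e.bt.m) : Prop where
  c0 : ∀ l, Cl0 e.b D (f0 l)
  c1 : ∀ k, Cl1 e.bt (f k)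
  on : ∀ k l, Nb ν e.bt (f k) (f l) = if k = l then 1 else 0
  en : ∀ k l, Eb ν e.bt (f k) (f l) = e'.bt.A k l
  g : ∀ k, β * Nb ν e.bt (fun _ => sS _) (f k) = e'.bt.g k
  inc : ∀ l, ∀ᵐ ξ ∂ν, pull e.ι (f0 l ξ) = ∑ k, e'.ι k l • f k ξ
  cl : ∀ l, ∀ᵐ ξ ∂ν, gen e.bt ξ (pull e.ι (f0 l ξ)) = ∑ k, (e'.bt.A * e'.ι) k l • f k ξ
  st : ∀ᵐ ξ ∂ν, β • stS _ ξ = ∑ l, e'.b.g l • f0 l ξ

/-- gap on polynomials -/
def Coer (b : Bath) (l : ℝ) : Prop :=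
  b.Ge l ∧ ∀ ξ D, ∀ F ∈ PolS b.m D, l * (imS b ξ).N F F ≤ (imS b ξ).En F F
/-- bound on the response -/
def Resp (b : Bath) (a G : ℝ) : Prop :=
  ∀ ξ D, ∀ F ∈ PolS b.m D, ∀ y, -a ≤ y → y ≤ 0 → -Jf b ξ y F ≤ sech2 ξ * G
/-- Galerkin solution of `(y + gen) φ = s - tanh ξ` -/
def Gal (b : Bath) (ξ y : ℝ) (D : ℕ) (φ : SV b.m) : Prop := φ ∈ PolS b.m D ∧ exS b ξ φ = 0 ∧
  ∀ P ∈ PolS b.m D, y * (imS b ξ).N φ P + (imS b ξ).En φ P = (imS b ξ).N (sS _) P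
/-- the response of degree `D` -/
def gamD (b : Bath) (a : ℝ) (D : ℕ) (ξ : ℝ) : ℝ :=
  sech2 ξ + a * sSup {r | ∃ F ∈ PolS b.m D, r = -Jf b ξ (-a) F}

/-- residual of the ansatz -/
def Ext.R (e : Ext) (a ξ : ℝ) (Ξ : SV e.b.m) : SV e.bt.m :=
  gen e.bt ξ (pull e.ι (sS _ + Ξ)) - a • pull e.ι Ξ - (imS e.b ξ).En (sS _) (sS _ + Ξ) •
    ((1 / sech2 ξ) • stS _ ξ - ∑ j, e.bt.g j • zS e.bt j)
/-- irreducible -/
def Irr (b : Bath) (ξ : ℝ) (F : SV b.m) : Prop :=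
  exS b ξ F = 0 ∧ (∀ j, exS b ξ (dd j F) = 0) ∧ (imS b ξ).N (sS _) F = 0

/-- projection onto the irreducible functions: `F - E[F | s] - ⟨E ∇F, Z⟩` -/
def irr (b : Bath) (ξ : ℝ) (F : SV b.m) : SV b.m :=
  F - (algebraMap ℝ _ (exS b 0 F) + exS b 0 (sS _ * F) • sS _) - ∑ j, exS b ξ (dd j F) • zS b j
/-- the coefficient of the spin -/
def cf (b : Bath) (ξ : ℝ) (F : SV b.m) : ℝ := exS b 0 (sS _ * F) - ∑ j, exS b ξ (dd j F) * b.g j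

/-- the local ansatz `s + Ξ` -/
def Out (e : Ext) (D : ℕ) (l a ε B : ℝ) (Ξ : ℝ → SV e.b.m) : Prop := Cl0 e.b D Ξ ∧ ∀ ξ,
  Irr e.b ξ (Ξ ξ) ∧ Irr e.bt ξ (e.R a ξ (Ξ ξ)) ∧ Mf e.bt ξ 1 (e.R a ξ (Ξ ξ)) ≤ ε ∧
  Mf e.b ξ 1 (Ξ ξ) ≤ 8 * (1 + a) / (l - a) + 8 ∧
  l * sech2 ξ / 2 ≤ (imS e.b ξ).En (sS _) (sS _ + Ξ ξ) ∧
  (imS e.b ξ).En (sS _) (sS _ + Ξ ξ) ≤ 2 * sech2 ξ ∧
  (1 - ε) / gamD e.b a D ξ + B ≤
    1 / sech2 ξ + e.b.g ⬝ᵥ e.b.g - a / (imS e.b ξ).En (sS _) (sS _ + Ξ ξ)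

/-! ### leaves -/

/-- calculus in the smooth algebra -/
structure Cal : Prop where
  dmul : ∀ {m} (j : Fin m) (F G : SV m), dd j (F * G) = dd j F * G + F * dd j G
  dcomm : ∀ {m} (i j : Fin m) (F : SV m), dd i (dd j F) = dd j (dd i F)
  done : ∀ {m} (j : Fin m), dd j (1 : SV m) = 0
  ds : ∀ {m} (j : Fin m), dd j (sS m) = 0
  dx : ∀ {m} (i j : Fin m), dd i (xS j) = if j = i then 1 else 0
  dt : ∀ b ξ j, dd j (tS b ξ) = b.g j • (1 - tS b ξ ^ 2)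
  dfl : ∀ {m} (j : Fin m) (F : SV m), dd j (fl m F) = fl m (dd j F)
  ss : ∀ m, sS m * sS m = 1
  fls : ∀ m, fl m (sS m) = -sS m
  ex1 : ∀ b ξ, exS b ξ 1 = 1
  exs : ∀ b ξ, exS b ξ (sS _) = tanh ξ
  aff : ∀ b ξ (F : SV b.m), exS b ξ F = exS b 0 F + tanh ξ * exS b 0 (sS _ * F)
  pos : ∀ b ξ (F : SV b.m), (∀ s X, 0 ≤ F.1 s X) → 0 ≤ exS b ξ F
  defn : ∀ b ξ (F : SV b.m), exS b ξ (F * F) = 0 → F = 0
  stein : ∀ b ξ j (F : SV b.m), exS b ξ (zS b j * F) = exS b ξ (dd j F)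
  db : ∀ b ξ (M : SV b.m), fl _ M = M → exS b ξ (sS _ * M) = exS b ξ (tS b ξ * M)
  ok : ∀ b ξ, (imS b ξ).Ok
  N : ∀ b ξ (F G : SV b.m), (imS b ξ).N F G = exS b ξ (F * G) - exS b ξ F * exS b ξ G
  En : ∀ b ξ (F G : SV b.m), (imS b ξ).En F G =
    exS b ξ (rsS b ξ F * rsS b ξ G) + ∑ i, ∑ j, b.A i j * exS b ξ (dd i F * dd j G)
  Ns : ∀ b ξ, (imS b ξ).N (sS _) (sS _) = sech2 ξ
  Es : ∀ b ξ, (imS b ξ).En (sS _) (sS _) ≤ sech2 ξ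
  l0 : ∀ b ξ (F G : SV b.m), exS b ξ (G * gen b ξ F) = (imS b ξ).En G F
  rs_ip : ∀ b ξ (F G : SV b.m), exS b ξ (rsS b ξ F * rsS b ξ G) = exS b ξ (F * rsS b ξ G)
  rs_le : ∀ b ξ (F : SV b.m), exS b ξ (rsS b ξ F * rsS b ξ F) ≤ exS b ξ (F * F)
  drs : ∀ b ξ j (F : SV b.m), dd j (rsS b ξ F) = rsS b ξ (dd j F) - b.g j • psi b ξ F
  dpsi : ∀ b ξ j (F : SV b.m),
    dd j (psi b ξ F) = psi b ξ (dd j F) - (2 * b.g j) • (tS b ξ * psi b ξ F)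
  dgen : ∀ b ξ j (F : SV b.m),
    dd j (gen b ξ F) = gen b ξ (dd j F) + ∑ i, b.A j i • dd i F - b.g j • psi b ξ F
  psi_le : ∀ b ξ (F : SV b.m), exS b ξ (psi b ξ F * psi b ξ F) ≤ exS b ξ (rsS b ξ F * rsS b ξ F)
  t_le : ∀ b ξ (F : SV b.m), exS b ξ (tS b ξ * F * (tS b ξ * F)) ≤ exS b ξ (F * F)
  psi_ex : ∀ b ξ (F : SV b.m), exS b ξ (psi b ξ F) = (imS b ξ).En (sS _) F
  p_ex : ∀ (e : Ext) ξ (F : SV e.b.m), exS e.bt ξ (pull e.ι F) = exS e.b ξ F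
  p_d : ∀ {m k} (ι : Matrix (Fin k) (Fin m) ℝ) j (F : SV m),
    dd j (pull ι F) = ∑ i, ι j i • pull ι (dd i F)
  p_t : ∀ (e : Ext) ξ, pull e.ι (tS e.b ξ) = tS e.bt ξ
  p_x : ∀ {m k} (ι : Matrix (Fin k) (Fin m) ℝ) i, pull ι (xS i) = ∑ j, ι j i • xS j
  p_rs : ∀ (e : Ext) ξ (F : SV e.b.m), rsS e.bt ξ (pull e.ι F) = pull e.ι (rsS e.b ξ F)
  p_N : ∀ (e : Ext) ξ (F G : SV e.b.m), (imS e.bt ξ).N (pull e.ι F) (pull e.ι G) = (imS e.b ξ).N F G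
  p_En : ∀ (e : Ext) ξ (F G : SV e.b.m),
    (imS e.bt ξ).En (pull e.ι F) (pull e.ι G) = (imS e.b ξ).En F G
  p_gen : ∀ (e : Ext) ξ (F : SV e.b.m), gen e.bt ξ (pull e.ι F) =
    pull e.ι (gen e.b ξ F) + ∑ i, pull e.ι (dd i F) * linS _ (e.w (Pi.single i 1))

/-- polynomial calculus -/
structure PolApi : Prop where
  fg : ∀ m D, (PolS m D).FG
  mono : ∀ m {D D'}, D ≤ D' → PolS m D ≤ PolS m D'
  one : ∀ m D, 1 ∈ PolS m D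
  s : ∀ {m D} {F : SV m}, F ∈ PolS m D → sS m * F ∈ PolS m D
  x : ∀ {m D} (j : Fin m) {F : SV m}, F ∈ PolS m D → xS j * F ∈ PolS m (D + 1)
  fl : ∀ {m D} {F : SV m}, F ∈ PolS m D → fl m F ∈ PolS m D
  d : ∀ {m D} (j : Fin m) {F : SV m}, F ∈ PolS m (D + 1) → dd j F ∈ PolS m D
  d0 : ∀ {m} (j : Fin m) {F : SV m}, F ∈ PolS m 0 → dd j F = 0
  ou : ∀ (b : Bath) {D} {F : SV b.m}, F ∈ PolS b.m D → ouS b F ∈ PolS b.m D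
  pv : ∀ {m D} {F : SV m}, F ∈ PolS m D → cv m F ∈ PV m
  p2 : ∀ (b : Bath) ξ D (G : SV b.m), (∀ q ∈ PolS b.m D, exS b ξ (G * q) = 0) →
    (D + 1) * exS b ξ (G * G) ≤ ∑ j, exS b ξ (dd j G * dd j G)

/-- bounds on polynomials, uniform in the static field -/
def BdStmt : Prop := ∀ (e : Ext) (D : ℕ), ∃ C ≥ (0 : ℝ), ∀ ξ, ∀ F ∈ PolS e.b.m D,
  (imS e.b ξ).En F F ≤ C * (imS e.b ξ).N F F ∧
  Mf e.bt ξ 1 (gen e.bt ξ (pull e.ι F)) ≤ C * (imS e.b ξ).N F F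

/-- spectral expansion of the gradient of a Galerkin solution -/
def SpecStmt : Prop := ∀ (b : Bath) (l : ℝ), Coer b l → ∀ (D : ℕ) (ξ y : ℝ), -l < y →
  ∀ φ, Gal b ξ y (D + 1) φ → ∀ u, b.A *ᵥ u + y • u = b.g →
  (∀ q ∈ PolS b.m (D + 1), exS b ξ ((y • φ + gen b ξ φ - stS _ ξ) * q) = 0) ∧
  ∃ (n : ℕ) (f : Fin n → SV b.m) (μ ψ : Fin n → ℝ) (U : Fin n → Fin b.m → ℝ),
    (∀ i, f i ∈ PolS b.m D ∧ exS b ξ (f i) = 0 ∧ l ≤ μ i ∧ b.A *ᵥ U i + (y + μ i) • U i = b.g) ∧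
    (∀ i j, exS b ξ (f i * f j) = (if i = j then 1 else 0) ∧
      (imS b ξ).En (f i) (f j) = if i = j then μ i else 0) ∧
    (∀ j, dd j φ = algebraMap ℝ _ ((imS b ξ).En (sS _) φ * u j) + ∑ i, (ψ i * U i j) • f i) ∧
    (imS b ξ).En (sS _) φ ^ 2 + ∑ i, ψ i ^ 2 ≤ (imS b ξ).En φ φ

/-- one step at a fixed static field: (E1), (E2) -/
def FixStmt : Prop := ∀ (e : Ext) (l a : ℝ), 0 ≤ a → a < l → Coer e.b l → ∃ C ≥ (0 : ℝ),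
  ∀ D ≥ 1, ∀ ξ, ∀ y ≥ -a, ∀ φ, Gal e.b ξ y D φ → ∀ η, (∀ y' ≥ y + l, e.Eps l y' η) →
  ∀ u, e.b.A *ᵥ u + y • u = e.b.g → (∀ j, exS e.b ξ (dd j φ) = (imS e.b ξ).En (sS _) φ * u j) ∧
    ∃ r1 r2 : SV e.bt.m, y • pull e.ι φ + gen e.bt ξ (pull e.ι φ) - stS _ ξ =
        r1 + ((imS e.b ξ).En (sS _) φ • linS _ (e.w u) + r2) ∧
      Mf e.bt ξ (y + l) r1 ≤ C / D ∧ Mf e.bt ξ (y + l) r2 ≤ (imS e.b ξ).En φ φ * η ∧
      Mf e.bt ξ (y + l) ((imS e.b ξ).En (sS _) φ • linS _ (e.w u) + r2) ≤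
        (imS e.b ξ).En (sS _) φ ^ 2 * e.res (y + l) u + (imS e.b ξ).En φ φ * η

/-- families: averages are continuous and bounded, closure properties -/
structure FamApi : Prop where
  le : ∀ b : Bath, N0 b.m ≤ N1 b
  ex : ∀ (b : Bath), ∀ F ∈ N1 b, Continuous (fun ξ => exS b ξ (F ξ)) ∧ BM fun ξ => exS b ξ (F ξ)
  d0 : ∀ {m} (j : Fin m), ∀ F ∈ N0 m, (fun ξ => dd j (F ξ)) ∈ N0 m
  d1 : ∀ (b : Bath) j, ∀ F ∈ N1 b, (fun ξ => dd j (F ξ)) ∈ N1 b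
  fl0 : ∀ {m}, ∀ F ∈ N0 m, (fun ξ => fl m (F ξ)) ∈ N0 m
  fl1 : ∀ (b : Bath), ∀ F ∈ N1 b, (fun ξ => fl _ (F ξ)) ∈ N1 b
  gen : ∀ (b : Bath) F, Cl1 b F → Cl1 b fun ξ => gen b ξ (F ξ)
  pull : ∀ (e : Ext) D F, Cl0 e.b D F → Cl1 e.bt fun ξ => pull e.ι (F ξ)
  ex0 : ∀ (b : Bath), ∀ F ∈ N0 b.m, (fun ξ => algebraMap ℝ (SV b.m) (exS b ξ (F ξ))) ∈ N0 b.m
  N : ∀ (b : Bath), ∀ F ∈ N1 b, ∀ G ∈ N1 b, Continuous (fun ξ => (imS b ξ).N (F ξ) (G ξ)) ∧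
    BM fun ξ => (imS b ξ).N (F ξ) (G ξ)
  En : ∀ (b : Bath), ∀ F ∈ N1 b, ∀ G ∈ N1 b, Continuous (fun ξ => (imS b ξ).En (F ξ) (G ξ)) ∧
    BM fun ξ => (imS b ξ).En (F ξ) (G ξ)
  cst : ∀ {m D} {P : SV m}, P ∈ PolS m D → (fun _ => P) ∈ N0 m
  refl : ∀ m, ∃ ρ : SV m →ₐ[ℝ] SV m, (∀ F s X, (ρ F).1 s X = F.1 (!s) (-X)) ∧
    (∀ D, ∀ F ∈ PolS m D, ρ F ∈ PolS m D) ∧ (∀ F ∈ N0 m, (fun ξ => ρ (F (-ξ))) ∈ N0 m) ∧
    ∀ A g hA ξ F G, exS ⟨m, A, g, hA⟩ (-ξ) (ρ F) = exS ⟨m, A, g, hA⟩ ξ F ∧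
      (imS ⟨m, A, g, hA⟩ (-ξ)).N (ρ F) (ρ G) = (imS ⟨m, A, g, hA⟩ ξ).N F G ∧
      (imS ⟨m, A, g, hA⟩ (-ξ)).En (ρ F) (ρ G) = (imS ⟨m, A, g, hA⟩ ξ).En F G
  rel : ∀ (b : Bath) (P : SV b.m), ∃ C, ∀ ξ, |(imS b ξ).En (sS _) P| ≤ C * sech2 ξ

/-- Weierstrass in `tanh ξ` -/
def WsStmt : Prop := ∀ c : ℝ → ℝ, Continuous c → HasCompactSupport c → ∀ η > (0 : ℝ),
  ∃ p : Polynomial ℝ, ∀ ξ, |c ξ - p.eval (tanh ξ)| ≤ η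

/-- Galerkin solutions with continuous coefficients; the response of degree `D` -/
def GalStmt : Prop := ∀ (b : Bath) (l : ℝ), Coer b l → ∀ (D : ℕ) (y : ℝ), -l < y →
  (∃ (n : ℕ) (P : Fin n → SV b.m) (c : Fin n → ℝ → ℝ), (∀ i, P i ∈ PolS b.m D ∧ Continuous (c i)) ∧
    ∀ ξ, Gal b ξ y D (∑ i, c i ξ • P i)) ∧
  ∀ ξ φ, Gal b ξ y D φ → gamD b (-y) D ξ = (imS b ξ).En (sS _) φ ∧
    ∀ P ∈ PolS b.m D, Jf b ξ y P = Jf b ξ y φ + Mf b ξ y (P - φ)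

def GamStmt : Prop := ∀ (b : Bath) (l a G : ℝ), 0 ≤ a → a < l → Coer b l → Resp b a G → ∀ D,
  Continuous (gamD b a D) ∧ ∀ ξ, gamD b a D (-ξ) = gamD b a D ξ ∧ sech2 ξ ≤ gamD b a D ξ ∧
    gamD b a D ξ ≤ sech2 ξ * (1 + a * G)

/-- finitely many polynomial families contain near-minimisers for all `y`, uniformly in `ξ` -/
def ApStmt : Prop := ∀ (b : Bath) (l a : ℝ), 0 ≤ a → a < l → Coer b l → ∀ (D : ℕ) (δ : ℝ), 0 < δ →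
  ∃ 𝒱 : Set (ℝ → SV b.m), 𝒱.Finite ∧ (∀ v ∈ 𝒱, Cl0 b D v) ∧ ∀ y ≥ -a, ∃ v ∈ 𝒱, ∃ c : ℝ,
    ∀ ξ, ∀ P ∈ PolS b.m D, Jf b ξ y (c • v ξ) ≤ Jf b ξ y P + δ / (1 + |y|) ^ 2

/-- the contraction -/
def OneStmt : Prop := ∀ β l a G : ℝ, 0 < β → 0 ≤ a → a < l → 0 ≤ G → β * (1 + a * G) < 1 →
  ∃ (ω : ℝ → ℝ) (Ω θ : ℝ), 0 ≤ θ ∧ θ < 1 ∧ (∀ y, 1 ≤ ω y ∧ ω y ≤ Ω) ∧
  ∀ (ν : Measure ℝ) [IsProbabilityMeasure ν] (e : Ext), Coer e.b l → Resp e.b a G →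
  ∀ S ≥ (0 : ℝ), (∀ y ≥ -a, e.Eps l y (S * ω y)) → ∀ δ > (0 : ℝ), ∃ D0 : ℕ, ∀ D ≥ D0,
    ∃ 𝒱 : Set (ℝ → SV e.b.m), 𝒱.Finite ∧ (∀ v ∈ 𝒱, Cl0 e.b D v) ∧
    ∀ e' f0 f, Step β ν D e e' f0 f → (∀ v ∈ 𝒱, InU ν f0 v) →
      (∀ y ≥ -a, e'.Eps l y ((θ * S + δ) * ω y)) ∧ e'.b.g ⬝ᵥ e'.b.g ≤ β ^ 2 ∧
      ∀ u, e'.b.A *ᵥ u + (-a) • u = e'.b.g →
        β ^ 2 * ∫ ξ, gamD e.b a D ξ ∂ν - δ ≤ e'.b.g ⬝ᵥ e'.b.A *ᵥ u

/-- irreducible functions -/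
structure IrrApi : Prop where
  irr : ∀ b ξ F, Irr b ξ (irr b ξ F)
  fix : ∀ b ξ F, Irr b ξ F → Tw.irr b ξ F = F
  pol : ∀ (b : Bath) ξ D, 1 ≤ D → ∀ F ∈ PolS b.m D, Tw.irr b ξ F ∈ PolS b.m D
  R : ∀ (e : Ext) a ξ Ξ, Irr e.b ξ Ξ → Irr e.bt ξ (e.R a ξ Ξ)
  R0 : ∀ e : Ext, ∃ C, ∀ a ξ, Mf e.bt ξ 1 (e.R a ξ 0) ≤ C * sech2 ξ

/-- the exact ansatz at a fixed static field -/
def ExStmt : Prop := ∀ l a ε : ℝ, 0 ≤ a → a < l → 0 < ε → ∃ η > (0 : ℝ),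
  ∀ e : Ext, Coer e.b l → (∀ y ≥ -a, e.Eps l y η) → ∃ D0 ≥ 1, ∀ D ≥ D0,
    ∀ a' ∈ Icc 0 a, ∀ u, e.b.A *ᵥ u + (-a') • u = e.b.g → ∀ ξ φ, Gal e.b ξ (-a') D φ →
      1 ≤ cf e.b ξ φ ∧ ∀ Ξ, Ξ = (cf e.b ξ φ)⁻¹ • irr e.b ξ φ →
        Mf e.bt ξ 1 (e.R a' ξ Ξ) ≤ ε ∧ Mf e.b ξ 1 Ξ ≤ 2 * (1 + a') / (l - a') + 4 ∧
        l * sech2 ξ ≤ (imS e.b ξ).En (sS _) (sS _ + Ξ) ∧ (imS e.b ξ).En (sS _) Ξ ≤ 0 ∧
        1 / gamD e.b a' D ξ + e.b.g ⬝ᵥ e.b.A *ᵥ u =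
          1 / sech2 ξ + e.b.g ⬝ᵥ e.b.g - a' / (imS e.b ξ).En (sS _) (sS _ + Ξ)

/-- the output at a level with small residual functional -/
def OutStmt : Prop := ∀ l a G ε : ℝ, 0 ≤ a → a < l → 0 ≤ G → 0 < ε → ∃ η > (0 : ℝ),
  ∀ e : Ext, Coer e.b l → Resp e.b a G → (∀ y ≥ -a, e.Eps l y η) → ∃ D0 : ℕ, ∀ D ≥ D0,
    ∀ a' ∈ Icc 0 a, ∀ u, e.b.A *ᵥ u + (-a') • u = e.b.g →
      ∃ Ξ, Out e D l a' ε (e.b.g ⬝ᵥ e.b.A *ᵥ u) Ξ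

/-- extended steps are tower steps -/
def TwStep : Prop := ∀ 𝒞 : Cls, (∀ m, 𝒞.C m = PV m) → ∀ β ≠ (0 : ℝ), ∀ (ν : Measure ℝ)
  [IsProbabilityMeasure ν] D e e' f0 f, Step β ν D e e' f0 f → TwL admStmt 𝒞 β e.b →
    TwL admStmt 𝒞 β e'.b

/-- existence of extended steps containing prescribed families -/
def ExtStmt : Prop := ∀ (β : ℝ) (ν : Measure ℝ) [IsProbabilityMeasure ν] (D : ℕ) (e : Ext)
  (𝒱 : Set (ℝ → SV e.b.m)) (T : Set (ℝ → SV e.bt.m)), 𝒱.Finite → T.Finite → (∀ v ∈ 𝒱, Cl0 e.b D v) →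
  (∀ v ∈ T, Cl1 e.bt v) → ∃ e' f0 f, Step β ν D e e' f0 f ∧ (∀ v ∈ 𝒱, InU ν f0 v) ∧ ∀ v ∈ T, InU ν f v

/-- **the local ansatz**, as an induction principle over extended towers -/
def LocStmt : Prop := ∀ 𝒞 : Cls, (∀ m, 𝒞.C m = PV m) → ∀ β : ℝ, 0 < β → β < 1 →
  ∀ a ∈ Ico 0 (lam 𝒞 β), ∀ (ν : Measure ℝ) [IsProbabilityMeasure ν], ∀ ε > (0 : ℝ),
  ∀ (P : Ext → Prop) (e0 : Ext), P e0 → TwL admStmt 𝒞 β e0.b →
  (∀ e, P e → ∃ D1 : ℕ, ∀ D ≥ D1, ∀ 𝒱 : Set (ℝ → SV e.b.m), 𝒱.Finite → (∀ v ∈ 𝒱, Cl0 e.b D v) →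
    ∃ e' f0 f, Step β ν D e e' f0 f ∧ (∀ v ∈ 𝒱, InU ν f0 v) ∧ P e') →
  ∃ (e : Ext) (D : ℕ), P e ∧ TwL admStmt 𝒞 β e.b ∧
    (∀ a' ∈ Icc 0 a, ∃ Ξ, Out e D (lam 𝒞 β) a' ε 0 Ξ) ∧
    (∃ Ξ, Out e D (lam 𝒞 β) a ε (β ^ 2 * ∫ ξ, gamD e.b a D ξ ∂ν - ε) Ξ) ∧
    Continuous (gamD e.b a D) ∧ ∀ ξ, gamD e.b a D (-ξ) = gamD e.b a D ξ ∧
      sech2 ξ ≤ gamD e.b a D ξ ∧ β * gamD e.b a D ξ ≤ sech2 ξ * (1 - β * (lam 𝒞 β - a))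

def BdGlue : Prop := Cal → PolApi → BdStmt
def SpecGlue : Prop := Cal → PolApi → SpecStmt
def FixGlue : Prop := Cal → PolApi → SpecStmt → FixStmt
def FamGlue : Prop := Cal → PolApi → FamApi
def GalGlue : Prop := Cal → PolApi → FamApi → GalStmt ∧ GamStmt
def ApGlue : Prop := Cal → PolApi → FamApi → WsStmt → BdStmt → GalStmt → ApStmt
def OneGlue : Prop := Cal → PolApi → FamApi → BdStmt → FixStmt → GalStmt → GamStmt → ApStmt → OneStmt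
def ExGlue : Prop := Cal → PolApi → FixStmt → GalStmt → IrrApi ∧ ExStmt
def ExtGlue : Prop := Cal → PolApi → FamApi → TwStep ∧ ExtStmt
def LocGlue : Prop := Cal → PolApi → GamStmt → OneStmt → OutStmt → TwStep → LocStmt


end Crest.Agent.T157.Tw
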