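import Crest.Agent.T157.HmB_3
import Crest.Agent.T157.TwLin_84
import Crest.Agent.T157.LcDef_30

-- ▼ part T157/HmC_3
section

/-!
# Row 157, block B/S4b (helper3): polynomial calculus over a bath (pairs of functions), (P1)–(P4)
-/

set_option autoImplicit false
set_option linter.all false

noncomputable section

namespace Crest.Agent.T157.Hm

open MeasureTheory ProbabilityTheory Real Set Filter Topology Matrix
open Crest.Agent.R238.Gap Crest.Agent.R238.GapPc Crest.Agent.R238.GapPoinc Crest.Agent.R253.Meh74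
open Crest.Agent.T157.Tw

variable {m : ℕ}

/-- pairs of functions -/
abbrev Fn (m : ℕ) : Type := Bool → E m → ℝ

/-- pairs of polynomials of degree `< D` -/
def PQ (D : ℕ) (F : Fn m) : Prop := ∀ s, F s ∈ Pl m D
/-- partial derivative of a pair -/
def dd (j : Fin m) (F : Fn m) : Fn m := fun s => pd j (F s)

lemma PQ.cv {D : ℕ} {F : Fn m} (h : PQ D F) : F ∈ CV m := fun s => c1 (h s)
lemma PQ.dd {D : ℕ} {F : Fn m} (h : PQ (D + 1) F) (j : Fin m) : PQ D (dd j F) :=
  fun s => pd_mem (h s) j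
lemma PQ.dd' {D : ℕ} {F : Fn m} (h : PQ D F) (j : Fin m) : PQ D (Hm.dd j F) :=
  fun s => pd_mem_self (h s) j
lemma PQ.mono {D D' : ℕ} {F : Fn m} (h : PQ D F) (hD : D ≤ D') : PQ D' F :=
  fun s => Hm.mono hD (h s)
lemma pq_spin (D : ℕ) (φ : Bool → ℝ) : PQ (D + 1) (fun s (_ : E m) => φ s) :=
  fun s => const_mem D (φ s)


/-- the submodule of pairs of polynomials of degree `< D` -/
def PD (m D : ℕ) : Submodule ℝ (CV m) where
  carrier := {F | PQ D F.1}
  add_mem' hF hG s := add_mem (hF s) (hG s)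
  zero_mem' _ := zero_mem _
  smul_mem' c _ hF s := Submodule.smul_mem _ c (hF s)

instance (m D : ℕ) : Module.Finite ℝ (PD m D) := by
  let L : (Bool → Pl m D) →ₗ[ℝ] PD m D :=
    { toFun := fun p => ⟨⟨fun s => (p s).1, fun s => c1 (p s).2⟩, fun s => (p s).2⟩
      map_add' := fun _ _ => rfl
      map_smul' := fun _ _ => rfl }
  exact Module.Finite.of_surjective L fun F => ⟨fun s => ⟨F.1.1 s, F.2 s⟩, rfl⟩

section bath

variable (b : Bath) (ξ : ℝ)

/-- the function in the Gaussian variable `Z = X - s g` -/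
def zs (s : Bool) (f : E b.m → ℝ) : E b.m → ℝ := fun z => f (z + sg s • b.v)

/-- `L²` scalar product of the impurity -/
def iq (F G : Fn b.m) : ℝ := ex b ξ fun s X => F s X * G s X

lemma iq_eq (F G : Fn b.m) : iq b ξ F G = ∑ s, hb ξ s * ip (zs b s (F s)) (zs b s (G s)) := rfl

variable {b}

lemma c1_zs {f : E b.m → ℝ} (h : C1 f) (s : Bool) : C1 (zs b s f) := O42.c1_shift h _
lemma pd_zs (s : Bool) (f : E b.m → ℝ) (j : Fin b.m) : pd j (zs b s f) = zs b s (pd j f) := by
  funext z; simp only [zs, pd]; exact congrArg (fun L : E b.m →L[ℝ] ℝ => L (e j))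
    (fderiv_comp_add_right (𝕜 := ℝ) (f := f) (x := z) _)





/-! ### the projection -/









lemma sum_iq_dd (G : Fn b.m) :
    ∑ j, iq b ξ (dd j G) (dd j G) = ∑ s, hb ξ s * en (zs b s (G s)) := by
  simp only [iq_eq, en, Finset.mul_sum, pd_zs]
  rw [Finset.sum_comm]; rfl



/-! ### integration by parts -/

variable (b) in
/-- the adjoint of `dd j` -/
def ds (j : Fin b.m) (q : Fn b.m) : Fn b.m :=
  fun s X => (X j - sg s * b.g j) * q s X - pd j (q s) X

lemma ds_mem {D : ℕ} {q : Fn b.m} (hq : PQ D q) (j : Fin b.m) : PQ (D + 1) (ds b j q) := fun s => by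
  have : ds b j q s = fun X => (X j * q s X - sg s * b.g j * q s X) - pd j (q s) X :=
    funext fun X => by simp only [ds]; ring
  rw [this]
  exact sub_mem' (sub_mem' (mulX_mem j (hq s)) (smul_mem' _ (le_succ D (hq s))))
    (le_succ D (pd_mem_self (hq s) j))




variable (b) in
/-- pointwise-in-`s` bath energy -/
def bt (F G : Fn b.m) : ℝ := ∑ a, ∑ a', b.A a a' * iq b ξ (dd a F) (dd a' G)

variable (b) in
/-- the Ornstein–Uhlenbeck part of minus the generator -/
def NN (F : Fn b.m) : Fn b.m := fun s X => ∑ a, ∑ a', b.A a a' * ds b a (dd a' F) s X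


lemma NN_mem {D : ℕ} {F : Fn b.m} (hF : PQ D F) : PQ D (NN b F) := by
  cases D with
  | zero =>
    intro s
    refine mem_zero.2 (funext fun X => ?_)
    have : ∀ a, dd a F s = fun _ => 0 := fun a => mem_zero.1 (hF.dd' a s)
    simp [NN, ds, this, pd_const]
  | succ D =>
    exact fun s => sum_mem' _ fun a _ => sum_mem' _ fun a' _ => smul_mem' _ (ds_mem (hF.dd a') a s)


/-! ### the spin part -/

variable (b) in
/-- `F - E[F | X]` -/
def rs (F : Fn b.m) : Fn b.m := fun s X => F s X - ∑ t, hb (fld b ξ X) t * F t X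
variable (b) in
/-- `E[s | X]` -/
def tt (X : E b.m) : ℝ := hb (fld b ξ X) true - hb (fld b ξ X) false



lemma sech2_le (h : ℝ) : sech2 h ≤ 1 := by
  unfold sech2
  have := one_le_cosh h
  rw [div_le_one (by positivity)]; nlinarith
lemma sech2_pos (h : ℝ) : 0 < sech2 h := by
  unfold sech2; have := cosh_pos h; positivity




















end bath

end Crest.Agent.T157.Hm
end
end

-- ▼ part T157/LcPol_3

/-!
# Row 157, block B/S4b (helper3): `PolApi`
-/

set_option autoImplicit false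
set_option linter.all false

noncomputable section

namespace Crest.Agent.T157.Tw

open MeasureTheory Real Matrix Set
open Crest.Agent.R238.Gap Crest.Agent.R253.Meh74

namespace Pol3

variable {m : ℕ}

lemma mem_iff {D : ℕ} {F : SV m} : F ∈ PolS m D ↔ Hm.PQ (D + 1) F.1 := by
  refine forall_congr' fun s => ⟨?_, fun h => ?_⟩
  · rintro ⟨p, hp, e⟩
    rw [show F.1 s = fun X => MvPolynomial.eval (fun i => X i) p from funext e]
    exact Hm.eval_mem p (Nat.lt_succ_of_le hp)
  · simpa using Hm.exists_eval h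

lemma sm_pl {D : ℕ} {f : E m → ℝ} (h : f ∈ Hm.Pl m D) : Sm f :=
  sm_of (S := Hm.Pl m D) (fun _ hh => ⟨Hm.c1 hh, Hm.pd_mem_self hh⟩) h

/-- a pair of polynomials as an element of the smooth algebra -/
def mk {D : ℕ} (F : Hm.Fn m) (h : Hm.PQ D F) : SV m := ⟨F, fun s => sm_pl (h s)⟩

lemma ou_eq (b : Bath) (F : SV b.m) : (ouS b F).1 = Hm.NN b F.1 := by
  funext s X
  simp only [ouS, LinearMap.sum_apply, LinearMap.smul_apply, LinearMap.sub_apply,
    LinearMap.comp_apply, LinearMap.mul_apply', AddSubmonoidClass.coe_finsetSum, Finset.sum_apply,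
    Hm.NN, Hm.ds]
  refine Finset.sum_congr rfl fun i _ => Finset.sum_congr rfl fun j _ => ?_
  show b.A i j * ((X i - b.g i * sg s) * pd j (F.1 s) X - pd i (pd j (F.1 s)) X) = _
  simp only [Hm.dd, mul_comm (b.g i)]

lemma ex_mul (b : Bath) (ξ : ℝ) (F G : SV b.m) : exS b ξ (F * G) = Hm.iq b ξ F.1 G.1 := rfl

end Pol3

open Pol3 in
theorem polApi : PolApi where
  fg m D := by
    let L : (Bool → Hm.Pl m (D + 1)) →ₗ[ℝ] SV m :=
      { toFun := fun p => mk (fun s => (p s).1) fun s => (p s).2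
        map_add' := fun _ _ => rfl
        map_smul' := fun _ _ => rfl }
    have : PolS m D = LinearMap.range L := by
      ext F
      rw [mem_iff]
      exact ⟨fun h => ⟨fun s => ⟨F.1 s, h s⟩, rfl⟩, by rintro ⟨p, rfl⟩ s; exact (p s).2⟩
    rw [this, LinearMap.range_eq_map]
    exact Module.Finite.fg_top.map L
  mono m D D' h F hF := mem_iff.2 ((mem_iff.1 hF).mono (Nat.succ_le_succ h))
  one m D := mem_iff.2 (Hm.pq_spin D fun _ => 1)
  s hF := mem_iff.2 fun s => Hm.smul_mem' (sg s) (mem_iff.1 hF s)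
  x j _ hF := mem_iff.2 fun s => Hm.mulX_mem j (mem_iff.1 hF s)
  fl hF := mem_iff.2 fun s => mem_iff.1 hF (!s)
  d j _ hF := mem_iff.2 ((mem_iff.1 hF).dd j)
  d0 j _ hF := Subtype.ext (funext fun s => Hm.mem_zero.1 ((mem_iff.1 hF).dd j s))
  ou b _ F hF := mem_iff.2 (by rw [ou_eq]; exact Hm.NN_mem (mem_iff.1 hF))
  pv hF s := by
    obtain ⟨p, -, e⟩ := hF s
    exact ⟨p, e⟩
  p2 b ξ D G h := by
    have key : ∀ s, ∀ r ∈ Hm.Pl b.m (D + 1), Hm.ip (Hm.zs b s (G.1 s)) r = 0 := by
      intro s r hr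
      have hq : Hm.PQ (D + 1) fun t X => if t = s then r (X + -(sg s • b.v)) else 0 := fun t => by
        by_cases ht : t = s
        · simpa only [ht, if_true] using Hm.shift_mem hr _
        · simp only [ht, if_false]; exact zero_mem _
      have h1 := h (mk _ hq) (mem_iff.2 hq)
      rw [ex_mul, Hm.iq_eq, Finset.sum_eq_single s] at h1
      · have e : Hm.zs b s ((mk _ hq).1 s) = r := by
          funext z; simp [Pol3.mk, Hm.zs]
        rw [e] at h1
        exact (mul_eq_zero.1 h1).resolve_left (hb_pos _ _).ne'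
      · intro t _ ht
        have e : Hm.zs b t ((mk _ hq).1 t) = fun _ => 0 := by
          funext z; simp [Pol3.mk, Hm.zs, ht]
        rw [e]; simp [Hm.ip]
      · simp
    simp only [ex_mul]
    refine le_trans ?_ (Hm.sum_iq_dd ξ G.1).ge
    rw [Hm.iq_eq, Finset.mul_sum]
    refine Finset.sum_le_sum fun s _ => ?_
    rw [mul_left_comm]
    refine mul_le_mul_of_nonneg_left ?_ (hb_pos _ _).le
    exact_mod_cast Hm.le_en (D + 1) (Hm.c1_zs (G.2 s).c1 s) (key s)

end Crest.Agent.T157.Tw
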