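import Crest.Agent.T157.RnOb_60
import Crest.Agent.T157.RnDef_60
import Crest.Agent.T157.TwDom_30
import Crest.Agent.T157.TwOk_42
import Crest.Agent.T157.RnSm_16
import Crest.Agent.T157.RnLoc_60
import Crest.Agent.T157.RnCav_89_Mg
import Crest.Agent.T157.RnOut_10
import Crest.Agent.T157.LcSpec_3_Mg
import Crest.Agent.T157.LcCal_52
import Crest.Agent.T157.LcExt_3

-- ▼ part T157/RnGam_80
section

/-!
# Row 157, block B/R (helper80): carré du champ and generator of local functions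
-/

set_option autoImplicit false

noncomputable section

namespace Crest.Agent.T157.Rn

open MeasureTheory ProbabilityTheory Real Matrix Filter Topology Finset
open Crest.ProbabilityR.SpinGlassDynamics
open Crest.Agent.R238.Gap Crest.Agent.R238.GapPc Crest.Agent.R253.Meh74
open Crest.Agent.T157.E (Cube)
open Crest.Agent.T157.Tw
open Crest.Agent.T157.Pl (one)

namespace G80

variable {β ρ : ℝ} {n m : ℕ} {T : ℕ → Type} {A : ∀ n, T n → Prop}

lemma fl_ne (σ : Cube n) {k i : Fin n} (h : k ≠ i) : fl σ k i = σ i :=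
  Function.update_of_ne h.symm _ _

lemma fl_one (l : Fin n) : fl (one n) l l = false := by simp [fl, Pl.one]

lemma one_ap (l : Fin n) : one n l = true := rfl

/-- first order term -/
def L1 (φ : E m → ℝ) (x y : E m) : ℝ := ∑ a, pd a φ x * (y a - x a)
/-- second order term -/
def L2 (φ : E m → ℝ) (x y : E m) : ℝ := ∑ a, ∑ a', pd a (pd a' φ) x * ((y a - x a) * (y a' - x a'))

lemma L1_self (φ : E m → ℝ) (x : E m) : L1 φ x x = 0 := by simp [L1]
lemma L2_self (φ : E m → ℝ) (x : E m) : L2 φ x x = 0 := by simp [L2]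

lemma cont : ∀ {k : ℕ} {φ : E m → ℝ}, Tm k φ → Continuous φ
  | 0, _, h => h.1
  | _ + 1, _, h => h.1.cont

section tay
variable {X : Fm m} (hT : TayStmt) (h : Net β ρ X) (I : ∀ n, T n → Finset (Fin n))
  (i k : ∀ n, T n → Fin n) {φ : E m → ℝ}
include h

lemma b0 (σ : ∀ n, T n → Cube n) (a : Fin m) :
    Ob (PP β ρ) (rt 0) A fun n t ω => X n (I n t) (i n t) (σ n t) ω a :=
  (h.B a).reindex (fun n t => ⟨I n t, σ n t, i n t, i n t, i n t⟩) fun _ _ _ => trivial

lemma d1 (hA : ∀ n t, A n t → k n t ≠ i n t) (a : Fin m) : Ob (PP β ρ) (rt (-1)) A fun n t ω =>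
    X n (I n t) (i n t) (fl (one n) (k n t)) ω a - X n (I n t) (i n t) (one n) ω a :=
  ((h.F a).reindex (fun n t => ⟨I n t, one n, i n t, i n t, k n t⟩) hA).neg.congr'
    fun _ _ _ => neg_sub _ _

include hT

lemma t0 (hφ : Tm 0 φ) : Ob (PP β ρ) (rt 0) A fun n t ω => φ (X n (I n t) (i n t) (one n) ω) :=
  (hT β ρ T A m φ _ (b0 h I i fun n _ => one n)).1 hφ

variable (hA : ∀ n t, A n t → k n t ≠ i n t)
include hA

lemma t1 (hφ : Tm 1 φ) : Ob (PP β ρ) (rt (-1)) A fun n t ω =>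
    φ (X n (I n t) (i n t) (fl (one n) (k n t)) ω) - φ (X n (I n t) (i n t) (one n) ω) :=
  ((hT β ρ T A m φ _ (b0 h I i fun n _ => one n)).2 _ _ (b0 h I i fun n t => fl (one n) (k n t))
    (d1 h I i k hA)).1 hφ

lemma t2 (hφ : Tm 2 φ) : Ob (PP β ρ) (rt (-2)) A fun n t ω =>
    φ (X n (I n t) (i n t) (fl (one n) (k n t)) ω) - φ (X n (I n t) (i n t) (one n) ω) -
      L1 φ (X n (I n t) (i n t) (one n) ω) (X n (I n t) (i n t) (fl (one n) (k n t)) ω) :=
  (((hT β ρ T A m φ _ (b0 h I i fun n _ => one n)).2 _ _ (b0 h I i fun n t => fl (one n) (k n t))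
    (d1 h I i k hA)).2.1 hφ).powR

lemma t3 (hφ : Tm 3 φ) : Ob (PP β ρ) (rt (-3)) A fun n t ω =>
    φ (X n (I n t) (i n t) (fl (one n) (k n t)) ω) - φ (X n (I n t) (i n t) (one n) ω) -
      L1 φ (X n (I n t) (i n t) (one n) ω) (X n (I n t) (i n t) (fl (one n) (k n t)) ω) -
      L2 φ (X n (I n t) (i n t) (one n) ω) (X n (I n t) (i n t) (fl (one n) (k n t)) ω) / 2 :=
  (((hT β ρ T A m φ _ (b0 h I i fun n _ => one n)).2 _ _ (b0 h I i fun n t => fl (one n) (k n t))
    (d1 h I i k hA)).2.2 hφ).powR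

lemma l1 (hφ : ∀ a, Tm 0 (pd a φ)) : Ob (PP β ρ) (rt (-1)) A fun n t ω =>
    L1 φ (X n (I n t) (i n t) (one n) ω) (X n (I n t) (i n t) (fl (one n) (k n t)) ω) :=
  Ob.fsum fun a => (t0 hT h I i (hφ a)).mul_left (d1 h I i k hA a)

end tay

lemma ob_pk (I : ∀ n, T n → Finset (Fin n)) (k : ∀ n, T n → Fin n) :
    Ob (PP β ρ) (rt 0) A fun n t ω => pk β ρ (I n t) (k n t) (one n) ω :=
  Ob.bdd (fun _ _ => measurable_pk _ _ _ _ _) 1 (.of_forall fun _ _ _ _ => abs_pk_le _ _ _ _ _ _)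

lemma sumP (S : ∀ n, T n → Finset (Fin n)) {Z : ∀ n, T n × Fin n → Env n → ℝ}
    (h : Ob (PP β ρ) (rt (-3)) (fun n (p : T n × Fin n) => A n p.1 ∧ p.2 ∈ S n p.1) Z) :
    Oo (PP β ρ) A fun n t ω => ∑ l ∈ S n t, Z n (t, l) ω :=
  (Ob.sumR (p := -3) (s := -1) S (Z := fun n t l => Z n (t, l)) h).oo

lemma meas_Gm (I : Finset (Fin n)) {f g : Cube n → Env n → ℝ} (hf : ∀ σ, Measurable (f σ))
    (hg : ∀ σ, Measurable (g σ)) (σ : Cube n) :
    Measurable fun ω => Gm β ρ I (fun σ => f σ ω) (fun σ => g σ ω) σ ω :=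
  Finset.measurable_sum _ fun _ _ => (measurable_pk _ _ _ _ _).mul
    (((hf _).sub (hf _)).mul ((hg _).sub (hg _)))

lemma meas_nL (I : Finset (Fin n)) {f : Cube n → Env n → ℝ} (hf : ∀ σ, Measurable (f σ))
    (σ : Cube n) : Measurable fun ω => nL β ρ I (fun σ => f σ ω) σ ω :=
  Finset.measurable_sum _ fun _ _ => (measurable_pk _ _ _ _ _).mul ((hf _).sub (hf _))

lemma sum3 {ι κ κ' : Type*} [Fintype κ] [Fintype κ'] (S : Finset ι) (f : ι → κ → κ' → ℝ) :
    ∑ k ∈ S, ∑ a, ∑ a', f k a a' = ∑ a, ∑ a', ∑ k ∈ S, f k a a' :=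
  sum_comm.trans (sum_congr rfl fun _ _ => sum_comm)

variable {b : Bath} {X : Fm b.m}

lemma gm_lin (h : X0 β ρ b X) (φ ψ : E b.m → ℝ) (I : Finset (Fin n)) (i j : Fin n) (ω : Env n) :
    ∑ k ∈ (I.erase i).erase j, pk β ρ I k (one n) ω *
      (L1 φ (X n I i (one n) ω) (X n I i (fl (one n) k) ω) *
        L1 ψ (X n I j (one n) ω) (X n I j (fl (one n) k) ω)) =
    ∑ a, ∑ a', pd a φ (X n I i (one n) ω) * pd a' ψ (X n I j (one n) ω) *
      Gm β ρ I (fun σ => X n I i σ ω a) (fun σ => X n I j σ ω a') (one n) ω := by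
  rw [sum_subset ((erase_subset _ _).trans (erase_subset _ _)) fun k hk hk' => by
    by_cases h1 : k = j
    · rw [h1, h.ind, L1_self, mul_zero, mul_zero]
    · obtain rfl : k = i := by_contra fun h2 => hk' (mem_erase.2 ⟨h1, mem_erase.2 ⟨h2, hk⟩⟩)
      rw [h.ind, L1_self, zero_mul, mul_zero]]
  simp only [L1, Gm, sum_mul_sum]
  simp only [mul_sum]
  rw [sum3]
  exact sum_congr rfl fun _ _ => sum_congr rfl fun _ _ => sum_congr rfl fun _ _ => by ring

lemma core (hT : TayStmt) (hS : SmStmt) (h : X0 β ρ b X) {φ ψ : E b.m → ℝ} (hφ : Tm 2 φ)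
    (hψ : Tm 2 ψ) (I : ∀ n, T n → Finset (Fin n)) (i j : ∀ n, T n → Fin n) :
    Oo (PP β ρ) A fun n t ω => ∑ k ∈ ((I n t).erase (i n t)).erase (j n t),
      pk β ρ (I n t) k (one n) ω *
        ((φ (X n (I n t) (i n t) (one n) ω) - φ (X n (I n t) (i n t) (fl (one n) k) ω)) *
          (ψ (X n (I n t) (j n t) (one n) ω) - ψ (X n (I n t) (j n t) (fl (one n) k) ω))) -
      ∑ a, ∑ a', pd a φ (X n (I n t) (i n t) (one n) ω) * pd a' ψ (X n (I n t) (j n t) (one n) ω) *
        Gm β ρ (I n t) (fun σ => X n (I n t) (i n t) σ ω a) (fun σ => X n (I n t) (j n t) σ ω a')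
          (one n) ω := by
  have hi : ∀ n (p : T n × Fin n), A n p.1 ∧ p.2 ∈ ((I n p.1).erase (i n p.1)).erase (j n p.1) →
      p.2 ≠ i n p.1 := fun n p hp => ne_of_mem_erase (mem_of_mem_erase hp.2)
  have hj : ∀ n (p : T n × Fin n), A n p.1 ∧ p.2 ∈ ((I n p.1).erase (i n p.1)).erase (j n p.1) →
      p.2 ≠ j n p.1 := fun n p hp => ne_of_mem_erase hp.2
  have a1 := (t2 hT h.net (T := fun n => T n × Fin n) (fun n p => I n p.1) (fun n p => i n p.1)
    (fun n p => p.2) hi hφ).mulR (t1 hT h.net (T := fun n => T n × Fin n) (fun n p => I n p.1)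
      (fun n p => j n p.1) (fun n p => p.2) hj (hS.mono _ _ _ hψ)) (s := -3)
  have a2 := (l1 hT h.net (T := fun n => T n × Fin n) (fun n p => I n p.1) (fun n p => i n p.1)
    (fun n p => p.2) hi fun a => hS.mono _ _ _ (hφ.2 a)).mulR (t2 hT h.net
      (T := fun n => T n × Fin n) (fun n p => I n p.1) (fun n p => j n p.1) (fun n p => p.2) hj hψ)
      (s := -3)
  have a3 := (ob_pk (T := fun n => T n × Fin n) (fun n p => I n p.1) fun n p => p.2).mul_left
    (a1.add a2)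
  refine (sumP (fun n t => ((I n t).erase (i n t)).erase (j n t)) a3).congr' fun n t ω => ?_
  rw [← gm_lin h, ← sum_sub_distrib]
  exact sum_congr rfl fun _ _ => by ring

lemma site (h : X0 β ρ b X) (I : Finset (Fin n)) (i : Fin n) (ω : Env n) :
    pk β ρ I i (one n) ω = hb (fld b 0 (X n I i (one n) ω)) false := by rw [pk, h.fld]; rfl

lemma meas_loc (h : X0 β ρ b X) {F : Bool → E b.m → ℝ} (hF : ∀ s, Continuous (F s))
    (I : Finset (Fin n)) (i : Fin n) (σ : Cube n) : Measurable fun ω => F (σ i) (X n I i σ ω) :=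
  (hF _).measurable.comp (h.net.meas _ _ _ _)

lemma add2 {I : Finset (Fin n)} {i j : Fin n} (hi : i ∈ I) (hj : j ∈ I) (hij : i ≠ j)
    (f : Fin n → ℝ) : f i + f j + ∑ k ∈ (I.erase i).erase j, f k = ∑ k ∈ I, f k := by
  rw [← add_sum_erase _ _ hi, ← add_sum_erase _ _ (mem_erase.2 ⟨hij.symm, hj⟩), add_assoc]

lemma Gm_split (F G : Bool → E b.m → ℝ) {I S : Finset (Fin n)} {i j : Fin n} {ω : Env n} {c : ℝ}
    (e : c + ∑ k ∈ S, pk β ρ I k (one n) ω *
      ((F (one n i) (X n I i (one n) ω) - F (fl (one n) k i) (X n I i (fl (one n) k) ω)) *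
        (G (one n j) (X n I j (one n) ω) - G (fl (one n) k j) (X n I j (fl (one n) k) ω))) =
      Gm β ρ I (fun σ => F (σ i) (X n I i σ ω)) (fun σ => G (σ j) (X n I j σ ω)) (one n) ω)
    (hi : ∀ k ∈ S, k ≠ i) (hj : ∀ k ∈ S, k ≠ j) :
    Gm β ρ I (fun σ => F (σ i) (X n I i σ ω)) (fun σ => G (σ j) (X n I j σ ω)) (one n) ω =
      c + ∑ k ∈ S, pk β ρ I k (one n) ω *
        ((F true (X n I i (one n) ω) - F true (X n I i (fl (one n) k) ω)) *
          (G true (X n I j (one n) ω) - G true (X n I j (fl (one n) k) ω))) := by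
  rw [← e, sum_congr rfl fun k hk => by rw [fl_ne _ (hi k hk), fl_ne _ (hj k hk)]]
  rfl

theorem gam (hT : TayStmt) (hS : SmStmt) (h : X0 β ρ b X) (h2 : X2 β ρ b X) : Gam β ρ b X := by
  intro F G hF hG N
  have cF := fun s => cont (hF s)
  have cG := fun s => cont (hG s)
  have p0 : ∀ {φ : E b.m → ℝ}, Tm 2 φ → ∀ a, Tm 0 (pd a φ) := fun hφ a => hS.mono _ _ _ (hφ.2 a)
  have q0 : ∀ {φ : E b.m → ℝ}, Tm 2 φ → Tm 0 φ := fun hφ => hS.mono _ _ _ (hS.mono _ _ _ hφ)
  constructor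
  · have a1 := core (A := fun n (t : Ix n) => Big N t.I ∧ t.i ∈ t.I) hT hS h (hF true) (hG true)
      (fun _ t => t.I) (fun _ t => t.i) fun _ t => t.i
    have a2 := Oo.fsum fun a => Oo.fsum fun a' => Oo.ob_mul
      ((t0 hT h.net (T := Ix) (fun _ t => t.I) (fun _ t => t.i) (p0 (hF true) a)).mul_left
        (t0 hT h.net (T := Ix) (fun _ t => t.I) (fun _ t => t.i) (p0 (hG true) a'))) (h2.gl a a' N)
    refine (a1.add a2).congr (fun n t => (meas_Gm _ (meas_loc h cF _ _) (meas_loc h cG _ _) _).sub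
      ((cont (hS.gm b 1 F G hF hG)).measurable.comp (h.net.meas _ _ _ _)))
      (.of_forall fun n t ht ω => ?_)
    rw [Gm_split F G (add_sum_erase _ _ ht.2) (fun k hk => ne_of_mem_erase hk)
      (fun k hk => ne_of_mem_erase hk), erase_idem, gm, site h, h.ind, fl_one]
    simp only [one_ap, mul_sub _ (Gm _ _ _ _ _ _ _), sum_sub_distrib, mul_sum]
    have e : ∀ a a', pd a (F true) (X n t.I t.i (one n) ω) * pd a' (G true) (X n t.I t.i (one n) ω) *
        (2 * b.A a a') = 2 * (b.A a a' * (pd a (F true) (X n t.I t.i (one n) ω) *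
          pd a' (G true) (X n t.I t.i (one n) ω))) := fun _ _ => by ring
    simp only [e]
    ring
  · have a1 := core (A := fun n (t : Ix n) => Big N t.I ∧ t.i ∈ t.I ∧ t.j ∈ t.I ∧ t.i ≠ t.j) hT hS
      h (hF true) (hG true) (fun _ t => t.I) (fun _ t => t.i) fun _ t => t.j
    have a2 := Oo.fsum fun a => Oo.fsum fun a' => Oo.ob_mul
      ((t0 hT h.net (T := Ix) (fun _ t => t.I) (fun _ t => t.i) (p0 (hF true) a)).mul_left
        (t0 hT h.net (T := Ix) (fun _ t => t.I) (fun _ t => t.j) (p0 (hG true) a'))) (h2.go a a' N)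
    have a3 := ((ob_pk (T := Ix) (fun _ t => t.I) fun _ t => t.i).mul_left
      (((t0 hT h.net (T := Ix) (fun _ t => t.I) (fun _ t => t.i) (q0 (hF true))).sub
        (t0 hT h.net (T := Ix) (fun _ t => t.I) (fun _ t => t.i) (q0 (hF false)))).mul_left
        (t1 hT h.net (T := Ix)
          (A := fun n (t : Ix n) => Big N t.I ∧ t.i ∈ t.I ∧ t.j ∈ t.I ∧ t.i ≠ t.j)
          (fun _ t => t.I) (fun _ t => t.j) (fun _ t => t.i) (fun _ _ ht => ht.2.2.2)
          (hS.mono _ _ _ (hG true))))).oo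
    have a4 := ((ob_pk (T := Ix) (fun _ t => t.I) fun _ t => t.j).mul_left
      ((t1 hT h.net (T := Ix)
          (A := fun n (t : Ix n) => Big N t.I ∧ t.i ∈ t.I ∧ t.j ∈ t.I ∧ t.i ≠ t.j)
          (fun _ t => t.I) (fun _ t => t.i) (fun _ t => t.j) (fun _ _ ht => ht.2.2.2.symm)
          (hS.mono _ _ _ (hF true))).mul_right
        ((t0 hT h.net (T := Ix) (fun _ t => t.I) (fun _ t => t.j) (q0 (hG true))).sub
          (t0 hT h.net (T := Ix) (fun _ t => t.I) (fun _ t => t.j) (q0 (hG false)))))).oo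
    refine (((a1.add a2).sub a3).sub a4).congr
      (fun n t => meas_Gm _ (meas_loc h cF _ _) (meas_loc h cG _ _) _)
      (.of_forall fun n t ht ω => ?_)
    obtain ⟨-, hi, hj, hij⟩ := ht
    rw [Gm_split F G (add2 hi hj hij _)
      (fun k hk => ne_of_mem_erase (mem_of_mem_erase hk)) (fun k hk => ne_of_mem_erase hk),
      h.ind, h.ind, fl_one, fl_one, fl_ne _ hij, fl_ne _ hij.symm]
    simp only [one_ap]
    ring

lemma exists_dirs (U : Submodule ℝ (Fin m → ℝ)) : ∃ v : Fin m → Fin m → ℝ, (∀ c, v c ∈ U) ∧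
    ∀ u ∈ U, ∀ a, u a = ∑ c, u c * v c a := by
  obtain ⟨g, hg⟩ := U.subtype.exists_leftInverse_of_injective U.ker_subtype
  refine ⟨fun c => g fun j => if c = j then 1 else 0, fun c => (g _).2, fun u hu a => ?_⟩
  have e : (g u : Fin m → ℝ) = u := congrArg Subtype.val (LinearMap.congr_fun hg ⟨u, hu⟩)
  conv_lhs => rw [← e, LinearMap.pi_apply_eq_sum_univ g u]
  simp

theorem gen' (hT : TayStmt) (hS : SmStmt) {U : Submodule ℝ (Fin b.m → ℝ)} (h : X0 β ρ b X)
    (h2 : X2 β ρ b X) (h3 : X3 β ρ b U X) : Gen β ρ b U X := by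
  intro F hF hU N
  obtain ⟨v, hv, hv'⟩ := exists_dirs U
  have hi : ∀ n (p : Ix n × Fin n), (Big N p.1.I ∧ p.1.i ∈ p.1.I) ∧ p.2 ∈ p.1.I.erase p.1.i →
      p.2 ≠ p.1.i := fun n p hp => ne_of_mem_erase hp.2
  have a1 := sumP (A := fun n (t : Ix n) => Big N t.I ∧ t.i ∈ t.I) (fun n t => t.I.erase t.i)
    ((ob_pk (T := fun n => Ix n × Fin n) (fun n p => p.1.I) fun n p => p.2).mul_left
      (t3 hT h.net (T := fun n => Ix n × Fin n) (fun n p => p.1.I) (fun n p => p.1.i)
        (fun n p => p.2) hi (hF true)))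
  have a2 := Oo.fsum fun c => Oo.ob_mul (t0 hT h.net (T := Ix) (fun _ t => t.I) (fun _ t => t.i)
    (hS.mono _ _ _ (hS.mono _ _ _ ((hF true).2 c)))) (h3 _ (hv c) N)
  have a3 := (Oo.fsum fun a => Oo.fsum fun a' => Oo.ob_mul (t0 hT h.net (T := Ix) (fun _ t => t.I)
    (fun _ t => t.i) (hS.mono _ _ _ (((hF true).2 a').2 a))) (h2.gl a a' N)).div_const 2
  refine ((a2.sub a1).sub a3).congr (fun n t => (meas_nL _ (meas_loc h (fun s => cont (hF s)) _ _)
    _).sub ((cont (hS.aa b 0 1 F hF true)).measurable.comp (h.net.meas _ _ _ _)))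
    (.of_forall fun n t ht ω => ?_)
  set x := X n t.I t.i (one n) ω with hx
  have g1 := hv' _ (hU true x)
  have e1 : ∑ c, pd c (F true) x * nL β ρ t.I (fun σ => ∑ a, v c a * X n t.I t.i σ ω a) (one n) ω =
      -∑ k ∈ t.I.erase t.i, pk β ρ t.I k (one n) ω * L1 (F true) x (X n t.I t.i (fl (one n) k) ω) := by
    rw [sum_erase _ (by rw [h.ind, ← hx, L1_self, mul_zero]), ← sum_neg_distrib]
    simp only [nL, mul_sum, ← sum_sub_distrib, L1, ← sum_neg_distrib]
    rw [sum_comm]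
    refine sum_congr rfl fun k _ => sum_comm.trans (sum_congr rfl fun a _ => ?_)
    rw [g1 a, sum_mul, mul_sum, ← sum_neg_distrib]
    exact sum_congr rfl fun c _ => by rw [← hx]; ring
  have e2 : ∑ c, pd c (F true) x * ∑ a, (b.A *ᵥ v c) a * (x a - b.g a) =
      ∑ a, ∑ a', b.A a a' * (pd a' (F true) x * (x a - b.g a)) := by
    simp only [mulVec, dotProduct, mul_sum, sum_mul]
    rw [sum3]
    refine sum_congr rfl fun a _ => sum_congr rfl fun a' _ => ?_
    rw [g1 a', sum_mul, mul_sum]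
    exact sum_congr rfl fun c _ => by ring
  have e3 : ∑ a, ∑ a', pd a (pd a' (F true)) x *
      Gm β ρ t.I (fun σ => X n t.I t.i σ ω a) (fun σ => X n t.I t.i σ ω a') (one n) ω =
      ∑ k ∈ t.I.erase t.i, pk β ρ t.I k (one n) ω * L2 (F true) x (X n t.I t.i (fl (one n) k) ω) := by
    rw [sum_erase _ (by rw [h.ind, ← hx, L2_self, mul_zero])]
    simp only [Gm, L2, mul_sum]
    rw [sum3]
    exact sum_congr rfl fun _ _ => sum_congr rfl fun _ _ => sum_congr rfl fun _ _ => by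
      rw [← hx]; ring
  have e4 : ∀ k, pk β ρ t.I k (one n) ω * (F true (X n t.I t.i (fl (one n) k) ω) - F true x -
      L1 (F true) x (X n t.I t.i (fl (one n) k) ω) - L2 (F true) x (X n t.I t.i (fl (one n) k) ω) / 2) =
      -(pk β ρ t.I k (one n) ω * (F true x - F true (X n t.I t.i (fl (one n) k) ω))) -
        pk β ρ t.I k (one n) ω * L1 (F true) x (X n t.I t.i (fl (one n) k) ω) -
        pk β ρ t.I k (one n) ω * L2 (F true) x (X n t.I t.i (fl (one n) k) ω) / 2 := fun k => by ring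
  have e5 : ∀ a a', pd a (pd a' (F true)) x * (2 * b.A a a') =
      2 * (b.A a a' * pd a (pd a' (F true)) x) := fun _ _ => by ring
  have e6 := hb_sum (fld b 0 x)
  dsimp only
  simp only [← hx, e4, mul_sub (pd _ _ x) (nL _ _ _ _ _ _), mul_sub (pd _ _ x) (Gm _ _ _ _ _ _ _),
    sum_sub_distrib, e1, e2, e3, e5, ← mul_sum, sum_neg_distrib, ← sum_div]
  have e7 : ∑ k ∈ t.I.erase t.i, pk β ρ t.I k (one n) ω * (F (one n t.i) x -
      F (fl (one n) k t.i) (X n t.I t.i (fl (one n) k) ω)) = ∑ k ∈ t.I.erase t.i,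
      pk β ρ t.I k (one n) ω * (F true x - F true (X n t.I t.i (fl (one n) k) ω)) :=
    sum_congr rfl fun k hk => by rw [fl_ne _ (ne_of_mem_erase hk)]; rfl
  rw [nL, ← add_sum_erase _ _ ht.2, ← hx, e7, site h, h.ind, fl_one, AA, Fintype.sum_bool]
  simp only [one_ap, ← hx, sg, if_true, one_mul, mul_sub (b.A _ _), sum_sub_distrib]
  linear_combination -F true x * e6

end G80

theorem gamGlue : GamGlue := fun hT hS _ _ _ _ h h2 => G80.gam hT hS h h2

theorem genGlue : GenGlue := fun hT hS _ _ _ _ _ h h2 h3 => G80.gen' hT hS h h2 h3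

end Crest.Agent.T157.Rn

end
end

-- ▼ part T157/RnLam_77
section

/-!
# Row 157, block B/R (helper77): the rate `lam` is positive
-/

set_option autoImplicit false
set_option linter.all false

noncomputable section

namespace Crest.Agent.T157.Rn

open MeasureTheory ProbabilityTheory Real Matrix Filter Topology
open Crest.ProbabilityR.SpinGlassDynamics
open Crest.Agent.R238.Gap Crest.Agent.R238.GapPc Crest.Agent.R253.Meh74
open Crest.Agent.T157.E (Cube gv mean gen dir2 var dir prob)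
open Crest.Agent.T157.Tw

namespace L77

lemma dot0 (u v : Fin 0 → ℝ) : u ⬝ᵥ v = 0 := by simp [dotProduct]

/-- the same coupling with another matrix -/
abbrev wA (t : Bath) (A : Matrix (Fin t.m) (Fin t.m) ℝ) (hA : A.PosSemidef) : Bath :=
  ⟨t.m, A, t.g, hA⟩

lemma En_mono (t : Bath) {A : Matrix (Fin t.m) (Fin t.m) ℝ} (hA : A.PosSemidef)
    (h : ∀ u, u ⬝ᵥ A *ᵥ u ≤ u ⬝ᵥ t.A *ᵥ u) (F : CV t.m) :
    (imp (wA t A hA) 0).En F F ≤ (imp t 0).En F F := by
  have e1 : bathL (wA t A hA) 0 F F = ex t 0 fun s => O42.be A (F.1 s) (F.1 s) :=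
    O42.bath_ex (wA t A hA) 0 F F
  have e2 : (imp (wA t A hA) 0).En F F =
      spinL t 0 (inc _ F) (inc _ F) + bathL (wA t A hA) 0 F F := rfl
  rw [e2, e1, O42.imp_En, O42.bath_ex, add_le_add_iff_left, ← sub_nonneg,
    ← O42.ex_sub t 0 (O42.be_cp _ F F) (O42.be_cp _ F F)]
  refine O42.ex_nonneg t 0 fun s X => ?_
  simp only [Pi.sub_apply, O42.be_eq]
  exact sub_nonneg.2 (h _)

lemma mean_odd {n : ℕ} (β : ℝ) (g : Pair n → ℝ) {f : Cube n → ℝ}
    (hf : ∀ σ, f (fun k => !σ k) = -f σ) : mean (gibbsWeight n β g) f = 0 := by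
  let e : Cube n ≃ Cube n := Function.Involutive.toPerm (fun σ k => !σ k) fun σ => by
    funext k; simp
  have hs : ∀ b, spin (!b) = -spin b := fun b => by cases b <;> simp [spin]
  have hw : ∀ σ, gibbsWeight n β g (e σ) = gibbsWeight n β g σ := fun σ => by
    show gibbsWeight n β g (fun k => !σ k) = _
    simp [gibbsWeight, hs]
  have h : mean (gibbsWeight n β g) f = -mean (gibbsWeight n β g) f := by
    conv_lhs => rw [mean, ← e.sum_comp]
    rw [mean, ← Finset.sum_neg_distrib]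
    refine Finset.sum_congr rfl fun σ _ => ?_
    have : f (e σ) = -f σ := hf σ
    rw [prob, hw, this, prob]; ring
  linarith

lemma poin_of (hO : OutStmt) {β C : ℝ} (h0 : 0 ≤ β) (h1 : β < 1) (hC0 : 0 ≤ C)
    (hC : Top.Whp disorderLaw fun n g => Top.Poin (gibbsWeight n β g) C) {b : Bath}
    {U : Submodule ℝ (Fin b.m → ℝ)} (hx : XT β 0 b U) {F : CV b.m} (hF : F ∈ Od b.m)
    (hs : ∀ s, Sm (F.1 s)) : (imp b 0).N F F ≤ C * (imp b 0).En F F := by
  obtain ⟨Y, hY⟩ := hO β h0 h1 b U hx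
  refine le_of_forall_pos_le_add fun ε hε => ?_
  have hδ : 0 < ε / (1 + C) := by positivity
  have hw := ((hY.N F hF F hF hs hs _ hδ).and (hY.En F hF F hF hs hs _ hδ)).and hC
  obtain ⟨n, hn⟩ := (hw.one.eventually (lt_mem_nhds (zero_lt_one' ENNReal))).exists
  obtain ⟨g, ⟨a1, a2⟩, a3⟩ := nonempty_of_measure_ne_zero hn.ne'
  have key : (∑ i, mean (gibbsWeight n β g) fun σ =>
      F.1 (σ i) (Y n g i σ) * F.1 (σ i) (Y n g i σ)) ≤ C * ∑ i, dir2 (gibbsWeight n β g)
        (fun σ => F.1 (σ i) (Y n g i σ)) fun σ => F.1 (σ i) (Y n g i σ) := by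
    rw [Finset.mul_sum]
    refine Finset.sum_le_sum fun i _ => ?_
    have m0 : mean (gibbsWeight n β g) (fun σ => F.1 (σ i) (Y n g i σ)) = 0 :=
      mean_odd β g fun σ => by simp only [hY.odd]; exact hF _ _
    have := a3 fun σ => F.1 (σ i) (Y n g i σ)
    simp only [var, m0, sub_zero, dir, sq] at this
    exact this
  have k2 := div_le_div_of_nonneg_right key (Nat.cast_nonneg (α := ℝ) n)
  rw [mul_div_assoc] at k2
  have b1 := (abs_le.1 a1).1
  have b2 := mul_le_mul_of_nonneg_left (abs_le.1 a2).2 hC0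
  have e : ε / (1 + C) * (1 + C) = ε := by field_simp
  nlinarith

lemma exact_zero (b b' : Bath) (c : Fin b'.m → ℝ) (f : Fin b'.m → CV b.m) :
    Exact b b' ⊥ c f 0 := by
  have e : (∑ a, (0 : Fin b'.m → ℝ) a • f a) = 0 := by simp
  have p0 : ∀ (a : Fin b.m) (X : E b.m), pd a (fun _ => (0 : ℝ)) X = 0 := fun a X => by simp [pd]
  have p1 : ∀ a : Fin b.m, pd a (fun _ : E b.m => (0 : ℝ)) = fun _ => 0 := fun a => funext (p0 a)
  refine ⟨fun s X => ?_, by simp, fun s X => ?_⟩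
  · rw [e]; exact funext fun a => p0 a X
  · rw [e]
    show _ = AA b 0 (fun _ _ => 0) s X
    simp [AA, p1]

/-- the invariant of the induction -/
def Inv (β C : ℝ) (t : Bath) : Prop := t = Bath.nil ∨
  ∃ (A : Matrix (Fin t.m) (Fin t.m) ℝ) (hA : A.PosSemidef), (∀ u, u ⬝ᵥ A *ᵥ u ≤ u ⬝ᵥ t.A *ᵥ u) ∧
    XT β 0 (wA t A hA) ⊥ ∧ ∀ u, u ⬝ᵥ u ≤ C * (u ⬝ᵥ A *ᵥ u)

lemma inv (ok : OkStmt) (ze : ZeroStmt) (sm : SmStmt) (md : ModelStmt) {𝒞 : Cls}
    (h𝒞 : ∀ m, 𝒞.C m = PV m) {β C : ℝ}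
    (hP : ∀ (b : Bath), XT β 0 b ⊥ → ∀ F ∈ Od b.m, (∀ s, Sm (F.1 s)) →
      (imp b 0).N F F ≤ C * (imp b 0).En F F) {t : Bath} (ht : Tw0 𝒞 β t) : Inv β C t := by
  induction ht with
  | nil => exact .inl rfl
  | @step b b' f _ hf hc hs ih =>
    have od : ∀ k, f k ∈ Od b.m := fun k => (hf k).2
    have pv : ∀ k, f k ∈ PV b.m := fun k => h𝒞 b.m ▸ (hf k).1
    have z := (md b _ ((Od b.m).sub_mem (sp_odd _) (emb_mem od _))).1 ((inSp_iff f _).1 hs)
    have g' : co (imp b 0) f (sp _) = b'.g := hc.co_σ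
    rw [g', sub_eq_zero, emb_apply] at z
    have hsp : ∀ s X, ∑ k, b'.g k * (f k).1 s X = sg s := fun s X => by
      have := congrArg (fun F : CV b.m => F.1 s X) z
      simp only [Submodule.coe_sum, Finset.sum_apply, Submodule.coe_smul, Pi.smul_apply,
        smul_eq_mul] at this
      exact this.symm
    have n1 : ∀ b : Bath, (imp b 0).N (sp _) (sp _) = 1 := fun b => by
      rw [(ok b 0).2.1, sech2_zero]
    right
    rcases ih with rfl | ⟨A, hA, h1, h2, -⟩
    · have X0 : ∀ X : E Bath.nil.m, X = 0 := fun X => by ext i; exact i.elim0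
      have fe : ∀ k, f k = (f k).1 true 0 • sp _ := fun k => Subtype.ext (funext fun s =>
        funext fun X => by
          have := od k true 0
          rw [X0 (-0)] at this
          rw [X0 X]
          cases s
          · show _ = (f k).1 true 0 * sg false
            simp only [Bool.not_true] at this
            rw [this]; simp [sg]
          · show _ = (f k).1 true 0 * sg true
            simp [sg])
      generalize hα : (fun k => (f k).1 true 0) = α at fe
      have fe' : ∀ k, f k = α k • sp _ := fun k => by rw [← hα]; exact fe k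
      have hg : ∀ k, b'.g k = α k := fun k => by
        rw [← hc.g, fe' k, map_smul, smul_eq_mul]
        exact (congrArg _ (n1 _)).trans (mul_one _)
      have on : ∀ k l, α k * α l = if k = l then 1 else 0 := fun k l => by
        rw [← hc.on, fe' k, fe' l]
        simp only [map_smul, LinearMap.smul_apply, smul_eq_mul, n1]; ring
      have s1 : ∑ k, α k * α k = 1 := by
        have := hsp true 0
        simp only [hg] at this
        rw [← hα] at this ⊢
        exact this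
      have he : 1 ≤ (imp Bath.nil 0).En (sp _) (sp _) := by
        have := ze Bath.nil 0 rfl (fun u => ((one_mul _).trans ((dot0 u _).trans (dot0 u _).symm)).le) (sp _)
        rw [Pre.Q, n1] at this
        linarith
      have hA' : b'.A = (imp Bath.nil 0).En (sp _) (sp _) • (1 : Matrix _ _ ℝ) := by
        ext k l
        rw [← hc.en, fe' k, fe' l]
        simp only [map_smul, LinearMap.smul_apply, smul_eq_mul, Matrix.smul_apply, one_apply,
          ← on]
        ring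
      obtain ⟨κ, hκ⟩ : ∃ κ, κ = (imp (wA (b'.scale β) 0 .zero) 0).En (sp _) (sp _) := ⟨_, rfl⟩
      have k0 : 0 ≤ κ := hκ ▸ (ok _ 0).1.pE _
      have k1 : κ ≤ 1 := hκ ▸ (ok _ 0).2.2
      have hA : (κ • (1 : Matrix (Fin b'.m) (Fin b'.m) ℝ)).PosSemidef := PosSemidef.one.smul k0
      have ke : (imp (wA (b'.scale β) (κ • 1) hA) 0).En (sp _) (sp _) = κ :=
        (md (wA (b'.scale β) (κ • 1) hA) _ (sp_odd _)).2.1.trans
          (hκ.trans (md (wA (b'.scale β) 0 .zero) _ (sp_odd _)).2.1).symm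
      have xt : XT β 0 (wA (b'.scale β) (κ • 1) hA) ⊥ := by
        refine .base (c := 0) (α := α) ⟨fun (a a' : Fin b'.m) => ?_, fun (a : Fin b'.m) => ?_, ?_,
          dotProduct_zero _, fun _ => rfl, fun (a a' : Fin b'.m) => ?_⟩
        · show 0 * 0 + α a * α a' = _
          rw [zero_mul, zero_add]; exact on a a'
        · show 0 * 0 + β * α a = β * b'.g a
          rw [hg]; ring
        · show ∑ k, β * b'.g k * α k = β
          simp only [hg, mul_assoc, ← Finset.mul_sum, s1, mul_one]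
        · refine Eq.trans ?_ (congrArg (α a * α a' * ·) ke.symm)
          show κ * (1 : Matrix (Fin b'.m) (Fin b'.m) ℝ) a a' = α a * α a' * κ
          rw [one_apply, on, mul_comm]
      have hk := hP _ xt _ (sp_odd _) fun s k => sm.const _ k _
      rw [n1, ke] at hk
      have q : ∀ (x : ℝ) (u : Fin b'.m → ℝ),
          u ⬝ᵥ (x • (1 : Matrix (Fin b'.m) (Fin b'.m) ℝ)) *ᵥ u = x * (u ⬝ᵥ u) := fun x u => by
        rw [smul_mulVec, one_mulVec, dotProduct_smul, smul_eq_mul]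
      have p : ∀ u : Fin b'.m → ℝ, 0 ≤ u ⬝ᵥ u := fun u => by
        simpa using dotProduct_star_self_nonneg u
      have r1 : ∀ u : Fin b'.m → ℝ,
          u ⬝ᵥ (κ • (1 : Matrix (Fin b'.m) (Fin b'.m) ℝ)) *ᵥ u ≤ u ⬝ᵥ b'.A *ᵥ u := fun u => by
        rw [hA', q, q]
        exact mul_le_mul_of_nonneg_right (k1.trans he) (p u)
      have r2 : ∀ u : Fin b'.m → ℝ,
          u ⬝ᵥ u ≤ C * (u ⬝ᵥ (κ • (1 : Matrix (Fin b'.m) (Fin b'.m) ℝ)) *ᵥ u) := fun u => by
        rw [q]
        nlinarith [p u]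
      exact ⟨_, hA, r1, xt, r2⟩
    · obtain ⟨A', hA'⟩ : ∃ A' : Matrix (Fin b'.m) (Fin b'.m) ℝ,
          A' = Matrix.of fun k l => (imp (wA b A hA) 0).En (f k) (f l) := ⟨_, rfl⟩
      have q : ∀ u, u ⬝ᵥ A' *ᵥ u = (imp (wA b A hA) 0).En (emb f u) (emb f u) := fun u => by
        rw [hA']; exact (bil_emb2 (imp (wA b A hA) 0).En f u u).symm
      have ps : A'.PosSemidef := .of_dotProduct_mulVec_nonneg
        (by ext k l; rw [hA']; exact (ok (wA b A hA) 0).1.sE _ _) fun u => by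
          rw [star_trivial, q]; exact (ok (wA b A hA) 0).1.pE _
      have r1 : ∀ u : Fin b'.m → ℝ, u ⬝ᵥ A' *ᵥ u ≤ u ⬝ᵥ b'.A *ᵥ u := fun u => by
        rw [q, ← hc.En_emb]
        exact En_mono b hA h1 _
      have r2 : ∀ u : Fin b'.m → ℝ, u ⬝ᵥ u ≤ C * (u ⬝ᵥ A' *ᵥ u) := fun u => by
        rw [q, ← hc.N_emb]
        exact hP _ h2 _ (emb_mem od u) (sm.pv _ _ (emb_mem pv u))
      refine ⟨A', ps, r1, ?_, r2⟩
      refine .step (b := wA b A hA) (c := 0) (f := f) h2 ⟨fun a => sm.pv _ _ (pv a), od,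
        fun (a a' : Fin b'.m) => ?_, fun (a a' : Fin b'.m) => (congrFun₂ hA' a a').symm,
        fun (a : Fin b'.m) => ?_, fun s X => ?_, dotProduct_zero _, fun _ => rfl⟩ fun v hv => ?_
      · exact ((congrArg (· + _) (zero_mul 0)).trans (zero_add _)).trans (hc.on a a')
      · exact ((congrArg (· + _) (zero_mul 0)).trans (zero_add _)).trans (congrArg (β * ·) (hc.g a))
      · show ∑ a : Fin b'.m, β * b'.g a * (f a).1 s X = _
        simp only [mul_assoc, ← Finset.mul_sum]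
        exact congrArg (β * ·) (hsp s X)
      · obtain rfl : v = 0 := hv
        exact exact_zero _ _ _ _

end L77

theorem lamPosGlue : LamPosGlue := by
  intro ok ze sm md hO hP 𝒞 h𝒞 β h0 h1
  obtain ⟨C, hC⟩ := hP β h0 h1
  have d0 : ∀ n (g : Pair n → ℝ) f, 0 ≤ dir (gibbsWeight n β g) f := fun n g f =>
    Finset.sum_nonneg fun i _ => Finset.sum_nonneg fun x _ => mul_nonneg
      (div_nonneg (exp_pos _).le (Finset.sum_nonneg fun _ _ => (exp_pos _).le)) (sq_nonneg _)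
  have hC' : Top.Whp disorderLaw fun n g => Top.Poin (gibbsWeight n β g) (|C| + 1) :=
    hC.imp fun n g h f => (h f).trans
      (mul_le_mul_of_nonneg_right (by linarith [le_abs_self C]) (d0 n g f))
  have c0 : 0 < |C| + 1 := by positivity
  refine (inv_pos.2 c0).trans_le (le_csInf ?_ ?_)
  · obtain ⟨b, f, hc, -, ht, hs, -⟩ := (Tw0.nil : Tw0 𝒞 β _).next ok Set.finite_empty
      (Set.empty_subset _)
    refine ⟨_, b.scale β, ht, co (imp Bath.nil 0) f (sp _), ?_, rfl⟩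
    exact (hc.N_co (ok _ 0).1 hs).trans ((ok _ 0).2.1.trans sech2_zero)
  · rintro _ ⟨t, ht, u, hu, rfl⟩
    rcases L77.inv ok ze sm md h𝒞 (fun b hx F hF hs => L77.poin_of hO h0 h1 c0.le hC' hx hF hs) ht
      with rfl | ⟨A, hA, a1, -, a2⟩
    · exact absurd ((L77.dot0 u u).symm.trans hu) zero_ne_one
    · have := (a2 u).trans (mul_le_mul_of_nonneg_left (a1 u) c0.le)
      rw [hu] at this
      rwa [inv_le_iff_one_le_mul₀' c0]

end Crest.Agent.T157.Rn

end
end

-- ▼ part T157/RnLin_49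
section

/-!
# Row 157, block B/R (helper49): linear and quadratic forms in a row (`LinStmt`, `QuadStmt`)
-/

set_option autoImplicit false

noncomputable section

namespace Crest.Agent.T157.Rn

open MeasureTheory ProbabilityTheory Real Filter Topology
open Crest.Agent.R238.Gap Crest.Agent.R238.GapPc Crest.Agent.R253.Meh74
open scoped NNReal ENNReal

namespace L49

variable {n : ℕ}

/-! ### the order calculus: square roots, small first moments -/

section order
variable {Ω : ℕ → Type} [∀ n, MeasurableSpace (Ω n)] {T : ℕ → Type} {P : ∀ n, Measure (Ω n)}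
  {a : ℕ → ℝ} {A : ∀ n, T n → Prop} {X : ∀ n, T n → Ω n → ℝ}

theorem ob_sqrt [∀ n, IsProbabilityMeasure (P n)] (h : Ob P (fun n => a n ^ 2) A X) :
    Ob P a A fun n t ω => √(X n t ω) :=
  ⟨fun n t => (h.1 n t).sqrt, fun q => by
    obtain ⟨C, hC⟩ := h.2 q
    refine ⟨NNReal.sqrt C, hC.mono fun n hn t ht => ?_⟩
    have h1 := eLpNorm_norm_rpow (p := (q : ℝ≥0∞)) (μ := P n) (fun ω => √(X n t ω)) (q := 2) two_pos
    have h2 : eLpNorm (fun ω => ‖√(X n t ω)‖ ^ (2 : ℝ)) q (P n) ≤ eLpNorm (X n t) q (P n) :=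
      eLpNorm_mono fun ω => by
        rw [Real.norm_eq_abs, Real.norm_eq_abs, Real.norm_eq_abs, Real.rpow_two, sq_abs, abs_sq,
          Real.sq_sqrt']
        exact max_le (le_abs_self _) (abs_nonneg _)
    have h3 : eLpNorm (fun ω => √(X n t ω)) q (P n) ≤
        eLpNorm (fun ω => √(X n t ω)) (q * ENNReal.ofReal 2) (P n) :=
      eLpNorm_le_eLpNorm_of_exponent_le (le_mul_of_one_le_right' (by simp))
        (h.1 n t).sqrt.aestronglyMeasurable
    refine h3.trans ((ENNReal.rpow_le_rpow_iff two_pos).1 ?_)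
    rw [← h1]
    refine (h2.trans (hn t ht)).trans (le_of_eq ?_)
    rw [ENNReal.rpow_two, mul_pow, ← ENNReal.coe_pow, NNReal.sq_sqrt, enorm_pow]⟩

theorem oo_sqrt [∀ n, IsProbabilityMeasure (P n)] (h : Oo P A X) :
    Oo P A fun n t ω => √(X n t ω) := by
  obtain ⟨d, hd, h⟩ := h
  refine ⟨fun n => √|d n|, by simpa using hd.abs.sqrt, ob_sqrt (h.mono 1 (.of_forall fun n => ?_))⟩
  rw [sq_sqrt (abs_nonneg _), abs_abs, one_mul]

theorem oo_of_l1 [∀ n, IsProbabilityMeasure (P n)] (hX : Ob P (rt 0) A X)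
    (h : ∀ ε : ℝ≥0∞, 0 < ε → ∀ᶠ n in atTop, ∀ t, A n t → eLpNorm (X n t) 1 (P n) ≤ ε) :
    Oo P A X := by
  refine Oo.of_prob hX fun η hη ε hε => ?_
  have h0 : ENNReal.ofReal η ≠ 0 := by simpa using hη
  filter_upwards [h _ (ENNReal.mul_pos h0 hε.ne')] with n hn t ht
  have h1 := mul_meas_ge_le_lintegral₀ (μ := P n) (hX.meas n t).enorm.aemeasurable
    (ENNReal.ofReal η)
  have h2 := hn t ht
  rw [eLpNorm_one_eq_lintegral_enorm] at h2
  refine le_trans (measure_mono fun ω hω => ?_)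
    ((ENNReal.mul_le_mul_iff_right h0 ENNReal.ofReal_ne_top).1 (h1.trans h2))
  simp only [Set.mem_ofPred_eq] at hω ⊢
  rw [Real.enorm_eq_ofReal_abs]
  exact ENNReal.ofReal_le_ofReal hω.le

end order

/-! ### conditioning on the complement of a row -/

lemma fub {α β : Type*} [MeasurableSpace α] [MeasurableSpace β] (μ : Measure α) (ν : Measure β)
    [SFinite ν] {G : α × β → ℝ} (hG : Measurable G) {g : α → ℝ} {q : ℝ≥0∞} (hq : q ≠ ∞)
    (h : ∀ a, eLpNorm (fun b => G (a, b)) q ν ≤ ‖g a‖ₑ) :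
    eLpNorm G q (μ.prod ν) ≤ eLpNorm g q μ := by
  rcases eq_or_ne q 0 with rfl | h0
  · simp
  have hp : 0 < q.toReal := ENNReal.toReal_pos h0 hq
  rw [eLpNorm_eq_lintegral_rpow_enorm_toReal h0 hq, eLpNorm_eq_lintegral_rpow_enorm_toReal h0 hq,
    lintegral_prod _ (hG.enorm.pow_const _).aemeasurable]
  refine ENNReal.rpow_le_rpow (lintegral_mono fun a => ?_) (by positivity)
  have h1 := ENNReal.rpow_le_rpow (h a) hp.le
  rwa [eLpNorm_eq_lintegral_rpow_enorm_toReal h0 hq, ← ENNReal.rpow_mul, one_div,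
    inv_mul_cancel₀ hp.ne', ENNReal.rpow_one] at h1

/-- a row with the planted means -/
def sh (β ρ : ℝ) (i : Fin n) (x : E n) : Fin n → ℝ := fun l => x l + mn β ρ n s(i, l)

lemma mp_sh (β ρ : ℝ) (i : Fin n) : MeasurePreserving (sh β ρ i) (gam n) (PR β ρ i) := by
  have hm : Measurable (sh β ρ i) := by unfold sh; fun_prop
  refine ⟨hm, ?_⟩
  have hl : Measurable (WithLp.toLp 2 : (Fin n → ℝ) → E n) := by fun_prop
  have e : ∀ l : Fin n, (gaussianReal 0 1).map (· + mn β ρ n s(i, l)) =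
      gaussianReal (mn β ρ n s(i, l)) 1 := fun l => by rw [gaussianReal_map_add_const, zero_add]
  rw [gam, ← map_pi_eq_stdGaussian, Measure.map_map hm hl, PR]
  simp_rw [← e]
  exact Measure.pi_map_pi (μ := fun _ : Fin n => gaussianReal 0 1)
    (f := fun l x => x + mn β ρ n s(i, l)) fun _ => by fun_prop

lemma row_le (β ρ : ℝ) (i : Fin n) {F g : Env n → ℝ} (hF : Measurable F) {q : ℝ≥0∞} (hq : q ≠ ∞)
    (h : ∀ ω, eLpNorm (fun x => F (rs i ω (sh β ρ i x))) q (gam n) ≤ ‖g ω‖ₑ) :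
    eLpNorm F q (PP β ρ n) ≤ eLpNorm g q (PP β ρ n) := by
  have mp := (mp_rs β ρ i).comp ((MeasurePreserving.id (PP β ρ n)).prod (mp_sh β ρ i))
  rw [← eLpNorm_comp_measurePreserving hF.aestronglyMeasurable mp]
  exact fub _ _ (hF.comp mp.measurable) hq h

lemma J_rs (β ρ : ℝ) {i l : Fin n} (h : l ≠ i) (ω : Env n) (x : E n) :
    J (rs i ω (sh β ρ i x)) i l = (x l + β / √n) / √n := by
  rw [J, rs_row, sh, mn, if_neg (by simpa using h.symm)]

/-! ### Gaussian linear forms -/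

/-- moments of the standard Gaussian -/
def kq (q : ℕ) : ℝ := (eLpNorm id q (gaussianReal 0 1)).toReal

lemma kq_nonneg (q : ℕ) : 0 ≤ kq q := ENNReal.toReal_nonneg

lemma kq_eq (q : ℕ) : eLpNorm id q (gaussianReal 0 1) = ENNReal.ofReal (kq q) :=
  (ENNReal.ofReal_toReal (memLp_id_gaussianReal' q (by simp)).2.ne).symm

lemma lin0 (q : ℕ) (S : Finset (Fin n)) (c : Fin n → ℝ) :
    eLpNorm (fun x : E n => ∑ l ∈ S, x l * c l) q (gam n) ≤
      ENNReal.ofReal (kq q * √(∑ l ∈ S, c l ^ 2)) := by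
  classical
  set v : E n := WithLp.toLp 2 fun l => if l ∈ S then c l else 0 with hv
  have hn : ‖v‖ = √(∑ l ∈ S, c l ^ 2) := by
    rw [EuclideanSpace.norm_eq]
    congr 1
    simp [hv, Finset.sum_ite_mem]
  have e : (fun x : E n => ∑ l ∈ S, x l * c l) = id ∘ innerSL ℝ v := by
    funext x
    simp [hv, PiLp.inner_apply, Finset.sum_ite_mem]
  have h1 : (gam n).map (innerSL ℝ v) = (gaussianReal 0 1).map (‖v‖ * ·) := by
    rw [IsGaussian.map_eq_gaussianReal, integral_strongDual_stdGaussian, variance_dual_stdGaussian,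
      gaussianReal_map_const_mul, innerSL_apply_norm, mul_zero, mul_one]
    congr 1
    ext
    simp
  rw [e, ← eLpNorm_map_measure (by fun_prop) (by fun_prop), h1,
    eLpNorm_map_measure (by fun_prop) (by fun_prop)]
  have e2 : (id ∘ fun x : ℝ => ‖v‖ * x) = ‖v‖ • (id : ℝ → ℝ) := rfl
  rw [e2, eLpNorm_const_smul, kq_eq, ENNReal.ofReal_mul (kq_nonneg q), mul_comm, ← hn,
    Real.enorm_eq_ofReal (norm_nonneg _)]

lemma add_const_le {α : Type*} [MeasurableSpace α] {μ : Measure α} [IsProbabilityMeasure μ]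
    {f : α → ℝ} (hf : Measurable f) {q : ℝ≥0∞} (hq : 1 ≤ q) {B c C : ℝ} (hB : 0 ≤ B)
    (h : eLpNorm f q μ ≤ ENNReal.ofReal B) (hc : |c| ≤ C) :
    eLpNorm (fun x => f x + c) q μ ≤ ENNReal.ofReal (B + C) := by
  refine (eLpNorm_add_le (f := f) (g := fun _ => c) hf.aestronglyMeasurable
    aestronglyMeasurable_const hq).trans ?_
  rw [ENNReal.ofReal_add hB ((abs_nonneg _).trans hc)]
  refine add_le_add h ((eLpNorm_le_of_ae_bound (C := C) (.of_forall fun _ => hc)).trans ?_)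
  simp

lemma abs_sum_le (S : Finset (Fin n)) (c : Fin n → ℝ) :
    |∑ l ∈ S, c l| ≤ √n * √(∑ l ∈ S, c l ^ 2) := by
  rw [← sqrt_mul (Nat.cast_nonneg n)]
  refine abs_le_sqrt ((sq_sum_le_card_mul_sum_sq).trans ?_)
  have : (S.card : ℝ) ≤ n := by exact_mod_cast (Finset.card_le_univ S).trans (Fintype.card_fin n).le
  gcongr

lemma lin1 (hn : 0 < n) (β : ℝ) {q : ℕ} (hq : 1 ≤ q) (S : Finset (Fin n)) (c : Fin n → ℝ) :
    eLpNorm (fun x : E n => ∑ l ∈ S, (x l + β / √n) * c l) q (gam n) ≤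
      ENNReal.ofReal ((kq q + |β|) * √(∑ l ∈ S, c l ^ 2)) := by
  have h0 : (0 : ℝ) < √n := sqrt_pos.2 (by exact_mod_cast hn)
  simp_rw [add_mul, Finset.sum_add_distrib]
  refine add_const_le (by fun_prop) (by exact_mod_cast hq) (mul_nonneg (kq_nonneg q) (sqrt_nonneg _))
    (lin0 q S c) ?_
  rw [← Finset.mul_sum, abs_mul, abs_div, abs_of_pos h0]
  refine (mul_le_mul_of_nonneg_left (abs_sum_le S c) (by positivity)).trans (le_of_eq ?_)
  field_simp

/-! ### Gaussian quadratic forms -/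

lemma mom2 (k l : Fin n) : ∫ x : E n, x l * x k ∂(gam n) = if l = k then 1 else 0 := by
  rw [ibp_gam (c1_coord l).c (c1_coord l).g k ((c1_coord l).p k)]
  simp only [pd_coord]
  split_ifs <;> simp

lemma mom4 (k a p q : Fin n) : ∫ x : E n, x a * (x p * x q) * x k ∂(gam n) =
    (if a = k then 1 else 0) * (if p = q then 1 else 0) +
      ((if p = k then 1 else 0) * (if a = q then 1 else 0) +
        (if q = k then 1 else 0) * (if a = p then 1 else 0)) := by
  have hc := (c1_coord a).mul ((c1_coord p).mul (c1_coord q))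
  rw [ibp_gam hc.c hc.g k (hc.p k)]
  have e : ∀ x : E n, pd k (fun x : E n => x a * (x p * x q)) x =
      (if a = k then 1 else 0) * (x p * x q) + ((if p = k then 1 else 0) * (x a * x q) +
        (if q = k then 1 else 0) * (x a * x p)) := by
    intro x
    rw [(c1_coord a).pd_mul ((c1_coord p).mul (c1_coord q)),
      (c1_coord p).pd_mul (c1_coord q), pd_coord, pd_coord, pd_coord]
    ring
  simp_rw [e]
  have i : ∀ p q : Fin n, Integrable (fun x : E n => x p * x q) (gam n) := fun p q =>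
    integrable_of_PG ((c1_coord p).mul (c1_coord q)).cont ((c1_coord p).mul (c1_coord q)).g
  have i4 : Integrable (fun x : E n => (if p = k then (1 : ℝ) else 0) * (x a * x q) +
      (if q = k then (1 : ℝ) else 0) * (x a * x p)) (gam n) :=
    ((i a q).const_mul _).add ((i a p).const_mul _)
  rw [integral_add ((i p q).const_mul _) i4,
    integral_add ((i a q).const_mul _) ((i a p).const_mul _),
    integral_const_mul, integral_const_mul, integral_const_mul, mom2, mom2, mom2]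

/-- centred product -/
def yy (p : Fin n × Fin n) (x : E n) : ℝ := x p.1 * x p.2 - if p.1 = p.2 then 1 else 0

lemma c1_yy (p : Fin n × Fin n) : C1 (yy p) := ((c1_coord p.1).mul (c1_coord p.2)).sub (c1_const _)

lemma int_yy (p r : Fin n × Fin n) : ∫ x, yy p x * yy r x ∂gam n =
    (if r = p then 1 else 0) + if r = p.swap then 1 else 0 := by
  obtain ⟨a, k⟩ := p
  obtain ⟨p, q⟩ := r
  have i : ∀ p q : Fin n, Integrable (fun x : E n => x p * x q) (gam n) := fun p q =>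
    integrable_of_PG ((c1_coord p).mul (c1_coord q)).cont ((c1_coord p).mul (c1_coord q)).g
  have c4 := ((c1_coord a).mul ((c1_coord p).mul (c1_coord q))).mul (c1_coord k)
  have i4 := integrable_of_PG c4.cont c4.g
  have e : ∀ x : E n, yy (a, k) x * yy (p, q) x = x a * (x p * x q) * x k -
      ((if p = q then 1 else 0) * (x a * x k) + ((if a = k then 1 else 0) * (x p * x q) -
        (if a = k then 1 else 0) * (if p = q then 1 else 0))) := fun x => by
    simp only [yy]; ring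
  simp_rw [e]
  have j1 : Integrable (fun x : E n => (if a = k then (1 : ℝ) else 0) * (x p * x q) -
      (if a = k then 1 else 0) * (if p = q then 1 else 0)) (gam n) :=
    ((i p q).const_mul _).sub (integrable_const _)
  have j2 : Integrable (fun x : E n => (if p = q then (1 : ℝ) else 0) * (x a * x k) +
      ((if a = k then (1 : ℝ) else 0) * (x p * x q) -
        (if a = k then 1 else 0) * (if p = q then 1 else 0))) (gam n) :=
    ((i a k).const_mul _).add j1
  rw [integral_sub i4 j2, integral_add ((i a k).const_mul _) j1,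
    integral_sub ((i p q).const_mul _) (integrable_const _), integral_const_mul,
    integral_const_mul, mom4, mom2, mom2, integral_const, probReal_univ, one_smul]
  simp only [Prod.swap, Prod.mk.injEq, ite_and, @eq_comm _ a p, @eq_comm _ a q]
  split_ifs <;> norm_num

lemma quad0 (S : Finset (Fin n)) (M : Fin n × Fin n → ℝ) :
    eLpNorm (fun x : E n => ∑ p ∈ S ×ˢ S, M p * yy p x) 2 (gam n) ≤
      ENNReal.ofReal (2 * √(∑ p ∈ S ×ˢ S, M p ^ 2)) := by
  have hc : C1 fun x : E n => ∑ p ∈ S ×ˢ S, M p * yy p x :=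
    C1.sum fun p _ => (c1_const _).mul (c1_yy p)
  have hi : ∀ p r : Fin n × Fin n, Integrable (fun x => M p * M r * (yy p x * yy r x)) (gam n) :=
    fun p r => (integrable_of_PG ((c1_yy p).mul (c1_yy r)).cont ((c1_yy p).mul (c1_yy r)).g).const_mul _
  have hH : 0 ≤ ∑ p ∈ S ×ˢ S, M p ^ 2 := Finset.sum_nonneg fun _ _ => sq_nonneg _
  have key : ∫ x, (∑ p ∈ S ×ˢ S, M p * yy p x) ^ 2 ∂gam n ≤ 4 * ∑ p ∈ S ×ˢ S, M p ^ 2 := by
    have e : ∀ x : E n, (∑ p ∈ S ×ˢ S, M p * yy p x) ^ 2 =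
        ∑ p ∈ S ×ˢ S, ∑ r ∈ S ×ˢ S, M p * M r * (yy p x * yy r x) := fun x => by
      rw [sq, Finset.sum_mul_sum]
      exact Finset.sum_congr rfl fun _ _ => Finset.sum_congr rfl fun _ _ => by ring
    simp_rw [e]
    rw [integral_finsetSum _ fun p _ => integrable_finsetSum _ fun r _ => hi p r]
    have e2 : ∀ p ∈ S ×ˢ S, ∫ x, ∑ r ∈ S ×ˢ S, M p * M r * (yy p x * yy r x) ∂gam n ≤
        2 * M p ^ 2 + M p.swap ^ 2 := fun p hp => by
      have hp' : p.swap ∈ S ×ˢ S := by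
        rw [Finset.mem_product] at hp ⊢; exact ⟨hp.2, hp.1⟩
      rw [integral_finsetSum _ fun r _ => hi p r]
      simp_rw [integral_const_mul, int_yy, mul_add, Finset.sum_add_distrib, mul_ite, mul_one,
        mul_zero, Finset.sum_ite_eq', if_pos hp, if_pos hp']
      nlinarith [sq_nonneg (M p - M p.swap), sq_nonneg (M p), sq_nonneg (M p.swap)]
    refine (Finset.sum_le_sum e2).trans ?_
    have e3 : ∑ p ∈ S ×ˢ S, M p.swap ^ 2 = ∑ p ∈ S ×ˢ S, M p ^ 2 := by
      rw [Finset.sum_product, Finset.sum_product, Finset.sum_comm]; rfl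
    rw [Finset.sum_add_distrib, e3, ← Finset.mul_sum]
    linarith
  have hm : MemLp (fun x : E n => ∑ p ∈ S ×ˢ S, M p * yy p x) 2 (gam n) :=
    (memLp_two_iff_integrable_sq hc.cont.aestronglyMeasurable).2
      (integrable_of_PG (hc.cont.pow 2) (PG_sq hc.g))
  rw [hm.eLpNorm_eq_integral_rpow_norm two_ne_zero ENNReal.ofNat_ne_top]
  refine ENNReal.ofReal_le_ofReal ?_
  simp only [ENNReal.toReal_ofNat, Real.rpow_two, Real.norm_eq_abs, sq_abs]
  rw [← one_div, ← Real.sqrt_eq_rpow]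
  refine (sqrt_le_sqrt key).trans (le_of_eq ?_)
  rw [sqrt_mul (by norm_num), show (4 : ℝ) = 2 ^ 2 by norm_num, sqrt_sq (by norm_num)]

lemma add_le3 {α : Type*} [MeasurableSpace α] {μ : Measure α} {f g : α → ℝ} (hf : Measurable f)
    (hg : Measurable g) {B C : ℝ} (hB : 0 ≤ B) (hC : 0 ≤ C)
    (h1 : eLpNorm f 2 μ ≤ ENNReal.ofReal B) (h2 : eLpNorm g 2 μ ≤ ENNReal.ofReal C) :
    eLpNorm (fun x => f x + g x) 2 μ ≤ ENNReal.ofReal (B + C) := by
  rw [ENNReal.ofReal_add hB hC]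
  exact (eLpNorm_add_le hf.aestronglyMeasurable hg.aestronglyMeasurable one_le_two).trans
    (add_le_add h1 h2)

lemma marg_le (hn : 0 < n) (β : ℝ) (S : Finset (Fin n)) (M : Fin n → Fin n → ℝ) :
    √(∑ l ∈ S, (β / √n * ∑ k ∈ S, M l k) ^ 2) ≤ |β| * √(∑ l ∈ S, ∑ k ∈ S, M l k ^ 2) := by
  have h0 : (0 : ℝ) < n := by exact_mod_cast hn
  rw [← sqrt_sq_eq_abs, ← sqrt_mul (sq_nonneg _), Finset.mul_sum]
  refine sqrt_le_sqrt (Finset.sum_le_sum fun l _ => ?_)
  have h1 : (S.card : ℝ) ≤ n := by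
    exact_mod_cast (Finset.card_le_univ S).trans (Fintype.card_fin n).le
  have h2 : (∑ k ∈ S, M l k) ^ 2 ≤ n * ∑ k ∈ S, M l k ^ 2 :=
    sq_sum_le_card_mul_sum_sq.trans (by gcongr)
  rw [mul_pow, div_pow, sq_sqrt h0.le]
  refine (mul_le_mul_of_nonneg_left h2 (by positivity)).trans (le_of_eq ?_)
  field_simp

/-- the constant of the quadratic bound -/
def kk (β : ℝ) : ℝ := 2 + kq 2 * |β| + (kq 2 + |β|) * |β|


lemma quad1 (hn : 0 < n) (β : ℝ) (S : Finset (Fin n)) (M : Fin n → Fin n → ℝ) :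
    eLpNorm (fun x : E n => ∑ l ∈ S, ∑ k ∈ S, (x l + β / √n) * (x k + β / √n) * M l k -
      ∑ l ∈ S, M l l) 2 (gam n) ≤ ENNReal.ofReal (kk β * √(∑ l ∈ S, ∑ k ∈ S, M l k ^ 2)) := by
  have hk := kq_nonneg 2
  have e : ∀ x : E n, ∑ l ∈ S, ∑ k ∈ S, (x l + β / √n) * (x k + β / √n) * M l k - ∑ l ∈ S, M l l =
      ∑ p ∈ S ×ˢ S, M p.1 p.2 * yy p x + ∑ l ∈ S, x l * (β / √n * ∑ k ∈ S, M l k) +
        ∑ k ∈ S, (x k + β / √n) * (β / √n * ∑ l ∈ S, M l k) := fun x => by
    have e1 : ∑ l ∈ S, M l l = ∑ l ∈ S, ∑ k ∈ S, M l k * if l = k then 1 else 0 :=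
      Finset.sum_congr rfl fun l hl => by simp [hl]
    simp_rw [Finset.mul_sum]
    rw [Finset.sum_product, Finset.sum_comm (f := fun k l => (x k + β / √n) * (β / √n * M l k)),
      e1]
    simp only [← Finset.sum_add_distrib, ← Finset.sum_sub_distrib, yy]
    exact Finset.sum_congr rfl fun _ _ => Finset.sum_congr rfl fun _ _ => by ring
  simp_rw [e]
  have h1 := quad0 S fun p => M p.1 p.2
  have h2 := (lin0 2 S fun l => β / √n * ∑ k ∈ S, M l k).trans
    (ENNReal.ofReal_le_ofReal (mul_le_mul_of_nonneg_left (marg_le hn β S M) hk))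
  have h3 := (lin1 hn β one_le_two S fun k => β / √n * ∑ l ∈ S, M l k).trans
    (ENNReal.ofReal_le_ofReal (mul_le_mul_of_nonneg_left (marg_le hn β S fun k l => M l k)
      (by positivity)))
  rw [Finset.sum_comm (f := fun k l => M l k ^ 2)] at h3
  rw [Finset.sum_product (f := fun p : Fin n × Fin n => M p.1 p.2 ^ 2)] at h1
  have m1 : Measurable fun x : E n => ∑ p ∈ S ×ˢ S, M p.1 p.2 * yy p x := by unfold yy; fun_prop
  refine (add_le3 (m1.add (by fun_prop)) (by fun_prop) (by positivity) (by positivity)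
    (add_le3 m1 (by fun_prop) (by positivity) (by positivity) h1 h2) h3).trans (le_of_eq ?_)
  congr 1
  unfold kk
  ring

lemma entry (β ρ : ℝ) :
    Ob (PP β ρ) (rt 0) (fun n (_ : Fin n × Fin n) => True) fun _ p ω => ω s(p.1, p.2) :=
  ⟨fun _ _ => measurable_pi_apply _, fun q => by
    refine ⟨(kq (q + 1) + (|ρ| + |β|)).toNNReal, (eventually_ge_atTop 1).mono fun n hn p _ => ?_⟩
    set e := s(p.1, p.2)
    have mp : MeasurePreserving (fun ω : Env n => ω e) (PP β ρ n) (gaussianReal (mn β ρ n e) 1) :=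
      measurePreserving_eval (fun e => gaussianReal (mn β ρ n e) 1) e
    have mq : MeasurePreserving (fun x : ℝ => x + mn β ρ n e) (gaussianReal 0 1)
        (gaussianReal (mn β ρ n e) 1) :=
      ⟨by fun_prop, by rw [gaussianReal_map_add_const, zero_add]⟩
    have h1 : |mn β ρ n e| ≤ |ρ| + |β| := by
      unfold mn
      split_ifs
      · linarith [abs_nonneg β]
      · rw [abs_div, abs_of_nonneg (sqrt_nonneg _)]
        linarith [abs_nonneg ρ, div_le_self (abs_nonneg β) (one_le_sqrt_nat hn)]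
    have h2 := add_const_le (μ := gaussianReal 0 1) measurable_id (q := (q + 1 : ℕ)) (by simp)
      (kq_nonneg _) (kq_eq (q + 1)).le h1
    rw [rt_zero, enorm_one, mul_one]
    refine (eLpNorm_le_eLpNorm_of_exponent_le (q := (q + 1 : ℕ)) (by simp)
      (measurable_pi_apply _).aestronglyMeasurable).trans ?_
    have h3 := eLpNorm_comp_measurePreserving (p := (q + 1 : ℕ)) (g := id)
      aestronglyMeasurable_id mp
    have h4 := eLpNorm_comp_measurePreserving (p := (q + 1 : ℕ)) (g := id)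
      aestronglyMeasurable_id mq
    exact h3.trans_le (h4.symm.trans_le h2)⟩

end L49

open L49

theorem linStmt : LinStmt := fun β ρ => by
  refine ⟨entry β ρ, ?_, fun T A a i S w h1 h2 => ?_⟩
  · exact (Ob.mulR (entry β ρ) (Ob.const (a := rt (-1)) (fun n _ => (√n)⁻¹) 1
      (.of_forall fun n _ _ => by rw [rt_neg_one, one_mul]))).congr' fun n p ω => by
        rw [J, div_eq_mul_inv]
  have hm : ∀ n t, Measurable fun ω => ∑ l ∈ S n t, J ω (i n t) l * w n t l ω := fun n t =>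
    Finset.measurable_sum _ fun l _ => (measurable_J _ _).mul (h2.1 n (t, l))
  have hg := ob_sqrt (Ob.avg (Z := fun n t l ω => w n t l ω ^ 2) S (h2.pow 2))
  refine ⟨hm, fun q => ?_⟩
  obtain ⟨C, hC⟩ := (hg.smul (kq (q + 1) + |β|)).2 (q + 1)
  refine ⟨C, (hC.and (eventually_gt_atTop 0)).mono fun n hn t ht => ?_⟩
  refine (eLpNorm_le_eLpNorm_of_exponent_le (q := (q + 1 : ℕ)) (by simp)
    (hm n t).aestronglyMeasurable).trans (le_trans ?_ (hn.1 t ht))
  refine row_le β ρ (i n t) (hm n t) (by simp) fun ω => ?_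
  have h0 : (0 : ℝ) < n := by exact_mod_cast hn.2
  have e : ∀ x : E n, ∑ l ∈ S n t, J (rs (i n t) ω (sh β ρ (i n t) x)) (i n t) l *
      w n t l (rs (i n t) ω (sh β ρ (i n t) x)) =
      ∑ l ∈ S n t, (x l + β / √n) * (w n t l ω / √n) := fun x =>
    Finset.sum_congr rfl fun l hl => by
      rw [J_rs β ρ (ne_of_mem_of_not_mem hl (h1 n t ht).1), ((h1 n t ht).2 l hl).rs]; ring
  simp_rw [e]
  refine (lin1 hn.2 β (by omega) _ _).trans ?_
  simp_rw [div_pow, sq_sqrt h0.le, ← Finset.sum_div]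
  exact Real.ofReal_le_enorm _

theorem quadStmt : QuadStmt := fun β ρ T A i S M h1 h2 h3 h4 => by
  classical
  have hF := h4.sub (Ob.avg (Z := fun n t l => M n t l l) S h2)
  have o1 : Oo (PP β ρ) (fun n (p : (T n × Fin n) × Fin n) => (A n p.1.1 ∧ p.1.2 ∈ S n p.1.1) ∧
      p.2 ∈ (S n p.1.1).erase p.1.2) fun n p ω => M n p.1.1 p.1.2 p.2 ω :=
    h3.reindex (T' := fun n => (T n × Fin n) × Fin n) (fun n p => (p.1.1, p.1.2, p.2)) fun n p h =>
      ⟨h.1.1, h.1.2, (Finset.mem_erase.1 h.2).2, (Finset.mem_erase.1 h.2).1.symm⟩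
  have o2 := Oo.avg (A := fun n (p : T n × Fin n) => A n p.1 ∧ p.2 ∈ S n p.1)
    (Z := fun n (p : T n × Fin n) k ω => M n p.1 p.2 k ω * M n p.1 p.2 k ω)
    (fun n p => (S n p.1).erase p.2) (o1.mul_ob o1.ob)
  have o3 : Oo (PP β ρ) (fun n (p : T n × Fin n) => A n p.1 ∧ p.2 ∈ S n p.1)
      fun n p ω => M n p.1 p.2 p.2 ω ^ 2 * (n : ℝ)⁻¹ :=
    Oo.ob_mul (h2.pow0 2) (Oo.det (fun n _ => (n : ℝ)⁻¹) tendsto_inv_atTop_nhds_zero_nat
      (.of_forall fun n _ _ => (abs_of_nonneg (by positivity)).le))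
  have o4 := (oo_sqrt (Oo.avg (Z := fun n t l ω => (∑ k ∈ (S n t).erase l,
    M n t l k ω * M n t l k ω) / n + M n t l l ω ^ 2 * (n : ℝ)⁻¹) S (o2.add o3))).smul (kk β)
  refine oo_of_l1 hF fun ε hε => ?_
  filter_upwards [o4.small 2 hε, eventually_gt_atTop 0] with n hn hn0 t ht
  refine (eLpNorm_le_eLpNorm_of_exponent_le one_le_two
    (hF.1 n t).aestronglyMeasurable).trans (le_trans ?_ (hn t ht))
  refine row_le β ρ (i n t) (hF.1 n t) (by simp) fun ω => ?_
  have h0 : (0 : ℝ) < n := by exact_mod_cast hn0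
  have hs : √(n : ℝ) * √n = n := mul_self_sqrt h0.le
  have hi : ∀ l ∈ S n t, l ≠ i n t := fun l hl e => (h1 n t ht).1 (e ▸ hl)
  have e : (fun x : E n => ∑ l ∈ S n t, ∑ k ∈ S n t, J (rs (i n t) ω (sh β ρ (i n t) x)) (i n t) l *
      J (rs (i n t) ω (sh β ρ (i n t) x)) (i n t) k * M n t l k (rs (i n t) ω (sh β ρ (i n t) x)) -
      (∑ l ∈ S n t, M n t l l (rs (i n t) ω (sh β ρ (i n t) x))) / n) =
      (n : ℝ)⁻¹ • fun x : E n => ∑ l ∈ S n t, ∑ k ∈ S n t,
        (x l + β / √n) * (x k + β / √n) * M n t l k ω - ∑ l ∈ S n t, M n t l l ω := by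
    funext x
    rw [Pi.smul_apply, smul_eq_mul, mul_sub, Finset.mul_sum, Finset.mul_sum, Finset.sum_div]
    congr 1
    · refine Finset.sum_congr rfl fun l hl => ?_
      rw [Finset.mul_sum]
      refine Finset.sum_congr rfl fun k hk => ?_
      rw [J_rs β ρ (hi l hl), J_rs β ρ (hi k hk), ((h1 n t ht).2 l hl k hk).rs, div_mul_div_comm, hs]
      ring
    · refine Finset.sum_congr rfl fun l hl => ?_
      rw [((h1 n t ht).2 l hl l hl).rs]
      ring
  have e2 : (∑ l ∈ S n t, ((∑ k ∈ (S n t).erase l, M n t l k ω * M n t l k ω) / n +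
      M n t l l ω ^ 2 * (n : ℝ)⁻¹)) / n =
      (n : ℝ)⁻¹ ^ 2 * ∑ l ∈ S n t, ∑ k ∈ S n t, M n t l k ω ^ 2 := by
    rw [Finset.sum_div, Finset.mul_sum]
    refine Finset.sum_congr rfl fun l hl => ?_
    rw [← Finset.sum_erase_add _ _ hl]
    simp only [sq]
    ring
  beta_reduce
  rw [e, eLpNorm_const_smul, e2, sqrt_mul (sq_nonneg _), sqrt_sq (by positivity),
    mul_left_comm, enorm_mul]
  exact mul_le_mul_right ((quad1 hn0 β _ _).trans (Real.ofReal_le_enorm _)) _



end Crest.Agent.T157.Rn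

end
end

-- ▼ part T157/RnLln_6
section

/-!
# Row 157, block B/R (helper6): the law of large numbers for self-avoiding fields
-/

set_option autoImplicit false

noncomputable section

namespace Crest.Agent.T157.Rn.Lln6

open MeasureTheory ProbabilityTheory Real Matrix Filter Topology
open Crest.Agent.R238.Gap Crest.Agent.R238.GapPc Crest.Agent.R253.Meh74
open Crest.Agent.T157.E (Cube gv)
open Crest.Agent.T157.Tw
open Crest.Agent.T157.Pl (one)
open scoped NNReal ENNReal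

section order
variable {Ω : ℕ → Type} [∀ n, MeasurableSpace (Ω n)] {T T' : ℕ → Type} {P : ∀ n, Measure (Ω n)}
  {A : ∀ n, T n → Prop} {X Y : ∀ n, T n → Ω n → ℝ} {a : ℕ → ℝ}

/-- eventually bounded by `r` in `L^q` -/
def Bd (P : ∀ n, Measure (Ω n)) (q : ℕ) (A : ∀ n, T n → Prop) (X : ∀ n, T n → Ω n → ℝ) (r : ℝ) :
    Prop := ∀ᶠ n in atTop, ∀ t, A n t → eLpNorm (X n t) q (P n) ≤ ENNReal.ofReal r

/-- `ε`-characterisation of `Oo` -/
theorem oo_iff : Oo P A X ↔ (∀ n t, Measurable (X n t)) ∧ ∀ q r, 0 < r → Bd P q A X r := by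
  constructor
  · rintro ⟨d, hd, hm, h⟩
    refine ⟨hm, fun q ε hε => ?_⟩
    obtain ⟨C, hC⟩ := h q
    have h1 : Tendsto (fun n => ‖d n‖ₑ) atTop (𝓝 0) := by simpa using hd.enorm
    have : Tendsto (fun n => (C : ℝ≥0∞) * ‖d n‖ₑ) atTop (𝓝 0) := by
      simpa using ENNReal.Tendsto.const_mul h1 (Or.inr ENNReal.coe_ne_top)
    filter_upwards [hC, this.eventually (ge_mem_nhds (ENNReal.ofReal_pos.2 hε))] with n h1 h2 t ht
      using (h1 t ht).trans h2
  · rintro ⟨hm, h⟩
    classical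
    let p : ℕ → ℕ → Prop := fun n k => ∀ q ∈ Set.Iic k, ∀ t, A n t →
      eLpNorm (X n t) q (P n) ≤ ENNReal.ofReal (1 / ((k : ℝ) + 1))
    have hp : ∀ k, ∀ᶠ n in atTop, p n k := fun k =>
      (eventually_all_finite (Set.finite_Iic k)).2 fun q _ => h q _ (by positivity)
    have hK : ∀ k, ∀ᶠ n in atTop,
        k ≤ Nat.findGreatest (p n) n ∧ p n (Nat.findGreatest (p n) n) := fun k => by
      filter_upwards [hp k, eventually_ge_atTop k] with n h1 h2
      exact ⟨Nat.le_findGreatest h2 h1, Nat.findGreatest_spec h2 h1⟩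
    refine ⟨fun n => 1 / ((Nat.findGreatest (p n) n : ℝ) + 1),
      tendsto_one_div_add_atTop_nhds_zero_nat.comp
        (tendsto_atTop.2 fun k => (hK k).mono fun _ h => h.1), hm,
      fun q => ⟨1, (hK q).mono fun n h1 t ht => ?_⟩⟩
    rw [Real.enorm_eq_ofReal (by positivity), ENNReal.coe_one, one_mul]
    exact h1.2 q h1.1 t ht

lemma ob_re {A' : ∀ n, T' n → Prop} (h : Ob P a A X) (r : ∀ n, T' n → T n)
    (hA : ∀ n t, A' n t → A n (r n t)) : Ob P a A' fun n t => X n (r n t) :=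
  ⟨fun n _ => h.1 n _, fun q => (h.2 q).imp fun _ hC => hC.mono fun n h1 t ht => h1 _ (hA n t ht)⟩

lemma oo_re {A' : ∀ n, T' n → Prop} (h : Oo P A X) (r : ∀ n, T' n → T n)
    (hA : ∀ n t, A' n t → A n (r n t)) : Oo P A' fun n t => X n (r n t) :=
  h.imp fun _ hd => ⟨hd.1, ob_re hd.2 r hA⟩

lemma bd_add {q : ℕ} {r s : ℝ} (hr : 0 ≤ r) (hs : 0 ≤ s) (mX : ∀ n t, Measurable (X n t))
    (mY : ∀ n t, Measurable (Y n t)) (hX : Bd P q A X r) (hY : Bd P q A Y s) :
    Bd P q A (fun n t ω => X n t ω + Y n t ω) (r + s) := by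
  filter_upwards [hX, hY] with n h1 h2 t ht
  rcases q.eq_zero_or_pos with rfl | hq
  · simp
  rw [ENNReal.ofReal_add hr hs]
  exact (eLpNorm_add_le (mX n t).aestronglyMeasurable (mY n t).aestronglyMeasurable
    (by exact_mod_cast hq)).trans (add_le_add (h1 t ht) (h2 t ht))

lemma bd_smul {q : ℕ} {r c : ℝ} (hc : 0 ≤ c) (hX : Bd P q A X r) :
    Bd P q A (fun n t ω => c * X n t ω) (c * r) := by
  filter_upwards [hX] with n h1 t ht
  rw [ENNReal.ofReal_mul hc, ← Real.enorm_eq_ofReal hc]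
  exact (eLpNorm_const_smul_le (c := c) (f := X n t)).trans (by gcongr; exact h1 t ht)

lemma bd_dom {q : ℕ} {r : ℝ} (hY : Bd P q A Y r)
    (h : ∀ᶠ n in atTop, ∀ t, A n t → ∀ ω, |X n t ω| ≤ |Y n t ω|) : Bd P q A X r := by
  filter_upwards [hY, h] with n h1 h2 t ht
  exact (eLpNorm_mono (h2 t ht)).trans (h1 t ht)

lemma bd_det [∀ n, IsProbabilityMeasure (P n)] {q : ℕ} {r : ℝ}
    (h : ∀ᶠ n in atTop, ∀ t, A n t → ∀ ω, |X n t ω| ≤ r) : Bd P q A X r := by
  filter_upwards [h] with n h1 t ht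
  simpa using eLpNorm_le_of_ae_bound (p := q) (μ := P n) (.of_forall (h1 t ht))

lemma bd_sq {q : ℕ} (h : Ob P (rt 0) A X) : ∃ C : ℝ, 0 ≤ C ∧ Bd P q A (fun n t ω => X n t ω ^ 2) C := by
  obtain ⟨C, hC⟩ := h.2 (q * 2)
  refine ⟨(C : ℝ) ^ 2, by positivity, hC.mono fun n h1 t ht => ?_⟩
  have e := eLpNorm_norm_rpow (p := q) (μ := P n) (X n t) two_pos
  simp only [Real.rpow_two, Real.norm_eq_abs, sq_abs, ENNReal.ofReal_ofNat] at e
  have h2 := h1 t ht
  simp only [rt, zpow_zero, enorm_one, mul_one, Nat.cast_mul, Nat.cast_ofNat] at h2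
  rw [e, ENNReal.ofReal_pow C.coe_nonneg, ENNReal.ofReal_coe_nnreal, ENNReal.rpow_two]
  gcongr

lemma oo_add (hX : Oo P A X) (hY : Oo P A Y) : Oo P A fun n t ω => X n t ω + Y n t ω := by
  rw [oo_iff] at *
  refine ⟨fun n t => (hX.1 n t).add (hY.1 n t), fun q r hr => ?_⟩
  have := bd_add (by positivity) (by positivity) hX.1 hY.1 (hX.2 q (r / 2) (by positivity))
    (hY.2 q (r / 2) (by positivity))
  rwa [add_halves] at this

lemma oo_abs (hX : Oo P A X) : Oo P A fun n t ω => |X n t ω| := by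
  rw [oo_iff] at *
  exact ⟨fun n t => (hX.1 n t).abs, fun q r hr =>
    bd_dom (hX.2 q r hr) (.of_forall fun _ _ _ _ => (abs_abs _).le)⟩

lemma oo_fsum {κ : Type} (s : Finset κ) {X : κ → ∀ n, T n → Ω n → ℝ} (h : ∀ j, Oo P A (X j)) :
    Oo P A fun n t ω => ∑ j ∈ s, X j n t ω := by
  classical
  induction s using Finset.induction_on with
  | empty => exact oo_iff.2 ⟨fun _ _ => by simp, fun q r _ => .of_forall fun _ _ _ => by simp⟩
  | insert j s hj ih => simpa only [Finset.sum_insert hj] using oo_add (h j) ih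

lemma oo_avg {S : ∀ n, T n → Finset (Fin n)} {X : ∀ n, T n × Fin n → Ω n → ℝ}
    (h : Oo P (fun n (p : T n × Fin n) => A n p.1 ∧ p.2 ∈ S n p.1) X) :
    Oo P A fun n t ω => (∑ l ∈ S n t, X n (t, l) ω) / n := by
  rw [oo_iff] at *
  refine ⟨fun n t => (Finset.measurable_sum _ fun l _ => h.1 n _).div_const _, fun q r hr => ?_⟩
  filter_upwards [h.2 q r hr, eventually_gt_atTop 0] with n h1 hn t ht
  rcases q.eq_zero_or_pos with rfl | hq
  · simp
  have n0 : (0 : ℝ) < n := by exact_mod_cast hn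
  have e : (fun ω => (∑ l ∈ S n t, X n (t, l) ω) / n) =
      ((n : ℝ)⁻¹) • ∑ l ∈ S n t, X n (t, l) := by
    funext ω; simp [div_eq_inv_mul]
  rw [e]
  refine eLpNorm_const_smul_le.trans ?_
  have h2 := (eLpNorm_sum_le (μ := P n) (p := q) (f := fun l => X n (t, l)) (s := S n t)
    (fun l _ => (h.1 n _).aestronglyMeasurable) (by exact_mod_cast hq)).trans
    (Finset.sum_le_card_nsmul _ _ _ fun l hl => h1 (t, l) ⟨ht, hl⟩)
  have h3 : ((S n t).card : ℝ) ≤ n := by
    exact_mod_cast (Finset.card_le_univ _).trans_eq (Fintype.card_fin n)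
  refine (mul_le_mul_right h2 _).trans ?_
  rw [nsmul_eq_mul, Real.enorm_eq_ofReal (by positivity), ← ENNReal.ofReal_natCast,
    ← ENNReal.ofReal_mul (by positivity), ← ENNReal.ofReal_mul (by positivity)]
  refine ENNReal.ofReal_le_ofReal ?_
  rw [inv_mul_le_iff₀ n0]
  gcongr

lemma oo_imp [∀ n, IsProbabilityMeasure (P n)] (hX : Ob P (rt 0) A X) (c : ℝ) (hY : Oo P A Y)
    (h : ∀ ε > (0 : ℝ), ∃ δ > (0 : ℝ), ∀ n t ω, A n t → |Y n t ω| ≤ δ → |X n t ω - c| ≤ ε) :
    Oo P A fun n t ω => X n t ω - c := by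
  rw [oo_iff] at *
  refine ⟨fun n t => (hX.1 n t).sub_const c, fun q r hr => ?_⟩
  obtain ⟨C, C0, hC⟩ := bd_sq (q := q) hX
  obtain ⟨δ, δ0, hδ⟩ := h (r / 3) (by positivity)
  set η := r / 3 / (C + 1) with hη
  have η0 : 0 < η := by positivity
  set M := (1 / η + |c|) / δ with hM
  have M0 : 0 < M := by positivity
  have b1 : Bd P q A (fun _ _ _ => r / 3) (r / 3) :=
    bd_det (.of_forall fun _ _ _ _ => (abs_of_pos (by positivity)).le)
  have b2 := bd_smul η0.le hC
  have b3 := bd_smul M0.le (bd_dom (X := fun n t ω => |Y n t ω|)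
    (hY.2 q (r / 3 / M) (by positivity)) (.of_forall fun _ _ _ _ => (abs_abs _).le))
  have m2 : ∀ n t, Measurable fun ω => η * X n t ω ^ 2 := fun n t =>
    ((hX.1 n t).pow_const 2).const_mul η
  have b4 := bd_add (by positivity) (by positivity)
    (fun n t => measurable_const.add (m2 n t)) (fun n t => (hY.1 n t).abs.const_mul M)
    (bd_add (by positivity) (by positivity) (fun _ _ => measurable_const) m2 b1 b2) b3
  have b5 := bd_dom (X := fun n t ω => X n t ω - c) b4 (.of_forall fun n t ht ω => by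
    refine le_trans ?_ (le_abs_self _)
    simp only [Pi.add_apply]
    have p1 : 0 ≤ η * X n t ω ^ 2 := by positivity
    have p2 : 0 ≤ M * |Y n t ω| := by positivity
    rcases le_or_gt |Y n t ω| δ with h1 | h1
    · linarith [hδ n t ω ht h1]
    · have p3 : 1 / η + |c| ≤ M * |Y n t ω| := by
        rw [hM, div_mul_eq_mul_div, le_div_iff₀ δ0]; gcongr
      have p4 : |X n t ω| ≤ η * X n t ω ^ 2 + 1 / η := by
        have e : η * (1 / η) = 1 := by field_simp
        rw [← sq_abs]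
        refine le_of_mul_le_mul_left ?_ η0
        nlinarith [sq_nonneg (η * |X n t ω| - 1)]
      linarith [abs_sub (X n t ω) c])
  refine b5.mono fun n h1 t ht => (h1 t ht).trans (ENNReal.ofReal_le_ofReal ?_)
  have e1 : M * (r / 3 / M) = r / 3 := by field_simp
  have e2 : η * C ≤ r / 3 := by
    rw [hη, div_mul_eq_mul_div, div_le_iff₀ (by positivity)]; nlinarith
  linarith

end order

variable {n m : ℕ}

lemma rs_row (l k : Fin n) (ω : Env n) (z : Fin n → ℝ) : rs l ω z s(l, k) = z k :=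
  (show Function.Injective fun k : Fin n => s(l, k) from
    fun _ _ h => Sym2.congr_right.1 h).extend_apply z ω k

lemma rs_off {l : Fin n} {e : Sym2 (Fin n)} (h : l ∉ e) (ω : Env n) (z : Fin n → ℝ) :
    rs l ω z e = ω e :=
  Function.extend_apply' z ω e fun ⟨_, hk⟩ => h (hk ▸ Sym2.mem_mk_left _ _)

lemma net_ri {β ρ : ℝ} {u : Fm m} (h : Net β ρ u) {I : Finset (Fin n)} {k l : Fin n}
    (hl : l ∈ I.erase k) (σ : Cube n) : RI k (u n (I.erase k) l σ) := fun ω ω' hω =>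
  h.loc n _ l σ σ ω ω' hl (fun _ _ => rfl) fun a ha b hb _ => hω _ fun hk => by
    rcases Sym2.mem_iff.1 hk with rfl | rfl
    · exact Finset.notMem_erase _ _ ha
    · exact Finset.notMem_erase _ _ hb

/-- the coefficients of row `l` -/
def WW (c : Fin m → ℝ) (S : Finset (Fin n)) (l : Fin n) (v : Fin n → E m) :
    Matrix (Fin m) (Fin n) ℝ := fun a k => if k = l then c a else if k ∈ S then v k a / √n else 0

lemma sum_WW (c : Fin m → ℝ) {S : Finset (Fin n)} {l : Fin n} (hl : l ∉ S) (v : Fin n → E m)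
    (a : Fin m) (g : Fin n → ℝ) :
    ∑ k, WW c S l v a k * g k = c a * g l + ∑ k ∈ S, v k a / √n * g k := by
  have e : ∀ k, WW c S l v a k * g k =
      (if k = l then c a * g k else 0) + if k ∈ S then v k a / √n * g k else 0 := fun k => by
    unfold WW
    by_cases h : k = l
    · simp [h, hl]
    · by_cases h' : k ∈ S <;> simp [h, h']
  simp only [e, Finset.sum_add_distrib, Finset.sum_ite_eq', Finset.mem_univ, if_true,
    Finset.sum_ite_mem, Finset.univ_inter]

lemma sqrt_div (n : ℕ) (x y : ℝ) : x / √n * (y / √n) = x * y / n := by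
  rw [div_mul_div_comm, Real.mul_self_sqrt (Nat.cast_nonneg n)]

lemma WW_gram (c : Fin m → ℝ) {S : Finset (Fin n)} {l : Fin n} (hl : l ∉ S) (v : Fin n → E m)
    (a a' : Fin m) :
    (WW c S l v * (WW c S l v)ᵀ) a a' = (∑ k ∈ S, v k a * v k a') / n + c a * c a' := by
  rw [Matrix.mul_apply]
  simp only [transpose_apply]
  rw [sum_WW c hl, add_comm, Finset.sum_div]
  congr 1
  · refine Finset.sum_congr rfl fun k hk => ?_
    have : k ≠ l := fun h => hl (h ▸ hk)
    simp only [WW, if_neg this, if_pos hk, sqrt_div n]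
  · simp [WW]

/-- the row average of a function of the field is a Gaussian integral -/
lemma Ei_eq {β ρ : ℝ} {u : Fm m} (h : Net β ρ u) (c : Fin m → ℝ) (φ : E m → ℝ) (I : Finset (Fin n))
    (l : Fin n) (σ : Cube n) (ω : Env n) :
    Ei β ρ l (fun ω => φ (fieldOf c u n I l σ ω)) ω =
      ∫ z, φ (WithLp.toLp 2 (WW c (I.erase l) l (fun k => u n (I.erase l) k σ ω) *ᵥ z) +
        WithLp.toLp 2 fun a => β * ((∑ k ∈ I.erase l, u n (I.erase l) k σ ω a) / n) + ρ * c a)
        ∂gv (Fin n) := by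
  have e : PR β ρ l = Pl.tilted false fun k => mn β ρ n s(l, k) := by
    simp only [PR, Pl.tilted, Pl.tl_false]
  rw [Ei, e, Pl.integral_tilted_false]
  congr 1
  funext z
  congr 1
  ext a
  have hl := Finset.notMem_erase l I
  simp only [fieldOf, PiLp.add_apply, mulVec, dotProduct, sum_WW c hl, J, rs_row, Pi.add_apply]
  have e1 : mn β ρ n s(l, l) = ρ := by simp [mn]
  have e2 : ∑ k ∈ I.erase l, (z k + mn β ρ n s(l, k)) / √n *
      u n (I.erase l) k σ (rs l ω (z + fun k => mn β ρ n s(l, k))) a =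
      ∑ k ∈ I.erase l, (u n (I.erase l) k σ ω a / √n * z k +
        β * (u n (I.erase l) k σ ω a / n)) := by
    refine Finset.sum_congr rfl fun k hk => ?_
    have e3 : mn β ρ n s(l, k) = β / √n := by
      simp [mn, (Finset.ne_of_mem_erase hk).symm]
    rw [net_ri h hk σ _ ω fun e he => rs_off he _ _, e3]
    have := sqrt_div n β (u n (I.erase l) k σ ω a)
    rw [mul_div_assoc] at this
    rw [← this]
    ring
  rw [e1, e2, Finset.sum_add_distrib, ← Finset.mul_sum, ← Finset.sum_div]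
  ring

lemma tendsto_rt : Tendsto (rt (-1)) atTop (𝓝 0) := by
  have : rt (-1) = fun n : ℕ => (√(n : ℝ))⁻¹ := by funext n; simp [rt]
  rw [this]
  exact tendsto_inv_atTop_zero.comp (Real.tendsto_sqrt_atTop.comp tendsto_natCast_atTop_atTop)

theorem lln : LlnGlue := by
  intro hC hG hT hS h0 β ρ b c u h1 φ hφ N
  have hX := (h0 β ρ b c u h1).net
  set Ψ := ∫ z, φ (z + b.v) ∂gam b.m with hΨ
  have hB : ∀ {T : ℕ → Type} (A : ∀ n, T n → Prop) (I : ∀ n, T n → Finset (Fin n))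
      (l : ∀ n, T n → Fin n) a, Ob (PP β ρ) (rt 0) A
        fun n t ω => fieldOf c u n (I n t) (l n t) (one n) ω a := fun A I l a =>
    ob_re (hX.B a) (fun n t => ⟨I n t, one n, l n t, l n t, l n t⟩) fun _ _ _ => trivial
  have b0 : Ob (PP β ρ) (rt 0) (fun n (p : Ix n × Fin n) => Big N p.1.I ∧ p.2 ∈ p.1.I)
      fun n p ω => φ (fieldOf c u n p.1.I p.2 (one n) ω) :=
    (hT β ρ _ _ _ φ _ (hB _ (fun n (p : Ix n × Fin n) => p.1.I) fun n p => p.2)).1
      (hS.mono _ _ _ hφ)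
  have hA := (hC β ρ Ix fun n t => Big N t.I).2 (fun n t => t.I)
    (fun n t l ω => φ (fieldOf c u n t.I l (one n) ω))
    (fun n t l k ω => φ (fieldOf c u n (t.I.erase k) l (one n) ω)) b0
    (fun n t _ l hl k _ hlk ω ω' hω =>
      congrArg φ (net_ri hX (Finset.mem_erase.2 ⟨hlk, hl⟩) (one n) ω ω' hω))
    ⟨rt (-1), tendsto_rt, ((hT β ρ _ _ _ φ _
      (hB _ (fun n (p : Ix n × Fin n × Fin n) => p.1.I.erase p.2.2) fun n p => p.2.1)).2 _ _
      (hB _ (fun n (p : Ix n × Fin n × Fin n) => p.1.I) fun n p => p.2.1)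
      fun a => ob_re (A' := fun n (p : Ix n × Fin n × Fin n) =>
          Big N p.1.I ∧ p.2.1 ∈ p.1.I ∧ p.2.2 ∈ p.1.I ∧ p.2.1 ≠ p.2.2) (hX.D a)
        (fun n p => ⟨p.1.I, one n, p.2.1, p.2.2, p.2.2⟩) fun _ _ h => h.2.2.2.symm).1 hφ⟩
  have hE := (hC β ρ _ _).1 _ (fun n (p : Ix n × Fin n) => p.2) _ b0
  have big : ∀ n (p : Ix n × Fin n), Big N p.1.I ∧ p.2 ∈ p.1.I → Big (N + 1) (p.1.I.erase p.2) :=
    fun n p h => by
      have := Finset.pred_card_le_card_erase (s := p.1.I) (a := p.2)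
      have := h.1
      unfold Big at *
      omega
  have hY := oo_add
    (oo_fsum Finset.univ fun a => oo_fsum Finset.univ fun a' => oo_abs (oo_re (h1.gram a a' (N + 1))
      (fun n (p : Ix n × Fin n) => ⟨p.1.I.erase p.2, one n, p.2, p.2, p.2⟩) big))
    (oo_fsum Finset.univ fun a => oo_abs (oo_re (h1.mean a (N + 1))
      (fun n (p : Ix n × Fin n) => ⟨p.1.I.erase p.2, one n, p.2, p.2, p.2⟩) big))
  have hI := oo_avg (A := fun n (t : Ix n) => Big N t.I) (S := fun n t => t.I)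
      (oo_imp hE Ψ hY fun ε hε => by
    obtain ⟨δ, δ0, hδ⟩ := hG b.m φ hφ b.v ε hε
    refine ⟨δ, δ0, fun n p ω _ h => ?_⟩
    replace h := (le_abs_self _).trans h
    rw [Ei_eq h1.net]
    refine hδ n _ _ (fun a => le_trans ?_ h) fun a a' => le_trans ?_ h
    · refine le_add_of_nonneg_of_le (by positivity) ?_
      exact Finset.single_le_sum (f := fun a => |β * ((∑ l ∈ p.1.I.erase p.2,
        u n (p.1.I.erase p.2) l (one n) ω a) / n) + ρ * c a - b.g a|) (fun _ _ => abs_nonneg _)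
        (Finset.mem_univ a)
    · refine le_add_of_le_of_nonneg ?_ (by positivity)
      rw [WW_gram c (Finset.notMem_erase _ _)]
      refine le_trans ?_ (Finset.single_le_sum (fun _ _ => by positivity) (Finset.mem_univ a))
      exact Finset.single_le_sum (f := fun a' => |(∑ l ∈ p.1.I.erase p.2,
        u n (p.1.I.erase p.2) l (one n) ω a * u n (p.1.I.erase p.2) l (one n) ω a') / n +
          c a * c a' - if a = a' then 1 else 0|) (fun _ _ => abs_nonneg _) (Finset.mem_univ a'))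
  have hD : Oo (PP β ρ) (fun n (t : Ix n) => Big N t.I)
      fun n t _ => Ψ * ((t.I.card : ℝ) / n - 1) := by
    refine oo_iff.2 ⟨fun _ _ => measurable_const, fun q r hr => bd_det ?_⟩
    filter_upwards [(tendsto_const_div_atTop_nhds_zero_nat (|Ψ| * N)).eventually
      (ge_mem_nhds hr), eventually_gt_atTop 0] with n h2 hn t ht _
    have n0 : (0 : ℝ) < n := by exact_mod_cast hn
    have h3 : (t.I.card : ℝ) ≤ n := by
      exact_mod_cast (Finset.card_le_univ _).trans_eq (Fintype.card_fin n)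
    have h4 : (n : ℝ) ≤ t.I.card + N := by exact_mod_cast ht
    refine le_trans ?_ h2
    rw [abs_mul, mul_div_assoc, div_sub_one n0.ne', abs_div, abs_of_pos n0]
    gcongr
    exact abs_le.2 ⟨by linarith, by linarith⟩
  convert oo_add (oo_add hA hI) hD using 4 with n t ω
  simp only [Finset.sum_sub_distrib, Finset.sum_const, nsmul_eq_mul]
  ring

end Crest.Agent.T157.Rn.Lln6

namespace Crest.Agent.T157.Rn

theorem llnGlue : LlnGlue := Lln6.lln

end Crest.Agent.T157.Rn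

end
end

-- ▼ part T157/RnTay_16
section

/-!
# Row 157, block B/R: `Rn.TayStmt` (helper16)
-/

set_option autoImplicit false

noncomputable section

namespace Crest.Agent.T157.Rn

open Real Finset MeasureTheory Filter
open Crest.Agent.R238.Gap Crest.Agent.R238.GapPc Crest.Agent.R253.Meh74
open Crest.Agent.T157.Tw

namespace Tay16

variable {m : ℕ}

/-- `ℓ¹` norm -/
def nm (X : E m) : ℝ := ∑ a, |X a|

theorem nm_nonneg (X : E m) : 0 ≤ nm X := sum_nonneg fun _ _ => abs_nonneg _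

theorem norm_le_nm (X : E m) : ‖X‖ ≤ nm X := by
  rw [EuclideanSpace.norm_eq, sqrt_le_left (nm_nonneg X)]
  simpa [nm] using sum_sq_le_sq_sum_of_nonneg (s := univ) (f := fun a => |X a|)
    fun _ _ => abs_nonneg _

/-- remainders of order `k` -/
def Bd (k : ℕ) (R : E m → E m → ℝ) : Prop :=
  ∃ (K : ℝ) (p : ℕ), 0 ≤ K ∧ ∀ X Y, |R X Y| ≤ K * (1 + nm X + nm Y) ^ p * nm (Y - X) ^ k

theorem Bd.add {k : ℕ} {R S : E m → E m → ℝ} (h : Bd k R) (h' : Bd k S) :
    Bd k fun X Y => |R X Y| + |S X Y| := by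
  obtain ⟨K, p, hK, h⟩ := h
  obtain ⟨K', p', hK', h'⟩ := h'
  refine ⟨K + K', p + p', by positivity, fun X Y => ?_⟩
  have a0 : 1 ≤ 1 + nm X + nm Y := by linarith [nm_nonneg X, nm_nonneg Y]
  have d0 := pow_nonneg (nm_nonneg (Y - X)) k
  have a1 := mul_le_mul_of_nonneg_right (mul_le_mul_of_nonneg_left
    (pow_le_pow_right₀ a0 (Nat.le_add_right p p')) hK) d0
  have a2 := mul_le_mul_of_nonneg_right (mul_le_mul_of_nonneg_left
    (pow_le_pow_right₀ a0 (Nat.le_add_left p' p)) hK') d0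
  rw [abs_of_nonneg (by positivity)]
  linarith [h X Y, h' X Y]

theorem Bd.sum {k : ℕ} {ι : Type} (S : Finset ι) {R : ι → E m → E m → ℝ} (h : ∀ a, Bd k (R a)) :
    Bd k fun X Y => ∑ a ∈ S, |R a X Y| := by
  classical
  induction S using Finset.induction_on with
  | empty => exact ⟨0, 0, le_rfl, fun X Y => by simp⟩
  | insert a s ha ih =>
    have := (h a).add ih
    have e : ∀ X Y, abs (∑ a ∈ s, |R a X Y|) = ∑ a ∈ s, |R a X Y| := fun X Y =>
      abs_of_nonneg (sum_nonneg fun _ _ => abs_nonneg _)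
    simpa only [sum_insert ha, e] using this

theorem Bd.step {k : ℕ} {R : E m → E m → ℝ} {S : Fin m → E m → E m → ℝ} (hS : ∀ a, Bd k (S a))
    (h0 : ∀ X, R X X = 0) (hd : ∀ (X v : E m) (r : ℝ),
      HasDerivAt (fun r : ℝ => R X (X + r • v)) (∑ a, S a X (X + r • v) * v a) r) :
    Bd (k + 1) R := by
  obtain ⟨K, p, hK, h⟩ := Bd.sum univ hS
  refine ⟨K * 2 ^ p, p, by positivity, fun X Y => ?_⟩
  have n1 := nm_nonneg X
  have n2 := nm_nonneg Y
  have n3 := nm_nonneg (Y - X)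
  have := Sm16.mvt (a := 0) (b := 1) (C := K * 2 ^ p * (1 + nm X + nm Y) ^ p * nm (Y - X) ^ (k + 1))
    (hd X (Y - X)) fun r hr => by
      rw [Set.uIcc_of_le zero_le_one] at hr
      have b1 : nm (X + r • (Y - X)) ≤ nm X + nm Y := by
        simp only [nm, ← sum_add_distrib]
        refine sum_le_sum fun a _ => ?_
        have : (X + r • (Y - X)) a = (1 - r) * X a + r * Y a := by simp; ring
        rw [this]
        refine (abs_add_le _ _).trans (add_le_add ?_ ?_)
        · rw [abs_mul, abs_of_nonneg (sub_nonneg.2 hr.2)]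
          exact mul_le_of_le_one_left (abs_nonneg _) (by linarith [hr.1])
        · rw [abs_mul, abs_of_nonneg hr.1]
          exact mul_le_of_le_one_left (abs_nonneg _) hr.2
      have b2 : nm (X + r • (Y - X) - X) ≤ nm (Y - X) := by
        refine sum_le_sum fun a _ => ?_
        have : (X + r • (Y - X) - X) a = r * (Y - X) a := by simp
        rw [this, abs_mul, abs_of_nonneg hr.1]
        exact mul_le_of_le_one_left (abs_nonneg _) hr.2
      have b3 : |∑ a, S a X (X + r • (Y - X)) * (Y - X) a| ≤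
          (∑ a, |S a X (X + r • (Y - X))|) * nm (Y - X) := by
        rw [sum_mul]
        refine (abs_sum_le_sum_abs _ _).trans (sum_le_sum fun a _ => ?_)
        rw [abs_mul]
        exact mul_le_mul_of_nonneg_left (single_le_sum (f := fun a => |(Y - X) a|)
          (fun _ _ => abs_nonneg _) (mem_univ a)) (abs_nonneg _)
      have b4 := (le_abs_self _).trans (h X (X + r • (Y - X)))
      have b5 : (1 + nm X + nm (X + r • (Y - X))) ^ p ≤ 2 ^ p * (1 + nm X + nm Y) ^ p := by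
        rw [← mul_pow]
        exact pow_le_pow_left₀ (by linarith [nm_nonneg (X + r • (Y - X))]) (by linarith) p
      have b6 := mul_le_mul (mul_le_mul_of_nonneg_left b5 hK) (pow_le_pow_left₀ (nm_nonneg _) b2 k)
        (pow_nonneg (nm_nonneg _) k) (by positivity)
      have b7 := mul_le_mul_of_nonneg_right (b4.trans b6) n3
      rw [pow_succ]
      linarith
  simpa [h0] using this

theorem seg {φ : E m → ℝ} (h : C1 φ) (X v : E m) (r : ℝ) :
    HasDerivAt (fun r : ℝ => φ (X + r • v)) (∑ a, pd a φ (X + r • v) * v a) r := by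
  have h1 : HasDerivAt (fun r : ℝ => X + r • v) v r := by
    simpa using ((hasDerivAt_id r).smul_const v).const_add X
  refine ((h.diff _).hasFDerivAt.comp_hasDerivAt r h1).congr_deriv ?_
  rw [fderiv_apply_eq_sum]
  exact sum_congr rfl fun a _ => mul_comm _ _

theorem bd0 {φ : E m → ℝ} (h : PG φ) : Bd 0 fun _ Y => φ Y := by
  obtain ⟨K, p, hK, h⟩ := pg_nonneg h
  refine ⟨K, p, hK, fun X Y => (h Y).trans ?_⟩
  rw [pow_zero, mul_one]
  exact mul_le_mul_of_nonneg_left (pow_le_pow_left₀ (by positivity)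
    (by linarith [norm_le_nm Y, nm_nonneg X]) p) hK

theorem bd1 {φ : E m → ℝ} (h : Tm 1 φ) : Bd 1 fun X Y => φ Y - φ X :=
  Bd.step (fun a => bd0 (h.2 a).2) (fun _ => sub_self _) fun X v r => (seg h.1 X v r).sub_const _

theorem bd2 {φ : E m → ℝ} (h : Tm 2 φ) :
    Bd 2 fun X Y => φ Y - φ X - ∑ a, pd a φ X * (Y a - X a) :=
  Bd.step (fun a => bd1 (h.2 a)) (fun _ => by simp) fun X v r => by
    have h1 := ((seg h.1 X v r).sub_const (φ X)).sub
      ((hasDerivAt_id r).mul_const (∑ a, pd a φ X * v a))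
    refine (h1.congr_of_eventuallyEq (.of_forall fun r => ?_)).congr_deriv ?_
    · simp only [PiLp.add_apply, PiLp.smul_apply, smul_eq_mul, add_sub_cancel_left, Pi.sub_apply,
        id, mul_sum]
      congr 1
      exact sum_congr rfl fun a _ => by ring
    · simp only [sub_mul, sum_sub_distrib, one_mul]

theorem bd3 {φ : E m → ℝ} (h : Tm 3 φ) :
    Bd 3 fun X Y => φ Y - φ X - ∑ a, pd a φ X * (Y a - X a) -
      (∑ a, ∑ a', pd a (pd a' φ) X * ((Y a - X a) * (Y a' - X a'))) / 2 :=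
  Bd.step (fun a => bd2 (h.2 a)) (fun _ => by simp) fun X v r => by
    have h1 := (((seg h.1 X v r).sub_const (φ X)).sub
      ((hasDerivAt_id r).mul_const (∑ a, pd a φ X * v a))).sub
      (((hasDerivAt_pow 2 r).mul_const (∑ a, ∑ a', pd a (pd a' φ) X * (v a * v a'))).div_const 2)
    refine (h1.congr_of_eventuallyEq (.of_forall fun r => ?_)).congr_deriv ?_
    · simp only [PiLp.add_apply, PiLp.smul_apply, smul_eq_mul, add_sub_cancel_left, Pi.sub_apply,
        id, mul_sum]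
      congr 2
      · exact sum_congr rfl fun a _ => by ring
      · exact sum_congr rfl fun a _ => sum_congr rfl fun a' _ => by ring
    · simp only [PiLp.add_apply, PiLp.smul_apply, smul_eq_mul, add_sub_cancel_left, sub_mul,
        sum_sub_distrib, one_mul, sum_mul]
      congr 1
      rw [sum_comm (f := fun x x_1 => pd x_1 (pd x φ) X * (r * v x_1) * v x), show ((2 : ℕ) : ℝ) * r ^ (2 - 1) * (∑ a, ∑ a', pd a (pd a' φ) X * (v a * v a'))
        / 2 = r * ∑ a, ∑ a', pd a (pd a' φ) X * (v a * v a') by norm_num; ring]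
      simp only [mul_sum]
      exact sum_congr rfl fun a _ => sum_congr rfl fun a' _ => by ring

section ob
variable {Ω : ℕ → Type} [∀ n, MeasurableSpace (Ω n)] {T : ℕ → Type} {P : ∀ n, Measure (Ω n)}
  [∀ n, IsProbabilityMeasure (P n)] {a d : ℕ → ℝ} {A : ∀ n, T n → Prop}
  {X Y : ∀ n, T n → Ω n → E m}

omit [∀ n, IsProbabilityMeasure (P n)] in
theorem measV (hX : ∀ i, Ob P a A fun n t ω => X n t ω i) (n : ℕ) (t : T n) :
    Measurable (X n t) :=
  (WithLp.measurable_toLp 2 _).comp (measurable_pi_lambda (fun ω i => X n t ω i) fun i => (hX i).1 n t)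

theorem Bd.ob {k : ℕ} {R : E m → E m → ℝ} (h : Bd k R) (hc : Continuous fun p : E m × E m => R p.1 p.2)
    (hX : ∀ i, Ob P (rt 0) A fun n t ω => X n t ω i) (hY : ∀ i, Ob P (rt 0) A fun n t ω => Y n t ω i)
    (hd : ∀ i, Ob P d A fun n t ω => Y n t ω i - X n t ω i) :
    Ob P (fun n => d n ^ k) A fun n t ω => R (X n t ω) (Y n t ω) := by
  obtain ⟨K, p, -, h⟩ := h
  have h1 : Ob P (rt 0) A fun n t ω => (1 : ℝ) :=
    Ob.bdd (fun _ _ => measurable_const) 1 (.of_forall fun _ _ _ _ => by simp)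
  have h2 := ((((h1.add (Ob.fsum fun i => (hX i).abs)).add (Ob.fsum fun i => (hY i).abs)).pow0 p).smul
    K).mul_left ((Ob.fsum fun i => (hd i).abs).pow k)
  exact h2.of_le (fun n t => hc.measurable.comp ((measV hX n t).prodMk (measV hY n t)))
    (.of_forall fun n t _ ω => h _ _)

end ob

end Tay16

open Tay16

theorem tayStmt : TayStmt := by
  intro β ρ T A m φ X hX
  refine ⟨fun h => ?_, fun Y d hY hd => ⟨fun h => ?_, fun h => ?_, fun h => ?_⟩⟩
  · exact ((bd0 h.2).ob (d := rt 0) (h.1.comp continuous_snd) hX hX fun i => (hX i).sub (hX i)).mono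
      1 (.of_forall fun n => by simp [rt])
  · have c := h.1.cont
    exact ((bd1 h).ob (by fun_prop) hX hY hd).mono 1 (.of_forall fun n => by simp)
  · have c := h.1.cont
    have c1 := h.1.contp
    exact (bd2 h).ob (by fun_prop) hX hY hd
  · have c := h.1.cont
    have c1 := h.1.contp
    have c2 := fun a a' => (h.2 a').1.contp a
    exact (bd3 h).ob (by fun_prop) hX hY hd

end Crest.Agent.T157.Rn

end
end

-- ▼ part T157/RnX0_15
section

/-!
# Row 157, block B/R: `X0Glue` and `BaseGlue` (helper15)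
-/

set_option autoImplicit false
set_option maxHeartbeats 400000
set_option synthInstance.maxHeartbeats 40000

noncomputable section

namespace Crest.Agent.T157.Rn

open MeasureTheory ProbabilityTheory Real Matrix Filter Topology
open Crest.Agent.R238.Gap Crest.Agent.R238.GapPc Crest.Agent.R253.Meh74
open Crest.Agent.T157.E (Cube)
open Crest.Agent.T157.Tw
open Crest.Agent.T157.Pl (one cmul)
open scoped NNReal ENNReal

namespace X15

section order
variable {Ω : ℕ → Type} [∀ n, MeasurableSpace (Ω n)] {T T' : ℕ → Type} {P : ∀ n, Measure (Ω n)}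
  {a b : ℕ → ℝ} {A : ∀ n, T n → Prop} {X Y Z : ∀ n, T n → Ω n → ℝ}

theorem ob_re {A' : ∀ n, T' n → Prop} (h : Ob P a A X) (r : ∀ n, T' n → T n)
    (hA : ∀ n t, A' n t → A n (r n t)) : Ob P a A' fun n t => X n (r n t) :=
  ⟨fun _ _ => h.1 _ _, fun q => (h.2 q).imp fun _ hC => hC.mono fun n hn t ht => hn _ (hA n t ht)⟩

theorem ob_add (hX : Ob P a A X) (hY : Ob P a A Y) (hm : ∀ n t, Measurable (Z n t))
    (h : ∀ n t, A n t → ∀ ω, |Z n t ω| ≤ |X n t ω| + |Y n t ω|) : Ob P a A Z := by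
  refine ⟨hm, fun q => ?_⟩
  rcases Nat.eq_zero_or_pos q with rfl | hq
  · exact ⟨0, .of_forall fun n t _ => by simp⟩
  obtain ⟨C, hC⟩ := hX.2 q
  obtain ⟨D, hD⟩ := hY.2 q
  refine ⟨C + D, ?_⟩
  filter_upwards [hC, hD] with n h1 h2 t ht
  calc eLpNorm (Z n t) q (P n)
      ≤ eLpNorm ((fun ω => ‖X n t ω‖) + fun ω => ‖Y n t ω‖) q (P n) :=
        eLpNorm_mono_real fun ω => h n t ht ω
    _ ≤ eLpNorm (fun ω => ‖X n t ω‖) q (P n) + eLpNorm (fun ω => ‖Y n t ω‖) q (P n) :=
        eLpNorm_add_le (hX.1 n t).norm.aestronglyMeasurable (hY.1 n t).norm.aestronglyMeasurable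
          (by exact_mod_cast hq)
    _ ≤ _ := by
        rw [eLpNorm_norm, eLpNorm_norm, ENNReal.coe_add, add_mul]
        exact add_le_add (h1 t ht) (h2 t ht)

theorem ob_mul (hX : Ob P a A X) (hY : Ob P b A Y) :
    Ob P (fun n => a n * b n) A fun n t ω => X n t ω * Y n t ω := by
  refine ⟨fun n t => (hX.1 n t).mul (hY.1 n t), fun q => ?_⟩
  obtain ⟨C, hC⟩ := hX.2 (2 * q)
  obtain ⟨D, hD⟩ := hY.2 (2 * q)
  refine ⟨C * D, ?_⟩
  have : ENNReal.HolderTriple ((2 * q : ℕ) : ℝ≥0∞) ((2 * q : ℕ) : ℝ≥0∞) (q : ℝ≥0∞) := ⟨by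
    push_cast
    rw [ENNReal.mul_inv (by simp) (by simp), ← add_mul, ENNReal.inv_two_add_inv_two, one_mul]⟩
  filter_upwards [hC, hD] with n h1 h2 t ht
  calc _ ≤ eLpNorm (X n t) (2 * q : ℕ) (P n) * eLpNorm (Y n t) (2 * q : ℕ) (P n) :=
        eLpNorm_smul_le_mul_eLpNorm (hY.1 n t).aestronglyMeasurable (hX.1 n t).aestronglyMeasurable
    _ ≤ (C * ‖a n‖ₑ) * (D * ‖b n‖ₑ) := mul_le_mul' (h1 t ht) (h2 t ht)
    _ = _ := by rw [enorm_mul, ENNReal.coe_mul]; ring

theorem ob_dom (hX : Ob P a A X) (K : ℝ) (hm : ∀ n t, Measurable (Z n t))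
    (h : ∀ n t, A n t → ∀ ω, Z n t ω = K * X n t ω) : Ob P a A Z := by
  refine ⟨hm, fun q => ?_⟩
  obtain ⟨C, hC⟩ := hX.2 q
  refine ⟨‖K‖₊ * C, hC.mono fun n h1 t ht => ?_⟩
  have e : Z n t = K • X n t := funext (h n t ht)
  rw [e, eLpNorm_const_smul, ENNReal.coe_mul, mul_assoc]
  exact mul_le_mul_right (h1 t ht) _



end order

theorem rt_mul0 : (fun n => rt (-1) n * rt 0 n) = rt (-1) := funext fun n => by simp [rt]

theorem rt_mul1 : (fun n => rt (-1) n * rt (-1) n) = rt (-2) := funext fun n => by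
  simp [rt, _root_.zpow_neg, zpow_ofNat, sq, -Real.sq_sqrt, -Real.mul_self_sqrt]

variable {n m : ℕ} {β ρ : ℝ}


theorem sg_sq (s : Bool) : sg s * sg s = 1 := by cases s <;> simp [sg]

theorem meas_co {u : Fm m} (h : ∀ n I l σ, Measurable (u n I l σ)) (I : Finset (Fin n)) (l : Fin n)
    (σ : Cube n) (a : Fin m) : Measurable fun ω => u n I l σ ω a :=
  (measurable_pi_apply a).comp ((WithLp.measurable_ofLp _ _).comp (h n I l σ))

theorem msub {f g : Env n → ℝ} (hf : Measurable f) (hg : Measurable g) :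
    Measurable fun ω => f ω - g ω := hf.sub hg

theorem mmul {f g : Env n → ℝ} (hf : Measurable f) (hg : Measurable g) :
    Measurable fun ω => f ω * g ω := hf.mul hg

theorem meas_J (i l : Fin n) : Measurable fun ω : Env n => J ω i l :=
  (measurable_pi_apply _).div_const _

theorem ri {u : Fm m} (h : Net β ρ u) {K : Finset (Fin n)} {i l : Fin n} (hi : i ∉ K) (hl : l ∈ K)
    (σ : Cube n) : RI i (u n K l σ) := fun ω ω' hω =>
  h.loc n K l σ σ ω ω' hl (fun _ _ => rfl) fun a ha b hb _ => hω _ (by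
    rw [Sym2.mem_iff]
    rintro (rfl | rfl)
    · exact hi ha
    · exact hi hb)

theorem sum_split {K : Finset (Fin n)} (k : Fin n) (f : Fin n → ℝ) :
    |∑ l ∈ K, f l| ≤ |f k| + |∑ l ∈ K.erase k, f l| := by
  by_cases hk : k ∈ K
  · rw [← Finset.add_sum_erase _ _ hk]; exact abs_add_le _ _
  · rw [Finset.erase_eq_of_notMem hk]; exact le_add_of_nonneg_left (abs_nonneg _)

theorem del_eq (c : Fin m → ℝ) (u : Fm m) (I : Finset (Fin n)) (i j : Fin n) (σ : Cube n)
    (ω : Env n) (a : Fin m) : fieldOf c u n I i σ ω a - fieldOf c u n (I.erase j) i σ ω a =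
      (if j ∈ I.erase i then J ω i j * u n (I.erase i) j σ ω a else 0) +
      ∑ l ∈ (I.erase i).erase j,
        J ω i l * (u n (I.erase i) l σ ω a - u n ((I.erase i).erase j) l σ ω a) := by
  simp only [fieldOf, Finset.erase_right_comm (a := j) (b := i), mul_sub, Finset.sum_sub_distrib]
  split_ifs with hj
  · rw [← Finset.add_sum_erase _ _ hj]; ring
  · rw [Finset.erase_eq_of_notMem hj]; ring

theorem abs_ite {p : Prop} [Decidable p] (x : ℝ) : |if p then x else 0| ≤ |x| := by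
  split_ifs <;> simp

end X15

open X15

theorem x0Glue : X0Glue := by
  intro hL β ρ b c u h
  obtain ⟨hE, hJ, hlin⟩ := hL β ρ
  have hu := h.net
  have hmeas : ∀ n I l σ, Measurable (fieldOf c u n I l σ) := fun n I l σ =>
    (WithLp.measurable_toLp _ _).comp (measurable_pi_lambda _ fun a =>
      ((measurable_pi_apply _).const_mul _).add (Finset.measurable_sum _ fun k _ =>
        (meas_J _ _).mul (meas_co hu.meas _ _ _ _)))
  have hco := fun n => meas_co (n := n) hmeas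
  have mu := fun n => meas_co (n := n) hu.meas
  refine ⟨⟨hmeas, ?_, ?_, fun a => ?_, fun a => ?_, fun a => ?_, fun a => ?_⟩, ?_, ?_⟩
  · intro n I i σ σ' ω ω' hi hσ hω
    ext a
    simp only [fieldOf]
    congr 1
    · by_cases hρ : ρ = 0
      · simp [h.hc0 hρ]
      · rw [hω i hi i hi (.inr hρ)]
    · refine Finset.sum_congr rfl fun l hl => ?_
      have hl' := Finset.mem_erase.1 hl
      rw [J, J, hω i hi l hl'.2 (.inl hl'.1.symm), hu.loc n _ l σ σ' ω ω' hl
        (fun k hk => hσ k (Finset.mem_of_mem_erase hk)) fun a ha b hb =>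
          hω a (Finset.mem_of_mem_erase ha) b (Finset.mem_of_mem_erase hb)]
  · intro n I i σ z ω
    ext a
    simp only [fieldOf, PiLp.smul_apply, smul_eq_mul, mul_add, Finset.mul_sum]
    congr 1
    · simp only [gz, Sym2.lift_mk, if_true]; ring
    · refine Finset.sum_congr rfl fun l hl => ?_
      have hl' := (Finset.mem_erase.1 hl).1
      rw [hu.gau]
      simp only [J, gz, Sym2.lift_mk, if_neg hl'.symm, PiLp.smul_apply, smul_eq_mul]
      linear_combination (sg (z i) * ω s(i, l) / √n * u n (I.erase i) l σ ω a) * sg_sq (z l)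
  · refine ob_add (ob_dom (Z := fun n (t : Ix n) ω => c a * ω s(t.i, t.i))
      (ob_re hE (fun n t => (t.i, t.i)) fun _ _ _ => trivial) (c a)
        (fun n t => (measurable_pi_apply _).const_mul _) fun _ _ _ _ => rfl)
      (hlin Ix (fun _ _ => True) (rt 0) (fun _ t => t.i) (fun _ t => t.I.erase t.i)
        (fun n t l ω => u n (t.I.erase t.i) l t.σ ω a)
        (fun n t _ => ⟨Finset.notMem_erase _ _, fun l hl ω ω' hω => by
          beta_reduce
          rw [ri hu (Finset.notMem_erase _ _) hl _ ω ω' hω]⟩)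
        (ob_re (hu.B a) (fun n (p : Ix n × Fin n) => ⟨p.1.I.erase p.1.i, p.1.σ, p.2, p.2, p.2⟩)
          fun _ _ _ => trivial))
      (fun n t => hco n _ _ _ _) fun n t _ ω => abs_add_le _ _
  · have h1 := ob_mul (ob_re (A' := fun n (t : Ix n) => t.k ≠ t.i) hJ (fun n t => (t.i, t.k))
        fun _ _ _ => trivial)
      (ob_add (Z := fun n (t : Ix n) ω => u n (t.I.erase t.i) t.k t.σ ω a -
          u n (t.I.erase t.i) t.k (fl t.σ t.k) ω a)
        (ob_re (hu.B a) (fun n t => ⟨t.I.erase t.i, t.σ, t.k, t.k, t.k⟩) fun _ _ _ => trivial)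
        (ob_re (hu.B a) (fun n t => ⟨t.I.erase t.i, fl t.σ t.k, t.k, t.k, t.k⟩)
          fun _ _ _ => trivial)
        (fun n t => msub (mu n _ _ _ _) (mu n _ _ _ _))
        fun _ _ _ _ => abs_sub _ _)
    rw [rt_mul0] at h1
    refine ob_add h1 (hlin Ix _ (rt (-1)) (fun _ t => t.i) (fun _ t => (t.I.erase t.i).erase t.k)
      (fun n t l ω => u n (t.I.erase t.i) l t.σ ω a - u n (t.I.erase t.i) l (fl t.σ t.k) ω a)
      (fun n t _ => ⟨by simp, fun l hl ω ω' hω => by
        beta_reduce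
        have hl' := Finset.mem_of_mem_erase hl
        rw [ri hu (Finset.notMem_erase _ _) hl' t.σ ω ω' hω,
          ri hu (Finset.notMem_erase _ _) hl' (fl t.σ t.k) ω ω' hω]⟩)
      (ob_re (hu.F a) (fun n (p : Ix n × Fin n) => ⟨p.1.I.erase p.1.i, p.1.σ, p.2, p.2, p.1.k⟩)
        fun _ _ hp => (Finset.mem_erase.1 hp.2).1.symm))
      (fun n t => msub (hco n _ _ _ _) (hco n _ _ _ _)) fun n t _ ω => ?_
    refine le_trans (le_of_eq (congrArg _ ?_)) (sum_split t.k fun l => J ω t.i l *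
      (u n (t.I.erase t.i) l t.σ ω a - u n (t.I.erase t.i) l (fl t.σ t.k) ω a))
    simp only [fieldOf, mul_sub, Finset.sum_sub_distrib]; ring
  · have h1 := ob_mul (ob_re (A' := fun n (t : Ix n) => t.j ≠ t.i) hJ (fun n t => (t.i, t.j))
        fun _ _ _ => trivial)
      (ob_re (hu.B a) (fun n t => ⟨t.I.erase t.i, t.σ, t.j, t.j, t.j⟩) fun _ _ _ => trivial)
    rw [rt_mul0] at h1
    refine ob_add h1 (hlin Ix _ (rt (-1)) (fun _ t => t.i) (fun _ t => (t.I.erase t.i).erase t.j)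
      (fun n t l ω => u n (t.I.erase t.i) l t.σ ω a - u n ((t.I.erase t.i).erase t.j) l t.σ ω a)
      (fun n t _ => ⟨by simp, fun l hl ω ω' hω => by
        beta_reduce
        rw [ri hu (Finset.notMem_erase _ _) (Finset.mem_of_mem_erase hl) t.σ ω ω' hω,
          ri hu (i := t.i) (by simp) hl t.σ ω ω' hω]⟩)
      (ob_re (hu.D a) (fun n (p : Ix n × Fin n) => ⟨p.1.I.erase p.1.i, p.1.σ, p.2, p.1.j, p.2⟩)
        fun _ _ hp => (Finset.mem_erase.1 hp.2).1.symm))
      (fun n t => msub (hco n _ _ _ _) (hco n _ _ _ _)) fun n t _ ω => ?_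
    rw [del_eq]
    exact (abs_add_le _ _).trans (add_le_add_left (abs_ite _) _)
  · let A : ∀ n, Ix n → Prop := fun n t => t.k ≠ t.i ∧ t.j ≠ t.i ∧ t.k ≠ t.j
    have h1 := ob_mul (ob_re (A' := A) hJ (fun n t => (t.i, t.j)) fun _ _ _ => trivial)
      (ob_re (hu.F a) (fun n t => ⟨t.I.erase t.i, t.σ, t.j, t.j, t.k⟩) fun _ _ ht => ht.2.2)
    have h2 := ob_mul (ob_re (A' := A) hJ (fun n t => (t.i, t.k)) fun _ _ _ => trivial)
      (ob_add (Z := fun n (t : Ix n) ω => u n (t.I.erase t.i) t.k t.σ ω a -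
          u n ((t.I.erase t.i).erase t.j) t.k t.σ ω a - (u n (t.I.erase t.i) t.k (fl t.σ t.k) ω a -
          u n ((t.I.erase t.i).erase t.j) t.k (fl t.σ t.k) ω a))
        (ob_re (hu.D a) (fun n t => ⟨t.I.erase t.i, t.σ, t.k, t.j, t.k⟩) fun _ _ ht => ht.2.2.symm)
        (ob_re (hu.D a) (fun n t => ⟨t.I.erase t.i, fl t.σ t.k, t.k, t.j, t.k⟩)
          fun _ _ ht => ht.2.2.symm)
        (fun n t => msub (msub (mu n _ _ _ _) (mu n _ _ _ _)) (msub (mu n _ _ _ _) (mu n _ _ _ _)))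
        fun _ _ _ _ => abs_sub _ _)
    rw [rt_mul1] at h1 h2
    have h3 := hlin Ix A (rt (-2)) (fun _ t => t.i)
      (fun _ t => ((t.I.erase t.i).erase t.j).erase t.k)
      (fun n t l ω => u n (t.I.erase t.i) l t.σ ω a - u n (t.I.erase t.i) l (fl t.σ t.k) ω a -
        (u n ((t.I.erase t.i).erase t.j) l t.σ ω a -
          u n ((t.I.erase t.i).erase t.j) l (fl t.σ t.k) ω a))
      (fun n t _ => ⟨by simp, fun l hl ω ω' hω => by
        beta_reduce
        have hl1 := Finset.mem_of_mem_erase hl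
        have hl2 := Finset.mem_of_mem_erase hl1
        rw [ri hu (Finset.notMem_erase _ _) hl2 t.σ ω ω' hω,
          ri hu (Finset.notMem_erase _ _) hl2 (fl t.σ t.k) ω ω' hω,
          ri hu (i := t.i) (by simp) hl1 t.σ ω ω' hω,
          ri hu (i := t.i) (by simp) hl1 (fl t.σ t.k) ω ω' hω]⟩)
      (ob_re (hu.FD a) (fun n (p : Ix n × Fin n) => ⟨p.1.I.erase p.1.i, p.1.σ, p.2, p.1.j, p.1.k⟩)
        fun _ _ hp => ⟨(Finset.mem_erase.1 hp.2).1.symm,
          (Finset.mem_erase.1 (Finset.mem_of_mem_erase hp.2)).1.symm, hp.1.2.2⟩)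
    refine ob_add h1 (ob_add (Z := fun n (t : Ix n) ω => ∑ l ∈ (t.I.erase t.i).erase t.j,
        J ω t.i l * (u n (t.I.erase t.i) l t.σ ω a - u n (t.I.erase t.i) l (fl t.σ t.k) ω a -
        (u n ((t.I.erase t.i).erase t.j) l t.σ ω a -
          u n ((t.I.erase t.i).erase t.j) l (fl t.σ t.k) ω a))) h2 h3
      (fun n t => Finset.measurable_sum _ fun l _ => mmul (meas_J _ _)
        (msub (msub (mu n _ _ _ _) (mu n _ _ _ _)) (msub (mu n _ _ _ _) (mu n _ _ _ _))))
      fun n t _ ω => ?_)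
      (fun n t => msub (msub (hco n _ _ _ _) (hco n _ _ _ _)) (msub (hco n _ _ _ _) (hco n _ _ _ _)))
      fun n t _ ω => ?_
    · refine (sum_split t.k _).trans (le_of_eq ?_)
      congr 2; ring
    · rw [sub_sub_sub_comm, del_eq, del_eq, add_sub_add_comm, ← Finset.sum_sub_distrib]
      refine (abs_add_le _ _).trans (add_le_add ?_ (le_of_eq (congrArg _ ?_)))
      · split_ifs
        · rw [mul_sub]
        · simp [-abs_mul]
      · exact Finset.sum_congr rfl fun l _ => by ring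
  · intro n I i σ ω
    ext a
    simp only [fieldOf]
    congr 1
    refine Finset.sum_congr rfl fun l hl => ?_
    rw [hu.loc n _ l (fl σ i) σ ω ω hl (fun k hk => Function.update_of_ne
      (Finset.mem_erase.1 hk).1 _ _) fun _ _ _ _ _ => rfl]
  · intro n I i σ ω
    have e : fld b 0 (fieldOf c u n I i σ ω) = ∑ a, b.g a * fieldOf c u n I i σ ω a := by
      simp [fld, Bath.v, PiLp.inner_apply, mul_comm]
    rw [e, hf, ← h.hc, dotProduct, Finset.sum_mul, Finset.mul_sum]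
    simp only [fieldOf, mul_add, Finset.sum_add_distrib, Finset.mul_sum]
    congr 1
    · exact Finset.sum_congr rfl fun a _ => by ring
    · rw [Finset.sum_comm]
      refine Finset.sum_congr rfl fun l _ => ?_
      rw [mul_left_comm, ← h.span n (I.erase i) l σ ω, Finset.mul_sum]
      exact Finset.sum_congr rfl fun a _ => by ring

namespace X15

variable {n m : ℕ} {β ρ : ℝ}

/-- the first layer -/
def u0 (α : Fin m → ℝ) : Fm m := fun _ _ l σ _ => WithLp.toLp 2 fun a => α a * sg (σ l)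







end X15


end Crest.Agent.T157.Rn

end
end

-- ▼ part T157/RnV_66
section

/-!
# Row 157, block B/R (helper66): the value layer (`Rn.V1Glue`, `Rn.V23Glue`)
-/

set_option autoImplicit false

noncomputable section

namespace Crest.Agent.T157.Rn

open MeasureTheory ProbabilityTheory Real Matrix Filter Topology
open Crest.Agent.R238.Gap Crest.Agent.R238.GapPc Crest.Agent.R253.Meh74
open Crest.Agent.T157.E (Cube)
open Crest.Agent.T157.Tw
open Crest.Agent.T157.Pl (one cmul)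
open scoped NNReal ENNReal

namespace V66

section order
variable {Ω : ℕ → Type} [∀ n, MeasurableSpace (Ω n)] {T T' : ℕ → Type} {P : ∀ n, Measure (Ω n)}
  {a b : ℕ → ℝ} {A : ∀ n, T n → Prop} {A' : ∀ n, T' n → Prop} {X Y : ∀ n, T n → Ω n → ℝ}

lemma ob_reindex (h : Ob P a A X) (r : ∀ n, T' n → T n) (hA : ∀ n t, A' n t → A n (r n t)) :
    Ob P a A' fun n t => X n (r n t) :=
  ⟨fun n _ => h.1 n _, fun q => (h.2 q).imp fun _ hC => hC.mono fun n hn t ht => hn _ (hA n t ht)⟩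

lemma ob_congr (h : Ob P a A X) (hY : ∀ n t, Measurable (Y n t))
    (e : ∀ n t, A n t → ∀ ω, Y n t ω = X n t ω) : Ob P a A Y :=
  ⟨hY, fun q => (h.2 q).imp fun _ hC => hC.mono fun n hn t ht => by
    rw [funext (e n t ht)]; exact hn t ht⟩

lemma ob_mono (h : Ob P a A X) (e : ∀ᶠ n in atTop, |a n| ≤ |b n|) : Ob P b A X :=
  ⟨h.1, fun q => (h.2 q).imp fun _ hC => (hC.and e).mono fun n hn t ht => (hn.1 t ht).trans <| by
    gcongr
    rw [enorm_eq_nnnorm, enorm_eq_nnnorm]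
    exact_mod_cast hn.2⟩

lemma ob_add (h : Ob P a A X) (h' : Ob P a A Y) : Ob P a A fun n t ω => X n t ω + Y n t ω := by
  refine ⟨fun n t => (h.1 n t).add (h'.1 n t), fun q => ?_⟩
  obtain ⟨C, hC⟩ := h.2 q
  obtain ⟨C', hC'⟩ := h'.2 q
  refine ⟨C + C', (hC.and hC').mono fun n hn t ht => ?_⟩
  rcases Nat.eq_zero_or_pos q with rfl | hq
  · simp
  refine (eLpNorm_add_le (h.1 n t).aestronglyMeasurable (h'.1 n t).aestronglyMeasurable
    (by exact_mod_cast hq)).trans ?_
  rw [ENNReal.coe_add, add_mul]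
  exact add_le_add (hn.1 t ht) (hn.2 t ht)

lemma ob_smul (c : ℝ) (h : Ob P a A X) : Ob P a A fun n t ω => c * X n t ω := by
  refine ⟨fun n t => (h.1 n t).const_mul c, fun q => ?_⟩
  obtain ⟨C, hC⟩ := h.2 q
  refine ⟨‖c‖₊ * C, hC.mono fun n hn t ht => ?_⟩
  refine (eLpNorm_const_smul_le (c := c) (f := X n t)).trans ?_
  rw [ENNReal.coe_mul, mul_assoc]
  exact mul_le_mul_right (hn t ht) _

lemma ob_sub (h : Ob P a A X) (h' : Ob P a A Y) : Ob P a A fun n t ω => X n t ω - Y n t ω := by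
  simpa [sub_eq_add_neg] using ob_add h (ob_smul (-1) h')

lemma ob_mul (h : Ob P a A X) (h' : Ob P b A Y) :
    Ob P (fun n => a n * b n) A fun n t ω => X n t ω * Y n t ω := by
  refine ⟨fun n t => (h.1 n t).mul (h'.1 n t), fun q => ?_⟩
  obtain ⟨C, hC⟩ := h.2 (2 * q)
  obtain ⟨C', hC'⟩ := h'.2 (2 * q)
  refine ⟨C * C', (hC.and hC').mono fun n hn t ht => ?_⟩
  have : ENNReal.HolderTriple ((2 * q : ℕ) : ℝ≥0∞) ((2 * q : ℕ) : ℝ≥0∞) (q : ℝ≥0∞) := ⟨by
    rw [Nat.cast_mul, Nat.cast_ofNat, ENNReal.mul_inv (by simp) (by simp), ← add_mul,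
      ENNReal.inv_two_add_inv_two, one_mul]⟩
  refine (eLpNorm_smul_le_mul_eLpNorm (p := ((2 * q : ℕ) : ℝ≥0∞)) (q := ((2 * q : ℕ) : ℝ≥0∞))
    (h'.1 n t).aestronglyMeasurable (h.1 n t).aestronglyMeasurable).trans ?_
  rw [ENNReal.coe_mul, enorm_mul, mul_mul_mul_comm]
  exact mul_le_mul' (hn.1 t ht) (hn.2 t ht)

lemma ob_zero : Ob P a A fun _ _ _ => 0 :=
  ⟨fun _ _ => measurable_const, fun _ => ⟨0, .of_forall fun _ _ _ => by simp⟩⟩

lemma ob_fsum {ι : Type} (S : Finset ι) {X : ι → ∀ n, T n → Ω n → ℝ}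
    (h : ∀ i, Ob P a A (X i)) : Ob P a A fun n t ω => ∑ i ∈ S, X i n t ω := by
  classical
  induction S using Finset.induction_on with
  | empty => simpa using ob_zero
  | insert k s hk ih => simpa [Finset.sum_insert hk] using ob_add (h k) ih

lemma ob_bool (s : ∀ n, T n → Bool) {X : Bool → ∀ n, T n → Ω n → ℝ} (h : ∀ u, Ob P a A (X u)) :
    Ob P a A fun n t => X (s n t) n t := by
  refine ⟨fun n t => (h _).1 n t, fun q => ?_⟩
  obtain ⟨C, hC⟩ := (h true).2 q
  obtain ⟨C', hC'⟩ := (h false).2 q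
  refine ⟨C + C', (hC.and hC').mono fun n hn t ht => ?_⟩
  rw [ENNReal.coe_add, add_mul]
  beta_reduce
  cases s n t
  · exact (hn.2 t ht).trans le_add_self
  · exact (hn.1 t ht).trans le_self_add

lemma ob_avg (S : ∀ n, T n → Finset (Fin n)) {X : ∀ n, T n → Fin n → Ω n → ℝ}
    (h : Ob P a (fun n (p : T n × Fin n) => A n p.1 ∧ p.2 ∈ S n p.1) fun n p => X n p.1 p.2) :
    Ob P a A fun n t ω => (∑ l ∈ S n t, X n t l ω) / n := by
  refine ⟨fun n t => (Finset.measurable_sum _ fun l _ => h.1 n (t, l)).div_const _, fun q => ?_⟩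
  obtain ⟨C, hC⟩ := h.2 q
  refine ⟨C, (hC.and (eventually_gt_atTop 0)).mono fun n hn t ht => ?_⟩
  rcases Nat.eq_zero_or_pos q with rfl | hq
  · simp
  have e : (fun ω => (∑ l ∈ S n t, X n t l ω) / n) = (n : ℝ)⁻¹ • ∑ l ∈ S n t, X n t l := by
    funext ω; simp [div_eq_inv_mul]
  beta_reduce
  rw [e]
  refine eLpNorm_const_smul_le.trans ?_
  have h1 : eLpNorm (∑ l ∈ S n t, X n t l) q (P n) ≤ n * (C * ‖a n‖ₑ) := by
    refine (eLpNorm_sum_le (fun l _ => (h.1 n (t, l)).aestronglyMeasurable)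
      (by exact_mod_cast hq)).trans ?_
    refine (Finset.sum_le_card_nsmul _ _ _ fun l hl => hn.1 (t, l) ⟨ht, hl⟩).trans ?_
    rw [nsmul_eq_mul]
    gcongr
    simpa using Finset.card_le_univ (S n t)
  refine (mul_le_mul_right h1 _).trans (le_of_eq ?_)
  have n0 : (n : ℝ) ≠ 0 := by exact_mod_cast hn.2.ne'
  rw [← mul_assoc, enorm_inv n0, Real.enorm_natCast,
    ENNReal.inv_mul_cancel (by exact_mod_cast hn.2.ne') (by simp), one_mul]

lemma oo_reindex (h : Oo P A X) (r : ∀ n, T' n → T n) (hA : ∀ n t, A' n t → A n (r n t)) :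
    Oo P A' fun n t => X n (r n t) := h.imp fun _ h => ⟨h.1, ob_reindex h.2 r hA⟩

lemma oo_eq (h : Oo P A X) (e : ∀ n t ω, Y n t ω = X n t ω) : Oo P A Y := by
  rwa [show Y = X from funext fun n => funext fun t => funext (e n t)]

lemma oo_smul (c : ℝ) (h : Oo P A X) : Oo P A fun n t ω => c * X n t ω :=
  h.imp fun _ h => ⟨h.1, ob_smul c h.2⟩

lemma oo_add (h : Oo P A X) (h' : Oo P A Y) : Oo P A fun n t ω => X n t ω + Y n t ω := by
  obtain ⟨d, hd, h⟩ := h
  obtain ⟨d', hd', h'⟩ := h'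
  refine ⟨fun n => |d n| + |d' n|, by simpa using hd.abs.add hd'.abs,
    ob_add (ob_mono h (.of_forall fun n => ?_)) (ob_mono h' (.of_forall fun n => ?_))⟩
  · exact (le_add_of_nonneg_right (abs_nonneg _)).trans (le_abs_self _)
  · exact (le_add_of_nonneg_left (abs_nonneg _)).trans (le_abs_self _)

lemma oo_avg (S : ∀ n, T n → Finset (Fin n)) {X : ∀ n, T n → Fin n → Ω n → ℝ}
    (h : Oo P (fun n (p : T n × Fin n) => A n p.1 ∧ p.2 ∈ S n p.1) fun n p => X n p.1 p.2) :
    Oo P A fun n t ω => (∑ l ∈ S n t, X n t l ω) / n := h.imp fun _ h => ⟨h.1, ob_avg S h.2⟩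

end order

lemma rt_mul (p q : ℤ) : ∀ᶠ n in atTop, |rt p n * rt q n| ≤ |rt (p + q) n| :=
  (eventually_gt_atTop 0).mono fun n hn => by
    have : √(n : ℝ) ≠ 0 := (sqrt_pos.2 (by exact_mod_cast hn)).ne'
    rw [rt, rt, rt, zpow_add₀ this]

lemma rt_sq : ∀ᶠ n in atTop, |rt (-1) n ^ 2| ≤ |rt (-2) n| := by
  simp only [sq]; exact rt_mul (-1) (-1)

variable {β ρ : ℝ} {b b' : Bath} {c : Fin b'.m → ℝ} {f : Fin b'.m → CV b.m} {X : Fm b.m}

lemma fl_ne {n : ℕ} (σ : Cube n) {k i : Fin n} (h : k ≠ i) : fl σ k i = σ i :=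
  Function.update_of_ne h.symm _ _

lemma one_apply {n : ℕ} (l : Fin n) : Pl.one n l = true := rfl

lemma sp_od (m : ℕ) : Tw.sp m ∈ Od m := fun s _ => by cases s <;> simp [Tw.sp, sg]

lemma meas_val (hX : Net β ρ X) (f : Fin b'.m → CV b.m) (a : Fin b'.m) (s : Bool) (n : ℕ)
    (I : Finset (Fin n)) (l : Fin n) (σ : Cube n) : Measurable fun ω => (f a).1 s (X n I l σ ω) :=
  ((f a).2 s).cont.measurable.comp (hX.meas n I l σ)

/-- the flipped index -/
def tF (n : ℕ) (t : Ix n) : Ix n := { t with σ := fl t.σ t.k }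
/-- the index with a deleted site -/
def tD (n : ℕ) (t : Ix n) : Ix n := { t with I := t.I.erase t.j }

lemma net_val (hT : TayStmt) (hX : Net β ρ X) (hs : Step β ρ b b' c f) :
    Net β ρ (valOf f X) := by
  have B : ∀ (A : ∀ n, Ix n → Prop) (r : ∀ n, Ix n → Ix n) (a : Fin b.m), Ob (PP β ρ) (rt 0) A
      fun n t ω => X n (r n t).I (r n t).i (r n t).σ ω a := fun A r a =>
    ob_reindex (hX.B a) r fun _ _ _ => trivial
  refine ⟨fun n I l σ => ?_, fun n I l σ σ' ω ω' hl h1 h2 => ?_, fun n I l σ z ω => ?_,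
    fun a => ?_, fun a => ?_, fun a => ?_, fun a => ?_⟩
  · exact (WithLp.measurable_toLp _ _).comp
      (measurable_pi_lambda _ fun a => meas_val hX f a _ n I l σ)
  · simp only [valOf, hX.loc n I l σ σ' ω ω' hl h1 h2, h1 l hl]
  · ext a
    simp only [valOf, hX.gau, cmul, PiLp.smul_apply, smul_eq_mul]
    cases z l
    · have := hs.od a (σ l) (X n I l σ ω)
      simpa [sg] using this
    · simp [sg]
  · exact ob_bool (T := Ix) (fun _ t => t.σ t.i)
      (X := fun s n t ω => (f a).1 s (X n t.I t.i t.σ ω)) fun s =>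
      (hT β ρ Ix _ b.m ((f a).1 s) (fun n t ω => X n t.I t.i t.σ ω) hX.B).1 (hs.sm a s 0)
  · refine ob_congr (ob_bool (T := Ix) (fun _ t => t.σ t.i) (X := fun s n t ω =>
      (f a).1 s (X n t.I t.i t.σ ω) - (f a).1 s (X n t.I t.i (fl t.σ t.k) ω)) fun s =>
      ((hT β ρ Ix _ b.m ((f a).1 s) (fun n t ω => X n t.I t.i (fl t.σ t.k) ω) (B _ tF)).2
        (fun n t ω => X n t.I t.i t.σ ω) _ (B _ fun _ t => t) hX.F).1 (hs.sm a s 1))
      (fun n t => (meas_val hX f a _ n _ _ _).sub (meas_val hX f a _ n _ _ _)) fun n t ht ω => ?_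
    simp only [valOf, fl_ne t.σ ht]
  · exact ob_bool (T := Ix) (fun _ t => t.σ t.i) (X := fun s n t ω =>
      (f a).1 s (X n t.I t.i t.σ ω) - (f a).1 s (X n (t.I.erase t.j) t.i t.σ ω)) fun s =>
      ((hT β ρ Ix _ b.m ((f a).1 s) (fun n t ω => X n (t.I.erase t.j) t.i t.σ ω) (B _ tD)).2
        (fun n t ω => X n t.I t.i t.σ ω) _ (B _ fun _ t => t) hX.D).1 (hs.sm a s 1)
  · refine ob_congr (ob_bool (T := Ix) (fun _ t => t.σ t.i) (X := fun s n t ω =>
      (f a).1 s (X n t.I t.i t.σ ω) - (f a).1 s (X n t.I t.i (fl t.σ t.k) ω) -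
      ((f a).1 s (X n (t.I.erase t.j) t.i t.σ ω) -
        (f a).1 s (X n (t.I.erase t.j) t.i (fl t.σ t.k) ω))) fun s => ?_)
      (fun n t => ((meas_val hX f a _ n _ _ _).sub (meas_val hX f a _ n _ _ _)).sub
        ((meas_val hX f a _ n _ _ _).sub (meas_val hX f a _ n _ _ _))) fun n t ht ω => ?_
    swap
    · simp only [valOf, fl_ne t.σ ht.1]
    set A : ∀ n, Ix n → Prop := fun n t => t.k ≠ t.i ∧ t.j ≠ t.i ∧ t.k ≠ t.j with hA
    have F1 : ∀ e, Ob (PP β ρ) (rt (-1)) A fun n t ω =>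
        X n t.I t.i t.σ ω e - X n t.I t.i (fl t.σ t.k) ω e := fun e =>
      ob_reindex (hX.F e) (fun _ t => t) fun _ _ h => h.1
    have F2 : ∀ e, Ob (PP β ρ) (rt (-1)) A fun n t ω =>
        X n (t.I.erase t.j) t.i t.σ ω e - X n (t.I.erase t.j) t.i (fl t.σ t.k) ω e := fun e =>
      ob_reindex (hX.F e) tD fun _ _ h => h.1
    have D2 : ∀ e, Ob (PP β ρ) (rt (-1)) A fun n t ω => X n t.I t.i (fl t.σ t.k) ω e -
        X n (t.I.erase t.j) t.i (fl t.σ t.k) ω e := fun e =>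
      ob_reindex (hX.D e) tF fun _ _ h => h.2.1
    have R1 := ob_mono (((hT β ρ Ix A b.m ((f a).1 s) (fun n t ω => X n t.I t.i (fl t.σ t.k) ω)
      (B _ tF)).2 (fun n t ω => X n t.I t.i t.σ ω) _ (B _ fun _ t => t) F1).2.1
      (hs.sm a s 2)) rt_sq
    have R2 := ob_mono (((hT β ρ Ix A b.m ((f a).1 s)
      (fun n t ω => X n (t.I.erase t.j) t.i (fl t.σ t.k) ω) (B _ fun n t => tF n (tD n t))).2
      (fun n t ω => X n (t.I.erase t.j) t.i t.σ ω) _ (B _ tD) F2).2.1 (hs.sm a s 2)) rt_sq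
    have G1 : ∀ e, Ob (PP β ρ) (rt 0) A fun n t ω =>
        pd e ((f a).1 s) (X n t.I t.i (fl t.σ t.k) ω) := fun e =>
      (hT β ρ Ix A b.m (pd e ((f a).1 s)) (fun n t ω => X n t.I t.i (fl t.σ t.k) ω) (B _ tF)).1
        ((hs.sm a s 1).2 e)
    have G2 : ∀ e, Ob (PP β ρ) (rt (-1)) A fun n t ω =>
        pd e ((f a).1 s) (X n t.I t.i (fl t.σ t.k) ω) -
          pd e ((f a).1 s) (X n (t.I.erase t.j) t.i (fl t.σ t.k) ω) := fun e =>
      ((hT β ρ Ix A b.m (pd e ((f a).1 s)) (fun n t ω => X n (t.I.erase t.j) t.i (fl t.σ t.k) ω)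
        (B _ fun n t => tF n (tD n t))).2 (fun n t ω => X n t.I t.i (fl t.σ t.k) ω) _ (B _ tF)
        D2).1 ((hs.sm a s 2).2 e)
    have S1 := ob_fsum Finset.univ fun e => ob_add (ob_mono (ob_mul (G1 e) (hX.FD e)) (rt_mul _ _))
      (ob_mono (ob_mul (G2 e) (F2 e)) (rt_mul _ _))
    have S2 := ob_add (ob_sub R1 R2) S1
    refine ob_congr S2 (fun n t => ((meas_val hX f a _ n _ _ _).sub (meas_val hX f a _ n _ _ _)).sub
        ((meas_val hX f a _ n _ _ _).sub (meas_val hX f a _ n _ _ _))) fun n t _ ω => ?_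
    simp only [mul_sub, sub_mul, Finset.sum_add_distrib, Finset.sum_sub_distrib]
    ring

end V66

open V66

/-- **task 762, first part** -/
theorem v1Glue : V1Glue := by
  intro hT hS hM β ρ b b' c f X h0 hL hs
  refine ⟨net_val hT h0.net hs, fun n I l σ ω => hs.sp _ _, hs.hc, hs.hc0, fun a a' N => ?_,
    fun a N => ?_⟩
  · refine oo_eq (hL (fun z => (f a).1 true z * (f a').1 true z)
      (hS.mul _ _ _ _ (hs.sm a true 1) (hs.sm a' true 1)) N) fun n t ω => ?_
    rw [← ((hM b _ (hs.od a)).2.2 _ (hs.od a')).1, ← hs.on a a']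
    simp only [valOf, one_apply]
    ring
  · refine oo_eq (oo_smul β (hL ((f a).1 true) (hs.sm a true 1) N)) fun n t ω => ?_
    have h1 := ((hM b _ (sp_od b.m)).2.2 _ (hs.od a)).1
    simp only [Tw.sp, sg, if_true, one_mul] at h1
    rw [← h1, ← hs.g a]
    simp only [valOf, one_apply, Tw.sp, sg]
    ring

/-- **task 762, second part** -/
theorem v23Glue : V23Glue := by
  intro hS hM β ρ b b' U c f X hX hs
  have G := fun a a' N => hX.gam (f a).1 (f a').1 (fun s => hs.sm a s 2) (fun s => hs.sm a' s 2) N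
  refine ⟨⟨fun a a' N => ?_, fun a a' N => (G a a' N).2, fun a N => ?_⟩, fun U' hU v hv => ?_⟩
  · have h1 := oo_avg (A := fun n (t : Ix n) => Big N t.I) (fun _ t => t.I)
      (X := fun n t l ω => Gm β ρ t.I (fun σ => (f a).1 (σ l) (X n t.I l σ ω))
        (fun σ => (f a').1 (σ l) (X n t.I l σ ω)) (one n) ω -
          gm b (f a).1 (f a').1 (X n t.I l (one n) ω))
      (oo_reindex (T' := fun n => Ix n × Fin n) (G a a' N).1
        (fun n p => ⟨p.1.I, p.1.σ, p.2, p.1.j, p.1.k⟩) fun _ _ h => h)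
    have h2 := hX.lln (gm b (f a).1 (f a').1)
      (hS.gm b 1 _ _ (fun s => hs.sm a s 2) fun s => hs.sm a' s 2) N
    refine oo_eq (oo_add h1 h2) fun n t ω => ?_
    rw [← ((hM b _ (hs.od a)).2.2 _ (hs.od a')).2, hs.en, Finset.sum_sub_distrib]
    simp only [valOf]
    ring
  · have hφ : Tm 1 fun z : E b.m => sech2 (fld b 0 z) / 2 * ((f a).1 true z - (f a).1 false z) := by
      have := hS.mul _ 1 _ _ (hS.mul _ 1 _ _ (hS.const _ 1 2)
        (hS.mul _ 1 _ _ (hS.hb b 0 true 1) (hS.hb b 0 false 1)))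
        (hS.add _ 1 _ _ (hs.sm a true 1) (hS.mul _ 1 _ _ (hS.const _ 1 (-1)) (hs.sm a false 1)))
      convert this using 2 with z
      rw [hS.sech]; ring
    refine oo_eq (oo_smul β (hX.lln _ hφ N)) fun n t ω => ?_
    have e1 : ∑ a', b'.g a' • f a' = β • Tw.sp b.m := by
      refine Subtype.ext (funext fun s => funext fun z => ?_)
      simpa [Tw.sp, Finset.sum_apply] using hs.sp s z
    have e2 : β * (imp b 0).En (Tw.sp _) (f a) = (b'.A *ᵥ b'.g) a := by
      have := congrArg (fun F => (imp b 0).En F (f a)) e1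
      simp only [map_sum, map_smul, LinearMap.sum_apply, LinearMap.smul_apply, smul_eq_mul,
        hs.en] at this
      rw [← this, Matrix.mulVec, dotProduct]
      refine Finset.sum_congr rfl fun a' _ => ?_
      have h3 := b'.psd.isHermitian.apply a a'
      rw [star_trivial] at h3
      rw [h3, mul_comm]
    rw [← (hM b _ (hs.od a)).2.1, mul_sub, e2]
    simp only [valOf, hX.x0.ind, hX.x0.fld]
    simp [fl, one_apply]
  · have hE := hU v hv
    refine ⟨hE.hc, fun N => ?_⟩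
    have e1 : ∀ s z, (∑ a, v a • f a).1 s z = ∑ a, v a * (f a).1 s z := fun s z => by
      simp [Finset.sum_apply]
    have hF : ∀ s, Tm 3 ((∑ a, v a • f a).1 s) := fun s => by
      rw [funext (e1 s)]
      exact hS.sum _ 3 _ _ _ fun a _ => hS.mul _ 3 _ _ (hS.const _ 3 _) (hs.sm a s 3)
    refine oo_eq (hX.gen _ hF hE.uf N) fun n t ω => ?_
    rw [← hE.aa]
    simp only [e1, valOf, one_apply]

end Crest.Agent.T157.Rn

end
end

-- ▼ part T157/RnX2_79
section

/-!
# Row 157, block B/R: energies of the fields, `Rn.X2Glue` (helper79)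
-/

set_option autoImplicit false

noncomputable section

namespace Crest.Agent.T157.Rn

open MeasureTheory ProbabilityTheory Real Matrix Filter Topology Finset
open Crest.Agent.R238.Gap Crest.Agent.R238.GapPc Crest.Agent.R253.Meh74
open Crest.Agent.T157.E (Cube)
open Crest.Agent.T157.Tw
open Crest.Agent.T157.Pl (one cmul)
open scoped NNReal ENNReal

namespace X79
open V66

section order
variable {Ω : ℕ → Type} [∀ n, MeasurableSpace (Ω n)] {T : ℕ → Type} {P : ∀ n, Measure (Ω n)}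
  {a : ℕ → ℝ} {A : ∀ n, T n → Prop} {X Y : ∀ n, T n → Ω n → ℝ} {p q r : ℤ}

lemma ob_dom (h : Ob P a A X) (hY : ∀ n t, Measurable (Y n t))
    (e : ∀ n t, A n t → ∀ ω, |Y n t ω| ≤ |X n t ω|) : Ob P a A Y :=
  ⟨hY, fun q => (h.2 q).imp fun _ hC => hC.mono fun n hn t ht =>
    (eLpNorm_mono (e n t ht)).trans (hn t ht)⟩

lemma ob_det [∀ n, IsProbabilityMeasure (P n)] : Ob P a A fun n _ _ => a n :=
  ⟨fun _ _ => measurable_const, fun q => ⟨1, .of_forall fun n t _ =>
    (eLpNorm_le_of_ae_bound (C := |a n|) (.of_forall fun _ => le_rfl)).trans_eq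
      (by simp [Real.enorm_eq_ofReal_abs])⟩⟩

lemma ob_monoR (h : Ob P (rt p) A X) (e : p ≤ r) : Ob P (rt r) A X :=
  ob_mono h ((eventually_ge_atTop 1).mono fun n hn => by
    have h1 : 1 ≤ √(n : ℝ) := Real.one_le_sqrt.2 (by exact_mod_cast hn)
    rw [rt, rt, abs_of_nonneg (by positivity), abs_of_nonneg (by positivity)]
    exact zpow_le_zpow_right₀ h1 e)

lemma ob_mulR (h : Ob P (rt p) A X) (h' : Ob P (rt q) A Y) (e : p + q ≤ r) :
    Ob P (rt r) A fun n t ω => X n t ω * Y n t ω := ob_monoR (ob_mono (ob_mul h h') (rt_mul p q)) e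

lemma ob_sum [∀ n, IsProbabilityMeasure (P n)] (S : ∀ n, T n → Finset (Fin n))
    {X : ∀ n, T n → Fin n → Ω n → ℝ}
    (h : Ob P (rt p) (fun n (z : T n × Fin n) => A n z.1 ∧ z.2 ∈ S n z.1) fun n z => X n z.1 z.2)
    (e : 2 + p ≤ r) : Ob P (rt r) A fun n t ω => ∑ l ∈ S n t, X n t l ω := by
  refine ob_congr (ob_mulR (ob_det (a := rt 2)) (ob_avg S h) e)
    (fun n t => measurable_sum _ fun l _ => h.1 n (t, l)) fun n t _ ω => ?_
  rcases n.eq_zero_or_pos with rfl | hn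
  · simp [eq_empty_of_isEmpty]
  · have : (n : ℝ) ≠ 0 := by exact_mod_cast hn.ne'
    rw [rt, zpow_ofNat, Real.sq_sqrt (Nat.cast_nonneg n)]
    field_simp

lemma oo_of (h : Ob P (rt (-1)) A X) : Oo P A X :=
  ⟨_, (Real.tendsto_sqrt_atTop.comp tendsto_natCast_atTop_atTop).inv_tendsto_atTop.congr
    fun n => by simp [rt], h⟩

lemma oo_congr (h : Oo P A X) (hY : ∀ n t, Measurable (Y n t))
    (e : ∀ n t, A n t → ∀ ω, Y n t ω = X n t ω) : Oo P A Y := h.imp fun _ h => ⟨h.1, ob_congr h.2 hY e⟩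

end order

variable {β ρ : ℝ} {m n : ℕ} {u : Fm m}

/-- discrete derivative at the planted configuration -/
def dd (u : Fm m) (a : Fin m) (I : Finset (Fin n)) (l k : Fin n) (ω : Env n) : ℝ :=
  u n I l (one n) ω a - u n I l (fl (one n) k) ω a

/-- the energy matrix -/
def GG (β ρ : ℝ) (u : Fm m) (a a' : Fin m) (I : Finset (Fin n)) (l l' : Fin n) (ω : Env n) : ℝ :=
  ∑ k ∈ I, pk β ρ I k (one n) ω * (dd u a I l k ω * dd u a' I l' k ω)

lemma meas_J (i l : Fin n) : Measurable fun ω : Env n => J ω i l :=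
  (measurable_pi_apply _).div_const _

lemma meas_pk (I : Finset (Fin n)) (k : Fin n) (σ : Cube n) : Measurable (pk β ρ I k σ) :=
  (continuous_hb _).measurable.comp (((measurable_pi_apply _).const_mul _).add
    ((measurable_sum _ fun l _ => (meas_J k l).mul_const _).const_mul _))

lemma meas_dd (hu : Net β ρ u) (a : Fin m) (I : Finset (Fin n)) (l k : Fin n) :
    Measurable (dd u a I l k) := (hu.F a).1 n ⟨I, one n, l, l, k⟩

lemma meas_GG (hu : Net β ρ u) (a a' : Fin m) (I : Finset (Fin n)) (l l' : Fin n) :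
    Measurable (GG β ρ u a a' I l l') :=
  measurable_sum _ fun k _ => (meas_pk I k _).mul ((meas_dd hu a I l k).mul (meas_dd hu a' I l' k))

lemma not_mem_mk {i a b : Fin n} (ha : i ≠ a) (hb : i ≠ b) : i ∉ s(a, b) := by
  simp [ha, hb]

lemma ri_J {i j l : Fin n} (hj : i ≠ j) (hl : i ≠ l) {ω ω' : Env n}
    (h : ∀ e, i ∉ e → ω e = ω' e) : J ω j l = J ω' j l := by
  rw [J, J, h _ (not_mem_mk hj hl)]

lemma ri_GG (hu : Net β ρ u) (a a' : Fin m) {I : Finset (Fin n)} {i l l' : Fin n} (hi : i ∉ I)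
    (hl : l ∈ I) (hl' : l' ∈ I) : RI i (GG β ρ u a a' I l l') := fun ω ω' h => by
  have ne : ∀ a ∈ I, i ≠ a := fun a ha e => hi (e ▸ ha)
  have e : ∀ l ∈ I, ∀ σ, u n I l σ ω = u n I l σ ω' := fun l hl σ =>
    hu.loc n I l σ σ ω ω' hl (fun _ _ => rfl) fun a ha b hb _ => h _ (not_mem_mk (ne a ha) (ne b hb))
  refine sum_congr rfl fun k hk => ?_
  have e2 : ∑ l ∈ I.erase k, J ω k l * sg (one n l) = ∑ l ∈ I.erase k, J ω' k l * sg (one n l) :=
    sum_congr rfl fun l hl => by rw [ri_J (ne k hk) (ne l (mem_of_mem_erase hl)) h]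
  simp only [dd, e l hl, e l' hl', pk, hf, h _ (not_mem_mk (ne k hk) (ne k hk)), e2]

lemma dd_field (c : Fin m → ℝ) (a : Fin m) (I : Finset (Fin n)) (i k : Fin n) (ω : Env n) :
    dd (fieldOf c u) a I i k ω = ∑ l ∈ I.erase i, J ω i l * dd u a (I.erase i) l k ω := by
  simp only [dd, fieldOf, mul_sub, sum_sub_distrib]
  ring

lemma bilin (a a' : Fin m) (I : Finset (Fin n)) (i j : Fin n) (ω : Env n) :
    ∑ k ∈ I, pk β ρ I k (one n) ω * ((∑ l ∈ I, J ω i l * dd u a I l k ω) *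
      ∑ l ∈ I, J ω j l * dd u a' I l k ω) =
      ∑ l ∈ I, ∑ l' ∈ I, J ω i l * J ω j l' * GG β ρ u a a' I l l' ω := by
  simp only [GG, sum_mul_sum]
  simp only [mul_sum]
  rw [sum_comm]
  refine sum_congr rfl fun l _ => ?_
  rw [sum_comm]
  exact sum_congr rfl fun l' _ => sum_congr rfl fun k _ => by ring

lemma big_erase {N : ℕ} {I : Finset (Fin n)} (h : Big N I) (i : Fin n) : Big (N + 1) (I.erase i) := by
  have := pred_card_le_card_erase (s := I) (a := i)
  unfold Big at *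
  omega

section gen
variable {T : ℕ → Type} {A : ∀ n, T n → Prop} (I : ∀ n, T n → Finset (Fin n))
  (l k j : ∀ n, T n → Fin n)

lemma ob_dd0 (hu : Net β ρ u) (a : Fin m) :
    Ob (PP β ρ) (rt 0) A fun n t => dd u a (I n t) (l n t) (k n t) :=
  ob_sub (ob_reindex (hu.B a) (fun n t => ⟨I n t, one n, l n t, l n t, l n t⟩) fun _ _ _ => trivial)
    (ob_reindex (hu.B a) (fun n t => ⟨I n t, fl (one n) (k n t), l n t, l n t, l n t⟩)
      fun _ _ _ => trivial)

lemma ob_dd1 (hu : Net β ρ u) (a : Fin m) (h : ∀ n t, A n t → k n t ≠ l n t) :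
    Ob (PP β ρ) (rt (-1)) A fun n t => dd u a (I n t) (l n t) (k n t) :=
  ob_reindex (hu.F a) (fun n t => ⟨I n t, one n, l n t, l n t, k n t⟩) h

lemma ob_dd2 (hu : Net β ρ u) (a : Fin m)
    (h : ∀ n t, A n t → k n t ≠ l n t ∧ j n t ≠ l n t ∧ k n t ≠ j n t) :
    Ob (PP β ρ) (rt (-2)) A fun n t ω =>
      dd u a (I n t) (l n t) (k n t) ω - dd u a ((I n t).erase (j n t)) (l n t) (k n t) ω :=
  ob_reindex (hu.FD a) (fun n t => ⟨I n t, one n, l n t, j n t, k n t⟩) h

lemma ob_pk : Ob (PP β ρ) (rt 0) A fun n t => pk β ρ (I n t) (k n t) (one n) :=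
  ob_dom ob_det (fun _ _ => meas_pk _ _ _) fun n t _ ω => by
    rw [pk, abs_of_pos (hb_pos _ _)]
    simpa [rt] using hb_le _ _

lemma ob_J (hL : LinStmt) : Ob (PP β ρ) (rt (-1)) A fun n t ω => J ω (l n t) (k n t) :=
  ob_reindex (hL β ρ).2.1 (fun n t => (l n t, k n t)) fun _ _ _ => trivial

lemma ob_dp (hL : LinStmt) (hS : SmStmt) : Ob (PP β ρ) (rt (-1)) A fun n t ω =>
    pk β ρ (I n t) (k n t) (one n) ω - pk β ρ ((I n t).erase (j n t)) (k n t) (one n) ω :=
  ob_dom (ob_smul β (ob_J k j hL)) (fun _ _ => (meas_pk _ _ _).sub (meas_pk _ _ _))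
    fun n t _ ω => (hS.lip _ _ _).trans (by
      rw [hf, hf, add_sub_add_left_eq_sub, ← mul_sub, erase_right_comm, abs_mul, abs_mul]
      refine mul_le_mul_of_nonneg_left ?_ (abs_nonneg _)
      by_cases h : j n t ∈ (I n t).erase (k n t)
      · rw [← add_sum_erase _ _ h, add_sub_cancel_right]; simp [one_apply, sg]
      · rw [erase_eq_of_notMem h, sub_self, abs_zero]; exact abs_nonneg _)

lemma ob_GG (hu : Net β ρ u) (a a' : Fin m) (h : ∀ n t, A n t → l n t ∈ I n t) :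
    Ob (PP β ρ) (rt 0) A fun n t => GG β ρ u a a' (I n t) (l n t) (l n t) := by
  set B : ∀ n, T n × Fin n → Prop := fun n z => A n z.1 ∧ z.2 ∈ (I n z.1).erase (l n z.1) with hB
  have x : ∀ a, Ob (PP β ρ) (rt (-1)) B fun n z => dd u a (I n z.1) (l n z.1) z.2 := fun a =>
    ob_dd1 (A := B) (fun n z => I n z.1) (fun n z => l n z.1) (fun _ z => z.2) hu a
      fun _ _ h => ne_of_mem_erase h.2
  have y := ob_mulR (r := -2) (ob_pk (β := β) (ρ := ρ) (A := B) (fun n z => I n z.1) fun _ z => z.2)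
    (ob_mulR (r := -2) (x a) (x a') (by norm_num)) (by norm_num)
  refine ob_congr (ob_add (ob_mulR (ob_pk I l) (ob_mulR (r := 0) (ob_dd0 I l l hu a)
    (ob_dd0 I l l hu a') (by norm_num)) (by norm_num))
    (ob_sum (p := -2) (fun n t => (I n t).erase (l n t)) (X := fun n t k ω =>
      pk β ρ (I n t) k (one n) ω * (dd u a (I n t) (l n t) k ω * dd u a' (I n t) (l n t) k ω))
      y (by norm_num))) (fun _ _ => meas_GG hu _ _ _ _ _) fun n t ht ω => ?_
  exact (add_sum_erase _ (fun k => pk β ρ (I n t) k (one n) ω *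
    (dd u a (I n t) (l n t) k ω * dd u a' (I n t) (l n t) k ω)) (h n t ht)).symm

end gen

variable {b : Bath} {c : Fin b.m → ℝ} {v : Fm b.m}

lemma gl (hL : LinStmt) (hQ : QuadStmt) (hS : SmStmt) (hu : Net β ρ v) (h2 : V2 β ρ b v)
    (hX : X0 β ρ b (fieldOf c v)) (a a' : Fin b.m) (N : ℕ) :
    Oo (PP β ρ) (fun n (t : Ix n) => Big N t.I ∧ t.i ∈ t.I) fun _ t ω =>
      GG β ρ (fieldOf c v) a a' t.I t.i t.i ω - 2 * b.A a a' := by
  set A : ∀ n, Ix n → Prop := fun n t => Big N t.I ∧ t.i ∈ t.I with hA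
  set K : ∀ n, Ix n → Finset (Fin n) := fun n t => t.I.erase t.i with hK
  set B : ∀ n, Ix n × Fin n → Prop := fun n z => A n z.1 ∧ z.2 ∈ K n z.1 with hB
  have x : ∀ a, Ob (PP β ρ) (rt (-1)) B fun n z => dd (fieldOf c v) a z.1.I z.1.i z.2 := fun a =>
    ob_dd1 (A := B) (fun _ z => z.1.I) (fun _ z => z.1.i) (fun _ z => z.2) hX.net a
      fun _ _ h => ne_of_mem_erase h.2
  have xx := ob_mulR (r := -2) (x a) (x a') (by norm_num)
  have eQ : ∀ n (t : Ix n) ω, ∑ l ∈ K n t, ∑ k ∈ K n t, J ω t.i l * J ω t.i k *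
      GG β ρ v a a' (K n t) l k ω = ∑ k ∈ K n t, pk β ρ (K n t) k (one n) ω *
        (dd (fieldOf c v) a t.I t.i k ω * dd (fieldOf c v) a' t.I t.i k ω) := fun n t ω => by
    simp only [dd_field]
    exact (bilin _ _ _ _ _ _).symm
  have q1 := ob_GG (A := B) (fun n z => K n z.1) (fun _ z => z.2) hu a a' fun _ _ h => h.2
  have q2 := oo_reindex (A' := fun n (z : Ix n × Fin n × Fin n) => A n z.1 ∧ z.2.1 ∈ K n z.1 ∧
    z.2.2 ∈ K n z.1 ∧ z.2.1 ≠ z.2.2) (h2.go a a' (N + 1))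
    (fun n z => ⟨K n z.1, one n, z.2.1, z.2.2, z.2.1⟩) fun _ _ h => ⟨big_erase h.1.1 _, h.2⟩
  have q3 := ob_sum (r := 0) (A := A) K (X := fun n t k ω => pk β ρ (K n t) k (one n) ω *
      (dd (fieldOf c v) a t.I t.i k ω * dd (fieldOf c v) a' t.I t.i k ω))
    (ob_mulR (r := -2) (ob_pk (β := β) (ρ := ρ) (A := B) (fun n z => K n z.1) fun _ z => z.2) xx
      (by norm_num)) (by norm_num)
  have q := hQ β ρ Ix A (fun _ t => t.i) K (fun n t l k => GG β ρ v a a' (K n t) l k)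
    (fun n t _ => ⟨notMem_erase _ _, fun l hl k hk => ri_GG hu a a' (notMem_erase _ _) hl hk⟩)
    q1 q2 (by simpa only [eQ] using q3)
  have g : Oo (PP β ρ) A fun n t ω => (∑ l ∈ K n t, GG β ρ v a a' (K n t) l l ω) / n - 2 * b.A a a' :=
    oo_reindex (h2.gl a a' (N + 1)) (fun n (t : Ix n) => ⟨K n t, one n, t.i, t.i, t.i⟩)
      fun _ _ h => big_erase h.1 _
  have e := oo_of (ob_sum (p := -3) (A := A) K (X := fun n t k ω =>
      (pk β ρ t.I k (one n) ω - pk β ρ (K n t) k (one n) ω) *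
        (dd (fieldOf c v) a t.I t.i k ω * dd (fieldOf c v) a' t.I t.i k ω))
    (ob_mulR (ob_dp (β := β) (ρ := ρ) (A := B) (fun _ z => z.1.I) (fun _ z => z.2) (fun _ z => z.1.i)
      hL hS) xx (by norm_num)) (by norm_num))
  refine oo_eq (oo_add (oo_add q g) e) fun n t ω => ?_
  rw [eQ, GG, ← sum_erase (a := t.i) _ (by simp [dd, hX.ind])]
  simp only [sub_mul, sum_sub_distrib]
  ring

lemma go (hL : LinStmt) (hS : SmStmt) (hu : Net β ρ v) (h2 : V2 β ρ b v)
    (hX : X0 β ρ b (fieldOf c v)) (a a' : Fin b.m) (N : ℕ) :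
    Oo (PP β ρ) (fun n (t : Ix n) => Big N t.I ∧ t.i ∈ t.I ∧ t.j ∈ t.I ∧ t.i ≠ t.j) fun _ t =>
      GG β ρ (fieldOf c v) a a' t.I t.i t.j := by
  set A : ∀ n, Ix n → Prop := fun n t => Big N t.I ∧ t.i ∈ t.I ∧ t.j ∈ t.I ∧ t.i ≠ t.j with hA
  set K : ∀ n, Ix n → Finset (Fin n) := fun n t => (t.I.erase t.i).erase t.j with hK
  have ni : ∀ n (t : Ix n), t.i ∉ K n t := fun n t h => notMem_erase _ _ (mem_of_mem_erase h)
  have nj : ∀ n (t : Ix n), t.j ∉ K n t := fun n t => notMem_erase _ _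
  have ki : ∀ {n} {t : Ix n} {k}, k ∈ K n t → k ≠ t.i := fun h => ne_of_mem_erase (mem_of_mem_erase h)
  have kj : ∀ {n} {t : Ix n} {k}, k ∈ K n t → k ≠ t.j := fun h => ne_of_mem_erase h
  -- the coefficients of row `i`
  obtain ⟨d, hd, o1⟩ := oo_reindex (A' := fun n (z : (Ix n × Fin n) × Fin n) =>
      (A n z.1.1 ∧ z.1.2 ∈ K n z.1.1) ∧ z.2 ∈ (K n z.1.1).erase z.1.2) (h2.go a a' (N + 1 + 1))
    (fun n z => ⟨K n z.1.1, one n, z.1.2, z.2, z.2⟩) fun _ _ h =>
      ⟨big_erase (big_erase h.1.1.1 _) _, h.1.2, mem_of_mem_erase h.2, (ne_of_mem_erase h.2).symm⟩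
  have o2 := (hL β ρ).2.2 (fun n => Ix n × Fin n) (fun n z => A n z.1 ∧ z.2 ∈ K n z.1) d
    (fun _ z => z.1.j) (fun n z => (K n z.1).erase z.2) (fun n z l => GG β ρ v a a' (K n z.1) z.2 l)
    (fun n z h => ⟨fun e => nj n z.1 (mem_of_mem_erase e), fun l hl =>
      ri_GG hu a a' (nj n z.1) h.2 (mem_of_mem_erase hl)⟩) o1
  obtain ⟨d', hd', o3⟩ := oo_congr (Y := fun n (z : Ix n × Fin n) ω => ∑ l ∈ K n z.1,
      J ω z.1.j l * GG β ρ v a a' (K n z.1) z.2 l ω)
    (oo_add (oo_of (ob_mulR (ob_J (fun _ z => z.1.j) (fun _ z => z.2) hL)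
      (ob_GG (fun n z => K n z.1) (fun _ z => z.2) hu a a' fun _ _ h => h.2) (by norm_num)))
      ⟨d, hd, o2⟩)
    (fun n z => measurable_sum _ fun l _ => (meas_J _ _).mul (meas_GG hu _ _ _ _ _))
    fun n z h ω => (add_sum_erase _ _ h.2).symm
  have o4 := (hL β ρ).2.2 Ix A d' (fun _ t => t.i) K
    (fun n t l ω => ∑ l' ∈ K n t, J ω t.j l' * GG β ρ v a a' (K n t) l l' ω)
    (fun n t h => ⟨ni n t, fun l hl ω ω' e => sum_congr rfl fun l' hl' => by
      rw [ri_J h.2.2.2 (ki hl').symm e, ri_GG hu a a' (ni n t) hl hl' ω ω' e]⟩) o3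
  -- the errors
  set B : ∀ n, Ix n × Fin n → Prop := fun n z => A n z.1 ∧ z.2 ∈ K n z.1 with hB
  have x1 : Ob (PP β ρ) (rt (-1)) B fun n z => dd (fieldOf c v) a z.1.I z.1.i z.2 :=
    ob_dd1 (A := B) (fun _ z => z.1.I) (fun _ z => z.1.i) (fun _ z => z.2) hX.net a
      fun _ _ h => ki h.2
  have y1 : Ob (PP β ρ) (rt (-1)) B fun n z => dd (fieldOf c v) a' z.1.I z.1.j z.2 :=
    ob_dd1 (A := B) (fun _ z => z.1.I) (fun _ z => z.1.j) (fun _ z => z.2) hX.net a'
      fun _ _ h => kj h.2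
  have x1' : Ob (PP β ρ) (rt (-1)) B fun n z => dd (fieldOf c v) a (z.1.I.erase z.1.j) z.1.i z.2 :=
    ob_dd1 (A := B) (fun _ z => z.1.I.erase z.1.j) (fun _ z => z.1.i) (fun _ z => z.2) hX.net a
      fun _ _ h => ki h.2
  have x2 := ob_dd2 (A := B) (fun _ z => z.1.I) (fun _ z => z.1.i) (fun _ z => z.2) (fun _ z => z.1.j)
    hX.net a fun _ _ h => ⟨ki h.2, h.1.2.2.2.symm, kj h.2⟩
  have y2 := ob_dd2 (A := B) (fun _ z => z.1.I) (fun _ z => z.1.j) (fun _ z => z.2) (fun _ z => z.1.i)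
    hX.net a' fun _ _ h => ⟨kj h.2, h.1.2.2.2, ki h.2⟩
  have p0 := ob_pk (β := β) (ρ := ρ) (A := B) (fun n z => K n z.1) fun _ z => z.2
  have p1 := ob_add (ob_dp (β := β) (ρ := ρ) (A := B) (fun _ z => z.1.I) (fun _ z => z.2)
    (fun _ z => z.1.i) hL hS) (ob_dp (A := B) (fun _ z => z.1.I.erase z.1.i) (fun _ z => z.2)
      (fun _ z => z.1.j) hL hS)
  have e := oo_of (ob_sum (p := -3) K (X := fun n t k ω =>
      (pk β ρ t.I k (one n) ω - pk β ρ (t.I.erase t.i) k (one n) ω +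
        (pk β ρ (t.I.erase t.i) k (one n) ω - pk β ρ (K n t) k (one n) ω)) *
        (dd (fieldOf c v) a t.I t.i k ω * dd (fieldOf c v) a' t.I t.j k ω) +
      pk β ρ (K n t) k (one n) ω *
        ((dd (fieldOf c v) a t.I t.i k ω - dd (fieldOf c v) a (t.I.erase t.j) t.i k ω) *
          dd (fieldOf c v) a' t.I t.j k ω + dd (fieldOf c v) a (t.I.erase t.j) t.i k ω *
          (dd (fieldOf c v) a' t.I t.j k ω - dd (fieldOf c v) a' (t.I.erase t.i) t.j k ω)))
    (ob_add (ob_mulR p1 (ob_mulR (r := -2) x1 y1 (by norm_num)) (by norm_num))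
      (ob_mulR p0 (ob_add (ob_mulR (r := -3) x2 y1 (by norm_num)) (ob_mulR x1' y2 (by norm_num)))
        (by norm_num))) (by norm_num))
  refine oo_eq (oo_add ⟨d', hd', o4⟩ e) fun n t ω => ?_
  have e1 := bilin (β := β) (ρ := ρ) (u := v) a a' (K n t) t.i t.j ω
  have e2 : ∀ k, dd (fieldOf c v) a (t.I.erase t.j) t.i k ω =
      ∑ l ∈ K n t, J ω t.i l * dd v a (K n t) l k ω := fun k => by
    rw [dd_field, erase_right_comm]
  have e3 : ∀ k, dd (fieldOf c v) a' (t.I.erase t.i) t.j k ω =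
      ∑ l ∈ K n t, J ω t.j l * dd v a' (K n t) l k ω := fun k => dd_field _ _ _ _ _ _
  simp only [← e2, ← e3, mul_assoc, ← mul_sum] at e1
  rw [← e1, GG, ← sum_erase (a := t.i) _ (by simp [dd, hX.ind]),
    ← sum_erase (a := t.j) _ (by simp [dd, hX.ind]), ← sum_add_distrib]
  exact sum_congr rfl fun k _ => by ring

end X79

theorem x2Glue : X2Glue := fun hL hQ hS h0 β ρ b c u h1 h2 =>
  ⟨X79.gl hL hQ hS h1.net h2 (h0 β ρ b c u h1), X79.go hL hS h1.net h2 (h0 β ρ b c u h1)⟩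

end Crest.Agent.T157.Rn

end
end

-- ▼ part T157/RnX3_73
section

/-!
# Row 157, block B/R (helper73): the generator on the fields (`Rn.X3Glue`)
-/

set_option autoImplicit false

noncomputable section

namespace Crest.Agent.T157.Rn

open MeasureTheory ProbabilityTheory Real Matrix Filter Topology
open Crest.Agent.R238.Gap Crest.Agent.R238.GapPc Crest.Agent.R253.Meh74
open Crest.Agent.T157.E (Cube)
open Crest.Agent.T157.Tw
open Crest.Agent.T157.Pl (one cmul)
open scoped NNReal ENNReal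

namespace X73

open V66

section order
variable {Ω : ℕ → Type} [∀ n, MeasurableSpace (Ω n)] {T : ℕ → Type} {P : ∀ n, Measure (Ω n)}
  {a : ℕ → ℝ} {A : ∀ n, T n → Prop} {X Y : ∀ n, T n → Ω n → ℝ}

lemma ob_dom (h : Ob P a A X) (hY : ∀ n t, Measurable (Y n t))
    (e : ∀ n t, A n t → ∀ ω, |Y n t ω| ≤ |X n t ω|) : Ob P a A Y :=
  ⟨hY, fun q => (h.2 q).imp fun _ hC => hC.mono fun n hn t ht =>
    (eLpNorm_mono fun ω => e n t ht ω).trans (hn t ht)⟩

lemma ob_det (c : ℕ → ℝ) (h : Ob P a A X) :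
    Ob P (fun n => c n * a n) A fun n t ω => c n * X n t ω := by
  refine ⟨fun n t => (h.1 n t).const_mul _, fun q => (h.2 q).imp fun C hC =>
    hC.mono fun n hn t ht => ?_⟩
  refine (eLpNorm_const_smul_le (c := c n) (f := X n t)).trans ?_
  rw [enorm_mul, mul_left_comm]
  exact mul_le_mul_right (hn t ht) _

lemma ob_sum (S : ∀ n, T n → Finset (Fin n)) {X : ∀ n, T n → Fin n → Ω n → ℝ}
    (h : Ob P a (fun n (p : T n × Fin n) => A n p.1 ∧ p.2 ∈ S n p.1) fun n p => X n p.1 p.2) :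
    Ob P (fun n => (n : ℝ) * a n) A fun n t ω => ∑ l ∈ S n t, X n t l ω := by
  refine ob_congr (ob_det (fun n => (n : ℝ)) (ob_avg S h))
    (fun n t => Finset.measurable_sum _ fun l _ => h.1 n (t, l)) fun n t _ ω => ?_
  rcases Nat.eq_zero_or_pos n with rfl | hn
  · simp [Finset.eq_empty_of_isEmpty]
  · have : (n : ℝ) ≠ 0 := by exact_mod_cast hn.ne'
    field_simp

lemma rt_tendsto : Tendsto (rt (-1)) atTop (𝓝 0) := by
  have h : Tendsto (fun n : ℕ => √(n : ℝ)) atTop atTop :=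
    tendsto_sqrt_atTop.comp tendsto_natCast_atTop_atTop
  refine h.inv_tendsto_atTop.congr fun n => ?_
  simp [rt]

lemma ob_oo (h : Ob P (rt (-1)) A X) : Oo P A X := ⟨_, rt_tendsto, h⟩

lemma n_rt (p : ℤ) : ∀ᶠ n : ℕ in atTop, |(n : ℝ) * rt p n| ≤ |rt (2 + p) n| :=
  (rt_mul 2 p).mono fun n hn => by
    have : rt 2 n = n := by
      rw [rt, zpow_ofNat, sq_sqrt (Nat.cast_nonneg _)]
    rwa [this] at hn

lemma oo_congr (h : Oo P A X) (hY : ∀ n t, Measurable (Y n t))
    (e : ∀ n t, A n t → ∀ ω, Y n t ω = X n t ω) : Oo P A Y :=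
  h.imp fun _ h => ⟨h.1, ob_congr h.2 hY e⟩

lemma oo_fsum {ι : Type} (S : Finset ι) {X : ι → ∀ n, T n → Ω n → ℝ}
    (h : ∀ i, Oo P A (X i)) : Oo P A fun n t ω => ∑ i ∈ S, X i n t ω := by
  classical
  induction S using Finset.induction_on with
  | empty => simpa using ob_oo (P := P) (A := A) ob_zero
  | insert k s hk ih => simpa [Finset.sum_insert hk] using oo_add (h k) ih

end order

variable {β ρ : ℝ} {m n : ℕ}

/-- the component along `v` -/
def ph (v : Fin m → ℝ) (u : Fm m) (I : Finset (Fin n)) (l : Fin n) (σ : Cube n) (ω : Env n) : ℝ :=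
  ∑ a, v a * u n I l σ ω a

/-- the difference under the flip of `k` -/
def dp (v : Fin m → ℝ) (u : Fm m) (I : Finset (Fin n)) (l k : Fin n) (ω : Env n) : ℝ :=
  ph v u I l (one n) ω - ph v u I l (fl (one n) k) ω

lemma ph_field (v c : Fin m → ℝ) (u : Fm m) (I : Finset (Fin n)) (i : Fin n) (σ : Cube n)
    (ω : Env n) : ph v (fieldOf c u) I i σ ω =
      (v ⬝ᵥ c) * ω s(i, i) + ∑ l ∈ I.erase i, J ω i l * ph v u (I.erase i) l σ ω := by
  simp only [ph, fieldOf, mul_add, Finset.sum_add_distrib, dotProduct, Finset.sum_mul,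
    Finset.mul_sum]
  rw [Finset.sum_comm]
  congr 1
  · exact Finset.sum_congr rfl fun _ _ => by ring
  · exact Finset.sum_congr rfl fun _ _ => Finset.sum_congr rfl fun _ _ => by ring

lemma dp_field (v c : Fin m → ℝ) (u : Fm m) (I : Finset (Fin n)) (i k : Fin n) (ω : Env n) :
    dp v (fieldOf c u) I i k ω = ∑ l ∈ I.erase i, J ω i l * dp v u (I.erase i) l k ω := by
  simp only [dp, ph_field, mul_sub, Finset.sum_sub_distrib]
  ring

lemma hf_erase {I : Finset (Fin n)} {i k : Fin n} (hi : i ∈ I) (hk : k ≠ i) (ω : Env n) :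
    hf β ρ I k (one n) ω = hf β ρ (I.erase i) k (one n) ω + β * J ω i k := by
  have h1 : i ∈ I.erase k := Finset.mem_erase.2 ⟨hk.symm, hi⟩
  have h2 : J ω k i = J ω i k := by rw [J, J, Sym2.eq_swap]
  unfold hf
  rw [← Finset.add_sum_erase _ _ h1, Finset.erase_right_comm, h2]
  simp only [one_apply, sg, if_true]
  ring

lemma meas_J (i l : Fin n) : Measurable fun ω : Env n => J ω i l :=
  (measurable_pi_apply _).div_const _

lemma meas_hf (I : Finset (Fin n)) (k : Fin n) (σ : Cube n) : Measurable (hf β ρ I k σ) :=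
  ((measurable_pi_apply _).const_mul _).add
    ((Finset.measurable_sum _ fun l _ => (meas_J k l).mul_const _).const_mul _)

lemma meas_pk (I : Finset (Fin n)) (k : Fin n) (σ : Cube n) : Measurable (pk β ρ I k σ) :=
  (continuous_hb _).measurable.comp (meas_hf I k σ)

lemma meas_sech2 : Measurable sech2 := by
  unfold sech2
  exact measurable_const.div (Real.continuous_cosh.measurable.pow_const 2)

lemma sech2_le (h : ℝ) : |sech2 h / 2| ≤ 1 := by
  have h1 := Real.one_le_cosh h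
  have h2 : 1 ≤ cosh h ^ 2 := one_le_pow₀ h1
  have h3 : sech2 h ≤ 1 := by unfold sech2; rw [div_le_one (by linarith)]; exact h2
  have h4 : 0 ≤ sech2 h := by unfold sech2; positivity
  rw [abs_le]; constructor <;> linarith

lemma meas_ph {u : Fm m} (hu : Net β ρ u) (v : Fin m → ℝ) (I : Finset (Fin n)) (l : Fin n)
    (σ : Cube n) : Measurable (ph v u I l σ) :=
  Finset.measurable_sum _ fun a _ => Measurable.const_mul
    ((measurable_pi_apply a).comp ((WithLp.measurable_ofLp _ _).comp (hu.meas n I l σ))) _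

lemma meas_dp {u : Fm m} (hu : Net β ρ u) (v : Fin m → ℝ) (I : Finset (Fin n)) (l k : Fin n) :
    Measurable (dp v u I l k) := (meas_ph hu v I l _).sub (meas_ph hu v I l _)

lemma not_mem {I : Finset (Fin n)} {i a b : Fin n} (ha : a ∈ I.erase i) (hb : b ∈ I.erase i) :
    i ∉ s(a, b) := by
  rw [Sym2.mem_iff]
  rintro (h | h)
  · exact Finset.ne_of_mem_erase ha h.symm
  · exact Finset.ne_of_mem_erase hb h.symm

lemma ri_ph {u : Fm m} (hu : Net β ρ u) (v : Fin m → ℝ) {I : Finset (Fin n)} {i l : Fin n}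
    (hl : l ∈ I.erase i) (σ : Cube n) : RI i (ph v u (I.erase i) l σ) := fun ω ω' h => by
  unfold ph
  rw [hu.loc n _ l σ σ ω ω' hl (fun _ _ => rfl) fun a ha b hb _ => h _ (not_mem ha hb)]

lemma ri_hf {I : Finset (Fin n)} {i k : Fin n} (hk : k ∈ I.erase i) (σ : Cube n) :
    RI i (hf β ρ (I.erase i) k σ) := fun ω ω' h => by
  unfold hf
  rw [h _ (not_mem hk hk)]
  congr 2
  refine Finset.sum_congr rfl fun l hl => ?_
  rw [J, J, h _ (not_mem hk (Finset.mem_of_mem_erase hl))]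

lemma ob_ph {u : Fm m} (hu : Net β ρ u) (v : Fin m → ℝ) :
    Ob (PP β ρ) (rt 0) (fun n (_ : Ix n) => True) fun _ t ω => ph v u t.I t.i t.σ ω :=
  ob_fsum _ fun a => ob_smul (v a) (hu.B a)

lemma ob_dp {u : Fm m} (hu : Net β ρ u) (v : Fin m → ℝ) :
    Ob (PP β ρ) (rt (-1)) (fun n (t : Ix n) => t.k ≠ t.i) fun _ t ω => dp v u t.I t.i t.k ω := by
  have h := ob_reindex (ob_fsum Finset.univ fun a => ob_smul (v a) (hu.F a))
    (A' := fun n (t : Ix n) => t.k ≠ t.i) (fun n t => { t with σ := one n }) fun _ _ h => h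
  refine ob_congr h (fun n t => meas_dp hu v _ _ _) fun n t _ ω => ?_
  simp only [dp, ph, mul_sub, Finset.sum_sub_distrib]

lemma big_erase {N : ℕ} {I : Finset (Fin n)} (h : Big N I) (i : Fin n) : Big (N + 1) (I.erase i) := by
  have := Finset.pred_card_le_card_erase (s := I) (a := i)
  unfold Big at *
  omega

/-- the matrix of the quadratic term -/
def Mq (β ρ : ℝ) (v : Fin m → ℝ) (u : Fm m) (I : Finset (Fin n)) (l k : Fin n) (ω : Env n) : ℝ :=
  sech2 (hf β ρ I k (one n) ω) / 2 * dp v u I l k ω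

/-- the remainder of the rate -/
def rm (β ρ : ℝ) (I : Finset (Fin n)) (i k : Fin n) (ω : Env n) : ℝ :=
  pk β ρ I k (one n) ω - pk β ρ (I.erase i) k (one n) ω +
    sech2 (hf β ρ (I.erase i) k (one n) ω) / 2 * (β * J ω i k)

lemma meas_Mq {u : Fm m} (hu : Net β ρ u) (v : Fin m → ℝ) (I : Finset (Fin n)) (l k : Fin n) :
    Measurable (Mq β ρ v u I l k) :=
  ((meas_sech2.comp (meas_hf I k _)).div_const _).mul (meas_dp hu v I l k)

lemma meas_rm (I : Finset (Fin n)) (i k : Fin n) : Measurable (rm β ρ I i k) :=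
  ((meas_pk I k _).sub (meas_pk _ k _)).add
    (((meas_sech2.comp (meas_hf _ k _)).div_const _).mul ((meas_J i k).const_mul _))

lemma rm_le (hS : SmStmt) {I : Finset (Fin n)} {i k : Fin n} (hi : i ∈ I) (hk : k ≠ i)
    (ω : Env n) : |rm β ρ I i k ω| ≤ (β * J ω i k) ^ 2 := by
  have h := hS.tay (hf β ρ (I.erase i) k (one n) ω) (hf β ρ I k (one n) ω) false
  rw [hf_erase hi hk, add_sub_cancel_left] at h
  unfold rm pk
  rw [hf_erase hi hk]
  convert h using 2
  simp only [one_apply, sg, Bool.not_true, Bool.false_eq_true, if_false]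
  ring

lemma Mq_le (v : Fin m → ℝ) (u : Fm m) (I : Finset (Fin n)) (l k : Fin n) (ω : Env n) :
    |Mq β ρ v u I l k ω| ≤ |dp v u I l k ω| := by
  rw [Mq, abs_mul]
  exact mul_le_of_le_one_left (abs_nonneg _) (sech2_le _)

lemma form_eq (v c : Fin m → ℝ) (u : Fm m) (I : Finset (Fin n)) (i : Fin n) (ω : Env n) :
    ∑ l ∈ I.erase i, ∑ k ∈ I.erase i, J ω i l * J ω i k * Mq β ρ v u (I.erase i) l k ω =
      ∑ k ∈ I.erase i, sech2 (hf β ρ (I.erase i) k (one n) ω) / 2 *
        (J ω i k * dp v (fieldOf c u) I i k ω) := by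
  rw [Finset.sum_comm]
  refine Finset.sum_congr rfl fun k _ => ?_
  rw [dp_field, Finset.mul_sum, Finset.mul_sum]
  exact Finset.sum_congr rfl fun l _ => by rw [Mq]; ring

lemma nL_eq (v c : Fin m → ℝ) (u : Fm m) {I : Finset (Fin n)} {i : Fin n} (hi : i ∈ I)
    (ω : Env n) (h0 : dp v (fieldOf c u) I i i ω = 0) :
    nL β ρ I (fun σ => ph v (fieldOf c u) I i σ ω) (one n) ω =
      ∑ l ∈ I.erase i, J ω i l * nL β ρ (I.erase i) (fun σ => ph v u (I.erase i) l σ ω) (one n) ω -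
      β * ∑ l ∈ I.erase i, ∑ k ∈ I.erase i, J ω i l * J ω i k * Mq β ρ v u (I.erase i) l k ω +
      ∑ k ∈ I.erase i, rm β ρ I i k ω * dp v (fieldOf c u) I i k ω := by
  have e1 : ∑ l ∈ I.erase i, J ω i l *
      nL β ρ (I.erase i) (fun σ => ph v u (I.erase i) l σ ω) (one n) ω =
      ∑ k ∈ I.erase i, pk β ρ (I.erase i) k (one n) ω * dp v (fieldOf c u) I i k ω := by
    simp only [nL, dp_field, Finset.mul_sum]
    rw [Finset.sum_comm]
    exact Finset.sum_congr rfl fun k _ => Finset.sum_congr rfl fun l _ => by rw [dp]; ring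
  have e2 : nL β ρ I (fun σ => ph v (fieldOf c u) I i σ ω) (one n) ω =
      ∑ k ∈ I.erase i, pk β ρ I k (one n) ω * dp v (fieldOf c u) I i k ω := by
    rw [nL, ← Finset.add_sum_erase _ _ hi]
    change _ * dp v (fieldOf c u) I i i ω + _ = _
    rw [h0, mul_zero, zero_add]
    rfl
  rw [e1, e2, form_eq v c, Finset.mul_sum, ← Finset.sum_sub_distrib, ← Finset.sum_add_distrib]
  exact Finset.sum_congr rfl fun k _ => by rw [rm]; ring

theorem main : X3Glue := by
  intro hL hQ hS hX0 β ρ b c U u h1 h2 h3 v hv N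
  have hu := h1.net
  have hX := hX0 β ρ b c u h1
  obtain ⟨hc, h3⟩ := h3 v hv
  obtain ⟨-, hJ, hL⟩ := hL β ρ
  set A : ∀ n, Ix n → Prop := fun n t => Big N t.I ∧ t.i ∈ t.I with hA
  -- first term
  have T1 : Oo (PP β ρ) A fun n t ω => ∑ l ∈ t.I.erase t.i, J ω t.i l *
      (nL β ρ (t.I.erase t.i) (fun σ => ph v u (t.I.erase t.i) l σ ω) (one n) ω -
        ph (b.A *ᵥ v) u (t.I.erase t.i) l (one n) ω) := by
    obtain ⟨d, hd, h⟩ := h3 (N + 1)
    refine ⟨d, hd, hL Ix A d (fun _ t => t.i) (fun _ t => t.I.erase t.i) (fun n t l ω =>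
      nL β ρ (t.I.erase t.i) (fun σ => ph v u (t.I.erase t.i) l σ ω) (one n) ω -
        ph (b.A *ᵥ v) u (t.I.erase t.i) l (one n) ω)
      (fun n t _ => ⟨Finset.notMem_erase _ _, fun l hl ω ω' e => ?_⟩) ?_⟩
    · simp only [nL, pk, ri_ph hu _ hl _ ω ω' e]
      congr 1
      exact Finset.sum_congr rfl fun k hk => by rw [ri_hf hk _ ω ω' e]
    · exact ob_reindex h (fun n (p : Ix n × Fin n) =>
        { p.1 with I := p.1.I.erase p.1.i, i := p.2 }) fun n p hp => ⟨big_erase hp.1.1 _, hp.2⟩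
  -- increments of the field
  have D1 : Ob (PP β ρ) (rt (-1)) (fun n (p : Ix n × Fin n) => A n p.1 ∧ p.2 ∈ p.1.I.erase p.1.i)
      fun n p ω => dp v (fieldOf c u) p.1.I p.1.i p.2 ω :=
    ob_reindex (ob_dp hX.net v) (fun n (p : Ix n × Fin n) => { p.1 with k := p.2 })
      fun n p hp => Finset.ne_of_mem_erase hp.2
  have J1 : Ob (PP β ρ) (rt (-1)) (fun n (p : Ix n × Fin n) => A n p.1 ∧ p.2 ∈ p.1.I.erase p.1.i)
      fun n p ω => J ω p.1.i p.2 :=
    ob_reindex hJ (fun n (p : Ix n × Fin n) => (p.1.i, p.2)) fun _ _ _ => trivial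
  -- second term
  have T2 : Oo (PP β ρ) A fun n t ω => ∑ l ∈ t.I.erase t.i, ∑ k ∈ t.I.erase t.i,
      J ω t.i l * J ω t.i k * Mq β ρ v u (t.I.erase t.i) l k ω -
        (∑ l ∈ t.I.erase t.i, Mq β ρ v u (t.I.erase t.i) l l ω) / n := by
    refine hQ β ρ Ix A (fun _ t => t.i) (fun _ t => t.I.erase t.i)
      (fun n t l k => Mq β ρ v u (t.I.erase t.i) l k)
      (fun n t _ => ⟨Finset.notMem_erase _ _, fun l hl k hk ω ω' e => ?_⟩) ?_ ?_ ?_
    · simp only [Mq, dp, ri_ph hu _ hl _ ω ω' e, ri_hf hk _ ω ω' e]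
    · refine ob_dom (ob_sub
        (ob_reindex (ob_ph hu v) (fun n (p : Ix n × Fin n) =>
          { p.1 with I := p.1.I.erase p.1.i, i := p.2, σ := one n }) fun _ _ _ => trivial)
        (ob_reindex (ob_ph hu v) (fun n (p : Ix n × Fin n) =>
          { p.1 with I := p.1.I.erase p.1.i, i := p.2, σ := fl (one n) p.2 }) fun _ _ _ => trivial))
        (fun n p => meas_Mq hu v _ _ _) fun n p _ ω => Mq_le _ _ _ _ _ _
    · refine ob_oo (ob_dom (ob_reindex (ob_dp hu v) (fun n (p : Ix n × Fin n × Fin n) =>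
          { p.1 with I := p.1.I.erase p.1.i, i := p.2.1, k := p.2.2 }) fun n p hp => hp.2.2.2.symm)
        (fun n p => meas_Mq hu v _ _ _) fun n p _ ω => Mq_le _ _ _ _ _ _)
    · have h4 : Ob (PP β ρ) (rt (-2))
          (fun n (p : Ix n × Fin n) => A n p.1 ∧ p.2 ∈ p.1.I.erase p.1.i) fun n p ω =>
          sech2 (hf β ρ (p.1.I.erase p.1.i) p.2 (one n) ω) / 2 *
            (J ω p.1.i p.2 * dp v (fieldOf c u) p.1.I p.1.i p.2 ω) :=
        ob_dom (ob_mono (ob_mul J1 D1) (rt_mul (-1) (-1)))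
          (fun n p => ((meas_sech2.comp (meas_hf _ _ _)).div_const _).mul
            ((meas_J _ _).mul (meas_dp hX.net v _ _ _))) fun n p _ ω => by
          rw [abs_mul]
          exact mul_le_of_le_one_left (abs_nonneg _) (sech2_le _)
      have h5 := ob_mono (ob_sum (A := A) (fun _ t => t.I.erase t.i)
        (X := fun n t k ω => sech2 (hf β ρ (t.I.erase t.i) k (one n) ω) / 2 *
          (J ω t.i k * dp v (fieldOf c u) t.I t.i k ω)) h4) (n_rt (-2))
      refine ob_congr h5 (fun n t => Finset.measurable_sum _ fun l _ =>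
        Finset.measurable_sum _ fun k _ => ((meas_J _ _).mul (meas_J _ _)).mul
          (meas_Mq hu v _ _ _)) fun n t _ ω => form_eq v c u _ _ _
  -- third term
  have T3 : Oo (PP β ρ) A fun n t ω =>
      β * ((∑ l ∈ t.I.erase t.i, Mq β ρ v u (t.I.erase t.i) l l ω) / n) - (b.A *ᵥ v) ⬝ᵥ b.g := by
    refine oo_eq (oo_fsum Finset.univ fun a => oo_smul (v a) (oo_reindex (h2.dl a (N + 1))
      (A' := A) (fun n t => { t with I := t.I.erase t.i }) fun n t ht => big_erase ht.1 _))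
      fun n t ω => ?_
    have hs : b.Aᵀ = b.A := b.psd.1
    have e : (b.A *ᵥ v) ⬝ᵥ b.g = ∑ a, v a * (b.A *ᵥ b.g) a := by
      rw [← hs, Matrix.mulVec_transpose, ← Matrix.dotProduct_mulVec, hs]; rfl
    simp only [e, mul_sub, Finset.sum_sub_distrib, Mq, dp, ph, Finset.mul_sum, Finset.sum_div,
      sub_div]
    congr 1
    congr 1 <;> rw [Finset.sum_comm] <;>
      exact Finset.sum_congr rfl fun _ _ => Finset.sum_congr rfl fun _ _ => by ring
  -- fourth term
  have T4 : Oo (PP β ρ) A fun n t ω =>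
      ∑ k ∈ t.I.erase t.i, rm β ρ t.I t.i k ω * dp v (fieldOf c u) t.I t.i k ω := by
    have h4 : Ob (PP β ρ) (rt (-2))
        (fun n (p : Ix n × Fin n) => A n p.1 ∧ p.2 ∈ p.1.I.erase p.1.i) fun n p ω =>
        rm β ρ p.1.I p.1.i p.2 ω :=
      ob_dom (ob_mono (ob_mul (ob_smul β J1) (ob_smul β J1)) (rt_mul (-1) (-1)))
        (fun n p => meas_rm _ _ _) fun n p hp ω => by
        refine (rm_le hS hp.1.2 (Finset.ne_of_mem_erase hp.2) ω).trans ?_
        rw [sq]; exact le_abs_self _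
    exact ob_oo (ob_mono (ob_sum (A := A) (fun _ t => t.I.erase t.i)
      (X := fun n t k ω => rm β ρ t.I t.i k ω * dp v (fieldOf c u) t.I t.i k ω)
      (ob_mono (ob_mul h4 D1) (rt_mul (-2) (-1)))) (n_rt (-2 + -1)))
  refine oo_congr (oo_add (oo_add (oo_add T1 (oo_smul (-β) T2)) (oo_smul (-1) T3)) T4)
    (fun n t => ?_) fun n t ht ω => ?_
  · refine Measurable.sub (Finset.measurable_sum _ fun k _ => (meas_pk _ _ _).mul
      ((meas_ph hX.net v _ _ _).sub (meas_ph hX.net v _ _ _)))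
      (Finset.measurable_sum _ fun a _ => Measurable.const_mul (Measurable.sub_const ?_ _) _)
    exact (measurable_pi_apply a).comp ((WithLp.measurable_ofLp _ _).comp (hX.net.meas n _ _ _))
  · have h0 : dp v (fieldOf c u) t.I t.i t.i ω = 0 := by simp only [dp, ph, hX.ind, sub_self]
    have e1 := nL_eq (β := β) (ρ := ρ) v c u ht.2 ω h0
    have e2 := ph_field (b.A *ᵥ v) c u t.I t.i (one n) ω
    rw [hc, zero_mul, zero_add] at e2
    have e3 : ∑ a, (b.A *ᵥ v) a * (fieldOf c u n t.I t.i (one n) ω a - b.g a) =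
        ph (b.A *ᵥ v) (fieldOf c u) t.I t.i (one n) ω - (b.A *ᵥ v) ⬝ᵥ b.g := by
      simp only [mul_sub, Finset.sum_sub_distrib, ph, dotProduct]
    change nL β ρ t.I (fun σ => ph v (fieldOf c u) t.I t.i σ ω) (one n) ω - _ = _
    rw [e1, e3, e2]
    simp only [mul_sub, Finset.sum_sub_distrib]
    ring

end X73

theorem x3Glue : X3Glue := X73.main

end Crest.Agent.T157.Rn

end
end

-- ▼ part T157/RnAll_60

/-!
# Row 157, block B/R (helper60): realisation, local solutions, lower bound: assembly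
-/

set_option autoImplicit false

namespace Crest.Agent.T157.Rn

open Crest.Agent.T157.Tw

theorem x0Stmt : X0Stmt := x0Glue linStmt
theorem llnStmt : LlnStmt := llnGlue (cavGlue mpStmt) gcStmt tayStmt smStmt x0Stmt

/-- **(R)** -/
theorem realStmt : RealStmt :=
  real_of x0Stmt llnStmt (x2Glue linStmt quadStmt smStmt x0Stmt) (x3Glue linStmt quadStmt smStmt x0Stmt)
    (gamGlue tayStmt smStmt) (genGlue tayStmt smStmt) (v1Glue tayStmt smStmt modelStmt)
    (v23Glue smStmt modelStmt) (baseGlue smStmt modelStmt x0Stmt llnStmt)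

theorem outStmt : OutStmt := outGlue mpStmt smStmt modelStmt realStmt

theorem lamPos_of (h : Top.PoinHi) : LamPos :=
  lamPosGlue okStmt zeroStmt smStmt modelStmt outStmt h

theorem loc0 : Loc0 :=
  have fa := famGlue cal polApi
  have ga := galGlue cal polApi fa
  have fx := fixGlue cal polApi (specGlue cal polApi)
  have bd := bdGlue cal polApi
  loc0_of cal fa fx ga.1 (oneGlue cal polApi fa bd fx ga.1 ga.2 (apGlue cal polApi fa wsStmt bd ga.1))
    (extGlue cal polApi fa).1 (extGlue cal polApi fa).2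


/-- **the lower bound** -/
theorem lb (h : Top.PoinHi) {𝒞 : Cls} (h𝒞 : ∀ m, 𝒞.C m = PV m) {β : ℝ} (h0 : 0 < β) (h1 : β < 1) :
    0 < lam 𝒞 β ∧ lam 𝒞 β ≤ (1 - β) ^ 2 ∧ Low.LB β (lam 𝒞 β) :=
  ⟨lamPos_of h 𝒞 h𝒞 β h0.le h1, (lamStmt 𝒞 β h0.le h1).2.1,
    lb_of loc0 outStmt (lamPos_of h) h𝒞 h0 h1⟩

end Crest.Agent.T157.Rn
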