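import Crest.Agent.T157.RegBas_66

/-!
# Row 157, part B, block S6 (helper47): forms, the Hodge identity (H1), (H2), (FL)
-/

set_option autoImplicit false

noncomputable section

namespace Crest.Agent.T157.S6h

open Matrix Real Function
open Crest.Agent.T157.E hiding mean
open Crest.Agent.T157.Eig
open Crest.Agent.T157.Tap (V Mx)
open Crest.Agent.T157.Rec (grad fl grad_eq sv_mul_self sv_fl_ne)
open Crest.Agent.T157.Da.Gr
open Crest.Agent.T157.Chain22 (sg IsP mean)
open Crest.Agent.T157.Reg (VF mu Tk am al jac bb)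
open Crest.Agent.T157.Reg.Bas66 (mu_pos tt_fl grad_fl sv_fl_self gen_eq grad_gen)

variable {n : ℕ} {W : Mx n}

/-! ### words -/

/-- flip difference -/
def dl (j : Fin n) (F : Cube n → ℝ) (x : Cube n) : ℝ := F (fl x j) - F x
/-- `F` does not depend on the spin `k` -/
def Fr (k : Fin n) (F : Cube n → ℝ) : Prop := ∀ x, F (fl x k) = F x
/-- component -/
def cp (U : VF n) (k : Fin n) : Cube n → ℝ := fun x => U x k
/-- one-forms: the component `k` does not depend on the spin `k` -/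
def FrV (U : VF n) : Prop := ∀ k, Fr k (cp U k)
/-- the edge weight of direction `k` -/
def cw (W : Mx n) (k : Fin n) (x : Cube n) : ℝ := mu W x * Tk W x k
/-- flip rate of `j` on the edges of direction `k` (`r_j^[k]`) -/
def rc (W : Mx n) (k j : Fin n) (x : Cube n) : ℝ :=
  Tk W x j * Tk W (fl x j) k / ((1 - Tk W x j) * Tk W x k + Tk W x j * Tk W (fl x j) k)
/-- `E_j^[k]` -/
def Ec (W : Mx n) (k j : Fin n) (F : Cube n → ℝ) (x : Cube n) : ℝ := F x + rc W k j x * dl j F x
/-- `L^[k]` -/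
def Lc (W : Mx n) (k : Fin n) (F : Cube n → ℝ) (x : Cube n) : ℝ :=
  ∑ j ∈ Finset.univ.erase k, rc W k j x * dl j F x
/-- divergence -/
def dv (W : Mx n) (U : VF n) (x : Cube n) : ℝ := ∑ k, (sv x k - tt W 0 x k) * U x k
/-- the generator on one-forms -/
def LL (W : Mx n) (U : VF n) : VF n := fun x k =>
  Lc W k (cp U k) x - U x k + ∑ i ∈ Finset.univ.erase k, am W x k i * Ec W i k (cp U i) x

/-! ### rates -/

lemma fl_fl (x : Cube n) (i : Fin n) : fl (fl x i) i = x := by simp [fl]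

lemma fl_comm (x : Cube n) (i j : Fin n) : fl (fl x i) j = fl (fl x j) i := by
  by_cases h : i = j
  · rw [h]
  · simp only [fl, update_of_ne h, update_of_ne (Ne.symm h)]
    exact update_comm h _ _ _

lemma sv_cases (x : Cube n) (i : Fin n) : sv x i = 1 ∨ sv x i = -1 :=
  mul_self_eq_one_iff.1 (sv_mul_self x i)

lemma abs_sv (x : Cube n) (i : Fin n) : |sv x i| = 1 := by
  rcases sv_cases x i with h | h <;> simp [h]

lemma Tk_pos (W : Mx n) (x : Cube n) (k : Fin n) : 0 < Tk W x k := by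
  have h := abs_lt.1 (abs_tanh_lt_one (loc W 0 x k))
  rcases sv_cases x k with hs | hs <;> rw [Tk, hs, tt] <;> linarith [h.1, h.2]

lemma Tk_fl (W : Mx n) (x : Cube n) (k : Fin n) : Tk W (fl x k) k = 1 - Tk W x k := by
  rw [Tk, Tk, tt_fl, sv_fl_self]; ring

lemma Tk_lt (W : Mx n) (x : Cube n) (k : Fin n) : Tk W x k < 1 := by
  have := Tk_pos W (fl x k) k
  rw [Tk_fl] at this; linarith

lemma s_sub_t (W : Mx n) (x : Cube n) (k : Fin n) :
    sv x k - tt W 0 x k = 2 * sv x k * Tk W x k := by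
  rw [Tk]; linear_combination (tt W 0 x k) * sv_mul_self x k

lemma c_eq (W : Mx n) (x : Cube n) (k : Fin n) :
    1 - tt W 0 x k ^ 2 = 4 * Tk W x k * (1 - Tk W x k) := by
  rw [Tk]; linear_combination (tt W 0 x k ^ 2) * sv_mul_self x k

lemma c_le (W : Mx n) (x : Cube n) (k : Fin n) : 1 - tt W 0 x k ^ 2 ≤ 4 * Tk W x k := by
  rw [c_eq]; nlinarith [Tk_pos W x k]

lemma dl_eq (j : Fin n) (F : Cube n → ℝ) (x : Cube n) : dl j F x = -2 * sv x j * grad F x j := by
  rw [dl, val_fl F]; ring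

lemma gen_dl (hW : Wᵀ = W) (F : Cube n → ℝ) (x : Cube n) :
    gen (mu W) F x = ∑ j, Tk W x j * dl j F x := gen_eq hW F x

/-- `a_jk` in terms of the rates -/
lemma am_eq (W : Mx n) (x : Cube n) {j k : Fin n} (h : j ≠ k) :
    am W x j k = sv x j * sv x k * (Tk W (fl x j) k - Tk W x k) := by
  rw [am, of_apply, grad_eq, Tk, Tk, sv_fl_ne x h.symm]
  linear_combination (-(sv x j * (tt W 0 x k - tt W 0 (fl x j) k) / 2)) * sv_mul_self x k

lemma am_self (W : Mx n) (x : Cube n) (k : Fin n) : am W x k k = 0 := by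
  rw [am, of_apply, grad_eq, tt_fl]; ring

lemma am_fl (W : Mx n) (x : Cube n) (j k : Fin n) : am W (fl x j) j k = am W x j k :=
  grad_fl _ x j



/-- `a_jk = W_kj q`, `q ≈ c_k` -/
lemma am_q (W : Mx n) (x : Cube n) {j k : Fin n} (h : j ≠ k) : ∃ q, am W x j k = W k j * q ∧
    0 ≤ q ∧ q ≤ 1 ∧ q ≤ exp (4 * |W k j|) * (1 - tt W 0 x k ^ 2) ∧
    1 - tt W 0 x k ^ 2 ≤ exp (4 * |W k j|) * q := by
  obtain ⟨ξ, h1, h2⟩ := mvt (loc W 0 x k) (loc W 0 x k - 2 * sv x j * W k j)
  rw [sub_sub_cancel] at h1 h2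
  rw [abs_mul, abs_mul, abs_sv, abs_two, mul_one] at h1
  refine ⟨1 - tanh ξ ^ 2, ?_, sech_nonneg ξ, by nlinarith [sq_nonneg (tanh ξ)], ?_, ?_⟩
  · rw [am, of_apply, grad_eq, tt, tt, loc_fl, if_neg h, h2]
    linear_combination (W k j * (1 - tanh ξ ^ 2)) * sv_mul_self x j
  · exact (sech_le _ ξ).trans
      (mul_le_mul_of_nonneg_right (exp_le_exp.2 (by linarith)) (sech_nonneg _))
  · refine (sech_le ξ _).trans (mul_le_mul_of_nonneg_right (exp_le_exp.2 ?_) (sech_nonneg _))
    rw [abs_sub_comm]; linarith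

lemma abs_am_le (W : Mx n) (x : Cube n) (j k : Fin n) :
    |am W x j k| ≤ |W k j| ∧ |am W x j k| ≤ exp (4 * |W k j|) * |W k j| * (1 - tt W 0 x k ^ 2) := by
  by_cases h : j = k
  · subst h
    rw [am_self, abs_zero]
    have := sech_nonneg (loc W 0 x j)
    exact ⟨abs_nonneg _, mul_nonneg (by positivity) this⟩
  obtain ⟨q, e, q0, q1, q2, -⟩ := am_q W x h
  rw [e, abs_mul, abs_of_nonneg q0]
  exact ⟨mul_le_of_le_one_right (abs_nonneg _) q1, by nlinarith [abs_nonneg (W k j)]⟩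

/-- detailed balance -/
lemma bal (hW : Wᵀ = W) (x : Cube n) (j : Fin n) :
    mu W (fl x j) * (1 - Tk W x j) = mu W x * Tk W x j := by
  have h1 := exp_pos (loc W 0 x j)
  rw [mu, ising_fl hW, Tk, tt, tanh_eq]
  rcases sv_cases x j with hs | hs <;> rw [hs]
  · rw [one_mul, two_mul, neg_add, exp_add, exp_neg]; field_simp; ring
  · rw [neg_one_mul, mul_neg, neg_neg, two_mul, exp_add, exp_neg]; field_simp; ring

/-- the cocycle identity on a face -/
lemma cyc (hW : Wᵀ = W) (x : Cube n) (j k : Fin n) :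
    Tk W x j * Tk W (fl x j) k * ((1 - Tk W x k) * (1 - Tk W (fl x k) j)) =
      Tk W x k * Tk W (fl x k) j * ((1 - Tk W x j) * (1 - Tk W (fl x j) k)) := by
  have h1 := bal hW x j
  have h2 := bal hW x k
  have h3 := bal hW (fl x j) k
  have h4 := bal hW (fl x k) j
  rw [fl_comm x k j] at h4
  refine mul_left_cancel₀ (mu_pos W x).ne' ?_
  linear_combination (-(Tk W (fl x j) k * ((1 - Tk W x k) * (1 - Tk W (fl x k) j)))) * h1 +
    (Tk W (fl x k) j * ((1 - Tk W x j) * (1 - Tk W (fl x j) k))) * h2 -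
    ((1 - Tk W x j) * (1 - Tk W x k) * (1 - Tk W (fl x k) j)) * h3 +
    ((1 - Tk W x j) * (1 - Tk W x k) * (1 - Tk W (fl x j) k)) * h4

lemma den_pos (W : Mx n) (k j : Fin n) (x : Cube n) :
    0 < (1 - Tk W x j) * Tk W x k + Tk W x j * Tk W (fl x j) k :=
  add_pos (mul_pos (sub_pos.2 (Tk_lt W x j)) (Tk_pos W x k))
    (mul_pos (Tk_pos W x j) (Tk_pos W _ k))

lemma rc_mul (W : Mx n) (k j : Fin n) (x : Cube n) :
    rc W k j x * ((1 - Tk W x j) * Tk W x k + Tk W x j * Tk W (fl x j) k) =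
      Tk W x j * Tk W (fl x j) k := div_mul_cancel₀ _ (den_pos W k j x).ne'

lemma rc_pos (W : Mx n) (k j : Fin n) (x : Cube n) : 0 < rc W k j x :=
  div_pos (mul_pos (Tk_pos W x j) (Tk_pos W _ k)) (den_pos W k j x)

lemma rc_fl_self (W : Mx n) (k j : Fin n) (x : Cube n) : rc W k j (fl x j) = 1 - rc W k j x := by
  have h := den_pos W k j x
  rw [rc, rc, Tk_fl, fl_fl, sub_sub_cancel, add_comm (Tk W x j * _)]
  field_simp
  ring

lemma rc_lt (W : Mx n) (k j : Fin n) (x : Cube n) : rc W k j x < 1 := by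
  have := rc_pos W k j (fl x j)
  rw [rc_fl_self] at this; linarith

/-- the rate `r_j^[k]` does not depend on the spin `k` -/
lemma rc_fl (hW : Wᵀ = W) (k j : Fin n) (x : Cube n) : rc W k j (fl x k) = rc W k j x := by
  have h1 := den_pos W k j x
  have h2 := den_pos W k j (fl x k)
  rw [rc, rc, div_eq_div_iff h2.ne' h1.ne', fl_comm x k j, Tk_fl, Tk_fl]
  linear_combination -cyc hW x j k

/-- **(H2)**: `r_j^[k] = E_k^[j] [r_j(s^k)]` -/
lemma H2 (hW : Wᵀ = W) (k j : Fin n) (x : Cube n) :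
    rc W k j x = (1 - rc W j k x) * Tk W (fl x k) j + rc W j k x * Tk W x j := by
  have h1 := den_pos W k j x
  have h2 := den_pos W j k x
  refine mul_right_cancel₀ (mul_pos h1 h2).ne' ?_
  linear_combination ((1 - Tk W x k) * Tk W x j + Tk W x k * Tk W (fl x k) j) * rc_mul W k j x +
    (Tk W (fl x k) j - Tk W x j) *
      ((1 - Tk W x j) * Tk W x k + Tk W x j * Tk W (fl x j) k) * rc_mul W j k x +
    (Tk W x j) * cyc hW x j k

lemma rc_sub (hW : Wᵀ = W) {k j : Fin n} (h : k ≠ j) (x : Cube n) :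
    rc W k j x - Tk W x j = (1 - rc W j k x) * (sv x k * sv x j * am W x k j) := by
  rw [H2 hW k j x, am_eq W x h]
  linear_combination (-((1 - rc W j k x) * (Tk W (fl x k) j - Tk W x j) * (sv x j * sv x j))) *
    sv_mul_self x k - ((1 - rc W j k x) * (Tk W (fl x k) j - Tk W x j)) * sv_mul_self x j

lemma abs_rc_sub (hW : Wᵀ = W) {k j : Fin n} (h : k ≠ j) (x : Cube n) :
    |rc W k j x - Tk W x j| ≤ |am W x k j| := by
  rw [rc_sub hW h, abs_mul, abs_mul, abs_mul, abs_sv, abs_sv, one_mul, one_mul,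
    abs_of_pos (sub_pos.2 (rc_lt W j k x))]
  exact mul_le_of_le_one_left (abs_nonneg _) (by linarith [rc_pos W j k x])


/-- relative form -/
lemma abs_rc_rel (hW : Wᵀ = W) {k j : Fin n} (h : k ≠ j) (x : Cube n) :
    |rc W k j x - Tk W x j| ≤ 4 * exp (4 * |W j k|) * |W j k| * Tk W x j := by
  refine (abs_rc_sub hW h x).trans ((abs_am_le W x k j).2.trans ?_)
  have := mul_le_mul_of_nonneg_left (c_le W x j)
    (mul_nonneg (exp_pos (4 * |W j k|)).le (abs_nonneg (W j k)))
  linarith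

/-- first-order expansion of `r_j^[k] - r_j` -/
lemma rc_expand (hW : Wᵀ = W) {k j : Fin n} (h : k ≠ j) (x : Cube n) :
    |rc W k j x - Tk W x j - sv x j * W j k * (1 - tt W 0 x j ^ 2) * (sv x k + tt W 0 x k) / 2| ≤
      5 * exp (4 * |W j k|) * W j k ^ 2 * (1 - tt W 0 x j ^ 2) := by
  obtain ⟨q, e, q0, -, q2, q3⟩ := am_q W x h
  have hs : W k j = W j k := by rw [← hW, transpose_apply, hW]
  have h1 := (abs_rc_sub hW h.symm x).trans (abs_am_le W x j k).1
  rw [hs] at h1
  set c := 1 - tt W 0 x j ^ 2 with hc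
  set E := exp (4 * |W j k|) with hE
  have c0 : 0 ≤ c := sech_nonneg _
  have a0 := abs_nonneg (W j k)
  have E1 : 1 ≤ E := one_le_exp (by positivity)
  have E2 : E - 1 ≤ 4 * |W j k| * E := by
    have := add_one_le_exp (-(4 * |W j k|))
    rw [exp_neg, ← hE] at this
    have h3 := mul_le_mul_of_nonneg_right this (by linarith : 0 ≤ E)
    rw [inv_mul_cancel₀ (by linarith)] at h3
    linarith
  have hq : |q - c| ≤ 4 * |W j k| * E * c := by
    rw [abs_le]
    constructor
    · have h4 : E * (c - q) ≤ (E - 1) * c := by nlinarith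
      nlinarith [mul_le_mul_of_nonneg_right E2 c0, mul_nonneg a0 c0,
        mul_nonneg (mul_nonneg a0 c0) (sub_nonneg.2 E1)]
    · nlinarith [mul_le_mul_of_nonneg_right E2 c0]
  have e1 : rc W k j x - Tk W x j - sv x j * W j k * c * (sv x k + tt W 0 x k) / 2 =
      sv x k * sv x j * W j k *
        ((1 - Tk W x k) * (q - c) - (rc W j k x - Tk W x k) * q) := by
    rw [rc_sub hW h, e, Tk]
    linear_combination (sv x j * W j k * c * tt W 0 x k / 2) * sv_mul_self x k
  rw [e1, abs_mul, abs_mul, abs_mul, abs_sv, abs_sv, one_mul, one_mul]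
  have h5 : |(1 - Tk W x k) * (q - c) - (rc W j k x - Tk W x k) * q| ≤ 5 * |W j k| * E * c := by
    refine (abs_sub _ _).trans ?_
    rw [abs_mul, abs_mul, abs_of_nonneg q0, abs_of_pos (sub_pos.2 (Tk_lt W x k))]
    have h6 : (1 - Tk W x k) * |q - c| ≤ |q - c| :=
      mul_le_of_le_one_left (abs_nonneg _) (by linarith [Tk_pos W x k])
    have h7 : |rc W j k x - Tk W x k| * q ≤ |W j k| * (E * c) := mul_le_mul h1 q2 q0 a0
    linarith
  calc _ ≤ |W j k| * (5 * |W j k| * E * c) := mul_le_mul_of_nonneg_left h5 a0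
    _ = _ := by rw [← sq_abs (W j k)]; ring

/-! ### freeness -/

lemma Fr.dl_self {k : Fin n} {F : Cube n → ℝ} (h : Fr k F) (x : Cube n) : dl k F x = 0 := by
  rw [dl, h, sub_self]

lemma Fr.dl {k : Fin n} {F : Cube n → ℝ} (h : Fr k F) (j : Fin n) : Fr k (dl j F) := fun x => by
  rw [S6h.dl, S6h.dl, fl_comm, h, h]

lemma Fr.Ec (hW : Wᵀ = W) {k : Fin n} {F : Cube n → ℝ} (h : Fr k F) (j : Fin n) :
    Fr k (Ec W k j F) := fun x => by
  rw [S6h.Ec, S6h.Ec, rc_fl hW, h, h.dl]

lemma fr_Ec (W : Mx n) (k j : Fin n) (F : Cube n → ℝ) : Fr j (Ec W k j F) := fun x => by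
  rw [Ec, Ec, rc_fl_self, dl, dl, fl_fl]; ring

lemma Fr.Lc (hW : Wᵀ = W) {k : Fin n} {F : Cube n → ℝ} (h : Fr k F) : Fr k (Lc W k F) :=
  fun x => Finset.sum_congr rfl fun j _ => by rw [rc_fl hW, h.dl]

lemma FrV.LL (hW : Wᵀ = W) {U : VF n} (h : FrV U) : FrV (LL W U) := fun k x => by
  simp only [cp, S6h.LL]
  rw [(h k).Lc hW x, show U (fl x k) k = U x k from h k x]
  congr 1
  exact Finset.sum_congr rfl fun i _ => by rw [am_fl, fr_Ec]

lemma frV_grad (f : Cube n → ℝ) : FrV (grad f) := fun k x => grad_fl f x k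

/-! ### the edge chains are heat-bath chains -/

lemma cw_pos (W : Mx n) (k : Fin n) (x : Cube n) : 0 < cw W k x :=
  mul_pos (mu_pos W x) (Tk_pos W x k)

lemma fr_cw (hW : Wᵀ = W) (k : Fin n) : Fr k (cw W k) := fun x => by
  rw [cw, cw, Tk_fl, bal hW]

lemma siteM_fl (w f : Cube n → ℝ) (i : Fin n) (x : Cube n) :
    siteM w f i x = (w x * f x + w (fl x i) * f (fl x i)) / (w x + w (fl x i)) := by
  have e : x = update x i (x i) := by rw [update_eq_self]
  rw [siteM, fl]
  cases h : x i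
  · rw [h] at e; rw [← e, Bool.not_false, add_comm, add_comm (w x)]
  · rw [h] at e; rw [← e, Bool.not_true]

lemma siteM_cw (hW : Wᵀ = W) (k j : Fin n) (F : Cube n → ℝ) (x : Cube n) :
    siteM (cw W k) F j x = Ec W k j F x := by
  have h2 := add_pos (cw_pos W k x) (cw_pos W k (fl x j))
  have h3 := sub_pos.2 (Tk_lt W x j)
  have h4 : rc W k j x * (cw W k x + cw W k (fl x j)) = cw W k (fl x j) := by
    refine mul_right_cancel₀ h3.ne' ?_
    rw [cw, cw]
    linear_combination mu W x * rc_mul W k j x +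
      (rc W k j x - 1) * Tk W (fl x j) k * bal hW x j
  rw [siteM_fl, div_eq_iff h2.ne', Ec, dl]
  linear_combination (F x - F (fl x j)) * h4

/-- `L^[k]` is the heat-bath generator of `cw W k` on functions free of the spin `k` -/
lemma gen_cw (hW : Wᵀ = W) {k : Fin n} {F : Cube n → ℝ} (h : Fr k F) :
    gen (cw W k) F = Lc W k F := by
  funext x
  rw [gen, Lc, ← Finset.add_sum_erase _ _ (Finset.mem_univ k), siteM_cw hW, Ec, h.dl_self]
  simp only [siteM_cw hW, Ec, add_sub_cancel_left, mul_zero, add_zero, sub_self, zero_add]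

/-! ### (H1), (FL) -/

/-- the face identity -/
lemma face (W : Mx n) {j k : Fin n} (h : j ≠ k) (F : Cube n → ℝ) (x : Cube n) :
    Tk W x j * dl j (fun z => (sv z k - tt W 0 z k) * F z) x =
      (sv x k - tt W 0 x k) * (rc W k j x * dl j F x) +
        (sv x j - tt W 0 x j) * (am W x j k * Ec W k j F x) := by
  rw [dl, Ec, dl, s_sub_t, s_sub_t, s_sub_t, am_eq W x h, sv_fl_ne x h.symm]
  linear_combination (-(2 * sv x k * (F (fl x j) - F x))) * rc_mul W k j x -
    (2 * Tk W x j * sv x k * (Tk W (fl x j) k - Tk W x k) *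
      (F x + rc W k j x * (F (fl x j) - F x))) * sv_mul_self x j

lemma sum_erase_comm (f : Fin n → Fin n → ℝ) :
    ∑ k, ∑ j ∈ Finset.univ.erase k, f k j = ∑ j, ∑ k ∈ Finset.univ.erase j, f k j :=
  Finset.sum_comm' fun k j => by simp [ne_comm]

/-- **(H1)** `L div = div LL` -/
theorem H1 (hW : Wᵀ = W) {U : VF n} (hU : FrV U) : gen (mu W) (dv W U) = dv W (LL W U) := by
  funext x
  have e1 : ∀ j, Tk W x j * dl j (dv W U) x =
      ∑ k, Tk W x j * dl j (fun z => (sv z k - tt W 0 z k) * cp U k z) x := fun j => by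
    simp only [dl, dv, cp, ← Finset.mul_sum, Finset.sum_sub_distrib]
  have e2 : ∀ k, ∑ j, Tk W x j * dl j (fun z => (sv z k - tt W 0 z k) * cp U k z) x =
      (sv x k - tt W 0 x k) * (Lc W k (cp U k) x - U x k) + ∑ j ∈ Finset.univ.erase k,
        (sv x j - tt W 0 x j) * (am W x j k * Ec W k j (cp U k) x) := fun k => by
    rw [← Finset.add_sum_erase _ _ (Finset.mem_univ k), Finset.sum_congr rfl fun j hj =>
      face W (Finset.ne_of_mem_erase hj) (cp U k) x, Finset.sum_add_distrib, ← Finset.mul_sum,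
      dl, hU k x, tt_fl, sv_fl_self, Lc]
    have := s_sub_t W x k
    simp only [cp]
    linear_combination (U x k) * this
  rw [gen_dl hW]
  simp only [e1]
  rw [Finset.sum_comm]
  simp only [e2]
  rw [Finset.sum_add_distrib, sum_erase_comm, dv, ← Finset.sum_add_distrib]
  exact Finset.sum_congr rfl fun k _ => by rw [LL, mul_add, Finset.mul_sum]

/-- **(FL)** flip form of `D L` -/
theorem FL (hW : Wᵀ = W) (f : Cube n → ℝ) (x : Cube n) (i : Fin n) :
    grad (gen (mu W) f) x i = ∑ k ∈ Finset.univ.erase i, Tk W (fl x i) k * dl k (cp (grad f) i) x -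
      grad f x i + ∑ k ∈ Finset.univ.erase i, am W x i k * grad f x k := by
  rw [grad_gen hW, bb, mulVec, dotProduct, ← Finset.add_sum_erase _ _ (Finset.mem_univ i),
    ← Finset.add_sum_erase _ (fun k => am W x i k * grad f x k) (Finset.mem_univ i), am_self,
    zero_mul, zero_add, jac, of_apply, grad_fl, sub_self, mul_zero, zero_add]
  congr 2
  refine Finset.sum_congr rfl fun k hk => ?_
  rw [of_apply, al, of_apply, Tk, Tk, sv_fl_ne x (Finset.ne_of_mem_erase hk), dl, cp, cp]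
  ring

/-- `D L = LL D` -/
theorem grad_gen_LL (hW : Wᵀ = W) (f : Cube n → ℝ) : grad (gen (mu W) f) = LL W (grad f) := by
  funext x i
  rw [FL hW, LL, Lc, sub_add_eq_add_sub, sub_add_eq_add_sub, ← Finset.sum_add_distrib,
    ← Finset.sum_add_distrib]
  congr 1
  refine Finset.sum_congr rfl fun k hk => ?_
  have h := (Finset.ne_of_mem_erase hk).symm
  rw [Ec, dl_eq, dl_eq, H2 hW i k x, am_eq W x h]
  have e : grad (cp (grad f) k) x i = grad (cp (grad f) i) x k := grad_comm f x k i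
  rw [e, cp]
  linear_combination (2 * sv x k * grad (cp (grad f) i) x k * rc W k i x *
    (Tk W (fl x i) k - Tk W x k)) * sv_mul_self x i

end Crest.Agent.T157.S6h

end
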