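import Crest.Agent.T157.S6DefB_68
import Crest.Agent.T157.S6Ho_47

/-!
# Row 157, block S6 (helper93): the site deficit is negligible; words and leaves of the first half

See `docs/T157_B_S6.md` with the two cuts of helper28 (return loop in `L³`, true-chain fields).
-/

set_option autoImplicit false

noncomputable section

namespace Crest.Agent.T157.S6a

open Matrix Real Filter Finset
open Crest.ProbabilityR.SpinGlassDynamics (disorderLaw gibbsWeight)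
open Crest.Agent.T157.E Crest.Agent.T157.Eig
open Crest.Agent.T157.Tap (V Mx)
open Crest.Agent.T157.Rec (grad fl)
open Crest.Agent.T157.Da.Gr (loc tt)
open Crest.Agent.T157.Chain22 (sg)
open Crest.Agent.T157.Reg (VF mu Tk am jac Nice)
open Crest.Agent.T157.Rv (Warm II)
open Crest.Agent.T157.S6h (dl Fr cp FrV cw rc Ec Lc dv LL)
open Crest.Agent.T157.S6 (cc Ph Yf)

variable {n : ℕ}

/-! ### forms -/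

/-- `E_k` -/
def Ek (W : Mx n) (k : Fin n) (F : Cube n → ℝ) (x : Cube n) : ℝ := F x + Tk W x k * dl k F x
/-- the off-diagonal part of the generator on forms -/
def hop (W : Mx n) (U : VF n) : VF n := fun x k =>
  ∑ i ∈ univ.erase k, am W x k i * Ec W i k (cp U i) x
/-- `|a (F)|²` -/
def aa (W : Mx n) (F : Cube n → ℝ) (x : Cube n) : ℝ := ∑ i, (Tk W x i * dl i F x) ^ 2

/-- couplings -/
structure Ok (W : Mx n) (b e : ℝ) : Prop where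
  pos : 0 < n
  sym : Wᵀ = W
  dg : ∀ i, W i i = 0
  op : opn W ≤ 1
  row : ∀ i, ∑ j, W i j ^ 2 ≤ b ^ 2
  ent : ∀ i j, |W i j| ≤ e

/-! ### densities -/

/-- `E_ν F`, `ν = f μ` -/
def ev (W : Mx n) (f F : Cube n → ℝ) : ℝ := mean (mu W) fun x => f x * F x
/-- `d_k = E_ν [s_k | rest] - t_k` -/
def dd (W : Mx n) (f : Cube n → ℝ) : VF n := fun x k =>
  siteM (B.dn (mu W) f) (fun z => sv z k) k x - tt W 0 x k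
/-- `∑ E_ν |d_k|³` -/
def X3 (W : Mx n) (f : Cube n → ℝ) : ℝ := ev W f fun x => ∑ k, |dd W f x k| ^ 3
/-- large fields -/
def G0 (W : Mx n) (R : ℝ) (x : Cube n) : ℝ := ∑ k, max (|loc W 0 x k| - R / 2) 0 ^ 2

/-! ### the scalars of a marker -/

/-- `a_jk = W_jk q_jk` -/
def qq (W : Mx n) (x : Cube n) (j k : Fin n) : ℝ :=
  if W j k = 0 then cc W x k else am W x j k / W j k
/-- `α (s) = e^{s (L^[k] - 1)} ω_k` -/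
def alf (W : Mx n) (ω : VF n) (s : ℝ) : VF n := fun x k =>
  exp (-s) * sg (cw W k) s (cp ω k) x
/-- `κ^k (v) = P_v [c_k ψ_k]` -/
def ka (W : Mx n) (ψ : VF n) (v : ℝ) (k : Fin n) : Cube n → ℝ :=
  sg (mu W) v fun z => cc W z k * ψ z k
/-- `y^k_j (v) = e^{v L^[j]} [q_jk E_j^[k] ψ_k]`, `y^k_k = 0` -/
def yy (W : Mx n) (ψ : VF n) (v : ℝ) (k j : Fin n) (x : Cube n) : ℝ :=
  if j = k then 0 else sg (cw W j) v (fun z => qq W z j k * Ec W k j (cp ψ k) z) x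
/-- `z^k_j = y^k_j - κ^k` -/
def zz (W : Mx n) (ψ : VF n) (v : ℝ) (k j : Fin n) (x : Cube n) : ℝ :=
  yy W ψ v k j x - ka W ψ v k x
/-- `κ² + |z|²` -/
def Z1 (W : Mx n) (ψ : VF n) (v : ℝ) (k : Fin n) (x : Cube n) : ℝ :=
  ka W ψ v k x ^ 2 + ∑ j, zz W ψ v k j x ^ 2
/-- `κ² + |z|² + |a κ|² + |a z|²` -/
def Z2 (W : Mx n) (ψ : VF n) (v : ℝ) (k : Fin n) (x : Cube n) : ℝ :=
  Z1 W ψ v k x + aa W (ka W ψ v k) x + ∑ j, aa W (zz W ψ v k j) x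

/-! ### the fields -/

/-- the field `W^k` -/
def Wk (W : Mx n) (ρ : ℝ → ℝ) (v : ℝ) (k : Fin n) : VF n := Yf W ρ (Pi.single k 1) v
/-- the matrix `(W^k_i)_{i k}` -/
def Om (W : Mx n) (ρ : ℝ → ℝ) (v : ℝ) (x : Cube n) : Mx n := of fun i k => Wk W ρ v k x i

/-- bounds on the fields of the markers in `T`, at one time and one point -/
structure Loc (W : Mx n) (ρ : ℝ → ℝ) (v : ℝ) (x : Cube n) (T : Finset (Fin n)) (o ε : ℝ) : Prop where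
  om : ∀ w : V n, ∑ i, (∑ k ∈ T, w k * Om W ρ v x i k) ^ 2 ≤ o ^ 2 * ∑ k ∈ T, w k ^ 2
  rh : ∀ l, ∑ k ∈ T, Om W ρ v x l k ^ 2 ≤ ε ^ 2
  rh' : ∀ j, ∑ k ∈ T.erase j, (am W x * Om W ρ v x) j k ^ 2 ≤ ε ^ 2
  th : ∀ k ∈ T, |(am W x * Om W ρ v x) k k - ρ v| ≤ ε
  xs : ∀ u : Fin n → V n, ∑ j, (∑ k ∈ T, ∑ i, jac (Wk W ρ v k) x j i * u k i) ^ 2 ≤
    ε ^ 2 * ∑ k ∈ T, ∑ i, u k i ^ 2

/-- **the facts** (C), (G) on `[0, t]` -/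
structure Facts (W : Mx n) (ρ : ℝ → ℝ) (t m a K ε Λ p σ B : ℝ) : Prop where
  cont : Continuous ρ
  nn : ∀ v ∈ Set.Icc 0 t, 0 ≤ ρ v
  int : ∫ v in (0 : ℝ)..t, ρ v * exp (σ * v) ≤ B
  glob : ∀ v ∈ Set.Icc 0 t, ∀ x, Loc W ρ v x univ Λ Λ
  good : ∃ G : Finset (Cube n), ∑ x ∈ Gᶜ, prob (mu W) x ≤ p ∧ ∀ x ∈ G, ∀ v ∈ Set.Icc 0 t,
    ∀ T : Finset (Fin n), (T.card : ℝ) ≤ m → Loc W ρ v x T (K * exp (-(a * v)) + ε) ε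

/-! ### the ansatz -/

/-- `y^k ∘ W^k` -/
def yW (W : Mx n) (ρ : ℝ → ℝ) (ψ : VF n) (v : ℝ) (k : Fin n) : VF n := fun x j =>
  yy W ψ v k j x * Wk W ρ v k x j
/-- the bulk -/
def Phi (W : Mx n) (ρ : ℝ → ℝ) (ψ : VF n) (v : ℝ) : VF n := fun x j => ∑ k, yW W ρ ψ v k x j
/-- the return -/
def Ret (W : Mx n) (ρ : ℝ → ℝ) (ψ : VF n) (v : ℝ) : VF n := fun x k => ρ v * Ek W k (ka W ψ v k) x
/-- the error of the marker `k` -/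
def er (W : Mx n) (ρ : ℝ → ℝ) (ψ : VF n) (v : ℝ) (k : Fin n) : VF n := fun x j =>
  Lc W j (yy W ψ v k j) x * Wk W ρ v k x j + yy W ψ v k j x * LL W (Wk W ρ v k) x j -
    LL W (yW W ρ ψ v k) x j + if j = k then Ret W ρ ψ v x k else 0
/-- the error -/
def Err (W : Mx n) (ρ : ℝ → ℝ) (ψ : VF n) (v : ℝ) : VF n := fun x j => ∑ k, er W ρ ψ v k x j

/-! ### leaves -/

/-- **(Red)** -/
def RedStmt : Prop := ∀ (n : ℕ) (W : Mx n), Ok W 1 1 → ∀ f, (∀ x, 0 < f x) → mean (mu W) f = 1 →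
  FrV (dd W f) ∧ (∀ x k, |dd W f x k| ≤ 2) ∧ ev W f (fun x => dd W f x ⬝ᵥ dd W f x) ≤ II (mu W) f ∧
  (∀ U, FrV U → ev W f (dv W U) = ev W f fun x => dd W f x ⬝ᵥ U x) ∧
  ∀ η R : ℝ, 0 < η → η ≤ 1 / 4 → 1 ≤ R → B.Df (B.dn (mu W) f) (mu W) ≤
    4 * η * II (mu W) f + (2 * R + 1) * (8 * exp (2 * R) / η) ^ 3 * X3 W f + 12 / R * ev W f (G0 W R)

/-- **(Hb)** -/
def HbStmt : Prop := ∀ K > (0 : ℝ), ∃ C ≥ (1 : ℝ), ∀ (n : ℕ) (W : Mx n), Ok W 1 1 → Nice W K →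
  Ent.AT (mu W) K 0 → ∀ f, (∀ x, 0 < f x) → mean (mu W) f = 1 → ∀ R ≥ (0 : ℝ),
  ev W f (G0 W R) ≤ C * (ent (mu W) f + n ^ 2 * exp (-(R ^ 2 / C)))

/-- **(F)** -/
def FStmt : Prop := ∀ (n : ℕ) (W : Mx n), Ok W 1 1 → ∀ (D L M : ℝ) (f G : Cube n → ℝ),
  Warm (mu W) D f → 0 ≤ D → 0 ≤ L → (∀ x, 0 ≤ G x ∧ G x ≤ M) → ∀ s1 s2 t : ℝ, 0 ≤ s1 → s1 ≤ s2 →
  s2 ≤ t → ∫ s in s1..s2, ev W (sg (mu W) (t - s) f) (fun x => dd W (sg (mu W) (t - s) f) x ⬝ᵥ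
      dd W (sg (mu W) (t - s) f) x * sg (mu W) s G x) ≤
    8 * ((D + L) * ev W (sg (mu W) t f) G + M * exp (-L))

/-- decay of the diagonal part at rates `θ`, `θ'`; the Harnack constant `K` -/
structure Dec (W : Mx n) (θ θ' K : ℝ) : Prop where
  a32 : ∀ ω, FrV ω → ∀ s ≥ (0 : ℝ), ∀ x k, |alf W ω s x k| ^ (3 / 2 : ℝ) ≤
    exp (-(3 / 2 * θ * s)) * sg (mu W) s (fun z => |ω z k| ^ (3 / 2 : ℝ)) x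
  a2 : ∀ ω, FrV ω → ∀ s ≥ (0 : ℝ), ∀ x k, alf W ω s x k ^ 2 ≤
    exp (-(θ' * s)) * sg (mu W) s (fun z => ω z k ^ 2) x
  hk : ∀ k F, Fr k F → ∀ v ≥ (0 : ℝ), ∀ x, |Ek W k (sg (mu W) v F) x| ^ (3 / 2 : ℝ) ≤
    K * sg (mu W) v (fun z => |F z| ^ (3 / 2 : ℝ)) x

/-- **(AlDec), (HK)** -/
def DecStmt : Prop := ∀ γ > (0 : ℝ), ∃ e > (0 : ℝ), ∀ (n : ℕ) (W : Mx n) (b c : ℝ), Ok W b e →
  64 / 27 * b ^ 2 + γ ≤ c → 3 / 2 * c < 1 → ∀ K, 1 ≤ K * (1 - 3 / 2 * c) → Dec W (1 - c) (2 - c) K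

/-- **(P)** -/
def PStmt : Prop := ∃ C ≥ (1 : ℝ), ∀ (n : ℕ) (W : Mx n), Ok W 1 1 → ∀ U, FrV U → ∀ s ≥ (0 : ℝ),
  ∃ U', FrV U' ∧ sg (mu W) s (dv W U) = dv W U' ∧ ∀ x, (U' x ⬝ᵥ U' x) ^ (3 / 4 : ℝ) ≤
    exp (C * s) * sg (mu W) s (fun z => (U z ⬝ᵥ U z) ^ (3 / 4 : ℝ)) x

/-- **(Eq)** -/
def EqStmt : Prop := ∃ C ≥ (1 : ℝ), ∀ (n : ℕ) (W : Mx n), Ok W 1 1 → ∀ ω, FrV ω →
  (∀ p : ℝ, p = 1 ∨ p = 3 / 4 → ∀ t ≥ (0 : ℝ), ∀ x k,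
    ∫ u in (0 : ℝ)..t, (Z1 W (alf W ω u) (t - u) k x ^ p + ∫ v in (0 : ℝ)..(t - u),
      sg (mu W) (t - u - v) (fun z => Z2 W (alf W ω u) v k z ^ p) x) ≤
    C * exp (C * t) * sg (mu W) t (fun z => (ω z k ^ 2) ^ p) x) ∧
  ∀ M : ℝ, (∀ x k, |ω x k| ≤ M) → ∀ u ≥ (0 : ℝ), ∀ v ≥ (0 : ℝ), ∀ x k,
    Z2 W (alf W ω u) v k x ≤ C * n ^ 2 * M ^ 2

/-- **Duhamel** with the ansatz -/
def DuStmt : Prop := ∀ (n : ℕ) (W : Mx n), Ok W 1 1 → ∀ ρ : ℝ → ℝ, Continuous ρ → ∀ ω, FrV ω →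
  (∀ u, FrV (alf W ω u)) ∧ (∀ v, FrV (Phi W ρ ω v) ∧ FrV (Ret W ρ ω v) ∧ FrV (Err W ρ ω v)) ∧
  ∀ t ≥ (0 : ℝ), ∀ x, sg (mu W) t (dv W ω) x = dv W (alf W ω t) x +
    ∫ u in (0 : ℝ)..t, (dv W (Phi W ρ (alf W ω u) (t - u)) x + ∫ v in (0 : ℝ)..(t - u),
      (sg (mu W) (t - u - v) (dv W (Ret W ρ (alf W ω u) v)) x -
        sg (mu W) (t - u - v) (dv W (Err W ρ (alf W ω u) v)) x))

/-- joint continuity -/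
def ContStmt : Prop := ∀ (n : ℕ) (W : Mx n), Ok W 1 1 → ∀ ρ : ℝ → ℝ, Continuous ρ → ∀ ω : VF n,
  ∀ x k, (Continuous fun u => alf W ω u x k) ∧
    (Continuous fun p : ℝ × ℝ => ka W (alf W ω p.1) p.2 k x) ∧
    (Continuous fun p : ℝ × ℝ => Z1 W (alf W ω p.1) p.2 k x) ∧
    (Continuous fun p : ℝ × ℝ => Z2 W (alf W ω p.1) p.2 k x) ∧
    (Continuous fun p : ℝ × ℝ => Phi W ρ (alf W ω p.1) p.2 x k) ∧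
    (Continuous fun p : ℝ × ℝ => Ret W ρ (alf W ω p.1) p.2 x k) ∧
    (Continuous fun p : ℝ × ℝ => Err W ρ (alf W ω p.1) p.2 x k) ∧
    ∀ f, (∀ z, 0 < f z) → Continuous fun s : ℝ => dd W (sg (mu W) |s| f) x k

/-- **(ErrBd)** -/
def ErrStmt : Prop := ∃ C ≥ (1 : ℝ), ∀ (n : ℕ) (W : Mx n), Ok W 1 1 → ∀ (ρ : ℝ → ℝ) (ψ : VF n),
  FrV ψ → ∀ (v : ℝ) (x : Cube n) (T : Finset (Fin n)) (o ε : ℝ), Loc W ρ v x T o ε →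
  ∑ j, (∑ k ∈ T, er W ρ ψ v k x j) ^ 2 ≤ C * ε ^ 2 * ∑ k ∈ T, Z2 W ψ v k x ∧
  ∑ j, (∑ k ∈ T, yW W ρ ψ v k x j) ^ 2 ≤
    2 * o ^ 2 * ∑ k ∈ T, ka W ψ v k x ^ 2 + 2 * ε ^ 2 * ∑ k ∈ T, Z1 W ψ v k x

/-- the loop functional -/
def AA (X ρ : ℝ → ℝ) (θ σ k τ r : ℝ) : ℝ :=
  (∫ s in τ..(τ + 1), exp (-((θ + 2 * σ) * s)) * X (r - s)) +
    ∫ u in (0 : ℝ)..(τ + 1), ∫ v in (0 : ℝ)..(τ + 1 - u),
      k ^ 2 * ρ v * exp (-(θ * u) - 2 * σ * (u + v)) * X (r - u - v)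
/-- the gain of the loop -/
def gn (θ σ k B τ : ℝ) : ℝ := exp (-((θ - σ) * τ)) + k ^ 2 * B / (θ - σ)

/-- **(End)** one step of the loop -/
def StepStmt : Prop := ∃ C ≥ (1 : ℝ), ∀ (n : ℕ) (W : Mx n), Ok W 1 1 →
  ∀ (ρ : ℝ → ℝ) (θ θ' k τ m a Ko ε Λ p σ B D L η : ℝ) (f : Cube n → ℝ), Dec W θ θ' (k ^ 3) →
  Facts W ρ (τ + 1) m a Ko ε Λ p σ B → Warm (mu W) D f → 0 < k → 0 ≤ τ → 0 < m → 0 ≤ a →
  2 * a ≤ θ' → 0 ≤ σ → σ < θ → 0 ≤ Ko → 0 < ε → ε ≤ 1 → 1 ≤ Λ → 0 ≤ p → 0 ≤ D → 1 ≤ L → 0 < η →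
  η ≤ 1 → (C * Λ * exp (C * (τ + 1))) ^ 7 * √((D + L) / m) ≤ ε ^ 6 * η ^ 3 → ∀ r ≥ τ + 1,
  (19 / 20 - 2 / 3 * gn θ σ k B τ) * X3 W (sg (mu W) r f) ≤
    1 / 3 * AA (fun s => X3 W (sg (mu W) s f)) ρ θ σ k τ r + η * II (mu W) (sg (mu W) r f) +
    C * (τ + 1) ^ 4 * (Ko ^ 2 * exp (-(2 * a * τ)) + exp (C * (τ + 1)) * ε ^ 2) / η ^ 3 *
      (∫ s in τ..(τ + 1), II (mu W) (sg (mu W) (r - s) f)) +
    (C * Λ * exp (C * (τ + 1))) ^ 8 / ε ^ 6 * (n ^ 2 * (exp (-L) + (exp D * p) ^ (2 / 3 : ℝ)))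

/-- **(Loop)** a lemma on real functions -/
def LoopStmt : Prop := ∀ (X I ρ : ℝ → ℝ) (a θ k B τ η Γ ζ t : ℝ), 0 < a → 2 * a / 3 < θ →
  0 ≤ τ → 0 ≤ η → 0 ≤ Γ → 0 ≤ ζ → 0 ≤ t → Continuous X → Continuous I → Continuous ρ →
  (∀ s ∈ Set.Icc 0 t, 0 ≤ X s ∧ X s ≤ 2 * I s) → (∀ v ∈ Set.Icc 0 (τ + 1), 0 ≤ ρ v) →
  ∫ v in (0 : ℝ)..(τ + 1), ρ v * exp (2 * a / 3 * v) ≤ B → gn θ (2 * a / 3) k B τ ≤ 17 / 20 →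
  (∀ r ∈ Set.Icc (τ + 1) t, (19 / 20 - 2 / 3 * gn θ (2 * a / 3) k B τ) * X r ≤
    1 / 3 * AA X ρ θ (2 * a / 3) k τ r + η * I r + Γ * (∫ s in τ..(τ + 1), I (r - s)) + ζ) →
  ∫ r in (0 : ℝ)..t, exp (2 * a * r) * X r ≤
    10 * (η + Γ * exp (2 * a * (τ + 1))) * (∫ r in (0 : ℝ)..t, exp (2 * a * r) * I r) +
      20 * exp (2 * a * (τ + 1)) * (∫ r in (0 : ℝ)..t, I r) + 10 * ζ * exp (2 * a * t) / (2 * a)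

/-- the couplings -/
def OkStmt : Prop := ∀ β : ℝ, 0 < β → β ≤ 3 / 10 → ∀ γ > (0 : ℝ), ∀ e > (0 : ℝ),
  Top.Whp disorderLaw fun n g => Ok (β • Jmat n g) (β + γ) e

/-- **the second half** (sections 6, 7) -/
def FactsStmt : Prop := ∀ (β l : ℝ) (𝒬 : Set B.Ob), 0 < β → β < 1 → 1 / 2 < l → l ≤ (1 - β) ^ 2 →
  B.Nn 𝒬 → B.Eq0 β 𝒬 → B.Stat0 β l 𝒬 → ∀ a a' : ℝ, 0 < a → a < a' → a' < l → ∀ γ > (0 : ℝ),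
  ∀ c > (0 : ℝ), c ≤ 1 → ∃ c' > (0 : ℝ), c' ≤ c / 100 ∧ ∀ κ > (0 : ℝ), ∃ δ0 > (0 : ℝ),
  ∀ δ > (0 : ℝ), δ ≤ δ0 → ∀ e > (0 : ℝ), Top.Whp disorderLaw fun n g => ∃ ρ,
    Facts (β • Jmat n g) ρ (δ * log n + 1) ((n : ℝ) ^ (1 - c / 2)) a' ((n : ℝ) ^ e)
      ((n : ℝ) ^ (-c')) ((n : ℝ) ^ κ) (exp (-(n : ℝ) ^ (1 - c / 2))) (2 * a / 3) (3 * β ^ 2 + γ)

/-- **S6** -/
def LocStmt : Prop := ∀ (β l : ℝ) (𝒬 : Set B.Ob), 0 < β → β < 1 → l ≤ (1 - β) ^ 2 →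
  B.Nn 𝒬 → B.Eq0 β 𝒬 → B.Stat0 β l 𝒬 → B.Loc β l

def FactsGlue : Prop := Reg.NiceStmt → S6.CStmt → S6.RhoStmt →
  (∀ (β l a : ℝ) (𝒬 : Set B.Ob), 0 < β → β < 1 → 1 / 2 < l → l ≤ 1 → B.Nn 𝒬 → B.Eq0 β 𝒬 →
    B.Stat0 β l 𝒬 → 0 < a → a < l → S6.FOut β a) → FactsStmt
def EndGlue : Prop := RedStmt → FStmt → PStmt → EqStmt → DuStmt → ContStmt → ErrStmt → StepStmt
def LocGlue : Prop := Rv.At0 → Reg.NiceStmt → OkStmt → RedStmt → HbStmt → DecStmt → ContStmt →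
  StepStmt → LoopStmt → FactsStmt → LocStmt

theorem loc_of (hA : Rv.At0) (h1 : Reg.NiceStmt) (h2 : OkStmt) (h3 : RedStmt) (h4 : HbStmt)
    (h5 : DecStmt) (h6 : ContStmt) (h7 : FStmt) (h8 : PStmt) (h9 : EqStmt) (h10 : DuStmt)
    (h11 : ErrStmt) (h12 : LoopStmt) (h13 : FactsStmt) (e : EndGlue) (g : LocGlue) : LocStmt :=
  g hA h1 h2 h3 h4 h5 h6 (e h3 h7 h8 h9 h10 h6 h11) h12 h13

end Crest.Agent.T157.S6a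

end
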