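import Crest.Agent.T157.S6Cmp_20

-- ▼ part T157/S6Br_20
section

/-!
# Row 157, block S6 (helper20): the Bregman remainder of `(ε + |u|²) ^ (3/4)`
-/

set_option autoImplicit false

noncomputable section

namespace Crest.Agent.T157.S6b

open Real Matrix Finset

/-! ### scalar inequalities, in terms of fourth roots -/

theorem br_root {a y σ b c : ℝ} (ha : 0 < a) (hy : 0 ≤ y) (hσ : 0 < σ) (hc : 0 ≤ c)
    (h1 : y ^ 4 = a ^ 4 + 2 * b + c) (h2 : σ ^ 4 = a ^ 4 + c) (h3 : b ^ 2 ≤ a ^ 4 * c) :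
    c / σ / 8 ≤ y ^ 3 - a ^ 3 - 3 / 2 * (b / a) := by
  obtain ⟨t, t0, rfl⟩ : ∃ t, 0 ≤ t ∧ c = t ^ 2 := ⟨√c, sqrt_nonneg _, (sq_sqrt hc).symm⟩
  have hb' : -(a ^ 2 * t) ≤ b ∧ b ≤ a ^ 2 * t := abs_le_of_sq_le_sq' (by nlinarith) (by positivity)
  have u1 : y ^ 2 ≤ a ^ 2 + t := (abs_le_of_sq_le_sq' (by nlinarith) (by positivity)).2
  have u2 : a ^ 2 - t ≤ y ^ 2 := (abs_le_of_sq_le_sq' (by nlinarith) (sq_nonneg y)).2
  have D : (y ^ 2 - a ^ 2) ^ 2 ≤ t ^ 2 := sq_le_sq' (by linarith) (by linarith)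
  have s1 : a ≤ σ := (pow_le_pow_iff_left₀ ha.le hσ.le four_ne_zero).1 (by nlinarith)
  have s2 : y ≤ 2 * σ := (pow_le_pow_iff_left₀ hy (by positivity) four_ne_zero).1 (by
    nlinarith [sq_nonneg (a ^ 2 - t), pow_pos hσ 4])
  have e : y ^ 3 - a ^ 3 - 3 / 2 * (b / a) =
      (3 / 4 * (t ^ 2 - (y ^ 2 - a ^ 2) ^ 2) + (y - a) ^ 2 * a * (y + a / 2)) / a := by
    field_simp
    linear_combination (6 : ℝ) * h1
  rw [e, div_div, div_le_div_iff₀ (by positivity) ha]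
  have k1 : (t ^ 2 - (y ^ 2 - a ^ 2) ^ 2) * a ≤ (t ^ 2 - (y ^ 2 - a ^ 2) ^ 2) * (6 * σ) :=
    mul_le_mul_of_nonneg_left (by linarith) (by linarith)
  have k2 : (y + a) ^ 2 ≤ (y + a / 2) * (8 * σ) := by nlinarith
  have k3 := mul_le_mul_of_nonneg_left k2 (show 0 ≤ (y - a) ^ 2 * a by positivity)
  nlinarith

theorem abs_root {ρ σ t b β κ : ℝ} (hρ : 0 < ρ) (hσ : 0 < σ) (ht : 0 ≤ t) (hb : 0 ≤ b) (hβ : b ≤ β)
    (hκ : 0 < κ) (h : σ ^ 4 = ρ ^ 4 + t ^ 2) :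
    ρ * b * t ≤ κ * (t ^ 2 / σ) + (1 / (2 * κ) + β / κ ^ 2) * (ρ ^ 3 * b ^ 2) := by
  have β0 : 0 ≤ β := hb.trans hβ
  rcases le_total t (ρ ^ 2) with c | c
  · have s : σ ≤ 2 * ρ := (pow_le_pow_iff_left₀ hσ.le (by positivity) four_ne_zero).1 (by
      nlinarith [pow_pos hρ 4])
    have k1 : t ^ 2 / (2 * ρ) ≤ t ^ 2 / σ := div_le_div_of_nonneg_left (sq_nonneg t) hσ s
    have k2 : ρ * b * t ≤ κ * (t ^ 2 / (2 * ρ)) + 1 / (2 * κ) * (ρ ^ 3 * b ^ 2) := by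
      have : κ * (t ^ 2 / (2 * ρ)) + 1 / (2 * κ) * (ρ ^ 3 * b ^ 2) - ρ * b * t =
          (κ * t - ρ ^ 2 * b) ^ 2 / (2 * ρ * κ) := by field_simp; ring
      have : 0 ≤ (κ * t - ρ ^ 2 * b) ^ 2 / (2 * ρ * κ) := by positivity
      linarith
    have : 0 ≤ β / κ ^ 2 * (ρ ^ 3 * b ^ 2) := by positivity
    nlinarith [mul_le_mul_of_nonneg_left k1 hκ.le]
  · obtain ⟨τ, τ0, rfl⟩ : ∃ τ, 0 ≤ τ ∧ t = τ ^ 2 := ⟨√t, sqrt_nonneg _, (sq_sqrt ht).symm⟩
    have τp : 0 < τ := by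
      rcases τ0.eq_or_lt with e | e
      · rw [← e] at c; nlinarith [pow_pos hρ 2]
      · exact e
    have s : σ ≤ 2 * τ := (pow_le_pow_iff_left₀ hσ.le (by positivity) four_ne_zero).1 (by
      nlinarith [pow_pos τp 4, pow_pos hρ 2])
    have k1 : (τ ^ 2) ^ 2 / (2 * τ) ≤ (τ ^ 2) ^ 2 / σ := div_le_div_of_nonneg_left (by positivity) hσ s
    have e : (τ ^ 2) ^ 2 / (2 * τ) = τ ^ 3 / 2 := by field_simp
    have k2 : ρ * b * τ ^ 2 ≤ κ * (τ ^ 3 / 2) + (ρ * b) ^ 3 / κ ^ 2 := by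
      have : κ * (τ ^ 3 / 2) + (ρ * b) ^ 3 / κ ^ 2 - ρ * b * τ ^ 2 =
          ((κ * τ) ^ 3 / 2 + (ρ * b) ^ 3 - ρ * b * (κ * τ) ^ 2) / κ ^ 2 := by field_simp
      have h0 : 0 ≤ (κ * τ) ^ 3 / 2 + (ρ * b) ^ 3 - ρ * b * (κ * τ) ^ 2 := by
        have p : 0 ≤ κ * τ := by positivity
        have q : 0 ≤ ρ * b := by positivity
        generalize κ * τ = x at p
        generalize ρ * b = z at q
        nlinarith [mul_nonneg p (sq_nonneg (x - 4 / 3 * z)), mul_nonneg q (sq_nonneg (x - 4 / 3 * z)),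
          pow_nonneg q 3]
      have : 0 ≤ ((κ * τ) ^ 3 / 2 + (ρ * b) ^ 3 - ρ * b * (κ * τ) ^ 2) / κ ^ 2 := by positivity
      linarith
    have k3 : (ρ * b) ^ 3 / κ ^ 2 ≤ β / κ ^ 2 * (ρ ^ 3 * b ^ 2) := by
      rw [div_mul_eq_mul_div]
      refine div_le_div_of_nonneg_right ?_ (sq_nonneg κ)
      nlinarith [mul_le_mul_of_nonneg_left hβ (show 0 ≤ ρ ^ 3 * b ^ 2 by positivity)]
    have : 0 ≤ 1 / (2 * κ) * (ρ ^ 3 * b ^ 2) := by positivity
    rw [e] at k1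
    nlinarith [mul_le_mul_of_nonneg_left k1 hκ.le]

/-! ### fourth roots -/

/-- fourth root -/
def r4 (x : ℝ) : ℝ := x ^ (1 / 4 : ℝ)

theorem r4_nn {x : ℝ} (h : 0 ≤ x) : 0 ≤ r4 x := rpow_nonneg h _
theorem r4_pos {x : ℝ} (h : 0 < x) : 0 < r4 x := rpow_pos_of_pos h _
theorem r4_pow {x : ℝ} (h : 0 ≤ x) : r4 x ^ 4 = x := by
  rw [r4, ← rpow_natCast, ← rpow_mul h]; norm_num
theorem r4_cube {x : ℝ} (h : 0 ≤ x) : x ^ (3 / 4 : ℝ) = r4 x ^ 3 := by
  rw [r4, ← rpow_natCast, ← rpow_mul h]; norm_num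
theorem r4_sq {x : ℝ} (h : 0 ≤ x) : r4 x ^ 2 = √x := by
  rw [r4, ← rpow_natCast, ← rpow_mul h, sqrt_eq_rpow]; norm_num
theorem r4_inv {x : ℝ} (h : 0 ≤ x) : x ^ (3 / 4 - 1 : ℝ) = (r4 x)⁻¹ := by
  rw [r4, ← rpow_neg h]; norm_num
theorem r4_mono {x y : ℝ} (h : 0 ≤ x) (hxy : x ≤ y) : r4 x ≤ r4 y :=
  rpow_le_rpow h hxy (by norm_num)
theorem r4_of_pow {x : ℝ} (h : 0 ≤ x) : r4 (x ^ 4) = x := by
  rw [r4, ← rpow_natCast, ← rpow_mul h]; norm_num
theorem r4_mul {x y : ℝ} (hx : 0 ≤ x) (hy : 0 ≤ y) : r4 (x * y) = r4 x * r4 y := mul_rpow hx hy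

theorem p34_add {x y : ℝ} (hx : 0 ≤ x) (hy : 0 ≤ y) :
    (x + y) ^ (3 / 4 : ℝ) ≤ x ^ (3 / 4 : ℝ) + y ^ (3 / 4 : ℝ) :=
  rpow_add_le_add_rpow hx hy (by norm_num) (by norm_num)

theorem p34_sum {ι : Type*} (S : Finset ι) {f : ι → ℝ} (h : ∀ i, 0 ≤ f i) :
    (∑ i ∈ S, f i) ^ (3 / 4 : ℝ) ≤ ∑ i ∈ S, f i ^ (3 / 4 : ℝ) := by
  classical
  induction S using Finset.induction_on with
  | empty => simp
  | insert a S ha ih =>
    rw [sum_insert ha, sum_insert ha]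
    exact (p34_add (h a) (sum_nonneg fun i _ => h i)).trans (add_le_add le_rfl ih)

/-! ### vectors -/

variable {κ ι : Type*} [Fintype κ] [Fintype ι] {e : ℝ}

theorem dn (u : κ → ℝ) : 0 ≤ u ⬝ᵥ u := sum_nonneg fun _ _ => mul_self_nonneg _

theorem cs (u v : κ → ℝ) : (u ⬝ᵥ v) ^ 2 ≤ (u ⬝ᵥ u) * (v ⬝ᵥ v) := by
  simpa only [dotProduct, sq] using sum_mul_sq_le_sq_mul_sq univ u v

/-- `(ε + |u|²) ^ (1/4)` -/
def rt (e : ℝ) (u : κ → ℝ) : ℝ := r4 (e + u ⬝ᵥ u)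
/-- `(ε + |u|²) ^ (3/4)`, the regularised `|u| ^ (3/2)` -/
def nb (e : ℝ) (u : κ → ℝ) : ℝ := (e + u ⬝ᵥ u) ^ (3 / 4 : ℝ)
/-- Bregman remainder -/
def Bq (e : ℝ) (u v : κ → ℝ) : ℝ := nb e (u + v) - nb e u - 3 / 2 * (u ⬝ᵥ v / rt e u)
/-- its lower bound -/
def Lq (e : ℝ) (u v : κ → ℝ) : ℝ := v ⬝ᵥ v / r4 (e + u ⬝ᵥ u + v ⬝ᵥ v)

theorem rt_pos (he : 0 < e) (u : κ → ℝ) : 0 < rt e u := r4_pos (by linarith [dn u])
theorem rt_pow (he : 0 ≤ e) (u : κ → ℝ) : rt e u ^ 4 = e + u ⬝ᵥ u := r4_pow (by linarith [dn u])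
theorem nb_eq (he : 0 ≤ e) (u : κ → ℝ) : nb e u = rt e u ^ 3 := r4_cube (by linarith [dn u])
theorem nb_nn (he : 0 ≤ e) (u : κ → ℝ) : 0 ≤ nb e u := rpow_nonneg (by linarith [dn u]) _
theorem Lq_nn (he : 0 ≤ e) (u v : κ → ℝ) : 0 ≤ Lq e u v :=
  div_nonneg (dn v) (r4_nn (by linarith [dn u, dn v]))
theorem sqrt_le_rt (he : 0 ≤ e) (u : κ → ℝ) : √(u ⬝ᵥ u) ≤ rt e u ^ 2 := by
  rw [rt, r4_sq (by linarith [dn u])]; exact sqrt_le_sqrt (by linarith)
theorem nb_zero_le (he : 0 ≤ e) (u : κ → ℝ) : nb 0 u ≤ nb e u :=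
  rpow_le_rpow (by linarith [dn u]) (by linarith) (by norm_num)
theorem nb_le (he : 0 ≤ e) (u : κ → ℝ) : nb e u ≤ e ^ (3 / 4 : ℝ) + nb 0 u := by
  rw [nb, nb, zero_add]; exact p34_add he (dn u)

theorem hasDerivAt_nb (he : 0 < e) {U : ℝ → κ → ℝ} {U' : κ → ℝ} {s : ℝ}
    (h : ∀ k, HasDerivAt (fun u => U u k) (U' k) s) :
    HasDerivAt (fun u => nb e (U u)) (3 / 2 * (U s ⬝ᵥ U' / rt e (U s))) s := by
  have p : 0 < e + U s ⬝ᵥ U s := by linarith [dn (U s)]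
  have d := ((HasDerivAt.fun_sum (u := univ) fun k _ => (h k).mul (h k)).const_add e).rpow_const
    (p := 3 / 4) (Or.inl p.ne')
  refine d.congr_deriv ?_
  have : ∑ k, (U' k * U s k + U s k * U' k) = 2 * (U s ⬝ᵥ U') := by
    simp only [dotProduct, mul_sum]; exact sum_congr rfl fun k _ => by ring
  rw [this]
  change _ * _ * (e + U s ⬝ᵥ U s) ^ (3 / 4 - 1 : ℝ) = _
  rw [r4_inv p.le, rt]; ring

theorem cont_nb (e : ℝ) {Y : Type*} [TopologicalSpace Y] {U : Y → κ → ℝ}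
    (h : ∀ k, Continuous fun y => U y k) : Continuous fun y => nb e (U y) :=
  (continuous_const.add (continuous_finsetSum _ fun k _ => (h k).mul (h k))).rpow_const
    fun _ => Or.inr (by norm_num)

/-- **(Br)** -/
theorem Lq_le (he : 0 < e) (u v : κ → ℝ) : Lq e u v / 8 ≤ Bq e u v := by
  have a := dn u
  have b := dn v
  rw [Bq, nb_eq he.le, nb_eq he.le]
  refine br_root (rt_pos he u) (rt_pos he _).le (r4_pos (by linarith)) b ?_ ?_ ?_
  · rw [rt_pow he.le, rt_pow he.le, add_dotProduct, dotProduct_add, dotProduct_add,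
      dotProduct_comm v u]; ring
  · rw [rt_pow he.le, r4_pow (by linarith)]
  · rw [rt_pow he.le]; nlinarith [cs u v]

theorem Bq_nn (he : 0 < e) (u v : κ → ℝ) : 0 ≤ Bq e u v :=
  le_trans (div_nonneg (Lq_nn he.le u v) (by norm_num)) (Lq_le he u v)

/-- `Br (u) = ∑ r_i B (u, v_i)` -/
def Brq (e : ℝ) (r : ι → ℝ) (u : κ → ℝ) (v : ι → κ → ℝ) : ℝ := ∑ i, r i * Bq e u (v i)

theorem Brq_nn (he : 0 < e) {r : ι → ℝ} (hr : ∀ i, 0 ≤ r i) (u : κ → ℝ) (v : ι → κ → ℝ) :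
    0 ≤ Brq e r u v := sum_nonneg fun i _ => mul_nonneg (hr i) (Bq_nn he u _)

/-- the chain rule for the jump generator -/
theorem Brq_eq (e : ℝ) (r : ι → ℝ) (u : κ → ℝ) (v : ι → κ → ℝ) :
    3 / 2 * (u ⬝ᵥ (fun k => ∑ i, r i * v i k) / rt e u) =
      ∑ i, r i * (nb e (u + v i) - nb e u) - Brq e r u v := by
  have : u ⬝ᵥ (fun k => ∑ i, r i * v i k) = ∑ i, r i * (u ⬝ᵥ v i) := by
    simp only [dotProduct, mul_sum]
    rw [sum_comm]
    exact sum_congr rfl fun i _ => sum_congr rfl fun k _ => by ring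
  rw [this, Brq, ← sum_sub_distrib, sum_div, mul_sum]
  exact sum_congr rfl fun i _ => by rw [Bq]; ring

/-- **absorption**: `|u| ^ (1/2) ∑ r_i b_i |v_i| ≤ k Br + C |u| ^ (3/2)` if `∑ b_i² ≤ β²` -/
theorem absorb (he : 0 < e) {r b : ι → ℝ} (hr : ∀ i, 0 ≤ r i ∧ r i ≤ 1) (hb : ∀ i, 0 ≤ b i) {β k : ℝ}
    (hβ : 0 ≤ β) (hs : ∑ i, b i ^ 2 ≤ β ^ 2) (hk : 0 < k) (u : κ → ℝ) (v : ι → κ → ℝ) :
    rt e u * ∑ i, r i * (b i * √(v i ⬝ᵥ v i)) ≤
      k * Brq e r u v + (4 / k + 64 * β / k ^ 2) * β ^ 2 * nb e u := by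
  have a := dn u
  have bi : ∀ i, b i ≤ β := fun i => (abs_le_of_sq_le_sq' ((single_le_sum (f := fun i => b i ^ 2)
    (fun i _ => sq_nonneg _) (mem_univ i)).trans hs) hβ).2
  have C0 : 0 ≤ 4 / k + 64 * β / k ^ 2 := by positivity
  have ρ0 := rt_pos he u
  have h1 : ∀ i, rt e u * (r i * (b i * √(v i ⬝ᵥ v i))) ≤
      k * (r i * Bq e u (v i)) + (4 / k + 64 * β / k ^ 2) * nb e u * b i ^ 2 := fun i => by
    have c := dn (v i)
    have h := abs_root (σ := r4 (e + u ⬝ᵥ u + v i ⬝ᵥ v i)) (κ := k / 8) ρ0 (r4_pos (by linarith))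
      (sqrt_nonneg (v i ⬝ᵥ v i)) (hb i) (bi i) (by positivity)
      (by rw [rt_pow he.le, r4_pow (by linarith), sq_sqrt c])
    rw [sq_sqrt c, show 1 / (2 * (k / 8)) + β / (k / 8) ^ 2 = 4 / k + 64 * β / k ^ 2 by
      field_simp; ring, ← nb_eq he.le] at h
    have l := Lq_le he u (v i)
    rw [Lq] at l
    have z : 0 ≤ (4 / k + 64 * β / k ^ 2) * (nb e u * b i ^ 2) :=
      mul_nonneg C0 (mul_nonneg (nb_nn he.le u) (sq_nonneg _))
    nlinarith [mul_le_mul_of_nonneg_left h (hr i).1, mul_le_mul_of_nonneg_right (hr i).2 z,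
      mul_le_mul_of_nonneg_left l (mul_nonneg hk.le (hr i).1)]
  rw [mul_sum]
  refine (sum_le_sum fun i _ => h1 i).trans ?_
  rw [sum_add_distrib, ← mul_sum, ← mul_sum, Brq]
  nlinarith [mul_le_mul_of_nonneg_left hs (mul_nonneg C0 (nb_nn he.le u))]

/-- **the jump vector**: `(∑ r_i² |v_i|²) ^ (3/4) ≤ 32 Br + |u| ^ (3/2)` -/
theorem jump_le (he : 0 < e) {r : ι → ℝ} (hr : ∀ i, 0 ≤ r i ∧ r i ≤ 1) (u : κ → ℝ) (v : ι → κ → ℝ) :
    (∑ i, r i ^ 2 * (v i ⬝ᵥ v i)) ^ (3 / 4 : ℝ) ≤ 32 * Brq e r u v + nb e u := by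
  classical
  have a := dn u
  have ρ0 := rt_pos he u
  have B0 := Brq_nn he (fun i => (hr i).1) u v
  have t0 : ∀ i, 0 ≤ r i ^ 2 * (v i ⬝ᵥ v i) := fun i => mul_nonneg (sq_nonneg _) (dn _)
  have q0 : ∀ i, 0 ≤ r i * Bq e u (v i) := fun i => mul_nonneg (hr i).1 (Bq_nn he u _)
  set S := univ.filter fun i => v i ⬝ᵥ v i ≤ e + u ⬝ᵥ u
  rw [← sum_filter_add_sum_filter_not univ fun i => v i ⬝ᵥ v i ≤ e + u ⬝ᵥ u]
  refine (p34_add (sum_nonneg fun i _ => t0 i) (sum_nonneg fun i _ => t0 i)).trans ?_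
  have two : r4 2 ≤ 2 := by
    have := r4_mono (x := 2) (y := 2 ^ 4) (by norm_num) (by norm_num)
    rwa [r4_of_pow (by norm_num)] at this
  have h1 : ∑ i ∈ S, r i ^ 2 * (v i ⬝ᵥ v i) ≤ 16 * rt e u * Brq e r u v := by
    rw [Brq, mul_sum]
    refine le_trans (sum_le_sum fun i hi => ?_) (sum_le_sum_of_subset_of_nonneg (subset_univ S)
      fun i _ _ => mul_nonneg (by positivity) (q0 i))
    have c := dn (v i)
    have s : r4 (e + u ⬝ᵥ u + v i ⬝ᵥ v i) ≤ 2 * rt e u := by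
      refine (r4_mono (y := 2 * (e + u ⬝ᵥ u)) (by linarith) (by linarith [(mem_filter.1 hi).2])).trans ?_
      rw [r4_mul (by norm_num) (by linarith)]
      exact mul_le_mul_of_nonneg_right two ρ0.le
    have l := Lq_le he u (v i)
    rw [Lq, div_le_iff₀ (by norm_num), div_le_iff₀ (r4_pos (by linarith))] at l
    have l2 : v i ⬝ᵥ v i ≤ 16 * rt e u * Bq e u (v i) := by
      nlinarith [mul_le_mul_of_nonneg_left s (Bq_nn he u (v i))]
    nlinarith [mul_le_mul_of_nonneg_left l2 (hr i).1,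
      mul_le_mul_of_nonneg_right (hr i).2 (mul_nonneg (hr i).1 c)]
  have h2 : (∑ i ∈ S, r i ^ 2 * (v i ⬝ᵥ v i)) ^ (3 / 4 : ℝ) ≤ 16 * Brq e r u v + nb e u := by
    refine (rpow_le_rpow (sum_nonneg fun i _ => t0 i) h1 (by norm_num)).trans ?_
    have y0 := r4_nn (x := 16 * Brq e r u v) (by positivity)
    have y4 := r4_pow (x := 16 * Brq e r u v) (by positivity)
    have z0 := r4_nn ρ0.le
    have z4 := r4_pow ρ0.le
    rw [r4_cube (by positivity), mul_comm 16, mul_assoc, r4_mul ρ0.le (by positivity), nb_eq he.le,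
      ← y4, ← z4, r4_of_pow y0, r4_of_pow z0]
    generalize r4 (16 * Brq e r u v) = y at y0
    generalize r4 (rt e u) = z at z0
    rcases le_total (z ^ 3) y with c | c
    · nlinarith [mul_le_mul_of_nonneg_left c (pow_nonneg y0 3), pow_nonneg z0 12]
    · have := pow_le_pow_left₀ y0 c 3
      nlinarith [mul_le_mul_of_nonneg_left this (pow_nonneg z0 3), pow_nonneg y0 4]
  have h3 : (∑ i ∈ univ.filter fun i => ¬ v i ⬝ᵥ v i ≤ e + u ⬝ᵥ u, r i ^ 2 * (v i ⬝ᵥ v i)) ^ (3 / 4 : ℝ)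
      ≤ 16 * Brq e r u v := by
    refine (p34_sum _ t0).trans ?_
    rw [Brq, mul_sum]
    refine le_trans (sum_le_sum fun i hi => ?_) (sum_le_sum_of_subset_of_nonneg (subset_univ _)
      fun i _ _ => mul_nonneg (by positivity) (q0 i))
    have c := dn (v i)
    have g : e + u ⬝ᵥ u < v i ⬝ᵥ v i := not_le.1 (mem_filter.1 hi).2
    have y0 := r4_pos (x := v i ⬝ᵥ v i) (by linarith)
    have y4 := r4_pow c
    have s : r4 (e + u ⬝ᵥ u + v i ⬝ᵥ v i) ≤ 2 * r4 (v i ⬝ᵥ v i) := by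
      refine (r4_mono (y := 2 * (v i ⬝ᵥ v i)) (by linarith) (by linarith)).trans ?_
      rw [r4_mul (by norm_num) c]
      exact mul_le_mul_of_nonneg_right two y0.le
    have l := Lq_le he u (v i)
    rw [Lq, div_le_iff₀ (by norm_num), div_le_iff₀ (r4_pos (by linarith))] at l
    have l2 : r4 (v i ⬝ᵥ v i) ^ 3 ≤ 16 * Bq e u (v i) := by
      refine le_of_mul_le_mul_right ?_ y0
      nlinarith [mul_le_mul_of_nonneg_left s (Bq_nn he u (v i))]
    have r1 : (r i ^ 2) ^ (3 / 4 : ℝ) ≤ r i := by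
      rw [← rpow_natCast, ← rpow_mul (hr i).1]
      exact (rpow_le_rpow_of_exponent_ge' (hr i).1 (hr i).2 (by norm_num) (by norm_num :
        (1 : ℝ) ≤ (2 : ℕ) * (3 / 4))).trans (rpow_one _).le
    rw [mul_rpow (sq_nonneg _) c, r4_cube c]
    nlinarith [mul_le_mul_of_nonneg_left l2 (hr i).1, mul_le_mul_of_nonneg_right r1 (pow_pos y0 3).le]
  linarith

end Crest.Agent.T157.S6b

end
end

-- ▼ part T157/S6P_20
section

/-!
# Row 157, block S6 (helper20): propagation of `|V| ^ 2` and `|V| ^ (3/2)` for twisted equations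
-/

set_option autoImplicit false

noncomputable section

namespace Crest.Agent.T157.S6b

open Real Matrix Finset Set
open Crest.Agent.T157.E Crest.Agent.T157.Rec
open Crest.Agent.T157.Chain22 (sg)

section pt
variable {κ ι : Type*} [Fintype κ] [Fintype ι] {e : ℝ}

/-- length -/
def nr (u : κ → ℝ) : ℝ := √(u ⬝ᵥ u)

theorem nr_nn (u : κ → ℝ) : 0 ≤ nr u := sqrt_nonneg _
theorem nr_sq (u : κ → ℝ) : nr u ^ 2 = u ⬝ᵥ u := sq_sqrt (dn u)
theorem dot_le (u v : κ → ℝ) : u ⬝ᵥ v ≤ nr u * nr v :=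
  (abs_le_of_sq_le_sq' (by rw [mul_pow, nr_sq, nr_sq]; exact cs u v)
    (mul_nonneg (nr_nn u) (nr_nn v))).2
theorem nr_le {u : κ → ℝ} {a : ℝ} (ha : 0 ≤ a) (h : u ⬝ᵥ u ≤ a ^ 2) : nr u ≤ a :=
  sqrt_le_iff.2 ⟨ha, h⟩

/-- the defect `D` is a twisted noise of size `β`, a linear term `A` and a source `γ` -/
def Tw (r : ι → ℝ) (u : κ → ℝ) (v : ι → κ → ℝ) (D β A γ : ℝ) : Prop :=
  ∃ b : ι → ℝ, (∀ i, 0 ≤ b i) ∧ ∑ i, b i ^ 2 ≤ β ^ 2 * (u ⬝ᵥ u) ∧
    D ≤ ∑ i, r i * (b i * nr (v i)) + A * (u ⬝ᵥ u) + γ * nr u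

variable {r : ι → ℝ} {u : κ → ℝ} {v : ι → κ → ℝ} {D D' β β' A A' γ γ' : ℝ}

theorem Tw.add (h : Tw r u v D β A γ) (h' : Tw r u v D' β' A' γ') (hβ : 0 ≤ β) (hβ' : 0 ≤ β') :
    Tw r u v (D + D') (β + β') (A + A') (γ + γ') := by
  obtain ⟨b, b0, b1, b2⟩ := h
  obtain ⟨c, c0, c1, c2⟩ := h'
  refine ⟨fun i => b i + c i, fun i => add_nonneg (b0 i) (c0 i), ?_, ?_⟩
  · have k : ∑ i, b i * c i ≤ β * β' * (u ⬝ᵥ u) := (abs_le_of_sq_le_sq' (by
      refine (sum_mul_sq_le_sq_mul_sq univ b c).trans ((mul_le_mul b1 c1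
        (sum_nonneg fun i _ => sq_nonneg _) (mul_nonneg (sq_nonneg _) (dn u))).trans_eq (by ring)))
      (mul_nonneg (mul_nonneg hβ hβ') (dn u))).2
    have : ∑ i, (b i + c i) ^ 2 = ∑ i, b i ^ 2 + 2 * ∑ i, b i * c i + ∑ i, c i ^ 2 := by
      rw [mul_sum, ← sum_add_distrib, ← sum_add_distrib]; exact sum_congr rfl fun i _ => by ring
    rw [this]; nlinarith
  · have : ∑ i, r i * ((b i + c i) * nr (v i)) =
        ∑ i, r i * (b i * nr (v i)) + ∑ i, r i * (c i * nr (v i)) := by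
      rw [← sum_add_distrib]; exact sum_congr rfl fun i _ => by ring
    rw [this]; linarith

theorem Tw.mono (h : Tw r u v D β A γ) (hD : D' ≤ D) (h0 : 0 ≤ β) (hβ : β ≤ β') (hA : A ≤ A')
    (hγ : γ ≤ γ') : Tw r u v D' β' A' γ' := by
  obtain ⟨b, b0, b1, b2⟩ := h
  refine ⟨b, b0, b1.trans (mul_le_mul_of_nonneg_right (pow_le_pow_left₀ h0 hβ 2) (dn u)), ?_⟩
  linarith [mul_le_mul_of_nonneg_right hA (dn u), mul_le_mul_of_nonneg_right hγ (nr_nn u)]

/-- linear terms and sources -/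
theorem tw_of_le (h : D ≤ A * (u ⬝ᵥ u) + γ * nr u) : Tw r u v D 0 A γ :=
  ⟨0, fun _ => le_rfl, by simp, by simpa using h⟩

theorem tw_src (g : κ → ℝ) : Tw r u v (u ⬝ᵥ g) 0 0 (nr g) :=
  tw_of_le (by linarith [dot_le u g])

/-- changed rates: component `k` jumps at rate `r j + δ k j` -/
theorem tw_rate (hr : ∀ j, 0 ≤ r j) {δ c : κ → ι → ℝ} (hδ : ∀ k j, |δ k j * v j k| ≤ r j * (c k j * |v j k|))
    (hc : ∀ k, ∑ j, c k j ^ 2 ≤ β ^ 2) :
    Tw r u v (u ⬝ᵥ fun k => ∑ j, δ k j * v j k) β 0 0 := by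
  refine ⟨fun j => nr fun k => |u k| * c k j, fun j => nr_nn _, ?_, ?_⟩
  · simp only [nr_sq, dotProduct]
    rw [sum_comm, mul_sum]
    refine sum_le_sum fun k _ => ?_
    have : ∑ j, |u k| * c k j * (|u k| * c k j) = (∑ j, c k j ^ 2) * (u k * u k) := by
      rw [sum_mul, ← abs_mul_abs_self (u k)]; exact sum_congr rfl fun j _ => by ring
    rw [this]; exact mul_le_mul_of_nonneg_right (hc k) (mul_self_nonneg _)
  · rw [zero_mul, zero_mul, add_zero, add_zero, dotProduct]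
    simp only [mul_sum]
    rw [sum_comm]
    refine Finset.sum_le_sum fun j _ => ?_
    have e1 : nr (v j) = nr fun k => |v j k| := by simp only [nr, dotProduct, abs_mul_abs_self]
    rw [e1]
    refine le_trans ?_ (mul_le_mul_of_nonneg_left (dot_le (fun k => |u k| * c k j)
      fun k => |v j k|) (hr j))
    rw [dotProduct, mul_sum]
    refine sum_le_sum fun k _ => (le_abs_self _).trans ?_
    rw [abs_mul]
    exact (mul_le_mul_of_nonneg_left (hδ k j) (abs_nonneg _)).trans_eq (by ring)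

/-- hops: component `k` receives at most `r k * β * |v k|` -/
theorem tw_hop {r : κ → ℝ} {v : κ → κ → ℝ} (hβ : 0 ≤ β) {g : κ → ℝ}
    (hg : ∀ k, |g k| ≤ r k * (β * nr (v k))) : Tw r u v (u ⬝ᵥ g) β 0 0 := by
  refine ⟨fun k => β * |u k|, fun k => by positivity, le_of_eq ?_, ?_⟩
  · simp only [dotProduct, mul_sum, mul_pow, sq_abs]; exact sum_congr rfl fun k _ => by ring
  · simp only [zero_mul, add_zero, dotProduct]
    refine sum_le_sum fun k _ => (le_abs_self _).trans ?_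
    rw [abs_mul]
    exact (mul_le_mul_of_nonneg_left (hg k) (abs_nonneg _)).trans_eq (by ring)

/-- the constant of the `3/2` inequality -/
def c32 (β A : ℝ) : ℝ := 18 * β ^ 2 + 864 * β ^ 3 + 3 / 2 * A + 1 / 2

theorem core32 (he : 0 < e) (hr : ∀ i, 0 ≤ r i ∧ r i ≤ 1) (hβ : 0 ≤ β) (hA : 0 ≤ A) (hγ : 0 ≤ γ)
    {U : κ → ℝ} (h : Tw r u v (u ⬝ᵥ U - u ⬝ᵥ fun k => ∑ i, r i * v i k) β A γ) :
    3 / 2 * (u ⬝ᵥ U / rt e u) ≤ ∑ i, r i * (nb e (u + v i) - nb e u) - Brq e r u v / 2 +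
      c32 β A * nb e u + γ ^ (3 / 2 : ℝ) := by
  obtain ⟨b, b0, b1, b2⟩ := h
  have ρ0 := rt_pos he u
  have ρ4 := rt_pow he.le u
  have n2 : nr u ≤ rt e u ^ 2 := sqrt_le_rt he.le u
  have a := absorb he hr (b := fun i => b i / rt e u ^ 2) (fun i => div_nonneg (b0 i) (sq_nonneg _)) hβ
    (by
      simp only [div_pow, ← sum_div]
      rw [div_le_iff₀ (by positivity)]
      nlinarith [mul_nonneg (sq_nonneg β) he.le]) (k := 1 / 3) (by norm_num) u v
  have e1 : rt e u * ∑ i, r i * (b i / rt e u ^ 2 * √(v i ⬝ᵥ v i)) =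
      (∑ i, r i * (b i * nr (v i))) / rt e u := by
    rw [mul_sum, sum_div]; exact sum_congr rfl fun i _ => by rw [nr]; field_simp
  have e2 := Brq_eq e r u v
  have e3 : A * (u ⬝ᵥ u) / rt e u ≤ A * nb e u := by
    rw [nb_eq he.le, div_le_iff₀ ρ0]; nlinarith [mul_nonneg hA he.le]
  have e4 : 3 / 2 * (γ * nr u / rt e u) ≤ nb e u / 2 + γ ^ (3 / 2 : ℝ) := by
    have : γ * nr u / rt e u ≤ γ * rt e u := by
      rw [div_le_iff₀ ρ0]; nlinarith [mul_le_mul_of_nonneg_left n2 hγ]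
    obtain ⟨t, t0, rfl⟩ : ∃ t, 0 ≤ t ∧ γ = t ^ 2 := ⟨√γ, sqrt_nonneg _, (sq_sqrt hγ).symm⟩
    have e5 : (t ^ 2) ^ (3 / 2 : ℝ) = t ^ 3 := by
      rw [← rpow_natCast, ← rpow_mul t0, ← rpow_natCast]; norm_num
    rw [e5, nb_eq he.le]
    nlinarith [mul_nonneg (sq_nonneg (rt e u - t)) (show 0 ≤ rt e u + 2 * t by positivity)]
  have e6 := div_le_div_of_nonneg_right b2 ρ0.le
  rw [sub_div, add_div, add_div] at e6
  rw [e1, show (4 / (1 / 3) + 64 * β / (1 / 3) ^ 2) * β ^ 2 = 12 * β ^ 2 + 576 * β ^ 3 by ring] at a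
  rw [c32]
  linarith

theorem core2 (hr : ∀ i, 0 ≤ r i ∧ r i ≤ 1) {U : κ → ℝ}
    (h : Tw r u v (u ⬝ᵥ U - u ⬝ᵥ fun k => ∑ i, r i * v i k) β A γ) :
    2 * (u ⬝ᵥ U) ≤ ∑ i, r i * ((u + v i) ⬝ᵥ (u + v i) - u ⬝ᵥ u) - (∑ i, r i * (v i ⬝ᵥ v i)) / 2 +
      (2 * β ^ 2 + 2 * A + 1) * (u ⬝ᵥ u) + γ ^ 2 := by
  obtain ⟨b, b0, b1, b2⟩ := h
  have e1 : ∑ i, r i * ((u + v i) ⬝ᵥ (u + v i) - u ⬝ᵥ u) =
      2 * (u ⬝ᵥ fun k => ∑ i, r i * v i k) + ∑ i, r i * (v i ⬝ᵥ v i) := by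
    have : u ⬝ᵥ (fun k => ∑ i, r i * v i k) = ∑ i, r i * (u ⬝ᵥ v i) := by
      simp only [dotProduct, mul_sum]
      rw [sum_comm]
      exact sum_congr rfl fun i _ => sum_congr rfl fun k _ => by ring
    rw [this, mul_sum, ← sum_add_distrib]
    exact sum_congr rfl fun i _ => by
      rw [add_dotProduct, dotProduct_add, dotProduct_add, dotProduct_comm (v i) u]; ring
  have e2 : 2 * ∑ i, r i * (b i * nr (v i)) ≤ (∑ i, r i * (v i ⬝ᵥ v i)) / 2 + 2 * ∑ i, b i ^ 2 := by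
    rw [mul_sum, mul_sum, sum_div, ← sum_add_distrib]
    refine sum_le_sum fun i _ => ?_
    rw [← nr_sq]
    nlinarith [mul_nonneg (hr i).1 (sq_nonneg (nr (v i) - 2 * b i)),
      mul_le_mul_of_nonneg_right (hr i).2 (sq_nonneg (b i))]
  nlinarith [sq_nonneg (γ - nr u), nr_sq u]

end pt

/-! ### fields on the cube -/

variable {n : ℕ} {w : Cube n → ℝ} {r : Cube n → Fin n → ℝ} {κ : Type*} [Fintype κ] {e : ℝ}

/-- `r` are the flip rates of the heat bath of `w` -/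
structure Rt (w : Cube n → ℝ) (r : Cube n → Fin n → ℝ) : Prop where
  hn : 0 < n
  hw : ∀ x, 0 < w x
  hr : ∀ x i, 0 ≤ r x i ∧ r x i ≤ 1
  gen : ∀ f x, gen w f x = ∑ i, r x i * (f (fl x i) - f x)

/-- flip increments of a field -/
def inc (V : Cube n → κ → ℝ) (x : Cube n) (i : Fin n) : κ → ℝ := V (fl x i) - V x
/-- `Br (V)`, `q = 3/2` -/
def BrF (e : ℝ) (r : Cube n → Fin n → ℝ) (V : Cube n → κ → ℝ) (x : Cube n) : ℝ :=
  Brq e (r x) (V x) (inc V x)
/-- `Γ (V)` -/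
def GaF (r : Cube n → Fin n → ℝ) (V : Cube n → κ → ℝ) (x : Cube n) : ℝ :=
  ∑ i, r x i * (inc V x i ⬝ᵥ inc V x i)
/-- the velocity `U` of the field `V` is a twisted `L V` -/
def TwF (r : Cube n → Fin n → ℝ) (V U : Cube n → κ → ℝ) (x : Cube n) (β A γ : ℝ) : Prop :=
  Tw (r x) (V x) (inc V x) (V x ⬝ᵥ U x - V x ⬝ᵥ fun k => ∑ i, r x i * inc V x i k) β A γ

theorem BrF_nn (h : Rt w r) (he : 0 < e) (V : Cube n → κ → ℝ) (x : Cube n) : 0 ≤ BrF e r V x :=
  Brq_nn he (fun i => (h.hr x i).1) _ _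

theorem GaF_nn (h : Rt w r) (V : Cube n → κ → ℝ) (x : Cube n) : 0 ≤ GaF r V x :=
  sum_nonneg fun i _ => mul_nonneg (h.hr x i).1 (dn _)

theorem cont_dot {Y : Type*} [TopologicalSpace Y] {U V : Y → κ → ℝ} (hU : ∀ k, Continuous fun y => U y k)
    (hV : ∀ k, Continuous fun y => V y k) : Continuous fun y => U y ⬝ᵥ V y :=
  continuous_finsetSum _ fun k _ => (hU k).mul (hV k)

theorem cont_BrF (he : 0 < e) {Y : Type*} [TopologicalSpace Y] {V : Y → Cube n → κ → ℝ}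
    (hV : ∀ x k, Continuous fun y => V y x k) (x : Cube n) : Continuous fun y => BrF e r (V y) x := by
  have i : ∀ j k, Continuous fun y => inc (V y) x j k := fun j k => (hV _ k).sub (hV _ k)
  have c : Continuous fun y => rt e (V y x) :=
    (continuous_const.add (cont_dot (hV x) (hV x))).rpow_const fun _ => Or.inr (by norm_num)
  unfold BrF Brq Bq
  exact continuous_finsetSum _ fun j _ => continuous_const.mul
    (((cont_nb e (U := fun y => V y x + inc (V y) x j) fun k => (hV x k).add (i j k)).sub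
      (cont_nb e (hV x))).sub (continuous_const.mul
        ((cont_dot (hV x) (i j)).div c fun y => (rt_pos he (V y x)).ne')))

theorem cont_GaF {Y : Type*} [TopologicalSpace Y] {V : Y → Cube n → κ → ℝ}
    (hV : ∀ x k, Continuous fun y => V y x k) (x : Cube n) : Continuous fun y => GaF r (V y) x :=
  continuous_finsetSum _ fun _ _ => continuous_const.mul
    (cont_dot (fun k => (hV _ k).sub (hV _ k)) fun k => (hV _ k).sub (hV _ k))

theorem duh_add (hn : 0 < n) (hw : ∀ x, 0 < w x) (C : ℝ) {g g' : ℝ → Cube n → ℝ}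
    (hg : ∀ z, Continuous fun u => g u z) (hg' : ∀ z, Continuous fun u => g' u z) (s : ℝ) (x : Cube n) :
    duh w C (fun u z => g u z + g' u z) s x = duh w C g s x + duh w C g' s x := by
  have c : ∀ {g : ℝ → Cube n → ℝ}, (∀ z, Continuous fun u => g u z) →
      Continuous fun u => exp (C * (s - u)) * sg w (s - u) (g u) x := fun hg =>
    (by fun_prop : Continuous fun u => exp (C * (s - u))).mul
      (cont_sg_fam hn hw (by fun_prop) hg x)
  simp only [duh, sg_add_fun, mul_add]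
  exact intervalIntegral.integral_add ((c hg).intervalIntegrable _ _) ((c hg').intervalIntegrable _ _)

theorem duh_const_mul (w : Cube n → ℝ) (C a : ℝ) (g : ℝ → Cube n → ℝ) (s : ℝ) (x : Cube n) :
    duh w C (fun u z => a * g u z) s x = a * duh w C g s x := by
  simp only [duh, sg_const_mul, ← intervalIntegral.integral_const_mul, mul_left_comm a]

theorem duh_mono (hn : 0 < n) (hw : ∀ x, 0 < w x) {C C' s : ℝ} {g g' : ℝ → Cube n → ℝ}
    (hg : ∀ z, Continuous fun u => g u z) (hg' : ∀ z, Continuous fun u => g' u z) (hs : 0 ≤ s)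
    (hC : C ≤ C') (h0 : ∀ u ∈ Icc 0 s, ∀ z, 0 ≤ g' u z) (h : ∀ u ∈ Icc 0 s, ∀ z, g u z ≤ g' u z)
    (x : Cube n) : duh w C g s x ≤ duh w C' g' s x := by
  refine intervalIntegral.integral_mono_on hs (Continuous.intervalIntegrable
    ((by fun_prop : Continuous fun u => exp (C * (s - u))).mul
      (cont_sg_fam hn hw (by fun_prop) hg x)) _ _) (Continuous.intervalIntegrable
    ((by fun_prop : Continuous fun u => exp (C' * (s - u))).mul
      (cont_sg_fam hn hw (by fun_prop) hg' x)) _ _) fun u hu => ?_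
  have t : 0 ≤ s - u := sub_nonneg.2 hu.2
  exact (mul_le_mul_of_nonneg_left (sg_mono hn hw t (h u hu) x) (exp_pos _).le).trans
    (mul_le_mul_of_nonneg_right (exp_le_exp.2 (mul_le_mul_of_nonneg_right hC t))
      (sg_nonneg hn hw t (h0 u hu) x))

theorem duh_nonneg (hn : 0 < n) (hw : ∀ x, 0 < w x) {C s : ℝ} {g : ℝ → Cube n → ℝ} (hs : 0 ≤ s)
    (h0 : ∀ u ∈ Icc 0 s, ∀ z, 0 ≤ g u z) (x : Cube n) : 0 ≤ duh w C g s x :=
  intervalIntegral.integral_nonneg hs fun u hu =>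
    mul_nonneg (exp_pos _).le (sg_nonneg hn hw (sub_nonneg.2 hu.2) (h0 u hu) x)

variable {V U : ℝ → Cube n → κ → ℝ} {γ : ℝ → Cube n → ℝ} {T β A : ℝ}

/-- **(P), `q = 3/2`**, with dissipation and source -/
theorem P32 (h : Rt w r) (he : 0 < e) (hβ : 0 ≤ β) (hA : 0 ≤ A)
    (hd : ∀ s x k, HasDerivAt (fun u => V u x k) (U s x k) s)
    (hγ : ∀ x, Continuous fun u => γ u x) (h0 : ∀ u x, 0 ≤ γ u x)
    (ht : ∀ s ∈ Ioc 0 T, ∀ x, TwF r (V s) (U s) x β A (γ s x)) : ∀ s ∈ Icc 0 T, ∀ x,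
    nb e (V s x) + duh w (c32 β A) (fun u => BrF e r (V u)) s x / 2 ≤
      exp (c32 β A * s) * sg w s (fun z => nb e (V 0 z)) x +
        duh w (c32 β A) (fun u z => γ u z ^ (3 / 2 : ℝ)) s x := by
  intro s hs x
  have cV : ∀ x k, Continuous fun u => V u x k := fun x k =>
    continuous_iff_continuousAt.2 fun s => (hd s x k).continuousAt
  have c1 : ∀ z, Continuous fun u => γ u z ^ (3 / 2 : ℝ) := fun z =>
    (hγ z).rpow_const fun _ => Or.inr (by norm_num)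
  have c2 : ∀ z, Continuous fun u => -(1 / 2) * BrF e r (V u) z := fun z =>
    continuous_const.mul (cont_BrF he cV z)
  have := cmp h.hn h.hw (Φ := fun u z => nb e (V u z)) (C := c32 β A) (T := T)
    (g := fun u z => γ u z ^ (3 / 2 : ℝ) + -(1 / 2) * BrF e r (V u) z)
    (fun z => (cont_nb e (cV z)).continuousOn) (fun z => (c1 z).add (c2 z)) (fun s hs x => by
      refine Tch.of_deriv (hasDerivAt_nb he (hd s x)) ?_
      have := core32 he (h.hr x) hβ hA (h0 s x) (ht s hs x)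
      simp only [inc, add_sub_cancel] at this
      rw [h.gen, BrF]; linarith) s hs x
  rw [duh_add h.hn h.hw _ c1 c2, duh_const_mul] at this
  linarith


/-- `(P)`, `q = 3/2`, without regularisation -/
theorem P32' (h : Rt w r) (hβ : 0 ≤ β) (hA : 0 ≤ A)
    (hd : ∀ s x k, HasDerivAt (fun u => V u x k) (U s x k) s)
    (hγ : ∀ x, Continuous fun u => γ u x) (h0 : ∀ u x, 0 ≤ γ u x)
    (ht : ∀ s ∈ Ioc 0 T, ∀ x, TwF r (V s) (U s) x β A (γ s x)) : ∀ s ∈ Icc 0 T, ∀ x,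
    nb 0 (V s x) ≤ exp (c32 β A * s) * sg w s (fun z => nb 0 (V 0 z)) x +
      duh w (c32 β A) (fun u z => γ u z ^ (3 / 2 : ℝ)) s x := by
  intro s hs x
  refine le_of_forall_pos_le_add fun ε hε => ?_
  have E := exp_pos (c32 β A * s)
  have he : 0 < (ε / exp (c32 β A * s)) ^ (4 / 3 : ℝ) := rpow_pos_of_pos (by positivity) _
  have k := P32 h he hβ hA hd hγ h0 ht s hs x
  have k1 := duh_nonneg h.hn h.hw (C := c32 β A) hs.1 (fun u _ z => BrF_nn h he (V u) z) x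
  have k2 := sg_mono h.hn h.hw hs.1 (fun z => nb_le he.le (V 0 z)) x
  rw [sg_add_fun, sg_const h.hn h.hw, ← rpow_mul (by positivity)] at k2
  norm_num at k2
  have k3 := mul_le_mul_of_nonneg_left k2 E.le
  rw [mul_add, mul_div_cancel₀ _ E.ne'] at k3
  linarith [nb_zero_le he.le (V s x)]

end Crest.Agent.T157.S6b

end
end

-- ▼ part T157/S6Eq_20

/-!
# Row 157, block S6 (helper20): the energy bound (Eq) for the scalars of a marker, abstract form
-/

set_option autoImplicit false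

noncomputable section

namespace Crest.Agent.T157.S6b

open Real Matrix Finset Set MeasureTheory
open Crest.Agent.T157.E Crest.Agent.T157.Rec
open Crest.Agent.T157.Chain22 (sg)

variable {n : ℕ} {w : Cube n → ℝ} {r : Cube n → Fin n → ℝ} {κ : Type*} [Fintype κ] {e : ℝ}

/-- no integrability is needed on the small side -/
theorem int_le {f g : ℝ → ℝ} {s : ℝ} (hs : 0 ≤ s) (hg : Continuous g) (h0 : ∀ u ∈ Icc 0 s, 0 ≤ f u)
    (h : ∀ u ∈ Icc 0 s, f u ≤ g u) : ∫ u in (0 : ℝ)..s, f u ≤ ∫ u in (0 : ℝ)..s, g u := by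
  rw [intervalIntegral.integral_of_le hs, intervalIntegral.integral_of_le hs]
  refine integral_mono_of_nonneg ?_ (hg.intervalIntegrable 0 s).1 ?_
  · exact (ae_restrict_iff' measurableSet_Ioc).2 (ae_of_all _ fun u hu => h0 u ⟨hu.1.le, hu.2⟩)
  · exact (ae_restrict_iff' measurableSet_Ioc).2 (ae_of_all _ fun u hu => h u ⟨hu.1.le, hu.2⟩)

/-- two nested dissipation inequalities -/
theorem nest (hn : 0 < n) (hw : ∀ x, 0 < w x) {N B : ℝ → Cube n → ℝ} {E Ψ Z : ℝ → ℝ → Cube n → ℝ}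
    {C K : ℝ} (hC : 0 ≤ C) (hK : 0 ≤ K) (cN : ∀ x, Continuous fun u => N u x)
    (cB : ∀ x, Continuous fun u => B u x) (N0 : ∀ u x, 0 ≤ N u x)
    (hN : ∀ u x, Tch (fun u => N u x) u (gen w (N u) x + C * N u x - B u x))
    (cΨ : ∀ u x, Continuous fun v => Ψ u v x) (cZ : ∀ u x, Continuous fun v => Z u v x)
    (E0 : ∀ u v x, 0 ≤ E u v x ∧ E u v x ≤ Ψ u v x) (Z0 : ∀ u v x, 0 ≤ Z u v x)
    (hΨ : ∀ u v x, Tch (fun v => Ψ u v x) v (gen w (Ψ u v) x + C * Ψ u v x - Z u v x))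
    (h0 : ∀ u x, Ψ u 0 x ≤ K * B u x) {s : ℝ} (hs : 0 ≤ s) (x : Cube n) :
    ∫ u in (0 : ℝ)..s, (E u (s - u) x + ∫ v in (0 : ℝ)..s - u, sg w (s - u - v) (Z u v) x) ≤
      K * (exp (C * s) * sg w s (N 0) x) := by
  have a := cmp_diss hn hw (T := s) (fun x => (cN x).continuousOn) cB (fun u _ x => hN u x) s
    ⟨hs, le_rfl⟩ x
  refine le_trans ?_ (mul_le_mul_of_nonneg_left (le_trans (le_add_of_nonneg_left (N0 s x)) a) hK)
  rw [← duh_const_mul]
  refine int_le hs ((by fun_prop : Continuous fun u => exp (C * (s - u))).mul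
    (cont_sg_fam hn hw (by fun_prop) (fun z => continuous_const.mul (cB z)) x)) (fun u hu => ?_)
    fun u hu => ?_
  · exact add_nonneg (E0 _ _ _).1 (intervalIntegral.integral_nonneg (sub_nonneg.2 hu.2) fun v hv =>
      sg_nonneg hn hw (sub_nonneg.2 hv.2) (Z0 u v) x)
  · have t := sub_nonneg.2 hu.2
    have b := cmp_diss hn hw (T := s - u) (fun x => (cΨ u x).continuousOn) (cZ u)
      (fun v _ x => hΨ u v x) _ ⟨t, le_rfl⟩ x
    have c := duh_mono hn hw (cZ u) (cZ u) t hC (fun v _ => Z0 u v) (fun _ _ _ => le_rfl) x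
    simp only [duh, zero_mul, exp_zero, one_mul] at c
    refine le_trans (add_le_add (E0 _ _ _).2 c) (b.trans ?_)
    exact mul_le_mul_of_nonneg_left (sg_mono hn hw t (h0 u) x) (exp_pos _).le

/-- a scalar function as a field with one component -/
def one (F : Cube n → ℝ) : Cube n → Unit → ℝ := fun x _ => F x
/-- `|a (V)|²` -/
def aV (r : Cube n → Fin n → ℝ) (V : Cube n → κ → ℝ) (x : Cube n) : ℝ :=
  ∑ i, r x i ^ 2 * (inc V x i ⬝ᵥ inc V x i)
/-- `|a (F)|²` -/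
def aS (r : Cube n → Fin n → ℝ) (F : Cube n → ℝ) (x : Cube n) : ℝ :=
  ∑ i, (r x i * (F (fl x i) - F x)) ^ 2
/-- `Z²` -/
def Z2 (r : Cube n → Fin n → ℝ) (F : Cube n → ℝ) (V : Cube n → κ → ℝ) (x : Cube n) : ℝ :=
  F x ^ 2 + V x ⬝ᵥ V x + aS r F x + aV r V x

theorem one_dot (F G : Cube n → ℝ) (x : Cube n) : one F x ⬝ᵥ one G x = F x * G x := by
  simp [one, dotProduct]

theorem aV_one (F : Cube n → ℝ) (x : Cube n) : aV r (one F) x = aS r F x :=
  sum_congr rfl fun i _ => by simp [one, inc, dotProduct]; ring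

theorem aS_nn (F : Cube n → ℝ) (x : Cube n) : 0 ≤ aS r F x := sum_nonneg fun _ _ => sq_nonneg _
theorem aV_nn (V : Cube n → κ → ℝ) (x : Cube n) : 0 ≤ aV r V x :=
  sum_nonneg fun _ _ => mul_nonneg (sq_nonneg _) (dn _)
theorem Z2_nn (F : Cube n → ℝ) (V : Cube n → κ → ℝ) (x : Cube n) : 0 ≤ Z2 r F V x :=
  add_nonneg (add_nonneg (add_nonneg (sq_nonneg _) (dn _)) (aS_nn _ _)) (aV_nn _ _)

theorem aV_le (h : Rt w r) (V : Cube n → κ → ℝ) (x : Cube n) : aV r V x ≤ GaF r V x :=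
  sum_le_sum fun i _ => mul_le_mul_of_nonneg_right (by nlinarith [h.hr x i]) (dn _)

theorem aV_p34 (h : Rt w r) (he : 0 < e) (V : Cube n → κ → ℝ) (x : Cube n) :
    aV r V x ^ (3 / 4 : ℝ) ≤ 32 * BrF e r V x + nb e (V x) := jump_le he (h.hr x) _ _

theorem cont_Z2 {Y : Type*} [TopologicalSpace Y] {F : Y → Cube n → ℝ} {V : Y → Cube n → κ → ℝ}
    (hF : ∀ x, Continuous fun y => F y x) (hV : ∀ x k, Continuous fun y => V y x k) (x : Cube n) :
    Continuous fun y => Z2 r (F y) (V y) x :=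
  ((((hF x).pow 2).add (cont_dot (hV x) (hV x))).add (continuous_finsetSum _ fun _ _ =>
    (continuous_const.mul ((hF _).sub (hF _))).pow 2)).add (continuous_finsetSum _ fun _ _ =>
      continuous_const.mul (cont_dot (fun k => (hV _ k).sub (hV _ k)) fun k => (hV _ k).sub (hV _ k)))

theorem twF_gen (h : Rt w r) (F : Cube n → ℝ) (x : Cube n) :
    TwF r (one F) (one (gen w F)) x 0 0 0 := tw_of_le (le_of_eq (by
  simp [one, inc, dotProduct, h.gen]))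

theorem gen_add (w F G : Cube n → ℝ) (x : Cube n) :
    gen w (fun z => F z + G z) x = gen w F x + gen w G x := by
  simp only [gen, siteM, ← Finset.sum_add_distrib]
  exact Finset.sum_congr rfl fun i _ => by ring

/-- the equations of the scalars of a marker: `al (u)`, `ka (u + v, u)`, `z (u + v, u)` -/
structure Mk (w : Cube n → ℝ) (r : Cube n → Fin n → ℝ) (β : ℝ) (al Ua : ℝ → Cube n → ℝ)
    (ka : ℝ → ℝ → Cube n → ℝ) (z Uz : ℝ → ℝ → Cube n → κ → ℝ) : Prop where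
  da : ∀ s x, HasDerivAt (fun u => al u x) (Ua s x) s
  ta : ∀ s x, TwF r (one (al s)) (one (Ua s)) x β 0 0
  dk : ∀ u v x, HasDerivAt (fun v => ka u v x) (gen w (ka u v) x) v
  k0 : ∀ u x, ka u 0 x ^ 2 ≤ al u x ^ 2
  dz : ∀ u v x j, HasDerivAt (fun v => z u v x j) (Uz u v x j) v
  tz : ∀ u v x, TwF r (z u v) (Uz u v) x β 0 (β * √(aS r (ka u v) x))
  z0 : ∀ u x, z u 0 x ⬝ᵥ z u 0 x ≤ β ^ 2 * (al u x ^ 2 + aS r (al u) x)

variable {β : ℝ} {al Ua : ℝ → Cube n → ℝ} {ka : ℝ → ℝ → Cube n → ℝ} {z Uz : ℝ → ℝ → Cube n → κ → ℝ}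

theorem tch2 (h : Rt w r) {V U : ℝ → Cube n → κ → ℝ} {s A γ : ℝ} {x : Cube n}
    (hd : ∀ k, HasDerivAt (fun u => V u x k) (U s x k) s) (ht : TwF r (V s) (U s) x β A γ) :
    Tch (fun u => V u x ⬝ᵥ V u x) s (gen w (fun z => V s z ⬝ᵥ V s z) x - GaF r (V s) x / 2 +
      (2 * β ^ 2 + 2 * A + 1) * (V s x ⬝ᵥ V s x) + γ ^ 2) := by
  refine Tch.of_deriv (HasDerivAt.fun_sum fun k _ => (hd k).mul (hd k)) ?_
  have := core2 (h.hr x) ht
  simp only [inc, add_sub_cancel] at this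
  have e : ∑ k, (U s x k * V s x k + V s x k * U s x k) = 2 * (V s x ⬝ᵥ U s x) := by
    simp only [dotProduct, mul_sum]; exact sum_congr rfl fun k _ => by ring
  rw [h.gen, GaF, e]; unfold inc; linarith

theorem tch32 (h : Rt w r) (he : 0 < e) {V U : ℝ → Cube n → κ → ℝ} {s A γ : ℝ} {x : Cube n}
    (hβ : 0 ≤ β) (hA : 0 ≤ A) (hγ : 0 ≤ γ)
    (hd : ∀ k, HasDerivAt (fun u => V u x k) (U s x k) s) (ht : TwF r (V s) (U s) x β A γ) :
    Tch (fun u => nb e (V u x)) s (gen w (fun z => nb e (V s z)) x - BrF e r (V s) x / 2 +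
      c32 β A * nb e (V s x) + γ ^ (3 / 2 : ℝ)) := by
  refine Tch.of_deriv (hasDerivAt_nb he hd) ?_
  have := core32 he (h.hr x) hβ hA hγ ht
  simp only [inc, add_sub_cancel] at this
  rw [h.gen, BrF]; linarith

/-- **(Eq), `q = 2`** -/
theorem Mk.eq2 (h : Rt w r) (m : Mk w r β al Ua ka z Uz) {s : ℝ} (hs : 0 ≤ s) (x : Cube n) :
    ∫ u in (0 : ℝ)..s, ((ka u (s - u) x ^ 2 + z u (s - u) x ⬝ᵥ z u (s - u) x) +
      ∫ v in (0 : ℝ)..s - u, sg w (s - u - v) (Z2 r (ka u v) (z u v)) x) ≤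
      (12 * β ^ 2 + 4) * (exp ((2 * β ^ 2 + 2) * s) * sg w s (fun y => al 0 y ^ 2) x) := by
  have ca : ∀ x (_ : Unit), Continuous fun u => al u x := fun x _ =>
    continuous_iff_continuousAt.2 fun s => (m.da s x).continuousAt
  have ck : ∀ u x, Continuous fun v => ka u v x := fun u x =>
    continuous_iff_continuousAt.2 fun s => (m.dk u s x).continuousAt
  have cz : ∀ u x j, Continuous fun v => z u v x j := fun u x j =>
    continuous_iff_continuousAt.2 fun s => (m.dz u s x j).continuousAt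
  have b2 := sq_nonneg β
  have := nest h.hn h.hw (N := fun u y => one (al u) y ⬝ᵥ one (al u) y)
    (B := fun u y => (one (al u) y ⬝ᵥ one (al u) y + GaF r (one (al u)) y) / 2)
    (Ψ := fun u v y => 2 * ((2 * β ^ 2 + 1) * (one (ka u v) y ⬝ᵥ one (ka u v) y) + z u v y ⬝ᵥ z u v y))
    (E := fun u v y => ka u v y ^ 2 + z u v y ⬝ᵥ z u v y)
    (Z := fun u v => Z2 r (ka u v) (z u v)) (C := 2 * β ^ 2 + 2) (K := 12 * β ^ 2 + 4)
    (by positivity) (by positivity) (fun y => cont_dot (ca y) (ca y))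
    (fun y => ((cont_dot (ca y) (ca y)).add (cont_GaF (V := fun u => one (al u)) ca y)).div_const 2)
    (fun u y => dn _) (fun u y => (tch2 h (V := fun u => one (al u)) (U := fun u => one (Ua u))
      (fun _ => m.da u y) (m.ta u y)).mono (by linarith [dn (one (al u) y)]))
    (fun u y => continuous_const.mul ((continuous_const.mul (cont_dot (fun _ => ck u y)
      fun _ => ck u y)).add (cont_dot (cz u y) (cz u y)))) (fun u => cont_Z2 (ck u) (cz u))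
    (fun u v y => by
      rw [one_dot, ← sq]
      constructor <;> nlinarith [dn (z u v y), mul_nonneg b2 (sq_nonneg (ka u v y))])
    (fun u v => Z2_nn _ _) (fun u v y => by
      refine ((((tch2 h (V := fun v => one (ka u v)) (U := fun v => one (gen w (ka u v)))
        (fun _ => m.dk u v y) (twF_gen h _ y)).const_mul (c := 2 * β ^ 2 + 1) (by positivity)).add
        (tch2 h (m.dz u v y) (m.tz u v y))).const_mul zero_le_two).mono ?_
      rw [gen_const_mul, gen_add, gen_const_mul, mul_pow, sq_sqrt (aS_nn _ _), Z2, sq (ka u v y),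
        ← one_dot, ← aV_one]
      have a1 := aV_le h (one (ka u v)) y
      have a2 := aV_le h (z u v) y
      have a3 := dn (one (ka u v) y)
      have a4 := dn (z u v y)
      nlinarith [mul_le_mul_of_nonneg_left a1 b2, mul_nonneg b2 a3, mul_nonneg (mul_nonneg b2 b2) a3])
    (fun u y => by
      have a1 := aV_le h (one (al u)) y
      have a2 := m.k0 u y
      have a3 := m.z0 u y
      have a4 := GaF_nn h (one (al u)) y
      rw [aV_one] at a1
      simp only [one_dot, ← sq]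
      nlinarith [mul_le_mul_of_nonneg_left a1 b2, mul_le_mul_of_nonneg_left a2 b2, mul_nonneg b2 a4])
    hs x
  simpa only [one_dot, ← sq] using this

theorem nb_one (F : Cube n → ℝ) (x : Cube n) : nb e (one F x) = (e + F x ^ 2) ^ (3 / 4 : ℝ) := by
  rw [nb, one_dot, sq]

theorem p34_le_nb (he : 0 ≤ e) (u : κ → ℝ) : (u ⬝ᵥ u) ^ (3 / 4 : ℝ) ≤ nb e u := by
  have := nb_zero_le he u
  rwa [nb, zero_add] at this

/-- the rate in (Eq), `q = 3/2` -/
def r32 (β : ℝ) : ℝ := c32 β 0 + 2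
/-- the factor in (Eq), `q = 3/2` -/
def k32 (β : ℝ) : ℝ := 8192 * (β ^ 2 + 1) + 256

theorem Mk.eq32e (h : Rt w r) (hβ : 0 ≤ β) (he : 0 < e) (m : Mk w r β al Ua ka z Uz) {s : ℝ}
    (hs : 0 ≤ s) (x : Cube n) :
    ∫ u in (0 : ℝ)..s, ((ka u (s - u) x ^ 2 + z u (s - u) x ⬝ᵥ z u (s - u) x) ^ (3 / 4 : ℝ) +
      ∫ v in (0 : ℝ)..s - u, sg w (s - u - v) (fun y => Z2 r (ka u v) (z u v) y ^ (3 / 4 : ℝ)) x) ≤
      2 * k32 β * (exp (r32 β * s) * sg w s (fun y => nb e (one (al 0) y)) x) := by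
  have ca : ∀ x (_ : Unit), Continuous fun u => al u x := fun x _ =>
    continuous_iff_continuousAt.2 fun s => (m.da s x).continuousAt
  have ck : ∀ u x, Continuous fun v => ka u v x := fun u x =>
    continuous_iff_continuousAt.2 fun s => (m.dk u s x).continuousAt
  have cz : ∀ u x j, Continuous fun v => z u v x j := fun u x j =>
    continuous_iff_continuousAt.2 fun s => (m.dz u s x j).continuousAt
  have b2 := sq_nonneg β
  have b3 : 0 ≤ β ^ 3 := by positivity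
  have p1 : (β ^ 2) ^ (3 / 4 : ℝ) ≤ β ^ 2 + 1 := by
    rcases le_total (β ^ 2) 1 with c | c
    · linarith [rpow_le_one b2 c (show (0 : ℝ) ≤ 3 / 4 by norm_num)]
    · linarith [rpow_le_self_of_one_le c (show (3 / 4 : ℝ) ≤ 1 by norm_num)]
  have p0 : 0 ≤ (β ^ 2) ^ (3 / 4 : ℝ) := rpow_nonneg b2 _
  exact nest h.hn h.hw (N := fun u y => nb e (one (al u) y))
    (B := fun u y => (nb e (one (al u) y) + BrF e r (one (al u)) y) / 2)
    (Ψ := fun u v y => 64 * ((64 * (β ^ 2 + 1) + 1) * nb e (one (ka u v) y) + nb e (z u v y)))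
    (E := fun u v y => (ka u v y ^ 2 + z u v y ⬝ᵥ z u v y) ^ (3 / 4 : ℝ))
    (Z := fun u v y => Z2 r (ka u v) (z u v) y ^ (3 / 4 : ℝ)) (C := r32 β) (K := 2 * k32 β)
    (by unfold r32 c32; positivity) (by unfold k32; positivity) (fun y => cont_nb e (ca y))
    (fun y => ((cont_nb e (ca y)).add (cont_BrF he (V := fun u => one (al u)) ca y)).div_const 2)
    (fun u y => nb_nn he.le _) (fun u y => (tch32 h he (V := fun u => one (al u))
      (U := fun u => one (Ua u)) hβ le_rfl le_rfl (fun _ => m.da u y) (m.ta u y)).mono (by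
        rw [zero_rpow (by norm_num), r32]; linarith [nb_nn he.le (one (al u) y)]))
    (fun u y => continuous_const.mul ((continuous_const.mul (cont_nb e (U := fun v => one (ka u v) y)
      fun _ => ck u y)).add (cont_nb e (cz u y))))
    (fun u y => (cont_Z2 (ck u) (cz u) y).rpow_const fun _ => Or.inr (by norm_num))
    (fun u v y => ⟨rpow_nonneg (add_nonneg (sq_nonneg _) (dn _)) _, by
      have a1 := p34_add (sq_nonneg (ka u v y)) (dn (z u v y))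
      have a2 := p34_le_nb he.le (one (ka u v) y)
      rw [one_dot, ← sq] at a2
      nlinarith [p34_le_nb he.le (z u v y), nb_nn he.le (z u v y), nb_nn he.le (one (ka u v) y),
        mul_nonneg b2 (nb_nn he.le (one (ka u v) y))]⟩)
    (fun u v y => rpow_nonneg (Z2_nn _ _ _) _) (fun u v y => by
      refine ((((tch32 h he (V := fun v => one (ka u v)) (U := fun v => one (gen w (ka u v)))
        le_rfl le_rfl le_rfl (fun _ => m.dk u v y) (twF_gen h _ y)).const_mul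
        (c := 64 * (β ^ 2 + 1) + 1) (by positivity)).add (tch32 h he hβ le_rfl (by positivity)
        (m.dz u v y) (m.tz u v y))).const_mul (c := 64) (by norm_num)).mono ?_
      have e1 : (β * √(aS r (ka u v) y)) ^ (3 / 2 : ℝ) =
          (β ^ 2) ^ (3 / 4 : ℝ) * aS r (ka u v) y ^ (3 / 4 : ℝ) := by
        rw [← mul_rpow b2 (aS_nn _ _), ← sq_sqrt (aS_nn (ka u v) y), sqrt_sq (sqrt_nonneg _), ← mul_pow,
          ← rpow_natCast, ← rpow_mul (by positivity)]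
        norm_num
      have a1 := aV_p34 h he (one (ka u v)) y
      have a2 := aV_p34 h he (z u v) y
      have a3 := nb_nn he.le (one (ka u v) y)
      have a4 := nb_nn he.le (z u v y)
      have a5 := BrF_nn h he (one (ka u v)) y
      have a6 := p34_le_nb he.le (one (ka u v) y)
      have a7 := p34_le_nb he.le (z u v y)
      have a8 : Z2 r (ka u v) (z u v) y ^ (3 / 4 : ℝ) ≤ (ka u v y ^ 2) ^ (3 / 4 : ℝ) +
          (z u v y ⬝ᵥ z u v y) ^ (3 / 4 : ℝ) + aS r (ka u v) y ^ (3 / 4 : ℝ) +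
          aV r (z u v) y ^ (3 / 4 : ℝ) :=
        (p34_add (add_nonneg (add_nonneg (sq_nonneg _) (dn _)) (aS_nn _ _)) (aV_nn _ _)).trans
          (add_le_add ((p34_add (add_nonneg (sq_nonneg _) (dn _)) (aS_nn _ _)).trans
            (add_le_add (p34_add (sq_nonneg _) (dn _)) le_rfl)) le_rfl)
      rw [one_dot, ← sq] at a6
      rw [aV_one] at a1
      have a9 := mul_le_mul p1 a1 (rpow_nonneg (aS_nn _ _) _) (by positivity)
      rw [gen_const_mul, gen_add, gen_const_mul, e1, zero_rpow (by norm_num), r32]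
      unfold c32
      nlinarith [mul_nonneg b2 a3, mul_nonneg b3 a3, mul_nonneg (mul_nonneg b2 b2) a3,
        mul_nonneg (mul_nonneg b2 b3) a3])
    (fun u y => by
      have a1 := aV_p34 h he (one (al u)) y
      have a2 : nb e (one (ka u 0) y) ≤ nb e (one (al u) y) := by
        rw [nb_one, nb_one]
        exact rpow_le_rpow (by positivity) (by linarith [m.k0 u y]) (by norm_num)
      have a3 := nb_nn he.le (one (al u) y)
      have a4 := BrF_nn h he (one (al u)) y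
      have a5 : e ^ (3 / 4 : ℝ) ≤ nb e (one (al u) y) := by
        rw [nb_one]; exact rpow_le_rpow he.le (by nlinarith) (by norm_num)
      have a6 := p34_le_nb he.le (one (al u) y)
      have a7 := nb_le he.le (z u 0 y)
      rw [aV_one] at a1
      rw [one_dot, ← sq] at a6
      have a8 : nb 0 (z u 0 y) ≤ (β ^ 2 + 1) * ((al u y ^ 2) ^ (3 / 4 : ℝ) +
          aS r (al u) y ^ (3 / 4 : ℝ)) := by
        rw [nb, zero_add]
        refine (rpow_le_rpow (dn _) (m.z0 u y) (by norm_num)).trans ?_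
        rw [mul_rpow b2 (add_nonneg (sq_nonneg _) (aS_nn _ _))]
        exact mul_le_mul p1 (p34_add (sq_nonneg _) (aS_nn _ _))
          (rpow_nonneg (add_nonneg (sq_nonneg _) (aS_nn _ _)) _) (by positivity)
      rw [k32]
      nlinarith [mul_le_mul_of_nonneg_left (add_le_add a6 a1) (show 0 ≤ β ^ 2 + 1 by positivity),
        mul_le_mul_of_nonneg_left a2 (show 0 ≤ 64 * (β ^ 2 + 1) + 1 by positivity),
        mul_nonneg b2 a3, mul_nonneg b2 a4])
    hs x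

/-- **(Eq), `q = 3/2`** -/
theorem Mk.eq32 (h : Rt w r) (hβ : 0 ≤ β) (m : Mk w r β al Ua ka z Uz) {s : ℝ}
    (hs : 0 ≤ s) (x : Cube n) :
    ∫ u in (0 : ℝ)..s, ((ka u (s - u) x ^ 2 + z u (s - u) x ⬝ᵥ z u (s - u) x) ^ (3 / 4 : ℝ) +
      ∫ v in (0 : ℝ)..s - u, sg w (s - u - v) (fun y => Z2 r (ka u v) (z u v) y ^ (3 / 4 : ℝ)) x) ≤
      2 * k32 β * (exp (r32 β * s) * sg w s (fun y => (al 0 y ^ 2) ^ (3 / 4 : ℝ)) x) := by
  refine le_of_forall_pos_le_add fun ε hε => ?_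
  have E : 0 < 2 * k32 β * exp (r32 β * s) := by unfold k32; positivity
  have he : 0 < (ε / (2 * k32 β * exp (r32 β * s))) ^ (4 / 3 : ℝ) := rpow_pos_of_pos (by positivity) _
  refine (m.eq32e h hβ he hs x).trans ?_
  have k2 := sg_mono h.hn h.hw hs (fun z => nb_le he.le (one (al 0) z)) x
  rw [sg_add_fun, sg_const h.hn h.hw, ← rpow_mul (by positivity)] at k2
  simp only [nb_one, zero_add] at k2 ⊢
  norm_num at k2
  have k3 := mul_le_mul_of_nonneg_left k2 E.le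
  rw [mul_add, mul_div_cancel₀ _ E.ne'] at k3
  linarith

end Crest.Agent.T157.S6b

end
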