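import Crest.Agent.T157.S6Ho_47

/-!
# Row 157, part B, block S6 (helper47): the semigroup on one-forms, Duhamel formula, intertwinings
-/

set_option autoImplicit false

noncomputable section

namespace Crest.Agent.T157.S6h

open Matrix Real Function Set
open Crest.Agent.T157.E hiding mean
open Crest.Agent.T157.Tap (V Mx)
open Crest.Agent.T157.Rec (grad fl grad_eq sv_mul_self sv_fl_ne)
open Crest.Agent.T157.Da.Gr
open Crest.Agent.T157.Chain22 (sg IsP mean ip sg_zero sg_add hasDerivAt_sg ip_sg_symm)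
open Crest.Agent.T157.Reg (VF mu Tk am)
open Crest.Agent.T157.Reg.Bas66 (mu_pos tt_fl)

/-! ### linear flows -/

section flow
variable {E : Type*} [NormedAddCommGroup E] [NormedSpace ℝ E] [CompleteSpace E]

/-- the flow of a bounded operator -/
def fw (A : E →L[ℝ] E) (s : ℝ) : E →L[ℝ] E := NormedSpace.exp (s • A)

omit [CompleteSpace E] in
lemma fw_zero (A : E →L[ℝ] E) : fw A 0 = 1 := by rw [fw, zero_smul, NormedSpace.exp_zero]

lemma hasDerivAt_fw (A : E →L[ℝ] E) (s : ℝ) : HasDerivAt (fw A) (A * fw A s) s :=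
  hasDerivAt_exp_smul_const' (𝕂 := ℝ) A s

lemma hasDerivAt_fw' (A : E →L[ℝ] E) (s : ℝ) : HasDerivAt (fw A) (fw A s * A) s :=
  hasDerivAt_exp_smul_const (𝕂 := ℝ) A s


lemma cont_fw (A : E →L[ℝ] E) : Continuous (fw A) :=
  continuous_iff_continuousAt.2 fun s => (hasDerivAt_fw A s).continuousAt

lemma hasDerivAt_fw_apply (A : E →L[ℝ] E) (u : E) (s : ℝ) :
    HasDerivAt (fun r => fw A r u) (A (fw A s u)) s := by
  simpa using (hasDerivAt_fw A s).clm_apply (hasDerivAt_const s u)

omit [CompleteSpace E] in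
lemma lin_uniq (A : E →L[ℝ] E) {u v : ℝ → E} (hu : ∀ t, HasDerivAt u (A (u t)) t)
    (hv : ∀ t, HasDerivAt v (A (v t)) t) (h0 : u 0 = v 0) : u = v :=
  ODE_solution_unique_univ (v := fun _ => A) (s := fun _ => univ) (K := ‖A‖₊)
    (fun _ => A.lipschitz.lipschitzOnWith) (fun t => ⟨hu t, trivial⟩) (fun t => ⟨hv t, trivial⟩) h0

lemma fw_uniq (A : E →L[ℝ] E) {u : ℝ → E} (hu : ∀ t, HasDerivAt u (A (u t)) t) (s : ℝ) :
    u s = fw A s (u 0) :=
  congrFun (lin_uniq A hu (hasDerivAt_fw_apply A (u 0)) (by rw [fw_zero]; rfl)) s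


lemma hasDerivAt_fw_back (A : E →L[ℝ] E) {v : ℝ → E} {v' : E} {s : ℝ} (hv : HasDerivAt v v' s)
    (T : ℝ) : HasDerivAt (fun r => fw A (T - r) (v r)) (fw A (T - s) (v' - A (v s))) s := by
  have h := ((hasDerivAt_fw' A (T - s)).comp_const_sub T s).clm_apply hv
  refine h.congr_deriv ?_
  simp only [_root_.neg_apply, mul_apply_eq_comp, map_sub]
  abel

lemma fw_duhamel (A : E →L[ℝ] E) {v e : ℝ → E} {a T : ℝ} (haT : a ≤ T)
    (hc : ContinuousOn v (Icc a T)) (he : ContinuousOn e (Icc a T))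
    (hv : ∀ s ∈ Ioo a T, HasDerivAt v (A (v s) + e s) s) :
    v T = fw A (T - a) (v a) + ∫ r in a..T, fw A (T - r) (e r) := by
  have c1 : Continuous fun r => fw A (T - r) := (cont_fw A).comp (by fun_prop)
  have h := intervalIntegral.integral_eq_sub_of_hasDerivAt_of_le haT
    (f := fun r => fw A (T - r) (v r)) (f' := fun r => fw A (T - r) (e r))
    (c1.continuousOn.clm_apply hc)
    (fun s hs => by simpa using hasDerivAt_fw_back A (hv s hs) T)
    ((c1.continuousOn.clm_apply he).intervalIntegrable_of_Icc haT)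
  rw [h, sub_self, fw_zero]
  simp

end flow

variable {n : ℕ} {W : Mx n}

/-! ### the semigroup `e^{s LL}` -/

lemma LL_add (W : Mx n) (U U' : VF n) : LL W (U + U') = LL W U + LL W U' := by
  funext x k
  simp only [LL, Lc, Ec, dl, cp, Pi.add_apply]
  rw [add_add_add_comm, ← Finset.sum_add_distrib, sub_add_sub_comm, ← Finset.sum_add_distrib]
  congr 1
  · congr 1
    exact Finset.sum_congr rfl fun j _ => by ring
  · exact Finset.sum_congr rfl fun j _ => by ring

lemma LL_smul (W : Mx n) (c : ℝ) (U : VF n) : LL W (c • U) = c • LL W U := by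
  funext x k
  simp only [LL, Lc, Ec, dl, cp, Pi.smul_apply, smul_eq_mul]
  rw [mul_add, mul_sub, Finset.mul_sum, Finset.mul_sum]
  congr 1
  · congr 1
    exact Finset.sum_congr rfl fun j _ => by ring
  · exact Finset.sum_congr rfl fun j _ => by ring

/-- `LL` as a linear map -/
def LLm (W : Mx n) : VF n →ₗ[ℝ] VF n where
  toFun := LL W
  map_add' := LL_add W
  map_smul' := LL_smul W


lemma LL_sum (W : Mx n) {ι : Type*} (S : Finset ι) (U : ι → VF n) :
    LL W (∑ i ∈ S, U i) = ∑ i ∈ S, LL W (U i) := map_sum (LLm W) U S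


/-- projection on one-forms -/
def pj : VF n →ₗ[ℝ] VF n where
  toFun U := fun x k => (U x k + U (fl x k) k) / 2
  map_add' U U' := by funext x k; simp only [Pi.add_apply]; ring
  map_smul' c U := by funext x k; simp only [Pi.smul_apply, smul_eq_mul, RingHom.id_apply]; ring

lemma frV_pj (U : VF n) : FrV (pj U) := fun k x => by
  show (U (fl x k) k + U (fl (fl x k) k) k) / 2 = (U x k + U (fl x k) k) / 2
  rw [fl_fl, add_comm]

lemma FrV.pj {U : VF n} (h : FrV U) : pj U = U := by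
  funext x k
  show (U x k + U (fl x k) k) / 2 = U x k
  rw [show U (fl x k) k = U x k from h k x]; ring

lemma FrV.add {U U' : VF n} (h : FrV U) (h' : FrV U') : FrV (U + U') := fun k x => by
  have h1 := h k x
  have h2 := h' k x
  simp only [cp, Pi.add_apply] at *
  rw [h1, h2]

lemma FrV.sub {U U' : VF n} (h : FrV U) (h' : FrV U') : FrV (U - U') := fun k x => by
  have h1 := h k x
  have h2 := h' k x
  simp only [cp, Pi.sub_apply] at *
  rw [h1, h2]

lemma FrV.smul {U : VF n} (h : FrV U) (c : ℝ) : FrV (c • U) := fun k x => by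
  have h1 := h k x
  simp only [cp, Pi.smul_apply] at *
  rw [h1]

/-- the generator as a bounded operator (equal to `LL` on one-forms) -/
def LA (W : Mx n) : VF n →L[ℝ] VF n := LinearMap.toContinuousLinearMap (LLm W ∘ₗ pj)

lemma LA_eq (W : Mx n) {U : VF n} (h : FrV U) : LA W U = LL W U := by
  show LL W (pj U) = LL W U
  rw [h.pj]

lemma frV_LA (hW : Wᵀ = W) (U : VF n) : FrV (LA W U) := (frV_pj U).LL hW

/-- `e^{s LL} U` -/
def eL (W : Mx n) (s : ℝ) (U : VF n) : VF n := fw (LA W) s U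

lemma eL_zero (W : Mx n) (U : VF n) : eL W 0 U = U := by rw [eL, fw_zero]; rfl



lemma eL_sub (W : Mx n) (s : ℝ) (U U' : VF n) : eL W s (U - U') = eL W s U - eL W s U' :=
  map_sub (fw (LA W) s) U U'




lemma cont_eL (W : Mx n) {Y : Type*} [TopologicalSpace Y] {t : Y → ℝ} {U : Y → VF n}
    (ht : Continuous t) (hU : Continuous U) : Continuous fun y => eL W (t y) (U y) :=
  ((cont_fw (LA W)).comp ht).clm_apply hU

lemma hasDerivAt_ev {U : ℝ → VF n} {U' : VF n} {s : ℝ} (h : HasDerivAt U U' s) (x : Cube n)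
    (k : Fin n) : HasDerivAt (fun r => U r x k) (U' x k) s :=
  hasDerivAt_pi.1 (hasDerivAt_pi.1 h x) k

lemma hasDerivAt_of_ev {U : ℝ → VF n} {U' : VF n} {s : ℝ}
    (h : ∀ x k, HasDerivAt (fun r => U r x k) (U' x k) s) : HasDerivAt U U' s :=
  hasDerivAt_pi.2 fun x => hasDerivAt_pi.2 (h x)

lemma FrV.eL (hW : Wᵀ = W) {U : VF n} (h : FrV U) (s : ℝ) : FrV (eL W s U) := fun k x => by
  have d : ∀ r, HasDerivAt (fun r => S6h.eL W r U (fl x k) k - S6h.eL W r U x k) 0 r := fun r => by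
    have h1 := hasDerivAt_fw_apply (LA W) U r
    have h2 := (hasDerivAt_ev h1 (fl x k) k).sub (hasDerivAt_ev h1 x k)
    rwa [show LA W (fw (LA W) r U) (fl x k) k = LA W (fw (LA W) r U) x k from frV_LA hW _ k x,
      sub_self] at h2
  have e := is_const_of_deriv_eq_zero (fun r => (d r).differentiableAt) (fun r => (d r).deriv) s 0
  simp only [eL_zero] at e
  have h0 : U (fl x k) k = U x k := h k x
  rw [h0, sub_self, sub_eq_zero] at e
  exact e

theorem hasDerivAt_eL (hW : Wᵀ = W) {U : VF n} (h : FrV U) (s : ℝ) :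
    HasDerivAt (fun r => eL W r U) (LL W (eL W s U)) s := by
  rw [← LA_eq W (h.eL hW s)]; exact hasDerivAt_fw_apply (LA W) U s




/-- **Duhamel formula** -/
theorem eL_duhamel {U e : ℝ → VF n} {a T : ℝ} (haT : a ≤ T) (hc : ContinuousOn U (Icc a T))
    (he : ContinuousOn e (Icc a T)) (hF : ∀ s ∈ Ioo a T, FrV (U s))
    (hU : ∀ s ∈ Ioo a T, HasDerivAt U (LL W (U s) + e s) s) :
    U T = eL W (T - a) (U a) + ∫ r in a..T, eL W (T - r) (e r) :=
  fw_duhamel (LA W) haT hc he fun s hs => by rw [LA_eq W (hF s hs)]; exact hU s hs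

/-! ### the scalar semigroups -/

/-- `gen w` as a linear map -/
def genm (w : Cube n → ℝ) : (Cube n → ℝ) →ₗ[ℝ] (Cube n → ℝ) where
  toFun := gen w
  map_add' f g := by
    funext x
    simp only [gen, siteM, Pi.add_apply, ← Finset.sum_add_distrib]
    exact Finset.sum_congr rfl fun i _ => by ring
  map_smul' c f := by
    funext x
    simp only [gen, siteM, Pi.smul_apply, smul_eq_mul, RingHom.id_apply, Finset.mul_sum]
    exact Finset.sum_congr rfl fun i _ => by ring

/-- `gen w` as a bounded operator -/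
def genA (w : Cube n → ℝ) : (Cube n → ℝ) →L[ℝ] (Cube n → ℝ) :=
  LinearMap.toContinuousLinearMap (genm w)

theorem sg_eq_fw {w : Cube n → ℝ} (hn : 0 < n) (hw : ∀ x, 0 < w x) (s : ℝ) (f : Cube n → ℝ) :
    sg w s f = fw (genA w) s f := by
  have h := fw_uniq (genA w) (u := fun r => sg w r f)
    (fun t => hasDerivAt_pi.2 fun x => hasDerivAt_sg hn hw f x t) s
  rwa [sg_zero hn hw] at h

theorem sg_uniq {w : Cube n → ℝ} (hn : 0 < n) (hw : ∀ x, 0 < w x) {u : ℝ → Cube n → ℝ}
    (hu : ∀ s x, HasDerivAt (fun r => u r x) (gen w (u s) x) s) (s : ℝ) : u s = sg w s (u 0) := by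
  rw [sg_eq_fw hn hw]
  exact fw_uniq (genA w) (fun t => hasDerivAt_pi.2 (hu t)) s




/-- a flip symmetry of the weight passes to the semigroup -/
theorem Fr.sg {w : Cube n → ℝ} (hn : 0 < n) (hw : ∀ x, 0 < w x) {k : Fin n} (hk : Fr k w)
    {F : Cube n → ℝ} (h : Fr k F) (s : ℝ) : Fr k (sg w s F) := by
  have e : ∀ G : Cube n → ℝ, ∀ x, gen w G (fl x k) = gen w (fun z => G (fl z k)) x := fun G x => by
    simp only [gen, siteM_fl, fl_comm x k, hk _]
  have h1 := sg_uniq hn hw (u := fun r z => Chain22.sg w r F (fl z k))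
    (fun r x => by rw [← e]; exact hasDerivAt_sg hn hw F (fl x k) r) s
  intro x
  rw [congrFun h1 x, sg_zero hn hw, funext h]

theorem Fr.sg_cw (hn : 0 < n) (hW : Wᵀ = W) {k : Fin n} {F : Cube n → ℝ} (h : Fr k F) (s : ℝ) :
    Fr k (Chain22.sg (cw W k) s F) := Fr.sg hn (cw_pos W k) (fr_cw hW k) h s

theorem hasDerivAt_sg_cw (hn : 0 < n) (hW : Wᵀ = W) {k : Fin n} {F : Cube n → ℝ} (h : Fr k F)
    (x : Cube n) (s : ℝ) :
    HasDerivAt (fun r => sg (cw W k) r F x) (Lc W k (sg (cw W k) s F) x) s := by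
  rw [← gen_cw hW (h.sg_cw hn hW s)]; exact hasDerivAt_sg hn (cw_pos W k) F x s

/-! ### intertwinings -/

lemma hasDerivAt_dv (W : Mx n) {U : ℝ → VF n} {U' : VF n} {s : ℝ} (h : HasDerivAt U U' s)
    (x : Cube n) : HasDerivAt (fun r => dv W (U r) x) (dv W U' x) s :=
  HasDerivAt.fun_sum fun k _ => (hasDerivAt_ev h x k).const_mul _

/-- **(H1), integrated** -/
theorem sg_dv (hn : 0 < n) (hW : Wᵀ = W) {U : VF n} (h : FrV U) (s : ℝ) :
    sg (mu W) s (dv W U) = dv W (eL W s U) := by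
  have h1 := sg_uniq hn (mu_pos W) (u := fun r => dv W (eL W r U))
    (fun r x => by rw [H1 hW (h.eL hW r)]; exact hasDerivAt_dv W (hasDerivAt_eL hW h r) x) s
  rw [h1, eL_zero]




/-- the difference of the conditional means -/
def dk (v : Cube n → ℝ) (W : Mx n) (x : Cube n) (k : Fin n) : ℝ :=
  siteM v (fun z => sv z k) k x - tt W 0 x k

lemma fr_siteM (v f : Cube n → ℝ) (k : Fin n) : Fr k (siteM v f k) := fun x => by
  rw [siteM_fl, siteM_fl, fl_fl, add_comm, add_comm (v x)]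

lemma frV_dk (v : Cube n → ℝ) (W : Mx n) : FrV (dk v W) := fun k x => by
  show dk v W (fl x k) k = dk v W x k
  rw [dk, dk, fr_siteM, tt_fl]

/-- `ν (div U) = E_ν [d · U]` -/
theorem mean_dv {v : Cube n → ℝ} (hv : ∀ x, 0 < v x) (W : Mx n) {U : VF n} (h : FrV U) :
    mean (prob v) (dv W U) = mean (prob v) fun x => dk v W x ⬝ᵥ U x := by
  have e : ∀ k, mean (prob v) (fun x => (sv x k - tt W 0 x k) * U x k) =
      mean (prob v) fun x => dk v W x k * U x k := fun k => by
    rw [← Chain22.mean_siteM hv k]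
    congr 1
    funext x
    have h1 := add_pos (hv x) (hv (fl x k))
    rw [dk, siteM_fl, siteM_fl, tt_fl, show U (fl x k) k = U x k from h k x]
    field_simp
    ring
  simp only [mean, dv, dotProduct, Finset.mul_sum] at e ⊢
  rw [Finset.sum_comm, Finset.sum_comm (s := Finset.univ (α := Cube n))]
  exact Finset.sum_congr rfl fun k _ => e k

end Crest.Agent.T157.S6h

end
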