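import Crest.Agent.T157.BTop_95

/-!
# Row 157, block S6 (helper28): closing the return loop in time
-/

set_option autoImplicit false

noncomputable section

namespace Crest.Agent.T157.S6k

open Real Set intervalIntegral
open MeasureTheory (volume intervalIntegral_intervalIntegral_swap)
open Crest.Agent.T157.E Crest.Agent.T157.Rv Crest.Agent.T157.B
open Crest.Agent.T157.Chain22 (sg sg_zero)

theorem swap_cont {F : ℝ → ℝ → ℝ} (hF : Continuous F.uncurry) (a b c d : ℝ) :
    ∫ x in a..b, ∫ y in c..d, F x y = ∫ y in c..d, ∫ x in a..b, F x y :=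
  intervalIntegral_intervalIntegral_swap ((hF.continuousOn.integrableOn_compact
    ((isCompact_uIcc (a := a) (b := b)).prod (isCompact_uIcc (a := c) (b := d)))).mono_set
      (prod_mono uIoc_subset_uIcc uIoc_subset_uIcc))

theorem int_mono {F : ℝ → ℝ} (hF : Continuous F) (h0 : ∀ u, 0 ≤ F u) {a b c d : ℝ} (h1 : c ≤ a)
    (h2 : a ≤ b) (h3 : b ≤ d) : ∫ u in a..b, F u ≤ ∫ u in c..d, F u :=
  integral_mono_interval h1 h2 h3 (Filter.Eventually.of_forall h0) (hF.intervalIntegrable _ _)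

/-- Young's inequality for a delay -/
theorem conv_le {F q : ℝ → ℝ} (hF : Continuous F) (h0 : ∀ u, 0 ≤ F u) (hq : Continuous q)
    {α β p t : ℝ} (q0 : ∀ s ∈ Icc α β, 0 ≤ q s) (a0 : 0 ≤ α) (ab : α ≤ β) (bp : β ≤ p) (pt : p ≤ t) :
    ∫ r in p..t, ∫ s in α..β, q s * F (r - s) ≤ (∫ s in α..β, q s) * ∫ u in (0 : ℝ)..t, F u := by
  rw [swap_cont (F := fun r s => q s * F (r - s)) (by fun_prop), ← integral_mul_const]
  refine integral_mono_on ab ((continuous_parametric_intervalIntegral_of_continuous'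
    (f := fun s r => q s * F (r - s)) (by fun_prop) p t).intervalIntegrable _ _)
    ((hq.mul continuous_const).intervalIntegrable _ _) fun s hs => ?_
  rw [integral_const_mul, integral_comp_sub_right]
  exact mul_le_mul_of_nonneg_left (int_mono hF h0 (by linarith [hs.2]) (by linarith)
    (by linarith [hs.1])) (q0 s hs)

/-- the delay inequality, integrated -/
theorem loop {Y J Z q : ℝ → ℝ} (hY : Continuous Y) (hJ : Continuous J) (hZ : Continuous Z)
    (hq : Continuous q) (Y0 : ∀ u, 0 ≤ Y u) (J0 : ∀ u, 0 ≤ J u) (Z0 : ∀ u, 0 ≤ Z u)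
    {τ T g1 g2 δ η B : ℝ} (hτ : 0 ≤ τ) (q0 : ∀ s ∈ Icc 0 (τ + 1), 0 ≤ q s)
    (hg1 : 0 ≤ g1) (hg2 : ∫ s in (0 : ℝ)..(τ + 1), q s ≤ g2) (hδ : 0 ≤ δ) (hη : 0 ≤ η) (hB : 0 ≤ B)
    (hg : g1 + g2 + δ ≤ 1)
    (h : ∀ r, τ + 1 ≤ r → r ≤ T → (1 - 2 / 3 * (g1 + g2) - δ) * Y r ≤
      1 / 3 * (g1 * (∫ s in τ..(τ + 1), Y (r - s)) + ∫ s in (0 : ℝ)..(τ + 1), q s * Y (r - s)) +
        η * J r + B * (∫ s in τ..(τ + 1), J (r - s)) + Z r)
    {t : ℝ} (t0 : 0 ≤ t) (t1 : t ≤ T) :
    (1 - g1 - g2 - δ) * ∫ r in (0 : ℝ)..t, Y r ≤ (∫ r in (0 : ℝ)..(τ + 1), Y r) +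
      (η + B) * (∫ r in (0 : ℝ)..t, J r) + ∫ r in (0 : ℝ)..t, Z r := by
  have p0 : (0 : ℝ) ≤ τ + 1 := by linarith
  have g20 : 0 ≤ g2 := (integral_nonneg p0 q0).trans hg2
  have iY : 0 ≤ ∫ r in (0 : ℝ)..t, Y r := integral_nonneg t0 fun u _ => Y0 u
  have iJ : 0 ≤ ∫ r in (0 : ℝ)..t, J r := integral_nonneg t0 fun u _ => J0 u
  have iZ : 0 ≤ ∫ r in (0 : ℝ)..t, Z r := integral_nonneg t0 fun u _ => Z0 u
  have iP : 0 ≤ ∫ r in (0 : ℝ)..(τ + 1), Y r := integral_nonneg p0 fun u _ => Y0 u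
  rcases le_total t (τ + 1) with tp | tp
  · have := int_mono hY Y0 le_rfl t0 tp
    nlinarith [mul_nonneg (add_nonneg hη hB) iJ, mul_nonneg (add_nonneg (add_nonneg hg1 g20) hδ) iY]
  have c1 : Continuous fun r => ∫ s in τ..(τ + 1), Y (r - s) :=
    continuous_parametric_intervalIntegral_of_continuous' (f := fun r s => Y (r - s)) (by fun_prop) _ _
  have c2 : Continuous fun r => ∫ s in (0 : ℝ)..(τ + 1), q s * Y (r - s) :=
    continuous_parametric_intervalIntegral_of_continuous' (f := fun r s => q s * Y (r - s))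
      (by fun_prop) _ _
  have c3 : Continuous fun r => ∫ s in τ..(τ + 1), J (r - s) :=
    continuous_parametric_intervalIntegral_of_continuous' (f := fun r s => J (r - s)) (by fun_prop) _ _
  have m := integral_mono_on (μ := volume) tp (Continuous.intervalIntegrable
    (u := fun r => (1 - 2 / 3 * (g1 + g2) - δ) * Y r) (by fun_prop) _ _)
    (Continuous.intervalIntegrable (by fun_prop) _ _) fun r hr => h r hr.1 (hr.2.trans t1)
  rw [integral_const_mul, integral_add (Continuous.intervalIntegrable (by fun_prop) _ _)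
    (hZ.intervalIntegrable _ _), integral_add (Continuous.intervalIntegrable (by fun_prop) _ _)
    (Continuous.intervalIntegrable (by fun_prop) _ _), integral_add
    (Continuous.intervalIntegrable (by fun_prop) _ _) (Continuous.intervalIntegrable (by fun_prop) _ _),
    integral_const_mul, integral_const_mul, integral_const_mul, integral_add
    (Continuous.intervalIntegrable (by fun_prop) _ _) (c2.intervalIntegrable _ _),
    integral_const_mul] at m
  have e1 := conv_le hY Y0 (q := fun _ => 1) continuous_const (α := τ) (β := τ + 1)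
    (fun _ _ => zero_le_one) hτ (by linarith) le_rfl tp
  have e2 := conv_le hY Y0 hq q0 le_rfl p0 le_rfl tp
  have e3 := conv_le hJ J0 (q := fun _ => 1) continuous_const (α := τ) (β := τ + 1)
    (fun _ _ => zero_le_one) hτ (by linarith) le_rfl tp
  simp only [one_mul, integral_const, add_sub_cancel_left, smul_eq_mul, mul_one] at e1 e3
  have e4 := int_mono hJ J0 p0 tp le_rfl
  have e5 := int_mono hZ Z0 p0 tp le_rfl
  have e6 := integral_add_adjacent_intervals (μ := volume) (hY.intervalIntegrable 0 (τ + 1))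
    (hY.intervalIntegrable (τ + 1) t)
  have e7 := mul_le_mul_of_nonneg_right hg2 iY
  nlinarith [mul_le_mul_of_nonneg_left e1 hg1, mul_le_mul_of_nonneg_left e3 hB,
    mul_le_mul_of_nonneg_left e4 hη, mul_nonneg (add_nonneg (add_nonneg hg1 g20) hδ) iP]





/-- the gain of the loop is at most `0.8` -/
theorem gain_num {b a b2 Rh : ℝ} (b0 : 0 ≤ b) (a0 : 1 / 2 ≤ a) (a1 : a ≤ (1 - b) ^ 2) (b1 : b ≤ 1)
    (h2 : b2 ≤ b ^ 2 + 1 / 1000) (hR : Rh ≤ 3 * b ^ 2 + 1 / 1000) :
    1 / 4 ≤ 1 - 12 / 5 * b2 - 2 * a / 3 ∧ a ≤ 1 - 6 / 5 * b2 + 1 / 500 - b ∧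
    1 ≤ (8 / 7 : ℝ) ^ 3 * (1 - 3 / 2 * (12 / 5 * b2)) ∧
    (8 / 7 : ℝ) ^ 2 * Rh ≤ 4 / 5 * (1 - 12 / 5 * b2 - 2 * a / 3) := by
  have h : b ≤ 293 / 1000 := by
    by_contra hh
    have := lt_of_not_ge hh
    nlinarith
  refine ⟨by nlinarith, by nlinarith, by nlinarith, by nlinarith⟩

variable {n : ℕ} {w f : Cube n → ℝ}

theorem continuous_I (hn : 0 < n) (hw : ∀ x, 0 < w x) (hf : ∀ x, 0 < f x) :
    Continuous fun u : ℝ => II w (sg w (max u 0) f) := by
  have c0 : Continuous fun u : ℝ => max u 0 := continuous_id.max continuous_const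
  have : Continuous fun u : ℝ => ent w (sg w (max u 0) f) := continuous_iff_continuousAt.2 fun u =>
    ContinuousAt.comp (f := fun u : ℝ => max u 0) (g := fun s => ent w (sg w s f))
      (hasDerivAt_ent_sg hn hw (sg_pos hn hw (le_max_right u 0) hf)).continuousAt c0.continuousAt
  exact ((continuous_HI hn hw hf).sub this).congr fun u => by simp

theorem int_I_le (hn : 0 < n) (hw : ∀ x, 0 < w x) (hf : ∀ x, 0 < f x) {p : ℝ} (hp : 0 ≤ p) :
    ∫ u in (0 : ℝ)..p, II w (sg w (max u 0) f) ≤ ent w f := by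
  have e : ∫ u in (0 : ℝ)..p, II w (sg w (max u 0) f) = ∫ u in (0 : ℝ)..p, II w (sg w u f) :=
    integral_congr fun u hu => by rw [uIcc_of_le hp] at hu; simp only [max_eq_left hu.1]
  have i : IntervalIntegrable (fun u => II w (sg w u f)) volume 0 p :=
    ((continuous_I hn hw hf).continuousOn.congr (s := uIcc 0 p) fun u hu => by
      rw [uIcc_of_le hp] at hu; simp only [max_eq_left hu.1]).intervalIntegrable
  have d := integral_eq_sub_of_hasDerivAt (a := 0) (b := p) (f := fun u => -ent w (sg w u f))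
    (f' := fun u => II w (sg w u f)) (fun u hu => by
      rw [uIcc_of_le hp] at hu
      exact (hasDerivAt_ent_sg hn hw (sg_pos hn hw hu.1 hf)).neg.congr_deriv (neg_neg _)) i
  rw [e, d, sg_zero hn hw]
  linarith [ent_nn hw (sg_nn hn hw hp fun x => (hf x).le)]


end Crest.Agent.T157.S6k

end
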