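import Crest.Agent.T157.S6DefB_68
import Crest.Agent.T157.S6Cmp_20
import Crest.Agent.T157.RegBas_66

/-!
# Row 157, block S6 (helper68): calculus of the words of sections 6-7, and (C)
-/

set_option autoImplicit false

noncomputable section

namespace Crest.Agent.T157.S6

open Matrix Real Filter Topology Set MeasureTheory
open Crest.Agent.T157.E hiding mean
open Crest.Agent.T157.Eig Crest.Agent.T157.Reg Crest.Agent.T157.S6b
open Crest.Agent.T157.Tap (V Mx)
open Crest.Agent.T157.Rec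
open Crest.Agent.T157.Da.Gr
open Crest.Agent.T157.Reg.Bas66 (mu_pos)
open Crest.Agent.T157.Chain22 (sg IsP mean sg_zero hasDerivAt_sg isP_prob')

variable {n : ℕ} {W : Mx n} {ρ : ℝ → ℝ} {K : ℝ}

/-! ### linear observables -/

theorem grad_sg_lin (W : Mx n) (w : V n) (v : ℝ) (x : Cube n) :
    grad (sg (mu W) v fun z => w ⬝ᵥ sv z) x = Mg W v x *ᵥ w := by
  have e : (sg (mu W) v fun z => w ⬝ᵥ sv z) = fun y => ∑ a, w a * sg (mu W) v (fun z => sv z a) y := by
    funext y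
    simp only [dotProduct, sg_sum, sg_const_mul]
  funext i
  rw [e, grad_sum]
  simp only [grad_const_mul, Pi.smul_apply, smul_eq_mul, mulVec, dotProduct, Mg, of_apply, mul_comm]

theorem Mg_zero (hn : 0 < n) (W : Mx n) (x : Cube n) : Mg W 0 x = 1 := by
  ext i a
  rw [Mg, of_apply, sg_zero hn (mu_pos W), grad_sv, one_apply]

theorem cont_Mg (hn : 0 < n) (W : Mx n) (x : Cube n) (i a : Fin n) :
    Continuous fun v => Mg W v x i a := by
  simp only [Mg, of_apply, grad_eq]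
  exact (continuous_const.mul ((T157.B.continuous_sg hn (mu_pos W) _ _).sub
    (T157.B.continuous_sg hn (mu_pos W) _ _))).div_const _

theorem cont_Mg_vec (hn : 0 < n) (W : Mx n) (x : Cube n) (w : V n) (i : Fin n) :
    Continuous fun v => (Mg W v x *ᵥ w) i :=
  continuous_finsetSum (f := fun a v => Mg W v x i a * w a) Finset.univ fun a _ =>
    (cont_Mg hn W x i a).mul continuous_const

theorem opn_Mg (K : ℝ) : ∃ C ≥ (0 : ℝ), ∀ (n : ℕ) (W : Mx n), 0 < n → Wᵀ = W → opn W ≤ K →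
    ∀ v, 0 ≤ v → ∀ x, opn (Mg W v x) ≤ exp (C * v) := by
  obtain ⟨C, C0, h⟩ := Da.grStmt K
  refine ⟨C, C0, fun n W hn hW hK v v0 x => opn_le_of_sq (exp_pos _).le fun w => ?_⟩
  have := h n W 0 hn hW hK v v0 (fun z => w ⬝ᵥ sv z) x
  simp only [grad_lin] at this
  rw [sg_const hn (ising_pos W 0)] at this
  rw [← grad_sg_lin]
  refine this.trans (mul_le_mul_of_nonneg_right ?_ (dot_self_nonneg w))
  rw [← exp_nat_mul]
  exact exp_le_exp.2 (by push_cast; nlinarith [mul_nonneg C0 v0])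

/-! ### `Ph` and `Yf` -/

theorem Ph_eq (W : Mx n) (ρ : ℝ → ℝ) (w : V n) (v : ℝ) (x : Cube n) : Ph W ρ w v x =
    sg (mu W) v (fun z => (W *ᵥ w) ⬝ᵥ sv z) x - duh (mu W) 0 (fun u z => ρ u * (w ⬝ᵥ sv z)) v x := by
  simp only [Ph, duh, zero_mul, exp_zero, one_mul, sg_const_mul]

theorem Ph_zero (hn : 0 < n) (W : Mx n) (ρ : ℝ → ℝ) (w : V n) :
    Ph W ρ w 0 = fun z => (W *ᵥ w) ⬝ᵥ sv z := by
  funext x; simp [Ph, sg_zero hn (mu_pos W)]

theorem hasDerivAt_Ph (hn : 0 < n) (W : Mx n) (hρ : Continuous ρ) (w : V n) (s : ℝ) (x : Cube n) :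
    HasDerivAt (fun u => Ph W ρ w u x) (gen (mu W) (Ph W ρ w s) x - ρ s * (w ⬝ᵥ sv x)) s := by
  have e : Ph W ρ w s = fun x => sg (mu W) s (fun z => (W *ᵥ w) ⬝ᵥ sv z) x -
      duh (mu W) 0 (fun u z => ρ u * (w ⬝ᵥ sv z)) s x := funext fun x => Ph_eq W ρ w s x
  simp only [Ph_eq]
  refine ((hasDerivAt_sg hn (mu_pos W) _ x s).sub (hasDerivAt_duh hn (mu_pos W) 0
    (g := fun u z => ρ u * (w ⬝ᵥ sv z)) (fun z => hρ.mul continuous_const) s x)).congr_deriv ?_
  rw [e, gen_sub]; ring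

theorem Yf_zero (hn : 0 < n) (W : Mx n) (ρ : ℝ → ℝ) (w : V n) (x : Cube n) :
    Yf W ρ w 0 x = W *ᵥ w := by rw [Yf, Ph_zero hn, grad_lin]

theorem hasDerivAt_Yf (hn : 0 < n) (W : Mx n) (hρ : Continuous ρ) (w : V n) (s : ℝ) (x : Cube n)
    (i : Fin n) : HasDerivAt (fun u => Yf W ρ w u x i)
      (grad (gen (mu W) (Ph W ρ w s)) x i - ρ s * w i) s := by
  refine (hasDerivAt_grad (hasDerivAt_Ph hn W hρ w s) x i).congr_deriv ?_
  rw [grad_sub, grad_const_mul, grad_lin]; rfl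

theorem cont_Yf (hn : 0 < n) (W : Mx n) (hρ : Continuous ρ) (w : V n) (x : Cube n) (i : Fin n) :
    Continuous fun v => Yf W ρ w v x i :=
  continuous_iff_continuousAt.2 fun s => (hasDerivAt_Yf hn W hρ w s x i).continuousAt

theorem Yf_eq (hn : 0 < n) (W : Mx n) (hρ : Continuous ρ) (w : V n) (v : ℝ) (x : Cube n) (i : Fin n) :
    Yf W ρ w v x i = (Mg W v x *ᵥ (W *ᵥ w)) i - ∫ u in (0 : ℝ)..v, ρ u * (Mg W (v - u) x *ᵥ w) i := by
  have c : ∀ z, Continuous fun u => ρ u * sg (mu W) (v - u) (fun z => w ⬝ᵥ sv z) z := fun z =>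
    hρ.mul ((T157.B.continuous_sg hn (mu_pos W) _ z).comp (continuous_const.sub continuous_id))
  simp only [← grad_sg_lin, Yf, grad_eq, Ph]
  have e : (fun u => ρ u * (sv x i * (sg (mu W) (v - u) (fun z => w ⬝ᵥ sv z) x -
      sg (mu W) (v - u) (fun z => w ⬝ᵥ sv z) (fl x i)) / 2)) = fun u => sv x i / 2 *
      (ρ u * sg (mu W) (v - u) (fun z => w ⬝ᵥ sv z) x -
        ρ u * sg (mu W) (v - u) (fun z => w ⬝ᵥ sv z) (fl x i)) := by funext u; ring
  rw [e, intervalIntegral.integral_const_mul, intervalIntegral.integral_sub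
    ((c _).intervalIntegrable _ _) ((c _).intervalIntegrable _ _)]
  ring

/-- `Yf` is linear in `w` -/
theorem Yf_lin (hn : 0 < n) (W : Mx n) (hρ : Continuous ρ) (w : V n) (v : ℝ) (x : Cube n) (i : Fin n) :
    Yf W ρ w v x i = ∑ k, Yf W ρ (Pi.single k 1) v x i * w k := by
  have c : ∀ k, Continuous fun u => ρ u * Mg W (v - u) x i k * w k := fun k =>
    (hρ.mul ((cont_Mg hn W x i k).comp (continuous_const.sub continuous_id))).mul continuous_const
  simp only [Yf_eq hn W hρ, mulVec_mulVec]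
  simp only [mulVec_single_one, col_apply, sub_mul,
    Finset.sum_sub_distrib, ← intervalIntegral.integral_mul_const]
  rw [← intervalIntegral.integral_finsetSum fun k _ => (c k).intervalIntegrable _ _]
  simp only [mulVec, dotProduct, Finset.mul_sum, mul_assoc]

theorem PT_mulVec (T : Finset (Fin n)) (w : V n) (i : Fin n) :
    (PT T *ᵥ w) i = if i ∈ T then w i else 0 := by
  rw [PT, mulVec_diagonal]; split_ifs <;> simp

theorem nrm_PT (T : Finset (Fin n)) (w : V n) : nrm (PT T *ᵥ w) ≤ nrm w :=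
  sqrt_le_sqrt (Finset.sum_le_sum fun i _ => by
    rw [PT_mulVec]; split_ifs
    · exact le_rfl
    · simpa using mul_self_nonneg _)

theorem Om_mulVec (hn : 0 < n) (W : Mx n) (hρ : Continuous ρ) (T : Finset (Fin n)) (w : V n) (v : ℝ)
    (x : Cube n) : Om W ρ T v x *ᵥ w = Yf W ρ (PT T *ᵥ w) v x := by
  funext i
  rw [Yf_lin hn W hρ, mulVec, dotProduct]
  refine Finset.sum_congr rfl fun k _ => ?_
  rw [PT_mulVec, Om, of_apply]; split_ifs <;> simp

theorem nrm_Yf (K : ℝ) : ∃ C ≥ (1 : ℝ), ∀ (n : ℕ) (W : Mx n) (ρ : ℝ → ℝ), Adm W K ρ →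
    ∀ v, 0 ≤ v → ∀ w x, nrm (Yf W ρ w v x) ≤ C * exp (C * v) * nrm w := by
  obtain ⟨C, C0, h⟩ := opn_Mg K
  refine ⟨|K| + C + 1, by linarith [abs_nonneg K], fun n W ρ a v v0 w x => ?_⟩
  have hM := h n W a.pos a.nice.1 a.nice.2.1
  set Y := Yf W ρ w v x
  have e : Y ⬝ᵥ Y = Y ⬝ᵥ Mg W v x *ᵥ (W *ᵥ w) - ∫ u in (0 : ℝ)..v, ρ u * (Y ⬝ᵥ Mg W (v - u) x *ᵥ w) := by
    have c : ∀ i, Continuous fun u => Y i * (ρ u * (Mg W (v - u) x *ᵥ w) i) := fun i =>
      continuous_const.mul (a.cont.mul ((cont_Mg_vec a.pos W x w i).comp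
        (continuous_const.sub continuous_id)))
    conv_lhs => rw [dotProduct]; enter [2, i, 2]; rw [show Y i = _ from Yf_eq a.pos W a.cont w v x i]
    simp only [mul_sub, Finset.sum_sub_distrib, ← intervalIntegral.integral_const_mul]
    rw [← intervalIntegral.integral_finsetSum fun k _ => (c k).intervalIntegrable _ _]
    simp only [dotProduct, Finset.mul_sum, mul_left_comm]
  have p := mul_nonneg (nrm_nonneg Y) (nrm_nonneg w)
  have b1 : |Y ⬝ᵥ Mg W v x *ᵥ (W *ᵥ w)| ≤ exp (C * v) * (|K| * (nrm Y * nrm w)) := by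
    refine (abs_bil_le _ _ _).trans (mul_le_mul (hM v v0 x) ?_
      (mul_nonneg (nrm_nonneg _) (nrm_nonneg _)) (exp_pos _).le)
    have := (nrm_mulVec_le W w).trans (mul_le_mul_of_nonneg_right (a.nice.2.1.trans (le_abs_self K))
      (nrm_nonneg w))
    nlinarith [nrm_nonneg Y]
  have b2 : ‖∫ u in (0 : ℝ)..v, ρ u * (Y ⬝ᵥ Mg W (v - u) x *ᵥ w)‖ ≤
      exp (C * v) * (nrm Y * nrm w) * |v - 0| := by
    refine intervalIntegral.norm_integral_le_of_norm_le_const fun u hu => ?_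
    rw [uIoc_of_le v0] at hu
    rw [norm_eq_abs, abs_mul, abs_of_nonneg (a.bd u hu.1.le).1]
    refine (mul_le_of_le_one_left (abs_nonneg _) (a.bd u hu.1.le).2).trans
      ((abs_bil_le _ _ _).trans (mul_le_mul_of_nonneg_right ((hM _ (by linarith [hu.2]) x).trans
        (exp_le_exp.2 (by nlinarith [hu.1]))) p))
  rw [norm_eq_abs, sub_zero, abs_of_nonneg v0] at b2
  have b3 : exp (C * v) * (|K| + v) ≤ (|K| + C + 1) * exp ((|K| + C + 1) * v) := by
    have e1 : exp ((|K| + C + 1) * v) = exp (C * v) * exp ((|K| + 1) * v) := by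
      rw [← exp_add]; congr 1; ring
    have e2 := add_one_le_exp ((|K| + 1) * v)
    have e3 := mul_nonneg (abs_nonneg K) v0
    rw [e1, mul_left_comm]
    refine mul_le_mul_of_nonneg_left ?_ (exp_pos _).le
    nlinarith [abs_nonneg K]
  rcases (nrm_nonneg Y).eq_or_lt with z | z
  · rw [← z]; have := nrm_nonneg w; positivity
  refine le_of_mul_le_mul_left ?_ z
  rw [nrm_mul_self, e]
  nlinarith [le_abs_self (Y ⬝ᵥ Mg W v x *ᵥ (W *ᵥ w)), neg_abs_le
    (∫ u in (0 : ℝ)..v, ρ u * (Y ⬝ᵥ Mg W (v - u) x *ᵥ w)), mul_le_mul_of_nonneg_right b3 p]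

theorem opn_Om (K : ℝ) : ∃ C ≥ (1 : ℝ), ∀ (n : ℕ) (W : Mx n) (ρ : ℝ → ℝ), Adm W K ρ →
    ∀ v, 0 ≤ v → ∀ T x, opn (Om W ρ T v x) ≤ C * exp (C * v) := by
  obtain ⟨C, C1, h⟩ := nrm_Yf K
  refine ⟨C, C1, fun n W ρ a v v0 T x => opn_le_of_nrm (by positivity) fun w => ?_⟩
  rw [Om_mulVec a.pos W a.cont]
  exact (h n W ρ a v v0 _ x).trans (mul_le_mul_of_nonneg_left (nrm_PT T w) (by positivity))

theorem row_le (M : Mx n) (i : Fin n) : ∑ k, M i k ^ 2 ≤ opn M ^ 2 := by
  simpa only [opn_transpose, transpose_apply] using row_sq_le Mᵀ i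

/-! ### cavity, occupation times -/

theorem cav_eq (T : Finset (Fin n)) (W : Mx n) : cav T W = PT Tᶜ * W * PT Tᶜ := by
  ext i j
  simp only [cav, PT, of_apply, mul_diagonal, diagonal_mul, Finset.mem_compl]
  by_cases hi : i ∈ T <;> by_cases hj : j ∈ T <;> simp [hi, hj]

theorem opn_PT (T : Finset (Fin n)) : opn (PT T) ≤ 1 :=
  opn_diagonal_le zero_le_one fun i => by split_ifs <;> simp

theorem opn_sand (S T : Finset (Fin n)) (W : Mx n) : opn (PT S * W * PT T) ≤ opn W := by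
  have h1 := opn_mul_le (PT S * W) (PT T)
  have h2 := opn_mul_le (PT S) W
  nlinarith [opn_PT S, opn_PT T, opn_nonneg W, opn_nonneg (PT S * W), opn_nonneg (PT T)]

theorem nice_cav (h : Nice W K) (T : Finset (Fin n)) : Nice (cav T W) K := by
  refine ⟨?_, (cav_eq T W ▸ opn_sand _ _ W).trans h.2.1, fun i =>
    le_trans (Finset.sum_le_sum fun k _ => ?_) (h.2.2 i)⟩
  · ext i j
    simp only [cav, transpose_apply, of_apply, or_comm]
    rw [← h.1, transpose_apply, h.1]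
  · rw [cav, of_apply]; split_ifs
    · simpa using by positivity
    · exact le_rfl

theorem nice_mono (h : Nice W K) {K' : ℝ} (hK : K ≤ K') : Nice W K' :=
  ⟨h.1, h.2.1.trans hK, fun i => (h.2.2 i).trans (div_le_div_of_nonneg_right
    (pow_le_pow_left₀ ((opn_nonneg W).trans h.2.1) hK 4) (Nat.cast_nonneg n))⟩

theorem ind_nn (B : Set (Cube n)) (x : Cube n) : 0 ≤ B.indicator (1 : Cube n → ℝ) x :=
  indicator_nonneg (fun _ _ => zero_le_one) x

theorem oc_nn (hn : 0 < n) (W : Mx n) (B : Set (Cube n)) {τ : ℝ} (hτ : 0 ≤ τ) (x : Cube n) :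
    0 ≤ oc W B τ x :=
  intervalIntegral.integral_nonneg hτ fun _ hu => sg_nonneg hn (mu_pos W) hu.1 (ind_nn B) x

theorem oc_mono (hn : 0 < n) (W : Mx n) {B B' : Set (Cube n)} (h : B ⊆ B') {τ τ' : ℝ} (hτ : 0 ≤ τ)
    (hτ' : τ ≤ τ') (x : Cube n) : oc W B τ x ≤ oc W B' τ' x := by
  have c := fun B : Set (Cube n) => T157.B.continuous_sg hn (mu_pos W) (B.indicator 1) x
  refine le_trans (intervalIntegral.integral_mono_on hτ ((c B).intervalIntegrable _ _)
    ((c B').intervalIntegrable _ _) fun u hu => sg_mono hn (mu_pos W) hu.1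
      (fun z => indicator_le_indicator_of_subset h (fun _ => zero_le_one) z) x) ?_
  exact intervalIntegral.integral_mono_interval le_rfl hτ hτ'
    ((ae_restrict_mem measurableSet_Ioc).mono fun u hu => sg_nonneg hn (mu_pos W) hu.1.le (ind_nn B') x)
    ((c B').intervalIntegrable _ _)

theorem oc_empty (W : Mx n) (τ : ℝ) (x : Cube n) : oc W ∅ τ x = 0 := by simp [oc, sg]

theorem mass_eq (w : Cube n → ℝ) (B : Set (Cube n)) : mass w B = mean (prob w) (B.indicator 1) := by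
  classical
  rw [mass, mean, Finset.sum_filter]
  refine Finset.sum_congr rfl fun x _ => ?_
  by_cases h : x ∈ B <;> simp [h]



theorem mass_union {w : Cube n → ℝ} (hw : ∀ x, 0 < w x) (A B : Set (Cube n)) :
    mass w (A ∪ B) ≤ mass w A + mass w B := by
  rw [mass_eq, mass_eq, mass_eq, mean, mean, mean, ← Finset.sum_add_distrib]
  refine Finset.sum_le_sum fun x _ => ?_
  rw [← mul_add]
  refine mul_le_mul_of_nonneg_left ?_ ((isP_prob' hw).nn x)
  by_cases a : x ∈ A <;> by_cases b : x ∈ B <;> simp [a, b]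

theorem mean_oc (hn : 0 < n) (W : Mx n) (B : Set (Cube n)) (τ : ℝ) :
    mean (prob (mu W)) (oc W B τ) = τ * mass (mu W) B := by
  have c := fun x => T157.B.continuous_sg hn (mu_pos W) (B.indicator 1) x
  simp only [mean, oc, ← intervalIntegral.integral_const_mul]
  rw [← intervalIntegral.integral_finsetSum
    (f := fun x s => prob (mu W) x * sg (mu W) s (B.indicator 1) x) fun x _ =>
    (continuous_const.mul (c x)).intervalIntegrable _ _]
  have e : ∀ s, ∑ x, prob (mu W) x * sg (mu W) s (B.indicator 1) x = mass (mu W) B := fun s =>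
    (mean_sg' hn (mu_pos W) s _).trans (mass_eq _ _).symm
  simp [e]

/-- **layers** -/
theorem lay (hn : 0 < n) (W : Mx n) (B : Set (Cube n)) {τ δ : ℝ} (hτ : 0 ≤ τ) (hδ : 0 < δ) :
    mass (mu W) (B ∪ {x | δ < oc W B τ x}) ≤ (1 + τ / δ) * mass (mu W) B := by
  refine (mass_union (mu_pos W) _ _).trans ?_
  have : δ * mass (mu W) {x | δ < oc W B τ x} ≤ τ * mass (mu W) B := by
    rw [← mean_oc hn W B τ, mass_eq, mean, mean, Finset.mul_sum]
    refine Finset.sum_le_sum fun x _ => ?_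
    rw [mul_left_comm]
    refine mul_le_mul_of_nonneg_left ?_ ((isP_prob' (mu_pos W)).nn x)
    by_cases h : δ < oc W B τ x
    · simpa [h] using h.le
    · simpa [h] using oc_nn hn W B hτ x
  rw [add_mul, one_mul, div_mul_eq_mul_div]
  exact add_le_add le_rfl ((le_div_iff₀' hδ).2 this)

/-! ### stacked Hessians -/

theorem Xs_eq (W : Mx n) (ρ : ℝ → ℝ) (T : Finset (Fin n)) (v : ℝ) (x : Cube n) : Xs W ρ T v x =
    St (fun k => if k ∈ T then Ph W ρ (Pi.single k 1) v else fun _ => 0) x := by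
  ext p j
  simp only [Xs, St, of_apply]
  split_ifs
  · rfl
  · simp [grad_const]

/-- SHs for the family `Ph` -/
theorem xs_le (h : SHsStmt) (K : ℝ) : ∃ C ≥ (1 : ℝ), ∀ (n : ℕ) (W : Mx n) (ρ : ℝ → ℝ), Adm W K ρ →
    ∀ (T : Finset (Fin n)) (τ r Λ : ℝ) (B : Set (Cube n)),
    (∀ s ∈ Icc 0 τ, ∀ x i, ∑ k, Om W ρ T s x i k ^ 2 ≤ Λ ^ 2 ∧
      (x ∉ B → ∑ k, Om W ρ T s x i k ^ 2 ≤ r ^ 2)) →
    ∀ v ∈ Icc 0 τ, ∀ x, opn (Xs W ρ T v x) ^ 4 ≤ C * exp (C * τ) * (r ^ 4 + Λ ^ 4 * oc W B τ x) := by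
  obtain ⟨C, C1, h⟩ := h K
  refine ⟨C, C1, fun n W ρ a T τ r Λ B hr v hv x => ?_⟩
  rw [Xs_eq]
  refine h n W a.pos a.nice (fun v k => if k ∈ T then Ph W ρ (Pi.single k 1) v else fun _ => 0)
    (fun s k => if k ∈ T then -ρ s • Pi.single k 1 else 0) τ r Λ B (fun s k x => ?_) (fun x => ?_)
    (fun s hs x i => ?_) v hv x
  · split_ifs
    · refine (hasDerivAt_Ph a.pos W a.cont _ s x).congr_deriv ?_
      rw [smul_dotProduct, smul_eq_mul]; ring
    · simpa [gen, siteM] using hasDerivAt_const s (0 : ℝ)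
  · ext p j
    simp only [St, of_apply]
    split_ifs
    · simp [Ph_zero a.pos, grad_lin, grad_const]
    · simp [grad_const]
  · have e : ∀ k, grad (if k ∈ T then Ph W ρ (Pi.single k 1) s else fun _ => 0) x i =
        Om W ρ T s x i k := fun k => by
      rw [Om, of_apply]; split_ifs
      · rfl
      · simp [grad_const]
    simpa only [e] using hr s hs x i

theorem cGlue : CGlue := fun h K => by
  obtain ⟨C, C1, h1⟩ := opn_Om K
  obtain ⟨D, D1, h2⟩ := xs_le h K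
  refine ⟨D * C + D + C, by nlinarith, fun n W ρ a v v0 T x => ?_⟩
  have m : C * exp (C * v) * (D * exp (D * v)) ≤ (D * C + D + C) * exp ((D * C + D + C) * v) := by
    rw [mul_mul_mul_comm, ← exp_add]
    have : 0 ≤ D * C * v := by positivity
    exact mul_le_mul (by nlinarith) (exp_le_exp.2 (by nlinarith)) (exp_pos _).le (by positivity)
  have d1 : 1 ≤ D * exp (D * v) := one_le_mul_of_one_le_of_one_le D1 (one_le_exp (by positivity))
  have p : 0 < C * exp (C * v) := by positivity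
  refine ⟨(h1 n W ρ a v v0 T x).trans (le_trans (by nlinarith) m), le_trans ?_ m⟩
  have r : ∀ s ∈ Icc 0 v, ∀ x i, ∑ k, Om W ρ T s x i k ^ 2 ≤ (C * exp (C * v)) ^ 2 := fun s hs x i =>
    (row_le _ i).trans (pow_le_pow_left₀ (opn_nonneg _) ((h1 n W ρ a s hs.1 T x).trans
      (by gcongr; exact hs.2)) 2)
  have := h2 n W ρ a T v _ _ ∅ (fun s hs x i => ⟨r s hs x i, fun _ => r s hs x i⟩) v ⟨v0, le_rfl⟩ x
  rw [oc_empty, mul_zero, add_zero] at this
  refine le_of_pow_le_pow_left₀ four_ne_zero (by positivity) (this.trans ?_)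
  rw [mul_pow (C * exp (C * v)), mul_comm]
  exact mul_le_mul_of_nonneg_left (le_self_pow₀ d1 four_ne_zero) (by positivity)

end Crest.Agent.T157.S6

end
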