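import Crest.Agent.T157.S6Cmp_20
import Crest.Agent.T157.RegBas_66
import Crest.Agent.T157.RegCoef_54
import Crest.Agent.T157.S6Ho_47
import Crest.Agent.T157.S6Fl_47
import Crest.Agent.T157.S6PL_20
import Crest.Agent.T157.S6Def_93
import Crest.Agent.T157.S6Mh_68
import Crest.Agent.T157.S6Lp_28
import Crest.Agent.T157.EigN_84
import Crest.Agent.T157.S6DefC_93
import Crest.Agent.T157.S6Eq_20

-- ▼ part T157/S6Hk_28
section

/-!
# Row 157, block S6 (helper28): decay in `L^{3/2}` and `L^2` under a change of rates, edge Harnack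
-/

set_option autoImplicit false

noncomputable section

namespace Crest.Agent.T157.S6k

open Real Set Filter Topology
open Crest.Agent.T157.E Crest.Agent.T157.Rec Crest.Agent.T157.S6b
open Crest.Agent.T157.Chain22 (sg sg_add sg_zero hasDerivAt_sg)

/-- `|u| ^ (3/2)` -/
def ph (u : ℝ) : ℝ := |u| * √|u|

/-- the price of a change of rate in `L^{3/2}` -/
def cst (r r' : ℝ) : ℝ := (r' - r) ^ 2 * (2 * r + r') / (2 * r ^ 2)

theorem ph_nn (u : ℝ) : 0 ≤ ph u := mul_nonneg (abs_nonneg _) (sqrt_nonneg _)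

theorem continuous_ph : Continuous ph := continuous_abs.mul (continuous_sqrt.comp continuous_abs)

theorem ph_rpow (u : ℝ) : ph u = |u| ^ (3 / 2 : ℝ) := by
  rw [ph, sqrt_eq_rpow, show (3 / 2 : ℝ) = 1 + 1 / 2 by norm_num,
    rpow_add' (abs_nonneg u) (by norm_num), rpow_one]

theorem ph_mul_abs (p : ℝ) : ph (p * |p|) = |p| ^ 3 := by
  rw [ph, abs_mul, abs_abs, sqrt_mul_self (abs_nonneg p)]; ring

theorem exists_root (u : ℝ) : ∃ p, p * |p| = u := by
  rcases le_total 0 u with h | h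
  · exact ⟨√u, by rw [abs_of_nonneg (sqrt_nonneg _), mul_self_sqrt h]⟩
  · refine ⟨-√(-u), ?_⟩
    rw [abs_neg, abs_of_nonneg (sqrt_nonneg _), neg_mul, mul_self_sqrt (by linarith), neg_neg]




/-- Young's inequality for the pair `(3/2, 3)` -/
theorem young (v y : ℝ) : 3 / 2 * (v * y) - |y| ^ 3 / 2 ≤ ph v := by
  obtain ⟨p, rfl⟩ := exists_root v
  rw [ph_mul_abs]
  have h : p * |p| * y ≤ |p| ^ 2 * |y| := by
    refine (le_abs_self _).trans (le_of_eq ?_)
    rw [abs_mul, abs_mul, abs_abs]; ring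
  nlinarith [mul_nonneg (sq_nonneg (|p| - |y|)) (add_nonneg (abs_nonneg p)
    (add_nonneg (abs_nonneg p) (abs_nonneg y)))]

theorem young' (d v : ℝ) {θ : ℝ} (hθ : 0 < θ) :
    d * v ≤ 2 / 3 * θ * ph v + 1 / 3 * (θ ^ 2)⁻¹ * |d| ^ 3 := by
  have h := young v (d / θ)
  rw [abs_div, abs_of_pos hθ, div_pow] at h
  have := mul_le_mul_of_nonneg_left h hθ.le
  have e : θ * (3 / 2 * (v * (d / θ)) - |d| ^ 3 / θ ^ 3 / 2) =
      3 / 2 * (d * v) - 1 / 2 * (θ ^ 2)⁻¹ * |d| ^ 3 := by field_simp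
  rw [e] at this
  linarith

/-- convexity -/
theorem ph_conv {r : ℝ} (h0 : 0 ≤ r) (h1 : r ≤ 1) (u v : ℝ) :
    ph (u + r * (v - u)) ≤ (1 - r) * ph u + r * ph v := by
  obtain ⟨p, hp⟩ := exists_root (u + r * (v - u))
  have a := mul_le_mul_of_nonneg_left (young u p) (sub_nonneg.2 h1)
  have b := mul_le_mul_of_nonneg_left (young v p) h0
  have c : (u + r * (v - u)) * p = |p| ^ 3 := by
    rw [← hp, mul_right_comm, ← abs_mul_abs_self]; ring
  rw [← hp, ph_mul_abs]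
  nlinarith

/-- the jump inequality -/
theorem jump {r r' : ℝ} (hr : 0 < r) (hr' : 0 ≤ r') (p v : ℝ) :
    3 / 2 * p * (r' * (v - p * |p|)) ≤ r * (ph v - ph (p * |p|)) + cst r r' * ph (p * |p|) := by
  have h := mul_le_mul_of_nonneg_left (young v (r' / r * p)) hr.le
  rw [abs_mul, abs_of_nonneg (div_nonneg hr' hr.le)] at h
  have c : p * (p * |p|) = |p| ^ 3 := by rw [← mul_assoc, ← abs_mul_abs_self]; ring
  rw [ph_mul_abs, cst]
  have e : r * (3 / 2 * (v * (r' / r * p)) - (r' / r * |p|) ^ 3 / 2) =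
      3 / 2 * (r' * (v * p)) - r' ^ 3 / (2 * r ^ 2) * |p| ^ 3 := by field_simp
  have e2 : (r' - r) ^ 2 * (2 * r + r') / (2 * r ^ 2) = r' ^ 3 / (2 * r ^ 2) - 3 / 2 * r' + r := by
    field_simp; ring
  rw [e] at h
  rw [e2]
  have e3 : 3 / 2 * p * (r' * (v - p * |p|)) = 3 / 2 * (r' * (v * p)) - 3 / 2 * r' * |p| ^ 3 := by
    rw [← c]; ring
  rw [e3]
  nlinarith

theorem jump2 {r : ℝ} (hr : 0 < r) (r' u v : ℝ) :
    2 * u * (r' * (v - u)) ≤ r * (v ^ 2 - u ^ 2) + (r' - r) ^ 2 / r * u ^ 2 := by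
  have e : r * (v ^ 2 - u ^ 2) + (r' - r) ^ 2 / r * u ^ 2 - 2 * u * (r' * (v - u)) =
      (r * (v - u) - (r' - r) * u) ^ 2 / r := by field_simp; ring
  have : 0 ≤ (r * (v - u) - (r' - r) * u) ^ 2 / r := by positivity
  linarith

theorem tch_ph {U : ℝ → ℝ} {U' s p : ℝ} (h : HasDerivAt U U' s) (hp : p * |p| = U s) :
    Tch (fun u => ph (U u)) s (3 / 2 * p * U') := by
  refine ⟨fun u => 3 / 2 * (U u * p) - |p| ^ 3 / 2, 3 / 2 * (U' * p),
    ((h.mul_const p).const_mul _).sub_const _, ?_, Eventually.of_forall fun u => young _ _,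
    le_of_eq (by ring)⟩
  have c : p * |p| * p = |p| ^ 3 := by rw [mul_right_comm, ← abs_mul_abs_self]; ring
  simp only [← hp, ph_mul_abs, c]; ring

theorem sq_div_le {r r' b : ℝ} (h0 : 0 < r) (h1 : r < 1) (h : |r' - r| ≤ b * (4 * r * (1 - r))) :
    (r' - r) ^ 2 / r ≤ 64 / 27 * b ^ 2 := by
  rw [div_le_iff₀ h0]
  have a : (r' - r) ^ 2 ≤ (b * (4 * r * (1 - r))) ^ 2 := by
    rw [← sq_abs]; exact pow_le_pow_left₀ (abs_nonneg _) h 2
  have c : r * (1 - r) ^ 2 ≤ 4 / 27 := by nlinarith [mul_nonneg (sq_nonneg (r - 1 / 3)) (by linarith : (0 : ℝ) ≤ 4 / 3 - r)]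
  have := mul_le_mul_of_nonneg_left c (by positivity : 0 ≤ 16 * b ^ 2 * r)
  nlinarith

theorem cst_le {r r' b : ℝ} (h0 : 0 < r) (h1 : r < 1) (hb : 0 ≤ b)
    (h : |r' - r| ≤ b * (4 * r * (1 - r))) : cst r r' ≤ (3 / 2 + 2 * b) * (64 / 27 * b ^ 2) := by
  have a := sq_div_le h0 h1 h
  have e : cst r r' = (2 * r + r') / (2 * r) * ((r' - r) ^ 2 / r) := by rw [cst]; field_simp
  have c : (2 * r + r') / (2 * r) ≤ 3 / 2 + 2 * b := by
    rw [div_le_iff₀ (by positivity)]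
    have := (abs_le.1 h).2
    nlinarith [mul_nonneg hb (sq_nonneg r)]
  rw [e]
  exact mul_le_mul c a (by positivity) (by positivity)

theorem cst_self (r : ℝ) : cst r r = 0 := by simp [cst]

variable {n : ℕ} {w : Cube n → ℝ} {r r' : Cube n → Fin n → ℝ}

/-- `r` are the flip rates of the heat bath of `w` -/
structure Rt (w : Cube n → ℝ) (r : Cube n → Fin n → ℝ) : Prop where
  wpos : ∀ x, 0 < w x
  pos : ∀ x j, 0 < r x j
  lt : ∀ x j, r x j < 1
  flip : ∀ x j, r (fl x j) j = 1 - r x j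
  gen : ∀ F x, gen w F x = ∑ j, r x j * (F (fl x j) - F x)

/-- **decay in `L^{3/2}`** of a flow with other rates -/
theorem dec32 (hn : 0 < n) (h : Rt w r) (hr' : ∀ x j, 0 ≤ r' x j) {A : ℝ → Cube n → ℝ} {c l : ℝ}
    (hA : ∀ s x, HasDerivAt (fun u => A u x)
      (∑ j, r' x j * (A s (fl x j) - A s x) - l * A s x) s)
    (hc : ∀ x, ∑ j, cst (r x j) (r' x j) ≤ c) {s : ℝ} (hs : 0 ≤ s) (x : Cube n) :
    ph (A s x) ≤ exp ((c - 3 / 2 * l) * s) * sg w s (fun z => ph (A 0 z)) x := by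
  refine cmp0 hn h.wpos (Φ := fun u z => ph (A u z)) (T := s) (fun z => (continuous_ph.comp
    (continuous_iff_continuousAt.2 fun u => (hA u z).continuousAt)).continuousOn)
    (fun u _ z => ?_) s ⟨hs, le_rfl⟩ x
  obtain ⟨p, hp⟩ := exists_root (A u z)
  refine (tch_ph (hA u z) hp).mono ?_
  have c3 : p * (p * |p|) = ph (p * |p|) := by
    rw [ph_mul_abs, ← mul_assoc, ← abs_mul_abs_self]; ring
  have k : ∑ j, 3 / 2 * p * (r' z j * (A u (fl z j) - p * |p|)) ≤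
      ∑ j, (r z j * (ph (A u (fl z j)) - ph (p * |p|)) + cst (r z j) (r' z j) * ph (p * |p|)) :=
    Finset.sum_le_sum fun j _ => jump (h.pos z j) (hr' z j) p _
  rw [Finset.sum_add_distrib, ← Finset.mul_sum, ← Finset.sum_mul] at k
  have k2 := mul_le_mul_of_nonneg_right (hc z) (ph_nn (p * |p|))
  have c4 : l * (p * (p * |p|)) = l * ph (p * |p|) := by rw [c3]
  rw [h.gen, ← hp]
  linarith

/-- **decay in `L^2`** of a flow with other rates -/
theorem dec2 (hn : 0 < n) (h : Rt w r) {A : ℝ → Cube n → ℝ} {c l : ℝ}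
    (hA : ∀ s x, HasDerivAt (fun u => A u x)
      (∑ j, r' x j * (A s (fl x j) - A s x) - l * A s x) s)
    (hc : ∀ x, ∑ j, (r' x j - r x j) ^ 2 / r x j ≤ c) {s : ℝ} (hs : 0 ≤ s) (x : Cube n) :
    A s x ^ 2 ≤ exp ((c - 2 * l) * s) * sg w s (fun z => A 0 z ^ 2) x := by
  refine cmp0 hn h.wpos (Φ := fun u z => A u z ^ 2) (T := s) (fun z => ((continuous_iff_continuousAt.2
    fun u => (hA u z).continuousAt).pow 2).continuousOn) (fun u _ z => ?_) s ⟨hs, le_rfl⟩ x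
  refine Tch.of_deriv ((hA u z).pow 2) ?_
  have k : ∑ j, 2 * A u z * (r' z j * (A u (fl z j) - A u z)) ≤
      ∑ j, (r z j * (A u (fl z j) ^ 2 - A u z ^ 2) + (r' z j - r z j) ^ 2 / r z j * A u z ^ 2) :=
    Finset.sum_le_sum fun j _ => jump2 (h.pos z j) _ _ _
  rw [Finset.sum_add_distrib, ← Finset.mul_sum, ← Finset.sum_mul] at k
  have k2 := mul_le_mul_of_nonneg_right (hc z) (sq_nonneg (A u z))
  rw [h.gen]
  norm_num
  nlinarith

/-- Jensen -/
theorem ph_sg (hn : 0 < n) (h : Rt w r) (F : Cube n → ℝ) {s : ℝ} (hs : 0 ≤ s) (x : Cube n) :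
    ph (sg w s F x) ≤ sg w s (fun z => ph (F z)) x := by
  have := dec32 hn h (r' := r) (fun x j => (h.pos x j).le) (A := fun u => sg w u F) (c := 0) (l := 0)
    (fun s x => (hasDerivAt_sg hn h.wpos F x s).congr_deriv (by rw [h.gen]; ring))
    (fun x => by simp [cst_self]) hs x
  simpa [sg_zero hn h.wpos] using this

theorem fl_fl (x : Cube n) (k : Fin n) : fl (fl x k) k = x := by
  funext i; by_cases e : i = k
  · subst e; simp [fl]
  · simp [fl, Function.update_of_ne e]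

theorem fl_comm (x : Cube n) (j k : Fin n) : fl (fl x j) k = fl (fl x k) j := by
  by_cases e : j = k
  · rw [e]
  · funext i
    by_cases a : i = k
    · subst a; simp [fl, Function.update_of_ne (Ne.symm e), Function.update_of_ne e]
    · by_cases b : i = j
      · subst b; simp [fl, Function.update_of_ne a]
      · simp [fl, Function.update_of_ne a, Function.update_of_ne b]

/-- **edge Harnack inequality** -/
theorem harnack (hn : 0 < n) (h : Rt w r) {k : Fin n} {a K : ℝ} (ha : 0 ≤ a) (hK : 1 ≤ K * (1 - a))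
    (ha1 : a < 1) (hc : ∀ x, ∑ j ∈ Finset.univ.erase k, cst (r x j) (r (fl x k) j) ≤ a)
    {F : Cube n → ℝ} (hF : ∀ x, F (fl x k) = F x) {s : ℝ} (hs : 0 ≤ s) (x : Cube n) :
    ph (sg w s F (fl x k)) ≤ K * sg w s (fun z => ph (F z)) x := by
  have K1 : 1 + a ≤ K := by
    by_contra hh
    have : K * (1 - a) < (1 + a) * (1 - a) := mul_lt_mul_of_pos_right (lt_of_not_ge hh) (by linarith)
    nlinarith
  have K0 : 0 ≤ K := by linarith
  refine sub_nonpos.1 (maxp (D := fun u z => ph (sg w u F (fl z k)) - K * sg w u (fun z => ph (F z)) z)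
    (T := s) (C := 0) (fun z => ((continuous_ph.comp (continuous_iff_continuousAt.2 fun u =>
      (hasDerivAt_sg hn h.wpos F _ u).continuousAt)).sub (continuous_const.mul
      (continuous_iff_continuousAt.2 fun u =>
        (hasDerivAt_sg hn h.wpos _ z u).continuousAt))).continuousOn)
    (fun u hu z hm hp => ?_) (fun z => ?_) s ⟨hs, le_rfl⟩ x)
  swap
  · simp only [sg_zero hn h.wpos, hF]
    nlinarith [ph_nn (F z)]
  set U := sg w u F with hU
  set G := sg w u (fun z => ph (F z)) with hG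
  have J : ∀ z, ph (U z) ≤ G z := fun z => ph_sg hn h F hu.1.le z
  obtain ⟨p, hp'⟩ := exists_root (U (fl z k))
  have t := (tch_ph (hasDerivAt_sg hn h.wpos F (fl z k) u) hp').add
    (Tch.of_deriv ((hasDerivAt_sg hn h.wpos (fun z => ph (F z)) z u).const_mul K).neg le_rfl)
  refine (t.mono ?_).of_le (by simp [sub_eq_add_neg]) (Eventually.of_forall fun u => by
    simp [sub_eq_add_neg])
  rw [h.gen, h.gen, ← hU, ← hG, ← Finset.add_sum_erase _ _ (Finset.mem_univ k),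
    ← Finset.add_sum_erase _ _ (Finset.mem_univ k), fl_fl, h.flip]
  have k1 : ∑ j ∈ Finset.univ.erase k, 3 / 2 * p * (r (fl z k) j * (U (fl (fl z k) j) - p * |p|)) ≤
      ∑ j ∈ Finset.univ.erase k, (r z j * (ph (U (fl (fl z k) j)) - ph (p * |p|)) +
        cst (r z j) (r (fl z k) j) * ph (p * |p|)) :=
    Finset.sum_le_sum fun j _ => jump (h.pos z j) (h.pos _ j).le p _
  have k2 : ∑ j ∈ Finset.univ.erase k, r z j * (ph (U (fl (fl z k) j)) - ph (p * |p|)) ≤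
      ∑ j ∈ Finset.univ.erase k, K * (r z j * (G (fl z j) - G z)) :=
    Finset.sum_le_sum fun j _ => by
      have := hm (fl z j)
      simp only [fl_comm z j k] at this
      rw [hp']
      nlinarith [h.pos z j]
  rw [Finset.sum_add_distrib, ← Finset.mul_sum, ← Finset.sum_mul] at k1
  rw [← Finset.mul_sum] at k2
  have k3 := mul_le_mul_of_nonneg_right (hc z) (ph_nn (p * |p|))
  have r0 := h.pos z k
  have r1 := h.lt z k
  have k4 := jump (r := 1 - r z k) (r' := 1 - r z k) (by linarith) (by linarith) p (U z)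
  rw [cst_self] at k4
  rw [← hp'] at hp ⊢
  have j1 := J z
  have j2 := J (fl z k)
  rw [← hp'] at j2
  set P := ph (p * |p|)
  have g0 : 0 ≤ G z := (ph_nn _).trans j1
  -- `P > K G z`
  have q1 : 0 ≤ K * r z k * (G (fl z k) - P) := mul_nonneg (mul_nonneg K0 r0.le) (by linarith)
  have q2 : 0 ≤ (1 - r z k) * (G z - ph (U z)) := mul_nonneg (by linarith) (by linarith)
  have c1 : 0 ≤ K * r z k + 1 - r z k - a := by nlinarith
  have q3 : 0 ≤ (K * r z k + 1 - r z k - a) * (P - K * G z) := mul_nonneg c1 (by linarith)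
  have c2 : 0 ≤ K ^ 2 * r z k + K * (1 - 2 * r z k - a) - (1 - r z k) := by
    have b1 : 0 ≤ (1 - r z k) * (K * (1 - a) - 1) := mul_nonneg (by linarith) (by linarith)
    have b2 : 0 ≤ r z k * (K * (K - (1 + a))) := mul_nonneg r0.le (mul_nonneg K0 (by linarith))
    nlinarith
  have q4 := mul_nonneg c2 g0
  nlinarith

theorem harnack' (hn : 0 < n) (h : Rt w r) {k : Fin n} {a K : ℝ} (ha : 0 ≤ a) (hK : 1 ≤ K * (1 - a))
    (ha1 : a < 1) (hc : ∀ x, ∑ j ∈ Finset.univ.erase k, cst (r x j) (r (fl x k) j) ≤ a)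
    {F : Cube n → ℝ} (hF : ∀ x, F (fl x k) = F x) {s : ℝ} (hs : 0 ≤ s) (x : Cube n) {θ : ℝ}
    (h0 : 0 ≤ θ) (h1 : θ ≤ 1) :
    ph (sg w s F x + θ * (sg w s F (fl x k) - sg w s F x)) ≤ K * sg w s (fun z => ph (F z)) x := by
  have a1 := harnack hn h ha hK ha1 hc hF hs x
  have a2 := ph_sg hn h F hs x
  have K1 : 1 ≤ K := by
    by_contra hh
    have := lt_of_not_ge hh
    rcases le_total 0 K with k0 | k0 <;> nlinarith
  have g0 := (ph_nn _).trans a2
  have a3 := ph_conv h0 h1 (sg w s F x) (sg w s F (fl x k))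
  nlinarith [mul_le_mul_of_nonneg_left a1 h0, mul_le_mul_of_nonneg_left a2 (sub_nonneg.2 h1),
    mul_nonneg (mul_nonneg (sub_nonneg.2 h1) (sub_nonneg.2 K1)) g0]

/-! ### the Ising rates -/

section ising
open Matrix
open Crest.Agent.T157.Tap (V Mx)
open Crest.Agent.T157.Reg (mu Tk)
open Crest.Agent.T157.Da.Gr
variable {W : Mx n}

theorem abs_sv (x : Cube n) (i : Fin n) : |sv x i| = 1 :=
  (abs_eq zero_le_one).2 (mul_self_eq_one_iff.1 (sv_mul_self x i))

theorem rt_mu (hW : Wᵀ = W) : Rt (mu W) (Tk W) := by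
  have st : ∀ (x : Cube n) k, |sv x k * tt W 0 x k| < 1 := fun x k => by
    rw [abs_mul, abs_sv, one_mul]; exact abs_tanh_lt_one _
  refine ⟨Reg.Bas66.mu_pos W, fun x j => ?_, fun x j => ?_, fun x j => ?_, Reg.Bas66.gen_eq hW⟩
  · have := abs_lt.1 (st x j); rw [Tk]; linarith
  · have := abs_lt.1 (st x j); rw [Tk]; linarith
  · rw [Tk, Tk, Reg.Bas66.tt_fl, Reg.Bas66.sv_fl_self]; ring

theorem four_Tk (x : Cube n) (j : Fin n) : 4 * Tk W x j * (1 - Tk W x j) = 1 - tt W 0 x j ^ 2 := by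
  rw [Tk]; linear_combination (-(tt W 0 x j) ^ 2) * sv_mul_self x j

theorem abs_Tk_fl (hW : Wᵀ = W) (x : Cube n) {k j : Fin n} (e : j ≠ k) :
    |Tk W (fl x k) j - Tk W x j| ≤
      exp (4 * |W k j|) * |W k j| * (4 * Tk W x j * (1 - Tk W x j)) := by
  have s : W j k = W k j := by rw [← congrFun (congrFun hW k) j, transpose_apply]
  have l1 : tt W 0 (fl x k) j = tanh (loc W 0 x j - 2 * sv x k * W k j) := by
    rw [tt, loc_fl, if_neg e.symm, s]
  have c : |2 * sv x k * W k j| = 2 * |W k j| := by rw [abs_mul, abs_mul, abs_sv, abs_two, mul_one]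
  have a := Reg.Coef54.a1 (loc W 0 x j) (2 * sv x k * W k j)
  rw [c, ← l1] at a
  have e2 : Tk W (fl x k) j - Tk W x j = -(sv x j * (tt W 0 (fl x k) j - tt W 0 x j)) / 2 := by
    rw [Tk, Tk, sv_fl_ne x e]; ring
  rw [four_Tk, e2, abs_div, abs_neg, abs_mul, abs_sv, one_mul, abs_two]
  have e3 : exp (2 * (2 * |W k j|)) = exp (4 * |W k j|) := by congr 1; ring
  rw [e3] at a
  change |tt W 0 (fl x k) j - tt W 0 x j| ≤ _ * (_ * (1 - tt W 0 x j ^ 2)) at a
  linarith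

/-- the constant `c⋆` -/
def cs (e b2 : ℝ) : ℝ := 64 / 27 * (exp (8 * e) * b2)

theorem sum_b_le {k : Fin n} {e b2 : ℝ} (he : ∀ j, |W k j| ≤ e) (hb : ∑ j, W k j ^ 2 ≤ b2) :
    ∑ j ∈ Finset.univ.erase k, 64 / 27 * (exp (4 * |W k j|) * |W k j|) ^ 2 ≤ cs e b2 := by
  rw [← Finset.mul_sum, cs]
  refine mul_le_mul_of_nonneg_left ?_ (by norm_num)
  calc _ ≤ ∑ j ∈ Finset.univ.erase k, exp (8 * e) * W k j ^ 2 := Finset.sum_le_sum fun j _ => by
        rw [mul_pow, sq_abs, sq, ← exp_add]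
        exact mul_le_mul_of_nonneg_right (exp_le_exp.2 (by linarith [he j])) (sq_nonneg _)
    _ ≤ _ := by
        rw [← Finset.mul_sum]
        exact mul_le_mul_of_nonneg_left ((Finset.sum_le_sum_of_subset_of_nonneg
          (Finset.subset_univ _) fun j _ _ => sq_nonneg _).trans hb) (exp_pos _).le

theorem sum_sq_le (hW : Wᵀ = W) {k : Fin n} {e b2 : ℝ} (he : ∀ j, |W k j| ≤ e)
    (hb : ∑ j, W k j ^ 2 ≤ b2) (x : Cube n) {ρ : Fin n → ℝ} (hρ : ∀ j, j ≠ k → |ρ j - Tk W x j| ≤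
      exp (4 * |W k j|) * |W k j| * (4 * Tk W x j * (1 - Tk W x j))) :
    ∑ j ∈ Finset.univ.erase k, (ρ j - Tk W x j) ^ 2 / Tk W x j ≤ cs e b2 :=
  (Finset.sum_le_sum fun j hj => sq_div_le ((rt_mu hW).pos x j) ((rt_mu hW).lt x j)
    (hρ j (Finset.ne_of_mem_erase hj))).trans (sum_b_le he hb)

theorem sum_cst_le (hW : Wᵀ = W) {k : Fin n} {e b2 : ℝ} (he : ∀ j, |W k j| ≤ e)
    (hb : ∑ j, W k j ^ 2 ≤ b2) (x : Cube n) {ρ : Fin n → ℝ} (hρ : ∀ j, j ≠ k → |ρ j - Tk W x j| ≤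
      exp (4 * |W k j|) * |W k j| * (4 * Tk W x j * (1 - Tk W x j))) :
    ∑ j ∈ Finset.univ.erase k, cst (Tk W x j) (ρ j) ≤ (3 / 2 + 2 * (exp (4 * e) * e)) * cs e b2 := by
  have e0 : 0 ≤ e := (abs_nonneg _).trans (he k)
  refine le_trans ?_ (mul_le_mul_of_nonneg_left (sum_b_le he hb) (by positivity))
  rw [Finset.mul_sum]
  refine Finset.sum_le_sum fun j hj => (cst_le ((rt_mu hW).pos x j) ((rt_mu hW).lt x j)
    (by positivity) (hρ j (Finset.ne_of_mem_erase hj))).trans ?_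
  have : exp (4 * |W k j|) * |W k j| ≤ exp (4 * e) * e :=
    mul_le_mul (exp_le_exp.2 (by linarith [he j])) (he j) (abs_nonneg _) (exp_pos _).le
  exact mul_le_mul_of_nonneg_right (by linarith) (by positivity)

/-- **(HK)** for the Ising heat bath; `θ = Tk W x k` is the heat bath average at `k` -/
theorem hk_mu (hn : 0 < n) (hW : Wᵀ = W) {k : Fin n} {e b2 a K : ℝ} (he : ∀ j, |W k j| ≤ e)
    (hb : ∑ j, W k j ^ 2 ≤ b2) (ha : (3 / 2 + 2 * (exp (4 * e) * e)) * cs e b2 ≤ a) (ha1 : a < 1)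
    (hK : 1 ≤ K * (1 - a)) {F : Cube n → ℝ} (hF : ∀ x, F (fl x k) = F x) {s : ℝ} (hs : 0 ≤ s)
    (x : Cube n) {θ : ℝ} (h0 : 0 ≤ θ) (h1 : θ ≤ 1) :
    ph (sg (mu W) s F x + θ * (sg (mu W) s F (fl x k) - sg (mu W) s F x)) ≤
      K * sg (mu W) s (fun z => ph (F z)) x := by
  have e0 : 0 ≤ e := (abs_nonneg _).trans (he k)
  have b0 : 0 ≤ b2 := (Finset.sum_nonneg fun j _ => sq_nonneg _).trans hb
  refine harnack' hn (rt_mu hW) (le_trans (by rw [cs]; positivity) ha) hK ha1 (fun x =>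
    (sum_cst_le hW he hb x fun j hj => abs_Tk_fl hW x hj).trans ha) hF hs x h0 h1

/-- **(AlDec)**: `A` is free of `s_k` and follows rates `ρ` off `k` with killing rate `l` -/
theorem al_mu (hn : 0 < n) (hW : Wᵀ = W) {k : Fin n} {e b2 l : ℝ} (he : ∀ j, |W k j| ≤ e)
    (hb : ∑ j, W k j ^ 2 ≤ b2) {ρ : Cube n → Fin n → ℝ} (h0 : ∀ x j, 0 ≤ ρ x j)
    (hρ : ∀ x j, j ≠ k → |ρ x j - Tk W x j| ≤
      exp (4 * |W k j|) * |W k j| * (4 * Tk W x j * (1 - Tk W x j)))
    {A : ℝ → Cube n → ℝ} (hF : ∀ s x, A s (fl x k) = A s x)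
    (hA : ∀ s x, HasDerivAt (fun u => A u x)
      (∑ j ∈ Finset.univ.erase k, ρ x j * (A s (fl x j) - A s x) - l * A s x) s)
    {s : ℝ} (hs : 0 ≤ s) (x : Cube n) :
    ph (A s x) ≤ exp (((3 / 2 + 2 * (exp (4 * e) * e)) * cs e b2 - 3 / 2 * l) * s) *
      sg (mu W) s (fun z => ph (A 0 z)) x ∧
    A s x ^ 2 ≤ exp ((cs e b2 - 2 * l) * s) * sg (mu W) s (fun z => A 0 z ^ 2) x := by
  have R := rt_mu hW
  have d : ∀ s x, HasDerivAt (fun u => A u x) (∑ j, (if j = k then Tk W x k else ρ x j) *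
      (A s (fl x j) - A s x) - l * A s x) s := fun s x => (hA s x).congr_deriv (by
    rw [← Finset.add_sum_erase _ _ (Finset.mem_univ k), hF, sub_self, mul_zero, zero_add]
    congr 1
    exact Finset.sum_congr rfl fun j hj => by rw [if_neg (Finset.ne_of_mem_erase hj)])
  refine ⟨dec32 hn R (fun x j => ?_) d (fun x => ?_) hs x, dec2 hn R d (fun x => ?_) hs x⟩
  · split_ifs; exacts [(R.pos x k).le, h0 x j]
  · rw [← Finset.add_sum_erase _ _ (Finset.mem_univ k), if_pos rfl, cst_self, zero_add]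
    refine le_trans (le_of_eq ?_) (sum_cst_le hW he hb x (hρ x))
    exact Finset.sum_congr rfl fun j hj => by rw [if_neg (Finset.ne_of_mem_erase hj)]
  · rw [← Finset.add_sum_erase _ _ (Finset.mem_univ k), if_pos rfl, sub_self]
    refine le_trans (le_of_eq ?_) (sum_sq_le hW he hb x (hρ x))
    rw [zero_pow two_ne_zero, zero_div, zero_add]
    exact Finset.sum_congr rfl fun j hj => by rw [if_neg (Finset.ne_of_mem_erase hj)]


end ising

end Crest.Agent.T157.S6k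

end
end

-- ▼ part T157/S6Er_85
section

/-!
# Row 157, block S6 (helper85): the error of the ansatz, pointwise identities
-/

set_option autoImplicit false

noncomputable section

namespace Crest.Agent.T157.S6x

open Matrix Real Finset
open Crest.Agent.T157.E hiding mean
open Crest.Agent.T157.Tap (V Mx)
open Crest.Agent.T157.Rec (grad fl)
open Crest.Agent.T157.Reg (VF mu Tk am)
open Crest.Agent.T157.S6h

variable {n : ℕ} {W : Mx n}

/-- the hop part of `LL` -/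
def hop (W : Mx n) (U : VF n) : VF n := fun x k =>
  ∑ i ∈ univ.erase k, am W x k i * Ec W i k (cp U i) x

/-- the field `y_j ω_j`, `j ≠ k` -/
def pr (k : Fin n) (y ω : VF n) : VF n := fun x j => if j = k then 0 else y x j * ω x j

/-- the error of `pr k y ω` -/
def er (W : Mx n) (k : Fin n) (y ω : VF n) : VF n := fun x j =>
  if j = k then -∑ i ∈ univ.erase k, am W x k i * Ec W i k (fun z => y z i * ω z i) x
  else -∑ i ∈ univ.erase j, rc W j i x * (dl i (cp y j) x * dl i (cp ω j) x) +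
    y x j * (am W x j k * Ec W k j (cp ω k) x) + ∑ i ∈ (univ.erase j).erase k,
      am W x j i * (y x j * Ec W i j (cp ω i) x - Ec W i j (fun z => y z i * ω z i) x)

theorem Lc_mul (k : Fin n) (F G : Cube n → ℝ) (x : Cube n) : Lc W k (fun z => F z * G z) x =
    Lc W k F x * G x + F x * Lc W k G x + ∑ i ∈ univ.erase k, rc W k i x * (dl i F x * dl i G x) := by
  simp only [Lc, sum_mul, mul_sum, ← sum_add_distrib, dl]
  exact sum_congr rfl fun i _ => by ring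

theorem cp_pr_ne {k j : Fin n} (h : j ≠ k) (y ω : VF n) :
    cp (pr k y ω) j = fun z => y z j * ω z j := funext fun _ => if_neg h

theorem cp_pr_self (k : Fin n) (y ω : VF n) : cp (pr k y ω) k = fun _ => 0 :=
  funext fun _ => if_pos rfl

/-- **the error identity** -/
theorem er_eq (k : Fin n) (y ω : VF n) (x : Cube n) (j : Fin n) :
    (if j = k then 0 else Lc W j (cp y j) x * ω x j + y x j * LL W ω x j) =
      LL W (pr k y ω) x j + er W k y ω x j := by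
  by_cases h : j = k
  · subst h
    rw [if_pos rfl, er, if_pos rfl, LL, cp_pr_self, pr, if_pos rfl,
      sum_congr rfl fun i hi => by rw [cp_pr_ne (ne_of_mem_erase hi)]]
    simp [Lc, dl]
  · have m : k ∈ univ.erase j := mem_erase.2 ⟨Ne.symm h, mem_univ _⟩
    have e1 : Lc W j (fun z => y z j * ω z j) x = _ := Lc_mul j (cp y j) (cp ω j) x
    have e2 : ∑ i ∈ (univ.erase j).erase k, am W x j i * Ec W i j (cp (pr k y ω) i) x =
        ∑ i ∈ (univ.erase j).erase k, am W x j i * Ec W i j (fun z => y z i * ω z i) x :=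
      sum_congr rfl fun i hi => by rw [cp_pr_ne (ne_of_mem_erase hi)]
    have e3 : Ec W k j (fun _ => 0) x = 0 := by simp [Ec, dl]
    rw [if_neg h, er, if_neg h, LL, LL, cp_pr_ne h, pr, if_neg h, ← add_sum_erase _ _ m,
      ← add_sum_erase _ _ m, cp_pr_self, e1, e2, e3]
    simp only [mul_sub, sum_sub_distrib, mul_add, mul_sum, mul_left_comm (y x j), cp]
    ring



/-- the ansatz starts with the hop of the markers -/
theorem sum_pr (U : VF n) {y ω : Fin n → VF n}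
    (h : ∀ k x j, j ≠ k → y k x j * ω k x j = am W x j k * Ec W k j (cp U k) x) :
    ∑ k, pr k (y k) (ω k) = hop W U := by
  funext x j
  rw [Finset.sum_apply, Finset.sum_apply, hop, ← add_sum_erase _ _ (mem_univ j), pr, if_pos rfl, zero_add]
  exact sum_congr rfl fun k hk => by
    rw [pr, if_neg (ne_of_mem_erase hk).symm, h k x j (ne_of_mem_erase hk).symm]

theorem hasDerivAt_pr (k : Fin n) {y ω : ℝ → VF n} {v : ℝ}
    (hy : ∀ x j, j ≠ k → HasDerivAt (fun s => y s x j) (Lc W j (cp (y v) j) x) v)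
    (hω : ∀ x j, j ≠ k → HasDerivAt (fun s => ω s x j) (LL W (ω v) x j) v) :
    HasDerivAt (fun s => pr k (y s) (ω s)) (LL W (pr k (y v) (ω v)) + er W k (y v) (ω v)) v := by
  refine hasDerivAt_pi.2 fun x => hasDerivAt_pi.2 fun j => ?_
  rw [Pi.add_apply, Pi.add_apply, ← er_eq]
  by_cases h : j = k
  · simp only [pr, if_pos h]; exact hasDerivAt_const _ _
  · simp only [pr, if_neg h]; exact (hy x j h).mul (hω x j h)

end Crest.Agent.T157.S6x

end
end

-- ▼ part T157/S6Du_85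
section

/-!
# Row 157, block S6 (helper85): Duhamel representation of `e^{s LL} ω` by the ansatz
-/

set_option autoImplicit false

noncomputable section

namespace Crest.Agent.T157.S6x

open Matrix Real Finset
open Crest.Agent.T157.E hiding mean
open Crest.Agent.T157.Tap (V Mx)
open Crest.Agent.T157.Eig (opn)
open Crest.Agent.T157.Rec (grad fl)
open Crest.Agent.T157.Chain22 (sg)
open Crest.Agent.T157.Reg (VF mu Tk am)
open Crest.Agent.T157.S6h Crest.Agent.T157.S6b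

variable {n : ℕ} {W : Mx n} {K : ℝ}

/-- the solution of `∂ R = LL R + g`, `R 0 = 0` -/
def du (W : Mx n) (g : ℝ → VF n) (v : ℝ) : VF n := ∫ r in (0 : ℝ)..v, eL W (v - r) (g r)




theorem du_sub (W : Mx n) {g g' : ℝ → VF n} (hg : Continuous g) (hg' : Continuous g') (v : ℝ) :
    du W (fun r => g r - g' r) v = du W g v - du W g' v := by
  simp only [du, eL_sub]
  exact intervalIntegral.integral_sub
    ((cont_eL W (continuous_const.sub continuous_id) hg).intervalIntegrable _ _)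
    ((cont_eL W (continuous_const.sub continuous_id) hg').intervalIntegrable _ _)

theorem integral_ev {U : ℝ → VF n} (hU : Continuous U) (a b : ℝ) (x : Cube n) (k : Fin n) :
    (∫ r in a..b, U r) x k = ∫ r in a..b, U r x k :=
  (((ContinuousLinearMap.proj k).comp (ContinuousLinearMap.proj (R := ℝ)
    (φ := fun _ : Cube n => V n) x)).intervalIntegral_comp_comm (hU.intervalIntegrable a b)).symm









theorem cont_Ec {Y : Type*} [TopologicalSpace Y] {F : Y → Cube n → ℝ}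
    (hF : ∀ x, Continuous fun y => F y x) (k j : Fin n) (x : Cube n) :
    Continuous fun y => Ec W k j (F y) x :=
  (hF x).add (continuous_const.mul ((hF _).sub (hF _)))

theorem cont_hop {Y : Type*} [TopologicalSpace Y] {U : Y → VF n} (hU : Continuous U) :
    Continuous fun y => hop W (U y) :=
  continuous_pi fun _ => continuous_pi fun _ => continuous_finsetSum _ fun i _ =>
    continuous_const.mul (cont_Ec (fun z => (continuous_apply i).comp ((continuous_apply z).comp hU)) _ _ _)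

theorem cont_pr {Y : Type*} [TopologicalSpace Y] (k : Fin n) {y ω : Y → VF n} (hy : Continuous y)
    (hω : Continuous ω) : Continuous fun p => pr k (y p) (ω p) :=
  continuous_pi fun x => continuous_pi fun j => by
    unfold pr; split_ifs <;> fun_prop

theorem cont_er {Y : Type*} [TopologicalSpace Y] (k : Fin n) {y ω : Y → VF n} (hy : Continuous y)
    (hω : Continuous ω) : Continuous fun p => er W k (y p) (ω p) :=
  continuous_pi fun x => continuous_pi fun j => by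
    unfold er Ec dl cp; split_ifs <;> fun_prop

theorem frV_pr {k : Fin n} {y ω : VF n} (hy : ∀ j, j ≠ k → Fr j (cp y j)) (hω : FrV ω) :
    FrV (pr k y ω) := fun j x => by
  by_cases h : j = k
  · simp only [cp, pr, if_pos h]
  · simp only [cp, pr, if_neg h]
    exact congrArg₂ _ (hy j h x) (hω j x)

theorem frV_er (hW : Wᵀ = W) {k : Fin n} {y ω : VF n} (hy : ∀ j, j ≠ k → Fr j (cp y j))
    (hω : FrV ω) : FrV (er W k y ω) := fun j x => by
  have a := er_eq (W := W) k y ω x j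
  have b := er_eq (W := W) k y ω (fl x j) j
  have c : LL W (pr k y ω) (fl x j) j = LL W (pr k y ω) x j := (frV_pr hy hω).LL hW j x
  by_cases h : j = k
  · simp only [if_pos h] at a b
    simp only [cp]; linarith
  · simp only [if_neg h] at a b
    rw [(hy j h).Lc hW x, show ω (fl x j) j = ω x j from hω j x, show y (fl x j) j = y x j from hy j h x,
      show LL W ω (fl x j) j = LL W ω x j from hω.LL hW j x] at b
    simp only [cp]; linarith

theorem FrV.sum {ι : Type*} (S : Finset ι) {U : ι → VF n} (h : ∀ i ∈ S, FrV (U i)) :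
    FrV (∑ i ∈ S, U i) := fun k x => by
  simp only [cp, Finset.sum_apply]
  exact sum_congr rfl fun i hi => h i hi k x

/-- the markers -/
theorem eL_al {al : ℝ → VF n} (hF : ∀ s, FrV (al s))
    (hal : ∀ s x k, HasDerivAt (fun r => al r x k) (Lc W k (cp (al s) k) x - al s x k) s)
    {s : ℝ} (hs : 0 ≤ s) : eL W s (al 0) = al s + du W (fun u => hop W (al u)) s := by
  have c : Continuous al := continuous_pi fun x => continuous_pi fun k =>
    continuous_iff_continuousAt.2 fun s => (hal s x k).continuousAt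
  have := eL_duhamel (W := W) (e := fun u => -hop W (al u)) hs c.continuousOn
    (cont_hop c).neg.continuousOn (fun s _ => hF s) fun s _ => hasDerivAt_of_ev fun x k =>
      (hal s x k).congr_deriv (add_neg_cancel_right _ _).symm
  have e : ∀ t (U : VF n), eL W t (-U) = -eL W t U := fun t U => map_neg (fw (LA W) t) U
  simp only [e, intervalIntegral.integral_neg, sub_zero] at this
  rw [this, du]; abel

/-- one launch -/
theorem eL_pr {y ω : Fin n → ℝ → VF n} (cy : ∀ k, Continuous (y k)) (cω : ∀ k, Continuous (ω k))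
    (fy : ∀ k v j, j ≠ k → Fr j (cp (y k v) j)) (fω : ∀ k v, FrV (ω k v))
    (hy : ∀ k v x j, j ≠ k → HasDerivAt (fun s => y k s x j) (Lc W j (cp (y k v) j) x) v)
    (hω : ∀ k v x j, j ≠ k → HasDerivAt (fun s => ω k s x j) (LL W (ω k v) x j) v)
    {v : ℝ} (hv : 0 ≤ v) : eL W v (∑ k, pr k (y k 0) (ω k 0)) =
      ∑ k, pr k (y k v) (ω k v) - du W (fun r => ∑ k, er W k (y k r) (ω k r)) v := by
  have := eL_duhamel (W := W) (U := fun r => ∑ k, pr k (y k r) (ω k r))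
    (e := fun r => ∑ k, er W k (y k r) (ω k r)) hv
    (continuous_finsetSum _ fun k _ => cont_pr k (cy k) (cω k)).continuousOn
    (continuous_finsetSum _ fun k _ => cont_er k (cy k) (cω k)).continuousOn
    (fun s _ => FrV.sum _ fun k _ => frV_pr (fy k s) (fω k s)) fun s _ => by
      rw [LL_sum, ← sum_add_distrib]
      exact HasDerivAt.fun_sum fun k _ => hasDerivAt_pr k (hy k s) (hω k s)
  rw [sub_zero] at this
  rw [this, du]; abel


end Crest.Agent.T157.S6x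

end
end

-- ▼ part T157/S6Dv_85
section

/-!
# Row 157, block S6 (helper85): `DuStmt` and `ContStmt`
-/

set_option autoImplicit false

noncomputable section

namespace Crest.Agent.T157.S6a

open Matrix Real Finset
open Crest.Agent.T157.E
open Crest.Agent.T157.Tap (V Mx)
open Crest.Agent.T157.Rec (grad fl)
open Crest.Agent.T157.Chain22 (sg sg_zero)
open Crest.Agent.T157.Reg (VF mu Tk am)
open Crest.Agent.T157.Reg.Bas66 (mu_pos)
open Crest.Agent.T157.S6h Crest.Agent.T157.S6x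
open Crest.Agent.T157.S6 (cc)
open Crest.Agent.T157.S6b (cont_sg_fam)

namespace Du85

variable {n : ℕ} {W : Mx n} {ρ : ℝ → ℝ} {ψ ω : VF n}

/-- the scalars `y^k` as a field -/
def yV (W : Mx n) (ψ : VF n) (k : Fin n) (v : ℝ) : VF n := fun x j => yy W ψ v k j x

theorem yy_self (W : Mx n) (ψ : VF n) (v : ℝ) (k : Fin n) : yy W ψ v k k = fun _ => 0 :=
  funext fun _ => if_pos rfl

theorem yy_ne (W : Mx n) (ψ : VF n) (v : ℝ) {k j : Fin n} (h : j ≠ k) : yy W ψ v k j =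
    sg (cw W j) v fun z => qq W z j k * Ec W k j (cp ψ k) z := funext fun _ => if_neg h

theorem yW_eq (W : Mx n) (ρ : ℝ → ℝ) (ψ : VF n) (v : ℝ) (k : Fin n) :
    yW W ρ ψ v k = pr k (yV W ψ k v) (Wk W ρ v k) := by
  funext x j
  by_cases h : j = k
  · simp [yW, pr, yy, h]
  · rw [pr, if_neg h]; rfl

theorem Phi_eq (W : Mx n) (ρ : ℝ → ℝ) (ψ : VF n) (v : ℝ) :
    Phi W ρ ψ v = ∑ k, pr k (yV W ψ k v) (Wk W ρ v k) := by
  funext x j
  simp only [Phi, yW_eq, Finset.sum_apply]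

theorem er_eq' (W : Mx n) (ρ : ℝ → ℝ) (ψ : VF n) (v : ℝ) (k : Fin n) (x : Cube n) (j : Fin n) :
    er W ρ ψ v k x j = S6x.er W k (yV W ψ k v) (Wk W ρ v k) x j +
      if j = k then Ret W ρ ψ v x k else 0 := by
  have := er_eq (W := W) k (yV W ψ k v) (Wk W ρ v k) x j
  rw [er, yW_eq]
  congr 1
  rw [sub_eq_iff_eq_add', ← this]
  by_cases h : j = k
  · subst h
    simp [yy_self, Lc, dl]
  · rw [if_neg h]; rfl

theorem Err_eq (W : Mx n) (ρ : ℝ → ℝ) (ψ : VF n) (v : ℝ) :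
    Err W ρ ψ v = ∑ k, S6x.er W k (yV W ψ k v) (Wk W ρ v k) + Ret W ρ ψ v := by
  funext x j
  simp [Err, er_eq', Finset.sum_apply, sum_add_distrib]

theorem fr_qq (hW : Wᵀ = W) (j k : Fin n) : Fr j fun z => qq W z j k := fun x => by
  unfold qq
  split_ifs with h
  · simp [cc, Da.Gr.tt, Da.Gr.loc_fl, ← S6b.sym hW j k, h]
  · exact congrArg (· / W j k) (am_fl W x j k)

theorem am_qq (hW : Wᵀ = W) (x : Cube n) {j k : Fin n} (h : j ≠ k) :
    qq W x j k * W j k = am W x j k := by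
  unfold qq
  split_ifs with h0
  · obtain ⟨q, e, -⟩ := am_q W x h
    rw [e, ← S6b.sym hW j k, h0, mul_zero, zero_mul]
  · exact div_mul_cancel₀ _ h0

theorem fr_y0 (hW : Wᵀ = W) (ψ : VF n) (j k : Fin n) :
    Fr j fun z => qq W z j k * Ec W k j (cp ψ k) z := fun x =>
  congrArg₂ _ (fr_qq hW j k x) (fr_Ec W k j _ x)

theorem fr_yV (hn : 0 < n) (hW : Wᵀ = W) (ψ : VF n) (k : Fin n) (v : ℝ) (j : Fin n) (h : j ≠ k) :
    Fr j (cp (yV W ψ k v) j) := by
  rw [show cp (yV W ψ k v) j = _ from yy_ne W ψ v h]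
  exact (fr_y0 hW ψ j k).sg_cw hn hW v

theorem hasDerivAt_yV (hn : 0 < n) (hW : Wᵀ = W) (ψ : VF n) (k : Fin n) (v : ℝ) (x : Cube n)
    (j : Fin n) (h : j ≠ k) :
    HasDerivAt (fun s => yV W ψ k s x j) (Lc W j (cp (yV W ψ k v) j) x) v := by
  rw [show cp (yV W ψ k v) j = _ from yy_ne W ψ v h]
  simp only [yV, yy_ne W ψ _ h]
  exact hasDerivAt_sg_cw hn hW (fr_y0 hW ψ j k) x v

theorem hasDerivAt_Wk (hn : 0 < n) (hW : Wᵀ = W) (hρ : Continuous ρ) (k : Fin n) (v : ℝ)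
    (x : Cube n) (j : Fin n) (h : j ≠ k) :
    HasDerivAt (fun s => Wk W ρ s k x j) (LL W (Wk W ρ v k) x j) v := by
  refine (S6.hasDerivAt_Yf hn W hρ _ v x j).congr_deriv ?_
  rw [grad_gen_LL hW, Pi.single_eq_of_ne h, mul_zero, sub_zero]; rfl

theorem fr_Ek (W : Mx n) (k : Fin n) (F : Cube n → ℝ) : Fr k (Ek W k F) := fun x => by
  rw [Ek, Ek, Tk_fl, dl, dl, fl_fl]; ring

theorem frV_alf (hn : 0 < n) (hW : Wᵀ = W) (h : FrV ω) (u : ℝ) : FrV (alf W ω u) := fun k x =>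
  congrArg (exp (-u) * ·) ((h k).sg_cw hn hW u x)

theorem alf_zero (hn : 0 < n) (W : Mx n) (ω : VF n) : alf W ω 0 = ω := by
  funext x k
  rw [alf, neg_zero, exp_zero, one_mul, sg_zero hn (cw_pos W k)]; rfl

theorem hasDerivAt_alf (hn : 0 < n) (hW : Wᵀ = W) (h : FrV ω) (s : ℝ) (x : Cube n) (k : Fin n) :
    HasDerivAt (fun r => alf W ω r x k) (Lc W k (cp (alf W ω s) k) x - alf W ω s x k) s := by
  refine ((hasDerivAt_neg' s).exp.mul (hasDerivAt_sg_cw hn hW (h k) x s)).congr_deriv ?_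
  simp only [Lc, dl, cp, alf, mul_sum, ← mul_sub, mul_left_comm (exp (-s))]
  ring

theorem frV_Ret (W : Mx n) (ρ : ℝ → ℝ) (ψ : VF n) (v : ℝ) : FrV (Ret W ρ ψ v) := fun k x =>
  congrArg (ρ v * ·) (fr_Ek W k _ x)

section cont
variable {Y : Type*} [TopologicalSpace Y] {Ψ : Y → VF n} {t : Y → ℝ}

theorem cont_ev (hΨ : Continuous Ψ) (x : Cube n) (k : Fin n) : Continuous fun y => Ψ y x k :=
  (continuous_apply k).comp ((continuous_apply x).comp hΨ)

theorem cont_alf (hn : 0 < n) (W : Mx n) (ω : VF n) : Continuous (alf W ω) :=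
  continuous_pi fun x => continuous_pi fun k => continuous_neg.rexp.mul
    (cont_sg_fam hn (cw_pos W k) (g := fun _ => cp ω k) continuous_id (fun _ => continuous_const) x)

theorem cont_ka (hn : 0 < n) (W : Mx n) (hΨ : Continuous Ψ) (ht : Continuous t) (k : Fin n)
    (x : Cube n) : Continuous fun y => ka W (Ψ y) (t y) k x :=
  cont_sg_fam hn (mu_pos W) ht (fun z => continuous_const.mul (cont_ev hΨ z k)) x

theorem cont_yy (hn : 0 < n) (W : Mx n) (hΨ : Continuous Ψ) (ht : Continuous t) (k j : Fin n)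
    (x : Cube n) : Continuous fun y => yy W (Ψ y) (t y) k j x := by
  unfold yy
  split_ifs
  · exact continuous_const
  · exact cont_sg_fam hn (cw_pos W j) ht
      (fun z => continuous_const.mul (cont_Ec (fun z => cont_ev hΨ z k) _ _ _)) x

theorem cont_yV (hn : 0 < n) (W : Mx n) (hΨ : Continuous Ψ) (ht : Continuous t) (k : Fin n) :
    Continuous fun y => yV W (Ψ y) k (t y) :=
  continuous_pi fun x => continuous_pi fun j => cont_yy hn W hΨ ht k j x

theorem cont_Wk (hn : 0 < n) (W : Mx n) (hρ : Continuous ρ) (k : Fin n) :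
    Continuous fun v => Wk W ρ v k :=
  continuous_pi fun x => continuous_pi fun j => S6.cont_Yf hn W hρ _ x j

theorem cont_aa (W : Mx n) {F : Y → Cube n → ℝ} (hF : ∀ x, Continuous fun y => F y x) (x : Cube n) :
    Continuous fun y => aa W (F y) x :=
  continuous_finsetSum _ fun _ _ => (continuous_const.mul ((hF _).sub (hF _))).pow 2

theorem cont_Z1 (hn : 0 < n) (W : Mx n) (hΨ : Continuous Ψ) (ht : Continuous t) (k : Fin n)
    (x : Cube n) : Continuous fun y => Z1 W (Ψ y) (t y) k x :=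
  ((cont_ka hn W hΨ ht k x).pow 2).add (continuous_finsetSum _ fun j _ =>
    ((cont_yy hn W hΨ ht k j x).sub (cont_ka hn W hΨ ht k x)).pow 2)

theorem cont_Z2 (hn : 0 < n) (W : Mx n) (hΨ : Continuous Ψ) (ht : Continuous t) (k : Fin n)
    (x : Cube n) : Continuous fun y => Z2 W (Ψ y) (t y) k x :=
  ((cont_Z1 hn W hΨ ht k x).add (cont_aa W (cont_ka hn W hΨ ht k) x)).add
    (continuous_finsetSum _ fun j _ =>
      cont_aa W (fun z => (cont_yy hn W hΨ ht k j z).sub (cont_ka hn W hΨ ht k z)) x)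

theorem cont_Phi (hn : 0 < n) (W : Mx n) (hρ : Continuous ρ) (hΨ : Continuous Ψ)
    (ht : Continuous t) : Continuous fun y => Phi W ρ (Ψ y) (t y) := by
  simp only [Phi_eq]
  exact continuous_finsetSum _ fun k _ => cont_pr k (cont_yV hn W hΨ ht k) ((cont_Wk hn W hρ k).comp ht)

theorem cont_Ret (hn : 0 < n) (W : Mx n) (hρ : Continuous ρ) (hΨ : Continuous Ψ)
    (ht : Continuous t) : Continuous fun y => Ret W ρ (Ψ y) (t y) :=
  continuous_pi fun _ => continuous_pi fun k => (hρ.comp ht).mul ((cont_ka hn W hΨ ht k _).add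
    (continuous_const.mul ((cont_ka hn W hΨ ht k _).sub (cont_ka hn W hΨ ht k _))))

theorem cont_Err (hn : 0 < n) (W : Mx n) (hρ : Continuous ρ) (hΨ : Continuous Ψ)
    (ht : Continuous t) : Continuous fun y => Err W ρ (Ψ y) (t y) := by
  simp only [Err_eq]
  exact (continuous_finsetSum _ fun k _ => cont_er k (cont_yV hn W hΨ ht k)
    ((cont_Wk hn W hρ k).comp ht)).add (cont_Ret hn W hρ hΨ ht)

end cont

theorem frV_Phi (hn : 0 < n) (hW : Wᵀ = W) (ρ : ℝ → ℝ) (ψ : VF n) (v : ℝ) : FrV (Phi W ρ ψ v) := by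
  rw [Phi_eq]
  exact S6x.FrV.sum _ fun k _ => frV_pr (fr_yV hn hW ψ k v) (frV_grad _)

theorem frV_Err (hn : 0 < n) (hW : Wᵀ = W) (ρ : ℝ → ℝ) (ψ : VF n) (v : ℝ) : FrV (Err W ρ ψ v) := by
  rw [Err_eq]
  exact (S6x.FrV.sum _ fun k _ => frV_er hW (fr_yV hn hW ψ k v) (frV_grad _)).add (frV_Ret W ρ ψ v)

/-- one launch, on forms -/
theorem eL_hop (hn : 0 < n) (hW : Wᵀ = W) (hρ : Continuous ρ) (ψ : VF n) {v : ℝ} (hv : 0 ≤ v) :
    eL W v (S6x.hop W ψ) = Phi W ρ ψ v + du W (Ret W ρ ψ) v - du W (Err W ρ ψ) v := by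
  have c1 : Continuous (Ret W ρ ψ) := cont_Ret hn W hρ continuous_const continuous_id
  have c2 : Continuous (Err W ρ ψ) := cont_Err hn W hρ continuous_const continuous_id
  have := eL_pr (W := W) (y := yV W ψ) (ω := fun k v => Wk W ρ v k)
    (fun k => cont_yV hn W continuous_const continuous_id k) (cont_Wk hn W hρ) (fr_yV hn hW ψ)
    (fun k v => frV_grad _) (hasDerivAt_yV hn hW ψ) (hasDerivAt_Wk hn hW hρ) hv
  rw [sum_pr (W := W) ψ fun k x j h => by
    rw [yV, yy_ne W ψ 0 h, sg_zero hn (cw_pos W j), Wk, S6.Yf_zero hn, ← am_qq hW x h]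
    simp only [mulVec_single_one, col_apply]; ring] at this
  rw [this, add_sub_assoc, sub_eq_add_neg, ← Phi_eq, ← neg_sub (du W (Err W ρ ψ) v),
    ← du_sub W c2 c1]
  simp only [Err_eq, add_sub_cancel_right]

theorem dv_add (W : Mx n) (U U' : VF n) (x : Cube n) : dv W (U + U') x = dv W U x + dv W U' x := by
  simp only [dv, Pi.add_apply, mul_add, sum_add_distrib]

theorem dv_sub (W : Mx n) (U U' : VF n) (x : Cube n) : dv W (U - U') x = dv W U x - dv W U' x := by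
  simp only [dv, Pi.sub_apply, mul_sub, sum_sub_distrib]

theorem cont_dv (W : Mx n) {Y : Type*} [TopologicalSpace Y] {U : Y → VF n} (hU : Continuous U)
    (x : Cube n) : Continuous fun y => dv W (U y) x :=
  continuous_finsetSum _ fun k _ => continuous_const.mul (cont_ev hU x k)

theorem dv_integral (W : Mx n) {U : ℝ → VF n} (hU : Continuous U) (a b : ℝ) (x : Cube n) :
    dv W (∫ r in a..b, U r) x = ∫ r in a..b, dv W (U r) x := by
  simp only [dv, integral_ev hU, ← intervalIntegral.integral_const_mul]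
  exact (intervalIntegral.integral_finsetSum fun k _ =>
    (continuous_const.mul (cont_ev hU x k)).intervalIntegrable _ _).symm

theorem dv_du (hn : 0 < n) (hW : Wᵀ = W) {g : ℝ → VF n} (hg : Continuous g) (hF : ∀ r, FrV (g r))
    (v : ℝ) (x : Cube n) :
    dv W (du W g v) x = ∫ r in (0 : ℝ)..v, sg (mu W) (v - r) (dv W (g r)) x := by
  simp only [sg_dv hn hW (hF _)]
  exact dv_integral W (cont_eL W (continuous_const.sub continuous_id) hg) _ _ x

end Du85

open Du85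

theorem duStmt : DuStmt := fun n W h ρ hρ ω hω => by
  have hn := h.pos
  have hW := h.sym
  refine ⟨frV_alf hn hW hω, fun v => ⟨frV_Phi hn hW ρ ω v, frV_Ret W ρ ω v, frV_Err hn hW ρ ω v⟩,
    fun t ht x => ?_⟩
  have e := eL_al (frV_alf hn hW hω) (hasDerivAt_alf hn hW hω) ht
  rw [alf_zero hn] at e
  rw [sg_dv hn hW hω, e, dv_add, du, dv_integral W (cont_eL W (t := fun r => t - r) (by fun_prop)
    (cont_hop (cont_alf hn W ω)))]
  congr 1
  refine intervalIntegral.integral_congr fun u hu => ?_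
  rw [Set.uIcc_of_le ht] at hu
  have c1 : Continuous (Ret W ρ (alf W ω u)) := cont_Ret hn W hρ continuous_const continuous_id
  have c2 : Continuous (Err W ρ (alf W ω u)) := cont_Err hn W hρ continuous_const continuous_id
  have i : ∀ {g : ℝ → VF n}, Continuous g → IntervalIntegrable
      (fun v => sg (mu W) (t - u - v) (dv W (g v)) x) MeasureTheory.volume 0 (t - u) := fun hg =>
    (cont_sg_fam hn (mu_pos W) (continuous_const.sub continuous_id) (cont_dv W hg) x).intervalIntegrable _ _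
  rw [intervalIntegral.integral_sub (i c1) (i c2), ← dv_du hn hW c1 (frV_Ret W ρ _),
    ← dv_du hn hW c2 (frV_Err hn hW ρ _), ← add_sub_assoc, ← dv_add, ← dv_sub,
    ← eL_hop hn hW hρ _ (sub_nonneg.2 hu.2)]

theorem contStmt : ContStmt := fun n W h ρ hρ ω x k => by
  have hn := h.pos
  have c : Continuous fun p : ℝ × ℝ => alf W ω p.1 := (cont_alf hn W ω).comp continuous_fst
  refine ⟨cont_ev (cont_alf hn W ω) x k, cont_ka hn W c continuous_snd k x,
    cont_Z1 hn W c continuous_snd k x, cont_Z2 hn W c continuous_snd k x,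
    cont_ev (cont_Phi hn W hρ c continuous_snd) x k, cont_ev (cont_Ret hn W hρ c continuous_snd) x k,
    cont_ev (cont_Err hn W hρ c continuous_snd) x k, fun f hf => ?_⟩
  have a : ∀ z, Continuous fun s : ℝ => B.dn (mu W) (sg (mu W) |s| f) z := fun z =>
    continuous_const.mul (cont_sg_fam hn (mu_pos W) (g := fun _ => f) continuous_abs
      (fun _ => continuous_const) z)
  have p : ∀ (s : ℝ) z, 0 < B.dn (mu W) (sg (mu W) |s| f) z := fun s z =>
    mul_pos (mu_pos W z) (Rv.sg_pos hn (mu_pos W) (abs_nonneg s) hf z)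
  simp only [dd, siteM]
  exact ((((a _).mul continuous_const).add ((a _).mul continuous_const)).div ((a _).add (a _))
    fun s => (add_pos (p s _) (p s _)).ne').sub continuous_const

end Crest.Agent.T157.S6a

end
end

-- ▼ part T157/S6Dl_28
section

/-!
# Row 157, block S6 (helper28): `DecStmt` and `LoopStmt`
-/

set_option autoImplicit false

noncomputable section

namespace Crest.Agent.T157.S6k

open Real Set intervalIntegral Filter Topology
open MeasureTheory (volume ae_restrict_iff' ae_of_all)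

/-! ### integrals over a triangle -/

theorem cont_tri {Y : Type*} [TopologicalSpace Y] {F : Y → ℝ → ℝ} (hF : Continuous F.uncurry)
    {b : Y → ℝ} (hb : Continuous b) : Continuous fun y => ∫ v in (0 : ℝ)..b y, F y v :=
  continuous_parametric_intervalIntegral_of_continuous hF hb

theorem tri_congr {F G : ℝ → ℝ → ℝ} {s : ℝ} (hs : 0 ≤ s)
    (h : ∀ u v, 0 ≤ u → 0 ≤ v → u + v ≤ s → F u v = G u v) :
    ∫ u in (0 : ℝ)..s, ∫ v in (0 : ℝ)..(s - u), F u v =
      ∫ u in (0 : ℝ)..s, ∫ v in (0 : ℝ)..(s - u), G u v :=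
  integral_congr fun u hu => by
    rw [uIcc_of_le hs] at hu
    exact integral_congr fun v hv => by
      rw [uIcc_of_le (sub_nonneg.2 hu.2)] at hv
      exact h u v hu.1 hv.1 (by linarith [hv.2])

theorem tri_mono {F G : ℝ → ℝ → ℝ} (hF : Continuous F.uncurry) (hG : Continuous G.uncurry) {s : ℝ}
    (hs : 0 ≤ s) (h : ∀ u v, 0 ≤ u → 0 ≤ v → u + v ≤ s → F u v ≤ G u v) :
    ∫ u in (0 : ℝ)..s, ∫ v in (0 : ℝ)..(s - u), F u v ≤
      ∫ u in (0 : ℝ)..s, ∫ v in (0 : ℝ)..(s - u), G u v :=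
  integral_mono_on hs ((cont_tri hF (by fun_prop)).intervalIntegrable _ _)
    ((cont_tri hG (by fun_prop)).intervalIntegrable _ _) fun u hu =>
    integral_mono_on (sub_nonneg.2 hu.2) ((hF.uncurry_left u).intervalIntegrable _ _)
      ((hG.uncurry_left u).intervalIntegrable _ _) fun v hv => h u v hu.1 hv.1 (by linarith [hv.2])

theorem tri_add {F G : ℝ → ℝ → ℝ} (hF : Continuous F.uncurry) (hG : Continuous G.uncurry) (s : ℝ) :
    ∫ u in (0 : ℝ)..s, ∫ v in (0 : ℝ)..(s - u), (F u v + G u v) =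
      (∫ u in (0 : ℝ)..s, ∫ v in (0 : ℝ)..(s - u), F u v) +
        ∫ u in (0 : ℝ)..s, ∫ v in (0 : ℝ)..(s - u), G u v := by
  rw [← integral_add ((cont_tri hF (by fun_prop)).intervalIntegrable _ _)
    ((cont_tri hG (by fun_prop)).intervalIntegrable _ _)]
  exact integral_congr fun u _ => integral_add ((hF.uncurry_left u).intervalIntegrable _ _)
    ((hG.uncurry_left u).intervalIntegrable _ _)

theorem tri_mul (F : ℝ → ℝ → ℝ) (c s : ℝ) :
    ∫ u in (0 : ℝ)..s, ∫ v in (0 : ℝ)..(s - u), c * F u v =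
      c * ∫ u in (0 : ℝ)..s, ∫ v in (0 : ℝ)..(s - u), F u v := by
  simp only [integral_const_mul]

theorem im {F : ℝ → ℝ} (hF : Continuous F) {t a b : ℝ} (h0 : ∀ u ∈ Icc 0 t, 0 ≤ F u) (h1 : 0 ≤ a)
    (h2 : a ≤ b) (h3 : b ≤ t) : ∫ u in a..b, F u ≤ ∫ u in (0 : ℝ)..t, F u :=
  integral_mono_interval h1 h2 h3 ((ae_restrict_iff' measurableSet_Ioc).2
    (ae_of_all _ fun u hu => h0 u ⟨hu.1.le, hu.2⟩)) (hF.intervalIntegrable _ _)

theorem sh {F : ℝ → ℝ} (hF : Continuous F) {t p s : ℝ} (h0 : ∀ u ∈ Icc 0 t, 0 ≤ F u) (h1 : 0 ≤ s)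
    (h2 : s ≤ p) (h3 : p ≤ t) : ∫ r in p..t, F (r - s) ≤ ∫ u in (0 : ℝ)..t, F u := by
  rw [integral_comp_sub_right]
  exact im hF h0 (by linarith) (by linarith) (by linarith)

theorem cv1 {F q : ℝ → ℝ} (hF : Continuous F) (hq : Continuous q) {α β c p t : ℝ}
    (h0 : ∀ u ∈ Icc 0 t, 0 ≤ F u) (q0 : ∀ s ∈ Icc α β, 0 ≤ q s) (a0 : 0 ≤ c + α) (ab : α ≤ β)
    (bp : c + β ≤ p) (pt : p ≤ t) : ∫ r in p..t, ∫ s in α..β, q s * F (r - c - s) ≤
      (∫ s in α..β, q s) * ∫ u in (0 : ℝ)..t, F u := by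
  rw [swap_cont (F := fun r s => q s * F (r - c - s)) (by fun_prop), ← integral_mul_const]
  refine integral_mono_on ab ((continuous_parametric_intervalIntegral_of_continuous'
    (f := fun s r => q s * F (r - c - s)) (by fun_prop) p t).intervalIntegrable _ _)
    ((hq.mul continuous_const).intervalIntegrable _ _) fun s hs => ?_
  simp only [sub_sub]
  rw [integral_const_mul]
  exact mul_le_mul_of_nonneg_left (sh hF h0 (by linarith [hs.1]) (by linarith [hs.2]) pt) (q0 s hs)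

theorem cv2 {F : ℝ → ℝ} {K : ℝ → ℝ → ℝ} (hF : Continuous F) (hK : Continuous K.uncurry) {p t : ℝ}
    (h0 : ∀ u ∈ Icc 0 t, 0 ≤ F u) (K0 : ∀ u v, 0 ≤ u → 0 ≤ v → u + v ≤ p → 0 ≤ K u v) (p0 : 0 ≤ p)
    (pt : p ≤ t) : ∫ r in p..t, ∫ u in (0 : ℝ)..p, ∫ v in (0 : ℝ)..(p - u), K u v * F (r - u - v) ≤
      (∫ u in (0 : ℝ)..p, ∫ v in (0 : ℝ)..(p - u), K u v) * ∫ u in (0 : ℝ)..t, F u := by
  have c : Continuous (Function.uncurry fun r u => ∫ v in (0 : ℝ)..(p - u), K u v * F (r - u - v)) :=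
    cont_tri (F := fun (y : ℝ × ℝ) v => K y.2 v * F (y.1 - y.2 - v)) (by fun_prop) (by fun_prop)
  rw [swap_cont c, ← integral_mul_const]
  refine integral_mono_on p0 ((continuous_parametric_intervalIntegral_of_continuous'
    (f := fun u r => ∫ v in (0 : ℝ)..(p - u), K u v * F (r - u - v)) (c.comp continuous_swap)
    p t).intervalIntegrable _ _) (((cont_tri hK (by fun_prop)).mul
      continuous_const).intervalIntegrable _ _) fun u hu => ?_
  exact cv1 hF (hK.uncurry_left u) h0 (fun v hv => K0 u v hu.1 hv.1 (by linarith [hv.2]))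
    (by linarith [hu.1]) (sub_nonneg.2 hu.2) (by linarith) pt

/-- the mass of the return kernel -/
theorem ker {ρ : ℝ → ℝ} (hρ : Continuous ρ) {θ σ t B s : ℝ} (k : ℝ) (h0 : ∀ v ∈ Icc 0 t, 0 ≤ ρ v)
    (hB : ∫ v in (0 : ℝ)..t, ρ v * exp (σ * v) ≤ B) (hθ : σ < θ) (hs : s ∈ Icc 0 t) :
    ∫ u in (0 : ℝ)..s, ∫ v in (0 : ℝ)..(s - u), k ^ 2 * ρ v * exp (-(θ * u) + σ * (u + v)) ≤
      k ^ 2 * B / (θ - σ) := by
  have l := sub_pos.2 hθ
  have n0 : ∀ v ∈ Icc 0 t, 0 ≤ ρ v * exp (σ * v) := fun v hv => mul_nonneg (h0 v hv) (exp_pos _).le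
  have B0 : 0 ≤ B := (integral_nonneg (hs.1.trans hs.2) n0).trans hB
  have d : ∀ u, HasDerivAt (fun u => -exp (-((θ - σ) * u)) / (θ - σ)) (exp (-((θ - σ) * u))) u :=
    fun u => (((((hasDerivAt_id u).const_mul (θ - σ)).neg).exp.neg).div_const (θ - σ)).congr_deriv
      (by simp only [id, Pi.neg_apply]; field_simp)
  calc _ ≤ ∫ u in (0 : ℝ)..s, k ^ 2 * B * exp (-((θ - σ) * u)) := by
        refine integral_mono_on hs.1 ((cont_tri (F := fun u v => k ^ 2 * ρ v *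
          exp (-(θ * u) + σ * (u + v))) (by fun_prop) (by fun_prop)).intervalIntegrable _ _)
          (Continuous.intervalIntegrable (by fun_prop) _ _) fun u hu => ?_
        have e : ∀ v, k ^ 2 * ρ v * exp (-(θ * u) + σ * (u + v)) =
            k ^ 2 * exp (-((θ - σ) * u)) * (ρ v * exp (σ * v)) := fun v => by
          rw [show -(θ * u) + σ * (u + v) = -((θ - σ) * u) + σ * v by ring, exp_add]; ring
        simp only [e, integral_const_mul]
        have i := (im (by fun_prop) n0 le_rfl (sub_nonneg.2 hu.2)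
          (by linarith [hu.1, hs.2])).trans hB
        rw [mul_right_comm _ B]
        exact mul_le_mul_of_nonneg_left i (by positivity)
    _ ≤ _ := by
        rw [integral_const_mul, integral_eq_sub_of_hasDerivAt (fun u _ => d u)
          (Continuous.intervalIntegrable (by fun_prop) _ _), mul_div_assoc]
        have := div_pos (exp_pos (-((θ - σ) * s))) l
        rw [mul_assoc, div_eq_mul_one_div B]
        refine mul_le_mul_of_nonneg_left (mul_le_mul_of_nonneg_left ?_ B0) (sq_nonneg k)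
        simp only [mul_zero, neg_zero, exp_zero, neg_div]
        linarith

end Crest.Agent.T157.S6k

namespace Crest.Agent.T157.S6a

open Matrix Real Set intervalIntegral Filter Topology
open MeasureTheory (volume)
open Crest.Agent.T157.E Crest.Agent.T157.S6k
open Crest.Agent.T157.Tap (V Mx)
open Crest.Agent.T157.Chain22 (sg sg_zero)
open Crest.Agent.T157.Reg (VF mu Tk)
open Crest.Agent.T157.S6h (dl Fr cp FrV cw rc Lc)

theorem alf_zero {n : ℕ} {W : Mx n} (hn : 0 < n) (ω : VF n) (x : Cube n) (k : Fin n) :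
    alf W ω 0 x k = ω x k := by
  rw [alf, sg_zero hn (S6h.cw_pos W k), neg_zero, exp_zero, one_mul, cp]

theorem decStmt : DecStmt := fun γ hγ => by
  have c : ContinuousAt (fun e : ℝ => (3 / 2 + 2 * (exp (4 * e) * e)) * exp (8 * e)) 0 := by fun_prop
  obtain ⟨e, h1, e0⟩ : ∃ e : ℝ, (3 / 2 + 2 * (exp (4 * e) * e)) * exp (8 * e) < 3 / 2 + γ ∧ 0 < e :=
    (((c.eventually_lt continuousAt_const (by simpa using hγ)).filter_mono nhdsWithin_le_nhds).and
      (self_mem_nhdsWithin (s := Ioi (0 : ℝ)))).exists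
  refine ⟨e, e0, fun n W b c ok hc c1 K hK => ?_⟩
  have b0 := sq_nonneg b
  have k1 : (3 / 2 + 2 * (exp (4 * e) * e)) * cs e (b ^ 2) ≤ 3 / 2 * c := by
    have := mul_le_mul_of_nonneg_right h1.le (by positivity : 0 ≤ 64 / 27 * b ^ 2)
    have := mul_le_mul_of_nonneg_left (show 64 / 27 * b ^ 2 ≤ 3 / 2 by linarith) hγ.le
    rw [cs]; nlinarith
  have k2 : cs e (b ^ 2) ≤ c := by
    have : 0 ≤ exp (4 * e) * e * cs e (b ^ 2) := by rw [cs]; positivity
    nlinarith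
  have A : ∀ ω : VF n, FrV ω → ∀ s ≥ (0 : ℝ), ∀ x k, _ := fun ω hω s hs x k =>
    al_mu ok.pos ok.sym (ok.ent k) (ok.row k) (l := 1) (ρ := fun x j => rc W k j x)
      (A := fun s x => alf W ω s x k) (fun x j => (S6h.rc_pos W k j x).le) (fun x j hj => by
        have s : W j k = W k j := by rw [← congrFun (congrFun ok.sym k) j, transpose_apply]
        have := (S6h.abs_rc_sub ok.sym hj.symm x).trans (S6h.abs_am_le W x k j).2
        rwa [s, S6h.c_eq] at this)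
      (fun s x => by simp only [alf, (hω k).sg_cw ok.pos ok.sym s x]) (fun s x => by
        refine ((hasDerivAt_neg s).exp.mul
          (S6h.hasDerivAt_sg_cw ok.pos ok.sym (hω k) x s)).congr_deriv ?_
        simp only [alf, Lc, dl, Finset.mul_sum, ← mul_sub, mul_left_comm (exp (-s))]
        ring) hs x
  simp only [alf_zero ok.pos, ph_rpow] at A
  have P := Reg.Bas66.mu_pos W
  refine ⟨fun ω hω s hs x k => (A ω hω s hs x k).1.trans (mul_le_mul_of_nonneg_right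
    (exp_le_exp.2 (by nlinarith)) (Rec.sg_nonneg ok.pos P hs (fun z => by positivity) x)),
    fun ω hω s hs x k => (A ω hω s hs x k).2.trans (mul_le_mul_of_nonneg_right
    (exp_le_exp.2 (by nlinarith)) (Rec.sg_nonneg ok.pos P hs (fun z => by positivity) x)),
    fun k F hF v hv x => ?_⟩
  have := hk_mu ok.pos ok.sym (ok.ent k) (ok.row k) k1 c1 hK hF hv x (S6h.Tk_pos W x k).le
    (S6h.Tk_lt W x k).le
  simpa only [ph_rpow, Ek, dl] using this

theorem loopStmt : LoopStmt := by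
  intro X I ρ a θ k B τ η Γ ζ t ha hθ hτ hη hΓ hζ ht hX hI hρ X0 ρ0 hB hg h
  set σ := 2 * a / 3 with hσ
  set p := τ + 1 with hp
  have p0 : 0 ≤ p := by linarith
  set Y : ℝ → ℝ := fun r => exp (2 * a * r) * X r with hY
  set J : ℝ → ℝ := fun r => exp (2 * a * r) * I r with hJ
  set K : ℝ → ℝ → ℝ := fun u v => k ^ 2 * ρ v * exp (-(θ * u) + σ * (u + v)) with hK
  have cY : Continuous Y := by fun_prop
  have cJ : Continuous J := by fun_prop
  have cK : Continuous K.uncurry := by fun_prop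
  have I0 : ∀ u ∈ Icc 0 t, 0 ≤ I u := fun u hu => by linarith [(X0 u hu).1, (X0 u hu).2]
  have Y0 : ∀ u ∈ Icc 0 t, 0 ≤ Y u := fun u hu => mul_nonneg (exp_pos _).le (X0 u hu).1
  have J0 : ∀ u ∈ Icc 0 t, 0 ≤ J u := fun u hu => mul_nonneg (exp_pos _).le (I0 u hu)
  have iY := integral_nonneg (μ := volume) ht Y0
  have iJ := integral_nonneg (μ := volume) ht J0
  have E := exp_pos (2 * a * p)
  have z0 : 0 ≤ 10 * ζ * exp (2 * a * t) / (2 * a) := by positivity
  have st : ∀ q, 0 ≤ q → q ≤ p → q ≤ t → ∫ r in (0 : ℝ)..q, Y r ≤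
      2 * exp (2 * a * p) * ∫ r in (0 : ℝ)..t, I r := fun q q0 q1 q2 => by
    refine le_trans ?_ (mul_le_mul_of_nonneg_left (im hI I0 le_rfl q0 q2) (by positivity))
    rw [← integral_const_mul]
    refine integral_mono_on q0 (cY.intervalIntegrable _ _)
      (Continuous.intervalIntegrable (by fun_prop) _ _) fun u hu => ?_
    have m := X0 u ⟨hu.1, hu.2.trans q2⟩
    have := mul_le_mul (exp_le_exp.2 (mul_le_mul_of_nonneg_left (hu.2.trans q1)
      (by positivity : 0 ≤ 2 * a))) m.2 m.1 E.le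
    simp only [hY]; linarith
  have iI := mul_nonneg E.le (integral_nonneg (μ := volume) ht I0)
  have G0 : 0 ≤ η + Γ * exp (2 * a * p) := by positivity
  rcases le_total t p with tp | tp
  · nlinarith [st t ht tp le_rfl, mul_nonneg G0 iJ]
  have c1 : Continuous fun r => ∫ s in τ..p, exp (-((θ - σ) * s)) * Y (r - 0 - s) :=
    continuous_parametric_intervalIntegral_of_continuous'
      (f := fun r s => exp (-((θ - σ) * s)) * Y (r - 0 - s)) (by fun_prop) _ _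
  have c2 : Continuous fun r => ∫ u in (0 : ℝ)..p, ∫ v in (0 : ℝ)..(p - u), K u v * Y (r - u - v) :=
    continuous_parametric_intervalIntegral_of_continuous'
      (f := fun r u => ∫ v in (0 : ℝ)..(p - u), K u v * Y (r - u - v)) (cont_tri
        (F := fun (y : ℝ × ℝ) v => K y.2 v * Y (y.1 - y.2 - v)) (by fun_prop) (by fun_prop)) _ _
  have c3 : Continuous fun r => ∫ s in τ..p, exp (2 * a * s) * J (r - 0 - s) :=
    continuous_parametric_intervalIntegral_of_continuous'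
      (f := fun r s => exp (2 * a * s) * J (r - 0 - s)) (by fun_prop) _ _
  have m := integral_mono_on (μ := volume) tp (Continuous.intervalIntegrable
    (u := fun r => (19 / 20 - 2 / 3 * gn θ σ k B τ) * Y r) (by fun_prop) _ _)
    (Continuous.intervalIntegrable (u := fun r => 1 / 3 * (∫ s in τ..p, exp (-((θ - σ) * s)) *
      Y (r - 0 - s)) + 1 / 3 * (∫ u in (0 : ℝ)..p, ∫ v in (0 : ℝ)..(p - u), K u v * Y (r - u - v)) +
      η * J r + Γ * (∫ s in τ..p, exp (2 * a * s) * J (r - 0 - s)) + ζ * exp (2 * a * r))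
      (by fun_prop) _ _) fun r hr => by
    have e1 : ∫ s in τ..p, exp (-((θ - σ) * s)) * Y (r - 0 - s) =
        exp (2 * a * r) * ∫ s in τ..p, exp (-((θ + 2 * σ) * s)) * X (r - s) := by
      rw [← integral_const_mul]
      refine integral_congr fun s _ => ?_
      simp only [hY, sub_zero, ← mul_assoc, ← exp_add]
      congr 2; rw [hσ]; ring
    have e2 : ∫ u in (0 : ℝ)..p, ∫ v in (0 : ℝ)..(p - u), K u v * Y (r - u - v) =
        exp (2 * a * r) * ∫ u in (0 : ℝ)..p, ∫ v in (0 : ℝ)..(p - u),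
          k ^ 2 * ρ v * exp (-(θ * u) - 2 * σ * (u + v)) * X (r - u - v) := by
      rw [← tri_mul]
      refine tri_congr p0 fun u v _ _ _ => ?_
      have : exp (-(θ * u) + σ * (u + v)) * exp (2 * a * (r - u - v)) =
          exp (2 * a * r) * exp (-(θ * u) - 2 * σ * (u + v)) := by
        rw [← exp_add, ← exp_add]; congr 1; rw [hσ]; ring
      simp only [hY, hK]
      linear_combination (k ^ 2 * ρ v * X (r - u - v)) * this
    have e3 : ∫ s in τ..p, exp (2 * a * s) * J (r - 0 - s) =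
        exp (2 * a * r) * ∫ s in τ..p, I (r - s) := by
      rw [← integral_const_mul]
      refine integral_congr fun s _ => ?_
      simp only [hJ, sub_zero, ← mul_assoc, ← exp_add]
      congr 2; ring
    have := mul_le_mul_of_nonneg_left (h r hr) (exp_pos (2 * a * r)).le
    rw [AA] at this
    rw [e1, e2, e3]; simp only [hY, hJ]; linarith
  rw [integral_const_mul, integral_add (Continuous.intervalIntegrable (by fun_prop) _ _)
    (Continuous.intervalIntegrable (by fun_prop) _ _), integral_add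
    (Continuous.intervalIntegrable (by fun_prop) _ _) (Continuous.intervalIntegrable (by fun_prop) _ _),
    integral_add (Continuous.intervalIntegrable (by fun_prop) _ _)
    (Continuous.intervalIntegrable (by fun_prop) _ _), integral_add
    (Continuous.intervalIntegrable (by fun_prop) _ _) (Continuous.intervalIntegrable (by fun_prop) _ _),
    integral_const_mul, integral_const_mul, integral_const_mul, integral_const_mul,
    integral_const_mul] at m
  have bx : ∀ {q : ℝ → ℝ} {M : ℝ}, Continuous q → (∀ s ∈ Icc τ p, q s ≤ M) → ∫ s in τ..p, q s ≤ M :=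
    fun hq hM => by
      have := integral_mono_on (μ := volume) (by linarith : τ ≤ p) (hq.intervalIntegrable _ _)
        (continuous_const.intervalIntegrable _ _) hM
      simpa [hp] using this
  have e1 := (cv1 cY (q := fun s => exp (-((θ - σ) * s))) (by fun_prop) (α := τ) (β := p) (c := 0) Y0
    (fun _ _ => (exp_pos _).le) (by linarith) (by linarith) (by linarith) tp).trans
    (mul_le_mul_of_nonneg_right (bx (M := exp (-((θ - σ) * τ))) (by fun_prop) fun s hs =>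
      exp_le_exp.2 (by nlinarith [hs.1])) iY)
  have e2 := (cv2 cY cK Y0 (fun u v u0 v0 uv => mul_nonneg (mul_nonneg (sq_nonneg _)
    (ρ0 v ⟨v0, by linarith⟩)) (exp_pos _).le) p0 tp).trans
    (mul_le_mul_of_nonneg_right (ker hρ k ρ0 hB hθ ⟨p0, le_rfl⟩) iY)
  have e3 := (cv1 cJ (q := fun s => exp (2 * a * s)) (by fun_prop) (α := τ) (β := p) (c := 0) J0
    (fun _ _ => (exp_pos _).le) (by linarith) (by linarith) (by linarith) tp).trans
    (mul_le_mul_of_nonneg_right (bx (M := exp (2 * a * p)) (by fun_prop) fun s hs =>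
      exp_le_exp.2 (by nlinarith [hs.2])) iJ)
  have e4 := im cJ J0 p0 tp le_rfl
  have e5 : ∫ r in p..t, exp (2 * a * r) ≤ exp (2 * a * t) / (2 * a) := by
    rw [integral_eq_sub_of_hasDerivAt (f := fun r => exp (2 * a * r) / (2 * a)) (fun u _ =>
      (((hasDerivAt_id u).const_mul (2 * a)).exp.div_const (2 * a)).congr_deriv
        (by simp only [id]; field_simp)) (Continuous.intervalIntegrable (by fun_prop) _ _)]
    linarith [div_pos E (by positivity : 0 < 2 * a)]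
  have e6 := integral_add_adjacent_intervals (μ := volume) (cY.intervalIntegrable 0 p)
    (cY.intervalIntegrable p t)
  have e7 := st p p0 le_rfl tp
  have iP : 0 ≤ ∫ r in (0 : ℝ)..p, Y r := integral_nonneg p0 fun u hu => Y0 u ⟨hu.1, hu.2.trans tp⟩
  have g0 : 0 ≤ gn θ σ k B τ := add_nonneg (exp_pos _).le (div_nonneg (mul_nonneg (sq_nonneg _)
    ((integral_nonneg p0 fun v hv => mul_nonneg (ρ0 v hv) (exp_pos _).le).trans hB)) (by linarith))
  have e8 := mul_le_mul_of_nonneg_right hg iY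
  have e9 := mul_nonneg g0 iP
  have e0 := add_le_add e1 e2
  rw [← add_mul, ← gn] at e0
  rw [eq_sub_of_add_eq' e6] at m
  rw [mul_div_assoc]
  linarith [mul_le_mul_of_nonneg_left e3 hΓ, mul_le_mul_of_nonneg_left e4 hη,
    mul_le_mul_of_nonneg_left e5 hζ]

end Crest.Agent.T157.S6a

end
end

-- ▼ part T157/S6Pe_20
section

/-!
# Row 157, block S6 (helper20): the leaves (P) and (Eq)
-/

set_option autoImplicit false

noncomputable section

namespace Crest.Agent.T157.S6a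

open Matrix Real Finset
open Crest.Agent.T157.E Crest.Agent.T157.Eig
open Crest.Agent.T157.Tap (V Mx)
open Crest.Agent.T157.Rec (fl sg_const_mul sg_mono sg_const sg_nonneg)
open Crest.Agent.T157.Da.Gr (loc tt loc_fl)
open Crest.Agent.T157.Chain22 (sg sg_zero hasDerivAt_sg)
open Crest.Agent.T157.Reg (VF mu Tk am off)
open Crest.Agent.T157.Reg.Bas66 (mu_pos)
open Crest.Agent.T157.S6h Crest.Agent.T157.S6 Crest.Agent.T157.S6b

theorem pStmt : PStmt := by
  have c0 : 0 ≤ cP 1 := by unfold cP c32 bL bK; positivity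
  refine ⟨cP 1 + 1, by linarith, fun n W h U hU s hs =>
    ⟨eL W s U, hU.eL h.sym s, sg_dv h.pos h.sym hU s, fun x => ?_⟩⟩
  have := P32_LL h.pos h.sym h.op (U := fun s => eL W s U) (g := fun _ => 0)
    (fun s => hU.eL h.sym s) (fun s x k => by
      simpa using hasDerivAt_ev (hasDerivAt_eL h.sym hU s) x k) (fun _ _ => continuous_const) hs x
  simp only [eL_zero, Pi.zero_apply, dotProduct_zero, zero_rpow (show (3 / 4 : ℝ) ≠ 0 by norm_num),
    duh, sg_const h.pos (mu_pos W), mul_zero, intervalIntegral.integral_zero, add_zero] at this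
  exact this.trans (mul_le_mul_of_nonneg_right (exp_le_exp.2 (by nlinarith))
    (sg_nonneg h.pos (mu_pos W) hs (fun z => rpow_nonneg (dn _) _) x))

namespace Pe20

variable {n : ℕ} {W : Mx n} {K : ℝ}

theorem twF_z' (hW : Wᵀ = W) (hK : opn W ≤ K) {y : VF n} (hy : FrV y) (F : Cube n → ℝ) (x : Cube n) :
    TwF (Tk W) (fun z j => y z j - F z) (fun z j => Lc W j (cp y j) z - gen (mu W) F z) x (bK K * K) 0
      (bM K * √(aS (Tk W) F x)) := by
  set Z : VF n := fun z j => y z j - F z with hZ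
  have h1 := tw_rate (u := Z x) (v := inc Z x) (fun j => (Tk_pos W x j).le) (δ := dr W x)
    (c := fun k j => bK K * |W j k|) (fun k j => dr_le hW hK x k j _) (dr_sq hK)
  have b0 := mul_nonneg (bK_pos K).le ((opn_nonneg W).trans hK)
  refine (h1.add (tw_src (dr W x *ᵥ fun i => dl i F x)) b0 le_rfl).mono (le_of_eq ?_) (by linarith)
    (by linarith) (by linarith) ?_
  · simp only [dotProduct, ← sum_add_distrib, ← sum_sub_distrib]
    refine sum_congr rfl fun j _ => ?_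
    rw [Lc_eq hW (hy j), gen_dl hW, gen_dl hW, mulVec, dotProduct]
    simp only [inc, hZ, Pi.sub_apply, dl, cp, ← mul_add, ← mul_sub, ← sum_add_distrib,
      ← sum_sub_distrib]
    congr 1
    exact sum_congr rfl fun i _ => by ring
  · rw [zero_add]
    refine (nr_dr hW hK x _).trans (le_of_eq ?_)
    simp only [nr, aS, dotProduct, dl, sq]

theorem cc_abs (W : Mx n) (x : Cube n) (k : Fin n) : |cc W x k| ≤ 1 :=
  abs_le.2 ⟨le_trans (by norm_num) (c_mem W x k).1, (c_mem W x k).2⟩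

theorem qq_le (hW : Wᵀ = W) (x : Cube n) {j k : Fin n} (h : j ≠ k) :
    |qq W x j k| ≤ 1 ∧ |qq W x j k - cc W x k| ≤ 4 * |W k j| := by
  rw [qq, sym hW k j]
  split_ifs with e
  · exact ⟨cc_abs W x k, by simp⟩
  have p := abs_pos.2 e
  have a := am_near hW x j k
  simp only [off, of_apply, if_neg h, one_mul] at a
  refine ⟨by rw [abs_div, div_le_one p, sym hW j k]; exact (abs_am_le W x j k).1, ?_⟩
  rw [show am W x j k / W j k - cc W x k = (am W x j k - W j k * (1 - tt W 0 x k ^ 2)) / W j k by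
    rw [cc]; field_simp, abs_div, div_le_iff₀ p, mul_assoc, abs_mul_abs_self, ← sq]
  exact a

theorem fr_qq (hW : Wᵀ = W) {j k : Fin n} (h : j ≠ k) : Fr j fun x => qq W x j k := fun x => by
  simp only [qq, am_fl]
  split_ifs with e
  · simp only [cc, tt, loc_fl, if_neg h, sym hW k j, e, mul_zero, sub_zero]
  · rfl

theorem fr_src (hW : Wᵀ = W) (ψ : VF n) {j k : Fin n} (h : j ≠ k) :
    Fr j fun z => qq W z j k * Ec W k j (cp ψ k) z := fun x => by
  have a := fr_qq hW h x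
  simp only at a ⊢
  rw [a, fr_Ec]

theorem fr_yy (hn : 0 < n) (hW : Wᵀ = W) (ψ : VF n) (v : ℝ) (k : Fin n) :
    FrV fun x j => yy W ψ v k j x := fun j x => by
  simp only [cp, yy]
  split_ifs with e
  · rfl
  · exact (fr_src hW ψ e).sg_cw hn hW v x

theorem fr_alf (hn : 0 < n) (hW : Wᵀ = W) {ω : VF n} (h : FrV ω) (s : ℝ) : FrV (alf W ω s) :=
  fun k x => by simp only [cp, alf]; rw [(h k).sg_cw hn hW s x]

/-- the constant of the marker equations -/
def b0 : ℝ := bK 1 + bM 1 + 2 * (4 * 1) ^ 2 + 2 * (1 + bK 1 * 1) ^ 2 + 1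

theorem b0_ge : bK 1 * 1 ≤ b0 ∧ bM 1 ≤ b0 ∧ 2 * (4 * 1) ^ 2 + 2 * (1 + bK 1 * 1) ^ 2 + 1 ≤ b0 ^ 2 ∧
    1 ≤ b0 := by
  have a := bK_pos 1
  have b : 0 ≤ bM 1 := by unfold bM; positivity
  have c := sq_nonneg (1 + bK 1 * 1)
  have d : 1 ≤ b0 := by unfold b0; linarith
  refine ⟨by unfold b0; linarith, by unfold b0; linarith, ?_, d⟩
  have : 2 * (4 * 1) ^ 2 + 2 * (1 + bK 1 * 1) ^ 2 + 1 ≤ b0 := by unfold b0; linarith
  nlinarith

theorem mk (h : Ok W 1 1) {ω : VF n} (hω : FrV ω) (k : Fin n) :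
    Mk (mu W) (Tk W) b0 (fun u => cp (alf W ω u) k)
      (fun u z => Lc W k (cp (alf W ω u) k) z - 1 * cp (alf W ω u) k z)
      (fun u v => ka W (alf W ω u) v k) (fun u v x j => zz W (alf W ω u) v k j x)
      (fun u v x j => Lc W j (yy W (alf W ω u) v k j) x - gen (mu W) (ka W (alf W ω u) v k) x) where
  da s x := by
    refine ((hasDerivAt_neg s).exp.mul (hasDerivAt_sg_cw h.pos h.sym (hω k) x s)).congr_deriv ?_
    simp only [Lc, dl, cp, alf, ← mul_sub, mul_left_comm _ (exp (-s)), ← mul_sum]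
    ring
  ta s x := (twF_al h.sym h.op (fr_alf h.pos h.sym hω s k) zero_le_one x).mono le_rfl
    (by linarith [bK_pos 1]) b0_ge.1 le_rfl le_rfl
  dk u v x := hasDerivAt_sg h.pos (mu_pos W) _ x v
  k0 u x := by
    simp only [ka, sg_zero h.pos (mu_pos W), mul_pow, cp]
    exact mul_le_of_le_one_left (sq_nonneg _) ((sq_le_one_iff_abs_le_one _).2 (cc_abs W x k))
  dz u v x j := by
    refine HasDerivAt.sub ?_ (hasDerivAt_sg h.pos (mu_pos W) _ x v)
    by_cases e : j = k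
    · simp only [yy, if_pos e, Lc, dl, sub_self, mul_zero, sum_const_zero]
      exact hasDerivAt_const _ _
    · have : yy W (alf W ω u) v k j = sg (cw W j) v
          fun z => qq W z j k * Ec W k j (cp (alf W ω u) k) z := funext fun _ => if_neg e
      simp only [this, yy, if_neg e]
      exact hasDerivAt_sg_cw h.pos h.sym (fr_src h.sym _ e) x v
  tz u v x := (twF_z' h.sym h.op (fr_yy h.pos h.sym _ v k) _ x).mono le_rfl
    (by linarith [bK_pos 1]) b0_ge.1 le_rfl (mul_le_mul_of_nonneg_right b0_ge.2.1 (sqrt_nonneg _))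
  z0 u x := by
    have a := z0_le h.sym h.op k (cp (alf W ω u) k) x (q := fun j => qq W x j k) (c := cc W x k)
      (b := 4) fun j hj => qq_le h.sym x hj
    have b : (cc W x k * cp (alf W ω u) k x) ^ 2 ≤ cp (alf W ω u) k x ^ 2 := by
      rw [mul_pow]
      exact mul_le_of_le_one_left (sq_nonneg _) ((sq_le_one_iff_abs_le_one _).2 (cc_abs W x k))
    have e : ∀ j, zz W (alf W ω u) 0 k j x * zz W (alf W ω u) 0 k j x =
        (if j = k then 0 else qq W x j k * Ec W k j (cp (alf W ω u) k) x -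
          cc W x k * cp (alf W ω u) k x) ^ 2 +
        if j = k then (cc W x k * cp (alf W ω u) k x) ^ 2 else 0 := fun j => by
      simp only [zz, yy, ka, sg_zero h.pos (mu_pos W), sg_zero h.pos (cw_pos W j), cp]
      split_ifs <;> ring
    simp only [dotProduct, e, sum_add_distrib, sum_ite_eq', mem_univ, if_true]
    nlinarith [mul_le_mul_of_nonneg_right b0_ge.2.2.1 (add_nonneg (sq_nonneg (cp (alf W ω u) k x))
      (aS_nn (r := Tk W) (cp (alf W ω u) k) x)), aS_nn (r := Tk W) (cp (alf W ω u) k) x]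

theorem Z1_eq (ψ : VF n) (v : ℝ) (k : Fin n) (x : Cube n) : Z1 W ψ v k x =
    ka W ψ v k x ^ 2 + (fun j => zz W ψ v k j x) ⬝ᵥ fun j => zz W ψ v k j x := by
  simp only [Z1, dotProduct, sq]

theorem Z2_eq (ψ : VF n) (v : ℝ) (k : Fin n) : S6a.Z2 W ψ v k =
    S6b.Z2 (Tk W) (ka W ψ v k) fun x j => zz W ψ v k j x := by
  funext x
  rw [S6a.Z2, S6b.Z2, Z1_eq]
  congr 1
  simp only [aa, aV, dotProduct, mul_sum]
  rw [sum_comm]
  exact sum_congr rfl fun i _ => sum_congr rfl fun j _ => by simp only [inc, dl, Pi.sub_apply]; ring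

theorem abs_sg_le {w F : Cube n → ℝ} (hn : 0 < n) (hw : ∀ x, 0 < w x) {s M : ℝ} (hs : 0 ≤ s)
    (h : ∀ x, |F x| ≤ M) (x : Cube n) : |sg w s F x| ≤ M := by
  have a := sg_mono hn hw hs (fun z => (abs_le.1 (h z)).1) x
  have b := sg_mono hn hw hs (fun z => (abs_le.1 (h z)).2) x
  rw [sg_const hn hw] at a b
  exact abs_le.2 ⟨a, b⟩

theorem aa_le {F : Cube n → ℝ} {M : ℝ} (h : ∀ x, |F x| ≤ M) (x : Cube n) :
    aa W F x ≤ n * (2 * M) ^ 2 := by
  refine (sum_le_sum (g := fun _ => (2 * M) ^ 2) fun i _ => ?_).trans (by simp)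
  rw [← sq_abs, abs_mul, abs_of_pos (Tk_pos W x i)]
  refine pow_le_pow_left₀ (mul_nonneg (Tk_pos W x i).le (abs_nonneg _)) ((mul_le_of_le_one_left
    (abs_nonneg _) (Tk_lt W x i).le).trans ((abs_sub _ _).trans ?_)) 2
  linarith [h (fl x i), h x]

theorem alf_le (h : Ok W 1 1) {ω : VF n} {M u : ℝ} (hM : ∀ x k, |ω x k| ≤ M) (hu : 0 ≤ u)
    (x : Cube n) (k : Fin n) : |alf W ω u x k| ≤ M := by
  rw [alf, abs_mul, abs_of_pos (exp_pos _)]
  exact (mul_le_of_le_one_left (abs_nonneg _) (exp_le_one_iff.2 (by linarith))).trans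
    (abs_sg_le h.pos (cw_pos W k) hu (fun z => hM z k) x)

theorem Z2_le (h : Ok W 1 1) {ψ : VF n} {M v : ℝ} (hM : ∀ x k, |ψ x k| ≤ M) (hv : 0 ≤ v)
    (k : Fin n) (x : Cube n) : S6a.Z2 W ψ v k x ≤ 25 * n ^ 2 * M ^ 2 := by
  have M0 : 0 ≤ M := (abs_nonneg _).trans (hM x k)
  have a1 : ∀ x, |ka W ψ v k x| ≤ M := abs_sg_le h.pos (mu_pos W) hv fun z => by
    rw [abs_mul]; exact (mul_le_of_le_one_left (abs_nonneg _) (cc_abs W z k)).trans (hM z k)
  have a2 : ∀ j x, |zz W ψ v k j x| ≤ 2 * M := fun j x => by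
    have : |yy W ψ v k j x| ≤ M := by
      rw [yy]
      split_ifs with e
      · rwa [abs_zero]
      refine abs_sg_le h.pos (cw_pos W j) hv (fun z => ?_) x
      rw [abs_mul]
      refine (mul_le_of_le_one_left (abs_nonneg _) (qq_le h.sym z e).1).trans ?_
      have r0 := rc_pos W k j z
      have r1 := rc_lt W k j z
      have p := abs_le.1 (hM z k)
      have q := abs_le.1 (hM (fl z j) k)
      simp only [Ec, dl, cp]
      exact abs_le.2 ⟨by nlinarith, by nlinarith⟩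
    exact (abs_sub _ _).trans (by linarith [a1 x])
  have b1 : ka W ψ v k x ^ 2 ≤ M ^ 2 := sq_le_sq' (abs_le.1 (a1 x)).1 (abs_le.1 (a1 x)).2
  have b2 : ∑ j, zz W ψ v k j x ^ 2 ≤ n * (2 * M) ^ 2 :=
    (sum_le_sum (g := fun _ => (2 * M) ^ 2) fun j _ =>
      sq_le_sq' (abs_le.1 (a2 j x)).1 (abs_le.1 (a2 j x)).2).trans (by simp)
  have b3 := aa_le (W := W) a1 x
  have b4 : ∑ j, aa W (zz W ψ v k j) x ≤ n * (n * (2 * (2 * M)) ^ 2) :=
    (sum_le_sum (g := fun _ => n * (2 * (2 * M)) ^ 2) fun j _ => aa_le (a2 j) x).trans (by simp)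
  have n1 : (1 : ℝ) ≤ n := Nat.one_le_cast.2 h.pos
  rw [S6a.Z2, Z1]
  nlinarith [mul_le_mul_of_nonneg_right (show (n : ℝ) ≤ n ^ 2 by nlinarith) (sq_nonneg M),
    mul_le_mul_of_nonneg_right n1 (sq_nonneg M)]

end Pe20

open Pe20

theorem eqStmt : EqStmt := by
  have b1 := b0_ge.2.2.2
  have c1 : 0 ≤ k32 b0 := by unfold k32; positivity
  have c2 : 0 ≤ r32 b0 := by unfold r32 c32; positivity
  have c3 := sq_nonneg b0
  refine ⟨12 * b0 ^ 2 + 25 + 2 * k32 b0 + r32 b0, by linarith, fun n W h ω hω =>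
    ⟨fun p hp t ht x k => ?_, fun M hM u hu v hv x k => ?_⟩⟩
  · have m := mk h hω k
    have r := rt_mu h.pos h.sym
    have e : ∀ y, cp (alf W ω 0) k y = ω y k := fun y => by
      simp [cp, alf, sg_zero h.pos (cw_pos W k)]
    have g : ∀ {a b : ℝ}, 0 ≤ a → a ≤ 12 * b0 ^ 2 + 25 + 2 * k32 b0 + r32 b0 →
        b ≤ 12 * b0 ^ 2 + 25 + 2 * k32 b0 + r32 b0 → ∀ q : ℝ,
        a * (exp (b * t) * sg (mu W) t (fun z => (ω z k ^ 2) ^ q) x) ≤
        (12 * b0 ^ 2 + 25 + 2 * k32 b0 + r32 b0) * exp ((12 * b0 ^ 2 + 25 + 2 * k32 b0 + r32 b0) * t) *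
          sg (mu W) t (fun z => (ω z k ^ 2) ^ q) x := fun a0 ha hb q => by
      rw [← mul_assoc]
      exact mul_le_mul_of_nonneg_right (mul_le_mul ha (exp_le_exp.2 (mul_le_mul_of_nonneg_right hb ht))
        (exp_pos _).le (by linarith)) (sg_nonneg h.pos (mu_pos W) ht
          (fun z => rpow_nonneg (sq_nonneg _) _) x)
    rcases hp with rfl | rfl
    · refine le_trans ?_ (g (a := 12 * b0 ^ 2 + 4) (b := 2 * b0 ^ 2 + 2) (by positivity) (by linarith)
        (by linarith) 1)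
      simpa only [rpow_one, Z1_eq, Z2_eq, e] using m.eq2 r ht x
    · refine le_trans ?_ (g (a := 2 * k32 b0) (b := r32 b0) (by positivity) (by linarith)
        (by linarith) (3 / 4))
      simpa only [Z1_eq, Z2_eq, e] using m.eq32 r (by linarith) ht x
  · refine (Z2_le h (alf_le h hM hu) hv k x).trans ?_
    gcongr
    linarith

end Crest.Agent.T157.S6a

end
end

-- ▼ part T157/S6EbA_83
section

/-!
# Row 157, block S6 (helper83): the algebra of the error bound (arrays at one point)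
-/

set_option autoImplicit false
set_option linter.unusedSectionVars false

noncomputable section

namespace Crest.Agent.T157.S6e

open Matrix Real Finset
open Crest.Agent.T157.Eig

variable {ι : Type*} [Fintype ι] [DecidableEq ι]

lemma nrm_le_sq {v : ι → ℝ} {c : ℝ} (hc : 0 ≤ c) (h : ∑ j, v j ^ 2 ≤ c ^ 2) : nrm v ≤ c :=
  (nrm_le_iff hc).2 (by simpa only [dotProduct, sq] using h)

/-- Cauchy–Schwarz in every coordinate -/
lemma nrm_cs {P : Type*} [Fintype P] (f g : ι → P → ℝ) {B D : ℝ} (hB : 0 ≤ B) (hD : 0 ≤ D)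
    (hf : ∀ j, ∑ p, f j p ^ 2 ≤ B ^ 2) (hg : ∑ j, ∑ p, g j p ^ 2 ≤ D ^ 2) :
    nrm (fun j => ∑ p, f j p * g j p) ≤ B * D := by
  refine nrm_le_sq (mul_nonneg hB hD) ?_
  calc ∑ j, (∑ p, f j p * g j p) ^ 2 ≤ ∑ j, B ^ 2 * ∑ p, g j p ^ 2 :=
        sum_le_sum fun j _ => (sum_mul_sq_le_sq_mul_sq _ _ _).trans
          (mul_le_mul_of_nonneg_right (hf j) (sum_nonneg fun _ _ => sq_nonneg _))
    _ = B ^ 2 * ∑ j, ∑ p, g j p ^ 2 := (mul_sum _ _ _).symm
    _ ≤ B ^ 2 * D ^ 2 := mul_le_mul_of_nonneg_left hg (sq_nonneg _)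
    _ = _ := by ring

lemma col_le {P : Type*} [Fintype P] [DecidableEq P] (X : Matrix P ι ℝ) {M : ℝ} (h : opn X ≤ M)
    (j : ι) : ∑ p, X p j ^ 2 ≤ M ^ 2 := by
  have h1 := nrm_mulVec_le X (Pi.single j 1)
  rw [nrm_single, mul_one, mulVec_single_one] at h1
  have h2 := (nrm_le_iff ((opn_nonneg X).trans h)).1 (h1.trans h)
  simpa only [dotProduct, sq, col_apply] using h2

/-- coefficients at one point -/
structure Co (J a q : Matrix ι ι ℝ) (r s : ι → ℝ) (K c : ℝ) : Prop where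
  K0 : 0 ≤ K
  c0 : 0 ≤ c
  sym : ∀ i j, J i j = J j i
  row : ∀ j, ∑ i, J j i ^ 2 ≤ K ^ 2
  ha : ∀ j i, |a j i| ≤ |J j i|
  a0 : ∀ j, a j j = 0
  r0 : ∀ i, 0 ≤ r i
  q1 : ∀ j i, |q j i| ≤ 1
  hq : ∀ j i, |q j i - r i| ≤ c * |J j i| * r i
  hs : ∀ i, |s i| = 1

/-- the marker scalars at one point -/
structure Mk (ι : Type*) where
  ka : ι → ℝ
  dk : ι → ι → ℝ
  z : ι → ι → ℝ
  dz : ι → ι → ι → ℝ

variable {J a q : Matrix ι ι ℝ} {r s : ι → ℝ} {K c : ℝ}

/-- the summand of the error -/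
def ep (a q w : Matrix ι ι ℝ) (s : ι → ℝ) (X : Matrix (ι × ι) ι ℝ) (m : Mk ι) (j k i : ι) : ℝ :=
  (if j = k then 0 else -(q j i * (m.dk k i + m.dz k j i) * (-2 * s i * X (k, i) j)) +
      (m.ka k + m.z k j) * (a j i * (w i k + q i j * (-2 * s j * X (k, i) j)))) -
    if i = k then 0 else a j i * ((m.ka k + m.z k i) * w i k + q i j *
      ((m.ka k + m.z k i + (m.dk k j + m.dz k i j)) * (w i k + -2 * s j * X (k, i) j) -
        (m.ka k + m.z k i) * w i k))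

/-- indicator -/
def δ (i k : ι) : ℝ := if i = k then 1 else 0

def gA (q : Matrix ι ι ℝ) (r : ι → ℝ) (m : Mk ι) (j k i : ι) : ℝ :=
  (q j i - r i) * m.dk k i + q j i * m.dz k j i - δ j k * (q j i * m.dk k i)

def gB (q : Matrix ι ι ℝ) (m : Mk ι) (j k i : ι) : ℝ :=
  q i j * m.z k i - q i j * m.z k j + q i j * m.dk k j + q i j * m.dz k i j -
    δ i k * (q i j * m.ka k) - δ i k * (q i j * m.dk k j) + δ j k * (q i j * m.ka k)

def gX (a q : Matrix ι ι ℝ) (r s : ι → ℝ) (m : Mk ι) (j k i : ι) : ℝ :=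
  2 * (s i * gA q r m j k i) + 2 * (s j * (a j i * gB q m j k i))

def gW (q : Matrix ι ι ℝ) (r : ι → ℝ) (m : Mk ι) (j k i : ι) : ℝ :=
  -((q i j - r j) * m.dk k j) - q i j * m.dz k i j + δ i k * (q i j * m.dk k j)

def gG (r : ι → ℝ) (m : Mk ι) (j k : ι) : ℝ := m.z k j - δ j k * m.ka k - r j * m.dk k j

/-- the common majorant -/
def mj (J : Matrix ι ι ℝ) (r : ι → ℝ) (m : Mk ι) (j k i : ι) : ℝ :=
  |J j i| * |r i * m.dk k i| + |J j i| * |r j * m.dk k j| + |J j i| * |m.z k i| +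
    |J j i| * |m.z k j| + |r i * m.dz k j i| + |r j * m.dz k i j| + δ i k * (|J j i| * |m.ka k|) +
    δ i k * |r j * m.dk k j| + δ j k * |r i * m.dk k i| + δ j k * (|J j i| * |m.ka k|)

lemma ep_eq (a0 : ∀ j, a j j = 0) (w : Matrix ι ι ℝ) {X : Matrix (ι × ι) ι ℝ}
    (X0 : ∀ k i, X (k, i) i = 0) {m : Mk ι} (z0 : ∀ k, m.z k k = 0) (dz0 : ∀ k i, m.dz k k i = 0)
    (j k i : ι) : ep a q w s X m j k i = 2 * (X (k, i) j * (s i * (r i * m.dk k i))) +
      δ i k * (a j k * (m.ka k * w k k)) - a j i * (w i k * m.z k i) + X (k, i) j * gX a q r s m j k i +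
      a j i * w i k * gW q r m j k i + a j i * w i k * gG r m j k := by
  unfold ep gX gA gB gW gG δ
  by_cases h1 : j = k <;> by_cases h2 : i = k
  · subst h1; subst h2; simp [a0, X0]
  · subst h1; simp only [if_true, if_neg h2, z0, dz0]; ring
  · subst h2; simp only [if_true, if_neg h1, z0, dz0]; ring
  · simp only [if_neg h1, if_neg h2]; ring

lemma δ_nn (i k : ι) : 0 ≤ δ i k := by unfold δ; split_ifs <;> norm_num
lemma δ_le (i k : ι) : δ i k ≤ 1 := by unfold δ; split_ifs <;> norm_num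
lemma δ_sq (i k : ι) (t : ℝ) : (δ i k * t) ^ 2 = δ i k * t ^ 2 := by unfold δ; split_ifs <;> simp
lemma sum_δ (k : ι) (f : ι → ℝ) : ∑ i, δ i k * f i = f k := by simp [δ]
lemma sum_δ' (j : ι) (f : ι → ℝ) : ∑ k, δ j k * f k = f j := by simp [δ]

namespace Co

lemma J_le (h : Co J a q r s K c) (j i : ι) : |J j i| ≤ K :=
  abs_le_of_sq_le_sq' ((single_le_sum (f := fun i => J j i ^ 2) (fun _ _ => sq_nonneg _)
    (mem_univ i)).trans (h.row j)) h.K0 |> abs_le.2

lemma col (h : Co J a q r s K c) (i : ι) : ∑ j, J j i ^ 2 ≤ K ^ 2 := by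
  simpa only [h.sym i] using h.row i

lemma q_sub (h : Co J a q r s K c) (j i : ι) (t : ℝ) : |(q j i - r i) * t| ≤ c * (|J j i| * |r i * t|) := by
  rw [abs_mul, abs_mul, abs_of_nonneg (h.r0 i)]
  have := mul_le_mul_of_nonneg_right (h.hq j i) (abs_nonneg t)
  linarith

lemma q_mul (h : Co J a q r s K c) (j i : ι) (t : ℝ) : |q j i * t| ≤ (1 + c * K) * |r i * t| := by
  have h1 := h.q_sub j i t
  have h2 := mul_le_mul_of_nonneg_left (mul_le_mul_of_nonneg_right (h.J_le j i)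
    (abs_nonneg (r i * t))) h.c0
  have h3 := abs_add_le ((q j i - r i) * t) (r i * t)
  rw [show (q j i - r i) * t + r i * t = q j i * t by ring] at h3
  linarith

lemma q_le (h : Co J a q r s K c) (j i : ι) (t : ℝ) : |q j i * t| ≤ |t| := by
  rw [abs_mul]; exact mul_le_of_le_one_left (abs_nonneg t) (h.q1 j i)

end Co

lemma abs_δ (i k : ι) (t : ℝ) : |δ i k * t| = δ i k * |t| := by
  rw [abs_mul, abs_of_nonneg (δ_nn i k)]

/-- the constant of the majorant -/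
def cD (K c : ℝ) : ℝ := (1 + c + c * K) * (1 + K)

lemma g_le (h : Co J a q r s K c) (m : Mk ι) (j k i : ι) :
    |gX a q r s m j k i| ≤ 4 * cD K c * mj J r m j k i ∧
      |gW q r m j k i| ≤ cD K c * mj J r m j k i := by
  have hK := h.K0
  have hc := h.c0
  have hcK := mul_nonneg hc hK
  obtain ⟨d1, d2, d3, d4⟩ : c ≤ cD K c ∧ 1 + c * K ≤ cD K c ∧ 1 ≤ cD K c ∧
      (1 + c * K) * K ≤ cD K c := by
    unfold cD
    refine ⟨?_, ?_, ?_, ?_⟩ <;> nlinarith [mul_nonneg hcK hK]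
  set D := cD K c
  have hJ := abs_nonneg (J j i)
  have hJK := h.J_le j i
  have e1 := δ_nn i k
  have e2 := δ_nn j k
  set t1 := |J j i| * |r i * m.dk k i| with ht1
  set t2 := |J j i| * |r j * m.dk k j| with ht2
  set t3 := |J j i| * |m.z k i| with ht3
  set t4 := |J j i| * |m.z k j| with ht4
  set t5 := |r i * m.dz k j i| with ht5
  set t6 := |r j * m.dz k i j| with ht6
  set t7 := δ i k * (|J j i| * |m.ka k|) with ht7
  set t8 := δ i k * |r j * m.dk k j| with ht8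
  set t9 := δ j k * |r i * m.dk k i| with ht9
  set t10 := δ j k * (|J j i| * |m.ka k|) with ht10
  have em : mj J r m j k i = t1 + t2 + t3 + t4 + t5 + t6 + t7 + t8 + t9 + t10 := rfl
  have up : ∀ {u t b : ℝ}, 0 ≤ t → b ≤ D → u ≤ b * t → u ≤ D * t := fun ht hb hu =>
    hu.trans (mul_le_mul_of_nonneg_right hb ht)
  have p1 : 0 ≤ t1 := by positivity
  have p2 : 0 ≤ t2 := by positivity
  have p3 : 0 ≤ t3 := by positivity
  have p4 : 0 ≤ t4 := by positivity
  have p5 : 0 ≤ t5 := by positivity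
  have p6 : 0 ≤ t6 := by positivity
  have p7 : 0 ≤ t7 := by positivity
  have p8 : 0 ≤ t8 := by positivity
  have p9 : 0 ≤ t9 := by positivity
  have p10 : 0 ≤ t10 := by positivity
  have D0 : 0 ≤ D := by linarith
  have n1 := mul_nonneg D0 p1
  have n2 := mul_nonneg D0 p2
  have n3 := mul_nonneg D0 p3
  have n4 := mul_nonneg D0 p4
  have n5 := mul_nonneg D0 p5
  have n6 := mul_nonneg D0 p6
  have n7 := mul_nonneg D0 p7
  have n8 := mul_nonneg D0 p8
  have n9 := mul_nonneg D0 p9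
  have n10 := mul_nonneg D0 p10
  have a1 := abs_le.1 (up p1 d1 (h.q_sub j i (m.dk k i)))
  have a2 := abs_le.1 (up p5 d2 (h.q_mul j i (m.dz k j i)))
  have a3 : |δ j k * (q j i * m.dk k i)| ≤ D * t9 := up p9 d2 (by
    rw [abs_δ, ht9, mul_left_comm]; exact mul_le_mul_of_nonneg_left (h.q_mul j i _) e2)
  have a3' := abs_le.1 a3
  have hA : |gA q r m j k i| ≤ D * (t1 + t5 + t9) := by
    rw [gA, abs_le]; constructor <;> linarith [a1.1, a1.2, a2.1, a2.2, a3'.1, a3'.2]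
  have ja : ∀ {u t : ℝ}, |u| ≤ t → |a j i * u| ≤ |J j i| * t := fun hu => by
    rw [abs_mul]; exact mul_le_mul (h.ha j i) hu (abs_nonneg _) hJ
  have b1 := abs_le.1 (up p3 d3 ((ja (h.q_le i j (m.z k i))).trans_eq (one_mul _).symm))
  have b2 := abs_le.1 (up p4 d3 ((ja (h.q_le i j (m.z k j))).trans_eq (one_mul _).symm))
  have b3 := abs_le.1 (up p2 d2 ((ja (h.q_mul i j (m.dk k j))).trans_eq (by rw [ht2]; ring)))
  have b4 : |a j i * (q i j * m.dz k i j)| ≤ D * t6 := up p6 d4 ((ja (h.q_mul i j _)).trans (by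
    have := mul_le_mul_of_nonneg_right hJK (mul_nonneg (by linarith : 0 ≤ 1 + c * K) p6)
    linarith))
  have b4' := abs_le.1 b4
  have b5 : |a j i * (δ i k * (q i j * m.ka k))| ≤ D * t7 := up p7 d3 (by
    rw [mul_left_comm, abs_δ, one_mul]; exact mul_le_mul_of_nonneg_left (ja (h.q_le i j _)) e1)
  have b5' := abs_le.1 b5
  have b6 : |a j i * (δ i k * (q i j * m.dk k j))| ≤ D * t2 := up p2 d2 (by
    rw [mul_left_comm, abs_δ]
    exact (mul_le_of_le_one_left (abs_nonneg _) (δ_le i k)).trans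
      ((ja (h.q_mul i j _)).trans_eq (by rw [ht2]; ring)))
  have b6' := abs_le.1 b6
  have b7 : |a j i * (δ j k * (q i j * m.ka k))| ≤ D * t10 := up p10 d3 (by
    rw [mul_left_comm, abs_δ, one_mul]; exact mul_le_mul_of_nonneg_left (ja (h.q_le i j _)) e2)
  have b7' := abs_le.1 b7
  have hB : |a j i * gB q m j k i| ≤ D * (t3 + t4 + 2 * t2 + t6 + t7 + t10) := by
    rw [gB, abs_le]
    constructor <;> linarith [b1.1, b1.2, b2.1, b2.2, b3.1, b3.2, b4'.1, b4'.2, b5'.1, b5'.2, b6'.1,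
      b6'.2, b7'.1, b7'.2]
  have c1 := abs_le.1 (up p2 d1 ((h.q_sub i j (m.dk k j)).trans_eq (by rw [ht2, h.sym i j])))
  have c2 := abs_le.1 (up p6 d2 (h.q_mul i j (m.dz k i j)))
  have c3 : |δ i k * (q i j * m.dk k j)| ≤ D * t8 := up p8 d2 (by
    rw [abs_δ, ht8, mul_left_comm]; exact mul_le_mul_of_nonneg_left (h.q_mul i j _) e1)
  have c3' := abs_le.1 c3
  rw [em]
  constructor
  · have s1 : |s i * gA q r m j k i| = |gA q r m j k i| := by rw [abs_mul, h.hs, one_mul]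
    have s2 : |s j * (a j i * gB q m j k i)| = |a j i * gB q m j k i| := by
      rw [abs_mul, h.hs, one_mul]
    have s3 := abs_le.1 (s1.trans_le hA)
    have s4 := abs_le.1 (s2.trans_le hB)
    rw [gX, abs_le]; constructor <;> linarith [s3.1, s3.2, s4.1, s4.2]
  · rw [gW, abs_le]; constructor <;> linarith [c1.1, c1.2, c2.1, c2.2, c3'.1, c3'.2]

/-- the size of the marker scalars -/
structure Sz (r : ι → ℝ) (m : Mk ι) (N : ℝ) : Prop where
  N0 : 0 ≤ N
  ka : ∑ k, m.ka k ^ 2 ≤ N ^ 2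
  z : ∑ k, ∑ j, m.z k j ^ 2 ≤ N ^ 2
  dk : ∑ k, ∑ i, (r i * m.dk k i) ^ 2 ≤ N ^ 2
  dz : ∑ k, ∑ j, ∑ i, (r i * m.dz k j i) ^ 2 ≤ N ^ 2

lemma s3_i (h : Co J a q r s K c) {b : ι → ι → ℝ} {N : ℝ} (hb : ∑ k, ∑ i, b k i ^ 2 ≤ N ^ 2) :
    ∑ j, ∑ k, ∑ i, (|J j i| * |b k i|) ^ 2 ≤ K ^ 2 * N ^ 2 := by
  calc ∑ j, ∑ k, ∑ i, (|J j i| * |b k i|) ^ 2 = ∑ k, ∑ i, (∑ j, J j i ^ 2) * b k i ^ 2 := by
        rw [sum_comm]; refine sum_congr rfl fun k _ => ?_
        rw [sum_comm]; refine sum_congr rfl fun i _ => ?_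
        simp only [mul_pow, sq_abs, sum_mul]
    _ ≤ ∑ k, ∑ i, K ^ 2 * b k i ^ 2 := sum_le_sum fun k _ => sum_le_sum fun i _ =>
        mul_le_mul_of_nonneg_right (h.col i) (sq_nonneg _)
    _ ≤ _ := by simp only [← mul_sum]; exact mul_le_mul_of_nonneg_left hb (sq_nonneg _)

lemma s3_j (h : Co J a q r s K c) {b : ι → ι → ℝ} {N : ℝ} (hb : ∑ k, ∑ j, b k j ^ 2 ≤ N ^ 2) :
    ∑ j, ∑ k, ∑ i, (|J j i| * |b k j|) ^ 2 ≤ K ^ 2 * N ^ 2 := by
  calc ∑ j, ∑ k, ∑ i, (|J j i| * |b k j|) ^ 2 = ∑ k, ∑ j, (∑ i, J j i ^ 2) * b k j ^ 2 := by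
        rw [sum_comm]
        simp only [mul_pow, sq_abs, sum_mul]
    _ ≤ ∑ k, ∑ j, K ^ 2 * b k j ^ 2 := sum_le_sum fun k _ => sum_le_sum fun j _ =>
        mul_le_mul_of_nonneg_right (h.row j) (sq_nonneg _)
    _ ≤ _ := by simp only [← mul_sum]; exact mul_le_mul_of_nonneg_left hb (sq_nonneg _)

lemma mj_le (h : Co J a q r s K c) {m : Mk ι} {N : ℝ} (z : Sz r m N) :
    ∑ j, ∑ k, ∑ i, mj J r m j k i ^ 2 ≤ (8 * (1 + K) * N) ^ 2 := by
  have u1 := s3_i h z.dk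
  have u2 := s3_j h z.dk
  have u3 := s3_i h z.z
  have u4 := s3_j h z.z
  have u5 : ∑ j, ∑ k, ∑ i, |r i * m.dz k j i| ^ 2 ≤ N ^ 2 := by
    rw [sum_comm]; simpa only [sq_abs] using z.dz
  have u6 : ∑ j, ∑ k, ∑ i, |r j * m.dz k i j| ^ 2 ≤ N ^ 2 := by
    rw [sum_comm]
    refine le_trans (le_of_eq (sum_congr rfl fun k _ => ?_)) z.dz
    rw [sum_comm]; simp only [sq_abs]
  have u7 : ∑ j, ∑ k, ∑ i, (δ i k * (|J j i| * |m.ka k|)) ^ 2 ≤ K ^ 2 * N ^ 2 := by
    simp only [δ_sq, sum_δ]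
    simp only [mul_pow, sq_abs]
    rw [sum_comm]
    simp only [← sum_mul]
    refine (sum_le_sum fun k _ => mul_le_mul_of_nonneg_right (h.col k) (sq_nonneg _)).trans ?_
    rw [← mul_sum]; exact mul_le_mul_of_nonneg_left z.ka (sq_nonneg _)
  have u8 : ∑ j, ∑ k, ∑ i, (δ i k * |r j * m.dk k j|) ^ 2 ≤ N ^ 2 := by
    simp only [δ_sq, sum_δ, sq_abs]
    rw [sum_comm]; exact z.dk
  have u9 : ∑ j, ∑ k, ∑ i, (δ j k * |r i * m.dk k i|) ^ 2 ≤ N ^ 2 := by
    simp only [δ_sq, ← mul_sum, sum_δ', sq_abs]; exact z.dk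
  have u10 : ∑ j, ∑ k, ∑ i, (δ j k * (|J j i| * |m.ka k|)) ^ 2 ≤ K ^ 2 * N ^ 2 := by
    simp only [δ_sq, ← mul_sum, sum_δ']
    simp only [mul_pow, sq_abs, ← sum_mul]
    refine (sum_le_sum fun k _ => mul_le_mul_of_nonneg_right (h.row k) (sq_nonneg _)).trans ?_
    rw [← mul_sum]; exact mul_le_mul_of_nonneg_left z.ka (sq_nonneg _)
  have key : ∀ t1 t2 t3 t4 t5 t6 t7 t8 t9 t10 : ℝ,
      (t1 + t2 + t3 + t4 + t5 + t6 + t7 + t8 + t9 + t10) ^ 2 ≤ 10 * (t1 ^ 2 + t2 ^ 2 + t3 ^ 2 +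
        t4 ^ 2 + t5 ^ 2 + t6 ^ 2 + t7 ^ 2 + t8 ^ 2 + t9 ^ 2 + t10 ^ 2) := by
    intro t1 t2 t3 t4 t5 t6 t7 t8 t9 t10
    have := sq_sum_le_card_mul_sum_sq (s := univ) (f := ![t1, t2, t3, t4, t5, t6, t7, t8, t9, t10])
    simp only [Fin.sum_univ_succ, card_univ, Fintype.card_fin] at this
    simp at this
    linarith
  refine (sum_le_sum fun j _ => sum_le_sum fun k _ => sum_le_sum fun i _ =>
    key _ _ _ _ _ _ _ _ _ _).trans ?_
  simp only [← mul_sum, sum_add_distrib]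
  have := h.K0
  nlinarith [sq_nonneg N, mul_nonneg this (sq_nonneg N), mul_nonneg (sq_nonneg K) (sq_nonneg N)]

/-- the constant of the error bound -/
def cE (K A c : ℝ) : ℝ := 8 + 2 * A + 8 * (4 + K) * cD K c * (1 + K)

/-- **the error bound, arrays** -/
theorem err_le (h : Co J a q r s K c) {A M N : ℝ} (hA : opn a ≤ A) {w : Matrix ι ι ℝ}
    {X : Matrix (ι × ι) ι ℝ} {ρ : ι → ℝ} (M0 : 0 ≤ M) (row : ∀ l, ∑ k, w l k ^ 2 ≤ M ^ 2)
    (hop : ∀ j, ∑ k ∈ univ.erase j, (a * w) j k ^ 2 ≤ M ^ 2) (th : ∀ k, |(a * w) k k - ρ k| ≤ M)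
    (hX : opn X ≤ M) (X0 : ∀ k i, X (k, i) i = 0) {m : Mk ι} (z0 : ∀ k, m.z k k = 0)
    (dz0 : ∀ k i, m.dz k k i = 0) (z : Sz r m N) :
    nrm (fun j => ∑ k, (∑ i, ep a q w s X m j k i + δ j k * (ρ k * (m.ka k + r k * m.dk k k)))) ≤
      cE K A c * M * N := by
  have N0 := z.N0
  have K0 := h.K0
  have D0 : 0 ≤ cD K c := by unfold cD; have := h.c0; positivity
  have A0 : 0 ≤ A := (opn_nonneg a).trans hA
  have ww : ∀ i k, w i k ^ 2 ≤ M ^ 2 := fun i k =>
    (single_le_sum (f := fun k => w i k ^ 2) (fun _ _ => sq_nonneg _) (mem_univ k)).trans (row i)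
  have e : (fun j => ∑ k, (∑ i, ep a q w s X m j k i + δ j k * (ρ k * (m.ka k + r k * m.dk k k)))) =
      (2 : ℝ) • (Xᵀ *ᵥ fun p => s p.2 * (r p.2 * m.dk p.1 p.2)) + a *ᵥ (fun k => m.ka k * w k k) -
      a *ᵥ (fun i => ∑ k, w i k * m.z k i) +
      (fun j => ∑ p : ι × ι, X p j * gX a q r s m j p.1 p.2) +
      (fun j => ∑ p : ι × ι, a j p.2 * w p.2 p.1 * gW q r m j p.1 p.2) +
      fun j => ∑ k, ((a * w) j k - δ j k * ρ k) * gG r m j k := by
    funext j
    simp only [ep_eq (r := r) h.a0 w X0 z0 dz0, sum_add_distrib, sum_sub_distrib, sum_δ, sum_δ',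
      Pi.add_apply, Pi.sub_apply, Pi.smul_apply, smul_eq_mul, mulVec, dotProduct, transpose_apply,
      Fintype.sum_prod_type, mul_sum, mul_apply, sub_mul, sum_mul, mul_assoc (δ _ _)]
    rw [sum_comm (f := fun k i => a j i * (w i k * m.z k i))]
    have : gG r m j j = -(m.ka j + r j * m.dk j j) := by simp [gG, δ, z0]; ring
    rw [this]; ring
  have b1 : nrm (Xᵀ *ᵥ fun p : ι × ι => s p.2 * (r p.2 * m.dk p.1 p.2)) ≤ M * N :=
    (nrm_mulVec_le _ _).trans (mul_le_mul (by rwa [opn_transpose]) (nrm_le_sq N0 (by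
      simpa only [Fintype.sum_prod_type, mul_pow (s _), ← sq_abs (s _), h.hs, one_pow, one_mul]
        using z.dk)) (nrm_nonneg _) M0)
  have b2 : nrm (a *ᵥ fun k => m.ka k * w k k) ≤ A * (M * N) :=
    (nrm_mulVec_le _ _).trans (mul_le_mul hA (nrm_le_sq (by positivity) (by
      calc ∑ k, (m.ka k * w k k) ^ 2 ≤ ∑ k, M ^ 2 * m.ka k ^ 2 := sum_le_sum fun k _ => by
            rw [mul_pow, mul_comm]; exact mul_le_mul_of_nonneg_right (ww k k) (sq_nonneg _)
        _ ≤ _ := by rw [← mul_sum, mul_pow]; exact mul_le_mul_of_nonneg_left z.ka (sq_nonneg _)))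
      (nrm_nonneg _) A0)
  have b3 : nrm (a *ᵥ fun i => ∑ k, w i k * m.z k i) ≤ A * (M * N) :=
    (nrm_mulVec_le _ _).trans (mul_le_mul hA (nrm_cs (fun i k => w i k) (fun i k => m.z k i) M0 N0 row
      (by rw [sum_comm]; exact z.z)) (nrm_nonneg _) A0)
  have mm : ∀ (g : ι → ι → ι → ℝ) (D : ℝ), (∀ j k i, |g j k i| ≤ D * mj J r m j k i) →
      ∑ j, ∑ p : ι × ι, g j p.1 p.2 ^ 2 ≤ (D * (8 * (1 + K) * N)) ^ 2 := fun g D hg => by
    calc ∑ j, ∑ p : ι × ι, g j p.1 p.2 ^ 2 ≤ ∑ j, ∑ p : ι × ι, D ^ 2 * mj J r m j p.1 p.2 ^ 2 :=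
          sum_le_sum fun j _ => sum_le_sum fun p _ => by
            rw [← sq_abs, ← mul_pow]; exact pow_le_pow_left₀ (abs_nonneg _) (hg _ _ _) 2
      _ ≤ _ := by
          simp only [← mul_sum, Fintype.sum_prod_type]
          rw [mul_pow D]; exact mul_le_mul_of_nonneg_left (mj_le h z) (sq_nonneg _)
  have b4 := nrm_cs (fun j p => X p j) (fun j p => gX a q r s m j p.1 p.2) M0 (by positivity)
    (col_le X hX) (mm _ _ fun j k i => (g_le h m j k i).1)
  have b5 := nrm_cs (fun j (p : ι × ι) => a j p.2 * w p.2 p.1) (fun j p => gW q r m j p.1 p.2)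
    (B := K * M) (by positivity) (by positivity) (fun j => by
      rw [Fintype.sum_prod_type, sum_comm]
      calc ∑ i, ∑ k, (a j i * w i k) ^ 2 = ∑ i, a j i ^ 2 * ∑ k, w i k ^ 2 := by
            simp only [mul_pow, mul_sum]
        _ ≤ ∑ i, J j i ^ 2 * M ^ 2 := sum_le_sum fun i _ => mul_le_mul (sq_le_sq.2 (h.ha j i)) (row i)
            (sum_nonneg fun _ _ => sq_nonneg _) (sq_nonneg _)
        _ ≤ _ := by rw [← sum_mul, mul_pow]; exact mul_le_mul_of_nonneg_right (h.row j) (sq_nonneg _))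
    (mm _ _ fun j k i => (g_le h m j k i).2)
  have b6 := nrm_cs (fun j k => (a * w) j k - δ j k * ρ k) (gG r m) (B := 2 * M) (D := 3 * N)
    (by positivity) (by positivity) (fun j => by
      rw [← add_sum_erase _ _ (mem_univ j)]
      have h1 : ∑ k ∈ univ.erase j, ((a * w) j k - δ j k * ρ k) ^ 2 ≤ M ^ 2 :=
        le_trans (le_of_eq (sum_congr rfl fun k hk => by
          rw [δ, if_neg (ne_of_mem_erase hk).symm, zero_mul, sub_zero])) (hop j)
      have h2 : ((a * w) j j - δ j j * ρ j) ^ 2 ≤ M ^ 2 := by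
        rw [δ, if_pos rfl, one_mul, ← sq_abs]; exact pow_le_pow_left₀ (abs_nonneg _) (th j) 2
      nlinarith [sq_nonneg M]) (by
      have k3 : ∀ j k, gG r m j k ^ 2 ≤
          3 * (m.z k j ^ 2 + δ j k * m.ka k ^ 2 + (r j * m.dk k j) ^ 2) := fun j k => by
        rw [gG, ← δ_sq]
        nlinarith [sq_nonneg (m.z k j + δ j k * m.ka k), sq_nonneg (m.z k j + r j * m.dk k j),
          sq_nonneg (δ j k * m.ka k - r j * m.dk k j)]
      refine (sum_le_sum fun j _ => sum_le_sum fun k _ => k3 j k).trans ?_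
      simp only [← mul_sum, sum_add_distrib, sum_δ']
      rw [sum_comm, sum_comm (f := fun j k => (r j * m.dk k j) ^ 2)]
      linarith [z.z, z.ka, z.dk])
  rw [e]
  refine (nrm_add_le _ _).trans ((add_le_add_left ((nrm_add_le _ _).trans (add_le_add_left
    ((nrm_add_le _ _).trans (add_le_add_left ((nrm_sub_le _ _).trans (add_le_add_left
    (nrm_add_le _ _) _)) _)) _)) _).trans ?_)
  rw [nrm_smul, abs_two, cE]
  linarith

end Crest.Agent.T157.S6e
end
end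

-- ▼ part T157/S6EbB_83
section

/-!
# Row 157, block S6 (helper83): (ErrBd)
-/

set_option autoImplicit false

noncomputable section

namespace Crest.Agent.T157.S6a

open Matrix Real Finset
open Crest.Agent.T157.E Crest.Agent.T157.Eig
open Crest.Agent.T157.Tap (V Mx)
open Crest.Agent.T157.Rec (grad fl)
open Crest.Agent.T157.Reg (VF mu Tk am jac)
open Crest.Agent.T157.S6h
open Crest.Agent.T157.S6e

namespace Eb83

variable {n : ℕ} {W : Mx n}

/-- the edge rates, with the true rate on the diagonal -/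
def qm (W : Mx n) (x : Cube n) : Mx n := of fun j i => if i = j then Tk W x i else rc W j i x

theorem co (h : Ok W 1 1) (x : Cube n) : Co W (am W x) (qm W x) (Tk W x) (sv x) 1 (4 * exp 4) where
  K0 := zero_le_one
  c0 := by positivity
  sym i j := by conv_lhs => rw [← h.sym, transpose_apply]
  row := h.row
  ha j i := by
    have := (abs_am_le W x j i).1
    rwa [← h.sym, transpose_apply, h.sym] at this
  a0 := am_self W x
  r0 i := (Tk_pos W x i).le
  q1 j i := by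
    rw [qm, of_apply]
    split_ifs
    · exact abs_le.2 ⟨by linarith [Tk_pos W x i], (Tk_lt W x i).le⟩
    · exact abs_le.2 ⟨by linarith [rc_pos W j i x], (rc_lt W j i x).le⟩
  hq j i := by
    have hT := Tk_pos W x i
    rw [qm, of_apply]
    split_ifs with e
    · rw [sub_self, abs_zero]; positivity
    · refine (abs_rc_rel h.sym (Ne.symm e) x).trans ?_
      have e1 : W i j = W j i := by conv_lhs => rw [← h.sym, transpose_apply]
      rw [e1]
      have : exp (4 * |W j i|) ≤ exp 4 := exp_le_exp.2 (by linarith [h.ent j i])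
      gcongr
  hs := abs_sv x

theorem sum_er (k : Fin n) (f : Fin n → ℝ) :
    ∑ i ∈ univ.erase k, f i = ∑ i, if i = k then 0 else f i := by
  rw [← sum_erase univ (a := k) (f := fun i => if i = k then 0 else f i) (if_pos rfl)]
  exact sum_congr rfl fun i hi => (if_neg (ne_of_mem_erase hi)).symm

variable (W) (ρ : ℝ → ℝ) (ψ : VF n) (v : ℝ) (x : Cube n) (T : Finset (Fin n))

/-- the marker scalars at `x` -/
def mk : Mk (Fin n) where
  ka k := if k ∈ T then ka W ψ v k x else 0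
  dk k i := if k ∈ T then dl i (ka W ψ v k) x else 0
  z k j := if k ∈ T ∧ j ≠ k then zz W ψ v k j x else 0
  dz k j i := if k ∈ T ∧ j ≠ k then dl i (zz W ψ v k j) x else 0

/-- the fields -/
def wm : Mx n := of fun i k => if k ∈ T then Om W ρ v x i k else 0

/-- their Jacobians -/
def Xm : Matrix (Fin n × Fin n) (Fin n) ℝ :=
  of fun p j => if p.1 ∈ T then grad (cp (Wk W ρ v p.1) j) x p.2 else 0

theorem er_ep (j k : Fin n) : (if k ∈ T then er W ρ ψ v k x j else 0) =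
    ∑ i, ep (am W x) (qm W x) (wm W ρ v x T) (sv x) (Xm W ρ v x T) (mk W ψ v x T) j k i +
      δ j k * ((if k ∈ T then ρ v else 0) *
        ((mk W ψ v x T).ka k + Tk W x k * (mk W ψ v x T).dk k k)) := by
  by_cases hk : k ∈ T
  swap
  · simp [ep, mk, hk]
  have y0 : yy W ψ v k k = fun _ => 0 := funext fun _ => if_pos rfl
  have X1 : ∀ i j, -2 * sv x i * Xm W ρ v x T (k, i) j = Wk W ρ v k (fl x i) j - Wk W ρ v k x j :=
    fun i j => by rw [Xm, of_apply, if_pos hk, ← dl_eq]; rfl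
  have X2 : ∀ i j, -2 * sv x j * Xm W ρ v x T (k, i) j = Wk W ρ v k (fl x j) i - Wk W ρ v k x i :=
    fun i j => by
      rw [← X1 j i, Xm, of_apply, of_apply, if_pos hk, if_pos hk]
      exact congrArg _ (Da.Gr.grad_comm _ x _ _)
  have w1 : ∀ i, wm W ρ v x T i k = Wk W ρ v k x i := fun i => if_pos hk
  have d0 : ∀ i, Wk W ρ v k (fl x i) i - Wk W ρ v k x i = 0 := fun i =>
    sub_eq_zero.2 (frV_grad _ i x)
  rw [if_pos hk, if_pos hk]
  by_cases h : j = k
  · subst h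
    simp only [er, LL, Lc, Ret, Ek, ep, X2, w1, y0, cp, yW, dl, mk, hk, δ, if_true, zero_mul, sub_self,
      mul_zero, sum_const_zero, zero_add, zero_sub, one_mul, sum_er, true_and, sum_neg_distrib]
    congr 2
    refine sum_congr rfl fun i _ => ?_
    by_cases hi : i = j
    · simp only [hi, if_true]
    · simp only [hi, if_false, Ec, dl, cp, yW, zz, qm, of_apply, Ne.symm hi, ne_eq, not_false_eq_true,
        if_true]
      ring
  · simp only [er, LL, Lc, ep, X1, X2, w1, cp, yW, dl, mk, hk, δ, h, if_true, if_false, zero_mul,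
      add_zero, sum_er, true_and, ne_eq, not_false_eq_true, sum_mul, mul_add, mul_sub, mul_sum]
    rw [← sub_eq_zero]
    have e : ∀ A B C D E F G H : ℝ, G = H → A + (B - G + C) - (D - H + E) - F =
        A + B + C - D - E - F := fun A B C D E F G H e => by rw [e]; ring
    rw [e _ _ _ _ _ _ _ _ rfl]
    simp only [sub_self, add_zero, ← sum_add_distrib, ← sum_sub_distrib]
    refine sum_eq_zero fun i _ => ?_
    by_cases hi : i = j
    · subst hi
      have := d0 i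
      simp only [if_true, h, if_false, am_self, sub_eq_zero.1 this]
      ring
    · by_cases hi' : i = k
      · subst hi'
        simp only [hi, if_false, if_true, Ec, dl, cp, yW, zz, qm, of_apply, Ne.symm hi, y0]
        ring
      · simp only [hi, hi', if_false, Ec, dl, cp, yW, zz, qm, of_apply, Ne.symm hi, not_false_eq_true,
          if_true]
        ring

theorem sum_ite (f : Fin n → ℝ) : ∑ k, (if k ∈ T then f k else 0) = ∑ k ∈ T, f k := by
  rw [sum_ite_mem, univ_inter]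

theorem aa_nn (F : Cube n → ℝ) : 0 ≤ aa W F x := sum_nonneg fun _ _ => sq_nonneg _

theorem sz : Sz (Tk W x) (mk W ψ v x T) √(∑ k ∈ T, Z2 W ψ v k x) := by
  have p1 : ∀ k, 0 ≤ ∑ j, zz W ψ v k j x ^ 2 := fun k => sum_nonneg fun _ _ => sq_nonneg _
  have p2 : ∀ k, 0 ≤ ∑ j, aa W (zz W ψ v k j) x := fun k => sum_nonneg fun _ _ => aa_nn W x _
  have p3 := fun k => aa_nn W x (ka W ψ v k)
  have p4 := fun k => sq_nonneg (ka W ψ v k x)
  have e : √(∑ k ∈ T, Z2 W ψ v k x) ^ 2 = ∑ k, if k ∈ T then Z2 W ψ v k x else 0 := by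
    rw [sum_ite, sq_sqrt (sum_nonneg fun k _ => by
      unfold Z2 Z1; linarith [p1 k, p2 k, p3 k, p4 k])]
  refine ⟨sqrt_nonneg _, ?_, ?_, ?_, ?_⟩ <;> rw [e] <;> refine sum_le_sum fun k _ => ?_ <;>
    by_cases hk : k ∈ T <;> simp only [mk, hk, if_true, if_false, true_and, false_and, mul_zero,
      ne_eq, OfNat.ofNat_ne_zero, not_false_eq_true, zero_pow, sum_const_zero, le_refl, Z2, Z1]
  · linarith [p1 k, p2 k, p3 k]
  · have : ∑ j, (if ¬j = k then zz W ψ v k j x else 0) ^ 2 ≤ ∑ j, zz W ψ v k j x ^ 2 :=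
      sum_le_sum fun j _ => by split_ifs <;> simp [sq_nonneg]
    linarith [p2 k, p3 k, p4 k]
  · have : ∑ i, (Tk W x i * dl i (ka W ψ v k) x) ^ 2 = aa W (ka W ψ v k) x := rfl
    linarith [p1 k, p2 k, p4 k]
  · have : ∑ j, ∑ i, (Tk W x i * if ¬j = k then dl i (zz W ψ v k j) x else 0) ^ 2 ≤
        ∑ j, aa W (zz W ψ v k j) x := sum_le_sum fun j _ => by
      split_ifs
      · simpa using aa_nn W x _
      · rfl
    linarith [p1 k, p3 k, p4 k]

variable {W ρ v x T}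

theorem mul_wm (j k : Fin n) :
    (am W x * wm W ρ v x T) j k = if k ∈ T then (am W x * Om W ρ v x) j k else 0 := by
  simp only [mul_apply, wm, of_apply]
  split_ifs <;> simp

theorem opn_Xm {o ε : ℝ} (h : Loc W ρ v x T o ε) : opn (Xm W ρ v x T) ≤ |ε| := by
  rw [← opn_transpose]
  refine opn_le_of_sq (abs_nonneg ε) fun u => ?_
  have h1 := h.xs fun k i => -(sv x i * u (k, i)) / 2
  have e1 : ∀ j, ((Xm W ρ v x T)ᵀ *ᵥ u) j =
      ∑ k ∈ T, ∑ i, jac (Wk W ρ v k) x j i * (-(sv x i * u (k, i)) / 2) := fun j => by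
    rw [← sum_ite]
    simp only [mulVec, dotProduct, transpose_apply, Fintype.sum_prod_type, Xm, of_apply]
    refine sum_congr rfl fun k _ => ?_
    split_ifs
    · refine sum_congr rfl fun i _ => ?_
      have : jac (Wk W ρ v k) x j i = dl i (cp (Wk W ρ v k) j) x := rfl
      rw [this, dl_eq]
      linear_combination (-grad (cp (Wk W ρ v k) j) x i * u (k, i)) * Rec.sv_mul_self x i
    · simp
  have e2 : ∑ k ∈ T, ∑ i, (-(sv x i * u (k, i)) / 2) ^ 2 ≤ u ⬝ᵥ u := by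
    rw [dotProduct, Fintype.sum_prod_type]
    refine le_trans (sum_le_sum fun k _ => sum_le_sum fun i _ => ?_)
      (sum_le_sum_of_subset_of_nonneg (subset_univ T) fun k _ _ =>
        sum_nonneg fun i _ => mul_self_nonneg _)
    have := Rec.sv_mul_self x i
    have e : (-(sv x i * u (k, i)) / 2) ^ 2 = u (k, i) * u (k, i) / 4 := by
      linear_combination (u (k, i) * u (k, i) / 4) * this
    rw [e]; linarith [mul_self_nonneg (u (k, i))]
  rw [sq_abs]
  simp only [dotProduct, e1, ← sq] at h1 ⊢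
  exact h1.trans (mul_le_mul_of_nonneg_left (by simpa only [dotProduct, ← sq] using e2) (sq_nonneg _))

end Eb83

open Eb83 in
/-- **(ErrBd)** -/
theorem errStmt : ErrStmt := by
  refine ⟨1 + cE 1 6 (4 * exp 4) ^ 2, by linarith [sq_nonneg (cE 1 6 (4 * exp 4))],
    fun n W h ρ ψ _ v x T o ε hL => ⟨?_, ?_⟩⟩
  · have hz := sz W ψ v x T
    have key := err_le (co h x) (A := 6) ((S6b.opn_am h.sym h.op x).trans (by norm_num))
      (w := wm W ρ v x T) (ρ := fun k => if k ∈ T then ρ v else 0) (abs_nonneg ε)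
      (fun l => by
        rw [sq_abs]
        refine le_trans (le_of_eq ?_) (hL.rh l)
        rw [← Eb83.sum_ite T]
        exact sum_congr rfl fun k _ => by
          by_cases hk : k ∈ T <;> simp only [wm, of_apply, hk, if_true, if_false]
          norm_num)
      (fun j => by
        rw [sq_abs]
        refine le_trans (le_of_eq ?_) (hL.rh' j)
        rw [← Eb83.sum_ite (T.erase j), sum_er]
        refine sum_congr rfl fun k _ => ?_
        rw [mul_wm]
        by_cases h1 : k = j <;> by_cases h2 : k ∈ T <;> simp [h1, h2])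
      (fun k => by
        rw [mul_wm]
        split_ifs with hk
        · exact (hL.th k hk).trans (le_abs_self ε)
        · simp)
      (opn_Xm hL) (fun k i => by
        rw [Xm, of_apply]
        split_ifs
        · have : cp (Wk W ρ v k) i (fl x i) = cp (Wk W ρ v k) i x := frV_grad _ i x
          rw [Rec.grad_eq]
          show sv x i * (cp (Wk W ρ v k) i x - cp (Wk W ρ v k) i (fl x i)) / 2 = 0
          rw [this, sub_self, mul_zero, zero_div]
        · rfl) (m := Eb83.mk W ψ v x T) (fun k => by simp [Eb83.mk]) (fun k i => by simp [Eb83.mk]) hz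
    simp only [← er_ep, Eb83.sum_ite] at key
    have h0 : 0 ≤ ∑ k ∈ T, Z2 W ψ v k x := by
      have := (sum_nonneg fun _ _ => sq_nonneg _).trans hz.ka
      exact sum_nonneg fun k _ => add_nonneg (add_nonneg (add_nonneg (sq_nonneg _)
        (sum_nonneg fun _ _ => sq_nonneg _)) (aa_nn W x _)) (sum_nonneg fun _ _ => aa_nn W x _)
    have h1 := pow_le_pow_left₀ (nrm_nonneg _) key 2
    rw [nrm_sq, mul_pow, mul_pow, sq_abs, sq_sqrt h0] at h1
    simp only [dotProduct, ← sq] at h1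
    have := mul_nonneg (sq_nonneg ε) h0
    linarith
  · have e : ∀ j, ∑ k ∈ T, yW W ρ ψ v k x j = ∑ k ∈ T, ka W ψ v k x * Om W ρ v x j k +
        ∑ k ∈ T, Om W ρ v x j k * zz W ψ v k j x := fun j => by
      rw [← sum_add_distrib]
      exact sum_congr rfl fun k _ => by simp only [yW, Om, zz, of_apply]; ring
    have h1 := hL.om fun k => ka W ψ v k x
    have h2 : ∑ j, (∑ k ∈ T, Om W ρ v x j k * zz W ψ v k j x) ^ 2 ≤ ε ^ 2 * ∑ k ∈ T, Z1 W ψ v k x :=
      calc _ ≤ ∑ j, ε ^ 2 * ∑ k ∈ T, zz W ψ v k j x ^ 2 := sum_le_sum fun j _ =>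
            (sum_mul_sq_le_sq_mul_sq _ _ _).trans (mul_le_mul_of_nonneg_right (hL.rh j)
              (sum_nonneg fun _ _ => sq_nonneg _))
        _ ≤ _ := by
            rw [← mul_sum, sum_comm]
            exact mul_le_mul_of_nonneg_left (sum_le_sum fun k _ =>
              le_add_of_nonneg_left (sq_nonneg _)) (sq_nonneg _)
    have h3 : ∑ j, (∑ k ∈ T, yW W ρ ψ v k x j) ^ 2 ≤
        ∑ j, (2 * (∑ k ∈ T, ka W ψ v k x * Om W ρ v x j k) ^ 2 +
          2 * (∑ k ∈ T, Om W ρ v x j k * zz W ψ v k j x) ^ 2) := sum_le_sum fun j _ => by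
      rw [e]
      nlinarith [sq_nonneg (∑ k ∈ T, ka W ψ v k x * Om W ρ v x j k -
        ∑ k ∈ T, Om W ρ v x j k * zz W ψ v k j x)]
    rw [sum_add_distrib, ← mul_sum, ← mul_sum] at h3
    linarith

end Crest.Agent.T157.S6a
end
end

-- ▼ part T157/S6Ea_28
section

/-!
# Row 157, block S6 (helper28): the diagonal part and the return, paired on the way
-/

set_option autoImplicit false

noncomputable section

namespace Crest.Agent.T157.S6a

open Matrix Real Set intervalIntegral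
open Crest.Agent.T157.E Crest.Agent.T157.S6k
open Crest.Agent.T157.Tap (V Mx)
open Crest.Agent.T157.Chain22 (sg sg_add ip_sg_symm)
open Crest.Agent.T157.Reg (VF mu Tk)
open Crest.Agent.T157.Reg.Bas66 (mu_pos)
open Crest.Agent.T157.S6h (dl Fr cp FrV dv)
open Crest.Agent.T157.S6 (cc)

variable {n : ℕ} {W : Mx n}

theorem ev_sg (hn : 0 < n) (g F : Cube n → ℝ) (s : ℝ) :
    ev W g (sg (mu W) s F) = ev W (sg (mu W) s g) F := ip_sg_symm hn (mu_pos W) s g F

theorem ev_mono {g F G : Cube n → ℝ} (hg : ∀ x, 0 ≤ g x) (h : ∀ x, F x ≤ G x) :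
    ev W g F ≤ ev W g G :=
  (Chain22.isP_prob' (mu_pos W)).mean_mono fun x => mul_le_mul_of_nonneg_left (h x) (hg x)

theorem ev_lin (g F G : Cube n → ℝ) (a b : ℝ) :
    ev W g (fun x => a * F x + b * G x) = a * ev W g F + b * ev W g G := by
  simp only [ev, mean, Finset.mul_sum, ← Finset.sum_add_distrib]
  exact Finset.sum_congr rfl fun x _ => by ring

theorem ev_smul (g F : Cube n → ℝ) (a : ℝ) : ev W g (fun x => a * F x) = a * ev W g F := by
  simpa using ev_lin (W := W) g F F a 0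

theorem cont_ev {Y : Type*} [TopologicalSpace Y] {g F : Y → Cube n → ℝ}
    (hg : ∀ x, Continuous fun y => g y x) (hF : ∀ x, Continuous fun y => F y x) :
    Continuous fun y => ev W (g y) (F y) :=
  continuous_finsetSum _ fun x _ => continuous_const.mul ((hg x).mul (hF x))

/-- Young's inequality and reversibility -/
theorem pair (hn : 0 < n) {g : Cube n → ℝ} (hg : ∀ x, 0 ≤ g x) (d : VF n) {A ω : VF n} {M s θ : ℝ}
    (hθ : 0 < θ) (h : ∀ x k, |A x k| ^ (3 / 2 : ℝ) ≤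
      M * sg (mu W) s (fun z => |ω z k| ^ (3 / 2 : ℝ)) x) :
    ev W g (fun x => d x ⬝ᵥ A x) ≤
      2 / 3 * (θ * M) * ev W (sg (mu W) s g) (fun x => ∑ j, |ω x j| ^ (3 / 2 : ℝ)) +
        1 / 3 * (θ ^ 2)⁻¹ * ev W g fun x => ∑ k, |d x k| ^ 3 := by
  rw [← ev_sg hn, ← ev_lin]
  refine ev_mono hg fun x => ?_
  rw [Rec.sg_sum, Finset.mul_sum, Finset.mul_sum, ← Finset.sum_add_distrib]
  refine Finset.sum_le_sum fun k _ => (young' (d x k) (A x k) hθ).trans ?_
  have := mul_le_mul_of_nonneg_left (h x k) hθ.le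
  rw [ph_rpow]; linarith

/-- the return in `L^{3/2}` -/
theorem Dec.ret {θ θ' K : ℝ} (h : Dec W θ θ' K) (hn : 0 < n) (hK : 0 ≤ K) {ω : VF n} (hω : FrV ω)
    {u v : ℝ} (hu : 0 ≤ u) (hv : 0 ≤ v) (ha : FrV (alf W ω u)) (x : Cube n) (k : Fin n) :
    |Ek W k (ka W (alf W ω u) v k) x| ^ (3 / 2 : ℝ) ≤
      K * exp (-(3 / 2 * θ * u)) * sg (mu W) (v + u) (fun z => |ω z k| ^ (3 / 2 : ℝ)) x := by
  refine (h.hk k _ (fun z => ?_) v hv x).trans ?_
  · rw [show alf W ω u (Rec.fl z k) k = alf W ω u z k from ha k z, cc, cc, Reg.Bas66.tt_fl]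
  rw [mul_assoc, sg_add hn (mu_pos W), ← Rec.sg_const_mul _ v (exp _)]
  refine mul_le_mul_of_nonneg_left (Rec.sg_mono hn (mu_pos W) hv (fun z => ?_) x) hK
  refine le_trans (rpow_le_rpow (abs_nonneg _) ?_ (by norm_num)) (h.a32 ω hω u hu z k)
  have : 0 ≤ cc W z k := Da.Gr.sech_nonneg (Da.Gr.loc W 0 z k)
  rw [abs_mul, abs_of_nonneg this]
  exact mul_le_of_le_one_left (abs_nonneg _) (sub_le_self _ (sq_nonneg _))

theorem eaGlue : EaGlue := by
  intro hR hD hC n W ok ρ θ θ' k t σ B g ω dec cρ ρ0 hB hk hσ g0 g1 hω s hs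
  have hn := ok.pos
  have P := mu_pos W
  set M := ev W (sg (mu W) s g) (fun x => ∑ j, |ω x j| ^ (3 / 2 : ℝ)) with hM
  have M0 : 0 ≤ M := (Chain22.isP_prob' P).mean_nonneg fun x => mul_nonneg
    (Rec.sg_nonneg hn P hs.1 (fun z => (g0 z).le) x) (Finset.sum_nonneg fun _ _ => by positivity)
  have fa := (hD n W ok ρ cρ ω hω).1
  have t1 : ev W g (dv W (alf W ω s)) ≤
      2 / 3 * exp (-((θ - σ) * s)) * M + 1 / 3 * (exp (-((θ + 2 * σ) * s)) * X3 W g) := by
    rw [(hR n W ok g g0 g1).2.2.2.1 _ (fa s)]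
    refine (pair hn (fun x => (g0 x).le) _ (exp_pos ((θ / 2 + σ) * s))
      (dec.a32 ω hω s hs.1)).trans (le_of_eq ?_)
    rw [← exp_add, sq, ← exp_add, ← Real.exp_neg, mul_assoc (1 / 3), X3]
    congr 4 <;> ring
  obtain ⟨X, cX, hX⟩ : ∃ X : ℝ → ℝ, Continuous X ∧ ∀ r, 0 ≤ r → X r = X3 W (sg (mu W) r g) :=
    ⟨fun r => X3 W (sg (mu W) |r| g), cont_ev (fun x => S6b.cont_sg_fam hn P (g := fun _ => g)
      continuous_abs (fun _ => continuous_const) x) fun x => continuous_finsetSum _ fun j _ =>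
      ((hC n W ok ρ cρ ω x j).2.2.2.2.2.2.2 g g0).abs.pow 3, fun r hr => by
      simp only [abs_of_nonneg hr]⟩
  have cL : Continuous (Function.uncurry fun u v =>
      ev W g (sg (mu W) (s - u - v) (dv W (Ret W ρ (alf W ω u) v)))) :=
    cont_ev (g := fun _ => g) (F := fun p : ℝ × ℝ => sg (mu W) (s - p.1 - p.2)
      (dv W (Ret W ρ (alf W ω p.1) p.2))) (fun _ => continuous_const) fun x =>
      S6b.cont_sg_fam hn P (by fun_prop) (fun z => continuous_finsetSum _ fun j _ =>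
        continuous_const.mul (hC n W ok ρ cρ ω z j).2.2.2.2.2.1) x
  have t2 := tri_mono cL (G := fun u v => 2 / 3 * M * (k ^ 2 * ρ v * exp (-(θ * u) + σ * (u + v))) +
      1 / 3 * (k ^ 2 * ρ v * exp (-(θ * u) - 2 * σ * (u + v)) * X (s - u - v)))
    (by fun_prop) hs.1 fun u v u0 v0 uv => by
    have r0 : 0 ≤ s - u - v := by linarith
    have p0 := Rv.sg_pos hn P r0 g0
    have R := hR n W ok _ p0 ((Rec.mean_sg' hn P _ g).trans g1)
    have ρv := ρ0 v ⟨v0, by linarith [hs.2]⟩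
    have q := mul_le_mul_of_nonneg_left (pair (W := W) hn (fun x => (p0 x).le)
      (dd W (sg (mu W) (s - u - v) g)) (A := fun x k => Ek W k (ka W (alf W ω u) v k) x)
      (div_pos (exp_pos (θ * u / 2 + σ * (u + v))) hk)
      (dec.ret hn (by positivity) hω u0 v0 (fa u))) ρv
    rw [← sg_add hn P, show v + u + (s - u - v) = s by ring, ← hM, ← ev_smul] at q
    rw [ev_sg hn, R.2.2.2.1 _ ((hD n W ok ρ cρ _ (fa u)).2.1 v).2.1, hX _ r0]
    refine le_trans (le_of_eq ?_) (q.trans (le_of_eq ?_))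
    · congr 1; funext x
      simp only [Ret, dotProduct, Finset.mul_sum, mul_left_comm (ρ v)]
    · have e1 : exp (θ * u / 2 + σ * (u + v)) * exp (-(3 / 2 * θ * u)) =
          exp (-(θ * u) + σ * (u + v)) := by rw [← exp_add]; congr 1; ring
      have e2 : ((exp (θ * u / 2 + σ * (u + v)) / k) ^ 2)⁻¹ =
          k ^ 2 * exp (-(θ * u) - 2 * σ * (u + v)) := by
        rw [div_pow, inv_div, div_eq_mul_inv, sq (exp _), ← exp_add, ← Real.exp_neg]; congr 2; ring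
      rw [e2, ← e1, X3]; field_simp
  rw [tri_add (by fun_prop) (by fun_prop), tri_mul, tri_mul] at t2
  rw [tri_congr (F := fun u v => k ^ 2 * ρ v * exp (-(θ * u) - 2 * σ * (u + v)) * X (s - u - v))
    (G := fun u v => k ^ 2 * ρ v * exp (-(θ * u) - 2 * σ * (u + v)) * X3 W (sg (mu W) (s - u - v) g))
    hs.1 fun u v _ _ uv => by rw [hX _ (by linarith)]] at t2
  have := mul_le_mul_of_nonneg_left (ker cρ k ρ0 hB hσ hs) M0
  rw [gn]; linarith

end Crest.Agent.T157.S6a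

end
end

-- ▼ part T157/S6EbA_20
section

/-!
# Row 157, block S6 (helper20): the bulk part of the end step, abstract inequalities
-/

set_option autoImplicit false

noncomputable section

namespace Crest.Agent.T157.S6b

open Real Matrix Finset Set MeasureTheory
open Crest.Agent.T157.Chain22 (IsP mean)

variable {κ ι Ω : Type*} [Fintype κ] [Fintype ι] [Fintype Ω]


theorem add_dot_le (u v : κ → ℝ) : (u + v) ⬝ᵥ (u + v) ≤ 2 * (u ⬝ᵥ u) + 2 * (v ⬝ᵥ v) := by
  have := dn (u - v)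
  rw [sub_dotProduct, dotProduct_sub, dotProduct_sub] at this
  rw [add_dotProduct, dotProduct_add, dotProduct_add]
  linarith

theorem jensen {ϖ f : Ω → ℝ} (hϖ : IsP ϖ) (hf : ∀ y, 0 ≤ f y) {q : ℝ} (h0 : 0 ≤ q) (h1 : q ≤ 1) :
    mean ϖ (fun y => f y ^ q) ≤ mean ϖ f ^ q :=
  (concaveOn_rpow h0 h1).le_map_sum (fun y _ => hϖ.nn y) hϖ.sum1 fun y _ => hf y

theorem young2 {x y l : ℝ} (hl : 0 < l) : x * y ≤ l * x ^ 2 + y ^ 2 / (4 * l) := by
  have : l * x ^ 2 + y ^ 2 / (4 * l) - x * y = (2 * l * x - y) ^ 2 / (4 * l) := by field_simp; ring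
  have : 0 ≤ (2 * l * x - y) ^ 2 / (4 * l) := by positivity
  linarith

/-- the markers with a large size form a small set, the others contribute little -/
theorem split {e : ι → κ → ℝ} {Z : ι → ℝ} {a b θ m : ℝ} (hZ : ∀ k, 0 ≤ Z k) (hθ : 0 < θ) (ha : 0 ≤ a)
    (hb : 0 ≤ b) (hΛ : ∀ T : Finset ι, (∑ k ∈ T, e k) ⬝ᵥ (∑ k ∈ T, e k) ≤ a * ∑ k ∈ T, Z k)
    (hδ : a ^ 2 * θ ≤ b ^ 2) (h : ∑ k, Z k ≤ θ ^ 2 * m) : ∃ (T : Finset ι) (r : κ → ℝ),
    (T.card : ℝ) ≤ m ∧ ∑ k, e k = ∑ k ∈ T, e k + r ∧ r ⬝ᵥ r ≤ b * ∑ k, Z k ^ (3 / 4 : ℝ) := by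
  classical
  refine ⟨univ.filter fun k => θ ^ 2 < Z k, _, ?_, (sum_filter_add_sum_filter_not _ _ _).symm,
    (hΛ _).trans ?_⟩
  · refine le_of_mul_le_mul_left (le_trans ?_ h) (pow_pos hθ 2)
    rw [mul_comm, ← nsmul_eq_mul]
    exact (card_nsmul_le_sum _ _ _ fun k hk => (mem_filter.1 hk).2.le).trans
      (sum_le_sum_of_subset_of_nonneg (subset_univ _) fun k _ _ => hZ k)
  · have t : a * √θ ≤ b := (abs_le_of_sq_le_sq' (by rwa [mul_pow, sq_sqrt hθ.le]) hb).2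
    have : ∑ k ∈ univ.filter fun k => ¬ θ ^ 2 < Z k, Z k ≤ √θ * ∑ k, Z k ^ (3 / 4 : ℝ) := by
      rw [mul_sum]
      refine (sum_le_sum fun k hk => ?_).trans (sum_le_sum_of_subset_of_nonneg (subset_univ _)
        fun k _ _ => mul_nonneg (sqrt_nonneg _) (rpow_nonneg (hZ k) _))
      have a := r4_mono (hZ k) (not_lt.1 (mem_filter.1 hk).2)
      rw [show θ ^ 2 = √θ ^ 4 by rw [show √θ ^ 4 = (√θ ^ 2) ^ 2 by ring, sq_sqrt hθ.le],
        r4_of_pow (sqrt_nonneg _)] at a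
      rw [r4_cube (hZ k)]
      nlinarith [r4_pow (hZ k), mul_le_mul_of_nonneg_right a (pow_nonneg (r4_nn (hZ k)) 3)]
    have s0 : 0 ≤ ∑ k, Z k ^ (3 / 4 : ℝ) := sum_nonneg fun k _ => rpow_nonneg (hZ k) _
    nlinarith [mul_le_mul_of_nonneg_left this ha, mul_le_mul_of_nonneg_right t s0]

/-- the bulk of the ansatz paired with `d` -/
theorem phi_pt {e : ι → κ → ℝ} {Z ka : ι → ℝ} {d : κ → ℝ} {Λ ε o θ m N b l l' : ℝ}
    (hZ : ∀ k, 0 ≤ Z k) (hθ : 0 < θ) (hm : 0 < m) (hΛ0 : 0 ≤ Λ) (hl : 0 < l) (hl' : 0 < l')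
    (hb : b = 0 ∨ b = 1)
    (hΛ : ∀ T : Finset ι, (∑ k ∈ T, e k) ⬝ᵥ (∑ k ∈ T, e k) ≤ 4 * Λ ^ 2 * ∑ k ∈ T, Z k)
    (hε : b = 0 → ∀ T : Finset ι, (T.card : ℝ) ≤ m → (∑ k ∈ T, e k) ⬝ᵥ (∑ k ∈ T, e k) ≤
      2 * o ^ 2 * ∑ k ∈ T, ka k ^ 2 + 2 * ε ^ 2 * ∑ k ∈ T, Z k)
    (h1 : Λ ^ 4 * θ ≤ ε ^ 4) (hN : (d ⬝ᵥ d) * (4 * Λ ^ 2 * ∑ k, Z k) ≤ N ^ 2) (N0 : 0 ≤ N) :
    d ⬝ᵥ ∑ k, e k ≤ (l + l') * (d ⬝ᵥ d) + o ^ 2 / l * ∑ k, ka k ^ 2 +
      (2 * ε ^ 2 / l' + nr d * (2 * Λ / (θ * √m))) * (∑ k, Z k + ∑ k, Z k ^ (3 / 4 : ℝ)) + N * b := by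
  have z0 : 0 ≤ ∑ k, Z k := sum_nonneg fun k _ => hZ k
  have s0 : 0 ≤ ∑ k, Z k ^ (3 / 4 : ℝ) := sum_nonneg fun k _ => rpow_nonneg (hZ k) _
  have k0 : 0 ≤ ∑ k, ka k ^ 2 := sum_nonneg fun k _ => sq_nonneg _
  have d0 := nr_nn d
  have q1 : 0 ≤ (l + l') * (d ⬝ᵥ d) := mul_nonneg (by positivity) (dn d)
  have q2 : 0 ≤ o ^ 2 / l * ∑ k, ka k ^ 2 := by positivity
  have q3 : 0 ≤ 2 * ε ^ 2 / l' * (∑ k, Z k + ∑ k, Z k ^ (3 / 4 : ℝ)) := by positivity
  have q4 : 0 ≤ nr d * (2 * Λ / (θ * √m) * ∑ k, Z k) := by positivity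
  have q5 : 0 ≤ nr d * (2 * Λ / (θ * √m) * ∑ k, Z k ^ (3 / 4 : ℝ)) := by positivity
  refine (dot_le _ _).trans ?_
  rcases hb with rfl | rfl
  · rcases le_total (∑ k, Z k) (θ ^ 2 * m) with c | c
    · obtain ⟨T, r, t1, t2, t3⟩ := split (b := 4 * ε ^ 2) hZ hθ (by positivity) (by positivity) hΛ
        (by nlinarith) c
      have t4 := (hε rfl T t1).trans (add_le_add (mul_le_mul_of_nonneg_left
        (sum_le_sum_of_subset_of_nonneg (subset_univ T) fun k _ _ => sq_nonneg _) (by positivity))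
        (mul_le_mul_of_nonneg_left (sum_le_sum_of_subset_of_nonneg (subset_univ T)
          fun k _ _ => hZ k) (by positivity)))
      have a0 : 0 ≤ 4 * o ^ 2 * ∑ k, ka k ^ 2 := by positivity
      have b0 : 0 ≤ 8 * ε ^ 2 * (∑ k, Z k + ∑ k, Z k ^ (3 / 4 : ℝ)) := by positivity
      have t5 : nr (∑ k, e k) ≤ √(4 * o ^ 2 * ∑ k, ka k ^ 2) +
          √(8 * ε ^ 2 * (∑ k, Z k + ∑ k, Z k ^ (3 / 4 : ℝ))) := by
        refine nr_le (by positivity) ?_
        rw [add_sq, sq_sqrt a0, sq_sqrt b0, mul_assoc 2, ← sqrt_mul a0]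
        nth_rewrite 1 [t2]
        nth_rewrite 1 [t2]
        nlinarith [add_dot_le (∑ k ∈ T, e k) r, mul_nonneg (sq_nonneg ε) z0, sqrt_nonneg
          (4 * o ^ 2 * (∑ k, ka k ^ 2) * (8 * ε ^ 2 * (∑ k, Z k + ∑ k, Z k ^ (3 / 4 : ℝ))))]
      have y1 := young2 (x := nr d) (y := √(4 * o ^ 2 * ∑ k, ka k ^ 2)) hl
      have y2 := young2 (x := nr d) (y := √(8 * ε ^ 2 * (∑ k, Z k + ∑ k, Z k ^ (3 / 4 : ℝ)))) hl'
      rw [sq_sqrt a0, nr_sq, show 4 * o ^ 2 * (∑ k, ka k ^ 2) / (4 * l) = o ^ 2 / l * ∑ k, ka k ^ 2 by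
        field_simp] at y1
      rw [sq_sqrt b0, nr_sq, show 8 * ε ^ 2 * (∑ k, Z k + ∑ k, Z k ^ (3 / 4 : ℝ)) / (4 * l') =
        2 * ε ^ 2 / l' * (∑ k, Z k + ∑ k, Z k ^ (3 / 4 : ℝ)) by field_simp; ring] at y2
      nlinarith [mul_le_mul_of_nonneg_left t5 d0]
    · have : nr (∑ k, e k) ≤ 2 * Λ / (θ * √m) * ∑ k, Z k := nr_le (by positivity) ((hΛ univ).trans (by
        rw [mul_pow, div_pow, mul_pow θ, sq_sqrt hm.le, div_mul_eq_mul_div, le_div_iff₀ (by positivity)]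
        nlinarith [mul_le_mul_of_nonneg_left c (show 0 ≤ 4 * Λ ^ 2 * ∑ k, Z k by positivity)]))
      nlinarith [mul_le_mul_of_nonneg_left this d0]
  · have : nr d * nr (∑ k, e k) ≤ N := (abs_le_of_sq_le_sq' (by
      rw [mul_pow, nr_sq, nr_sq]
      exact (mul_le_mul_of_nonneg_left (hΛ univ) (dn d)).trans hN) N0).2
    nlinarith

/-- the error field -/
theorem err_pt {e : ι → κ → ℝ} {Z : ι → ℝ} {L δ θ m μ N b : ℝ} (hZ : ∀ k, 0 ≤ Z k) (hθ : 0 < θ)
    (hL : 0 ≤ L) (hδ : 0 ≤ δ) (hμ : 0 < μ) (hN : 0 ≤ N) (hb : b = 0 ∨ b = 1)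
    (hΛ : ∀ T : Finset ι, (∑ k ∈ T, e k) ⬝ᵥ (∑ k ∈ T, e k) ≤ L ^ 4 * ∑ k ∈ T, Z k)
    (hε : b = 0 → ∀ T : Finset ι, (T.card : ℝ) ≤ m →
      (∑ k ∈ T, e k) ⬝ᵥ (∑ k ∈ T, e k) ≤ δ ^ 4 * ∑ k ∈ T, Z k)
    (h1 : (L ^ 4) ^ 2 * θ ≤ (δ ^ 4) ^ 2) (h2 : μ ^ 4 = θ ^ 2 * m) (h3 : L ^ 4 * ∑ k, Z k ≤ N ^ 4) :
    ((∑ k, e k) ⬝ᵥ (∑ k, e k)) ^ (3 / 4 : ℝ) ≤
      (2 * δ) ^ 3 * (∑ k, Z k + ∑ k, Z k ^ (3 / 4 : ℝ)) ^ (3 / 4 : ℝ) +
      L ^ 3 / μ * (∑ k, Z k + ∑ k, Z k ^ (3 / 4 : ℝ)) + N ^ 3 * b := by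
  have z0 : 0 ≤ ∑ k, Z k := sum_nonneg fun k _ => hZ k
  have s0 : 0 ≤ ∑ k, Z k ^ (3 / 4 : ℝ) := sum_nonneg fun k _ => rpow_nonneg (hZ k) _
  have e0 := r4_nn (dn (∑ k, e k))
  have e4 := r4_pow (dn (∑ k, e k))
  have cr := hΛ univ
  have p0 := r4_nn (add_nonneg z0 s0)
  have p4 := r4_pow (add_nonneg z0 s0)
  rw [r4_cube (dn _), r4_cube (add_nonneg z0 s0)]
  rw [← e4] at cr
  have q1 : 0 ≤ (2 * δ) ^ 3 * r4 (∑ k, Z k + ∑ k, Z k ^ (3 / 4 : ℝ)) ^ 3 := by positivity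
  have q2 : 0 ≤ L ^ 3 / μ * ∑ k, Z k ^ (3 / 4 : ℝ) := by positivity
  have q3 : 0 ≤ L ^ 3 / μ * ∑ k, Z k := by positivity
  rcases hb with rfl | rfl
  · rcases le_total (∑ k, Z k) (θ ^ 2 * m) with c | c
    · obtain ⟨T, r, t1, t2, t3⟩ := split hZ hθ (by positivity) (by positivity) hΛ h1 c
      have t4 := (hε rfl T t1).trans (mul_le_mul_of_nonneg_left
        (sum_le_sum_of_subset_of_nonneg (subset_univ T) fun k _ _ => hZ k) (by positivity))
      have : r4 ((∑ k, e k) ⬝ᵥ ∑ k, e k) ≤ 2 * δ * r4 (∑ k, Z k + ∑ k, Z k ^ (3 / 4 : ℝ)) := by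
        refine (pow_le_pow_iff_left₀ e0 (by positivity) four_ne_zero).1 ?_
        rw [e4, mul_pow, p4, t2]
        nlinarith [add_dot_le (∑ k ∈ T, e k) r, mul_nonneg (pow_nonneg hδ 4) (add_nonneg z0 s0)]
      have := pow_le_pow_left₀ e0 this 3
      rw [mul_pow] at this
      linarith
    · have : r4 ((∑ k, e k) ⬝ᵥ (∑ k, e k)) ^ 3 * μ ≤ L ^ 3 * ∑ k, Z k := by
        refine (pow_le_pow_iff_left₀ (by positivity) (by positivity) four_ne_zero).1 ?_
        have a := mul_le_mul (pow_le_pow_left₀ (by positivity) cr 3) (h2.le.trans c) (by positivity)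
          (by positivity)
        nlinarith
      rw [← le_div_iff₀ hμ, ← div_mul_eq_mul_div] at this
      linarith
  · have := pow_le_pow_left₀ e0 ((pow_le_pow_iff_left₀ e0 hN four_ne_zero).1 (cr.trans h3)) 3
    linarith

theorem r_le {r E a q k N β : ℝ} (hr : 0 ≤ r) (hE : 1 ≤ E) (ha : 0 < a) (hq : 0 ≤ q)
    (hN : 0 ≤ N) (hβ : 0 ≤ β) (h : r ^ 3 ≤ E * (a ^ 3 * q ^ 3 + k * q ^ 4 + N ^ 3 * β ^ 3)) :
    r ^ 2 ≤ 9 * E ^ 2 * (a ^ 2 * q ^ 2 + k ^ 2 / a ^ 4 * q ^ 4 + N ^ 2 * β ^ 2) := by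
  have E0 : 0 < E := by linarith
  have g : ∀ z, 0 ≤ z → r ^ 3 ≤ 3 * E * z ^ 3 → r ^ 2 ≤ 9 * E ^ 2 * z ^ 2 := fun z z0 hz => by
    have : r ≤ 3 * E * z := (pow_le_pow_iff_left₀ hr (by positivity) three_ne_zero).1 (hz.trans (by
      rw [mul_pow (3 * E)]
      exact mul_le_mul_of_nonneg_right (le_self_pow₀ (by linarith) three_ne_zero) (pow_nonneg z0 3)))
    nlinarith [pow_le_pow_left₀ hr this 2]
  have p1 : 0 ≤ E ^ 2 * (a ^ 2 * q ^ 2) := by positivity
  have p2 : 0 ≤ E ^ 2 * (k ^ 2 / a ^ 4 * q ^ 4) := by positivity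
  have p3 : 0 ≤ E ^ 2 * (N ^ 2 * β ^ 2) := by positivity
  by_cases c1 : r ^ 3 ≤ 3 * E * (a * q) ^ 3
  · nlinarith [g _ (by positivity) c1]
  by_cases c3 : r ^ 3 ≤ 3 * E * (N * β) ^ 3
  · nlinarith [g _ (by positivity) c3]
  have c2 : r ^ 3 ≤ 3 * E * (k * q ^ 4) := by nlinarith
  rcases le_total (r ^ 2) (a ^ 2 * q ^ 2) with c | c
  · nlinarith [mul_le_mul_of_nonneg_right (one_le_pow₀ hE : 1 ≤ E ^ 2)
      (show 0 ≤ a ^ 2 * q ^ 2 by positivity)]
  rcases hq.eq_or_lt with e | e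
  · subst e
    have : r ^ 3 ≤ 3 * E * 0 ^ 3 := by simpa using c2
    nlinarith [g 0 le_rfl this]
  have : r ^ 2 ≤ 9 * E ^ 2 * (k ^ 2 / a ^ 4 * q ^ 4) := by
    rw [div_mul_eq_mul_div, ← mul_div_assoc, le_div_iff₀ (by positivity)]
    refine le_of_mul_le_mul_right ?_ (pow_pos e 4)
    nlinarith [pow_le_pow_left₀ (by positivity) c2 2, mul_le_mul_of_nonneg_left
      (pow_le_pow_left₀ (by positivity) c 2) (sq_nonneg r)]
  nlinarith

/-- the propagated error paired with `d` -/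
theorem err_pair {ϖ F S b : Ω → ℝ} {R d : κ → ℝ} {E a k N l : ℝ} (hϖ : IsP ϖ) (hS : ∀ y, 0 ≤ S y)
    (hb : ∀ y, 0 ≤ b y) (hE : 1 ≤ E) (ha : 0 < a) (hN : 0 ≤ N) (hl : 0 < l)
    (hF : ∀ y, F y ≤ a ^ 3 * S y ^ (3 / 4 : ℝ) + k * S y + N ^ 3 * b y)
    (hR : (R ⬝ᵥ R) ^ (3 / 4 : ℝ) ≤ E * mean ϖ F) :
    -(d ⬝ᵥ R) ≤ l * (d ⬝ᵥ d) + ((9 * E ^ 2 * a ^ 2) ^ 2 / (4 * l) + nr d * (9 * E ^ 2 * k ^ 2 / a ^ 4)) *
      mean ϖ S + nr d * (9 * E ^ 2 * N ^ 2) * mean ϖ b ^ (2 / 3 : ℝ) := by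
  have Q0 := hϖ.mean_nonneg hS
  have B0 := hϖ.mean_nonneg hb
  have m1 : mean ϖ F ≤ a ^ 3 * mean ϖ S ^ (3 / 4 : ℝ) + k * mean ϖ S + N ^ 3 * mean ϖ b := by
    refine (hϖ.mean_mono hF).trans ?_
    have := mul_le_mul_of_nonneg_left (jensen hϖ hS (q := 3 / 4) (by norm_num) (by norm_num))
      (pow_pos ha 3).le
    simp only [mean, mul_add, sum_add_distrib, mul_left_comm (ϖ _), ← mul_sum] at this ⊢
    linarith
  have b3 : (mean ϖ b ^ (1 / 3 : ℝ)) ^ 3 = mean ϖ b := by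
    rw [← rpow_natCast, ← rpow_mul B0]; norm_num
  have b2 : (mean ϖ b ^ (1 / 3 : ℝ)) ^ 2 = mean ϖ b ^ (2 / 3 : ℝ) := by
    rw [← rpow_natCast, ← rpow_mul B0]; norm_num
  have h := r_le (r4_nn (dn R)) hE ha (r4_nn Q0) hN (rpow_nonneg B0 (1 / 3)) (by
    rw [← r4_cube (dn R), ← r4_cube Q0, r4_pow Q0, b3]
    exact hR.trans (mul_le_mul_of_nonneg_left m1 (by linarith)))
  rw [r4_sq (dn R), r4_sq Q0, r4_pow Q0, b2] at h
  have y := young2 (x := nr d) (y := 9 * E ^ 2 * a ^ 2 * √(mean ϖ S)) hl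
  rw [nr_sq, mul_pow _ (√_), sq_sqrt Q0] at y
  have z := dot_le d (-R)
  rw [dotProduct_neg, nr, nr, neg_dotProduct_neg, ← nr] at z
  have := mul_le_mul_of_nonneg_left h (nr_nn d)
  have e : ((9 * E ^ 2 * a ^ 2) ^ 2 / (4 * l) + nr d * (9 * E ^ 2 * k ^ 2 / a ^ 4)) * mean ϖ S =
    (9 * E ^ 2 * a ^ 2) ^ 2 * mean ϖ S / (4 * l) +
      nr d * (9 * E ^ 2 * (k ^ 2 / a ^ 4 * mean ϖ S)) := by ring
  rw [e]
  nlinarith

/-! ### integration -/

theorem int_le' {f g : ℝ → ℝ} {s : ℝ} (hs : 0 ≤ s) (hg : Continuous g) (h0 : ∀ u ∈ Icc 0 s, 0 ≤ g u)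
    (h : ∀ u ∈ Icc 0 s, f u ≤ g u) : ∫ u in (0 : ℝ)..s, f u ≤ ∫ u in (0 : ℝ)..s, g u := by
  by_cases c : IntervalIntegrable f volume 0 s
  · exact intervalIntegral.integral_mono_on hs c (hg.intervalIntegrable _ _) h
  · rw [intervalIntegral.integral_undef c]; exact intervalIntegral.integral_nonneg hs h0

theorem int_mean (ν h : Ω → ℝ) {f : ι → ℝ → Ω → ℝ} (hf : ∀ i x, Continuous fun u => f i u x) (s : ℝ) :
    ∫ u in (0 : ℝ)..s, mean ν (fun x => h x * ∑ i, f i u x) =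
      mean ν fun x => h x * ∑ i, ∫ u in (0 : ℝ)..s, f i u x := by
  simp only [mean]
  rw [intervalIntegral.integral_finsetSum (f := fun x u => ν x * (h x * ∑ i, f i u x)) fun x _ =>
    (continuous_const.mul (continuous_const.mul (continuous_finsetSum _ fun i _ =>
      hf i x))).intervalIntegrable _ _]
  refine sum_congr rfl fun x _ => ?_
  rw [intervalIntegral.integral_const_mul, intervalIntegral.integral_const_mul,
    intervalIntegral.integral_finsetSum fun i _ => (hf i x).intervalIntegrable _ _]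

theorem cont_mean (ν h : Ω → ℝ) {f : ι → ℝ → Ω → ℝ} (hf : ∀ i x, Continuous fun u => f i u x) :
    Continuous fun u => mean ν (fun x => h x * ∑ i, f i u x) :=
  continuous_finsetSum _ fun x _ => continuous_const.mul (continuous_const.mul
    (continuous_finsetSum _ fun i _ => hf i x))

theorem integ {ν h : Ω → ℝ} {A : ℝ → ℝ} {B : ℝ → ℝ → ℝ} {Ξ : ι → ℝ → Ω → ℝ} {Θ : ι → ℝ → ℝ → Ω → ℝ}
    {Γ : ι → Ω → ℝ} {s c c' : ℝ} (hν : IsP ν) (h0 : ∀ x, 0 ≤ h x) (hs : 0 ≤ s) (hc : 0 ≤ c)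
    (hc' : 0 ≤ c') (cΞ : ∀ i x, Continuous fun u => Ξ i u x)
    (cΘ : ∀ i x, Continuous fun p : ℝ × ℝ => Θ i p.1 p.2 x) (Ξ0 : ∀ i u x, 0 ≤ Ξ i u x)
    (Θ0 : ∀ i, ∀ u ∈ Icc 0 s, ∀ v ∈ Icc 0 (s - u), ∀ x, 0 ≤ Θ i u v x)
    (hA : ∀ u ∈ Icc 0 s, A u ≤ c + mean ν fun x => h x * ∑ i, Ξ i u x)
    (hB : ∀ u ∈ Icc 0 s, ∀ v ∈ Icc 0 (s - u), -B u v ≤ c' + mean ν fun x => h x * ∑ i, Θ i u v x)
    (hΓ : ∀ i x, ∫ u in (0 : ℝ)..s, (Ξ i u x + ∫ v in (0 : ℝ)..s - u, Θ i u v x) ≤ Γ i x) :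
    ∫ u in (0 : ℝ)..s, (A u - ∫ v in (0 : ℝ)..s - u, B u v) ≤
      s * c + s ^ 2 * c' + mean ν fun x => h x * ∑ i, Γ i x := by
  have c1 : ∀ i x, Continuous fun u => Ξ i u x + ∫ v in (0 : ℝ)..s - u, Θ i u v x := fun i x =>
    (cΞ i x).add (intervalIntegral.continuous_parametric_intervalIntegral_of_continuous
      (f := fun u v => Θ i u v x) (cΘ i x) (by fun_prop))
  have c2 := cont_mean ν h c1
  refine (int_le' hs (g := fun u => (c + s * c') + mean ν fun x => h x *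
    ∑ i, (Ξ i u x + ∫ v in (0 : ℝ)..s - u, Θ i u v x)) (continuous_const.add c2) (fun u hu => ?_)
    fun u hu => ?_).trans ?_
  · exact add_nonneg (by positivity) (hν.mean_nonneg fun x => mul_nonneg (h0 x) (sum_nonneg fun i _ =>
      add_nonneg (Ξ0 i u x) (intervalIntegral.integral_nonneg (sub_nonneg.2 hu.2)
        fun v hv => Θ0 i u hu v hv x)))
  · have c3 : ∀ i x, Continuous fun v => Θ i u v x := fun i x =>
      (cΘ i x).comp (Continuous.prodMk_right u)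
    have c4 := cont_mean ν h c3
    have a := int_le' (sub_nonneg.2 hu.2) (g := fun v => c' + mean ν fun x => h x * ∑ i, Θ i u v x)
      (continuous_const.add c4) (fun v hv => add_nonneg hc' (hν.mean_nonneg fun x =>
        mul_nonneg (h0 x) (sum_nonneg fun i _ => Θ0 i u hu v hv x))) (hB u hu)
    rw [intervalIntegral.integral_neg, intervalIntegral.integral_add intervalIntegrable_const
      (c4.intervalIntegrable _ _), int_mean ν h c3] at a
    have b := hA u hu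
    simp only [intervalIntegral.integral_const, sub_zero, smul_eq_mul, mean, mul_add,
      sum_add_distrib] at a b ⊢
    nlinarith [mul_nonneg hu.1 hc']
  · rw [intervalIntegral.integral_add intervalIntegrable_const (c2.intervalIntegrable _ _),
      int_mean ν h c1]
    have := hν.mean_mono fun x => mul_le_mul_of_nonneg_left (sum_le_sum (s := univ) fun i _ => hΓ i x)
      (h0 x)
    simp only [intervalIntegral.integral_const, sub_zero, smul_eq_mul]
    linarith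

end Crest.Agent.T157.S6b

end
end

-- ▼ part T157/S6Eb_20

/-!
# Row 157, block S6 (helper20): the leaf (End B)
-/

set_option autoImplicit false

noncomputable section

namespace Crest.Agent.T157.S6a

open Matrix Real Finset
open Crest.Agent.T157.E hiding mean
open Crest.Agent.T157.Tap (V Mx)
open Crest.Agent.T157.Rec (sg_const_mul sg_mono sg_nonneg sg_sum sg_add_fun)
open Crest.Agent.T157.Chain22 (sg sg_zero sg_add IsP mean isP_hbCt ip_sg_symm mean_sg)
open Crest.Agent.T157.Reg (VF mu)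
open Crest.Agent.T157.Rv (Warm)
open Crest.Agent.T157.S6h Crest.Agent.T157.S6b

namespace Eb20

variable {n : ℕ} {W : Mx n}

theorem mu_pos (W : Mx n) (x : Cube n) : 0 < mu W x := exp_pos _

theorem loc_sub {ρ : ℝ → ℝ} {v o ε : ℝ} {x : Cube n} (h : Loc W ρ v x univ o ε) (T : Finset (Fin n)) :
    Loc W ρ v x T o ε where
  om w := by simpa [ite_mul, sum_ite_mem] using h.om fun k => if k ∈ T then w k else 0
  rh l := (sum_le_sum_of_subset_of_nonneg (subset_univ T) fun _ _ _ => sq_nonneg _).trans (h.rh l)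
  rh' j := (sum_le_sum_of_subset_of_nonneg (erase_subset_erase j (subset_univ T))
    fun _ _ _ => sq_nonneg _).trans (h.rh' j)
  th k _ := h.th k (mem_univ k)
  xs u := by simpa [sum_ite_mem] using h.xs fun k i => if k ∈ T then u k i else 0

theorem dot_eq (T : Finset (Fin n)) (e : Fin n → V n) :
    (∑ k ∈ T, e k) ⬝ᵥ (∑ k ∈ T, e k) = ∑ j, (∑ k ∈ T, e k j) ^ 2 := by
  simp only [dotProduct, Finset.sum_apply, sq]

/-- the law with density `g` -/
def nu (W : Mx n) (g : Cube n → ℝ) (x : Cube n) : ℝ := prob (mu W) x * g x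

theorem ev_eq (g F : Cube n → ℝ) : ev W g F = mean (nu W g) F := by
  simp only [ev, E.mean, mean, nu, mul_assoc]

theorem prob_nn (W : Mx n) (x : Cube n) : 0 ≤ prob (mu W) x :=
  div_nonneg (mu_pos W x).le (sum_nonneg fun y _ => (mu_pos W y).le)

theorem isP_nu {D : ℝ} {g : Cube n → ℝ} (h : Warm (mu W) D g) : IsP (nu W g) :=
  ⟨fun x => mul_nonneg (prob_nn W x) (h.1 x).le, h.2.1⟩

theorem nu_sg (hn : 0 < n) (g F : Cube n → ℝ) (s : ℝ) :
    mean (nu W g) (sg (mu W) s F) = ev W (sg (mu W) s g) F := by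
  rw [← ev_eq]; exact ip_sg_symm hn (mu_pos W) s g F

theorem mean_lin (ν f g : Cube n → ℝ) (a b : ℝ) :
    mean ν (fun x => a * f x + b * g x) = a * mean ν f + b * mean ν g := by
  simp only [mean, mul_add, sum_add_distrib, mul_left_comm (ν _), ← mul_sum]

theorem bad (hn : 0 < n) {D p r : ℝ} {g : Cube n → ℝ} (h : Warm (mu W) D g) {G : Finset (Cube n)}
    (hG : ∑ x ∈ Gᶜ, prob (mu W) x ≤ p) (hr : 0 ≤ r) :
    mean (nu W g) (fun x => sg (mu W) r (fun y => if y ∈ G then 0 else 1) x ^ (2 / 3 : ℝ)) ≤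
      (exp D * p) ^ (2 / 3 : ℝ) := by
  have b0 : ∀ x, 0 ≤ sg (mu W) r (fun y => if y ∈ G then 0 else 1) x :=
    sg_nonneg hn (mu_pos W) hr fun y => by split_ifs <;> norm_num
  refine (jensen (isP_nu h) b0 (by norm_num) (by norm_num)).trans
    (rpow_le_rpow ((isP_nu h).mean_nonneg b0) ?_ (by norm_num))
  have e : mean (prob (mu W)) (fun y => if y ∈ G then 0 else 1) = ∑ x ∈ Gᶜ, prob (mu W) x := by
    simp only [mean, mul_ite, mul_zero, mul_one, ← mem_compl, ← ite_not (_ ∈ G), sum_ite_mem,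
      univ_inter]
  refine le_trans ?_ (mul_le_mul_of_nonneg_left hG (exp_pos D).le)
  rw [← e, ← mean_sg hn (mu_pos W) r, mean, mean, mul_sum]
  refine sum_le_sum fun x _ => ?_
  rw [nu, ← mul_assoc, mul_comm (exp D)]
  exact mul_le_mul_of_nonneg_right (mul_le_mul_of_nonneg_left (h.2.2 x) (prob_nn W x)) (b0 x)

theorem ka_sq (h : Ok W 1 1) {θ θ' K : ℝ} (hD : Dec W θ θ' K) {ω : VF n} (hω : FrV ω) {u s : ℝ}
    (hu : u ∈ Set.Icc 0 s) (x : Cube n) : ∑ k, ka W (alf W ω u) (s - u) k x ^ 2 ≤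
      exp (-(θ' * u)) * sg (mu W) s (fun z => ω z ⬝ᵥ ω z) x := by
  have t := sub_nonneg.2 hu.2
  have e := sg_add h.pos (mu_pos W) (s - u) u
  simp only [sub_add_cancel] at e
  simp only [dotProduct, sg_sum, mul_sum, ← sq]
  refine sum_le_sum fun k _ => ?_
  rw [e, ← sg_const_mul]
  refine ((isP_hbCt h.pos (mu_pos W) t x).mean_sq_le _).trans (sg_mono h.pos (mu_pos W) t
    (fun z => le_trans ?_ (hD.a2 ω hω u hu.1 z k)) x)
  have a : 0 ≤ S6.cc W z k := Da.Gr.sech_nonneg _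
  have b : S6.cc W z k ≤ 1 := sub_le_self _ (sq_nonneg _)
  nlinarith [mul_le_mul_of_nonneg_right (show S6.cc W z k ^ 2 ≤ 1 by nlinarith)
    (sq_nonneg (alf W ω u z k))]

/-- the two exponents -/
def pw (b : Bool) : ℝ := if b then 1 else 3 / 4

theorem sum_pw (f : ℝ → Fin n → ℝ) : ∑ i : Bool × Fin n, f (pw i.1) i.2 =
    ∑ k, f 1 k + ∑ k, f (3 / 4) k := by
  simp [Fintype.sum_prod_type, pw]

theorem pw_cases (b : Bool) : pw b = 1 ∨ pw b = 3 / 4 := by cases b <;> simp [pw]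

theorem cnt_le (hn : 0 < n) {ω : VF n} (hω : ∀ x k, |ω x k| ≤ 4) {s : ℝ} (hs : 0 ≤ s) (x : Cube n) :
    ∑ i : Bool × Fin n, sg (mu W) s (fun z => (ω z i.2 ^ 2) ^ pw i.1) x ≤
      32 * sg (mu W) s (cnt ω) x := by
  rw [← sg_sum, ← sg_const_mul]
  refine sg_mono hn (mu_pos W) hs (fun z => ?_) x
  rw [sum_pw fun q k => (ω z k ^ 2) ^ q, ← sum_add_distrib, cnt, mul_sum]
  refine sum_le_sum fun k _ => ?_
  split_ifs with e
  · simp [e]
  have a : ω z k ^ 2 ≤ 16 := by nlinarith [abs_le.1 (hω z k)]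
  have b := (rpow_le_rpow (sq_nonneg _) a (show (0 : ℝ) ≤ 3 / 4 by norm_num)).trans
    (rpow_le_self_of_one_le (by norm_num) (by norm_num))
  rw [rpow_one]; linarith

theorem Z1_nn (ψ : VF n) (v : ℝ) (k : Fin n) (x : Cube n) : 0 ≤ Z1 W ψ v k x :=
  add_nonneg (sq_nonneg _) (sum_nonneg fun _ _ => sq_nonneg _)

theorem Z1_le (ψ : VF n) (v : ℝ) (k : Fin n) (x : Cube n) : Z1 W ψ v k x ≤ S6a.Z2 W ψ v k x := by
  have a : ∀ F, 0 ≤ aa W F x := fun F => sum_nonneg fun _ _ => sq_nonneg _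
  have b : 0 ≤ ∑ j, aa W (zz W ψ v k j) x := sum_nonneg fun _ _ => a _
  rw [S6a.Z2]; linarith [a (ka W ψ v k)]

/-! ### numbers -/

/-- weights -/
def g1 (E c s ε l : ℝ) : ℝ := 648 * E ^ 4 * c ^ 2 * (s + 1) ^ 2 * ε ^ 2 / l
/-- weights -/
def g2 (E c Λ ε m : ℝ) : ℝ := 9 * E ^ 2 * c * Λ ^ 7 / (ε ^ 6 * √m)

section num
variable {E c s ε l l' Λ m Cq Cp C : ℝ}

theorem n1 (E1 : 1 ≤ E) (c1 : 1 ≤ c) (s0 : 0 ≤ s) (l0 : 0 < l) :
    2 * ε ^ 2 / (l / (2 * (s + 1))) ≤ g1 E c s ε l := by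
  rw [div_div_eq_mul_div, g1]
  refine div_le_div_of_nonneg_right ?_ l0.le
  have : 1 ≤ E ^ 4 * c ^ 2 * (s + 1) := one_le_mul_of_one_le_of_one_le
    (one_le_mul_of_one_le_of_one_le (one_le_pow₀ E1) (one_le_pow₀ c1)) (by linarith)
  have p : 0 ≤ (s + 1) * ε ^ 2 := by positivity
  linarith [mul_le_mul_of_nonneg_right this p]

theorem n2 (E1 : 1 ≤ E) (c1 : 1 ≤ c) (ε0 : 0 < ε) (ε1 : ε ≤ 1) (Λ1 : 1 ≤ Λ) (m0 : 0 < m) :
    2 * Λ / ((ε / Λ) ^ 4 * √m) ≤ g2 E c Λ ε m := by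
  have sm := sqrt_pos.2 m0
  rw [g2, show 2 * Λ / ((ε / Λ) ^ 4 * √m) = 2 * ε ^ 2 * Λ ^ 5 / (ε ^ 6 * √m) by field_simp]
  refine div_le_div_of_nonneg_right ?_ (by positivity)
  have a : 1 ≤ E ^ 2 * c * Λ ^ 2 := one_le_mul_of_one_le_of_one_le
    (one_le_mul_of_one_le_of_one_le (one_le_pow₀ E1) c1) (one_le_pow₀ Λ1)
  have p : 0 ≤ Λ ^ 5 := by positivity
  linarith [mul_le_mul_of_nonneg_right a p, mul_le_mul_of_nonneg_right (pow_le_one₀ (n := 2) ε0.le ε1) p]

theorem n3 {Ko a θ u : ℝ} (a0 : 0 ≤ a) (ha : 2 * a ≤ θ) (u0 : 0 ≤ u) (s0 : 0 ≤ s) (l0 : 0 < l) :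
    (Ko * exp (-(a * (s - u))) + ε) ^ 2 / (l / (s + 1)) * exp (-(θ * u)) ≤
      2 * (s + 1) * (Ko ^ 2 * exp (-(2 * a * s)) + ε ^ 2) / l := by
  rw [div_div_eq_mul_div, div_mul_eq_mul_div]
  refine div_le_div_of_nonneg_right ?_ l0.le
  have e1 : exp (-(θ * u)) ≤ exp (-(2 * a * u)) := exp_le_exp.2 (by nlinarith)
  have e2 : exp (-(2 * a * u)) ≤ 1 := exp_le_one_iff.2 (by nlinarith)
  have e3 : exp (-(a * (s - u))) ^ 2 * exp (-(2 * a * u)) = exp (-(2 * a * s)) := by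
    rw [← exp_nat_mul, ← exp_add]; congr 1; push_cast; ring
  have e4 : (Ko * exp (-(a * (s - u))) + ε) ^ 2 ≤ 2 * (Ko ^ 2 * exp (-(a * (s - u))) ^ 2 + ε ^ 2) := by
    nlinarith [sq_nonneg (Ko * exp (-(a * (s - u))) - ε)]
  have e5 := mul_le_mul e4 e1 (exp_pos _).le (by positivity)
  have e6 : (Ko * exp (-(a * (s - u))) + ε) ^ 2 * exp (-(θ * u)) ≤
      2 * (Ko ^ 2 * exp (-(2 * a * s)) + ε ^ 2) := by
    rw [← e3]; linarith [mul_le_mul_of_nonneg_left e2 (sq_nonneg ε)]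
  linarith [mul_le_mul_of_nonneg_left e6 (show 0 ≤ s + 1 by positivity)]

theorem n4 {δ : ℝ} (hδ : δ ^ 2 = c * ε) (s0 : 0 ≤ s) (l0 : 0 < l) :
    (9 * E ^ 2 * (2 * δ) ^ 2) ^ 2 / (4 * (l / (2 * (s + 1) ^ 2))) = g1 E c s ε l := by
  rw [g1, mul_pow 2 δ, hδ]; field_simp; ring

theorem n5 {δ L μ : ℝ} (c1 : 1 ≤ c) (ε0 : 0 < ε) (Λ1 : 1 ≤ Λ) (m0 : 0 < m) (hδ : δ ^ 2 = c * ε)
    (hL : L ^ 2 = c * Λ) (hμ : μ ^ 2 = (ε / Λ) ^ 4 * √m) :
    9 * E ^ 2 * (L ^ 3 / μ) ^ 2 / (2 * δ) ^ 4 ≤ g2 E c Λ ε m := by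
  have sm := sqrt_pos.2 m0
  rw [div_pow, hμ, show (2 * δ) ^ 4 = 16 * (δ ^ 2) ^ 2 by ring, hδ,
    show (L ^ 3) ^ 2 = (L ^ 2) ^ 3 by ring, hL, g2]
  have : 9 * E ^ 2 * ((c * Λ) ^ 3 / ((ε / Λ) ^ 4 * √m)) / (16 * (c * ε) ^ 2) =
    9 * E ^ 2 * c * Λ ^ 7 / (ε ^ 6 * √m) / 16 := by field_simp
  rw [this]
  exact div_le_self (by positivity) (by norm_num)

theorem fin {DD Ω P M1 M2 Kt N : ℝ} (c1 : 1 ≤ c) (q1 : 1 ≤ Cq) (p1 : 1 ≤ Cp) (s0 : 0 ≤ s)
    (hE : E = exp (Cp * s)) (hC : C = 21000 * (c ^ 2 * Cq) + 4 * Cp + Cq + 2) (l0 : 0 < l)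
    (l0' : 0 < l') (ε0 : 0 < ε) (Λ1 : 1 ≤ Λ) (m0 : 0 < m) (D0 : 0 ≤ DD) (Ω0 : 0 ≤ Ω) (P0 : 0 ≤ P)
    (m1 : 0 ≤ M1) (m2 : 0 ≤ M2) (K0 : 0 ≤ Kt) :
    s * ((l / (s + 1) + l' / (2 * (s + 1))) * DD + 2 * (s + 1) * Kt / l * Ω + 16 * Cq * Λ * N ^ 2 * P) +
      s ^ 2 * (l' / (2 * (s + 1) ^ 2) * DD + 72 * E ^ 2 * c * Cq * Λ * N ^ 2 * P) +
      (32 * (Cq * exp (Cq * s)) * g1 E c s ε l' * M1 + 32 * (Cq * exp (Cq * s)) * g2 E c Λ ε m * M2) ≤
    (l + l') * DD + C * (s + 1) ^ 2 * Kt / l * Ω + C * exp (C * s) * ε ^ 2 / l' * M1 +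
      C * Λ ^ 7 * exp (C * s) / (ε ^ 6 * √m) * M2 + C * Λ * exp (C * s) * (N ^ 2 * P) := by
  have sm := sqrt_pos.2 m0
  have cq : 1 ≤ c ^ 2 * Cq := one_le_mul_of_one_le_of_one_le (one_le_pow₀ c1) q1
  have E1 : 1 ≤ E := hE ▸ one_le_exp (by positivity)
  have X : exp (Cq * s) * E ^ 4 * (s + 1) ^ 2 ≤ exp (C * s) := by
    have : (s + 1) ^ 2 ≤ exp s ^ 2 := pow_le_pow_left₀ (by positivity) (add_one_le_exp s) 2
    refine (mul_le_mul_of_nonneg_left this (by positivity)).trans ?_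
    rw [hE, ← exp_nat_mul, ← exp_nat_mul, ← exp_add, ← exp_add, exp_le_exp, hC]
    push_cast; linarith [mul_nonneg (zero_le_one.trans cq) s0]
  have Q1 : 1 ≤ exp (Cq * s) := one_le_exp (by positivity)
  have E2 : 1 ≤ E ^ 2 := one_le_pow₀ E1
  have S2 : 1 ≤ (s + 1) ^ 2 := one_le_pow₀ (by linarith)
  have Cc : 21000 * (c ^ 2 * Cq) ≤ C := by linarith
  have cc : c * Cq ≤ c ^ 2 * Cq := mul_le_mul_of_nonneg_right (by nlinarith) (by linarith)
  have X1 : exp (Cq * s) * E ^ 2 ≤ exp (C * s) := le_trans (by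
    linarith [mul_le_mul_of_nonneg_left (one_le_mul_of_one_le_of_one_le E2 S2)
      (show 0 ≤ exp (Cq * s) * E ^ 2 by positivity)]) X
  have X2 : E ^ 2 * (s + 1) ^ 2 ≤ exp (C * s) := le_trans (by
    linarith [mul_le_mul_of_nonneg_left (one_le_mul_of_one_le_of_one_le Q1 E2)
      (show 0 ≤ E ^ 2 * (s + 1) ^ 2 by positivity)]) X
  have t1 : s * (l / (s + 1) + l' / (2 * (s + 1))) + s ^ 2 * (l' / (2 * (s + 1) ^ 2)) ≤ l + l' := by
    have u1 : s * (l / (s + 1)) ≤ l := by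
      rw [← mul_div_assoc, div_le_iff₀ (by positivity)]; linarith
    have u2 : s * (l' / (2 * (s + 1))) ≤ l' / 2 := by
      rw [← mul_div_assoc, div_le_iff₀ (by positivity)]; linarith
    have u3 : s ^ 2 * (l' / (2 * (s + 1) ^ 2)) ≤ l' / 2 := by
      rw [← mul_div_assoc, div_le_iff₀ (by positivity)]; linarith [mul_nonneg s0 l0'.le]
    linarith
  have t2 : s * (2 * (s + 1)) ≤ C * (s + 1) ^ 2 := by
    linarith [mul_le_mul_of_nonneg_right (show 2 ≤ C by linarith) (sq_nonneg (s + 1))]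
  have t3 : 32 * (Cq * exp (Cq * s)) * g1 E c s ε l' ≤ C * exp (C * s) * ε ^ 2 / l' := by
    rw [g1, ← mul_div_assoc]
    refine div_le_div_of_nonneg_right ?_ l0'.le
    have := mul_le_mul (show 20736 * (c ^ 2 * Cq) ≤ C by linarith) X (by positivity) (by linarith)
    linarith [mul_le_mul_of_nonneg_right this (sq_nonneg ε)]
  have t4 : 32 * (Cq * exp (Cq * s)) * g2 E c Λ ε m ≤ C * Λ ^ 7 * exp (C * s) / (ε ^ 6 * √m) := by
    rw [g2, ← mul_div_assoc]
    refine div_le_div_of_nonneg_right ?_ (by positivity)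
    have := mul_le_mul (show 288 * (c * Cq) ≤ C by linarith) X1 (by positivity) (by linarith)
    linarith [mul_le_mul_of_nonneg_right this (show 0 ≤ Λ ^ 7 by positivity)]
  have t5 : s * (16 * Cq) + s ^ 2 * (72 * E ^ 2 * c * Cq) ≤ C * exp (C * s) := by
    have v1 : Cq ≤ c * Cq := le_mul_of_one_le_left (by linarith) c1
    have v2 : s ≤ E ^ 2 * (s + 1) ^ 2 := by
      linarith [mul_le_mul_of_nonneg_right E2 (sq_nonneg (s + 1)), sq_nonneg s]
    have v3 : E ^ 2 * s ^ 2 ≤ E ^ 2 * (s + 1) ^ 2 :=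
      mul_le_mul_of_nonneg_left (by linarith) (sq_nonneg E)
    have := mul_le_mul (show 88 * (c * Cq) ≤ C by linarith) X2 (by positivity) (by linarith)
    linarith [mul_le_mul v1 v2 s0 (by positivity), mul_le_mul_of_nonneg_left v3
      (show 0 ≤ c * Cq by positivity)]
  have r2 := mul_le_mul_of_nonneg_right t2 (show 0 ≤ Kt / l * Ω by positivity)
  rw [mul_div_assoc (2 * (s + 1)), mul_div_assoc (C * (s + 1) ^ 2)]
  linarith [mul_le_mul_of_nonneg_right t1 D0, mul_le_mul_of_nonneg_right t3 m1,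
    mul_le_mul_of_nonneg_right t4 m2,
    mul_le_mul_of_nonneg_right t5 (show 0 ≤ Λ * (N ^ 2 * P) by positivity)]

end num

theorem Z2_nn (ψ : VF n) (v : ℝ) (k : Fin n) (x : Cube n) : 0 ≤ S6a.Z2 W ψ v k x :=
  (Z1_nn ψ v k x).trans (Z1_le ψ v k x)

/-- indicator of the bad set -/
def bd (G : Finset (Cube n)) (y : Cube n) : ℝ := if y ∈ G then 0 else 1

theorem bd01 (G : Finset (Cube n)) (y : Cube n) : bd G y = 0 ∨ bd G y = 1 := by
  by_cases e : y ∈ G <;> simp [bd, e]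

theorem bd0 {G : Finset (Cube n)} {y : Cube n} (e : bd G y = 0) : y ∈ G := by
  by_contra e'; simp [bd, e'] at e

theorem bd_nn (G : Finset (Cube n)) (y : Cube n) : 0 ≤ bd G y := by
  rcases bd01 G y with e | e <;> simp [e]

variable {ρ : ℝ → ℝ} {ψ : VF n} {v c Cq E Λ ε o m s l l' : ℝ} {G : Finset (Cube n)} {d : V n}

/-- (ErrBd) at one time -/
def EB (W : Mx n) (ρ : ℝ → ℝ) (ψ : VF n) (v c : ℝ) : Prop :=
  ∀ (x : Cube n) (T : Finset (Fin n)) (o ε : ℝ), Loc W ρ v x T o ε →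
  ∑ j, (∑ k ∈ T, er W ρ ψ v k x j) ^ 2 ≤ c * ε ^ 2 * ∑ k ∈ T, S6a.Z2 W ψ v k x ∧
  ∑ j, (∑ k ∈ T, yW W ρ ψ v k x j) ^ 2 ≤
    2 * o ^ 2 * ∑ k ∈ T, ka W ψ v k x ^ 2 + 2 * ε ^ 2 * ∑ k ∈ T, Z1 W ψ v k x

theorem bulk {x : Cube n} (hE : EB W ρ ψ v c) (hΛ : Loc W ρ v x univ Λ Λ)
    (hG : x ∈ G → ∀ T : Finset (Fin n), (T.card : ℝ) ≤ m → Loc W ρ v x T o ε)
    (hz : ∑ k, S6a.Z2 W ψ v k x ≤ n * (Cq * n ^ 2 * 4 ^ 2)) (hd : d ⬝ᵥ d ≤ n * 4) (E1 : 1 ≤ E)
    (c1 : 1 ≤ c) (q1 : 1 ≤ Cq) (s0 : 0 ≤ s) (l0 : 0 < l) (l0' : 0 < l') (ε0 : 0 < ε) (ε1 : ε ≤ 1)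
    (Λ1 : 1 ≤ Λ) (m0 : 0 < m) : d ⬝ᵥ Phi W ρ ψ v x ≤ (l / (s + 1) + l' / (2 * (s + 1))) * (d ⬝ᵥ d) +
      o ^ 2 / (l / (s + 1)) * ∑ k, ka W ψ v k x ^ 2 + 16 * Cq * Λ * n ^ 2 * bd G x ^ (2 / 3 : ℝ) +
      (g1 E c s ε l' + nr d * g2 E c Λ ε m) * ∑ i : Bool × Fin n, Z1 W ψ v i.2 x ^ pw i.1 := by
  have e : Phi W ρ ψ v x = ∑ k, yW W ρ ψ v k x := by funext j; simp only [Phi, Finset.sum_apply]
  have z1 := (sum_le_sum fun k _ => Z1_le ψ v k x).trans hz
  have k := phi_pt (e := fun k => yW W ρ ψ v k x) (d := d) (o := o) (ε := ε) (θ := (ε / Λ) ^ 4)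
    (ka := fun k => ka W ψ v k x) (N := 16 * Cq * Λ * n ^ 2) (l := l / (s + 1))
    (l' := l' / (2 * (s + 1))) (fun k => Z1_nn ψ v k x) (by positivity) m0
    (by linarith : 0 ≤ Λ) (by positivity) (by positivity) (bd01 G x) (fun T => by
      rw [dot_eq]
      refine (hE x T Λ Λ (loc_sub hΛ T)).2.trans ?_
      have : ∑ k ∈ T, ka W ψ v k x ^ 2 ≤ ∑ k ∈ T, Z1 W ψ v k x :=
        sum_le_sum fun k _ => le_add_of_nonneg_right (sum_nonneg fun _ _ => sq_nonneg _)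
      linarith [mul_le_mul_of_nonneg_left this (sq_nonneg Λ)]) (fun hb T hT => by
      rw [dot_eq]; exact (hE x T _ _ (hG (bd0 hb) T hT)).2) (le_of_eq (by field_simp)) (by
      refine (mul_le_mul hd (mul_le_mul_of_nonneg_left z1 (by positivity))
        (mul_nonneg (by positivity) (sum_nonneg fun k _ => Z1_nn _ _ _ _)) (by positivity)).trans ?_
      linarith [mul_le_mul_of_nonneg_right q1 (show 0 ≤ Cq * Λ ^ 2 * n ^ 4 by positivity)])
    (by positivity)
  have s1 : 0 ≤ ∑ k, Z1 W ψ v k x + ∑ k, Z1 W ψ v k x ^ (3 / 4 : ℝ) := add_nonneg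
    (sum_nonneg fun k _ => Z1_nn _ _ _ _) (sum_nonneg fun k _ => rpow_nonneg (Z1_nn _ _ _ _) _)
  have k1 := mul_le_mul_of_nonneg_right (add_le_add (n1 (ε := ε) E1 c1 s0 l0')
    (mul_le_mul_of_nonneg_left (n2 E1 c1 ε0 ε1 Λ1 m0) (nr_nn d))) s1
  have k4 : bd G x ^ (2 / 3 : ℝ) = bd G x := by rcases bd01 G x with e | e <;> simp [e]
  rw [e, sum_pw fun q k => Z1 W ψ v k x ^ q, k4]
  simp only [rpow_one]
  linarith

theorem error {x : Cube n} {U : V n} {r : ℝ} (hn : 0 < n) (hE : EB W ρ ψ v c)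
    (hΛ : ∀ y, Loc W ρ v y univ Λ Λ)
    (hG : ∀ y ∈ G, ∀ T : Finset (Fin n), (T.card : ℝ) ≤ m → Loc W ρ v y T o ε)
    (hz : ∀ y, ∑ k, S6a.Z2 W ψ v k y ≤ n * (Cq * n ^ 2 * 4 ^ 2)) (hd : d ⬝ᵥ d ≤ n * 4) (r0 : 0 ≤ r)
    (hU : (U ⬝ᵥ U) ^ (3 / 4 : ℝ) ≤
      E * sg (mu W) r (fun z => (Err W ρ ψ v z ⬝ᵥ Err W ρ ψ v z) ^ (3 / 4 : ℝ)) x) (E1 : 1 ≤ E)
    (c1 : 1 ≤ c) (q1 : 1 ≤ Cq) (s0 : 0 ≤ s) (l0' : 0 < l') (ε0 : 0 < ε) (Λ1 : 1 ≤ Λ) (m0 : 0 < m) :
    -(d ⬝ᵥ U) ≤ l' / (2 * (s + 1) ^ 2) * (d ⬝ᵥ d) +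
      72 * E ^ 2 * c * Cq * Λ * n ^ 2 * sg (mu W) r (bd G) x ^ (2 / 3 : ℝ) +
      (g1 E c s ε l' + nr d * g2 E c Λ ε m) *
        ∑ i : Bool × Fin n, sg (mu W) r (fun z => S6a.Z2 W ψ v i.2 z ^ pw i.1) x := by
  have hw := mu_pos W
  obtain ⟨L, L0, hL⟩ : ∃ L, 0 < L ∧ L ^ 2 = c * Λ := ⟨√(c * Λ), by positivity, sq_sqrt (by positivity)⟩
  obtain ⟨δ, δ0, hδ⟩ : ∃ δ, 0 < δ ∧ δ ^ 2 = c * ε := ⟨√(c * ε), by positivity, sq_sqrt (by positivity)⟩
  have L4 : L ^ 4 = (c * Λ) ^ 2 := by rw [← hL]; ring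
  have δ4 : δ ^ 4 = (c * ε) ^ 2 := by rw [← hδ]; ring
  obtain ⟨μ, μ0, μ4, μ2⟩ : ∃ μ, 0 < μ ∧ μ ^ 4 = ((ε / Λ) ^ 4) ^ 2 * m ∧ μ ^ 2 = (ε / Λ) ^ 4 * √m :=
    ⟨r4 _, r4_pos (by positivity), r4_pow (by positivity), by
      rw [r4_sq (by positivity), sqrt_mul (sq_nonneg _), sqrt_sq (by positivity)]⟩
  obtain ⟨N, N0, N4⟩ : ∃ N, 0 ≤ N ∧ N ^ 4 = (c * Λ) ^ 2 * (n * (Cq * n ^ 2 * 4 ^ 2)) :=
    ⟨r4 _, r4_nn (by positivity), r4_pow (by positivity)⟩
  have g3 : nr d * N ^ 2 ≤ 8 * c * Cq * Λ * n ^ 2 := (abs_le_of_sq_le_sq' (by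
    rw [mul_pow, nr_sq, ← pow_mul, N4]
    refine (mul_le_mul_of_nonneg_right hd (by positivity)).trans ?_
    linarith [mul_le_mul_of_nonneg_right q1 (show 0 ≤ c ^ 2 * Cq * Λ ^ 2 * n ^ 4 by positivity)])
    (by positivity)).2
  have s1 : ∀ y, 0 ≤ ∑ k, S6a.Z2 W ψ v k y + ∑ k, S6a.Z2 W ψ v k y ^ (3 / 4 : ℝ) := fun y => add_nonneg
    (sum_nonneg fun k _ => Z2_nn _ _ _ _) (sum_nonneg fun k _ => rpow_nonneg (Z2_nn _ _ _ _) _)
  have k := err_pair (isP_hbCt hn hw r0 x) (d := d) (a := 2 * δ) (k := L ^ 3 / μ) (N := N)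
    (l := l' / (2 * (s + 1) ^ 2)) s1 (bd_nn G) E1 (by positivity) N0 (by positivity) (fun y => by
      have e : Err W ρ ψ v y = ∑ k, er W ρ ψ v k y := by funext j; simp only [Err, Finset.sum_apply]
      have c2 : c ≤ c ^ 2 := by nlinarith
      rw [e]
      refine err_pt (m := m) (θ := (ε / Λ) ^ 4) (fun k => Z2_nn _ _ k y) (by positivity) L0.le δ0.le
        μ0 N0 (bd01 G y) (fun T => ?_) (fun hb T hT => ?_) ?_ μ4 ?_
      · rw [dot_eq, L4, mul_pow]
        exact (hE y T Λ Λ (loc_sub (hΛ y) T)).1.trans (mul_le_mul_of_nonneg_right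
          (mul_le_mul_of_nonneg_right c2 (sq_nonneg _)) (sum_nonneg fun k _ => Z2_nn _ _ k y))
      · rw [dot_eq, δ4, mul_pow]
        exact (hE y T _ _ (hG y (bd0 hb) T hT)).1.trans (mul_le_mul_of_nonneg_right
          (mul_le_mul_of_nonneg_right c2 (sq_nonneg _)) (sum_nonneg fun k _ => Z2_nn _ _ k y))
      · rw [L4, δ4]; exact le_of_eq (by field_simp)
      · rw [L4, N4]; exact mul_le_mul_of_nonneg_left (hz y) (sq_nonneg _)) hU
  have e1 : ∑ i : Bool × Fin n, sg (mu W) r (fun z => S6a.Z2 W ψ v i.2 z ^ pw i.1) x =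
      mean (hbCt (mu W) r x) fun y => ∑ k, S6a.Z2 W ψ v k y + ∑ k, S6a.Z2 W ψ v k y ^ (3 / 4 : ℝ) := by
    rw [← sg_sum]
    refine sum_congr rfl fun y _ => ?_
    beta_reduce
    rw [sum_pw fun q k => S6a.Z2 W ψ v k y ^ q]
    simp only [rpow_one]
  have k1 := mul_le_mul_of_nonneg_right (mul_le_mul_of_nonneg_left (n5 (E := E) c1 ε0 Λ1 m0 hδ hL μ2)
    (nr_nn d)) ((isP_hbCt hn hw r0 x).mean_nonneg s1)
  have k2 := mul_le_mul_of_nonneg_right g3 (show 0 ≤ 9 * E ^ 2 * sg (mu W) r (bd G) x ^ (2 / 3 : ℝ) from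
    mul_nonneg (by positivity) (rpow_nonneg (sg_nonneg hn hw r0 (bd_nn G) x) _))
  have e2 : mean (hbCt (mu W) r x) (bd G) = sg (mu W) r (bd G) x := rfl
  rw [n4 hδ s0 l0', e2] at k
  rw [e1]
  linarith

theorem mean3 (ν f1 f2 f3 : Cube n → ℝ) (a b : ℝ) :
    mean ν (fun x => a * f1 x + b * f2 x + f3 x) = a * mean ν f1 + b * mean ν f2 + mean ν f3 := by
  simp only [mean, mul_add, sum_add_distrib, mul_left_comm (ν _), ← mul_sum]

end Eb20

open Eb20

theorem ebGlue : EbGlue := by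
  rintro hR ⟨Cp, p1, hP⟩ ⟨Cq, q1, hQ⟩ hD hC ⟨c, c1, hE⟩
  refine ⟨21000 * (c ^ 2 * Cq) + 4 * Cp + Cq + 2, by
    linarith [one_le_mul_of_one_le_of_one_le (one_le_pow₀ (n := 2) c1) q1], ?_⟩
  intro n W h ρ θ θ' K t m a Ko ε Λ p σ B D g ω hDec hF hg hω h4 m0 a0 ha K0 ε0 ε1 Λ1 p0 s hs l l0 l' l0'
  obtain ⟨-, d2, -, dP, -⟩ := hR n W h g hg.1 hg.2.1
  obtain ⟨G, hG, hgood⟩ := hF.good
  obtain ⟨eq1, eq2⟩ := hQ n W h ω hω
  have fa := (hD n W h ρ hF.cont ω hω).1
  have fP := fun u => (hD n W h ρ hF.cont _ (fa u)).2.1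
  have ct := hC n W h ρ hF.cont ω
  have hν := isP_nu hg
  have hw := mu_pos W
  have hn := h.pos
  have s0 := hs.1
  have E1 : 1 ≤ exp (Cp * s) := one_le_exp (by positivity)
  have P0 : 0 ≤ (exp D * p) ^ (2 / 3 : ℝ) := rpow_nonneg (by positivity) _
  have D0 := hν.mean_nonneg fun x => dn (dd W g x)
  have Ω0 := hν.mean_nonneg (sg_nonneg hn hw s0 fun z => dn (ω z))
  rw [nu_sg hn] at Ω0
  have dd4 : ∀ x, dd W g x ⬝ᵥ dd W g x ≤ n * 4 := fun x =>
    (sum_le_sum (g := fun _ => (4 : ℝ)) fun k _ => by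
      have := abs_le.1 (d2 x k)
      nlinarith only [this]).trans (by simp)
  have zz : ∀ u ≥ (0 : ℝ), ∀ v ≥ (0 : ℝ), ∀ x, ∑ k, S6a.Z2 W (alf W ω u) v k x ≤
      n * (Cq * n ^ 2 * 4 ^ 2) := fun u hu v hv x =>
    (sum_le_sum (g := fun _ => Cq * n ^ 2 * 4 ^ 2) fun k _ => eq2 4 h4 u hu v hv x k).trans (by simp)
  have hh : ∀ x, 0 ≤ g1 (exp (Cp * s)) c s ε l' + nr (dd W g x) * g2 (exp (Cp * s)) c Λ ε m :=
    fun x => by have := nr_nn (dd W g x); unfold g1 g2; positivity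
  have pp : ∀ b, 0 ≤ pw b := fun b => by rcases pw_cases b with e | e <;> rw [e] <;> norm_num
  have cn : ∀ x, 0 ≤ sg (mu W) s (cnt ω) x := sg_nonneg hn hw s0 fun z =>
    sum_nonneg fun k _ => by split_ifs <;> norm_num
  have m1 := hν.mean_nonneg cn
  have m2 := hν.mean_nonneg fun x => mul_nonneg (sqrt_nonneg (dd W g x ⬝ᵥ dd W g x)) (cn x)
  rw [ev_eq g fun x => dd W g x ⬝ᵥ dd W g x, ev_eq g, ← nu_sg hn g (cnt ω)]
  refine le_trans ?_ (fin c1 q1 p1 s0 rfl rfl l0 l0' ε0 Λ1 m0 D0 Ω0 P0 m1 m2 (by positivity))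
  refine (integ (Ξ := fun (i : Bool × Fin n) u x => Z1 W (alf W ω u) (s - u) i.2 x ^ pw i.1)
    (Θ := fun (i : Bool × Fin n) u v x =>
      sg (mu W) (s - u - v) (fun z => S6a.Z2 W (alf W ω u) v i.2 z ^ pw i.1) x) hν hh s0
    (by positivity) (by positivity)
    (fun i x => ((ct x i.2).2.2.1.comp (continuous_id.prodMk
      (continuous_const.sub continuous_id))).rpow_const fun _ => Or.inr (pp _))
    (fun i x => cont_sg_fam hn hw (t := fun p : ℝ × ℝ => s - p.1 - p.2) (by fun_prop)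
      (fun z => (ct z i.2).2.2.2.1.rpow_const fun _ => Or.inr (pp _)) x)
    (fun i u x => rpow_nonneg (Z1_nn _ _ _ _) _)
    (fun i u _ v hv x => sg_nonneg hn hw (sub_nonneg.2 hv.2) (fun z => rpow_nonneg (Z2_nn _ _ _ _) _) x)
    (fun u hu => ?_) (fun u hu v hv => ?_) fun i x => eq1 _ (pw_cases i.1) s s0 x i.2).trans
    (add_le_add le_rfl ?_)
  · have v0 : s - u ∈ Set.Icc 0 t := ⟨sub_nonneg.2 hu.2, (sub_le_self _ hu.1).trans hs.2⟩
    have b1 := bad hn hg hG le_rfl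
    simp only [sg_zero hn hw] at b1
    rw [dP _ (fP u _).1, ev_eq]
    refine (hν.mean_mono fun x => (bulk (G := G) (hE n W h ρ _ (fa u) _) (hF.glob _ v0 x)
      (fun hx => hgood x hx _ v0) (zz u hu.1 _ v0.1 x) (dd4 x) E1 c1 q1 s0 l0 l0' ε0 ε1 Λ1 m0).trans
      (add_le_add (add_le_add (add_le_add le_rfl ((mul_le_mul_of_nonneg_left (ka_sq h hDec hω hu x)
        (by positivity)).trans ((mul_assoc _ _ _).ge.trans (mul_le_mul_of_nonneg_right
          (n3 a0 ha hu.1 s0 l0) (sg_nonneg hn hw s0 (fun z => dn (ω z)) x))))) le_rfl) le_rfl)).trans ?_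
    simp only [add_assoc]
    rw [show ∀ (a b : ℝ) (f1 f2 f3 f4 : Cube n → ℝ), (fun x => a * f1 x + (b * f2 x + (f3 x + f4 x))) =
      fun x => a * f1 x + b * f2 x + (f3 + f4) x from fun _ _ _ _ _ _ => by
        funext x; simp only [Pi.add_apply, add_assoc], mean3, Chain22.mean_add, nu_sg hn, add_assoc]
    refine add_le_add le_rfl (add_le_add le_rfl (add_le_add ?_ le_rfl))
    exact (Chain22.mean_smul _ _ _).trans_le (mul_le_mul_of_nonneg_left b1 (by positivity))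
  · have r0 := sub_nonneg.2 hv.2
    have v0 : v ∈ Set.Icc 0 t := ⟨hv.1, hv.2.trans ((sub_le_self _ hu.1).trans hs.2)⟩
    obtain ⟨U, fU, eU, hU⟩ := hP n W h _ (fP u v).2.2 _ r0
    rw [eU, dP _ fU, ev_eq, ← neg_one_mul, ← Chain22.mean_smul]
    refine (hν.mean_mono fun x => (neg_one_mul _).trans_le (error (G := G) hn
      (hE n W h ρ _ (fa u) _) (hF.glob _ v0) (fun y hy => hgood y hy _ v0) (zz u hu.1 _ hv.1) (dd4 x) r0
      ((hU x).trans (mul_le_mul_of_nonneg_right (exp_le_exp.2 (mul_le_mul_of_nonneg_left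
        ((sub_le_self _ hv.1).trans (sub_le_self _ hu.1)) (zero_le_one.trans p1)))
        (sg_nonneg hn hw r0 (fun z => rpow_nonneg (dn _) _) x))) E1 c1 q1 s0 l0' ε0 Λ1 m0)).trans ?_
    rw [mean3]
    exact add_le_add (add_le_add le_rfl (mul_le_mul_of_nonneg_left (bad hn hg hG r0)
      (by positivity))) le_rfl
  · rw [← mean_lin]
    refine hν.mean_mono fun x => ?_
    rw [← mul_sum]
    refine (mul_le_mul_of_nonneg_left (mul_le_mul_of_nonneg_left (cnt_le hn h4 s0 x)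
      (by positivity)) (hh x)).trans_eq ?_
    rw [nr]; ring

end Crest.Agent.T157.S6a

end
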