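import Crest.Agent.T157.BDef_95

/-!
# Row 157, part B (helper95): from the second layer to `Top.CutoffStmt`
-/

set_option autoImplicit false

noncomputable section

namespace Crest.Agent.T157.B

open Matrix Real Filter Finset MeasureTheory
open Crest.ProbabilityR.SpinGlassDynamics
open Crest.Agent.T157.E Crest.Agent.T157.Top Crest.Agent.T157.Rv
open Crest.Agent.T157.Chain22 (sg sg_add sg_zero hasDerivAt_sg isP_prob')
open Crest.Agent.T157.Ent (cnd)

variable {n : ℕ} {w v f : Cube n → ℝ}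

/-! ### site words -/

theorem dn_pos (hw : ∀ x, 0 < w x) (hf : ∀ x, 0 < f x) (x : Cube n) : 0 < dn w f x :=
  mul_pos (hw x) (hf x)

theorem mean_dn (hw : ∀ x, 0 < w x) (h1 : mean w f = 1) (G : Cube n → ℝ) :
    mean (dn w f) G = mean w fun x => f x * G x := by
  have Z : 0 < ∑ y, w y := sum_pos (fun y _ => hw y) univ_nonempty
  have e : ∑ y, dn w f y = ∑ y, w y := by
    have : ∑ y, dn w f y = (∑ y, w y) * mean w f := by
      rw [mean, mul_sum]; exact sum_congr rfl fun x _ => by rw [dn, prob]; field_simp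
    rw [this, h1, mul_one]
  exact sum_congr rfl fun x _ => by rw [prob, prob, e, dn]; ring

theorem kS_update (v w : Cube n → ℝ) (i : Fin n) (x : Cube n) (b : Bool) :
    kS v w i (Function.update x i b) = kS v w i x := by
  rw [kS, kS, Ent.cnd_update, Ent.cnd_update]

theorem kS_nn (hv : ∀ x, 0 < v x) (hw : ∀ x, 0 < w x) (i : Fin n) (x : Cube n) : 0 ≤ kS v w i x :=
  Ent.kl_nonneg (Ent.isP_cnd hv i x) (Ent.isP_cnd hw i x) (Ent.AC.of_pos _ (Ent.cnd_pos hw i x))

theorem two_pt {p q a b : ℝ} (hp : 0 < p) (hq : 0 < q) (ha : 0 < a) (hb : 0 < b) :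
    (p * a + q * b) / (p + q) *
      ((p * a / (p * a + q * b) * log (p * a / (p * a + q * b) / (p / (p + q))) +
        q * b / (p * a + q * b) * log (q * b / (p * a + q * b) / (q / (p + q)))) +
      (p / (p + q) * log (p / (p + q) / (p * a / (p * a + q * b))) +
        q / (p + q) * log (q / (p + q) / (q * b / (p * a + q * b))))) =
    p / (p + q) * ((a - (p * a + q * b) / (p + q)) * (log a - (p * log a + q * log b) / (p + q))) +
      q / (p + q) * ((b - (p * a + q * b) / (p + q)) * (log b - (p * log a + q * log b) / (p + q))) := by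
  have h1 : 0 < p + q := by positivity
  have h2 : 0 < p * a + q * b := by positivity
  have e1 : p * a / (p * a + q * b) / (p / (p + q)) = a * ((p + q) / (p * a + q * b)) := by field_simp
  have e2 : q * b / (p * a + q * b) / (q / (p + q)) = b * ((p + q) / (p * a + q * b)) := by field_simp
  have e3 : p / (p + q) / (p * a / (p * a + q * b)) = (a * ((p + q) / (p * a + q * b)))⁻¹ := by
    field_simp
  have e4 : q / (p + q) / (q * b / (p * a + q * b)) = (b * ((p + q) / (p * a + q * b)))⁻¹ := by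
    field_simp
  rw [e1, e2, e3, e4, log_inv, log_inv, log_mul ha.ne' (by positivity), log_mul hb.ne' (by positivity)]
  field_simp
  ring

/-- `I = ∑ E_ν (kl + rev)` -/
theorem II_eq (hw : ∀ x, 0 < w x) (hf : ∀ x, 0 < f x) (h1 : mean w f = 1) :
    II w f = Ak (dn w f) w + Rk (dn w f) w := by
  rw [Ak, Rk, ← sum_add_distrib, II, dir2]
  refine sum_congr rfl fun i _ => ?_
  rw [mean_dn hw h1, mean_dn hw h1]
  have e1 := Ent.mean_mean_cnd hw i (fun x y => (f y - siteM w f i x) *
    (log (f y) - siteM w (fun z => log (f z)) i x)) fun x b y => by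
      rw [Chain22.siteM_update, Chain22.siteM_update]
  have e2 := Ent.mean_mean_cnd hw i (fun x y => f y * (kS (dn w f) w i x + kS w (dn w f) i x))
    fun x b y => by rw [kS_update, kS_update]
  have e3 : (mean w fun x => f x * kS (dn w f) w i x) + (mean w fun x => f x * kS w (dn w f) i x) =
      Chain22.mean (prob w) fun x => f x * (kS (dn w f) w i x + kS w (dn w f) i x) := by
    rw [mean, mean, Chain22.mean, ← sum_add_distrib]; exact sum_congr rfl fun x _ => by ring
  rw [e3, ← e2]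
  refine e1.symm.trans (Ent.mean_congr fun x => ?_)
  have := two_pt (hw (Function.update x i true)) (hw (Function.update x i false))
    (hf (Function.update x i true)) (hf (Function.update x i false))
  simp only [Chain22.mean, Fintype.sum_bool, kS, Ent.kl, cnd, dn, siteM]
  rw [← this]
  ring


theorem Df_nn (hv : ∀ x, 0 < v x) : 0 ≤ Df v w :=
  sum_nonneg fun _ _ => sum_nonneg fun x _ => mul_nonneg ((isP_prob' hv).nn x) (le_max_right _ _)

/-- `Def ≤ I` -/
theorem Df_le (hw : ∀ x, 0 < w x) (hf : ∀ x, 0 < f x) (h1 : mean w f = 1) :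
    Df (dn w f) w ≤ II w f := by
  rw [II_eq hw hf h1, Ak, Rk, Df, ← sum_add_distrib]
  refine sum_le_sum fun i _ => ?_
  rw [mean, mean, mean, ← sum_add_distrib]
  refine sum_le_sum fun x _ => ?_
  rw [← mul_add]
  have a := kS_nn (dn_pos hw hf) hw i x
  have b := kS_nn hw (dn_pos hw hf) i x
  exact mul_le_mul_of_nonneg_left (max_le (by linarith) (by linarith))
    ((isP_prob' (dn_pos hw hf)).nn x)

/-! ### deficits along one trajectory -/

section paid
variable {D D' : (Cube n → ℝ) → ℝ} {a η η' N N' T T' : ℝ}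

theorem Paid.add (h : Paid w D a η N T f) (h' : Paid w D' a η' N' T f) :
    Paid w (fun f => D f + D' f) a (η + η') (N + N') T f := by
  obtain ⟨Λ, Λ', z, h⟩ := h
  obtain ⟨M, M', z', h'⟩ := h'
  refine ⟨fun s => Λ s + M s, fun s => Λ' s + M' s, by simp [z, z'], fun s s0 s1 => ?_⟩
  obtain ⟨a1, a2, a3⟩ := h s s0 s1
  obtain ⟨b1, b2, b3⟩ := h' s s0 s1
  exact ⟨a1.add b1, by linarith, by linarith⟩

theorem Paid.smul (h : Paid w D a η N T f) {C : ℝ} (hC : 0 ≤ C) :
    Paid w (fun f => C * D f) a (C * η) (C * N) T f := by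
  obtain ⟨Λ, Λ', z, h⟩ := h
  refine ⟨fun s => C * Λ s, fun s => C * Λ' s, by simp [z], fun s s0 s1 => ?_⟩
  obtain ⟨a1, a2, a3⟩ := h s s0 s1
  exact ⟨a1.const_mul C, by nlinarith [mul_le_mul_of_nonneg_left a2 hC],
    by nlinarith [mul_le_mul_of_nonneg_left a3 hC]⟩

theorem HI_nn (hn : 0 < n) (hw : ∀ x, 0 < w x) (hf : ∀ x, 0 < f x) : 0 ≤ ent w f + II w f :=
  add_nonneg (ent_nn hw fun x => (hf x).le) (II_nn hn hw hf)

theorem Paid.mono (hn : 0 < n) (hw : ∀ x, 0 < w x) (hf : ∀ x, 0 < f x) (h : Paid w D a η N T f)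
    (hD : ∀ s, 0 ≤ s → D' (sg w s f) ≤ D (sg w s f)) (h1 : η ≤ η') (h2 : N ≤ N') (h3 : T' ≤ T) :
    Paid w D' a η' N' T' f := by
  obtain ⟨Λ, Λ', z, h⟩ := h
  refine ⟨Λ, Λ', z, fun s s0 s1 => ?_⟩
  obtain ⟨a1, a2, a3⟩ := h s s0 (s1.trans h3)
  have p1 := HI_nn hn hw (sg_pos hn hw s0 hf)
  have p2 := HI_nn hn hw hf
  refine ⟨a1, le_trans (mul_le_mul_of_nonneg_left ?_ (exp_pos _).le) a2,
    a3.trans (mul_le_mul_of_nonneg_right h2 (by positivity))⟩
  nlinarith [hD s s0]

theorem continuous_sg (hn : 0 < n) (hw : ∀ x, 0 < w x) (f : Cube n → ℝ) (x : Cube n) :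
    Continuous fun s => sg w s f x :=
  continuous_iff_continuousAt.2 fun u => (hasDerivAt_sg hn hw f x u).continuousAt

theorem continuous_HI (hn : 0 < n) (hw : ∀ x, 0 < w x) (hf : ∀ x, 0 < f x) :
    Continuous fun u : ℝ => ent w (sg w (max u 0) f) + II w (sg w (max u 0) f) := by
  have c0 : Continuous fun u : ℝ => max u 0 := continuous_id.max continuous_const
  have c1 : ∀ x, Continuous fun u : ℝ => sg w (max u 0) f x := fun x =>
    (continuous_sg hn hw f x).comp c0
  have c2 : ∀ x, Continuous fun u : ℝ => log (sg w (max u 0) f x) := fun x =>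
    (c1 x).log fun u => (sg_pos hn hw (le_max_right _ _) hf x).ne'
  refine Continuous.add (continuous_iff_continuousAt.2 fun u => ?_) ?_
  · exact ContinuousAt.comp (f := fun u : ℝ => max u 0) (g := fun s => ent w (sg w s f))
      (hasDerivAt_ent_sg hn hw (sg_pos hn hw (le_max_right u 0) hf)).continuousAt c0.continuousAt
  · simp only [II, dir2, siteM]
    refine continuous_finsetSum _ fun i _ => continuous_finsetSum _ fun x _ => ?_
    exact continuous_const.mul (((c1 x).sub (((continuous_const.mul (c1 _)).add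
      (continuous_const.mul (c1 _))).div_const _)).mul ((c2 x).sub
        (((continuous_const.mul (c2 _)).add (continuous_const.mul (c2 _))).div_const _)))

/-- the master lemma: instantaneous, delayed and initial terms -/
theorem paid_of (hn : 0 < n) (hw : ∀ x, 0 < w x) (hf : ∀ x, 0 < f x) (ha : 0 < a) (hη : 0 ≤ η)
    {K τ : ℝ} (hK : 0 ≤ K) (hτ : 0 ≤ τ)
    (h : ∀ s, 0 ≤ s → s ≤ T → exp (2 * a * s) * D (sg w s f) ≤
      η * (exp (2 * a * s) * (ent w (sg w s f) + II w (sg w s f))) +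
      η * (exp (2 * a * (s - τ)) * (ent w (sg w (max (s - τ) 0) f) + II w (sg w (max (s - τ) 0) f))) +
      K * (ent w f + II w f + II w (sg w s f) + exp (2 * a * s))) :
    Paid w D a (2 * η) (K * (T + 1 + 1 / (2 * a)) + η * τ) T f := by
  set g : ℝ → ℝ := fun u => exp (2 * a * u) * (ent w (sg w (max u 0) f) + II w (sg w (max u 0) f))
    with hg
  have gc : Continuous g := (by fun_prop : Continuous fun u : ℝ => exp (2 * a * u)).mul
    (continuous_HI hn hw hf)
  have g0 : ∀ u, 0 ≤ g u := fun u =>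
    mul_nonneg (exp_pos _).le (HI_nn hn hw (sg_pos hn hw (le_max_right _ _) hf))
  have G : ∀ u, HasDerivAt (fun u => ∫ t in (0 : ℝ)..u, g t) (g u) u := fun u =>
    (gc.deriv_integral g 0 u ▸ (intervalIntegral.integral_hasDerivAt_right (gc.intervalIntegrable _ _)
      (gc.stronglyMeasurableAtFilter _ _) gc.continuousAt).differentiableAt.hasDerivAt)
  have p0 := HI_nn hn hw hf
  refine ⟨fun s => η * ((∫ t in (0 : ℝ)..(s - τ), g t) - (∫ t in (0 : ℝ)..(-τ), g t) -
      ∫ t in (0 : ℝ)..s, g t) + K * (s * (ent w f + II w f) + (ent w f - ent w (sg w s f)) +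
        (exp (2 * a * s) - 1) / (2 * a)),
    fun s => η * (g (s - τ) - g s) + K * (ent w f + II w f + II w (sg w s f) + exp (2 * a * s)),
    by simp [sg_zero hn hw], fun s s0 s1 => ⟨?_, ?_, ?_⟩⟩
  · have d1 : HasDerivAt (fun s => ∫ t in (0 : ℝ)..(s - τ), g t) (g (s - τ)) s := by
      exact ((G (s - τ)).comp s ((hasDerivAt_id s).sub_const τ)).congr_deriv (mul_one _)
    have d2 := hasDerivAt_ent_sg hn hw (sg_pos hn hw s0 hf)
    have d3 : HasDerivAt (fun s => (exp (2 * a * s) - 1) / (2 * a)) (exp (2 * a * s)) s := by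
      have := ((((hasDerivAt_id s).const_mul (2 * a)).exp).sub_const 1).div_const (2 * a)
      refine this.congr_deriv ?_
      simp only [id]; field_simp
    refine ((((d1.sub_const _).sub (G s)).const_mul η).add
      ((((hasDerivAt_id s).mul_const (ent w f + II w f)).add (d2.const_sub (ent w f))).add
        d3 |>.const_mul K)).congr_deriv ?_
    ring
  · have := h s s0 s1
    have e : g s = exp (2 * a * s) * (ent w (sg w s f) + II w (sg w s f)) := by
      simp only [hg, max_eq_left s0]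
    simp only [e]
    simp only [hg]
    linarith
  · have i1 : (∫ t in (0 : ℝ)..(s - τ), g t) - ∫ t in (0 : ℝ)..s, g t ≤ 0 := by
      rw [intervalIntegral.integral_interval_sub_left (gc.intervalIntegrable _ _)
        (gc.intervalIntegrable _ _), intervalIntegral.integral_symm]
      exact neg_nonpos.2 (intervalIntegral.integral_nonneg (by linarith) fun u _ => g0 u)
    have i2 : -(∫ t in (0 : ℝ)..(-τ), g t) ≤ τ * (ent w f + II w f) := by
      rw [← intervalIntegral.integral_symm]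
      have := intervalIntegral.integral_mono_on (a := -τ) (b := 0) (μ := volume) (by linarith)
        (gc.intervalIntegrable _ _) (intervalIntegrable_const (c := ent w f + II w f)) fun u hu => by
          simp only [hg, max_eq_right hu.2, sg_zero hn hw]
          exact mul_le_of_le_one_left p0 (exp_le_one_iff.2 (by nlinarith [hu.2]))
      simpa [mul_add] using this
    have i3 := ent_nn hw (sg_nn hn hw s0 fun x => (hf x).le)
    have i4 := II_nn hn hw hf
    have i5 := exp_pos (2 * a * s)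
    have i6 : (exp (2 * a * s) - 1) / (2 * a) ≤ 1 / (2 * a) * exp (2 * a * s) := by
      rw [one_div, inv_mul_eq_div]; gcongr; linarith
    have i7 : 0 < 1 / (2 * a) := by positivity
    have i8 : s * (ent w f + II w f) + (ent w f - ent w (sg w s f)) + (exp (2 * a * s) - 1) / (2 * a) ≤
        (T + 1 + 1 / (2 * a)) * (ent w f + II w f + exp (2 * a * s)) := by
      nlinarith [mul_le_mul_of_nonneg_right s1 p0, mul_nonneg i7.le p0,
        mul_nonneg (s0.trans s1) i5.le]
    nlinarith [mul_le_mul_of_nonneg_left i8 hK, mul_le_mul_of_nonneg_left (add_le_add i1 i2) hη,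
      mul_nonneg (mul_nonneg hη hτ) i5.le]

/-- one block -/
theorem Paid.block (hn : 0 < n) (hw : ∀ x, 0 < w x) (hf : ∀ x, 0 < f x) (ha : 0 < a) (hη : 0 ≤ η)
    (hN : 0 ≤ N) {a1 B s : ℝ} (hB : 0 ≤ B) (h1 : (1 + η) * (2 * a) + η ≤ 2 * a1)
    (h : Paid w D a η N T f)
    (hp : ∀ u, 0 ≤ u → 2 * a1 * ent w (sg w u f) ≤ II w (sg w u f) + D (sg w u f) + B)
    (s0 : 0 ≤ s) (s1 : s ≤ T) :
    ent w (sg w s f) ≤ exp (-(2 * a * s)) * (ent w f + N * (ent w f + II w f)) + (N + B / (2 * a)) := by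
  obtain ⟨Λ, Λ', z, h⟩ := h
  have hd : ∀ u, 0 ≤ u → u ≤ T → HasDerivAt (fun u => (1 + η) * (exp (2 * a * u) * ent w (sg w u f)) -
      Λ u - B / (2 * a) * exp (2 * a * u))
      ((1 + η) * (exp (2 * a * u) * (2 * a * ent w (sg w u f) - II w (sg w u f))) - Λ' u -
        B * exp (2 * a * u)) u := fun u u0 u1 => by
    have d0 : HasDerivAt (fun u => exp (2 * a * u)) (exp (2 * a * u) * (2 * a)) u := by
      simpa using ((hasDerivAt_id u).const_mul (2 * a)).exp
    refine ((((d0.mul (hasDerivAt_ent_sg hn hw (sg_pos hn hw u0 hf))).const_mul (1 + η)).sub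
      (h u u0 u1).1).sub (d0.const_mul (B / (2 * a)))).congr_deriv ?_
    field_simp
    ring
  have an := antitoneOn_of_deriv_nonpos (convex_Icc 0 T)
    (fun u hu => (hd u hu.1 hu.2).continuousAt.continuousWithinAt)
    (fun u hu => (hd u (interior_subset hu).1 (interior_subset hu).2).differentiableAt.differentiableWithinAt)
    (fun u hu => by
      have u0 := (interior_subset hu).1
      have u1 := (interior_subset hu).2
      rw [(hd u u0 u1).deriv]
      have q1 := (h u u0 u1).2.1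
      have q2 := mul_le_mul_of_nonneg_left (hp u u0) (exp_pos (2 * a * u)).le
      have q3 := mul_le_mul_of_nonneg_right h1 (mul_nonneg (exp_pos (2 * a * u)).le
        (ent_nn hw (sg_nn hn hw u0 fun x => (hf x).le)))
      nlinarith)
    ⟨le_rfl, s0.trans s1⟩ ⟨s0, s1⟩ s0
  simp only [z, mul_zero, exp_zero, sg_zero hn hw] at an
  have q1 := (h s s0 s1).2.2
  have q2 := ent_nn hw (sg_nn hn hw s0 fun x => (hf x).le)
  have q3 := HI_nn hn hw hf
  have q4 := ent_nn hw fun x => (hf x).le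
  have q5 := exp_pos (2 * a * s)
  have q6 : 0 ≤ B / (2 * a) := by positivity
  have q7 : (1 + η) * (exp (2 * a * s) * ent w (sg w s f)) ≤ (1 + η) *
      (ent w f + N * (ent w f + II w f) + (N + B / (2 * a)) * exp (2 * a * s)) := by
    nlinarith [mul_nonneg hη (mul_nonneg hN q3), mul_nonneg hη (mul_nonneg (add_nonneg hN q6) q5.le)]
  have q8 := le_of_mul_le_mul_left q7 (by linarith)
  rw [exp_neg, ← div_eq_inv_mul, div_add' _ _ _ q5.ne', le_div_iff₀ q5]
  linarith

end paid

/-! ### negligible deficits -/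

variable {β lam a c : ℝ} {D D' : Fn}

theorem ev_mul (A : ℝ) {e e' : ℝ} (h : e < e') : ∀ᶠ n : ℕ in atTop, A * (n : ℝ) ^ e ≤ (n : ℝ) ^ e' := by
  filter_upwards [ev_le A (sub_pos.2 h), eventually_gt_atTop 0] with n h1 hn
  have : (n : ℝ) ^ e' = (n : ℝ) ^ (e' - e) * (n : ℝ) ^ e := by
    rw [← rpow_add (by exact_mod_cast hn), sub_add_cancel]
  rw [this]; gcongr

theorem ev_log_le (A : ℝ) {e : ℝ} (he : 0 < e) : ∀ᶠ n : ℕ in atTop, A * log n ≤ (n : ℝ) ^ e := by
  filter_upwards [ev_mul (|A| / (e / 2)) (half_lt_self he), eventually_gt_atTop 0] with n h1 hn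
  have h2 := log_le_rpow_div (Nat.cast_nonneg n) (half_pos he)
  have h3 := log_natCast_nonneg n
  calc A * log n ≤ |A| * ((n : ℝ) ^ (e / 2) / (e / 2)) := mul_le_mul (le_abs_self A) h2 h3 (abs_nonneg A)
    _ = |A| / (e / 2) * (n : ℝ) ^ (e / 2) := by ring
    _ ≤ _ := h1

theorem Neg.mono (h : Neg β a c D) (hD : Whp disorderLaw fun n g =>
    ∀ f, Warm (gibbsWeight n β g) ((n : ℝ) ^ (1 - c)) f → D' n g f ≤ D n g f) : Neg β a c D' := by
  obtain ⟨δ, d0, h⟩ := h
  refine ⟨δ, d0, fun e he η hη => ((h e he η hη).and hD).mono ?_⟩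
  filter_upwards [eventually_gt_atTop 0] with n hn g ⟨h1, h2⟩ f hf
  have hw := gibbsWeight_pos β g
  exact (h1 f hf).mono hn hw hf.1 (fun s s0 => h2 _ (hf.sg hn hw s0)) le_rfl le_rfl le_rfl

theorem Neg.add (h : Neg β a c D) (h' : Neg β a c D') :
    Neg β a c fun n g f => D n g f + D' n g f := by
  obtain ⟨δ, d0, h⟩ := h
  obtain ⟨δ', d0', h'⟩ := h'
  refine ⟨min δ δ', lt_min d0 d0', fun e he η hη => ((h _ (half_pos he) _ (half_pos hη)).and
    (h' _ (half_pos he) _ (half_pos hη))).mono ?_⟩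
  filter_upwards [eventually_gt_atTop 0, ev_mul 2 (half_lt_self he)] with n hn h0 g ⟨h1, h2⟩ f hf
  have hw := gibbsWeight_pos β g
  have l0 := log_natCast_nonneg n
  exact (((h1 f hf).mono hn hw hf.1 (fun _ _ => le_rfl) le_rfl le_rfl
    (mul_le_mul_of_nonneg_right (min_le_left δ δ') l0)).add
    ((h2 f hf).mono hn hw hf.1 (fun _ _ => le_rfl) le_rfl le_rfl
      (mul_le_mul_of_nonneg_right (min_le_right δ δ') l0))).mono hn hw hf.1 (fun _ _ => le_rfl)
    (by linarith) (by linarith) le_rfl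

theorem Neg.smul (h : Neg β a c D) {C : ℝ} (hC : 0 ≤ C) : Neg β a c fun n g f => C * D n g f := by
  obtain ⟨δ, d0, h⟩ := h
  refine ⟨δ, d0, fun e he η hη => (h _ (half_pos he) (η / (C + 1)) (by positivity)).mono ?_⟩
  filter_upwards [eventually_gt_atTop 0, ev_mul C (half_lt_self he)] with n hn h0 g h1 f hf
  refine ((h1 f hf).smul hC).mono hn (gibbsWeight_pos β g) hf.1 (fun _ _ => le_rfl) ?_ h0 le_rfl
  rw [← mul_div_assoc, div_le_iff₀ (by positivity)]
  nlinarith

theorem ev_N (ha : 0 < a) {e e' η δ : ℝ} (h : e < e') (he : 0 < e) (hη : 0 ≤ η) :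
    ∀ᶠ n : ℕ in atTop, ∀ τ, τ ≤ log n →
      (n : ℝ) ^ e * (δ * log n + 1 + 1 / (2 * a)) + η * τ ≤ (n : ℝ) ^ e' := by
  filter_upwards [ev_log_le (δ + 1 + 1 / (2 * a) + η) (sub_pos.2 h), ev_log 1, eventually_gt_atTop 0]
    with n h1 h2 hn τ h3
  have e1 : (n : ℝ) ^ e' = (n : ℝ) ^ e * (n : ℝ) ^ (e' - e) := by
    rw [← rpow_add (by exact_mod_cast hn), add_sub_cancel]
  have e2 : 1 ≤ (n : ℝ) ^ e := one_le_rpow (by exact_mod_cast hn) he.le
  have e3 : 0 < 1 / (2 * a) := by positivity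
  have e4 : η * τ ≤ (n : ℝ) ^ e * (η * log n) :=
    (mul_le_mul_of_nonneg_left h3 hη).trans (le_mul_of_one_le_left (by positivity) e2)
  rw [e1]
  refine le_trans ?_ (mul_le_mul_of_nonneg_left h1 (by positivity))
  have : δ * log n + 1 + 1 / (2 * a) ≤ (δ + 1 + 1 / (2 * a)) * log n := by nlinarith
  nlinarith [mul_le_mul_of_nonneg_left this (zero_le_one.trans e2)]

theorem NegP.neg (ha : 0 < a) (h : NegP β a c D) : Neg β a c D := by
  obtain ⟨δ, d0, h⟩ := h
  refine ⟨δ, d0, fun e he η hη => (h _ (half_pos he) _ (half_pos hη)).mono ?_⟩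
  filter_upwards [eventually_gt_atTop 0, ev_N ha (half_lt_self he) (half_pos he) (δ := δ) (half_pos hη).le]
    with n hn h0 g h1 f hf
  have hw := gibbsWeight_pos β g
  refine (paid_of (η := η / 2) (K := (n : ℝ) ^ (e / 2)) (τ := 0) hn hw hf.1 ha (half_pos hη).le
    (by positivity) le_rfl fun s s0 s1 => ?_).mono hn hw hf.1 (fun _ _ => le_rfl) (by linarith)
    (h0 0 (log_natCast_nonneg n)) le_rfl
  have b1 := mul_le_mul_of_nonneg_left (h1 f hf s s0 s1) (exp_pos (2 * a * s)).le
  have b2 : exp (2 * a * s) * exp (-(2 * a * s)) = 1 := by rw [← exp_add, add_neg_cancel, exp_zero]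
  have b3 := mul_nonneg (half_pos hη).le (mul_nonneg (exp_pos (2 * a * (s - 0))).le
    (HI_nn hn hw (sg_pos hn hw (le_max_right (s - 0) 0) hf.1)))
  refine b1.trans (le_trans (le_of_eq ?_) (add_le_add_left (le_add_of_nonneg_right b3) _))
  linear_combination ((n : ℝ) ^ (e / 2) * (ent (gibbsWeight n β g) f + II (gibbsWeight n β g) f +
    II (gibbsWeight n β g) (sg (gibbsWeight n β g) s f))) * b2

theorem NegS.negP (h : NegS β c D) : NegP β a c D := by
  refine ⟨1, one_pos, fun e he η hη => (h e he η hη).mono ?_⟩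
  filter_upwards [eventually_gt_atTop 0] with n hn g h1 f hf s s0 _
  have hw := gibbsWeight_pos β g
  have b1 := add_nonneg (HI_nn hn hw hf.1) (II_nn hn hw (sg_pos hn hw s0 hf.1))
  have b2 := mul_nonneg (rpow_nonneg (Nat.cast_nonneg n) e) (mul_nonneg (exp_pos (-(2 * a * s))).le b1)
  nlinarith [h1 _ (hf.sg hn hw s0)]

theorem NegS.neg (ha : 0 < a) (h : NegS β c D) : Neg β a c D := h.negP.neg ha

theorem neg_zero' (ha : 0 < a) : Neg β a c fun _ _ _ => 0 :=
  NegS.neg ha fun e _ η hη => whp_of_eventually (by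
    filter_upwards [eventually_gt_atTop 0] with n hn g f hf
    have := HI_nn hn (gibbsWeight_pos β g) hf.1
    positivity)

theorem Neg.sum (ha : 0 < a) {ι : Type*} (s : Finset ι) {F : ι → Fn} (h : ∀ i ∈ s, Neg β a c (F i)) :
    Neg β a c fun n g f => ∑ i ∈ s, F i n g f := by
  classical
  induction s using Finset.induction_on with
  | empty => simpa using neg_zero' ha
  | insert i s hi ih =>
    simp only [sum_insert hi]
    exact (h i (mem_insert_self _ _)).add (ih fun j hj => h j (mem_insert_of_mem hj))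

theorem NegD.neg (ha : 0 < a) (h : NegD β a c D) : Neg β a c D := by
  refine ⟨1, one_pos, fun e he η hη => ?_⟩
  set e1 := min 1 (e / (2 * (1 + 2 * a))) with he1
  have p0 : 0 < e1 := lt_min one_pos (by positivity)
  have p1 : e1 * (2 * (1 + 2 * a)) ≤ e := (le_div_iff₀ (by positivity)).1 (min_le_right _ _)
  obtain ⟨τ, hτ, h⟩ := h e1 p0 (η / 2) (half_pos hη)
  refine h.mono ?_
  filter_upwards [eventually_gt_atTop 0, ev_N ha (half_lt_self he) (half_pos he) (δ := 1)
    (half_pos hη).le, hτ] with n hn h0 ⟨t0, t1⟩ g h1 f hf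
  have hw := gibbsWeight_pos β g
  have l0 := log_natCast_nonneg n
  refine (paid_of (η := η / 2) (K := (n : ℝ) ^ (e / 2)) (τ := τ n) hn hw hf.1 ha (half_pos hη).le
    (by positivity) t0 fun s s0 _ => ?_).mono hn hw hf.1 (fun _ _ => le_rfl) (by linarith)
    (h0 _ (t1.trans (mul_le_of_le_one_left l0 (min_le_left _ _)))) le_rfl
  have b0 := HI_nn hn hw hf.1
  have b1 := HI_nn hn hw (sg_pos hn hw s0 hf.1)
  have b2 := HI_nn hn hw (sg_pos hn hw (le_max_right (s - τ n) 0) hf.1)
  have b3 := II_nn hn hw (sg_pos hn hw s0 hf.1)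
  have b4 := exp_pos (2 * a * s)
  have b5 : (n : ℝ) ^ e1 ≤ (n : ℝ) ^ (e / 2) :=
    rpow_le_rpow_of_exponent_le (by exact_mod_cast hn) (by nlinarith)
  have b6 : 0 ≤ (n : ℝ) ^ (e / 2) := by positivity
  rcases le_total s (τ n) with hs | hs
  · have c1 := mul_le_mul_of_nonneg_left (h1 _ (hf.sg hn hw s0)).1 b4.le
    have c2 : exp (2 * a * s) * (n : ℝ) ^ e1 ≤ (n : ℝ) ^ (e / 2) := by
      rw [rp hn, rp hn, ← exp_add, exp_le_exp]
      nlinarith [mul_le_mul_of_nonneg_left (hs.trans t1) (by positivity : 0 ≤ 2 * a)]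
    have c3 := ent_sg_self hn hw s0 fun x => (hf.1 x).le
    have c4 := II_nn hn hw hf.1
    have c5 : 1 ≤ exp (2 * a * s) := one_le_exp (by positivity)
    have c6 := mul_le_mul c2 (show ent (gibbsWeight n β g) (sg (gibbsWeight n β g) s f) +
      II (gibbsWeight n β g) (sg (gibbsWeight n β g) s f) + 1 ≤ ent (gibbsWeight n β g) f +
        II (gibbsWeight n β g) f + II (gibbsWeight n β g) (sg (gibbsWeight n β g) s f) +
          exp (2 * a * s) by linarith) (by linarith) b6
    have c7 := mul_nonneg (half_pos hη).le (mul_nonneg b4.le b1)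
    have c8 := mul_nonneg (half_pos hη).le (mul_nonneg (exp_pos (2 * a * (s - τ n))).le b2)
    nlinarith
  · have c1 := (h1 _ (hf.sg hn hw (sub_nonneg.2 hs))).2
    rw [← sg_add hn hw, add_sub_cancel] at c1
    have c2 := mul_le_mul_of_nonneg_left c1 b4.le
    have c3 : exp (2 * a * (s - τ n)) = exp (2 * a * s) * exp (-(2 * a * τ n)) := by
      rw [← exp_add]; congr 1; ring
    rw [max_eq_left (sub_nonneg.2 hs), c3]
    nlinarith [mul_le_mul_of_nonneg_right b5 b4.le, mul_nonneg b6 (add_nonneg b0 b3)]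

theorem NegL.neg (ha : 0 < a) (h : NegL β c D) : Neg β a c D := by
  obtain ⟨C, hC, h⟩ := h
  refine ⟨1, one_pos, fun e he η hη => (h (η / (C * (1 + 2 * a))) (by positivity)).mono ?_⟩
  filter_upwards [eventually_gt_atTop 0, ev_le η he] with n hn h0 g ⟨E, E', h1⟩ f hf
  have hw := gibbsWeight_pos β g
  set γ := η / (C * (1 + 2 * a)) with hγ
  have g0 : 0 < γ := by positivity
  have g1 : γ * (C * (1 + 2 * a)) = η := by rw [hγ]; field_simp
  refine ⟨fun s => γ * (E f - exp (2 * a * s) * E (sg (gibbsWeight n β g) s f)),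
    fun s => -(γ * (exp (2 * a * s) * (2 * a * E (sg (gibbsWeight n β g) s f) +
      E' (sg (gibbsWeight n β g) s f)))), by simp [sg_zero hn hw], fun s s0 _ => ⟨?_, ?_, ?_⟩⟩
  · have d0 : HasDerivAt (fun u => exp (2 * a * u)) (exp (2 * a * s) * (2 * a)) s := by
      simpa using ((hasDerivAt_id s).const_mul (2 * a)).exp
    refine (((d0.mul ((h1 f hf).2.2.2 s s0)).const_sub (E f)).const_mul γ).congr_deriv ?_
    ring
  · obtain ⟨-, q1, q2, -⟩ := h1 _ (hf.sg hn hw s0)
    have q3 := ent_nn hw (sg_nn hn hw s0 fun x => (hf.1 x).le)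
    have q4 := mul_le_mul_of_nonneg_left q1 (by positivity : 0 ≤ γ * (2 * a))
    have q5 : D n g (sg (gibbsWeight n β g) s f) - η * (ent (gibbsWeight n β g)
        (sg (gibbsWeight n β g) s f) + II (gibbsWeight n β g) (sg (gibbsWeight n β g) s f)) ≤
        -(γ * (2 * a * E (sg (gibbsWeight n β g) s f) + E' (sg (gibbsWeight n β g) s f))) := by
      rw [← g1]; nlinarith [mul_nonneg (g1 ▸ hη.le : 0 ≤ γ * (C * (1 + 2 * a))) q3]
    nlinarith [mul_le_mul_of_nonneg_left q5 (exp_pos (2 * a * s)).le]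
  · obtain ⟨-, q1, -, -⟩ := h1 f hf
    have q0 := (h1 _ (hf.sg hn hw s0)).1
    have q2 := II_nn hn hw hf.1
    have q3 := ent_nn hw fun x => (hf.1 x).le
    have q4 := exp_pos (2 * a * s)
    have q5 : γ * C ≤ (n : ℝ) ^ e := by nlinarith [mul_pos (mul_pos g0 hC) ha]
    nlinarith [mul_le_mul_of_nonneg_left q1 g0.le, mul_nonneg g0.le (mul_nonneg q4.le q0),
      mul_le_mul_of_nonneg_right q5 q2, mul_nonneg (hη.le.trans h0) (add_nonneg q3 q4.le)]

theorem negL_zero : NegL β c fun _ _ _ => 0 :=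
  ⟨1, one_pos, fun γ hγ => whp_of_eventually (by
    filter_upwards [eventually_gt_atTop 0] with n hn g
    refine ⟨fun _ => 0, fun _ => 0, fun f hf => ?_⟩
    have := II_nn hn (gibbsWeight_pos β g) hf.1
    exact ⟨le_rfl, by linarith, by nlinarith, fun s _ => hasDerivAt_const s 0⟩)⟩

/-! ### the chain -/

theorem ub_of_up (hl : 0 < lam) (h : Up β lam) : UB β lam := by
  intro c hc e he
  set a := max (lam / 2) (lam - e / 4) with ha
  have a0 : 0 < a := lt_max_of_lt_left (half_pos hl)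
  have a1 : a < lam := max_lt (half_lt_self hl) (by linarith)
  have a2 : lam - e / 4 ≤ a := le_max_right _ _
  obtain ⟨b, hb, D, ⟨δ, d0, hN⟩, hP⟩ := h a a0 a1 c hc (e / 2) (half_pos he)
  have m0 : 0 < min δ e := lt_min d0 he
  set e1 := min (e * min δ e / 4) (e / 2) with he1
  have p0 : 0 < e1 := lt_min (by positivity) (half_pos he)
  set η := (b - a) / (1 + 2 * a) with hη
  have η0 : 0 < η := div_pos (sub_pos.2 hb) (by positivity)
  have η1 : η * (1 + 2 * a) = b - a := by rw [hη]; field_simp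
  refine ⟨min δ e, m0, min_le_right _ _, ((hN e1 p0 η η0).and hP).mono ?_⟩
  filter_upwards [eventually_gt_atTop 0, ev_log (1 / min δ e),
    ev_mul (3 * exp (2 * a)) (show e1 < e * min δ e / 2 from (min_le_left _ _).trans_lt
      (by have := mul_pos he m0; linarith)),
    ev_mul (1 + 1 / (2 * a)) (half_lt_self he)] with n hn l1 l2 l3 g ⟨h1, h2⟩ f hf
  have hw := gibbsWeight_pos β g
  have n1 : (1 : ℝ) ≤ n := by exact_mod_cast hn
  have l0 := log_natCast_nonneg n
  rw [div_le_iff₀ m0] at l1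
  obtain ⟨u, u0, u1, hu⟩ := exists_II_le hn hw hf.1
  have hf' := hf.sg hn hw u0.le
  have b1 := (h1 _ hf').block hn hw hf'.1 a0 η0.le (by positivity) (a1 := b) (B := (n : ℝ) ^ (e / 2))
    (s := min δ e * log n - u) (by positivity) (by nlinarith) (fun t t0 => h2 _ (hf'.sg hn hw t0))
    (by linarith) (by nlinarith [mul_le_mul_of_nonneg_right (min_le_left δ e) l0])
  rw [← sg_add hn hw, sub_add_cancel] at b1
  have b2 := ent_sg_self hn hw u0.le fun x => (hf.1 x).le
  have b3 := ent_nn hw fun x => (hf.1 x).le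
  have b4 : 1 ≤ (n : ℝ) ^ e1 := one_le_rpow n1 p0.le
  have b5 : (n : ℝ) ^ e1 ≤ (n : ℝ) ^ (e / 2) := rpow_le_rpow_of_exponent_le n1 (min_le_right _ _)
  have b6 : ent (gibbsWeight n β g) (sg (gibbsWeight n β g) u f) + (n : ℝ) ^ e1 *
      (ent (gibbsWeight n β g) (sg (gibbsWeight n β g) u f) +
        II (gibbsWeight n β g) (sg (gibbsWeight n β g) u f)) ≤
      3 * (n : ℝ) ^ e1 * ent (gibbsWeight n β g) f := by
    nlinarith [mul_le_mul_of_nonneg_left (add_le_add b2 hu) (zero_le_one.trans b4),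
      mul_le_mul_of_nonneg_right b4 b3]
  have b7 : exp (-(2 * a * (min δ e * log n - u))) * (3 * (n : ℝ) ^ e1) ≤
      (n : ℝ) ^ (e * min δ e) * exp (-(2 * lam * (min δ e * log n))) := by
    have c1 : exp (-(2 * a * (min δ e * log n - u))) ≤
        exp (2 * a) * exp (-(2 * a * (min δ e * log n))) := by
      rw [← exp_add, exp_le_exp]; nlinarith
    calc _ ≤ exp (2 * a) * exp (-(2 * a * (min δ e * log n))) * (3 * (n : ℝ) ^ e1) := by gcongr
      _ = 3 * exp (2 * a) * (n : ℝ) ^ e1 * exp (-(2 * a * (min δ e * log n))) := by ring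
      _ ≤ (n : ℝ) ^ (e * min δ e / 2) * exp (-(2 * a * (min δ e * log n))) := by gcongr
      _ ≤ _ := by
        rw [rp hn, rp hn, ← exp_add, ← exp_add, exp_le_exp]
        nlinarith [mul_le_mul_of_nonneg_right a2 (mul_nonneg m0.le l0)]
  have b8 : (n : ℝ) ^ e1 + (n : ℝ) ^ (e / 2) / (2 * a) ≤ (n : ℝ) ^ e := by
    refine le_trans ?_ l3
    rw [add_mul, one_mul, one_div, inv_mul_eq_div]
    linarith
  refine b1.trans (add_le_add ((mul_le_mul_of_nonneg_left b6 (exp_pos _).le).trans ?_) b8)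
  rw [← mul_assoc]
  exact mul_le_mul_of_nonneg_right b7 b3

theorem up_of_stat {𝒬 : Set Ob} (hS : Stat β lam 𝒬) (hD : Dec β lam 𝒬) (hL : Loc β lam) :
    Up β lam := by
  intro a a0 a1 c hc e he
  obtain ⟨m, Q, C, θ, G, hQ, hC, h0, h1, hG, hP⟩ := hS ((a + lam) / 2) (by linarith) (by linarith) c hc e he
  refine ⟨_, by linarith, _, (Neg.add ?_ ((Neg.sum a0 univ fun k _ => hD _ (hQ k) a a0 a1 c hc).smul
    hC)).add (hG.neg a0), hP⟩
  rcases h0.eq_or_lt with h | h
  · subst h; simpa using neg_zero' a0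
  · exact (hL (h1 h) a a0 a1 c hc).smul h0

theorem BTwo.top {lam : ℝ → ℝ} {𝒬 : ℝ → Set Ob} (h : BTwo lam 𝒬) : BTop := fun β h0 h1 => by
  obtain ⟨l0, l1, hS, hD, hL, hLo⟩ := h β h0 h1
  exact ⟨lam β, l0, l1, up_of_stat hS hD hL, hLo⟩

/-- **block B from its two halves** -/
theorem cutoff_of_top (hA : At0) (hS : TopL.SubGHi) (hC : ClGlue) (h : BTop) : CutoffStmt := by
  refine BOf.imp (U := Up) (L := Lo) h fun β lam h0 h1 hl hU hL => ?_
  have b := ub_of_up hl hU
  have x := ux_of_uw hA h0.le h1 hl (uw_of_ub hl b)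
  refine ⟨cutUp_of_ux hA h0.le h1 hl x, ?_⟩
  rcases hL with hL | hL | hL | hL
  · exact Low.cutLow_of (Glue.AtTight.poinHi hA) hS h0.le h1 hl x.ue hL
  · exact Low.cutLowS hA h0.le h1 hl x.ue hL
  · exact hC β lam h0 h1 hl b hL
  · exact hL hU

end Crest.Agent.T157.B

end
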