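import Crest.Agent.T157.S6Def_93
import Crest.Agent.T157.RegNice_66
import Crest.Agent.T157.S6Fl_47
import Crest.Agent.T157.BTop_95
import Crest.Agent.T157.RegSb_51
import Crest.Agent.T157.RegS4_2

-- ▼ part T157/S6Ok_90
section

/-!
# Row 157, block S6 (helper90): the couplings (`S6a.OkStmt`)
-/

set_option autoImplicit false

noncomputable section

namespace Crest.Agent.T157.S6a

open Matrix Real Filter Topology MeasureTheory
open Crest.ProbabilityR.SpinGlassDynamics (disorderLaw Pair)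
open Crest.Agent.T157.E hiding mean gv
open Crest.Agent.T157.Eig Crest.Agent.T157.Conc

namespace Ok90

variable {n : ℕ}

lemma elip (i : Fin n) : ELip (√(2 / n)) fun g => nrm (Jmat n g i) := fun x y => by
  have e : Jmat n x i - Jmat n y i = Jmat n (x - y) i := by rw [← Nrm.Jmat_sub]; rfl
  have h1 := nrm_add_le (Jmat n x i - Jmat n y i) (Jmat n y i)
  have h2 := nrm_add_le (-(Jmat n x i - Jmat n y i)) (Jmat n x i)
  rw [sub_add_cancel] at h1
  rw [nrm_neg, neg_sub, sub_add_cancel] at h2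
  refine le_trans (abs_le.2 ⟨by linarith, by linarith⟩ : _ ≤ nrm (Jmat n x i - Jmat n y i)) ?_
  rw [e]
  refine le_trans ((nrm_le_iff (opn_nonneg _)).2 ?_) (Nrm.opn_Jmat_le _)
  have h3 := Da.Gr.row_sq_le (Jmat n (x - y)) i
  simpa only [Jmat_symm (x - y) _ i, sq, dotProduct] using h3

lemma entry (i k : Fin n) : Integrable (fun g => Jmat n g i k * Jmat n g i k) (gv (Pair n)) ∧
    ∫ g, Jmat n g i k * Jmat n g i k ∂gv (Pair n) ≤ 1 / n := by
  have key : ∀ p : Pair n, Integrable (fun g : Pair n → ℝ => g p / √n * (g p / √n)) (gv (Pair n)) ∧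
      ∫ g, g p / √n * (g p / √n) ∂gv (Pair n) ≤ 1 / n := fun p => by
    simp only [div_mul_div_comm, mul_self_sqrt (Nat.cast_nonneg (α := ℝ) n)]
    exact ⟨(Nrm.integrable_sq_coord p).div_const _, by rw [integral_div, Nrm.integral_sq_coord]⟩
  unfold Jmat
  split_ifs
  · exact key _
  · exact key _
  · simp

lemma mean_le (hn : 0 < n) (i : Fin n) : ∫ g, nrm (Jmat n g i) ∂gv (Pair n) ≤ 1 := by
  have n0 : (0 : ℝ) < n := by exact_mod_cast hn
  have hi : Integrable (fun g => Jmat n g i ⬝ᵥ Jmat n g i) (gv (Pair n)) :=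
    integrable_finsetSum _ fun k _ => (entry i k).1
  have h1 : ∫ g, Jmat n g i ⬝ᵥ Jmat n g i ∂gv (Pair n) ≤ 1 := by
    simp only [dotProduct]
    rw [integral_finsetSum _ fun k _ => (entry i k).1]
    refine (Finset.sum_le_card_nsmul _ _ _ fun k _ => (entry i k).2).trans (le_of_eq ?_)
    simp only [Finset.card_univ, Fintype.card_fin, nsmul_eq_mul]
    field_simp
  refine (integral_mono (elip i).integrable ((hi.add (integrable_const 1)).div_const 2)
    fun g => ?_).trans ?_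
  · change nrm _ ≤ (Jmat n g i ⬝ᵥ Jmat n g i + 1) / 2
    nlinarith [nrm_sq (Jmat n g i), sq_nonneg (nrm (Jmat n g i) - 1)]
  · change ∫ g, (Jmat n g i ⬝ᵥ Jmat n g i + 1) / 2 ∂gv (Pair n) ≤ _
    rw [integral_div, integral_add hi (integrable_const 1), integral_const, probReal_univ, one_smul]
    linarith

lemma lim {c : ℝ} (hc : 0 < c) : Tendsto (fun n : ℕ => (n : ℝ) * exp (-(n * c))) atTop (𝓝 0) := by
  have h1 : Tendsto (fun n : ℕ => (n : ℝ) * c) atTop atTop :=
    tendsto_natCast_atTop_atTop.atTop_mul_const hc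
  have h2 := ((tendsto_pow_mul_exp_neg_atTop_nhds_zero 1).comp h1).div_const c
  rw [zero_div] at h2
  refine h2.congr fun n => ?_
  simp only [Function.comp, pow_one]
  field_simp

/-- the rows of the coupling matrix have length at most `1 + t` -/
theorem whp_row {t : ℝ} (ht : 0 < t) :
    Top.Whp disorderLaw fun n g => ∀ i, nrm (Jmat n g i) ≤ 1 + t := by
  refine Top.whp_of_real_le (lim (by positivity : 0 < t ^ 2 / 4))
    ((eventually_gt_atTop 0).mono fun n hn => ?_)
  have n0 : (0 : ℝ) < n := by exact_mod_cast hn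
  have hs : {g | ¬ ∀ i, nrm (Jmat n g i) ≤ 1 + t} ⊆
      ⋃ i, {g | t ≤ nrm (Jmat n g i) - ∫ g, nrm (Jmat n g i) ∂gv (Pair n)} := fun g hg => by
    obtain ⟨i, hi⟩ := not_forall.1 hg
    refine Set.mem_iUnion.2 ⟨i, ?_⟩
    change t ≤ _
    linarith [mean_le hn i, not_le.1 hi]
  refine (measureReal_mono hs).trans ((measureReal_iUnion_fintype_le _).trans ?_)
  refine (Finset.sum_le_card_nsmul _ _ _ fun i _ => tail_lip (elip i) ht.le).trans (le_of_eq ?_)
  simp only [Finset.card_univ, Fintype.card_fin, nsmul_eq_mul]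
  congr 2
  rw [sq_sqrt (by positivity)]
  field_simp
  ring

theorem whp_opn {t : ℝ} (ht : 0 < t) : Top.Whp disorderLaw fun n g => opn (Jmat n g) ≤ 2 + t := by
  have h := (lim (by positivity : 0 < t ^ 2 / 4)).const_mul 2
  rw [mul_zero] at h
  refine Top.whp_of_real_le h ((eventually_ge_atTop 1).mono fun n hn => ?_)
  have n0 : (1 : ℝ) ≤ n := by exact_mod_cast hn
  refine (measureReal_mono fun g hg => (not_le.1 hg).le).trans ((Nrm.Jmat_opn_tail ht.le).trans ?_)
  rw [mul_div_assoc]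
  exact mul_le_mul_of_nonneg_left (le_mul_of_one_le_left (exp_pos _).le n0) zero_le_two

end Ok90

open Ok90 in
theorem okStmt : OkStmt := fun β b0 b1 γ hγ e he => by
  obtain ⟨K, -, hK⟩ := Reg.niceStmt
  refine ((hK.and (whp_row hγ)).and (whp_opn one_pos)).mono ?_
  filter_upwards [eventually_gt_atTop 0,
    tendsto_natCast_atTop_atTop.eventually_ge_atTop (K ^ 4 / e ^ 4)] with n hn hn' g ⟨⟨h1, h2⟩, h3⟩
  have n0 : (0 : ℝ) < n := by exact_mod_cast hn
  obtain ⟨a1, -, a2⟩ := h1 β b0.le (by linarith)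
  refine ⟨hn, a1, fun i => by simp [Jmat_diag], ?_, fun i => ?_, fun i j => ?_⟩
  · rw [opn_smul, abs_of_pos b0]
    nlinarith [opn_nonneg (Jmat n g)]
  · have c1 := pow_le_pow_left₀ (nrm_nonneg _) (h2 i) 2
    have c2 : ∑ j, (β • Jmat n g) i j ^ 2 = β ^ 2 * nrm (Jmat n g i) ^ 2 := by
      simp only [nrm_sq, dotProduct, Finset.mul_sum, Matrix.smul_apply, smul_eq_mul]
      exact Finset.sum_congr rfl fun j _ => by ring
    rw [c2]
    refine (mul_le_mul_of_nonneg_left c1 (sq_nonneg β)).trans ?_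
    rw [← mul_pow]
    exact pow_le_pow_left₀ (by positivity) (by nlinarith) 2
  · have c1 : (β • Jmat n g) i j ^ 4 ≤ e ^ 4 := by
      refine ((Finset.single_le_sum (f := fun k => (β • Jmat n g) i k ^ 4)
        (fun _ _ => by positivity) (Finset.mem_univ j)).trans (a2 i)).trans ?_
      rw [div_le_iff₀ n0, mul_comm]
      exact (div_le_iff₀ (by positivity)).1 hn'
    rw [← Even.pow_abs (by decide)] at c1
    exact (pow_le_pow_iff_left₀ (abs_nonneg _) he.le (by norm_num)).1 c1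

end Crest.Agent.T157.S6a

end
end

-- ▼ part T157/S6Red_39
section

/-!
# Row 157, block S6, section 1 (helper39): reduction of the site deficit, identity (F)
-/

set_option autoImplicit false

noncomputable section

namespace Crest.Agent.T157.S6r

open Matrix Real Set
open Crest.Agent.T157.E hiding mean
open Crest.Agent.T157.Eig
open Crest.Agent.T157.Tap (V Mx)
open Crest.Agent.T157.Rec (grad fl sv_mul_self)
open Crest.Agent.T157.Da.Gr (loc tt loc_fl grad_sv)
open Crest.Agent.T157.Chain22 (sg IsP mean ip isP_prob' prob_pos' hasDerivAt_sg ip_sg_symm)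
open Crest.Agent.T157.Ent (cnd brg mean_congr mean_add' mean_sub' mean_const_mul mean_sum')
open Crest.Agent.T157.Reg (VF mu Tk sq2 Nice)
open Crest.Agent.T157.Reg.Bas66 (mu_pos)
open Crest.Agent.T157.S6h Crest.Agent.T157.B
open Crest.Agent.T157.Rv (II Warm)

variable {n : ℕ} {W : Mx n} {v f : Cube n → ℝ}

/-! ### two-point laws -/

theorem kl_brg {p q : Bool → ℝ} (hp : IsP p) (hq : IsP q) (p0 : ∀ b, 0 < p b) (q0 : ∀ b, 0 < q b) :
    Ent.kl p q = brg (p true) (q true) + brg (p false) (q false) := by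
  have h1 := hp.sum1
  have h2 := hq.sum1
  rw [Fintype.sum_bool] at h1 h2
  rw [Ent.kl, Fintype.sum_bool, Ent.brg_eq (p0 _) (q0 _), Ent.brg_eq (p0 _) (q0 _)]
  linarith

theorem brg_le_rev {u a η : ℝ} (hu : 0 < u) (ha : 0 < a) (h0 : 0 < η) (h1 : η ≤ 1)
    (h : |u - a| ≤ η / 2 * a) : brg u a ≤ (1 + η) * brg a u := by
  have b0 := Ent.brg_nonneg ha.le hu
  obtain ⟨h2, h3⟩ := abs_le.1 h
  have e : (u - a) ^ 2 = (a - u) ^ 2 := by ring
  rcases le_total u a with c | c
  · have k1 := Ent.brg_le_sq hu le_rfl c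
    have k2 := Ent.sq_le_brg ha.le hu le_rfl c
    have k3 : a ≤ (1 + η) * u := by nlinarith [mul_nonneg h0.le (mul_nonneg (sub_nonneg.2 h1) ha.le)]
    refine le_of_mul_le_mul_left ?_ (by positivity : 0 < 2 * u)
    nlinarith [mul_le_mul_of_nonneg_right k3 b0]
  · have k1 := Ent.brg_le_sq ha c le_rfl
    have k2 := Ent.sq_le_brg ha.le hu c le_rfl
    have k3 : u ≤ (1 + η) * a := by nlinarith [mul_pos h0 ha]
    refine le_of_mul_le_mul_left ?_ (by positivity : 0 < 2 * a)
    nlinarith [mul_le_mul_of_nonneg_right k3 b0]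

theorem dk_two (hv : ∀ x, 0 < v x) (hW : Wᵀ = W) (x : Cube n) (k : Fin n) :
    dk v W x k = 2 * (cnd v k x true - cnd (mu W) k x true) := by
  have e : ∀ w : Cube n → ℝ, (∀ x, 0 < w x) →
      siteM w (fun z => sv z k) k x = 2 * cnd w k x true - 1 := fun w hw => by
    have := (Chain22.den_pos hw k x).ne'
    simp only [siteM, cnd, sv, Function.update_self, ProbabilityR.SpinGlassDynamics.spin, if_true,
      Bool.false_eq_true, if_false]
    field_simp; ring
  have h := Reg.Bas66.site_eq hW 0 (fun z => sv z k) x k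
  rw [grad_sv, if_pos rfl, show ising W 0 = mu W from rfl, e _ (mu_pos W)] at h
  rw [dk, e _ hv]; linarith

theorem dk_cnd (hv : ∀ x, 0 < v x) (hW : Wᵀ = W) (x : Cube n) (k : Fin n) (b : Bool) :
    |cnd v k x b - cnd (mu W) k x b| = |dk v W x k| / 2 := by
  have h1 := (Ent.isP_cnd hv k x).sum1
  have h2 := (Ent.isP_cnd (mu_pos W) k x).sum1
  rw [Fintype.sum_bool] at h1 h2
  rw [dk_two hv hW, abs_mul, abs_two, mul_div_cancel_left₀ _ two_ne_zero]
  cases b
  · rw [← abs_neg]; congr 1; linarith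
  · rfl

theorem abs_dk_le (hv : ∀ x, 0 < v x) (hW : Wᵀ = W) (x : Cube n) (k : Fin n) : |dk v W x k| ≤ 2 := by
  have h := dk_cnd hv hW x k true
  have a := (Ent.isP_cnd hv k x).le_one true
  have b := (Ent.isP_cnd (mu_pos W) k x).le_one true
  have c := Ent.cnd_pos hv k x true
  have d := Ent.cnd_pos (mu_pos W) k x true
  have : |cnd v k x true - cnd (mu W) k x true| ≤ 1 := abs_le.2 ⟨by linarith, by linarith⟩
  linarith

theorem kS_brg {v w : Cube n → ℝ} (hv : ∀ x, 0 < v x) (hw : ∀ x, 0 < w x) (k : Fin n) (x : Cube n) :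
    kS v w k x = brg (cnd v k x true) (cnd w k x true) + brg (cnd v k x false) (cnd w k x false) :=
  kl_brg (Ent.isP_cnd hv k x) (Ent.isP_cnd hw k x) (Ent.cnd_pos hv k x) (Ent.cnd_pos hw k x)


theorem cnd_ge (hW : Wᵀ = W) (x : Cube n) (k : Fin n) (b : Bool) :
    exp (-(1 + 2 * |loc W 0 x k|)) ≤ cnd (mu W) k x b := by
  have h := Ent.exp_le_cnd (mu_pos W) k x b
  rwa [mu, Ent.lf_ising hW, add_comm ((0 : V n) k)] at h

theorem kS_le (hv : ∀ x, 0 < v x) (hW : Wᵀ = W) (x : Cube n) (k : Fin n) :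
    kS v (mu W) k x ≤ 1 + 2 * |loc W 0 x k| := by
  have h := Ent.kl_le_log (Ent.isP_cnd hv k x) (Ent.isP_cnd (mu_pos W) k x)
    (M := exp (1 + 2 * |loc W 0 x k|)) fun b => ((Ent.isP_cnd hv k x).le_one b).trans (by
      have := mul_le_mul_of_nonneg_left (cnd_ge hW x k b) (exp_pos (1 + 2 * |loc W 0 x k|)).le
      rwa [← exp_add, add_neg_cancel, exp_zero] at this)
  rwa [log_exp] at h

/-- the site inequality -/
theorem site_le (hv : ∀ x, 0 < v x) (hW : Wᵀ = W) {η R : ℝ} (h0 : 0 < η) (h1 : η ≤ 1) (hR : 1 ≤ R)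
    (x : Cube n) (k : Fin n) : max (kS v (mu W) k x - kS (mu W) v k x) 0 ≤
      η * (kS v (mu W) k x + kS (mu W) v k x) +
      (2 * R + 1) * (exp (2 * R + 1) / η) ^ 3 * |dk v W x k| ^ 3 +
      12 / R * max (|loc W 0 x k| - R / 2) 0 ^ 2 := by
  have a0 := kS_nn hv (mu_pos W) k x
  have b0 := kS_nn (mu_pos W) hv k x
  have a1 := kS_le hv hW x k
  have R0 : 0 < R := by linarith
  have t1 : 0 ≤ η * (kS v (mu W) k x + kS (mu W) v k x) := by positivity
  have t2 : 0 ≤ (2 * R + 1) * (exp (2 * R + 1) / η) ^ 3 * |dk v W x k| ^ 3 := by positivity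
  have t3 : 0 ≤ 12 / R * max (|loc W 0 x k| - R / 2) 0 ^ 2 := by positivity
  refine max_le ?_ (by positivity)
  rcases le_total |loc W 0 x k| R with c | c
  · rcases le_total (exp (2 * R + 1) / η * |dk v W x k|) 1 with d | d
    · have h : ∀ b, brg (cnd v k x b) (cnd (mu W) k x b) ≤
          (1 + η) * brg (cnd (mu W) k x b) (cnd v k x b) := fun b => by
        refine brg_le_rev (Ent.cnd_pos hv k x b) (Ent.cnd_pos (mu_pos W) k x b) h0 h1 ?_
        have k1 : exp (-(2 * R + 1)) ≤ cnd (mu W) k x b :=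
          (exp_le_exp.2 (by linarith)).trans (cnd_ge hW x k b)
        rw [div_mul_eq_mul_div, div_le_one h0, ← le_div_iff₀' (exp_pos _), div_eq_mul_inv,
          ← exp_neg] at d
        rw [dk_cnd hv hW]
        nlinarith [mul_le_mul_of_nonneg_left k1 h0.le]
      have := add_le_add (h true) (h false)
      rw [← mul_add, ← kS_brg hv (mu_pos W), ← kS_brg (mu_pos W) hv] at this
      nlinarith [mul_nonneg h0.le a0]
    · have := mul_le_mul_of_nonneg_left (one_le_pow₀ d (n := 3)) (by positivity : 0 ≤ 2 * R + 1)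
      rw [mul_pow, ← mul_assoc] at this
      linarith
  · have : 3 * |loc W 0 x k| ≤ 12 / R * max (|loc W 0 x k| - R / 2) 0 ^ 2 := by
      rw [max_eq_left (by linarith), div_mul_eq_mul_div, le_div_iff₀ R0]
      nlinarith [mul_nonneg (sub_nonneg.2 c) (sub_nonneg.2 c), mul_nonneg (sub_nonneg.2 c) R0.le]
    linarith

/-! ### large fields -/

/-- squared excess of the local fields -/
def G0 (W : Mx n) (a : ℝ) (x : Cube n) : ℝ := ∑ k, max (|loc W 0 x k| - a) 0 ^ 2

theorem exc_sub (a h : ℝ) : ∃ γ, γ ^ 2 = 4 * max (|h| - a) 0 ^ 2 ∧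
    ∀ h', max (|h| - a) 0 ^ 2 - max (|h'| - a) 0 ^ 2 ≤ γ * (h - h') := by
  have y0 := le_max_right (|h| - a) 0
  have y1 : max (|h| - a) 0 * (max (|h| - a) 0 - (|h| - a)) = 0 := by
    rcases le_total (|h| - a) 0 with c | c
    · rw [max_eq_right c, zero_mul]
    · rw [max_eq_left c, sub_self, mul_zero]
  have k : ∀ h', max (|h| - a) 0 ^ 2 - max (|h'| - a) 0 ^ 2 ≤
      2 * max (|h| - a) 0 * (|h| - |h'|) := fun h' => by
    nlinarith [mul_le_mul_of_nonneg_left (le_max_left (|h'| - a) 0) y0,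
      sq_nonneg (max (|h| - a) 0 - max (|h'| - a) 0)]
  rcases le_total 0 h with c | c
  · refine ⟨2 * max (|h| - a) 0, by ring, fun h' => (k h').trans ?_⟩
    refine mul_le_mul_of_nonneg_left ?_ (by positivity)
    linarith [abs_of_nonneg c, le_abs_self h']
  · refine ⟨-(2 * max (|h| - a) 0), by ring, fun h' => (k h').trans ?_⟩
    rw [neg_mul, ← mul_neg]
    refine mul_le_mul_of_nonneg_left ?_ (by positivity)
    linarith [abs_of_nonpos c, neg_abs_le h']

theorem G0_sb {K : ℝ} (hW : Nice W K) (hd : ∀ i, W i i = 0) (a : ℝ) (x : Cube n) :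
    ∑ j, max (G0 W a x - G0 W a (fl x j)) 0 ^ 2 ≤ 16 * K ^ 2 * G0 W a x := by
  choose γ h1 h2 using fun k => exc_sub a (loc W 0 x k)
  have k1 : ∀ j, G0 W a x - G0 W a (fl x j) ≤ 2 * sv x j * (W *ᵥ γ) j := fun j => by
    rw [G0, G0, ← Finset.sum_sub_distrib, mulVec, dotProduct, Finset.mul_sum]
    refine Finset.sum_le_sum fun k _ => (h2 k _).trans_eq ?_
    rw [loc_fl, show W j k = W k j from congrFun (congrFun hW.1 k) j]
    split_ifs with h
    · rw [h, hd]; ring
    · ring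
  have k2 : ∀ j, max (G0 W a x - G0 W a (fl x j)) 0 ^ 2 ≤ 4 * ((W *ᵥ γ) j * (W *ᵥ γ) j) := fun j => by
    have : max (G0 W a x - G0 W a (fl x j)) 0 ≤ |2 * sv x j * (W *ᵥ γ) j| :=
      max_le ((k1 j).trans (le_abs_self _)) (abs_nonneg _)
    refine (pow_le_pow_left₀ (le_max_right _ _) this 2).trans_eq ?_
    rw [sq_abs]; linear_combination 4 * ((W *ᵥ γ) j * (W *ᵥ γ) j) * sv_mul_self x j
  have k3 : γ ⬝ᵥ γ = 4 * G0 W a x := by
    rw [G0, Finset.mul_sum]; exact Finset.sum_congr rfl fun k _ => by rw [← h1, sq]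
  have k4 := mulVec_dot_le W γ
  have k5 : opn W ^ 2 ≤ K ^ 2 := pow_le_pow_left₀ (opn_nonneg _) hW.2.1 2
  have k6 : 0 ≤ G0 W a x := Finset.sum_nonneg fun _ _ => sq_nonneg _
  refine (Finset.sum_le_sum fun j _ => k2 j).trans ?_
  rw [← Finset.mul_sum]
  rw [k3, dotProduct] at k4
  nlinarith [mul_le_mul_of_nonneg_right k5 k6]

theorem exc_le (a h : ℝ) {θ : ℝ} (hθ : 0 < θ) :
    max (|h| - a) 0 ^ 2 ≤ 2 / θ ^ 2 * exp (-(θ * a)) * (exp (θ * h) + exp (-θ * h)) := by
  rcases le_total (|h| - a) 0 with c | c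
  · rw [max_eq_right c, zero_pow two_ne_zero]; positivity
  have k1 := quadratic_le_exp_of_nonneg (mul_nonneg hθ.le c)
  have k2 : exp (θ * (|h| - a)) ≤ exp (-(θ * a)) * (exp (θ * h) + exp (-θ * h)) := by
    rw [mul_add, ← exp_add, ← exp_add]
    rcases abs_cases h with ⟨e, -⟩ | ⟨e, -⟩ <;> rw [e]
    · exact le_add_of_le_of_nonneg (exp_le_exp.2 (by linarith)) (exp_pos _).le
    · exact le_add_of_nonneg_of_le (exp_pos _).le (exp_le_exp.2 (by linarith))
  rw [max_eq_left c, mul_assoc, div_mul_eq_mul_div, le_div_iff₀ (by positivity)]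
  nlinarith [mul_nonneg hθ.le c]


/-! ### the reduction -/

/-- `X = ∑ E_ν |d_k|³` -/
def X3 (W : Mx n) (v : Cube n → ℝ) : ℝ := mean (prob v) fun x => ∑ k, |dk v W x k| ^ 3


theorem prob_dn {w : Cube n → ℝ} (hw : ∀ x, 0 < w x) (h1 : E.mean w f = 1) (x : Cube n) :
    prob (dn w f) x = prob w x * f x := by
  simpa [E.mean, Pi.single_apply] using mean_dn hw h1 (Pi.single x 1)

theorem kl_dn {w : Cube n → ℝ} (hw : ∀ x, 0 < w x) (hf : ∀ x, 0 < f x) (h1 : E.mean w f = 1) :
    Ent.kl (prob (dn w f)) (prob w) = ent w f := by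
  rw [Ent.kl_eq_ent (isP_prob' (dn_pos hw hf)) (Ent.AC.of_pos _ (prob_pos' hw)), Chain22.eent_eq]
  congr 1; funext x
  rw [prob_dn hw h1, mul_div_cancel_left₀ _ (prob_pos' hw x).ne']

theorem II_mean {w : Cube n → ℝ} (hw : ∀ x, 0 < w x) (hf : ∀ x, 0 < f x) (h1 : E.mean w f = 1) :
    II w f = mean (prob (dn w f)) fun x => ∑ k, (kS (dn w f) w k x + kS w (dn w f) k x) := by
  rw [II_eq hw hf h1, Ak, Rk, ← Finset.sum_add_distrib, mean_sum']
  exact Finset.sum_congr rfl fun k _ => (mean_add' _ _).symm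



/-! ### the identity (F) -/

theorem dk_dn (hW : Wᵀ = W) (hf : ∀ x, 0 < f x) (x : Cube n) (k : Fin n) :
    dk (dn (mu W) f) W x k * ((1 - Tk W x k) * f x + Tk W x k * f (fl x k)) =
      2 * sv x k * (Tk W x k * (1 - Tk W x k)) * (f x - f (fl x k)) := by
  have b := bal hW x k
  have t := s_sub_t W x k
  have p := add_pos (dn_pos (mu_pos W) hf x) (dn_pos (mu_pos W) hf (fl x k))
  have m := mu_pos W x
  have e : siteM (dn (mu W) f) (fun z => sv z k) k x * ((1 - Tk W x k) * f x + Tk W x k * f (fl x k)) =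
      sv x k * ((1 - Tk W x k) * f x - Tk W x k * f (fl x k)) := by
    rw [siteM_fl, div_mul_eq_mul_div, div_eq_iff p.ne', Reg.Bas66.sv_fl_self, dn, dn]
    linear_combination (-2 * sv x k * f x * f (fl x k)) * b
  rw [dk, sub_mul, e]
  linear_combination ((1 - Tk W x k) * f x + Tk W x k * f (fl x k)) * t

theorem dk_brg (hW : Wᵀ = W) (hf : ∀ x, 0 < f x) (x : Cube n) (k : Fin n) :
    f x * dk (dn (mu W) f) W x k ^ 2 ≤ 8 * (Tk W x k * brg (f (fl x k)) (f x)) := by
  have e := congrArg (· ^ 2) (dk_dn hW hf x k)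
  have s := sv_mul_self x k
  have r0 := Tk_pos W x k
  have r1 := sub_pos.2 (Tk_lt W x k)
  have a0 := hf x
  have b0 := hf (fl x k)
  have g0 := Ent.brg_nonneg b0.le a0
  generalize Tk W x k = r at *
  generalize f x = a at *
  generalize f (fl x k) = b at *
  generalize dk (dn (mu W) f) W x k = d at *
  have e' : d ^ 2 * ((1 - r) * a + r * b) ^ 2 = 4 * (r * (1 - r)) ^ 2 * (b - a) ^ 2 := by
    linear_combination e + 4 * (r * (1 - r)) ^ 2 * (b - a) ^ 2 * s
  have key : ∀ M, b ≤ M → a ≤ M → a * M * (r * (1 - r) ^ 2) ≤ ((1 - r) * a + r * b) ^ 2 →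
      a * d ^ 2 ≤ 8 * (r * brg b a) := fun M h1 h2 h3 => by
    have k1 := Ent.sq_le_brg b0.le a0 h1 h2
    refine le_of_mul_le_mul_right ?_ (by positivity : 0 < ((1 - r) * a + r * b) ^ 2)
    rw [mul_assoc, e']
    have k2 := mul_le_mul_of_nonneg_left k1 (by positivity : 0 ≤ 4 * a * (r * (1 - r)) ^ 2)
    have k3 := mul_le_mul_of_nonneg_left h3 (by positivity : 0 ≤ 8 * (r * brg b a))
    nlinarith
  rcases le_total b a with c | c
  · refine key a c le_rfl ?_
    have : 0 ≤ (1 - r) ^ 3 * a ^ 2 + 2 * (r * (1 - r)) * (a * b) + (r * b) ^ 2 := by positivity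
    nlinarith
  · refine key b le_rfl c ?_
    have : 0 ≤ ((1 - r) * a) ^ 2 + (r * (1 - r)) * (1 + r) * (a * b) + (r * b) ^ 2 := by positivity
    nlinarith

theorem gen_xlog (hW : Wᵀ = W) (hf : ∀ x, 0 < f x) (x : Cube n) :
    f x * sq2 (dk (dn (mu W) f) W) x ≤
      8 * (gen (mu W) (fun z => f z * log (f z)) x - (log (f x) + 1) * gen (mu W) f x) := by
  rw [Reg.Bas66.gen_eq hW, Reg.Bas66.gen_eq hW, sq2, dotProduct, Finset.mul_sum, Finset.mul_sum,
    ← Finset.sum_sub_distrib, Finset.mul_sum]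
  refine Finset.sum_le_sum fun k _ => ?_
  rw [← sq]
  refine (dk_brg hW hf x k).trans_eq ?_
  rw [brg]; ring

theorem mean_gen_mul {w : Cube n → ℝ} (hw : ∀ x, 0 < w x) (F G : Cube n → ℝ) :
    mean (prob w) (fun x => gen w F x * G x) = mean (prob w) fun x => F x * gen w G x := by
  have a := Chain22.dir2_eq_gen hw F G
  have b := Chain22.dir2_eq_gen hw G F
  have c : dir2 w F G = dir2 w G F := by simp only [dir2, mul_comm]
  have d : mean (prob w) (fun x => gen w F x * G x) = ip (prob w) G (gen w F) :=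
    mean_congr fun x => mul_comm _ _
  rw [d, show mean (prob w) (fun x => F x * gen w G x) = ip (prob w) F (gen w G) from rfl]
  linarith

section cont
variable {S : Set ℝ} {u : ℝ → Cube n → ℝ}

theorem cont_prob (hc : ∀ x, ContinuousOn (fun s => u s x) S) (hu : ∀ s ∈ S, ∀ x, 0 < u s x)
    (x : Cube n) : ContinuousOn (fun s => prob (u s) x) S :=
  (hc x).div (continuousOn_finsetSum _ fun y _ => hc y) fun s hs => (Chain22.sum_w_pos (hu s hs)).ne'

theorem cont_mean (hc : ∀ x, ContinuousOn (fun s => u s x) S) (hu : ∀ s ∈ S, ∀ x, 0 < u s x)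
    {F : ℝ → Cube n → ℝ} (hF : ∀ x, ContinuousOn (fun s => F s x) S) :
    ContinuousOn (fun s => mean (prob (u s)) (F s)) S :=
  continuousOn_finsetSum _ fun x _ => (cont_prob hc hu x).mul (hF x)

theorem cont_dk (hc : ∀ x, ContinuousOn (fun s => u s x) S) (hu : ∀ s ∈ S, ∀ x, 0 < u s x)
    (W : Mx n) (x : Cube n) (k : Fin n) : ContinuousOn (fun s => dk (u s) W x k) S :=
  ((((hc _).mul continuousOn_const).add ((hc _).mul continuousOn_const)).div ((hc _).add (hc _))
    fun s hs => (Chain22.den_pos (hu s hs) k x).ne').sub continuousOn_const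


end cont

theorem cont_dn (hn : 0 < n) {w : Cube n → ℝ} (hw : ∀ x, 0 < w x) (f : Cube n → ℝ) (x : Cube n) :
    Continuous fun s => dn w (sg w s f) x := continuous_const.mul (continuous_sg hn hw f x)


/-- the integrand of (F) -/
def FI (W : Mx n) (f G : Cube n → ℝ) (t s : ℝ) : ℝ :=
  mean (prob (dn (mu W) (sg (mu W) (t - s) f))) fun x =>
    sq2 (dk (dn (mu W) (sg (mu W) (t - s) f)) W) x * sg (mu W) s G x

theorem cont_FI (hn : 0 < n) (hf : ∀ x, 0 < f x) (G : Cube n → ℝ) (t : ℝ) :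
    ContinuousOn (FI W f G t) (Iic t) := by
  have c : ∀ x, ContinuousOn (fun s => dn (mu W) (sg (mu W) (t - s) f) x) (Iic t) := fun x =>
    ((cont_dn hn (mu_pos W) f x).comp (continuous_const.sub continuous_id)).continuousOn
  have p : ∀ s ∈ Iic t, ∀ x, 0 < dn (mu W) (sg (mu W) (t - s) f) x := fun s hs =>
    dn_pos (mu_pos W) (Rv.sg_pos hn (mu_pos W) (sub_nonneg.2 hs) hf)
  exact cont_mean c p fun x => (continuousOn_finsetSum Finset.univ fun k _ =>
    (cont_dk c p W x k).mul (cont_dk c p W x k)).mul (continuous_sg hn (mu_pos W) G x).continuousOn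

/-- **(F)** -/
theorem fF (hn : 0 < n) (hW : Wᵀ = W) {D : ℝ} (hf : Warm (mu W) D f) {G : Cube n → ℝ}
    (hG : ∀ x, 0 ≤ G x) {a b t : ℝ} (ha : 0 ≤ a) (hab : a ≤ b) (hb : b ≤ t) (l : ℝ) :
    ∫ s in a..b, FI W f G t s ≤ 8 * ((D + l) * mean (prob (dn (mu W) (sg (mu W) t f))) G +
      exp (-l) * mean (prob (mu W)) G) := by
  have hw := mu_pos W
  have hp := isP_prob' hw
  have wm : ∀ s, s ≤ t → Warm (mu W) D (sg (mu W) (t - s) f) := fun s hs =>
    hf.sg hn hw (sub_nonneg.2 hs)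
  set Φ : ℝ → ℝ := fun s => 8 * mean (prob (mu W)) fun x =>
    sg (mu W) s G x * (sg (mu W) (t - s) f x * log (sg (mu W) (t - s) f x)) with hΦ
  have d : ∀ s, s ≤ t → HasDerivAt Φ (8 * mean (prob (mu W)) fun x => gen (mu W) (sg (mu W) s G) x *
      (sg (mu W) (t - s) f x * log (sg (mu W) (t - s) f x)) + sg (mu W) s G x *
      ((log (sg (mu W) (t - s) f x) + 1) * -gen (mu W) (sg (mu W) (t - s) f) x)) s := fun s hs => by
    refine HasDerivAt.const_mul 8 (HasDerivAt.fun_sum fun x _ => HasDerivAt.const_mul _ ?_)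
    have d1 : HasDerivAt (fun r => sg (mu W) (t - r) f x) (-gen (mu W) (sg (mu W) (t - s) f) x) s :=
      (hasDerivAt_sg hn hw f x (t - s)).comp_const_sub t s
    exact (hasDerivAt_sg hn hw G x s).mul
      ((hasDerivAt_mul_log ((wm s hs).1 x).ne').comp (h := fun r => sg (mu W) (t - r) f x) s d1)
  have m : ∀ s, mean (prob (mu W)) (fun x => sg (mu W) s G x * sg (mu W) (t - s) f x) =
      mean (prob (dn (mu W) (sg (mu W) t f))) G := fun s => by
    have e := ip_sg_symm hn hw s G (sg (mu W) (t - s) f)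
    rw [← Chain22.sg_add hn hw, add_sub_cancel] at e
    refine e.symm.trans (Eq.symm ((mean_dn hw (hf.sg hn hw (by linarith)).2.1 G).trans ?_))
    exact mean_congr fun x => mul_comm _ _
  have k := intervalIntegral.integral_le_sub_of_hasDeriv_right_of_le hab
    (fun s hs => (d s (hs.2.trans hb)).continuousAt.continuousWithinAt)
    (fun s hs => (d s (hs.2.le.trans hb)).hasDerivWithinAt)
    ((cont_FI hn hf.1 G t).mono fun s hs => hs.2.trans hb).integrableOn_Icc (fun s hs => by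
      have w := wm s (hs.2.le.trans hb)
      rw [mean_add', mean_gen_mul hw, ← mean_add', ← mean_const_mul]
      refine (mean_dn hw w.2.1 _).trans_le (hp.mean_mono fun x => ?_)
      have := mul_le_mul_of_nonneg_left (gen_xlog hW w.1 x)
        (Rv.sg_nn hn hw (ha.trans hs.1.le) hG x)
      linarith)
  have k1 : Φ b ≤ 8 * (D * mean (prob (dn (mu W) (sg (mu W) t f))) G) := by
    refine mul_le_mul_of_nonneg_left ?_ (by norm_num)
    rw [← m b, ← mean_const_mul]
    refine hp.mean_mono fun x => ?_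
    have w := wm b hb
    have := mul_le_mul_of_nonneg_left ((log_le_iff_le_exp (w.1 x)).2 (w.2.2 x))
      (mul_nonneg (Rv.sg_nn hn hw (ha.trans hab) hG x) (w.1 x).le)
    linarith
  have k2 : 8 * (-l * mean (prob (dn (mu W) (sg (mu W) t f))) G -
      exp (-l) * mean (prob (mu W)) G) ≤ Φ a := by
    refine mul_le_mul_of_nonneg_left ?_ (by norm_num)
    rw [← m a, ← Chain22.mean_sg hn hw a G, ← mean_const_mul, ← mean_const_mul, ← mean_sub']
    refine hp.mean_mono fun x => ?_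
    have w := wm a (hab.trans hb)
    have g := Ent.brg_nonneg (w.1 x).le (exp_pos (-l))
    rw [brg, log_exp] at g
    have := mul_le_mul_of_nonneg_left
      (show -l * sg (mu W) (t - a) f x - exp (-l) ≤
        sg (mu W) (t - a) f x * log (sg (mu W) (t - a) f x) by linarith [w.1 x])
      (Rv.sg_nn hn hw ha hG x)
    linarith
  linarith

end Crest.Agent.T157.S6r

end
end

-- ▼ part T157/S6Rd_39

/-!
# Row 157, block S6 (helper39): the leaves `RedStmt`, `HbStmt`, `FStmt`
-/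

set_option autoImplicit false

noncomputable section

namespace Crest.Agent.T157.S6a

open Matrix Real Set
open Crest.Agent.T157.E hiding mean
open Crest.Agent.T157.Tap (V Mx)
open Crest.Agent.T157.Da.Gr (loc)
open Crest.Agent.T157.Chain22 (sg mean isP_prob')
open Crest.Agent.T157.Ent (cnd brg mean_congr mean_add' mean_const_mul mean_sum')
open Crest.Agent.T157.Reg (VF mu Nice)
open Crest.Agent.T157.Reg.Bas66 (mu_pos)
open Crest.Agent.T157.S6h Crest.Agent.T157.B Crest.Agent.T157.S6r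
open Crest.Agent.T157.Rv (II Warm)

variable {n : ℕ} {W : Mx n} {v f : Cube n → ℝ}

namespace Rd39

theorem dd_eq (W : Mx n) (f : Cube n → ℝ) : dd W f = dk (dn (mu W) f) W := rfl

theorem ev_eq (h1 : E.mean (mu W) f = 1) (F : Cube n → ℝ) :
    ev W f F = mean (prob (dn (mu W) f)) F := (mean_dn (mu_pos W) h1 F).symm


theorem brg_sym {u a : ℝ} (hu : 0 < u) (ha : 0 < a) :
    2 * (u - a) ^ 2 ≤ (u + a) * (brg u a + brg a u) := by
  wlog h : a ≤ u generalizing u a
  · have := this ha hu (le_of_not_ge h); linarith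
  have k := le_log_one_add_of_nonneg (div_nonneg (sub_nonneg.2 h) ha.le)
  rw [show 1 + (u - a) / a = u / a by field_simp; ring, log_div hu.ne' ha.ne',
    show (u - a) / a + 2 = (u + a) / a by field_simp; ring, mul_div_assoc', div_div_div_cancel_right₀ ha.ne',
    div_le_iff₀ (add_pos hu ha)] at k
  unfold brg
  nlinarith [mul_le_mul_of_nonneg_left k (sub_nonneg.2 h)]

theorem dk_sq_le' (hv : ∀ x, 0 < v x) (hW : Wᵀ = W) (x : Cube n) (k : Fin n) :
    dk v W x k ^ 2 ≤ kS v (mu W) k x + kS (mu W) v k x := by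
  have h : ∀ b, dk v W x k ^ 2 / 2 ≤ (cnd v k x b + cnd (mu W) k x b) *
      (brg (cnd v k x b) (cnd (mu W) k x b) + brg (cnd (mu W) k x b) (cnd v k x b)) := fun b => by
    have k1 := brg_sym (Ent.cnd_pos hv k x b) (Ent.cnd_pos (mu_pos W) k x b)
    have e := congrArg (· ^ 2) (dk_cnd hv hW x k b)
    simp only [sq_abs, div_pow] at e
    linarith
  have h1 := (Ent.isP_cnd hv k x).sum1
  have h2 := (Ent.isP_cnd (mu_pos W) k x).sum1
  rw [Fintype.sum_bool] at h1 h2
  have p := fun b => add_pos (Ent.cnd_pos hv k x b) (Ent.cnd_pos (mu_pos W) k x b)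
  have a := h true
  have b := h false
  have p1 := p true
  have p2 := p false
  rw [kS_brg hv (mu_pos W), kS_brg (mu_pos W) hv, add_add_add_comm]
  have e : cnd v k x false + cnd (mu W) k x false = 2 - (cnd v k x true + cnd (mu W) k x true) := by
    linarith
  rw [e] at b p2
  generalize cnd v k x true + cnd (mu W) k x true = s at *
  generalize brg (cnd v k x true) (cnd (mu W) k x true) + brg (cnd (mu W) k x true) (cnd v k x true) = A at *
  generalize brg (cnd v k x false) (cnd (mu W) k x false) +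
    brg (cnd (mu W) k x false) (cnd v k x false) = B at *
  have d0 := sq_nonneg (dk v W x k)
  refine le_of_mul_le_mul_left ?_ (mul_pos p1 p2)
  nlinarith [mul_le_mul_of_nonneg_left a p2.le, mul_le_mul_of_nonneg_left b p1.le,
    mul_nonneg d0 (sq_nonneg (s - 1))]

theorem mean_G0' {K R : ℝ} (K0 : 0 < K) (hW : Nice W K) (hA : Ent.AT (mu W) K 0) (hR : 0 ≤ R) :
    mean (prob (mu W)) (G0 W R) ≤
      1024 * K ^ 6 * exp (1 / (64 * K ^ 3)) * (n * exp (-(R ^ 2 / (64 * K ^ 3)))) := by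
  have h : ∀ k : Fin n, mean (prob (mu W)) (fun x => max (|loc W 0 x k| - R / 2) 0 ^ 2) ≤
      1024 * K ^ 6 * exp (1 / (64 * K ^ 3)) * exp (-(R ^ 2 / (64 * K ^ 3))) := fun k => by
    have m : ∀ τ, mean (prob (mu W)) (fun x => exp (τ * loc W 0 x k)) ≤ exp (4 * K * K ^ 2 * τ ^ 2) :=
      fun τ => by
        have := Low.herbst_grad k.pos (mu_pos W) K0.le hA (F := fun x => loc W 0 x k) (γ := K ^ 2)
          (fun x => by
            rw [Reg.S42.grad_sq, ← Finset.sum_div]; linarith [Reg.S42.loc_lip hW x k]) τ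
        rwa [Chain22.emean_eq _ fun x => loc W 0 x k,
          Reg.S42.mean_odd W fun x => Reg.S42.loc_neg W x k, mul_zero, zero_add] at this
    have θ0 : 0 < (R + 1) / (16 * K ^ 3) := by positivity
    refine ((isP_prob' (mu_pos W)).mean_mono fun x => exc_le _ _ θ0).trans ?_
    rw [mean_const_mul, mean_add']
    refine (mul_le_mul_of_nonneg_left (add_le_add (m _) (m _)) (by positivity)).trans ?_
    have e : -((R + 1) / (16 * K ^ 3) * (R / 2)) + 4 * K * K ^ 2 * ((R + 1) / (16 * K ^ 3)) ^ 2 =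
        1 / (64 * K ^ 3) + -(R ^ 2 / (64 * K ^ 3)) := by field_simp; ring
    rw [neg_sq, ← two_mul, mul_assoc, mul_left_comm _ 2, ← exp_add, e, ← mul_assoc, mul_assoc _ (exp _),
      ← exp_add]
    refine mul_le_mul_of_nonneg_right ?_ (exp_pos _).le
    rw [div_pow, div_div_eq_mul_div, div_mul_eq_mul_div, div_le_iff₀ (by positivity)]
    nlinarith [mul_le_mul_of_nonneg_left (one_le_pow₀ (le_add_of_nonneg_left hR : 1 ≤ R + 1) (n := 2))
      (by positivity : 0 ≤ 1024 * K ^ 6)]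
  refine (mean_sum' _ _).trans_le ((Finset.sum_le_sum fun k _ => h k).trans_eq ?_)
  simp only [Finset.sum_const, Finset.card_univ, Fintype.card_fin, nsmul_eq_mul]; ring

end Rd39

open Rd39

theorem redStmt : RedStmt := fun n W hW f hf h1 => by
  have hv := dn_pos (mu_pos W) hf
  refine ⟨frV_dk _ W, abs_dk_le hv hW.sym, ?_, fun U hU => ?_, fun η R η0 η1 hR => ?_⟩
  · rw [ev_eq h1, II_mean (mu_pos W) hf h1]
    exact (isP_prob' hv).mean_mono fun x => Finset.sum_le_sum fun k _ =>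
      (sq _).symm.trans_le (dk_sq_le' hv hW.sym x k)
  · rw [ev_eq h1, ev_eq h1]; exact mean_dv hv W hU
  · rw [II_mean (mu_pos W) hf h1, X3, ev_eq h1, ev_eq h1, ← mean_const_mul, ← mean_const_mul,
      ← mean_const_mul, ← mean_add', ← mean_add']
    refine (mean_sum' _ _).symm.trans_le ((isP_prob' hv).mean_mono fun x => ?_)
    simp only [G0, Finset.mul_sum, ← Finset.sum_add_distrib]
    refine Finset.sum_le_sum fun k _ => (site_le hv hW.sym η0 (by linarith) hR x k).trans ?_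
    have e : exp (2 * R + 1) ≤ 8 * exp (2 * R) := by
      rw [exp_add, mul_comm]
      exact mul_le_mul_of_nonneg_right (exp_one_lt_d9.le.trans (by norm_num)) (exp_pos _).le
    have := add_nonneg (kS_nn hv (mu_pos W) k x) (kS_nn (mu_pos W) hv k x)
    rw [dd_eq]
    gcongr
    linarith

theorem hbStmt : HbStmt := fun K K0 => by
  have c1 : 0 < 1024 * K ^ 6 * exp (1 / (64 * K ^ 3)) := by positivity
  have c2 : 0 < K ^ 3 := by positivity
  refine ⟨1 + 64 * K ^ 3 + 2 * (1024 * K ^ 6 * exp (1 / (64 * K ^ 3))), by linarith,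
    fun n W hW hN hA f hf h1 R hR => ?_⟩
  have k2 := Reg.Sb51.gen (mu_pos W) K0 hA _ (by positivity) (G0_sb hN hW.dg (R / 2))
    (isP_prob' (dn_pos (mu_pos W) hf))
  rw [kl_dn (mu_pos W) hf h1, ← ev_eq h1] at k2
  have k3 := mean_G0' K0 hN hA hR
  have e0 := Rv.ent_nn (mu_pos W) fun x => (hf x).le
  set c := 1024 * K ^ 6 * exp (1 / (64 * K ^ 3))
  have k4 : (n : ℝ) * exp (-(R ^ 2 / (64 * K ^ 3))) ≤
      n ^ 2 * exp (-(R ^ 2 / (1 + 64 * K ^ 3 + 2 * c))) :=
    mul_le_mul (by exact_mod_cast Nat.le_self_pow two_ne_zero n) (exp_le_exp.2 (neg_le_neg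
      (div_le_div_of_nonneg_left (sq_nonneg _) (by positivity) (by linarith)))) (exp_pos _).le
      (by positivity)
  have k5 : 0 ≤ (n : ℝ) ^ 2 * exp (-(R ^ 2 / (1 + 64 * K ^ 3 + 2 * c))) := by positivity
  change ev W f (G0 W R) ≤ 2 * mean (prob (mu W)) (G0 W R) + _ at k2
  nlinarith [mul_le_mul_of_nonneg_left k4 c1.le, mul_nonneg c2.le e0, mul_nonneg c1.le e0,
    mul_nonneg c2.le k5]


theorem fStmt : FStmt := fun n W hW D L M f G hf _ _ hG s1 s2 t h1 h2 h3 => by
  have hw := mu_pos W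
  have k := fF hW.pos hW.sym hf (fun x => (hG x).1) h1 h2 h3 L
  have k1 := mul_le_mul_of_nonneg_left (((isP_prob' hw).mean_mono fun x => (hG x).2).trans_eq
    ((isP_prob' hw).mean_const M)) (exp_pos (-L)).le
  rw [intervalIntegral.integral_congr (g := FI W f G t) fun s hs => by
    rw [uIcc_of_le h2] at hs
    exact ev_eq (hf.sg hW.pos hw (by linarith [hs.2])).2.1 _,
    ev_eq (hf.sg hW.pos hw (by linarith)).2.1]
  linarith

end Crest.Agent.T157.S6a

end
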