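import Crest.Agent.T157.ZAll_73
import Crest.Agent.T157.LmDef_76

/-!
# Row 157, part B (helper73): the seam between networks and the limit theory `Lm`
-/

set_option autoImplicit false

noncomputable section

namespace Crest.Agent.T157.Z

open MeasureTheory Matrix Filter Set
open Crest.ProbabilityR.SpinGlassDynamics
open Crest.Agent.T157.E Crest.Agent.T157.Eig Crest.Agent.T157.Tap
open Crest.Agent.T157.Lm (Fam F0 F1 Nv co pt Jm Cl Wk Adm n2 Lim)
open Crest.Agent.R253.Meh74 (gam)
open Crest.Agent.T157.Rec (grad)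

/-- symmetric with zero diagonal -/
def Sy {n : ℕ} (J : Mx n) : Prop := Jᵀ = J ∧ ∀ i, J i i = 0

/-- gauge covariance of a scalar observable -/
def Gc (f : ∀ n, Mx n → Cube n → ℝ) : Prop := ∀ n (J : Mx n) (x : Cube n), Sy J →
  f n (diagonal (sv x) * J * diagonal (sv x)) (Pl.one n) = f n J x

/-- covariant observables, Lipschitz in the couplings, with bounded gradient -/
structure Cov (Φ : ∀ n, Mx n → Cube n → ℝ) (B : ℝ) : Prop where
  gauge : Gc Φ
  perm : ∀ n (J : Mx n) (e : Equiv.Perm (Fin n)), Sy J →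
    Φ n (J.submatrix e e) (Pl.one n) = Φ n J (Pl.one n)
  lip : ∀ n (J J' : Mx n), Sy J → Sy J' →
    |Φ n J (Pl.one n) - Φ n J' (Pl.one n)| ≤ B * (√n * opn (J - J'))
  grad : ∀ n (J : Mx n) x, Sy J → grad (Φ n J) x ⬝ᵥ grad (Φ n J) x ≤ B

/-- a word in the planted gauge -/
def nf (β : ℝ) {m : ℕ} (X : Nt (Unit ⊕ Fin m)) : F1 m :=
  fun n x z => X n (Jm β z) (lab 1 fun p => co z (.inr p)) (x ())

/-- forget the site variables -/
def pj {L n : ℕ} (z : R238.Gap.E (Nv L n)) : R238.Gap.E (Nv 0 n) :=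
  pt (Sum.elim (fun e => co z (.inl e)) fun _ => 0)

/-- a family without site variables, read with `L` layers -/
def lift (L : ℕ) {C : Type} (F : Fam 0 C) : Fam L C := fun n x z => F n x (pj z)






end Crest.Agent.T157.Z

end
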