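import Crest.Agent.T157.ZDef_73

/-!
# Row 157, part B, package (Z) (helper85): deterministic facts on networks
-/

set_option autoImplicit false

noncomputable section

namespace Crest.Agent.T157.Z

open MeasureTheory ProbabilityTheory Matrix Filter Set
open Crest.Agent.T157.E Crest.Agent.T157.Eig Crest.Agent.T157.Tap

namespace L85

variable {n : ℕ} {ι κ : Type} {sm : Prop}

/-! ### norms -/

theorem nrm_mono {u v : V n} (h : ∀ i, |u i| ≤ |v i|) : nrm u ≤ nrm v :=
  Real.sqrt_le_sqrt (Finset.sum_le_sum fun i _ => by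
    rw [← abs_mul_abs_self (u i), ← abs_mul_abs_self (v i)]
    exact mul_self_le_mul_self (abs_nonneg _) (h i))

theorem nrm_sum_le {σ : Type} (s : Finset σ) (v : σ → V n) :
    nrm (∑ l ∈ s, v l) ≤ ∑ l ∈ s, nrm (v l) :=
  Finset.le_sum_of_subadditive nrm (by simp [nrm]) nrm_add_le s v

theorem nrm_le_of_bd {v : V n} {M : ℝ} (h : ∀ i, |v i| ≤ M) : nrm v ≤ |M| * √n := by
  refine (nrm_mono (v := fun _ => M) fun i => (h i).trans (le_abs_self M)).trans_eq ?_
  simp [nrm, dotProduct, mul_comm, Real.sqrt_mul_self_eq_abs]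

theorem avg_mul (u v : V n) : avg (u * v) = u ⬝ᵥ v / n := rfl

/-- `|avg (u v)| · ‖z‖ ≤ M M' ‖u‖` for bounded `v`, `z` -/
theorem abs_avg_mul_le {u v z : V n} {M M' : ℝ} (hv : ∀ i, |v i| ≤ M) (hz : ∀ i, |z i| ≤ M') :
    |avg (u * v)| * nrm z ≤ |M| * |M'| * nrm u := by
  have u0 := nrm_nonneg u
  rcases Nat.eq_zero_or_pos n with rfl | hn
  · simp only [avg, Nat.cast_zero, div_zero, abs_zero, zero_mul]; positivity
  have n0 : (0 : ℝ) < n := Nat.cast_pos.2 hn
  rw [avg_mul, abs_div, abs_of_pos n0, div_mul_eq_mul_div, div_le_iff₀ n0]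
  refine (mul_le_mul ((abs_dot_le u v).trans (mul_le_mul_of_nonneg_left (nrm_le_of_bd hv) u0))
    (nrm_le_of_bd hz) (nrm_nonneg _) (by positivity)).trans_eq ?_
  linear_combination (nrm u * |M| * |M'|) * Real.mul_self_sqrt n0.le

theorem abs_avg_le {u v : V n} {M M' : ℝ} (hu : ∀ i, |u i| ≤ M) (hv : ∀ i, |v i| ≤ M') :
    |avg (u * v)| ≤ |M| * |M'| := by
  rcases Nat.eq_zero_or_pos n with rfl | hn
  · simp only [avg, Nat.cast_zero, div_zero, abs_zero]; positivity
  have n0 : (0 : ℝ) < n := Nat.cast_pos.2 hn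
  rw [avg_mul, abs_div, abs_of_pos n0, div_le_iff₀ n0]
  refine ((abs_dot_le u v).trans (mul_le_mul (nrm_le_of_bd hu) (nrm_le_of_bd hv) (nrm_nonneg _)
    (by positivity))).trans_eq ?_
  linear_combination (|M| * |M'|) * Real.mul_self_sqrt n0.le

theorem nA_nonneg [Fintype ι] (a : ι → V n) : 0 ≤ nA a := Finset.sum_nonneg fun _ _ => nrm_nonneg _

theorem nrm_le_nA [Fintype ι] (a : ι → V n) (j : ι) : nrm (a j) ≤ nA a :=
  Finset.single_le_sum (f := fun l => nrm (a l)) (fun _ _ => nrm_nonneg _) (Finset.mem_univ j)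

/-! ### the truncation -/

theorem max_pos (J : Mx n) : 0 < max 3 (opn J) := lt_max_of_lt_left (by norm_num)

theorem opn_tJ (J : Mx n) : opn (tJ J) ≤ 3 := by
  have := max_pos J
  rw [tJ, opn_smul, abs_of_pos (by positivity), div_mul_eq_mul_div, div_le_iff₀ this]
  linarith [le_max_right 3 (opn J)]

theorem tJ_eq {J : Mx n} (h : opn J ≤ 3) : tJ J = J := by
  rw [tJ, max_eq_left h, div_self (by norm_num), one_smul]

theorem tJ_lip (J J' : Mx n) : opn (tJ J - tJ J') ≤ 2 * opn (J - J') := by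
  have m0 := max_pos J
  have m1 := max_pos J'
  have e : tJ J - tJ J' = (3 / max 3 (opn J)) • (J - J') +
      (3 / max 3 (opn J) * ((max 3 (opn J') - max 3 (opn J)) / max 3 (opn J'))) • J' := by
    rw [smul_sub, tJ, tJ, sub_add, ← sub_smul]
    congr 2; field_simp; ring
  have h1 : 3 / max 3 (opn J) ≤ 1 := (div_le_one m0).2 (le_max_left _ _)
  have h2 : |max 3 (opn J') - max 3 (opn J)| ≤ opn (J - J') := by
    rw [max_comm 3, max_comm 3, opn_sub_comm]
    exact (abs_max_sub_max_le_abs _ _ _).trans (abs_opn_sub_le _ _)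
  have h3 : opn J' / max 3 (opn J') ≤ 1 := (div_le_one m1).2 (le_max_right _ _)
  have h0 : 0 < 3 / max 3 (opn J) := by positivity
  have o0 := opn_nonneg (J - J')
  rw [e]
  refine (opn_add_le _ _).trans ?_
  rw [opn_smul, opn_smul, abs_mul, abs_of_pos h0, abs_div, abs_of_pos m1, mul_assoc,
    div_mul_eq_mul_div _ _ (opn J'), mul_div_assoc _ (opn J')]
  have h4 := mul_le_mul h2 h3 (div_nonneg (opn_nonneg _) m1.le) o0
  have h5 := mul_le_mul h1 h4 (mul_nonneg (abs_nonneg _) (div_nonneg (opn_nonneg _) m1.le))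
    zero_le_one
  have h6 := mul_le_mul_of_nonneg_right h1 o0
  linarith

theorem continuous_tJ : Continuous (tJ : Mx n → Mx n) :=
  (continuous_const.div (continuous_const.max continuous_opn) fun J => (max_pos J).ne').smul
    continuous_id

theorem sgn_mul {s : V n} (hs : ∀ i, s i = 1 ∨ s i = -1) (i : Fin n) : s i * s i = 1 := by
  rcases hs i with h | h <;> simp [h]

theorem opn_gauge_le {s : V n} (hs : ∀ i, s i = 1 ∨ s i = -1) (J : Mx n) :
    opn (diagonal s * J * diagonal s) ≤ opn J := by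
  have h : opn (diagonal s) ≤ 1 := opn_diagonal_le zero_le_one fun i => by
    rcases hs i with h | h <;> simp [h]
  refine (opn_mul_le _ _).trans ((mul_le_of_le_one_right (opn_nonneg _) h).trans ?_)
  exact (opn_mul_le _ _).trans (mul_le_of_le_one_left (opn_nonneg _) h)

theorem opn_gauge {s : V n} (hs : ∀ i, s i = 1 ∨ s i = -1) (J : Mx n) :
    opn (diagonal s * J * diagonal s) = opn J := by
  refine le_antisymm (opn_gauge_le hs J) (le_of_eq_of_le ?_
    (opn_gauge_le hs (diagonal s * J * diagonal s)))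
  congr 1
  ext i j
  simp only [mul_diagonal, diagonal_mul]
  linear_combination (-(J i j * (s j * s j))) * sgn_mul hs i - J i j * sgn_mul hs j

theorem tJ_gauge {s : V n} (hs : ∀ i, s i = 1 ∨ s i = -1) (J : Mx n) :
    tJ (diagonal s * J * diagonal s) = diagonal s * tJ J * diagonal s := by
  rw [tJ, tJ, opn_gauge hs, Matrix.mul_smul, Matrix.smul_mul]

theorem opn_perm (J : Mx n) (e : Equiv.Perm (Fin n)) : opn (J.submatrix e e) = opn J := by
  refine le_antisymm (opn_submatrix_le J e.injective) (le_of_eq_of_le ?_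
    (opn_submatrix_le (J.submatrix e e) e.symm.injective))
  simp

theorem tJ_perm (J : Mx n) (e : Equiv.Perm (Fin n)) :
    tJ (J.submatrix e e) = (tJ J).submatrix e e := by
  rw [tJ, tJ, opn_perm]; rfl

/-! ### letters -/

theorem OL.abs_sub {m : ℕ} {φ : (Fin m → ℝ) → ℝ} {L : NNReal} (h : LipschitzWith L φ)
    (u v : Fin m → ℝ) : |φ u - φ v| ≤ L * ∑ l, |u l - v l| := by
  refine (h.dist_le_mul u v).trans (mul_le_mul_of_nonneg_left ?_ L.2)
  refine (dist_pi_le_iff (Finset.sum_nonneg fun _ _ => abs_nonneg _)).2 fun l => ?_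
  exact Finset.single_le_sum (f := fun l => |u l - v l|) (fun _ _ => abs_nonneg _)
    (Finset.mem_univ l)

theorem ol_clm {m : ℕ} (f : (Fin m → ℝ) →L[ℝ] ℝ) : OL f := ⟨map_neg f, _, f.lipschitz⟩

theorem smL_clm {m : ℕ} (f : (Fin m → ℝ) →L[ℝ] ℝ) : SmL f :=
  ⟨f.differentiable, 0, by
    rw [show fderiv ℝ f = fun _ => f from funext fun _ => f.fderiv]; exact LipschitzWith.const _⟩

theorem ol_clip {M : ℝ} (hM : 0 ≤ M) : OL fun u : Fin 1 → ℝ => max (-M) (min M (u 0)) := by
  refine ⟨fun u => ?_, 1, ((LipschitzWith.eval 0).const_min M).const_max (-M)⟩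
  simp only [Pi.neg_apply, max_def, min_def]
  split_ifs <;> linarith

theorem abs_cp_le {M : ℝ} (hM : 0 ≤ M) (v : V n) (i : Fin n) : |cp M v i| ≤ M :=
  abs_le.2 ⟨le_max_left _ _, max_le (by linarith) (min_le_left _ _)⟩

/-! ### the fields -/

theorem lip [Fintype ι] {X : Nt ι} (h : Nw sm X) : ∃ L ≥ (0 : ℝ), ∀ n J J' a a',
    nrm (X n J a - X n J' a') ≤ L * (nA (a - a') + √n * opn (J - J')) := by
  have d0 : ∀ (n : ℕ) (J : Mx n), 0 ≤ √(n : ℝ) * opn J := fun n J =>
    mul_nonneg (Real.sqrt_nonneg _) (opn_nonneg _)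
  induction h with
  | inp j => exact ⟨1, zero_le_one, fun n J J' a a' => by
      linarith [nrm_le_nA (a - a') j, d0 n (J - J'), show (a - a') j = a j - a' j from rfl,
        congrArg nrm (show (a - a') j = a j - a' j from rfl)]⟩
  | map φ X hφ _ _ ih =>
    obtain ⟨-, L, hL⟩ := hφ
    choose K K0 hK using ih
    refine ⟨L * ∑ l, K l, mul_nonneg L.2 (Finset.sum_nonneg fun l _ => K0 l),
      fun n J J' a a' => ?_⟩
    refine (nrm_mono (v := (L : ℝ) • ∑ l, fun i => |X l n J a i - X l n J' a' i|) fun i => ?_).trans ?_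
    · refine (OL.abs_sub hL _ _).trans (le_of_eq_of_le ?_ (le_abs_self _))
      simp [Finset.sum_apply]
    · rw [nrm_smul, NNReal.abs_eq, mul_assoc, Finset.sum_mul]
      refine mul_le_mul_of_nonneg_left ((nrm_sum_le _ _).trans (Finset.sum_le_sum fun l _ => ?_)) L.2
      exact (nrm_mono fun i => by simp).trans (hK l n J J' a a')
  | mul X _ hB ih =>
    obtain ⟨M, hM⟩ := hB
    obtain ⟨K, K0, hK⟩ := ih
    refine ⟨3 * K + 2 * |M|, by positivity, fun n J J' a a' => ?_⟩
    have e : tJ J *ᵥ X n J a - tJ J' *ᵥ X n J' a' =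
        tJ J *ᵥ (X n J a - X n J' a') + (tJ J - tJ J') *ᵥ X n J' a' := by
      rw [mulVec_sub, sub_mulVec]; abel
    have h1 := (nrm_mulVec_le (tJ J) _).trans
      (mul_le_mul (opn_tJ J) (hK n J J' a a') (nrm_nonneg _) (by norm_num))
    have h2 := (nrm_mulVec_le (tJ J - tJ J') _).trans (mul_le_mul (tJ_lip J J')
      (nrm_le_of_bd (hM n J' a')) (nrm_nonneg _) (by linarith [opn_nonneg (J - J')]))
    have h3 := mul_nonneg (abs_nonneg M) (nA_nonneg (a - a'))
    beta_reduce
    rw [e]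
    refine (nrm_add_le _ _).trans ?_
    linarith
  | sc X Y Z _ _ _ hX hY hZ iX iY iZ =>
    obtain ⟨A, hA⟩ := hX
    obtain ⟨B, hB⟩ := hY
    obtain ⟨C, hC⟩ := hZ
    obtain ⟨K1, k1, h1⟩ := iX
    obtain ⟨K2, k2, h2⟩ := iY
    obtain ⟨K3, k3, h3⟩ := iZ
    refine ⟨|A| * |B| * K3 + |B| * |C| * K1 + |A| * |C| * K2, by positivity,
      fun n J J' a a' => ?_⟩
    have e : avg (X n J a * Y n J a) • Z n J a - avg (X n J' a' * Y n J' a') • Z n J' a' =
        avg (X n J a * Y n J a) • (Z n J a - Z n J' a') +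
          (avg ((X n J a - X n J' a') * Y n J a) • Z n J' a' +
            avg ((Y n J a - Y n J' a') * X n J' a') • Z n J' a') := by
      rw [← add_smul, smul_sub, sub_add, ← sub_smul]
      congr 2
      simp only [avg_mul, sub_dotProduct, dotProduct_comm (Y n J a), dotProduct_comm (Y n J' a')]
      ring
    have g1 := mul_le_mul (abs_avg_le (hA n J a) (hB n J a)) (h3 n J J' a a') (nrm_nonneg _)
      (by positivity)
    have g2 := (abs_avg_mul_le (u := X n J a - X n J' a') (hB n J a) (hC n J' a')).trans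
      (mul_le_mul_of_nonneg_left (h1 n J J' a a') (by positivity))
    have g3 := (abs_avg_mul_le (u := Y n J a - Y n J' a') (hA n J' a') (hC n J' a')).trans
      (mul_le_mul_of_nonneg_left (h2 n J J' a a') (by positivity))
    beta_reduce
    rw [e]
    refine (nrm_add_le _ _).trans ((add_le_add le_rfl (nrm_add_le _ _)).trans ?_)
    rw [nrm_smul, nrm_smul, nrm_smul]
    linarith

theorem cont [Fintype ι] {X : Nt ι} (h : Nw sm X) (n : ℕ) :
    Continuous fun p : Mx n × (ι → V n) => X n p.1 p.2 := by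
  induction h with
  | inp j => fun_prop
  | map φ X hφ _ _ ih =>
    obtain ⟨-, L, hL⟩ := hφ
    exact continuous_pi fun i => hL.continuous.comp
      (continuous_pi fun l => (continuous_apply i).comp (ih l))
  | mul X _ _ ih => exact (continuous_tJ.comp continuous_fst).matrix_mulVec ih
  | sc X Y Z _ _ _ _ _ _ iX iY iZ =>
    exact ((iX.dotProduct iY).div_const (n : ℝ)).smul iZ

theorem odd {X : Nt ι} (h : Nw sm X) (n : ℕ) (J : Mx n) (a : ι → V n) : X n J (-a) = -X n J a := by
  induction h with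
  | inp j => rfl
  | map φ X hφ _ _ ih =>
    funext i
    simp only [ih, Pi.neg_apply]
    exact hφ.1 fun l => X l n J a i
  | mul X _ _ ih => simp only [ih, mulVec_neg]
  | sc X Y Z _ _ _ _ _ _ iX iY iZ => simp only [iX, iY, iZ, neg_mul_neg, smul_neg]

theorem gauge {X : Nt ι} (h : Nw sm X) (n : ℕ) (J : Mx n) (a : ι → V n) (s : V n)
    (hs : ∀ i, s i = 1 ∨ s i = -1) :
    X n (diagonal s * J * diagonal s) (fun l => s * a l) = s * X n J a := by
  induction h with
  | inp j => rfl
  | map φ X hφ _ _ ih =>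
    funext i
    simp only [ih, Pi.mul_apply]
    rcases hs i with e | e
    · simp only [e, one_mul]
    · simp only [e, neg_one_mul]
      exact hφ.1 fun l => X l n J a i
  | mul X _ _ ih =>
    have e : diagonal s *ᵥ (s * X n J a) = X n J a := funext fun i => by
      rw [mulVec_diagonal, Pi.mul_apply, ← mul_assoc, sgn_mul hs, one_mul]
    simp only [ih, tJ_gauge hs, ← mulVec_mulVec, e]
    exact funext fun i => mulVec_diagonal _ _ i
  | sc X Y Z _ _ _ _ _ _ iX iY iZ =>
    have e : s * X n J a * (s * Y n J a) = X n J a * Y n J a := funext fun i => by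
      simp only [Pi.mul_apply]
      linear_combination (X n J a i * Y n J a i) * sgn_mul hs i
    simp only [iX, iY, iZ, e, mul_smul_comm]

theorem perm {X : Nt ι} (h : Nw sm X) (n : ℕ) (J : Mx n) (a : ι → V n) (e : Equiv.Perm (Fin n)) :
    X n (J.submatrix e e) (fun l => a l ∘ e) = X n J a ∘ e := by
  induction h with
  | inp j => rfl
  | map φ X hφ _ _ ih =>
    funext i
    simp only [ih, Function.comp_apply]
  | mul X _ _ ih =>
    simp only [ih, tJ_perm, submatrix_mulVec_equiv, Function.comp_assoc, Equiv.self_comp_symm,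
      Function.comp_id]
  | sc X Y Z _ _ _ _ _ _ iX iY iZ =>
    have e1 : avg (X n J a ∘ e * Y n J a ∘ e) = avg (X n J a * Y n J a) :=
      congrArg (· / (n : ℝ)) (Equiv.sum_comp e (X n J a * Y n J a))
    simp only [iX, iY, iZ, e1]
    rfl

theorem diff [Fintype ι] {X : Nt ι} (h : Nw True X) (n : ℕ) (J : Mx n) :
    Differentiable ℝ (X n J) := by
  induction h with
  | inp j => fun_prop
  | map φ X _ hs _ ih =>
    exact differentiable_pi.2 fun i => (hs trivial).1.comp
      (differentiable_pi.2 fun l => differentiable_pi.1 (ih l) i)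
  | mul X _ _ ih =>
    exact (LinearMap.toContinuousLinearMap (toLin' (tJ J))).differentiable.comp ih
  | sc X Y Z _ _ _ _ _ _ iX iY iZ =>
    refine Differentiable.smul (c := fun a => (∑ i, X n J a i * Y n J a i) * (n : ℝ)⁻¹) ?_ iZ
    exact (Differentiable.fun_sum fun i _ =>
      (differentiable_pi.1 iX i).fun_mul (differentiable_pi.1 iY i)).mul_const _

theorem comp {X : Nt ι} {Y : ι → Nt κ} (h : Nw sm X) (hY : ∀ j, Nw sm (Y j)) :
    Nw sm fun n J a => X n J fun j => Y j n J a := by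
  have b : ∀ {X : Nt ι}, Bd X → Bd fun n J a => X n J fun j => Y j n J a :=
    fun ⟨M, hM⟩ => ⟨M, fun n J _ i => hM n J _ i⟩
  induction h with
  | inp j => exact hY j
  | map φ X hφ hs _ ih => exact .map φ _ hφ hs ih
  | mul X _ hB ih => exact .mul _ ih (b hB)
  | sc X Y Z _ _ _ hX hY hZ iX iY iZ => exact .sc _ _ _ iX iY iZ (b hX) (b hY) (b hZ)

theorem mono {X : Nt ι} (h : Nw sm X) : Nw False X := by
  induction h with
  | inp j => exact .inp j
  | map φ X hφ _ _ ih => exact .map φ _ hφ False.elim ih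
  | mul X _ hB ih => exact .mul _ ih hB
  | sc X Y Z _ _ _ hX hY hZ iX iY iZ => exact .sc _ _ _ iX iY iZ hX hY hZ

theorem lin [Fintype κ] (T : Matrix ι κ ℝ) (j : ι) :
    Nw sm fun (n : ℕ) (_ : Mx n) (a : κ → V n) => lc T a j := by
  set e := (Fintype.equivFin κ).symm
  set f : (Fin (Fintype.card κ) → ℝ) →L[ℝ] ℝ := ∑ l, T j (e l) • ContinuousLinearMap.proj l
  have h := Nw.map (sm := sm) f (fun l => fun (n : ℕ) (_ : Mx n) (a : κ → V n) => a (e l))
    (ol_clm f) (fun _ => smL_clm f) fun l => .inp _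
  convert h using 5 with n J a i
  simp only [f, lc, _root_.sum_apply, _root_.smul_apply,
    ContinuousLinearMap.proj_apply, smul_eq_mul]
  exact (Equiv.sum_comp e fun k => T j k * a k i).symm

theorem clip {X : Nt ι} {M : ℝ} (hM : 0 ≤ M) (h : Nw False X) :
    Nw False (fun n J a => cp M (X n J a)) ∧ Bd fun n J a => cp M (X n J a) :=
  ⟨.map _ (fun _ => X) (ol_clip hM) False.elim fun _ => h, M, fun _ _ _ => abs_cp_le hM _⟩

theorem nA_lab {m : ℕ} (y y' : V n) (w : Fin m × Fin n → ℝ) :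
    nA (lab y w - lab y' w) = nrm (y - y') := by
  simp [nA, lab, nrm]


end L85

open L85

theorem lipStmt : LipStmt where
  lip _ _ _ _ h := lip h
  cont _ _ _ _ h := cont h
  odd _ _ _ h := odd h
  gauge _ _ _ h := gauge h
  perm _ _ _ h := perm h
  diff _ _ _ h := diff h
  comp _ _ _ _ _ h hY := comp h hY
  mono _ _ _ h := mono h
  lin _ _ _ _ T j := lin T j
  clip _ _ _ hM h := clip hM h
  tJ_le _ J := ⟨opn_tJ J, tJ_eq⟩



end Crest.Agent.T157.Z

end
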