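import Crest.Agent.T157.LmOut_32_Mg
import Crest.Agent.T157.S6Rd_39_Mg
import Crest.Agent.T157.S6Eb_20_Mg
import Crest.Agent.T157.BLbc_62
import Crest.Agent.T157.RnAll_60
import Crest.Agent.T157.LmDef_76
import Crest.Agent.T157.S1Stat_27
import Crest.Agent.T157.KDef_36
import Crest.Agent.T157.KSq_84
import Crest.Agent.T157.ZLip_85
import Crest.Agent.T157.ZDefS_73
import Crest.Agent.T157.LmDefB_76
import Crest.Agent.T157.TwLin_84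

-- ▼ part T157/S6All_68
section

/-!
# Row 157, block S6 assembled
-/

set_option autoImplicit false

namespace Crest.Agent.T157.S6a

theorem locStmt68 (hA : Rv.At0) : LocStmt :=
  loc_of hA Reg.niceStmt okStmt redStmt hbStmt decStmt contStmt fStmt pStmt eqStmt duStmt errStmt
    loopStmt (factsStmt hA) (endGlue_of eaGlue ebGlue stepGlue) locGlue

end Crest.Agent.T157.S6a
end

-- ▼ part T157/FinG_88
section

/-!
# Row 157: the subcritical statement from the outputs of the blocks S1, S5, S6 (helper88)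
-/

set_option autoImplicit false

namespace Crest.Agent.T157.TopZ

/-- what the collective family `𝓕` has to deliver; `𝒞` is the polynomial class -/
structure BIn (𝒞 : Tw.Cls) (𝓕 : ℝ → Set B.Ob) : Prop where
  lim : ∀ β, 0 < β → β < 1 → ∀ Φ ∈ 𝓕 β, Lm.Lim β Φ
  rg : ∀ β, 0 < β → β < 1 → ∀ c > (0 : ℝ), ∃ c' > (0 : ℝ), ∀ Φ ∈ 𝓕 β, Lm.Rg β c c' Φ
  stat : ∀ β, 0 < β → β < 1 → B.Stat1 β (Tw.lam 𝒞 β) (Lm.Qo β '' 𝓕 β)

theorem parts_of (hO : Lm.OutStmt) {𝒞 : Tw.Cls} (h𝒞 : ∀ m, 𝒞.C m = Tw.PV m)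
    {𝓕 : ℝ → Set B.Ob} (h : BIn 𝒞 𝓕) :
    ∃ ls, B.Parts (Tw.lam 𝒞) ls fun β => Lm.Qo β '' 𝓕 β := by
  have key : ∀ β, ∃ ls, 0 < β → β < 1 → 0 < ls ∧ ls ≤ Tw.lam 𝒞 β ∧
      B.Dec β ls (Lm.Qo β '' 𝓕 β) ∧ (ls < Tw.lam 𝒞 β → Low.LBC β ls) := fun β => by
    by_cases hβ : 0 < β ∧ β < 1
    · obtain ⟨ls, h1⟩ := hO β hβ.1.le hβ.2 (𝓕 β) _ (Rn.lb Rv.poinHi h𝒞 hβ.1 hβ.2).1
        (h.lim β hβ.1 hβ.2) (h.rg β hβ.1 hβ.2)
      exact ⟨ls, fun _ _ => h1⟩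
    · exact ⟨0, fun h0 h1 => absurd ⟨h0, h1⟩ hβ⟩
  choose ls hls using key
  refine ⟨ls, fun β h0 h1 => (Rn.lb Rv.poinHi h𝒞 h0 h1).2.1,
    fun β h0 h1 => ⟨(hls β h0 h1).1, (hls β h0 h1).2.1⟩,
    fun β h0 h1 => Or.inl (Rn.lb Rv.poinHi h𝒞 h0 h1).2.2,
    fun β h0 h1 => (hls β h0 h1).2.2.2, ?_, h.stat, fun β h0 h1 => (hls β h0 h1).2.2.1,
    fun β h0 h1 => S6a.locStmt68 Rv.at0 β _ _ h0 h1
      ((hls β h0 h1).2.1.trans (Rn.lb Rv.poinHi h𝒞 h0 h1).2.1)⟩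
  rintro β _ ⟨Φ, -, rfl⟩ n g x
  exact sq_nonneg _

/-- **S0230** from the blocks S1 and S5 -/
theorem r30_of (hO : Lm.OutStmt) {𝒞 : Tw.Cls} (h𝒞 : ∀ m, 𝒞.C m = Tw.PV m)
    {𝓕 : ℝ → Set B.Ob} (h : BIn 𝒞 𝓕) : Top.R30 :=
  let ⟨_, hP⟩ := parts_of hO h𝒞 h
  Lbc.r30 hP

end Crest.Agent.T157.TopZ
end

-- ▼ part T157/BFin_88

/-!
# Row 157: the top of part B (helper88)
-/

set_option autoImplicit false

noncomputable section

namespace Crest.Agent.T157.TopZ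

open Real Matrix Filter Set
open Crest.ProbabilityR.SpinGlassDynamics
open Crest.Agent.T157.E Crest.Agent.T157.Eig
open Crest.Agent.T157.Tap (Mx)

/-- the root of `tJ J + 4` -/
def QJ {n : ℕ} (J : Mx n) : Mx n := Sq.rt (Z.tJ J + (4 : ℝ) • (1 : Mx n))

/-- **the collective family** -/
def KF : Set Lm.Of := {Φ | ∃ r ≥ (0 : ℝ), ∃ (k m : ℕ) (X : Z.Nt (Bool ⊕ Fin m)), Z.Nw True X ∧ Z.Bd X ∧
  Φ = fun n J => K.phi (QJ J) (K.Eh X n (Z.tJ J)) k r}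

/-- the centred squares -/
def QF (β : ℝ) (F : Set Lm.Of) : Set B.Ob := Lm.Qo β '' (Lm.Of.ob β '' F)

def LimF (F : Set Lm.Of) : Prop := ∀ β, 0 < β → β < 1 → ∀ Φ ∈ F, Lm.Lim β (Lm.Of.ob β Φ)
def RgF (F : Set Lm.Of) : Prop := ∀ β, 0 < β → β < 1 → ∀ c > (0 : ℝ), ∃ c' > (0 : ℝ),
  ∀ Φ ∈ F, Lm.Rg β c c' (Lm.Of.ob β Φ)
def SupF (𝒞 : Tw.Cls) (F : Set Lm.Of) : Prop := ∀ β, 0 < β → β < 1 →
  S1.SupplyStmt β (Tw.lam 𝒞 β) (QF β F)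
def EndF : Prop := ∀ β, 0 < β → β < 1 → S1.EndStmt β



/-- **S0230** from named statements -/
theorem r30_top (hO : Lm.OutStmt) (hS : S1.S1Out) (hE : EndF) {F : Set Lm.Of} (hL : LimF F)
    (hR : RgF F) (hU : ∀ 𝒞 : Tw.Cls, (∀ m, 𝒞.C m = Tw.PV m) → SupF 𝒞 F) : Top.R30 := by
  obtain ⟨𝒞, h𝒞⟩ := Tw.polyStmt
  refine r30_of hO h𝒞 (𝓕 := fun β => Lm.Of.ob β '' F) ⟨?_, fun β h0 h1 c hc => ?_, fun β h0 h1 =>
    hS β _ _ h0 h1 ((Rn.lb Rv.poinHi h𝒞 h0 h1).2.1.trans (by nlinarith)) (hU 𝒞 h𝒞 β h0 h1)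
      (hE β h0 h1)⟩
  · rintro β h0 h1 _ ⟨Φ, hΦ, rfl⟩
    exact hL β h0 h1 Φ hΦ
  · obtain ⟨c', h', H⟩ := hR β h0 h1 c hc
    exact ⟨c', h', by rintro _ ⟨Φ, hΦ, rfl⟩; exact H Φ hΦ⟩

theorem jq_QJ {n : ℕ} {J : Mx n} (h : Jᵀ = J) (hd : ∀ i, J i i = 0) : K.JQ (Z.tJ J) (QJ J) := by
  have hs : (Z.tJ J)ᵀ = Z.tJ J := by rw [Z.tJ, transpose_smul, h]
  exact ⟨hs, fun i => by simp [Z.tJ, hd], Z.L85.opn_tJ J, Sq.rt_symm _,
    (Sq.g1_shift (herm_iff.2 hs) (Z.L85.opn_tJ J) (by norm_num)).mul⟩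

theorem ev_num {a C : ℝ} (b : ℝ) (ha : 0 < a) (hC : 0 < C) : ∀ᶠ n : ℕ in atTop,
    1 ≤ a * log n / C ∧ exp (C * (a * log n / C)) = (n : ℝ) ^ a ∧
      exp (C * (a * log n / C) - (a * log n / C) ^ 2 / C) ≤ (n : ℝ) ^ (-b) := by
  have hl : Tendsto (fun n : ℕ => log n) atTop atTop :=
    tendsto_log_atTop.comp tendsto_natCast_atTop_atTop
  filter_upwards [hl.eventually_ge_atTop (C / a), hl.eventually_ge_atTop ((a + b) * C ^ 3 / a ^ 2),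
    eventually_gt_atTop 0] with n h1 h2 hn
  have n0 : (0 : ℝ) < n := by exact_mod_cast hn
  have e : C * (a * log n / C) = log n * a := by field_simp
  have l0 := log_natCast_nonneg n
  refine ⟨by rw [le_div_iff₀ hC]; rw [div_le_iff₀ ha] at h1; linarith,
    by rw [e, rpow_def_of_pos n0], ?_⟩
  rw [e, rpow_def_of_pos n0, exp_le_exp]
  rw [div_le_iff₀ (by positivity)] at h2
  have : log n * (a + b) ≤ (a * log n / C) ^ 2 / C := by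
    rw [div_pow, div_div, le_div_iff₀ (by positivity)]
    nlinarith [mul_le_mul_of_nonneg_left h2 l0]
  linarith

/-- the family is regular -/
theorem rgF_KF (hP : K.PhiStmt) : RgF KF := by
  intro β h0 h1 c hc
  obtain ⟨c1, c0, cc, c11⟩ : ∃ c1, 0 < c1 ∧ c1 ≤ c ∧ c1 ≤ 1 :=
    ⟨min c 1, lt_min hc one_pos, min_le_left _ _, min_le_right _ _⟩
  refine ⟨c1 / 2, half_pos c0, ?_⟩
  rintro _ ⟨r, hr, k, m, X, hX, hB, rfl⟩
  obtain ⟨K0, -, hA⟩ := Rv.at0 β h0.le h1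
  obtain ⟨C, C1, H⟩ := hP m X hX hB k K0 r hr
  refine ⟨C ^ 2 + 2 * C, (hA.and S1.St27.whp_opn).mono ?_⟩
  filter_upwards [eventually_ge_atTop 1, ev_num (a := c1 / 64) (C := C) c1 (by positivity)
    (by linarith), B.ev_mul 3 (show c1 / 64 - c1 < -(c1 / 2) by linarith)] with n hn ⟨e1, e2, e3⟩ e4
    g ⟨hA, hop⟩
  have n1 : (1 : ℝ) ≤ n := by exact_mod_cast hn
  have n0 : (0 : ℝ) < n := by linarith
  have hJ : Z.tJ (β • Jmat n g) = β • Jmat n g := Z.L85.tJ_eq (by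
    rw [opn_smul, abs_of_pos h0]; nlinarith [opn_nonneg (Jmat n g)])
  have hq := jq_QJ (J := β • Jmat n g) (by rw [transpose_smul, Jmat_transpose])
    fun i => by simp [Jmat_diag]
  obtain ⟨-, -, g1, g2, -, g3⟩ := H n _ _ _ hn hq rfl
  rw [gibbsWeight_eq_ising] at hA ⊢
  rw [← hJ] at hA
  obtain ⟨ω, hω⟩ := g3 hA _ e1
  have hω := hω _ (rpow_nonneg n0.le (1 - c))
  have hs := sqrt_nonneg (n : ℝ)
  refine ⟨fun x => ((nrm_le_iff (by linarith)).1 (g1 x)).trans (by linarith), fun x y =>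
    (abs_sub _ _).trans ((add_le_add (g2 x) (g2 y)).trans (by nlinarith [sq_nonneg C])), ω, ?_⟩
  have he : exp (C * (c1 / 64 * log n / C)) / √n ≤ (n : ℝ) ^ (c / 64 - 1 / 2) := by
    rw [e2, sqrt_eq_rpow, ← rpow_sub n0]
    exact rpow_le_rpow_of_exponent_le n1 (by linarith)
  have hρ : exp (C * (c1 / 64 * log n / C)) * ((n : ℝ) ^ (1 - c) + 1) / n ≤
      2 * (n : ℝ) ^ (c1 / 64 - c1) := by
    have a1 : (n : ℝ) ^ (1 - c) ≤ (n : ℝ) ^ (1 - c1) := rpow_le_rpow_of_exponent_le n1 (by linarith)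
    have a2 : 1 ≤ (n : ℝ) ^ (1 - c1) := one_le_rpow n1 (by linarith)
    have a3 : (n : ℝ) ^ (c1 / 64 - c1) * n = (n : ℝ) ^ (c1 / 64) * (n : ℝ) ^ (1 - c1) := by
      rw [← rpow_add_one n0.ne', ← rpow_add n0]; congr 1; ring
    rw [e2, div_le_iff₀ n0, mul_assoc, a3]
    nlinarith [rpow_nonneg n0.le (c1 / 64)]
  have a4 : (n : ℝ) ^ (-c1) ≤ (n : ℝ) ^ (c1 / 64 - c1) :=
    rpow_le_rpow_of_exponent_le n1 (by linarith)
  nth_rw 1 [← hJ]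
  exact ⟨hω.odd, fun x i => (hω.sup x i).trans he, fun x => (hω.op x).trans he,
    fun v hv => (hω.cl v hv).trans (by linarith)⟩

/-- **S0230** for the family `KF` -/
theorem r30_KF (hO : Lm.OutStmt) (hS : S1.S1Out) (hE : EndF) (hP : K.PhiStmt) (hL : LimF KF)
    (hU : ∀ 𝒞 : Tw.Cls, (∀ m, 𝒞.C m = Tw.PV m) → SupF 𝒞 KF) : Top.R30 :=
  r30_top hO hS hE hL (rgF_KF hP) hU

end Crest.Agent.T157.TopZ

end
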