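import Crest.Agent.T157.LowC_85
import Crest.Agent.T157.ConcH_16
import Crest.Agent.T157.NrmS_84

/-!
# Row 157, block B, END: counting lemmas (helper55)

* `Sub P`: monotone subadditive set functions (`μ.real`, `mass w`);
* `Sub.cnt`, `Sub.cnt_abs`, `Sub.cnt_phi`: union bounds for the number of large coordinates;
* `SG P X c`: sub-Gaussian vectors; `sg_gauss`, `sg_gauss'`, `sg_at`;
* `win_cnt`, `win_phi`: small windows for independent Gaussian coordinates;
* `lip_cnt`: the Lipschitz count.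
-/

set_option autoImplicit false
set_option linter.all false

noncomputable section

namespace Crest.Agent.T157.Cnt

open MeasureTheory ProbabilityTheory Matrix Real Finset
open Crest.Agent.T157.E Crest.Agent.T157.SL
open Crest.Agent.T157.Eig (nrm nrm_nonneg nrm_sq nrm_mul_self dot_self_nonneg)

variable {Ω : Type*} {n : ℕ}

/-- monotone, subadditive, bounded by one -/
structure Sub (P : Set Ω → ℝ) : Prop where
  mono : ∀ A B, A ⊆ B → P A ≤ P B
  empty : P ∅ = 0
  union : ∀ A B, P (A ∪ B) ≤ P A + P B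
  one : ∀ A, P A ≤ 1

theorem sub_real [MeasurableSpace Ω] (μ : Measure Ω) [IsProbabilityMeasure μ] : Sub μ.real :=
  ⟨fun _ _ h => measureReal_mono h (measure_ne_top _ _), measureReal_empty,
    fun _ _ => measureReal_union_le _ _, fun _ => measureReal_le_one⟩

theorem mass_ind [Fintype Ω] (w : Ω → ℝ) (B : Set Ω) :
    mass w B = mean w (B.indicator fun _ => 1) := by
  classical
  rw [mass, mean, Finset.sum_filter]
  refine Finset.sum_congr rfl fun x _ => ?_
  by_cases h : x ∈ B <;> simp [h]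

theorem sub_mass [Fintype Ω] {w : Ω → ℝ} (hw : Wt w) : Sub (mass w) := by
  classical
  refine ⟨fun A B h => ?_, by simp [mass], fun A B => ?_, fun A => ?_⟩
  · rw [mass_ind, mass_ind]
    exact hw.mean_mono fun x => Set.indicator_le_indicator_of_subset h (fun _ => zero_le_one) x
  · rw [mass_ind, mass_ind, mass_ind, ← mean_add]
    refine hw.mean_mono fun x => ?_
    by_cases h1 : x ∈ A <;> by_cases h2 : x ∈ B <;> simp [h1, h2]
  · rw [mass_ind]
    refine hw.mean_le fun x => ?_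
    by_cases h1 : x ∈ A <;> simp [h1]

namespace Sub
variable {P : Set Ω → ℝ}


theorem bUnion (h : Sub P) {κ : Type*} (s : Finset κ) (A : κ → Set Ω) :
    P {ω | ∃ k ∈ s, ω ∈ A k} ≤ ∑ k ∈ s, P (A k) := by
  classical
  induction s using Finset.induction_on with
  | empty => simpa using h.empty.le
  | insert a s ha ih =>
    rw [sum_insert ha]
    refine (h.mono _ (A a ∪ {ω | ∃ k ∈ s, ω ∈ A k}) ?_).trans ((h.union _ _).trans (by linarith))
    rintro ω ⟨k, hk, hω⟩
    rcases mem_insert.1 hk with rfl | hk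
    · exact Or.inl hω
    · exact Or.inr ⟨k, hk, hω⟩

theorem bUnion_le (h : Sub P) {κ : Type*} (s : Finset κ) (A : κ → Set Ω) {q : ℝ}
    (hq : ∀ k ∈ s, P (A k) ≤ q) : P {ω | ∃ k ∈ s, ω ∈ A k} ≤ s.card * q :=
  (h.bUnion s A).trans (by simpa using sum_le_card_nsmul s _ q hq)

/-- union bound over the sets of `k` sites -/
theorem cnt (h : Sub P) (p : Fin n → Ω → Prop) [∀ j ω, Decidable (p j ω)] (k : ℕ) {q : ℝ}
    (hq : ∀ F : Finset (Fin n), F.card = k → P {ω | ∀ j ∈ F, p j ω} ≤ q) :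
    P {ω | k ≤ (univ.filter fun j => p j ω).card} ≤ n.choose k * q := by
  have := h.bUnion_le (powersetCard k (univ : Finset (Fin n))) (fun F => {ω | ∀ j ∈ F, p j ω})
    fun F hF => hq F (mem_powersetCard.1 hF).2
  rw [card_powersetCard, card_univ, Fintype.card_fin] at this
  refine (h.mono _ _ fun ω hω => ?_).trans this
  obtain ⟨F, hF, hc⟩ := exists_subset_card_eq hω
  exact ⟨F, mem_powersetCard.2 ⟨subset_univ _, hc⟩, fun j hj => (mem_filter.1 (hF hj)).2⟩

end Sub

/-- sign vectors -/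
def sgn (F t : Finset (Fin n)) : Fin n → ℝ := fun j => if j ∈ F then if j ∈ t then 1 else -1 else 0

theorem sgn_sq (F t : Finset (Fin n)) : sgn F t ⬝ᵥ sgn F t = F.card := by
  have : ∀ j, sgn F t j * sgn F t j = if j ∈ F then 1 else 0 := fun j => by
    unfold sgn; split_ifs <;> norm_num
  simp [dotProduct, this]

theorem sgn_dot (F : Finset (Fin n)) (X : Fin n → ℝ) :
    sgn F (F.filter fun j => 0 ≤ X j) ⬝ᵥ X = ∑ j ∈ F, |X j| := by
  have : ∀ j, sgn F (F.filter fun j => 0 ≤ X j) j * X j = if j ∈ F then |X j| else 0 := fun j => by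
    unfold sgn
    by_cases h1 : j ∈ F
    · by_cases h2 : 0 ≤ X j
      · simp [h1, h2, abs_of_nonneg h2]
      · simp [h1, h2, abs_of_neg (not_le.1 h2)]
    · simp [h1]
  simp [dotProduct, this]

theorem Sub.cnt_abs {P : Set Ω → ℝ} (h : Sub P) (X : Ω → Fin n → ℝ) (k : ℕ) {x q : ℝ}
    (hq : ∀ a : Fin n → ℝ, a ⬝ᵥ a = k → P {ω | k * x ≤ a ⬝ᵥ X ω} ≤ q) :
    P {ω | k ≤ (univ.filter fun j => x ≤ |X ω j|).card} ≤ n.choose k * (2 ^ k * q) := by
  refine h.cnt (fun j ω => x ≤ |X ω j|) k fun F hF => ?_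
  have := h.bUnion_le F.powerset (fun t => {ω | k * x ≤ sgn F t ⬝ᵥ X ω})
    fun t _ => hq _ (by rw [sgn_sq, hF])
  rw [card_powerset, hF] at this
  refine (h.mono _ _ fun ω hω => ?_).trans (by simpa using this)
  refine ⟨F.filter fun j => 0 ≤ X ω j, filter_subset _ _, ?_⟩
  show _ ≤ _
  rw [sgn_dot, ← hF]
  simpa using card_nsmul_le_sum F _ x hω

theorem choose_le {φ : ℝ} (hφ : 0 < φ) {k : ℕ} (hk : φ * n ≤ k) :
    (n.choose k : ℝ) ≤ exp (k * (1 + log (1 / φ))) := by
  have h1 : (n.choose k : ℝ) ≤ (n : ℝ) ^ k / k.factorial := Nat.choose_le_pow_div k n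
  have h2 : (k : ℝ) ^ k / k.factorial ≤ exp k := Real.pow_div_factorial_le_exp _ (by positivity) k
  have h3 : (n : ℝ) ^ k ≤ (1 / φ) ^ k * (k : ℝ) ^ k := by
    rw [← mul_pow]
    refine pow_le_pow_left₀ (by positivity) ?_ k
    rw [one_div, ← div_eq_inv_mul, le_div_iff₀ hφ]; linarith
  have h4 : exp (k * (1 + log (1 / φ))) = exp k * (1 / φ) ^ k := by
    rw [mul_add, mul_one, exp_add, exp_nat_mul, exp_log (by positivity)]
  have f0 : (0 : ℝ) < k.factorial := by positivity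
  rw [h4]
  calc (n.choose k : ℝ) ≤ (1 / φ) ^ k * (k : ℝ) ^ k / k.factorial :=
        h1.trans (div_le_div_of_nonneg_right h3 f0.le)
    _ = (1 / φ) ^ k * ((k : ℝ) ^ k / k.factorial) := by ring
    _ ≤ (1 / φ) ^ k * exp k := by gcongr
    _ = _ := by ring

/-- sub-Gaussian vectors with proxy `c` -/
def SG (P : Set Ω → ℝ) (X : Ω → Fin n → ℝ) (c : ℝ) : Prop :=
  ∀ (a : Fin n → ℝ) (v u : ℝ), a ⬝ᵥ a ≤ v → 0 < v → 0 ≤ u →
    P {ω | u ≤ a ⬝ᵥ X ω} ≤ exp (-u ^ 2 / (2 * c * v))

/-- **COUNT, tails**: at most `φ n` coordinates exceed `x` -/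
theorem SG.cnt_phi {P : Set Ω → ℝ} (h : Sub P) {X : Ω → Fin n → ℝ} {c x φ D : ℝ} (hX : SG P X c)
    (hc : 0 < c) (hx : 0 ≤ x) (hφ : 0 < φ) (hD : 0 ≤ D)
    (hxD : D + 2 + log (1 / φ) ≤ x ^ 2 / (2 * c)) :
    P {ω | φ * n ≤ (univ.filter fun j => x ≤ |X ω j|).card} ≤ exp (-(D * (φ * n))) := by
  set k := ⌈φ * n⌉₊ with hk
  have hk1 : φ * n ≤ k := Nat.le_ceil _
  rcases Nat.eq_zero_or_pos k with k0 | k0
  · have : φ * n = 0 := le_antisymm (by simpa [k0] using hk1) (by positivity)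
    simpa [this] using h.one _
  have kp : (0 : ℝ) < k := by exact_mod_cast k0
  have h1 := h.cnt_abs X k (x := x) (q := exp (-(k * (x ^ 2 / (2 * c))))) fun a ha =>
    (hX a k (k * x) ha.le kp (by positivity)).trans_eq (by congr 1; field_simp)
  refine (h.mono _ _ fun ω hω => ?_).trans (h1.trans ?_)
  · exact Nat.ceil_le.2 hω
  have h2 : (2 : ℝ) ^ k ≤ exp k := by
    rw [← mul_one (k : ℝ), exp_nat_mul]
    exact pow_le_pow_left₀ (by norm_num) (by linarith [add_one_le_exp (1 : ℝ)]) k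
  calc (n.choose k : ℝ) * (2 ^ k * exp (-(k * (x ^ 2 / (2 * c)))))
      ≤ exp (k * (1 + log (1 / φ))) * (exp k * exp (-(k * (x ^ 2 / (2 * c))))) := by
        gcongr; exact choose_le hφ hk1
    _ ≤ _ := by
        rw [← exp_add, ← exp_add]
        refine exp_le_exp.2 ?_
        nlinarith [mul_le_mul_of_nonneg_left hxD kp.le, mul_le_mul_of_nonneg_left hk1 hD]

theorem SG.mono {P : Set Ω → ℝ} {X : Ω → Fin n → ℝ} {c c' : ℝ} (hX : SG P X c) (hc : 0 < c)
    (h : c ≤ c') : SG P X c' := fun a v u ha hv hu => (hX a v u ha hv hu).trans (by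
  refine exp_le_exp.2 ?_
  rw [neg_div, neg_div]
  exact neg_le_neg (div_le_div_of_nonneg_left (sq_nonneg u) (by positivity) (by gcongr)))

variable {ι : Type*} [Fintype ι]

/-- `Rᵀ g`, in the words of the channel with features `R s` -/
theorem sg_gauss {R : Matrix ι (Fin n) ℝ} {c : ℝ} (hc : 0 < c)
    (hR : ∀ u, (R *ᵥ u) ⬝ᵥ (R *ᵥ u) ≤ c * (u ⬝ᵥ u)) :
    SG (Gs ι).real (fun g => g ᵥ* R) c := fun a v u ha hv hu => by
  have h1 : ∑ i, (R *ᵥ a) i ^ 2 ≤ c * v := by
    have := (hR a).trans (mul_le_mul_of_nonneg_left ha hc.le)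
    simpa [dotProduct, sq] using this
  have := (Conc.subG_lin (ι := ι) Conc.sg1_gauss (R *ᵥ a)
    (c := NNReal.mk (c * v) (by positivity)) h1).measure_ge_le hu
  refine le_trans (le_of_eq ?_) (this.trans_eq (by simp [mul_assoc]))
  congr 1; ext g
  simp only [Set.mem_setOf_eq]
  rw [dotProduct_comm a, ← dotProduct_mulVec, dotProduct_comm]

theorem sg_id : SG (Gs (Fin n)).real (fun g => g) 1 := by
  have := sg_gauss (R := (1 : Matrix (Fin n) (Fin n) ℝ)) one_pos fun u => by simp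
  simpa using this

theorem SG.smul {P : Set Ω → ℝ} {X : Ω → Fin n → ℝ} {c r : ℝ} (hX : SG P X c) (hr : r ≠ 0) :
    SG P (fun ω => r • X ω) (r ^ 2 * c) := fun a v u ha hv hu => by
  have := hX (r • a) (r ^ 2 * v) u (by
    rw [smul_dotProduct, dotProduct_smul, smul_eq_mul, smul_eq_mul, ← mul_assoc, ← sq]
    exact mul_le_mul_of_nonneg_left ha (sq_nonneg r)) (by positivity) hu
  simp only [smul_dotProduct, dotProduct_smul] at this ⊢
  exact this.trans_eq (by congr 1; ring)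

theorem mass_tail [Fintype Ω] {w F : Ω → ℝ} (hw : Wt w) {b u : ℝ} (hb : 0 < b) (hu : 0 ≤ u)
    (h : ∀ τ, 0 ≤ τ → mean w (fun x => exp (τ * F x)) ≤ exp (b * τ ^ 2 / 2)) :
    mass w {x | u ≤ F x} ≤ exp (-u ^ 2 / (2 * b)) := by
  have h1 := h (u / b) (by positivity)
  have h2 : mass w {x | u ≤ F x} ≤ mean w fun x => exp (-(u / b * u)) * exp (u / b * F x) := by
    rw [mass_ind]
    refine hw.mean_mono fun x => ?_
    by_cases hx : x ∈ {x | u ≤ F x}
    · rw [Set.indicator_of_mem hx, ← exp_add]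
      exact one_le_exp (by nlinarith [mul_le_mul_of_nonneg_left (show u ≤ F x from hx) (by positivity : 0 ≤ u / b)])
    · rw [Set.indicator_of_notMem hx]; positivity
  rw [mean_const_mul] at h2
  refine h2.trans ((mul_le_mul_of_nonneg_left h1 (exp_pos _).le).trans_eq ?_)
  rw [← exp_add]; congr 1; field_simp; ring


/-- even weights have no magnetisation -/
theorem mag_zero {w : Cube n → ℝ} (hs : ∀ x, w (fun i => !x i) = w x) : mag w = 0 := by
  ext i
  let e : Cube n ≃ Cube n := ⟨fun x i => !x i, fun x i => !x i, fun x => by simp, fun x => by simp⟩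
  have h1 : mean w (fun x => sv x i) = ∑ x, prob w (e x) * sv (e x) i :=
    (e.sum_comp fun x => prob w x * sv x i).symm
  have h2 : ∀ x, prob w (e x) * sv (e x) i = -(prob w x * sv x i) := fun x => by
    have : sv (e x) i = -sv x i := by
      show Crest.ProbabilityR.SpinGlassDynamics.spin (!x i) = -Crest.ProbabilityR.SpinGlassDynamics.spin (x i)
      cases x i <;> simp [Crest.ProbabilityR.SpinGlassDynamics.spin]
    have h3 : prob w (e x) = prob w x := by
      show w (fun i => !x i) / _ = _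
      rw [hs]; rfl
    rw [this, h3]; ring
  simp only [h2, sum_neg_distrib] at h1
  have h4 : mean w (fun x => sv x i) = ∑ x, prob w x * sv x i := rfl
  show mean w (fun x => sv x i) = 0
  linarith

theorem mag_ising_zero (J : Matrix (Fin n) (Fin n) ℝ) : mag (ising J 0) = 0 := mag_zero fun x => by
  have : sv (fun i => !x i) = -sv x := by
    ext i
    show Crest.ProbabilityR.SpinGlassDynamics.spin (!x i) = -Crest.ProbabilityR.SpinGlassDynamics.spin (x i)
    cases x i <;> simp [Crest.ProbabilityR.SpinGlassDynamics.spin]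
  simp [ising, this, mulVec_neg]

/-! ### small windows -/




/-! ### the Lipschitz count -/

/-- **COUNT, Lipschitz form**: `ψ j` are `(1/d)`-Lipschitz test functions -/
theorem lip_cnt {R : Matrix ι (Fin n) ℝ} {c d η : ℝ} (hc : 0 < c) (hd : 0 < d) (hη : 0 ≤ η)
    (hn : 0 < n) (hR : ∀ u, (u ᵥ* R) ⬝ᵥ (u ᵥ* R) ≤ c * (u ⬝ᵥ u)) (ψ : Fin n → ℝ → ℝ)
    (hψ : ∀ j s t, |ψ j s - ψ j t| ≤ |s - t| / d) :
    (Gs ι).real {g | η * n ≤ ∑ j, ψ j ((g ᵥ* R) j) - ∫ g, ∑ j, ψ j ((g ᵥ* R) j) ∂Gs ι} ≤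
      exp (-(η ^ 2 * d ^ 2 * n / (2 * c))) := by
  have n0 : (0 : ℝ) < n := by exact_mod_cast hn
  have hL : Conc.ELip (√(c * n) / d) fun g : ι → ℝ => ∑ j, ψ j ((g ᵥ* R) j) := fun x y => by
    rw [← sum_sub_distrib]
    have h1 : ∑ j, |((x - y) ᵥ* R) j| ≤ √(c * n) * Conc.en (x - y) := by
      refine (pow_le_pow_iff_left₀ (sum_nonneg fun _ _ => abs_nonneg _)
        (mul_nonneg (sqrt_nonneg _) (Conc.en_nonneg _)) two_ne_zero).1 ?_
      have h2 := sq_sum_le_card_mul_sum_sq (s := univ) (f := fun j => |((x - y) ᵥ* R) j|)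
      have h3 := hR (x - y)
      simp only [dotProduct, ← sq] at h3
      simp only [sq_abs, card_univ, Fintype.card_fin] at h2
      rw [mul_pow, sq_sqrt (by positivity), Conc.en_sq]
      nlinarith [mul_le_mul_of_nonneg_left h3 n0.le]
    calc _ ≤ ∑ j, |((x - y) ᵥ* R) j| / d := (abs_sum_le_sum_abs _ _).trans (sum_le_sum fun j _ => by
          rw [sub_vecMul]; exact hψ j _ _)
      _ = (∑ j, |((x - y) ᵥ* R) j|) / d := (sum_div _ _ _).symm
      _ ≤ √(c * n) * Conc.en (x - y) / d := by gcongr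
      _ = _ := by ring
  refine (Conc.tail_lip hL (t := η * n) (by positivity)).trans_eq ?_
  rw [div_pow, sq_sqrt (by positivity)]
  congr 1; field_simp

end Crest.Agent.T157.Cnt
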