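import Crest.Agent.T157.HdK_20

/-!
# Row 157, part B: two-point inequalities for the functional (U) with an untilted `e`-term (helper83)

`klr h k = KL(ν|μ)`, `ee h k = klr h k + klr k h = (k-h)(tanh k - tanh h)`.
-/

set_option autoImplicit false

noncomputable section

namespace Crest.Agent.T157.Ue

open Real Crest.Agent.T157.Hd

/-- symmetrised two-point entropy -/
def ee (h k : ℝ) : ℝ := (k - h) * (tanh k - tanh h)

/-- `sech²` -/
def sq2 (h : ℝ) : ℝ := 1 / cosh h ^ 2

lemma klr_add (h k : ℝ) : klr h k + klr k h = ee h k := by unfold klr ee; ring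

lemma sq2_pos (h : ℝ) : 0 < sq2 h := by unfold sq2; have := cosh_pos h; positivity

lemma sq2_eq (h : ℝ) : sq2 h = 1 - tanh h ^ 2 := by
  unfold sq2
  have := cosh_pos h
  rw [tanh_eq_sinh_div_cosh]; field_simp
  have := cosh_sq h; linarith

lemma sq2_le_one (h : ℝ) : sq2 h ≤ 1 := by rw [sq2_eq]; nlinarith [sq_nonneg (tanh h)]

lemma cosh_le_exp_mul (x y : ℝ) : cosh x ≤ exp |x - y| * cosh y := by
  rw [cosh_eq, cosh_eq]
  have h1 : exp x ≤ exp |x - y| * exp y := by
    rw [← exp_add]; exact exp_le_exp.2 (by linarith [le_abs_self (x - y)])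
  have h2 : exp (-x) ≤ exp |x - y| * exp (-y) := by
    rw [← exp_add]; exact exp_le_exp.2 (by linarith [neg_abs_le (x - y)])
  linarith

lemma sq2_le (x y : ℝ) : sq2 x ≤ exp (2 * |x - y|) * sq2 y := by
  unfold sq2
  have h := cosh_le_exp_mul y x
  rw [abs_sub_comm] at h
  have hx := cosh_pos x
  have hy := cosh_pos y
  have e : exp (2 * |x - y|) = exp |x - y| ^ 2 := by rw [← exp_nat_mul]; norm_num
  rw [e, mul_one_div, div_le_div_iff₀ (by positivity) (by positivity), one_mul, ← mul_pow]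
  exact pow_le_pow_left₀ hy.le h 2

/-- a function with `g k = 0`, `g' ≤ 0` left of `k` and `g' ≥ 0` right of `k` is nonnegative -/
lemma nonneg_of_deriv {g g' : ℝ → ℝ} {k : ℝ} (hd : ∀ x, HasDerivAt g (g' x) x) (h0 : g k = 0)
    {a b : ℝ} (h1 : ∀ x, a ≤ x → x ≤ k → g' x ≤ 0) (h2 : ∀ x, k ≤ x → x ≤ b → 0 ≤ g' x)
    {x : ℝ} (hxa : a ≤ x) (hxb : x ≤ b) : 0 ≤ g x := by
  have hc : Continuous g := continuous_iff_continuousAt.2 fun x => (hd x).continuousAt
  rcases le_total x k with hx | hx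
  · have : AntitoneOn g (Set.Icc x k) := by
      refine antitoneOn_of_deriv_nonpos (convex_Icc _ _) hc.continuousOn
        (fun y _ => (hd y).differentiableAt.differentiableWithinAt) fun y hy => ?_
      rw [interior_Icc] at hy
      rw [(hd y).deriv]; exact h1 y (hxa.trans hy.1.le) hy.2.le
    have := this ⟨le_rfl, hx⟩ ⟨hx, le_rfl⟩ hx
    linarith
  · have : MonotoneOn g (Set.Icc k x) := by
      refine monotoneOn_of_deriv_nonneg (convex_Icc _ _) hc.continuousOn
        (fun y _ => (hd y).differentiableAt.differentiableWithinAt) fun y hy => ?_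
      rw [interior_Icc] at hy
      rw [(hd y).deriv]; exact h2 y hy.1.le (hy.2.le.trans hxb)
    have := this ⟨le_rfl, hx⟩ ⟨hx, le_rfl⟩ hx
    linarith

lemma hd_klr_left (k x : ℝ) : HasDerivAt (fun h => klr h k) (tanh x - tanh k) x := by
  unfold klr
  have h := ((((hasDerivAt_id' x).const_sub k).mul_const (tanh k)).sub_const (log (cosh k))).add
    (hasDerivAt_logcosh x)
  exact h.congr_deriv (by ring)

lemma hd_klr_right (h x : ℝ) : HasDerivAt (fun k => klr h k) ((x - h) * sq2 x) x := by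
  unfold klr sq2
  have h1 := (((((hasDerivAt_id' x).sub_const h).mul (hasDerivAt_tanh' x))).sub
    (hasDerivAt_logcosh x)).add_const (log (cosh h))
  exact h1.congr_deriv (by ring)

lemma klr_self (h : ℝ) : klr h h = 0 := by unfold klr; ring

/-- Pinsker -/
theorem pinsker (h k : ℝ) : (tanh k - tanh h) ^ 2 / 2 ≤ klr h k := by
  have hd : ∀ x, HasDerivAt (fun h => klr h k - (tanh k - tanh h) ^ 2 / 2)
      ((tanh x - tanh k) * tanh x ^ 2) x := fun x => by
    have h1 := (hd_klr_left k x).sub ((((hasDerivAt_tanh' x).const_sub (tanh k)).pow 2).div_const 2)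
    refine h1.congr_deriv ?_
    have := sq2_eq x
    unfold sq2 at this
    rw [this]; simp; ring
  have := nonneg_of_deriv (k := k) hd (by simp [klr_self]) (a := min h k) (b := max h k)
    (fun x _ hx => mul_nonpos_of_nonpos_of_nonneg (by linarith [tanh_mono hx]) (sq_nonneg _))
    (fun x hx _ => mul_nonneg (by linarith [tanh_mono hx]) (sq_nonneg _))
    (min_le_left _ _) (le_max_left _ _)
  linarith

lemma klr_nonneg (h k : ℝ) : 0 ≤ klr h k := le_trans (by positivity) (pinsker h k)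

lemma pinsker' (h k : ℝ) : (tanh k - tanh h) ^ 2 / 2 ≤ klr k h := by
  have := pinsker k h
  rwa [show (tanh h - tanh k) ^ 2 = (tanh k - tanh h) ^ 2 by ring] at this

lemma ee_nonneg (h k : ℝ) : 0 ≤ ee h k := by
  rw [← klr_add]; exact add_nonneg (klr_nonneg _ _) (klr_nonneg _ _)

lemma sq_le_ee (h k : ℝ) : (tanh k - tanh h) ^ 2 ≤ ee h k := by
  rw [← klr_add]; linarith [pinsker h k, pinsker' h k]


lemma ee_eq_abs (h k : ℝ) : ee h k = |k - h| * |tanh k - tanh h| := by
  rw [← abs_mul]; exact (abs_of_nonneg (ee_nonneg h k)).symm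

/-- upper bound of `klr` by a bound of `sech²` on the segment -/
lemma klr_le_of {h k c : ℝ} (hc : ∀ x, min h k ≤ x → x ≤ max h k → sq2 x ≤ c) :
    klr h k ≤ c * (k - h) ^ 2 / 2 := by
  have hd : ∀ x, HasDerivAt (fun k => c * (k - h) ^ 2 / 2 - klr h k) ((x - h) * (c - sq2 x)) x :=
    fun x => by
      have h1 := (((((hasDerivAt_id' x).sub_const h).pow 2).const_mul c).div_const 2).sub
        (hd_klr_right h x)
      refine h1.congr_deriv ?_
      simp; ring
  have := nonneg_of_deriv (k := h) hd (by simp [klr_self]) (a := min h k) (b := max h k)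
    (fun x hx hx' => mul_nonpos_of_nonpos_of_nonneg (by linarith)
      (by linarith [hc x hx (hx'.trans (le_max_left _ _))]))
    (fun x hx hx' => mul_nonneg (by linarith)
      (by linarith [hc x ((min_le_left _ _).trans hx) hx']))
    (min_le_right _ _) (le_max_right _ _)
  linarith

/-- lower bound of `klr` by a bound of `sech²` on the segment -/
lemma le_klr_of {h k c : ℝ} (hc : ∀ x, min h k ≤ x → x ≤ max h k → c ≤ sq2 x) :
    c * (k - h) ^ 2 / 2 ≤ klr h k := by
  have hd : ∀ x, HasDerivAt (fun k => klr h k - c * (k - h) ^ 2 / 2) ((x - h) * (sq2 x - c)) x :=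
    fun x => by
      have h1 := (hd_klr_right h x).sub
        (((((hasDerivAt_id' x).sub_const h).pow 2).const_mul c).div_const 2)
      refine h1.congr_deriv ?_
      simp; ring
  have := nonneg_of_deriv (k := h) hd (by simp [klr_self]) (a := min h k) (b := max h k)
    (fun x hx hx' => mul_nonpos_of_nonpos_of_nonneg (by linarith)
      (by linarith [hc x hx (hx'.trans (le_max_left _ _))]))
    (fun x hx hx' => mul_nonneg (by linarith)
      (by linarith [hc x ((min_le_left _ _).trans hx) hx']))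
    (min_le_right _ _) (le_max_right _ _)
  linarith

lemma abs_le_of_seg {h k x : ℝ} (h1 : min h k ≤ x) (h2 : x ≤ max h k) :
    |x - h| ≤ |k - h| ∧ |x - k| ≤ |k - h| := by
  rcases le_total h k with hk | hk
  · rw [min_eq_left hk] at h1; rw [max_eq_right hk] at h2
    rw [abs_of_nonneg (by linarith : 0 ≤ k - h), abs_le, abs_le]
    exact ⟨⟨by linarith, by linarith⟩, by linarith, by linarith⟩
  · rw [min_eq_right hk] at h1; rw [max_eq_left hk] at h2
    rw [abs_of_nonpos (by linarith : k - h ≤ 0), abs_le, abs_le]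
    exact ⟨⟨by linarith, by linarith⟩, by linarith, by linarith⟩

lemma klr_le_sq (h k : ℝ) : klr h k ≤ (k - h) ^ 2 / 2 := by
  simpa using klr_le_of (h := h) (k := k) (c := 1) fun x _ _ => sq2_le_one x

lemma klr_le_sq2 (h k : ℝ) : klr h k ≤ exp (2 * |k - h|) * sq2 k * (k - h) ^ 2 / 2 :=
  klr_le_of fun x h1 h2 => (sq2_le x k).trans (mul_le_mul_of_nonneg_right
    (exp_le_exp.2 (by linarith [(abs_le_of_seg h1 h2).2])) (sq2_pos k).le)

lemma klr_le_sq2' (h k : ℝ) : klr h k ≤ exp (2 * |k - h|) * sq2 h * (k - h) ^ 2 / 2 :=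
  klr_le_of fun x h1 h2 => (sq2_le x h).trans (mul_le_mul_of_nonneg_right
    (exp_le_exp.2 (by linarith [(abs_le_of_seg h1 h2).1])) (sq2_pos h).le)

lemma le_sq2 (x y : ℝ) {d : ℝ} (hd : |x - y| ≤ d) : exp (-(2 * d)) * sq2 y ≤ sq2 x := by
  have h := sq2_le y x
  rw [abs_sub_comm] at h
  have h2 : exp (2 * |x - y|) ≤ exp (2 * d) := exp_le_exp.2 (by linarith)
  have h3 : sq2 y ≤ exp (2 * d) * sq2 x := h.trans (mul_le_mul_of_nonneg_right h2 (sq2_pos x).le)
  calc exp (-(2 * d)) * sq2 y ≤ exp (-(2 * d)) * (exp (2 * d) * sq2 x) :=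
        mul_le_mul_of_nonneg_left h3 (exp_pos _).le
    _ = sq2 x := by rw [← mul_assoc, ← exp_add]; simp

lemma sq2_le_klr (h k : ℝ) : exp (-(2 * |k - h|)) * sq2 h * (k - h) ^ 2 / 2 ≤ klr h k :=
  le_klr_of fun x h1 h2 => le_sq2 x h (abs_le_of_seg h1 h2).1

lemma sq2_le_klr' (h k : ℝ) : exp (-(2 * |k - h|)) * sq2 k * (k - h) ^ 2 / 2 ≤ klr h k :=
  le_klr_of fun x h1 h2 => le_sq2 x k (abs_le_of_seg h1 h2).2

/-- QUIET edges: the reverse entropy is almost the entropy -/
theorem quiet {h k η : ℝ} (hη : |k - h| ≤ η) : exp (-(4 * η)) * klr h k ≤ klr k h := by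
  have h1 := klr_le_sq2' h k
  have h2 := sq2_le_klr' k h
  rw [abs_sub_comm h k, show (h - k) ^ 2 = (k - h) ^ 2 by ring] at h2
  have h3 : exp (-(4 * η)) * exp (2 * |k - h|) ≤ exp (-(2 * |k - h|)) := by
    rw [← exp_add]; exact exp_le_exp.2 (by linarith)
  have h4 : 0 ≤ sq2 h * (k - h) ^ 2 / 2 := by have := sq2_pos h; positivity
  calc exp (-(4 * η)) * klr h k
      ≤ exp (-(4 * η)) * (exp (2 * |k - h|) * sq2 h * (k - h) ^ 2 / 2) :=
        mul_le_mul_of_nonneg_left h1 (exp_pos _).le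
    _ = exp (-(4 * η)) * exp (2 * |k - h|) * (sq2 h * (k - h) ^ 2 / 2) := by ring
    _ ≤ exp (-(2 * |k - h|)) * (sq2 h * (k - h) ^ 2 / 2) := mul_le_mul_of_nonneg_right h3 h4
    _ = exp (-(2 * |k - h|)) * sq2 h * (k - h) ^ 2 / 2 := by ring
    _ ≤ _ := h2

theorem quiet_ee {h k η : ℝ} (hη : |k - h| ≤ η) : 2 * (1 - 2 * η) * klr h k ≤ ee h k := by
  have h1 := quiet hη
  have h2 : 1 - 4 * η ≤ exp (-(4 * η)) := by linarith [add_one_le_exp (-(4 * η))]
  have h3 := mul_le_mul_of_nonneg_right h2 (klr_nonneg h k)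
  rw [← klr_add]; linarith

lemma ee_mono {h k k' : ℝ} (h1 : min h k ≤ k') (h2 : k' ≤ max h k) : ee h k' ≤ ee h k := by
  unfold ee
  rcases le_total h k with hk | hk
  · rw [min_eq_left hk] at h1; rw [max_eq_right hk] at h2
    exact mul_le_mul (by linarith) (by linarith [tanh_mono h2]) (by linarith [tanh_mono h1])
      (by linarith)
  · rw [min_eq_right hk] at h1; rw [max_eq_left hk] at h2
    have := mul_le_mul (by linarith : h - k' ≤ h - k)
      (by linarith [tanh_mono h1] : tanh h - tanh k' ≤ tanh h - tanh k)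
      (by linarith [tanh_mono h2]) (by linarith)
    linarith

/-- LOUD edges: the conditional variance of the reference is paid by `e` -/
theorem loud {h k η : ℝ} (h0 : 0 ≤ η) (hη : η ≤ |k - h|) :
    exp (-(2 * η)) * η ^ 2 * sq2 h ≤ ee h k := by
  obtain ⟨k', hk1, hk2, hk3⟩ : ∃ k', min h k ≤ k' ∧ k' ≤ max h k ∧ |k' - h| = η := by
    rcases le_total h k with hk | hk
    · rw [abs_of_nonneg (by linarith)] at hη
      refine ⟨h + η, ?_, ?_, by simp [abs_of_nonneg h0]⟩
      · rw [min_eq_left hk]; linarith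
      · rw [max_eq_right hk]; linarith
    · rw [abs_of_nonpos (by linarith)] at hη
      refine ⟨h - η, ?_, ?_, by simp [abs_of_nonneg h0]⟩
      · rw [min_eq_right hk]; linarith
      · rw [max_eq_left hk]; linarith
  refine le_trans ?_ (ee_mono hk1 hk2)
  have a1 := sq2_le_klr h k'
  have a2 := sq2_le_klr' k' h
  have e1 : (k' - h) ^ 2 = η ^ 2 := by rw [← hk3, sq_abs]
  have e2 : (h - k') ^ 2 = η ^ 2 := by rw [← e1]; ring
  rw [hk3, e1] at a1
  rw [abs_sub_comm, hk3, e2] at a2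
  rw [← klr_add]; linarith

/-- three-point identity -/
lemma klr_three (p h k : ℝ) : klr p k = klr h k + (h - p) * (tanh k - tanh h) + klr p h := by
  unfold klr; ring

lemma abs_tanh_sub_le (x y : ℝ) : |tanh x - tanh y| ≤ |x - y| := by
  have h1 := sq_le_ee y x
  rw [ee_eq_abs, ← sq_abs] at h1
  by_contra hc
  push Not at hc
  have : 0 < |tanh x - tanh y| := (abs_nonneg _).trans_lt hc
  nlinarith

lemma abs_tanh_sub_le2 (x y : ℝ) : |tanh x - tanh y| ≤ exp (2 * |x - y|) * sq2 y * |x - y| := by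
  have a1 := klr_le_sq2 x y
  have a2 := klr_le_sq2' y x
  rw [abs_sub_comm y x, show (y - x) ^ 2 = |x - y| ^ 2 by rw [sq_abs]; ring] at a1
  rw [← sq_abs (x - y)] at a2
  have h1 : |x - y| * |tanh x - tanh y| ≤ |x - y| * (exp (2 * |x - y|) * sq2 y * |x - y|) := by
    rw [← ee_eq_abs, ← klr_add]; nlinarith
  rcases (abs_nonneg (x - y)).eq_or_lt with h0 | h0
  · have : x = y := by have := abs_eq_zero.1 h0.symm; linarith
    subst this; simp
  · exact le_of_mul_le_mul_left h1 h0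

/-- change of the reference, arbitrary shift -/
theorem klr_shift (p h k : ℝ) :
    klr p k ≤ klr h k + |h - p| * |tanh k - tanh h| + (h - p) ^ 2 / 2 := by
  rw [klr_three p h k, ← abs_mul]
  linarith [le_abs_self ((h - p) * (tanh k - tanh h)), klr_le_sq p h]

/-- change of the reference on a loud edge, small shift: multiplicative -/
theorem klr_shift_loud {p h k η ρ : ℝ} (h0 : 0 < η) (h1 : η ≤ 1) (hη : η ≤ |k - h|) (hρ0 : 0 ≤ ρ)
    (hρ1 : ρ ≤ 1) (hτ : |h - p| ≤ ρ * η) : klr p k ≤ klr h k + (ρ + exp 4 * ρ ^ 2) * ee h k := by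
  have b1 : |h - p| * |tanh k - tanh h| ≤ ρ * ee h k := by
    rw [ee_eq_abs, ← mul_assoc]
    exact mul_le_mul_of_nonneg_right (hτ.trans (mul_le_mul_of_nonneg_left hη hρ0)) (abs_nonneg _)
  have b2 := klr_le_sq2 p h
  have b3 := loud h0.le hη
  have t1 : |h - p| ≤ 1 := hτ.trans (by nlinarith)
  have t2 : (h - p) ^ 2 ≤ ρ ^ 2 * η ^ 2 := by
    rw [← sq_abs, ← mul_pow]; exact pow_le_pow_left₀ (abs_nonneg _) hτ 2
  have t3 : exp (2 * |h - p|) ≤ exp 4 * exp (-(2 * η)) := by
    rw [← exp_add]; exact exp_le_exp.2 (by linarith)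
  have hs := sq2_pos h
  have b4 : klr p h ≤ exp 4 * ρ ^ 2 * ee h k := by
    calc klr p h ≤ exp (2 * |h - p|) * sq2 h * (h - p) ^ 2 / 2 := b2
      _ ≤ exp (2 * |h - p|) * sq2 h * (h - p) ^ 2 := by
          have : 0 ≤ exp (2 * |h - p|) * sq2 h * (h - p) ^ 2 := by positivity
          linarith
      _ ≤ exp 4 * exp (-(2 * η)) * sq2 h * (ρ ^ 2 * η ^ 2) := by gcongr
      _ = exp 4 * ρ ^ 2 * (exp (-(2 * η)) * η ^ 2 * sq2 h) := by ring
      _ ≤ _ := mul_le_mul_of_nonneg_left b3 (by positivity)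
  rw [klr_three p h k]
  have := le_abs_self ((h - p) * (tanh k - tanh h))
  rw [abs_mul] at this
  linarith

/-- the weight of the entropy on loud edges -/
def th (a : ℝ) : ℝ := max (2 * a - 1) 0

lemma th_nonneg (a : ℝ) : 0 ≤ th a := le_max_right _ _

lemma th_le_one {a : ℝ} (ha : a ≤ 1) : th a ≤ 1 := max_le (by linarith) zero_le_one

lemma th_eq_zero {a : ℝ} (ha : a ≤ 1 / 2) : th a = 0 := max_eq_right (by linarith)

/-- LEVEL 0 on a loud edge: `e ≥ 2θ kl + (1-θ) e - θ (kl - rev)₊` -/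
theorem level0 {θ : ℝ} (hθ : 0 ≤ θ) (h k : ℝ) :
    2 * (θ * klr h k + (1 - θ) / 2 * ee h k) - θ * max (klr h k - klr k h) 0 ≤ ee h k := by
  have := mul_le_mul_of_nonneg_left (le_max_left (klr h k - klr k h) 0) hθ
  rw [← klr_add] at *
  linarith

/-- (U), untilted: `θ kl + (1-θ)/2 e ≥ a' kl + (1-a')/2 u²` -/
theorem U0 {a' : ℝ} (ha1 : a' ≤ 1) (h k : ℝ) :
    a' * klr h k + (1 - a') / 2 * (tanh k - tanh h) ^ 2 ≤
      th a' * klr h k + (1 - th a') / 2 * ee h k := by
  have p1 := pinsker h k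
  have p2 := pinsker' h k
  rw [← klr_add]
  rcases le_total (1 / 2) a' with h2 | h2
  · rw [show th a' = 2 * a' - 1 from max_eq_left (by linarith)]
    nlinarith
  · rw [th_eq_zero h2]
    nlinarith

lemma sq_shift {κ u d τ : ℝ} (hκ : 0 < κ) (hd : d ^ 2 ≤ τ ^ 2) :
    (1 - κ) * (u + d) ^ 2 - 1 / κ * τ ^ 2 ≤ u ^ 2 := by
  have hi : 0 < 1 / κ := by positivity
  have h1 : 0 ≤ 1 / κ * (κ * (u + d) - d) ^ 2 := by positivity
  have h2 : 1 / κ * (κ * (u + d) - d) ^ 2 =
      κ * (u + d) ^ 2 - 2 * (u + d) * d + 1 / κ * d ^ 2 := by field_simp; ring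
  have h3 := mul_le_mul_of_nonneg_left hd hi.le
  have h4 : u ^ 2 = (u + d) ^ 2 - 2 * (u + d) * d + d ^ 2 := by ring
  have h5 := sq_nonneg d
  linarith

lemma amgm_abs {κ u τ : ℝ} (hκ : 0 < κ) : |τ| * |u| ≤ κ * u ^ 2 / 2 + 1 / κ * τ ^ 2 / 2 := by
  have h1 : 0 ≤ 1 / κ * (κ * |u| - |τ|) ^ 2 := by positivity
  have h2 : 1 / κ * (κ * |u| - |τ|) ^ 2 =
      κ * |u| ^ 2 - 2 * (|τ| * |u|) + 1 / κ * |τ| ^ 2 := by field_simp; ring
  rw [h2, sq_abs, sq_abs] at h1; linarith








end Crest.Agent.T157.Ue
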