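import Crest.Agent.T157.S3Def_69
import Crest.Agent.T157.Xtr_25
import Crest.Agent.T157.UeA_83

/-!
# Row 157, part B, block S1 (helper25): the mismatch functional is two-sided Lipschitz
-/

set_option autoImplicit false
set_option linter.unusedVariables false

noncomputable section

namespace Crest.Agent.T157.S1.F25

open Matrix Finset Real
open Crest.Agent.T157.E (Cube sv prob)
open Crest.Agent.T157.Rec (fl grad)
open Crest.Agent.T157.Eig
open Crest.Agent.T157.S3 (V Mx hf Rg TS)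
open Crest.Agent.T157.S3F (jac hsJ)
open Crest.Agent.T157.S3.Rg (fro fl_eq nrm_mono nrm_colsum fro_rows fro_le_of_sq nrm_sq')
open Crest.Agent.T157.Xt
open Crest.Agent.T157.Ue (abs_tanh_sub_le)
open Crest.Agent.T157.Da.Gr (hasDerivAt_tanh)

lemma mvt {f f' : ℝ → ℝ} (hf : ∀ x, HasDerivAt f (f' x) x) {b C : ℝ}
    (h : ∀ t, |t| ≤ |b| → |f' t| ≤ C) : |f b - f 0| ≤ C * |b| := by
  simpa using (convex_uIcc (0 : ℝ) b).norm_image_sub_le_of_norm_hasDerivWithin_le (C := C)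
    (fun t _ => (hf t).hasDerivWithinAt) (fun t ht => h t (by
      simpa using Set.abs_sub_left_of_mem_uIcc ht)) Set.left_mem_uIcc Set.right_mem_uIcc

lemma abs_tanh (x : ℝ) : |tanh x| ≤ 1 := abs_le.2 ⟨(neg_one_lt_tanh x).le, (tanh_lt_one x).le⟩

lemma sq_lip (x y : ℝ) : |tanh x ^ 2 - tanh y ^ 2| ≤ 2 * |x - y| := by
  rw [sq_sub_sq, abs_mul]
  exact mul_le_mul ((abs_add_le _ _).trans (by linarith [abs_tanh x, abs_tanh y]))
    (abs_tanh_sub_le _ _) (abs_nonneg _) zero_le_two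

lemma cub_lip (x y : ℝ) : |tanh x * (1 - tanh x ^ 2) - tanh y * (1 - tanh y ^ 2)| ≤ 2 * |x - y| := by
  rw [show tanh x * (1 - tanh x ^ 2) - tanh y * (1 - tanh y ^ 2) =
    (1 - (tanh x ^ 2 + tanh x * tanh y + tanh y ^ 2)) * (tanh x - tanh y) by ring, abs_mul]
  refine mul_le_mul (abs_le.2 ⟨?_, ?_⟩) (abs_tanh_sub_le _ _) (abs_nonneg _) zero_le_two
  · nlinarith [abs_le.1 (abs_tanh x), abs_le.1 (abs_tanh y), sq_nonneg (tanh x - tanh y)]
  · nlinarith [sq_nonneg (tanh x + tanh y), sq_nonneg (tanh x), sq_nonneg (tanh y)]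

lemma hd (x t : ℝ) : HasDerivAt (fun t => tanh (x + t)) (1 - tanh (x + t) ^ 2) t :=
  ((hasDerivAt_tanh (x + t)).comp t ((hasDerivAt_id' t).const_add x)).congr_deriv (mul_one _)

lemma tay1 (x ξ : ℝ) : |tanh (x + ξ) - tanh x - (1 - tanh x ^ 2) * ξ| ≤ 2 * ξ ^ 2 := by
  have := mvt (f := fun t => tanh (x + t) - (1 - tanh x ^ 2) * t) (b := ξ) (C := 2 * |ξ|)
    (fun t => ((hd x t).sub ((hasDerivAt_id' t).const_mul _)).congr_deriv
      (show _ = tanh x ^ 2 - tanh (x + t) ^ 2 by ring)) fun t ht => (sq_lip _ _).trans (by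
        rw [sub_add_cancel_left, abs_neg]; linarith)
  rw [mul_assoc, abs_mul_abs_self, ← sq, add_zero, mul_zero, sub_zero, sub_right_comm] at this
  exact this

lemma tay2 (x ξ : ℝ) :
    |tanh x ^ 2 - tanh (x + ξ) ^ 2 + 2 * (tanh x * (1 - tanh x ^ 2)) * ξ| ≤ 4 * ξ ^ 2 := by
  have := mvt (f := fun t => 2 * (tanh x * (1 - tanh x ^ 2)) * t - tanh (x + t) ^ 2) (b := ξ)
    (C := 4 * |ξ|) (fun t => (((hasDerivAt_id' t).const_mul _).sub ((hd x t).pow 2)).congr_deriv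
      (show _ = 2 * (tanh x * (1 - tanh x ^ 2) - tanh (x + t) * (1 - tanh (x + t) ^ 2)) by
        norm_num; ring)) fun t ht => by
      have := cub_lip x (x + t)
      rw [sub_add_cancel_left, abs_neg] at this
      rw [abs_mul, abs_two]; linarith
  rw [mul_assoc 4, abs_mul_abs_self, ← sq, add_zero] at this
  convert this using 2; ring

/-- the mismatch -/
def gg (h a : ℝ) : ℝ := tanh (h + a) - tanh h



lemma gg_tay (h a δ ε : ℝ) : |gg (h + δ) (a + ε) - gg h a - (tanh h ^ 2 - tanh (h + a) ^ 2) * δ -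
    (1 - tanh (h + a) ^ 2) * ε| ≤ 4 * δ ^ 2 * |a| + 2 * ε ^ 2 + 2 * |δ| * |ε| := by
  have h1 := mvt (f := fun t => tanh (h + δ + t) - tanh (h + t) + tanh (h + t) ^ 2 * δ) (b := a)
    (C := 4 * δ ^ 2) (fun t => (((hd _ t).sub (hd _ t)).add (((hd h t).pow 2).mul_const δ)).congr_deriv
      (show _ = tanh (h + t) ^ 2 - tanh (h + t + δ) ^ 2 +
        2 * (tanh (h + t) * (1 - tanh (h + t) ^ 2)) * δ by rw [add_right_comm h t]; norm_num [mul_assoc]))
    fun t _ => tay2 _ _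
  have h2 := tay1 (h + δ + a) ε
  have h3 : |(tanh (h + a) ^ 2 - tanh (h + δ + a) ^ 2) * ε| ≤ 2 * |δ| * |ε| := by
    have := sq_lip (h + a) (h + δ + a)
    rw [show h + a - (h + δ + a) = -δ by ring, abs_neg] at this
    rw [abs_mul]; exact mul_le_mul_of_nonneg_right this (abs_nonneg _)
  simp only [add_zero] at h1
  refine le_trans (le_of_eq ?_) ((abs_add_three _ _ _).trans (add_le_add_three h1 h2 h3))
  unfold gg; rw [← add_assoc]; congr 1; ring

variable {n : ℕ}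


/-- the functional `⟨c₁, Ω⟩` -/
def F1 (J : Mx n) (y0 d : V n) (A : Finset (Fin n)) (O Ω : Cube n → V n) (x : Cube n) : ℝ :=
  ∑ j ∈ A, (tanh (hf J y0 x j + d j + O x j) - tanh (hf J y0 x j)) * Ω x j

lemma jac_hf (J : Mx n) (y : V n) (x : Cube n) : jac (hf J y) x = J := by
  have := S3F.jac_add (fun x => J *ᵥ sv x) (fun _ => y) x
  rwa [S3F.jac_mulVec, S3F.jac_sv, S3F.jac_const, Matrix.mul_one, add_zero] at this



lemma lip2_of_ts {A : ℝ} {G : Cube n → ℝ} (h : TS A G) : Lip2 (√A) G := fun x =>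
  Real.le_sqrt_of_sq_le (by rw [nrm_sq']; exact h x)

section words
open Crest.Agent.T157.E (mean kl)
open Crest.Agent.T157.SL (Wt)
variable {w v p G : Cube n → ℝ} {K A : ℝ}



lemma xferE (h : H1 w K) (hw : ∀ x, 0 < w x) (hK : 0 < K) (hA : 0 ≤ A) (hG : TS A G) (hv : Wt v)
    (hp : Wt p) : (mean p fun x => G x ^ 2) ≤ 4 * (mean v fun x => G x ^ 2) +
      K * A * (32 * kl v w + 16 * kl p w + 18) := by
  have := h.xfer hw hK (lip2_of_ts hG) hv.isP hp.isP
  rwa [Real.sq_sqrt hA] at this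


end words

end Crest.Agent.T157.S1.F25

end
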