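import Crest.Agent.T157.TaA_40
import Crest.Agent.T157.SpJ_25
import Crest.Agent.T157.DaGr_82
import Crest.Agent.T157.EnDef_40
import Crest.Agent.T157.S1F1_25

-- ▼ part T157/EnKy_8
section

/-!
# Row 157, block B, END (helper8): resolvent of a heat bath, coupled maximum principle
-/

set_option autoImplicit false

noncomputable section

namespace Crest.Agent.T157.EnK

open Real Finset Function
open Crest.Agent.T157.E Crest.Agent.T157.SL Crest.Agent.T157.Ta
open Crest.Agent.T157.Rec (grad fl grad_eq)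

variable {n : ℕ} {C : Finset (Fin n)} {T : Fin n → Cube n → ℝ}

/-- flip rate -/
def pk (T : Fin n → Cube n → ℝ) (k : Fin n) (x : Cube n) : ℝ := (1 - sv x k * T k x) / 2

/-- heat bath on the sites of `C` with conditional means `T` -/
def Lg (C : Finset (Fin n)) (T : Fin n → Cube n → ℝ) (f : Cube n → ℝ) (x : Cube n) : ℝ :=
  ∑ k ∈ C, (T k x - sv x k) * grad f x k

theorem ss (x : Cube n) (i : Fin n) : sv x i * sv x i = 1 := spin_mul_self _

theorem abs_s (x : Cube n) (i : Fin n) : |sv x i| = 1 := by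
  rcases mul_self_eq_one_iff.1 (ss x i) with h | h <;> simp [h]

theorem val_fl (f : Cube n → ℝ) (x : Cube n) (k : Fin n) :
    f (fl x k) = f x - 2 * sv x k * grad f x k := by
  rw [grad_eq]; linear_combination (f x - f (fl x k)) * ss x k

theorem Lg_eq (f : Cube n → ℝ) (x : Cube n) :
    Lg C T f x = ∑ k ∈ C, pk T k x * (f (fl x k) - f x) :=
  sum_congr rfl fun k _ => by
    rw [val_fl f, pk]; linear_combination (-(T k x * grad f x k)) * ss x k

theorem pk_nonneg (h : ∀ k x, |T k x| ≤ 1) (k : Fin n) (x : Cube n) : 0 ≤ pk T k x := by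
  have := le_abs_self (sv x k * T k x)
  rw [abs_mul, abs_s, one_mul] at this
  rw [pk]; linarith [h k x]

theorem pk_le_one (h : ∀ k x, |T k x| ≤ 1) (k : Fin n) (x : Cube n) : pk T k x ≤ 1 := by
  have := neg_abs_le (sv x k * T k x)
  rw [abs_mul, abs_s, one_mul] at this
  rw [pk]; linarith [h k x]

theorem Lg_lin (f g : Cube n → ℝ) (a b : ℝ) (x : Cube n) :
    Lg C T (fun x => a * f x + b * g x) x = a * Lg C T f x + b * Lg C T g x := by
  simp only [Lg_eq, mul_sum, ← sum_add_distrib]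
  exact sum_congr rfl fun k _ => by ring

theorem Lg_sum {ι : Type*} (S : Finset ι) (f : ι → Cube n → ℝ) (x : Cube n) :
    Lg C T (fun x => ∑ j ∈ S, f j x) x = ∑ j ∈ S, Lg C T (f j) x := by
  simp only [Lg_eq, ← sum_sub_distrib, mul_sum]
  exact sum_comm

theorem Lg_max (h : ∀ k x, |T k x| ≤ 1) {f : Cube n → ℝ} {x : Cube n} (hx : ∀ z, f z ≤ f x) :
    Lg C T f x ≤ 0 := by
  rw [Lg_eq]
  exact sum_nonpos fun k _ => mul_nonpos_of_nonneg_of_nonpos (pk_nonneg h k x) (sub_nonpos.2 (hx _))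

theorem Lg_touch (h : ∀ k x, |T k x| ≤ 1) {f N : Cube n → ℝ} {r : ℝ} {x : Cube n}
    (h1 : ∀ z, f z ≤ r * N z) (h2 : f x = r * N x) : Lg C T f x ≤ r * Lg C T N x := by
  have := Lg_max (C := C) h (f := fun z => 1 * f z + -r * N z) (x := x) fun z => by
    linarith [h1 z]
  rw [Lg_lin] at this; linarith

theorem Lg_sq (f : Cube n → ℝ) (x : Cube n) : Lg C T (fun x => f x ^ 2) x =
    2 * f x * Lg C T f x + ∑ k ∈ C, pk T k x * (4 * grad f x k ^ 2) := by
  simp only [Lg_eq, mul_sum, ← sum_add_distrib]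
  refine sum_congr rfl fun k _ => ?_
  rw [val_fl f]
  linear_combination (4 * pk T k x * grad f x k ^ 2) * ss x k

/-! ### the resolvent -/

theorem res_le (h : ∀ k x, |T k x| ≤ 1) {η M : ℝ} (hη : 0 < η) {G : Cube n → ℝ}
    (hG : ∀ x, η * G x - Lg C T G x ≤ M) (x : Cube n) : η * G x ≤ M := by
  obtain ⟨z, -, hz⟩ := exists_max_image univ G univ_nonempty
  have := Lg_max (C := C) h fun y => hz y (mem_univ y)
  nlinarith [hG z, hz x (mem_univ x)]

theorem res_abs (h : ∀ k x, |T k x| ≤ 1) {η M : ℝ} (hη : 0 < η) {G : Cube n → ℝ}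
    (hG : ∀ x, |η * G x - Lg C T G x| ≤ M) (x : Cube n) : η * |G x| ≤ M := by
  have h1 := res_le h hη (fun x => (abs_le.1 (hG x)).2) x
  have h2 := res_le (C := C) h hη (G := fun x => -1 * G x + 0 * G x) (M := M) (fun x => by
    rw [Lg_lin]; linarith [(abs_le.1 (hG x)).1]) x
  rcases abs_cases (G x) with e | e <;> rw [e.1] <;> linarith

theorem exists_res (h : ∀ k x, |T k x| ≤ 1) {η : ℝ} (hη : 0 < η) (F : Cube n → ℝ) :
    ∃ G : Cube n → ℝ, ∀ x, η * G x - Lg C T G x = F x := by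
  let Φ : (Cube n → ℝ) →ₗ[ℝ] (Cube n → ℝ) :=
    { toFun := fun G x => η * G x - Lg C T G x
      map_add' := fun f g => funext fun x => by
        have := Lg_lin (C := C) (T := T) f g 1 1 x
        simp only [one_mul] at this
        rw [Pi.add_apply, Pi.add_apply, show f + g = fun x => f x + g x from rfl, this]; ring
      map_smul' := fun c f => funext fun x => by
        have := Lg_lin (C := C) (T := T) f f c 0 x
        simp only [zero_mul, add_zero] at this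
        rw [RingHom.id_apply, Pi.smul_apply, Pi.smul_apply, show c • f = fun x => c * f x from rfl,
          this, smul_eq_mul, smul_eq_mul]; ring }
  have hi : Injective Φ := (injective_iff_map_eq_zero Φ).2 fun G hG => funext fun x => by
    have := res_abs (C := C) h hη (G := G) (M := 0) (fun x => by
      rw [show η * G x - Lg C T G x = 0 from congrFun hG x, abs_zero]) x
    exact abs_nonpos_iff.1 (nonpos_of_mul_nonpos_right this hη |> fun e => e)
  obtain ⟨G, hG⟩ := LinearMap.injective_iff_surjective.1 hi F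
  exact ⟨G, congrFun hG⟩

/-- the exact identity -/
theorem ident {v F G : Cube n → ℝ} {η : ℝ} (hv : Wt v) (hG : ∀ x, η * G x - Lg C T G x = F x) :
    mean v F = η * mean v G + ∑ k ∈ C, mean v fun x => (Ta.cm v k x - T k x) * grad G x k := by
  have e : F = fun x => η * G x + ∑ k ∈ C, (sv x k - T k x) * grad G x k := funext fun x => by
    rw [← hG x, Lg, sub_eq_add_neg, ← sum_neg_distrib]
    exact congrArg _ (sum_congr rfl fun k _ => by ring)
  rw [e, mean_add, mean_const_mul, mean_sum]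
  refine congrArg _ (sum_congr rfl fun k _ => ?_)
  have := mean_cm hv (off_grad G k)
  simp only [sub_mul, mean_sub, mul_comm (sv _ k), mul_comm (Ta.cm v k _), this]

/-! ### commutation -/

theorem grad_mul (f g : Cube n → ℝ) (x : Cube n) (j : Fin n) :
    grad (fun x => f x * g x) x j = f x * grad g x j + grad f x j * g (fl x j) := by
  simp only [grad_eq]; ring

theorem grad_off {f : Cube n → ℝ} {j : Fin n} (h : OffAt j f) (x : Cube n) : grad f x j = 0 := by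
  rw [grad_eq, fl, h, sub_self, mul_zero, zero_div]

theorem grad_comm (G : Cube n → ℝ) (x : Cube n) (j k : Fin n) :
    grad (fun x => grad G x k) x j = grad (fun x => grad G x j) x k := by
  by_cases h : j = k
  · rw [h]
  simp only [grad, incr, update_comm h]; ring

theorem grad_sum {ι : Type*} (S : Finset ι) (f : ι → Cube n → ℝ) (x : Cube n) (j : Fin n) :
    grad (fun x => ∑ k ∈ S, f k x) x j = ∑ k ∈ S, grad (f k) x j := by
  simp only [grad_eq, ← sum_sub_distrib, mul_sum, sum_div]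

theorem grad_sv (x : Cube n) (j k : Fin n) : grad (fun x => sv x k) x j = if k = j then 1 else 0 := by
  split_ifs with h
  · subst h; simp [grad, incr, sv, Crest.ProbabilityR.SpinGlassDynamics.spin]
  · rw [grad_eq, Rec.sv_fl_ne x h, sub_self, mul_zero, zero_div]

theorem grad_Lg (G : Cube n → ℝ) (x : Cube n) {j : Fin n} (hj : j ∈ C) :
    grad (Lg C T G) x j = Lg C T (fun x => grad G x j) x - grad G x j +
      ∑ k ∈ C, grad (T k) x j * (grad G x k - 2 * sv x j * grad (fun x => grad G x j) x k) := by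
  have e : ∀ k, grad (fun x => (T k x - sv x k) * grad G x k) x j =
      (T k x - sv x k) * grad (fun x => grad G x j) x k - (if k = j then grad G x j else 0) +
        grad (T k) x j * (grad G x k - 2 * sv x j * grad (fun x => grad G x j) x k) := fun k => by
    rw [grad_mul, Rec.grad_sub, Pi.sub_apply, grad_sv, val_fl (fun x => grad G x k), grad_comm G x j k]
    split_ifs with h
    · subst h; rw [grad_off (off_grad G k)]; ring
    · ring
  rw [show Lg C T G = fun x => ∑ k ∈ C, (T k x - sv x k) * grad G x k from rfl, grad_sum]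
  simp only [e, sum_add_distrib, sum_sub_distrib, sum_ite_eq', if_pos hj]
  rfl

/-- the pointwise Bochner inequality -/
theorem boch (h : ∀ k x, |T k x| ≤ 1) {η : ℝ} (hη : 0 ≤ η) {G : Cube n → ℝ}
    {a : Fin n → ℝ} (hG : ∀ x, η * G x - Lg C T G x = ∑ k ∈ C, a k * T k x) (x : Cube n) {j : Fin n}
    (hj : j ∈ C) {ω : Fin n → ℝ} (ω0 : ∀ k ∈ C, 0 ≤ ω k)
    (hω : ∀ k ∈ C, grad (T k) x j ^ 2 ≤ ω k * pk T k x) (ω1 : ∑ k ∈ C, ω k ≤ 1 / 4) :
    3 / 2 * grad G x j ^ 2 - 4 * (∑ k ∈ C, grad (T k) x j * (a k + grad G x k)) ^ 2 ≤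
      Lg C T (fun x => grad G x j ^ 2) x := by
  have e0 : grad (fun x => η * G x - Lg C T G x) x j = ∑ k ∈ C, grad (T k) x j * a k := by
    rw [funext hG, grad_sum]
    exact sum_congr rfl fun k _ => by rw [Rec.grad_const_mul, Pi.smul_apply, smul_eq_mul, mul_comm]
  rw [Rec.grad_sub, Rec.grad_const_mul, Pi.sub_apply, Pi.smul_apply, smul_eq_mul, grad_Lg G x hj]
    at e0
  rw [Lg_sq]
  set V := grad G x j
  set H : Fin n → ℝ := fun k => grad (fun x => grad G x j) x k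
  set R := ∑ k ∈ C, grad (T k) x j * (a k + grad G x k) with hR
  have e1 : Lg C T (fun x => grad G x j) x =
      (1 + η) * V - R + ∑ k ∈ C, 2 * sv x j * grad (T k) x j * H k := by
    have : R - ∑ k ∈ C, 2 * sv x j * grad (T k) x j * H k = ∑ k ∈ C, grad (T k) x j * a k +
        ∑ k ∈ C, grad (T k) x j * (grad G x k - 2 * sv x j * H k) := by
      rw [hR, ← sum_sub_distrib, ← sum_add_distrib]
      exact sum_congr rfl fun k _ => by ring
    linarith
  have e2 : 0 ≤ ∑ k ∈ C, (2 * V * (2 * sv x j * grad (T k) x j * H k) + pk T k x * (4 * H k ^ 2) +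
      ω k * V ^ 2) := sum_nonneg fun k hk => by
    have p0 := pk_nonneg h k x
    have w0 := ω0 k hk
    have a1 : (2 * V * (2 * sv x j * grad (T k) x j * H k)) ^ 2 ≤
        (pk T k x * (4 * H k ^ 2) + ω k * V ^ 2) ^ 2 := by
      have b1 : (2 * V * (2 * sv x j * grad (T k) x j * H k)) ^ 2 =
          16 * (V * H k) ^ 2 * grad (T k) x j ^ 2 := by
        linear_combination (16 * (V * H k) ^ 2 * grad (T k) x j ^ 2) * ss x j
      rw [b1]
      nlinarith [mul_le_mul_of_nonneg_left (hω k hk) (sq_nonneg (V * H k)),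
        sq_nonneg (pk T k x * (4 * H k ^ 2) - ω k * V ^ 2)]
    linarith [(abs_le_of_sq_le_sq' a1 (by positivity)).1]
  rw [sum_add_distrib, sum_add_distrib, ← mul_sum, ← sum_mul] at e2
  rw [e1]
  nlinarith [mul_le_mul_of_nonneg_right ω1 (sq_nonneg V), sq_nonneg (V - 4 * R),
    mul_nonneg hη (sq_nonneg V)]

/-! ### the coupled maximum principle -/

/-- partial squared norm -/
def sq2 (B : Finset (Fin n)) (v : Fin n → ℝ) : ℝ := ∑ j ∈ B, v j ^ 2

/-- the hopping term -/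
def hop (C : Finset (Fin n)) (T : Fin n → Cube n → ℝ) (x : Cube n) (v : Fin n → ℝ) : Fin n → ℝ :=
  fun j => ∑ k ∈ C, grad (T k) x j * v k

/-- good points -/
structure Good (C : Finset (Fin n)) (T : Fin n → Cube n → ℝ) (m α β : ℝ) (x : Cube n) : Prop where
  noise : ∀ j ∈ C, ∃ ω : Fin n → ℝ, (∀ k ∈ C, 0 ≤ ω k) ∧
    (∀ k ∈ C, grad (T k) x j ^ 2 ≤ ω k * pk T k x) ∧ ∑ k ∈ C, ω k ≤ 1 / 4
  h1 : ∃ B ⊆ C, (B.card : ℝ) ≤ m ∧ ∀ v, sq2 C (hop C T x v) ≤ α * sq2 B v + β * sq2 C v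
  h2 : ∀ B ⊆ C, (B.card : ℝ) ≤ m → ∀ v, sq2 B (hop C T x v) ≤ β * sq2 C v

theorem sq2_nonneg (B : Finset (Fin n)) (v : Fin n → ℝ) : 0 ≤ sq2 B v := sum_nonneg fun _ _ => sq_nonneg _

theorem sq2_mono {B : Finset (Fin n)} (h : B ⊆ C) (v : Fin n → ℝ) : sq2 B v ≤ sq2 C v :=
  sum_le_sum_of_subset_of_nonneg h fun _ _ _ => sq_nonneg _

theorem sq2_add_le (B : Finset (Fin n)) (u v : Fin n → ℝ) :
    sq2 B (u + v) ≤ 2 * sq2 B u + 2 * sq2 B v := by
  simp only [sq2, mul_sum, ← sum_add_distrib, Pi.add_apply]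
  exact sum_le_sum fun j _ => by nlinarith [sq_nonneg (u j - v j)]

theorem boch_sum (h : ∀ k x, |T k x| ≤ 1) {η m α β : ℝ} (hη : 0 ≤ η) {G : Cube n → ℝ}
    {a : Fin n → ℝ} (hG : ∀ x, η * G x - Lg C T G x = ∑ k ∈ C, a k * T k x) {x : Cube n}
    (g : Good C T m α β x) {B : Finset (Fin n)} (hB : B ⊆ C) :
    3 / 2 * sq2 B (grad G x) - 4 * sq2 B (hop C T x (a + grad G x)) ≤
      Lg C T (fun x => sq2 B (grad G x)) x := by
  simp only [sq2]
  rw [Lg_sum, mul_sum, mul_sum, ← sum_sub_distrib]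
  refine sum_le_sum fun j hj => ?_
  obtain ⟨ω, w0, w1, w2⟩ := g.noise j (hB hj)
  exact boch h hη hG x (hB hj) w0 w1 w2

/-- crude bound -/
theorem crude (h : ∀ k x, |T k x| ≤ 1) {η : ℝ} (hη : 0 < η) {G : Cube n → ℝ} {a : Fin n → ℝ}
    (hG : ∀ x, η * G x - Lg C T G x = ∑ k ∈ C, a k * T k x) (x : Cube n) :
    η * |G x| ≤ √(n * sq2 C a) := by
  refine res_abs (C := C) h hη (fun x => ?_) x
  rw [hG]
  refine abs_le_sqrt ((sum_mul_sq_le_sq_mul_sq C a fun k => T k x).trans ?_)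
  rw [mul_comm]
  refine mul_le_mul_of_nonneg_right ?_ (sq2_nonneg C a)
  refine (sum_le_sum (g := fun _ => (1 : ℝ)) fun k _ => (sq_le_one_iff_abs_le_one _).2 (h k x)).trans ?_
  rw [sum_const, nsmul_eq_mul, mul_one]
  exact_mod_cast (card_le_univ C).trans_eq (Fintype.card_fin n)

theorem crude2 (h : ∀ k x, |T k x| ≤ 1) {η : ℝ} (hη : 0 < η) {G : Cube n → ℝ} {a : Fin n → ℝ}
    (hG : ∀ x, η * G x - Lg C T G x = ∑ k ∈ C, a k * T k x) (x : Cube n) :
    sq2 C (grad G x) ≤ n ^ 2 / η ^ 2 * sq2 C a := by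
  have a0 := sq2_nonneg C a
  have n0 : (0 : ℝ) ≤ n := n.cast_nonneg
  have h1 : ∀ j, η ^ 2 * grad G x j ^ 2 ≤ n * sq2 C a := fun j => by
    have b1 := crude h hη hG x
    have b2 := crude h hη hG (fl x j)
    have b3 : η * |grad G x j| ≤ √(n * sq2 C a) := by
      rw [grad_eq, abs_div, abs_mul, abs_s, one_mul, abs_two]
      nlinarith [abs_sub (G x) (G (fl x j))]
    rw [← sq_sqrt (mul_nonneg n0 a0), ← sq_abs (grad G x j), ← mul_pow]
    exact pow_le_pow_left₀ (by positivity) b3 2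
  rw [div_mul_eq_mul_div, le_div_iff₀ (by positivity), sq2, sum_mul]
  refine (sum_le_sum (g := fun _ => n * sq2 C a) fun j _ => by rw [mul_comm]; exact h1 j).trans ?_
  rw [sum_const, nsmul_eq_mul]
  have : (C.card : ℝ) ≤ n := by exact_mod_cast (card_le_univ C).trans_eq (Fintype.card_fin n)
  nlinarith [mul_le_mul_of_nonneg_right this (mul_nonneg n0 a0)]

/-- **the coupled maximum principle** -/
theorem maxp (h : ∀ k x, |T k x| ≤ 1) {η m α β : ℝ} (hη : 0 < η) (hm : 0 ≤ m)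
    (α0 : 0 ≤ α) (β0 : 0 ≤ β) (β1 : 32 * β ≤ 1) (αβ : 256 * (α * β) ≤ 1) {G N : Cube n → ℝ}
    {a : Fin n → ℝ} (hG : ∀ x, η * G x - Lg C T G x = ∑ k ∈ C, a k * T k x) (N1 : ∀ x, 1 ≤ N x)
    (hN : ∀ x, (Good C T m α β x ∧ Lg C T N x ≤ N x / 2) ∨ (n : ℝ) ^ 2 / η ^ 2 ≤ β * N x)
    (x : Cube n) : sq2 C (grad G x) ≤ 20 * (α + β) * sq2 C a * N x ∧
      ∀ B ⊆ C, (B.card : ℝ) ≤ m → sq2 B (grad G x) ≤ 8 * β * (1 + 20 * (α + β)) * sq2 C a * N x := by
  classical
  have N0 : ∀ x, 0 < N x := fun x => one_pos.trans_le (N1 x)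
  have a0 := sq2_nonneg C a
  set A := sq2 C a with hA
  obtain ⟨x1, -, h1⟩ := exists_max_image univ (fun x => sq2 C (grad G x) / N x) univ_nonempty
  obtain ⟨⟨x2, B2⟩, hB2, h2⟩ := exists_max_image
    (univ ×ˢ C.powerset.filter fun B => (B.card : ℝ) ≤ m) (fun p => sq2 p.2 (grad G p.1) / N p.1)
    ⟨(x, ∅), by simpa using hm⟩
  simp only [mem_product, mem_univ, true_and, mem_filter, mem_powerset] at hB2 h2
  set r := sq2 C (grad G x1) / N x1 with hr
  set s := sq2 B2 (grad G x2) / N x2 with hs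
  have r0 : 0 ≤ r := div_nonneg (sq2_nonneg _ _) (N0 _).le
  have s0 : 0 ≤ s := div_nonneg (sq2_nonneg _ _) (N0 _).le
  have r1 : ∀ z, sq2 C (grad G z) ≤ r * N z := fun z => (div_le_iff₀ (N0 z)).1 (h1 z (mem_univ z))
  have s1 : ∀ z, ∀ B ⊆ C, (B.card : ℝ) ≤ m → sq2 B (grad G z) ≤ s * N z := fun z B hB hc =>
    (div_le_iff₀ (N0 z)).1 (h2 (z, B) ⟨hB, hc⟩)
  have r2 : sq2 C (grad G x1) = r * N x1 := (div_mul_cancel₀ _ (N0 x1).ne').symm
  have s2 : sq2 B2 (grad G x2) = s * N x2 := (div_mul_cancel₀ _ (N0 x2).ne').symm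
  have bad : ∀ z, (n : ℝ) ^ 2 / η ^ 2 ≤ β * N z → sq2 C (grad G z) ≤ β * A * N z := fun z hz =>
    (crude2 h hη hG z).trans ((mul_le_mul_of_nonneg_right hz a0).trans_eq (by ring))
  have k1 : r ≤ 8 * α * (A + s) + 8 * β * (A + r) := by
    refine le_of_mul_le_mul_right ?_ (N0 x1)
    have n1 := N1 x1
    have aN : A ≤ A * N x1 := le_mul_of_one_le_right a0 n1
    rcases hN x1 with ⟨g, hL⟩ | hb
    · obtain ⟨B, hB, hc, hh⟩ := g.h1
      have b1 := boch_sum h hη.le hG g subset_rfl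
      have b2 := Lg_touch (C := C) h r1 r2
      have b3 := hh (a + grad G x1)
      have b4 := mul_le_mul_of_nonneg_left ((sq2_add_le B a (grad G x1)).trans
        (add_le_add (mul_le_mul_of_nonneg_left ((sq2_mono hB a).trans aN) zero_le_two)
          (mul_le_mul_of_nonneg_left (s1 x1 B hB hc) zero_le_two))) α0
      have b5 := mul_le_mul_of_nonneg_left ((sq2_add_le C a (grad G x1)).trans
        (add_le_add (mul_le_mul_of_nonneg_left aN zero_le_two) le_rfl)) β0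
      have b6 := mul_le_mul_of_nonneg_left hL r0
      rw [r2] at b1 b5
      nlinarith
    · have := bad x1 hb
      rw [r2] at this
      have c1 : 0 ≤ α * (A + s) * N x1 := by have := N0 x1; positivity
      have c2 : 0 ≤ β * r * N x1 := by have := N0 x1; positivity
      have c3 : 0 ≤ β * A * N x1 := by have := N0 x1; positivity
      nlinarith
  have k2 : s ≤ 8 * β * (A + r) := by
    refine le_of_mul_le_mul_right ?_ (N0 x2)
    have n1 := N1 x2
    have aN : A ≤ A * N x2 := le_mul_of_one_le_right a0 n1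
    rcases hN x2 with ⟨g, hL⟩ | hb
    · have b1 := boch_sum h hη.le hG g hB2.1
      have b2 := Lg_touch (C := C) h (fun z => s1 z B2 hB2.1 hB2.2) s2
      have b3 := g.h2 B2 hB2.1 hB2.2 (a + grad G x2)
      have b5 := mul_le_mul_of_nonneg_left ((sq2_add_le C a (grad G x2)).trans
        (add_le_add (mul_le_mul_of_nonneg_left aN zero_le_two)
          (mul_le_mul_of_nonneg_left (r1 x2) zero_le_two))) β0
      have b6 := mul_le_mul_of_nonneg_left hL s0
      rw [s2] at b1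
      nlinarith
    · have := (sq2_mono hB2.1 _).trans (bad x2 hb)
      rw [s2] at this
      have c2 : 0 ≤ β * r * N x2 := by have := N0 x2; positivity
      have c3 : 0 ≤ β * A * N x2 := by have := N0 x2; positivity
      nlinarith
  have k3 : r ≤ 20 * (α + β) * A := by
    have b1 := mul_le_mul_of_nonneg_left k2 α0
    have b2 := mul_le_mul_of_nonneg_right β1 r0
    have b3 := mul_le_mul_of_nonneg_right αβ r0
    have b4 := mul_le_mul_of_nonneg_right β1 (mul_nonneg α0 a0)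
    nlinarith [mul_nonneg α0 a0, mul_nonneg β0 a0]
  refine ⟨(r1 x).trans (mul_le_mul_of_nonneg_right k3 (N0 x).le), fun B hB hc =>
    (s1 x B hB hc).trans (mul_le_mul_of_nonneg_right (k2.trans ?_) (N0 x).le)⟩
  nlinarith [mul_le_mul_of_nonneg_left k3 β0]

/-! ### the barrier -/

/-- Hamming distance on `C` -/
def dH (C : Finset (Fin n)) (s0 x : Cube n) : ℕ := (C.filter fun j => x j ≠ s0 j).card

theorem fl_self (x : Cube n) (k : Fin n) : fl x k k = !x k := by simp [fl]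

theorem fl_ne (x : Cube n) {j k : Fin n} (h : j ≠ k) : fl x k j = x j := by simp [fl, h]

theorem dH_agree {s0 x : Cube n} {k : Fin n} (hk : k ∈ C) (h : x k = s0 k) :
    dH C s0 (fl x k) = dH C s0 x + 1 := by
  rw [dH, dH, ← card_insert_of_notMem (a := k) (by simp [h])]
  congr 1
  ext j
  by_cases e : j = k
  · subst e; simp [fl_self, h, hk]
  · simp [fl_ne x e, e]

theorem dH_dis {s0 x : Cube n} {k : Fin n} (hk : k ∈ C) (h : x k ≠ s0 k) :
    dH C s0 (fl x k) + 1 = dH C s0 x := by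
  have e : fl (fl x k) k = x := by simp [fl]
  rw [← dH_agree hk (by rw [fl_self]; revert h; cases x k <;> cases s0 k <;> simp), e]

theorem dH_le (s0 x : Cube n) : dH C s0 x ≤ n :=
  (card_le_univ _).trans_eq (Fintype.card_fin n)

/-- the barrier -/
def bar (C : Finset (Fin n)) (s0 : Cube n) (d1 : ℕ) (K : ℝ) (x : Cube n) : ℝ :=
  1 + K * exp (((min (dH C s0 x) d1 : ℕ) : ℝ) - d1)

theorem one_le_bar (s0 : Cube n) (d1 : ℕ) {K : ℝ} (hK : 0 ≤ K) (x : Cube n) : 1 ≤ bar C s0 d1 K x :=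
  le_add_of_nonneg_right (mul_nonneg hK (exp_pos _).le)

theorem bar_far {s0 x : Cube n} {d1 : ℕ} (K : ℝ) (h : d1 ≤ dH C s0 x) : bar C s0 d1 K x = 1 + K := by
  rw [bar, min_eq_right h, sub_self, exp_zero, mul_one]

theorem bar_near {s0 x : Cube n} {d0 d1 : ℕ} {K : ℝ} (hK : 0 ≤ K) (h : dH C s0 x ≤ d0) :
    bar C s0 d1 K x ≤ 1 + K * exp ((d0 : ℝ) - d1) := by
  have : ((min (dH C s0 x) d1 : ℕ) : ℝ) ≤ d0 := by exact_mod_cast (min_le_left _ _).trans h
  rw [bar]; gcongr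

/-- the drift of the barrier -/
theorem Lg_bar (h : ∀ k x, |T k x| ≤ 1) {s0 x : Cube n} {d0 d1 : ℕ} {K : ℝ} (hK : 0 ≤ K)
    (hs : 4 * n * (K * exp ((d0 : ℝ) - d1)) ≤ 1) (hx : dH C s0 x < d1)
    (hd : d0 < dH C s0 x → 3 * ∑ k ∈ C.filter (fun k => x k = s0 k), pk T k x ≤
      ∑ k ∈ C.filter (fun k => x k ≠ s0 k), pk T k x) :
    Lg C T (bar C s0 d1 K) x ≤ bar C s0 d1 K x / 2 := by
  set E := K * exp ((dH C s0 x : ℝ) - d1) with hE
  have E0 : 0 ≤ E := mul_nonneg hK (exp_pos _).le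
  have b0 : bar C s0 d1 K x = 1 + E := by rw [bar, min_eq_left hx.le]
  have e1 : exp 1 ≤ 3 := by linarith [exp_one_lt_d9]
  have e2 : exp (-1) * exp 1 = 1 := by rw [← exp_add]; simp
  have e3 : 2 ≤ exp 1 := by linarith [exp_one_gt_d9]
  have e4 := exp_pos (-1)
  have b1 : ∀ k ∈ C.filter (fun k => x k = s0 k),
      pk T k x * (bar C s0 d1 K (fl x k) - bar C s0 d1 K x) = E * (exp 1 - 1) * pk T k x :=
    fun k hk => by
      rw [b0, bar, dH_agree (mem_filter.1 hk).1 (mem_filter.1 hk).2, min_eq_left hx, hE]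
      push_cast
      rw [show (dH C s0 x : ℝ) + 1 - d1 = dH C s0 x - d1 + 1 by ring, exp_add]; ring
  have b2 : ∀ k ∈ C.filter (fun k => ¬ x k = s0 k),
      pk T k x * (bar C s0 d1 K (fl x k) - bar C s0 d1 K x) = E * (exp (-1) - 1) * pk T k x :=
    fun k hk => by
      have d := dH_dis (mem_filter.1 hk).1 (mem_filter.1 hk).2
      rw [b0, bar, min_eq_left (by omega), hE, ← d]
      push_cast
      rw [show (dH C s0 (fl x k) : ℝ) - d1 = dH C s0 (fl x k) + 1 - d1 + -1 by ring, exp_add]; ring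
  rw [Lg_eq, ← sum_filter_add_sum_filter_not C fun k => x k = s0 k, sum_congr rfl b1,
    sum_congr rfl b2, ← mul_sum, ← mul_sum, b0]
  set P := ∑ k ∈ C.filter (fun k => x k = s0 k), pk T k x
  set Q := ∑ k ∈ C.filter (fun k => ¬ x k = s0 k), pk T k x
  have P0 : 0 ≤ P := sum_nonneg fun k _ => pk_nonneg h k x
  have Q0 : 0 ≤ Q := sum_nonneg fun k _ => pk_nonneg h k x
  have m1 : exp (-1) - 1 ≤ 0 := by nlinarith
  rcases lt_or_ge d0 (dH C s0 x) with c | c
  · have := hd c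
    have h1 : (exp 1 - 1) * P + (exp (-1) - 1) * Q ≤ 0 := by
      have k1 : (exp (-1) - 1) * Q ≤ (exp (-1) - 1) * (3 * P) := mul_le_mul_of_nonpos_left this m1
      have k2 : exp 1 - 1 + (exp (-1) - 1) * 3 ≤ 0 := by nlinarith
      nlinarith [mul_nonpos_of_nonpos_of_nonneg k2 P0]
    nlinarith [mul_nonpos_of_nonneg_of_nonpos E0 h1]
  · have P1 : P ≤ n := by
      refine (sum_le_sum (g := fun _ => (1 : ℝ)) fun k _ => pk_le_one h k x).trans ?_
      rw [sum_const, nsmul_eq_mul, mul_one]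
      exact_mod_cast (card_le_univ _).trans_eq (Fintype.card_fin n)
    have E1 : E ≤ K * exp ((d0 : ℝ) - d1) := by
      have : (dH C s0 x : ℝ) ≤ d0 := by exact_mod_cast c
      rw [hE]; gcongr
    have k1 : E * (exp (-1) - 1) * Q ≤ 0 :=
      mul_nonpos_of_nonpos_of_nonneg (mul_nonpos_of_nonneg_of_nonpos E0 m1) Q0
    have k2 : (exp 1 - 1) * P ≤ 2 * n := mul_le_mul (by linarith) P1 P0 zero_le_two
    have k3 := mul_le_mul E1 k2 (mul_nonneg (by linarith) P0) (E0.trans E1)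
    nlinarith

/-- the value along a monotone path -/
theorem tail {G : Cube n → ℝ} {s0 : Cube n} {d0 : ℕ} {b : ℝ}
    (hb : ∀ x, dH C s0 x ≤ d0 → ∀ j ∈ C, |grad G x j| ≤ b) :
    ∀ d ≤ d0, ∀ x, dH C s0 x = d → (∀ i ∉ C, x i = s0 i) → |G x - G s0| ≤ 2 * b * d := by
  intro d
  induction d with
  | zero =>
    intro _ x hx h
    have : x = s0 := funext fun i => by
      by_cases hi : i ∈ C
      · by_contra e
        have : i ∈ C.filter fun j => x j ≠ s0 j := mem_filter.2 ⟨hi, e⟩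
        rw [card_eq_zero.1 hx] at this
        exact notMem_empty i this
      · exact h i hi
    simp [this]
  | succ d ih =>
    intro hd x hx h
    obtain ⟨k, hk⟩ := card_pos.1 (show 0 < dH C s0 x by omega)
    obtain ⟨k1, k2⟩ := mem_filter.1 hk
    have e := dH_dis k1 k2
    have h1 := ih (by omega) (fl x k) (by omega) fun i hi => by
      rw [fl_ne x fun e : i = k => hi (e ▸ k1)]; exact h i hi
    have h2 := hb x (by omega) k k1
    have h3 : |G x - G (fl x k)| ≤ 2 * b := by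
      rw [val_fl G, sub_sub_cancel, abs_mul, abs_mul, abs_s, abs_two]; linarith
    have := abs_sub_le (G x) (G (fl x k)) (G s0)
    push_cast; linarith

/-- **KEY**, deterministic part: the gradient of the resolvent near the reference point -/
theorem key (h : ∀ k x, |T k x| ≤ 1) {η m α β : ℝ} (hη : 0 < η) (hm : 0 ≤ m) (α0 : 0 ≤ α)
    (β0 : 0 < β) (β1 : 32 * β ≤ 1) (αβ : 256 * (α * β) ≤ 1) {s0 : Cube n} {d0 d1 : ℕ}
    (hs : 4 * n * (n ^ 2 / η ^ 2 / β * exp ((d0 : ℝ) - d1)) ≤ 1) (hn : 0 < n)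
    (hg : ∀ x, dH C s0 x < d1 → Good C T m α β x ∧ (d0 < dH C s0 x →
      3 * ∑ k ∈ C.filter (fun k => x k = s0 k), pk T k x ≤
        ∑ k ∈ C.filter (fun k => x k ≠ s0 k), pk T k x)) (a : Fin n → ℝ) :
    ∃ G : Cube n → ℝ, (∀ x, η * G x - Lg C T G x = ∑ k ∈ C, a k * T k x) ∧
      (∀ x, η * |G x| ≤ √(n * sq2 C a)) ∧ (∀ x, sq2 C (grad G x) ≤ n ^ 2 / η ^ 2 * sq2 C a) ∧
      ∀ x, dH C s0 x ≤ d0 → sq2 C (grad G x) ≤ 40 * (α + β) * sq2 C a ∧
        (∀ B ⊆ C, (B.card : ℝ) ≤ m → sq2 B (grad G x) ≤ 16 * β * (1 + 20 * (α + β)) * sq2 C a) ∧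
        ((∀ i ∉ C, x i = s0 i) → |G x - G s0| ≤ 2 * √(40 * (α + β) * sq2 C a) * n) := by
  obtain ⟨G, hG⟩ := exists_res (C := C) h hη fun x => ∑ k ∈ C, a k * T k x
  have K0 : 0 ≤ (n : ℝ) ^ 2 / η ^ 2 / β := by positivity
  have a0 := sq2_nonneg C a
  have n1 : (1 : ℝ) ≤ n := by exact_mod_cast hn
  have mp := maxp h hη hm α0 β0.le β1 αβ hG (one_le_bar (C := C) s0 d1 K0) fun x => by
    rcases lt_or_ge (dH C s0 x) d1 with c | c
    · exact .inl ⟨(hg x c).1, Lg_bar h K0 hs c (hg x c).2⟩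
    · refine .inr ?_
      rw [bar_far _ c, mul_add, mul_div_cancel₀ _ β0.ne']; linarith
  have N2 : ∀ x, dH C s0 x ≤ d0 → bar C s0 d1 (n ^ 2 / η ^ 2 / β) x ≤ 2 := fun x hx => by
    have h1 := bar_near (d1 := d1) K0 hx
    have h2 : 0 ≤ (n : ℝ) ^ 2 / η ^ 2 / β * exp ((d0 : ℝ) - d1) := by positivity
    nlinarith
  have k1 : ∀ x, dH C s0 x ≤ d0 → sq2 C (grad G x) ≤ 40 * (α + β) * sq2 C a := fun x hx =>
    ((mp x).1.trans (mul_le_mul_of_nonneg_left (N2 x hx) (by positivity))).trans_eq (by ring)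
  refine ⟨G, hG, crude h hη hG, crude2 h hη hG, fun x hx => ⟨k1 x hx, fun B hB hc =>
    (((mp x).2 B hB hc).trans (mul_le_mul_of_nonneg_left (N2 x hx) (by positivity))).trans_eq
      (by ring), fun hx' => ?_⟩⟩
  refine (tail (b := √(40 * (α + β) * sq2 C a)) (fun z hz j hj => abs_le_sqrt
    ((single_le_sum (f := fun j => grad G z j ^ 2) (fun _ _ => sq_nonneg _) hj).trans (k1 z hz)))
    _ hx x rfl hx').trans ?_
  have : (dH C s0 x : ℝ) ≤ n := by exact_mod_cast dH_le s0 x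
  gcongr

end Crest.Agent.T157.EnK

end
end

-- ▼ part T157/EnKi_8
section

/-!
# Row 157, block B, END (helper8): good points and drift for an Ising reference
-/

set_option autoImplicit false

noncomputable section

namespace Crest.Agent.T157.EnK

open Real Finset Function Matrix
open Crest.Agent.T157.E
open Crest.Agent.T157.Rec (grad fl grad_eq)
open Crest.Agent.T157.Eig (nrm opn nrm_nonneg nrm_sq nrm_single nrm_add_le nrm_sub_le nrm_le_iff
  nrm_mulVec_le)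
open Crest.Agent.T157.Rip (Sp res sp_res nrm_res_le SpJ)

variable {n : ℕ} {W : Matrix (Fin n) (Fin n) ℝ} {h : Fin n → ℝ} {C : Finset (Fin n)}
  {m c ω σ A : ℝ}

/-- block bounds: operator norm, sparse columns, sparse blocks -/
structure Blk (W : Matrix (Fin n) (Fin n) ℝ) (m c ω σ : ℝ) : Prop where
  symm : Wᵀ = W
  diag : ∀ i, W i i = 0
  op : ∀ v, nrm (W *ᵥ v) ≤ c * nrm v
  b1 : ∀ v, Sp m v → nrm (W *ᵥ v) ≤ ω * nrm v
  b2 : ∀ v B, Sp m v → (#B : ℝ) ≤ m → nrm (res B (W *ᵥ v)) ≤ σ * nrm v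

/-- local fields -/
def uI (W : Matrix (Fin n) (Fin n) ℝ) (h : Fin n → ℝ) (x : Cube n) : Fin n → ℝ := W *ᵥ sv x + h

/-- conditional means -/
def TI (W : Matrix (Fin n) (Fin n) ℝ) (h : Fin n → ℝ) (k : Fin n) (x : Cube n) : ℝ :=
  tanh (uI W h x k)

/-- the sites that are not frozen in the direction of `s0` -/
def B0 (W : Matrix (Fin n) (Fin n) ℝ) (h : Fin n → ℝ) (C : Finset (Fin n)) (s0 : Cube n) (A : ℝ)
    (x : Cube n) : Finset (Fin n) := C.filter fun j => sv s0 j * uI W h x j < A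


theorem sq2_res (B : Finset (Fin n)) (v : Fin n → ℝ) : sq2 B v = nrm (res B v) ^ 2 := by
  rw [nrm_sq]
  simp only [dotProduct, res, ite_mul, zero_mul]
  rw [← sum_filter, filter_mem_eq_inter, univ_inter]
  exact sum_congr rfl fun k hk => by simp [hk, sq]


theorem nrm_sq' (v : Fin n → ℝ) : nrm v ^ 2 = ∑ j, v j ^ 2 := by
  rw [nrm_sq]; simp only [dotProduct, sq]

theorem sp_single (hm : 1 ≤ m) (i : Fin n) : Sp m (Pi.single i (1 : ℝ)) :=
  ⟨{i}, by simpa, fun k hk => by rw [Pi.single_apply, if_neg (by simpa using hk)]⟩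

theorem sq_le_of {a b : ℝ} (h0 : 0 ≤ a) (h : a ≤ b) : a ^ 2 ≤ b ^ 2 := pow_le_pow_left₀ h0 h 2

namespace Blk

theorem sy (b : Blk W m c ω σ) (i j : Fin n) : W j i = W i j := by
  rw [← transpose_apply W i j, b.symm]

theorem col (b : Blk W m c ω σ) (j : Fin n) : ∑ k, W k j ^ 2 ≤ c ^ 2 := by
  have := sq_le_of (nrm_nonneg _) (b.op (Pi.single j 1))
  rwa [nrm_single, mul_one, mulVec_single_one, nrm_sq'] at this

theorem col1 (b : Blk W m c ω σ) (hm : 1 ≤ m) (j : Fin n) : ∑ k, W k j ^ 2 ≤ ω ^ 2 := by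
  have := sq_le_of (nrm_nonneg _) (b.b1 _ (sp_single hm j))
  rwa [nrm_single, mul_one, mulVec_single_one, nrm_sq'] at this

theorem col2 (b : Blk W m c ω σ) (hm : 1 ≤ m) {B : Finset (Fin n)} (hB : (#B : ℝ) ≤ m) (j : Fin n) :
    ∑ k ∈ B, W k j ^ 2 ≤ σ ^ 2 := by
  have := sq_le_of (nrm_nonneg _) (b.b2 _ B (sp_single hm j) hB)
  rwa [nrm_single, mul_one, mulVec_single_one, ← sq2_res] at this

theorem ent (b : Blk W m c ω σ) (hm : 1 ≤ m) (σ1 : σ ^ 2 ≤ (1 / 8) ^ 2) (k j : Fin n) :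
    |W k j| ≤ 1 / 8 := by
  have := b.col2 hm (B := {k}) (by simpa) j
  rw [sum_singleton] at this
  exact abs_le.2 (abs_le_of_sq_le_sq' (this.trans σ1) (by norm_num))

end Blk

theorem uI_fl (x : Cube n) (j k : Fin n) : uI W h (fl x j) k = uI W h x k - 2 * sv x j * W k j := by
  have e : sv (fl x j) = sv x + Pi.single j (-2 * sv x j) := by rw [← Rec.sv_fl_sub]; abel
  simp only [uI, e, mulVec_add, Pi.add_apply, mulVec_single, Pi.smul_apply, col_apply, op_smul_eq_mul]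
  ring

theorem grad_TI (x : Cube n) (j k : Fin n) (hw : |W k j| ≤ 1 / 8) :
    |grad (TI W h k) x j| ≤ 2 * |W k j| * (1 - TI W h k x ^ 2) ∧
      |grad (TI W h k) x j - W k j * (1 - TI W h k x ^ 2)| ≤ 8 * W k j ^ 2 * (1 - TI W h k x ^ 2) := by
  obtain ⟨ξ, h1, h2⟩ := Da.Gr.mvt (uI W h x k) (uI W h x k - 2 * sv x j * W k j)
  rw [sub_sub_cancel] at h1 h2
  rw [abs_mul, abs_mul, abs_s, abs_two, mul_one] at h1
  have e : grad (TI W h k) x j = W k j * (1 - tanh ξ ^ 2) := by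
    rw [grad_eq, TI, TI, uI_fl, h2]
    linear_combination (W k j * (1 - tanh ξ ^ 2)) * ss x j
  have w0 := abs_nonneg (W k j)
  have D0 := Da.Gr.sech_nonneg (uI W h x k)
  have q0 := Da.Gr.sech_nonneg ξ
  have q1 := (Da.Gr.sech_le (uI W h x k) ξ).trans (mul_le_mul_of_nonneg_right
    (exp_le_exp.2 (show _ ≤ 4 * |W k j| by linarith)) D0)
  have q2 := (Da.Gr.sech_le ξ (uI W h x k)).trans (mul_le_mul_of_nonneg_right
    (exp_le_exp.2 (show _ ≤ 4 * |W k j| by rw [abs_sub_comm]; linarith)) q0)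
  have x1 := (abs_le.1 (abs_exp_sub_one_le (x := 4 * |W k j|)
    (by rw [abs_of_nonneg (by positivity)]; linarith))).2
  rw [abs_of_nonneg (show 0 ≤ 4 * |W k j| by positivity)] at x1
  have x2 : 1 - 4 * |W k j| ≤ exp (-(4 * |W k j|)) := by linarith [add_one_le_exp (-(4 * |W k j|))]
  have x3 := mul_le_mul_of_nonneg_left q2 (exp_pos (-(4 * |W k j|))).le
  rw [← mul_assoc, ← exp_add, neg_add_cancel, exp_zero, one_mul] at x3
  rw [e, TI]
  set D := 1 - tanh (uI W h x k) ^ 2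
  set q := 1 - tanh ξ ^ 2
  have a1 : q ≤ (1 + 8 * |W k j|) * D := q1.trans (mul_le_mul_of_nonneg_right (by linarith) D0)
  have a2 : (1 - 4 * |W k j|) * D ≤ q := (mul_le_mul_of_nonneg_right x2 D0).trans x3
  have a3 : |q - D| ≤ 8 * |W k j| * D := abs_le.2 ⟨by nlinarith [mul_nonneg w0 D0], by linarith⟩
  constructor
  · rw [abs_mul, abs_of_nonneg q0]
    nlinarith [mul_le_mul_of_nonneg_left (show q ≤ 2 * D by nlinarith) w0]
  · rw [← mul_sub, abs_mul, ← sq_abs (W k j)]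
    nlinarith [mul_le_mul_of_nonneg_left a3 w0]

theorem s_tanh (x : Cube n) (j : Fin n) (u : ℝ) : sv x j * tanh u = tanh (sv x j * u) := by
  rcases mul_self_eq_one_iff.1 (ss x j) with e | e <;> simp [e]

theorem one_sub_tanh (y : ℝ) : (1 - tanh y) / 2 ≤ exp (-(2 * y)) := by
  have a := exp_pos y
  have b := exp_pos (-y)
  have e : exp (-(2 * y)) * exp y = exp (-y) := by rw [← exp_add]; congr 1; ring
  have e2 : (1 - tanh y) / 2 = exp (-y) / (exp y + exp (-y)) := by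
    rw [tanh_eq_sinh_div_cosh, sinh_eq, cosh_eq]; field_simp; ring
  rw [e2, div_le_iff₀ (by positivity)]
  nlinarith [mul_pos (exp_pos (-(2 * y))) b]

theorem D_le_pk (T : Fin n → Cube n → ℝ) (k : Fin n) (x : Cube n) : 1 - T k x ^ 2 ≤ 4 * pk T k x := by
  rw [pk]; nlinarith [sq_nonneg (1 - sv x k * T k x), ss x k, sq_nonneg (T k x)]

/-- frozen sites -/
theorem froz {s0 x : Cube n} {k : Fin n} (hk : k ∈ C) (hk' : k ∉ B0 W h C s0 A x) :
    A ≤ sv s0 k * uI W h x k ∧ A ≤ |uI W h x k| ∧ (1 - sv s0 k * TI W h k x) / 2 ≤ exp (-(2 * A)) ∧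
      1 - TI W h k x ^ 2 ≤ 4 * exp (-(2 * A)) := by
  have h1 : A ≤ sv s0 k * uI W h x k := by simpa [B0, hk] using hk'
  have h2 : (1 - sv s0 k * TI W h k x) / 2 ≤ exp (-(2 * A)) := by
    rw [TI, s_tanh]; exact (one_sub_tanh _).trans (exp_le_exp.2 (by linarith))
  refine ⟨h1, ?_, h2, ?_⟩
  · have := le_abs_self (sv s0 k * uI W h x k)
    rw [abs_mul, abs_s, one_mul] at this; linarith
  · nlinarith [sq_nonneg (1 - sv s0 k * TI W h k x), ss s0 k, sq_nonneg (TI W h k x)]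

/-- the number of sites that are not frozen -/
theorem card_B0 (b : Blk W m c ω σ) (hA : 0 < A) {s0 x : Cube n} {F0 : Finset (Fin n)} {t : ℝ}
    (al : ∀ j ∈ C, j ∉ F0 → 2 * A ≤ sv s0 j * uI W h s0 j) (ht : (#Cᶜ : ℝ) ≤ t)
    (hm : dH C s0 x + t ≤ m) :
    (#(B0 W h C s0 A x) : ℝ) ≤ #F0 + 4 * ω ^ 2 * (dH C s0 x + t) / A ^ 2 := by
  set Dx := univ.filter fun j => x j ≠ s0 j with hD
  have c1 : (#Dx : ℝ) ≤ dH C s0 x + t := by
    have : Dx ⊆ (C.filter fun j => x j ≠ s0 j) ∪ Cᶜ := fun j hj => by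
      by_cases e : j ∈ C
      · exact mem_union_left _ (mem_filter.2 ⟨e, (mem_filter.1 hj).2⟩)
      · exact mem_union_right _ (mem_compl.2 e)
    have : (#Dx : ℝ) ≤ dH C s0 x + #Cᶜ := by
      exact_mod_cast (card_le_card this).trans (card_union_le _ _)
    linarith
  have z : ∀ j ∉ Dx, (sv x - sv s0) j = 0 := fun j hj => by
    have : x j = s0 j := by simpa [hD] using hj
    simp [sv, this]
  have c2 : nrm (sv x - sv s0) ^ 2 ≤ 4 * #Dx := by
    rw [nrm_sq', ← sum_subset (subset_univ Dx) fun j _ hj => by rw [z j hj]; simp]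
    refine (sum_le_sum (g := fun _ => (4 : ℝ)) fun j _ => ?_).trans (by simp [mul_comm])
    rw [Pi.sub_apply]; nlinarith [ss x j, ss s0 j, sq_nonneg (sv x j + sv s0 j)]
  have c3 := sq_le_of (nrm_nonneg _) (b.b1 _ ⟨Dx, c1.trans hm, z⟩)
  rw [mul_pow, nrm_sq'] at c3
  set Δ := W *ᵥ (sv x - sv s0) with hΔ
  set E := univ.filter fun j => A ≤ |Δ j|
  have c4 : (#E : ℝ) * A ^ 2 ≤ ∑ j, Δ j ^ 2 := by
    rw [← nsmul_eq_mul, ← sum_const]
    refine (sum_le_sum fun j hj => ?_).trans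
      (sum_le_sum_of_subset_of_nonneg (subset_univ _) fun j _ _ => sq_nonneg (Δ j))
    rw [← sq_abs (Δ j)]
    exact sq_le_of hA.le (mem_filter.1 hj).2
  have c5 : B0 W h C s0 A x ⊆ F0 ∪ E := fun j hj => by
    obtain ⟨j1, j2⟩ := mem_filter.1 hj
    by_cases e : j ∈ F0
    · exact mem_union_left _ e
    · refine mem_union_right _ (mem_filter.2 ⟨mem_univ _, ?_⟩)
      have e1 : uI W h x j = uI W h s0 j + Δ j := by
        simp only [uI, hΔ, mulVec_sub, Pi.add_apply, Pi.sub_apply]; ring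
      have e2 := neg_abs_le (sv s0 j * Δ j)
      rw [abs_mul, abs_s, one_mul] at e2
      rw [e1, mul_add] at j2
      linarith [al j j1 e]
  have c6 : (#(B0 W h C s0 A x) : ℝ) ≤ #F0 + #E := by
    exact_mod_cast (card_le_card c5).trans (card_union_le _ _)
  have c7 : (#E : ℝ) ≤ 4 * ω ^ 2 * (dH C s0 x + t) / A ^ 2 := by
    rw [le_div_iff₀ (by positivity)]
    nlinarith [mul_le_mul_of_nonneg_left c2 (sq_nonneg ω), mul_le_mul_of_nonneg_left c1 (sq_nonneg ω)]
  linarith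




/-! ### the block bounds of `offdiag (J - Q)` -/








end Crest.Agent.T157.EnK

end
end

-- ▼ part T157/EnGood_14
section

/-!
# Row 157, block B, END (helper14): good points
-/

set_option autoImplicit false
set_option linter.all false

noncomputable section

namespace Crest.Agent.T157.En

open Real Matrix Finset
open Crest.Agent.T157.E
open Crest.Agent.T157.Rec (grad)
open Crest.Agent.T157.Eig (nrm opn nrm_nonneg nrm_sq nrm_add_le nrm_mulVec_le)
open Crest.Agent.T157.S3 (V Mx hf)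
open Crest.Agent.T157.Rip (Sp res sp_res nrm_res_le)
open Crest.Agent.T157.EnK (TI B0 nrm_sq' grad_TI froz card_B0 D_le_pk abs_s)

namespace Gd14

variable {n : ℕ} {W : Mx n} {c ω s A : ℝ} {m : ℕ}

/-- dictionary with the blocks of `EnK` -/
lemma blk {M : ℝ} (b : Blk W c ω s M) (hs : 0 ≤ s) : EnK.Blk W M c ω s :=
  ⟨b.symm, b.diag, fun v => (nrm_mulVec_le W v).trans
    (mul_le_mul_of_nonneg_right b.op (nrm_nonneg v)), b.col, fun v B hv hB =>
    Rip.Fl.res (fun u hu => (b.blk u v hu hv).trans_eq (by ring)) (mul_nonneg hs (nrm_nonneg v)) hB⟩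

lemma nrm_le_of {u v : V n} {a : ℝ} (ha : 0 ≤ a) (h : ∑ j, u j ^ 2 ≤ a ^ 2 * ∑ j, v j ^ 2) :
    nrm u ≤ a * nrm v :=
  le_of_sq_le_sq (by rw [mul_pow, nrm_sq', nrm_sq']; exact h) (mul_nonneg ha (nrm_nonneg v))

lemma nrm_res_mul {D v : V n} {a : ℝ} (B : Finset (Fin n)) (ha : 0 ≤ a) (h0 : ∀ j, 0 ≤ D j)
    (h : ∀ j ∈ B, D j ≤ a) : nrm (res B (D * v)) ≤ a * nrm (res B v) := by
  refine nrm_le_of ha ?_
  rw [mul_sum]
  refine sum_le_sum fun j _ => ?_
  unfold res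
  split_ifs with hj
  · rw [Pi.mul_apply, mul_pow]
    exact mul_le_mul_of_nonneg_right (pow_le_pow_left₀ (h0 j) (h j hj) 2) (sq_nonneg _)
  · simp

/-- Schur test -/
lemma schur {D v R : V n} {ρ o : ℝ} (D0 : ∀ j, 0 ≤ D j) (D1 : ∀ j, D j ≤ 1)
    (row : ∀ k, ∑ j, W j k ^ 2 * D j ≤ ρ) (col : ∀ j, ∑ k, W j k ^ 2 ≤ o)
    (hR : ∀ k, |R k| ≤ 8 * ∑ j, W j k ^ 2 * D j * |v j|) (ρ0 : 0 ≤ ρ) :
    ∑ k, R k ^ 2 ≤ 64 * ρ * o * ∑ j, v j ^ 2 := by
  have h1 : ∀ k, R k ^ 2 ≤ 64 * ρ * ∑ j, W j k ^ 2 * v j ^ 2 := fun k => by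
    have h2 : (∑ j, W j k ^ 2 * D j * |v j|) ^ 2 ≤
        (∑ j, W j k ^ 2 * D j) * ∑ j, W j k ^ 2 * v j ^ 2 := by
      refine sum_sq_le_sum_mul_sum_of_sq_le_mul _ (fun j _ => mul_nonneg (sq_nonneg _) (D0 j))
        (fun j _ => by positivity) fun j _ => ?_
      have h3 : D j ^ 2 ≤ D j := by nlinarith [D0 j, D1 j]
      rw [mul_pow, mul_pow, sq_abs]
      nlinarith [mul_le_mul_of_nonneg_left h3 (show 0 ≤ (W j k ^ 2) ^ 2 * v j ^ 2 by positivity)]
    have h4 : 0 ≤ ∑ j, W j k ^ 2 * v j ^ 2 := sum_nonneg fun j _ => by positivity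
    have h5 := pow_le_pow_left₀ (abs_nonneg _) (hR k) 2
    rw [sq_abs, mul_pow] at h5
    nlinarith [mul_le_mul_of_nonneg_right (row k) h4]
  refine (sum_le_sum fun k _ => h1 k).trans ?_
  rw [← mul_sum, sum_comm, mul_assoc (64 * ρ), mul_sum univ _ o]
  refine mul_le_mul_of_nonneg_left (sum_le_sum fun j _ => ?_) (by positivity)
  rw [← sum_mul]
  exact mul_le_mul_of_nonneg_right (col j) (sq_nonneg _)

end Gd14

open Gd14 in
/-- **GOOD** -/
theorem goodStmt : GoodStmt := by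
  intro n W h c ω s A m x0 x G h0 hx
  have b := blk G.blk G.s0
  have m1 : (1 : ℝ) ≤ m := by exact_mod_cast G.m1
  have hm : (1 : ℝ) ≤ 50 * m := by linarith
  have s0 := G.s0
  have s1 := G.s1
  have c0 := G.c0
  have o0 := G.o0
  have A0 : 0 < A := by linarith [G.A1]
  set B := B0 W h univ x0 A x with hB
  have d0 : 0 ≤ hd x x0 := Nat.cast_nonneg _
  have cB : (#B : ℝ) ≤ m + hd x x0 / 36 := by
    have h1 := card_B0 (h := h) (C := univ) b A0 (s0 := x0) (x := x)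
      (F0 := univ.filter fun j => sv x0 j * hf W h x0 j < 2 * A) (t := 0)
      (fun j _ hj => not_lt.1 fun hh => hj (mem_filter.2 ⟨mem_univ j, hh⟩)) (by simp) (by
        rw [add_zero]; exact hx.trans (by linarith))
    have h2 : 4 * ω ^ 2 * (hd x x0 + 0) / A ^ 2 ≤ hd x x0 / 36 := by
      rw [div_le_iff₀ (by positivity)]
      nlinarith [mul_le_mul_of_nonneg_left (pow_le_pow_left₀ (by positivity) G.Ao 2) d0]
    exact h1.trans (add_le_add h0 h2)
  have cB' : (#B : ℝ) ≤ 50 * m := by linarith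
  set D : V n := fun j => 1 - TI W h j x ^ 2 with hD
  have D0 : ∀ j, 0 ≤ D j := fun j => Da.Gr.sech_nonneg _
  have D1 : ∀ j, D j ≤ 1 := fun j => sub_le_self _ (sq_nonneg _)
  have e0 := exp_pos (-A)
  have e2 : exp (-(2 * A)) = exp (-A) ^ 2 := by rw [← exp_nat_mul]; congr 1; push_cast; ring
  have e1 : exp (-A) ≤ 1 / 2 := by
    rw [Real.exp_neg, ← one_div]
    exact one_div_le_one_div_of_le two_pos (by linarith [add_one_le_exp A, G.A1])
  have D2 : ∀ j ∈ Bᶜ, D j ≤ 4 * exp (-A) ^ 2 := fun j hj =>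
    e2 ▸ (froz (mem_univ j) (mem_compl.1 hj)).2.2.2
  have en := b.ent hm (by nlinarith)
  have col : ∀ k, ∑ j, W j k ^ 2 ≤ (c + ω) ^ 2 / 4 := fun k => by
    rcases le_total c ω with e | e
    · nlinarith [b.col k]
    · nlinarith [b.col1 hm k]
  have row : ∀ k, ∑ j, W j k ^ 2 * D j ≤ 2 * s ^ 2 := fun k => by
    rw [← sum_add_sum_compl B, two_mul]
    refine add_le_add ((sum_le_sum fun j _ => mul_le_of_le_one_right (sq_nonneg _) (D1 j)).trans
      (b.col2 hm cB' k)) ((sum_le_sum fun j hj =>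
        mul_le_mul_of_nonneg_left (D2 j hj) (sq_nonneg _)).trans ?_)
    rw [← sum_mul]
    have h1 := (sum_le_sum_of_subset_of_nonneg (subset_univ Bᶜ)
      fun j _ _ => sq_nonneg (W j k)).trans (col k)
    have h2 := pow_le_pow_left₀ (by positivity) G.cA 2
    nlinarith [mul_le_mul_of_nonneg_right h1 (show 0 ≤ 4 * exp (-A) ^ 2 by positivity)]
  have ga : ∀ k j, |aM W h x k j| ≤ 2 * |W j k| * D j ∧
      |aM W h x k j - W j k * D j| ≤ 8 * W j k ^ 2 * D j := fun k j => grad_TI x k j (en j k)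
  have main : ∀ v : V n, ∃ R : V n, nrm R ≤ 48 * s * nrm v ∧
      aM W h x *ᵥ v = W *ᵥ res B (D * v) + R := fun v => by
    set R : V n := fun k => ∑ j, (aM W h x k j - W j k * D j) * v j with hR
    refine ⟨W *ᵥ res Bᶜ (D * v) + R, (nrm_add_le _ _).trans ?_, ?_⟩
    · have h1 := (b.op _).trans (mul_le_mul_of_nonneg_left
        ((nrm_res_mul (v := v) Bᶜ (by positivity) D0 D2).trans
          (mul_le_mul_of_nonneg_left (nrm_res_le _ v) (by positivity))) c0)
      have h2 : nrm R ≤ 46 * s * nrm v := by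
        refine nrm_le_of (by positivity) ((schur (o := 16) D0 D1 row (fun j => ?_) (fun k => ?_)
          (by positivity)).trans (mul_le_mul_of_nonneg_right (by nlinarith)
            (sum_nonneg fun j _ => sq_nonneg _)))
        · have := b.col1 hm j
          simp only [b.sy j] at this
          nlinarith [G.o4]
        · rw [mul_sum]
          refine (abs_sum_le_sum_abs _ _).trans (sum_le_sum fun j _ => ?_)
          rw [abs_mul]
          exact (mul_le_mul_of_nonneg_right (ga k j).2 (abs_nonneg _)).trans_eq (by ring)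
      have h3 : c * (4 * exp (-A) ^ 2) ≤ 2 * s := by
        have : c * exp (-A) ≤ s := by nlinarith [G.cA]
        nlinarith [mul_nonneg c0 e0.le]
      nlinarith [mul_le_mul_of_nonneg_right h3 (nrm_nonneg v)]
    · rw [← add_assoc, ← mulVec_add]
      have e : res B (D * v) + res Bᶜ (D * v) = D * v := funext fun j => by
        by_cases hj : j ∈ B <;> simp [res, hj]
      rw [e]
      funext k
      simp only [mulVec, dotProduct, Pi.add_apply, Pi.mul_apply, hR, ← sum_add_distrib]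
      exact sum_congr rfl fun j _ => by rw [b.sy k j]; ring
  have hv : ∀ v : V n, nrm (res B (D * v)) ≤ nrm (res B v) := fun v =>
    (nrm_res_mul B zero_le_one D0 fun j _ => D1 j).trans_eq (one_mul _)
  refine ⟨B, cB, fun j hj => (froz (mem_univ j) hj).1, fun v => ?_, fun v B' hB' => ?_, fun k => ?_⟩
  · obtain ⟨R, h1, h2⟩ := main v
    rw [h2]
    refine (nrm_add_le _ _).trans (add_le_add ((b.b1 _ (sp_res cB' _)).trans
      (mul_le_mul_of_nonneg_left (hv v) o0)) (h1.trans ?_))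
    nlinarith [mul_nonneg s0 (nrm_nonneg v)]
  · obtain ⟨R, h1, h2⟩ := main v
    have e : res B' (W *ᵥ res B (D * v) + R) = res B' (W *ᵥ res B (D * v)) + res B' R :=
      funext fun j => by by_cases hj : j ∈ B' <;> simp [res, hj]
    rw [h2, e]
    have h3 := (b.b2 _ B' (sp_res cB' (D * v)) hB').trans
      (mul_le_mul_of_nonneg_left ((hv v).trans (nrm_res_le B v)) s0)
    nlinarith [nrm_add_le (res B' (W *ᵥ res B (D * v))) (res B' R), nrm_res_le B' R,
      mul_nonneg s0 (nrm_nonneg v)]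
  · refine (sum_le_sum (g := fun j => 16 * (W j k ^ 2 * D j)) fun j _ => ?_).trans ?_
    · have p0 : 0 < pf W h x j := by
        have h1 := le_abs_self (sv x j * tanh (hf W h x j))
        rw [abs_mul, abs_s, one_mul] at h1
        rw [pf]; linarith [abs_tanh_lt_one (hf W h x j)]
      have h1 : D j ≤ 4 * pf W h x j := D_le_pk (TI W h) j x
      have h2 := pow_le_pow_left₀ (abs_nonneg _) (ga k j).1 2
      rw [sq_abs, mul_pow, mul_pow, sq_abs] at h2
      rw [div_le_iff₀ p0]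
      nlinarith [mul_le_mul_of_nonneg_left h1 (mul_nonneg (sq_nonneg (W j k)) (D0 j))]
    · rw [← mul_sum]
      nlinarith [row k, sq_nonneg s]

end Crest.Agent.T157.En

end
end

-- ▼ part T157/EnRes_17
section

/-!
# Row 157, block B, END: `En.ResGlue` (helper17), the resolvent near the reference point
-/

set_option autoImplicit false

noncomputable section

namespace Crest.Agent.T157.En

open Real Matrix Finset
open Crest.Agent.T157.E Crest.Agent.T157.SL
open Crest.Agent.T157.Rec (grad fl grad_eq)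
open Crest.Agent.T157.Eig (nrm nrm_sq nrm_nonneg)
open Crest.Agent.T157.S3 (V Mx hf tau)
open Crest.Agent.T157.Rip (res)
open Crest.Agent.T157.EnK

namespace Res17

variable {n : ℕ} {C : Finset (Fin n)} {T : Fin n → Cube n → ℝ}

/-- the pointwise Bochner inequality, general source -/
theorem boch (h : ∀ k x, |T k x| ≤ 1) {η : ℝ} (hη : 0 ≤ η) {G F : Cube n → ℝ}
    (hG : ∀ x, η * G x - Lg C T G x = F x) (x : Cube n) {j : Fin n}
    (hj : j ∈ C) {ω : Fin n → ℝ} (ω0 : ∀ k ∈ C, 0 ≤ ω k)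
    (hω : ∀ k ∈ C, grad (T k) x j ^ 2 ≤ ω k * pk T k x) (ω1 : ∑ k ∈ C, ω k ≤ 1 / 4) :
    3 / 2 * grad G x j ^ 2 - 4 * (grad F x j + ∑ k ∈ C, grad (T k) x j * grad G x k) ^ 2 ≤
      Lg C T (fun x => grad G x j ^ 2) x := by
  have e0 : grad (fun x => η * G x - Lg C T G x) x j = grad F x j := by rw [funext hG]
  rw [Rec.grad_sub, Rec.grad_const_mul, Pi.sub_apply, Pi.smul_apply, smul_eq_mul, grad_Lg G x hj]
    at e0
  rw [Lg_sq]
  set V := grad G x j
  set H : Fin n → ℝ := fun k => grad (fun x => grad G x j) x k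
  set R := grad F x j + ∑ k ∈ C, grad (T k) x j * grad G x k with hR
  have e1 : Lg C T (fun x => grad G x j) x =
      (1 + η) * V - R + ∑ k ∈ C, 2 * sv x j * grad (T k) x j * H k := by
    have : ∑ k ∈ C, grad (T k) x j * grad G x k - ∑ k ∈ C, 2 * sv x j * grad (T k) x j * H k =
        ∑ k ∈ C, grad (T k) x j * (grad G x k - 2 * sv x j * H k) := by
      rw [← sum_sub_distrib]
      exact sum_congr rfl fun k _ => by ring
    linarith
  have e2 : 0 ≤ ∑ k ∈ C, (2 * V * (2 * sv x j * grad (T k) x j * H k) + pk T k x * (4 * H k ^ 2) +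
      ω k * V ^ 2) := sum_nonneg fun k hk => by
    have p0 := pk_nonneg h k x
    have w0 := ω0 k hk
    have a1 : (2 * V * (2 * sv x j * grad (T k) x j * H k)) ^ 2 ≤
        (pk T k x * (4 * H k ^ 2) + ω k * V ^ 2) ^ 2 := by
      have b1 : (2 * V * (2 * sv x j * grad (T k) x j * H k)) ^ 2 =
          16 * (V * H k) ^ 2 * grad (T k) x j ^ 2 := by
        linear_combination (16 * (V * H k) ^ 2 * grad (T k) x j ^ 2) * ss x j
      rw [b1]
      nlinarith [mul_le_mul_of_nonneg_left (hω k hk) (sq_nonneg (V * H k)),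
        sq_nonneg (pk T k x * (4 * H k ^ 2) - ω k * V ^ 2)]
    linarith [(abs_le_of_sq_le_sq' a1 (by positivity)).1]
  rw [sum_add_distrib, sum_add_distrib, ← mul_sum, ← sum_mul] at e2
  rw [e1]
  nlinarith [mul_le_mul_of_nonneg_right ω1 (sq_nonneg V), sq_nonneg (V - 4 * R),
    mul_nonneg hη (sq_nonneg V)]

theorem res_dot (B : Finset (Fin n)) (v : V n) : res B v ⬝ᵥ res B v = sq2 B v := by
  simp only [dotProduct, res, sq2, ite_mul, mul_ite, zero_mul, mul_zero, sq]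
  simp

theorem nrm_res (B : Finset (Fin n)) (v : V n) : nrm (res B v) ^ 2 = sq2 B v := by
  rw [nrm_sq, res_dot]

theorem dot_sq2 (v : V n) : v ⬝ᵥ v = sq2 univ v := by simp only [dotProduct, sq2, sq]

theorem nrm_univ (v : V n) : nrm v ^ 2 = sq2 univ v := by rw [nrm_sq, dot_sq2]

theorem one_sub_tanh (u : ℝ) : 1 - tanh u ≤ 2 * exp (-(2 * u)) := by
  have a := exp_pos u
  have b := exp_pos (-u)
  have c := exp_pos (-(2 * u))
  have e : exp (-(2 * u)) * exp u = exp (-u) := by rw [← exp_add]; ring_nf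
  rw [tanh_eq_sinh_div_cosh, sinh_eq, cosh_eq, sub_le_comm, le_div_iff₀ (by positivity)]
  nlinarith [mul_pos c b]

theorem tanh_nn {u : ℝ} (h : 0 ≤ u) : 0 ≤ tanh u := by
  rw [tanh_eq_sinh_div_cosh]; exact div_nonneg (sinh_nonneg_iff.2 h) (cosh_pos u).le

theorem s_tanh (x : Cube n) (j : Fin n) (u : ℝ) : sv x j * tanh u = tanh (sv x j * u) := by
  rcases mul_self_eq_one_iff.1 (ss x j) with h | h <;> simp [h]

theorem sv_ne {x y : Cube n} {j : Fin n} (h : x j ≠ y j) : sv x j = -sv y j := by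
  revert h
  simp only [sv]
  cases x j <;> cases y j <;> simp [Crest.ProbabilityR.SpinGlassDynamics.spin]

/-- conditional means of the Ising weight -/
def TT (W : Mx n) (h : V n) : Fin n → Cube n → ℝ := fun k x => tanh (hf W h x k)

theorem TT_le (W : Mx n) (h : V n) (k : Fin n) (x : Cube n) : |TT W h k x| ≤ 1 :=
  (abs_tanh_lt_one _).le

theorem pk_pos (W : Mx n) (h : V n) (k : Fin n) (x : Cube n) : 0 < pk (TT W h) k x := by
  rw [pk, TT, s_tanh]; linarith [tanh_lt_one (sv x k * hf W h x k)]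

/-- the barrier -/
def br (x0 : Cube n) (m : ℕ) (x : Cube n) : ℝ :=
  exp (((min (dH univ x0 x) (46 * m) : ℕ) : ℝ) - 46 * m) + 9 * m * exp (-(23 * m))

theorem br_pos (x0 : Cube n) (m : ℕ) (x : Cube n) : 0 < br x0 m x := by unfold br; positivity

theorem br_far {x0 x : Cube n} {m : ℕ} (h : 46 * m ≤ dH univ x0 x) : 1 ≤ br x0 m x := by
  rw [br, min_eq_right h]; push_cast; rw [sub_self, exp_zero]
  exact le_add_of_nonneg_right (by positivity)

theorem br_near {x0 x : Cube n} {m : ℕ} (h : dH univ x0 x ≤ 23 * m) : br x0 m x ≤ exp (-m) := by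
  have h1 : ((min (dH univ x0 x) (46 * m) : ℕ) : ℝ) ≤ 23 * m := by
    exact_mod_cast (min_le_left _ _).trans h
  have h2 : exp (((min (dH univ x0 x) (46 * m) : ℕ) : ℝ) - 46 * m) ≤ exp (-(23 * m)) :=
    exp_le_exp.2 (by linarith)
  have h3 : exp (-(23 * (m : ℝ))) * exp (22 * m) = exp (-m) := by rw [← exp_add]; ring_nf
  have m0 : (0 : ℝ) ≤ m := m.cast_nonneg
  rw [br, ← h3]
  nlinarith [add_one_le_exp (22 * (m : ℝ)), exp_pos (-(23 * (m : ℝ)))]

theorem br_drift {W : Mx n} {h : V n} {A : ℝ} {m : ℕ} {x0 x : Cube n} {B : Finset (Fin n)}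
    (A0 : 0 ≤ A) (nA : n * exp (-(2 * A)) ≤ m) (hB : (#B : ℝ) ≤ m + dH univ x0 x / 36)
    (hA : ∀ j ∉ B, A ≤ sv x0 j * hf W h x j) (hx : dH univ x0 x < 46 * m) :
    Lg univ (TT W h) (br x0 m) x ≤ br x0 m x / 2 := by
  set E := exp ((dH univ x0 x : ℝ) - 46 * m) with hE
  have E0 : 0 < E := exp_pos _
  have b0 : br x0 m x = E + 9 * m * exp (-(23 * m)) := by rw [br, min_eq_left hx.le]
  have e1 : exp 1 ≤ 3 := by linarith [exp_one_lt_d9]
  have e2 : exp (-1) ≤ 1 / 2 := by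
    rw [exp_neg, inv_le_comm₀ (exp_pos _) (by norm_num)]; linarith [exp_one_gt_d9]
  have a0 := exp_pos (-(2 * A))
  have key : ∀ k, pk (TT W h) k x * (br x0 m (fl x k) - br x0 m x) ≤
      E * (9 / 4 * (if k ∈ B then 1 else 0) + 2 * exp (-(2 * A)) -
        1 / 4 * if x k ≠ x0 k then 1 else 0) := fun k => by
    have p0 := pk_nonneg (TT_le W h) k x
    have p1 := pk_le_one (TT_le W h) k x
    by_cases hk : x k = x0 k
    · have d : br x0 m (fl x k) - br x0 m x = E * (exp 1 - 1) := by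
        rw [b0, br, dH_agree (mem_univ k) hk, min_eq_left hx, hE]
        push_cast
        rw [show (dH univ x0 x : ℝ) + 1 - 46 * m = dH univ x0 x - 46 * m + 1 by ring, exp_add]; ring
      rw [d, if_neg (not_not.2 hk), mul_left_comm]
      refine mul_le_mul_of_nonneg_left ?_ E0.le
      split_ifs with hb
      · nlinarith
      · have h1 := (one_sub_tanh _).trans (mul_le_mul_of_nonneg_left (exp_le_exp.2
          (neg_le_neg (mul_le_mul_of_nonneg_left (hA k hb) zero_le_two))) zero_le_two)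
        have h2 : pk (TT W h) k x ≤ exp (-(2 * A)) := by
          rw [pk, TT, s_tanh, show sv x k = sv x0 k by simp only [sv, hk]]; linarith
        nlinarith
    · have d0 := dH_dis (mem_univ k) hk
      have d : br x0 m (fl x k) - br x0 m x = E * (exp (-1) - 1) := by
        rw [b0, br, min_eq_left (by omega), hE, ← d0]
        push_cast
        rw [show (dH univ x0 (fl x k) : ℝ) - 46 * m = dH univ x0 (fl x k) + 1 - 46 * m + -1 by ring,
          exp_add]; ring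
      rw [d, if_pos hk, mul_left_comm]
      refine mul_le_mul_of_nonneg_left ?_ E0.le
      split_ifs with hb
      · nlinarith
      · have h2 : 1 / 2 ≤ pk (TT W h) k x := by
          rw [pk, TT, sv_ne hk, neg_mul, s_tanh]; linarith [tanh_nn (A0.trans (hA k hb))]
        nlinarith
  rw [Lg_eq]
  refine (sum_le_sum fun k _ => key k).trans ?_
  rw [← mul_sum, sum_sub_distrib, sum_add_distrib, ← mul_sum, ← mul_sum, ← mul_sum, sum_boole,
    sum_boole, sum_const, filter_mem_eq_inter, univ_inter, card_univ, Fintype.card_fin, nsmul_eq_mul,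
    b0]
  change E * (_ - 1 / 4 * (dH univ x0 x : ℝ)) ≤ _
  have m0 : (0 : ℝ) ≤ m := m.cast_nonneg
  have d0 : (0 : ℝ) ≤ dH univ x0 x := Nat.cast_nonneg _
  have x0' := exp_pos (-(23 * (m : ℝ)))
  refine (mul_le_mul_of_nonneg_left (show _ ≤ 17 / 4 * (m : ℝ) - 3 / 16 * dH univ x0 x by linarith)
    E0.le).trans ?_
  rcases le_total (23 * (m : ℝ)) (dH univ x0 x) with c | c
  · nlinarith [mul_nonneg m0 x0'.le]
  · have : E ≤ exp (-(23 * m)) := exp_le_exp.2 (by linarith)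
    nlinarith [mul_le_mul_of_nonneg_left this m0, mul_nonneg E0.le d0, mul_nonneg m0 x0'.le]

theorem boch_sum {W : Mx n} {h : V n} {η s : ℝ} (hη : 0 ≤ η) {G F : Cube n → ℝ}
    (hG : ∀ x, η * G x - Lg univ (TT W h) G x = F x) {x : Cube n} (s1 : 80 * s ^ 2 ≤ 1 / 4)
    (g : ∀ k, ∑ j, aM W h x k j ^ 2 / pf W h x j ≤ 80 * s ^ 2) (B : Finset (Fin n)) :
    3 / 2 * sq2 B (grad G x) - 8 * sq2 B (grad F x) - 8 * sq2 B (aM W h x *ᵥ grad G x) ≤
      Lg univ (TT W h) (fun x => sq2 B (grad G x)) x := by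
  have h1 : 3 / 2 * sq2 B (grad G x) - 4 * sq2 B (grad F x + aM W h x *ᵥ grad G x) ≤
      Lg univ (TT W h) (fun x => sq2 B (grad G x)) x := by
    simp only [sq2]
    rw [Lg_sum, mul_sum, mul_sum, ← sum_sub_distrib]
    exact sum_le_sum fun j _ => boch (TT_le W h) hη hG x (mem_univ j)
      (ω := fun k => aM W h x j k ^ 2 / pf W h x k)
      (fun k _ => div_nonneg (sq_nonneg _) (pk_pos W h k x).le)
      (fun k _ => (div_mul_cancel₀ _ (pk_pos W h k x).ne').ge) ((g j).trans s1)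
  linarith [sq2_add_le B (grad F x) (aM W h x *ᵥ grad G x)]

/-- the coupled maximum principle, additive form -/
theorem maxp {W : Mx n} {h : V n} {c ω s A : ℝ} {m : ℕ} {x0 : Cube n} {G F : Cube n → ℝ}
    {α β K η : ℝ} (g : Geo W c ω s A m) (hη : 0 ≤ η)
    (hG : ∀ x, η * G x - Lg univ (TT W h) G x = F x) (hK : ∀ x, sq2 univ (grad G x) ≤ K)
    (hg : ∀ x, dH univ x0 x < 46 * m → Good W h ω s A m x0 x ∧ sq2 univ (grad F x) ≤ α ^ 2 ∧
      ∀ B : Finset (Fin n), (#B : ℝ) ≤ 50 * m → sq2 B (grad F x) ≤ β ^ 2) (x : Cube n) :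
    sq2 univ (grad G x) ≤ 16 * α ^ 2 + 256 * (ω ^ 2 * β ^ 2) + 300 * K * br x0 m x ∧
      ∀ B : Finset (Fin n), (#B : ℝ) ≤ 50 * m →
        sq2 B (grad G x) ≤ 9 * β ^ 2 + 320000 * (s ^ 2 * α ^ 2) + K * br x0 m x := by
  classical
  have m0 : (0 : ℝ) ≤ m := m.cast_nonneg
  have K0 : 0 ≤ K := (sq2_nonneg _ _).trans (hK x)
  have s2 : s ^ 2 ≤ 1 / 10 ^ 8 := by nlinarith [g.s0, g.s1]
  have o2 : ω ^ 2 ≤ 16 := by nlinarith [g.o0, g.o4]
  have s0 := sq_nonneg s
  have o0 := sq_nonneg ω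
  have α0 := sq_nonneg α
  have β0 := sq_nonneg β
  obtain ⟨x1, -, h1⟩ := exists_max_image univ
    (fun x => 1 * sq2 univ (grad G x) + -(300 * K) * br x0 m x) univ_nonempty
  obtain ⟨⟨x2, B2⟩, hB2, h2⟩ := exists_max_image
    (univ ×ˢ univ.filter fun B : Finset (Fin n) => (#B : ℝ) ≤ 50 * m)
    (fun p => 1 * sq2 p.2 (grad G p.1) + -K * br x0 m p.1) ⟨(x, ∅), by simp⟩
  simp only [mem_product, mem_univ, true_and, mem_filter, forall_true_left] at hB2 h1 h2
  obtain ⟨r, hr, r0, r1⟩ : ∃ r, r = max (1 * sq2 univ (grad G x1) + -(300 * K) * br x0 m x1) 0 ∧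
    0 ≤ r ∧ ∀ z, sq2 univ (grad G z) ≤ r + 300 * K * br x0 m z :=
    ⟨_, rfl, le_max_right _ _, fun z => by linarith [(h1 z).trans (le_max_left _ 0)]⟩
  obtain ⟨t, ht, t0, t1⟩ : ∃ t, t = max (1 * sq2 B2 (grad G x2) + -K * br x0 m x2) 0 ∧
    0 ≤ t ∧ ∀ z (B : Finset (Fin n)), (#B : ℝ) ≤ 50 * m → sq2 B (grad G z) ≤ t + K * br x0 m z :=
    ⟨_, rfl, le_max_right _ _, fun z B hB => by linarith [(h2 (z, B) hB).trans (le_max_left _ 0)]⟩
  have k1 : r ≤ 8 * α ^ 2 + 16 * (ω ^ 2 * t) + 40000 * (s ^ 2 * r) := by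
    refine hr.trans_le (max_le ?_ (by positivity))
    have N0 := mul_nonneg K0 (br_pos x0 m x1).le
    rcases lt_or_ge (dH univ x0 x1) (46 * m) with c | c
    · obtain ⟨⟨B, b1, b2, b3, -, b5⟩, a1, -⟩ := hg x1 c
      have c' : (dH univ x0 x1 : ℝ) < 46 * m := by exact_mod_cast c
      have l1 := Lg_max (C := univ) (TT_le W h) h1
      rw [Lg_lin] at l1
      have l2 := mul_le_mul_of_nonneg_left (br_drift (by linarith [g.A1]) g.nA b1 b2 c) K0
      have l3 := boch_sum hη hG (by linarith) b5 univ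
      have l4 : sq2 univ (aM W h x1 *ᵥ grad G x1) ≤
          2 * (ω ^ 2 * sq2 B (grad G x1)) + 5000 * (s ^ 2 * sq2 univ (grad G x1)) := by
        rw [← nrm_univ, ← nrm_univ, ← nrm_res]
        nlinarith [pow_le_pow_left₀ (nrm_nonneg _) (b3 (grad G x1)) 2,
          sq_nonneg (ω * nrm (res B (grad G x1)) - 50 * s * nrm (grad G x1))]
      have l5 := mul_le_mul_of_nonneg_left (t1 x1 B (by
        change _ ≤ _ + (dH univ x0 x1 : ℝ) / 36 at b1; linarith)) o0
      have l6 := mul_le_mul_of_nonneg_left (r1 x1) s0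
      have l7 := mul_le_mul_of_nonneg_right o2 N0
      have l8 := mul_le_mul_of_nonneg_right s2 N0
      have l9 := mul_nonneg o0 t0
      have l10 := mul_nonneg s0 r0
      rcases le_total 0 (sq2 univ (grad G x1) - 300 * K * br x0 m x1) with q | q <;> nlinarith
    · have := mul_le_mul_of_nonneg_left (br_far c) K0
      have l9 := mul_nonneg o0 t0
      have l10 := mul_nonneg s0 r0
      linarith [hK x1]
  have k2 : t ≤ 8 * β ^ 2 + 20000 * (s ^ 2 * r) := by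
    refine ht.trans_le (max_le ?_ (by positivity))
    have N0 := mul_nonneg K0 (br_pos x0 m x2).le
    have l10 := mul_nonneg s0 r0
    rcases lt_or_ge (dH univ x0 x2) (46 * m) with c | c
    · obtain ⟨⟨B, b1, b2, -, b4, b5⟩, -, a2⟩ := hg x2 c
      have l1 := Lg_max (C := univ) (TT_le W h)
        (f := fun z => 1 * sq2 B2 (grad G z) + -K * br x0 m z) (x := x2) fun z => h2 (z, B2) hB2
      rw [Lg_lin] at l1
      have l2 := mul_le_mul_of_nonneg_left (br_drift (by linarith [g.A1]) g.nA b1 b2 c) K0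
      have l3 := boch_sum hη hG (by linarith) b5 B2
      have l4 : sq2 B2 (aM W h x2 *ᵥ grad G x2) ≤ 2500 * (s ^ 2 * sq2 univ (grad G x2)) := by
        rw [← nrm_univ, ← nrm_res]
        nlinarith [pow_le_pow_left₀ (nrm_nonneg _) (b4 (grad G x2) B2 hB2) 2]
      have l6 := mul_le_mul_of_nonneg_left (r1 x2) s0
      have l8 := mul_le_mul_of_nonneg_right s2 N0
      have l9 := a2 B2 hB2
      rcases le_total 0 (sq2 B2 (grad G x2) - K * br x0 m x2) with q | q <;> nlinarith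
    · have := mul_le_mul_of_nonneg_left (br_far c) K0
      linarith [(sq2_mono (subset_univ B2) _).trans (hK x2)]
  have k3 : r ≤ 16 * α ^ 2 + 256 * (ω ^ 2 * β ^ 2) := by
    have b1 := mul_le_mul_of_nonneg_left k2 o0
    have b2 := mul_le_mul_of_nonneg_right s2 r0
    have b3 := mul_le_mul_of_nonneg_right o2 (mul_nonneg s0 r0)
    nlinarith
  refine ⟨by linarith [r1 x], fun B hB => ?_⟩
  have b1 := mul_le_mul_of_nonneg_left k3 s0
  have b2 := mul_le_mul_of_nonneg_right (mul_le_mul s2 o2 o0 (by norm_num)) β0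
  nlinarith [t1 x B hB]

end Res17

open Res17 in
theorem resGlue : ResGlue := fun hGood => ⟨320000, by norm_num,
    fun n W h c ω s A m x0 F α β O η g hna hη α0 β0 hO hF => by
  obtain ⟨G, hG⟩ := exists_res (C := univ) (TT_le W h) hη F
  have osc : ∀ x x', η * G x - η * G x' ≤ O := fun x x' => by
    obtain ⟨z, -, hz⟩ := exists_min_image univ F univ_nonempty
    have h1 := res_le (C := univ) (TT_le W h) hη (G := G) (M := F z + O) (fun y => by linarith [hG y, hO y z]) x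
    have h2 := res_le (C := univ) (TT_le W h) hη (G := fun x => -1 * G x + 0 * G x) (M := -F z)
      (fun y => by rw [Lg_lin]; linarith [hG y, hz y (mem_univ y)]) x'
    linarith
  have hK : ∀ x, sq2 univ (grad G x) ≤ n * O ^ 2 / η ^ 2 := fun x => by
    rw [le_div_iff₀ (by positivity), sq2, sum_mul]
    refine (sum_le_sum (g := fun _ => O ^ 2) fun j _ => ?_).trans_eq (by simp)
    rw [← mul_pow, ← sq_abs]
    refine pow_le_pow_left₀ (abs_nonneg _) ?_ 2
    have := abs_le.2 ⟨neg_le_of_neg_le ((neg_sub _ _).trans_le (osc (fl x j) x)), osc x (fl x j)⟩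
    rw [grad_eq, show sv x j * (G x - G (fl x j)) / 2 * η =
      sv x j * (η * G x - η * G (fl x j)) / 2 by ring, abs_div, abs_mul, abs_s, abs_two]
    linarith [abs_nonneg (η * G x - η * G (fl x j))]
  have mp := maxp (x0 := x0) (α := α) (β := β) g hη.le hG hK fun x hx => by
    have c : hd x x0 ≤ 46 * m := by
      change (dH univ x0 x : ℝ) ≤ _; exact_mod_cast hx.le
    refine ⟨hGood n W h _ ω s A m x0 x g hna c, ?_, fun B hB => ?_⟩
    · rw [← nrm_univ]; exact pow_le_pow_left₀ (nrm_nonneg _) (hF x c).1 2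
    · rw [← nrm_res]; exact pow_le_pow_left₀ (nrm_nonneg _) ((hF x c).2 B hB) 2
  have K0 : 0 ≤ n * O ^ 2 / η ^ 2 := by positivity
  have nr : ∀ x, dH univ x0 x ≤ 23 * m → n * O ^ 2 / η ^ 2 * br x0 m x ≤
      n * O ^ 2 / η ^ 2 * exp (-m) := fun x hx => mul_le_mul_of_nonneg_left (br_near hx) K0
  have e0 : 0 ≤ n * O ^ 2 / η ^ 2 * exp (-m) := by positivity
  have hX : ∀ x, dH univ x0 x ≤ 23 * m → sq2 univ (grad G x) ≤
      320000 * (α ^ 2 + ω ^ 2 * β ^ 2 + n * O ^ 2 / η ^ 2 * exp (-m)) := fun x hx => by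
    linarith [(mp x).1, nr x hx, sq_nonneg α, mul_nonneg (sq_nonneg ω) (sq_nonneg β)]
  have cv : ∀ x, hd x x0 ≤ 23 * m → dH univ x0 x ≤ 23 * m := fun x hx => by
    change (dH univ x0 x : ℝ) ≤ _ at hx; exact_mod_cast hx
  refine ⟨grad G, fun x => η * G x - η * G x0, η * G x0, fun x j b => Ta.off_grad G j x b,
    fun x => ?_, fun x => ⟨(dot_sq2 _).trans_le (hK x), abs_le.2
      ⟨neg_le_of_neg_le ((neg_sub _ _).trans_le (osc x0 x)), osc x x0⟩⟩,
    fun x hx => ⟨(dot_sq2 _).trans_le (hX x (cv x hx)), ?_⟩, fun x hx B hB => ?_⟩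
  · have : grad G x ⬝ᵥ tau W h x = -Lg univ (TT W h) G x := by
      rw [Lg, ← sum_neg_distrib]
      exact sum_congr rfl fun k _ => by simp only [tau, TT]; ring
    linarith [hG x]
  · have h1 := tail (C := univ) (s0 := x0) (d0 := 23 * m) (fun z hz j hj => abs_le_sqrt
      ((single_le_sum (f := fun j => grad G z j ^ 2) (fun _ _ => sq_nonneg _) hj).trans (hX z hz)))
      _ (cv x hx) x rfl fun i hi => absurd (mem_univ i) hi
    have h2 : (dH univ x0 x : ℝ) ≤ n := by exact_mod_cast dH_le x0 x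
    rw [← mul_sub, abs_mul, abs_of_pos hη]
    refine (mul_le_mul_of_nonneg_left (h1.trans (mul_le_mul_of_nonneg_left h2 (by positivity)))
      hη.le).trans_eq (by ring)
  · rw [res_dot]
    linarith [(mp x).2 B hB, nr x (cv x hx), sq_nonneg β, mul_nonneg (sq_nonneg s) (sq_nonneg α)]⟩

end Crest.Agent.T157.En

end
end

-- ▼ part T157/EnLip_16
section

/-!
# Row 157, block B, S1, END: the two Lipschitz bounds (helper16)
-/

set_option autoImplicit false
set_option linter.unusedVariables false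

noncomputable section

namespace Crest.Agent.T157.En

namespace Lip16

open Matrix Finset Real
open Crest.Agent.T157.E (Cube sv)
open Crest.Agent.T157.Rec (fl grad)
open Crest.Agent.T157.Eig
open Crest.Agent.T157.S3 (V Mx hf Dg Rg)
open Crest.Agent.T157.S3.Rg (fro dM fl_eq nrm_mono nrm_colsum fro_rows fro_le_of_sq had abs_rem
  opn_dM_mul)
open Crest.Agent.T157.S1.F25 (gg gg_tay sq_lip tay2 abs_tanh jac_hf)

variable {n : ℕ}

lemma sech_le (t : ℝ) : |1 - tanh t ^ 2| ≤ 1 := by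
  have := abs_le.1 (abs_tanh t)
  rw [abs_le]; constructor <;> nlinarith

lemma tr {P : Mx n} {v : V n} {c d : ℝ} (h1 : opn P ≤ c) (h2 : nrm v ≤ d) : nrm (Pᵀ *ᵥ v) ≤ c * d :=
  (nrm_mulVec_le _ _).trans (mul_le_mul ((opn_transpose _).trans_le h1) h2 (nrm_nonneg _)
    ((opn_nonneg _).trans h1))

/-- weighted column sums of a Hadamard product -/
def cs (c : ℝ) (a : V n) (P Q : Mx n) : V n := fun j => ∑ k, c * (|P k j| * |a k * Q k j|)

lemma cs_le {c p q : ℝ} {a : V n} {P Q : Mx n} (hc : 0 ≤ c) (ha : nrm a ≤ 1) (h1 : opn P ≤ p)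
    (h2 : opn Q ≤ q) : nrm (cs c a P Q) ≤ c * (p * q) := by
  have h3 : fro (of fun k j => a k * Q k j) ≤ q :=
    (fro_rows (v := a) (A := Q) fun k j => (abs_mul _ _).le).trans
      ((mul_le_of_le_one_left (opn_nonneg _) ha).trans h2)
  exact (nrm_colsum (R := of fun k j => c * (|P k j| * |a k * Q k j|)) (X := P)
    (Y := of fun k j => a k * Q k j) hc fun k j =>
      (abs_of_nonneg (by rw [of_apply]; positivity)).le).trans (mul_le_mul_of_nonneg_left
        (mul_le_mul h1 h3 (S3.Rg.fro_nonneg _) ((opn_nonneg _).trans h1)) hc)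

lemma abs_step (x : Cube n) (j : Fin n) (t : ℝ) : |-(2 * sv x j * t)| = 2 * |t| := by
  rw [abs_neg, abs_mul, abs_mul, S3.Rg.abs_sv, abs_two, mul_one]

/-- the response of the conditional means, tested against a unit vector -/
theorem lip_gg {u Ω : Cube n → V n} {a : V n} {c e : ℝ} {x : Cube n} (e1 : e ≤ 1) (ha : nrm a ≤ 1)
    (hu : opn (dM u x) ≤ c) (o1 : ∀ k, |Ω x k| ≤ e) (o2 : opn (dM Ω x) ≤ e) :
    nrm (grad (fun z => ∑ k, a k * gg (u z k) (Ω z k)) x) ≤ 8 * e * (1 + c) ^ 2 := by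
  have e0 : 0 ≤ e := (opn_nonneg _).trans o2
  have c0 : 0 ≤ c := (opn_nonneg _).trans hu
  set X := dM u x with hX
  set Y := dM Ω x with hY
  set v1 : V n := fun k => a k * (tanh (u x k) ^ 2 - tanh (u x k + Ω x k) ^ 2) with hv1
  set v2 : V n := fun k => a k * (1 - tanh (u x k + Ω x k) ^ 2) with hv2
  have n1 : nrm v1 ≤ 2 * e := (nrm_mono (v := a) (by positivity) fun k => by
    have := sq_lip (u x k) (u x k + Ω x k)
    rw [sub_add_cancel_left, abs_neg] at this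
    rw [hv1, abs_mul, mul_comm]
    exact mul_le_mul_of_nonneg_right (this.trans (by linarith [o1 k])) (abs_nonneg _)).trans
      (mul_le_of_le_one_right (by positivity) ha)
  have n2 : nrm v2 ≤ 1 := (nrm_mono (v := a) zero_le_one fun k => by
    rw [hv2, abs_mul, mul_comm]
    exact mul_le_mul_of_nonneg_right (sech_le _) (abs_nonneg _)).trans (by rwa [one_mul])
  set l : V n := Xᵀ *ᵥ v1 + Yᵀ *ᵥ v2 with hl
  set r : V n := cs (8 * e) a X X + cs 4 a Y Y + cs 4 a X Y with hr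
  have key : ∀ j, |(grad (fun z => ∑ k, a k * gg (u z k) (Ω z k)) x - l) j| ≤ 1 * |r j| := fun j => by
    refine le_trans ?_ ((le_abs_self _).trans_eq (one_mul _).symm)
    simp only [hl, hr, cs, Pi.add_apply, Pi.sub_apply, mulVec, dotProduct, transpose_apply,
      S3.Rg.grad_sum, ← sum_add_distrib, ← sum_sub_distrib]
    refine (abs_sum_le_sum_abs _ _).trans (sum_le_sum fun k _ => ?_)
    have d1 : u (fl x j) k = u x k + -(2 * sv x j * X k j) := fl_eq (fun y => u y k) x j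
    have d2 : Ω (fl x j) k = Ω x k + -(2 * sv x j * Y k j) := fl_eq (fun y => Ω y k) x j
    have h1 := gg_tay (u x k) (Ω x k) (-(2 * sv x j * X k j)) (-(2 * sv x j * Y k j))
    rw [← sq_abs (-(2 * sv x j * X k j)), ← sq_abs (-(2 * sv x j * Y k j)), ← d1, ← d2, abs_step,
      abs_step] at h1
    have h2 := mul_le_mul_of_nonneg_left (o1 k) (show 0 ≤ 16 * |X k j| ^ 2 by positivity)
    have h3 := mul_le_mul_of_nonneg_left (h1.trans (show _ ≤ 16 * |X k j| ^ 2 * e +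
      8 * |Y k j| ^ 2 + 8 * (|X k j| * |Y k j|) by linarith)) (show 0 ≤ |a k| / 2 by positivity)
    refine le_trans (le_of_eq ?_) (h3.trans (le_of_eq ?_))
    · rw [show |a k| / 2 = |-(sv x j * a k / 2)| by
        rw [abs_neg, abs_div, abs_mul, S3.Rg.abs_sv, abs_two, one_mul], ← abs_mul, Rec.grad_eq]
      congr 1
      simp only [hv1, hv2]
      linear_combination (a k * ((tanh (u x k) ^ 2 - tanh (u x k + Ω x k) ^ 2) * X k j +
        (1 - tanh (u x k + Ω x k) ^ 2) * Y k j)) * Rec.sv_mul_self x j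
    · simp only [abs_mul]; ring
  have h1 := (nrm_mono zero_le_one key).trans_eq (one_mul _)
  have h2 := nrm_add_le l (grad (fun z => ∑ k, a k * gg (u z k) (Ω z k)) x - l)
  have h4 : nrm l ≤ _ := (nrm_add_le _ _).trans (add_le_add (tr hu n1) (tr o2 n2))
  have h5 : nrm r ≤ _ := (nrm_add_le _ _).trans (add_le_add ((nrm_add_le _ _).trans (add_le_add
    (cs_le (by positivity) ha hu hu) (cs_le (by positivity) ha o2 (o2.trans e1))))
      (cs_le (by positivity) ha hu o2))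
  rw [add_sub_cancel] at h2
  nlinarith [mul_nonneg e0 c0]

/-- the Jacobian of `1 - tanh²` -/
theorem opn_sech {u : Cube n → V n} {c : ℝ} {x : Cube n} (hu : opn (dM u x) ≤ c) :
    opn (dM (fun z k => 1 - tanh (u z k) ^ 2) x) ≤ 8 * (1 + c) ^ 2 := by
  have c0 : 0 ≤ c := (opn_nonneg _).trans hu
  set X := dM u x with hX
  set d : V n := fun k => -2 * (tanh (u x k) * (1 - tanh (u x k) ^ 2)) with hd
  have b1 : opn (diagonal d * X) ≤ 2 * c := (opn_mul_le _ _).trans (mul_le_mul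
    (opn_diagonal_le zero_le_two fun k => by
      rw [hd, abs_mul, abs_mul, abs_neg, abs_two]
      nlinarith [mul_le_mul (abs_tanh (u x k)) (sech_le (u x k)) (abs_nonneg _) zero_le_one])
    hu (opn_nonneg _) zero_le_two)
  have b2 : opn (dM (fun z k => 1 - tanh (u z k) ^ 2) x - diagonal d * X) ≤ 8 * (opn X * opn X) :=
    had (by norm_num) fun k j => by
      have d1 : u (fl x j) k = u x k + -(2 * sv x j * X k j) := fl_eq (fun y => u y k) x j
      have h1 := tay2 (u x k) (-(2 * sv x j * X k j))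
      rw [← sq_abs (-(2 * sv x j * X k j)), ← d1, abs_step] at h1
      have h3 := mul_le_mul_of_nonneg_left h1 (show (0 : ℝ) ≤ 1 / 2 by positivity)
      refine le_trans (le_of_eq ?_) (h3.trans (le_of_eq (by ring)))
      rw [show (1 / 2 : ℝ) = |-(sv x j / 2)| by rw [abs_neg, abs_div, S3.Rg.abs_sv, abs_two],
        ← abs_mul, Matrix.sub_apply, diagonal_mul, dM, of_apply, Rec.grad_eq]
      congr 1
      simp only [hd]
      linear_combination (-2 * (tanh (u x k) * (1 - tanh (u x k) ^ 2)) * X k j) * Rec.sv_mul_self x j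
  have h := opn_add_le (diagonal d * X) (dM (fun z k => 1 - tanh (u z k) ^ 2) x - diagonal d * X)
  rw [add_sub_cancel] at h
  nlinarith [mul_le_mul hu hu (opn_nonneg _) c0]

/-- gradient of a scalar product -/
theorem nrm_grad_dot {a b : Cube n → V n} {x : Cube n} {p q e L : ℝ} (a1 : nrm (a x) ≤ p)
    (a2 : opn (dM a x) ≤ q) (b1 : nrm (b x) ≤ L) (b2 : opn (dM b x) ≤ e) (b3 : fro (dM b x) ≤ L) :
    nrm (grad (fun z => ∑ k, a z k * b z k) x) ≤ e * p + 3 * (q * L) := by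
  have e : grad (fun z => ∑ k, a z k * b z k) x = (dM b x)ᵀ *ᵥ a x + (dM a x)ᵀ *ᵥ b x -
      fun j => ∑ k, (of fun k j => 2 * sv x j * (dM a x k j * dM b x k j)) k j := by
    funext j
    simp only [S3.Rg.grad_sum, S3.Rg.grad_mul, Pi.add_apply, Pi.sub_apply, mulVec, dotProduct,
      transpose_apply, dM, of_apply, ← sum_add_distrib, ← sum_sub_distrib]
    exact sum_congr rfl fun k _ => by ring
  have h1 := (nrm_colsum zero_le_two (abs_rem a b x)).trans (mul_le_mul_of_nonneg_left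
    (mul_le_mul a2 b3 (S3.Rg.fro_nonneg _) ((opn_nonneg _).trans a2)) zero_le_two)
  rw [e]
  refine (nrm_sub_le _ _).trans ((add_le_add ((nrm_add_le _ _).trans
    (add_le_add (tr b2 a1) (tr a2 b1))) h1).trans_eq (by ring))

end Lip16

open Crest.Agent.T157.Eig Crest.Agent.T157.S3.Rg Lip16 in
/-- **LIP** -/
theorem lipStmt : LipStmt := by
  refine ⟨100, by norm_num, fun n W h c e L Ω _ _ hc L0 e1 hΩ x => ?_⟩
  have hu : opn (dM (S3.hf W h) x) ≤ c := ((congrArg opn (S1.F25.jac_hf W h x)).trans_le hc)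
  have o1 : ∀ k, |Ω x k| ≤ e := fun k => (norm_le_pi_norm (Ω x) k).trans (hΩ x).1
  have o2 : opn (dM Ω x) ≤ e := (hΩ x).2.1
  have e0 : 0 ≤ e := (opn_nonneg _).trans o2
  have c0 : 0 ≤ c := (opn_nonneg _).trans hc
  have q1 : 1 ≤ (1 + c) ^ 2 := by nlinarith
  refine ⟨fun a ha => (lip_gg e1 ha hu o1 o2).trans (by nlinarith), ?_⟩
  have a1 : nrm (S3.Dg W h x * Ω x) ≤ L := (nrm_mul_le zero_le_one fun k => sech_le _).trans
    ((one_mul _).trans_le (hΩ x).2.2.1)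
  have a2 := opn_dM_mul (a := S3.Dg W h) (v := Ω) (x := x) (A := 8 * (1 + c) ^ 2) (by positivity) e0
    (fun k => (sech_le _).trans (by linarith)) (opn_sech hu) o1 o2
  have h1 := nrm_grad_dot (a := fun y => S3.Dg W h y * Ω y) a1 a2 (hΩ x).2.2.1 o2
    (fro_le_of_sq L0 (hΩ x).2.2.2)
  have e2 : F1 W h Ω = fun z => ∑ k, (S3.Dg W h z * Ω z) k * Ω z k := funext fun z => by
    simp only [F1, dotProduct, Pi.mul_apply, mul_assoc]
  rw [e2]
  refine h1.trans ?_
  nlinarith [mul_le_mul_of_nonneg_left q1 (mul_nonneg e0 L0), mul_nonneg e0 L0]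

end Crest.Agent.T157.En

end
end

-- ▼ part T157/EnKs_43
section

/-!
# Row 157, block B, S1 END (helper43): Kearns-Saul at a site, local fields, energy under `ν`
-/

set_option autoImplicit false

noncomputable section

namespace Crest.Agent.T157.En

open Real Matrix Finset Function
open Crest.Agent.T157.E Crest.Agent.T157.SL
open Crest.Agent.T157.Ta (Pr Ar Cnt cm chi kls cg)
open Crest.Agent.T157.EnS (o1)
open Crest.Agent.T157.Rec (grad)
open Crest.Agent.T157.Eig (nrm)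
open Crest.Agent.T157.S3 (V Mx hf Dg)
open Crest.ProbabilityR.SpinGlassDynamics (spin)

namespace Ks43

variable {n : ℕ} {v w Θ : Cube n → ℝ} {x : Cube n} {W : Mx n} {h : V n}

theorem mul_chi_le (p : Pr v w) (i : Fin n) (hx : v x ≠ 0) (m : ℝ) :
    m * chi v w i x ≤ kls v w i x + cg (cm w i x) m := by
  have h1 := Ta.mean_le_kl (p.edge i hx) fun b => m * sv (update x i b) i
  rw [← Ta.kls_eq_kl, ← Ta.siteM_eq_mean v (fun z => m * sv z i),
    ← Ta.siteM_eq_mean w (fun z => exp (m * sv z i)),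
    Ta.log_siteM_exp p.hw (p.pos hx).2.ne'] at h1
  have h2 := Ta.siteM_sub_siteM p hx (fun z => m * sv z i) i
  have h3 : grad (fun z => m * sv z i) x i = m := by
    simp only [grad, incr, sv, update_self, spin]; simp
  rw [h3] at h1 h2
  linarith

theorem sech_le (u : ℝ) : (1 - tanh u ^ 2) * exp |u| * |u| ≤ 4 := by
  have h1 : exp |u| / 2 ≤ cosh u := by
    rw [← cosh_abs, cosh_eq]; linarith [exp_pos (-|u|)]
  have h2 : |u| ≤ exp |u| := by linarith [add_one_le_exp |u|]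
  have h3 := exp_pos |u|
  have h4 := cosh_pos u
  rw [← Ue.sq2_eq, Ue.sq2, mul_assoc, div_mul_eq_mul_div, one_mul, div_le_iff₀ (by positivity)]
  nlinarith [mul_le_mul h1 h1 (by positivity) h4.le, mul_le_mul_of_nonneg_left h2 h3.le]

theorem ks (p : Pr v w) (i : Fin n) (hx : v x ≠ 0) {u b : ℝ} (hu : cm w i x = tanh u) (hb : 0 < b)
    (hbu : b ≤ |u|) : chi v w i x ^ 2 ≤ 16 / b * kls v w i x := by
  have h1 := mul_chi_le p i hx (b * chi v w i x / 8)
  have h2 := Ta.cg_le' (Ta.abs_cm_le p.hw.nn i x) (b * chi v w i x / 8)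
  have h3 := Ta.abs_chi_le p i x
  have h4 : 2 * |b * chi v w i x / 8| ≤ |u| := by
    rw [abs_div, abs_mul, abs_of_pos hb, abs_of_pos (by norm_num : (0 : ℝ) < 8)]
    nlinarith [mul_le_mul_of_nonneg_left h3 hb.le]
  have h0 : 0 ≤ 1 - tanh u ^ 2 := by rw [← Ue.sq2_eq]; exact (Ue.sq2_pos u).le
  have h5 : (1 - tanh u ^ 2) * exp (2 * |b * chi v w i x / 8|) * b ≤ 4 :=
    (mul_le_mul (mul_le_mul_of_nonneg_left (exp_le_exp.2 h4) h0) hbu hb.le (by positivity)).trans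
      (sech_le u)
  rw [hu] at h1 h2
  rw [div_mul_eq_mul_div, le_div_iff₀ hb]
  generalize (1 - tanh u ^ 2) * exp (2 * |b * chi v w i x / 8|) = E at h2 h5
  nlinarith [mul_le_mul_of_nonneg_right h5 (mul_nonneg hb.le (sq_nonneg (chi v w i x)))]

theorem cm_exp (U : Cube n → ℝ) (j : Fin n) (x : Cube n) :
    cm (fun x => exp (U x)) j x = tanh (grad U x j) := by
  simp only [Ta.cm, siteM, sv, update_self, spin, grad, incr, if_true, Bool.false_eq_true, if_false]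
  generalize U (update x j true) = a
  generalize U (update x j false) = b
  have e1 : exp a = exp ((a + b) / 2) * exp ((a - b) / 2) := by rw [← exp_add]; congr 1; ring
  have e2 : exp b = exp ((a + b) / 2) * exp (-((a - b) / 2)) := by rw [← exp_add]; congr 1; ring
  rw [tanh_eq_sinh_div_cosh, sinh_eq, cosh_eq, e1, e2]
  have := exp_pos ((a - b) / 2)
  have := exp_pos (-((a - b) / 2))
  have := exp_pos ((a + b) / 2)
  field_simp
  ring

theorem grad_quad (hW : Wᵀ = W) (h0 : ∀ j, W j j = 0) (x : Cube n) (j : Fin n) :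
    grad (fun x => sv x ⬝ᵥ W *ᵥ sv x) x j = 2 * (W *ᵥ sv x) j := by
  have e : sv x ⬝ᵥ W *ᵥ Pi.single j (-2 * sv x j) = -2 * sv x j * (W *ᵥ sv x) j := by
    rw [dotProduct_mulVec, ← mulVec_transpose, hW, dotProduct_single, mul_comm]
  rw [Rec.grad_eq, eq_add_of_sub_eq (Rec.sv_fl_sub x j), mulVec_add, add_dotProduct, dotProduct_add,
    dotProduct_add, e, single_dotProduct, single_dotProduct, mulVec_single, Pi.smul_apply, col_apply,
    h0]
  simp only [smul_zero]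
  linear_combination 2 * (W *ᵥ sv x) j * Rec.sv_mul_self x j

theorem is_cm (hW : Wᵀ = W) (h0 : ∀ j, W j j = 0) (hw : Is w W h Θ) :
    (∀ x, 0 < w x) ∧ ∀ i x, cm w i x = tanh (hf W h x i + grad Θ x i) := by
  obtain ⟨c, hw⟩ := hw
  have e : w = fun x => exp (1 / 2 * (sv x ⬝ᵥ W *ᵥ sv x) + h ⬝ᵥ sv x + (Θ x + c)) :=
    funext fun x => by rw [hw, ising, ← exp_add]
  refine ⟨fun x => by rw [e]; exact exp_pos _, fun i x => ?_⟩
  rw [e, cm_exp, Rec.grad_add, Rec.grad_add, Rec.grad_add, Rec.grad_const_mul, Rec.grad_lin,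
    Rec.grad_const]
  simp only [Pi.add_apply, Pi.smul_apply, grad_quad hW h0, smul_eq_mul, hf, Pi.zero_apply]
  congr 1; ring

theorem sq_sub_le {a b : ℝ} (ha : |a| ≤ 1) (hb : |b| ≤ 1) : a ^ 2 - b ^ 2 ≤ 2 * |a - b| := by
  have h1 : |a + b| ≤ 2 := (abs_add_le a b).trans (by linarith)
  calc a ^ 2 - b ^ 2 = (a + b) * (a - b) := by ring
    _ ≤ |a + b| * |a - b| := by rw [← abs_mul]; exact le_abs_self _
    _ ≤ _ := mul_le_mul_of_nonneg_right h1 (abs_nonneg _)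

theorem site {u g o q e : ℝ} (hq : |q| ≤ 1) (ho : |o| ≤ e) (he : e ≤ 1) :
    (1 - tanh u ^ 2) * (o * o) ≤
      24 * (g ^ 2 * (1 - q ^ 2) + (g - o) * (g - o) + e * ((q - tanh (u + g)) ^ 2 / 2 + o * o)) := by
  have e0 : 0 ≤ e := (abs_nonneg o).trans ho
  have t1 : ∀ a : ℝ, |tanh a| ≤ 1 := fun a => (abs_tanh_lt_one a).le
  have h1 := Ue.sq2_le u (u + o)
  have h2 : exp (2 * |u - (u + o)|) ≤ 8 := by
    rw [sub_add_cancel_left, abs_neg]
    refine (exp_le_exp.2 (by linarith : 2 * |o| ≤ 1 + 1)).trans ?_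
    rw [exp_add]
    nlinarith [exp_one_lt_d9, exp_pos 1]
  have h3 := h1.trans (mul_le_mul_of_nonneg_right h2 (Ue.sq2_pos _).le)
  rw [Ue.sq2_eq, Ue.sq2_eq] at h3
  have h4 := sq_sub_le (t1 (u + g)) (t1 (u + o))
  have h5 := Ue.abs_tanh_sub_le (u + g) (u + o)
  rw [add_sub_add_left_eq_sub] at h5
  have h6 := sq_sub_le hq (t1 (u + g))
  have h7 : 1 - tanh u ^ 2 ≤ 8 * ((1 - q ^ 2) + 2 * |q - tanh (u + g)| + 2 * |g - o|) := by linarith
  have q0 : 0 ≤ 1 - q ^ 2 := by nlinarith [abs_le.1 hq]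
  have q1 : 1 - q ^ 2 ≤ 1 := by nlinarith [sq_nonneg q]
  rw [← sq_abs (q - tanh (u + g)), ← abs_mul_abs_self (g - o), ← abs_mul_abs_self o]
  have a1 : |o| * |o| ≤ 2 * g ^ 2 + 2 * (|g - o| * |g - o|) := by
    rw [abs_mul_abs_self, abs_mul_abs_self]; nlinarith [sq_nonneg (2 * g - o)]
  have d0 := abs_nonneg (g - o)
  have c0 := abs_nonneg (q - tanh (u + g))
  have o0 := abs_nonneg o
  generalize |g - o| = d at *
  generalize |q - tanh (u + g)| = c at *
  generalize |o| = p at *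
  generalize 1 - q ^ 2 = D at *
  have b1 : D * (p * p) ≤ 2 * (g ^ 2 * D) + 2 * (d * d) := by
    nlinarith [mul_le_mul_of_nonneg_left a1 q0, mul_le_mul_of_nonneg_right q1 (mul_self_nonneg d)]
  have b2 : 2 * c * (p * p) ≤ e * (c ^ 2 + p * p) := by
    nlinarith [mul_le_mul_of_nonneg_left ho (mul_nonneg c0 o0),
      mul_nonneg e0 (sq_nonneg (c - p))]
  have b3 : 2 * d * (p * p) ≤ d * d + e * (p * p) := by
    have : p * p ≤ e := by nlinarith
    nlinarith [sq_nonneg (d - p * p), mul_le_mul_of_nonneg_right this (mul_self_nonneg p)]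
  have b4 := mul_le_mul_of_nonneg_right h7 (mul_self_nonneg p)
  nlinarith [mul_nonneg (sq_nonneg g) q0, mul_nonneg e0 (sq_nonneg c), mul_nonneg e0 (mul_self_nonneg p)]

theorem dot_le {a : V n} {r : ℝ} (h : nrm a ≤ r) : a ⬝ᵥ a ≤ r ^ 2 :=
  (Eig.nrm_le_iff ((Eig.nrm_nonneg a).trans h)).1 h

theorem energy {G : Cube n → ℝ} {e L : ℝ} {Ω : Cube n → V n} (hW : Wᵀ = W) (h0 : ∀ j, W j j = 0)
    (hv : Wt v) (hw : Is w W h Θ) (hc : Cls e L Θ Ω G) (he : e ≤ 1) :
    mean v (F1 W h Ω) ≤ 24 * (Eg Θ v + Ex G v + e * (Ar o1 v w + L ^ 2)) := by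
  obtain ⟨w0, hm⟩ := is_cm hW h0 hw
  have p : Pr v w := ⟨hv, ⟨fun x => (w0 x).le, sum_pos (fun x _ => w0 x) univ_nonempty⟩,
    fun x e => absurd e (w0 x).ne'⟩
  have e0 : 0 ≤ e := (norm_nonneg _).trans (hc.rg fun _ => true).1
  have h1 : ∀ x, F1 W h Ω x ≤ 24 * (∑ i, grad Θ x i ^ 2 * (1 - cm v i x ^ 2) + G x ^ 2 +
      e * (1 / 2 * ∑ i, chi v w i x ^ 2 + L ^ 2)) := fun x => by
    have a1 := dot_le (hc.ex x)
    have a2 := mul_le_mul_of_nonneg_left (dot_le (hc.rg x).2.2.1) e0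
    have a3 : ∑ i, (1 - tanh (hf W h x i) ^ 2) * (Ω x i * Ω x i) ≤ ∑ i, 24 * (grad Θ x i ^ 2 * (1 - cm v i x ^ 2) +
        (grad Θ x - Ω x) i * (grad Θ x - Ω x) i + e * (chi v w i x ^ 2 / 2 + Ω x i * Ω x i)) :=
      Finset.sum_le_sum fun i _ => by
        rw [Ta.chi, hm]
        exact site (Ta.abs_cm_le hv.nn i x) ((norm_le_pi_norm (Ω x) i).trans (hc.rg x).1) he
    simp only [← mul_sum, sum_add_distrib, ← sum_div] at a3
    simp only [dotProduct] at a1 a2
    change ∑ i, (1 - tanh (hf W h x i) ^ 2) * (Ω x i * Ω x i) ≤ _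
    linarith
  refine (hv.mean_mono h1).trans ?_
  have h2 := mul_le_mul_of_nonneg_left (EnS.Xc_le p) e0
  rw [mean_const_mul, mean_add, mean_add, mean_const_mul, mean_add, mean_const_mul, mean_sum,
    mean_sum, hv.mean_const]
  simp only [EnS.Xc] at h2
  simp only [Eg, Ex, Cnt, Ta.Cs]
  linarith

end Ks43

theorem ksStmt : KsStmt :=
  ⟨fun _ _ _ i _ _ _ p hx hu hb hbu => Ks43.ks p i hx hu hb hbu,
    fun _ _ _ _ _ hW h0 hw => Ks43.is_cm hW h0 hw,
    24, by norm_num, fun _ _ _ _ _ _ _ _ _ _ hW h0 hv hw hc he => Ks43.energy hW h0 hv hw hc he⟩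

end Crest.Agent.T157.En

end
end

-- ▼ part T157/EnTr_15
section

/-!
# Row 157, block B, S1, the END: transfer of Lipschitz functions (`En.trGlue`, helper15)
-/

set_option autoImplicit false
set_option linter.unusedVariables false

noncomputable section

namespace Crest.Agent.T157.En

open MeasureTheory Real Matrix Finset Filter Set
open Crest.Agent.T157.E Crest.Agent.T157.SL
open Crest.Agent.T157.Ta (Pr Ar Cnt Dm cm chi kls)
open Crest.Agent.T157.EnS (fR o1 ep Xc)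
open Crest.Agent.T157.Rec (grad)
open Crest.Agent.T157.Eig (nrm opn)
open Crest.Agent.T157.S3 (V Mx hf tau Dg TS Rg)
open Crest.Agent.T157.S3F (Free)
open Crest.Agent.T157.Rip (Sp SpJ res)

namespace Tr15

variable {n : ℕ}

theorem th_lip (x y : ℝ) : |tanh (x + y) - tanh x| ≤ |y| := by
  have hd : ∀ z : ℝ, HasDerivAt tanh (1 - tanh z ^ 2) z := fun z => by
    have hc := (cosh_pos z).ne'
    have h := (hasDerivAt_sinh z).div (hasDerivAt_cosh z) hc
    have e : tanh = sinh / cosh := funext fun t => tanh_eq_sinh_div_cosh t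
    have e2 : 1 - tanh z ^ 2 = (cosh z * cosh z - sinh z * sinh z) / cosh z ^ 2 := by
      rw [tanh_eq_sinh_div_cosh]; field_simp
    rw [e2, e]
    exact h
  have := (convex_univ (𝕜 := ℝ) (E := ℝ)).norm_image_sub_le_of_norm_hasDerivWithin_le (C := 1)
    (f := tanh) (f' := fun z => 1 - tanh z ^ 2) (x := x) (y := x + y)
    (fun z _ => (hd z).hasDerivWithinAt)
    (fun z _ => by
      rw [Real.norm_eq_abs, abs_le]
      have := tanh_sq_lt_one z
      constructor <;> nlinarith [sq_nonneg (tanh z)]) (mem_univ _) (mem_univ _)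
  simpa using this

/-- Cauchy-Schwarz for the mean -/
theorem cs_mean {u : Cube n → ℝ} (hu : Wt u) (U g : Cube n → V n) :
    (mean u fun x => U x ⬝ᵥ g x) ^ 2 ≤
      (mean u fun x => U x ⬝ᵥ U x) * mean u fun x => g x ⬝ᵥ g x := by
  have h := discrim_le_zero (a := mean u fun x => U x ⬝ᵥ U x) (b := 2 * mean u fun x => U x ⬝ᵥ g x)
    (c := mean u fun x => g x ⬝ᵥ g x) fun t => by
      have h0 := hu.mean_nonneg (f := fun x => (t • U x + g x) ⬝ᵥ (t • U x + g x))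
        fun x => Eig.dot_self_nonneg _
      have e : (fun x => (t • U x + g x) ⬝ᵥ (t • U x + g x)) =
          fun x => (t * t) * (U x ⬝ᵥ U x) + (2 * t) * (U x ⬝ᵥ g x) + g x ⬝ᵥ g x := by
        funext x
        simp only [add_dotProduct, dotProduct_add, smul_dotProduct, dotProduct_smul, smul_eq_mul,
          dotProduct_comm (g x) (U x)]
        ring
      rw [e, mean_add, mean_add, mean_const_mul, mean_const_mul] at h0
      linarith
  rw [discrim] at h
  nlinarith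

theorem nrm_res (B : Finset (Fin n)) (v : V n) : nrm (res B v) ≤ nrm v := by
  refine Real.sqrt_le_sqrt (Finset.sum_le_sum fun i _ => ?_)
  simp only [res]
  split_ifs
  · exact le_rfl
  · simpa using mul_self_nonneg (v i)

/-- the divergence of a free flow under `u` -/
theorem flow_le {W : Mx n} {h : V n} {u w Θ : Cube n → ℝ} {U : Cube n → V n} {L a P Q : ℝ}
    (hu : Wt u) (fr : Free U) (hc : ∀ i x, cm w i x = tanh (hf W h x i + grad Θ x i))
    (hL : ∀ x, nrm (grad Θ x) ≤ L) (ha : Xc u w ≤ a) (hP : 0 ≤ P) (hQ : 0 ≤ Q)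
    (hU : (mean u fun x => U x ⬝ᵥ U x) ≤ P + Q) :
    (mean u fun x => U x ⬝ᵥ tau W h x) ^ 2 ≤ P * (2 * a + 2 * L ^ 2) + Q * (4 * n) := by
  set g : Cube n → V n := fun x j => cm u j x - tanh (hf W h x j) with hg
  have e : (mean u fun x => U x ⬝ᵥ tau W h x) = mean u fun x => U x ⬝ᵥ g x := by
    simp only [dotProduct, mean_sum]
    refine Finset.sum_congr rfl fun j _ => ?_
    have h1 := Ta.mean_cm (i := j) (u := fun x => U x j) hu fun x b => fr x j b
    simp only [tau, hg, mul_sub, mean_sub, h1]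
  have M0 : 0 ≤ mean u fun x => g x ⬝ᵥ g x := hu.mean_nonneg fun x => Eig.dot_self_nonneg _
  have M1 : (mean u fun x => g x ⬝ᵥ g x) ≤ 4 * n := hu.mean_le fun x => by
    have : ∀ j, g x j * g x j ≤ 4 := fun j => by
      have h1 := abs_le.1 (Ta.abs_cm_le hu.nn j x)
      have h2 := neg_one_lt_tanh (hf W h x j)
      have h3 := tanh_lt_one (hf W h x j)
      simp only [hg]
      nlinarith
    calc g x ⬝ᵥ g x ≤ ∑ j : Fin n, (4 : ℝ) := Finset.sum_le_sum fun j _ => this j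
      _ = 4 * n := by simp [mul_comm]
  have M2 : (mean u fun x => g x ⬝ᵥ g x) ≤ 2 * a + 2 * L ^ 2 := by
    have hp : ∀ x, g x ⬝ᵥ g x ≤ 2 * (∑ j, chi u w j x ^ 2) + 2 * L ^ 2 := fun x => by
      have h1 : grad Θ x ⬝ᵥ grad Θ x ≤ L ^ 2 := by
        rw [← Eig.nrm_sq]
        exact pow_le_pow_left₀ (Eig.nrm_nonneg _) (hL x) 2
      have h2 : ∀ j, g x j * g x j ≤ 2 * chi u w j x ^ 2 + 2 * (grad Θ x j * grad Θ x j) := fun j => by
        have h3 := sq_le_sq.2 (th_lip (hf W h x j) (grad Θ x j))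
        rw [← hc] at h3
        have h4 : g x j = chi u w j x + (cm w j x - tanh (hf W h x j)) := by simp only [hg, chi]; ring
        rw [h4]
        nlinarith [sq_nonneg (chi u w j x - (cm w j x - tanh (hf W h x j)))]
      calc g x ⬝ᵥ g x ≤ ∑ j, (2 * chi u w j x ^ 2 + 2 * (grad Θ x j * grad Θ x j)) :=
            Finset.sum_le_sum fun j _ => h2 j
        _ = 2 * (∑ j, chi u w j x ^ 2) + 2 * (grad Θ x ⬝ᵥ grad Θ x) := by
            rw [Finset.sum_add_distrib, ← Finset.mul_sum, ← Finset.mul_sum]; rfl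
        _ ≤ _ := by linarith
    have h5 := hu.mean_mono hp
    rw [mean_add, mean_const_mul, hu.mean_const, mean_sum] at h5
    have : Xc u w = ∑ j, mean u fun x => chi u w j x ^ 2 := rfl
    linarith
  rw [e]
  refine (cs_mean hu U g).trans ((mul_le_mul_of_nonneg_right hU M0).trans ?_)
  rw [add_mul]
  exact add_le_add (mul_le_mul_of_nonneg_left M2 hP) (mul_le_mul_of_nonneg_left M1 hQ)

theorem num {C l A L N b X a r : ℝ} (hC : 1 ≤ C) (hN : 1 ≤ N) (hA : 0 ≤ A) (hb0 : 0 ≤ b)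
    (hb1 : b ≤ 1) (hl : l ^ 2 ≤ 100 * N) (hX0 : 0 ≤ X) (hX : X ≤ 17 * C * l ^ 2 + 16 * C / N ^ 3)
    (ha : a ^ 2 ≤ 17 * C * l ^ 2 * (2 * (2 * A) + 2 * L ^ 2) + (16 * C / N ^ 3 + 16 * N ^ 9 * b) * (4 * N))
    (hr : |r| ≤ 2 * N * (1 / N ^ 3) * √X + 4 * N * b) :
    (a + r) ^ 2 ≤ 30000 * C * (l ^ 2 * (A + L ^ 2) + 1 + N ^ 12 * b) := by
  have N0 : 0 < N := by linarith
  have p1 : ∀ k : ℕ, 1 ≤ N ^ k := fun k => one_le_pow₀ hN
  have q : ∀ k j : ℕ, k ≤ j → N ^ k ≤ N ^ j := fun k j hk => pow_le_pow_right₀ hN hk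
  have t1 : 16 * C / N ^ 3 * (4 * N) ≤ 64 * C := by
    rw [div_mul_eq_mul_div, div_le_iff₀ (by positivity)]
    have := q 1 3 (by norm_num)
    rw [pow_one] at this
    nlinarith
  have t2 : 16 * N ^ 9 * b * (4 * N) ≤ 64 * (N ^ 12 * b) := by
    have := mul_le_mul_of_nonneg_right (q 10 12 (by norm_num)) hb0
    nlinarith
  have t3 : 16 * C / N ^ 3 ≤ 16 * C := div_le_self (by positivity) (p1 3)
  have t4 : X ≤ 1716 * C * N := by nlinarith
  have t5 : (2 * N * (1 / N ^ 3) * √X) ^ 2 ≤ 6864 * C := by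
    have e : (2 * N * (1 / N ^ 3) * √X) ^ 2 = 4 * X / N ^ 4 := by
      rw [mul_pow, Real.sq_sqrt hX0]; field_simp; ring
    rw [e, div_le_iff₀ (by positivity)]
    have := q 1 4 (by norm_num)
    rw [pow_one] at this
    nlinarith
  have t6 : (4 * N * b) ^ 2 ≤ 16 * (N ^ 12 * b) := by
    have h1 : N ^ 2 * b ≤ N ^ 12 * b := mul_le_mul_of_nonneg_right (q 2 12 (by norm_num)) hb0
    have h2 : N ^ 2 * b * b ≤ N ^ 2 * b := mul_le_of_le_one_right (by positivity) hb1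
    nlinarith
  have t7 : r ^ 2 ≤ 13728 * C + 32 * (N ^ 12 * b) := by
    have h1 : r ^ 2 ≤ (2 * N * (1 / N ^ 3) * √X + 4 * N * b) ^ 2 := by
      rw [← sq_abs r]
      exact pow_le_pow_left₀ (abs_nonneg _) hr 2
    nlinarith [sq_nonneg (2 * N * (1 / N ^ 3) * √X - 4 * N * b)]
  have t8 : a ^ 2 ≤ 68 * (C * (l ^ 2 * (A + L ^ 2))) + 64 * C + 64 * (N ^ 12 * b) := by
    have h1 : 0 ≤ C * (l ^ 2 * L ^ 2) := by positivity
    nlinarith
  have u0 : 0 ≤ N ^ 12 * b := by positivity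
  have u1 : N ^ 12 * b ≤ C * (N ^ 12 * b) := le_mul_of_one_le_left u0 hC
  have u2 : 0 ≤ C * (l ^ 2 * (A + L ^ 2)) := by positivity
  nlinarith [sq_nonneg (a - r)]

theorem ib_nn (a b : ℝ) : 0 ≤ ib a b := by unfold ib; split_ifs <;> norm_num

theorem ib_le (a b : ℝ) : ib a b ≤ 1 := by unfold ib; split_ifs <;> norm_num

theorem one {W : Mx n} {h : V n} {m : ℕ} {x0 : Cube n} {F u w Θ r : Cube n → ℝ}
    {U : Cube n → V n} {C l A L X Y f0 : ℝ} (hC : 1 ≤ C) (hN : (1 : ℝ) ≤ n) (hA : 0 ≤ A)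
    (hl : l ^ 2 ≤ 100 * n) (hX0 : 0 ≤ X) (hX : X ≤ 17 * C * l ^ 2 + 16 * C / n ^ 3)
    (hS : Sol W h m x0 F X Y (16 * n ^ 9) (4 * n) (1 / n ^ 3) U r f0) (hu : Wt u)
    (hc : ∀ i x, cm w i x = tanh (hf W h x i + grad Θ x i)) (hL : ∀ x, nrm (grad Θ x) ≤ L)
    (ha : Xc u w ≤ 2 * A) :
    (mean u F - f0) ^ 2 ≤
      30000 * C * (l ^ 2 * (A + L ^ 2) + 1 + n ^ 12 * mean u fun x => ib (23 * m) (hd x x0)) := by
  have hb0 : 0 ≤ mean u fun x => ib (23 * m) (hd x x0) := hu.mean_nonneg fun x => ib_nn _ _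
  have hb1 : (mean u fun x => ib (23 * m) (hd x x0)) ≤ 1 := hu.mean_le fun x => ib_le _ _
  have e : mean u F - f0 = (mean u fun x => U x ⬝ᵥ tau W h x) + mean u r := by
    have : F = fun x => (f0 + U x ⬝ᵥ tau W h x) + r x := funext hS.eq
    rw [this, mean_add, mean_add, hu.mean_const]
    ring
  have hs : 0 ≤ 2 * (n : ℝ) * (1 / n ^ 3) * √X := by positivity
  have hU : (mean u fun x => U x ⬝ᵥ U x) ≤
      X + 16 * n ^ 9 * mean u fun x => ib (23 * m) (hd x x0) := by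
    have h1 := hu.mean_mono (f := fun x => U x ⬝ᵥ U x)
      (g := fun x => X + 16 * n ^ 9 * ib (23 * m) (hd x x0)) fun x => by
        unfold ib
        split_ifs with hx
        · linarith [(hS.all x).1]
        · linarith [(hS.hx x (not_lt.1 hx)).1]
    rwa [mean_add, mean_const_mul, hu.mean_const] at h1
  have hp : ∀ x, |r x| ≤ 2 * (n : ℝ) * (1 / n ^ 3) * √X + 4 * n * ib (23 * m) (hd x x0) := fun x => by
    unfold ib
    split_ifs with hx
    · linarith [(hS.all x).2]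
    · linarith [(hS.hx x (not_lt.1 hx)).2]
  have hr : |mean u r| ≤ 2 * (n : ℝ) * (1 / n ^ 3) * √X +
      4 * n * mean u fun x => ib (23 * m) (hd x x0) := by
    have h1 := hu.mean_mono fun x => (abs_le.1 (hp x)).2
    have h2 := hu.mean_mono fun x => (abs_le.1 (hp x)).1
    rw [mean_add, hu.mean_const, mean_const_mul] at h1
    rw [mean_neg, mean_add, hu.mean_const, mean_const_mul] at h2
    exact abs_le.2 ⟨h2, h1⟩
  rw [e]
  refine num hC hN hA hb0 hb1 hl hX0 hX ?_ hr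
  exact flow_le hu hS.fr hc hL ha (by positivity) (by positivity) (by linarith)

end Tr15

open Tr15 in
theorem trGlue : TrGlue := by
  rintro ⟨C, hC, hR⟩ ⟨-, hK, -⟩
  refine ⟨120000 * C, by linarith, fun n W h c ω s A m x0 v w Θ F L l hG hna hm hv hI hL l0 hl hF hO => ?_⟩
  obtain ⟨hw, hc⟩ := hK n w Θ W h hG.blk.symm hG.blk.diag hI
  have hW : Wt w := Wt.of_pos hw
  have hP : Pr v w := ⟨hv, hW, fun x e => absurd e (hw x).ne'⟩
  have hX := EnS.Xc_le hP
  have hA : 0 ≤ Ar o1 v w := by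
    have : 0 ≤ Xc v w := Finset.sum_nonneg fun i _ => hv.mean_nonneg fun x => sq_nonneg _
    linarith
  have hX' : Xc w w ≤ 2 * Ar o1 v w := by
    have : Xc w w = 0 := by simp [Xc, chi, hW.mean_const]
    linarith
  have b1 : 0 ≤ mean v fun x => ib (23 * m) (hd x x0) := hv.mean_nonneg fun x => ib_nn _ _
  have b2 : 0 ≤ mean w fun x => ib (23 * m) (hd x x0) := hW.mean_nonneg fun x => ib_nn _ _
  rcases Nat.eq_zero_or_pos n with rfl | hn
  · have e : F = fun _ => F x0 := funext fun x => by rw [Subsingleton.elim x x0]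
    have e1 : mean v F = F x0 := by rw [e, hv.mean_const]
    have e2 : mean w F = F x0 := by rw [e, hW.mean_const]
    rw [e1, e2, sub_self]
    have : (0 : ℝ) ^ 2 = 0 := by norm_num
    rw [this]
    positivity
  have hN : (1 : ℝ) ≤ n := by exact_mod_cast hn
  have N0 : (0 : ℝ) < n := by linarith
  obtain ⟨U, r, f0, hS⟩ := hR n W h c ω s A m x0 F l l (4 * n) (1 / n ^ 3) hG hna (by positivity) l0 l0
    hO fun x _ => ⟨hF x, fun B _ => (nrm_res B _).trans (hF x)⟩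
  have eK : (n : ℝ) * (4 * n) ^ 2 / (1 / n ^ 3) ^ 2 = 16 * n ^ 9 := by field_simp; norm_num
  rw [eK] at hS
  have hE : 16 * (n : ℝ) ^ 9 * exp (-m) ≤ 16 / n ^ 3 := by
    rw [exp_neg, ← div_eq_mul_inv, div_le_div_iff₀ (exp_pos _) (by positivity)]
    nlinarith
  have hXle : C * (l ^ 2 + ω ^ 2 * l ^ 2 + 16 * (n : ℝ) ^ 9 * exp (-m)) ≤
      17 * C * l ^ 2 + 16 * C / n ^ 3 := by
    have h1 : ω ^ 2 ≤ 16 := by nlinarith [hG.o0, hG.o4]
    have h2 : ω ^ 2 * l ^ 2 ≤ 16 * l ^ 2 := mul_le_mul_of_nonneg_right h1 (sq_nonneg _)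
    calc _ ≤ C * (17 * l ^ 2 + 16 / n ^ 3) := mul_le_mul_of_nonneg_left (by linarith) (by linarith)
      _ = _ := by ring
  have o1' := one hC hN hA hl (by positivity) hXle hS hv hc hL hX
  have o2' := one hC hN hA hl (by positivity) hXle hS hW hc hL hX'
  have u1 : 0 ≤ C * ((n : ℝ) ^ 12 * mean v fun x => ib (23 * m) (hd x x0)) := by positivity
  have u2 : 0 ≤ C * ((n : ℝ) ^ 12 * mean w fun x => ib (23 * m) (hd x x0)) := by positivity
  have u3 : (mean v F - mean w F) ^ 2 ≤ 2 * (mean v F - f0) ^ 2 + 2 * (mean w F - f0) ^ 2 := by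
    nlinarith [sq_nonneg (mean v F - f0 + (mean w F - f0))]
  nlinarith

end Crest.Agent.T157.En

end
end

-- ▼ part T157/EnT0_48
section

/-!
# Row 157, block B, S1, END: the transfer of the conditional means of the Ising part (helper48)
-/

set_option autoImplicit false
set_option linter.unusedVariables false

noncomputable section

namespace Crest.Agent.T157.En

open MeasureTheory Real Matrix Finset Filter Set
open Crest.Agent.T157.E Crest.Agent.T157.SL
open Crest.Agent.T157.Ta (Pr Ar Cnt Dm cm chi kls)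
open Crest.Agent.T157.EnS (fR o1 ep)
open Crest.Agent.T157.Rec (grad)
open Crest.Agent.T157.Eig (nrm opn)
open Crest.Agent.T157.S3 (V Mx hf tau Dg TS Rg)
open Crest.Agent.T157.S3F (Free)
open Crest.Agent.T157.Rip (Sp SpJ res)

namespace T048

variable {n : ℕ}

theorem sech_eq (u : ℝ) : 1 - tanh u ^ 2 = 1 / cosh u ^ 2 := by
  have c0 := cosh_pos u
  rw [tanh_eq_sinh_div_cosh]; field_simp; linarith [cosh_sq_sub_sinh_sq u]

theorem sech_nn (u : ℝ) : 0 ≤ 1 - tanh u ^ 2 := by rw [sech_eq]; positivity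

theorem sech_le (u : ℝ) : 1 - tanh u ^ 2 ≤ 4 * exp (-|u|) ^ 2 := by
  have c0 := cosh_pos u
  have e1 : exp (-|u|) * exp |u| = 1 := by rw [← exp_add]; simp
  have e2 : exp |u| ≤ 2 * cosh u := by
    rw [← cosh_abs, cosh_eq]; linarith [exp_pos (-|u|)]
  have e3 : 1 ≤ 2 * exp (-|u|) * cosh u := by nlinarith [exp_pos (-|u|)]
  rw [sech_eq, div_le_iff₀ (by positivity)]
  nlinarith

theorem th_sub (u o : ℝ) : tanh (u + o) - tanh u = sinh o / (cosh (u + o) * cosh u) := by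
  have c0 := cosh_pos u
  have c1 := cosh_pos (u + o)
  have e : sinh o = sinh (u + o) * cosh u - cosh (u + o) * sinh u := by
    rw [← sinh_sub]; ring_nf
  rw [e, tanh_eq_sinh_div_cosh, tanh_eq_sinh_div_cosh]; field_simp

theorem sinh_sq {o : ℝ} (ho : |o| ≤ 1) : sinh o ^ 2 ≤ 4 * (o * o) := by
  have h1 := abs_le.1 (abs_exp_sub_one_le ho)
  have h2 := abs_le.1 (abs_exp_sub_one_le (x := -o) (by rwa [abs_neg]))
  rw [abs_neg] at h2
  have h3 : |sinh o| ≤ 2 * |o| := by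
    rw [sinh_eq, abs_le]; constructor <;> linarith [h1.1, h1.2, h2.1, h2.2]
  calc sinh o ^ 2 = |sinh o| ^ 2 := (sq_abs _).symm
    _ ≤ (2 * |o|) ^ 2 := pow_le_pow_left₀ (abs_nonneg _) h3 2
    _ = 4 * (o * o) := by rw [mul_pow, sq_abs]; ring

theorem ct_sq (u : ℝ) {o : ℝ} (ho : |o| ≤ 1) : (tanh (u + o) - tanh u) ^ 2 ≤
    4 * (1 - tanh (u + o) ^ 2) * ((1 - tanh u ^ 2) * (o * o)) := by
  have c0 := cosh_pos u
  have c1 := cosh_pos (u + o)
  rw [th_sub, sech_eq, sech_eq, div_pow]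
  calc sinh o ^ 2 / (cosh (u + o) * cosh u) ^ 2 ≤ 4 * (o * o) / (cosh (u + o) * cosh u) ^ 2 := by
        gcongr; exact sinh_sq ho
    _ = _ := by field_simp

theorem ct_sq1 (u : ℝ) {o : ℝ} (ho : |o| ≤ 1) :
    (tanh (u + o) - tanh u) ^ 2 ≤ 4 * ((1 - tanh u ^ 2) * (o * o)) := by
  refine (ct_sq u ho).trans ?_
  have := mul_nonneg (sech_nn u) (mul_self_nonneg o)
  nlinarith [sq_nonneg (tanh (u + o))]

theorem ct_sq2 {u o A : ℝ} (ho : |o| ≤ 1) (hu : A ≤ |u|) :
    (tanh (u + o) - tanh u) ^ 2 ≤ 128 * exp (-A) ^ 2 * ((1 - tanh u ^ 2) * (o * o)) := by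
  refine (ct_sq u ho).trans (mul_le_mul_of_nonneg_right ?_
    (mul_nonneg (sech_nn u) (mul_self_nonneg o)))
  have h1 : |u| ≤ |u + o| + |o| := by simpa using abs_sub (u + o) o
  have h2 : exp (-|u + o|) ≤ exp 1 * exp (-A) := by rw [← exp_add]; exact exp_le_exp.2 (by linarith)
  have h3 : exp (-|u + o|) ≤ 2.8 * exp (-A) :=
    h2.trans (mul_le_mul_of_nonneg_right (by linarith [exp_one_lt_d9]) (exp_pos _).le)
  have h4 := pow_le_pow_left₀ (exp_pos _).le h3 2
  nlinarith [sech_le (u + o), sq_nonneg (exp (-A))]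

theorem abs_s (x : Cube n) (j : Fin n) : |sv x j| = 1 := by
  unfold sv Crest.ProbabilityR.SpinGlassDynamics.spin; split_ifs <;> simp

theorem vec (U z d : V n) (r : ℝ) {X Y : ℝ} (B : Finset (Fin n)) (hX : U ⬝ᵥ U ≤ X)
    (hY : res B U ⬝ᵥ res B U ≤ Y) : (U ⬝ᵥ (z + d) + r) ^ 2 ≤
      4 * (Y * (z ⬝ᵥ z) + X * (res Bᶜ z ⬝ᵥ res Bᶜ z) + X * (d ⬝ᵥ d) + r ^ 2) := by
  have e : U ⬝ᵥ (z + d) = res B U ⬝ᵥ z + U ⬝ᵥ res Bᶜ z + U ⬝ᵥ d := by
    rw [dotProduct_add]
    congr 1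
    simp only [dotProduct, ← Finset.sum_add_distrib, res, Finset.mem_compl]
    exact Finset.sum_congr rfl fun j _ => by by_cases h : j ∈ B <;> simp [h]
  have h1 := (Eig.dot_sq_le (res B U) z).trans
    (mul_le_mul_of_nonneg_right hY (Eig.dot_self_nonneg z))
  have h2 := (Eig.dot_sq_le U (res Bᶜ z)).trans
    (mul_le_mul_of_nonneg_right hX (Eig.dot_self_nonneg _))
  have h3 := (Eig.dot_sq_le U d).trans (mul_le_mul_of_nonneg_right hX (Eig.dot_self_nonneg _))
  rw [e]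
  generalize res B U ⬝ᵥ z = a at *
  generalize U ⬝ᵥ res Bᶜ z = b at *
  generalize U ⬝ᵥ d = c at *
  nlinarith [sq_nonneg (a - b), sq_nonneg (a - c), sq_nonneg (a - r), sq_nonneg (b - c),
    sq_nonneg (b - r), sq_nonneg (c - r)]

set_option maxHeartbeats 1000000 in
theorem num {C s ω A E KL F g Z Z' D r X Y δ N : ℝ} (hC : 1 ≤ C) (s0 : 0 ≤ s) (s1 : s ≤ 1 / 10000)
    (o0 : 0 ≤ ω) (o4 : ω ≤ 4) (A1 : 1 ≤ A) (E0 : 0 ≤ E) (E1 : E ≤ 1) (oE : ω * E ≤ s) (k0 : 0 ≤ KL)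
    (F0 : 0 ≤ F) (g0 : 0 ≤ g) (Z0 : 0 ≤ Z) (Z1 : Z ≤ 4 * KL + 8 * F) (Z2 : Z ≤ 16 * N) (Z0' : 0 ≤ Z')
    (Z1' : Z' ≤ 64 / A * KL + 256 * E ^ 2 * F) (Z2' : Z' ≤ 16 * N) (D0 : 0 ≤ D) (D1 : D ≤ g)
    (d0 : 0 ≤ δ) (N1 : 1 ≤ N) (d1 : δ * N ≤ 4 * C) (X0 : 0 ≤ X)
    (hX : X ≤ C * (2 * ω ^ 2 + 45000 * s ^ 2) + δ) (hY : Y ≤ C * (2600 * s ^ 2) + δ)
    (hr : r ^ 2 ≤ 4 * X) :
    4 * (Y * Z + X * Z' + X * D + r ^ 2) ≤
      10 ^ 8 * C * ((s ^ 2 + ω ^ 2 / A) * KL + s ^ 2 * F + g + 1) := by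
  have C0 : 0 ≤ C := by linarith
  have A0 : 0 < A := by linarith
  have d2 : δ ≤ 4 * C := by nlinarith
  have s2 : s ^ 2 ≤ 1 / 10 ^ 8 := by nlinarith
  have o2 : ω ^ 2 ≤ 16 := by nlinarith
  have X1 : X ≤ 37 * C := by nlinarith
  have a0 : 0 ≤ C * (s ^ 2 * KL) := by positivity
  have b0 : 0 ≤ C * (ω ^ 2 / A * KL) := by positivity
  have c0 : 0 ≤ C * (s ^ 2 * F) := by positivity
  have e0 : 0 ≤ C * g := by positivity
  have t1 : Y * Z ≤ 10400 * (C * (s ^ 2 * KL)) + 20800 * (C * (s ^ 2 * F)) + 64 * C := by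
    have u1 := mul_le_mul_of_nonneg_right hY Z0
    have u2 := mul_le_mul_of_nonneg_left Z1 (by positivity : 0 ≤ C * (2600 * s ^ 2))
    have u3 := mul_le_mul_of_nonneg_left Z2 d0
    linarith
  have t2 : X * Z' ≤ 128 * (C * (ω ^ 2 / A * KL)) + 2880000 * (C * (s ^ 2 * KL)) +
      12000000 * (C * (s ^ 2 * F)) + 64 * C := by
    have u1 := mul_le_mul_of_nonneg_right hX Z0'
    have u2 := mul_le_mul_of_nonneg_left Z1' (by positivity : 0 ≤ C * (2 * ω ^ 2 + 45000 * s ^ 2))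
    have u3 := mul_le_mul_of_nonneg_left Z2' d0
    have u4 : s ^ 2 / A * KL ≤ s ^ 2 * KL :=
      mul_le_mul_of_nonneg_right (div_le_self (sq_nonneg s) A1) k0
    have u5 : (ω * E) ^ 2 * F ≤ s ^ 2 * F :=
      mul_le_mul_of_nonneg_right (pow_le_pow_left₀ (by positivity) oE 2) F0
    have u6 : (s * E) ^ 2 * F ≤ s ^ 2 * F :=
      mul_le_mul_of_nonneg_right (pow_le_pow_left₀ (by positivity) (by nlinarith) 2) F0
    have u7 := mul_le_mul_of_nonneg_left u4 C0
    have u8 := mul_le_mul_of_nonneg_left u5 C0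
    have u9 := mul_le_mul_of_nonneg_left u6 C0
    have e : C * (2 * ω ^ 2 + 45000 * s ^ 2) * (64 / A * KL + 256 * E ^ 2 * F) =
        128 * (C * (ω ^ 2 / A * KL)) + 2880000 * (C * (s ^ 2 / A * KL)) +
          512 * (C * ((ω * E) ^ 2 * F)) + 11520000 * (C * ((s * E) ^ 2 * F)) := by ring
    rw [e] at u2
    rw [add_mul] at u1
    linarith
  have t3 : X * D ≤ 37 * (C * g) := by
    have := mul_le_mul X1 D1 D0 (by positivity)
    linarith
  have e : 10 ^ 8 * C * ((s ^ 2 + ω ^ 2 / A) * KL + s ^ 2 * F + g + 1) =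
      10 ^ 8 * (C * (s ^ 2 * KL) + C * (ω ^ 2 / A * KL) + C * (s ^ 2 * F) + C * g + C) := by ring
  rw [e]
  linarith

theorem dot_le_card {z : V n} {b : ℝ} (h : ∀ j, |z j| ≤ b) : z ⬝ᵥ z ≤ b ^ 2 * n := by
  have : z ⬝ᵥ z ≤ ∑ _j : Fin n, b ^ 2 := Finset.sum_le_sum fun j _ => by
    rw [← sq, ← sq_abs]; exact pow_le_pow_left₀ (abs_nonneg _) (h j) 2
  simpa [mul_comm] using this

theorem ar_eq (u w : Cube n → ℝ) : Ar o1 u w = mean u fun x => ∑ k, kls u w k x := by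
  simp only [Ar, Ta.As, one_mul, mean_sum]

theorem ar_self (v : Cube n → ℝ) : Ar o1 v v = 0 := by
  refine Finset.sum_eq_zero fun i _ => Finset.sum_eq_zero fun x _ => ?_
  have : kls v v i x = 0 := by
    rw [kls, Ent.kl]
    refine Finset.sum_eq_zero fun b _ => ?_
    rcases eq_or_ne (Ent.cnd v i x b) 0 with h | h
    · simp [h]
    · simp [div_self h]
  simp [this]

theorem ib_nn (a b : ℝ) : 0 ≤ ib a b := by unfold ib; split_ifs <;> norm_num

theorem F1_nn (W : Mx n) (h : V n) (Ω : Cube n → V n) (x : Cube n) : 0 ≤ F1 W h Ω x := by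
  rw [show F1 W h Ω x = ∑ j, (1 - tanh (hf W h x j) ^ 2) * (Ω x j * Ω x j) from rfl]
  exact Finset.sum_nonneg fun j _ => mul_nonneg (sech_nn _) (mul_self_nonneg _)

/-- the mean of a solved function -/
theorem mean_sol {W : Mx n} {h : V n} {F r u : Cube n → ℝ} {U : Cube n → V n} {f0 : ℝ} (hu : Wt u)
    (fr : Free U) (eq : ∀ x, F x = f0 + U x ⬝ᵥ tau W h x + r x) :
    mean u F - f0 = mean u fun x => U x ⬝ᵥ (fun j => cm u j x - tanh (hf W h x j)) + r x := by
  rw [show F = _ from funext eq, mean_add, mean_add, mean_add, hu.mean_const]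
  have : mean u (fun x => U x ⬝ᵥ tau W h x) =
      mean u fun x => U x ⬝ᵥ fun j => cm u j x - tanh (hf W h x j) := by
    simp only [dotProduct, mean_sum, tau, mul_sub, mean_sub]
    refine Finset.sum_congr rfl fun j _ => ?_
    rw [Ta.mean_cm hu (u := fun x => U x j) fun x b => fr x j b]
  rw [this]; ring

theorem sq_mean_le {u : Cube n → ℝ} (hu : Wt u) (f : Cube n → ℝ) :
    mean u f ^ 2 ≤ mean u fun x => f x ^ 2 := by
  have := hu.var_nonneg f
  rw [var_eq_cov, hu.cov_eq] at this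
  simp only [sq]; linarith

set_option maxHeartbeats 1600000 in
/-- the pointwise bound -/
theorem pt (ks : KsStmt) {W : Mx n} {h : V n} {c ω s A : ℝ} {m : ℕ} {x0 : Cube n}
    {u w Θ G F r : Cube n → ℝ} {Ω U : Cube n → V n} {e L C X Y K O η f0 δ : ℝ}
    (g : Geo W c ω s A m) (hg : ∀ x, hd x x0 ≤ 46 * m → Good W h ω s A m x0 x) (hu : Wt u)
    (hw : Is w W h Θ) (cl : Cls e L Θ Ω G) (e1 : e ≤ 1) (hL : 4 * L ^ 2 ≤ m)
    (so : Sol W h m x0 F X Y K O η U r f0) (hC : 1 ≤ C) (n1 : (1 : ℝ) ≤ n) (d0 : 0 ≤ δ)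
    (d1 : δ * n ≤ 4 * C) (hX : X ≤ C * (2 * ω ^ 2 + 45000 * s ^ 2) + δ)
    (hY : Y ≤ C * (2600 * s ^ 2) + δ) (hK : K ≤ 4 * n ^ 9) (hO : O ≤ 2 * n) (hη : n * η ≤ 1)
    (x : Cube n) (hx : u x ≠ 0) :
    (U x ⬝ᵥ (fun j => cm u j x - tanh (hf W h x j)) + r x) ^ 2 ≤
      10 ^ 8 * C * ((s ^ 2 + ω ^ 2 / A) * ∑ k, kls u w k x + s ^ 2 * F1 W h Ω x +
        min (G x) (2 * L) ^ 2 + 1 + n ^ 12 * ib (23 * m) (hd x x0)) := by
  obtain ⟨wp, wc⟩ := ks.2.1 n w Θ W h g.blk.symm g.blk.diag hw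
  have p : Pr u w := ⟨hu, .of_pos wp, fun x e => absurd e (wp x).ne'⟩
  have k0 : ∀ k, 0 ≤ kls u w k x := fun k => p.kls_nonneg k hx
  have K0 : 0 ≤ ∑ k, kls u w k x := Finset.sum_nonneg fun k _ => k0 k
  have F0 := F1_nn W h Ω x
  have A0 : 0 < A := by linarith [g.A1]
  have m0 : (0 : ℝ) ≤ m := m.cast_nonneg
  by_cases hn : (23 * m : ℝ) < hd x x0
  · rw [ib, if_pos hn, mul_one]
    have h1 : (fun j => cm u j x - tanh (hf W h x j)) ⬝ᵥ (fun j => cm u j x - tanh (hf W h x j)) ≤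
        2 ^ 2 * n := dot_le_card fun j => by
      have := abs_sub (cm u j x) (tanh (hf W h x j))
      linarith [Ta.abs_cm_le hu.nn j x, abs_tanh_lt_one (hf W h x j)]
    have h2 := (Eig.dot_sq_le (U x) _).trans
      (mul_le_mul ((so.all x).1.trans hK) h1 (Eig.dot_self_nonneg _) (by positivity))
    have h3 : r x ^ 2 ≤ (2 * n) ^ 2 := by
      rw [← sq_abs]; exact pow_le_pow_left₀ (abs_nonneg _) ((so.all x).2.trans hO) 2
    have h4 : (n : ℝ) ^ 10 ≤ n ^ 12 := pow_le_pow_right₀ n1 (by norm_num)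
    have h5 : (n : ℝ) ^ 2 ≤ n ^ 12 := pow_le_pow_right₀ n1 (by norm_num)
    have h6 : 0 ≤ (s ^ 2 + ω ^ 2 / A) * ∑ k, kls u w k x + s ^ 2 * F1 W h Ω x +
        min (G x) (2 * L) ^ 2 + 1 := by positivity
    have h7 : (0 : ℝ) ≤ n ^ 12 := by positivity
    generalize U x ⬝ᵥ (fun j => cm u j x - tanh (hf W h x j)) = a at *
    have h8 : (a + r x) ^ 2 ≤ 40 * n ^ 12 := by nlinarith [sq_nonneg (a - r x)]
    have h9 := mul_le_mul hC (le_add_of_nonneg_left h6 : (n : ℝ) ^ 12 ≤ _) h7 (by linarith)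
    nlinarith
  rw [ib, if_neg hn, mul_zero, add_zero]
  have hn := not_lt.1 hn
  obtain ⟨B, cB, hB, -⟩ := hg x (by linarith)
  set B2 : Finset (Fin n) := Finset.univ.filter fun j => 1 / 2 < |grad Θ x j| with hB2
  have c2 : (#B2 : ℝ) ≤ m := by
    have h1 : ∑ _j ∈ B2, (1 / 4 : ℝ) ≤ ∑ j, grad Θ x j * grad Θ x j :=
      (Finset.sum_le_sum fun j hj => by
        have := (Finset.mem_filter.1 hj).2
        rw [← abs_mul_abs_self]; nlinarith).trans
      (Finset.sum_le_sum_of_subset_of_nonneg (f := fun j => grad Θ x j * grad Θ x j)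
        (Finset.subset_univ _) fun j _ _ => mul_self_nonneg _)
    have h2 := (Eig.nrm_le_iff cl.L0).1 (cl.gr x)
    rw [Finset.sum_const, nsmul_eq_mul] at h1
    have h3 : grad Θ x ⬝ᵥ grad Θ x = ∑ j, grad Θ x j * grad Θ x j := rfl
    linarith
  have c3 : (#(B ∪ B2) : ℝ) ≤ 50 * m := by
    have : (#(B ∪ B2) : ℝ) ≤ #B + #B2 := by exact_mod_cast Finset.card_union_le B B2
    linarith
  have ho : ∀ j, |Ω x j| ≤ 1 := fun j =>
    ((norm_le_pi_norm (Ω x) j).trans (cl.rg x).1).trans e1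
  set z : V n := fun j => chi u w j x + ct W h Ω x j with hz
  set d : V n := fun j => tanh (hf W h x j + grad Θ x j) - tanh (hf W h x j + Ω x j) with hd'
  have e : (fun j => cm u j x - tanh (hf W h x j)) = z + d := by
    ext j; simp only [hz, hd', chi, ct, wc, Pi.add_apply]; ring
  have zb : ∀ j, |z j| ≤ 4 := fun j => by
    have h1 := abs_add_le (chi u w j x) (ct W h Ω x j)
    have h2 := abs_sub (tanh (hf W h x j + Ω x j)) (tanh (hf W h x j))
    have h3 : |ct W h Ω x j| = |tanh (hf W h x j + Ω x j) - tanh (hf W h x j)| := rfl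
    linarith [Ta.abs_chi_le p j x, abs_tanh_lt_one (hf W h x j), abs_tanh_lt_one (hf W h x j + Ω x j)]
  have z2 : ∀ j, z j * z j ≤ 2 * chi u w j x ^ 2 + 2 * ct W h Ω x j ^ 2 := fun j => by
    simp only [hz]; nlinarith [sq_nonneg (chi u w j x - ct W h Ω x j)]
  have Fe : F1 W h Ω x = ∑ j, (1 - tanh (hf W h x j) ^ 2) * (Ω x j * Ω x j) := rfl
  have f0' : ∀ j, 0 ≤ (1 - tanh (hf W h x j) ^ 2) * (Ω x j * Ω x j) := fun j =>
    mul_nonneg (sech_nn _) (mul_self_nonneg _)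
  have Z1 : z ⬝ᵥ z ≤ 4 * ∑ k, kls u w k x + 8 * F1 W h Ω x := by
    rw [Fe, Finset.mul_sum, Finset.mul_sum, ← Finset.sum_add_distrib]
    refine Finset.sum_le_sum fun j _ => (z2 j).trans ?_
    have h1 : ct W h Ω x j ^ 2 ≤ _ := ct_sq1 (hf W h x j) (ho j)
    linarith [Ta.chi_sq_le p j hx]
  have Z1' : res (B ∪ B2)ᶜ z ⬝ᵥ res (B ∪ B2)ᶜ z ≤
      64 / A * ∑ k, kls u w k x + 256 * exp (-A) ^ 2 * F1 W h Ω x := by
    rw [Fe, Finset.mul_sum, Finset.mul_sum, ← Finset.sum_add_distrib]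
    refine Finset.sum_le_sum fun j _ => ?_
    have := k0 j
    have := f0' j
    by_cases hj : j ∈ (B ∪ B2)ᶜ
    · simp only [res, if_pos hj]
      rw [Finset.mem_compl, Finset.mem_union, not_or] at hj
      have h1 : A ≤ |hf W h x j| := by
        have := (hB j hj.1).trans (le_abs_self _)
        rwa [abs_mul, abs_s, one_mul] at this
      have h2 : |grad Θ x j| ≤ 1 / 2 := not_lt.1 fun e => hj.2 (Finset.mem_filter.2 ⟨mem_univ _, e⟩)
      have h3 : |hf W h x j| ≤ |hf W h x j + grad Θ x j| + |grad Θ x j| := by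
        simpa using abs_sub (hf W h x j + grad Θ x j) (grad Θ x j)
      have h4 := ks.1 n u w j x _ (A / 2) p hx (wc j x) (by positivity) (by linarith [g.A1])
      have h5 : ct W h Ω x j ^ 2 ≤ _ := ct_sq2 (ho j) h1
      have h6 : 16 / (A / 2) * kls u w j x = 32 / A * kls u w j x := by field_simp; ring
      have h7 : 64 / A * kls u w j x = 2 * (32 / A * kls u w j x) := by ring
      linarith [z2 j]
    · simp only [res, if_neg hj, mul_zero]; positivity
  have Z2 : z ⬝ᵥ z ≤ 16 * n := by have := dot_le_card zb; linarith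
  have Z2' : res (B ∪ B2)ᶜ z ⬝ᵥ res (B ∪ B2)ᶜ z ≤ 16 * n := by
    have := dot_le_card (z := res (B ∪ B2)ᶜ z) (b := 4) fun j => by
      unfold res; split_ifs
      · exact zb j
      · norm_num
    linarith
  have D1 : d ⬝ᵥ d ≤ min (G x) (2 * L) ^ 2 := by
    have h1 : d ⬝ᵥ d ≤ (grad Θ x - Ω x) ⬝ᵥ (grad Θ x - Ω x) := Finset.sum_le_sum fun j _ => by
      have := sq_le_sq.2 (Ue.abs_tanh_sub_le (hf W h x j + grad Θ x j) (hf W h x j + Ω x j))
      simp only [hd', Pi.sub_apply, ← sq]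
      rwa [add_sub_add_left_eq_sub] at this
    have h2 : nrm (grad Θ x - Ω x) ≤ min (G x) (2 * L) :=
      le_min (cl.ex x) (by linarith [Eig.nrm_sub_le (grad Θ x) (Ω x), cl.gr x, (cl.rg x).2.2.1])
    rw [← Eig.nrm_sq (grad Θ x - Ω x)] at h1
    exact h1.trans (pow_le_pow_left₀ (Eig.nrm_nonneg _) h2 2)
  obtain ⟨u1, u2⟩ := so.hx x hn
  have X0 : 0 ≤ X := (Eig.dot_self_nonneg _).trans u1
  have hr : r x ^ 2 ≤ 4 * X := by
    have h1 : |r x| ≤ 2 * √X := u2.trans (by nlinarith [sqrt_nonneg X])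
    have h2 := pow_le_pow_left₀ (abs_nonneg _) h1 2
    rw [sq_abs, mul_pow, sq_sqrt X0] at h2
    linarith
  rw [e]
  refine (vec (U x) z d (r x) (B ∪ B2) u1 (so.hy x hn _ c3)).trans ?_
  have E0 := exp_pos (-A)
  exact num hC g.s0 g.s1 g.o0 g.o4 g.A1 E0.le (exp_le_one_iff.2 (by linarith))
    (by nlinarith [g.cA, g.c0]) K0 F0 (sq_nonneg _) (Eig.dot_self_nonneg _) Z1 Z2
    (Eig.dot_self_nonneg _) Z1' Z2' (Eig.dot_self_nonneg _) D1 d0 n1 d1 X0 hX hY hr

theorem grad_F (W : Mx n) (h a : V n) (x : Cube n) :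
    grad (fun x => a ⬝ᵥ fun j => tanh (hf W h x j)) x = aM W h x *ᵥ a := by
  ext k
  simp only [aM, mulVec, dotProduct, of_apply, Rec.grad_eq, ← Finset.sum_sub_distrib,
    Finset.mul_sum, Finset.sum_div]
  exact Finset.sum_congr rfl fun j _ => by ring

end T048

set_option maxHeartbeats 1600000 in
open T048 in
theorem t0Glue : T0Glue := by
  intro gd rs ks
  obtain ⟨C, hC, rs⟩ := rs
  refine ⟨4 * (10 ^ 8 * C), by linarith, ?_⟩
  intro n W h c ω s A m x0 v w Θ G Ω e L a g hna hnm hv hw cl e1 hL ha F G' hF hG'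
  obtain ⟨wp, -⟩ := ks.2.1 n w Θ W h g.blk.symm g.blk.diag hw
  have ww : Wt w := .of_pos wp
  have p : Pr v w := ⟨hv, ww, fun x e => absurd e (wp x).ne'⟩
  have A0 : 0 < A := by linarith [g.A1]
  have r1 := p.Ar_nonneg (r := o1) fun _ _ => zero_le_one
  have r2 := hv.mean_nonneg (F1_nn W h Ω)
  have r3 := ww.mean_nonneg (F1_nn W h Ω)
  have G0 : ∀ x, 0 ≤ G' x := fun x => by rw [hG']; positivity
  have r4 := hv.mean_nonneg G0
  have r5 := ww.mean_nonneg G0
  have r6 := hv.mean_nonneg fun x => ib_nn (23 * m) (hd x x0)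
  have r7 := ww.mean_nonneg fun x => ib_nn (23 * m) (hd x x0)
  rcases Nat.eq_zero_or_pos n with rfl | hn
  · have : F = fun _ => 0 := by rw [hF]; ext x; simp [dotProduct]
    rw [this, hv.mean_const, ww.mean_const, sub_self, zero_pow two_ne_zero]
    positivity
  have n1 : (1 : ℝ) ≤ n := by exact_mod_cast hn
  have n0 : (0 : ℝ) < n := by linarith
  have s0 := g.s0
  have s1 := g.s1
  have o0 := g.o0
  have o4 := g.o4
  have hg : ∀ x, hd x x0 ≤ 46 * m → Good W h ω s A m x0 x := fun x hx =>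
    gd n W h c ω s A m x0 x g hna hx
  have Fb : ∀ x, |F x| ≤ n := fun x => by
    rw [hF]
    have h1 := Eig.abs_dot_le a fun j => tanh (hf W h x j)
    have h2 : nrm (fun j => tanh (hf W h x j)) ≤ n := (Eig.nrm_le_iff n0.le).2 (by
      have := dot_le_card (z := fun j => tanh (hf W h x j)) fun j => (abs_tanh_lt_one _).le
      nlinarith)
    exact h1.trans (by nlinarith [Eig.nrm_nonneg a, Eig.nrm_nonneg fun j => tanh (hf W h x j)])
  obtain ⟨U, r, f0, so⟩ := rs n W h c ω s A m x0 F (ω + 50 * s) (50 * s) (2 * n) (1 / n ^ 3) g hna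
    (by positivity) (by positivity) (by positivity)
    (fun x x' => by linarith [abs_le.1 (Fb x), abs_le.1 (Fb x')]) fun x hx => by
      obtain ⟨B, -, -, h1, h2, -⟩ := hg x hx
      rw [hF, grad_F]
      refine ⟨(h1 a).trans ?_, fun B' hB' => (h2 a B' hB').trans ?_⟩
      · have := (Rip.nrm_res_le B a).trans ha
        nlinarith
      · nlinarith
  have eK : n * (2 * n : ℝ) ^ 2 / (1 / n ^ 3) ^ 2 = 4 * n ^ 9 := by field_simp; ring
  rw [eK] at so
  have hδ : C * (4 * n ^ 9 * exp (-m)) * n ≤ 4 * C := by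
    have h1 : (n : ℝ) ^ 10 ≤ exp m := (pow_le_pow_right₀ n1 (by norm_num)).trans hnm
    have h2 : exp (m : ℝ) * exp (-m) = 1 := by rw [← exp_add]; simp
    have h3 : (n : ℝ) ^ 10 * exp (-m) ≤ 1 := by nlinarith [exp_pos (-(m : ℝ))]
    have h4 : C * (4 * n ^ 9 * exp (-m)) * n = 4 * C * (n ^ 10 * exp (-m)) := by ring
    rw [h4]; nlinarith
  have C0 : 0 ≤ C := by linarith
  have key : ∀ u, Wt u → (mean u F - f0) ^ 2 ≤ 10 ^ 8 * C * ((s ^ 2 + ω ^ 2 / A) * Ar o1 u w +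
      s ^ 2 * mean u (F1 W h Ω) + mean u G' + 1 + n ^ 12 * mean u fun x => ib (23 * m) (hd x x0)) :=
    fun u hu => by
      rw [mean_sol hu so.fr so.eq]
      refine (sq_mean_le hu _).trans ((Ta.mean_mono_supp hu (pt ks g hg hu hw cl e1 hL so hC n1
        (by positivity) hδ ?_ ?_ le_rfl le_rfl ?_)).trans (le_of_eq ?_))
      · rw [← mul_add]
        refine mul_le_mul_of_nonneg_left ?_ C0
        have : ω ^ 2 * s ^ 2 ≤ 16 * s ^ 2 := mul_le_mul_of_nonneg_right (by nlinarith) (sq_nonneg s)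
        nlinarith [sq_nonneg (ω - 50 * s)]
      · rw [← mul_add]
        refine mul_le_mul_of_nonneg_left ?_ C0
        have : s ^ 2 * (ω + 50 * s) ^ 2 ≤ s ^ 2 * 25 :=
          mul_le_mul_of_nonneg_left (by nlinarith) (sq_nonneg s)
        nlinarith
      · rw [mul_one_div, div_le_one (by positivity)]
        exact le_self_pow₀ n1 (by norm_num)
      · rw [ar_eq, hG']
        simp only [mean_const_mul, mean_add, hu.mean_const]
  have k1 := key v hv
  have k2 := key w ww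
  rw [ar_self] at k2
  have q1 : 0 ≤ (s ^ 2 + ω ^ 2 / A) * Ar o1 v w := by positivity
  have q2 : 0 ≤ s ^ 2 * (mean v (F1 W h Ω) + mean w (F1 W h Ω)) := by positivity
  have q3 : 0 ≤ (n : ℝ) ^ 12 * ((mean v fun x => ib (23 * m) (hd x x0)) +
      mean w fun x => ib (23 * m) (hd x x0)) := by positivity
  have q4 : 0 ≤ 10 ^ 8 * C * ((s ^ 2 + ω ^ 2 / A) * Ar o1 v w +
      s ^ 2 * (mean v (F1 W h Ω) + mean w (F1 W h Ω)) + mean v G' + mean w G' +
      n ^ 12 * ((mean v fun x => ib (23 * m) (hd x x0)) + mean w fun x => ib (23 * m) (hd x x0))) := by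
    positivity
  have q5 : (mean v F - mean w F) ^ 2 ≤ 2 * (mean v F - f0) ^ 2 + 2 * (mean w F - f0) ^ 2 := by
    nlinarith [sq_nonneg (mean v F + mean w F - 2 * f0)]
  linarith

end Crest.Agent.T157.En

end
end

-- ▼ part T157/EnEps_64

/-!
# Row 157, block B, S1, the END: the leaf EPS (helper64)
-/

set_option autoImplicit false
set_option linter.unusedVariables false

noncomputable section

namespace Crest.Agent.T157.En

open MeasureTheory Real Matrix Finset Filter Set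
open Crest.Agent.T157.E Crest.Agent.T157.SL
open Crest.Agent.T157.Ta (Pr Ar Cnt Dm cm chi kls)
open Crest.Agent.T157.EnS (fR o1 ep)
open Crest.Agent.T157.Rec (grad fl)
open Crest.Agent.T157.Eig
open Crest.Agent.T157.S3 (V Mx hf tau Dg TS Rg)

namespace Ep64

variable {n : ℕ}

theorem ib_nn (a b : ℝ) : 0 ≤ ib a b := by unfold ib; split_ifs <;> norm_num

theorem ib_one {a b : ℝ} (h : a < b) : ib a b = 1 := if_pos h

theorem ib_mono {a b a' b' : ℝ} (h : a < b → a' < b') : ib a b ≤ ib a' b' := by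
  by_cases e : a < b
  · rw [ib_one e, ib_one (h e)]
  · rw [ib, if_neg e]; exact ib_nn _ _

theorem hd_tri (x y z : Cube n) : hd x z ≤ hd x y + hd z y := by
  unfold hd
  norm_cast
  refine le_trans (card_le_card fun j hj => ?_) (card_union_le _ _)
  simp only [Finset.mem_filter, Finset.mem_univ, true_and, Finset.mem_union] at hj ⊢
  by_contra hc
  push Not at hc
  exact hj (hc.1.trans hc.2.symm)

theorem nrm_le_of {u v : V n} (h : ∀ j, |u j| ≤ |v j|) : nrm u ≤ nrm v := by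
  refine Real.sqrt_le_sqrt (Finset.sum_le_sum fun j _ => ?_)
  rw [← abs_mul_abs_self (u j), ← abs_mul_abs_self (v j)]
  exact mul_le_mul (h j) (h j) (abs_nonneg _) (abs_nonneg _)

theorem ep_eq {w : Cube n → ℝ} (hw : Wt w) (v : Cube n → ℝ) (j : Fin n) :
    ep v w j = mean v (cm w j) - mean w (cm w j) := by
  have := Ta.mean_cm hw (Ta.OffAt.const j (1 : ℝ))
  simp only [one_mul] at this
  exact congrArg (fun t => mean v (cm w j) - t) this.symm

theorem ep_le {v w : Cube n → ℝ} (hv : Wt v) (hw : Wt w) : ep v w ⬝ᵥ ep v w ≤ 4 * n := by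
  have : ∀ j, ep v w j * ep v w j ≤ 4 := fun j => by
    have h1 := abs_le.1 (hv.abs_mean_le fun x => Ta.abs_cm_le hw.nn j x)
    have h2 := abs_le.1 (hw.abs_mean_le fun x => Ta.abs_cm_le hw.nn j x)
    rw [ep_eq hw]
    nlinarith [h1.1, h1.2, h2.1, h2.2]
  refine (Finset.sum_le_sum fun j _ => this j).trans_eq ?_
  simp [mul_comm]

theorem dot_ep {w : Cube n → ℝ} (hw : Wt w) (v : Cube n → ℝ) (a : V n) : a ⬝ᵥ ep v w =
    (mean v fun x => a ⬝ᵥ fun j => cm w j x) - mean w fun x => a ⬝ᵥ fun j => cm w j x := by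
  simp only [dotProduct, mean_sum, mean_const_mul, ep_eq hw, mul_sub, Finset.sum_sub_distrib]

theorem F1_mem (W : Mx n) (h : V n) (Ω : Cube n → V n) (x : Cube n) :
    0 ≤ F1 W h Ω x ∧ F1 W h Ω x ≤ nrm (Ω x) ^ 2 := by
  rw [nrm_sq]
  unfold F1 dotProduct
  refine ⟨Finset.sum_nonneg fun j _ => mul_nonneg ?_ (mul_self_nonneg _),
    Finset.sum_le_sum fun j _ => ?_⟩
  · exact sub_nonneg.2 (tanh_sq_lt_one _).le
  · simp only [Dg, Pi.mul_apply]
    nlinarith [mul_nonneg (sq_nonneg (tanh (hf W h x j))) (mul_self_nonneg (Ω x j))]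

/-- gradient of the truncated square -/
theorem grad_G {G : Cube n → ℝ} {e L : ℝ} (G0 : ∀ x, 0 ≤ G x) (L0 : 0 ≤ L) (e0 : 0 ≤ e)
    (ts : TS e G) (x : Cube n) : nrm (grad (fun x => min (G x) (2 * L) ^ 2) x) ≤ 2 * L * √e := by
  rw [nrm_le_iff (by positivity), mul_pow, Real.sq_sqrt e0]
  refine le_trans ?_ (mul_le_mul_of_nonneg_left (ts x) (sq_nonneg _))
  rw [Finset.mul_sum]
  refine Finset.sum_le_sum fun j _ => ?_
  rw [Rec.grad_eq]
  set p := min (G x) (2 * L)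
  set q := min (G (fl x j)) (2 * L)
  have h1 : |p - q| ≤ |G x - G (fl x j)| := 
    (abs_min_sub_min_le_max _ _ _ _).trans (max_le le_rfl (by simp))
  have h2 : (p - q) ^ 2 ≤ (G x - G (fl x j)) ^ 2 := sq_le_sq.2 h1
  have p0 : 0 ≤ p := le_min (G0 _) (by linarith)
  have q0 : 0 ≤ q := le_min (G0 _) (by linarith)
  have p1 : p ≤ 2 * L := min_le_right _ _
  have q1 : q ≤ 2 * L := min_le_right _ _
  have h3 : (p + q) ^ 2 ≤ (4 * L) ^ 2 := pow_le_pow_left₀ (by linarith) (by linarith) 2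
  have h4 := mul_le_mul h3 h2 (sq_nonneg _) (sq_nonneg _)
  have e1 : sv x j * (p ^ 2 - q ^ 2) / 2 * (sv x j * (p ^ 2 - q ^ 2) / 2) =
      sv x j * sv x j * ((p + q) ^ 2 * (p - q) ^ 2) / 4 := by ring
  rw [e1, Rec.sv_mul_self]
  nlinarith

theorem abs_of_sq {x C p Z : ℝ} (C1 : 1 ≤ C) (p0 : 0 ≤ p) (Z1 : 1 ≤ Z)
    (h : x ^ 2 ≤ C * (p ^ 2 + Z)) : |x| ≤ C * (p + Z) := by
  refine abs_le_of_sq_le_sq (h.trans ?_) (by positivity)
  have h1 : p ^ 2 + Z ≤ (p + Z) ^ 2 := by nlinarith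
  have h2 : C ≤ C ^ 2 := by nlinarith
  rw [mul_pow]
  exact mul_le_mul h2 h1 (by positivity) (by positivity)

theorem arith {E t0 t1 r1 r2 P Q X S Z vF wF vG wG s2 e ε C0 Ct Ck Cl : ℝ} (C01 : 1 ≤ C0)
    (Ct1 : 1 ≤ Ct) (Ck1 : 1 ≤ Ck) (Cl0 : 0 ≤ Cl) (P0 : 0 ≤ P) (Q0 : 0 ≤ Q) (X0 : 0 ≤ X) (S0 : 0 ≤ S)
    (Z0 : 0 ≤ Z) (s0 : 0 ≤ s2) (s1 : s2 ≤ 1) (e0 : 0 ≤ e) (eε : e ≤ ε)
    (hE : E = (t0 + t1 + r1 - r2) ^ 2) (h0 : t0 ^ 2 ≤ C0 * (P + s2 * (vF + wF) + vG + wG + Z))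
    (h1 : t1 ^ 2 ≤ Ct * (ε * S + Z)) (hr1 : r1 ^ 2 ≤ vG) (hr2 : r2 ^ 2 ≤ wG) (hX : vG ≤ X)
    (hG : wG ≤ vG + Ct * (2 * ε * S + Z)) (hF : wF ≤ vF + Ct * (ε * S + Z))
    (hK : vF ≤ Ck * (Q + X + e * S)) :
    E ≤ (4 * (C0 * (2 * Ck + 3 * Ct + 2) + 3 * Ct + 2) + Cl) * (P + s2 * Q + X + ε * S + Z) := by
  have ε0 : 0 ≤ ε := e0.trans eε
  have u0 : 0 ≤ ε * S := mul_nonneg ε0 S0
  have q0 : 0 ≤ s2 * Q := mul_nonneg s0 Q0
  set u := ε * S
  set q := s2 * Q
  set Y := P + q + X + u + Z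
  have a1 : s2 * (vF + wF) ≤ 2 * Ck * (q + X + u) + Ct * (u + Z) := by
    have b1 : vF + wF ≤ 2 * Ck * (Q + X + u) + Ct * (u + Z) := by
      have : Ck * (e * S) ≤ Ck * u := by gcongr; exact mul_le_mul_of_nonneg_right eε S0
      nlinarith
    have b2 : s2 * (2 * Ck * (X + u) + Ct * (u + Z)) ≤ 1 * (2 * Ck * (X + u) + Ct * (u + Z)) := by
      gcongr
    have b3 := mul_le_mul_of_nonneg_left b1 s0
    have b4 : s2 * (2 * Ck * (Q + X + u) + Ct * (u + Z)) =
      2 * Ck * q + s2 * (2 * Ck * (X + u) + Ct * (u + Z)) := by simp only [q]; ring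
    linarith
  have Y1 : Ck * (q + X + u) ≤ Ck * Y := by gcongr; simp only [Y]; linarith
  have Y2 : Ct * (u + Z) ≤ Ct * Y := by gcongr; simp only [Y]; linarith
  have Y3 : P + X + Z ≤ Y := by simp only [Y]; linarith
  have Y0 : 0 ≤ Y := by linarith
  have Z2 : 0 ≤ Ct * Z := by positivity
  have a2 : vG + wG ≤ 2 * X + 2 * (Ct * (u + Z)) := by
    have : Ct * (2 * ε * S + Z) = 2 * (Ct * (u + Z)) - Ct * Z := by simp only [u]; ring
    linarith
  have a3 : P + s2 * (vF + wF) + vG + wG + Z ≤ (2 * Ck + 3 * Ct + 2) * Y := by nlinarith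
  have a4 := h0.trans (mul_le_mul_of_nonneg_left a3 (by linarith))
  have a5 : E ≤ 4 * (t0 ^ 2 + t1 ^ 2 + r1 ^ 2 + r2 ^ 2) := by
    rw [hE]
    nlinarith [sq_nonneg (t0 - t1), sq_nonneg (t0 - r1), sq_nonneg (t0 + r2), sq_nonneg (t1 - r1),
      sq_nonneg (t1 + r2), sq_nonneg (r1 + r2)]
  have a6 : 0 ≤ Cl * Y := by positivity
  nlinarith

theorem nums {Cl C c e ε : ℝ} (Cl1 : 1 ≤ Cl) (CCl : Cl ≤ C) (c0 : 0 ≤ c) (e0 : 0 ≤ e)
    (he : √e * (1 + c) ^ 2 ≤ ε) (hε : C * ε ≤ 1) :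
    0 ≤ ε ∧ ε ≤ 1 ∧ e ≤ ε ∧ e ≤ ε ^ 2 ∧ Cl * e * (1 + c) ^ 2 ≤ ε := by
  have c1 : 1 ≤ (1 + c) ^ 2 := by nlinarith
  have r0 := Real.sqrt_nonneg e
  have rε : √e ≤ ε := le_trans (by nlinarith) he
  have ε0 : 0 ≤ ε := r0.trans rε
  have Clε : Cl * ε ≤ 1 := (mul_le_mul_of_nonneg_right CCl ε0).trans hε
  have ε1 : ε ≤ 1 := by nlinarith
  have re : √e * √e = e := Real.mul_self_sqrt e0
  have h0 : √e * √e ≤ ε * ε := mul_le_mul rε rε r0 ε0
  refine ⟨ε0, ε1, by nlinarith, by nlinarith, ?_⟩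
  have h1 : √e * (√e * (1 + c) ^ 2) ≤ ε * ε := mul_le_mul rε he (by positivity) ε0
  have h2 : Cl * e * (1 + c) ^ 2 = Cl * (√e * (√e * (1 + c) ^ 2)) := by
    rw [← mul_assoc (√e), re]; ring
  have h3 := mul_le_mul_of_nonneg_left h1 (by linarith : 0 ≤ Cl)
  nlinarith

theorem bf {v w f g : Cube n → ℝ} {Λ : ℝ} (hv : Wt v) (hW : Wt w) (hΛ : ∀ x, v x ≤ Λ * w x)
    (g0 : ∀ x, 0 ≤ g x) : mean w g ≤ Λ * (∑ x, w x * g x) / ∑ x, v x := by
  have hs : ∑ x, v x ≤ Λ * ∑ x, w x := by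
    rw [Finset.mul_sum]; exact Finset.sum_le_sum fun x _ => hΛ x
  have s2 : 0 ≤ ∑ x, w x * g x := Finset.sum_nonneg fun x _ => mul_nonneg (hW.nn x) (g0 x)
  rw [mean_eq_div, div_le_div_iff₀ hW.pos hv.pos]
  nlinarith [mul_le_mul_of_nonneg_left hs s2]

theorem unit (u : V n) (hz : u ≠ 0) : ∃ a : V n, nrm a ≤ 1 ∧ u ⬝ᵥ u = (a ⬝ᵥ u) ^ 2 := by
  have np := nrm_pos hz
  refine ⟨(nrm u)⁻¹ • u, ?_, ?_⟩
  · rw [nrm_smul, abs_of_pos (inv_pos.2 np), inv_mul_cancel₀ np.ne']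
  · rw [smul_dotProduct, ← nrm_sq, smul_eq_mul]; field_simp

/-- the remainder -/
def rm (W : Mx n) (h : V n) (Θ : Cube n → ℝ) (Ω : Cube n → V n) (x : Cube n) : V n :=
  fun j => tanh (hf W h x j + grad Θ x j) - tanh (hf W h x j + Ω x j)

variable {W : Mx n} {h a : V n} {Θ G : Cube n → ℝ} {Ω : Cube n → V n} {e L : ℝ}

theorem rm_le (hc : Cls e L Θ Ω G) (ha : nrm a ≤ 1) (x : Cube n) :
    (a ⬝ᵥ rm W h Θ Ω x) ^ 2 ≤ min (G x) (2 * L) ^ 2 := by
  have h1 : nrm (rm W h Θ Ω x) ≤ nrm (grad Θ x - Ω x) := nrm_le_of fun j =>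
    (Ue.abs_tanh_sub_le _ _).trans_eq (by rw [add_sub_add_left_eq_sub]; rfl)
  have h2 : nrm (rm W h Θ Ω x) ≤ min (G x) (2 * L) := le_min (h1.trans (hc.ex x))
    (h1.trans ((nrm_sub_le _ _).trans (by linarith [hc.gr x, (hc.rg x).2.2.1])))
  have h3 := (abs_dot_le a _).trans (mul_le_mul ha h2 (nrm_nonneg _) zero_le_one)
  rw [one_mul] at h3
  exact sq_le_sq' (abs_le.1 h3).1 (abs_le.1 h3).2

theorem ct_le (hc : Cls e L Θ Ω G) (ha : nrm a ≤ 1) (hLn : L ^ 2 ≤ n) (n1 : (1 : ℝ) ≤ n)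
    (x : Cube n) : |a ⬝ᵥ ct W h Ω x| ≤ n := by
  have h1 : nrm (ct W h Ω x) ≤ nrm (Ω x) := nrm_le_of fun j =>
    (Ue.abs_tanh_sub_le _ _).trans_eq (by rw [add_sub_cancel_left])
  have h3 := (abs_dot_le a _).trans
    (mul_le_mul ha (h1.trans (hc.rg x).2.2.1) (nrm_nonneg _) zero_le_one)
  nlinarith [sq_nonneg (L - 1)]

theorem split {w : Cube n → ℝ} (hcm : ∀ i x, cm w i x = tanh (hf W h x i + grad Θ x i))
    (Ω : Cube n → V n) (a : V n) (u : Cube n → ℝ) : (mean u fun x => a ⬝ᵥ fun j => cm w j x) =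
      (mean u fun x => a ⬝ᵥ fun j => tanh (hf W h x j)) + (mean u fun x => a ⬝ᵥ ct W h Ω x) +
        mean u fun x => a ⬝ᵥ rm W h Θ Ω x := by
  rw [← mean_add, ← mean_add]
  congr 1
  funext x
  rw [← dotProduct_add, ← dotProduct_add]
  congr 1
  funext j
  simp only [hcm, Pi.add_apply, ct, rm]
  ring

/-- the three transfers -/
theorem trs {Ct Cl c ε S Z : ℝ} {v w : Cube n → ℝ} (hc : Cls e L Θ Ω G) (ha : nrm a ≤ 1)
    (Ct1 : 1 ≤ Ct) (e0 : 0 ≤ e) (ε0 : 0 ≤ ε) (ε1 : ε ≤ 1) (eε2 : e ≤ ε ^ 2)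
    (lε : Cl * e * (1 + c) ^ 2 ≤ ε) (hLn : L ^ 2 ≤ n) (n1 : (1 : ℝ) ≤ n) (LS : L ^ 2 ≤ S)
    (Z1 : 1 ≤ Z) (TR : ∀ (F : Cube n → ℝ) (l : ℝ), 0 ≤ l → l ^ 2 ≤ 100 * n →
      (∀ x, nrm (grad F x) ≤ l) → (∀ x x', F x - F x' ≤ 4 * n) →
      (mean v F - mean w F) ^ 2 ≤ Ct * (l ^ 2 * S + Z))
    (LP : ∀ x, (∀ a : V n, nrm a ≤ 1 →
      nrm (grad (fun z => a ⬝ᵥ ct W h Ω z) x) ≤ Cl * e * (1 + c) ^ 2) ∧
      nrm (grad (F1 W h Ω) x) ≤ Cl * e * L * (1 + c) ^ 2) :
    ((mean v fun x => a ⬝ᵥ ct W h Ω x) - mean w fun x => a ⬝ᵥ ct W h Ω x) ^ 2 ≤ Ct * (ε * S + Z) ∧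
    (mean w fun x => min (G x) (2 * L) ^ 2) ≤
      (mean v fun x => min (G x) (2 * L) ^ 2) + Ct * (2 * ε * S + Z) ∧
    mean w (F1 W h Ω) ≤ mean v (F1 W h Ω) + Ct * (ε * S + Z) := by
  have L0 := hc.L0
  have S0 : 0 ≤ S := (sq_nonneg _).trans LS
  have G0 : ∀ x, 0 ≤ G x := fun x => (nrm_nonneg _).trans (hc.ex x)
  have q1 : ε ^ 2 ≤ 1 := pow_le_one₀ ε0 ε1
  have q2 : ε ^ 2 * L ^ 2 ≤ 1 * L ^ 2 := by gcongr
  have q3 : e * L ^ 2 ≤ ε ^ 2 * L ^ 2 := by gcongr
  have q4 : ε ^ 2 * L ^ 2 ≤ ε ^ 2 * S := by gcongr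
  have q5 : (2 * L * √e) ^ 2 = 4 * (e * L ^ 2) := by rw [mul_pow, Real.sq_sqrt e0]; ring
  have q6 : (ε * L) ^ 2 = ε ^ 2 * L ^ 2 := mul_pow _ _ _
  refine ⟨?_, ?_, ?_⟩
  · refine (TR (fun x => a ⬝ᵥ ct W h Ω x) ε ε0 (by linarith) (fun x => ((LP x).1 a ha).trans lε)
      fun x x' => ?_).trans (mul_le_mul_of_nonneg_left ?_ (by linarith))
    · linarith [abs_le.1 (ct_le (W := W) (h := h) hc ha hLn n1 x),
        abs_le.1 (ct_le (W := W) (h := h) hc ha hLn n1 x')]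
    · have : ε ^ 2 * S ≤ ε * S := mul_le_mul_of_nonneg_right (by nlinarith only [ε0, ε1]) S0
      linarith
  · have t2 := TR (fun x => min (G x) (2 * L) ^ 2) (2 * L * √e) (by positivity)
      (by linarith) (grad_G G0 L0 e0 hc.ts) fun x x' => by
        have h1 : min (G x) (2 * L) ^ 2 ≤ (2 * L) ^ 2 :=
          pow_le_pow_left₀ (le_min (G0 x) (by linarith)) (min_le_right _ _) 2
        rw [mul_pow] at h1
        linarith [sq_nonneg (min (G x') (2 * L))]
    have u2 := abs_of_sq (p := 2 * ε * S) Ct1 (by positivity) Z1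
      (t2.trans (mul_le_mul_of_nonneg_left (by
        have h2 := mul_le_mul_of_nonneg_right (q3.trans q4) S0
        rw [q5]; nlinarith only [h2]) (by linarith)))
    linarith [abs_le.1 u2]
  · have t3 := TR (F1 W h Ω) (ε * L) (by positivity) (by linarith)
      (fun x => (LP x).2.trans (by nlinarith only [mul_le_mul_of_nonneg_right lε L0])) fun x x' => by
        have h1 := pow_le_pow_left₀ (nrm_nonneg _) (hc.rg x).2.2.1 2
        linarith [(F1_mem W h Ω x).2, (F1_mem W h Ω x').1]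
    have u3 := abs_of_sq (p := ε * S) Ct1 (by positivity) Z1
      (t3.trans (mul_le_mul_of_nonneg_left (by
        have h2 := mul_le_mul_of_nonneg_right q4 S0
        rw [q6]; nlinarith only [h2]) (by linarith)))
    linarith [abs_le.1 u3]

end Ep64

open Ep64

theorem epsGlue : EpsGlue := by
  rintro ⟨Cl, Cl1, hL⟩ ⟨-, hK2, Ck, Ck1, hK3⟩ ⟨Ct, Ct1, hT⟩ ⟨C0, C01, h0⟩
  obtain ⟨C, hC⟩ : ∃ C, C = 4 * (C0 * (2 * Ck + 3 * Ct + 2) + 3 * Ct + 2) + Cl := ⟨_, rfl⟩
  have CC : 0 ≤ C0 * (2 * Ck + 3 * Ct + 2) := by positivity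
  have C4 : 4 ≤ C := by linarith
  have CCl : Cl ≤ C := by linarith
  refine ⟨C, by linarith, ?_⟩
  intro n W h c ω s A m xs v w Θ G Ω e ε L Λ hG hn hv hw hc he hε hLm hLn hΛ
  obtain ⟨wp, hcm⟩ := hK2 n w Θ W h hG.blk.symm hG.blk.diag hw
  have hW : Wt w := ⟨fun x => (wp x).le, Finset.sum_pos (fun x _ => wp x) Finset.univ_nonempty⟩
  have hP : Pr v w := ⟨hv, hW, fun x hx => absurd hx (wp x).ne'⟩
  have e0 : 0 ≤ e := (norm_nonneg _).trans (hc.rg xs).1
  have L0 := hc.L0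
  obtain ⟨ε0, ε1, eε, eε2, lε⟩ := nums Cl1 CCl hG.c0 e0 he hε
  have A0 : 0 < A := zero_lt_one.trans_le hG.A1
  have Ar0 : 0 ≤ Ar o1 v w := hP.Ar_nonneg fun _ _ => zero_le_one
  have Eg0 : 0 ≤ Eg Θ v := by
    unfold Eg Cnt
    exact Finset.sum_nonneg fun i _ => Ta.Cs_nonneg hv (fun _ => sq_nonneg _) i
  have Ex0 : 0 ≤ Ex G v := hv.mean_nonneg fun _ => sq_nonneg _
  have hB2 := bf (f := w) hv hW hΛ fun x => ib_nn (10 * m) (hd x xs)
  have B2 := (hW.mean_nonneg fun x => ib_nn (10 * m) (hd x xs)).trans hB2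
  have Bf0 : 0 ≤ Bf v w Λ W h (2 * A) m xs (10 * m) :=
    add_nonneg (hv.mean_nonneg fun x => add_nonneg (ib_nn _ _) (ib_nn _ _)) B2
  have n12 : (0 : ℝ) ≤ n ^ 12 := by positivity
  have R0 : 0 ≤ (s ^ 2 + ω ^ 2 / A + ε) * Ar o1 v w + s ^ 2 * Eg Θ v + Ex G v + ε * L ^ 2 + 1 := by
    positivity
  by_cases hx0 : ¬ ∃ x0, hd x0 xs ≤ 10 * m ∧ na (hf W h x0) (2 * A) x0 ≤ m
  · have h1 : 1 ≤ Bf v w Λ W h (2 * A) m xs (10 * m) := by
      refine le_add_of_le_of_nonneg (hv.le_mean fun x => ?_) B2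
      by_cases h2 : hd x xs ≤ 10 * m
      · rw [ib_one (not_le.1 fun h3 => hx0 ⟨x, h2, h3⟩)]; exact le_add_of_nonneg_right (ib_nn _ _)
      · rw [ib_one (not_le.1 h2)]; exact le_add_of_nonneg_left (ib_nn _ _)
    have h2 : (n : ℝ) ≤ n ^ 12 := by exact_mod_cast Nat.le_self_pow (by norm_num) n
    have h3 := mul_le_mul_of_nonneg_left h1 n12
    refine (ep_le hv hW).trans (le_trans ?_ (mul_le_mul_of_nonneg_right C4
      (add_nonneg R0 (mul_nonneg n12 Bf0))))
    linarith only [h2, h3, R0]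
  obtain ⟨x0, hx1, hx2⟩ := not_not.1 hx0
  by_cases hz : ep v w = 0
  · rw [hz, dotProduct_zero]
    exact mul_nonneg (by linarith only [C4]) (add_nonneg R0 (mul_nonneg n12 Bf0))
  have n1 : (1 : ℝ) ≤ n := by
    rcases Nat.eq_zero_or_pos n with rfl | h1
    · exact absurd (Subsingleton.elim _ _) hz
    · exact_mod_cast h1
  have m0 : (0 : ℝ) ≤ m := Nat.cast_nonneg m
  obtain ⟨b, hb0⟩ : ∃ b, b = (mean v fun x => ib (23 * m) (hd x x0)) +
    mean w fun x => ib (23 * m) (hd x x0) := ⟨_, rfl⟩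
  have b0 : 0 ≤ b := hb0 ▸
    add_nonneg (hv.mean_nonneg fun _ => ib_nn _ _) (hW.mean_nonneg fun _ => ib_nn _ _)
  have hib : ∀ x, ib (23 * m) (hd x x0) ≤ ib (10 * m) (hd x xs) := fun x =>
    ib_mono fun h1 => by linarith only [hd_tri x xs x0, h1, hx1, m0]
  have hb : b ≤ Bf v w Λ W h (2 * A) m xs (10 * m) := hb0 ▸
    add_le_add (hv.mean_mono fun x => (hib x).trans (le_add_of_nonneg_left (ib_nn _ _)))
      ((hW.mean_mono hib).trans hB2)
  have Z1 : 1 ≤ 1 + n ^ 12 * b := le_add_of_nonneg_right (mul_nonneg n12 b0)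
  obtain ⟨a, ha, hE⟩ := unit _ hz
  have G0 : ∀ x, 0 ≤ G x := fun x => (nrm_nonneg _).trans (hc.ex x)
  obtain ⟨t1, t2, t3⟩ := trs (W := W) (h := h) (v := v) (w := w) (S := Ar o1 v w + L ^ 2) hc ha Ct1
    e0 ε0 ε1 eε2 lε hLn n1 (le_add_of_nonneg_left Ar0) Z1
    (fun F l h1 h2 h3 h4 => by
      have := hT n W h c ω s A m x0 v w Θ F L l hG hx2 hn hv hw hc.gr h1 h2 h3 h4
      rwa [← hb0, add_assoc] at this)
    (hL n W h c e L Ω hG.blk.symm hG.blk.diag hG.blk.op L0 (eε.trans ε1) hc.rg)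
  have t0 := h0 n W h c ω s A m x0 v w Θ G Ω e L a hG hx2 hn hv hw hc (eε.trans ε1) hLm ha _ _ rfl rfl
  rw [← hb0, add_assoc _ (1 : ℝ)] at t0
  have key := arith (E := ep v w ⬝ᵥ ep v w) (Cl := Cl) C01 Ct1 Ck1 (zero_le_one.trans Cl1)
    (by positivity) Eg0 Ex0 (add_nonneg Ar0 (sq_nonneg _)) (zero_le_one.trans Z1) (sq_nonneg _)
    (pow_le_one₀ hG.s0 (hG.s1.trans (by norm_num))) e0 eε
    (by rw [hE, dot_ep hW, split hcm Ω, split hcm Ω]; congr 1; ring) t0 t1
    ((Rec.mean_sq_le hv _).trans (hv.mean_mono (rm_le (W := W) (h := h) hc ha)))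
    ((Rec.mean_sq_le hW _).trans (hW.mean_mono (rm_le (W := W) (h := h) hc ha)))
    (hv.mean_mono fun x => pow_le_pow_left₀ (le_min (G0 x) (by positivity)) (min_le_left _ _) 2)
    t2 t3 (hK3 n v w Θ G W h e L Ω hG.blk.symm hG.blk.diag hv hw hc (eε.trans ε1))
  rw [← hC] at key
  refine key.trans (mul_le_mul_of_nonneg_left ?_ (by linarith only [C4]))
  have := mul_le_mul_of_nonneg_left hb n12
  linarith only [this]

end Crest.Agent.T157.En

end
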