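import Crest.Agent.T157.SLE_23
import Crest.Agent.T157.EntE_34
import Crest.Agent.T157.GoeT_48
import Crest.Agent.T157.NrmG_84

-- ▼ part T157/GlueA_34
section

/-!
Row 157, part A (helper34): one stage of localisation for the entropy, with bad events whose cost
is a localised variance of `√F`; the small-set Poincare inequality pays for them.
-/

set_option autoImplicit false
set_option linter.unusedSectionVars false

noncomputable section

namespace Crest.Agent.T157.Glue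

open MeasureTheory Set Real Matrix
open Crest.Agent.T157.E Crest.Agent.T157.SL

section gen
variable {Ω ι : Type*} [Fintype Ω] [Fintype ι] [DecidableEq ι] {φ : Ω → ι → ℝ} {u w F : Ω → ℝ}
  {D s t : ℝ}

theorem mean_mul_sq_le (hu : Wt u) (f g : Ω → ℝ) :
    mean u (fun x => f x * g x) ^ 2 ≤ mean u (fun x => f x ^ 2) * mean u fun x => g x ^ 2 := by
  simpa only [Chain22.ip, sq, mean] using hu.isP.ip_sq_le f g

theorem dev_sq_le (hu : Wt u) (hD : ∀ x x', (φ x - φ x') ⬝ᵥ (φ x - φ x') ≤ D) (c : ι → ℝ) (x : Ω) :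
    (c ⬝ᵥ φ x - mean u fun y => c ⬝ᵥ φ y) ^ 2 ≤ D * (c ⬝ᵥ c) := by
  have h1 := mean_mul_sq_le hu (fun y => c ⬝ᵥ φ x - c ⬝ᵥ φ y) fun _ => 1
  simp only [mul_one, one_pow, hu.mean_const, mean_sub] at h1
  refine h1.trans (hu.mean_le fun y => ?_)
  rw [← dotProduct_sub, mul_comm]
  refine le_trans ?_ (mul_le_mul_of_nonneg_left (hD x y) (dot_self_nonneg c))
  simpa only [sq, dotProduct] using Finset.sum_mul_sq_le_sq_mul_sq Finset.univ c (φ x - φ y)

/-- `|Cov (g², φ)|² ≤ 4 D Var g E g²` -/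
theorem covV_sq_le_var (hu : Wt u) (hD : ∀ x x', (φ x - φ x') ⬝ᵥ (φ x - φ x') ≤ D) (g : Ω → ℝ) :
    covV u (fun x => g x ^ 2) φ ⬝ᵥ covV u (fun x => g x ^ 2) φ ≤
      4 * D * var u g * mean u fun x => g x ^ 2 := by
  set c := covV u (fun x => g x ^ 2) φ
  set m := mean u g
  set l := fun x => c ⬝ᵥ φ x - mean u fun y => c ⬝ᵥ φ y with hl
  have l0 : mean u l = 0 := by rw [hl, mean_sub, hu.mean_const, sub_self]
  have h1 : c ⬝ᵥ c = mean u fun x => (g x - m) * ((g x + m) * l x) := by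
    nth_rewrite 1 [covV_dot, hu.cov_eq']
    have : (fun x => (g x - m) * ((g x + m) * l x)) = fun x => g x ^ 2 * l x - m ^ 2 * l x := by
      ext x; ring
    rw [this, mean_sub, mean_const_mul, l0, mul_zero, sub_zero]
  have h2 := mean_mul_sq_le hu (fun x => g x - m) fun x => (g x + m) * l x
  have hm : m ^ 2 ≤ mean u fun x => g x ^ 2 := by
    simpa only [mul_one, one_pow, hu.mean_const] using mean_mul_sq_le hu g fun _ => 1
  obtain ⟨x0, -⟩ := hu.exists_pos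
  have D0 : 0 ≤ D := (dot_self_nonneg _).trans (hD x0 x0)
  have c0 := dot_self_nonneg c
  have h3 : mean u (fun x => ((g x + m) * l x) ^ 2) ≤ 4 * mean u (fun x => g x ^ 2) * (D * (c ⬝ᵥ c)) := by
    refine (hu.mean_mono (g := fun x => (2 * g x ^ 2 + 2 * m ^ 2) * (D * (c ⬝ᵥ c))) fun x => ?_).trans ?_
    · rw [mul_pow]
      exact mul_le_mul (by nlinarith [sq_nonneg (g x - m)]) (dev_sq_le hu hD c x) (sq_nonneg _)
        (by positivity)
    · rw [mean_mul_const, mean_add, mean_const_mul, hu.mean_const]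
      exact mul_le_mul_of_nonneg_right (by linarith) (by positivity)
  have v0 := hu.var_nonneg g
  have e0 : 0 ≤ mean u fun x => g x ^ 2 := hu.mean_nonneg fun _ => sq_nonneg _
  rw [← h1] at h2
  rcases c0.eq_or_lt with h | h
  · rw [← h]; positivity
  refine le_of_mul_le_mul_right ?_ h
  have h4 := h2.trans (mul_le_mul_of_nonneg_left h3 v0)
  change _ ≤ var u g * _ at h4
  nlinarith

theorem covV_sq_le_dev (hu : Wt u) (hD : ∀ x x', (φ x - φ x') ⬝ᵥ (φ x - φ x') ≤ D)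
    (hF : ∀ x, 0 ≤ F x) (c : ℝ) :
    covV u F φ ⬝ᵥ covV u F φ ≤ 4 * D * mean u (fun x => (√(F x) - c) ^ 2) * mean u F := by
  have h := covV_sq_le_var hu hD fun x => √(F x)
  simp only [sq_sqrt (hF _)] at h
  obtain ⟨x0, -⟩ := hu.exists_pos
  have D0 : 0 ≤ D := (dot_self_nonneg _).trans (hD x0 x0)
  exact h.trans (mul_le_mul_of_nonneg_right (mul_le_mul_of_nonneg_left (hu.var_le_mean _ c)
    (by positivity)) (hu.mean_nonneg hF))

/-- the bad term of the entropy is a localised variance of `√F` -/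
theorem bad_ent (hw : Wt w) (ht : 0 ≤ t) {A : Set (ι → ℝ)} (hA : MeasurableSet A)
    (hD : ∀ x x', (φ x - φ x') ⬝ᵥ (φ x - φ x') ≤ D) (hF : ∀ x, 0 ≤ F x) (h0 : 0 < mean w F) (c : ℝ) :
    (slE φ w t fun _ => A.indicator fun y => covV (post φ w t y) F φ ⬝ᵥ covV (post φ w t y) F φ /
      (2 * mean (post φ w t y) F)) ≤ 2 * D * mean w fun x => (√(F x) - c) ^ 2 * px φ t A x := by
  have m := ((eg_mean (φ := φ) hw fun x => (√(F x) - c) ^ 2).mg (mem_univ t)).indicator hA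
  rw [← slE_indicator_mean hw ht hA, ← slE_const_mul]
  refine slE_mono hw (.of_mg fun _ => ((eg_entD (Metric.isBounded_Icc t t) hw hF h0).mg
    (left_mem_Icc.2 le_rfl)).indicator hA) (.of_mg fun _ => m.const_mul _) fun _ y => ?_
  by_cases hy : y ∈ A
  swap
  · simp [hy]
  simp only [indicator_of_mem hy]
  have h1 := hw.mean_post_pos hF h0 φ t y
  rw [div_le_iff₀ (by positivity)]
  exact (covV_sq_le_dev (hw.post φ t y) hD hF c).trans_eq (by ring)

/-- the good term: covariance bounds on a ball of fields -/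
theorem good_ent (hw : Wt w) (hD : ∀ x x', (φ x - φ x') ⬝ᵥ (φ x - φ x') ≤ D) (hF : ∀ x, 0 ≤ F x)
    (h0 : 0 < mean w F) {α : ℝ} (hα : 0 < α) (y : ι → ℝ)
    (h : ∀ v, α ^ 2 * (v ⬝ᵥ v) ≤ 4 * D → ∀ u,
      u ⬝ᵥ covMat (post φ w t (y + v)) φ *ᵥ u ≤ α * (u ⬝ᵥ u)) :
    covV (post φ w t y) F φ ⬝ᵥ covV (post φ w t y) F φ / (2 * mean (post φ w t y) F) ≤
      α * ent (post φ w t y) F := by
  have h1 := hw.mean_post_pos hF h0 φ t y
  refine covV_sq_le_ent (hw.post φ t y) hF h1 hα fun r hr u => ?_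
  rw [post_post, add_zero]
  refine h _ ?_ u
  have h2 := covV_sq_le_dev (hw.post φ t y) hD hF 0
  simp only [sub_zero, sq_sqrt (hF _)] at h2
  obtain ⟨x0, -⟩ := hw.exists_pos
  have D0 : 0 ≤ D := (dot_self_nonneg _).trans (hD x0 x0)
  set m := mean (post φ w t y) F
  set c := covV (post φ w t y) F φ
  have e : α ^ 2 * (((r / (α * m)) • c) ⬝ᵥ ((r / (α * m)) • c)) = r ^ 2 * (c ⬝ᵥ c) / m ^ 2 := by
    simp only [smul_dotProduct, dotProduct_smul, smul_eq_mul]
    field_simp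
  rw [e, div_le_iff₀ (by positivity)]
  have h3 : r ^ 2 ≤ 1 := by nlinarith [hr.1, hr.2]
  nlinarith [mul_le_mul_of_nonneg_right h3 (dot_self_nonneg c)]

/-- **one stage of localisation** -/
theorem stage_ent (hw : Wt w) (hs : 0 ≤ s) (hst : s ≤ t)
    (hD : ∀ x x', (φ x - φ x') ⬝ᵥ (φ x - φ x') ≤ D) (hF : ∀ x, 0 ≤ F x) (h0 : 0 < mean w F)
    {α ε : ℝ → ℝ} (hα : ContinuousOn α (Icc s t)) (hε : ContinuousOn ε (Icc s t))
    (α0 : ∀ r ∈ Icc s t, 0 < α r) (ε0 : ∀ r ∈ Icc s t, 0 ≤ ε r) {A : ℝ → Set (ι → ℝ)}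
    (hA : ∀ r, MeasurableSet (A r))
    (good : ∀ r ∈ Ioo s t, ∀ y ∉ A r, ∀ v, α r ^ 2 * (v ⬝ᵥ v) ≤ 4 * D → ∀ u,
      u ⬝ᵥ covMat (post φ w r (y + v)) φ *ᵥ u ≤ α r * (u ⬝ᵥ u)) (c : ℝ)
    (bad : ∀ r ∈ Ioo s t, 2 * D * mean w (fun x => (√(F x) - c) ^ 2 * px φ r (A r) x) ≤ ε r) :
    ex φ w (fun p => ent (pw φ w p) F) s ≤
      exp (∫ r in s..t, α r) * (ex φ w (fun p => ent (pw φ w p) F) t + ∫ r in s..t, ε r) :=
  ent_conserve hw hs hst hF h0 hα hε (fun r hr => (α0 r hr).le) ε0 hA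
    (fun r hr y hy => good_ent hw hD hF h0 (α0 r (Ioo_subset_Icc_self hr)) y (good r hr y hy))
    fun r hr => (bad_ent hw (hs.trans hr.1.le) (hA r) hD hF h0 c).trans (bad r hr)

theorem ent_post_zero (hw : Wt w) (hF : ∀ x, 0 ≤ F x) (h0 : mean w F = 0) (t : ℝ) (y : ι → ℝ) :
    ent (post φ w t y) F = 0 := by
  refine Ent.ent_eq_zero_of_mean (hw.post φ t y).isP hF (le_antisymm (not_lt.1 fun h => ?_)
    ((hw.post φ t y).mean_nonneg hF))
  obtain ⟨x, h1, h2⟩ := ((hw.post φ t y).mean_pos_iff hF).1 h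
  exact ((hw.mean_pos_iff hF).2 ⟨x, (pos_iff_pos_of_mul_pos h1).2 (exp_pos _), h2⟩).ne' h0

/-- one stage with constant rates -/
theorem stage_const (hw : Wt w) (hs : 0 ≤ s) (hst : s ≤ t)
    (hD : ∀ x x', (φ x - φ x') ⬝ᵥ (φ x - φ x') ≤ D) (hF : ∀ x, 0 ≤ F x)
    {α ε : ℝ} (α0 : 0 < α) (ε0 : 0 ≤ ε) {A : ℝ → Set (ι → ℝ)} (hA : ∀ r, MeasurableSet (A r))
    (good : ∀ r ∈ Ioo s t, ∀ y ∉ A r, ∀ v, α ^ 2 * (v ⬝ᵥ v) ≤ 4 * D → ∀ u,
      u ⬝ᵥ covMat (post φ w r (y + v)) φ *ᵥ u ≤ α * (u ⬝ᵥ u)) (c : ℝ)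
    (bad : ∀ r ∈ Ioo s t, 2 * D * mean w (fun x => (√(F x) - c) ^ 2 * px φ r (A r) x) ≤ ε) :
    ex φ w (fun p => ent (pw φ w p) F) s ≤
      exp ((t - s) * α) * (ex φ w (fun p => ent (pw φ w p) F) t + (t - s) * ε) := by
  rcases (hw.mean_nonneg hF).eq_or_lt with h0 | h0
  · simp only [ent_post_zero hw hF h0.symm, ex_const hw]
    have := sub_nonneg.2 hst
    positivity
  simpa using stage_ent hw hs hst hD hF h0 (α := fun _ => α) (ε := fun _ => ε) continuousOn_const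
    continuousOn_const (fun _ _ => α0) (fun _ _ => ε0) hA good c bad

theorem mean_px_le_of (hw : Wt w) {A : Set (ι → ℝ)} {δ : ℝ} (h : ∀ x, px φ t A x ≤ δ) {k : Ω → ℝ}
    (hk : ∀ x, 0 ≤ k x) : mean w (fun x => k x * px φ t A x) ≤ δ * mean w k := by
  rw [mul_comm, ← mean_mul_const]
  exact hw.mean_mono fun x => mul_le_mul_of_nonneg_left (h x) (hk x)

theorem px_le {A : Set (ι → ℝ)} (hA : MeasurableSet A) (x : Ω) {B : Set (ι → ℝ)}
    (h : ∀ z, t • φ x + √t • z ∈ A → z ∈ B) : px φ t A x ≤ (gv ι).real B := by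
  rw [px, map_measureReal_apply (by fun_prop) hA]
  exact measureReal_mono h

end gen

/-! ### the small-set Poincare inequality -/

variable {n : ℕ} {w : Cube n → ℝ}

/-- Poincare inequality with constant `C / n` for functions with exponentially small support -/
def SSP (w : Cube n → ℝ) (ε C : ℝ) : Prop := ∀ g : Cube n → ℝ,
  mean w (Ent.ind fun x => g x ≠ 0) ≤ exp (-(ε * n)) → n * mean w (fun x => g x ^ 2) ≤ C * dir w g

theorem dir_le_of_abs (hw : ∀ x, 0 < w x) {f g : Cube n → ℝ}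
    (h : ∀ x y, |f x - f y| ≤ |g x - g y|) : dir w f ≤ dir w g := by
  rw [dir_eq_dir2, dir_eq_dir2, Chain22.dir2_eq_sum hw, Chain22.dir2_eq_sum hw]
  exact Finset.sum_le_sum fun i _ => (Chain22.siteRC hw i).D_le_of_abs h

theorem dir_sqrt_le (hw : ∀ x, 0 < w x) {F : Cube n → ℝ} (hF : ∀ x, 0 ≤ F x) :
    dir w (fun x => √(F x)) ≤ ∑ i, Ent.entS w F i := by
  rw [Ent.dir_eq_sum]
  refine Finset.sum_le_sum fun i _ => ?_
  rw [Ent.dirS_eq hw]
  exact (Chain22.isP_prob' hw).mean_mono fun x => (Ent.isP_cnd hw i x).var_sqrt_le_ent fun _ => hF _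

theorem SSP.mono {ε C ε' C' : ℝ} (h : SSP w ε C) (hw : ∀ x, 0 < w x) (hε : ε ≤ ε') (hC : C ≤ C') :
    SSP w ε' C' := fun g hg =>
  (h g (hg.trans (exp_le_exp.2 (neg_le_neg (mul_le_mul_of_nonneg_right hε n.cast_nonneg))))).trans
    (mul_le_mul_of_nonneg_right hC (Ent.dir_nonneg hw g))

/-- a weight `k ≤ 1` of small mean carries little variance -/
theorem SSP.weight {ε C : ℝ} (h : SSP w ε C) (hw : ∀ x, 0 < w x) (hC : 0 ≤ C) (f : Cube n → ℝ)
    {k : Cube n → ℝ} (k0 : ∀ x, 0 ≤ k x) (k1 : ∀ x, k x ≤ 1) {p : ℝ} (hp : mean w k ≤ p) :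
    n * mean w (fun x => (f x - mean w f) ^ 2 * k x) ≤
      4 * C * dir w f + 4 * n * exp (ε * n) * p * var w f := by
  have hW := Wt.of_pos hw
  have p0 : 0 ≤ p := (hW.mean_nonneg k0).trans hp
  have d0 := Ent.dir_nonneg hw f
  rcases (hW.var_nonneg f).eq_or_lt with v0 | v0
  · have : mean w (fun x => (f x - mean w f) ^ 2 * k x) ≤ var w f :=
      hW.mean_mono fun x => mul_le_of_le_one_right (sq_nonneg _) (k1 x)
    rw [← v0] at this ⊢
    nlinarith [mul_nonneg hC d0, mul_le_mul_of_nonneg_left this (n.cast_nonneg (α := ℝ))]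
  set m := mean w f
  set τ := √(exp (ε * n) * var w f)
  have τ2 : τ ^ 2 = exp (ε * n) * var w f := sq_sqrt (by positivity)
  have τ0 : 0 ≤ τ := sqrt_nonneg _
  set g := fun x => max (|f x - m| - τ) 0 with hg
  have h1 : mean w (Ent.ind fun x => g x ≠ 0) ≤ exp (-(ε * n)) := by
    have : τ ^ 2 * mean w (Ent.ind fun x => g x ≠ 0) ≤ var w f := by
      rw [← mean_const_mul]
      refine hW.mean_mono fun x => ?_
      by_cases hx : g x ≠ 0
      · rw [Ent.ind_pos (p := fun x => g x ≠ 0) hx, mul_one, ← sq_abs (f x - m)]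
        exact pow_le_pow_left₀ τ0 (not_lt.1 fun h => hx (max_eq_right (by linarith))) 2
      · rw [Ent.ind_neg (p := fun x => g x ≠ 0) hx, mul_zero]; positivity
    rw [τ2, mul_right_comm] at this
    rw [exp_neg, inv_eq_one_div, le_div_iff₀' (exp_pos _)]
    exact le_of_mul_le_mul_right (by linarith) v0
  have h2 := (h g h1).trans (mul_le_mul_of_nonneg_left (dir_le_of_abs hw (g := f) fun x y => by
    refine (abs_max_sub_max_le_abs _ _ _).trans ?_
    rw [sub_sub_sub_cancel_right]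
    exact (abs_abs_sub_abs_le _ _).trans_eq (by rw [sub_sub_sub_cancel_right])) hC)
  have h3 : mean w (fun x => (f x - m) ^ 2 * k x) ≤ 4 * τ ^ 2 * p + 4 * mean w fun x => g x ^ 2 := by
    refine (hW.mean_mono (g := fun x => 4 * τ ^ 2 * k x + 4 * g x ^ 2) fun x => ?_).trans ?_
    · rw [← sq_abs (f x - m)]
      have a0 := abs_nonneg (f x - m)
      have g1 : |f x - m| - τ ≤ g x := le_max_left _ _
      have g0 : 0 ≤ g x := le_max_right _ _
      have : |f x - m| ^ 2 ≤ 2 * τ ^ 2 + 2 * g x ^ 2 := by nlinarith [sq_nonneg (τ - g x)]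
      nlinarith [mul_le_mul_of_nonneg_right this (k0 x), mul_nonneg (sq_nonneg τ) (k0 x),
        mul_le_of_le_one_right (sq_nonneg (g x)) (k1 x)]
    · rw [mean_add, mean_const_mul, mean_const_mul]
      gcongr
  rw [τ2] at h3
  nlinarith [mul_le_mul_of_nonneg_left h3 (n.cast_nonneg (α := ℝ))]

/-- from a defective logarithmic Sobolev inequality -/
theorem ssp_of_dlsi (hw : ∀ x, 0 < w x) {ε K : ℝ} (hε : 0 < ε) (h : ∀ f : Cube n → ℝ,
    ent w (fun x => f x ^ 2) ≤ K * dir w f + ε * n * mean w fun x => f x ^ 2) :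
    SSP w (2 * ε) (K / ε) := fun g hg => by
  have h1 := Ent.ent_ge_of_supp (Chain22.isP_prob' hw) (f := fun x => g x ^ 2) (fun _ => sq_nonneg _)
    (p := fun x => g x ≠ 0) (fun x hx h => hx (by simp [h])) hg
  rw [one_div, log_inv, log_exp, neg_neg] at h1
  have h2 := h g
  rw [div_mul_eq_mul_div, le_div_iff₀ hε]
  change _ * mean w _ ≤ ent w _ at h1
  linarith

end Crest.Agent.T157.Glue

end
end

-- ▼ part T157/GlueB_34

/-!
Row 157, part A (helper34): the two stages of localisation for an Ising weight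
(external field up to time `T`, then removal of the interaction), deterministic statements.
-/

set_option autoImplicit false
set_option linter.unusedSectionVars false

noncomputable section

namespace Crest.Agent.T157.Glue

open MeasureTheory Set Real Matrix
open Crest.Agent.T157.E Crest.Agent.T157.SL Crest.Agent.T157.Tap
open Crest.Agent.T157.Eig (nrm opn nrm_sq nrm_nonneg nrm_add_le nrm_smul nrm_mulVec_le nrm_le_iff
  continuous_nrm)

variable {n : ℕ} {w F G : Cube n → ℝ} {J Q : Mx n}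

theorem nrm_tail (n : ℕ) : (gv (Fin n)).real {z | 2 * √n ≤ nrm z} ≤ exp (-(n / 2)) := by
  have h := Conc.tail_lip (Conc.elip_en (ι := Fin n)) (sqrt_nonneg n)
  have hm : ∫ z, nrm z ∂(gv (Fin n)) ≤ √n := by simpa using Nrm.integral_nrm_le (ι := Fin n)
  simp only [Nrm.en_eq_nrm, sq_sqrt (Nat.cast_nonneg n)] at h
  refine le_trans (measureReal_mono fun z hz => ?_) (h.trans (le_of_eq (by congr 1; ring)))
  simp only [mem_ofPred_eq] at hz ⊢
  linarith

theorem nrm_sv (x : Cube n) : nrm (sv x) = √n := by rw [nrm, sv_dot_self]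

/-- a symmetric square root of `J + c` -/
theorem exists_root (hJ : Jᵀ = J) {c : ℝ} (hc : opn J ≤ c) :
    ∃ Q : Mx n, Qᵀ = Q ∧ Q * Q = J + c • (1 : Mx n) := by
  have h := Eig.herm_iff.2 hJ
  refine ⟨Eig.fnK (fun x => √(x + c)) J, Eig.herm_iff.1 (Eig.fnK_herm _ _), ?_⟩
  rw [Eig.fnK_mul h, Eig.fnK_congr (g := fun x => x + c) fun k _ =>
    mul_self_sqrt (by linarith [(abs_le.1 (Eig.abs_lam_le h k)).1]), Eig.fnK_add, Eig.fnK_id_real h,
    Eig.fnK_const h]

section hs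
variable {c : ℝ} (hQ : Qᵀ = Q) (hQQ : Q * Q = J + c • (1 : Mx n))
include hQ

theorem dot_Q (u v : V n) : u ⬝ᵥ Q *ᵥ v = Q *ᵥ u ⬝ᵥ v := by
  rw [dotProduct_mulVec, ← mulVec_transpose, hQ]

theorem covMat_Q (u : Cube n → ℝ) (v : V n) :
    v ⬝ᵥ covMat u (fun σ => Q *ᵥ sv σ) *ᵥ v = Q *ᵥ v ⬝ᵥ covM u *ᵥ (Q *ᵥ v) := by
  simp only [covM, covMat_quad, dot_Q hQ]

include hQQ

theorem Q_sq (u : V n) : Q *ᵥ u ⬝ᵥ Q *ᵥ u = u ⬝ᵥ J *ᵥ u + c * (u ⬝ᵥ u) := by
  rw [← dot_Q hQ, mulVec_mulVec, hQQ, add_mulVec, dotProduct_add, smul_mulVec, one_mulVec,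
    dotProduct_smul, smul_eq_mul]

theorem Q_sq_le (hc : opn J ≤ c) (u : V n) : Q *ᵥ u ⬝ᵥ Q *ᵥ u ≤ 2 * c * (u ⬝ᵥ u) := by
  rw [Q_sq hQ hQQ]
  nlinarith [(abs_le.1 (Eig.abs_quad_le J u)).2, mul_le_mul_of_nonneg_right hc (dot_self_nonneg u)]

/-- the posterior along the Hubbard-Stratonovich localisation -/
theorem post_hs (y z : V n) (t : ℝ) : post (fun σ => Q *ᵥ sv σ) (ising J y) t z =
    fun σ => ising ((1 - t) • J) (y + Q *ᵥ z) σ * exp (-(t / 2 * (c * n))) := by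
  ext σ
  simp only [post, ising, ← exp_add, Q_sq hQ hQQ, sv_dot_self, dot_Q hQ z, smul_mulVec,
    dotProduct_smul, add_dotProduct, smul_eq_mul]
  congr 1; ring

theorem prob_post_hs (y z : V n) (t : ℝ) : prob (post (fun σ => Q *ᵥ sv σ) (ising J y) t z) =
    prob (ising ((1 - t) • J) (y + Q *ᵥ z)) := by
  rw [post_hs hQ hQQ]; exact prob_smul _ (exp_pos _).ne'

end hs

/-- covariance bound for all interactions `(1 - t) J` and all fields in a ball around `y` -/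
def Fro (J : Mx n) (M R : ℝ) (y : V n) : Prop := ∀ t ∈ Icc (0 : ℝ) 1, ∀ h : V n, nrm (h - y) ≤ R →
  ∀ u : V n, u ⬝ᵥ covM (ising ((1 - t) • J) h) *ᵥ u ≤ M * (u ⬝ᵥ u)

/-- `G` dominates the sum of the site entropies for every weight -/
def Maj (F G : Cube n → ℝ) : Prop :=
  ∀ u : Cube n → ℝ, (∀ x, 0 < u x) → ∑ i, Ent.entS u F i ≤ mean u G

/-- the majorant built from the conditional means of `w` -/
def maj (w F : Cube n → ℝ) (x : Cube n) : ℝ := ∑ i, Ent.brg (F x) (siteM w F i x)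

theorem maj_maj (hw : ∀ x, 0 < w x) (hF : ∀ x, 0 ≤ F x) : Maj F (maj w F) := fun u hu => by
  rw [show mean u (maj w F) = _ from mean_sum u _ _]
  exact Finset.sum_le_sum fun i _ => Ent.entS_le_siteM hw hu hF i

theorem mean_maj (hw : ∀ x, 0 < w x) (F : Cube n → ℝ) : mean w (maj w F) = ∑ i, Ent.entS w F i := by
  rw [show mean w (maj w F) = _ from mean_sum w _ _]
  exact Finset.sum_congr rfl fun i _ => (Ent.entS_eq_brg hw F i).symm

theorem wt_ising (A : Mx n) (h : V n) : Wt (ising A h) := .of_pos fun _ => exp_pos _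

/-- **removal of the interaction** -/
theorem hs_ent (hJ : Jᵀ = J) (hJ3 : opn J ≤ 3) (hF : ∀ x, 0 ≤ F x) (hG : Maj F G) {M δ : ℝ}
    (hM : 0 ≤ M) (y : V n) (hy : Fro J M (24 * √n) y ∧ exp (-(n / 2)) ≤ δ ∨ 1 ≤ δ) (c : ℝ) :
    ent (ising J y) F ≤ exp (6 * M + 2) *
      (mean (ising J y) G + 48 * n * δ * mean (ising J y) fun x => (√(F x) - c) ^ 2) := by
  obtain ⟨Q, hQ, hQQ⟩ := exists_root hJ hJ3
  have hw := wt_ising J y
  have δ0 : 0 ≤ δ := hy.elim (fun h => (exp_pos _).le.trans h.2) fun h => by linarith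
  have hQn : ∀ u, nrm (Q *ᵥ u) ≤ 3 * nrm u := fun u => by
    rw [nrm_le_iff (by have := nrm_nonneg u; positivity), mul_pow, nrm_sq]
    nlinarith [Q_sq_le hQ hQQ hJ3 u, dot_self_nonneg u]
  have sn := sqrt_nonneg (n : ℝ)
  have k0 : ∀ x, 0 ≤ (√(F x) - c) ^ 2 := fun _ => sq_nonneg _
  obtain ⟨A, hA, good, bad⟩ : ∃ A : Set (V n), MeasurableSet A ∧
      (∀ r ∈ Ioo (0 : ℝ) 1, ∀ z ∉ A, ∀ v : V n, nrm (Q *ᵥ v) ≤ 12 * √n → ∀ u : V n,
        u ⬝ᵥ covM (ising ((1 - r) • J) (y + Q *ᵥ (z + v))) *ᵥ u ≤ M * (u ⬝ᵥ u)) ∧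
      ∀ r ∈ Ioo (0 : ℝ) 1, ∀ x, px (fun σ => Q *ᵥ sv σ) r A x ≤ δ := by
    rcases hy with ⟨h1, h2⟩ | h
    · have hA : MeasurableSet {z : V n | 12 * √n < nrm (Q *ᵥ z)} :=
        measurableSet_lt measurable_const (continuous_nrm.comp (by fun_prop)).measurable
      refine ⟨_, hA, fun r hr z hz v hv => h1 r (Ioo_subset_Icc_self hr) _ ?_, fun r hr x =>
        (px_le hA x fun z hz => ?_).trans ((nrm_tail n).trans h2)⟩
      · rw [add_sub_cancel_left, mulVec_add]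
        simp only [mem_ofPred_eq, not_lt] at hz
        linarith [nrm_add_le (Q *ᵥ z) (Q *ᵥ v)]
      · simp only [mem_ofPred_eq, mulVec_add, mulVec_smul, mulVec_mulVec, hQQ, add_mulVec,
          smul_mulVec, one_mulVec] at hz ⊢
        have h3 := nrm_add_le (r • (J *ᵥ sv x + (3 : ℝ) • sv x)) (√r • Q *ᵥ z)
        have h4 := nrm_add_le (J *ᵥ sv x) ((3 : ℝ) • sv x)
        have h5 := (nrm_mulVec_le J (sv x)).trans (mul_le_mul_of_nonneg_right hJ3 (nrm_nonneg _))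
        rw [nrm_smul, nrm_smul, abs_of_pos hr.1, abs_of_nonneg (sqrt_nonneg _)] at h3
        rw [nrm_smul, nrm_sv, abs_of_pos three_pos] at h4
        rw [nrm_sv] at h5
        have h6 := mul_le_of_le_one_left (nrm_nonneg (J *ᵥ sv x + (3 : ℝ) • sv x)) hr.2.le
        have h7 := mul_le_of_le_one_left (nrm_nonneg (Q *ᵥ z)) (sqrt_le_one.2 hr.2.le)
        linarith [hQn z]
    · exact ⟨univ, .univ, fun _ _ z hz => absurd (mem_univ z) hz, fun _ _ x => (px_le_one x).trans h⟩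
  have h := stage_const (φ := fun σ => Q *ᵥ sv σ) (D := 24 * n) hw le_rfl zero_le_one (fun x x' => by
      rw [← mulVec_sub]; linarith [Q_sq_le hQ hQQ hJ3 (sv x - sv x'), sv_diam x x'])
    hF (α := 6 * M + 2) (ε := 48 * n * δ * mean (ising J y) fun x => (√(F x) - c) ^ 2)
    (by positivity) (mul_nonneg (by positivity) (hw.mean_nonneg k0)) (A := fun _ => A) (fun _ => hA)
    (fun r hr z hz v hv u => by
      rw [GoeT.covMat_congr_prob (prob_post_hs hQ hQQ y _ r), covMat_Q hQ]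
      refine (good r hr z hz v ?_ _).trans ?_
      · rw [nrm_le_iff (by positivity), mul_pow, sq_sqrt n.cast_nonneg]
        have h4 : 4 ≤ (6 * M + 2) ^ 2 := by nlinarith
        nlinarith [Q_sq_le hQ hQQ hJ3 v, mul_le_mul_of_nonneg_right h4 (dot_self_nonneg v)]
      · nlinarith [mul_le_mul_of_nonneg_left (Q_sq_le hQ hQQ hJ3 u) hM, dot_self_nonneg u]) c
    fun r hr => by
      nlinarith [mul_le_mul_of_nonneg_left (mean_px_le_of hw (bad r hr) k0)
        (by positivity : (0 : ℝ) ≤ 48 * n)]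
  rw [ex_pw_zero hw fun u => ent u F, sub_zero, one_mul, one_mul] at h
  refine h.trans (mul_le_mul_of_nonneg_left (add_le_add ?_ le_rfl) (exp_pos _).le)
  rw [← ex_mean (φ := fun σ => Q *ᵥ sv σ) hw zero_le_one G]
  refine ex_mono hw ((eg_ent hw F).mg (mem_univ 1)) ((eg_mean hw G).mg (mem_univ 1)) fun z => ?_
  have e := prob_post_hs hQ hQQ y z 1
  rw [sub_self, zero_smul, ← diagonal_zero] at e
  have hp := Ent.isProd_ising (fun _ => 0) (y + Q *ᵥ z)
  rw [pw, GoeT.ent_congr_prob e, GoeT.mean_congr_prob e]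
  simpa using (hp.at F hF).trans (by simpa using hG _ hp.pos)

/-- the entropy left at time `T` -/
theorem term_ent (hJ : Jᵀ = J) (hJ3 : opn J ≤ 3) (h0 : V n) (hF : ∀ x, 0 ≤ F x) {M T : ℝ}
    (hM : 0 ≤ M) (hT : 0 ≤ T) {B : Set (V n)} (hB : MeasurableSet B)
    (hy : ∀ y ∉ B, Fro J M (24 * √n) (h0 + y)) (c : ℝ) :
    ex sv (ising J h0) (fun p => ent (pw sv (ising J h0) p) F) T ≤ exp (6 * M + 2) *
      (∑ i, Ent.entS (ising J h0) F i +
        48 * n * exp (-(n / 2)) * mean (ising J h0) (fun x => (√(F x) - c) ^ 2) +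
        48 * n * mean (ising J h0) fun x => (√(F x) - c) ^ 2 * px sv T B x) := by
  have hw := wt_ising J h0
  have hp : ∀ x, 0 < ising J h0 x := fun _ => exp_pos _
  have m1 := (eg_mean (φ := sv) hw (maj (ising J h0) F)).mg (mem_univ T)
  have m2 := (eg_mean (φ := sv) hw fun x => (√(F x) - c) ^ 2).mg (mem_univ T)
  rw [← mean_maj hp, ← slE_indicator_mean hw hT hB, ← slE_mean (φ := sv) hw hT (maj _ F),
    ← slE_mean (φ := sv) hw hT fun x => (√(F x) - c) ^ 2, ← slE_const_mul, ← slE_const_mul,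
    ← slE_add (.of_mg fun _ => m1) (.of_mg fun _ => m2.const_mul _),
    ← slE_add (.of_mg fun _ => m1.add (m2.const_mul _))
      (.of_mg fun _ => (m2.indicator hB).const_mul _), ← slE_const_mul]
  refine slE_mono hw (.of_mg fun _ => (eg_ent hw F).mg (mem_univ T)) (.of_mg fun _ =>
    ((m1.add (m2.const_mul _)).add ((m2.indicator hB).const_mul _)).const_mul _) fun _ y => ?_
  have k0 := (wt_ising J (h0 + y)).mean_nonneg (f := fun x => (√(F x) - c) ^ 2) fun _ => sq_nonneg _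
  by_cases h : y ∈ B
  · simp only [indicator_of_mem h, pw, ent_post_sv, mean_post_sv, tilt_ising]
    refine (hs_ent hJ hJ3 hF (maj_maj hp hF) hM _ (Or.inr (le_add_of_nonneg_left
      (exp_pos (-(n / 2 : ℝ))).le)) c).trans_eq (by ring)
  · simp only [indicator_of_notMem h, pw, ent_post_sv, mean_post_sv, tilt_ising]
    exact (hs_ent hJ hJ3 hF (maj_maj hp hF) hM _ (Or.inl ⟨hy y h, le_rfl⟩) c).trans_eq (by ring)

theorem measurableSet_covOK (hw : ∀ x, 0 < w x) (K ρ : ℝ) : MeasurableSet {y | ¬ CovOK w K ρ y} := by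
  refine (IsClosed.measurableSet (s := {y | CovOK w K ρ y}) ?_).compl
  simp only [CovOK, ofPred_forall, ← covMat_post_sv w 0, covMat_quad]
  refine isClosed_iInter fun v => isClosed_iInter fun _ => isClosed_iInter fun u =>
    isClosed_le ?_ continuous_const
  exact ((eg_cov (φ := sv) (I := univ) (.of_pos hw) _ _).cont_at (mem_univ 0)).comp
    (continuous_add_const v)

/-- localisation by an external field, constant rates -/
theorem field_ent (hw : ∀ x, 0 < w x) (hF : ∀ x, 0 ≤ F x) {s t K ρ ε : ℝ} (hs : 0 ≤ s)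
    (hst : s ≤ t) (hK : 0 < K) (hρ : 4 ≤ K * ρ) (ε0 : 0 ≤ ε) (c : ℝ)
    (bad : ∀ r ∈ Ioo s t, 8 * n * mean w (fun x => (√(F x) - c) ^ 2 *
      px sv r {y | ¬ CovOK w K (ρ * √n) y} x) ≤ ε) :
    ex sv w (fun p => ent (pw sv w p) F) s ≤
      exp ((t - s) * K) * (ex sv w (fun p => ent (pw sv w p) F) t + (t - s) * ε) := by
  refine stage_const (.of_pos hw) hs hst sv_diam hF hK ε0 (fun _ => measurableSet_covOK hw _ _)
    (fun r _ y hy v hv u => ?_) c fun r hr => le_of_eq_of_le (by ring) (bad r hr)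
  rw [covMat_post_sv]
  have ρ0 : 0 < ρ := (pos_iff_pos_of_mul_pos (by linarith : 0 < K * ρ)).1 hK
  refine not_not.1 hy v ?_ u
  rw [nrm_le_iff (by positivity), mul_pow, sq_sqrt n.cast_nonneg]
  refine le_of_mul_le_mul_left (hv.trans ?_) (pow_pos hK 2)
  have : 16 ≤ (K * ρ) ^ 2 := by nlinarith
  nlinarith [mul_le_mul_of_nonneg_right this (n.cast_nonneg (α := ℝ))]

/-- the entropy left at time `t` is controlled by the site entropies -/
def Tail (w : Cube n → ℝ) (t K δ : ℝ) : Prop := ∀ F : Cube n → ℝ, (∀ x, 0 ≤ F x) →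
  ex sv w (fun p => ent (pw sv w p) F) t ≤ K * ∑ i, Ent.entS w F i + δ * var w fun x => √(F x)

theorem Tail.mono {t K δ K' δ' : ℝ} (h : Tail w t K δ) (hw : ∀ x, 0 < w x) (hK : K ≤ K')
    (hδ : δ ≤ δ') : Tail w t K' δ' := fun F hF =>
  (h F hF).trans (add_le_add (mul_le_mul_of_nonneg_right hK
    (Finset.sum_nonneg fun i _ => Ent.entS_nonneg hw hF i))
    (mul_le_mul_of_nonneg_right hδ ((Wt.of_pos hw).var_nonneg _)))

/-- at the end: a strong field along a spin configuration -/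
theorem tail_end (hJ : Jᵀ = J) (hJ3 : opn J ≤ 3) {M T η : ℝ} (hM : 0 ≤ M) (hT : 0 ≤ T)
    (h1 : 48 ≤ η * T) (h2 : 16 ≤ η ^ 2 * T)
    (fro : ∀ t ∈ Icc (0 : ℝ) 1, ∀ (σ : Cube n) (y : V n), nrm (y - T • sv σ) ≤ η * T * √n →
      ∀ u : V n, u ⬝ᵥ covM (ising ((1 - t) • J) y) *ᵥ u ≤ M * (u ⬝ᵥ u)) :
    Tail (ising J 0) T (exp (6 * M + 2)) (exp (6 * M + 2) * (96 * n * exp (-(n / 2)))) :=
  fun F hF => by
  have hB : MeasurableSet {y : V n | ∀ σ : Cube n, η * T / 2 * √n < nrm (y - T • sv σ)} := by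
    rw [ofPred_forall]
    exact .iInter fun σ => measurableSet_lt measurable_const
      (continuous_nrm.comp (by fun_prop)).measurable
  have sn := sqrt_nonneg (n : ℝ)
  refine (term_ent hJ hJ3 0 hF hM hT hB (fun y hy t ht h hh => ?_)
    (mean (ising J 0) fun x => √(F x))).trans ?_
  · obtain ⟨σ, hσ⟩ := not_forall.1 hy
    refine fro t ht σ h ?_
    have := nrm_add_le (h - (0 + y)) (y - T • sv σ)
    rw [zero_add, sub_add_sub_cancel] at this
    rw [zero_add] at hh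
    nlinarith [not_lt.1 hσ, mul_le_mul_of_nonneg_right h1 sn]
  have h3 := mean_px_le_of (wt_ising J 0) (k := fun x => (√(F x) - mean (ising J 0) fun x =>
    √(F x)) ^ 2) (fun x => (px_le (φ := sv) (t := T) hB x fun z hz => ?_).trans (nrm_tail n))
    fun _ => sq_nonneg _
  · rw [mul_assoc (exp _), ← mul_add]
    refine mul_le_mul_of_nonneg_left ?_ (exp_pos _).le
    change _ ≤ _ * var _ _ at h3
    change _ + _ * var _ _ + _ ≤ _
    nlinarith [mul_le_mul_of_nonneg_left h3 (by positivity : (0 : ℝ) ≤ 48 * n)]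
  · have h4 := hz x
    rw [add_sub_cancel_left, nrm_smul, abs_of_nonneg (sqrt_nonneg _)] at h4
    have η0 : 0 < η := by
      by_contra h; nlinarith [mul_nonneg (neg_nonneg.2 (not_lt.1 h)) hT]
    have h5 : 4 ≤ η * √T := by
      refine le_of_sq_le_sq ?_ (by positivity)
      rw [mul_pow, sq_sqrt hT]; linarith
    by_contra h6
    have h7 := mul_le_mul_of_nonneg_left (not_le.1 h6).le (sqrt_nonneg T)
    have h8 := mul_le_mul_of_nonneg_right h5 (mul_nonneg (sqrt_nonneg T) sn)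
    have h9 : η * √T * (√T * √n) = η * T * √n := by
      rw [mul_assoc, ← mul_assoc (√T), mul_self_sqrt hT, mul_assoc]
    linarith

/-- backwards from `T` to `t` under covariance bounds off exponentially rare fields -/
theorem Tail.back (hw : ∀ x, 0 < w x) {t T K δ K₁ ρ κ C : ℝ} (h : Tail w T K δ) (ht : 0 ≤ t)
    (htT : t ≤ T) (hK : 0 < K₁) (hρ : 4 ≤ K₁ * ρ) (hC : 0 ≤ C) (hS : SSP w (κ / 2) C)
    (cov : ∀ r ∈ Ioo t T, (law sv w r).real {y | ¬ CovOK w K₁ (ρ * √n) y} ≤ exp (-κ * n)) :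
    Tail w t (exp ((T - t) * K₁) * (K + (T - t) * (32 * C)))
      (exp ((T - t) * K₁) * (δ + (T - t) * (32 * n * exp (-(κ / 2 * n))))) := fun F hF => by
  have hW := Wt.of_pos hw
  have s0 : 0 ≤ ∑ i, Ent.entS w F i := Finset.sum_nonneg fun i _ => Ent.entS_nonneg hw hF i
  have v0 := hW.var_nonneg fun x => √(F x)
  refine (field_ent hw hF ht htT hK hρ (ε := 32 * C * ∑ i, Ent.entS w F i +
    32 * n * exp (-(κ / 2 * n)) * var w fun x => √(F x)) (by positivity)
    (mean w fun x => √(F x)) fun r hr => ?_).trans ?_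
  · have h1 := hS.weight hw hC (fun x => √(F x)) px_nonneg px_le_one
      ((law_real hW (measurableSet_covOK hw _ _)).symm.trans_le (cov r hr))
    have e : exp (κ / 2 * n) * exp (-κ * n) = exp (-(κ / 2 * n)) := by rw [← exp_add]; congr 1; ring
    rw [mul_assoc (4 * n : ℝ), e] at h1
    nlinarith [mul_le_mul_of_nonneg_left (dir_sqrt_le hw hF) hC]
  · have := mul_le_mul_of_nonneg_left (h F hF) (exp_pos ((T - t) * K₁)).le
    linarith

/-- at time `0` a small defect is absorbed -/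
theorem Tail.at (hw : ∀ x, 0 < w x) {K δ : ℝ} (h : Tail w 0 K δ) (hδ : δ ≤ 1 / 2) :
    Ent.AT w (2 * K) 0 := fun F hF => by
  have hW := Wt.of_pos hw
  have h1 := h F hF
  rw [ex_pw_zero hW fun u => ent u F] at h1
  have h2 : var w (fun x => √(F x)) ≤ ent w F := hW.isP.var_sqrt_le_ent hF
  nlinarith [mul_le_mul hδ h2 (hW.var_nonneg _) (by norm_num)]

end Crest.Agent.T157.Glue

end
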