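import Crest.Agent.T157.Xtr_25
import Crest.Agent.T157.TaA_40
import Crest.Agent.T157.ConcM_16
import Crest.Agent.T157.S3Hb_80

-- ▼ part T157/S1N_6
section

/-!
# Row 157, block B/S1, section 4 (helper6): (N), the distance of the field to a set of mass `1/2`
-/

set_option autoImplicit false

noncomputable section

namespace Crest.Agent.T157.S1n

open MeasureTheory ProbabilityTheory Real Matrix
open Crest.Agent.T157.E Crest.Agent.T157.SL Crest.Agent.T157.Conc
open Crest.Agent.T157.Rec (grad fl sv_fl_sub sv_mul_self)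
open Crest.Agent.T157.Xt (H1 Lip2 lip2_iff)

variable {n : ℕ} {d F : (Fin n → ℝ) → ℝ} {r K L : ℝ} {v w : Cube n → ℝ}

lemma sum_abs_le (z : Fin n → ℝ) : ∑ i, |z i| ≤ n * ‖z‖ := by
  simpa using Finset.sum_le_card_nsmul Finset.univ (fun i => |z i|) ‖z‖ fun i _ => norm_le_pi_norm z i

lemma mg_exp (h : ELip L F) (s : ℝ) : MG fun z => exp (s * F z) := by
  have hc := h.continuous
  refine ⟨by fun_prop, exp (|s| * |F 0|), |s| * (|L| * n), by positivity, by positivity, fun z => ?_⟩
  rw [abs_of_pos (exp_pos _), ← exp_add, exp_le_exp, mul_assoc, ← mul_add]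
  refine (le_abs_self _).trans ((abs_mul _ _).trans_le (mul_le_mul_of_nonneg_left ?_ (abs_nonneg s)))
  refine (h.abs_le z).trans ?_
  rw [mul_assoc]
  gcongr
  exact sum_abs_le z

lemma mg_lip (h : ELip L F) : MG F :=
  ((mg_exp h 1).add (mg_exp h (-1))).of_le h.continuous.measurable fun z => by
    have h1 := add_one_le_exp (1 * F z)
    have h2 := add_one_le_exp (-1 * F z)
    have h3 := exp_pos (1 * F z)
    have h4 := exp_pos (-1 * F z)
    exact (abs_le.2 ⟨by linarith, by linarith⟩).trans (le_abs_self _)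

/-- Cameron–Martin density -/
def lk (h z : Fin n → ℝ) : ℝ := exp (z ⬝ᵥ h - h ⬝ᵥ h / 2)

lemma mg_lk (h : Fin n → ℝ) : MG (lk h) := by
  have := mg_exp ((elip_dot h).sub_const (h ⬝ᵥ h / 2)) 1
  simp only [one_mul] at this
  convert this using 3 with z
  rw [lk, dotProduct_comm]; rfl

lemma int_lk (h h' : Fin n → ℝ) : ∫ z, lk h (h' + z) ∂Gs (Fin n) = exp (h' ⬝ᵥ h) := by
  have e : ∀ z, lk h (h' + z) = exp (h' ⬝ᵥ h) * (exp (z ⬝ᵥ h - h ⬝ᵥ h / 2) * 1) := fun z => by
    rw [lk, mul_one, ← exp_add, add_dotProduct]; congr 1; ring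
  simp only [e, integral_const_mul, ← cm h fun _ => 1]
  simp

/-- Bessel's inequality for shifts along orthogonal directions -/
lemma bessel (hF : MG F) (h : Fin n → Fin n → ℝ) {c : ℝ}
    (hh : ∀ j k, h j ⬝ᵥ h k = if j = k then c else 0) :
    ∑ j, (∫ z, F (h j + z) ∂Gs (Fin n) - ∫ z, F z ∂Gs (Fin n)) ^ 2 ≤
      exp c * ∫ z, F z ^ 2 ∂Gs (Fin n) := by
  set a : Fin n → ℝ := fun j => ∫ z, F (h j + z) ∂Gs (Fin n) - ∫ z, F z ∂Gs (Fin n) with ha
  set Y : (Fin n → ℝ) → ℝ := fun z => ∑ j, a j * (lk (h j) z - 1) with hY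
  have mY : MG Y := .sum _ fun j _ => ((mg_lk _).sub (.const 1)).const_mul _
  have key : ∀ G, MG G → ∫ z, Y z * G z ∂Gs (Fin n) =
      ∑ j, a j * (∫ z, G (h j + z) ∂Gs (Fin n) - ∫ z, G z ∂Gs (Fin n)) := fun G hG => by
    simp only [hY, Finset.sum_mul, mul_assoc]
    rw [integral_finsetSum _ fun j _ => ((((mg_lk _).sub (.const 1)).mul hG).const_mul _).int]
    refine Finset.sum_congr rfl fun j _ => ?_
    simp only [integral_const_mul, sub_mul, one_mul]
    rw [integral_sub ((mg_lk _).mul hG).int hG.int, cm]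
    rfl
  have e : ∀ h', ∫ z, Y (h' + z) ∂Gs (Fin n) = ∑ k, a k * (exp (h' ⬝ᵥ h k) - 1) := fun h' => by
    have m : ∀ k, Integrable (fun z => lk (h k) (h' + z)) (Gs (Fin n)) := fun k => by
      simpa using ((mg_lk (h k)).affine h' 1).int
    simp only [hY]
    rw [integral_finsetSum (f := fun k z => a k * (lk (h k) (h' + z) - 1)) _
      fun k _ => ((m k).sub (integrable_const _)).const_mul _]
    refine Finset.sum_congr rfl fun k _ => ?_
    rw [integral_const_mul, integral_sub (m k) (integrable_const _), int_lk]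
    simp
  have h1 := key F hF
  have h2 := key Y mY
  have e0 := e 0
  simp only [zero_add, zero_dotProduct, exp_zero, sub_self, mul_zero, Finset.sum_const_zero] at e0
  simp only [e, e0, hh, apply_ite exp, exp_zero, ite_sub, sub_self, mul_ite, mul_zero,
    Finset.sum_ite_eq, Finset.mem_univ, if_true, sub_zero, ← mul_assoc, ← Finset.sum_mul] at h2
  have c0 := exp_pos c
  have h3 := integral_mono (μ := Gs (Fin n)) (f := fun z => 2 * exp c * (Y z * F z))
    (g := fun z => Y z * Y z + exp c ^ 2 * (F z * F z)) ((mY.mul hF).const_mul _).int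
    ((mY.mul mY).add ((hF.mul hF).const_mul _)).int fun z => by
      simp only
      nlinarith [sq_nonneg (Y z - exp c * F z)]
  rw [integral_add (mY.mul mY).int ((hF.mul hF).const_mul _).int, integral_const_mul,
    integral_const_mul, h1, h2] at h3
  have h4 : 0 ≤ ∑ j, a j * a j := Finset.sum_nonneg fun _ _ => mul_self_nonneg _
  simp only [sq]
  refine le_of_mul_le_mul_left ?_ c0
  change _ * ∑ j, a j * a j ≤ _ at h3 ⊢
  nlinarith

/-- the average over the noise -/
def gm (r : ℝ) (d : (Fin n → ℝ) → ℝ) (x : Cube n) : ℝ := ∫ z, d (r • sv x + √r • z) ∂Gs (Fin n)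

lemma elip_aff (hd : ELip 1 d) (u : Fin n → ℝ) (r : ℝ) : ELip √r fun z => d (u + √r • z) :=
  fun z z' => (hd _ _).trans_eq (by
    rw [add_sub_add_left_eq_sub, ← smul_sub, en_smul, abs_of_nonneg (sqrt_nonneg r), one_mul])

lemma sq_le (hd : ELip 1 d) (hr : 0 ≤ r) (x : Cube n) (c : ℝ) :
    ∫ z, (d (r • sv x + √r • z) - c) ^ 2 ∂Gs (Fin n) ≤ r + (gm r d x - c) ^ 2 := by
  have h := elip_aff hd (r • sv x) r
  have h1 : ∫ z, (d (r • sv x + √r • z) - gm r d x) ^ 2 ∂Gs (Fin n) ≤ √r ^ 2 := subG_sq_le (subG_lip h)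
  have m := mg_lip (h.sub_const (gm r d x))
  have e : ∀ z, (d (r • sv x + √r • z) - c) ^ 2 = (d (r • sv x + √r • z) - gm r d x) ^ 2 +
      (2 * (gm r d x - c) * (d (r • sv x + √r • z) - gm r d x) + (gm r d x - c) ^ 2) := fun z => by ring
  have i1 : Integrable (fun z => (d (r • sv x + √r • z) - gm r d x) ^ 2) (Gs (Fin n)) := by
    simpa only [sq] using (m.mul m).int
  have i2 := (m.const_mul (2 * (gm r d x - c))).int
  have i3 : Integrable (fun z => 2 * (gm r d x - c) * (d (r • sv x + √r • z) - gm r d x) +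
      (gm r d x - c) ^ 2) (Gs (Fin n)) := i2.add (integrable_const _)
  simp only [e]
  rw [integral_add i1 i3, integral_add i2 (integrable_const _), integral_const_mul,
    integral_sub h.integrable (integrable_const _)]
  rw [sq_sqrt hr] at h1
  simpa [gm] using h1

/-- the square gradient of the average -/
lemma flip_le (hd : ELip 1 d) (hr : 0 ≤ r) (x : Cube n) :
    ∑ j, (gm r d (fl x j) - gm r d x) ^ 2 ≤ r * exp (4 * r) := by
  have h := elip_aff hd (r • sv x) r
  have h1 := bessel (mg_lip (h.sub_const (gm r d x))) (fun j => Pi.single j (-2 * √r * sv x j))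
    (c := 4 * r) fun j k => by
      rw [single_dotProduct, Pi.single_apply]
      split_ifs with e
      · subst e
        linear_combination 4 * (sv x j * sv x j) * mul_self_sqrt hr + 4 * r * sv_mul_self x j
      · exact mul_zero _
  have h2 := sq_le hd hr x (gm r d x)
  have e : ∀ j z, r • sv x + √r • (Pi.single j (-2 * √r * sv x j) + z) =
      r • sv (fl x j) + √r • z := fun j z => by
    rw [eq_add_of_sub_eq' (sv_fl_sub x j), smul_add, smul_add, add_assoc, ← Pi.single_smul,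
      ← Pi.single_smul, smul_eq_mul, smul_eq_mul]
    congr 3
    linear_combination -2 * sv x j * mul_self_sqrt hr
  have e2 : ∀ y c, ∫ z, (d (r • sv y + √r • z) - c) ∂Gs (Fin n) = gm r d y - c := fun y c => by
    rw [integral_sub (elip_aff hd _ r).integrable (integrable_const _)]
    simp [gm]
  simp only [e, e2, sub_self, sub_zero] at h1
  rw [sub_self] at h2
  refine h1.trans ?_
  rw [mul_comm]
  exact mul_le_mul_of_nonneg_right (by simpa using h2) (exp_pos _).le

lemma lip2_gm (hd : ELip 1 d) (hr : 0 ≤ r) : Lip2 √(r * exp (4 * r)) (gm r d) :=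
  (lip2_iff (sqrt_nonneg _)).2 fun x => by
    rw [sq_sqrt (by positivity)]
    exact le_trans (le_of_eq (Finset.sum_congr rfl fun j _ => by ring)) (flip_le hd hr x)

/-- the constant of (N) -/
def CN (K r : ℝ) : ℝ := K * (r * exp (4 * r)) + r + 1

lemma CN_mono {K r S : ℝ} (hK : 0 ≤ K) (hr : 0 ≤ r) (h : r ≤ S) : CN K r ≤ CN K S := by
  have := hr.trans h
  unfold CN; gcongr

lemma one_le_CN (hK : 0 ≤ K) (hr : 0 ≤ r) : 1 ≤ CN K r := le_add_of_nonneg_left (by positivity)

/-- Euclidean distance to a set -/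
def dS (G : Set (Fin n → ℝ)) (y : Fin n → ℝ) : ℝ :=
  Metric.infDist (WithLp.toLp 2 y : EuclideanSpace ℝ (Fin n)) (WithLp.toLp 2 '' G)

lemma dS_nonneg (G : Set (Fin n → ℝ)) (y : Fin n → ℝ) : 0 ≤ dS G y := Metric.infDist_nonneg

lemma dS_zero {G : Set (Fin n → ℝ)} : ∀ y ∈ G, dS G y = 0 := fun _ hy =>
  Metric.infDist_zero_of_mem (Set.mem_image_of_mem _ hy)

lemma elip_dS (G : Set (Fin n → ℝ)) : ELip 1 (dS G) := fun y y' => by
  have := (Metric.lipschitz_infDist_pt (WithLp.toLp 2 '' G : Set (EuclideanSpace ℝ (Fin n)))).dist_le_mul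
    (WithLp.toLp 2 y) (WithLp.toLp 2 y')
  rw [Real.dist_eq, dist_eq_norm] at this
  simpa only [dS, en_eq_norm, WithLp.toLp_sub, NNReal.coe_one] using this


variable (hw : ∀ x, 0 < w x) (h : H1 w K) (hK : 0 < K) (hd : ELip 1 d) (hr : 0 ≤ r)
  {G : Set (Fin n → ℝ)} (hG : ∀ y ∈ G, d y = 0) (hm : 1 / 2 ≤ (law sv w r).real G)
include hw h hK hd hr

lemma cen (hv : Wt v) : mean v (fun x => (gm r d x - mean w (gm r d)) ^ 2) ≤
    K * (r * exp (4 * r)) * (8 * kl v w + 3) := by
  have := h.cen hw hK (lip2_gm hd hr) hv.isP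
  rwa [sq_sqrt (by positivity)] at this

omit hK in
lemma mgf {s : ℝ} (hs : 0 ≤ s) : slE sv w r (fun _ y => exp (s * d y)) ≤
    exp (s * mean w (gm r d) + CN K r * s ^ 2) := by
  have wt : Wt w := .of_pos hw
  have h1 : ∀ x, ∫ z, exp (s * d (r • sv x + √r • z)) ∂Gs (Fin n) ≤
      exp (r * s ^ 2 / 2) * exp (s * gm r d x) := fun x => by
    have h2 := mgf_lip (elip_aff hd (r • sv x) r) s
    simp only [mul_sub, exp_sub, integral_div, sq_sqrt hr] at h2
    exact (div_le_iff₀ (exp_pos _)).1 h2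
  have h3 : mean w (fun x => exp (s * gm r d x)) ≤ _ := (log_le_iff_le_exp
    (Ent.mean_exp_pos wt.isP _)).1 (h _ _ (sqrt_nonneg _) (lip2_gm hd hr).vp s hs)
  rw [sq_sqrt (by positivity)] at h3
  refine (wt.mean_mono h1).trans ?_
  rw [mean_const_mul]
  refine (mul_le_mul_of_nonneg_left h3 (exp_pos _).le).trans ?_
  rw [← exp_add, exp_le_exp, CN]
  change _ + (s * mean w (gm r d) + _) ≤ _
  nlinarith [mul_nonneg hr (sq_nonneg s)]

include hG hm

lemma mean_sq : mean w (gm r d) ^ 2 ≤ 2 * (r + 3 * (K * (r * exp (4 * r)))) := by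
  have wt : Wt w := .of_pos hw
  have := isProb_law (φ := sv) (s := r) wt
  have h4 := cen hw h hK hd hr wt
  rw [show kl w w = 0 from Ent.kl_self _] at h4
  set m := mean w (gm r d) with hm'
  have ms : MeasurableSet {y | d y = 0} := hd.continuous.measurable (measurableSet_singleton 0)
  have h1 := hm.trans (measureReal_mono (s₂ := {y | d y = 0}) hG)
  have m2 := mg_lip (hd.sub_const m)
  have h2 := slE_mono (φ := sv) (s := r) (F := fun _ => {y | d y = 0}.indicator fun _ => m ^ 2)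
    (F' := fun _ y => (d y - m) * (d y - m)) wt (.of_mg fun _ => (MG.const _).indicator ms)
    (.of_mg fun _ => m2.mul m2) fun _ y => by
      by_cases e : d y = 0
      · rw [Set.indicator_of_mem (by exact e), e]; linarith
      · rw [Set.indicator_of_notMem (by exact e)]; exact mul_self_nonneg _
  rw [slE_indicator ms, mean_const_mul, ← law_real wt ms, slE_eq_mean] at h2
  have h3 := wt.mean_mono fun x => sq_le hd hr x m
  rw [mean_add, wt.mean_const] at h3
  simp only [sq (d _ - m)] at h3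
  nlinarith [mul_le_mul_of_nonneg_left h1 (sq_nonneg m)]

/-- **(N)**, second moment under every law -/
theorem n_sq (hv : Wt v) : slE sv v r (fun _ y => d y ^ 2) ≤ 20 * CN K r * (kl v w + 1) := by
  have h1 := mean_sq hw h hK hd hr hG hm
  have h2 := cen hw h hK hd hr hv
  have h3 := hv.mean_mono fun x => (sq_le hd hr x 0).trans (show _ ≤ (r + 2 * mean w (gm r d) ^ 2) +
    2 * (gm r d x - mean w (gm r d)) ^ 2 by nlinarith [sq_nonneg (gm r d x - 2 * mean w (gm r d))])
  have h4 : 0 ≤ kl v w := Ta.Pr.kl_nonneg ⟨hv, .of_pos hw, fun x e => absurd e (hw x).ne'⟩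
  have h5 : 0 ≤ K * (r * exp (4 * r)) := by positivity
  simp only [sub_zero] at h3
  rw [mean_add, hv.mean_const, mean_const_mul] at h3
  rw [slE_eq_mean, CN]
  nlinarith [mul_nonneg h5 h4, mul_nonneg hr h4]

/-- **(N)**, tail under the reference law -/
theorem n_tail (d0 : ∀ y, 0 ≤ d y) (t : ℝ) :
    (law sv w r).real {y | t ≤ d y ^ 2} ≤ exp (2 - t / (8 * CN K r)) := by
  have wt : Wt w := .of_pos hw
  have := isProb_law (φ := sv) (s := r) wt
  have C1 := one_le_CN hK.le hr
  rcases le_total t 0 with t0 | t0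
  · exact measureReal_le_one.trans (one_le_exp (by
      linarith [div_nonpos_of_nonpos_of_nonneg t0 (show 0 ≤ 8 * CN K r by linarith)]))
  set C := CN K r with hC
  set s := √t / (4 * C) with hs
  have s0 : 0 ≤ s := by positivity
  have h1 := measure_ge_le_exp_mul_mgf (X := d) (μ := law sv w r) √t s0 (mg_exp hd s).int_law
  rw [ProbabilityTheory.mgf, integral_law wt (mg_exp hd s).meas (.of_mg fun _ => mg_exp hd s)] at h1
  refine (measureReal_mono fun y hy => ?_).trans (h1.trans ?_)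
  · exact sqrt_le_iff.2 ⟨d0 y, hy⟩
  refine (mul_le_mul_of_nonneg_left (mgf hw h hd hr s0) (exp_pos _).le).trans ?_
  rw [← exp_add, exp_le_exp, ← hC]
  have h2 : mean w (gm r d) ^ 2 ≤ 8 * C := by
    have := mean_sq hw h hK hd hr hG hm
    have e : C = K * (r * exp (4 * r)) + r + 1 := hC
    have : 0 ≤ K * (r * exp (4 * r)) := by positivity
    linarith
  have e1 : √t = 4 * C * s := by rw [hs]; field_simp
  have e2 : t / (8 * C) = 2 * C * s ^ 2 := by
    rw [← mul_self_sqrt t0, e1]; field_simp; ring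
  have h3 : s * mean w (gm r d) ≤ C * s ^ 2 + 2 := by
    refine le_of_mul_le_mul_left ?_ (show 0 < 4 * C by linarith)
    nlinarith [sq_nonneg (2 * C * s - mean w (gm r d))]
  rw [e2, e1]
  linarith

end Crest.Agent.T157.S1n
end
end

-- ▼ part T157/S1Bud_6

/-!
# Row 157, block B/S1, section 4 (helper6): (B1), the budget controls the entropies
-/

set_option autoImplicit false

noncomputable section

namespace Crest.Agent.T157.S1n

open Real Matrix
open Crest.Agent.T157.E Crest.Agent.T157.SL Crest.Agent.T157.Ta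
open Crest.Agent.T157.Xt (H1 Lip2 lip2_of_grad)
open Crest.Agent.T157.Eig (nrm nrm_nonneg nrm_sq)

variable {n : ℕ} {K A θ M : ℝ} {v w p g U l f : Cube n → ℝ}

lemma pr_of (hw : ∀ x, 0 < w x) (hv : Wt v) : Pr v w := ⟨hv, .of_pos hw, fun x e => absurd e (hw x).ne'⟩

lemma lip2_lin (u : Fin n → ℝ) : Lip2 (2 * nrm u) fun x => u ⬝ᵥ sv x :=
  lip2_of_grad fun x => by rw [Rec.grad_lin]

/-- change of the reference weight: tilt `g`, pins and penalty `l = e^{-U}` on its support -/
lemma kl_pin (hw : ∀ x, 0 < w x) (hp : Pr v p) (hq : ∀ x, p x = w x * exp (g x) * l x)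
    (hl : ∀ x, l x ≠ 0 → l x = exp (-U x)) :
    kl v p = kl v w - mean v g + mean v U + (log (∑ x, p x) - log (∑ x, w x)) := by
  rw [kl_eq_mean hp, kl_eq_mean (pr_of hw hp.hv), mean_congr_supp (v := v)
    (g := fun x => log (v x) - log (w x) - g x + U x) fun x hx => ?_, mean_add, mean_sub _ _ g]
  · ring
  have h1 := (hp.pos hx).2.ne'
  rw [hq] at h1 ⊢
  rw [hl x (right_ne_zero_of_mul h1), mul_assoc, ← exp_add, log_mul (hw x).ne' (exp_pos _).ne', log_exp]
  ring

/-- **Gibbs**: the size `log sup f - log μ(f l)` dominates `H(ν|μ) + ν U` -/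
theorem dy_le (hw : ∀ x, 0 < w x) (hv : Wt v) (e : ∀ x, v x = w x * l x * f x)
    (hl : ∀ x, l x ≠ 0 → l x = exp (-U x)) (f0 : ∀ x, 0 ≤ f x) (hf : ∀ x, f x ≤ M) :
    kl v w + mean v U ≤ log M - log (mean w fun x => f x * l x) := by
  have h1 := kl_eq_mean (pr_of hw hv)
  have h2 := mean_mono_supp hv (f := fun x => log (v x) - log (w x)) (g := fun x => log M - U x)
    fun x hx => by
      rw [e] at hx ⊢
      have a := right_ne_zero_of_mul hx
      have b := hl x (right_ne_zero_of_mul (left_ne_zero_of_mul hx))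
      rw [b, log_mul (mul_pos (hw x) (exp_pos _)).ne' a, log_mul (hw x).ne' (exp_pos _).ne', log_exp]
      linarith [log_le_log ((f0 x).lt_of_ne' a) (hf x)]
  have h3 : (∑ x, w x * (f x * l x)) = ∑ x, v x := Finset.sum_congr rfl fun x _ => by rw [e]; ring
  rw [mean_sub _ _ U, hv.mean_const] at h2
  rw [mean_eq_div w, h3, log_div hv.pos.ne' (Wt.of_pos hw).pos.ne']
  linarith

variable (hw : ∀ x, 0 < w x) (h : H1 w K)
include hw h

lemma lmgf_le (hg : Lip2 A g) : log (mean w fun x => exp (g x)) ≤ mean w g + K * A ^ 2 := by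
  have _ := hw
  have := h g A hg.nn hg.vp 1 zero_le_one
  simp only [Ent.lmgf, one_mul, one_pow, mul_one] at this
  exact this

lemma h1_up (hg : Lip2 A g) (hv : Wt v) (hθ : 0 < θ) :
    mean v g - mean w g ≤ kl v w / θ + K * A ^ 2 * θ := by
  have h1 := mean_le_kl (pr_of hw hv) fun x => θ * g x
  have h2 := lmgf_le hw h (hg.const_mul θ)
  rw [mean_const_mul] at h1 h2
  rw [mul_pow, sq_abs] at h2
  refine le_of_mul_le_mul_left ?_ hθ
  rw [mul_add, mul_div_cancel₀ _ hθ.ne']
  linarith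

lemma h1_lo (hg : Lip2 A g) (hv : Wt v) (hθ : 0 < θ) :
    mean w g - mean v g ≤ kl v w / θ + K * A ^ 2 * θ := by
  have := h1_up hw h hg.neg hv hθ
  rw [mean_neg, mean_neg] at this
  linarith


/-- magnetisations, against the reference law -/
theorem Dm_ref (hK : 0 < K) (hv : Wt v) : Dm v w ⬝ᵥ Dm v w ≤ 16 * K * kl v w := by
  have h1 := h1_up hw h (lip2_lin (Dm v w)) hv (θ := (8 * K)⁻¹) (by positivity)
  rw [← meanV_dot, ← meanV_dot, ← dotProduct_sub, mul_pow, nrm_sq, div_inv_eq_mul] at h1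
  have e : K * (2 ^ 2 * (Dm v w ⬝ᵥ Dm v w)) * (8 * K)⁻¹ = Dm v w ⬝ᵥ Dm v w / 2 := by
    field_simp; ring
  change Dm v w ⬝ᵥ Dm v w ≤ _ at h1
  linarith

/-- magnetisations of two laws -/
theorem Dm_le (hK : 0 < K) (hv : Wt v) (hq : Wt p) :
    Dm v p ⬝ᵥ Dm v p ≤ 32 * K * (kl v w + kl p w) := by
  have e : Dm v p = Dm v w - Dm p w := by simp [Dm]
  have h1 := dot_self_nonneg (Dm v w + Dm p w)
  have h2 := Dm_ref hw h hK hv
  have h3 := Dm_ref hw h hK hq
  rw [e]
  simp only [add_dotProduct, dotProduct_add, sub_dotProduct, dotProduct_sub] at h1 ⊢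
  linarith

/-- removing a Lipschitz tilt from the reference law -/
theorem kl_le_wt (hg : Lip2 A g) (hv : Wt v) : kl v w ≤ 2 * kl v (wt w g) + 4 * (K * A ^ 2) := by
  linarith [kl_wt_ge (pr_of hw hv) g, h1_up hw h hg hv two_pos]


theorem kl_wt_self (hg : Lip2 A g) : kl (wt w g) w ≤ 4 * (K * A ^ 2) := by
  have := kl_le_wt hw h hg (wt_wt (.of_pos hw) g)
  rwa [show kl (wt w g) (wt w g) = 0 from Ent.kl_self _, mul_zero, zero_add] at this

/-- change of the field: `μ_y = tilt μ₀ u`, `u = y - y₀` -/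
theorem kl_le_tilt (u : Fin n → ℝ) (hv : Wt v) : kl v w ≤ 2 * kl v (tilt w u) + 16 * K * (u ⬝ᵥ u) :=
  (kl_le_wt hw h (lip2_lin u) hv).trans_eq (by rw [mul_pow, nrm_sq]; exact congrArg₂ _ rfl (by ring))


theorem kl_tilt_self (u : Fin n → ℝ) : kl (tilt w u) w ≤ 16 * K * (u ⬝ᵥ u) :=
  (kl_wt_self hw h (lip2_lin u)).trans_eq (by rw [mul_pow, nrm_sq]; ring)

variable (hg : Lip2 A g) (hp : Pr v p) (hq : ∀ x, p x = w x * exp (g x) * l x)
  (hl : ∀ x, l x ≠ 0 → l x = exp (-U x))
include hg hp hq hl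

/-- **(B1)** entropy and penalty of `p` -/
theorem b1 : kl p w / 2 + mean p U ≤ 2 * kl v w + mean v U + 3 * (K * A ^ 2) := by
  have h1 := kl_pin hw hp hq hl
  have h2 := kl_pin hw (Pr.refl hp.hw) hq hl
  rw [show kl p p = 0 from Ent.kl_self _] at h2
  linarith [hp.kl_nonneg, h1_up hw h hg hp.hw two_pos, h1_lo hw h hg hp.hv one_pos]

variable (U0 : ∀ x, 0 ≤ U x)
include U0

/-- **(B1)** relative entropy of the pair -/
theorem b1_pair : kl v p ≤ 2 * kl v w + mean v U + 2 * (K * A ^ 2) := by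
  have h1 := kl_pin hw hp hq hl
  have h2 := kl_pin hw (Pr.refl hp.hw) hq hl
  rw [show kl p p = 0 from Ent.kl_self _] at h2
  linarith [h1_up hw h hg hp.hw one_pos, h1_lo hw h hg hp.hv one_pos, hp.hw.mean_nonneg U0]

theorem b1_kl : kl p w ≤ 4 * kl v w + 2 * mean v U + 6 * (K * A ^ 2) := by
  linarith [b1 hw h hg hp hq hl, hp.hw.mean_nonneg U0]

/-- **(B1)** difference of the magnetisations -/
theorem b1_Dm (hK : 0 < K) :
    Dm v p ⬝ᵥ Dm v p ≤ 32 * K * (5 * kl v w + 2 * mean v U + 6 * (K * A ^ 2)) :=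
  (Dm_le hw h hK hp.hv hp.hw).trans (mul_le_mul_of_nonneg_left
    (by linarith [b1_kl hw h hg hp hq hl U0]) (by positivity))

omit U0 in
theorem b1_U : mean p U ≤ 2 * kl v w + mean v U + 3 * (K * A ^ 2) := by
  linarith [b1 hw h hg hp hq hl, (pr_of hw hp.hw).kl_nonneg]

end Crest.Agent.T157.S1n
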