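import Crest.Agent.T157.EnDef_40
import Crest.Agent.T157.EnCnt_55
import Crest.Agent.T157.EnSt_95
import Crest.Agent.T157.S1Bud_6
import Crest.Agent.T157.CondA_53
import Crest.Agent.T157.GlueB_34
import Crest.Agent.T157.UeA_83
import Crest.Agent.T157.EnEnd_40
import Crest.Agent.T157.Xtr_25
import Crest.Agent.T157.S1Cr_89
import Crest.Agent.T157.S1Par_97
import Crest.Agent.T157.EnEps_64_Mg
import Crest.Agent.T157.BFin_88
import Crest.Agent.T157.KDefB_19
import Crest.Agent.T157.LmOut_32_Mg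

-- ▼ part T157/EnBd_11
section

/-!
# Row 157, block B, END (helper11): the channel and the exceptional mass
-/

set_option autoImplicit false
set_option linter.unusedSectionVars false

noncomputable section

namespace Crest.Agent.T157.En

open MeasureTheory Real Matrix Finset
open Crest.Agent.T157.E Crest.Agent.T157.SL
open Crest.Agent.T157.Ta (XG LG lk lg_lk mean_pos' xg_mean)
open Crest.Agent.T157.EnS (fR)
open Crest.Agent.T157.Eig (opn)
open Crest.Agent.T157.S3 (V Mx hf)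

namespace Bd11

variable {n : ℕ} {Ω ι : Type} [Fintype Ω] [Fintype ι] [DecidableEq ι]

lemma ib_mem (a b : ℝ) : 0 ≤ ib a b ∧ ib a b ≤ 1 := by unfold ib; split_ifs <;> norm_num

lemma ib_le {a b c m m' : ℝ} (h : a ≤ b + c) : ib (m + m') a ≤ ib m b + ib m' c := by
  unfold ib; split_ifs <;> linarith

lemma na_eq (u : V n) (θ : ℝ) (x : Cube n) : na u θ x = ∑ j, if sv x j * u j < θ then 1 else 0 :=
  natCast_card_filter _ _

lemma na_le (u z : V n) (θ a b : ℝ) (x : Cube n) :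
    na (u + b • sv x + z) (θ - a) x ≤ na u θ x + na z (-(a + b)) x := by
  simp only [na_eq, ← sum_add_distrib, Pi.add_apply, Pi.smul_apply, smul_eq_mul, mul_add,
    mul_left_comm (sv x _) b, Rec.sv_mul_self]
  exact sum_le_sum fun j _ => by split_ifs <;> linarith

lemma xg_ib {u : (ι → ℝ) → V n} (hu : ∀ j, Measurable fun y => u y j) (a θ : ℝ) (x : Cube n) :
    XG fun y => ib a (na (u y) θ x) := by
  refine .of_bdd (.ite (measurableSet_lt measurable_const ?_) measurable_const measurable_const) 1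
    fun y => abs_le.2 ⟨by linarith [(ib_mem a (na (u y) θ x)).1], (ib_mem _ _).2⟩
  simp only [na_eq]
  exact Finset.measurable_sum _ fun j _ => .ite (measurableSet_lt ((hu j).const_mul _) measurable_const)
    measurable_const measurable_const

/-- the ratio of the masses is a martingale -/
lemma ratio {φ : Ω → ι → ℝ} {v w : Ω → ℝ} {t : ℝ} (hv : Wt v) (hw : Wt w) (ht : 0 ≤ t) (b : Ω → ℝ) :
    XG (fun y => (∑ x, post φ w t y x * b x) / ∑ x, post φ v t y x) ∧
      slE φ v t (fun _ y => (∑ x, post φ w t y x * b x) / ∑ x, post φ v t y x) =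
        (∑ x, w x * b x) / ∑ x, v x := by
  have e : ∀ y, (∑ x, post φ w t y x * b x) / ∑ x, post φ v t y x = ∑ x, w x * b x / (∑ x, v x) *
      exp (lk φ t x y - log (mean v fun x => exp (lk φ t x y))) := fun y => by
    have a1 : 0 < mean v fun x => exp (lk φ t x y) := mean_pos' hv fun _ => exp_pos _
    have a3 : ∑ x, post φ v t y x = (∑ x, v x) * mean v fun x => exp (lk φ t x y) := by
      rw [mean_eq_div, mul_div_cancel₀ _ hv.pos.ne']; rfl
    rw [a3, sum_div]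
    refine sum_congr rfl fun x _ => ?_
    rw [exp_sub, exp_log a1]
    change w x * exp (lk φ t x y) * b x / _ = _
    ring
  have m : XG fun y => (∑ x, post φ w t y x * b x) / ∑ x, post φ v t y x := by
    simp only [e]
    exact .sum _ fun x _ => ((lg_lk φ t x).sub (.lme hv.nn (lg_lk φ t))).exp.const_mul _
  have h2 := slE_eq_ref' (φ := φ) (v := w) ht (F := fun x _ => b x) fun _ => integrable_const _
  rw [slE_fun, mean_eq_div, div_left_inj' hw.pos.ne'] at h2
  refine ⟨m, ?_⟩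
  rw [slE_eq_ref' ht (.of_mg fun _ => m.mg), h2]
  simp only [← sum_mul, mul_div_cancel₀ _ (hv.post φ t _).pos.ne']

lemma clip_lip (a b : ℝ) : |min 1 (max 0 a) - min 1 (max 0 b)| ≤ |a - b| := by
  have h1 := le_abs_self (a - b)
  have h2 := neg_abs_le (a - b)
  simp only [min_def, max_def, abs_le]
  split_ifs <;> constructor <;> linarith

/-- **COUNT** -/
lemma tail {W1 R : Mx n} {M A m1 t : ℝ} (hd : ∀ i, W1 i i = 0) (ho : opn W1 ≤ M) (hM : 0 < M)
    (hR : Rᵀ = R) (hRR : R * R = W1 + M • (1 : Mx n)) (t0 : 0 ≤ t) (t1 : t ≤ 1) (hA : 0 < A)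
    (hm : n * exp (-(2 * A)) ≤ m1) (x : Cube n) :
    ∫ g, ib (2 * m1) (na (√t • R *ᵥ g) (-(2 * A + t * M)) x) ∂Gs (Fin n) ≤
      exp (-(1 / 4 * (m1 * A) ^ 2 / (M * n))) := by
  rcases Nat.eq_zero_or_pos n with rfl | hn
  · exact (integral_mono_of_nonneg (ae_of_all _ fun _ => (ib_mem _ _).1) (integrable_const 1)
      (ae_of_all _ fun _ => (ib_mem _ _).2)).trans (by simp)
  have n0 : (0 : ℝ) < n := Nat.cast_pos.2 hn
  have m0 : 0 ≤ m1 := le_trans (by positivity) hm
  have eR : ∀ g : V n, g ᵥ* R = R *ᵥ g := fun g => by rw [← mulVec_transpose, hR]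
  set ψ : Fin n → ℝ → ℝ := fun j z => min 1 (max 0 ((-(√t * sv x j) * z - (A + t * M)) / A)) with hψ
  have p0 : ∀ j z, 0 ≤ ψ j z := fun j z => le_min zero_le_one (le_max_left _ _)
  have hc := Cnt.lip_cnt (R := R) (c := 2 * M) (d := A) (η := m1 / n) (by positivity) hA (by positivity)
    hn (fun u => by rw [eR]; exact Glue.Q_sq_le hR hRR ho u) ψ fun j s s' => (clip_lip _ _).trans (by
      rw [← sub_div, sub_sub_sub_cancel_right, ← mul_sub, abs_div, abs_of_pos hA, abs_mul, abs_neg,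
        abs_mul, (abs_eq zero_le_one).2 (mul_self_eq_one_iff.1 (Rec.sv_mul_self x j)),
        abs_of_nonneg (sqrt_nonneg t), mul_one]
      exact div_le_div_of_nonneg_right (mul_le_of_le_one_left (abs_nonneg _) (sqrt_le_one.2 t1)) hA.le)
  have hE : ∫ g, ∑ j, ψ j ((g ᵥ* R) j) ∂Gs (Fin n) ≤ m1 := by
    have i1 := fun j => (Rec.mg_eh ((-(2 * √t * sv x j)) • fun i => R i j)).int.const_mul (exp (-(2 * A)))
    refine (integral_mono_of_nonneg (ae_of_all _ fun g => sum_nonneg fun j _ => p0 j _)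
      (integrable_finsetSum univ fun j _ => i1 j) (ae_of_all _ fun g => sum_le_sum fun j _ => ?_)).trans ?_
    · have c1 : ((fun i => R i j) ⬝ᵥ fun i => R i j) = M := by
        have : (Rᵀ * R) j j = M := by rw [hR, hRR]; simp [hd]
        exact this
      have c2 : exp (-(2 * A)) * Rec.eh ((-(2 * √t * sv x j)) • fun i => R i j) g =
          exp (2 * (-(√t * sv x j) * (g ᵥ* R) j - (A + t * M))) := by
        rw [Rec.eh, ← exp_add, smul_dotProduct, dotProduct_smul, dotProduct_smul, c1]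
        congr 1
        change _ + (_ * (g ᵥ* R) j - _ * (_ * M) / 2) = _
        linear_combination (-(2 * M * sv x j * sv x j)) * mul_self_sqrt t0 +
          (-(2 * M * t)) * Rec.sv_mul_self x j
      rw [c2]
      rcases le_total (-(√t * sv x j) * (g ᵥ* R) j - (A + t * M)) 0 with h | h
      · exact (min_le_right _ _).trans (max_le (exp_pos _).le
          ((div_nonpos_of_nonpos_of_nonneg h hA.le).trans (exp_pos _).le))
      · exact (min_le_left _ _).trans (one_le_exp (by linarith))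
    · rw [integral_finsetSum _ fun j _ => i1 j]
      simpa [integral_const_mul, Rec.int_eh] using hm
  have hS : MeasurableSet {g : V n | m1 / n * n ≤ ∑ j, ψ j ((g ᵥ* R) j) -
      ∫ g, ∑ j, ψ j ((g ᵥ* R) j) ∂Gs (Fin n)} := measurableSet_le measurable_const (by
    simp only [hψ, vecMul, dotProduct]; fun_prop)
  refine le_trans ?_ (hc.trans_eq (by congr 2; field_simp; norm_num))
  rw [← integral_indicator_one hS]
  refine integral_mono_of_nonneg (ae_of_all _ fun _ => (ib_mem _ _).1)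
    ((integrable_const 1).indicator hS) (ae_of_all _ fun g => ?_)
  have c3 : na (√t • R *ᵥ g) (-(2 * A + t * M)) x ≤ ∑ j, ψ j ((g ᵥ* R) j) := by
    rw [na_eq]
    refine sum_le_sum fun j _ => ?_
    split_ifs with h
    · rw [← eR, Pi.smul_apply, smul_eq_mul] at h
      exact le_min le_rfl (le_max_of_le_right ((one_le_div hA).2 (by linarith)))
    · exact p0 j _
  beta_reduce
  unfold ib
  split_ifs with h
  · rw [Set.indicator_of_mem, Pi.one_apply]
    rw [Set.mem_ofPred_eq, div_mul_cancel₀ _ n0.ne']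
    linarith
  · exact Set.indicator_nonneg (fun _ _ => zero_le_one) _

end Bd11

open Bd11 in
theorem bdStmt : BdStmt := by
  refine ⟨1 / 4, by norm_num, fun n W W1 R h v w Λ M A θ m m1 r t xs _ hd ho hM hR hRR t0 t1 =>
    ⟨fun Θ y ⟨c, hc⟩ => ⟨c - t / 2 * (M * n), fun x => ?_⟩, fun hv hw _ hA hm => ?_⟩⟩
  · simp only [post, hc, fR, ising, ← exp_add, Glue.Q_sq hR hRR, sv_dot_self, Glue.dot_Q hR y,
      sub_mulVec, smul_mulVec, dotProduct_sub, dotProduct_smul, add_dotProduct, smul_eq_mul]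
    congr 1; ring
  obtain ⟨r1, r2⟩ := ratio (φ := fR R) hv (.of_pos hw) t0 fun x => ib r (En.hd x xs)
  have m1' : ∀ x, XG fun y => ib (m + 2 * m1) (na (hf (W - t • W1) (h + R *ᵥ y) x) (θ - 2 * A) x) +
      ib r (En.hd x xs) := fun x => (xg_ib (fun j => by
    simp only [hf, Pi.add_apply, mulVec, dotProduct]; fun_prop) _ _ x).add (.const _)
  have m2 := XG.of_mg (mg_mean (φ := fR R) hv t fun x => (m1' x).mg)
  simp only [Bf, mul_div_assoc]
  refine ⟨m2.add (r1.const_mul Λ), ?_⟩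
  rw [slE_add (.of_mg fun _ => m2.mg) (.of_mg fun _ => (r1.const_mul Λ).mg),
    slE_const_mul Λ fun _ y => _ / ∑ x, post (fR R) v t y x, r2,
    ← bayes hv t0 (.of_mg fun x => (m1' x).mg), add_right_comm, ← hv.mean_const (exp _), ← mean_add]
  refine add_le_add (hv.mean_mono fun x => ?_) le_rfl
  have m3 := (xg_ib (u := fun g : V n => √t • R *ᵥ g) (fun j => by
    simp only [Pi.smul_apply, mulVec, dotProduct, smul_eq_mul]; fun_prop) (2 * m1)
      (-(2 * A + t * M)) x).mg.int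
  refine (integral_mono (g := fun g => ib m (na (hf W h x) θ x) + ib r (En.hd x xs) +
    ib (2 * m1) (na (√t • R *ᵥ g) (-(2 * A + t * M)) x)) ((m1' x).mg.affine _ _).int
      ((integrable_const _).add m3) fun g => ?_).trans ?_
  · have e : hf (W - t • W1) (h + R *ᵥ (t • fR R x + √t • g)) x =
        hf W h x + (t * M) • sv x + √t • R *ᵥ g := by
      simp only [hf, fR, sub_mulVec, smul_mulVec, mulVec_add, mulVec_smul, mulVec_mulVec, hRR,
        add_mulVec, one_mulVec]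
      module
    beta_reduce
    rw [e]
    linarith [ib_le (m := m) (m' := 2 * m1) (na_le (hf W h x) (√t • R *ᵥ g) θ (2 * A) (t * M) x)]
  · rw [integral_add (integrable_const _) m3, integral_const, probReal_univ, one_smul, ← mul_div_assoc]
    exact add_le_add le_rfl (tail hd ho hM hR hRR t0 t1 hA hm x)

end Crest.Agent.T157.En

end
end

-- ▼ part T157/EnUt_95
section

/-!
# Row 157, block B, S1, END: untilting over a law with exact tensorisation (helper95)
-/

set_option autoImplicit false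
set_option linter.unusedSectionVars false

noncomputable section

namespace Crest.Agent.T157.EnS

open MeasureTheory Real Matrix Function Set
open Crest.Agent.T157.E Crest.Agent.T157.SL Crest.Agent.T157.Ta
open Crest.Agent.T157.Rec (grad)
open Crest.Agent.T157.Xt (H1 Lip2)
open Crest.Agent.T157.Eig (nrm opn)
open Crest.Agent.T157.S3.Rg (exc dM fro)

variable {n : ℕ} {v w G Φ : Cube n → ℝ} {K κ B : ℝ}

/-- the site entropy in the two languages -/
theorem As_eq_entS (hw : ∀ x, 0 < w x) (hv : Wt v) (i : Fin n) : As (fun _ => 1) v w i =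
    Ent.entS w (fun x => v x / w x) i / mean w fun x => v x / w x := by
  have h := S1n.pr_of hw hv
  have e := pr_eq h
  set f : Cube n → ℝ := fun x => v x / w x with hf
  have e1 : As (fun _ => 1) v w i = mean v fun x => log (f x) - log (siteM w f i x) := by
    rw [As_eq hv (OffAt.const i 1)]
    refine mean_congr_supp fun x hx => ?_
    have d := den_mul h.hw (hw x).ne' f i
    rw [← e] at d
    have d1 := den_pos hv i hx
    have d2 := den_pos h.hw i (hw x).ne'
    have d3 : siteM w f i x ≠ 0 := fun z => by rw [d, z, mul_zero] at d1; exact lt_irrefl _ d1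
    rw [one_mul, lr_eq h hx, d, log_mul d2.ne' d3, hf, log_div hx (hw x).ne']
    ring
  have o := mean_off h.hw ((off_siteM w f i).comp log) f
  rw [e1, Ent.entS_eq hw]
  conv_lhs => rw [e]
  rw [mean_mul_weight _ _ _ h.hw.pos.ne']
  congr 1
  simp only [mul_sub, mean_sub]
  congr 1
  simp only [mul_comm (log _)] at o
  exact o.symm

/-- approximate tensorisation in the language of `A` -/
theorem kl_le_of_at (hw : ∀ x, 0 < w x) (h : Ent.AT w K B) (hv : Wt v) :
    kl v w ≤ K * Ar o1 v w + B := by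
  have p := S1n.pr_of hw hv
  have m := pr_mean_pos p
  have := h (fun x => v x / w x) fun x => div_nonneg (hv.nn x) (hw x).le
  have e := kl_mul p.hw m.ne'
  rw [← pr_eq p] at e
  simp only [e, Ar, As_eq_entS hw hv, ← Finset.sum_div]
  rw [div_le_iff₀ m, add_mul, mul_assoc, div_mul_cancel₀ _ m.ne']
  exact this

theorem kl_le_Ar (hw : Ent.IsProd w) (hv : Wt v) : kl v w ≤ Ar o1 v w := by
  simpa using kl_le_of_at hw.pos hw.at hv

theorem h1_prod (hw : Ent.IsProd w) : H1 w 9 := by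
  have := Xt.h1_of_atd (w := w) (K := 1) (κ := 1) (fun F hF c B hB => by
    have h0 : 0 ≤ B := (sq_nonneg _).trans (hB default)
    have := hw.at F hF
    have : 0 ≤ exp (-(1 * (n : ℝ))) * B := by positivity
    linarith) hw.pos zero_le_one one_pos
  norm_num at this
  exact this

/-- the total convex gap of the tilt `l G` -/
def CG (w G : Cube n → ℝ) (l : ℝ) (x : Cube n) : ℝ := ∑ j, cg (cm w j x) (l * grad G x j)

/-- the pairing of `χ` with the gradient -/
def pc (v w G : Cube n → ℝ) : ℝ := ∑ j, mean v fun x => grad G x j * chi v w j x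

theorem Ar_wt (h : Pr v w) (G : Cube n → ℝ) (l : ℝ) :
    Ar o1 v (wt w fun x => l * G x) = Ar o1 v w - l * pc v w G + mean v (CG w G l) := by
  simp only [Ar, As_wt' h (OffAt.const _ _), one_mul, Rec.grad_const_mul, Pi.smul_apply, smul_eq_mul,
    Finset.sum_add_distrib, Finset.sum_sub_distrib, pc, Finset.mul_sum, mul_assoc, mean_const_mul]
  congr 1
  exact (mean_sum _ _ _).symm

theorem CG_nonneg (hw : Wt w) (G : Cube n → ℝ) (l : ℝ) (x : Cube n) : 0 ≤ CG w G l x :=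
  Finset.sum_nonneg fun j _ => cg_nonneg (abs_cm_le hw.nn j x) _

theorem pc_le (h : Pr v w) (G : Cube n → ℝ) (l : ℝ) :
    l * pc v w G ≤ Ar o1 v w + mean v (CG w G l) := by
  have := (h.wt fun x => l * G x).Ar_nonneg (r := o1) fun _ _ => zero_le_one
  rw [Ar_wt h] at this
  linarith

theorem Ar_self (v : Cube n → ℝ) : Ar o1 v v = 0 := by
  refine Finset.sum_eq_zero fun i _ => Finset.sum_eq_zero fun x _ => ?_
  have : kls v v i x = 0 := by
    rw [kls, Ent.kl]
    refine Finset.sum_eq_zero fun b _ => ?_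
    rcases eq_or_ne (Ent.cnd v i x b) 0 with h | h
    · simp [h]
    · simp [div_self h]
  simp [this]

/-- the site entropies of a tilt -/
theorem Ar_wt_self (hw : Wt w) (G : Cube n → ℝ) (l : ℝ) :
    Ar o1 (wt w fun x => l * G x) w ≤ mean (wt w fun x => l * G x) (CG w G (2 * l)) := by
  have p : Pr (wt w fun x => l * G x) w := by
    simpa [wt_zero] using (Pr.refl hw).wt2 (fun x => l * G x) fun _ => 0
  have h1 := Ar_wt p G l
  rw [Ar_self] at h1
  have h2 := pc_le p G (2 * l)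
  have h3 := p.hv.mean_nonneg (CG_nonneg hw G l)
  linarith

/-- **weighted Herbst** -/
theorem herbst_wt (hw : ∀ x, 0 < w x) (h : Ent.AT w K 0) (hK : 0 ≤ K) {t : ℝ} (ht : 0 ≤ t)
    (hB : ∀ u, 0 < u → u < t → mean (wt w fun x => u * G x) (CG w G (2 * u)) ≤ B * u ^ 2) :
    log (mean w fun x => exp (t * G x)) ≤ t * mean w G + K * B * t ^ 2 := by
  have W : Wt w := .of_pos hw
  refine Ent.herbst W.isP G ht fun u h0 h1 => ?_
  have m := mean_pos' W fun x => exp_pos (u * G x)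
  have e := kl_mul W m.ne'
  have k := kl_le_of_at hw h (wt_wt W fun x => u * G x)
  have k2 := mul_le_mul_of_nonneg_left ((Ar_wt_self W G u).trans (hB u h0 h1)) hK
  rw [show kl (wt w fun x => u * G x) w = _ from e, div_le_iff₀ m] at k
  refine k.trans (mul_le_mul_of_nonneg_right ?_ m.le)
  linarith

theorem CG_neg (w G : Cube n → ℝ) (l : ℝ) : CG w (fun x => -G x) l = CG w G (-l) := by
  ext x
  have := Rec.grad_const_mul (-1) G x
  simp only [neg_mul, one_mul] at this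
  simp [CG, this]

/-- **UNTILT**, class-free form -/
theorem untilt0 (hw : Ent.IsProd w) (hv : Wt v) (hκ : 0 < κ) (hκ1 : κ ≤ 1 / 2)
    (hΦ : ∀ l, |l| ≤ 2 / κ → ∀ x, CG w G l x ≤ l ^ 2 * Φ x)
    (hB : ∀ u, |u| ≤ 1 / κ → mean (wt w fun x => u * G x) Φ ≤ B) :
    kl v (wt w G) ≤ (1 + 4 * κ) * Ar o1 v (wt w G) + 3 / κ * mean v Φ + 8 / κ * B := by
  have p := S1n.pr_of hw.pos hv
  have W := p.hw
  have k1 : 1 ≤ 1 / κ := by rw [le_div_iff₀ hκ]; linarith
  have key : ∀ u, |u| ≤ 1 / κ → mean (wt w fun x => u * G x) (CG w G (2 * u)) ≤ 4 * B * u ^ 2 :=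
    fun u hu => by
      have a : |2 * u| ≤ 2 / κ := by
        rw [abs_mul, abs_two, div_eq_mul_one_div]; linarith
      refine ((wt_wt W _).mean_mono (hΦ _ a)).trans ?_
      rw [mean_const_mul]
      nlinarith [mul_le_mul_of_nonneg_left (hB u hu) (sq_nonneg u)]
  have a1 := herbst_wt (G := G) (B := 4 * B) hw.pos hw.at zero_le_one zero_le_one fun u h0 h1 =>
    key u (by rw [abs_of_pos h0]; linarith)
  have a2 := herbst_wt (G := fun x => -G x) (B := 4 * B) hw.pos hw.at zero_le_one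
    (zero_le_one.trans k1) fun u h0 h1 => by
      have := key (-u) (by rw [abs_neg, abs_of_pos h0]; exact h1.le)
      simpa [CG_neg] using this
  have a3 := mean_le_kl p fun x => 1 / κ * -G x
  have a4 := kl_le_Ar hw hv
  have a5 := Ar_wt p G 1
  have a6 := pc_le p G (1 / κ)
  have a7 := hv.mean_mono (hΦ (1 / κ) (by
    rw [abs_of_pos (by positivity)]; exact div_le_div_of_nonneg_right one_le_two hκ.le))
  have a8 := hv.mean_nonneg (CG_nonneg W G 1)
  have a9 := hv.mean_nonneg (CG_nonneg W G (1 / κ))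
  have a0 := (p.wt G).Ar_nonneg (r := o1) fun _ _ => zero_le_one
  have b0 : 0 ≤ B := by
    have := ((wt_wt W fun x => 1 * G x).mean_nonneg (CG_nonneg W G _)).trans
      (key 1 (by rwa [abs_one]))
    linarith
  simp only [one_mul, mean_const_mul, mean_neg, one_pow, mul_one] at a1 a2 a3 a5 a7
  rw [kl_wt p]
  set t := 1 / κ with ht
  have e : κ * t = 1 := by rw [ht]; field_simp
  rw [show 3 / κ = 3 * t by rw [ht]; ring, show 8 / κ = 8 * t by rw [ht]; ring]
  generalize Ar o1 v (wt w G) = A at *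
  generalize Ar o1 v w = A0 at *
  generalize mean v Φ = F at *
  generalize log (mean w fun x => exp (G x)) = z1 at *
  generalize log (mean w fun x => exp (t * -G x)) = z2 at *
  have F0 : 0 ≤ t * F := by
    by_contra hc
    nlinarith [mul_pos (zero_lt_one.trans_le k1) (neg_pos.2 (not_le.1 hc))]
  -- `pc ≤ κ A0 + t F`
  have c1 : pc v w G ≤ κ * A0 + t * F := by
    have := mul_le_mul_of_nonneg_left (a6.trans (add_le_add le_rfl a7)) hκ.le
    calc pc v w G = κ * (t * pc v w G) := by rw [← mul_assoc, e, one_mul]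
      _ ≤ _ := this
      _ = κ * A0 + κ * t * (t * F) := by ring
      _ = _ := by rw [e, one_mul]
  have c2 : (1 - κ) * A0 ≤ A + t * F := by linarith
  have c3 : -mean v G ≤ κ * kl v w - mean w G + 4 * B * t := by
    have := mul_le_mul_of_nonneg_left (a3.trans (add_le_add le_rfl a2)) hκ.le
    calc -mean v G = κ * (t * -mean v G) := by rw [← mul_assoc, e, one_mul]
      _ ≤ _ := this
      _ = κ * kl v w + κ * t * (-mean w G + 4 * B * t) := by ring
      _ = _ := by rw [e, one_mul]; ring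
  have c4 : (1 + κ) * A0 ≤ (1 + 4 * κ) * (A + t * F) := by
    have : (1 - κ) * ((1 + κ) * A0) ≤ (1 - κ) * ((1 + 4 * κ) * (A + t * F)) := by
      have h1 := mul_le_mul_of_nonneg_left c2 (show 0 ≤ 1 + κ by linarith)
      have h2 : 0 ≤ κ * (1 - 2 * κ) * (A + t * F) :=
        mul_nonneg (mul_nonneg hκ.le (by linarith)) (add_nonneg a0 F0)
      nlinarith
    exact le_of_mul_le_mul_left this (by linarith)
  nlinarith [mul_le_mul_of_nonneg_left a4 hκ.le, mul_le_mul_of_nonneg_left k1 b0,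
    mul_le_mul_of_nonneg_right hκ1 F0]

theorem cg_split {q g o l e : ℝ} (hq : |q| ≤ 1) (ho : |o| ≤ e) (hl : 4 * (|l| * e) ≤ 1) :
    cg q (l * g) ≤ l ^ 2 * (3 * ((1 - q ^ 2) * o ^ 2) + 3 * (g - o) ^ 2) := by
  have d0 : 0 ≤ 1 - q ^ 2 := by nlinarith [abs_le.1 hq]
  have d1 : 1 - q ^ 2 ≤ 1 := by nlinarith [sq_nonneg q]
  rcases le_total |g| (2 * e) with h | h
  · have e1 : exp (2 * |l * g|) ≤ 3 := by
      refine (exp_le_exp.2 (show _ ≤ 1 by
        rw [abs_mul]; nlinarith [mul_le_mul_of_nonneg_left h (abs_nonneg l)])).trans ?_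
      linarith [exp_one_lt_d9]
    have e2 : (1 - q ^ 2) * g ^ 2 ≤ 2 * ((1 - q ^ 2) * o ^ 2) + 2 * (g - o) ^ 2 := by
      nlinarith [mul_nonneg d0 (sq_nonneg (g - 2 * o)), mul_le_mul_of_nonneg_right d1 (sq_nonneg (g - o))]
    refine (cg_le' hq _).trans ?_
    have e3 := mul_le_mul_of_nonneg_left e1 (mul_nonneg (sq_nonneg l) (mul_nonneg d0 (sq_nonneg g)))
    nlinarith [mul_le_mul_of_nonneg_left e2 (sq_nonneg l)]
  · have e1 : |g| ≤ 2 * |g - o| := by linarith [abs_sub_abs_le_abs_sub g o]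
    have e2 : g ^ 2 ≤ 4 * (g - o) ^ 2 := by
      have := pow_le_pow_left₀ (abs_nonneg _) e1 2
      rw [mul_pow, sq_abs, sq_abs] at this; linarith
    refine (cg_le hq _).trans ?_
    nlinarith [mul_le_mul_of_nonneg_left e2 (sq_nonneg l), mul_nonneg (sq_nonneg l) (sq_nonneg (g - o)),
      mul_nonneg (sq_nonneg l) (mul_nonneg d0 (sq_nonneg o))]

/-- the weighted energy of a vector field -/
def wE (q : Fin n → ℝ) (O : Cube n → Fin n → ℝ) (x : Cube n) : ℝ := ∑ j, (1 - q j ^ 2) * O x j ^ 2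

theorem wE_nonneg {q : Fin n → ℝ} (hq : ∀ j, |q j| ≤ 1) (O : Cube n → Fin n → ℝ) (x : Cube n) :
    0 ≤ wE q O x :=
  Finset.sum_nonneg fun j _ => mul_nonneg (by nlinarith [abs_le.1 (hq j)]) (sq_nonneg _)

/-- transfer of the weighted energy -/
theorem wE_xfer {p : Cube n → ℝ} (hw : ∀ x, 0 < w x) (h1 : H1 w K) (hK : 0 < K) (hv : Wt v) (hp : Wt p)
    {q : Fin n → ℝ} (hq : ∀ j, |q j| ≤ 1) {O : Cube n → Fin n → ℝ} {e h ρ : ℝ} (hρ : 0 < ρ)
    (he : ∀ x, opn (dM O x) ≤ e) (hh : ∀ x, fro (dM O x) ≤ h) :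
    mean p (wE q O) ≤ 4 * mean v (wE q O) + 3 * ρ ^ 2 +
      K * (4 * e + 4 * e * h / ρ) ^ 2 * (32 * kl v w + 16 * kl p w + 18) := by
  have d0 : ∀ j, 0 ≤ 1 - q j ^ 2 := fun j => by nlinarith [abs_le.1 (hq j)]
  have d1 : ∀ j, |√(1 - q j ^ 2)| ≤ 1 := fun j => by
    rw [abs_of_nonneg (sqrt_nonneg _), sqrt_le_one]; nlinarith [sq_nonneg (q j)]
  have e1 : ∀ x, dM (fun x j => √(1 - q j ^ 2) * O x j) x =
      diagonal (fun j => √(1 - q j ^ 2)) * dM O x := fun x => by
    ext k j; simp [dM, Rec.grad_const_mul, diagonal_mul]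
  have := h1.xfer_exc hw hK (u := fun x j => √(1 - q j ^ 2) * O x j) le_rfl hρ (e := e) (h := h)
    (fun x => by
      rw [e1]
      refine (Eig.opn_mul_le _ _).trans (le_trans ?_ (he x))
      exact mul_le_of_le_one_left (Eig.opn_nonneg _) (Eig.opn_diagonal_le zero_le_one d1))
    (fun x => by
      refine le_trans (sqrt_le_sqrt (Finset.sum_le_sum fun p _ => ?_)) (hh x)
      simp only [e1, diagonal_mul, ← sq, mul_pow]
      refine mul_le_of_le_one_left (sq_nonneg _) ?_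
      rw [sq_sqrt (d0 _)]; nlinarith [sq_nonneg (q p.1)]) hv.isP hp.isP
  have e2 : ∀ x, exc 0 (fun j => √(1 - q j ^ 2) * O x j) = wE q O x := fun x =>
    Finset.sum_congr rfl fun j _ => by
      rw [sub_zero, max_eq_left (abs_nonneg _), sq_abs, mul_pow, sq_sqrt (d0 j)]
  simp only [e2] at this
  exact this

/-- **UNTILT** over a product law: `d G = O + exc`, `O` flat and `e`-Lipschitz, `|exc| ≤ Gh` -/
theorem untilt (hw : Ent.IsProd w) (hv : Wt v) (hκ : 0 < κ) (hκ1 : κ ≤ 1 / 2) {q : Fin n → ℝ}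
    (hq : ∀ j x, cm w j x = q j) {O : Cube n → Fin n → ℝ} {Gh : Cube n → ℝ} {e h ρ a L d : ℝ}
    (hκe : 8 * e ≤ κ) (hO : ∀ x j, |O x j| ≤ e) (hρ : 0 < ρ) (he : ∀ x, opn (dM O x) ≤ e)
    (hh : ∀ x, fro (dM O x) ≤ h) (hG : Lip2 L G)
    (hx : ∀ x, ∑ j, (grad G x j - O x j) ^ 2 ≤ Gh x ^ 2) (hGh : Lip2 a Gh)
    (hd : (4 * e + 4 * e * h / ρ) ^ 2 + a ^ 2 ≤ d) :
    kl v (wt w G) ≤ (1 + 4 * κ) * Ar o1 v (wt w G) +
      105 / κ * (mean v (wE q O) + mean v fun x => Gh x ^ 2) + 72 / κ * ρ ^ 2 +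
      186624 / κ * d * (kl v (wt w G) + L ^ 2 / κ ^ 2 + 1) := by
  have W : Wt w := .of_pos hw.pos
  have q1 : ∀ j, |q j| ≤ 1 := fun j => hq j default ▸ abs_cm_le W.nn j default
  have H := h1_prod hw
  have e0 : 0 ≤ e := (Eig.opn_nonneg _).trans (he default)
  have k0 := ((S1n.pr_of hw.pos hv).wt G).kl_nonneg
  set Y := kl v (wt w G) + L ^ 2 / κ ^ 2 + 1 with hY
  have l0 : 0 ≤ L ^ 2 / κ ^ 2 := by positivity
  have l1 : 4 * L ^ 2 ≤ L ^ 2 / κ ^ 2 := by
    rw [le_div_iff₀ (by positivity)]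
    nlinarith [mul_le_mul_of_nonneg_left (show κ ^ 2 ≤ 1 / 4 by nlinarith) (sq_nonneg L)]
  have := untilt0 (G := G) (Φ := fun x => 3 * wE q O x + 3 * Gh x ^ 2)
    (B := 12 * (mean v (wE q O) + mean v fun x => Gh x ^ 2) + 9 * ρ ^ 2 + 23328 * d * Y) hw hv hκ hκ1
    (fun l hl x => by
      have a : 4 * (|l| * e) ≤ 1 := by
        rw [le_div_iff₀ hκ] at hl
        nlinarith [mul_le_mul_of_nonneg_left hκe (abs_nonneg l)]
      refine (Finset.sum_le_sum fun j _ => cg_split (abs_cm_le W.nn j x) (hO x j) a).trans ?_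
      simp only [hq, ← Finset.mul_sum, Finset.sum_add_distrib]
      exact mul_le_mul_of_nonneg_left (by linarith [hx x, show wE q O x = ∑ j, (1 - q j ^ 2) * O x j ^ 2 from rfl]) (sq_nonneg l))
    fun u hu => by
      have p := wt_wt W fun x => u * G x
      have b1 := S1n.kl_wt_self hw.pos H (hG.const_mul u)
      have b2 := S1n.kl_le_wt hw.pos H hG hv
      have b3 : (|u| * L) ^ 2 ≤ L ^ 2 / κ ^ 2 := by
        rw [mul_pow, mul_comm, div_eq_mul_one_div, ← _root_.one_div_pow]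
        exact mul_le_mul_of_nonneg_left (pow_le_pow_left₀ (abs_nonneg _) hu 2) (sq_nonneg _)
      have b4 : 32 * kl v w + 16 * kl (wt w fun x => u * G x) w + 18 ≤ 864 * Y := by linarith
      have b5 : 0 ≤ 32 * kl v w + 16 * kl (wt w fun x => u * G x) w + 18 := by
        linarith [(S1n.pr_of hw.pos hv).kl_nonneg, (S1n.pr_of hw.pos p).kl_nonneg]
      have c1 := wE_xfer hw.pos H (by norm_num) hv p q1 hρ he hh
      have c2 : mean (wt w fun x => u * G x) (fun x => Gh x ^ 2) ≤ 4 * mean v (fun x => Gh x ^ 2) +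
          9 * a ^ 2 * (32 * kl v w + 16 * kl (wt w fun x => u * G x) w + 18) :=
        H.xfer hw.pos (by norm_num) hGh hv.isP p.isP
      have c3 := mul_le_mul hd b4 b5 (le_trans (by positivity) hd)
      rw [mean_add, mean_const_mul, mean_const_mul]
      nlinarith
  rw [mean_add, mean_const_mul, mean_const_mul] at this
  refine this.trans_eq ?_
  ring

/-! ### the Gaussian mean of `sech²` -/

theorem map_dot {ι : Type*} [Fintype ι] (a : ι → ℝ) :
    (Gs ι).map (fun x => a ⬝ᵥ x) = ProbabilityTheory.gaussianReal 0 (a ⬝ᵥ a).toNNReal := by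
  have hv : 0 ≤ a ⬝ᵥ a := dot_self_nonneg a
  have : IsProbabilityMeasure ((Gs ι).map fun x => a ⬝ᵥ x) :=
    Measure.isProbabilityMeasure_map (by fun_prop)
  refine Measure.ext_of_charFun (funext fun t => ?_)
  have h := Cond.CF_gv (t • a)
  rw [ProbabilityTheory.charFun_gaussianReal, charFun_apply_real,
    integral_map (by fun_prop) (by fun_prop)]
  simp only [Cond.CF, smul_dotProduct, dotProduct_smul, smul_eq_mul] at h
  rw [Real.coe_toNNReal _ hv]
  push_cast at h ⊢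
  rw [h]
  congr 1; ring

theorem sech_le (x : ℝ) : 1 - tanh x ^ 2 ≤ (1 + x ^ 2)⁻¹ := by
  have h : x ^ 2 ≤ sinh x ^ 2 := by
    rw [← sq_abs x, ← sq_abs (sinh x), abs_sinh]
    exact pow_le_pow_left₀ (abs_nonneg _) (self_le_sinh_iff.2 (abs_nonneg _)) 2
  have c := cosh_pos x
  have e : 1 - tanh x ^ 2 = (1 + sinh x ^ 2)⁻¹ := by
    rw [tanh_eq_sinh_div_cosh, add_comm, ← cosh_sq x]
    field_simp
    linarith [cosh_sq x]
  rw [e]
  exact inv_anti₀ (by positivity) (by linarith)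

theorem int_sech {ι : Type*} [Fintype ι] (a : ι → ℝ) (c : ℝ) {m : ℝ} (hm : 0 < m) (h : m ≤ a ⬝ᵥ a) :
    ∫ z, (1 - tanh (c + a ⬝ᵥ z) ^ 2) ∂Gs ι ≤ 2 / √m := by
  have hc : Continuous fun x : ℝ => 1 - tanh (c + x) ^ 2 := by
    simp only [tanh_eq_sinh_div_cosh]
    exact continuous_const.sub (((by fun_prop : Continuous fun x => sinh (c + x)).div (by fun_prop)
      fun x => (cosh_pos _).ne').pow 2)
  have hv : (a ⬝ᵥ a).toNNReal ≠ 0 := by rw [Ne, Real.toNNReal_eq_zero, not_le]; linarith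
  rw [← integral_map (f := fun x => 1 - tanh (c + x) ^ 2) (by fun_prop) hc.aestronglyMeasurable,
    map_dot, ProbabilityTheory.integral_gaussianReal_eq_integral_smul hv]
  have i1 : Integrable fun x : ℝ => (√(2 * π * m))⁻¹ * (1 + (c + x) ^ 2)⁻¹ :=
    (integrable_inv_one_add_sq.comp_add_left c).const_mul _
  refine (integral_mono_of_nonneg (.of_forall fun x => ?_) i1 (.of_forall fun x => ?_)).trans ?_
  · exact mul_nonneg (ProbabilityTheory.gaussianPDFReal_nonneg _ _ _)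
      (by nlinarith [abs_le.1 (abs_tanh_lt_one (c + x)).le])
  · refine mul_le_mul ?_ (sech_le _) (by nlinarith [abs_le.1 (abs_tanh_lt_one (c + x)).le])
      (by positivity)
    rw [ProbabilityTheory.gaussianPDFReal, Real.coe_toNNReal _ (hm.le.trans h)]
    refine (mul_le_of_le_one_right (by positivity) (exp_le_one_iff.2 ?_)).trans
      (inv_anti₀ (by positivity) (sqrt_le_sqrt (by gcongr)))
    exact div_nonpos_of_nonpos_of_nonneg (neg_nonpos.2 (sq_nonneg _)) (by linarith)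
  · rw [integral_const_mul, integral_add_left_eq_self (fun x : ℝ => (1 + x ^ 2)⁻¹) c,
      integral_univ_inv_one_add_sq, sqrt_mul (by positivity), inv_mul_eq_div,
      div_le_div_iff₀ (by positivity) (by positivity)]
    have : π ≤ 2 * √(2 * π) := by
      have : π / 2 ≤ √(2 * π) := le_sqrt_of_sq_le (by nlinarith [pi_lt_four, pi_pos])
      linarith
    nlinarith [sqrt_nonneg m]

end Crest.Agent.T157.EnS
end
end

-- ▼ part T157/EnSp_95
section

/-!
# Row 157, block B, S1, END: one stage (helper95)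
-/

set_option autoImplicit false
set_option linter.unusedSectionVars false

noncomputable section

namespace Crest.Agent.T157.En

open MeasureTheory Real Matrix Finset Set
open Crest.Agent.T157.E Crest.Agent.T157.SL
open Crest.Agent.T157.Ta (Pr Ar Cnt)
open Crest.Agent.T157.EnS (fR o1 ep)
open Crest.Agent.T157.Rec (grad)
open Crest.Agent.T157.Eig (nrm opn)
open Crest.Agent.T157.S3 (V Mx hf Dg)

namespace Sp95

variable {n : ℕ} {v w Θ : Cube n → ℝ} {W R : Mx n} {h : V n}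

theorem is_pos (H : Is w W h Θ) (x : Cube n) : 0 < w x := by
  obtain ⟨c, hc⟩ := H
  rw [hc]; exact mul_pos (exp_pos _) (exp_pos _)

theorem ib_mono {a a' b b' : ℝ} (ha : a' ≤ a) (hb : b ≤ b') : ib a b ≤ ib a' b' := by
  unfold ib
  split_ifs with h1 h2 h2
  exacts [le_rfl, absurd (ha.trans_lt (h1.trans_le hb)) h2, zero_le_one, le_rfl]

theorem ib_nonneg (a b : ℝ) : 0 ≤ ib a b := by unfold ib; split_ifs <;> norm_num

theorem Bf_mono (hv : Wt v) (Λ : ℝ) {θ θ' m m' : ℝ} (hθ : θ ≤ θ') (hm : m' ≤ m) (xs : Cube n)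
    (r : ℝ) : Bf v w Λ W h θ m xs r ≤ Bf v w Λ W h θ' m' xs r :=
  add_le_add (hv.mean_mono fun x => add_le_add (ib_mono hm (Nat.cast_le.2 (card_le_card fun j hj =>
    mem_filter.2 ⟨Finset.mem_univ _, (mem_filter.1 hj).2.trans_le hθ⟩))) le_rfl) le_rfl

theorem Bf_nonneg (hv : Wt v) (hw : ∀ x, 0 < w x) {Λ : ℝ} (hΛ : 0 ≤ Λ) (θ m : ℝ) (xs : Cube n)
    (r : ℝ) : 0 ≤ Bf v w Λ W h θ m xs r :=
  add_nonneg (hv.mean_nonneg fun _ => add_nonneg (ib_nonneg _ _) (ib_nonneg _ _))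
    (div_nonneg (mul_nonneg hΛ (sum_nonneg fun x _ => mul_nonneg (hw x).le (ib_nonneg _ _))) hv.pos.le)

theorem Eg_nonneg (hv : Wt v) (Θ : Cube n → ℝ) : 0 ≤ Eg Θ v := by
  unfold Eg Cnt Ta.Cs
  refine sum_nonneg fun i _ => hv.mean_nonneg fun x => mul_nonneg (sq_nonneg _) ?_
  nlinarith [abs_le.1 (Ta.abs_cm_le hv.nn i x)]

theorem mg_Eg (hv : Wt v) (Θ : Cube n → ℝ) (t : ℝ) : MG fun y => Eg Θ (post (fR R) v t y) := by
  unfold Eg Cnt
  exact .sum _ fun i _ => (Ta.xg_Cs hv (fun x => (Ta.lg_lk (fR R) t x).meas) _ i).mg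

theorem slE_Eg (hv : Wt v) (Θ : Cube n → ℝ) {t : ℝ} (ht : 0 ≤ t) :
    slE (fR R) v t (fun _ y => Eg Θ (post (fR R) v t y)) ≤ Eg Θ v :=
  Ta.Cnt_chan_le hv ht (fun i => (Ta.off_grad Θ i).comp fun a => a ^ 2) fun _ _ => sq_nonneg _

theorem mg_F1 (W R : Mx n) (h : V n) (Ω : Cube n → V n) (x : Cube n) :
    MG fun y => F1 W (h + R *ᵥ y) Ω x := by
  unfold F1 dotProduct
  refine .sum _ fun j _ => MG.mul (MG.of_bdd ?_ 1 fun y => ?_) (.const _)
  · simp only [Dg, hf, tanh_eq_sinh_div_cosh, Pi.add_apply, mulVec, dotProduct]; fun_prop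
  · have := abs_le.1 (abs_tanh_lt_one (hf W (h + R *ᵥ y) x j)).le
    rw [Dg, abs_le]; constructor <;> nlinarith

theorem slE_F1 (hv : Wt v) {M L : ℝ} (hM : 0 < M) (hR : ∀ j, R j ⬝ᵥ R j = M) {Ω : Cube n → V n}
    (hO : ∀ x, nrm (Ω x) ≤ L) : slE (fR R) v 1
      (fun _ y => mean (post (fR R) v 1 y) (F1 W (h + R *ᵥ y) Ω)) ≤ 2 / √M * L ^ 2 := by
  rw [← bayes hv zero_le_one (.of_mg (mg_F1 W R h Ω)), slE_eq_mean]
  refine hv.mean_le fun x => ?_
  have e : ∀ z : V n, F1 W (h + R *ᵥ ((1 : ℝ) • fR R x + √1 • z)) Ω x =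
      ∑ j, (1 - tanh (hf W (h + R *ᵥ fR R x) x j + R j ⬝ᵥ z) ^ 2) * Ω x j ^ 2 := fun z => by
    simp only [F1, Dg, hf, sqrt_one, one_smul, mulVec_add, dotProduct, Pi.add_apply, Pi.mul_apply, sq,
      add_assoc]
    rfl
  have m : ∀ j, MG fun z : V n => 1 - tanh (hf W (h + R *ᵥ fR R x) x j + R j ⬝ᵥ z) ^ 2 := fun j =>
    .of_bdd (by simp only [tanh_eq_sinh_div_cosh, dotProduct]; fun_prop) 1 fun z => by
      have := abs_le.1 (abs_tanh_lt_one (hf W (h + R *ᵥ fR R x) x j + R j ⬝ᵥ z)).le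
      rw [abs_le]; constructor <;> nlinarith
  simp only [e]
  rw [integral_finsetSum _ fun j _ => ((m j).mul (.const (Ω x j ^ 2))).int]
  refine (sum_le_sum fun j _ => ?_ : _ ≤ ∑ j, 2 / √M * Ω x j ^ 2).trans ?_
  · rw [integral_mul_const]
    exact mul_le_mul_of_nonneg_right (EnS.int_sech _ _ hM (hR j).ge) (sq_nonneg _)
  · rw [← mul_sum, ← S3.Rg.nrm_sq']
    exact mul_le_mul_of_nonneg_left (pow_le_pow_left₀ (Eig.nrm_nonneg _) (hO x) 2) (by positivity)

/-- linear combinations -/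
theorem slE_comb {ι : Type*} [Fintype ι] [DecidableEq ι] {φ : Cube n → ι → ℝ} (hv : Wt v) (t : ℝ)
    {F1 F2 F3 F4 F5 : (ι → ℝ) → ℝ} (h1 : MG F1) (h2 : MG F2) (h3 : MG F3) (h4 : MG F4) (h5 : MG F5)
    (a1 a2 a3 a4 a5 a0 : ℝ) :
    slE φ v t (fun _ y => a1 * F1 y + a2 * F2 y + a3 * F3 y + a4 * F4 y + a0 + a5 * F5 y) =
      a1 * slE φ v t (fun _ => F1) + a2 * slE φ v t (fun _ => F2) + a3 * slE φ v t (fun _ => F3) +
        a4 * slE φ v t (fun _ => F4) + a0 + a5 * slE φ v t fun _ => F5 := by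
  have m2 := (h1.const_mul a1).add (h2.const_mul a2)
  have m3 := m2.add (h3.const_mul a3)
  have m4 := m3.add (h4.const_mul a4)
  rw [slE_add (.of_mg fun _ => m4.add (.const a0)) (.of_mg fun _ => h5.const_mul a5),
    slE_add (.of_mg fun _ => m4) (.of_mg fun _ => .const a0),
    slE_add (.of_mg fun _ => m3) (.of_mg fun _ => h4.const_mul a4),
    slE_add (.of_mg fun _ => m2) (.of_mg fun _ => h3.const_mul a3),
    slE_add (.of_mg fun _ => h1.const_mul a1) (.of_mg fun _ => h2.const_mul a2), slE_fun,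
    hv.mean_const]
  simp only [slE_const_mul]

end Sp95

set_option maxHeartbeats 1600000 in
open Sp95 in
theorem stepGlue : StepGlue := by
  rintro ⟨C, hC, hE⟩ ⟨c0, hc0, hB⟩
  refine ⟨C, hC, c0, hc0, ?_⟩
  intro n W1 W2 c ω s A m0 Θ G Ω xs e ε L c1 M κ a θ m m1 β k hG hs hd hop hc1 hM hκ a0 a1 hk hn hcl
    hε hCε hL hLn hθ hm hm1 l0 gE gX gF gB hβ hT h v w Λ hv hw hΛ
  have wp := is_pos hw
  have p : Pr v w := S1n.pr_of wp hv
  have Λ0 : 0 ≤ Λ := by
    obtain ⟨x, hx⟩ := hv.exists_pos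
    by_contra! hh
    nlinarith [hΛ x, wp x]
  have g0 := hG 0 ⟨le_rfl, zero_le_one⟩
  have A0 : 0 < A := zero_lt_one.trans_le g0.A1
  have c10 : 0 ≤ c1 := (Eig.opn_nonneg _).trans hop
  have ε0 : 0 ≤ ε := le_trans (by positivity) hε
  obtain ⟨R, hR, hRR⟩ := Glue.exists_root hs (hop.trans hc1)
  have hrow : ∀ j, R j ⬝ᵥ R j = M := fun j => by
    have := congrFun (congrFun hRR j) j
    simp only [mul_apply, Matrix.add_apply, hd, Matrix.smul_apply, one_apply_eq, smul_eq_mul, mul_one,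
      zero_add] at this
    rw [← this]
    exact sum_congr rfl fun i _ => by rw [← transpose_apply R i j, hR]
  have B := fun t h0 h1 => hB n (W1 + W2) W1 R h v w Λ M A θ m m1 (10 * m0) t xs hs hd (hop.trans hc1)
    hM hR hRR h0 h1
  have eW : ∀ t : ℝ, W1 + W2 - t • W1 = (1 - t) • W1 + W2 := fun t => by
    rw [sub_smul, one_smul]; abel
  have lam : ∀ t y x, post (fR R) v t y x ≤ Λ * post (fR R) w t y x := fun t y x => by
    rw [post, post, ← mul_assoc]; exact mul_le_mul_of_nonneg_right (hΛ x) (exp_pos _).le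
  have mA : ∀ t, MG fun y => Ar o1 (post (fR R) v t y) (post (fR R) w t y) := fun t =>
    (EnS.eg_Ar (Metric.isBounded_Icc t t) p EnS.off_o1).mg (left_mem_Icc.2 le_rfl)
  have mX : ∀ t, MG fun y => Ex G (post (fR R) v t y) := fun t => mg_mean hv t fun _ => .const _
  have sX : ∀ t, 0 ≤ t → slE (fR R) v t (fun _ y => Ex G (post (fR R) v t y)) = Ex G v :=
    fun t ht => slE_mean hv ht _
  set τ := exp (-(c0 * (m1 * A) ^ 2 / (M * n))) with hτ
  set b := Bf v w Λ (W1 + W2) h θ m xs (10 * m0) with hb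
  set σ := s ^ 2 + ω ^ 2 / A + ε with hσ
  have σ0 : 0 ≤ σ := by positivity
  have st := EnS.stage_const (R := R) (m := M) (m' := M + c1) (k := κ) (lam := k.l) (T := 1)
    (B := C * (σ * Ar o1 v w + s ^ 2 * Eg Θ v + Ex G v + ε * L ^ 2 + 1 + n ^ 12 * (b + τ))) p
    (fun i => by
      rw [← hrow i]
      exact le_of_eq (sum_congr rfl fun j _ => by rw [sq, ← transpose_apply R j i, hR]))
    (fun u => by
      rw [Glue.Q_sq hR hRR]
      nlinarith [(abs_le.1 (Eig.abs_quad_le W1 u)).2,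
        mul_le_mul_of_nonneg_right hop (dot_self_nonneg u)])
    (by positivity) l0 a0 hκ hk zero_le_one fun t ht => by
      obtain ⟨b1, b2⟩ := B t ht.1 ht.2
      obtain ⟨b2, b3⟩ := b2 hv wp Λ0 A0 hm1
      have e1 := slE_comb (φ := fR R) hv t (mA t) (mg_Eg (R := R) hv Θ t) (mX t) (.const 0) b2.mg
        (C * σ) (C * s ^ 2) C 0 (C * n ^ 12) (C * (ε * L ^ 2 + 1))
      refine (slE_mono hv (.of_mg fun _ => (EnS.eg_ep2 (I := univ) hv p.hw).mg (mem_univ t))
        (.of_mg fun _ => ((((((mA t).const_mul _).add ((mg_Eg hv Θ t).const_mul _)).add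
          ((mX t).const_mul _)).add ((MG.const 0).const_mul 0)).add (.const _)).add
          (b2.mg.const_mul _)) fun _ y => ?_).trans (e1.trans_le ?_)
      · have q := hE n _ _ c ω s A m0 xs _ _ Θ G Ω e ε L Λ (eW t ▸ hG t ht) hn (hv.post _ t y)
          (b1 Θ y hw) hcl hε hCε hL hLn (lam t y)
        have q2 := mul_le_mul_of_nonneg_left (Bf_mono (w := post (fR R) w t y) (W := W1 + W2 - t • W1)
          (h := h + R *ᵥ y) (hv.post (fR R) t y) Λ (show 2 * A ≤ θ - 2 * A by linarith) hm xs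
          (10 * m0)) (show 0 ≤ C * n ^ 12 by positivity)
        simp only [pw]
        linarith
      · have q1 := mul_le_mul_of_nonneg_left (Ta.Ar_chan_le (φ := fR R) p ht.1 EnS.off_o1
          fun _ _ => zero_le_one) (show 0 ≤ C * σ by positivity)
        have q2 := mul_le_mul_of_nonneg_left (slE_Eg (R := R) hv Θ ht.1)
          (show 0 ≤ C * s ^ 2 by positivity)
        have q3 := mul_le_mul_of_nonneg_left b3 (show 0 ≤ C * n ^ 12 by positivity)
        rw [sX t ht.1]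
        linarith
  obtain ⟨b1, b2⟩ := B 1 zero_le_one le_rfl
  obtain ⟨b2, b3⟩ := b2 hv wp Λ0 A0 hm1
  have e2 : W1 + W2 - (1 : ℝ) • W1 = W2 := by rw [one_smul]; abel
  rw [e2] at b1 b2 b3
  have mP := ((mA 1).const_mul k.l).sub (((EnS.eg_kl (φ := fR R) (Metric.isBounded_Icc 1 1) p).mg
    (left_mem_Icc.2 le_rfl)).const_mul a)
  have e1 := slE_comb (φ := fR R) hv 1 mP (mg_Eg (R := R) hv Θ 1) (mX 1)
    (mg_mean (φ := fR R) hv 1 (mg_F1 W2 R h Ω)) b2.mg 1 k.gE k.gX k.gF k.gB k.g0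
  have t0 := (slE_nonneg (φ := fR R) (s := 1) hv fun _ y => by
    simpa only [one_mul] using hT _ _ _ Λ (hv.post (fR R) 1 y) (b1 Θ y hw) (lam 1 y)).trans_eq
      (by simpa only [one_mul] using e1)
  have q1 := mul_le_mul_of_nonneg_left (slE_Eg (R := R) hv Θ zero_le_one) gE
  have q2 := mul_le_mul_of_nonneg_left
    (slE_F1 (W := W2) (h := h) hv hM hrow fun x => (hcl.rg x).2.2.1) gF
  have q3 := mul_le_mul_of_nonneg_left b3 gB
  rw [sX 1 zero_le_one] at t0
  have z : 0 ≤ σ * Ar o1 v w + s ^ 2 * Eg Θ v + Ex G v + ε * L ^ 2 + 1 + n ^ 12 * (b + τ) := by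
    have := p.Ar_nonneg (r := o1) fun _ _ => zero_le_one
    have := Eg_nonneg hv Θ
    have : 0 ≤ Ex G v := hv.mean_nonneg fun _ => sq_nonneg _
    have : 0 ≤ b := Bf_nonneg hv wp Λ0 _ _ _ _
    positivity
  have q4 : a * (M + c1) / 2 * (1 + 1 / κ) * C ≤ β := by
    rw [hβ, mul_comm _ C, mul_assoc C]
    refine mul_le_mul_of_nonneg_left (mul_le_mul_of_nonneg_right ?_ (by positivity)) (by linarith)
    nlinarith [mul_le_mul_of_nonneg_right a1 (show 0 ≤ M + c1 by positivity)]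
  have q5 := mul_le_mul_of_nonneg_right q4 z
  simp only [pw] at t0
  simp only
  linarith [t0, st, q1, q2, q3, q5]

end Crest.Agent.T157.En
end
end

-- ▼ part T157/EnTh_95
section

/-!
# Row 157, block B, S1, END: the part of the tilt in the conditional means (helper95)
-/

set_option autoImplicit false
set_option linter.unusedSectionVars false

noncomputable section

namespace Crest.Agent.T157.EnS

open MeasureTheory Real Matrix Function Set
open Crest.Agent.T157.E Crest.Agent.T157.SL Crest.Agent.T157.Ta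
open Crest.Agent.T157.Rec (grad fl)
open Crest.Agent.T157.Xt (H1 Lip2)
open Crest.Agent.T157.Eig (nrm opn)
open Crest.Agent.T157.S3.Rg (exc dM fro VF Bd)

variable {n : ℕ} {v w p : Cube n → ℝ} {K : ℝ}

theorem tanh_sub (a b : ℝ) : tanh (a + b) - tanh a = (1 - tanh a * tanh (a + b)) * tanh b := by
  have h := cosh_pos (a + b)
  have h1 := cosh_pos a
  have h2 := cosh_pos b
  simp only [tanh_eq_sinh_div_cosh]
  field_simp
  rw [sinh_add, cosh_add]
  linear_combination (cosh a * sinh b * cosh b - sinh b * cosh a * cosh b) * cosh_sq a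

theorem tanh_taylor (a d : ℝ) : |tanh (a + d) - tanh a - (1 - tanh a ^ 2) * d| ≤ 2 * d ^ 2 := by
  have := (convex_uIcc a (a + d)).norm_image_sub_le_of_norm_hasDerivWithin_le (C := 2 * |d|)
    (f := fun t => tanh t - (1 - tanh a ^ 2) * t) (f' := fun t => Ue.sq2 t - (1 - tanh a ^ 2) * 1)
    (fun t _ => ((Hd.hasDerivAt_tanh' t).sub ((hasDerivAt_id' t).const_mul _)).hasDerivWithinAt)
    (fun t ht => ?_) left_mem_uIcc right_mem_uIcc
  · simp only [Real.norm_eq_abs, add_sub_cancel_left] at this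
    rw [← sq_abs d]
    refine (le_of_eq ?_).trans (this.trans_eq (by ring))
    congr 1; ring
  have h1 := abs_sub_left_of_mem_uIcc ht
  rw [add_sub_cancel_left] at h1
  have h2 := (Ue.abs_tanh_sub_le t a).trans h1
  rw [Real.norm_eq_abs, Ue.sq2_eq, show 1 - tanh t ^ 2 - (1 - tanh a ^ 2) * 1 =
    -((tanh t + tanh a) * (tanh t - tanh a)) by ring, abs_neg, abs_mul]
  refine mul_le_mul ((abs_add_le _ _).trans ?_) h2 (abs_nonneg _) zero_le_two
  linarith [abs_tanh_lt_one t, abs_tanh_lt_one a]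

theorem opn_dM_tanh (z : VF n) (x : Cube n) :
    opn (dM (fun y k => tanh (z y k)) x) ≤ opn (dM z x) + 4 * (opn (dM z x) * opn (dM z x)) := by
  have e : dM (fun y k => tanh (z y k)) x = diagonal (fun k => 1 - tanh (z x k) ^ 2) * dM z x +
      (dM (fun y k => tanh (z y k)) x - diagonal (fun k => 1 - tanh (z x k) ^ 2) * dM z x) := by abel
  have b1 : opn (diagonal (fun k => 1 - tanh (z x k) ^ 2) * dM z x) ≤ opn (dM z x) :=
    (Eig.opn_mul_le _ _).trans (mul_le_of_le_one_left (Eig.opn_nonneg _)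
      (Eig.opn_diagonal_le zero_le_one fun k => by
        have := abs_le.1 (abs_tanh_lt_one (z x k)).le
        rw [abs_le]; constructor <;> nlinarith))
  rw [e]
  refine (Eig.opn_add_le _ _).trans (add_le_add b1 (S3.Rg.had (by norm_num) fun k j => ?_))
  have e1 : z (fl x j) k = z x k + -2 * sv x j * dM z x k j := by
    have := S3.Rg.fl_eq (fun y => z y k) x j
    simp only [dM, of_apply]; linarith
  have h := tanh_taylor (z x k) (-2 * sv x j * dM z x k j)
  rw [← e1] at h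
  have e2 : (dM (fun y k => tanh (z y k)) x - diagonal (fun k => 1 - tanh (z x k) ^ 2) * dM z x :
      Matrix (Fin n) (Fin n) ℝ) k j =
      -(sv x j / 2) * (tanh (z (fl x j) k) - tanh (z x k) -
        (1 - tanh (z x k) ^ 2) * (-2 * sv x j * dM z x k j)) := by
    rw [Matrix.sub_apply, diagonal_mul]
    have : dM (fun y k => tanh (z y k)) x k j = sv x j * (tanh (z x k) - tanh (z (fl x j) k)) / 2 := by
      simp only [dM, of_apply, Rec.grad_eq]
    rw [this]
    linear_combination ((1 - tanh (z x k) ^ 2) * dM z x k j) * Rec.sv_mul_self x j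
  rw [e2, abs_mul, abs_neg, abs_div, abs_sv, abs_two, ← abs_mul, abs_mul_self]
  have e3 : (-2 * sv x j * dM z x k j) ^ 2 = 4 * (dM z x k j * dM z x k j) := by
    linear_combination (4 * (dM z x k j * dM z x k j)) * Rec.sv_mul_self x j
  rw [e3] at h
  linarith

theorem bd_tanh {z : VF n} {Λ : ℝ} (h1 : 1 ≤ Λ) (h : ∀ x, opn (dM z x) ≤ Λ) :
    Bd (5 * Λ ^ 2) fun y k => tanh (z y k) := fun x =>
  ⟨fun k => (abs_tanh_lt_one _).le.trans (by nlinarith), (opn_dM_tanh z x).trans (by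
    nlinarith [h x, mul_le_mul (h x) (h x) (Eig.opn_nonneg _) (zero_le_one.trans h1)])⟩

/-- the response of the conditional means to a flat regular field -/
theorem bd_resp {u O : VF n} {Λ e : ℝ} (h1 : 1 ≤ Λ) (e1 : e ≤ 1) (hu : ∀ x, opn (dM u x) ≤ Λ)
    (hO : ∀ x j, |O x j| ≤ e) (he : ∀ x, opn (dM O x) ≤ e) :
    Bd (8020 * e * Λ ^ 4) fun x k => tanh (u x k + O x k) - tanh (u x k) := by
  have e0 : 0 ≤ e := (Eig.opn_nonneg _).trans (he default)
  have a1 := bd_tanh h1 hu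
  have a2 := bd_tanh (z := fun x => u x + O x) (Λ := 2 * Λ) (by linarith) fun x => by
    rw [S3.Rg.dM_add]; linarith [Eig.opn_add_le (dM u x) (dM O x), hu x, he x]
  have a3 : Bd (5 * e) fun y k => tanh (O y k) := fun x =>
    ⟨fun k => by
      have := Ue.abs_tanh_sub_le (O x k) 0
      rw [tanh_zero, sub_zero, sub_zero] at this
      linarith [hO x k], (opn_dM_tanh O x).trans (by
      nlinarith [he x, mul_le_mul (he x) ((he x).trans e1) (Eig.opn_nonneg _) e0])⟩
  have a4 := a1.mul (by positivity) (by positivity) a2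
  have l4 : 1 ≤ Λ ^ 4 := one_le_pow₀ h1
  have a5 : Bd (401 * Λ ^ 4) fun x k => 1 - tanh (u x k) * tanh (u x k + O x k) := fun x => by
    refine ⟨fun k => (abs_sub _ _).trans ?_, ?_⟩
    · have : |tanh (u x k) * tanh (u x k + O x k)| ≤ _ := (a4 x).1 k
      rw [abs_one]; linarith
    · have e := S3.Rg.dM_sub (fun _ => 1) (fun x k => tanh (u x k) * tanh (u x k + O x k)) x
      rw [S3.Rg.dM_const, zero_sub] at e
      have : opn (dM (fun x k => tanh (u x k) * tanh (u x k + O x k)) x) ≤ _ := (a4 x).2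
      rw [show dM (fun x k => 1 - tanh (u x k) * tanh (u x k + O x k)) x = _ from e, Eig.opn_neg]
      linarith
  have a6 := a5.mul (by positivity) (by positivity) a3
  simp only [tanh_sub]
  exact a6.mono (le_of_eq (by ring))

theorem lip2_dot {c : VF n} {A : ℝ} (h : ∀ x, opn (dM c x) ≤ A) (a : Fin n → ℝ) :
    Lip2 (2 * (A * nrm a)) fun x => a ⬝ᵥ c x := Xt.lip2_of_grad fun x => by
  have e : grad (fun x => a ⬝ᵥ c x) x = (dM c x)ᵀ *ᵥ a := by
    ext j
    simp only [dotProduct, S3.Rg.grad_sum, Rec.grad_const_mul, mulVec, dM, transpose_apply, of_apply,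
      Pi.smul_apply, smul_eq_mul]
    exact Finset.sum_congr rfl fun _ _ => mul_comm _ _
  rw [e]
  refine (Eig.nrm_mulVec_le _ _).trans (mul_le_mul_of_nonneg_right ?_ (Eig.nrm_nonneg _))
  rw [Eig.opn_transpose]; exact h x

/-- mean vectors of a regular field under two laws -/
theorem vec_sub (hw : ∀ x, 0 < w x) (h1 : H1 w K) (hK : 0 < K) (hv : Wt v) (hp : Wt p) {c : VF n}
    {A : ℝ} (h : ∀ x, opn (dM c x) ≤ A) : (meanV v c - meanV p c) ⬝ᵥ (meanV v c - meanV p c) ≤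
      4 * K * A ^ 2 * (16 * kl v w + 16 * kl p w + 12) := by
  set a := meanV v c - meanV p c with ha
  have := h1.sub_sq hw hK (lip2_dot h a) hv.isP hp.isP
  have e : mean v (fun x => a ⬝ᵥ c x) - mean p (fun x => a ⬝ᵥ c x) = a ⬝ᵥ a := by
    rw [← meanV_dot, ← meanV_dot, ← dotProduct_sub]
  have h2 : (a ⬝ᵥ a) ^ 2 ≤ K * (2 * (A * nrm a)) ^ 2 * (16 * kl v w + 16 * kl p w + 12) := e ▸ this
  rw [mul_pow, mul_pow, Eig.nrm_sq] at h2
  have x0 : 0 ≤ 16 * kl v w + 16 * kl p w + 12 := by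
    linarith [(S1n.pr_of hw hv).kl_nonneg, (S1n.pr_of hw hp).kl_nonneg]
  rcases (dot_self_nonneg a).eq_or_lt with z | z
  · rw [← z]; positivity
  · exact le_of_mul_le_mul_left (by nlinarith) z

theorem meanV_sq_le (hv : Wt v) (c : VF n) : meanV v c ⬝ᵥ meanV v c ≤ mean v fun x => c x ⬝ᵥ c x := by
  simp only [dotProduct, mean_sum]
  refine Finset.sum_le_sum fun i _ => ?_
  have := hv.var_nonneg fun x => c x i
  rw [var_eq_cov, hv.cov_eq] at this
  simp only [meanV]; linarith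

theorem sub_sq_le (a b : Fin n → ℝ) : (a - b) ⬝ᵥ (a - b) ≤ 2 * (a ⬝ᵥ a) + 2 * (b ⬝ᵥ b) := by
  have := add_sq_le one_pos a (-b)
  rw [← sub_eq_add_neg, neg_dotProduct, dotProduct_neg, neg_neg] at this
  linarith

/-- **the part of the tilt**: `g = O + exc`; base `w` with (H1) -/
theorem th_part (hw : ∀ x, 0 < w x) (h1 : H1 w K) (hK : 0 < K) (hv : Wt v) (hp : Wt p) {u O g : VF n}
    {Gh : Cube n → ℝ} {Λ e a : ℝ} (hΛ : 1 ≤ Λ) (e1 : e ≤ 1) (hu : ∀ x, opn (dM u x) ≤ Λ)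
    (hO : ∀ x j, |O x j| ≤ e) (he : ∀ x, opn (dM O x) ≤ e)
    (hx : ∀ x, ∑ j, (g x j - O x j) ^ 2 ≤ Gh x ^ 2) (hG : Lip2 a Gh) {d : VF n}
    (hd : d = fun x k => tanh (u x k + g x k) - tanh (u x k)) :
    (meanV v d - meanV p d) ⬝ᵥ (meanV v d - meanV p d) ≤ 20 * mean v (fun x => Gh x ^ 2) +
      K * (10 ^ 10 * (e * Λ ^ 4) ^ 2 + 128 * a ^ 2) * (kl v w + kl p w + 1) := by
  set c : VF n := fun x k => tanh (u x k + O x k) - tanh (u x k) with hc
  set r : VF n := fun x k => tanh (u x k + g x k) - tanh (u x k + O x k) with hr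
  have ee : meanV v d - meanV p d = (meanV v c - meanV p c) + (meanV v r - meanV p r) := by
    ext k; simp only [hd, hc, hr, meanV, mean_sub, Pi.add_apply, Pi.sub_apply]; ring
  have r1 : ∀ x, r x ⬝ᵥ r x ≤ Gh x ^ 2 := fun x => le_trans (Finset.sum_le_sum fun k _ => by
    have := sq_le_sq.2 (Ue.abs_tanh_sub_le (u x k + g x k) (u x k + O x k))
    rw [add_sub_add_left_eq_sub] at this
    simpa only [sq] using this) (hx x)
  have b1 := vec_sub hw h1 hK hv hp fun x => (bd_resp hΛ e1 hu hO he x).2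
  have b2 := (meanV_sq_le hv r).trans (hv.mean_mono r1)
  have b3 := (meanV_sq_le hp r).trans (hp.mean_mono r1)
  have b4 : mean p (fun x => Gh x ^ 2) ≤ 4 * mean v (fun x => Gh x ^ 2) +
      K * a ^ 2 * (32 * kl v w + 16 * kl p w + 18) := h1.xfer hw hK hG hv.isP hp.isP
  have b5 := add_sq_le one_pos (meanV v c - meanV p c) (meanV v r - meanV p r)
  have b6 := sub_sq_le (meanV v r) (meanV p r)
  have k1 := (S1n.pr_of hw hv).kl_nonneg
  have k2 := (S1n.pr_of hw hp).kl_nonneg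
  have c1 : 0 ≤ K * (e * Λ ^ 4) ^ 2 := by positivity
  have c2 : 0 ≤ K * a ^ 2 := by positivity
  rw [ee]
  nlinarith [mul_nonneg c1 k1, mul_nonneg c1 k2, mul_nonneg c2 k1, mul_nonneg c2 k2]

end Crest.Agent.T157.EnS
end
end

-- ▼ part T157/EnFi_95
section

/-!
# Row 157, block B, S1, END: the last stage and the untilting over a pinned product law (helper95)
-/

set_option autoImplicit false
set_option linter.unusedSectionVars false

noncomputable section

namespace Crest.Agent.T157.EnS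

open MeasureTheory Real Matrix Function Set
open Crest.Agent.T157.E Crest.Agent.T157.SL Crest.Agent.T157.Ta
open Crest.Agent.T157.Rec (grad fl)
open Crest.Agent.T157.Xt (H1 Lip2)
open Crest.Agent.T157.Eig (nrm opn)
open Crest.Agent.T157.S3.Rg (exc dM fro VF Bd)

variable {n : ℕ} {v w p μ G Φ : Cube n → ℝ} {K κ B : ℝ} {S : Finset (Fin n)} {sS x : Cube n}
  {j : Fin n}

/-- indicator of the pins -/
def pin (S : Finset (Fin n)) (sS x : Cube n) : ℝ := if ∀ k ∈ S, x k = sS k then 1 else 0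

/-- exact tensorisation -/
def AT1 (w : Cube n → ℝ) : Prop := ∀ v, Pr v w → kl v w ≤ Ar o1 v w

theorem pin_of (h : ∀ k ∈ S, x k = sS k) : pin S sS x = 1 := if_pos h

theorem of_pin (h : pin S sS x ≠ 0) : ∀ k ∈ S, x k = sS k := by
  by_contra hc; exact h (if_neg hc)

theorem pin_nonneg : 0 ≤ pin S sS x := by unfold pin; split_ifs <;> norm_num

theorem pin_exp (x : Cube n) (h : pin S sS x ≠ 0) : pin S sS x = exp (-(0 : ℝ)) := by
  rw [pin_of (of_pin h), neg_zero, exp_zero]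

theorem off_pin (hj : j ∉ S) (sS : Cube n) : OffAt j (pin S sS) := fun x b =>
  if_congr (forall₂_congr fun k hk => by rw [update_of_ne (ne_of_mem_of_not_mem hk hj)]) rfl rfl

theorem wt_pin (hw : ∀ x, 0 < w x) (S : Finset (Fin n)) (sS : Cube n) :
    Wt fun x => w x * pin S sS x :=
  ⟨fun x => mul_nonneg (hw x).le pin_nonneg, Finset.sum_pos'
    (fun x _ => mul_nonneg (hw x).le pin_nonneg)
    ⟨sS, Finset.mem_univ _, by rw [pin_of fun _ _ => rfl, mul_one]; exact hw _⟩⟩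

theorem cnd_pin (hj : j ∉ S) (h : ∀ k ∈ S, x k = sS k) (w : Cube n → ℝ) :
    Ent.cnd (fun x => w x * pin S sS x) j x = Ent.cnd w j x := by
  ext b; simp only [Ent.cnd, off_pin hj sS x, pin_of h, mul_one]

theorem cm_pin (hj : j ∉ S) (h : ∀ k ∈ S, x k = sS k) (w : Cube n → ℝ) :
    cm (fun x => w x * pin S sS x) j x = cm w j x := by
  simp only [Ta.cm, siteM, off_pin hj sS x, pin_of h, mul_one]

theorem cm_exp (H : Cube n → ℝ) (j : Fin n) (x : Cube n) :
    cm (fun x => exp (H x)) j x = tanh (grad H x j) := by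
  have e1 : exp (H (update x j true)) = exp ((H (update x j true) + H (update x j false)) / 2) *
      exp (grad H x j) := by rw [← exp_add, grad, incr]; congr 1; ring
  have e2 : exp (H (update x j false)) = exp ((H (update x j true) + H (update x j false)) / 2) *
      exp (-grad H x j) := by rw [← exp_add, grad, incr]; congr 1; ring
  simp only [Ta.cm, siteM, sv, update_self, Crest.ProbabilityR.SpinGlassDynamics.spin]
  rw [e1, e2, tanh_eq_sinh_div_cosh, sinh_eq, cosh_eq]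
  have := exp_pos (grad H x j)
  have := exp_pos (-grad H x j)
  simp
  field_simp
  ring

/-- a pinned site -/
theorem cm_pinned (hj : j ∈ S) (hw : ∀ x, w x ≠ 0 → ∀ k ∈ S, x k = sS k) (hx : w x ≠ 0) :
    cm w j x = sv sS j ∧ Ent.cnd w j x (x j) = 1 := by
  have h1 := hw x hx j hj
  have h2 : w (update x j (!x j)) = 0 := by
    by_contra hc
    have := hw _ hc j hj
    rw [update_self, ← h1] at this
    simp at this
  have h3 : w (update x j (x j)) ≠ 0 := by rwa [update_eq_self]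
  simp only [Ta.cm, siteM, sv, update_self, Ent.cnd, ← h1]
  revert h2 h3
  cases x j <;> intro h2 h3 <;> simp only [Bool.not_true, Bool.not_false] at h2 <;>
    simp [h2, h3]

theorem ep_pinned (h : Pr v w) (hj : j ∈ S) (hw : ∀ x, w x ≠ 0 → ∀ k ∈ S, x k = sS k) :
    ep v w j = 0 := by
  have e1 : mean v (cm w j) = sv sS j :=
    (mean_congr_supp fun x hx => (cm_pinned hj hw (h.pos hx).2.ne').1).trans (h.hv.mean_const _)
  have e2 : mag w j = sv sS j :=
    (mean_congr_supp fun x hx => by simp only [sv, hw x hx j hj]).trans (h.hw.mean_const _)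
  rw [ep, e1, e2, sub_self]

theorem ep_eq (hw : Wt w) (v : Cube n → ℝ) (j : Fin n) :
    ep v w j = mean v (cm w j) - mean w (cm w j) := by
  have := mean_cm hw (OffAt.const j (1 : ℝ))
  simp only [one_mul] at this
  rw [ep, show mean w (cm w j) = _ from this]; rfl

/-- the error of a pinned pair, free sites -/
theorem ep_free (h : Pr v fun x => exp (G x) * pin S sS x) (hj : j ∉ S) :
    ep v (fun x => exp (G x) * pin S sS x) j = mean v (fun x => tanh (grad G x j)) -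
      mean (fun x => exp (G x) * pin S sS x) fun x => tanh (grad G x j) := by
  have e : ∀ x, exp (G x) * pin S sS x ≠ 0 →
      cm (fun x => exp (G x) * pin S sS x) j x = tanh (grad G x j) := fun x hx => by
    rw [cm_pin hj (of_pin (right_ne_zero_of_mul hx)), cm_exp]
  rw [ep_eq h.hw, mean_congr_supp fun x hx => e x (h.pos hx).2.ne', mean_congr_supp e]

/-- pinned products tensorise exactly -/
theorem at1_pin (hw : Ent.IsProd w) (S : Finset (Fin n)) (sS : Cube n) :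
    AT1 fun x => w x * pin S sS x := fun v h => by
  obtain ⟨q, q1, q2, q3⟩ := hw.exists_ppi
  have W : Wt w := .of_pos hw.pos
  have sp : ∀ x, v x ≠ 0 → ∀ k ∈ S, x k = sS k := fun x hx =>
    of_pin (right_ne_zero_of_mul (h.pos hx).2.ne')
  have qp : ∀ i b, 0 < q i b := fun i b => by
    rw [← q3 i default]
    exact div_pos (hw.pos _) (add_pos (hw.pos _) (hw.pos _))
  have e1 := S1n.kl_pin (g := fun _ => 0) (U := fun _ => 0) (l := pin S sS) hw.pos h (fun x => by simp) pin_exp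
  have e2 : log (∑ x, w x * pin S sS x) - log (∑ x, w x) = ∑ i ∈ S, log (q i (sS i)) := by
    rw [← log_div h.hw.pos.ne' W.pos.ne', ← mean_eq_div, ← log_prod fun i _ => (qp i _).ne']
    congr 1
    have e : ∀ x : Cube n, prob w x * pin S sS x =
        ∏ i, (q i (x i) * if i ∈ S then (if x i = sS i then 1 else 0) else 1) := fun x => by
      rw [q2, Finset.prod_mul_distrib, Finset.prod_ite_mem, Finset.univ_inter, Finset.prod_boole]
      simp [Ent.ppi, pin]
    rw [mean, Finset.sum_congr rfl fun x _ => e x, ← Fintype.piFinset_univ,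
      ← Finset.prod_univ_sum (fun _ => Finset.univ) fun i b =>
        q i b * if i ∈ S then (if b = sS i then 1 else 0) else 1,
      ← Finset.univ_inter S, ← Finset.prod_ite_mem]
    refine Finset.prod_congr rfl fun i _ => ?_
    by_cases hi : i ∈ S
    · simp [hi]
    · simpa [hi] using (q1 i).2
  have e3 : Ar o1 v w + ∑ i ∈ S, log (q i (sS i)) ≤ Ar o1 v fun x => w x * pin S sS x := by
    rw [show ∑ i ∈ S, log (q i (sS i)) = ∑ i, if i ∈ S then log (q i (sS i)) else 0 by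
      rw [Finset.sum_ite_mem, Finset.univ_inter], Ar, Ar, ← Finset.sum_add_distrib]
    refine Finset.sum_le_sum fun i _ => ?_
    split_ifs with hi
    · refine le_trans (le_of_eq ?_) (h.As_nonneg (fun _ => zero_le_one) i)
      rw [As_eq h.hv (off_o1 i), mean_congr_supp (g := fun _ => -log (q i (sS i))) fun x hx => by
        rw [one_mul, lr, (cm_pinned hi sp hx).2, q3, sp x hx i hi, one_div, log_inv],
        h.hv.mean_const, neg_add_cancel]
    · rw [add_zero]
      exact le_of_eq (mean_congr_supp fun x hx => by rw [kls, kls, cnd_pin hi (sp x hx)])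
  simp only [h.hv.mean_const] at e1
  linarith [kl_le_Ar hw h.hv]

theorem herbst1 (W : Wt w) (h : AT1 w) {t : ℝ} (ht : 0 ≤ t)
    (hB : ∀ u, 0 < u → u < t → mean (wt w fun x => u * G x) (CG w G (2 * u)) ≤ B * u ^ 2) :
    log (mean w fun x => exp (t * G x)) ≤ t * mean w G + 1 * B * t ^ 2 := by
  refine Ent.herbst W.isP G ht fun u h0 h1 => ?_
  have m := mean_pos' W fun x => exp_pos (u * G x)
  have e := kl_mul W m.ne'
  have k := h (wt w fun x => u * G x)
    (by simpa [wt_zero] using (Pr.refl W).wt2 (fun x => u * G x) fun _ => 0)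
  have k2 := (Ar_wt_self W G u).trans (hB u h0 h1)
  rw [show kl (wt w fun x => u * G x) w = _ from e, div_le_iff₀ m] at k
  refine k.trans (mul_le_mul_of_nonneg_right ?_ m.le)
  linarith

/-- **UNTILT**, class-free form, pins allowed -/
theorem untilt1 (hw : AT1 w) (p : Pr v w) (hκ : 0 < κ) (hκ1 : κ ≤ 1 / 2)
    (hΦ : ∀ l, |l| ≤ 2 / κ → ∀ x, w x ≠ 0 → CG w G l x ≤ l ^ 2 * Φ x)
    (hB : ∀ u, |u| ≤ 1 / κ → mean (wt w fun x => u * G x) Φ ≤ B) :
    kl v (wt w G) ≤ (1 + 4 * κ) * Ar o1 v (wt w G) + 3 / κ * mean v Φ + 8 / κ * B := by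
  have hv := p.hv
  have W := p.hw
  have k1 : 1 ≤ 1 / κ := by rw [le_div_iff₀ hκ]; linarith
  have key : ∀ u, |u| ≤ 1 / κ → mean (wt w fun x => u * G x) (CG w G (2 * u)) ≤ 4 * B * u ^ 2 :=
    fun u hu => by
      have a : |2 * u| ≤ 2 / κ := by
        rw [abs_mul, abs_two, div_eq_mul_one_div]; linarith
      refine (mean_mono_supp (wt_wt W _) fun x hx => hΦ _ a x (left_ne_zero_of_mul hx)).trans ?_
      rw [mean_const_mul]
      nlinarith [mul_le_mul_of_nonneg_left (hB u hu) (sq_nonneg u)]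
  have a1 := herbst1 (G := G) (B := 4 * B) W hw zero_le_one fun u h0 h1 =>
    key u (by rw [abs_of_pos h0]; linarith)
  have a2 := herbst1 (G := fun x => -G x) (B := 4 * B) W hw
    (zero_le_one.trans k1) fun u h0 h1 => by
      have := key (-u) (by rw [abs_neg, abs_of_pos h0]; exact h1.le)
      simpa [CG_neg] using this
  have a3 := mean_le_kl p fun x => 1 / κ * -G x
  have a4 := hw v p
  have a5 := Ar_wt p G 1
  have a6 := pc_le p G (1 / κ)
  have a7 := mean_mono_supp hv fun x hx => hΦ (1 / κ) (by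
    rw [abs_of_pos (by positivity)]; exact div_le_div_of_nonneg_right one_le_two hκ.le) x
      (p.pos hx).2.ne'
  have a8 := hv.mean_nonneg (CG_nonneg W G 1)
  have a9 := hv.mean_nonneg (CG_nonneg W G (1 / κ))
  have a0 := (p.wt G).Ar_nonneg (r := o1) fun _ _ => zero_le_one
  have b0 : 0 ≤ B := by
    have := ((wt_wt W fun x => 1 * G x).mean_nonneg (CG_nonneg W G _)).trans
      (key 1 (by rwa [abs_one]))
    linarith
  simp only [one_mul, mean_const_mul, mean_neg, one_pow, mul_one] at a1 a2 a3 a5 a7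
  rw [kl_wt p]
  set t := 1 / κ with ht
  have e : κ * t = 1 := by rw [ht]; field_simp
  rw [show 3 / κ = 3 * t by rw [ht]; ring, show 8 / κ = 8 * t by rw [ht]; ring]
  generalize Ar o1 v (wt w G) = A at *
  generalize Ar o1 v w = A0 at *
  generalize mean v Φ = F at *
  generalize log (mean w fun x => exp (G x)) = z1 at *
  generalize log (mean w fun x => exp (t * -G x)) = z2 at *
  have F0 : 0 ≤ t * F := by
    by_contra hc
    nlinarith [mul_pos (zero_lt_one.trans_le k1) (neg_pos.2 (not_le.1 hc))]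
  -- `pc ≤ κ A0 + t F`
  have c1 : pc v w G ≤ κ * A0 + t * F := by
    have := mul_le_mul_of_nonneg_left (a6.trans (add_le_add le_rfl a7)) hκ.le
    calc pc v w G = κ * (t * pc v w G) := by rw [← mul_assoc, e, one_mul]
      _ ≤ _ := this
      _ = κ * A0 + κ * t * (t * F) := by ring
      _ = _ := by rw [e, one_mul]
  have c2 : (1 - κ) * A0 ≤ A + t * F := by linarith
  have c3 : -mean v G ≤ κ * kl v w - mean w G + 4 * B * t := by
    have := mul_le_mul_of_nonneg_left (a3.trans (add_le_add le_rfl a2)) hκ.le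
    calc -mean v G = κ * (t * -mean v G) := by rw [← mul_assoc, e, one_mul]
      _ ≤ _ := this
      _ = κ * kl v w + κ * t * (-mean w G + 4 * B * t) := by ring
      _ = _ := by rw [e, one_mul]; ring
  have c4 : (1 + κ) * A0 ≤ (1 + 4 * κ) * (A + t * F) := by
    have : (1 - κ) * ((1 + κ) * A0) ≤ (1 - κ) * ((1 + 4 * κ) * (A + t * F)) := by
      have h1 := mul_le_mul_of_nonneg_left c2 (show 0 ≤ 1 + κ by linarith)
      have h2 : 0 ≤ κ * (1 - 2 * κ) * (A + t * F) :=
        mul_nonneg (mul_nonneg hκ.le (by linarith)) (add_nonneg a0 F0)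
      nlinarith
    exact le_of_mul_le_mul_left this (by linarith)
  nlinarith [mul_le_mul_of_nonneg_left a4 hκ.le, mul_le_mul_of_nonneg_left k1 b0,
    mul_le_mul_of_nonneg_right hκ1 F0]

/-- product weight with the field `h` -/
def pb (h : Fin n → ℝ) (x : Cube n) : ℝ := exp (h ⬝ᵥ sv x)

/-- pinned and tilted product weight -/
def pP (S : Finset (Fin n)) (sS : Cube n) (h : Fin n → ℝ) (G : Cube n → ℝ) (x : Cube n) : ℝ :=
  exp (h ⬝ᵥ sv x + G x) * pin S sS x

/-- the certificate of a tilt -/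
structure Ct (e L : ℝ) (G : Cube n → ℝ) (O : VF n) (Gh : Cube n → ℝ) : Prop where
  gr : ∀ x, nrm (grad G x) ≤ L
  sup : ∀ x j, |O x j| ≤ e
  op : ∀ x, opn (dM O x) ≤ e
  nr : ∀ x, nrm (O x) ≤ L
  hs : ∀ x, fro (dM O x) ≤ L
  ex : ∀ x, ∑ j, (grad G x j - O x j) ^ 2 ≤ Gh x ^ 2
  ts : Lip2 √e Gh

variable {h : Fin n → ℝ} {O : VF n} {Gh : Cube n → ℝ} {e L : ℝ}

theorem Ct.add (c : Ct e L G O Gh) (a : ℝ) : Ct e L (fun x => G x + a) O Gh := by
  have : grad (fun x => G x + a) = grad G := by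
    ext x j; simp [grad, incr]
  exact ⟨this ▸ c.gr, c.sup, c.op, c.nr, c.hs, this ▸ c.ex, c.ts⟩

theorem Ct.e0 (c : Ct e L G O Gh) : 0 ≤ e := (Eig.opn_nonneg _).trans (c.op default)
theorem Ct.L0 (c : Ct e L G O Gh) : 0 ≤ L := (Eig.nrm_nonneg _).trans (c.gr default)

theorem prod_pb (h : Fin n → ℝ) : Ent.IsProd (pb h) := by
  have := Ent.isProd_one.tilt h
  unfold tilt at this
  simp only [one_mul] at this
  exact this

theorem pP_eq : pP S sS h G = wt (fun x => pb h x * pin S sS x) G := by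
  ext x; simp only [pP, wt, pb, exp_add]; ring

theorem kl_pP (c : Ct e L G O Gh) (u : ℝ) (p : Pr v (pP S sS h G)) :
    kl (wt (fun x => pb h x * pin S sS x) fun x => u * G x) (pb h) ≤
      4 * kl v (pb h) + 216 * (|u| * L) ^ 2 := by
  have := S1n.b1_kl (U := fun _ => 0) (l := pin S sS) (v := v)
    (p := wt (fun x => pb h x * pin S sS x) fun x => u * G x) (prod_pb h).pos (h1_prod (prod_pb h))
    ((Xt.lip2_of_grad c.gr).const_mul u)
    ⟨p.hv, wt_wt (wt_pin (prod_pb h).pos S sS) _, fun x hx => p.ac x (by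
      simp only [wt, pb, pP, mul_eq_zero, exp_ne_zero, false_or, or_false] at hx ⊢; exact hx)⟩
    (fun x => by simp only [wt]; ring) pin_exp fun _ => le_rfl
  rw [p.hv.mean_const] at this
  linarith

/-- the error of the stage over a pinned product law -/
theorem ep_prod (c : Ct e L G O Gh) (e1 : e ≤ 1) (p : Pr v (pP S sS h G)) :
    ep v (pP S sS h G) ⬝ᵥ ep v (pP S sS h G) ≤ 20 * mean v (fun x => Gh x ^ 2) +
      10 ^ 14 * e * (kl v (pb h) + L ^ 2 + 1) := by
  have t := th_part (u := fun _ => h) (g := grad G) (Λ := 1) (prod_pb h).pos (h1_prod (prod_pb h))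
    (by norm_num) p.hv p.hw le_rfl e1 (fun x => by rw [S3.Rg.dM_const]; simp) c.sup c.op c.ex c.ts rfl
  have k := kl_pP c 1 p
  simp only [one_mul, ← pP_eq, abs_one] at k
  have k0 := (S1n.pr_of (prod_pb h).pos p.hv).kl_nonneg
  have k1 := (S1n.pr_of (prod_pb h).pos p.hw).kl_nonneg
  have e0 := c.e0
  refine (Finset.sum_le_sum fun j _ => ?_).trans (t.trans ?_)
  · by_cases hj : j ∈ S
    · rw [ep_pinned p hj fun x hx => of_pin (right_ne_zero_of_mul hx), zero_mul]
      exact mul_self_nonneg _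
    · have := ep_free (G := fun x => h ⬝ᵥ sv x + G x) p hj
      simp only [Rec.grad_add, Rec.grad_lin, Pi.add_apply] at this
      refine le_of_eq (congrArg (fun t => t * t) ?_)
      simp only [Pi.sub_apply, meanV, mean_sub, p.hv.mean_const, p.hw.mean_const]
      exact this.trans (sub_sub_sub_cancel_right _ _ _).symm
  · rw [sq_sqrt e0, one_pow, mul_one]
    have a1 : 10 ^ 10 * e ^ 2 + 128 * e ≤ 2 * 10 ^ 10 * e := by nlinarith
    have a2 : kl v (pb h) + kl (pP S sS h G) (pb h) + 1 ≤ 216 * (kl v (pb h) + L ^ 2 + 1) := by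
      linarith
    nlinarith [mul_le_mul a1 a2 (by linarith) (by positivity), mul_nonneg e0 (sq_nonneg L),
      mul_nonneg e0 k0]

/-- **UNTILT** over a pinned product law -/
theorem untilt2 (c : Ct e L G O Gh) (e0 : 0 < e) (hκe : 8 * e ≤ κ) (hκ1 : κ ≤ 1 / 2)
    (p : Pr v (pP S sS h G)) : kl v (pP S sS h G) ≤ (1 + 4 * κ) * Ar o1 v (pP S sS h G) +
      105 / κ * (mean v (wE (fun j => tanh (h j)) O) + mean v fun x => Gh x ^ 2) +
      10 ^ 8 * e / κ ^ 3 * (kl v (pb h) + L ^ 2 + 1) := by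
  have hκ : 0 < κ := by linarith
  have P := prod_pb h
  have W := wt_pin P.pos S sS
  have H := h1_prod P
  have q1 : ∀ j, |tanh (h j)| ≤ 1 := fun j => (abs_tanh_lt_one _).le
  have k0 := (S1n.pr_of P.pos p.hv).kl_nonneg
  have L0 := c.L0
  have s0 := sqrt_pos.2 e0
  have k2 : 4 ≤ 1 / κ ^ 2 := by rw [le_div_iff₀ (by positivity)]; nlinarith
  set Y := kl v (pb h) + L ^ 2 + 1 with hY
  have hd : (4 * e + 4 * e * L / (√e * (L + 1))) ^ 2 ≤ 64 * e := by
    have a1 : e ≤ √e := le_sqrt_of_sq_le (by nlinarith)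
    have a2 : 4 * e * L / (√e * (L + 1)) ≤ 4 * √e := by
      rw [div_le_iff₀ (by positivity)]
      nlinarith [mul_self_sqrt e0.le]
    have a3 : 0 ≤ 4 * e * L / (√e * (L + 1)) := by positivity
    nlinarith [mul_self_sqrt e0.le, pow_le_pow_left₀ (by positivity)
      (show 4 * e + 4 * e * L / (√e * (L + 1)) ≤ 8 * √e by linarith) 2]
  have := untilt1 (G := G) (Φ := fun x => 3 * wE (fun j => tanh (h j)) O x + 3 * Gh x ^ 2) (v := v)
    (B := 12 * (mean v (wE (fun j => tanh (h j)) O) + mean v fun x => Gh x ^ 2) +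
      10 ^ 7 * e * (1 / κ ^ 2 * Y)) (at1_pin P S sS)
    ⟨p.hv, W, fun x hx => p.ac x (by rw [pP_eq, wt, hx, zero_mul])⟩ hκ hκ1
    (fun l hl x hx => by
      have a : 4 * (|l| * e) ≤ 1 := by
        rw [le_div_iff₀ hκ] at hl
        nlinarith [mul_le_mul_of_nonneg_left hκe (abs_nonneg l)]
      refine (Finset.sum_le_sum fun j _ => cg_split (abs_cm_le W.nn j x) (c.sup x j) a).trans ?_
      simp only [← Finset.mul_sum, Finset.sum_add_distrib]
      refine mul_le_mul_of_nonneg_left (add_le_add (mul_le_mul_of_nonneg_left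
        (Finset.sum_le_sum fun j _ => mul_le_mul_of_nonneg_right ?_ (sq_nonneg _)) (by norm_num))
        (by linarith [c.ex x])) (sq_nonneg l)
      by_cases hj : j ∈ S
      · rw [(cm_pinned hj (fun x hx => of_pin (right_ne_zero_of_mul hx)) hx).1, ← sq_abs (sv sS j),
          abs_sv]
        nlinarith [abs_le.1 (q1 j)]
      · rw [cm_pin hj (of_pin (right_ne_zero_of_mul hx)), show pb h = fun x => exp (h ⬝ᵥ sv x) from rfl,
          cm_exp, Rec.grad_lin])
    fun u hu => by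
      have pu := wt_wt W fun x => u * G x
      have b1 := kl_pP c u p
      have b3 : (|u| * L) ^ 2 ≤ 1 / κ ^ 2 * L ^ 2 := by
        rw [mul_pow, ← _root_.one_div_pow]
        exact mul_le_mul_of_nonneg_right (pow_le_pow_left₀ (abs_nonneg _) hu 2) (sq_nonneg _)
      have b5 := (S1n.pr_of P.pos pu).kl_nonneg
      have c1 := wE_xfer P.pos H (by norm_num) p.hv pu q1 (ρ := √e * (L + 1)) (by positivity) c.op c.hs
      have c2 : mean (wt (fun x => pb h x * pin S sS x) fun x => u * G x) (fun x => Gh x ^ 2) ≤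
          4 * mean v (fun x => Gh x ^ 2) + 9 * √e ^ 2 * (32 * kl v (pb h) +
            16 * kl (wt (fun x => pb h x * pin S sS x) fun x => u * G x) (pb h) + 18) :=
        H.xfer P.pos (by norm_num) c.ts p.hv.isP pu.isP
      rw [mul_pow, sq_sqrt e0.le] at c1
      rw [sq_sqrt e0.le] at c2
      generalize kl (wt (fun x => pb h x * pin S sS x) fun x => u * G x) (pb h) = z at *
      have b4 : 32 * kl v (pb h) + 16 * z + 18 ≤ 3456 * (1 / κ ^ 2 * Y) := by
        nlinarith [mul_le_mul_of_nonneg_right k2 k0]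
      have b6 : (L + 1) ^ 2 ≤ 1 / κ ^ 2 * Y := by
        nlinarith [mul_le_mul_of_nonneg_right k2 (show 0 ≤ Y by positivity), sq_nonneg (L - 1)]
      have c3 := mul_le_mul hd b4 (by positivity) (by positivity)
      have c4 := mul_le_mul_of_nonneg_left b4 e0.le
      have c5 := mul_le_mul_of_nonneg_left b6 e0.le
      have c6 : 0 ≤ e * (1 / κ ^ 2 * Y) := by positivity
      rw [mean_add, mean_const_mul, mean_const_mul]
      nlinarith
  rw [mean_add, mean_const_mul, mean_const_mul, ← pP_eq] at this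
  refine this.trans ?_
  have : 0 ≤ e / κ ^ 3 * Y := by positivity
  have e1 : 8 / κ * (10 ^ 7 * e * (1 / κ ^ 2 * Y)) = 8 * 10 ^ 7 * (e / κ ^ 3 * Y) := by
    field_simp
  have e2 : 10 ^ 8 * e / κ ^ 3 * Y = 10 ^ 8 * (e / κ ^ 3 * Y) := by ring
  rw [mul_add (8 / κ), e1, e2]
  ring_nf
  ring_nf at this
  linarith

theorem fR_one : fR (1 : Matrix (Fin n) (Fin n) ℝ) = sv := by ext x; rw [fR, one_mulVec]

theorem post_pP (t : ℝ) (y : Fin n → ℝ) :
    post sv (pP S sS h G) t y = pP S sS (h + y) fun x => G x + -(t / 2 * n) := by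
  ext x
  simp only [post_sv, tilt, pP, add_dotProduct, exp_add]; ring

theorem kl_pb (v : Cube n → ℝ) (t : ℝ) (h y : Fin n → ℝ) :
    kl v (pb (h + y)) = kl v (post sv (pb h) t y) := by
  have : pb (h + y) = tilt (pb h) y := by ext x; simp only [pb, tilt, add_dotProduct, exp_add]
  simp only [kl, prob_post_sv, this]

theorem mg_sech (a : ℝ) (j : Fin n) : MG fun y : Fin n → ℝ => 1 - tanh (a + y j) ^ 2 :=
  .of_bdd (by
    simp only [tanh_eq_sinh_div_cosh]; fun_prop) 1 fun y => by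
    have := abs_le.1 (abs_tanh_lt_one (a + y j)).le
    rw [abs_le]; constructor <;> nlinarith

theorem slE_wE (hv : Wt v) {T : ℝ} (hT : 0 < T) (hO : ∀ x, nrm (O x) ≤ L) :
    slE sv v T (fun _ y => mean (post sv v T y) (wE (fun j => tanh ((h + y) j)) O)) ≤
      2 / √T * L ^ 2 := by
  have m : ∀ x, MG fun y : Fin n → ℝ => wE (fun j => tanh ((h + y) j)) O x := fun x =>
    .sum _ fun j _ => (mg_sech (h j) j).mul (.const _)
  rw [← bayes hv hT.le (.of_mg m), slE_eq_mean]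
  refine hv.mean_le fun x => ?_
  simp only [wE, Pi.add_apply, Pi.smul_apply, smul_eq_mul]
  rw [integral_finsetSum _ fun j _ => by
    simpa using (((mg_sech (h j) j).affine (T • sv x) √T).mul (.const (O x j ^ 2))).int]
  refine (Finset.sum_le_sum fun j _ => ?_ : _ ≤ ∑ j, 2 / √T * O x j ^ 2).trans ?_
  · rw [integral_mul_const]
    refine mul_le_mul_of_nonneg_right ?_ (sq_nonneg _)
    have := int_sech (Pi.single j √T) (h j + T * sv x j) hT (by simp [mul_self_sqrt hT.le])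
    simpa only [single_dotProduct, add_assoc] using this
  · rw [← Finset.mul_sum, ← S3.Rg.nrm_sq']
    exact mul_le_mul_of_nonneg_left (pow_le_pow_left₀ (Eig.nrm_nonneg _) (hO x) 2) (by positivity)

/-- **FIN**: the identity stage of length `T` and the untilting -/
theorem fin2 (c : Ct e L G O Gh) (e0 : 0 < e) (hκe : 8 * e ≤ κ) (hκ1 : κ ≤ 1 / 2) {lam a T : ℝ}
    (a0 : 0 ≤ a) (a1 : a ≤ 1) (ha : a * (1 + 4 * κ) ≤ lam) (hT : 1 ≤ T) (p : Pr v (pP S sS h G)) :
    0 ≤ lam * Ar o1 v (pP S sS h G) - a * kl v (pP S sS h G) + 210 / (κ * √T) * L ^ 2 +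
      125 * T / κ * mean v (fun x => Gh x ^ 2) +
      2 * 10 ^ 14 * e * T / κ ^ 3 * (kl v (pb h) + L ^ 2 + 1) := by
  have hκ : 0 < κ := by linarith
  have T0 : 0 < T := by linarith
  have hv := p.hv
  have pb' := S1n.pr_of (prod_pb h).pos hv
  have k0 := pb'.kl_nonneg
  have g0 := hv.mean_nonneg fun x => sq_nonneg (Gh x)
  have m1 : ∀ t, MG fun y => mean (post sv v t y) fun x => Gh x ^ 2 := fun t =>
    mg_mean hv t fun _ => .const _
  have m2 : ∀ t, MG fun y => kl (post sv v t y) (post sv (pb h) t y) := fun t =>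
    (xg_kl pb' (lg_lk sv t) (lg_lk sv t)).mg
  have key : ∀ t, 0 ≤ t → ∀ c1 c2 : ℝ, 0 ≤ c2 → slE sv v t (fun _ y =>
      c1 * mean (post sv v t y) (fun x => Gh x ^ 2) +
        c2 * (kl (post sv v t y) (post sv (pb h) t y) + L ^ 2 + 1)) ≤
      c1 * mean v (fun x => Gh x ^ 2) + c2 * (kl v (pb h) + L ^ 2 + 1) := fun t ht c1 c2 h2 => by
    rw [slE_add (.of_mg fun _ => (m1 t).const_mul _)
      (.of_mg fun _ => (((m2 t).add (.const _)).add (.const _)).const_mul _), slE_const_mul,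
      slE_const_mul, slE_mean hv ht, slE_add (.of_mg fun _ => (m2 t).add (.const _))
      (.of_mg fun _ => .const _), slE_add (.of_mg fun _ => m2 t) (.of_mg fun _ => .const _),
      slE_fun, slE_fun, hv.mean_const, hv.mean_const]
    have := kl_chan_le (φ := sv) pb' ht
    gcongr
  have pt : ∀ t y, Pr (post sv v t y) (pP S sS (h + y) fun x => G x + -(t / 2 * n)) := fun t y =>
    post_pP (G := G) t y ▸ p.post sv t t y y
  have st := stage_const (R := (1 : Matrix (Fin n) (Fin n) ℝ)) (m := 1) (m' := 1) (k := κ) (lam := lam)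
    (B := 20 * mean v (fun x => Gh x ^ 2) + 10 ^ 14 * e * (kl v (pb h) + L ^ 2 + 1)) p
    (fun i => by simp [one_apply]) (fun u => by simp) zero_le_one (by nlinarith) a0 hκ (by nlinarith)
    T0.le fun t ht => by
      rw [fR_one]
      refine le_trans (slE_mono hv (.of_mg fun _ => (eg_ep2 (I := univ) hv p.hw).mg (mem_univ t))
        (.of_mg fun _ => ((m1 t).const_mul _).add ((((m2 t).add (.const _)).add (.const _)).const_mul _))
        fun _ y => ?_) (key t ht.1 20 (10 ^ 14 * e) (by positivity))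
      rw [post_pP, ← kl_pb]
      exact ep_prod (c.add _) (by linarith) (pt t y)
  rw [fR_one] at st
  have mw : MG fun y => mean (post sv v T y) (wE (fun j => tanh ((h + y) j)) O) :=
    mg_mean hv T fun x => .sum _ fun j _ => (mg_sech (h j) j).mul (.const _)
  have mr := ((m1 T).const_mul (105 / κ)).add
    ((((m2 T).add (.const (L ^ 2))).add (.const 1)).const_mul (10 ^ 8 * e / κ ^ 3))
  have lo := slE_mono (φ := sv) (s := T) hv (.of_mg fun _ => ((mw.const_mul (105 / κ)).add mr).neg)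
    (.of_mg fun _ => ((((eg_Ar (φ := sv) (Metric.isBounded_Icc T T) p off_o1).const_mul lam).sub
      ((eg_kl (Metric.isBounded_Icc T T) p).const_mul a)).mg (left_mem_Icc.2 le_rfl))) fun _ y => by
      have u := untilt2 (c.add _) e0 hκe hκ1 (pt T y)
      have z1 := (pt T y).Ar_nonneg (r := o1) fun _ _ => zero_le_one
      have z2 := (pt T y).kl_nonneg
      have z3 := (pt T y).hv.mean_nonneg
        (wE_nonneg (q := fun j => tanh ((h + y) j)) (fun _ => (abs_tanh_lt_one _).le) O)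
      have z4 := (pt T y).hv.mean_nonneg fun x => sq_nonneg (Gh x)
      have z5 := (S1n.pr_of (prod_pb (h + y)).pos (pt T y).hv).kl_nonneg
      simp only [pw]
      rw [post_pP, ← kl_pb]
      have z6 : 0 ≤ 105 / κ * (mean (post sv v T y) (wE (fun j => tanh ((h + y) j)) O) +
          mean (post sv v T y) fun x => Gh x ^ 2) +
          10 ^ 8 * e / κ ^ 3 * (kl (post sv v T y) (pb (h + y)) + L ^ 2 + 1) := by positivity
      nlinarith [mul_le_mul_of_nonneg_left u a0, mul_le_mul_of_nonneg_right ha z1,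
        mul_le_mul_of_nonneg_right a1 z6]
  rw [slE_neg, slE_add (.of_mg fun _ => mw.const_mul _) (.of_mg fun _ => mr), slE_const_mul] at lo
  have w1 := slE_wE (h := h) hv T0 c.nr
  have w2 := key T T0.le (105 / κ) (10 ^ 8 * e / κ ^ 3) (by positivity)
  have w3 := mul_le_mul_of_nonneg_left w1 (show 0 ≤ 105 / κ by positivity)
  simp only [pw] at lo
  set Y := kl v (pb h) + L ^ 2 + 1
  set X := mean v fun x => Gh x ^ 2
  have Y0 : 0 ≤ e * Y := by positivity
  set t := 1 / κ with ht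
  have t2 : 2 ≤ t := by rw [ht, le_div_iff₀ hκ]; linarith
  have f1 : a * 1 / 2 * (1 + t) ≤ t := by nlinarith
  have f2 := mul_le_mul_of_nonneg_right f1 (show 0 ≤ T * (20 * X + 10 ^ 14 * e * Y) by positivity)
  have f3 : t * (T * (e * Y)) ≤ t ^ 3 * (T * (e * Y)) :=
    mul_le_mul_of_nonneg_right (le_self_pow₀ (by linarith) three_ne_zero) (by positivity)
  have f4 : t ^ 3 * (e * Y) ≤ t ^ 3 * (T * (e * Y)) :=
    mul_le_mul_of_nonneg_left (le_mul_of_one_le_left Y0 hT) (by positivity)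
  have f5 : t * X ≤ t * (T * X) := mul_le_mul_of_nonneg_left (le_mul_of_one_le_left g0 hT) (by positivity)
  have f6 : 0 ≤ t ^ 3 * (T * (e * Y)) := by positivity
  have e1 : 210 / (κ * √T) * L ^ 2 = 105 / κ * (2 / √T * L ^ 2) := by ring
  have e2 : 125 * T / κ * X = 125 * (t * (T * X)) := by rw [ht]; ring
  have e3 : 2 * 10 ^ 14 * e * T / κ ^ 3 * Y = 2 * 10 ^ 14 * (t ^ 3 * (T * (e * Y))) := by
    rw [ht]; ring
  have e4 : 105 / κ * X = 105 * (t * X) := by rw [ht]; ring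
  have e5 : 10 ^ 8 * e / κ ^ 3 * Y = 10 ^ 8 * (t ^ 3 * (e * Y)) := by rw [ht]; ring
  rw [e4, e5] at w2
  rw [e1, e2, e3]
  nlinarith

end Crest.Agent.T157.EnS
end
end

-- ▼ part T157/EnUtS_38
section

/-!
# Row 157, block B, S1, END: the leaf UT (helper38)
-/

set_option autoImplicit false

noncomputable section

namespace Crest.Agent.T157.En

open Real Matrix
open Crest.Agent.T157.E Crest.Agent.T157.SL Crest.Agent.T157.Ta
open Crest.Agent.T157.EnS (o1 pb wE prod_pb cm_exp untilt wE_nonneg)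
open Crest.Agent.T157.Rec (grad)
open Crest.Agent.T157.Eig (nrm opn)
open Crest.Agent.T157.S3 (V Mx hf Dg)

namespace Ut38

theorem arith {K A X Y e L κ a l : ℝ} (hK : 0 ≤ K) (hA : 0 ≤ A) (hX : 0 ≤ X) (he : 0 < e)
    (hκ : 0 < κ) (hκ1 : κ ≤ 1 / 2) (hC : 10 ^ 11 * e ≤ κ ^ 2) (a0 : 0 ≤ a) (a1 : a ≤ 1)
    (hl : a + κ ≤ l) (hY : Y = (√e * (L + 1)) ^ 2)
    (h : K ≤ (1 + 4 * (κ / 8)) * A + 105 / (κ / 8) * X + 72 / (κ / 8) * Y +
      186624 / (κ / 8) * (65 * e) * (K + (2 * L) ^ 2 / (κ / 8) ^ 2 + 1)) :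
    a * K ≤ l * A + 10 ^ 11 / κ * X + 10 ^ 11 * e / κ ^ 3 * (L ^ 2 + 1) := by
  obtain ⟨t, ht⟩ : ∃ t, t = 1 / κ := ⟨_, rfl⟩
  have t2 : 2 ≤ t := by rw [ht, le_div_iff₀ hκ]; linarith
  have e1 : κ * t = 1 := by rw [ht]; field_simp
  rw [mul_pow, sq_sqrt he.le] at hY
  have r1 : 105 / (κ / 8) * X = 840 * (t * X) := by rw [ht]; field_simp; ring
  have r2 : 72 / (κ / 8) * Y = 576 * (t * e * (L + 1) ^ 2) := by rw [ht, hY]; field_simp; ring
  have r3 : 186624 / (κ / 8) * (65 * e) * (K + (2 * L) ^ 2 / (κ / 8) ^ 2 + 1) =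
      97044480 * (t * e * K) + 97044480 * (256 * (t ^ 3 * e * L ^ 2) + t * e) := by
    rw [ht]; field_simp; ring
  have r4 : 10 ^ 11 / κ * X = 10 ^ 11 * (t * X) := by rw [ht]; ring
  have r5 : 10 ^ 11 * e / κ ^ 3 * (L ^ 2 + 1) = 10 ^ 11 * (t ^ 3 * e * L ^ 2 + t ^ 3 * e) := by
    rw [ht]; ring
  rw [r1, r2, r3] at h
  rw [r4, r5]
  have t3 : t ≤ t ^ 3 := le_self_pow₀ (by linarith) three_ne_zero
  have s1 : 10 ^ 11 * (t * e) ≤ κ := by
    have := mul_le_mul_of_nonneg_left hC (show 0 ≤ t by linarith)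
    calc 10 ^ 11 * (t * e) = t * (10 ^ 11 * e) := by ring
      _ ≤ t * κ ^ 2 := this
      _ = κ * t * κ := by ring
      _ = κ := by rw [e1, one_mul]
  have s2 : 10 ^ 11 * (t * e * K) ≤ κ * K := by
    have := mul_le_mul_of_nonneg_right s1 hK
    linarith
  have s3 : t * e ≤ t ^ 3 * e := mul_le_mul_of_nonneg_right t3 he.le
  have s4 : t * e * (L + 1) ^ 2 ≤ 2 * (t ^ 3 * e * L ^ 2 + t ^ 3 * e) := by
    have : t * e * (L + 1) ^ 2 ≤ t ^ 3 * e * (2 * (L ^ 2 + 1)) :=
      mul_le_mul s3 (by nlinarith [sq_nonneg (L - 1)]) (sq_nonneg _) (by positivity)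
    linarith
  have p1 : 0 ≤ t * X := by positivity
  have p2 : 0 ≤ t ^ 3 * e * L ^ 2 := by positivity
  have p3 : 0 ≤ t ^ 3 * e := by positivity
  have p4 : 0 ≤ κ * K := by positivity
  have p5 : 0 ≤ κ * A := by positivity
  obtain ⟨R, hR⟩ : ∃ R, R = 10 ^ 11 * (t * X) + 10 ^ 11 * (t ^ 3 * e * L ^ 2 + t ^ 3 * e) := ⟨_, rfl⟩
  have R0 : 0 ≤ R := by rw [hR]; positivity
  have c1 : (1 - κ / 8) * K ≤ (1 + κ / 2) * A + R / 2 := by linarith
  have c2 : K ≤ (1 + κ) * A + R := by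
    refine le_of_mul_le_mul_left (c1.trans ?_) (show 0 < 1 - κ / 8 by linarith)
    have q1 := mul_le_mul_of_nonneg_right hκ1 p5
    have q2 := mul_le_mul_of_nonneg_right hκ1 R0
    linarith
  have c3 := mul_le_mul_of_nonneg_left c2 a0
  have c4 := mul_le_mul_of_nonneg_right a1 R0
  have c5 := mul_le_mul_of_nonneg_right a1 p5
  have c6 := mul_le_mul_of_nonneg_right hl hA
  linarith

end Ut38

/-- **UT** -/
theorem utStmt : UtStmt := by
  refine ⟨10 ^ 11, by norm_num, fun n Θ G Ω xs e L r a θ m κ l c he hκ hκ1 hC a0 a1 hl h v w Λ hv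
    ⟨b, hw⟩ _ => ?_⟩
  have L0 := c.L0
  have s0 := sqrt_pos.2 he
  have e1 : e ≤ 1 := by nlinarith
  have ew : w = wt (pb h) fun x => Θ x + b := by
    ext x; simp [hw x, wt, pb, ising]
  have eg : grad (fun x => Θ x + b) = grad Θ := by
    ext x j; simp [grad, incr]
  have hd : (4 * e + 4 * e * L / (√e * (L + 1))) ^ 2 + √e ^ 2 ≤ 65 * e := by
    have a1 : e ≤ √e := le_sqrt_of_sq_le (by nlinarith)
    have a2 : 4 * e * L / (√e * (L + 1)) ≤ 4 * √e := by
      rw [div_le_iff₀ (by positivity)]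
      nlinarith [mul_self_sqrt he.le]
    have a3 : 0 ≤ 4 * e * L / (√e * (L + 1)) := by positivity
    nlinarith [mul_self_sqrt he.le, pow_le_pow_left₀ (by positivity)
      (show 4 * e + 4 * e * L / (√e * (L + 1)) ≤ 8 * √e by linarith) 2]
  have u := untilt (G := fun x => Θ x + b) (κ := κ / 8) (prod_pb h) hv (by positivity) (by linarith)
    (q := fun j => tanh (h j)) (fun j x => by
      rw [show pb h = fun x => exp (h ⬝ᵥ sv x) from rfl, cm_exp, Rec.grad_lin])
    (O := Ω) (Gh := G) (e := e) (h := L) (ρ := √e * (L + 1)) (a := √e) (L := 2 * L) (d := 65 * e)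
    (by nlinarith) (fun x j => (norm_le_pi_norm (Ω x) j).trans (c.rg x).1) (by positivity)
    (fun x => (c.rg x).2.1) (fun x => S3.Rg.fro_le_of_sq L0 (c.rg x).2.2.2)
    (Xt.lip2_of_grad (eg ▸ c.gr)) (fun x => by
      have := pow_le_pow_left₀ (Eig.nrm_nonneg _) (c.ex x) 2
      rwa [S3.Rg.nrm_sq', ← eg] at this)
    (fun x => le_sqrt_of_sq_le (by rw [S3.Rg.nrm_sq']; exact c.ts x)) hd
  rw [← ew] at u
  have p : Pr v w := ew ▸ (S1n.pr_of (prod_pb h).pos hv).wt _
  have ef : F1 0 h Ω = wE (fun j => tanh (h j)) Ω := by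
    ext x; simp [F1, wE, Dg, hf, dotProduct, sq]
  have z := Ut38.arith p.kl_nonneg (p.Ar_nonneg (r := o1) fun _ _ => zero_le_one)
    (add_nonneg (hv.mean_nonneg (wE_nonneg (fun _ => (abs_tanh_lt_one _).le) Ω))
      (hv.mean_nonneg fun x => sq_nonneg (G x))) he hκ hκ1 hC a0 a1 hl rfl u
  simp only [ef, Ex, zero_mul, add_zero]
  linarith

end Crest.Agent.T157.En

end
end

-- ▼ part T157/EnCore_40
section

/-!
# Row 157, block B, S1: the END (helper40), three stages and the untilt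
-/

set_option autoImplicit false

noncomputable section

namespace Crest.Agent.T157.En

open MeasureTheory Real Matrix Finset Filter Set
open Crest.Agent.T157.E Crest.Agent.T157.SL
open Crest.Agent.T157.Ta (Pr Ar Cnt Dm)
open Crest.Agent.T157.EnS (o1 ep)
open Crest.Agent.T157.Eig (nrm opn)
open Crest.Agent.T157.S3 (V Mx)

namespace Core40

variable {n : ℕ} {W W' : Mx n} {c c' ω ω' s s' m : ℝ}

theorem smul (h : Blk W c ω s m) {a : ℝ} (ha : |a| ≤ 1) :
    Blk (a • W) c ω s m := by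
  refine ⟨by rw [transpose_smul, h.symm], fun i => by simp [h.diag], ?_, fun v hv => ?_,
    fun u v hu hv => ?_⟩
  · rw [Eig.opn_smul]
    exact (mul_le_of_le_one_left (Eig.opn_nonneg _) ha).trans h.op
  · rw [smul_mulVec, Eig.nrm_smul]
    exact (mul_le_of_le_one_left (Eig.nrm_nonneg _) ha).trans (h.col v hv)
  · rw [smul_mulVec, dotProduct_smul, smul_eq_mul, abs_mul]
    exact (mul_le_of_le_one_left (abs_nonneg _) ha).trans (h.blk u v hu hv)

theorem add (h : Blk W c ω s m) (h' : Blk W' c' ω' s' m) :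
    Blk (W + W') (c + c') (ω + ω') (s + s') m := by
  refine ⟨by rw [transpose_add, h.symm, h'.symm], fun i => by simp [h.diag, h'.diag],
    (Eig.opn_add_le _ _).trans (add_le_add h.op h'.op), fun v hv => ?_, fun u v hu hv => ?_⟩
  · rw [add_mulVec, add_mul]
    exact (Eig.nrm_add_le _ _).trans (add_le_add (h.col v hv) (h'.col v hv))
  · rw [add_mulVec, dotProduct_add, add_mul]
    exact (abs_add_le _ _).trans (add_le_add (h.blk u v hu hv) (h'.blk u v hu hv))

theorem zero : Blk (0 : Mx n) 0 0 0 m :=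
  ⟨transpose_zero, fun _ => rfl, by simp, fun v _ => by simp, fun u v _ _ => by simp⟩

theorem ib_mono {a a' b b' : ℝ} (ha : a' ≤ a) (hb : b ≤ b') : ib a b ≤ ib a' b' := by
  unfold ib; split_ifs with h1 h2 <;> norm_num
  exact h2 (by linarith)

theorem Bf_mono {v w : Cube n → ℝ} (hv : Wt v) (Λ : ℝ) (W : Mx n) (h : V n) {θ θ' m m' : ℝ}
    (h1 : θ ≤ θ') (h2 : m' ≤ m) (xs : Cube n) (r : ℝ) :
    Bf v w Λ W h θ m xs r ≤ Bf v w Λ W h θ' m' xs r := by
  refine add_le_add (hv.mean_mono fun x => add_le_add (ib_mono h2 ?_) le_rfl) le_rfl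
  refine Nat.cast_le.2 (card_le_card fun j hj => ?_)
  exact mem_filter.2 ⟨(mem_filter.1 hj).1, (mem_filter.1 hj).2.trans_le h1⟩

theorem Bf_nonneg {v w : Cube n → ℝ} (hv : Wt v) (hw : ∀ x, 0 < w x) {Λ : ℝ}
    (hΛ : ∀ x, v x ≤ Λ * w x) (W : Mx n) (h : V n) (θ m : ℝ) (xs : Cube n) (r : ℝ) :
    0 ≤ Bf v w Λ W h θ m xs r := by
  have l0 : 0 ≤ Λ := nonneg_of_mul_nonneg_left ((hv.nn default).trans (hΛ default)) (hw default)
  exact add_nonneg (hv.mean_nonneg fun x => add_nonneg (End40.ib_nonneg _ _) (End40.ib_nonneg _ _))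
    (div_nonneg (mul_nonneg l0 (sum_nonneg fun x _ => mul_nonneg (hw x).le (End40.ib_nonneg _ _)))
      hv.pos.le)

theorem ex_le {B b c0 φ A M M' x y : ℝ} (hb : b ≤ B) (b0 : 0 ≤ b) (c00 : 0 < c0) (f0 : 0 < φ)
    (A1 : 1 ≤ A) (M0 : 0 < M) (hM : M ≤ M') (x0 : 0 < x) (hy : φ * x ≤ y)
    (h : B * x ^ 12 * exp (-(c0 * φ ^ 2 / M' * x)) ≤ 1) :
    b * x ^ 12 * exp (-(c0 * (y * A) ^ 2 / (M * x))) ≤ 1 := by
  refine le_trans (mul_le_mul (mul_le_mul_of_nonneg_right hb (by positivity))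
    (exp_le_exp.2 (neg_le_neg ?_)) (exp_pos _).le (mul_nonneg (b0.trans hb) (by positivity))) h
  have y0 : 0 < y := (mul_pos f0 x0).trans_le hy
  have h1 : (φ * x) ^ 2 ≤ (y * A) ^ 2 :=
    pow_le_pow_left₀ (by positivity) (hy.trans (le_mul_of_one_le_right y0.le A1)) 2
  calc c0 * φ ^ 2 / M' * x = c0 * (φ * x) ^ 2 / (M' * x) := by
        have := M0.trans_le hM
        field_simp
    _ ≤ _ := by gcongr

theorem st {a κ c1 M l' : ℝ} (a0 : 0 ≤ a) (a1 : a ≤ 1) (k0 : 0 < κ) (k1 : κ ≤ 1) (M0 : 0 < M)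
    (c10 : 0 ≤ c1) (h1 : 16 * c1 ≤ κ * M) (h2 : a + κ / 4 ≤ l') :
    a * (M + c1) * (1 + κ / 16) ≤ l' * M := by
  have u1 : (M + c1) * (1 + κ / 16) ≤ M + κ / 4 * M := by
    nlinarith [mul_le_mul_of_nonneg_right k1 c10, mul_pos k0 M0]
  have u2 := mul_le_mul_of_nonneg_left u1 a0
  nlinarith [mul_le_mul_of_nonneg_right h2 M0.le,
    mul_le_mul_of_nonneg_right a1 (show 0 ≤ κ / 4 * M by positivity)]

theorem geos {J Q : Mx n} {q A : ℝ} {m : ℕ} (bJ : Blk J 3 3 s (50 * m)) (bQ : Blk Q q s s (50 * m))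
    (q1 : 1 ≤ q) (m1 : 1 ≤ m) (s0 : 0 ≤ s) (s1 : s ≤ 1 / 20000) (A1 : 48 ≤ A)
    (nA : n * exp (-(2 * A)) ≤ m) (hc : (q + 7) * exp (-A) ≤ s) : Blk (-Q) q s s (50 * m) ∧
    (∀ t ∈ Icc (0 : ℝ) 1, Geo ((1 - t) • J + -Q) (3 + q) (3 + s) (s + s) A m) ∧
    (∀ t ∈ Icc (0 : ℝ) 1, Geo ((1 - t) • -Q + 0) q s s A m) ∧
    ∀ t ∈ Icc (0 : ℝ) 1, Geo ((1 - t) • (0 : Mx n) + 0) 0 0 0 A m := by
  have t1 : ∀ t ∈ Icc (0 : ℝ) 1, |1 - t| ≤ 1 := fun t ht =>
    abs_le.2 ⟨by linarith [ht.2], by linarith [ht.1]⟩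
  have bN : Blk (-Q) q s s (50 * m) := by simpa using smul bQ (a := -1) (by simp)
  have x1 := mul_le_mul_of_nonneg_right s1 (exp_pos (-A)).le
  have x0 := exp_pos (-A)
  exact ⟨bN, fun t ht => ⟨add (smul bJ (t1 t ht)) bN, m1, by linarith, by linarith, by linarith,
      by linarith, by linarith, by linarith, by linarith, nA, by linarith⟩,
    fun t ht => ⟨by rw [add_zero]; exact smul bN (t1 t ht), m1, by linarith, s0, by linarith,
      s0, by linarith, by linarith, by linarith, nA, by linarith⟩,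
    fun t _ => ⟨by rw [add_zero, smul_zero]; exact zero, m1, le_rfl, le_rfl, by norm_num,
      le_rfl, by norm_num, by linarith, by linarith, nA, by simp⟩⟩

/-- the constants -/
theorem cst {Ce Cs κ i q C1 s A β1 β2 : ℝ} (ce1 : 1 ≤ Ce) (cs1 : 1 ≤ Cs) (k0 : 0 < κ) (ki : κ * i = 1)
    (i1 : 1 ≤ i) (q1 : 1 ≤ q) (hC : C1 = 400000000 * ((Ce + Cs) * i ^ 3)) (hA : C1 ≤ A) (s0 : 0 ≤ s)
    (hs : C1 * q * s ^ 2 ≤ 1) (h1 : β1 = Cs * (48 * i) * (1 + 16 * i))
    (h2 : β2 = Cs * (16 * q * i) * (1 + 16 * i)) : s ≤ 1 / 20000 ∧ 48 ≤ A ∧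
    β1 * ((s + s) ^ 2 + (3 + s) ^ 2 / A) ≤ κ / 16 ∧ β2 * (s ^ 2 + s ^ 2 / A) ≤ κ / 16 ∧
    Ce * ((s + s) ^ 2 + (3 + s) ^ 2 / A) ≤ 1 / 2 ∧
    β2 * s ^ 2 + β1 * (s + s) ^ 2 + Ce * (s + s) ^ 2 ≤ C1 * q * s ^ 2 := by
  have i2 : i ≤ i ^ 2 := by nlinarith
  have i3 : i ^ 2 ≤ i ^ 3 := by nlinarith
  have e1 : Ce ≤ Ce * i ^ 3 := le_mul_of_one_le_right (by linarith) (by linarith)
  have e2 : Cs * i ^ 2 ≤ Cs * i ^ 3 := mul_le_mul_of_nonneg_left i3 (by linarith)
  have e3 : Cs ≤ Cs * i ^ 2 := le_mul_of_one_le_right (by linarith) (by linarith)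
  have c1 : 400000000 ≤ C1 := by rw [hC]; linarith
  have b1 : β1 ≤ 816 * (Cs * i ^ 2) := by
    rw [h1]; nlinarith [mul_le_mul_of_nonneg_left i2 (show 0 ≤ Cs by linarith)]
  have b2 : β2 ≤ 272 * (Cs * i ^ 2) * q := by
    rw [h2]; nlinarith [mul_le_mul_of_nonneg_left i2 (show 0 ≤ Cs * q by positivity)]
  have s2 := sq_nonneg s
  have ss : C1 * s ^ 2 ≤ 1 := by
    nlinarith [mul_le_mul_of_nonneg_left q1 (show 0 ≤ C1 * s ^ 2 by positivity)]
  have s1 : s ≤ 1 / 20000 := by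
    refine (pow_le_pow_iff_left₀ s0 (by norm_num) two_ne_zero).1 ?_
    nlinarith [mul_le_mul_of_nonneg_right c1 s2]
  have A0 : 0 < A := by linarith
  have x0 : 0 ≤ (s + s) ^ 2 + (3 + s) ^ 2 / A := by positivity
  have x1 : C1 * ((s + s) ^ 2 + (3 + s) ^ 2 / A) ≤ 20 := by
    have : C1 * ((3 + s) ^ 2 / A) ≤ 16 := by
      rw [← mul_div_assoc, div_le_iff₀ A0]
      nlinarith [mul_le_mul_of_nonneg_left (show (3 + s) ^ 2 ≤ 16 by nlinarith)
        (show 0 ≤ C1 by linarith)]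
    nlinarith
  have x2 : s ^ 2 / A ≤ s ^ 2 := div_le_self s2 (by linarith)
  have k1 : 400000000 * (Cs * i ^ 2) ≤ κ * C1 := by
    have : κ * (Cs * i ^ 3) = Cs * i ^ 2 := by linear_combination Cs * i ^ 2 * ki
    have := mul_nonneg k0.le (show 0 ≤ Ce * i ^ 3 by linarith)
    rw [hC]; linarith
  have k2 : 400000000 * Ce ≤ C1 := by rw [hC]; linarith
  have k3 : 400000000 * (Cs * i ^ 2) + 400000000 * Ce ≤ C1 := by rw [hC]; linarith
  refine ⟨s1, by linarith, ?_, ?_, ?_, ?_⟩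
  · linarith only [mul_le_mul_of_nonneg_right b1 x0, mul_le_mul_of_nonneg_right k1 x0,
      mul_le_mul_of_nonneg_left x1 k0.le, k0]
  · have y0 : 0 ≤ q * s ^ 2 := by positivity
    have y1 := mul_le_mul b2 (show s ^ 2 + s ^ 2 / A ≤ 2 * s ^ 2 by linarith) (by positivity)
      (by positivity)
    linarith only [mul_le_mul_of_nonneg_right k1 y0, mul_le_mul_of_nonneg_left hs k0.le, y1, k0]
  · linarith only [mul_le_mul_of_nonneg_right k2 x0, x1]
  · have y0 : 0 ≤ q * s ^ 2 := by positivity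
    have y2 : s ^ 2 ≤ q * s ^ 2 := le_mul_of_one_le_left s2 q1
    have z0 : 0 ≤ Cs * i ^ 2 := by positivity
    linarith only [mul_le_mul_of_nonneg_right k3 y0, mul_le_mul_of_nonneg_right b1 s2,
      mul_le_mul_of_nonneg_right b2 s2, mul_le_mul_of_nonneg_left y2 z0,
      mul_le_mul_of_nonneg_left y2 (show 0 ≤ Ce by linarith), mul_nonneg z0 y0,
      mul_nonneg (show 0 ≤ Ce by linarith) y0]

/-- the last inequality -/
theorem fin {κ γ a l Ce Cs β1 β2 β3 ε gF gE X1 X2 s2 s4 u L2 x1 x2 x3 N b8 b2 Aa H En Xx Ep Xc D : ℝ}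
    (k0 : 0 < κ) (k1 : κ ≤ 1) (γ0 : 0 < γ) (hl : a + κ ≤ l) (ce : 1 ≤ Ce) (cs : 1 ≤ Cs) (b1 : 0 ≤ β1)
    (b2' : 0 ≤ β2) (b3 : 0 ≤ β3) (ε0 : 0 < ε) (g0 : 0 ≤ gF) (εκ : (β1 + β2 + β3 + Ce + Cs) * ε ≤ κ / 16)
    (εγ : (β1 + β2 + β3 + Ce + Cs) * ε ≤ γ / 16) (h1 : β1 * X1 ≤ κ / 16) (h2 : β2 * X2 ≤ κ / 16)
    (h3 : Ce * X1 ≤ 1 / 2) (s40 : 0 ≤ s4) (h4 : β2 * s2 + β1 * s4 + Ce * s4 ≤ gE) (hu : u ≤ γ / 8)
    (L0 : 0 ≤ L2) (y1 : β3 * N * x3 ≤ 1) (y2 : (β3 + β2) * N * x2 ≤ 1)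
    (y3 : (β3 + β2 + β1) * N * x1 ≤ 1) (N0 : 0 ≤ N) (z0 : 0 ≤ b8) (mo : b2 ≤ b8) (z1 : 0 ≤ Aa)
    (z2 : 0 ≤ En) (z3 : 0 ≤ Xx) (d1 : D ≤ (1 + 1) * Xc + (1 + 1 / 1) * Ep) (d2 : Xc ≤ 2 * Aa)
    (E : Ep ≤ Ce * ((X1 + ε) * Aa + s4 * En + Xx + ε * L2 + 1 + N * b2))
    (F : 0 ≤ (a + κ / 4 + β3 * ε + β2 * (X2 + ε) + β1 * (X1 + ε)) * Aa - a * H +
      (β2 * s2 + β1 * s4) * En + (gF + β3 + β2 + β1) * Xx +
      (u * (L2 + 1) + γ / 4 * L2 + β3 * (ε * L2 + 1) + β3 * N * x3 + β2 * (ε * L2 + 1) +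
        (β3 + β2) * N * x2 + β1 * (ε * L2 + 1) + (β3 + β2 + β1) * N * x1) +
      (β3 + β2 + β1) * (N * b8)) :
    κ / 16 * D - (gF + (β1 + β2 + β3 + Ce + Cs) + γ + 3) ≤ l * Aa - a * H + gE * En +
      (gF + (β1 + β2 + β3 + Ce + Cs) + γ + 3) * Xx + γ * L2 +
      (gF + (β1 + β2 + β3 + Ce + Cs) + γ + 3) * N * b8 := by
  have p1 := mul_nonneg b1 ε0.le
  have p2 := mul_nonneg b2' ε0.le
  have p3 := mul_nonneg b3 ε0.le
  have p4 := mul_nonneg (show 0 ≤ Ce by linarith) ε0.le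
  have p5 := mul_nonneg (show 0 ≤ Cs by linarith) ε0.le
  have nb := mul_nonneg N0 z0
  have r0 := mul_nonneg (show 0 ≤ Ce by linarith) (mul_nonneg s40 z2)
  have r1 := mul_nonneg (show 0 ≤ Ce by linarith) z3
  have r2 := mul_nonneg p4 L0
  have r3 := mul_nonneg (show 0 ≤ Ce by linarith) nb
  have E1 : Ep ≤ Aa + (Ce * (s4 * En) + Ce * Xx + Ce * ε * L2 + Ce + Ce * (N * b8)) := by
    have := mul_le_mul_of_nonneg_right (show Ce * (X1 + ε) ≤ 1 by linarith) z1
    have := mul_le_mul_of_nonneg_left (mul_le_mul_of_nonneg_left mo N0) (show 0 ≤ Ce by linarith)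
    linarith
  have E2 : κ / 16 * D ≤ 3 * κ / 8 * Aa +
      (Ce * (s4 * En) + Ce * Xx + Ce * ε * L2 + Ce + Ce * (N * b8)) := by
    have t0 : 0 ≤ Ce * (s4 * En) + Ce * Xx + Ce * ε * L2 + Ce + Ce * (N * b8) := by linarith
    have t1 := mul_le_mul_of_nonneg_left (show D ≤ 6 * Aa + 2 * (Ce * (s4 * En) + Ce * Xx +
      Ce * ε * L2 + Ce + Ce * (N * b8)) by linarith) (show 0 ≤ κ / 16 by linarith)
    have t2 := mul_le_mul_of_nonneg_right k1 t0
    linarith
  have u1 := mul_le_mul_of_nonneg_right (show a + κ / 4 + β3 * ε + β2 * (X2 + ε) + β1 * (X1 + ε) +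
    3 * κ / 8 ≤ l by linarith) z1
  have u2 := mul_le_mul_of_nonneg_right h4 z2
  have u3 := mul_le_mul_of_nonneg_right εγ L0
  have u4 := mul_le_mul_of_nonneg_right hu (show 0 ≤ L2 + 1 by linarith)
  have u5 := mul_nonneg (show 0 ≤ Cs + γ + 3 by linarith) z3
  have u6 := mul_nonneg (show 0 ≤ gF + Cs + γ + 3 by linarith) nb
  have u7 := mul_nonneg p5 L0
  have u8 := mul_nonneg γ0.le L0
  linarith

end Core40

open Core40

theorem coreGlue40 : CoreGlue := fun ⟨Ce, ce1, hE⟩ ⟨Cs, cs1, c0, c00, hS⟩ ⟨Cu, cu1, hU⟩ κ ⟨k0, k1⟩ => by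
  obtain ⟨i, hi⟩ : ∃ i : ℝ, i = 1 / κ := ⟨_, rfl⟩
  have ki : κ * i = 1 := by rw [hi]; field_simp
  have i1 : 1 ≤ i := by rw [hi, le_div_iff₀ k0]; linarith
  obtain ⟨C1, hC1⟩ : ∃ C1 : ℝ, C1 = 400000000 * ((Ce + Cs) * i ^ 3) := ⟨_, rfl⟩
  refine ⟨C1, ?_, fun q q1 γ γ0 => ?_⟩
  · have := one_le_mul_of_one_le_of_one_le (show 1 ≤ Ce + Cs by linarith) (one_le_pow₀ (n := 3) i1)
    linarith
  have ik : 1 + 1 / (κ / 16) = 1 + 16 * i := by rw [hi]; field_simp
  obtain ⟨gF, hgF⟩ : ∃ gF : ℝ, gF = Cu / (κ / 4) := ⟨_, rfl⟩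
  have gF0 : 0 < gF := by rw [hgF]; positivity
  obtain ⟨M3, hM3⟩ : ∃ M3 : ℝ, M3 = (8 * gF / γ) ^ 2 := ⟨_, rfl⟩
  have M30 : 0 < M3 := by rw [hM3]; positivity
  have sM : gF * (2 / √M3) = γ / 4 := by
    rw [hM3, sqrt_sq (by positivity)]; field_simp; norm_num
  obtain ⟨β1, h1⟩ : ∃ β : ℝ, β = Cs * (48 * i) * (1 + 1 / (κ / 16)) := ⟨_, rfl⟩
  obtain ⟨β2, h2⟩ : ∃ β : ℝ, β = Cs * (16 * q * i) * (1 + 1 / (κ / 16)) := ⟨_, rfl⟩
  obtain ⟨β3, h3⟩ : ∃ β : ℝ, β = Cs * M3 * (1 + 1 / (κ / 16)) := ⟨_, rfl⟩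
  have b10 : 0 ≤ β1 := by rw [h1]; positivity
  have b20 : 0 ≤ β2 := by rw [h2]; positivity
  have b30 : 0 ≤ β3 := by rw [h3]; positivity
  obtain ⟨B, hB⟩ : ∃ B : ℝ, B = β1 + β2 + β3 + Ce + Cs := ⟨_, rfl⟩
  have B0 : 0 < B := by linarith
  obtain ⟨ε, hε⟩ : ∃ ε : ℝ, ε = min κ γ / (16 * B) := ⟨_, rfl⟩
  have ε0 : 0 < ε := by rw [hε]; positivity
  have εB : B * ε = min κ γ / 16 := by rw [hε]; field_simp
  have εκ : B * ε ≤ κ / 16 := by rw [εB]; linarith [min_le_left κ γ]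
  have εγ : B * ε ≤ γ / 16 := by rw [εB]; linarith [min_le_right κ γ]
  have εe : Ce * ε ≤ 1 := by
    linarith [mul_le_mul_of_nonneg_right (show Ce ≤ B by linarith) ε0.le]
  have εs : Cs * ε ≤ 1 := by
    linarith [mul_le_mul_of_nonneg_right (show Cs ≤ B by linarith) ε0.le]
  have qi : q ≤ 16 * q * i := by nlinarith only [q1, i1]
  have kq : 16 * q ≤ κ * (16 * q * i) := le_of_eq (by linear_combination (-16 * q) * ki)
  have k3 : 16 * 3 ≤ κ * (48 * i) := le_of_eq (by linear_combination (-48) * ki)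
  have k16 : 0 < κ / 16 := by positivity
  have k4 : 0 < κ / 4 := by positivity
  have M1 : 0 < 48 * i := by linarith
  have M2 : 0 < 16 * q * i := by linarith
  have B1 : β3 ≤ B := by linarith
  have B2 : β3 + β2 ≤ B := by linarith
  have B3 : β3 + β2 + β1 ≤ B := by linarith
  refine ⟨min ((ε / (4 + q) ^ 2) ^ 2) (min (κ ^ 2 / 16) (γ * κ ^ 3 / 512) / Cu), by positivity,
    gF + B + γ + 3, by linarith, fun A hA φ f0 => ?_⟩
  filter_upwards [End40.ev_poly 1 f0, End40.ev_poly B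
    (show 0 < c0 * φ ^ 2 / (48 * i + 16 * q * i + M3) by positivity), eventually_ge_atTop 1]
    with n v1 v2 n1 J Q h v w Θ G Ω xs s e L Λ a l m1 bJ bQ s0 hcA hs hm nA hL hLn e0 he hc hv hw hΛ
      a0 hl l1
  obtain ⟨s1, A48, w1, w2, w3, w4⟩ := cst ce1 cs1 k0 ki i1 q1 hC1 hA s0 hs (ik ▸ h1) (ik ▸ h2)
  have n0 : (0 : ℝ) < n := by exact_mod_cast n1
  have A1 : 1 ≤ A := by linarith only [A48]
  have A0 : 0 < A := by linarith only [A48]
  have m0 : (0 : ℝ) < m1 := (mul_pos f0 n0).trans_le hm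
  have c7 : ((7 * m1 : ℕ) : ℝ) = 7 * m1 := by push_cast; ring
  have m7 : 1 ≤ 7 * m1 := by
    have : 0 < m1 := by exact_mod_cast m0
    omega
  have n12 : (n : ℝ) ^ 12 ≤ exp ((7 * m1 : ℕ) : ℝ) := by
    rw [one_mul, exp_neg, mul_inv_le_iff₀ (exp_pos _), one_mul] at v1
    exact v1.trans (exp_le_exp.2 (by linarith only [c7, hm, m0]))
  have r50 : (350 * m1 : ℝ) = 50 * ((7 * m1 : ℕ) : ℝ) := by rw [c7]; ring
  rw [r50] at bJ bQ
  obtain ⟨bN, G1, G2, G3⟩ := geos bJ bQ q1 m7 s0 s1 A48 (by linarith only [c7, nA, m0]) hcA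
  have se : ∀ c : ℝ, 0 ≤ c → c ≤ 3 + q → √e * (1 + c) ^ 2 ≤ ε := fun c h0 h1 => by
    have u1 : √e ≤ ε / (4 + q) ^ 2 := sqrt_le_iff.2 ⟨by positivity, he.trans (min_le_left _ _)⟩
    rw [le_div_iff₀ (by positivity)] at u1
    exact le_trans (mul_le_mul_of_nonneg_left (pow_le_pow_left₀ (by linarith only [h0])
      (by linarith only [h1]) 2) (sqrt_nonneg _)) u1
  have ue : Cu * e ≤ min (κ ^ 2 / 16) (γ * κ ^ 3 / 512) := by
    have := he.trans (min_le_right _ _)
    rwa [le_div_iff₀ (by linarith only [cu1]), mul_comm] at this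
  have ue2 : Cu * e / (κ / 4) ^ 3 ≤ γ / 8 := by
    rw [div_le_iff₀ (pow_pos k4 3)]; linarith only [ue.trans (min_le_right _ _)]
  have a1 : a ≤ 1 := by linarith only [hl, l1, k0]
  have L7 : 4 * L ^ 2 ≤ ((7 * m1 : ℕ) : ℝ) := by linarith only [c7, hL, m0]
  have N0 : (0 : ℝ) ≤ n ^ 12 := by positivity
  have l0 : 0 ≤ a + κ / 4 := add_nonneg a0 k4.le
  have j3 : 0 ≤ β3 * (0 ^ 2 + 0 ^ 2 / A + ε) := by positivity
  have j2 : 0 ≤ β2 * (s ^ 2 + s ^ 2 / A + ε) := by positivity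
  have U := hU n Θ G Ω xs e L (10 * ((7 * m1 : ℕ) : ℝ)) a (4 * A - 2 * A) (5 * m1 + 2 * m1) (κ / 4)
    (a + κ / 4) hc e0 k4 (by linarith only [k1]) (by linarith only [ue.trans (min_le_left _ _)])
    a0 a1 le_rfl
  rw [← hgF] at U
  have S3 := hS n 0 0 0 0 0 A (7 * m1) Θ G Ω xs e ε L 0 M3 (κ / 16) a (4 * A) (5 * m1) m1 β3 _ G3
    transpose_zero (fun _ => rfl) Eig.opn_zero.le M30.le M30 k16 a0 a1
    (st a0 a1 k0 k1 M30 le_rfl (by rw [mul_zero]; exact (mul_pos k0 M30).le) le_rfl) n12 hc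
    (se _ le_rfl (by linarith only [q1])) εs L7 hLn le_rfl (by linarith only [c7]) nA l0 le_rfl
    gF0.le gF0.le le_rfl h3 U
  rw [add_zero, show 4 * A = 6 * A - 2 * A by ring, show (5 * m1 : ℝ) = 3 * m1 + 2 * m1 by ring] at S3
  have S2 := hS n (-Q) 0 q s s A (7 * m1) Θ G Ω xs e ε L q (16 * q * i) (κ / 16) a (6 * A) (3 * m1) m1
    β2 _ G2 bN.symm bN.diag bN.op qi M2 k16 a0 a1
    (st a0 a1 k0 k1 M2 (by linarith only [q1]) kq (le_add_of_nonneg_right j3)) n12 hc
    (se _ (by linarith only [q1]) (by linarith only [])) εs L7 hLn (by linarith only [A0])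
    (by linarith only [c7, m0]) nA (add_nonneg l0 j3) (add_nonneg le_rfl (mul_nonneg b30 (sq_nonneg _)))
    (add_nonneg gF0.le b30) le_rfl (add_nonneg le_rfl (mul_nonneg b30 N0)) h2 S3
  rw [add_zero, show 6 * A = 8 * A - 2 * A by ring, show (3 * m1 : ℝ) = m1 + 2 * m1 by ring] at S2
  have S1 := hS n J (-Q) (3 + q) (3 + s) (s + s) A (7 * m1) Θ G Ω xs e ε L 3 (48 * i) (κ / 16) a (8 * A)
    m1 m1 β1 _ G1 bJ.symm bJ.diag bJ.op (by linarith only [i1]) M1 k16 a0 a1
    (st a0 a1 k0 k1 M1 (by norm_num) k3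
      ((le_add_of_nonneg_right j3).trans (le_add_of_nonneg_right j2))) n12 hc
    (se _ (by linarith only [q1]) le_rfl) εs L7 hLn (by linarith only [A0])
    (by linarith only [c7, m0]) nA (add_nonneg (add_nonneg l0 j3) j2)
    (add_nonneg (add_nonneg le_rfl (mul_nonneg b30 (sq_nonneg _))) (mul_nonneg b20 (sq_nonneg _)))
    (add_nonneg (add_nonneg gF0.le b30) b20) le_rfl
    (add_nonneg (add_nonneg le_rfl (mul_nonneg b30 N0)) (mul_nonneg b20 N0)) h1 S2
  rw [← sub_eq_add_neg] at S1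
  have F := S1 h v w Λ hv hw hΛ
  have G0 := G1 0 ⟨le_rfl, zero_le_one⟩
  rw [sub_zero, one_smul, ← sub_eq_add_neg] at G0
  have E := hE n _ h _ _ _ A (7 * m1) xs v w Θ G Ω e ε L Λ G0 n12 hv hw hc
    (se _ (by linarith only [q1]) le_rfl) εe L7 hLn hΛ
  have wp : ∀ x, 0 < w x := fun x => by
    obtain ⟨c, hc⟩ := hw; rw [hc]; exact mul_pos (exp_pos _) (exp_pos _)
  have P : Pr v w := ⟨hv, .of_pos wp, fun x hx => absurd hx (wp x).ne'⟩
  have mo := Bf_mono (w := w) hv Λ (J - Q) h (show 2 * A ≤ 8 * A by linarith only [A0])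
    (show (m1 : ℝ) ≤ ((7 * m1 : ℕ) : ℝ) by linarith only [c7, m0]) xs (10 * ((7 * m1 : ℕ) : ℝ))
  have r70 : 10 * ((7 * m1 : ℕ) : ℝ) = 70 * m1 := by rw [c7]; ring
  rw [r70] at F E mo
  rw [hB] at εκ εγ ⊢
  refine fin k0 k1 γ0 hl ce1 cs1 b10 b20 b30 ε0 gF0.le εκ εγ w1 w2 w3 (sq_nonneg _) w4 ue2 (sq_nonneg L)
    (ex_le B1 b30 c00 f0 A1 M30 (by linarith only [M1, M2]) n0 hm v2)
    (ex_le B2 (add_nonneg b30 b20) c00 f0 A1 M2 (by linarith only [M1, M30]) n0 hm v2)
    (ex_le B3 (add_nonneg (add_nonneg b30 b20) b10) c00 f0 A1 M1 (by linarith only [M2, M30]) n0 hm v2)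
    N0 (Bf_nonneg hv wp hΛ _ _ _ _ _ _) mo (P.Ar_nonneg fun _ _ => zero_le_one)
    (sum_nonneg (s := univ) fun i _ => Ta.Cs_nonneg hv (fun σ => sq_nonneg _) i)
    (hv.mean_nonneg fun _ => sq_nonneg _) (EnS.Dm_sq_le hv w one_pos) (EnS.Xc_le P) E
    (F.trans_eq ?_)
  dsimp only
  linear_combination L ^ 2 * sM

end Crest.Agent.T157.En

end
end

-- ▼ part T157/EnLift_63
section

/-!
# Row 157, block B, END (helper63): `En.LiftStmt`
-/

set_option autoImplicit false

noncomputable section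

namespace Crest.Agent.T157.En

open Real Matrix Finset Function
open Crest.ProbabilityR.SpinGlassDynamics (spin)
open Crest.Agent.T157.E Crest.Agent.T157.SL
open Crest.Agent.T157.Ta (Pr Ar As Cnt Cs Dm kls)
open Crest.Agent.T157.Ent (cnd)
open Crest.Agent.T157.Rec (grad fl)
open Crest.Agent.T157.Eig (nrm opn)
open Crest.Agent.T157.S3F (jac hsJ)
open Crest.Agent.T157.Rip (res nrm_res_le)

namespace Li63

variable {n : ℕ} {S : Finset (Fin n)} {sS : Cube n} {i : Fin n} {v w : Cube n → ℝ}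

lemma pr_in (hi : i ∈ S) (x : Cube n) (b : Bool) : pr S sS (update x i b) = pr S sS x :=
  funext fun j => by
    unfold pr; split_ifs with h
    · rfl
    · exact update_of_ne (by rintro rfl; exact h hi) _ _

lemma pr_out (hi : i ∉ S) (x : Cube n) (b : Bool) :
    pr S sS (update x i b) = update (pr S sS x) i b := funext fun j => by
  rcases eq_or_ne j i with rfl | h
  · simp [pr, hi]
  · simp [pr, update_of_ne h]

lemma pr_at (hi : i ∉ S) (x : Cube n) : pr S sS x i = x i := if_neg hi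

lemma sum_pr {g : Cube n → ℝ} (h : ∀ x, g x ≠ 0 → pr S sS x = x) :
    ∑ x, g (pr S sS x) = 2 ^ #S * ∑ x, g x := by
  rw [← sum_fiberwise univ (pr S sS), mul_sum]
  refine sum_congr rfl fun y _ => ?_
  rw [sum_congr rfl fun x hx => by rw [(mem_filter.1 hx).2], sum_const, nsmul_eq_mul]
  rcases eq_or_ne (g y) 0 with h0 | h0
  · simp [h0]
  have e : ({x | pr S sS x = y} : Finset _) =
      Fintype.piFinset fun j => if j ∈ S then univ else {y j} := by
    ext x
    simp only [mem_filter, mem_univ, true_and, Fintype.mem_piFinset, funext_iff]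
    refine forall_congr' fun j => ?_
    have := congrFun (h y h0) j
    unfold pr at this ⊢
    split_ifs at this ⊢ <;> simp [this]
  rw [e, Fintype.card_piFinset]
  simp [apply_ite card]

lemma prob_pr (h : ∀ x, v x ≠ 0 → pr S sS x = x) (x : Cube n) :
    prob (v ∘ pr S sS) x = prob v (pr S sS x) / 2 ^ #S := by
  simp only [prob, Function.comp_apply, sum_pr h]; ring

lemma mean_congr {F G : Cube n → ℝ} (h : ∀ x, v x ≠ 0 → F x = G x) : mean v F = mean v G :=
  sum_congr rfl fun x _ => by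
    rcases eq_or_ne (v x) 0 with h0 | h0
    · simp [prob, h0]
    · rw [h x h0]

lemma mean_pr (h : ∀ x, v x ≠ 0 → pr S sS x = x) (F : Cube n → ℝ) :
    mean (v ∘ pr S sS) (fun x => F (pr S sS x)) = mean v F := by
  have := sum_pr (g := fun x => prob v x * F x) fun x hx => h x fun h0 => hx (by simp [prob, h0])
  simp only [mean, prob_pr h, div_mul_eq_mul_div, ← sum_div]
  rw [this, mul_div_cancel_left₀ _ (by positivity)]

lemma mean_zero : mean v (fun _ => 0) = 0 := by simp [mean]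

lemma grad_pr (F : Cube n → ℝ) (x : Cube n) :
    grad (F ∘ pr S sS) x = res Sᶜ (grad F (pr S sS x)) := funext fun i => by
  by_cases hi : i ∈ S
  · simp [grad, incr, res, hi, pr_in hi]
  · simp [grad, incr, res, hi, pr_out hi]

lemma off (h : ∀ x, v x ≠ 0 → pr S sS x = x) (hi : i ∈ S) {x : Cube n} (hx : pr S sS x = x) :
    v (update x i (!x i)) = 0 := by
  by_contra h0
  have := congrFun ((pr_in hi x _).symm.trans (h _ h0)) i
  rw [hx] at this
  simp at this

lemma cnd_in (h : ∀ x, v x ≠ 0 → pr S sS x = x) (hi : i ∈ S) {x : Cube n} (hx : v x ≠ 0) :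
    cnd v i x = fun b => if b = x i then 1 else 0 := funext fun b => by
  have h0 := off h hi (h x hx)
  have h1 : v (update x i (x i)) = v x := by rw [update_eq_self]
  unfold cnd
  cases hb : x i <;> cases b <;> simp_all

lemma cm_in (h : ∀ x, v x ≠ 0 → pr S sS x = x) (hi : i ∈ S) {x : Cube n} (hx : v x ≠ 0) :
    Ta.cm v i x ^ 2 = 1 := by
  have h0 := off h hi (h x hx)
  have h1 : v (update x i (x i)) = v x := by rw [update_eq_self]
  unfold Ta.cm siteM
  cases hb : x i <;> simp_all [sv, spin]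

lemma kl_self (q : Bool → ℝ) : Ent.kl q q = 0 := sum_eq_zero fun b _ => by
  rcases eq_or_ne (q b) 0 with h | h <;> simp [h]

lemma mag_in (hi : i ∈ S) : mag (v ∘ pr S sS) i = 0 := by
  have := sum_flip i fun x => prob (v ∘ pr S sS) x * sv x i
  rw [mag, meanV, mean, this]
  simp [prob, pr_in hi, sv, spin]

lemma mag_pin (hv : Wt v) (h : ∀ x, v x ≠ 0 → pr S sS x = x) (hi : i ∈ S) :
    mag v i = spin (sS i) := by
  rw [mag, meanV, mean_congr (G := fun _ => spin (sS i)) fun x hx => by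
    rw [← h x hx, sv, pr, if_pos hi]]
  simp only [mean, prob, ← sum_mul, ← sum_div, div_self hv.pos.ne', one_mul]

lemma mag_out (h : ∀ x, v x ≠ 0 → pr S sS x = x) (hi : i ∉ S) : mag (v ∘ pr S sS) i = mag v i := by
  rw [mag, mag, meanV, meanV, ← mean_pr h]; simp only [sv, pr_at hi]

end Li63

open Li63

theorem liftStmt : LiftStmt := by
  refine fun n S sS => ⟨fun v hv h => ⟨⟨fun x => hv.nn _, ?_⟩, fun F => ⟨mean_pr h F,
    sum_pr (g := fun x => v x * F x) fun x hx => h x (left_ne_zero_of_mul hx),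
    ?_⟩⟩, fun v w hp hw => ?_, fun e L Θ G Ω c => ⟨c.L0, fun x => ?_,
    fun x => ?_, fun x => ?_, fun x => ?_⟩⟩
  · simp only [Function.comp_apply, sum_pr h]; have := hv.pos; positivity
  · rw [Eg, Eg, Cnt, Cnt]
    refine sum_congr rfl fun i _ => ?_
    by_cases hi : i ∈ S
    · rw [Cs, Cs, mean_congr (v := v) (G := fun _ => 0) fun x hx => by rw [cm_in h hi hx]; simp,
        mean_congr (G := fun _ => 0) fun x _ => by simp [grad_pr, res, hi], mean_zero, mean_zero]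
    · rw [Cs, Cs, ← mean_pr h]
      simp [grad_pr, res, hi, Ta.cm, siteM, pr_out hi, sv]
  · have hv : ∀ x, v x ≠ 0 → pr S sS x = x := fun x hx => hw x fun h0 => hx (hp.ac x h0)
    refine ⟨sum_congr rfl fun i _ => ?_, ?_, funext fun i => ?_⟩
    · by_cases hi : i ∈ S
      · rw [As, As, mean_congr (v := v) (G := fun _ => 0) fun x hx => by
          rw [kls, cnd_in hv hi hx, cnd_in hw hi fun h0 => hx (hp.ac x h0), kl_self, mul_zero],
          mean_congr (G := fun _ => 0) fun x hx => ?_, mean_zero, mean_zero]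
        have h1 : v (pr S sS x) ≠ 0 := hx
        have h2 : w (pr S sS x) ≠ 0 := fun h0 => h1 (hp.ac _ h0)
        have : cnd (v ∘ pr S sS) i x = cnd (w ∘ pr S sS) i x := funext fun b => by
          simp only [cnd, Function.comp_apply, pr_in hi]; field_simp
        rw [kls, this, kl_self, mul_zero]
      · rw [As, As, ← mean_pr hv]
        have : ∀ (u : Cube n → ℝ) x, cnd (u ∘ pr S sS) i x = cnd u i (pr S sS x) := fun u x =>
          funext fun b => by simp only [cnd, Function.comp_apply, pr_out hi]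
        simp only [kls, this]
    · refine Eq.trans ?_ (mean_pr hv fun x => log (prob v x / prob w x))
      refine sum_congr rfl fun x _ => ?_
      rw [prob_pr hw, prob_pr hv, div_div_div_cancel_right₀ (by positivity)]
    · by_cases hi : i ∈ S
      · simp only [Dm, Pi.sub_apply, mag_in hi, mag_pin hp.hv hv hi, mag_pin hp.hw hw hi, sub_self]
      · simp only [Dm, Pi.sub_apply, mag_out hv hi, mag_out hw hi]
  · rw [grad_pr]; exact (nrm_res_le _ _).trans (c.gr _)
  · obtain ⟨r1, r2, r3, r4⟩ := c.rg (pr S sS x)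
    have ej : ∀ k j, jac (fun x => res Sᶜ (Ω (pr S sS x))) x k j =
        (if k ∈ S then 0 else 1) * jac Ω (pr S sS x) k j * if j ∈ S then 0 else 1 := fun k j => by
      by_cases hk : k ∈ S <;> by_cases hj : j ∈ S <;>
        simp [jac, grad, incr, res, hk, hj, pr_in, pr_out]
    have d1 : opn (diagonal fun k : Fin n => if k ∈ S then (0 : ℝ) else 1) ≤ 1 :=
      Eig.opn_diagonal_le zero_le_one fun k => by split_ifs <;> simp
    refine ⟨(pi_norm_le_iff_of_nonneg ((norm_nonneg _).trans r1)).2 fun k => ?_, ?_,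
      (nrm_res_le _ _).trans r3, le_trans (sum_le_sum fun k _ => sum_le_sum fun j _ => ?_) r4⟩
    · unfold res; split_ifs
      · exact (norm_le_pi_norm _ k).trans r1
      · simpa using (norm_nonneg _).trans r1
    · have : jac (fun x => res Sᶜ (Ω (pr S sS x))) x = diagonal (fun k => if k ∈ S then 0 else 1) *
          jac Ω (pr S sS x) * diagonal fun k => if k ∈ S then 0 else 1 := by
        ext k j; rw [mul_diagonal, diagonal_mul, ej]
      rw [this]
      refine (Eig.opn_mul_le _ _).trans ((mul_le_of_le_one_right (Eig.opn_nonneg _) d1).trans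
        ((Eig.opn_mul_le _ _).trans ((mul_le_of_le_one_left (Eig.opn_nonneg _) d1).trans r2)))
    · rw [ej]; split_ifs <;> simp [sq_nonneg]
  · refine le_trans (le_of_eq ?_) ((nrm_res_le Sᶜ _).trans (c.ex (pr S sS x)))
    rw [grad_pr]; congr 1; funext k; simp only [res, Pi.sub_apply]; split_ifs <;> simp
  · refine le_trans (sum_le_sum fun j _ => ?_) (c.ts (pr S sS x))
    by_cases hj : j ∈ S
    · simp [fl, pr_in hj, sq_nonneg]
    · simp [fl, pr_out hj, pr_at hj]

end Crest.Agent.T157.En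

end
end

-- ▼ part T157/EnPin_71
section

/-!
# Row 157, block B, S1, the END (helper71): the lifted reference is an Ising weight
-/

set_option autoImplicit false

noncomputable section

namespace Crest.Agent.T157.En

open Real Matrix Finset
open Crest.Agent.T157.E Crest.Agent.T157.SL
open Crest.Agent.T157.Eig (nrm opn)
open Crest.Agent.T157.S3 (V Mx hf)
open Crest.Agent.T157.Rip (Sp SpJ res)

namespace Pin71

variable {n : ℕ} {J : Mx n} {S : Finset (Fin n)}

lemma sv_pr (S : Finset (Fin n)) (sS x : Cube n) :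
    sv (pr S sS x) = res Sᶜ (sv x) + res S (sv sS) := by
  ext j; by_cases h : j ∈ S <;> simp [sv, pr, res, h]

lemma res_dot (A : Finset (Fin n)) (u v : V n) : res A u ⬝ᵥ v = u ⬝ᵥ res A v :=
  sum_congr rfl fun j _ => by unfold res; split_ifs <;> simp

lemma blk_mulVec (J : Mx n) (A B : Finset (Fin n)) (u : V n) :
    (of fun i j => if i ∈ A ∧ j ∈ B then J i j else 0) *ᵥ u = res A (J *ᵥ res B u) := by
  funext i
  by_cases hi : i ∈ A
  · simp only [mulVec, dotProduct, of_apply, res, hi, true_and, if_true]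
    exact sum_congr rfl fun j _ => by split_ifs <;> simp
  · simp [mulVec, dotProduct, res, hi]

lemma gM_mulVec (J : Mx n) (S : Finset (Fin n)) (u : V n) :
    gM J S *ᵥ u = res S (J *ᵥ res Sᶜ u) := by
  rw [← blk_mulVec]; simp only [gM, mem_compl]

lemma jM_mulVec (J : Mx n) (S : Finset (Fin n)) (u : V n) :
    jM J S *ᵥ u = res Sᶜ (J *ᵥ res Sᶜ u) := by
  rw [← blk_mulVec]; simp only [jM, mem_compl]

lemma gT_res (J : Mx n) (S : Finset (Fin n)) (u : V n) : (gM J S)ᵀ *ᵥ res S u = (gM J S)ᵀ *ᵥ u := by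
  funext j
  simp only [mulVec, dotProduct, transpose_apply, gM, of_apply, res]
  exact sum_congr rfl fun k _ => by by_cases h : k ∈ S <;> simp [h]

lemma qM_mulVec (J : Mx n) (P : ℝ) (S : Finset (Fin n)) (u : V n) : qM J P S *ᵥ u =
    P • (gM J S)ᵀ *ᵥ gM J S *ᵥ u - fun j => P * ((gM J S)ᵀ * gM J S) j j * u j := by
  have e : qM J P S = P • ((gM J S)ᵀ * gM J S) -
      diagonal fun j => P * ((gM J S)ᵀ * gM J S) j j := by
    ext i j; by_cases h : i = j <;> simp [qM, h]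
  rw [e, sub_mulVec, smul_mulVec, mulVec_mulVec]
  congr 1; funext j; rw [mulVec_diagonal]

lemma res_uu (D : S1.Dat n) (s : S1.St n) (x : Cube n) : res s.S (S1.uu D s (pr s.S s.sS x)) =
    gM D.J s.S *ᵥ sv x + res s.S (D.J *ᵥ res s.S (sv s.sS) - s.x) := by
  rw [gM_mulVec]
  funext k
  have e : S1.uu D s (pr s.S s.sS x) k =
      (D.J *ᵥ res s.Sᶜ (sv x)) k + ((D.J *ᵥ res s.S (sv s.sS)) k - s.x k) := by
    rw [S1.uu, sv_pr, mulVec_add, Pi.add_apply]; ring
  generalize D.J *ᵥ res s.Sᶜ (sv x) = a at e ⊢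
  generalize D.J *ᵥ res s.S (sv s.sS) = b at e ⊢
  by_cases h : k ∈ s.S <;> simp [res, h, e]

lemma U_eq (D : S1.Dat n) (s : S1.St n) (σ : Cube n) :
    S1.U D s σ = D.P / 2 * (res s.S (S1.uu D s σ) ⬝ᵥ res s.S (S1.uu D s σ)) := by
  rw [S1.U, dotProduct, ← sum_subset (subset_univ s.S) fun k _ hk => by simp [res, hk]]
  congr 1
  exact sum_congr rfl fun k hk => by simp only [res, if_pos hk, sq]

lemma sp_res' {m : ℝ} {v : V n} (h : Sp m v) (A : Finset (Fin n)) : Sp m (res A v) := by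
  obtain ⟨T, h1, h2⟩ := h
  exact ⟨T, h1, fun i hi => by simp [res, h2 i hi]⟩

lemma nrm_blk (hJ : opn J ≤ 3) (A B : Finset (Fin n)) (u : V n) :
    nrm (res A (J *ᵥ res B u)) ≤ 3 * nrm u :=
  (Rip.nrm_res_le _ _).trans ((Eig.nrm_mulVec_le _ _).trans
    (mul_le_mul hJ (Rip.nrm_res_le _ _) (Eig.nrm_nonneg _) (by norm_num)))

lemma nrm_diag {d u : V n} {c : ℝ} (hc : 0 ≤ c) (h : ∀ j, |d j| ≤ c) :
    nrm (fun j => d j * u j) ≤ c * nrm u := by
  have := (Eig.nrm_mulVec_le (diagonal d) u).trans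
    (mul_le_mul_of_nonneg_right (Eig.opn_diagonal_le hc h) (Eig.nrm_nonneg _))
  rwa [show diagonal d *ᵥ u = fun j => d j * u j from funext (mulVec_diagonal d u)] at this

end Pin71

open Pin71 in
theorem pinStmt : PinStmt := by
  intro n D s H
  constructor
  · set τ := res s.S (sv s.sS) with hτ
    set b := res s.S (D.J *ᵥ τ - s.x) with hb
    set G := gM D.J s.S with hG
    refine ⟨res s.Sᶜ (s.y' + D.J *ᵥ τ) - D.P • Gᵀ *ᵥ b,
      ⟨1 / 2 * (τ ⬝ᵥ D.J *ᵥ τ) + s.y' ⬝ᵥ τ - D.P / 2 * (b ⬝ᵥ b) - 1 / 2 * ∑ j, D.P * (Gᵀ * G) j j,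
        fun x => ?_⟩, fun x j hj => ?_⟩
    · have e0 : ∀ k ∈ s.S, pr s.S s.sS x k = s.sS k := fun k hk => if_pos hk
      have e1 : (sv x ⬝ᵥ fun j => D.P * (Gᵀ * G) j j * sv x j) = ∑ j, D.P * (Gᵀ * G) j j :=
        sum_congr rfl fun j _ => by linear_combination D.P * (Gᵀ * G) j j * Rec.sv_mul_self x j
      have e2 : ∀ u v : V n, u ⬝ᵥ Gᵀ *ᵥ v = (G *ᵥ u) ⬝ᵥ v := fun u v => by
        rw [dotProduct_mulVec, vecMul_transpose]
      have e3 : τ ⬝ᵥ D.J *ᵥ res s.Sᶜ (sv x) = res s.Sᶜ (sv x) ⬝ᵥ D.J *ᵥ τ := by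
        rw [dotProduct_mulVec, ← mulVec_transpose, H.symm, dotProduct_comm]
      simp only [Function.comp, S1.pi, Ta.wt, S1.loc, S1.ell, if_pos e0, ising, ← exp_add, U_eq,
        res_uu, sv_pr, S1.del, ← hτ, ← hb, ← hG]
      congr 1
      rw [sub_mulVec, qM_mulVec, jM_mulVec, ← hG, dotProduct_comm (_ - _) (sv x)]
      simp only [dotProduct_sub, e1, dotProduct_smul, e2, ← res_dot, smul_eq_mul, mulVec_add,
        dotProduct_add, add_dotProduct, sub_dotProduct, e3, dotProduct_comm b (G *ᵥ sv x),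
        dotProduct_comm (res s.Sᶜ (sv x)) s.y']
      ring
    · rw [hf, sub_mulVec, qM_mulVec, jM_mulVec, ← gT_res _ _ (S1.uu D s _), res_uu, sv_pr, ← hτ, ← hb,
        ← hG, mulVec_add, mulVec_add]
      simp only [Pi.add_apply, Pi.sub_apply, Pi.smul_apply, smul_eq_mul]
      rw [res, res, if_pos (mem_compl.2 hj), if_pos (mem_compl.2 hj), Pi.add_apply]
      ring
  · intro m b hS m1 hm hb b1
    have P1 := H.P1
    have b0 : 0 ≤ b := by rw [hb]; positivity
    have Pb : 0 ≤ D.P * b := by positivity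
    have hd : ∀ j, |D.P * ((gM D.J s.S)ᵀ * gM D.J s.S) j j| ≤ D.P * b := fun j => by
      have a1 : ((gM D.J s.S)ᵀ * gM D.J s.S) j j ≤ ∑ k ∈ s.S, D.J k j ^ 2 := by
        rw [mul_apply, ← sum_subset (subset_univ s.S) fun k _ hk => by simp [gM, hk]]
        refine sum_le_sum fun k hk => ?_
        simp only [transpose_apply, gM, of_apply]
        split_ifs
        exacts [(sq _).ge, by simpa using sq_nonneg _]
      have a2 : 0 ≤ ((gM D.J s.S)ᵀ * gM D.J s.S) j j := by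
        rw [mul_apply]; exact sum_nonneg fun k _ => mul_self_nonneg (gM D.J s.S k j)
      have a3 := hS.col (by norm_num) hm m1 j
      have a4 : b ^ 2 = 30 ^ 2 * √(m / n) := by rw [hb, mul_pow, sq_sqrt (sqrt_nonneg _)]
      rw [abs_of_nonneg (by positivity)]
      exact mul_le_mul_of_nonneg_left (by nlinarith) (by linarith)
    have hG : opn (gM D.J s.S) ≤ 3 := Eig.opn_le_of_nrm (by norm_num) fun u => by
      rw [gM_mulVec]; exact nrm_blk H.op _ _ u
    have hQ : ∀ (v : V n) (c : ℝ), nrm (gM D.J s.S *ᵥ v) ≤ c * nrm v →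
        nrm (qM D.J D.P s.S *ᵥ v) ≤ (3 * D.P * c + D.P * b) * nrm v := fun v c h => by
      have a1 := (Eig.nrm_mulVec_le (gM D.J s.S)ᵀ (gM D.J s.S *ᵥ v)).trans
        (mul_le_mul ((Eig.opn_transpose _).trans_le hG) h (Eig.nrm_nonneg _) (by norm_num))
      have a2 := nrm_diag (u := v) Pb hd
      rw [qM_mulVec]
      refine (Eig.nrm_sub_le _ _).trans ?_
      rw [Eig.nrm_smul, abs_of_nonneg (by linarith)]
      nlinarith [mul_le_mul_of_nonneg_left a1 (by linarith : 0 ≤ D.P)]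
    have hc : ∀ v : V n, Sp m v → nrm (qM D.J D.P s.S *ᵥ v) ≤ 4 * D.P * b * nrm v := fun v hv => by
      refine (hQ v b ?_).trans_eq (by ring)
      rw [gM_mulVec]
      refine ((hS.fl (sp_res' hv _)).res (mul_nonneg (by positivity) (Eig.nrm_nonneg _)) hm).trans ?_
      rw [← hb]
      exact mul_le_mul_of_nonneg_left (Rip.nrm_res_le _ _) b0
    have sy : ∀ i j, D.J j i = D.J i j := fun i j => by rw [← transpose_apply D.J, H.symm]
    refine ⟨⟨?_, fun i => by simp [jM, H.diag], Eig.opn_le_of_nrm (by norm_num) fun u => ?_,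
      fun u _ => ?_, fun u v hu hv => ?_⟩, ?_, fun i => by simp [qM],
      Eig.opn_le_of_nrm (by linarith) fun u => ?_, hc, fun u v _ hv => ?_⟩
    · ext i j; simp only [jM, transpose_apply, of_apply, and_comm, sy i j]
    · rw [jM_mulVec]; exact nrm_blk H.op _ _ u
    · rw [jM_mulVec]; exact nrm_blk H.op _ _ u
    · rw [jM_mulVec, ← res_dot]
      refine (hS m _ _ (sp_res' hv _) (sp_res' hu _)).trans ?_
      rw [← hb]
      exact mul_le_mul (by nlinarith) (mul_le_mul (Rip.nrm_res_le _ _) (Rip.nrm_res_le _ _)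
        (Eig.nrm_nonneg _) (Eig.nrm_nonneg _)) (mul_nonneg (Eig.nrm_nonneg _) (Eig.nrm_nonneg _))
        (by positivity)
    · ext i j
      simp only [qM, transpose_apply, of_apply, eq_comm (a := j), mul_apply, mul_comm (gM D.J s.S _ j)]
    · refine (hQ u 3 ((Eig.nrm_mulVec_le _ _).trans
        (mul_le_mul_of_nonneg_right hG (Eig.nrm_nonneg _)))).trans
        (mul_le_mul_of_nonneg_right (by nlinarith) (Eig.nrm_nonneg _))
    · exact (Eig.abs_dot_le _ _).trans
        ((mul_le_mul_of_nonneg_left (hc v hv) (Eig.nrm_nonneg _)).trans_eq (by ring))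

end Crest.Agent.T157.En

end
end

-- ▼ part T157/EnTyp_26
section

/-!
# Row 157, block B, END (helper26): typical pairs, `En.TypStmt` and `En.FeStmt`
-/

set_option autoImplicit false
set_option linter.unusedVariables false

noncomputable section

namespace Crest.Agent.T157.En

open MeasureTheory Real Matrix Finset Filter
open Crest.Agent.T157.E Crest.Agent.T157.SL Crest.Agent.T157.Cnt
open Crest.Agent.T157.Ta (XG)
open Crest.Agent.T157.Eig (nrm opn)
open Crest.Agent.T157.S3 (V Mx)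
open Crest.Agent.T157.S1 (XF Ew)

variable {n : ℕ}

namespace Ty26

theorem ib_nn (a b : ℝ) : 0 ≤ ib a b := by unfold ib; split_ifs <;> norm_num
theorem ib_le (a b : ℝ) : ib a b ≤ 1 := by unfold ib; split_ifs <;> norm_num

theorem meas_na (θ : ℝ) (x : Cube n) : Measurable fun y : V n => na y θ x := by
  simp only [na, card_filter, Nat.cast_sum, Nat.cast_ite, Nat.cast_one, Nat.cast_zero]
  exact Finset.measurable_sum _ fun j _ => Measurable.ite
    (measurableSet_lt (by fun_prop) measurable_const) measurable_const measurable_const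

theorem xg_ib (a θ : ℝ) (x : Cube n) : XG fun y : V n => ib a (na y θ x) :=
  .of_bdd (Measurable.ite (measurableSet_lt measurable_const (meas_na θ x)) measurable_const
    measurable_const) 1 fun _ => (abs_of_nonneg (ib_nn _ _)).trans_le (ib_le _ _)

theorem xg_bad (J : Mx n) (S φ : ℝ) (x : Cube n) : XG (bad J S φ x) := (xg_ib _ _ x).add (.const _)

theorem bad_nn (J : Mx n) (S φ : ℝ) (x : Cube n) (y : V n) : 0 ≤ bad J S φ x y :=
  add_nonneg (ib_nn _ _) (ib_nn _ _)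

theorem wt_is (J : Mx n) (y : V n) : Wt (ising J y) := Wt.of_pos fun _ => exp_pos _

theorem xg_post (J : Mx n) {K : Cube n → V n → ℝ} (hK : ∀ x, XG (K x)) :
    XG fun y => mean (ising J y) fun x => K x y := by
  have := Ta.xg_mean (wt_is J 0) (L := fun x (y : V n) => y ⬝ᵥ sv x)
    (fun x => by unfold dotProduct; fun_prop) hK
  refine (congrArg XG (funext fun y => ?_)).mp this
  rw [← zero_add y, ← tilt_ising, zero_add]
  rfl

/-- the local fields are sub-Gaussian under (H1) and symmetry -/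
theorem sg_h1 {J : Mx n} {K : ℝ} (hK : 0 < K) (hs : Jᵀ = J) (hJ : opn J ≤ 3)
    (h : Xt.H1 (ising J 0) K) : SG (mass (ising J 0)) (fun x => J *ᵥ sv x) (72 * K) :=
  fun a v u ha hv hu => by
  have e : (fun x => a ⬝ᵥ J *ᵥ sv x) = fun x => (J *ᵥ a) ⬝ᵥ sv x := by
    funext x; rw [dotProduct_mulVec, ← mulVec_transpose, hs]
  have m0 : mean (ising J 0) (fun x => (J *ᵥ a) ⬝ᵥ sv x) = 0 := by
    have : (J *ᵥ a) ⬝ᵥ mag (ising J 0) = 0 := by rw [mag_ising_zero, dotProduct_zero]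
    rw [← this]
    simp only [dotProduct, mean_sum, mean_const_mul]
    rfl
  have hL : Xt.Lip2 (2 * (3 * √v)) fun x => (J *ᵥ a) ⬝ᵥ sv x := Xt.lip2_of_grad fun x => by
    rw [Rec.grad_lin]
    exact (Eig.nrm_mulVec_le J a).trans
      (mul_le_mul hJ (sqrt_le_sqrt ha) (Eig.nrm_nonneg _) (by norm_num))
  have := mass_tail (F := fun x => a ⬝ᵥ J *ᵥ sv x) (wt_is J 0) (b := 72 * K * v) (by positivity) hu
    fun τ _ => by
      have h1 := h.mgf (fun _ => exp_pos _) hL.nn hL.vp hL.neg.vp τ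
      rw [show Chain22.mean (prob (ising J 0)) (fun x => (J *ᵥ a) ⬝ᵥ sv x) = 0 from m0] at h1
      simp only [sub_zero, mul_pow, sq_sqrt hv.le] at h1
      simp only [congrFun e]
      exact le_trans (le_of_eq rfl) (h1.trans_eq (by congr 1; ring))
  exact this.trans_eq (by congr 1; ring)

theorem gauss_part {S φ : ℝ} (hS : 48 ≤ S) (hφ : φ = exp (-(1 / 16 * S))) (x : Cube n) :
    ∫ g, ib (φ * n) (na (S • sv x + √S • g) (S / 2) x) ∂Gs (Fin n) ≤ exp (-(1 * (φ * n))) := by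
  have S0 : 0 < √S := sqrt_pos.2 (by linarith)
  have S2 : √S * √S = S := mul_self_sqrt (by linarith)
  have hm : MeasurableSet {g : V n | φ * n < na (S • sv x + √S • g) (S / 2) x} :=
    measurableSet_lt measurable_const ((meas_na _ x).comp (by fun_prop))
  have e : (fun g : V n => ib (φ * n) (na (S • sv x + √S • g) (S / 2) x)) =
      {g : V n | φ * n < na (S • sv x + √S • g) (S / 2) x}.indicator 1 := by
    funext g; simp [ib, Set.indicator_apply]
  rw [e, integral_indicator_one hm]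
  refine ((sub_real _).mono _ _ fun g hg => ?_).trans (sg_id.cnt_phi (sub_real _) one_pos
    (x := √S / 2) (by positivity) (hφ ▸ exp_pos _) zero_le_one ?_)
  · refine le_trans (le_of_lt (show φ * n < (#{j | _} : ℝ) from hg)) (Nat.cast_le.2 (card_le_card fun j hj => mem_filter.2
      ⟨mem_univ _, ?_⟩))
    have h1 := (mem_filter.1 hj).2
    have h2 := Rec.sv_mul_self x j
    have h3 : |sv x j * g j| = |g j| := by
      rw [abs_mul, (abs_eq_iff_mul_self_eq (b := 1)).2 (by rw [h2, one_mul]), abs_one, one_mul]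
    simp only [Pi.add_apply, Pi.smul_apply, smul_eq_mul] at h1
    rw [← h3]
    refine le_of_mul_le_mul_left ?_ S0
    nlinarith [mul_le_mul_of_nonneg_left (neg_le_abs (sv x j * g j)) S0.le]
  · rw [hφ, one_div (exp _), ← Real.exp_neg, log_exp, div_pow, sq_sqrt (by linarith)]
    linarith

end Ty26

open Ty26

theorem typStmt : TypStmt := fun K0 κ0 hκ => by
  have K1 : 0 < max K0 0 + 8 / κ0 := by positivity
  set K := max K0 0 + 8 / κ0 with hK
  refine ⟨1 / 16, by norm_num, le_rfl, 48 + 40000 * K, fun S hS => ?_⟩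
  have φ0 := exp_pos (-(1 / 16 * S))
  set φ := exp (-(1 / 16 * S)) with hφ
  refine ⟨φ / 6, by positivity, ?_⟩
  filter_upwards [(tendsto_natCast_atTop_atTop (R := ℝ)).eventually_ge_atTop (2 / φ)]
    with n hn J hs hJ hB
  have S0 : 48 ≤ S := by nlinarith
  have hw := wt_is J 0
  have h1 := (sg_h1 K1 hs hJ (Xt.h1_of_atd (hB.mono (fun _ => exp_pos _) (le_max_left _ _) le_rfl)
    (fun _ => exp_pos _) (le_max_right _ _) hκ)).cnt_phi (sub_mass hw) (by positivity) (x := S / 16)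
    (by positivity) φ0 zero_le_one (by
      rw [hφ, one_div (exp _), ← Real.exp_neg, log_exp, le_div_iff₀ (by positivity)]
      nlinarith)
  have h2 : slE sv (ising J 0) S (bad J S φ) ≤ mean (ising J 0) fun x => exp (-(1 * (φ * n))) +
      {x : Cube n | φ * n ≤ #{j | S / 16 ≤ |(J *ᵥ sv x) j|}}.indicator (fun _ => 1) x := by
    refine hw.mean_mono fun x => ?_
    unfold bad
    rw [integral_add (((xg_ib _ _ x).mg.affine _ _).int) (integrable_const _), integral_const,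
      probReal_univ, one_smul]
    refine add_le_add (gauss_part S0 hφ x) ?_
    unfold ib
    split_ifs with h
    · rw [Set.indicator_of_mem]
      exact le_trans h.le (Nat.cast_le.2 (card_le_card fun j hj => mem_filter.2
        ⟨mem_univ _, (mem_filter.1 hj).2.le⟩))
    · exact Set.indicator_nonneg (fun _ _ => zero_le_one) _
  rw [mean_add, hw.mean_const, ← mass_ind] at h2
  rw [div_le_iff₀ φ0] at hn
  have e : exp (-(3 * (φ / 6) * n)) = exp (φ * n / 2) * exp (-(1 * (φ * n))) := by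
    rw [← exp_add]; congr 1; ring
  rw [e]
  nlinarith [add_one_le_exp (φ * n / 2), exp_pos (-(1 * (φ * n)))]

theorem feStmt26 : FeStmt := fun n J S φ κ1 => by
  have hw := wt_is J 0
  have hx := xg_post J (xg_bad J S φ)
  have h0 : ∀ y, 0 ≤ mean (ising J y) fun x => bad J S φ x y := fun y =>
    (wt_is J y).mean_nonneg fun x => bad_nn _ _ _ _ _
  refine ⟨⟨fun _ => hx.const_mul _, fun _ y => mul_nonneg (by positivity) (h0 y)⟩,
    fun f T0 hS hf => ?_⟩
  have e : slE sv (ising J 0) S (bad J S φ) = mean (ising J 0) fun x =>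
      ∫ g, mean (ising J (S • sv x + √S • g)) (fun z => bad J S φ z (S • sv x + √S • g)) ∂Gs (Fin n) := by
    rw [bayes hw hS (.of_mg fun x => (xg_bad J S φ x).mg), slE_eq_mean]
    simp only [mean, prob_post_sv, tilt_ising, zero_add]
  rw [e, ← mean_const_mul]
  refine hw.mean_mono fun x => ?_
  simp only [Ew, fe, zero_add, integral_const_mul]
  rw [exp_add, mul_left_comm _ (exp T0), mul_assoc (exp T0)]
  exact mul_le_mul_of_nonneg_right (hf x).2
    (mul_nonneg (by positivity) (integral_nonneg fun _ => h0 _))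

end Crest.Agent.T157.En

end
end

-- ▼ part T157/EnMass_62
section

/-!
# Row 157, block B, S1, the END (helper62): the exceptional mass of a lifted state
-/

set_option autoImplicit false

noncomputable section

namespace Crest.Agent.T157.En

open Real Matrix Finset Filter
open Crest.Agent.T157.E Crest.Agent.T157.SL
open Crest.Agent.T157.Rec (grad)
open Crest.Agent.T157.Eig (nrm opn)
open Crest.Agent.T157.S3 (V Mx hf)
open Crest.Agent.T157.Rip (res)
open Crest.Agent.T157.S1 (Dat St U uu ell loc nu del Dz)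

namespace M62

variable {n : ℕ}

theorem ib_nn (a b : ℝ) : 0 ≤ ib a b := by unfold ib; split_ifs <;> norm_num
theorem ib_le (a b : ℝ) : ib a b ≤ 1 := by unfold ib; split_ifs <;> norm_num
theorem ib_zero {a b : ℝ} (h : b ≤ a) : ib a b = 0 := if_neg (not_lt.2 h)
theorem ib_one {a b : ℝ} (h : a < b) : ib a b = 1 := if_pos h
theorem bad_nn (J : Mx n) (S φ : ℝ) (x : Cube n) (y : V n) : 0 ≤ bad J S φ x y :=
  add_nonneg (ib_nn _ _) (ib_nn _ _)

/-- Markov count -/
theorem cnt (u : V n) {b : ℝ} (hb : 0 ≤ b) : (#{j | b < |u j|} : ℝ) * b ^ 2 ≤ u ⬝ᵥ u := by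
  rw [← nsmul_eq_mul, ← sum_const]
  refine (sum_le_sum (g := fun j => u j * u j) fun j hj => ?_).trans
    (sum_le_sum_of_subset_of_nonneg (subset_univ _) fun j _ _ => mul_self_nonneg _)
  rw [← sq, ← sq_abs (u j)]
  exact pow_le_pow_left₀ hb (mem_filter.1 hj).2.le 2

theorem cnt' (u : V n) {S c : ℝ} (hS : 1 ≤ S) (h : 256 * (u ⬝ᵥ u) ≤ c) :
    (#{j | S / 16 < |u j|} : ℝ) ≤ c := by
  have h1 := cnt u (b := S / 16) (by linarith)
  have h2 : (0 : ℝ) ≤ #{j | S / 16 < |u j|} := Nat.cast_nonneg _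
  nlinarith [mul_le_mul_of_nonneg_left (one_le_pow₀ hS (n := 2)) h2]

theorem sv_pr {S : Finset (Fin n)} (sS x : Cube n) {j : Fin n} (hj : j ∉ S) :
    sv (pr S sS x) j = sv x j := by simp only [sv, pr, if_neg hj]

theorem gT {J : Mx n} (hJ : Jᵀ = J) (S : Finset (Fin n)) (u : V n) :
    (gM J S)ᵀ *ᵥ u = res Sᶜ (J *ᵥ res S u) := by
  ext j
  have e : ∀ k, J k j = J j k := fun k => by rw [← transpose_apply J j k, hJ]
  by_cases hj : j ∈ S
  · simp [gM, mulVec, dotProduct, Rip.res, hj]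
  · simp only [gM, mulVec, dotProduct, Rip.res, transpose_apply, of_apply, hj, not_false_eq_true,
      and_true, mem_compl, if_true, e]
    exact sum_congr rfl fun k _ => by split_ifs <;> simp

theorem gT_sq {D : Dat n} (h : D.Ok) (s : St n) (σ : Cube n) :
    (D.P • (gM D.J s.S)ᵀ *ᵥ uu D s σ) ⬝ᵥ (D.P • (gM D.J s.S)ᵀ *ᵥ uu D s σ) ≤ 18 * D.P * U D s σ := by
  have P0 : 0 ≤ D.P := by linarith [h.P1]
  have e : nrm (res s.S (uu D s σ)) ^ 2 = ∑ k ∈ s.S, uu D s σ k ^ 2 := by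
    rw [Eig.nrm_sq, dotProduct, ← sum_subset (subset_univ s.S) fun k _ hk => by simp [Rip.res, hk]]
    exact sum_congr rfl fun k hk => by simp [Rip.res, hk, sq]
  have a : nrm ((gM D.J s.S)ᵀ *ᵥ uu D s σ) ≤ 3 * nrm (res s.S (uu D s σ)) := by
    rw [gT h.symm]
    exact (Rip.nrm_res_le _ _).trans ((Eig.nrm_mulVec_le _ _).trans
      (mul_le_mul_of_nonneg_right h.op (Eig.nrm_nonneg _)))
  have b := pow_le_pow_left₀ (Eig.nrm_nonneg _) a 2
  rw [← Eig.nrm_sq, Eig.nrm_smul, mul_pow, sq_abs, U, ← e]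
  nlinarith [mul_le_mul_of_nonneg_left b (sq_nonneg D.P)]

/-- the sign pattern of the field -/
def sg (y : V n) : Cube n := fun j => decide (0 < y j)

theorem hd_le (y : V n) {θ : ℝ} (hθ : 0 < θ) (S : Finset (Fin n)) (sS x : Cube n) :
    hd x (sg y) ≤ #S + na y θ (pr S sS x) := by
  unfold hd na
  rw [← Nat.cast_add, Nat.cast_le]
  refine (card_le_card fun j hj => ?_).trans (card_union_le _ _)
  by_cases hS : j ∈ S
  · exact mem_union_left _ hS
  · refine mem_union_right _ (mem_filter.2 ⟨mem_univ _, ?_⟩)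
    have h1 := (mem_filter.1 hj).2
    rw [sv_pr _ _ hS, sv]
    by_cases hy : 0 < y j
    · have : x j = false := by simpa [sg, hy] using h1
      simp only [this, Crest.ProbabilityR.SpinGlassDynamics.spin]
      norm_num; linarith
    · have : x j = true := by simpa [sg, hy] using h1
      simp only [this, Crest.ProbabilityR.SpinGlassDynamics.spin]
      norm_num; linarith

theorem na_le {D : Dat n} (h : D.Ok) (s : St n) {S : ℝ} (hS : 0 ≤ S) (u : V n) (x : Cube n)
    (hu : ∀ j ∉ s.S, u j = s.y' j + (D.J *ᵥ sv (pr s.S s.sS x)) j -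
      D.P * ((gM D.J s.S)ᵀ *ᵥ uu D s (pr s.S s.sS x)) j +
      D.P * ((gM D.J s.S)ᵀ * gM D.J s.S) j j * sv x j) :
    na u (S / 4) x ≤ #s.S + na s.y (S / 2) (pr s.S s.sS x) +
      #{j | S / 16 < |(D.J *ᵥ sv (pr s.S s.sS x)) j|} + #{j | S / 16 < |del s j|} +
      #{j | S / 16 < |(D.P • (gM D.J s.S)ᵀ *ᵥ uu D s (pr s.S s.sS x)) j|} := by
  unfold na
  simp only [← Nat.cast_add, Nat.cast_le]
  refine le_trans (card_le_card fun j hj => ?_) ((card_union_le _ _).trans (Nat.add_le_add_right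
    ((card_union_le _ _).trans (Nat.add_le_add_right ((card_union_le _ _).trans
      (Nat.add_le_add_right (card_union_le _ _) _)) _)) _))
  by_contra hc
  simp only [mem_union, mem_filter, mem_univ, true_and, not_or, not_lt, Pi.smul_apply,
    smul_eq_mul] at hc hj
  obtain ⟨⟨⟨⟨h0, h1⟩, h2⟩, h3⟩, h4⟩ := hc
  have q : 0 ≤ D.P * ((gM D.J s.S)ᵀ * gM D.J s.S) j j := mul_nonneg (by linarith [h.P1])
    (by rw [mul_apply]; exact sum_nonneg fun k _ => mul_self_nonneg (gM D.J s.S k j))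
  have e : s.y' j = s.y j + del s j := by simp [del]
  have b : ∀ a : ℝ, |a| ≤ S / 16 → -(S / 16) ≤ sv x j * a ∧ sv x j * a ≤ S / 16 := fun a ha =>
    abs_le.1 (by rwa [abs_mul, sv, abs_spin, one_mul])
  rw [sv_pr _ _ h0] at h1
  rw [hu j h0, e] at hj
  have := Rec.sv_mul_self x j
  nlinarith [(b _ h2).1, (b _ h3).1, (b _ h4).2]

/-- the two pointwise bounds -/
theorem pt {D : Dat n} (h : D.Ok) (s : St n) {S φ m1 : ℝ} (hS : 1 ≤ S) (hφ : 0 ≤ φ * n) (u : V n)
    (x : Cube n) (hu : ∀ j ∉ s.S, u j = s.y' j + (D.J *ᵥ sv (pr s.S s.sS x)) j -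
      D.P * ((gM D.J s.S)ᵀ *ᵥ uu D s (pr s.S s.sS x)) j +
      D.P * ((gM D.J s.S)ᵀ * gM D.J s.S) j j * sv x j)
    (hc : (#s.S : ℝ) ≤ φ * n) (hd' : 256 * (del s ⬝ᵥ del s) ≤ φ * n) (hm : 5 * φ * n ≤ m1) :
    ib m1 (na u (S / 4) x) ≤ bad D.J S φ (pr s.S s.sS x) s.y +
      ib (φ / (4608 * D.P) * n) (U D s (pr s.S s.sS x)) ∧
    ib (70 * m1) (hd x (sg s.y)) ≤ bad D.J S φ (pr s.S s.sS x) s.y := by
  have P0 : 0 < D.P := by linarith [h.P1]
  have n1 := ib_nn (φ * n) (na s.y (S / 2) (pr s.S s.sS x))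
  have n2 := ib_nn (φ * n) #{j | S / 16 < |(D.J *ᵥ sv (pr s.S s.sS x)) j|}
  have n3 := ib_nn (φ / (4608 * D.P) * n) (U D s (pr s.S s.sS x))
  have l1 := ib_le m1 (na u (S / 4) x)
  have l2 := ib_le (70 * m1) (hd x (sg s.y))
  unfold bad
  rcases lt_or_ge (φ * n) (na s.y (S / 2) (pr s.S s.sS x)) with c1 | c1
  · rw [ib_one c1]; constructor <;> linarith
  have a2 := hd_le s.y (θ := S / 2) (by linarith) s.S s.sS x
  refine ⟨?_, by rw [ib_zero (by linarith)]; linarith⟩
  rcases lt_or_ge (φ * n) #{j | S / 16 < |(D.J *ᵥ sv (pr s.S s.sS x)) j|} with c2 | c2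
  · rw [ib_one c2]; linarith
  rcases lt_or_ge (φ / (4608 * D.P) * n) (U D s (pr s.S s.sS x)) with c3 | c3
  · rw [ib_one c3]; linarith
  have a1 := na_le h s (by linarith : 0 ≤ S) u x hu
  have a3 := cnt' (del s) hS hd'
  have a4 := cnt' (D.P • (gM D.J s.S)ᵀ *ᵥ uu D s (pr s.S s.sS x)) hS (c := φ * n) (by
    have := mul_le_mul_of_nonneg_left c3 (by positivity : 0 ≤ 4608 * D.P)
    rw [← mul_assoc, mul_div_cancel₀ _ (by positivity)] at this
    linarith [gT_sq h s (pr s.S s.sS x)])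
  rw [ib_zero (by linarith)]
  linarith

/-- change of measure from `loc` (normalised by `ν`) to the Ising weight -/
theorem chg {D : Dat n} (h : D.Ok) (s : St n) (H : Cube n → ℝ) :
    exp D.T0 * (∑ x, loc D s x * H x) / ∑ x, nu D s x =
      exp (Dz D s) * mean (ising D.J s.y) fun x => ell D s x * H x := by
  have m0 := S1.C89.mean_pos (s := s) h
  have z0 := (S1.C89.wt_is D.J s.y).pos
  rw [S1.C89.Z_nu, Dz, exp_sub, exp_log m0, mean_eq_div _ fun x => ell D s x * H x]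
  simp only [loc, mul_assoc]
  field_simp

theorem mean_nu {D : Dat n} (h : D.Ok) (s : St n) {H : Cube n → ℝ} (H0 : ∀ x, 0 ≤ H x) :
    mean (nu D s) H ≤ exp (Dz D s) * mean (ising D.J s.y) fun x => ell D s x * H x := by
  rw [← chg h, mean_eq_div, mul_sum]
  refine div_le_div_of_nonneg_right (sum_le_sum fun x _ => ?_) (S1.C89.pr1 h).hv.pos.le
  have := mul_le_mul_of_nonneg_left (h.fle x) (mul_nonneg (S1.C89.wt_loc.nn x) (H0 x) :
    0 ≤ loc D s x * H x)
  rw [nu]; linarith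

theorem ell_ib {D : Dat n} (s : St n) (b : ℝ) (x : Cube n) :
    ell D s x * ib b (U D s x) ≤ exp (-b) := by
  unfold ell ib
  split_ifs with h1 h2 h3
  · rw [mul_one]; exact exp_le_exp.2 (by linarith)
  all_goals simp [(exp_pos _).le]

theorem osc {s : St n} {e A : ℝ} (hc : S1.Cl e A s) (x x' : Cube n) :
    (del s ⬝ᵥ sv x + s.Th x) - (del s ⬝ᵥ sv x' + s.Th x') ≤ 4 * √n * (s.L + nrm (del s)) := by
  have a0 : 0 ≤ s.L + nrm (del s) := add_nonneg hc.L0 (Eig.nrm_nonneg _)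
  have a1 : ∀ x, Atd.vp (fun σ => del s ⬝ᵥ sv σ + s.Th σ) x ≤ (2 * (s.L + nrm (del s))) ^ 2 :=
    fun x => (S1.C89.vp_le _ x).trans
      (pow_le_pow_left₀ (mul_nonneg zero_le_two (Eig.nrm_nonneg _)) (by
        rw [Rec.grad_add, Rec.grad_lin]
        linarith [Eig.nrm_add_le (del s) (grad s.Th x), hc.gr x]) 2)
  linarith [Atd.osc (mul_nonneg zero_le_two a0) a1 x x']

/-- the bound for one instance -/
theorem core (hL : LiftStmt) {D : Dat n} (h : D.Ok) (s : St n) {e A S φ m1 b : ℝ} (hS : 1 ≤ S)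
    (hφ : 0 ≤ φ * n) (hc : S1.Cl e A s) (W : Mx n) (k : V n)
    (hu : ∀ x, ∀ j ∉ s.S, hf W k x j = s.y' j + (D.J *ᵥ sv (pr s.S s.sS x)) j -
      D.P * ((gM D.J s.S)ᵀ *ᵥ uu D s (pr s.S s.sS x)) j +
      D.P * ((gM D.J s.S)ᵀ * gM D.J s.S) j j * sv x j)
    (hs : (#s.S : ℝ) ≤ φ * n) (hd' : 256 * (del s ⬝ᵥ del s) ≤ φ * n) (hm : 5 * φ * n ≤ m1)
    (hb : (mean (ising D.J s.y) fun x => bad D.J S φ x s.y) ≤ b) :
    ∃ (Λ : ℝ) (xs : Cube n), (∀ x, nu D s x ≤ Λ * S1.pi D s x) ∧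
      Bf (nu D s ∘ pr s.S s.sS) (S1.pi D s ∘ pr s.S s.sS) Λ W k (S / 4) m1 xs (70 * m1) ≤
        exp (Dz D s) * (2 * b + exp (-(φ / (4608 * D.P) * n)) +
          exp (4 * √n * (s.L + nrm (del s))) * b) := by
  obtain ⟨x0, -, hx0⟩ := exists_min_image (univ : Finset (Cube n))
    (fun σ => del s ⬝ᵥ sv σ + s.Th σ) univ_nonempty
  have p0 := S1.C89.pr0 (s := s) h
  have wl := S1.C89.wt_loc (D := D) (s := s)
  have wi := S1.C89.wt_is D.J s.y
  have sp : ∀ x, loc D s x ≠ 0 → pr s.S s.sS x = x := fun x hx => funext fun j => by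
    unfold pr; split_ifs with hj
    · exact ((S1.C89.supp hx).1 j hj).symm
    · rfl
  obtain ⟨wn, l1⟩ := (hL n s.S s.sS).1 (nu D s) p0.hv fun x hx => sp x (left_ne_zero_of_mul hx)
  obtain ⟨-, l2⟩ := (hL n s.S s.sS).1 (S1.pi D s) p0.hw fun x hx => sp x (left_ne_zero_of_mul hx)
  have b0 := fun x => bad_nn D.J S φ x s.y
  have eb : (mean (ising D.J s.y) fun x => ell D s x * bad D.J S φ x s.y) ≤ b :=
    (wi.mean_mono fun x => mul_le_of_le_one_left (b0 x) (S1.C89.ell_le h x)).trans hb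
  refine ⟨exp (D.T0 - (del s ⬝ᵥ sv x0 + s.Th x0)), sg s.y, fun x => ?_, ?_⟩
  · rw [nu, S1.pi, Ta.wt, mul_left_comm, ← exp_add]
    exact mul_le_mul_of_nonneg_left ((h.fle x).trans (exp_le_exp.2 (by
      linarith [hx0 x (mem_univ _)]))) (wl.nn x)
  have t1 : (mean (nu D s ∘ pr s.S s.sS) fun x => ib m1 (na (hf W k x) (S / 4) x) +
      ib (70 * m1) (hd x (sg s.y))) ≤
      exp (Dz D s) * (2 * b + exp (-(φ / (4608 * D.P) * n))) := by
    refine (wn.mean_mono (g := (fun σ => 2 * bad D.J S φ σ s.y +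
      ib (φ / (4608 * D.P) * n) (U D s σ)) ∘ pr s.S s.sS) fun x => ?_).trans ?_
    · have := pt h s hS hφ (hf W k x) x (hu x) hs hd' hm
      simp only [Function.comp_apply]
      linarith [this.1, this.2]
    rw [(l1 _).1]
    refine (mean_nu h s fun x => add_nonneg (by linarith [b0 x]) (ib_nn _ _)).trans
      (mul_le_mul_of_nonneg_left ?_ (exp_pos _).le)
    simp only [mul_add, mean_add, mul_left_comm _ (2 : ℝ), mean_const_mul]
    linarith [wi.mean_le (ell_ib (D := D) s (φ / (4608 * D.P) * n))]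
  have t2 : exp (D.T0 - (del s ⬝ᵥ sv x0 + s.Th x0)) * (∑ x, (S1.pi D s ∘ pr s.S s.sS) x *
      ib (70 * m1) (hd x (sg s.y))) / ∑ x, (nu D s ∘ pr s.S s.sS) x ≤
      exp (Dz D s) * (exp (4 * √n * (s.L + nrm (del s))) * b) := by
    have e1 : ∑ x, (nu D s ∘ pr s.S s.sS) x = 2 ^ #s.S * ∑ x, nu D s x := by
      simpa only [mul_one, Function.comp_apply] using (l1 fun _ => 1).2.1
    have a1 : ∑ x, (S1.pi D s ∘ pr s.S s.sS) x * ib (70 * m1) (hd x (sg s.y)) ≤
        2 ^ #s.S * ∑ x, S1.pi D s x * bad D.J S φ x s.y := by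
      rw [← (l2 fun x => bad D.J S φ x s.y).2.1]
      exact sum_le_sum fun x _ => mul_le_mul_of_nonneg_left
        (pt h s hS hφ (hf W k x) x (hu x) hs hd' hm).2 (p0.hw.nn _)
    have a2 : exp (D.T0 - (del s ⬝ᵥ sv x0 + s.Th x0)) * ∑ x, S1.pi D s x * bad D.J S φ x s.y ≤
        exp (4 * √n * (s.L + nrm (del s))) * (exp D.T0 * ∑ x, loc D s x * bad D.J S φ x s.y) := by
      simp only [mul_sum]
      refine sum_le_sum fun x _ => ?_
      have := mul_le_mul_of_nonneg_right (exp_le_exp.2 (show D.T0 - (del s ⬝ᵥ sv x0 + s.Th x0) +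
        (del s ⬝ᵥ sv x + s.Th x) ≤ 4 * √n * (s.L + nrm (del s)) + D.T0 by
          linarith [osc hc x x0])) (mul_nonneg (wl.nn x) (b0 x))
      rw [exp_add, exp_add _ D.T0] at this
      rw [S1.pi, Ta.wt]
      linarith
    have z0 := p0.hv.pos
    calc _ ≤ exp (D.T0 - (del s ⬝ᵥ sv x0 + s.Th x0)) *
          (2 ^ #s.S * ∑ x, S1.pi D s x * bad D.J S φ x s.y) / (2 ^ #s.S * ∑ x, nu D s x) := by
          rw [e1]; gcongr
      _ = exp (D.T0 - (del s ⬝ᵥ sv x0 + s.Th x0)) *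
          (∑ x, S1.pi D s x * bad D.J S φ x s.y) / ∑ x, nu D s x := by field_simp
      _ ≤ exp (4 * √n * (s.L + nrm (del s))) * (exp D.T0 * ∑ x, loc D s x * bad D.J S φ x s.y) /
          ∑ x, nu D s x := div_le_div_of_nonneg_right a2 z0.le
      _ ≤ _ := by
          rw [mul_div_assoc, chg h, mul_left_comm]
          gcongr
  unfold Bf
  linarith

end M62

open M62

theorem massGlue : MassGlue := fun _ hL P hP S hS φ hφ κ1 hκ => by
  obtain ⟨d, hd⟩ : ∃ d, d = φ / (4608 * P) := ⟨_, rfl⟩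
  have d0 : 0 < d := by rw [hd]; positivity
  obtain ⟨r, r0, r1, r2, r3, r4⟩ : ∃ r : ℝ, 0 < r ∧ r ≤ 1 ∧ r ≤ κ1 / 18 ∧ r ≤ d / 2 ∧ r ≤ φ / 256 :=
    ⟨min (min 1 (κ1 / 18)) (min (d / 2) (φ / 256)), by positivity,
      (min_le_left _ _).trans (min_le_left _ _), (min_le_left _ _).trans (min_le_right _ _),
      (min_le_right _ _).trans (min_le_left _ _), (min_le_right _ _).trans (min_le_right _ _)⟩
  obtain ⟨k, k0, k1, k2⟩ : ∃ k : ℝ, 0 < k ∧ 4 * k ≤ κ1 ∧ 4 * k ≤ d :=
    ⟨min κ1 d / 4, by positivity, by linarith [min_le_left κ1 d], by linarith [min_le_right κ1 d]⟩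
  refine ⟨r ^ 2, by positivity, k, k0, ?_⟩
  filter_upwards [(tendsto_natCast_atTop_atTop (R := ℝ)).eventually_ge_atTop (3 / k)]
    with n hn D s e A t m1 h hD eP _ hc hz ht hm hb hu
  have n0 : (0 : ℝ) ≤ n := Nat.cast_nonneg n
  have hr : t ≤ r * n := ht.trans (mul_le_mul_of_nonneg_right (by nlinarith) n0)
  have q1 := mul_le_mul_of_nonneg_right r2 n0
  have q2 := mul_le_mul_of_nonneg_right r3 n0
  have q3 := mul_le_mul_of_nonneg_right r4 n0
  have q4 := mul_le_mul_of_nonneg_right k1 n0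
  have q5 := mul_le_mul_of_nonneg_right k2 n0
  have p0 : 0 ≤ φ * n := by positivity
  have rn : 0 ≤ r * n := by positivity
  obtain ⟨Λ, xs, h1, h2⟩ := core hL hD s hS p0 hc _ h hu (by linarith [hz.2.2.2])
    (by linarith [hz.2.1]) hm hb
  refine ⟨Λ, xs, h1, h2.trans ?_⟩
  have sq : (r * √n) ^ 2 = r ^ 2 * n := by rw [mul_pow, sq_sqrt n0]
  have s0 : 0 ≤ r * √n := by positivity
  have L1 : s.L ≤ r * √n := abs_le_of_sq_le_sq' (by linarith [hz.2.2.1]) s0 |>.2
  have L2 : nrm (del s) ≤ r * √n := (Eig.nrm_le_iff s0).2 (by linarith [hz.2.1])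
  have o : 4 * √n * (s.L + nrm (del s)) ≤ 8 * (r * n) := by
    have := mul_le_mul_of_nonneg_left (add_le_add L1 L2) (sqrt_nonneg (n : ℝ))
    nlinarith [mul_self_sqrt n0]
  have z := hz.1
  have E : ∀ a : ℝ, a ≤ -(2 * (k * n)) → exp a ≤ exp (-(k * n)) / 4 := fun a ha => by
    have h4 : 4 ≤ exp (k * n) := by
      have := (div_le_iff₀' k0).1 hn
      linarith [add_one_le_exp (k * n)]
    have := mul_le_mul_of_nonneg_left h4 (exp_pos a).le
    rw [← exp_add] at this
    linarith [exp_le_exp.2 (show a + k * n ≤ -(k * n) by linarith)]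
  rw [eP, ← hd]
  simp only [mul_add, mul_left_comm _ (2 : ℝ), ← exp_add]
  linarith [E (Dz D s + -(κ1 * n)) (by linarith), E (Dz D s + -(d * n)) (by linarith),
    E (Dz D s + (4 * √n * s.L + 4 * √n * nrm (del s) + -(κ1 * n))) (by linarith)]

end Crest.Agent.T157.En

end
end

-- ▼ part T157/S1EndBr_81
section

/-!
# Row 157, block B, S1 (helper81): the end of the scheme in the words of `S1Par`
-/

set_option autoImplicit false

noncomputable section

namespace Crest.Agent.T157.S1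

open MeasureTheory Real Matrix Finset Filter Topology
open Crest.ProbabilityR.SpinGlassDynamics
open Crest.Agent.T157.E Crest.Agent.T157.SL
open Crest.Agent.T157.Eig (nrm opn)
open Crest.Agent.T157.S3 (V Mx)
open Crest.Agent.T157.Top (Whp)

namespace Eb81

lemma endOK_mono {n : ℕ} {J : Mx n} {P η0 θ a cE g1 CE ME ME' ω ec ec' t K K' : ℝ} {fe : Fy n}
    (h : EndOK J P η0 θ fe a cE g1 CE ME ω ec t K) (h1 : ec' ≤ ec) (h2 : ME ≤ ME') (h3 : K ≤ K') :
    EndOK J P η0 θ fe a cE g1 CE ME' ω ec' t K' := fun D s d e1 e2 e3 e4 c z => by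
  have := h D s d e1 e2 e3 e4 ⟨c.L0, c.gr, fun x => ⟨(c.rg x).1.trans h1, (c.rg x).2.1.trans h1,
    (c.rg x).2.2⟩, c.ex, fun x => (c.ts x).trans h1⟩ z
  have n0 : ∀ x, 0 ≤ nu D s x := fun x => mul_nonneg (mul_nonneg (exp_pos _).le (by
    unfold ell; split_ifs; exacts [(exp_pos _).le, le_rfl])) (d.fpos x).le
  have x0 : 0 ≤ Ex D s := sum_nonneg fun x _ =>
    mul_nonneg (div_nonneg (n0 x) (sum_nonneg fun y _ => n0 y)) (sq_nonneg _)
  linarith [mul_le_mul_of_nonneg_right h2 x0]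

lemma whp_opn : Whp disorderLaw fun n g => opn (Jmat n g) ≤ 3 := by
  have h : Tendsto (fun n : ℕ => 2 * exp (-(n * 1 ^ 2 / 4))) atTop (𝓝 0) := by
    simpa using (tendsto_exp_neg_atTop_nhds_zero.comp ((tendsto_natCast_atTop_atTop (R := ℝ)
      ).atTop_div_const (r := 4) four_pos)).const_mul 2
  refine Top.whp_of_real_le h (.of_forall fun n => ?_)
  refine (measureReal_mono fun g hg => ?_).trans (Nrm.Jmat_opn_tail zero_le_one)
  have : 3 < opn (Jmat n g) := not_le.1 hg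
  exact le_trans (by norm_num) this.le

lemma ev_S {c C : ℝ} (hc : 0 < c) (hC : 0 < C) :
    ∀ᶠ S : ℝ in atTop, C * (S ^ 20) ^ 3 * √(exp (-(c * S))) ≤ (S ^ 3)⁻¹ := by
  have h := (tendsto_pow_mul_exp_neg_atTop_nhds_zero 63).comp
    (tendsto_id.const_mul_atTop (half_pos hc))
  filter_upwards [h.eventually (ge_mem_nhds (show 0 < (c / 2) ^ 63 / C by positivity)),
    eventually_gt_atTop 0] with S h1 h2
  simp only [Function.comp, id, mul_pow] at h1
  rw [le_div_iff₀ hC, mul_assoc, mul_assoc] at h1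
  have h3 := le_of_mul_le_mul_left (h1.trans_eq (mul_one _).symm) (by positivity)
  rw [← exp_half, show -(c * S) / 2 = -(c / 2 * S) by ring, ← one_div, le_div_iff₀ (by positivity)]
  refine le_of_eq_of_le ?_ h3
  ring

lemma ev_n {δ κ : ℝ} (hδ : 0 < δ) (hκ : 0 < κ) :
    ∀ᶠ n : ℕ in atTop, (n : ℝ) ^ (1 - δ) ≤ κ * n := by
  filter_upwards [((tendsto_rpow_atTop hδ).comp tendsto_natCast_atTop_atTop).eventually_ge_atTop κ⁻¹,
    eventually_gt_atTop 0] with n h hn
  have n0 : (0 : ℝ) < n := by exact_mod_cast hn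
  rw [rpow_sub n0, rpow_one, div_le_iff₀ (by positivity), mul_right_comm]
  exact le_mul_of_one_le_left n0.le ((inv_le_iff_one_le_mul₀' hκ).1 h)

lemma ev_3 {κ : ℝ} (hκ : 0 < κ) : ∀ᶠ n : ℕ in atTop, (n : ℝ) ^ 3 * exp (-(κ * n)) ≤ 1 := by
  have h := (tendsto_pow_mul_exp_neg_atTop_nhds_zero 3).comp
    ((tendsto_natCast_atTop_atTop (R := ℝ)).const_mul_atTop hκ)
  filter_upwards [h.eventually (ge_mem_nhds (pow_pos hκ 3))] with n h1
  simp only [Function.comp, mul_pow] at h1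
  rw [mul_assoc] at h1
  exact le_of_mul_le_mul_left (h1.trans_eq (mul_one _).symm) (by positivity)

end Eb81

open Eb81

theorem endBr (hA : Rv.At0) (hE : En.EndStmt) (hT : En.TypStmt) (hF : En.FeStmt) {β : ℝ}
    (h0 : 0 < β) (h1 : β < 1) : EndStmt β := by
  intro ab a' a0 a1 a2
  obtain ⟨κ, k0, k1, k2, k3⟩ : ∃ κ : ℝ, 0 < κ ∧ κ ≤ 1 / 4 ∧ κ ≤ (a' - ab) / 4 ∧ κ ≤ 1 - a' :=
    ⟨min (1 / 4) (min ((a' - ab) / 4) (1 - a')), lt_min (by norm_num) (lt_min (by linarith)
      (by linarith)), min_le_left _ _, (min_le_right _ _).trans (min_le_left _ _),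
      (min_le_right _ _).trans (min_le_right _ _)⟩
  obtain ⟨C, C1, hE⟩ := hE κ ⟨k0, k1⟩
  obtain ⟨K0, -, hA⟩ := hA β h0.le h1
  obtain ⟨c, c0, c1, S1, hT⟩ := hT K0 1 one_pos
  obtain ⟨S2, hS⟩ := eventually_atTop.1 (ev_S c0 (by linarith : 0 < C))
  refine ⟨κ / 16, by positivity, 16 / κ, (one_le_div k0).2 (by linarith), max C (max S1 S2),
    fun S P η0 s0 p1 p2 e0 e1 ω ω0 => ?_⟩
  simp only [max_le_iff] at s0
  obtain ⟨s1, s2, s3⟩ := s0
  have s4 : 1 ≤ S := C1.trans s1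
  obtain ⟨κ1, q0, hT⟩ := hT S s2
  obtain ⟨ec0, r0, ME, M1, δ0, d0, hE⟩ := hE P S (exp (-(c * S))) (S ^ 3)⁻¹ p1 s1
    (exp_le_exp.2 (by nlinarith)) (le_trans (by gcongr) (hS S s3))
    (inv_le_one_of_one_le₀ (one_le_pow₀ s4)) η0 ω κ1 e0 ω0 q0
  have e2 : 16 * η0 ≤ κ := by rwa [div_mul_eq_mul_div, div_le_one k0] at e1
  refine ⟨max ME ec0⁻¹, fun ec δ e r1 r2 δ0' _ e' => ?_⟩
  have r3 : ec ≤ ec0 := by
    have := (mul_le_mul_of_nonneg_right (le_max_right ME ec0⁻¹) r1).trans r2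
    rwa [inv_mul_le_iff₀ r0, mul_one] at this
  refine ((hA.and Rip.whp_spJ').and whp_opn).mono ?_
  filter_upwards [hE, hT, ev_n δ0' d0, ev_n δ0' q0, ev_3 q0,
    ((tendsto_rpow_atTop e').comp tendsto_natCast_atTop_atTop).eventually_ge_atTop ME]
    with n b1 b2 b3 b4 b5 b6 g ⟨⟨g1, g2⟩, g3⟩
  have hb : |β| ≤ 1 := by rw [abs_of_pos h0]; exact h1.le
  refine ⟨En.fe (β • Jmat n g) S (exp (-(c * S))) κ1, (hF n _ _ _ _).1, endOK_mono
    (b1 _ ab a' _ (g2.smul (by norm_num) hb) a0.le (by linarith) (by linarith) (by linarith) b3)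
    r3 (le_max_left _ _) b6, fun f hf => ?_⟩
  have b7 := b2 (β • Jmat n g) (by rw [transpose_smul, Jmat_transpose])
    (by rw [Eig.opn_smul]; nlinarith [Eig.opn_nonneg (Jmat n g), abs_nonneg β])
    (by rw [Bas, ← gibbsWeight_eq_ising]; exact Atd.atd_of_at g1 (exp_pos _).le)
  refine ((hF n _ _ _ _).2 f _ (by linarith) fun x => ⟨(hf.1 x).le, hf.2.2 x⟩).trans
    (le_trans ?_ b5)
  refine (mul_le_mul_of_nonneg_left b7 (by positivity)).trans ?_
  rw [mul_assoc, ← exp_add]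
  exact mul_le_mul_of_nonneg_left (exp_le_exp.2 (by linarith)) (by positivity)

end Crest.Agent.T157.S1

end
end

-- ▼ part T157/EnAll_40
section

/-!
# Row 157, block B, S1: the END is closed (helper40)
-/

namespace Crest.Agent.T157.En

theorem resStmt : ResStmt := resGlue goodStmt
theorem trStmt : TrStmt := trGlue resStmt ksStmt
theorem t0Stmt : T0Stmt := t0Glue goodStmt resStmt ksStmt
theorem epsStmt : EpsStmt := epsGlue lipStmt ksStmt trStmt t0Stmt
theorem stepStmt : StepStmt := stepGlue epsStmt bdStmt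
theorem coreStmt : CoreStmt := coreGlue40 epsStmt stepStmt utStmt
theorem massStmt : MassStmt := massGlue S1.crudeStmt liftStmt
theorem endStmt : EndStmt := endGlue S1.crudeStmt coreStmt liftStmt pinStmt massStmt

/-- the END of the scheme in the words of `S1Par_97` -/
theorem endS1 (hA : Rv.At0) {β : ℝ} (h0 : 0 < β) (h1 : β < 1) : S1.EndStmt β :=
  S1.endBr hA endStmt typStmt feStmt26 h0 h1

end Crest.Agent.T157.En
end

-- ▼ part T157/BAll_88

/-!
# Row 157: the top of part B, with the closed blocks plugged in (helper88)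
-/

set_option autoImplicit false

namespace Crest.Agent.T157.TopZ

theorem endF : EndF := fun _ => En.endS1 Rv.at0

theorem limF_KF (h : Zf.FOut) : LimF KF := by
  rintro β h0 h1 _ ⟨r, hr, k, m, E, hE, hB, rfl⟩
  exact Zf.limK h h0.le h1 hE hB k hr

theorem has_KF (β : ℝ) : Kz.Has β (QF β KF) := fun r hr k m E hE hB =>
  ⟨_, ⟨_, ⟨r, hr, k, m, E, hE, hB, rfl⟩, rfl⟩, rfl⟩

/-- the local supply at the rate of the towers -/
def LocF : Prop := ∀ 𝒞 : Tw.Cls, (∀ m, 𝒞.C m = Tw.PV m) → ∀ β, 0 < β → β < 1 →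
  Kz.LocSup β (Tw.lam 𝒞 β)

/-- **S0230** from the open statements -/
theorem r30_B (hS : S1.S1Out) (hP : K.PhiStmt) (hF : Zf.FOut) (hZ : Kz.ZSup) (hL : LocF) :
    Top.R30 :=
  r30_KF Lm.outStmt hS endF hP (limF_KF hF) fun 𝒞 h𝒞 β h0 h1 =>
    hZ β ⟨h0, h1⟩ _ _ (has_KF β) (hL 𝒞 h𝒞 β h0 h1)

end Crest.Agent.T157.TopZ
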