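import Crest.Agent.T157.ZLip_85
import Crest.Agent.T157.ZApB_11
import Crest.Agent.T157.ConcL_16
import Crest.Agent.T157.NrmG_84
import Crest.Agent.T157.KDef_36

-- ▼ part T157/KBpA_91
section

/-!
# Row 157, part B, block S5 (helper91): certificates of back-propagation through a network
-/

set_option autoImplicit false

noncomputable section

namespace Crest.Agent.T157.K.Bp91

open Real Matrix Finset
open Crest.Agent.T157.Eig
open Crest.Agent.T157.Tap (V Mx avg)
open Crest.Agent.T157.Z (Nt Nw Bd cp nA tJ)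
open Crest.Agent.T157.Z.L85

/-! ### growth in the level -/

/-- at most exponential -/
def Gr (s : ℝ → ℝ) : Prop := ∃ C, ∀ Λ, 1 ≤ Λ → |s Λ| ≤ exp (C * Λ)

lemma Gr.const (c : ℝ) : Gr fun _ => c := ⟨|c|, fun Λ h =>
  (le_mul_of_one_le_right (abs_nonneg c) h).trans (by linarith [add_one_le_exp (|c| * Λ)])⟩

lemma Gr.id : Gr fun Λ => Λ := ⟨1, fun Λ h => by
  rw [abs_of_nonneg (by linarith), one_mul]; linarith [add_one_le_exp Λ]⟩

lemma Gr.mul {s t : ℝ → ℝ} (hs : Gr s) (ht : Gr t) : Gr fun Λ => s Λ * t Λ := by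
  obtain ⟨C, hC⟩ := hs
  obtain ⟨D, hD⟩ := ht
  refine ⟨C + D, fun Λ h => ?_⟩
  rw [abs_mul, add_mul, exp_add]
  exact mul_le_mul (hC Λ h) (hD Λ h) (abs_nonneg _) (exp_pos _).le

lemma Gr.add {s t : ℝ → ℝ} (hs : Gr s) (ht : Gr t) : Gr fun Λ => s Λ + t Λ := by
  obtain ⟨C, hC⟩ := hs
  obtain ⟨D, hD⟩ := ht
  refine ⟨max C D + 1, fun Λ h => (abs_add_le _ _).trans ?_⟩
  have h1 := (hC Λ h).trans (exp_le_exp.2 (mul_le_mul_of_nonneg_right (le_max_left C D) (by linarith)))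
  have h2 := (hD Λ h).trans (exp_le_exp.2 (mul_le_mul_of_nonneg_right (le_max_right C D) (by linarith)))
  rw [add_mul, exp_add, one_mul]
  nlinarith [add_one_le_exp Λ, exp_pos (max C D * Λ)]

lemma Gr.sum {I : Type} (S : Finset I) {s : I → ℝ → ℝ} (h : ∀ l, Gr (s l)) :
    Gr fun Λ => ∑ l ∈ S, s l Λ := by
  classical
  induction S using Finset.induction_on with
  | empty => simpa using Gr.const 0
  | insert a S ha ih => simpa only [sum_insert ha] using (h a).add ih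

/-! ### classes -/

variable {n : ℕ} {ι : Type} [Fintype ι]

/-- rows and weights -/
abbrev Pa (ι : Type) (n : ℕ) : Type := (ι → V n) × V n
/-- distance -/
def dn (p q : Pa ι n) : ℝ := nA (p.1 - q.1) + nrm (p.2 - q.2)

lemma dn_nonneg (p q : Pa ι n) : 0 ≤ dn p q := add_nonneg (nA_nonneg _) (nrm_nonneg _)

lemma cont_of_lip {R : Pa ι n → ℝ} {M : ℝ} (h : ∀ p q, |R p - R q| ≤ M * dn p q) : Continuous R := by
  refine continuous_iff_continuousAt.2 fun x => tendsto_iff_norm_sub_tendsto_zero.2 ?_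
  have c : Continuous fun y => M * dn y x := by
    have := continuous_nrm (ι := Fin n)
    unfold dn nA; fun_prop
  have h1 := c.tendsto x
  rw [show dn x x = 0 by simp [dn, nA], mul_zero] at h1
  exact squeeze_zero (fun _ => norm_nonneg _) (fun y => h y x) h1

/-- odd and Lipschitz -/
structure OL (M : ℝ) (u : Pa ι n → V n) : Prop where
  nn : 0 ≤ M
  odd : ∀ p, u (-p) = -u p
  lip : ∀ p q, nrm (u p - u q) ≤ M * dn p q
/-- with bounded entries -/
structure OB (M : ℝ) (u : Pa ι n → V n) : Prop extends OL M u where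
  sup : ∀ p i, |u p i| ≤ M
/-- bounded and continuous -/
def BC (R : Pa ι n → ℝ) : Prop := Continuous R ∧ ∃ B, ∀ p, |R p| ≤ B
/-- a second moment functional with tails `δ` at the level `Λ` -/
structure Fn (Λ δ : ℝ) (T : (Pa ι n → ℝ) → ℝ) : Prop where
  d0 : 0 ≤ δ
  le : ∀ R R1 R2 c, BC R → BC R1 → BC R2 → 0 ≤ c → (∀ p, R p ^ 2 ≤ c * (R1 p ^ 2 + R2 p ^ 2)) →
    T R ≤ c * (T R1 + T R2)
  cc : ∀ u L, 0 < L → OL L u → T (fun p => nrm (u p - cp (Λ * L) (u p))) ≤ L ^ 2 * δ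
/-- errors -/
structure EC (Λ M : ℝ) (R : Pa ι n → ℝ) : Prop where
  nn : ∀ p, 0 ≤ R p
  bd : ∃ B, ∀ p, R p ≤ B
  lip : ∀ p q, |R p - R q| ≤ M * dn p q
  tl : ∀ δ T, Fn Λ δ T → T R ≤ M ^ 2 * δ
/-- certificate -/
def Ct (Λ M : ℝ) (G : Pa ι n → V n) : Prop :=
  ∃ B R, OB M B ∧ EC Λ M R ∧ ∀ p, nrm (G p - B p) ≤ R p

variable {Λ M M' a b c : ℝ} {u v w G G' : Pa ι n → V n} {R R' : Pa ι n → ℝ}

lemma OB.mono (h : OB M u) (hM : M ≤ M') : OB M' u :=
  ⟨⟨h.nn.trans hM, h.odd, fun p q => (h.lip p q).trans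
    (mul_le_mul_of_nonneg_right hM (dn_nonneg p q))⟩, fun p i => (h.sup p i).trans hM⟩

lemma OB.zero (hM : 0 ≤ M) : OB M fun _ : Pa ι n => (0 : V n) :=
  ⟨⟨hM, fun _ => neg_zero.symm, fun p q => by simpa using mul_nonneg hM (dn_nonneg p q)⟩,
    fun _ _ => by simpa using hM⟩

lemma OB.add (h : OB M u) (h' : OB M' v) : OB (M + M') fun p => u p + v p :=
  ⟨⟨add_nonneg h.nn h'.nn, fun p => by rw [h.odd, h'.odd, neg_add], fun p q => by
    rw [add_sub_add_comm, add_mul]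
    exact (nrm_add_le _ _).trans (add_le_add (h.lip p q) (h'.lip p q))⟩,
    fun p i => (abs_add_le _ _).trans (add_le_add (h.sup p i) (h'.sup p i))⟩

lemma OB.sc (hu : OB a u) (hv : OB b v) (hw : OB c w) :
    OB (3 * (a * b * c)) fun p => avg (u p * v p) • w p := by
  have a0 := hu.nn
  have b0 := hv.nn
  have c0 := hw.nn
  refine ⟨⟨by positivity, fun p => by rw [hu.odd, hv.odd, hw.odd, neg_mul_neg, smul_neg],
    fun p q => ?_⟩, fun p i => ?_⟩
  · have e : avg (u p * v p) • w p - avg (u q * v q) • w q = avg (u p * v p) • (w p - w q) +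
        (avg ((u p - u q) * v p) • w q + avg ((v p - v q) * u q) • w q) := by
      rw [← add_smul, smul_sub, sub_add, ← sub_smul]
      congr 2
      simp only [avg_mul, sub_dotProduct, dotProduct_comm (v p), dotProduct_comm (v q)]
      ring
    have g1 := mul_le_mul (abs_avg_le (hu.sup p) (hv.sup p)) (hw.lip p q) (nrm_nonneg _)
      (by positivity)
    have g2 := (abs_avg_mul_le (u := u p - u q) (hv.sup p) (hw.sup q)).trans
      (mul_le_mul_of_nonneg_left (hu.lip p q) (by positivity))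
    have g3 := (abs_avg_mul_le (u := v p - v q) (hu.sup q) (hw.sup q)).trans
      (mul_le_mul_of_nonneg_left (hv.lip p q) (by positivity))
    rw [abs_of_nonneg a0, abs_of_nonneg b0] at g1
    rw [abs_of_nonneg b0, abs_of_nonneg c0] at g2
    rw [abs_of_nonneg a0, abs_of_nonneg c0] at g3
    rw [e]
    refine (nrm_add_le _ _).trans ((add_le_add le_rfl (nrm_add_le _ _)).trans ?_)
    rw [nrm_smul, nrm_smul, nrm_smul]
    linarith
  · have g := mul_le_mul (abs_avg_le (hu.sup p) (hv.sup p)) (hw.sup p i) (abs_nonneg _)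
      (by positivity)
    rw [abs_of_nonneg a0, abs_of_nonneg b0] at g
    rw [Pi.smul_apply, smul_eq_mul, abs_mul]
    linarith [show 0 ≤ a * b * c by positivity]

/-- an even bounded multiplier -/
lemma OB.ev {d : Pa ι n → V n} (hv : OB a v) (b0 : 0 ≤ b) (he : ∀ p, d (-p) = d p)
    (hs : ∀ p i, |d p i| ≤ b) (hl : ∀ p q, nrm (d p - d q) ≤ b * dn p q) :
    OB (2 * (b * a)) fun p => d p * v p := by
  have a0 := hv.nn
  have t : ∀ (x y : V n) (c : ℝ), 0 ≤ c → (∀ i, |x i| ≤ c) → nrm (x * y) ≤ c * nrm y :=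
    fun x y c c0 h => (nrm_mono (v := c • y) fun i => by
      rw [Pi.mul_apply, Pi.smul_apply, smul_eq_mul, abs_mul, abs_mul, abs_of_nonneg c0]
      exact mul_le_mul_of_nonneg_right (h i) (abs_nonneg _)).trans_eq (by
        rw [nrm_smul, abs_of_nonneg c0])
  refine ⟨⟨by positivity, fun p => by rw [he, hv.odd, mul_neg], fun p q => ?_⟩, fun p i => ?_⟩
  · rw [show d p * v p - d q * v q = d p * (v p - v q) + v q * (d p - d q) by ring]
    have g1 := (t _ (v p - v q) b b0 (hs p)).trans (mul_le_mul_of_nonneg_left (hv.lip p q) b0)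
    have g2 := (t _ (d p - d q) a a0 (hv.sup q)).trans (mul_le_mul_of_nonneg_left (hl p q) a0)
    linarith [nrm_add_le (d p * (v p - v q)) (v q * (d p - d q))]
  · rw [Pi.mul_apply, abs_mul]
    linarith [mul_le_mul (hs p i) (hv.sup p i) (abs_nonneg _) b0, mul_nonneg b0 a0]

lemma clip_lip (η s t : ℝ) : |max (-η) (min η s) - max (-η) (min η t)| ≤ |s - t| ∧
    |s - max (-η) (min η s) - (t - max (-η) (min η t))| ≤ |s - t| := by
  simp only [max_def, min_def, abs_le]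
  rcases abs_cases (s - t) with h | h <;> split_ifs <;> refine ⟨⟨?_, ?_⟩, ?_, ?_⟩ <;> linarith

lemma OL.clip {η : ℝ} (h : OL M u) (hη : M ≤ η) : OB η fun p => cp η (u p) :=
  ⟨⟨h.nn.trans hη, fun p => funext fun i => by
    rw [h.odd]; exact Z.ApB11.clip_neg (h.nn.trans hη) _, fun p q =>
      (nrm_mono (v := u p - u q) fun i => (clip_lip η _ _).1).trans ((h.lip p q).trans
        (mul_le_mul_of_nonneg_right hη (dn_nonneg p q)))⟩, fun p => abs_cp_le (h.nn.trans hη) _⟩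

lemma EC.bc (h : EC Λ M R) : BC R :=
  ⟨cont_of_lip h.lip, h.bd.imp fun _ hB p => by rw [abs_of_nonneg (h.nn p)]; exact hB p⟩

lemma EC.mono (h : EC Λ M R) (M0 : 0 ≤ M) (hM : M ≤ M') : EC Λ M' R :=
  ⟨h.nn, h.bd, fun p q => (h.lip p q).trans (mul_le_mul_of_nonneg_right hM (dn_nonneg p q)),
    fun δ T hT => (h.tl δ T hT).trans
      (mul_le_mul_of_nonneg_right (pow_le_pow_left₀ M0 hM 2) hT.d0)⟩

lemma EC.zero (hM : 0 ≤ M) : EC Λ M fun _ : Pa ι n => 0 :=
  ⟨fun _ => le_rfl, ⟨0, fun _ => le_rfl⟩, fun p q => by simpa using mul_nonneg hM (dn_nonneg p q),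
    fun δ T hT => by
      have z : BC fun _ : Pa ι n => (0 : ℝ) := ⟨continuous_const, 0, fun _ => by simp⟩
      linarith [hT.le _ _ _ 0 z z z le_rfl fun _ => by simp, mul_nonneg (sq_nonneg M) hT.d0]⟩

lemma EC.comb (h : EC Λ M R) (h' : EC Λ M' R') (M0 : 0 ≤ M) (M1 : 0 ≤ M') (c0 : 0 ≤ c) :
    EC Λ (2 * c * (M + M')) fun p => c * (R p + R' p) := by
  obtain ⟨B, hB⟩ := h.bd
  obtain ⟨B', hB'⟩ := h'.bd
  have l : ∀ p q, |c * (R p + R' p) - c * (R q + R' q)| ≤ 2 * c * (M + M') * dn p q := fun p q => by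
    rw [← mul_sub, add_sub_add_comm, abs_mul, abs_of_nonneg c0]
    have := mul_le_mul_of_nonneg_left
      ((abs_add_le _ _).trans (add_le_add (h.lip p q) (h'.lip p q))) c0
    linarith [mul_nonneg c0 (mul_nonneg (add_nonneg M0 M1) (dn_nonneg p q))]
  have n0 : ∀ p, 0 ≤ c * (R p + R' p) := fun p => mul_nonneg c0 (add_nonneg (h.nn p) (h'.nn p))
  have bd : ∀ p, c * (R p + R' p) ≤ c * (B + B') := fun p =>
    mul_le_mul_of_nonneg_left (add_le_add (hB p) (hB' p)) c0
  refine ⟨n0, ⟨_, bd⟩, l, fun δ T hT => ?_⟩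
  have h1 := hT.le _ R R' (2 * c ^ 2) ⟨cont_of_lip l, _, fun p => (abs_of_nonneg (n0 p)).trans_le (bd p)⟩
    h.bc h'.bc (by positivity) fun p => by
      nlinarith [mul_nonneg (sq_nonneg c) (sq_nonneg (R p - R' p))]
  have h2 := mul_le_mul_of_nonneg_left (add_le_add (h.tl δ T hT) (h'.tl δ T hT))
    (show 0 ≤ 2 * c ^ 2 by positivity)
  have := hT.d0
  linarith [show 0 ≤ c ^ 2 * M ^ 2 * δ by positivity, show 0 ≤ c ^ 2 * M' ^ 2 * δ by positivity,
    show 0 ≤ c ^ 2 * (M * M') * δ by positivity]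

lemma EC.clip (h : OL M u) (hM : 0 < M) (hΛ : 0 ≤ Λ) (hb : ∃ B, ∀ p, nrm (u p) ≤ B) :
    EC Λ M fun p => nrm (u p - cp (Λ * M) (u p)) := by
  have l : ∀ x y : V n, |nrm (x - cp (Λ * M) x) - nrm (y - cp (Λ * M) y)| ≤ nrm (x - y) :=
    fun x y => by
      simp only [← Nrm.en_eq_nrm]
      refine (Conc.abs_en_sub_le _ _).trans ?_
      simp only [Nrm.en_eq_nrm]
      exact nrm_mono fun i => (clip_lip _ _ _).2
  refine ⟨fun _ => nrm_nonneg _, hb.imp fun B hB p => le_trans (nrm_mono fun i => ?_) (hB p),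
    fun p q => (l _ _).trans (h.lip p q), fun δ T hT => hT.cc u M hM h⟩
  have := (clip_lip (Λ * M) (u p i) 0).2
  have e := mul_nonneg hΛ hM.le
  rwa [min_eq_right e, max_eq_right (neg_nonpos.2 e), sub_zero, sub_zero, sub_zero] at this

lemma Ct.nn (h : Ct Λ M G) : 0 ≤ M := let ⟨_, _, h, _⟩ := h; h.nn

lemma Ct.mono (h : Ct Λ M G) (hM : M ≤ M') : Ct Λ M' G :=
  let ⟨B, R, h1, h2, h3⟩ := h
  ⟨B, R, h1.mono hM, h2.mono h1.nn hM, h3⟩

lemma OB.ct (h : OB M G) : Ct Λ M G := ⟨G, _, h, .zero h.nn, fun _ => by simp⟩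

lemma Ct.add (h : Ct Λ M G) (h' : Ct Λ M' G') : Ct Λ (2 * (M + M')) fun p => G p + G' p := by
  obtain ⟨B, R, h1, h2, h3⟩ := h
  obtain ⟨B', R', k1, k2, k3⟩ := h'
  refine ⟨_, _, (h1.add k1).mono (by linarith [h1.nn, k1.nn]), by
    simpa only [mul_one] using h2.comb k2 h1.nn k1.nn zero_le_one, fun p => ?_⟩
  rw [add_sub_add_comm, one_mul]
  exact (nrm_add_le _ _).trans (add_le_add (h3 p) (k3 p))

lemma Ct.sum {I : Type} (S : Finset I) {M : I → ℝ} {G : I → Pa ι n → V n}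
    (h : ∀ l, Ct Λ (M l) (G l)) : Ct Λ (2 ^ #S * ∑ l ∈ S, M l) fun p => ∑ l ∈ S, G l p := by
  classical
  induction S using Finset.induction_on with
  | empty => simpa using (OB.zero le_rfl).ct
  | insert a S ha ih =>
    simp only [sum_insert ha, card_insert_of_notMem ha, pow_succ]
    refine ((h a).add ih).mono ?_
    linarith [le_mul_of_one_le_left (h a).nn (one_le_pow₀ (n := #S) (one_le_two (α := ℝ)))]

/-! ### the adjoint -/

variable [DecidableEq ι]

/-- transposed Jacobian in the row `j` -/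
def ad (F : (ι → V n) → V n) (j : ι) (a : ι → V n) (v : V n) : V n := fun k =>
  fderiv ℝ (fun a' => v ⬝ᵥ F a') a (Pi.single j (Pi.single k 1))

lemma grad_row {f : (ι → V n) → ℝ} (hf : Differentiable ℝ f) (a : ι → V n) (j : ι) (x : V n) :
    Conc.grad (fun h => f (a + Pi.single j h)) x =
      fun k => fderiv ℝ f (a + Pi.single j x) (Pi.single j (Pi.single k 1)) := by
  funext k
  have := (hf (a + Pi.single j x)).hasFDerivAt.comp x
    ((ContinuousLinearMap.single ℝ (fun _ : ι => V n) j).hasFDerivAt.const_add a)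
  exact congrArg (· (Pi.single k 1)) this.fderiv

lemma nA_single (j : ι) (x : V n) : nA (Pi.single j x : ι → V n) = nrm x := by
  rw [nA, sum_eq_single j (fun l _ h => by simp [h]) (by simp), Pi.single_eq_same]

lemma ad_sub {F : (ι → V n) → V n} {L : ℝ} (hF : Differentiable ℝ F) (L0 : 0 ≤ L)
    (hL : ∀ a a', nrm (F a - F a') ≤ L * nA (a - a')) (j : ι) (a : ι → V n) (v v' : V n) :
    nrm (ad F j a v - ad F j a v') ≤ L * nrm (v - v') := by
  have e : ad F j a v - ad F j a v' = ad F j a (v - v') := by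
    funext k; simp only [ad, Pi.sub_apply, Z.ApB11.fd_dot (hF a)]; rw [sub_dotProduct]
  have d : Differentiable ℝ fun a' => (v - v') ⬝ᵥ F a' := fun a =>
    (Z.ApB11.hd_dot (hF a).hasFDerivAt _).differentiableAt
  have h : Conc.ELip (L * nrm (v - v')) fun h => (v - v') ⬝ᵥ F (a + Pi.single j h) := fun x y => by
    rw [← dotProduct_sub, Nrm.en_eq_nrm, mul_comm L, mul_assoc]
    refine (abs_dot_le _ _).trans (mul_le_mul_of_nonneg_left ((hL _ _).trans_eq ?_) (nrm_nonneg _))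
    rw [add_sub_add_left_eq_sub, ← Pi.single_sub, nA_single]
  have h1 := h.gr2_le 0
  rw [Conc.gr2_eq, grad_row d, Pi.single_zero, add_zero, Nrm.en_eq_nrm] at h1
  rw [e]
  exact (pow_le_pow_iff_left₀ (nrm_nonneg _) (mul_nonneg L0 (nrm_nonneg _)) two_ne_zero).1 h1

omit [DecidableEq ι] in
lemma lipA {sm : Prop} {X : Nt ι} (h : Nw sm X) :
    ∃ L ≥ (0 : ℝ), ∀ n J a a', nrm (X n J a - X n J a') ≤ L * nA (a - a') :=
  let ⟨L, L0, hL⟩ := lip h
  ⟨L, L0, fun n J a a' => by simpa using hL n J J a a'⟩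

omit [DecidableEq ι] in
lemma ob_net {sm : Prop} {X : Nt ι} (h : Nw sm X) (hb : Bd X) :
    ∃ M, ∀ n J, OB M fun p : Pa ι n => X n J p.1 := by
  obtain ⟨L, L0, hL⟩ := lipA h
  obtain ⟨M, hM⟩ := hb
  exact ⟨L + |M|, fun n J => ⟨⟨by positivity, fun p => odd h n J p.1, fun p q => (hL n J _ _).trans
    (mul_le_mul (by linarith [abs_nonneg M]) (le_add_of_nonneg_right (nrm_nonneg _)) (nA_nonneg _)
      (by positivity))⟩, fun p i => (hM n J _ i).trans (by linarith [le_abs_self M])⟩⟩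

/-- **back-propagation with certificates** -/
theorem net {X : Nt ι} (hX : Nw True X) (j : ι) : ∀ s, Gr s → ∃ M, Gr M ∧ ∀ n J Λ, 1 ≤ Λ →
    ∀ v : Pa ι n → V n, OB (s Λ) v → Ct Λ (M Λ) fun p => ad (X n J) j p.1 (v p) := by
  induction hX with
  | inp j' =>
    refine fun s hs => ⟨s, hs, fun n J Λ _ v hv => ?_⟩
    have e : ∀ p : Pa ι n, ad (fun a => a j') j p.1 (v p) = if j' = j then v p else 0 := fun p => by
      funext k
      rw [ad, Z.ApB11.fd_dot (differentiableAt_apply j' p.1), (hasFDerivAt_apply j' p.1).fderiv]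
      by_cases h : j' = j <;> simp [h]
    simp only [e]
    split_ifs
    exacts [hv.ct, (OB.zero hv.nn).ct]
  | @map m φ X ho hs hX ih =>
    intro s hG
    choose K K0 hK using fun l => lipA (hX l)
    choose he L hL B hB using fun l =>
      (show (∀ u, _) ∧ ∃ L, _ ∧ ∃ B, _ from
        let ⟨h1, ⟨L, h2⟩, h3⟩ := Z.ApB11.el_d ho (hs trivial) l
        ⟨h1, L, h2, h3⟩)
    choose M hM hC using fun l => ih l _ ((Gr.const 2).mul
      ((Gr.const (|B l| + L l * ∑ k, K k)).mul hG))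
    refine ⟨_, (Gr.const (2 ^ #(univ : Finset (Fin m)))).mul (Gr.sum univ hM), fun n J Λ h1 v hv => ?_⟩
    have S0 : 0 ≤ ∑ k, K k := sum_nonneg fun k _ => K0 k
    convert Ct.sum univ fun l => hC l n J Λ h1 _ (hv.ev
      (d := fun p i => fderiv ℝ φ (fun l => X l n J p.1 i) (Pi.single l 1)) (by positivity)
      (fun p => funext fun i => ?_) (fun p i => (hB l _).trans ?_) fun p q => ?_) using 2 with p
    · funext k
      rw [ad, Z.ApB11.fd_map (hs trivial).1 fun l => diff (hX l) n J p.1, Finset.sum_apply]; rfl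
    · refine Eq.trans ?_ (he l fun k => X k n J p.1 i)
      simp only [Prod.fst_neg, odd (hX _)]; rfl
    · linarith [le_abs_self (B l), mul_nonneg (L l).coe_nonneg S0]
    · refine (Z.ApB11.nrm_map (hL l) (fun k => X k n J p.1) fun k => X k n J q.1).trans ?_
      have h2 : ∑ k, nrm (X k n J p.1 - X k n J q.1) ≤ (∑ k, K k) * dn p q := by
        rw [sum_mul]
        exact sum_le_sum fun k _ => (hK k n J _ _).trans (mul_le_mul_of_nonneg_left
          (le_add_of_nonneg_right (nrm_nonneg _)) (K0 k))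
      linarith [mul_le_mul_of_nonneg_left h2 (L l).coe_nonneg, mul_nonneg (abs_nonneg (B l)) (dn_nonneg p q)]
  | mul X hX _ ih =>
    intro s hG
    obtain ⟨L, L0, hL⟩ := lipA hX
    have g := ((Gr.const 3).mul hG).add (Gr.const 1)
    obtain ⟨M, hM, hC⟩ := ih _ (Gr.id.mul g)
    refine ⟨_, (Gr.const 2).mul (hM.add ((Gr.const (2 * L)).mul (g.add (Gr.const 0)))),
      fun n J Λ h1 v hv => ?_⟩
    have s0 := hv.nn
    have t : ∀ x : V n, nrm ((tJ J)ᵀ *ᵥ x) ≤ 3 * nrm x := fun x => (nrm_mulVec_le _ _).trans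
      (mul_le_mul_of_nonneg_right ((opn_transpose _).trans_le (opn_tJ J)) (nrm_nonneg _))
    have ou : OL (3 * s Λ + 1) fun p => (tJ J)ᵀ *ᵥ v p := ⟨by positivity,
      fun p => by rw [hv.odd, mulVec_neg], fun p q => by
        rw [← mulVec_sub]; linarith [t (v p - v q), hv.lip p q, dn_nonneg p q]⟩
    have ec := (EC.clip ou (by positivity) (zero_le_one.trans h1) ⟨_, fun p => (t _).trans
      (mul_le_mul_of_nonneg_left (nrm_le_of_bd (hv.sup p)) zero_le_three)⟩).comb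
        (.zero le_rfl) ou.nn le_rfl L0
    have c2 : Ct Λ (2 * L * (3 * s Λ + 1 + 0)) fun p => ad (X n J) j p.1 ((tJ J)ᵀ *ᵥ v p) -
        ad (X n J) j p.1 (cp (Λ * (3 * s Λ + 1)) ((tJ J)ᵀ *ᵥ v p)) :=
      ⟨_, _, .zero (by positivity), ec, fun p => by
        rw [sub_zero, add_zero]; exact ad_sub (diff hX n J) L0 (hL n J) j _ _ _⟩
    convert (hC n J Λ h1 _ (ou.clip (le_mul_of_one_le_left ou.nn h1))).add c2 using 2 with p
    rw [add_sub_cancel]
    funext k
    simp only [ad, dotProduct_mulVec, mulVec_transpose]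
  | sc X Y W hX hY hZ bX bY bZ ihX ihY ihZ =>
    intro s hG
    obtain ⟨a, ha⟩ := ob_net hX bX
    obtain ⟨b, hb⟩ := ob_net hY bY
    obtain ⟨c, hc⟩ := ob_net hZ bZ
    obtain ⟨M1, g1, c1⟩ := ihZ _ ((Gr.const 3).mul ((Gr.const (a * b)).mul hG))
    obtain ⟨M2, g2, c2⟩ := ihX _ ((Gr.const 3).mul ((hG.mul (Gr.const c)).mul (Gr.const b)))
    obtain ⟨M3, g3, c3⟩ := ihY _ ((Gr.const 3).mul ((hG.mul (Gr.const c)).mul (Gr.const a)))
    refine ⟨_, (Gr.const 2).mul (g1.add ((Gr.const 2).mul (g2.add g3))), fun n J Λ h1 v hv => ?_⟩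
    convert (c1 n J Λ h1 _ ((ha n J).sc (hb n J) hv)).add
      ((c2 n J Λ h1 _ (hv.sc (hc n J) (hb n J))).add (c3 n J Λ h1 _ (hv.sc (hc n J) (ha n J))))
      using 2 with p
    funext k
    rw [ad, Z.ApB11.fd_sc (diff hX n J p.1) (diff hY n J p.1) (diff hZ n J p.1)]
    rfl

omit [DecidableEq ι] in
lemma c1 {X : Nt ι} (h : Nw True X) (n : ℕ) (J : Mx n) : ContDiff ℝ 1 (X n J) := by
  induction h with
  | inp j => fun_prop
  | map φ X _ hs _ ih =>
    obtain ⟨hd, L, hL⟩ := hs trivial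
    exact contDiff_pi.2 fun i => (contDiff_one_iff_fderiv.2 ⟨hd, hL.continuous⟩).comp
      (contDiff_pi.2 fun l => contDiff_pi.1 (ih l) i)
  | mul X _ _ ih => exact (LinearMap.toContinuousLinearMap (toLin' (tJ J))).contDiff.comp ih
  | sc X Y Z _ _ _ _ _ _ iX iY iZ =>
    refine ContDiff.smul (f := fun a => (∑ i, X n J a i * Y n J a i) * (n : ℝ)⁻¹) ?_ iZ
    exact (ContDiff.sum fun i _ => (contDiff_pi.1 iX i).mul (contDiff_pi.1 iY i)).mul contDiff_const

end Crest.Agent.T157.K.Bp91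

end
end

-- ▼ part T157/KBp_91

/-!
# Row 157, part B, block S5 (helper91): quantitative back-propagation, `BpStmt`
-/

set_option autoImplicit false
set_option linter.unusedSectionVars false

noncomputable section

namespace Crest.Agent.T157.K

open MeasureTheory ProbabilityTheory Real Matrix Finset
open Crest.Agent.T157.E Crest.Agent.T157.Eig
open Crest.Agent.T157.Tap (V Mx)
open Crest.Agent.T157.Z (Nt Nw Bd cp nA)
open Crest.Agent.T157.SL (Wt)

namespace Bp91

section avg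
variable {Ω : Type} [TopologicalSpace Ω] [MeasurableSpace Ω] [OpensMeasurableSpace Ω]
  [SecondCountableTopology Ω] {μ : Measure Ω} [IsProbabilityMeasure μ] {n : ℕ}

lemma int_of {f : Ω → ℝ} (hf : Continuous f) {B : ℝ} (h : ∀ ω, |f ω| ≤ B) : Integrable f μ :=
  .of_bound hf.aestronglyMeasurable B (.of_forall h)

lemma int_sq {f : Ω → ℝ} (hf : Continuous f) {B : ℝ} (h : ∀ ω, |f ω| ≤ B) :
    Integrable (fun ω => f ω ^ 2) μ :=
  int_of (hf.pow 2) (B := B ^ 2) fun ω => by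
    rw [abs_pow]; exact pow_le_pow_left₀ (abs_nonneg _) (h ω) 2

/-- averaging a bounded `C¹` function over translations -/
lemma avg_c1 {H : Type} [NormedAddCommGroup H] [NormedSpace ℝ H] [FiniteDimensional ℝ H]
    {f : H → ℝ} (hf : ContDiff ℝ 1 f) {C C' : ℝ} (h0 : ∀ p, |f p| ≤ C)
    (h1 : ∀ p, ‖fderiv ℝ f p‖ ≤ C') {c : Ω → H} (hc : Continuous c) :
    ContDiff ℝ 1 (fun p => ∫ ω, f (p + c ω) ∂μ) ∧ ∀ p v,
      fderiv ℝ (fun p => ∫ ω, f (p + c ω) ∂μ) p v = ∫ ω, fderiv ℝ f (p + c ω) v ∂μ := by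
  have c0 := hf.continuous
  have c1 := hf.continuous_fderiv one_ne_zero
  have iF : ∀ p, Integrable (fun ω => fderiv ℝ f (p + c ω)) μ := fun p =>
    .of_bound (Continuous.aestronglyMeasurable (by fun_prop)) C' (.of_forall fun _ => h1 _)
  have hd : ∀ p, HasFDerivAt (fun p => ∫ ω, f (p + c ω) ∂μ) (∫ ω, fderiv ℝ f (p + c ω) ∂μ) p :=
    fun p => hasFDerivAt_integral_of_dominated_of_fderiv_le (s := Set.univ)
      (F' := fun p ω => fderiv ℝ f (p + c ω)) Filter.univ_mem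
      (.of_forall fun q => Continuous.aestronglyMeasurable (by fun_prop))
      (int_of (by fun_prop) fun _ => h0 _) (iF p).1 (.of_forall fun ω q _ => h1 _)
      (integrable_const C') (.of_forall fun ω q _ => (hasFDerivAt_comp_add_right (c ω)).2
        (hf.differentiable one_ne_zero (q + c ω)).hasFDerivAt)
  refine ⟨contDiff_one_iff_fderiv.2 ⟨fun p => (hd p).differentiableAt, ?_⟩, fun p v => ?_⟩
  · rw [funext fun p => (hd p).fderiv]
    exact continuous_of_dominated (fun p => (iF p).1) (fun p => .of_forall fun _ => h1 _)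
      (integrable_const C') (.of_forall fun ω => by fun_prop)
  · rw [(hd p).fderiv, ContinuousLinearMap.integral_apply (iF p)]

omit [TopologicalSpace Ω] [OpensMeasurableSpace Ω] [SecondCountableTopology Ω]
  [IsProbabilityMeasure μ] in
lemma dot_int {f : Ω → V n} (hf : ∀ k, Integrable (fun ω => f ω k) μ) (u : V n) :
    u ⬝ᵥ (fun k => ∫ ω, f ω k ∂μ) = ∫ ω, u ⬝ᵥ f ω ∂μ := by
  simp only [dotProduct]
  rw [integral_finsetSum _ fun i _ => (hf i).const_mul (u i)]
  simp only [integral_const_mul]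

omit [TopologicalSpace Ω] [OpensMeasurableSpace Ω] [SecondCountableTopology Ω]
  [IsProbabilityMeasure μ] in
lemma nrm_int {f g : Ω → V n} {r : Ω → ℝ} (hf : ∀ k, Integrable (fun ω => f ω k) μ)
    (hg : ∀ k, Integrable (fun ω => g ω k) μ) (hr : Integrable r μ)
    (h : ∀ ω, nrm (f ω - g ω) ≤ r ω) :
    nrm ((fun k => ∫ ω, f ω k ∂μ) - fun k => ∫ ω, g ω k ∂μ) ≤ ∫ ω, r ω ∂μ := by
  have i : ∀ k, Integrable (fun ω => (f ω - g ω) k) μ := fun k => (hf k).sub (hg k)
  have e : ((fun k => ∫ ω, f ω k ∂μ) - fun k => ∫ ω, g ω k ∂μ) = fun k => ∫ ω, (f ω - g ω) k ∂μ :=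
    funext fun k => (integral_sub (hf k) (hg k)).symm
  rw [e]
  set u := fun k => ∫ ω, (f ω - g ω) k ∂μ with hu
  have h1 : nrm u * nrm u ≤ nrm u * ∫ ω, r ω ∂μ := by
    rw [nrm_mul_self, ← integral_const_mul]
    refine (dot_int i u).trans_le (integral_mono ?_ (hr.const_mul _) fun ω =>
      (dot_le _ _).trans (mul_le_mul_of_nonneg_left (h ω) (nrm_nonneg _)))
    exact integrable_finsetSum _ fun k _ => (i k).const_mul (u k)
  rcases (nrm_nonneg u).eq_or_lt with h0 | h0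
  · rw [← h0]; exact integral_nonneg fun ω => (nrm_nonneg _).trans (h ω)
  · exact le_of_mul_le_mul_left h1 h0

lemma sq_int {f : Ω → ℝ} (hf : Continuous f) {B : ℝ} (h : ∀ ω, |f ω| ≤ B) :
    (∫ ω, f ω ∂μ) ^ 2 ≤ ∫ ω, f ω ^ 2 ∂μ := by
  have h1 := variance_nonneg f μ
  rw [variance_eq_sub (MemLp.of_bound hf.aestronglyMeasurable B (.of_forall h))] at h1
  exact sub_nonneg.1 h1

lemma root_le {f g : Ω → ℝ} (hf : Continuous f) (hg : Continuous g) {B c : ℝ} (h : ∀ ω, |f ω| ≤ B)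
    (h' : ∀ ω, |g ω| ≤ B) (g0 : ∀ ω, 0 ≤ g ω) (c0 : 0 ≤ c) (e : ∀ ω, |f ω - g ω| ≤ c) :
    √(∫ ω, f ω ^ 2 ∂μ) - √(∫ ω, g ω ^ 2 ∂μ) ≤ c := by
  have h1 := le_sqrt_of_sq_le (sq_int (μ := μ) hg h')
  have i : Integrable (fun ω => g ω ^ 2 + 2 * c * g ω) μ :=
    (int_sq hg h').add ((int_of hg h').const_mul _)
  have h2 : ∫ ω, f ω ^ 2 ∂μ ≤ ∫ ω, (g ω ^ 2 + 2 * c * g ω + c ^ 2) ∂μ :=
    integral_mono (int_sq hf h) (i.add (integrable_const _)) fun ω => by
        have := abs_le.1 (e ω)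
        have := g0 ω
        beta_reduce
        nlinarith
  rw [integral_add i (integrable_const _),
    integral_add (int_sq hg h') ((int_of hg h').const_mul _), integral_const_mul, integral_const,
    probReal_univ, one_smul] at h2
  rw [sub_le_iff_le_add', sqrt_le_left (by positivity), add_sq,
    sq_sqrt (integral_nonneg fun _ => sq_nonneg _)]
  linarith [mul_le_mul_of_nonneg_left h1 c0]

end avg

variable {n m : ℕ}

/-- the point seen by the network -/
def pp (x y v : V n) (ω : Fin m × Fin n → ℝ) : Pa (Bool ⊕ Fin m) n := (lab2 x y ω, v)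
/-- average over the labels -/
def av (B : Pa (Bool ⊕ Fin m) n → V n) (x y v : V n) : V n :=
  fun k => ∫ ω, B (pp x y v ω) k ∂gv (Fin m × Fin n)

lemma cont_lab2 {X : Type} [TopologicalSpace X] {x y : X → V n} {ω : X → Fin m × Fin n → ℝ}
    (hx : Continuous x) (hy : Continuous y) (h : Continuous ω) :
    Continuous fun t => lab2 (x t) (y t) (ω t) := by
  refine continuous_pi fun l => ?_
  rcases l with (_ | _) | l
  exacts [hy, hx, continuous_pi fun i => (continuous_apply (l, i)).comp h]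

lemma cont_pp (x y v : V n) : Continuous (pp (m := m) x y v) :=
  (cont_lab2 continuous_const continuous_const continuous_id).prodMk continuous_const

lemma dn_pp (x y v x' y' v' : V n) (ω ω' : Fin m × Fin n → ℝ) : dn (pp x y v ω) (pp x' y' v' ω') =
    nrm (x - x') + nrm (y - y') + ∑ l, nrm (fun i => (ω - ω') (l, i)) + nrm (v - v') := by
  simp only [dn, nA, pp, Fintype.sum_sum_type, Fintype.sum_bool]; rfl

lemma dn_pp' (x y v x' y' v' : V n) (ω : Fin m × Fin n → ℝ) : dn (pp x y v ω) (pp x' y' v' ω) =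
    nrm (x - x') + nrm (y - y') + nrm (v - v') := by
  rw [dn_pp]; simp [nrm, dotProduct]

lemma pp_neg (x y v : V n) (ω : Fin m × Fin n → ℝ) : pp (-x) (-y) (-v) (-ω) = -pp x y v ω := by
  refine Prod.ext (funext fun l => ?_) rfl
  rcases l with (_ | _) | l <;> rfl

variable {M Λ : ℝ} {B : Pa (Bool ⊕ Fin m) n → V n}

lemma OB.int (h : OB M B) (x y v : V n) (k : Fin n) :
    Integrable (fun ω => B (pp x y v ω) k) (gv (Fin m × Fin n)) :=
  int_of ((cont_of_lip fun p q => (abs_apply_le_nrm (B p - B q) k).trans (h.lip p q)).comp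
    (cont_pp x y v)) fun _ => h.sup _ k

lemma OB.av_sup (h : OB M B) (x y v : V n) (k : Fin n) : |av B x y v k| ≤ M := by
  have := norm_integral_le_of_norm_le_const (μ := gv (Fin m × Fin n))
    (f := fun ω => B (pp x y v ω) k) (.of_forall fun _ => h.sup _ k)
  rwa [probReal_univ, mul_one] at this

lemma OB.av_lip (h : OB M B) (x y v x' y' v' : V n) : nrm (av B x y v - av B x' y' v') ≤
    M * (nrm (x - x') + nrm (y - y') + nrm (v - v')) := by
  have := nrm_int (h.int x y v) (h.int x' y' v') (integrable_const _)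
    fun ω => (h.lip _ _).trans_eq (by rw [dn_pp'])
  rwa [integral_const, probReal_univ, one_smul] at this

lemma OB.av_odd (h : OB M B) (x y v : V n) : av B (-x) (-y) (-v) = -av B x y v := by
  funext k
  have : (gaussianReal 0 1).IsNegInvariant :=
    ⟨by simpa [Measure.neg] using gaussianReal_map_neg (μ := 0) (v := 1)⟩
  rw [av, ← integral_neg_eq_self]
  simp only [pp_neg, h.odd, Pi.neg_apply, integral_neg, av]

lemma lab2_add (x y : V n) (ω : Fin m × Fin n → ℝ) : lab2 x y 0 + lab2 0 0 ω = lab2 x y ω := by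
  funext l; rcases l with (_ | _) | l <;> simp [lab2]; rfl

lemma lab2_x (x y : V n) : lab2 (m := m) 0 y 0 + Pi.single (.inl true) x = lab2 x y 0 := by
  funext l; rcases l with (_ | _) | l <;> simp [lab2]

lemma lab2_y (x y : V n) : lab2 (m := m) x 0 0 + Pi.single (.inl false) y = lab2 x y 0 := by
  funext l; rcases l with (_ | _) | l <;> simp [lab2]

section net
variable {E : Nt (Bool ⊕ Fin m)} (hE : Nw True E) (hb : Bd E) (J : Mx n)
include hE hb

omit hb in
lemma c1_dot (v : V n) : ContDiff ℝ 1 fun a => v ⬝ᵥ E n J a :=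
  (LinearMap.toContinuousLinearMap (dotProductBilin ℝ ℝ v)).contDiff.comp (c1 hE n J)

lemma avg_dot (v : V n) :
    ContDiff ℝ 1 (fun a => ∫ ω, v ⬝ᵥ E n J (a + lab2 0 0 ω) ∂gv (Fin m × Fin n)) ∧ ∀ a h,
      fderiv ℝ (fun a => ∫ ω, v ⬝ᵥ E n J (a + lab2 0 0 ω) ∂gv (Fin m × Fin n)) a h =
        ∫ ω, fderiv ℝ (fun a => v ⬝ᵥ E n J a) (a + lab2 0 0 ω) h ∂gv (Fin m × Fin n) := by
  obtain ⟨L, L0, hL⟩ := lipA hE
  obtain ⟨M, hM⟩ := hb
  refine avg_c1 (c1_dot hE J v) (C := nrm v * (|M| * √n))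
    (C' := nrm v * (L * ∑ _l : Bool ⊕ Fin m, (Fintype.card (Fin n) : ℝ)))
    (fun a => (abs_dot_le _ _).trans (mul_le_mul_of_nonneg_left (Z.L85.nrm_le_of_bd (hM n J a))
      (nrm_nonneg _))) (fun a => norm_fderiv_le_of_lip' ℝ (mul_nonneg (nrm_nonneg _) (by positivity))
        (.of_forall fun a' => ?_)) (cont_lab2 continuous_const continuous_const continuous_id)
  rw [← dotProduct_sub, mul_assoc, mul_assoc, sum_mul]
  refine (abs_dot_le _ _).trans (mul_le_mul_of_nonneg_left ((hL n J _ _).trans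
    (mul_le_mul_of_nonneg_left (sum_le_sum fun l _ => ?_) L0)) (nrm_nonneg _))
  rw [← Nrm.en_eq_nrm]
  exact (Conc.en_le_card_norm _).trans
    (mul_le_mul_of_nonneg_left (norm_le_pi_norm _ l) (Nat.cast_nonneg _))

lemma dot_Eh (v x y : V n) : v ⬝ᵥ Eh E n J x y =
    ∫ ω, v ⬝ᵥ E n J (lab2 x y 0 + lab2 0 0 ω) ∂gv (Fin m × Fin n) := by
  obtain ⟨M, hM⟩ := ob_net hE hb
  simp only [lab2_add]
  exact dot_int ((hM n J).int x y 0) v

lemma c1_Eh : ContDiff ℝ 1 fun p : V n × V n => Eh E n J p.1 p.2 := contDiff_pi.2 fun i => by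
  have e : ∀ p : V n × V n, Eh E n J p.1 p.2 i = Pi.single i 1 ⬝ᵥ Eh E n J p.1 p.2 := by simp
  simp only [e, dot_Eh hE hb]
  refine (avg_dot hE hb J _).1.comp (f := fun p : V n × V n => lab2 p.1 p.2 0)
    (contDiff_pi.2 fun l => ?_)
  rcases l with (_ | _) | l
  exacts [contDiff_snd, contDiff_fst, contDiff_const]

lemma grad_Eh (v x y : V n) :
    Conc.grad (fun x => v ⬝ᵥ Eh E n J x y) x = av (fun p => ad (E n J) (.inl true) p.1 v) x y v ∧
    Conc.grad (fun y => v ⬝ᵥ Eh E n J x y) y = av (fun p => ad (E n J) (.inl false) p.1 v) x y v := by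
  obtain ⟨h1, h2⟩ := avg_dot hE hb J v
  have d := h1.differentiable one_ne_zero
  refine ⟨?_, ?_⟩
  · have := grad_row d (lab2 0 y 0) (.inl true) x
    simp only [lab2_x, h2] at this
    simp only [dot_Eh hE hb, this]
    simp only [lab2_add]; rfl
  · have := grad_row d (lab2 x 0 0) (.inl false) y
    simp only [lab2_y, h2] at this
    simp only [dot_Eh hE hb, this]
    simp only [lab2_add]; rfl

omit hb in
lemma app_le {R : Pa (Bool ⊕ Fin m) n → ℝ} {j : Bool ⊕ Fin m} {b : ℝ} (h1 : OB M B) (h2 : EC Λ M R)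
    (h3 : ∀ p, nrm (ad (E n J) j p.1 (cp |b| p.2) - B p) ≤ R p) (x y : V n) {v : V n}
    (hv : ∀ i, |v i| ≤ b) : nrm (av (fun p => ad (E n J) j p.1 v) x y v - av B x y v) ^ 2 ≤
      ∫ ω, R (pp x y v ω) ^ 2 ∂gv (Fin m × Fin n) := by
  have e : cp |b| v = v := funext fun i => by
    have := abs_le.1 ((hv i).trans (le_abs_self b))
    rw [cp, min_eq_right this.2, max_eq_right this.1]
  have h4 : ∀ ω, nrm (ad (E n J) j (pp x y v ω).1 v - B (pp x y v ω)) ≤ R (pp x y v ω) := fun ω => by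
    simpa only [pp, e] using h3 (pp x y v ω)
  obtain ⟨c, K, hK⟩ := h2.bc
  have c' := c.comp (cont_pp (m := m) x y v)
  refine le_trans (pow_le_pow_left₀ (nrm_nonneg _) (nrm_int (fun k => ?_) (h1.int x y v)
    (int_of c' fun _ => hK _) h4) 2) (sq_int c' fun _ => hK _)
  refine int_of ((((c1_dot hE J v).continuous_fderiv one_ne_zero).comp (cont_pp x y v).fst).clm_apply
    continuous_const) (B := K + M) fun ω => ?_
  have h5 := ((abs_apply_le_nrm _ k).trans (h4 ω)).trans ((le_abs_self _).trans (hK _))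
  have h6 := abs_add_le (ad (E n J) j (pp x y v ω).1 v k - B (pp x y v ω) k) (B (pp x y v ω) k)
  rw [sub_add_cancel] at h6
  exact h6.trans (add_le_add h5 (h1.sup _ k))

end net

/-! ### the tail -/

lemma nrm_comp {α β : Type} [Fintype α] [Fintype β] (e : α ↪ β) (v : β → ℝ) :
    nrm (fun a => v (e a)) ≤ nrm v :=
  sqrt_le_sqrt ((sum_map univ e fun b => v b * v b).symm.trans_le
    (sum_le_univ_sum_of_nonneg fun _ => mul_self_nonneg _))

lemma exc_eq {η : ℝ} (h : 0 ≤ η) (u : V n) : exc η u = nrm (u - cp η u) ^ 2 := by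
  rw [nrm_sq]
  refine sum_congr rfl fun i _ => ?_
  simp only [Pi.sub_apply, cp, max_def, min_def]
  rcases abs_cases (u i) with h | h <;> rw [h.1] <;> split_ifs <;> nlinarith

section tail
variable {κ : Type} [Fintype κ] [DecidableEq κ] {x y v : (κ → ℝ) → V n} {B : ℝ}

/-- the parametrisation by the channel and the labels -/
def qq (x y v : (κ → ℝ) → V n) (ζ : κ ⊕ Fin m × Fin n → ℝ) : Pa (Bool ⊕ Fin m) n :=
  pp (x fun k => ζ (.inl k)) (y fun k => ζ (.inl k)) (v fun k => ζ (.inl k)) fun k => ζ (.inr k)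

lemma om_cont (h : OM B x) : Continuous x := continuous_pi fun i =>
  Conc.ELip.continuous (L := B) fun a b => by
    rw [Nrm.en_eq_nrm]; exact (abs_apply_le_nrm (x a - x b) i).trans (h.2 a b)

lemma cont_qq (hx : OM B x) (hy : OM B y) (hv : OM B v) : Continuous (qq (m := m) x y v) :=
  (cont_lab2 ((om_cont hx).comp (by fun_prop)) ((om_cont hy).comp (by fun_prop))
    (by fun_prop)).prodMk ((om_cont hv).comp (by fun_prop))

lemma dn_qq (hx : OM B x) (hy : OM B y) (hv : OM B v) (ζ ζ' : κ ⊕ Fin m × Fin n → ℝ) :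
    dn (qq x y v ζ) (qq x y v ζ') ≤ (3 * |B| + m + 1) * nrm (ζ - ζ') := by
  have t : ∀ {u : (κ → ℝ) → V n}, OM B u →
      nrm (u (fun k => ζ (.inl k)) - u fun k => ζ' (.inl k)) ≤ |B| * nrm (ζ - ζ') := fun h =>
    (h.2 _ _).trans (mul_le_mul (le_abs_self B) (nrm_comp .inl (ζ - ζ')) (nrm_nonneg _)
      (abs_nonneg _))
  have s : ∑ l : Fin m, nrm (fun i => (ζ - ζ') (.inr (l, i))) ≤ m * nrm (ζ - ζ') := by
    refine (sum_le_sum fun l _ => nrm_comp
      ⟨fun i : Fin n => .inr (l, i), fun _ _ h => by simpa using h⟩ (ζ - ζ')).trans_eq (by simp)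
  rw [qq, qq, dn_pp]
  change _ + ∑ l : Fin m, nrm (fun i => (ζ - ζ') (.inr (l, i))) + _ ≤ _
  linarith [t hx, t hy, t hv, nrm_nonneg (ζ - ζ')]

/-- the second moment under the planted law -/
def TT (w : Cube n → ℝ) (P : Matrix κ (Fin n) ℝ) (x y v : (κ → ℝ) → V n)
    (R : Pa (Bool ⊕ Fin m) n → ℝ) : ℝ :=
  mean w (cav (fromRows P (0 : Matrix (Fin m × Fin n) (Fin n) ℝ)) fun _ ζ => R (qq x y v ζ) ^ 2)

lemma TT_eq (w : Cube n → ℝ) (P : Matrix κ (Fin n) ℝ) (hx : OM B x) (hy : OM B y) (hv : OM B v)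
    {R : Pa (Bool ⊕ Fin m) n → ℝ} (hR : BC R) : (mean w (cav P fun _ ζ =>
      ∫ ω, R (pp (x ζ) (y ζ) (v ζ) ω) ^ 2 ∂gv (Fin m × Fin n))) = TT w P x y v R := by
  obtain ⟨c, K, hK⟩ := hR
  refine congrArg (mean w) (funext fun s => ?_)
  have mp := measurePreserving_sumPiEquivProdPi_symm (X := fun _ : κ ⊕ Fin m × Fin n => ℝ)
    fun _ => gaussianReal 0 1
  have i : Integrable (fun z => R (qq x y v (fromRows P 0 *ᵥ sv s + z)) ^ 2)
      (gv (κ ⊕ Fin m × Fin n)) :=
    int_sq (c.comp ((cont_qq hx hy hv).comp (by fun_prop))) fun _ => hK _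
  rw [cav, cav, ← mp.integral_comp']
  refine Eq.trans ?_ (integral_prod _ (mp.integrable_comp_of_integrable i)).symm
  refine integral_congr_ae (.of_forall fun z => integral_congr_ae (.of_forall fun ω => ?_))
  simp only [qq, fromRows_mulVec, Pi.add_apply, Sum.elim_inl, Sum.elim_inr, zero_mulVec,
    Pi.zero_apply, zero_add]
  rfl

lemma fn_TT {K0 C : ℝ} (C1 : 1 ≤ C) {w : Cube n → ℝ} {P : Matrix κ (Fin n) ℝ} (hw : EA w K0)
    (hC : ∀ (u : Cube n → (κ ⊕ Fin m × Fin n → ℝ) → V n) (e η : ℝ), 0 < e → 0 ≤ η → OddJ u →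
      (∀ s ζ, opn (Reg.jac (fun s => u s ζ) s) ≤ e) →
      (∀ s ζ ζ', nrm (u s ζ - u s ζ') ≤ e * nrm (ζ - ζ')) →
      mean w (cav (fromRows P 0) fun s ζ => exc η (u s ζ)) ≤
        C * n * e ^ 2 * exp (-((η / e) ^ 2 / C)))
    (hx : OM B x) (hy : OM B y) (hv : OM B v) (h0 : 0 ≤ Λ) {D : ℝ} (hD : D = 3 * |B| + m + 1) :
    Fn Λ (C * D ^ 2 * (n * exp (-(Λ ^ 2 / (D ^ 2 * C))))) (TT (m := m) w P x y v) := by
  have D0 : 0 < D := by rw [hD]; positivity
  refine ⟨by positivity, fun R R1 R2 c hR h1 h2 c0 h => ?_, fun u L L0 hu => ?_⟩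
  · have i : ∀ {R : Pa (Bool ⊕ Fin m) n → ℝ}, BC R → ∀ a : κ ⊕ Fin m × Fin n → ℝ,
        Integrable (fun z => R (qq x y v (a + z)) ^ 2) (gv _) := fun ⟨c, K, hK⟩ a =>
      int_sq (c.comp ((cont_qq hx hy hv).comp (by fun_prop))) fun _ => hK _
    rw [TT, TT, TT, ← SL.mean_add, ← SL.mean_const_mul]
    refine (Wt.of_pos hw.1).mean_mono fun s => ?_
    rw [cav, cav, cav, ← integral_add (i h1 _) (i h2 _), ← integral_const_mul]
    exact integral_mono (i hR _) (((i h1 _).add (i h2 _)).const_mul c) fun z => h _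
  · have h1 := hC (fun _ ζ => u (qq x y v ζ)) (L * D) (Λ * L) (by positivity) (by positivity)
      (fun s ζ => by
        rw [← hu.odd]
        simp only [qq]
        rw [← pp_neg, ← hx.1, ← hy.1, ← hv.1]; rfl)
      (fun s ζ => by
        rw [show Reg.jac (fun _ => u (qq x y v ζ)) s = 0 by ext; simp [Reg.jac], opn_zero]
        positivity)
      fun s ζ ζ' => (hu.lip _ _).trans (by
        rw [mul_assoc, hD]; exact mul_le_mul_of_nonneg_left (dn_qq hx hy hv ζ ζ') L0.le)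
    simp only [exc_eq (mul_nonneg h0 L0.le)] at h1
    refine le_trans h1 (le_of_eq ?_)
    rw [show (Λ * L / (L * D)) ^ 2 / C = Λ ^ 2 / (D ^ 2 * C) by field_simp]
    ring

end tail

end Bp91

open Bp91 in
theorem bpGlue : BpGlue := by
  intro _ hConc m E hE hb b K0 B
  obtain ⟨C0, C1, hC⟩ := hConc K0 B
  obtain ⟨M0, hM0⟩ := ob_net hE hb
  obtain ⟨M1, g1, h1⟩ := net hE (.inl true) _ (Gr.const (|b| + 1))
  obtain ⟨M2, g2, h2⟩ := net hE (.inl false) _ (Gr.const (|b| + 1))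
  obtain ⟨D, hD⟩ : ∃ D : ℝ, D = 3 * |B| + m + 1 := ⟨_, rfl⟩
  have g := (Gr.const (2 * 1)).mul (g1.add g2)
  obtain ⟨c1, k1⟩ := (g1.add g2).add g
  obtain ⟨c2, k2⟩ := (g.mul g).mul (Gr.const (C0 * D ^ 2))
  have D0 : 0 < D ^ 2 * C0 := by rw [hD]; positivity
  obtain ⟨C, hC'⟩ : ∃ C, C = 1 + |M0| + |c1| + |c2| + D ^ 2 * C0 := ⟨_, rfl⟩
  have a0 := abs_nonneg M0
  have a1 := abs_nonneg c1
  have a2 := abs_nonneg c2
  refine ⟨C, by linarith, fun n J => ⟨?_, fun Λ hΛ => ?_⟩⟩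
  · have o := (hM0 n J).mono (show M0 ≤ C by linarith [le_abs_self M0])
    exact ⟨fun x y => o.av_sup x y 0,
      fun x y x' y' => (o.av_lip x y 0 x' y' 0).trans_eq (by simp), fun x y => o.av_odd x y 0⟩
  have ov : OB (|b| + 1) fun p : Pa (Bool ⊕ Fin m) n => cp |b| p.2 :=
    ⟨⟨by positivity, fun p => funext fun i => Z.ApB11.clip_neg (abs_nonneg b) _, fun p q =>
      (Z.L85.nrm_mono (v := p.2 - q.2) fun i => (clip_lip _ _ _).1).trans
        ((le_add_of_nonneg_left (Z.L85.nA_nonneg _)).trans (le_mul_of_one_le_left (dn_nonneg p q)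
          (by linarith [abs_nonneg b])))⟩,
      fun p i => (Z.L85.abs_cp_le (abs_nonneg b) _ i).trans (by linarith)⟩
  obtain ⟨B1, R1, o1, e1, r1⟩ := h1 n J Λ hΛ _ ov
  obtain ⟨B2, R2, o2, e2, r2⟩ := h2 n J Λ hΛ _ ov
  have ec := e1.comb e2 o1.nn o2.nn zero_le_one
  obtain ⟨cR, K, hK⟩ := ec.bc
  have cR' := fun x y v => cR.comp (cont_pp (m := m) x y v)
  have ex : ∀ c, |c| ≤ C → exp (c * Λ) ≤ exp (C * Λ) := fun c h => exp_le_exp.2
    (mul_le_mul_of_nonneg_right ((le_abs_self c).trans h) (by linarith))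
  have m1 := ((le_abs_self _).trans (k1 Λ hΛ)).trans (ex c1 (by linarith))
  have m2 := ((le_abs_self _).trans (k2 Λ hΛ)).trans (ex c2 (by linarith))
  have n1 := o1.nn
  have n2 := o2.nn
  refine ⟨av B1, av B2, fun x y v => ∫ ω, (1 * (R1 (pp x y v ω) + R2 (pp x y v ω))) ^ 2 ∂gv _,
    ⟨c1_Eh hE hb J, fun x y v hv => ?_, fun x y v i => ⟨(o1.av_sup x y v i).trans (by linarith),
      (o2.av_sup x y v i).trans (by linarith)⟩, fun x y v x' y' v' => ?_,
      fun x y v => ⟨o1.av_odd x y v, o2.av_odd x y v⟩, K ^ 2, fun x y v =>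
        ⟨integral_nonneg fun _ => sq_nonneg _, ?_⟩⟩, fun κ _ _ P w x y v hw hP hx hy hv => ?_⟩
  · obtain ⟨d1, K1, b1⟩ := e1.bc
    obtain ⟨d2, K2, b2⟩ := e2.bc
    have i1 := int_sq (μ := gv _) (d1.comp (cont_pp (m := m) x y v)) fun _ => b1 _
    have i2 := int_sq (μ := gv _) (d2.comp (cont_pp (m := m) x y v)) fun _ => b2 _
    rw [(grad_Eh hE hb J v x y).1, (grad_Eh hE hb J v x y).2]
    refine (add_le_add (app_le hE J o1 e1 r1 x y hv) (app_le hE J o2 e2 r2 x y hv)).trans ?_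
    refine (integral_add i1 i2).symm.trans_le (integral_mono (i1.add i2)
      (int_sq (cR' x y v) fun _ => hK _) fun ω => ?_)
    have := mul_nonneg (e1.nn (pp x y v ω)) (e2.nn (pp x y v ω))
    simp only [Function.comp]
    linarith
  · have d0 : 0 ≤ nrm (x - x') + nrm (y - y') + nrm (v - v') :=
      dn_pp' x y v x' y' v' (0 : Fin m × Fin n → ℝ) ▸ dn_nonneg _ _
    have c0 := mul_nonneg (show 0 ≤ 2 * 1 * (M1 Λ + M2 Λ) by positivity) d0
    have l := fun ω => (ec.lip (pp x y v ω) (pp x' y' v' ω)).trans_eq (by rw [dn_pp'])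
    have s1 := root_le (μ := gv _) (cR' x y v) (cR' x' y' v') (fun _ => hK _) (fun _ => hK _)
      (fun _ => ec.nn _) c0 l
    have s2 := root_le (μ := gv _) (cR' x' y' v') (cR' x y v) (fun _ => hK _) (fun _ => hK _)
      (fun _ => ec.nn _) c0 fun ω => (abs_sub_comm _ _).trans_le (l ω)
    have s3 := abs_sub_le_iff.2 ⟨s1, s2⟩
    simp only [Function.comp] at s3
    linarith [o1.av_lip x y v x' y' v', o2.av_lip x y v x' y' v', mul_le_mul_of_nonneg_right m1 d0]
  · simpa using integral_mono (μ := gv _) (int_sq (cR' x y v) fun _ => hK _) (integrable_const (K ^ 2))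
      fun ω => sq_le_sq' (abs_le.1 (hK _)).1 (abs_le.1 (hK _)).2
  · rw [TT_eq w P hx hy hv ec.bc]
    refine (ec.tl _ _ (fn_TT C1 hw (fun u e η => hC n _ _ w u e η hw (le_trans ?_ hP)) hx hy hv
      (by linarith) hD)).trans ?_
    · refine opn_le_of_nrm (opn_nonneg P) fun u => le_trans (le_of_eq ?_) (nrm_mulVec_le P u)
      simp [fromRows_mulVec, nrm, dotProduct]
    · have t : exp (-(Λ ^ 2 / (D ^ 2 * C0))) ≤ exp (-(Λ ^ 2 / C)) :=
        exp_le_exp.2 (neg_le_neg (div_le_div_of_nonneg_left (sq_nonneg _) D0 (by linarith)))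
      rw [sub_eq_add_neg, exp_add, mul_left_comm (n : ℝ), ← mul_assoc, sq]
      exact mul_le_mul m2 (mul_le_mul_of_nonneg_left t (Nat.cast_nonneg n)) (by positivity)
        (exp_pos _).le

end Crest.Agent.T157.K

end
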