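import Crest.Agent.T157.KRv_47
import Crest.Agent.T157.KCm_85

/-!
# Row 157, part B, kernel route (helper47): the exact gradient of a linear Gaussian channel
`u = t R σ + √t Z` (words of `Rec.Pm`, `Kc.Kf`)
-/

set_option autoImplicit false
set_option linter.unusedSectionVars false

noncomputable section

namespace Crest.Agent.T157.Kv

open MeasureTheory ProbabilityTheory Matrix Filter Set Real Function
open Crest.Agent.T157.E Crest.Agent.T157.SL
open Crest.Agent.T157.Rec (grad fl Pm)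

variable {n : ℕ} {ι : Type*} [Fintype ι] [DecidableEq ι] {t : ℝ} {R : Matrix ι (Fin n) ℝ}

/-- the weight of the noise part of the gradient -/
def wN (R : Matrix ι (Fin n) ℝ) (t : ℝ) (x : Cube n) (j : Fin n) (z : ι → ℝ) : ℝ :=
  rho (t * (Rᵀ * R) j j) (sv x j * (√t * (Rᵀ *ᵥ z) j))

/-- the likelihood ratio of a flip (the weight of the explicit part) -/
def wE (R : Matrix ι (Fin n) ℝ) (t : ℝ) (x : Cube n) (j : Fin n) (z : ι → ℝ) : ℝ :=
  exp (-2 * (sv x j * (√t * (Rᵀ *ᵥ z) j)) - 2 * (t * (Rᵀ * R) j j))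

theorem col_dot (R : Matrix ι (Fin n) ℝ) (j : Fin n) (z : ι → ℝ) :
    z ⬝ᵥ R *ᵥ Pi.single j 1 = (Rᵀ *ᵥ z) j := by
  rw [dotProduct_mulVec, ← mulVec_transpose, dotProduct_single, mul_one]

theorem col_col (R : Matrix ι (Fin n) ℝ) (j : Fin n) :
    (R *ᵥ Pi.single j 1) ⬝ᵥ (R *ᵥ Pi.single j 1) = (Rᵀ * R) j j := by
  rw [col_dot, mulVec_mulVec, mulVec_single_one, col_apply]

theorem chan_fl (ht : 0 ≤ t) (x : Cube n) (j : Fin n) (z : ι → ℝ) :
    t • R *ᵥ sv (fl x j) + √t • z =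
      t • R *ᵥ sv x + √t • ((-2 * sv x j * √t) • R *ᵥ Pi.single j 1 + z) := by
  rw [sv_fl, mulVec_add, mulVec_smul, smul_add, smul_add, smul_smul, smul_smul,
    show √t * (-2 * sv x j * √t) = t * (-2 * sv x j) by
      linear_combination (-2 * sv x j) * mul_self_sqrt ht]
  abel

/-- the channel after a flip, seen from the unflipped state (any `F`) -/
theorem Pm_fl (ht : 0 ≤ t) (F : (ι → ℝ) → ℝ) (x : Cube n) (j : Fin n) :
    Pm (fun x => R *ᵥ sv x) t (fun _ => F) (fl x j) =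
      ∫ z, wE R t x j z * F (t • R *ᵥ sv x + √t • z) ∂Gs ι := by
  simp only [Pm, chan_fl ht]
  rw [cm _ fun z => F (t • R *ᵥ sv x + √t • z)]
  congr 1; ext z
  simp only [smul_dotProduct, dotProduct_smul, smul_eq_mul, wE]
  rw [col_col, col_dot]
  congr 2
  linear_combination (-2 * (Rᵀ * R) j j * (√t * √t)) * Rec.sv_mul_self x j +
    (-2 * (Rᵀ * R) j j) * mul_self_sqrt ht

theorem int_wE (ht : 0 ≤ t) {F : (ι → ℝ) → ℝ} (hF : MG F) (x : Cube n) (j : Fin n) :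
    Integrable (fun z => wE R t x j z * F (t • R *ᵥ sv x + √t • z)) (Gs ι) := by
  have h := (hF.affine (t • R *ᵥ sv (fl x j)) √t).int
  simp only [chan_fl ht] at h
  refine ((cm_int _ fun z => F (t • R *ᵥ sv x + √t • z)).1 h).congr (.of_forall fun z => ?_)
  simp only [smul_dotProduct, dotProduct_smul, smul_eq_mul, wE]
  rw [col_col, col_dot]
  congr 2
  linear_combination (-2 * (Rᵀ * R) j j * (√t * √t)) * Rec.sv_mul_self x j +
    (-2 * (Rᵀ * R) j j) * mul_self_sqrt ht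

/-- **flip of the channel**: `F` continuous and Lipschitz along the column `R e_j` -/
theorem flip_lin (ht : 0 ≤ t) {F : (ι → ℝ) → ℝ} (hc : Continuous F) (j : Fin n) {L : NNReal}
    (hL : ∀ u, LipschitzWith L fun r : ℝ => F (u + r • R *ᵥ Pi.single j 1)) (x : Cube n) :
    Integrable (fun z => wN R t x j z *
      (t * lineDeriv ℝ F (t • R *ᵥ sv x + √t • z) (R *ᵥ Pi.single j 1))) (Gs ι) ∧
    sv x j * (∫ z, (F (t • R *ᵥ sv x + √t • z) - F (t • R *ᵥ sv (fl x j) + √t • z)) ∂Gs ι) / 2 =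
      ∫ z, wN R t x j z *
        (t * lineDeriv ℝ F (t • R *ᵥ sv x + √t • z) (R *ᵥ Pi.single j 1)) ∂Gs ι := by
  have hs := Rec.sv_mul_self x j
  have hq := mul_self_sqrt ht
  set c : ℝ := -2 * sv x j with hcs
  set v : ι → ℝ := (c * √t) • R *ᵥ Pi.single j 1 with hv
  set f : (ι → ℝ) → ℝ := fun z => F (t • R *ᵥ sv x + √t • z) with hf
  have e0 : ∀ (z : ι → ℝ) (r : ℝ), f (z + r • v) =
      F (t • R *ᵥ sv x + √t • z + (r * (c * t)) • R *ᵥ Pi.single j 1) := fun z r => by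
    rw [hf]; simp only [smul_add, hv, smul_smul]
    rw [show √t * (r * (c * √t)) = r * (c * t) by linear_combination r * c * hq, add_assoc]
  have hl : ∀ w, LipschitzWith (L * ‖c * t‖₊) fun r : ℝ => f (w + r • v) := fun w => by
    simp only [e0]
    exact (hL _).comp (g := fun r : ℝ => r * (c * t)) (LipschitzWith.of_dist_le_mul fun a b => by
      rw [Real.dist_eq, Real.dist_eq, ← sub_mul, abs_mul, mul_comm]; rfl)
  obtain ⟨i1, e1⟩ := dv (f := f) (hc.comp (by fun_prop)) hl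
  have e2 : ∀ z, lineDeriv ℝ f z v =
      c * (t * lineDeriv ℝ F (t • R *ᵥ sv x + √t • z) (R *ᵥ Pi.single j 1)) := fun z => by
    rw [← mul_assoc, ← smul_eq_mul, ← lineDeriv_smul, lineDeriv, lineDeriv]
    simp only [e0, smul_smul]
  have e3 : ∀ z, rr (v ⬝ᵥ v) (z ⬝ᵥ v) = wN R t x j z := fun z => by
    rw [wN, rho_eq, hv]
    simp only [smul_dotProduct, dotProduct_smul, smul_eq_mul]
    rw [col_col, col_dot, hcs]
    congr 1
    · linear_combination (4 * (Rᵀ * R) j j * (√t * √t)) * hs + (4 * (Rᵀ * R) j j) * hq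
    · ring
  have e4 : ∀ z, F (t • R *ᵥ sv (fl x j) + √t • z) = f (v + z) := fun z => by
    rw [chan_fl ht]
  simp only [e2, e3, mul_assoc] at i1 e1
  have hc0 : c ≠ 0 := fun h0 => by
    have : sv x j = 0 := by linarith
    rw [this] at hs; simp at hs
  have ec : ∀ z, t * (lineDeriv ℝ F (t • R *ᵥ sv x + √t • z) (R *ᵥ Pi.single j 1) * wN R t x j z) =
      wN R t x j z * (t * lineDeriv ℝ F (t • R *ᵥ sv x + √t • z) (R *ᵥ Pi.single j 1)) :=
    fun z => by ring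
  simp only [ec] at i1 e1
  constructor
  · exact (integrable_const_mul_iff (IsUnit.mk0 c hc0) _).1 i1
  · simp only [e4]
    change sv x j * (∫ z, (f z - f (v + z)) ∂_) / 2 = _
    rw [integral_const_mul] at e1
    rw [← neg_neg (∫ z, (f z - f (v + z)) ∂_), ← integral_neg]
    simp only [neg_sub]
    rw [e1, hcs]
    linear_combination (∫ z, wN R t x j z *
      (t * lineDeriv ℝ F (t • R *ᵥ sv x + √t • z) (R *ᵥ Pi.single j 1)) ∂Gs ι) * hs

/-- **(Grad)** for a function of the observation -/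
theorem grad_Pm_lin (ht : 0 ≤ t) {F : (ι → ℝ) → ℝ} (hF : MG F) (hc : Continuous F) (j : Fin n)
    {L : NNReal} (hL : ∀ u, LipschitzWith L fun r : ℝ => F (u + r • R *ᵥ Pi.single j 1))
    (x : Cube n) : grad (Pm (fun x => R *ᵥ sv x) t fun _ => F) x j =
      ∫ z, wN R t x j z *
        (t * lineDeriv ℝ F (t • R *ᵥ sv x + √t • z) (R *ᵥ Pi.single j 1)) ∂Gs ι := by
  rw [Rec.grad_eq, ← (flip_lin ht hc j hL x).2, Pm, Pm,
    ← integral_sub (hF.affine _ _).int (hF.affine _ _).int]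

/-- **(Grad)** for a function of the state and of the observation -/
theorem grad_Pm_full (ht : 0 ≤ t) {Ψ : Cube n → (ι → ℝ) → ℝ} (hΨ : ∀ x, MG (Ψ x)) (x : Cube n)
    (hc : Continuous (Ψ x)) (j : Fin n) {L : NNReal}
    (hL : ∀ u, LipschitzWith L fun r : ℝ => Ψ x (u + r • R *ᵥ Pi.single j 1)) :
    grad (Pm (fun x => R *ᵥ sv x) t Ψ) x j =
      ∫ z, (wN R t x j z * (t * lineDeriv ℝ (Ψ x) (t • R *ᵥ sv x + √t • z) (R *ᵥ Pi.single j 1)) +
        wE R t x j z * grad (fun x' => Ψ x' (t • R *ᵥ sv x + √t • z)) x j) ∂Gs ι := by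
  rw [Kc.grad_Pm_eq hΨ, grad_Pm_lin ht (hΨ x) hc j hL, Pm_fl ht,
    integral_add (flip_lin ht hc j hL x).1 (int_wE ht (Kc.mg_grad hΨ x j) x j)]

/-! ### posterior means -/

section post
variable {Ω : Type*} [Fintype Ω] {φ : Ω → ι → ℝ} {w : Ω → ℝ}

theorem deriv_post (hw : Wt w) (g : Ω → ℝ) (u v : ι → ℝ) (r : ℝ) :
    HasDerivAt (fun r : ℝ => mean (post φ w t (u + r • v)) g)
      (v ⬝ᵥ covV (post φ w t (u + r • v)) g φ) r := by
  rw [covV_dot]
  refine hasDerivAt_mean (u := fun r => post φ w t (u + r • v)) (hw.post _ _ _) (fun s => ?_) g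
  simp only [post, add_dotProduct, smul_dotProduct, smul_eq_mul]
  simpa [mul_assoc] using (((((hasDerivAt_id r).mul_const (v ⬝ᵥ φ s)).const_add (u ⬝ᵥ φ s)).sub_const
    (t / 2 * (φ s ⬝ᵥ φ s))).exp).const_mul (w s)

theorem ld_post (hw : Wt w) (g : Ω → ℝ) (u v : ι → ℝ) :
    lineDeriv ℝ (fun u => mean (post φ w t u) g) u v = v ⬝ᵥ covV (post φ w t u) g φ := by
  simpa [lineDeriv] using (deriv_post (φ := φ) (t := t) hw g u v 0).deriv

theorem cont_post (hw : Wt w) (g : Ω → ℝ) : Continuous fun u : ι → ℝ => mean (post φ w t u) g :=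
  continuous_finsetSum _ fun s _ =>
    ((cont_prob hw φ s).comp (f := fun u : ι → ℝ => (t, u)) (by fun_prop)).mul continuous_const

theorem lip_post (hw : Wt w) (g : Ω → ℝ) (v : ι → ℝ) :
    ∃ L : NNReal, ∀ u, LipschitzWith L fun r : ℝ => mean (post φ w t (u + r • v)) g := by
  have hb : ∀ (G : Ω → ℝ) s, |G s| ≤ ∑ s, |G s| := fun G s =>
    Finset.single_le_sum (f := fun s => |G s|) (fun _ _ => abs_nonneg _) (Finset.mem_univ s)
  refine ⟨Real.toNNReal ((∑ s, |g s|) * (2 * ∑ s, |v ⬝ᵥ φ s|)), fun u =>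
    lipschitzWith_of_nnnorm_deriv_le (fun r => (deriv_post hw g u v r).differentiableAt) fun r => ?_⟩
  rw [(deriv_post hw g u v r).deriv, ← NNReal.coe_le_coe, coe_nnnorm, Real.norm_eq_abs, covV_dot,
    (hw.post _ _ _).cov_eq', Real.coe_toNNReal _ (by positivity)]
  refine (hw.post _ _ _).abs_mean_le fun s => ?_
  rw [abs_mul]
  refine mul_le_mul (hb g s) ((abs_sub _ _).trans ?_) (abs_nonneg _) (by positivity)
  linarith [hb (fun s => v ⬝ᵥ φ s) s, (hw.post φ t (u + r • v)).abs_mean_le (hb fun s => v ⬝ᵥ φ s)]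

end post

theorem col_covV (w g : Cube n → ℝ) (j : Fin n) :
    t * ((R *ᵥ Pi.single j 1) ⬝ᵥ covV w g fun x => R *ᵥ sv x) = ((t • (Rᵀ * R)) *ᵥ covV w g sv) j := by
  have e : ∀ a : Fin n → ℝ, (R *ᵥ Pi.single j 1) ⬝ᵥ (R *ᵥ a) = (Rᵀ * R) j ⬝ᵥ a := fun a => by
    rw [dotProduct_comm, col_dot, mulVec_mulVec]; rfl
  rw [covV_dot, smul_mulVec, Pi.smul_apply, smul_eq_mul]
  simp only [e]
  rw [← covV_dot]; rfl

/-- **(Grad)** for the resampling kernel of any weight -/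
theorem grad_Kf {w : Cube n → ℝ} (hw : Wt w) (ht : 0 ≤ t) (g : Cube n → ℝ) (x : Cube n) (j : Fin n) :
    grad (Kc.Kf (fun x => R *ᵥ sv x) w t g) x j = ∫ z, wN R t x j z * ((t • (Rᵀ * R)) *ᵥ
      covV (post (fun x => R *ᵥ sv x) w t (t • R *ᵥ sv x + √t • z)) g sv) j ∂Gs ι := by
  obtain ⟨L, hL⟩ := lip_post (φ := fun x => R *ᵥ sv x) (t := t) hw g (R *ᵥ Pi.single j 1)
  rw [Kc.Kf, grad_Pm_lin ht (Rec.mg_pm hw t g) (cont_post hw g) j hL]
  simp only [ld_post hw, col_covV]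


/-- **(Grad)** for the Hubbard–Stratonovich sampler -/
theorem grad_Kf_hs {J : Matrix (Fin n) (Fin n) ℝ} {c : ℝ} (ht : 0 ≤ t)
    (h : t • (Rᵀ * R) = J + c • (1 : Matrix (Fin n) (Fin n) ℝ)) (y : Fin n → ℝ) (g : Cube n → ℝ)
    (x : Cube n) (j : Fin n) :
    grad (Kc.Kf (fun x => R *ᵥ sv x) (ising J y) t g) x j = ∫ z, wN R t x j z *
      ((J + c • (1 : Matrix (Fin n) (Fin n) ℝ)) *ᵥ fun k =>
        (1 - tanh ((y + Rᵀ *ᵥ (t • R *ᵥ sv x + √t • z)) k) ^ 2) *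
          mean (ising 0 (y + Rᵀ *ᵥ (t • R *ᵥ sv x + √t • z))) fun s => grad g s k) j ∂Gs ι := by
  rw [grad_Kf (wt_ising J y) ht, h]
  congr 1; ext z; congr 3; ext k
  rw [← covV0]
  simp only [covV, cov, mean, Kc.prob_post_hs h]


end Crest.Agent.T157.Kv
end
namespace Crest.Agent.T157.Kv.HS
end Crest.Agent.T157.Kv.HS
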