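import Crest.Agent.T157.KGr_47
import Crest.Agent.T157.PlB_37

/-!
# Row 157, part B, kernel route (helper47): covariance of channels and kernels, moments and
deconvolution of `ρ`
-/

set_option autoImplicit false
set_option linter.unusedSectionVars false

noncomputable section

namespace Crest.Agent.T157.Kv

open MeasureTheory ProbabilityTheory Matrix Filter Set Real Function
open Crest.Agent.T157.E Crest.Agent.T157.SL
open Crest.Agent.T157.Rec (grad fl Pm)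
open Crest.Agent.T157.Pl (cmul IsSign)

/-! ### covariance -/

section cov
variable {ι ι' ι'' : Type*} [Fintype ι] [DecidableEq ι] [Fintype ι'] [DecidableEq ι'] [Fintype ι'']
  [DecidableEq ι''] {Ω Ω' : Type*} [Fintype Ω] [Fintype Ω'] {t : ℝ}

/-- a linear isometry preserving the Gaussian integrals -/
structure Iso (T : (ι → ℝ) → ι' → ℝ) : Prop where
  add : ∀ u v, T (u + v) = T u + T v
  smul : ∀ (c : ℝ) u, T (c • u) = c • T u
  dot : ∀ u v, T u ⬝ᵥ T v = u ⬝ᵥ v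
  int : ∀ F : (ι' → ℝ) → ℝ, ∫ z, F (T z) ∂Gs ι = ∫ z, F z ∂Gs ι'


theorem Iso.comp {T : (ι → ℝ) → ι' → ℝ} {S : (ι' → ℝ) → ι'' → ℝ} (hS : Iso S) (hT : Iso T) :
    Iso fun z => S (T z) :=
  ⟨fun u v => by rw [hT.add, hS.add], fun c u => by rw [hT.smul, hS.smul],
    fun u v => by rw [hS.dot, hT.dot], fun F => (hT.int fun z => F (S z)).trans (hS.int F)⟩

theorem iso_sign {ε : ι → ℝ} (h : IsSign ε) : Iso fun z : ι → ℝ => ε * z :=
  ⟨mul_add ε, fun c u => mul_smul_comm c ε u, fun u v => Finset.sum_congr rfl fun i _ => by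
    rcases h i with e | e <;> simp [e], fun F => (Pl.mp_sign_law false h).integral_comp h.emb F⟩

theorem iso_neg : Iso fun z : ι → ℝ => -z := by
  simpa using iso_sign (ε := (-1 : ι → ℝ)) fun _ => Or.inr rfl

theorem iso_perm (e : ι' ≃ ι) : Iso fun z : ι → ℝ => z ∘ e := by
  refine ⟨fun _ _ => rfl, fun _ _ => rfl, fun u v => e.sum_comp fun i => u i * v i, fun F => ?_⟩
  have h := (measurePreserving_piCongrLeft (fun _ : ι => gaussianReal 0 1) e).symm
  have := h.integral_comp' F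
  refine Eq.trans ?_ this
  congr 1

variable {T : (ι → ℝ) → ι' → ℝ} {φ : Ω → ι → ℝ} {φ' : Ω' → ι' → ℝ} {w g : Ω → ℝ} {w' g' : Ω' → ℝ}

theorem Iso.pm (hT : Iso T) {Ψ : Ω → (ι → ℝ) → ℝ} {Ψ' : Ω' → (ι' → ℝ) → ℝ} {x : Ω} {x' : Ω'}
    (hφ : φ' x' = T (φ x)) (hΨ : ∀ u, Ψ' x' (T u) = Ψ x u) : Pm φ' t Ψ' x' = Pm φ t Ψ x := by
  rw [Pm, Pm, ← hT.int fun z => Ψ' x' (t • φ' x' + √t • z)]
  simp only [hφ, ← hT.smul, ← hT.add, hΨ]

theorem prob_equiv (e : Ω ≃ Ω') (hw : ∀ x, w' (e x) = w x) (x : Ω) : prob w' (e x) = prob w x := by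
  rw [prob, prob, hw, ← e.sum_comp w']; simp only [hw]

theorem mean_equiv (e : Ω ≃ Ω') (hw : ∀ x, w' (e x) = w x) (hg : ∀ x, g' (e x) = g x) :
    mean w' g' = mean w g := by
  rw [mean, mean, ← e.sum_comp]; simp only [prob_equiv e hw, hg]

theorem Iso.post (hT : Iso T) (e : Ω ≃ Ω') (hφ : ∀ x, φ' (e x) = T (φ x)) (hw : ∀ x, w' (e x) = w x)
    (u : ι → ℝ) (x : Ω) : post φ' w' t (T u) (e x) = post φ w t u x := by
  simp only [E.post, hφ, hw, hT.dot]

theorem Iso.kf (hT : Iso T) (e : Ω ≃ Ω') (hφ : ∀ x, φ' (e x) = T (φ x)) (hw : ∀ x, w' (e x) = w x)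
    (hg : ∀ x, g' (e x) = g x) (x : Ω) : Kc.Kf φ' w' t g' (e x) = Kc.Kf φ w t g x :=
  hT.pm (hφ x) fun u => mean_equiv e (hT.post e hφ hw u) hg

theorem Iso.kf_iter (hT : Iso T) (e : Ω ≃ Ω') (hφ : ∀ x, φ' (e x) = T (φ x))
    (hw : ∀ x, w' (e x) = w x) (hg : ∀ x, g' (e x) = g x) (k : ℕ) (x : Ω) :
    (Kc.Kf φ' w' t)^[k] g' (e x) = (Kc.Kf φ w t)^[k] g x := by
  induction k generalizing x with
  | zero => exact hg x
  | succ k ih => rw [iterate_succ_apply', iterate_succ_apply']; exact hT.kf e hφ hw ih x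

end cov

section inst
variable {n : ℕ}

theorem sv_sq (s : Cube n) (v : Fin n → ℝ) : sv s * (sv s * v) = v := (Pl.isSign_sv s).mul_self v

theorem cj_mulVec (s : Cube n) (M : Matrix (Fin n) (Fin n) ℝ) (v : Fin n → ℝ) :
    (diagonal (sv s) * M * diagonal (sv s)) *ᵥ (sv s * v) = sv s * (M *ᵥ v) := by
  have e : ∀ u : Fin n → ℝ, diagonal (sv s) *ᵥ u = sv s * u := fun u => funext fun i => mulVec_diagonal _ _ i
  rw [← mulVec_mulVec, ← mulVec_mulVec, e, e, sv_sq]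

theorem ising_gauge (s : Cube n) (J : Matrix (Fin n) (Fin n) ℝ) (y : Fin n → ℝ) (x : Cube n) :
    ising (diagonal (sv s) * J * diagonal (sv s)) (sv s * y) (cmul s x) = ising J y x := by
  rw [ising, ising, Pl.sv_cmul, cj_mulVec, (iso_sign (Pl.isSign_sv s)).dot, (iso_sign (Pl.isSign_sv s)).dot]

theorem sub_mulVec (e : Equiv.Perm (Fin n)) (M : Matrix (Fin n) (Fin n) ℝ) (v : Fin n → ℝ) :
    M.submatrix e e *ᵥ (v ∘ e) = (M *ᵥ v) ∘ e := by
  rw [submatrix_mulVec_equiv]; congr 2; ext i; simp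

theorem sv_perm (e : Equiv.Perm (Fin n)) (x : Cube n) : sv (x ∘ e) = sv x ∘ e := rfl

theorem ising_perm (e : Equiv.Perm (Fin n)) (J : Matrix (Fin n) (Fin n) ℝ) (y : Fin n → ℝ) (x : Cube n) :
    ising (J.submatrix e e) (y ∘ e) (x ∘ e) = ising J y x := by
  rw [ising, ising, sv_perm, sub_mulVec, (iso_perm e).dot, (iso_perm e).dot]

/-- renaming of the sites as a permutation of the cube -/
def pe (e : Equiv.Perm (Fin n)) : Cube n ≃ Cube n := e.symm.arrowCongr (Equiv.refl Bool)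

theorem pe_apply (e : Equiv.Perm (Fin n)) (x : Cube n) : pe e x = x ∘ e := rfl

/-- global spin flip -/
def ng (x : Cube n) : Cube n := cmul (fun _ => false) x

theorem sv_ng (x : Cube n) : sv (ng x) = -sv x := by
  ext i; simp [ng, sv, Crest.ProbabilityR.SpinGlassDynamics.spin, cmul]
  cases x i <;> simp

theorem ising_ng (J : Matrix (Fin n) (Fin n) ℝ) (y : Fin n → ℝ) (x : Cube n) :
    ising J (-y) (ng x) = ising J y x := by
  rw [ising, ising, sv_ng, mulVec_neg, neg_dotProduct_neg, neg_dotProduct_neg]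

variable {J Q : Matrix (Fin n) (Fin n) ℝ} {y : Fin n → ℝ} {t : ℝ} {g g' : Cube n → ℝ}



/-- joint reflection -/
theorem kf_ng (hg : ∀ x, g' (ng x) = g x) (k : ℕ) (x : Cube n) :
    (Kc.Kf (fun x => Q *ᵥ sv x) (ising J (-y)) t)^[k] g' (ng x) =
      (Kc.Kf (fun x => Q *ᵥ sv x) (ising J y) t)^[k] g x :=
  iso_neg.kf_iter (Pl.gauge fun _ => false) (fun x => by
    rw [Pl.gauge_apply, ← ng, sv_ng, mulVec_neg]) (ising_ng J y) hg k x

end inst

/-! ### `ρ` -/

section rho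
variable {κ : Type*} [Fintype κ] [DecidableEq κ]









variable {n : ℕ} {R : Matrix κ (Fin n) ℝ} {t : ℝ}



end rho

end Crest.Agent.T157.Kv
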