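import Crest.Agent.T157.KDef_36
import Crest.Agent.T157.KRg_75
import Crest.Agent.T157.RegTool_31

-- ▼ part T157/KRev_53
section

/-!
# Row 157, part B, block S5 (helper53): `K.RevStmt`, `K.GapStmt`
-/

set_option autoImplicit false

noncomputable section

namespace Crest.Agent.T157.K

open MeasureTheory ProbabilityTheory Real Matrix Finset
open Crest.Agent.T157.E Crest.Agent.T157.Eig Crest.Agent.T157.Kc
open Crest.Agent.T157.Tap (V Mx)
open Crest.Agent.T157.Rec (grad)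
open Crest.Agent.T157.SL (Wt MG)

namespace Rev53

variable {n : ℕ} {J Q : Mx n}

theorem wt (J : Mx n) (y : V n) : Wt (ising J y) := .of_pos fun _ => exp_pos _

theorem hs (h : JQ J Q) : (1 : ℝ) • (Qᵀ * Q) = J + (4 : ℝ) • (1 : Mx n) := by
  rw [one_smul, h.qs, h.qq]

theorem post_eq (h : JQ J Q) (y u : V n) (f : Cube n → ℝ) :
    mean (post (fun x => Q *ᵥ sv x) (ising J y) 1 u) f = mean (pw Q y u) f := by
  rw [mean_post_hs (hs h), h.qs, pw]

theorem kf (h : JQ J Q) (y : V n) : Ky Q y = Kf (fun x => Q *ᵥ sv x) (ising J y) 1 := by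
  funext F
  simp only [Ky, cav_eq, Kf, post_eq h]

theorem inv (h : JQ J Q) (y : V n) (F : Cube n → ℝ) :
    mean (ising J y) (Ky Q y F) = mean (ising J y) F := by
  rw [kf h, mean_Kf (wt J y) zero_le_one]

theorem pm (J : Mx n) {r : ℝ} {X : F2 n} (hr : 0 ≤ r) (hX : ∀ s, MG (X s)) :
    PM J r X = PM J r fun _ y => mean (ising J y) fun t => X t y := by
  rw [PM, SL.bayes (wt J 0) hr (.of_mg hX)]
  simp only [PM, mean, prob_post_sv, tilt_ising, zero_add]

theorem cont_prob (s : Cube n) : Continuous fun x : V n => prob (ising 0 x) s := by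
  have c : ∀ s, Continuous fun x : V n => ising 0 x s := fun s => by
    simp only [ising, dotProduct]; fun_prop
  exact (c s).div (continuous_finsetSum _ fun x _ => c x) fun x => (wt 0 x).pos.ne'

theorem mg_Kop (Q : Mx n) {X : F2 n} (hc : ∀ s, Continuous (X s)) {B : ℝ} (hB : ∀ s y, |X s y| ≤ B)
    (s : Cube n) : MG (Kop Q X s) := by
  have c : Continuous fun p : V n × V n => mean (pw Q p.1 (Q *ᵥ sv s + p.2)) fun t => X t p.1 :=
    continuous_finsetSum _ fun t _ =>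
      ((cont_prob t).comp (f := fun p : V n × V n => p.1 + Q *ᵥ (Q *ᵥ sv s + p.2))
        (by fun_prop)).mul ((hc t).comp continuous_fst)
  refine .of_bdd c.stronglyMeasurable.integral_prod_right'.measurable B fun y => ?_
  exact (norm_integral_le_of_norm_le_const (μ := gv (Fin n)) (C := B)
    (f := fun z => mean (pw Q y (Q *ᵥ sv s + z)) fun t => X t y)
    (.of_forall fun z => (wt 0 _).abs_mean_le fun t => hB t y)).trans_eq (by simp)

theorem opQ (h : JQ J Q) : opn Q ≤ 3 ∧ opn (Q * Q) ≤ 7 ∧ ∀ j, (Qᵀ * Q) j j = 4 := by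
  have h1 : opn (Q * Q) ≤ 7 := by
    rw [h.qq]
    refine (opn_add_le _ _).trans ?_
    rw [opn_smul, abs_of_pos four_pos]
    linarith [h.op, opn_one_le (ι := Fin n)]
  refine ⟨?_, h1, fun j => by simp [h.qs, h.qq, h.diag]⟩
  have := opn_transpose_mul_self Q
  rw [h.qs] at this
  nlinarith

end Rev53

open Rev53

theorem revStmt : RevStmt where
  bayes n J Q y F h hF := by
    rw [cav_eq, cav_eq, ← Rec.slE_eq_Pm, ← Rec.slE_eq_Pm,
      SL.bayes (wt J y) zero_le_one (.of_mg hF)]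
    simp only [post_eq h]
  inv _ _ _ y F h := inv h y F
  kf _ _ _ y h := kf h y
  pm _ J _ _ hr hX := pm J hr hX
  pmK n J Q r X h hr hc hB := by
    obtain ⟨B, hB⟩ := hB
    rw [pm J hr (mg_Kop Q hc hB), pm J hr fun s => .of_bdd (hc s).measurable B (hB s)]
    exact congrArg (PM J r) (funext fun _ => funext fun y => inv h y _)
  opQ _ _ _ h := opQ h

theorem gapStmt : GapStmt := by
  intro K0
  obtain ⟨G, hG⟩ : ∃ G, G = Ga 1 7 := ⟨_, rfl⟩
  have G1 : 1 ≤ G := by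
    rw [hG, Ga]; nlinarith [one_le_exp (show (0 : ℝ) ≤ 4 * 1 * 7 by norm_num)]
  obtain ⟨a, ha⟩ : ∃ a, a = (|K0| + 1) * G := ⟨_, rfl⟩
  have a1 : 1 ≤ a := ha ▸ one_le_mul_of_one_le_of_one_le (by linarith [abs_nonneg K0]) G1
  obtain ⟨γ, hγ⟩ : ∃ γ, γ = (1 + a)⁻¹ := ⟨_, rfl⟩
  have γ0 : 0 < γ := hγ ▸ by positivity
  have γ1 : γ * (1 + a) = 1 := hγ ▸ inv_mul_cancel₀ (by positivity)
  have γ2 : γ < 1 := by nlinarith
  obtain ⟨C, hC⟩ : ∃ C, C = 1 + a + 7 * G := ⟨_, rfl⟩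
  obtain ⟨D, hD⟩ : ∃ D, D = 2 / γ + 1 := ⟨_, rfl⟩
  have D1 : 1 ≤ D := hD ▸ le_add_of_nonneg_left (by positivity)
  have C1 : 1 ≤ C := by linarith
  have CD : C ≤ D ^ 2 * C := le_mul_of_one_le_left (by linarith) (one_le_pow₀ D1)
  refine ⟨γ, D ^ 2 * C, γ0, γ2, C1.trans CD, fun n J Q y ε A F k h hA hF => ?_⟩
  simp only [nrm_sq, Ks, kf h] at hF ⊢
  have hw : ∀ x, 0 < ising J y x := fun _ => exp_pos _
  have W := wt J y
  have hl : opn (Qᵀ * Q) ≤ 7 := by rw [h.qs]; exact (opQ h).2.1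
  have fg := fg_opn hl
  have A0 : 0 ≤ A := (dot_self_nonneg _).trans (hF default)
  have εA : 0 ≤ ε * A := mul_nonneg hA.nn A0
  have V0 := W.var_nonneg F
  have M0 : 0 ≤ mean (ising J y) fun s => grad F s ⬝ᵥ grad F s :=
    W.mean_nonneg fun _ => dot_self_nonneg _
  have KG : K0 * G ≤ a := ha ▸ mul_le_mul_of_nonneg_right (by linarith [le_abs_self K0]) (by linarith)
  have q0 : 0 ≤ 1 - γ := by linarith
  have p1 : var (ising J y) F ≤ K0 * (mean (ising J y) fun s => grad F s ⬝ᵥ grad F s) + ε * A :=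
    S3.Hd.var_le_grad hw hA hF
  have g1 := fun k x => K75.grad_iter_le zero_le_one (hs h) hl y k F x
  have g2 := fun g => (fg.mean_grad_Kf W zero_le_one g).trans (mul_le_mul_of_nonneg_left
    ((le_add_of_nonneg_left (SL.slE_nonneg W fun _ _ => sq_nonneg _)).trans_eq
      (var_split W zero_le_one g).symm) (Ga_nonneg zero_le_one fg.1))
  have hB := S3.Hd.sub_mean_le hw (S3.Hd.osc (S3.Hd.vp4 hF))
  have g3 : ∀ k, var (ising J y) ((Kf (fun x => Q *ᵥ sv x) (ising J y) 1)^[k] F) ≤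
      (1 - γ) ^ k * var (ising J y) F + ε * A := fun k => by
    induction k with
    | zero => simpa using εA
    | succ k ih =>
      have h1 := fg.gap (g := (Kf (fun x => Q *ᵥ sv x) (ising J y) 1)^[k] F) hw zero_le_one
        (K := |K0| + 1) (by positivity) (ε := ε * A)
        ((hA.mono (by linarith [le_abs_self K0]) le_rfl).poinc hw _
          (abs_Kf_sub_le W (abs_iter_le W hB k)) A0 (by
            rw [S3.Hd.osc_sq (by positivity)]
            nlinarith [mul_le_mul_of_nonneg_left (S3.Hd.n_le_sq n) A0,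
              mul_nonneg A0 (sq_nonneg (n : ℝ))]))
      rw [← hG, ← ha] at h1
      rw [Function.iterate_succ_apply']
      refine le_of_mul_le_mul_left (h1.trans ?_) (show 0 < 1 + a by positivity)
      rw [pow_succ' _ k, mul_add, mul_assoc (1 - _), ← mul_assoc (1 + _),
        show (1 + a) * (1 - γ) = a by linarith]
      linarith [mul_le_mul_of_nonneg_left ih (show 0 ≤ a by linarith)]
  have g0 : ∀ k x, (Kf (fun x => Q *ᵥ sv x) (ising J y) 1)^[k] (fun x => grad F x ⬝ᵥ grad F x) x ≤ A :=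
    fun k x => by
      simpa using (abs_le.1 (abs_iter_le W (c := 0) (fun x => by
        rw [sub_zero, abs_of_nonneg (dot_self_nonneg _)]; exact hF x) k x)).2
  rw [← hG] at g1 g2
  generalize Kf (fun x => Q *ᵥ sv x) (ising J y) 1 = T at *
  generalize hM : (mean (ising J y) fun s => grad F s ⬝ᵥ grad F s) = M at *
  have CA : ∀ {x}, 0 ≤ x → C * x ≤ D ^ 2 * C * x := fun hx => mul_le_mul_of_nonneg_right CD hx
  have g4 : ∀ k, (mean (ising J y) fun s => grad (T^[k] F) s ⬝ᵥ grad (T^[k] F) s) ≤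
      C * ((1 - γ) ^ k * M) + C * (ε * A) := fun k => by
    cases k with
    | zero =>
      rw [pow_zero, one_mul]
      exact hM.trans_le ((le_mul_of_one_le_left M0 C1).trans
        (le_add_of_nonneg_right (mul_nonneg (zero_le_one.trans C1) εA)))
    | succ k =>
      rw [Function.iterate_succ_apply', pow_succ]
      have q1 := pow_nonneg q0 k
      have h1 := mul_le_mul_of_nonneg_left ((g3 k).trans (add_le_add_left
        (mul_le_mul_of_nonneg_left p1 q1) _)) (zero_le_one.trans G1)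
      have h2 := mul_le_mul_of_nonneg_right KG (mul_nonneg q1 M0)
      have h3 := mul_le_of_le_one_left (mul_nonneg (zero_le_one.trans G1) εA)
        (pow_le_one₀ (n := k) q0 (by linarith))
      have h4 : a ≤ C * (1 - γ) := by nlinarith
      have h5 := mul_le_mul_of_nonneg_right h4 (mul_nonneg q1 M0)
      have h6 := mul_le_mul_of_nonneg_right (show 2 * G ≤ C by linarith) εA
      linarith [g2 (T^[k] F)]
  refine ⟨fun s => (g1 k s).trans ((mul_le_mul_of_nonneg_left (g0 k s) (by positivity)).trans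
    (mul_le_mul_of_nonneg_right (pow_le_pow_left₀ (by positivity) (by linarith) k) A0)),
    (g3 k).trans (by linarith [CA εA, le_mul_of_one_le_left εA C1]),
    (g4 k).trans (by linarith [CA εA, CA (mul_nonneg (pow_nonneg q0 k) M0)]), ?_⟩
  obtain ⟨r, hr⟩ : ∃ r, r = 1 - γ / 2 := ⟨_, rfl⟩
  have r0 : 0 < r := by linarith
  have s1 : ∑ l ∈ range k, r ^ l ≤ 2 / γ := by
    rw [le_div_iff₀ γ0]
    have := geom_sum_mul r k
    rw [show r - 1 = -(γ / 2) by linarith] at this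
    linarith [pow_pos r0 k]
  have u0 : ∀ l, 0 < r ^ l + (k : ℝ)⁻¹ := fun l => by positivity
  have s2 : ∑ l ∈ range k, (r ^ l + (k : ℝ)⁻¹) ≤ D := by
    rw [sum_add_distrib, sum_const, card_range, nsmul_eq_mul, hD]
    exact add_le_add s1 mul_inv_le_one
  have s3 : ∀ s, grad (∑ l ∈ range k, T^[l] F) s ⬝ᵥ grad (∑ l ∈ range k, T^[l] F) s ≤
      D * ∑ l ∈ range k, (r ^ l + (k : ℝ)⁻¹)⁻¹ * (grad (T^[l] F) s ⬝ᵥ grad (T^[l] F) s) := fun s => by
    simp only [dotProduct, mul_sum _ _ (_⁻¹)]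
    rw [sum_comm, mul_sum, sum_fn]
    refine sum_le_sum fun j _ => ?_
    rw [Da.Gr.grad_sum, ← sq]
    refine (sum_sq_le_sum_mul_sum_of_sq_le_mul _ (fun l _ => (u0 l).le)
      (fun l _ => mul_nonneg (inv_pos.2 (u0 l)).le (mul_self_nonneg _)) fun l _ => ?_).trans
      (mul_le_mul_of_nonneg_right s2 (sum_nonneg fun l _ =>
        mul_nonneg (inv_pos.2 (u0 l)).le (mul_self_nonneg _)))
    rw [mul_inv_cancel_left₀ (u0 l).ne', sq]
  refine (W.mean_mono s3).trans ?_
  rw [SL.mean_const_mul, SL.mean_sum]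
  have s4 : ∀ l ∈ range k, (mean (ising J y) fun s => (r ^ l + (k : ℝ)⁻¹)⁻¹ *
      (grad (T^[l] F) s ⬝ᵥ grad (T^[l] F) s)) ≤ C * M * r ^ l + C * (k * (ε * A)) := fun l hl => by
    have k0 : (0 : ℝ) < k := by exact_mod_cast (Nat.zero_le l).trans_lt (mem_range.1 hl)
    rw [SL.mean_const_mul, inv_mul_le_iff₀ (u0 l)]
    refine (g4 l).trans ?_
    have h1 : (1 - γ) ^ l ≤ r ^ l * r ^ l := by
      rw [← mul_pow]; exact pow_le_pow_left₀ q0 (by nlinarith) l
    have h2 : (k : ℝ)⁻¹ * (C * (k * (ε * A))) = C * (ε * A) := by field_simp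
    have h3 : 0 ≤ (k : ℝ)⁻¹ * (C * M * r ^ l) := by positivity
    have h4 : 0 ≤ r ^ l * (C * (k * (ε * A))) := by positivity
    linarith [mul_le_mul_of_nonneg_left h1 (show 0 ≤ C * M by positivity)]
  refine (mul_le_mul_of_nonneg_left (sum_le_sum s4) (by linarith)).trans ?_
  rw [sum_add_distrib, ← mul_sum, sum_const, card_range, nsmul_eq_mul]
  have h1 := mul_le_mul_of_nonneg_left (s1.trans (show _ ≤ D by linarith))
    (show 0 ≤ D * (C * M) by positivity)
  have h2 := mul_le_mul_of_nonneg_right D1 (show 0 ≤ D * (C * (k ^ 2 * (ε * A))) by positivity)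
  linarith

end Crest.Agent.T157.K

end
end

-- ▼ part T157/KRf_75
section

/-!
# Row 157, part B, block S5 (helper75): regular fields pass through channels
-/

set_option autoImplicit false
set_option linter.unusedSectionVars false

noncomputable section

namespace Crest.Agent.T157.K

open MeasureTheory Real Matrix Finset
open Crest.Agent.T157.E Crest.Agent.T157.Eig
open Crest.Agent.T157.Tap (V Mx)
open Crest.Agent.T157.Rec (grad fl Pm)
open Crest.Agent.T157.Conc (ELip)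
open Crest.Agent.T157.Reg (jac)

namespace Rf75

variable {n : ℕ} {κ : Type} [Fintype κ] [DecidableEq κ] {w : ℝ → ℝ} {M e B : ℝ}

theorem W2.nonneg (h : W2 M w) : 0 ≤ M := (abs_nonneg _).trans (h.2 0 0).1

theorem W2.lip (h : W2 M w) (a b : ℝ) : |w a - w b| ≤ M * |a - b| := by
  have := convex_univ.norm_image_sub_le_of_norm_hasDerivWithin_le (f := w) (f' := deriv w) (C := M)
    (fun t _ => (h.1 t).hasDerivAt.hasDerivWithinAt) (fun t _ => (h.2 t t).2.1) (Set.mem_univ b)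
    (Set.mem_univ a)
  simpa only [Real.norm_eq_abs] using this

theorem W2.tay (h : W2 M w) (x d : ℝ) : |w (x + d) - w x - deriv w x * d| ≤ M * d ^ 2 := by
  have := (convex_closedBall x |d|).norm_image_sub_le_of_norm_hasDerivWithin_le
    (f := fun u => w u - deriv w x * u) (f' := fun u => deriv w u - deriv w x) (C := M * |d|)
    (x := x) (y := x + d)
    (fun t _ => by
      simpa using ((h.1 t).hasDerivAt.fun_sub ((hasDerivAt_id t).const_mul (deriv w x))).hasDerivWithinAt)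
    (fun t ht => by
      rw [Metric.mem_closedBall, Real.dist_eq] at ht
      exact (h.2 t x).2.2.trans (mul_le_mul_of_nonneg_left ht (W2.nonneg h)))
    (Metric.mem_closedBall_self (abs_nonneg d)) (by simp)
  simp only [Real.norm_eq_abs, add_sub_cancel_left] at this
  calc _ = |w (x + d) - deriv w x * (x + d) - (w x - deriv w x * x)| := by congr 1; ring
    _ ≤ M * |d| * |d| := this
    _ = M * d ^ 2 := by rw [mul_assoc, abs_mul_abs_self, sq]

theorem abs_sv (s : Cube n) (i : Fin n) : |sv s i| = 1 := by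
  have h2 : |sv s i| * |sv s i| = 1 := by rw [abs_mul_abs_self, Rec.sv_mul_self]
  nlinarith [abs_nonneg (sv s i)]

theorem nrm_mono {ι : Type*} [Fintype ι] {u v : ι → ℝ} (h : ∀ i, |u i| ≤ v i) : nrm u ≤ nrm v :=
  sqrt_le_sqrt (sum_le_sum fun i _ => by
    rw [← abs_mul_abs_self]; exact mul_self_le_mul_self (abs_nonneg _) (h i))

theorem RF.nonneg {u : Cube n → (κ → ℝ) → V n} (h : RF e u) : 0 ≤ e :=
  (opn_nonneg _).trans ((h.r0 0).op fun _ => true)

/-- a weight read at a point that moves with the flips -/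
theorem op_comp (hw : W2 M w) {u : Cube n → V n} (hu : R0 e u) (s : Cube n) {x : Cube n → V n}
    {D : Mx n} {δ : ℝ} (hD : opn D ≤ δ) (hx : ∀ i j, x (fl s j) i = x s i + D i j) :
    opn (jac (fun t i => w (x t i) * u t i) s) ≤ M * e * (1 + 2 * δ + δ ^ 2) := by
  have M0 := W2.nonneg hw
  have e0 : 0 ≤ e := (opn_nonneg _).trans (hu.op s)
  have d0 : 0 ≤ δ := (opn_nonneg _).trans hD
  have r1 : ∀ i, ∑ j, D i j ^ 2 ≤ δ ^ 2 := fun i =>
    (Reg.X31.row_le D i).trans (pow_le_pow_left₀ (opn_nonneg _) hD 2)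
  have c1 : ∀ {A : Mx n} {a : ℝ}, opn A ≤ a → ∀ j, ∑ i, A i j ^ 2 ≤ a ^ 2 := fun h j =>
    (Reg.X31.col_le _ j).trans (pow_le_pow_left₀ (opn_nonneg _) h 2)
  have E : jac (fun t i => w (x t i) * u t i) s = diagonal (fun i => w (x s i)) * jac u s +
      diagonal (fun i => deriv w (x s i) * u s i) * D +
      (of fun i j => deriv w (x s i) * D i j * jac u s i j) +
      of fun i j => (w (x s i + D i j) - w (x s i) - deriv w (x s i) * D i j) * u (fl s j) i := by
    ext i j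
    simp only [jac, Matrix.add_apply, diagonal_mul, of_apply, hx]; ring
  have h1 : opn (diagonal (fun i => w (x s i)) * jac u s) ≤ M * e := (opn_mul_le _ _).trans
    (mul_le_mul (opn_diagonal_le M0 fun i => (hw.2 _ 0).1) (hu.op s) (opn_nonneg _) M0)
  have h2 : opn (diagonal (fun i => deriv w (x s i) * u s i) * D) ≤ M * e * δ := (opn_mul_le _ _).trans
    (mul_le_mul (opn_diagonal_le (by positivity) fun i => by
      rw [abs_mul]; exact mul_le_mul (hw.2 _ 0).2.1 (hu.sup s i) (abs_nonneg _) M0) hD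
      (opn_nonneg _) (by positivity))
  have h3 : opn (of fun i j => deriv w (x s i) * D i j * jac u s i j : Mx n) ≤ δ * (M * e) :=
    Reg.X31.op_had D (M • jac u s) _ d0 (by positivity) r1 (c1 (by
      rw [opn_smul, abs_of_nonneg M0]; exact mul_le_mul_of_nonneg_left (hu.op s) M0)) fun i j => by
      simp only [of_apply, Matrix.smul_apply, smul_eq_mul, abs_mul, abs_of_nonneg M0]
      have := mul_le_mul_of_nonneg_right (hw.2 (x s i) 0).2.1
        (mul_nonneg (abs_nonneg (D i j)) (abs_nonneg (jac u s i j)))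
      linarith
  have h4 : opn (of fun i j => (w (x s i + D i j) - w (x s i) - deriv w (x s i) * D i j) *
      u (fl s j) i : Mx n) ≤ δ * (M * e * δ) :=
    Reg.X31.op_had D ((M * e) • D) _ d0 (by positivity) r1 (c1 (by
      rw [opn_smul, abs_of_nonneg (by positivity)]
      exact mul_le_mul_of_nonneg_left hD (by positivity))) fun i j => by
      simp only [of_apply, Matrix.smul_apply, smul_eq_mul, abs_mul, abs_of_nonneg M0, abs_of_nonneg e0]
      refine (mul_le_mul (W2.tay hw _ _) (hu.sup _ i) (abs_nonneg _) (by positivity)).trans_eq ?_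
      rw [← sq_abs]; ring
  rw [E]
  have := (opn_add_le _ _).trans (add_le_add ((opn_add_le _ _).trans
    (add_le_add ((opn_add_le _ _).trans (add_le_add h1 h2)) h3)) h4)
  linarith

theorem abs_int_le {ι : Type} [Fintype ι] {f : (ι → ℝ) → ℝ} {c : ℝ} (h : ∀ z, |f z| ≤ c) :
    |∫ z, f z ∂gv ι| ≤ c := by
  simpa using norm_integral_le_of_norm_le_const (μ := gv ι) (f := f) (C := c) (.of_forall h)

end Rf75

open Rf75

theorem rfStmt : RFStmt := by
  intro B
  set C1 : ℝ := 1 + 2 * (2 * B ^ 2) + (2 * B ^ 2) ^ 2 with hC1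
  set C2 : ℝ := 2 * exp (4 * B ^ 2) * (4 * B ^ 2 * (B + 1) ^ 2 + C1 ^ 2) with hC2
  have C0 : 0 ≤ C2 := by positivity
  refine ⟨C2 + 3, by linarith, fun n κ _ _ P R w u M e hP hR hw hu => ?_⟩
  have M0 := W2.nonneg hw
  have e0 := RF.nonneg hu
  have B0 : 0 ≤ B := (opn_nonneg _).trans hP
  have Me : 0 ≤ M * e := mul_nonneg M0 e0
  have bd : ∀ (x : ℝ) t ζ i, |w x * u t ζ i| ≤ M * e := fun x t ζ i => by
    rw [abs_mul]; exact mul_le_mul (hw.2 _ 0).1 ((hu.r0 ζ).sup t i) (abs_nonneg _) M0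
  refine ⟨fun s i => (abs_int_le fun z => bd _ _ _ _).trans (by nlinarith), fun s => ?_⟩
  set x : (κ → ℝ) → Cube n → V n := fun ζ t i => sv s i * (Rᵀ *ᵥ ζ - (Rᵀ * P) *ᵥ sv t) i with hx
  set Φ : Cube n → (κ → ℝ) → V n := fun t ζ i => w (x ζ t i) * u t ζ i with hΦ
  set U : Cube n → V n := fun t i => Pm (fun t => P *ᵥ sv t) 1 (fun t ζ => Φ t ζ i) t with hU
  have hUe : ∀ t i, U t i = ∫ z, w (sv s i * (Rᵀ *ᵥ z) i) * u t (P *ᵥ sv t + z) i ∂gv κ := by
    intro t i
    simp [hU, hΦ, hx, Pm, mulVec_add]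
  have hG : opn (Rᵀ * P) ≤ B ^ 2 := (opn_mul_le _ _).trans (by
    rw [opn_transpose, sq]; exact mul_le_mul hR hP (opn_nonneg _) B0)
  have hPP : opn (Pᵀ * P) ≤ B ^ 2 := by
    rw [opn_transpose_mul_self, sq]; exact mul_self_le_mul_self (opn_nonneg _) hP
  have hD : opn (diagonal (sv s) * ((2 : ℝ) • (Rᵀ * P)) * diagonal (sv s)) ≤ 2 * B ^ 2 := by
    have h1 : opn (diagonal (sv s)) ≤ 1 := opn_diagonal_le zero_le_one fun i => (abs_sv s i).le
    have h2 : opn ((2 : ℝ) • (Rᵀ * P)) ≤ 2 * B ^ 2 := by rw [opn_smul, abs_two]; linarith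
    refine (opn_mul_le _ _).trans ((mul_le_mul ((opn_mul_le _ _).trans
      (mul_le_mul h1 h2 (opn_nonneg _) zero_le_one)) h1 (opn_nonneg _) (by positivity)).trans_eq ?_)
    ring
  have h1 : ∀ ζ, opn (jac (fun t => Φ t ζ) s) ≤ M * e * C1 := fun ζ =>
    op_comp hw (hu.r0 ζ) s hD fun i j => by
      have := eq_add_of_sub_eq (Rec.sv_fl_sub s j)
      simp only [hx, this, mulVec_add, mulVec_single, mul_diagonal, diagonal_mul, Pi.sub_apply,
        Pi.add_apply, Matrix.smul_apply, smul_eq_mul, Pi.smul_apply, op_smul_eq_smul, col_apply]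
      ring
  have h2 : ∀ t ζ ζ', nrm (Φ t ζ - Φ t ζ') ≤ M * e * (B + 1) * nrm (ζ - ζ') := by
    intro t ζ ζ'
    have a1 : nrm (Φ t ζ - Φ t ζ') ≤ nrm ((M * e) • (fun i => |(Rᵀ *ᵥ (ζ - ζ')) i|) +
        M • fun i => |(u t ζ - u t ζ') i|) := nrm_mono fun i => by
      have b1 := W2.lip hw (x ζ t i) (x ζ' t i)
      have b2 : |x ζ t i - x ζ' t i| = |(Rᵀ *ᵥ (ζ - ζ')) i| := by
        simp only [hx, ← mul_sub, abs_mul, abs_sv, one_mul, mulVec_sub, Pi.sub_apply,
          sub_sub_sub_cancel_right]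
      have b3 : (Φ t ζ - Φ t ζ') i = (w (x ζ t i) - w (x ζ' t i)) * u t ζ i +
          w (x ζ' t i) * (u t ζ - u t ζ') i := by simp only [hΦ, Pi.sub_apply]; ring
      rw [b2] at b1
      rw [b3]
      refine (abs_add_le _ _).trans (add_le_add ?_ ?_) <;> rw [abs_mul]
      · exact (mul_le_mul b1 ((hu.r0 ζ).sup t i) (abs_nonneg _) (by positivity)).trans_eq
          (by simp only [Pi.smul_apply, smul_eq_mul]; ring)
      · exact mul_le_mul_of_nonneg_right (hw.2 _ 0).1 (abs_nonneg _)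
    have a2 := nrm_mulVec_le Rᵀ (ζ - ζ')
    rw [opn_transpose] at a2
    have a3 := a2.trans (mul_le_mul_of_nonneg_right hR (nrm_nonneg _))
    have a4 := a1.trans (nrm_add_le _ _)
    rw [nrm_smul, nrm_smul, Reg.X31.nrm_abs, Reg.X31.nrm_abs, abs_of_nonneg Me, abs_of_nonneg M0] at a4
    nlinarith [mul_le_mul_of_nonneg_left a3 Me, mul_le_mul_of_nonneg_left (hu.lip t ζ ζ') M0]
  have h3 : ∀ (a : V n) t, ELip (nrm a * (M * e * (B + 1))) fun ζ => a ⬝ᵥ Φ t ζ := fun a t ζ ζ' => by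
    rw [← dotProduct_sub, K75.en_eq, mul_assoc]
    exact (abs_dot_le _ _).trans (mul_le_mul_of_nonneg_left (h2 t ζ ζ') (nrm_nonneg a))
  have h4 : ∀ i t, SL.MG fun ζ => Φ t ζ i := fun i t => by
    simpa using K75.mg_of_elip (h3 (Pi.single i 1) t)
  have h5 : opn (jac U s) ≤ (C2 + 1) * (M * e) :=
    K75.opn_jm_le (m := fun j t => fl t j) (by positivity) fun a => by
      have b1 : (fun t => a ⬝ᵥ U t) = Pm (fun t => P *ᵥ sv t) 1 fun t ζ => a ⬝ᵥ Φ t ζ := by
        funext t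
        simp only [dotProduct, hU]
        rw [Rec.Pm_sum _ fun i _ t => (h4 i t).const_mul (a i)]
        exact sum_congr rfl fun i _ => (Rec.Pm_mul (fun _ => a i) _ t).symm
      have b0 : ∀ ζ, K75.En (fun j t => fl t j) (fun t => a ⬝ᵥ Φ t ζ) s ≤
          (M * e * C1) ^ 2 * (a ⬝ᵥ a) := fun ζ =>
        K75.en_dot_le (m := fun j t => fl t j) (U := fun t => Φ t ζ) (p := s) (h1 ζ) a
      have b2 := K75.en_Pm_le (Ψ := fun t ζ => a ⬝ᵥ Φ t ζ) zero_le_one
        (K75.FG.mg2 (Kc.fg_opn hPP) s) (h3 a) b0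
      rw [b1]
      refine b2.trans ?_
      have b3 : C2 ≤ (C2 + 1) ^ 2 := by nlinarith
      have b4 := mul_le_mul_of_nonneg_right b3 (mul_nonneg (sq_nonneg (M * e)) (sq_nonneg (nrm a)))
      rw [← nrm_sq]
      refine le_of_eq_of_le ?_ (b4.trans_eq ?_)
      · rw [hC2, one_mul]; ring
      · ring
  have E : jac (cwv P R w u) s = jac U s +
      diagonal fun i => cwv P R w u (fl s i) i - U (fl s i) i := by
    ext i j
    by_cases h : i = j
    · subst h; simp only [jac, Matrix.add_apply, of_apply, diagonal_apply_eq, hUe s, cwv]; ring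
    · simp only [jac, Matrix.add_apply, of_apply, diagonal_apply_ne _ h, hUe, cwv,
        Rec.sv_fl_ne s h, add_zero]
  have h6 : opn (diagonal fun i => cwv P R w u (fl s i) i - U (fl s i) i) ≤ M * e + M * e :=
    opn_diagonal_le (by positivity) fun i => (abs_sub _ _).trans (add_le_add
      (abs_int_le fun z => bd _ _ _ _) (by rw [hUe]; exact abs_int_le fun z => bd _ _ _ _))
  rw [E]
  exact (opn_add_le _ _).trans ((add_le_add h5 h6).trans_eq (by ring))

end Crest.Agent.T157.K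

end
end

-- ▼ part T157/KW_15

/-!
# Row 157, part B, block S5: the clipped weights (`K.wStmt`, helper15)
-/

set_option autoImplicit false
set_option linter.unusedVariables false

noncomputable section

namespace Crest.Agent.T157.K

open MeasureTheory ProbabilityTheory Real Set Filter Topology

namespace W15

theorem exp_lip {a x y : ℝ} (hx : x ≤ a) (hy : y ≤ a) : |exp x - exp y| ≤ exp a * |x - y| := by
  wlog h : y ≤ x generalizing x y
  · rw [abs_sub_comm, abs_sub_comm x]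
    exact this hy hx (le_of_not_ge h)
  have h1 : exp y = exp x * exp (y - x) := by rw [← exp_add]; congr 1; ring
  have h2 := add_one_le_exp (y - x)
  have h3 := exp_le_exp.2 hx
  have h4 := exp_pos x
  rw [abs_of_nonneg (sub_nonneg.2 (exp_le_exp.2 h)), abs_of_nonneg (sub_nonneg.2 h), h1]
  nlinarith

/-! ### the clip -/

/-- derivative of the clip -/
def c1 (Λ u : ℝ) : ℝ := exp (min (u + Λ) 0)

theorem cl_of_le {Λ u : ℝ} (h : -Λ ≤ u) : cl Λ u = u := by
  rw [cl, max_eq_left h, min_eq_right (by linarith), exp_zero]; ring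

theorem cl_of_ge {Λ u : ℝ} (h : u ≤ -Λ) : cl Λ u = -Λ + (exp (u + Λ) - 1) := by
  rw [cl, max_eq_right h, min_eq_left (by linarith)]

theorem der_cl (Λ u : ℝ) : HasDerivAt (cl Λ) (c1 Λ u) u := by
  refine hasDerivAt_of_hasDerivAt_of_ne' (x := -Λ) (fun y hy => ?_) ?_ ?_ u
  · rcases lt_or_gt_of_ne hy with h | h
    · have h1 : HasDerivAt (fun u => -Λ + (exp (u + Λ) - 1)) (exp (y + Λ)) y := by
        simpa using ((((hasDerivAt_id y).add_const Λ).exp).sub_const 1).const_add (-Λ)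
      rw [c1, min_eq_left (by linarith)]
      refine h1.congr_of_eventuallyEq ?_
      filter_upwards [Iio_mem_nhds h] with z hz using cl_of_ge (le_of_lt hz)
    · rw [c1, min_eq_right (by linarith), exp_zero]
      refine (hasDerivAt_id y).congr_of_eventuallyEq ?_
      filter_upwards [Ioi_mem_nhds h] with z hz using cl_of_le (le_of_lt hz)
  · unfold cl; fun_prop
  · unfold c1; fun_prop

theorem c1_pos (Λ u : ℝ) : 0 < c1 Λ u := exp_pos _

theorem c1_le (Λ u : ℝ) : c1 Λ u ≤ 1 := exp_le_one_iff.2 (min_le_right _ _)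

theorem c1_lip (Λ u v : ℝ) : |c1 Λ u - c1 Λ v| ≤ |u - v| := by
  have h := exp_lip (min_le_right (u + Λ) 0) (min_le_right (v + Λ) 0)
  rw [exp_zero, one_mul] at h
  refine h.trans ((abs_min_sub_min_le_max _ _ _ _).trans ?_)
  simp

theorem cl_lip (Λ u v : ℝ) : |cl Λ u - cl Λ v| ≤ |u - v| := by
  have := (convex_univ (𝕜 := ℝ) (E := ℝ)).norm_image_sub_le_of_norm_hasDerivWithin_le (C := 1)
    (f := cl Λ) (f' := c1 Λ) (x := v) (y := u) (fun z _ => (der_cl Λ z).hasDerivWithinAt)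
    (fun z _ => by rw [Real.norm_eq_abs, abs_of_pos (c1_pos Λ z)]; exact c1_le Λ z)
    (mem_univ _) (mem_univ _)
  simpa using this

theorem le_cl (Λ u : ℝ) : u ≤ cl Λ u := by
  rcases le_total (-Λ) u with h | h
  · rw [cl_of_le h]
  · rw [cl_of_ge h]; linarith [add_one_le_exp (u + Λ)]

theorem cl_ge (Λ u : ℝ) : -Λ - 1 ≤ cl Λ u := by
  have := le_max_right u (-Λ)
  have := exp_pos (min (u + Λ) 0)
  unfold cl; linarith

/-! ### mixtures of exponentials -/

/-- the integrand -/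
def ee (k u t : ℝ) : ℝ := exp (-2 * t * u - 2 * t ^ 2 * k)
/-- the mixture -/
def gg (μ : Measure ℝ) (k u : ℝ) : ℝ := ∫ t, ee k u t ∂μ
/-- its derivative -/
def g1 (μ : Measure ℝ) (k u : ℝ) : ℝ := ∫ t, -2 * t * ee k u t ∂μ

theorem ex_le {k u t a : ℝ} (hk : 0 ≤ k) (ht : t ∈ Icc (0 : ℝ) 1) (ha : 0 ≤ a) (hu : -a ≤ u) :
    -2 * t * u - 2 * t ^ 2 * k ≤ 2 * a := by
  have h1 := mul_nonneg ht.1 (by linarith : 0 ≤ u + a)
  have h2 := mul_le_of_le_one_left ha ht.2
  have h3 := mul_nonneg (sq_nonneg t) hk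
  nlinarith

theorem ee_le {k u t a : ℝ} (hk : 0 ≤ k) (ht : t ∈ Icc (0 : ℝ) 1) (ha : 0 ≤ a) (hu : -a ≤ u) :
    ee k u t ≤ exp (2 * a) := exp_le_exp.2 (ex_le hk ht ha hu)

theorem e1_le {k u t a : ℝ} (hk : 0 ≤ k) (ht : t ∈ Icc (0 : ℝ) 1) (ha : 0 ≤ a) (hu : -a ≤ u) :
    |-2 * t * ee k u t| ≤ 2 * exp (2 * a) := by
  have h1 := ee_le hk ht ha hu
  have h2 : 0 < ee k u t := exp_pos _
  have h3 := mul_le_of_le_one_left h2.le ht.2
  have h4 := mul_nonneg ht.1 h2.le
  rw [abs_le]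
  constructor <;> nlinarith

section
variable {μ : Measure ℝ} [IsProbabilityMeasure μ] {k : ℝ}

theorem int_ee (hμ : ∀ᵐ t ∂μ, t ∈ Icc (0 : ℝ) 1) (hk : 0 ≤ k) (u : ℝ) : Integrable (ee k u) μ := by
  refine Integrable.of_bound (C := exp (2 * |u|)) (Continuous.aestronglyMeasurable ?_) ?_
  · unfold ee; fun_prop
  · filter_upwards [hμ] with t ht
    rw [Real.norm_eq_abs, abs_of_pos (show 0 < ee k u t from exp_pos _)]
    exact ee_le hk ht (abs_nonneg u) (neg_abs_le u)

theorem der_gg (hμ : ∀ᵐ t ∂μ, t ∈ Icc (0 : ℝ) 1) (hk : 0 ≤ k) (u : ℝ) :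
    Integrable (fun t => -2 * t * ee k u t) μ ∧ HasDerivAt (gg μ k) (g1 μ k u) u := by
  refine hasDerivAt_integral_of_dominated_loc_of_deriv_le (s := Ioi (-(|u| + 1)))
    (F := fun u t => ee k u t) (F' := fun u t => -2 * t * ee k u t)
    (bound := fun _ => 2 * exp (2 * (|u| + 1)))
    (Ioi_mem_nhds (by linarith [neg_abs_le u])) (Eventually.of_forall fun x => (int_ee hμ hk x).1)
    (int_ee hμ hk u) (Continuous.aestronglyMeasurable ?_) ?_ (integrable_const _) ?_
  · unfold ee; fun_prop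
  · filter_upwards [hμ] with t ht x hx
    exact e1_le hk ht (by positivity) (le_of_lt hx)
  · refine Eventually.of_forall fun t x _ => ?_
    have h := ((((hasDerivAt_id x).const_mul (-2 * t)).sub_const (2 * t ^ 2 * k))).exp
    simp only [id, mul_one] at h
    rw [mul_comm (-2 * t) (ee k x t)]
    exact h

theorem gg_pos (hμ : ∀ᵐ t ∂μ, t ∈ Icc (0 : ℝ) 1) (hk : 0 ≤ k) (u : ℝ) : 0 < gg μ k u :=
  integral_exp_pos (int_ee hμ hk u)

theorem gg_le' (hμ : ∀ᵐ t ∂μ, t ∈ Icc (0 : ℝ) 1) (hk : 0 ≤ k) {u c : ℝ}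
    (h : ∀ t ∈ Icc (0 : ℝ) 1, ee k u t ≤ c) : gg μ k u ≤ c := by
  have := integral_mono_ae (int_ee hμ hk u) (integrable_const c) (hμ.mono h)
  rw [integral_const, probReal_univ, one_smul] at this
  exact this

theorem gg_le (hμ : ∀ᵐ t ∂μ, t ∈ Icc (0 : ℝ) 1) (hk : 0 ≤ k) (u : ℝ) :
    gg μ k u ≤ 1 + exp (-2 * u) := gg_le' hμ hk fun t ht => by
  have h0 := exp_pos (-2 * u)
  rcases le_total 0 u with h | h
  · have := ee_le hk ht le_rfl (by simpa using h)
    rw [mul_zero, exp_zero] at this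
    linarith
  · have := ee_le (a := -u) (u := u) hk ht (by linarith) (by linarith)
    rw [show 2 * -u = -2 * u by ring] at this
    linarith

theorem gg_anti (hμ : ∀ᵐ t ∂μ, t ∈ Icc (0 : ℝ) 1) (hk : 0 ≤ k) {u v : ℝ} (h : u ≤ v) :
    gg μ k v ≤ gg μ k u := by
  refine integral_mono_ae (int_ee hμ hk v) (int_ee hμ hk u) (hμ.mono fun t ht => exp_le_exp.2 ?_)
  have := mul_le_mul_of_nonneg_left h ht.1
  linarith

theorem g1_le (hμ : ∀ᵐ t ∂μ, t ∈ Icc (0 : ℝ) 1) (hk : 0 ≤ k) {u a : ℝ} (ha : 0 ≤ a) (hu : -a ≤ u) :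
    |g1 μ k u| ≤ 2 * exp (2 * a) := by
  have := norm_integral_le_of_norm_le_const (μ := μ) (f := fun t => -2 * t * ee k u t)
    (hμ.mono fun t ht => e1_le hk ht ha hu)
  rw [probReal_univ, mul_one] at this
  exact this

theorem g1_lip (hμ : ∀ᵐ t ∂μ, t ∈ Icc (0 : ℝ) 1) (hk : 0 ≤ k) {u v a : ℝ} (ha : 0 ≤ a) (hu : -a ≤ u)
    (hv : -a ≤ v) : |g1 μ k u - g1 μ k v| ≤ 4 * exp (2 * a) * |u - v| := by
  rw [g1, g1, ← integral_sub (der_gg hμ hk u).1 (der_gg hμ hk v).1]
  have := norm_integral_le_of_norm_le_const (μ := μ) (C := 4 * exp (2 * a) * |u - v|)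
    (f := fun t => -2 * t * ee k u t - -2 * t * ee k v t) (hμ.mono fun t ht => by
      have h1 := exp_lip (ex_le hk ht ha hu) (ex_le hk ht ha hv)
      have h2 : |-2 * t| ≤ 2 := by rw [abs_le]; constructor <;> linarith [ht.1, ht.2]
      rw [show -2 * t * u - 2 * t ^ 2 * k - (-2 * t * v - 2 * t ^ 2 * k) = -2 * t * (u - v) by ring,
        abs_mul] at h1
      rw [Real.norm_eq_abs, ← mul_sub, abs_mul]
      have h3 : |ee k u t - ee k v t| ≤ exp (2 * a) * (2 * |u - v|) :=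
        h1.trans (by gcongr)
      calc _ ≤ 2 * (exp (2 * a) * (2 * |u - v|)) := by gcongr
        _ = _ := by ring)
  simpa using this

theorem gexp (a : ℝ) : ∫ u, exp (a * u) ∂gaussianReal 0 1 = exp (a ^ 2 / 2) := by
  have := congrFun (mgf_id_gaussianReal (μ := 0) (v := 1)) a
  simpa [mgf] using this

theorem w2 (hμ : ∀ᵐ t ∂μ, t ∈ Icc (0 : ℝ) 1) (hk : 0 ≤ k) {Λ C : ℝ} (hΛ : 0 ≤ Λ) (hC : 48 ≤ C) :
    W2 (C * exp (2 * Λ)) fun u => gg μ k (cl Λ u) := by
  have hd : ∀ u, HasDerivAt (fun u => gg μ k (cl Λ u)) (g1 μ k (cl Λ u) * c1 Λ u) u := fun u =>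
    (der_gg hμ hk _).2.comp u (der_cl Λ u)
  have ha : 0 ≤ Λ + 1 := by linarith
  have hc : ∀ u, -(Λ + 1) ≤ cl Λ u := fun u => by linarith [cl_ge Λ u]
  have hE : 6 * exp (2 * (Λ + 1)) ≤ C * exp (2 * Λ) := by
    have h1 : exp (2 * (Λ + 1)) = exp 1 * exp 1 * exp (2 * Λ) := by
      rw [← exp_add, ← exp_add]; congr 1; ring
    have h2 := exp_one_lt_d9
    have h3 := exp_pos 1
    have h4 : 6 * (exp 1 * exp 1) ≤ C := by nlinarith
    have h5 := mul_le_mul_of_nonneg_right h4 (exp_pos (2 * Λ)).le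
    rw [h1]; linarith
  have E0 := exp_pos (2 * (Λ + 1))
  refine ⟨fun u => (hd u).differentiableAt, fun u v => ⟨?_, ?_, ?_⟩⟩
  · rw [abs_of_pos (gg_pos hμ hk _)]
    have := gg_le' hμ hk fun t ht => ee_le hk ht ha (hc u)
    linarith
  · rw [(hd u).deriv, abs_mul, abs_of_pos (c1_pos Λ u)]
    have := mul_le_of_le_one_right (abs_nonneg (g1 μ k (cl Λ u))) (c1_le Λ u)
    linarith [g1_le hμ hk ha (hc u)]
  · rw [(hd u).deriv, (hd v).deriv, show g1 μ k (cl Λ u) * c1 Λ u - g1 μ k (cl Λ v) * c1 Λ v =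
      (g1 μ k (cl Λ u) - g1 μ k (cl Λ v)) * c1 Λ u + g1 μ k (cl Λ v) * (c1 Λ u - c1 Λ v) by ring]
    have h1 : |g1 μ k (cl Λ u) - g1 μ k (cl Λ v)| ≤ 4 * exp (2 * (Λ + 1)) * |u - v| :=
      (g1_lip hμ hk ha (hc u) (hc v)).trans (mul_le_mul_of_nonneg_left (cl_lip Λ u v) (by positivity))
    have h2 := mul_le_of_le_one_right (abs_nonneg (g1 μ k (cl Λ u) - g1 μ k (cl Λ v))) (c1_le Λ u)
    have h3 := mul_le_mul (g1_le hμ hk ha (hc v)) (c1_lip Λ u v) (abs_nonneg _) (by positivity)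
    have h4 := mul_le_mul_of_nonneg_right hE (abs_nonneg (u - v))
    refine (abs_add_le _ _).trans ?_
    rw [abs_mul, abs_mul, abs_of_pos (c1_pos Λ u)]
    linarith

theorem sq_int (hμ : ∀ᵐ t ∂μ, t ∈ Icc (0 : ℝ) 1) (hk : 0 ≤ k) :
    ∫ u, gg μ k (√k * u) ^ 2 ∂gaussianReal 0 1 ≤ 2 + 2 * exp (8 * k) := by
  have hi := integrable_exp_mul_gaussianReal (μ := 0) (v := 1) (-4 * √k)
  refine (integral_mono_of_nonneg (g := fun u => 2 + 2 * exp (-4 * √k * u))
    (Eventually.of_forall fun u => sq_nonneg _) ((integrable_const _).add (hi.const_mul 2))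
    (Eventually.of_forall fun u => ?_)).trans_eq ?_
  · have h1 := gg_le hμ hk (√k * u)
    have h2 := gg_pos hμ hk (√k * u)
    have h3 : exp (-4 * √k * u) = exp (-2 * (√k * u)) ^ 2 := by
      rw [← exp_nat_mul]; congr 1; push_cast; ring
    have h4 := pow_le_pow_left₀ h2.le h1 2
    simp only [h3]
    nlinarith [sq_nonneg (1 - exp (-2 * (√k * u)))]
  · rw [integral_add (integrable_const _) (hi.const_mul 2), integral_const_mul, gexp, mul_pow,
      Real.sq_sqrt hk]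
    simp only [integral_const, probReal_univ, smul_eq_mul, one_mul]
    congr 3; ring

theorem tail_int (hμ : ∀ᵐ t ∂μ, t ∈ Icc (0 : ℝ) 1) (hk : 0 ≤ k) {Λ θ : ℝ} (hΛ : 0 ≤ Λ) (hθ : 0 ≤ θ) :
    ∫ u, (gg μ k (√k * u) - gg μ k (cl Λ (√k * u))) ^ 2 ∂gaussianReal 0 1 ≤
      4 * exp (-(θ * Λ) + (4 + θ) ^ 2 * k / 2) := by
  have hi := integrable_exp_mul_gaussianReal (μ := 0) (v := 1) (-(4 + θ) * √k)
  refine (integral_mono_of_nonneg (g := fun u => 4 * exp (-(θ * Λ)) * exp (-(4 + θ) * √k * u))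
    (Eventually.of_forall fun u => sq_nonneg _) (hi.const_mul _)
    (Eventually.of_forall fun u => ?_)).trans_eq ?_
  · rcases le_total (-Λ) (√k * u) with h | h
    · simp only [cl_of_le h, sub_self]
      have : (0 : ℝ) ^ 2 = 0 := by norm_num
      rw [this]; positivity
    · have h1 := gg_le hμ hk (√k * u)
      have h2 := gg_pos hμ hk (cl Λ (√k * u))
      have h3 := gg_anti hμ hk (le_cl Λ (√k * u))
      have h4 : 1 ≤ exp (-2 * (√k * u)) := one_le_exp (by linarith)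
      have h5 : (gg μ k (√k * u) - gg μ k (cl Λ (√k * u))) ^ 2 ≤ (2 * exp (-2 * (√k * u))) ^ 2 :=
        pow_le_pow_left₀ (by linarith) (by linarith) 2
      have h6 : exp (-2 * (√k * u)) ^ 2 ≤ exp (-(θ * Λ)) * exp (-(4 + θ) * √k * u) := by
        rw [← exp_nat_mul, ← exp_add]
        refine exp_le_exp.2 ?_
        have := mul_nonneg hθ (by linarith : 0 ≤ -Λ - √k * u)
        push_cast
        nlinarith
      simp only
      nlinarith
  · rw [integral_const_mul, gexp, mul_pow, Real.sq_sqrt hk, mul_assoc, ← exp_add]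
    congr 3; ring

theorem all (hμ : ∀ᵐ t ∂μ, t ∈ Icc (0 : ℝ) 1) (hk : 0 ≤ k) {B Λ C : ℝ} (hB : k ≤ B) (hB1 : 1 ≤ B)
    (hΛ : 0 ≤ Λ) (hC : C = 48 + 4 * B + 4 * exp (16 * B)) :
    W2 (C * exp (2 * Λ)) (fun u => gg μ k (cl Λ u)) ∧ Continuous (gg μ k) ∧
    (∀ u, 0 < gg μ k (cl Λ u) ∧ gg μ k (cl Λ u) ≤ gg μ k u ∧ gg μ k u ≤ 1 + exp (-2 * u)) ∧
    ∫ u, gg μ k (√k * u) ^ 2 ∂gaussianReal 0 1 ≤ C ∧
    ∫ u, (gg μ k (√k * u) - gg μ k (cl Λ (√k * u))) ^ 2 ∂gaussianReal 0 1 ≤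
      C * exp (-(Λ ^ 2 / C)) := by
  have E0 := exp_pos (16 * B)
  have B0 : 0 < B := by linarith
  refine ⟨w2 hμ hk hΛ (by linarith), continuous_iff_continuousAt.2 fun u =>
    (der_gg hμ hk u).2.continuousAt, fun u => ⟨gg_pos hμ hk _, gg_anti hμ hk (le_cl Λ u),
    gg_le hμ hk u⟩, (sq_int hμ hk).trans ?_,
    (tail_int (θ := Λ / (2 * B)) hμ hk hΛ (by positivity)).trans ?_⟩
  · have : exp (8 * k) ≤ exp (16 * B) := exp_le_exp.2 (by linarith)
    linarith
  · have h1 : Λ ^ 2 / C ≤ Λ ^ 2 / (4 * B) :=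
      div_le_div_of_nonneg_left (sq_nonneg _) (by positivity) (by linarith)
    have h2 : (4 + Λ / (2 * B)) ^ 2 * k / 2 ≤ (16 + (Λ / (2 * B)) ^ 2) * B := by
      have h3 : (4 + Λ / (2 * B)) ^ 2 / 2 ≤ 16 + (Λ / (2 * B)) ^ 2 := by
        nlinarith [sq_nonneg (4 - Λ / (2 * B))]
      have h4 := mul_le_mul h3 hB hk (by positivity)
      linarith
    have h3 : -(Λ / (2 * B) * Λ) + (16 + (Λ / (2 * B)) ^ 2) * B = 16 * B + -(Λ ^ 2 / (4 * B)) := by
      field_simp; ring
    have h4 : exp (-(Λ / (2 * B) * Λ) + (4 + Λ / (2 * B)) ^ 2 * k / 2) ≤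
        exp (16 * B) * exp (-(Λ ^ 2 / C)) := by
      rw [← exp_add]
      exact exp_le_exp.2 (by linarith)
    have h5 := mul_le_mul_of_nonneg_right (show 4 * exp (16 * B) ≤ C by linarith)
      (exp_pos (-(Λ ^ 2 / C))).le
    linarith

end

theorem Lw_eq (k : ℝ) : Lw k = gg (Measure.dirac 1) k := by
  funext u
  simp [gg, ee, Lw]

theorem rho_eq (k : ℝ) : rho k = gg (volume.restrict (Ioc 0 1)) k := by
  funext u
  rw [rho, intervalIntegral.integral_of_le zero_le_one]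
  rfl

end W15

open W15 in
theorem wStmt : WStmt := by
  intro B
  have hB : (1 : ℝ) ≤ |B| + 1 := by linarith [abs_nonneg B]
  refine ⟨48 + 4 * (|B| + 1) + 4 * exp (16 * (|B| + 1)), by linarith [exp_pos (16 * (|B| + 1))],
    fun k Λ hk hkB hΛ f hf => ?_⟩
  have hk' : k ≤ |B| + 1 := by linarith [le_abs_self B]
  simp only [List.mem_cons, List.not_mem_nil, or_false] at hf
  rcases hf with rfl | rfl
  · rw [Lw_eq]
    exact all (by simp) hk hk' hB hΛ rfl
  · rw [rho_eq]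
    have : IsProbabilityMeasure (volume.restrict (Ioc (0 : ℝ) 1)) := ⟨by simp⟩
    exact all ((ae_restrict_mem measurableSet_Ioc).mono fun t ht => Ioc_subset_Icc_self ht)
      hk hk' hB hΛ rfl

end Crest.Agent.T157.K

end
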