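import Crest.Agent.T157.KDef_36
import Crest.Agent.T157.ZLip_85
import Crest.Agent.T157.KTl_48
import Crest.Agent.T157.KFo_54
import Crest.Agent.T157.KStA_47
import Crest.Agent.T157.KBp_91
import Crest.Agent.T157.KDi_8
import Crest.Agent.T157.KGc_85
import Crest.Agent.T157.KGt_48
import Crest.Agent.T157.KPg_11
import Crest.Agent.T157.KPh_58
import Crest.Agent.T157.KW_15_Mg
import Crest.Agent.T157.KZ0_74

-- ▼ part T157/KBaA_66
section

/-!
# Row 157, block S5 (helper66): channel averages of spin-free integrands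
-/

set_option autoImplicit false
set_option linter.unusedSectionVars false

noncomputable section

namespace Crest.Agent.T157.K.Ba66

open MeasureTheory ProbabilityTheory Real Matrix Finset Filter
open Crest.Agent.T157.E Crest.Agent.T157.Eig
open Crest.Agent.T157.Tap (V Mx th DD)
open Crest.Agent.T157.Rec (grad)
open Crest.Agent.T157.Conc (ELip en)
open Crest.Agent.T157.Reg (jac neg)
open Crest.Agent.T157.S3.Hb (Vp)
open Crest.Agent.T157.Z (cp)
open Crest.Agent.T157.Z.L85 (nrm_mono nrm_le_of_bd abs_cp_le)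

variable {n : ℕ} {κ ι : Type} [Fintype κ] [DecidableEq κ] [Fintype ι] [DecidableEq ι]

/-! ### norms, clips -/

lemma en_eq (u : κ → ℝ) : en u = nrm u := by simp [en, nrm, dotProduct, sq]
lemma nrm_zero : nrm (0 : κ → ℝ) = 0 := nrm_eq_zero.2 rfl
lemma abs_nrm_sub (u v : κ → ℝ) : |nrm u - nrm v| ≤ nrm (u - v) := by
  simpa only [en_eq] using Conc.abs_en_sub_le u v
lemma sq_add_le (u v : κ → ℝ) : nrm (u + v) ^ 2 ≤ 2 * nrm u ^ 2 + 2 * nrm v ^ 2 := by
  have := pow_le_pow_left₀ (nrm_nonneg _) (nrm_add_le u v) 2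
  nlinarith [sq_nonneg (nrm u - nrm v)]

lemma cp_lip (η : ℝ) (u v : V n) : nrm (cp η u - cp η v) ≤ nrm (u - v) := nrm_mono fun i =>
  (abs_max_sub_max_le_max _ _ _ _).trans (max_le (by simp)
    ((abs_min_sub_min_le_max _ _ _ _).trans (max_le (by simp) le_rfl)))
lemma cp_neg {η : ℝ} (h : 0 ≤ η) (u : V n) : cp η (-u) = -cp η u := funext fun i => by
  simp only [cp, Pi.neg_apply, max_def, min_def]; split_ifs <;> linarith
lemma exc_eq {η : ℝ} (h : 0 ≤ η) (u : V n) : exc η u = nrm (u - cp η u) ^ 2 := by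
  rw [nrm_sq, exc, dotProduct]
  refine sum_congr rfl fun i _ => ?_
  simp only [cp, Pi.sub_apply, max_def, min_def]
  rcases abs_cases (u i) with e | e <;> rw [e.1] <;> split_ifs <;> nlinarith
lemma exc_lip {η : ℝ} (h : 0 ≤ η) (u v : V n) : |√(exc η u) - √(exc η v)| ≤ 2 * nrm (u - v) := by
  rw [exc_eq h, exc_eq h, sqrt_sq (nrm_nonneg _), sqrt_sq (nrm_nonneg _)]
  refine (abs_nrm_sub _ _).trans ?_
  rw [sub_sub_sub_comm]
  linarith [nrm_sub_le (u - v) (cp η u - cp η v), cp_lip η u v]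
lemma exc_nn (η : ℝ) (u : V n) : 0 ≤ exc η u := sum_nonneg fun _ _ => sq_nonneg _
lemma exc_le {η : ℝ} (h : 0 ≤ η) (u : V n) : exc η u ≤ nrm u ^ 2 := by
  rw [nrm_sq, exc, dotProduct]
  refine sum_le_sum fun i _ => ?_
  rw [← sq, ← sq_abs (u i)]
  exact pow_le_pow_left₀ (le_max_right _ _) (max_le (by linarith) (abs_nonneg _)) 2

lemma sqrt_add_lip {a b a' b' : ℝ} (ha : 0 ≤ a) (hb : 0 ≤ b) (ha' : 0 ≤ a') (hb' : 0 ≤ b') :
    |√(a + b) - √(a' + b')| ≤ |√a - √a'| + |√b - √b'| := by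
  have e : ∀ {a b : ℝ}, 0 ≤ a → 0 ≤ b → √(a + b) = nrm ![√a, √b] := fun ha hb => by
    simp [nrm, mul_self_sqrt ha, mul_self_sqrt hb]
  rw [e ha hb, e ha' hb']
  refine (abs_nrm_sub _ _).trans ?_
  simpa [en_eq] using Conc.en_le_sum (![√a, √b] - ![√a', √b'])

lemma cont_of_lip {u : (κ → ℝ) → ι → ℝ} {M : ℝ} (h : ∀ ζ ζ', nrm (u ζ - u ζ') ≤ M * nrm (ζ - ζ')) :
    Continuous u := continuous_pi fun i => ELip.continuous (L := M) fun ζ ζ' => by
  rw [en_eq]; exact (abs_apply_le_nrm (u ζ - u ζ') i).trans (h ζ ζ')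

lemma nrm_grad {F : (κ → ℝ) → ℝ} {L : ℝ} (hL : 0 ≤ L) (h : ELip L F) (x : κ → ℝ) :
    nrm (Conc.grad F x) ≤ L := by
  have := h.gr2_le x
  rw [Conc.gr2_eq, en_eq] at this
  exact (abs_le_of_sq_le_sq' this hL).2

/-! ### monotonicity -/

lemma R0.mono {e e' : ℝ} {u : Cube n → V n} (h : R0 e u) (k : e ≤ e') : R0 e' u :=
  ⟨fun s i => (h.sup s i).trans k, fun s => (h.op s).trans k⟩
lemma RF.mono {e e' : ℝ} {u : Cube n → (κ → ℝ) → V n} (h : RF e u) (k : e ≤ e') : RF e' u :=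
  ⟨fun ζ => R0.mono (h.r0 ζ) k, fun s ζ ζ' =>
    (h.lip s ζ ζ').trans (mul_le_mul_of_nonneg_right k (nrm_nonneg _))⟩
lemma SB.mono {c c' : ℝ} {X : Cube n → ℝ} (h : SB c X) (k : c ≤ c') : SB c' X :=
  fun s => ⟨(h s).1, (h s).2.trans (mul_le_mul_of_nonneg_right k (h s).1)⟩
lemma RE.mono {e e' : ℝ} {X : Cube n → (κ → ℝ) → ℝ} (h : RE e X) (h0 : 0 ≤ e) (k : e ≤ e') :
    RE e' X :=
  ⟨fun ζ => SB.mono (h.sb ζ) (pow_le_pow_left₀ h0 k 2), fun s => (h.lip s).mono k, h.bd⟩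
lemma BS.mono {F X : F2 n} {g ω β : U2 n} {e e' L L' : ℝ} (h : BS F g ω β X e L) (h0 : 0 ≤ e)
    (k : e ≤ e') (l : L ≤ L') : BS F g ω β X e' L' :=
  ⟨h.der, fun s y => ⟨(h.gr s y).1.trans l, (h.gr s y).2.trans l⟩, h.app, RF.mono h.rω k,
    RF.mono h.rβ k, RE.mono h.rX h0 k, h.oω, h.oβ⟩

lemma rf_free {u : (κ → ℝ) → V n} {e : ℝ} (h0 : 0 ≤ e) (h1 : ∀ ζ i, |u ζ i| ≤ e)
    (h2 : ∀ ζ ζ', nrm (u ζ - u ζ') ≤ e * nrm (ζ - ζ')) : RF e fun _ : Cube n => u :=
  ⟨fun ζ => ⟨fun _ => h1 ζ, fun s => by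
    rw [show jac (fun _ => u ζ) s = 0 from by ext i j; simp [jac]]
    exact opn_le_of_nrm h0 fun v => by
      rw [zero_mulVec, nrm_zero]; exact mul_nonneg h0 (nrm_nonneg _)⟩,
    fun _ => h2⟩

/-! ### channel averages -/

variable {P : Matrix κ (Fin n) ℝ} {s : Cube n}

/-- bounded and continuous -/
def BC (f : (κ → ℝ) → ℝ) : Prop := Continuous f ∧ ∃ B, ∀ ζ, |f ζ| ≤ B
/-- bounded and continuous field -/
def BV (u : (κ → ℝ) → V n) : Prop := Continuous u ∧ ∃ B, ∀ ζ, nrm (u ζ) ≤ B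
/-- admissible weight -/
def Wg (w : ℝ → ℝ) : Prop := Continuous w ∧ ∀ t, |w t| ≤ 2 * exp (2 * |t|)

lemma BC.int {f : (κ → ℝ) → ℝ} (h : BC f) (a : κ → ℝ) : Integrable (fun z => f (a + z)) (gv κ) := by
  obtain ⟨c, B, h⟩ := h
  exact (integrable_const B).mono' (by fun_prop) (.of_forall fun _ => h _)
lemma BV.sq {u : (κ → ℝ) → V n} (h : BV u) : BC fun ζ => nrm (u ζ) ^ 2 := by
  obtain ⟨c, B, h⟩ := h
  exact ⟨(continuous_nrm.comp c).pow 2, B ^ 2, fun ζ => by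
    rw [abs_sq]; exact pow_le_pow_left₀ (nrm_nonneg _) (h ζ) 2⟩
lemma BV.sub {u v : (κ → ℝ) → V n} (h : BV u) (k : BV v) : BV (u - v) := by
  obtain ⟨c, B, h⟩ := h
  obtain ⟨c', B', k⟩ := k
  exact ⟨c.sub c', B + B', fun ζ => (nrm_sub_le _ _).trans (add_le_add (h ζ) (k ζ))⟩

lemma cav_mono {f g : (κ → ℝ) → ℝ} (hf : BC f) (hg : BC g) (h : ∀ ζ, f ζ ≤ g ζ) :
    cav P (fun _ => f) s ≤ cav P (fun _ => g) s := integral_mono (hf.int _) (hg.int _) fun _ => h _
lemma cav_le {f : (κ → ℝ) → ℝ} (hf : BC f) {c : ℝ} (h : ∀ ζ, f ζ ≤ c) : cav P (fun _ => f) s ≤ c :=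
  (integral_mono (hf.int _) (integrable_const c) fun _ => h _).trans_eq (by simp)

lemma abs_one_of {a : ℝ} (h : a * a = 1) : |a| = 1 := by
  rcases mul_self_eq_one_iff.1 h with e | e <;> simp [e]

lemma int_w {w : ℝ → ℝ} (hw : Wg w) {u : (κ → ℝ) → V n} (hu : BV u) (j : Fin n) :
    Integrable (fun z => w (sv s j * (Pᵀ *ᵥ z) j) * u (P *ᵥ sv s + z) j) (gv κ) := by
  obtain ⟨c, B, h⟩ := hu
  have := hw.1
  have l : ELip (en (Pᵀ j)) fun z => |(Pᵀ *ᵥ z) j| := fun x y =>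
    (abs_abs_sub_abs_le_abs_sub _ _).trans (Conc.elip_dot (Pᵀ j) x y)
  refine (((l.integrable_exp 2).const_mul 2).mul_const B).mono' (by fun_prop) (.of_forall fun z => ?_)
  have e : |sv s j * (Pᵀ *ᵥ z) j| = |(Pᵀ *ᵥ z) j| := by
    rw [abs_mul, abs_one_of (Rec.sv_mul_self s j), one_mul]
  rw [norm_mul, ← e]
  exact mul_le_mul (hw.2 _) ((abs_apply_le_nrm _ j).trans (h _)) (norm_nonneg _) (by positivity)

lemma cw_sub_u {w : ℝ → ℝ} (hw : Wg w) {u v : (κ → ℝ) → V n} (hu : BV u) (hv : BV v) :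
    cwv P P w (fun _ => u) s - cwv P P w (fun _ => v) s = cwv P P w (fun _ => u - v) s :=
  funext fun j => ((integral_sub (int_w hw hu j) (int_w hw hv j)).symm.trans
    (by simp only [cwv, Pi.sub_apply, mul_sub]))
lemma cw_sub_w {w w' : ℝ → ℝ} (hw : Wg w) (hw' : Wg w') {u : (κ → ℝ) → V n} (hu : BV u) :
    cwv P P w (fun _ => u) s - cwv P P w' (fun _ => u) s =
      cwv P P (fun t => w t - w' t) (fun _ => u) s :=
  funext fun j => ((integral_sub (int_w hw hu j) (int_w hw' hu j)).symm.trans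
    (by simp only [cwv, sub_mul]))

lemma sv_neg (x : Cube n) : sv (neg x) = -sv x := by
  ext i
  simp only [sv, Reg.neg, Pi.neg_apply]
  cases x i <;> simp [Crest.ProbabilityR.SpinGlassDynamics.spin]

instance gvNeg : (gv κ).IsNegInvariant := by
  have : (gaussianReal 0 1).IsNegInvariant :=
    ⟨by simpa [Measure.neg] using gaussianReal_map_neg (μ := 0) (v := 1)⟩
  infer_instance

lemma cw_odd (w : ℝ → ℝ) {u v : (κ → ℝ) → V n} (h : ∀ ζ, u (-ζ) = -v ζ) :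
    cwv P P w (fun _ => u) (neg s) = -cwv P P w (fun _ => v) s := funext fun j => by
  rw [Pi.neg_apply, cwv, cwv, ← integral_neg, ← integral_neg_eq_self]
  simp only [sv_neg, mulVec_neg, Pi.neg_apply, neg_mul, ← neg_add, h, mul_neg, neg_neg]

lemma cs (Cs : CsStmt) {k A : ℝ} (hk : ∀ j, (Pᵀ * P) j j = k) {w : ℝ → ℝ} (hw : Wg w)
    (hA : ∫ t, w (√k * t) ^ 2 ∂gaussianReal 0 1 ≤ A) {u : (κ → ℝ) → V n} (hu : BV u) :
    nrm (cwv P P w (fun _ => u) s) ^ 2 ≤ A * cav P (fun _ ζ => nrm (u ζ) ^ 2) s := by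
  obtain ⟨c, B, h⟩ := hu
  exact Cs n κ P P w _ k 2 2 A B hw.1 hw.2 hk hA (fun _ => c) (fun _ ζ => (h ζ).trans
    (le_mul_of_one_le_right ((nrm_nonneg _).trans (h ζ)) (by linarith [nrm_nonneg ζ]))) s

lemma wg_one : Wg fun _ => 1 :=
  ⟨continuous_const, fun t => by
    rw [abs_one]; linarith [one_le_exp (show 0 ≤ 2 * |t| by positivity)]⟩
lemma cs_one (Cs : CsStmt) {k : ℝ} (hk : ∀ j, (Pᵀ * P) j j = k) {u : (κ → ℝ) → V n} (hu : BV u) :
    nrm (cwv P P (fun _ => 1) (fun _ => u) s) ^ 2 ≤ cav P (fun _ ζ => nrm (u ζ) ^ 2) s := by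
  simpa using cs (s := s) Cs hk wg_one (A := 1) (by simp) hu

/-- Minkowski -/
lemma mink {f g : (κ → ℝ) → ℝ} (hf : BC f) (hg : BC g) (g0 : ∀ ζ, 0 ≤ g ζ) {d : ℝ} (hd : 0 ≤ d)
    (h : ∀ ζ, √(f ζ) ≤ √(g ζ) + d) : √(cav P (fun _ => f) s) ≤ √(cav P (fun _ => g) s) + d := by
  have hs : BC fun ζ => √(g ζ) := by
    obtain ⟨c, B, b⟩ := hg
    exact ⟨c.sqrt, √B, fun ζ => by
      rw [abs_of_nonneg (sqrt_nonneg _)]; exact sqrt_le_sqrt ((le_abs_self _).trans (b ζ))⟩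
  have i1 := hg.int (P *ᵥ sv s)
  have i2 := hs.int (P *ᵥ sv s)
  have lin : ∀ a b : ℝ, ∫ z, (g (P *ᵥ sv s + z) + a * √(g (P *ᵥ sv s + z)) + b) ∂gv κ =
      cav P (fun _ => g) s + a * cav P (fun _ ζ => √(g ζ)) s + b := fun a b => by
    have i3 : Integrable (fun z => g (P *ᵥ sv s + z) + a * √(g (P *ᵥ sv s + z))) (gv κ) :=
      i1.add (i2.const_mul a)
    rw [integral_add i3 (integrable_const b), integral_add i1 (i2.const_mul a), integral_const_mul]
    simp [cav]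
  set m := cav P (fun _ ζ => √(g ζ)) s
  have h1 : m ≤ √(cav P (fun _ => g) s) := le_sqrt_of_sq_le <| by
    have := integral_nonneg (μ := gv κ) (f := fun z => g (P *ᵥ sv s + z) +
      (-2 * m) * √(g (P *ᵥ sv s + z)) + m ^ 2) fun z => by
      have := sq_sqrt (g0 (P *ᵥ sv s + z))
      simp only [Pi.zero_apply]; nlinarith [sq_nonneg (√(g (P *ᵥ sv s + z)) - m)]
    rw [lin] at this; nlinarith
  have h2 : cav P (fun _ => f) s ≤ cav P (fun _ => g) s + 2 * d * m + d ^ 2 := by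
    rw [← lin]
    refine integral_mono (hf.int _) ((i1.add (i2.const_mul _)).add (integrable_const _)) fun z => ?_
    have := (sqrt_le_left (by positivity)).1 (h (P *ᵥ sv s + z))
    have := sq_sqrt (g0 (P *ᵥ sv s + z))
    simp only; nlinarith
  have h3 := sq_sqrt (show 0 ≤ cav P (fun _ => g) s from integral_nonneg fun _ => g0 _)
  refine (sqrt_le_left (by positivity)).2 ?_
  nlinarith [mul_le_mul_of_nonneg_left h1 hd]

/-- jointly Lipschitz field -/
def JL (M : ℝ) (U : (κ → ℝ) → V n → V n) : Prop :=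
  ∀ ζ y ζ' y', nrm (U ζ y - U ζ' y') ≤ M * (nrm (ζ - ζ') + nrm (y - y'))
/-- jointly Lipschitz function -/
def JS (M : ℝ) (f : (κ → ℝ) → V n → ℝ) : Prop :=
  ∀ ζ y ζ' y', |f ζ y - f ζ' y'| ≤ M * (nrm (ζ - ζ') + nrm (y - y'))

lemma JL.fst {M : ℝ} {U : (κ → ℝ) → V n → V n} (h : JL M U) (y : V n) (ζ ζ' : κ → ℝ) :
    nrm (U ζ y - U ζ' y) ≤ M * nrm (ζ - ζ') := by simpa [nrm_zero] using h ζ y ζ' y
lemma JL.snd {M : ℝ} {U : (κ → ℝ) → V n → V n} (h : JL M U) (ζ : κ → ℝ) (y y' : V n) :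
    nrm (U ζ y - U ζ y') ≤ M * nrm (y - y') := by simpa [nrm_zero] using h ζ y ζ y'
lemma JS.fst {M : ℝ} {f : (κ → ℝ) → V n → ℝ} (h : JS M f) (y : V n) : ELip M fun ζ => f ζ y :=
  fun ζ ζ' => by simpa [nrm_zero, en_eq] using h ζ y ζ' y
lemma JS.snd {M : ℝ} {f : (κ → ℝ) → V n → ℝ} (h : JS M f) (ζ : κ → ℝ) : ELip M (f ζ) :=
  fun y y' => by simpa [nrm_zero, en_eq] using h ζ y ζ y'

section der
variable {G : (κ → ℝ) → V n → ℝ} {L : ℝ}

lemma cont_fd2 (h : ContDiff ℝ 1 fun p : (κ → ℝ) × V n => G p.1 p.2) :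
    Continuous fun p : (κ → ℝ) × V n => fderiv ℝ (G p.1) p.2 :=
  Continuous.fderiv_one (f := fun (p : (κ → ℝ) × V n) y => G p.1 y)
    (h.comp ((contDiff_fst.comp contDiff_fst).prodMk contDiff_snd)) continuous_snd

lemma cont_g2 (h : ContDiff ℝ 1 fun p : (κ → ℝ) × V n => G p.1 p.2) :
    Continuous fun p : (κ → ℝ) × V n => Conc.grad (G p.1) p.2 :=
  continuous_pi fun _ => (cont_fd2 h).clm_apply continuous_const

lemma der_fst (h : ContDiff ℝ 1 fun p : (κ → ℝ) × V n => G p.1 p.2) (y : V n) :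
    Der (fun (_ : Cube n) ζ => G ζ y) fun _ ζ => Conc.grad (fun ζ => G ζ y) ζ := fun _ => by
  have h1 : ContDiff ℝ 1 fun ζ => G ζ y := h.comp (contDiff_id.prodMk contDiff_const)
  exact ⟨h1.differentiable one_ne_zero, continuous_pi fun _ =>
    (h1.continuous_fderiv one_ne_zero).clm_apply continuous_const, Conc.fderiv_eq_dot _⟩

lemma der_snd (h : ContDiff ℝ 1 fun p : (κ → ℝ) × V n => G p.1 p.2) (hL : 0 ≤ L) (hG : JS L G) :
    Der (fun s y => cav P (fun _ ζ => G ζ y) s) fun s y =>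
      cwv P P (fun _ => 1) (fun _ ζ => Conc.grad (G ζ) y) s := fun s => by
  have c := cont_fd2 h
  have bd : ∀ ζ y, ‖fderiv ℝ (G ζ) y‖ ≤ L * Fintype.card (Fin n) := fun ζ y =>
    ContinuousLinearMap.opNorm_le_bound _ (by positivity) fun v => by
      rw [Conc.fderiv_eq_dot, mul_assoc]
      exact (Conc.abs_dot_le _ _).trans (mul_le_mul ((en_eq _).trans_le (nrm_grad hL (hG.snd ζ) y))
        (Conc.en_le_card_norm v) (Conc.en_nonneg _) hL)
  have cz : ∀ y, Continuous fun z => fderiv ℝ (G (P *ᵥ sv s + z)) y := fun y =>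
    c.comp (f := fun z => (P *ᵥ sv s + z, y)) (by fun_prop)
  have key : ∀ y, HasFDerivAt (fun y => cav P (fun _ ζ => G ζ y) s)
      (∫ z, fderiv ℝ (G (P *ᵥ sv s + z)) y ∂gv κ) y := fun y =>
    hasFDerivAt_integral_of_dominated_of_fderiv_le (F := fun y z => G (P *ᵥ sv s + z) y)
      (F' := fun y z => fderiv ℝ (G (P *ᵥ sv s + z)) y) univ_mem
      (.of_forall fun y => ((hG.fst y).continuous.comp (by fun_prop)).aestronglyMeasurable)
      (ELip.integrable (L := L) fun z z' => by simpa using hG.fst y (P *ᵥ sv s + z) (P *ᵥ sv s + z'))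
      (cz y).aestronglyMeasurable (.of_forall fun z y _ => bd _ y) (integrable_const _)
      (.of_forall fun z y _ => (((h.comp (contDiff_const.prodMk contDiff_id)).differentiable
        one_ne_zero) y).hasFDerivAt)
  refine ⟨fun y => (key y).differentiableAt, continuous_pi fun j => continuous_of_dominated
    (bound := fun _ => L) (fun y => (continuous_const.mul ((cz y).clm_apply
      continuous_const)).aestronglyMeasurable) (fun y => .of_forall fun z => ?_) (integrable_const _)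
    (.of_forall fun z => continuous_const.mul ((c.comp (f := fun y => (P *ᵥ sv s + z, y))
      (by fun_prop)).clm_apply continuous_const)), fun y v => ?_⟩
  · rw [one_mul]; exact (abs_apply_le_nrm _ j).trans (nrm_grad hL (hG.snd _) y)
  · refine (Conc.fderiv_eq_dot _ y v).trans (sum_congr rfl fun j _ => ?_)
    rw [Conc.grad, (key y).fderiv, ContinuousLinearMap.integral_apply
      ((integrable_const _).mono' (cz y).aestronglyMeasurable (.of_forall fun z => bd _ y))]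
    simp only [cwv, one_mul, Conc.grad]

end der

/-- splitting of a channel -/
lemma cav_rows {P' : Matrix ι (Fin n) ℝ} (F : (κ → ℝ) → (ι → ℝ) → ℝ)
    (h : Integrable (fun p : (κ → ℝ) × (ι → ℝ) => F (P *ᵥ sv s + p.1) (P' *ᵥ sv s + p.2))
      ((gv κ).prod (gv ι))) :
    cav (fromRows P P') (fun _ ζ => F (fun k => ζ (.inl k)) fun i => ζ (.inr i)) s =
      ∫ z, ∫ z', F (P *ᵥ sv s + z) (P' *ᵥ sv s + z') ∂gv ι ∂gv κ := by
  rw [← integral_prod _ h, ← (measurePreserving_sumPiEquivProdPi (X := fun _ : κ ⊕ ι => ℝ)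
    fun _ => gaussianReal 0 1).integral_comp']
  simp only [cav, fromRows_mulVec]
  rfl

/-! ### the three leaves of `BaseGlue` -/

/-- certificate for a spin-free integrand -/
structure Ct (P : Matrix κ (Fin n) ℝ) (G : (κ → ℝ) → V n → ℝ) (U Bq : (κ → ℝ) → V n → V n)
    (Er : (κ → ℝ) → V n → ℝ) (L η : ℝ) : Prop where
  c1 : ContDiff ℝ 1 fun p : (κ → ℝ) × V n => G p.1 p.2
  lip : JS L G
  app : ∀ ζ y, nrm (Pᵀ *ᵥ Conc.grad (fun ζ => G ζ y) ζ - U ζ y) ^ 2 +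
    nrm (Conc.grad (G ζ) y - Bq ζ y) ^ 2 ≤ Er ζ y
  lU : JL η U
  lB : JL η Bq
  lE : JS η fun ζ y => √(Er ζ y)
  sB : ∀ ζ y i, |Bq ζ y i| ≤ η
  oU : ∀ ζ y, U (-ζ) (-y) = -U ζ y
  oB : ∀ ζ y, Bq (-ζ) (-y) = -Bq ζ y
  bd : ∃ B, ∀ ζ y, 0 ≤ Er ζ y ∧ Er ζ y ≤ B ∧ nrm (U ζ y) ≤ B

/-- a certified spin-free integrand passes through a channel -/
def ChanStmt : Prop := ∀ B : ℝ, ∃ C ≥ (1 : ℝ), ∀ (n : ℕ) (κ : Type) [Fintype κ] [DecidableEq κ]
  (P : Matrix κ (Fin n) ℝ) (k L Λ η : ℝ) (G : (κ → ℝ) → V n → ℝ) (U Bq : (κ → ℝ) → V n → V n)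
  (Er : (κ → ℝ) → V n → ℝ), opn P ≤ B → 0 ≤ k → k ≤ B → (∀ j, (Pᵀ * P) j j = k) → 0 ≤ L → 1 ≤ Λ →
  0 ≤ η → Ct P G U Bq Er L η → ∃ g ω β, BS (fun s y => cav P (fun _ ζ => G ζ y) s) g ω β
    (fun s y => cav P (fun _ ζ => C * (exp (-(Λ ^ 2 / C)) * L ^ 2 + Er ζ y + exc η (U ζ y))) s)
    (C * exp (2 * Λ) * η) (C * L)
def ChanGlue : Prop := GradStmt → WStmt → CsStmt → RFStmt → REStmt → ChanStmt

/-- `E (aa * tanh (s + W)) = s` for `s = ±1` -/
def aa : ℝ := (∫ t, tanh (1 + t) ∂gaussianReal 0 1)⁻¹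
/-- the channel `(Q s + z, s + z')` -/
def PP (Q : Mx n) : Matrix (Fin n ⊕ Fin n) (Fin n) ℝ := fromRows Q 1
def z1 (ζ : κ ⊕ ι → ℝ) : κ → ℝ := fun i => ζ (.inl i)
def z2 (ζ : κ ⊕ ι → ℝ) : ι → ℝ := fun i => ζ (.inr i)
def vv (Q : Mx n) (ζ : Fin n ⊕ Fin n → ℝ) (y : V n) : V n := aa • th (z2 ζ) - pt Q y (z1 ζ)
def GG (Q : Mx n) (E : V n → V n → V n) (ζ : Fin n ⊕ Fin n → ℝ) (y : V n) : ℝ :=
  E (Q *ᵥ z1 ζ) y ⬝ᵥ vv Q ζ y
def UU (Q : Mx n) (E : V n → V n → V n) (Bx : V n → V n → V n → V n) (ζ : Fin n ⊕ Fin n → ℝ)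
    (y : V n) : V n :=
  (Q * Q) *ᵥ (Bx (Q *ᵥ z1 ζ) y (vv Q ζ y) - DD (pt Q y (z1 ζ)) * E (Q *ᵥ z1 ζ) y) +
    aa • (DD (th (z2 ζ)) * E (Q *ᵥ z1 ζ) y)
def BB (Q : Mx n) (E : V n → V n → V n) (By : V n → V n → V n → V n) (ζ : Fin n ⊕ Fin n → ℝ)
    (y : V n) : V n := By (Q *ᵥ z1 ζ) y (vv Q ζ y) - DD (pt Q y (z1 ζ)) * E (Q *ᵥ z1 ζ) y
def EE (Q : Mx n) (Er : V n → V n → V n → ℝ) (ζ : Fin n ⊕ Fin n → ℝ) (y : V n) : ℝ :=
  49 * Er (Q *ᵥ z1 ζ) y (vv Q ζ y)

/-- the one-step observable is a channel average of a spin-free integrand -/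
def RepStmt : Prop := ∀ (n : ℕ) (Q : Mx n) (E : V n → V n → V n) (M : ℝ), BLO M E →
  psi0 Q E = fun s y => cav (PP Q) (fun _ ζ => GG Q E ζ y) s
/-- its certificate -/
def CertStmt : Prop := ∃ c ≥ (1 : ℝ), ∀ (n : ℕ) (Q : Mx n) (E : V n → V n → V n)
  (Bx By : V n → V n → V n → V n) (Er : V n → V n → V n → ℝ) (M N : ℝ), Qᵀ = Q → opn Q ≤ 3 →
  opn (Q * Q) ≤ 7 → 1 ≤ M → 1 ≤ N → BLO M E → BP E Bx By Er (|aa| + 1) N →
  Ct (PP Q) (GG Q E) (UU Q E Bx) (BB Q E By) (EE Q Er) (c * M * √n) (c * M * N)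

end Crest.Agent.T157.K.Ba66

end
end

-- ▼ part T157/KBaT_66
section

/-!
# Row 157, block S5 (helper66): the certificate of the one-step integrand
-/

set_option autoImplicit false
set_option linter.unusedSectionVars false

noncomputable section

namespace Crest.Agent.T157.K.Ba66

open MeasureTheory ProbabilityTheory Real Matrix Finset Filter
open Crest.Agent.T157.E Crest.Agent.T157.Eig
open Crest.Agent.T157.Tap (V Mx th DD)
open Crest.Agent.T157.K.Tl48 (nrm_inl abs_DD th_lip DD_lip)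
open Crest.Agent.T157.Z.L85 (nrm_le_of_bd)

variable {n : ℕ} {κ : Type} [Fintype κ] [DecidableEq κ]

lemma cd_tanh : ContDiff ℝ 1 tanh := by
  rw [show tanh = fun x => sinh x / cosh x from funext tanh_eq_sinh_div_cosh]
  exact contDiff_sinh.div contDiff_cosh fun x => (cosh_pos x).ne'

lemma hd_tanh (x : ℝ) : HasDerivAt tanh (1 - tanh x ^ 2) x := by
  have c := (cosh_pos x).ne'
  have h := (hasDerivAt_sinh x).div (hasDerivAt_cosh x) c
  have e : tanh = sinh / cosh := funext tanh_eq_sinh_div_cosh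
  rw [← e] at h
  refine h.congr_deriv ?_
  rw [tanh_eq_sinh_div_cosh]; field_simp

lemma hd_th (a d : ℝ) : HasDerivAt (fun t : ℝ => tanh (a + t * d)) ((1 - tanh a ^ 2) * d) 0 := by
  have := (hd_tanh (a + 0 * d)).comp (0 : ℝ) (((hasDerivAt_id' (0 : ℝ)).mul_const d).const_add a)
  rw [zero_mul, add_zero, one_mul] at this
  exact this

lemma hl {W : Type} [NormedAddCommGroup W] [NormedSpace ℝ W] {F : (κ → ℝ) → W}
    (hF : Differentiable ℝ F) (x d : κ → ℝ) :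
    HasDerivAt (fun t : ℝ => F (x + t • d)) (fderiv ℝ F x d) 0 :=
  (hF x).hasFDerivAt.hasLineDerivAt d

lemma line0 {F : V n → V n} (hF : Differentiable ℝ F) (x d : V n) {v : ℝ → V n} {v' : V n}
    (hv : ∀ i, HasDerivAt (fun t => v t i) (v' i) 0) :
    HasDerivAt (fun t : ℝ => F (x + t • d) ⬝ᵥ v t) (fderiv ℝ F x d ⬝ᵥ v 0 + F x ⬝ᵥ v') 0 := by
  have := HasDerivAt.fun_sum (u := univ) fun i _ => ((hasDerivAt_pi.1 (hl hF x d)) i).fun_mul (hv i)
  simpa [dotProduct, sum_add_distrib] using this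

lemma line {F : V n → V n} (hF : Differentiable ℝ F) (x d : V n) {v : ℝ → V n} {v' : V n}
    (hv : ∀ i, HasDerivAt (fun t => v t i) (v' i) 0) :
    HasDerivAt (fun t : ℝ => F (x + t • d) ⬝ᵥ v t)
      (Conc.grad (fun x => v 0 ⬝ᵥ F x) x ⬝ᵥ d + F x ⬝ᵥ v') 0 := by
  have h1 := line0 hF x d (v := fun _ => v 0) (v' := 0) fun _ => hasDerivAt_const _ _
  have h2 := hl (F := fun x => v 0 ⬝ᵥ F x) (by unfold dotProduct; fun_prop) x d
  simp only [dotProduct_comm (v 0)] at h2 ⊢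
  have := h2.unique h1
  rw [Conc.fderiv_eq_dot, dotProduct_zero, add_zero] at this
  rw [show Conc.grad (fun x => F x ⬝ᵥ v 0) x ⬝ᵥ d = _ from this]
  exact line0 hF x d hv

lemma eq_of_dot {u v : V n} (h : ∀ w, u ⬝ᵥ w = v ⬝ᵥ w) : u = v :=
  funext fun i => by simpa using h (Pi.single i 1)

variable {Q : Mx n} {E : V n → V n → V n}

lemma gg_c1 (h : ContDiff ℝ 1 fun p : V n × V n => E p.1 p.2) :
    ContDiff ℝ 1 fun p : (Fin n ⊕ Fin n → ℝ) × V n => GG Q E p.1 p.2 := by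
  have q : ContDiff ℝ 1 fun p : (Fin n ⊕ Fin n → ℝ) × V n => Q *ᵥ z1 p.1 :=
    contDiff_pi.2 fun i => by simp only [mulVec, dotProduct, z1]; fun_prop
  have e := h.comp (q.prodMk contDiff_snd)
  refine ContDiff.sum (s := univ) (f := fun i (p : (Fin n ⊕ Fin n → ℝ) × V n) =>
    E (Q *ᵥ z1 p.1) p.2 i * vv Q p.1 p.2 i) fun i _ => (contDiff_pi.1 e i).mul ?_
  exact (contDiff_const.mul (cd_tanh.comp (f := fun p : (Fin n ⊕ Fin n → ℝ) × V n => p.1 (.inr i))
    (by fun_prop))).sub (cd_tanh.comp (contDiff_pi.1 (contDiff_snd.add q) i))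

lemma grad_z (hs : Qᵀ = Q) (h : ContDiff ℝ 1 fun p : V n × V n => E p.1 p.2)
    (ζ : Fin n ⊕ Fin n → ℝ) (y : V n) : (PP Q)ᵀ *ᵥ Conc.grad (fun ζ => GG Q E ζ y) ζ =
      (Q * Q) *ᵥ (Conc.grad (fun x => vv Q ζ y ⬝ᵥ E x y) (Q *ᵥ z1 ζ) -
        DD (pt Q y (z1 ζ)) * E (Q *ᵥ z1 ζ) y) + aa • (DD (th (z2 ζ)) * E (Q *ᵥ z1 ζ) y) := by
  refine eq_of_dot fun w => ?_
  have h1 := hl (F := fun ζ => GG Q E ζ y)
    (((gg_c1 h).comp (contDiff_id.prodMk contDiff_const)).differentiable one_ne_zero) ζ (PP Q *ᵥ w)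
  have a1 : ∀ t : ℝ, Q *ᵥ z1 (ζ + t • PP Q *ᵥ w) = Q *ᵥ z1 ζ + t • (Q * Q) *ᵥ w := fun t => by
    rw [← mulVec_mulVec, ← mulVec_smul Q, ← mulVec_add]
    exact congrArg _ (funext fun i => by simp [z1, PP])
  have h2 := line (F := fun x => E x y)
    ((h.comp (contDiff_id.prodMk contDiff_const)).differentiable one_ne_zero) (Q *ᵥ z1 ζ)
    ((Q * Q) *ᵥ w) (v := fun t => vv Q (ζ + t • PP Q *ᵥ w) y)
    (v' := aa • (DD (th (z2 ζ)) * w) - DD (pt Q y (z1 ζ)) * (Q * Q) *ᵥ w) fun i => by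
      have := ((hd_th (z2 ζ i) (w i)).const_mul aa).sub
        (hd_th ((y + Q *ᵥ z1 ζ) i) (((Q * Q) *ᵥ w) i))
      refine (this.congr_of_eventuallyEq (.of_forall fun t => ?_)).congr_deriv rfl
      simp only [vv, pt, a1]
      simp [th, z2, PP, add_assoc]
  simp only [GG, a1] at h1
  have := h1.unique h2
  rw [Conc.fderiv_eq_dot] at this
  have qq : (Q * Q)ᵀ = Q * Q := by rw [transpose_mul, hs]
  rw [mulVec_transpose, ← dotProduct_mulVec, add_dotProduct, ← qq, mulVec_transpose,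
    ← dotProduct_mulVec]
  refine Eq.trans this ?_
  simp only [zero_smul, add_zero, dotProduct, ← sum_add_distrib, Pi.sub_apply, Pi.mul_apply,
    Pi.smul_apply, smul_eq_mul]
  exact sum_congr rfl fun i _ => by ring

lemma grad_y (h : ContDiff ℝ 1 fun p : V n × V n => E p.1 p.2) (ζ : Fin n ⊕ Fin n → ℝ) (y : V n) :
    Conc.grad (GG Q E ζ) y = Conc.grad (fun y' => vv Q ζ y ⬝ᵥ E (Q *ᵥ z1 ζ) y') y -
      DD (pt Q y (z1 ζ)) * E (Q *ᵥ z1 ζ) y := by
  refine eq_of_dot fun w => ?_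
  have h1 := hl (F := GG Q E ζ)
    (((gg_c1 h).comp (contDiff_const.prodMk contDiff_id)).differentiable one_ne_zero) y w
  have h2 := line (F := E (Q *ᵥ z1 ζ))
    ((h.comp (contDiff_const.prodMk contDiff_id)).differentiable one_ne_zero) y w
    (v := fun t => vv Q ζ (y + t • w)) (v' := -(DD (pt Q y (z1 ζ)) * w)) fun i => by
      have := (hd_th ((y + Q *ᵥ z1 ζ) i) (w i)).const_sub (aa * tanh (z2 ζ i))
      refine (this.congr_of_eventuallyEq (.of_forall fun t => ?_)).congr_deriv rfl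
      simp [vv, pt, th, add_right_comm]
  have := h1.unique h2
  rw [Conc.fderiv_eq_dot] at this
  refine Eq.trans this ?_
  simp only [zero_smul, add_zero, dotProduct, ← sum_add_distrib, Pi.sub_apply, Pi.mul_apply,
    Pi.neg_apply]
  exact sum_congr rfl fun i _ => by ring

lemma nrm_th (h h' : V n) : nrm (th h - th h') ≤ nrm (h - h') :=
  Z.L85.nrm_mono fun _ => th_lip _ _

lemma nrm_mul {u v : V n} {c : ℝ} (hc : 0 ≤ c) (h : ∀ i, |u i| ≤ c) : nrm (u * v) ≤ c * nrm v :=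
  Tl48.nrm_mono hc fun i => by
    rw [Pi.mul_apply, abs_mul]; exact mul_le_mul_of_nonneg_right (h i) (abs_nonneg _)

lemma nrm_DE {M : ℝ} (hM : 0 ≤ M) (h h' : V n) {e e' : V n} (he : ∀ i, |e' i| ≤ M) :
    nrm (DD (th h) * e - DD (th h') * e') ≤ nrm (e - e') + 2 * M * nrm (h - h') := by
  rw [show DD (th h) * e - DD (th h') * e' = DD (th h) * (e - e') + e' * (DD (th h) - DD (th h'))
    by ring]
  have := nrm_mul (v := e - e') zero_le_one (abs_DD h)
  have h2 := nrm_mul (v := DD (th h) - DD (th h')) hM he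
  have h3 : nrm (DD (th h) - DD (th h')) ≤ 2 * nrm (h - h') := Tl48.nrm_mono zero_le_two (DD_lip h h')
  nlinarith [nrm_add_le (DD (th h) * (e - e')) (e' * (DD (th h) - DD (th h')))]

lemma x_lip (q : opn Q ≤ 3) (ζ ζ' : Fin n ⊕ Fin n → ℝ) :
    nrm (Q *ᵥ z1 ζ - Q *ᵥ z1 ζ') ≤ 3 * nrm (ζ - ζ') := by
  rw [← mulVec_sub]
  exact (nrm_mulVec_le _ _).trans (mul_le_mul q (nrm_inl (ζ - ζ')).1 (nrm_nonneg _) (by norm_num))

lemma h_lip (q : opn Q ≤ 3) (ζ ζ' : Fin n ⊕ Fin n → ℝ) (y y' : V n) :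
    nrm (y + Q *ᵥ z1 ζ - (y' + Q *ᵥ z1 ζ')) ≤ nrm (y - y') + 3 * nrm (ζ - ζ') := by
  rw [add_sub_add_comm]; linarith [nrm_add_le (y - y') (Q *ᵥ z1 ζ - Q *ᵥ z1 ζ'), x_lip q ζ ζ']

lemma v_lip (q : opn Q ≤ 3) (ζ ζ' : Fin n ⊕ Fin n → ℝ) (y y' : V n) :
    nrm (vv Q ζ y - vv Q ζ' y') ≤ (|aa| + 3) * nrm (ζ - ζ') + nrm (y - y') := by
  rw [vv, vv, sub_sub_sub_comm, ← smul_sub]
  refine (nrm_sub_le _ _).trans ?_
  rw [nrm_smul]
  have h1 := mul_le_mul_of_nonneg_left ((nrm_th (z2 ζ) (z2 ζ')).trans (nrm_inl (ζ - ζ')).2)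
    (abs_nonneg aa)
  have h2 := (nrm_th _ _).trans (h_lip q ζ ζ' y y')
  rw [pt, pt]
  linarith

lemma v_abs (ζ : Fin n ⊕ Fin n → ℝ) (y : V n) (i : Fin n) : |vv Q ζ y i| ≤ |aa| + 1 := by
  refine (abs_sub _ _).trans (add_le_add ?_ (abs_tanh_lt_one _).le)
  rw [Pi.smul_apply, smul_eq_mul, abs_mul]
  exact mul_le_of_le_one_right (abs_nonneg _) (abs_tanh_lt_one _).le

lemma th_neg (h : V n) : th (-h) = -th h := funext fun _ => tanh_neg _
lemma DD_neg (h : V n) : DD (-h) = DD h := funext fun i => by simp [DD]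
lemma x_neg (ζ : Fin n ⊕ Fin n → ℝ) : Q *ᵥ z1 (-ζ) = -(Q *ᵥ z1 ζ) := mulVec_neg _ _
lemma pt_neg (ζ : Fin n ⊕ Fin n → ℝ) (y : V n) : pt Q (-y) (z1 (-ζ)) = -pt Q y (z1 ζ) := by
  rw [pt, x_neg, ← neg_add, th_neg, pt]
lemma t2_neg (ζ : Fin n ⊕ Fin n → ℝ) : th (z2 (-ζ)) = -th (z2 ζ) := th_neg _
lemma v_neg (ζ : Fin n ⊕ Fin n → ℝ) (y : V n) : vv Q (-ζ) (-y) = -vv Q ζ y := by
  rw [vv, pt_neg, t2_neg, vv, smul_neg, neg_sub']

theorem certStmt : CertStmt := by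
  have a0 := abs_nonneg aa
  refine ⟨12 * |aa| + 105, by linarith, fun n Q E Bx By Er M N hs q1 q2 M1 N1 hE hB => ?_⟩
  have M0 : 0 ≤ M := by linarith
  have N0 : 0 ≤ N := by linarith
  have MN : M ≤ M * N := le_mul_of_one_le_right M0 N1
  have NM : N ≤ M * N := le_mul_of_one_le_left N0 M1
  have eL : ∀ ζ y ζ' y', nrm (E (Q *ᵥ z1 ζ) y - E (Q *ᵥ z1 ζ') y') ≤
      3 * M * (nrm (ζ - ζ') + nrm (y - y')) := fun ζ y ζ' y' => (hE.lip _ _ _ _).trans <| by
    nlinarith [x_lip q1 ζ ζ', nrm_nonneg (y - y')]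
  have dL : JL (9 * M) fun ζ y => DD (pt Q y (z1 ζ)) * E (Q *ᵥ z1 ζ) y := fun ζ y ζ' y' =>
    (nrm_DE M0 _ _ (hE.sup _ _)).trans <| by
      nlinarith [eL ζ y ζ' y', h_lip q1 ζ ζ' y y', nrm_nonneg (y - y')]
  have d2 : JL (5 * M) fun ζ y => DD (th (z2 ζ)) * E (Q *ᵥ z1 ζ) y := fun ζ y ζ' y' =>
    (nrm_DE M0 _ _ (hE.sup _ _)).trans <| by
      have : nrm (z2 ζ - z2 ζ') ≤ nrm (ζ - ζ') := (nrm_inl (ζ - ζ')).2
      nlinarith [eL ζ y ζ' y', nrm_nonneg (y - y')]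
  have bL : ∀ ζ y ζ' y', nrm (Bx (Q *ᵥ z1 ζ) y (vv Q ζ y) - Bx (Q *ᵥ z1 ζ') y' (vv Q ζ' y')) +
      nrm (By (Q *ᵥ z1 ζ) y (vv Q ζ y) - By (Q *ᵥ z1 ζ') y' (vv Q ζ' y')) +
      |√(Er (Q *ᵥ z1 ζ) y (vv Q ζ y)) - √(Er (Q *ᵥ z1 ζ') y' (vv Q ζ' y'))| ≤
      (|aa| + 6) * (M * N) * (nrm (ζ - ζ') + nrm (y - y')) := fun ζ y ζ' y' =>
    (hB.lip _ _ _ _ _ _).trans <| by
      rw [mul_comm (|aa| + 6), mul_assoc]
      refine mul_le_mul NM ?_ (add_nonneg (add_nonneg (nrm_nonneg _) (nrm_nonneg _))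
        (nrm_nonneg _)) (by positivity)
      nlinarith [x_lip q1 ζ ζ', v_lip q1 ζ ζ' y y', nrm_nonneg (y - y')]
  have fin : ∀ {c x D : ℝ}, 0 ≤ D → c ≤ 12 * |aa| + 105 → x ≤ c * (M * N) * D →
      x ≤ (12 * |aa| + 105) * M * N * D := fun hD hc hx => hx.trans <| by
    rw [mul_assoc _ M]; gcongr
  have D0 : ∀ (ζ ζ' : Fin n ⊕ Fin n → ℝ) (y y' : V n), 0 ≤ nrm (ζ - ζ') + nrm (y - y') :=
    fun _ _ _ _ => add_nonneg (nrm_nonneg _) (nrm_nonneg _)
  have nE : ∀ x y, nrm (E x y) ≤ M * √n := fun x y => by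
    simpa only [abs_of_nonneg M0] using nrm_le_of_bd (hE.sup x y)
  refine ⟨gg_c1 hB.c1, fun ζ y ζ' y' => ?_, fun ζ y => ?_, fun ζ y ζ' y' => ?_, fun ζ y ζ' y' => ?_,
    fun ζ y ζ' y' => ?_, fun ζ y i => ?_, fun ζ y => ?_, fun ζ y => ?_, ?_⟩
  · have nv : nrm (vv Q ζ y) ≤ (|aa| + 1) * √n := by
      simpa only [abs_of_nonneg (show 0 ≤ |aa| + 1 by linarith)] using nrm_le_of_bd (v_abs ζ y)
    rw [show GG Q E ζ y - GG Q E ζ' y' = (E (Q *ᵥ z1 ζ) y - E (Q *ᵥ z1 ζ') y') ⬝ᵥ vv Q ζ y +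
      E (Q *ᵥ z1 ζ') y' ⬝ᵥ (vv Q ζ y - vv Q ζ' y') by
        rw [sub_dotProduct, dotProduct_sub, GG, GG]; ring]
    have vl : nrm (vv Q ζ y - vv Q ζ' y') ≤ (|aa| + 3) * (nrm (ζ - ζ') + nrm (y - y')) := by
      nlinarith [v_lip q1 ζ ζ' y y', nrm_nonneg (y - y')]
    have d0 := D0 ζ ζ' y y'
    refine (abs_add_le _ _).trans ((add_le_add ((abs_dot_le _ _).trans (mul_le_mul (eL _ _ _ _) nv
      (nrm_nonneg _) (by positivity))) ((abs_dot_le _ _).trans (mul_le_mul (nE _ _) vl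
      (nrm_nonneg _) (by positivity)))).trans ?_)
    have : 0 ≤ M * √n * (nrm (ζ - ζ') + nrm (y - y')) := by positivity
    nlinarith
  · rw [grad_z hs hB.c1, grad_y hB.c1, UU, BB, EE, add_sub_add_right_eq_sub, ← mulVec_sub,
      sub_sub_sub_cancel_right, sub_sub_sub_cancel_right]
    have h1 := hB.app (Q *ᵥ z1 ζ) y _ (v_abs (Q := Q) ζ y)
    have h2 := pow_le_pow_left₀ (nrm_nonneg _) ((nrm_mulVec_le (Q * Q) (Conc.grad
      (fun x => vv Q ζ y ⬝ᵥ E x y) (Q *ᵥ z1 ζ) - Bx (Q *ᵥ z1 ζ) y (vv Q ζ y))).trans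
      (mul_le_mul_of_nonneg_right q2 (nrm_nonneg _))) 2
    nlinarith [sq_nonneg (nrm (Conc.grad (fun y' => vv Q ζ y ⬝ᵥ E (Q *ᵥ z1 ζ) y') y -
      By (Q *ᵥ z1 ζ) y (vv Q ζ y)))]
  · have d0 := D0 ζ ζ' y y'
    refine fin d0 le_rfl ?_
    rw [UU, UU, add_sub_add_comm, ← mulVec_sub, ← smul_sub, sub_sub_sub_comm]
    refine (nrm_add_le _ _).trans ?_
    rw [nrm_smul]
    have h1 := mul_le_mul_of_nonneg_left (d2 ζ y ζ' y') a0
    have h2 := (nrm_mulVec_le (Q * Q) _).trans (mul_le_mul q2 ((nrm_sub_le _ _).trans (add_le_add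
      (((le_add_of_nonneg_right (nrm_nonneg _)).trans (le_add_of_nonneg_right (abs_nonneg _))).trans
      (bL ζ y ζ' y')) (dL ζ y ζ' y'))) (nrm_nonneg _) (by norm_num))
    have h3 := mul_le_mul_of_nonneg_right MN d0
    nlinarith [mul_le_mul_of_nonneg_left h3 a0]
  · have d0 := D0 ζ ζ' y y'
    refine fin d0 (c := |aa| + 15) (by linarith) ?_
    rw [BB, BB, sub_sub_sub_comm]
    have h2 := (nrm_sub_le _ _).trans (add_le_add
      (((le_add_of_nonneg_left (nrm_nonneg _)).trans (le_add_of_nonneg_right (abs_nonneg _))).trans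
      (bL ζ y ζ' y')) (dL ζ y ζ' y'))
    nlinarith [mul_le_mul_of_nonneg_right MN d0]
  · have d0 := D0 ζ ζ' y y'
    refine fin d0 (c := 7 * (|aa| + 6)) (by linarith) ?_
    have s7 : √49 = 7 := by rw [show (49 : ℝ) = 7 ^ 2 by norm_num, sqrt_sq (by norm_num)]
    simp only [EE, sqrt_mul (show (0 : ℝ) ≤ 49 by norm_num), s7]
    rw [← mul_sub, abs_mul, abs_of_pos (show (0 : ℝ) < 7 by norm_num)]
    linarith [(le_add_of_nonneg_left (add_nonneg (nrm_nonneg _) (nrm_nonneg _))).trans (bL ζ y ζ' y')]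
  · refine (abs_sub _ _).trans ?_
    have h1 := (hB.sup (Q *ᵥ z1 ζ) y (vv Q ζ y) i).2
    have h2 := mul_le_mul (abs_DD (y + Q *ᵥ z1 ζ) i) (hE.sup (Q *ᵥ z1 ζ) y i) (abs_nonneg _) zero_le_one
    rw [Pi.mul_apply, abs_mul, pt, mul_assoc]
    nlinarith [mul_nonneg a0 (mul_nonneg M0 N0)]
  · rw [UU, UU, x_neg, v_neg, pt_neg, t2_neg, DD_neg, DD_neg, hE.odd, (hB.odd _ _ _).1, mul_neg, mul_neg,
      smul_neg, ← neg_sub', mulVec_neg, neg_add]
  · rw [BB, BB, x_neg, v_neg, pt_neg, DD_neg, hE.odd, (hB.odd _ _ _).2, mul_neg, ← neg_sub']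
  · obtain ⟨B, hb⟩ := hB.bd
    refine ⟨49 * |B| + 7 * (|N| * √n + M * √n) + |aa| * (M * √n), fun ζ y => ?_⟩
    have h0 := hb (Q *ᵥ z1 ζ) y (vv Q ζ y)
    have h1 : ∀ h x, nrm (DD (th h) * E x y) ≤ M * √n := fun h x =>
      (nrm_mul zero_le_one (abs_DD h)).trans ((one_mul _).trans_le (nE _ _))
    have h2 := (nrm_mulVec_le (Q * Q) _).trans (mul_le_mul q2 ((nrm_sub_le _ _).trans (add_le_add
      (nrm_le_of_bd fun i => (hB.sup (Q *ᵥ z1 ζ) y (vv Q ζ y) i).1) (h1 (y + Q *ᵥ z1 ζ) (Q *ᵥ z1 ζ))))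
      (nrm_nonneg _) (by norm_num))
    have h3 := mul_le_mul_of_nonneg_left (h1 (z2 ζ) (Q *ᵥ z1 ζ)) a0
    have h4 : 0 ≤ 7 * (|N| * √n + M * √n) + |aa| * (M * √n) := by positivity
    refine ⟨mul_nonneg (by norm_num) h0.1, by rw [EE]; linarith [le_abs_self B], ?_⟩
    refine (nrm_add_le _ _).trans ?_
    rw [nrm_smul, pt]
    linarith [abs_nonneg B]

end Crest.Agent.T157.K.Ba66

end
end

-- ▼ part T157/KBaF_66
section

/-!
# Row 157, block S5 (helper66): assembly of the base of the backward pass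
-/

set_option autoImplicit false
set_option linter.unusedSectionVars false

noncomputable section

namespace Crest.Agent.T157.K.Ba66

open MeasureTheory ProbabilityTheory Real Matrix Finset Filter
open Crest.Agent.T157.E Crest.Agent.T157.Eig
open Crest.Agent.T157.Tap (V Mx th DD)
open Crest.Agent.T157.Reg (jac)
open Crest.Agent.T157.Conc (ELip)
open Crest.Agent.T157.K.Tl48 (nrm_inl nrm_elim fub wt_is)

variable {n : ℕ} {κ ι : Type} [Fintype κ] [DecidableEq κ] [Fintype ι] [DecidableEq ι]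

lemma opn_rows {P : Matrix κ (Fin n) ℝ} {R : Matrix ι (Fin n) ℝ} {a b : ℝ} (h : opn P ≤ a)
    (k : opn R ≤ b) : opn (fromRows P R) ≤ a + b :=
  opn_le_of_nrm (add_nonneg ((opn_nonneg _).trans h) ((opn_nonneg _).trans k)) fun v => by
    rw [fromRows_mulVec, add_mul]
    exact (nrm_elim _ _).trans (add_le_add
      ((nrm_mulVec_le _ _).trans (mul_le_mul_of_nonneg_right h (nrm_nonneg _)))
      ((nrm_mulVec_le _ _).trans (mul_le_mul_of_nonneg_right k (nrm_nonneg _))))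

lemma Ct.mono {P : Matrix κ (Fin n) ℝ} {G Er : (κ → ℝ) → V n → ℝ} {U Bq : (κ → ℝ) → V n → V n}
    {L L' η η' : ℝ} (h : Ct P G U Bq Er L η) (l : L ≤ L') (k : η ≤ η') : Ct P G U Bq Er L' η' :=
  have D0 : ∀ (ζ ζ' : κ → ℝ) (y y' : V n), 0 ≤ nrm (ζ - ζ') + nrm (y - y') :=
    fun _ _ _ _ => add_nonneg (nrm_nonneg _) (nrm_nonneg _)
  ⟨h.c1, fun _ _ _ _ => (h.lip _ _ _ _).trans (mul_le_mul_of_nonneg_right l (D0 _ _ _ _)), h.app,
    fun _ _ _ _ => (h.lU _ _ _ _).trans (mul_le_mul_of_nonneg_right k (D0 _ _ _ _)),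
    fun _ _ _ _ => (h.lB _ _ _ _).trans (mul_le_mul_of_nonneg_right k (D0 _ _ _ _)),
    fun _ _ _ _ => (h.lE _ _ _ _).trans (mul_le_mul_of_nonneg_right k (D0 _ _ _ _)),
    fun _ _ _ => (h.sB _ _ _).trans k, h.oU, h.oB, h.bd⟩

lemma y_lip (r : ℝ) (ζ ζ' : κ ⊕ Fin n → ℝ) :
    nrm (√r • z2 ζ - √r • z2 ζ') ≤ √r * nrm (ζ - ζ') := by
  rw [← smul_sub, nrm_smul, abs_of_nonneg (sqrt_nonneg r)]
  exact mul_le_mul_of_nonneg_left (nrm_inl (ζ - ζ')).2 (sqrt_nonneg r)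

lemma d3 (r : ℝ) {M : ℝ} (hM : 0 ≤ M) (ζ ζ' : κ ⊕ Fin n → ℝ) :
    M * (nrm (z1 ζ - z1 ζ') + nrm (√r • z2 ζ - √r • z2 ζ')) ≤ M * (1 + √r) * nrm (ζ - ζ') := by
  rw [mul_assoc, add_mul, one_mul]
  exact mul_le_mul_of_nonneg_left (add_le_add (nrm_inl (ζ - ζ')).1 (y_lip r ζ ζ')) hM

lemma pm_cav (J : Mx n) (P : Matrix κ (Fin n) ℝ) {r : ℝ} (r0 : 0 ≤ r) (H : (κ → ℝ) → V n → ℝ)
    (h : BC fun ζ : κ ⊕ Fin n → ℝ => H (z1 ζ) (√r • z2 ζ)) :
    PM J r (fun s y => cav P (fun _ ζ => H ζ y) s) =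
      mean (ising J 0) (cav (fromRows P (√r • (1 : Mx n))) fun _ ζ => H (z1 ζ) (√r • z2 ζ)) := by
  obtain ⟨hc, B, hb⟩ := h
  refine Finset.sum_congr rfl fun s _ => congrArg _ ?_
  rw [cav, fub (F := fun z => H (z1 (fromRows P (√r • (1 : Mx n)) *ᵥ sv s + z))
    (√r • z2 (fromRows P (√r • (1 : Mx n)) *ᵥ sv s + z)))
    (hc.comp (continuous_const.add continuous_id)) fun z => hb _]
  refine integral_congr_ae (.of_forall fun g => integral_congr_ae (.of_forall fun z => ?_))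
  have e2 : √r • z2 (fromRows P (√r • (1 : Mx n)) *ᵥ sv s + Sum.elim z g) = r • sv s + √r • g := by
    ext i
    simp only [z2, fromRows_mulVec, smul_mulVec, one_mulVec, Pi.smul_apply, Pi.add_apply,
      Sum.elim_inr, smul_eq_mul, mul_add, ← mul_assoc, mul_self_sqrt r0]
  have e3 : z1 (fromRows P (√r • (1 : Mx n)) *ᵥ sv s + Sum.elim z g) = P *ᵥ sv s + z := by
    ext i; simp only [z1, fromRows_mulVec, Pi.add_apply, Sum.elim_inl]
  simp only [e2, e3]

lemma cav_comb {P : Matrix κ (Fin n) ℝ} {f g : (κ → ℝ) → ℝ} (hf : BC f) (hg : BC g) (C c : ℝ) :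
    cav P (fun _ ζ => C * (c + f ζ + g ζ)) =
      fun s => C * (c + cav P (fun _ => f) s + cav P (fun _ => g) s) := funext fun s => by
  have i : Integrable (fun z => c + f (P *ᵥ sv s + z)) (gv κ) := (integrable_const c).add (hf.int _)
  rw [cav, integral_const_mul, integral_add i (hg.int _), integral_add (integrable_const c) (hf.int _)]
  simp [cav]

lemma BC.comb {f g : (κ → ℝ) → ℝ} (hf : BC f) (hg : BC g) (C c : ℝ) :
    BC fun ζ => C * (c + f ζ + g ζ) := by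
  obtain ⟨cf, A, a⟩ := hf
  obtain ⟨cg, B, b⟩ := hg
  refine ⟨by fun_prop, |C| * (|c| + A + B), fun ζ => ?_⟩
  rw [abs_mul]
  exact mul_le_mul_of_nonneg_left ((abs_add_three _ _ _).trans (by linarith [a ζ, b ζ])) (abs_nonneg _)

lemma le_ex {a Λ : ℝ} (a0 : 0 ≤ a) (h : 1 ≤ Λ) : a ≤ exp (a * Λ) :=
  (le_mul_of_one_le_right a0 h).trans (by linarith [add_one_le_exp (a * Λ)])

lemma tl {a C Λ : ℝ} (a1 : 1 ≤ a) (h : a ≤ C) : exp (-(Λ ^ 2 / a)) ≤ exp (-(Λ ^ 2 / C)) :=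
  exp_le_exp.2 (neg_le_neg (div_le_div_of_nonneg_left (sq_nonneg _) (by linarith) h))

theorem base (ch : ChanStmt) (rp : RepStmt) (cc : ConcStmt) (rv : RevStmt) (bp : BpStmt) :
    BaseStmt := by
  intro m E hN hD K0 r r0
  have q0 := sqrt_nonneg r
  have a0 := abs_nonneg aa
  obtain ⟨Cb, b1, bp⟩ := bp m E hN hD (|aa| + 1) K0 (|aa| + 4 + √r)
  obtain ⟨Cc, c1, ch⟩ := ch 5
  obtain ⟨Ck, k1, cc⟩ := cc K0 (|aa| + 4 + √r)
  obtain ⟨c, d1, ct⟩ := certStmt
  have cb : 1 ≤ c * Cb := one_le_mul_of_one_le_of_one_le d1 b1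
  obtain ⟨a, ha⟩ : ∃ a, a = c * Cb * (1 + √r) := ⟨_, rfl⟩
  have la : c * Cb ≤ a := ha ▸ le_mul_of_one_le_right (by linarith) (by linarith)
  have a1 : 1 ≤ a := cb.trans la
  obtain ⟨K, hK⟩ : ∃ K, K = Cc * (a ^ 2 + 49 + Ck * a ^ 2) := ⟨_, rfl⟩
  have K0' : 0 ≤ K := by rw [hK]; positivity
  have ca : Cc ≤ Cc * a := le_mul_of_one_le_right (by linarith) a1
  obtain ⟨C, hC⟩ : ∃ C, C = K + Cc * a + 3 + 2 * Cb + Ck := ⟨_, rfl⟩
  refine ⟨C, by linarith, fun n J Q jq Λ l1 => ?_⟩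
  obtain ⟨q1, q2, q3⟩ := rv.opQ n J Q jq
  obtain ⟨hE, bp⟩ := bp n J
  obtain ⟨Bx, By, Er, hB, bp⟩ := bp Λ l1
  have l0 : 0 ≤ Λ := by linarith
  have N1 : 1 ≤ exp (Cb * Λ) := one_le_exp (by positivity)
  obtain ⟨N, hN⟩ : ∃ N, N = exp (Cb * Λ) := ⟨_, rfl⟩
  have ct := ct n Q _ Bx By Er Cb _ jq.qs q1 q2 b1 N1 hE hB
  rw [← hN] at ct N1
  have e0 : 0 < a * N := by positivity
  have M0 : 0 ≤ c * Cb * N := by positivity
  have eM : c * Cb * N * (1 + √r) = a * N := by rw [ha]; ring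
  have p4 : opn (PP Q) ≤ 3 + 1 := opn_rows q1 opn_one_le
  obtain ⟨g, ω, β, hS⟩ := ch n _ (PP Q) 5 (a * √n) Λ (Λ * (a * N)) _ _ _ _ (by linarith) (by norm_num)
    le_rfl (fun j => by
      rw [PP, transpose_fromRows, fromCols_mul_fromRows, Matrix.add_apply, q3]; norm_num)
    (by positivity) l1 (by positivity) (ct.mono (mul_le_mul_of_nonneg_right la (sqrt_nonneg _))
      ((mul_le_mul_of_nonneg_right la (by linarith)).trans (le_mul_of_one_le_left e0.le l1)))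
  rw [← rp n Q _ _ hE] at hS
  refine ⟨g, ω, β, _, BS.mono hS (by positivity) ?_ ?_, fun hat => ?_⟩
  · have h1 := le_ex (a := Cc * a) (by linarith) l1
    have h2 : Λ ≤ exp Λ := by linarith [add_one_le_exp Λ]
    calc _ = Cc * a * Λ * exp (2 * Λ) * N := by ring
      _ ≤ exp (Cc * a * Λ) * exp Λ * exp (2 * Λ) * exp (Cb * Λ) := by rw [hN]; gcongr
      _ ≤ _ := by
        rw [← exp_add, ← exp_add, ← exp_add, exp_le_exp, hC]
        nlinarith [mul_nonneg K0' l0, mul_nonneg (zero_le_one.trans b1) l0,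
          mul_nonneg (zero_le_one.trans k1) l0]
  · rw [← mul_assoc]; exact mul_le_mul_of_nonneg_right (by linarith) (sqrt_nonneg _)
  obtain ⟨B, hb⟩ := ct.bd
  have η0 : 0 ≤ Λ * (a * N) := by positivity
  have lU : ∀ ζ ζ' : (Fin n ⊕ Fin n) ⊕ Fin n → ℝ, nrm (UU Q (Eh E n J) Bx (z1 ζ) (√r • z2 ζ) -
      UU Q (Eh E n J) Bx (z1 ζ') (√r • z2 ζ')) ≤ a * N * nrm (ζ - ζ') := fun ζ ζ' =>
    (ct.lU _ _ _ _).trans (eM ▸ d3 r M0 ζ ζ')
  have bE : BC fun ζ : (Fin n ⊕ Fin n) ⊕ Fin n → ℝ => EE Q Er (z1 ζ) (√r • z2 ζ) := by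
    have : ELip (a * N) fun ζ : (Fin n ⊕ Fin n) ⊕ Fin n → ℝ => √(EE Q Er (z1 ζ) (√r • z2 ζ)) :=
      fun ζ ζ' => (ct.lE _ _ _ _).trans (by rw [en_eq, ← eM]; exact d3 r M0 ζ ζ')
    exact ⟨(this.continuous.pow 2).congr fun ζ => sq_sqrt (hb _ _).1, B, fun ζ => by
      rw [abs_of_nonneg (hb _ _).1]; exact (hb _ _).2.1⟩
  have bX : BC fun ζ : (Fin n ⊕ Fin n) ⊕ Fin n → ℝ =>
      exc (Λ * (a * N)) (UU Q (Eh E n J) Bx (z1 ζ) (√r • z2 ζ)) :=
    ⟨(Tl48.exc_cont _).comp (cont_of_lip lU), B ^ 2, fun ζ => (Tl48.exc_le η0 _).trans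
      (pow_le_pow_left₀ (nrm_nonneg _) (hb _ _).2.2 2)⟩
  have ea : EA (ising J 0) K0 :=
    ⟨fun _ => exp_pos _, fun s => by simp [ising, sv_neg, mulVec_neg], hat⟩
  have p3 : opn (fromRows (PP Q) (√r • (1 : Mx n))) ≤ |aa| + 4 + √r :=
    (opn_rows p4 (b := √r) (by
      rw [opn_smul, abs_of_nonneg q0]; exact mul_le_of_le_one_right q0 opn_one_le)).trans (by linarith)
  have yn : ∀ ζ : (Fin n ⊕ Fin n) ⊕ Fin n → ℝ, √r • z2 (-ζ) = -(√r • z2 ζ) := fun ζ => smul_neg _ _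
  have t1 := bp _ _ _ (fun ζ => Q *ᵥ z1 (z1 ζ)) (fun ζ => √r • z2 ζ)
    (fun ζ => vv Q (z1 ζ) (√r • z2 ζ)) ea p3
    ⟨fun ζ => x_neg _, fun ζ ζ' => (x_lip q1 _ _).trans
      (mul_le_mul (by linarith) (nrm_inl (ζ - ζ')).1 (nrm_nonneg _) (by linarith))⟩
    ⟨yn, fun ζ ζ' => (y_lip r ζ ζ').trans (mul_le_mul_of_nonneg_right (by linarith) (nrm_nonneg _))⟩
    ⟨fun ζ => by simp only [yn]; exact v_neg _ _, fun ζ ζ' => (v_lip q1 _ _ _ _).trans (by
      have h1 : nrm (z1 ζ - z1 ζ') ≤ nrm (ζ - ζ') := (nrm_inl (ζ - ζ')).1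
      nlinarith [y_lip r ζ ζ', nrm_nonneg (ζ - ζ')])⟩
  have t2 := cc n _ _ _ (fun _ ζ => UU Q (Eh E n J) Bx (z1 ζ) (√r • z2 ζ)) (a * N) _ ea p3 e0 η0
    (fun _ ζ => by simp only [yn]; exact ct.oU _ _)
    (fun s ζ => by
      rw [show jac (fun _ : Cube n => UU Q (Eh E n J) Bx (z1 ζ) (√r • z2 ζ)) s = 0 from by
        ext; simp [jac], opn_zero]; exact e0.le) fun _ => lU
  rw [mul_div_cancel_right₀ _ e0.ne'] at t2
  rw [pm_cav J (PP Q) r0 (fun ζ y => Cc * (exp (-(Λ ^ 2 / Cc)) * (a * √n) ^ 2 + EE Q Er ζ y +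
    exc (Λ * (a * N)) (UU Q (Eh E n J) Bx ζ y))) (bE.comb bX _ _), cav_comb bE bX, SL.mean_const_mul,
    SL.mean_add, SL.mean_add, (wt_is J 0).mean_const]
  have e49 : (cav (fromRows (PP Q) (√r • (1 : Mx n))) fun _ ζ => EE Q Er (z1 ζ) (√r • z2 ζ)) =
      fun s => 49 * cav (fromRows (PP Q) (√r • (1 : Mx n))) (fun _ ζ => Er (Q *ᵥ z1 (z1 ζ)) (√r • z2 ζ)
        (vv Q (z1 ζ) (√r • z2 ζ))) s := funext fun s => integral_const_mul _ _
  simp only [e49]
  rw [SL.mean_const_mul, mul_pow, sq_sqrt n.cast_nonneg]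
  rw [sub_eq_add_neg, exp_add, ← hN] at t1
  have T := exp_pos (-(Λ ^ 2 / C))
  have u1 := tl (Λ := Λ) c1 (show Cc ≤ C by linarith)
  have u2 := tl (Λ := Λ) b1 (show Cb ≤ C by linarith)
  have u3 := tl (Λ := Λ) k1 (show Ck ≤ C by linarith)
  have NN : 1 ≤ N ^ 2 := one_le_pow₀ N1
  have N2 : N ≤ N ^ 2 := by nlinarith
  have h1 := le_ex K0' l1
  calc _ ≤ Cc * (exp (-(Λ ^ 2 / C)) * (a ^ 2 * n) * N ^ 2 + 49 * (n * (N ^ 2 * exp (-(Λ ^ 2 / C)))) +
        Ck * n * (a * N) ^ 2 * exp (-(Λ ^ 2 / C))) := by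
        refine mul_le_mul_of_nonneg_left (add_le_add (add_le_add ?_ ?_) (t2.trans ?_)) (by linarith)
        · exact (mul_le_mul_of_nonneg_right u1 (by positivity)).trans
            (le_mul_of_one_le_right (by positivity) NN)
        · exact mul_le_mul_of_nonneg_left (t1.trans (by gcongr)) (by norm_num)
        · gcongr
    _ = n * (K * N ^ 2 * exp (-(Λ ^ 2 / C))) := by rw [hK]; ring
    _ ≤ n * (exp (K * Λ) * exp (Cb * Λ) ^ 2 * exp (-(Λ ^ 2 / C))) := by rw [hN]; gcongr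
    _ ≤ _ := by
      rw [sq (exp _), ← exp_add, ← exp_add, ← exp_add]
      refine mul_le_mul_of_nonneg_left (exp_le_exp.2 ?_) n.cast_nonneg
      have : (K + 2 * Cb) * Λ ≤ C * Λ := mul_le_mul_of_nonneg_right (by linarith) l0
      linarith

end Crest.Agent.T157.K.Ba66

end
end

-- ▼ part T157/KBaC_75
section

/-!
# Row 157, block S5 (helper75): a certified spin-free integrand passes through a channel
-/

set_option autoImplicit false
set_option linter.unusedSectionVars false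

noncomputable section

namespace Crest.Agent.T157.K.Ba66

open MeasureTheory ProbabilityTheory Real Matrix Finset Filter
open Crest.Agent.T157.E Crest.Agent.T157.Eig
open Crest.Agent.T157.Tap (V Mx th DD)
open Crest.Agent.T157.Rec (grad)
open Crest.Agent.T157.Conc (ELip en)
open Crest.Agent.T157.Reg (jac neg)
open Crest.Agent.T157.S3.Hb (Vp)
open Crest.Agent.T157.Z (cp)
open Crest.Agent.T157.Z.L85 (nrm_mono nrm_le_of_bd abs_cp_le)

namespace C75

variable {n : ℕ} {κ : Type} [Fintype κ] [DecidableEq κ] {P : Matrix κ (Fin n) ℝ} {s : Cube n}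
  {f g : (κ → ℝ) → ℝ}

lemma bc_const (c : ℝ) : BC fun _ : κ → ℝ => c := ⟨continuous_const, |c|, fun _ => le_rfl⟩
lemma bc_add (hf : BC f) (hg : BC g) : BC fun ζ => f ζ + g ζ := by
  obtain ⟨c, B, h⟩ := hf
  obtain ⟨c', B', k⟩ := hg
  exact ⟨c.add c', B + B', fun ζ => (abs_add_le _ _).trans (add_le_add (h ζ) (k ζ))⟩
lemma bc_mul (a : ℝ) (hf : BC f) : BC fun ζ => a * f ζ := by
  obtain ⟨c, B, h⟩ := hf
  exact ⟨continuous_const.mul c, |a| * B, fun ζ => by
    rw [abs_mul]; exact mul_le_mul_of_nonneg_left (h ζ) (abs_nonneg a)⟩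
lemma cav_add (hf : BC f) (hg : BC g) :
    cav P (fun _ ζ => f ζ + g ζ) s = cav P (fun _ => f) s + cav P (fun _ => g) s :=
  integral_add (hf.int _) (hg.int _)
lemma cav_mul (a : ℝ) (f : (κ → ℝ) → ℝ) : cav P (fun _ ζ => a * f ζ) s = a * cav P (fun _ => f) s :=
  integral_const_mul _ _
lemma cav_const (c : ℝ) : cav P (fun _ _ => c) s = c := by simp [cav]
lemma cav_nn (h : ∀ ζ, 0 ≤ f ζ) : 0 ≤ cav P (fun _ => f) s := integral_nonneg fun _ => h _

lemma wg_of {w : ℝ → ℝ} (hc : Continuous w) (h : ∀ u, 0 ≤ w u ∧ w u ≤ 1 + exp (-2 * u)) : Wg w :=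
  ⟨hc, fun t => by
    have h1 := one_le_exp (show 0 ≤ 2 * |t| by positivity)
    have h2 : exp (-2 * t) ≤ exp (2 * |t|) := exp_le_exp.2 (by linarith [neg_abs_le t])
    rw [abs_of_nonneg (h t).1]; linarith [(h t).2]⟩

lemma int_sq {w : ℝ → ℝ} (hc : Continuous w) (h : ∀ u, 0 ≤ w u ∧ w u ≤ 1 + exp (-2 * u)) (a : ℝ) :
    Integrable (fun u => w (a * u) ^ 2) (gaussianReal 0 1) := by
  refine ((integrable_const 2).add ((integrable_exp_mul_gaussianReal (-4 * a)).const_mul 2)).mono'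
    (by fun_prop) (.of_forall fun u => ?_)
  have e : exp (-4 * a * u) = exp (-2 * (a * u)) ^ 2 := by rw [sq, ← exp_add]; congr 1; ring
  have := pow_le_pow_left₀ (h (a * u)).1 (h (a * u)).2 2
  rw [Real.norm_eq_abs, abs_sq, Pi.add_apply, e]
  nlinarith [sq_nonneg (1 - exp (-2 * (a * u)))]

lemma le_of_sq {x a c d : ℝ} (h : x ^ 2 ≤ a * d ^ 2) (ha : a ≤ c ^ 2) (hc : 0 ≤ c) (hd : 0 ≤ d) :
    x ≤ c * d :=
  (abs_le_of_sq_le_sq' (h.trans (by rw [mul_pow]; gcongr)) (mul_nonneg hc hd)).2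

end C75

open C75

set_option maxHeartbeats 1000000 in
theorem chanGlue : ChanGlue := by
  intro Gr W Cs Rf Re B
  obtain ⟨Cw, w1, W⟩ := W B
  obtain ⟨Cr, r1, Rf⟩ := Rf B
  obtain ⟨Ce, e1, Re⟩ := Re B
  set D : ℝ := 3 * Ce + Cr * Cw + Cw * (2 * B ^ 2 + 4) with hD
  have rw1 : 1 ≤ Cr * Cw := one_le_mul_of_one_le_of_one_le r1 w1
  have wB : 0 ≤ Cw * B ^ 2 := by positivity
  have D1 : 3 * Ce ≤ D := by nlinarith
  have D2 : Cr * Cw ≤ D := by nlinarith
  have D3 : 2 * (Cw * B ^ 2) + 4 * Cw ≤ D := by nlinarith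
  have D4 : 3 ≤ D := by linarith
  have D5 : D ≤ D ^ 2 := by nlinarith
  have D6 : D ^ 2 ≤ (D ^ 2) ^ 2 := by nlinarith
  clear_value D
  refine ⟨D ^ 2, by linarith, fun n κ _ _ P k L Λ η G U Bq Er hP k0 kB hk L0 Λ1 η0 h => ?_⟩
  obtain ⟨w2, wc, wb, wi, wd⟩ := W k Λ k0 kB (by linarith) (rho k) (by simp)
  have x1 : 1 ≤ exp (2 * Λ) := one_le_exp (by linarith)
  have B0 : 0 ≤ B := k0.trans kB
  have b1 : ∀ u, 0 ≤ rho k u ∧ rho k u ≤ 1 + exp (-2 * u) := fun u =>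
    ⟨(wb u).1.le.trans (wb u).2.1, (wb u).2.2⟩
  have b2 : ∀ u, 0 ≤ rh k Λ u ∧ rh k Λ u ≤ 1 + exp (-2 * u) := fun u =>
    ⟨(wb u).1.le, (wb u).2.1.trans (wb u).2.2⟩
  have c2 : Continuous (rh k Λ) := w2.1.continuous
  have g1 := wg_of wc b1
  have g2 := wg_of c2 b2
  have g3 : Wg fun t => rho k t - rh k Λ t := wg_of (wc.sub c2) fun u =>
    ⟨sub_nonneg.2 (wb u).2.1, by linarith [(b1 u).2, (b2 u).1]⟩
  have i2 : ∫ t, rh k Λ (√k * t) ^ 2 ∂gaussianReal 0 1 ≤ Cw :=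
    (integral_mono (int_sq c2 b2 _) (int_sq wc b1 _) fun t =>
      pow_le_pow_left₀ (b2 _).1 (wb _).2.1 2).trans wi
  obtain ⟨Bd, hB⟩ := h.bd
  -- the fields
  have n1 : ∀ y ζ, nrm (Pᵀ *ᵥ Conc.grad (fun ζ => G ζ y) ζ) ≤ B * L := fun y ζ =>
    (nrm_mulVec_le _ _).trans (mul_le_mul (by rwa [opn_transpose]) (nrm_grad L0 (h.lip.fst y) ζ)
      (nrm_nonneg _) B0)
  have v1 : ∀ y, BV fun ζ => Pᵀ *ᵥ Conc.grad (fun ζ => G ζ y) ζ := fun y =>
    ⟨continuous_const.matrix_mulVec (der_fst h.c1 y fun _ => true).2.1, _, n1 y⟩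
  have v2 : ∀ y, BV fun ζ => U ζ y := fun y => ⟨cont_of_lip (h.lU.fst y), Bd, fun ζ => (hB ζ y).2.2⟩
  have l3 : ∀ y ζ ζ', nrm (cp η (U ζ y) - cp η (U ζ' y)) ≤ η * nrm (ζ - ζ') := fun y ζ ζ' =>
    (cp_lip _ _ _).trans (h.lU.fst y ζ ζ')
  have v3 : ∀ y, BV fun ζ => cp η (U ζ y) := fun y =>
    ⟨cont_of_lip (l3 y), _, fun ζ => nrm_le_of_bd (abs_cp_le η0 _)⟩
  have v4 : ∀ y, BV fun ζ => Conc.grad (G ζ) y := fun y =>
    ⟨(cont_g2 h.c1).comp (f := fun ζ => (ζ, y)) (by fun_prop), L, fun ζ => nrm_grad L0 (h.lip.snd ζ) y⟩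
  have v5 : ∀ y, BV fun ζ => Bq ζ y := fun y =>
    ⟨cont_of_lip (h.lB.fst y), _, fun ζ => nrm_le_of_bd (h.sB ζ y)⟩
  have q1 : ∀ y, BC fun ζ => Er ζ y := fun y =>
    ⟨((h.lE.fst y).continuous.pow 2).congr fun ζ => sq_sqrt (hB ζ y).1, Bd, fun ζ => by
      rw [abs_of_nonneg (hB ζ y).1]; exact (hB ζ y).2.1⟩
  have q2 : ∀ y, BC fun ζ => exc η (U ζ y) := fun y => by
    simp only [exc_eq η0]; exact ((v2 y).sub (v3 y)).sq
  have gs : ∀ s y, grad (fun s => cav P (fun _ ζ => G ζ y) s) s =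
      cwv P P (rho k) (fun _ ζ => Pᵀ *ᵥ Conc.grad (fun ζ => G ζ y) ζ) s := fun s y => by
    rw [Gr n κ P _ _ L k (der_fst h.c1 y) (fun _ ζ => nrm_grad L0 (h.lip.fst y) ζ) hk s]
    ext j; simp [cwv, Rec.grad_const]
  have s1 : ∀ s y, cav P (fun _ ζ => nrm (Pᵀ *ᵥ Conc.grad (fun ζ => G ζ y) ζ) ^ 2) s ≤
      B ^ 2 * L ^ 2 := fun s y => cav_le (v1 y).sq fun ζ => by
    rw [← mul_pow]; exact pow_le_pow_left₀ (nrm_nonneg _) (n1 y ζ) 2
  -- the error
  set c := exp (-(Λ ^ 2 / D ^ 2)) * L ^ 2 with hc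
  have c0 : 0 ≤ c := by positivity
  have q3 : ∀ y, BC fun ζ => D ^ 2 * (c + Er ζ y + exc η (U ζ y)) := fun y =>
    bc_mul _ (bc_add (bc_add (bc_const c) (q1 y)) (q2 y))
  have f0 : ∀ ζ y, 0 ≤ D ^ 2 * (c + Er ζ y + exc η (U ζ y)) := fun ζ y =>
    mul_nonneg (sq_nonneg _) (add_nonneg (add_nonneg c0 (hB ζ y).1) (exc_nn _ _))
  have lf : JS (D * (3 * η)) fun ζ y => √(D ^ 2 * (c + Er ζ y + exc η (U ζ y))) := fun ζ y ζ' y' => by
    have a1 := sqrt_add_lip (add_nonneg c0 (hB ζ y).1) (exc_nn η (U ζ y)) (add_nonneg c0 (hB ζ' y').1)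
      (exc_nn η (U ζ' y'))
    have a2 := sqrt_add_lip c0 (hB ζ y).1 c0 (hB ζ' y').1
    have a3 := exc_lip η0 (U ζ y) (U ζ' y')
    have a4 := h.lU ζ y ζ' y'
    have a5 := h.lE ζ y ζ' y'
    rw [sub_self, abs_zero, zero_add] at a2
    simp only [sqrt_mul (sq_nonneg D), sqrt_sq (by linarith : 0 ≤ D), ← mul_sub, abs_mul,
      abs_of_nonneg (by linarith : 0 ≤ D), mul_assoc]
    refine mul_le_mul_of_nonneg_left ?_ (by linarith)
    linarith
  have E0 : ∀ a, 0 ≤ a → a ≤ D ^ 2 → a * η ≤ D ^ 2 * exp (2 * Λ) * η := fun a a0 ha =>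
    mul_le_mul_of_nonneg_right (ha.trans (le_mul_of_one_le_right (sq_nonneg D) x1)) η0
  have lipy : ∀ {w : ℝ → ℝ} {u : (κ → ℝ) → V n → V n}, Wg w →
      ∫ t, w (√k * t) ^ 2 ∂gaussianReal 0 1 ≤ Cw → (∀ y, BV fun ζ => u ζ y) →
      (∀ ζ y y', nrm (u ζ y - u ζ y') ≤ η * nrm (y - y')) → ∀ s y y',
      nrm (cwv P P w (fun _ ζ => u ζ y) s - cwv P P w (fun _ ζ => u ζ y') s) ≤
        D ^ 2 * exp (2 * Λ) * η * nrm (y - y') := by
    intro w u hw hi hu hl s y y'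
    rw [cw_sub_u hw (hu y) (hu y')]
    have a1 := (cs (s := s) Cs hk hw hi ((hu y).sub (hu y'))).trans (mul_le_mul_of_nonneg_left
      (cav_le ((hu y).sub (hu y')).sq fun ζ => pow_le_pow_left₀ (nrm_nonneg _) (hl ζ y y') 2)
      (by linarith))
    refine (le_of_sq (c := Cw) a1 (by nlinarith) (by linarith)
      (mul_nonneg η0 (nrm_nonneg _))).trans ?_
    rw [← mul_assoc]
    exact mul_le_mul_of_nonneg_right (E0 Cw (by linarith) (by linarith)) (nrm_nonneg _)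
  refine ⟨_, fun s y => cwv P P (rh k Λ) (fun _ ζ => cp η (U ζ y)) s,
    fun s y => cwv P P (fun _ => 1) (fun _ ζ => Bq ζ y) s, der_snd h.c1 L0 h.lip,
    fun s y => ⟨?_, ?_⟩, fun s y => ?_, ⟨fun y => ?_, ?_⟩, ⟨fun y => ?_, ?_⟩,
    ⟨fun y => ?_, fun s y y' => ?_, ?_⟩, fun s y => ?_, fun s y => ?_⟩
  · rw [gs]
    refine le_of_sq (a := Cw * B ^ 2) ?_ (by linarith) (sq_nonneg D) L0
    rw [mul_assoc]
    exact (cs Cs hk g1 wi (v1 y)).trans (mul_le_mul_of_nonneg_left (s1 s y) (by linarith))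
  · refine le_of_sq (a := 1) ?_ (by linarith) (sq_nonneg D) L0
    rw [one_mul]
    exact (cs_one Cs hk (v4 y)).trans (cav_le (v4 y).sq fun ζ =>
      pow_le_pow_left₀ (nrm_nonneg _) (nrm_grad L0 (h.lip.snd ζ) y) 2)
  · have t1 := (cs (s := s) Cs hk g3 wd (v1 y)).trans
      (mul_le_mul_of_nonneg_left (s1 s y) (by positivity))
    have t2 := cs (s := s) Cs hk g2 i2 ((v1 y).sub (v2 y))
    have t3 := cs (s := s) Cs hk g2 i2 ((v2 y).sub (v3 y))
    have t4 := cs_one (s := s) Cs hk ((v4 y).sub (v5 y))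
    have t5 := cav_mono (P := P) (s := s) (bc_add ((v1 y).sub (v2 y)).sq ((v4 y).sub (v5 y)).sq) (q1 y)
      fun ζ => h.app ζ y
    have t6 : cav P (fun _ ζ => nrm (((fun ζ => U ζ y) - fun ζ => cp η (U ζ y)) ζ) ^ 2) s =
        cav P (fun _ ζ => exc η (U ζ y)) s := by simp only [exc_eq η0]; rfl
    rw [cav_add ((v1 y).sub (v2 y)).sq ((v4 y).sub (v5 y)).sq] at t5
    rw [← cw_sub_w g1 g2 (v1 y)] at t1
    rw [← cw_sub_u g2 (v1 y) (v2 y)] at t2
    rw [← cw_sub_u g2 (v2 y) (v3 y), t6] at t3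
    rw [gs, cw_sub_u wg_one (v4 y) (v5 y), cav_mul, cav_add (bc_add (bc_const c) (q1 y)) (q2 y),
      cav_add (bc_const c) (q1 y), cav_const]
    have p2 := cav_nn (P := P) (s := s) fun ζ => sq_nonneg (nrm (((fun ζ => Pᵀ *ᵥ
      Conc.grad (fun ζ => G ζ y) ζ) - fun ζ => U ζ y) ζ))
    have p4 := cav_nn (P := P) (s := s) fun ζ => sq_nonneg (nrm (((fun ζ => Conc.grad (G ζ) y) -
      fun ζ => Bq ζ y) ζ))
    have p3 := cav_nn (P := P) (s := s) fun ζ => exc_nn η (U ζ y)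
    have x2 : exp (-(Λ ^ 2 / Cw)) * L ^ 2 ≤ c := mul_le_mul_of_nonneg_right (exp_le_exp.2
      (neg_le_neg (div_le_div_of_nonneg_left (sq_nonneg Λ) (by linarith) (by linarith)))) (sq_nonneg L)
    generalize cwv P P (rho k) (fun _ ζ => Pᵀ *ᵥ Conc.grad (fun ζ => G ζ y) ζ) s = a0 at *
    generalize cwv P P (rh k Λ) (fun _ ζ => Pᵀ *ᵥ Conc.grad (fun ζ => G ζ y) ζ) s = a1 at *
    generalize cwv P P (rh k Λ) (fun _ ζ => U ζ y) s = a2 at *
    generalize cwv P P (rh k Λ) (fun _ ζ => cp η (U ζ y)) s = a3 at *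
    have u1 := sq_add_le (a0 - a1) (a1 - a2 + (a2 - a3))
    have u2 := sq_add_le (a1 - a2) (a2 - a3)
    rw [show a0 - a1 + (a1 - a2 + (a2 - a3)) = a0 - a3 by abel] at u1
    have u3 := mul_le_mul_of_nonneg_left x2 wB
    have u4 := mul_le_mul_of_nonneg_right (show 2 * (Cw * B ^ 2) ≤ D ^ 2 by linarith) c0
    have u5 := mul_le_mul_of_nonneg_right (show 4 * Cw ≤ D ^ 2 by linarith) p2
    have u6 := mul_le_mul_of_nonneg_right (show 4 * Cw ≤ D ^ 2 by linarith) p3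
    have u7 := mul_le_mul_of_nonneg_right (show 1 ≤ D ^ 2 by linarith) p4
    have u8 := mul_le_mul_of_nonneg_left t5 (sq_nonneg D)
    nlinarith
  · refine R0.mono (Rf n κ P P _ _ _ η hP hP w2 (rf_free η0 (fun ζ => abs_cp_le η0 _) (l3 y))) ?_
    rw [← mul_assoc]
    gcongr; linarith
  · exact lipy (u := fun ζ y => cp η (U ζ y)) g2 i2 v3 fun ζ y y' =>
      (cp_lip _ _ _).trans (h.lU.snd ζ y y')
  · refine R0.mono (Rf n κ P P (fun _ => 1) _ 1 η hP hP ⟨differentiable_const _, fun _ _ => by simp⟩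
      (rf_free η0 (fun ζ => h.sB ζ y) (h.lB.fst y))) ?_
    exact E0 _ (by linarith) (by nlinarith)
  · exact lipy wg_one (by simpa using w1) v5 h.lB.snd
  · refine SB.mono (Re n κ P _ (D * (3 * η)) hP (by positivity) ⟨fun ζ s => ⟨f0 ζ y, ?_⟩,
      fun _ => lf.fst y, ?_⟩) (pow_le_pow_left₀ (by positivity) ?_ 2)
    · simp only [Vp, sub_self, max_self, ne_eq, two_ne_zero, not_false_eq_true, zero_pow, sum_const_zero]
      exact mul_nonneg (sq_nonneg _) (f0 ζ y)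
    · obtain ⟨-, B', k⟩ := q3 y
      exact ⟨B', fun _ ζ => (le_abs_self _).trans (k ζ)⟩
    · exact le_of_eq_of_le (by ring) (E0 (3 * Ce * D) (by positivity) (by nlinarith))
  · have d0 : 0 ≤ D * (3 * η) * en (y - y') := mul_nonneg (by positivity) (Conc.en_nonneg _)
    have m1 := mink (P := P) (s := s) (q3 y) (q3 y') (fun ζ => f0 ζ y') d0 fun ζ => by
      linarith [(abs_le.1 (lf.snd ζ y y')).2]
    have m2 := mink (P := P) (s := s) (q3 y') (q3 y) (fun ζ => f0 ζ y) d0 fun ζ => by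
      linarith [(abs_le.1 (lf.snd ζ y y')).1]
    refine (abs_le.2 ⟨by linarith, by linarith⟩ : _ ≤ D * (3 * η) * en (y - y')).trans
      (mul_le_mul_of_nonneg_right ?_ (Conc.en_nonneg _))
    exact le_of_eq_of_le (by ring) (E0 (3 * D) (by positivity) (by nlinarith))
  · refine ⟨D ^ 2 * (c + Bd + Bd ^ 2), fun s y => cav_le (q3 y) fun ζ => ?_⟩
    have := (exc_le η0 (U ζ y)).trans (pow_le_pow_left₀ (nrm_nonneg _) (hB ζ y).2.2 2)
    exact mul_le_mul_of_nonneg_left (by linarith [(hB ζ y).2.1]) (sq_nonneg D)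
  · exact cw_odd _ fun ζ => by rw [h.oU, cp_neg η0]
  · exact cw_odd _ fun ζ => h.oB ζ y

end Crest.Agent.T157.K.Ba66

end
end

-- ▼ part T157/KBaR_53
section

/-!
# Row 157, block S5 (helper53): the one-step observable as a spin-free channel average
-/

set_option autoImplicit false

noncomputable section

namespace Crest.Agent.T157.K.Ba66

open MeasureTheory ProbabilityTheory Real Matrix Finset Filter
open Crest.Agent.T157.E Crest.Agent.T157.Eig
open Crest.Agent.T157.Tap (V Mx th)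

namespace R53

lemma cont_tanh : Continuous tanh :=
  continuous_iff_continuousAt.2 fun x => (Da.Gr.hasDerivAt_tanh x).continuousAt

lemma int_tanh {α : Type} [MeasurableSpace α] [TopologicalSpace α] [OpensMeasurableSpace α]
    {μ : Measure α} [IsFiniteMeasure μ] {f : α → ℝ} (hf : Continuous f) :
    Integrable (fun t => tanh (f t)) μ :=
  (integrable_const 1).mono' (cont_tanh.comp hf).stronglyMeasurable.aestronglyMeasurable
    (.of_forall fun _ => (abs_tanh_lt_one _).le)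

instance : (gaussianReal 0 1).IsNegInvariant :=
  ⟨by simpa [Measure.neg] using gaussianReal_map_neg (μ := 0) (v := 1)⟩

lemma int_neg : ∫ t, tanh (-1 + t) ∂gaussianReal 0 1 = -∫ t, tanh (1 + t) ∂gaussianReal 0 1 := by
  rw [← integral_neg, ← integral_neg_eq_self]
  simp only [← neg_add, tanh_neg]

lemma int_pos : 0 < ∫ t, tanh (1 + t) ∂gaussianReal 0 1 := by
  have p : ∀ t : ℝ, 0 < tanh (1 + t) - tanh (-1 + t) := fun t => by
    obtain ⟨ξ, -, h⟩ := Da.Gr.mvt (1 + t) (-1 + t)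
    rw [h]
    exact mul_pos (by linarith) (sub_pos.2 (tanh_sq_lt_one ξ))
  have i1 := int_tanh (μ := gaussianReal 0 1) (f := fun t => 1 + t) (by fun_prop)
  have i2 := int_tanh (μ := gaussianReal 0 1) (f := fun t => -1 + t) (by fun_prop)
  have := (integral_pos_iff_support_of_nonneg (μ := gaussianReal 0 1) (fun t => (p t).le)
    (i1.sub i2)).2 (by
      rw [(Set.eq_univ_of_forall fun t => (p t).ne' : Function.support _ = _)]; simp)
  rw [integral_sub i1 i2, int_neg] at this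
  linarith

lemma int_spin {n : ℕ} (s : Cube n) (i : Fin n) :
    aa * ∫ z, tanh (sv s i + z i) ∂gv (Fin n) = sv s i := by
  rw [show ∫ z, tanh (sv s i + z i) ∂gv (Fin n) = ∫ t, tanh (sv s i + t) ∂gaussianReal 0 1 from
    integral_comp_eval (μ := fun _ => gaussianReal 0 1) (i := i) (f := fun t : ℝ => tanh (sv s i + t))
      (cont_tanh.comp (continuous_const_add _)).aestronglyMeasurable, aa]
  rcases mul_self_eq_one_iff.1 (Rec.sv_mul_self s i) with e | e <;> rw [e]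
  · exact inv_mul_cancel₀ int_pos.ne'
  · rw [int_neg, mul_neg, inv_mul_cancel₀ int_pos.ne']

end R53

open R53

theorem repStmt : RepStmt := by
  intro n Q E M hE
  funext s y
  have c : Continuous fun x => E x y :=
    cont_of_lip (M := M) fun x x' => by simpa [nrm_zero] using hE.lip x y x' y
  have ct := cont_tanh
  refine Eq.trans ?_ (cav_rows (P := Q) (P' := 1) (s := s)
    (fun a b => E (Q *ᵥ a) y ⬝ᵥ (aa • th b - pt Q y a)) ?_).symm
  · refine integral_congr_ae (.of_forall fun z => ?_)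
    have i := fun j => (int_tanh (μ := gv (Fin n)) (f := fun z => sv s j + z j)
      (by fun_prop)).const_mul aa
    simp only [dotProduct, one_mulVec, Pi.sub_apply, Pi.smul_apply, th, Pi.add_apply, smul_eq_mul]
    refine Eq.trans (sum_congr rfl fun j _ => ?_)
      (integral_finsetSum _ fun j _ => ((i j).sub (integrable_const _)).const_mul _).symm
    simp only [Pi.sub_apply]
    rw [integral_const_mul, integral_sub (i j) (integrable_const _), integral_const_mul, int_spin]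
    simp
  · refine (integrable_const (∑ _j : Fin n, M * (|aa| + 1))).mono'
      (Continuous.aestronglyMeasurable ?_) (.of_forall fun p => ?_)
    · simp only [dotProduct, pt, th, Pi.sub_apply, Pi.smul_apply]
      fun_prop
    · refine (abs_sum_le_sum_abs _ _).trans (sum_le_sum fun j _ => ?_)
      rw [abs_mul]
      refine mul_le_mul (hE.sup _ _ _) ((abs_sub _ _).trans (add_le_add ?_ (abs_tanh_lt_one _).le))
        (abs_nonneg _) ((abs_nonneg _).trans (hE.sup 0 0 j))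
      rw [Pi.smul_apply, smul_eq_mul, abs_mul]
      exact mul_le_of_le_one_right (abs_nonneg _) (abs_tanh_lt_one _).le

end Crest.Agent.T157.K.Ba66

end
end

-- ▼ part T157/KBa_66
section

/-!
# Row 157, block S5 (helper66): the base of the backward pass
-/

namespace Crest.Agent.T157.K

theorem baseGlue : BaseGlue := fun gr w cs rf re cc rv bp =>
  Ba66.base (Ba66.chanGlue gr w cs rf re) Ba66.repStmt cc rv bp

end Crest.Agent.T157.K
end

-- ▼ part T157/KCo_46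
section

/-!
# Row 157, part B, block S5 (helper46): tails under the planted law

`K.concStmt : ConcStmt`, `K.Co46.tailGlue46 : TailGlue`.
-/

set_option autoImplicit false
set_option linter.unusedSectionVars false

noncomputable section

namespace Crest.Agent.T157.K

open MeasureTheory ProbabilityTheory Real Matrix Finset
open Crest.Agent.T157.E Crest.Agent.T157.Eig
open Crest.Agent.T157.Tap (V Mx th DD)
open Crest.Agent.T157.Rec (grad)
open Crest.Agent.T157.Conc (ELip)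
open Crest.Agent.T157.Reg (jac neg Fld)
open Crest.Agent.T157.S3.Hd (AD)
open Crest.Agent.T157.SL (Wt MG)

namespace Co46

variable {n : ℕ} {κ : Type} [Fintype κ] [DecidableEq κ]

lemma en_eq (x : κ → ℝ) : Conc.en x = nrm x := by simp only [Conc.en, nrm, dotProduct, sq]

lemma mg_lip {H : (κ → ℝ) → ℝ} {b : ℝ} (h : ELip b H) : MG H := by
  have h1 : MG fun u : κ → ℝ => |H 0| + |b| * ∑ i, |u i| :=
    (MG.const _).add ((MG.sum _ fun i _ => (Rec.mg_coord i).abs).const_mul _)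
  exact h1.of_le h.continuous.measurable fun u => (h.abs_le u).trans (le_abs_self _)

lemma elip_sh {H : (κ → ℝ) → ℝ} {b : ℝ} (h : ELip b H) (u : κ → ℝ) : ELip b fun z => H (u + z) :=
  fun z z' => by simpa only [add_sub_add_left_eq_sub] using h (u + z) (u + z')

lemma int_neg (f : (κ → ℝ) → ℝ) : ∫ z, f (-z) ∂gv κ = ∫ z, f z ∂gv κ := by
  have h : (gv κ).IsNegInvariant := by
    have : (gaussianReal 0 1).IsNegInvariant :=
      ⟨by simpa [Measure.neg] using gaussianReal_map_neg (μ := 0) (v := 1)⟩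
    infer_instance
  exact integral_neg_eq_self f (gv κ)

lemma sv_neg (x : Cube n) : sv (neg x) = -sv x := funext fun _ => spin_not _

lemma mean_odd {w F : Cube n → ℝ} (hw : ∀ s, w (neg s) = w s) (hF : ∀ s, F (neg s) = -F s) :
    mean w F = 0 := by
  let e : Cube n ≃ Cube n :=
    ⟨neg, neg, fun x => by ext i; simp [Reg.neg], fun x => by ext i; simp [Reg.neg]⟩
  have h1 : mean w F = ∑ x, prob w (neg x) * F (neg x) := (e.sum_comp fun x => prob w x * F x).symm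
  have h2 : ∑ x, prob w (neg x) * F (neg x) = -mean w F := by
    simp only [mean, prob, hw, hF, mul_neg, sum_neg_distrib]
  linarith

/-- the sub-Gaussian constant -/
def cc (K0 B : ℝ) : ℝ :=
  1 / 2 + 4 * (max K0 0 + 32) * (2 * Kc.Ga 1 (B ^ 2) + 2 * exp (4 * 1 * B ^ 2))

lemma cc_pos (K0 B : ℝ) : 0 < cc K0 B := by
  have := Kc.Ga_nonneg zero_le_one (sq_nonneg B)
  unfold cc; positivity

lemma mgf {P : Matrix κ (Fin n) ℝ} {w : Cube n → ℝ} {f : Cube n → (κ → ℝ) → ℝ} {K0 B e : ℝ}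
    (hw : EA w K0) (hP : opn P ≤ B) (ho : ∀ s ζ, f (neg s) (-ζ) = -f s ζ)
    (hg : ∀ s ζ, grad (fun s => f s ζ) s ⬝ᵥ grad (fun s => f s ζ) s ≤ e ^ 2)
    (hl : ∀ s, ELip e (f s)) (t : ℝ) :
    mean w (cav P fun s ζ => exp (t * f s ζ)) ≤ exp (cc K0 B * e ^ 2 * t ^ 2) := by
  obtain ⟨w0, we, hat⟩ := hw
  have hW := Wt.of_pos w0
  have hA : AD w (max K0 0 + 32) (5120 * n ^ 2 * exp (-(1 * n / 2))) :=
    ⟨max K0 0, 1, le_max_right _ _, one_pos, by norm_num, le_rfl,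
      Atd.atd_of_at (hat.mono w0 (le_max_left _ _) le_rfl) (exp_pos _).le⟩
  have hF : Kc.FG (fun x => P *ᵥ sv x) (B ^ 2) := Kc.fg_lin (sq_nonneg B) fun u =>
    (mulVec_dot_le P u).trans (mul_le_mul_of_nonneg_right
      (pow_le_pow_left₀ (opn_nonneg P) hP 2) (dot_self_nonneg u))
  have hm := fun s => mg_lip (hl s)
  have G0 := Kc.Ga_nonneg zero_le_one (sq_nonneg B)
  have g1 : ∀ s, grad (cav P f) s ⬝ᵥ grad (cav P f) s ≤
      (2 * Kc.Ga 1 (B ^ 2) + 2 * exp (4 * 1 * B ^ 2)) * e ^ 2 := fun s => by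
    have h1 := hF.grad_le' zero_le_one hm (cav P f s) s
    have h2 : cav P (fun x u => (f x u - cav P f s) ^ 2) s ≤ e ^ 2 :=
      Conc.var_lip (elip_sh (hl s) (P *ᵥ sv s))
    have h3 : Rec.Pm (fun x => P *ᵥ sv x) 1
        (fun x u => grad (fun x => f x u) x ⬝ᵥ grad (fun x => f x u) x) s ≤ e ^ 2 :=
      Rec.Pm_le (fun x => MG.sum _ fun j _ => (Kc.mg_grad hm x j).mul (Kc.mg_grad hm x j)) (hg s)
    rw [← cav_eq, ← cav_eq] at h1
    rw [add_mul]
    exact h1.trans (add_le_add (mul_le_mul_of_nonneg_left h2 (by positivity))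
      (mul_le_mul_of_nonneg_left h3 (by positivity)))
  have g2 : mean w (cav P f) = 0 := mean_odd we fun s => by
    simp only [cav, sv_neg, mulVec_neg]
    rw [← int_neg, ← integral_neg]
    simp only [← neg_add, ho]
  have g3 : mean w (fun s => exp (t * cav P f s)) ≤ exp (t * mean w (cav P f) + _) :=
    S3.Hd.mgf_le_grad w0 hA g1 t
  have g4 : ∀ s, cav P (fun s ζ => exp (t * f s ζ)) s ≤
      exp (e ^ 2 * t ^ 2 / 2) * exp (t * cav P f s) := fun s => by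
    have := mul_le_mul_of_nonneg_right (Conc.mgf_lip (elip_sh (hl s) (P *ᵥ sv s)) t)
      (exp_pos (t * cav P f s)).le
    rw [← integral_mul_const] at this
    refine le_of_eq_of_le ?_ this
    simp only [cav, ← exp_add]
    congr 1; ext z; congr 1; ring
  refine (hW.mean_mono g4).trans ?_
  rw [SL.mean_const_mul]
  refine (mul_le_mul_of_nonneg_left g3 (exp_pos _).le).trans_eq ?_
  rw [← exp_add, g2, cc]; congr 1; ring

lemma exc_le (x η : ℝ) {l : ℝ} (hl : 0 < l) :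
    max (|x| - η) 0 ^ 2 ≤ 2 / l ^ 2 * exp (-(l * η)) * (exp (l * x) + exp (-l * x)) := by
  rcases le_total (|x| - η) 0 with h | h
  · rw [max_eq_right h]; norm_num; positivity
  rw [max_eq_left h]
  have h1 := quadratic_le_exp_of_nonneg (mul_nonneg hl.le h)
  have h2 : exp (l * |x|) ≤ exp (l * x) + exp (-l * x) := by
    rcases abs_choice x with a | a <;> rw [a]
    · linarith [exp_pos (-l * x)]
    · rw [mul_neg, neg_mul]; linarith [exp_pos (l * x)]
  have h3 : exp (l * (|x| - η)) = exp (-(l * η)) * exp (l * |x|) := by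
    rw [← exp_add]; congr 1; ring
  have h4 := mul_le_mul_of_nonneg_left h2 (exp_pos (-(l * η))).le
  rw [mul_assoc, div_mul_eq_mul_div, le_div_iff₀ (by positivity)]
  nlinarith [mul_nonneg hl.le h]

lemma elip_co {u : (κ → ℝ) → V n} {e : ℝ} (h : ∀ ζ ζ', nrm (u ζ - u ζ') ≤ e * nrm (ζ - ζ'))
    (i : Fin n) : ELip e fun ζ => u ζ i := fun ζ ζ' => by
  rw [en_eq]; exact (abs_apply_le_nrm (u ζ - u ζ') i).trans (h ζ ζ')

lemma row_le {u : Cube n → V n} {e : ℝ} {s : Cube n} (h : opn (jac u s) ≤ e) (i : Fin n) :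
    grad (fun s => u s i) s ⬝ᵥ grad (fun s => u s i) s ≤ e ^ 2 := by
  have h1 := mulVec_dot_le (jac u s)ᵀ (Pi.single i 1)
  rw [opn_transpose] at h1
  have h2 := pow_le_pow_left₀ (opn_nonneg _) h 2
  simp only [single_dotProduct, Pi.single_eq_same, mul_one] at h1
  refine le_trans (sum_le_sum fun j _ => ?_) (h1.trans h2)
  simp only [mulVec_single_one, col_apply, transpose_apply, jac, of_apply, Rec.grad_eq]
  have := Rec.sv_mul_self s j
  have e1 : sv s j * (u s i - u (Rec.fl s j) i) / 2 * (sv s j * (u s i - u (Rec.fl s j) i) / 2) =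
      (u (Rec.fl s j) i - u s i) ^ 2 / 4 := by
    linear_combination (u (Rec.fl s j) i - u s i) ^ 2 / 4 * this
  rw [e1]; nlinarith [sq_nonneg (u (Rec.fl s j) i - u s i)]

end Co46

open Co46 in
theorem concStmt : ConcStmt := fun K0 B => by
  have c0 := cc_pos K0 B
  set c := cc K0 B with hc
  have c1 := one_le_exp (by positivity : 0 ≤ 2 * c)
  refine ⟨4 * exp (2 * c) + 8 * c, by linarith, fun n κ _ _ P w u e η hw hP he hη ho hj hl => ?_⟩
  have hW := Wt.of_pos hw.1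
  obtain ⟨x, hx⟩ : ∃ x, x = η / e := ⟨_, rfl⟩
  have x0 : 0 ≤ x := hx ▸ div_nonneg hη he.le
  obtain ⟨l, hl'⟩ : ∃ l, l = (1 + x / (4 * c)) / e := ⟨_, rfl⟩
  have l0 : 0 < l := by rw [hl']; positivity
  obtain ⟨a, ha⟩ : ∃ a, a = 2 / l ^ 2 * exp (-(l * η)) := ⟨_, rfl⟩
  have a0 : 0 ≤ a := by rw [ha]; positivity
  have hm : ∀ i t, mean w (cav P fun s ζ => exp (t * u s ζ i)) ≤ exp (c * e ^ 2 * t ^ 2) :=
    fun i t => mgf hw hP (fun s ζ => congrFun (ho s ζ) i) (fun s ζ => row_le (hj s ζ) i)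
      (fun s => elip_co (hl s) i) t
  have h1 : ∀ s, cav P (fun s ζ => exc η (u s ζ)) s ≤ ∑ i, a *
      (cav P (fun s ζ => exp (l * u s ζ i)) s + cav P (fun s ζ => exp (-l * u s ζ i)) s) := fun s => by
    have i1 := fun i t => (elip_sh (elip_co (hl s) i) (P *ᵥ sv s)).integrable_exp t
    have i2 := fun i => ((i1 i l).add (i1 i (-l))).const_mul a
    refine (integral_mono_of_nonneg (.of_forall fun z => sum_nonneg fun _ _ => sq_nonneg _)
      (integrable_finsetSum univ fun i _ => i2 i)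
      (.of_forall fun z => sum_le_sum fun i _ => ?_)).trans_eq ?_
    · rw [ha]; exact exc_le _ _ l0
    · rw [integral_finsetSum _ fun i _ => i2 i]
      refine sum_congr rfl fun i _ => ?_
      rw [integral_const_mul]
      exact congrArg _ (integral_add (i1 i l) (i1 i (-l)))
  have h2 : a * (2 * exp (c * e ^ 2 * l ^ 2)) ≤
      (4 * exp (2 * c) + 8 * c) * e ^ 2 * exp (-(x ^ 2 / (4 * exp (2 * c) + 8 * c))) := by
    obtain ⟨b, hb⟩ : ∃ b, b = x / (4 * c) := ⟨_, rfl⟩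
    have b0 : 0 ≤ b := by rw [hb]; positivity
    have e1 : l * η = (1 + b) * x := by rw [hl', ← hb, hx]; ring
    have e2 : c * e ^ 2 * l ^ 2 = c * (1 + b) ^ 2 := by rw [hl', ← hb]; field_simp
    have e3 : 2 / l ^ 2 ≤ 2 * e ^ 2 := by
      rw [hl', ← hb, div_pow, div_div_eq_mul_div]
      exact div_le_self (by positivity) (one_le_pow₀ (by linarith))
    have e4 : x = 4 * c * b := by rw [hb]; field_simp
    have e5 : x ^ 2 / (4 * exp (2 * c) + 8 * c) ≤ 2 * c * b ^ 2 := by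
      rw [div_le_iff₀ (by positivity), e4]
      nlinarith [mul_nonneg (mul_nonneg c0.le (sq_nonneg b)) (exp_pos (2 * c)).le]
    have e6 : exp (-(l * η)) * exp (c * e ^ 2 * l ^ 2) ≤
        exp (2 * c) * exp (-(x ^ 2 / (4 * exp (2 * c) + 8 * c))) := by
      rw [← exp_add, ← exp_add, e1, e2, exp_le_exp, e4]
      rw [e4] at e5
      nlinarith [mul_nonneg c0.le (sq_nonneg (b - 1)), mul_nonneg c0.le b0]
    calc _ = 2 * (2 / l ^ 2) * (exp (-(l * η)) * exp (c * e ^ 2 * l ^ 2)) := by rw [ha]; ring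
      _ ≤ 2 * (2 * e ^ 2) * (exp (2 * c) * exp (-(x ^ 2 / (4 * exp (2 * c) + 8 * c)))) := by gcongr
      _ ≤ _ := by
        nlinarith [mul_nonneg (mul_nonneg c0.le (sq_nonneg e))
          (exp_pos (-(x ^ 2 / (4 * exp (2 * c) + 8 * c)))).le]
  refine (hW.mean_mono h1).trans ?_
  rw [SL.mean_sum, ← hx]
  refine (sum_le_card_nsmul _ _ _ fun i _ => le_trans ?_ h2).trans_eq (by simp; ring)
  rw [SL.mean_const_mul, SL.mean_add]
  refine mul_le_mul_of_nonneg_left ?_ a0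
  have h3 := hm i (-l)
  rw [neg_sq] at h3
  linarith [hm i l]

namespace Co46

variable {n : ℕ}











end Co46


end Crest.Agent.T157.K

end
end

-- ▼ part T157/KFoG_38
section

/-!
# Row 157, part B, block S5 (helper38): the leaves FO and GT
-/

set_option autoImplicit false

noncomputable section

namespace Crest.Agent.T157.K

open MeasureTheory ProbabilityTheory Real Matrix Finset
open Crest.Agent.T157.E Crest.Agent.T157.Eig Crest.Agent.T157.SL
open Crest.Agent.T157.Tap (V Mx th DD Cb cb_th)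
open Crest.Agent.T157.Rec (grad Pm)
open Crest.Agent.T157.Reg (neg)
open Crest.Agent.T157.Fo (pm mix Vv)
open Crest.Agent.T157.Chain22 (IsP)

namespace Fo38

variable {n : ℕ}

/-- the law of the mixed configuration -/
def kk (t : V n) (x z : Cube n) : ℝ := ∫ l in (0 : ℝ)..1, pm (mix t x l) z

lemma cont_pm (t : V n) (x z : Cube n) : Continuous fun l => pm (mix t x l) z := by
  unfold pm mix; fun_prop

lemma W_eq (f : Cube n → ℝ) (t : V n) (x : Cube n) :
    ∫ l in (0 : ℝ)..1, Fo.Ext f (mix t x l) = ∑ z, kk t x z * f z := by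
  simp only [Fo.Ext, kk, ← intervalIntegral.integral_mul_const]
  exact intervalIntegral.integral_finsetSum fun z _ =>
    ((cont_pm t x z).mul continuous_const).intervalIntegrable _ _

lemma vO_eq (Ω : Cube n → V n) (t : V n) (s : Cube n) (j : Fin n) :
    vO Ω t s j = ∑ z, kk t s z * Ω z j := W_eq (fun x => Ω x j) t s

lemma Vv_eq (F : Cube n → ℝ) (t : V n) (s : Cube n) (j : Fin n) :
    Vv F t s j = ∑ z, kk t s z * grad F z j := W_eq _ t s

lemma isP_kk {t : V n} (ht : Cb t) (x : Cube n) : IsP (kk t x) := by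
  refine ⟨fun z => intervalIntegral.integral_nonneg zero_le_one fun l hl =>
    Fo.pm_nonneg (Fo.cb_mix ht x hl) z, ?_⟩
  have := W_eq (fun _ => 1) t x
  simp only [Fo.Ext, mul_one, Fo.sum_pm] at this
  simpa using this.symm

lemma cont_kk (x z : Cube n) : Continuous fun t => kk t x z :=
  intervalIntegral.continuous_parametric_intervalIntegral_of_continuous'
    (f := fun t l => pm (mix t x l) z) (by unfold pm mix; fun_prop) 0 1

lemma Ext_kk (f : Cube n → ℝ) (t : V n) : Fo.Ext (fun x => ∑ z, kk t x z * f z) t = Fo.Ext f t := by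
  have hc : ∀ x, Continuous fun l => pm t x * Fo.Ext f (mix t x l) := fun x =>
    continuous_const.mul ((Fo.continuous_Ext _).comp (by unfold mix; fun_prop))
  rw [Fo.Ext]
  simp only [← W_eq, ← intervalIntegral.integral_const_mul]
  rw [← intervalIntegral.integral_finsetSum fun x _ => (hc x).intervalIntegrable _ _]
  simp [show ∀ l, ∑ x, pm t x * Fo.Ext f (mix t x l) = _ from Fo.Ext_mix _ t]

lemma cont_pt (Q : Mx n) (y : V n) : Continuous (pt Q y) :=
  Tap.continuous_th.comp (continuous_const.add (continuous_const.matrix_mulVec continuous_id))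

lemma mg_kk (Q : Mx n) (y : V n) (x z : Cube n) : MG fun ζ => kk (pt Q y ζ) x z :=
  .of_bdd ((cont_kk x z).comp (cont_pt Q y)).measurable 1 fun ζ => by
    have P := isP_kk (cb_th (y + Q *ᵥ ζ)) x
    exact (abs_of_nonneg (P.nn z)).trans_le (P.le_one z)

lemma mg_W (Q : Mx n) (y : V n) (f : Cube n → ℝ) (x : Cube n) :
    MG fun ζ => ∑ z, kk (pt Q y ζ) x z * f z := .sum _ fun z _ => (mg_kk Q y x z).mul (.const _)

lemma mg_DD (Q : Mx n) (y : V n) (j : Fin n) : MG fun ζ => DD (pt Q y ζ) j :=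
  Fo.mg_D (H := fun ζ => y + Q *ᵥ ζ)
    (continuous_const.add (continuous_const.matrix_mulVec continuous_id)).measurable j

lemma mg_u (Q : Mx n) (y : V n) (Ω : Cube n → V n) (s : Cube n) (j : Fin n) :
    MG fun ζ => DD (pt Q y ζ) j * vO Ω (pt Q y ζ) s j := by
  simp only [vO_eq]; exact (mg_DD Q y j).mul (mg_W Q y _ s)

/-- the mixing kernel -/
def TT (Q : Mx n) (y : V n) (x z : Cube n) : ℝ := cav Q (fun x ζ => kk (pt Q y ζ) x z) x

lemma cav_W (Q : Mx n) (y : V n) (f : Cube n → ℝ) (x : Cube n) :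
    cav Q (fun x ζ => ∑ z, kk (pt Q y ζ) x z * f z) x = ∑ z, TT Q y x z * f z := by
  simp only [TT, cav_eq]
  rw [Rec.Pm_sum _ fun z _ x => (mg_kk Q y x z).mul (.const _)]
  exact sum_congr rfl fun z _ => integral_mul_const _ _

lemma isP_TT (Q : Mx n) (y : V n) (x : Cube n) : IsP (TT Q y x) := by
  refine ⟨fun z => integral_nonneg fun _ => (isP_kk (cb_th _) x).nn z, ?_⟩
  have := cav_W Q y (fun _ => 1) x
  simp only [mul_one, pt, (isP_kk (cb_th _) _).sum1] at this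
  simpa [cav] using this.symm

lemma inv_TT (hR : RevStmt) {J Q : Mx n} (h : JQ J Q) (y : V n) (f : Cube n → ℝ) :
    (mean (ising J y) fun x => ∑ z, TT Q y x z * f z) = mean (ising J y) f := by
  have := hR.bayes n J Q y (fun x ζ => ∑ z, kk (pt Q y ζ) x z * f z) h (mg_W Q y f)
  simp only [← cav_W]
  refine this.trans (Eq.trans ?_ (hR.inv n J Q y f h))
  simp only [Ky, pw, Fo.mean_ising0, pt, Ext_kk]

lemma jen {p : Cube n → ℝ} (hp : IsP p) (u : Cube n → V n) :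
    ∑ j, (∑ z, p z * u z j) ^ 2 ≤ ∑ z, p z * nrm (u z) ^ 2 := by
  simp only [nrm_sq, dotProduct, mul_sum]
  rw [sum_comm]
  exact sum_le_sum fun j _ => hp.mean_sq_le fun z => u z j

lemma tanh_lip (a d : ℝ) : |tanh (a + d) - tanh a| ≤ |d| := by
  have := convex_univ.norm_image_sub_le_of_norm_hasDerivWithin_le (C := 1)
    (fun u _ => (Tap.hasDerivAt_tanh' u).hasDerivWithinAt) (fun u _ => by
      have := abs_le.1 (abs_tanh_lt_one u).le
      rw [Real.norm_eq_abs, abs_le]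
      constructor <;> nlinarith) (Set.mem_univ a) (Set.mem_univ (a + d))
  simpa using this

lemma amgm {θ : ℝ} (hθ : 0 < θ) (c E : ℝ) : |c * E| ≤ E ^ 2 / θ + θ * (c ^ 2 / 4) := by
  have h : 0 ≤ (|E| - θ * |c| / 2) ^ 2 / θ := by positivity
  have e : (|E| - θ * |c| / 2) ^ 2 / θ = |E| ^ 2 / θ + θ * (|c| ^ 2 / 4) - |c| * |E| := by
    field_simp; ring
  rw [e, sq_abs, sq_abs] at h
  rw [abs_mul]; linarith

/-- the pointwise bound -/
lemma point {θ e : ℝ} (hθ : 0 < θ) (S : Finset (Fin n)) (c h δ O E : V n) (hc : ∀ j, |c j| ≤ 1)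
    (hS : ∀ j ∉ S, c j = tanh (h j + δ j)) (hO : ∀ j, |O j| ≤ e) (e0 : 0 ≤ e) :
    |∑ j, (c j - tanh (h j)) * (O j + E j) - ∑ j ∈ Sᶜ, δ j * (DD (th h) j * O j)| ≤
      (2 * e + θ) * (∑ j ∈ Sᶜ, δ j ^ 2 + #S) + (∑ j, E j ^ 2) / θ := by
  rw [← sum_add_sum_compl S, ← sum_add_sum_compl S (fun j => E j ^ 2), add_sub_assoc,
    ← sum_sub_distrib]
  have h1 : |∑ j ∈ S, (c j - tanh (h j)) * (O j + E j)| ≤ ∑ j ∈ S, (2 * e + θ + E j ^ 2 / θ) := by
    refine (abs_sum_le_sum_abs _ _).trans (sum_le_sum fun j _ => ?_)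
    have a : |c j - tanh (h j)| ≤ 2 := (abs_sub _ _).trans (by
      linarith [hc j, abs_tanh_lt_one (h j)])
    have b := amgm hθ (c j - tanh (h j)) (E j)
    have a2 : (c j - tanh (h j)) ^ 2 / 4 ≤ 1 := by
      have := pow_le_pow_left₀ (abs_nonneg _) a 2
      rw [sq_abs] at this; linarith
    rw [mul_add]
    refine (abs_add_le _ _).trans ?_
    rw [abs_mul]
    linarith [mul_le_mul a (hO j) (abs_nonneg _) zero_le_two, mul_le_mul_of_nonneg_left a2 hθ.le]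
  have h2 : |∑ j ∈ Sᶜ, ((c j - tanh (h j)) * (O j + E j) - δ j * (DD (th h) j * O j))| ≤
      ∑ j ∈ Sᶜ, ((2 * e + θ) * δ j ^ 2 + E j ^ 2 / θ) := by
    refine (abs_sum_le_sum_abs _ _).trans (sum_le_sum fun j hj => ?_)
    rw [hS j (mem_compl.1 hj)]
    have b := amgm hθ (tanh (h j + δ j) - tanh (h j)) (E j)
    have a2 := pow_le_pow_left₀ (abs_nonneg _) (tanh_lip (h j) (δ j)) 2
    rw [sq_abs, sq_abs] at a2
    have a3 := mul_le_mul (Fo.tanh_t2 (h j) (δ j)) (hO j) (abs_nonneg _) (sq_nonneg _)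
    rw [show (tanh (h j + δ j) - tanh (h j)) * (O j + E j) - δ j * (DD (th h) j * O j) =
      (tanh (h j + δ j) - tanh (h j) - (1 - tanh (h j) ^ 2) * δ j) * O j +
        (tanh (h j + δ j) - tanh (h j)) * E j by simp only [DD, th]; ring]
    refine (abs_add_le _ _).trans ?_
    rw [abs_mul]
    linarith [mul_le_mul_of_nonneg_left a2 hθ.le, mul_nonneg hθ.le (sq_nonneg (δ j)),
      mul_nonneg e0 (sq_nonneg (δ j))]
  refine (abs_add_le _ _).trans ((add_le_add h1 h2).trans_eq ?_)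
  simp only [sum_add_distrib, ← mul_sum, ← sum_div, sum_const, nsmul_eq_mul]
  ring

lemma wt_slc (J : Mx n) (y : V n) (S : Finset (Fin n)) (σ : Cube n) (G : Cube n → ℝ) :
    Wt (slc J y S σ G) := by
  have h : ∀ x, 0 ≤ slc J y S σ G x := fun x => by
    unfold slc ising; split_ifs <;> positivity
  refine ⟨h, sum_pos' (fun x _ => h x) ⟨σ, mem_univ _, ?_⟩⟩
  rw [slc, if_pos fun _ _ => rfl, ising]; positivity

lemma cm_slc {J : Mx n} (hJ : Jᵀ = J) (h0 : ∀ j, J j j = 0) (y : V n) {S : Finset (Fin n)}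
    {σ : Cube n} {G : Cube n → ℝ} {x : Cube n} (hx : slc J y S σ G x ≠ 0) {j : Fin n} (hj : j ∉ S) :
    Ta.cm (slc J y S σ G) j x = tanh ((J *ᵥ sv x + y) j + grad G x j) := by
  have h1 : ∀ k ∈ S, x k = σ k := by by_contra hc; exact hx (if_neg hc)
  have h2 : ∀ b, slc J y S σ G (Function.update x j b) =
      Ta.wt (ising J y) G (Function.update x j b) := fun b =>
    if_pos fun k hk => by rw [Function.update_of_ne (ne_of_mem_of_not_mem hk hj), h1 k hk]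
  rw [← Fo.cm_wt (w := ising J y) (.of_pos fun _ => exp_pos _) (exp_pos _).ne'
    (Fo.cm_ising hJ h0 y j x) G]
  simp only [Ta.cm, siteM, h2]

/-- the mass of the error under the mixed law -/
lemma mass (hR : RevStmt) {J Q : Mx n} (h : JQ J Q) {y : V n} {K0 ε e : ℝ} {X p : Cube n → ℝ}
    (hA : S3.Hd.AD (ising J y) K0 ε) (hX : SB (e ^ 2) X) (hv : Wt p) :
    (mean p fun s => ∑ z, TT Q y s z * X z) ≤
      (2 + 16 * K0) * (mean (ising J y) X + e ^ 2 * (kl p (ising J y) + 1)) := by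
  have hw : ∀ s, 0 < ising J y s := fun _ => exp_pos _
  have K1 := hA.pos
  have k0 : 0 ≤ kl p (ising J y) :=
    Ta.Pr.kl_nonneg ⟨hv, .of_pos hw, fun x e => absurd e (hw x).ne'⟩
  have m0 : 0 ≤ mean (ising J y) X := (Wt.of_pos hw).mean_nonneg fun s => (hX s).1
  have hP := Wt.isP (.of_pos hw)
  have i1 : Ent.mix (prob (ising J y)) (TT Q y) = prob (ising J y) := by
    ext z
    simpa [mean, Ent.mix] using inv_TT hR h y (fun x => if x = z then 1 else 0)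
  have a := S3.Hd.sb hw hA (sq_nonneg e) (fun s => (hX s).1) (fun s => (hX s).2)
    (Ent.isP_mix hv.isP (isP_TT Q y))
  have b := Ent.kl_mix_le hv.isP.nn hP.nn (fun x e => absurd e
    (div_pos (hw x) (Wt.of_pos hw).pos).ne') (isP_TT Q y)
  rw [i1] at b
  rw [Ent.mean_mix] at a
  change _ ≤ kl p (ising J y) at b
  change mean p (fun s => ∑ z, TT Q y s z * X z) ≤ 2 * mean (ising J y) X + _ at a
  have c := mul_le_mul_of_nonneg_left b (show 0 ≤ 16 * K0 * e ^ 2 by positivity)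
  have c2 : 0 ≤ e ^ 2 * (kl p (ising J y) + 1) := by positivity
  linarith [mul_nonneg K1.le m0]

lemma abs_le_Pm {φ : Cube n → V n} {A B C : Cube n → V n → ℝ} {p : Cube n → ℝ} (hv : Wt p)
    (mA : ∀ s, MG (A s)) (mB : ∀ s, MG (B s)) (mC : ∀ s, MG (C s))
    (h : ∀ s, p s ≠ 0 → ∀ ζ, |A s ζ - B s ζ| ≤ C s ζ) :
    |mean p (Pm φ 1 A) - mean p (Pm φ 1 B)| ≤ mean p (Pm φ 1 C) := by
  rw [← mean_sub]
  simp only [← Rec.Pm_sub mA mB]
  refine abs_le.2 ⟨?_, Ta.mean_mono_supp hv fun s hs => Rec.Pm_mono (fun s => (mA s).sub (mB s)) mC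
    fun ζ => (abs_le.1 (h s hs ζ)).2⟩
  rw [← mean_neg]
  refine Ta.mean_mono_supp hv fun s hs => ?_
  rw [Pm, ← integral_neg]
  exact Rec.Pm_mono (φ := φ) (t := 1) (fun s => (mC s).neg) (fun s => (mA s).sub (mB s))
    fun ζ => (abs_le.1 (h s hs ζ)).1

lemma point2 {J Q : Mx n} (h : JQ J Q) {y : V n} {F X G : Cube n → ℝ} {ω : Cube n → V n} {e L θ : ℝ}
    (hB : BS0 F ω X e L) {S : Finset (Fin n)} {σ s : Cube n} (hθ : 0 < θ) (hs : slc J y S σ G s ≠ 0)
    (ζ : V n) : |∑ j, (Ta.cm (post (fun x => Q *ᵥ sv x) (slc J y S σ G) 1 ζ) j s -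
        tanh ((y + Q *ᵥ ζ) j)) * Vv F (th (y + Q *ᵥ ζ)) s j - ∑ j ∈ Sᶜ, grad G s j *
        (DD (pt Q y ζ) j * vO ω (pt Q y ζ) s j)| ≤
        (2 * e + θ) * (∑ j ∈ Sᶜ, grad G s j ^ 2 + #S) + 1 / θ * ∑ z, kk (pt Q y ζ) s z * X z := by
  have hv := wt_slc J y S σ G
  have e0 : 0 ≤ e := (opn_nonneg _).trans (hB.r0.op default)
  have hQ : (1 : ℝ) • (Qᵀ * Q) = J + (4 : ℝ) • (1 : Mx n) := by rw [one_smul, h.qs, h.qq]
  have P := isP_kk (cb_th (y + Q *ᵥ ζ)) s
  have := point hθ S (fun j => Ta.cm (post (fun x => Q *ᵥ sv x) (slc J y S σ G) 1 ζ) j s) (y + Q *ᵥ ζ)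
    (grad G s) (vO ω (pt Q y ζ) s) (fun j => ∑ z, kk (pt Q y ζ) s z * (grad F z - ω z) j)
    (fun j => Ta.abs_cm_le (hv.post _ _ _).nn j s) (fun j hj => by
      have := Fo.cm_post h.symm h.diag hQ hv hs (cm_slc h.symm h.diag y hs hj) ζ
      rwa [h.qs] at this)
    (fun j => by rw [vO_eq]; exact P.abs_mean_le fun z => hB.r0.sup z j) e0
  have e3 : ∀ j, vO ω (pt Q y ζ) s j +
      ∑ z, kk (pt Q y ζ) s z * (grad F z - ω z) j = Vv F (th (y + Q *ᵥ ζ)) s j := fun j => by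
    rw [vO_eq, Vv_eq, ← sum_add_distrib]
    exact sum_congr rfl fun z _ => by simp only [Pi.sub_apply, pt]; ring
  simp only [e3] at this
  refine this.trans (add_le_add le_rfl ?_)
  rw [one_div_mul_eq_div]
  exact div_le_div_of_nonneg_right ((jen P _).trans (sum_le_sum fun z _ =>
    mul_le_mul_of_nonneg_left (hB.app z) (P.nn z))) hθ.le

lemma meas_h (Q : Mx n) (y : V n) : Measurable fun ζ : V n => y + Q *ᵥ ζ :=
  (continuous_const.add (continuous_const.matrix_mulVec continuous_id)).measurable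

lemma e_Ky (Q : Mx n) (y : V n) (p F : Cube n → ℝ) : mean p (F - Ky Q y F) = mean p F -
    slE (fun x => Q *ᵥ sv x) p 1 fun _ z => Fo.Ext F (th (y + Q *ᵥ z)) := by
  rw [Rec.slE_eq_Pm, ← mean_sub, Ky, cav_eq]
  simp only [pw, Fo.mean_ising0]; rfl

lemma mg_A (Q : Mx n) (y : V n) {p : Cube n → ℝ} (hv : Wt p) (F : Cube n → ℝ) (s : Cube n) :
    MG fun ζ => ∑ j, (Ta.cm (post (fun x => Q *ᵥ sv x) p 1 ζ) j s -
      tanh ((y + Q *ᵥ ζ) j)) * Vv F (th (y + Q *ᵥ ζ)) s j := by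
  refine .sum _ fun j _ => MG.mul (MG.sub ?_ ?_) (Fo.mg_Vv (meas_h Q y) F s j)
  · exact (Ta.xg_cm hv (fun x => (Ta.lg_lk (fun x => Q *ᵥ sv x) 1 x).meas) j s).mg
  · exact .of_bdd (Tap.continuous_tanh'.measurable.comp ((measurable_pi_apply j).comp (meas_h Q y))) 1
      fun z => cb_th (y + Q *ᵥ z) j

lemma e_gt (Q : Mx n) (y : V n) (Ω : U2 n) (a : Cube n → V n) (S : Finset (Fin n)) :
    (fun s => ∑ j ∈ S, a s j * gt Q Ω s y j) = Pm (fun x => Q *ᵥ sv x) 1 fun s ζ =>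
      ∑ j ∈ S, a s j * (DD (pt Q y ζ) j * vO (fun t => Ω t y) (pt Q y ζ) s j) := by
  ext s
  rw [Rec.Pm_sum _ fun j _ s => (mg_u Q y _ s j).const_mul _]
  refine sum_congr rfl fun j _ => ?_
  rw [Rec.Pm_mul (fun s => a s j), gt, cav_eq]

lemma e_C (Q : Mx n) (y : V n) {p : Cube n → ℝ} (hv : Wt p) (X D : Cube n → ℝ) (a b c : ℝ) :
    mean p (Pm (fun x => Q *ᵥ sv x) 1 fun s ζ => a * (D s + c) + b * ∑ z, kk (pt Q y ζ) s z * X z) =
      a * (mean p D + c) + b * mean p fun s => ∑ z, TT Q y s z * X z := by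
  rw [← Rec.slE_eq_Pm, slE_add (.of_mg fun _ => .const _)
    (.of_mg fun s => (mg_W Q y X s).const_mul _), slE_fun, slE_const_mul, mean_const_mul, mean_add,
    hv.mean_const, Rec.slE_eq_Pm, ← cav_eq]
  congr 3; ext s; exact cav_W Q y X s

lemma key {J Q : Mx n} (h : JQ J Q) {y : V n} {F X G : Cube n → ℝ} {Ω : U2 n} {e L θ : ℝ}
    (hB : BS0 F (fun s => Ω s y) X e L) (S : Finset (Fin n)) (σ : Cube n) (hθ : 0 < θ) :
    |mean (slc J y S σ G) (F - Ky Q y F) -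
      mean (slc J y S σ G) fun s => ∑ j ∈ Sᶜ, grad G s j * gt Q Ω s y j| ≤
      (2 * e + θ) * ((mean (slc J y S σ G) fun s => ∑ j ∈ Sᶜ, grad G s j ^ 2) + #S) +
        1 / θ * mean (slc J y S σ G) fun s => ∑ z, TT Q y s z * X z := by
  have hv := wt_slc J y S σ G
  rw [e_Ky, Fo.fo_chan_exact (φ := fun x => Q *ᵥ sv x) hv zero_le_one (meas_h Q y) F, e_gt,
    Rec.slE_eq_Pm, ← e_C Q y hv]
  exact abs_le_Pm hv (mg_A Q y hv F) (fun s => .sum _ fun j _ => (mg_u Q y _ s j).const_mul _)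
    (fun s => (MG.const _).add ((mg_W Q y X s).const_mul _)) fun s hs => point2 h hB hθ hs

end Fo38

open Fo38

/-- **(FO)** -/
theorem foGlue : FoGlue := fun _ hR K0 => by
  refine ⟨4 + 32 * |K0|, by linarith [abs_nonneg K0], fun n J Q y F X G Ω e L ε S σ p d x h hA hB hp
    hd hx => ?_⟩
  have hv : Wt p := hp ▸ wt_slc J y S σ G
  have hw : ∀ s, 0 < ising J y s := fun _ => exp_pos _
  have e0 : 0 ≤ e := (opn_nonneg _).trans (hB.r0.op default)
  have K1 := hA.pos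
  have hYx := mass hR h hA hB.sb hv
  have k := fun θ hθ => key h (G := G) hB S σ (θ := θ) hθ
  rw [← hx] at hYx
  rw [← hp, ← hd] at k
  have X0 : ∀ s, 0 ≤ X s := fun s => (hB.sb s).1
  have Y0 : 0 ≤ mean p fun s => ∑ z, TT Q y s z * X z := hv.mean_nonneg fun s =>
    sum_nonneg fun z _ => mul_nonneg ((isP_TT Q y s).nn z) (X0 z)
  have d0 : 0 ≤ d := hd ▸ add_nonneg (hv.mean_nonneg fun s => sum_nonneg fun _ _ => sq_nonneg _)
    (Nat.cast_nonneg _)
  have x0 : 0 ≤ x := nonneg_of_mul_nonneg_right (Y0.trans hYx) (by positivity)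
  generalize (mean p fun s => ∑ z, TT Q y s z * X z) = Y at *
  generalize |mean p (F - Ky Q y F) - mean p fun s => ∑ j ∈ Sᶜ, grad G s j * gt Q Ω s y j| = T at *
  have fin := S3.Hb.le_two_sqrt (X := T - 2 * e * d) Y0 d0 fun θ hθ => by
    have := k θ hθ
    rw [one_div_mul_eq_div] at this
    linarith
  have s1 : √(d * Y) ≤ (2 + 16 * K0) * (√d * √x) := by
    rw [← sqrt_mul d0]
    refine sqrt_le_iff.2 ⟨by positivity, ?_⟩
    rw [mul_pow, sq_sqrt (mul_nonneg d0 x0)]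
    have := mul_le_mul_of_nonneg_left hYx d0
    have h2 : 0 ≤ (2 + 16 * K0) * (1 + 16 * K0) * (d * x) := by positivity
    linarith
  rw [abs_of_pos K1]
  linarith [mul_nonneg e0 d0, mul_nonneg K1.le (mul_nonneg e0 d0)]

end Crest.Agent.T157.K

end
end

-- ▼ part T157/KRe_74
section

/-!
# Row 157, part B, block S5 (helper74): regular errors pass through channels
-/

set_option autoImplicit false
set_option linter.unusedSectionVars false

noncomputable section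

namespace Crest.Agent.T157.K

open MeasureTheory Real Matrix Finset
open Crest.Agent.T157.E Crest.Agent.T157.Eig
open Crest.Agent.T157.Rec (fl)
open Crest.Agent.T157.Conc (ELip gr2)
open Crest.Agent.T157.S3.Hb (Vp)
open Crest.Agent.T157.SL (MG)

namespace Re74

variable {κ : Type} [Fintype κ] [DecidableEq κ]

/-- variance of the square of a bounded Lipschitz function -/
theorem var_sq_le {g : (κ → ℝ) → ℝ} {e M : ℝ} (h : ELip e g) (hM : ∀ z, |g z| ≤ M) :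
    ∫ z, (g z ^ 2 - ∫ y, g y ^ 2 ∂gv κ) ^ 2 ∂gv κ ≤ 4 * e ^ 2 * ∫ z, g z ^ 2 ∂gv κ := by
  have M0 : 0 ≤ M := (abs_nonneg _).trans (hM 0)
  have h2 : ELip (2 * M * e) fun z => g z ^ 2 := fun x y => by
    rw [sq_sub_sq, abs_mul, mul_assoc (2 * M)]
    exact mul_le_mul ((abs_add_le _ _).trans (by linarith [hM x, hM y])) (h x y) (abs_nonneg _)
      (by positivity)
  refine (Conc.poincare h2).trans ?_
  rw [← integral_const_mul]
  refine integral_mono_ae h2.integrable_gr2 ((h.integrable_pow 2).const_mul _) ?_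
  filter_upwards [h.ae_differentiable] with z hz
  rw [Conc.gr2_comp (φ := fun u => u ^ 2) hz (hasDerivAt_pow 2 (g z))]
  have := mul_le_mul_of_nonneg_left (h.gr2_le z) (show 0 ≤ 4 * g z ^ 2 by positivity)
  simp only [Nat.cast_ofNat, Nat.add_one_sub_one, pow_one]
  linarith

variable {n : ℕ} {X : Cube n → (κ → ℝ) → ℝ} {e : ℝ}

theorem nn (h : RE e X) (s : Cube n) (ζ : κ → ℝ) : 0 ≤ X s ζ := (h.sb ζ s).1

theorem cont (h : RE e X) (s : Cube n) : Continuous (X s) := by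
  have : X s = fun ζ => √(X s ζ) ^ 2 := funext fun ζ => (sq_sqrt (nn h s ζ)).symm
  rw [this]; exact (h.lip s).continuous.pow 2

theorem mg (h : RE e X) (s : Cube n) (a : κ → ℝ) : MG fun z => X s (a + z) := by
  obtain ⟨M, hM⟩ := h.bd
  exact .of_bdd ((cont h s).comp (continuous_const.add continuous_id)).measurable M fun z => by
    rw [abs_of_nonneg (nn h s _)]; exact hM _ _

theorem var_le (h : RE e X) (s : Cube n) (a : κ → ℝ) :
    ∫ z, (X s (a + z) - ∫ y, X s (a + y) ∂gv κ) ^ 2 ∂gv κ ≤ 4 * e ^ 2 * ∫ z, X s (a + z) ∂gv κ := by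
  obtain ⟨M, hM⟩ := h.bd
  have := var_sq_le (g := fun z => √(X s (a + z))) (M := √M) (fun x y => by
    simpa only [add_sub_add_left_eq_sub] using h.lip s (a + x) (a + y)) fun z => by
    rw [abs_of_nonneg (sqrt_nonneg _)]; exact sqrt_le_sqrt (hM _ _)
  simpa only [sq_sqrt (nn h s _)] using this

end Re74

open Re74

theorem reStmt : REStmt := fun B => by
  set l := 4 * B ^ 2 with hl
  have l0 : 0 ≤ l := by positivity
  have x1 : 1 ≤ exp l := one_le_exp l0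
  refine ⟨(8 * l + 2) * exp l, by nlinarith, fun n κ _ _ P X e hP _ h s =>
    ⟨integral_nonneg fun z => nn h s _, ?_⟩⟩
  have fg : Kc.FG (fun x => P *ᵥ sv x) (B ^ 2) := Kc.fg_lin (sq_nonneg B) fun u => by
    rw [← nrm_sq, ← nrm_sq, ← mul_pow]
    exact pow_le_pow_left₀ (nrm_nonneg _) ((nrm_mulVec_le P u).trans
      (mul_le_mul_of_nonneg_right hP (nrm_nonneg u))) 2
  set a := P *ᵥ sv s with ha
  set v : Fin n → κ → ℝ := fun j => P *ᵥ sv (fl s j) - a with hv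
  have hd : ∀ j, v j ⬝ᵥ v j ≤ l := fun j => fg.one s j
  have k1 := (Kc.cm_le (v := v) l0 (fg.2 s) hd (mg h s a) _).trans
    (mul_le_mul_of_nonneg_left (var_le h s a) (by positivity))
  set H : Fin n → (κ → ℝ) → ℝ := fun j z => max (X s (a + z) - X (fl s j) (a + z)) 0 with hH
  have mH : ∀ j, MG (H j) := fun j => ((mg h s a).sub (mg h _ a)).of_le
    (((mg h s a).sub (mg h (fl s j) a)).meas.max measurable_const) fun z => by
      rw [abs_of_nonneg (le_max_right _ _)]; exact max_le (le_abs_self _) (abs_nonneg _)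
  have mH2 : ∀ j, MG fun z => H j z ^ 2 := fun j => by simpa only [sq] using (mH j).mul (mH j)
  have k2 : ∑ j, (∫ z, H j (v j + z) ∂gv κ) ^ 2 ≤ exp l * (e ^ 2 * ∫ z, X s (a + z) ∂gv κ) := by
    refine (sum_le_sum fun j _ => (Kc.shift_sq_le (mH j) (v j)).trans (mul_le_mul_of_nonneg_right
      (exp_le_exp.2 (hd j)) (integral_nonneg fun z => sq_nonneg _))).trans ?_
    rw [← mul_sum, ← integral_finsetSum _ fun j _ => (mH2 j).int, ← integral_const_mul (e ^ 2)]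
    exact mul_le_mul_of_nonneg_left (integral_mono (MG.sum _ fun j _ => mH2 j).int
      ((mg h s a).int.const_mul _) fun z => (h.sb (a + z) s).2) (exp_pos _).le
  have k3 : ∀ j, max (cav P X s - cav P X (fl s j)) 0 ^ 2 ≤
      2 * (∫ z, X s (a + z) ∂gv κ - ∫ z, X s (a + (v j + z)) ∂gv κ) ^ 2 +
        2 * (∫ z, H j (v j + z) ∂gv κ) ^ 2 := fun j => by
    have e1 : cav P X (fl s j) = ∫ z, X (fl s j) (a + (v j + z)) ∂gv κ := by
      simp only [cav, hv, ← add_assoc, add_sub_cancel]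
    have i1 : ∀ t, Integrable (fun z => X t (a + (v j + z))) (gv κ) := fun t => by
      simpa only [add_assoc] using (mg h t (a + v j)).int
    have i2 : Integrable (fun z => H j (v j + z)) (gv κ) := by
      simpa only [one_smul] using ((mH j).affine (v j) 1).int
    have b1 : ∫ z, X s (a + (v j + z)) ∂gv κ - ∫ z, X (fl s j) (a + (v j + z)) ∂gv κ ≤
        ∫ z, H j (v j + z) ∂gv κ := by
      rw [← integral_sub (i1 _) (i1 _)]
      exact integral_mono ((i1 _).sub (i1 _)) i2 fun z => le_max_left _ _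
    have b2 : 0 ≤ ∫ z, H j (v j + z) ∂gv κ := integral_nonneg fun z => le_max_right _ _
    rw [e1]
    change max (∫ z, X s (a + z) ∂gv κ - _) 0 ^ 2 ≤ _
    generalize ∫ z, X s (a + z) ∂gv κ = p, ∫ z, X s (a + (v j + z)) ∂gv κ = q,
      ∫ z, X (fl s j) (a + (v j + z)) ∂gv κ = r, ∫ z, H j (v j + z) ∂gv κ = b at b1 b2 ⊢
    refine (pow_le_pow_left₀ (le_max_right _ _) (max_le (show _ ≤ |p - q| + b by
      linarith [le_abs_self (p - q)]) (by positivity)) 2).trans ?_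
    nlinarith [sq_nonneg (|p - q| - b), sq_abs (p - q)]
  have I0 : 0 ≤ e ^ 2 * ∫ z, X s (a + z) ∂gv κ :=
    mul_nonneg (sq_nonneg e) (integral_nonneg fun z => nn h s _)
  refine (sum_le_sum fun j _ => k3 j).trans ?_
  rw [sum_add_distrib, ← mul_sum, ← mul_sum]
  change _ ≤ _ * ∫ z, X s (a + z) ∂gv κ
  have c1 : 1 ≤ (8 * l + 2) * exp l := by nlinarith
  have := mul_le_mul_of_nonneg_right (le_self_pow₀ c1 two_ne_zero) I0
  rw [mul_pow, mul_assoc]
  linarith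

end Crest.Agent.T157.K

end
end

-- ▼ part T157/KStB_63
section

/-!
# Row 157, block S5 (helper63): one step of the kernel, the part in the field
-/

set_option autoImplicit false
set_option linter.unusedSectionVars false

noncomputable section

namespace Crest.Agent.T157.K.StB

open MeasureTheory ProbabilityTheory Real Matrix Finset
open Crest.Agent.T157.E Crest.Agent.T157.Eig
open Crest.Agent.T157.Tap (V Mx th DD)
open Crest.Agent.T157.Rec (grad)
open Crest.Agent.T157.Conc (ELip en)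
open Crest.Agent.T157.Reg (jac neg)
open Crest.Agent.T157.S3.Hb (Vp)
open Crest.Agent.T157.SL (Wt)

variable {n : ℕ} {κ : Type} [Fintype κ]

/-- continuous and bounded -/
structure CB (f : (κ → ℝ) → ℝ) : Prop where
  c : Continuous f
  b : ∃ B, ∀ z, |f z| ≤ B

lemma CB.int {f : (κ → ℝ) → ℝ} (h : CB f) : Integrable f (gv κ) :=
  let ⟨B, hB⟩ := h.b
  (integrable_const B).mono' h.c.aestronglyMeasurable (.of_forall hB)

lemma CB.sq {f : (κ → ℝ) → ℝ} (h : CB f) : CB fun z => f z ^ 2 :=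
  let ⟨B, hB⟩ := h.b
  ⟨h.c.pow 2, B ^ 2, fun z => by rw [abs_pow]; exact pow_le_pow_left₀ (abs_nonneg _) (hB z) 2⟩

lemma CB.sq_int {f : (κ → ℝ) → ℝ} (h : CB f) : (∫ z, f z ∂gv κ) ^ 2 ≤ ∫ z, f z ^ 2 ∂gv κ := by
  have := variance_nonneg f (gv κ)
  rw [variance_eq_sub ((memLp_two_iff_integrable_sq h.c.aestronglyMeasurable).2 h.sq.int)] at this
  exact sub_nonneg.1 this

lemma nsq (v : V n) : nrm v ^ 2 = ∑ j, v j ^ 2 := by rw [nrm_sq]; simp only [dotProduct, sq]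

lemma en_nrm (x : V n) : en x = nrm x := by rw [Conc.en_eq_norm, nrm_eq_norm]

lemma nrm_int {u : (κ → ℝ) → V n} (hu : ∀ j, CB fun z => u z j) {g : (κ → ℝ) → ℝ}
    (hg : Integrable g (gv κ)) (h : ∀ z, nrm (u z) ^ 2 ≤ g z) :
    nrm (fun j => ∫ z, u z j ∂gv κ) ^ 2 ≤ ∫ z, g z ∂gv κ := by
  rw [nsq]
  refine (sum_le_sum fun j _ => (hu j).sq_int).trans ?_
  rw [← integral_finsetSum _ fun j _ => (hu j).sq.int]
  exact integral_mono (integrable_finsetSum _ fun j _ => (hu j).sq.int) hg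
    fun z => (nsq _).symm.trans_le (h z)

lemma nrm_int_le {u : (κ → ℝ) → V n} (hu : ∀ j, CB fun z => u z j) {B : ℝ}
    (h : ∀ z, nrm (u z) ≤ B) : nrm (fun j => ∫ z, u z j ∂gv κ) ≤ B :=
  le_of_sq_le_sq₀' ((nrm_nonneg _).trans (h 0)) (by
    simpa using nrm_int hu (integrable_const (B ^ 2))
      fun z => pow_le_pow_left₀ (nrm_nonneg _) (h z) 2)
where le_of_sq_le_sq₀' {a b : ℝ} (hb : 0 ≤ b) (h : a ^ 2 ≤ b ^ 2) : a ≤ b :=
  le_of_pow_le_pow_left₀ two_ne_zero hb h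

lemma wt (h : V n) : Wt (ising 0 h) := .of_pos fun _ => exp_pos _

lemma nrm_mean {w : Cube n → ℝ} (hw : Wt w) (u : Cube n → V n) :
    nrm (meanV w u) ^ 2 ≤ mean w fun t => nrm (u t) ^ 2 := by
  simp only [nsq, SL.mean_sum]
  exact sum_le_sum fun j _ => by simpa [meanV] using Kc.mean_sub_sq_le hw (fun t => u t j) 0

lemma nrm_mul {a v : V n} {c : ℝ} (hc : 0 ≤ c) (h : ∀ j, |a j| ≤ c) : nrm (a * v) ≤ c * nrm v := by
  refine le_of_pow_le_pow_left₀ two_ne_zero (mul_nonneg hc (nrm_nonneg _)) ?_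
  rw [mul_pow, nsq, nsq, mul_sum]
  refine sum_le_sum fun j _ => ?_
  rw [Pi.mul_apply, mul_pow, ← sq_abs (a j)]
  exact mul_le_mul_of_nonneg_right (pow_le_pow_left₀ (abs_nonneg _) (h j) 2) (sq_nonneg _)

lemma DD_le (h : V n) (j : Fin n) : |DD (th h) j| ≤ 1 :=
  abs_le.2 ⟨by have := tanh_sq_lt_one (h j); simp only [DD, th]; linarith,
    sub_le_self _ (sq_nonneg _)⟩

lemma sqrt_le {A B m δ : ℝ} (hδ : 0 ≤ δ) (hm : m ^ 2 ≤ B) (h : A ≤ B + 2 * δ * m + δ ^ 2) :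
    √A ≤ √B + δ := by
  have h1 : m ≤ √B := le_sqrt_of_sq_le hm
  have h2 := sq_sqrt ((sq_nonneg m).trans hm)
  exact sqrt_le_iff.2 ⟨by positivity, by nlinarith [mul_le_mul_of_nonneg_left h1 hδ]⟩

lemma pt_le {A B δ : ℝ} (hA : 0 ≤ A) (_ : 0 ≤ B) (h : √A ≤ √B + δ) :
    A ≤ √B ^ 2 + 2 * δ * √B + δ ^ 2 := by
  have := pow_le_pow_left₀ (sqrt_nonneg _) h 2
  rw [sq_sqrt hA] at this; linarith

lemma mk_mean {w A B : Cube n → ℝ} (hw : Wt w) {δ : ℝ} (hδ : 0 ≤ δ) (hA : ∀ t, 0 ≤ A t)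
    (hB : ∀ t, 0 ≤ B t) (h : ∀ t, √(A t) ≤ √(B t) + δ) : √(mean w A) ≤ √(mean w B) + δ := by
  refine sqrt_le (m := mean w fun t => √(B t)) hδ ?_ ?_
  · simpa [sq_sqrt (hB _)] using Kc.mean_sub_sq_le hw (fun t => √(B t)) 0
  · refine (hw.mean_mono fun t => pt_le (hA t) (hB t) (h t)).trans_eq ?_
    simp only [SL.mean_add, SL.mean_const_mul, hw.mean_const, sq_sqrt (hB _)]

lemma mk_int {A B : (κ → ℝ) → ℝ} (cA : CB A) (cB : CB B) {δ : ℝ} (hδ : 0 ≤ δ) (hA : ∀ t, 0 ≤ A t)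
    (hB : ∀ t, 0 ≤ B t) (h : ∀ t, √(A t) ≤ √(B t) + δ) :
    √(∫ z, A z ∂gv κ) ≤ √(∫ z, B z ∂gv κ) + δ := by
  have c : CB fun z => √(B z) := let ⟨M, hM⟩ := cB.b
    ⟨cB.c.sqrt, √M, fun z => (abs_of_nonneg (sqrt_nonneg _)).trans_le
      (sqrt_le_sqrt ((le_abs_self _).trans (hM z)))⟩
  refine sqrt_le (m := ∫ z, √(B z) ∂gv κ) hδ ?_ ?_
  · simpa [sq_sqrt (hB _)] using c.sq_int
  · have i1 : Integrable (fun z => √(B z) ^ 2 + 2 * δ * √(B z)) (gv κ) :=
      c.sq.int.add (c.int.const_mul (2 * δ))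
    refine (integral_mono cA.int (i1.add (integrable_const (δ ^ 2)))
      fun t => pt_le (hA t) (hB t) (h t)).trans_eq ?_
    simp only [Pi.add_apply]
    rw [integral_add i1 (integrable_const _), integral_add c.sq.int (c.int.const_mul _),
      integral_const_mul]
    simp [sq_sqrt (hB _)]

lemma dp (t : Cube n) : Differentiable ℝ fun h : V n => prob (ising 0 h) t := by
  have h1 : ∀ t, Differentiable ℝ fun h : V n => ising 0 h t := fun t => by
    unfold ising dotProduct; fun_prop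
  simp only [prob, div_eq_mul_inv]
  exact (h1 t).mul ((Differentiable.fun_sum fun t _ => h1 t).inv fun h => (wt h).pos.ne')

lemma cm {X : Type} [TopologicalSpace X] {a : Cube n → X → ℝ} {hh : X → V n}
    (ha : ∀ t, Continuous (a t)) (h : Continuous hh) :
    Continuous fun x => mean (ising 0 (hh x)) fun t => a t x :=
  continuous_finsetSum _ fun t _ => ((dp t).continuous.comp h).mul (ha t)

/-- the field pulled back -/
def UU (a b : Cube n → V n) (h : V n) : V n :=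
  DD (th h) * meanV (ising 0 h) a + meanV (ising 0 h) b

lemma UU_cont {X : Type} [TopologicalSpace X] {a b : Cube n → X → V n} {hh : X → V n}
    (ha : ∀ t, Continuous (a t)) (hb : ∀ t, Continuous (b t)) (h : Continuous hh) (j : Fin n) :
    Continuous fun x => UU (fun t => a t x) (fun t => b t x) (hh x) j := by
  refine Continuous.add (Continuous.mul ?_ (cm (a := fun t x => a t x j)
    (fun t => (continuous_apply j).comp (ha t)) h)) (cm (a := fun t x => b t x j)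
    (fun t => (continuous_apply j).comp (hb t)) h)
  have : Continuous Real.tanh := by
    simp only [funext tanh_eq_sinh_div_cosh]
    exact continuous_sinh.div continuous_cosh fun x => (cosh_pos x).ne'
  exact continuous_const.sub ((this.comp ((continuous_apply j).comp h)).pow 2)

lemma UU_sq (a b : Cube n → V n) (h : V n) :
    nrm (UU a b h) ^ 2 ≤ 2 * mean (ising 0 h) fun t => nrm (a t) ^ 2 + nrm (b t) ^ 2 := by
  have h1 := pow_le_pow_left₀ (nrm_nonneg _) ((nrm_add_le _ (meanV (ising 0 h) b)).trans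
    (add_le_add (nrm_mul (v := meanV (ising 0 h) a) zero_le_one (DD_le h)) le_rfl)) 2
  rw [SL.mean_add]
  nlinarith [nrm_mean (wt h) a, nrm_mean (wt h) b,
    sq_nonneg (nrm (meanV (ising 0 h) a) - nrm (meanV (ising 0 h) b)), UU.eq_1 a b h ▸ h1]

lemma UU_le {a b : Cube n → V n} {A : ℝ} (ha : ∀ t, nrm (a t) ≤ A) (hb : ∀ t, nrm (b t) ≤ A)
    (h : V n) : nrm (UU a b h) ≤ 2 * A := by
  have A0 := (nrm_nonneg _).trans (ha default)
  refine le_of_pow_le_pow_left₀ two_ne_zero (by positivity) ((UU_sq a b h).trans ?_)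
  have := (wt h).mean_le fun t => add_le_add (pow_le_pow_left₀ (nrm_nonneg _) (ha t) 2)
    (pow_le_pow_left₀ (nrm_nonneg _) (hb t) 2)
  linarith

lemma UU_sub (a b a' b' : Cube n → V n) (h : V n) :
    UU a b h - UU a' b' h = UU (fun t => a t - a' t) (fun t => b t - b' t) h := by
  funext j; simp only [UU, meanV, Pi.sub_apply, Pi.add_apply, Pi.mul_apply, SL.mean_sub]; ring

lemma UU_sup {a b : Cube n → V n} {e : ℝ} (ha : ∀ t j, |a t j| ≤ e) (hb : ∀ t j, |b t j| ≤ e)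
    (h : V n) (j : Fin n) : |UU a b h j| ≤ 2 * e := by
  have h1 := (wt h).abs_mean_le fun t => ha t j
  have h2 := (wt h).abs_mean_le fun t => hb t j
  refine (abs_add_le _ _).trans ?_
  have := mul_le_mul (DD_le h j) h1 (abs_nonneg _) zero_le_one
  rw [← abs_mul] at this
  exact (add_le_add this h2).trans_eq (by ring)

lemma UU_cb (a b : Cube n → V n) {hh : (κ → ℝ) → V n} (h : Continuous hh) (j : Fin n) :
    CB fun z => UU a b (hh z) j :=
  ⟨UU_cont (a := fun t _ => a t) (b := fun t _ => b t) (fun _ => continuous_const)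
    (fun _ => continuous_const) h j, _, fun _ => UU_sup (e := ‖a‖ + ‖b‖)
      (fun t j => ((norm_le_pi_norm (a t) j).trans (norm_le_pi_norm a t)).trans
        (le_add_of_nonneg_right (norm_nonneg _)))
      (fun t j => ((norm_le_pi_norm (b t) j).trans (norm_le_pi_norm b t)).trans
        (le_add_of_nonneg_left (norm_nonneg _))) _ j⟩

lemma UU_lip (hP : PrStmt) {a b : Cube n → V n} {e : ℝ} (he : 0 ≤ e) (ha : R0 e a) (hb : R0 e b)
    (h h' : V n) : nrm (UU a b h - UU a b h') ≤ 4 * e * nrm (h - h') := by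
  have e1 : UU a b h - UU a b h' = DD (th h) * (meanV (ising 0 h) a - meanV (ising 0 h') a) +
      meanV (ising 0 h') a * (DD (th h) - DD (th h')) +
      (meanV (ising 0 h) b - meanV (ising 0 h') b) := by unfold UU; ring
  have a1 := nrm_mul (v := meanV (ising 0 h) a - meanV (ising 0 h') a) zero_le_one (DD_le h)
  have a2 := nrm_mul (a := meanV (ising 0 h') a) (v := DD (th h) - DD (th h')) he
    fun j => (wt h').abs_mean_le fun t => ha.sup t j
  have a3 : nrm (DD (th h) - DD (th h')) ≤ 2 * nrm (h - h') := by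
    refine le_of_pow_le_pow_left₀ two_ne_zero (mul_nonneg two_pos.le (nrm_nonneg _)) ?_
    rw [mul_pow, nsq, nsq, mul_sum]
    refine sum_le_sum fun j _ => ?_
    have b1 := sq_le_sq.2 (Da.Gr.tanh_lip (h j) (h' j))
    have b2 : (tanh (h j) + tanh (h' j)) ^ 2 ≤ 2 ^ 2 := by
      nlinarith [tanh_sq_lt_one (h j), tanh_sq_lt_one (h' j), sq_nonneg (tanh (h j) - tanh (h' j))]
    calc _ = (tanh (h j) + tanh (h' j)) ^ 2 * (tanh (h j) - tanh (h' j)) ^ 2 := by
          simp only [DD, th, Pi.sub_apply]; ring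
      _ ≤ _ := mul_le_mul b2 b1 (sq_nonneg _) (by norm_num)
  rw [e1]
  refine (nrm_add_le _ _).trans ((add_le_add (nrm_add_le _ _) le_rfl).trans ?_)
  nlinarith [hP.lip n a e ha h h', hP.lip n b e hb h h', mul_le_mul_of_nonneg_left a3 he]

lemma UU_neg (hP : PrStmt) {a b a' b' : Cube n → V n} (ha : ∀ t, a' (neg t) = -a t)
    (hb : ∀ t, b' (neg t) = -b t) (h : V n) : UU a' b' (-h) = -UU a b h := by
  funext j
  simp only [UU, meanV, DD, th, Pi.add_apply, Pi.mul_apply, Pi.neg_apply, hP.neg, ha, hb,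
    SL.mean_neg, tanh_neg]
  ring

/-- the linear form of a vector -/
def dL (u : V n) : V n →L[ℝ] ℝ := ∑ j, u j • ContinuousLinearMap.proj j

lemma dL_apply (u v : V n) : dL u v = u ⬝ᵥ v := by simp [dL, dotProduct]

lemma dL_le (u : V n) : ‖dL u‖ ≤ n * nrm u := by
  refine ContinuousLinearMap.opNorm_le_bound _ (by have := nrm_nonneg u; positivity) fun v => ?_
  rw [dL_apply, dotProduct]
  refine (norm_sum_le _ _).trans ((sum_le_card_nsmul _ _ (nrm u * ‖v‖) fun j _ => ?_).trans_eq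
    (by simp [mul_assoc]))
  rw [norm_mul]
  exact mul_le_mul (abs_apply_le_nrm u j) (norm_le_pi_norm v j) (norm_nonneg _) (nrm_nonneg _)

lemma der1 (hP : PrStmt) {F : F2 n} {g : U2 n} (hF : Der F g) (c y : V n) :
    HasFDerivAt (fun y => mean (ising 0 (y + c)) fun t => F t y)
      (dL (UU (grad fun t => F t y) (fun t => g t y) (y + c))) y := by
  have hp := fun t => (dp t (y + c)).hasFDerivAt.comp y ((hasFDerivAt_id y).add_const c)
  have h1 := HasFDerivAt.fun_sum (u := univ) fun t _ => (hp t).mul ((hF t).1 y).hasFDerivAt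
  have h2 := (HasFDerivAt.fun_sum (u := univ) fun t _ =>
    (dp t (y + c)).hasFDerivAt.mul_const (F t y)).fderiv
  refine HasFDerivAt.congr_fderiv h1 (ContinuousLinearMap.ext fun v => ?_)
  have h3 := (hP.der n fun t => F t y).2 (y + c) v
  rw [show (fun h : V n => mean (ising 0 h) fun t => F t y) =
    fun h => ∑ t, prob (ising 0 h) t * F t y from rfl, h2] at h3
  rw [dL_apply, UU, add_dotProduct, ← h3, dotProduct_comm (meanV _ _), SL.meanV_dot]
  simp [sum_add_distrib, (hF _).2.2, mean, dotProduct_comm v, add_comm]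

lemma kb_eq (Q : Mx n) (ω β : U2 n) (s : Cube n) (y : V n) : kb Q ω β s y = fun j =>
    ∫ z, UU (fun t => ω t y) (fun t => β t y) (y + Q *ᵥ (Q *ᵥ sv s + z)) j ∂gv (Fin n) := rfl

lemma cQ (Q : Mx n) (y c : V n) : Continuous fun z : V n => y + Q *ᵥ (c + z) := by fun_prop

lemma mean_cb (G : Cube n → ℝ) {hh : (κ → ℝ) → V n} (h : Continuous hh) :
    CB fun z => mean (ising 0 (hh z)) G :=
  ⟨cm (a := fun t _ => G t) (fun _ => continuous_const) h, ‖G‖,
    fun _ => (wt _).abs_mean_le fun t => norm_le_pi_norm G t⟩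

lemma der2 (hP : PrStmt) (Q : Mx n) {F : F2 n} {g : U2 n} {L : ℝ} (hF : Der F g)
    (hL : ∀ s y, nrm (grad (fun s => F s y) s) ≤ L ∧ nrm (g s y) ≤ L) :
    Der (Kop Q F) (kb Q (fun s y => grad (fun s => F s y) s) g) := fun s => by
  have bd := fun y h => UU_le (fun t => (hL t y).1) (fun t => (hL t y).2) h
  have ci : ∀ y, Continuous fun z : V n => dL (UU (grad fun t => F t y) (fun t => g t y)
      (y + Q *ᵥ (Q *ᵥ sv s + z))) := fun y =>
    continuous_finsetSum _ fun j _ => (UU_cb _ _ (cQ Q y _) j).c.smul continuous_const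
  have bL : ∀ y h, ‖dL (UU (grad fun t => F t y) (fun t => g t y) h)‖ ≤ n * (2 * L) := fun y h =>
    (dL_le _).trans (mul_le_mul_of_nonneg_left (bd y h) n.cast_nonneg)
  have h1 : ∀ y, HasFDerivAt (Kop Q F s) (∫ z, dL (UU (grad fun t => F t y) (fun t => g t y)
      (y + Q *ᵥ (Q *ᵥ sv s + z))) ∂gv (Fin n)) y := fun y =>
    hasFDerivAt_integral_of_dominated_of_fderiv_le (s := Set.univ) (bound := fun _ => n * (2 * L))
      (F := fun y z => mean (ising 0 (y + Q *ᵥ (Q *ᵥ sv s + z))) fun t => F t y)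
      (F' := fun y z => dL (UU (grad fun t => F t y) (fun t => g t y)
        (y + Q *ᵥ (Q *ᵥ sv s + z)))) Filter.univ_mem
      (.of_forall fun y => (mean_cb _ (cQ Q y _)).c.aestronglyMeasurable)
      (mean_cb _ (cQ Q y _)).int (ci y).aestronglyMeasurable (.of_forall fun z y _ => bL y _)
      (integrable_const _) (.of_forall fun z y _ => der1 hP hF _ y)
  refine ⟨fun y => (h1 y).differentiableAt, continuous_pi fun j => continuous_of_dominated
    (bound := fun _ => 2 * L) (fun y => (UU_cb _ _ (cQ Q y _) j).c.aestronglyMeasurable)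
    (fun y => .of_forall fun z => (abs_apply_le_nrm _ j).trans (bd y _)) (integrable_const _)
    (.of_forall fun z => UU_cont (fun t => continuous_pi fun i => ?_) (fun t => (hF t).2.1)
      (continuous_id.add continuous_const) j), fun y v => ?_⟩
  · exact (((hF _).1.continuous).sub (hF _).1.continuous).div_const 2
  · rw [(h1 y).fderiv, ContinuousLinearMap.integral_apply ((integrable_const _).mono'
      (ci y).aestronglyMeasurable (.of_forall fun z => bL y _)), kb_eq]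
    simp only [dL_apply, dotProduct, ← integral_mul_const]
    exact integral_finsetSum _ fun j _ => (UU_cb _ _ (cQ Q y _) j).int.mul_const _

theorem yhalf (hRF : RFStmt) (hRE : REStmt) (hP : PrStmt) (hR : RevStmt) :
    ∃ C ≥ (1 : ℝ), ∀ (n : ℕ) (J Q : Mx n) (e L : ℝ) (ω : U2 n) (F : F2 n) (g β : U2 n) (X : F2 n),
    JQ J Q → 0 ≤ e → BS F g ω β X e L → ∃ g', Der (Kop Q F) g' ∧
      (∀ s y, nrm (g' s y) ≤ C * L ∧ nrm (g' s y - kb Q ω β s y) ^ 2 ≤ C * Kop Q X s y) ∧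
      RF (C * e) (kb Q ω β) ∧ OddJ (kb Q ω β) ∧ RE (C * e) (Kop Q X) := by
  obtain ⟨C1, c1, hRF⟩ := hRF 3
  obtain ⟨C2, c2, hRE⟩ := hRE 3
  refine ⟨12 * (C1 + C2), by linarith, fun n J Q e L ω F g β X hJ he h => ?_⟩
  have oQ := (hR.opQ n J Q hJ).1
  have lQ : ∀ y ζ ζ' : V n, nrm (y + Q *ᵥ ζ - (y + Q *ᵥ ζ')) ≤ 3 * nrm (ζ - ζ') := fun y ζ ζ' => by
    rw [add_sub_add_left_eq_sub, ← mulVec_sub]
    exact (nrm_mulVec_le _ _).trans (mul_le_mul_of_nonneg_right oQ (nrm_nonneg _))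
  have L0 := (nrm_nonneg _).trans (h.gr default 0).1
  have X0 : ∀ s y, 0 ≤ X s y := fun s y => (h.rX.sb y s).1
  have K0 : ∀ s y, 0 ≤ Kop Q X s y := fun s y =>
    integral_nonneg fun z => (wt _).mean_nonneg fun t => X0 t y
  obtain ⟨B, hB⟩ := h.rX.bd
  have e1 : C1 * 1 * (12 * e) ≤ 12 * (C1 + C2) * e := by nlinarith
  have e2 : C2 * (6 * e) ≤ 12 * (C1 + C2) * e := by nlinarith
  have e3 : 8 * e ≤ 12 * (C1 + C2) * e := by nlinarith
  refine ⟨_, der2 hP Q h.der h.gr, fun s y => ⟨?_, ?_⟩, ⟨fun y => ?_, fun s y y' => ?_⟩,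
    fun s y => ?_, fun y s => ⟨K0 s y, ?_⟩, fun s y y' => ?_, B, fun s y => ?_⟩
  · exact (nrm_int_le (UU_cb _ _ (cQ Q y _)) fun z => UU_le (fun t => (h.gr t y).1)
      (fun t => (h.gr t y).2) _).trans (by nlinarith)
  · have := nrm_int (UU_cb (fun t => grad (fun s => F s y) t - ω t y) (fun t => g t y - β t y)
      (cQ Q y (Q *ᵥ sv s))) ((mean_cb (fun t => X t y) (cQ Q y (Q *ᵥ sv s))).int.const_mul 2)
      fun z => (UU_sq _ _ _).trans (mul_le_mul_of_nonneg_left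
        ((wt _).mean_mono fun t => h.app t y) two_pos.le)
    rw [integral_const_mul] at this
    refine le_trans (le_of_eq ?_) (this.trans (mul_le_mul_of_nonneg_right (by linarith) (K0 s y)))
    congr 2; funext j
    simp only [← UU_sub, Pi.sub_apply, kb_eq]
    exact (integral_sub (UU_cb _ _ (cQ Q y _) j).int (UU_cb _ _ (cQ Q y _) j).int).symm
  · have := hRF n (Fin n) Q Q (fun _ => 1)
      (fun _ ζ => UU (fun t => ω t y) (fun t => β t y) (y + Q *ᵥ ζ)) 1 (12 * e) oQ oQ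
      ⟨differentiable_const _, fun u v => by simp⟩ ⟨fun ζ => ⟨fun _ i => (UU_sup (h.rω.r0 y).sup
        (h.rβ.r0 y).sup _ i).trans (by linarith), fun s => by
          rw [show jac _ s = 0 from Matrix.ext fun _ _ => sub_self _]
          exact opn_zero.trans_le (by positivity)⟩, fun _ ζ ζ' =>
        (UU_lip hP he (h.rω.r0 y) (h.rβ.r0 y) _ _).trans
          (by nlinarith [mul_le_mul_of_nonneg_left (lQ y ζ ζ') he])⟩
    have e : cwv Q Q (fun _ => 1) (fun _ ζ => UU (fun t => ω t y) (fun t => β t y) (y + Q *ᵥ ζ)) =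
        fun s => kb Q ω β s y := funext fun s => funext fun j => by simp only [cwv, one_mul, kb_eq]
    rw [e] at this
    exact ⟨fun s i => (this.sup s i).trans e1, fun s => (this.op s).trans e1⟩
  · have := nrm_int_le (u := fun z => UU (fun t => ω t y) (fun t => β t y)
      (y + Q *ᵥ (Q *ᵥ sv s + z)) - UU (fun t => ω t y') (fun t => β t y') (y' + Q *ᵥ (Q *ᵥ sv s + z)))
      (B := 6 * e * nrm (y - y')) (fun j => ?_) fun z => ?_
    · refine le_trans (le_of_eq ?_) (this.trans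
        (mul_le_mul_of_nonneg_right (by linarith) (nrm_nonneg _)))
      congr 1; funext j
      exact (integral_sub (UU_cb _ _ (cQ Q y _) j).int (UU_cb _ _ (cQ Q y' _) j).int).symm
    · obtain ⟨c, M, hM⟩ := UU_cb (fun t => ω t y) (fun t => β t y) (cQ Q y (Q *ᵥ sv s)) j
      obtain ⟨c', M', hM'⟩ := UU_cb (fun t => ω t y') (fun t => β t y') (cQ Q y' (Q *ᵥ sv s)) j
      exact ⟨c.sub c', M + M', fun z => (abs_sub _ _).trans (add_le_add (hM z) (hM' z))⟩
    · have a1 := UU_lip hP he (h.rω.r0 y) (h.rβ.r0 y) (y + Q *ᵥ (Q *ᵥ sv s + z))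
        (y' + Q *ᵥ (Q *ᵥ sv s + z))
      have a2 := UU_le (fun t => h.rω.lip t y y') (fun t => h.rβ.lip t y y')
        (y' + Q *ᵥ (Q *ᵥ sv s + z))
      rw [← UU_sub] at a2
      rw [add_sub_add_right_eq_sub] at a1
      rw [← sub_add_sub_cancel]
      exact (nrm_add_le _ _).trans ((add_le_add a1 a2).trans_eq (by ring))
  · have : (gv (Fin n)).IsNegInvariant := by
      have : (gaussianReal 0 1).IsNegInvariant :=
        ⟨by simpa [Measure.neg] using gaussianReal_map_neg (μ := 0) (v := 1)⟩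
      infer_instance
    have es : sv (neg s) = -sv s := funext fun i => by
      simp only [sv, Reg.neg, Pi.neg_apply]
      cases s i <;> simp [ProbabilityR.SpinGlassDynamics.spin]
    funext j
    rw [kb_eq, kb_eq, Pi.neg_apply, ← integral_neg]
    refine (integral_neg_eq_self _ _).symm.trans (integral_congr_ae (.of_forall fun z => ?_))
    beta_reduce
    rw [es, mulVec_neg, ← neg_add, mulVec_neg, ← neg_add,
      UU_neg hP (fun t => h.oω t y) fun t => h.oβ t y, Pi.neg_apply]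
  · refine ((hRE n (Fin n) Q (fun _ ζ => mean (ising 0 (y + Q *ᵥ ζ)) fun t => X t y) (6 * e) oQ
      (by positivity) ⟨fun ζ _ => ⟨(wt _).mean_nonneg fun t => X0 t y, ?_⟩, fun _ ζ ζ' => ?_, B,
      fun _ _ => (wt _).mean_le fun t => hB t y⟩ s).2).trans (mul_le_mul_of_nonneg_right
        (pow_le_pow_left₀ (by positivity) e2 2) (K0 s y))
    · simp only [Vp, sub_self, max_self, zero_pow two_ne_zero, sum_const_zero]
      exact mul_nonneg (sq_nonneg _) ((wt _).mean_nonneg fun t => X0 t y)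
    · refine (hP.sq n _ e he (h.rX.sb y) _ _).trans ?_
      rw [en_nrm, en_nrm]
      nlinarith [mul_le_mul_of_nonneg_left (lQ y ζ ζ') he]
  · have key : ∀ y y' : V n, √(Kop Q X s y) ≤ √(Kop Q X s y') + 3 * e * en (y - y') := fun y y' => by
      have n0 := Conc.en_nonneg (y - y')
      refine mk_int (mean_cb _ (cQ Q y _)) (mean_cb _ (cQ Q y' _)) (by positivity)
        (fun _ => (wt _).mean_nonneg fun t => X0 t y) (fun _ => (wt _).mean_nonneg fun t => X0 t y')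
        fun z => ?_
      have a1 := (abs_le.1 (hP.sq n _ e he (h.rX.sb y) (y + Q *ᵥ (Q *ᵥ sv s + z))
        (y' + Q *ᵥ (Q *ᵥ sv s + z)))).2
      have a2 := mk_mean (wt (y' + Q *ᵥ (Q *ᵥ sv s + z))) (mul_nonneg he n0) (X0 · y) (X0 · y')
        fun t => by linarith [(abs_le.1 (h.rX.lip t y y')).2]
      rw [add_sub_add_right_eq_sub] at a1
      linarith
    have a1 := key y y'
    have a2 := key y' y
    have n0 := mul_le_mul_of_nonneg_right (show 3 * e ≤ 12 * (C1 + C2) * e by linarith)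
      (Conc.en_nonneg (y - y'))
    rw [Conc.en_sub_comm] at a2
    exact abs_le.2 ⟨by linarith, by linarith⟩
  · exact (integral_mono (mean_cb _ (cQ Q y _)).int (integrable_const B)
      fun z => (wt _).mean_le fun t => hB t y).trans_eq (by simp)

end Crest.Agent.T157.K.StB

end
end

-- ▼ part T157/KSt_47
section

/-!
# Row 157, part B, block S5 (helper47): one step of the resampling kernel
-/

set_option autoImplicit false
set_option linter.unusedSectionVars false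

noncomputable section

namespace Crest.Agent.T157.K

open MeasureTheory ProbabilityTheory Real Matrix Finset
open Crest.Agent.T157.E Crest.Agent.T157.Eig Crest.Agent.T157.SL
open Crest.Agent.T157.Tap (V Mx th DD)
open Crest.Agent.T157.Rec (grad)
open Crest.Agent.T157.Conc (ELip)
open Crest.Agent.T157.Reg (jac neg)
open Crest.Agent.T157.Z (cp)

namespace St47

variable {n : ℕ} {J Q : Mx n} {Λ η e L CW CR CE : ℝ} {ω : U2 n}

/-- what is used of the weights -/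
structure WF (C Λ : ℝ) : Prop where
  gr : GW (rho 4)
  gh : GW (rh 4 Λ)
  gd : GW fun t => rho 4 t - rh 4 Λ t
  w2 : W2 (C * exp (2 * Λ)) (rh 4 Λ)
  ir : ∫ t, rho 4 (√4 * t) ^ 2 ∂gaussianReal 0 1 ≤ C
  ih : ∫ t, rh 4 Λ (√4 * t) ^ 2 ∂gaussianReal 0 1 ≤ C
  id : ∫ t, (rho 4 (√4 * t) - rh 4 Λ (√4 * t)) ^ 2 ∂gaussianReal 0 1 ≤ C * exp (-(Λ ^ 2 / C))

theorem wf (hW : WStmt) : ∃ C ≥ (1 : ℝ), ∀ Λ ≥ (0 : ℝ), WF C Λ := by
  obtain ⟨C, C1, h⟩ := hW 4
  refine ⟨C, C1, fun Λ hΛ => ?_⟩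
  obtain ⟨w2, c, b, i1, i2⟩ := h 4 Λ (by norm_num) le_rfl hΛ (rho 4) (by simp)
  have p : ∀ u, 0 < rho 4 u := fun u => (b u).1.trans_le (b u).2.1
  have gr : GW (rho 4) := ⟨c, 2, 2, fun t => by
    rw [abs_of_pos (p t)]
    have h1 : exp (-2 * t) ≤ exp (2 * |t|) := exp_le_exp.2 (by linarith [neg_abs_le t])
    linarith [(b t).2.2, one_le_exp (by positivity : 0 ≤ 2 * |t|)]⟩
  refine ⟨gr, ⟨w2.1.continuous, C * exp (2 * Λ), 0, fun t => by simpa [rh] using (w2.2 t t).1⟩,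
    gr.sub w2.1.continuous fun t => ⟨(b t).1.le, (b t).2.1⟩, w2, i1, le_trans ?_ i1, i2⟩
  refine integral_mono_of_nonneg (.of_forall fun _ => sq_nonneg _) ?_
    (.of_forall fun t => pow_le_pow_left₀ (b _).1.le (b _).2.1 2)
  refine ((integrable_const (2 : ℝ)).add ((integrable_exp_mul_gaussianReal (μ := 0) (v := 1)
    (-4 * √4)).const_mul 2)).mono' ((c.comp (by fun_prop)).pow 2).aestronglyMeasurable
    (.of_forall fun t => ?_)
  have h1 := pow_le_pow_left₀ (p _).le (b (√4 * t)).2.2 2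
  have h2 : exp (-4 * √4 * t) = exp (-2 * (√4 * t)) ^ 2 := by rw [← exp_nat_mul]; congr 1; push_cast; ring
  rw [Real.norm_eq_abs, abs_of_nonneg (sq_nonneg _), Pi.add_apply, h2]
  nlinarith [sq_nonneg (1 - exp (-2 * (√4 * t)))]

/-- the field before clipping -/
def T (Q : Mx n) (y : V n) (ω : Cube n → V n) (ζ : V n) : V n := (Q * Q) *ᵥ U (y + Q *ᵥ ζ) ω

theorem kw_eq (s : Cube n) (y : V n) :
    kw Q Λ η ω s y = cwv Q Q (rh 4 Λ) (fun _ ζ => cp η (T Q y (fun t => ω t y) ζ)) s := rfl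

theorem kx_eq (s : Cube n) (y : V n) :
    kx Q η ω s y = cav Q (fun _ ζ => exc η (T Q y (fun t => ω t y) ζ)) s := rfl

theorem cont_T (Q : Mx n) (y : V n) (ω : Cube n → V n) : Continuous (T Q y ω) :=
  continuous_const.matrix_mulVec ((cont_U ω).comp (by fun_prop))

theorem bu_T (Q : Mx n) (y : V n) (ω : Cube n → V n) : BU (T Q y ω) :=
  ⟨cont_T Q y ω, opn (Q * Q) * ∑ s, nrm (ω s), fun _ => (nrm_mulVec_le _ _).trans
    (mul_le_mul_of_nonneg_left (U_bd ω _) (opn_nonneg _))⟩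

theorem bu_cp (hη : 0 ≤ η) (Q : Mx n) (y : V n) (ω : Cube n → V n) : BU fun ζ => cp η (T Q y ω ζ) :=
  ⟨(cont_cp η).comp (cont_T Q y ω), _, fun _ => nrm_le_of_sup (abs_cp hη _)⟩

section
variable (hR : RevStmt) (h : JQ J Q)
include hR h

theorem nA (v : V n) : nrm ((Q * Q) *ᵥ v) ≤ 7 * nrm v :=
  (nrm_mulVec_le _ _).trans (mul_le_mul_of_nonneg_right (hR.opQ n J Q h).2.1 (nrm_nonneg _))

theorem nQ (v : V n) : nrm (Q *ᵥ v) ≤ 3 * nrm v :=
  (nrm_mulVec_le _ _).trans (mul_le_mul_of_nonneg_right (hR.opQ n J Q h).1 (nrm_nonneg _))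

theorem T_le (y : V n) {ω : Cube n → V n} {c : ℝ} (hc : ∀ s, nrm (ω s) ≤ c) (ζ : V n) :
    nrm (T Q y ω ζ) ≤ 7 * c := (nA hR h _).trans (by linarith [U_le (y + Q *ᵥ ζ) hc])

theorem T_lip (hP : PrStmt) (he : 0 ≤ e) (y : V n) {ω : Cube n → V n} (hω : R0 e ω) (ζ ζ' : V n) :
    nrm (T Q y ω ζ - T Q y ω ζ') ≤ 63 * e * nrm (ζ - ζ') := by
  have h1 := U_lip hP he hω (y + Q *ᵥ ζ) (y + Q *ᵥ ζ')
  rw [add_sub_add_left_eq_sub, ← mulVec_sub] at h1
  rw [T, T, ← mulVec_sub]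
  refine (nA hR h _).trans ?_
  nlinarith [mul_le_mul_of_nonneg_left (nQ hR h (ζ - ζ')) he]

theorem T_two (hP : PrStmt) (he : 0 ≤ e) (hω : RF e ω) (ζ y y' : V n) :
    nrm (T Q y (fun t => ω t y) ζ - T Q y' (fun t => ω t y') ζ) ≤ 28 * e * nrm (y - y') := by
  rw [T, T, ← mulVec_sub]
  exact (nA hR h _).trans (by linarith [U_two hP he hω (Q *ᵥ ζ) y y'])

theorem kw_rf (hC : CsStmt) (hP : PrStmt) (hw : WF CW Λ) (W1 : 1 ≤ CW) (R1 : 1 ≤ CR) (hΛ : 0 ≤ Λ)
    (hRF : ∀ (w : ℝ → ℝ) (u : Cube n → V n → V n) (M e : ℝ), W2 M w → RF e u →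
      R0 (CR * M * e) (cwv Q Q w u)) (he : 0 ≤ e) (hη : e ≤ η) (hω : RF e ω) :
    RF (CR * (CW * exp (2 * Λ)) * (63 * η)) (kw Q Λ η ω) := by
  have η0 := he.trans hη
  refine ⟨fun y => hRF _ _ _ _ hw.w2 (rf_const (by positivity)
    (fun ζ i => (abs_cp η0 _ i).trans (by linarith)) fun ζ ζ' => (cp_lip η _ _).trans
      ((T_lip hR h hP he y (hω.r0 y) ζ ζ').trans (by gcongr; exact nrm_nonneg _))), fun s y y' => ?_⟩
  have d0 := nrm_nonneg (y - y')
  rw [kw_eq, kw_eq, cwv_sub hw.gh (bu_cp η0 Q y _) (bu_cp η0 Q y' _)]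
  have h1 := cs' hC hw.gh ((bu_cp η0 Q y fun t => ω t y).sub (bu_cp η0 Q y' fun t => ω t y')).1
    (hR.opQ n J Q h).2.2 hw.ih (fun ζ => (cp_lip η _ _).trans (T_two hR h hP he hω ζ y y')) s
  have h2 : CW * (28 * e * nrm (y - y')) ^ 2 ≤ (CW * (28 * e * nrm (y - y'))) ^ 2 := by
    rw [mul_pow CW]; gcongr; nlinarith
  refine (le_of_sq (by positivity) (h1.trans h2)).trans ?_
  have E1 : 1 ≤ exp (2 * Λ) := one_le_exp (by positivity)
  calc CW * (28 * e * nrm (y - y')) = 1 * (CW * 1) * (28 * e) * nrm (y - y') := by ring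
    _ ≤ _ := by gcongr; norm_num

theorem kx_re (hP : PrStmt) (E1 : 1 ≤ CE)
    (hRE : ∀ (X : Cube n → V n → ℝ) (e : ℝ), 0 ≤ e → RE e X → SB ((CE * e) ^ 2) (cav Q X))
    (he : 0 ≤ e) (η0 : 0 ≤ η) (hω : RF e ω) : RE (CE * (63 * e)) (kx Q η ω) := by
  have hb : ∀ y ζ, exc η (T Q y (fun t => ω t y) ζ) ≤ (7 * ∑ _i : Fin n, e) ^ 2 := fun y ζ =>
    (exc_le η0 _).trans (pow_le_pow_left₀ (nrm_nonneg _)
      (T_le hR h y (fun s => nrm_le_of_sup ((hω.r0 y).sup s)) ζ) 2)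
  have hi : ∀ s y, Integrable (fun z => exc η (T Q y (fun t => ω t y) (Q *ᵥ sv s + z))) (gv (Fin n)) :=
    fun s y => int_bdd ((cont_exc η).comp ((cont_T Q y _).comp (by fun_prop))) fun z => by
      rw [abs_of_nonneg (exc_nonneg _ _)]; exact hb y _
  refine ⟨fun y => hRE _ _ (by positivity) (re_const (fun _ => exc_nonneg _ _) (fun ζ ζ' => ?_)
    ⟨_, hb y⟩), fun s y y' => ?_, _, fun s y => int_le (fun _ => exc_nonneg _ _) fun _ => hb y _⟩
  · rw [en_nrm]; exact (sqrt_exc_lip η _ _).trans (T_lip hR h hP he y (hω.r0 y) ζ ζ')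
  · refine (abs_sqrt_int (fun _ => exc_nonneg _ _) (fun _ => exc_nonneg _ _) (hi s y) (hi s y')
      fun z => (sqrt_exc_lip η _ _).trans (T_two hR h hP he hω _ y y')).trans ?_
    have d0 := nrm_nonneg (y - y')
    rw [en_nrm]
    calc 28 * e * nrm (y - y') = 1 * (28 * e) * nrm (y - y') := by ring
      _ ≤ _ := by gcongr; norm_num

theorem ky_sb (hP : PrStmt)
    (hRE : ∀ (X : Cube n → V n → ℝ) (e : ℝ), 0 ≤ e → RE e X → SB ((CE * e) ^ 2) (cav Q X))
    (he : 0 ≤ e) (y : V n) {X : Cube n → ℝ} (hX : SB (e ^ 2) X) :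
    SB ((CE * (63 * e)) ^ 2) (Ky Q y X) := by
  refine hRE _ _ (by positivity) (re_const
    (fun _ => (Kv.wt_ising 0 _).mean_nonneg fun s => (hX s).1) (fun ζ ζ' => ?_)
    ⟨∑ s, X s, fun _ => (Kv.wt_ising 0 _).mean_le fun s =>
      single_le_sum (f := X) (fun t _ => (hX t).1) (mem_univ s)⟩)
  have h1 := hP.sq n X e he hX (y + Q *ᵥ ζ) (y + Q *ᵥ ζ')
  rw [add_sub_add_left_eq_sub, ← mulVec_sub, en_nrm] at h1
  rw [en_nrm]
  refine h1.trans ?_
  nlinarith [mul_le_mul_of_nonneg_left (nQ hR h (ζ - ζ')) he, mul_nonneg he (nrm_nonneg (ζ - ζ'))]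

theorem ky_gr (hC : CsStmt) (hw : WF CW Λ) (W1 : 1 ≤ CW) (y : V n) {F : Cube n → ℝ}
    (hL : ∀ s, nrm (grad F s) ≤ L) (s : Cube n) : nrm (grad (Ky Q y F) s) ≤ 7 * CW * L := by
  have L0 : 0 ≤ L := (nrm_nonneg _).trans (hL s)
  have h1 := cs' hC hw.gr (cont_T Q y (grad F)) (hR.opQ n J Q h).2.2 hw.ir (T_le hR h y hL) s
  rw [grad_Ky hR h]
  refine le_of_sq (by positivity) (h1.trans ?_)
  rw [show (7 * CW * L) ^ 2 = CW ^ 2 * (7 * L) ^ 2 by ring]
  gcongr; nlinarith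

theorem ky_app (hC : CsStmt) (hw : WF CW Λ) (W1 : 1 ≤ CW) (η0 : 0 ≤ η) (y : V n) {F X : Cube n → ℝ}
    (hL : ∀ s, nrm (grad F s) ≤ L) (hX : ∀ s, nrm (grad F s - ω s y) ^ 2 ≤ X s) (s : Cube n) :
    nrm (grad (Ky Q y F) s - kw Q Λ η ω s y) ^ 2 ≤
      147 * CW * (Ky Q y X s + kx Q η ω s y + exp (-(Λ ^ 2 / CW)) * L ^ 2) := by
  have hk := (hR.opQ n J Q h).2.2
  have b1 := bu_T Q y (grad F)
  have b2 := bu_T Q y fun t => ω t y
  have b3 := bu_cp η0 Q y fun t => ω t y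
  have h1 := cs' hC hw.gd b1.1 hk hw.id (T_le hR h y hL) s
  have h2 := cs hC hw.gh (b1.sub b2) hk hw.ih s
  have h3 := cs hC hw.gh (b2.sub b3) hk hw.ih s
  rw [← cwv_subw hw.gr hw.gh b1] at h1
  rw [← cwv_sub hw.gh b1 b2] at h2
  rw [← cwv_sub hw.gh b2 b3] at h3
  simp only [exc_eq η0, ← kx_eq] at h3
  have h4 : cav Q (fun _ ζ => nrm (T Q y (grad F) ζ - T Q y (fun t => ω t y) ζ) ^ 2) s ≤
      49 * Ky Q y X s := by
    rw [Ky, cav, cav, ← integral_const_mul]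
    refine integral_mono_of_nonneg (.of_forall fun _ => sq_nonneg _)
      ((int_pw Q y _ X).const_mul _) (.of_forall fun z => ?_)
    beta_reduce
    rw [T, T, ← mulVec_sub, U_sub]
    refine (pow_le_pow_left₀ (nrm_nonneg _) (nA hR h _) 2).trans ?_
    have := (U_sq (y + Q *ᵥ (Q *ᵥ sv s + z)) fun t => grad F t - ω t y).trans
      ((Kv.wt_ising 0 _).mean_mono hX)
    rw [mul_pow, pw]; linarith
  have h5 := sq3 (cwv Q Q (rho 4) (fun _ => T Q y (grad F)) s - cwv Q Q (rh 4 Λ) (fun _ => T Q y (grad F)) s)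
    (cwv Q Q (rh 4 Λ) (fun _ => T Q y (grad F)) s - cwv Q Q (rh 4 Λ) (fun _ => T Q y fun t => ω t y) s)
    (cwv Q Q (rh 4 Λ) (fun _ => T Q y fun t => ω t y) s -
      cwv Q Q (rh 4 Λ) (fun _ ζ => cp η (T Q y (fun t => ω t y) ζ)) s)
  rw [sub_add_sub_cancel, sub_add_sub_cancel] at h5
  have x0 : 0 ≤ kx Q η ω s y := integral_nonneg fun _ => exc_nonneg _ _
  rw [grad_Ky hR h, kw_eq]
  refine h5.trans ?_
  have h6 := mul_le_mul_of_nonneg_left h4 (zero_le_one.trans W1)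
  nlinarith [mul_nonneg (zero_le_one.trans W1) x0]

end

theorem kw_odd (hP : PrStmt) (η0 : 0 ≤ η) (ho : OddJ ω) : OddJ (kw Q Λ η ω) := fun s y => by
  rw [kw_eq, kw_eq]
  refine cwv_odd Q (fun ζ => ?_) s
  rw [T, T, mulVec_neg, ← neg_add, U_neg hP ho, mulVec_neg, cp_neg η0]

theorem exp_big {C c Λ : ℝ} (hΛ : 1 ≤ Λ) (hc : 0 ≤ c) (h : c + 2 ≤ C) :
    c * exp (2 * Λ) ≤ exp (C * Λ) := by
  have h1 : c ≤ exp (c * Λ) := by nlinarith [add_one_le_exp (c * Λ)]
  calc c * exp (2 * Λ) ≤ exp (c * Λ) * exp (2 * Λ) := by gcongr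
    _ = exp ((c + 2) * Λ) := by rw [← exp_add]; congr 1; ring
    _ ≤ _ := by gcongr

end St47

open St47

theorem stepGlue : StepGlue := fun _ hW hC hRF hRE hP hR => by
  obtain ⟨CW, W1, hw⟩ := wf hW
  obtain ⟨CR, R1, hr⟩ := hRF 3
  obtain ⟨CE, E1, hre⟩ := hRE 3
  obtain ⟨CY, Y1, hy⟩ := StB.yhalf hRF hRE hP hR
  obtain ⟨K, K1, kW, kRW, kE, kY⟩ : ∃ K : ℝ, 1 ≤ K ∧ CW ≤ K ∧ CR * CW ≤ K ∧ CE ≤ K ∧ CY ≤ K :=
    ⟨CR * CW + CE + CY, by nlinarith, by nlinarith, by linarith, by nlinarith, by nlinarith⟩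
  obtain ⟨C, hC1, hC2⟩ : ∃ C : ℝ, 200 * K ≤ C ∧ 4 * (63 * K) ^ 2 ≤ C :=
    ⟨4 * (63 * K) ^ 2, by nlinarith, le_rfl⟩
  refine ⟨C, by linarith, fun n J Q Λ η e L ω h hΛ he hη hω => ?_⟩
  have η0 := he.trans hη
  have C0 : 0 ≤ C := by linarith
  have oQ := (hR.opQ n J Q h).1
  have w := hw Λ (by linarith)
  have hr' := fun w u M e => hr n (Fin n) Q Q w u M e oQ oQ
  have hre' := fun X e => hre n (Fin n) Q X e oQ
  have eC : C ≤ exp (C * Λ) := by nlinarith [add_one_le_exp (C * Λ)]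
  have e0 := (exp_pos (C * Λ)).le
  have r1 : RF (exp (C * Λ) * η) (kw Q Λ η ω) :=
    rf_mono (kw_rf hR h hC hP w W1 R1 (by linarith) hr' he hη hω) (by
      have := exp_big (C := C) (c := 63 * (CR * CW)) hΛ (by positivity) (by linarith)
      calc _ = 63 * (CR * CW) * exp (2 * Λ) * η := by ring
        _ ≤ _ := by gcongr)
  have le1 : CE * (63 * e) ≤ 63 * K * e := by nlinarith
  have r2 : RE (63 * K * e) (kx Q η ω) :=
    re_mono (kx_re hR h hP E1 hre' he η0 hω) (by positivity) le1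
  have big : 4 * C * (63 * K * e) ^ 2 ≤ (exp (C * Λ) * η) ^ 2 := by
    calc 4 * C * (63 * K * e) ^ 2 = C * (4 * (63 * K) ^ 2) * e ^ 2 := by ring
      _ ≤ exp (C * Λ) * exp (C * Λ) * η ^ 2 := by gcongr; exact hC2.trans eC
      _ = _ := by ring
  have c0 : 0 ≤ exp (-(Λ ^ 2 / C)) * L ^ 2 := by positivity
  have ce : exp (-(Λ ^ 2 / CW)) * L ^ 2 ≤ exp (-(Λ ^ 2 / C)) * L ^ 2 := by
    gcongr; linarith
  have x0 : ∀ s y, 0 ≤ kx Q η ω s y := fun s y => (r2.sb y s).1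
  refine ⟨r1, re_mono r2 (by positivity) (by gcongr; linarith), kw_odd hP η0,
    fun y F X hB => ?_, fun F g β X hB => ?_⟩
  · have s1 := sb_mono (ky_sb hR h hP hre' he y hB.sb) (pow_le_pow_left₀ (by positivity) le1 2)
    refine ⟨fun s => (ky_gr hR h hC w W1 y hB.gr s).trans ?_, fun s =>
      (ky_app hR h hC w W1 η0 y hB.gr hB.app s).trans ?_, r1.r0 y,
      sb_mono (sb_comb s1 (r2.sb y) (sq_nonneg _) c0 C0)
        (le_trans (by nlinarith [mul_nonneg C0 (sq_nonneg (63 * K * e))]) big)⟩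
    · have := (nrm_nonneg _).trans (hB.gr s)
      gcongr; linarith
    · have := (s1 s).1
      have := x0 s y
      gcongr; linarith
  · obtain ⟨g', d, a, rb, ob, rx⟩ := hy n J Q e L ω F g β X h he hB
    have rx' := re_mono rx (by positivity) (show CY * e ≤ 63 * K * e by gcongr; linarith)
    refine ⟨g', d, fun s y => ?_, fun s y => ?_, r1, rf_mono rb ?_, re_comb rx' r2 c0 C0
      (by positivity) big, kw_odd hP η0 hB.oω, ob⟩
    · have := (nrm_nonneg _).trans (hB.gr s y).1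
      exact ⟨(ky_gr hR h hC w W1 y (fun t => (hB.gr t y).1) s).trans (by gcongr; linarith),
        (a s y).1.trans (by gcongr; linarith)⟩
    · have h1 := ky_app hR h hC w W1 η0 y (X := fun t => X t y) (fun t => (hB.gr t y).1)
        (fun t => le_trans (le_add_of_nonneg_right (sq_nonneg _)) (hB.app t y)) s
      have h2 := (a s y).2
      have k0 := (rx.sb y s).1
      have k1 := x0 s y
      change _ ≤ 147 * CW * (Kop Q X s y + _ + _) at h1
      refine (add_le_add h1 h2).trans ?_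
      calc _ ≤ 147 * K * (Kop Q X s y + kx Q η ω s y + exp (-(Λ ^ 2 / C)) * L ^ 2) +
            K * (Kop Q X s y + kx Q η ω s y + exp (-(Λ ^ 2 / C)) * L ^ 2) := by
            gcongr; linarith
        _ = 148 * K * (Kop Q X s y + kx Q η ω s y + exp (-(Λ ^ 2 / C)) * L ^ 2) := by ring
        _ ≤ _ := by gcongr; linarith
    · gcongr; linarith

end Crest.Agent.T157.K
end
end

-- ▼ part T157/KTr_62
section

/-!
# Row 157, part B, block S5 (helper62): transfer of small means, transport with a regular gradient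
-/

set_option autoImplicit false

noncomputable section

namespace Crest.Agent.T157.K

namespace Tr62

open Finset Matrix Real
open Crest.Agent.T157.Chain22 Crest.Agent.T157.Ent
open Crest.Agent.T157.E (Cube prob sv)
open Crest.Agent.T157.Eig (nrm opn)
open Crest.Agent.T157.Rec (grad fl)
open Crest.Agent.T157.S3.Hb (Dw OpL kl0 dsn mean_neg' grad_neg_dot sub_le_of_lmgf tl mean_tl isP_tl
  kl_tl)
open Crest.Agent.T157.S3.Hd

variable {n : ℕ} {w ν R : Cube n → ℝ} {K ε A θ e : ℝ}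

theorem opL {ω : Cube n → Fin n → ℝ} (h : ∀ s, opn (Reg.jac ω s) ≤ e) : OpL ω (e ^ 2) := fun x v => by
  have e0 : 0 ≤ e := (Eig.opn_nonneg _).trans (h x)
  have a : nrm ((Reg.jac ω x)ᵀ *ᵥ v) ≤ e * nrm v := (Eig.nrm_mulVec_le _ _).trans
    (mul_le_mul_of_nonneg_right ((Eig.opn_transpose _).trans_le (h x)) (Eig.nrm_nonneg _))
  have b := pow_le_pow_left₀ (Eig.nrm_nonneg _) a 2
  rw [mul_pow, Eig.nrm_sq, Eig.nrm_sq] at b
  refine le_trans (sum_le_sum fun j _ => ?_) b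
  have c : ((Reg.jac ω x)ᵀ *ᵥ v) j = v ⬝ᵥ ω (fl x j) - v ⬝ᵥ ω x := by
    simp only [mulVec, dotProduct, Reg.jac, transpose_apply, of_apply, ← sum_sub_distrib]
    exact sum_congr rfl fun i _ => by ring
  rw [c, Rec.grad_eq]
  have := Rec.sv_mul_self x j
  nlinarith [mul_self_nonneg (v ⬝ᵥ ω (fl x j) - v ⬝ᵥ ω x)]

theorem one (hw : ∀ x, 0 < w x) (h : AD w K ε) (hA : ∀ x, grad R x ⬝ᵥ grad R x ≤ A)
    {Om : Cube n → Fin n → ℝ} {a B : ℝ} (ha : 0 ≤ a) (hθ : 0 < θ)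
    (hn : K ^ 2 * θ ^ 2 * A ≤ n) (he : ∀ x j, 4 * θ * |Om x j| ≤ 1)
    (hZ : ∀ ν, IsP ν → mean ν (fun x => 6 * ∑ j, Dw w x j * Om x j ^ 2 +
      16 * ∑ j, (grad R x j - Om x j) ^ 2) ≤ a * kl ν (prob w) + B)
    (hs : 2 * K * θ ^ 2 * a ≤ 1) :
    lmgf (prob w) R θ ≤ θ * mean (prob w) R + (2 * K * B + 2 * ε * A) * θ ^ 2 := by
  have hp := isP_prob' hw
  have hK := h.pos.le
  refine herbst hp R hθ.le fun u hu hu' => ?_
  have M := mean_exp_pos hp fun x => u * R x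
  have hP := isP_tl hp fun x => u * R x
  have H0 := kl0 hw hP
  have A0 := (dsn _).trans (hA default)
  have e1 := ent_exp_tr hw h hA hu.le (le_trans (by gcongr) hn) fun x j => le_trans
    (mul_le_mul_of_nonneg_right (by linarith) (abs_nonneg _)) (he x j)
  have e2 := div_le_div_of_nonneg_right e1 M.le
  rw [← kl_tl hp, add_div, mul_div_cancel_right₀ _ M.ne', mul_div_assoc, ← mean_tl,
    mean_const_mul] at e2
  rw [← div_le_iff₀ M, ← kl_tl hp]
  have e3 := hZ _ hP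
  have k0 : 0 ≤ K * u ^ 2 := by positivity
  have e5 : 2 * (K * u ^ 2) * a ≤ 1 := by
    refine le_trans ?_ hs
    rw [← mul_assoc]
    gcongr
  generalize kl (tl (prob w) fun x => u * R x) (prob w) = H at *
  nlinarith [mul_le_mul_of_nonneg_right e5 H0, mul_le_mul_of_nonneg_left e3 k0]

/-- **(TR)** with one budget for the whole carré du champ -/
theorem two (hw : ∀ x, 0 < w x) (h : AD w K ε) (hA : ∀ x, grad R x ⬝ᵥ grad R x ≤ A)
    {Om : Cube n → Fin n → ℝ} {a B : ℝ} (ha : 0 ≤ a) (hθ : 0 < θ)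
    (hn : K ^ 2 * θ ^ 2 * A ≤ n) (he : ∀ x j, 4 * θ * |Om x j| ≤ 1)
    (hZ : ∀ ν, IsP ν → mean ν (fun x => 6 * ∑ j, Dw w x j * Om x j ^ 2 +
      16 * ∑ j, (grad R x j - Om x j) ^ 2) ≤ a * kl ν (prob w) + B)
    (hs : 2 * K * θ ^ 2 * a ≤ 1) (hν : IsP ν) :
    |mean ν R - mean (prob w) R| ≤ kl ν (prob w) / θ + (2 * K * B + 2 * ε * A) * θ := by
  have a1 := sub_le_of_lmgf hw hν hθ (one hw h hA ha hθ hn he hZ hs)
  have a2 := sub_le_of_lmgf hw hν hθ (one hw h (R := fun x => -1 * R x)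
    (fun x => (grad_neg_dot R x).trans_le (hA x))
    (Om := fun x j => -Om x j) (B := B) ha hθ hn (by simpa only [abs_neg] using he)
    (fun ν hν => (mean_congr fun x => by
      simp only [neg_sq, Rec.grad_const_mul, Pi.smul_apply, smul_eq_mul]
      congr 2
      exact sum_congr rfl fun j _ => by ring).trans_le (hZ ν hν)) hs)
  rw [mean_neg', mean_neg'] at a2
  exact abs_le.2 ⟨by linarith, a1⟩

theorem nsq (u : Fin n → ℝ) : nrm u ^ 2 = ∑ j, u j ^ 2 := by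
  rw [Eig.nrm_sq]; simp only [dotProduct, sq]

theorem trf : TrfStmt := fun K => ⟨32 * |K| + 2, by linarith [abs_nonneg K],
  fun n w v X e ε y y' hw h hv hX => by
  have K0 := h.pos
  have a := sb hw h (sq_nonneg e) (fun s => (hX.sb y s).1) (fun s => (hX.sb y s).2) hv.isP
  have b : mean (prob v) (fun s => X s y') ≤
      mean (prob v) fun s => 2 * X s y + 2 * (e ^ 2 * nrm (y' - y) ^ 2) := hv.isP.mean_mono fun s => by
    have c := pow_le_pow_left₀ (abs_nonneg _) (hX.lip s y' y) 2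
    rw [sq_abs, mul_pow, Conc.en, sq_sqrt (sum_nonneg fun _ _ => sq_nonneg _), ← nsq] at c
    nlinarith [sq_sqrt (hX.sb y s).1, sq_sqrt (hX.sb y' s).1, sq_nonneg (√(X s y') - 2 * √(X s y))]
  rw [mean_add', mean_const_mul, hv.isP.mean_const] at b
  have H0 := kl0 hw hv.isP
  change mean (prob v) _ ≤ 4 * mean (prob w) _ + _ * (kl (prob v) (prob w) + _ + 1)
  rw [abs_of_pos K0]
  have := mul_nonneg (sq_nonneg e) H0
  have := mul_nonneg K0.le (mul_nonneg (sq_nonneg e) (sq_nonneg (nrm (y' - y))))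
  nlinarith [sq_nonneg e]⟩

theorem tr : TrStmt := fun K => ⟨4000 * (K ^ 2 + 1), by nlinarith [sq_nonneg K],
  fun n w v F X ω e L ε θ J y _ _ _ ew h hv hF hθ h1 h2 => by
  have hw : ∀ x, 0 < w x := fun x => ew ▸ exp_pos _
  have hp := isP_prob' hw
  have K0 := h.pos
  have e0 : 0 ≤ e := (Eig.opn_nonneg _).trans (hF.r0.op default)
  have L0 : 0 ≤ L := (Eig.nrm_nonneg _).trans (hF.gr default)
  have ε0 := h.nn
  have c1 : 2000 * K ≤ 4000 * (K ^ 2 + 1) := by nlinarith [sq_nonneg (K - 1)]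
  have t1 : 0 ≤ θ * e := by positivity
  have t2 : 0 ≤ θ * L := by positivity
  have ap : ∀ x, ∑ j, (grad F x j - ω x j) ^ 2 ≤ X x := fun x =>
    (nsq (grad F x - ω x)).symm.trans_le (hF.app x)
  obtain ⟨G, hG⟩ : ∃ G, G = mean (prob w) fun s => nrm (grad F s) ^ 2 := ⟨_, rfl⟩
  have G0 : 0 ≤ G := hG ▸ hp.mean_nonneg fun _ => sq_nonneg _
  have X0 : 0 ≤ mean (prob w) X := hp.mean_nonneg fun s => (hF.sb s).1
  have z0 : mean (prob w) (fun x => ∑ j, ω x j ^ 2) ≤ 2 * G + 2 * mean (prob w) X := by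
    rw [hG, ← mean_const_mul, ← mean_const_mul, ← mean_add']
    refine hp.mean_mono fun x => le_trans ?_
      (add_le_add le_rfl (mul_le_mul_of_nonneg_left (ap x) zero_le_two))
    simp only [nsq, mul_sum, ← sum_add_distrib]
    exact sum_le_sum fun j _ => by nlinarith [sq_nonneg (2 * grad F x j - ω x j)]
  have k := two hw h (A := L ^ 2) (Om := ω) (a := 1792 * K * e ^ 2)
    (B := 24 * G + 56 * mean (prob w) X + 1792 * K * e ^ 2)
    (fun x => (Eig.nrm_le_iff L0).1 (hF.gr x)) (by positivity) hθ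
    (by
      have := pow_le_pow_left₀ (by positivity) (show K * (θ * L) ≤ √n by nlinarith) 2
      rw [sq_sqrt n.cast_nonneg] at this
      linarith)
    (fun x j => by nlinarith [mul_le_mul_of_nonneg_left (hF.r0.sup x j) hθ.le, sq_nonneg K])
    (fun ν hν => by
      have a := OpL.h2 hw h (sq_nonneg e) (opL hF.r0.op) hν
      have b := sb hw h (sq_nonneg e) (fun s => (hF.sb s).1) (fun s => (hF.sb s).2) hν
      have c : mean ν (fun x => 6 * ∑ j, Dw w x j * ω x j ^ 2 + 16 * ∑ j, (grad F x j - ω x j) ^ 2) ≤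
          mean ν fun x => 6 * ∑ j, ω x j ^ 2 + 16 * X x := hν.mean_mono fun x => by
        linarith [ap x, sum_le_sum (s := univ) fun j _ =>
          mul_le_of_le_one_left (sq_nonneg (ω x j)) (S3.Hb.Dw_le_one hw x j)]
      rw [mean_add' (fun x => 6 * ∑ j, ω x j ^ 2), mean_const_mul, mean_const_mul] at c
      linarith)
    (by
      have := pow_le_pow_left₀ (by positivity) (show 2000 * K * (θ * e) ≤ 1 by nlinarith) 2
      nlinarith [sq_nonneg (K * (θ * e))]) hv.isP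
  change |mean (prob v) F - mean (prob w) F| ≤ kl (prob v) (prob w) / θ +
    _ * (mean (prob w) _ + mean (prob w) X + _ + _)
  rw [← hG, mul_right_comm]
  refine k.trans (add_le_add le_rfl (mul_le_mul_of_nonneg_right ?_ hθ.le))
  have q := mul_nonneg ε0 (sq_nonneg L)
  nlinarith [mul_le_mul_of_nonneg_right c1 G0, mul_le_mul_of_nonneg_right c1 X0, sq_nonneg e,
    mul_nonneg K0.le G0, mul_nonneg K0.le X0, mul_nonneg (sq_nonneg K) q, sq_nonneg (K * e)]⟩

end Tr62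

theorem trfStmt : TrfStmt := Tr62.trf
theorem trStmt : TrStmt := Tr62.tr

end Crest.Agent.T157.K

end
end

-- ▼ part T157/KAll_66

/-!
# Row 157, block S5 (helper66): the statements of `KDef_36`, unconditionally
-/

namespace Crest.Agent.T157.K

theorem stepStmt : StepStmt := stepGlue gradStmt wStmt csStmt rfStmt reStmt prStmt revStmt
theorem tailStmt : TailStmt := tailGlue concStmt prStmt revStmt
theorem progStmt : ProgStmt := progGlue revStmt stepStmt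
theorem bpStmt : BpStmt := bpGlue Z.lipStmt concStmt
theorem baseStmt : BaseStmt := baseGlue gradStmt wStmt csStmt rfStmt reStmt concStmt revStmt bpStmt
theorem psiStmt : PsiStmt := psiGlue revStmt stepStmt tailStmt baseStmt
theorem dirStmt : DirStmt := dirGlue rfStmt reStmt revStmt
theorem z0Stmt : Z0Stmt := z0Glue revStmt gapStmt dirStmt trStmt
theorem foStmt : FoStmt := foGlue prStmt revStmt
theorem gtStmt : GtStmt := gtGlue rfStmt prStmt revStmt
theorem phiStmt : PhiStmt :=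
  phiGlue gradStmt wStmt csStmt rfStmt reStmt revStmt bpStmt dirStmt psiStmt

end Crest.Agent.T157.K
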