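import Crest.Agent.T157.NetDef_32

/-!
# Row 157, block B/S3 (helper54): calculus of bounded smooth functions (`DxStmt`, `BsStmt`)
-/

set_option autoImplicit false

noncomputable section

namespace Crest.Agent.T157.Nt

open Matrix Real Set
open Crest.ProbabilityR.SpinGlassDynamics (spin)

theorem dxStmt : DxStmt := by
  intro J L _ _
  have hpb : ∀ {K : Type} [Fintype K] [DecidableEq K] (M : Matrix K L ℝ) (l : L) {F : Fj J K},
      Df F → Df (pb M F) ∧ dx l (pb M F) = ∑ x, M x l • pb M (dx x F) := by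
    intro K _ _ M l F hF
    have h : ∀ θ s x, HasFDerivAt (pb M F θ s) ((fderiv ℝ (F θ s) (M *ᵥ x)).comp
        (LinearMap.toContinuousLinearMap M.mulVecLin)) x := fun θ s x =>
      (hF θ s _).hasFDerivAt.comp x (LinearMap.toContinuousLinearMap M.mulVecLin).hasFDerivAt
    refine ⟨fun θ s x => (h θ s x).differentiableAt, ?_⟩
    funext θ s x
    have e : M *ᵥ Pi.single l 1 = ∑ y, M y l • (Pi.single y 1 : K → ℝ) := by
      ext y; simp [Pi.single_apply]
    simp only [dx, (h θ s x).fderiv, ContinuousLinearMap.comp_apply,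
      LinearMap.coe_toContinuousLinearMap', mulVecLin_apply, e, map_sum, map_smul,
      Finset.sum_apply, Pi.smul_apply, pb]
  have hsm : ∀ (l : L) (c : J → ℝ) (F : Fj J L), dx l (cb c * F) = cb c * dx l F := fun l c F => by
    funext θ s x
    exact congrFun (congrArg (fun A => (A x : (L → ℝ) → ℝ))
      (fderiv_const_smul_field (𝕜 := ℝ) (f := F θ s) (c θ))) _
  refine ⟨fun l F G hF hG => ?_, fun l F G hF hG => ?_, fun l F G hF hG => ?_,
    fun l c F => hsm l (fun _ => c) F, fun l I T F hF => ?_, fun l c => ?_, hsm, fun l => ?_,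
    fun l m => ?_, fun l F hF => ?_, hpb, fun e F => ?_, fun M S o u o' u' a hS ho hu ha => ?_⟩
  · funext θ s x
    simp only [dx, Pi.add_apply, fderiv_add (hF θ s x) (hG θ s x), _root_.add_apply]
  · funext θ s x
    simp only [dx, Pi.sub_apply, fderiv_sub (hF θ s x) (hG θ s x), _root_.sub_apply]
  · funext θ s x
    simp only [dx, Pi.mul_apply, Pi.add_apply, fderiv_mul (hF θ s x) (hG θ s x),
      _root_.add_apply, _root_.smul_apply, smul_eq_mul]
    ring
  · funext θ s x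
    simp only [dx, Finset.sum_apply, fderiv_sum fun i hi => hF i hi θ s x,
      _root_.sum_apply]
  · funext θ s x
    change fderiv ℝ (fun _ => c θ) x _ = 0
    simp
  · funext θ s x
    change fderiv ℝ (fun _ => spin s) x _ = 0
    simp
  · funext θ s x
    change fderiv ℝ (fun x : L → ℝ => x m) x _ = _
    rw [(hasFDerivAt_apply m x).fderiv]
    by_cases h : l = m <;> simp [h, Ne.symm]
  · funext θ s x
    change fderiv ℝ (fun x => (F θ true x - F θ false x) * 2⁻¹) x _ = _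
    rw [(((hF θ true x).hasFDerivAt.fun_sub (hF θ false x).hasFDerivAt).mul_const 2⁻¹).fderiv]
    simp only [gs, dx, _root_.smul_apply, _root_.sub_apply, smul_eq_mul]
    ring
  · funext θ s x
    simp only [res, pb]
    congr 1
    ext y
    simp [mulVec, dotProduct]
  · have h1 : ∀ {v : L} {v' : _}, M v' = Pi.single v 1 → ∀ j, (M * S) v' j = S v j :=
      fun {v v'} hv j => by simp [mul_apply, hv, Pi.single_apply]
    have h2 : (M * S * Mᵀ) o' u' = S o u := by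
      rw [mul_apply]; simp [h1 ho, hu, Pi.single_apply]
    funext θ s x
    have h3 : (M *ᵥ x) u' = x u := by simp [mulVec, hu]
    simp only [dl, (hpb M _ ha).2, pb, Pi.sub_apply, Pi.mul_apply, Finset.sum_apply, Pi.smul_apply,
      smul_eq_mul, co, sp, h2, h3, mul_apply (M := M * S), h1 hu, transpose_apply, Finset.mul_sum,
      Finset.sum_mul, mul_assoc]
    rw [Finset.sum_comm]

namespace Bs54

/-- bounded derivatives of all orders, by induction -/
lemma iter {E Θ ι : Type} [NormedAddCommGroup E] [NormedSpace ℝ E] [Fintype ι] (q : ι → E →L[ℝ] ℝ)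
    {S : Set (Θ → E → ℝ)} (hS : ∀ f ∈ S, (∃ C, ∀ θ x, |f θ x| ≤ C) ∧ ∃ g : ι → Θ → E → ℝ,
      (∀ i, g i ∈ S) ∧ ∀ θ x, HasFDerivAt (f θ) (∑ i, g i θ x • q i) x) (k : ℕ) :
    ∀ f ∈ S, ∃ C, ∀ θ, ContDiff ℝ k (f θ) ∧ ∀ j ≤ k, ∀ x, ‖iteratedFDeriv ℝ j (f θ) x‖ ≤ C := by
  induction k with
  | zero =>
    intro f hf
    obtain ⟨⟨C, hC⟩, g, -, h⟩ := hS f hf
    refine ⟨C, fun θ => ⟨contDiff_zero.2 (continuous_iff_continuousAt.2 fun x =>
      (h θ x).continuousAt), fun j hj x => ?_⟩⟩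
    rw [Nat.le_zero.1 hj, norm_iteratedFDeriv_zero]
    exact hC θ x
  | succ k ih =>
    intro f hf
    obtain ⟨⟨C, hC⟩, g, hg, h⟩ := hS f hf
    choose D hD using fun i => ih _ (hg i)
    refine ⟨max C (∑ i, ‖ContinuousLinearMap.toSpanSingleton ℝ (q i)‖ * D i), fun θ =>
      ⟨contDiff_succ_iff_hasFDerivAt.2 ⟨_, ContDiff.sum fun i _ =>
        (hD i θ).1.smul contDiff_const, h θ⟩, fun j hj x => ?_⟩⟩
    rcases j with _ | j
    · rw [norm_iteratedFDeriv_zero]
      exact (hC θ x).trans (le_max_left _ _)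
    have hj' : j ≤ k := Nat.le_of_succ_le_succ hj
    rw [← norm_iteratedFDeriv_fderiv, show fderiv ℝ (f θ) = _ from funext fun x => (h θ x).fderiv,
      iteratedFDeriv_fun_sum_apply (f := fun i x => g i θ x • q i) fun i _ =>
        (((hD i θ).1.of_le (by exact_mod_cast hj')).smul contDiff_const).contDiffAt]
    refine (norm_sum_le _ _).trans ((Finset.sum_le_sum fun i _ => ?_).trans (le_max_right _ _))
    exact ((ContinuousLinearMap.toSpanSingleton ℝ (q i)).norm_iteratedFDeriv_comp_left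
      (hD i θ).1.contDiffAt (by exact_mod_cast hj')).trans
      (mul_le_mul_of_nonneg_left ((hD i θ).2 j hj' x) (norm_nonneg _))

variable {L K : Type} [Fintype L] [DecidableEq L] [Fintype K] [DecidableEq K] {F G : Fn L}

/-- the joint function -/
abbrev U (F : Fn L) (s : Bool) : ℝ × (L → ℝ) → ℝ := fun p => F p.1 s p.2
/-- coordinate vectors -/
def ee : Option L → ℝ × (L → ℝ)
  | none => (1, 0)
  | some l => (0, Pi.single l 1)
/-- coordinates -/
def pp : Option L → (ℝ × (L → ℝ)) →L[ℝ] ℝ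
  | none => ContinuousLinearMap.fst ℝ _ _
  | some l => (ContinuousLinearMap.proj l).comp (ContinuousLinearMap.snd ℝ _ _)

lemma sum_ee (v : ℝ × (L → ℝ)) : v = ∑ i, pp i v • ee i := by
  rw [Fintype.sum_option]
  ext
  · simp [pp, ee, Prod.fst_sum]
  · simp [pp, ee, Prod.snd_sum, Pi.single_apply]

lemma dd_of {D : Bool → ℝ × (L → ℝ) → (ℝ × (L → ℝ)) →L[ℝ] ℝ}
    (h : ∀ s p, HasFDerivAt (U F s) (D s p) p) (i : Option L) :
    dd i F = fun b s x => D s (b, x) (ee i) := by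
  funext b s x
  cases i with
  | none =>
    exact ((h s (b, x)).comp_hasDerivAt b ((hasDerivAt_id b).prodMk (hasDerivAt_const b x))).deriv
  | some l =>
    have := ((h s (b, x)).comp x (hasFDerivAt_prodMk_right b x)).fderiv
    exact congrFun (congrArg (fun A : (L → ℝ) →L[ℝ] ℝ => (A : (L → ℝ) → ℝ)) this) _

omit [DecidableEq L] in
lemma B1.hd (h : B1 F) (s : Bool) (p : ℝ × (L → ℝ)) : HasFDerivAt (U F s) (fderiv ℝ (U F s) p) p :=
  ((h.1 s).differentiable one_ne_zero p).hasFDerivAt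

lemma B1.dd (h : B1 F) (i : Option L) : dd i F = fun b s x => fderiv ℝ (U F s) (b, x) (ee i) :=
  dd_of (B1.hd h) i

lemma B1.ap (h : B1 F) (s : Bool) (p v : ℝ × (L → ℝ)) :
    fderiv ℝ (U F s) p v = ∑ i, pp i v * Nt.dd i F p.1 s p.2 := by
  conv_lhs => rw [sum_ee v]
  simp only [map_sum, map_smul, smul_eq_mul, B1.dd h]

lemma b1 (h : BS F) : B1 F := h []
lemma bdd (h : BS F) (i : Option L) : BS (dd i F) := fun w => h (i :: w)

lemma bs_of {S : Set (Fn L)} (hS : ∀ h ∈ S, B1 h ∧ ∀ i, dd i h ∈ S) (hF : F ∈ S) : BS F :=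
  fun w => by
  induction w generalizing F with
  | nil => exact (hS F hF).1
  | cons i l ih => exact ih ((hS F hF).2 i)

lemma bs_spin (c : Bool → ℝ) : BS (fun _ s _ => c s : Fn L) :=
  bs_of (S := range fun (c : Bool → ℝ) => (fun _ s _ => c s : Fn L)) (by
    rintro _ ⟨c, rfl⟩
    refine ⟨⟨fun _ => contDiff_const, ∑ s, |c s|, fun _ s _ =>
      Finset.single_le_sum (f := fun s => |c s|) (fun _ _ => abs_nonneg _) (Finset.mem_univ s)⟩,
      fun i => ⟨0, ?_⟩⟩
    rw [dd_of (D := fun _ _ => 0) fun s p => hasFDerivAt_const (c s) p]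
    rfl) ⟨c, rfl⟩

lemma bs_adjoin {T : Set (Fn L)} (hT : ∀ h ∈ T, B1 h ∧ ∀ i, dd i h ∈ Algebra.adjoin ℝ T)
    (hF : F ∈ Algebra.adjoin ℝ T) : BS F := by
  refine bs_of (S := Algebra.adjoin ℝ T) (fun h hh => ?_) hF
  induction hh using Algebra.adjoin_induction with
  | mem x hx => exact hT x hx
  | algebraMap r =>
    refine ⟨b1 (bs_spin fun _ => r), fun i => ?_⟩
    rw [dd_of (D := fun _ _ => 0) fun s p => hasFDerivAt_const r p]
    exact zero_mem _
  | add x y _ _ hx hy =>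
    obtain ⟨C, hC⟩ := hx.1.2
    obtain ⟨C', hC'⟩ := hy.1.2
    refine ⟨⟨fun s => (hx.1.1 s).add (hy.1.1 s), C + C', fun b s z =>
      (abs_add_le _ _).trans (add_le_add (hC b s z) (hC' b s z))⟩, fun i => ?_⟩
    have : dd i (x + y) = dd i x + dd i y := by
      rw [dd_of (F := x + y) fun s p => (B1.hd hx.1 s p).add (B1.hd hy.1 s p), B1.dd hx.1,
        B1.dd hy.1]
      rfl
    rw [this]; exact add_mem (hx.2 i) (hy.2 i)
  | mul x y mx my hx hy =>
    obtain ⟨C, hC⟩ := hx.1.2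
    obtain ⟨C', hC'⟩ := hy.1.2
    refine ⟨⟨fun s => (hx.1.1 s).mul (hy.1.1 s), C * C', fun b s z => (abs_mul _ _).trans_le
      (mul_le_mul (hC b s z) (hC' b s z) (abs_nonneg _) ((abs_nonneg _).trans (hC b s z)))⟩,
      fun i => ?_⟩
    have : dd i (x * y) = x * dd i y + y * dd i x := by
      rw [dd_of (F := x * y) fun s p => (B1.hd hx.1 s p).mul (B1.hd hy.1 s p), B1.dd hx.1,
        B1.dd hy.1]
      rfl
    rw [this]; exact add_mem (mul_mem mx (hy.2 i)) (mul_mem my (hx.2 i))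

/-- the algebra of the bounded smooth functions -/
abbrev AA (L : Type) [Fintype L] [DecidableEq L] : Subalgebra ℝ (Fn L) := Algebra.adjoin ℝ {F | BS F}

lemma mem (h : BS F) : F ∈ AA L := Algebra.subset_adjoin h

lemma alg (h : F ∈ AA L) : BS F := bs_adjoin (fun _ hh => ⟨b1 hh, fun i => mem (bdd hh i)⟩) h

/-- linear change of variables -/
def pull (Λ : (ℝ × (L → ℝ)) →L[ℝ] ℝ × (K → ℝ)) (σ : Bool → Bool) (F : Fn K) : Fn L :=
  fun b s x => U F (σ s) (Λ (b, x))

lemma bs_pull (Λ : (ℝ × (L → ℝ)) →L[ℝ] ℝ × (K → ℝ)) (σ : Bool → Bool) {F : Fn K} (h : BS F) :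
    BS (pull Λ σ F) :=
  bs_adjoin (T := pull Λ σ '' {F | BS F}) (by
    rintro _ ⟨F, hF, rfl⟩
    obtain ⟨C, hC⟩ := (b1 hF).2
    refine ⟨⟨fun s => ((b1 hF).1 (σ s)).comp Λ.contDiff, C, fun b s x => hC _ _ _⟩, fun i => ?_⟩
    have : dd i (pull Λ σ F) = ∑ j, pp j (Λ (ee i)) • pull Λ σ (dd j F) := by
      rw [dd_of (F := pull Λ σ F) fun s p => (B1.hd (b1 hF) (σ s) (Λ p)).comp p Λ.hasFDerivAt]
      funext b s x
      simp only [ContinuousLinearMap.comp_apply, B1.ap (b1 hF), Finset.sum_apply, Pi.smul_apply,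
        smul_eq_mul, pull]
    rw [this]
    exact sum_mem fun j _ => Subalgebra.smul_mem _ (Algebra.subset_adjoin
      (mem_image_of_mem _ (bdd hF j))) _) (Algebra.subset_adjoin ⟨F, h, rfl⟩)

/-- functions of a linear form -/
def cl (l : (ℝ × (L → ℝ)) →L[ℝ] ℝ) : (ℝ → ℝ) →ₐ[ℝ] Fn L where
  toFun φ := fun b _ x => φ (l (b, x))
  map_one' := rfl
  map_mul' _ _ := rfl
  map_zero' := rfl
  map_add' _ _ := rfl
  commutes' _ := rfl

lemma bs_cl (l : (ℝ × (L → ℝ)) →L[ℝ] ℝ) {T : Set (ℝ → ℝ)} (hT : ∀ φ ∈ T, ContDiff ℝ 1 φ ∧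
    (∀ x, |φ x| ≤ 1) ∧ ∃ ψ ∈ Algebra.adjoin ℝ T, ∀ x, HasDerivAt φ (ψ x) x) {φ : ℝ → ℝ}
    (h : φ ∈ T) : BS (cl l φ) :=
  bs_adjoin (T := cl l '' T) (by
    rintro _ ⟨φ, h, rfl⟩
    obtain ⟨h1, h2, ψ, h3, h4⟩ := hT φ h
    refine ⟨⟨fun s => h1.comp l.contDiff, 1, fun b s x => h2 _⟩, fun i => ?_⟩
    have : dd i (cl l φ) = l (ee i) • cl l ψ := by
      rw [dd_of (F := cl l φ) fun s p => (h4 (l p)).comp_hasFDerivAt p l.hasFDerivAt]
      funext b s x
      exact mul_comm _ _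
    rw [this, Algebra.adjoin_image]
    exact Subalgebra.smul_mem _ (Subalgebra.mem_map.2 ⟨ψ, h3, rfl⟩) _)
    (Algebra.subset_adjoin ⟨φ, h, rfl⟩)

lemma bs_tanh (l : (ℝ × (L → ℝ)) →L[ℝ] ℝ) : BS (cl l tanh) :=
  bs_cl l (T := {tanh}) (by
    rintro _ rfl
    exact ⟨Tw.contDiff_tanh', fun x => (abs_tanh_lt_one x).le, 1 - tanh ^ 2, sub_mem (one_mem _)
      (pow_mem (Algebra.subset_adjoin (mem_singleton _)) 2), Tw.hasDerivAt_tanh'⟩) rfl

lemma bs_rr (l : (ℝ × (L → ℝ)) →L[ℝ] ℝ) (η : ℝ) {φ : ℝ → ℝ}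
    (h : φ ∈ ({rr η, fun x => η * (rr η x * x)} : Set (ℝ → ℝ))) : BS (cl l φ) := by
  have h0 : ∀ x : ℝ, 0 < 1 + η ^ 2 * x ^ 2 := fun x => by positivity
  have c1 : ContDiff ℝ 1 (rr η) := contDiff_const.div (by fun_prop) fun x => (h0 x).ne'
  have d1 : ∀ x, HasDerivAt (rr η) (-2 * η * (η * (rr η x * x) * rr η x)) x := fun x =>
    ((hasDerivAt_const x 1).div (((hasDerivAt_pow 2 x).const_mul (η ^ 2)).const_add 1)
      (h0 x).ne').congr_deriv (by have := (h0 x).ne'; simp only [rr]; field_simp; norm_num; ring)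
  set T : Set (ℝ → ℝ) := {rr η, fun x => η * (rr η x * x)}
  have m1 : rr η ∈ Algebra.adjoin ℝ T := Algebra.subset_adjoin (.inl rfl)
  have m2 : (fun x => η * (rr η x * x)) ∈ Algebra.adjoin ℝ T := Algebra.subset_adjoin (.inr rfl)
  refine bs_cl l ?_ h
  rintro _ (rfl | rfl)
  · refine ⟨c1, fun x => ?_, _, Subalgebra.smul_mem _ (mul_mem m2 m1) (-2 * η), d1⟩
    rw [rr, abs_of_pos (one_div_pos.2 (h0 x)), div_le_one (h0 x)]
    exact le_add_of_nonneg_right (by positivity)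
  · refine ⟨contDiff_const.mul (c1.mul contDiff_id), fun x => ?_, _, add_mem
      (Subalgebra.smul_mem _ (mul_mem m2 m2) (-2 * η)) (Subalgebra.smul_mem _ m1 η), fun x =>
      (((d1 x).mul (hasDerivAt_id x)).const_mul η).congr_deriv (by simp; ring)⟩
    beta_reduce
    rw [rr, one_div_mul_eq_div, ← mul_div_assoc, abs_div, abs_of_pos (h0 x), div_le_one (h0 x),
      ← mul_pow, ← sq_abs]
    nlinarith [sq_nonneg (|η * x| - 1), abs_nonneg (η * x)]

lemma bs_inv {k : ℝ} (hk : 0 < k) (hF : BS F) (h : ∀ b s x, k ≤ F b s x) : BS F⁻¹ := by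
  have h0 : ∀ b s x, F b s x ≠ 0 := fun b s x => (hk.trans_le (h b s x)).ne'
  refine bs_adjoin (T := insert F⁻¹ {G | BS G}) ?_ (Algebra.subset_adjoin (.inl rfl))
  rintro G (rfl | hG)
  · refine ⟨⟨fun s => ((b1 hF).1 s).inv fun p => h0 _ _ _, k⁻¹, fun b s x => ?_⟩, fun i => ?_⟩
    · exact (abs_of_pos (inv_pos.2 (hk.trans_le (h b s x)))).trans_le (inv_anti₀ hk (h b s x))
    · have : dd i F⁻¹ = -(F⁻¹ ^ 2) * dd i F := by
        rw [dd_of (F := F⁻¹) fun s p =>
          (hasDerivAt_inv (h0 p.1 s p.2)).comp_hasFDerivAt p (B1.hd (b1 hF) s p), B1.dd (b1 hF)]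
        funext b s x
        simp
      rw [this]
      exact mul_mem (neg_mem (pow_mem (Algebra.subset_adjoin (.inl rfl)) 2))
        (Algebra.subset_adjoin (.inr (bdd hF i)))
  · exact ⟨b1 hG, fun i => Algebra.subset_adjoin (.inr (bdd hG i))⟩

lemma df (h : BS F) : Df F := fun b s x =>
  ((B1.hd (b1 h) s (b, x)).comp x (hasFDerivAt_prodMk_right b x)).differentiableAt

lemma bs_rf (h : BS F) : BS (rf F) := bs_pull (-ContinuousLinearMap.id ℝ (ℝ × (L → ℝ))) not h

lemma bs_pb (M : Matrix K L ℝ) {F : Fn K} (h : BS F) : BS (pb M F) :=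
  bs_pull ((ContinuousLinearMap.id ℝ ℝ).prodMap (LinearMap.toContinuousLinearMap M.mulVecLin)) id h

lemma bs_cb {c : ℝ → ℝ} (h : BS (cb c : Fn K)) : BS (cb c : Fn L) :=
  bs_pull (L := L) ((ContinuousLinearMap.fst ℝ _ _).prod 0) id h

lemma bs_th0 (o : L) : BS (th o) := by
  convert bs_tanh (pp none + pp (some o)) using 1
  funext b s x
  simp [cl, pp, th]

lemma bs_rr1 (η : ℝ) (l : L) : BS (fun _ _ x => rr η (x l) : Fn L) :=
  bs_rr (pp (some l)) η (.inl rfl)

lemma ts (h : BS F) : TS F := fun w => by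
  induction w generalizing F with
  | nil =>
    obtain ⟨C, hC⟩ := (b1 h).2
    exact ⟨⟨fun s => ((b1 h).1 s).continuous, 0, fun _ => C, continuous_const,
      fun b s x => by simpa using hC b s x⟩, df h⟩
  | cons l w ih => exact ih (bdd h (some l))

lemma iter1 (h : BS F) (k : ℕ) : ∃ C, ∀ s, ContDiff ℝ k (U F s) ∧
    ∀ j ≤ k, ∀ p, ‖iteratedFDeriv ℝ j (U F s) p‖ ≤ C :=
  iter (E := ℝ × (L → ℝ)) pp (S := U '' {F | BS F}) (by
    rintro _ ⟨F, hF, rfl⟩
    obtain ⟨C, hC⟩ := (b1 hF).2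
    refine ⟨⟨C, fun s p => hC _ _ _⟩, fun i => U (dd i F), fun i => ⟨_, bdd hF i, rfl⟩,
      fun s p => (B1.hd (b1 hF) s p).congr_fderiv ?_⟩
    refine ContinuousLinearMap.ext fun v => ?_
    simp only [B1.ap (b1 hF), _root_.sum_apply, _root_.smul_apply, smul_eq_mul, mul_comm]) k _ ⟨F, h, rfl⟩

lemma loc (h : BS F) (k : ℕ) : ∃ C, ∀ b s, ContDiff ℝ k (F b s) ∧
    ∀ j ≤ k, ∀ x, ‖iteratedFDeriv ℝ j (F b s) x‖ ≤ C := by
  obtain ⟨C, hC⟩ := iter (E := L → ℝ) (fun l : L => ContinuousLinearMap.proj l)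
    (S := (fun (F : Fn L) (θ : ℝ × Bool) => F θ.1 θ.2) '' {F | BS F}) (by
    rintro _ ⟨F, hF, rfl⟩
    obtain ⟨C, hC⟩ := (b1 hF).2
    refine ⟨⟨C, fun θ x => hC _ _ _⟩, fun l θ => dx l F θ.1 θ.2,
      fun l => ⟨_, bdd hF (some l), rfl⟩,
      fun θ x => (df hF θ.1 θ.2 x).hasFDerivAt.congr_fderiv ?_⟩
    refine ContinuousLinearMap.ext fun v => ?_
    conv_lhs => rw [pi_eq_sum_univ' v]
    simp only [map_sum, map_smul, dx, _root_.sum_apply, _root_.smul_apply, smul_eq_mul,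
      ContinuousLinearMap.proj_apply, mul_comm]) k _ ⟨F, h, rfl⟩
  exact ⟨C, fun b s => hC (b, s)⟩

lemma bs_gs (h : BS F) : BS (gs F) := by
  have := alg (Subalgebra.smul_mem _ (sub_mem (mem (bs_pull (.id ℝ _) (fun _ => true) h))
    (mem (bs_pull (.id ℝ _) (fun _ => false) h))) (1 / 2 : ℝ))
  convert this using 1
  funext b s x
  simp only [gs, pull, U, Pi.smul_apply, Pi.sub_apply, smul_eq_mul, ContinuousLinearMap.id_apply]
  ring

lemma bs_th (v : L → ℝ) : BS (fun b _ x => tanh (b + v ⬝ᵥ x) : Fn L) := by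
  convert bs_tanh (pp none + ∑ l, v l • pp (some l)) using 1
  funext b s x
  simp [cl, pp, dotProduct]

lemma bs_yy {η : ℝ} (hη : η ≠ 0) (l : L) : BS (fun _ _ x => rr η (x l) * x l : Fn L) := by
  have := alg (Subalgebra.smul_mem _ (mem (bs_rr (pp (some l)) η (.inr rfl))) η⁻¹)
  convert this using 1
  funext b s x
  exact (inv_mul_cancel_left₀ hη _).symm

lemma rdx (l : L) (hF : Df F) : dx l (rf F) = -rf (dx l F) := by
  funext b s x
  have := ((hF (-b) (!s) (-x)).hasFDerivAt.comp x (hasFDerivAt_id x).neg).fderiv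
  exact (congrFun (congrArg (fun A : (L → ℝ) →L[ℝ] ℝ => (A : (L → ℝ) → ℝ)) this) _).trans
    (by simp [rf, dx])

end Bs54

open Bs54

theorem bsStmt : BsStmt := fun L _ _ =>
  { df := df
    bd := fun h => (b1 h).2
    ts := ts
    iter := fun h k s => (iter1 h k).elim fun C hC => ⟨(hC s).1, C, (hC s).2 k le_rfl⟩
    loc := loc
    const := fun c => bs_spin fun _ => c
    add := fun hF hG => alg (add_mem (mem hF) (mem hG))
    sub := fun hF hG => alg (sub_mem (mem hF) (mem hG))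
    mul := fun hF hG => alg (mul_mem (mem hF) (mem hG))
    smul := fun c _ hF => alg (Subalgebra.smul_mem _ (mem hF) c)
    pow := fun k _ hF => alg (pow_mem (mem hF) k)
    sum := fun _ _ hF => alg (sum_mem fun i hi => mem (hF i hi))
    dx := fun l _ h => bdd h (some l)
    db := fun h => bdd h none
    gs := bs_gs
    rf := bs_rf
    pb := fun M _ h => bs_pb M h
    cb := bs_cb
    sp := bs_spin spin
    th := bs_th
    th0 := bs_th0
    rr := bs_rr1
    yy := fun _ => bs_yy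
    inv := fun hk hc h => bs_inv hk h fun b _ _ => hc b
    rdx := fun l _ => rdx l
    rgs := fun F => by
      funext b s x
      simp only [gs, rf, Pi.neg_apply, Bool.not_true, Bool.not_false]
      ring }

end Crest.Agent.T157.Nt

end
private theorem rz_750ef75a50 : type_of% @_root_.Crest.Agent.T157.Nt.Bs54.ee.eq_1 := @_root_.Crest.Agent.T157.Nt.Bs54.ee.eq_1 -- L119
private theorem rz_e7d636b1f2 : type_of% @_root_.Crest.Agent.T157.Nt.Bs54.pp.eq_1 := @_root_.Crest.Agent.T157.Nt.Bs54.pp.eq_1 -- L123
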