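import Crest.Agent.T157.S3LDef_65
import Crest.Agent.T157.ConcM_16
import Crest.Agent.T157.ConcH_16
import Crest.Agent.T157.CondA_53
import Crest.Agent.T157.PlA_37

/-!
# Row 157, block B, S3 sec. 4 (helper58): Gaussian comparison for the cavity CLT

* `map_eq`, `int_congr`: the law of `A z` depends on `A Aᵀ` only;
* `gCmpStmt`, `meanStmt`, `mdlStmt`.
-/

set_option autoImplicit false
set_option linter.unusedSectionVars false

noncomputable section

namespace Crest.Agent.T157.S3L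

open MeasureTheory ProbabilityTheory Matrix Real
open Crest.ProbabilityR.SpinGlassDynamics
open Crest.Agent.T157.E
open Crest.Agent.T157.Conc hiding gv

namespace Clt58

variable {ι ι' κ : Type*} [Fintype ι] [Fintype ι'] [Fintype κ]

lemma int_exp (a : ι → ℝ) : Integrable (fun z => exp (a ⬝ᵥ z)) (gv ι) := by
  have := Pl.integrable_exp_dot false a
  simp only [dotProduct_comm _ a] at this
  exact this

lemma val_exp (a : ι → ℝ) : ∫ z, exp (a ⬝ᵥ z) ∂gv ι = exp (a ⬝ᵥ a / 2) := by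
  rw [← Pl.MM_false, ← Pl.integral_exp_dot false a]; simp only [dotProduct_comm]; rfl

lemma dnn (a : ι → ℝ) : 0 ≤ a ⬝ᵥ a := Finset.sum_nonneg fun _ _ => mul_self_nonneg _

lemma subG_dot (a : ι → ℝ) :
    HasSubgaussianMGF (fun z => a ⬝ᵥ z) (NNReal.mk (a ⬝ᵥ a) (dnn a)) (gv ι) := by
  refine ⟨fun t => ?_, fun t => ?_⟩
  · simpa only [smul_dotProduct, smul_eq_mul] using int_exp (t • a)
  · have := val_exp (t • a)
    simp only [smul_dotProduct, dotProduct_smul, smul_eq_mul] at this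
    simp only [mgf, this, NNReal.coe_mk]
    exact le_of_eq (by congr 1; ring)

lemma exp_abs_le (t x : ℝ) : exp (t * |x|) ≤ exp (t * x) + exp (-(t * x)) := by
  rcases abs_cases x with h | h <;> rw [h.1]
  · linarith [exp_pos (-(t * x))]
  · rw [mul_neg]; linarith [exp_pos (t * x)]

lemma int_exp_abs (a : ι → ℝ) (t : ℝ) : Integrable (fun z => exp (t * |a ⬝ᵥ z|)) (gv ι) := by
  refine ((int_exp (t • a)).add (int_exp (-(t • a)))).mono' (by fun_prop) (ae_of_all _ fun z => ?_)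
  rw [Real.norm_eq_abs, abs_of_pos (exp_pos _)]
  simp only [Pi.add_apply, neg_dotProduct, smul_dotProduct, smul_eq_mul]
  exact exp_abs_le _ _


lemma int_dot (a : ι → ℝ) : ∫ z, a ⬝ᵥ z ∂gv ι = 0 := by
  simp only [dotProduct]
  rw [integral_finsetSum _ fun i _ => (integrable_eval IsGaussian.integrable_id).const_mul _]
  simp [integral_const_mul, integral_eval]

lemma cont_mv (A : Matrix κ ι ℝ) : Continuous fun z : ι → ℝ => A *ᵥ z :=
  continuous_const.matrix_mulVec continuous_id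

lemma int_en_sq (A : Matrix κ ι ℝ) : Integrable (fun z => en (A *ᵥ z) ^ 2) (gv ι) := by
  simp only [en_sq]
  exact integrable_finsetSum _ fun l _ => subG_integrable_sq (subG_dot (A l))

lemma val_en_sq (A : Matrix κ ι ℝ) : ∫ z, en (A *ᵥ z) ^ 2 ∂gv ι ≤ (A * Aᵀ).trace := by
  simp only [en_sq]
  refine (integral_finsetSum _ fun l _ => subG_integrable_sq (subG_dot (A l))).trans_le ?_
  exact Finset.sum_le_sum fun l _ => subG_sq_le (subG_dot (A l))

lemma trace_eq (A : Matrix κ ι ℝ) : (A * Aᵀ).trace = ∑ l, ∑ k, A l k ^ 2 := by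
  simp only [trace, diag, mul_apply, transpose_apply, sq]

lemma elip_mv {φ : (κ → ℝ) → ℝ} {L : ℝ} (hL : 0 ≤ L) (h : ELip L φ) (A : Matrix κ ι ℝ) :
    ELip (L * √(fro A)) fun z => φ (A *ᵥ z) := fun x y => by
  refine (h _ _).trans ?_
  rw [← mulVec_sub, mul_assoc]
  exact mul_le_mul_of_nonneg_left (opB_fro A _) hL

lemma int_lip {φ : (κ → ℝ) → ℝ} {L : ℝ} (h : ELip L φ) (A : Matrix κ ι ℝ) :
    Integrable (fun z => φ (A *ᵥ z)) (gv ι) := (elip_mv (abs_nonneg L) h.abs A).integrable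

lemma int_en (A : Matrix κ ι ℝ) : Integrable (fun z => en (A *ᵥ z)) (gv ι) := int_lip elip_en A

lemma val_en (A : Matrix κ ι ℝ) : ∫ z, en (A *ᵥ z) ∂gv ι ≤ √(A * Aᵀ).trace := by
  have := integral_abs_le_sqrt (int_en A) (int_en_sq A)
  simp only [abs_of_nonneg (en_nonneg _)] at this
  exact this.trans (sqrt_le_sqrt (val_en_sq A))

/-- the law of `A z` depends on `A Aᵀ` only -/
theorem map_eq {A : Matrix κ ι ℝ} {B : Matrix κ ι' ℝ} (h : A * Aᵀ = B * Bᵀ) :
    (gv ι).map (fun z => A *ᵥ z) = (gv ι').map fun z => B *ᵥ z := by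
  refine Cond.ext_vec (cont_mv A).measurable (cont_mv B).measurable fun t => ?_
  simp only [dotProduct_mulVec, Cond.CF_gv]
  have e : (t ᵥ* A) ⬝ᵥ (t ᵥ* A) = t ⬝ᵥ (A * Aᵀ) *ᵥ t := by
    rw [← mulVec_mulVec, dotProduct_mulVec, mulVec_transpose]
  have e' : (t ᵥ* B) ⬝ᵥ (t ᵥ* B) = t ⬝ᵥ (B * Bᵀ) *ᵥ t := by
    rw [← mulVec_mulVec, dotProduct_mulVec, mulVec_transpose]
  rw [e, e', h]

theorem int_congr {A : Matrix κ ι ℝ} {B : Matrix κ ι' ℝ} (h : A * Aᵀ = B * Bᵀ)
    {F : (κ → ℝ) → ℝ} (hF : Measurable F) :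
    ∫ z, F (A *ᵥ z) ∂gv ι = ∫ z, F (B *ᵥ z) ∂gv ι' := by
  rw [← integral_map (cont_mv A).aemeasurable hF.aestronglyMeasurable, map_eq h,
    integral_map (cont_mv B).aemeasurable hF.aestronglyMeasurable]

lemma pert {φ : (κ → ℝ) → ℝ} (h : ELip 1 φ) (A B : Matrix κ ι ℝ) :
    |∫ z, φ (A *ᵥ z) ∂gv ι - ∫ z, φ (B *ᵥ z) ∂gv ι| ≤ √((A - B) * (A - B)ᵀ).trace := by
  rw [← integral_sub (int_lip h A) (int_lip h B)]
  refine (abs_integral_le_integral_abs.trans (integral_mono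
    ((int_lip h A).sub (int_lip h B)).abs (int_en (A - B)) fun z => ?_)).trans (val_en _)
  have := h (A *ᵥ z) (B *ᵥ z)
  rwa [one_mul, ← sub_mulVec] at this

/-- entrywise `ℓ¹` norm -/
def l1 (M : Matrix κ κ ℝ) : ℝ := ∑ l, ∑ m, |M l m|

lemma l1_nonneg (M : Matrix κ κ ℝ) : 0 ≤ l1 M :=
  Finset.sum_nonneg fun _ _ => Finset.sum_nonneg fun _ _ => abs_nonneg _

lemma col_le_l1 (M : Matrix κ κ ℝ) (c : κ → κ) : ∑ l, |M l (c l)| ≤ l1 M :=
  Finset.sum_le_sum fun l _ => Finset.single_le_sum (f := fun m => |M l m|)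
    (fun _ _ => abs_nonneg _) (Finset.mem_univ (c l))

lemma quad_le_l1 (M : Matrix κ κ ℝ) (x : κ → ℝ) : |x ⬝ᵥ M *ᵥ x| ≤ l1 M * (x ⬝ᵥ x) := by
  rw [dot_self]
  simp only [dotProduct, mulVec, Finset.mul_sum, l1, Finset.sum_mul]
  refine (Finset.abs_sum_le_sum_abs _ _).trans (Finset.sum_le_sum fun l _ =>
    (Finset.abs_sum_le_sum_abs _ _).trans (Finset.sum_le_sum fun m _ => ?_))
  rw [abs_mul, abs_mul, mul_left_comm, sq]
  exact mul_le_mul_of_nonneg_left (mul_le_mul (abs_le_en x l) (abs_le_en x m) (abs_nonneg _)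
    (en_nonneg _)) (abs_nonneg _)

open scoped MatrixOrder in
lemma exists_root [DecidableEq κ] {M : Matrix κ κ ℝ} (hM : Mᵀ = M) {d : ℝ} (hd : l1 M ≤ d) :
    ∃ S : Matrix κ κ ℝ, S * Sᵀ = M + d • (1 : Matrix κ κ ℝ) := by
  have hP : (M + d • (1 : Matrix κ κ ℝ)).PosSemidef := by
    refine PosSemidef.of_dotProduct_mulVec_nonneg ?_ fun x => ?_
    · simp [IsHermitian, conjTranspose_eq_transpose_of_trivial, transpose_add, hM]
    · simp only [star_trivial, add_mulVec, smul_mulVec, one_mulVec, dotProduct_add,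
        dotProduct_smul, smul_eq_mul]
      have h1 := (abs_le.1 (quad_le_l1 M x)).1
      nlinarith [dnn x]
  obtain ⟨B, hB⟩ := CStarAlgebra.nonneg_iff_eq_star_mul_self.1 hP.nonneg
  exact ⟨Bᵀ, by rw [hB, transpose_transpose]; rfl⟩

lemma fc_sub (M : Matrix κ ι ℝ) (X Y : Matrix κ κ ℝ) :
    (fromCols M X - fromCols M Y) * (fromCols M X - fromCols M Y)ᵀ = (X - Y) * (X - Y)ᵀ := by
  have : fromCols M X - fromCols M Y = fromCols 0 (X - Y) := by
    ext i (j | j) <;> simp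
  rw [this]; simp [transpose_fromCols, fromCols_mul_fromRows]

lemma fc_zero (M : Matrix κ ι ℝ) :
    M * Mᵀ = fromCols M (0 : Matrix κ κ ℝ) * (fromCols M (0 : Matrix κ κ ℝ))ᵀ := by
  simp [transpose_fromCols, fromCols_mul_fromRows]

/-- **Gaussian comparison** -/
theorem gcmp {φ : (κ → ℝ) → ℝ} (h : ELip 1 φ) (A : Matrix κ ι ℝ) (B : Matrix κ ι' ℝ) {d : ℝ}
    (hd : l1 (A * Aᵀ - B * Bᵀ) ≤ d) :
    |∫ z, φ (A *ᵥ z) ∂gv ι - ∫ z, φ (B *ᵥ z) ∂gv ι'| ≤ 2 * √((Fintype.card κ + 1) * d) := by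
  classical
  have d0 : 0 ≤ d := (l1_nonneg _).trans hd
  have hm := h.continuous.measurable
  obtain ⟨S, hS⟩ := exists_root (M := A * Aᵀ - B * Bᵀ) (by simp [transpose_sub, transpose_mul]) hd
  have hq : √d * √d = d := mul_self_sqrt d0
  have e3 : fromCols A (√d • (1 : Matrix κ κ ℝ)) * (fromCols A (√d • (1 : Matrix κ κ ℝ)))ᵀ =
      fromCols B S * (fromCols B S)ᵀ := by
    simp only [transpose_fromCols, fromCols_mul_fromRows, hS, transpose_smul, transpose_one,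
      Matrix.mul_smul, Matrix.mul_one, smul_smul, hq]
    abel
  have p1 := pert h (fromCols A (0 : Matrix κ κ ℝ)) (fromCols A (√d • (1 : Matrix κ κ ℝ)))
  have p2 := pert h (fromCols B S) (fromCols B (0 : Matrix κ κ ℝ))
  rw [fc_sub] at p1 p2
  rw [sub_zero, hS] at p2
  have t1 : ((0 - √d • (1 : Matrix κ κ ℝ)) * (0 - √d • (1 : Matrix κ κ ℝ))ᵀ).trace ≤
      (Fintype.card κ + 1) * d := by
    simp [smul_smul, hq]; linarith
  have t2 : (A * Aᵀ - B * Bᵀ + d • (1 : Matrix κ κ ℝ)).trace ≤ (Fintype.card κ + 1) * d := by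
    rw [trace_add, trace_smul, trace_one, smul_eq_mul]
    have : (A * Aᵀ - B * Bᵀ).trace ≤ d := (Finset.sum_le_sum fun l _ => le_abs_self _).trans
      ((col_le_l1 (A * Aᵀ - B * Bᵀ) id).trans hd)
    linarith
  have p3 := p1.trans (sqrt_le_sqrt t1)
  have p4 := p2.trans (sqrt_le_sqrt t2)
  rw [int_congr (fc_zero A) hm, int_congr (fc_zero B) hm]
  rw [int_congr e3 hm] at p3
  have := abs_sub_le (∫ z, φ (fromCols A (0 : Matrix κ κ ℝ) *ᵥ z) ∂gv (ι ⊕ κ))
    (∫ z, φ (fromCols B S *ᵥ z) ∂gv (ι' ⊕ κ))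
    (∫ z, φ (fromCols B (0 : Matrix κ κ ℝ) *ᵥ z) ∂gv (ι' ⊕ κ))
  linarith

lemma mean_sqrt_le {Ω : Type*} [Fintype Ω] {p : Ω → ℝ} (hp : ∀ x, 0 ≤ p x) (h1 : ∑ x, p x = 1)
    {f : Ω → ℝ} (hf : ∀ x, 0 ≤ f x) : ∑ x, p x * √(f x) ≤ √(∑ x, p x * f x) := by
  refine le_sqrt_of_sq_le ?_
  have := Finset.sum_mul_sq_le_sq_mul_sq Finset.univ (fun x => √(p x)) fun x => √(p x) * √(f x)
  simp only [← mul_assoc, mul_pow, mul_self_sqrt (hp _), sq_sqrt (hp _), sq_sqrt (hf _), h1,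
    one_mul] at this
  exact this

/-- **annealed mean**: `M x` is the matrix whose rows are the (scaled) cavity vectors -/
theorem mean_cmp {Ω : Type*} [Fintype Ω] {p : Ω → ℝ} (hp : ∀ x, 0 ≤ p x) (h1 : ∑ x, p x = 1)
    {φ : (κ → ℝ) → ℝ} (h : ELip 1 φ) (M : Ω → Matrix κ ι ℝ) (A : Matrix κ ι' ℝ) {de : ℝ}
    (hd : ∑ x, p x * l1 (M x * (M x)ᵀ - A * Aᵀ) ≤ de) :
    |∫ z, ∑ x, p x * φ (M x *ᵥ z) ∂gv ι - ∫ z, φ (A *ᵥ z) ∂gv ι'| ≤
      2 * √((Fintype.card κ + 1) * de) := by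
  rw [integral_finsetSum _ fun x _ => (int_lip h (M x)).const_mul _]
  simp only [integral_const_mul]
  have e : ∫ z, φ (A *ᵥ z) ∂gv ι' = ∑ x, p x * ∫ z, φ (A *ᵥ z) ∂gv ι' := by
    rw [← Finset.sum_mul, h1, one_mul]
  have k0 : (0:ℝ) ≤ Fintype.card κ + 1 := by positivity
  rw [e, ← Finset.sum_sub_distrib]
  refine (Finset.abs_sum_le_sum_abs _ _).trans ?_
  refine le_trans (Finset.sum_le_sum fun x _ => (?_ : _ ≤ 2 *
    (p x * √((Fintype.card κ + 1) * l1 (M x * (M x)ᵀ - A * Aᵀ))))) ?_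
  · rw [← mul_sub, abs_mul, abs_of_nonneg (hp x), mul_left_comm]
    exact mul_le_mul_of_nonneg_left (gcmp h _ _ le_rfl) (hp x)
  · rw [← Finset.mul_sum]
    refine mul_le_mul_of_nonneg_left ((mean_sqrt_le hp h1 fun _ =>
      mul_nonneg k0 (l1_nonneg _)).trans (sqrt_le_sqrt ?_)) (by positivity)
    simp only [mul_left_comm (p _), ← Finset.mul_sum]
    exact mul_le_mul_of_nonneg_left hd k0

lemma hb_eq (b : ℝ) (σ : Bool) : hb b σ = (1 + spin σ * tanh b) / 2 := by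
  have := (cosh_pos b).ne'
  cases σ
  · simp only [hb, spin, tanh_eq_sinh_div_cosh, Bool.false_eq_true, if_false, neg_one_mul,
      ← cosh_sub_sinh]
    field_simp
    ring
  · simp only [hb, spin, tanh_eq_sinh_div_cosh, if_true, one_mul, ← cosh_add_sinh]
    field_simp

lemma hb_nonneg (b : ℝ) (σ : Bool) : 0 ≤ hb b σ := (div_pos (exp_pos _) (by positivity)).le

lemma hb_sum (b : ℝ) : ∑ σ, hb b σ = 1 := by simp [hb_eq, spin]; ring

lemma hb_spin (b : ℝ) : ∑ σ, hb b σ * spin σ = tanh b := by simp [hb_eq, spin]; ring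

lemma tanh_lip (a b : ℝ) : |tanh a - tanh b| ≤ |a - b| := by
  have hd : ∀ x, HasDerivAt tanh (1 / cosh x ^ 2) x := fun x => by
    have h := (hasDerivAt_sinh x).div (hasDerivAt_cosh x) (cosh_pos x).ne'
    have e : (sinh / cosh : ℝ → ℝ) = tanh := funext fun y => (tanh_eq_sinh_div_cosh y).symm
    rw [e] at h
    rwa [show cosh x * cosh x - sinh x * sinh x = 1 by nlinarith [cosh_sq x]] at h
  have := (convex_univ (𝕜 := ℝ) (E := ℝ)).norm_image_sub_le_of_norm_hasDerivWithin_le (C := 1)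
    (fun x _ => (hd x).hasDerivWithinAt) (fun x _ => by
      rw [Real.norm_eq_abs, abs_of_pos (by positivity), div_le_one (by positivity)]
      nlinarith [one_le_cosh x]) (Set.mem_univ b) (Set.mem_univ a)
  simpa using this

lemma hb_lip (b b' : ℝ) (σ : Bool) : |hb b σ - hb b' σ| ≤ |b - b'| / 2 := by
  rw [hb_eq, hb_eq, ← sub_div, add_sub_add_left_eq_sub, ← mul_sub, abs_div, abs_mul, abs_spin,
    one_mul, abs_two]
  linarith [tanh_lip b b']

lemma elip_shift {φ : (κ → ℝ) → ℝ} {L : ℝ} (h : ELip L φ) (v : κ → ℝ) :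
    ELip L fun x => φ (v + x) := fun x y => by
  simpa only [add_sub_add_left_eq_sub] using h (v + x) (v + y)

lemma shift_le {φ : (κ → ℝ) → ℝ} (h : ELip 1 φ) (A : Matrix κ ι ℝ) (v v' : κ → ℝ) :
    |∫ z, φ (v + A *ᵥ z) ∂gv ι - ∫ z, φ (v' + A *ᵥ z) ∂gv ι| ≤ en (v - v') := by
  have i1 := int_lip (elip_shift h v) A
  have i2 := int_lip (elip_shift h v') A
  rw [← integral_sub i1 i2]
  refine abs_integral_le_integral_abs.trans ((integral_mono (i1.sub i2).abs
    (integrable_const (en (v - v'))) fun z => ?_).trans (by simp))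
  have := h (v + A *ᵥ z) (v' + A *ᵥ z)
  rwa [one_mul, add_sub_add_right_eq_sub] at this

lemma abs_int_le {φ : (κ → ℝ) → ℝ} (h : ELip 1 φ) (A : Matrix κ ι ℝ) :
    |∫ z, φ (A *ᵥ z) ∂gv ι| ≤ |φ 0| + √(A * Aᵀ).trace := by
  have := pert h A 0
  simp only [zero_mulVec, integral_const, probReal_univ, smul_eq_mul, one_mul, sub_zero] at this
  linarith [abs_sub_abs_le_abs_sub (∫ z, φ (A *ᵥ z) ∂gv ι) (φ 0)]

lemma gram_le (A : Matrix κ ι ℝ) (l m : κ) : |(A * Aᵀ) l m| ≤ (A * Aᵀ).trace := by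
  have h : ∀ l, en (A l) ^ 2 ≤ (A * Aᵀ).trace := fun l => by
    rw [trace_eq, en_sq]
    exact Finset.single_le_sum (f := fun l => ∑ k, A l k ^ 2)
      (fun _ _ => Finset.sum_nonneg fun _ _ => sq_nonneg _) (Finset.mem_univ l)
  have := abs_dot_le (A l) (A m)
  simp only [mul_apply, transpose_apply]
  nlinarith [h l, h m, sq_nonneg (en (A l) - en (A m))]

end Clt58

open Clt58


theorem meanStmt : MeanStmt := fun _ _ _ _ _ _ _ _ _ M A _ _ hw h hd =>
  mean_cmp hw.prob_nonneg hw.sum_prob h M A hd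

theorem mdlStmt : MdlStmt := by
  intro L _ o
  refine ⟨fun κ _ A b => ⟨?_, fun l => ?_⟩, fun C => ?_⟩
  · simp only [mdl, gm, integral_const, probReal_univ, smul_eq_mul, one_mul, hb_spin]
  · have : ∀ σ, gm A (fun x => (spin σ • (fun l => (A * Aᵀ) l o) + x) l) =
        spin σ * (A * Aᵀ) l o := fun σ => by
      simp only [gm, Pi.add_apply, Pi.smul_apply, smul_eq_mul]
      refine (integral_add (integrable_const _) (subG_dot (A l)).integrable).trans ?_
      simp only [integral_const, probReal_univ, smul_eq_mul, one_mul, int_dot, add_zero]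
    simp only [mdl, this, ← mul_assoc, ← Finset.sum_mul, hb_spin]
    ring
  refine ⟨1 + Fintype.card L * |C| + √C + 1 + 2 * √(Fintype.card L + 1), ?_⟩
  intro κ κ' _ _ A B b b' d ψ hψ hA hd1 hd
  have d0 : 0 ≤ d := (l1_nonneg (A * Aᵀ - B * Bᵀ)).trans hd
  have tA : (A * Aᵀ).trace ≤ C := (trace_eq A).trans_le hA
  set u : L → ℝ := fun l => (A * Aᵀ) l o with hu
  set v : L → ℝ := fun l => (B * Bᵀ) l o with hv
  have b1 : ∀ σ, |gm A fun x => ψ σ (spin σ • u + x)| ≤ 1 + Fintype.card L * |C| + √C := fun σ => by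
    refine (abs_int_le (elip_shift (hψ σ).1 _) A).trans (add_le_add ?_ (sqrt_le_sqrt tA))
    have h1 := (hψ σ).1 (spin σ • u + 0) 0
    rw [add_zero, sub_zero, one_mul, en_smul, abs_spin, one_mul] at h1
    have h2 : en u ≤ Fintype.card L * |C| := (en_le_sum u).trans ((Finset.sum_le_sum fun l _ =>
      (gram_le A l o).trans (tA.trans (le_abs_self C))).trans (by simp))
    rw [add_zero]
    linarith [abs_sub_abs_le_abs_sub (ψ σ (spin σ • u)) (ψ σ 0), (hψ σ).2]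
  have b2 : ∀ σ, |(gm A fun x => ψ σ (spin σ • u + x)) - gm B fun x => ψ σ (spin σ • v + x)| ≤
      (1 + 2 * √(Fintype.card L + 1)) * √d := fun σ => by
    have h1 := shift_le (hψ σ).1 A (spin σ • u) (spin σ • v)
    have h2 := gcmp (elip_shift (hψ σ).1 (spin σ • v)) A B hd
    rw [← smul_sub, en_smul, abs_spin, one_mul] at h1
    have h3 : en (u - v) ≤ d := (en_le_sum _).trans
      ((col_le_l1 (A * Aᵀ - B * Bᵀ) fun _ => o).trans hd)
    have h4 : d ≤ √d := by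
      have := mul_self_sqrt d0
      nlinarith [sqrt_nonneg d, sqrt_le_one.2 hd1]
    rw [sqrt_mul (by positivity)] at h2
    have := abs_sub_le (gm A fun x => ψ σ (spin σ • u + x)) (gm A fun x => ψ σ (spin σ • v + x))
      (gm B fun x => ψ σ (spin σ • v + x))
    simp only [gm] at this ⊢
    linarith
  have b3 : ∀ σ, |hb b σ * (gm A fun x => ψ σ (spin σ • u + x)) -
      hb b' σ * gm B fun x => ψ σ (spin σ • v + x)| ≤ |b - b'| / 2 *
        (1 + Fintype.card L * |C| + √C) + hb b' σ * ((1 + 2 * √(Fintype.card L + 1)) * √d) :=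
    fun σ => by
      rw [show ∀ p q x y : ℝ, p * x - q * y = (p - q) * x + q * (x - y) by intros; ring]
      refine (abs_add_le _ _).trans (add_le_add ?_ ?_)
      · rw [abs_mul]; exact mul_le_mul (hb_lip _ _ _) (b1 σ) (abs_nonneg _) (by positivity)
      · rw [abs_mul, abs_of_nonneg (hb_nonneg _ _)]
        exact mul_le_mul_of_nonneg_left (b2 σ) (hb_nonneg _ _)
  rw [mdl, mdl, ← Finset.sum_sub_distrib]
  refine (Finset.abs_sum_le_sum_abs _ _).trans ((Finset.sum_le_sum fun σ _ => b3 σ).trans ?_)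
  rw [Finset.sum_add_distrib, ← Finset.sum_mul, ← Finset.sum_mul, hb_sum]
  simp only [Finset.sum_const, Finset.card_univ, Fintype.card_bool, nsmul_eq_mul, Nat.cast_ofNat]
  have q1 : 0 ≤ (1 + Fintype.card L * |C| + √C) * √d := by positivity
  have q2 : 0 ≤ (1 + 2 * √(Fintype.card L + 1 : ℝ)) * |b - b'| := by positivity
  nlinarith

end Crest.Agent.T157.S3L
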