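import Crest.Agent.T157.NetDef_32
import Crest.Agent.T157.LcCal_52
import Crest.Agent.T157.S3Clt_58

-- ▼ part T157/NetFam_32
section

/-!
# Row 157, block B/S3, section 7 (helper32): continuous families, functionals, read-back
-/

set_option autoImplicit false
set_option linter.unusedVariables false
set_option linter.unusedSectionVars false

noncomputable section

namespace Crest.Agent.T157.Nt.Fam

open MeasureTheory Matrix Real Set Filter Topology
open Crest.ProbabilityR.SpinGlassDynamics (spin)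
open Crest.Agent.T157.S3L (gm mdl)
open Crest.Agent.T157.Tw (sech2 Bath SV sS xS zS tS exS rsS imS)

section gen
variable {J L κ K I I' : Type} [TopologicalSpace J] [FirstCountableTopology J] [Fintype L]
  [DecidableEq L] [Fintype κ] [Fintype K] [DecidableEq K] [Fintype I] [Fintype I']

def UC (G : J → Fn L) : Prop := C0 (up G)
def UT (G : J → Fn L) : Prop := TS (up G)
def mF (A : J → Matrix L κ ℝ) (o : L) (G : J → Fn L) (θ : J) (m : ℝ) : ℝ := mE (A θ) o m (G θ m)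
def II (ν : Measure ℝ) (A : J → Matrix L κ ℝ) (o : L) (G : J → Fn L) (θ : J) : ℝ :=
  ∫ b, mF A o G θ (tanh b) ∂ν
def CI (ν : Measure ℝ) (A : J → Matrix L κ ℝ) (o : L) (G G' : J → Fn L) (θ : J) : ℝ :=
  ∫ b, (mF A o (G * G') θ (tanh b) - mF A o G θ (tanh b) * mF A o G' θ (tanh b)) ∂ν
def PF (β : ℝ) (ν : Measure ℝ) (A : J → Matrix L κ ℝ) (o : L) (d al : J → Fn L)
    (a : I → J → Fn L) (al' : J → Fn L) (a' : I' → J → Fn L) (P : Matrix I I' ℝ) (θ : J) : ℝ :=
  β ^ 2 * (II ν A o (al * d * al') θ + ∑ p, ∑ q, II ν A o (a p * a' q) θ * P p q)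
/-- `tanh (b + x_o)` -/
def tF (o : L) : J → Fn L := fun _ m _ x => tm m (x o)

def tI (b : ℝ) : Im := ⟨tanh b, (neg_one_lt_tanh b).le, (tanh_lt_one b).le⟩

lemma up_sum (T : Finset I) (G : I → J → Fn L) : up (∑ i ∈ T, G i) = ∑ i ∈ T, up (G i) := by
  funext θ; simp [up, Finset.sum_apply]

variable (tl : Tl)
include tl

lemma UT.uc {G : J → Fn L} (h : UT G) : UC G := (tl.ts _ _).c0 h
lemma UC.add {G G' : J → Fn L} (h : UC G) (h' : UC G') : UC (G + G') := (tl.ts _ _).c0add h h'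
lemma UC.sub {G G' : J → Fn L} (h : UC G) (h' : UC G') : UC (G - G') := (tl.ts _ _).c0sub h h'
lemma UC.mul {G G' : J → Fn L} (h : UC G) (h' : UC G') : UC (G * G') := (tl.ts _ _).c0mul h h'
lemma UC.sum (T : Finset I) {G : I → J → Fn L} (h : ∀ i ∈ T, UC (G i)) : UC (∑ i ∈ T, G i) := by
  unfold UC; rw [up_sum]; exact (tl.ts _ _).c0sum T h
lemma ut_cb {c : J → ℝ} (hc : Continuous c) : UT (fun θ _ _ _ => c θ : J → Fn L) :=
  (tl.ts (J × Im) L).cb (c := fun p => c p.1) (hc.comp continuous_fst)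
lemma ut_one : UT (1 : J → Fn L) := ut_cb tl (c := fun _ => 1) continuous_const
lemma ut_zero : UT (0 : J → Fn L) := ut_cb tl (c := fun _ => 0) continuous_const
lemma UC.smul (c : ℝ) {G : J → Fn L} (h : UC G) : UC (c • G) :=
  ((ut_cb tl (c := fun _ => c) continuous_const).uc tl).mul tl h
lemma UT.add {G G' : J → Fn L} (h : UT G) (h' : UT G') : UT (G + G') := (tl.ts _ _).add h h'
lemma UT.sub {G G' : J → Fn L} (h : UT G) (h' : UT G') : UT (G - G') := (tl.ts _ _).sub h h'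
lemma UT.mul {G G' : J → Fn L} (h : UT G) (h' : UT G') : UT (G * G') := (tl.ts _ _).mul h h'
lemma UT.smul (c : ℝ) {G : J → Fn L} (h : UT G) : UT (c • G) := (tl.ts _ _).smul c h
lemma UT.pow (k : ℕ) {G : J → Fn L} (h : UT G) : UT (G ^ k) := (tl.ts _ _).pow k h
lemma UT.sum (T : Finset I) {G : I → J → Fn L} (h : ∀ i ∈ T, UT (G i)) : UT (∑ i ∈ T, G i) := by
  unfold UT; rw [up_sum]; exact (tl.ts _ _).sum T h
lemma UT.dx (l : L) {G : J → Fn L} (h : UT G) : UT fun θ => dx l (G θ) := (tl.ts _ _).dx l h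
lemma UT.gs {G : J → Fn L} (h : UT G) : UT fun θ => gs (G θ) := (tl.ts _ _).gs h
lemma UT.pb (M : Matrix K L ℝ) {G : J → Fn K} (h : UT G) : UT fun θ => pb M (G θ) :=
  (tl.ts _ _).pb M h
lemma UT.re {J' : Type} [TopologicalSpace J'] {φ : J' → J} (hφ : Continuous φ) {G : J → Fn L}
    (h : UT G) : TS (up fun θ => G (φ θ)) :=
  (tl.ts (J × Im) L).re (φ := fun p : J' × Im => (φ p.1, p.2))
    ((hφ.comp continuous_fst).prodMk continuous_snd) h
lemma ut_sp : UT (fun _ => sp : J → Fn L) := (tl.ts _ _).sp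
lemma ut_co (l : L) : UT (fun _ => co l : J → Fn L) := (tl.ts _ _).co l
lemma ut_rr {η : J → ℝ} (hη : Continuous η) (l : L) :
    UT (fun θ _ _ x => rr (η θ) (x l) : J → Fn L) :=
  (tl.ts (J × Im) L).rr (η := fun p => η p.1) (hη.comp continuous_fst) l
lemma ut_tF (o : L) : UT (tF o : J → Fn L) := by
  have h := (tl.ts (J × Im) L).tm (m := fun p => p.2) (continuous_subtype_val.comp continuous_snd)
    (fun p => abs_le.2 p.2.2) (Pi.single o 1)
  simp only [single_dotProduct, one_mul] at h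
  exact h
lemma tb_tF (o : L) (θ : J) : tb (tF o θ) = th o := by
  funext b s x; exact (tl.ts ℝ L).tm_eq b (x o)
lemma UT.dl {S : J → Matrix L L ℝ} (hS : Continuous S) (o u : L) {G : J → Fn L} (h : UT G) :
    UT fun θ => dl (S θ) o u (G θ) := by
  have e : (fun θ => Nt.dl (S θ) o u (G θ)) = G * ((fun _ => co u) - (fun θ _ _ _ => S θ o u) *
      fun _ => sp) - ∑ p, (fun θ _ _ _ => S θ u p) * fun θ => Nt.dx p (G θ) := by
    funext θ m s x; simp [Nt.dl, Finset.sum_apply]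
  rw [e]
  exact (h.mul tl ((ut_co tl u).sub tl ((ut_cb tl (by fun_prop)).mul tl (ut_sp tl)))).sub tl
    (UT.sum tl _ fun p _ => (ut_cb tl (by fun_prop)).mul tl (h.dx tl p))
lemma UT.diff {G : J → Fn L} (h : UT G) (θ : J) : Df (tb (G θ)) :=
  fun b s => (tl.ts _ _).df h (θ, tI b) s
omit tl in
lemma UC.cont {G : J → Fn L} (h : UC G) (θ : J) (b : ℝ) (s : Bool) :
    Continuous (G θ (tanh b) s) :=
  (h.1 s).comp (continuous_const (y := (θ, tI b))|>.prodMk continuous_id)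

variable (A : J → Matrix L κ ℝ) (o : L)

lemma mF_sub {G G' : J → Fn L} (h : UC G) (h' : UC G') (θ : J) (b : ℝ) :
    mF A o (G - G') θ (tanh b) = mF A o G θ (tanh b) - mF A o G' θ (tanh b) :=
  (tl.ex (J × Im) L κ).sub (A θ) o (tanh b) (θ, tI b) h h'
lemma mF_smul (c : ℝ) (G : J → Fn L) (θ : J) (b : ℝ) :
    mF A o (c • G) θ (tanh b) = c * mF A o G θ (tanh b) :=
  (tl.ex (J × Im) L κ).smul (A θ) o (tanh b) c (up G) (θ, tI b)
lemma mF_sum (T : Finset I) {G : I → J → Fn L} (h : ∀ i ∈ T, UC (G i)) (θ : J) (b : ℝ) :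
    mF A o (∑ i ∈ T, G i) θ (tanh b) = ∑ i ∈ T, mF A o (G i) θ (tanh b) := by
  have := (tl.ex (J × Im) L κ).sum (A θ) o (tanh b) T (θ, tI b) h
  rwa [← up_sum] at this

variable {A} (hA : Continuous A) (ν : Measure ℝ) [IsProbabilityMeasure ν]
include hA

lemma mF_cont {G : J → Fn L} (h : UC G) : Continuous fun p : J × Im => mF A o G p.1 p.2 :=
  (tl.gc (J × Im) L κ o).1 (fun p => A p.1) (fun p => p.2) (up G) (hA.comp continuous_fst)
    (continuous_subtype_val.comp continuous_snd) h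
lemma mF_int {G : J → Fn L} (h : UC G) (θ : J) :
    Integrable (fun b => mF A o G θ (tanh b)) ν :=
  ((tl.gc J L κ o).2.1 ν (mF A o G) (mF_cont tl o hA h)).1 θ
lemma II_cont {G : J → Fn L} (h : UC G) : Continuous (II ν A o G) :=
  ((tl.gc J L κ o).2.1 ν (mF A o G) (mF_cont tl o hA h)).2.1
lemma CI_cont {G G' : J → Fn L} (h : UC G) (h' : UC G') : Continuous (CI ν A o G G') :=
  ((tl.gc J L κ o).2.1 ν (fun θ m => mF A o (G * G') θ m - mF A o G θ m * mF A o G' θ m)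
    ((mF_cont tl o hA (h.mul tl h')).sub ((mF_cont tl o hA h).mul (mF_cont tl o hA h')))).2.1
lemma II_smul (c : ℝ) (G : J → Fn L) (θ : J) : II ν A o (c • G) θ = c * II ν A o G θ := by
  unfold II; simp_rw [mF_smul tl A o c G]; exact integral_const_mul _ _
lemma II_sum (T : Finset I) {G : I → J → Fn L} (h : ∀ i ∈ T, UC (G i)) (θ : J) :
    II ν A o (∑ i ∈ T, G i) θ = ∑ i ∈ T, II ν A o (G i) θ := by
  unfold II; simp_rw [mF_sum tl A o T h]
  exact integral_finsetSum _ fun i hi => mF_int tl o hA ν (h i hi) θ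
lemma II_lin (c : I → ℝ) {G : I → J → Fn L} (h : ∀ i, UC (G i)) (θ : J) :
    II ν A o (∑ i, c i • G i) θ = ∑ i, c i * II ν A o (G i) θ := by
  rw [II_sum tl o hA ν _ fun i _ => (h i).smul tl (c i)]
  exact Finset.sum_congr rfl fun i _ => II_smul tl o hA ν _ _ _
lemma II_bil (c : I → ℝ) (c' : I' → ℝ) {G : I → J → Fn L} {G' : I' → J → Fn L}
    (h : ∀ i, UC (G i)) (h' : ∀ i, UC (G' i)) (θ : J) :
    II ν A o ((∑ i, c i • G i) * ∑ i, c' i • G' i) θ =
      ∑ i, ∑ j, c i * c' j * II ν A o (G i * G' j) θ := by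
  have e : (∑ i, c i • G i) * ∑ i, c' i • G' i = ∑ i, ∑ j, (c i * c' j) • (G i * G' j) := by
    rw [Finset.sum_mul_sum]; simp only [smul_mul_smul_comm]
  rw [e, II_sum tl o hA ν _ fun i _ => UC.sum tl _ fun j _ => ((h i).mul tl (h' j)).smul tl _]
  exact Finset.sum_congr rfl fun i _ => II_lin tl o hA ν _ (fun j => (h i).mul tl (h' j)) θ

lemma PF_lim (β : ℝ) {d al al' : J → Fn L} {a : I → J → Fn L} {a' : I' → J → Fn L} (hd : UC d)
    (hal : UC al) (hal' : UC al') (ha : ∀ i, UC (a i)) (ha' : ∀ i, UC (a' i)) {θ : ℕ → J} {θ0 : J}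
    (hθ : Tendsto θ atTop (𝓝 θ0)) {P : ℕ → Matrix I I' ℝ} {P0 : Matrix I I' ℝ}
    (hP : Tendsto P atTop (𝓝 P0)) :
    Tendsto (fun j => PF β ν A o d al a al' a' (P j) (θ j)) atTop
      (𝓝 (PF β ν A o d al a al' a' P0 θ0)) := by
  refine Tendsto.const_mul _ (Tendsto.add
    (((II_cont tl o hA ν ((hal.mul tl hd).mul tl hal')).tendsto _).comp hθ)
    (tendsto_finsetSum _ fun p _ => tendsto_finsetSum _ fun q _ => Tendsto.mul
      (((II_cont tl o hA ν ((ha p).mul tl (ha' q))).tendsto _).comp hθ) ?_))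
  exact ((continuous_apply_apply p q).tendsto _).comp hP

/-- change of the multipliers -/
lemma PF_mat {I0 I0' : Type} [Fintype I0] [Fintype I0'] (β : ℝ) {d al al' : J → Fn L}
    {a : I → J → Fn L} {a' : I' → J → Fn L} (ha : ∀ i, UC (a i)) (ha' : ∀ i, UC (a' i))
    (W : Matrix I I0 ℝ) (W' : Matrix I' I0' ℝ) (P : Matrix I0 I0' ℝ) (θ : J) :
    PF β ν A o d al (fun p => ∑ x, W x p • a x) al' (fun q => ∑ y, W' y q • a' y) P θ =
      PF β ν A o d al a al' a' (W * P * W'ᵀ) θ := by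
  unfold PF
  congr 2
  simp_rw [II_bil tl o hA ν _ _ ha ha', Matrix.mul_apply, transpose_apply, Finset.sum_mul,
    Finset.mul_sum]
  rw [Finset.sum_comm]
  simp_rw [Finset.sum_comm (s := (Finset.univ : Finset I0)) (t := (Finset.univ : Finset I))]
  rw [Finset.sum_comm]
  refine Finset.sum_congr rfl fun x _ => ?_
  simp_rw [Finset.sum_comm (s := (Finset.univ : Finset I0)) (t := (Finset.univ : Finset I'))]
  rw [Finset.sum_comm]
  refine Finset.sum_congr rfl fun y _ => Finset.sum_congr rfl fun q _ =>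
    Finset.sum_congr rfl fun p _ => by ring

/-! ### read-back -/

omit hA in
lemma Eb_pb {κ' : Type} [Fintype κ'] {B : Matrix K κ' ℝ} {W : Matrix L K ℝ} {o' : K} {θ : J}
    (hW : A θ * (A θ)ᵀ = W * (B * Bᵀ) * Wᵀ) (ho : W o = Pi.single o' 1) {G : J → Fn L} (h : UC G)
    (b : ℝ) : Eb B o' (pb W (tb (G θ))) b = mF A o G θ (tanh b) := by
  unfold Eb mF
  rw [(tl.ex ℝ K κ').eq]
  exact (tl.ex ℝ K κ').pb B (A θ) W o' o (tanh b) _ hW ho fun s => (h.cont θ b s).measurable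

omit hA in
lemma gram_pb {κ' : Type} [Fintype κ'] {B : Matrix K κ' ℝ} {W : Matrix L K ℝ} {o' : K} {θ : J}
    (hW : A θ * (A θ)ᵀ = W * (B * Bᵀ) * Wᵀ) (ho : W o = Pi.single o' 1) {G G' : J → Fn L}
    (h : UC G) (h' : UC G') :
    ∫ b, Cv B o' (pb W (tb (G θ))) (pb W (tb (G' θ))) b ∂ν = CI ν A o G G' θ := by
  unfold CI Cv
  simp_rw [← Eb_pb tl o hW ho h, ← Eb_pb tl o hW ho h', ← Eb_pb tl o hW ho (h.mul tl h')]
  rfl

lemma pair_pb {κ' I0 I0' : Type} [Fintype κ'] [Fintype I0] [Fintype I0'] {B : Matrix K κ' ℝ}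
    {W : Matrix L K ℝ} {o' : K} {θ : J} (hW : A θ * (A θ)ᵀ = W * (B * Bᵀ) * Wᵀ)
    (ho : W o = Pi.single o' 1) (β : ℝ) {d al al' : J → Fn L} {a : I → J → Fn L}
    {a' : I' → J → Fn L} (hd : UC d) (hal : UC al) (hal' : UC al') (ha : ∀ i, UC (a i))
    (ha' : ∀ i, UC (a' i)) (U : Matrix I I0 ℝ) (U' : Matrix I' I0' ℝ) (P : Matrix I0 I0' ℝ) :
    pair β ν B o' (pb W (tb (d θ))) (pb W (tb (al θ))) (fun p => ∑ x, U x p • pb W (tb (a x θ)))
      (pb W (tb (al' θ))) (fun q => ∑ y, U' y q • pb W (tb (a' y θ))) P =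
      PF β ν A o d al a al' a' (U * P * U'ᵀ) θ := by
  rw [← PF_mat tl o hA ν β ha ha']
  have e : ∀ G : J → Fn L, UC G → Ev ν B o' (pb W (tb (G θ))) = II ν A o G θ := fun G h => by
    unfold Ev II; simp_rw [Eb_pb tl o hW ho h]
  unfold pair PF
  congr 2
  · exact e _ ((hal.mul tl hd).mul tl hal')
  · refine Finset.sum_congr rfl fun p _ => Finset.sum_congr rfl fun q _ => ?_
    rw [← e _ ((UC.sum tl _ fun x _ => (ha x).smul tl _).mul tl
      (UC.sum tl _ fun x _ => (ha' x).smul tl _))]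
    congr 2
    funext b s x; simp [pb, tb, Finset.sum_apply]

end gen

/-! ### representation on the image of `V` -/

section rp
open Tw.Cal52
variable {K I : Type} [Fintype K] [DecidableEq K] [Fintype I] {m : ℕ} {V : Matrix K (Fin m) ℝ}
  {G G' : Bool → (K → ℝ) → ℝ} {F F' : SV m}

lemma sg_eq (s : Bool) : Tw.sg s = spin s := rfl
lemma rp_add (h : Rp V G F) (h' : Rp V G' F') : Rp V (G + G') (F + F') :=
  fun s X => congrArg₂ (· + ·) (h s X) (h' s X)
lemma rp_sub (h : Rp V G F) (h' : Rp V G' F') : Rp V (G - G') (F - F') :=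
  fun s X => congrArg₂ (· - ·) (h s X) (h' s X)
lemma rp_mul (h : Rp V G F) (h' : Rp V G' F') : Rp V (G * G') (F * F') :=
  fun s X => congrArg₂ (· * ·) (h s X) (h' s X)
lemma rp_sum (T : Finset I) {G : I → Bool → (K → ℝ) → ℝ} {F : I → SV m}
    (h : ∀ i ∈ T, Rp V (G i) (F i)) : Rp V (∑ i ∈ T, G i) (∑ i ∈ T, F i) := fun s X => by
  rw [sum_ap, Finset.sum_apply, Finset.sum_apply]
  exact Finset.sum_congr rfl fun i hi => h i hi s X
lemma rp_one : Rp V 1 1 := fun _ _ => rfl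
lemma rp_sq (h : Rp V G F) : Rp V (G ^ 2) (F ^ 2) := by rw [sq, sq]; exact rp_mul h h
lemma rp_sp : Rp V (fun s _ => spin s) (sS m) := fun _ _ => rfl

/-- discrete derivative -/
def gS (F : SV m) : SV m := (1 / 2 : ℝ) • (sS m * (F - Tw.fl m F))

lemma gS_ap (F : SV m) (s : Bool) (X) : (gS F).1 s X = (F.1 true X - F.1 false X) / 2 := by
  cases s <;> simp [gS, smul_ap, mul_ap, sub_ap, s_ap, fl_ap, Tw.sg] <;> ring
lemma rp_gs (h : Rp V G F) : Rp V (fun _ x => (G true x - G false x) / 2) (gS F) := fun s X => by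
  rw [gS_ap, ← h, ← h]
lemma gS_smul (c : ℝ) (F : SV m) : gS (c • F) = c • gS F := ext' fun s X => by
  simp only [gS_ap, smul_ap]; ring
lemma gS_sum (T : Finset I) (F : I → SV m) : gS (∑ i ∈ T, F i) = ∑ i ∈ T, gS (F i) :=
  ext' fun s X => by simp only [gS_ap, sum_ap, ← Finset.sum_sub_distrib, Finset.sum_div]
lemma rs_gS (c : Bath) (b : ℝ) (F : SV c.m) : rsS c b F = (sS _ - tS c b) * gS F :=
  ext' fun s X => by
    cases s <;> simp [rs_ap, mul_ap, sub_ap, gS_ap, s_ap, t_ap, Tw.sg] <;> ring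
lemma ex_rs (c : Bath) (b : ℝ) (F G : SV c.m) :
    exS c b (rsS c b F * rsS c b G) = exS c b (gS F * (1 - tS c b ^ 2) * gS G) :=
  eq_cond c b fun X => by
    simp only [rs_gS, mul_ap, sub_ap, gS_ap, s_ap, t_ap, Tw.sg, sq_ap, one_ap]
    simp; ring

lemma N_alg (c : Bath) (b r : ℝ) (F : SV c.m) : (imS c b).N (algebraMap ℝ _ r) F = 0 := by
  rw [N_eq, ← Algebra.smul_def, Algebra.algebraMap_eq_smul_one, map_smul, map_smul, ex1]; simp
lemma En_alg (c : Bath) (b r : ℝ) (F : SV c.m) : (imS c b).En (algebraMap ℝ _ r) F = 0 := by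
  have h1 : rsS c b (algebraMap ℝ _ r) = 0 := ext' fun s X => by simp [rs_ap, alg_ap, zero_ap]
  have h2 : ∀ i, Tw.dd i (algebraMap ℝ (SV c.m) r) = 0 := fun i => by
    rw [Algebra.algebraMap_eq_smul_one, map_smul, done, smul_zero]
  simp [En_eq, h1, h2]

variable (hD : DictStmt) {c : Bath} {V : Matrix K (Fin c.m) ℝ} {o : K} (hV : V o = c.g)
include hD hV

lemma rp_dd {G : Fn K} {F : SV c.m} {b : ℝ} (hG : Df G) (h : Rp V (G b) F) (k : Fin c.m) :
    Rp V ((∑ y, V y k • dx y G) b) (Tw.dd k F) := fun s X => by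
  rw [← (hD K c V o hV).2.1 (G b) F k (hG b) h s X]
  simp [dx, Finset.sum_apply]

lemma rp_dl {G : Fn K} {F : SV c.m} {b : ℝ} (hG : Df G) (h : Rp V (G b) F) (r : K) :
    Rp V (dl (V * Vᵀ) o r G b) (∑ i, V r i • (zS c i * F - Tw.dd i F)) := fun s X => by
  have h1 := fun i => rp_dd hD hV hG h i s X
  simp only [sum_ap, smul_ap, sub_ap, mul_ap, z_ap, ← h1, ← h s X, sg_eq, ← hV]
  simp only [dl, co, sp, Pi.sub_apply, Pi.mul_apply, Pi.smul_apply, Finset.sum_apply, smul_eq_mul,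
    Matrix.mul_apply, transpose_apply, mulVec, dotProduct, mul_sub, Finset.sum_sub_distrib,
    Finset.mul_sum, Finset.sum_mul]
  congr 1
  · rw [← Finset.sum_sub_distrib]; exact Finset.sum_congr rfl fun _ _ => by ring
  · rw [Finset.sum_comm]
    exact Finset.sum_congr rfl fun _ _ => Finset.sum_congr rfl fun _ _ => by ring

variable {J κ : Type} [TopologicalSpace J] [FirstCountableTopology J] [Fintype κ] (tl : Tl)
  {A : J → Matrix K κ ℝ} (hA : Continuous A) (ν : Measure ℝ) [IsProbabilityMeasure ν] {θ : J}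
  (hθ : A θ * (A θ)ᵀ = V * Vᵀ)
include hθ

lemma mF_rp {G : J → Fn K} (hG : UC G) {b : ℝ} {F : SV c.m} (h : Rp V (G θ (tanh b)) F) :
    mF A o G θ (tanh b) = exS c b F :=
  (hD K c V o hV).1 κ (A θ) b _ F hθ (hG.cont θ b) h


include tl

lemma CI_rp {G G' : J → Fn K} (hG : UC G) (hG' : UC G') {F F' : ℝ → SV c.m}
    (h : ∀ b, Rp V (G θ (tanh b)) (F b)) (h' : ∀ b, Rp V (G' θ (tanh b)) (F' b)) :
    CI ν A o G G' θ = Tw.Nb ν c F F' := by
  unfold CI Tw.Nb
  simp_rw [fun b => mF_rp hD hV hθ hG (h b), fun b => mF_rp hD hV hθ hG' (h' b),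
    fun b => mF_rp hD hV hθ (hG.mul tl hG') (rp_mul (h b) (h' b)), N_eq]

include hA

/-- functions that agree on the image of `V` have the same integral -/
lemma II_congr {G G' : J → Fn K} (hG : UC G) (hG' : UC G')
    (h : ∀ᵐ b ∂ν, ∀ s X, G θ (tanh b) s (V *ᵥ X) = G' θ (tanh b) s (V *ᵥ X)) :
    II ν A o G θ = II ν A o G' θ := by
  refine integral_congr_ae (h.mono fun b hb => ?_)
  have := mF_rp hD hV hθ (hG.sub tl hG') (b := b) (F := 0) fun s X => sub_eq_zero.2 (hb s X)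
  rw [mF_sub tl A o hG hG', map_zero] at this
  exact sub_eq_zero.1 this

lemma PF_rp (β : ℝ) {G G' : J → Fn K} (hG : UT G) (hG' : UT G') {F F' : ℝ → SV c.m}
    (h : ∀ b, Rp V (G θ (tanh b)) (F b)) (h' : ∀ b, Rp V (G' θ (tanh b)) (F' b)) :
    PF β ν A o (1 - tF o ^ 2) (fun θ => gs (G θ)) (fun p θ => dx p (G θ)) (fun θ => gs (G' θ))
      (fun p θ => dx p (G' θ)) (V * c.A * Vᵀ) θ = β ^ 2 * Tw.Eb ν c F F' := by
  rw [← PF_mat tl o hA ν β (fun p => (hG.dx tl p).uc tl) fun p => (hG'.dx tl p).uc tl]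
  have u : ∀ {G : J → Fn K}, UT G → ∀ i, UC (∑ x, V x i • fun θ => dx x (G θ)) := fun hG i =>
    UC.sum tl _ fun x _ => ((hG.dx tl x).uc tl).smul tl _
  have r : ∀ {G : J → Fn K} {F : ℝ → SV c.m}, UT G → (∀ b, Rp V (G θ (tanh b)) (F b)) → ∀ i b,
      Rp V ((∑ x, V x i • fun θ => dx x (G θ)) θ (tanh b)) (Tw.dd i (F b)) := fun hG h i b => by
    have := rp_dd hD hV (hG.diff tl θ) (h b) i
    convert this using 1
    funext s x; simp [Finset.sum_apply, dx, tb]
  have u0 : UC ((fun θ => gs (G θ)) * (1 - tF o ^ 2) * fun θ => gs (G' θ)) :=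
    (((hG.gs tl).mul tl ((ut_one tl).sub tl ((ut_tF tl o).pow tl 2))).mul tl (hG'.gs tl)).uc tl
  have e0 : ∀ b, mF A o ((fun θ => gs (G θ)) * (1 - tF o ^ 2) * fun θ => gs (G' θ)) θ (tanh b) =
      exS c b (rsS c b (F b) * rsS c b (F' b)) := fun b => by
    rw [ex_rs]
    exact mF_rp hD hV hθ u0 (rp_mul (rp_mul (rp_gs (h b))
      (rp_sub rp_one (rp_sq ((hD K c V o hV).2.2 b)))) (rp_gs (h' b)))
  have e1 := fun i j b => mF_rp hD hV hθ ((u hG i).mul tl (u hG' j))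
    (rp_mul (r hG h i b) (r hG' h' j b))
  have i1 := fun i j => mF_int tl o hA ν ((u hG i).mul tl (u hG' j)) θ
  unfold PF II Tw.Eb
  congr 1
  simp_rw [En_eq, ← e0, ← e1]
  rw [integral_add (mF_int tl o hA ν u0 θ) (integrable_finsetSum _ fun i _ =>
    integrable_finsetSum _ fun j _ => (i1 i j).const_mul _), integral_finsetSum _ fun i _ =>
    integrable_finsetSum _ fun j _ => (i1 i j).const_mul _]
  congr 1
  refine Finset.sum_congr rfl fun i _ => ?_
  rw [integral_finsetSum _ fun j _ => (i1 i j).const_mul _]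
  exact Finset.sum_congr rfl fun j _ => by rw [integral_const_mul, mul_comm]

end rp

end Crest.Agent.T157.Nt.Fam

end
end

-- ▼ part T157/NetPert_75
section

/-!
# Row 157, block B/S3, section 7 (helper75): perturbation of Gram matrices, new drift nodes

`Nt.pertGlue : PertGlue`, `Nt.drfGlue : DrfGlue`.
-/

set_option autoImplicit false
set_option linter.unusedSectionVars false

noncomputable section

namespace Crest.Agent.T157.Nt

open MeasureTheory ProbabilityTheory Matrix Real Set Filter Topology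
open Crest.ProbabilityR.SpinGlassDynamics (spin)
open Crest.Agent.T157.S3L (gm mdl)

namespace P75

/-! ### linear algebra -/

lemma pert_lin {U J : Type*} [AddCommGroup U] [Module ℝ U] [Fintype J] [DecidableEq J] {M : ℕ}
    (v : J → U) (s0 : Finset J) (h0 : LinearIndepOn ℝ v s0) {g : Fin M → U}
    (hg : LinearIndependent ℝ g) (hM : Fintype.card J ≤ M) {δ : ℝ} (hδ : 0 < δ) (s : Finset J) :
    ∃ c : J → Fin M → ℝ, ‖c‖ ≤ δ ∧ (∀ j ∈ s0, c j = 0) ∧
      LinearIndepOn ℝ (fun j => v j + ∑ i, c j i • g i) (s0 ∪ s : Finset J) := by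
  classical
  induction s using Finset.induction_on with
  | empty => exact ⟨0, by simpa using hδ.le, fun _ _ => rfl, by simpa using h0⟩
  | insert j s _ ih =>
    obtain ⟨c, c1, c2, c3⟩ := ih
    rw [Finset.union_insert]
    by_cases hj : j ∈ s0 ∪ s
    · exact ⟨c, c1, c2, by rwa [Finset.insert_eq_of_mem hj]⟩
    set w : J → U := fun j => v j + ∑ i, c j i • g i
    set W := Submodule.span ℝ (w '' (s0 ∪ s : Finset J)) with hW
    obtain ⟨i, hi⟩ : ∃ i, g i ∉ W := by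
      by_contra! h
      have : Module.Finite ℝ W := .span_of_finite ℝ ((Finset.finite_toSet _).image w)
      have a : LinearIndependent ℝ fun i => (⟨g i, h i⟩ : W) := .of_comp W.subtype hg
      have b := a.fintype_card_le_finrank
      have d := finrank_span_finset_le_card (R := ℝ) ((s0 ∪ s).image w)
      rw [Set.finrank, Finset.coe_image, ← hW] at d
      have e := (Finset.card_lt_iff_ne_univ (s0 ∪ s)).2 fun h => hj (h ▸ Finset.mem_univ j)
      have f := Finset.card_image_le (s := s0 ∪ s) (f := w)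
      rw [Fintype.card_fin] at b
      omega
    obtain ⟨d, d1, d2⟩ : ∃ d : Fin M → ℝ, ‖d‖ ≤ δ ∧ v j + ∑ i, d i • g i ∉ W := by
      by_cases h : v j ∈ W
      · refine ⟨Pi.single i δ, by rw [Pi.norm_single, Real.norm_of_nonneg hδ.le], fun h' => hi ?_⟩
        simp only [Pi.single_apply, ite_smul, zero_smul, Finset.sum_ite_eq', Finset.mem_univ,
          if_true] at h'
        exact (W.smul_mem_iff hδ.ne').1 ((W.add_mem_iff_right h).1 h')
      · exact ⟨0, by simpa using hδ.le, by simpa using h⟩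
    have e : EqOn w (fun k => v k + ∑ i, Function.update c j d k i • g i) (s0 ∪ s : Finset J) :=
      fun k hk => by simp only [Function.update_of_ne fun h : k = j => hj (h ▸ hk), w]
    refine ⟨Function.update c j d, (pi_norm_le_iff_of_nonneg hδ.le).2 fun k => ?_, fun k hk => ?_, ?_⟩
    · by_cases h : k = j
      · rw [h, Function.update_self]; exact d1
      · rw [Function.update_of_ne h]; exact (norm_le_pi_norm c k).trans c1
    · rw [Function.update_of_ne fun h : k = j => hj (h ▸ Finset.mem_union_left _ hk), c2 k hk]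
    · rw [Finset.coe_insert]
      refine (c3.congr e).insert ?_
      rwa [← e.image_eq, Function.update_self]

lemma quad_eq {V I : Type*} [AddCommGroup V] [Module ℝ V] [Fintype I] (B : V →ₗ[ℝ] V →ₗ[ℝ] ℝ)
    (f : I → V) (x : I → ℝ) :
    x ⬝ᵥ (of fun i j => B (f i) (f j)) *ᵥ x = B (∑ i, x i • f i) (∑ i, x i • f i) := by
  simp only [dotProduct, mulVec, of_apply, map_sum, map_smul, LinearMap.sum_apply,
    LinearMap.smul_apply, smul_eq_mul, Finset.mul_sum]
  rw [Finset.sum_comm]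
  exact Finset.sum_congr rfl fun i _ => Finset.sum_congr rfl fun j _ => by ring

lemma posDef_iff {V I : Type*} [AddCommGroup V] [Module ℝ V] [Fintype I] {B : V →ₗ[ℝ] V →ₗ[ℝ] ℝ}
    (hs : ∀ x y, B x y = B y x) (h0 : ∀ x, 0 ≤ B x x) (f : I → V) :
    (of fun i j => B (f i) (f j)).PosDef ↔ LinearIndependent ℝ fun i => B (f i) := by
  have z : ∀ x : I → ℝ, B (∑ i, x i • f i) (∑ i, x i • f i) = 0 ↔ ∑ i, x i • B (f i) = 0 := by
    intro x
    rw [LinearMap.BilinForm.apply_apply_same_eq_zero_iff B h0 ⟨hs⟩, LinearMap.mem_ker, map_sum]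
    simp only [map_smul]
  rw [Fintype.linearIndependent_iff, posDef_iff_dotProduct_mulVec]
  simp only [star_trivial, quad_eq]
  refine ⟨fun h x hx => congrFun (by_contra fun h' => (h.2 h').ne' ((z x).2 hx)), fun h =>
    ⟨IsHermitian.ext fun i j => hs _ _, fun x hx => (h0 _).lt_of_ne' fun h' =>
      hx (funext (h x ((z x).1 h')))⟩⟩

/-! ### the covariance form -/

variable (T : Tl) {L κ : Type} [Fintype L] [DecidableEq L] [Fintype κ] (A : Matrix L κ ℝ) (o : L)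
  {F G : Fn L}

/-- constants -/
def cs (L : Type) (c : ℝ) : Fn L := fun _ _ _ => c

include T

lemma c0 (h : BS F) : C0 F := (T.ts ℝ L).c0 ((T.bs L).ts h)

lemma Eb_add (h : BS F) (h' : BS G) (b : ℝ) : Eb A o (F + G) b = Eb A o F b + Eb A o G b := by
  simp only [Eb, (T.ex ℝ L κ).eq]; exact (T.ex ℝ L κ).add A o _ b (c0 T h) (c0 T h')

lemma Eb_smul (c : ℝ) (F : Fn L) (b : ℝ) : Eb A o (c • F) b = c * Eb A o F b := by
  simp only [Eb, (T.ex ℝ L κ).eq]; exact (T.ex ℝ L κ).smul A o _ c F b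

lemma Eb_cs (c b : ℝ) : Eb A o (cs L c) b = c := by
  simp only [Eb, (T.ex ℝ L κ).eq]; exact (T.ex ℝ L κ).const A o _ c

lemma Eb_mono (h : BS F) (h' : BS G) (b : ℝ) (a : ∀ s x, F b s x ≤ G b s x) :
    Eb A o F b ≤ Eb A o G b := by
  simp only [Eb, (T.ex ℝ L κ).eq]
  exact (T.ex ℝ L κ).mono A o _ b (abs_tanh_lt_one b).le (c0 T h) (c0 T h') a

lemma Eb_bd (h : BS F) : ∃ C, ∀ b, |Eb A o F b| ≤ C := by
  obtain ⟨C, hC⟩ := (T.bs L).bd h
  refine ⟨C, fun b => abs_le.2 ⟨?_, ?_⟩⟩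
  · exact (Eb_cs T A o _ b).symm.trans_le (Eb_mono T A o ((T.bs L).const _) h b
      fun s x => (abs_le.1 (hC b s x)).1)
  · exact (Eb_mono T A o h ((T.bs L).const _) b fun s x => (abs_le.1 (hC b s x)).2).trans_eq
      (Eb_cs T A o _ b)

lemma Cv_int (h : BS F) (h' : BS G) (ν : Measure ℝ) [IsProbabilityMeasure ν] :
    Integrable (Cv A o F G) ν := by
  have c : ∀ {F : Fn L}, BS F → Continuous (Eb A o F) := fun h =>
    ((T.gc ℝ L κ o).2.2.1 A _ (c0 T h)).1
  obtain ⟨a, ha⟩ := Eb_bd T A o ((T.bs L).mul h h')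
  obtain ⟨a', ha'⟩ := Eb_bd T A o h
  obtain ⟨a'', ha''⟩ := Eb_bd T A o h'
  refine .of_bound ((c ((T.bs L).mul h h')).sub ((c h).mul (c h'))).aestronglyMeasurable
    (a + a' * a'') (.of_forall fun b => (abs_sub _ _).trans (add_le_add (ha b) ?_))
  rw [abs_mul]
  exact mul_le_mul (ha' b) (ha'' b) (abs_nonneg _) ((abs_nonneg _).trans (ha' b))

lemma Eb_sq (h : BS F) (m b : ℝ) :
    Eb A o ((F + cs L m) ^ 2) b = Cv A o F F b + (Eb A o F b + m) ^ 2 := by
  have B := T.bs L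
  rw [show (F + cs L m) ^ 2 = F * F + (2 * m) • F + cs L (m ^ 2) by
      funext b s x; simp only [cs, Pi.pow_apply, Pi.add_apply, Pi.mul_apply, Pi.smul_apply,
        smul_eq_mul]; ring,
    Eb_add T A o (G := cs L _) (B.add (B.mul h h) (B.smul _ h)) (B.const _),
    Eb_add T A o (B.mul h h) (B.smul _ h), Eb_smul T, Eb_cs T, Cv]
  ring

lemma Cv_nn (h : BS F) (b : ℝ) : 0 ≤ Cv A o F F b := by
  have B := T.bs L
  have a := Eb_sq T A o h (-Eb A o F b) b
  have c := Eb_mono T A o (B.const 0) (B.pow 2 (B.add h (B.const (-Eb A o F b)))) b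
    fun s x => sq_nonneg _
  rw [show Eb A o (fun _ _ _ => 0) b = 0 from Eb_cs T A o 0 b] at c
  simpa using c.trans_eq a

omit T in
lemma Cv_comm (F G : Fn L) : Cv A o F G = Cv A o G F := by
  funext b; rw [Cv, Cv, mul_comm F, mul_comm (Eb A o F b)]

/-- bounded smooth functions -/
def Bm (L : Type) [Fintype L] [DecidableEq L] : Submodule ℝ (Fn L) where
  carrier := {F | BS F}
  add_mem' := (T.bs L).add
  zero_mem' := (T.bs L).const 0
  smul_mem' c _ := (T.bs L).smul c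

variable (β : ℝ) (ν : Measure ℝ) [IsProbabilityMeasure ν]

lemma cv_add (F F' G : Bm T L) : β ^ 2 * ∫ b, Cv A o (F + F' : Bm T L) G b ∂ν =
    β ^ 2 * ∫ b, Cv A o F G b ∂ν + β ^ 2 * ∫ b, Cv A o F' G b ∂ν := by
  have B := T.bs L
  rw [← mul_add, ← integral_add (Cv_int T A o F.2 G.2 ν) (Cv_int T A o F'.2 G.2 ν)]
  congr 2
  funext b
  simp only [Cv, Submodule.coe_add, add_mul, Eb_add T A o (B.mul F.2 G.2) (B.mul F'.2 G.2),
    Eb_add T A o F.2 F'.2]
  ring

lemma cv_smul (c : ℝ) (F G : Bm T L) : β ^ 2 * ∫ b, Cv A o (c • F : Bm T L) G b ∂ν =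
    c • (β ^ 2 * ∫ b, Cv A o F G b ∂ν) := by
  rw [smul_eq_mul, mul_left_comm, ← integral_const_mul c]
  congr 2
  funext b
  simp only [Cv, Submodule.coe_smul, smul_mul_assoc, Eb_smul T]
  ring

/-- the covariance form -/
def Bf : Bm T L →ₗ[ℝ] Bm T L →ₗ[ℝ] ℝ :=
  LinearMap.mk₂ ℝ (fun F G => β ^ 2 * ∫ b, Cv A o F G b ∂ν) (cv_add T A o β ν) (cv_smul T A o β ν)
    (fun F G G' => by simpa only [Cv_comm A o F] using cv_add T A o β ν G G' F)
    fun c F G => by simpa only [Cv_comm A o F] using cv_smul T A o β ν c G F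

lemma Bf_apply (F G : Bm T L) : Bf T A o β ν F G = β ^ 2 * ∫ b, Cv A o F G b ∂ν := rfl

lemma Bf_comm (F G : Bm T L) : Bf T A o β ν F G = Bf T A o β ν G F := by
  rw [Bf_apply, Bf_apply, Cv_comm]

lemma Bf_nn (F : Bm T L) : 0 ≤ Bf T A o β ν F F :=
  mul_nonneg (sq_nonneg _) (integral_nonneg (Cv_nn T A o F.2))

lemma bs_pt (i : ℕ) : BS (pt o i) :=
  (T.bs L).mul ((T.bs L).sub (T.bs L).sp ((T.bs L).th0 o)) ((T.bs L).pow _ ((T.bs L).th0 o))

/-- even polynomials of `t` -/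
def qq (o : L) {M : ℕ} (c : Fin M → ℝ) : Fn L := ∑ i, c i • th o ^ (2 * (i : ℕ))

lemma bs_qq {M : ℕ} (c : Fin M → ℝ) : BS (qq o c) :=
  (T.bs L).sum _ fun _ _ => (T.bs L).smul _ ((T.bs L).pow _ ((T.bs L).th0 o))

omit T in
lemma qq_apply {M : ℕ} (c : Fin M → ℝ) (b : ℝ) (s : Bool) (x : L → ℝ) :
    qq o c b s x = ∑ i, c i * tanh (b + x o) ^ (2 * (i : ℕ)) := by
  simp only [qq, Finset.sum_apply, Pi.smul_apply, Pi.pow_apply, th, smul_eq_mul]

omit T in
lemma sum_pt {M : ℕ} (c : Fin M → ℝ) : ∑ i, c i • pt o i = (sp - th o) * qq o c := by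
  simp only [pt, qq, Finset.mul_sum, mul_smul_comm]

omit T in
lemma poly_zero {M : ℕ} {c : Fin M → ℝ} (h : ∀ y : ℝ, ∑ i, c i * tanh y ^ (2 * (i : ℕ)) = 0) :
    c = 0 := by
  have a : (∑ i : Fin M, Polynomial.monomial (2 * (i : ℕ)) (c i)) = 0 := by
    refine Polynomial.eq_zero_of_infinite_isRoot _ ((infinite_range_of_injective
      tanh_injective).mono ?_)
    rintro _ ⟨y, rfl⟩
    simpa [Polynomial.eval_finsetSum] using h y
  funext j
  have := congrArg (Polynomial.coeff · (2 * (j : ℕ))) a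
  simpa [Polynomial.coeff_monomial, Fin.val_inj] using this

lemma pt_pos (I : IbpStmt) (h0 : 0 < (A * Aᵀ) o o) {M : ℕ} {c : Fin M → ℝ} (hc : c ≠ 0) (b : ℝ) :
    0 < Cv A o ((sp - th o) * qq o c) ((sp - th o) * qq o c) b := by
  have B := T.bs L
  have q := bs_qq T o c
  have g : gs (qq o c) = 0 := by funext b s x; simp [gs, qq_apply]
  have a := (I L κ A o b).2.2 _ 1 (B.ts q) (B.ts (B.const 1)) g
  have a' := (I L κ A o b).2.2 _ _ (B.ts q) (B.ts (B.mul (B.sub B.sp (B.th0 o)) q)) g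
  rw [mul_one, show gs (1 : Fn L) = 0 by funext b s x; simp [gs], mul_zero,
    show Eb A o 0 b = 0 from Eb_cs T A o 0 b] at a
  rw [Cv, a, a', mul_zero, sub_zero]
  set φ : ℝ → ℝ := fun y => (1 - tanh y ^ 2) * (∑ i, c i * tanh y ^ (2 * (i : ℕ))) ^ 2 with hφ
  have ct : Continuous tanh := by
    have : tanh = fun x => sinh x / cosh x := funext tanh_eq_sinh_div_cosh
    rw [this]; exact continuous_sinh.div continuous_cosh fun x => (cosh_pos x).ne'
  have φc : Continuous φ := by fun_prop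
  have φ0 : ∀ y, 0 ≤ φ y := fun y => mul_nonneg (sub_nonneg.2 (tanh_sq_lt_one y).le) (sq_nonneg _)
  have e : ((1 - th o ^ 2) * qq o c * gs ((sp - th o) * qq o c) : Fn L) b =
      fun _ x => φ (b + x o) := by
    funext s x
    simp only [gs, Pi.mul_apply, Pi.sub_apply, Pi.one_apply, Pi.pow_apply, th, sp, qq_apply, hφ,
      spin, if_true, Bool.false_eq_true, if_false]
    ring
  obtain ⟨C, hC⟩ := B.bd (B.mul (B.mul (B.sub (B.const 1) (B.pow 2 (B.th0 o))) q)
    (B.gs (B.mul (B.sub B.sp (B.th0 o)) q)))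
  have φC : ∀ x : L → ℝ, |φ (b + x o)| ≤ C := fun x => by
    have := hC b true x
    rwa [show (fun _ _ _ => 1 : Fn L) = 1 from rfl, e] at this
  obtain ⟨y, hy⟩ : ∃ y, φ y ≠ 0 := by
    by_contra! h
    exact hc (poly_zero fun y => pow_eq_zero_iff two_ne_zero |>.1 ((mul_eq_zero.1 (h y)).resolve_left
      (sub_pos.2 (tanh_sq_lt_one y)).ne'))
  have : (gaussianReal 0 1).IsOpenPosMeasure :=
    (gaussianReal_absolutelyContinuous' 0 one_ne_zero).isOpenPosMeasure
  rw [Eb, e, mdl]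
  refine Finset.sum_pos (fun σ _ => mul_pos (div_pos (exp_pos _) (by positivity)) ?_)
    Finset.univ_nonempty
  have c : Continuous fun z : κ → ℝ =>
      φ (b + (spin σ • (fun l => (A * Aᵀ) l o) + A *ᵥ z) o) := by fun_prop
  refine integral_pos_of_integrable_nonneg_nonzero c (.of_bound c.aestronglyMeasurable C
    (.of_forall fun z => φC _)) (fun z => φ0 _)
    (x := ((y - b - spin σ * (A * Aᵀ) o o) / (A * Aᵀ) o o) • A o) ?_
  rw [mulVec_smul]
  convert hy using 2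
  change b + (spin σ * (A * Aᵀ) o o + _ * (A * Aᵀ) o o) = y
  field_simp
  ring

omit T in
lemma rf_dft (B : BsApi L) (S : Matrix L L ℝ) {al : Fn L} {a : L → Fn L} (h : rf al = al)
    (h' : ∀ u, rf (a u) = a u) (hb : ∀ u, BS (a u)) : rf (dft S o al a) = -dft S o al a := by
  have d : ∀ u p b s x, dx p (a u) (-b) (!s) (-x) = -dx p (a u) b s x := fun u p b s x => by
    have := congrFun (congrFun (congrFun (B.rdx p (B.df (hb u))) b) s) x
    rw [h' u] at this
    rw [this]; exact (neg_neg _).symm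
  funext b s x
  have e1 : al (-b) (!s) (-x) = al b s x := congrFun (congrFun (congrFun h b) s) x
  have e2 : ∀ u, a u (-b) (!s) (-x) = a u b s x := fun u =>
    congrFun (congrFun (congrFun (h' u) b) s) x
  have e3 : spin (!s) = -spin s := by cases s <;> simp [spin]
  simp only [rf, dft, dl, Pi.add_apply, Pi.mul_apply, Pi.sub_apply, Pi.neg_apply, Pi.smul_apply,
    Finset.sum_apply, sp, th, co, smul_eq_mul, e1, e2, e3, d, ← neg_add b, tanh_neg]
  rw [neg_add, ← Finset.sum_neg_distrib]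
  congr 1
  · ring
  · refine Finset.sum_congr rfl fun u _ => ?_
    simp only [mul_neg, Finset.sum_neg_distrib]
    ring

end P75

open P75

/-- **small perturbations make the Gram matrix definite** -/
theorem pertGlue : PertGlue := fun T I _ β ν _ n N K _ _ F hN hF δ hδ => by
  classical
  have s0 : 0 < N.S 0 0 := hN.pd.diag_pos
  have β0 : 0 < β ^ 2 := (sq_nonneg β).lt_of_ne' fun h => by
    rw [hN.gr, gram, of_apply, h, zero_mul] at s0
    exact lt_irrefl _ s0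
  have pd := fun {J : Type} [Fintype J] => posDef_iff (I := J) (Bf_comm T N.A 0 β ν)
    (Bf_nn T N.A 0 β ν)
  let v : Ix n ⊕ K → Bm T (Ix n) := Sum.elim (fun l => ⟨N.f l, hN.bs l⟩) fun x => ⟨F x, hF x⟩
  let g : Fin (n + 2 + Fintype.card K) → Bm T (Ix n) := fun i => ⟨pt 0 i, bs_pt T 0 i⟩
  have hg : LinearIndependent ℝ fun i => Bf T N.A 0 β ν (g i) := by
    rw [← pd, posDef_iff_dotProduct_mulVec]
    refine ⟨IsHermitian.ext fun i j => Bf_comm T _ _ _ _ _ _, fun c hc => ?_⟩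
    have h := bs_qq T (0 : Ix n) c
    have B := T.bs (Ix n)
    have h' := B.mul (B.sub B.sp (B.th0 0)) h
    rw [star_trivial, quad_eq, Bf_apply, Submodule.coe_sum]
    simp only [Submodule.coe_smul, g, sum_pt]
    refine mul_pos β0 ((integral_pos_iff_support_of_nonneg (Cv_nn T _ _ h')
      (Cv_int T _ _ h' h' ν)).2 ?_)
    rw [show Function.support _ = univ from
      eq_univ_of_forall fun b => (pt_pos T N.A 0 I s0 hc b).ne', measure_univ]
    exact one_pos
  obtain ⟨c, c1, c2, c3⟩ := pert_lin (fun j => Bf T N.A 0 β ν (v j)) (Finset.univ.image Sum.inl)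
    (by
      rw [Finset.coe_image, Finset.coe_univ, image_univ, linearIndepOn_range_iff Sum.inl_injective]
      exact (pd fun l => v (.inl l)).1 (by have := hN.pd; rwa [hN.gr] at this))
    hg (by simp) hδ Finset.univ
  refine ⟨fun x => c (.inr x), (pi_norm_le_iff_of_nonneg hδ.le).2 fun x =>
    (norm_le_pi_norm c _).trans c1, ?_⟩
  rw [Finset.union_eq_right.2 (Finset.subset_univ _), Finset.coe_univ, linearIndepOn_univ_iff] at c3
  simp only [← map_smul, ← map_sum, ← map_add] at c3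
  convert (pd _).2 c3 using 1
  have e : ∀ j, Sum.elim N.f (fun x => F x + ∑ i, c (.inr x) i • pt 0 i) j =
      (v j + ∑ i, c j i • g i : Bm T (Ix n)) := by
    rintro (l | x)
    · rw [c2 _ (Finset.mem_image_of_mem _ (Finset.mem_univ l))]; simp [v]
    · simp [v, g]
  ext i j
  rw [gram, of_apply, of_apply, Bf_apply, e, e]

/-- **an even flow becomes a drift node** -/
theorem drfGlue : DrfGlue := fun T Fa Pe Ap β ν _ n N hN al a hf h1 h2 v r hr k hk e he => by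
  classical
  have B := T.bs (Ix n)
  have hd := ((Fa β ν n N hN).1 al a hf).1
  have k0 : 0 < k - 1 := sub_pos.2 hk
  set Q := β ^ 2 * (k / (k - 1) * (2 * (n + 3)) ^ 2) with hQ
  have Q0 : 0 ≤ Q := by positivity
  obtain ⟨c, c1, c2⟩ := Pe β ν n N Unit (fun _ => N.drift al a) hN (fun _ => hd)
    (min 1 (e / (Q + 1))) (by positivity)
  obtain ⟨n', E, hE⟩ := Ap.1 n Unit
  have eq : N.drift al a + ∑ i, c () i • pt 0 i = N.drift (al + qq 0 (c ())) a := by
    rw [sum_pt, Net.drift, Net.drift, dft, dft]; ring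
  have hq := bs_qq T (0 : Ix n) (c ())
  have r1 : rf (al + qq 0 (c ())) = al + qq 0 (c ()) := by
    funext b s x
    have : al (-b) (!s) (-x) = al b s x := congrFun (congrFun (congrFun h1 b) s) x
    simp only [rf, Pi.add_apply, qq_apply, this, Pi.neg_apply, ← neg_add, tanh_neg,
      Even.neg_pow (even_two_mul _)]
  have fl : N.Flw (al + qq 0 (c ())) a := ⟨B.add hf.bal hq, by
    funext b s x
    have := congrFun (congrFun (congrFun hf.free b) s) x
    simp only [gs, Pi.add_apply, qq_apply, Pi.zero_apply] at this ⊢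
    linarith, hf.ba, hf.nd⟩
  have hG := ((Fa β ν n N hN).1 _ a fl).1
  obtain ⟨N', o1, o2, o3, -, o4, -⟩ := Ap.2 β ν n n' N Unit E
    (fun x => N.drift al a + ∑ i, c x i • pt 0 i) (fun _ => al + qq 0 (c ())) (fun _ => a)
    (fun _ => True) hE hN
    (fun _ => by rw [eq]; exact ⟨hG, rf_dft 0 B _ r1 h2 fun u => (hf.ba u).1⟩)
    (fun _ => ⟨fl, r1, h2⟩) (fun _ h => (h trivial).elim) (fun _ _ => eq) c2
  refine ⟨n', N', _, E (.inr ()), o1, o2, (o3 ()).2 trivial, ?_⟩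
  let G : Bm T (Ix n) := ⟨_, hG⟩
  let f : Bm T (Ix n) := ⟨_, hN.bs v⟩
  have s : ∀ i j, N'.S (E i) (E j) = gram β ν N.A 0 (Sum.elim N.f fun x =>
      N.drift al a + ∑ i, c x i • pt 0 i) i j := fun i j => by rw [← o4]; rfl
  have s1 : N'.sq (Pi.single (E (.inr ())) 1 - Pi.single (E (.inl v)) 1) =
      Bf T N.A 0 β ν (G - f) (G - f) := by
    simp only [Net.sq, mulVec_sub, sub_dotProduct, dotProduct_sub, mulVec_single_one,
      single_one_dotProduct, col_apply, s, gram, of_apply, Sum.elim_inl, Sum.elim_inr, eq, map_sub,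
      LinearMap.sub_apply, Bf_apply, G, f]
  have hX := fun m : ℝ => B.sub hd (B.sub (hN.bs v) (B.const m))
  have key : ∀ b, Cv N.A 0 (G - f : Bm T (Ix n)) (G - f : Bm T (Ix n)) b ≤
      k * r + k / (k - 1) * (2 * (n + 3) * ‖c‖) ^ 2 := fun b => by
    set m := N.E (N.f v) b
    refine ((le_add_of_nonneg_right (sq_nonneg _)).trans_eq
      (Eb_sq T N.A 0 (G - f).2 m b).symm).trans ((Eb_mono T N.A 0
        (B.pow 2 (B.add (G - f).2 (B.const m))) (B.add (B.smul k (B.pow 2 (hX m)))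
          (B.const (k / (k - 1) * (2 * (n + 3) * ‖c‖) ^ 2))) b fun s x => ?_).trans ?_)
    · have y : |(∑ i, c () i • pt 0 i : Fn (Ix n)) b s x| ≤ 2 * (n + 3) * ‖c‖ := by
        simp only [Finset.sum_apply, Pi.smul_apply, smul_eq_mul]
        refine (Finset.abs_sum_le_sum_abs _ _).trans ((Finset.sum_le_card_nsmul _ _ (‖c‖ * 2)
          fun i _ => ?_).trans_eq (by rw [Finset.card_univ, Fintype.card_fin]; simp; ring))
        rw [abs_mul]
        refine mul_le_mul ((norm_le_pi_norm (c ()) i).trans (norm_le_pi_norm c ())) ?_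
          (abs_nonneg _) (norm_nonneg _)
        have t := (abs_tanh_lt_one (b + x 0)).le
        have u : |spin s| = 1 := by cases s <;> simp [spin]
        change |(spin s - tanh (b + x 0)) * tanh (b + x 0) ^ (2 * (i : ℕ))| ≤ 2
        rw [abs_mul, abs_pow]
        exact (mul_le_of_le_one_right (abs_nonneg _) (pow_le_one₀ (abs_nonneg _) t)).trans
          ((abs_sub _ _).trans (by linarith))
      have y2 := mul_le_mul_of_nonneg_left (sq_le_sq' (abs_le.1 y).1 (abs_le.1 y).2)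
        (by positivity : 0 ≤ k / (k - 1))
      simp only [G, f, ← eq, Submodule.coe_sub, Pi.pow_apply, Pi.add_apply, Pi.sub_apply,
        Pi.smul_apply, smul_eq_mul]
      generalize (∑ i, c () i • pt 0 i : Fn (Ix n)) b s x = y at y2
      generalize hz : N.drift al a b s x - (N.f v b s x - m) = z
      rw [show N.drift al a b s x + y - N.f v b s x + m = z + y by rw [← hz]; ring]
      have : k * z ^ 2 + k / (k - 1) * y ^ 2 - (z + y) ^ 2 = ((k - 1) * z - y) ^ 2 / (k - 1) := by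
        field_simp; ring
      have : 0 ≤ ((k - 1) * z - y) ^ 2 / (k - 1) := by positivity
      linarith
    · rw [Eb_add T _ _ (B.smul k (B.pow 2 (hX m))) (B.const _), Eb_smul T]
      exact add_le_add (mul_le_mul_of_nonneg_left (hr b) (by linarith)) (Eb_cs T _ _ _ b).le
  have := mul_le_mul_of_nonneg_left (integral_mono (Cv_int T N.A 0 (G - f).2 (G - f).2 ν)
    (integrable_const _) key) (sq_nonneg β)
  rw [integral_const, probReal_univ, one_smul] at this
  rw [s1]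
  refine this.trans ?_
  have n0 := norm_nonneg c
  have a1 : ‖c‖ ^ 2 ≤ ‖c‖ := by nlinarith [c1.trans (min_le_left _ _)]
  have a2 := (le_div_iff₀ (by positivity)).1 (c1.trans (min_le_right _ _))
  rw [mul_add, mul_pow, ← mul_assoc (k / (k - 1)), ← mul_assoc (β ^ 2) (_ * _), ← hQ]
  nlinarith [mul_le_mul_of_nonneg_left a1 Q0]

end Crest.Agent.T157.Nt

end
end

-- ▼ part T157/NetStep_32
section

/-!
# Row 157, block B/S3, section 7 (helper32): one level of an extended tower is simulated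
-/

set_option autoImplicit false
set_option linter.unusedVariables false
set_option linter.unusedSectionVars false

noncomputable section

namespace Crest.Agent.T157.Nt

open MeasureTheory Matrix Real Set Filter Topology
open Crest.ProbabilityR.SpinGlassDynamics (spin)
open Crest.Agent.T157.Tw (sech2 Bath SV sS xS zS tS exS rsS imS Step)

namespace Fam

section net
variable {L K T : Type} [Fintype L] [DecidableEq L] [Fintype K] [DecidableEq K] [Fintype T]

lemma row_ap {W : Matrix K L ℝ} {r : K} {u : L} (h : W r = Pi.single u 1) (x : L → ℝ) :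
    (W *ᵥ x) r = x u := by
  change W r ⬝ᵥ x = _; rw [h, single_one_dotProduct]

lemma sel_mul {I I' : Type} {U : Matrix I L ℝ} {U' : Matrix I' K ℝ} {i : I} {j : I'} {p : L}
    {q : K} (h : U i = Pi.single p 1) (h' : U' j = Pi.single q 1) (S : Matrix L K ℝ) :
    (U * S * U'ᵀ) i j = S p q := by
  have : (U * S * U'ᵀ) i j = U i ⬝ᵥ S *ᵥ U' j := by
    rw [Matrix.mul_assoc]; rfl
  rw [this, h, h', single_one_dotProduct, mulVec_single_one]; rfl

lemma rf_pb (W : Matrix K L ℝ) (F : Fn K) : rf (pb W F) = pb W (rf F) := by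
  funext b s x; simp [rf, pb, mulVec_neg]
lemma rf_tb (F : Fn L) : rf (tb F) = tb (rf F) := by
  funext b s x; simp [rf, tb, tanh_neg]

lemma rf_add (F G : Fn L) : rf (F + G) = rf F + rf G := rfl
lemma rf_mul (F G : Fn L) : rf (F * G) = rf F * rf G := rfl
lemma dl_tb (S : Matrix L L ℝ) (o u : L) (a : Fn L) (b : ℝ) :
    dl S o u (tb a) b = dl S o u a (tanh b) := by
  funext s x; simp only [dl, Pi.sub_apply, Finset.sum_apply]; rfl

lemma dl_lin (tl : Tl) (S : Matrix L L ℝ) (o u : L) (c : T → ℝ) {a : T → Fn L}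
    (h : ∀ t, Df (a t)) : dl S o u (∑ t, c t • a t) = ∑ t, c t • dl S o u (a t) := by
  have e : ∀ p, dx p (∑ t, c t • a t) = ∑ t, c t • dx p (a t) := fun p => by
    rw [(tl.dx ℝ L).sum p _ (F := fun t => c t • a t) fun t _ θ s => (h t θ s).const_smul (c t)]
    exact Finset.sum_congr rfl fun t _ => (tl.dx ℝ L).smul p _ _
  simp only [dl, e, Finset.sum_mul, smul_mul_assoc, Finset.smul_sum, smul_sub,
    Finset.sum_sub_distrib]
  congr 1
  rw [Finset.sum_comm]
  exact Finset.sum_congr rfl fun _ _ => Finset.sum_congr rfl fun _ _ => smul_comm _ _ _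

/-- **read-back of a drift** -/
lemma dft_pb (tl : Tl) {S : Matrix L L ℝ} (hS : Sᵀ = S) {W : Matrix K L ℝ} {o : K} {o' : L}
    {r : T → K} {u : T → L} (ho : W o = Pi.single o' 1) (hr : ∀ t, W (r t) = Pi.single (u t) 1)
    (al : Fn K) {a : T → Fn K} (h : ∀ t, Df (a t)) :
    dft S o' (pb W al) (fun v => ∑ t, (Pi.single (u t) 1 : L → ℝ) v • pb W (a t)) =
      pb W ((sp - th o) * al + ∑ t, dl (W * S * Wᵀ) o (r t) (a t)) := by
  have e : ∀ t, ∑ v, (Pi.single (u t) 1 : L → ℝ) v • dl S o' v (pb W (a t)) =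
      pb W (dl (W * S * Wᵀ) o (r t) (a t)) := fun t => by
    rw [← (tl.dx ℝ L).dl W S o' (u t) o (r t) hS ho (hr t) (h t)]
    simp [Pi.single_apply]
  unfold dft
  simp_rw [dl_lin tl S o' _ _ fun t => ((tl.dx ℝ L).pb W o' (h t)).1]
  rw [Finset.sum_comm]
  simp_rw [e]
  funext b s x
  simp [pb, sp, th, row_ap ho, Finset.sum_apply]

end net

/-! ### the families -/

/-- the data of one level -/
structure Dat (m m0 k k0 : ℕ) (T : Type) where
  β : ℝ
  ι : Matrix (Fin m) (Fin m0) ℝ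
  τ : T → Fin m0
  C : Fin k → ℝ → Fn (Fin m)
  H : Fin k0 → ℝ → Fn (Fin m0)

abbrev JJ (m k k0 d : ℕ) (T : Type) : Type :=
  ℝ × (Fin k ⊕ Fin k0 → Fin d → ℝ) × (Rw m T → Rw m T → ℝ)

namespace Dat
variable {m m0 k k0 : ℕ} {T : Type} [Fintype T] [DecidableEq T] (X : Dat m m0 k k0 T) (d : ℕ)

def AA (θ : JJ m k k0 d T) : Matrix (Rw m T) (Rw m T) ℝ := θ.2.2
def Rm : Matrix (Fin m) (Rw m T) ℝ := of fun i y => if y = some (.inl i) then X.β⁻¹ else 0
def cc (x : Fin k ⊕ Fin k0) (i : Fin d) : JJ m k k0 d T → Fn (Rw m T) := fun θ _ _ _ => θ.2.1 x i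
def qq (x : Fin k ⊕ Fin k0) : JJ m k k0 d T → Fn (Rw m T) :=
  ∑ i, cc d x i * tF none ^ (2 * (i : ℕ))
def aL (l : Fin k0) : JJ m k k0 d T → Fn (Rw m T) :=
  (fun θ => pb (X.ιᵀ * X.Rm) (gs (X.H l θ.1))) + qq d (.inr l)
def aM (l : Fin k0) (t : T) : JJ m k k0 d T → Fn (Rw m T) :=
  X.β⁻¹ • ((fun θ => pb (X.ιᵀ * X.Rm) (dx (X.τ t) (X.H l θ.1))) *
    fun θ _ _ x => rr θ.1 (x (some (.inr t))))
def ta : JJ m k k0 d T → Fn (Rw m T) := (fun _ => (sp : Fn (Rw m T))) - tF none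
def g : Rw k (Fin k0) → JJ m k k0 d T → Fn (Rw m T)
  | none => fun _ => sp
  | some (.inl i) => (fun θ : JJ m k k0 d T => pb X.Rm (X.C i θ.1)) + ta d * qq d (.inl i)
  | some (.inr l) => ta d * X.aL d l +
      ∑ t, fun θ : JJ m k k0 d T => dl (AA d θ * (AA d θ)ᵀ) none (some (.inr t)) (X.aM d l t θ)
def ha : Rw k (Fin k0) ⊕ Fin k0 → JJ m k k0 d T → Fn (Rw m T)
  | .inl x => fun θ => gs (X.g d x θ)
  | .inr l => X.aL d l
def he : Rw k (Fin k0) ⊕ Fin k0 → Rw m T ⊕ T → JJ m k k0 d T → Fn (Rw m T)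
  | .inl x, .inl y => fun θ => dx y (X.g d x θ)
  | .inr l, .inr t => X.aM d l t
  | _, _ => 0

structure Ok : Prop where
  C : ∀ i, GS id (X.C i) ∧ ∀ η, rf (X.C i η) = -X.C i η
  H : ∀ l, GS id (X.H l) ∧ ∀ η, rf (X.H l η) = -X.H l η

lemma cont_AA : Continuous (AA d : JJ m k k0 d T → _) := continuous_snd.comp continuous_snd

variable {X} (tl : Tl) (h : X.Ok)
include tl

lemma ut_qq (x : Fin k ⊕ Fin k0) : UT (qq d x : JJ m k k0 d T → _) :=
  UT.sum tl _ fun i _ => (ut_cb tl (c := fun θ : JJ m k k0 d T => θ.2.1 x i) (by fun_prop)).mul tl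
    ((ut_tF tl none).pow tl _)

lemma tb_qq (x : Fin k ⊕ Fin k0) (θ : JJ m k k0 d T) :
    tb (qq d x θ) = ∑ i, θ.2.1 x i • th none ^ (2 * (i : ℕ)) := by
  rw [← tb_tF tl none θ]
  funext b s y; simp [qq, cc, tb, Finset.sum_apply]

include h

lemma ut_H (l : Fin k0) : UT fun θ : JJ m k k0 d T => X.H l θ.1 :=
  UT.re tl continuous_fst (h.H l).1.1
lemma ut_aL (l : Fin k0) : UT (X.aL d l) :=
  (((ut_H d tl h l).gs tl).pb tl _).add tl (ut_qq d tl _)
lemma ut_aM (l : Fin k0) (t : T) : UT (X.aM d l t) :=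
  ((((ut_H d tl h l).dx tl _).pb tl _).mul tl (ut_rr tl continuous_fst _)).smul tl _
lemma ut_g : ∀ x, UT (X.g d x)
  | none => ut_sp tl
  | some (.inl i) => (UT.pb tl _ (UT.re tl continuous_fst (h.C i).1.1)).add tl
      (((ut_sp tl).sub tl (ut_tF tl _)).mul tl (ut_qq d tl _))
  | some (.inr l) => (((ut_sp tl).sub tl (ut_tF tl _)).mul tl (ut_aL d tl h l)).add tl
      (UT.sum tl _ fun t _ => (ut_aM d tl h l t).dl tl
        ((cont_AA d).matrix_mul (cont_AA d).matrix_transpose) _ _)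
lemma ut_ha : ∀ i, UT (X.ha d i)
  | .inl x => (ut_g d tl h x).gs tl
  | .inr l => ut_aL d tl h l
lemma ut_he : ∀ i p, UT (X.he d i p)
  | .inl x, .inl y => (ut_g d tl h x).dx tl y
  | .inr l, .inr t => ut_aM d tl h l t
  | .inl _, .inr _ => ut_zero tl
  | .inr _, .inl _ => ut_zero tl

section lvl
variable (X) {n : ℕ} (M : Matrix (Fin m) (Ix n) ℝ) (u : T → Ix n) (θ : JJ m k k0 d T)

def G (x : Fin k ⊕ Fin k0) : Fn (Ix n) := pb (Mm M u) (tb (X.g d (some x) θ))
def al : Fin k ⊕ Fin k0 → Fn (Ix n) := Sum.elim 0 fun l => pb (Mm M u) (tb (X.aL d l θ))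
def a : Fin k ⊕ Fin k0 → Ix n → Fn (Ix n) := Sum.elim 0 fun l v =>
  ∑ t, (Pi.single (u t) 1 : Ix n → ℝ) v • pb (Mm M u) (tb (X.aM d l t θ))

variable {X θ} (h0 : θ.1 ≠ 0)

omit h in
lemma bs_qq (x : Fin k ⊕ Fin k0) : BS (tb (qq d x θ)) ∧ rf (tb (qq d x θ)) = tb (qq d x θ) := by
  have B := tl.bs (Rw m T)
  rw [tb_qq d tl]
  refine ⟨B.sum _ fun i _ => B.smul _ (B.pow _ (B.th0 _)), ?_⟩
  funext b s y
  simp only [rf, th, Finset.sum_apply, Pi.smul_apply, Pi.pow_apply, Pi.neg_apply, ← neg_add b,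
    tanh_neg, pow_mul, neg_sq]

omit h in
lemma tb_ta : tb (ta d θ) = sp - th none := by rw [← tb_tF tl none θ]; rfl

include h0

lemma flw {N : Net n} (hu : ∀ t, N.dr (u t)) : ∀ x, N.Flw (X.al d M u θ x) (X.a d M u θ x) ∧
    rf (X.al d M u θ x) = X.al d M u θ x ∧ ∀ v, rf (X.a d M u θ x v) = X.a d M u θ x v := by
  have B := tl.bs (Rw m T)
  have B' := tl.bs (Ix n)
  have B0 := tl.bs (Fin m0)
  rintro (i | l)
  · refine ⟨⟨B'.const 0, by funext b s y; simp [al, gs], fun v => ⟨B'.const 0, ?_⟩, fun _ _ => rfl⟩,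
      rfl, fun _ => rfl⟩
    change BS (0 * co v)
    rw [zero_mul]; exact B'.const 0
  have hH : BS (tb (X.H l θ.1)) := (h.H l).1.2 θ.1 h0
  have oH : rf (tb (X.H l θ.1)) = -tb (X.H l θ.1) := by rw [rf_tb, (h.H l).2]; rfl
  have e1 : tb (X.aL d l θ) = pb (X.ιᵀ * X.Rm) (gs (tb (X.H l θ.1))) + tb (qq d (.inr l) θ) := rfl
  have e2 : ∀ t, tb (X.aM d l t θ) = X.β⁻¹ • (pb (X.ιᵀ * X.Rm) (dx (X.τ t) (tb (X.H l θ.1))) *
      fun _ _ x => rr θ.1 (x (some (.inr t)))) := fun t => rfl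
  have b2 : ∀ t, BS (tb (X.aM d l t θ)) := fun t => by
    rw [e2]; exact B.smul _ (B.mul (B.pb _ (B0.dx _ hH)) (B.rr _ _))
  have b3 : ∀ t, BS (pb (Mm M u) (tb (X.aM d l t θ)) * co (u t)) := fun t => by
    have : pb (Mm M u) (tb (X.aM d l t θ)) * co (u t) = pb (Mm M u) (X.β⁻¹ •
        (pb (X.ιᵀ * X.Rm) (dx (X.τ t) (tb (X.H l θ.1))) *
          fun _ _ x => rr θ.1 (x (some (.inr t))) * x (some (.inr t)))) := by
      funext b s y
      simp only [e2, pb, co, Pi.mul_apply, Pi.smul_apply, smul_eq_mul,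
        row_ap (W := Mm M u) (r := some (.inr t)) rfl]
      ring
    rw [this]
    exact B'.pb _ (B.smul _ (B.mul (B.pb _ (B0.dx _ hH)) (B.yy _ h0 _)))
  have o1 : rf (gs (tb (X.H l θ.1))) = gs (tb (X.H l θ.1)) := by
    have := B0.rgs (tb (X.H l θ.1))
    rw [oH] at this
    rw [← neg_inj, ← this]; funext b s y; simp only [gs, Pi.neg_apply]; ring
  have o2 : ∀ i, rf (dx i (tb (X.H l θ.1))) = dx i (tb (X.H l θ.1)) := fun i => by
    have := B0.rdx i (B0.df hH)
    rw [oH, ← neg_one_smul ℝ (tb _), (tl.dx ℝ _).smul, neg_one_smul] at this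
    exact (neg_inj.1 this).symm
  have b1 : BS (pb (Mm M u) (tb (X.aL d l θ))) :=
    B'.pb _ (by rw [e1]; exact B.add (B.pb _ (B0.gs hH)) (bs_qq d tl _).1)
  refine ⟨⟨b1, ?_, fun v => ⟨?_, ?_⟩,
    fun v hv => ?_⟩, ?_, fun v => ?_⟩
  · funext b s y
    simp [al, e1, tb_qq d tl, gs, pb, th, Finset.sum_apply]
  · exact B'.sum _ fun t _ => B'.smul _ (B'.pb _ (b2 t))
  · simp only [a, Sum.elim_inr, Finset.sum_mul, smul_mul_assoc]
    refine B'.sum _ fun t _ => ?_
    by_cases e : v = u t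
    · subst e; exact B'.smul _ (b3 t)
    · rw [Pi.single_eq_of_ne e, zero_smul]; exact B'.const 0
  · refine Finset.sum_eq_zero fun t _ => ?_
    rw [Pi.single_eq_of_ne (by rintro rfl; exact hv (hu t)), zero_smul]
  · simp only [al, Sum.elim_inr]
    rw [rf_pb, e1, rf_add, rf_pb, o1, (bs_qq d tl _).2]
  · have : ∀ t, rf (tb (X.aM d l t θ)) = tb (X.aM d l t θ) := fun t => by
      rw [e2]
      conv_rhs => rw [← o2, ← rf_pb]
      funext b s y; simp [rf, rr]
    funext b s y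
    simp only [a, rf, Sum.elim_inr, Finset.sum_apply, Pi.smul_apply]
    refine Finset.sum_congr rfl fun t _ => ?_
    conv_rhs => rw [← this t, ← rf_pb]
    rfl

omit h0 in
lemma drf {N : Net n} (hθ : AA d θ * (AA d θ)ᵀ = Mm M u * N.S * (Mm M u)ᵀ) (l : Fin k0) :
    X.G d M u θ (.inr l) = N.drift (X.al d M u θ (.inr l)) (X.a d M u θ (.inr l)) := by
  have := dft_pb tl (S := N.S) (by simp [Net.S]) (W := Mm M u) (o := none) (o' := 0)
    (r := fun t => some (.inr t)) (u := u) rfl (fun _ => rfl) (tb (X.aL d l θ))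
    fun t => (ut_aM d tl h l t).diff tl θ
  refine Eq.trans ?_ this.symm
  rw [← hθ, ← tb_ta d tl (θ := θ)]
  funext b s y
  simp only [G, g, pb, dl_tb, Pi.add_apply, Pi.mul_apply, Finset.sum_apply]
  simp only [tb, Pi.add_apply, Pi.mul_apply, Finset.sum_apply]

lemma bsG (fa : FactStmt) {β : ℝ} {ν : Measure ℝ} [IsProbabilityMeasure ν] {N : Net n}
    (hN : N.Ok β ν) (hu : ∀ t, N.dr (u t))
    (hθ : AA d θ * (AA d θ)ᵀ = Mm M u * N.S * (Mm M u)ᵀ) :
    ∀ x, BS (X.G d M u θ x) ∧ rf (X.G d M u θ x) = -X.G d M u θ x := by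
  have B := tl.bs (Rw m T)
  rintro (i | l)
  · have e : tb (X.g d (some (.inl i)) θ) =
        pb X.Rm (tb (X.C i θ.1)) + tb (ta d θ) * tb (qq d (.inl i) θ) := rfl
    unfold G
    rw [e, tb_ta d tl]
    refine ⟨(tl.bs _).pb _ (B.add (B.pb _ ((h.C i).1.2 θ.1 h0))
      (B.mul (B.sub B.sp (B.th0 _)) (bs_qq d tl _).1)), ?_⟩
    rw [rf_pb, rf_add, rf_mul, rf_pb, rf_tb, (h.C i).2, (bs_qq d tl _).2]
    funext b s y
    have e3 : spin (!s) = -spin s := by cases s <;> simp [spin]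
    simp only [pb, tb, rf, sp, th, Pi.add_apply, Pi.mul_apply, Pi.sub_apply, Pi.neg_apply, e3,
      ← neg_add b, tanh_neg]
    ring
  · rw [drf d tl h M u hθ]
    obtain ⟨f1, f2, f3⟩ := flw d tl h M u h0 hu (.inr l)
    exact ⟨((fa β ν n N hN).1 _ _ f1).1, P75.rf_dft 0 (tl.bs _) _ f2 f3 fun v => (f1.ba v).1⟩

omit h h0 in
lemma pert (η : ℝ) (c : Fin k ⊕ Fin k0 → Fin d → ℝ) (A : Rw m T → Rw m T → ℝ) :
    X.G d M u (η, c, A) = fun x => X.G d M u (η, 0, A) x + ∑ i, c x i • pt 0 i := by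
  have e : ∀ x, pb (Mm M u) (tb (ta d (η, c, A)) * tb (qq d x (η, c, A))) =
      ∑ i, c x i • pt (0 : Ix n) i := fun x => by
    rw [tb_ta d tl, tb_qq d tl]
    funext b s y
    simp only [pb, pt, sp, th, Pi.mul_apply, Pi.sub_apply, Finset.sum_apply, Pi.smul_apply,
      Pi.pow_apply, smul_eq_mul, Finset.mul_sum, row_ap (W := Mm M u) (r := none) rfl]
    exact Finset.sum_congr rfl fun _ _ => by ring
  have z : ∀ x, qq d x ((η, 0, A) : JJ m k k0 d T) = 0 := fun x => by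
    funext b s y; simp [qq, cc, Finset.sum_apply]
  funext x
  rw [← e]
  funext b s y
  rcases x with i | l
  · simp only [G, g, pb, tb, Pi.add_apply, Pi.mul_apply, z, mul_zero, add_zero]
  · have e1 : ∀ t, X.aM d l t (η, c, A) = X.aM d l t (η, 0, A) := fun _ => rfl
    have e2 : ta d (η, c, A) = ta d ((η, 0, A) : JJ m k k0 d T) := rfl
    simp only [G, g, aL, pb, tb, Pi.add_apply, Pi.mul_apply, z, add_zero, Finset.sum_apply, AA,
      e1, e2]
    ring

omit tl h in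
def row : Rw k (Fin k0) → Ix n ⊕ (Fin k ⊕ Fin k0)
  | none => .inl 0
  | some x => .inr x
omit tl h in
def rowh : Rw k (Fin k0) ⊕ Fin k0 → (Ix n ⊕ (Fin k ⊕ Fin k0)) ⊕ (Ix n ⊕ (Fin k ⊕ Fin k0))
  | .inl x => .inl (row x)
  | .inr l => .inr (.inr (.inr l))
omit tl h in
def M' {n' : ℕ} (E : Ix n ⊕ (Fin k ⊕ Fin k0) ≃ Ix n') : Matrix (Fin k) (Ix n') ℝ :=
  fun i => Pi.single (E (.inr (.inl i))) 1
omit tl h in
def u' {n' : ℕ} (E : Ix n ⊕ (Fin k ⊕ Fin k0) ≃ Ix n') (l : Fin k0) : Ix n' := E (.inr (.inr l))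

lemma app (fa : FactStmt) (ap : AppStmt) {β : ℝ} {ν : Measure ℝ} [IsProbabilityMeasure ν]
    {N : Net n} (hN : N.Ok β ν) (hu : ∀ t, N.dr (u t))
    (hθ : AA d θ * (AA d θ)ᵀ = Mm M u * N.S * (Mm M u)ᵀ) {n' : ℕ}
    {E : Ix n ⊕ (Fin k ⊕ Fin k0) ≃ Ix n'} (hE : Pos E)
    (pd : (gram β ν N.A 0 (Sum.elim N.f (X.G d M u θ))).PosDef) :
    ∃ N' : Net n', N'.Ok β ν ∧ N.Ext N' (fun v => E (.inl v)) ∧ (∀ l, N'.dr (u' E l)) ∧
      (∀ x y, (Mm (M' E) (u' E) * N'.S * (Mm (M' E) (u' E))ᵀ) x y =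
        β ^ 2 * CI ν (AA d) none (X.g d x) (X.g d y) θ) ∧
      (∀ x y, (Mm (M' E) (u' E) * N'.PD * (Mm (M' E) (u' E))ᵀ) x y =
        PF β ν (AA d) none (1 - tF none ^ 2) (fun θ => gs (X.g d x θ)) (fun p θ => dx p (X.g d x θ))
          (fun θ => gs (X.g d y θ)) (fun p θ => dx p (X.g d y θ))
          (Mm M u * N.PD * (Mm M u)ᵀ) θ) ∧
      ∀ i j, (Mh (M' E) (u' E) * N'.P1 * (Mh (M' E) (u' E))ᵀ) i j =
        PF β ν (AA d) none 1 (X.ha d i) (X.he d i) (X.ha d j) (X.he d j)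
          (Mh M u * N.P1 * (Mh M u)ᵀ) θ := by
  obtain ⟨N', o1, o2, o3, -, o4, o5, o6⟩ := ap.2 β ν n n' N _ E (X.G d M u θ) (X.al d M u θ)
    (X.a d M u θ) (fun x => x.isRight = true) hE hN (bsG d tl h M u h0 fa hN hu hθ)
    (flw d tl h M u h0 hu) (by rintro (i | l) hx; exacts [⟨rfl, rfl⟩, (hx rfl).elim])
    (by rintro (i | l) hx; exacts [by simp at hx, drf d tl h M u hθ l]) pd
  have r1 : ∀ x, Mm (M' E) (u' E) x = Pi.single (E (row x)) 1 := by
    rintro (_ | i | l)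
    · simp only [row, hE.zero]; rfl
    all_goals rfl
  have r2 : ∀ i, Mh (M' E) (u' E) i = Pi.single (Sum.map E E (rowh i)) 1 := by
    rintro (x | l)
    · simp only [Mh, r1, rowh, Sum.map_inl]; exact Sum.elim_single_zero _ _
    · exact Sum.elim_zero_single _ _
  have g1 : ∀ x, Sum.elim N.f (X.G d M u θ) (row x) = pb (Mm M u) (tb (X.g d x θ)) := by
    rintro (_ | x)
    · exact hN.f0
    · rfl
  have g2 : ∀ x p, dx p (pb (Mm M u) (tb (X.g d x θ))) =
      ∑ y, Mm M u y p • pb (Mm M u) (tb (dx y (X.g d x θ))) := fun x p =>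
    ((tl.dx ℝ _).pb _ p ((ut_g d tl h x).diff tl θ)).2
  have g3 : ∀ i, eal (Sum.elim N.f (X.G d M u θ)) (Sum.elim N.al (X.al d M u θ)) (rowh i) =
      pb (Mm M u) (tb (X.ha d i θ)) := by
    rintro (x | l)
    · simp only [rowh, eal, Sum.elim_inl, g1]; rfl
    · rfl
  have z : pb (Mm M u) (tb (0 : Fn (Rw m T))) = 0 := rfl
  have g4 : ∀ i, ea (Sum.elim N.f (X.G d M u θ)) (Sum.elim N.a (X.a d M u θ)) (rowh i) =
      fun p => ∑ y, Mh M u y p • pb (Mm M u) (tb (X.he d i y θ)) := by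
    rintro (x | l) <;> funext p <;> rcases p with p | p <;>
      simp only [rowh, ea, g1, g2, Fintype.sum_sum_type, Mh, he, z, a, Sum.elim_inl, Sum.elim_inr,
        Pi.zero_apply, zero_smul, smul_zero, Finset.sum_const_zero, add_zero, zero_add]
  have hD : N.D = pb (Mm M u) (tb ((1 - tF none ^ 2 : JJ m k k0 d T → Fn (Rw m T)) θ)) := by
    change _ = pb (Mm M u) (1 - tb (tF none θ) ^ 2)
    rw [tb_tF tl]
    funext b s y
    simp only [Net.D, pb, th, Pi.sub_apply, Pi.pow_apply, Pi.one_apply,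
      row_ap (W := Mm M u) (r := none) rfl]
  refine ⟨N', o1, o2, fun l => (o3 _).2 rfl, fun x y => ?_, fun x y => ?_, fun i j => ?_⟩
  · rw [sel_mul (r1 x) (r1 y), ← gram_pb tl none ν hθ rfl ((ut_g d tl h x).uc tl)
      ((ut_g d tl h y).uc tl), ← g1, ← g1]
    exact congrFun (congrFun o4 (row x)) (row y)
  · rw [sel_mul (r1 x) (r1 y), o5, g1, g1, hD]
    simp_rw [g2]
    exact pair_pb tl none (cont_AA d) ν hθ rfl β
      (((ut_one tl).sub tl ((ut_tF tl none).pow tl 2)).uc tl)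
      (((ut_g d tl h x).gs tl).uc tl) (((ut_g d tl h y).gs tl).uc tl)
      (fun p => ((ut_g d tl h x).dx tl p).uc tl) (fun p => ((ut_g d tl h y).dx tl p).uc tl) _ _ _
  · rw [sel_mul (r2 i) (r2 j), o6, g3, g3, g4, g4]
    exact pair_pb tl none (cont_AA d) ν hθ rfl β ((ut_one tl).uc tl) ((ut_ha d tl h i).uc tl)
      ((ut_ha d tl h j).uc tl) (fun p => (ut_he d tl h i p).uc tl)
      (fun p => (ut_he d tl h j p).uc tl) _ _ _

end lvl

end Dat

/-! ### the limits -/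

section lim
open Tw.Cal52

lemma dx_rep {m : ℕ} {G : Fn (Fin m)} {F : SV m} {b : ℝ}
    (h : ∀ s x, G b s x = F.1 s (WithLp.toLp 2 x)) (i : Fin m) (s : Bool) (x : Fin m → ℝ) :
    dx i G b s x = (Tw.dd i F).1 s (WithLp.toLp 2 x) := by
  have e : G b s = F.1 s ∘ (PiLp.continuousLinearEquiv 2 ℝ fun _ : Fin m => ℝ).symm :=
    funext (h s)
  unfold dx
  rw [e, ContinuousLinearEquiv.comp_right_fderiv]
  rfl

lemma bil_int {m k : ℕ} {ν : Measure ℝ} {I : Type} (B : ℝ → SV m →ₗ[ℝ] SV m →ₗ[ℝ] ℝ)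
    (hs : ∀ b F G, B b F G = B b G F) (h0 : ∀ b r F, B b (algebraMap ℝ _ r) F = 0)
    {f : Fin k → ℝ → SV m} (hi : ∀ i j, Integrable (fun b => B b (f i b) (f j b)) ν)
    {F : I → ℝ → SV m} {V : Matrix I (Fin k) ℝ} {β : ℝ}
    (h : ∀ x, ∀ᵐ b ∂ν, ∃ r, β • F x b = ∑ i, V x i • f i b + algebraMap ℝ _ r) (x y : I) :
    β ^ 2 * ∫ b, B b (F x b) (F y b) ∂ν =
      (V * (of fun i j => ∫ b, B b (f i b) (f j b) ∂ν) * Vᵀ) x y := by
  have e : ∀ᵐ b ∂ν, β ^ 2 * B b (F x b) (F y b) =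
      ∑ j, ∑ i, V x i * V y j * B b (f i b) (f j b) := by
    filter_upwards [h x, h y] with b ⟨r, hr⟩ ⟨r', hr'⟩
    have : β ^ 2 * B b (F x b) (F y b) = B b (β • F x b) (β • F y b) := by
      simp only [map_smul, LinearMap.smul_apply, smul_eq_mul]; ring
    rw [this, hr, hr']
    simp only [map_add, LinearMap.add_apply, h0, hs b _ (algebraMap ℝ _ r'), add_zero, map_sum,
      map_smul, LinearMap.sum_apply, LinearMap.smul_apply, smul_eq_mul, Finset.mul_sum, mul_zero,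
      Finset.sum_const_zero]
    exact Finset.sum_congr rfl fun _ _ => Finset.sum_congr rfl fun _ _ => by ring
  rw [← integral_const_mul, integral_congr_ae e, integral_finsetSum _ fun j _ =>
    integrable_finsetSum _ fun i _ => (hi i j).const_mul _]
  simp only [Matrix.mul_apply, transpose_apply, of_apply, Finset.sum_mul]
  refine Finset.sum_congr rfl fun j _ => ?_
  rw [integral_finsetSum _ fun i _ => (hi i j).const_mul _]
  exact Finset.sum_congr rfl fun i _ => by rw [integral_const_mul]; ring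

variable {β : ℝ} {ν : Measure ℝ} [IsProbabilityMeasure ν] {D : ℕ} {e e' : Tw.Ext}
  {f0 : Fin e'.b.m → ℝ → SV e.b.m} {f : Fin e'.bt.m → ℝ → SV e.bt.m}

variable (e f0 f) in
def Fx : Rw e'.bt.m (Fin e'.b.m) → ℝ → SV e.bt.m
  | none => fun _ => sS _
  | some (.inl i) => f i
  | some (.inr l) => fun b => Tw.gen e.bt b (Tw.pull e.ι (f0 l b))

lemma Fx_ae (st : Step β ν D e e' f0 f) : ∀ x, ∀ᵐ b ∂ν, ∃ r,
    β • Fx e f0 f x b = ∑ i, Vm β e' id x i • f i b + algebraMap ℝ _ r := by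
  rintro (_ | i | l)
  · filter_upwards [st.st, ae_all_iff.2 st.inc] with b h1 h2
    refine ⟨β * tanh b, ?_⟩
    have h3 := congrArg (Tw.pull e.ι) h1
    simp only [Tw.stS, map_smul, map_sub, map_sum, h2, AlgHom.commutes, p_s, smul_sub,
      Finset.smul_sum, smul_smul] at h3
    rw [Finset.sum_comm] at h3
    simp only [Fx, Vm, e'.hg, mulVec, dotProduct, Finset.sum_smul, mul_comm (e'.ι _ _)]
    rw [← h3, map_mul, ← Algebra.smul_def]; abel
  · exact ae_of_all _ fun b => ⟨0, by simp [Fx, Vm, Pi.single_apply]⟩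
  · filter_upwards [st.cl l] with b h1
    exact ⟨0, by simp only [Fx, Vm, h1, Finset.smul_sum, smul_smul, map_zero, add_zero, id]⟩

lemma Nb_Fx (fa : Tw.FamApi) (st : Step β ν D e e' f0 f) (x y) :
    β ^ 2 * Tw.Nb ν e.bt (Fx e f0 f x) (Fx e f0 f y) = (Vm β e' id * (Vm β e' id)ᵀ) x y := by
  have := bil_int (fun b => (imS e.bt b).N) (fun b => (ok e.bt b).sN) (N_alg e.bt)
    (fun i j => (fa.N _ _ (st.c1 i).1 _ (st.c1 j).1).2.int ν) (Fx_ae st) x y
  rwa [show (of fun i j => ∫ b, (imS e.bt b).N (f i b) (f j b) ∂ν) = 1 from by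
    ext i j; exact (st.on i j).trans (one_apply).symm, Matrix.mul_one] at this

lemma Eb_Fx (fa : Tw.FamApi) (st : Step β ν D e e' f0 f) (x y) :
    β ^ 2 * Tw.Eb ν e.bt (Fx e f0 f x) (Fx e f0 f y) =
      (Vm β e' id * e'.bt.A * (Vm β e' id)ᵀ) x y := by
  have := bil_int (fun b => (imS e.bt b).En) (fun b => (ok e.bt b).sE) (En_alg e.bt)
    (fun i j => (fa.En _ _ (st.c1 i).1 _ (st.c1 j).1).2.int ν) (Fx_ae st) x y
  rwa [show (of fun i j => ∫ b, (imS e.bt b).En (f i b) (f j b) ∂ν) = e'.bt.A from by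
    ext i j; exact st.en i j] at this

variable {T : Type} [Fintype T] [DecidableEq T] {τ : T → Fin e.b.m}

lemma dd_pull (hτ : Function.Injective τ) {F : SV e.b.m} (hF : ∀ i, i ∉ range τ → Tw.dd i F = 0)
    (j : Fin e.bt.m) :
    Tw.dd j (Tw.pull e.ι F) = ∑ t, e.ι j (τ t) • Tw.pull e.ι (Tw.dd (τ t) F) := by
  rw [p_d]
  exact (Fintype.sum_of_injective τ hτ _ _ (fun i hi => by rw [hF i hi, map_zero, smul_zero])
    fun _ => rfl).symm

lemma gen_pull (hβ : β ≠ 0) (hτ : Function.Injective τ) {F : SV e.b.m}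
    (hF : ∀ i, i ∉ range τ → Tw.dd i F = 0) (b : ℝ) :
    (sS _ - tS e.bt b) * gS (Tw.pull e.ι F) + ∑ t, ∑ i, Vm β e τ (some (.inr t)) i •
      (zS e.bt i * β⁻¹ • Tw.pull e.ι (Tw.dd (τ t) F) - Tw.dd i (β⁻¹ • Tw.pull e.ι (Tw.dd (τ t) F))) =
    Tw.gen e.bt b (Tw.pull e.ι F) := by
  rw [gen_eq, rs_gS, ou_eq, Finset.sum_comm]
  congr 1
  refine Finset.sum_congr rfl fun i _ => ?_
  simp only [dd_pull hτ hF, Vm, Finset.mul_sum, map_sum, map_smul, mul_smul_comm, ← smul_sub,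
    ← Finset.sum_sub_distrib, Finset.smul_sum, smul_smul, Matrix.mul_apply, Finset.sum_mul,
    Finset.sum_smul]
  rw [Finset.sum_comm]
  refine Finset.sum_congr rfl fun j _ => Finset.sum_congr rfl fun t _ => ?_
  congr 1; field_simp

lemma PF_lin {J L κ I I' I2 : Type} [TopologicalSpace J] [FirstCountableTopology J] [Fintype L]
    [DecidableEq L] [Fintype κ] [Fintype I] [Fintype I'] [Fintype I2] (tl : Tl) (o : L)
    {A : J → Matrix L κ ℝ} (hA : Continuous A) {d al : J → Fn L} {a : I → J → Fn L}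
    {al' : I2 → J → Fn L} {a' : I2 → I' → J → Fn L} (hd : UC d) (hal : UC al) (ha : ∀ i, UC (a i))
    (hal' : ∀ j, UC (al' j)) (ha' : ∀ j i, UC (a' j i)) (P : Matrix I I' ℝ) (θ : J) (c : I2 → ℝ) :
    ∑ j, PF β ν A o d al a (al' j) (a' j) P θ * c j =
      PF β ν A o d al a (∑ j, c j • al' j) (fun q => ∑ j, c j • a' j q) P θ := by
  unfold PF
  simp only [Finset.mul_sum _ _ (al * d), Finset.mul_sum _ _ (a _), mul_smul_comm,
    II_lin tl o hA ν c fun j => (hal.mul tl hd).mul tl (hal' j),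
    fun p q => II_lin tl o hA ν c fun j => (ha p).mul tl (ha' j q), Finset.sum_mul]
  simp_rw [Finset.sum_comm (t := (Finset.univ : Finset I2))]
  rw [← Finset.sum_add_distrib, Finset.mul_sum]
  refine Finset.sum_congr rfl fun j _ => ?_
  simp only [mul_assoc (c j), ← Finset.mul_sum]; ring

variable {C : Fin e'.bt.m → ℝ → Fn (Fin e.bt.m)} {H : Fin e'.b.m → ℝ → Fn (Fin e.b.m)}
  (hβ : β ≠ 0) (d : ℕ) (A0 : Rw e.bt.m T → Rw e.bt.m T → ℝ)
  (hC : ∀ i b s x, C i 0 (tanh b) s x = (f i b).1 s (WithLp.toLp 2 x))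
  (hH : ∀ l b s x, H l 0 (tanh b) s x = (f0 l b).1 s (WithLp.toLp 2 x))

variable (β) (e) (τ C H) in
abbrev XX : Dat e.bt.m e.b.m e'.bt.m e'.b.m T := ⟨β, e.ι, τ, C, H⟩
variable (e') in
abbrev TT : JJ e.bt.m e'.bt.m e'.b.m d T := (0, 0, A0)

include hβ in
lemma Rm_V (x : Fin e.bt.m → ℝ) : Dat.Rm (XX β e τ C H) *ᵥ (Vm β e τ *ᵥ x) = x := by
  funext i
  change ∑ y, (if y = some (.inl i) then β⁻¹ else 0) * (Vm β e τ *ᵥ x) y = _
  simp only [ite_mul, zero_mul, Finset.sum_ite_eq', Finset.mem_univ, if_true]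
  change β⁻¹ * (Pi.single i β ⬝ᵥ x) = _
  rw [single_dotProduct, ← mul_assoc, inv_mul_cancel₀ hβ, one_mul]

lemma qq0 (x) : Dat.qq d x (TT e' d A0) = 0 := by funext b s y; simp [Dat.qq, Dat.cc, Finset.sum_apply]

include hβ hH

lemma rp_aL (l b) : Rp (Vm β e τ) (Dat.aL (XX β e τ C H) d l (TT e' d A0) (tanh b)) (gS (Tw.pull e.ι (f0 l b))) :=
  fun s x => by
    simp only [Dat.aL, Pi.add_apply, qq0, Pi.zero_apply, add_zero, pb, gs, ← mulVec_mulVec,
      Rm_V hβ, hH, gS_ap, pull_ap]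
    rfl

lemma rp_aM (l t b) : Rp (Vm β e τ) (Dat.aM (XX β e τ C H) d l t (TT e' d A0) (tanh b))
    (β⁻¹ • Tw.pull e.ι (Tw.dd (τ t) (f0 l b))) := fun s x => by
  simp only [Dat.aM, Pi.smul_apply, Pi.mul_apply, pb, ← mulVec_mulVec, Rm_V hβ, rr, smul_ap,
    pull_ap, dx_rep (hH l b), smul_eq_mul]
  simp only [ne_eq, OfNat.ofNat_ne_zero, not_false_eq_true, zero_pow, zero_mul, add_zero, div_one,
    mul_one]
  rfl

variable (tl : Tl) (hD : DictStmt) (hX : Dat.Ok (XX β e τ C H)) (hτ : Function.Injective τ)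
  (hd : ∀ i, i ∉ range τ → ∀ l ξ, Tw.dd i (f0 l ξ) = 0)
  (hA : Dat.AA d (TT e' d A0) * (Dat.AA d (TT e' d A0))ᵀ = Vm β e τ * (Vm β e τ)ᵀ)
include hC tl hD hX hτ hd hA

lemma rp_g : ∀ x b, Rp (Vm β e τ) (Dat.g (XX β e τ C H) d x (TT e' d A0) (tanh b)) (Fx e f0 f x b) := by
  rintro (_ | i | l) b
  · exact rp_sp
  · intro s x
    simp only [Dat.g, Pi.add_apply, Pi.mul_apply, qq0, Pi.zero_apply, mul_zero, add_zero, pb,
      Rm_V hβ, hC, Fx]
  · simp only [Fx, ← gen_pull hβ hτ (fun i hi => hd i hi l b) b, Dat.g, Pi.add_apply, Pi.mul_apply,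
      Finset.sum_apply, hA]
    refine rp_add (rp_mul (rp_sub rp_sp ((hD _ e.bt (Vm β e τ) none rfl).2.2 b))
      (rp_aL hβ d A0 hH l b)) (rp_sum _ fun t _ => ?_)
    rw [← dl_tb]
    exact rp_dl hD (c := e.bt) rfl ((Dat.ut_aM d tl hX l t).diff tl _) (rp_aM hβ d A0 hH l t b) _

lemma null (st : Step β ν D e e' f0 f) {P : Matrix (Rw e.bt.m T ⊕ T) (Rw e.bt.m T ⊕ T) ℝ}
    (hP : ∀ t, P *ᵥ nv e τ t = 0) (i) (l : Fin e'.b.m) :
    ∑ j, PF β ν (Dat.AA d) none 1 (Dat.ha (XX β e τ C H) d i) (Dat.he (XX β e τ C H) d i) (Dat.ha (XX β e τ C H) d j) (Dat.he (XX β e τ C H) d j) P (TT e' d A0) *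
      nv e' id l j = 0 := by
  have ua := fun j => (Dat.ut_ha d tl hX j).uc tl
  have ue := fun j p => (Dat.ut_he d tl hX j p).uc tl
  have uM := fun t => (Dat.ut_aM d tl hX l t).uc tl
  have cA := Dat.cont_AA (m := e.bt.m) (k := e'.bt.m) (k0 := e'.b.m) (T := T) d
  rw [PF_lin tl none cA ((ut_one tl).uc tl) (ua i) (ue i) ua ue]
  have e1 : II ν (Dat.AA d) none (Dat.ha (XX β e τ C H) d i * 1 * ∑ j, nv e' id l j • Dat.ha (XX β e τ C H) d j) (TT e' d A0) = 0 := by
    rw [II_congr hD (c := e.bt) rfl tl cA ν hA (G' := (0 : ℝ) • Dat.ha (XX β e τ C H) d i)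
      (((ua i).mul tl ((ut_one tl).uc tl)).mul tl (UC.sum tl _ fun j _ => (ua j).smul tl _))
      ((ua i).smul tl _), II_smul tl _ cA, zero_mul]
    filter_upwards [st.inc l] with b hb s x
    have h1 := fun k => rp_gs (rp_g hβ d A0 hC hH tl hD hX hτ hd hA (some (.inl k)) b) s x
    have h2 := rp_aL hβ d A0 hH l b (C := C) (τ := τ) s x
    rw [hb, gS_sum, sum_ap] at h2
    simp only [gS_smul, smul_ap, Fx] at h1 h2
    simp [Finset.sum_apply, Fintype.sum_sum_type, Fintype.sum_option, nv, Dat.ha, gs, h1, h2]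
  have e2 : ∀ p q, II ν (Dat.AA d) none (Dat.he (XX β e τ C H) d i p * ∑ j, nv e' id l j • Dat.he (XX β e τ C H) d j q) (TT e' d A0) =
      ∑ t, nv e τ t q * II ν (Dat.AA d) none (Dat.he (XX β e τ C H) d i p * Dat.aM (XX β e τ C H) d l t) (TT e' d A0) := fun p q => by
    rw [← II_lin tl _ cA ν _ fun t => (ue i p).mul tl (uM t)]
    refine II_congr hD (c := e.bt) rfl tl cA ν hA
      ((ue i p).mul tl (UC.sum tl _ fun j _ => (ue j q).smul tl _))
      (UC.sum tl _ fun t _ => ((ue i p).mul tl (uM t)).smul tl _) ?_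
    filter_upwards [st.inc l] with b hb s x
    simp only [← mul_smul_comm, ← Finset.mul_sum, Pi.mul_apply]
    congr 1
    rcases q with y | t
    · have h1 : ∀ k, dx y (Dat.g (XX β e τ C H) d (some (.inl k)) (TT e' d A0)) (tanh b) s (Vm β e τ *ᵥ x) =
          ∑ j, Dat.Rm (XX β e τ C H) j y * (Tw.dd j (f k b)).1 s (WithLp.toLp 2 x) := fun k => by
        have h3 : Dat.g (XX β e τ C H) d (some (.inl k)) (TT e' d A0) = pb (Dat.Rm (XX β e τ C H)) (C k 0) := by
          simp only [Dat.g, Pi.add_apply, Pi.mul_apply, qq0, mul_zero, add_zero]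
        have h4 := ((tl.dx ℝ _).pb (Dat.Rm (XX β e τ C H)) y (UT.diff tl (hX.C k).1.1 0)).2
        rw [h3]
        refine (congrFun (congrFun (congrFun h4 b) s) _).trans ?_
        simp only [Finset.sum_apply, Pi.smul_apply, pb, Rm_V hβ, smul_eq_mul,
          dx_rep (G := tb (C k 0)) (hC k b)]
      have h2 : ∀ j, ∑ k, e'.ι k l * (Tw.dd j (f k b)).1 s (WithLp.toLp 2 x) =
          ∑ t, e.ι j (τ t) * (Tw.pull e.ι (Tw.dd (τ t) (f0 l b))).1 s (WithLp.toLp 2 x) := fun j => by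
        have := dd_pull hτ (fun i hi => hd i hi l b) j
        rw [hb, map_sum] at this
        simpa only [sum_ap, map_smul, smul_ap] using
          congrArg (fun F : SV _ => F.1 s (WithLp.toLp 2 x)) this
      simp only [Finset.sum_apply, Fintype.sum_sum_type, Fintype.sum_option, nv, Dat.he, h1,
        Pi.smul_apply, smul_eq_mul, zero_mul, Pi.zero_apply, mul_zero, Finset.sum_const_zero,
        add_zero, zero_add, rp_aM hβ d A0 hH l _ b s x, smul_ap, id, Finset.mul_sum]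
      rw [Finset.sum_comm]
      simp only [mul_left_comm (e'.ι _ _), ← Finset.mul_sum, h2]
      rcases y with _ | j | t <;> simp [Dat.Rm, Finset.mul_sum, mul_left_comm]
    · simp [Finset.sum_apply, Fintype.sum_sum_type, nv, Dat.he, ite_apply]
  unfold PF
  simp only [e1, e2, Finset.sum_mul, zero_add]
  rw [Finset.sum_eq_zero fun p _ => ?_, mul_zero]
  rw [Finset.sum_comm]
  refine Finset.sum_eq_zero fun t _ => ?_
  have := congrFun (hP t) p
  simp only [mulVec, dotProduct, Pi.zero_apply] at this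
  simp only [mul_comm (nv e τ t _), mul_assoc, ← Finset.mul_sum, this, mul_zero]

end lim

end Fam

open Fam in
/-- **one level of an extended tower is simulated** -/
theorem stepGlue : StepGlue := by
  intro tl fa cut hD fc pe ap li β hβ ν _ n N D e e' f0 f T _ _ τ st hτ hd
    ⟨n', ι, M, u, P, Ns, h1, h2, h3, h4, h5⟩
  choose C c1 c2 c3 using fun i => cut e.bt (f i) (st.c1 i).1 (st.c1 i).2.1
  choose H k1 k2 k3 using fun l => cut e.b (f0 l) (fa.le _ (st.c0 l).1) (st.c0 l).2.1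
  let X : Dat e.bt.m e.b.m e'.bt.m e'.b.m T := ⟨β, e.ι, τ, C, H⟩
  have hX : X.Ok := ⟨fun i => ⟨c1 i, c2 i⟩, fun l => ⟨k1 l, k2 l⟩⟩
  let d := n' + 2 + Fintype.card (Fin e'.bt.m ⊕ Fin e'.b.m)
  obtain ⟨A, A0, a1, a2, a3⟩ := (tl.gc ℝ (Rw e.bt.m T) Unit none).2.2.2
    (fun j => Mm M u * (Ns j).S * (Mm M u)ᵀ) _
    (fun j => (h1 j).1.pd.posSemidef.mul_mul_conjTranspose_same (Mm M u)) h2
  obtain ⟨n'', E, hE⟩ := ap.1 n' (Fin e'.bt.m ⊕ Fin e'.b.m)
  have η0 : ∀ j : ℕ, (0 : ℝ) < 1 / (j + 1) := fun j => by positivity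
  choose c b1 b2 using fun j : ℕ => pe β ν n' (Ns j) _ (X.G d M u (1 / (j + 1), 0, A j)) (h1 j).1
    (fun x => (Dat.bsG d tl hX M u (θ := (1 / (j + 1), 0, A j)) (η0 j).ne' fc (h1 j).1 (h1 j).2.2 (a1 j) x).1) _ (η0 j)
  choose N' o1 o2 o3 o4 o5 o6 using fun j : ℕ => Dat.app d tl hX M u
    (θ := (1 / (j + 1), c j, A j)) (η0 j).ne' fc ap (h1 j).1 (h1 j).2.2 (a1 j) hE
    (by rw [Dat.pert d tl]; exact b2 j)
  have hθ : Tendsto (fun j : ℕ => ((1 / (j + 1), c j, A j) : JJ e.bt.m e'.bt.m e'.b.m d T)) atTop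
      (𝓝 (0, 0, A0)) := tendsto_one_div_add_atTop_nhds_zero_nat.prodMk_nhds
    ((squeeze_zero_norm b1 tendsto_one_div_add_atTop_nhds_zero_nat).prodMk_nhds a3)
  have cA := Dat.cont_AA (m := e.bt.m) (k := e'.bt.m) (k0 := e'.b.m) (T := T) d
  have ug := Dat.ut_g d tl hX
  have rg := rp_g hβ.ne' d A0 c3 k3 tl hD hX hτ hd a2
  refine ⟨n'', (fun v => E (.inl v)) ∘ ι, Dat.M' E, Dat.u' E, of fun i j =>
    PF β ν (Dat.AA d) none 1 (X.ha d i) (X.he d i) (X.ha d j) (X.he d j) P (0, 0, A0), N',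
    fun j => ⟨o1 j, (li β ν _ _ N (Ns j) ι (h1 j).2.1).2.2.2.2.2 _ _ _ (o2 j), o3 j⟩,
    tendsto_pi_nhds.2 fun x => tendsto_pi_nhds.2 fun y => ?_,
    tendsto_pi_nhds.2 fun x => tendsto_pi_nhds.2 fun y => ?_,
    tendsto_pi_nhds.2 fun x => tendsto_pi_nhds.2 fun y => ?_, fun l => funext fun i =>
      null hβ.ne' d A0 c3 k3 tl hD hX hτ hd a2 st h5 i l⟩
  · simp_rw [o4]
    rw [← Nb_Fx fa st, ← CI_rp hD (c := e.bt) (o := none) rfl tl ν (A := Dat.AA d) (θ := (0, 0, A0)) a2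
      ((ug x).uc tl) ((ug y).uc tl) (rg x) (rg y)]
    exact (((CI_cont tl none cA ν ((ug x).uc tl) ((ug y).uc tl)).tendsto _).comp hθ).const_mul _
  · simp_rw [o5]
    rw [← Eb_Fx fa st, ← PF_rp hD (c := e.bt) (o := none) rfl tl cA ν (θ := (0, 0, A0)) a2 β (ug x) (ug y)
      (rg x) (rg y)]
    exact PF_lim tl none cA ν β (((ut_one tl).sub tl ((ut_tF tl none).pow tl 2)).uc tl)
      (((ug x).gs tl).uc tl) (((ug y).gs tl).uc tl) (fun p => ((ug x).dx tl p).uc tl)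
      (fun p => ((ug y).dx tl p).uc tl) hθ h3
  · simp_rw [o6]
    exact PF_lim tl none cA ν β ((ut_one tl).uc tl) ((Dat.ut_ha d tl hX x).uc tl)
      ((Dat.ut_ha d tl hX y).uc tl) (fun p => (Dat.ut_he d tl hX x p).uc tl)
      (fun p => (Dat.ut_he d tl hX y p).uc tl) hθ h4

end Crest.Agent.T157.Nt

end
private theorem rz_f280829298 : type_of% @_root_.Crest.Agent.T157.Nt.Fam.Dat.g.eq_1 := @_root_.Crest.Agent.T157.Nt.Fam.Dat.g.eq_1 -- L104
private theorem rz_35410ef248 : type_of% @_root_.Crest.Agent.T157.Nt.Fam.Dat.ha.eq_1 := @_root_.Crest.Agent.T157.Nt.Fam.Dat.ha.eq_1 -- L109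
private theorem rz_51e3f125ba : type_of% @_root_.Crest.Agent.T157.Nt.Fam.Dat.he.eq_1 := @_root_.Crest.Agent.T157.Nt.Fam.Dat.he.eq_1 -- L112
private theorem rz_08196d5f6d : type_of% @_root_.Crest.Agent.T157.Nt.Fam.Dat.row.eq_1 := @_root_.Crest.Agent.T157.Nt.Fam.Dat.row.eq_1 -- L302
private theorem rz_0f8bd58eb2 : type_of% @_root_.Crest.Agent.T157.Nt.Fam.Dat.rowh.eq_1 := @_root_.Crest.Agent.T157.Nt.Fam.Dat.rowh.eq_1 -- L306
private theorem rz_eabf7935a6 : type_of% @_root_.Crest.Agent.T157.Nt.Fam.Fx.eq_1 := @_root_.Crest.Agent.T157.Nt.Fam.Fx.eq_1 -- L427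
end

-- ▼ part T157/NetTs_14
section

/-!
# Row 157, block B/S3, section 7: continuous families and the cut-off (helper14)
-/

set_option autoImplicit false
set_option linter.unusedSectionVars false

noncomputable section

namespace Crest.Agent.T157.Nt

open Matrix Real Set
open Crest.ProbabilityR.SpinGlassDynamics (spin)
open Crest.Agent.T157.Tw (sech2)

namespace Ts14

variable {J L : Type} [TopologicalSpace J] [Fintype L]

lemma c0_norm {F : Fj J L} (h : C0 F) : ∃ (k : ℝ) (C : J → ℝ), 0 ≤ k ∧ Continuous C ∧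
    (∀ θ, 0 ≤ C θ) ∧ ∀ θ s x, |F θ s x| ≤ C θ * exp (k * ‖x‖) := by
  obtain ⟨-, k, C, hC, hb⟩ := h
  have C0 : ∀ θ, 0 ≤ C θ := fun θ => by
    simpa using (abs_nonneg _).trans (hb θ true 0)
  refine ⟨max k 0, C, le_max_right _ _, hC, C0, fun θ s x => (hb θ s x).trans ?_⟩
  gcongr
  · exact C0 θ
  · exact le_max_left _ _

lemma c0_cb {c : J → ℝ} (hc : Continuous c) : C0 (cb c : Fj J L) :=
  ⟨fun _ => hc.comp continuous_fst, 0, fun θ => |c θ|, hc.abs, fun θ s x => by simp [cb]⟩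

lemma c0_add {F G : Fj J L} (hF : C0 F) (hG : C0 G) : C0 (F + G) := by
  obtain ⟨k, C, k0, hC, C0, hb⟩ := c0_norm hF
  obtain ⟨k', C', k0', hC', C0', hb'⟩ := c0_norm hG
  refine ⟨fun s => (hF.1 s).add (hG.1 s), k + k', fun θ => C θ + C' θ, hC.add hC',
    fun θ s x => (abs_add_le _ _).trans ?_⟩
  rw [add_mul]
  refine add_le_add ((hb θ s x).trans ?_) ((hb' θ s x).trans ?_)
  · gcongr
    · exact C0 θ
    · linarith
  · gcongr
    · exact C0' θ
    · linarith

lemma c0_mul {F G : Fj J L} (hF : C0 F) (hG : C0 G) : C0 (F * G) := by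
  obtain ⟨k, C, -, hC, C0, hb⟩ := c0_norm hF
  obtain ⟨k', C', -, hC', -, hb'⟩ := c0_norm hG
  refine ⟨fun s => (hF.1 s).mul (hG.1 s), k + k', fun θ => C θ * C' θ, hC.mul hC',
    fun θ s x => (abs_mul _ _).trans_le ?_⟩
  refine (mul_le_mul (hb θ s x) (hb' θ s x) (abs_nonneg _)
    (mul_nonneg (C0 θ) (exp_pos _).le)).trans_eq ?_
  rw [add_mul, exp_add]; ring

lemma c0_smul (c : ℝ) {F : Fj J L} (hF : C0 F) : C0 (c • F) :=
  c0_mul (c0_cb (continuous_const (y := c))) hF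

lemma c0_sub {F G : Fj J L} (hF : C0 F) (hG : C0 G) : C0 (F - G) := by
  have := c0_add hF (c0_smul (-1) hG)
  rwa [neg_one_smul, ← sub_eq_add_neg] at this

lemma c0_sum {I : Type} (T : Finset I) {F : I → Fj J L} (h : ∀ i ∈ T, C0 (F i)) :
    C0 (∑ i ∈ T, F i) :=
  Finset.sum_induction F C0 (fun _ _ => c0_add) (c0_cb (continuous_const (y := (0 : ℝ)))) h

lemma c0_re {J' : Type} [TopologicalSpace J'] {φ : J' → J} (ϖ : Bool → Bool) {F : Fj J L}
    (hφ : Continuous φ) (hF : C0 F) : C0 (fun θ s => F (φ θ) (ϖ s) : Fj J' L) := by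
  obtain ⟨h1, k, C, hC, hb⟩ := hF
  exact ⟨fun s => (h1 (ϖ s)).comp ((hφ.comp continuous_fst).prodMk continuous_snd), k,
    fun θ => C (φ θ), hC.comp hφ, fun θ s x => hb _ _ _⟩

lemma c0_bdd {F : Fj J L} (h : ∀ s, Continuous fun p : J × (L → ℝ) => F p.1 s p.2)
    (hb : ∀ θ s x, |F θ s x| ≤ 1) : C0 F :=
  ⟨h, 0, fun _ => 1, continuous_const, fun θ s x => by simpa using hb θ s x⟩

lemma c0_sp : C0 (sp : Fj J L) :=
  c0_bdd (fun _ => continuous_const) fun _ s _ => by cases s <;> simp [sp, spin]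

lemma c0_co (l : L) : C0 (co l : Fj J L) :=
  ⟨fun _ => (continuous_apply l).comp continuous_snd, 1, fun _ => 1, continuous_const,
    fun _ _ x => by
      rw [one_mul, one_mul]
      exact (norm_le_pi_norm x l).trans (by linarith [add_one_le_exp ‖x‖])⟩

lemma c0_pb {K : Type} [Fintype K] (M : Matrix K L ℝ) {F : Fj J K} (hF : C0 F) : C0 (pb M F) := by
  classical
  obtain ⟨k, C, k0, hC, C0, hb⟩ := c0_norm hF
  let A := LinearMap.toContinuousLinearMap M.mulVecLin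
  refine ⟨fun s => (hF.1 s).comp (continuous_fst.prodMk (A.continuous.comp continuous_snd)),
    k * ‖A‖, C, hC, fun θ s x => (hb θ s _).trans ?_⟩
  rw [mul_assoc]
  gcongr
  · exact C0 θ
  · exact A.le_opNorm x

variable [DecidableEq L]

omit [TopologicalSpace J] in
lemma dx_add (l : L) {F G : Fj J L} (hF : Df F) (hG : Df G) : dx l (F + G) = dx l F + dx l G := by
  funext θ s x
  have := ((hF θ s x).hasFDerivAt.add (hG θ s x).hasFDerivAt).fderiv
  change fderiv ℝ (F θ s + G θ s) x _ = _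
  rw [this]; rfl

omit [TopologicalSpace J] in
lemma dx_mul (l : L) {F G : Fj J L} (hF : Df F) (hG : Df G) :
    dx l (F * G) = dx l F * G + F * dx l G := by
  funext θ s x
  have := ((hF θ s x).hasFDerivAt.mul (hG θ s x).hasFDerivAt).fderiv
  change fderiv ℝ (F θ s * G θ s) x _ = _
  rw [this]
  simp [dx]; ring

omit [TopologicalSpace J] in
lemma dx_const (l : L) {F : Fj J L} (h : ∀ θ s, ∃ c, F θ s = fun _ => c) : dx l F = 0 := by
  funext θ s x
  obtain ⟨c, hc⟩ := h θ s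
  simp [dx, hc]

lemma ts_of {S : Set (Fj J L)} (hS : ∀ F ∈ S, C0 F ∧ Df F ∧ ∀ l, dx l F ∈ S) {F : Fj J L}
    (hF : F ∈ S) : TS F := fun w => by
  induction w generalizing F with
  | nil => exact ⟨(hS F hF).1, (hS F hF).2.1⟩
  | cons i w ih => exact ih ((hS F hF).2.2 i)

lemma ts_adjoin {T : Set (Fj J L)} (hT : ∀ F ∈ T, C0 F ∧ Df F ∧ ∀ l, dx l F ∈ Algebra.adjoin ℝ T)
    {F : Fj J L} (hF : F ∈ Algebra.adjoin ℝ T) : TS F := by
  refine ts_of (S := Algebra.adjoin ℝ T) (fun h hh => ?_) hF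
  induction hh using Algebra.adjoin_induction with
  | mem x hx => exact hT x hx
  | algebraMap r => exact ⟨c0_cb (continuous_const (y := r)), fun _ _ => differentiable_const r,
      fun l => by
        rw [dx_const l (F := algebraMap ℝ (Fj J L) r) fun _ _ => ⟨r, rfl⟩]; exact zero_mem _⟩
  | add x y _ _ hx hy => exact ⟨c0_add hx.1 hy.1, fun θ s => (hx.2.1 θ s).add (hy.2.1 θ s),
      fun l => by rw [dx_add l hx.2.1 hy.2.1]; exact add_mem (hx.2.2 l) (hy.2.2 l)⟩
  | mul x y mx my hx hy => exact ⟨c0_mul hx.1 hy.1, fun θ s => (hx.2.1 θ s).mul (hy.2.1 θ s),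
      fun l => by
        rw [dx_mul l hx.2.1 hy.2.1]
        exact add_mem (mul_mem (hx.2.2 l) my) (mul_mem mx (hy.2.2 l))⟩

lemma ts_dx (l : L) {F : Fj J L} (h : TS F) : TS (dx l F) := fun w => h (l :: w)

/-- a new atom -/
lemma ts_atom {A : Fj J L} (h0 : C0 A) (h1 : Df A)
    (h2 : ∀ l, dx l A ∈ Algebra.adjoin ℝ (insert A {G : Fj J L | TS G})) : TS A :=
  ts_adjoin (T := insert A {G | TS G}) (by
    rintro F (rfl | hF)
    · exact ⟨h0, h1, h2⟩
    · exact ⟨(hF []).1, (hF []).2, fun l => Algebra.subset_adjoin (Or.inr (ts_dx l hF))⟩)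
    (Algebra.subset_adjoin (Or.inl rfl))

lemma ts_alg {F : Fj J L} (hF : F ∈ Algebra.adjoin ℝ {G : Fj J L | TS G}) : TS F :=
  ts_adjoin (fun G (hG : TS G) => ⟨(hG []).1, (hG []).2, fun l =>
    Algebra.subset_adjoin (show TS (dx l G) from ts_dx l hG)⟩) hF

lemma mem_alg {F : Fj J L} (hF : TS F) : F ∈ Algebra.adjoin ℝ {G : Fj J L | TS G} :=
  Algebra.subset_adjoin hF

lemma ts_const {F : Fj J L} (h0 : C0 F) (h : ∀ θ s, ∃ c, F θ s = fun _ => c) : TS F :=
  ts_atom h0 (fun θ s => by obtain ⟨c, hc⟩ := h θ s; rw [hc]; exact differentiable_const c)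
    fun l => by rw [dx_const l h]; exact zero_mem _

lemma ts_cb {c : J → ℝ} (hc : Continuous c) : TS (cb c : Fj J L) :=
  ts_const (c0_cb hc) fun θ _ => ⟨c θ, rfl⟩

omit [TopologicalSpace J] in
lemma dx_comp {F : Fj J L} (v : L → ℝ) {g g' : J → ℝ → ℝ} (hF : ∀ θ s x, F θ s x = g θ (v ⬝ᵥ x))
    (hg : ∀ θ u, HasDerivAt (g θ) (g' θ u) u) :
    Df F ∧ ∀ l, dx l F = v l • (fun θ _ x => g' θ (v ⬝ᵥ x) : Fj J L) := by
  let A : (L → ℝ) →L[ℝ] ℝ := LinearMap.toContinuousLinearMap (dotProductBilin ℝ ℝ v)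
  have h : ∀ θ s x, HasFDerivAt (F θ s) (g' θ (v ⬝ᵥ x) • A) x := fun θ s x => by
    have e : F θ s = g θ ∘ A := funext fun x => hF θ s x
    rw [e]
    exact (hg θ (v ⬝ᵥ x)).comp_hasFDerivAt x A.hasFDerivAt
  refine ⟨fun θ s x => (h θ s x).differentiableAt, fun l => ?_⟩
  funext θ s x
  simp [dx, (h θ s x).fderiv, A, mul_comm]

lemma ts_co (l : L) : TS (co l : Fj J L) := by
  obtain ⟨h1, h2⟩ := dx_comp (F := (co l : Fj J L)) (Pi.single l 1) (g := fun _ u => u)
    (g' := fun _ _ => 1) (fun θ s x => by simp [co]) fun _ u => hasDerivAt_id u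
  exact ts_atom (c0_co l) h1 fun m => by
    rw [h2]; exact Subalgebra.smul_mem _ (one_mem _) _

lemma ts_re {J' : Type} [TopologicalSpace J'] {φ : J' → J} (ϖ : Bool → Bool) {F : Fj J L}
    (hφ : Continuous φ) (hF : TS F) : TS (fun θ s => F (φ θ) (ϖ s) : Fj J' L) :=
  ts_of (S := {G | ∃ F : Fj J L, TS F ∧ G = fun θ s => F (φ θ) (ϖ s)}) (by
    rintro _ ⟨F, hF, rfl⟩
    exact ⟨c0_re ϖ hφ (hF []).1, fun θ s => (hF []).2 _ _, fun l => ⟨dx l F, ts_dx l hF, rfl⟩⟩)
    ⟨F, hF, rfl⟩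

lemma ts_pb {K : Type} [Fintype K] [DecidableEq K] (M : Matrix K L ℝ) {F : Fj J K} (hF : TS F) :
    TS (pb M F) :=
  ts_adjoin (T := {G | ∃ F : Fj J K, TS F ∧ G = pb M F}) (by
    rintro _ ⟨F, hF, rfl⟩
    let A := LinearMap.toContinuousLinearMap M.mulVecLin
    have h : ∀ θ s x, HasFDerivAt (pb M F θ s) ((fderiv ℝ (F θ s) (M *ᵥ x)).comp A) x :=
      fun θ s x => ((hF []).2 θ s (M *ᵥ x)).hasFDerivAt.comp x A.hasFDerivAt
    refine ⟨c0_pb M (hF []).1, fun θ s x => (h θ s x).differentiableAt, fun l => ?_⟩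
    have e : dx l (pb M F) = ∑ k, M k l • pb M (dx k F) := by
      funext θ s x
      have : M *ᵥ Pi.single l 1 = ∑ k, M k l • (Pi.single k 1 : K → ℝ) := by
        funext k; simp [Finset.sum_apply, Pi.single_apply]
      simp only [dx, (h θ s x).fderiv, ContinuousLinearMap.comp_apply, Finset.sum_apply,
        Pi.smul_apply, pb]
      change fderiv ℝ (F θ s) (M *ᵥ x) (M *ᵥ Pi.single l 1) = _
      rw [this, map_sum]
      simp only [map_smul]
    rw [e]
    exact sum_mem fun k _ => Subalgebra.smul_mem _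
      (Algebra.subset_adjoin (by exact ⟨_, ts_dx k hF, rfl⟩)) _)
    (Algebra.subset_adjoin ⟨F, hF, rfl⟩)

lemma den_pos {m : ℝ} (hm : |m| ≤ 1) (x : ℝ) : 0 < 1 + m * tanh x := by
  have h1 : |m * tanh x| < 1 := by
    rw [abs_mul]
    exact (mul_le_of_le_one_left (abs_nonneg _) hm).trans_lt (abs_tanh_lt_one x)
  linarith [(abs_lt.1 h1).1]

lemma one_sub_tm {m : ℝ} (hm : |m| ≤ 1) (x : ℝ) :
    1 - tm m x ^ 2 = (1 - m ^ 2) * (1 - tanh x ^ 2) / (1 + m * tanh x) ^ 2 := by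
  have := (den_pos hm x).ne'
  rw [tm]; field_simp; ring

lemma abs_tm {m : ℝ} (hm : |m| ≤ 1) (x : ℝ) : |tm m x| ≤ 1 := by
  rw [← sq_le_one_iff_abs_le_one] at hm ⊢
  have h1 : tanh x ^ 2 ≤ 1 := (sq_le_one_iff_abs_le_one _).2 (abs_tanh_lt_one x).le
  have h := one_sub_tm ((sq_le_one_iff_abs_le_one _).1 hm) x
  have : 0 ≤ (1 - m ^ 2) * (1 - tanh x ^ 2) / (1 + m * tanh x) ^ 2 :=
    div_nonneg (mul_nonneg (by linarith) (by linarith)) (sq_nonneg _)
  linarith

lemma tm_deriv {m : ℝ} (hm : |m| ≤ 1) (x : ℝ) : HasDerivAt (tm m) (1 - tm m x ^ 2) x := by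
  have h := Tw.hasDerivAt_tanh' x
  have h0 := (den_pos hm x).ne'
  have := (h.const_add m).div ((h.const_mul m).const_add 1) h0
  rw [one_sub_tm hm]
  exact this.congr_deriv (by ring)

lemma cont_tanh : Continuous tanh := Tw.contDiff_tanh'.continuous

lemma ts_tm {m : J → ℝ} (hm : Continuous m) (h1 : ∀ θ, |m θ| ≤ 1) (v : L → ℝ) :
    TS (fun θ _ x => tm (m θ) (v ⬝ᵥ x) : Fj J L) := by
  obtain ⟨d1, d2⟩ := dx_comp (F := (fun θ _ x => tm (m θ) (v ⬝ᵥ x) : Fj J L)) v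
    (g := fun θ => tm (m θ)) (fun _ _ _ => rfl) fun θ u => tm_deriv (h1 θ) u
  have ct := cont_tanh
  refine ts_atom (c0_bdd (fun _ => ?_) fun θ _ _ => abs_tm (h1 θ) _) d1 fun l => ?_
  · exact Continuous.div (by fun_prop) (by fun_prop) fun p => (den_pos (h1 p.1) _).ne'
  · rw [d2]
    exact Subalgebra.smul_mem _ (sub_mem (one_mem _)
      (pow_mem (Algebra.subset_adjoin (mem_insert _ _)) 2)) _

lemma wm_eq' (m x : ℝ) : wm m x = 1 / (cosh x + m * sinh x) ^ 2 := by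
  have hc := (cosh_pos x).ne'
  have e : 1 + m * tanh x = (cosh x + m * sinh x) / cosh x := by
    rw [tanh_eq_sinh_div_cosh]; field_simp
  have e2 : 1 - tanh x ^ 2 = 1 / cosh x ^ 2 := by
    rw [tanh_eq_sinh_div_cosh]; field_simp; linarith [cosh_sq_sub_sinh_sq x]
  rw [wm, e, e2, div_pow, div_div_div_eq, mul_comm (cosh x ^ 2),
    mul_div_mul_right _ _ (pow_ne_zero 2 hc)]

omit [DecidableEq L] in
lemma c0_wm {m : J → ℝ} (hm : Continuous m) (h1 : ∀ θ, |m θ| ≤ 1) (l : L) :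
    C0 (fun θ _ x => wm (m θ) (x l) : Fj J L) := by
  have ct := cont_tanh
  refine ⟨fun _ => Continuous.div (by fun_prop) (by fun_prop)
    fun p => pow_ne_zero 2 (den_pos (h1 p.1) _).ne', 2, fun _ => 1, continuous_const,
    fun θ _ x => ?_⟩
  obtain ⟨m1, m2⟩ := abs_le.1 (h1 θ)
  obtain ⟨x1, x2⟩ := abs_le.1 (norm_le_pi_norm x l)
  have a1 : exp (-‖x‖) ≤ exp (x l) := exp_le_exp.2 x1
  have a2 : exp (-‖x‖) ≤ exp (-x l) := exp_le_exp.2 (by linarith)
  have h : exp (-‖x‖) ≤ cosh (x l) + m θ * sinh (x l) := by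
    rw [cosh_eq, sinh_eq]
    nlinarith [mul_le_mul_of_nonneg_left a1 (show 0 ≤ 1 + m θ by linarith),
      mul_le_mul_of_nonneg_left a2 (show 0 ≤ 1 - m θ by linarith)]
  beta_reduce
  rw [wm_eq', abs_of_nonneg (by positivity), one_mul]
  calc _ ≤ 1 / exp (-‖x‖) ^ 2 := by gcongr
    _ = _ := by rw [← exp_nat_mul, one_div, ← exp_neg]; congr 1; push_cast; ring

lemma rr_deriv (η x : ℝ) : HasDerivAt (rr η) (-2 * (η ^ 2 * x * rr η x ^ 2)) x := by
  have h0 : 1 + η ^ 2 * x ^ 2 ≠ 0 := by positivity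
  have := (hasDerivAt_const x (1 : ℝ)).div
    ((((hasDerivAt_id x).pow 2).const_mul (η ^ 2)).const_add 1) h0
  refine this.congr_deriv ?_
  simp only [rr, id, Pi.pow_apply]
  field_simp
  ring

lemma ts_rr {η : J → ℝ} (hη : Continuous η) (l : L) :
    TS (fun θ _ x => rr (η θ) (x l) : Fj J L) := by
  obtain ⟨d1, d2⟩ := dx_comp (F := (fun θ _ x => rr (η θ) (x l) : Fj J L)) (Pi.single l 1)
    (g := fun θ => rr (η θ)) (fun _ _ _ => by simp) fun θ u => rr_deriv (η θ) u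
  refine ts_atom (c0_bdd (fun _ => ?_) fun θ _ x => ?_) d1 fun k => ?_
  · exact Continuous.div (by fun_prop) (by fun_prop) fun p => by positivity
  · rw [rr, abs_of_nonneg (by positivity), div_le_one (by positivity)]
    exact le_add_of_nonneg_right (by positivity)
  · rw [d2]
    refine Subalgebra.smul_mem _ ?_ _
    have e : (fun θ _ x => -2 * (η θ ^ 2 * (Pi.single l 1 ⬝ᵥ x) *
        rr (η θ) (Pi.single l 1 ⬝ᵥ x) ^ 2) : Fj J L) = (-2 : ℝ) • (cb (fun θ => η θ ^ 2) * co l *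
          (fun θ _ x => rr (η θ) (x l)) ^ 2) := by
      funext θ s x; simp [cb, co]
    rw [e]
    refine Subalgebra.smul_mem _ (mul_mem (mul_mem (Algebra.subset_adjoin ?_)
      (Algebra.subset_adjoin ?_)) (pow_mem (Algebra.subset_adjoin ?_) 2)) _
    · exact mem_insert_of_mem _ (ts_cb (hη.pow 2))
    · exact mem_insert_of_mem _ (ts_co l)
    · exact mem_insert _ _

lemma tm_eq (b x : ℝ) : tm (tanh b) x = tanh (b + x) := by
  have h1 := (cosh_pos b).ne'
  have h2 := (cosh_pos x).ne'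
  have h3 := (cosh_pos (b + x)).ne'
  rw [cosh_add] at h3
  have h4 := (den_pos (abs_tanh_lt_one b).le x).ne'
  rw [tm, div_eq_iff h4]
  simp only [tanh_eq_sinh_div_cosh, sinh_add, cosh_add]
  field_simp

lemma wm_eq (b x : ℝ) : sech2 b * wm (tanh b) x = 1 - tanh (b + x) ^ 2 := by
  have h1 := (cosh_pos b).ne'
  have e : 1 - tanh b ^ 2 = sech2 b := by
    rw [tanh_eq_sinh_div_cosh, sech2]; field_simp; linarith [cosh_sq_sub_sinh_sq b]
  rw [← tm_eq, one_sub_tm (abs_tanh_lt_one b).le, e, wm, mul_div_assoc]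

end Ts14

open Ts14

theorem tsStmt : TsStmt := fun J L _ _ _ =>
  { c0 := fun h => (h []).1
    df := fun h => (h []).2
    c0add := c0_add
    c0sub := c0_sub
    c0mul := c0_mul
    c0sum := c0_sum
    c0re := fun hφ h => c0_re id hφ h
    add := fun hF hG => ts_alg (add_mem (mem_alg hF) (mem_alg hG))
    sub := fun hF hG => ts_alg (sub_mem (mem_alg hF) (mem_alg hG))
    mul := fun hF hG => ts_alg (mul_mem (mem_alg hF) (mem_alg hG))
    smul := fun c _ hF => ts_alg (Subalgebra.smul_mem _ (mem_alg hF) c)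
    pow := fun k _ hF => ts_alg (pow_mem (mem_alg hF) k)
    sum := fun _ _ h => ts_alg (sum_mem fun i hi => mem_alg (h i hi))
    cb := ts_cb
    sp := ts_const c0_sp fun _ s => ⟨spin s, rfl⟩
    co := ts_co
    dx := ts_dx
    gs := fun {F} hF => by
      have e : gs F = (1 / 2 : ℝ) • ((fun θ _ => F θ true : Fj J L) - fun θ _ => F θ false) := by
        funext θ s x; simp [gs]; ring
      rw [e]
      exact ts_alg (Subalgebra.smul_mem _ (sub_mem
        (mem_alg (ts_re (fun _ => true) continuous_id hF))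
        (mem_alg (ts_re (fun _ => false) continuous_id hF))) _)
    pb := ts_pb
    re := fun hφ h => ts_re id hφ h
    neg := fun {F} hF => by
      have := ts_pb (-1 : Matrix L L ℝ) (ts_re (fun s => !s) continuous_id hF)
      convert this using 4
      simp only [pb, neg_mulVec, one_mulVec, id]
    tm := ts_tm
    wm := c0_wm
    rr := ts_rr
    tm_eq := tm_eq
    wm_eq := wm_eq }

/-! ### the algebra of families -/

namespace GS
variable {J L : Type} [TopologicalSpace J] [Fintype L] [DecidableEq L] {η : J → ℝ} {G H : J → Fn L}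

lemma add (b : BsStmt) (hG : GS η G) (hH : GS η H) : GS η (G + H) :=
  ⟨(tsStmt _ L).add hG.1 hH.1, fun θ h => (b L).add (hG.2 θ h) (hH.2 θ h)⟩
lemma sub (b : BsStmt) (hG : GS η G) (hH : GS η H) : GS η (G - H) :=
  ⟨(tsStmt _ L).sub hG.1 hH.1, fun θ h => (b L).sub (hG.2 θ h) (hH.2 θ h)⟩
lemma mul (b : BsStmt) (hG : GS η G) (hH : GS η H) : GS η (G * H) :=
  ⟨(tsStmt _ L).mul hG.1 hH.1, fun θ h => (b L).mul (hG.2 θ h) (hH.2 θ h)⟩
lemma smul (b : BsStmt) (c : ℝ) (hG : GS η G) : GS η (c • G) :=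
  ⟨(tsStmt _ L).smul c hG.1, fun θ h => (b L).smul c (hG.2 θ h)⟩
lemma pow (b : BsStmt) (k : ℕ) (hG : GS η G) : GS η (G ^ k) :=
  ⟨(tsStmt _ L).pow k hG.1, fun θ h => (b L).pow k (hG.2 θ h)⟩
lemma const (b : BsStmt) (c : ℝ) : GS η (fun _ _ _ _ => c : J → Fn L) :=
  ⟨(tsStmt _ L).cb (continuous_const (y := c)), fun _ _ => (b L).const c⟩
lemma sum (b : BsStmt) {I : Type} (T : Finset I) {G : I → J → Fn L} (h : ∀ i ∈ T, GS η (G i)) :
    GS η (∑ i ∈ T, G i) :=
  Finset.sum_induction G (GS η) (fun _ _ => add b) (const b 0) h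
lemma dx (b : BsStmt) (l : L) (hG : GS η G) : GS η fun θ => Nt.dx l (G θ) :=
  ⟨(tsStmt _ L).dx l hG.1, fun θ h => (b L).dx l (hG.2 θ h)⟩
lemma gs (b : BsStmt) (hG : GS η G) : GS η fun θ => Nt.gs (G θ) :=
  ⟨(tsStmt _ L).gs hG.1, fun θ h => (b L).gs (hG.2 θ h)⟩
lemma re {J' : Type} [TopologicalSpace J'] {φ : J' → J} {η' : J' → ℝ} (hφ : Continuous φ)
    (hη : ∀ θ, η' θ ≠ 0 → η (φ θ) ≠ 0) (hG : GS η G) : GS η' fun θ => G (φ θ) :=
  ⟨(tsStmt _ L).re (φ := fun p : J' × Im => (φ p.1, p.2)) (by fun_prop) hG.1,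
    fun θ h => hG.2 _ (hη θ h)⟩
lemma cb {c : J → ℝ → ℝ} (hc : Continuous fun p : J × Im => c p.1 p.2)
    (hb : ∀ θ, η θ ≠ 0 → BS (Nt.cb fun b => c θ (tanh b) : Fn L)) :
    GS η (fun θ => Nt.cb (c θ) : J → Fn L) := ⟨(tsStmt _ L).cb hc, hb⟩
/-- a continuous scalar factor -/
lemma cj (b : BsStmt) {c : J → ℝ} (hc : Continuous c) : GS η (fun θ _ _ _ => c θ : J → Fn L) :=
  ⟨(tsStmt _ L).cb (hc.comp continuous_fst), fun θ _ => (b L).const (c θ)⟩
lemma tb_rf (F : Fn L) : tb (Nt.rf F) = Nt.rf (tb F) := by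
  funext b s x; simp only [tb, Nt.rf, tanh_neg]
lemma rf (b : BsStmt) (hG : GS η G) : GS η fun θ => Nt.rf (G θ) := by
  refine ⟨?_, fun θ h => by rw [tb_rf]; exact (b L).rf (hG.2 θ h)⟩
  have hφ : Continuous fun p : J × Im => (p.1, (⟨-p.2.1, by
      constructor <;> linarith [p.2.2.1, p.2.2.2]⟩ : Im)) := by fun_prop
  exact (tsStmt _ L).neg ((tsStmt _ L).re hφ hG.1)
lemma mag (b : BsStmt) : GS η (fun _ m _ _ => m : J → Fn L) :=
  cb (c := fun _ m => m) (by fun_prop) fun _ _ => by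
    have := (b L).th 0
    simp only [zero_dotProduct, add_zero] at this
    exact this
lemma sp (b : BsStmt) : GS η (fun _ => Nt.sp : J → Fn L) := ⟨(tsStmt _ L).sp, fun _ _ => (b L).sp⟩
lemma rr (b : BsStmt) {ζ : J → ℝ} (hζ : Continuous ζ) (l : L) :
    GS η (fun θ _ _ x => Nt.rr (ζ θ) (x l) : J → Fn L) :=
  ⟨(tsStmt _ L).rr (hζ.comp continuous_fst) l, fun θ _ => (b L).rr (ζ θ) l⟩
lemma yy (b : BsStmt) (hη : Continuous η) (l : L) :
    GS η (fun θ _ _ x => Nt.rr (η θ) (x l) * x l : J → Fn L) :=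
  ⟨(tsStmt _ L).mul ((tsStmt _ L).rr (hη.comp continuous_fst) l) ((tsStmt _ L).co l),
    fun θ h => (b L).yy (η θ) h l⟩
lemma tm (b : BsStmt) (v : L → ℝ) : GS η (fun _ m _ x => Nt.tm m (v ⬝ᵥ x) : J → Fn L) :=
  ⟨(tsStmt _ L).tm (m := fun p : J × Im => p.2) (by fun_prop) (fun p => abs_le.2 p.2.2) v,
    fun _ _ => by
      have := (b L).th v
      simp only [← Ts14.tm_eq] at this
      exact this⟩

end GS

theorem cutGlue : CutGlue := by
  intro T c F hF ho
  have b := T.bs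
  have key : ∃ G : ℝ → Fn (Fin c.m), GS id G ∧
      ∀ b s x, G 0 (tanh b) s x = (F b).1 s (WithLp.toLp 2 x) := by
    clear ho
    induction hF using Algebra.adjoin_induction with
    | mem F hF =>
      rcases hF with rfl | (rfl | rfl) | ⟨j, rfl⟩
      · refine ⟨_, GS.tm b c.g, fun b s x => ?_⟩
        simp only [Ts14.tm_eq, Tw.tS, Tw.fld, Tw.Bath.v, EuclideanSpace.inner_toLp_toLp,
          star_trivial, dotProduct_comm x]
      · exact ⟨_, GS.mag b, fun _ _ _ => rfl⟩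
      · exact ⟨_, GS.sp b, fun _ s _ => by cases s <;> rfl⟩
      · exact ⟨_, GS.yy b continuous_id j, fun _ _ x => by simp [rr, Tw.xS]⟩
    | algebraMap r => exact ⟨_, GS.const b r, fun _ _ _ => rfl⟩
    | add x y _ _ hx hy =>
      obtain ⟨G, h1, h2⟩ := hx
      obtain ⟨H, h3, h4⟩ := hy
      exact ⟨G + H, h1.add b h3, fun b s x => by simp [h2, h4]⟩
    | mul x y _ _ hx hy =>
      obtain ⟨G, h1, h2⟩ := hx
      obtain ⟨H, h3, h4⟩ := hy
      exact ⟨G * H, h1.mul b h3, fun b s x => by simp [h2, h4]⟩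
  obtain ⟨G, h1, h2⟩ := key
  refine ⟨(1 / 2 : ℝ) • (G - fun η => rf (G η)), (h1.sub b (h1.rf b)).smul b _, fun η => ?_,
    fun b s x => ?_⟩
  · funext b s x
    simp [rf]; ring
  · have := ho b s (WithLp.toLp 2 x)
    simp only [Pi.smul_apply, Pi.sub_apply, rf, ← tanh_neg, h2, WithLp.toLp_neg, this, smul_eq_mul]
    ring

end Crest.Agent.T157.Nt

end
end

-- ▼ part T157/NetEx_13

/-!
# Row 157, block B/S3, networks: the leaves `ExStmt` and `GcStmt` (helper13)
-/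

set_option autoImplicit false
set_option linter.unusedSectionVars false

noncomputable section

namespace Crest.Agent.T157.Nt

open MeasureTheory ProbabilityTheory Matrix Real Set Filter Topology
open Crest.ProbabilityR.SpinGlassDynamics (spin)
open Crest.Agent.T157.E (gv)
open Crest.Agent.T157.S3L (gm mdl)
open Crest.Agent.T157.S3L.Clt58 (int_exp_abs int_congr hb_eq cont_mv)

namespace Ex13

variable {J L κ : Type} [Fintype L] [Fintype κ]

lemma int_exp_norm (t : ℝ) : Integrable (fun z : κ → ℝ => exp (t * ‖z‖)) (gv κ) := by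
  classical
  have i1 : Integrable (fun z : κ → ℝ => 1 + ∑ i, exp (|t| * |(Pi.single i 1 : κ → ℝ) ⬝ᵥ z|))
      (gv κ) := (integrable_const _).add (integrable_finsetSum _ fun i _ => int_exp_abs _ _)
  refine i1.mono' (by fun_prop) (.of_forall fun z => ?_)
  rw [Real.norm_eq_abs, abs_of_pos (exp_pos _)]
  simp only [single_dotProduct, one_mul]
  have s0 : 0 ≤ ∑ i, exp (|t| * |z i|) := Finset.sum_nonneg fun _ _ => (exp_pos _).le
  rcases isEmpty_or_nonempty κ with h | h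
  · rw [Subsingleton.elim z 0, norm_zero, mul_zero, exp_zero]
    simp
  · obtain ⟨i, hi⟩ := Finite.exists_max fun i => |z i|
    have h1 : ‖z‖ ≤ |z i| := (pi_norm_le_iff_of_nonneg (abs_nonneg _)).2 hi
    have h2 : exp (t * ‖z‖) ≤ exp (|t| * |z i|) :=
      exp_le_exp.2 (mul_le_mul (le_abs_self t) h1 (norm_nonneg _) (abs_nonneg _))
    have h3 := Finset.single_le_sum (f := fun i => exp (|t| * |z i|))
      (fun _ _ => (exp_pos _).le) (Finset.mem_univ i)
    linarith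

/-- entrywise `ℓ¹` norm -/
def l1 (A : Matrix L κ ℝ) : ℝ := ∑ l, ∑ k, |A l k|

lemma l1_nonneg (A : Matrix L κ ℝ) : 0 ≤ l1 A :=
  Finset.sum_nonneg fun _ _ => Finset.sum_nonneg fun _ _ => abs_nonneg _

lemma mv_le (A : Matrix L κ ℝ) (z : κ → ℝ) : ‖A *ᵥ z‖ ≤ l1 A * ‖z‖ := by
  refine (pi_norm_le_iff_of_nonneg (mul_nonneg (l1_nonneg A) (norm_nonneg _))).2 fun l => ?_
  refine le_trans ?_ (mul_le_mul_of_nonneg_right (Finset.single_le_sum
    (f := fun l => ∑ k, |A l k|) (fun _ _ => Finset.sum_nonneg fun _ _ => abs_nonneg _)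
    (Finset.mem_univ l)) (norm_nonneg z))
  rw [Finset.sum_mul]
  refine (Finset.abs_sum_le_sum_abs _ _).trans (Finset.sum_le_sum fun k _ => ?_)
  rw [abs_mul]
  exact mul_le_mul_of_nonneg_left (norm_le_pi_norm z k) (abs_nonneg _)

lemma bd {φ : (L → ℝ) → ℝ} {C k : ℝ} (h : ∀ x, |φ x| ≤ C * exp (k * ‖x‖)) (c : L → ℝ)
    (A : Matrix L κ ℝ) (z : κ → ℝ) :
    |φ (c + A *ᵥ z)| ≤ |C| * exp (|k| * ‖c‖) * exp (|k| * l1 A * ‖z‖) := by
  refine (h _).trans ?_
  rw [mul_assoc, ← exp_add]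
  refine mul_le_mul (le_abs_self C) (exp_le_exp.2 ?_) (exp_pos _).le (abs_nonneg _)
  rw [mul_assoc, ← mul_add]
  exact mul_le_mul (le_abs_self k) ((norm_add_le _ _).trans (add_le_add le_rfl (mv_le A z)))
    (norm_nonneg _) (abs_nonneg _)

lemma int_of {φ : (L → ℝ) → ℝ} (hc : Continuous φ) {C k : ℝ}
    (h : ∀ x, |φ x| ≤ C * exp (k * ‖x‖)) (c : L → ℝ) (A : Matrix L κ ℝ) :
    Integrable (fun z => φ (c + A *ᵥ z)) (gv κ) :=
  ((int_exp_norm (|k| * l1 A)).const_mul _).mono'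
    (hc.comp (continuous_const.add (cont_mv A))).aestronglyMeasurable (.of_forall (bd h c A))

lemma int_C0 [TopologicalSpace J] {F : Fj J L} (hF : C0 F) (θ : J) (s : Bool) (c : L → ℝ)
    (A : Matrix L κ ℝ) : Integrable (fun z => F θ s (c + A *ᵥ z)) (gv κ) := by
  obtain ⟨h1, k, C, -, h2⟩ := hF
  exact int_of ((h1 s).comp (Continuous.prodMk_right θ)) (h2 θ s) c A

lemma w_nonneg {m : ℝ} (hm : |m| ≤ 1) (σ : Bool) : 0 ≤ (1 + spin σ * m) / 2 := by
  have := abs_le.1 hm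
  cases σ <;> simp [spin] <;> linarith [this.1, this.2]

lemma gm_neg (A : Matrix L κ ℝ) (φ : (L → ℝ) → ℝ) : gm A (fun x => φ (-x)) = gm A φ := by
  unfold gm
  have h : (gv κ).IsNegInvariant := by
    have : (gaussianReal 0 1).IsNegInvariant :=
      ⟨by simpa [Measure.neg] using gaussianReal_map_neg (μ := 0) (v := 1)⟩
    infer_instance
  rw [← integral_neg_eq_self (fun z => φ (A *ᵥ z)) (gv κ)]
  simp only [mulVec_neg]

lemma int_dot_sq (a : κ → ℝ) : ∫ z, (a ⬝ᵥ z) ^ 2 ∂gv κ = a ⬝ᵥ a := by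
  have a0 : 0 ≤ a ⬝ᵥ a := S3L.Clt58.dnn a
  have h := int_congr (A := (of fun (_ : Unit) k => a k : Matrix Unit κ ℝ))
    (B := (of fun _ _ => √(a ⬝ᵥ a) : Matrix Unit Unit ℝ)) (F := fun x => x () ^ 2) (by
      ext i j
      simp only [mul_apply, of_apply, transpose_apply, Finset.univ_unique, Finset.sum_singleton,
        mul_self_sqrt a0]
      rfl) (by fun_prop)
  refine Eq.trans h ?_
  have e : ∀ z : Unit → ℝ, ((of fun _ _ => √(a ⬝ᵥ a) : Matrix Unit Unit ℝ) *ᵥ z) () ^ 2 =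
      a ⬝ᵥ a * z () ^ 2 := fun z => by
    simp [mulVec, dotProduct, mul_pow, sq_sqrt (show 0 ≤ ∑ i, a i * a i from a0)]
  simp only [e, integral_const_mul]
  have mp := measurePreserving_eval (fun _ : Unit => gaussianReal 0 1) ()
  have h2 := Conc.sq_entry false
  change ∫ x, x ^ 2 ∂gaussianReal 0 1 = 1 at h2
  rw [← mp.map_eq, integral_map mp.measurable.aemeasurable (by fun_prop)] at h2
  rw [show ∫ z : Unit → ℝ, z () ^ 2 ∂gv Unit = 1 from h2, mul_one]

lemma mE_eq (A : Matrix L κ ℝ) (o : L) (b : ℝ) (ψ : Bool → (L → ℝ) → ℝ) :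
    mdl A o b ψ = mE A o (tanh b) ψ := by
  simp only [mdl, mE, hb_eq]

lemma cont_mE [TopologicalSpace J] [FirstCountableTopology J] (o : L) {A : J → Matrix L κ ℝ}
    {m : J → ℝ} {F : Fj J L} (hA : Continuous A) (hm : Continuous m) (hF : C0 F) :
    Continuous fun θ => mE (A θ) o (m θ) (F θ) := by
  refine continuous_finsetSum _ fun σ _ => Continuous.mul (by fun_prop) ?_
  obtain ⟨h1, k, C, hC, h2⟩ := hF
  have cu : Continuous fun θ => spin σ • fun l => (A θ * (A θ)ᵀ) l o :=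
    continuous_pi fun l => continuous_const.mul
      ((hA.matrix_mul hA.matrix_transpose).matrix_elem l o)
  have c1 : Continuous fun θ => |C θ| * exp (|k| * ‖spin σ • fun l => (A θ * (A θ)ᵀ) l o‖) :=
    hC.abs.mul (continuous_exp.comp (continuous_const.mul cu.norm))
  have c2 : Continuous fun θ => |k| * l1 (A θ) :=
    continuous_const.mul (continuous_finsetSum _ fun l _ => continuous_finsetSum _ fun j _ =>
      (hA.matrix_elem l j).abs)
  refine continuous_iff_continuousAt.2 fun θ0 => ?_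
  unfold gm
  refine continuousAt_of_dominated (bound := fun z =>
    (|C θ0| * exp (|k| * ‖spin σ • fun l => (A θ0 * (A θ0)ᵀ) l o‖) + 1) *
      exp ((|k| * l1 (A θ0) + 1) * ‖z‖)) (.of_forall fun θ => ?_) ?_
    ((int_exp_norm _).const_mul _) (.of_forall fun z => ?_)
  · exact (int_of ((h1 σ).comp (Continuous.prodMk_right θ)) (h2 θ σ) _ _).aestronglyMeasurable
  · filter_upwards [(c1.tendsto θ0).eventually (gt_mem_nhds (lt_add_one _)),
      (c2.tendsto θ0).eventually (gt_mem_nhds (lt_add_one _))] with θ e1 e2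
    refine .of_forall fun z => (bd (h2 θ σ) _ _ z).trans ?_
    exact mul_le_mul e1.le (exp_le_exp.2 (mul_le_mul_of_nonneg_right e2.le (norm_nonneg _)))
      (exp_pos _).le (by positivity)
  · exact ((h1 σ).comp (continuous_id.prodMk
      (cu.add (hA.matrix_mulVec continuous_const)))).continuousAt

/-- `tanh` with values in `[-1, 1]` -/
def tI (b : ℝ) : Im := ⟨tanh b, (neg_one_lt_tanh b).le, (tanh_lt_one b).le⟩

lemma cont_tanh : Continuous tanh := by
  have e : tanh = fun y => sinh y / cosh y := funext tanh_eq_sinh_div_cosh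
  rw [e]
  exact continuous_sinh.div continuous_cosh fun y => (cosh_pos y).ne'

lemma cont_tI : Continuous tI := cont_tanh.subtype_mk _

lemma dense_tI : DenseRange tI := by
  refine Subtype.dense_iff.2 ?_
  refine (closure_Ioo (show (-1 : ℝ) ≠ 1 by norm_num)).ge.trans ?_
  exact closure_mono fun x hx => ⟨tI (artanh x), mem_range_self _, tanh_artanh hx⟩

lemma ev_lt [TopologicalSpace J] {G : J × Im → ℝ} (hG : Continuous G) (θ0 : J) {c : ℝ}
    (h : ∀ m, G (θ0, m) < c) : ∀ᶠ θ in 𝓝 θ0, ∀ m, G (θ, m) < c := by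
  have := isCompact_univ.eventually_forall_of_forall_eventually (x₀ := θ0)
    (P := fun θ (m : Im) => G (θ, m) < c) fun m _ => (hG.tendsto (θ0, m)).eventually (gt_mem_nhds (h m))
  exact this.mono fun θ hθ m => hθ m (mem_univ m)

lemma gc2 [TopologicalSpace J] [FirstCountableTopology J] (ν : Measure ℝ) [IsProbabilityMeasure ν]
    (g : J → ℝ → ℝ) (hg : Continuous fun p : J × Im => g p.1 p.2) :
    (∀ θ, Integrable (fun b => g θ (tanh b)) ν) ∧ (Continuous fun θ => ∫ b, g θ (tanh b) ∂ν) ∧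
    ∀ θ0 c c', c < c' → (∀ b, g θ0 (tanh b) ≤ c) → ∀ᶠ θ in 𝓝 θ0, ∀ b, g θ (tanh b) ≤ c' := by
  have c1 : ∀ θ, Continuous fun b => g θ (tanh b) := fun θ =>
    hg.comp ((continuous_const (y := θ)).prodMk cont_tI)
  have b1 : ∀ θ, ∃ M, ∀ m : Im, ‖g θ m‖ < M := fun θ => by
    obtain ⟨M, hM⟩ := isCompact_univ.exists_bound_of_continuousOn
      (hg.comp (Continuous.prodMk_right θ)).continuousOn
    exact ⟨M + 1, fun m => (hM m (mem_univ m)).trans_lt (lt_add_one M)⟩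
  refine ⟨fun θ => ?_, continuous_iff_continuousAt.2 fun θ0 => ?_, fun θ0 c c' hc h => ?_⟩
  · obtain ⟨M, hM⟩ := b1 θ
    exact .of_bound (c1 θ).aestronglyMeasurable M (.of_forall fun b => (hM (tI b)).le)
  · obtain ⟨M, hM⟩ := b1 θ0
    refine continuousAt_of_dominated (bound := fun _ => M)
      (.of_forall fun θ => (c1 θ).aestronglyMeasurable)
      ((ev_lt hg.norm θ0 hM).mono fun θ hθ => .of_forall fun b => (hθ (tI b)).le)
      (integrable_const M) (.of_forall fun b => ?_)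
    exact (hg.comp (continuous_id.prodMk (continuous_const (y := tI b)))).continuousAt
  · have h1 : ∀ m : Im, g θ0 m ≤ c := isClosed_property dense_tI
      (isClosed_le (hg.comp (Continuous.prodMk_right θ0)) continuous_const) h
    exact (ev_lt hg θ0 fun m => (h1 m).trans_lt hc).mono fun θ hθ b => (hθ (tI b)).le

lemma gc3 (o : L) (A : Matrix L κ ℝ) (F : Fn L) (hF : C0 F) : Continuous (Eb A o F) ∧
    ∀ (ν : Measure ℝ) [IsProbabilityMeasure ν], (∃ C, ∀ b s x, |F b s x| ≤ C * exp (C * ‖x‖)) →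
      Integrable (Eb A o F) ν := by
  have e : Eb A o F = fun b => mE A o (tanh b) (F b) := funext fun b => mE_eq A o b _
  have hc : Continuous (Eb A o F) := by
    rw [e]; exact cont_mE o continuous_const cont_tanh hF
  refine ⟨hc, fun ν _ ⟨C, hC⟩ => .of_bound hc.aestronglyMeasurable (∑ σ, ∫ z, |C| *
    exp (|C| * ‖spin σ • fun l => (A * Aᵀ) l o‖) * exp (|C| * l1 A * ‖z‖) ∂gv κ)
    (.of_forall fun b => ?_)⟩
  rw [Real.norm_eq_abs, Eb, mdl]
  refine (Finset.abs_sum_le_sum_abs _ _).trans (Finset.sum_le_sum fun σ _ => ?_)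
  rw [abs_mul, abs_of_nonneg (S3L.Clt58.hb_nonneg b σ)]
  have h1 : S3L.hb b σ ≤ 1 := (Finset.single_le_sum (f := fun σ => S3L.hb b σ)
    (fun σ _ => S3L.Clt58.hb_nonneg b σ) (Finset.mem_univ σ)).trans_eq (S3L.Clt58.hb_sum b)
  refine (mul_le_of_le_one_left (abs_nonneg _) h1).trans ?_
  rw [gm, ← Real.norm_eq_abs]
  exact norm_integral_le_of_norm_le ((int_exp_norm _).const_mul _) (.of_forall (bd (hC b σ) _ A))

open scoped Matrix.Norms.L2Operator MatrixOrder in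
lemma gc4 [DecidableEq L] (S : ℕ → Matrix L L ℝ) (S0 : Matrix L L ℝ)
    (h : ∀ j, (S j).PosSemidef) (ht : Tendsto S atTop (𝓝 S0)) :
    ∃ (A : ℕ → Matrix L L ℝ) (A0 : Matrix L L ℝ), (∀ j, A j * (A j)ᵀ = S j) ∧ A0 * A0ᵀ = S0 ∧
      Tendsto A atTop (𝓝 A0) := by
  have h0 : S0.PosSemidef := by
    refine PosSemidef.of_dotProduct_mulVec_nonneg ?_ fun x => ?_
    · have t : Tendsto (fun j => (S j)ᴴ) atTop (𝓝 S0ᴴ) :=
        ((continuous_id.matrix_conjTranspose).tendsto S0).comp ht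
      have e : (fun j => (S j)ᴴ) = S := funext fun j => (h j).1
      rw [e] at t
      exact tendsto_nhds_unique t ht
    · have c : Continuous fun M : Matrix L L ℝ => star x ⬝ᵥ M *ᵥ x := by fun_prop
      exact ge_of_tendsto' ((c.tendsto S0).comp ht) fun j => (h j).dotProduct_mulVec_nonneg x
  have rt : ∀ M : Matrix L L ℝ, M.PosSemidef → CFC.sqrt M * (CFC.sqrt M)ᵀ = M := fun M hM => by
    have : (CFC.sqrt M)ᵀ = CFC.sqrt M := (CFC.sqrt_nonneg M).posSemidef.1
    rw [this, CFC.sqrt_mul_sqrt_self _ hM.nonneg]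
  refine ⟨fun j => CFC.sqrt (S j), CFC.sqrt S0, fun j => rt _ (h j), rt _ h0, ?_⟩
  exact (CFC.continuousOn_sqrt S0 h0.nonneg).tendsto.comp
    (tendsto_nhdsWithin_iff.2 ⟨ht, .of_forall fun j => (h j).nonneg⟩)

end Ex13

open Ex13

/-- **`ExStmt`** -/
theorem exStmt : ExStmt := by
  intro J L κ _ _ _ _
  refine ⟨mE_eq, fun A o m F G θ hF hG => ?_, fun A o m F G θ hF hG => ?_,
    fun A o m I T F θ hF => ?_, fun A o m c F θ => ?_, fun A o m c F θ => ?_, fun A o m c => ?_,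
    fun A o m F G θ hm hF hG h => ?_, fun A o m F θ hm hF h => ?_, fun A o m ψ => ?_,
    fun A A' M o o' m ψ hA hM hψ => ?_, fun A o m w => ?_⟩
  · simp only [mE, gm, Pi.add_apply, ← Finset.sum_add_distrib]
    exact Finset.sum_congr rfl fun σ _ => by
      rw [integral_add (int_C0 hF θ σ _ A) (int_C0 hG θ σ _ A), mul_add]
  · simp only [mE, gm, Pi.sub_apply, ← Finset.sum_sub_distrib]
    exact Finset.sum_congr rfl fun σ _ => by
      rw [integral_sub (int_C0 hF θ σ _ A) (int_C0 hG θ σ _ A), mul_sub]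
  · simp only [mE, gm, Finset.sum_apply]
    rw [Finset.sum_comm]
    exact Finset.sum_congr rfl fun σ _ => by
      rw [integral_finsetSum _ fun i hi => int_C0 (hF i hi) θ σ _ A, Finset.mul_sum]
  · simp only [mE, gm, Pi.mul_apply, cb, integral_const_mul, Finset.mul_sum]
    exact Finset.sum_congr rfl fun σ _ => by ring
  · simp only [mE, gm, Pi.smul_apply, smul_eq_mul, integral_const_mul, Finset.mul_sum]
    exact Finset.sum_congr rfl fun σ _ => by ring
  · simp [mE, gm, spin]; ring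
  · exact Finset.sum_le_sum fun σ _ => mul_le_mul_of_nonneg_left
      (integral_mono (int_C0 hF θ σ _ A) (int_C0 hG θ σ _ A) fun z => h σ _) (w_nonneg hm σ)
  · have p : ∀ σ, 0 < gm A fun x => F θ σ (spin σ • (fun l => (A * Aᵀ) l o) + x) := fun σ => by
      refine (integral_pos_iff_support_of_nonneg (fun z => (h σ _).le) (int_C0 hF θ σ _ A)).2 ?_
      rw [show Function.support _ = univ from eq_univ_of_forall fun z => (h σ _).ne']
      simp
    have w1 := w_nonneg hm true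
    have w2 := w_nonneg hm false
    have p1 := p true
    have p2 := p false
    rw [mE, Fintype.sum_bool]
    rcases w1.eq_or_lt with e | e
    · have : 0 < (1 + spin false * m) / 2 := by
        simp only [spin, if_true, Bool.false_eq_true, if_false] at e ⊢
        linarith
      positivity
    · positivity
  · have e : ∀ σ, (gm A fun x => ψ (!σ) (-(spin σ • (fun l => (A * Aᵀ) l o) + x))) =
        gm A fun x => ψ (!σ) (spin (!σ) • (fun l => (A * Aᵀ) l o) + x) := fun σ => by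
      rw [← gm_neg A fun x => ψ (!σ) (spin (!σ) • (fun l => (A * Aᵀ) l o) + x)]
      have : spin (!σ) = -spin σ := by cases σ <;> simp [spin]
      simp only [this, neg_add, neg_smul]
    simp only [mE, e, Fintype.sum_bool, Bool.not_true, Bool.not_false]
    simp only [spin, if_true, Bool.false_eq_true, if_false]
    ring
  · refine Finset.sum_congr rfl fun σ _ => ?_
    congr 1
    have e1 : M *ᵥ (fun l => (A * Aᵀ) l o) = fun k => (A' * A'ᵀ) k o' := by
      funext k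
      rw [hA, mul_apply]
      simp only [transpose_apply, hM, Pi.single_apply, mul_ite, mul_one, mul_zero,
        Finset.sum_ite_eq', Finset.mem_univ, if_true]
      rfl
    have e2 : (M * A) * (M * A)ᵀ = A' * A'ᵀ := by
      rw [hA, transpose_mul]; simp only [Matrix.mul_assoc]
    simp only [gm, mulVec_add, mulVec_smul, e1, mulVec_mulVec]
    exact int_congr e2 (F := fun x => ψ σ (spin σ • (fun k => (A' * A'ᵀ) k o') + x))
      ((hψ σ).comp (measurable_const.add measurable_id))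
  · have e : ∀ σ, (gm A fun x => (w ⬝ᵥ (spin σ • (fun l => (A * Aᵀ) l o) + x) -
        spin σ * (w ⬝ᵥ fun l => (A * Aᵀ) l o)) ^ 2) = w ⬝ᵥ (A * Aᵀ) *ᵥ w := fun σ => by
      simp only [gm, dotProduct_add, dotProduct_smul, smul_eq_mul, add_sub_cancel_left]
      simp only [dotProduct_mulVec w A, int_dot_sq]
      rw [← mulVec_mulVec, dotProduct_mulVec, mulVec_transpose]
    simp only [mE, e]
    simp [spin]; ring

/-- **`GcStmt`** -/
theorem gcStmt_13 : GcStmt := fun _ _ _ _ _ _ _ _ o =>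
  ⟨fun _ _ _ hA hm hF => cont_mE o hA hm hF, fun ν _ g hg => gc2 ν g hg, gc3 o, gc4⟩

end Crest.Agent.T157.Nt

end
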