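import Crest.Agent.T157.NetDef_32

/-!
# Row 157, block B/S3 (helper66): extensions of networks (`Nt.LiftGlue`)
-/

set_option autoImplicit false
set_option linter.unusedSectionVars false

noncomputable section

namespace Crest.Agent.T157.Nt

open MeasureTheory Matrix Real Set Function
open Crest.ProbabilityR.SpinGlassDynamics (spin)
open Crest.Agent.T157.S3L (gm mdl)
open Crest.Agent.T157.Tw (sech2)

namespace Lift66

section gen
variable {J K L κ κ' : Type} [Fintype K] [DecidableEq K] [Fintype L] [DecidableEq L] [Fintype κ]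
  [Fintype κ'] {e : K → L}

/-! ### `res` is a ring homomorphism -/

lemma res_zero : res e (0 : Fj J K) = 0 := rfl
lemma res_add (F G : Fj J K) : res e (F + G) = res e F + res e G := rfl
lemma res_sub (F G : Fj J K) : res e (F - G) = res e F - res e G := rfl
lemma res_neg (F : Fj J K) : res e (-F) = -res e F := rfl
lemma res_mul (F G : Fj J K) : res e (F * G) = res e F * res e G := rfl
lemma res_pow (F : Fj J K) (k : ℕ) : res e (F ^ k) = res e F ^ k := rfl
lemma res_sum {I : Type} (T : Finset I) (F : I → Fj J K) :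
    res e (∑ i ∈ T, F i) = ∑ i ∈ T, res e (F i) := by
  funext θ s x; simp only [res, Finset.sum_apply]
lemma res_gs (F : Fj J K) : res e (gs F) = gs (res e F) := rfl
lemma res_rf (F : Fn K) : res e (rf F) = rf (res e F) := rfl
lemma res_res {L' : Type} (e' : L → L') (F : Fj J K) : res e' (res e F) = res (e' ∘ e) F := rfl

/-- the `0-1` matrix of a map -/
def M0 (e : K → L) : Matrix K L ℝ := of fun x l => if e x = l then 1 else 0

lemma M0_mulVec (x : L → ℝ) : M0 e *ᵥ x = x ∘ e := by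
  funext k; simp [M0, mulVec, dotProduct]

lemma res_eq_pb (F : Fj J K) : res e F = pb (M0 e) F := by
  funext θ s x; rw [pb, M0_mulVec]; rfl

lemma M0_conj (S : Matrix L L ℝ) : M0 e * S * (M0 e)ᵀ = S.submatrix e e := by
  ext i j; simp [M0, mul_apply]

lemma M0_row (o : K) : M0 e o = Pi.single (e o) 1 := by
  funext l; simp [M0, Pi.single_apply, eq_comm]

/-- sums of functions that vanish off the range -/
lemma sum_range {X : Type} [AddCommMonoid X] (he : Injective e) {g : L → X}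
    (h : ∀ l, l ∉ range e → g l = 0) : ∑ l, g l = ∑ k, g (e k) :=
  (Fintype.sum_of_injective e he _ _ h fun _ => rfl).symm

lemma ext_off {X : Type} [Zero X] (g : K → X) {l : L} (h : l ∉ range e) :
    Function.extend e g 0 l = 0 := extend_apply' _ _ _ h

/-- chain rule, without any differentiability assumption -/
lemma fderiv_res (he : Injective e) (f : (K → ℝ) → ℝ) (x v : L → ℝ) :
    fderiv ℝ (fun x : L → ℝ => f (x ∘ e)) x v = fderiv ℝ f (x ∘ e) (v ∘ e) := by
  let R : (L → ℝ) →L[ℝ] (K → ℝ) := ContinuousLinearMap.pi fun k => ContinuousLinearMap.proj (e k)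
  by_cases h : DifferentiableAt ℝ f (x ∘ e)
  · exact congrArg (fun T => T v) (h.hasFDerivAt.comp x R.hasFDerivAt).fderiv
  · have h' : ¬ DifferentiableAt ℝ (fun x : L → ℝ => f (x ∘ e)) x := fun h' => h <| by
      let σ : (K → ℝ) → L → ℝ := fun y => x + (M0 e)ᵀ *ᵥ (y - x ∘ e)
      have h1 : ∀ y, σ y ∘ e = y := fun y => by
        funext k; simp [σ, M0, mulVec, dotProduct, he.eq_iff]
      have h2 : σ (x ∘ e) = x := by simp [σ]
      have h3 : DifferentiableAt ℝ σ (x ∘ e) := differentiableAt_pi.2 fun l => by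
        simp only [σ, mulVec, dotProduct, Pi.add_apply, Pi.sub_apply]
        fun_prop
      have h'' : DifferentiableAt ℝ (fun x : L → ℝ => f (x ∘ e)) (σ (x ∘ e)) := by
        rw [h2]; exact h'
      have h4 := h''.comp _ h3
      exact h4.congr_of_eventuallyEq (.of_forall fun y => (congrArg f (h1 y)).symm)
    rw [fderiv_zero_of_not_differentiableAt h, fderiv_zero_of_not_differentiableAt h']
    rfl

lemma dx_res (he : Injective e) (p : K) (F : Fj J K) : dx (e p) (res e F) = res e (dx p F) := by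
  funext θ s x
  refine (fderiv_res he (F θ s) x _).trans ?_
  congr 1
  funext k; simp [Pi.single_apply, he.eq_iff]

lemma dx_res_off (he : Injective e) {l : L} (hl : l ∉ range e) (F : Fj J K) :
    dx l (res e F) = 0 := by
  funext θ s x
  refine (fderiv_res he (F θ s) x _).trans ?_
  have : (Pi.single l (1 : ℝ) : L → ℝ) ∘ e = 0 :=
    funext fun k => Pi.single_eq_of_ne (fun h => hl ⟨k, h⟩) _
  rw [this, map_zero]
  rfl

lemma dx_zero (l : L) : dx l (0 : Fj J L) = 0 := by
  funext θ s x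
  exact congrArg (fun T => T (Pi.single l 1)) (fderiv_const_apply (𝕜 := ℝ) (x := x) (0 : ℝ))

lemma dl_zero (S : Matrix L L ℝ) (o u : L) : dl S o u (0 : Fj J L) = 0 := by simp [dl, dx_zero]

lemma dl_res (he : Injective e) (S : Matrix L L ℝ) (o u : K) (a : Fj J K) :
    dl S (e o) (e u) (res e a) = res e (dl (S.submatrix e e) o u a) := by
  rw [dl, dl, sum_range he fun l hl => by rw [dx_res_off he hl, smul_zero], res_sub, res_sum]
  simp only [dx_res he]
  rfl

lemma dft_res (he : Injective e) (S : Matrix L L ℝ) (o : K) (al : Fn K) (a : K → Fn K) :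
    dft S (e o) (res e al) (Function.extend e (fun u => res e (a u)) 0) =
      res e (dft (S.submatrix e e) o al a) := by
  rw [dft, dft, sum_range he fun l hl => by rw [ext_off _ hl, dl_zero], res_add, res_sum]
  simp only [he.extend_apply, dl_res he]
  rfl

lemma quad_ext (he : Injective e) (S : Matrix L L ℝ) (w : K → ℝ) :
    Function.extend e w 0 ⬝ᵥ S *ᵥ Function.extend e w 0 = w ⬝ᵥ S.submatrix e e *ᵥ w := by
  rw [dotProduct, sum_range he fun l hl => by rw [ext_off _ hl, zero_mul]]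
  refine Finset.sum_congr rfl fun k _ => ?_
  rw [mulVec, dotProduct, sum_range he fun l hl => by rw [ext_off _ hl, mul_zero]]
  simp only [he.extend_apply]
  rfl

/-! ### measurable families -/

/-- measurable in the fields -/
def Ms (F : Fj J L) : Prop := ∀ θ s, Measurable (F θ s)

lemma Ms.add {F G : Fj J L} (h : Ms F) (k : Ms G) : Ms (F + G) := fun θ s => (h θ s).add (k θ s)
lemma Ms.sub {F G : Fj J L} (h : Ms F) (k : Ms G) : Ms (F - G) := fun θ s => (h θ s).sub (k θ s)
lemma Ms.mul {F G : Fj J L} (h : Ms F) (k : Ms G) : Ms (F * G) := fun θ s => (h θ s).mul (k θ s)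
lemma Ms.neg {F : Fj J L} (h : Ms F) : Ms (-F) := fun θ s => (h θ s).neg
lemma Ms.pow {F : Fj J L} (h : Ms F) (k : ℕ) : Ms (F ^ k) := fun θ s => (h θ s).pow_const k
lemma Ms.smul (c : ℝ) {F : Fj J L} (h : Ms F) : Ms (c • F) := fun θ s => (h θ s).const_smul c
lemma Ms.gs {F : Fj J L} (h : Ms F) : Ms (gs F) := fun θ _ =>
  ((h θ true).sub (h θ false)).div_const 2
lemma ms_sum {I : Type} (T : Finset I) {F : I → Fj J L} (h : ∀ i, Ms (F i)) :
    Ms (∑ i ∈ T, F i) := fun θ s => by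
  rw [show (∑ i ∈ T, F i) θ s = fun x => ∑ i ∈ T, F i θ s x from
    funext fun x => by simp only [Finset.sum_apply]]
  exact Finset.measurable_sum _ fun i _ => h i θ s
lemma ms_one : Ms (1 : Fj J L) := fun _ _ => measurable_const
lemma ms_sp : Ms (sp : Fj J L) := fun _ _ => measurable_const
lemma ms_cb (c : J → ℝ) : Ms (cb c : Fj J L) := fun _ _ => measurable_const
lemma ms_co (l : L) : Ms (co l : Fj J L) := fun _ _ => measurable_pi_apply l
lemma ms_th (o : L) : Ms (th o) := fun b _ => by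
  have : Continuous tanh := by
    rw [funext tanh_eq_sinh_div_cosh]
    exact continuous_sinh.div continuous_cosh fun x => (cosh_pos x).ne'
  exact this.measurable.comp (f := fun x : L → ℝ => b + x o) (by fun_prop)
lemma ms_dx (l : L) (F : Fj J L) : Ms (dx l F) := fun θ s =>
  measurable_fderiv_apply_const ℝ (F θ s) _
lemma ms_dl (S : Matrix L L ℝ) (o u : L) {a : Fj J L} (h : Ms a) : Ms (dl S o u a) :=
  (h.mul ((ms_co u).sub (ms_sp.smul _))).sub (ms_sum _ fun p => (ms_dx p a).smul _)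
lemma ms_dft (S : Matrix L L ℝ) (o : L) {al : Fn L} {a : L → Fn L} (h : Ms al)
    (k : ∀ u, Ms (a u)) : Ms (dft S o al a) :=
  ((ms_sp.sub (ms_th o)).mul h).add (ms_sum _ fun u => ms_dl S o u (k u))
lemma ms_df {F : Fj J L} (h : Df F) : Ms F := fun θ s => (h θ s).continuous.measurable
lemma ms_bs (hb : BsStmt) {F : Fn L} (h : BS F) : Ms F := ms_df ((hb L).df h)
lemma ms_lt (hb : BsStmt) {F : Fn L} (h : LT F) : Ms F := by
  obtain ⟨G, c, hG, -, rfl⟩ := h
  exact (ms_bs hb hG).add (ms_sum _ fun l => (ms_cb _).mul (ms_co l))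

/-! ### expectations -/

variable {A : Matrix K κ ℝ} {A' : Matrix L κ' ℝ}

lemma mE_res (hx : ExStmt) (hA : (A' * A'ᵀ).submatrix e e = A * Aᵀ) (o : K) (m : ℝ)
    {ψ : Bool → (K → ℝ) → ℝ} (hψ : ∀ s, Measurable (ψ s)) :
    mE A' (e o) m (fun s x => ψ s (x ∘ e)) = mE A o m ψ := by
  have := (hx ℝ L κ').pb A' A (M0 e) (e o) o m ψ (by rw [M0_conj, hA]) (M0_row o) hψ
  simpa only [M0_mulVec] using this

lemma Eb_res (hx : ExStmt) (hA : (A' * A'ᵀ).submatrix e e = A * Aᵀ) (o : K) {F : Fn K}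
    (hF : Ms F) (b : ℝ) : Eb A' (e o) (res e F) b = Eb A o F b := by
  rw [Eb, Eb, (hx ℝ L κ').eq, (hx ℝ K κ).eq]
  exact mE_res hx hA o _ (hF b)



lemma Cv_res (hx : ExStmt) (hA : (A' * A'ᵀ).submatrix e e = A * Aᵀ) (o : K) {F G : Fn K}
    (hF : Ms F) (hG : Ms G) (b : ℝ) : Cv A' (e o) (res e F) (res e G) b = Cv A o F G b := by
  rw [Cv, Cv, ← res_mul, Eb_res hx hA o (hF.mul hG), Eb_res hx hA o hF, Eb_res hx hA o hG]


lemma Eb_zero (A : Matrix K κ ℝ) (o : K) (b : ℝ) : Eb A o 0 b = 0 := by simp [Eb, mdl, gm]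

lemma bs_res (hb : BsStmt) {F : Fn K} (h : BS F) : BS (res e F) := by
  rw [res_eq_pb]; exact (hb L).pb _ h

lemma bs_zero (hb : BsStmt) : BS (0 : Fn L) := (hb L).const 0

lemma lt_res (hb : BsStmt) (he : Injective e) {F : Fn K} (h : LT F) : LT (res e F) := by
  obtain ⟨G, c, hG, hc, rfl⟩ := h
  refine ⟨res e G, Function.extend e c 0, bs_res hb hG, fun l => ?_, ?_⟩
  · by_cases hl : l ∈ range e
    · obtain ⟨k, rfl⟩ := hl
      rw [he.extend_apply]; exact (hb L).cb (hc k)
    · rw [ext_off _ hl]; exact bs_zero hb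
  · rw [sum_range he fun l hl => by rw [ext_off _ hl]; exact zero_mul _, res_add, res_sum]
    simp only [he.extend_apply]
    rfl

end gen

variable {n n' : ℕ} {N : Net n} {N' : Net n'} {ι : Ix n → Ix n'}

lemma E_res (hx : ExStmt) (h : N.Ext N' ι) {F : Fn (Ix n)} (hF : Ms F) (b : ℝ) :
    N'.E (res ι F) b = N.E F b := by
  rw [Net.E, ← h.zero]; exact Eb_res hx h.S 0 hF b

lemma E_zero (N : Net n) (b : ℝ) : N.E 0 b = 0 := Eb_zero _ _ b

lemma S00 (h : N.Ext N' ι) : N'.S 0 0 = N.S 0 0 := by rw [← h.S, submatrix_apply, h.zero]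

lemma D_res (h : N.Ext N' ι) : N'.D = res ι N.D := by rw [Net.D, ← h.zero]; rfl

lemma ms_D (N : Net n) : Ms N.D := ms_one.sub ((ms_th 0).pow 2)

lemma drift_res (h : N.Ext N' ι) (al : Fn (Ix n)) (a : Ix n → Fn (Ix n)) :
    N'.drift (res ι al) (Function.extend ι (fun u => res ι (a u)) 0) = res ι (N.drift al a) := by
  rw [Net.drift, Net.drift, ← h.zero, dft_res h.mono.injective, h.S]

lemma flw_res (hb : BsStmt) (h : N.Ext N' ι) {al : Fn (Ix n)} {a : Ix n → Fn (Ix n)}
    (hf : N.Flw al a) : N'.Flw (res ι al) (Function.extend ι (fun u => res ι (a u)) 0) := by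
  have he := h.mono.injective
  refine ⟨bs_res hb hf.bal, by rw [← res_gs, hf.free, res_zero], fun u => ?_, fun u hu => ?_⟩
  · by_cases hl : u ∈ range ι
    · obtain ⟨k, rfl⟩ := hl
      rw [he.extend_apply]
      exact ⟨bs_res hb (hf.ba k).1, bs_res (e := ι) hb (hf.ba k).2⟩
    · rw [ext_off _ hl, zero_mul]; exact ⟨bs_zero hb, bs_zero hb⟩
  · by_cases hl : u ∈ range ι
    · obtain ⟨k, rfl⟩ := hl
      rw [he.extend_apply, hf.nd k fun hk => hu ((h.dr k).2 hk), res_zero]
    · exact ext_off _ hl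

/-- bilinear sums of lifted families -/
lemma sum2_res (hx : ExStmt) (h : N.Ext N' ι) {I I' : Type} [Fintype I] [DecidableEq I] [Fintype I']
    [DecidableEq I'] {j : I → I'} (hj : Injective j) {X : I → Fn (Ix n)} {X' : I' → Fn (Ix n')}
    (hX : ∀ i, Ms (X i)) (h1 : ∀ i, X' (j i) = res ι (X i)) (h0 : ∀ i, i ∉ range j → X' i = 0)
    (P : Matrix I' I' ℝ) (b : ℝ) : ∑ i, ∑ k, N'.E (X' i * X' k) b * P i k =
      ∑ i, ∑ k, N.E (X i * X k) b * P.submatrix j j i k := by
  rw [sum_range hj fun l hl => by simp only [h0 l hl, zero_mul, E_zero, Finset.sum_const_zero]]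
  refine Finset.sum_congr rfl fun i _ => ?_
  rw [sum_range hj fun l hl => by rw [h0 l hl, mul_zero, E_zero, zero_mul]]
  refine Finset.sum_congr rfl fun k _ => ?_
  rw [h1, h1, ← res_mul, E_res hx h ((hX i).mul (hX k)), submatrix_apply]

lemma Q_res (hx : ExStmt) (h : N.Ext N' ι) {F : Fn (Ix n)} (hF : Ms F) (b : ℝ) :
    N'.Q (res ι F) b = N.Q F b := by
  have he := h.mono.injective
  rw [Net.Q, Net.Q, sum2_res hx h he (fun l => ms_dx l F) (fun l => dx_res he l F)
    (fun l hl => dx_res_off he hl F), h.PD, D_res h, ← res_gs, ← res_pow, ← res_mul,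
    E_res hx h ((ms_D N).mul (hF.gs.pow 2))]

lemma R_res (h : N.Ext N' ι) (a : ℝ) (ψ : Fn (Ix n)) (m : Ix n → Fn (Ix n)) (ρ : ℝ → ℝ) :
    N'.R a (res ι ψ) (Function.extend ι (fun u => res ι (m u)) 0) ρ = res ι (N.R a ψ m ρ) := by
  rw [Net.R, Net.R, ← res_gs, drift_res h, S00 h, ← h.zero]
  rfl

lemma dxE_res (hx : ExStmt) (h : N.Ext N' ι) {F : Fn (Ix n)} (hF : ∀ u b, N.E (dx u F) b = 0)
    (u : Ix n') (b : ℝ) : N'.E (dx u (res ι F)) b = 0 := by
  have he := h.mono.injective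
  by_cases hl : u ∈ range ι
  · obtain ⟨k, rfl⟩ := hl
    rw [dx_res he, E_res hx h (ms_dx k F), hF]
  · rw [dx_res_off he hl, E_zero]

lemma top_res (hb : BsStmt) (hx : ExStmt) (h : N.Ext N' ι) {l a e : ℝ} {al0 : ℝ → ℝ}
    {ψ : Fn (Ix n)} {m : Ix n → Fn (Ix n)} {ρ : ℝ → ℝ} (t : N.Top l a e al0 ψ m ρ) :
    N'.Top l a e al0 (res ι ψ) (Function.extend ι (fun u => res ι (m u)) 0) ρ := by
  have he := h.mono.injective
  have mψ := ms_lt hb t.lt
  have mm : ∀ u, Ms (m u) := fun u => ms_bs hb (t.fl.ba u).1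
  have mR : Ms (N.R a ψ m ρ) := (((ms_dft _ _ mψ.gs mm).sub (mψ.smul a)).sub
    ((ms_cb _).mul ms_sp)).add ((ms_cb _).mul (ms_co 0))
  refine ⟨lt_res hb he t.lt, by rw [← res_rf, t.od, res_neg], flw_res hb h t.fl, fun u => ?_,
    dxE_res hx h t.c1, fun u b => ?_, fun b => ?_, (hb _).cb t.bρ, t.hρ, fun b => ?_, ?_,
    fun b => ?_, fun b => ?_, fun b => ?_, fun b => ?_⟩
  · by_cases hl : u ∈ range ι
    · obtain ⟨k, rfl⟩ := hl
      rw [he.extend_apply, ← res_rf, t.ev]
    · rw [ext_off _ hl]; rfl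
  · by_cases hl : u ∈ range ι
    · obtain ⟨k, rfl⟩ := hl
      rw [he.extend_apply, E_res hx h (mm k), t.c2]
    · rw [ext_off _ hl, E_zero]
  · rw [sum2_res hx h (he.sumMap he) (X := Sum.elim (fun u => dx u ψ) fun u => -m u), h.P1]
    · exact t.en b
    · rintro (u | u)
      · exact ms_dx u ψ
      · exact (mm u).neg
    · rintro (u | u)
      · exact dx_res he u ψ
      · simp only [Sum.map_inr, Sum.elim_inr, he.extend_apply, res_neg]
    · rintro (u | u) hu
      · exact dx_res_off he (fun ⟨k, hk⟩ => hu ⟨.inl k, congrArg Sum.inl hk⟩) ψ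
      · rw [Sum.elim_inr, ext_off _ fun ⟨k, hk⟩ => hu ⟨.inr k, congrArg Sum.inr hk⟩, neg_zero]
  · rw [D_res h, ← res_gs, ← res_mul, E_res hx h ((ms_D N).mul mψ.gs), t.hq]
  · rw [R_res h]; exact dxE_res hx h t.c3
  · rw [R_res h, Q_res hx h mR]; exact t.QR b
  · rw [R_res h, ← h.zero, Cv_res hx h.S 0 mR mR]; exact t.VR b
  · rw [Q_res hx h mψ]; exact t.Qψ b
  · rw [S00 h]; exact t.hal b

lemma ext_id (N : Net n) : N.Ext N id :=
  ⟨strictMono_id, rfl, fun _ => rfl, fun _ => rfl, fun _ _ => rfl,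
    fun _ u h => absurd ⟨u, rfl⟩ h, fun _ => Iff.rfl, rfl, rfl, by rw [Sum.map_id_id]; rfl⟩

lemma ext_comp {n'' : ℕ} {N'' : Net n''} {ι' : Ix n' → Ix n''} (h : N.Ext N' ι)
    (h' : N'.Ext N'' ι') : N.Ext N'' (ι' ∘ ι) := by
  refine ⟨h'.mono.comp h.mono, by rw [Function.comp_apply, h.zero, h'.zero], fun l => ?_, fun l => ?_,
    fun l u => ?_, fun l u hu => ?_, fun l => (h'.dr _).trans (h.dr l), ?_, ?_, ?_⟩
  · rw [Function.comp_apply, h'.f, h.f, res_res]
  · rw [Function.comp_apply, h'.al, h.al, res_res]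
  · rw [Function.comp_apply, Function.comp_apply, h'.a, h.a, res_res]
  · by_cases hl : u ∈ range ι'
    · obtain ⟨k, rfl⟩ := hl
      rw [Function.comp_apply, h'.a, h.a0 l k fun ⟨j, hj⟩ => hu ⟨j, congrArg ι' hj⟩, res_zero]
    · exact h'.a0 _ u hl
  · rw [← h.S, ← h'.S]; rfl
  · rw [← h.PD, ← h'.PD]; rfl
  · rw [← h.P1, ← h'.P1, submatrix_submatrix, Sum.map_comp_map]

end Lift66

open Lift66 in
/-- **task 851** -/
theorem liftGlue : LiftGlue := fun T _ _ _ _ N N' _ h =>
  ⟨fun _ hF => E_res T.ex h hF, fun al a hf => ⟨flw_res T.bs h hf, drift_res h al a⟩,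
    fun w => by rw [Net.sq, Net.sq, quad_ext h.mono.injective, h.S],
    fun _ _ _ _ _ _ _ t => top_res T.bs T.ex h t, ext_id N, fun _ _ _ h' => ext_comp h h'⟩

end Crest.Agent.T157.Nt

end
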