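import Crest.Agent.T157.NetIbp_15_Mg
import Crest.Agent.T157.NetDef_32
import Crest.Agent.T157.LcCal_52
import Crest.Agent.T157.S3Clt_58
import Crest.Agent.T157.NetDefB_32

-- ▼ part T157/NetAv_44
section

/-!
# Row 157, block B/S3 section 7 (helper44): averaging keeps bounded smoothness
-/

set_option autoImplicit false
set_option linter.unusedSectionVars false

noncomputable section

namespace Crest.Agent.T157.Nt

open MeasureTheory Matrix Real Set Filter Topology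
open Crest.ProbabilityR.SpinGlassDynamics (spin)
open Crest.Agent.T157.S3L (gm mdl)
open Crest.Agent.T157.E (gv)
open Her44 (dir dd_eq)

namespace Av44

section avg
variable {H Ω : Type} [NormedAddCommGroup H] [NormedSpace ℝ H] [FiniteDimensional ℝ H]
  [TopologicalSpace Ω] [MeasurableSpace Ω] [OpensMeasurableSpace Ω] [SecondCountableTopology Ω]
  {P : Measure Ω}

/-- averaging a bounded `C¹` function over translations, with an integrable weight -/
lemma avg {f : H → ℝ} (hf : ContDiff ℝ 1 f) {C C' : ℝ} (h0 : ∀ p, |f p| ≤ C)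
    (h1 : ∀ p, ‖fderiv ℝ f p‖ ≤ C') {c : Ω → H} (hc : Continuous c) {w : Ω → ℝ} (hw : Continuous w)
    (hi : Integrable w P) : ContDiff ℝ 1 (fun p => ∫ ω, w ω * f (p + c ω) ∂P) ∧ ∀ p v,
      fderiv ℝ (fun p => ∫ ω, w ω * f (p + c ω) ∂P) p v = ∫ ω, w ω * fderiv ℝ f (p + c ω) v ∂P := by
  have c0 := hf.continuous
  have c1 := hf.continuous_fderiv one_ne_zero
  have bF : ∀ p ω, ‖w ω • fderiv ℝ f (p + c ω)‖ ≤ ‖w ω‖ * C' := fun p ω => by
    rw [norm_smul]; exact mul_le_mul_of_nonneg_left (h1 _) (norm_nonneg _)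
  have iF : ∀ p, Integrable (fun ω => w ω • fderiv ℝ f (p + c ω)) P := fun p =>
    (hi.norm.mul_const C').mono' (Continuous.aestronglyMeasurable (by fun_prop)) (.of_forall (bF p))
  have hd : ∀ p, HasFDerivAt (fun p => ∫ ω, w ω * f (p + c ω) ∂P)
      (∫ ω, w ω • fderiv ℝ f (p + c ω) ∂P) p := fun p =>
    hasFDerivAt_integral_of_dominated_of_fderiv_le (s := univ)
      (F' := fun p ω => w ω • fderiv ℝ f (p + c ω)) univ_mem
      (.of_forall fun q => Continuous.aestronglyMeasurable (by fun_prop))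
      (hi.mul_bdd (Continuous.aestronglyMeasurable (by fun_prop)) (.of_forall fun ω => h0 _))
      (iF p).1 (.of_forall fun ω q _ => bF q ω) (hi.norm.mul_const C')
      (.of_forall fun ω q _ => ((hasFDerivAt_comp_add_right (c ω)).2
        (hf.differentiable one_ne_zero (q + c ω)).hasFDerivAt).const_mul (w ω))
  refine ⟨contDiff_one_iff_fderiv.2 ⟨fun p => (hd p).differentiableAt, ?_⟩, fun p v => ?_⟩
  · rw [funext fun p => (hd p).fderiv]
    exact continuous_of_dominated (fun p => (iF p).1) (fun p => .of_forall (bF p))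
      (hi.norm.mul_const C') (.of_forall fun ω => by fun_prop)
  · rw [(hd p).fderiv, ContinuousLinearMap.integral_apply (iF p)]
    rfl

end avg

variable {L κ : Type} [Fintype L] [DecidableEq L] [Fintype κ] {A : Matrix L κ ℝ} {o : L}

/-- exponential weights -/
def ew (o : L) (a : ℝ) : Fn L := fun _ _ x => exp (a * x o)

lemma c0_ew (a : ℝ) : C0 (ew o a) := ⟨fun _ => by unfold ew; fun_prop, |a|, 1, continuous_const,
  fun _ _ x => by
    rw [ew, abs_exp, Pi.one_apply, one_mul]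
    exact exp_le_exp.2 ((le_abs_self _).trans (abs_mul a _ ▸
      mul_le_mul_of_nonneg_left (norm_le_pi_norm x o) (abs_nonneg a)))⟩

lemma intE (h : BsApi L) {F : Fn L} (hF : BS F) (a b : ℝ) (s : Bool) (c : L → ℝ) :
    Integrable (fun z => (ew o a * F) b s (c + A *ᵥ z)) (gv κ) := by
  obtain ⟨C, hC⟩ := h.bd hF
  have := Her44.cont h hF b s
  exact (Ibp15.int (c0_ew a) b s c A).mul_bdd (Continuous.aestronglyMeasurable (by fun_prop))
    (.of_forall fun z => hC _ _ _)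

lemma cx_b1 (h : BsApi L) {F : Fn L} (hF : BS F) (a : ℝ) : B1 (cx A o (ew o a * F)) ∧
    ∀ i, ∃ G, BS G ∧ dd i (cx A o (ew o a * F)) = cx A o (ew o a * G) := by
  obtain ⟨C, hC⟩ := h.bd hF
  have key : ∀ s, ContDiff ℝ 1 (fun b => cx A o (ew o a * F) b s 0) ∧
      ∀ b, deriv (fun b => cx A o (ew o a * F) b s 0) b = cx A o (ew o a * db F) b s 0 := fun s => by
    obtain ⟨h1, C', hC'⟩ := h.iter hF 1 s
    obtain ⟨k1, k2⟩ := avg (P := gv κ) (f := fun p : ℝ × (L → ℝ) => F p.1 s p.2) h1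
      (fun p => hC p.1 s p.2) (fun p => (norm_iteratedFDeriv_one (𝕜 := ℝ) _).ge.trans (hC' p))
      (c := fun z => ((0 : ℝ), spin s • (fun l => (A * Aᵀ) l o) + A *ᵥ z)) (by fun_prop)
      (w := fun z => ew o a 0 s (spin s • (fun l => (A * Aᵀ) l o) + A *ᵥ z)) (by unfold ew; fun_prop)
      (Ibp15.int (c0_ew a) 0 s _ A)
    have d1 := fun b => ((k1.differentiable one_ne_zero (b, 0)).hasFDerivAt.comp_hasDerivAt b
      ((hasDerivAt_id b).prodMk (hasDerivAt_const b (0 : L → ℝ)))).deriv.trans (k2 _ _)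
    replace k1 := k1.comp (f := fun b : ℝ => (b, (0 : L → ℝ))) (by fun_prop)
    simp only [Function.comp_def, Prod.mk_add_mk, add_zero, zero_add, id] at k1 d1
    refine ⟨k1, fun b => (d1 b).trans (integral_congr_ae (.of_forall fun z => ?_))⟩
    exact congrArg _ (dd_eq (F := F) (hF []) none _ _ _).symm
  refine ⟨⟨fun s => (key s).1.comp contDiff_fst, ∑ s, C * ∫ z, ew o a 0 s
    (spin s • (fun l => (A * Aᵀ) l o) + A *ᵥ z) ∂gv κ, fun b s x => le_trans ?_
      (Finset.single_le_sum (fun s _ => mul_nonneg ((abs_nonneg _).trans (hC 0 s 0))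
        (integral_nonneg fun _ => (exp_pos _).le)) (Finset.mem_univ s))⟩, fun i => ?_⟩
  · rw [← integral_const_mul]
    refine norm_integral_le_of_norm_le (f := fun z => (ew o a * F) b s (_ + A *ᵥ z))
      ((Ibp15.int (c0_ew (o := o) a) 0 s _ A).const_mul C) (.of_forall fun z => ?_)
    simp only [Pi.mul_apply, norm_mul, ew, norm_eq_abs, abs_exp]
    rw [mul_comm]
    exact mul_le_mul_of_nonneg_right (hC _ _ _) (exp_pos _).le
  · cases i with
    | none => exact ⟨db F, h.db hF, funext fun b => funext fun s => funext fun _ => (key s).2 b⟩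
    | some l => exact ⟨fun _ _ _ => 0, h.const 0, funext fun b => funext fun s => funext fun _ => by
        change fderiv ℝ (fun _ => cx A o (ew o a * F) b s 0) _ _ = _
        simp [cx, gm]⟩

theorem bs_cx (h : BsApi L) {F : Fn L} (hF : BS F) (a : ℝ) : BS (cx A o (ew o a * F)) := fun l => by
  induction l generalizing F with
  | nil => exact (cx_b1 h hF a).1
  | cons i l ih =>
    obtain ⟨G, hG, e⟩ := (cx_b1 (A := A) (o := o) h hF a).2 i
    rw [List.foldl_cons, e]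
    exact ih hG

theorem Eb_eq (T : Tl) (F : Fn L) (b : ℝ) : Eb A o F b =
    (cx A o F b true 0 + cx A o F b false 0) / 2 + tanh b * gs (cx A o F) b true 0 := by
  rw [Eb, (T.ex ℝ L κ).eq]
  simp only [mE, cx, gs, Fintype.sum_bool, spin, if_true, Bool.false_eq_true, if_false]
  ring

theorem bs_Eb (T : Tl) {F : Fn L} (hF : BS (cx A o F)) : BS (cb (Eb A o F) : Fn L) := by
  have h := T.bs L
  convert h.add (h.sub hF (h.mul h.sp (h.gs hF))) (h.mul (h.th 0) (h.gs hF)) using 1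
  funext b s x
  rw [cb, Eb_eq T]
  cases s <;> simp [gs, sp, spin, cx] <;> ring

lemma wm_eq (T : Tl) (b x : ℝ) : wm (tanh b) x = exp (2 * x) * ((1 - tanh (b + x)) ^ 2 / 4) +
    exp (0 * x) * ((1 - tanh (b + x) ^ 2) / 2) + exp (-2 * x) * ((1 + tanh (b + x)) ^ 2 / 4) := by
  have h1 := abs_lt.1 (abs_tanh_lt_one x)
  have h2 := abs_lt.1 (abs_tanh_lt_one b)
  have h3 : exp (2 * x) = (1 + tanh x) / (1 - tanh x) := by
    have := (cosh_pos x).ne'
    rw [eq_div_iff (by linarith), tanh_eq_sinh_div_cosh, two_mul, exp_add]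
    field_simp
    rw [cosh_sub_sinh, cosh_add_sinh, sq, mul_assoc, ← exp_add, add_neg_cancel, exp_zero, mul_one]
  have h4 : 1 + tanh b * tanh x ≠ 0 := by nlinarith
  have h7 : 1 + tanh x * tanh b ≠ 0 := mul_comm (tanh b) _ ▸ h4
  have h5 : 1 - tanh x ≠ 0 := by linarith
  have h6 : 1 + tanh x ≠ 0 := by linarith
  rw [neg_mul, exp_neg, h3, zero_mul, exp_zero, ← (T.ts ℝ Unit).tm_eq, wm, tm]
  field_simp
  ring

end Av44

open Av44

theorem avGlue : AvGlue := fun T L κ _ _ _ A o F hF => by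
  have h := T.bs L
  have h0 : BS (cx A o F) := by
    convert bs_cx (A := A) (o := o) h hF 0 using 2
    funext b s x; simp [ew]
  refine ⟨h0, bs_Eb T h0, bs_Eb T ?_, Eb_eq T F⟩
  have t := h.th0 o
  have b1 := h.mul (h.smul (1 / 4) (h.pow 2 (h.sub (h.const 1) t))) hF
  have b2 := h.mul (h.smul (1 / 2) (h.sub (h.const 1) (h.pow 2 t))) hF
  have b3 := h.mul (h.smul (1 / 4) (h.pow 2 (h.add (h.const 1) t))) hF
  convert h.add (h.add (bs_cx (A := A) (o := o) h b1 2) (bs_cx (A := A) (o := o) h b2 0))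
    (bs_cx (A := A) (o := o) h b3 (-2)) using 1
  funext b s x
  simp only [Pi.add_apply, cx, gm]
  rw [← integral_add (intE h b1 _ _ _ _) (intE h b2 _ _ _ _)]
  refine .trans (integral_congr_ae (.of_forall fun z => ?_))
    (integral_add ((intE h b1 _ _ _ _).add (intE h b2 _ _ _ _)) (intE h b3 _ _ _ _))
  simp only [wm_eq T, ew, th, Pi.mul_apply, Pi.add_apply, Pi.sub_apply, Pi.smul_apply, Pi.pow_apply,
    smul_eq_mul]
  ring

end Crest.Agent.T157.Nt

end
end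

-- ▼ part T157/NetApp_11
section

/-!
# Row 157, block B/S3, section 7 (helper11): appending a batch of nodes (`Nt.AppGlue`)
-/

set_option autoImplicit false

noncomputable section

namespace Crest.Agent.T157.Nt

open MeasureTheory Matrix Real Set Filter Topology
open Crest.Agent.T157.S3L (gm mdl)

namespace App11

section res
variable {L K : Type} [Fintype L] [DecidableEq L] [Fintype K] [DecidableEq K]

/-- the matrix that reads the fields `e x` -/
def Me (e : K → L) : Matrix K L ℝ := of fun x l => if e x = l then 1 else 0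

omit [DecidableEq K] [Fintype K] in
lemma Me_mul (e : K → L) (S : Matrix L L ℝ) : Me e * S * (Me e)ᵀ = S.submatrix e e := by
  ext i j; simp [Me, mul_apply]

omit [DecidableEq K] [Fintype K] [Fintype L] in
lemma Me_row (e : K → L) (o : K) : Me e o = Pi.single (e o) 1 := by
  ext l; simp [Me, Pi.single_apply, eq_comm]

variable (T : Tl) {e : K → L}
include T

omit [DecidableEq K] in
lemma res_eq (F : Fn K) : res e F = pb (Me e) F := (T.dx ℝ L).res e F

lemma bs_res {F : Fn K} (h : BS F) : BS (res e F) := by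
  rw [res_eq T]; exact (T.bs L).pb _ h

lemma dx_in (he : Function.Injective e) {F : Fn K} (h : BS F) (u : K) :
    dx (e u) (res e F) = res e (dx u F) := by
  rw [res_eq T, ((T.dx ℝ L).pb _ _ ((T.bs K).df h)).2, Finset.sum_eq_single u, res_eq T]
  · simp [Me]
  · intro v _ hv; simp [Me, he.ne hv]
  · simp

lemma dx_out {F : Fn K} (h : BS F) {l : L} (hl : l ∉ range e) : dx l (res e F) = 0 := by
  rw [res_eq T, ((T.dx ℝ L).pb _ _ ((T.bs K).df h)).2]
  refine Finset.sum_eq_zero fun v _ => ?_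
  have : e v ≠ l := fun h => hl ⟨v, h⟩
  simp [Me, this]

variable {κ κ' : Type} [Fintype κ] [Fintype κ'] {A' : Matrix L κ' ℝ} {A : Matrix K κ ℝ} {o : K}

lemma Eb_res (hS : (A' * A'ᵀ).submatrix e e = A * Aᵀ) {F : Fn K} (h : BS F) :
    Eb A' (e o) (res e F) = Eb A o F := by
  ext b
  rw [Eb, Eb, (T.ex ℝ L κ').eq, (T.ex ℝ K κ).eq, res_eq T]
  exact (T.ex ℝ L κ').pb A' A (Me e) (e o) o _ (F b) (by rw [Me_mul, hS]) (Me_row e o)
    fun s => ((T.bs K).df h b s).continuous.measurable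

lemma Ev_res (hS : (A' * A'ᵀ).submatrix e e = A * Aᵀ) (ν : Measure ℝ) {F : Fn K} (h : BS F) :
    Ev ν A' (e o) (res e F) = Ev ν A o F := by rw [Ev, Ev, Eb_res T hS h]

omit [DecidableEq K] [Fintype K] in
lemma Ev_zero (ν : Measure ℝ) (o' : L) : Ev ν A' o' 0 = 0 := by
  have : Eb A' o' 0 = fun _ => 0 := by
    ext b; rw [Eb, (T.ex ℝ L κ').eq]; exact (T.ex ℝ L κ').const A' o' _ 0
  rw [Ev, this, integral_zero]

lemma pair_res (hS : (A' * A'ᵀ).submatrix e e = A * Aᵀ) (β : ℝ) (ν : Measure ℝ) {I I1 : Type}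
    [Fintype I] [Fintype I1] {ι : I → I1} (hι : Function.Injective ι) {d al al' : Fn K}
    {a a' : I → Fn K} {c c' : I1 → Fn L} {P : Matrix I I ℝ} {P1 : Matrix I1 I1 ℝ}
    (hd : BS d) (hal : BS al) (hal' : BS al') (ha : ∀ p, BS (a p)) (ha' : ∀ p, BS (a' p))
    (h1 : ∀ p, c (ι p) = res e (a p)) (h2 : ∀ p ∉ range ι, c p = 0)
    (h1' : ∀ p, c' (ι p) = res e (a' p)) (h2' : ∀ p ∉ range ι, c' p = 0)
    (hP : ∀ p q, P1 (ι p) (ι q) = P p q) :
    pair β ν A' (e o) (res e d) (res e al) c (res e al') c' P1 = pair β ν A o d al a al' a' P := by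
  have B := T.bs K
  rw [pair, pair, ← Ev_res T hS ν (B.mul (B.mul hal hd) hal')]
  congr 2
  refine (Fintype.sum_of_injective ι hι _ _ (fun p hp => ?_) fun p => ?_).symm
  · simp [h2 p hp, Ev_zero T]
  · refine Fintype.sum_of_injective ι hι _ _ (fun q hq => ?_) fun q => ?_
    · simp [h2' q hq, Ev_zero T]
    · rw [h1, h1', hP, ← Ev_res T hS ν (B.mul (ha p) (ha' q))]; rfl

lemma dft_res (he : Function.Injective e) {S' : Matrix L L ℝ} (hs : S'ᵀ = S') (al : Fn K)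
    {a : K → Fn K} {c : L → Fn L} (ha : ∀ p, BS (a p)) (h1 : ∀ p, c (e p) = res e (a p))
    (h2 : ∀ p ∉ range e, c p = 0) :
    dft S' (e o) (res e al) c = res e (dft (S'.submatrix e e) o al a) := by
  have e1 : ∑ u, res e (dl (S'.submatrix e e) o u (a u)) = ∑ u, dl S' (e o) u (c u) := by
    refine Fintype.sum_of_injective e he _ _ (fun p hp => ?_) fun p => ?_
    · have : ∀ l : L, dx l (0 : Fn L) = 0 := fun l => (T.dx ℝ L).cb l 0
      simp [h2 p hp, dl, this]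
    · rw [h1, res_eq T, res_eq T, (T.dx ℝ L).dl (Me e) S' (e o) (e p) o p hs (Me_row e o)
        (Me_row e p) ((T.bs K).df (ha p)), Me_mul]
  rw [dft, dft, ← e1]
  ext b s x
  simp only [res, Pi.add_apply, Pi.mul_apply, Pi.sub_apply, Finset.sum_apply]
  rfl

end res

lemma pos_exists (n : ℕ) (K : Type) [Fintype K] : ∃ (n' : ℕ) (E : Ix n ⊕ K ≃ Ix n'), Pos E := by
  refine ⟨n + Fintype.card K, ((Equiv.sumCongr (Equiv.refl _) (Fintype.equivFin K)).trans
    finSumFinEquiv).trans (finCongr (by omega)), fun a b h => ?_, Fin.ext ?_, fun v x => ?_⟩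
  · exact h
  · simp
  · have := v.2
    simp only [Fin.lt_def, Equiv.trans_apply, Equiv.sumCongr_apply, Sum.map_inl, Sum.map_inr,
      finSumFinEquiv_apply_left, finSumFinEquiv_apply_right, finCongr_apply, Fin.val_cast,
      Fin.val_castAdd, Fin.val_natAdd, Equiv.refl_apply]
    omega

end App11

open App11 in
theorem appGlue : AppGlue := by
  intro T
  refine ⟨pos_exists, fun β ν _ n n' N K _ _ E G al a dr hE hN hG hfl hnd hdr hpd => ?_⟩
  have B := T.bs (Ix n)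
  have B' := T.bs (Ix n')
  obtain ⟨e, he⟩ : ∃ e : Ix n → Ix n', e = fun v => E (.inl v) := ⟨_, rfl⟩
  have ee : ∀ v, E (.inl v) = e v := fun v => by rw [he]
  have es : ∀ v, E.symm (e v) = .inl v := fun v => by rw [← ee, E.symm_apply_apply]
  have e0 : e 0 = 0 := (ee 0).symm.trans hE.zero
  have em : StrictMono e := he ▸ hE.mono
  have el : ∀ v x, e v < E (.inr x) := fun v x => ee v ▸ hE.lt v x
  have ei := em.injective
  have eo : ∀ p ∉ range e, ∃ x, E.symm p = .inr x := fun p hp => by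
    obtain ⟨i, rfl⟩ := E.surjective p
    rcases i with v | x
    · exact absurd ⟨v, (ee v).symm⟩ hp
    · exact ⟨x, E.symm_apply_apply _⟩
  rw [← he]
  obtain ⟨-, A', -, hA, -⟩ := (T.gc ℝ (Ix n') Unit 0).2.2.2
    (fun _ => (gram β ν N.A 0 (Sum.elim N.f G)).submatrix E.symm E.symm) _
    (fun _ => (hpd.submatrix E.symm.injective).posSemidef) tendsto_const_nhds
  have hS : (A' * A'ᵀ).submatrix e e = N.A * N.Aᵀ := by
    rw [hA, ← Net.S, hN.gr]; ext u v
    simp only [submatrix_apply, es]; rfl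
  have bF : ∀ i, BS (Sum.elim N.f G i) := by rintro (v | x); exacts [hN.bs v, (hG x).1]
  have oF : ∀ i, rf (Sum.elim N.f G i) = -Sum.elim N.f G i := by
    rintro (v | x); exacts [hN.od v, (hG x).2]
  have fF : ∀ i, N.Flw (Sum.elim N.al al i) (Sum.elim N.a a i) := by
    rintro (v | x); exacts [hN.fl v, (hfl x).1]
  have vF : ∀ i, rf (Sum.elim N.al al i) = Sum.elim N.al al i ∧
      ∀ u, rf (Sum.elim N.a a i u) = Sum.elim N.a a i u := by
    rintro (v | x); exacts [hN.ev v, (hfl x).2]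
  have nF : ∀ i, ¬ Sum.elim N.dr dr i → Sum.elim N.al al i = 0 ∧ Sum.elim N.a a i = 0 := by
    rintro (v | x); exacts [hN.nd v, hnd x]
  have dF : ∀ i, Sum.elim N.dr dr i →
      Sum.elim N.f G i = N.drift (Sum.elim N.al al i) (Sum.elim N.a a i) := by
    rintro (v | x); exacts [fun h => (hN.drf v h).2, hdr x]
  have rF : ∀ (i) (H : Fn (Ix n)), (∀ v, i = .inl v → Rd v H) → Rd (E i) (res e H) := by
    rintro (v | x) H h b s y y' hy
    · exact h v rfl b s _ _ fun m hm => hy _ (ee v ▸ em hm)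
    · exact congrArg (H b s) (funext fun m => hy _ (el m x))
  obtain ⟨F, hF⟩ : ∃ F, F = Sum.elim N.f G := ⟨_, rfl⟩
  obtain ⟨AL, hAL⟩ : ∃ F, F = Sum.elim N.al al := ⟨_, rfl⟩
  obtain ⟨AA, hAA⟩ : ∃ F, F = Sum.elim N.a a := ⟨_, rfl⟩
  obtain ⟨DR, hDR⟩ : ∃ F, F = Sum.elim N.dr dr := ⟨_, rfl⟩
  simp only [← hF, ← hAL, ← hAA, ← hDR] at hpd hA bF oF fF vF nF dF ⊢
  have F1 : ∀ v, F (.inl v) = N.f v := fun v => by rw [hF]; rfl
  have F2 : ∀ v, AL (.inl v) = N.al v := fun v => by rw [hAL]; rfl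
  have F3 : ∀ v, AA (.inl v) = N.a v := fun v => by rw [hAA]; rfl
  have F4 : ∀ v, DR (.inl v) = N.dr v := fun v => by rw [hDR]; rfl
  let N' : Net n' :=
    { f := fun v => res e (F (E.symm v))
      al := fun v => res e (AL (E.symm v))
      a := fun v u => Sum.elim (fun u => res e (AA (E.symm v) u)) 0 (E.symm u)
      dr := fun v => DR (E.symm v)
      A := A'
      PD := of fun l m => pair β ν N.A 0 N.D (gs (F (E.symm l))) (fun p => dx p (F (E.symm l)))
        (gs (F (E.symm m))) (fun p => dx p (F (E.symm m))) N.PD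
      P1 := of fun i j => pair β ν N.A 0 1 (eal F AL (Sum.map E.symm E.symm i))
        (ea F AA (Sum.map E.symm E.symm i)) (eal F AL (Sum.map E.symm E.symm j))
        (ea F AA (Sum.map E.symm E.symm j)) N.P1 }
  have a1 : ∀ l u, N'.a l (e u) = res e (AA (E.symm l) u) := fun l u => by
    simp only [N', es, Sum.elim_inl]
  have a0 : ∀ l, ∀ u ∉ range e, N'.a l u = 0 := fun l u hu => by
    obtain ⟨x, hx⟩ := eo u hu
    simp only [N', hx, Sum.elim_inr, Pi.zero_apply]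
  have ac : ∀ {Q : Ix n' → Prop}, (∀ u, Q (e u)) → (∀ u ∉ range e, Q u) → ∀ u, Q u :=
    fun h1 h2 u => by
      by_cases h : u ∈ range e
      · obtain ⟨u, rfl⟩ := h; exact h1 u
      · exact h2 u h
  have b0 : BS (0 : Fn (Ix n')) := B'.const 0
  have pD : ∀ p q, N'.PD (e p) (e q) = N.PD p q := fun p q => by
    rw [hN.hD]; simp only [N', of_apply, es, F1]
  have m1 : ∀ p, eal F AL (Sum.map E.symm E.symm (Sum.map e e p)) = eal N.f N.al p := by
    rintro (p | p) <;> simp [eal, es, F1, F2]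
  have m2 : ∀ p, ea F AA (Sum.map E.symm E.symm (Sum.map e e p)) = ea N.f N.a p := by
    rintro (p | p) <;> ext1 (q | q) <;> simp [ea, es, F1, F3]
  have p1 : ∀ p q, N'.P1 (Sum.map e e p) (Sum.map e e q) = N.P1 p q := fun p q => by
    rw [hN.h1]; simp only [N', of_apply, m1, m2]
  have bD : BS N.D := B.sub (B.const 1) (B.pow 2 (B.th0 0))
  have rD : N'.D = res e N.D := by rw [Net.D, ← e0]; rfl
  have n1 : ∀ i, eal N'.f N'.al i = res e (eal F AL (Sum.map E.symm E.symm i)) := by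
    rintro (i | i) <;> rfl
  have n2 : ∀ i, BS (eal F AL i) := by rintro (i | i); exacts [B.gs (bF _), (fF _).bal]
  have n3 : ∀ i p, BS (ea F AA i p) := by
    rintro (i | i) (p | p); exacts [B.dx _ (bF _), B.const 0, B.const 0, ((fF _).ba _).1]
  have n4 : ∀ i p, ea N'.f N'.a i (Sum.map e e p) =
      res e (ea F AA (Sum.map E.symm E.symm i) p) := by
    rintro (i | i) (p | p); exacts [dx_in T ei (bF _) p, rfl, rfl, a1 _ _]
  have n5 : ∀ i, ∀ p ∉ range (Sum.map e e), ea N'.f N'.a i p = 0 := by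
    rintro (i | i) (p | p) hp
    exacts [dx_out T (bF _) fun ⟨v, h⟩ => hp ⟨.inl v, congrArg Sum.inl h⟩, rfl, rfl,
      a0 _ _ fun ⟨v, h⟩ => hp ⟨.inr v, congrArg Sum.inr h⟩]
  refine ⟨N', ⟨?_, fun l => bs_res T (e := e) (bF (E.symm l)), fun l => congrArg (res e) (oF _),
    fun l => ?_, fun l => ⟨bs_res T (e := e) (fF (E.symm l)).bal, congrArg (res e) (fF _).free,
      ac (fun u => ?_) fun u hu => ?_,
      ac (fun u hu => ?_) fun u hu _ => a0 l u hu⟩,
    fun l => ⟨congrArg (res e) (vF _).1, ac (fun u => ?_) fun u hu => ?_⟩, fun l => ?_,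
    fun l => ac (fun u hu => ?_) fun u hu _ => a0 l u hu,
    fun l hl => ⟨congrArg (res e) (nF _ hl).1, funext (ac (fun u => ?_) (a0 l))⟩,
    fun l hl => ⟨?_, ?_⟩, ?_, ?_, fun l m => ?_, fun i j => ?_⟩,
    ⟨em, e0, fun l => ?_, fun l => ?_, fun l u => ?_, fun l => a0 _, fun l => ?_, hS,
      Matrix.ext pD, Matrix.ext p1⟩, fun x => ?_, fun x => ?_, ?_, fun i j => ?_, fun i j => ?_⟩
  · change res e (F (E.symm 0)) = _
    rw [← e0, es, F1, hN.f0]; rfl
  · obtain ⟨i, rfl⟩ := E.surjective l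
    refine rF i _ ?_
    rintro v rfl
    rw [E.symm_apply_apply, F1]; exact hN.rd v
  · rw [a1]; exact ⟨bs_res T ((fF _).ba u).1, bs_res T (e := e) ((fF (E.symm l)).ba u).2⟩
  · rw [a0 l u hu, zero_mul]; exact ⟨b0, b0⟩
  · rw [a1, (fF _).nd u (by simpa only [N', es, F4] using hu)]; rfl
  · rw [a1]; exact congrArg (res e) ((vF _).2 u)
  · rw [a0 l u hu]; rfl
  · obtain ⟨i, rfl⟩ := E.surjective l
    refine ⟨rF i _ ?_, ac (fun u => ?_) fun u hu => ?_⟩
    · rintro v rfl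
      rw [E.symm_apply_apply, F2]; exact (hN.rd' v).1
    · rw [a1]
      refine rF i _ ?_
      rintro v rfl
      rw [E.symm_apply_apply, F3]; exact (hN.rd' v).2 u
    · rw [a0 _ u hu]; exact fun _ _ _ _ _ => rfl
  · obtain ⟨v | x, rfl⟩ := E.surjective l
    · rw [a1, E.symm_apply_apply, F3, hN.tri v u (em.le_iff_le.1 (ee v ▸ hu))]; rfl
    · exact absurd hu (el u x).not_ge
  · rw [a1, (nF _ hl).2]; rfl
  · obtain ⟨v | x, rfl⟩ := E.surjective l
    · rw [ee, ← e0]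
      exact em (hN.drf v (by simpa only [N', E.symm_apply_apply, F4] using hl)).1
    · exact e0 ▸ el 0 x
  · change res e (F _) = dft (A' * A'ᵀ) 0 (res e (AL _)) _
    rw [dF _ hl, ← e0, dft_res T ei (by simp) _ (fun p => ((fF _).ba p).1) (a1 l) (a0 l), hS]; rfl
  · change (A' * A'ᵀ).PosDef
    rw [hA]; exact hpd.submatrix E.symm.injective
  · change A' * A'ᵀ = _
    rw [hA]; ext l m
    change β ^ 2 * ∫ b, _ ∂ν = β ^ 2 * ∫ b, Eb A' 0 (res e (F _ * F _)) b -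
      Eb A' 0 (res e (F _)) b * Eb A' 0 (res e (F _)) b ∂ν
    rw [← e0, Eb_res T hS (B.mul (bF _) (bF _)), Eb_res T hS (bF _), Eb_res T hS (bF _)]; rfl
  · rw [rD, ← e0]
    exact (pair_res T hS β ν ei bD (B.gs (bF _)) (B.gs (bF _)) (fun p => B.dx p (bF _))
      (fun p => B.dx p (bF _)) (dx_in T ei (bF _)) (fun p => dx_out T (bF _)) (dx_in T ei (bF _))
      (fun p => dx_out T (bF _)) pD).symm
  · rw [n1, n1, ← e0]
    exact (pair_res T hS β ν (ei.sumMap ei) (d := 1) (B.const 1) (n2 _) (n2 _) (n3 _) (n3 _) (n4 i)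
      (n5 i) (n4 j) (n5 j) p1).symm
  · simp only [N', es, F1]
  · simp only [N', es, F2]
  · rw [a1, es, F3]
  · simp only [N', es, F4]
  · simp only [N', E.symm_apply_apply, hDR, Sum.elim_inr]
  · simp only [N', E.symm_apply_apply, hF, Sum.elim_inr]
  · change (A' * A'ᵀ).submatrix E E = _
    rw [hA]; simp
  · simp only [N', of_apply, E.symm_apply_apply]
  · simp only [N', of_apply, Sum.map_map, E.symm_comp_self, Sum.map_id_id, id]

end Crest.Agent.T157.Nt

end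
end

-- ▼ part T157/NetDict_89
section

/-!
# Row 157, block B/S3, section 7 (helper89): the dictionary and the first level
-/

set_option autoImplicit false
set_option linter.unusedSectionVars false

noncomputable section

namespace Crest.Agent.T157.Nt

open MeasureTheory ProbabilityTheory Matrix Real Set Filter Topology
open Crest.ProbabilityR.SpinGlassDynamics (spin)
open Crest.Agent.R238.Gap Crest.Agent.R253.Meh74
open Crest.Agent.T157.S3L (gm mdl)
open Crest.Agent.T157.Tw (sech2 Bath SV TwL admStmt Cls okStmt cal sS tS exS imS imp lev BM)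

namespace Dict89

lemma tm_eq (b x : ℝ) : tm (tanh b) x = tanh (b + x) := by
  have h1 := cosh_pos b
  have h2 := cosh_pos x
  have h3 := cosh_pos (b + x)
  rw [cosh_add] at h3
  simp only [tm, tanh_eq_sinh_div_cosh, sinh_add, cosh_add]
  field_simp

lemma hb_eq (h : ℝ) (s : Bool) : Tw.hb h s = (1 + spin s * tanh h) / 2 := S3L.Clt58.hb_eq h s

variable {K : Type} [Fintype K] {m : ℕ}

/-- the read-out as a continuous linear map -/
def rd (V : Matrix K (Fin m) ℝ) : E m →L[ℝ] K → ℝ :=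
  LinearMap.toContinuousLinearMap (V.mulVecLin ∘ₗ (WithLp.linearEquiv 2 ℝ (Fin m → ℝ)).toLinearMap)

lemma rd_apply (V : Matrix K (Fin m) ℝ) (X : E m) : rd V X = V *ᵥ X.ofLp := rfl

lemma sech2_pos (ξ : ℝ) : 0 < sech2 ξ := by
  have := cosh_pos ξ
  unfold sech2
  positivity

lemma bm_sech2 : BM sech2 := by
  have := (admStmt Bath.nil (Tw.sp _) (Tw.sp _)).1
  simpa only [(okStmt _ _).2.1] using this

variable (ν : Measure ℝ) [IsProbabilityMeasure ν]

/-- the mean of `sech²` -/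
def pbar : ℝ := ∫ b, sech2 b ∂ν

lemma pbar_pos : 0 < pbar ν :=
  (integral_pos_iff_support_of_nonneg (fun b => (sech2_pos b).le) (bm_sech2.int ν)).2 (by
    rw [eq_univ_of_forall (s := Function.support sech2) fun b => (sech2_pos b).ne']
    simp)

/-- the mean energy of the spin -/
def kap (b : Bath) : ℝ := ∫ ξ, (imp b ξ).En (Tw.sp _) (Tw.sp _) ∂ν

/-- the bath of the spin -/
def nx (b : Bath) : Bath := ⟨1, (kap ν b / pbar ν) • 1, fun _ => √(pbar ν),
  PosSemidef.one.smul (div_nonneg (integral_nonneg fun ξ => (okStmt b ξ).1.pE _) (pbar_pos ν).le)⟩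

lemma tw_nx {𝒞 : Cls} {β : ℝ} {b : Bath} (h : TwL admStmt 𝒞 β b) :
    TwL admStmt 𝒞 β ((nx ν b).scale β) := by
  have p0 := pbar_pos ν
  have q0 := sqrt_pos.2 p0
  have q1 := mul_self_sqrt p0.le
  have n1 : (lev admStmt 𝒞 ν b).N (lev admStmt 𝒞 ν b).σ (lev admStmt 𝒞 ν b).σ = pbar ν := by
    change ∫ ξ, (imp b ξ).N (Tw.sp _) (Tw.sp _) ∂ν = _
    simp only [(okStmt _ _).2.1, pbar]
  have n2 : (lev admStmt 𝒞 ν b).En (lev admStmt 𝒞 ν b).σ (lev admStmt 𝒞 ν b).σ = kap ν b := rfl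
  refine h.step ν (f := fun _ => (√(pbar ν))⁻¹ • (lev admStmt 𝒞 ν b).σ)
    ⟨fun (k l : Fin 1) => ?_, fun (k l : Fin 1) => ?_, fun _ => ?_⟩
  · refine Eq.trans ?_ (if_pos (Subsingleton.elim k l)).symm
    simp only [map_smul, LinearMap.smul_apply, smul_eq_mul, n1]
    field_simp
    linarith
  · obtain rfl := Subsingleton.elim k l
    simp only [map_smul, LinearMap.smul_apply, smul_eq_mul, n2, nx, Matrix.smul_apply, one_apply_eq]
    field_simp
    rw [sq, q1, mul_comm]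
  · simp only [map_smul, smul_eq_mul, n1, nx]
    field_simp
    linarith

lemma en_ss (b : Bath) (ξ : ℝ) : (imp b ξ).En (Tw.sp _) (Tw.sp _) = exS b ξ (1 - tS b ξ ^ 2) := by
  have h := cal.psi_ex b ξ (sS _)
  have e : Tw.psi b ξ (sS _) = 1 - tS b ξ ^ 2 := by
    simp only [Tw.psi, LinearMap.comp_apply, LinearMap.sub_apply, LinearMap.id_apply,
      AlgHom.toLinearMap_apply, cal.fls, LinearMap.mul_apply', sub_neg_eq_add, smul_mul_assoc,
      mul_assoc, mul_add, cal.ss, mul_one]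
    module
  rw [e] at h
  exact h.symm

lemma ext_id {n : ℕ} (N : Net n) : N.Ext N id :=
  ⟨strictMono_id, rfl, fun _ => rfl, fun _ => rfl, fun _ _ => rfl, fun _ u h => absurd ⟨u, rfl⟩ h,
    fun _ => Iff.rfl, rfl, rfl, by rw [Sum.map_id_id]; rfl⟩

lemma quad {R L : Type} [Fintype L] [DecidableEq L] {M : Matrix R L ℝ} (Q : Matrix L L ℝ) {o : L}
    {r : R → ℝ} (h : ∀ i, M i = Pi.single o (r i)) : M * Q * Mᵀ = of fun i j => r i * Q o o * r j := by
  ext i j
  simp [mul_apply, h, Pi.single_apply]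

/-- the trivial extension -/
def e0 (b : Bath) : Tw.Ext := ⟨b, b, 1, by simp, by simp, by simp⟩

end Dict89

open Dict89

theorem dictStmt : DictStmt := by
  intro K _ _ c V o hV
  refine ⟨fun κ _ A b G F hA hG h => ?_, fun G F k hG h s X => ?_, fun b s X => ?_⟩
  · change ∑ σ, _ = ∑ σ, Tw.hb b σ * ∫ z, F.1 σ (z + Tw.sg σ • c.v) ∂gam c.m
    refine Finset.sum_congr rfl fun σ _ => ?_
    have hc : Continuous fun z : E c.m => F.1 σ (z + Tw.sg σ • c.v) :=
      (F.2 σ).c1.cont.comp (by fun_prop)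
    rw [hb_eq, gm, S3L.Clt58.int_congr hA
      (F := fun x => G σ (spin σ • (fun l => (A * Aᵀ) l o) + x)) ((hG σ).comp (by fun_prop)).measurable,
      gam, ← map_pi_eq_stdGaussian, integral_map (by fun_prop) hc.aestronglyMeasurable]
    congr 2
    funext z
    have e : (fun l => (A * Aᵀ) l o) = V *ᵥ c.g := by
      funext l; rw [hA, ← hV]; rfl
    rw [e, ← mulVec_smul, ← mulVec_add, h, add_comm]
    rfl
  · have e : F.1 s = G s ∘ rd V := funext fun X' => (h s X'.ofLp).symm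
    change _ = fderiv ℝ (F.1 s) (WithLp.toLp 2 X) (Crest.Agent.R238.Gap.e k)
    rw [e, fderiv_comp _ (hG s _) (rd V).differentiableAt, (rd V).fderiv,
      ContinuousLinearMap.comp_apply]
    have e2 : rd V (Crest.Agent.R238.Gap.e k) = ∑ y, V y k • Pi.single y 1 := by
      ext y; simp [rd_apply, Finset.sum_apply, Pi.single_apply]
    rw [e2, map_sum]
    simp only [map_smul, smul_eq_mul]
    rfl
  · change tm (tanh b) ((V *ᵥ X) o) = tanh (b + inner ℝ c.v (WithLp.toLp 2 X))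
    rw [tm_eq, mulVec, hV]
    simp [Bath.v, PiLp.inner_apply, dotProduct, mul_comm]

theorem baseGlue : BaseGlue := by
  intro tl _ hd hf _ 𝒞 β hβ ν _
  set c : Bath := (nx ν Bath.nil).scale β with hc
  refine ⟨e0 ((nx ν c).scale β), tw_nx ν (tw_nx ν (.base .nil)), fun n N hN => ?_⟩
  have p0 := pbar_pos ν
  have q0 := sqrt_pos.2 p0
  have q1 := mul_self_sqrt p0.le
  have s0 : N.S 0 0 = β ^ 2 * pbar ν := (hf β ν n N hN).2.2.2
  have d0 : N.PD 0 0 = β ^ 2 * kap ν c := by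
    have e1 : gs (sp : Fn (Ix n)) = 1 := by funext b s x; simp [gs, sp, spin]
    rw [hN.hD, pair, hN.f0, e1]
    simp only [(tl.dx ℝ (Ix n)).sp, mul_zero, one_mul, mul_one, Ev, Eb, mdl, gm, Pi.zero_apply,
      integral_zero, Finset.sum_const_zero, zero_mul, add_zero]
    congr 2
    funext ξ
    rw [en_ss]
    have h1 := hd Unit c (of fun _ => c.g) () rfl
    rw [← h1.1 (Fin c.m) (of fun _ => c.g) ξ (fun _ x => 1 - tanh (ξ + x ()) ^ 2) _ rfl
      (fun _ => by have := Tw.contDiff_tanh'.continuous; fun_prop) (fun s X => by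
        have := h1.2.2 ξ s X
        beta_reduce at this ⊢
        rw [← tm_eq, this]; rfl),
      ← (tl.ex ℝ (Ix n) (Ix n)).pb N.A (of fun _ => c.g) (of fun _ => Pi.single 0 1) 0 () (tanh ξ) _ ?_
        rfl (fun _ => by have := Tw.contDiff_tanh'.continuous; fun_prop),
      ← (tl.ex ℝ (Ix n) (Ix n)).eq]
    · simp [mdl, gm, Net.D, th, mulVec]
    · refine Eq.trans ?_ (quad (r := fun _ => 1) (o := 0) _ fun _ => rfl).symm
      ext i j
      change ∑ _k : Fin 1, β * √(pbar ν) * (β * √(pbar ν)) = 1 * N.S 0 0 * 1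
      rw [s0, Fin.sum_univ_one]
      linear_combination β ^ 2 * q1
  obtain ⟨r, h1, h2⟩ : ∃ r : Rw 1 Empty → ℝ,
      (∀ i, Mm (of fun _ : Fin 1 => Pi.single 0 (√(pbar ν))⁻¹) (Empty.elim : Empty → Ix n) i =
        Pi.single 0 (r i)) ∧ ∀ i, Vm β (e0 ((nx ν c).scale β)) Empty.elim i =
        Pi.single (0 : Fin 1) (β * √(pbar ν) * r i) := by
    refine ⟨fun i => i.elim 1 fun _ => (√(pbar ν))⁻¹, ?_, ?_⟩
    · rintro (_ | k | t)
      exacts [rfl, rfl, t.elim]
    · rintro (_ | k | t)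
      · refine funext fun (l : Fin 1) => ?_
        obtain rfl := Subsingleton.elim 0 l
        exact (mul_one _).symm
      · obtain rfl := Subsingleton.elim (α := Fin 1) 0 k
        exact congrArg (Pi.single (0 : Fin 1)) (mul_inv_cancel_right₀ q0.ne' β).symm
      · exact t.elim
  refine ⟨n, id, of fun _ : Fin 1 => Pi.single 0 (√(pbar ν))⁻¹, Empty.elim, _, fun _ => N,
    fun _ => ⟨hN, ext_id N, fun t => t.elim⟩, ?_, ?_, tendsto_const_nhds, fun t => t.elim⟩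
  · refine tendsto_const_nhds.congr fun _ => ?_
    refine ((congrArg (· * _) (Matrix.mul_one _).symm).trans (quad 1 h2)).trans
      (Eq.trans ?_ (quad N.S h1).symm)
    ext i j
    change β * √(pbar ν) * r i * 1 * (β * √(pbar ν) * r j) = r i * N.S 0 0 * r j
    rw [s0]
    linear_combination (β ^ 2 * r i * r j) * q1
  · refine tendsto_const_nhds.congr fun _ => ?_
    refine (quad _ h2).trans (Eq.trans ?_ (quad N.PD h1).symm)
    ext i j
    change β * √(pbar ν) * r i * (kap ν c / pbar ν * 1) * (β * √(pbar ν) * r j) = r i * N.PD 0 0 * r j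
    rw [d0]
    field_simp
    rw [sq_sqrt p0.le]
    ring

end Crest.Agent.T157.Nt
end
end

-- ▼ part T157/NetTopA_91
section

/-!
# Row 157, block B/S3, section 7 (helper91): the top family, I. Families with a parameter
-/

set_option autoImplicit false
set_option linter.unusedSectionVars false

noncomputable section

namespace Crest.Agent.T157.Nt.Top91

open MeasureTheory Matrix Real Set Filter Topology
open Crest.ProbabilityR.SpinGlassDynamics (spin)
open Crest.Agent.T157.Tw (sech2)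

variable {J J' K T : Type} [Fintype K] [DecidableEq K] [Fintype T] [DecidableEq T]

/-- the data of the family -/
structure Dt (J K T : Type) where
  o : K
  τ : T → K
  Rm : Matrix T K ℝ
  c : ℝ
  a : ℝ
  η : J → ℝ
  A : J → Matrix K K ℝ
  m : J → ℝ
  H : Fj J T

namespace Dt

variable (d : Dt J K T)

def em (F : Fj J K) : J → ℝ := fun θ => mE (d.A θ) d.o (d.m θ) (F θ)
def S (x y : K) : J → ℝ := fun θ => (d.A θ * (d.A θ)ᵀ) x y
def tf : Fj J K := fun θ _ x => tm (d.m θ) (x d.o)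
def wf : Fj J K := fun θ _ x => wm (d.m θ) (x d.o)
def p0 : Fj J K := sp + pb d.Rm d.H
def ps : Fj J K := d.p0 - ∑ x, cb (d.em (dx x d.p0)) * co x
def r (t : T) : Fj J K := fun θ _ x => rr (d.η θ) (x (d.τ t))
def h (t : T) : Fj J K := d.c • pb d.Rm (dx t d.H)
def mt (t : T) : Fj J K :=
  cb (d.em (d.r t)) * (d.h t * d.r t) - cb (d.em (d.h t * d.r t)) * d.r t
def ρ : J → ℝ := d.em (d.wf * gs d.p0)
def q : J → ℝ := fun θ => d.ρ θ * (1 - d.m θ ^ 2)
def dv (u : K) (a : Fj J K) : Fj J K :=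
  a * (co u - cb (d.S d.o u) * sp) - ∑ p, cb (d.S u p) * dx p a
def R : Fj J K := (sp - d.tf) * gs d.ps + ∑ t, d.dv (d.τ t) (d.mt t) - d.a • d.ps -
  cb (fun θ => d.ρ θ + d.q θ * d.S d.o d.o θ - d.a) * sp + cb d.q * co d.o
def φ : K ⊕ T → Fj J K := Sum.elim (fun x => dx x d.ps) fun t => -d.mt t
def Q (PD : J → Matrix K K ℝ) (F : Fj J K) : J → ℝ := fun θ =>
  d.em ((1 - d.tf ^ 2) * gs F ^ 2) θ + ∑ x, ∑ y, d.em (dx x F * dx y F) θ * PD θ x y
def Vr (F : Fj J K) : J → ℝ := fun θ => d.em (F * F) θ - d.em F θ * d.em F θ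
def En (P : J → Matrix (K ⊕ T) (K ⊕ T) ℝ) : J → ℝ := fun θ =>
  ∑ i, ∑ j, d.em (d.φ i * d.φ j) θ * P θ i j

/-- continuity of the data -/
structure Ct [TopologicalSpace J] : Prop where
  η : Continuous d.η
  A : Continuous d.A
  m : Continuous d.m
  m1 : ∀ θ, |d.m θ| ≤ 1
  H : TS d.H

end Dt

lemma gs_ps (d : Dt J K T) : gs d.ps = gs d.p0 := by
  funext θ s x
  simp only [gs, Dt.ps, Pi.sub_apply, Finset.sum_apply, Pi.mul_apply, cb, co]
  ring

section ts
variable [TopologicalSpace J] [FirstCountableTopology J] (t : Tl) {d : Dt J K T} (hd : d.Ct)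
include t

omit [FirstCountableTopology J] in
lemma ts_one : TS (1 : Fj J K) := (t.ts J K).cb (c := fun _ => 1) continuous_const

omit [FirstCountableTopology J] in
lemma ts_neg {F : Fj J K} (hF : TS F) : TS (-F) := by
  rw [← neg_one_smul ℝ F]; exact (t.ts J K).smul _ hF

include hd

lemma c_em {F : Fj J K} (hF : C0 F) : Continuous (d.em F) :=
  (t.gc J K K d.o).1 d.A d.m F hd.A hd.m hF

lemma ts_em {F : Fj J K} (hF : TS F) : TS (cb (d.em F) : Fj J K) :=
  (t.ts J K).cb (c_em t hd ((t.ts J K).c0 hF))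

omit t [FirstCountableTopology J] [DecidableEq K] in
lemma c_S (x y : K) : Continuous (d.S x y) :=
  (hd.A.matrix_mul hd.A.matrix_transpose).matrix_elem x y

omit [FirstCountableTopology J] in
lemma ts_tf : TS d.tf := by
  have := (t.ts J K).tm hd.m hd.m1 (Pi.single d.o 1)
  simp only [single_dotProduct, one_mul] at this
  exact this

omit [FirstCountableTopology J] in
lemma ts_p0 : TS d.p0 := (t.ts J K).add (t.ts J K).sp ((t.ts J K).pb _ hd.H)

lemma ts_ps : TS d.ps := (t.ts J K).sub (ts_p0 t hd) ((t.ts J K).sum _ fun x _ =>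
  (t.ts J K).mul (ts_em t hd ((t.ts J K).dx x (ts_p0 t hd))) ((t.ts J K).co x))

omit [FirstCountableTopology J] in
lemma ts_r (u : T) : TS (d.r u) := (t.ts J K).rr hd.η _

omit [FirstCountableTopology J] in
lemma ts_h (u : T) : TS (d.h u) := (t.ts J K).smul _ ((t.ts J K).pb _ ((t.ts J T).dx u hd.H))

lemma ts_mt (u : T) : TS (d.mt u) :=
  have a := t.ts J K
  a.sub (a.mul (ts_em t hd (ts_r t hd u)) (a.mul (ts_h t hd u) (ts_r t hd u)))
    (a.mul (ts_em t hd (a.mul (ts_h t hd u) (ts_r t hd u))) (ts_r t hd u))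

lemma c_ρ : Continuous d.ρ :=
  have a := t.ts J K
  c_em t hd (a.c0mul (a.wm hd.m hd.m1 d.o) (a.c0 (a.gs (ts_p0 t hd))))

lemma c_q : Continuous d.q := (c_ρ t hd).mul (continuous_const.sub (hd.m.pow 2))

omit [FirstCountableTopology J] in
lemma ts_dv (u : K) {F : Fj J K} (hF : TS F) : TS (d.dv u F) :=
  have a := t.ts J K
  a.sub (a.mul hF (a.sub (a.co u) (a.mul (a.cb (c_S hd _ _)) a.sp)))
    (a.sum _ fun p _ => a.mul (a.cb (c_S hd _ _)) (a.dx p hF))

lemma ts_R : TS d.R :=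
  have a := t.ts J K
  a.add (a.sub (a.sub (a.add (a.mul (a.sub a.sp (ts_tf t hd)) (a.gs (ts_ps t hd)))
    (a.sum _ fun u _ => ts_dv t hd _ (ts_mt t hd u))) (a.smul _ (ts_ps t hd)))
    (a.mul (a.cb (((c_ρ t hd).add ((c_q t hd).mul (c_S hd _ _))).sub continuous_const)) a.sp))
    (a.mul (a.cb (c_q t hd)) (a.co _))

lemma ts_φ (i : K ⊕ T) : TS (d.φ i) := by
  cases i with
  | inl x => exact (t.ts J K).dx x (ts_ps t hd)
  | inr u => exact ts_neg t (ts_mt t hd u)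

lemma c_Q {PD : J → Matrix K K ℝ} (hP : Continuous PD) {F : Fj J K} (hF : TS F) :
    Continuous (d.Q PD F) :=
  have a := t.ts J K
  (c_em t hd (a.c0 (a.mul (a.sub (ts_one t) (a.pow 2 (ts_tf t hd))) (a.pow 2 (a.gs hF))))).add
    (continuous_finsetSum _ fun x _ => continuous_finsetSum _ fun y _ =>
      (c_em t hd (a.c0 (a.mul (a.dx x hF) (a.dx y hF)))).mul (hP.matrix_elem x y))

lemma c_Vr {F : Fj J K} (hF : TS F) : Continuous (d.Vr F) :=
  have a := t.ts J K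
  (c_em t hd (a.c0 (a.mul hF hF))).sub ((c_em t hd (a.c0 hF)).mul (c_em t hd (a.c0 hF)))

lemma c_En {P : J → Matrix (K ⊕ T) (K ⊕ T) ℝ} (hP : Continuous P) : Continuous (d.En P) :=
  have a := t.ts J K
  continuous_finsetSum _ fun i _ => continuous_finsetSum _ fun j _ =>
    (c_em t hd (a.c0 (a.mul (ts_φ t hd i) (ts_φ t hd j)))).mul (hP.matrix_elem i j)

/-! ### exact identities -/

omit [FirstCountableTopology J] in
lemma dx_p0 (x : K) : dx x d.p0 = ∑ u, d.Rm u x • pb d.Rm (dx u d.H) := by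
  have a := t.dx J K
  have b := a.pb d.Rm x ((t.ts J T).df hd.H)
  rw [Dt.p0, a.add x ((t.ts J K).df (t.ts J K).sp) b.1, a.sp, zero_add, b.2]

lemma dx_ps (x : K) : dx x d.ps = dx x d.p0 - cb (d.em (dx x d.p0)) := by
  have a := t.dx J K
  have b := t.ts J K
  have h : ∀ y, TS (cb (d.em (dx y d.p0)) * co y : Fj J K) := fun y =>
    b.mul (ts_em t hd (b.dx y (ts_p0 t hd))) (b.co y)
  rw [Dt.ps, a.sub x (b.df (ts_p0 t hd)) (b.df (b.sum _ fun y _ => h y)),
    a.sum x _ fun y _ => b.df (h y)]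
  simp only [a.cbm, a.co, mul_ite, mul_one, mul_zero, Finset.sum_ite_eq, Finset.mem_univ, if_true]

omit [FirstCountableTopology J] hd in
lemma em_cb (c : J → ℝ) (θ : J) : d.em (cb c) θ = c θ := (t.ex J K K).const _ _ _ _

lemma em_dx_ps (x : K) (θ : J) : d.em (dx x d.ps) θ = 0 := by
  have b := t.ts J K
  have h := b.dx x (ts_p0 t hd)
  rw [dx_ps t hd]
  refine ((t.ex J K K).sub _ _ _ θ (b.c0 h) (b.c0 (ts_em t hd h))).trans ?_
  exact sub_eq_zero.2 (em_cb t (d := d) (d.em (dx x d.p0)) θ).symm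

lemma em_mt (u : T) (θ : J) : d.em (d.mt u) θ = 0 := by
  have a := t.ts J K
  have e := t.ex J K K
  refine (e.sub _ _ _ θ (a.c0 (a.mul (ts_em t hd (ts_r t hd u)) (a.mul (ts_h t hd u) (ts_r t hd u))))
    (a.c0 (a.mul (ts_em t hd (a.mul (ts_h t hd u) (ts_r t hd u))) (ts_r t hd u)))).trans ?_
  rw [e.cbm, e.cbm]
  exact sub_eq_zero.2 (mul_comm _ _)

omit [FirstCountableTopology J] hd in
/-- linearity in the second factor -/
lemma em_lin {I : Type} [Fintype I] {F : Fj J K} {G : I → Fj J K} (hF : TS F) (hG : ∀ i, TS (G i))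
    (w : I → ℝ) (θ : J) : d.em (F * ∑ i, w i • G i) θ = ∑ i, w i * d.em (F * G i) θ := by
  have a := t.ts J K
  have e := t.ex J K K
  rw [Finset.mul_sum]
  refine (e.sum _ _ _ _ θ fun i _ => a.c0 (a.mul hF (a.smul _ (hG i)))).trans ?_
  refine Finset.sum_congr rfl fun i _ => ?_
  rw [mul_smul_comm]
  exact e.smul _ _ _ _ _ θ

end ts

/-! ### uniform closeness -/

/-- the point of `Im` attached to the static field -/
def ti (b : ℝ) : Im := ⟨tanh b, (neg_one_lt_tanh b).le, (tanh_lt_one b).le⟩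

lemma unif (t : Tl) {Θ : Type} [TopologicalSpace Θ] [FirstCountableTopology Θ] {Φ : Θ × Im → ℝ}
    (hΦ : Continuous Φ) (θ0 : Θ) {δ : ℝ} (hδ : 0 < δ) :
    ∀ᶠ θ in 𝓝 θ0, ∀ b, |Φ (θ, ti b) - Φ (θ0, ti b)| ≤ δ := by
  have e : ∀ b, projIcc (-1 : ℝ) 1 (by norm_num) (tanh b) = ti b := fun b => projIcc_of_mem _ _
  have h := ((t.gc Θ Unit Unit ()).2.1 (Measure.dirac 0) (fun θ m =>
    |Φ (θ, projIcc (-1) 1 (by norm_num) m) - Φ (θ0, projIcc (-1) 1 (by norm_num) m)|) (by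
      simp only [projIcc_val]
      exact (hΦ.sub (hΦ.comp (continuous_const.prodMk continuous_snd))).abs)).2.2 θ0 0 δ hδ
    fun b => by simp
  simpa only [e] using h

end Crest.Agent.T157.Nt.Top91

end
end

-- ▼ part T157/NetTopB_91
section

/-!
# Row 157, block B/S3, section 7 (helper91): the top family, II. The value at the limit point
-/

set_option autoImplicit false
set_option linter.unusedSectionVars false

noncomputable section

namespace Crest.Agent.T157.Nt.Top91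

open MeasureTheory Matrix Real Set Filter Topology
open Crest.ProbabilityR.SpinGlassDynamics (spin)
open Crest.Agent.T157.Tw (sech2 SV sS fl pull exS imS zS tS Irr cal)
open Crest.Agent.T157.Tw.Cal52

variable {J K : Type} [Fintype K] [DecidableEq K]

/-- discrete derivative in the smooth algebra -/
def gS {m : ℕ} (G : SV m) : SV m := (1 / 2 : ℝ) • (sS m * (G - fl m G))

lemma rp_gs {m : ℕ} {V : Matrix K (Fin m) ℝ} {F : Fj J K} {θ : J} {G : SV m} (h : Rp V (F θ) G) :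
    Rp V (gs F θ) (gS G) := fun s X => by
  simp only [gs, gS, h _ X, smul_ap, mul_ap, sub_ap, fl_ap, s_ap]
  cases s <;> simp only [sg_t, sg_f, Bool.not_true, Bool.not_false] <;> ring

lemma ou_pull (e : Tw.Ext) (Ξ : SV e.b.m) : Tw.ouS e.bt (pull e.ι (sS _ + Ξ)) =
    ∑ u, ∑ k, (e.bt.A * e.ι) k u •
      (zS e.bt k * pull e.ι (Tw.dd u Ξ) - Tw.dd k (pull e.ι (Tw.dd u Ξ))) := by
  have h : ∀ j, Tw.dd j (pull e.ι (sS _ + Ξ)) = ∑ u, e.ι j u • pull e.ι (Tw.dd u Ξ) := fun j => by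
    rw [cal.p_d]; simp only [map_add, ds, zero_add]
  rw [ou_eq, Finset.sum_comm (s := Finset.univ (α := Fin e.b.m))]
  refine Finset.sum_congr rfl fun k _ => ?_
  simp only [h, mul_apply, Finset.sum_smul]
  rw [Finset.sum_comm]
  refine Finset.sum_congr rfl fun j _ => ?_
  rw [Finset.mul_sum, map_sum, ← Finset.sum_sub_distrib, Finset.smul_sum]
  refine Finset.sum_congr rfl fun u _ => ?_
  rw [map_smul, mul_smul_comm, ← smul_sub, smul_smul]

/-- the limit point -/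
structure At (e : Tw.Ext) (d : Dt J K (Fin e.b.m)) (V : Matrix K (Fin e.bt.m) ℝ) (θ : J) (b : ℝ)
    (Ξ : SV e.b.m) : Prop where
  o : V d.o = e.bt.g
  τ : ∀ u k, d.c * V (d.τ u) k = (e.bt.A * e.ι) k u
  Rm : d.Rm * V = e.ιᵀ
  η : d.η θ = 0
  A : d.A θ * (d.A θ)ᵀ = V * Vᵀ
  m : d.m θ = tanh b
  H : ∀ s x, d.H θ s x = Ξ.1 s (WithLp.toLp 2 x)
  irr : Irr e.b b Ξ

/-- `q = E[(1 - t²) ∇ψ]` -/
lemma q_eq [TopologicalSpace J] {T : Type} [Fintype T] [DecidableEq T] (t : Tl) (d : Dt J K T)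
    {θ : J} {b : ℝ} (hm : d.m θ = tanh b) :
    d.q θ = d.em ((1 - d.tf ^ 2) * gs d.ps) θ ∧ d.q θ = d.ρ θ * sech2 b := by
  have e : d.q θ = d.ρ θ * sech2 b := by rw [Dt.q, hm, sech2_eq]
  refine ⟨?_, e⟩
  rw [e, mul_comm, gs_ps, Dt.ρ, Dt.em, ← (t.ex J K K).smul, Dt.em]
  congr 1
  funext s x
  simp only [Pi.smul_apply, Pi.mul_apply, Pi.sub_apply, Pi.pow_apply, Pi.one_apply, smul_eq_mul,
    Dt.wf, Dt.tf, hm, (t.ts J K).tm_eq, ← (t.ts J K).wm_eq]
  ring

section lim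
variable [TopologicalSpace J] [FirstCountableTopology J] (t : Tl) (hD : DictStmt) {e : Tw.Ext}
  {d : Dt J K (Fin e.b.m)} (hd : d.Ct) {V : Matrix K (Fin e.bt.m) ℝ} {θ : J} {b : ℝ}
  {Ξ : SV e.b.m} (h : At e d V θ b Ξ)
include h

lemma rp_pb {F : Fj J (Fin e.b.m)} {G : SV e.b.m}
    (hF : ∀ s x, F θ s x = G.1 s (WithLp.toLp 2 x)) : Rp V (pb d.Rm F θ) (pull e.ι G) :=
  fun s X => by
    simp only [pb, mulVec_mulVec, h.Rm, hF, pull_ap]
    rfl

lemma dx_H (u : Fin e.b.m) (s : Bool) (x : Fin e.b.m → ℝ) :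
    dx u d.H θ s x = (Tw.dd u Ξ).1 s (WithLp.toLp 2 x) := by
  have e1 : d.H θ s = Ξ.1 s ∘ (EuclideanSpace.equiv (Fin e.b.m) ℝ).symm := funext (h.H s)
  rw [dx, e1, ContinuousLinearEquiv.comp_right_fderiv]
  rfl

lemma S_at (x y : K) : d.S x y θ = ∑ k, V x k * V y k := by
  rw [Dt.S, h.A]; rfl

lemma rp_p0 : Rp V (d.p0 θ) (pull e.ι (sS _ + Ξ)) := fun s X => by
  rw [map_add, add_ap, ← rp_pb h h.H s X]
  rfl

lemma rp_h (u : Fin e.b.m) : Rp V (d.h u θ) (d.c • pull e.ι (Tw.dd u Ξ)) := fun s X => by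
  rw [smul_ap, ← rp_pb h (dx_H h u) s X]
  rfl

lemma r_one (u : Fin e.b.m) : d.r u θ = fun _ _ => 1 := by
  funext s x; simp [Dt.r, rr, h.η]

include t hD

lemma em_rp {F : Fj J K} {G : SV e.bt.m} (hF : TS F) (hG : Rp V (F θ) G) :
    d.em F θ = exS e.bt b G := by
  rw [Dt.em, h.m]
  exact (hD K e.bt V d.o h.o).1 K _ b _ G h.A (fun s => ((t.ts J K).df hF θ s).continuous) hG

omit t in
lemma rp_tf : Rp V (d.tf θ) (tS e.bt b) := by
  have := (hD K e.bt V d.o h.o).2.2 b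
  rw [← h.m] at this
  exact this

lemma rp_dx {F : Fj J K} {G : SV e.bt.m} (hF : TS F) (hG : Rp V (F θ) G) (k : Fin e.bt.m) :
    Rp V ((∑ y, V y k • dx y F) θ) (Tw.dd k G) := fun s X => by
  rw [← (hD K e.bt V d.o h.o).2.1 _ G k ((t.ts J K).df hF θ) hG s X]
  simp only [Finset.sum_apply, Pi.smul_apply, smul_eq_mul, dx]

lemma rp_dv (u : K) {F : Fj J K} {G : SV e.bt.m} (hF : TS F) (hG : Rp V (F θ) G) :
    Rp V (d.dv u F θ) (∑ k, V u k • (zS e.bt k * G - Tw.dd k G)) := fun s X => by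
  have h1 := fun k => rp_dx t hD h hF hG k s X
  simp only [Finset.sum_apply, Pi.smul_apply, smul_eq_mul] at h1
  simp only [sum_ap, smul_ap, sub_ap, mul_ap, z_ap, ← h1, ← hG s X, Dt.dv, Pi.sub_apply,
    Pi.mul_apply, Finset.sum_apply, cb, co, sp, S_at h, h.o]
  rw [show (V *ᵥ X) u = ∑ k, V u k * X k from rfl, show spin s = Tw.sg s from rfl]
  simp only [mul_sub, Finset.sum_sub_distrib, Finset.mul_sum, Finset.sum_mul]
  rw [Finset.sum_comm, ← Finset.sum_sub_distrib]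
  congr 1
  · exact Finset.sum_congr rfl fun k _ => by ring
  · exact Finset.sum_congr rfl fun k _ => Finset.sum_congr rfl fun y _ => by ring

lemma Q_rp {PD : J → Matrix K K ℝ} (hP : PD θ = V * e.bt.A * Vᵀ) (hd : d.Ct) {F : Fj J K}
    {G : SV e.bt.m} (hF : TS F) (hG : Rp V (F θ) G) : d.Q PD F θ = (imS e.bt b).En G G := by
  have a := t.ts J K
  rw [Dt.Q, En_eq]
  congr 1
  · rw [em_rp t hD h (G := (1 - tS e.bt b ^ 2) * gS G ^ 2)
      (a.mul (a.sub (ts_one t) (a.pow 2 (ts_tf t hd))) (a.pow 2 (a.gs hF))) fun s X => by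
        simp only [Pi.mul_apply, Pi.sub_apply, Pi.pow_apply, Pi.one_apply, mul_ap, sub_ap, sq_ap,
          one_ap, rp_gs hG s X, rp_tf hD h s X]]
    refine eq_cond _ _ fun X => ?_
    simp only [mul_ap, sub_ap, sq_ap, one_ap, gS, smul_ap, fl_ap, s_ap, t_ap, rs_ap, sg_t, sg_f,
      Bool.not_true, Bool.not_false]
    ring
  · have k1 : ∀ k, TS (∑ y, V y k • dx y F) := fun k => a.sum _ fun y _ => a.smul _ (a.dx y hF)
    have k2 : ∀ k l, exS e.bt b (Tw.dd k G * Tw.dd l G) =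
        ∑ y, V y l * ∑ x, V x k * d.em (dx y F * dx x F) θ := fun k l => by
      rw [← em_rp t hD h (a.mul (k1 k) (k1 l)) fun s X => by
        rw [mul_ap, ← rp_dx t hD h hF hG k s X, ← rp_dx t hD h hF hG l s X]; rfl,
        em_lin t (k1 k) fun y => a.dx y hF]
      refine Finset.sum_congr rfl fun y _ => ?_
      rw [mul_comm _ (dx y F), em_lin t (a.dx y hF) fun y => a.dx y hF]
    simp only [k2, hP, mul_apply, transpose_apply, Finset.mul_sum, Finset.sum_mul]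
    rw [Finset.sum_comm]
    conv_rhs => rw [Finset.sum_comm]; enter [2, l]; rw [Finset.sum_comm]
    conv_rhs => rw [Finset.sum_comm]; enter [2, y]; enter [2, l]; rw [Finset.sum_comm]
    conv_rhs => enter [2, y]; rw [Finset.sum_comm]
    refine Finset.sum_congr rfl fun y _ => Finset.sum_congr rfl fun x _ =>
      Finset.sum_congr rfl fun l _ => Finset.sum_congr rfl fun k _ => ?_
    rw [mul_comm (dx x F)]
    ring

lemma Vr_rp {F : Fj J K} {G : SV e.bt.m} (hF : TS F) (hG : Rp V (F θ) G) :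
    d.Vr F θ = (imS e.bt b).N G G := by
  rw [Dt.Vr, N_eq, em_rp t hD h hF hG, em_rp t hD h (G := G * G) ((t.ts J K).mul hF hF)
    fun s X => by rw [mul_ap, ← hG s X]; rfl]

include hd

lemma em_pb (u : Fin e.b.m) : d.em (pb d.Rm (dx u d.H)) θ = 0 := by
  rw [em_rp t hD h ((t.ts J K).pb _ ((t.ts J _).dx u hd.H)) (rp_pb h (dx_H h u)), cal.p_ex,
    h.irr.2.1]

lemma em_dx_p0 (x : K) : d.em (dx x d.p0) θ = 0 := by
  have := em_lin t (d := d) (ts_one t) (fun u => (t.ts J K).pb d.Rm ((t.ts J _).dx u hd.H))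
    (fun u => d.Rm u x) θ
  simp only [one_mul, em_pb t hD hd h, mul_zero, Finset.sum_const_zero] at this
  rw [dx_p0 t hd, this]

lemma ps_eq : d.ps θ = d.p0 θ := by
  funext s x
  simp [Dt.ps, Finset.sum_apply, cb, em_dx_p0 t hD hd h]

lemma mt_eq (u : Fin e.b.m) : d.mt u θ = d.h u θ := by
  have e1 : d.em (d.r u) θ = 1 := by rw [Dt.em, r_one h, (t.ex J K K).const]
  have e2 : d.em (d.h u * d.r u) θ = 0 := by
    have : (d.h u * d.r u) θ = d.h u θ := by funext s x; simp [r_one h]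
    rw [Dt.em, this, Dt.h, (t.ex J K K).smul]
    exact mul_eq_zero_of_right _ (em_pb t hD hd h u)
  funext s x
  simp [Dt.mt, cb, e1, e2, r_one h]

lemma rp_ps : Rp V (d.ps θ) (pull e.ι (sS _ + Ξ)) := ps_eq t hD hd h ▸ rp_p0 h

lemma q_at : d.q θ = (imS e.b b).En (sS _) (sS _ + Ξ) := by
  have a := t.ts J K
  rw [(q_eq t d h.m).1, em_rp t hD h (G := Tw.psi e.bt b (pull e.ι (sS _ + Ξ)))
    (a.mul (a.sub (ts_one t) (a.pow 2 (ts_tf t hd))) (a.gs (ts_ps t hd))) fun s X => by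
      simp only [Pi.mul_apply, Pi.sub_apply, Pi.pow_apply, Pi.one_apply,
        rp_gs (rp_ps t hD hd h) s X, rp_tf hD h s X, psi_ap, gS, smul_ap, mul_ap, sub_ap, fl_ap,
        s_ap, t_ap]
      ring, cal.psi_ex, ← cal.p_En]
  rfl

lemma rp_R : Rp V (d.R θ) (e.R d.a b Ξ - algebraMap ℝ _ (d.ρ θ * tanh b)) := fun s X => by
  have h1 : ∀ u, d.dv (d.τ u) (d.mt u) θ s (V *ᵥ X) = (∑ k, (e.bt.A * e.ι) k u •
      (zS e.bt k * pull e.ι (Tw.dd u Ξ) - Tw.dd k (pull e.ι (Tw.dd u Ξ)))).1 s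
        (WithLp.toLp 2 X) := fun u => by
    rw [rp_dv t hD h _ (ts_mt t hd u) (mt_eq t hD hd h u ▸ rp_h h u) s X]
    simp only [map_smul, mul_smul_comm, ← smul_sub, smul_smul, mul_comm _ d.c, h.τ]
  have h2 := rp_gs (rp_ps t hD hd h) s X
  have h3 := rp_ps t hD hd h s X
  have h4 := rp_tf hD h s X
  have h5 := q_at t hD hd h
  have h6 := (q_eq t d h.m).2
  have h7 : sech2 b ≠ 0 := by unfold sech2; have := cosh_pos b; positivity
  have h8 : (∑ j, e.bt.g j • zS e.bt j).1 s (WithLp.toLp 2 X) =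
      (V *ᵥ X) d.o - d.S d.o d.o θ * spin s := by
    simp only [sum_ap, smul_ap, z_ap, S_at h, h.o, mul_sub,
      Finset.sum_sub_distrib, Finset.sum_mul, mulVec, dotProduct, mul_assoc]
    rfl
  have h9 : (pull e.ι Ξ).1 s (WithLp.toLp 2 X) =
      (pull e.ι (sS _ + Ξ)).1 s (WithLp.toLp 2 X) - spin s := by
    rw [map_add, add_ap]; exact (add_sub_cancel_left _ _).symm
  simp only [Dt.R, Pi.add_apply, Pi.sub_apply, Pi.mul_apply, Pi.smul_apply, Finset.sum_apply,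
    h1, h2, h3, h4, ← sum_ap, ← ou_pull, Tw.Ext.R, gen_eq, sub_ap, add_ap, smul_ap, alg_ap, h8, h9,
    ← h5, rs_ap, gS, mul_ap, fl_ap, s_ap, t_ap, Tw.stS, cb, co, sp, smul_eq_mul, h6]
  rw [show spin s = Tw.sg s from rfl]
  field_simp
  cases s <;> simp only [sg_t, sg_f] <;> ring

lemma QR_at {PD : J → Matrix K K ℝ} (hP : PD θ = V * e.bt.A * Vᵀ) :
    d.Q PD d.R θ + d.Vr d.R θ = Tw.Mf e.bt b 1 (e.R d.a b Ξ) ∧ 0 ≤ d.Q PD d.R θ ∧
      0 ≤ d.Vr d.R θ := by
  rw [Q_rp t hD h hP hd (ts_R t hd) (rp_R t hD hd h), Vr_rp t hD h (ts_R t hd) (rp_R t hD hd h)]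
  refine ⟨?_, (ok _ _).pE _, (ok _ _).pN _⟩
  generalize e.R d.a b Ξ = G
  generalize d.ρ θ * tanh b = c
  have e1 : Tw.rsS e.bt b (G - algebraMap ℝ _ c) = Tw.rsS e.bt b G := ext' fun s X => by
    simp only [rs_ap, sub_ap, alg_ap]; ring
  have e2 : ∀ k, Tw.dd k (G - algebraMap ℝ _ c) = Tw.dd k G := fun k => by
    rw [map_sub, Algebra.algebraMap_eq_smul_one, map_smul, done, smul_zero, sub_zero]
  rw [Tw.Mf, En_eq, En_eq, N_eq, N_eq, e1]
  simp only [e2]
  simp only [Algebra.algebraMap_eq_smul_one, mul_sub, sub_mul, mul_smul_comm, smul_mul_assoc,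
    mul_one, one_mul, map_sub, map_smul, ex1, smul_eq_mul]
  ring

lemma Qψ_at {PD : J → Matrix K K ℝ} (hP : PD θ = V * e.bt.A * Vᵀ) :
    d.Q PD d.ps θ ≤ 2 * sech2 b + 2 * Tw.Mf e.b b 1 Ξ := by
  rw [Q_rp t hD h hP hd (ts_ps t hd) (rp_ps t hD hd h), cal.p_En, Tw.Mf]
  have a1 := (ok e.b b).pE (sS _ - Ξ)
  have a2 := (ok e.b b).pN Ξ
  have a3 := Es e.b b
  simp only [map_add, map_sub, LinearMap.add_apply, LinearMap.sub_apply] at a1 ⊢
  linarith

lemma En_at {P : J → Matrix (K ⊕ Fin e.b.m) (K ⊕ Fin e.b.m) ℝ}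
    (w : Fin e.b.m → K ⊕ Fin e.b.m → ℝ) (hw : ∀ u, P θ *ᵥ w u = 0)
    (h1 : ∀ u x, d.c * w u (.inl x) = d.Rm u x)
    (h2 : ∀ u u', w u (.inr u') = if u' = u then -1 else 0) : d.En P θ = 0 := by
  have k : ∀ j, d.φ j θ = (∑ u, w u j • d.h u) θ := fun j => by
    cases j with
    | inl x =>
      funext s y
      simp only [Dt.φ, Sum.elim_inl, dx_ps t hd, Pi.sub_apply, cb, em_dx_p0 t hD hd h, sub_zero]
      simp only [dx_p0 t hd, Finset.sum_apply, Dt.h, smul_smul, mul_comm _ d.c, h1]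
    | inr u =>
      simp only [h2, ite_smul, zero_smul, Finset.sum_ite_eq, Finset.mem_univ, if_true,
        neg_one_smul, Dt.φ, Sum.elim_inr, Pi.neg_apply, mt_eq t hD hd h]
  have k2 : ∀ i j, d.em (d.φ i * d.φ j) θ = ∑ u, w u j * d.em (d.φ i * d.h u) θ := fun i j => by
    rw [← em_lin t (ts_φ t hd i) (ts_h t hd), Dt.em, Dt.em, Pi.mul_apply, Pi.mul_apply, k j]
  simp only [Dt.En, k2, Finset.sum_mul]
  refine Finset.sum_eq_zero fun i _ => ?_
  rw [Finset.sum_comm]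
  refine Finset.sum_eq_zero fun u _ => ?_
  have := congrFun (hw u) i
  simp only [mulVec, dotProduct, Pi.zero_apply] at this
  calc _ = d.em (d.φ i * d.h u) θ * ∑ j, P θ i j * w u j := by
        rw [Finset.mul_sum]; exact Finset.sum_congr rfl fun j _ => by ring
    _ = 0 := by rw [this, mul_zero]

end lim

end Crest.Agent.T157.Nt.Top91

end
end

-- ▼ part T157/NetTopC_91
section

/-!
# Row 157, block B/S3, section 7 (helper91): the top family, III. Reading it back in a network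
-/

set_option autoImplicit false
set_option linter.unusedSectionVars false

noncomputable section

namespace Crest.Agent.T157.Nt.Top91

open MeasureTheory Matrix Real Set Filter Topology
open Crest.ProbabilityR.SpinGlassDynamics (spin)
open Crest.Agent.T157.Tw (sech2)

variable {J K L T : Type} [Fintype K] [DecidableEq K] [Fintype L] [DecidableEq L] [Fintype T]
  [DecidableEq T]

/-! ### reflection and read-out are ring maps -/

lemma rf_add (F G : Fn K) : rf (F + G) = rf F + rf G := rfl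
lemma rf_sub (F G : Fn K) : rf (F - G) = rf F - rf G := rfl
lemma rf_mul (F G : Fn K) : rf (F * G) = rf F * rf G := rfl
lemma rf_smul (c : ℝ) (F : Fn K) : rf (c • F) = c • rf F := rfl
lemma rf_sum {I : Type} (s : Finset I) (F : I → Fn K) : rf (∑ i ∈ s, F i) = ∑ i ∈ s, rf (F i) := by
  funext b σ x; simp only [rf, Finset.sum_apply]
lemma rf_pb (M : Matrix K L ℝ) (F : Fn K) : rf (pb M F) = pb M (rf F) := by
  funext b σ x; simp only [rf, pb, mulVec_neg]
lemma rf_sp : rf (sp : Fn K) = -sp := by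
  funext b σ x; cases σ <;> simp [rf, sp, spin]
lemma rf_co (x : K) : rf (co x : Fn K) = -co x := rfl

lemma pb_add (M : Matrix K L ℝ) (F G : Fj J K) : pb M (F + G) = pb M F + pb M G := rfl
lemma pb_sub (M : Matrix K L ℝ) (F G : Fj J K) : pb M (F - G) = pb M F - pb M G := rfl
lemma pb_mul (M : Matrix K L ℝ) (F G : Fj J K) : pb M (F * G) = pb M F * pb M G := rfl
lemma pb_neg (M : Matrix K L ℝ) (F : Fj J K) : pb M (-F) = -pb M F := rfl
lemma pb_smul (M : Matrix K L ℝ) (c : ℝ) (F : Fj J K) : pb M (c • F) = c • pb M F := rfl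
lemma pb_cb (M : Matrix K L ℝ) (c : J → ℝ) : pb M (cb c : Fj J K) = cb c := rfl
lemma pb_sp (M : Matrix K L ℝ) : pb M (sp : Fj J K) = sp := rfl
lemma pb_gs (M : Matrix K L ℝ) (F : Fj J K) : pb M (gs F) = gs (pb M F) := rfl
lemma pb_sum (M : Matrix K L ℝ) {I : Type} (s : Finset I) (F : I → Fj J K) :
    pb M (∑ i ∈ s, F i) = ∑ i ∈ s, pb M (F i) := by
  funext b σ x; simp only [pb, Finset.sum_apply]
lemma row {M : Matrix K L ℝ} {x : K} {l : L} (h : M x = Pi.single l 1) (y : L → ℝ) :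
    (M *ᵥ y) x = y l := by
  rw [mulVec, h, single_dotProduct, one_mul]
lemma pb_co' {M : Matrix K L ℝ} {x : K} {l : L} (h : M x = Pi.single l 1) :
    pb M (co x : Fj J K) = co l := by
  funext b σ y; exact row h y
lemma pb_th {M : Matrix K L ℝ} {x : K} {l : L} (h : M x = Pi.single l 1) :
    pb M (th x) = th l := by
  funext b σ y; simp only [pb, th, row h y]

lemma quad {I I' : Type} [Fintype I] [Fintype I'] (W : Matrix I I' ℝ) (P : Matrix I' I' ℝ)
    (c : I → I → ℝ) : ∑ p, ∑ q, (∑ j, W j q * ∑ i, W i p * c j i) * P p q =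
      ∑ i, ∑ j, c j i * (W * P * Wᵀ) i j := by
  simp only [mul_apply, transpose_apply, Finset.mul_sum, Finset.sum_mul]
  rw [Finset.sum_comm]
  conv_lhs => enter [2, q]; rw [Finset.sum_comm]; enter [2, j]; rw [Finset.sum_comm]
  conv_lhs => rw [Finset.sum_comm]; enter [2, j]; rw [Finset.sum_comm]
  rw [Finset.sum_comm]
  exact Finset.sum_congr rfl fun i _ => Finset.sum_congr rfl fun j _ =>
    Finset.sum_congr rfl fun q _ => Finset.sum_congr rfl fun p _ => by ring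

/-- the family at one value of the parameter, as a function of the static field -/
structure Re (d : Dt ℝ K T) (A : Matrix K K ℝ) (η : ℝ) : Prop where
  η0 : η ≠ 0
  η : d.η = fun _ => η
  A : d.A = fun _ => A
  m : d.m = tanh
  bs : BS d.H
  od : rf d.H = -d.H

section re
variable (t : Tl) {d : Dt ℝ K T} {A : Matrix K K ℝ} {η : ℝ} (h : Re d A η)
include t h

lemma Re.ct : d.Ct where
  η := h.η ▸ continuous_const
  A := h.A ▸ continuous_const
  m := h.m ▸ Tw.contDiff_tanh'.continuous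
  m1 := fun b => h.m ▸ (abs_tanh_lt_one b).le
  H := (t.bs T).ts h.bs

lemma em_eq (F : Fn K) : d.em F = Eb A d.o F := by
  funext b; rw [Dt.em, h.A, h.m, Eb, (t.ex ℝ K K).eq]

lemma tf_eq : d.tf = th d.o := by
  funext b s x; rw [Dt.tf, h.m, (t.ts ℝ K).tm_eq]; rfl

omit t in
lemma dv_eq (u : K) (F : Fn K) : d.dv u F = dl (A * Aᵀ) d.o u F := by
  funext b s x
  simp only [Dt.dv, dl, Dt.S, h.A, cb, Pi.sub_apply, Pi.mul_apply, Finset.sum_apply, Pi.smul_apply,
    smul_eq_mul]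

lemma em_rf {F : Fn K} (hF : rf F = F) (b : ℝ) : d.em F (-b) = d.em F b := by
  rw [Dt.em, Dt.em, h.A, h.m, tanh_neg, (t.ex ℝ K K).neg]
  conv_rhs => rw [← hF]
  rfl

lemma rf_em {F : Fn K} (hF : rf F = F) : rf (cb (d.em F) : Fn K) = cb (d.em F) := by
  funext b s x; exact em_rf t h hF b

omit t in
lemma od_p0 : rf d.p0 = -d.p0 := by
  rw [Dt.p0, rf_add, rf_sp, rf_pb, h.od, pb_neg, neg_add]

omit h in
lemma ev_dx {F : Fn L} (hF : Df F) (ho : rf F = -F) (x : L) : rf (dx x F) = dx x F := by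
  have := (t.bs L).rdx x hF
  rw [ho, ← neg_one_smul ℝ F, (t.dx ℝ L).smul, neg_one_smul, neg_inj] at this
  exact this.symm

lemma od_ps : rf d.ps = -d.ps := by
  have k := ev_dx t ((t.ts ℝ K).df (ts_p0 t (h.ct t))) (od_p0 h)
  rw [Dt.ps, rf_sub, od_p0 h, rf_sum]
  simp only [rf_mul, fun x => rf_em t h (k x), rf_co, mul_neg, Finset.sum_neg_distrib]
  ring

omit t h in
lemma ev_r (hη : d.η = fun _ => η) (u : T) : rf (d.r u) = d.r u := by
  funext b s x; simp [rf, Dt.r, hη, rr]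

lemma ev_mt (u : T) : rf (d.mt u) = d.mt u := by
  have k1 := ev_r h.η u
  have k2 : rf (d.h u * d.r u) = d.h u * d.r u := by
    rw [rf_mul, k1, Dt.h, rf_smul, rf_pb, ev_dx t ((t.bs T).df h.bs) h.od]
  rw [Dt.mt, rf_sub, rf_mul, rf_mul (cb _), rf_em t h k1, rf_em t h k2, k1, k2]

lemma ev_ρ (b : ℝ) : d.ρ (-b) = d.ρ b := by
  refine em_rf t h ?_ b
  have k1 : rf d.wf = d.wf := by
    funext b s x; simp [rf, Dt.wf, h.m, wm]
  have k2 := (t.bs K).rgs d.p0
  rw [od_p0 h] at k2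
  rw [rf_mul, k1, ← neg_inj.1 (show -gs d.p0 = -rf (gs d.p0) from k2 ▸ by
    funext b s x; simp only [gs, Pi.neg_apply]; ring)]

lemma bs_p0 : BS d.p0 := (t.bs K).add (t.bs K).sp ((t.bs K).pb _ h.bs)

lemma bs_r (u : T) : BS (d.r u) := by
  have := (t.bs K).rr η (d.τ u)
  unfold Dt.r; rw [h.η]; exact this

lemma bs_y (u : T) : BS (d.r u * co (d.τ u)) := by
  have := (t.bs K).yy η h.η0 (d.τ u)
  unfold Dt.r; rw [h.η]; exact this

lemma bs_h (u : T) : BS (d.h u) := (t.bs K).smul _ ((t.bs K).pb _ ((t.bs T).dx u h.bs))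

variable (hA : AvStmt)
include hA

lemma bs_em {F : Fn K} (hF : BS F) : BS (cb (d.em F) : Fn L) :=
  (t.bs L).cb (em_eq t h F ▸ (hA K K A d.o F hF).2.1)

lemma bs_mt (u : T) : BS (d.mt u) ∧ BS (d.mt u * co (d.τ u)) := by
  have a := t.bs K
  have k1 := bs_em (L := K) t h hA (bs_r t h u)
  have k2 := a.mul (bs_h t h u) (bs_r t h u)
  have k3 := bs_em (L := K) t h hA k2
  refine ⟨a.sub (a.mul k1 k2) (a.mul k3 (bs_r t h u)), ?_⟩
  have := a.sub (a.mul k1 (a.mul (bs_h t h u) (bs_y t h u))) (a.mul k3 (bs_y t h u))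
  convert this using 1
  rw [Dt.mt]; ring

lemma bs_ρ : BS (cb d.ρ : Fn L) := by
  have := (hA K K A d.o _ ((t.bs K).gs (bs_p0 t h))).2.2.1
  refine (t.bs L).cb (K := K) ?_
  rw [Dt.ρ, em_eq t h]
  convert this using 3
  funext b s x
  simp only [Dt.wf, h.m, Pi.mul_apply]

end re

/-- multipliers, placed at the drift nodes -/
def mN {n : ℕ} (d : Dt ℝ K T) (M : Matrix K (Ix n) ℝ) (u : T → Ix n) (v : Ix n) : Fn (Ix n) :=
  ∑ x, if u x = v then pb M (d.mt x) else 0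

section back
variable (t : Tl) {d : Dt ℝ K T} {A : Matrix K K ℝ} {η : ℝ} (h : Re d A η) {n : ℕ} {N : Net n}
  {M : Matrix K (Ix n) ℝ} {u : T → Ix n} (hS : A * Aᵀ = M * N.S * Mᵀ)
  (h0 : M d.o = Pi.single 0 1) (hu : ∀ x, M (d.τ x) = Pi.single (u x) 1)
include t h hS h0

lemma E_pb {F : Fn K} (hF : TS F) (b : ℝ) : N.E (pb M F) b = d.em F b := by
  rw [Net.E, Eb, (t.ex ℝ (Ix n) (Ix n)).eq, Dt.em, h.A, h.m]
  exact (t.ex ℝ (Ix n) (Ix n)).pb N.A A M 0 d.o _ (F b) hS h0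
    fun s => ((t.ts ℝ K).df hF b s).continuous.measurable

lemma E_quad {I I' : Type} [Fintype I] [Fintype I'] {Φ : I → Fn K} (hΦ : ∀ i, TS (Φ i))
    (W : Matrix I I' ℝ) (P : Matrix I' I' ℝ) {Ψ : I' → Fn (Ix n)}
    (hΨ : ∀ p, Ψ p = ∑ i, W i p • pb M (Φ i)) (b : ℝ) :
    ∑ p, ∑ q, N.E (Ψ p * Ψ q) b * P p q =
      ∑ i, ∑ j, d.em (Φ i * Φ j) b * (W * P * Wᵀ) i j := by
  have a := t.ts ℝ K
  have k1 : ∀ p, TS (∑ i, W i p • Φ i) := fun p => a.sum _ fun i _ => a.smul _ (hΦ i)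
  have k2 : ∀ p q, N.E (Ψ p * Ψ q) b = ∑ j, W j q * ∑ i, W i p * d.em (Φ j * Φ i) b :=
    fun p q => by
    have e : Ψ p * Ψ q = pb M ((∑ i, W i p • Φ i) * ∑ i, W i q • Φ i) := by
      simp only [hΨ, pb_mul, pb_sum, pb_smul]
    rw [e, E_pb t h hS h0 (a.mul (k1 p) (k1 q)), em_lin t (k1 p) hΦ]
    refine Finset.sum_congr rfl fun j _ => ?_
    rw [mul_comm _ (Φ j), em_lin t (hΦ j) hΦ]
  simp only [k2, quad]
  exact Finset.sum_congr rfl fun i _ => Finset.sum_congr rfl fun j _ => by rw [mul_comm (Φ j)]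

lemma Q_pb {F : Fn K} (hF : TS F) (b : ℝ) :
    N.Q (pb M F) b = d.Q (fun _ => M * N.PD * Mᵀ) F b := by
  have a := t.ts ℝ K
  rw [Net.Q, Dt.Q, E_quad t h hS h0 (fun x => a.dx x hF) M N.PD
    fun p => ((t.dx ℝ (Ix n)).pb M p (a.df hF)).2,
    ← E_pb t h hS h0 (a.mul (a.sub (ts_one t) (a.pow 2 (ts_tf t (h.ct t)))) (a.pow 2 (a.gs hF))),
    tf_eq t h, Net.D, ← pb_th h0]
  rfl

lemma Cv_pb {F : Fn K} (hF : TS F) (b : ℝ) : Cv N.A 0 (pb M F) (pb M F) b = d.Vr F b := by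
  rw [Dt.Vr, ← E_pb t h hS h0 hF, ← E_pb t h hS h0 ((t.ts ℝ K).mul hF hF)]
  rfl

omit t in
lemma S_eq (b : ℝ) : d.S d.o d.o b = N.S 0 0 := by
  rw [Dt.S, h.A, hS, mul_apply]
  simp only [transpose_apply, h0, mul_apply, Pi.single_apply, ite_mul, mul_ite, one_mul, mul_one,
    zero_mul, mul_zero, Finset.sum_ite_eq', Finset.mem_univ, if_true]

include hu

lemma R_pb : N.R d.a (pb M d.ps) (mN d M u) d.ρ = pb M d.R := by
  have a := t.ts ℝ K
  have a' := t.dx ℝ (Ix n)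
  have k : ∀ x, Df (pb M (d.mt x)) := fun x => (a'.pb M 0 (a.df (ts_mt t (h.ct t) x))).1
  have k1 : ∀ v, dl N.S 0 v (mN d M u v) =
      ∑ x, if u x = v then dl N.S 0 v (pb M (d.mt x)) else 0 := fun v => by
    rw [mN, ← Finset.sum_filter, ← Finset.sum_filter]
    simp only [dl, a'.sum _ _ fun x _ => k x, Finset.sum_mul, Finset.smul_sum,
      Finset.sum_sub_distrib]
    rw [Finset.sum_comm]
  have k2 : ∀ x, dl N.S 0 (u x) (pb M (d.mt x)) = pb M (d.dv (d.τ x) (d.mt x)) := fun x => by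
    rw [dv_eq h, hS]
    exact a'.dl M N.S 0 (u x) d.o (d.τ x) (by rw [Net.S, transpose_mul, transpose_transpose]) h0
      (hu x) (a.df (ts_mt t (h.ct t) x))
  have k3 : d.q = fun b => d.ρ b * sech2 b := funext fun b => (q_eq t d (congrFun h.m b)).2
  rw [Net.R, Net.drift, dft, Dt.R, k3]
  simp only [k1, S_eq h hS h0, pb_add, pb_sub, pb_mul, pb_smul, pb_sum, pb_cb, pb_sp, pb_gs,
    pb_co' h0, tf_eq t h, pb_th h0]
  rw [Finset.sum_comm]
  simp only [Finset.sum_ite_eq, Finset.mem_univ, if_true, k2]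

omit hS h0 in
lemma flw (hA : AvStmt) (hdr : ∀ x, N.dr (u x)) : N.Flw (gs (pb M d.ps)) (mN d M u) where
  bal := by
    rw [← pb_gs, gs_ps]
    exact (t.bs _).pb _ ((t.bs K).gs (bs_p0 t h))
  free := by funext b s x; simp [gs]
  ba := fun v => by
    have a := t.bs (Ix n)
    refine ⟨a.sum _ fun x _ => ?_, ?_⟩
    · split_ifs
      exacts [a.pb _ (bs_mt t h hA x).1, a.const 0]
    · rw [mN, Finset.sum_mul]
      refine a.sum _ fun x _ => ?_
      split_ifs with hx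
      · rw [← hx, ← pb_co' (hu x), ← pb_mul]; exact a.pb _ (bs_mt t h hA x).2
      · rw [zero_mul]; exact a.const 0
  nd := fun v hv => Finset.sum_eq_zero fun x _ => if_neg fun hx : u x = v => hv (hx ▸ hdr x)

omit hu in
lemma E_dx (v : Ix n) (b : ℝ) : N.E (dx v (pb M d.ps)) b = 0 := by
  have a := t.ts ℝ K
  have k := fun x => a.dx x (ts_ps t (h.ct t))
  have := em_lin t (d := d) (ts_one t) k (fun x => M x v) b
  simp only [one_mul, em_dx_ps t (h.ct t), mul_zero, Finset.sum_const_zero] at this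
  rw [((t.dx ℝ (Ix n)).pb M v (a.df (ts_ps t (h.ct t)))).2, ← this,
    ← E_pb t h hS h0 (a.sum _ fun x _ => a.smul _ (k x)), pb_sum]
  rfl

omit t h hS h0 hu in
lemma mN_eq (v : Ix n) : mN d M u v = ∑ x, (if u x = v then 1 else 0 : ℝ) • pb M (d.mt x) := by
  simp only [mN, ite_smul, one_smul, zero_smul]

omit hu in
lemma E_mN (v : Ix n) (b : ℝ) : N.E (mN d M u v) b = 0 := by
  have a := t.ts ℝ K
  have k := ts_mt t (h.ct t)
  have := em_lin t (d := d) (ts_one t) k (fun x => if u x = v then 1 else 0) b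
  simp only [one_mul, em_mt t (h.ct t), mul_zero, Finset.sum_const_zero] at this
  rw [← E_pb t h hS h0 (a.sum _ fun x _ => a.smul _ (k x)), pb_sum] at this
  rw [mN_eq]
  exact this

omit hu in
lemma hq_pb (b : ℝ) : d.ρ b * sech2 b = N.E (N.D * gs (pb M d.ps)) b := by
  have a := t.ts ℝ K
  have k := q_eq t d (congrFun h.m b)
  rw [← k.2, k.1, ← E_pb t h hS h0
    (a.mul (a.sub (ts_one t) (a.pow 2 (ts_tf t (h.ct t)))) (a.gs (ts_ps t (h.ct t)))),
    tf_eq t h, Net.D, ← pb_th h0]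
  rfl

omit hS h0 hu in
lemma lt_pb (hA : AvStmt) : LT (pb M d.ps : Fn (Ix n)) := by
  have a := t.bs (Ix n)
  refine ⟨pb M d.p0, fun l b => ∑ x, -M x l * d.em (dx x d.p0) b, a.pb _ (bs_p0 t h),
    fun l => ?_, ?_⟩
  · have := a.sum Finset.univ fun x _ => a.smul (-M x l)
      (bs_em (L := Ix n) t h hA ((t.bs K).dx x (bs_p0 t h)))
    convert this using 1
    funext b s y
    simp only [cb, Finset.sum_apply, Pi.smul_apply, smul_eq_mul]
  · funext b s y
    simp only [Dt.ps, pb, cb, co, Pi.sub_apply, Pi.add_apply, Finset.sum_apply, Pi.mul_apply,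
      mulVec, dotProduct, Finset.mul_sum, Finset.sum_mul]
    rw [Finset.sum_comm, sub_eq_add_neg, ← Finset.sum_neg_distrib]
    simp only [← Finset.sum_neg_distrib]
    congr 1
    exact Finset.sum_congr rfl fun l _ => Finset.sum_congr rfl fun x _ => by ring

/-- the centring of the gradient of the residual -/
lemma c3_pb (hA : AvStmt) (hdr : ∀ x, N.dr (u x)) {β : ℝ} {ν : Measure ℝ} [IsProbabilityMeasure ν]
    (hF : FactStmt) (hN : N.Ok β ν) (v : Ix n) (b : ℝ) :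
    N.E (dx v (N.R d.a (pb M d.ps) (mN d M u) d.ρ)) b = 0 := by
  obtain ⟨f1, -, -, f2⟩ := (hF β ν n N hN).1 _ _ (flw t h hu hA hdr)
  have a := t.ts ℝ (Ix n)
  have x := t.dx ℝ (Ix n)
  have e := t.ex ℝ (Ix n) (Ix n)
  have k1 := (t.bs _).ts f1
  have k2 : TS (pb M d.ps : Fn (Ix n)) := a.pb M (ts_ps t (h.ct t))
  have k3 : d.q = fun b => d.ρ b * sech2 b := funext fun b => (q_eq t d (congrFun h.m b)).2
  have c1 : Continuous fun b => d.ρ b * sech2 b := k3 ▸ c_q t (h.ct t)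
  have c2 : Continuous fun b => d.ρ b + d.ρ b * sech2 b * N.S 0 0 - d.a :=
    ((c_ρ t (h.ct t)).add (c1.mul continuous_const)).sub continuous_const
  have k4 := a.sub k1 (a.smul d.a k2)
  have k5 := a.mul (a.cb c2) a.sp
  have k6 : TS (if v = 0 then 1 else 0 : Fn (Ix n)) := by
    split_ifs
    exacts [ts_one t, a.cb (c := fun _ => 0) continuous_const]
  have f3 := f2 v b
  have f4 := E_dx t h hS h0 v b
  rw [E_mN t h hS h0, ← hq_pb t h hS h0] at f3
  rw [Net.R, x.add v (a.df (a.sub k4 k5)) (a.df (a.mul (a.cb c1) (a.co 0))),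
    x.sub v (a.df k4) (a.df k5), x.sub v (a.df k1) (a.df (a.smul _ k2)), x.smul, x.cbm, x.cbm,
    x.sp, x.co, mul_zero, sub_zero]
  rw [Net.E, Eb, e.eq] at f3 f4 ⊢
  rw [e.add _ _ _ b (a.c0 (a.sub (a.dx v k1) (a.smul _ (a.dx v k2)))) (a.c0 (a.mul (a.cb c1) k6)),
    e.sub _ _ _ b (a.c0 (a.dx v k1)) (a.c0 (a.smul _ (a.dx v k2))), e.smul, e.cbm, f3, f4]
  split_ifs
  · rw [show (1 : Fn (Ix n)) b = fun _ _ => 1 from rfl, e.const]; ring
  · rw [show (0 : Fn (Ix n)) b = fun _ _ => 0 from rfl, e.const]; ring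

end back

end Crest.Agent.T157.Nt.Top91

end
end

-- ▼ part T157/NetTop_91
section

/-!
# Row 157, block B/S3, section 7 (helper91): the top family, IV. `TopGlue`
-/

set_option autoImplicit false
set_option linter.unusedSectionVars false

noncomputable section

namespace Crest.Agent.T157.Nt

open MeasureTheory Matrix Real Set Filter Topology
open Crest.Agent.T157.Tw (sech2 SV Out2)

/-- `TopStmt` with the energy of the top family bounded through the energy of the ansatz -/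
def TopStmtX : Prop := ∀ β > (0 : ℝ), ∀ (ν : Measure ℝ) [IsProbabilityMeasure ν] (n : ℕ)
    (N : Net n) (e : Tw.Ext) (D : ℕ) (l a ε : ℝ) Ξ al0, 0 ≤ a → a < l → 0 < ε →
  Sim β ν N e _ id → Out2 e D l a ε Ξ al0 → ∀ δ > (0 : ℝ),
  ∃ (n' : ℕ) (N' : Net n') (ι : Ix n → Ix n'), N'.Ok β ν ∧ N.Ext N' ι ∧
    ∃ ψ m ρ, N'.Top l a (2 * ε) al0 ψ m ρ ∧
      ∀ b, N'.Q ψ b ≤ 2 * sech2 b + 2 * Tw.Mf e.b b 1 (Ξ b) + δ

namespace Top91

lemma hal_num {p S S0 ρ ρ0 a l δ ε al : ℝ} (p0 : 0 < p) (p1 : p ≤ 1) (hl : 0 < l) (ha : 0 ≤ a)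
    (h0 : l / 2 ≤ ρ0) (h1 : l / 4 ≤ ρ) (h2 : |ρ - ρ0| ≤ δ) (h3 : |S - S0| ≤ δ)
    (h4 : δ * (1 + 8 * a / l ^ 2) ≤ ε) (h5 : |1 / p + S0 - a / (ρ0 * p) - al| ≤ ε / p) :
    |1 / p + S - a / (ρ * p) - al| ≤ 2 * ε / p := by
  have r0 : 0 < ρ0 := by linarith
  have r1 : 0 < ρ := by linarith
  have d0 : 0 ≤ δ := (abs_nonneg _).trans h2
  have e : 1 / p + S - a / (ρ * p) - al = (1 / p + S0 - a / (ρ0 * p) - al) + (S - S0) +
      a / (ρ * ρ0) * (ρ - ρ0) / p := by field_simp; ring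
  have k1 : a / (ρ * ρ0) ≤ 8 * a / l ^ 2 := by
    rw [div_le_div_iff₀ (by positivity) (by positivity)]
    have := mul_le_mul h1 h0 (by positivity) r1.le
    nlinarith [mul_le_mul_of_nonneg_left this ha]
  have k2 : |a / (ρ * ρ0) * (ρ - ρ0) / p| ≤ 8 * a / l ^ 2 * δ / p := by
    rw [abs_div, abs_of_pos p0, abs_mul, abs_of_nonneg (by positivity)]
    exact div_le_div_of_nonneg_right (mul_le_mul k1 h2 (abs_nonneg _) (by positivity)) p0.le
  have k3 : δ ≤ δ / p := le_div_self d0 p0 p1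
  have k4 : δ / p + 8 * a / l ^ 2 * δ / p ≤ ε / p := by
    rw [← add_div]; exact div_le_div_of_nonneg_right (by linarith) p0.le
  rw [e, mul_div_assoc 2]
  refine (abs_add_le _ _).trans ((add_le_add (abs_add_le _ _) k2).trans ?_)
  linarith

abbrev Th (K T : Type) : Type := ℝ × Matrix K K ℝ × Matrix K K ℝ × Matrix (K ⊕ T) (K ⊕ T) ℝ

instance {K L : Type} [Fintype K] [Fintype L] : FirstCountableTopology (Matrix K L ℝ) :=
  inferInstanceAs (FirstCountableTopology (K → L → ℝ))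

/-- the family -/
def fam (β a : ℝ) (e : Tw.Ext) (G : ℝ → Fn (Fin e.b.m)) :
    Dt (Th (Rw e.bt.m (Fin e.b.m)) (Fin e.b.m) × Im) (Rw e.bt.m (Fin e.b.m)) (Fin e.b.m) where
  o := none
  τ := fun x => some (.inr x)
  Rm := of fun x y => β⁻¹ * nv e id x (.inl y)
  c := β⁻¹
  a := a
  η := fun p => p.1.1
  A := fun p => p.1.2.1
  m := fun p => p.2.1
  H := fun p => G p.1.1 p.2.1

/-- the family at one value of the parameter -/
def Dt.rd {Θ K T : Type} (d : Dt (Θ × Im) K T) (θ : Θ) : Dt ℝ K T :=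
  ⟨d.o, d.τ, d.Rm, d.c, d.a, fun b => d.η (θ, ti b), fun b => d.A (θ, ti b), fun b => d.m (θ, ti b),
    fun b => d.H (θ, ti b)⟩

section rd
variable {Θ K T : Type} [Fintype K] [DecidableEq K] [Fintype T] [DecidableEq T]
  (d : Dt (Θ × Im) K T) (θ : Θ)

lemma rd_ps : (d.rd θ).ps = fun b => d.ps (θ, ti b) := by
  funext b s x
  simp only [Dt.ps, Pi.sub_apply, Finset.sum_apply]
  rfl

lemma rd_dv (u : K) (F : Fj (Θ × Im) K) :
    (d.rd θ).dv u (fun b => F (θ, ti b)) = fun b => d.dv u F (θ, ti b) := by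
  funext b s x
  simp only [Dt.dv, Pi.sub_apply, Finset.sum_apply]
  rfl

lemma rd_R : (d.rd θ).R = fun b => d.R (θ, ti b) := by
  have k : ∀ u, (d.rd θ).dv ((d.rd θ).τ u) ((d.rd θ).mt u) =
      fun b => d.dv (d.τ u) (d.mt u) (θ, ti b) := fun u => rd_dv d θ (d.τ u) (d.mt u)
  funext b s x
  simp only [Dt.R, Pi.sub_apply, Pi.add_apply, Finset.sum_apply, rd_ps, k]
  rfl

lemma rd_Q (PD : Θ × Im → Matrix K K ℝ) (F : Fj (Θ × Im) K) (b : ℝ) :
    (d.rd θ).Q (fun _ => PD (θ, ti b)) (fun b => F (θ, ti b)) b = d.Q PD F (θ, ti b) := rfl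

lemma rd_Vr (F : Fj (Θ × Im) K) (b : ℝ) :
    (d.rd θ).Vr (fun b => F (θ, ti b)) b = d.Vr F (θ, ti b) := rfl

lemma rd_En (P : Θ × Im → Matrix (K ⊕ T) (K ⊕ T) ℝ) (b : ℝ) :
    (d.rd θ).En (fun _ => P (θ, ti b)) b = d.En P (θ, ti b) := by
  have k : ∀ i, (d.rd θ).φ i = fun b => d.φ i (θ, ti b) := fun i => by
    cases i with
    | inl x => simp only [Dt.φ, Sum.elim_inl, rd_ps]; rfl
    | inr x => rfl
  simp only [Dt.En, k]
  rfl

end rd

lemma fam_ct (t : Tl) (β a : ℝ) {e : Tw.Ext} {G : ℝ → Fn (Fin e.b.m)} (hG : TS (up G)) :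
    (fam β a e G).Ct where
  η := by unfold fam; fun_prop
  A := by unfold fam; fun_prop
  m := by unfold fam; fun_prop
  m1 := fun p => abs_le.2 p.2.2
  H := (t.ts _ _).re (φ := fun p : Th _ _ × Im => (p.1.1, p.2)) (by fun_prop) hG

lemma fam_at {β : ℝ} (hβ : 0 < β) (a : ℝ) {e : Tw.Ext} {G : ℝ → Fn (Fin e.b.m)} {b : ℝ}
    {Ξ : SV e.b.m} (h0 : ∀ s x, G 0 (tanh b) s x = Ξ.1 s (WithLp.toLp 2 x)) (hI : Tw.Irr e.b b Ξ)
    {A0 : Matrix _ _ ℝ} (hA : A0 * A0ᵀ = Vm β e id * (Vm β e id)ᵀ) (PD P) :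
    At e (fam β a e G) (Vm β e id) ((0, A0, PD, P), ti b) b Ξ where
  o := rfl
  τ := fun u k => inv_mul_cancel_left₀ hβ.ne' _
  Rm := by
    ext x k
    simp [fam, mul_apply, Fintype.sum_option, Fintype.sum_sum_type, nv, Vm, Pi.single_apply]
    field_simp
  η := rfl
  A := hA
  m := rfl
  H := h0
  irr := hI

lemma gg (e : Tw.Ext) : e.bt.g ⬝ᵥ e.bt.g = e.b.g ⬝ᵥ e.b.g := by
  rw [e.hg, dotProduct_mulVec, ← mulVec_transpose, mulVec_mulVec, e.iso, one_mulVec]

end Top91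

open Top91 in
theorem topX (t : Tl) (hF : Tw.FamApi) (hA : AvStmt) (hC : CutStmt) (hD : DictStmt)
    (hFa : FactStmt) : TopStmtX := by
  intro β hβ ν _ n N e D l a ε Ξ al0 ha hal hε hS hO δ0 hδ0
  obtain ⟨n', ι, M, u, P, Ns, hN, l1, l2, l3, hP⟩ := hS
  obtain ⟨A, A0, hAj, hA0, lA⟩ := (t.gc Unit _ Unit none).2.2.2 _ _ (fun j => by
    have := (hN j).1.pd.posSemidef.mul_mul_conjTranspose_same (Mm M u)
    rwa [conjTranspose_eq_transpose_of_trivial] at this) l1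
  obtain ⟨G, hG, hodd, h0⟩ := hC e.b Ξ (hF.le _ hO.1.1) hO.1.2.1
  have hl : 0 < l := by linarith
  obtain ⟨δ, d0, d1, d2, d3, d4⟩ : ∃ δ > (0 : ℝ), δ ≤ δ0 ∧ δ ≤ 1 ∧ δ ≤ l / 4 ∧
      δ * (1 + 8 * a / l ^ 2) ≤ ε := by
    refine ⟨min (min δ0 1) (min (l / 4) (ε / (1 + 8 * a / l ^ 2))), by positivity,
      (min_le_left _ _).trans (min_le_left _ _), (min_le_left _ _).trans (min_le_right _ _),
      (min_le_right _ _).trans (min_le_left _ _), ?_⟩
    rw [← le_div_iff₀ (by positivity)]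
    exact (min_le_right _ _).trans (min_le_right _ _)
  have d5 : δ ≤ ε := by
    have : 0 ≤ δ * (8 * a / l ^ 2) := by positivity
    linarith
  set d := fam β a e G with hdd
  have hd : d.Ct := fam_ct t β a hG.1
  set θ0 : Th _ _ := (0, A0, Vm β e id * e.bt.A * (Vm β e id)ᵀ, P) with hθ0
  have hat : ∀ b, At e d (Vm β e id) (θ0, ti b) b (Ξ b) := fun b =>
    fam_at hβ a (h0 b) (hO.2 b).1 hA0 _ _
  have cP : Continuous fun p : Th (Rw e.bt.m (Fin e.b.m)) (Fin e.b.m) × Im => p.1.2.2.1 := by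
    fun_prop
  have cP' : Continuous fun p : Th (Rw e.bt.m (Fin e.b.m)) (Fin e.b.m) × Im => p.1.2.2.2 := by
    fun_prop
  have lim : Tendsto (fun j : ℕ => ((1 / ((j : ℝ) + 1), A j, Mm M u * (Ns j).PD * (Mm M u)ᵀ,
      Mh M u * (Ns j).P1 * (Mh M u)ᵀ) : Th _ _)) atTop (𝓝 θ0) :=
    tendsto_one_div_add_atTop_nhds_zero_nat.prodMk_nhds (lA.prodMk_nhds (l2.prodMk_nhds l3))
  obtain ⟨j, u1, u2, u3, u4, u5, u6⟩ := (lim.eventually ((unif t (c_En t hd cP') θ0 d0).and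
    ((unif t (c_ρ t hd) θ0 d0).and ((unif t (c_Q t hd cP (ts_R t hd)) θ0 d0).and
    ((unif t (c_Vr t hd (ts_R t hd)) θ0 d0).and ((unif t (c_Q t hd cP (ts_ps t hd)) θ0 d0).and
    (unif t (c_S hd d.o d.o) θ0 d0))))))).exists
  set θ : Th _ _ := (1 / ((j : ℝ) + 1), A j, Mm M u * (Ns j).PD * (Mm M u)ᵀ,
      Mh M u * (Ns j).P1 * (Mh M u)ᵀ) with hθ
  have hη : 1 / ((j : ℝ) + 1) ≠ 0 := by positivity
  have h : Re (d.rd θ) (A j) (1 / ((j : ℝ) + 1)) := ⟨hη, rfl, rfl, rfl, hG.2 _ hη, by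
    funext b s x
    have := congrFun (congrFun (congrFun (hodd (1 / ((j : ℝ) + 1))) (tanh b)) s) x
    exact (congrArg (fun m => G _ m (!s) (-x)) (tanh_neg b)).trans this⟩
  have hS := hAj j
  have m0 : Mm M u (d.rd θ).o = Pi.single 0 1 := rfl
  have mu : ∀ x, Mm M u ((d.rd θ).τ x) = Pi.single (u x) 1 := fun _ => rfl
  have hdr := (hN j).2.2
  have p0 : ∀ b, 0 < sech2 b := fun b => by unfold sech2; have := cosh_pos b; positivity
  have p1 : ∀ b, sech2 b ≤ 1 := fun b => by rw [Tw.Cal52.sech2_eq]; nlinarith [sq_nonneg (tanh b)]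
  have q0 : ∀ b, (Tw.imS e.b b).En (Tw.sS _) (Tw.sS _ + Ξ b) = d.ρ (θ0, ti b) * sech2 b :=
    fun b => (q_at t hD hd (hat b)).symm.trans (q_eq t d (hat b).m).2
  have r0 : ∀ b, l / 2 ≤ d.ρ (θ0, ti b) ∧ d.ρ (θ0, ti b) ≤ 2 := fun b => by
    obtain ⟨-, -, -, -, k1, k2, -⟩ := hO.2 b
    rw [q0] at k1 k2
    exact ⟨le_of_mul_le_mul_right (by linarith) (p0 b), le_of_mul_le_mul_right k2 (p0 b)⟩
  have r1 : ∀ b, l / 4 ≤ d.ρ (θ, ti b) ∧ d.ρ (θ, ti b) ≤ 3 := fun b => by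
    have := abs_le.1 (u2 b)
    exact ⟨by linarith [(r0 b).1], by linarith [(r0 b).2]⟩
  have hQ : ∀ b, (Ns j).Q (pb (Mm M u) (d.rd θ).ps) b ≤
      2 * sech2 b + 2 * Tw.Mf e.b b 1 (Ξ b) + δ := fun b => by
    have k1 := Qψ_at t hD hd (hat b) (PD := fun p => p.1.2.2.1) rfl
    have k2 := (abs_le.1 (u5 b)).2
    rw [Q_pb t h hS m0 (ts_ps t (h.ct t)), rd_ps]
    exact (rd_Q d θ (fun p => p.1.2.2.1) _ b).trans_le (by linarith)
  have hR := fun b => QR_at t hD hd (hat b) (PD := fun p => p.1.2.2.1) rfl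
  refine ⟨n', Ns j, ι, (hN j).1, (hN j).2.1, pb (Mm M u) (d.rd θ).ps, mN (d.rd θ) (Mm M u) u,
    (d.rd θ).ρ, ⟨lt_pb t h hA, by rw [rf_pb, od_ps t h, pb_neg], flw t h mu hA hdr, fun v => ?_,
      E_dx t h hS m0, E_mN t h hS m0, fun b => ?_, bs_ρ t h hA, fun b => ⟨ev_ρ t h b, r1 b⟩,
      hq_pb t h hS m0, c3_pb t h hS m0 mu hA hdr hFa (hN j).1, fun b => ?_, fun b => ?_,
      fun b => ?_, fun b => ?_⟩, fun b => (hQ b).trans (by linarith)⟩
  · simp only [mN_eq, rf_sum, rf_smul, rf_pb, ev_mt t h]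
  · rw [E_quad t h hS m0 (ts_φ t (h.ct t)) (Mh M u) (Ns j).P1 fun p => ?_]
    · have k1 := En_at t hD hd (hat b) (P := fun p => p.1.2.2.2) (nv e id) hP (fun _ _ => rfl)
        fun _ _ => rfl
      have k2 := (abs_le.1 (u1 b)).2
      exact (rd_En d θ (fun p => p.1.2.2.2) b).trans_le (by linarith)
    · rw [Fintype.sum_sum_type]
      cases p with
      | inl v =>
        simp only [Sum.elim_inl, Mh, Pi.zero_apply, zero_smul, Finset.sum_const_zero, add_zero]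
        exact ((t.dx ℝ _).pb _ v ((t.ts ℝ _).df (ts_ps t (h.ct t)))).2
      | inr v =>
        simp only [Sum.elim_inr, Mh, Pi.zero_apply, zero_smul, Finset.sum_const_zero, zero_add,
          mN_eq, Dt.φ, pb_neg, smul_neg, Finset.sum_neg_distrib, Pi.single_apply, eq_comm]
  · have k2 := (abs_le.1 (u3 b)).2
    have k3 := (hO.2 b).2.2.1
    obtain ⟨k4, k5, k6⟩ := hR b
    refine (congrArg (fun F => (Ns j).Q F b) (R_pb t h hS m0 mu)).trans_le ?_
    rw [Q_pb t h hS m0 (ts_R t (h.ct t)), rd_R]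
    rw [show d.a = a from rfl] at k4
    exact (rd_Q d θ (fun p => p.1.2.2.1) _ b).trans_le (by linarith)
  · have k2 := (abs_le.1 (u4 b)).2
    have k3 := (hO.2 b).2.2.1
    obtain ⟨k4, k5, k6⟩ := hR b
    refine (congrArg (fun F => Cv (Ns j).A 0 F F b) (R_pb t h hS m0 mu)).trans_le ?_
    rw [Cv_pb t h hS m0 (ts_R t (h.ct t)), rd_R, rd_Vr]
    rw [show d.a = a from rfl] at k4
    linarith
  · have k1 := (hO.2 b).2.2.2.1
    have e1 : 16 * (1 + a) / (l - a) = 2 * (8 * (1 + a) / (l - a)) := by ring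
    linarith [hQ b, p1 b]
  · have k1 := (hO.2 b).2.2.2.2.2.2
    have k2 : d.S d.o d.o (θ0, ti b) = e.b.g ⬝ᵥ e.b.g := (S_at (hat b) _ _).trans (gg e)
    rw [q0, ← k2] at k1
    rw [← S_eq h hS m0 b]
    exact hal_num (p0 b) (p1 b) hl ha (r0 b).1 (r1 b).1 (u2 b) (u6 b) d4 k1


theorem topGlueW : TopGlueW :=
    fun t hF hA hC hD hFa β hβ ν _ n N e D l a ε Ξ al0 ha hal hε hS hO hM => by
  obtain ⟨n', N', ι, h1, h2, ψ, m, ρ, h3, h4⟩ :=
    topX t hF hA hC hD hFa β hβ ν n N e D l a ε Ξ al0 ha hal hε hS hO ε hε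
  refine ⟨n', N', ι, h1, h2, ψ, m, ρ, h3, fun b => (h4 b).trans ?_⟩
  have k : 0 ≤ 4 / (l - a) ^ 2 * ε := by positivity
  have e1 : 8 / (l - a) ^ 2 = 2 * (4 / (l - a) ^ 2) := by ring
  rw [e1]
  nlinarith [hM b]

end Crest.Agent.T157.Nt

end
end

-- ▼ part T157/NetMov_87
section

/-!
# Row 157, block B/S3, section 7 (helper87): `Nt.MovGlue`, `Nt.SymGlue`

Expectation toolbox at a fixed static field, moving a divergence, symmetrisation of a flow.
-/

set_option autoImplicit false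
set_option linter.unusedVariables false
set_option linter.unusedSectionVars false
set_option linter.unusedSimpArgs false

noncomputable section

namespace Crest.Agent.T157.Nt

open MeasureTheory Matrix Real Set Filter Topology
open Crest.ProbabilityR.SpinGlassDynamics (spin)
open Crest.Agent.T157.S3L (gm mdl)
open Crest.Agent.T157.Tw (sech2 Cls PV lam)

namespace Mov87

lemma spin_t : spin true = 1 := by simp [spin]
lemma spin_f : spin false = -1 := by simp [spin]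
lemma spin_not (s : Bool) : spin (!s) = -spin s := by cases s <;> simp [spin]
lemma abs_tanh (b : ℝ) : |tanh b| ≤ 1 := (abs_tanh_lt_one b).le

lemma sech2_eq (z : ℝ) : sech2 z = 1 - tanh z ^ 2 := by
  have h := cosh_pos z
  have h2 := cosh_sq_sub_sinh_sq z
  unfold sech2
  rw [tanh_eq_sinh_div_cosh]
  field_simp
  linarith

lemma sech2_nn (z : ℝ) : 0 ≤ sech2 z := by unfold sech2; positivity
lemma sech2_le (z : ℝ) : sech2 z ≤ 1 := by rw [sech2_eq]; nlinarith [sq_nonneg (tanh z)]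
lemma sech2_neg (z : ℝ) : sech2 (-z) = sech2 z := by simp [sech2]

section box
variable {K κ : Type} [Fintype K] [DecidableEq K] [Fintype κ]

lemma c0_const (T : Tl) (c : ℝ) : C0 (fun _ _ _ => c : Fn K) :=
  (T.ts ℝ K).c0 ((T.ts ℝ K).cb (c := fun _ => c) continuous_const)

lemma c0_smul (T : Tl) (c : ℝ) {F : Fn K} (hF : C0 F) : C0 (c • F) :=
  (T.ts ℝ K).c0mul (c0_const T c) hF

lemma eb_congr (A : Matrix K κ ℝ) (o : K) {F G : Fn K} (b : ℝ) (h : ∀ s x, F b s x = G b s x) :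
    Eb A o F b = Eb A o G b := by
  have : F b = G b := by funext s x; exact h s x
  simp only [Eb, this]

lemma eb_mono (T : Tl) (A : Matrix K κ ℝ) (o : K) {F G : Fn K} (hF : C0 F) (hG : C0 G) (b : ℝ)
    (h : ∀ s x, F b s x ≤ G b s x) : Eb A o F b ≤ Eb A o G b := by
  have X := T.ex ℝ K κ
  simp only [Eb, X.eq]
  exact X.mono A o _ b (abs_tanh b) hF hG h

lemma eb_lin (T : Tl) (A : Matrix K κ ℝ) (o : K) {F G H : Fn K} (hF : C0 F) (hG : C0 G) (b : ℝ)
    (p q c : ℝ) (h : ∀ s x, H b s x = p * F b s x + q * G b s x + c) :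
    Eb A o H b = p * Eb A o F b + q * Eb A o G b + c := by
  have X := T.ex ℝ K κ
  have Y := T.ts ℝ K
  rw [eb_congr A o (G := p • F + q • G + fun _ _ _ => c) b (fun s x => by simpa using h s x)]
  simp only [Eb, X.eq]
  rw [X.add A o _ b (Y.c0add (c0_smul T p hF) (c0_smul T q hG)) (c0_const T c),
    X.add A o _ b (c0_smul T p hF) (c0_smul T q hG), X.smul, X.smul, X.const]

lemma eb_le (T : Tl) (A : Matrix K κ ℝ) (o : K) {F G H : Fn K} (hF : C0 F) (hG : C0 G) (hH : C0 H)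
    (b : ℝ) (p q c : ℝ) (h : ∀ s x, H b s x ≤ p * F b s x + q * G b s x + c) :
    Eb A o H b ≤ p * Eb A o F b + q * Eb A o G b + c := by
  have Y := T.ts ℝ K
  rw [← eb_lin T A o (H := p • F + q • G + fun _ _ _ => c) hF hG b p q c (fun s x => by simp)]
  exact eb_mono T A o hH (Y.c0add (Y.c0add (c0_smul T p hF) (c0_smul T q hG)) (c0_const T c)) b
    (fun s x => by simpa using h s x)

/-- a function that does not read the static field has a bounded mean -/
lemma eb_bd (T : Tl) (A : Matrix K κ ℝ) (o : K) (ψ : Bool → (K → ℝ) → ℝ) :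
    ∃ Γ, 0 < Γ ∧ ∀ b, Eb A o (fun _ => ψ) b ≤ Γ := by
  have X := T.ex ℝ K κ
  refine ⟨(∑ σ, |gm A fun x => ψ σ (spin σ • (fun l => (A * Aᵀ) l o) + x)|) + 1, by positivity,
    fun b => ?_⟩
  simp only [Eb, X.eq, mE]
  refine le_trans (Finset.sum_le_sum fun σ _ => ?_) (le_add_of_nonneg_right zero_le_one)
  have h1 := abs_le.1 (abs_tanh b)
  have h2 : 0 ≤ (1 + spin σ * tanh b) / 2 ∧ (1 + spin σ * tanh b) / 2 ≤ 1 := by
    cases σ <;> simp only [spin_t, spin_f] <;> constructor <;> linarith [h1.1, h1.2]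
  calc _ ≤ (1 + spin σ * tanh b) / 2 * |gm A fun x => ψ σ (spin σ • (fun l => (A * Aᵀ) l o) + x)| :=
        mul_le_mul_of_nonneg_left (le_abs_self _) h2.1
    _ ≤ _ := mul_le_of_le_one_left (abs_nonneg _) h2.2

lemma eb_sp (T : Tl) (A : Matrix K κ ℝ) (o : K) (b : ℝ) : Eb A o sp b = tanh b := by
  have X := T.ex ℝ K κ
  have h : ∀ c : ℝ, gm A (fun _ => c) = c := fun c => by
    have := X.const A o 0 c
    simp only [mE, Fintype.sum_bool] at this
    linarith
  simp only [Eb, X.eq, mE, sp, Fintype.sum_bool, h, spin_t, spin_f]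
  ring

lemma eb_rf (T : Tl) (A : Matrix K κ ℝ) (o : K) (F : Fn K) (b : ℝ) :
    Eb A o (rf F) b = Eb A o F (-b) := by
  have X := T.ex ℝ K κ
  simp only [Eb, X.eq, tanh_neg, X.neg]
  rfl

/-- the centred linear form -/
def Ln (S : Matrix K K ℝ) (o : K) (w : K → ℝ) : Fn K :=
  fun _ s x => w ⬝ᵥ x - spin s * (w ⬝ᵥ fun l => S l o)

lemma ts_Ln (T : Tl) (S : Matrix K K ℝ) (o : K) (w : K → ℝ) : TS (Ln S o w) := by
  have Y := T.ts ℝ K
  have : Ln S o w = ∑ l, w l • co l - (w ⬝ᵥ fun l => S l o) • sp := by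
    funext b s x
    simp [Ln, co, sp, Finset.sum_apply, dotProduct, mul_comm]
  rw [this]
  exact Y.sub (Y.sum _ fun l _ => Y.smul _ (Y.co l)) (Y.smul _ Y.sp)

lemma eb_Ln (T : Tl) (A : Matrix K κ ℝ) (o : K) (w : K → ℝ) (b : ℝ) :
    Eb A o (Ln (A * Aᵀ) o w ^ 2) b = w ⬝ᵥ (A * Aᵀ) *ᵥ w := by
  have X := T.ex ℝ K κ
  simp only [Eb, X.eq]
  exact X.lin A o _ w

lemma ts_dl (T : Tl) (S : Matrix K K ℝ) (o u : K) {a : Fn K} (ha : TS a) : TS (dl S o u a) := by
  have Y := T.ts ℝ K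
  exact Y.sub (Y.mul ha (Y.sub (Y.co u) (Y.smul _ Y.sp))) (Y.sum _ fun p _ => Y.smul _ (Y.dx p ha))

lemma ts_dft (T : Tl) (S : Matrix K K ℝ) (o : K) {al : Fn K} {a : K → Fn K} (hal : TS al)
    (ha : ∀ u, TS (a u)) : TS (dft S o al a) := by
  have Y := T.ts ℝ K
  exact Y.add (Y.mul (Y.sub Y.sp ((T.bs K).ts ((T.bs K).th0 o))) hal)
    (Y.sum _ fun u _ => ts_dl T S o u (ha u))

lemma ts_rf (T : Tl) {F : Fn K} (hF : TS F) : TS (rf F) :=
  (T.ts ℝ K).re (φ := fun b : ℝ => -b) continuous_neg ((T.ts ℝ K).neg hF)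

lemma dl_add (T : Tl) (S : Matrix K K ℝ) (o u : K) {a a' : Fn K} (ha : Df a) (ha' : Df a') :
    dl S o u (a + a') = dl S o u a + dl S o u a' := by
  simp only [dl, (T.dx ℝ K).add _ ha ha', smul_add, Finset.sum_add_distrib]
  ring

lemma dl_cb (T : Tl) (S : Matrix K K ℝ) (o u : K) (c : ℝ → ℝ) (a : Fn K) :
    dl S o u (cb c * a) = cb c * dl S o u a := by
  simp only [dl, (T.dx ℝ K).cbm, mul_sub, Finset.mul_sum, mul_smul_comm]
  ring

lemma dl_smul (T : Tl) (S : Matrix K K ℝ) (o u : K) (c : ℝ) (a : Fn K) :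
    dl S o u (c • a) = c • dl S o u a := dl_cb T S o u (fun _ => c) a


lemma rf_dl (T : Tl) (S : Matrix K K ℝ) (o u : K) {a : Fn K} (ha : Df a) :
    rf (dl S o u a) = -dl S o u (rf a) := by
  simp only [dl, (T.bs K).rdx _ ha]
  funext b s x
  simp [rf, co, sp, spin_not, Finset.sum_apply]
  ring

lemma rf_dft (T : Tl) (S : Matrix K K ℝ) (o : K) (al : Fn K) {a : K → Fn K} (ha : ∀ u, Df (a u)) :
    rf (dft S o al a) = -dft S o (rf al) fun u => rf (a u) := by
  have h : ∀ u b s x, dl S o u (a u) (-b) (!s) (-x) = -dl S o u (rf (a u)) b s x := fun u b s x =>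
    congrFun (congrFun (congrFun (rf_dl T S o u (ha u)) b) s) x
  funext b s x
  have h2 : tanh (-b + -x o) = -tanh (b + x o) := by rw [← neg_add, tanh_neg]
  simp [dft, rf, Finset.sum_apply, h, sp, th, spin_not, h2]
  ring

lemma sq_nn (A : Matrix K κ ℝ) (w : K → ℝ) : 0 ≤ w ⬝ᵥ (A * Aᵀ) *ᵥ w := by
  rw [← mulVec_mulVec, dotProduct_mulVec, ← mulVec_transpose]
  exact Finset.sum_nonneg fun i _ => mul_self_nonneg _

lemma cs (A : Matrix K κ ℝ) (w : K → ℝ) (p : K) :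
    ((A * Aᵀ) *ᵥ w) p ^ 2 ≤ (A * Aᵀ) p p * (w ⬝ᵥ (A * Aᵀ) *ᵥ w) := by
  have h1 : w ⬝ᵥ (A * Aᵀ) *ᵥ w = ∑ k, (Aᵀ *ᵥ w) k ^ 2 := by
    rw [← mulVec_mulVec, dotProduct_mulVec, ← mulVec_transpose]
    simp [dotProduct, sq]
  have h2 : (A * Aᵀ) p p = ∑ k, A p k ^ 2 := by simp [mul_apply, sq]
  have h3 : ((A * Aᵀ) *ᵥ w) p = ∑ k, A p k * (Aᵀ *ᵥ w) k := by
    rw [← mulVec_mulVec]; rfl
  rw [h1, h2, h3]
  exact Finset.sum_mul_sq_le_sq_mul_sq _ _ _

/-- derivative of the cut-off -/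
def rr' (η x : ℝ) : ℝ := -(2 * η ^ 2 * x) / (1 + η ^ 2 * x ^ 2) ^ 2

lemma hasDerivAt_rr (η x : ℝ) : HasDerivAt (rr η) (rr' η x) x := by
  have h : HasDerivAt (fun x : ℝ => 1 + η ^ 2 * x ^ 2) (η ^ 2 * (2 * x)) x := by
    simpa using ((hasDerivAt_pow 2 x).const_mul (η ^ 2)).const_add 1
  have := h.inv (by positivity)
  have e1 : rr η = (fun x : ℝ => 1 + η ^ 2 * x ^ 2)⁻¹ := by funext y; simp [rr]
  have e2 : rr' η x = -(η ^ 2 * (2 * x)) / (1 + η ^ 2 * x ^ 2) ^ 2 := by unfold rr'; ring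
  rw [e1, e2]
  exact this

lemma dx_rr (η : ℝ) (u p : K) (b : ℝ) (s : Bool) (x : K → ℝ) :
    dx p (fun _ _ x => rr η (x u) : Fn K) b s x = if p = u then rr' η (x u) else 0 := by
  have h := (hasDerivAt_rr η (x u)).comp_hasFDerivAt x (hasFDerivAt_apply (𝕜 := ℝ) u x)
  have h2 : fderiv ℝ (fun x : K → ℝ => rr η (x u)) x = _ := h.fderiv
  simp only [dx, h2]
  by_cases hp : p = u
  · subst hp; simp
  · simp [hp, Pi.single_apply, Ne.symm hp]

lemma rr_sub (η x : ℝ) : (rr η x - 1) ^ 2 ≤ η ^ 2 * x ^ 2 := by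
  have h : 0 ≤ η ^ 2 * x ^ 2 := by positivity
  unfold rr
  generalize η ^ 2 * x ^ 2 = y at h
  have : 1 / (1 + y) - 1 = -(y / (1 + y)) := by field_simp; ring
  rw [this, neg_sq, div_pow, div_le_iff₀ (by positivity)]
  nlinarith [mul_nonneg h h, mul_nonneg h (mul_nonneg h h)]

lemma rr'_sq (η x : ℝ) : rr' η x ^ 2 ≤ η ^ 2 := by
  have h : 0 ≤ η ^ 2 * x ^ 2 := by positivity
  unfold rr'
  rw [div_pow, div_le_iff₀ (by positivity)]
  have h1 : (-(2 * η ^ 2 * x)) ^ 2 = η ^ 2 * (4 * (η ^ 2 * x ^ 2)) := by ring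
  rw [h1]
  refine mul_le_mul_of_nonneg_left ?_ (sq_nonneg η)
  generalize η ^ 2 * x ^ 2 = y at h
  have h2 : 4 * y ≤ (1 + y) ^ 2 := by nlinarith [sq_nonneg (1 - y)]
  have h3 : 1 ≤ (1 + y) ^ 2 := by nlinarith
  nlinarith

lemma sum_dx_res {L : Type} [Fintype L] [DecidableEq L] (T : Tl) (ι : L → K) {θ : Fn L}
    (hθ : Df θ) (c : K → ℝ) (b : ℝ) (s : Bool) (x : K → ℝ) :
    ∑ p, c p * dx p (res ι θ) b s x = ∑ l, c (ι l) * dx l θ b s (x ∘ ι) := by
  have X := T.dx ℝ K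
  have h : ∀ p, dx p (res ι θ) b s x = ∑ l, (if ι l = p then 1 else 0) * dx l θ b s (x ∘ ι) := by
    intro p
    rw [X.res ι θ, (X.pb _ p hθ).2]
    simp only [Finset.sum_apply, Pi.smul_apply, smul_eq_mul, of_apply, ← X.res]
    rfl
  simp only [h, Finset.mul_sum]
  rw [Finset.sum_comm]
  refine Finset.sum_congr rfl fun l _ => ?_
  rw [Finset.sum_eq_single (ι l)] <;> simp +contextual [eq_comm]

/-- the cut-off changes a divergence by `O(η)` -/
lemma cut (T : Tl) (A : Matrix K κ ℝ) (S : Matrix K K ℝ) (o u : K) {Θ : Fn K} (hΘ : BS Θ) :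
    ∃ G : Bool → (K → ℝ) → ℝ, C0 (fun _ => G : Fn K) ∧ ∀ η b s x,
      (dl S o u (Θ * fun _ _ x => rr η (x u)) b s x - dl S o u Θ b s x) ^ 2 ≤ η ^ 2 * G s x := by
  have B := T.bs K
  have Y := T.ts ℝ K
  obtain ⟨M, hM⟩ := B.bd hΘ
  obtain ⟨M', hM'⟩ := B.bd (B.sum Finset.univ fun p _ => B.smul (S u p) (B.dx p hΘ))
  refine ⟨fun s x => 3 * (M ^ 2 * ((x u - S o u * spin s) ^ 2 * x u ^ 2) + M' ^ 2 * x u ^ 2 +
    S u u ^ 2 * M ^ 2), ?_, fun η b s x => ?_⟩
  · have h := Y.c0 (Y.smul 3 (Y.add (Y.add (Y.smul (M ^ 2) (Y.mul (Y.pow 2 (Y.sub (Y.co u)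
      (Y.smul (S o u) Y.sp))) (Y.pow 2 (Y.co u)))) (Y.smul (M' ^ 2) (Y.pow 2 (Y.co u))))
      (Y.cb (c := fun _ => S u u ^ 2 * M ^ 2) continuous_const)))
    exact h
  · have h1 := hM b s x
    have h2 := hM' b s x
    have e : dl S o u (Θ * fun _ _ x => rr η (x u)) b s x - dl S o u Θ b s x =
        Θ b s x * (rr η (x u) - 1) * (x u - S o u * spin s) -
          (rr η (x u) - 1) * (∑ p, S u p • dx p Θ) b s x - S u u * (Θ b s x * rr' η (x u)) := by
      simp only [dl, (T.dx ℝ K).mul _ (B.df hΘ) (B.df (B.rr η u)), Pi.sub_apply, Pi.mul_apply,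
        Finset.sum_apply, Pi.smul_apply, Pi.add_apply, smul_eq_mul, co, sp, dx_rr, mul_add,
        Finset.sum_add_distrib, mul_ite, mul_zero, Finset.sum_ite_eq', Finset.mem_univ, if_true,
        ← mul_assoc, ← Finset.sum_mul]
      ring
    rw [e]
    beta_reduce
    generalize (∑ p, S u p • dx p Θ) b s x = d at h2
    generalize Θ b s x = t at h1
    have h3 := rr_sub η (x u)
    have h4 := rr'_sq η (x u)
    generalize rr η (x u) - 1 = r at h3
    generalize rr' η (x u) = r' at h4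
    generalize x u - S o u * spin s = y
    have ht : t ^ 2 ≤ M ^ 2 := sq_le_sq' (abs_le.1 h1).1 (abs_le.1 h1).2
    have hd : d ^ 2 ≤ M' ^ 2 := sq_le_sq' (abs_le.1 h2).1 (abs_le.1 h2).2
    have a1 : (t * r * y) ^ 2 ≤ η ^ 2 * (M ^ 2 * (y ^ 2 * x u ^ 2)) := by
      calc (t * r * y) ^ 2 = t ^ 2 * r ^ 2 * y ^ 2 := by ring
        _ ≤ M ^ 2 * (η ^ 2 * x u ^ 2) * y ^ 2 := by gcongr
        _ = _ := by ring
    have a2 : (r * d) ^ 2 ≤ η ^ 2 * (M' ^ 2 * x u ^ 2) := by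
      calc (r * d) ^ 2 = r ^ 2 * d ^ 2 := by ring
        _ ≤ (η ^ 2 * x u ^ 2) * M' ^ 2 := by gcongr
        _ = _ := by ring
    have a3 : (S u u * (t * r')) ^ 2 ≤ η ^ 2 * (S u u ^ 2 * M ^ 2) := by
      calc (S u u * (t * r')) ^ 2 = S u u ^ 2 * (t ^ 2 * r' ^ 2) := by ring
        _ ≤ S u u ^ 2 * (M ^ 2 * η ^ 2) := by gcongr
        _ = _ := by ring
    generalize t * r * y = p1 at a1
    generalize r * d = p2 at a2
    generalize S u u * (t * r') = p3 at a3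
    nlinarith [sq_nonneg (p1 + p2), sq_nonneg (p1 + p3), sq_nonneg (p2 - p3)]

end box

end Mov87

open Mov87

theorem movGlue : MovGlue := by
  intro T L _ _ θ hθ B
  obtain ⟨M, hM⟩ := (T.bs L).bd hθ
  choose m hm using fun l : L => (T.bs L).bd ((T.bs L).dx l hθ)
  refine ⟨4 * M ^ 2 + 4 * (|B| * (∑ l, m l) ^ 2), fun K _ _ A o v u ι hB e he => ?_⟩
  have X := T.bs K
  have Y := T.ts ℝ K
  have hΘ : BS (res ι θ) := by rw [(T.dx ℝ K).res]; exact X.pb _ hθ
  obtain ⟨G, hG, hc⟩ := cut T A (A * Aᵀ) o u hΘ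
  obtain ⟨Γ, hΓ, hb⟩ := eb_bd T A o G
  set w : K → ℝ := Pi.single u 1 - Pi.single v 1 with hw
  set q := w ⬝ᵥ (A * Aᵀ) *ᵥ w with hq
  have hq0 : 0 ≤ q := sq_nn A w
  refine ⟨√(e / (2 * Γ)), by positivity, fun b => ?_⟩
  set η := √(e / (2 * Γ)) with hη
  have hη2 : η ^ 2 = e / (2 * Γ) := sq_sqrt (by positivity)
  have key := eb_le T A o (H := (dl (A * Aᵀ) o u (res ι θ * fun _ _ x => rr η (x u)) -
      dl (A * Aᵀ) o v (res ι θ)) ^ 2) hG (Y.c0 (Y.pow 2 (ts_Ln T (A * Aᵀ) o w)))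
    (Y.c0 (Y.pow 2 (Y.sub (ts_dl T _ o u (X.ts (X.mul hΘ (X.rr η u)))) (ts_dl T _ o v (X.ts hΘ)))))
    b (2 * η ^ 2) (4 * M ^ 2) (4 * (|B| * (∑ l, m l) ^ 2) * q) (fun s x => by
      have h1 := hc η b s x
      have sy : ∀ i j, (A * Aᵀ) i j = (A * Aᵀ) j i := fun i j => by
        simp [mul_apply, mul_comm]
      have hw' : ∀ p, ((A * Aᵀ) *ᵥ w) p = (A * Aᵀ) u p - (A * Aᵀ) v p := fun p => by
        rw [hw, mulVec_sub, Pi.sub_apply, mulVec_single_one, mulVec_single_one, sy u, sy v]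
        rfl
      have e1 : dl (A * Aᵀ) o u (res ι θ) b s x - dl (A * Aᵀ) o v (res ι θ) b s x =
          θ b s (x ∘ ι) * Ln (A * Aᵀ) o w b s x -
            ∑ l, ((A * Aᵀ) *ᵥ w) (ι l) * dx l θ b s (x ∘ ι) := by
        rw [← sum_dx_res T ι ((T.bs L).df hθ)]
        simp only [hw', sub_mul, Finset.sum_sub_distrib]
        simp only [dl, Ln, hw, sub_dotProduct, single_dotProduct, one_mul, Pi.sub_apply,
          Pi.mul_apply, Finset.sum_apply, Pi.smul_apply, smul_eq_mul, co, sp, sy o]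
        simp only [res]
        ring
      have h2 : |∑ l, ((A * Aᵀ) *ᵥ w) (ι l) * dx l θ b s (x ∘ ι)| ≤ √(|B| * q) * ∑ l, m l := by
        rw [Finset.mul_sum]
        refine (Finset.abs_sum_le_sum_abs _ _).trans (Finset.sum_le_sum fun l _ => ?_)
        rw [abs_mul]
        refine mul_le_mul (abs_le_sqrt ((cs A w (ι l)).trans ?_)) (hm l _ _ _) (abs_nonneg _)
          (sqrt_nonneg _)
        exact mul_le_mul_of_nonneg_right ((hB l).trans (le_abs_self B)) hq0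
      have h3 := sq_le_sq' (abs_le.1 h2).1 (abs_le.1 h2).2
      rw [mul_pow, sq_sqrt (by positivity)] at h3
      have h4 := sq_le_sq' (abs_le.1 (hM b s (x ∘ ι))).1 (abs_le.1 (hM b s (x ∘ ι))).2
      have h5 := mul_le_mul_of_nonneg_right h4 (sq_nonneg (Ln (A * Aᵀ) o w b s x))
      simp only [Pi.pow_apply, Pi.sub_apply]
      rw [← mul_pow] at h5
      generalize θ b s (x ∘ ι) * Ln (A * Aᵀ) o w b s x = p1 at *
      generalize ∑ l, ((A * Aᵀ) *ᵥ w) (ι l) * dx l θ b s (x ∘ ι) = p2 at *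
      generalize dl (A * Aᵀ) o u (res ι θ * fun _ _ x => rr η (x u)) b s x = z at *
      generalize dl (A * Aᵀ) o u (res ι θ) b s x = z1 at *
      generalize dl (A * Aᵀ) o v (res ι θ) b s x = z2 at *
      have e2 : z - z2 = (z - z1) + (p1 - p2) := by linarith
      rw [e2]
      generalize z - z1 = p0 at *
      nlinarith [sq_nonneg (p0 - (p1 - p2)), sq_nonneg (p1 + p2)])
  rw [eb_Ln T] at key
  have h6 : 2 * η ^ 2 * Eb A o (fun _ => G) b ≤ e := by
    calc _ ≤ 2 * η ^ 2 * Γ := mul_le_mul_of_nonneg_left (hb b) (by positivity)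
      _ = e := by rw [hη2]; field_simp
  nlinarith

theorem symGlue : SymGlue := by
  intro T n N ρ al a e hF hρ hod hE
  have X := T.bs (Ix n)
  have Y := T.ts ℝ (Ix n)
  refine ⟨(1 / 2 : ℝ) • (al + rf al), fun u => (1 / 2 : ℝ) • (a u + rf (a u)),
    ⟨X.smul _ (X.add hF.bal (X.rf hF.bal)), ?_, fun u => ⟨X.smul _ (X.add (hF.ba u).1
      (X.rf (hF.ba u).1)), ?_⟩, fun u hu => ?_⟩, ?_, fun u => ?_, fun b => ?_⟩
  · have h1 := X.rgs al
    rw [hF.free] at h1
    funext b s x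
    have h2 := congrFun (congrFun (congrFun h1 b) s) x
    have h3 := congrFun (congrFun (congrFun hF.free b) s) x
    simp [gs, rf] at h2 h3 ⊢
    linarith
  · have : (1 / 2 : ℝ) • (a u + rf (a u)) * co u =
        (1 / 2 : ℝ) • (a u * co u - rf (a u * co u)) := by
      funext b s x; simp [rf, co]; ring
    rw [this]
    exact X.smul _ (X.sub (hF.ba u).2 (X.rf (hF.ba u).2))
  · rw [hF.nd u hu]; funext b s x; simp [rf]
  · funext b s x; simp [rf, add_comm]
  · funext b s x; simp [rf, add_comm]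
  · have hD : TS (N.drift al a - ρ) :=
      Y.sub (ts_dft T _ 0 (X.ts hF.bal) fun u => X.ts (hF.ba u).1) (X.ts hρ)
    have e1 : N.drift ((1 / 2 : ℝ) • (al + rf al)) (fun u => (1 / 2 : ℝ) • (a u + rf (a u))) - ρ =
        (1 / 2 : ℝ) • ((N.drift al a - ρ) - rf (N.drift al a - ρ)) := by
      have h1 : rf (N.drift al a - ρ) = rf (N.drift al a) - rf ρ := rfl
      rw [h1, hod, Net.drift, Net.drift, rf_dft T _ _ _ fun u => X.df (hF.ba u).1]
      simp only [dft, dl_smul T, dl_add T _ _ _ (X.df (hF.ba _).1) (X.df (X.rf (hF.ba _).1)),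
        ← Finset.smul_sum, Finset.sum_add_distrib]
      funext b s x
      simp only [Pi.add_apply, Pi.sub_apply, Pi.mul_apply, Pi.smul_apply, Pi.neg_apply,
        smul_eq_mul]
      ring
    rw [e1]
    have key := eb_le T N.A 0 (H := ((1 / 2 : ℝ) • ((N.drift al a - ρ) -
      rf (N.drift al a - ρ))) ^ 2) (Y.c0 (Y.pow 2 hD)) (Y.c0 (ts_rf T (Y.pow 2 hD)))
      (Y.c0 (Y.pow 2 (Y.smul _ (Y.sub hD (ts_rf T hD))))) b (1 / 2) (1 / 2) 0 (fun s x => by
        generalize N.drift al a - ρ = H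
        simp only [Pi.pow_apply, Pi.sub_apply, Pi.smul_apply, smul_eq_mul, rf]
        nlinarith [sq_nonneg (H b s x + H (-b) (!s) (-x))])
    rw [eb_rf T] at key
    have h1 := hE b
    have h2 := hE (-b)
    simp only [Net.E] at h1 h2 ⊢
    linarith

end Crest.Agent.T157.Nt

end
end

-- ▼ part T157/NetRoot_87
section

/-!
# Row 157, block B/S3, section 7 (helper87): `Nt.RootGlue`

The flow of the spin from the top family at `a = 0`.
-/

set_option autoImplicit false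
set_option linter.unusedVariables false
set_option linter.unusedSectionVars false
set_option linter.unusedSimpArgs false

noncomputable section

namespace Crest.Agent.T157.Nt

open MeasureTheory Matrix Real Set Filter Topology
open Crest.ProbabilityR.SpinGlassDynamics (spin)
open Crest.Agent.T157.S3L (gm mdl)
open Crest.Agent.T157.Tw (sech2 Cls PV lam)
open Mov87

namespace Root87

section box
variable {K : Type} [Fintype K] [DecidableEq K]

lemma bs_tanh (T : Tl) : BS (cb tanh : Fn K) := by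
  have h := (T.bs K).th 0
  simp only [zero_dotProduct, add_zero] at h
  exact h

lemma bs_sech (T : Tl) : BS (cb sech2 : Fn K) := by
  have X := T.bs K
  have : (cb sech2 : Fn K) = (fun _ _ _ => 1) - cb tanh ^ 2 := by
    funext b s x; simp [cb, sech2_eq]
  rw [this]
  exact X.sub (X.const 1) (X.pow 2 (bs_tanh T))

lemma split {k : ℝ} (hk : 1 < k) (x y z : ℝ) :
    (x + y + z) ^ 2 ≤ k * z ^ 2 + 2 * k / (k - 1) * (x ^ 2 + y ^ 2) := by
  have h0 : 0 < k - 1 := by linarith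
  have h1 : (x + y + z) ^ 2 ≤ k * z ^ 2 + k / (k - 1) * (x + y) ^ 2 := by
    generalize x + y = t
    have : k * z ^ 2 + k / (k - 1) * t ^ 2 - (t + z) ^ 2 = ((k - 1) * z - t) ^ 2 / (k - 1) := by
      field_simp; ring
    have h2 : 0 ≤ ((k - 1) * z - t) ^ 2 / (k - 1) := by positivity
    linarith
  have h3 : k / (k - 1) * (x + y) ^ 2 ≤ k / (k - 1) * (2 * (x ^ 2 + y ^ 2)) :=
    mul_le_mul_of_nonneg_left (by nlinarith [sq_nonneg (x - y)]) (by positivity)
  have h4 : k / (k - 1) * (2 * (x ^ 2 + y ^ 2)) = 2 * k / (k - 1) * (x ^ 2 + y ^ 2) := by ring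
  linarith

end box

variable {n : ℕ}

/-- the main part of the error -/
def Xm (N : Net n) (ψ : Fn (Ix n)) (m : Ix n → Fn (Ix n)) (ρ : ℝ → ℝ) : Fn (Ix n) :=
  cb (fun b => (ρ b)⁻¹) * N.drift (gs ψ) m - (sp - cb tanh) + cb sech2 * (co 0 - N.S 0 0 • sp)

lemma main (T : Tl) (hF : FactStmt) {β : ℝ} {ν : Measure ℝ} [IsProbabilityMeasure ν] {N : Net n}
    (hN : N.Ok β ν) {l e : ℝ} (hl : 0 < l) {al0 ψ m ρ} (h : N.Top l 0 e al0 ψ m ρ) :
    TS (Xm N ψ m ρ) ∧ ∀ b, N.E (Xm N ψ m ρ ^ 2) b ≤ 16 * e / l ^ 2 := by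
  have X := T.bs (Ix n)
  have Y := T.ts ℝ (Ix n)
  obtain ⟨h1, -, h3, -⟩ := hF β ν n N hN
  obtain ⟨hb, h0, -⟩ := h1 _ _ h.fl
  have hi := X.inv (k := l / 4) (by positivity) (fun b => (h.hρ b).2.1) h.bρ
  have hL : TS (co 0 - N.S 0 0 • sp : Fn (Ix n)) := Y.sub (Y.co 0) (Y.smul _ Y.sp)
  have hX : TS (Xm N ψ m ρ) := Y.add (Y.sub (X.ts (X.mul hi hb)) (Y.sub Y.sp (X.ts (bs_tanh T))))
    (Y.mul (X.ts (bs_sech T)) hL)
  refine ⟨hX, fun b => ?_⟩
  have hρ : 0 < ρ b := lt_of_lt_of_le (by positivity) (h.hρ b).2.1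
  have hE : Eb N.A 0 (Xm N ψ m ρ) b = 0 := by
    have e1 := eb_lin T N.A 0 (H := Xm N ψ m ρ + sp) (Y.c0 (X.ts hb)) (Y.c0 hL) b (ρ b)⁻¹ (sech2 b)
      (tanh b) (fun s x => by simp [Xm, cb]; ring)
    have e2 := eb_lin T N.A 0 (H := Xm N ψ m ρ + sp) (Y.c0 hX) (Y.c0 Y.sp) b 1 1 0
      (fun s x => by simp)
    have e3 := h0 b
    have e4 := h3 0 b
    simp only [Net.E] at e3 e4
    rw [e3, e4] at e1
    rw [eb_sp T] at e2
    linarith
  have hR : ∀ s x, N.R 0 ψ m ρ b s x = ρ b * Xm N ψ m ρ b s x - ρ b * tanh b := fun s x => by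
    simp [Net.R, Xm, cb]
    field_simp
    ring
  have e5 := eb_lin T N.A 0 (H := N.R 0 ψ m ρ) (Y.c0 hX) (Y.c0 hX) b (ρ b) 0 (-(ρ b * tanh b))
    (fun s x => by rw [hR]; ring)
  have e6 := eb_lin T N.A 0 (H := N.R 0 ψ m ρ * N.R 0 ψ m ρ) (Y.c0 (Y.pow 2 hX)) (Y.c0 hX) b
    (ρ b ^ 2) (-(2 * ρ b ^ 2 * tanh b)) ((ρ b * tanh b) ^ 2)
    (fun s x => by simp only [Pi.mul_apply, Pi.pow_apply, hR]; ring)
  have e7 := h.VR b
  rw [Cv, e5, e6, hE] at e7
  have e8 : 0 ≤ Eb N.A 0 (Xm N ψ m ρ ^ 2) b := by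
    have := eb_le T N.A 0 (H := fun _ _ _ => 0) (Y.c0 (Y.pow 2 hX)) (Y.c0 hX) (c0_const T 0) b 1 0 0
      (fun s x => by simpa using sq_nonneg _)
    have e9 : Eb N.A 0 (fun _ _ _ => (0 : ℝ)) b = 0 := by
      simp only [Eb, (T.ex ℝ (Ix n) (Ix n)).eq, (T.ex ℝ (Ix n) (Ix n)).const]
    linarith
  have e10 : (l / 4) ^ 2 ≤ ρ b ^ 2 := by gcongr; exact (h.hρ b).2.1
  simp only [Net.E]
  rw [le_div_iff₀ (by positivity)]
  nlinarith [mul_le_mul_of_nonneg_right e10 e8]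

lemma core (T : Tl) (hF : FactStmt) {β : ℝ} {ν : Measure ℝ} [IsProbabilityMeasure ν] {N : Net n}
    (hN : N.Ok β ν) {l e e' k : ℝ} (hl : 0 < l) (hk : 1 < k) {al0 ψ m ρ}
    (h : N.Top l 0 e al0 ψ m ρ) (c : Ix n → Fn (Ix n)) (hc : ∀ u, BS (c u) ∧ BS (c u * co u))
    (hn : ∀ u, ¬ N.dr u → c u = 0) (hr : ∀ u, rf (c u) = c u) (W : Ix n → ℝ)
    (hW : ∀ b, N.E ((∑ u, dl N.S 0 u (c u) - cb sech2 * Ln N.S 0 W) ^ 2) b ≤ e') :
    ∃ al a, N.Flw al a ∧ rf al = al ∧ (∀ u, rf (a u) = a u) ∧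
      ∀ b, N.E ((N.drift al a - (sp - cb tanh)) ^ 2) b ≤
        k * N.sq (W - Pi.single 0 1) + 2 * k / (k - 1) * (16 * e / l ^ 2 + e') := by
  have X := T.bs (Ix n)
  have Y := T.ts ℝ (Ix n)
  obtain ⟨hX, hm⟩ := main T hF hN hl h
  have hi := X.inv (k := l / 4) (by positivity) (fun b => (h.hρ b).2.1) h.bρ
  have hFl : N.Flw (cb (fun b => (ρ b)⁻¹) * gs ψ) fun u => cb (fun b => (ρ b)⁻¹) * m u + c u := by
    refine ⟨X.mul hi h.fl.bal, ?_, fun u => ⟨X.add (X.mul hi (h.fl.ba u).1) (hc u).1, ?_⟩,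
      fun u hu => ?_⟩
    · funext b s x; simp [gs, cb]
    · rw [add_mul, mul_assoc]
      exact X.add (X.mul hi (h.fl.ba u).2) (hc u).2
    · rw [h.fl.nd u hu, hn u hu]; simp
  refine ⟨_, _, hFl, ?_, fun u => ?_, fun b => ?_⟩
  · have h1 := X.rgs ψ
    rw [h.od] at h1
    funext b s x
    have h2 := congrFun (congrFun (congrFun h1 b) s) x
    simp [gs, rf, cb, (h.hρ b).1] at h2 ⊢
    left
    linarith
  · funext b s x
    have h1 := congrFun (congrFun (congrFun (h.ev u) b) s) x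
    have h2 := congrFun (congrFun (congrFun (hr u) b) s) x
    simp only [rf] at h1 h2
    simp [rf, cb, (h.hρ b).1, h1, h2]
  · have hZ : TS (∑ u, dl N.S 0 u (c u) - cb sech2 * Ln N.S 0 W) :=
      Y.sub (Y.sum _ fun u _ => ts_dl T _ 0 u (X.ts (hc u).1))
        (Y.mul (X.ts (bs_sech T)) (ts_Ln T _ _ _))
    have e1 : N.drift (cb (fun b => (ρ b)⁻¹) * gs ψ) (fun u => cb (fun b => (ρ b)⁻¹) * m u + c u) =
        cb (fun b => (ρ b)⁻¹) * N.drift (gs ψ) m + ∑ u, dl N.S 0 u (c u) := by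
      simp only [Net.drift, dft, dl_add T _ _ _ (X.df (X.mul hi (h.fl.ba _).1)) (X.df (hc _).1),
        dl_cb T, Finset.sum_add_distrib, ← Finset.mul_sum]
      ring
    have hD : TS (N.drift (cb (fun b => (ρ b)⁻¹) * gs ψ)
        (fun u => cb (fun b => (ρ b)⁻¹) * m u + c u) - (sp - cb tanh)) :=
      Y.sub (ts_dft T _ 0 (X.ts hFl.bal) fun u => X.ts (hFl.ba u).1)
        (Y.sub Y.sp (X.ts (bs_tanh T)))
    have hk0 : 0 ≤ 2 * k / (k - 1) := div_nonneg (by linarith) (by linarith)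
    have key := eb_le T N.A 0 (Y.c0 (Y.pow 2 (ts_Ln T N.S 0 (W - Pi.single 0 1))))
      (Y.c0 (Y.add (Y.pow 2 hX) (Y.pow 2 hZ))) (Y.c0 (Y.pow 2 hD)) b k (2 * k / (k - 1)) 0
      (fun s x => by
        rw [e1]
        have e2 : (cb (fun b => (ρ b)⁻¹) * N.drift (gs ψ) m + ∑ u, dl N.S 0 u (c u) -
            (sp - cb tanh) : Fn (Ix n)) b s x = Xm N ψ m ρ b s x +
            (∑ u, dl N.S 0 u (c u) - cb sech2 * Ln N.S 0 W : Fn (Ix n)) b s x +
            sech2 b * Ln N.S 0 (W - Pi.single 0 1) b s x := by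
          simp only [Xm, Ln, sub_dotProduct, single_dotProduct, one_mul, Pi.add_apply,
            Pi.sub_apply, Pi.mul_apply, Pi.smul_apply, smul_eq_mul, cb, co, sp]
          ring
        rw [Pi.pow_apply, Pi.pow_apply, Pi.pow_apply, e2]
        generalize (∑ u, dl N.S 0 u (c u) - cb sech2 * Ln N.S 0 W : Fn (Ix n)) = Z
        simp only [Pi.pow_apply, Pi.add_apply]
        refine (split hk _ _ _).trans ?_
        have h1 : sech2 b ^ 2 ≤ 1 := pow_le_one₀ (sech2_nn b) (sech2_le b)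
        have h2 := mul_le_mul_of_nonneg_right h1 (sq_nonneg (Ln N.S 0 (W - Pi.single 0 1) b s x))
        have h3 := mul_le_mul_of_nonneg_left h2 (by linarith : 0 ≤ k)
        rw [mul_pow]
        linarith)
    have e3 := eb_lin T N.A 0 (H := Xm N ψ m ρ ^ 2 +
      (∑ u, dl N.S 0 u (c u) - cb sech2 * Ln N.S 0 W) ^ 2) (Y.c0 (Y.pow 2 hX)) (Y.c0 (Y.pow 2 hZ))
      b 1 1 0 (fun s x => by simp)
    have e4 : Eb N.A 0 (Ln N.S 0 (W - Pi.single 0 1) ^ 2) b = N.sq (W - Pi.single 0 1) :=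
      eb_Ln T N.A 0 _ b
    have h1 := hm b
    have h2 := hW b
    simp only [Net.E] at h1 h2 ⊢
    rw [e3, e4] at key
    have h3 := mul_le_mul_of_nonneg_left (add_le_add h1 h2) hk0
    linarith

lemma sq_single (N : Net n) (u v : Ix n) : N.sq (Pi.single u 1 - Pi.single v 1) =
    N.S u u - N.S u v - N.S v u + N.S v v := by
  simp only [Net.sq, mulVec_sub, sub_dotProduct, dotProduct_sub, mulVec_single_one,
    single_dotProduct, one_mul, col_apply]
  ring

lemma sq_zero (N : Net n) (v : Ix n) : N.sq (0 - Pi.single v 1) = N.S v v := by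
  simp only [Net.sq, zero_sub, mulVec_neg, neg_dotProduct, dotProduct_neg, neg_neg,
    mulVec_single_one, single_dotProduct, one_mul, col_apply]

end Root87

open Root87

theorem rootGlue : RootGlue := by
  intro T hF _ hM hNet 𝒞 h𝒞 β h0 h1 hl ν _ n N hN w hw k hk e he
  obtain ⟨γ, h, -, -, -, H⟩ := hNet 𝒞 h𝒞 β h0 h1 0 ⟨le_rfl, hl⟩ ν
  set l := lam 𝒞 β with hl'
  have hk1 : 0 < k - 1 := by linarith
  have hk0 : 0 < k := by linarith
  set δ := e * (k - 1) / (4 * k) with hδ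
  have hδ0 : 0 < δ := by positivity
  obtain ⟨n', N', ι, hN', hE, ψ, m, ρ, hT⟩ := H (δ * l ^ 2 / 16) (by positivity) n N hN
  have hS : ∀ i j, N'.S (ι i) (ι j) = N.S i j := fun i j => congrFun (congrFun hE.S i) j
  have hfin : 2 * k / (k - 1) * (16 * (δ * l ^ 2 / 16) / l ^ 2 + δ) = e := by
    rw [hδ]; field_simp; ring
  have X := T.bs (Ix n')
  rcases hw with rfl | ⟨u, hu, rfl⟩
  · obtain ⟨al, a, h1, h2, h3, h4⟩ := core T hF hN' (e' := δ) hl hk hT 0
      (fun u => ⟨X.const 0, by rw [Pi.zero_apply, zero_mul]; exact X.const 0⟩) (fun _ _ => rfl)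
      (fun _ => rfl) 0 (fun b => by
        have e1 : ∀ u, dl N'.S 0 u (0 : Fn (Ix n')) = 0 := fun u => by
          simpa using dl_smul T N'.S 0 u 0 0
        rw [Net.E, eb_congr N'.A 0 (G := fun _ _ _ => 0) b (fun s x => by simp [e1, Ln])]
        simp only [Eb, (T.ex ℝ (Ix n') (Ix n')).eq, (T.ex ℝ (Ix n') (Ix n')).const]
        exact hδ0.le)
    refine ⟨n', N', ι, al, a, hN', hE, h1, h2, h3, fun b => ?_⟩
    have := h4 b
    rw [hfin, sq_zero, ← hE.zero, hS] at this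
    rw [sq_zero]
    exact this
  · obtain ⟨C, hC⟩ := hM Empty (cb sech2) (bs_sech T) 0
    obtain ⟨η, hη, hb⟩ := hC (Ix n') N'.A 0 (ι u) (ι u) Empty.elim (fun p => p.elim) δ hδ0
    have hc : BS (cb sech2 * fun _ _ x => rr η (x (ι u)) : Fn (Ix n')) :=
      X.mul (bs_sech T) (X.rr η (ι u))
    obtain ⟨al, a, h1, h2, h3, h4⟩ := core T hF hN' (e' := δ) hl hk hT
      (Pi.single (ι u) (cb sech2 * fun _ _ x => rr η (x (ι u))))
      (fun v => by
        by_cases hv : v = ι u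
        · subst hv
          rw [Pi.single_eq_same, mul_assoc]
          exact ⟨hc, X.mul (bs_sech T) (X.yy η hη (ι u))⟩
        · rw [Pi.single_eq_of_ne hv, zero_mul]
          exact ⟨X.const 0, X.const 0⟩)
      (fun v hv => by
        have : v ≠ ι u := fun h => hv (h ▸ (hE.dr u).2 hu)
        rw [Pi.single_eq_of_ne this])
      (fun v => by
        by_cases hv : v = ι u
        · subst hv
          rw [Pi.single_eq_same]
          funext b s x
          simp [rf, cb, rr, sech2_neg]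
        · rw [Pi.single_eq_of_ne hv]; rfl)
      (Pi.single (ι u) 1) (fun b => by
        have e1 : dl N'.S 0 (ι u) (cb sech2) = cb sech2 * Ln N'.S 0 (Pi.single (ι u) 1) := by
          have sy : N'.S 0 (ι u) = N'.S (ι u) 0 := by simp [Net.S, mul_apply, mul_comm]
          simp only [dl, (T.dx ℝ (Ix n')).cb, smul_zero, Finset.sum_const_zero, sub_zero, sy]
          funext b s x
          simp [Ln, co, sp, mul_comm]
        have e2 : ∀ v, dl N'.S 0 v (0 : Fn (Ix n')) = 0 := fun v => by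
          simpa using dl_smul T N'.S 0 v 0 0
        rw [Finset.sum_eq_single (ι u) (fun v _ hv => by rw [Pi.single_eq_of_ne hv, e2])
          (by simp), Pi.single_eq_same, ← e1]
        have := hb b
        rw [sub_self, zero_dotProduct, mul_zero, add_zero] at this
        exact this)
    refine ⟨n', N', ι, al, a, hN', hE, h1, h2, h3, fun b => ?_⟩
    have := h4 b
    rw [hfin, sq_single, ← hE.zero, hS, hS, hS, hS] at this
    rw [sq_single]
    exact this

end Crest.Agent.T157.Nt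

end
end

-- ▼ part T157/NetSt_58

/-!
# Row 157, block B/S3, section 7 (helper58): (ST) for the model networks (`St1Glue`, `StGlue`)
-/

set_option autoImplicit false
set_option linter.unusedVariables false
set_option linter.unusedSectionVars false

noncomputable section

namespace Crest.Agent.T157.Nt

open MeasureTheory Matrix Real Set Filter Topology
open Crest.ProbabilityR.SpinGlassDynamics (spin)
open Crest.Agent.T157.S3L (gm mdl)

namespace St58

variable {L K κ κ' : Type} [Fintype L] [DecidableEq L] [Fintype K] [DecidableEq K] [Fintype κ]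
  [Fintype κ']

open scoped MatrixOrder in
lemma root {S : Matrix L L ℝ} (h : S.PosSemidef) : ∃ A : Matrix L L ℝ, A * Aᵀ = S := by
  obtain ⟨B, hB⟩ := CStarAlgebra.nonneg_iff_eq_star_mul_self.1 h.nonneg
  exact ⟨Bᵀ, by rw [hB, transpose_transpose]; rfl⟩

lemma quad_nonneg (A : Matrix L κ ℝ) (w : L → ℝ) : 0 ≤ w ⬝ᵥ (A * Aᵀ) *ᵥ w := by
  rw [← mulVec_mulVec, dotProduct_mulVec, mulVec_transpose]
  exact Finset.sum_nonneg fun _ _ => mul_self_nonneg _

/-- the matrix of `res e` -/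
def Rm (e : K → L) : Matrix K L ℝ := of fun x l => if e x = l then 1 else 0

lemma Rm_row (e : K → L) (x : K) : Rm e x = Pi.single (e x) 1 := by
  funext l; simp [Rm, Pi.single_apply, eq_comm]

lemma Rm_conj (e : K → L) (S : Matrix L L ℝ) : Rm e * S * (Rm e)ᵀ = S.submatrix e e := by
  ext x y; simp [Rm, mul_apply]

lemma Rm_mulVec (e : K → L) (x : L → ℝ) : Rm e *ᵥ x = x ∘ e := by
  funext y; simp [Rm, mulVec, dotProduct]

lemma res_eq (e : K → L) (F : Fn K) : res e F = pb (Rm e) F := by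
  funext b s x; simp only [res, pb, Rm_mulVec]

lemma abs_th (b : ℝ) : |tanh b| ≤ 1 := abs_le.2 ⟨(neg_one_lt_tanh b).le, (tanh_lt_one b).le⟩

lemma meas_of {F : Fn L} (h : C0 F) (b : ℝ) (s : Bool) : Measurable (F b s) :=
  ((h.1 s).comp (Continuous.prodMk_right b)).measurable

section tl
variable (T : Tl)
include T

lemma bs_res (e : K → L) {F : Fn K} (h : BS F) : BS (res e F) := by
  rw [res_eq]; exact (T.bs L).pb _ h

lemma ts_res (e : K → L) {F : Fn K} (h : TS F) : TS (res e F) := by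
  rw [res_eq]; exact (T.ts ℝ L).pb _ h

lemma Eb_res {A : Matrix L κ ℝ} {A' : Matrix K κ' ℝ} {e : K → L} {o : L} {o' : K} (ho : e o' = o)
    (hA : A' * A'ᵀ = (A * Aᵀ).submatrix e e) {F : Fn K} (hF : C0 F) (b : ℝ) :
    Eb A o (res e F) b = Eb A' o' F b := by
  rw [Eb, Eb, (T.ex ℝ L κ).eq, (T.ex ℝ K κ').eq, res_eq]
  exact (T.ex ℝ L κ).pb A A' (Rm e) o o' _ (F b) (by rw [hA, Rm_conj]) (by rw [Rm_row, ho])
    (meas_of hF b)

lemma dl_res {S : Matrix L L ℝ} (hS : Sᵀ = S) (e : K → L) (o u : K) {a : Fn K} (ha : Df a) :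
    dl S (e o) (e u) (res e a) = res e (dl (S.submatrix e e) o u a) := by
  rw [res_eq, res_eq, ← Rm_conj]
  exact (T.dx ℝ L).dl (Rm e) S _ _ o u hS (Rm_row e o) (Rm_row e u) ha

lemma ts_dl (S : Matrix L L ℝ) (o u : L) {a : Fn L} (ha : TS a) : TS (dl S o u a) :=
  have t := T.ts ℝ L
  t.sub (t.mul ha (t.sub (t.co u) (t.smul _ t.sp))) (t.sum _ fun p _ => t.smul _ (t.dx p ha))

lemma ts_dft (S : Matrix L L ℝ) (o : L) {al : Fn L} {a : L → Fn L} (h : TS al)
    (ha : ∀ u, TS (a u)) : TS (dft S o al a) :=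
  have t := T.ts ℝ L
  t.add (t.mul (t.sub t.sp ((T.bs L).ts ((T.bs L).th0 o))) h) (t.sum _ fun u _ => ts_dl T S o u (ha u))

lemma dl_add (S : Matrix L L ℝ) (o u : L) {F G : Fn L} (hF : Df F) (hG : Df G) :
    dl S o u (F + G) = dl S o u F + dl S o u G := by
  simp only [dl, (T.dx ℝ L).add _ hF hG, smul_add, Finset.sum_add_distrib]; ring

lemma dl_cbm (S : Matrix L L ℝ) (o u : L) (c : ℝ → ℝ) (F : Fn L) :
    dl S o u (cb c * F) = cb c * dl S o u F := by
  simp only [dl, (T.dx ℝ L).cbm, mul_sub, Finset.mul_sum, mul_smul_comm, mul_assoc]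

lemma dl_sum (S : Matrix L L ℝ) (o u : L) {I : Type} [Fintype I] {F : I → Fn L}
    (h : ∀ i, Df (F i)) : dl S o u (∑ i, F i) = ∑ i, dl S o u (F i) := by
  simp only [dl, (T.dx ℝ L).sum _ Finset.univ fun i _ => h i, Finset.sum_mul, Finset.smul_sum,
    Finset.sum_sub_distrib]
  rw [Finset.sum_comm]

lemma dl_zero (S : Matrix L L ℝ) (o u : L) : dl S o u (0 : Fn L) = 0 := by
  have := dl_cbm T S o u (fun _ => 0) 0
  rwa [show (cb fun _ => 0 : Fn L) = 0 from rfl, zero_mul, zero_mul] at this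

lemma Eb_mono (A : Matrix L κ ℝ) (o : L) {F G : Fn L} (hF : TS F) (hG : TS G) (b : ℝ)
    (h : ∀ s x, F b s x ≤ G b s x) : Eb A o F b ≤ Eb A o G b := by
  rw [Eb, Eb, (T.ex ℝ L κ).eq, (T.ex ℝ L κ).eq]
  exact (T.ex ℝ L κ).mono A o _ b (abs_th b) ((T.ts ℝ L).c0 hF) ((T.ts ℝ L).c0 hG) h

lemma Eb_smul (A : Matrix L κ ℝ) (o : L) (c : ℝ) (F : Fn L) (b : ℝ) :
    Eb A o (c • F) b = c * Eb A o F b := by
  rw [Eb, Eb, (T.ex ℝ L κ).eq, (T.ex ℝ L κ).eq]; exact (T.ex ℝ L κ).smul A o _ c F b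

lemma Eb_add (A : Matrix L κ ℝ) (o : L) {F G : Fn L} (hF : TS F) (hG : TS G) (b : ℝ) :
    Eb A o (F + G) b = Eb A o F b + Eb A o G b := by
  simp only [Eb, (T.ex ℝ L κ).eq]
  exact (T.ex ℝ L κ).add A o _ b ((T.ts ℝ L).c0 hF) ((T.ts ℝ L).c0 hG)

lemma Eb_sub_cb (A : Matrix L κ ℝ) (o : L) {F : Fn L} (hF : TS F) {c : ℝ → ℝ} (hc : TS (cb c : Fn L))
    (b : ℝ) : Eb A o (F - cb c) b = Eb A o F b - c b := by
  simp only [Eb, (T.ex ℝ L κ).eq]
  rw [(T.ex ℝ L κ).sub A o _ b ((T.ts ℝ L).c0 hF) ((T.ts ℝ L).c0 hc)]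
  exact congrArg _ ((T.ex ℝ L κ).const A o _ (c b))

lemma Eb_neg (A : Matrix L κ ℝ) (o : L) {F : Fn L} (hF : rf F = -F) (b : ℝ) :
    Eb A o F (-b) = -Eb A o F b := by
  have h := Eb_smul T A o (-1) F b
  rw [neg_one_smul, neg_one_mul, ← hF] at h
  rw [← h, Eb, Eb, (T.ex ℝ L κ).eq, (T.ex ℝ L κ).eq, tanh_neg, (T.ex ℝ L κ).neg]
  rfl

lemma sq_add (A : Matrix L κ ℝ) (o : L) {F G : Fn L} (hF : TS F) (hG : TS G) (b : ℝ) :
    Eb A o ((F + G) ^ 2) b ≤ 2 * Eb A o (F ^ 2) b + 2 * Eb A o (G ^ 2) b := by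
  have t := T.ts ℝ L
  rw [← Eb_smul T, ← Eb_smul T, ← Eb_add T A o (t.smul _ (t.pow 2 hF)) (t.smul _ (t.pow 2 hG))]
  refine Eb_mono T A o (t.pow 2 (t.add hF hG))
    (t.add (t.smul _ (t.pow 2 hF)) (t.smul _ (t.pow 2 hG))) b fun s x => ?_
  simp only [Pi.pow_apply, Pi.add_apply, Pi.smul_apply, smul_eq_mul]
  nlinarith [sq_nonneg (F b s x - G b s x)]

lemma sq_sum (A : Matrix L κ ℝ) (o : L) {I : Type} [Fintype I] {F : I → Fn L} (h : ∀ i, TS (F i))
    (b : ℝ) : Eb A o ((∑ i, F i) ^ 2) b ≤ Fintype.card I * ∑ i, Eb A o (F i ^ 2) b := by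
  have t := T.ts ℝ L
  have e : Eb A o (∑ i, F i ^ 2) b = ∑ i, Eb A o (F i ^ 2) b := by
    simp only [Eb, (T.ex ℝ L κ).eq]
    exact (T.ex ℝ L κ).sum A o _ _ b fun i _ => t.c0 (t.pow 2 (h i))
  rw [← e, ← Eb_smul T]
  refine Eb_mono T A o (t.pow 2 (t.sum _ fun i _ => h i))
    (t.smul _ (t.sum _ fun i _ => t.pow 2 (h i))) b fun s x => ?_
  simp only [Pi.pow_apply, Pi.smul_apply, smul_eq_mul, Finset.sum_apply]
  exact sq_sum_le_card_mul_sum_sq

lemma sq_cbm (A : Matrix L κ ℝ) (o : L) {c : ℝ → ℝ} {C : ℝ} (hc : TS (cb c : Fn L)) {F : Fn L}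
    (hF : TS F) (b : ℝ) (h : |c b| ≤ C) :
    Eb A o ((cb c * F) ^ 2) b ≤ C ^ 2 * Eb A o (F ^ 2) b := by
  have t := T.ts ℝ L
  rw [← Eb_smul T]
  refine Eb_mono T A o (t.pow 2 (t.mul hc hF)) (t.smul _ (t.pow 2 hF)) b fun s x => ?_
  simp only [Pi.pow_apply, Pi.mul_apply, Pi.smul_apply, smul_eq_mul, cb, mul_pow]
  exact mul_le_mul_of_nonneg_right (sq_le_sq' (abs_le.1 h).1 (abs_le.1 h).2) (sq_nonneg _)

end tl

lemma ext_single {e : K → L} (he : Function.Injective e) (a b : K) :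
    Function.extend e (Pi.single a 1 - Pi.single b 1 : K → ℝ) 0 =
      (Pi.single (e a) 1 - Pi.single (e b) 1 : L → ℝ) := by
  funext y
  by_cases h : ∃ x, e x = y
  · obtain ⟨x, rfl⟩ := h
    simp [he.extend_apply, Pi.single_apply, he.eq_iff]
  · rw [Function.extend_apply' _ _ _ h]
    have h1 : y ≠ e a := fun hy => h ⟨a, hy.symm⟩
    have h2 : y ≠ e b := fun hy => h ⟨b, hy.symm⟩
    simp [h1, h2]

lemma sq_lift (hL : LiftStmt) {n n' : ℕ} {N : Net n} {N' : Net n'} {ι : Ix n → Ix n'}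
    (h : N.Ext N' ι) (a b : Ix n) :
    N'.sq (Pi.single (ι a) 1 - Pi.single (ι b) 1) = N.sq (Pi.single a 1 - Pi.single b 1) := by
  rw [← ext_single h.mono.injective, (hL 0 0 n n' N N' ι h).2.2.1]

lemma ext_trans (hL : LiftStmt) {n n' n'' : ℕ} {N : Net n} {N' : Net n'} {N'' : Net n''}
    {ι : Ix n → Ix n'} {ι' : Ix n' → Ix n''} (h : N.Ext N' ι) (h' : N'.Ext N'' ι') :
    N.Ext N'' (ι' ∘ ι) := (hL 0 0 n n' N N' ι h).2.2.2.2.2 n'' N'' ι' h'

lemma ext_id {n : ℕ} (N : Net n) : N.Ext N id :=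
  ⟨strictMono_id, rfl, fun _ => rfl, fun _ => rfl, fun _ _ => rfl,
    fun _ u h => absurd ⟨u, rfl⟩ h, fun _ => Iff.rfl, rfl, rfl, by simp⟩

end St58

open St58

theorem st1Glue : St1Glue := by
  intro T hAv _ hL hH hM β ν _ hR n N hN B h0 hB ρ hρ hE hrd e he δ hδ
  classical
  -- the functions of the nodes in `B`
  let K := {v // v ∈ B}
  let o : K := ⟨0, h0⟩
  have pdB : (N.S.submatrix (Subtype.val : K → Ix n) Subtype.val).PosDef :=
    hN.pd.submatrix Subtype.val_injective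
  obtain ⟨A, hA⟩ := root pdB.posSemidef
  let ρB : Fn K := pb (Rm (Subtype.val : K → Ix n))ᵀ ρ
  have bB : BS ρB := (T.bs K).pb _ hρ
  have rB : res Subtype.val ρB = ρ := by
    funext b s x
    refine hrd b s _ _ fun m hm => ?_
    simp only [mulVec, dotProduct, transpose_apply, Rm, of_apply, Function.comp_apply, ite_mul,
      one_mul, zero_mul]
    rw [Finset.sum_eq_single (⟨m, hm⟩ : K) (fun y _ hy => if_neg fun h => hy (Subtype.ext h))
      (by simp)]
    simp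
  have tK := T.ts ℝ K
  have EB : ∀ b, Eb A o ρB b = 0 := fun b => by
    rw [← Eb_res T (A := N.A) (e := Subtype.val) (o := 0) rfl hA (tK.c0 ((T.bs K).ts bB)), rB]
    exact hE b
  obtain ⟨θ, hθ, hθe⟩ := hH K A o (hA ▸ pdB) ρB bB (e / 8) (by positivity)
  obtain ⟨av1, -, -, av4⟩ := hAv K K A o ρB bB
  let c : ℝ → ℝ := fun b => gs (cx A o ρB) b true 0
  have bc : BS (cb c : Fn K) := (T.bs K).gs av1
  obtain ⟨Cc, hCc⟩ := (T.bs K).bd bc
  have hcx : cx A o ρB = cb c * (sp - cb tanh) := by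
    funext b s x
    have h1 := av4 b
    rw [EB b] at h1
    have h2 : cx A o ρB b s x = cx A o ρB b s 0 := rfl
    have h3 : c b = (cx A o ρB b true 0 - cx A o ρB b false 0) / 2 := rfl
    have h4 : gs (cx A o ρB) b true 0 = c b := rfl
    rw [h4] at h1
    rw [h2]
    cases s <;> simp only [Pi.mul_apply, Pi.sub_apply, cb, sp, spin] <;> simp <;> linarith
  -- constants
  choose C hC using fun v : K => hM K (θ v) (hθ v) (∑ p : K, |N.S p p|)
  set k : ℝ := (Fintype.card K : ℝ) with hk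
  have k0 : 0 ≤ k := Nat.cast_nonneg _
  set D : ℝ := 12 * Cc ^ 2 + 4 * (k * (k + ∑ v, |C v|)) + 1 with hD
  have D0 : 0 < D := by positivity
  set t : ℝ := e / 2 / D with ht
  have t0 : 0 < t := by positivity
  obtain ⟨n1, N1, ι1, u, hN1, x1, hu⟩ := hB (min δ t) (lt_min hδ t0)
  obtain ⟨n2, N2, ι2, al0, a0, hN2, x2, f0, -, -, hr⟩ := hR n1 N1 hN1 (Pi.single (u 0) 1)
    (.inr ⟨u 0, (hu 0 h0).1, rfl⟩) 2 one_lt_two t t0
  have x12 := ext_trans hL x1 x2
  let j : K → Ix n2 := fun v => ι2 (ι1 v)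
  have hj : (N2.A * N2.Aᵀ).submatrix j j = A * Aᵀ := by
    rw [hA, ← x12.S]; rfl
  have j0 : j o = 0 := x12.zero
  have hsq : ∀ v ∈ B, N2.sq (Pi.single (ι2 (u v)) 1 - Pi.single (ι2 (ι1 v)) 1) ≤ min δ t :=
    fun v hv => by rw [sq_lift hL x2]; exact (hu v hv).2
  choose η hη hη' using fun v : K => hC v (Ix n2) N2.A 0 (j v) (ι2 (u v)) j (fun p => by
    have : (N2.A * N2.Aᵀ) (j p) (j p) = N.S p p := by
      have := congrFun (congrFun hj p) p
      rw [hA] at this; exact this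
    rw [this]
    exact (le_abs_self _).trans (Finset.single_le_sum (f := fun p : K => |N.S p p|)
      (fun _ _ => abs_nonneg _) (Finset.mem_univ p))) t t0
  have b2 := T.bs (Ix n2)
  have t2 := T.ts ℝ (Ix n2)
  have bc2 : BS (cb c : Fn (Ix n2)) := b2.cb bc
  let G : K → Fn (Ix n2) := fun v => res j (θ v) * fun _ _ x => rr (η v) (x (ι2 (u v)))
  have bG : ∀ v, BS (G v) := fun v => b2.mul (bs_res T j (hθ v)) (b2.rr _ _)
  have b0 : BS (0 : Fn (Ix n2)) := b2.const 0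
  have bI : ∀ (v : K) (u' : Ix n2), BS (if ι2 (u v) = u' then G v else 0) := fun v u' => by
    split_ifs
    exacts [bG v, b0]
  let a : Ix n2 → Fn (Ix n2) := fun u' =>
    (∑ v : K, if ι2 (u v) = u' then G v else 0) + cb c * a0 u'
  refine ⟨n2, N2, ι2 ∘ ι1, ι2 ∘ u, cb c * al0, a, hN2, x12, ⟨b2.mul bc2 f0.bal, ?_, fun u' => ⟨?_, ?_⟩,
    fun u' hu' => ?_⟩, fun b => ?_, fun v hv =>
      ⟨(x2.dr _).2 (hu v hv).1, (hsq v hv).trans (min_le_left _ _)⟩⟩
  · funext b s x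
    have : gs al0 b s x = 0 := by rw [f0.free]; rfl
    simp only [gs, Pi.mul_apply, cb, Pi.zero_apply] at this ⊢
    rw [← mul_sub, mul_div_assoc, this, mul_zero]
  · exact b2.add (b2.sum _ fun v _ => bI v u') (b2.mul bc2 (f0.ba u').1)
  · simp only [a, add_mul, Finset.sum_mul, mul_assoc]
    refine b2.add (b2.sum _ fun v _ => ?_) (b2.mul bc2 (f0.ba u').2)
    split_ifs with h
    · subst h
      simp only [G, mul_assoc]
      exact b2.mul (bs_res T j (hθ v)) (b2.yy _ (hη v) _)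
    · rw [zero_mul]; exact b0
  · simp only [a, f0.nd u' hu', mul_zero, add_zero]
    refine Finset.sum_eq_zero fun v _ => if_neg fun h => hu' ?_
    rw [← h]; exact (x2.dr _).2 (hu v v.2).1
  have hS : N2.Sᵀ = N2.S := by simp [Net.S, transpose_mul]
  have d1 : N2.drift (cb c * al0) a = cb c * N2.drift al0 a0 + ∑ v : K, dl N2.S 0 (ι2 (u v)) (G v) := by
    have : ∀ u', dl N2.S 0 u' (a u') = (∑ v : K, if ι2 (u v) = u' then dl N2.S 0 u' (G v) else 0) +
        cb c * dl N2.S 0 u' (a0 u') := fun u' => by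
      simp only [a]
      rw [dl_add T _ _ _ (b2.df (b2.sum _ fun v _ => bI v u')) (b2.df (b2.mul bc2 (f0.ba u').1)),
        dl_cbm T, dl_sum T _ _ _ fun v => b2.df (bI v u')]
      congr 1
      refine Finset.sum_congr rfl fun v _ => ?_
      split_ifs
      exacts [rfl, dl_zero T _ _ _]
    simp only [Net.drift, dft, this, Finset.sum_add_distrib, mul_add, Finset.mul_sum]
    rw [Finset.sum_comm]
    simp only [Finset.sum_ite_eq, Finset.mem_univ, if_true]
    ring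
  have d2 : ∀ v : K, dl N2.S 0 (j v) (res j (θ v)) = res j (dl (A * Aᵀ) o v (θ v)) := fun v => by
    rw [← hj, ← j0]; exact dl_res T hS j o v ((T.bs K).df (hθ v))
  let X : Fn (Ix n2) := cb c * (N2.drift al0 a0 - (sp - cb tanh))
  let Y : K → Fn (Ix n2) := fun v => dl N2.S 0 (ι2 (u v)) (G v) - dl N2.S 0 (j v) (res j (θ v))
  let Z : Fn K := ∑ v, dl (A * Aᵀ) o v (θ v) - (ρB - cx A o ρB)
  have d3 : N2.drift (cb c * al0) a - res (ι2 ∘ ι1) ρ = X + ∑ v, Y v + res j Z := by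
    have e1 : res j Z = ∑ v, res j (dl (A * Aᵀ) o v (θ v)) -
        (res (ι2 ∘ ι1) ρ - cb c * (sp - cb tanh)) := by
      simp only [Z, hcx]
      rw [← rB]
      funext b s x
      simp only [res, Pi.sub_apply, Finset.sum_apply]
      rfl
    rw [d1, e1]
    simp only [X, Y, Finset.sum_sub_distrib, d2]
    ring
  have tt : TS (cb tanh : Fn (Ix n2)) := t2.cb (continuous_iff_continuousAt.2 fun x =>
    (Tw.hasDerivAt_tanh' x).continuousAt)
  have tD : TS (N2.drift al0 a0 - (sp - cb tanh)) :=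
    t2.sub (ts_dft T _ _ (b2.ts f0.bal) fun u' => b2.ts (f0.ba u').1) (t2.sub t2.sp tt)
  have tX : TS X := t2.mul (b2.ts bc2) tD
  have tY : ∀ v, TS (Y v) := fun v => t2.sub (ts_dl T _ _ _ (b2.ts (bG v)))
    (ts_dl T _ _ _ (b2.ts (bs_res T j (hθ v))))
  have tZ : TS Z := tK.sub (tK.sum _ fun v _ => ts_dl T _ _ _ ((T.bs K).ts (hθ v)))
    (tK.sub ((T.bs K).ts bB) ((T.bs K).ts av1))
  have s1 := sq_add T N2.A 0 (t2.add tX (t2.sum Finset.univ fun v _ => tY v)) (ts_res T j tZ) b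
  have s2 := sq_add T N2.A 0 tX (t2.sum Finset.univ fun v _ => tY v) b
  have s3 : Eb N2.A 0 (X ^ 2) b ≤ Cc ^ 2 * (3 * t) := by
    refine (sq_cbm T N2.A 0 (b2.ts bc2) tD b (hCc b true 0)).trans
      (mul_le_mul_of_nonneg_left ((hr b).trans ?_) (sq_nonneg _))
    have := ((hu 0 h0).2).trans (min_le_right _ _)
    rw [x1.zero] at this
    linarith
  have s4 : Eb N2.A 0 ((∑ v, Y v) ^ 2) b ≤ k * (k + ∑ v, |C v|) * t := by
    refine (sq_sum T N2.A 0 tY b).trans ?_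
    rw [mul_assoc]
    refine mul_le_mul_of_nonneg_left ((Finset.sum_le_sum fun v _ =>
      (?_ : _ ≤ t + |C v| * t)).trans (le_of_eq ?_)) k0
    · refine (hη' v b).trans (add_le_add le_rfl ?_)
      exact (mul_le_mul_of_nonneg_right (le_abs_self _) (quad_nonneg _ _)).trans
        (mul_le_mul_of_nonneg_left ((hsq v v.2).trans (min_le_right _ _)) (abs_nonneg _))
    · rw [Finset.sum_add_distrib, ← Finset.sum_mul, Finset.sum_const, Finset.card_univ,
        nsmul_eq_mul, add_mul]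
  have s5 : Eb N2.A 0 (res j Z ^ 2) b ≤ e / 8 := by
    have : res j Z ^ 2 = res j (Z ^ 2) := rfl
    rw [this, Eb_res T j0 hj.symm (tK.c0 (tK.pow 2 tZ))]
    exact hθe b
  have s6 : D * t = e / 2 := by rw [ht]; field_simp
  rw [Net.E, d3]
  nlinarith

namespace St58

/-- the nodes of `B` are close to drift nodes of extensions -/
def Near (β : ℝ) (ν : Measure ℝ) {n : ℕ} (N : Net n) (B : Set (Ix n)) : Prop :=
  ∀ e > (0 : ℝ), ∃ (n' : ℕ) (N' : Net n') (ι u : Ix n → Ix n'), N'.Ok β ν ∧ N.Ext N' ι ∧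
    ∀ v ∈ B, N'.dr (u v) ∧ N'.sq (Pi.single (u v) 1 - Pi.single (ι v) 1) ≤ e

lemma near_root (hL : LiftStmt) (hD : DrfStmt) {β : ℝ} (h0 : 0 < β) (h1 : β < 1) {ν : Measure ℝ}
    [IsProbabilityMeasure ν] (hR : RootTop β ν) {n : ℕ} {N : Net n} (hN : N.Ok β ν) :
    Near β ν N {0} := by
  set q : ℝ := (β + 1) / 2 with hq
  have q0 : 0 < q := by positivity
  have q1 : q < 1 := by linarith
  have hk : 1 < q / β := by rw [one_lt_div h0]; linarith
  have step : ∀ r > (0 : ℝ), ∀ (n1 : ℕ) (N1 : Net n1) (ι : Ix n → Ix n1) (w : Ix n1 → ℝ),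
      N1.Ok β ν → N.Ext N1 ι → (w = 0 ∨ ∃ u, N1.dr u ∧ w = Pi.single u 1) →
      N1.sq (w - Pi.single 0 1) ≤ r → ∃ (n' : ℕ) (N' : Net n') (ι : Ix n → Ix n') (u : Ix n'),
        N'.Ok β ν ∧ N.Ext N' ι ∧ N'.dr u ∧ N'.sq (Pi.single u 1 - Pi.single 0 1) ≤ q * r := by
    intro r r0 n1 N1 ι w hN1 x1 hw hr
    have ε0 : 0 < q * (1 - q) * r / 2 := by have : 0 < 1 - q := by linarith
                                            positivity
    obtain ⟨n2, N2, ι2, al, a, hN2, x2, f, e1, e2, h⟩ := hR n1 N1 hN1 w hw _ hk _ ε0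
    obtain ⟨n3, N3, ι3, u, hN3, x3, hu, h'⟩ := hD β ν n2 N2 hN2 al a f e1 e2 0
      (q / β * r + q * (1 - q) * r / 2) (fun b => by
        have : N2.E sp = tanh := funext fun b => ((S3L.mdlStmt _ 0).1 _ N2.A b).1
        rw [hN2.f0, this]
        exact (h b).trans (by nlinarith)) _ hk _ ε0
    refine ⟨n3, N3, _, u, hN3, ext_trans hL (ext_trans hL x1 x2) x3, hu, ?_⟩
    rw [x3.zero] at h'
    refine h'.trans ?_
    have e3 : q / β * β ^ 2 * (q / β * r + q * (1 - q) * r / 2) =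
        q ^ 2 * r + q * β * (q * (1 - q) * r / 2) := by field_simp
    have e4 : q * β ≤ 1 := by nlinarith
    rw [e3]; nlinarith
  set r0 : ℝ := max (N.sq (0 - Pi.single 0 1)) 1 with hr0
  have p0 : 0 < r0 := lt_max_of_lt_right one_pos
  have it : ∀ j : ℕ, ∃ (n' : ℕ) (N' : Net n') (ι : Ix n → Ix n') (u : Ix n'),
      N'.Ok β ν ∧ N.Ext N' ι ∧ N'.dr u ∧
        N'.sq (Pi.single u 1 - Pi.single 0 1) ≤ q * (q ^ j * r0) := fun j => by
    induction j with
    | zero => exact step _ (by positivity) n N id 0 hN (ext_id N) (.inl rfl) (by simp [hr0])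
    | succ j ih =>
      obtain ⟨n1, N1, ι, u, hN1, x1, hu, h⟩ := ih
      exact step _ (by positivity) n1 N1 ι _ hN1 x1 (.inr ⟨u, hu, rfl⟩)
        (h.trans (le_of_eq (by ring)))
  intro e he
  obtain ⟨j, hj⟩ := exists_pow_lt_of_lt_one (div_pos he p0) q1
  obtain ⟨n1, N1, ι, u, hN1, x1, hu, h⟩ := it j
  refine ⟨n1, N1, ι, fun _ => u, hN1, x1, fun v hv => ⟨hu, ?_⟩⟩
  rw [show v = 0 from hv, x1.zero]
  rw [lt_div_iff₀ p0] at hj
  nlinarith [mul_pos (pow_pos q0 j) p0]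

lemma near_step (T : Tl) (hAv : AvStmt) (hL : LiftStmt) (hD : DrfStmt) (hS : SymStmt) {β : ℝ}
    (h0 : 0 < β) (h1 : β < 1) {ν : Measure ℝ} [IsProbabilityMeasure ν] (h : St1Stmt β ν) {n : ℕ}
    {N : Net n} (hN : N.Ok β ν) {B : Set (Ix n)} (hB0 : 0 ∈ B) (hB : Near β ν N B) (l : Ix n)
    (hl : ∀ m < l, m ∈ B) : Near β ν N (insert l B) := by
  classical
  intro e he
  have b1 := T.bs (Ix n)
  have bc : BS (cb (N.E (N.f l)) : Fn (Ix n)) := (hAv _ _ N.A 0 _ (hN.bs l)).2.1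
  have bρ : BS (N.f l - cb (N.E (N.f l))) := b1.sub (hN.bs l) bc
  obtain ⟨n1, N1, ι1, u1, al, a, hN1, x1, f, hE, hu⟩ := h n N hN B hB0 hB _ bρ
    (fun b => by rw [Net.E, Eb_sub_cb T _ _ (b1.ts (hN.bs l)) (b1.ts bc)]; exact sub_self _)
    (fun b s x x' hx => by
      simp only [Pi.sub_apply, cb, hN.rd l b s x x' fun m hm => hx m (hl m hm)])
    (e / 4) (by positivity) e he
  have od : rf (N.f l - cb (N.E (N.f l))) = -(N.f l - cb (N.E (N.f l))) := by
    funext b s x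
    have h2 : N.f l (-b) (!s) (-x) = -N.f l b s x := congrFun (congrFun (congrFun (hN.od l) b) s) x
    have h3 : N.E (N.f l) (-b) = -N.E (N.f l) b := Eb_neg T _ _ (hN.od l) b
    simp only [rf, Pi.sub_apply, Pi.neg_apply, cb, h2, h3]; ring
  obtain ⟨al', a', f', e1, e2, hE'⟩ := hS n1 N1 _ al a _ f (bs_res T ι1 bρ) (by
    funext b s x
    exact congrFun (congrFun (congrFun od b) s) (x ∘ ι1)) hE
  have e3 : N1.f (ι1 l) - cb (N1.E (N1.f (ι1 l))) = res ι1 (N.f l - cb (N.E (N.f l))) := by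
    have : N1.E (res ι1 (N.f l)) = N.E (N.f l) := funext ((hL β ν n n1 N N1 ι1 x1).1 _
      (meas_of ((T.ts ℝ _).c0 (b1.ts (hN.bs l)))))
    rw [x1.f, this]; rfl
  obtain ⟨n2, N2, ι2, u2, hN2, x2, hu2, h2⟩ := hD β ν n1 N1 hN1 al' a' f' e1 e2 (ι1 l) (e / 4)
    (by rw [e3]; exact hE') 2 one_lt_two (e / 2) (by positivity)
  refine ⟨n2, N2, ι2 ∘ ι1, fun v => if v = l then u2 else ι2 (u1 v), hN2, ext_trans hL x1 x2,
    fun v hv => ?_⟩
  by_cases hvl : v = l
  · subst hvl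
    simp only [if_true]
    refine ⟨hu2, h2.trans ?_⟩
    have : β ^ 2 ≤ 1 := by nlinarith
    nlinarith
  · have hv' : v ∈ B := hv.resolve_left hvl
    simp only [if_neg hvl, Function.comp_apply, sq_lift hL x2]
    exact ⟨(x2.dr _).2 (hu v hv').1, (hu v hv').2⟩

lemma Near.mono {β : ℝ} {ν : Measure ℝ} {n : ℕ} {N : Net n} {B B' : Set (Ix n)}
    (h : Near β ν N B) (hB : B' ⊆ B) : Near β ν N B' := fun e he =>
  let ⟨n', N', ι, u, h1, h2, h3⟩ := h e he
  ⟨n', N', ι, u, h1, h2, fun v hv => h3 v (hB hv)⟩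

end St58

theorem stGlue : StGlue := by
  intro T hAv hL hD hS β h0 h1 ν _ hR h
  have key : ∀ (n : ℕ) (N : Net n), N.Ok β ν → Near β ν N univ := fun n N hN => by
    have : ∀ l : ℕ, Near β ν N {v | v.val < l ∨ v = 0} := fun l => by
      induction l with
      | zero => exact (near_root hL hD h0 h1 hR hN).mono fun v hv => hv.resolve_left (by simp)
      | succ l ih =>
        by_cases hl : l < n + 1
        · refine (near_step T hAv hL hD hS h0 h1 h hN (.inr rfl) ih ⟨l, hl⟩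
            fun m hm => .inl hm).mono fun v hv => ?_
          rcases hv with hv | hv
          · rcases Nat.lt_succ_iff_lt_or_eq.1 hv with hv | hv
            exacts [.inr (.inl hv), .inl (Fin.ext hv)]
          · exact .inr (.inr hv)
        · exact ih.mono fun v _ => .inl (lt_of_lt_of_le v.2 (not_lt.1 hl))
    exact (this (n + 1)).mono fun v _ => .inl v.2
  refine ⟨fun n N hN e he => ?_, fun n N hN ρ hρ hE e he => ?_⟩
  · obtain ⟨n', N', ι, u, h1, h2, h3⟩ := key n N hN e he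
    exact ⟨n', N', ι, u, h1, h2, fun v => h3 v trivial⟩
  · obtain ⟨n', N', ι, -, al, a, h1, h2, h3, h4, -⟩ := h n N hN univ trivial (key n N hN) ρ hρ hE
      (fun b s x x' hx => by rw [funext fun m => hx m trivial]) e he 1 one_pos
    exact ⟨n', N', ι, al, a, h1, h2, h3, h4⟩

end Crest.Agent.T157.Nt
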