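import Crest.Agent.T157.UwA_98

/-!
# Row 157, part B, block S3 (helper43): classes of families (products, small terms)

A point `ω : Ω` is an instance together with a configuration; a class is a property of a family
`ω ↦ ·` with constants that do not depend on `ω`.
-/

set_option autoImplicit false
set_option linter.unusedSectionVars false

noncomputable section

namespace Crest.Agent.T157.S3W

open Matrix Finset
open Crest.Agent.T157.Eig Crest.Agent.T157.Fr Crest.Agent.T157.Uw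

/-- the data: dimension, scale (`η a = s² ∑ a`), gauge `K`, couplings, and the classes of bounded
local functions, scalars and centred scalars -/
structure Cx (Ω : Type*) where
  n : Ω → ℕ
  s : Ω → ℝ
  K : Ω → ℝ
  J : ∀ ω, Matrix (Fin (n ω)) (Fin (n ω)) ℝ
  BL : (∀ ω, Fin (n ω) → ℝ) → Prop
  Sc : (Ω → ℝ) → Prop
  Th : (Ω → ℝ) → Prop

namespace Cx

variable {Ω : Type*} (c : Cx Ω)

abbrev VF : Type _ := ∀ ω, Fin (c.n ω) → ℝ
abbrev MF : Type _ := ∀ ω, Matrix (Fin (c.n ω)) (Fin (c.n ω)) ℝ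

/-- `η(u)` -/
def et (u : c.VF) (ω : Ω) : ℝ := eta (c.s ω) (u ω)

/-- a class of scalars which is a module over `Sc` -/
structure Md (P : (Ω → ℝ) → Prop) : Prop where
  sc : ∀ {σ}, P σ → c.Sc σ
  zero : P fun _ => 0
  add : ∀ {σ τ}, P σ → P τ → P fun ω => σ ω + τ ω
  mul : ∀ {σ τ}, c.Sc σ → P τ → P fun ω => σ ω * τ ω

structure Ok : Prop where
  symm : ∀ ω, (c.J ω)ᵀ = c.J ω
  hs : ∀ ω, c.s ω ^ 2 * Fintype.card (Fin (c.n ω)) ≤ 1
  K1 : ∀ ω, 1 ≤ c.K ω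
  uw : ∃ R, ∀ k, ∃ C, ∀ ω, UW (c.s ω) (c.J ω) R k (C * √(c.K ω))
  bl_bd : ∀ {u}, c.BL u → ∃ C, ∀ ω i, |u ω i| ≤ C
  bl_const : ∀ r : ℝ, c.BL fun _ _ => r
  bl_add : ∀ {u v}, c.BL u → c.BL v → c.BL fun ω => u ω + v ω
  bl_mul : ∀ {u v}, c.BL u → c.BL v → c.BL fun ω => u ω * v ω
  sc_bd : ∀ {σ}, c.Sc σ → ∃ C, ∀ ω, |σ ω| ≤ C
  sc_const : ∀ r : ℝ, c.Sc fun _ => r
  sc_add : ∀ {σ τ}, c.Sc σ → c.Sc τ → c.Sc fun ω => σ ω + τ ω
  sc_mul : ∀ {σ τ}, c.Sc σ → c.Sc τ → c.Sc fun ω => σ ω * τ ω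
  sc_et : ∀ {u}, c.BL u → c.Sc (c.et u)
  th : c.Md c.Th

/-- **small**: `f ≤ C (K + n ∑ θ⁴)` -/
def Sm (f : Ω → ℝ) : Prop := ∃ (C : ℝ) (L : List (Ω → ℝ)), 0 ≤ C ∧ (∀ θ ∈ L, c.Th θ) ∧
  ∀ ω, f ω ≤ C * (c.K ω + c.n ω * (L.map fun θ => θ ω ^ 4).sum)
def BdV (v : c.VF) : Prop := ∃ C, ∀ ω i, |v ω i| ≤ C
def BdE (M : c.MF) : Prop := ∃ C, ∀ ω i j, |M ω i j| ≤ C
def Op (M : c.MF) : Prop := ∃ C, ∀ ω, opn (M ω) ≤ C
/-- `O₂(K)` -/
def O2 (v : c.VF) : Prop := c.Sm fun ω => ∑ i, v ω i ^ 2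
def HS (M : c.MF) : Prop := c.Sm fun ω => ∑ i, ∑ j, M ω i j ^ 2
/-- fourth powers of the off-diagonal entries -/
def Of4 (M : c.MF) : Prop := c.Sm fun ω => ∑ i, ∑ j, if i = j then 0 else M ω i j ^ 4
def L4 (v : c.VF) : Prop := c.Sm fun ω => ∑ i, v ω i ^ 4
/-- letters -/
def Lt (l : List c.VF) : Prop := ∀ a ∈ l, c.BL a
def vk (l : List c.VF) : c.MF := fun ω => Vk (c.s ω) (c.J ω) (l.map fun a => a ω)
def uk (l : List c.VF) : c.MF := fun ω => Uk (c.s ω) (c.J ω) (l.map fun a => a ω)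
def wk (l : List c.VF) : c.MF := fun ω => Wk (c.s ω) (c.J ω) (l.map fun a => a ω)

/-- finite sums of `σ d Vk l`, `σ ∈ P` -/
inductive Sp (P : (Ω → ℝ) → Prop) : c.MF → Prop
  | word {σ d l} : P σ → c.BL d → c.Lt l → Sp P fun ω => σ ω • (diagonal (d ω) * c.vk l ω)
  | add {A B} : Sp P A → Sp P B → Sp P fun ω => A ω + B ω

/-- finite sums of `σ d`, `σ ∈ P` -/
inductive Sv (P : (Ω → ℝ) → Prop) : c.VF → Prop
  | term {σ d} : P σ → c.BL d → Sv P fun ω => σ ω • d ω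
  | add {u v} : Sv P u → Sv P v → Sv P fun ω => u ω + v ω

/-- finite sums of `σ W(l) d` and `σ d W(l)`: one end is clean -/
inductive CW : c.MF → Prop
  | right {σ d l} : c.Sc σ → c.BL d → c.Lt l → CW fun ω => σ ω • (c.wk l ω * diagonal (d ω))
  | left {σ d l} : c.Sc σ → c.BL d → c.Lt l → CW fun ω => σ ω • (diagonal (d ω) * c.wk l ω)
  | add {A B} : CW A → CW B → CW fun ω => A ω + B ω

/-- products -/
abbrev PR : c.MF → Prop := c.Sp c.Sc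
/-- `∑ θ B` -/
abbrev TP : c.MF → Prop := c.Sp c.Th
abbrev SV : c.VF → Prop := c.Sv c.Sc
/-- `∑ θ d` -/
abbrev TV : c.VF → Prop := c.Sv c.Th
/-- the class `M_K` -/
def MK (M : c.MF) : Prop := ∃ B, c.TP B ∧ c.HS fun ω => M ω - B ω
/-- product plus `M_K` -/
def PK (M : c.MF) : Prop := ∃ B, c.PR B ∧ c.HS fun ω => M ω - B ω

variable {c}

theorem cg {α : Ω → Type*} {P : (∀ ω, α ω) → Prop} {A B : ∀ ω, α ω} (h : P A)
    (e : ∀ ω, A ω = B ω) : P B := (funext e : A = B) ▸ h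

theorem sumP {α : Ω → Type*} [∀ ω, AddCommMonoid (α ω)] {P : (∀ ω, α ω) → Prop}
    (h0 : P fun _ => 0) (ha : ∀ {A B}, P A → P B → P fun ω => A ω + B ω) {κ : Type*}
    (t : Finset κ) {A : κ → ∀ ω, α ω} (h : ∀ k ∈ t, P (A k)) : P fun ω => ∑ k ∈ t, A k ω := by
  classical
  induction t using Finset.induction_on with
  | empty => simpa using h0
  | insert k t hk ih =>
    simp only [sum_insert hk]
    exact ha (h k (mem_insert_self _ _)) (ih fun j hj => h j (mem_insert_of_mem hj))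

theorem Ok.md (h : c.Ok) : c.Md c.Sc := ⟨id, h.sc_const 0, h.sc_add, h.sc_mul⟩
theorem Ok.one (h : c.Ok) : c.BL 1 := h.bl_const 1
theorem Ok.bl_smul (h : c.Ok) (r : ℝ) {u : c.VF} (hu : c.BL u) : c.BL fun ω => r • u ω :=
  h.bl_mul (h.bl_const r) hu
theorem Md.neg {P : (Ω → ℝ) → Prop} (h : c.Ok) (m : c.Md P) {σ : Ω → ℝ} (hσ : P σ) :
    P fun ω => -σ ω := cg (m.mul (h.sc_const (-1)) hσ) fun ω => neg_one_mul (σ ω)
theorem Md.sub {P : (Ω → ℝ) → Prop} (h : c.Ok) (m : c.Md P) {σ τ : Ω → ℝ} (hσ : P σ) (hτ : P τ) :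
    P fun ω => σ ω - τ ω := cg (m.add hσ (m.neg h hτ)) fun ω => (sub_eq_add_neg (σ ω) (τ ω)).symm
theorem Md.sum {P : (Ω → ℝ) → Prop} (m : c.Md P) {κ : Type*} (t : Finset κ) {σ : κ → Ω → ℝ}
    (h : ∀ k ∈ t, P (σ k)) : P fun ω => ∑ k ∈ t, σ k ω := sumP (α := fun _ => ℝ) m.zero m.add t h

theorem nn {f : Ω → ℝ} (h : ∃ C, ∀ ω, f ω ≤ C) : ∃ C, 0 ≤ C ∧ ∀ ω, f ω ≤ C :=
  let ⟨C, h⟩ := h; ⟨max C 0, le_max_right _ _, fun ω => (h ω).trans (le_max_left _ _)⟩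
theorem BdV.nn {v : c.VF} (h : c.BdV v) : ∃ C, 1 ≤ C ∧ ∀ ω i, |v ω i| ≤ C :=
  let ⟨C, h⟩ := h; ⟨max C 1, le_max_right _ _, fun ω i => (h ω i).trans (le_max_left _ _)⟩
theorem BdE.nn {M : c.MF} (h : c.BdE M) : ∃ C, 1 ≤ C ∧ ∀ ω i j, |M ω i j| ≤ C :=
  let ⟨C, h⟩ := h; ⟨max C 1, le_max_right _ _, fun ω i j => (h ω i j).trans (le_max_left _ _)⟩

/-! ### small functions -/

theorem g4_nonneg (L : List (Ω → ℝ)) (ω : Ω) : 0 ≤ (c.n ω : ℝ) * (L.map fun θ => θ ω ^ 4).sum :=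
  mul_nonneg (Nat.cast_nonneg _) (List.sum_nonneg fun x hx => by
    obtain ⟨θ, -, rfl⟩ := List.mem_map.1 hx; positivity)

theorem Sm.le {f g : Ω → ℝ} (hg : c.Sm g) {C : ℝ} (hC : 0 ≤ C) (h : ∀ ω, f ω ≤ C * g ω) :
    c.Sm f :=
  let ⟨D, L, h0, h1, h2⟩ := hg
  ⟨C * D, L, mul_nonneg hC h0, h1, fun ω => (h ω).trans (by
    rw [mul_assoc]; exact mul_le_mul_of_nonneg_left (h2 ω) hC)⟩

theorem Sm.mono {f g : Ω → ℝ} (hg : c.Sm g) (h : ∀ ω, f ω ≤ g ω) : c.Sm f :=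
  hg.le zero_le_one fun ω => by rw [one_mul]; exact h ω

theorem sm_K : c.Sm c.K := ⟨1, [], zero_le_one, by simp, fun ω => by simp⟩

theorem Sm.add (_h : c.Ok) {f g : Ω → ℝ} (hf : c.Sm f) (hg : c.Sm g) : c.Sm fun ω => f ω + g ω := by
  obtain ⟨C, L, c0, c1, c2⟩ := hf
  obtain ⟨D, M, d0, d1, d2⟩ := hg
  refine ⟨C + D, L ++ M, add_nonneg c0 d0, List.forall_mem_append.2 ⟨c1, d1⟩, fun ω => ?_⟩
  have h1 := g4_nonneg (c := c) L ω
  have h2 := g4_nonneg (c := c) M ω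
  rw [List.map_append, List.sum_append]
  nlinarith [c2 ω, d2 ω, mul_nonneg c0 h2, mul_nonneg d0 h1]

theorem sm_const (h : c.Ok) (r : ℝ) : c.Sm fun _ => r :=
  sm_K.le (abs_nonneg r) fun ω => by nlinarith [le_abs_self r, h.K1 ω, abs_nonneg r]

theorem Sm.le2 (h : c.Ok) {f g g' : Ω → ℝ} (hg : c.Sm g) (hg' : c.Sm g') {C : ℝ} (hC : 0 ≤ C)
    (e : ∀ ω, f ω ≤ C * (g ω + g' ω)) : c.Sm f := (hg.add h hg').le hC e

theorem Sm.sum (h : c.Ok) {κ : Type*} (t : Finset κ) {f : κ → Ω → ℝ} (hf : ∀ k ∈ t, c.Sm (f k)) :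
    c.Sm fun ω => ∑ k ∈ t, f k ω := sumP (α := fun _ => ℝ) (sm_const h 0) (Sm.add h) t hf

theorem sm_th (h : c.Ok) {θ : Ω → ℝ} (hθ : c.Th θ) : c.Sm fun ω => c.n ω * θ ω ^ 4 :=
  ⟨1, [θ], zero_le_one, by simpa using hθ, fun ω => by simpa using (h.K1 ω).trans' zero_le_one⟩

/-! ### bounded families -/

theorem Op.bdE {M : c.MF} (h : c.Op M) : c.BdE M :=
  let ⟨C, h⟩ := h; ⟨C, fun ω i j => (abs_entry_le _ i j).trans (h ω)⟩
theorem BdE.diag {M : c.MF} (h : c.BdE M) : c.BdV fun ω => (M ω).diag :=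
  let ⟨C, h⟩ := h; ⟨C, fun ω i => h ω i i⟩
theorem BdE.sub {A B : c.MF} (hA : c.BdE A) (hB : c.BdE B) : c.BdE fun ω => A ω - B ω :=
  let ⟨C, h⟩ := hA; let ⟨D, g⟩ := hB
  ⟨C + D, fun ω i j => (abs_sub _ _).trans (add_le_add (h ω i j) (g ω i j))⟩
theorem BdV.add {u v : c.VF} (hu : c.BdV u) (hv : c.BdV v) : c.BdV fun ω => u ω + v ω :=
  let ⟨C, h⟩ := hu; let ⟨D, g⟩ := hv
  ⟨C + D, fun ω i => (abs_add_le _ _).trans (add_le_add (h ω i) (g ω i))⟩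
theorem BdV.sub {u v : c.VF} (hu : c.BdV u) (hv : c.BdV v) : c.BdV fun ω => u ω - v ω :=
  let ⟨C, h⟩ := hu; let ⟨D, g⟩ := hv
  ⟨C + D, fun ω i => (abs_sub _ _).trans (add_le_add (h ω i) (g ω i))⟩
theorem Op.add {A B : c.MF} (hA : c.Op A) (hB : c.Op B) : c.Op fun ω => A ω + B ω :=
  let ⟨C, h⟩ := hA; let ⟨D, g⟩ := hB
  ⟨C + D, fun ω => (opn_add_le _ _).trans (add_le_add (h ω) (g ω))⟩
theorem Op.sub {A B : c.MF} (hA : c.Op A) (hB : c.Op B) : c.Op fun ω => A ω - B ω :=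
  let ⟨C, h⟩ := hA; let ⟨D, g⟩ := hB
  ⟨C + D, fun ω => (opn_sub_le _ _).trans (add_le_add (h ω) (g ω))⟩
theorem Op.mul {A B : c.MF} (hA : c.Op A) (hB : c.Op B) : c.Op fun ω => A ω * B ω :=
  let ⟨C, h⟩ := hA; let ⟨D, g⟩ := hB
  ⟨C * D, fun ω => opn_mul_le' (h ω) (g ω)⟩
theorem Op.smul (h : c.Ok) {σ : Ω → ℝ} {A : c.MF} (hσ : c.Sc σ) (hA : c.Op A) :
    c.Op fun ω => σ ω • A ω :=
  let ⟨C, h⟩ := h.sc_bd hσ; let ⟨D, g⟩ := hA
  ⟨C * D, fun ω => opn_smul_le (h ω) (g ω)⟩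
theorem Op.transpose {A : c.MF} (hA : c.Op A) : c.Op fun ω => (A ω)ᵀ :=
  let ⟨C, h⟩ := hA; ⟨C, fun ω => (opn_transpose _).trans_le (h ω)⟩
theorem BdV.op {d : c.VF} (h : c.BdV d) : c.Op fun ω => diagonal (d ω) :=
  let ⟨C, h1, h⟩ := h.nn; ⟨C, fun ω => opn_diagonal_le (by linarith) (h ω)⟩
theorem op_J (h : c.Ok) : c.Op c.J :=
  let ⟨R, h⟩ := h.uw; let ⟨_, h⟩ := h 0; ⟨R, fun ω => (h ω).op⟩
theorem op_one : c.Op fun _ => 1 := ⟨1, fun _ => opn_one_le⟩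
theorem op_zero : c.Op fun _ => 0 := ⟨0, fun _ => opn_zero.le⟩
theorem Op.sum {κ : Type*} (t : Finset κ) {A : κ → c.MF} (h : ∀ k ∈ t, c.Op (A k)) :
    c.Op fun ω => ∑ k ∈ t, A k ω := sumP op_zero Op.add t h

/-! ### words -/

theorem lt_nil : c.Lt [] := fun _ h => by simp at h
theorem lt_cons {a : c.VF} {l : List c.VF} : c.Lt (a :: l) ↔ c.BL a ∧ c.Lt l := List.forall_mem_cons
theorem lt_append {l m : List c.VF} : c.Lt (l ++ m) ↔ c.Lt l ∧ c.Lt m := List.forall_mem_append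
theorem Lt.reverse {l : List c.VF} (h : c.Lt l) : c.Lt l.reverse :=
  fun a ha => h a (List.mem_reverse.1 ha)
theorem Lt.snoc {l : List c.VF} (h : c.Lt l) {a : c.VF} (ha : c.BL a) : c.Lt (l ++ [a]) :=
  lt_append.2 ⟨h, lt_cons.2 ⟨ha, lt_nil⟩⟩
@[simp] theorem vk_nil (ω : Ω) : c.vk [] ω = 1 := rfl
@[simp] theorem uk_nil (ω : Ω) : c.uk [] ω = 0 := rfl
theorem uk_cons (a : c.VF) (l : List c.VF) (ω : Ω) :
    c.uk (a :: l) ω = diagonal (a ω) * c.vk l ω := rfl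
theorem vk_cons (a : c.VF) (l : List c.VF) (ω : Ω) :
    c.vk (a :: l) ω = c.J ω * c.uk (a :: l) ω - c.et a ω • c.uk l ω := rfl
theorem wk_eq (l : List c.VF) (ω : Ω) : c.wk l ω = c.vk (l ++ [1]) ω := by
  simp only [wk, vk, Wk, List.map_append, List.map_cons, List.map_nil]; rfl
theorem vk_snoc (l : List c.VF) (a : c.VF) (ω : Ω) :
    c.vk (l ++ [a]) ω = c.wk l ω * diagonal (a ω) := by
  simp only [wk, vk, Wk_mul_diag, List.map_append, List.map_cons, List.map_nil]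
theorem wk_transpose (h : c.Ok) (l : List c.VF) (ω : Ω) : (c.wk l ω)ᵀ = c.wk l.reverse ω := by
  simp only [wk, (rev (h.symm ω) _).1, List.map_reverse]

theorem op_vu (h : c.Ok) : ∀ {l : List c.VF}, c.Lt l → c.Op (c.vk l) ∧ c.Op (c.uk l)
  | [], _ => ⟨op_one, op_zero⟩
  | a :: l, hl => by
    obtain ⟨h1, h2⟩ := op_vu h (lt_cons.1 hl).2
    have h3 : c.Op (c.uk (a :: l)) := (BdV.op (h.bl_bd (lt_cons.1 hl).1)).mul h1
    exact ⟨((op_J h).mul h3).sub (h2.smul h (h.sc_et (lt_cons.1 hl).1)), h3⟩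

theorem vu_smul {ι : Type*} [Fintype ι] [DecidableEq ι] (s r : ℝ) (J : Matrix ι ι ℝ) :
    ∀ l : List (ι → ℝ), Vk s J (l.map (r • ·)) = r ^ l.length • Vk s J l ∧
      Uk s J (l.map (r • ·)) = r ^ l.length • Uk s J l
  | [] => by simp
  | a :: l => by
    obtain ⟨h1, h2⟩ := vu_smul s r J l
    simp only [List.map_cons, Vk_cons, Uk_cons, h1, h2, diagonal_smul, eta_smul, Matrix.smul_mul,
      Matrix.mul_smul, List.length_cons, pow_succ]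
    constructor <;> module

/-- normalisation of the letters -/
theorem Lt.scale (h : c.Ok) {l : List c.VF} (hl : c.Lt l) : ∃ r : ℝ, 1 ≤ r ∧ ∀ ω,
    ∃ m, Bd m ∧ m.length = l.length ∧ (l.map fun a => a ω) = m.map (r • ·) := by
  have : ∃ r : ℝ, 1 ≤ r ∧ ∀ a ∈ l, ∀ ω i, |a ω i| ≤ r := by
    induction l with
    | nil => exact ⟨1, le_rfl, by simp⟩
    | cons a l ih =>
      obtain ⟨r, r1, hr⟩ := ih (lt_cons.1 hl).2
      obtain ⟨C, hC⟩ := h.bl_bd (lt_cons.1 hl).1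
      exact ⟨max r C, r1.trans (le_max_left _ _), List.forall_mem_cons.2
        ⟨fun ω i => (hC ω i).trans (le_max_right _ _),
          fun b hb ω i => (hr b hb ω i).trans (le_max_left _ _)⟩⟩
  obtain ⟨r, r1, hr⟩ := this
  have r0 : 0 < r := by linarith
  refine ⟨r, r1, fun ω => ⟨l.map fun a => r⁻¹ • a ω, fun x hx i => ?_, by simp, ?_⟩⟩
  · obtain ⟨a, ha, rfl⟩ := List.mem_map.1 hx
    rw [Pi.smul_apply, smul_eq_mul, abs_mul, abs_of_pos (inv_pos.2 r0), inv_mul_le_iff₀ r0, mul_one]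
    exact hr a ha ω i
  · rw [List.map_map]
    exact List.map_congr_left fun a _ => by simp [smul_smul, r0.ne']

theorem o2_vk (h : c.Ok) {l : List c.VF} (hl : c.Lt l) (h0 : l ≠ []) :
    c.O2 fun ω => (c.vk l ω).diag := by
  obtain ⟨r, r1, hr⟩ := hl.scale h
  obtain ⟨R, hR⟩ := h.uw
  obtain ⟨C, hC⟩ := hR l.length
  refine sm_K.le (sq_nonneg (r ^ l.length * C)) fun ω => ?_
  obtain ⟨m, m1, m2, m3⟩ := hr ω
  have h1 := (hC ω).dg m (fun e => h0 (List.length_eq_zero_iff.1 (by rw [← m2, e]; rfl))) m2.le m1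
  have h2 := pow_le_pow_left₀ (nrm_nonneg _) h1 2
  rw [nrm_sq, mul_pow, Real.sq_sqrt (by linarith [h.K1 ω])] at h2
  simp only [vk, m3, (vu_smul _ _ _ _).1, m2, diag_apply, Matrix.smul_apply, smul_eq_mul, mul_pow,
    ← mul_sum, mul_assoc]
  refine mul_le_mul_of_nonneg_left (le_of_eq_of_le ?_ h2) (by positivity)
  simp only [dotProduct, diag_apply, sq]

theorem four_wk (h : c.Ok) {l : List c.VF} (hl : c.Lt l) :
    c.Sm fun ω => ∑ i, ∑ j, c.wk l ω i j ^ 4 := by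
  obtain ⟨r, r1, hr⟩ := hl.scale h
  obtain ⟨R, hR⟩ := h.uw
  obtain ⟨C, hC⟩ := hR (2 * l.length + 2)
  refine Sm.le2 h (sm_K.le (sq_nonneg ((l.length + 2) * C)) fun ω => le_rfl) (sm_const h 1)
    (C := (r ^ l.length) ^ 4 * 2) (by positivity) fun ω => ?_
  obtain ⟨m, m1, m2, m3⟩ := hr ω
  have hK : 0 ≤ c.K ω := by linarith [h.K1 ω]
  have h1 := ((hC ω).mono le_rfl le_rfl (mul_le_mul_of_nonneg_right (le_abs_self C)
    (Real.sqrt_nonneg _))).four (h.symm ω) (by positivity) (h.hs ω) (l := m) (by rw [m2]) m1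
  have e : c.wk l ω = r ^ l.length • Wk (c.s ω) (c.J ω) m := by
    have r0 : r ≠ 0 := by positivity
    have h2 := (vu_smul (c.s ω) r (c.J ω) (m ++ [r⁻¹ • 1])).1
    have h3 := Vk_smul (s := c.s ω) (J := c.J ω) m [] r⁻¹ 1
    simp only [List.map_append, List.map_cons, List.map_nil, smul_smul, mul_inv_cancel₀ r0,
      one_smul, h3, List.length_append, List.length_singleton, pow_succ, mul_assoc, mul_one] at h2
    rw [wk, m3, Wk, h2, m2, Wk]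
  rw [mul_pow, mul_pow, sq_abs, Real.sq_sqrt hK, m2] at h1
  simp only [e, Matrix.smul_apply, smul_eq_mul, mul_pow, ← mul_sum, mul_assoc]
  exact mul_le_mul_of_nonneg_left (by linarith) (by positivity)

end Cx

end Crest.Agent.T157.S3W

end
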