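import Crest.Agent.T157.FrC_98

/-!
# Row 157, part B, block S3 (helper98): Wick words, algebra and deterministic bounds

`Vk s J [a₁,…,a_k]` is the Wick word with `k` letters `J` and the diagonals `a₁,…,a_k`:
`Vk [] = 1`, `Vk (a :: m) = J a Vk m - η(a) Uk m`, `Uk [] = 0`, `Uk (b :: m) = b Vk m`.
`Wk s J l = Vk s J (l ++ [1])` is the word `W(a₁,…,a_k)` with `k + 1` letters `J`.
-/

set_option autoImplicit false
set_option maxHeartbeats 400000
set_option linter.unusedSectionVars false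

noncomputable section

namespace Crest.Agent.T157.Uw

open Matrix Finset
open Crest.Agent.T157.Eig Crest.Agent.T157.Fr

variable {ι : Type*} [Fintype ι] [DecidableEq ι]

/-- the contraction `η(a) = s² ∑ a` -/
def eta (s : ℝ) (a : ι → ℝ) : ℝ := s ^ 2 * ∑ i, a i

/-- the pair `(Vk, Uk)` -/
def VU (s : ℝ) (J : Matrix ι ι ℝ) : List (ι → ℝ) → Matrix ι ι ℝ × Matrix ι ι ℝ
  | [] => (1, 0)
  | a :: m => (J * (diagonal a * (VU s J m).1) - eta s a • (VU s J m).2, diagonal a * (VU s J m).1)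

/-- Wick word -/
def Vk (s : ℝ) (J : Matrix ι ι ℝ) (l : List (ι → ℝ)) : Matrix ι ι ℝ := (VU s J l).1
/-- Wick word without its first letter `J` -/
def Uk (s : ℝ) (J : Matrix ι ι ℝ) (l : List (ι → ℝ)) : Matrix ι ι ℝ := (VU s J l).2
/-- Wick word which ends with `J` -/
def Wk (s : ℝ) (J : Matrix ι ι ℝ) (l : List (ι → ℝ)) : Matrix ι ι ℝ := Vk s J (l ++ [1])

variable {s R : ℝ} {J J' : Matrix ι ι ℝ}

@[simp] lemma Vk_nil : Vk s J [] = 1 := rfl
@[simp] lemma Uk_nil : Uk s J [] = 0 := rfl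
lemma Uk_cons (a : ι → ℝ) (m : List (ι → ℝ)) : Uk s J (a :: m) = diagonal a * Vk s J m := rfl
lemma Vk_cons (a : ι → ℝ) (m : List (ι → ℝ)) :
    Vk s J (a :: m) = J * (diagonal a * Vk s J m) - eta s a • Uk s J m := rfl
lemma Vk_cons' (a : ι → ℝ) (m : List (ι → ℝ)) :
    Vk s J (a :: m) = J * Uk s J (a :: m) - eta s a • Uk s J m := rfl

lemma Wk_nil : Wk s J [] = J := by simp [Wk, Vk_cons]

lemma eta_add (a b : ι → ℝ) : eta s (a + b) = eta s a + eta s b := by
  simp [eta, sum_add_distrib, mul_add]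
lemma eta_smul (c : ℝ) (a : ι → ℝ) : eta s (c • a) = c * eta s a := by
  simp [eta, ← mul_sum, mul_left_comm]
lemma eta_sub (a b : ι → ℝ) : eta s (a - b) = eta s a - eta s b := by
  simp [eta, sum_sub_distrib, mul_sub]

lemma abs_eta_le (hs : s ^ 2 * Fintype.card ι ≤ 1) {a : ι → ℝ} {c : ℝ} (hc : 0 ≤ c)
    (h : ∀ i, |a i| ≤ c) : |eta s a| ≤ c := by
  have h1 : |∑ i, a i| ≤ Fintype.card ι * c := (abs_sum_le_sum_abs _ _).trans (by
    simpa using sum_le_card_nsmul univ _ _ fun i _ => h i)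
  rw [eta, abs_mul, abs_of_nonneg (sq_nonneg s)]
  nlinarith [mul_le_mul_of_nonneg_left h1 (sq_nonneg s)]

/-! ### algebra -/

/-- linearity in one letter -/
lemma lin (a b : ι → ℝ) (c d : ℝ) (m : List (ι → ℝ)) : ∀ l : List (ι → ℝ),
    Vk s J (l ++ (c • a + d • b) :: m) = c • Vk s J (l ++ a :: m) + d • Vk s J (l ++ b :: m) ∧
    Uk s J (l ++ (c • a + d • b) :: m) = c • Uk s J (l ++ a :: m) + d • Uk s J (l ++ b :: m)
  | [] => by
    have : diagonal (c • a + d • b) = c • diagonal a + d • diagonal b := by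
      rw [← diagonal_smul, ← diagonal_smul, diagonal_add]; rfl
    simp only [List.nil_append, Vk_cons, Uk_cons, this, eta_add, eta_smul, Matrix.add_mul,
      Matrix.smul_mul, Matrix.mul_add, Matrix.mul_smul, and_true]
    module
  | e :: l => by
    obtain ⟨h1, h2⟩ := lin a b c d m l
    simp only [List.cons_append, Vk_cons, Uk_cons, h1, h2, Matrix.mul_add, Matrix.mul_smul,
      and_true]
    module

lemma Vk_add (l m : List (ι → ℝ)) (a b : ι → ℝ) :
    Vk s J (l ++ (a + b) :: m) = Vk s J (l ++ a :: m) + Vk s J (l ++ b :: m) := by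
  simpa using (lin (s := s) (J := J) a b 1 1 m l).1

lemma Vk_smul (l m : List (ι → ℝ)) (c : ℝ) (a : ι → ℝ) :
    Vk s J (l ++ (c • a) :: m) = c • Vk s J (l ++ a :: m) := by
  simpa using (lin (s := s) (J := J) a a c 0 m l).1

/-- the last diagonal -/
lemma mul_diag (a b : ι → ℝ) : ∀ l : List (ι → ℝ),
    Vk s J (l ++ [a]) * diagonal b = Vk s J (l ++ [a * b]) ∧
    Uk s J (l ++ [a]) * diagonal b = Uk s J (l ++ [a * b])
  | [] => by
    simp only [List.nil_append, Vk_cons, Uk_cons, Vk_nil, Uk_nil, Matrix.mul_one, smul_zero,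
      sub_zero, Matrix.mul_assoc, diagonal_mul_diagonal]
    exact ⟨rfl, rfl⟩
  | e :: l => by
    obtain ⟨h1, h2⟩ := mul_diag a b l
    simp only [List.cons_append, Vk_cons, Uk_cons, Matrix.sub_mul, Matrix.smul_mul,
      Matrix.mul_assoc, h1, h2, and_self]

lemma Wk_mul_diag (l : List (ι → ℝ)) (b : ι → ℝ) : Wk s J l * diagonal b = Vk s J (l ++ [b]) := by
  rw [Wk, (mul_diag 1 b l).1, one_mul]

/-- **product rule** -/
lemma prod_rule (a : ι → ℝ) (m : List (ι → ℝ)) : ∀ l : List (ι → ℝ),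
    Vk s J (l ++ [a]) * Vk s J m = Vk s J (l ++ a :: m) + eta s a • (Vk s J l * Uk s J m) ∧
    Uk s J (l ++ [a]) * Vk s J m = Uk s J (l ++ a :: m) + eta s a • (Uk s J l * Uk s J m)
  | [] => by simp [Vk_cons, Uk_cons, Matrix.mul_assoc]
  | e :: l => by
    obtain ⟨h1, h2⟩ := prod_rule a m l
    simp only [List.cons_append, Vk_cons, Uk_cons, Matrix.sub_mul, Matrix.smul_mul,
      Matrix.mul_assoc, h1, h2, Matrix.mul_add, Matrix.mul_smul, and_true]
    module

theorem Wk_mul (l m : List (ι → ℝ)) (d : ι → ℝ) : Wk s J l * diagonal d * Vk s J m =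
    Vk s J (l ++ d :: m) + eta s d • (Vk s J l * Uk s J m) := by
  rw [Wk_mul_diag, (prod_rule d m l).1]

lemma Wk_snoc (l : List (ι → ℝ)) (a : ι → ℝ) :
    Wk s J (l ++ [a]) = Wk s J l * diagonal a * J - eta s a • Vk s J l := by
  have := Wk_mul (s := s) (J := J) l [1] a
  simp only [Vk_cons, Uk_cons, Vk_nil, Uk_nil, smul_zero, sub_zero, Matrix.mul_one] at this
  rw [show diagonal (1 : ι → ℝ) = 1 from diagonal_one, Matrix.mul_one, Matrix.mul_one] at this
  rw [this, Wk, List.append_assoc, List.singleton_append, add_sub_cancel_right]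

/-- **reversal** -/
theorem rev (hJ : Jᵀ = J) : ∀ l : List (ι → ℝ),
    (Wk s J l)ᵀ = Wk s J l.reverse ∧ (Uk s J (l ++ [1]))ᵀ = Vk s J l.reverse
  | [] => by
    simp only [Wk_nil, hJ, List.reverse_nil, List.nil_append, Uk_cons, Vk_nil, Matrix.mul_one,
      diagonal_transpose, true_and]
    exact diagonal_one
  | a :: l => by
    obtain ⟨h1, h2⟩ := rev hJ l
    rw [List.reverse_cons, Wk_snoc, ← Wk_mul_diag, ← h1, ← h2]
    simp only [Wk, List.cons_append, Vk_cons, Uk_cons, transpose_sub, transpose_mul,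
      transpose_smul, diagonal_transpose, hJ, and_self]

/-- the telescoping sum -/
def Tv (s : ℝ) (J J' H : Matrix ι ι ℝ) (l : List (ι → ℝ)) : Matrix ι ι ℝ :=
  ∑ q ∈ range l.length, Vk s J (l.take q) * H * Uk s J' (l.drop q)
def Tu (s : ℝ) (J J' H : Matrix ι ι ℝ) (l : List (ι → ℝ)) : Matrix ι ι ℝ :=
  ∑ q ∈ range l.length, Uk s J (l.take q) * H * Uk s J' (l.drop q)

/-- **exact telescoping** -/
theorem tele (s : ℝ) (J J' : Matrix ι ι ℝ) : ∀ l : List (ι → ℝ),
    Vk s J l - Vk s J' l = Tv s J J' (J - J') l ∧ Uk s J l - Uk s J' l = Tu s J J' (J - J') l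
  | [] => by simp [Tv, Tu]
  | a :: l => by
    obtain ⟨h1, h2⟩ := tele s J J' l
    have e1 : Tu s J J' (J - J') (a :: l) = diagonal a * Tv s J J' (J - J') l := by
      simp only [Tu, Tv, List.length_cons, sum_range_succ', List.take_succ_cons,
        List.drop_succ_cons, List.take_zero, Uk_nil, Matrix.zero_mul, add_zero, Uk_cons,
        Matrix.mul_sum, Matrix.mul_assoc]
    have e2 : Tv s J J' (J - J') (a :: l) = J * (diagonal a * Tv s J J' (J - J') l) -
        eta s a • Tu s J J' (J - J') l + (J - J') * Uk s J' (a :: l) := by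
      simp only [Tu, Tv, List.length_cons, sum_range_succ', List.take_succ_cons,
        List.drop_succ_cons, List.take_zero, List.drop_zero, Vk_nil, Matrix.one_mul, Vk_cons,
        Matrix.mul_sum, Matrix.sub_mul (J * _), Matrix.smul_mul, Matrix.mul_assoc,
        sum_sub_distrib, smul_sum]
    rw [e1, e2, ← h1, ← h2]
    simp only [Vk_cons, Uk_cons, Matrix.mul_sub, Matrix.sub_mul, and_true]
    module

lemma Tv_smul (c : ℝ) (H : Matrix ι ι ℝ) (l : List (ι → ℝ)) :
    Tv s J J' (c • H) l = c • Tv s J J' H l := by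
  simp only [Tv, smul_sum, Matrix.mul_smul, Matrix.smul_mul]
lemma Tu_smul (c : ℝ) (H : Matrix ι ι ℝ) (l : List (ι → ℝ)) :
    Tu s J J' (c • H) l = c • Tu s J J' H l := by
  simp only [Tu, smul_sum, Matrix.mul_smul, Matrix.smul_mul]

/-! ### norms -/

/-- all diagonals are bounded by one -/
def Bd (l : List (ι → ℝ)) : Prop := ∀ a ∈ l, ∀ i, |a i| ≤ 1

lemma Bd.nil : Bd ([] : List (ι → ℝ)) := fun _ h => by simp at h
lemma bd_cons {a : ι → ℝ} {l : List (ι → ℝ)} : Bd (a :: l) ↔ (∀ i, |a i| ≤ 1) ∧ Bd l :=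
  List.forall_mem_cons
lemma bd_append {l m : List (ι → ℝ)} : Bd (l ++ m) ↔ Bd l ∧ Bd m := List.forall_mem_append
lemma Bd.take {l : List (ι → ℝ)} (h : Bd l) (q : ℕ) : Bd (l.take q) :=
  fun a ha => h a (List.mem_of_mem_take ha)
lemma Bd.drop {l : List (ι → ℝ)} (h : Bd l) (q : ℕ) : Bd (l.drop q) :=
  fun a ha => h a (List.mem_of_mem_drop ha)
lemma Bd.reverse {l : List (ι → ℝ)} (h : Bd l) : Bd l.reverse :=
  fun a ha => h a (List.mem_reverse.1 ha)
lemma bd_one : Bd [(1 : ι → ℝ)] := bd_cons.2 ⟨fun _ => by simp, Bd.nil⟩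

lemma opn_mul_le' {A B : Matrix ι ι ℝ} {a b : ℝ} (hA : opn A ≤ a) (hB : opn B ≤ b) :
    opn (A * B) ≤ a * b :=
  (opn_mul_le A B).trans (mul_le_mul hA hB (opn_nonneg _) ((opn_nonneg _).trans hA))

lemma opn_smul_le {A : Matrix ι ι ℝ} {c a b : ℝ} (hc : |c| ≤ a) (hA : opn A ≤ b) :
    opn (c • A) ≤ a * b := by
  rw [opn_smul]; exact mul_le_mul hc hA (opn_nonneg _) ((abs_nonneg _).trans hc)

lemma opn_VU (hs : s ^ 2 * Fintype.card ι ≤ 1) (hR : opn J ≤ R) : ∀ {l : List (ι → ℝ)}, Bd l →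
    opn (Vk s J l) ≤ (1 + R) ^ l.length ∧ opn (Uk s J l) ≤ (1 + R) ^ l.length
  | [], _ => by
    have := opn_smul (0 : ℝ) (1 : Matrix ι ι ℝ)
    simp only [zero_smul, abs_zero, zero_mul] at this
    simp [opn_one_le, this]
  | a :: l, h => by
    obtain ⟨h1, h2⟩ := opn_VU hs hR (bd_cons.1 h).2
    have R0 : 0 ≤ R := (opn_nonneg _).trans hR
    have h3 := opn_mul_le' (opn_diagonal_le zero_le_one (bd_cons.1 h).1) h1
    have h4 := opn_mul_le' hR h3
    have h5 := opn_smul_le (abs_eta_le hs zero_le_one (bd_cons.1 h).1) h2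
    have h6 : 0 ≤ (1 + R) ^ l.length := by positivity
    rw [Vk_cons, Uk_cons, List.length_cons, pow_succ]
    exact ⟨(opn_sub_le _ _).trans (by linarith), by nlinarith⟩

/-- change of the diagonals -/
lemma opn_sub_VU (hs : s ^ 2 * Fintype.card ι ≤ 1) (hR : opn J ≤ R) {δ : ℝ} (hδ : 0 ≤ δ)
    {l l' : List (ι → ℝ)} (h : List.Forall₂ (fun a a' => ∀ i, |a i - a' i| ≤ δ) l l') :
    Bd l → Bd l' → opn (Vk s J l - Vk s J l') ≤ l.length * (1 + R) ^ l.length * δ ∧
      opn (Uk s J l - Uk s J l') ≤ l.length * (1 + R) ^ l.length * δ := by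
  induction h with
  | nil =>
    have := opn_smul (0 : ℝ) (1 : Matrix ι ι ℝ)
    simp only [zero_smul, abs_zero, zero_mul] at this
    simp [this]
  | @cons a a' l l' ha _ ih =>
    intro hl hl'
    obtain ⟨h1, h2⟩ := ih (bd_cons.1 hl).2 (bd_cons.1 hl').2
    obtain ⟨h3, h4⟩ := opn_VU hs hR (bd_cons.1 hl).2
    have R0 : 0 ≤ R := (opn_nonneg _).trans hR
    have e1 : Uk s J (a :: l) - Uk s J (a' :: l') =
        diagonal (a - a') * Vk s J l + diagonal a' * (Vk s J l - Vk s J l') := by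
      have : diagonal (a - a') = diagonal a - diagonal a' := by rw [diagonal_sub]; rfl
      simp only [Uk_cons, this, Matrix.sub_mul, Matrix.mul_sub]; abel
    have e2 : Vk s J (a :: l) - Vk s J (a' :: l') = J * (Uk s J (a :: l) - Uk s J (a' :: l')) -
        (eta s (a - a') • Uk s J l + eta s a' • (Uk s J l - Uk s J l')) := by
      simp only [Vk_cons', eta_sub, Matrix.mul_sub]; module
    have b1 : opn (Uk s J (a :: l) - Uk s J (a' :: l')) ≤ (l.length + 1) * (1 + R) ^ l.length * δ := by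
      rw [e1]
      have := opn_mul_le' (opn_diagonal_le hδ (d := a - a') ha) h3
      have := opn_mul_le' (opn_diagonal_le zero_le_one (bd_cons.1 hl').1) h1
      exact (opn_add_le _ _).trans (by linarith)
    have b2 := opn_smul_le (abs_eta_le hs hδ (a := a - a') ha) h4
    have b3 := opn_smul_le (abs_eta_le hs zero_le_one (bd_cons.1 hl').1) h2
    have b4 := opn_mul_le' hR b1
    have b5 : 0 ≤ (l.length + 1 : ℝ) * (1 + R) ^ l.length * δ := by positivity
    rw [e2, List.length_cons, pow_succ]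
    push_cast
    exact ⟨(opn_sub_le _ _).trans ((add_le_add le_rfl (opn_add_le _ _)).trans (by linarith)),
      by nlinarith⟩

lemma cn_real (v : ι → ℝ) : cn (fun i => (v i : ℂ)) = nrm v := by
  simp [cn, nrm, dotProduct, sq]

lemma dg3 (A H B : Matrix ι ι ℝ) : nrm (A * H * B).diag ≤ opn A * hs (cx H) * opn B := by
  have := cn_diag_mul3 (cx A) (cx H) (cx B)
  rwa [← cx_mul, ← cx_mul, cop_cx, cop_cx, show (cx (A * H * B)).diag =
    fun i => ((A * H * B).diag i : ℂ) from rfl, cn_real] at this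

lemma dg_le (A : Matrix ι ι ℝ) : nrm A.diag ≤ √(Fintype.card ι) * opn A := by
  have := cn_diag_le_cop (cx A)
  rwa [cop_cx, show (cx A).diag = fun i => (A.diag i : ℂ) from rfl, cn_real] at this

lemma nrm_sum_le {σ : Type*} (t : Finset σ) (v : σ → ι → ℝ) :
    nrm (∑ j ∈ t, v j) ≤ ∑ j ∈ t, nrm (v j) := by
  classical
  induction t using Finset.induction_on with
  | empty => simp [nrm]
  | insert j t hj ih => rw [sum_insert hj, sum_insert hj]; exact (nrm_add_le _ _).trans (by linarith)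

/-- **stability of the diagonal in the Hilbert-Schmidt norm** -/
theorem dg_sub_le (hs' : s ^ 2 * Fintype.card ι ≤ 1) (hR : opn J ≤ R) (hR' : opn J' ≤ R)
    {l : List (ι → ℝ)} (hl : Bd l) : nrm ((Vk s J l).diag - (Vk s J' l).diag) ≤
      l.length * (1 + R) ^ l.length * hs (cx (J - J')) := by
  have R0 : 0 ≤ R := (opn_nonneg _).trans hR
  rw [← diag_sub, (tele s J J' l).1, Tv, diag_sum]
  refine (nrm_sum_le _ _).trans ((sum_le_card_nsmul _ _
    ((1 + R) ^ l.length * hs (cx (J - J'))) fun q hq => ?_).trans (by simp [mul_assoc]))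
  have h1 := (opn_VU hs' hR (hl.take q)).1
  have h2 := (opn_VU hs' hR' (hl.drop q)).2
  have hq' := (mem_range.1 hq).le
  rw [List.length_take, min_eq_left hq'] at h1
  rw [List.length_drop] at h2
  have h0 := hs_nonneg (cx (J - J'))
  refine (dg3 _ _ _).trans ((mul_le_mul (mul_le_mul_of_nonneg_right h1 h0) h2 (opn_nonneg _)
    (by positivity)).trans (le_of_eq ?_))
  rw [mul_right_comm, ← pow_add, Nat.add_sub_cancel' hq']

/-! ### the property (UW) and its consequences -/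

/-- **(UW)** -/
structure UW (s : ℝ) (J : Matrix ι ι ℝ) (R : ℝ) (k : ℕ) (K : ℝ) : Prop where
  op : opn J ≤ R
  dg : ∀ l, l ≠ [] → l.length ≤ k → Bd l → nrm (Vk s J l).diag ≤ K

variable {k : ℕ} {K : ℝ}

lemma UW.mono (h : UW s J R k K) {R' K' : ℝ} {k' : ℕ} (hR : R ≤ R') (hk : k' ≤ k) (hK : K ≤ K') :
    UW s J R' k' K' := ⟨h.op.trans hR, fun l h0 h1 h2 => (h.dg l h0 (h1.trans hk) h2).trans hK⟩

/-- perturbations which are bounded in the Hilbert-Schmidt norm (spikes, diagonals) -/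
theorem UW.perturb (h : UW s J R k K) (hs' : s ^ 2 * Fintype.card ι ≤ 1) (hR : opn J' ≤ R) {c : ℝ}
    (hc : hs (cx (J' - J)) ≤ c) : UW s J' R k (K + k * (1 + R) ^ k * c) := ⟨hR, fun l h0 h1 h2 => by
  have R0 : 0 ≤ R := (opn_nonneg _).trans hR
  have h3 := dg_sub_le hs' hR h.op h2
  have h4 := nrm_add_le (Vk s J l).diag ((Vk s J' l).diag - (Vk s J l).diag)
  rw [add_sub_cancel] at h4
  have h5 : (l.length : ℝ) * (1 + R) ^ l.length * hs (cx (J' - J)) ≤ k * (1 + R) ^ k * c :=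
    mul_le_mul (mul_le_mul (by exact_mod_cast h1) (pow_le_pow_right₀ (by linarith) h1)
      (by positivity) (by positivity)) hc (hs_nonneg _) (by positivity)
  linarith [h.dg l h0 h1 h2]⟩

/-- the full contraction of `Vk l.reverse * d * Vk m` -/
def ctr (s : ℝ) : List (ι → ℝ) → (ι → ℝ) → List (ι → ℝ) → ι → ℝ
  | [], d, [] => d
  | a :: l, d, b :: m => eta s (a * d) • ctr s l b m
  | [], _, _ :: _ => 0
  | _ :: _, _, [] => 0

lemma abs_mul_le_one' {a d : ι → ℝ} (ha : ∀ i, |a i| ≤ 1) (hd : ∀ i, |d i| ≤ 1) (i : ι) :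
    |(a * d) i| ≤ 1 := by
  rw [Pi.mul_apply, abs_mul]; exact mul_le_one₀ (ha i) (abs_nonneg _) (hd i)

lemma abs_ctr_le (hs : s ^ 2 * Fintype.card ι ≤ 1) : ∀ (l : List (ι → ℝ)) (d : ι → ℝ)
    (m : List (ι → ℝ)), Bd l → (∀ i, |d i| ≤ 1) → Bd m → ∀ i, |ctr s l d m i| ≤ 1
  | [], _, [], _, h, _, i => h i
  | a :: l, d, b :: m, h1, h2, h3, i => by
    rw [ctr, Pi.smul_apply, smul_eq_mul, abs_mul]
    exact mul_le_one₀ (abs_eta_le hs zero_le_one (abs_mul_le_one' (bd_cons.1 h1).1 h2))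
      (abs_nonneg _) (abs_ctr_le hs l b m (bd_cons.1 h1).2 (bd_cons.1 h3).1 (bd_cons.1 h3).2 i)
  | [], _, _ :: _, _, _, _, _ => by simp [ctr]
  | _ :: _, _, [], _, _, _, _ => by simp [ctr]

lemma nrm_diag_mul {d : ι → ℝ} (hd : ∀ i, |d i| ≤ 1) (A : Matrix ι ι ℝ) :
    nrm (diagonal d * A).diag ≤ nrm A.diag := by
  refine Real.sqrt_le_sqrt (sum_le_sum fun i _ => ?_)
  have := abs_le.1 (hd i)
  simp only [diag_apply, diagonal_mul]
  nlinarith [mul_self_nonneg (A i i), mul_nonneg (sub_nonneg.2 this.2) (by linarith : 0 ≤ 1 + d i)]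

/-- **the diagonal of a product of two words** -/
theorem UW.dg_mul (h : UW s J R k K) (hK : 0 ≤ K) (hs : s ^ 2 * Fintype.card ι ≤ 1) :
    ∀ (l : List (ι → ℝ)) (d : ι → ℝ) (m : List (ι → ℝ)), l.length + m.length ≤ k → Bd l →
      (∀ i, |d i| ≤ 1) → Bd m →
      nrm ((Vk s J l.reverse * diagonal d * Vk s J m).diag - ctr s l d m) ≤ (l.length + 1) * K
  | [], d, [], _, _, _, _ => by
    have : (diagonal d).diag - d = 0 := by ext i; simp
    simp [ctr, this, nrm, hK]
  | [], d, b :: m, h0, _, h2, h3 => by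
    simp only [List.reverse_nil, Vk_nil, Matrix.one_mul, ctr, sub_zero, List.length_nil,
      Nat.cast_zero, zero_add, one_mul]
    exact (nrm_diag_mul h2 _).trans (h.dg _ (by simp) (by simpa using h0) h3)
  | a :: l, d, [], h0, h1, h2, _ => by
    rw [List.reverse_cons, (mul_diag a d _).1, Vk_nil, Matrix.mul_one, ctr, sub_zero]
    refine (h.dg _ (by simp) (by simpa using h0) (bd_append.2 ⟨(bd_cons.1 h1).2.reverse,
      bd_cons.2 ⟨abs_mul_le_one' (bd_cons.1 h1).1 h2, Bd.nil⟩⟩)).trans ?_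
    nlinarith [mul_nonneg (Nat.cast_nonneg (α := ℝ) (a :: l).length) hK]
  | a :: l, d, b :: m, h0, h1, h2, h3 => by
    have had := abs_mul_le_one' (bd_cons.1 h1).1 h2
    have i1 := UW.dg_mul h hK hs l b m (by simp at h0; omega) (bd_cons.1 h1).2 (bd_cons.1 h3).1
      (bd_cons.1 h3).2
    have i2 := h.dg (l.reverse ++ (a * d) :: b :: m) (by simp) (by simp at h0 ⊢; omega)
      (bd_append.2 ⟨(bd_cons.1 h1).2.reverse, bd_cons.2 ⟨had, h3⟩⟩)
    rw [List.reverse_cons, (mul_diag a d _).1, (prod_rule _ _ _).1, ctr, Uk_cons, diag_add,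
      diag_smul, add_sub_assoc, ← smul_sub, ← Matrix.mul_assoc]
    refine (nrm_add_le _ _).trans ?_
    rw [nrm_smul, List.length_cons]
    have := mul_le_mul (abs_eta_le hs zero_le_one had) i1 (nrm_nonneg _) zero_le_one
    push_cast
    linarith

/-- averaging over signs -/
lemma sq_le_of_signs (M : ι → ι → ℝ) {c : ℝ}
    (h : ∀ z : ι → ℝ, (∀ j, |z j| ≤ 1) → ∑ i, (∑ j, M i j * z j) ^ 2 ≤ c) :
    ∑ i, ∑ j, M i j ^ 2 ≤ c := by
  set sg : Bool → ℝ := fun b => if b then 1 else -1 with hsg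
  have o : ∀ j j' : ι, ∑ z : ι → Bool, sg (z j) * sg (z j') =
      if j = j' then (Fintype.card (ι → Bool) : ℝ) else 0 := fun j j' => by
    split_ifs with e
    · subst e
      have : ∀ b, sg b * sg b = 1 := fun b => by cases b <;> simp [hsg]
      simp [this]
    · refine sum_involution (fun z _ => Function.update z j (!z j)) (fun z _ => ?_)
        (fun z _ _ h => ?_) (fun _ _ => mem_univ _) fun z _ => by simp
      · rw [Function.update_self, Function.update_of_ne (Ne.symm e)]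
        cases z j <;> cases z j' <;> simp [hsg]
      · simpa using congrFun h j
  have e : ∑ z : ι → Bool, ∑ i, (∑ j, M i j * sg (z j)) ^ 2 =
      Fintype.card (ι → Bool) * ∑ i, ∑ j, M i j ^ 2 := by
    rw [sum_comm, mul_sum]
    refine sum_congr rfl fun i _ => ?_
    simp only [sq, sum_mul_sum]
    rw [sum_comm, mul_sum]
    refine sum_congr rfl fun j _ => ?_
    rw [sum_comm]
    have : ∀ j', ∑ z : ι → Bool, M i j * sg (z j) * (M i j' * sg (z j')) =
        M i j * M i j' * ∑ z : ι → Bool, sg (z j) * sg (z j') := fun j' => by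
      rw [mul_sum]; exact sum_congr rfl fun z _ => by ring
    simp only [this, o, mul_ite, mul_zero, sum_ite_eq, mem_univ, if_true]
    ring
  have h2 : ∑ z : ι → Bool, ∑ i, (∑ j, M i j * sg (z j)) ^ 2 ≤ Fintype.card (ι → Bool) * c := by
    simpa using sum_le_card_nsmul univ _ _ fun (z : ι → Bool) _ =>
      h (fun j => sg (z j)) fun j => by cases z j <;> simp [hsg]
  rw [e] at h2
  exact le_of_mul_le_mul_left h2 (by exact_mod_cast Fintype.card_pos)

/-- **entrywise products of two words** -/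
theorem UW.had (h : UW s J R k K) (hK : 0 ≤ K) (hs : s ^ 2 * Fintype.card ι ≤ 1)
    {l m : List (ι → ℝ)} {b : ι → ℝ} (h0 : l.length + m.length + 2 ≤ k) (hl : Bd l)
    (hm : Bd (b :: m)) : ∑ i, ∑ j, (Wk s J l.reverse i j * Vk s J (b :: m) j i -
      s ^ 2 * ctr s l b m i) ^ 2 ≤ ((l.length + 2) * K) ^ 2 := by
  refine sq_le_of_signs (fun i j => Wk s J l.reverse i j * Vk s J (b :: m) j i -
    s ^ 2 * ctr s l b m i) fun z hz => ?_
  have h1 := h.dg_mul hK hs (1 :: l) z (b :: m) (by simp; omega)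
    (bd_cons.2 ⟨fun _ => by simp, hl⟩) hz hm
  rw [nrm_le_iff (by positivity), List.length_cons] at h1
  refine le_of_eq_of_le (sum_congr rfl fun i _ => ?_) (h1.trans (le_of_eq (by push_cast; ring)))
  rw [← sq]
  refine congrArg (· ^ 2) ?_
  have e : (Vk s J (1 :: l).reverse * diagonal z * Vk s J (b :: m)).diag i =
      ∑ j, Wk s J l.reverse i j * z j * Vk s J (b :: m) j i := by
    rw [diag_apply, mul_apply, List.reverse_cons, Wk]
    simp only [mul_diagonal]
  rw [Pi.sub_apply, e, ctr, one_mul, eta, Pi.smul_apply, smul_eq_mul, mul_right_comm, mul_sum,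
    ← sum_sub_distrib]
  exact sum_congr rfl fun j _ => by ring

/-- fourth powers of the entries -/
theorem UW.four (h : UW s J R k K) (hJ : Jᵀ = J) (hK : 0 ≤ K) (hs : s ^ 2 * Fintype.card ι ≤ 1)
    {l : List (ι → ℝ)} (h0 : 2 * l.length + 2 ≤ k) (hl : Bd l) :
    ∑ i, ∑ j, Wk s J l i j ^ 4 ≤ 2 * ((l.length + 2) * K) ^ 2 + 2 := by
  obtain ⟨b, m, e⟩ : ∃ b m, l.reverse ++ [1] = b :: m := List.exists_cons_of_ne_nil (by simp)
  have hm : Bd (b :: m) := e ▸ bd_append.2 ⟨hl.reverse, bd_one⟩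
  have hlen : m.length = l.length := by simpa using (congrArg List.length e).symm
  have h1 := h.had hK hs (l := l.reverse) (by simp; omega) hl.reverse hm
  rw [List.reverse_reverse, ← e, List.length_reverse] at h1
  have e2 : ∀ i j, Vk s J (l.reverse ++ [1]) j i = Wk s J l i j := fun i j => by
    rw [← Wk, ← (rev hJ l).1, transpose_apply]
  simp only [e2] at h1
  have h2 : ∀ i j, Wk s J l i j ^ 4 ≤ 2 * (Wk s J l i j * Wk s J l i j -
      s ^ 2 * ctr s l.reverse b m i) ^ 2 + 2 * (s ^ 2) ^ 2 := fun i j => by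
    have c := abs_ctr_le hs l.reverse b m hl.reverse (bd_cons.1 hm).1 (bd_cons.1 hm).2 i
    have c2 : ctr s l.reverse b m i ^ 2 ≤ 1 := by rwa [sq_le_one_iff_abs_le_one]
    nlinarith [sq_nonneg (Wk s J l i j * Wk s J l i j - 2 * (s ^ 2 * ctr s l.reverse b m i)),
      mul_le_mul_of_nonneg_left c2 (sq_nonneg (s ^ 2))]
  refine (sum_le_sum fun i _ => sum_le_sum fun j _ => h2 i j).trans ?_
  simp only [sum_add_distrib, ← mul_sum, sum_const, card_univ, nsmul_eq_mul]
  have : (s ^ 2 * Fintype.card ι) ^ 2 ≤ 1 := pow_le_one₀ (by positivity) hs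
  nlinarith

end Crest.Agent.T157.Uw
end
private theorem rz_298c1973a1 : type_of% @_root_.Crest.Agent.T157.Uw.ctr.eq_def := @_root_.Crest.Agent.T157.Uw.ctr.eq_def -- L320
private theorem rz_55bce3ab7d : type_of% @_root_.Crest.Agent.T157.Uw.ctr.eq_1 := @_root_.Crest.Agent.T157.Uw.ctr.eq_1 -- L320
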