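import Crest.Agent.T157.S3Def_69
import Crest.Agent.T157.S3Jb_82
import Crest.Agent.T157.UwA_98
import Crest.Agent.T157.S3Fl_82
import Crest.Agent.T157.S3W_43
import Crest.Agent.T157.S3X_43
import Crest.Agent.T157.Chain_22

-- ▼ part T157/S3J1_82
section

/-!
# Row 157, part B, block S3 (helper82): the leaf (J1)
-/

set_option autoImplicit false

noncomputable section

namespace Crest.Agent.T157.S3

open Matrix Finset Function
open Crest.Agent.T157.E (Cube sv mean prob)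
open Crest.Agent.T157.Rec (grad fl)
open Crest.Agent.T157.Eig
open Crest.Agent.T157.Uw (eta)
open Crest.Agent.T157.S3F
open Crest.Agent.T157.S3W (Cx)
open Fam

namespace J82

/-- one constant for finitely many bounds -/
lemma fin_bd {σ : Type*} [Fintype σ] {p : σ → ℝ → Prop} (h : ∀ m, ∃ C, p m C)
    (mono : ∀ m C D, C ≤ D → p m C → p m D) : ∃ C, 0 ≤ C ∧ ∀ m, p m C := by
  choose C hC using h
  exact ⟨∑ m, |C m|, sum_nonneg fun m _ => abs_nonneg _, fun m => mono m _ _ ((le_abs_self _).trans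
    (single_le_sum (f := fun m => |C m|) (fun m _ => abs_nonneg _) (mem_univ m))) (hC m)⟩

lemma tay_mono {σ : Type*} [Fintype σ] {L L' : ℝ} {g : (σ → ℝ) → ℝ} {g' : (σ → ℝ) → σ → ℝ}
    (h : Tay L g g') (hL : L ≤ L') : Tay L' g g' := fun ξ v =>
  (h ξ v).trans (mul_le_mul_of_nonneg_right hL (by positivity))

lemma cube_le {σ : Type*} [Fintype σ] (a : σ → ℝ) :
    (∑ m, a m ^ 2) * ∑ m, |a m| ≤ 2 * Fintype.card σ * ∑ m, |a m| ^ 3 := by
  have h : ∀ m p, a m ^ 2 * |a p| ≤ |a m| ^ 3 + |a p| ^ 3 := fun m p => by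
    rw [← sq_abs (a m)]
    have h1 := abs_nonneg (a m)
    have h2 := abs_nonneg (a p)
    nlinarith [mul_nonneg (add_nonneg h1 h2) (sq_nonneg (|a m| - |a p|)),
      mul_nonneg h1 (mul_nonneg h2 h2)]
  rw [sum_mul_sum]
  refine (sum_le_sum fun m _ => sum_le_sum fun p _ => h m p).trans (le_of_eq ?_)
  simp only [sum_add_distrib, sum_const, card_univ, nsmul_eq_mul, ← mul_sum]
  ring

lemma pd_dep {n N : ℕ} {l m : Fin N} {g : LF n N} (hd : Dep l g)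
    (hg : ∀ k s, Differentiable ℝ (g k s)) (hm : l ≤ m) : pd m g = 0 := by
  funext k s ξ
  have h1 := line_of_fderiv (hg k s) ξ (Pi.single m 1) 0
  have h2 : (fun t : ℝ => g k s (ξ + t • Pi.single m 1)) = fun _ => g k s ξ := funext fun t =>
    hd k s _ _ fun p hp => by simp [Pi.single_eq_of_ne (hp.trans_le hm).ne]
  rw [h2] at h1
  simpa [pd] using h1.unique (hasDerivAt_const _ _)

lemma ts_eq {n : ℕ} (G : Cube n → ℝ) (x : Cube n) :
    ∑ j, (G x - G (fl x j)) ^ 2 = 4 * (grad G x ⬝ᵥ grad G x) := by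
  rw [dotProduct, mul_sum]
  refine sum_congr rfl fun j _ => ?_
  rw [Da.Gr.val_fl G]
  linear_combination (4 * grad G x j ^ 2) * Rec.sv_mul_self x j

lemma grad_eta {n : ℕ} (s : ℝ) (u : Cube n → V n) (x : Cube n) :
    grad (fun y => eta s (u y)) x = s ^ 2 • (jac u x)ᵀ *ᵥ 1 := by
  funext j
  simp only [eta, Rec.grad_const_mul, Da.Gr.grad_sum, Pi.smul_apply, mulVec, dotProduct,
    transpose_apply, jac_apply, Pi.one_apply, mul_one, smul_eq_mul]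

variable {F : Fam} {N : ℕ} {R : Net F N}

lemma hs (hF : F.Ok) (i : F.I) : F.s i ^ 2 * Fintype.card (Fin (F.n i)) ≤ 1 := by
  have h0 : (0 : ℝ) < F.n i := by exact_mod_cast hF.pos i
  rw [Fam.s, div_pow, Real.sq_sqrt h0.le, Fintype.card_fin, div_mul_cancel₀ _ h0.ne']
  exact pow_le_one₀ hF.beta.1 hF.beta.2

lemma isP_w (i : F.I) : Chain22.IsP (prob (F.w i)) :=
  ⟨fun x => div_nonneg (Real.exp_pos _).le (sum_nonneg fun y _ => (Real.exp_pos _).le), by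
    simp only [prob, ← sum_div]
    exact div_self (sum_pos (fun y _ => Real.exp_pos _) univ_nonempty).ne'⟩

lemma bd_ev (hR : R.Ok) {g : F.Lf (N + 1)} (hg : g ∈ R.C) :
    ∃ C, 0 ≤ C ∧ ∀ ω k, |R.ev g ω k| ≤ C :=
  let ⟨C, h⟩ := hR.bd g hg
  ⟨max C 0, le_max_right _ _, fun _ _ => (h _ _ _ _).trans (le_max_left _ _)⟩

lemma me_bd (hF : F.Ok) (hR : R.Ok) {g : F.Lf (N + 1)} (hg : g ∈ R.C) :
    ∃ C, ∀ i, |F.me (R.ev g) i| ≤ C :=
  let ⟨C, h0, h⟩ := bd_ev hR hg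
  ⟨C, fun i => (isP_w i).abs_mean_le fun x => Uw.abs_eta_le (hs hF i) h0 (h ⟨i, x⟩)⟩

lemma me_zero (i : F.I) : F.me (R.ev 0) i = 0 := by simp [Fam.me, Fam.E, Net.ev, eta, mean]

lemma top_of_mem (hR : R.Ok) {g : F.Lf (N + 1)} (hg : g ∈ R.C) : R.Top g :=
  ⟨hR.diff g hg, hR.gs g hg, hR.pd g hg⟩

lemma pd_bd (hR : R.Ok) {g : F.Lf (N + 1)} (hg : R.Top g) :
    ∃ C, 0 ≤ C ∧ ∀ m i k s ξ, |R.pd m g i k s ξ| ≤ C :=
  fin_bd (fun m => hR.bd _ (hg.2.2 m)) fun _ _ _ e h i k s ξ => (h i k s ξ).trans e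

lemma pd_lip (hR : R.Ok) {g : F.Lf (N + 1)} (hg : R.Top g) : ∃ C, 0 ≤ C ∧ ∀ m i k s a h,
    |R.pd m g i k s (a + h) - R.pd m g i k s a| ≤ C * ∑ p, |h p| :=
  fin_bd (fun m => let ⟨C, _, hC⟩ := pd_bd hR (top_of_mem hR (hg.2.2 m))
    ⟨C, fun i k s => lip_of_bd (line_of_fderiv (hR.diff _ (hg.2.2 m) i k s))
      fun a p => hC p i k s a⟩)
    fun _ _ _ e h i k s a v => (h i k s a v).trans (mul_le_mul_of_nonneg_right e (by positivity))

lemma tay (hR : R.Ok) {g : F.Lf (N + 1)} (hg : R.Top g) :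
    ∃ L, 0 ≤ L ∧ ∀ i k s, Tay L (g i k s) fun ξ m => R.pd m g i k s ξ :=
  let ⟨C, h0, hC⟩ := pd_lip hR hg
  ⟨_, by positivity, fun i k s => tay_of_lip h0 (line_of_fderiv (hg.1 i k s))
    fun a h m => hC m i k s a h⟩

lemma opn_inst {n M : ℕ} {L C A : ℝ} (hL : 0 ≤ L) (hC : 0 ≤ C) {g : LF n M}
    {g' : Fin n → Bool → (Fin M → ℝ) → Fin M → ℝ} (hT : ∀ k b, Tay L (g k b) (g' k b))
    (h1 : ∀ k b ξ m, |g' k b ξ m| ≤ C) (h2 : ∀ k ξ, |gs g k true ξ| ≤ C) (S : Fin M → Prop)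
    (hd : ∀ k s ξ ξ', (∀ m, S m → ξ m = ξ' m) → g k s ξ = g k s ξ') (hA : 0 ≤ A)
    (X : Fin M → Cube n → V n) (x : Cube n) (hX : ∀ m, S m → opn (jac (X m) x) ≤ A) :
    opn (jac (fun y k => g k (y k) fun m => X m y k) x) ≤
      C + 3 * C * ∑ _m : Fin M, A + 2 * L * ∑ _m : Fin M, A ^ 2 := by
  classical
  set X' : Fin M → Cube n → V n := fun m => if S m then X m else fun _ => 0 with hX'
  have e : (fun (y : Cube n) k => g k (y k) fun m => X m y k) =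
      fun y k => g k (y k) fun m => X' m y k :=
    funext fun y => funext fun k => hd _ _ _ _ fun m hm => by simp only [hX', if_pos hm]
  have b : ∀ m, opn (jac (X' m) x) ≤ A := fun m => by
    by_cases h : S m
    · simp only [hX', if_pos h, hX m h]
    · simp only [hX', if_neg h, jac_const, opn_zero, hA]
  rw [e]
  refine (opn_jac_loc hL hC hT h1 (fun k ξ => ?_) X' x).trans ?_
  · have := h2 k ξ
    rw [gs, abs_div, abs_two] at this
    linarith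
  · exact add_le_add (add_le_add le_rfl (mul_le_mul_of_nonneg_left (sum_le_sum fun m _ => b m)
      (by positivity))) (mul_le_mul_of_nonneg_left (sum_le_sum fun m _ =>
        pow_le_pow_left₀ (opn_nonneg _) (b m) 2) (by positivity))

/-- the Jacobian of a local function of the fields in `S` -/
lemma op_ev (hR : R.Ok) {g : F.Lf (N + 1)} (hg : R.Top g) (S : Fin (N + 1) → Prop)
    (hd : ∀ i k s ξ ξ', (∀ m, S m → ξ m = ξ' m) → g i k s ξ = g i k s ξ')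
    (hX : ∀ m, S m → R.cx.Op (F.jc (R.X m))) : R.cx.Op (F.jc (R.ev g)) := by
  obtain ⟨L, l0, hL⟩ := tay hR hg
  obtain ⟨C, c0, hC⟩ := pd_bd hR hg
  obtain ⟨D, hD⟩ := hR.bd _ hg.2.1
  obtain ⟨A, a0, hA⟩ := fin_bd (p := fun m A => S m → ∀ ω, opn (F.jc (R.X m) ω) ≤ A)
    (fun m => (em (S m)).elim (fun h => let ⟨A, hA⟩ := hX m h; ⟨A, fun _ => hA⟩)
      fun h => ⟨0, fun h' => (h h').elim⟩) fun _ _ _ e h h' ω => (h h' ω).trans e
  exact ⟨_, fun ω => opn_inst l0 (c0.trans (le_max_left C D)) (hL ω.1)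
    (fun k b ξ m => (hC m _ k b ξ).trans (le_max_left _ _))
    (fun k ξ => (hD ω.1 k true ξ).trans (le_max_right _ _)) S (hd ω.1) a0
    (fun m y => R.X m ⟨ω.1, y⟩) ω.2 fun m hm => hA m hm ω⟩

lemma op_J (hF : F.Ok) : R.cx.Op fun ω => F.J ω.1 :=
  let ⟨r, h⟩ := hF.uw; let ⟨_, h⟩ := h 0; ⟨r, fun ω => (h ω.1).op⟩

/-- triangular sums -/
lemma op_tri {P : ℕ} {l : Fin P} {c : Fin P → F.I → ℝ} {A : Fin P → F.Mf}
    (hc : ∀ m, ∃ C, ∀ i, |c m i| ≤ C) (h0 : ∀ m i, l ≤ m → c m i = 0)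
    (hA : ∀ m < l, R.cx.Op (A m)) : R.cx.Op fun ω => ∑ m, c m ω.1 • A m ω :=
  Cx.Op.sum _ fun m _ => by
    rcases lt_or_ge m l with h | h
    · obtain ⟨C, hC⟩ := hc m
      obtain ⟨D, hD⟩ := hA m h
      exact ⟨C * D, fun ω => Uw.opn_smul_le (hC _) (hD ω)⟩
    · exact ⟨0, fun ω => by simp only [h0 m _ h, zero_smul, opn_zero, le_refl]⟩

lemma op_X (hF : F.Ok) (hR : R.Ok) (l : Fin (N + 1)) : R.cx.Op (F.jc (R.X l)) := by
  induction l using WellFoundedLT.induction with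
  | _ l ih =>
  have h1 : ∀ m ≤ l, R.cx.Op (F.jc (R.ev (R.f m))) := fun m hm =>
    op_ev hR (top_of_mem hR (hR.fC m)) (· < m) (hR.dep m) fun p hp => ih p (hp.trans_le hm)
  obtain ⟨κ, hκ⟩ := hR.hX l
  refine Cx.cg (((op_J hF).mul (h1 l le_rfl)).sub (op_tri (l := l) (c := R.o l)
    (fun m => me_bd hF hR (hR.pd _ (hR.fC l) m)) (fun m i hm => ?_) fun m hm => h1 m hm.le))
    fun ω => ?_
  · have : R.pd m (R.f l) = 0 := funext fun i => pd_dep (hR.dep l i) (hR.diff _ (hR.fC l) i) hm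
    rw [Net.o, this, me_zero]
  · simp only [Fam.jc, hκ, jac_sub, jac_sum, jac_smul, jac_const, sub_zero]
    exact congrArg (· - _) (jac_mulVec (F.J ω.1) (fun x => R.ev (R.f l) ⟨ω.1, x⟩) ω.2).symm

lemma op_top (hF : F.Ok) (hR : R.Ok) {g : F.Lf (N + 1)} (hg : R.Top g) :
    R.cx.Op (F.jc (R.ev g)) :=
  op_ev hR hg (fun _ => True) (fun i k s ξ ξ' h => by rw [funext fun m => h m trivial])
    fun m _ => op_X hF hR m

lemma rem_le (hR : R.Ok) {g : F.Lf (N + 1)} (hg : R.Top g) : ∃ C : ℝ, ∀ ω k j,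
    |R.rem g ω k j| ≤ C * ∑ m, |F.jc (R.X m) ω k j| ^ (if k = j then 2 else 3) := by
  obtain ⟨L, l0, hL⟩ := tay hR hg
  obtain ⟨C, c0, hC⟩ := pd_lip hR hg
  obtain ⟨M, m0, hM⟩ := fin_bd (p := fun m M => ∀ i k s, Tay M (R.pd m g i k s)
      fun ξ p => R.pd p (R.pd m g) i k s ξ)
    (fun m => let ⟨M, _, h⟩ := tay hR (top_of_mem hR (hg.2.2 m)); ⟨M, h⟩)
    fun _ _ _ e h i k s => tay_mono (h i k s) e
  set c : ℝ := (Fintype.card (Fin (N + 1)) : ℝ)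
  have hc : 0 ≤ c := Nat.cast_nonneg _
  refine ⟨L + C * c + 2 * M * (2 * c), fun ω k j => ?_⟩
  by_cases h : k = j
  · subst h
    have h1 := chain_diag (hL ω.1) (fun k b a h m => hC m _ k b a h)
      (fun m y => R.X m ⟨ω.1, y⟩) ω.2 k
    have h2 := sq_sum_le_card_mul_sum_sq (s := univ) (f := fun m => |F.jc (R.X m) ω k k|)
    have h3 := mul_le_mul_of_nonneg_left h2 c0
    have h4 : 0 ≤ 2 * M * (2 * c) * ∑ m, F.jc (R.X m) ω k k ^ 2 := by positivity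
    simp only [if_true, sq_abs, card_univ] at h3 ⊢
    refine le_trans (le_of_eq ?_) (h1.trans ?_)
    · simp only [Net.rem, Matrix.sub_apply, Matrix.add_apply, Matrix.sum_apply, hadamard_apply,
        diagonal_apply_eq]
      rfl
    · simp only [Fam.jc] at h3 h4 ⊢
      linarith
  · have h1 := chain3 m0 (hL ω.1) (fun k b m => hM m ω.1 k b) (fun m y => R.X m ⟨ω.1, y⟩) ω.2 h
    have h2 := mul_le_mul_of_nonneg_left (cube_le fun m => F.jc (R.X m) ω k j)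
      (by positivity : 0 ≤ 2 * M)
    have h4 : 0 ≤ (L + C * c) * ∑ m, |F.jc (R.X m) ω k j| ^ 3 := by positivity
    simp only [if_neg h]
    refine le_trans (le_of_eq ?_) (h1.trans ?_)
    · simp only [Net.rem, Matrix.sub_apply, Matrix.add_apply, Matrix.sum_apply, hadamard_apply,
        diagonal_apply_ne _ h, zero_add]
      rfl
    · simp only [Fam.jc] at h2 h4 ⊢
      linarith

/-! ### the scalar classes -/

lemma sb_const (r : ℝ) : Sb (F := F) fun _ => r :=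
  ⟨|r|, fun i => ⟨fun _ => le_rfl, fun x => by simp; positivity⟩⟩

lemma sb_add {s t : F.Sf} (hs : Sb s) (ht : Sb t) : Sb fun ω => s ω + t ω := by
  obtain ⟨C, hs⟩ := hs
  obtain ⟨D, ht⟩ := ht
  refine ⟨2 * C + 2 * D, fun i => ⟨fun x => ?_, fun x => ?_⟩⟩
  · linarith [abs_add_le (s ⟨i, x⟩) (t ⟨i, x⟩), (hs i).1 x, (ht i).1 x, abs_nonneg (s ⟨i, x⟩),
      abs_nonneg (t ⟨i, x⟩)]
  · have h1 := (hs i).2 x
    have h2 := (ht i).2 x
    refine (sum_le_sum (g := fun j => 2 * (s ⟨i, x⟩ - s ⟨i, fl x j⟩) ^ 2 +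
      2 * (t ⟨i, x⟩ - t ⟨i, fl x j⟩) ^ 2) fun j _ => ?_).trans ?_
    · nlinarith [sq_nonneg (s ⟨i, x⟩ - s ⟨i, fl x j⟩ - (t ⟨i, x⟩ - t ⟨i, fl x j⟩))]
    · rw [sum_add_distrib, ← mul_sum, ← mul_sum, add_div, mul_div_assoc, mul_div_assoc]
      linarith

lemma sb_mul {s t : F.Sf} (hs : Sb s) (ht : Sb t) : Sb fun ω => s ω * t ω := by
  obtain ⟨C, hs⟩ := hs
  obtain ⟨D, ht⟩ := ht
  refine ⟨C * D + (2 * C ^ 2 * D + 2 * D ^ 2 * C), fun i => ?_⟩
  have c0 : 0 ≤ C := (abs_nonneg _).trans ((hs i).1 fun _ => true)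
  have d0 : 0 ≤ D := (abs_nonneg _).trans ((ht i).1 fun _ => true)
  refine ⟨fun x => ?_, fun x => ?_⟩
  · rw [abs_mul]
    exact (mul_le_mul ((hs i).1 x) ((ht i).1 x) (abs_nonneg _) c0).trans
      (le_add_of_nonneg_right (by positivity))
  · have h1 := mul_le_mul_of_nonneg_left ((hs i).2 x) (by positivity : 0 ≤ 2 * D ^ 2)
    have h2 := mul_le_mul_of_nonneg_left ((ht i).2 x) (by positivity : 0 ≤ 2 * C ^ 2)
    refine (sum_le_sum (g := fun j => 2 * D ^ 2 * (s ⟨i, x⟩ - s ⟨i, fl x j⟩) ^ 2 +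
      2 * C ^ 2 * (t ⟨i, x⟩ - t ⟨i, fl x j⟩) ^ 2) fun j _ => ?_).trans ?_
    · have e1 := mul_le_mul_of_nonneg_right (sq_le_sq' (abs_le.1 ((hs i).1 x)).1
        (abs_le.1 ((hs i).1 x)).2) (sq_nonneg (t ⟨i, x⟩ - t ⟨i, fl x j⟩))
      have e2 := mul_le_mul_of_nonneg_right (sq_le_sq' (abs_le.1 ((ht i).1 (fl x j))).1
        (abs_le.1 ((ht i).1 (fl x j))).2) (sq_nonneg (s ⟨i, x⟩ - s ⟨i, fl x j⟩))
      nlinarith [sq_nonneg (s ⟨i, x⟩ * (t ⟨i, x⟩ - t ⟨i, fl x j⟩) -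
        t ⟨i, fl x j⟩ * (s ⟨i, x⟩ - s ⟨i, fl x j⟩))]
    · have : 0 ≤ C * D / F.n i := by positivity
      rw [sum_add_distrib, ← mul_sum, ← mul_sum, add_div, add_div, mul_div_assoc (2 * C ^ 2),
        mul_div_assoc (2 * D ^ 2)]
      linarith

/-- `η(u)` for a bounded field with bounded Jacobian -/
lemma sb_eta (hF : F.Ok) {u : F.Vf} (hb : ∃ C, 0 ≤ C ∧ ∀ ω k, |u ω k| ≤ C)
    (hj : R.cx.Op (F.jc u)) : Sb fun ω => eta (F.s ω.1) (u ω) := by
  obtain ⟨C, c0, hC⟩ := hb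
  obtain ⟨D, hD⟩ := hj
  refine ⟨C + 4 * D ^ 2, fun i => ⟨fun x => (Uw.abs_eta_le (hs hF i) c0 (hC ⟨i, x⟩)).trans
    (le_add_of_nonneg_right (by positivity)), fun x => ?_⟩⟩
  have n0 : (0 : ℝ) < F.n i := by exact_mod_cast hF.pos i
  have h1 := mulVec_dot_le (F.jc u ⟨i, x⟩)ᵀ 1
  have h2 : opn (F.jc u ⟨i, x⟩)ᵀ ^ 2 ≤ D ^ 2 := by
    rw [opn_transpose]; exact pow_le_pow_left₀ (opn_nonneg _) (hD _) 2
  have h3 := hs hF i
  have h4 : (1 : V (F.n i)) ⬝ᵥ 1 = F.n i := by simp [dotProduct]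
  rw [Fintype.card_fin] at h3
  rw [h4] at h1
  have h5 := mul_le_mul (pow_le_one₀ (n := 2) (by positivity) h3) h2 (sq_nonneg _) zero_le_one
  have h6 := mul_le_mul_of_nonneg_left h1 (by positivity : 0 ≤ F.s i ^ 2 * F.s i ^ 2 * F.n i)
  refine (ts_eq (fun y => eta (F.s i) (u ⟨i, y⟩)) x).trans_le ?_
  rw [grad_eta, smul_dotProduct, dotProduct_smul, le_div_iff₀ n0, smul_eq_mul, smul_eq_mul]
  simp only [Fam.jc] at h5 h6
  linarith

lemma cx_ok (hC : ClsStmt) (hF : F.Ok) (hR : R.Ok) : R.cx.Ok where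
  symm ω := hF.symm ω.1
  hs ω := hs hF ω.1
  K1 ω := hF.K1 ω.1
  uw := let ⟨r, h⟩ := hF.uw; ⟨r, fun k => let ⟨C, h⟩ := h k; ⟨C, fun ω => h ω.1⟩⟩
  bl_bd := by rintro _ ⟨g, hg, rfl⟩; exact let ⟨C, _, h⟩ := bd_ev hR hg; ⟨C, h⟩
  bl_const r := ⟨r • 1, hR.smul r 1 hR.one, by funext ω k; simp [Net.ev]⟩
  bl_add := by rintro _ _ ⟨g, hg, rfl⟩ ⟨g', hg', rfl⟩; exact ⟨g + g', hR.add g hg g' hg', rfl⟩
  bl_mul := by rintro _ _ ⟨g, hg, rfl⟩ ⟨g', hg', rfl⟩; exact ⟨g * g', hR.mul g hg g' hg', rfl⟩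
  sc_bd := fun ⟨C, h⟩ => ⟨C, fun ω => (h ω.1).1 ω.2⟩
  sc_const := sb_const
  sc_add := sb_add
  sc_mul := sb_mul
  sc_et := by
    rintro _ ⟨g, hg, rfl⟩
    exact sb_eta hF (bd_ev hR hg) (op_top hF hR (top_of_mem hR hg))
  th := ⟨fun h => h.1, ⟨sb_const 0, 0, fun i => by simp [Fam.E, mean]⟩,
    fun {s t} ⟨h1, C, hC⟩ ⟨h2, D, hD⟩ => ⟨sb_add h1 h2, C + D, fun i => by
      have e : F.E (fun ω => s ω + t ω) i = F.E s i + F.E t i := by
        simp only [Fam.E, mean, mul_add, sum_add_distrib]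
      rw [e, add_div]
      exact (abs_add_le _ _).trans (add_le_add (hC i) (hD i))⟩,
    fun h1 h2 => (hC F hF).2.1 _ _ h1 h2⟩

/-! ### flows -/

variable {P : ℕ} {Φ : Flow R P}

lemma op_dg (hR : R.Ok) {g : F.Lf (N + 1)} (hg : g ∈ R.C) : R.cx.Op (R.dg g) :=
  let ⟨C, c0, h⟩ := bd_ev hR hg; ⟨C, fun ω => opn_diagonal_le c0 (h ω)⟩

lemma op_bm_diag (hR : R.Ok) {g : F.Lf (N + 1)} (hg : g ∈ R.C) :
    R.cx.Op fun ω => diagonal (F.bm (R.ev g) ω).diag :=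
  let ⟨C, c0, h⟩ := bd_ev hR hg
  ⟨C, fun ω => opn_diagonal_le c0 fun k => abs_bar_le (fun x => h ⟨ω.1, x⟩ k) ω.2 k⟩

lemma op_bm_had (hF : F.Ok) (hR : R.Ok) {g : F.Lf (N + 1)} (hg : g ∈ R.C) {A : F.Mf}
    (hA : R.cx.Op A) : R.cx.Op fun ω => F.bm (R.ev g) ω ⊙ A ω :=
  let ⟨C, c0, h⟩ := bd_ev hR hg
  let ⟨D, hD⟩ := op_top hF hR (top_of_mem hR hg)
  let ⟨B, hB⟩ := hA
  ⟨(C + D) * B, fun ω => (opn_barM_had c0 (h ω) _).trans (mul_le_mul (add_le_add le_rfl (hD ω))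
    (hB ω) (opn_nonneg _) (add_nonneg c0 ((opn_nonneg _).trans (hD ω))))⟩

lemma bm_zero (ω : F.Ω) : F.bm (R.ev 0) ω = 0 := by
  ext k j; simp [Fam.bm, barM, bar_eq, Net.ev]

lemma op_tT (hF : F.Ok) (hR : R.Ok) {al : F.Lf (N + 1)} {a : Fin P → F.Lf (N + 1)}
    (h : Φ.Let al a) (hY : ∀ m, a m = 0 ∨ R.cx.Op (Φ.Y m) ∧ R.cx.Op (Φ.Yb m)) :
    R.cx.Op (Φ.tT al a) ∧ R.cx.Op (Φ.tTb al a) := by
  refine ⟨(op_dg hR h.1).add (Cx.Op.sum _ fun m _ => ?_),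
    (op_bm_diag hR h.1).add (Cx.Op.sum _ fun m _ => ?_)⟩ <;> rcases hY m with e | e
  · exact ⟨0, fun ω => by
      simp only [e, show R.dg 0 ω = 0 from diagonal_zero, Matrix.zero_mul, opn_zero, le_refl]⟩
  · exact (op_dg hR (h.2.2 m)).mul e.1
  · exact ⟨0, fun ω => by simp only [e, bm_zero, zero_hadamard, opn_zero, le_refl]⟩
  · exact op_bm_had hF hR (h.2.2 m) e.2

lemma ot_zero (hΦ : Φ.Ok) {l m : Fin P} (h : l ≤ m) (i : F.I) : Φ.ot i l m = 0 := by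
  rw [Flow.ot, hΦ.tri l m h, me_zero]

lemma op_Y (hF : F.Ok) (hR : R.Ok) (hΦ : Φ.Ok) (l : Fin P) :
    R.cx.Op (Φ.Y l) ∧ R.cx.Op (Φ.Yb l) := by
  induction l using WellFoundedLT.induction with
  | _ l ih =>
  have h1 : ∀ m ≤ l, R.cx.Op (Φ.T m) ∧ R.cx.Op (Φ.Tb m) := fun m hm =>
    op_tT hF hR (hΦ.lt m) fun p => (le_or_gt m p).imp (hΦ.tri m p) fun hp => ih p (hp.trans_le hm)
  have h2 := fun m => me_bd hF hR ((hΦ.lt l).2.2 m)
  exact ⟨Cx.cg (((op_J hF).mul (h1 l le_rfl).1).sub (op_tri (c := fun m i => Φ.ot i l m) h2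
      (fun m i hm => ot_zero hΦ hm i) fun m hm => (h1 m hm.le).1)) fun ω => (hΦ.hY l ω).symm,
    Cx.cg (((op_J hF).mul (h1 l le_rfl).2).sub (op_tri (c := fun m i => Φ.ot i l m) h2
      (fun m i hm => ot_zero hΦ hm i) fun m hm => (h1 m hm.le).2)) fun ω => (hΦ.hYb l ω).symm⟩

lemma free_tTb {al : F.Lf (N + 1)} {a : Fin P → F.Lf (N + 1)} {i : F.I}
    (hY : ∀ m, a m = 0 ∨ FreeM fun x => Φ.Yb m ⟨i, x⟩) : FreeM fun x => Φ.tTb al a ⟨i, x⟩ := by
  intro x k j b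
  simp only [Flow.tTb, Matrix.add_apply, Matrix.sum_apply, hadamard_apply]
  congr 1
  · by_cases h : k = j
    · subst h
      simp only [diagonal_apply_eq, Matrix.diag_apply, Fam.bm, barM, of_apply, bar_update]
    · simp only [diagonal_apply_ne _ h]
  · refine sum_congr rfl fun m _ => ?_
    rcases hY m with e | e
    · simp only [e, bm_zero, Matrix.zero_apply, zero_mul]
    · rw [show Φ.Yb m ⟨i, update x j b⟩ k j = Φ.Yb m ⟨i, x⟩ k j from e x k j b]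
      simp only [Fam.bm, barM, of_apply, bar_update]

lemma free_Yb (hΦ : Φ.Ok) (i : F.I) (l : Fin P) : FreeM fun x => Φ.Yb l ⟨i, x⟩ := by
  induction l using WellFoundedLT.induction with
  | _ l ih =>
  have h1 : ∀ m ≤ l, ∀ x k j b, Φ.Tb m ⟨i, update x j b⟩ k j = Φ.Tb m ⟨i, x⟩ k j := fun m hm =>
    free_tTb fun p => (le_or_gt m p).imp (hΦ.tri m p) fun hp => ih p (hp.trans_le hm)
  intro x k j b
  simp only [hΦ.hYb l, Matrix.sub_apply, mul_apply, Matrix.sum_apply, Matrix.smul_apply,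
    h1 l le_rfl]
  congr 1
  refine sum_congr rfl fun m _ => ?_
  rcases le_total l m with h | h
  · simp only [ot_zero hΦ h, zero_smul]
  · rw [h1 m h]

end J82

open J82 in
theorem j1Glue : J1Glue := fun hC _ _ _ hF hR =>
  ⟨cx_ok hC hF hR, op_X hF hR, fun _ => top_of_mem hR, fun _ hg => ⟨op_top hF hR hg, rem_le hR hg⟩,
    fun _ _ hΦ => ⟨op_Y hF hR hΦ, fun _ _ h =>
      have := op_tT hF hR h fun m => Or.inr (op_Y hF hR hΦ m)
      ⟨this.1, this.2, fun i => free_tTb fun m => Or.inr (free_Yb hΦ i m)⟩⟩⟩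

end Crest.Agent.T157.S3

end
end

-- ▼ part T157/S3BilA_89
section

/-!
# Row 157, block S3 (helper89): the deterministic core of (BIL)

Frobenius norm `fn`, Jacobian `jac`, flips of Wick words with random letters.
-/

set_option autoImplicit false
set_option linter.unusedSectionVars false

noncomputable section

namespace Crest.Agent.T157.S3B

open Matrix Finset
open Crest.Agent.T157.E (Cube sv prob)
open Crest.Agent.T157.Eig Crest.Agent.T157.Uw Crest.Agent.T157.S3F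
open Crest.Agent.T157.Rec (grad fl grad_eq sv_mul_self)
open Crest.Agent.T157.Chain22 (mean)

/-! ### the Frobenius norm -/

section fn
variable {ι κ μ : Type*} [Fintype ι] [DecidableEq ι] [Fintype κ] [DecidableEq κ] [Fintype μ]
  [DecidableEq μ]

/-- Frobenius norm -/
def fn (M : Matrix ι κ ℝ) : ℝ := nrm fun p : ι × κ => M p.1 p.2

lemma fn_nonneg (M : Matrix ι κ ℝ) : 0 ≤ fn M := nrm_nonneg _

lemma fn_sq (M : Matrix ι κ ℝ) : fn M ^ 2 = ∑ i, ∑ j, M i j ^ 2 := by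
  rw [fn, nrm_sq, dotProduct, Fintype.sum_prod_type]; simp only [sq]

lemma fn_eq (M : Matrix ι κ ℝ) : fn M = √(∑ i, ∑ j, M i j ^ 2) := by
  rw [← fn_sq, Real.sqrt_sq (fn_nonneg M)]

lemma fn_le {M : Matrix ι κ ℝ} {c : ℝ} (hc : 0 ≤ c) (h : ∑ i, ∑ j, M i j ^ 2 ≤ c ^ 2) : fn M ≤ c :=
  abs_le_of_sq_le_sq' (by rwa [fn_sq]) hc |>.2

lemma fn_add_le (M N : Matrix ι κ ℝ) : fn (M + N) ≤ fn M + fn N := nrm_add_le _ _
lemma fn_sub_le (M N : Matrix ι κ ℝ) : fn (M - N) ≤ fn M + fn N := nrm_sub_le _ _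

lemma fn_mono {M N : Matrix ι κ ℝ} (h : ∀ i j, |M i j| ≤ |N i j|) : fn M ≤ fn N :=
  fn_le (fn_nonneg N) (by
    rw [fn_sq]; exact sum_le_sum fun i _ => sum_le_sum fun j _ => sq_le_sq.2 (h i j))

lemma fn_transpose (M : Matrix ι κ ℝ) : fn Mᵀ = fn M := by
  rw [fn_eq, fn_eq, sum_comm]; rfl

lemma abs_sum_le (M N : Matrix ι κ ℝ) : |∑ i, ∑ j, M i j * N i j| ≤ fn M * fn N := by
  have := abs_dot_le (fun p : ι × κ => M p.1 p.2) fun p => N p.1 p.2
  rwa [dotProduct, Fintype.sum_prod_type] at this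

/-- columns -/
lemma fn_le_cols {M : Matrix ι κ ℝ} {v : κ → ℝ} {c : ℝ} (hc : 0 ≤ c)
    (h : ∀ j, nrm (fun i => M i j) ≤ c * |v j|) : fn M ≤ c * nrm v := by
  refine fn_le (mul_nonneg hc (nrm_nonneg v)) ?_
  rw [sum_comm, mul_pow, nrm_sq, dotProduct, mul_sum]
  refine sum_le_sum fun j _ => ?_
  have := pow_le_pow_left₀ (nrm_nonneg _) (h j) 2
  rw [nrm_sq, mul_pow, sq_abs, dotProduct] at this
  simpa only [sq] using this

lemma fn_mul_le (A : Matrix ι κ ℝ) (M : Matrix κ μ ℝ) : fn (A * M) ≤ opn A * fn M := by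
  refine fn_le (mul_nonneg (opn_nonneg A) (fn_nonneg M)) ?_
  rw [mul_pow, fn_sq, sum_comm, sum_comm (s := (univ : Finset κ)), mul_sum]
  refine sum_le_sum fun j _ => ?_
  have := mulVec_dot_le A fun q => M q j
  simp only [dotProduct, sq] at this ⊢
  exact this

lemma fn_mul_le' (M : Matrix ι κ ℝ) (A : Matrix κ μ ℝ) : fn (M * A) ≤ fn M * opn A := by
  rw [← fn_transpose, transpose_mul, ← fn_transpose M, ← opn_transpose A, mul_comm]
  exact fn_mul_le _ _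

lemma nrm_col_le (A : Matrix ι κ ℝ) (j : κ) : nrm (fun i => A i j) ≤ opn A := by
  have := nrm_mulVec_le A (Pi.single j 1)
  rwa [nrm_single, mul_one, mulVec_single_one] at this

lemma fn_mul_diag (M : Matrix ι κ ℝ) (v : κ → ℝ) : fn (M * diagonal v) ≤ opn M * nrm v :=
  fn_le_cols (opn_nonneg M) fun j => by
    have : (fun i => (M * diagonal v) i j) = v j • fun i => M i j := by
      ext i; simp [mul_comm]
    rw [this, nrm_smul, mul_comm]
    exact mul_le_mul_of_nonneg_right (nrm_col_le M j) (abs_nonneg _)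

lemma fn_diag_mul (v : ι → ℝ) (M : Matrix ι κ ℝ) : fn (diagonal v * M) ≤ nrm v * opn M := by
  rw [← fn_transpose, transpose_mul, diagonal_transpose, ← opn_transpose M, mul_comm]
  exact fn_mul_diag _ _

lemma nrm_diag_le (M : Matrix ι ι ℝ) : nrm M.diag ≤ fn M := by
  rw [nrm_le_iff (fn_nonneg M), fn_sq]
  exact sum_le_sum fun i _ => by
    simpa only [sq, diag_apply] using single_le_sum (f := fun j => M i j ^ 2) (fun j _ => sq_nonneg _) (mem_univ i)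


/-- off-diagonal fourth powers -/
def off4 (G : Matrix ι ι ℝ) : ℝ := ∑ q, ∑ k, if q = k then 0 else G q k ^ 4

lemma off4_nonneg (G : Matrix ι ι ℝ) : 0 ≤ off4 G :=
  sum_nonneg fun _ _ => sum_nonneg fun _ _ => by split_ifs <;> positivity

/-- entrywise products -/
lemma cross (N G L : Matrix ι ι ℝ) {e : ℝ} (he : 0 < e) : |∑ q, ∑ k, N q k * G q k * L q k| ≤
    (opn G * nrm N.diag + e * fn N + opn N * √(off4 G) / e) * fn L := by
  refine (abs_sum_le (of fun q k => N q k * G q k) L).trans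
    (mul_le_mul_of_nonneg_right ?_ (fn_nonneg L))
  have a0 : 0 ≤ opn G * nrm N.diag := mul_nonneg (opn_nonneg _) (nrm_nonneg _)
  have b0 : 0 ≤ e * fn N := mul_nonneg he.le (fn_nonneg _)
  have c0 : 0 ≤ opn N * √(off4 G) / e := by have := opn_nonneg N; positivity
  refine fn_le (by positivity) ?_
  have h : ∀ q k, (N q k * G q k) ^ 2 ≤ (if q = k then opn G ^ 2 * (N q q * N q q) else 0) +
      e ^ 2 * N q k ^ 2 + opn N ^ 2 / e ^ 2 * (if q = k then 0 else G q k ^ 4) := fun q k => by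
    have g1 : G q k ^ 2 ≤ opn G ^ 2 := sq_le_sq' (abs_le.1 (abs_entry_le G q k)).1
      (abs_le.1 (abs_entry_le G q k)).2
    have g2 : N q k ^ 2 ≤ opn N ^ 2 := sq_le_sq' (abs_le.1 (abs_entry_le N q k)).1
      (abs_le.1 (abs_entry_le N q k)).2
    split_ifs with h
    · subst h
      nlinarith [mul_le_mul_of_nonneg_left g1 (sq_nonneg (N q q)), sq_nonneg (e * N q q)]
    · have g3 : G q k ^ 2 ≤ e ^ 2 + G q k ^ 4 / e ^ 2 := by
        rw [← sub_le_iff_le_add', le_div_iff₀ (by positivity)]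
        nlinarith [sq_nonneg (G q k ^ 2 - e ^ 2), sq_nonneg (G q k ^ 2), sq_nonneg (e ^ 2)]
      have g4 := mul_le_mul_of_nonneg_left g3 (sq_nonneg (N q k))
      have g5 := mul_le_mul_of_nonneg_right g2 (by positivity : 0 ≤ G q k ^ 4 / e ^ 2)
      rw [mul_pow, div_mul_eq_mul_div, mul_div_assoc]
      linarith
  refine (sum_le_sum fun q _ => sum_le_sum fun k _ => h q k).trans ?_
  simp only [sum_add_distrib, sum_ite_eq, mem_univ, if_true, ← mul_sum]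
  have e1 : ∑ q, N q q * N q q = nrm N.diag ^ 2 := (nrm_sq N.diag).symm
  have e2 : opn N ^ 2 / e ^ 2 * off4 G = (opn N * √(off4 G) / e) ^ 2 := by
    rw [div_pow, mul_pow, Real.sq_sqrt (off4_nonneg G)]; ring
  rw [e1, ← fn_sq, ← off4, e2, ← mul_pow, ← mul_pow]
  nlinarith [mul_nonneg a0 b0, mul_nonneg a0 c0, mul_nonneg b0 c0]

variable {s R K : ℝ} {J : Matrix ι ι ℝ} {k : ℕ}

lemma nrm_one : nrm (1 : ι → ℝ) = √(Fintype.card ι) := by simp [nrm, dotProduct]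

lemma sq_mul_sqrt_le (hs : s ^ 2 * Fintype.card ι ≤ 1) : s ^ 2 * √(Fintype.card ι) ≤ |s| := by
  refine abs_le_of_sq_le_sq' ?_ (abs_nonneg s) |>.2
  rw [mul_pow, Real.sq_sqrt (by positivity), sq_abs]
  nlinarith [mul_le_mul_of_nonneg_left hs (sq_nonneg s)]

lemma nrm_eta_le (hs : s ^ 2 * Fintype.card ι ≤ 1) (G : Matrix ι κ ℝ) :
    nrm (fun k => eta s fun q => G q k) ≤ |s| * opn G := by
  have : (fun k => eta s fun q => G q k) = s ^ 2 • (Gᵀ *ᵥ 1) := by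
    ext k; simp [eta, mulVec, dotProduct]
  rw [this, nrm_smul, abs_of_nonneg (sq_nonneg s)]
  have h1 := nrm_mulVec_le Gᵀ 1
  rw [opn_transpose, nrm_one] at h1
  nlinarith [mul_le_mul_of_nonneg_left h1 (sq_nonneg s),
    mul_le_mul_of_nonneg_right (sq_mul_sqrt_le hs) (opn_nonneg G)]

lemma nrm_le_of_bd {v : ι → ℝ} (h : ∀ i, |v i| ≤ 1) : nrm v ≤ √(Fintype.card ι) := by
  refine Real.sqrt_le_sqrt ?_
  simpa [dotProduct] using sum_le_card_nsmul univ (fun i => v i * v i) 1 fun i _ => by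
    rw [← sq, sq_le_one_iff_abs_le_one]; exact h i

/-- **the diagonal of `Wᵀ w d V`** -/
theorem dg_W (h : UW s J R k K) (hJ : Jᵀ = J) (hK : 0 ≤ K) (hs : s ^ 2 * Fintype.card ι ≤ 1)
    {l m : List (ι → ℝ)} (h0 : l.length + m.length + 1 ≤ k) (hl : Bd l) (hm : Bd m) {w d : ι → ℝ}
    {ω : ℝ} (hω : 0 ≤ ω) (hw : ∀ i, |w i| ≤ ω) (hd : ∀ i, |d i| ≤ 1) :
    nrm ((Wk s J l)ᵀ * diagonal w * (diagonal d * Vk s J m)).diag ≤
      (l.length + 2) * K * ω + |s| * |w ⬝ᵥ d| := by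
  rcases hω.eq_or_lt with rfl | hω'
  · obtain rfl : w = 0 := funext fun i => abs_nonpos_iff.1 (hw i)
    simp
  set u : ι → ℝ := ω⁻¹ • (w * d) with hu
  have hu1 : ∀ i, |u i| ≤ 1 := fun i => by
    simp only [hu, Pi.smul_apply, Pi.mul_apply, smul_eq_mul, abs_mul, abs_inv, abs_of_pos hω']
    rw [inv_mul_le_iff₀ hω']
    exact mul_le_mul (hw i) (hd i) (abs_nonneg _) hω
  have h1 := h.dg_mul hK hs (1 :: l) u m (by simp; omega) (bd_cons.2 ⟨fun _ => by simp, hl⟩) hu1 hm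
  have e : (Wk s J l)ᵀ * diagonal w * (diagonal d * Vk s J m) =
      ω • (Vk s J (1 :: l).reverse * diagonal u * Vk s J m) := by
    rw [(rev hJ l).1, List.reverse_cons, Wk, hu, diagonal_smul, Matrix.mul_smul, Matrix.smul_mul,
      smul_smul, mul_inv_cancel₀ hω'.ne', one_smul, ← Matrix.mul_assoc, Matrix.mul_assoc _ (diagonal w),
      diagonal_mul_diagonal]
    rfl
  have h2 : ω * nrm (ctr s (1 :: l) u m) ≤ |s| * |w ⬝ᵥ d| := by
    cases m with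
    | nil => simp only [ctr, nrm_zero, mul_zero]; positivity
    | cons b m =>
      have c := nrm_le_of_bd (abs_ctr_le hs l b m hl (bd_cons.1 hm).1 (bd_cons.1 hm).2)
      have e2 : ω * |eta s u| = s ^ 2 * |w ⬝ᵥ d| := by
        rw [hu, eta_smul, abs_mul, abs_inv, abs_of_pos hω', ← mul_assoc, mul_inv_cancel₀ hω'.ne',
          one_mul, eta, abs_mul, abs_of_nonneg (sq_nonneg s)]
        rfl
      rw [ctr, one_mul, nrm_smul, ← mul_assoc, e2]
      nlinarith [mul_le_mul_of_nonneg_left c (mul_nonneg (sq_nonneg s) (abs_nonneg (w ⬝ᵥ d))),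
        mul_le_mul_of_nonneg_right (sq_mul_sqrt_le hs) (abs_nonneg (w ⬝ᵥ d))]
  have h3 := nrm_add_le ((Vk s J (1 :: l).reverse * diagonal u * Vk s J m).diag - ctr s (1 :: l) u m)
    (ctr s (1 :: l) u m)
  rw [sub_add_cancel] at h3
  rw [e, diag_smul, nrm_smul, abs_of_pos hω']
  rw [List.length_cons] at h1
  push_cast at h1
  nlinarith [mul_le_mul_of_nonneg_left (h3.trans (add_le_add h1 le_rfl)) hω]

end fn

/-! ### flips -/

variable {n : ℕ} {s R G : ℝ} {J : Matrix (Fin n) (Fin n) ℝ}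

/-- site functions -/
abbrev SF (n : ℕ) : Type := Cube n → Fin n → ℝ

/-- the Jacobian `(d_k u_q)_{q k}` -/
def jac (u : SF n) (x : Cube n) : Matrix (Fin n) (Fin n) ℝ := of fun q k => grad (fun y => u y q) x k
/-- the increments -/
def dl (u : SF n) (x : Cube n) : Matrix (Fin n) (Fin n) ℝ := of fun q k => u x q - u (fl x k) q
/-- the letters at `x` -/
def ev (cs : List (SF n)) (x : Cube n) : List (Fin n → ℝ) := cs.map fun c => c x

/-- a letter -/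
structure Lt (G : ℝ) (c : SF n) : Prop where
  bd : ∀ x i, |c x i| ≤ 1
  op : ∀ x, opn (jac c x) ≤ G

@[simp] lemma ev_nil (x : Cube n) : ev [] x = [] := rfl
@[simp] lemma ev_cons (c : SF n) (m : List (SF n)) (x : Cube n) : ev (c :: m) x = c x :: ev m x := rfl
@[simp] lemma ev_append (l m : List (SF n)) (x : Cube n) : ev (l ++ m) x = ev l x ++ ev m x :=
  List.map_append
@[simp] lemma length_ev (l : List (SF n)) (x : Cube n) : (ev l x).length = l.length := List.length_map _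

lemma bd_ev {l : List (SF n)} (h : ∀ c ∈ l, Lt G c) (x : Cube n) : Bd (ev l x) := fun a ha => by
  obtain ⟨c, hc, rfl⟩ := List.mem_map.1 ha
  exact (h c hc).bd x

lemma dl_apply (u : SF n) (x : Cube n) (q k : Fin n) : dl u x q k = 2 * sv x k * jac u x q k := by
  simp only [dl, jac, of_apply, grad_eq]
  linear_combination (-(u x q - u (fl x k) q)) * sv_mul_self x k

lemma opn_dl_le (u : SF n) (x : Cube n) : opn (dl u x) ≤ 2 * opn (jac u x) := by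
  have : dl u x = jac u x * diagonal fun k => 2 * sv x k := by
    ext q k; rw [dl_apply, mul_diagonal, mul_comm]
  rw [this, mul_comm]
  exact opn_mul_le' le_rfl (opn_diagonal_le zero_le_two fun k => by
    simp [abs_mul, sv, E.abs_spin])

lemma abs_le_one (hs : s ^ 2 * Fintype.card (Fin n) ≤ 1) (k : Fin n) : |s| ≤ 1 := by
  have : (1 : ℝ) ≤ Fintype.card (Fin n) := by exact_mod_cast Fintype.card_pos_iff.2 ⟨k⟩
  rw [← sq_le_one_iff_abs_le_one]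
  nlinarith [sq_nonneg s]

lemma fn_dl_mul {a : SF n} (ha : Lt G a) (F : SF n) (x : Cube n) :
    fn (dl (fun y => a y * F y) x) ≤ 2 * G * nrm (F x) + fn (dl F x) := by
  have e : dl (fun y => a y * F y) x =
      diagonal (F x) * dl a x + of fun q k => a (fl x k) q * dl F x q k := by
    ext q k; simp only [dl, of_apply, Matrix.add_apply, diagonal_mul, Pi.mul_apply]; ring
  rw [e]
  refine (fn_add_le _ _).trans (add_le_add ((fn_diag_mul _ _).trans ?_) (fn_mono fun q k => ?_))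
  · rw [mul_comm]
    exact mul_le_mul_of_nonneg_right ((opn_dl_le a x).trans (by linarith [ha.op x])) (nrm_nonneg _)
  · rw [of_apply, abs_mul]
    exact mul_le_of_le_one_left (abs_nonneg _) (ha.bd _ _)

lemma fn_dl_eta (hs : s ^ 2 * Fintype.card (Fin n) ≤ 1) {a : SF n} (ha : Lt G a) (F : SF n)
    (x : Cube n) : fn (dl (fun y => eta s (a y) • F y) x) ≤ 2 * G * nrm (F x) + fn (dl F x) := by
  have e : dl (fun y => eta s (a y) • F y) x = (of fun q k => F x q * eta s fun p => dl a x p k) +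
      of fun q k => eta s (a (fl x k)) * dl F x q k := by
    ext q k
    have : (eta s fun p => a x p - a (fl x k) p) = eta s (a x) - eta s (a (fl x k)) := eta_sub (a x) _
    simp only [dl, of_apply, Matrix.add_apply, Pi.smul_apply, smul_eq_mul, this]; ring
  rw [e]
  refine (fn_add_le _ _).trans (add_le_add ?_ (fn_mono fun q k => ?_))
  · refine (fn_le_cols (nrm_nonneg (F x)) (v := fun k => eta s fun p => dl a x p k) fun k => ?_).trans ?_
    · have : (fun q => (of fun q k => F x q * eta s fun p => dl a x p k) q k) =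
          (eta s fun p => dl a x p k) • F x := by ext q; simp [mul_comm]
      rw [this, nrm_smul, mul_comm]
    · rw [mul_comm]
      refine mul_le_mul_of_nonneg_right ?_ (nrm_nonneg _)
      rcases Nat.eq_zero_or_pos n with rfl | hn
      · have := (opn_nonneg _).trans (ha.op x)
        simp only [nrm, dotProduct, univ_eq_empty, sum_empty, Real.sqrt_zero]; positivity
      exact (nrm_eta_le hs _).trans ((mul_le_of_le_one_left (opn_nonneg _)
        (abs_le_one hs ⟨0, hn⟩)).trans ((opn_dl_le a x).trans (by linarith [ha.op x])))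
  · rw [of_apply, abs_mul]
    exact mul_le_of_le_one_left (abs_nonneg _) (abs_eta_le hs zero_le_one (ha.bd _))

lemma fn_dl_mulVec (A : Matrix (Fin n) (Fin n) ℝ) (F : SF n) (x : Cube n) :
    fn (dl (fun y => A *ᵥ F y) x) ≤ opn A * fn (dl F x) := by
  have e : dl (fun y => A *ᵥ F y) x = A * dl F x := by
    ext q k; simp only [dl, of_apply, mul_apply, mulVec, dotProduct, mul_sub, sum_sub_distrib]
  rw [e]; exact fn_mul_le _ _

lemma fn_dl_sub (F F' : SF n) (x : Cube n) :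
    fn (dl (fun y => F y - F' y) x) ≤ fn (dl F x) + fn (dl F' x) := by
  have e : dl (fun y => F y - F' y) x = dl F x - dl F' x := by
    ext q k; simp only [dl, of_apply, Matrix.sub_apply, Pi.sub_apply]; ring
  rw [e]; exact fn_sub_le _ _

lemma fn_dl_const (z : Fin n → ℝ) (x : Cube n) : fn (dl (fun _ => z) x) = 0 := by
  simp [fn_eq, dl]

/-- **(JV) for Wick words** -/
theorem jv (hs : s ^ 2 * Fintype.card (Fin n) ≤ 1) (hR : opn J ≤ R) (hG : 0 ≤ G) (z : Fin n → ℝ)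
    (x : Cube n) : ∀ {m : List (SF n)}, (∀ c ∈ m, Lt G c) →
    fn (dl (fun y => Vk s J (ev m y) *ᵥ z) x) ≤ 2 * G * m.length * (1 + R) ^ m.length * nrm z ∧
    fn (dl (fun y => Uk s J (ev m y) *ᵥ z) x) ≤ 2 * G * m.length * (1 + R) ^ m.length * nrm z
  | [], _ => by simp [fn_dl_const]
  | a :: m, h => by
    obtain ⟨ha, hm⟩ := List.forall_mem_cons.1 h
    obtain ⟨h1, h2⟩ := jv hs hR hG z x hm
    obtain ⟨h3, h4⟩ := opn_VU hs hR (bd_ev hm x)
    rw [length_ev] at h3 h4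
    have R0 : 0 ≤ R := (opn_nonneg _).trans hR
    have z0 := nrm_nonneg z
    have g3 := (nrm_mulVec_le (Vk s J (ev m x)) z).trans (mul_le_mul_of_nonneg_right h3 z0)
    have g4 := (nrm_mulVec_le (Uk s J (ev m x)) z).trans (mul_le_mul_of_nonneg_right h4 z0)
    have e1 : (fun y => Uk s J (ev (a :: m) y) *ᵥ z) = fun y => a y * (Vk s J (ev m y) *ᵥ z) := by
      funext y; rw [ev_cons, Uk_cons, ← mulVec_mulVec]; ext q; simp [mulVec_diagonal]
    have e2 : (fun y => Vk s J (ev (a :: m) y) *ᵥ z) = fun y =>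
        J *ᵥ (Uk s J (ev (a :: m) y) *ᵥ z) - eta s (a y) • (Uk s J (ev m y) *ᵥ z) := by
      funext y; rw [ev_cons, Vk_cons', sub_mulVec, smul_mulVec, mulVec_mulVec]
    have b1 : fn (dl (fun y => Uk s J (ev (a :: m) y) *ᵥ z) x) ≤
        2 * G * (m.length + 1) * (1 + R) ^ m.length * nrm z := by
      rw [e1]
      refine (fn_dl_mul ha _ x).trans ?_
      nlinarith [mul_le_mul_of_nonneg_left g3 hG]
    have b2 := (fn_dl_mulVec J (fun y => Uk s J (ev (a :: m) y) *ᵥ z) x).trans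
      (mul_le_mul hR b1 (fn_nonneg _) R0)
    have b3 : fn (dl (fun y => eta s (a y) • (Uk s J (ev m y) *ᵥ z)) x) ≤
        2 * G * (m.length + 1) * (1 + R) ^ m.length * nrm z := by
      refine (fn_dl_eta hs ha _ x).trans ?_
      nlinarith [mul_le_mul_of_nonneg_left g4 hG]
    have b5 : 0 ≤ 2 * G * (m.length + 1) * (1 + R) ^ m.length * nrm z := by positivity
    rw [List.length_cons, pow_succ]
    push_cast
    refine ⟨?_, by nlinarith⟩
    rw [e2]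
    exact (fn_dl_sub _ _ x).trans (by linarith)

/-- the partially flipped pairing -/
def Qw (s : ℝ) (J M : Matrix (Fin n) (Fin n) ℝ) (z : Fin n → ℝ) (x : Cube n) (l m : List (SF n)) : ℝ :=
  ∑ i, ∑ k, M i k * (sv x k / 2 *
    ((Vk s J (ev l x ++ ev m x) - Vk s J (ev l x ++ ev m (fl x k))) *ᵥ z) i)

variable {M : Matrix (Fin n) (Fin n) ℝ} {z : Fin n → ℝ} {x : Cube n}

lemma Qw_nil (l : List (SF n)) : Qw s J M z x l [] = 0 := by simp [Qw]

lemma Qw_nil' (m : List (SF n)) : Qw s J M z x [] m =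
    ∑ i, ∑ k, M i k * grad (fun y => (Vk s J (ev m y) *ᵥ z) i) x k := by
  simp only [Qw, ev_nil, List.nil_append, grad_eq, sub_mulVec, Pi.sub_apply]
  exact sum_congr rfl fun i _ => sum_congr rfl fun k _ => by ring

lemma Qw_cons_eq (l m : List (SF n)) (c : SF n) :
    Qw s J M z x l (c :: m) - Qw s J M z x (l ++ [c]) m =
      (Vk s J (ev m x) *ᵥ z) ⬝ᵥ ((Wk s J (ev l x))ᵀ * M * (jac c x)ᵀ).diag -
      (∑ q, ∑ k, ((Wk s J (ev l x))ᵀ * M) q k * jac c x q k *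
        dl (fun y => Vk s J (ev m y) *ᵥ z) x q k) -
      ∑ i, ∑ k, M i k * ((eta s fun q => jac c x q k) *
        (Vk s J (ev l x) *ᵥ (Uk s J (ev m (fl x k)) *ᵥ z)) i) := by
  have e1 : ∀ k, (sv x k / 2) • (Vk s J (ev l x ++ c x :: ev m (fl x k)) -
      Vk s J (ev l x ++ c (fl x k) :: ev m (fl x k))) =
      Wk s J (ev l x) * diagonal (fun q => jac c x q k) * Vk s J (ev m (fl x k)) -
        (eta s fun q => jac c x q k) • (Vk s J (ev l x) * Uk s J (ev m (fl x k))) := fun k => by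
    have : (fun q => jac c x q k) = (sv x k / 2) • c x + (-(sv x k / 2)) • c (fl x k) := by
      ext q; simp only [jac, of_apply, grad_eq, Pi.add_apply, Pi.smul_apply, smul_eq_mul]; ring
    rw [Wk_mul, add_sub_cancel_right, this, (lin _ _ _ _ _ _).1]
    module
  have e2 : Qw s J M z x l (c :: m) - Qw s J M z x (l ++ [c]) m = ∑ i, ∑ k, M i k *
      ((Wk s J (ev l x) * diagonal (fun q => jac c x q k) * Vk s J (ev m (fl x k)) -
        (eta s fun q => jac c x q k) • (Vk s J (ev l x) * Uk s J (ev m (fl x k)))) *ᵥ z) i := by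
    simp only [Qw, ← sum_sub_distrib, ← e1, ev_cons, ev_append, ev_nil, List.append_assoc,
      List.singleton_append, smul_mulVec, sub_mulVec, Pi.smul_apply, Pi.sub_apply, smul_eq_mul]
    exact sum_congr rfl fun i _ => sum_congr rfl fun k _ => by ring
  have e3 : ∀ L : Fin n → Fin n → ℝ, ∑ i, ∑ k, M i k *
      (Wk s J (ev l x) *ᵥ (diagonal (fun q => jac c x q k) *ᵥ L k)) i =
      ∑ q, ∑ k, ((Wk s J (ev l x))ᵀ * M) q k * jac c x q k * L k q := fun L => by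
    simp only [mul_apply, transpose_apply, sum_mul]
    simp only [mulVec, dotProduct, diagonal_apply, mul_sum, ite_mul, zero_mul, sum_ite_eq, mem_univ,
      if_true]
    rw [sum_comm]
    refine Eq.trans (sum_congr rfl fun k _ => sum_comm) ?_
    rw [sum_comm]
    exact sum_congr rfl fun q _ => sum_congr rfl fun k _ => sum_congr rfl fun i _ => by ring
  rw [e2]
  simp only [sub_mulVec, smul_mulVec, ← mulVec_mulVec, Pi.sub_apply, Pi.smul_apply, smul_eq_mul,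
    mul_sub, sum_sub_distrib, e3]
  congr 1
  rw [dotProduct, ← sum_sub_distrib]
  refine sum_congr rfl fun q _ => ?_
  rw [diag_apply, mul_apply, mul_sum, ← sum_sub_distrib]
  exact sum_congr rfl fun k _ => by simp only [dl, of_apply, transpose_apply]; ring

/-- the constant -/
def Cw (R G : ℝ) (p : ℕ) : ℝ := (1 + 2 * p) * (1 + G) ^ 2 * ((1 + R) ^ p) ^ 2

/-- the bound of one letter -/
def Bw (s : ℝ) (J M : Matrix (Fin n) (Fin n) ℝ) (x : Cube n) (e : ℝ) (l : List (SF n)) (c : SF n) : ℝ :=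
  nrm ((Wk s J (ev l x))ᵀ * M * (jac c x)ᵀ).diag + nrm ((Wk s J (ev l x))ᵀ * M).diag +
    (e + |s|) * fn M + opn M * √(off4 (jac c x)) / e

lemma alg {a1 a2 f o e s G B p z t1 t2 t3 : ℝ} (ha1 : 0 ≤ a1) (ha2 : 0 ≤ a2) (hf : 0 ≤ f) (ho : 0 ≤ o)
    (he : 0 ≤ e) (hs : 0 ≤ s) (hG : 0 ≤ G) (hB : 1 ≤ B) (hp : 0 ≤ p) (hz : 0 ≤ z)
    (h1 : t1 ≤ B * z * a1) (h2 : t2 ≤ (G * a2 + e * (B * f) + B * o) * (2 * G * p * B * z))
    (h3 : t3 ≤ f * (B * z * (s * G))) :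
    t1 + t2 + t3 ≤ (1 + 2 * p) * (1 + G) ^ 2 * B ^ 2 * z * (a1 + a2 + (e + s) * f + o) := by
  have B0 : 0 ≤ B := by linarith
  have c1 : B ≤ (1 + 2 * p) * (1 + G) ^ 2 * B ^ 2 := by
    calc B = 1 * 1 * (B * 1) := by ring
      _ ≤ (1 + 2 * p) * (1 + G) ^ 2 * (B * B) := by gcongr <;> nlinarith
      _ = _ := by ring
  have c2 : 2 * p * G ^ 2 * B ≤ (1 + 2 * p) * (1 + G) ^ 2 * B ^ 2 := by
    calc 2 * p * G ^ 2 * B = 2 * p * G ^ 2 * (B * 1) := by ring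
      _ ≤ (1 + 2 * p) * (1 + G) ^ 2 * (B * B) := by gcongr <;> nlinarith
      _ = _ := by ring
  have c3 : 2 * p * G * B ^ 2 ≤ (1 + 2 * p) * (1 + G) ^ 2 * B ^ 2 := by gcongr <;> nlinarith
  have c4 : G * B ≤ (1 + 2 * p) * (1 + G) ^ 2 * B ^ 2 := by
    calc G * B = 1 * G * (B * 1) := by ring
      _ ≤ (1 + 2 * p) * (1 + G) ^ 2 * (B * B) := by gcongr <;> nlinarith
      _ = _ := by ring
  generalize (1 + 2 * p) * (1 + G) ^ 2 * B ^ 2 = C at c1 c2 c3 c4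
  have d1 := mul_le_mul_of_nonneg_right c1 (mul_nonneg hz ha1)
  have d2 := mul_le_mul_of_nonneg_right c2 (mul_nonneg hz ha2)
  have d3 := mul_le_mul_of_nonneg_right c3 (mul_nonneg hz (mul_nonneg he hf))
  have d4 := mul_le_mul_of_nonneg_right c3 (mul_nonneg hz ho)
  have d5 := mul_le_mul_of_nonneg_right c4 (mul_nonneg hz (mul_nonneg hs hf))
  linarith

/-- **one letter** -/
theorem Qw_cons (hs : s ^ 2 * Fintype.card (Fin n) ≤ 1) (hR : opn J ≤ R) {l m : List (SF n)}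
    {c : SF n} (hl : ∀ c ∈ l, Lt G c) (hc : Lt G c) (hm : ∀ c ∈ m, Lt G c) {p : ℕ}
    (hp : l.length + m.length + 1 ≤ p) {e : ℝ} (he : 0 < e) :
    |Qw s J M z x l (c :: m) - Qw s J M z x (l ++ [c]) m| ≤ Cw R G p * nrm z * Bw s J M x e l c := by
  have R0 : 0 ≤ R := (opn_nonneg _).trans hR
  have G0 : 0 ≤ G := (opn_nonneg _).trans (hc.op x)
  have z0 := nrm_nonneg z
  have pw : ∀ {j : ℕ}, j ≤ p → (1 + R) ^ j ≤ (1 + R) ^ p := fun h => pow_le_pow_right₀ (by linarith) h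
  have B1 : 1 ≤ (1 + R) ^ p := one_le_pow₀ (by linarith)
  have hW : opn (Wk s J (ev l x))ᵀ ≤ (1 + R) ^ p := by
    rw [opn_transpose]
    exact (opn_VU hs hR (bd_append.2 ⟨bd_ev hl x, bd_one⟩)).1.trans (pw (by simp; omega))
  have hV : nrm (Vk s J (ev m x) *ᵥ z) ≤ (1 + R) ^ p * nrm z := (nrm_mulVec_le _ _).trans
    (mul_le_mul_of_nonneg_right ((opn_VU hs hR (bd_ev hm x)).1.trans (pw (by simp; omega))) z0)
  have hU : ∀ y, nrm (Vk s J (ev l x) *ᵥ (Uk s J (ev m y) *ᵥ z)) ≤ (1 + R) ^ p * nrm z := fun y => by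
    rw [mulVec_mulVec]
    refine (nrm_mulVec_le _ _).trans (mul_le_mul_of_nonneg_right ((opn_mul_le'
      (opn_VU hs hR (bd_ev hl x)).1 (opn_VU hs hR (bd_ev hm y)).2).trans ?_) z0)
    rw [← pow_add]; exact pw (by simp; omega)
  have hD : fn (dl (fun y => Vk s J (ev m y) *ᵥ z) x) ≤ 2 * G * p * (1 + R) ^ p * nrm z := by
    refine (jv hs hR G0 z x hm).1.trans ?_
    have := pw (j := m.length) (by omega)
    have : (m.length : ℝ) ≤ p := by exact_mod_cast (by omega : m.length ≤ p)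
    gcongr
  rw [Qw_cons_eq]
  refine (abs_sub _ _).trans ((add_le_add (abs_sub _ _) le_rfl).trans ?_)
  refine alg (o := opn M * √(off4 (jac c x)) / e) (nrm_nonneg _) (nrm_nonneg _) (fn_nonneg M)
    (by have := opn_nonneg M; positivity) he.le (abs_nonneg s) G0 B1 p.cast_nonneg z0
    ((abs_dot_le _ _).trans (mul_le_mul_of_nonneg_right hV (nrm_nonneg _))) ?_ ?_
  · refine (cross _ _ _ he).trans (mul_le_mul (add_le_add (add_le_add
      (mul_le_mul_of_nonneg_right (hc.op x) (nrm_nonneg _)) (mul_le_mul_of_nonneg_left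
        ((fn_mul_le _ _).trans (mul_le_mul_of_nonneg_right hW (fn_nonneg M))) he.le)) ?_) hD
      (fn_nonneg _) ?_)
    · rw [← mul_div_assoc, ← mul_assoc]
      have := opn_mul_le' hW (le_refl (opn M))
      gcongr
    · have := opn_nonneg M
      have := fn_nonneg M
      have := nrm_nonneg ((Wk s J (ev l x))ᵀ * M).diag
      positivity
  · refine (abs_sum_le M (of fun i k => (eta s fun q => jac c x q k) *
      (Vk s J (ev l x) *ᵥ (Uk s J (ev m (fl x k)) *ᵥ z)) i)).trans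
      (mul_le_mul_of_nonneg_left ((fn_le_cols (c := (1 + R) ^ p * nrm z) (by positivity)
        (v := fun k => eta s fun q => jac c x q k) fun k => ?_).trans
        (mul_le_mul_of_nonneg_left ((nrm_eta_le hs _).trans
          (mul_le_mul_of_nonneg_left (hc.op x) (abs_nonneg s))) (by positivity))) (fn_nonneg M))
    refine le_trans (le_of_eq (nrm_smul (eta s fun q => jac c x q k) _)) ?_
    rw [mul_comm]
    exact mul_le_mul_of_nonneg_right (hU _) (abs_nonneg _)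

/-- the sum of the bounds -/
def Sw (s : ℝ) (J M : Matrix (Fin n) (Fin n) ℝ) (x : Cube n) (e : ℝ) : List (SF n) → List (SF n) → ℝ
  | _, [] => 0
  | l, c :: m => Bw s J M x e l c + Sw s J M x e (l ++ [c]) m

theorem Qw_le (hs : s ^ 2 * Fintype.card (Fin n) ≤ 1) (hR : opn J ≤ R) {p : ℕ} {e : ℝ} (he : 0 < e) :
    ∀ {m l : List (SF n)}, (∀ c ∈ l, Lt G c) → (∀ c ∈ m, Lt G c) → l.length + m.length ≤ p →
      |Qw s J M z x l m| ≤ Cw R G p * nrm z * Sw s J M x e l m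
  | [], l, _, _, _ => by simp [Qw_nil, Sw]
  | c :: m, l, hl, hm, hp => by
    obtain ⟨hc, hm⟩ := List.forall_mem_cons.1 hm
    have h1 := Qw_cons (M := M) (z := z) (x := x) hs hR hl hc hm (p := p) hp he
    have h2 := Qw_le hs hR (p := p) he (m := m) (l := l ++ [c])
      (List.forall_mem_append.2 ⟨hl, by simpa using hc⟩) hm (by simp at hp ⊢; omega)
    have h3 := abs_add_le (Qw s J M z x l (c :: m) - Qw s J M z x (l ++ [c]) m)
      (Qw s J M z x (l ++ [c]) m)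
    rw [sub_add_cancel] at h3
    rw [Sw, mul_add]
    linarith

/-- **integration by parts against a Wick word** -/
theorem ibp_le {μ : Cube n → ℝ} (hμ : ∀ x, 0 < μ x) (hs : s ^ 2 * Fintype.card (Fin n) ≤ 1)
    (hR : opn J ≤ R) {m : List (SF n)} (hm : ∀ c ∈ m, Lt G c) {T : Cube n → Matrix (Fin n) (Fin n) ℝ}
    (hT : ∀ i, Free fun x k => T x i k) (w z : Fin n → ℝ) {e : ℝ} (he : 0 < e) :
    |mean (prob μ) fun x => ∑ i, w i * dv μ (fun y k => T y i k) x * (Vk s J (ev m x) *ᵥ z) i| ≤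
      Cw R G m.length * nrm z * mean (prob μ) fun x =>
        Sw s J (diagonal w * T x * diagonal fun k => 1 - tm μ x k ^ 2) x e [] m := by
  have e1 : (mean (prob μ) fun x => ∑ i, w i * dv μ (fun y k => T y i k) x * (Vk s J (ev m x) *ᵥ z) i) =
      mean (prob μ) fun x => Qw s J (diagonal w * T x * diagonal fun k => 1 - tm μ x k ^ 2) z x [] m := by
    simp only [Qw_nil', mul_diagonal, diagonal_mul, mul_assoc]
    rw [Ent.mean_sum', Ent.mean_sum']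
    refine sum_congr rfl fun i _ => ?_
    simp only [← mul_sum]
    rw [Ent.mean_const_mul, Ent.mean_const_mul, ibp hμ (hT i)]
    congr 1
    exact Ent.mean_congr fun x => sum_congr rfl fun k _ => by ring
  have hP := Chain22.isP_prob' hμ
  rw [e1, ← Ent.mean_const_mul]
  refine (abs_sum_le_sum_abs _ _).trans (sum_le_sum fun x _ => ?_)
  rw [abs_mul, abs_of_nonneg (hP.nn x)]
  exact mul_le_mul_of_nonneg_left (Qw_le hs hR he (by simp) hm (by simp)) (hP.nn x)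

end Crest.Agent.T157.S3B
end
private theorem rz_f763c3beb2 : type_of% @_root_.Crest.Agent.T157.S3B.Sw.eq_def := @_root_.Crest.Agent.T157.S3B.Sw.eq_def -- L482
private theorem rz_69a1e991f0 : type_of% @_root_.Crest.Agent.T157.S3B.Sw.eq_1 := @_root_.Crest.Agent.T157.S3B.Sw.eq_1 -- L482
end

-- ▼ part T157/S3BilB_89
section

/-!
# Row 157, block S3 (helper89): (BIL) for one flow, in the classes of `S3W_43`
-/

set_option autoImplicit false
set_option linter.unusedSectionVars false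

noncomputable section

namespace Crest.Agent.T157.S3B

open Matrix Finset
open Crest.Agent.T157.E (Cube sv prob)
open Crest.Agent.T157.Eig Crest.Agent.T157.Uw Crest.Agent.T157.S3F Crest.Agent.T157.S3W
open Crest.Agent.T157.Rec (grad fl)
open Crest.Agent.T157.Chain22 (mean IsP)

section cls
variable {Ω : Type*} {c : Cx Ω}

/-- functionals bounded by `γ |w|_∞ + C |s| ∑ |w·d|` -/
def Bl (c : Cx Ω) (Φ : ∀ ω, (Fin (c.n ω) → ℝ) → ℝ) : Prop :=
  ∃ (γ : Ω → ℝ) (D : List c.VF) (C : ℝ), (∀ ω, 0 ≤ γ ω) ∧ c.Sm (fun ω => γ ω ^ 2) ∧ c.Lt D ∧ 0 ≤ C ∧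
    ∀ ω w b, 0 ≤ b → (∀ i, |w i| ≤ b) →
      Φ ω w ≤ γ ω * b + C * (|c.s ω| * (D.map fun d => |w ⬝ᵥ d ω|).sum)

lemma sum_abs_nonneg {α : Type*} (D : List α) (f : α → ℝ) : 0 ≤ (D.map fun d => |f d|).sum :=
  List.sum_nonneg fun x hx => by obtain ⟨d, -, rfl⟩ := List.mem_map.1 hx; exact abs_nonneg _

variable {Φ Ψ : ∀ ω, (Fin (c.n ω) → ℝ) → ℝ}

theorem Bl.mono (h : Bl c Ψ) (e : ∀ ω w, Φ ω w ≤ Ψ ω w) : Bl c Φ :=
  let ⟨γ, D, C, h1, h2, h3, h4, h5⟩ := h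
  ⟨γ, D, C, h1, h2, h3, h4, fun ω w b hb hw => (e ω w).trans (h5 ω w b hb hw)⟩

theorem Bl.add (h : c.Ok) (h1 : Bl c Φ) (h2 : Bl c Ψ) : Bl c fun ω w => Φ ω w + Ψ ω w := by
  obtain ⟨γ, D, C, a1, a2, a3, a4, a5⟩ := h1
  obtain ⟨γ', D', C', b1, b2, b3, b4, b5⟩ := h2
  refine ⟨fun ω => γ ω + γ' ω, D ++ D', C + C', fun ω => add_nonneg (a1 ω) (b1 ω),
    Cx.Sm.le2 h a2 b2 zero_le_two fun ω => by nlinarith [sq_nonneg (γ ω - γ' ω)],
    Cx.lt_append.2 ⟨a3, b3⟩, add_nonneg a4 b4, fun ω w b hb hw => ?_⟩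
  have p1 := mul_nonneg (abs_nonneg (c.s ω)) (sum_abs_nonneg D fun d => w ⬝ᵥ d ω)
  have p2 := mul_nonneg (abs_nonneg (c.s ω)) (sum_abs_nonneg D' fun d => w ⬝ᵥ d ω)
  rw [List.map_append, List.sum_append]
  nlinarith [a5 ω w b hb hw, b5 ω w b hb hw, mul_nonneg a4 p2, mul_nonneg b4 p1]

theorem Bl.of_sm {γ : Ω → ℝ} (h0 : ∀ ω, 0 ≤ γ ω) (h : c.Sm fun ω => γ ω ^ 2)
    (e : ∀ ω w b, 0 ≤ b → (∀ i, |w i| ≤ b) → Φ ω w ≤ γ ω * b) : Bl c Φ :=
  ⟨γ, [], 0, h0, h, Cx.lt_nil, le_rfl, fun ω w b hb hw => by simpa using e ω w b hb hw⟩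

theorem Bl.zero (h : c.Ok) : Bl c fun _ _ => 0 :=
  Bl.of_sm (γ := fun _ => 0) (fun _ => le_rfl) (Cx.sm_const h _) fun _ _ _ _ _ => by simp

lemma vu_smul' {ι : Type*} [Fintype ι] [DecidableEq ι] (s r : ℝ) (J : Matrix ι ι ℝ) (t : List (ι → ℝ)) :
    ∀ l : List (ι → ℝ), Vk s J (l.map (r • ·) ++ t) = r ^ l.length • Vk s J (l ++ t) ∧
      Uk s J (l.map (r • ·) ++ t) = r ^ l.length • Uk s J (l ++ t)
  | [] => by simp
  | a :: l => by
    obtain ⟨h1, h2⟩ := vu_smul' s r J t l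
    simp only [List.map_cons, List.cons_append, Vk_cons, Uk_cons, h1, h2, diagonal_smul, eta_smul,
      Matrix.smul_mul, Matrix.mul_smul, List.length_cons, pow_succ]
    constructor <;> module

/-- the diagonal of `Wᵀ w B` for a product `B` -/
theorem bl_PR (h : c.Ok) {l : List c.VF} (hl : c.Lt l) {B : c.MF} (hB : c.PR B) :
    Bl c fun ω w => nrm ((c.wk l ω)ᵀ * diagonal w * B ω).diag := by
  induction hB with
  | @word σ d m hσ hd hm =>
    obtain ⟨r1, g1, s1⟩ := hl.scale h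
    obtain ⟨r2, g2, s2⟩ := hm.scale h
    obtain ⟨r3, g3, s3⟩ := Cx.BdV.nn (c := c) (h.bl_bd hd)
    obtain ⟨r4, g4, s4⟩ := Cx.nn (h.sc_bd hσ)
    obtain ⟨R, hR⟩ := h.uw
    obtain ⟨C, hC⟩ := hR (l.length + m.length + 1)
    set A : ℝ := r4 * (r1 ^ l.length * (r2 ^ m.length * r3)) with hA
    have A0 : 0 ≤ A := by positivity
    refine ⟨fun ω => A * ((l.length + 2) * (|C| * √(c.K ω))), [d], A, fun ω => by positivity,
      Cx.sm_K.le (sq_nonneg (A * ((l.length + 2) * |C|))) fun ω => le_of_eq ?_,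
      Cx.lt_cons.2 ⟨hd, Cx.lt_nil⟩, A0, fun ω w b hb hw => ?_⟩
    · beta_reduce
      rw [← mul_assoc _ |C|, ← mul_assoc, mul_pow, Real.sq_sqrt (by linarith [h.K1 ω])]
    obtain ⟨m1, a1, a2, a3⟩ := s1 ω
    obtain ⟨m2, b1, b2, b3⟩ := s2 ω
    have r30 : 0 < r3 := by linarith
    have h1 := dg_W ((hC ω).mono le_rfl le_rfl (mul_le_mul_of_nonneg_right (le_abs_self C)
      (Real.sqrt_nonneg _))) (h.symm ω) (by positivity) (h.hs ω) (l := m1) (m := m2) (by omega) a1 b1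
      hb hw (d := r3⁻¹ • d ω) fun i => by
        rw [Pi.smul_apply, smul_eq_mul, abs_mul, abs_of_pos (inv_pos.2 r30), inv_mul_le_iff₀ r30,
          mul_one]
        exact s3 ω i
    have e : (c.wk l ω)ᵀ * diagonal w * (σ ω • (diagonal (d ω) * c.vk m ω)) =
        (σ ω * (r1 ^ l.length * (r2 ^ m.length * r3))) • ((Wk (c.s ω) (c.J ω) m1)ᵀ * diagonal w *
          (diagonal (r3⁻¹ • d ω) * Vk (c.s ω) (c.J ω) m2)) := by
      rw [Cx.wk, Cx.vk, a3, b3, Wk, (vu_smul' _ _ _ _ _).1, (Cx.vu_smul _ _ _ _).1, a2, b2, ← Wk]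
      simp only [diagonal_smul, transpose_smul, Matrix.smul_mul, Matrix.mul_smul, smul_smul]
      congr 1
      field_simp
    have h2 : |w ⬝ᵥ r3⁻¹ • d ω| ≤ |w ⬝ᵥ d ω| := by
      rw [dotProduct_smul, smul_eq_mul, abs_mul, abs_of_pos (inv_pos.2 r30)]
      exact mul_le_of_le_one_left (abs_nonneg _) (inv_le_one_of_one_le₀ g3)
    have h3 : |σ ω * (r1 ^ l.length * (r2 ^ m.length * r3))| ≤ A := by
      rw [abs_mul, abs_of_nonneg (by positivity : 0 ≤ r1 ^ l.length * (r2 ^ m.length * r3))]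
      exact mul_le_mul_of_nonneg_right (s4 ω) (by positivity)
    rw [a2] at h1
    beta_reduce
    rw [e, diag_smul, nrm_smul]
    refine (mul_le_mul h3 (h1.trans (add_le_add le_rfl (mul_le_mul_of_nonneg_left h2 (abs_nonneg _))))
      (nrm_nonneg _) A0).trans (le_of_eq ?_)
    simp only [List.map_cons, List.map_nil, List.sum_cons, List.sum_nil, add_zero]
    ring
  | add _ _ h1 h2 =>
    refine (h1.add h h2).mono fun ω w => ?_
    rw [Matrix.mul_add, diag_add]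
    exact nrm_add_le _ _

theorem bl_PK (h : c.Ok) {l : List c.VF} (hl : c.Lt l) {B : c.MF} (hB : c.PK B) :
    Bl c fun ω w => nrm ((c.wk l ω)ᵀ * diagonal w * B ω).diag := by
  obtain ⟨B', h1, h2⟩ := hB
  obtain ⟨C, C0, hC⟩ := Cx.nn (Cx.op_vu h (hl.snoc h.one)).1
  have h3 : Bl c fun ω w => nrm ((c.wk l ω)ᵀ * diagonal w * (B ω - B' ω)).diag := by
    refine Bl.of_sm (γ := fun ω => C * fn (B ω - B' ω)) (fun ω => mul_nonneg C0 (fn_nonneg _))
      (Cx.Sm.le h2 (sq_nonneg C) fun ω => by rw [mul_pow, fn_sq]) fun ω w b hb hw => ?_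
    refine (nrm_diag_le _).trans ((fn_mul_le _ _).trans ?_)
    rw [mul_right_comm]
    refine mul_le_mul_of_nonneg_right (opn_mul_le' ?_ (opn_diagonal_le hb hw)) (fn_nonneg _)
    rw [opn_transpose, Cx.wk_eq]
    exact hC ω
  refine ((bl_PR h hl h1).add h h3).mono fun ω w => ?_
  refine le_trans (le_of_eq ?_) (nrm_add_le _ _)
  rw [← diag_add, ← Matrix.mul_add, add_sub_cancel]

end cls

/-! ### instances with configurations -/

variable {I : Type*} {n : I → ℕ}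

/-- instance and configuration -/
abbrev Pt (n : I → ℕ) : Type _ := Σ a, Cube (n a)

/-- the context of a family of instances -/
abbrev mkC (n : I → ℕ) (s K : I → ℝ) (J : ∀ a, Matrix (Fin (n a)) (Fin (n a)) ℝ)
    (BL : (∀ ω : Pt n, Fin (n ω.1) → ℝ) → Prop) (Sc Th : (Pt n → ℝ) → Prop) : Cx (Pt n) :=
  ⟨fun ω => n ω.1, fun ω => s ω.1, fun ω => K ω.1, fun ω => J ω.1, BL, Sc, Th⟩

/-- the Jacobian of a family -/
def jacF (u : ∀ ω : Pt n, Fin (n ω.1) → ℝ) (ω : Pt n) : Matrix (Fin (n ω.1)) (Fin (n ω.1)) ℝ :=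
  jac (fun x => u ⟨ω.1, x⟩) ω.2

/-- `D = 1 - t²` -/
def DF (μ : ∀ a, Cube (n a) → ℝ) (ω : Pt n) : Fin (n ω.1) → ℝ := fun k => 1 - tm (μ ω.1) ω.2 k ^ 2

/-- the letters of one instance -/
def sf (l : List (∀ ω : Pt n, Fin (n ω.1) → ℝ)) (a : I) : List (SF (n a)) :=
  l.map fun u x => u ⟨a, x⟩

lemma ev_sf (l : List (∀ ω : Pt n, Fin (n ω.1) → ℝ)) (a : I) (x : Cube (n a)) :
    ev (sf l a) x = l.map fun u => u ⟨a, x⟩ := List.map_map

variable {s K : I → ℝ} {J : ∀ a, Matrix (Fin (n a)) (Fin (n a)) ℝ}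
  {BL : (∀ ω : Pt n, Fin (n ω.1) → ℝ) → Prop} {Sc Th : (Pt n → ℝ) → Prop} {μ : ∀ a, Cube (n a) → ℝ}

lemma abs_DF_le (hμ : ∀ a x, 0 < μ a x) (ω : Pt n) (k : Fin (n ω.1)) : |DF μ ω k| ≤ 1 := by
  rw [DF, abs_of_pos (D_pos (hμ _) _ _)]
  nlinarith [sq_nonneg (tm (μ ω.1) ω.2 k)]

theorem bl_Sw (h : (mkC n s K J BL Sc Th).Ok) (hμ : ∀ a x, 0 < μ a x) {T : (mkC n s K J BL Sc Th).MF}
    {CT : ℝ} (C0 : 0 ≤ CT) (hT : ∀ ω, opn (T ω) ≤ CT)
    (hT0 : (mkC n s K J BL Sc Th).PK fun ω => T ω * diagonal (DF μ ω)) {e : ℝ} (he : 0 < e) :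
    ∀ {m l : List (mkC n s K J BL Sc Th).VF}, (mkC n s K J BL Sc Th).Lt l →
      (mkC n s K J BL Sc Th).Lt m → (∀ u ∈ m, (mkC n s K J BL Sc Th).Of4 (jacF u) ∧
        (mkC n s K J BL Sc Th).PK fun ω => T ω * diagonal (DF μ ω) * (jacF u ω)ᵀ) →
      Bl (mkC n s K J BL Sc Th) fun ω w =>
        Sw (s ω.1) (J ω.1) (diagonal w * T ω * diagonal (DF μ ω)) ω.2 e (sf l ω.1) (sf m ω.1) -
          m.length * ((e + |s ω.1|) * (nrm w * CT))
  | [], _, _, _, _ => (Bl.zero h).mono fun ω w => by simp [sf, Sw]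
  | u :: m, l, hl, hm, hj => by
    obtain ⟨hu, hm⟩ := Cx.lt_cons.1 hm
    obtain ⟨ju, hj⟩ := List.forall_mem_cons.1 hj
    have ih := bl_Sw h hμ C0 hT hT0 he (hl.snoc hu) hm hj
    have b1 := bl_PK h hl ju.2
    have b2 := bl_PK h hl hT0
    have b3 : Bl (mkC n s K J BL Sc Th) fun ω w =>
        opn (diagonal w * T ω * diagonal (DF μ ω)) * √(off4 (jacF u ω)) / e := by
      refine Bl.of_sm (γ := fun ω => CT / e * √(off4 (jacF u ω))) (fun ω => by positivity)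
        (Cx.Sm.le ju.1 (sq_nonneg (CT / e)) fun ω => by
          rw [mul_pow, Real.sq_sqrt (off4_nonneg _)]; rfl) fun ω w b hb hw => ?_
      have := opn_mul_le' (opn_mul_le' (opn_diagonal_le hb hw) (hT ω))
        (opn_diagonal_le zero_le_one (abs_DF_le hμ ω))
      calc _ ≤ b * CT * 1 * √(off4 (jacF u ω)) / e := by gcongr
        _ = _ := by ring
    refine ((((b1.add h b2).add h b3)).add h ih).mono fun ω w => ?_
    have f1 : fn (diagonal w * T ω * diagonal (DF μ ω)) ≤ nrm w * CT :=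
      (fn_mul_le' _ _).trans ((mul_le_of_le_one_right (fn_nonneg _)
        (opn_diagonal_le zero_le_one (abs_DF_le hμ ω))).trans ((fn_diag_mul _ _).trans
          (mul_le_mul_of_nonneg_left (hT ω) (nrm_nonneg _))))
    have f2 := mul_le_mul_of_nonneg_left f1 (add_nonneg he.le (abs_nonneg (s ω.1)))
    have e1 : sf (l ++ [u]) ω.1 = sf l ω.1 ++ [fun x => u ⟨ω.1, x⟩] := List.map_append
    have e2 : sf (u :: m) ω.1 = (fun x => u ⟨ω.1, x⟩) :: sf m ω.1 := rfl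
    simp only [e1, e2, Sw, Bw, ev_sf, Cx.wk, jacF, Matrix.mul_assoc, List.length_cons] at f2 ⊢
    push_cast
    linarith

lemma mean_le_sqrt {Ω : Type*} [Fintype Ω] {π f : Ω → ℝ} (h : IsP π) {A : ℝ}
    (hA : mean π (fun x => f x ^ 2) ≤ A) : mean π f ≤ √A := by
  refine Real.le_sqrt_of_sq_le ((h.mean_sq_le f).trans (le_trans (le_of_eq ?_) hA))
  simp only [Chain22.ip, mean, sq]

/-- the mean of a small function -/
theorem mean_sm (h : (mkC n s K J BL Sc Th).Ok) (hμ : ∀ a x, 0 < μ a x)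
    (hTh : ∀ θ, Th θ → ∃ C, ∀ a, n a * mean (prob (μ a)) (fun x => θ ⟨a, x⟩ ^ 4) ≤ C)
    {f : Pt n → ℝ} (hf : (mkC n s K J BL Sc Th).Sm f) :
    ∃ C, 0 ≤ C ∧ ∀ a, mean (prob (μ a)) (fun x => f ⟨a, x⟩) ≤ C * K a := by
  obtain ⟨C, L, C0, hL, hf⟩ := hf
  have : ∃ C', 0 ≤ C' ∧ ∀ a, mean (prob (μ a))
      (fun x => n a * (L.map fun θ => θ ⟨a, x⟩ ^ 4).sum) ≤ C' := by
    clear hf
    induction L with
    | nil => exact ⟨0, le_rfl, fun a => by simp [mean]⟩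
    | cons θ L ih =>
      obtain ⟨C1, g1, h1⟩ := ih (List.forall_mem_cons.1 hL).2
      obtain ⟨C2, g2, h2⟩ := Cx.nn (hTh θ (List.forall_mem_cons.1 hL).1)
      refine ⟨C2 + C1, add_nonneg g2 g1, fun a => ?_⟩
      simp only [List.map_cons, List.sum_cons, mul_add]
      rw [Ent.mean_add', Ent.mean_const_mul]
      exact add_le_add (h2 a) (h1 a)
  obtain ⟨C', g, h'⟩ := this
  refine ⟨C * (1 + C'), by positivity, fun a => ?_⟩
  have hP := Chain22.isP_prob' (hμ a)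
  refine (hP.mean_mono fun x => hf ⟨a, x⟩).trans ?_
  rw [Ent.mean_const_mul, Ent.mean_add', mul_assoc]
  refine mul_le_mul_of_nonneg_left ?_ C0
  have k1 : 1 ≤ K a := h.K1 ⟨a, default⟩
  have := hP.mean_const (K a)
  nlinarith [h' a, mul_le_mul_of_nonneg_left k1 g]

/-- the mean of a site function -/
def mF (μ : ∀ a, Cube (n a) → ℝ) (d : ∀ ω : Pt n, Fin (n ω.1) → ℝ) (a : I) : Fin (n a) → ℝ :=
  fun i => mean (prob (μ a)) fun x => d ⟨a, x⟩ i

lemma mean_dot (d : ∀ ω : Pt n, Fin (n ω.1) → ℝ) (a : I) (w : Fin (n a) → ℝ) :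
    mean (prob (μ a)) (fun x => w ⬝ᵥ d ⟨a, x⟩) = w ⬝ᵥ mF μ d a := by
  simp only [dotProduct, mF]
  rw [Ent.mean_sum']
  exact sum_congr rfl fun i _ => Ent.mean_const_mul _ _

lemma grad_dot (u : ∀ ω : Pt n, Fin (n ω.1) → ℝ) (a : I) (w : Fin (n a) → ℝ) (x : Cube (n a)) :
    grad (fun y => w ⬝ᵥ u ⟨a, y⟩) x = (jacF u ⟨a, x⟩)ᵀ *ᵥ w := by
  ext k
  simp only [jacF, jac, mulVec, dotProduct, transpose_apply, of_apply, Rec.grad_eq, ← sum_sub_distrib,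
    mul_sum, sum_div]
  exact sum_congr rfl fun i _ => by ring

/-- Poincare's inequality for Lipschitz functions, uniformly -/
def LP (μ : ∀ a, Cube (n a) → ℝ) : Prop := ∃ K0, ∀ a (F : Cube (n a) → ℝ) (A : ℝ),
  (∀ x, grad F x ⬝ᵥ grad F x ≤ A) → Chain22.var (prob (μ a)) F ≤ K0 * A

theorem mean_abs_dot (hμ : ∀ a x, 0 < μ a x) (hP : LP μ) {d : ∀ ω : Pt n, Fin (n ω.1) → ℝ}
    (hd : ∃ C, ∀ ω, opn (jacF d ω) ≤ C) : ∃ C, 0 ≤ C ∧ ∀ a w,
      mean (prob (μ a)) (fun x => |w ⬝ᵥ d ⟨a, x⟩|) ≤ |w ⬝ᵥ mF μ d a| + C * nrm w := by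
  obtain ⟨K0, hK⟩ := hP
  obtain ⟨C, C0, hC⟩ := Cx.nn hd
  refine ⟨√|K0| * C, by positivity, fun a w => ?_⟩
  have hP := Chain22.isP_prob' (hμ a)
  have h1 := hK a (fun x => w ⬝ᵥ d ⟨a, x⟩) ((C * nrm w) ^ 2) fun x => by
    rw [grad_dot, ← nrm_le_iff (mul_nonneg C0 (nrm_nonneg w))]
    exact (nrm_mulVec_le _ _).trans (mul_le_mul_of_nonneg_right
      ((opn_transpose _).trans_le (hC _)) (nrm_nonneg w))
  have h2 := mean_le_sqrt hP (f := fun x => |w ⬝ᵥ d ⟨a, x⟩ - w ⬝ᵥ mF μ d a|)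
    (A := |K0| * (C * nrm w) ^ 2) (by
      simp only [sq_abs, ← mean_dot]
      exact h1.trans (mul_le_mul_of_nonneg_right (le_abs_self _) (sq_nonneg _)))
  rw [Real.sqrt_mul (abs_nonneg _), Real.sqrt_sq (mul_nonneg C0 (nrm_nonneg w)), ← mul_assoc] at h2
  refine le_trans (hP.mean_mono (g := fun x => |w ⬝ᵥ mF μ d a| + |w ⬝ᵥ d ⟨a, x⟩ - w ⬝ᵥ mF μ d a|)
    fun x => ?_) ?_
  · have := abs_add_le (w ⬝ᵥ mF μ d a) (w ⬝ᵥ d ⟨a, x⟩ - w ⬝ᵥ mF μ d a)
    rwa [add_sub_cancel] at this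
  · rw [Ent.mean_add', hP.mean_const]
    exact add_le_add le_rfl h2

/-- the mean of a functional of the class `Bl` -/
theorem bl_mean (h : (mkC n s K J BL Sc Th).Ok) (hμ : ∀ a x, 0 < μ a x)
    (hTh : ∀ θ, Th θ → ∃ C, ∀ a, n a * mean (prob (μ a)) (fun x => θ ⟨a, x⟩ ^ 4) ≤ C) (hP : LP μ)
    (hj : ∀ u, BL u → (mkC n s K J BL Sc Th).Op (jacF u))
    {Φ : ∀ ω : Pt n, (Fin (n ω.1) → ℝ) → ℝ} (hΦ : Bl (mkC n s K J BL Sc Th) Φ) :
    ∃ (C : ℝ) (D : List (mkC n s K J BL Sc Th).VF), 0 ≤ C ∧ (mkC n s K J BL Sc Th).Lt D ∧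
      ∀ a w b, 0 ≤ b → (∀ i, |w i| ≤ b) → mean (prob (μ a)) (fun x => Φ ⟨a, x⟩ w) ≤
        C * (√(K a) * b + |s a| * nrm w + |s a| * (D.map fun d => |w ⬝ᵥ mF μ d a|).sum) := by
  obtain ⟨γ, D, C, g0, g1, hD, C0, hΦ⟩ := hΦ
  obtain ⟨C1, c1, h1⟩ := mean_sm h hμ hTh g1
  have : ∃ C2, 0 ≤ C2 ∧ ∀ a w, mean (prob (μ a)) (fun x => (D.map fun d => |w ⬝ᵥ d ⟨a, x⟩|).sum) ≤
      (D.map fun d => |w ⬝ᵥ mF μ d a|).sum + C2 * nrm w := by
    clear hΦ
    induction D with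
    | nil => exact ⟨0, le_rfl, fun a w => by simp [Chain22.mean]⟩
    | cons d D ih =>
      obtain ⟨C2, c2, h2⟩ := ih (Cx.lt_cons.1 hD).2
      obtain ⟨C3, c3, h3⟩ := mean_abs_dot hμ hP (hj d (Cx.lt_cons.1 hD).1)
      refine ⟨C3 + C2, add_nonneg c3 c2, fun a w => ?_⟩
      simp only [List.map_cons, List.sum_cons]
      rw [Ent.mean_add']
      linarith [h2 a w, h3 a w]
  obtain ⟨C2, c2, h2⟩ := this
  refine ⟨√C1 + C * C2 + C, D, by positivity, hD, fun a w b hb hw => ?_⟩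
  have hP := Chain22.isP_prob' (hμ a)
  have h3 := mean_le_sqrt hP (h1 a)
  rw [Real.sqrt_mul c1] at h3
  refine (hP.mean_mono fun x => hΦ ⟨a, x⟩ w b hb hw).trans ?_
  rw [Ent.mean_add', Ent.mean_mul_const, Ent.mean_const_mul]
  erw [Ent.mean_const_mul (a := |s a|)]
  have p1 : 0 ≤ √(K a) * b := by positivity
  have p2 : 0 ≤ |s a| * nrm w := mul_nonneg (abs_nonneg _) (nrm_nonneg w)
  have p3 := mul_nonneg (abs_nonneg (s a)) (sum_abs_nonneg D fun d => w ⬝ᵥ mF μ d a)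
  have p4 := mul_le_mul_of_nonneg_left (mul_le_mul_of_nonneg_left (h2 a w) (abs_nonneg (s a))) C0
  have p5 := mul_le_mul_of_nonneg_right h3 hb
  have q1 := Real.sqrt_nonneg C1
  have q2 := mul_nonneg C0 c2
  nlinarith [mul_nonneg q1 p2, mul_nonneg q1 p3, mul_nonneg q2 p1, mul_nonneg q2 p3,
    mul_nonneg C0 p1, mul_nonneg C0 p2]

lemma jacF_smul (r : ℝ) (u : ∀ ω : Pt n, Fin (n ω.1) → ℝ) (ω : Pt n) :
    jacF (fun ω => r • u ω) ω = r • jacF u ω := by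
  ext q k
  simp only [jacF, jac, of_apply, Rec.grad_eq, Pi.smul_apply, smul_eq_mul, Matrix.smul_apply]
  ring

/-- **(BIL) for one flow** -/
theorem bil_T (h : (mkC n s K J BL Sc Th).Ok) (hμ : ∀ a x, 0 < μ a x)
    (hTh : ∀ θ, Th θ → ∃ C, ∀ a, n a * mean (prob (μ a)) (fun x => θ ⟨a, x⟩ ^ 4) ≤ C) (hP : LP μ)
    {T : (mkC n s K J BL Sc Th).MF} (hF : ∀ a (i : Fin (n a)), Free fun x k => T ⟨a, x⟩ i k)
    (hT : (mkC n s K J BL Sc Th).Op T)
    (hT0 : (mkC n s K J BL Sc Th).PK fun ω => T ω * diagonal (DF μ ω))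
    (hj : ∀ u, BL u → (mkC n s K J BL Sc Th).Op (jacF u) ∧ (mkC n s K J BL Sc Th).Of4 (jacF u) ∧
      (mkC n s K J BL Sc Th).PK fun ω => T ω * diagonal (DF μ ω) * (jacF u ω)ᵀ)
    {m : List (mkC n s K J BL Sc Th).VF} (hm : (mkC n s K J BL Sc Th).Lt m) {e : ℝ} (he : 0 < e) :
    ∃ (C : ℝ) (D : List (mkC n s K J BL Sc Th).VF), 0 ≤ C ∧ (mkC n s K J BL Sc Th).Lt D ∧
      ∀ a (w z : Fin (n a) → ℝ) (b : ℝ), 0 ≤ b → (∀ i, |w i| ≤ b) →
        |mean (prob (μ a)) fun x => ∑ i, w i * dv (μ a) (fun y k => T ⟨a, y⟩ i k) x *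
          ((mkC n s K J BL Sc Th).vk m ⟨a, x⟩ *ᵥ z) i| ≤ nrm z * (e * nrm w +
          C * (√(K a) * b + |s a| * nrm w + |s a| * (D.map fun d => |w ⬝ᵥ mF μ d a|).sum)) := by
  have : ∃ r : ℝ, 1 ≤ r ∧ ∀ u ∈ m, (∀ ω i, |u ω i| ≤ r) ∧ ∀ ω, opn (jacF u ω) ≤ r := by
    induction m with
    | nil => exact ⟨1, le_rfl, by simp⟩
    | cons u m ih =>
      obtain ⟨r, r1, hr⟩ := ih (Cx.lt_cons.1 hm).2
      obtain ⟨C1, h1⟩ := h.bl_bd (Cx.lt_cons.1 hm).1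
      obtain ⟨C2, h2⟩ := (hj u (Cx.lt_cons.1 hm).1).1
      have a1 : r ≤ max r (max C1 C2) := le_max_left _ _
      refine ⟨_, r1.trans a1, List.forall_mem_cons.2 ⟨⟨fun ω i => (h1 ω i).trans
        ((le_max_left _ _).trans (le_max_right _ _)), fun ω => (h2 ω).trans
        ((le_max_right _ _).trans (le_max_right _ _))⟩, fun v hv =>
          ⟨fun ω i => ((hr v hv).1 ω i).trans a1, fun ω => ((hr v hv).2 ω).trans a1⟩⟩⟩
  obtain ⟨r, r1, hr⟩ := this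
  have r0 : 0 < r := by linarith
  obtain ⟨R, hR⟩ := Cx.op_J h
  obtain ⟨CT, C0, hT⟩ := Cx.nn hT
  set m' : List (mkC n s K J BL Sc Th).VF := m.map fun u ω => r⁻¹ • u ω with hm'
  have lm : (mkC n s K J BL Sc Th).Lt m' := fun v hv => by
    obtain ⟨u, hu, rfl⟩ := List.mem_map.1 hv
    exact h.bl_smul _ (hm u hu)
  have len : m'.length = m.length := List.length_map _
  set A : ℝ := r ^ m.length * Cw |R| 1 m.length with hA
  have A0 : 0 ≤ A := by rw [hA, Cw]; positivity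
  set e' : ℝ := e / (A * m.length * CT + 1) with he'
  have e0 : 0 < e' := by positivity
  obtain ⟨C, D, c0, hD, hC⟩ := bl_mean h hμ hTh hP (fun u hu => (hj u hu).1)
    (bl_Sw h hμ C0 hT hT0 e0 Cx.lt_nil lm fun u hu => (hj u (lm u hu)).2)
  refine ⟨A * C + A * m.length * CT, D, by positivity, hD, fun a w z b hb hw => ?_⟩
  have hP := Chain22.isP_prob' (hμ a)
  have h1 := ibp_le (G := 1) (hμ a) (h.hs ⟨a, default⟩) ((hR ⟨a, default⟩).trans (le_abs_self R))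
    (m := sf m' a) (fun v hv => by
      obtain ⟨u', hu', rfl⟩ := List.mem_map.1 hv
      obtain ⟨u, hu, rfl⟩ := List.mem_map.1 hu'
      refine ⟨fun x i => ?_, fun x => ?_⟩
      · beta_reduce
        rw [Pi.smul_apply, smul_eq_mul, abs_mul, abs_of_pos (inv_pos.2 r0), inv_mul_le_iff₀ r0, mul_one]
        exact (hr u hu).1 ⟨a, x⟩ i
      · refine (congrArg opn (jacF_smul r⁻¹ u ⟨a, x⟩)).trans_le ?_
        rw [opn_smul, abs_of_pos (inv_pos.2 r0), inv_mul_le_iff₀ r0, mul_one]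
        exact (hr u hu).2 _) (T := fun x => T ⟨a, x⟩) (hF a) w z e0
  have h2 := hC a w b hb hw
  dsimp only at h1 h2
  rw [Ent.mean_sub', hP.mean_const (m'.length * ((e' + |s a|) * (nrm w * CT))), len] at h2
  have e1 : ∀ x, (mkC n s K J BL Sc Th).vk m ⟨a, x⟩ = r ^ m.length • Vk (s a) (J a) (ev (sf m' a) x) :=
    fun x => by
      have := (Cx.vu_smul (s a) r (J a) (ev (sf m' a) x)).1
      rw [length_ev, sf, List.length_map, len, ← sf] at this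
      rw [← this, ev_sf, hm', List.map_map, List.map_map, Cx.vk]
      congr 1
      exact List.map_congr_left fun u _ => by simp [smul_smul, r0.ne']
  have e2 : (mean (prob (μ a)) fun x => ∑ i, w i * dv (μ a) (fun y k => T ⟨a, y⟩ i k) x *
      ((mkC n s K J BL Sc Th).vk m ⟨a, x⟩ *ᵥ z) i) = r ^ m.length * mean (prob (μ a)) fun x =>
        ∑ i, w i * dv (μ a) (fun y k => T ⟨a, y⟩ i k) x * (Vk (s a) (J a) (ev (sf m' a) x) *ᵥ z) i := by
    rw [← Ent.mean_const_mul]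
    refine Ent.mean_congr fun x => ?_
    rw [e1, smul_mulVec, mul_sum]
    exact sum_congr rfl fun i _ => by rw [Pi.smul_apply, smul_eq_mul]; ring
  rw [sf, List.length_map, len, ← sf] at h1
  rw [e2, abs_mul, abs_of_pos (pow_pos r0 _)]
  refine (mul_le_mul_of_nonneg_left h1 (pow_pos r0 _).le).trans ?_
  rw [← mul_assoc, ← mul_assoc, ← hA, mul_comm A, mul_assoc]
  refine mul_le_mul_of_nonneg_left ?_ (nrm_nonneg z)
  have h3 := mul_le_mul_of_nonneg_left (sub_le_iff_le_add.1 h2) A0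
  refine le_trans (le_of_eq rfl) (h3.trans ?_)
  have h4 : A * m.length * CT * e' ≤ e := by
    rw [he', ← mul_div_assoc, div_le_iff₀ (by positivity)]
    nlinarith
  have p1 : 0 ≤ √(K a) * b := by positivity
  have p3 := mul_nonneg (abs_nonneg (s a)) (sum_abs_nonneg D fun d => w ⬝ᵥ mF μ d a)
  have q : 0 ≤ A * m.length * CT := by positivity
  nlinarith [mul_le_mul_of_nonneg_right h4 (nrm_nonneg w), mul_nonneg q p1, mul_nonneg q p3]

end Crest.Agent.T157.S3B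
end
end

-- ▼ part T157/S3Dg_98
section

/-!
# Row 157, part B, block S3 (helper98): (DG)
-/

set_option autoImplicit false
set_option maxHeartbeats 400000

noncomputable section

namespace Crest.Agent.T157.S3

open Matrix Finset
open Crest.Agent.T157.Eig Crest.Agent.T157.Fr Crest.Agent.T157.Uw Crest.Agent.T157.S3W
open Crest.Agent.T157.S3B
open Fam

namespace Dg98

variable {F : Fam} {N : ℕ} {R : Net F N} {f g : F.Sf}

lemma g2_nonneg (L : List F.Sf) (ω : F.Ω) : 0 ≤ (F.n ω.1 : ℝ) * (L.map fun θ => θ ω ^ 2).sum :=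
  mul_nonneg (Nat.cast_nonneg _) (List.sum_nonneg fun x hx => by
    obtain ⟨θ, -, rfl⟩ := List.mem_map.1 hx; positivity)

theorem sq_le (hg : Sq g) {C : ℝ} (hC : 0 ≤ C) (h : ∀ ω, f ω ≤ C * g ω) : Sq f :=
  let ⟨D, L, h0, h1, h2⟩ := hg
  ⟨C * D, L, mul_nonneg hC h0, h1, fun ω => (h ω).trans (by
    rw [mul_assoc]; exact mul_le_mul_of_nonneg_left (h2 ω) hC)⟩

theorem sq_add (hK : ∀ ω : F.Ω, 1 ≤ F.K ω.1) (hf : Sq f) (hg : Sq g) : Sq fun ω => f ω + g ω := by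
  obtain ⟨C, L, c0, c1, c2⟩ := hf
  obtain ⟨D, M, d0, d1, d2⟩ := hg
  refine ⟨C + D, L ++ M, add_nonneg c0 d0, List.forall_mem_append.2 ⟨c1, d1⟩, fun ω => ?_⟩
  have h1 := g2_nonneg L ω
  have h2 := g2_nonneg M ω
  rw [List.map_append, List.sum_append]
  nlinarith [c2 ω, d2 ω, mul_nonneg c0 h2, mul_nonneg d0 h1]

theorem sq_th (hK : ∀ ω : F.Ω, 1 ≤ F.K ω.1) {θ : F.Sf} (hθ : Th θ) :
    Sq fun ω => F.n ω.1 * θ ω ^ 2 :=
  ⟨1, [θ], zero_le_one, by simpa using hθ, fun ω => by simpa using (hK ω).trans' zero_le_one⟩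

theorem sq_of_sm (hK : ∀ ω : F.Ω, 1 ≤ F.K ω.1) (h : R.cx.Sm f) : Sq f := by
  obtain ⟨C, L, c0, c1, c2⟩ := h
  have h1 : Sq fun ω => F.K ω.1 + F.n ω.1 * (L.map fun θ => θ ω ^ 4).sum := by
    clear c2
    induction L with
    | nil => exact ⟨1, [], zero_le_one, by simp, fun ω => by simp⟩
    | cons θ L ih =>
      obtain ⟨hθ, hL⟩ := List.forall_mem_cons.1 c1
      obtain ⟨B, hB⟩ := hθ.1
      refine sq_le (sq_add hK (ih hL) (sq_le (f := fun ω => F.n ω.1 * θ ω ^ 4) (sq_th hK hθ)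
        (sq_nonneg B) fun ω => ?_)) zero_le_one fun ω => le_of_eq ?_
      · have h2 : θ ω ^ 2 ≤ B ^ 2 := by
          rw [← sq_abs]; exact pow_le_pow_left₀ (abs_nonneg _) ((hB ω.1).1 ω.2) 2
        have := mul_le_mul_of_nonneg_right h2
          (mul_nonneg (Nat.cast_nonneg (α := ℝ) (F.n ω.1)) (sq_nonneg (θ ω)))
        nlinarith
      · simp only [List.map_cons, List.sum_cons]; ring
  exact sq_le h1 c0 c2

/-- operator norm of `∑ ϑ B` -/
theorem tp_op (h : R.cx.Ok) {A : R.cx.MF} (hA : R.cx.Sp R.cx.Th A) :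
    Sq fun ω => F.n ω.1 * opn (A ω) ^ 2 := by
  induction hA with
  | @word σ d l hσ hd hl =>
    obtain ⟨C, -, hC⟩ := Cx.nn (Cx.Sp.op h h.md (Cx.pr_word h hd hl))
    refine sq_le (sq_th h.K1 hσ) (sq_nonneg C) fun ω => ?_
    have := pow_le_pow_left₀ (opn_nonneg _) (opn_smul_le (le_refl |σ ω|) (hC ω)) 2
    rw [mul_pow, sq_abs] at this
    exact (mul_le_mul_of_nonneg_left this (Nat.cast_nonneg _)).trans (le_of_eq (by ring))
  | @add A B _ _ h1 h2 =>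
    refine sq_le (sq_add h.K1 h1 h2) zero_le_two fun ω => ?_
    have := pow_le_pow_left₀ (opn_nonneg _) (opn_add_le (A ω) (B ω)) 2
    have h3 : opn (A ω + B ω) ^ 2 ≤ 2 * (opn (A ω) ^ 2 + opn (B ω) ^ 2) := by
      nlinarith [sq_nonneg (opn (A ω) - opn (B ω))]
    exact (mul_le_mul_of_nonneg_left h3 (Nat.cast_nonneg _)).trans (le_of_eq (by ring))

lemma nrm_diag_opn {n : ℕ} (M : Mx n) : nrm M.diag ≤ √n * opn M := by
  refine (nrm_le_iff (mul_nonneg (Real.sqrt_nonneg _) (opn_nonneg _))).2 ?_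
  rw [mul_pow, Real.sq_sqrt (Nat.cast_nonneg _)]
  refine (sum_le_card_nsmul _ _ (opn M ^ 2) fun i _ => ?_).trans (by simp)
  rw [← sq, ← sq_abs]
  exact pow_le_pow_left₀ (abs_nonneg _) (abs_entry_le M i i) 2

section
variable {Ω : Type*} {c : Cx Ω}

theorem bl_cmul {Φ Ψ : ∀ ω, (Fin (c.n ω) → ℝ) → ℝ} (h : Bl c Ψ) {r : ℝ} (hr : 0 ≤ r)
    (e : ∀ ω w, Φ ω w ≤ r * Ψ ω w) : Bl c Φ := by
  obtain ⟨γ, D, C, h1, h2, h3, h4, h5⟩ := h
  refine ⟨fun ω => r * γ ω, D, r * C, fun ω => mul_nonneg hr (h1 ω),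
    h2.le (sq_nonneg r) fun ω => (mul_pow _ _ _).le, h3, mul_nonneg hr h4, fun ω w b hb hw =>
    (e ω w).trans ((mul_le_mul_of_nonneg_left (h5 ω w b hb hw) hr).trans (le_of_eq (by ring)))⟩

theorem bl_CW (h : c.Ok) {A B : c.MF} (hA : c.CW A) (hB : c.PK B) :
    Bl c fun ω w => nrm (A ω * diagonal w * B ω).diag := by
  induction hA with
  | @right σ d l hσ hd hl =>
    refine (bl_PK h hl.reverse (Cx.Kp.smul h h.md hσ
      (Cx.Kp.lmul h h.md (Cx.pr_diag h hd) hB))).mono fun ω w => le_of_eq ?_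
    rw [Cx.wk_transpose h, List.reverse_reverse]
    simp only [Matrix.smul_mul, Matrix.mul_smul, Matrix.mul_assoc]
    rw [← Matrix.mul_assoc (diagonal _), ← Matrix.mul_assoc (diagonal _), diagonal_mul_diagonal,
      diagonal_mul_diagonal]
    simp only [mul_comm]
  | @left σ d l hσ hd hl =>
    obtain ⟨C, c1, hC⟩ := Cx.BdV.nn (c := c) (h.bl_bd hd)
    refine bl_cmul (bl_PK h hl.reverse (Cx.Kp.smul h h.md hσ hB)) (r := C) (by linarith)
      fun ω w => ?_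
    rw [Cx.wk_transpose h, List.reverse_reverse]
    simp only [Matrix.smul_mul, Matrix.mul_smul, Matrix.mul_assoc]
    rw [← Matrix.mul_smul]
    refine (nrm_le_iff (mul_nonneg (by linarith) (nrm_nonneg _))).2 ?_
    rw [mul_pow, nrm_sq, dotProduct, dotProduct, mul_sum]
    refine sum_le_sum fun i _ => ?_
    rw [diag_apply, diag_apply, diagonal_mul, ← sq, ← sq, mul_pow]
    refine mul_le_mul_of_nonneg_right ?_ (sq_nonneg _)
    rw [← sq_abs]; exact pow_le_pow_left₀ (abs_nonneg _) (hC ω i) 2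
  | add _ _ h1 h2 =>
    refine (h1.add h h2).mono fun ω w => ?_
    rw [Matrix.add_mul, Matrix.add_mul, diag_add]
    exact nrm_add_le _ _

theorem bl_HS {A B : c.MF} (hA : c.HS A) (hB : c.Op B) :
    Bl c fun ω w => nrm (A ω * diagonal w * B ω).diag := by
  obtain ⟨C, C0, hC⟩ := Cx.nn hB
  refine Bl.of_sm (γ := fun ω => C * fn (A ω)) (fun ω => mul_nonneg C0 (fn_nonneg _))
    (Cx.Sm.le hA (sq_nonneg C) fun ω => by rw [mul_pow, fn_sq]) fun ω w b hb hw => ?_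
  rw [Matrix.mul_assoc]
  refine (nrm_diag_le _).trans ((fn_mul_le' _ _).trans ((mul_le_mul_of_nonneg_left
    (opn_mul_le' (opn_diagonal_le hb hw) (hC ω)) (fn_nonneg _)).trans (le_of_eq (by ring))))

end

theorem lt_ev {D : List F.Vf} (h : R.cx.Lt D) :
    ∃ D' : List (F.Lf (N + 1)), (∀ d ∈ D', d ∈ R.C) ∧ D = D'.map R.ev := by
  induction D with
  | nil => exact ⟨[], by simp, rfl⟩
  | cons d D ih =>
    obtain ⟨⟨g, h1, rfl⟩, h2⟩ := Cx.lt_cons.1 h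
    obtain ⟨D', h3, rfl⟩ := ih h2
    exact ⟨g :: D', List.forall_mem_cons.2 ⟨h1, h3⟩, rfl⟩

theorem abs_s_le (h : R.cx.Ok) (ω : F.Ω) : |F.s ω.1| ≤ 1 / √(F.n ω.1) := by
  rcases Nat.eq_zero_or_pos (F.n ω.1) with e | e
  · simp [Fam.s, e]
  · have h1 : F.s ω.1 ^ 2 * F.n ω.1 ≤ 1 := by simpa using h.hs ω
    rw [le_div_iff₀ (by positivity), ← Real.sqrt_sq_eq_abs, ← Real.sqrt_mul (sq_nonneg _)]
    exact Real.sqrt_le_one.2 h1

end Dg98

open Dg98

theorem dgStmt : DGStmt := by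
  rintro F N R h A B ⟨-, A1, h1, A2, h2, h3⟩ ⟨hB, hB'⟩
  obtain ⟨γ, D, C, g0, g1, g2, C0, g3⟩ := (bl_CW h h1 hB').add h (bl_HS h3 hB)
  obtain ⟨D', d1, rfl⟩ := lt_ev g2
  obtain ⟨E, E0, hE⟩ := Cx.nn hB
  refine ⟨D', fun ω => (γ ω + E * (√(F.n ω.1) * opn (A2 ω))) ^ 2, C, d1,
    sq_le (sq_add h.K1 (sq_of_sm h.K1 g1) (sq_le (f := fun ω => (E * (√(F.n ω.1) * opn (A2 ω))) ^ 2)
      (tp_op h h2) (sq_nonneg E) fun ω => le_of_eq ?_)) zero_le_two fun ω => ?_, fun ω v => ?_⟩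
  · rw [mul_pow, mul_pow, Real.sq_sqrt (Nat.cast_nonneg _)]
  · nlinarith [sq_nonneg (γ ω - E * (√(F.n ω.1) * opn (A2 ω)))]
  have hv : ∀ i, |v i| ≤ ‖v‖ := fun i => norm_le_pi_norm v i
  have k1 := g3 ω v ‖v‖ (norm_nonneg _) hv
  have k2 := (nrm_diag_opn (A2 ω * diagonal v * B ω)).trans (mul_le_mul_of_nonneg_left (opn_mul_le'
    (opn_mul_le' le_rfl (opn_diagonal_le (norm_nonneg _) hv)) (hE ω)) (Real.sqrt_nonneg _))
  have e : A ω * diagonal v * B ω = A1 ω * diagonal v * B ω +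
      (A ω - A1 ω - A2 ω) * diagonal v * B ω + A2 ω * diagonal v * B ω := by
    simp only [Matrix.sub_mul]; abel
  have k3 := mul_le_mul_of_nonneg_left (mul_le_mul_of_nonneg_right (abs_s_le h ω)
    (sum_abs_nonneg D' fun d => v ⬝ᵥ R.ev d ω)) C0
  rw [List.map_map] at k1
  beta_reduce
  rw [e, diag_add, diag_add, Real.sqrt_sq (add_nonneg (g0 ω)
    (mul_nonneg E0 (mul_nonneg (Real.sqrt_nonneg _) (opn_nonneg _))))]
  refine (nrm_add_le _ _).trans ((add_le_add ((nrm_add_le _ _).trans (k1.trans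
    (add_le_add le_rfl k3))) k2).trans (le_of_eq (by ring)))

end Crest.Agent.T157.S3

end
end

-- ▼ part T157/S3BilC_89
section

/-!
# Row 157, block S3 (helper89): (BIL) for a multiplier which is close to a divergence
-/

set_option autoImplicit false
set_option linter.unusedSectionVars false

noncomputable section

namespace Crest.Agent.T157.S3B

open Matrix Finset
open Crest.Agent.T157.E (Cube sv prob)
open Crest.Agent.T157.Eig Crest.Agent.T157.Uw Crest.Agent.T157.S3F Crest.Agent.T157.S3W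
open Crest.Agent.T157.Rec (grad fl)
open Crest.Agent.T157.Chain22 (mean IsP)

section ex
variable {ι : Type*} [Fintype ι] [DecidableEq ι]

/-- the excess over the level `η` -/
def ex (η : ℝ) (r : ι → ℝ) : ℝ := ∑ k, max (|r k| - η) 0 ^ 2


lemma nrm_mono {u v : ι → ℝ} (h : ∀ i, |u i| ≤ |v i|) : nrm u ≤ nrm v := by
  refine Real.sqrt_le_sqrt (sum_le_sum fun i _ => ?_)
  rw [← sq, ← sq]
  exact sq_le_sq.2 (h i)

lemma nrm_mul_le {w : ι → ℝ} {b : ℝ} (hb : 0 ≤ b) (hw : ∀ i, |w i| ≤ b) (u : ι → ℝ) :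
    nrm (w * u) ≤ b * nrm u := by
  refine (nrm_mono (v := b • u) fun i => ?_).trans (le_of_eq ?_)
  · rw [Pi.mul_apply, Pi.smul_apply, smul_eq_mul, abs_mul, abs_mul, abs_of_nonneg hb]
    exact mul_le_mul_of_nonneg_right (hw i) (abs_nonneg _)
  · rw [nrm_smul, abs_of_nonneg hb]

lemma nrm_mul_ex {w : ι → ℝ} {b η : ℝ} (hb : 0 ≤ b) (hw : ∀ i, |w i| ≤ b) (hη : 0 ≤ η) (r : ι → ℝ) :
    nrm (w * r) ≤ η * nrm w + b * √(ex η r) := by
  have h1 : nrm (w * r) ≤ nrm (η • (fun i => |w i|) + w * fun i => max (|r i| - η) 0 * SignType.sign (w i)) :=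
    nrm_mono fun i => by
      have h2 : w i * (max (|r i| - η) 0 * SignType.sign (w i)) = |w i| * max (|r i| - η) 0 := by
        rw [← sign_mul_self (w i)]; ring
      simp only [Pi.mul_apply, Pi.add_apply, Pi.smul_apply, smul_eq_mul, h2, abs_mul]
      refine le_trans ?_ (le_abs_self _)
      nlinarith [mul_le_mul_of_nonneg_left (le_max_left (|r i| - η) 0) (abs_nonneg (w i))]
  refine h1.trans ((nrm_add_le _ _).trans (add_le_add ?_ ((nrm_mul_le hb hw _).trans ?_)))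
  · rw [nrm_smul, abs_of_nonneg hη]
    exact mul_le_mul_of_nonneg_left (nrm_mono fun i => (abs_abs _).le) hη
  · refine mul_le_mul_of_nonneg_left (Real.sqrt_le_sqrt (sum_le_sum fun i _ => ?_)) hb
    rw [← sq, mul_pow]
    refine mul_le_of_le_one_right (sq_nonneg _) ?_
    rcases lt_trichotomy (w i) 0 with h | h | h <;> simp [h]

lemma abs_dot_ex {η : ℝ} (hη : 0 ≤ η) (w r : ι → ℝ) :
    |w ⬝ᵥ r| ≤ nrm w * (η * √(Fintype.card ι) + √(ex η r)) := by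
  have := nrm_mul_ex (w := 1) zero_le_one (fun i => by simp) hη r
  rw [one_mul, one_mul, nrm_one] at this
  exact (abs_dot_le _ _).trans (mul_le_mul_of_nonneg_left this (nrm_nonneg w))

lemma mean_nrm_mul {Ω : Type*} [Fintype Ω] {π : Ω → ℝ} (h : IsP π) {w : ι → ℝ} {b η : ℝ} (hb : 0 ≤ b)
    (hw : ∀ i, |w i| ≤ b) (hη : 0 ≤ η) (u : Ω → ι → ℝ) : mean π (fun x => nrm (w * u x)) ≤
      η * nrm w + b * √(ex η fun k => √(mean π fun x => u x k ^ 2)) := by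
  refine le_trans ?_ (nrm_mul_ex hb hw hη _)
  refine mean_le_sqrt h (le_of_eq ?_)
  simp only [nrm_sq, dotProduct, Pi.mul_apply]
  rw [Ent.mean_sum']
  refine sum_congr rfl fun k _ => ?_
  rw [mul_mul_mul_comm _ (√_), Real.mul_self_sqrt (h.mean_nonneg fun x => sq_nonneg _),
    ← Ent.mean_const_mul]
  exact Ent.mean_congr fun x => by ring

end ex

variable {I : Type*} {n : I → ℕ} {s K : I → ℝ} {J : ∀ a, Matrix (Fin (n a)) (Fin (n a)) ℝ}
  {BL : (∀ ω : Pt n, Fin (n ω.1) → ℝ) → Prop} {Sc Th : (Pt n → ℝ) → Prop} {μ : ∀ a, Cube (n a) → ℝ}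

/-- the divergences of the rows -/
def dvF (μ : ∀ a, Cube (n a) → ℝ) (T : ∀ ω : Pt n, Matrix (Fin (n ω.1)) (Fin (n ω.1)) ℝ) (ω : Pt n) :
    Fin (n ω.1) → ℝ := fun i => dv (μ ω.1) (fun y k => T ⟨ω.1, y⟩ i k) ω.2

/-- the mean norm of an `O₂` vector -/
theorem mean_o2 (h : (mkC n s K J BL Sc Th).Ok) (hμ : ∀ a x, 0 < μ a x)
    (hTh : ∀ θ, Th θ → ∃ C, ∀ a, n a * mean (prob (μ a)) (fun x => θ ⟨a, x⟩ ^ 4) ≤ C)
    {u : (mkC n s K J BL Sc Th).VF} (hu : (mkC n s K J BL Sc Th).O2 u) :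
    ∃ C, 0 ≤ C ∧ ∀ a, mean (prob (μ a)) (fun x => nrm (u ⟨a, x⟩)) ≤ C * √(K a) := by
  obtain ⟨C, C0, hC⟩ := mean_sm h hμ hTh hu
  refine ⟨√C, Real.sqrt_nonneg _, fun a => ?_⟩
  rw [← Real.sqrt_mul C0]
  refine mean_le_sqrt (Chain22.isP_prob' (hμ a)) (le_trans (le_of_eq ?_) (hC a))
  simp only [nrm_sq]
  simp only [dotProduct, sq]

/-- **(BIL)** for a multiplier `ρ` which is close to `A`, where `A` is close to a divergence -/
theorem bil_R (h : (mkC n s K J BL Sc Th).Ok) (hμ : ∀ a x, 0 < μ a x)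
    (hTh : ∀ θ, Th θ → ∃ C, ∀ a, n a * mean (prob (μ a)) (fun x => θ ⟨a, x⟩ ^ 4) ≤ C) (hP : LP μ)
    {T : (mkC n s K J BL Sc Th).MF} (hF : ∀ a (i : Fin (n a)), Free fun x k => T ⟨a, x⟩ i k)
    (hT : (mkC n s K J BL Sc Th).Op T) (hT0 : (mkC n s K J BL Sc Th).PK T) (hD : BL (DF μ))
    (hj : ∀ u, BL u → (mkC n s K J BL Sc Th).Op (jacF u) ∧ (mkC n s K J BL Sc Th).PK (jacF u))
    {A : (mkC n s K J BL Sc Th).VF}
    (hA : ∃ C, ∀ a, mean (prob (μ a)) (fun x => nrm (dvF μ T ⟨a, x⟩ - A ⟨a, x⟩)) ≤ C * √(K a))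
    {m : List (mkC n s K J BL Sc Th).VF} (hm : (mkC n s K J BL Sc Th).Lt m) {C0 : ℝ} (c0 : 0 ≤ C0)
    (hC0 : ∀ ω, opn ((mkC n s K J BL Sc Th).vk m ω) ≤ C0) {e : ℝ} (he : 0 < e) :
    ∃ (C : ℝ) (D : List (mkC n s K J BL Sc Th).VF), 0 ≤ C ∧ (mkC n s K J BL Sc Th).Lt D ∧
      ∀ a (ρ : Cube (n a) → Fin (n a) → ℝ) (w z : Fin (n a) → ℝ) (b η : ℝ), 0 ≤ b → (∀ i, |w i| ≤ b) →
        0 ≤ η → |mean (prob (μ a)) fun x => (w * ρ x) ⬝ᵥ (mkC n s K J BL Sc Th).vk m ⟨a, x⟩ *ᵥ z| ≤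
          nrm z * (e * nrm w +
            C * (√(K a) * b + |s a| * nrm w + |s a| * (D.map fun d => |w ⬝ᵥ mF μ d a|).sum) +
            C0 * (η * nrm w + b * √(ex η fun k =>
              √(mean (prob (μ a)) fun x => (A ⟨a, x⟩ k - ρ x k) ^ 2)))) := by
  have hTD : (mkC n s K J BL Sc Th).PK fun ω => T ω * diagonal (DF μ ω) :=
    Cx.Kp.rmul h h.md hT0 (Cx.pr_diag h hD)
  obtain ⟨C, D, c1, hD', hC⟩ := bil_T h hμ hTh hP hF hT hTD (fun u hu => ⟨(hj u hu).1,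
    Cx.Kp.of4 h h.md (hj u hu).1.bdE (hj u hu).2,
    Cx.Kp.mulk h h.md hTD (Cx.Kp.transpose h h.md (hj u hu).2) (hj u hu).1.transpose⟩) hm he
  obtain ⟨C1, hC1⟩ := hA
  refine ⟨C + C0 * |C1|, D, by positivity, hD', fun a ρ w z b η hb hw hη => ?_⟩
  have hP := Chain22.isP_prob' (hμ a)
  have h1 := hC a w z b hb hw
  have h2 := mean_nrm_mul hP hb hw hη fun x => A ⟨a, x⟩ - ρ x
  have h3 := (hC1 a).trans (mul_le_mul_of_nonneg_right (le_abs_self C1) (Real.sqrt_nonneg _))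
  have z0 := nrm_nonneg z
  have h4 : |mean (prob (μ a)) fun x => (w * (dvF μ T ⟨a, x⟩ - ρ x)) ⬝ᵥ
      (mkC n s K J BL Sc Th).vk m ⟨a, x⟩ *ᵥ z| ≤ mean (prob (μ a)) fun x => C0 * nrm z *
        (b * nrm (dvF μ T ⟨a, x⟩ - A ⟨a, x⟩) + nrm (w * (A ⟨a, x⟩ - ρ x))) := by
    refine (abs_sum_le_sum_abs _ _).trans (sum_le_sum fun x _ => ?_)
    rw [abs_mul, abs_of_nonneg (hP.nn x)]
    refine mul_le_mul_of_nonneg_left ((abs_dot_le _ _).trans ?_) (hP.nn x)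
    rw [mul_comm]
    refine mul_le_mul ((nrm_mulVec_le _ _).trans (mul_le_mul_of_nonneg_right (hC0 _) z0)) ?_
      (nrm_nonneg _) (mul_nonneg c0 z0)
    refine le_trans (le_of_eq ?_) ((nrm_add_le _ _).trans (add_le_add (nrm_mul_le hb hw _) le_rfl))
    rw [← mul_add, sub_add_sub_cancel]
  rw [Ent.mean_const_mul, Ent.mean_add', Ent.mean_const_mul] at h4
  have e1 : (mean (prob (μ a)) fun x => (w * ρ x) ⬝ᵥ (mkC n s K J BL Sc Th).vk m ⟨a, x⟩ *ᵥ z) =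
      (mean (prob (μ a)) fun x => ∑ i, w i * dv (μ a) (fun y k => T ⟨a, y⟩ i k) x *
        ((mkC n s K J BL Sc Th).vk m ⟨a, x⟩ *ᵥ z) i) - mean (prob (μ a)) fun x =>
        (w * (dvF μ T ⟨a, x⟩ - ρ x)) ⬝ᵥ (mkC n s K J BL Sc Th).vk m ⟨a, x⟩ *ᵥ z := by
    rw [← Ent.mean_sub']
    refine Ent.mean_congr fun x => ?_
    rw [dotProduct, dotProduct, ← sum_sub_distrib]
    exact sum_congr rfl fun i _ => by simp only [dvF, Pi.mul_apply, Pi.sub_apply]; ring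
  rw [e1]
  refine (abs_sub _ _).trans ((add_le_add h1 (h4.trans (mul_le_mul_of_nonneg_left
    (add_le_add (mul_le_mul_of_nonneg_left h3 hb) h2) (mul_nonneg c0 z0)))).trans ?_)
  have p2 : 0 ≤ |s a| * nrm w := mul_nonneg (abs_nonneg _) (nrm_nonneg w)
  have p3 := mul_nonneg (abs_nonneg (s a)) (sum_abs_nonneg D fun d => w ⬝ᵥ mF μ d a)
  have q : 0 ≤ nrm z * (C0 * |C1|) := by positivity
  simp only [Pi.sub_apply]
  nlinarith [mul_nonneg q p2, mul_nonneg q p3]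

end Crest.Agent.T157.S3B
end
end

-- ▼ part T157/S3Bil_89
section

/-!
# Row 157, block S3 (helper89): **(BIL)**
-/

set_option autoImplicit false

noncomputable section

namespace Crest.Agent.T157.S3.Bil89

open Matrix Filter Finset
open Crest.Agent.T157.E (Cube sv ising prob)
open Crest.Agent.T157.Rec (grad fl)
open Crest.Agent.T157.Eig Crest.Agent.T157.S3B
open Crest.Agent.T157.Chain22 (IsP mean)
open Crest.Agent.T157.S3F (tm dv Free tm_ising)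
open Crest.Agent.T157.S3W (Cx)
open Crest.Agent.T157.S3.Fam

variable {F : Fam} {N : ℕ} {R : Net F N}

lemma w_pos (i : F.I) (x : Cube (F.n i)) : 0 < F.w i x := Real.exp_pos _

lemma isP (i : F.I) : IsP (prob (F.w i)) := Chain22.isP_prob' (w_pos i)

lemma n_pos (hF : F.Ok) (i : F.I) : (0 : ℝ) < F.n i := Nat.cast_pos.2 (hF.pos i)

lemma tm_w (hF : F.Ok) (ω : F.Ω) (j : Fin (F.n ω.1)) :
    tm (F.w ω.1) ω.2 j = Real.tanh (hf (F.J ω.1) (F.y ω.1) ω.2 j) := by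
  rw [Fam.w, tm_ising (hF.symm _)]
  simp [Da.Gr.tt, Da.Gr.loc, hf, hF.diag]

lemma DF_eq (hF : F.Ok) (hR : R.Ok) : DF F.w = R.ev R.D := by
  funext ω k
  simp only [DF, tm_w hF, Net.ev, Net.D, Net.th, Pi.sub_apply, Pi.mul_apply, Pi.one_apply, hR.X0, sq,
    add_sub_cancel]

lemma D_mem (hR : R.Ok) : R.D ∈ R.C := by
  have := hR.add _ hR.one _ (hR.smul (-1) _ (hR.mul _ hR.th _ hR.th))
  rwa [neg_one_smul, ← sub_eq_add_neg] at this

lemma dvF_eq (hF : F.Ok) (T : F.Mf) (ω : F.Ω) : dvF F.w T ω = T ω *ᵥ F.τ ω := by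
  funext i
  simp only [dvF, dv, tm_w hF ω, mulVec, dotProduct, Fam.τ, tau]
  exact sum_congr rfl fun j _ => mul_comm _ _

lemma dsn {n : ℕ} (v : V n) : 0 ≤ v ⬝ᵥ v := sum_nonneg fun _ _ => mul_self_nonneg _

lemma sq_fl {n : ℕ} (f : Cube n → ℝ) (x : Cube n) (i : Fin n) :
    (f x - f (fl x i)) ^ 2 = 4 * (grad f x i * grad f x i) := by
  rw [Rec.grad_eq]
  linear_combination (-(f x - f (fl x i)) ^ 2) * Rec.sv_mul_self x i

/-- Poincare's inequality for Lipschitz functions -/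
theorem lp (hb : HBStmt) (hF : F.Ok) : LP F.w := by
  obtain ⟨K0, κ0, hκ, h⟩ := hF.hAT
  obtain ⟨C, c, c0, hC⟩ := hb K0 κ0 0 hκ
  refine ⟨5 * |C|, fun i G A hA => ?_⟩
  have h1 := ((hC _ _ (w_pos i) (h i)).2.1 G (4 * A) fun x => by
    simp only [sq_fl, ← mul_sum]
    exact mul_le_mul_of_nonneg_left (hA x) (by norm_num)).1
  have A0 : 0 ≤ A := (dsn _).trans (hA default)
  have h2 : E.mean (F.w i) (fun x => grad G x ⬝ᵥ grad G x) ≤ A :=
    ((isP i).mean_mono hA).trans_eq ((isP i).mean_const A)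
  have h3 : 0 ≤ E.mean (F.w i) fun x => grad G x ⬝ᵥ grad G x :=
    (isP i).mean_nonneg fun x => dsn _
  have h4 : Real.exp (-(c * F.n i)) ≤ 1 := Real.exp_le_one_iff.2 (neg_nonpos.2 (by positivity))
  have h5 := (Real.exp_pos (-(c * F.n i))).le
  have h6 := mul_le_mul (le_abs_self C) h2 h3 (abs_nonneg C)
  have h7 := mul_le_mul (le_abs_self C) (mul_le_of_le_one_right A0 h4) (mul_nonneg A0 h5) (abs_nonneg C)
  refine le_trans (le_of_eq rfl) (h1.trans ?_)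
  linarith

theorem th_sq (hc : ClsStmt) (hF : F.Ok) {θ : F.Sf} (hθ : Th θ) :
    ∃ C, ∀ i, F.n i * mean (prob (F.w i)) (fun x => θ ⟨i, x⟩ ^ 2) ≤ C := by
  obtain ⟨C, hC⟩ := (hc F hF).2.2.1 θ hθ
  refine ⟨C, fun i => ?_⟩
  have := hC i _ (isP i)
  rwa [Fam.H, Ent.kl_self, zero_add, mul_one, le_div_iff₀ (n_pos hF i), mul_comm] at this

theorem th_four (hc : ClsStmt) (hF : F.Ok) (θ : F.Sf) (hθ : Th θ) :
    ∃ C, ∀ i, F.n i * mean (prob (F.w i)) (fun x => θ ⟨i, x⟩ ^ 4) ≤ C := by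
  obtain ⟨C, hC⟩ := th_sq hc hF ((hc F hF).2.1 θ θ hθ.1 hθ)
  refine ⟨C, fun i => le_trans (le_of_eq ?_) (hC i)⟩
  congr 2
  funext x
  ring

/-- mean norm of order `√K` -/
def Mn (u : F.Vf) : Prop := ∃ C, ∀ i, mean (prob (F.w i)) (fun x => nrm (u ⟨i, x⟩)) ≤ C * √(F.K i)

theorem Mn.add {u v : F.Vf} (hu : Mn u) (hv : Mn v) : Mn fun ω => u ω + v ω := by
  obtain ⟨C, hC⟩ := hu
  obtain ⟨C', hC'⟩ := hv
  refine ⟨C + C', fun i => ((isP i).mean_mono fun x => nrm_add_le _ _).trans ?_⟩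
  rw [Ent.mean_add', add_mul]
  exact add_le_add (hC i) (hC' i)

theorem Mn.mul {d u : F.Vf} (hd : R.cx.BdV d) (hu : Mn u) : Mn fun ω => d ω * u ω := by
  obtain ⟨C, hC⟩ := hu
  obtain ⟨B, B1, hB⟩ := hd.nn
  refine ⟨B * C, fun i => ((isP i).mean_mono fun x =>
    nrm_mul_le (by linarith) (hB ⟨i, x⟩) _).trans ?_⟩
  rw [Ent.mean_const_mul, mul_assoc]
  exact mul_le_mul_of_nonneg_left (hC i) (by linarith)

theorem mn_zero : Mn (F := F) fun _ => 0 := ⟨0, fun i => by simp [mean]⟩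

theorem mn_sq (hc : ClsStmt) (hF : F.Ok) {u : F.Vf} (hu : Sq fun ω => u ω ⬝ᵥ u ω) : Mn u := by
  obtain ⟨C, hC⟩ := (hc F hF).2.2.2.1 _ hu
  refine ⟨√|C|, fun i => ?_⟩
  have := hC i _ (isP i)
  rw [Fam.H, Ent.kl_self, add_zero] at this
  rw [← Real.sqrt_mul (abs_nonneg C)]
  refine mean_le_sqrt (isP i) ?_
  simp only [nrm_sq]
  exact this.trans (mul_le_mul_of_nonneg_right (le_abs_self C) (by linarith [hF.K1 i]))

theorem mn_tv (hc : ClsStmt) (hF : F.Ok) (h : R.cx.Ok) {u : R.cx.VF} (hu : R.cx.Sv R.cx.Th u) :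
    Mn u := by
  induction hu with
  | @term θ d hθ hd =>
    obtain ⟨C, hC⟩ := th_sq hc hF hθ
    obtain ⟨B, B1, hB⟩ := Cx.BdV.nn (c := R.cx) (h.bl_bd hd)
    refine ⟨B * √C, fun i => ?_⟩
    have h1 := mean_le_sqrt (isP i) (f := fun x => √(F.n i) * |θ ⟨i, x⟩|) (A := C) (by
      simp only [mul_pow, sq_abs, Real.sq_sqrt (n_pos hF i).le]
      rw [Ent.mean_const_mul]
      exact hC i)
    have h2 : 1 ≤ √(F.K i) := Real.one_le_sqrt.2 (hF.K1 i)
    refine ((isP i).mean_mono (g := fun x => B * (√(F.n i) * |θ ⟨i, x⟩|)) fun x => ?_).trans ?_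
    · have := nrm_mul_le (by linarith) (hB ⟨i, x⟩) 1
      rw [mul_one, nrm_one, Fintype.card_fin] at this
      beta_reduce
      rw [nrm_smul]
      exact (mul_le_mul_of_nonneg_left this (abs_nonneg _)).trans_eq (by ring)
    · rw [Ent.mean_const_mul, mul_assoc]
      exact mul_le_mul_of_nonneg_left (h1.trans (le_mul_of_one_le_right (Real.sqrt_nonneg _) h2))
        (by linarith)
  | add _ _ h1 h2 => exact h1.add h2

theorem small (hF : F.Ok) (C : ℝ) {η : ℝ} (hη : 0 < η) : ∀ᶠ i in F.l, √(C * F.K i) ≤ η * √(F.n i) := by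
  have h1 : Tendsto (fun i => √(F.n i : ℝ)) F.l atTop :=
    Real.tendsto_sqrt_atTop.comp (tendsto_natCast_atTop_atTop.comp hF.lim)
  filter_upwards [hF.Ko (1 / 2) (by norm_num), h1.eventually_ge_atTop (|C| / η ^ 2)] with i h2 h3
  rw [← Real.sqrt_eq_rpow] at h2
  rw [div_le_iff₀ (by positivity)] at h3
  refine Real.sqrt_le_iff.2 ⟨by positivity, ?_⟩
  have h4 := mul_le_mul (le_abs_self C) h2 (by linarith [hF.K1 i]) (abs_nonneg C)
  have h5 := mul_le_mul_of_nonneg_right h3 (Real.sqrt_nonneg (F.n i : ℝ))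
  linarith

lemma abs_s_le (hF : F.Ok) (i : F.I) : |F.s i| ≤ 1 / √(F.n i) := by
  rw [Fam.s, abs_div, abs_of_nonneg hF.beta.1, abs_of_nonneg (Real.sqrt_nonneg _)]
  exact div_le_div_of_nonneg_right hF.beta.2 (Real.sqrt_nonneg _)

lemma pi_nonneg (D : List F.Df) (i : F.I) (w : V (F.n i)) : 0 ≤ Fam.Pi D i w :=
  div_nonneg (sum_abs_nonneg D fun d => w ⬝ᵥ d i) (Real.sqrt_nonneg _)

/-- from the means of the letters to the types -/
theorem types (hF : F.Ok) {𝒯 : Set F.Df} (hT : R.Ty 𝒯) : ∀ {D : List F.Vf}, R.cx.Lt D → ∀ {η : ℝ}, 0 < η →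
    ∃ D' : List F.Df, (∀ d ∈ D', d ∈ 𝒯) ∧ ∀ᶠ i in F.l, ∀ w : V (F.n i),
      |F.s i| * (D.map fun d => |w ⬝ᵥ mF F.w d i|).sum ≤ Fam.Pi D' i w + η * nrm w
  | [], _, η, hη => ⟨[], by simp, Eventually.of_forall fun i w => by
      simpa [Fam.Pi] using mul_nonneg hη.le (nrm_nonneg w)⟩
  | d :: D, hD, η, hη => by
    obtain ⟨⟨g, hg, rfl⟩, hD'⟩ := Cx.lt_cons.1 hD
    obtain ⟨D', h1, h2⟩ := types hF hT hD' (half_pos hη)
    obtain ⟨t, ht, h3⟩ := hT g hg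
    obtain ⟨C, hC⟩ := h3 (η / 4) (by positivity)
    refine ⟨t :: D', List.forall_mem_cons.2 ⟨ht, h1⟩, ?_⟩
    filter_upwards [h2, hC, small hF C (by positivity : 0 < η / 4)] with i h2 hC h4 w
    have q0 : 0 < √(F.n i : ℝ) := Real.sqrt_pos.2 (n_pos hF i)
    have h5 := abs_dot_ex (by positivity : 0 ≤ η / 4) w (F.EV (R.ev g) i - t i)
    rw [Fintype.card_fin, dotProduct_sub] at h5
    have h6 := mul_le_mul_of_nonneg_left ((Real.sqrt_le_sqrt hC).trans h4) (nrm_nonneg w)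
    have h7 : |w ⬝ᵥ mF F.w (R.ev g) i| ≤ |w ⬝ᵥ t i| + η / 2 * nrm w * √(F.n i) := by
      have := abs_add_le (w ⬝ᵥ t i) (w ⬝ᵥ F.EV (R.ev g) i - w ⬝ᵥ t i)
      rw [add_sub_cancel] at this
      refine le_trans (le_of_eq rfl) (this.trans ?_)
      rw [ex] at h5
      linarith
    have h8 := mul_le_mul (abs_s_le hF i) h7 (abs_nonneg _) (by positivity)
    have e : 1 / √(F.n i : ℝ) * (|w ⬝ᵥ t i| + η / 2 * nrm w * √(F.n i)) =
      |w ⬝ᵥ t i| / √(F.n i) + η / 2 * nrm w := by field_simp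
    have := h2 w
    simp only [Fam.Pi, List.map_cons, List.sum_cons, add_div, mul_add] at this ⊢
    linarith

/-- **(BIL)** -/
theorem bil (hb : HBStmt) (hc : ClsStmt) (h1 : J1Stmt) (h2 : J2Stmt) (h3 : CLStmt) : BILStmt := by
  intro F N R 𝒯 ρ hF hR hS al0 l hal hl e he
  set m : List F.Vf := (l.map R.ev).reverse ++ [R.ev al0] with hm
  have hm0 : ∀ u ∈ m, ∃ g ∈ R.C, u = R.ev g := fun u hu => by
    rcases List.mem_append.1 hu with hu | hu
    · obtain ⟨g, hg, rfl⟩ := List.mem_map.1 (List.mem_reverse.1 hu)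
      exact ⟨g, hl g hg, rfl⟩
    · exact ⟨al0, hal, List.mem_singleton.1 hu⟩
  have cx0 := (h1 F N R hF hR).1
  obtain ⟨C0, c0, hC0⟩ := Cx.nn (Cx.op_vu cx0 (l := m) hm0).1
  have e1 : 0 < e / 4 / (C0 + 1) := by positivity
  obtain ⟨N', P, R', Φ, Γ, Pb, Z, al, a, hR', hE, hT, hΦ, hD, hL, C1, hC1⟩ := hS _ e1
  obtain ⟨cx, -, top, -, j1⟩ := h1 F N' R' hF hR'
  obtain ⟨j2, j3⟩ := h2 F N' R' hF hR'
  obtain ⟨g, c, c', -, k1, k2⟩ := h3 F N' P R' Φ Γ Pb Z hF hR' hΦ hD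
  obtain ⟨g0, k2, k3⟩ := k2 al a hL
  have k4 := ((j2 P Φ hΦ).2 al a hL).2.2
  have hA : Mn fun ω => dvF F.w (Φ.tTb al a) ω - Φ.tA Pb Z al a ω := by
    obtain ⟨C, -, hC⟩ := mean_o2 (μ := F.w) cx w_pos (th_four hc hF) k3
    have a1 : Mn fun ω => Φ.tTb al a ω *ᵥ F.τ ω - Φ.tA Pb Z al a ω -
      (g0 ω + ∑ p, R'.ev (a p) ω * c' p ω) := ⟨C, hC⟩
    have a2 : ∀ p, Mn fun ω => R'.ev (a p) ω * c' p ω := fun p =>
      Mn.mul (R := R') (cx.bl_bd ⟨a p, hL.2.2 p, rfl⟩) (mn_sq hc hF (k1 p))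
    have a3 : Mn fun ω => ∑ p, R'.ev (a p) ω * c' p ω :=
      Cx.sumP (P := Mn) (A := fun p ω => R'.ev (a p) ω * c' p ω) mn_zero Mn.add univ fun p _ => a2 p
    simpa only [sub_add_cancel, dvF_eq hF] using a1.add ((mn_tv hc hF cx k2).add a3)
  obtain ⟨C, D, c1, hD, hC⟩ := bil_R (μ := F.w) cx w_pos (th_four hc hF) (lp hb hF)
    (T := Φ.tTb al a) (fun i k x j b => (((j1 P Φ hΦ).2 al a hL).2.2 i x k j b)) k4.1 k4.2
    ⟨_, D_mem hR', DF_eq hF hR'⟩ (by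
      rintro _ ⟨g, hg, rfl⟩
      exact ((j3 Γ hD.1).2 g (top g hg)).2.1) hA (m := m) (fun u hu => by
      obtain ⟨g, hg, rfl⟩ := hm0 u hu
      obtain ⟨g', hg', e⟩ := hE g hg
      exact ⟨g', hg', e.symm⟩) c0 hC0 (by positivity : 0 < e / 4)
  have e2 : 0 < e / 4 / (C + 1) := by positivity
  obtain ⟨D', d1, d2⟩ := types hF hT hD e2
  refine ⟨D', d1, C + C0 * √|C1|, ?_⟩
  filter_upwards [hC1, d2, small hF 1 e2] with i hC1 d2 d3 z w
  have q0 : 0 < √(F.n i : ℝ) := Real.sqrt_pos.2 (n_pos hF i)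
  have b1 := hC i (fun x => ρ ⟨i, x⟩) w z ‖w‖ _ (norm_nonneg w) (norm_le_pi_norm w) e1.le
  have e3 : ∀ x, (z * R.ev al0 ⟨i, x⟩) ⬝ᵥ R.W l ⟨i, x⟩ *ᵥ (w * ρ ⟨i, x⟩) =
      (w * ρ ⟨i, x⟩) ⬝ᵥ R.cx.vk m ⟨i, x⟩ *ᵥ z := fun x => by
    rw [hm, Cx.vk_snoc, ← Cx.wk_transpose cx0, ← mulVec_mulVec, dotProduct_mulVec (w * _),
      vecMul_transpose, dotProduct_comm, Cx.wk, List.map_map]
    congr 1
    ext k
    rw [mulVec_diagonal, Pi.mul_apply, mul_comm]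
  simp only [e3]
  refine le_trans (le_of_eq rfl) (b1.trans (mul_le_mul_of_nonneg_left ?_ (nrm_nonneg z)))
  have w0 := nrm_nonneg w
  have b2 : √(ex (e / 4 / (C0 + 1)) fun k : Fin (F.n i) => √(mean (prob (F.w i)) fun x =>
      (Φ.tA Pb Z al a ⟨i, x⟩ k - ρ ⟨i, x⟩ k) ^ 2)) ≤ √|C1| * √(F.K i) := by
    rw [← Real.sqrt_mul (abs_nonneg _)]
    exact Real.sqrt_le_sqrt (le_trans hC1
      (mul_le_mul_of_nonneg_right (le_abs_self _) (by linarith [hF.K1 i])))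
  have b3 : |F.s i| ≤ e / 4 / (C + 1) := by
    refine (abs_s_le hF i).trans ?_
    rw [div_le_iff₀ q0]
    exact (Real.one_le_sqrt.2 (by linarith [hF.K1 i])).trans d3
  have b4 : ∀ A : ℝ, 0 ≤ A → A * (e / 4 / (A + 1)) ≤ e / 4 := fun A hA => by
    rw [← mul_div_assoc, div_le_iff₀ (by positivity)]
    nlinarith
  have b5 := mul_le_mul_of_nonneg_right (b4 C c1) w0
  have b6 := mul_le_mul_of_nonneg_right (b4 C0 c0) w0
  have b7 := mul_le_mul_of_nonneg_left (mul_le_mul_of_nonneg_right b3 w0) c1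
  have b8 := mul_le_mul_of_nonneg_left (d2 w) c1
  have b9 := mul_le_mul_of_nonneg_left (mul_le_mul_of_nonneg_left b2 (norm_nonneg w)) c0
  have b0 := mul_nonneg (mul_nonneg c0 (Real.sqrt_nonneg |C1|)) (pi_nonneg D' i w)
  linarith

end Bil89

theorem bilGlue : BILGlue := fun hb _ hc h1 h2 _ h3 => Bil89.bil hb hc h1 h2 h3

end Crest.Agent.T157.S3
end
end

-- ▼ part T157/S3GrA_7
section

/-!
# Row 157, B, block S3: the Gram identity in neutral words (helper7)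

`SP` sums over the decreasing paths of a flow family, `Y0`, `T0` are the exact Wick expansions,
`gram` reduces `E ⟨u, Y d Y'ᵀ v⟩` to its scalar part once clean words have small means.
-/

set_option autoImplicit false
set_option linter.unusedSectionVars false

noncomputable section

namespace Crest.Agent.T157.S3.Gr7

open Matrix Finset
open Crest.Agent.T157.Eig Crest.Agent.T157.Uw Crest.Agent.T157.Chain22

/-! ### sums over paths -/

section paths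
variable {L V V' : Type*} [AddCommGroup V] [AddCommGroup V'] (al : ℕ → L) (a : ℕ → ℕ → L)

/-- sum over the decreasing paths which start at `l` -/
def SP : ℕ → (List L → L → V) → V
  | l, Φ => Φ [] (al l) + ∑ m : Fin l, SP m fun π e => Φ (a l m :: π) e
decreasing_by exact m.2











end paths

/-! ### exact Wick expansions -/

variable {Ω ι : Type*} [Fintype Ω] [Fintype ι] [DecidableEq ι] {s R c : ℝ} {J : Matrix ι ι ℝ}

/-- the letters at a point -/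
abbrev ev (π : List (Ω → ι → ℝ)) (x : Ω) : List (ι → ℝ) := π.map fun b => b x


section exact
variable (s J) (al : ℕ → Ω → ι → ℝ) (a : ℕ → ℕ → Ω → ι → ℝ)

def T0 (l : ℕ) (x : Ω) : Matrix ι ι ℝ := SP al a l fun π e => Uk s J (ev π x ++ [e x])



end exact


/-! ### the scalar part -/

/-- product of the contractions of two words of the same length -/
def pr (s : ℝ) : List (ι → ℝ) → List (ι → ℝ) → ℝ
  | [], [] => 1
  | a :: l, b :: m => eta s (a * b) * pr s l m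
  | _, _ => 0



/-- the scalar part of `Y0 d Y0'ᵀ` -/
def P0 (s : ℝ) (al : ℕ → Ω → ι → ℝ) (a : ℕ → ℕ → Ω → ι → ℝ) (al' : ℕ → Ω → ι → ℝ)
    (a' : ℕ → ℕ → Ω → ι → ℝ) (d : Ω → ι → ℝ) (l m : ℕ) (x : Ω) : ℝ :=
  SP al a l fun π e => SP al' a' m fun π' e' => eta s (e x * d x * e' x) * pr s (ev π x) (ev π' x)



/-! ### concentrated scalars -/

variable {μ : Ω → ℝ} {δ β Λ : ℝ}

/-- a bounded scalar which is close to a constant in mean -/
def Con (μ : Ω → ℝ) (c δ : ℝ) (j : ℕ) (f : Ω → ℝ) : Prop :=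
  ∃ f₀, (∀ x, |f x| ≤ c ^ j) ∧ |f₀| ≤ c ^ j ∧ mean μ (fun x => |f x - f₀|) ≤ j * c ^ j * δ

lemma abs_mean_le' (hμ : IsP μ) {f g : Ω → ℝ} (h : ∀ x, |f x| ≤ g x) : |mean μ f| ≤ mean μ g :=
  (abs_sum_le_sum_abs _ _).trans (sum_le_sum fun x _ => by
    rw [abs_mul, abs_of_nonneg (hμ.nn x)]; exact mul_le_mul_of_nonneg_left (h x) (hμ.nn x))

lemma mean_lin (f g : Ω → ℝ) (p q : ℝ) :
    mean μ (fun x => p * f x + q * g x) = p * mean μ f + q * mean μ g := by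
  simp only [mean, mul_sum, ← sum_add_distrib]
  exact sum_congr rfl fun x _ => by ring

lemma Con.one : Con μ c δ 0 fun _ => 1 :=
  ⟨1, fun _ => by simp, by simp, by simp [mean]⟩

lemma Con.mul (hμ : IsP μ) (hc : 1 ≤ c) (hδ : 0 ≤ δ) {j : ℕ} {f g : Ω → ℝ} (h : Con μ c δ j f)
    (hg : ∀ x, |g x| ≤ c) (hg' : mean μ (fun x => |g x - mean μ g|) ≤ δ) :
    Con μ c δ (j + 1) fun x => f x * g x := by
  obtain ⟨f₀, h1, h2, h3⟩ := h
  have p0 : 0 ≤ c ^ j := by positivity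
  refine ⟨f₀ * mean μ g, fun x => ?_, ?_, ?_⟩
  · rw [abs_mul, pow_succ]; exact mul_le_mul (h1 x) (hg x) (abs_nonneg _) p0
  · rw [abs_mul, pow_succ]; exact mul_le_mul h2 (hμ.abs_mean_le hg) (abs_nonneg _) p0
  · refine (hμ.mean_mono (g := fun x => c * |f x - f₀| + c ^ j * |g x - mean μ g|)
      fun x => ?_).trans ?_
    · rw [show f x * g x - f₀ * mean μ g = g x * (f x - f₀) + f₀ * (g x - mean μ g) by ring]
      refine (abs_add_le _ _).trans ?_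
      rw [abs_mul, abs_mul]
      exact add_le_add (mul_le_mul_of_nonneg_right (hg x) (abs_nonneg _))
        (mul_le_mul_of_nonneg_right h2 (abs_nonneg _))
    · rw [mean_lin, pow_succ]
      push_cast
      nlinarith [mul_le_mul_of_nonneg_left h3 (zero_le_one.trans hc),
        mul_le_mul_of_nonneg_left hg' p0, mul_nonneg (mul_nonneg p0 hδ) (sub_nonneg.2 hc)]


lemma diag_mulVec (d w : ι → ℝ) : diagonal d *ᵥ w = d * w := funext fun i => mulVec_diagonal d w i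

lemma dot_diag (u d w : ι → ℝ) : u ⬝ᵥ diagonal d *ᵥ w = (d * u) ⬝ᵥ w := by
  simp only [diag_mulVec, dotProduct, Pi.mul_apply]
  exact sum_congr rfl fun i _ => by ring

/-! ### one product of two Wick words -/

/-- the hypotheses on the letters `P`, the middle letters `Q` and the test vectors `u`, `v` -/
structure Hyp (μ : Ω → ℝ) (s : ℝ) (J : Matrix ι ι ℝ) (R c δ β M : ℝ) (k : ℕ)
    (P Q : (Ω → ι → ℝ) → Prop) (u v : Ω → ι → ℝ) : Prop where
  isP : IsP μ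
  hs : s ^ 2 * Fintype.card ι ≤ 1
  symm : Jᵀ = J
  op : opn J ≤ R
  c1 : 1 ≤ c
  δ0 : 0 ≤ δ
  pq : ∀ b, P b → Q b
  mul : ∀ b b', P b → P b' → Q (b * b')
  bd : ∀ b, Q b → ∀ x i, |b x i| ≤ c
  con : ∀ b, Q b → mean μ (fun x => |eta s (b x) - mean μ fun x => eta s (b x)|) ≤ δ
  uv : ∀ x, nrm (u x) * nrm (v x) ≤ M
  mid : ∀ l, (∀ b ∈ l, Q b) → l.length ≤ k → |mean μ fun x => u x ⬝ᵥ Wk s J (ev l x) *ᵥ v x| ≤ β
  left : ∀ l b, (∀ b ∈ l, P b) → l.length ≤ k → P b →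
    |mean μ fun x => u x ⬝ᵥ Wk s J (ev l x) *ᵥ (b x * v x)| ≤ β
  right : ∀ l b, (∀ b ∈ l, P b) → l.length ≤ k → P b →
    |mean μ fun x => (b x * u x) ⬝ᵥ Wk s J (ev l x) *ᵥ v x| ≤ β

variable {M : ℝ} {k : ℕ} {P Q : (Ω → ι → ℝ) → Prop} {u v : Ω → ι → ℝ}

namespace Hyp
variable (h : Hyp μ s J R c δ β M k P Q u v)
include h

lemma R0 : 0 ≤ R := (opn_nonneg _).trans h.op
lemma c0 : 0 ≤ c := zero_le_one.trans h.c1




lemma M0 (x : Ω) : 0 ≤ M := (mul_nonneg (nrm_nonneg _) (nrm_nonneg _)).trans (h.uv x)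



variable {N : ℕ} {al al' : ℕ → Ω → ι → ℝ} {a a' : ℕ → ℕ → Ω → ι → ℝ} {d : Ω → ι → ℝ}




end Hyp

/-- a flow family up to the level `N` with canonical constants -/
structure Fl (μ : Ω → ℝ) (s : ℝ) (J : Matrix ι ι ℝ) (c : ℝ) (P : (Ω → ι → ℝ) → Prop) (N : ℕ)
    (al : ℕ → Ω → ι → ℝ) (a : ℕ → ℕ → Ω → ι → ℝ) (T Y : ℕ → Ω → Matrix ι ι ℝ) : Prop where
  al_bd : ∀ l ≤ N, ∀ x i, |al l x i| ≤ c
  a_mem : ∀ l ≤ N, ∀ m < l, P (a l m)
  T_eq : ∀ x, ∀ l ≤ N, T l x = diagonal (al l x) + ∑ m ∈ range l, diagonal (a l m x) * Y m x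
  Y_eq : ∀ x, ∀ l ≤ N, Y l x = J * T l x -
    ∑ m ∈ range l, (mean μ fun x => eta s (a l m x)) • T m x


variable {N : ℕ} {al al' : ℕ → Ω → ι → ℝ} {a a' : ℕ → ℕ → Ω → ι → ℝ} {d : Ω → ι → ℝ}
  {T Y T' Y' : ℕ → Ω → Matrix ι ι ℝ}



end Crest.Agent.T157.S3.Gr7
end
namespace Crest.Agent.T157.S3.Gr7.Fl
end Crest.Agent.T157.S3.Gr7.Fl
private theorem rz_4ed0f75a9b : type_of% @_root_.Crest.Agent.T157.S3.Gr7.pr.eq_def := @_root_.Crest.Agent.T157.S3.Gr7.pr.eq_def -- L146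
private theorem rz_20ccd27a4e : type_of% @_root_.Crest.Agent.T157.S3.Gr7.pr.eq_1 := @_root_.Crest.Agent.T157.S3.Gr7.pr.eq_1 -- L146
end

-- ▼ part T157/S3GrB_7
section

/-!
# Row 157, B, block S3: the Gram bound for a sum of flows, neutral words (helper7)
-/

set_option autoImplicit false
set_option linter.unusedSectionVars false

noncomputable section

namespace Crest.Agent.T157.S3.Gr7

open Matrix Finset
open Crest.Agent.T157.Eig Crest.Agent.T157.Uw Crest.Agent.T157.Chain22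

variable {Ω ι : Type*} [Fintype Ω] [Fintype ι] [DecidableEq ι] {μ : Ω → ℝ}

lemma nrm_mul_le {w ρ : ι → ℝ} {c : ℝ} (hc : 0 ≤ c) (h : ∀ i, |ρ i| ≤ c) :
    nrm (w * ρ) ≤ c * nrm w := by
  rw [mul_comm w, ← diag_mulVec]
  exact (nrm_mulVec_le _ _).trans
    (mul_le_mul_of_nonneg_right (opn_diagonal_le hc h) (nrm_nonneg _))

lemma uv_le {w ρ ρ' : ι → ℝ} {c : ℝ} (hc : 0 ≤ c) (h : ∀ i, |ρ i| ≤ c) (h' : ∀ i, |ρ' i| ≤ c) :
    nrm (w * ρ) * nrm (w * ρ') ≤ c ^ 2 * (w ⬝ᵥ w) :=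
  (mul_le_mul (nrm_mul_le hc h) (nrm_mul_le hc h') (nrm_nonneg _)
    (mul_nonneg hc (nrm_nonneg _))).trans (le_of_eq (by rw [← nrm_mul_self]; ring))

lemma mean_sum' {σ : Type*} (t : Finset σ) (g : σ → Ω → ℝ) :
    mean μ (fun x => ∑ j ∈ t, g j x) = ∑ j ∈ t, mean μ (g j) := by
  rw [← mean_sum]; congr 1; ext x; simp

lemma mean_const_mul (r : ℝ) (g : Ω → ℝ) : mean μ (fun x => r * g x) = r * mean μ g :=
  mean_smul μ r g





end Crest.Agent.T157.S3.Gr7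
end
end

-- ▼ part T157/S3Gr_7

/-!
# Row 157, B, block S3: (GRAM) (helper7)

`S3.gramGlue : GRAMGlue`.
-/

set_option autoImplicit false

noncomputable section

namespace Crest.Agent.T157.S3

open Matrix Filter Finset
open Crest.Agent.T157.E (Cube mean meanV prob)
open Crest.Agent.T157.Eig
open Crest.Agent.T157.Uw (Vk Wk Wk_mul_diag rev)
open Crest.Agent.T157.S3W (Cx)
open Gr7 (diag_mulVec dot_diag uv_le abs_mean_le' mean_sum' mean_const_mul)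

namespace Gm7

variable {F : Fam} {N : ℕ} {R : Net F N} {𝒯 : Set F.Df} {f g h : ∀ i, V (F.n i) → ℝ}

/-- quadratic errors `e |w|² + C K |w|_∞² + C |Π w|²` -/
def Sml (𝒯 : Set F.Df) (f : ∀ i, V (F.n i) → ℝ) : Prop := ∀ e > (0 : ℝ),
  ∃ D : List F.Df, (∀ t ∈ D, t ∈ 𝒯) ∧ ∃ C : ℝ, ∀ᶠ i in F.l, ∀ w : V (F.n i),
    |f i w| ≤ e * (w ⬝ᵥ w) + C * F.K i * ‖w‖ ^ 2 + C * Fam.Pi D i w ^ 2

lemma Pi_nonneg (D : List F.Df) (i : F.I) (w : V (F.n i)) : 0 ≤ Fam.Pi D i w :=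
  div_nonneg (List.sum_nonneg fun x hx => by
    obtain ⟨d, -, rfl⟩ := List.mem_map.1 hx; exact abs_nonneg _) (Real.sqrt_nonneg _)

lemma Pi_append (D D' : List F.Df) (i : F.I) (w : V (F.n i)) :
    Fam.Pi (D ++ D') i w = Fam.Pi D i w + Fam.Pi D' i w := by
  simp only [Fam.Pi, List.map_append, List.sum_append, add_div]

lemma Sml.le2 (hF : F.Ok) (hf : Sml 𝒯 f) (hg : Sml 𝒯 g) {A : ℝ} (hA : 0 ≤ A)
    (H : ∀ᶠ i in F.l, ∀ w, |h i w| ≤ A * (|f i w| + |g i w|)) : Sml 𝒯 h := by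
  intro e he
  obtain ⟨D, d1, C, d2⟩ := hf (e / (2 * (A + 1))) (by positivity)
  obtain ⟨D', e1, C', e2⟩ := hg (e / (2 * (A + 1))) (by positivity)
  refine ⟨D ++ D', List.forall_mem_append.2 ⟨d1, e1⟩, A * (|C| + |C'|), ?_⟩
  filter_upwards [H, d2, e2] with i H d2 e2 w
  have p1 := Pi_nonneg D i w
  have p2 := Pi_nonneg D' i w
  have k0 : 0 ≤ F.K i * ‖w‖ ^ 2 := mul_nonneg (zero_le_one.trans (hF.K1 i)) (sq_nonneg _)
  have q1 : C * Fam.Pi D i w ^ 2 ≤ |C| * (Fam.Pi D i w + Fam.Pi D' i w) ^ 2 :=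
    (mul_le_mul_of_nonneg_right (le_abs_self C) (sq_nonneg _)).trans (by gcongr; linarith)
  have q2 : C' * Fam.Pi D' i w ^ 2 ≤ |C'| * (Fam.Pi D i w + Fam.Pi D' i w) ^ 2 :=
    (mul_le_mul_of_nonneg_right (le_abs_self C') (sq_nonneg _)).trans (by gcongr; linarith)
  have q3 : 2 * A * (e / (2 * (A + 1))) ≤ e := by
    rw [← mul_div_assoc, div_le_iff₀ (by positivity)]; linarith
  have r1 := mul_le_mul_of_nonneg_right (le_abs_self C) k0
  have r2 := mul_le_mul_of_nonneg_right (le_abs_self C') k0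
  have q4 : A * (|f i w| + |g i w|) ≤ A * (2 * (e / (2 * (A + 1))) * (w ⬝ᵥ w) +
      (|C| + |C'|) * (F.K i * ‖w‖ ^ 2) + (|C| + |C'|) * (Fam.Pi D i w + Fam.Pi D' i w) ^ 2) :=
    mul_le_mul_of_nonneg_left (by linarith [d2 w, e2 w]) hA
  rw [Pi_append]
  linarith [H w, mul_le_mul_of_nonneg_right q3 (dot_self_nonneg w)]

lemma Sml.of_unif (H : ∀ e > (0 : ℝ), ∀ᶠ i in F.l, ∀ w, |f i w| ≤ e * (w ⬝ᵥ w)) : Sml 𝒯 f :=
  fun e he => ⟨[], by simp, 0, (H e he).mono fun i hi w => by linarith [hi w]⟩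

lemma Sml.zero : Sml 𝒯 fun _ _ => 0 := .of_unif fun e he => .of_forall fun i w => by
  rw [abs_zero]; exact mul_nonneg he.le (dot_self_nonneg w)

lemma Sml.add (hF : F.Ok) (hf : Sml 𝒯 f) (hg : Sml 𝒯 g) : Sml 𝒯 fun i w => f i w + g i w :=
  hf.le2 hF hg zero_le_one (.of_forall fun _ _ => (abs_add_le _ _).trans_eq (one_mul _).symm)

lemma Sml.congr (hf : Sml 𝒯 f) (H : ∀ i w, g i w = f i w) : Sml 𝒯 g :=
  (funext₂ H : g = f) ▸ hf

lemma Sml.cmul (hF : F.Ok) (hf : Sml 𝒯 f) {c : F.I → ℝ} {C : ℝ} (hc : ∀ i, |c i| ≤ C) :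
    Sml 𝒯 fun i w => c i * f i w :=
  hf.le2 hF .zero (abs_nonneg C) (.of_forall fun i w => by
    rw [abs_mul, abs_zero, add_zero]
    exact mul_le_mul_of_nonneg_right ((hc i).trans (le_abs_self C)) (abs_nonneg _))

lemma Sml.sum (hF : F.Ok) {σ : Type*} (t : Finset σ) {f : σ → ∀ i, V (F.n i) → ℝ}
    (hf : ∀ j ∈ t, Sml 𝒯 (f j)) : Sml 𝒯 fun i w => ∑ j ∈ t, f j i w := by
  classical
  induction t using Finset.induction_on with
  | empty => simpa using Sml.zero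
  | insert j t hj ih =>
    simp only [sum_insert hj]
    exact (hf j (mem_insert_self _ _)).add hF (ih fun k hk => hf k (mem_insert_of_mem hk))

lemma Sml.of_bil (hF : F.Ok) {ρ : F.Vf} (hb : Bil R 𝒯 ρ) {al : F.Lf (N + 1)}
    {l : List (F.Lf (N + 1))} (ha : al ∈ R.C) (hl : ∀ a ∈ l, a ∈ R.C) :
    Sml 𝒯 fun i w => mean (F.w i) fun x =>
      (w * R.ev al ⟨i, x⟩) ⬝ᵥ R.W l ⟨i, x⟩ *ᵥ (w * ρ ⟨i, x⟩) := by
  intro e he
  obtain ⟨D, d1, C, d2⟩ := hb al l ha hl (e / 3) (by positivity)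
  refine ⟨D, d1, 3 / e * C ^ 2, ?_⟩
  filter_upwards [d2] with i d2 w
  have am : ∀ a b : ℝ, a * b ≤ e / 3 * a ^ 2 + 3 / e * b ^ 2 := fun a b => by
    have h1 : 0 ≤ 3 / e * (e / 3 * a - b) ^ 2 := by positivity
    have h2 : 3 / e * (e / 3 * a - b) ^ 2 = e / 3 * a ^ 2 + 3 / e * b ^ 2 - 2 * (a * b) := by
      field_simp; ring
    have h3 : 0 ≤ e / 3 * a ^ 2 + 3 / e * b ^ 2 := by positivity
    linarith
  have h1 := am (nrm w) (C * √(F.K i) * ‖w‖)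
  have h2 := am (nrm w) (C * Fam.Pi D i w)
  rw [mul_pow, mul_pow, Real.sq_sqrt (zero_le_one.trans (hF.K1 i))] at h1
  rw [← nrm_sq]
  linarith [d2 w w]

/-- the bilinear form of a matrix family -/
def bf (R : Net F N) (ρ ρ' : F.Lf (N + 1)) (A : F.Mf) (i : F.I) (w : V (F.n i)) : ℝ :=
  mean (F.w i) fun x => (w * R.ev ρ ⟨i, x⟩) ⬝ᵥ A ⟨i, x⟩ *ᵥ (w * R.ev ρ' ⟨i, x⟩)

lemma isP (i : F.I) : Chain22.IsP (prob (F.w i)) := Chain22.isP_prob' fun _ => Real.exp_pos _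

lemma ev_bd (hR : R.Ok) {ρ : F.Lf (N + 1)} (h : ρ ∈ R.C) :
    ∃ C : ℝ, 0 ≤ C ∧ ∀ ω k, |R.ev ρ ω k| ≤ C :=
  let ⟨C, h⟩ := hR.bd ρ h
  ⟨|C|, abs_nonneg C, fun _ _ => (h _ _ _ _).trans (le_abs_self C)⟩

variable {ρ ρ' : F.Lf (N + 1)}

lemma bf_sum {σ : Type*} (t : Finset σ) (A : σ → F.Mf) (i : F.I) (w : V (F.n i)) :
    bf R ρ ρ' (fun ω => ∑ a ∈ t, A a ω) i w = ∑ a ∈ t, bf R ρ ρ' (A a) i w := by
  simp only [bf, sum_mulVec, dotProduct_sum]
  exact mean_sum' _ _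

lemma bf_smul (c : F.I → ℝ) (A : F.Mf) (i : F.I) (w : V (F.n i)) :
    bf R ρ ρ' (fun ω => c ω.1 • A ω) i w = c i * bf R ρ ρ' A i w := by
  simp only [bf, smul_mulVec, dotProduct_smul, smul_eq_mul]
  exact mean_const_mul _ _

lemma bf_add (A B : F.Mf) (i : F.I) (w : V (F.n i)) :
    bf R ρ ρ' (fun ω => A ω + B ω) i w = bf R ρ ρ' A i w + bf R ρ ρ' B i w := by
  simp only [bf, add_mulVec, dotProduct_add]
  exact Chain22.mean_add _ _ _

lemma bf_sub (A B : F.Mf) (i : F.I) (w : V (F.n i)) :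
    bf R ρ ρ' (fun ω => A ω - B ω) i w = bf R ρ ρ' A i w - bf R ρ ρ' B i w := by
  simp only [bf, sub_mulVec, dotProduct_sub]
  exact Chain22.mean_sub _ _ _

lemma bf_dg (A : F.Mf) (d : F.Lf (N + 1)) (i : F.I) (w : V (F.n i)) :
    bf R ρ ρ' (fun ω => A ω * R.dg d ω) i w = bf R ρ (d * ρ') A i w ∧
      bf R ρ ρ' (fun ω => R.dg d ω * A ω) i w = bf R (d * ρ) ρ' A i w := by
  refine ⟨congrArg (mean (F.w i)) (funext fun x => ?_), congrArg (mean (F.w i)) (funext fun x => ?_)⟩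
  · beta_reduce
    rw [← mulVec_mulVec, Net.dg, diag_mulVec, mul_left_comm]
    rfl
  · beta_reduce
    rw [← mulVec_mulVec, Net.dg, dot_diag, mul_left_comm]
    rfl

lemma lift : ∀ {l : List R.cx.VF}, R.cx.Lt l →
    ∃ l' : List (F.Lf (N + 1)), (∀ a ∈ l', a ∈ R.C) ∧ l = l'.map R.ev
  | [], _ => ⟨[], by simp, rfl⟩
  | _ :: _, h => by
    obtain ⟨⟨g, hg, rfl⟩, h2⟩ := Cx.lt_cons.1 h
    obtain ⟨l', h3, rfl⟩ := lift h2
    exact ⟨g :: l', List.forall_mem_cons.2 ⟨hg, h3⟩, rfl⟩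

lemma wk_map (l : List (F.Lf (N + 1))) : R.cx.wk (l.map R.ev) = R.W l :=
  funext fun ω => by rw [Cx.wk, Net.W, List.map_map]; rfl

lemma w_left (hF : F.Ok) (hb : Bil R 𝒯 (R.ev ρ)) (h2 : ρ' ∈ R.C) {l : List (F.Lf (N + 1))}
    (hl : ∀ e ∈ l, e ∈ R.C) : Sml 𝒯 (bf R ρ ρ' (R.W l)) := by
  refine (Sml.of_bil hF hb h2 (l := l.reverse) fun a ha => hl a (List.mem_reverse.1 ha)).congr
    fun i w => congrArg (mean (F.w i)) (funext fun x => ?_)
  rw [Net.W, Net.W, List.map_reverse, ← (rev (hF.symm i) _).1, mulVec_transpose, dotProduct_mulVec,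
    dotProduct_comm]

variable (hc : ClsStmt) (hF : F.Ok) (hR : R.Ok) (h1 : ρ ∈ R.C) (h2 : ρ' ∈ R.C)
include hc hF hR h1 h2

lemma th_sml {ϑ : F.Sf} (hϑ : Fam.Th ϑ) {B : F.Mf} (hB : R.cx.Op B) :
    Sml 𝒯 (bf R ρ ρ' fun ω => ϑ ω • B ω) := by
  obtain ⟨C, hC⟩ := (hc F hF).2.2.1 ϑ hϑ
  obtain ⟨C', hC'⟩ := hB
  obtain ⟨c, c0, k1⟩ := ev_bd hR h1
  obtain ⟨c', c0', k2⟩ := ev_bd hR h2
  refine .of_unif fun e he => ?_
  set A := |C'| * (c + c') ^ 2 + 1 with hA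
  have A0 : 0 < A := by positivity
  set ε := e / (2 * A) with hε
  have ε0 : 0 < ε := by positivity
  filter_upwards [(tendsto_natCast_atTop_atTop.comp hF.lim).eventually_ge_atTop
    (|C| / ε ^ 2 + 1)] with i hn w
  have n0 : (0 : ℝ) < F.n i := lt_of_lt_of_le (by positivity) hn
  have m1 := hC i _ (isP i)
  rw [Fam.H, Ent.kl_self, zero_add, mul_one, le_div_iff₀ n0] at m1
  have m2 : Chain22.mean (prob (F.w i)) (fun x => ϑ ⟨i, x⟩ ^ 2) ≤ ε ^ 2 := by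
    refine le_of_mul_le_mul_right (m1.trans ((le_abs_self C).trans ?_)) n0
    have := (div_le_iff₀ (pow_pos ε0 2)).1 ((le_add_of_nonneg_right zero_le_one).trans hn)
    exact this.trans_eq (mul_comm _ _)
  have w0 := dot_self_nonneg w
  refine (abs_mean_le' (isP i) (g := fun x => A * (w ⬝ᵥ w) / ε * ϑ ⟨i, x⟩ ^ 2 +
    A * (w ⬝ᵥ w) * ε * 1) fun x => ?_).trans ?_
  · have b1 := (abs_bil_le (B ⟨i, x⟩) _ _).trans (mul_le_mul ((hC' ⟨i, x⟩).trans (le_abs_self C'))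
      (uv_le (w := w) (add_nonneg c0 c0')
        (fun k => (k1 ⟨i, x⟩ k).trans (le_add_of_nonneg_right c0'))
        fun k => (k2 ⟨i, x⟩ k).trans (le_add_of_nonneg_left c0))
      (mul_nonneg (nrm_nonneg _) (nrm_nonneg _)) (abs_nonneg _))
    have b2 : |ϑ ⟨i, x⟩| ≤ ϑ ⟨i, x⟩ ^ 2 / ε + ε := by
      rw [div_add' _ _ _ ε0.ne', le_div_iff₀ ε0, ← sq_abs]
      nlinarith [sq_nonneg (|ϑ ⟨i, x⟩| - ε), mul_nonneg (abs_nonneg (ϑ ⟨i, x⟩)) ε0.le]
    rw [smul_mulVec, dotProduct_smul, smul_eq_mul, abs_mul]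
    refine (mul_le_mul b2 (b1.trans (show _ ≤ A * (w ⬝ᵥ w) by rw [hA]; linarith)) (abs_nonneg _)
      (by positivity)).trans (le_of_eq (by ring))
  · rw [Gr7.mean_lin, (isP i).mean_const]
    calc _ ≤ A * (w ⬝ᵥ w) / ε * ε ^ 2 + A * (w ⬝ᵥ w) * ε * 1 := by gcongr
      _ = _ := by rw [hε]; field_simp; ring

lemma sc_sml {σ : F.Sf} (hσ : Fam.Sb σ) {B : F.Mf} (hB : R.cx.Op B) (h : Sml 𝒯 (bf R ρ ρ' B)) :
    Sml 𝒯 (bf R ρ ρ' fun ω => σ ω • B ω) := by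
  obtain ⟨C, hC⟩ := id hσ
  refine ((th_sml hc hF hR h1 h2 ((hc F hF).1 σ hσ) hB).add hF (h.cmul hF (c := F.E σ) fun i =>
    (isP i).abs_mean_le (hC i).1)).congr fun i w => ?_
  rw [← bf_smul, ← bf_add]
  simp only [← add_smul, sub_add_cancel]

lemma tp_sml (hx : R.cx.Ok) {A : R.cx.MF} (hA : R.cx.TP A) : Sml 𝒯 (bf R ρ ρ' A) := by
  induction hA with
  | word a1 a2 a3 =>
    exact th_sml hc hF hR h1 h2 a1 (Cx.Op.mul (Cx.BdV.op (hx.bl_bd a2)) (Cx.op_vu hx a3).1)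
  | add _ _ a1 a2 => exact (a1.add hF a2).congr (bf_add _ _)

lemma cw_sml (hx : R.cx.Ok) (hb : Bil R 𝒯 (R.ev ρ)) (hb' : Bil R 𝒯 (R.ev ρ')) {A : R.cx.MF}
    (hA : R.cx.CW A) : Sml 𝒯 (bf R ρ ρ' A) := by
  have op := fun {l} (hl : R.cx.Lt l) =>
    Cx.cg (Cx.op_vu hx (hl.snoc hx.one)).1 fun ω => (Cx.wk_eq l ω).symm
  induction hA with
  | right a1 a2 a3 =>
    refine sc_sml hc hF hR h1 h2 a1 (Cx.Op.mul (op a3) (Cx.BdV.op (hx.bl_bd a2))) ?_
    obtain ⟨g, hg, rfl⟩ := a2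
    obtain ⟨l, hl, rfl⟩ := lift a3
    rw [wk_map]
    exact (w_left hF hb (hR.mul g hg _ h2) hl).congr fun i w => (bf_dg _ g i w).1
  | left a1 a2 a3 =>
    refine sc_sml hc hF hR h1 h2 a1 (Cx.Op.mul (Cx.BdV.op (hx.bl_bd a2)) (op a3)) ?_
    obtain ⟨g, hg, rfl⟩ := a2
    obtain ⟨l, hl, rfl⟩ := lift a3
    rw [wk_map]
    exact (Sml.of_bil hF hb' (hR.mul g hg _ h1) hl).congr fun i w => (bf_dg _ g i w).2
  | add _ _ a1 a2 => exact (a1.add hF a2).congr (bf_add _ _)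

omit hc hR h1 in
lemma ws_sml (hb : Bil R 𝒯 (R.ev ρ)) : ∀ {L : List (List (F.Lf (N + 1)))},
    (∀ u ∈ L, ∀ a ∈ u, a ∈ R.C) → Sml 𝒯 (bf R ρ ρ' fun ω => (L.map fun u => R.W u ω).sum)
  | [], _ => Sml.zero.congr fun i w => by simp [bf, mean]
  | u :: L, h => ((w_left hF hb h2 (List.forall_mem_cons.1 h).1).add hF
      (ws_sml hb (List.forall_mem_cons.1 h).2)).congr fun i w => bf_add _ _ i w

lemma y_sml (hx : R.cx.Ok) (hw : WXStmt) (hb : Bil R 𝒯 (R.ev ρ)) {P : ℕ} {Φ : Flow R P}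
    (hΦ : Φ.Ok) (l : Fin P) : Sml 𝒯 (bf R ρ ρ' (Φ.Y l)) := by
  obtain ⟨Ω, L, a1, a2⟩ := (hw F N P R Φ hF hR hΦ).1
  have e : Φ.Y l = fun ω => ∑ m, Ω l m ω * R.dg (Φ.al m) ω := funext fun ω =>
    a2 ω (fun m => R.dg (Φ.al m) ω) (fun m => Φ.T m ω) (fun m => Φ.Y m ω)
      (fun m => ⟨rfl, hΦ.hY m ω⟩) l
  refine (Sml.sum hF univ fun m _ => (tp_sml hc hF hR h1 (hR.mul _ (hΦ.lt m).1 _ h2) hx
    (a1 l m).2).add hF (ws_sml hF (hR.mul _ (hΦ.lt m).1 _ h2) hb (a1 l m).1)).congr fun i w => ?_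
  rw [e, bf_sum]
  exact sum_congr rfl fun m _ => by rw [(bf_dg _ _ i w).1, bf_sub, sub_add_cancel]

omit hc hF hR h1 h2 in
lemma expand {n P P' : ℕ} (w d al al' : V n) (a : Fin P → V n) (a' : Fin P' → V n)
    (Y : Fin P → Mx n) (Y' : Fin P' → Mx n) :
    ((diagonal al + ∑ m, diagonal (a m) * Y m)ᵀ *ᵥ w) ⬝ᵥ
        (d * (diagonal al' + ∑ m, diagonal (a' m) * Y' m)ᵀ *ᵥ w) =
      (w * w) ⬝ᵥ (al * d * al') + (∑ l, (w * a l) ⬝ᵥ Y l *ᵥ (w * (d * al')) +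
        ∑ m, (w * a' m) ⬝ᵥ Y' m *ᵥ (w * (d * al)) +
        ∑ l, ∑ m, (w * a l) ⬝ᵥ (Y l * diagonal d * (Y' m)ᵀ) *ᵥ (w * a' m)) := by
  have t : ∀ (Y : Mx n) (u v : V n), u ⬝ᵥ Y *ᵥ v = (Yᵀ *ᵥ u) ⬝ᵥ v := fun Y u v => by
    rw [mulVec_transpose, dotProduct_mulVec]
  simp only [transpose_add, transpose_sum, transpose_mul, diagonal_transpose, add_mulVec,
    sum_mulVec, ← mulVec_mulVec, diag_mulVec, mul_add, mul_sum, add_dotProduct, dotProduct_add,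
    sum_dotProduct, dotProduct_sum, t (Y _), t (Y' _), mul_comm w (a _), mul_comm w (a' _)]
  have e1 : (al * w) ⬝ᵥ (d * (al' * w)) = (w * w) ⬝ᵥ (al * d * al') :=
    sum_congr rfl fun k _ => by simp only [Pi.mul_apply]; ring
  have e2 : ∀ u : V n, (al * w) ⬝ᵥ (d * u) = u ⬝ᵥ (w * (d * al)) := fun u =>
    sum_congr rfl fun k _ => by simp only [Pi.mul_apply]; ring
  have e3 : d * (al' * w) = w * (d * al') := by ring
  rw [e1, e3, sum_comm (s := univ) (t := univ)]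
  simp only [e2, sum_add_distrib]
  ring

end Gm7

open Gm7

theorem gramGlue : GRAMGlue := by
  intro hc hj hw F N P P' R 𝒯 Φ Φ' d al al' a a' Pb hF hR hΦ hΦ' hd hP hl hl' hb hb'
  have hx := (hj F N R hF hR).1
  have s1 := Sml.sum hF univ fun l _ =>
    y_sml hc hF hR (hl.2.2 l) (hR.mul d hd _ hl'.1) hx hw (hb l) hΦ l
  have s2 := Sml.sum hF univ fun l _ =>
    y_sml hc hF hR (hl'.2.2 l) (hR.mul d hd _ hl.1) hx hw (hb' l) hΦ' l
  have s3 := Sml.sum (𝒯 := 𝒯) hF univ fun l _ => Sml.sum hF univ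
    (f := fun m => bf R (a l) (a' m) fun ω => Φ.Y l ω * R.dg d ω * (Φ'.Y m ω)ᵀ - Pb l m ω.1 • 1)
    fun m _ => by
      obtain ⟨-, B, b1, b2⟩ := (hw F N P R Φ hF hR hΦ).2 P' Φ' d Pb hΦ' hd hP l m
      exact ((tp_sml hc hF hR (hl.2.2 l) (hl'.2.2 m) hx b2).add hF
        (cw_sml hc hF hR (hl.2.2 l) (hl'.2.2 m) hx (hb l) (hb' m) b1)).congr fun i w => by
          rw [bf_sub _ B, sub_add_cancel]
  refine Sml.congr ((s1.add hF s2).add hF s3) fun i w => ?_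
  have m1 : ∀ {σ : Type} [Fintype σ] (g : σ → Cube (F.n i) → ℝ),
      mean (F.w i) (fun x => ∑ j, g j x) = ∑ j, mean (F.w i) (g j) := fun g => mean_sum' _ _
  have m2 : ∀ f g : Cube (F.n i) → ℝ, mean (F.w i) (fun x => f x + g x) =
      mean (F.w i) f + mean (F.w i) g := fun f g => Chain22.mean_add _ _ _
  have e0 : ∀ u : F.Vf, (w * w) ⬝ᵥ F.EV u i = mean (F.w i) fun x => (w * w) ⬝ᵥ u ⟨i, x⟩ := fun u =>
    ((m1 _).trans (sum_congr rfl fun k _ => mean_const_mul _ _)).symm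
  have e1 : ∀ (ρ ρ' : F.Lf (N + 1)), bf R ρ ρ' (fun _ => 1) i w =
      mean (F.w i) fun x => (w * w) ⬝ᵥ R.ev (ρ * ρ') ⟨i, x⟩ := fun ρ ρ' =>
    congrArg (mean (F.w i)) (funext fun x => by
      rw [one_mulVec]
      exact sum_congr rfl fun k _ => mul_mul_mul_comm _ _ _ _)
  simp only [bf_sub, bf_smul (Pb _ _), e1, dotProduct_add, dotProduct_sum, dotProduct_smul,
    smul_eq_mul, e0, sum_sub_distrib, Flow.tT, Net.dg, expand, m1, m2]
  exact (add_sub_add_left_eq_sub _ _ _).trans (add_sub_assoc _ _ _)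

end Crest.Agent.T157.S3
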