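import Crest.Agent.T157.S3Def_69
import Crest.Agent.T157.S3X_43

/-!
# Row 157, part B, block S3 (helper71): toolbox for the words of `S3Def_69`
-/

set_option autoImplicit false
set_option linter.unusedVariables false
set_option linter.unusedSectionVars false

noncomputable section

namespace Crest.Agent.T157.S3.K71

open Matrix Filter Finset
open Crest.Agent.T157.E (Cube sv ising meanV prob)
open Crest.Agent.T157.Rec (grad)
open Crest.Agent.T157.Eig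
open Crest.Agent.T157.Chain22 (IsP mean)
open Crest.Agent.T157.Uw (eta)
open Crest.Agent.T157.S3F (jac barM)
open Crest.Agent.T157.S3W Crest.Agent.T157.S3W.Cx
open Fam

variable {F : Fam} {N : ℕ} {R : Net F N}

/-! ### the Gibbs measure -/

lemma w_pos (i : F.I) (x : Cube (F.n i)) : 0 < F.w i x := Real.exp_pos _

lemma isP_w (i : F.I) : IsP (prob (F.w i)) :=
  ⟨fun x => div_nonneg (w_pos i x).le (sum_nonneg fun y _ => (w_pos i y).le), by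
    simp only [prob, ← sum_div]
    exact div_self (sum_pos (fun y _ => w_pos i y) univ_nonempty).ne'⟩

lemma H_self (i : F.I) : F.H i (prob (F.w i)) = 0 := Ent.kl_self _

lemma H_nonneg (i : F.I) {ν : Cube (F.n i) → ℝ} (hν : IsP ν) : 0 ≤ F.H i ν :=
  Ent.kl_nonneg hν (isP_w i) fun x hx => absurd hx
    (div_pos (w_pos i x) (sum_pos (fun y _ => w_pos i y) univ_nonempty)).ne'


lemma EV_add (u v : F.Vf) (i : F.I) : F.EV (fun ω => u ω + v ω) i = F.EV u i + F.EV v i :=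
  funext fun k => Ent.mean_add' _ _

lemma EV_sq_le (u : F.Vf) (i : F.I) :
    F.EV u i ⬝ᵥ F.EV u i ≤ F.E (fun ω => u ω ⬝ᵥ u ω) i := by
  refine le_of_le_of_eq (sum_le_sum fun k _ => ?_) (Ent.mean_sum' (π := prob (F.w i)) univ
    fun (k : Fin (F.n i)) x => u ⟨i, x⟩ k * u ⟨i, x⟩ k).symm
  rw [← sq]; exact (isP_w i).mean_sq_le _

lemma abs_E_le {s : F.Sf} {C : ℝ} (h : ∀ ω, |s ω| ≤ C) (i : F.I) : |F.E s i| ≤ C :=
  (isP_w i).abs_mean_le fun x => h _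

/-- the mean of the divergences of the rows vanishes -/
lemma EV_div (hF : F.Ok) {M : F.Mf} (h : ∀ i, FreeM fun x => M ⟨i, x⟩) (i : F.I) :
    F.EV (fun ω => M ω *ᵥ F.τ ω) i = 0 := by
  ext k
  refine Eq.trans (Ent.mean_congr fun x => ?_) (S3F.mean_dv_zero (w_pos i)
    (V := fun x j => M ⟨i, x⟩ k j) fun x j b => h i x k j b)
  show ∑ j : Fin (F.n i), M ⟨i, x⟩ k j * F.τ ⟨i, x⟩ j = _
  refine sum_congr rfl fun j _ => ?_
  rw [Fam.w, S3F.tm_ising (hF.symm i), mul_comm]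
  simp [Fam.τ, tau, Da.Gr.tt, Da.Gr.loc, hf, hF.diag]

/-! ### letters -/

section letters
variable {g g' : F.Lf (N + 1)}

lemma ev_sub (ω) : R.ev (g - g') ω = R.ev g ω - R.ev g' ω := rfl
lemma ev_mul (ω) : R.ev (g * g') ω = R.ev g ω * R.ev g' ω := rfl
lemma ev_one (ω) : R.ev 1 ω = 1 := rfl
lemma ev_zero (ω) : R.ev 0 ω = 0 := rfl
lemma ev_sp (ω) : R.ev R.sp ω = sv ω.2 := rfl
lemma dg_zero (ω) : R.dg 0 ω = 0 := diagonal_zero
lemma me_zero (i) : F.me (R.ev 0) i = 0 := by simp [Fam.me, Fam.E, ev_zero, eta, E.mean]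

lemma neg_mem (hR : R.Ok) (h : g ∈ R.C) : -g ∈ R.C := by simpa using hR.smul (-1) g h
lemma sub_mem (hR : R.Ok) (h : g ∈ R.C) (h' : g' ∈ R.C) : g - g' ∈ R.C := by
  rw [sub_eq_add_neg]; exact hR.add _ h _ (neg_mem hR h')
lemma Dt_mem (hR : R.Ok) : R.Dt ∈ R.C := sub_mem hR hR.one (hR.mul _ hR.sp _ hR.th)
lemma D_mem (hR : R.Ok) : R.D ∈ R.C := sub_mem hR hR.one (hR.mul _ hR.th _ hR.th)
lemma gs_gs : R.gs (R.gs g) = 0 := by ext; simp [Net.gs, S3.gs]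

lemma bl (h : g ∈ R.C) : R.cx.BL (R.ev g) := ⟨g, h, rfl⟩
lemma pr_dg (h : R.cx.Ok) (hg : g ∈ R.C) : R.cx.PR (R.dg g) := pr_diag h (bl hg)

lemma ev_th (hR : R.Ok) (ω k) : R.ev R.th ω k = Real.tanh (hf (F.J ω.1) (F.y ω.1) ω.2 k) := by
  simp [Net.ev, Net.th, hR.X0]



lemma Dt_eq (hR : R.Ok) (ω) : R.ev R.Dt ω = sv ω.2 * F.τ ω :=
  funext fun k => by
    have := Rec.sv_mul_self ω.2 k
    rw [Net.Dt, ev_sub, ev_mul, Pi.sub_apply, Pi.mul_apply, ev_th hR, ev_one, ev_sp, Pi.mul_apply,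
      Fam.τ, tau, Pi.one_apply]
    linarith

lemma D_eq (hR : R.Ok) (ω) : R.ev R.D ω = Dg (F.J ω.1) (F.y ω.1) ω.2 :=
  funext fun k => by
    rw [Net.D, ev_sub, ev_mul, Pi.sub_apply, Pi.mul_apply, ev_th hR, ev_one, Pi.one_apply, Dg, sq]

lemma Sb_const {c : F.I → ℝ} (h : ∃ C : ℝ, ∀ i, |c i| ≤ C) : Sb fun ω => c ω.1 :=
  let ⟨C, h⟩ := h
  ⟨C, fun i => ⟨fun _ => h i, fun x => by
    simpa using div_nonneg ((abs_nonneg _).trans (h i)) (Nat.cast_nonneg _)⟩⟩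

lemma me_bd (h : R.cx.Ok) {u : F.Vf} (hu : R.cx.BL u) : ∃ C : ℝ, ∀ i, |F.me u i| ≤ C :=
  let ⟨C, hC⟩ := h.sc_bd (h.sc_et hu); ⟨C, abs_E_le hC⟩

lemma sc_me (h : R.cx.Ok) {u : F.Vf} (hu : R.cx.BL u) : R.cx.Sc fun ω => F.me u ω.1 :=
  Sb_const (me_bd h hu)

variable {P : ℕ} {Φ : Flow R P}

lemma sc_ot (h : R.cx.Ok) (hΦ : Φ.Ok) (l m : Fin P) : R.cx.Sc fun ω => Φ.ot ω.1 l m :=
  sc_me h (bl ((hΦ.lt l).2.2 m))
lemma av_zero (hΦ : Φ.Ok) {l m : Fin P} (h : l ≤ m) (ω) : R.ev (Φ.a l m) ω = 0 := by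
  rw [hΦ.tri l m h, ev_zero]
lemma ot_zero (hΦ : Φ.Ok) {l m : Fin P} (h : l ≤ m) (i) : Φ.ot i l m = 0 := by
  rw [Flow.ot, hΦ.tri l m h, me_zero]
lemma let_grad (hR : R.Ok) (Γ : Flow R P) (hg : R.Top g) {a : Fin P → F.Lf (N + 1)}
    (ha : ∀ m, a m ∈ R.C) : Γ.Let (R.gs g) a := ⟨hg.2.1, gs_gs, ha⟩

end letters

/-! ### the class `Sq` -/

section sq
variable {f g g' : F.Sf} {u v d : F.Vf} {A : F.Mf}

lemma g2_nonneg (L : List F.Sf) (ω : F.Ω) : 0 ≤ (F.n ω.1 : ℝ) * (L.map fun θ => θ ω ^ 2).sum :=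
  mul_nonneg (Nat.cast_nonneg _) (List.sum_nonneg fun x hx => by
    obtain ⟨θ, -, rfl⟩ := List.mem_map.1 hx; positivity)

lemma Sq_le (hg : Sq g) {C : ℝ} (hC : 0 ≤ C) (h : ∀ ω, f ω ≤ C * g ω) : Sq f :=
  let ⟨D, L, h0, h1, h2⟩ := hg
  ⟨C * D, L, mul_nonneg hC h0, h1, fun ω => (h ω).trans (by
    rw [mul_assoc]; exact mul_le_mul_of_nonneg_left (h2 ω) hC)⟩

lemma Sq_mono (hg : Sq g) (h : ∀ ω, f ω ≤ g ω) : Sq f :=
  Sq_le hg zero_le_one fun ω => by rw [one_mul]; exact h ω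


lemma Sq_add (hf : Sq f) (hg : Sq g) : Sq fun ω => f ω + g ω := by
  obtain ⟨C, L, c0, c1, c2⟩ := hf
  obtain ⟨D, M, d0, d1, d2⟩ := hg
  refine ⟨C + D, L ++ M, add_nonneg c0 d0, List.forall_mem_append.2 ⟨c1, d1⟩, fun ω => ?_⟩
  have h1 := g2_nonneg L ω
  have h2 := g2_nonneg M ω
  rw [List.map_append, List.sum_append]
  nlinarith [c2 ω, d2 ω, mul_nonneg c0 h2, mul_nonneg d0 h1]

lemma Sq_zero : Sq fun _ : F.Ω => (0 : ℝ) := ⟨0, [], le_rfl, by simp, fun ω => by simp⟩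


lemma Sq_le2 (hg : Sq g) (hg' : Sq g') {C : ℝ} (hC : 0 ≤ C) (e : ∀ ω, f ω ≤ C * (g ω + g' ω)) :
    Sq f := Sq_le (Sq_add hg hg') hC e


lemma Sq_th (hF : F.Ok) {θ : F.Sf} (hθ : Th θ) : Sq fun ω => F.n ω.1 * θ ω ^ 2 :=
  ⟨1, [θ], zero_le_one, by simpa using hθ, fun ω => by simpa using (hF.K1 ω.1).trans' zero_le_one⟩

lemma Sq_mean (hC : ClsStmt) (hF : F.Ok) (hf : Sq f) : ∃ C : ℝ, 0 ≤ C ∧ ∀ i, F.E f i ≤ C * F.K i :=
  let ⟨C, h⟩ := (hC F hF).2.2.2.1 f hf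
  ⟨|C|, abs_nonneg C, fun i => by
    have := h i _ (isP_w i)
    rw [H_self, add_zero] at this
    exact this.trans (mul_le_mul_of_nonneg_right (le_abs_self C) ((hF.K1 i).trans' zero_le_one))⟩

/-- `|u|² ≤ C (K + n ∑ ϑ²)` -/
abbrev SqV (u : F.Vf) : Prop := Sq fun ω => u ω ⬝ᵥ u ω

lemma SqV_zero : SqV (F := F) fun _ => 0 := Sq_mono Sq_zero fun ω => by simp

lemma SqV_add (hu : SqV u) (hv : SqV v) : SqV fun ω => u ω + v ω :=
  Sq_le2 hu hv zero_le_two fun ω => by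
    simp only [dotProduct, ← sum_add_distrib, mul_sum, Pi.add_apply]
    exact sum_le_sum fun i _ => by nlinarith [sq_nonneg (u ω i - v ω i)]

lemma SqV_neg (hu : SqV u) : SqV fun ω => -u ω := Sq_mono hu fun ω => by simp

lemma SqV_sub (hu : SqV u) (hv : SqV v) : SqV fun ω => u ω - v ω :=
  cg (P := SqV) (SqV_add hu (SqV_neg hv)) fun ω => (sub_eq_add_neg (u ω) _).symm

lemma SqV_sum {κ : Type*} (t : Finset κ) {v : κ → F.Vf} (hv : ∀ k ∈ t, SqV (v k)) :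
    SqV fun ω => ∑ k ∈ t, v k ω := sumP (P := SqV) SqV_zero SqV_add t hv

lemma SqV_mulVec (hA : R.cx.Op A) (hv : SqV v) : SqV fun ω => A ω *ᵥ v ω :=
  let ⟨C, hC⟩ := hA
  Sq_le hv (sq_nonneg C) fun ω => (mulVec_dot_le (A ω) (v ω)).trans (mul_le_mul_of_nonneg_right
    (pow_le_pow_left₀ (opn_nonneg _) (hC ω) 2) (by rw [← nrm_sq]; positivity))

lemma SqV_bmul (hd : R.cx.BdV d) (hv : SqV v) : SqV fun ω => d ω * v ω :=
  cg (P := SqV) (SqV_mulVec (BdV.op hd) hv) fun ω => funext fun k => mulVec_diagonal _ _ k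

lemma SqV_smul (h : R.cx.Ok) {σ : F.Sf} (hσ : Sb σ) (hv : SqV v) : SqV fun ω => σ ω • v ω :=
  let ⟨C, hC⟩ := h.sc_bd hσ
  SqV_bmul (R := R) (d := fun ω _ => σ ω) ⟨C, fun ω _ => hC ω⟩ hv

lemma TV_sq (hF : F.Ok) (h : R.cx.Ok) {u : R.cx.VF} (hu : R.cx.TV u) : SqV u := by
  induction hu with
  | @term θ d h1 h2 =>
    obtain ⟨D, D1, hD⟩ := BdV.nn (h.bl_bd h2)
    refine Sq_le (Sq_th hF h1) (sq_nonneg D) fun ω => ?_
    refine (sum_le_card_nsmul _ _ (D ^ 2 * θ ω ^ 2) fun i _ => ?_).trans (le_of_eq (by simp; ring))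
    have := pow_le_pow_left₀ (abs_nonneg _) (hD ω i) 2
    rw [sq_abs] at this
    beta_reduce
    rw [Pi.smul_apply, smul_eq_mul, ← sq, mul_pow, mul_comm]
    exact mul_le_mul_of_nonneg_right this (by positivity)
  | add _ _ h1 h2 => exact SqV_add h1 h2

lemma O2_sq (hC : ClsStmt) (hF : F.Ok) (hu : R.cx.O2 u) : SqV u :=
  Sq_mono ((hC F hF).2.2.2.2 N R _ hu).1 fun ω => by simp only [dotProduct, sq, le_refl]


/-- the Gibbs mean of an element of `SqV` is `O₂(K)` -/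
lemma O2_EV (hC : ClsStmt) (hF : F.Ok) (hu : SqV u) : R.cx.O2 fun ω => F.EV u ω.1 :=
  let ⟨C, c0, h⟩ := Sq_mean hC hF hu
  Sm.le sm_K c0 fun ω => by
    simpa only [dotProduct, sq] using (EV_sq_le u ω.1).trans (h ω.1)

end sq

/-! ### `AK`, `BK` -/

section mat
variable {A B : F.Mf} {g : F.Lf (N + 1)}

lemma BK_ak (h : R.cx.Ok) (hA : R.BK A) : R.AK A :=
  let ⟨h0, B, h1, h2⟩ := hA
  ⟨h0, cg (P := R.cx.Kp Sb) (((h1.pr h).kp h).add h (Kp.pk h.th h2)) fun ω => add_sub_cancel _ _⟩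

lemma BK_diag (h : R.cx.Ok) (hA : R.BK A) : R.cx.Kv Th fun ω => (A ω).diag :=
  let ⟨h0, B, h1, h2⟩ := hA
  cg (P := R.cx.Kv Th) (((h1.o2 h).kv h h.th).add h (Kp.diag h h.th h2)) fun ω => by
    rw [diag_sub]; abel

lemma AK_pr (h : R.cx.Ok) (hA : R.cx.PR A) : R.AK A := ⟨hA.op h h.md, hA.kp h⟩
lemma AK_dg (h : R.cx.Ok) (hg : g ∈ R.C) : R.AK (R.dg g) := AK_pr h (pr_dg h hg)
lemma AK_mul (h : R.cx.Ok) (hA : R.AK A) (hB : R.AK B) : R.AK fun ω => A ω * B ω :=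
  ⟨hA.1.mul hB.1, Kp.kmul h h.md hA.2 hA.1 hB.2⟩
lemma AK_transpose (h : R.cx.Ok) (hA : R.AK A) : R.AK fun ω => (A ω)ᵀ :=
  ⟨hA.1.transpose, Kp.transpose h h.md hA.2⟩
lemma MK_mul (h : R.cx.Ok) (hA : R.cx.MK A) (hB : R.AK B) : R.cx.MK fun ω => A ω * B ω :=
  Kp.mulk h h.th hA hB.2 hB.1
lemma mul_MK (h : R.cx.Ok) (hA : R.AK A) (hB : R.cx.MK B) : R.cx.MK fun ω => A ω * B ω :=
  Kp.kmul h h.th hA.2 hA.1 hB

end mat

/-! ### exact identities -/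

lemma diag_dmul {n : ℕ} (d : V n) (A : Mx n) : (diagonal d * A).diag = d * A.diag := by
  ext k; simp

lemma bm_diag (u : F.Vf) (ω : F.Ω) : (F.bm u ω).diag = u ω - sv ω.2 * (F.jc u ω).diag := rfl

lemma bm_had_mulVec (u : F.Vf) (ω : F.Ω) (M : Mx (F.n ω.1)) (t : V (F.n ω.1)) :
    (F.bm u ω ⊙ M) *ᵥ t = u ω * M *ᵥ t - (F.jc u ω * diagonal (sv ω.2 * t) * Mᵀ).diag := by
  ext k
  simp only [mulVec, dotProduct, hadamard_apply, Fam.bm, Fam.jc, barM, jac, of_apply, S3F.bar,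
    Pi.sub_apply, Pi.mul_apply, diag_apply, Matrix.mul_apply (N := Mᵀ), mul_diagonal,
    transpose_apply, mul_sum, ← sum_sub_distrib]
  exact sum_congr rfl fun j _ => by ring

end Crest.Agent.T157.S3.K71
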