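import Crest.Agent.T157.S3Ans_69
import Crest.Agent.T157.S3Gr_7_Mg
import Crest.Agent.T157.Xtr_25
import Crest.Agent.T157.S3Def_69
import Crest.Agent.T157.S3X_43
import Crest.Agent.T157.S3RgB_78
import Crest.Agent.T157.S3AnA_90
import Crest.Agent.T157.S3K_71

-- ▼ part T157/S3Flat_82
section

/-!
# Row 157, part B, block S3 (helper82): flatness of `J (D Ω - q w)`
-/

set_option autoImplicit false

noncomputable section

namespace Crest.Agent.T157.S3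

open Matrix Filter Finset
open Crest.Agent.T157.E (Cube mean meanV prob)
open Crest.Agent.T157.Rec (grad fl)
open Crest.Agent.T157.Eig
open Crest.Agent.T157.Chain22 (IsP)
open Crest.Agent.T157.S3F
open Crest.Agent.T157.S3W (Cx)
open Gr7 (diag_mulVec abs_mean_le' mean_sum' mean_const_mul)
open Gm7 (isP Pi_nonneg Pi_append ev_bd)
open Fam

namespace Fl82

section inst
variable {n : ℕ} {μ : Cube n → ℝ}

lemma madd (f g : Cube n → ℝ) : mean μ (fun x => f x + g x) = mean μ f + mean μ g :=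
  Chain22.mean_add _ _ _
lemma msub (f g : Cube n → ℝ) : mean μ (fun x => f x - g x) = mean μ f - mean μ g :=
  Chain22.mean_sub _ _ _
lemma mmul (r : ℝ) (g : Cube n → ℝ) : mean μ (fun x => r * g x) = r * mean μ g :=
  mean_const_mul _ _
lemma msum {σ : Type*} (t : Finset σ) (g : σ → Cube n → ℝ) :
    mean μ (fun x => ∑ j ∈ t, g j x) = ∑ j ∈ t, mean μ (g j) := mean_sum' _ _

lemma mean_dot (z : V n) (u : Cube n → V n) :
    (mean μ fun x => z ⬝ᵥ u x) = z ⬝ᵥ meanV μ u :=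
  (msum _ _).trans (sum_congr rfl fun _ _ => mmul _ _)

lemma mean_le_sqrt (h : IsP (prob μ)) {G : Cube n → ℝ} {B : ℝ}
    (hB : (mean μ fun x => G x ^ 2) ≤ B) : mean μ G ≤ √B :=
  Real.le_sqrt_of_sq_le ((h.mean_sq_le G).trans (le_trans (le_of_eq
    (sum_congr rfl fun x _ => by simp only [sq])) hB))

lemma exc_mono {e e' B B' : ℝ} {g : Cube n → ℝ} (h : Exc μ e B g) (he : e ≤ e') (hB : B ≤ B') :
    Exc μ e' B' g :=
  let ⟨G, h1, h2, h3, h4⟩ := h; ⟨G, h1, h2, fun x => (h3 x).trans he, h4.trans hB⟩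

lemma ex_le {e : ℝ} (he : 0 < e) (a m : ℝ) :
    max (|a| - e) 0 ^ 2 ≤ 2 / e ^ 2 * (a - m) ^ 4 + 2 * m ^ 2 := by
  have h1 : |a| ≤ |a - m| + |m| := by simpa using abs_add_le (a - m) m
  have h2 : |a - m| - e ≤ (a - m) ^ 2 / e := by
    rw [le_div_iff₀ he, ← sq_abs]; nlinarith [sq_nonneg (|a - m| - e), abs_nonneg (a - m)]
  have h3 : 0 ≤ (a - m) ^ 2 / e := by positivity
  have h4 : max (|a| - e) 0 ≤ (a - m) ^ 2 / e + |m| :=
    max_le (by linarith) (add_nonneg h3 (abs_nonneg _))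
  have h5 := pow_le_pow_left₀ (le_max_right _ _) h4 2
  have h6 : 2 / e ^ 2 * (a - m) ^ 4 = 2 * ((a - m) ^ 2 / e) ^ 2 := by field_simp
  rw [h6, ← sq_abs m]
  nlinarith [sq_nonneg ((a - m) ^ 2 / e - |m|)]

/-- a field with small Jacobian and small mean is flat -/
lemma flat (hμ : IsP (prob μ)) {u : Cube n → V n} {δ h B C ε e ρ : ℝ} (he : 0 < e) (hρ : 0 < ρ)
    (h0 : 0 ≤ h) (hC : 0 ≤ C) (hop : ∀ x, opn (jac u x) ≤ δ) (hhs : ∀ x, hsJ u x ≤ h ^ 2)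
    (hm : nrm (meanV μ u) ≤ B)
    (H : ∀ (G : Cube n → ℝ) (A : ℝ), TS A G → (mean μ fun x => (G x - mean μ G) ^ 4) ≤
      C * A * (mean μ fun x => grad G x ⬝ᵥ grad G x) + C * A ^ 2 * ε) :
    Exc μ ((4 * δ + 4 * δ * h / ρ) ^ 2) (2 / e ^ 2 * (C * (4 * δ ^ 2) * h ^ 2 +
      n * (C * (4 * δ ^ 2) ^ 2 * ε)) + 2 * B ^ 2 + ρ ^ 2) fun x => exs e (u x) := by
  have hL := Xt.lip2_exc (u := u) he.le hρ hop fun x => Rg.fro_le_of_sq h0 (hhs x)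
  have s0 : ∀ x, 0 ≤ Rg.exc e (u x) + ρ ^ 2 := fun x =>
    add_nonneg (Rg.exc_nonneg _ _) (sq_nonneg _)
  refine ⟨_, fun x => Real.le_sqrt_of_sq_le ?_, fun x => Real.sqrt_nonneg _,
    (Xt.lip2_iff hL.nn).1 hL, ?_⟩
  · exact (Rg.nrm_sq' _).trans_le (le_add_of_nonneg_right (sq_nonneg _))
  have h1 : ∀ k, (mean μ fun x => (u x k - meanV μ u k) ^ 4) ≤ C * (4 * δ ^ 2) *
      (mean μ fun x => ∑ j, jac u x k j ^ 2) + C * (4 * δ ^ 2) ^ 2 * ε := fun k => by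
    have := H (fun x => u x k) (4 * δ ^ 2) fun x => by
      rw [J82.ts_eq (fun x => u x k)]
      have := (row_sq_le (jac u x) k).trans (pow_le_pow_left₀ (opn_nonneg _) (hop x) 2)
      simp only [jac_apply, sq] at this
      rw [dotProduct, sq]
      linarith
    simp only [dotProduct, ← sq] at this
    exact this
  have h2 := sum_le_sum fun k (_ : k ∈ univ) => h1 k
  rw [sum_add_distrib, ← mul_sum, ← msum, ← msum, sum_const, card_univ, Fintype.card_fin,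
    nsmul_eq_mul] at h2
  have h3 : (mean μ fun x => ∑ k, ∑ j, jac u x k j ^ 2) ≤ h ^ 2 :=
    (hμ.mean_mono hhs).trans_eq (hμ.mean_const _)
  have h4 := mul_le_mul_of_nonneg_left h3 (by positivity : 0 ≤ C * (4 * δ ^ 2))
  have h5 := pow_le_pow_left₀ (nrm_nonneg _) hm 2
  rw [Rg.nrm_sq'] at h5
  have h6 : (mean μ fun x => √(Rg.exc e (u x) + ρ ^ 2) ^ 2) ≤ mean μ fun x =>
      2 / e ^ 2 * ∑ k, (u x k - meanV μ u k) ^ 4 + (2 * ∑ k, meanV μ u k ^ 2 + ρ ^ 2) :=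
    hμ.mean_mono fun x => by
      rw [Real.sq_sqrt (s0 x), ← add_assoc, mul_sum, mul_sum, ← sum_add_distrib]
      exact add_le_add (sum_le_sum fun k _ => ex_le he _ _) le_rfl
  rw [madd, mmul, show (mean μ fun _ => _) = _ from hμ.mean_const _] at h6
  have h7 := mul_le_mul_of_nonneg_left (h2.trans (add_le_add h4 le_rfl))
    (by positivity : 0 ≤ 2 / e ^ 2)
  linarith

lemma abs_Dg (J : Mx n) (y : V n) (x : Cube n) (k : Fin n) : |Dg J y x k| ≤ 1 := by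
  have := Real.tanh_sq_lt_one (hf J y x k)
  rw [Dg, abs_le]; constructor <;> nlinarith [sq_nonneg (Real.tanh (hf J y x k))]

lemma expand {P : ℕ} (z w d al q : V n) (a b : Fin P → V n) (Y : Fin P → Mx n)
    (Ω : Fin P → Fin P → Mx n) (h : ∀ l, Y l = ∑ m, Ω l m * diagonal (b m)) :
    z ⬝ᵥ (d * (diagonal al + ∑ m, diagonal (a m) * Y m)ᵀ *ᵥ w - q * w) =
      (z * w) ⬝ᵥ (d * al - q) + ∑ l, ∑ m, (w * a l) ⬝ᵥ Ω l m *ᵥ (z * (b m * d)) := by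
  have t : ∀ (Y : Mx n) (u v : V n), u ⬝ᵥ Y *ᵥ v = v ⬝ᵥ Yᵀ *ᵥ u := fun Y u v => by
    rw [mulVec_transpose, dotProduct_mulVec, dotProduct_comm]
  have e2 : ∀ b u : V n, z ⬝ᵥ (d * (b * u)) = (z * (b * d)) ⬝ᵥ u := fun b u =>
    sum_congr rfl fun k _ => by simp only [Pi.mul_apply]; ring
  have e1 : (z * (al * d)) ⬝ᵥ w - z ⬝ᵥ (q * w) = (z * w) ⬝ᵥ (d * al - q) := by
    simp only [dotProduct, ← sum_sub_distrib, Pi.mul_apply, Pi.sub_apply]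
    exact sum_congr rfl fun k _ => by ring
  simp only [h, transpose_add, transpose_sum, transpose_mul, diagonal_transpose, add_mulVec,
    sum_mulVec, ← mulVec_mulVec, diag_mulVec, mul_add, mul_sum, dotProduct_sub,
    dotProduct_add, dotProduct_sum, t (Ω _ _), mul_comm w (a _), e2, ← e1]
  ring

end inst

variable {F : Fam} {N : ℕ} {R : Net F N} {𝒯 : Set F.Df} {f g : ∀ i, V (F.n i) → V (F.n i) → ℝ}

/-- bilinear errors `|z| (e |w| + C √K |w|_∞ + C |Π w|)` -/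
def Bz (𝒯 : Set F.Df) (f : ∀ i, V (F.n i) → V (F.n i) → ℝ) : Prop := ∀ e > (0 : ℝ),
  ∃ D : List F.Df, (∀ t ∈ D, t ∈ 𝒯) ∧ ∃ C : ℝ, ∀ᶠ i in F.l, ∀ z w : V (F.n i),
    |f i z w| ≤ nrm z * (e * nrm w + C * √(F.K i) * ‖w‖ + C * Fam.Pi D i w)

lemma Bz.add (hf : Bz 𝒯 f) (hg : Bz 𝒯 g) : Bz 𝒯 fun i z w => f i z w + g i z w := by
  intro e he
  obtain ⟨D, d1, C, d2⟩ := hf (e / 2) (by positivity)
  obtain ⟨D', e1, C', e2⟩ := hg (e / 2) (by positivity)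
  refine ⟨D ++ D', List.forall_mem_append.2 ⟨d1, e1⟩, |C| + |C'|, ?_⟩
  filter_upwards [d2, e2] with i d2 e2 z w
  have p1 := Pi_nonneg D i w
  have p2 := Pi_nonneg D' i w
  have k0 : 0 ≤ √(F.K i) * ‖w‖ := by positivity
  refine (abs_add_le _ _).trans ((add_le_add (d2 z w) (e2 z w)).trans ?_)
  rw [← mul_add, Pi_append]
  refine mul_le_mul_of_nonneg_left ?_ (nrm_nonneg _)
  linarith [mul_le_mul_of_nonneg_right (le_abs_self C) k0, mul_nonneg (abs_nonneg C) p2,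
    mul_le_mul_of_nonneg_right (le_abs_self C') k0, mul_nonneg (abs_nonneg C') p1,
    mul_le_mul_of_nonneg_right (le_abs_self C) p1, mul_le_mul_of_nonneg_right (le_abs_self C') p2]

lemma Bz.of_unif (H : ∀ e > (0 : ℝ), ∃ C : ℝ, ∀ᶠ i in F.l, ∀ z w,
    |f i z w| ≤ nrm z * (e * nrm w + C * √(F.K i) * ‖w‖)) : Bz 𝒯 f := fun e he =>
  let ⟨C, H⟩ := H e he
  ⟨[], by simp, C, H.mono fun i hi z w => by simpa [Fam.Pi] using hi z w⟩

lemma Bz.zero : Bz 𝒯 fun _ _ _ => 0 := .of_unif fun e he => ⟨0, .of_forall fun i z w => by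
  have := nrm_nonneg z; have := nrm_nonneg w; rw [abs_zero]; positivity⟩

lemma Bz.congr (hf : Bz 𝒯 f) (H : ∀ i z w, g i z w = f i z w) : Bz 𝒯 g :=
  (funext₃ H : g = f) ▸ hf

lemma Bz.sum {σ : Type*} (t : Finset σ) {f : σ → ∀ i, V (F.n i) → V (F.n i) → ℝ}
    (hf : ∀ j ∈ t, Bz 𝒯 (f j)) : Bz 𝒯 fun i z w => ∑ j ∈ t, f j i z w := by
  classical
  induction t using Finset.induction_on with
  | empty => simpa using Bz.zero
  | insert j t hj ih =>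
    simp only [sum_insert hj]
    exact (hf j (mem_insert_self _ _)).add (ih fun k hk => hf k (mem_insert_of_mem hk))

/-- the bilinear form of a matrix family -/
def bz (R : Net F N) (ρ ρ' : F.Lf (N + 1)) (A : F.Mf) (i : F.I) (z w : V (F.n i)) : ℝ :=
  mean (F.w i) fun x => (w * R.ev ρ ⟨i, x⟩) ⬝ᵥ A ⟨i, x⟩ *ᵥ (z * R.ev ρ' ⟨i, x⟩)

variable {ρ ρ' : F.Lf (N + 1)}

lemma bz_ws (hF : F.Ok) (hb : Bil R 𝒯 (R.ev ρ)) (h2 : ρ' ∈ R.C) :
    ∀ {L : List (List (F.Lf (N + 1)))}, (∀ u ∈ L, ∀ a ∈ u, a ∈ R.C) →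
      Bz 𝒯 (bz R ρ ρ' fun ω => (L.map fun u => R.W u ω).sum)
  | [], _ => Bz.zero.congr fun i z w => by simp [bz, mean]
  | u :: L, h => by
    refine (Bz.add (hb ρ' u.reverse h2 fun a ha => (List.forall_mem_cons.1 h).1 a
      (List.mem_reverse.1 ha)) (bz_ws hF hb h2 (List.forall_mem_cons.1 h).2)).congr fun i z w => ?_
    rw [bz, bz, ← madd]
    refine congrArg (mean (F.w i)) (funext fun x => ?_)
    rw [List.map_cons, List.sum_cons, add_mulVec, dotProduct_add, Net.W, Net.W, List.map_reverse,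
      ← (Uw.rev (hF.symm i) _).1, mulVec_transpose, dotProduct_mulVec, dotProduct_comm]

lemma bz_tp (hc : ClsStmt) (hF : F.Ok) (hR : R.Ok) (hx : R.cx.Ok) (h1 : ρ ∈ R.C) (h2 : ρ' ∈ R.C)
    {A : R.cx.MF} (hA : R.cx.TP A) : Bz 𝒯 (bz R ρ ρ' A) := by
  obtain ⟨C, hC⟩ := (hc F hF).2.2.2.1 _ (Dg98.tp_op hx hA)
  obtain ⟨c, c0, k1⟩ := ev_bd hR h1
  obtain ⟨c', c0', k2⟩ := ev_bd hR h2
  refine .of_unif fun e he => ⟨0, ?_⟩
  have hη : 0 < e / (c * c' + 1) := by positivity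
  filter_upwards [Bil89.small hF C hη] with i hi z w
  have n0 := Bil89.n_pos hF i
  have m1 := hC i _ (isP i)
  rw [Fam.H, Ent.kl_self, add_zero] at m1
  replace m1 := (mean_const_mul (F.n i) fun x => opn (A ⟨i, x⟩) ^ 2).symm.trans_le m1
  have m2 : (mean (F.w i) fun x => opn (A ⟨i, x⟩)) ≤ e / (c * c' + 1) := by
    refine (mean_le_sqrt (isP i) (B := C * F.K i / F.n i) ((le_div_iff₀' n0).2 m1)).trans ?_
    rwa [Real.sqrt_div' _ n0.le, div_le_iff₀ (Real.sqrt_pos.2 n0)]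
  have z0 := nrm_nonneg z
  have w0 := nrm_nonneg w
  refine (abs_mean_le' (isP i) (g := fun x => c * nrm w * (c' * nrm z) * opn (A ⟨i, x⟩))
    fun x => (abs_bil_le _ _ _).trans ?_).trans ?_
  · rw [mul_comm]
    exact mul_le_mul_of_nonneg_right (mul_le_mul (Gr7.nrm_mul_le c0 (k1 ⟨i, x⟩))
      (Gr7.nrm_mul_le c0' (k2 ⟨i, x⟩)) (nrm_nonneg _) (by positivity)) (opn_nonneg _)
  · rw [mean_const_mul]
    refine (mul_le_mul_of_nonneg_left m2 (by positivity)).trans ?_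
    rw [← mul_div_assoc, div_le_iff₀ (by positivity)]
    linarith [mul_nonneg (mul_nonneg z0 w0) he.le]

lemma Dg_eq (hR : R.Ok) (i : F.I) (x : Cube (F.n i)) : Dg (F.J i) (F.y i) x = R.ev R.D ⟨i, x⟩ := by
  funext k
  simp only [Dg, Net.ev, Net.D, Net.th, Pi.sub_apply, Pi.mul_apply, Pi.one_apply, hR.X0, sq,
    add_sub_cancel]

/-- the mean of `D Tᵀ w - q w` -/
lemma bz_top (hc : ClsStmt) (hw : WXStmt) (hF : F.Ok) (hR : R.Ok) (hx : R.cx.Ok) {P : ℕ}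
    {Φ : Flow R P} (hΦ : Φ.Ok) {al : F.Lf (N + 1)} {a : Fin P → F.Lf (N + 1)} (hl : Φ.Let al a)
    (hb : ∀ m, Bil R 𝒯 (R.ev (a m))) {q : F.Df}
    (hq : Neg fun i => F.EV (R.ev (R.D * al)) i - q i) : Bz 𝒯 fun i z w => mean (F.w i) fun x =>
      z ⬝ᵥ (Dg (F.J i) (F.y i) x * (Φ.tT al a ⟨i, x⟩)ᵀ *ᵥ w - q i * w) := by
  obtain ⟨Ω, L, a1, a2⟩ := (hw F N P R Φ hF hR hΦ).1
  have hd := fun m => hR.mul _ (hΦ.lt m).1 _ (Bil89.D_mem hR)
  have s1 : Bz 𝒯 fun i z w => (z * w) ⬝ᵥ (F.EV (R.ev (R.D * al)) i - q i) := by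
    refine .of_unif fun e he => ?_
    obtain ⟨C, hC⟩ := hq e he
    refine ⟨√|C|, hC.mono fun i hi z w => ?_⟩
    have e1 : (z * w) ⬝ᵥ (F.EV (R.ev (R.D * al)) i - q i) =
        z ⬝ᵥ (w * (F.EV (R.ev (R.D * al)) i - q i)) := sum_congr rfl fun k _ => mul_assoc _ _ _
    rw [e1]
    refine (abs_dot_le _ _).trans (mul_le_mul_of_nonneg_left ((S3B.nrm_mul_ex (norm_nonneg w)
      (norm_le_pi_norm w) he.le _).trans (add_le_add le_rfl ?_)) (nrm_nonneg _))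
    rw [mul_comm, ← Real.sqrt_mul (abs_nonneg _)]
    exact mul_le_mul_of_nonneg_right (Real.sqrt_le_sqrt (le_trans hi (mul_le_mul_of_nonneg_right
      (le_abs_self C) (zero_le_one.trans (hF.K1 i))))) (norm_nonneg _)
  refine (s1.add (Bz.sum univ fun l _ => Bz.sum univ fun m _ =>
    (bz_tp hc hF hR hx (hl.2.2 l) (hd m) (a1 l m).2).add
      (bz_ws hF (hb l) (hd m) (a1 l m).1))).congr fun i z w => ?_
  have e := fun x => expand z w (R.ev R.D ⟨i, x⟩) (R.ev al ⟨i, x⟩) (q i) (fun m => R.ev (a m) ⟨i, x⟩)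
    (fun m => R.ev (Φ.al m) ⟨i, x⟩) _ (fun l m => Ω l m ⟨i, x⟩)
    (a2 ⟨i, x⟩ (fun m => R.dg (Φ.al m) ⟨i, x⟩) (fun m => Φ.T m ⟨i, x⟩) (fun m => Φ.Y m ⟨i, x⟩)
      fun m => ⟨rfl, hΦ.hY m _⟩)
  simp only [Dg_eq hR]
  refine (congrArg (mean (F.w i)) (funext e)).trans ?_
  simp only [madd, msum, bz, sub_mulVec, dotProduct_sub, msub, sub_add_cancel,
    show ∀ c : ℝ, (mean (F.w i) fun _ => c) = c from (isP i).mean_const]
  rw [mean_dot]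
  rfl

lemma E0_le (hF : F.Ok) (e C : ℝ) (D D' : List F.Df) (i : F.I) (w : V (F.n i)) :
    E0 e C D i w ≤ e * (w ⬝ᵥ w) + |C| * (F.K i + Fam.Pi (D ++ D') i w ^ 2) := by
  have p1 := Pi_nonneg D i w
  have p2 := Pi_nonneg D' i w
  have h1 : Fam.Pi D i w ^ 2 ≤ Fam.Pi (D ++ D') i w ^ 2 :=
    pow_le_pow_left₀ p1 (by rw [Pi_append]; linarith) 2
  rw [E0]
  linarith [mul_le_mul_of_nonneg_right (le_abs_self C) (zero_le_one.trans (hF.K1 i)),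
    mul_le_mul_of_nonneg_right (le_abs_self C) (sq_nonneg (Fam.Pi D i w)),
    mul_le_mul_of_nonneg_left h1 (abs_nonneg C)]

end Fl82

set_option maxHeartbeats 800000 in
open Fl82 in
theorem flatGlue : FlatGlue := by
  intro hb hc hj hw F N P R 𝒯 Φ al a q hF hR hΦ hl hB hq C0 e he
  obtain ⟨hx, -, h3, h4, -⟩ := hj F N R hF hR
  obtain ⟨K0, κ0, hκ, hAT⟩ := hF.hAT
  obtain ⟨C', c, c0, hH⟩ := hb K0 κ0 0 hκ
  obtain ⟨r, r0, hr⟩ := Cx.nn (J82.op_J (R := R) hF)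
  obtain ⟨A, a0, hA⟩ := Cx.nn (h4 _ (h3 _ (Bil89.D_mem hR))).1
  obtain ⟨M, hM⟩ : ∃ M, M = r * (1 + 3 * A) := ⟨_, rfl⟩
  obtain ⟨M', hM'⟩ : ∃ M', M' = r * (2 * (1 + A)) * |C0| := ⟨_, rfl⟩
  obtain ⟨M'', hM''⟩ : ∃ M'', M'' = M' * (1 + 4 / e) := ⟨_, rfl⟩
  have m0 : 0 ≤ M := by rw [hM]; positivity
  have m1 : 0 ≤ M' := by rw [hM']; positivity
  have m2 : 0 ≤ M'' := by rw [hM'']; positivity
  obtain ⟨η, η0, η1, η2, η3, η4, η5, η6⟩ : ∃ η > (0 : ℝ), η ≤ 1 ∧ η * (4 * M * (1 + M'')) ≤ 1 ∧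
      η * (4 * M * (1 + M'')) ≤ e ∧ η * (32 * |C'| * M ^ 2 * M' ^ 2) ≤ e ^ 3 ∧
      η * (64 * r ^ 2) ≤ e ∧ η * 2 ≤ e ^ 2 := by
    obtain ⟨y, y0, y1, y2, y3, y4⟩ : ∃ y > (0 : ℝ), y ≤ 1 ∧ y ≤ e ∧ y ≤ e ^ 2 ∧ y ≤ e ^ 3 :=
      ⟨min (min 1 e) (min (e ^ 2) (e ^ 3)), by positivity, by simp, by simp, by simp, by simp⟩
    have z1 : 0 ≤ 4 * M * (1 + M'') := by positivity
    have z2 : 0 ≤ 32 * |C'| * M ^ 2 * M' ^ 2 := by positivity
    have z3 : 0 ≤ 64 * r ^ 2 := by positivity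
    generalize 4 * M * (1 + M'') = Z1 at *
    generalize 32 * |C'| * M ^ 2 * M' ^ 2 = Z2 at *
    generalize 64 * r ^ 2 = Z3 at *
    have h1 : y / (2 + Z1 + Z2 + Z3) * (2 + Z1 + Z2 + Z3) = y := div_mul_cancel₀ _ (by positivity)
    have h2 : 0 < y / (2 + Z1 + Z2 + Z3) := by positivity
    generalize y / (2 + Z1 + Z2 + Z3) = η at *
    have := mul_nonneg h2.le z1
    have := mul_nonneg h2.le z2
    have := mul_nonneg h2.le z3
    refine ⟨η, h2, ?_, ?_, ?_, ?_, ?_, ?_⟩ <;> linarith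
  obtain ⟨D', d1, C2, d2⟩ := bz_top hc hw hF hR hx hΦ hl hB hq η η0
  refine ⟨η, η0, D', d1, fun D C => ?_⟩
  obtain ⟨C3, hC3⟩ : ∃ C3, C3 = 4 * (|C| + C2 ^ 2) := ⟨_, rfl⟩
  obtain ⟨C4, hC4⟩ : ∃ C4, C4 = 2 / e ^ 2 * (|C'| * (4 * M ^ 2) ^ 2 * (1 / c)) + 1 := ⟨_, rfl⟩
  have c3 : 0 ≤ C3 := by rw [hC3]; positivity
  have c4 : 0 ≤ C4 := by rw [hC4]; positivity
  refine ⟨C4 + 2 * r ^ 2 * C3 + C3 / (4 * e), d2.mono fun i d2 w Ω hw hΩ ⟨G, g1, g2, _, g4⟩ => ?_⟩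
  have k1 := hF.K1 i
  have w0 := dot_self_nonneg w
  have w1 := nrm_nonneg w
  obtain ⟨S, hS⟩ : ∃ S, S = F.K i + Fam.Pi (D ++ D') i w ^ 2 := ⟨_, rfl⟩
  have s1 : 1 ≤ S := by rw [hS]; linarith [sq_nonneg (Fam.Pi (D ++ D') i w)]
  obtain ⟨B, hBd⟩ : ∃ B, B = √(E0 η C D i w) + (η * nrm w + C2 * √(F.K i) * ‖w‖ +
    C2 * Fam.Pi D' i w) := ⟨_, rfl⟩
  have hz : ∀ z, |mean (F.w i) fun x => z ⬝ᵥ (Dg (F.J i) (F.y i) x * Ω x - q i * w)| ≤
      nrm z * B := fun z => by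
    have e1 : ∀ x, z ⬝ᵥ (Dg (F.J i) (F.y i) x * Ω x - q i * w) =
        z ⬝ᵥ (Dg (F.J i) (F.y i) x * (Φ.tT al a ⟨i, x⟩)ᵀ *ᵥ w - q i * w) -
          z ⬝ᵥ (((Φ.tT al a ⟨i, x⟩)ᵀ *ᵥ w - Ω x) * Dg (F.J i) (F.y i) x) := fun x => by
      rw [← dotProduct_sub]; congr 1; ring
    have e2 := (abs_mean_le' (isP i) (g := fun x => nrm z * G x) fun x => (abs_dot_le z _).trans
      (mul_le_mul_of_nonneg_left ((Gr7.nrm_mul_le zero_le_one (abs_Dg (F.J i) (F.y i) x)).trans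
        ((one_mul _).trans_le (g1 x))) (nrm_nonneg z))).trans ((mean_const_mul _ _).trans_le
          (mul_le_mul_of_nonneg_left (mean_le_sqrt (isP i) g4) (nrm_nonneg z)))
    simp only [e1]
    rw [msub, hBd, mul_add, add_comm]
    exact (abs_sub _ _).trans (add_le_add (d2 z w) e2)
  have hB2 : B ^ 2 ≤ 8 * η * (w ⬝ᵥ w) + C3 * S := by
    have e0 : 0 ≤ E0 η C D i w := ((isP i).mean_nonneg fun x => sq_nonneg _).trans g4
    have e1 := E0_le hF η C D D' i w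
    have e2 : (η * nrm w) ^ 2 ≤ η * (w ⬝ᵥ w) := by
      rw [mul_pow, nrm_sq]; exact mul_le_mul_of_nonneg_right (pow_le_of_le_one η0.le η1 two_ne_zero) w0
    have e3 : (C2 * √(F.K i) * ‖w‖) ^ 2 ≤ C2 ^ 2 * F.K i := by
      rw [mul_pow, mul_pow, Real.sq_sqrt (by linarith)]
      exact mul_le_of_le_one_right (by positivity) (pow_le_one₀ (norm_nonneg _) (hw.trans η1))
    have e4 : (C2 * Fam.Pi D' i w) ^ 2 ≤ C2 ^ 2 * Fam.Pi (D ++ D') i w ^ 2 := by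
      rw [mul_pow, Pi_append]
      exact mul_le_mul_of_nonneg_left (pow_le_pow_left₀ (Pi_nonneg _ _ _)
        (le_add_of_nonneg_left (Pi_nonneg _ _ _)) 2) (sq_nonneg _)
    have e5 := Real.sq_sqrt e0
    rw [hBd, hC3, hS]
    generalize √(E0 η C D i w) = x1 at *
    generalize η * nrm w = x2 at *
    generalize C2 * √(F.K i) * ‖w‖ = x3 at *
    generalize C2 * Fam.Pi D' i w = x4 at *
    linarith [sq_nonneg (x1 - x2), sq_nonneg (x1 - x3), sq_nonneg (x1 - x4), sq_nonneg (x2 - x3),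
      sq_nonneg (x2 - x4), sq_nonneg (x3 - x4)]
  have hE : E0 e (C4 + 2 * r ^ 2 * C3 + C3 / (4 * e)) (D ++ D') i w =
      e * (w ⬝ᵥ w) + (C4 + 2 * r ^ 2 * C3 + C3 / (4 * e)) * S := by rw [E0, hS]; ring
  have p1 : 0 ≤ C4 * S := by positivity
  have p2 : 0 ≤ 2 * r ^ 2 * C3 * S := by positivity
  have p3 : 0 ≤ C3 / (4 * e) * S := by positivity
  rw [hE]
  refine ⟨?_, fun z => (hz z).trans ?_⟩
  swap
  · have e1 : nrm z * B ≤ e * (z ⬝ᵥ z) + B ^ 2 / (4 * e) := by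
      have : 0 ≤ (2 * e * nrm z - B) ^ 2 / (4 * e) := by positivity
      have e0 : (2 * e * nrm z - B) ^ 2 / (4 * e) =
          e * nrm z ^ 2 + B ^ 2 / (4 * e) - nrm z * B := by field_simp; ring
      rw [← nrm_sq]; linarith
    have e2 : B ^ 2 / (4 * e) ≤ e * (w ⬝ᵥ w) + C3 / (4 * e) * S := by
      rw [div_le_iff₀ (by positivity), add_mul, div_mul_eq_mul_div, div_mul_cancel₀ _ (by positivity)]
      linarith [mul_le_mul_of_nonneg_right η6 w0]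
    linarith
  obtain ⟨ρ, ρ0, hρ⟩ : ∃ ρ > (0 : ℝ), ρ ^ 2 = e / 4 * (w ⬝ᵥ w) + 1 :=
    ⟨√(e / 4 * (w ⬝ᵥ w) + 1), by positivity, Real.sq_sqrt (by positivity)⟩
  have jD : ∀ x, opn (jac (Dg (F.J i) (F.y i)) x) ≤ A := fun x => by
    rw [funext (Dg_eq hR i)]; exact hA ⟨i, x⟩
  have hm : nrm (meanV (F.w i) fun x => F.J i *ᵥ (Dg (F.J i) (F.y i) x * Ω x - q i * w)) ≤
      r * B := by
    set m := meanV (F.w i) fun x => F.J i *ᵥ (Dg (F.J i) (F.y i) x * Ω x - q i * w) with hm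
    have e1 := hz ((F.J i)ᵀ *ᵥ m)
    have b0 : 0 ≤ B := by
      have := hz 1
      refine nonneg_of_mul_nonneg_right ((abs_nonneg _).trans this) (Real.sqrt_pos.2 ?_)
      simpa [dotProduct] using hF.pos i
    simp only [mulVec_transpose, ← dotProduct_mulVec] at e1
    rw [mean_dot, ← hm, ← nrm_mul_self, ← mulVec_transpose] at e1
    have e2 := mul_le_mul_of_nonneg_right ((nrm_mulVec_le (F.J i)ᵀ m).trans
      (mul_le_mul_of_nonneg_right ((opn_transpose _).trans_le (hr ⟨i, default⟩)) (nrm_nonneg m))) b0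
    rcases (nrm_nonneg m).eq_or_lt with h | h
    · rw [← h]; positivity
    · exact le_of_mul_le_mul_left (by linarith [le_abs_self (nrm m * nrm m)]) h
  refine exc_mono (flat (isP i) (δ := M * η) (h := M' * nrm w) (C := |C'|)
    (ε := Real.exp (-(c * F.n i))) he ρ0 (by positivity) (abs_nonneg _) (fun x => ?_) (fun x => ?_)
    hm fun G A h => ?_) ?_ ?_
  · rw [jac_mulVec, jac_sub, jac_const, sub_zero, hM, mul_assoc]
    refine Uw.opn_mul_le' (hr ⟨i, x⟩) ((opn_jac_mul zero_le_one η0.le (abs_Dg _ _ x)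
      fun k => (norm_le_pi_norm (Ω x) k).trans (hΩ x).1).trans ?_)
    have e1 := mul_le_mul (add_le_add (le_refl 1) (jD x)) (hΩ x).2.1 (opn_nonneg _) (by positivity)
    have e2 := mul_le_mul (add_le_add (le_refl η) (hΩ x).2.1) (jD x) (opn_nonneg _) (by positivity)
    linarith
  · have e1 : hsJ (fun y => Dg (F.J i) (F.y i) y * Ω y - q i * w) x =
        hsJ (fun y => Dg (F.J i) (F.y i) y * Ω y) x := by simp only [hsJ, jac_sub, jac_const, sub_zero]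
    have e2 := hsJ_mul (u := Ω) (abs_Dg (F.J i) (F.y i)) x
    have e3 := pow_le_pow_left₀ (nrm_nonneg _) (hΩ x).2.2.1 2
    rw [nrm_sq] at e3
    have e4 := mul_le_mul (pow_le_pow_left₀ (opn_nonneg _) (jD x) 2) e3 (dot_self_nonneg _)
      (sq_nonneg _)
    have e5 := (hΩ x).2.2.2
    have e6 := mul_nonneg (by positivity : 0 ≤ 2 + 8 * A + 2 * A ^ 2) (sq_nonneg (C0 * nrm w))
    refine (hsJ_mulVec _ _ x).trans ((mul_le_mul (pow_le_pow_left₀ (opn_nonneg _) (hr ⟨i, x⟩) 2)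
      (show _ ≤ (2 * (1 + A)) ^ 2 * (C0 * nrm w) ^ 2 by rw [e1]; linarith) (hsJ_nonneg _ _)
      (sq_nonneg _)).trans (le_of_eq ?_))
    simp only [hM', mul_pow, sq_abs]; ring
  · have e1 := ((hH _ _ (Bil89.w_pos i) (hAT i)).2.1 G A h).2
    have A0 : 0 ≤ A := (sum_nonneg fun _ _ => sq_nonneg _).trans (h default)
    have e2 : 0 ≤ mean (F.w i) fun x => grad G x ⬝ᵥ grad G x :=
      (isP i).mean_nonneg fun x => dot_self_nonneg _
    linarith [mul_le_mul_of_nonneg_right (le_abs_self C') (mul_nonneg A0 e2),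
      mul_le_mul_of_nonneg_right (le_abs_self C') (mul_nonneg (sq_nonneg A)
        (Real.exp_pos (-(c * F.n i))).le)]
  · have e1 : M' * nrm w / ρ ≤ M'' := by
      rw [div_le_iff₀ ρ0, hM'', mul_assoc]
      refine mul_le_mul_of_nonneg_left (abs_le_of_sq_le_sq' ?_ (by positivity)).2 m1
      have : (1 + 4 / e) ^ 2 * (e / 4) = 2 + (e / 4 + 4 / e) := by field_simp; ring
      rw [mul_pow, hρ, nrm_sq, mul_add, ← mul_assoc, this]
      linarith [mul_nonneg (by positivity : 0 ≤ e / 4 + 4 / e) w0, sq_nonneg (1 + 4 / e)]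
    have e2 := mul_le_mul_of_nonneg_left e1 (by positivity : 0 ≤ 4 * (M * η))
    have e3 : 0 ≤ 4 * (M * η) + 4 * (M * η) * (M' * nrm w) / ρ := by positivity
    rw [mul_div_assoc] at e3 ⊢
    rw [sq]
    exact (mul_le_mul (show _ ≤ (1 : ℝ) by linarith) (show _ ≤ e by linarith) e3 zero_le_one).trans_eq
      (one_mul e)
  · have e1 : (F.n i : ℝ) * Real.exp (-(c * F.n i)) ≤ 1 / c := by
      rw [le_div_iff₀ c0, Real.exp_neg, mul_right_comm, mul_inv_le_iff₀ (Real.exp_pos _)]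
      linarith [Real.add_one_le_exp (c * F.n i)]
    have e2 : (4 * (M * η) ^ 2) ^ 2 ≤ (4 * M ^ 2) ^ 2 := by
      gcongr; exact mul_le_of_le_one_right m0 η1
    have e3 := mul_le_mul_of_nonneg_left (mul_le_mul (mul_le_mul_of_nonneg_left e2 (abs_nonneg C'))
      e1 (by positivity) (by positivity)) (by positivity : 0 ≤ 2 / e ^ 2)
    have e4 : 2 / e ^ 2 * (|C'| * (4 * (M * η) ^ 2) * (M' * nrm w) ^ 2) ≤ e / 4 * (w ⬝ᵥ w) := by
      have := mul_le_mul η1 η4 (by positivity) zero_le_one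
      rw [mul_pow M', nrm_sq, div_mul_eq_mul_div, div_le_iff₀ (by positivity)]
      linarith [mul_le_mul_of_nonneg_right this w0]
    have e5 := mul_le_mul_of_nonneg_left hB2 (by positivity : 0 ≤ 2 * r ^ 2)
    have e6 := mul_le_mul_of_nonneg_left s1 c4
    have e7 := mul_le_mul_of_nonneg_right η5 w0
    have e8 := mul_nonneg he.le w0
    rw [hρ]
    linarith

end Crest.Agent.T157.S3

end
end

-- ▼ part T157/S3RgC_78
section

/-!
# Row 157, part B, block S3 (helper78): calculus of the excess, (REG), first half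
-/

set_option autoImplicit false
set_option linter.unusedSectionVars false

noncomputable section

namespace Crest.Agent.T157.S3.Rg

open Matrix Finset Filter
open Crest.Agent.T157.E (Cube sv prob meanV)
open Crest.Agent.T157.Eig Crest.Agent.T157.Rec
open Crest.Agent.T157.Chain22 (mean IsP isP_prob')
open Crest.Agent.T157.Ent (kl)
open Crest.Agent.T157.S3F (jac hsJ)
open Crest.Agent.T157.S3W (Cx)
open Fam

section inst
variable {n P : ℕ} {a b c : ℝ} {G G' g g' μ : Cube n → ℝ}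

/-! ### two-sided Lipschitz functions -/

lemma ts_nonneg (h : TS a G) : 0 ≤ a := (sum_nonneg fun _ _ => sq_nonneg _).trans (h default)
lemma ts_mono (h : TS a G) (e : a ≤ b) : TS b G := fun x => (h x).trans e
lemma ts_const (c : ℝ) : TS 0 fun _ : Cube n => c := fun x => by simp
lemma ts_add (h : TS a G) (h' : TS b G') : TS (2 * a + 2 * b) fun x => G x + G' x := fun x => by
  refine le_trans ?_ (add_le_add (mul_le_mul_of_nonneg_left (h x) zero_le_two)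
    (mul_le_mul_of_nonneg_left (h' x) zero_le_two))
  rw [mul_sum, mul_sum, ← sum_add_distrib]
  exact sum_le_sum fun j _ => by
    nlinarith [sq_nonneg (G x - G (fl x j) - (G' x - G' (fl x j)))]
lemma ts_smul (c : ℝ) (h : TS a G) : TS (c ^ 2 * a) fun x => c * G x := fun x => by
  refine le_trans (le_of_eq ?_) (mul_le_mul_of_nonneg_left (h x) (sq_nonneg c))
  rw [mul_sum]; exact sum_congr rfl fun j _ => by ring
lemma ts_abs (h : TS a G) : TS a fun x => |G x| := fun x => by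
  refine le_trans (sum_le_sum fun j _ => ?_) (h x)
  rw [← sq_abs, ← sq_abs (G x - _)]
  exact pow_le_pow_left₀ (abs_nonneg _) (abs_abs_sub_abs_le_abs_sub _ _) 2
lemma ts_sum_eq (G : Cube n → ℝ) (x : Cube n) :
    ∑ j, (G x - G (fl x j)) ^ 2 = 4 * nrm (grad G x) ^ 2 := by
  rw [nrm_sq', mul_sum]
  refine sum_congr rfl fun j _ => ?_
  rw [fl_eq G x j]; linear_combination (4 * grad G x j ^ 2) * sv_mul_self x j
lemma ts_grad (h : ∀ x, nrm (grad G x) ≤ a) : TS (4 * a ^ 2) G := fun x => by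
  rw [ts_sum_eq]
  exact mul_le_mul_of_nonneg_left (pow_le_pow_left₀ (nrm_nonneg _) (h x) 2) (by norm_num)

lemma exc_eq {η : ℝ} (hη : 0 ≤ η) (t : ℝ) : max (|t| - η) 0 ^ 2 = pq (t - η) + pq (-t - η) := by
  unfold pq
  rcases le_total 0 t with h | h
  · rw [abs_of_nonneg h, max_eq_right (by linarith : -t - η ≤ 0)]; ring
  · rw [abs_of_nonpos h, max_eq_right (by linarith : t - η ≤ 0)]; ring

/-- the regularised excess is two-sided Lipschitz -/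
lemma ts_exc {η δ L ρ : ℝ} (hη : 0 ≤ η) (hρ : 0 < ρ) {z : VF n} (h1 : ∀ x, opn (dM z x) ≤ δ)
    (h2 : ∀ x, fro (dM z x) ≤ L) :
    TS (32 * δ ^ 2 + 128 * δ ^ 2 * L ^ 2 / ρ) fun x => √(exc η (z x) + ρ) := fun x => by
  obtain ⟨ψ, hψ⟩ : ∃ ψ : Fin n → ℝ, ∀ k, ψ k = 2 * max (z x k - η) 0 - 2 * max (-z x k - η) 0 :=
    ⟨_, fun _ => rfl⟩
  have p0 := exc_nonneg η (z x)
  have hF : 0 < exc η (z x) + ρ := by linarith
  have p1 : nrm ψ ^ 2 ≤ 4 * exc η (z x) := by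
    rw [nrm_sq', exc, mul_sum]
    refine sum_le_sum fun k _ => ?_
    rw [exc_eq hη, hψ]; unfold pq
    nlinarith [mul_nonneg (le_max_right (z x k - η) 0) (le_max_right (-z x k - η) 0)]
  have p2 : ∀ j, (√(exc η (z x) + ρ) - √(exc η (z (fl x j)) + ρ)) ^ 2 ≤
      8 / (exc η (z x) + ρ) * ((dM z x)ᵀ *ᵥ ψ) j ^ 2 +
        128 * δ ^ 2 / ρ * ∑ k, dM z x k j ^ 2 := fun j => by
    have e1 : ∀ k, z (fl x j) k - z x k = -2 * sv x j * dM z x k j := fun k => by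
      have := fl_eq (fun y => z y k) x j
      simp only [dM, of_apply]; linarith
    obtain ⟨q, hq⟩ : ∃ q, q = ∑ k, dM z x k j ^ 2 := ⟨_, rfl⟩
    obtain ⟨t, ht⟩ : ∃ t, t = ((dM z x)ᵀ *ᵥ ψ) j := ⟨_, rfl⟩
    have q0 : 0 ≤ q := hq ▸ sum_nonneg fun _ _ => sq_nonneg _
    have q1 : q ≤ δ ^ 2 := hq ▸ (col_le _ j).trans (pow_le_pow_left₀ (opn_nonneg _) (h1 x) 2)
    obtain ⟨r, r0, r1, hr⟩ : ∃ r, 0 ≤ r ∧ r ≤ 8 * q ∧
        exc η (z (fl x j)) - exc η (z x) = -2 * sv x j * t + r := by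
      refine ⟨∑ k, (max (|z (fl x j) k| - η) 0 ^ 2 - max (|z x k| - η) 0 ^ 2 -
        ψ k * (z (fl x j) k - z x k)), sum_nonneg fun k _ => ?_, ?_, ?_⟩
      · rw [exc_eq hη, exc_eq hη, hψ]
        nlinarith [(pq_taylor (z x k - η) (z (fl x j) k - η)).1,
          (pq_taylor (-z x k - η) (-z (fl x j) k - η)).1]
      · rw [hq, mul_sum]
        refine sum_le_sum fun k _ => ?_
        have e3 : (z (fl x j) k - z x k) ^ 2 = 4 * dM z x k j ^ 2 := by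
          rw [e1]; linear_combination (4 * dM z x k j ^ 2) * sv_mul_self x j
        rw [exc_eq hη, exc_eq hη, hψ]
        nlinarith [(pq_taylor (z x k - η) (z (fl x j) k - η)).2,
          (pq_taylor (-z x k - η) (-z (fl x j) k - η)).2]
      · simp only [exc, sum_sub_distrib, ht, mulVec, dotProduct, transpose_apply, e1, mul_sum]
        have : ∑ k, ψ k * (-2 * sv x j * dM z x k j) = ∑ k, -2 * sv x j * (dM z x k j * ψ k) :=
          sum_congr rfl fun k _ => by ring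
        rw [this]; ring
    rw [← hq, ← ht]
    have p0' := exc_nonneg η (z (fl x j))
    obtain ⟨u, hu⟩ : ∃ u, u = √(exc η (z x) + ρ) := ⟨_, rfl⟩
    obtain ⟨v, hv⟩ : ∃ v, v = √(exc η (z (fl x j)) + ρ) := ⟨_, rfl⟩
    have u0 : 0 < u := hu ▸ Real.sqrt_pos.2 hF
    have v0 : 0 ≤ v := hv ▸ Real.sqrt_nonneg _
    have u2 : u ^ 2 = exc η (z x) + ρ := hu ▸ Real.sq_sqrt hF.le
    have v2 : v ^ 2 = exc η (z (fl x j)) + ρ := hv ▸ Real.sq_sqrt (by linarith)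
    rw [← hu, ← hv, ← u2]
    have k1 : (u - v) ^ 2 * u ^ 2 ≤ 8 * t ^ 2 + 2 * r ^ 2 := by
      have k2 : ((u - v) * (u + v)) ^ 2 = (-2 * sv x j * t + r) ^ 2 := by
        rw [← hr]; have : (u - v) * (u + v) = -(v ^ 2 - u ^ 2) := by ring
        rw [this, u2, v2]; ring
      have k3 : (-2 * sv x j * t) ^ 2 = 4 * t ^ 2 := by
        linear_combination (4 * t ^ 2) * sv_mul_self x j
      have k4 : (u - v) ^ 2 * u ^ 2 ≤ (u - v) ^ 2 * (u + v) ^ 2 :=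
        mul_le_mul_of_nonneg_left (pow_le_pow_left₀ u0.le (by linarith) 2) (sq_nonneg _)
      nlinarith [sq_nonneg (-2 * sv x j * t - r)]
    have k5 : 2 * r ^ 2 ≤ 128 * δ ^ 2 / ρ * q * u ^ 2 := by
      have k6 : r ^ 2 ≤ 64 * δ ^ 2 * q := by nlinarith [pow_le_pow_left₀ r0 r1 2]
      have k7 : 128 * δ ^ 2 / ρ * q * ρ ≤ 128 * δ ^ 2 / ρ * q * u ^ 2 :=
        mul_le_mul_of_nonneg_left (by linarith) (by positivity)
      have k8 : 128 * δ ^ 2 / ρ * q * ρ = 128 * δ ^ 2 * q := by field_simp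
      linarith
    refine le_of_mul_le_mul_right ?_ (pow_pos u0 2)
    have k9 : 8 / u ^ 2 * t ^ 2 * u ^ 2 = 8 * t ^ 2 := by field_simp
    rw [add_mul, k9]; linarith
  refine (sum_le_sum fun j _ => p2 j).trans ?_
  rw [sum_add_distrib, ← mul_sum, ← mul_sum, ← nrm_sq', sum_comm, ← fro_sq]
  have p3 := nrm_mulVec_le (dM z x)ᵀ ψ
  rw [opn_transpose] at p3
  have p4 := pow_le_pow_left₀ (nrm_nonneg _) p3 2
  have p5 := mul_le_mul (pow_le_pow_left₀ (opn_nonneg _) (h1 x) 2) p1 (sq_nonneg _) (sq_nonneg _)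
  refine add_le_add ?_ ?_
  · rw [div_mul_eq_mul_div, div_le_iff₀ hF]
    nlinarith [mul_nonneg (sq_nonneg δ) hρ.le]
  · rw [div_mul_eq_mul_div]
    exact div_le_div_of_nonneg_right (mul_le_mul_of_nonneg_left
      (pow_le_pow_left₀ (fro_nonneg _) (h2 x) 2) (by positivity)) hρ.le

/-! ### the excess -/

variable {B B' : ℝ}

lemma ex_mono (h : Exc μ a B g) (hg : ∀ x, g' x ≤ g x) (ha : a ≤ b) (hB : B ≤ B') : Exc μ b B' g' :=
  let ⟨G, h1, h2, h3, h4⟩ := h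
  ⟨G, fun x => (hg x).trans (h1 x), h2, ts_mono h3 ha, h4.trans hB⟩

lemma ex_add (hμ : ∀ x, 0 < μ x) (h : Exc μ a B g) (h' : Exc μ b B' g') :
    Exc μ (2 * a + 2 * b) (2 * B + 2 * B') fun x => g x + g' x := by
  obtain ⟨G, h1, h2, h3, h4⟩ := h
  obtain ⟨G', k1, k2, k3, k4⟩ := h'
  refine ⟨fun x => G x + G' x, fun x => add_le_add (h1 x) (k1 x),
    fun x => add_nonneg (h2 x) (k2 x), ts_add h3 k3, ?_⟩
  have := (isP_prob' hμ).mean_mono (f := fun x => (G x + G' x) ^ 2)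
    (g := fun x => 2 * G x ^ 2 + 2 * G' x ^ 2) fun x => by nlinarith [sq_nonneg (G x - G' x)]
  rw [mean_add', mean_mul', mean_mul'] at this
  exact this.trans (add_le_add (mul_le_mul_of_nonneg_left h4 zero_le_two)
    (mul_le_mul_of_nonneg_left k4 zero_le_two))

lemma ex_smul (hc : 0 ≤ c) (h : Exc μ a B g) : Exc μ (c ^ 2 * a) (c ^ 2 * B) fun x => c * g x := by
  obtain ⟨G, h1, h2, h3, h4⟩ := h
  refine ⟨fun x => c * G x, fun x => mul_le_mul_of_nonneg_left (h1 x) hc,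
    fun x => mul_nonneg hc (h2 x), ts_smul c h3, ?_⟩
  simp only [mul_pow]
  exact (mean_mul' (ν := prob μ) _ _).trans_le (mul_le_mul_of_nonneg_left h4 (sq_nonneg c))

lemma ex_abs (h : TS a G) (hB : mean (prob μ) (fun x => G x ^ 2) ≤ B) : Exc μ a B fun x => |G x| :=
  ⟨fun x => |G x|, fun _ => le_rfl, fun _ => abs_nonneg _, ts_abs h, by
    simp only [sq_abs]; exact hB⟩

lemma ex_const (hμ : ∀ x, 0 < μ x) (c : ℝ) : Exc μ 0 (c ^ 2) fun _ => c :=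
  ex_mono (ex_abs (ts_const c) ((isP_prob' hμ).mean_const _).le) (fun _ => le_abs_self _) le_rfl
    le_rfl

lemma ex_sum (hμ : ∀ x, 0 < μ x) (ha : 0 ≤ a) (hB : 0 ≤ B) {σ : Type*} (t : Finset σ)
    {g : σ → Cube n → ℝ} (h : ∀ p, Exc μ a B (g p)) :
    Exc μ (4 ^ t.card * a) (4 ^ t.card * B) fun x => ∑ p ∈ t, g p x := by
  classical
  induction t using Finset.induction_on with
  | empty => exact ex_mono (ex_const hμ 0) (fun x => by simp) (by simpa) (by simpa)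
  | insert p t hp ih =>
    have h4 : (1 : ℝ) ≤ 4 ^ t.card := one_le_pow₀ (by norm_num)
    refine ex_mono (ex_add hμ (h p) ih) (fun x => (sum_insert hp).le) ?_ ?_ <;>
      rw [card_insert_of_notMem hp, pow_succ] <;> nlinarith

lemma ex_mean (hμ : ∀ x, 0 < μ x) (h : Exc μ a B g) (h0 : ∀ x, 0 ≤ g x) :
    mean (prob μ) (fun x => g x ^ 2) ≤ B :=
  let ⟨_, h1, _, _, h4⟩ := h
  ((isP_prob' hμ).mean_mono fun x => pow_le_pow_left₀ (h0 x) (h1 x) 2).trans h4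

lemma HB.ex {K : ℝ} (hb : HB μ K) (h : Exc μ a B g) (h0 : ∀ x, 0 ≤ g x) {ν : Cube n → ℝ}
    (hν : IsP ν) : mean ν (fun x => g x ^ 2) ≤ 2 * B + K * a * (kl ν (prob μ) + 1) :=
  let ⟨G, h1, h2, h3, h4⟩ := h
  (hν.mean_mono fun x => pow_le_pow_left₀ (h0 x) (h1 x) 2).trans ((hb.sq G a ν h2 h3 hν).trans
    (add_le_add (mul_le_mul_of_nonneg_left h4 zero_le_two) le_rfl))

lemma rg_iff {e L : ℝ} (hL : 0 ≤ L) {u : VF n} : S3.Rg e L u ↔ Bd e u ∧ Bd2 L u := by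
  refine ⟨fun h => ⟨fun x => ⟨fun k => (norm_le_pi_norm (u x) k).trans (h x).1, (h x).2.1⟩,
    fun x => ⟨(h x).2.2.1, fro_le_of_sq hL (h x).2.2.2⟩⟩, fun h x => ⟨?_, (h.1 x).2, (h.2 x).1, ?_⟩⟩
  · exact (pi_norm_le_iff_of_nonneg ((opn_nonneg _).trans (h.1 x).2)).2 (h.1 x).1
  · exact (fro_sq (dM u x)).symm.trans_le (pow_le_pow_left₀ (fro_nonneg _) (h.2 x).2 2)

end inst

/-- **(REG), first half, one instance** -/
theorem reg1_inst (A K : ℝ) (P : ℕ) (hA : 1 ≤ A) (hK : 0 ≤ K) : ∃ c : ℝ, 1 ≤ c ∧ ∀ e : ℝ, 0 < e →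
    e ≤ 1 → ∃ η > (0 : ℝ), ∀ (n : ℕ) (d : BP n P) (μ : Cube n → ℝ) (w : Fin n → ℝ), d.Ok A →
    HB μ K → (∀ k, |w k| ≤ η) → ∃ vt : Fin P → VF n, (∀ l, Bd e (vt l) ∧ Bd2 (c * nrm w) (vt l)) ∧
      ∀ (v : Fin P → VF n) (m : ℝ), (∀ l, v l = d.Z w v l) → (∀ l, nrm (meanV μ (v l)) ≤ m) →
        ∀ l, Exc μ (c * e) (c * (m ^ 2 + e * nrm w ^ 2 + 1)) fun x => nrm (v l x - vt l x) := by
  obtain ⟨B, hB⟩ : ∃ B, B = (16 * A ^ 4) ^ P := ⟨_, rfl⟩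
  obtain ⟨c0, hc0⟩ : ∃ c0, c0 = 2 * (1 + 32 * A ^ 8 * A) ^ P := ⟨_, rfl⟩
  have B1 : 1 ≤ B := hB ▸ one_le_pow₀ (BP.one_le_B hA)
  have A0 : 0 ≤ A := zero_le_one.trans hA
  have c1 : 1 ≤ c0 := by
    have : (1 : ℝ) ≤ (1 + 32 * A ^ 8 * A) ^ P := one_le_pow₀ (le_add_of_nonneg_right (by positivity))
    linarith
  have hE := BP.cE_nonneg A0 hK P
  have k0 : 0 ≤ c0 ^ 2 * 4 ^ P := by positivity
  refine ⟨B + c0 ^ 2 * 4 ^ P * (160 + BP.cE A K P + B ^ 2), le_add_of_le_of_nonneg B1 (by positivity),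
    fun e e0 e1 => ?_⟩
  have hM : 1 ≤ e⁻¹ := one_le_inv_iff₀.2 ⟨e0, e1⟩
  have hη : 0 < e / (32 * A ^ 4 * e⁻¹) ^ P := by positivity
  refine ⟨_, hη, fun n d μ w h hb hw => ?_⟩
  have hs : BP.sz A e⁻¹ (e / (32 * A ^ 4 * e⁻¹) ^ P) P = e := by
    unfold BP.sz; field_simp
  obtain ⟨vt, c⟩ := BP.exists_clip h e⁻¹ (e / (32 * A ^ 4 * e⁻¹) ^ P) w
  refine ⟨vt, fun l => ⟨hs ▸ c.bd h hM hη hw l, (c.bd2 h hM hη l).2.mono ?_⟩, fun v m hv hm l => ?_⟩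
  · rw [← hB]
    exact mul_le_mul_of_nonneg_right (le_add_of_nonneg_right (by positivity)) (nrm_nonneg _)
  have hρ : 0 < e * (B * nrm w) ^ 2 + 1 := by positivity
  have hQ : 0 ≤ m ^ 2 + e * nrm w ^ 2 + 1 := by positivity
  have h1 : ∀ p, Exc μ (160 * e) ((BP.cE A K P + B ^ 2) * (m ^ 2 + e * nrm w ^ 2 + 1)) fun x =>
      |√(exc (BP.thr A e⁻¹ (e / (32 * A ^ 4 * e⁻¹) ^ P) p) (d.Z w vt p x) +
        (e * (B * nrm w) ^ 2 + 1))| := fun p => by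
    refine ex_abs (ts_mono (ts_exc (δ := e) (L := B * nrm w) (BP.thr_pos hA hM hη p).le hρ
      (fun x => ((c.opn_Z h hM hη hw p x).trans (BP.B_sz_le hA hM hη p)).trans_eq hs)
      fun x => hB ▸ ((c.bd2 h hM hη p).1 x).2) ?_) ?_
    · have : 128 * e ^ 2 * (B * nrm w) ^ 2 / (e * (B * nrm w) ^ 2 + 1) ≤ 128 * e := by
        rw [div_le_iff₀ hρ]; nlinarith
      nlinarith
    · have h2 := c.mean_exc h hM hη hw hv hb hm p
      rw [hs] at h2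
      have h3 : (nrm w ^ 2 + e ^ 2) / e⁻¹ ^ 2 ≤ e * nrm w ^ 2 + 1 := by
        rw [inv_pow, div_inv_eq_mul]
        have h5 : e ^ 2 ≤ e := by nlinarith
        have h6 := mul_le_mul_of_nonneg_left h5 (sq_nonneg (nrm w))
        nlinarith
      have h4 : mean (prob μ) (fun x => √(exc (BP.thr A e⁻¹ (e / (32 * A ^ 4 * e⁻¹) ^ P) p)
          (d.Z w vt p x) + (e * (B * nrm w) ^ 2 + 1)) ^ 2) = mean (prob μ) (fun x =>
          exc (BP.thr A e⁻¹ (e / (32 * A ^ 4 * e⁻¹) ^ P) p) (d.Z w vt p x)) +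
            (e * (B * nrm w) ^ 2 + 1) := by
        simp only [Real.sq_sqrt (add_nonneg (exc_nonneg _ _) hρ.le)]
        rw [mean_add', (isP_prob' hb.pos).mean_const]
      rw [h4]
      have h7 := mul_le_mul_of_nonneg_left (add_le_add (le_refl (m ^ 2)) h3) hE
      have h8 : 1 ≤ B ^ 2 := one_le_pow₀ B1
      nlinarith [mul_nonneg (sq_nonneg B) (sq_nonneg m)]
  have h2 := ex_smul (zero_le_one.trans c1) (ex_sum hb.pos (by positivity) (by positivity) univ h1)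
  rw [card_univ, Fintype.card_fin] at h2
  refine ex_mono h2 (fun x => ?_) ?_ ?_
  · have h3 := c.err_le h hM hη hv l x
    have h4 : ∑ p, exc (BP.thr A e⁻¹ (e / (32 * A ^ 4 * e⁻¹) ^ P) p) (d.Z w vt p x) ≤
        (∑ p, |√(exc (BP.thr A e⁻¹ (e / (32 * A ^ 4 * e⁻¹) ^ P) p) (d.Z w vt p x) +
          (e * (B * nrm w) ^ 2 + 1))|) ^ 2 := by
      refine le_trans (sum_le_sum fun p _ => ?_) (sum_sq_le_sq_sum_of_nonneg fun _ _ => abs_nonneg _)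
      rw [sq_abs, Real.sq_sqrt (add_nonneg (exc_nonneg _ _) hρ.le)]
      linarith
    refine (pow_le_pow_iff_left₀ (nrm_nonneg _) (mul_nonneg (zero_le_one.trans c1)
      (sum_nonneg fun _ _ => abs_nonneg _)) two_ne_zero).1 (h3.trans ?_)
    rw [← mul_assoc, mul_comm _ 2, ← hc0, mul_pow c0]
    exact mul_le_mul (by nlinarith) h4 (sum_nonneg fun _ _ => exc_nonneg _ _) (sq_nonneg _)
  · have := mul_nonneg (mul_nonneg k0 (add_nonneg hE (sq_nonneg B))) e0.le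
    have := mul_nonneg (zero_le_one.trans B1) e0.le
    nlinarith
  · have := mul_nonneg k0 hQ
    have := mul_nonneg (zero_le_one.trans B1) hQ
    nlinarith

variable {F : Fam}

lemma w_pos (i : F.I) (x : Cube (F.n i)) : 0 < F.w i x := Real.exp_pos _
lemma isP_w (i : F.I) : IsP (prob (F.w i)) := isP_prob' (w_pos i)
lemma H_nonneg (i : F.I) {ν : Cube (F.n i) → ℝ} (hν : IsP ν) : 0 ≤ F.H i ν :=
  Ent.kl_nonneg hν (isP_w i) fun x h => absurd h (div_pos (w_pos i x)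
    (sum_pos (fun y _ => w_pos i y) univ_nonempty)).ne'

theorem hb_of (hH : HBStmt) (hF : F.Ok) : ∃ K : ℝ, ∀ i, HB (F.w i) K := by
  obtain ⟨K0, κ, hκ, hA⟩ := hF.hAT
  obtain ⟨C, c, hc, h⟩ := hH K0 κ 0 hκ
  have C0 := abs_nonneg C
  have C1 := le_abs_self C
  have hc' : 0 ≤ 16 * |C| / c := by positivity
  refine ⟨5 * |C| + 16 * |C| / c, fun i => ?_⟩
  obtain ⟨h1, h2, -⟩ := h _ _ (w_pos i) (hA i)
  have hp := isP_w i
  have x0 := (Real.exp_pos (-(c * F.n i))).le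
  have x1 : Real.exp (-(c * F.n i)) ≤ 1 := Real.exp_le_one_iff.2 (by
    have : 0 ≤ c * F.n i := by positivity
    linarith)
  refine ⟨w_pos i, by positivity, fun u δ h hδ hh => ?_, fun G A hA => ?_,
    fun G A ν h0 hG hν => ?_⟩
  · have k1 : ∀ k x, nrm (grad (fun y => u y k) x) ^ 2 = ∑ j, dM u x k j ^ 2 := fun k x =>
      nrm_sq' _
    have k2 : ∀ k, mean (prob (F.w i)) (fun x => (u x k - meanV (F.w i) u k) ^ 4) ≤
        |C| * (4 * δ ^ 2) * mean (prob (F.w i)) (fun x => ∑ j, dM u x k j ^ 2) +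
          |C| * (4 * δ ^ 2) ^ 2 * Real.exp (-(c * F.n i)) := fun k => by
      have := (h2 (fun y => u y k) (4 * δ ^ 2) fun x => by
        refine (ts_sum_eq (fun y => u y k) x).trans_le ?_
        rw [k1]
        exact mul_le_mul_of_nonneg_left ((row_le _ k).trans
          (pow_le_pow_left₀ (opn_nonneg _) (hδ x) 2)) (by norm_num)).2
      simp only [← nrm_sq, k1] at this
      have k3 := hp.mean_nonneg (f := fun x => ∑ j, dM u x k j ^ 2)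
        fun x => sum_nonneg fun _ _ => sq_nonneg _
      refine this.trans (add_le_add ?_ ?_)
      · exact mul_le_mul_of_nonneg_right (mul_le_mul_of_nonneg_right C1 (by positivity)) k3
      · exact mul_le_mul_of_nonneg_right (mul_le_mul_of_nonneg_right C1 (by positivity)) x0
    rw [mean_sum']
    refine (sum_le_sum fun k _ => k2 k).trans ?_
    rw [sum_add_distrib, ← mul_sum, ← mean_sum', sum_const, card_univ, Fintype.card_fin,
      nsmul_eq_mul]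
    have k4 := (hp.mean_mono (f := fun x => ∑ k, ∑ j, dM u x k j ^ 2) (g := fun _ => h ^ 2)
      fun x => (fro_sq _).symm.trans_le (pow_le_pow_left₀ (fro_nonneg _) (hh x) 2)).trans_eq
      (hp.mean_const _)
    have k5 : (F.n i : ℝ) * Real.exp (-(c * F.n i)) ≤ 1 / c := by
      rw [le_div_iff₀ hc, Real.exp_neg, mul_right_comm, ← div_eq_mul_inv,
        div_le_one (Real.exp_pos _), mul_comm]
      linarith [Real.add_one_le_exp (c * F.n i)]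
    have k6 := mul_le_mul_of_nonneg_left k4 (by positivity : 0 ≤ |C| * (4 * δ ^ 2))
    have k7 := mul_le_mul_of_nonneg_left k5 (by positivity : 0 ≤ |C| * (4 * δ ^ 2) ^ 2)
    have k8 : |C| * (4 * δ ^ 2) ^ 2 * (1 / c) = 16 * |C| / c * δ ^ 2 * δ ^ 2 := by ring
    have k9 : 0 ≤ |C| * δ ^ 2 * h ^ 2 := by positivity
    have k10 : 0 ≤ |C| * δ ^ 2 * δ ^ 2 := by positivity
    have k11 : 0 ≤ 16 * |C| / c * δ ^ 2 * h ^ 2 := by positivity
    nlinarith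
  · have := (h2 G _ (ts_grad hA)).1
    simp only [← nrm_sq] at this
    have k1 := (hp.mean_mono (f := fun x => nrm (grad G x) ^ 2) (g := fun _ => A ^ 2)
      fun x => pow_le_pow_left₀ (nrm_nonneg _) (hA x) 2).trans_eq (hp.mean_const _)
    have k2 := hp.mean_nonneg (f := fun x => nrm (grad G x) ^ 2) fun x => sq_nonneg _
    have k3 := mul_le_mul C1 k1 k2 C0
    have k4 := mul_le_mul (mul_le_mul_of_nonneg_right C1 (by positivity : 0 ≤ 4 * A ^ 2)) x1 x0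
      (by positivity)
    have k5 := mul_nonneg hc' (sq_nonneg A)
    refine le_trans this (le_trans (add_le_add k3 k4) ?_)
    nlinarith
  · have k1 := h1 G A h0 (fun x => le_trans (sum_le_sum fun j _ => ?_) (hG x)) ν hν
    · have k2 := mean_sq hp G
      have k3 : 0 ≤ A * (kl ν (prob (F.w i)) + 1) :=
        mul_nonneg (ts_nonneg hG) (add_nonneg (H_nonneg i hν) zero_le_one)
      have k4 := mul_le_mul_of_nonneg_right C1 k3
      have k5 := mul_nonneg C0 k3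
      have k6 := mul_nonneg hc' k3
      refine k1.trans (add_le_add (mul_le_mul_of_nonneg_left k2 zero_le_two) ?_)
      nlinarith
    · rw [← sq_abs (G x - _)]
      exact pow_le_pow_left₀ (le_max_right _ _) (max_le (le_abs_self _) (abs_nonneg _)) 2

end Crest.Agent.T157.S3.Rg

end
end

-- ▼ part T157/S3RgD_78
section

/-!
# Row 157, part B, block S3 (helper78): means of the weights, `REG1Glue`
-/

set_option autoImplicit false
set_option linter.unusedSectionVars false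

noncomputable section

namespace Crest.Agent.T157.S3.Rg

open Matrix Finset Filter
open Crest.Agent.T157.E (Cube sv prob meanV)
open Crest.Agent.T157.Eig Crest.Agent.T157.Rec
open Crest.Agent.T157.Chain22 (mean IsP isP_prob')
open Crest.Agent.T157.S3W (Cx)
open Fam

lemma fin_bd {σ : Type*} [Fintype σ] {Q : σ → ℝ → Prop} (mono : ∀ a C C', C ≤ C' → Q a C → Q a C')
    (h : ∀ a, ∃ C, Q a C) : ∃ C, 1 ≤ C ∧ ∀ a, Q a C := by
  choose C hC using h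
  refine ⟨1 + ∑ a, |C a|, le_add_of_nonneg_right (sum_nonneg fun _ _ => abs_nonneg _),
    fun a => mono a _ _ ?_ (hC a)⟩
  have := single_le_sum (f := fun a => |C a|) (fun _ _ => abs_nonneg _) (mem_univ a)
  linarith [le_abs_self (C a)]

lemma dot_meanV {n : ℕ} (μ : Cube n → ℝ) (z : Fin n → ℝ) (u : VF n) :
    z ⬝ᵥ meanV μ u = mean (prob μ) fun x => z ⬝ᵥ u x := by
  simp only [dotProduct]
  rw [mean_sum']
  exact sum_congr rfl fun k _ => (mean_mul' (ν := prob μ) (z k) fun x => u x k).symm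

lemma nrm_le_norm {n : ℕ} (w : Fin n → ℝ) : nrm w ≤ ‖w‖ * √n := by
  simpa using nrm_le_sqrt (norm_nonneg w) fun i => norm_le_pi_norm w i

lemma sp_ind {Ω : Type*} {c : Cx Ω} {P : (Ω → ℝ) → Prop} {Q : c.MF → Prop}
    (word : ∀ σ d l, P σ → c.BL d → c.Lt l → Q fun ω => σ ω • (diagonal (d ω) * c.vk l ω))
    (add : ∀ A B, Q A → Q B → Q fun ω => A ω + B ω) {A : c.MF} (h : c.Sp P A) : Q A := by
  induction h with
  | word h1 h2 h3 => exact word _ _ _ h1 h2 h3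
  | add _ _ h1 h2 => exact add _ _ h1 h2

lemma sv_ind {Ω : Type*} {c : Cx Ω} {P : (Ω → ℝ) → Prop} {Q : c.VF → Prop}
    (term : ∀ σ d, P σ → c.BL d → Q fun ω => σ ω • d ω)
    (add : ∀ A B, Q A → Q B → Q fun ω => A ω + B ω) {A : c.VF} (h : c.Sv P A) : Q A := by
  induction h with
  | term h1 h2 => exact term _ _ h1 h2
  | add _ _ h1 h2 => exact add _ _ h1 h2

variable {F : Fam} {N P : ℕ} {R : Net F N} {𝒯 : Set F.Df} {Φ : Flow R P}

lemma sqrt_n_pos (hF : F.Ok) (i : F.I) : 0 < √(F.n i : ℝ) :=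
  Real.sqrt_pos.2 (Nat.cast_pos.2 (hF.pos i))
lemma one_le_sqrt_K (hF : F.Ok) (i : F.I) : 1 ≤ √(F.K i) := Real.one_le_sqrt.2 (hF.K1 i)

lemma Pi_nonneg (D : List F.Df) (i : F.I) (w : V (F.n i)) : 0 ≤ Fam.Pi D i w :=
  div_nonneg (List.sum_nonneg fun x hx => by
    obtain ⟨d, -, rfl⟩ := List.mem_map.1 hx; exact abs_nonneg _) (Real.sqrt_nonneg _)
lemma Pi_append (D D' : List F.Df) (i : F.I) (w : V (F.n i)) :
    Fam.Pi (D ++ D') i w = Fam.Pi D i w + Fam.Pi D' i w := by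
  simp only [Fam.Pi, List.map_append, List.sum_append, add_div]

lemma zero_mem (hR : R.Ok) : 0 ∈ R.C := by simpa using hR.smul 0 1 hR.one

lemma bd_ev (hJ : J1Stmt) (hF : F.Ok) (hR : R.Ok) {g : F.Lf (N + 1)} (hg : g ∈ R.C) :
    ∃ A, ∀ i, Bd A fun x => R.ev g ⟨i, x⟩ := by
  obtain ⟨-, -, h1, h2, -⟩ := hJ F N R hF hR
  obtain ⟨C, hC⟩ := hR.bd g hg
  obtain ⟨C', hC'⟩ := (h2 g (h1 g hg)).1
  exact ⟨max C C', fun i x => ⟨fun k => (hC _ _ _ _).trans (le_max_left _ _),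
    (hC' ⟨i, x⟩).trans (le_max_right _ _)⟩⟩

lemma bd_ev1 (hJ : J1Stmt) (hF : F.Ok) (hR : R.Ok) {g : F.Lf (N + 1)} (hg : g ∈ R.C) :
    ∃ A, 1 ≤ A ∧ ∀ i, Bd A fun x => R.ev g ⟨i, x⟩ :=
  let ⟨A, h⟩ := bd_ev hJ hF hR hg
  ⟨max A 1, le_max_right _ _, fun i => (h i).mono (le_max_left _ _)⟩

/-- the letters of the backpropagation -/
def bp (Φ : Flow R P) (a : Fin P → F.Lf (N + 1)) (i : F.I) : BP (F.n i) P where
  J := F.J i
  a0 l x := R.ev (a l) ⟨i, x⟩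
  a p l x := Φ.av ⟨i, x⟩ p l
  ot := Φ.ot i

variable {a : Fin P → F.Lf (N + 1)}

lemma bp_ok (hJ : J1Stmt) (hF : F.Ok) (hR : R.Ok) (hΦ : Φ.Ok) (ha : ∀ m, a m ∈ R.C) :
    ∃ A, 1 ≤ A ∧ ∀ i, (bp Φ a i).Ok A := by
  have hc := (hJ F N R hF hR).1
  obtain ⟨A1, -, h1⟩ := fin_bd (Q := fun l A => ∀ i, Bd A fun x => R.ev (a l) ⟨i, x⟩)
    (fun _ _ _ e h i => (h i).mono e) fun l => bd_ev hJ hF hR (ha l)
  obtain ⟨A2, -, h2⟩ := fin_bd (Q := fun (p : Fin P × Fin P) A => ∀ i,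
    Bd A fun x => R.ev (Φ.a p.1 p.2) ⟨i, x⟩) (fun _ _ _ e h i => (h i).mono e)
    fun p => bd_ev hJ hF hR ((hΦ.lt p.1).2.2 p.2)
  obtain ⟨A3, -, h3⟩ := fin_bd (Q := fun (p : Fin P × Fin P) A => ∀ i, |Φ.ot i p.1 p.2| ≤ A)
    (fun _ _ _ e h i => (h i).trans e) fun p => by
      obtain ⟨C, hC⟩ := hc.sc_bd (hc.sc_et ⟨_, (hΦ.lt p.1).2.2 p.2, rfl⟩)
      exact ⟨C, fun i => (isP_w i).abs_mean_le fun x => hC ⟨i, x⟩⟩
  obtain ⟨A4, h4⟩ := Cx.op_J hc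
  refine ⟨max (max (max A1 A2) (max A3 A4)) (max 1 P), by simp, fun i =>
    ⟨by simp, by simp, (h4 ⟨i, default⟩).trans (by simp), fun l => (h1 l i).mono (by simp),
      fun p l => (h2 (p, l) i).mono (by simp), fun p l => (h3 (p, l) i).trans (by simp),
      fun p l h => ⟨?_, ?_⟩⟩⟩
  · funext x; simp only [bp, Flow.av, hΦ.tri p l h]; rfl
  · simp only [bp, Flow.ot, hΦ.tri p l h]
    have : ∀ x, Uw.eta (F.s i) (R.ev 0 ⟨i, x⟩) = 0 := fun x => by simp [Uw.eta, Net.ev]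
    simp only [Fam.me, Fam.E, this, E.mean, mul_zero, sum_const_zero]

/-- `v` is the backpropagation of `w` -/
def IsB (Φ : Flow R P) (a : Fin P → F.Lf (N + 1)) (i : F.I) (w : V (F.n i))
    (v : Fin P → VF (F.n i)) : Prop := ∃ u : Fin P → VF (F.n i), ∀ x,
  Back (F.J i) (Φ.av ⟨i, x⟩) (Φ.ot i) (fun l => w * R.ev (a l) ⟨i, x⟩) (fun l => u l x)
    fun l => v l x

lemma IsB.eq {i : F.I} {w : V (F.n i)} {v : Fin P → VF (F.n i)} (h : IsB Φ a i w v) (l : Fin P) :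
    v l = (bp Φ a i).Z w v l := by
  obtain ⟨u, h⟩ := h
  funext x
  have e : ∀ p, (bp Φ a i).U w v p x = u p x := fun p => ((h x p).1).symm
  simp only [BP.Z, e]
  exact (h x l).2

lemma exists_isB (hE : ExStmt) (hΦ : Φ.Ok) (a : Fin P → F.Lf (N + 1)) (i : F.I) (w : V (F.n i)) :
    ∃ v, IsB Φ a i w v := by
  choose u v h using fun x => ((hE F N P R).2.2.2 Φ hΦ ⟨i, x⟩).1 fun l => w * R.ev (a l) ⟨i, x⟩
  exact ⟨fun l x => v x l, fun l x => u x l, h⟩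

/-! ### small bilinear functionals -/

/-- the bound of (BIL) -/
def bb (e C : ℝ) (D : List F.Df) (i : F.I) (w : V (F.n i)) : ℝ :=
  e * nrm w + C * √(F.K i) * ‖w‖ + C * Fam.Pi D i w

lemma bb_nonneg {e C : ℝ} (he : 0 ≤ e) (hC : 0 ≤ C) (D : List F.Df) (i : F.I) (w : V (F.n i)) :
    0 ≤ bb e C D i w := by
  have := Pi_nonneg D i w
  have := nrm_nonneg w
  unfold bb; positivity

lemma bb_sq (hF : F.Ok) {e C : ℝ} (D : List F.Df) (i : F.I) {w : V (F.n i)} (hw : ‖w‖ ≤ 1) :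
    bb e C D i w ^ 2 ≤ 3 * e ^ 2 * nrm w ^ 2 + 3 * C ^ 2 * F.K i + 3 * C ^ 2 * Fam.Pi D i w ^ 2 := by
  have h0 : 0 ≤ F.K i := zero_le_one.trans (hF.K1 i)
  have h1 : (C * √(F.K i) * ‖w‖) ^ 2 ≤ C ^ 2 * F.K i := by
    rw [mul_pow, mul_pow, Real.sq_sqrt h0]
    exact mul_le_of_le_one_right (by positivity) (pow_le_one₀ (norm_nonneg _) hw)
  unfold bb
  nlinarith [sq_nonneg (e * nrm w - C * √(F.K i) * ‖w‖), sq_nonneg (e * nrm w - C * Fam.Pi D i w),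
    sq_nonneg (C * √(F.K i) * ‖w‖ - C * Fam.Pi D i w)]

/-- functionals which obey the bound of (BIL) -/
def BF (𝒯 : Set F.Df) (β : ∀ i, V (F.n i) → V (F.n i) → ℝ) : Prop := ∀ e > (0 : ℝ),
  ∃ D : List F.Df, (∀ d ∈ D, d ∈ 𝒯) ∧ ∃ C : ℝ, 0 ≤ C ∧ ∀ᶠ i in F.l, ∀ z w : V (F.n i),
    |β i z w| ≤ nrm z * bb e C D i w

variable {β β' : ∀ i, V (F.n i) → V (F.n i) → ℝ}

lemma BF.of_le (h : BF 𝒯 β) (e : ∀ i z w, |β' i z w| ≤ |β i z w|) : BF 𝒯 β' := fun ε hε =>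
  let ⟨D, h1, C, h2, h3⟩ := h ε hε
  ⟨D, h1, C, h2, h3.mono fun i h z w => (e i z w).trans (h z w)⟩

lemma BF.congr (h : BF 𝒯 β) (e : ∀ i z w, β' i z w = β i z w) : BF 𝒯 β' :=
  h.of_le fun i z w => by rw [e]

lemma bf_zero : BF 𝒯 fun _ _ _ => 0 := fun e he =>
  ⟨[], by simp, 0, le_rfl, .of_forall fun i z w => by
    rw [abs_zero]; exact mul_nonneg (nrm_nonneg _) (bb_nonneg he.le le_rfl _ _ _)⟩

lemma BF.add (h : BF 𝒯 β) (h' : BF 𝒯 β') : BF 𝒯 fun i z w => β i z w + β' i z w := fun e he => by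
  obtain ⟨D, h1, C, h2, h3⟩ := h (e / 2) (by positivity)
  obtain ⟨D', k1, C', k2, k3⟩ := h' (e / 2) (by positivity)
  refine ⟨D ++ D', List.forall_mem_append.2 ⟨h1, k1⟩, C + C', add_nonneg h2 k2,
    (h3.and k3).mono fun i h z w => (abs_add_le _ _).trans
      ((add_le_add (h.1 z w) (h.2 z w)).trans ?_)⟩
  rw [← mul_add]
  refine mul_le_mul_of_nonneg_left ?_ (nrm_nonneg _)
  unfold bb
  rw [Pi_append]
  nlinarith [mul_nonneg h2 (Pi_nonneg D' i w), mul_nonneg k2 (Pi_nonneg D i w)]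

lemma BF.sum {σ : Type*} (t : Finset σ) {β : σ → ∀ i, V (F.n i) → V (F.n i) → ℝ}
    (h : ∀ p, BF 𝒯 (β p)) : BF 𝒯 fun i z w => ∑ p ∈ t, β p i z w := by
  classical
  induction t using Finset.induction_on with
  | empty => exact bf_zero.congr fun _ _ _ => sum_empty
  | insert p t hp ih => exact ((h p).add ih).congr fun _ _ _ => sum_insert hp

/-- the pairing with a matrix -/
def bf (d ρ : F.Vf) (A : F.Mf) (i : F.I) (z w : V (F.n i)) : ℝ :=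
  mean (prob (F.w i)) fun x => (z * d ⟨i, x⟩) ⬝ᵥ (A ⟨i, x⟩)ᵀ *ᵥ (w * ρ ⟨i, x⟩)

lemma bf_add (d ρ : F.Vf) (A B : F.Mf) (i : F.I) (z w : V (F.n i)) :
    bf d ρ (fun ω => A ω + B ω) i z w = bf d ρ A i z w + bf d ρ B i z w := by
  simp only [bf, transpose_add, add_mulVec, dotProduct_add, mean_add']

lemma bf_add' {d ρ : F.Vf} {A B : F.Mf} (h1 : BF 𝒯 (bf d ρ A)) (h2 : BF 𝒯 (bf d ρ B)) :
    BF 𝒯 (bf d ρ fun ω => A ω + B ω) := (h1.add h2).congr (bf_add d ρ A B)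

lemma th_abs (hC : ClsStmt) (hF : F.Ok) {σ : F.Sf} (h : Th σ) : ∃ C, 0 ≤ C ∧ ∀ i,
    (F.n i : ℝ) * mean (prob (F.w i)) (fun x => σ ⟨i, x⟩ ^ 2) ≤ C ^ 2 ∧
    √(F.n i) * mean (prob (F.w i)) (fun x => |σ ⟨i, x⟩|) ≤ C := by
  obtain ⟨C, h⟩ := (hC F hF).2.2.1 σ h
  refine ⟨√C, Real.sqrt_nonneg _, fun i => ?_⟩
  have h1 := h i _ (isP_w i)
  have h0 : (0 : ℝ) < F.n i := Nat.cast_pos.2 (hF.pos i)
  rw [Fam.H, Ent.kl_self, zero_add, mul_one, le_div_iff₀ h0, mul_comm] at h1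
  have h2 := mean_sq (isP_w i) fun x => |σ ⟨i, x⟩|
  simp only [sq_abs] at h2
  refine ⟨h1.trans (by nlinarith [Real.sq_sqrt' (x := C), le_max_left C 0]),
    Real.le_sqrt_of_sq_le ?_⟩
  rw [mul_pow, Real.sq_sqrt h0.le]
  exact (mul_le_mul_of_nonneg_left h2 h0.le).trans h1

variable {d ρ : F.Lf (N + 1)}

lemma bf_tp (hC : ClsStmt) (hJ : J1Stmt) (hF : F.Ok) (hR : R.Ok) (hd : d ∈ R.C) (hρ : ρ ∈ R.C)
    {A : F.Mf} (hA : R.cx.TP A) : BF 𝒯 (bf (R.ev d) (R.ev ρ) A) := by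
  have hc := (hJ F N R hF hR).1
  refine sp_ind (c := R.cx) (Q := fun A => BF 𝒯 (bf (R.ev d) (R.ev ρ) A)) (fun σ d' l h1 h2 h3 => ?_)
    (fun A B h1 h2 => ?_) hA
  swap
  · exact bf_add' (A := A) (B := B) h1 h2
  · obtain ⟨C, C0, hC⟩ := th_abs hC hF h1
    obtain ⟨B, B0, hB⟩ := Cx.nn ((Cx.BdV.op (hc.bl_bd h2)).mul (Cx.op_vu hc h3).1)
    obtain ⟨A1, a1, k1⟩ := bd_ev1 hJ hF hR hd
    obtain ⟨A2, a2, k2⟩ := bd_ev1 hJ hF hR hρ
    refine fun e he => ⟨[], by simp, B * A1 * A2 * C, by positivity, .of_forall fun i z w => ?_⟩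
    have k3 := (abs_mean (isP_w i) _).trans ((isP_w i).mean_mono
      (g := fun x => B * (A1 * nrm z * (A2 * nrm w)) * |σ ⟨i, x⟩|)
      (f := fun x => |(z * R.ev d ⟨i, x⟩) ⬝ᵥ (σ ⟨i, x⟩ • (diagonal (d' ⟨i, x⟩) *
        R.cx.vk l ⟨i, x⟩))ᵀ *ᵥ (w * R.ev ρ ⟨i, x⟩)|) fun x => by
      rw [transpose_smul, smul_mulVec, dotProduct_smul, smul_eq_mul, abs_mul, mul_comm]
      refine mul_le_mul_of_nonneg_right ((abs_bil_le _ _ _).trans ?_) (abs_nonneg _)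
      rw [opn_transpose, mul_comm z, mul_comm w]
      exact mul_le_mul (hB ⟨i, x⟩) (mul_le_mul (nrm_mul_le (by linarith) (k1 i x).1)
        (nrm_mul_le (by linarith) (k2 i x).1) (nrm_nonneg _)
          (mul_nonneg (by linarith) (nrm_nonneg _)))
        (mul_nonneg (nrm_nonneg _) (nrm_nonneg _)) B0)
    rw [mean_mul'] at k3
    refine le_trans k3 ?_
    have k4 := (isP_w i).mean_nonneg (f := fun x => |σ ⟨i, x⟩|) fun x => abs_nonneg _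
    have k5 : nrm w * mean (prob (F.w i)) (fun x => |σ ⟨i, x⟩|) ≤ C * √(F.K i) * ‖w‖ := by
      have k6 := mul_le_mul_of_nonneg_right (nrm_le_norm w) k4
      have k7 := mul_le_mul_of_nonneg_left (hC i).2 (norm_nonneg w)
      have k8 := mul_le_mul_of_nonneg_left (one_le_sqrt_K hF i) (mul_nonneg C0 (norm_nonneg w))
      nlinarith
    have z0 := nrm_nonneg z
    have k9 := mul_le_mul_of_nonneg_left k5 (by positivity : 0 ≤ B * A1 * A2 * nrm z)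
    have k10 := mul_nonneg z0 (mul_nonneg he.le (nrm_nonneg w))
    have k11 := mul_nonneg z0 (mul_nonneg (by positivity : 0 ≤ B * A1 * A2 * C) (Pi_nonneg [] i w))
    unfold bb
    nlinarith

lemma bf_W (hF : F.Ok) (hd : d ∈ R.C) {ρ : F.Vf} (hρ : Bil R 𝒯 ρ) {u : List (F.Lf (N + 1))}
    (hu : ∀ a ∈ u, a ∈ R.C) : BF 𝒯 (bf (R.ev d) ρ (R.W u)) := fun e he => by
  obtain ⟨D, h1, C, h2⟩ := hρ d u.reverse hd (fun a ha => hu a (List.mem_reverse.1 ha)) e he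
  refine ⟨D, h1, |C|, abs_nonneg _, h2.mono fun i h z w => ?_⟩
  have e1 : ∀ x, (R.W u ⟨i, x⟩)ᵀ = R.W u.reverse ⟨i, x⟩ := fun x => by
    simp only [Net.W, (Uw.rev (hF.symm i) _).1, List.map_reverse]
  simp only [bf, e1]
  refine (h z w).trans (mul_le_mul_of_nonneg_left ?_ (nrm_nonneg _))
  have k1 := mul_le_mul_of_nonneg_right (le_abs_self C) (Pi_nonneg D i w)
  have k2 := mul_le_mul_of_nonneg_right (le_abs_self C)
    (by positivity : 0 ≤ √(F.K i) * ‖w‖)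
  unfold bb
  nlinarith

lemma bf_Ws (hF : F.Ok) (hd : d ∈ R.C) {ρ : F.Vf} (hρ : Bil R 𝒯 ρ) :
    ∀ {L : List (List (F.Lf (N + 1)))}, (∀ u ∈ L, ∀ a ∈ u, a ∈ R.C) →
      BF 𝒯 (bf (R.ev d) ρ fun ω => (L.map fun u => R.W u ω).sum)
  | [], _ => bf_zero.congr fun i z w => by simp [bf, mean]
  | u :: L, h => ((bf_W hF hd hρ (h u (by simp))).add
      (bf_Ws hF hd hρ (L := L) fun u hu => h u (by simp [hu]))).congr fun i z w => by
    rw [← bf_add]; simp only [List.map_cons, List.sum_cons]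

/-- the means of the weights -/
theorem mb (hE : ExStmt) (hD : DualStmt) (hC : ClsStmt) (hJ : J1Stmt) (hW : WXStmt) (hF : F.Ok)
    (hR : R.Ok) (hΦ : Φ.Ok) (ha : ∀ m, a m ∈ R.C) (hb : ∀ m, Bil R 𝒯 (R.ev (a m))) (hd : d ∈ R.C)
    (l : Fin P) : ∃ β, BF 𝒯 β ∧ ∀ i w v, IsB Φ a i w v → ∀ z,
      mean (prob (F.w i)) (fun x => (z * R.ev d ⟨i, x⟩) ⬝ᵥ v l x) = β i z w := by
  obtain ⟨Ω, L, h1, h2⟩ := (hW F N P R Φ hF hR hΦ).1
  obtain ⟨Φ', hΦ', e1, e2⟩ := (hE F N P R).1 (fun m => if m = l then 1 else 0) Φ.a (fun m => by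
    refine ⟨?_, ?_, (hΦ.lt m).2.2⟩ <;> split_ifs
    exacts [hR.one, zero_mem hR, by funext i k s ξ; simp [Net.gs, gs],
      by funext i k s ξ; simp [Net.gs, gs]]) hΦ.tri
  refine ⟨fun i z w => ∑ m, bf (R.ev d) (R.ev (a m)) (Ω m l) i z w, BF.sum _ fun m =>
    ((bf_tp hC hJ hF hR hd (ha m) (h1 m l).2).add (bf_Ws hF hd (hb m) (h1 m l).1)).congr
      fun i z w => by rw [← bf_add]; simp only [sub_add_cancel], fun i w v ⟨u, h⟩ z => ?_⟩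
  simp only [bf]
  rw [← mean_sum']
  congr 1; funext x
  have r : RecM (F.J i) (Φ.av ⟨i, x⟩) (Φ.ot i) (fun m => if m = l then 1 else 0)
      (fun m => Φ'.T m ⟨i, x⟩) fun m => Φ'.Y m ⟨i, x⟩ := fun m => by
    refine ⟨?_, ?_⟩
    · simp only [Flow.T, Flow.tT, e1, e2, Net.dg, Flow.av]
      congr 1
      split_ifs
      exacts [diagonal_one, diagonal_zero]
    · have := hΦ'.hY m ⟨i, x⟩
      simp only [Flow.ot, e2] at this ⊢
      exact this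
  have k1 := (hD _ _ _ _ _ _ _ _ (hF.symm i) (h x)).1 _ _ _ r
  have k2 := h2 ⟨i, x⟩ _ _ _ r
  have k3 : ∑ m, (if m = l then (1 : Mx (F.n i)) else 0)ᵀ *ᵥ v m x = v l x := by
    rw [sum_eq_single l (fun m _ hm => by simp [hm]) (by simp)]; simp
  rw [k3] at k1
  simp only [k2, mul_ite, Matrix.mul_one, Matrix.mul_zero, sum_ite_eq', mem_univ, if_true] at k1
  rw [← k1, dotProduct_sum]

lemma E0_mono (hF : F.Ok) {e e' C C' : ℝ} (he : e ≤ e') (hC : C ≤ C') (D : List F.Df) (i : F.I)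
    (w : V (F.n i)) : E0 e C D i w ≤ E0 e' C' D i w :=
  add_le_add (add_le_add (mul_le_mul_of_nonneg_right he (by rw [← nrm_sq]; positivity))
    (mul_le_mul_of_nonneg_right hC (zero_le_one.trans (hF.K1 i))))
    (mul_le_mul_of_nonneg_right hC (sq_nonneg _))

end Rg

open Rg Fam Filter Finset Matrix
open Crest.Agent.T157.E (meanV)
open Crest.Agent.T157.Eig

theorem reg1Glue : REG1Glue := by
  intro hH hE hD hC hJ hW F N P R 𝒯 Φ a hF hR hΦ ha hb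
  obtain ⟨K, hK⟩ := hb_of hH hF
  obtain ⟨A, A1, hA⟩ := bp_ok hJ hF hR hΦ ha
  obtain ⟨c, c1, hc⟩ := reg1_inst A (max K 0) P A1 (le_max_right _ _)
  choose β h1 h2 using mb (d := 1) hE hD hC hJ hW hF hR hΦ ha hb hR.one
  have h3 : BF 𝒯 fun i z w => ∑ l, |β l i z w| :=
    BF.sum _ fun l => (h1 l).of_le fun _ _ _ => (abs_abs _).le
  refine ⟨c, fun e he => ?_⟩
  obtain ⟨ε, ε0, ε1, ε2⟩ : ∃ ε : ℝ, 0 < ε ∧ ε ≤ 1 ∧ 4 * c * ε ≤ e :=
    ⟨min 1 (e / (4 * c)), by positivity, min_le_left _ _, by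
      rw [mul_comm, ← le_div_iff₀ (by positivity)]; exact min_le_right _ _⟩
  obtain ⟨η, η0, hη⟩ := hc ε ε0 ε1
  obtain ⟨D, hD, C, C0, h4⟩ := h3 ε ε0
  refine ⟨min η 1, by positivity, D, hD, c * (3 * C ^ 2 + 1), h4.mono fun i h4 w hw => ?_⟩
  obtain ⟨vt, k1, k2⟩ := hη _ _ _ w (hA i) (by rw [max_eq_left (hK i).K0]; exact hK i)
    fun k => (norm_le_pi_norm w k).trans (hw.trans (min_le_left _ _))
  have c0 : 0 ≤ c := by linarith
  refine ⟨vt, fun l => (rg_iff (mul_nonneg c0 (nrm_nonneg _))).2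
    ⟨(k1 l).1.mono (by nlinarith), (k1 l).2⟩, fun u v h l => ?_⟩
  have hv : IsB Φ a i w v := ⟨u, h⟩
  refine ex_mono (k2 v (bb ε C D i w) hv.eq (fun l => ?_) l) (fun _ => le_rfl) (by nlinarith) ?_
  · have k3 := h2 l i w v hv (meanV (F.w i) (v l))
    have k4 := h4 (meanV (F.w i) (v l)) w
    have k5 := single_le_sum (f := fun m => |β m i (meanV (F.w i) (v l)) w|)
      (fun _ _ => abs_nonneg _) (mem_univ l)
    have k6 : ∀ x, meanV (F.w i) (v l) * R.ev 1 ⟨i, x⟩ = meanV (F.w i) (v l) := fun x => mul_one _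
    simp only [k6] at k3
    rw [← dot_meanV, ← nrm_mul_self] at k3
    rcases (nrm_nonneg (meanV (F.w i) (v l))).eq_or_lt with h0 | h0
    · exact h0 ▸ bb_nonneg ε0.le C0 _ _ _
    · exact le_of_mul_le_mul_left (k3.le.trans ((le_abs_self _).trans
        (k5.trans ((le_abs_self _).trans k4)))) h0
  · have k3 := mul_le_mul_of_nonneg_left (bb_sq (e := ε) (C := C) hF D i
      (hw.trans (min_le_right _ _))) c0
    have k4 := mul_le_mul_of_nonneg_right ε2 (sq_nonneg (nrm w))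
    have k5 := mul_le_mul_of_nonneg_left (hF.K1 i) c0
    have k6 := mul_nonneg c0 (sq_nonneg (Fam.Pi D i w))
    have k7 : c * ε ^ 2 * nrm w ^ 2 ≤ c * ε * nrm w ^ 2 :=
      mul_le_mul_of_nonneg_right (mul_le_mul_of_nonneg_left (by nlinarith) c0) (sq_nonneg _)
    unfold E0
    rw [← nrm_sq]
    nlinarith

end Crest.Agent.T157.S3

end
end

-- ▼ part T157/S3RgE_78
section

/-!
# Row 157, part B, block S3 (helper78): classes of small functionals of the clipped weights, `COLGlue`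
-/

set_option autoImplicit false
set_option linter.unusedSectionVars false

noncomputable section

namespace Crest.Agent.T157.S3.Rg

open Matrix Finset Filter
open Crest.Agent.T157.E (Cube sv prob meanV)
open Crest.Agent.T157.Eig Crest.Agent.T157.Rec
open Crest.Agent.T157.Chain22 (mean IsP isP_prob')
open Crest.Agent.T157.S3W (Cx)
open Fam

variable {F : Fam} {N P : ℕ} {R : Net F N}

/-- a vector, its backpropagation and the clipped weights -/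
structure St (F : Fam) (P : ℕ) (i : F.I) where
  w : V (F.n i)
  v : Fin P → VF (F.n i)
  vt : Fin P → VF (F.n i)

/-- the fixed data -/
structure Ct (R : Net F N) (P : ℕ) where
  Φ : Flow R P
  a : Fin P → F.Lf (N + 1)
  𝒯 : Set F.Df
  C0 : ℝ

namespace Ct
variable (t : Ct R P)

/-- the conclusion of `REG1Stmt` -/
def Cl (e C : ℝ) (D : List F.Df) (i : F.I) (s : St F P i) : Prop :=
  IsB t.Φ t.a i s.w s.v ∧ (∀ l, S3.Rg e (t.C0 * nrm s.w) (s.vt l)) ∧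
    ∀ l, Exc (F.w i) e (E0 e C D i s.w) fun x => nrm (s.v l x - s.vt l x)

/-- conclusions which hold with small errors -/
def GS (c : ℝ → ℝ → ∀ i, St F P i → Prop) : Prop := ∀ e > (0 : ℝ), ∃ e' > (0 : ℝ),
  ∀ D' : List F.Df, (∀ d ∈ D', d ∈ t.𝒯) → ∀ C' : ℝ, ∃ η > (0 : ℝ), ∃ D : List F.Df,
    (∀ d ∈ D, d ∈ t.𝒯) ∧ ∃ C : ℝ, 0 ≤ C ∧ ∀ᶠ i in F.l, ∀ s : St F P i, ‖s.w‖ ≤ η →
      t.Cl e' C' D' i s → c e (E0 e C D i s.w) i s

/-- small excess -/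
def XS (g : ∀ i, St F P i → Cube (F.n i) → ℝ) : Prop :=
  t.GS fun e B i s => Exc (F.w i) e B (g i s)
/-- small mean under every law -/
def YS (g : ∀ i, St F P i → Cube (F.n i) → ℝ) : Prop :=
  t.GS fun e B i s => ∀ ν, IsP ν → mean ν (g i s) ≤ B + e * F.H i ν
/-- small regular fields -/
def Small (u : ∀ i, St F P i → VF (F.n i)) : Prop :=
  ∀ e C D i s, ‖s.w‖ ≤ e → t.Cl e C D i s → Bd e (u i s)

variable {t}

lemma rg_mono {n : ℕ} {e e' L : ℝ} {u : VF n} (h : S3.Rg e L u) (he : e ≤ e') : S3.Rg e' L u :=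
  fun x => ⟨(h x).1.trans he, (h x).2.1.trans he, (h x).2.2⟩

lemma Cl.mono (hF : F.Ok) {e e' C : ℝ} {D : List F.Df} {i : F.I} {s : St F P i}
    (h : t.Cl e C D i s) (he : e ≤ e') : t.Cl e' C D i s :=
  ⟨h.1, fun l => rg_mono (h.2.1 l) he, fun l =>
    ex_mono (h.2.2 l) (fun _ => le_rfl) he (E0_mono hF he le_rfl _ _ _)⟩

variable {c c1 c2 : ℝ → ℝ → ∀ i, St F P i → Prop}

lemma GS.map2 (hF : F.Ok) (h1 : t.GS c1) (h2 : t.GS c2)
    (m1 : ∀ e B B' i s, B ≤ B' → c1 e B i s → c1 e B' i s)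
    (m2 : ∀ e B B' i s, B ≤ B' → c2 e B i s → c2 e B' i s)
    (m : ∀ e B B' i s, B ≤ B' → c e B i s → c e B' i s)
    (h : ∀ e > (0 : ℝ), ∃ ε > (0 : ℝ), ∃ k, 0 ≤ k ∧ k * ε ≤ e ∧ ∀ i s B, 1 ≤ B →
      IsB t.Φ t.a i s.w s.v → c1 ε B i s → c2 ε B i s → c e (k * B) i s) : t.GS c := by
  intro e he
  obtain ⟨ε, ε0, k, k0, k1, hk⟩ := h e he
  obtain ⟨e1, e10, h1⟩ := h1 ε ε0
  obtain ⟨e2, e20, h2⟩ := h2 ε ε0
  refine ⟨min e1 e2, lt_min e10 e20, fun D' hD' C' => ?_⟩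
  obtain ⟨η1, η10, D1, d1, C1, c10, h1⟩ := h1 D' hD' C'
  obtain ⟨η2, η20, D2, d2, C2, c20, h2⟩ := h2 D' hD' C'
  refine ⟨min η1 η2, lt_min η10 η20, D1 ++ D2, List.forall_mem_append.2 ⟨d1, d2⟩,
    k * (C1 + C2 + 1), by positivity, (h1.and h2).mono fun i h s hs hc => ?_⟩
  have p1 := Pi_nonneg D1 i s.w
  have p2 := Pi_nonneg D2 i s.w
  have p3 := hF.K1 i
  have p4 : 0 ≤ s.w ⬝ᵥ s.w := by rw [← nrm_sq]; positivity
  have p5 := mul_nonneg ε0.le p4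
  have p6 := mul_nonneg c10 (zero_le_one.trans p3)
  have p7 := mul_nonneg c20 (zero_le_one.trans p3)
  have q1 := mul_nonneg c10 (sq_nonneg (Fam.Pi D1 i s.w))
  have q2 := mul_nonneg c20 (sq_nonneg (Fam.Pi D2 i s.w))
  have q3 := mul_nonneg c10 (sq_nonneg (Fam.Pi D2 i s.w))
  have q4 := mul_nonneg c20 (sq_nonneg (Fam.Pi D1 i s.w))
  have q5 := mul_nonneg c10 (mul_nonneg p1 p2)
  have q6 := mul_nonneg c20 (mul_nonneg p1 p2)
  have q7 := sq_nonneg (Fam.Pi D1 i s.w + Fam.Pi D2 i s.w)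
  refine m _ _ _ _ _ ?_ (hk i s (E0 ε (C1 + C2 + 1) (D1 ++ D2) i s.w) ?_ hc.1
    (m1 _ _ _ _ _ ?_ (h.1 s (hs.trans (min_le_left _ _)) (hc.mono hF (min_le_left _ _))))
    (m2 _ _ _ _ _ ?_ (h.2 s (hs.trans (min_le_right _ _)) (hc.mono hF (min_le_right _ _)))))
  · have := mul_le_mul_of_nonneg_right k1 p4
    unfold E0; nlinarith
  all_goals unfold E0; rw [Pi_append]; nlinarith

/-- extraction -/
lemma GS.out (hE : ExStmt) (hF : F.Ok) (hΦ : t.Φ.Ok) (h : t.GS c)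
    (h1 : ∀ e > (0 : ℝ), ∃ η > (0 : ℝ), ∃ D : List F.Df, (∀ d ∈ D, d ∈ t.𝒯) ∧ ∃ C : ℝ,
      ∀ᶠ i in F.l, ∀ w : V (F.n i), ‖w‖ ≤ η → ∃ vt : Fin P → Cube (F.n i) → V (F.n i),
      (∀ l, S3.Rg e (t.C0 * nrm w) (vt l)) ∧ ∀ u v : Fin P → Cube (F.n i) → V (F.n i),
        (∀ x, Back (F.J i) (t.Φ.av ⟨i, x⟩) (t.Φ.ot i) (fun l => w * R.ev (t.a l) ⟨i, x⟩)
          (fun l => u l x) fun l => v l x) →
        ∀ l, Exc (F.w i) e (E0 e C D i w) fun x => nrm (v l x - vt l x))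
    {e e0 : ℝ} (he : 0 < e) (h0 : 0 < e0) : ∃ η > (0 : ℝ), ∃ D : List F.Df, (∀ d ∈ D, d ∈ t.𝒯) ∧
      ∃ C : ℝ, ∀ᶠ i in F.l, ∀ w : V (F.n i), ‖w‖ ≤ η → ∃ v vt, IsB t.Φ t.a i w v ∧ ‖w‖ ≤ e0 ∧
        (∀ l, S3.Rg e0 (t.C0 * nrm w) (vt l)) ∧ c e (E0 e C D i w) i ⟨w, v, vt⟩ := by
  obtain ⟨e', e0', h⟩ := h e he
  obtain ⟨η1, η10, D', hD', C', h1⟩ := h1 (min e' e0) (lt_min e0' h0)
  obtain ⟨η2, η20, D, hD, C, -, h⟩ := h D' hD' C'
  refine ⟨min (min η1 η2) e0, by positivity, D, hD, C, (h.and h1).mono fun i h w hw => ?_⟩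
  obtain ⟨vt, k1, k2⟩ := h.2 w (hw.trans ((min_le_left _ _).trans (min_le_left _ _)))
  obtain ⟨v, u, hv⟩ := exists_isB hE hΦ t.a i w
  exact ⟨v, vt, ⟨u, hv⟩, hw.trans (min_le_right _ _), fun l => rg_mono (k1 l) (min_le_right _ _),
    h.1 ⟨w, v, vt⟩ (hw.trans ((min_le_left _ _).trans (min_le_right _ _)))
      (Cl.mono hF ⟨⟨u, hv⟩, k1, k2 u v hv⟩ (min_le_left _ _))⟩

variable {g g' : ∀ i, St F P i → Cube (F.n i) → ℝ}

lemma xm (g : ∀ i, St F P i → Cube (F.n i) → ℝ) (e B B' : ℝ) (i : F.I) (s : St F P i) (h : B ≤ B')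
    (k : Exc (F.w i) e B (g i s)) : Exc (F.w i) e B' (g i s) :=
  ex_mono k (fun _ => le_rfl) le_rfl h
lemma ym (g : ∀ i, St F P i → Cube (F.n i) → ℝ) (e B B' : ℝ) (i : F.I) (s : St F P i) (h : B ≤ B')
    (k : ∀ ν, IsP ν → mean ν (g i s) ≤ B + e * F.H i ν) :
    ∀ ν, IsP ν → mean ν (g i s) ≤ B' + e * F.H i ν :=
  fun ν hν => (k ν hν).trans (add_le_add h le_rfl)

lemma XS.mono (hF : F.Ok) (h : t.XS g)
    (e : ∀ i s, IsB t.Φ t.a i s.w s.v → ∀ x, g' i s x ≤ g i s x) : t.XS g' :=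
  GS.map2 hF h h (xm g) (xm g) (xm g') fun ε ε0 => ⟨ε, ε0, 1, zero_le_one, (one_mul _).le,
    fun i s _ _ hb k _ => ex_mono k (e i s hb) le_rfl (one_mul _).ge⟩

lemma XS.add (hF : F.Ok) (h : t.XS g) (h' : t.XS g') : t.XS fun i s x => g i s x + g' i s x :=
  GS.map2 hF h h' (xm g) (xm g') (xm _) fun ε ε0 => ⟨ε / 4, by positivity, 4, by norm_num,
    by linarith, fun i _ _ _ _ k k' =>
      ex_mono (ex_add (w_pos i) k k') (fun _ => le_rfl) (by linarith) (by linarith)⟩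

lemma XS.smul (hF : F.Ok) {r : ℝ} (hr : 0 ≤ r) (h : t.XS g) : t.XS fun i s x => r * g i s x :=
  GS.map2 hF h h (xm g) (xm g) (xm _) fun ε ε0 => by
    have : r ^ 2 * (ε / (r ^ 2 + 1)) ≤ ε := by
      rw [← mul_div_assoc, div_le_iff₀ (by positivity)]; nlinarith
    exact ⟨ε / (r ^ 2 + 1), by positivity, r ^ 2, sq_nonneg _, this, fun i _ _ _ _ k _ =>
      ex_mono (ex_smul hr k) (fun _ => le_rfl) this le_rfl⟩

lemma E0_nonneg (_hF : F.Ok) {e C : ℝ} (he : 0 ≤ e) (hC : 0 ≤ C) (D : List F.Df) (i : F.I)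
    (w : V (F.n i)) : C * F.K i ≤ E0 e C D i w := by
  have : 0 ≤ w ⬝ᵥ w := by rw [← nrm_sq]; positivity
  have := mul_nonneg hC (sq_nonneg (Fam.Pi D i w))
  unfold E0; nlinarith

/-- functions which are `O(ε)` -/
lemma xs_of (hF : F.Ok) {c : ℝ} (hc : 0 ≤ c) (h : ∀ ε C D i s, 0 < ε → ε ≤ 1 → ‖s.w‖ ≤ ε →
    t.Cl ε C D i s → Exc (F.w i) (c * ε) (c * F.K i) (g i s)) : t.XS g := fun e he => by
  have h1 : c * min 1 (e / (c + 1)) ≤ e := by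
    refine (mul_le_mul_of_nonneg_left (min_le_right _ _) hc).trans ?_
    rw [← mul_div_assoc, div_le_iff₀ (by positivity)]; nlinarith
  exact ⟨min 1 (e / (c + 1)), by positivity, fun D' _ C' => ⟨min 1 (e / (c + 1)), by positivity,
    [], by simp, c, hc, .of_forall fun i s hs k => ex_mono (h _ _ _ i s (by positivity)
      (min_le_left _ _) hs k) (fun _ => le_rfl) h1 (E0_nonneg hF he.le hc _ _ _)⟩⟩

lemma xs_zero (hF : F.Ok) : t.XS fun _ _ _ => 0 := xs_of hF le_rfl fun _ _ _ i _ _ _ _ _ =>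
  ex_mono (ex_const (w_pos i) 0) (fun _ => le_rfl) (by simp) (by simp)

lemma XS.sum (hF : F.Ok) {σ : Type*} (T : Finset σ) {g : σ → ∀ i, St F P i → Cube (F.n i) → ℝ}
    (h : ∀ p, t.XS (g p)) : t.XS fun i s x => ∑ p ∈ T, g p i s x := by
  classical
  induction T using Finset.induction_on with
  | empty => exact (xs_zero hF).mono hF fun _ _ _ _ => sum_empty.le
  | insert p T hp ih => exact ((h p).add hF ih).mono hF fun _ _ _ _ => (sum_insert hp).le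

lemma xs_err (hF : F.Ok) (l : Fin P) : t.XS fun _ s x => nrm (s.v l x - s.vt l x) := fun e he =>
  ⟨e, he, fun D' hD' C' => ⟨1, one_pos, D', hD', |C'|, abs_nonneg _, .of_forall fun _ _ _ k =>
    ex_mono (k.2.2 l) (fun _ => le_rfl) le_rfl (E0_mono hF le_rfl (le_abs_self _) _ _ _)⟩⟩

lemma XS.avg (hF : F.Ok) (h : t.XS g) (h0 : ∀ i s x, 0 ≤ g i s x) :
    t.XS fun i s _ => mean (prob (F.w i)) (g i s) :=
  GS.map2 hF h h (xm g) (xm g) (xm _) fun ε ε0 => ⟨ε, ε0, 1, zero_le_one, (one_mul _).le,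
    fun i s _ _ _ k _ => ex_mono (ex_const (w_pos i) _) (fun _ => le_rfl) ε0.le
      (((mean_sq (isP_w i) _).trans (ex_mean (w_pos i) k (h0 i s))).trans (one_mul _).ge)⟩

lemma xs_bb (hF : F.Ok) {m : ∀ i, V (F.n i) → ℝ} (h : ∀ e > (0 : ℝ), ∃ D : List F.Df,
    (∀ d ∈ D, d ∈ t.𝒯) ∧ ∃ C : ℝ, ∀ᶠ i in F.l, ∀ w, |m i w| ≤ bb e C D i w) :
    t.XS fun i s _ => m i s.w := fun e he => by
  obtain ⟨D, hD, C, h⟩ := h (min 1 (e / 3)) (by positivity)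
  refine ⟨1, one_pos, fun _ _ _ => ⟨1, one_pos, D, hD, 3 * C ^ 2, by positivity,
    h.mono fun i h s hs _ => ex_mono (ex_const (w_pos i) _) (fun _ => le_rfl) he.le ?_⟩⟩
  rw [← sq_abs]
  refine (pow_le_pow_left₀ (abs_nonneg _) (h s.w) 2).trans ((bb_sq hF D i hs).trans ?_)
  have h1 : 3 * min 1 (e / 3) ^ 2 ≤ e := by
    nlinarith [min_le_left 1 (e / 3), min_le_right 1 (e / 3),
      (by positivity : 0 < min 1 (e / 3))]
  have := mul_le_mul_of_nonneg_right h1 (sq_nonneg (nrm s.w))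
  unfold E0; rw [← nrm_sq]; linarith

lemma small_vt (l : Fin P) : t.Small fun _ s => s.vt l := fun _ _ _ _ _ _ h =>
  ((rg_iff ((nrm_nonneg _).trans (h.2.1 l default).2.2.1)).1 (h.2.1 l)).1

lemma small_w : t.Small fun _ s _ => s.w := fun _ _ _ _ s hs _ =>
  bd_const ((norm_nonneg _).trans hs) fun k => (norm_le_pi_norm s.w k).trans hs

variable {u : ∀ i, St F P i → VF (F.n i)} {d : F.Lf (N + 1)}

lemma xs_col (hH : HBStmt) (hJ : J1Stmt) (hF : F.Ok) (hR : R.Ok) (hu : t.Small u) (hd : d ∈ R.C)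
    (hm : t.XS fun i s _ =>
      |mean (prob (F.w i)) fun x => u i s x ⬝ᵥ R.ev d ⟨i, x⟩| / √(F.n i)) :
    t.XS fun i s x => |u i s x ⬝ᵥ R.ev d ⟨i, x⟩| / √(F.n i) := by
  obtain ⟨K, hK⟩ := hb_of hH hF
  obtain ⟨A, A1, hA⟩ := bd_ev1 hJ hF hR hd
  have h1 : t.XS fun i s x => |(√(F.n i))⁻¹ * (u i s x ⬝ᵥ R.ev d ⟨i, x⟩ +
      -mean (prob (F.w i)) fun x => u i s x ⬝ᵥ R.ev d ⟨i, x⟩)| := by
    refine xs_of hF (c := 128 * A ^ 2 + 16 * |K| * A ^ 2) (by positivity)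
      fun ε C D i s ε0 ε1 hs hc => ?_
    have k0 := (hK i).K0
    have k1 := ((hK i).col (by linarith) ε0.le (hA i) (hu _ _ _ _ _ hs hc)).1
    have k2 := (hK i).var _ _ k1
    have n0 : (0 : ℝ) < F.n i := Nat.cast_pos.2 (hF.pos i)
    have k3 : (√(F.n i))⁻¹ ^ 2 * (4 * A * ε * √(F.n i)) ^ 2 = 16 * A ^ 2 * ε ^ 2 := by
      rw [mul_pow, inv_pow, Real.sq_sqrt n0.le]; field_simp; ring
    have k4 : ε ^ 2 ≤ ε := by nlinarith
    have k5 := mul_le_mul_of_nonneg_left k4 (sq_nonneg A)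
    rw [abs_of_nonneg k0]
    refine ex_abs (ts_mono (ts_smul _ (ts_add (ts_grad k1) (ts_const _))) ?_) ?_
    · nlinarith [mul_nonneg (mul_nonneg k0 (sq_nonneg A)) ε0.le]
    · simp only [mul_pow, ← sub_eq_add_neg]
      rw [mean_mul']
      refine (mul_le_mul_of_nonneg_left k2 (sq_nonneg _)).trans ?_
      rw [mul_left_comm, k3]
      have k6 := mul_le_mul_of_nonneg_left (hF.K1 i)
        (by positivity : 0 ≤ 128 * A ^ 2 + 16 * K * A ^ 2)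
      have k7 := mul_le_mul_of_nonneg_left (k4.trans ε1) (mul_nonneg k0 (sq_nonneg A))
      nlinarith [sq_nonneg A]
  refine (h1.add hF hm).mono hF fun i s _ x => ?_
  rw [abs_mul, abs_inv, abs_of_nonneg (Real.sqrt_nonneg _), inv_mul_eq_div, ← add_div]
  refine div_le_div_of_nonneg_right ?_ (Real.sqrt_nonneg _)
  simpa using abs_add_le (u i s x ⬝ᵥ R.ev d ⟨i, x⟩ +
    -mean (prob (F.w i)) fun x => u i s x ⬝ᵥ R.ev d ⟨i, x⟩)
    (mean (prob (F.w i)) fun x => u i s x ⬝ᵥ R.ev d ⟨i, x⟩)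

lemma abs_dot_div (hF : F.Ok) {i : F.I} {A : ℝ} (hA : 0 ≤ A) (z : V (F.n i)) {d : V (F.n i)}
    (hd : ∀ k, |d k| ≤ A) : |z ⬝ᵥ d| / √(F.n i) ≤ A * nrm z := by
  have h := nrm_le_sqrt hA hd
  rw [Fintype.card_fin] at h
  rw [div_le_iff₀ (sqrt_n_pos hF i)]
  nlinarith [abs_dot_le z d, mul_le_mul_of_nonneg_left h (nrm_nonneg z)]

/-- the standing hypotheses -/
structure Ok (t : Ct R P) : Prop where
  hH : HBStmt
  hE : ExStmt
  hD : DualStmt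
  hC : ClsStmt
  hJ : J1Stmt
  hW : WXStmt
  hF : F.Ok
  hR : R.Ok
  ty : R.Ty t.𝒯
  hΦ : t.Φ.Ok
  ha : ∀ m, t.a m ∈ R.C
  hb : ∀ m, Bil R t.𝒯 (R.ev (t.a m))

lemma Ok.col_vt (h : t.Ok) (hd : d ∈ R.C) (l : Fin P) :
    t.XS fun i s x => |s.vt l x ⬝ᵥ R.ev d ⟨i, x⟩| / √(F.n i) := by
  have hF := h.hF
  obtain ⟨β, h1, h2⟩ := mb h.hE h.hD h.hC h.hJ h.hW hF h.hR h.hΦ h.ha h.hb hd l
  obtain ⟨A, A1, hA⟩ := bd_ev1 h.hJ hF h.hR hd
  have A0 : 0 ≤ A := by linarith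
  have k1 : t.XS fun i s _ => |β i 1 s.w| / √(F.n i) := xs_bb hF
    (m := fun i w => |β i 1 w| / √(F.n i)) fun e he => by
    obtain ⟨D, hD, C, C0, h⟩ := h1 e he
    refine ⟨D, hD, C, h.mono fun i h w => ?_⟩
    have k := nrm_le_sqrt (v := (1 : V (F.n i))) zero_le_one fun k => by simp
    rw [one_mul, Fintype.card_fin] at k
    rw [abs_div, abs_abs, abs_of_nonneg (Real.sqrt_nonneg _), div_le_iff₀ (sqrt_n_pos hF i),
      mul_comm]
    exact (h 1 w).trans (mul_le_mul_of_nonneg_right k (bb_nonneg he.le C0 _ _ _))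
  refine xs_col h.hH h.hJ hF h.hR (small_vt l) hd ((k1.add hF
    (((xs_err hF l).smul hF A0).avg hF fun _ _ _ => mul_nonneg A0 (nrm_nonneg _))).mono hF
      fun i s hb _ => ?_)
  have k2 : mean (prob (F.w i)) (fun x => s.vt l x ⬝ᵥ R.ev d ⟨i, x⟩) = β i 1 s.w -
      mean (prob (F.w i)) fun x => (s.v l x - s.vt l x) ⬝ᵥ R.ev d ⟨i, x⟩ := by
    rw [← h2 i s.w s.v hb 1, ← mean_sub']
    congr 1; funext x
    rw [one_mul, sub_dotProduct, dotProduct_comm (s.v l x)]; ring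
  rw [k2]
  refine (div_le_div_of_nonneg_right ((abs_sub _ _).trans (add_le_add le_rfl
    (abs_mean (isP_w i) _))) (Real.sqrt_nonneg _)).trans ?_
  rw [add_div, div_eq_inv_mul (mean _ _), ← mean_mul']
  exact add_le_add le_rfl ((isP_w i).mean_mono fun x => by
    rw [inv_mul_eq_div]; exact abs_dot_div hF A0 _ (hA i x).1)

lemma Ok.col_v (h : t.Ok) (hd : d ∈ R.C) (l : Fin P) :
    t.XS fun i s x => |s.v l x ⬝ᵥ R.ev d ⟨i, x⟩| / √(F.n i) := by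
  obtain ⟨A, A1, hA⟩ := bd_ev1 h.hJ h.hF h.hR hd
  have A0 : 0 ≤ A := by linarith
  refine ((h.col_vt hd l).add h.hF ((xs_err h.hF l).smul h.hF A0)).mono h.hF fun i s _ x => ?_
  refine le_trans ?_ (add_le_add le_rfl (abs_dot_div h.hF A0 _ (hA i x).1))
  rw [← add_div, sub_dotProduct]
  refine div_le_div_of_nonneg_right ?_ (Real.sqrt_nonneg _)
  simpa using abs_add_le (s.vt l x ⬝ᵥ R.ev d ⟨i, x⟩)
    (s.v l x ⬝ᵥ R.ev d ⟨i, x⟩ - s.vt l x ⬝ᵥ R.ev d ⟨i, x⟩)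

lemma Ok.col_w (h : t.Ok) (hd : d ∈ R.C) :
    t.XS fun i s x => |s.w ⬝ᵥ R.ev d ⟨i, x⟩| / √(F.n i) := by
  have hF := h.hF
  obtain ⟨τ, h1, h2⟩ := h.ty d hd
  refine xs_col h.hH h.hJ hF h.hR small_w hd (xs_bb hF (m := fun i w =>
    |mean (prob (F.w i)) fun x => w ⬝ᵥ R.ev d ⟨i, x⟩| / √(F.n i)) fun e he => ?_)
  obtain ⟨C, hC⟩ := h2 e he
  refine ⟨[τ], by simpa, √|C| + 1, hC.mono fun i hC w => ?_⟩
  obtain ⟨δ, hδ⟩ : ∃ δ, δ = F.EV (R.ev d) i - τ i := ⟨_, rfl⟩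
  obtain ⟨ρ, hρ⟩ : ∃ ρ : V (F.n i), ∀ k, ρ k = max (|δ k| - e) 0 := ⟨_, fun _ => rfl⟩
  simp only [← hδ, ← hρ] at hC
  have n0 := sqrt_n_pos hF i
  have K0 : 0 ≤ F.K i := zero_le_one.trans (hF.K1 i)
  have k1 : mean (prob (F.w i)) (fun x => w ⬝ᵥ R.ev d ⟨i, x⟩) = w ⬝ᵥ τ i + w ⬝ᵥ δ := by
    rw [← dot_meanV, hδ, dotProduct_sub, add_sub_cancel]; rfl
  have k2 : nrm ρ ≤ √|C| * √(F.K i) := nrm_le_of_sq (by positivity) (hC.trans (by
    rw [mul_pow, Real.sq_sqrt (abs_nonneg _), Real.sq_sqrt K0]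
    exact mul_le_mul_of_nonneg_right (le_abs_self _) K0))
  have k3 : nrm δ ≤ e * √(F.n i) + nrm ρ := by
    have k4 := nrm_le_sqrt (v := fun _ : Fin (F.n i) => e) he.le fun k => (abs_of_pos he).le
    rw [Fintype.card_fin] at k4
    refine le_trans ((nrm_mono zero_le_one fun k => ?_).trans_eq (one_mul _))
      ((nrm_add_le (fun _ => e) ρ).trans (add_le_add k4 le_rfl))
    rw [one_mul, Pi.add_apply, hρ]
    exact le_trans (by linarith [le_max_left (|δ k| - e) 0]) (le_abs_self _)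
  have k5 := nrm_le_norm w
  have k6 := (abs_dot_le w δ).trans (mul_le_mul_of_nonneg_left (k3.trans (add_le_add le_rfl k2))
    (nrm_nonneg w))
  have k7 := mul_le_mul_of_nonneg_right k5 (by positivity : 0 ≤ √|C| * √(F.K i))
  have k8 : Fam.Pi [τ] i w * √(F.n i) = |w ⬝ᵥ τ i| := by simp [Fam.Pi, n0.ne']
  have k9 := mul_nonneg (Real.sqrt_nonneg |C|) (abs_nonneg (w ⬝ᵥ τ i))
  have k10 : 0 ≤ √(F.K i) * ‖w‖ * √(F.n i) := by positivity
  rw [abs_div, abs_abs, abs_of_pos n0, div_le_iff₀ n0, k1, bb, add_mul, mul_assoc _ (Fam.Pi _ _ _),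
    k8]
  nlinarith [abs_add_le (w ⬝ᵥ τ i) (w ⬝ᵥ δ)]

/-! ### the collective part -/

lemma YS.mono (hF : F.Ok) (h : t.YS g)
    (e : ∀ i s, IsB t.Φ t.a i s.w s.v → ∀ x, g' i s x ≤ g i s x) : t.YS g' :=
  GS.map2 hF h h (ym g) (ym g) (ym g') fun ε ε0 => ⟨ε, ε0, 1, zero_le_one, (one_mul _).le,
    fun i s _ _ hb k _ ν hν => (hν.mean_mono (e i s hb)).trans (by rw [one_mul]; exact k ν hν)⟩

lemma YS.add (hF : F.Ok) (h : t.YS g) (h' : t.YS g') : t.YS fun i s x => g i s x + g' i s x :=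
  GS.map2 hF h h' (ym g) (ym g') (ym _) fun ε ε0 => ⟨ε / 2, by positivity, 2, by norm_num,
    by linarith, fun i _ _ _ _ k k' ν hν => by
      rw [mean_add']; linarith [k ν hν, k' ν hν]⟩

lemma XS.th (hH : HBStmt) (hC : ClsStmt) (hF : F.Ok) (h : t.XS g) (h0 : ∀ i s x, 0 ≤ g i s x)
    {θ : F.Sf} (hθ : Th θ) : t.YS fun i s x => √(F.n i) * |θ ⟨i, x⟩| * g i s x := by
  obtain ⟨K, hK⟩ := hb_of hH hF
  obtain ⟨C, hC⟩ := (hC F hF).2.2.1 θ hθ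
  refine GS.map2 hF h h (xm g) (xm g) (ym _) fun e he => ?_
  obtain ⟨l, l0, hl⟩ : ∃ l : ℝ, 0 < l ∧ l * |C| ≤ e := ⟨e / (|C| + 1), by positivity, by
    rw [div_mul_eq_mul_div, div_le_iff₀ (by positivity)]; nlinarith⟩
  obtain ⟨ε, ε0, ε1, ε2⟩ : ∃ ε : ℝ, 0 < ε ∧ (l⁻¹ + e) * ε ≤ e ∧ l⁻¹ * (|K| * ε) ≤ e :=
    ⟨min (e / (l⁻¹ + e)) (e / (l⁻¹ * (|K| + 1))), by positivity, by
      rw [mul_comm, ← le_div_iff₀ (by positivity)]; exact min_le_left _ _, by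
      have := (le_div_iff₀ (by positivity)).1 (min_le_right (e / (l⁻¹ + e))
        (e / (l⁻¹ * (|K| + 1))))
      have : 0 < l⁻¹ * min (e / (l⁻¹ + e)) (e / (l⁻¹ * (|K| + 1))) := by positivity
      nlinarith⟩
  refine ⟨ε, ε0, l⁻¹ + e, by positivity, ε1, fun i s B B1 _ k _ ν hν => ?_⟩
  have n0 : (0 : ℝ) < F.n i := Nat.cast_pos.2 (hF.pos i)
  have H0 := H_nonneg i hν
  have k1 : mean ν (fun x => g i s x ^ 2) ≤ 2 * B + K * ε * (F.H i ν + 1) := (hK i).ex k (h0 i s) hν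
  have k2 := hC i ν hν
  rw [le_div_iff₀ n0] at k2
  have k3 := hν.mean_mono (f := fun x => √(F.n i) * |θ ⟨i, x⟩| * g i s x)
    (g := fun x => l / 2 * F.n i * θ ⟨i, x⟩ ^ 2 + l⁻¹ / 2 * g i s x ^ 2) fun x => by
    have k4 : (√(F.n i) * |θ ⟨i, x⟩|) ^ 2 = F.n i * θ ⟨i, x⟩ ^ 2 := by
      rw [mul_pow, Real.sq_sqrt n0.le, sq_abs]
    have k5 := mul_nonneg (inv_pos.2 l0).le (sq_nonneg (l * (√(F.n i) * |θ ⟨i, x⟩|) - g i s x))
    have k6 : l⁻¹ * (l * (√(F.n i) * |θ ⟨i, x⟩|) - g i s x) ^ 2 = l * (√(F.n i) * |θ ⟨i, x⟩|) ^ 2 -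
        2 * (√(F.n i) * |θ ⟨i, x⟩| * g i s x) + l⁻¹ * g i s x ^ 2 := by field_simp; ring
    rw [k6, k4] at k5
    linarith
  rw [mean_add', mean_mul', mean_mul'] at k3
  have k7 := mul_le_mul_of_nonneg_left (k2.trans (mul_le_mul_of_nonneg_right (le_abs_self C)
    (by linarith))) l0.le
  have k8 := mul_le_mul_of_nonneg_left k1 (inv_pos.2 l0).le
  have k9 := mul_le_mul_of_nonneg_right hl (by linarith : 0 ≤ F.H i ν + 1)
  have k10 := mul_le_mul_of_nonneg_right ε2 (by linarith : 0 ≤ F.H i ν + 1)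
  have k11 := mul_le_mul_of_nonneg_left B1 he.le
  rw [abs_of_nonneg (hK i).K0] at k10
  nlinarith

lemma ys_tv (h : t.Ok) (hu : ∀ d ∈ R.C, t.XS fun i s x => |u i s x ⬝ᵥ R.ev d ⟨i, x⟩| / √(F.n i))
    {g : F.Vf} (hg : R.cx.TV g) : t.YS fun i s x => |u i s x ⬝ᵥ g ⟨i, x⟩| := by
  refine sv_ind (c := R.cx) (Q := fun g => t.YS fun i s x => |u i s x ⬝ᵥ g ⟨i, x⟩|)
    (fun σ d h1 h2 => ?_) (fun A B h1 h2 => ?_) hg
  · obtain ⟨d, hd, rfl⟩ := h2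
    refine ((hu d hd).th h.hH h.hC h.hF (fun _ _ _ => by positivity) h1).mono h.hF
      fun i s _ x => le_of_eq ?_
    have := (sqrt_n_pos h.hF i).ne'
    rw [dotProduct_smul, smul_eq_mul, abs_mul]; field_simp
  · exact (YS.add h.hF h1 h2).mono h.hF fun i s _ x => by
      rw [dotProduct_add]; exact abs_add_le _ _

lemma YS.sum (h : t.Ok) {σ : Type*} (T : Finset σ) {g : σ → ∀ i, St F P i → Cube (F.n i) → ℝ}
    (hg : ∀ p, t.YS (g p)) : t.YS fun i s x => ∑ p ∈ T, g p i s x := by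
  classical
  induction T using Finset.induction_on with
  | empty =>
    exact fun e he => ⟨1, one_pos, fun _ _ _ => ⟨1, one_pos, [], by simp, 0, le_rfl,
      .of_forall fun i s _ _ ν hν => by
        have := E0_nonneg h.hF he.le le_rfl [] i s.w
        have := mul_nonneg he.le (H_nonneg i hν)
        simp only [sum_empty, hν.mean_const]; linarith⟩⟩
  | insert p T hp ih => exact ((hg p).add h.hF ih).mono h.hF fun _ _ _ _ => (sum_insert hp).le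

end Ct

end Rg

open Rg Fam Filter Finset Matrix

theorem colGlue : COLGlue := by
  intro hH hE hD hC hJ hW h1 F N P R 𝒯 Φ a g c c' g0 hF hR ty hΦ ha hb hc h0 e he
  obtain ⟨C0, h1⟩ := h1 F N P R 𝒯 Φ a hF hR hΦ ha hb
  have h : Ct.Ok ⟨Φ, a, 𝒯, C0⟩ := ⟨hH, hE, hD, hC, hJ, hW, hF, hR, ty, hΦ, ha, hb⟩
  have k1 := (Ct.ys_tv (u := fun _ s _ => s.w) h (fun d hd => h.col_w hd) h0).add hF
    (Ct.YS.sum h univ fun l => Ct.ys_tv (u := fun _ s => s.v l) h (fun d hd => h.col_v hd l)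
      (hc.1 l))
  have k2 := k1.mono (g' := fun i s x =>
      |s.w ⬝ᵥ (g0 ⟨i, x⟩ + ∑ m, R.ev (a m) ⟨i, x⟩ * c' m ⟨i, x⟩)|) hF fun i s ⟨u, hu⟩ x => by
    have k3 := (hD _ _ _ _ _ _ _ _ (hF.symm i) (hu x)).2 _ _ _ (hc.2 ⟨i, x⟩)
    have k4 : s.w ⬝ᵥ ∑ m, R.ev (a m) ⟨i, x⟩ * c' m ⟨i, x⟩ = ∑ l, s.v l x ⬝ᵥ g l ⟨i, x⟩ := by
      rw [← k3, dotProduct_sum]
      exact sum_congr rfl fun m _ => sum_congr rfl fun k _ => (mul_assoc _ _ _).symm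
    rw [dotProduct_add, k4]
    exact (abs_add_le _ _).trans (add_le_add le_rfl (abs_sum_le_sum_abs _ _))
  obtain ⟨η, η0, D, d1, C, k5⟩ := Ct.GS.out hE hF hΦ k2 h1 he one_pos
  exact ⟨η, η0, D, d1, C, k5.mono fun i k w hw => let ⟨_, _, _, _, _, k⟩ := k w hw; k⟩

end Crest.Agent.T157.S3

end
end

-- ▼ part T157/S3RgF_78
section

/-!
# Row 157, part B, block S3 (helper78): `REGGlue`
-/

set_option autoImplicit false
set_option linter.unusedSectionVars false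

noncomputable section

namespace Crest.Agent.T157.S3.Rg

open Matrix Finset Filter
open Crest.Agent.T157.E (Cube sv prob meanV)
open Crest.Agent.T157.Eig Crest.Agent.T157.Rec
open Crest.Agent.T157.Chain22 (mean IsP isP_prob')
open Crest.Agent.T157.S3W (Cx)
open Fam

lemma cw_transpose {Ω : Type*} {c : Cx Ω} (h : c.Ok) {A : c.MF} (hA : c.CW A) :
    c.CW fun ω => (A ω)ᵀ := by
  induction hA with
  | right h1 h2 h3 =>
    refine Cx.cg (.left h1 h2 h3.reverse) fun ω => ?_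
    simp only [transpose_smul, transpose_mul, diagonal_transpose, Cx.wk_transpose h]
  | left h1 h2 h3 =>
    refine Cx.cg (.right h1 h2 h3.reverse) fun ω => ?_
    simp only [transpose_smul, transpose_mul, diagonal_transpose, Cx.wk_transpose h]
  | add _ _ h1 h2 => exact Cx.cg (.add h1 h2) fun ω => (transpose_add _ _).symm

variable {F : Fam} {N P : ℕ} {R : Net F N}

lemma bk_transpose (hc : R.cx.Ok) {A : F.Mf} (h : R.BK A) : R.BK fun ω => (A ω)ᵀ := by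
  obtain ⟨h1, B, h2, h3⟩ := h
  exact ⟨Cx.Op.transpose (c := R.cx) h1, fun ω => (B ω)ᵀ, cw_transpose hc h2,
    Cx.cg (P := R.cx.MK) (Cx.Kp.transpose hc hc.th h3) fun ω => transpose_sub _ _⟩

lemma bk_of_mk (hc : R.cx.Ok) {A : F.Mf} (h1 : R.cx.Op A) (h2 : R.cx.MK A) : R.BK A :=
  ⟨h1, fun _ => 0, Cx.CW.zero hc, Cx.cg (P := R.cx.MK) h2 fun _ => (sub_zero _).symm⟩

lemma op_dg (hc : R.cx.Ok) {d : F.Lf (N + 1)} (hd : d ∈ R.C) : R.cx.Op (R.dg d) :=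
  Cx.BdV.op (c := R.cx) (hc.bl_bd ⟨d, hd, rfl⟩)

lemma ak_dg (hc : R.cx.Ok) {d : F.Lf (N + 1)} (hd : d ∈ R.C) : R.AK (R.dg d) :=
  ⟨op_dg hc hd, Cx.Sp.kp hc (Cx.pr_diag hc ⟨d, hd, rfl⟩)⟩

lemma op_had {A B : F.Mf} (hA : R.cx.Op A) (hB : R.cx.Op B) : R.cx.Op fun ω => A ω ⊙ B ω :=
  let ⟨C, c0, h⟩ := Cx.nn hA
  let ⟨D, k⟩ := hB
  ⟨C * D, fun ω => (S3F.opn_had' _ _).trans (mul_le_mul (h ω) (k ω) (opn_nonneg _) c0)⟩

lemma ex_sq (hC : ClsStmt) (hF : F.Ok) {f : F.Sf} (hf : Sq f) : ∃ c, 0 ≤ c ∧ ∀ i,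
    Exc (F.w i) c (c * F.K i) fun x => √(f ⟨i, x⟩) := by
  obtain ⟨C, L, C0, hL, hf⟩ := hf
  have K0 : ∀ i, 0 ≤ F.K i := fun i => zero_le_one.trans (hF.K1 i)
  have key : ∃ c, 0 ≤ c ∧ ∀ i, Exc (F.w i) c (c * F.K i)
      fun x => √(F.K i + F.n i * (L.map fun θ => θ ⟨i, x⟩ ^ 2).sum) := by
    clear hf
    induction L with
    | nil => exact ⟨1, zero_le_one, fun i => ex_mono (ex_const (w_pos i) √(F.K i))
        (fun x => by simp) zero_le_one (by rw [Real.sq_sqrt (K0 i), one_mul])⟩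
    | cons θ L ih =>
      obtain ⟨c, c0, hc⟩ := ih fun θ h => hL θ (by simp [h])
      obtain ⟨C1, h1⟩ := (hL θ (by simp)).1
      obtain ⟨C2, -, h2⟩ := th_abs hC hF (hL θ (by simp))
      refine ⟨2 * (|C1| + C2 ^ 2) + 2 * c, by positivity, fun i => ?_⟩
      have n0 : (0 : ℝ) < F.n i := Nat.cast_pos.2 (hF.pos i)
      have k1 : Exc (F.w i) |C1| (C2 ^ 2) fun x => |√(F.n i) * θ ⟨i, x⟩| := by
        refine ex_abs (ts_mono (ts_smul _ (h1 i).2) ?_) ?_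
        · rw [Real.sq_sqrt n0.le, mul_div_cancel₀ _ n0.ne']; exact le_abs_self _
        · simp only [mul_pow, Real.sq_sqrt n0.le]
          rw [mean_mul']; exact (h2 i).1
      refine ex_mono (ex_add (w_pos i) k1 (hc i)) (fun x => ?_) (by nlinarith [sq_nonneg C2]) ?_
      · have k2 : 0 ≤ F.K i + F.n i * (L.map fun θ => θ ⟨i, x⟩ ^ 2).sum :=
          add_nonneg (K0 i) (mul_nonneg n0.le (List.sum_nonneg fun y hy => by
            obtain ⟨θ, -, rfl⟩ := List.mem_map.1 hy; positivity))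
        refine Real.sqrt_le_iff.2 ⟨by positivity, ?_⟩
        rw [add_sq, sq_abs, mul_pow, Real.sq_sqrt n0.le, Real.sq_sqrt k2, List.map_cons,
          List.sum_cons]
        have : 0 ≤ 2 * |√(F.n i) * θ ⟨i, x⟩| *
          √(F.K i + F.n i * (L.map fun θ => θ ⟨i, x⟩ ^ 2).sum) := by positivity
        linarith
      · nlinarith [mul_le_mul_of_nonneg_left (hF.K1 i) (sq_nonneg C2),
          mul_nonneg (abs_nonneg C1) (K0 i)]
  obtain ⟨c, c0, hc⟩ := key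
  refine ⟨C * c, mul_nonneg C0 c0, fun i => ex_mono (ex_smul (Real.sqrt_nonneg C) (hc i))
    (fun x => ?_) (by rw [Real.sq_sqrt C0]) (by rw [Real.sq_sqrt C0, mul_assoc])⟩
  rw [← Real.sqrt_mul C0]
  exact Real.sqrt_le_sqrt (hf ⟨i, x⟩)

namespace Ct
variable {t : Ct R P} {u : ∀ i, St F P i → VF (F.n i)}

lemma xs_sq (hC : ClsStmt) (hF : F.Ok) (hu : t.Small u) {f : F.Sf} (hf : Sq f) :
    t.XS fun i s x => ‖u i s x‖ * √(f ⟨i, x⟩) := by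
  obtain ⟨c, c0, hc⟩ := ex_sq hC hF hf
  refine xs_of hF c0 fun ε C D i s ε0 ε1 hs k => ex_mono (ex_smul ε0.le (hc i)) (fun x =>
    mul_le_mul_of_nonneg_right ((pi_norm_le_iff_of_nonneg ε0.le).2 (hu _ _ _ _ _ hs k x).1)
      (Real.sqrt_nonneg _)) ?_ ?_
  · nlinarith [mul_le_mul_of_nonneg_left ε1 (mul_nonneg c0 ε0.le)]
  · exact mul_le_of_le_one_left (mul_nonneg c0 (zero_le_one.trans (hF.K1 i)))
      (pow_le_one₀ ε0.le ε1)

/-- small fields with small collective part -/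
def Good (t : Ct R P) (u : ∀ i, St F P i → VF (F.n i)) : Prop :=
  t.Small u ∧ ∀ d ∈ R.C, t.XS fun i s x => |u i s x ⬝ᵥ R.ev d ⟨i, x⟩| / √(F.n i)

/-- tame sources -/
def TG (t : Ct R P) (S : F.Mf) : Prop :=
  R.cx.Op S ∧ ∀ u, t.Good u → t.XS fun i s x => nrm ((S ⟨i, x⟩)ᵀ *ᵥ u i s x)

lemma xs_dg (h : t.Ok) (hG : DGStmt) {A B : F.Mf} (hA : R.BK A) (hB : R.AK B) (hu : t.Good u) :
    t.XS fun i s x => nrm (A ⟨i, x⟩ * diagonal (u i s x) * B ⟨i, x⟩).diag := by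
  obtain ⟨D, f, C, h1, h2, h3⟩ := hG F N R (h.hJ F N R h.hF h.hR).1 A B hA hB
  have k1 : t.XS fun i s x => (D.map fun d => |u i s x ⬝ᵥ R.ev d ⟨i, x⟩|).sum / √(F.n i) := by
    clear h3
    induction D with
    | nil => exact (xs_zero h.hF).mono h.hF fun _ _ _ _ => by simp
    | cons d D ih =>
      exact ((hu.2 d (h1 d (by simp))).add h.hF (ih fun d hd => h1 d (by simp [hd]))).mono h.hF
        fun _ _ _ _ => by rw [List.map_cons, List.sum_cons, add_div]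
  refine ((xs_sq h.hC h.hF hu.1 h2).add h.hF (k1.smul h.hF (abs_nonneg C))).mono h.hF
    fun i s _ x => (h3 ⟨i, x⟩ _).trans (add_le_add le_rfl ?_)
  rw [mul_div_assoc]
  exact mul_le_mul_of_nonneg_right (le_abs_self C) (div_nonneg (List.sum_nonneg fun y hy => by
    obtain ⟨θ, -, rfl⟩ := List.mem_map.1 hy; positivity) (Real.sqrt_nonneg _))

variable {S S' : F.Mf}

lemma TG.congr (h : t.TG S) (e : ∀ ω, S ω = S' ω) : t.TG S' := (funext e : S = S') ▸ h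

lemma tg_zero (h : t.Ok) : t.TG fun _ => 0 :=
  ⟨Cx.op_zero (c := R.cx), fun _ _ => (xs_zero h.hF).mono h.hF fun _ _ _ _ => by simp⟩

lemma TG.add (h : t.Ok) (h1 : t.TG S) (h2 : t.TG S') : t.TG fun ω => S ω + S' ω :=
  ⟨Cx.Op.add (c := R.cx) h1.1 h2.1, fun u hu => ((h1.2 u hu).add h.hF (h2.2 u hu)).mono h.hF
    fun _ _ _ _ => by rw [transpose_add, add_mulVec]; exact nrm_add_le _ _⟩

lemma TG.sum (h : t.Ok) {σ : Type*} (T : Finset σ) {S : σ → F.Mf} (hS : ∀ p, t.TG (S p)) :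
    t.TG fun ω => ∑ p ∈ T, S p ω :=
  Cx.sumP (α := fun ω : F.Ω => Mx (F.n ω.1)) (tg_zero h) (TG.add h) T fun p _ => hS p

lemma TG.sp (h : t.Ok) (h1 : t.TG S) : t.TG fun ω => -(S ω * diagonal (sv ω.2)) := by
  obtain ⟨C, hC⟩ := h1.1
  refine ⟨⟨C, fun ω => ?_⟩, fun u hu => (h1.2 u hu).mono h.hF fun i s _ x => ?_⟩
  · rw [opn_neg]
    exact (S3F.opn_mul_diag zero_le_one (fun k => (abs_sv _ k).le) _).trans
      ((mul_one _).trans_le (hC ω))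
  · rw [transpose_neg, neg_mulVec, nrm_neg, transpose_mul, diagonal_transpose, ← mulVec_mulVec]
    refine (nrm_mono zero_le_one fun k => ?_).trans_eq (one_mul _)
    rw [mulVec_diagonal, abs_mul, abs_sv]

lemma tg_had (h : t.Ok) (hG : DGStmt) {A M : F.Mf} (hA : R.AK A) (hM : R.BK M) :
    t.TG fun ω => A ω ⊙ M ω :=
  ⟨op_had hA.1 hM.1, fun u hu => (xs_dg h hG (bk_transpose (h.hJ F N R h.hF h.hR).1 hM) hA hu).mono
    h.hF fun i s _ x => le_of_eq (congrArg nrm (funext fun j => by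
      simp only [mulVec, dotProduct, transpose_apply, hadamard_apply, diag_apply, mul_apply,
        diagonal_apply, mul_ite, mul_zero, sum_ite_eq', mem_univ, if_true]
      exact sum_congr rfl fun k _ => by ring))⟩

lemma tg_diag (h : t.Ok) (hG : DGStmt) {d : F.Lf (N + 1)} (hd : d ∈ R.C) {Y : F.Mf} (hY : R.BK Y) :
    t.TG fun ω => (R.dg d ω * Y ω) ⊙ 1 :=
  have hc := (h.hJ F N R h.hF h.hR).1
  ⟨op_had (Cx.Op.mul (c := R.cx) (op_dg hc hd) hY.1) (Cx.op_one (c := R.cx)), fun u hu =>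
    (xs_dg h hG hY (ak_dg hc hd) hu).mono h.hF fun i s _ x =>
      le_of_eq (congrArg nrm (funext fun j => by
        simp only [hadamard_one, diagonal_transpose, mulVec_diagonal, Net.dg, diag_apply,
          diagonal_mul, mul_diagonal]
        ring))⟩

lemma tg_rk (h : t.Ok) (hS : R.RK S) : t.TG S :=
  ⟨hS.1, fun u hu => (xs_sq h.hC h.hF hu.1 ((h.hC F h.hF).2.2.2.2 N R _ hS.2).1).mono h.hF
    fun i s _ x => nrm_le_of_sq (by positivity) (by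
      rw [mul_pow, Real.sq_sqrt (sum_nonneg fun _ _ => sq_nonneg _), mul_sum]
      refine sum_le_sum fun j _ => ?_
      rw [← mul_pow, ← sq_abs]
      refine pow_le_pow_left₀ (abs_nonneg _) ?_ 2
      simp only [mulVec, dotProduct, transpose_apply]
      refine (abs_sum_le_sum_abs _ _).trans ?_
      rw [mul_sum]
      exact sum_le_sum fun k _ => by
        rw [abs_mul, mul_comm]
        exact mul_le_mul_of_nonneg_right (norm_le_pi_norm (u i s x) k) (abs_nonneg _))⟩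

lemma tg_jc (h : t.Ok) (hG : DGStmt) (h2 : J2Stmt) {al : F.Lf (N + 1)} (h1 : al ∈ R.C)
    (h0 : R.gs al = 0) : t.TG fun ω => F.jc (R.ev al) ω ⊙ 1 := by
  obtain ⟨hc, -, k1, k2, k3⟩ := h.hJ F N R h.hF h.hR
  obtain ⟨Γ, hΓ⟩ := (h.hE F N N R).2.1 h.hR
  have k4 := (((h2 F N R h.hF h.hR).2 Γ hΓ).2 al (k1 al h1)).1
  have k5 := ((k3 _ Γ hΓ.1).2 (R.gs al) (fun m => R.pd m al)
    ⟨h.hR.gs al h1, by rw [h0]; funext i k s ξ; simp [Net.gs, gs], fun m => h.hR.pd al h1 m⟩).1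
  have k6 := bk_of_mk hc (Cx.Op.sub (c := R.cx) (k2 al (k1 al h1)).1 k5) k4
  refine ((tg_diag h hG h.hR.one k6).add h (TG.sum h univ fun m => tg_diag h hG (h.hR.pd al h1 m)
    (((h2 F N R h.hF h.hR).1 _ Γ hΓ.1).1 m).2.1)).congr fun ω => ?_
  have e1 : R.dg 1 ω = 1 := diagonal_one
  have e0 : R.dg 0 ω = 0 := diagonal_zero
  ext k j
  simp only [Flow.tT, h0, e0, e1, Matrix.one_mul, zero_add, Matrix.add_apply, hadamard_apply,
    Matrix.sub_apply, Matrix.sum_apply, ← sum_mul]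
  ring

lemma TG.v (h : t.Ok) (hS : t.TG S) (l : Fin P) :
    t.XS fun i s x => nrm ((S ⟨i, x⟩)ᵀ *ᵥ s.v l x) := by
  obtain ⟨C, C0, hC⟩ := Cx.nn hS.1
  refine ((hS.2 _ ⟨small_vt l, fun d hd => h.col_vt hd l⟩).add h.hF
    ((xs_err h.hF l).smul h.hF C0)).mono h.hF fun i s _ x => ?_
  have e : (S ⟨i, x⟩)ᵀ *ᵥ s.v l x = (S ⟨i, x⟩)ᵀ *ᵥ s.vt l x + (S ⟨i, x⟩)ᵀ *ᵥ (s.v l x - s.vt l x) := by
    rw [mulVec_sub, add_sub_cancel]
  rw [e]
  refine (nrm_add_le _ _).trans (add_le_add le_rfl ((nrm_mulVec_le _ _).trans ?_))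
  rw [opn_transpose]
  exact mul_le_mul_of_nonneg_right (hC ⟨i, x⟩) (nrm_nonneg _)

end Ct

/-- the sources of the fields -/
def src {Q : ℕ} (R : Net F N) (al : F.Lf (N + 1)) (a : Fin Q → F.Lf (N + 1)) (Y : Fin Q → F.Mf) :
    F.Mf := fun ω =>
  -((F.jc (R.ev al) ω ⊙ 1 + ∑ m, F.jc (R.ev (a m)) ω ⊙ Y m ω) * diagonal (sv ω.2))

lemma src_eq {Q : ℕ} (al : F.Lf (N + 1)) (a : Fin Q → F.Lf (N + 1)) (Y : Fin Q → F.Mf) (ω : F.Ω) :
    diagonal (F.bm (R.ev al) ω).diag + ∑ m, F.bm (R.ev (a m)) ω ⊙ Y m ω =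
      R.dg al ω + src R al a Y ω + ∑ m, R.dg (a m) ω * Y m ω := by
  obtain ⟨i, x⟩ := ω
  have e : ∀ (g : F.Lf (N + 1)) (M : Mx (F.n i)), F.bm (R.ev g) ⟨i, x⟩ ⊙ M =
      R.dg g ⟨i, x⟩ * M - (F.jc (R.ev g) ⟨i, x⟩ ⊙ M) * diagonal (sv x) := fun g M => by
    have := S3F.barM_had (fun y : Cube (F.n i) => R.ev g ⟨i, y⟩) x M
    exact this
  rw [← hadamard_one]
  simp only [e, src, Matrix.mul_one, sum_sub_distrib, Matrix.add_mul, Matrix.sum_mul]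
  abel

/-- the regular field -/
def Om (Φ : Flow R P) (al : F.Lf (N + 1)) (i : F.I) (w : V (F.n i)) (vt : Fin P → VF (F.n i)) :
    VF (F.n i) := fun x => R.ev al ⟨i, x⟩ * w + ∑ l, R.ev (Φ.al l) ⟨i, x⟩ * vt l x

namespace Ct
variable {t : Ct R P}

lemma tg_src (h : t.Ok) (hG : DGStmt) (h2 : J2Stmt) {Q : ℕ} {al : F.Lf (N + 1)}
    {a : Fin Q → F.Lf (N + 1)} {Y : Fin Q → F.Mf} (h1 : al ∈ R.C) (h0 : R.gs al = 0)
    (ha : ∀ m, a m ∈ R.C) (hY : ∀ m, R.BK (Y m)) : t.TG (src R al a Y) := by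
  obtain ⟨Γ, hΓ⟩ := (h.hE F N N R).2.1 h.hR
  exact ((tg_jc h hG h2 h1 h0).add h (TG.sum h univ fun m => tg_had h hG
    (((h2 F N R h.hF h.hR).2 Γ hΓ).2 _ ((h.hJ F N R h.hF h.hR).2.2.1 _ (ha m))).2.1 (hY m))).sp h

lemma xs_U (h : t.Ok) (al : F.Lf (N + 1)) {T Y S : Fin P → F.Mf} {S0 U : F.Mf}
    (hS : ∀ l, t.TG (S l)) (h0 : t.TG S0)
    (r : ∀ ω, RecM (F.J ω.1) (t.Φ.av ω) (t.Φ.ot ω.1) (fun l => R.dg (t.Φ.al l) ω + S l ω)
      (fun l => T l ω) fun l => Y l ω)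
    (hU : ∀ ω, U ω = R.dg al ω + S0 ω + ∑ m, R.dg (t.a m) ω * Y m ω) :
    t.XS fun i s x => nrm ((U ⟨i, x⟩)ᵀ *ᵥ s.w - Om t.Φ al i s.w s.vt x) := by
  obtain ⟨A, A1, hA⟩ := fin_bd (Q := fun l A => ∀ i, Bd A fun x => R.ev (t.Φ.al l) ⟨i, x⟩)
    (fun _ _ _ e h i => (h i).mono e) fun l => bd_ev h.hJ h.hF h.hR (h.hΦ.lt l).1
  have A0 : 0 ≤ A := by linarith
  refine ((h0.2 _ ⟨small_w, fun d hd => h.col_w hd⟩).add h.hF (XS.sum h.hF univ fun l =>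
    ((xs_err h.hF l).smul h.hF A0).add h.hF ((hS l).v h l))).mono h.hF fun i s ⟨u, hu⟩ x => ?_
  have k1 := (h.hD _ _ _ _ _ _ _ _ (h.hF.symm i) (hu x)).1 _ _ _ (r ⟨i, x⟩)
  have k2 : ∀ (g : F.Lf (N + 1)) (z : V (F.n i)), (R.dg g ⟨i, x⟩)ᵀ *ᵥ z = R.ev g ⟨i, x⟩ * z :=
    fun g z => by funext k; rw [Net.dg, diagonal_transpose, mulVec_diagonal]; rfl
  have e : (U ⟨i, x⟩)ᵀ *ᵥ s.w - Om t.Φ al i s.w s.vt x = (S0 ⟨i, x⟩)ᵀ *ᵥ s.w +
      ∑ l, (R.ev (t.Φ.al l) ⟨i, x⟩ * (s.v l x - s.vt l x) + (S l ⟨i, x⟩)ᵀ *ᵥ s.v l x) := by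
    simp only [transpose_add, add_mulVec, k2, mul_comm s.w, sum_add_distrib] at k1
    simp only [hU, transpose_add, add_mulVec, transpose_sum, sum_mulVec, transpose_mul,
      ← mulVec_mulVec, k2, k1, Om, mul_sub, sum_add_distrib, sum_sub_distrib]
    abel
  rw [e]
  exact (nrm_add_le _ _).trans (add_le_add le_rfl ((nrm_sum_le _ _).trans (sum_le_sum fun l _ =>
    (nrm_add_le _ _).trans (add_le_add (nrm_mul_le A0 (hA l i x).1) le_rfl))))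

lemma xs_T (h : t.Ok) (al : F.Lf (N + 1)) :
    t.XS fun i s x => nrm ((t.Φ.tT al t.a ⟨i, x⟩)ᵀ *ᵥ s.w - Om t.Φ al i s.w s.vt x) :=
  xs_U h al (T := t.Φ.T) (Y := t.Φ.Y) (fun _ => tg_zero h) (tg_zero h)
    (fun ω l => ⟨by simp only [add_zero]; rfl, h.hΦ.hY l ω⟩) fun ω => by rw [add_zero]; rfl

end Ct

/-- the common end of the two statements -/
theorem reg_core (h1 : REG1Stmt) {𝒯 : Set F.Df} {Φ : Flow R P} {al : F.Lf (N + 1)}
    {a : Fin P → F.Lf (N + 1)} (h : ∀ C0, Ct.Ok ⟨Φ, a, 𝒯, C0⟩) (hal : al ∈ R.C) {U : F.Mf}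
    (hU : ∀ C0, Ct.XS ⟨Φ, a, 𝒯, C0⟩ fun i s x => nrm ((U ⟨i, x⟩)ᵀ *ᵥ s.w - Om Φ al i s.w s.vt x)) :
    ∃ C0 : ℝ, ∀ e > (0 : ℝ), ∃ η > (0 : ℝ), ∃ D : List F.Df, (∀ t ∈ D, t ∈ 𝒯) ∧ ∃ C : ℝ,
      ∀ᶠ i in F.l, ∀ w : V (F.n i), ‖w‖ ≤ η → ∃ Ω, S3.Rg e (C0 * nrm w) Ω ∧
        Exc (F.w i) e (E0 e C D i w) (fun x => nrm ((Φ.tT al a ⟨i, x⟩)ᵀ *ᵥ w - Ω x)) ∧
        Exc (F.w i) e (E0 e C D i w) fun x => nrm ((U ⟨i, x⟩)ᵀ *ᵥ w - Ω x) := by
  have h0 := h 0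
  obtain ⟨C0, h1⟩ := h1 F N P R 𝒯 Φ a h0.hF h0.hR h0.hΦ h0.ha h0.hb
  obtain ⟨A, A1, hA⟩ := fin_bd (Q := fun l A => ∀ i, Bd A fun x => R.ev (Φ.al l) ⟨i, x⟩)
    (fun _ _ _ e h i => (h i).mono e) fun l => bd_ev h0.hJ h0.hF h0.hR (h0.hΦ.lt l).1
  obtain ⟨B, B1, hB⟩ := bd_ev1 h0.hJ h0.hF h0.hR hal
  have A0 : 0 ≤ A := by linarith
  have B0 : 0 ≤ B := by linarith
  refine ⟨4 * B + P * (4 * A * |C0|), fun e he => ?_⟩
  have c0 : 0 < 4 * B + P * (4 * A) := by positivity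
  obtain ⟨η, η0, D, d1, C, k⟩ := Ct.GS.out h0.hE h0.hF (h C0).hΦ
    ((Ct.xs_T (h C0) al).add h0.hF (hU C0)) h1 he (div_pos he c0)
  refine ⟨η, η0, D, d1, C, k.mono fun i k w hw => ?_⟩
  obtain ⟨v, vt, -, k1, k2, k3⟩ := k w hw
  have e0 := (div_pos he c0).le
  have w0 := nrm_nonneg w
  have k4 := fun l => (rg_iff ((nrm_nonneg _).trans (k2 l default).2.2.1)).1 (k2 l)
  refine ⟨Om Φ al i w vt, (rg_iff (by positivity)).2 ⟨?_, ?_⟩,
    ex_mono k3 (fun x => le_add_of_nonneg_right (nrm_nonneg _)) le_rfl le_rfl,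
    ex_mono k3 (fun x => le_add_of_nonneg_left (nrm_nonneg _)) le_rfl le_rfl⟩
  · refine (((hB i).mul B0 e0 (bd_const e0 fun k => (norm_le_pi_norm w k).trans k1)).add
      (Bd.sum le_rfl (by positivity) fun l => (hA l i).mul A0 e0 (k4 l).1)).mono (le_of_eq ?_)
    field_simp
  · exact (((hB i).mul2 B0 (bd2_const le_rfl)).add (Bd2.sum le_rfl (by positivity) fun l =>
      (hA l i).mul2 A0 ((k4 l).2.mono (mul_le_mul_of_nonneg_right (le_abs_self C0) w0)))).mono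
        (le_of_eq (by ring))

end Rg

open Rg Fam Filter Finset Matrix
open Crest.Agent.T157.Eig Crest.Agent.T157.Rec

theorem regGlue : REGGlue := by
  intro hH hE hD hC hJ hW h2 hG h1
  refine ⟨fun F N P R 𝒯 Φ al a hF hR ty hΦ hl hb => ?_, fun F N R 𝒯 Γ ψ hF hR ty hΓ hψ hb => ?_⟩
  · have h : ∀ C0, Ct.Ok ⟨Φ, a, 𝒯, C0⟩ := fun _ =>
      ⟨hH, hE, hD, hC, hJ, hW, hF, hR, ty, hΦ, hl.2.2, hb⟩
    have hY : ∀ m, R.BK (Φ.Yb m) := fun m => (((h2 F N R hF hR).1 P Φ hΦ).1 m).2.2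
    exact reg_core h1 h hl.1 fun C0 => Ct.xs_U (h C0) al (T := Φ.Tb) (Y := Φ.Yb)
      (fun l => Ct.tg_src (h C0) hG h2 (hΦ.lt l).1 (hΦ.lt l).2.1 (hΦ.lt l).2.2 hY)
      (Ct.tg_src (h C0) hG h2 hl.1 hl.2.1 hl.2.2 hY)
      (fun ω l => ⟨src_eq _ _ _ ω, hΦ.hYb l ω⟩) fun ω => src_eq _ _ _ ω
  · have h : ∀ C0, Ct.Ok ⟨Γ, fun m => R.pd m ψ, 𝒯, C0⟩ := fun _ =>
      ⟨hH, hE, hD, hC, hJ, hW, hF, hR, ty, hΓ.1, hψ.2.2, hb⟩
    obtain ⟨k1, k2⟩ := (h2 F N R hF hR).2 Γ hΓ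
    have k3 := (hJ F N R hF hR).2.2.1
    have gg : ∀ g : F.Lf (N + 1), R.gs (R.gs g) = 0 := fun g => by
      funext i k s ξ; simp [Net.gs, gs]
    have k4 : ∀ C0 g, R.Top g → Ct.TG ⟨Γ, fun m => R.pd m ψ, 𝒯, C0⟩ fun ω => R.rem g ω +
        src R (R.gs g) (fun m => R.pd m g) (fun m => F.jc (R.X m)) ω := fun C0 g hg =>
      (Ct.tg_rk (h C0) (k2 g hg).2.2).add (h C0)
        (Ct.tg_src (h C0) hG h2 hg.2.1 (gg g) hg.2.2 fun m => (k1 m).2)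
    have k5 : ∀ g ω, F.jc (R.ev g) ω = R.dg (R.gs g) ω + (R.rem g ω +
        src R (R.gs g) (fun m => R.pd m g) (fun m => F.jc (R.X m)) ω) +
          ∑ m, R.dg (R.pd m g) ω * F.jc (R.X m) ω := fun g ω => by
      rw [Net.rem, src_eq]; abel
    obtain ⟨C0, k6⟩ := reg_core h1 h hψ.2.1 (U := F.jc (R.ev ψ)) fun C0 =>
      Ct.xs_U (h C0) (R.gs ψ) (T := fun l => F.jc (R.ev (R.f l))) (Y := fun l => F.jc (R.X l))
        (fun l => k4 C0 _ (k3 _ (hR.fC l))) (k4 C0 ψ hψ) (fun ω l => ⟨by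
          simp only [Flow.av, hΓ.2.1, hΓ.2.2]; exact k5 _ ω, by
          obtain ⟨κ, hκ⟩ := hR.hX l
          simp only [Flow.ot, hΓ.2.2]
          change dM (fun x => R.X l ⟨ω.1, x⟩) ω.2 = _
          simp only [hκ]
          rw [dM_sub, dM_sub, dM_const, sub_zero, dM_mulVec, dM_sum]
          simp only [dM_smul]
          rfl⟩) (k5 ψ)
    refine ⟨C0, fun e he => ?_⟩
    obtain ⟨η, η0, D, d1, C, k7⟩ := k6 e he
    refine ⟨η, η0, D, d1, C, k7.mono fun i k w hw => ?_⟩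
    obtain ⟨Ω, k8, k9, k10⟩ := k w hw
    refine ⟨Ω, k8, k9, ex_mono k10 (fun x => le_of_eq ?_) le_rfl le_rfl⟩
    congr 2
    funext j
    simp only [dotProduct, grad_sum, grad_const_mul, mulVec, transpose_apply, Fam.jc, S3F.jac,
      of_apply, Pi.smul_apply, smul_eq_mul]
    exact sum_congr rfl fun _ _ => mul_comm _ _

end Crest.Agent.T157.S3

end
end

-- ▼ part T157/S3AnB_90
section

/-!
# Row 157, block B/S3 (helper90): the fields `dv`, `gf`, `eq`, `en` of the ansatz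
-/

set_option autoImplicit false

noncomputable section

namespace Crest.Agent.T157.S3.An90

open Matrix Filter Finset
open Crest.Agent.T157.E (Cube sv ising prob)
open Crest.Agent.T157.Rec (grad fl)
open Crest.Agent.T157.Eig
open Crest.Agent.T157.Chain22 (IsP mean isP_prob' emean_eq)
open Crest.Agent.T157.Ent (mean_add' mean_sub' mean_const_mul mean_mul_const mean_congr mean_sum')
open Crest.Agent.T157.S3F (jac hsJ)
open Fam Cls80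

variable {F : Fam} {n N P P' : ℕ} {R : Net F N} {𝒯 : Set F.Df}

theorem gram_qs (hG : GRAMStmt) (hF : F.Ok) (hR : R.Ok) {Φ : Flow R P} {Φ' : Flow R P'}
    {d al al' : F.Lf (N + 1)} {a : Fin P → F.Lf (N + 1)} {a' : Fin P' → F.Lf (N + 1)}
    {Pb : Fin P → Fin P' → F.I → ℝ} (hΦ : Φ.Ok) (hΦ' : Φ'.Ok) (hd : d ∈ R.C) (hP : Φ.IsP Φ' d Pb)
    (hl : Φ.Let al a) (hl' : Φ'.Let al' a') (hb : ∀ m, Bil R 𝒯 (R.ev (a m)))
    (hb' : ∀ m, Bil R 𝒯 (R.ev (a' m))) :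
    Qs 𝒯 fun _ B i w => |mean (prob (F.w i)) (fun x => ((Φ.tT al a ⟨i, x⟩)ᵀ *ᵥ w) ⬝ᵥ
      (R.ev d ⟨i, x⟩ * (Φ'.tT al' a' ⟨i, x⟩)ᵀ *ᵥ w)) -
        (w * w) ⬝ᵥ (F.EV (R.ev (al * d * al')) i + en R Pb a a' i)| ≤ B := fun e he => by
  obtain ⟨D, hD, C, H⟩ := hG F N P P' R 𝒯 Φ Φ' d al al' a a' Pb hF hR hΦ hΦ' hd hP hl hl' hb hb' e he
  refine ⟨1, one_pos, D, hD, |C|, H.mono fun i h w hw => (h w).trans ?_⟩
  have k0 : 0 ≤ F.K i := zero_le_one.trans (hF.K1 i)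
  have h1 : C * F.K i * ‖w‖ ^ 2 ≤ |C| * F.K i * 1 :=
    mul_le_mul (mul_le_mul_of_nonneg_right (le_abs_self C) k0) (pow_le_one₀ (norm_nonneg _) hw)
      (sq_nonneg _) (by positivity)
  have h2 := mul_le_mul_of_nonneg_right (le_abs_self C) (sq_nonneg (Fam.Pi D i w))
  unfold E0
  linarith

theorem le_qs {u c : F.Df} (h : Le u c) :
    Qs 𝒯 fun _ B i w => (w * w) ⬝ᵥ u i - (w * w) ⬝ᵥ c i ≤ B := fun e he => by
  obtain ⟨η, η0, D, hD, C, H⟩ := neg_dot (𝒯 := 𝒯) h e he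
  refine ⟨η, η0, D, hD, C, H.mono fun i a w hw => le_trans ?_ ((le_abs_self _).trans (a w hw))⟩
  rw [← dotProduct_sub]
  exact sum_le_sum fun k _ => mul_le_mul_of_nonneg_left (le_max_left _ _) (mul_self_nonneg _)

theorem mo_abs (f : ∀ i : F.I, V (F.n i) → ℝ) : Mo fun _ B i w => |f i w| ≤ B := mo_le _

theorem mo_reg (C0 : ℝ) (U U' : ∀ i : F.I, V (F.n i) → Cube (F.n i) → V (F.n i)) :
    Mo fun e B i w => ∃ Ω, Rg e (C0 * nrm w) Ω ∧ Exc (F.w i) e B (fun x => nrm (U i w x - Ω x)) ∧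
      Exc (F.w i) e B fun x => nrm (U' i w x - Ω x) :=
  fun _ _ _ _ _ h ⟨Ω, h1, h2, h3⟩ =>
    ⟨Ω, h1, Exc.mono h2 le_rfl h fun _ => le_rfl, Exc.mono h3 le_rfl h fun _ => le_rfl⟩

theorem qd_le {d : V n} (hd : ∀ j, 0 ≤ d j ∧ d j ≤ 1) (u t o : V n) :
    u ⬝ᵥ (d * u) ≤ 2 * (t ⬝ᵥ (d * t)) + (4 * nrm (t - o) ^ 2 + 4 * nrm (u - o) ^ 2) := by
  simp only [nrm_sq, dotProduct, mul_sum, ← sum_add_distrib, Pi.mul_apply, Pi.sub_apply]
  refine sum_le_sum fun j _ => ?_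
  have h1 : u j ^ 2 ≤ 2 * t j ^ 2 + 2 * (u j - t j) ^ 2 := by nlinarith [sq_nonneg (u j - 2 * t j)]
  have h2 : (u j - t j) ^ 2 ≤ 2 * (t j - o j) ^ 2 + 2 * (u j - o j) ^ 2 := by
    nlinarith [sq_nonneg (u j + t j - 2 * o j)]
  nlinarith [mul_le_mul_of_nonneg_left h1 (hd j).1,
    mul_le_mul_of_nonneg_right (hd j).2 (sq_nonneg (u j - t j))]

section top
variable {Γ : Flow R (N + 1)} {g : F.Lf (N + 1)} {PD : Fin (N + 1) → Fin (N + 1) → F.I → ℝ}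
  {c : F.Df}

/-- the energy of a top family -/
theorem energy (hG : GRAMStmt) (hE : REGgStmt) (hF : F.Ok) (hR : R.Ok) (hT : R.Ty 𝒯)
    (hΓ : Γ.IsGrad) (hg : R.Top g) (hb : ∀ m, Bil R 𝒯 (R.ev (R.pd m g))) (hP : Γ.IsP Γ R.D PD)
    (hc : Le (fun i => F.EV (R.ev (R.gs g * R.D * R.gs g)) i +
      en R PD (fun m => R.pd m g) (fun m => R.pd m g) i) c) :
    Qs 𝒯 fun _ B i w => mean (prob (F.w i)) (fun x => grad (fun z => w ⬝ᵥ R.ev g ⟨i, z⟩) x ⬝ᵥ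
      (Dg (F.J i) (F.y i) x * grad (fun z => w ⬝ᵥ R.ev g ⟨i, z⟩) x)) -
        2 * ((w * w) ⬝ᵥ c i) ≤ B := by
  obtain ⟨C0, h1⟩ := hE F N R 𝒯 Γ g hF hR hT hΓ hg hb
  have hl := K71.let_grad hR Γ hg hg.2.2
  have h2 := gram_qs hG hF hR hΓ.1 hΓ.1 (K71.D_mem hR) hP hl hl hb hb
  have m1 := mo_reg C0 (fun i w x => (Γ.tT (R.gs g) (fun m => R.pd m g) ⟨i, x⟩)ᵀ *ᵥ w)
    fun i w x => grad (fun z => w ⬝ᵥ R.ev g ⟨i, z⟩) x
  refine Qs.imp hF (m1.and ((mo_abs _).and (mo_le _))) (mo_le _)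
    (Qs.and hF m1 ((mo_abs _).and (mo_le _)) h1 (Qs.and hF (mo_abs _) (mo_le _) h2 (le_qs hc)))
    fun e he => ⟨e / 12, by positivity, 1, one_pos, 12, 0, by norm_num, by linarith,
      Eventually.of_forall fun i w B _ _ ⟨⟨Ω, _, a1, a2⟩, a3, a4⟩ => ?_⟩
  have b1 := Exc.mean (wpos F i) a1 fun x => nrm_nonneg _
  have b2 := Exc.mean (wpos F i) a2 fun x => nrm_nonneg _
  have b3 := (isP F i).mean_mono fun x => qd_le (Dg_mem (F.J i) (F.y i) x)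
    (grad (fun z => w ⬝ᵥ R.ev g ⟨i, z⟩) x)
    ((Γ.tT (R.gs g) (fun m => R.pd m g) ⟨i, x⟩)ᵀ *ᵥ w) (Ω x)
  rw [mean_add', mean_add', mean_const_mul, mean_const_mul, mean_const_mul] at b3
  simp only [K71.D_eq hR] at a3
  have b4 := (abs_le.1 a3).2
  linarith

/-- the gradient of `w · g` -/
theorem grad_le (hJ : J1Stmt) (hF : F.Ok) (hR : R.Ok) (hg : R.Top g) : ∃ C : ℝ, 0 ≤ C ∧
    ∀ (i : F.I) (w : V (F.n i)) x, nrm (grad (fun z => w ⬝ᵥ R.ev g ⟨i, z⟩) x) ≤ C * nrm w := by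
  obtain ⟨C, h⟩ := ((hJ F N R hF hR).2.2.2.1 g hg).1
  refine ⟨|C|, abs_nonneg _, fun i w x => ?_⟩
  rw [grad_dot]
  refine (nrm_mulVec_le _ _).trans (mul_le_mul_of_nonneg_right ?_ (nrm_nonneg _))
  rw [opn_transpose]
  exact (h ⟨i, x⟩).trans (le_abs_self _)

/-- **transport** for a top family -/
theorem tr_sml {C c0 θ : ℝ} (hH : HB F C c0) (hθ : 0 < θ) (hJ : J1Stmt) (hG : GRAMStmt)
    (hE : REGgStmt) (hF : F.Ok) (hR : R.Ok) (hT : R.Ty 𝒯)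
    (hΓ : Γ.IsGrad) (hg : R.Top g) (hb : ∀ m, Bil R 𝒯 (R.ev (R.pd m g))) (hP : Γ.IsP Γ R.D PD)
    (hc : Le (fun i => F.EV (R.ev (R.gs g * R.D * R.gs g)) i +
      en R PD (fun m => R.pd m g) (fun m => R.pd m g) i) c) :
    Sml 𝒯 fun i w ν => |mean ν (fun x => w ⬝ᵥ R.ev g ⟨i, x⟩) -
      mean (prob (F.w i)) fun x => w ⬝ᵥ R.ev g ⟨i, x⟩| -
        (F.H i ν / θ + 2 * C * θ * ((w * w) ⬝ᵥ c i)) := by
  obtain ⟨C0, h1⟩ := hE F N R 𝒯 Γ g hF hR hT hΓ hg hb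
  obtain ⟨C1, c1, h3⟩ := grad_le hJ hF hR hg
  have h2 := energy hG hE hF hR hT hΓ hg hb hP hc
  have m1 := mo_reg C0 (fun i w x => (Γ.tT (R.gs g) (fun m => R.pd m g) ⟨i, x⟩)ᵀ *ᵥ w)
    fun i w x => grad (fun z => w ⬝ᵥ R.ev g ⟨i, z⟩) x
  have C0' := hH.C0
  have c0' := hH.c0
  refine Qs.imp hF (m1.and (mo_le _)) (mo_sml _) (Qs.and hF m1 (mo_le _) h1 h2) fun e he => ?_
  obtain ⟨e1, p1, q1, -, r1⟩ := ex_acc c0' hθ.le
  obtain ⟨e2, p2, -, -, r2⟩ := ex_acc he (by positivity : 0 ≤ 2 * C * θ)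
  obtain ⟨η, pη, -, -, rη⟩ := ex_acc c0' (by positivity : 0 ≤ θ * (|C0| + C1))
  refine ⟨min (e1 ^ 2) e2, by positivity, η, pη, 2 * C * θ, C / θ + C * θ, by positivity,
    (mul_le_mul_of_nonneg_left (min_le_right _ _) (by positivity)).trans r2,
    Eventually.of_forall fun i w B hw _ ⟨⟨Ω, a0, _, a2⟩, a3⟩ ν hν => ?_⟩
  have n0 := nrm_nonneg w
  have q2 : e1 ^ 2 ≤ e1 := by nlinarith
  have b := hH.tr i (fun z => w ⬝ᵥ R.ev g ⟨i, z⟩) Ω e1 ((|C0| + C1) * nrm w) B θ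
    (Rg.mono a0 ((min_le_left _ _).trans q2)
      (mul_le_mul_of_nonneg_right (by linarith [le_abs_self C0]) n0))
    (Exc.mono a2 (min_le_left _ _) le_rfl fun _ => le_rfl)
    (fun x => (h3 i w x).trans (mul_le_mul_of_nonneg_right (by linarith [abs_nonneg C0]) n0))
    hθ r1 ?_ ν hν
  · have k1 := hF.K1 i
    have b1 : C / θ + C * θ ≤ (C / θ + C * θ) * F.K i := le_mul_of_one_le_right (by positivity) k1
    have b2 := mul_le_mul_of_nonneg_left a3 (by positivity : 0 ≤ C * θ)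
    have b3 := mul_le_mul_of_nonneg_left (q2.trans q1) (by positivity : 0 ≤ C * θ)
    have b4 := mul_nonneg he.le (H_nonneg i hν)
    rw [add_div] at b
    linarith
  · have b1 := (nrm_le_sup w).trans (mul_le_mul_of_nonneg_right hw (Real.sqrt_nonneg _))
    have b2 := mul_le_mul_of_nonneg_left b1 (by positivity : 0 ≤ θ * (|C0| + C1))
    have b3 := mul_le_mul_of_nonneg_right rη (Real.sqrt_nonneg (F.n i))
    linarith

end top

/-! ### the closure -/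

theorem err_sml (hC : ClsStmt) (hF : F.Ok) {v : F.Vf} (hv : R.cx.O2 v) :
    Sml 𝒯 fun i w ν => mean ν fun x => |w ⬝ᵥ v ⟨i, x⟩| := by
  obtain ⟨C, h⟩ := ((hC F hF).2.2.2.2 N R _ hv).2
  refine Qs.imp hF (fun _ _ _ _ _ _ h => h) (mo_sml _) Qs.triv fun e he => ?_
  obtain ⟨η, pη, -, -, rη⟩ := ex_acc he (abs_nonneg C)
  refine ⟨e, he, η, pη, 1, C ^ 2 / e, zero_le_one, by linarith,
    Eventually.of_forall fun i w B hw hB _ ν hν => ?_⟩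
  have k0 : 0 ≤ F.K i := zero_le_one.trans (hF.K1 i)
  have n0 := nrm_nonneg w
  have H0 := H_nonneg i hν
  have s0 : 0 < √(F.n i : ℝ) := Real.sqrt_pos.2 (Nat.cast_pos.2 (hF.pos i))
  have h1 : (mean ν fun x => |w ⬝ᵥ v ⟨i, x⟩|) ≤ nrm w * (|C| * (√(F.K i) + F.H i ν / √(F.n i))) := by
    refine (hν.mean_mono (g := fun x => nrm w * √(∑ k, v ⟨i, x⟩ k ^ 2)) fun x => ?_).trans ?_
    · refine (abs_dot_le _ _).trans_eq ?_
      simp only [nrm, dotProduct, sq]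
    · rw [mean_const_mul]
      exact mul_le_mul_of_nonneg_left ((h i ν hν).trans
        (mul_le_mul_of_nonneg_right (le_abs_self C) (by positivity))) n0
  have h2 := young (a := nrm w) (b := |C| * √(F.K i)) he
  rw [nrm_sq, mul_pow, sq_abs, Real.sq_sqrt k0, ← div_mul_eq_mul_div] at h2
  have h3 : nrm w / √(F.n i) ≤ η := (div_le_iff₀ s0).2
    ((nrm_le_sup w).trans (mul_le_mul_of_nonneg_right hw s0.le))
  have h4 : |C| * (nrm w / √(F.n i)) * F.H i ν ≤ e * F.H i ν := mul_le_mul_of_nonneg_right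
    ((mul_le_mul_of_nonneg_left h3 (abs_nonneg C)).trans rη) H0
  have h5 : nrm w * (|C| * (√(F.K i) + F.H i ν / √(F.n i))) =
      nrm w * (|C| * √(F.K i)) + |C| * (nrm w / √(F.n i)) * F.H i ν := by ring
  linarith

section cl
variable {Φ : Flow R P} {Γ : Flow R (N + 1)} {Pb : Fin P → Fin (N + 1) → F.I → ℝ}
  {Z : Fin P → F.Vf} {al : F.Lf (N + 1)} {a : Fin P → F.Lf (N + 1)}

/-- the divergence is the drift, weakly -/
theorem cl_sml (hC : ClsStmt) (hL : CLStmt) (hO : COLStmt) (hF : F.Ok) (hR : R.Ok) (hT : R.Ty 𝒯)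
    (hΦ : Φ.Ok) (hD : Φ.IsDrift Γ Pb Z) (hl : Φ.Let al a) (hb : ∀ m, Bil R 𝒯 (R.ev (a m))) :
    Sml 𝒯 fun i w ν => mean ν fun x =>
      |w ⬝ᵥ (Φ.tTb al a ⟨i, x⟩ *ᵥ F.τ ⟨i, x⟩ - Φ.tA Pb Z al a ⟨i, x⟩)| := by
  obtain ⟨g, c, c', h1, -, h2⟩ := hL F N P R Φ Γ Pb Z hF hR hΦ hD
  obtain ⟨g0, h3, h4⟩ := h2 al a hl
  have h5 : Sml 𝒯 fun i w ν => mean ν fun x =>
      |w ⬝ᵥ (g0 ⟨i, x⟩ + ∑ m, R.ev (a m) ⟨i, x⟩ * c' m ⟨i, x⟩)| :=
    hO F N P R 𝒯 Φ a g c c' g0 hF hR hT hΦ hl.2.2 hb h1 h3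
  refine (h5.add hF (err_sml hC hF h4)).mono hF fun i w ν hν => ?_
  rw [← mean_add']
  refine hν.mean_mono fun x => le_trans (le_of_eq ?_) (abs_add_le _ _)
  rw [← dotProduct_add, add_sub_cancel]

/-- the divergence is the drift, in norm -/
theorem cl_sq (hC : ClsStmt) (hJ : J1Stmt) (hL : CLStmt) (hF : F.Ok) (hR : R.Ok)
    (hΦ : Φ.Ok) (hD : Φ.IsDrift Γ Pb Z) (hl : Φ.Let al a) :
    K71.SqV fun ω => Φ.tTb al a ω *ᵥ F.τ ω - Φ.tA Pb Z al a ω := by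
  obtain ⟨g, c, c', -, h1, h2⟩ := hL F N P R Φ Γ Pb Z hF hR hΦ hD
  obtain ⟨g0, h3, h4⟩ := h2 al a hl
  have hx := (hJ F N R hF hR).1
  have h5 := K71.SqV_add (K71.SqV_add (K71.TV_sq hF hx h3) (K71.SqV_sum univ fun m _ =>
    K71.SqV_bmul (R := R) (hx.bl_bd (K71.bl (hl.2.2 m))) (h1 m))) (K71.O2_sq hC hF h4)
  exact S3W.Cx.cg (P := K71.SqV) h5 fun ω => add_sub_cancel _ _

end cl

theorem abs_le_of_sq {x a b c : ℝ} (hb : 0 ≤ b) (hc : 0 ≤ c) (h : x ^ 2 ≤ a * b ^ 2 * c) :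
    |x| ≤ √|a| * b * √c := by
  refine abs_le_of_sq_le_sq' ?_ (by positivity) |> abs_le.2
  rw [mul_pow, mul_pow, Real.sq_sqrt (abs_nonneg a), Real.sq_sqrt hc]
  exact h.trans (mul_le_mul_of_nonneg_right
    (mul_le_mul_of_nonneg_right (le_abs_self a) (sq_nonneg b)) hc)

theorem mean_dot (ν : Cube n → ℝ) (w : V n) (u : Cube n → V n) :
    mean ν (fun x => w ⬝ᵥ u x) = w ⬝ᵥ fun k => mean ν fun x => u x k := by
  simp only [dotProduct]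
  rw [mean_sum']
  exact sum_congr rfl fun k _ => mean_const_mul _ _

theorem abs_mean_le {ν : Cube n → ℝ} (hν : IsP ν) (f : Cube n → ℝ) :
    |mean ν f| ≤ mean ν fun x => |f x| := by
  refine abs_le.2 ⟨?_, hν.mean_mono fun x => le_abs_self _⟩
  have := hν.mean_mono (f := fun x => -1 * |f x|) (g := f) fun x => by linarith [neg_abs_le (f x)]
  rw [mean_const_mul] at this
  linarith

/-! ### the fields -/

variable {d : Tp R P} {a C0 e : ℝ} {p q α : F.Df}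

/-- **(a')** -/
theorem dv_field (hH : HBStmt) (hC : ClsStmt) (hJ : J1Stmt) (hL : CLStmt) (hF : F.Ok)
    (h : TopIn d 𝒯 a C0 e p q α) : ∃ C : ℝ, 0 ≤ C ∧ ∀ (i : F.I) (w : V (F.n i)) ν, IsP ν →
      |mean ν fun x => w ⬝ᵥ d.Φ.tTb (R.gs d.ψ) d.t ⟨i, x⟩ *ᵥ tau (F.J i) (F.y i) x| ≤
        C * nrm w * √(F.H i ν + F.K i) := by
  have hR := h.net
  have hl := K71.let_grad hR d.Φ h.top h.tC
  obtain ⟨C, c, hb⟩ := hb_ok hH hF
  obtain ⟨C1, -, h1⟩ := grad_le hJ hF hR ((hJ F N R hF hR).2.2.1 _ h.AC)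
  obtain ⟨C2, h2⟩ := (hC F hF).2.2.2.1 _ (cl_sq hC hJ hL hF hR h.flow h.drift hl)
  refine ⟨√|12 * C * C1 ^ 2| + 2 * √|(|C2|)|, by positivity, fun i w ν hν => ?_⟩
  have k1 := hF.K1 i
  have n0 := nrm_nonneg w
  have H0 := H_nonneg i hν
  set v : Cube (F.n i) → V (F.n i) := fun x => d.Φ.tTb (R.gs d.ψ) d.t ⟨i, x⟩ *ᵥ F.τ ⟨i, x⟩ -
    d.Φ.tA d.Pb d.Z (R.gs d.ψ) d.t ⟨i, x⟩ with hv
  have e1 : ∀ x, w ⬝ᵥ d.Φ.tTb (R.gs d.ψ) d.t ⟨i, x⟩ *ᵥ tau (F.J i) (F.y i) x =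
      w ⬝ᵥ R.ev d.A ⟨i, x⟩ + w ⬝ᵥ v x := fun x => by
    rw [h.hA, ← dotProduct_add, hv, add_sub_cancel]; rfl
  have e2 : (mean (prob (F.w i)) fun x =>
      w ⬝ᵥ d.Φ.tTb (R.gs d.ψ) d.t ⟨i, x⟩ *ᵥ tau (F.J i) (F.y i) x) = 0 := by
    have := K71.EV_div hF (fun i => (((hJ F N R hF hR).2.2.2.2 P _ h.flow).2 _ _ hl).2.2 i) i
    rw [mean_dot]
    exact (congrArg (w ⬝ᵥ ·) this).trans (dotProduct_zero _)
  have b1 : ∀ ν, IsP ν → |mean ν fun x => w ⬝ᵥ v x| ≤ √|(|C2|)| * nrm w * √(F.H i ν + F.K i) :=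
    fun ν hν => by
      have H0 := H_nonneg i hν
      refine abs_le_of_sq n0 (by linarith) ((msq hν _).trans ?_)
      refine (hν.mean_mono fun x => dot_sq_le w (v x)).trans ?_
      rw [mean_const_mul, nrm_sq, mul_comm |C2|, mul_assoc, add_comm]
      exact mul_le_mul_of_nonneg_left ((h2 i ν hν).trans
        (mul_le_mul_of_nonneg_right (le_abs_self _) (by linarith))) (Hb.dsn w)
  have b2 := b1 _ (isP F i)
  rw [H_self] at b2
  have b3 := b2.trans (mul_le_mul_of_nonneg_left (Real.sqrt_le_sqrt (add_le_add H0 le_rfl))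
    (by positivity))
  have b4 : |mean ν (fun x => w ⬝ᵥ R.ev d.A ⟨i, x⟩) - mean (prob (F.w i)) fun x =>
      w ⬝ᵥ R.ev d.A ⟨i, x⟩| ≤ √|12 * C * C1 ^ 2| * nrm w * √(F.H i ν + F.K i) := by
    refine abs_le_of_sq n0 (by linarith) ((hb.t1 (TS.of_grad (A := (C1 * nrm w) ^ 2) fun x => ?_)
      hν).trans ?_)
    · rw [← nrm_sq]; exact pow_le_pow_left₀ (nrm_nonneg _) (h1 i w x) 2
    · have := hb.C0
      calc _ = 12 * C * C1 ^ 2 * nrm w ^ 2 * (F.H i ν + 1) := by ring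
        _ ≤ _ := mul_le_mul_of_nonneg_left (add_le_add le_rfl k1) (by positivity)
  simp only [e1, mean_add'] at e2 ⊢
  have b5 := abs_le.1 (b1 ν hν)
  have b6 := abs_le.1 b3
  have b7 := abs_le.1 b4
  rw [abs_le]
  constructor <;> linarith [b5.1, b5.2, b6.1, b6.2, b7.1, b7.2]

/-- **(g)** -/
theorem en_field (hG : GRAMStmt) (hE : REGgStmt) (hF : F.Ok)
    (h : TopIn d 𝒯 a C0 e p q α) :
    Qs 𝒯 fun _ B i w => (E.mean (F.w i) fun x => grad (fun z => w ⬝ᵥ R.ev d.ψ ⟨i, z⟩) x ⬝ᵥ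
      (Dg (F.J i) (F.y i) x * grad (fun z => w ⬝ᵥ R.ev d.ψ ⟨i, z⟩) x)) ≤
        2 * C0 * (w ⬝ᵥ (p i * w)) + B := fun e1 he => by
  obtain ⟨η, η0, D, hD, C, H⟩ := energy hG hE hF h.net h.ty h.drift.1 h.top h.bψ h.pD h.eψ e1 he
  refine ⟨η, η0, D, hD, C, H.mono fun i b w hw => ?_⟩
  have h1 : (w * w) ⬝ᵥ (C0 • p i) = C0 * (w ⬝ᵥ (p i * w)) := by
    simp only [dotProduct, mul_sum, Pi.mul_apply, Pi.smul_apply, smul_eq_mul]
    exact sum_congr rfl fun k _ => by ring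
  have h2 := b w hw
  beta_reduce at h2 ⊢
  rw [h1] at h2
  rw [emean_eq]
  linarith

theorem sq_dot_const (w : V n) (c : ℝ) : ((w * w) ⬝ᵥ fun _ => c) = c * (w ⬝ᵥ w) := by
  simp only [dotProduct, mul_sum, Pi.mul_apply]
  exact sum_congr rfl fun k _ => by ring

/-- **(d)** -/
theorem eq_field {C c C' : ℝ} (hb : HB F C c) (hC' : 1 + 2 * C ≤ C') (he : 0 < e) (hC : ClsStmt)
    (hJ : J1Stmt) (hL : CLStmt) (hG : GRAMStmt) (hE : REGgStmt) (hO : COLStmt) (hF : F.Ok)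
    (h : TopIn d 𝒯 a C0 e p q α) :
    Qs 𝒯 fun e1 B i w => ∀ ν, IsP ν → ∀ G : Cube (F.n i) → ℝ,
      (∀ x, G x = w ⬝ᵥ d.Φ.tTb (R.gs d.ψ) d.t ⟨i, x⟩ *ᵥ tau (F.J i) (F.y i) x -
        a * (w ⬝ᵥ R.ev d.ψ ⟨i, x⟩) - (α i * w - F.J i *ᵥ (q i * w)) ⬝ᵥ sv x) →
      |mean ν G - E.mean (F.w i) G| ≤ C' * √e * (w ⬝ᵥ w + F.H i ν) + B + e1 * F.H i ν := by
  have hR := h.net
  have hl := K71.let_grad hR d.Φ h.top h.tC
  have s0 : 0 < √e := Real.sqrt_pos.2 he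
  have h1 := cl_sml hC hL hO hF hR h.ty h.flow h.drift hl h.bt
  have h2 := tr_sml hb (inv_pos.2 s0) hJ hG hE hF hR h.ty h.drift.1 h.rT h.br h.pD h.er
  intro e1 he1
  obtain ⟨η, η0, D, hD, C1, H⟩ := (h1.add hF h1.self.sml).add hF h2 e1 he1
  refine ⟨η, η0, D, hD, C1, H.mono fun i b w hw ν hν G hG => ?_⟩
  have b1 := b w hw ν hν
  set v : Cube (F.n i) → V (F.n i) := fun x => d.Φ.tTb (R.gs d.ψ) d.t ⟨i, x⟩ *ᵥ F.τ ⟨i, x⟩ -
    d.Φ.tA d.Pb d.Z (R.gs d.ψ) d.t ⟨i, x⟩ with hv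
  have e1 : G = fun x => w ⬝ᵥ v x + w ⬝ᵥ R.ev d.r ⟨i, x⟩ - (q i * w) ⬝ᵥ (F.y i - R.b i) := by
    funext x
    have a1 : (F.J i *ᵥ (q i * w)) ⬝ᵥ sv x = (q i * w) ⬝ᵥ F.J i *ᵥ sv x := by
      rw [dotProduct_mulVec, ← mulVec_transpose, hF.symm]
    have a2 : ∀ u z : V (F.n i), w ⬝ᵥ (u * z) = (u * w) ⬝ᵥ z := fun u z =>
      sum_congr rfl fun k _ => by simp only [Pi.mul_apply]; ring
    rw [hG, h.hr, hR.X0, hv, ← h.hA]
    simp only [hf, Fam.τ, dotProduct_sub, dotProduct_add, sub_dotProduct, dotProduct_smul, a1, a2,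
      smul_eq_mul]
    ring
  have b2 := abs_le.1 (abs_mean_le hν fun x => w ⬝ᵥ v x)
  have b3 := abs_le.1 (abs_mean_le (isP F i) fun x => w ⬝ᵥ v x)
  have b4 : F.H i ν / (√e)⁻¹ + 2 * C * (√e)⁻¹ * ((w * w) ⬝ᵥ fun _ => e) ≤
      C' * √e * (w ⬝ᵥ w + F.H i ν) := by
    have a1 : (√e)⁻¹ * e = √e := by
      rw [inv_mul_eq_div, Real.div_sqrt]
    have a2 := mul_nonneg s0.le (H_nonneg i hν)
    have a3 := mul_nonneg s0.le (Hb.dsn w)
    rw [sq_dot_const, div_inv_eq_mul, mul_assoc (2 * C), ← mul_assoc _ e, a1]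
    nlinarith [hb.C0, mul_nonneg hb.C0 a2, mul_le_mul_of_nonneg_right hC' (add_nonneg a2 a3)]
  rw [emean_eq, e1, mean_sub', mean_sub', mean_add', mean_add', hν.mean_const, (isP F i).mean_const]
  have b5 := le_abs_self (mean ν (fun x => w ⬝ᵥ R.ev d.r ⟨i, x⟩) -
    mean (prob (F.w i)) fun x => w ⬝ᵥ R.ev d.r ⟨i, x⟩)
  have b6 := neg_abs_le (mean ν (fun x => w ⬝ᵥ R.ev d.r ⟨i, x⟩) -
    mean (prob (F.w i)) fun x => w ⬝ᵥ R.ev d.r ⟨i, x⟩)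
  rw [abs_le]
  constructor <;> linarith [b2.1, b2.2, b3.1, b3.2]

theorem nrm3 (u v z t : V n) :
    nrm (u - t) ^ 2 ≤ 3 * nrm (v - u) ^ 2 + 3 * nrm (z - t) ^ 2 + 3 * nrm (v - z) ^ 2 := by
  simp only [nrm_sq, dotProduct, mul_sum, ← sum_add_distrib, Pi.sub_apply]
  exact sum_le_sum fun k _ => by
    nlinarith [sq_nonneg (v k - u k + (z k - t k)), sq_nonneg (v k - u k + (v k - z k)),
      sq_nonneg (z k - t k - (v k - z k))]

/-- **(c)** -/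
theorem gf_field {C' : ℝ} (hC' : 6 ≤ C') (he : 0 ≤ e) (hG : GRAMStmt) (hE' : REGStmt)
    (hE : REGgStmt) (hF : F.Ok) (h : TopIn d 𝒯 a C0 e p q α) :
    Qs 𝒯 fun e1 B i w => Exc (F.w i) e1 (C' * e * (w ⬝ᵥ w) + B) fun x =>
      nrm (grad (fun z => w ⬝ᵥ R.ev d.ψ ⟨i, z⟩) x - (d.Φ.tTb (R.gs d.ψ) d.t ⟨i, x⟩)ᵀ *ᵥ w) := by
  have hR := h.net
  have hl := K71.let_grad hR d.Φ h.top h.tC
  have hl' := K71.let_grad hR d.Γ h.top h.top.2.2
  have hΓ := h.drift.1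
  obtain ⟨C1, h1⟩ := hE F N R 𝒯 d.Γ d.ψ hF hR h.ty hΓ h.top h.bψ
  obtain ⟨C2, h2⟩ := hE' F N P R 𝒯 d.Φ _ _ hF hR h.ty h.flow hl h.bt
  have g1 := gram_qs hG hF hR hΓ.1 hΓ.1 hR.one h.p11 hl' hl' h.bψ h.bψ
  have g2 := gram_qs hG hF hR hΓ.1 h.flow hR.one h.p12 hl' hl h.bψ h.bt
  have g3 := gram_qs hG hF hR h.flow h.flow hR.one h.p22 hl hl h.bt h.bt
  have m1 := mo_reg C1 (fun i w x => (d.Γ.tT (R.gs d.ψ) (fun m => R.pd m d.ψ) ⟨i, x⟩)ᵀ *ᵥ w)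
    fun i w x => grad (fun z => w ⬝ᵥ R.ev d.ψ ⟨i, z⟩) x
  have m2 := mo_reg C2 (fun i w x => (d.Φ.tT (R.gs d.ψ) d.t ⟨i, x⟩)ᵀ *ᵥ w)
    fun i w x => (d.Φ.tTb (R.gs d.ψ) d.t ⟨i, x⟩)ᵀ *ᵥ w
  refine Qs.imp hF ((m1.and m2).and (((mo_abs _).and (mo_abs _)).and ((mo_abs _).and (mo_le _))))
    (fun _ _ _ _ _ hB H => Exc.mono H le_rfl (by linarith) fun _ => le_rfl)
    (Qs.and hF (m1.and m2) (((mo_abs _).and (mo_abs _)).and ((mo_abs _).and (mo_le _)))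
      (Qs.and hF m1 m2 h1 h2) (Qs.and hF ((mo_abs _).and (mo_abs _)) ((mo_abs _).and (mo_le _))
        (Qs.and hF (mo_abs _) (mo_abs _) g1 g2) (Qs.and hF (mo_abs _) (mo_le _) g3 (le_qs h.e1))))
    fun e1 he1 => ?_
  obtain ⟨ε, p1, q1, -, r1⟩ := ex_acc he1 (by positivity : 0 ≤ 264 + 256 * (|C1| + |C2|) ^ 2)
  refine ⟨ε, p1, 1, one_pos, 52, 2, by norm_num, by nlinarith [sq_nonneg (|C1| + |C2|)],
    Eventually.of_forall fun i w B _ hB ⟨⟨⟨Ω, a0, a1, a2⟩, Ω', b0, b1, b2⟩, ⟨c1, c2⟩, c3, c4⟩ => ?_⟩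
  have n0 := nrm_nonneg w
  have w0 := Hb.dsn w
  have r0 := Rg.sub (Rg.mono a0 le_rfl (mul_le_mul_of_nonneg_right (le_abs_self C1) n0))
    (Rg.mono b0 le_rfl (mul_le_mul_of_nonneg_right (le_abs_self C2) n0))
  have t1 : mean (prob (F.w i)) (fun x => nrm ((d.Γ.tT (R.gs d.ψ) (fun m => R.pd m d.ψ) ⟨i, x⟩)ᵀ *ᵥ w -
      (d.Φ.tT (R.gs d.ψ) d.t ⟨i, x⟩)ᵀ *ᵥ w) ^ 2) ≤ e * (w ⬝ᵥ w) + 5 * B := by
    have a : ∀ u v : V (F.n i), nrm (u - v) ^ 2 = u ⬝ᵥ u - 2 * (u ⬝ᵥ v) + v ⬝ᵥ v := fun u v => by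
      rw [nrm_sq, sub_dotProduct, dotProduct_sub, dotProduct_sub, dotProduct_comm v u]; ring
    simp only [K71.ev_one, one_mul, dotProduct_add, dotProduct_sub, dotProduct_smul, smul_eq_mul,
      sq_dot_const] at c1 c2 c3 c4
    simp only [a]
    rw [mean_add', mean_sub', mean_const_mul]
    linarith [(abs_le.1 c1).2, (abs_le.1 c2).1, (abs_le.1 c3).2]
  have t2 : mean (prob (F.w i)) (fun x => nrm (Ω x - Ω' x) ^ 2) ≤ 3 * (e * (w ⬝ᵥ w)) + 21 * B := by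
    refine ((isP F i).mean_mono fun x => nrm3 (Ω x)
      ((d.Γ.tT (R.gs d.ψ) (fun m => R.pd m d.ψ) ⟨i, x⟩)ᵀ *ᵥ w)
      ((d.Φ.tT (R.gs d.ψ) d.t ⟨i, x⟩)ᵀ *ᵥ w) (Ω' x)).trans ?_
    rw [mean_add', mean_add', mean_const_mul, mean_const_mul, mean_const_mul]
    linarith [Exc.mean (wpos F i) a1 fun x => nrm_nonneg _,
      Exc.mean (wpos F i) b1 fun x => nrm_nonneg _]
  have ρ0 : 0 < ε * (w ⬝ᵥ w) + 1 := by positivity
  refine Exc.mono (Exc.add (wpos F i) (Exc.add (wpos F i) a2 b2) (exc_rg (wpos F i) r0 ρ0 t2))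
    ?_ ?_ fun x => ?_
  · have a : 8 * (ε + ε) ^ 2 * (2 * (|C1| * nrm w + |C2| * nrm w)) ^ 2 / (ε * (w ⬝ᵥ w) + 1) ≤
        128 * (|C1| + |C2|) ^ 2 * ε := by
      rw [div_le_iff₀ ρ0, ← nrm_sq]
      nlinarith [mul_nonneg (sq_nonneg (|C1| + |C2|)) p1.le]
    nlinarith
  · nlinarith [hF.K1 i, mul_le_mul_of_nonneg_right hC' (mul_nonneg he w0)]
  · have a := nrm_tri (grad (fun z => w ⬝ᵥ R.ev d.ψ ⟨i, z⟩) x) (Ω x)
      ((d.Φ.tTb (R.gs d.ψ) d.t ⟨i, x⟩)ᵀ *ᵥ w)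
    have b := nrm_tri (Ω x) (Ω' x) ((d.Φ.tTb (R.gs d.ψ) d.t ⟨i, x⟩)ᵀ *ᵥ w)
    rw [nrm_sub_comm (Ω' x)] at b
    linarith

end Crest.Agent.T157.S3.An90

end
end

-- ▼ part T157/S3AnsF_90

/-!
# Row 157, block B/S3 (helper90): the ansatz along the family (`S3.AnsFGlue`)
-/

set_option autoImplicit false

noncomputable section

namespace Crest.Agent.T157.S3

open Matrix Filter Finset
open Crest.Agent.T157.E (Cube sv ising prob)
open Crest.Agent.T157.Rec (grad fl)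
open Crest.Agent.T157.Eig
open Crest.Agent.T157.Chain22 (IsP mean isP_prob' emean_eq)
open Crest.Agent.T157.Ent (mean_add' mean_sub' mean_const_mul mean_mul_const mean_congr mean_sum')
open Crest.Agent.T157.S3F (jac hsJ)
open Fam Cls80

namespace An90

variable {F : Fam} {n N P : ℕ} {R : Net F N} {𝒯 : Set F.Df}

theorem exs_anti {e e' : ℝ} (h : e ≤ e') (u : V n) : exs e' u ≤ exs e u :=
  Real.sqrt_le_sqrt (sum_le_sum fun k _ => mul_self_le_mul_self (le_max_right _ _)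
    (max_le_max (by linarith) le_rfl))

theorem Ver.mono {J : Mx n} {y qw : V n} {e e' L L' B B' : ℝ} {U Ω : Cube n → V n}
    (h : Ver J y e L B qw U Ω) (he : e ≤ e') (hL : L ≤ L') (hB : B ≤ B') :
    Ver J y e' L' B' qw U Ω :=
  ⟨Rg.mono h.1 he hL, Exc.mono h.2.1 he hB fun _ => le_rfl,
    Exc.mono h.2.2 he hB fun _ => exs_anti he _⟩

/-- a flat regular version -/
def Fl (C0 : ℝ) (q : F.Df) (U U' : ∀ i : F.I, V (F.n i) → Cube (F.n i) → V (F.n i)) : Pr F :=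
  fun e B i w => ∃ Ω, Ver (F.J i) (F.y i) e (C0 * nrm w) B (q i * w) (U' i w) Ω ∧
    Exc (F.w i) e B (fun x => nrm (U i w x - Ω x)) ∧
    ∀ z, |mean (prob (F.w i)) fun x => z ⬝ᵥ (Dg (F.J i) (F.y i) x * Ω x - q i * w)| ≤
      e * (z ⬝ᵥ z) + B

theorem mo_fl (C0 : ℝ) (q : F.Df) (U U' : ∀ i : F.I, V (F.n i) → Cube (F.n i) → V (F.n i)) :
    Mo (Fl C0 q U U') := fun _ _ _ _ _ h ⟨Ω, h1, h2, h3⟩ =>
  ⟨Ω, Ver.mono h1 le_rfl le_rfl h, Exc.mono h2 le_rfl h fun _ => le_rfl,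
    fun z => (h3 z).trans (add_le_add le_rfl h)⟩

theorem flat_qs (hFl : FlatStmt) (hF : F.Ok) (hR : R.Ok) {Φ : Flow R P} {al : F.Lf (N + 1)}
    {a : Fin P → F.Lf (N + 1)} {q : F.Df} (hΦ : Φ.Ok) (hl : Φ.Let al a)
    (hb : ∀ m, Bil R 𝒯 (R.ev (a m))) (hq : Neg fun i => F.EV (R.ev (R.D * al)) i - q i) {C0 : ℝ}
    {U' : ∀ i : F.I, V (F.n i) → Cube (F.n i) → V (F.n i)}
    (h : Qs 𝒯 fun e B i w => ∃ Ω, Rg e (C0 * nrm w) Ω ∧
      Exc (F.w i) e B (fun x => nrm ((Φ.tT al a ⟨i, x⟩)ᵀ *ᵥ w - Ω x)) ∧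
      Exc (F.w i) e B fun x => nrm (U' i w x - Ω x)) :
    Qs 𝒯 (Fl C0 q (fun i w x => (Φ.tT al a ⟨i, x⟩)ᵀ *ᵥ w) U') := fun e he => by
  obtain ⟨e', he', D', hD', H'⟩ := hFl F N P R 𝒯 Φ al a q hF hR hΦ hl hb hq C0 e he
  obtain ⟨η, η0, D, hD, C, H⟩ := h (min e e') (lt_min he he')
  obtain ⟨C1, H'⟩ := H' D |C|
  refine ⟨min η e', lt_min η0 he', D ++ D', List.forall_mem_append.2 ⟨hD, hD'⟩, |C| + |C1|, ?_⟩
  filter_upwards [H, H'] with i b b' w hw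
  obtain ⟨Ω, h1, h2, h3⟩ := b w (hw.trans (min_le_left _ _))
  have E1 : E0 (min e e') C D i w ≤ E0 e' |C| D i w := by
    simpa using E0_le hF (e := e') (e' := min e e') (A := 1) (M := 0) (C := C) (C' := |C|)
      zero_le_one (by simp) (by simp) (le_refl (Fam.Pi D i w))
  have E2 : E0 (min e e') C D i w ≤ E0 e (|C| + |C1|) (D ++ D') i w := by
    simpa using E0_le hF (e := e) (e' := min e e') (A := 1) (M := 0) (C := C) (C' := |C| + |C1|)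
      (D := D) (D' := D ++ D') (i := i) (w := w) zero_le_one (by simp) (by simp)
      (by rw [Pi_append]; linarith [Pi_nonneg D' i w])
  have E3 : E0 e C1 (D ++ D') i w ≤ E0 e (|C| + |C1|) (D ++ D') i w :=
    E0_mono hF (by linarith [abs_nonneg C]) le_rfl
  obtain ⟨h4, h5⟩ := b' w Ω (hw.trans (min_le_right _ _)) (Rg.mono h1 (min_le_right _ _) le_rfl)
    (Exc.mono h2 (min_le_right _ _) E1 fun _ => le_rfl)
  exact ⟨Ω, ⟨Rg.mono h1 (min_le_left _ _) le_rfl, Exc.mono h3 (min_le_left _ _) E2 fun _ => le_rfl,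
    Exc.mono h4 le_rfl E3 fun _ => le_rfl⟩, Exc.mono h2 (min_le_left _ _) E2 fun _ => le_rfl,
    fun z => (h5 z).trans (add_le_add le_rfl E3)⟩

variable {d : Tp R P} {a C0 e : ℝ} {p q α : F.Df}

/-- the regular version of the gradient -/
theorem vg_field (hG : GRAMStmt) (hE : REGgStmt) (hFl : FlatStmt) (hF : F.Ok)
    (h : TopIn d 𝒯 a C0 e p q α) : ∃ C : ℝ, Qs 𝒯 fun e1 B i w => ∃ Ω,
      Ver (F.J i) (F.y i) e1 (C * nrm w) B (q i * w) (grad fun x => w ⬝ᵥ R.ev d.ψ ⟨i, x⟩) Ω ∧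
      (E.mean (F.w i) fun x => Ω x ⬝ᵥ (Dg (F.J i) (F.y i) x * Ω x)) ≤
        2 * C0 * (w ⬝ᵥ (p i * w)) + B := by
  have hR := h.net
  have hΓ := h.drift.1
  have hl := K71.let_grad hR d.Γ h.top h.top.2.2
  obtain ⟨C, h1⟩ := hE F N R 𝒯 d.Γ d.ψ hF hR h.ty hΓ h.top h.bψ
  have h2 := flat_qs hFl hF hR hΓ.1 hl h.bψ h.hq
    (U' := fun i w x => grad (fun z => w ⬝ᵥ R.ev d.ψ ⟨i, z⟩) x) h1
  have h3 := gram_qs hG hF hR hΓ.1 hΓ.1 (K71.D_mem hR) h.pD hl hl h.bψ h.bψ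
  refine ⟨C, Qs.imp hF ((mo_fl _ _ _ _).and ((mo_abs _).and (mo_le _)))
    (fun _ _ _ _ _ hB ⟨Ω, a1, a2⟩ => ⟨Ω, Ver.mono a1 le_rfl le_rfl hB, by linarith⟩)
    (Qs.and hF (mo_fl _ _ _ _) ((mo_abs _).and (mo_le _)) h2
      (Qs.and hF (mo_abs _) (mo_le _) h3 (le_qs h.eψ)))
    fun e1 he => ⟨e1 / 8, by positivity, 1, one_pos, 8, 0, by norm_num, by linarith,
      Eventually.of_forall fun i w B _ _ ⟨⟨Ω, a1, a2, _⟩, a3, a4⟩ => ?_⟩⟩
  have b0 := Exc.nonneg (wpos F i) a2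
  refine ⟨Ω, Ver.mono a1 (by linarith) le_rfl (by linarith), ?_⟩
  have b1 := Exc.mean (wpos F i) a2 fun x => nrm_nonneg _
  have b3 := (isP F i).mean_mono fun x => qd_le (Dg_mem (F.J i) (F.y i) x) (Ω x)
    ((d.Γ.tT (R.gs d.ψ) (fun m => R.pd m d.ψ) ⟨i, x⟩)ᵀ *ᵥ w) (Ω x)
  simp only [sub_self, nrm_sq 0, dotProduct_zero, mul_zero, add_zero] at b3
  rw [mean_add', mean_const_mul, mean_const_mul] at b3
  simp only [K71.D_eq hR] at a3
  have b4 := (abs_le.1 a3).2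
  have b5 : (w * w) ⬝ᵥ (C0 • p i) = C0 * (w ⬝ᵥ (p i * w)) := by
    simp only [dotProduct, mul_sum, Pi.mul_apply, Pi.smul_apply, smul_eq_mul]
    exact sum_congr rfl fun k _ => by ring
  rw [b5] at a4
  rw [emean_eq]
  linarith

/-- the regular version of the flow and the response -/
theorem vf_field (hH : HBStmt) (hJ : J1Stmt) (hE : REGStmt) (hFl : FlatStmt) (hF : F.Ok)
    (h : TopIn d 𝒯 a C0 e p q α) : ∃ C : ℝ, (Qs 𝒯 fun e1 B i w => ∃ Ω,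
      Ver (F.J i) (F.y i) e1 (C * nrm w) B (q i * w)
        (fun x => (d.Φ.tTb (R.gs d.ψ) d.t ⟨i, x⟩)ᵀ *ᵥ w) Ω) ∧
      Qs 𝒯 fun e1 B i w => ∀ z ν, IsP ν → |mean ν fun x => z ⬝ᵥ (Dg (F.J i) (F.y i) x *
        (d.Φ.tTb (R.gs d.ψ) d.t ⟨i, x⟩)ᵀ *ᵥ w - q i * w)| ≤ e1 * (z ⬝ᵥ z + F.H i ν) + B := by
  have hR := h.net
  have hl := K71.let_grad hR d.Φ h.top h.tC
  obtain ⟨C, h1⟩ := hE F N P R 𝒯 d.Φ _ _ hF hR h.ty h.flow hl h.bt
  have h2 := flat_qs hFl hF hR h.flow hl h.bt h.hq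
    (U' := fun i w x => (d.Φ.tTb (R.gs d.ψ) d.t ⟨i, x⟩)ᵀ *ᵥ w) h1
  refine ⟨C, fun e1 he => ?_, ?_⟩
  · obtain ⟨η, η0, D, hD, C1, H⟩ := h2 e1 he
    exact ⟨η, η0, D, hD, C1, H.mono fun i b w hw => let ⟨Ω, b1, _⟩ := b w hw; ⟨Ω, b1⟩⟩
  obtain ⟨K, c, hb⟩ := hb_ok hH hF
  obtain ⟨CD, hCD⟩ := ((hJ F N R hF hR).2.2.2.1 _
    ((hJ F N R hF hR).2.2.1 _ (K71.D_mem hR))).1
  have K0 := hb.C0
  refine Qs.imp hF (mo_fl _ _ _ _) (fun _ _ _ _ _ hB H z ν hν => (H z ν hν).trans (by linarith)) h2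
    fun e1 he => ?_
  set S := √|12 * K * (1 + 3 * |CD|) ^ 2| with hS
  have S0 : 0 ≤ S := Real.sqrt_nonneg _
  obtain ⟨ε, p1, q1, q2, r1⟩ := ex_acc (by positivity : 0 < e1 / 3)
    (by positivity : 0 ≤ 1 + 6 / e1 + S + 3 * K / e1)
  have u1 : 0 ≤ 6 / e1 * ε := by positivity
  have u2 : 0 ≤ S * ε := by positivity
  have u3 : 0 ≤ 3 * K / e1 * ε := by positivity
  refine ⟨ε, p1, 1, one_pos, 1 + 6 / e1, e1, by positivity, by linarith,
    Eventually.of_forall fun i w B _ _ ⟨Ω, ⟨a0, a1, _⟩, _, a3⟩ z ν hν => ?_⟩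
  have H0 := H_nonneg i hν
  have z0 := Hb.dsn z
  set U : Cube (F.n i) → V (F.n i) := fun x => (d.Φ.tTb (R.gs d.ψ) d.t ⟨i, x⟩)ᵀ *ᵥ w with hU
  set D := Dg (F.J i) (F.y i) with hD
  have b1 : |mean ν fun x => z ⬝ᵥ (D x * (U x - Ω x))| ≤
      e1 / 3 * (z ⬝ᵥ z) + (2 * B + K * ε * (F.H i ν + 1)) / (e1 / 3) := by
    refine (abs_mean_le hν _).trans ((hν.mean_mono (g := fun x => e1 / 3 * (z ⬝ᵥ z) +
      nrm (U x - Ω x) ^ 2 * (e1 / 3)⁻¹) fun x => ?_).trans ?_)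
    · refine (abs_dot_le _ _).trans ((young (by positivity : 0 < e1 / 3)).trans ?_)
      rw [nrm_sq, ← div_eq_mul_inv]
      refine add_le_add le_rfl (div_le_div_of_nonneg_right ?_ (by positivity))
      rw [nrm_sq, nrm_sq]
      refine sum_le_sum fun k _ => ?_
      have := Dg_mem (F.J i) (F.y i) x k
      rw [Pi.mul_apply, mul_mul_mul_comm]
      exact mul_le_of_le_one_left (mul_self_nonneg _) (mul_le_one₀ this.2 this.1 this.2)
    · rw [mean_add', hν.mean_const, mean_mul_const, ← div_eq_mul_inv]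
      exact add_le_add le_rfl (div_le_div_of_nonneg_right
        (hb.exc (fun x => nrm_nonneg _) a1 hν) (by positivity))
  have b2 : |mean ν (fun x => z ⬝ᵥ (D x * Ω x)) - mean (prob (F.w i)) fun x => z ⬝ᵥ (D x * Ω x)| ≤
      S * (ε * nrm z) * √(F.H i ν + 1) := by
    refine abs_le_of_sq (mul_nonneg p1.le (nrm_nonneg _)) (by linarith)
      ((hb.t1 (TS.of_grad (A := ((1 + 3 * |CD|) * ε * nrm z) ^ 2) fun x => ?_) hν).trans_eq
        (by ring))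
    rw [← nrm_sq, grad_dot]
    refine pow_le_pow_left₀ (nrm_nonneg _) ((nrm_mulVec_le _ _).trans
      (mul_le_mul_of_nonneg_right ?_ (nrm_nonneg _))) 2
    have c1 : opn (jac D x) ≤ |CD| := by
      have := (hCD ⟨i, x⟩).trans (le_abs_self _)
      simpa only [Fam.jc, K71.D_eq hR] using this
    rw [opn_transpose]
    refine (S3F.opn_jac_mul zero_le_one p1.le (fun k => ?_)
      fun k => (norm_le_pi_norm (Ω x) k).trans (a0 x).1).trans ?_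
    · have := Dg_mem (F.J i) (F.y i) x k
      rw [abs_of_nonneg this.1]; exact this.2
    · have c2 := (a0 x).2.1
      have c3 := mul_le_mul (add_le_add (le_refl (1 : ℝ)) c1) c2 (opn_nonneg _) (by positivity)
      have c4 := mul_le_mul (add_le_add (le_refl ε) c2) c1 (opn_nonneg _) (by positivity)
      linarith
  have b3 : S * (ε * nrm z) * √(F.H i ν + 1) ≤ e1 / 3 * (z ⬝ᵥ z + (F.H i ν + 1)) := by
    have c1 : nrm z * √(F.H i ν + 1) ≤ z ⬝ᵥ z + (F.H i ν + 1) := by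
      nlinarith [sq_nonneg (nrm z - √(F.H i ν + 1)), nrm_sq z,
        Real.sq_sqrt (by linarith : 0 ≤ F.H i ν + 1)]
    calc _ = S * ε * (nrm z * √(F.H i ν + 1)) := by ring
      _ ≤ _ := mul_le_mul (by linarith) c1 (mul_nonneg (nrm_nonneg _) (Real.sqrt_nonneg _))
        (by positivity)
  have b4 : (2 * B + K * ε * (F.H i ν + 1)) / (e1 / 3) =
      6 / e1 * B + 3 * K / e1 * ε * (F.H i ν + 1) := by field_simp; ring
  have b5 : 3 * K / e1 * ε * (F.H i ν + 1) ≤ e1 / 3 * (F.H i ν + 1) :=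
    mul_le_mul_of_nonneg_right (by linarith) (by linarith)
  have b6 := a3 z
  have b7 := mul_le_mul_of_nonneg_right q2 z0
  have b8 := mul_le_mul_of_nonneg_left (hF.K1 i) he.le
  have b9 := mul_nonneg he.le H0
  have e2 : (fun x => z ⬝ᵥ (D x * U x - q i * w)) =
      fun x => z ⬝ᵥ (D x * (U x - Ω x)) + z ⬝ᵥ (D x * Ω x) - z ⬝ᵥ (q i * w) := by
    funext x; rw [mul_sub, dotProduct_sub, dotProduct_sub, sub_add_cancel]
  simp only [dotProduct_sub] at b6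
  rw [mean_sub', (isP F i).mean_const] at b6
  rw [e2, mean_sub', mean_add', hν.mean_const, abs_le]
  have c1 := abs_le.1 b1
  have c2 := abs_le.1 b2
  have c3 := abs_le.1 b6
  constructor <;> linarith [c1.1, c1.2, c2.1, c2.2, c3.1, c3.2]

end An90


end Crest.Agent.T157.S3

end
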