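import Crest.Agent.T157.S3X_43
import Crest.Agent.T157.S3Ex_98
import Crest.Agent.T157.S3Jb_82
import Crest.Agent.T157.S3K_71

-- ▼ part T157/S3Y_43
section

/-!
# Row 157, part B, block S3 (helper43): (WX), the Gram formula
-/

set_option autoImplicit false
set_option linter.unusedSectionVars false
set_option linter.unusedTactic false

noncomputable section

namespace Crest.Agent.T157.S3W

open Matrix Finset
open Crest.Agent.T157.Eig Crest.Agent.T157.Fr Crest.Agent.T157.Uw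

section paths
variable {N α M : Type*} (pre : N → Finset N) (al : N → α) (a : N → N → α)

/-- sum of `F` over the words of the paths which start at `l` -/
def ps [AddCommMonoid M] : ℕ → N → (List α → M) → M
  | 0, _, _ => 0
  | k + 1, l, F => F [al l] + ∑ m ∈ pre l, ps k m fun u => F (a l m :: u)

variable {pre al a}

theorem ps_hom {M' : Type*} [AddCommMonoid M] [AddCommMonoid M'] (g : M →+ M') :
    ∀ (k : ℕ) (l : N) (F : List α → M), ps pre al a k l (fun u => g (F u)) = g (ps pre al a k l F)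
  | 0, _, _ => (map_zero g).symm
  | k + 1, l, F => by simp only [ps, map_add, map_sum, ← ps_hom g k]

theorem ps_add [AddCommMonoid M] : ∀ (k : ℕ) (l : N) (F G : List α → M),
    ps pre al a k l (fun u => F u + G u) = ps pre al a k l F + ps pre al a k l G
  | 0, _, _, _ => (add_zero _).symm
  | k + 1, l, F, G => by simp only [ps, ps_add k, sum_add_distrib]; abel

theorem ps_zero [AddCommMonoid M] (k : ℕ) (l : N) : ps pre al a k l (fun _ => (0 : M)) = 0 :=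
  ps_hom (0 : M →+ M) k l fun _ => 0

theorem ps_sum [AddCommMonoid M] {κ : Type*} (t : Finset κ) (k : ℕ) (l : N) (F : κ → List α → M) :
    ps pre al a k l (fun u => ∑ q ∈ t, F q u) = ∑ q ∈ t, ps pre al a k l (F q) := by
  classical
  induction t using Finset.induction_on with
  | empty => simp [ps_zero]
  | insert q t hq ih => simp only [sum_insert hq, ps_add, ih]

theorem ps_congr [AddCommMonoid M] : ∀ (k : ℕ) (l : N) {F G : List α → M},
    (∀ u, u ≠ [] → F u = G u) → ps pre al a k l F = ps pre al a k l G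
  | 0, _, _, _, _ => rfl
  | k + 1, l, F, G, h => by
    rw [ps, ps, h _ (by simp)]
    exact congrArg _ (sum_congr rfl fun m _ => ps_congr k m fun u _ => h _ (by simp))

theorem ps_mul [Semiring M] (x : M) (k : ℕ) (l : N) (F : List α → M) :
    ps pre al a k l (fun u => x * F u) = x * ps pre al a k l F :=
  ps_hom (AddMonoidHom.mulLeft x) k l F

theorem ps_mul' [Semiring M] (x : M) (k : ℕ) (l : N) (F : List α → M) :
    ps pre al a k l (fun u => F u * x) = ps pre al a k l F * x :=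
  ps_hom (AddMonoidHom.mulRight x) k l F

theorem ps_smul [AddCommGroup M] [Module ℝ M] (x : ℝ) (k : ℕ) (l : N) (F : List α → M) :
    ps pre al a k l (fun u => x • F u) = x • ps pre al a k l F :=
  ps_hom (DistribSMul.toAddMonoidHom M x) k l F

theorem ps_smul' [AddCommGroup M] [Module ℝ M] (x : M) (k : ℕ) (l : N) (F : List α → ℝ) :
    ps pre al a k l (fun u => F u • x) = ps pre al a k l F • x :=
  ps_hom ((LinearMap.toSpanSingleton ℝ M x).toAddMonoidHom) k l F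

theorem ps_sub [AddCommGroup M] (k : ℕ) (l : N) (F G : List α → M) :
    ps pre al a k l (fun u => F u - G u) = ps pre al a k l F - ps pre al a k l G := by
  have := ps_add (pre := pre) (al := al) (a := a) k l (fun u => F u - G u) G
  simp only [sub_add_cancel] at this
  rw [this, add_sub_cancel_right]

end paths

namespace Cx

variable {Ω : Type*} {c : Cx Ω} {P : (Ω → ℝ) → Prop} {N N' : Type*}

variable (c) in
/-- the letters and constants of a flow family; `pre l` is the set of nodes below `l` -/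
structure Fm (pre : N → Finset N) (rk : N → ℕ) (a : N → N → c.VF) (ot : N → N → Ω → ℝ) : Prop where
  rk : ∀ l, ∀ m ∈ pre l, rk m < rk l
  bl : ∀ l, ∀ m ∈ pre l, c.BL (a l m)
  th : ∀ l, ∀ m ∈ pre l, c.Th fun ω => c.et (a l m) ω - ot l m ω

variable (c) in
/-- the recursion with sources `S` -/
structure Rc (pre : N → Finset N) (a : N → N → c.VF) (ot : N → N → Ω → ℝ) (S T Y : N → c.MF) :
    Prop where
  eT : ∀ l ω, T l ω = S l ω + ∑ m ∈ pre l, diagonal (a l m ω) * Y m ω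
  eY : ∀ l ω, Y l ω = c.J ω * T l ω - ∑ m ∈ pre l, ot l m ω • T m ω

variable {pre : N → Finset N} {rk : N → ℕ} {a : N → N → c.VF} {ot : N → N → Ω → ℝ}
  {al : N → c.VF} {S T Y : N → c.MF}
  {pre' : N' → Finset N'} {rk' : N' → ℕ} {a' : N' → N' → c.VF} {ot' : N' → N' → Ω → ℝ}
  {al' : N' → c.VF} {T' Y' : N' → c.MF}

theorem Fm.sc (h : c.Ok) (f : c.Fm pre rk a ot) (l : N) (m : N) (hm : m ∈ pre l) : c.Sc (ot l m) :=
  cg (h.md.sub h (h.sc_et (f.bl l m hm)) (h.th.sc (f.th l m hm))) fun _ => sub_sub_cancel _ _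

theorem rk_ind {Q : N → Prop} (hrk : ∀ l, ∀ m ∈ pre l, rk m < rk l)
    (h : ∀ l, (∀ m ∈ pre l, Q m) → Q l) (l : N) : Q l := by
  induction hl : rk l using Nat.strong_induction_on generalizing l with
  | _ k ih => exact h l fun m hm => ih _ (hl ▸ hrk l m hm) m rfl

/-- a class which is closed under the operations of the recursion -/
theorem Rc.ind (h : c.Ok) (f : c.Fm pre rk a ot) (r : c.Rc pre a ot S T Y) (m : c.Md P)
    (hS : ∀ l, (∀ q ∈ pre l, c.Kp P (T q) ∧ c.Kp P (Y q)) → c.Kp P (S l)) (l : N) :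
    c.Kp P (T l) ∧ c.Kp P (Y l) := by
  refine rk_ind (Q := fun l => c.Kp P (T l) ∧ c.Kp P (Y l)) f.rk (fun l ih => ?_) l
  have h1 : c.Kp P (T l) := cg ((hS l ih).add h (Kp.sum h m _ fun q hq =>
    (ih q hq).2.lmul h m (pr_diag h (f.bl l q hq)))) fun ω => (r.eT l ω).symm
  exact ⟨h1, cg ((h1.lmul h m (pr_J h)).sub h m (Kp.sum h m _ fun q hq =>
    (ih q hq).1.smul h m (f.sc h l q hq))) fun ω => (r.eY l ω).symm⟩

theorem Rc.sp (h : c.Ok) (f : c.Fm pre rk a ot) (r : c.Rc pre a ot S T Y) (m : c.Md P)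
    (hS : ∀ l, c.Sp P (S l)) (l : N) : c.Sp P (T l) ∧ c.Sp P (Y l) := by
  refine rk_ind (Q := fun l => c.Sp P (T l) ∧ c.Sp P (Y l)) f.rk (fun l ih => ?_) l
  have h1 : c.Sp P (T l) := cg ((hS l).add (Sp.sum h m _ fun q hq =>
    (ih q hq).2.dmul h (f.bl l q hq))) fun ω => (r.eT l ω).symm
  exact ⟨h1, cg ((h1.Jmul h m).sub h m (Sp.sum h m _ fun q hq =>
    (ih q hq).1.smul m (f.sc h l q hq))) fun ω => (r.eY l ω).symm⟩

theorem Rc.op (h : c.Ok) (f : c.Fm pre rk a ot) (r : c.Rc pre a ot S T Y)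
    (hS : ∀ l, (∀ q ∈ pre l, c.Op (T q) ∧ c.Op (Y q)) → c.Op (S l)) (l : N) :
    c.Op (T l) ∧ c.Op (Y l) := by
  refine rk_ind (Q := fun l => c.Op (T l) ∧ c.Op (Y l)) f.rk (fun l ih => ?_) l
  have h1 : c.Op (T l) := cg ((hS l ih).add (Op.sum _ fun q hq =>
    (BdV.op (h.bl_bd (f.bl l q hq))).mul (ih q hq).2)) fun ω => (r.eT l ω).symm
  exact ⟨h1, cg (((op_J h).mul h1).sub (Op.sum _ fun q hq =>
    (ih q hq).1.smul h (f.sc h l q hq))) fun ω => (r.eY l ω).symm⟩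

theorem Rc.sub {S₂ T₂ Y₂ : N → c.MF} (r : c.Rc pre a ot S T Y) (r₂ : c.Rc pre a ot S₂ T₂ Y₂) :
    c.Rc pre a ot (fun l ω => S l ω - S₂ l ω) (fun l ω => T l ω - T₂ l ω)
      fun l ω => Y l ω - Y₂ l ω :=
  ⟨fun l ω => by simp only [r.eT l, r₂.eT l, Matrix.mul_sub, sum_sub_distrib]; abel,
    fun l ω => by simp only [r.eY l, r₂.eY l, Matrix.mul_sub, smul_sub, sum_sub_distrib]; abel⟩

theorem Rc.rmul (r : c.Rc pre a ot S T Y) (B : c.MF) :
    c.Rc pre a ot (fun l ω => S l ω * B ω) (fun l ω => T l ω * B ω) fun l ω => Y l ω * B ω :=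
  ⟨fun l ω => by simp only [r.eT l, Matrix.add_mul, Matrix.sum_mul, Matrix.mul_assoc],
    fun l ω => by simp only [r.eY l, Matrix.sub_mul, Matrix.sum_mul, Matrix.mul_assoc,
      Matrix.smul_mul]⟩

theorem ps_cl {β : Ω → Type*} [∀ ω, AddCommMonoid (β ω)] {Q : (∀ ω, β ω) → Prop}
    (h0 : Q fun _ => 0) (ha : ∀ {A B}, Q A → Q B → Q fun ω => A ω + B ω)
    (hal : ∀ l, c.BL (al l)) (hbl : ∀ l, ∀ m ∈ pre l, c.BL (a l m)) :
    ∀ (k : ℕ) (l : N) {F : List c.VF → ∀ ω, β ω}, (∀ u, u ≠ [] → c.Lt u → Q (F u)) →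
      Q fun ω => ps pre al a k l fun u => F u ω
  | 0, _, _, _ => h0
  | k + 1, l, _, hF => ha (hF _ (by simp) (lt_cons.2 ⟨hal l, lt_nil⟩)) (sumP h0 ha _ fun m hm =>
      ps_cl h0 ha hal hbl k m fun _ _ hu => hF _ (by simp) (lt_cons.2 ⟨hbl l m hm, hu⟩))

/-- **(WX)** the words are sums of Wick words up to `∑ θ B` -/
theorem wx_ps (h : c.Ok) (f : c.Fm pre rk a ot) (hal : ∀ l, c.BL (al l))
    (r : c.Rc pre a ot (fun l ω => diagonal (al l ω)) T Y) : ∀ (k : ℕ) (l : N), rk l < k →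
    (c.TP fun ω => T l ω - ps pre al a k l fun u => c.uk u ω) ∧
      c.TP fun ω => Y l ω - ps pre al a k l fun u => c.vk u ω
  | 0, _, hk => absurd hk (Nat.not_lt_zero _)
  | k + 1, l, hk => by
    have ih := fun m (hm : m ∈ pre l) => wx_ps h f hal r k m (by have := f.rk l m hm; omega)
    have h1 : c.TP fun ω => T l ω - ps pre al a (k + 1) l fun u => c.uk u ω :=
      cg (Sp.sum h h.th _ fun m hm => (ih m hm).2.dmul h (f.bl l m hm)) fun ω => by
        simp only [r.eT l, ps, uk_cons, vk_nil, ps_mul, Matrix.mul_one, Matrix.mul_sub,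
          sum_sub_distrib, add_sub_add_left_eq_sub]
    refine ⟨h1, cg (((h1.Jmul h h.th).sub h h.th (Sp.sum h h.th _ fun m hm =>
      (ih m hm).1.smul h.th (h.sc_et (f.bl l m hm)))).add (Sp.sum h h.th _ fun m hm =>
      Sp.smulP h.th (f.th l m hm) (r.sp h f h.md (fun l => pr_diag h (hal l)) m).1)) fun ω => ?_⟩
    simp only [r.eY l, ps, vk_cons, uk_nil, smul_zero, sub_zero, ps_sub, ps_mul, ps_smul,
      Matrix.mul_sub, Matrix.mul_add, Matrix.mul_sum, smul_sub, sub_smul, sum_sub_distrib]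
    abel

/-- **(WX)** -/
theorem wx (h : c.Ok) (f : c.Fm pre rk a ot) (hal : ∀ l, c.BL (al l))
    (r : c.Rc pre a ot (fun l ω => diagonal (al l ω)) T Y) (l : N) :
    ∃ A B, c.CW A ∧ c.TP B ∧ ∀ ω, Y l ω = A ω + B ω :=
  ⟨_, _, ps_cl (CW.zero h) CW.add hal f.bl (rk l + 1) l fun _ h0 hu => cw_vk h hu h0,
    (wx_ps h f hal r _ l (Nat.lt_succ_self _)).2, fun _ => (add_sub_cancel _ _).symm⟩

theorem cw_tp_diag (h : c.Ok) {A B : c.MF} (hA : c.CW A) (hB : c.TP B) :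
    c.Kv c.Th fun ω => (A ω + B ω).diag := ((hA.o2 h).kv h h.th).add h (hB.diag h h.th)


variable (c) in
/-- the full contraction of two words -/
def pr : List c.VF → List c.VF → Ω → ℝ
  | [], [], _ => 1
  | x :: u, y :: v, ω => c.et (fun ω => x ω * y ω) ω * pr u v ω
  | [], _ :: _, _ => 0
  | _ :: _, [], _ => 0

theorem pr_nil {v : List c.VF} (hv : v ≠ []) (ω : Ω) : c.pr [] v ω = 0 ∧ c.pr v [] ω = 0 := by
  obtain ⟨y, v, rfl⟩ := List.exists_cons_of_ne_nil hv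
  exact ⟨rfl, rfl⟩

theorem pr_snoc (x y : c.VF) (ω : Ω) : ∀ u v : List c.VF,
    c.pr (u ++ [x]) (v ++ [y]) ω = c.et (fun ω => x ω * y ω) ω * c.pr u v ω
  | [], [] => rfl
  | [], z :: v => by
    simp only [List.nil_append, List.cons_append, pr, (pr_nil (v := v ++ [y]) (by simp) ω).1,
      mul_zero]
  | z :: u, [] => by
    simp only [List.nil_append, List.cons_append, pr, (pr_nil (v := u ++ [x]) (by simp) ω).2,
      mul_zero]
  | z :: u, z' :: v => by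
    simp only [List.cons_append, pr, pr_snoc x y ω u v]; ring

theorem cw_word (h : c.Ok) {u : List c.VF} (hu : c.Lt u) : ∀ {v : List c.VF}, c.Lt v →
    c.CW fun ω => c.vk u ω * (c.vk v ω)ᵀ - c.pr u v ω • 1 := by
  induction u using List.reverseRecOn with
  | nil =>
    intro v hv
    rcases List.eq_nil_or_concat' v with rfl | ⟨v, y, rfl⟩
    · exact cg (CW.zero h) fun _ => by simp [pr]
    · exact cg (CW.left (h.sc_const 1) (lt_cons.1 (lt_append.1 hv).2).1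
        (lt_append.1 hv).1.reverse) fun ω => by
          rw [(pr_nil (by simp) ω).1, vk_snoc, transpose_mul, wk_transpose h, diagonal_transpose]
          simp
  | append_singleton u x ih =>
    intro v hv
    have hx := (lt_cons.1 (lt_append.1 hu).2).1
    rcases List.eq_nil_or_concat' v with rfl | ⟨v, y, rfl⟩
    · exact cg (cw_vk h hu (by simp)) fun ω => by rw [(pr_nil (by simp) ω).2]; simp
    · have hxy := h.bl_mul hx (lt_cons.1 (lt_append.1 hv).2).1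
      refine cg ((cw_vk h (l := u ++ (fun ω => x ω * y ω) :: (v.reverse ++ [1])) (lt_append.2
        ⟨(lt_append.1 hu).1, lt_cons.2 ⟨hxy, (lt_append.1 hv).1.reverse.snoc h.one⟩⟩)
        (by simp)).add ((ih (lt_append.1 hu).1 (lt_append.1 hv).1).smul h (h.sc_et hxy)))
        fun ω => ?_
      have e1 := Wk_mul (s := c.s ω) (J := c.J ω) (u.map fun a => a ω)
        ((v.map fun a => a ω).reverse ++ [1]) (x ω * y ω)
      have e2 := (rev (s := c.s ω) (h.symm ω) (v.map fun a => a ω).reverse).2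
      rw [List.reverse_reverse] at e2
      have e3 : c.wk u ω * diagonal (x ω) * (diagonal (y ω) * c.wk v.reverse ω) =
          c.vk (u ++ (fun ω => x ω * y ω) :: (v.reverse ++ [1])) ω +
            c.et (fun ω => x ω * y ω) ω • (c.vk u ω * (c.vk v ω)ᵀ) := by
        rw [← Matrix.mul_assoc, Matrix.mul_assoc (c.wk u ω), diagonal_mul_diagonal]
        simp only [vk, wk, et, List.map_append, List.map_cons, List.map_nil, List.map_reverse,
          ← e2, transpose_transpose]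
        exact e1
      beta_reduce
      rw [pr_snoc, vk_snoc, vk_snoc, transpose_mul, wk_transpose h, diagonal_transpose, e3,
        smul_sub, mul_smul, add_sub_assoc]

theorem ps_pr (f : c.Fm pre rk a ot) (f' : c.Fm pre' rk' a' ot') {Q : N → N' → Ω → ℝ}
    (hQ : ∀ l m ω, Q l m ω = c.et (fun ω => al l ω * al' m ω) ω +
      ∑ p ∈ pre l, ∑ q ∈ pre' m, c.et (fun ω => a l p ω * a' m q ω) ω * Q p q ω) (ω : Ω) :
    ∀ (k k' : ℕ) (l : N) (m : N'), rk l < k → rk' m < k' →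
      (ps pre al a k l fun u => ps pre' al' a' k' m fun v => c.pr u v ω) = Q l m ω
  | 0, _, _, _, hk, _ => absurd hk (Nat.not_lt_zero _)
  | _ + 1, 0, _, _, _, hk => absurd hk (Nat.not_lt_zero _)
  | k + 1, k' + 1, l, m, hk, hk' => by
    rw [hQ, ps]
    congr 1
    · rw [ps, sum_eq_zero fun q _ => (ps_congr k' q fun v hv => ?_).trans (ps_zero k' q)]
      · simp [pr]
      · rw [pr, (pr_nil hv ω).1, mul_zero]
    · refine sum_congr rfl fun p hp => (ps_congr (G := fun u => ∑ q ∈ pre' m,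
        c.et (fun ω => a l p ω * a' m q ω) ω * ps pre' al' a' k' q fun v => c.pr u v ω) k p
        fun u hu => ?_).trans ?_
      · simp only [ps, pr, (pr_nil hu ω).2, mul_zero, zero_add, ps_mul]
      · rw [ps_sum]
        refine sum_congr rfl fun q hq => ?_
        rw [ps_mul, ps_pr f f' hQ ω k k' p q (by have := f.rk l p hp; omega)
          (by have := f'.rk m q hq; omega)]

/-- **the Gram formula** `Y d Y'ᵀ = P_d + (clean words) + ∑ θ B` -/
theorem gram (h : c.Ok) (f : c.Fm pre rk a ot) (f' : c.Fm pre' rk' a' ot')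
    (hal : ∀ l, c.BL (al l)) (hal' : ∀ l, c.BL (al' l))
    (r : c.Rc pre a ot (fun l ω => diagonal (al l ω)) T Y)
    (r' : c.Rc pre' a' ot' (fun l ω => diagonal (al' l ω)) T' Y') {d : c.VF} (hd : c.BL d)
    {Q : N → N' → Ω → ℝ} (hQ : ∀ l m ω, Q l m ω = c.et (fun ω => al l ω * d ω * al' m ω) ω +
      ∑ p ∈ pre l, ∑ q ∈ pre' m, c.et (fun ω => a l p ω * a' m q ω) ω * Q p q ω) (l : N) (m : N') :
    ∃ A B, c.CW A ∧ c.TP B ∧
      ∀ ω, Y l ω * diagonal (d ω) * (Y' m ω)ᵀ = Q l m ω • 1 + A ω + B ω := by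
  have r1 : c.Rc pre a ot (fun l ω => diagonal (al l ω * d ω)) _ _ :=
    (funext fun l => funext fun ω => diagonal_mul_diagonal (al l ω) (d ω)) ▸
      r.rmul fun ω => diagonal (d ω)
  have hb := fun l => h.bl_mul (hal l) hd
  have w1 := (wx_ps h f hb r1 _ l (Nat.lt_succ_self _)).2
  have w2 := (wx_ps h f' hal' r' _ m (Nat.lt_succ_self _)).2
  have p1 := ps_cl (Sp.zero h h.md) Sp.add hb f.bl (rk l + 1) l fun _ _ hu => pr_vk h hu
  have p2 := (r'.sp h f' h.md (fun l => pr_diag h (hal' l)) m).2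
  refine ⟨_, _, ps_cl (CW.zero h) CW.add hb f.bl (rk l + 1) l fun _ _ hu =>
    ps_cl (CW.zero h) CW.add hal' f'.bl (rk' m + 1) m fun _ _ hv => cw_word h hu hv,
    (w1.rmul h h.th (p2.transpose h h.md)).add (p1.lmul h h.th (w2.transpose h h.th)),
    fun ω => ?_⟩
  have t : ∀ F : List c.VF → Matrix (Fin (c.n ω)) (Fin (c.n ω)) ℝ,
      (ps pre' al' a' (rk' m + 1) m fun v => (F v)ᵀ) = (ps pre' al' a' (rk' m + 1) m F)ᵀ :=
    ps_hom (transposeAddEquiv _ _ ℝ).toAddMonoidHom _ _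
  simp only [ps_sub, ps_mul, ps_mul', ps_smul', t,
    ps_pr f f' hQ ω _ _ l m (Nat.lt_succ_self _) (Nat.lt_succ_self _), transpose_sub,
    Matrix.mul_sub, Matrix.sub_mul]
  abel


theorem gram_sc (h : c.Ok) (f : c.Fm pre rk a ot) (f' : c.Fm pre' rk' a' ot')
    (hal : ∀ l, c.BL (al l)) (hal' : ∀ l, c.BL (al' l)) {d : c.VF} (hd : c.BL d)
    {Q : N → N' → Ω → ℝ} (hQ : ∀ l m ω, Q l m ω = c.et (fun ω => al l ω * d ω * al' m ω) ω +
      ∑ p ∈ pre l, ∑ q ∈ pre' m, c.et (fun ω => a l p ω * a' m q ω) ω * Q p q ω) (l : N) :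
    ∀ m, c.Sc (Q l m) :=
  rk_ind (Q := fun l => ∀ m, c.Sc (Q l m)) f.rk (fun l ih m => cg (h.sc_add
    (h.sc_et (h.bl_mul (h.bl_mul (hal l) hd) (hal' m))) (h.md.sum _ fun p hp => h.md.sum _ fun q hq =>
      h.sc_mul (h.sc_et (h.bl_mul (f.bl l p hp) (f'.bl m q hq))) (ih p hp q)))
    fun ω => (hQ l m ω).symm) l

end Cx

end Crest.Agent.T157.S3W

end
private theorem rz_4be7afb762 : type_of% @_root_.Crest.Agent.T157.S3W.Cx.pr.eq_def := @_root_.Crest.Agent.T157.S3W.Cx.pr.eq_def -- L195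
private theorem rz_0ba814b941 : type_of% @_root_.Crest.Agent.T157.S3W.Cx.pr.eq_1 := @_root_.Crest.Agent.T157.S3W.Cx.pr.eq_1 -- L195
private theorem rz_9b416ca5eb : type_of% @_root_.Crest.Agent.T157.S3W.ps.eq_def := @_root_.Crest.Agent.T157.S3W.ps.eq_def -- L22
private theorem rz_6461b4d66d : type_of% @_root_.Crest.Agent.T157.S3W.ps.eq_1 := @_root_.Crest.Agent.T157.S3W.ps.eq_1 -- L22
end

-- ▼ part T157/S3Wx_43
section

/-!
# Row 157, part B, block S3 (helper43): the leaf (WX)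
-/

set_option autoImplicit false
set_option linter.unusedSectionVars false
set_option linter.unusedVariables false

noncomputable section

namespace Crest.Agent.T157.S3

open Matrix Finset
open Crest.Agent.T157.E (Cube)
open Crest.Agent.T157.S3W Crest.Agent.T157.S3W.Cx
open Ex98 Fam

namespace W43

theorem sum_Iio {M : Type*} [AddCommMonoid M] {P : ℕ} (l : Fin P) {f : Fin P → M}
    (h : ∀ m, l ≤ m → f m = 0) : ∑ m, f m = ∑ m ∈ Iio l, f m :=
  (sum_subset (subset_univ _) fun m _ hm => h m (by simpa using hm)).symm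

section rec
variable {n P : ℕ} {J : Mx n} {a : Fin P → Fin P → V n} {ot : Fin P → Fin P → ℝ}

theorem rec_uniq (ha : ∀ l m, l ≤ m → a l m = 0) (ho : ∀ l m, l ≤ m → ot l m = 0)
    {S T Y T' Y' : Fin P → Mx n} (h : RecM J a ot S T Y) (h' : RecM J a ot S T' Y') (l : Fin P) :
    T l = T' l ∧ Y l = Y' l := by
  induction l using WellFoundedLT.induction with
  | _ l ih =>
    have e : T l = T' l := by
      rw [(h l).1, (h' l).1]
      exact congrArg _ (sum_lt (l := l) (fun m hm => by rw [(ih m hm).2]) fun m hm => by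
        simp [ha l m hm])
    refine ⟨e, ?_⟩
    rw [(h l).2, (h' l).2, e]
    exact congrArg _ (sum_lt (l := l) (fun m hm => by rw [(ih m hm).1]) fun m hm => by
      simp [ho l m hm])

theorem rec_sup {Θ Ω : Fin P → Fin P → Mx n}
    (h : ∀ q, RecM J a ot (fun l => if l = q then 1 else 0) (Θ q) (Ω q)) (S : Fin P → Mx n) :
    RecM J a ot S (fun l => ∑ q, Θ q l * S q) fun l => ∑ q, Ω q l * S q := fun l => by
  constructor
  · simp only [fun q => (h q l).1, Matrix.add_mul, sum_add_distrib, ite_mul, Matrix.one_mul,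
      Matrix.zero_mul, sum_ite_eq, mem_univ, if_true, Matrix.sum_mul, Matrix.mul_sum,
      Matrix.mul_assoc]
    rw [sum_comm]
  · simp only [fun q => (h q l).2, Matrix.sub_mul, sum_sub_distrib, Matrix.sum_mul, Matrix.mul_sum,
      Matrix.mul_assoc, Matrix.smul_mul, smul_sum]
    rw [sum_comm]

end rec

theorem ps_cl' {Ω : Type*} {c : Cx Ω} {N : Type*} {pre : N → Finset N} {a : N → N → c.VF}
    {al : N → c.VF} {β : Ω → Type*} [∀ ω, AddCommMonoid (β ω)] {Q : (∀ ω, β ω) → Prop}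
    (h0 : Q fun _ => 0) (ha : ∀ {A B}, Q A → Q B → Q fun ω => A ω + B ω)
    (hbl : ∀ l, ∀ m ∈ pre l, c.BL (a l m)) :
    ∀ (k : ℕ) (l : N) {G : List c.VF → ∀ ω, β ω}, (∀ u q, c.Lt u → Q (G (u ++ [al q]))) →
      Q fun ω => ps pre al a k l fun u => G u ω
  | 0, _, _, _ => h0
  | k + 1, l, _, hF => ha (hF [] l lt_nil) (sumP h0 ha _ fun m hm =>
      ps_cl' h0 ha hbl k m fun u q hu => hF (a l m :: u) q (lt_cons.2 ⟨hbl l m hm, hu⟩))

variable {F : Fam} {N P P' : ℕ} {R : Net F N} {Φ : Flow R P} {Φ' : Flow R P'}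
  {g : F.Lf (N + 1)}

theorem bl (hg : g ∈ R.C) : R.cx.BL (R.ev g) := ⟨g, hg, rfl⟩

theorem th_me (hC : ClsStmt) (hF : F.Ok) (h : R.cx.Ok) {u : F.Vf} (hu : R.cx.BL u) :
    R.cx.Th fun ω => R.cx.et u ω - F.me u ω.1 := (hC F hF).1 _ (h.sc_et hu)

theorem sc_me (hC : ClsStmt) (hF : F.Ok) (h : R.cx.Ok) {u : F.Vf} (hu : R.cx.BL u) :
    R.cx.Sc fun ω => F.me u ω.1 :=
  cg (h.md.sub h (h.sc_et hu) (h.th.sc (th_me hC hF h hu))) fun _ => sub_sub_cancel _ _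

variable (Φ) in
/-- the letters and constants as families -/
abbrev aa (l m : Fin P) : R.cx.VF := R.ev (Φ.a l m)
variable (Φ) in
abbrev oo (l m : Fin P) (ω : F.Ω) : ℝ := Φ.ot ω.1 l m

theorem fm (hC : ClsStmt) (hF : F.Ok) (h : R.cx.Ok) (hΦ : Φ.Ok) :
    R.cx.Fm Iio Fin.val (aa Φ) (oo Φ) :=
  ⟨fun _ _ hm => Fin.lt_def.1 (mem_Iio.1 hm), fun l m _ => bl ((hΦ.lt l).2.2 m),
    fun l m _ => th_me hC hF h (bl ((hΦ.lt l).2.2 m))⟩

theorem rc (hΦ : Φ.Ok) {S T Y : Fin P → F.Mf} (h : ∀ ω, RecM (F.J ω.1) (Φ.av ω) (Φ.ot ω.1)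
    (fun l => S l ω) (fun l => T l ω) fun l => Y l ω) : R.cx.Rc Iio (aa Φ) (oo Φ) S T Y :=
  ⟨fun l ω => (h ω l).1.trans (congrArg _ (sum_Iio l fun m hm => by
      simp [av_zero hΦ.tri ω l m hm])),
    fun l ω => (h ω l).2.trans (congrArg _ (sum_Iio l fun m hm => by
      simp [ot_zero hΦ.tri ω.1 l m hm]))⟩

theorem rcY (hΦ : Φ.Ok) :
    R.cx.Rc Iio (aa Φ) (oo Φ) (fun l ω => diagonal (R.ev (Φ.al l) ω)) Φ.T Φ.Y :=
  rc hΦ fun ω l => ⟨rfl, hΦ.hY l ω⟩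

variable (R) in
/-- finite sums of Wick words -/
def WL (A : F.Mf) : Prop := ∃ L : List (List (F.Lf (N + 1))), (∀ u ∈ L, ∀ a ∈ u, a ∈ R.C) ∧
  ∀ ω, A ω = (L.map fun u => R.W u ω).sum

theorem wl_zero : WL R fun _ => 0 := ⟨[], by simp, fun _ => rfl⟩

theorem WL.add {A B : F.Mf} (hA : WL R A) (hB : WL R B) : WL R fun ω => A ω + B ω :=
  let ⟨L, a1, a2⟩ := hA; let ⟨M, b1, b2⟩ := hB
  ⟨L ++ M, List.forall_mem_append.2 ⟨a1, b1⟩, fun ω => by
    rw [List.map_append, List.sum_append, ← a2, ← b2]⟩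

theorem lt_ev : ∀ {u : List R.cx.VF}, R.cx.Lt u →
    ∃ l : List (F.Lf (N + 1)), (∀ a ∈ l, a ∈ R.C) ∧ u = l.map R.ev
  | [], _ => ⟨[], by simp, rfl⟩
  | _ :: _, h => by
    obtain ⟨⟨g, hg, rfl⟩, h2⟩ := lt_cons.1 h
    obtain ⟨l, hl, rfl⟩ := lt_ev h2
    exact ⟨g :: l, List.forall_mem_cons.2 ⟨hg, hl⟩, rfl⟩

theorem wl_wk {u : List R.cx.VF} (hu : R.cx.Lt u) : WL R (R.cx.wk u) := by
  obtain ⟨l, hl, rfl⟩ := lt_ev hu
  exact ⟨[l], by simpa using hl, fun ω => by simp [wk, Net.W, Function.comp_def]⟩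

theorem wx1 (hC : ClsStmt) (hF : F.Ok) (h : R.cx.Ok) (hΦ : Φ.Ok) :
    ∃ (Ω : Fin P → Fin P → F.Mf) (L : Fin P → Fin P → List (List (F.Lf (N + 1)))),
    (∀ l m, (∀ u ∈ L l m, ∀ a ∈ u, a ∈ R.C) ∧
      R.cx.TP fun ω => Ω l m ω - ((L l m).map fun u => R.W u ω).sum) ∧
    ∀ ω S T Y, RecM (F.J ω.1) (Φ.av ω) (Φ.ot ω.1) S T Y → ∀ l, Y l = ∑ m, Ω l m ω * S m := by
  choose Θ Ω hΩ using fun (q : Fin P) (ω : F.Ω) => recM_ex (F.J ω.1) (av_zero hΦ.tri ω)
    (ot_zero hΦ.tri ω.1) fun l => if l = q then 1 else 0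
  have key : ∀ l q, ∃ L : List (List (F.Lf (N + 1))), (∀ u ∈ L, ∀ a ∈ u, a ∈ R.C) ∧
      R.cx.TP fun ω => Ω q ω l - (L.map fun u => R.W u ω).sum := fun l q => by
    let al : Fin P → R.cx.VF := fun l _ _ => if l = q then 1 else 0
    have e : ∀ l ω, diagonal (al l ω) = if l = q then 1 else 0 := fun l ω => by
      by_cases hl : l = q <;> simp [al, hl]
    have r : R.cx.Rc Iio (aa Φ) (oo Φ) (fun l ω => diagonal (al l ω)) (fun l ω => Θ q ω l)
        fun l ω => Ω q ω l := rc hΦ fun ω => by simpa only [e] using hΩ q ω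
    have f := fm hC hF h hΦ
    obtain ⟨L, h1, h2⟩ := ps_cl' (Q := WL R) (al := al) wl_zero WL.add f.bl (l + 1) l
      (G := R.cx.vk) fun u p hu => by
        by_cases hp : p = q
        · exact cg (wl_wk hu) fun ω => by rw [vk_snoc, e, if_pos hp, Matrix.mul_one]
        · exact cg wl_zero fun ω => by rw [vk_snoc, e, if_neg hp, Matrix.mul_zero]
    exact ⟨L, h1, cg (wx_ps h f (fun l => h.bl_const _) r _ l (Nat.lt_succ_self _)).2
      fun ω => congrArg _ (h2 ω)⟩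
  choose L hL using key
  exact ⟨fun l q ω => Ω q ω l, L, hL, fun ω S T Y hr l => (rec_uniq (av_zero hΦ.tri ω)
    (ot_zero hΦ.tri ω.1) hr (rec_sup (fun q => hΩ q ω) S) l).2⟩

/-- the Gram formula with the deterministic constants -/
theorem wx2 (hC : ClsStmt) (hF : F.Ok) (h : R.cx.Ok) (hΦ : Φ.Ok) (hΦ' : Φ'.Ok)
    {d : F.Lf (N + 1)} (hd : d ∈ R.C) {Pb : Fin P → Fin P' → F.I → ℝ} (hP : Φ.IsP Φ' d Pb)
    (l : Fin P) (m : Fin P') : R.cx.Sc (fun ω => Pb l m ω.1) ∧ ∃ B, R.cx.CW B ∧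
      R.cx.TP fun ω => Φ.Y l ω * R.dg d ω * (Φ'.Y m ω)ᵀ - Pb l m ω.1 • 1 - B ω := by
  have f := fm hC hF h hΦ
  have f' := fm hC hF h hΦ'
  have hal := fun l => bl (hΦ.lt l).1
  have hal' := fun l => bl (hΦ'.lt l).1
  obtain ⟨Q, hQ⟩ := tri_ex (α := Fin P' → F.Ω → ℝ) wellFounded_lt
    (fun l u m ω => R.cx.et (fun ω => R.ev (Φ.al l) ω * R.ev d ω * R.ev (Φ'.al m) ω) ω +
      ∑ p ∈ Iio l, ∑ q ∈ Iio m, R.cx.et (fun ω => aa Φ l p ω * aa Φ' m q ω) ω * u p q ω)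
    fun l u v e => by
      funext m ω
      exact congrArg _ (sum_congr rfl fun p hp => by rw [e p (mem_Iio.1 hp)])
  have hQ' := fun l m ω => congrFun (congrFun (hQ l) m) ω
  have sQ := gram_sc h f f' hal hal' (bl hd) hQ'
  have tQ : ∀ l m, R.cx.Th fun ω => Q l m ω - Pb l m ω.1 :=
    rk_ind (Q := fun l => ∀ m, R.cx.Th fun ω => Q l m ω - Pb l m ω.1) f.rk fun l ih m => by
      have b := fun p hp q hq => h.bl_mul (f.bl l p hp) (f'.bl m q hq)
      refine cg (h.th.add (th_me hC hF h (h.bl_mul (h.bl_mul (hal l) (bl hd)) (hal' m)))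
        (h.th.sum (Iio l) fun p hp => h.th.sum (Iio m) fun q hq => h.th.add
          (h.th.mul (sQ p q) (th_me hC hF h (b p hp q hq)))
          (h.th.mul (sc_me hC hF h (b p hp q hq)) (ih p hp q)))) fun ω => ?_
      have e : ∑ p, ∑ q, F.me (R.ev (Φ.a l p * Φ'.a m q)) ω.1 * Pb p q ω.1 =
          ∑ p ∈ Iio l, ∑ q ∈ Iio m, F.me (fun ω => aa Φ l p ω * aa Φ' m q ω) ω.1 * Pb p q ω.1 := by
        rw [sum_Iio l fun p hp => by simp [hΦ.tri l p hp, me_zero]]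
        exact sum_congr rfl fun p _ => sum_Iio m fun q hq => by simp [hΦ'.tri m q hq, me_zero]
      rw [hQ' l m ω, hP l m, e, add_sub_add_comm, ← sum_sub_distrib]
      refine congrArg₂ _ rfl (sum_congr rfl fun p _ => ?_)
      rw [← sum_sub_distrib]
      exact sum_congr rfl fun q _ => by ring
  obtain ⟨A, B, h1, h2, e⟩ := gram h f f' hal hal' (rcY hΦ) (rcY hΦ') (bl hd) hQ' l m
  refine ⟨cg (h.md.sub h (sQ l m) (h.th.sc (tQ l m))) fun _ => sub_sub_cancel _ _, A, h1,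
    cg ((Sp.smulP h.th (tQ l m) (pr_one h)).add h2) fun ω => ?_⟩
  rw [Net.dg, e, sub_smul]
  abel

end W43

open W43

theorem wxGlue : WXGlue := fun hC hJ F N P R Φ hF hR hΦ =>
  have h := (hJ F N R hF hR).1
  ⟨wx1 hC hF h hΦ, fun P' Φ' d Pb hΦ' hd hP l m =>
    let ⟨h1, h2⟩ := wx2 hC hF h hΦ hΦ' hd hP l m
    let ⟨C, hC⟩ := h.sc_bd h1
    ⟨⟨C, fun i => hC ⟨i, fun _ => true⟩⟩, h2⟩⟩

end Crest.Agent.T157.S3

end
end

-- ▼ part T157/S3J2_43
section

/-!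
# Row 157, part B, block S3 (helper43): the leaf (J2), (J3)
-/

set_option autoImplicit false
set_option linter.unusedSectionVars false
set_option linter.unusedVariables false
set_option linter.unusedTactic false

noncomputable section

namespace Crest.Agent.T157.S3W.Cx

open Matrix Finset
open Crest.Agent.T157.Eig

variable {Ω : Type*} {c : Cx Ω} {A B M : c.MF}

variable (c) in
/-- bounded, a clean word up to `M_K` -/
def Bk (A : c.MF) : Prop := c.Op A ∧ ∃ B, c.CW B ∧ c.Kp c.Th fun ω => A ω - B ω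

theorem Bk.pk (h : c.Ok) (hA : c.Bk A) : c.Kp c.Sc A :=
  let ⟨_, _, h1, h2⟩ := hA
  cg (((h1.pr h).kp h).add h (h2.pk h.th)) fun _ => add_sub_cancel _ _

theorem Bk.diag (h : c.Ok) (hA : c.Bk A) : c.Kv c.Th fun ω => (A ω).diag :=
  let ⟨_, _, h1, h2⟩ := hA
  cg (((h1.o2 h).kv h h.th).add h (h2.diag h h.th)) fun _ => by
    beta_reduce; rw [diag_sub]; abel

theorem Bk.of4 (h : c.Ok) (hA : c.Bk A) : c.Of4 A := (hA.pk h).of4 h h.md hA.1.bdE

theorem Bk.four (h : c.Ok) (hA : c.Bk A) : c.Sm fun ω => ∑ i, ∑ j, A ω i j ^ 4 :=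
  (Sm.add h (hA.of4 h) ((hA.diag h).l4 h hA.1.bdE.diag)).mono fun ω => by
    rw [← sum_add_distrib]
    refine sum_le_sum fun i _ => le_of_eq ?_
    have e : (A ω).diag i ^ 4 = ∑ j, if i = j then A ω i j ^ 4 else 0 := by simp
    rw [e, ← sum_add_distrib]
    exact sum_congr rfl fun j _ => by split_ifs <;> simp

theorem Bk.of_mk (h : c.Ok) (hB : c.Bk B) (ho : c.Op A) (hA : c.Kp c.Th fun ω => A ω - B ω) :
    c.Bk A :=
  let ⟨_, D, h1, h2⟩ := hB
  ⟨ho, D, h1, cg (hA.add h h2) fun _ => sub_add_sub_cancel _ _ _⟩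

theorem quad_hs (h : c.Ok) {σ : Type*} (S : Finset σ) {G : σ → c.MF} (hG : ∀ m ∈ S, c.Bk (G m))
    {L : ℝ} (e : ∀ ω k j, |A ω k j| ≤ L * ∑ m ∈ S, G m ω k j ^ 2) : c.HS A :=
  (Sm.sum h S fun m hm => (hG m hm).four h).le (C := L ^ 2 * S.card) (by positivity) fun ω => by
    rw [sum_comm (s := S), mul_sum]
    refine sum_le_sum fun k _ => ?_
    rw [sum_comm (s := S), mul_sum]
    refine sum_le_sum fun j _ => ?_
    have h1 := pow_le_pow_left₀ (abs_nonneg _) (e ω k j) 2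
    have h2 := sq_sum_le_card_mul_sum_sq (s := S) (f := fun m => G m ω k j ^ 2)
    simp only [← pow_mul] at h2
    rw [sq_abs, mul_pow] at h1
    rw [mul_assoc]
    exact h1.trans (mul_le_mul_of_nonneg_left h2 (sq_nonneg L))

theorem col3 {ι : Type*} [Fintype ι] [DecidableEq ι] {G : Matrix ι ι ℝ} {b : ℝ} (hb : opn G ≤ b)
    (j : ι) : (∑ k, |G k j| ^ (if k = j then 2 else 3)) ^ 2 ≤ (2 + 2 * b ^ 2) * ∑ k, G k j ^ 4 := by
  have h1 : ∑ k, |G k j| ^ (if k = j then 2 else 3) ≤ G j j ^ 2 + ∑ k, |G k j| * G k j ^ 2 := by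
    have e : G j j ^ 2 = ∑ k, if k = j then G k j ^ 2 else 0 := by simp
    rw [e, ← sum_add_distrib]
    refine sum_le_sum fun k _ => ?_
    split_ifs
    · rw [sq_abs]; exact le_add_of_nonneg_right (by positivity)
    · rw [← sq_abs (G k j)]; exact le_of_eq (by ring)
  have h2 := sum_mul_sq_le_sq_mul_sq univ (fun k => |G k j|) fun k => G k j ^ 2
  simp only [sq_abs, ← pow_mul] at h2
  have h3 := (S3F.col_sq_le G j).trans (pow_le_pow_left₀ (opn_nonneg _) hb 2)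
  have h4 : G j j ^ 4 ≤ ∑ k, G k j ^ 4 :=
    single_le_sum (f := fun k => G k j ^ 4) (fun _ _ => by positivity) (mem_univ j)
  have h5 := mul_le_mul_of_nonneg_right h3 (show 0 ≤ ∑ k, G k j ^ 4 by positivity)
  have h6 := pow_le_pow_left₀ (by positivity) h1 2
  nlinarith [sq_nonneg (G j j ^ 2 - ∑ k, |G k j| * G k j ^ 2)]

/-- **(J3)** -/
theorem cub (h : c.Ok) {σ : Type*} [Fintype σ] {G : σ → c.MF} (hG : ∀ m, c.Bk (G m)) {L : ℝ}
    (e : ∀ ω k j, |A ω k j| ≤ L * ∑ m, |G m ω k j| ^ (if k = j then 2 else 3)) :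
    c.Op A ∧ c.Sm fun ω => ∑ j, (∑ k, |A ω k j|) ^ 2 := by
  choose b hb using fun m => (hG m).1
  have e' : ∀ ω k j, |A ω k j| ≤ |L| * ∑ m, |G m ω k j| ^ (if k = j then 2 else 3) :=
    fun ω k j => (e ω k j).trans (mul_le_mul_of_nonneg_right (le_abs_self L) (by positivity))
  obtain ⟨B, B1, hB⟩ : ∃ B : ℝ, 1 ≤ B ∧ ∀ m ω, opn (G m ω) ≤ B :=
    ⟨1 + ∑ m, |b m|, le_add_of_nonneg_right (by positivity), fun m ω =>
      ((hb m ω).trans (le_abs_self _)).trans ((single_le_sum (f := fun m => |b m|)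
        (fun _ _ => abs_nonneg _) (mem_univ m)).trans (le_add_of_nonneg_left zero_le_one))⟩
  constructor
  · refine ⟨|L| * B * ∑ _m : σ, B ^ 2, fun ω => (S3F.opn_le_of_sq_entries (G := fun m => G m ω)
      (L := |L| * B) (by positivity) fun k j => (e' ω k j).trans ?_).trans
      (mul_le_mul_of_nonneg_left (sum_le_sum fun m _ =>
        pow_le_pow_left₀ (opn_nonneg _) (hB m ω) 2) (by positivity))⟩
    rw [mul_assoc, mul_sum univ _ B]
    refine mul_le_mul_of_nonneg_left (sum_le_sum fun m _ => ?_) (abs_nonneg L)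
    have h1 := (abs_entry_le _ k j).trans (hB m ω)
    rw [← sq_abs (G m ω k j)]
    split_ifs
    · exact le_mul_of_one_le_left (by positivity) B1
    · rw [pow_succ']; exact mul_le_mul_of_nonneg_right h1 (by positivity)
  · refine (Sm.sum h univ fun m _ => (hG m).four h).le
      (C := |L| ^ 2 * ((univ : Finset σ).card * (2 + 2 * B ^ 2))) (by positivity) fun ω => ?_
    simp only [fun m => sum_comm (s := univ) (t := univ) (f := fun i j => G m ω i j ^ 4)]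
    rw [sum_comm (s := (univ : Finset σ)), mul_sum]
    refine sum_le_sum fun j _ => ?_
    have h1 : ∑ k, |A ω k j| ≤ |L| * ∑ m, ∑ k, |G m ω k j| ^ (if k = j then 2 else 3) := by
      rw [sum_comm, mul_sum]; exact sum_le_sum fun k _ => e' ω k j
    have h2 := sq_sum_le_card_mul_sum_sq (s := univ)
      (f := fun m => ∑ k, |G m ω k j| ^ (if k = j then 2 else 3))
    refine (pow_le_pow_left₀ (by positivity) h1 2).trans ?_
    rw [mul_pow, mul_assoc, mul_assoc, mul_sum univ _ (2 + 2 * B ^ 2)]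
    exact mul_le_mul_of_nonneg_left (h2.trans (mul_le_mul_of_nonneg_left
      (sum_le_sum fun m _ => col3 (hB m ω) j) (by positivity))) (by positivity)

end Crest.Agent.T157.S3W.Cx

namespace Crest.Agent.T157.S3

open Matrix Finset
open Crest.Agent.T157.E (Cube sv)
open Crest.Agent.T157.S3W Crest.Agent.T157.S3W.Cx Crest.Agent.T157.S3F
open Ex98 Fam W43

namespace J43

variable {F : Fam} {N P : ℕ} {R : Net F N} {Φ : Flow R P} {Γ : Flow R (N + 1)}
  {g al : F.Lf (N + 1)}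

theorem tay (hR : R.Ok) (hg : R.Top g) :
    ∃ L, ∀ i k b, Tay L (g i k b) fun ξ m => R.pd m g i k b ξ := by
  choose C hC using fun m p => hR.bd _ (hR.pd _ (hg.2.2 m) p)
  refine ⟨_, fun i k b => tay_of_lip (L := ∑ m, ∑ p, |C m p|) (by positivity)
    (line_of_fderiv (hg.1 i k b)) fun a h m => lip_of_bd (g' := fun ξ p => R.pd p (R.pd m g) i k b ξ)
      (line_of_fderiv (hR.diff _ (hg.2.2 m) i k b)) (fun a p => ?_) a h⟩
  refine ((hC m p i k b a).trans (le_abs_self _)).trans ((single_le_sum (f := fun p => |C m p|)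
    (fun _ _ => abs_nonneg _) (mem_univ p)).trans (single_le_sum (f := fun m => ∑ p, |C m p|)
    (fun _ _ => by positivity) (mem_univ m)))

/-- the chain rule up to `M_K` -/
theorem jac_mk (h : R.cx.Ok) (hR : R.Ok) (hg : R.Top g) (S : Finset (Fin (N + 1)))
    (hd : ∀ i k s ξ ξ', (∀ m ∈ S, ξ m = ξ' m) → g i k s ξ = g i k s ξ')
    (hG : ∀ m ∈ S, R.cx.Bk (F.jc (R.X m))) : R.cx.Kp R.cx.Th fun ω => F.jc (R.ev g) ω -
      (R.dg (R.gs g) ω + ∑ m ∈ S, R.dg (R.pd m g) ω * F.jc (R.X m) ω) := by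
  obtain ⟨L, hL⟩ := tay hR hg
  have h1 := (Kv.sum h h.th S fun m hm => ((hG m hm).diag h).blmul h (h.bl_mul (h.bl_smul (-2)
    (bl hR.sp)) (bl (hR.gs _ (hg.2.2 m))))).diagonal h h.th
  refine cg (h1.add h ((quad_hs h S hG (L := 2 * L) (A := fun ω => _ - _) fun ω k j => ?_).kp h h.th))
    fun ω => add_sub_cancel _ _
  obtain ⟨i, x⟩ := ω
  have h2 := chain (hL i) (fun m y => if m ∈ S then R.X m ⟨i, y⟩ else R.X m ⟨i, x⟩) x k j
  have e1 : (fun (y : Cube (F.n i)) k => g i k (y k) fun m =>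
      (if m ∈ S then R.X m ⟨i, y⟩ else R.X m ⟨i, x⟩) k) = fun y => R.ev g ⟨i, y⟩ :=
    funext fun y => funext fun k => hd i k _ _ _ fun m hm => by rw [if_pos hm]
  have e2 : ∀ m, jac (fun y => if m ∈ S then R.X m ⟨i, y⟩ else R.X m ⟨i, x⟩) x k j =
      if m ∈ S then F.jc (R.X m) ⟨i, x⟩ k j else 0 := fun m => by
    split_ifs
    · rfl
    · rw [jac_const]; rfl
  simp only [e1, e2, ite_self, mul_ite, mul_zero, ite_pow, sum_ite_mem, univ_inter,
    zero_pow two_ne_zero] at h2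
  refine le_of_eq_of_le (congrArg _ ?_) h2
  simp only [Matrix.sub_apply, Matrix.add_apply, Matrix.sum_apply, Net.dg, diagonal_mul]
  rw [sub_sub]
  refine congrArg₂ _ rfl ?_
  by_cases hj : j = k
  · subst hj
    simp only [diagonal_apply_eq, if_true, Finset.sum_apply, add_assoc, ← sum_add_distrib]
    refine congrArg₂ _ rfl (sum_congr rfl fun m _ => ?_)
    simp only [Pi.mul_apply, Pi.smul_apply, diag_apply, Net.ev, Net.gs, Net.sp, S3.gs, Rec.fl,
      Function.update_self, smul_eq_mul]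
    cases x j <;> simp [Crest.ProbabilityR.SpinGlassDynamics.spin] <;> ring
  · simp only [diagonal_apply_ne' _ hj, if_neg hj, add_zero, Rec.fl,
      Function.update_of_ne (Ne.symm hj), Net.ev]

theorem bk_Y (hC : ClsStmt) (hF : F.Ok) (h : R.cx.Ok) (hΦ : Φ.Ok) (l : Fin P) :
    R.cx.Bk (Φ.Y l) :=
  have f := fm hC hF h hΦ
  let ⟨A, _, h1, h2, e⟩ := wx h f (fun l => bl (hΦ.lt l).1) (rcY hΦ) l
  ⟨(((rcY hΦ).sp h f h.md (fun l => pr_diag h (bl (hΦ.lt l).1)) l).2).op h h.md, A, h1,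
    cg (h2.kp h) fun ω => by rw [e, add_sub_cancel_left]⟩

theorem pr_tT (hC : ClsStmt) (hF : F.Ok) (h : R.cx.Ok) (hΦ : Φ.Ok) (hal : al ∈ R.C)
    {a : Fin P → F.Lf (N + 1)} (ha : ∀ m, a m ∈ R.C) : R.cx.PR (Φ.tT al a) :=
  (pr_diag h (bl hal)).add (Sp.sum h h.md univ fun m _ => (((rcY hΦ).sp h (fm hC hF h hΦ) h.md
    (fun l => pr_diag h (bl (hΦ.lt l).1)) m).2).dmul h (bl (ha m)))

theorem grad_mk (hC : ClsStmt) (hJ : J1Stmt) (hF : F.Ok) (hR : R.Ok) (hΓ : Γ.IsGrad)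
    (l : Fin (N + 1)) : R.cx.Kp R.cx.Th fun ω => F.jc (R.X l) ω - Γ.Y l ω := by
  obtain ⟨h, oX, tp, -⟩ := hJ F N R hF hR
  have r : R.cx.Rc Iio (aa Γ) (oo Γ) (fun l ω => F.jc (R.ev (R.f l)) ω -
      ∑ m ∈ Iio l, diagonal (aa Γ l m ω) * F.jc (R.X m) ω) (fun l => F.jc (R.ev (R.f l)))
      fun l => F.jc (R.X l) := ⟨fun l ω => (sub_add_cancel _ _).symm, fun l ω => by
    obtain ⟨κ, hκ⟩ := hR.hX l
    rw [← sum_Iio l fun m hm => by simp [ot_zero hΓ.1.tri ω.1 l m hm]]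
    simp only [Fam.jc, hκ, jac_sub, jac_const, sub_zero, jac_sum, jac_smul, oo, Flow.ot,
      hΓ.2.2, Net.o]
    exact congrArg₂ _ (jac_mulVec _ _ _) rfl⟩
  refine ((r.sub (rcY hΓ.1)).ind h (fm hC hF h hΓ.1) h.th (fun l ih => ?_) l).2
  refine cg (jac_mk h hR (tp _ (hR.fC l)) (Iio l) (fun i k s ξ ξ' e => hR.dep l i k s ξ ξ'
    fun m hm => e m (mem_Iio.2 hm)) fun m hm => (bk_Y hC hF h hΓ.1 m).of_mk h (oX m) (ih m hm).2)
    fun ω => ?_
  simp only [aa, hΓ.2.1, hΓ.2.2, Net.dg]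
  abel

theorem bk_X (hC : ClsStmt) (hJ : J1Stmt) (hF : F.Ok) (hR : R.Ok) (l : Fin (N + 1)) :
    R.cx.Bk (F.jc (R.X l)) :=
  let ⟨h, oX, _⟩ := hJ F N R hF hR
  let ⟨_, hΓ⟩ := (exStmt F N 0 R).2.1 hR
  (bk_Y hC hF h hΓ.1 l).of_mk h (oX l) (grad_mk hC hJ hF hR hΓ l)

theorem top_mk (hC : ClsStmt) (hJ : J1Stmt) (hF : F.Ok) (hR : R.Ok) (hΓ : Γ.IsGrad) (hg : R.Top g) :
    R.cx.Kp R.cx.Th fun ω => F.jc (R.ev g) ω - Γ.tT (R.gs g) (fun m => R.pd m g) ω :=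
  have h := (hJ F N R hF hR).1
  cg ((jac_mk h hR hg univ (fun i k s ξ ξ' e => congrArg _ (funext fun m => e m (mem_univ m)))
    fun m _ => bk_X hC hJ hF hR m).add h (Kp.sum h h.th univ fun m _ =>
      (grad_mk hC hJ hF hR hΓ m).lmul h h.th (pr_diag h (bl (hg.2.2 m))))) fun ω => by
    simp only [Flow.tT, Net.dg, Matrix.mul_sub, sum_sub_distrib]
    abel

theorem top_pk (hC : ClsStmt) (hJ : J1Stmt) (hF : F.Ok) (hR : R.Ok) (hg : R.Top g) :
    R.cx.Kp R.cx.Sc (F.jc (R.ev g)) :=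
  have h := (hJ F N R hF hR).1
  let ⟨_, hΓ⟩ := (exStmt F N 0 R).2.1 hR
  cg (((pr_tT hC hF h hΓ.1 hg.2.1 hg.2.2).kp h).add h ((top_mk hC hJ hF hR hΓ hg).pk h.th))
    fun _ => add_sub_cancel _ _

/-- **(D1)** -/
theorem diag_jc (hC : ClsStmt) (hJ : J1Stmt) (hF : F.Ok) (hR : R.Ok) (hg : R.Top g)
    (h0 : R.gs g = 0) : R.cx.Kv R.cx.Th fun ω => (F.jc (R.ev g) ω).diag :=
  have h := (hJ F N R hF hR).1
  cg (((jac_mk h hR hg univ (fun i k s ξ ξ' e => congrArg _ (funext fun m => e m (mem_univ m)))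
    fun m _ => bk_X hC hJ hF hR m).diag h h.th).add h (Kv.sum h h.th univ fun m _ =>
      ((bk_X hC hJ hF hR m).diag h).blmul h (bl (hg.2.2 m)))) fun ω => by
    funext k
    simp [h0, Net.dg, ev_zero, diagonal_mul]

/-- a flow against the word with the same fields -/
theorem src_mk (hC : ClsStmt) (hJ : J1Stmt) (hF : F.Ok) (hR : R.Ok) {σ : Type*} (S : Finset σ)
    (hal : al ∈ R.C) (h0 : R.gs al = 0) {a : σ → F.Lf (N + 1)} (ha : ∀ m, a m ∈ R.C)
    {Y : σ → F.Mf} (hY : ∀ m ∈ S, R.cx.Bk (Y m)) : R.cx.Kp R.cx.Th fun ω =>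
      diagonal (F.bm (R.ev al) ω).diag + ∑ m ∈ S, F.bm (R.ev (a m)) ω ⊙ Y m ω -
        (R.dg al ω + ∑ m ∈ S, R.dg (a m) ω * Y m ω) := by
  obtain ⟨h, -, tp, oj, -⟩ := hJ F N R hF hR
  have p := fun m => top_pk hC hJ hF hR (tp _ (ha m))
  refine cg (((((diag_jc hC hJ hF hR (tp _ hal) h0).blmul h (bl hR.sp)).diagonal h h.th).add h
    (Kp.sum h h.th S fun m hm => (Kp.had h h.th ((p m).of4 h h.md (oj _ (tp _ (ha m))).1.bdE)
      ((hY m hm).of4 h) ((p m).diag h h.md) (hY m hm).1.bdE ((hY m hm).diag h)).rmul h h.th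
      (pr_diag h (bl hR.sp)))).neg h h.th) fun ω => ?_
  have e : diagonal (F.bm (R.ev al) ω).diag =
      R.dg al ω - diagonal (R.ev R.sp ω * (F.jc (R.ev al) ω).diag) :=
    (diagonal_sub (R.ev al ω) (R.ev R.sp ω * (F.jc (R.ev al) ω).diag)).symm
  rw [e]
  simp only [Fam.bm, barM_had, sum_sub_distrib]
  change _ = _ + (∑ m ∈ S, R.dg (a m) ω * Y m ω -
    ∑ m ∈ S, (F.jc (R.ev (a m)) ω ⊙ Y m ω) * diagonal (R.ev R.sp ω)) - _
  abel

theorem fld_mk (hC : ClsStmt) (hJ : J1Stmt) (hF : F.Ok) (hR : R.Ok) (hΦ : Φ.Ok) (l : Fin P) :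
    R.cx.Kp R.cx.Th fun ω => Φ.Yb l ω - Φ.Y l ω := by
  obtain ⟨h, -, -, -, oY⟩ := hJ F N R hF hR
  have r : R.cx.Rc Iio (aa Φ) (oo Φ) (fun l ω => Φ.Tb l ω -
      ∑ m ∈ Iio l, diagonal (aa Φ l m ω) * Φ.Yb m ω) Φ.Tb Φ.Yb :=
    ⟨fun l ω => (sub_add_cancel _ _).symm, fun l ω => (hΦ.hYb l ω).trans
      (congrArg _ (sum_Iio l fun m hm => by simp [ot_zero hΦ.tri ω.1 l m hm]))⟩
  refine ((r.sub (rcY hΦ)).ind h (fm hC hF h hΦ) h.th (fun l ih => ?_) l).2
  refine cg (src_mk hC hJ hF hR (Iio l) (hΦ.lt l).1 (hΦ.lt l).2.1 (hΦ.lt l).2.2 fun m hm =>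
    (bk_Y hC hF h hΦ m).of_mk h ((oY P Φ hΦ).1 m).2 (ih m hm).2) fun ω => ?_
  simp only [Flow.Tb, Flow.tTb, Net.dg, aa]
  rw [sum_Iio l (f := fun m => F.bm (R.ev (Φ.a l m)) ω ⊙ Φ.Yb m ω) fun m hm => by
    simp [hΦ.tri l m hm, bm_zero]]
  abel

theorem bk_Yb (hC : ClsStmt) (hJ : J1Stmt) (hF : F.Ok) (hR : R.Ok) (hΦ : Φ.Ok) (l : Fin P) :
    R.cx.Bk (Φ.Yb l) :=
  let ⟨h, _, _, _, oY⟩ := hJ F N R hF hR
  (bk_Y hC hF h hΦ l).of_mk h ((oY P Φ hΦ).1 l).2 (fld_mk hC hJ hF hR hΦ l)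

theorem tb_mk (hC : ClsStmt) (hJ : J1Stmt) (hF : F.Ok) (hR : R.Ok) (hΦ : Φ.Ok)
    {a : Fin P → F.Lf (N + 1)} (hl : Φ.Let al a) :
    R.cx.Kp R.cx.Th fun ω => Φ.tTb al a ω - Φ.tT al a ω :=
  have h := (hJ F N R hF hR).1
  cg ((src_mk hC hJ hF hR univ hl.1 hl.2.1 hl.2.2 fun m _ => bk_Yb hC hJ hF hR hΦ m).add h
    (Kp.sum h h.th univ fun m _ =>
      (fld_mk hC hJ hF hR hΦ m).lmul h h.th (pr_diag h (bl (hl.2.2 m))))) fun ω => by
    simp only [Flow.tT, Flow.tTb, Net.dg, Matrix.mul_sub, sum_sub_distrib]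
    abel

end J43

open J43

theorem j2_of (hC : ClsStmt) (hJ : J1Stmt) : J2Stmt := fun F N R hF hR => by
  obtain ⟨h, oX, tp, oj, oY⟩ := hJ F N R hF hR
  refine ⟨fun P Φ hΦ => ⟨fun l => ⟨fld_mk hC hJ hF hR hΦ l, bk_Y hC hF h hΦ l,
    bk_Yb hC hJ hF hR hΦ l⟩, fun al a hl => ?_⟩, fun Γ hΓ => ⟨fun l =>
      ⟨grad_mk hC hJ hF hR hΓ l, bk_X hC hJ hF hR l⟩, fun g hg => ⟨top_mk hC hJ hF hR hΓ hg,
        ⟨(oj g hg).1, top_pk hC hJ hF hR hg⟩, ?_⟩⟩⟩
  · have h1 := tb_mk hC hJ hF hR hΦ hl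
    have h2 := (pr_tT hC hF h hΦ hl.1 hl.2.2).kp h
    have h3 := (oY P Φ hΦ).2 al a hl
    exact ⟨h1, ⟨h3.1, h2⟩, h3.2.1, cg (h2.add h (h1.pk h.th)) fun _ => add_sub_cancel _ _⟩
  · obtain ⟨C, e⟩ := (oj g hg).2
    exact cub h (bk_X hC hJ hF hR) e

theorem j2Glue : J2Glue := fun hC hJ _ => j2_of hC hJ

end Crest.Agent.T157.S3

end
end

-- ▼ part T157/S3Cl_71

/-!
# Row 157, part B, block S3 (helper71): the closure (CL)
-/

set_option autoImplicit false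
set_option linter.unusedVariables false
set_option linter.unusedSectionVars false

noncomputable section

namespace Crest.Agent.T157.S3

open Matrix Filter Finset
open Crest.Agent.T157.E (Cube sv)
open Crest.Agent.T157.S3W Crest.Agent.T157.S3W.Cx
open Fam K71

namespace Cl71

variable {F : Fam} {N P : ℕ} {R : Net F N} {Φ : Flow R P} {Γ : Flow R (N + 1)}
  {Pb : Fin P → Fin (N + 1) → F.I → ℝ} {Z : Fin P → F.Vf} {g al : F.Lf (N + 1)}
  {a : Fin P → F.Lf (N + 1)}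

/-- the diagonal of the Jacobian of a letter which is free of the spin -/
lemma diag_jc (h1 : J1Stmt) (h2 : J2Stmt) (hF : F.Ok) (hR : R.Ok) (hΓ : Γ.IsGrad) (hg : g ∈ R.C)
    (h0 : R.gs g = 0) : R.cx.Kv Th fun ω => (F.jc (R.ev g) ω).diag := by
  obtain ⟨h, -, hT, -, -⟩ := h1 F N R hF hR
  obtain ⟨a1, a2⟩ := h2 F N R hF hR
  refine cg (P := R.cx.Kv Th) ((Kp.diag h h.th ((a2 Γ hΓ).2 g (hT g hg)).1).add h
    (Kv.sum h h.th univ fun m _ => (BK_diag h ((a1 _ Γ hΓ.1).1 m).2.1).blmul h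
      (bl (hR.pd g hg m)))) fun ω => ?_
  simp only [Flow.tT, h0, dg_zero, zero_add]
  simp only [diag_sub, diag_sum, Net.dg, diag_dmul, sub_add_cancel]

/-- the contraction of the Jacobian of a letter with a field -/
lemma diag_pair (h1 : J1Stmt) (hW : WXStmt) (h2 : J2Stmt) (hF : F.Ok) (hR : R.Ok) (hΦ : Φ.Ok)
    (hΓ : Γ.IsGrad) (hP : Φ.IsP Γ R.Dt Pb) (hg : g ∈ R.C) (m : Fin P) :
    R.cx.Kv Th fun ω => (F.jc (R.ev g) ω * R.dg R.Dt ω * (Φ.Yb m ω)ᵀ).diag -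
      ∑ p, Pb m p ω.1 • R.ev (R.pd p g) ω := by
  obtain ⟨h, -, hT, -, -⟩ := h1 F N R hF hR
  obtain ⟨a1, a2⟩ := h2 F N R hF hR
  obtain ⟨m2, bY, bYb⟩ := (a1 _ Φ hΦ).1 m
  have m1 := ((a2 Γ hΓ).2 g (hT g hg)).1
  have kT := ((a1 _ Γ hΓ.1).2 _ _ (let_grad hR Γ (hT g hg) (hR.pd g hg))).2.1
  have kD := AK_dg h (Dt_mem hR)
  have e1 := MK_mul h m1 (AK_mul h kD (AK_transpose h (BK_ak h bYb)))
  have e2 := mul_MK h (AK_mul h kT kD) (Kp.transpose h h.th m2)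
  have e3 := ((BK_diag h bY).blmul h (bl (Dt_mem hR))).blmul h (bl (hR.gs g hg))
  have e4 : ∀ p, R.cx.Kv Th fun ω => (Γ.Y p ω * R.dg R.Dt ω * (Φ.Y m ω)ᵀ).diag -
      fun _ => Pb m p ω.1 := fun p => by
    obtain ⟨-, B, b1, b2⟩ := (hW F N P R Φ hF hR hΦ).2 _ Γ _ Pb hΓ.1 (Dt_mem hR) hP m p
    refine cg (P := R.cx.Kv Th) (cw_tp_diag h b1 b2) fun ω => ?_
    rw [← diag_transpose (Γ.Y p ω * _ * _), transpose_mul, transpose_mul, transpose_transpose,
      Net.dg, diagonal_transpose, ← Matrix.mul_assoc]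
    ext k; simp
  refine cg (P := R.cx.Kv Th) (((Kp.diag h h.th (Kp.add h e1 e2)).add h e3).add h
    (Kv.sum h h.th univ fun p _ => (e4 p).blmul h (bl (hR.pd g hg p)))) fun ω => ?_
  have e5 : (Γ.tT (R.gs g) (fun p => R.pd p g) ω * R.dg R.Dt ω * (Φ.Y m ω)ᵀ).diag =
      R.ev (R.gs g) ω * (R.ev R.Dt ω * (Φ.Y m ω).diag) +
        ∑ p, R.ev (R.pd p g) ω * (Γ.Y p ω * R.dg R.Dt ω * (Φ.Y m ω)ᵀ).diag := by
    simp only [Flow.tT, Matrix.add_mul, Matrix.sum_mul, diag_add, diag_sum, Matrix.mul_assoc,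
      Net.dg, diag_dmul, diag_transpose]
  have e6 : ∀ p, R.ev (R.pd p g) ω * (fun _ => Pb m p ω.1) = Pb m p ω.1 • R.ev (R.pd p g) ω :=
    fun p => funext fun k => mul_comm _ _
  simp only [mul_sub, e6, sum_sub_distrib, ← add_sub_assoc, add_assoc, ← e5]
  simp only [transpose_sub, Matrix.sub_mul, Matrix.mul_sub, Matrix.mul_assoc, diag_add, diag_sub]
  abel

/-- one step of the recursion -/
lemma step (h1 : J1Stmt) (hW : WXStmt) (h2 : J2Stmt) (hF : F.Ok) (hR : R.Ok) (hΦ : Φ.Ok)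
    (hD : Φ.IsDrift Γ Pb Z) (hL : Φ.Let al a) :
    R.cx.Kv Th fun ω => Φ.tTb al a ω *ᵥ F.τ ω - Φ.tA Pb Z al a ω -
      ∑ m, R.ev (a m) ω * (Φ.Yb m ω *ᵥ F.τ ω - Z m ω) := by
  have h := (h1 F N R hF hR).1
  refine cg (P := R.cx.Kv Th) ((((diag_jc h1 h2 hF hR hD.1 hL.1 hL.2.1).blmul h
    (bl (Dt_mem hR))).add h (Kv.sum h h.th univ fun m _ =>
      diag_pair h1 hW h2 hF hR hΦ hD.1 hD.2.1 (hL.2.2 m) m)).neg h h.th) fun ω => ?_
  have e : ∀ d t : V (F.n ω.1), diagonal d *ᵥ t = d * t := fun d t =>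
    funext fun k => mulVec_diagonal d t k
  simp only [Flow.tTb, Flow.tA, add_mulVec, Matrix.sum_mulVec, bm_had_mulVec, e, bm_diag, Net.dg,
    Dt_eq hR, sum_sub_distrib, mul_sub]
  ring

end Cl71

open Cl71 in
theorem clGlue : CLGlue := by
  intro hE hC h1 hW h2 F N P R Φ Γ Pb Z hF hR hΦ hD
  obtain ⟨h, -, -, -, hO⟩ := h1 F N R hF hR
  choose g g1 g2 using fun l => step h1 hW h2 hF hR hΦ hD (hΦ.lt l)
  choose c c' hc using fun ω => ((hE F N P R).2.2.2 Φ hΦ ω).2 fun l => g l ω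
  have fT : ∀ l i, FreeM fun x => Φ.Tb l ⟨i, x⟩ := fun l => ((hO P Φ hΦ).2 _ _ (hΦ.lt l)).2.2
  have fY : ∀ l i, FreeM fun x => Φ.Yb l ⟨i, x⟩ := fun l i x k j b => by
    simp only [hΦ.hYb, Matrix.sub_apply, Matrix.mul_apply, Matrix.sum_apply, Matrix.smul_apply]
    congr 1
    · exact sum_congr rfl fun q _ => congrArg _ (fT l i x q j b)
    · exact sum_congr rfl fun q _ => congrArg _ (fT q i x k j b)
  have bA := fun l m => h.bl_bd (bl ((hΦ.lt l).2.2 m))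
  -- the collective vectors
  have H1 : ∀ l, SqV (fun ω => c ω l) ∧ SqV fun ω => c' ω l := by
    intro l
    induction l using WellFoundedLT.induction with
    | _ l ih =>
    have k1 : SqV fun ω => c ω l := cg (P := SqV) (SqV_add (TV_sq hF h (g1 l))
      (SqV_sum univ (v := fun m ω => Φ.av ω l m * c' ω m) fun m _ => by
        rcases lt_or_ge m l with hm | hm
        · exact SqV_bmul (bA l m) (ih m hm).2
        · exact cg (P := SqV) SqV_zero fun ω => by rw [Flow.av, av_zero hΦ hm, zero_mul]))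
      fun ω => (hc ω l).1.symm
    refine ⟨k1, cg (P := SqV) (SqV_sub (SqV_mulVec (op_J h) k1)
      (SqV_sum univ (v := fun m ω => Φ.ot ω.1 l m • c ω m) fun m _ => ?_)) fun ω => (hc ω l).2.symm⟩
    rcases lt_or_ge m l with hm | hm
    · exact SqV_smul h (sc_ot h hΦ l m) (ih m hm).1
    · exact cg (P := SqV) SqV_zero fun ω => by rw [ot_zero hΦ hm, zero_smul]
  -- the errors
  have top : ∀ {al a} {g0 : F.Vf}, Φ.Let al a → (R.cx.O2 fun ω => Φ.tTb al a ω *ᵥ F.τ ω -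
      Φ.tA Pb Z al a ω - ∑ m, R.ev (a m) ω * (Φ.Yb m ω *ᵥ F.τ ω - Z m ω) - g0 ω) →
      (∀ m, a m = 0 ∨ R.cx.O2 fun ω => Φ.Yb m ω *ᵥ F.τ ω - Z m ω - c' ω m) →
      R.cx.O2 fun ω => Φ.tTb al a ω *ᵥ F.τ ω - Φ.tA Pb Z al a ω -
        (g0 ω + ∑ m, R.ev (a m) ω * c' ω m) := by
    intro al a g0 hL k1 k2
    refine cg (P := R.cx.O2) (k1.add h (O2.sum h univ
      (v := fun m ω => R.ev (a m) ω * (Φ.Yb m ω *ᵥ F.τ ω - Z m ω - c' ω m)) fun m _ => ?_))
      fun ω => ?_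
    · rcases k2 m with hm | hm
      · exact cg (P := R.cx.O2) (o2_zero h) fun ω => by rw [hm, ev_zero, zero_mul]
      · exact O2.bmul (h.bl_bd (bl (hL.2.2 m))) hm
    · simp only [mul_sub, sum_sub_distrib]; abel
  have H2 : ∀ l, (R.cx.O2 fun ω => Φ.Tb l ω *ᵥ F.τ ω - Φ.tA Pb Z (Φ.al l) (Φ.a l) ω - c ω l) ∧
      R.cx.O2 fun ω => Φ.Yb l ω *ᵥ F.τ ω - Z l ω - c' ω l := by
    intro l
    induction l using WellFoundedLT.induction with
    | _ l ih =>
    have k1 : R.cx.O2 fun ω => Φ.Tb l ω *ᵥ F.τ ω - Φ.tA Pb Z (Φ.al l) (Φ.a l) ω - c ω l :=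
      cg (P := R.cx.O2) (top (hΦ.lt l) (g2 l) fun m => (lt_or_ge m l).elim
        (fun hm => .inr (ih m hm).2) fun hm => .inl (hΦ.tri l m hm)) fun ω => by
          rw [(hc ω l).1]; rfl
    refine ⟨k1, ?_⟩
    set e : F.Vf := fun ω =>
      F.J ω.1 *ᵥ (Φ.Tb l ω *ᵥ F.τ ω - Φ.tA Pb Z (Φ.al l) (Φ.a l) ω - c ω l) - ∑ m,
        Φ.ot ω.1 l m • (Φ.Tb m ω *ᵥ F.τ ω - Φ.tA Pb Z (Φ.al m) (Φ.a m) ω - c ω m) with he
    have k2 : R.cx.O2 e := (O2.mulVec (op_J h) k1).sub h (O2.sum h univ fun m _ => by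
      rcases lt_or_ge m l with hm | hm
      · exact (ih m hm).1.smul h (sc_ot h hΦ l m)
      · exact cg (P := R.cx.O2) (o2_zero h) fun ω => by rw [ot_zero hΦ hm, zero_smul])
    have k3 : ∀ ω, Φ.Yb l ω *ᵥ F.τ ω = Φ.U Pb Z l ω + (c' ω l + e ω) := fun ω => by
      rw [hΦ.hYb, (hc ω l).2, he, Flow.U]
      simp only [sub_mulVec, ← mulVec_mulVec, Matrix.sum_mulVec, smul_mulVec, mulVec_sub, smul_sub,
        sum_sub_distrib]
      abel
    refine cg (P := R.cx.O2) (k2.sub h (O2_EV hC hF (SqV_add (H1 l).2 (O2_sq hC hF k2)))) fun ω => ?_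
    have k4 := EV_div hF (fY l) ω.1
    rw [funext k3, EV_add] at k4
    rw [k3, hD.2.2, eq_neg_of_add_eq_zero_left k4]
    abel
  refine ⟨g, fun l ω => c ω l, fun l ω => c' ω l, ⟨g1, hc⟩, fun l => (H1 l).2, fun al a hL => ?_⟩
  obtain ⟨g0, k1, k2⟩ := step h1 hW h2 hF hR hΦ hD hL
  exact ⟨g0, k1, top hL k2 fun m => .inr (H2 m).2⟩

end Crest.Agent.T157.S3
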