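import Crest.Agent.T157.UwA_98
import Crest.Agent.T157.S3W_43

-- ▼ part T157/UwD_98
section

/-!
# Row 157, part B, block S3 (helper98): (HAD), (U3), combinations of Wick words
-/

set_option autoImplicit false
set_option maxHeartbeats 400000
set_option linter.unusedSectionVars false

noncomputable section

namespace Crest.Agent.T157.Uw

open Matrix Finset
open Crest.Agent.T157.Eig Crest.Agent.T157.Fr

variable {ι : Type*} [Fintype ι] [DecidableEq ι] {s R K : ℝ} {J : Matrix ι ι ℝ} {k : ℕ}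

/-! ### (HAD) -/


lemma col_sq_le (A : Matrix ι ι ℝ) (j : ι) : ∑ i, A i j ^ 2 ≤ opn A ^ 2 := by
  have := mulVec_dot_le A (Pi.single j 1)
  simpa [dotProduct, sq, Pi.single_apply] using this

lemma row_sq_le (A : Matrix ι ι ℝ) (i : ι) : ∑ j, A i j ^ 2 ≤ opn A ^ 2 := by
  simpa [opn_transpose] using col_sq_le Aᵀ i







/-! ### (U3) -/

/-- the two lists of diagonals agree off the site `i` -/
def Off (i : ι) (l l' : List (ι → ℝ)) : Prop := List.Forall₂ (fun a a' => ∀ j, j ≠ i → a' j = a j) l l'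

lemma Off.refl (i : ι) (l : List (ι → ℝ)) : Off i l l := List.forall₂_same.2 fun _ _ _ _ => rfl
lemma Off.append {i : ι} {l l' m m' : List (ι → ℝ)} (h : Off i l l') (h' : Off i m m') :
    Off i (l ++ m) (l' ++ m') := List.rel_append h h'
lemma Bd.update {l : List (ι → ℝ)} (h : Bd l) (i : ι) {c : ℝ} (hc : |c| ≤ 1) :
    Bd (l.map fun a => Function.update a i c) := fun a ha j => by
  obtain ⟨b, hb, rfl⟩ := List.mem_map.1 ha
  by_cases e : j = i
  · subst e; simpa using hc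
  · rw [Function.update_of_ne e]; exact h b hb j

lemma off_le (hs : s ^ 2 * Fintype.card ι ≤ 1) (hR : opn J ≤ R) {i : ι} (j : ι)
    {l l' : List (ι → ℝ)} (h : Off i l l') : Bd l → Bd l' → ∀ (p : List (ι → ℝ)) (N : ℕ), Bd p →
      p.length + l.length ≤ N → |Vk s J (p ++ l') i j - Vk s J (p ++ l) i j| ≤
        ∑ q ∈ range l.length, 2 * (1 + R) ^ N * (|Wk s J (p ++ l.take q) i i| + s ^ 2) := by
  have R0 : 0 ≤ R := (opn_nonneg _).trans hR
  induction h with
  | nil => simp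
  | @cons a a' m m' ha hm ih =>
    intro hl hl' p N hp hN
    have i1 := ih (bd_cons.1 hl).2 (bd_cons.1 hl').2 (p ++ [a]) N
      (bd_append.2 ⟨hp, bd_cons.2 ⟨(bd_cons.1 hl).1, Bd.nil⟩⟩) (by simp at hN ⊢; omega)
    simp only [List.append_assoc, List.singleton_append] at i1
    have e0 : a' = a + Pi.single i (a' i - a i) := by
      ext j
      by_cases e : j = i
      · subst e; simp
      · simp [e, ha j e]
    have c2 : |a' i - a i| ≤ 2 := by
      linarith [abs_sub (a' i) (a i), (bd_cons.1 hl).1 i, (bd_cons.1 hl').1 i]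
    set c := a' i - a i
    have e1 : Vk s J (p ++ a' :: m') i j - Vk s J (p ++ a :: m') i j =
        c * (Wk s J p i i * Vk s J m' i j - s ^ 2 * (Vk s J p * Uk s J m') i j) := by
      have h1 := congrFun₂ (Wk_mul (s := s) (J := J) p m' (Pi.single i c)) i j
      rw [mul_apply, Matrix.add_apply, Matrix.smul_apply, eta, sum_pi_single', if_pos (mem_univ _),
        sum_eq_single i (fun b _ hb => by simp [hb]) (by simp), mul_diagonal, Pi.single_eq_same,
        smul_eq_mul] at h1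
      rw [e0, Vk_add, Matrix.add_apply]
      linarith
    have hl2 : m'.length = m.length := hm.length_eq.symm
    have b1 : |Vk s J m' i j| ≤ (1 + R) ^ N := (abs_entry_le _ i j).trans
      ((opn_VU hs hR (bd_cons.1 hl').2).1.trans
        (pow_le_pow_right₀ (by linarith) (by simp at hN; omega)))
    have b2 : |(Vk s J p * Uk s J m') i j| ≤ (1 + R) ^ N := (abs_entry_le _ i j).trans
      ((opn_mul_le' (opn_VU hs hR hp).1 (opn_VU hs hR (bd_cons.1 hl').2).2).trans (by
        rw [← pow_add]; exact pow_le_pow_right₀ (by linarith) (by simp at hN; omega)))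
    have b3 : |Vk s J (p ++ a' :: m') i j - Vk s J (p ++ a :: m') i j| ≤
        2 * (1 + R) ^ N * (|Wk s J p i i| + s ^ 2) := by
      rw [e1, abs_mul, mul_assoc]
      refine mul_le_mul c2 ((abs_sub _ _).trans ?_) (abs_nonneg _) (by norm_num)
      rw [abs_mul, abs_mul, abs_of_nonneg (sq_nonneg s)]
      nlinarith [mul_le_mul_of_nonneg_left b1 (abs_nonneg (Wk s J p i i)),
        mul_le_mul_of_nonneg_left b2 (sq_nonneg s)]
    rw [List.length_cons, sum_range_succ']
    simp only [List.take_succ_cons, List.take_zero, List.append_nil]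
    linarith [abs_sub_le (Vk s J (p ++ a' :: m') i j) (Vk s J (p ++ a :: m') i j)
      (Vk s J (p ++ a :: m) i j)]

lemma nrm_const_le (hs : s ^ 2 * Fintype.card ι ≤ 1) : nrm (fun _ : ι => s ^ 2) ≤ 1 := by
  rw [nrm_le_iff zero_le_one]
  simp only [dotProduct, sum_const, card_univ, nsmul_eq_mul]
  rcases Nat.eq_zero_or_pos (Fintype.card ι) with h | h
  · simp [h]
  · have : (1 : ℝ) ≤ Fintype.card ι := by exact_mod_cast h
    have h2 : s ^ 2 ≤ 1 := by nlinarith [sq_nonneg s]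
    nlinarith [sq_nonneg s]

/-- **(U3)** change of the diagonals at the site of the row -/
theorem UW.u3 (h : UW s J R k K) (hs : s ^ 2 * Fintype.card ι ≤ 1) {l : List (ι → ℝ)}
    (hk : l.length ≤ k) (hl : Bd l) : ∃ r : ι → ℝ, (∀ i, 0 ≤ r i) ∧
      nrm r ≤ l.length * (2 * (1 + R) ^ l.length * (K + 1)) ∧
      ∀ i l', Off i l l' → Bd l' → ∀ j, |Vk s J l' i j - Vk s J l i j| ≤ r i := by
  have R0 : 0 ≤ R := (opn_nonneg _).trans h.op
  refine ⟨∑ q ∈ range l.length, (2 * (1 + R) ^ l.length) •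
    ((fun i => |Wk s J (l.take q) i i|) + fun _ => s ^ 2), fun i => ?_, ?_, fun i l' ho hl' j => ?_⟩
  · rw [Finset.sum_apply]
    exact sum_nonneg fun q _ => by simp only [Pi.smul_apply, Pi.add_apply, smul_eq_mul]; positivity
  · refine (nrm_sum_le _ _).trans ((sum_le_card_nsmul _ _ _ fun q hq => ?_).trans (by
      rw [card_range, nsmul_eq_mul]))
    rw [nrm_smul, abs_of_nonneg (by positivity)]
    refine mul_le_mul_of_nonneg_left ((nrm_add_le _ _).trans (add_le_add ?_ (nrm_const_le hs)))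
      (by positivity)
    have := h.dg (l.take q ++ [1]) (by simp) (by have := mem_range.1 hq; simp; omega)
      (bd_append.2 ⟨hl.take q, bd_one⟩)
    simpa [nrm, dotProduct, Wk] using this
  · simpa [Finset.sum_apply, mul_add] using off_le hs h.op j ho hl hl' [] l.length Bd.nil (by simp)


/-- fourth powers of the entries, any last diagonal -/
theorem UW.four' (h : UW s J R k K) (hJ : Jᵀ = J) (hK : 0 ≤ K) (hs : s ^ 2 * Fintype.card ι ≤ 1)
    {l : List (ι → ℝ)} (h0 : l ≠ []) (h1 : 2 * l.length ≤ k) (hl : Bd l) :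
    ∑ i, ∑ j, Vk s J l i j ^ 4 ≤ 2 * ((l.length + 1) * K) ^ 2 + 2 := by
  obtain ⟨l0, b, rfl⟩ := (List.eq_nil_or_concat' l).resolve_left h0
  obtain ⟨h2, h3⟩ := bd_append.1 hl
  have := h.four hJ hK hs (l := l0) (by simp at h1; omega) h2
  rw [← Wk_mul_diag, List.length_append, List.length_singleton]
  refine le_trans (sum_le_sum fun i _ => sum_le_sum fun j _ => ?_)
    (this.trans (le_of_eq (by push_cast; ring)))
  rw [mul_diagonal, mul_pow]
  refine mul_le_of_le_one_right (by positivity) ?_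
  rw [← (by decide : Even 4).pow_abs]
  exact pow_le_one₀ (abs_nonneg _) ((bd_cons.1 h3).1 j)


/-! ### combinations of Wick words -/

/-- sums of `N` terms `c d Vk l` -/
inductive Cmb (s : ℝ) (J : Matrix ι ι ℝ) (k : ℕ) : ℕ → Matrix ι ι ℝ → Prop
  | zero : Cmb s J k 0 0
  | term {N : ℕ} {B : Matrix ι ι ℝ} (c : ℝ) (d : ι → ℝ) (l : List (ι → ℝ)) : |c| ≤ 1 →
      (∀ i, |d i| ≤ 1) → Bd l → l.length ≤ k → Cmb s J k N B →
      Cmb s J k (N + 1) (c • (diagonal d * Vk s J l) + B)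

namespace Cmb

variable {N N' k' : ℕ} {B B' : Matrix ι ι ℝ}

lemma succ (h : Cmb s J k N B) : Cmb s J k (N + 1) B := by
  simpa using term 0 0 [] (by simp) (by simp) Bd.nil (by simp) h

lemma mono (h : Cmb s J k N B) (hk : k ≤ k') (hN : N ≤ N') : Cmb s J k' N' B := by
  have : Cmb s J k' N B := by
    induction h with
    | zero => exact zero
    | term c d l h1 h2 h3 h4 _ ih => exact term c d l h1 h2 h3 (h4.trans hk) (ih (by omega))
  induction hN with
  | refl => exact this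
  | step _ ih => exact ih.succ

lemma single {d : ι → ℝ} {l : List (ι → ℝ)} (hd : ∀ i, |d i| ≤ 1) (hl : Bd l) (hk : l.length ≤ k) :
    Cmb s J k 1 (diagonal d * Vk s J l) := by simpa using term 1 d l (by simp) hd hl hk zero

lemma vk {l : List (ι → ℝ)} (hl : Bd l) (hk : l.length ≤ k) : Cmb s J k 1 (Vk s J l) := by
  simpa using single (s := s) (J := J) (d := fun _ => 1) (by simp) hl hk

lemma uk {l : List (ι → ℝ)} (hl : Bd l) (hk : l.length ≤ k + 1) : Cmb s J k 1 (Uk s J l) := by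
  cases l with
  | nil => exact zero.succ
  | cons b l => exact single (bd_cons.1 hl).1 (bd_cons.1 hl).2 (by simpa using hk)

lemma diag {d : ι → ℝ} (hd : ∀ i, |d i| ≤ 1) : Cmb s J k 1 (diagonal d) := by
  simpa using single (s := s) (J := J) (k := k) hd Bd.nil (by simp)

lemma self : Cmb s J 1 1 J := by
  have := vk (s := s) (J := J) (k := 1) (l := [] ++ [1]) bd_one le_rfl
  rwa [← Wk, Wk_nil] at this

lemma add (h : Cmb s J k N B) (h' : Cmb s J k N' B') : Cmb s J k (N + N') (B + B') := by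
  induction h with
  | zero => simpa using h'
  | term c d l h1 h2 h3 h4 _ ih =>
    rw [Nat.add_right_comm, add_assoc (c • _)]; exact term c d l h1 h2 h3 h4 ih

lemma smul (h : Cmb s J k N B) {c : ℝ} (hc : |c| ≤ 1) : Cmb s J k N (c • B) := by
  induction h with
  | zero => simpa using zero
  | term c' d l h1 h2 h3 h4 _ ih =>
    rw [smul_add, smul_smul]
    exact term _ d l (by rw [abs_mul]; exact mul_le_one₀ hc (abs_nonneg _) h1) h2 h3 h4 ih

lemma sub (h : Cmb s J k N B) (h' : Cmb s J k N' B') : Cmb s J k (N + N') (B - B') := by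
  simpa [sub_eq_add_neg] using h.add (h'.smul (c := -1) (by simp))

lemma diag_mul (h : Cmb s J k N B) {e : ι → ℝ} (he : ∀ i, |e i| ≤ 1) :
    Cmb s J k N (diagonal e * B) := by
  induction h with
  | zero => simpa using zero
  | term c d l h1 h2 h3 h4 _ ih =>
    rw [Matrix.mul_add, Matrix.mul_smul, ← Matrix.mul_assoc, diagonal_mul_diagonal]
    exact term c _ l h1 (abs_mul_le_one' he h2) h3 h4 ih


lemma J_mul (hs : s ^ 2 * Fintype.card ι ≤ 1) (h : Cmb s J k N B) :
    Cmb s J (k + 1) (2 * N) (J * B) := by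
  induction h with
  | zero => simpa using zero
  | @term N B c d l h1 h2 h3 h4 _ ih =>
    have e : J * (diagonal d * Vk s J l) = Vk s J (d :: l) + eta s d • Uk s J l := by
      rw [Vk_cons, sub_add_cancel]
    rw [Matrix.mul_add, Matrix.mul_smul, e, show 2 * (N + 1) = 1 + 1 + 2 * N by ring]
    exact (((vk (bd_cons.2 ⟨h2, h3⟩) (by simpa using h4)).add ((uk h3 (by omega)).smul
      (abs_eta_le hs zero_le_one h2))).smul h1).add ih

lemma VU_mul (hs : s ^ 2 * Fintype.card ι ≤ 1) (h : Cmb s J k N B) : ∀ m : List (ι → ℝ), Bd m →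
    Cmb s J (k + m.length) (3 ^ m.length * N) (Vk s J m * B) ∧
      Cmb s J (k + m.length) (3 ^ m.length * N) (Uk s J m * B)
  | [], _ => ⟨by simpa using h, by simpa using zero.mono le_rfl (Nat.zero_le _)⟩
  | a :: m, hm => by
    obtain ⟨h1, h2⟩ := VU_mul hs h m (bd_cons.1 hm).2
    have h3 := h1.diag_mul (bd_cons.1 hm).1
    rw [Vk_cons, Uk_cons, Matrix.sub_mul, Matrix.smul_mul, Matrix.mul_assoc, Matrix.mul_assoc,
      List.length_cons]
    refine ⟨((h3.J_mul hs).sub ((h2.smul (abs_eta_le hs zero_le_one (bd_cons.1 hm).1)).mono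
      (Nat.le_succ _) le_rfl)).mono le_rfl (le_of_eq (by ring)), h3.mono (by omega) ?_⟩
    exact Nat.mul_le_mul_right _ (Nat.pow_le_pow_right (by norm_num) (Nat.le_succ _))

/-- **(A4)** products -/
theorem mul (hs : s ^ 2 * Fintype.card ι ≤ 1) (h : Cmb s J k N B) (h' : Cmb s J k' N' B') :
    Cmb s J (k' + k) (N * (3 ^ k * N')) (B * B') := by
  induction h with
  | zero => simpa using zero
  | @term N B c d l h1 h2 h3 h4 _ ih =>
    rw [Matrix.add_mul, Matrix.smul_mul, Matrix.mul_assoc, Nat.succ_mul, Nat.add_comm (N * _)]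
    exact (((((h'.VU_mul hs l h3).1.diag_mul h2).smul h1).mono (by omega) (Nat.mul_le_mul_right _
      (Nat.pow_le_pow_right (by norm_num) h4)))).add ih


lemma opn_le (hs : s ^ 2 * Fintype.card ι ≤ 1) (hR : opn J ≤ R) (h : Cmb s J k N B) :
    opn B ≤ N * (1 + R) ^ k := by
  have R0 : 0 ≤ R := (opn_nonneg _).trans hR
  induction h with
  | zero => simpa using (opn_smul (0 : ℝ) (1 : Matrix ι ι ℝ)).le
  | term c d l h1 h2 h3 h4 _ ih =>
    have := opn_smul_le h1 (opn_mul_le' (opn_diagonal_le zero_le_one h2)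
      ((opn_VU hs hR h3).1.trans (pow_le_pow_right₀ (by linarith) h4)))
    refine (opn_add_le _ _).trans ?_
    push_cast
    linarith

/-- **(U1)** -/
theorem dg (h : Cmb s J k N B) (hU : UW s J R k K) (hK : 0 ≤ K) :
    ∃ d0 : ι → ℝ, (∀ i, |d0 i| ≤ N) ∧ nrm (B.diag - d0) ≤ N * K := by
  induction h with
  | zero => exact ⟨0, by simp, by simp [nrm]⟩
  | @term N B c d l h1 h2 h3 h4 _ ih =>
    obtain ⟨d0, b1, b2⟩ := ih
    by_cases h0 : l = []
    · subst h0
      refine ⟨c • d + d0, fun i => (abs_add_le _ _).trans ?_, ?_⟩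
      · have := abs_mul_le_one' (a := fun _ => c) (fun _ => h1) h2 i
        push_cast
        exact (add_le_add this (b1 i)).trans (le_of_eq (add_comm _ _))
      · rw [Vk_nil, Matrix.mul_one, diag_add, diag_smul, diag_diagonal, add_sub_add_left_eq_sub]
        push_cast; linarith
    · refine ⟨d0, fun i => (b1 i).trans (by simp), ?_⟩
      rw [diag_add, diag_smul, add_sub_assoc]
      refine (nrm_add_le _ _).trans ?_
      rw [nrm_smul]
      have := mul_le_mul h1 ((nrm_diag_mul h2 _).trans (hU.dg l h0 h4 h3)) (nrm_nonneg _) zero_le_one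
      push_cast; linarith

/-- **(U2)** -/
theorem four (h : Cmb s J k N B) (hU : UW s J R (2 * k) K) (hJ : Jᵀ = J) (hK : 0 ≤ K)
    (hs : s ^ 2 * Fintype.card ι ≤ 1) :
    ∑ i, ∑ j ∈ univ.erase i, B i j ^ 4 ≤ 16 ^ N * (2 * ((k + 1) * K) ^ 2 + 2) := by
  induction h with
  | zero => simp; positivity
  | @term N B c d l h1 h2 h3 h4 _ ih =>
    have b : ∀ x y : ℝ, (x + y) ^ 4 ≤ 8 * x ^ 4 + 8 * y ^ 4 := fun x y => by
      nlinarith [sq_nonneg (x - y), sq_nonneg (x + y), sq_nonneg (x ^ 2 - y ^ 2),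
        mul_nonneg (sq_nonneg (x - y)) (sq_nonneg (x + y)),
        mul_nonneg (sq_nonneg (x - y)) (add_nonneg (sq_nonneg x) (sq_nonneg y))]
    have h5 : ∑ i, ∑ j ∈ univ.erase i, (c • (diagonal d * Vk s J l)) i j ^ 4 ≤
        2 * ((k + 1) * K) ^ 2 + 2 := by
      by_cases h0 : l = []
      · subst h0
        refine le_trans (le_of_eq (sum_eq_zero fun i _ => sum_eq_zero fun j hj => ?_))
          (by positivity)
        simp [diagonal_apply_ne _ (mem_erase.1 hj).1.symm]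
      · refine le_trans (sum_le_sum fun i _ => le_trans (sum_le_sum fun j _ => ?_)
          (sum_le_sum_of_subset_of_nonneg (erase_subset _ _) fun _ _ _ => by positivity))
          ((hU.four' hJ hK hs h0 (by omega) h3).trans ?_)
        · rw [Matrix.smul_apply, diagonal_mul, smul_eq_mul, ← mul_assoc, mul_pow]
          refine mul_le_of_le_one_left (by positivity) ?_
          rw [← (by decide : Even 4).pow_abs]
          exact pow_le_one₀ (abs_nonneg _) (abs_mul_le_one' (a := fun _ => c) (fun _ => h1) h2 i)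
        · have : (l.length : ℝ) ≤ k := by exact_mod_cast h4
          gcongr
    refine (sum_le_sum fun i _ => sum_le_sum fun j _ => b _ _).trans ?_
    simp only [sum_add_distrib, ← mul_sum]
    have h6 : (1 : ℝ) ≤ 16 ^ N := one_le_pow₀ (by norm_num)
    have h7 : 0 ≤ 2 * ((k + 1) * K) ^ 2 + 2 := by positivity
    rw [pow_succ]
    nlinarith [mul_le_mul_of_nonneg_right h6 h7]

end Cmb

end Crest.Agent.T157.Uw
end
end

-- ▼ part T157/S3CA_16

/-!
# Row 157, block S3, section 4 (helper16): triangular linear systems and their rows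
-/

set_option autoImplicit false
set_option linter.unusedSectionVars false

noncomputable section

namespace Crest.Agent.T157.S3C

open Matrix Finset
open Crest.Agent.T157.Eig Crest.Agent.T157.Fr Crest.Agent.T157.Uw

variable {L : Type} [Fintype L] [LinearOrder L]

/-- discrete Gronwall lemma along a finite order -/
theorem tri (L : Type) [Fintype L] [LinearOrder L] {B : ℝ} (hB : 0 ≤ B) : ∃ C, 1 ≤ C ∧
    ∀ (x : L → ℝ) (c : ℝ), 0 ≤ c → (∀ l, x l ≤ c + B * ∑ m with m < l, x m) → ∀ l, x l ≤ C * c := by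
  have key : ∀ l : L, ∃ C, 0 ≤ C ∧ ∀ (x : L → ℝ) (c : ℝ), 0 ≤ c →
      (∀ l, x l ≤ c + B * ∑ m with m < l, x m) → x l ≤ C * c := fun l => by
    induction l using WellFoundedLT.induction with
    | ind l ih =>
      choose! C h0 h using ih
      refine ⟨1 + B * ∑ m with m < l, C m, add_nonneg zero_le_one (mul_nonneg hB
        (sum_nonneg fun m hm => h0 m (mem_filter.1 hm).2)), fun x c hc hx => (hx l).trans ?_⟩
      rw [add_mul, one_mul, mul_assoc, sum_mul]
      exact add_le_add le_rfl (mul_le_mul_of_nonneg_left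
        (sum_le_sum fun m hm => h m (mem_filter.1 hm).2 x c hc hx) hB)
  choose C h0 h using key
  refine ⟨1 + ∑ l, C l, le_add_of_nonneg_right (sum_nonneg fun l _ => h0 l), fun x c hc hx l =>
    (h l x c hc hx).trans (mul_le_mul_of_nonneg_right ?_ hc)⟩
  linarith [single_le_sum (fun l _ => h0 l) (mem_univ l)]

section sol
variable {ι : Type} [Fintype ι] [DecidableEq ι]

/-- the triangular system with sources `g` -/
structure Sol (J : Matrix ι ι ℝ) (a : L → L → ι → ℝ) (o : L → L → ℝ) (g T Y : L → ι → ℝ) :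
    Prop where
  t : ∀ l, T l = g l + ∑ m with m < l, a l m * Y m
  y : ∀ l, Y l = J *ᵥ T l - ∑ m with m < l, o l m • T m

variable {J : Matrix ι ι ℝ} {a a' : L → L → ι → ℝ} {o : L → L → ℝ} {g g' T T' Y Y' : L → ι → ℝ}

theorem exists_sol (J : Matrix ι ι ℝ) (a : L → L → ι → ℝ) (o : L → L → ℝ) (g : L → ι → ℝ) :
    ∃ T Y, Sol J a o g T Y := by
  let F : ∀ l : L, (∀ m, m < l → (ι → ℝ) × (ι → ℝ)) → (ι → ℝ) × (ι → ℝ) := fun l ih =>
    (g l + ∑ m : {m // m < l}, a l m * (ih m m.2).2,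
      J *ᵥ (g l + ∑ m : {m // m < l}, a l m * (ih m m.2).2) -
        ∑ m : {m // m < l}, o l m • (ih m m.2).1)
  let z : L → (ι → ℝ) × (ι → ℝ) := wellFounded_lt.fix F
  have hz : ∀ l, z l = F l fun m _ => z m := fun l => wellFounded_lt.fix_eq F l
  have e : ∀ (l : L) (f : L → ι → ℝ), ∑ m with m < l, f m = ∑ m : {m // m < l}, f m :=
    fun l f => sum_subtype _ (by simp) f
  have h1 : ∀ l, (z l).1 = g l + ∑ m : {m // m < l}, a l m * (z m).2 := fun l => by rw [hz]
  refine ⟨fun l => (z l).1, fun l => (z l).2, fun l => by rw [e, h1], fun l => ?_⟩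
  rw [e, h1, hz]

theorem Sol.sub (h : Sol J a o g T Y) (h' : Sol J a o g' T' Y') :
    Sol J a o (g - g') (T - T') (Y - Y') where
  t l := by
    simp only [Pi.sub_apply, mul_sub, sum_sub_distrib]
    rw [h.t l, h'.t l]; abel
  y l := by
    simp only [Pi.sub_apply, smul_sub, sum_sub_distrib, mulVec_sub]
    rw [h.y l, h'.y l]; abel


lemma nrm_mul_le {a : ι → ℝ} {c : ℝ} (hc : 0 ≤ c) (ha : ∀ i, |a i| ≤ c) (v : ι → ℝ) :
    nrm (a * v) ≤ c * nrm v := by
  have := (nrm_mulVec_le (diagonal a) v).trans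
    (mul_le_mul_of_nonneg_right (opn_diagonal_le hc ha) (nrm_nonneg v))
  rwa [show diagonal a *ᵥ v = a * v from funext fun i => mulVec_diagonal a v i] at this

lemma nrm_sum_le' {t : Finset L} {v : L → ι → ℝ} {c : ℝ} (hc : 0 ≤ c) (h : ∀ m ∈ t, nrm (v m) ≤ c) :
    nrm (∑ m ∈ t, v m) ≤ Fintype.card L * c :=
  (nrm_sum_le t v).trans ((sum_le_card_nsmul _ _ _ h).trans (by
    rw [nsmul_eq_mul]
    exact mul_le_mul_of_nonneg_right (by exact_mod_cast card_le_univ t) hc))

end sol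

/-- a priori bound -/
theorem sol_nrm (L : Type) [Fintype L] [LinearOrder L] {R B : ℝ} (hB : 0 ≤ B) : ∃ C, 1 ≤ C ∧
    ∀ (ι : Type) [Fintype ι] [DecidableEq ι] (J : Matrix ι ι ℝ) (a : L → L → ι → ℝ) (o : L → L → ℝ)
      (g T Y : L → ι → ℝ) (S : ℝ), Sol J a o g T Y → opn J ≤ R → (∀ l m i, |a l m i| ≤ B) →
      (∀ l m, |o l m| ≤ B) → 0 ≤ S → (∀ l, nrm (g l) ≤ S) →
      ∀ l, nrm (T l) ≤ C * S ∧ nrm (Y l) ≤ C * S := by
  obtain ⟨C, c1, hC⟩ := tri L (B := (2 + |R|) * B) (by positivity)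
  refine ⟨C * (1 + |R|), one_le_mul_of_one_le_of_one_le c1 (by linarith [abs_nonneg R]), ?_⟩
  intro ι _ _ J a o g T Y S h hR ha ho hS hg l
  have key := hC (fun l => nrm (T l) + nrm (Y l)) ((1 + |R|) * S) (by positivity) (fun l => by
    set X := ∑ m with m < l, (nrm (T m) + nrm (Y m)) with hX
    have X0 : 0 ≤ X := sum_nonneg fun m _ => add_nonneg (nrm_nonneg _) (nrm_nonneg _)
    have h1 : nrm (T l) ≤ S + B * X := by
      rw [h.t l, hX, mul_sum]
      refine (nrm_add_le _ _).trans (add_le_add (hg l) ((nrm_sum_le _ _).trans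
        (sum_le_sum fun m _ => (nrm_mul_le hB (ha l m) _).trans ?_)))
      exact mul_le_mul_of_nonneg_left (le_add_of_nonneg_left (nrm_nonneg _)) hB
    have h2 : nrm (Y l) ≤ |R| * nrm (T l) + B * X := by
      rw [h.y l, hX, mul_sum]
      refine (nrm_sub_le _ _).trans (add_le_add ((nrm_mulVec_le _ _).trans
        (mul_le_mul_of_nonneg_right (hR.trans (le_abs_self R)) (nrm_nonneg _)))
        ((nrm_sum_le _ _).trans (sum_le_sum fun m _ => ?_)))
      rw [nrm_smul]
      exact mul_le_mul (ho l m) (le_add_of_nonneg_right (nrm_nonneg _)) (nrm_nonneg _) hB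
    nlinarith [mul_le_mul_of_nonneg_left h1 (abs_nonneg R)]) l
  rw [mul_assoc]
  constructor <;> linarith [nrm_nonneg (T l), nrm_nonneg (Y l)]

section words
variable {ι : Type} [Fintype ι] [DecidableEq ι]

/-- letters bounded by `B` -/
def BdB (B : ℝ) (l : List (ι → ℝ)) : Prop := ∀ a ∈ l, ∀ i, |a i| ≤ B

lemma BdB.snoc {B : ℝ} {l : List (ι → ℝ)} (h : BdB B l) {a : ι → ℝ} (ha : ∀ i, |a i| ≤ B) :
    BdB B (l ++ [a]) := List.forall_mem_append.2 ⟨h, by simpa using ha⟩

lemma BdB.bd {B : ℝ} (hB : 1 ≤ B) {l : List (ι → ℝ)} (h : BdB B l) : Bd (l.map (B⁻¹ • ·)) :=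
  fun a ha i => by
    obtain ⟨b, hb, rfl⟩ := List.mem_map.1 ha
    have B0 : 0 < B := by linarith
    rw [Pi.smul_apply, smul_eq_mul, abs_mul, abs_inv, abs_of_pos B0, inv_mul_le_one₀ B0]
    exact h b hb i

lemma vk_scale {B : ℝ} (hB : 1 ≤ B) (s : ℝ) (J : Matrix ι ι ℝ) (l : List (ι → ℝ)) :
    Vk s J l = B ^ l.length • Vk s J (l.map (B⁻¹ • ·)) := by
  have B0 : B ≠ 0 := by positivity
  rw [(S3W.Cx.vu_smul s B⁻¹ J l).1, smul_smul, ← mul_pow, mul_inv_cancel₀ B0, one_pow, one_smul]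

lemma nrm_row_le (A : Matrix ι ι ℝ) (i : ι) : nrm (A i) ≤ opn A := by
  rw [nrm_le_iff (opn_nonneg A)]
  simpa [dotProduct, sq] using row_sq_le A i

end words

/-- rows of one word, uniformly over changes of the letters at the site of the row -/
theorem row_word (R : ℝ) {B : ℝ} (hB : 1 ≤ B) (k : ℕ) : ∃ C, 0 ≤ C ∧
    ∀ (ι : Type) [Fintype ι] [DecidableEq ι] (s K : ℝ) (J : Matrix ι ι ℝ),
      UW s J R (2 * (k + 1)) K → Jᵀ = J → 0 ≤ K → s ^ 2 * Fintype.card ι ≤ 1 →
      ∀ l : List (ι → ℝ), l.length = k + 1 → BdB B l → ∃ M : ι → ℝ, (∀ i, 0 ≤ M i) ∧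
        ∑ i, M i ^ 4 ≤ C * (K ^ 2 + 1) ∧ ∀ i l', Off i l l' → BdB B l' →
          (∀ j, |Vk s J l' i j| ≤ M i) ∧ nrm (Vk s J l' i) ≤ C := by
  set P := (1 + |R|) ^ (k + 1) with hP
  set Q := B ^ (k + 1) with hQ
  set D : ℝ := 16 * (k + 2) ^ 2 + 16 + 256 * (k + 1) ^ 2 * P ^ 4 with hD
  have P0 : 0 ≤ P := by positivity
  have Q0 : 0 ≤ Q := by positivity
  have D0 : 0 ≤ D := by positivity
  refine ⟨Q ^ 4 * D + Q * P, by positivity, ?_⟩
  intro ι _ _ s K J hU hJ hK hs l hl hb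
  have R0 : 0 ≤ R := (opn_nonneg _).trans hU.op
  rw [abs_of_nonneg R0] at hP
  have b0 := hb.bd hB
  set l0 := l.map (B⁻¹ • ·) with hl0
  have e0 : l0.length = k + 1 := by rw [hl0, List.length_map, hl]
  obtain ⟨r, r0, r1, r2⟩ := hU.u3 hs (l := l0) (by omega) b0
  have f4 := hU.four' hJ hK hs (l := l0) (by rintro h; simp [h] at e0) (by omega) b0
  rw [e0, ← hP] at r1
  rw [e0] at f4
  set u : ι → ℝ := fun i => √(√(∑ j, Vk s J l0 i j ^ 4)) with hu
  have u0 : ∀ i, 0 ≤ u i := fun i => Real.sqrt_nonneg _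
  have u4 : ∀ i, u i ^ 4 = ∑ j, Vk s J l0 i j ^ 4 := fun i => by
    rw [show 4 = 2 * 2 from rfl, pow_mul, Real.sq_sqrt (Real.sqrt_nonneg _),
      Real.sq_sqrt (by positivity)]
  have u1 : ∀ i j, |Vk s J l0 i j| ≤ u i := fun i j => by
    refine (pow_le_pow_iff_left₀ (abs_nonneg _) (u0 i) (by norm_num : 4 ≠ 0)).1 ?_
    rw [u4, Even.pow_abs (by decide)]
    exact single_le_sum (f := fun j => Vk s J l0 i j ^ 4) (fun j _ => by positivity) (mem_univ j)
  have m0 : ∀ i, 0 ≤ min (r i) (2 * P) := fun i => le_min (r0 i) (by positivity)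
  refine ⟨fun i => Q * (u i + min (r i) (2 * P)), fun i => mul_nonneg Q0 (add_nonneg (u0 i) (m0 i)),
    ?_, fun i l' ho hb' => ?_⟩
  · have h1 : ∀ i, (u i + min (r i) (2 * P)) ^ 4 ≤ 8 * u i ^ 4 + 32 * P ^ 2 * (r i * r i) := fun i => by
      have a1 := add_pow_le (u0 i) (m0 i) 4
      have a2 := pow_le_pow_left₀ (m0 i) (min_le_left (r i) (2 * P)) 2
      have a3 := pow_le_pow_left₀ (m0 i) (min_le_right (r i) (2 * P)) 2
      have a4 := mul_le_mul a3 a2 (sq_nonneg _) (sq_nonneg _)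
      norm_num at a1
      nlinarith
    have h2 : r ⬝ᵥ r ≤ 8 * (k + 1) ^ 2 * P ^ 2 * (K ^ 2 + 1) := by
      have := (nrm_le_iff (by positivity)).1 r1
      push_cast at this
      nlinarith [mul_nonneg (sq_nonneg ((k + 1 : ℝ) * P)) (sq_nonneg (K - 1))]
    have h3 : ∑ i, (u i + min (r i) (2 * P)) ^ 4 ≤ D * (K ^ 2 + 1) := by
      refine (sum_le_sum fun i _ => h1 i).trans ?_
      simp only [sum_add_distrib, ← mul_sum, u4]
      push_cast at f4
      have := mul_le_mul_of_nonneg_left h2 (by positivity : 0 ≤ 32 * P ^ 2)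
      rw [dotProduct] at this
      rw [hD]
      nlinarith [sq_nonneg K, sq_nonneg ((k : ℝ) + 2)]
    simp only [mul_pow, ← mul_sum]
    nlinarith [mul_le_mul_of_nonneg_left h3 (pow_nonneg Q0 4),
      mul_nonneg (mul_nonneg Q0 P0) (add_nonneg (sq_nonneg K) zero_le_one)]
  · have b1 := hb'.bd hB
    have e1 : l'.length = k + 1 := by rw [← ho.length_eq, hl]
    have o1 : Off i l0 (l'.map (B⁻¹ • ·)) := List.forall₂_map_left_iff.2
      (List.forall₂_map_right_iff.2 (ho.imp fun a a' h j hj => by simp [h j hj]))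
    have p0 := (opn_VU hs hU.op b0).1
    have p1 := (opn_VU hs hU.op b1).1
    rw [e0, ← hP] at p0
    rw [List.length_map, e1, ← hP] at p1
    rw [vk_scale hB, e1, ← hQ]
    refine ⟨fun j => ?_, ?_⟩
    · rw [Matrix.smul_apply, smul_eq_mul, abs_mul, abs_of_nonneg Q0]
      refine mul_le_mul_of_nonneg_left ?_ Q0
      have c1 := r2 i _ o1 b1 j
      have c2 := (abs_sub _ _).trans (add_le_add ((abs_entry_le _ i j).trans p1)
        ((abs_entry_le _ i j).trans p0))
      have c3 := le_min c1 (c2.trans_eq (two_mul P).symm)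
      linarith [abs_sub_abs_le_abs_sub (Vk s J (l'.map (B⁻¹ • ·)) i j) (Vk s J l0 i j), u1 i j]
    · refine (nrm_row_le _ i).trans ((opn_smul_le (abs_of_nonneg Q0).le p1).trans ?_)
      exact le_add_of_nonneg_left (by positivity)

section zz
variable {ι : Type} [Fintype ι] [DecidableEq ι]

/-- a word in front of the field `m` -/
def Zz (s : ℝ) (J : Matrix ι ι ℝ) (a : L → L → ι → ℝ) (T : L → ι → ℝ) (w : List (ι → ℝ)) (m : L) :
    ι → ℝ := Wk s J w *ᵥ T m - ∑ q with q < m, eta s (a m q) • (Vk s J w *ᵥ T q)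

variable {s : ℝ} {J : Matrix ι ι ℝ} {a : L → L → ι → ℝ} {g T Y : L → ι → ℝ}

lemma zz_nil (h : Sol J a (fun l m => eta s (a l m)) g T Y) (m : L) : Zz s J a T [] m = Y m := by
  simp [Zz, Wk_nil, h.y m]

lemma zz_rec (h : Sol J a (fun l m => eta s (a l m)) g T Y) (w : List (ι → ℝ)) (m : L) :
    Zz s J a T w m = Wk s J w *ᵥ g m + ∑ q with q < m, Zz s J a T (w ++ [a m q]) q := by
  rw [Zz, h.t m, mulVec_add, mulVec_sum, add_sub_assoc, ← sum_sub_distrib]
  congr 1
  refine sum_congr rfl fun q _ => ?_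
  have e : Wk s J w *ᵥ (a m q * Y q) = Vk s J (w ++ [a m q]) *ᵥ Y q := by
    rw [← Wk_mul_diag, ← mulVec_mulVec]
    congr 1
    exact funext fun i => (mulVec_diagonal _ _ i).symm
  rw [e, h.y q, Zz, Wk_snoc, Wk_mul_diag, mulVec_sub, mulVec_sum, sub_mulVec, mulVec_mulVec,
    smul_mulVec]
  simp only [mulVec_smul]
  abel

lemma four_sum {t : Finset L} {M : L → ι → ℝ} {c : L → ℝ} {X : ℝ} (h0 : ∀ q ∈ t, ∀ i, 0 ≤ M q i)
    (h : ∀ q ∈ t, ∑ i, M q i ^ 4 ≤ c q * X) :
    ∑ i, (∑ q ∈ t, M q i) ^ 4 ≤ (#t ^ 3 * ∑ q ∈ t, c q) * X := by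
  refine (sum_le_sum fun i _ => pow_sum_le_card_mul_sum_pow (fun q hq => h0 q hq i) 3).trans ?_
  rw [← mul_sum, sum_comm, mul_assoc, sum_mul]
  exact mul_le_mul_of_nonneg_left (sum_le_sum h) (by positivity)

end zz

theorem row_wick (L : Type) [Fintype L] [LinearOrder L] (R : ℝ) {B : ℝ} (hB : 1 ≤ B) (m : L) :
    ∀ k : ℕ, ∃ (C : ℝ) (k' : ℕ), 0 ≤ C ∧
    ∀ (ι : Type) [Fintype ι] [DecidableEq ι] (s K : ℝ) (J : Matrix ι ι ℝ),
      UW s J R k' K → Jᵀ = J → 0 ≤ K → s ^ 2 * Fintype.card ι ≤ 1 →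
      ∀ (a : L → L → ι → ℝ) (w : List (ι → ℝ)), (∀ l m i, |a l m i| ≤ B) → w.length = k → BdB B w →
      ∃ M : ι → ℝ, (∀ i, 0 ≤ M i) ∧ ∑ i, M i ^ 4 ≤ C * (K ^ 2 + 1) ∧
        ∀ (i : ι) (a' : L → L → ι → ℝ) (w' : List (ι → ℝ)), (∀ l m j, j ≠ i → a' l m j = a l m j) →
          (∀ l m j, |a' l m j| ≤ B) → Off i w w' → BdB B w' → ∃ r : L → ι → ℝ,
          (∀ q j, |r q j| ≤ M i) ∧ (∀ q, nrm (r q) ≤ C) ∧ ∀ g T Y,
            Sol J a' (fun l m => eta s (a' l m)) g T Y → Zz s J a' T w' m i = ∑ q, r q ⬝ᵥ g q := by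
  induction m using WellFoundedLT.induction with
  | ind m ih =>
  intro k
  choose! C k' c0 hC using fun q (hq : q < m) => ih q hq (k + 1)
  obtain ⟨D, d0, hD⟩ := row_word R hB k
  set t : Finset L := univ.filter (· < m) with ht
  have mt : ∀ q ∈ t, q < m := fun q hq => (mem_filter.1 hq).2
  have s0 : 0 ≤ ∑ q ∈ t, C q := sum_nonneg fun q hq => c0 q (mt q hq)
  refine ⟨8 * (D + (#t ^ 3 + 1) * ∑ q ∈ t, C q), 2 * (k + 1) + ∑ q, k' q, by positivity, ?_⟩
  intro ι _ _ s K J hU hJ hK hs a w ha hw hb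
  have one : ∀ i : ι, |(1 : ι → ℝ) i| ≤ B := fun i => by simpa using hB
  obtain ⟨M0, m0, m1, m2⟩ := hD ι s K J (hU.mono le_rfl (by omega) le_rfl) hJ hK hs (w ++ [1])
    (by simp [hw]) (hb.snoc one)
  choose! M n0 n1 n2 using fun q (hq : q < m) => hC q hq ι s K J (hU.mono le_rfl
    ((single_le_sum (fun _ _ => Nat.zero_le _) (mem_univ q)).trans (Nat.le_add_left _ _)) le_rfl)
    hJ hK hs a (w ++ [a m q]) ha (by simp [hw]) (hb.snoc (ha m q))
  have z0 : ∀ i, 0 ≤ ∑ q ∈ t, M q i := fun i => sum_nonneg fun q hq => n0 q (mt q hq) i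
  refine ⟨fun i => M0 i + ∑ q ∈ t, M q i, fun i => add_nonneg (m0 i) (z0 i), ?_,
    fun i a' w' o1 ha' o2 hb' => ?_⟩
  · have h1 := four_sum (t := t) (fun q hq => n0 q (mt q hq)) fun q hq => n1 q (mt q hq)
    refine (sum_le_sum fun i _ => add_pow_le (m0 i) (z0 i) 4).trans ?_
    rw [← mul_sum, sum_add_distrib]
    norm_num
    nlinarith [mul_nonneg s0 (add_nonneg (sq_nonneg K) zero_le_one)]
  · obtain ⟨p1, p2⟩ := m2 i (w' ++ [1]) (o2.append (Off.refl i _)) (hb'.snoc one)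
    choose! r r1 r2 r3 using fun q (hq : q < m) => n2 q hq i a' (w' ++ [a' m q]) o1 ha'
      (o2.append (List.Forall₂.cons (o1 m q) List.Forall₂.nil)) (hb'.snoc (ha' m q))
    refine ⟨fun q => (if q = m then Wk s J w' i else 0) + ∑ p ∈ t, r p q, fun q j => ?_,
      fun q => ?_, fun g T Y h => ?_⟩
    · simp only [Pi.add_apply, Finset.sum_apply]
      refine (abs_add_le _ _).trans (add_le_add ?_ ((abs_sum_le_sum_abs _ _).trans
        (sum_le_sum fun p hp => r1 p (mt p hp) q j)))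
      split_ifs
      · exact p1 j
      · simpa using m0 i
    · have q1 : nrm (if q = m then Wk s J w' i else 0) ≤ D := by
        split_ifs
        · exact p2
        · simpa using d0
      have q2 := (nrm_sum_le t fun p => r p q).trans (sum_le_sum fun p hp => r2 p (mt p hp) q)
      refine (nrm_add_le _ _).trans ?_
      nlinarith [mul_nonneg (pow_nonneg (Nat.cast_nonneg (α := ℝ) #t) 3) s0]
    · rw [zz_rec h, Pi.add_apply, Finset.sum_apply,
        sum_congr rfl fun p hp => r3 p (mt p hp) g T Y h]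
      simp only [add_dotProduct, sum_add_distrib, sum_dotProduct]
      rw [sum_comm]
      congr 1
      rw [sum_eq_single m (fun q _ hq => by simp [hq]) (by simp), if_pos rfl]
      rfl

/-- **rows of the solution operator**: entries `≤ M i`, `∑ M⁴ ≤ C (K² + 1)`, up to the mismatch `Θ`
between the constants `o` and the contractions of the letters -/
theorem rows (L : Type) [Fintype L] [LinearOrder L] (R : ℝ) {B : ℝ} (hB : 1 ≤ B) :
    ∃ (C : ℝ) (k : ℕ), 1 ≤ C ∧
    ∀ (ι : Type) [Fintype ι] [DecidableEq ι] (s K : ℝ) (J : Matrix ι ι ℝ),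
      UW s J R k K → Jᵀ = J → 0 ≤ K → s ^ 2 * Fintype.card ι ≤ 1 →
      ∀ a : L → L → ι → ℝ, (∀ l m i, |a l m i| ≤ B) →
      ∃ M : ι → ℝ, (∀ i, 0 ≤ M i) ∧ ∑ i, M i ^ 4 ≤ C * (K ^ 2 + 1) ∧
        ∀ (i : ι) (a' : L → L → ι → ℝ), (∀ l m j, j ≠ i → a' l m j = a l m j) →
          (∀ l m j, |a' l m j| ≤ B) → ∀ l, ∃ r : L → ι → ℝ, (∀ q j, |r q j| ≤ M i) ∧
          ∀ (o : L → L → ℝ) (g T Y : L → ι → ℝ) (Θ S : ℝ), Sol J a' o g T Y → (∀ l m, |o l m| ≤ B) →
            0 ≤ Θ → (∀ l m, m < l → |eta s (a' l m) - o l m| ≤ Θ) → 0 ≤ S → (∀ q, nrm (g q) ≤ S) →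
            |Y l i - ∑ q, r q ⬝ᵥ g q| ≤ C * (Θ * S) := by
  choose C k c0 hC using fun m => row_wick L R hB m 0
  obtain ⟨D, d1, hD⟩ := sol_nrm L (R := R) (zero_le_one.trans hB)
  obtain ⟨N, hN⟩ : ∃ N : ℝ, N = Fintype.card L := ⟨_, rfl⟩
  have N0 : 0 ≤ N := hN ▸ Nat.cast_nonneg _
  set X := ∑ l, C l with hX
  have X0 : 0 ≤ X := sum_nonneg fun l _ => c0 l
  have B0 : 0 ≤ B := zero_le_one.trans hB
  have D0 : 0 ≤ D := zero_le_one.trans d1
  refine ⟨1 + N ^ 3 * X + (N * D + N * (X * (N * (B * (N * D))))), ∑ l, k l, by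
    have : 0 ≤ N ^ 3 * X + (N * D + N * (X * (N * (B * (N * D))))) := by positivity
    linarith, ?_⟩
  intro ι _ _ s K J hU hJ hK hs a ha
  choose M n0 n1 n2 using fun l => hC l ι s K J (hU.mono le_rfl
    (single_le_sum (fun _ _ => Nat.zero_le _) (mem_univ l)) le_rfl) hJ hK hs a [] ha rfl
    (fun _ h => by simp at h)
  refine ⟨fun i => ∑ l, M l i, fun i => sum_nonneg fun l _ => n0 l i, ?_, fun i a' o1 ha' l => ?_⟩
  · refine (four_sum (fun q _ => n0 q) fun q _ => n1 q).trans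
      (mul_le_mul_of_nonneg_right ?_ (by positivity))
    have : 0 ≤ N * D + N * (X * (N * (B * (N * D)))) := by positivity
    rw [card_univ, ← hN, ← hX]; linarith
  obtain ⟨r, r1, r2, r3⟩ := n2 l i a' [] o1 ha' List.Forall₂.nil (fun _ h => by simp at h)
  refine ⟨r, fun q j => (r1 q j).trans (single_le_sum (fun l _ => n0 l i) (mem_univ l)), ?_⟩
  intro o g T Y Θ S h ho hΘ0 hΘ hS hg
  set E : L → ι → ℝ := fun l => ∑ m with m < l, (eta s (a' l m) - o l m) • T m with hE
  have h1 : Sol J a' (fun l m => eta s (a' l m)) (fun l => g l + ∑ m with m < l, a' l m * E m) T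
      (Y - E) := ⟨fun l => by
    simp only [Pi.sub_apply, mul_sub, sum_sub_distrib]
    rw [h.t l]; abel, fun l => by
    simp only [Pi.sub_apply, hE, sub_smul, sum_sub_distrib]
    rw [h.y l]; abel⟩
  have h2 := r3 _ _ _ h1
  rw [zz_nil h1] at h2
  have e1 : ∀ l, nrm (E l) ≤ N * (Θ * (D * S)) := fun l => hN ▸ nrm_sum_le' (by positivity) fun m hm => by
    rw [nrm_smul]
    exact mul_le_mul (hΘ l m (mem_filter.1 hm).2) (hD ι J a' o g T Y S h hU.op ha' ho hS hg m).1
      (nrm_nonneg _) hΘ0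
  have e2 : ∀ q, |r q ⬝ᵥ ∑ m with m < q, a' q m * E m| ≤ X * (N * (B * (N * (Θ * (D * S))))) :=
    fun q => (abs_dot_le _ _).trans (mul_le_mul ((r2 q).trans (single_le_sum (fun l _ => c0 l)
      (mem_univ l))) ((nrm_sum_le' (by positivity) fun m _ => (nrm_mul_le B0 (ha' q m) _).trans
        (mul_le_mul_of_nonneg_left (e1 m) B0)).trans_eq (by rw [hN])) (nrm_nonneg _) X0)
  have e3 := (abs_sum_le_sum_abs _ _).trans (sum_le_card_nsmul univ _ _ fun q _ => e2 q)
  rw [card_univ, nsmul_eq_mul, ← hN] at e3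
  simp only [dotProduct_add, sum_add_distrib, Pi.sub_apply] at h2
  rw [show Y l i - ∑ q, r q ⬝ᵥ g q = E l i + ∑ q, r q ⬝ᵥ ∑ m with m < q, a' q m * E m by linarith]
  refine (abs_add_le _ _).trans ((add_le_add ((abs_apply_le_nrm _ i).trans (e1 l)) e3).trans ?_)
  have : 0 ≤ (1 + N ^ 3 * X) * (Θ * S) := by positivity
  nlinarith

end Crest.Agent.T157.S3C

end
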