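import Crest.Agent.T157.S3Prog_65

/-!
# Row 157, block B/S3 (helper60): the field-only network of a program

The parameter nodes (`f = 0`) are constant in the configuration; they are frozen in the letters.
-/

set_option autoImplicit false

noncomputable section

namespace Crest.Agent.T157.S3P

open Matrix Finset Function
open Crest.ProbabilityR.SpinGlassDynamics (spin)
open Crest.Agent.T157.E (Cube sv ising mean meanV cov mag)
open Crest.Agent.T157.S3 (V Mx LF Dep hf Fam Net)

variable {n N M : ℕ}

/-- `e` lists the field nodes -/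
structure Fe (P : Prog N) (e : Fin (M + 1) → Fin (N + 1)) : Prop where
  mono : StrictMono e
  zero : e 0 = 0
  off : ∀ t, t ∉ Set.range e → P.f t = 0



variable {P : Prog N} {F : Fam} {e : Fin (M + 1) → Fin (N + 1)}

lemma pd_zero (m : Fin (N + 1)) : pd m (0 : PF N) = 0 := by
  ext b s ξ
  change fderiv ℝ (fun _ : Fin (N + 1) → ℝ => (0 : ℝ)) ξ _ = 0
  simp

/-- a parameter node is constant -/
theorem Prog.Ok.X_par (h : P.Ok) {s : ℝ} {J : Mx n} {y : V n} {t : Fin (N + 1)} (ht : P.f t = 0)
    (x : Cube n) : P.X s J y t x = P.c s J y t := by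
  have e0 : eP s J y (P.X s J y) (0 : PF N) = 0 := rfl
  have e1 : Zr P s J y (P.X s J y) t = 0 := by
    ext1 x
    simp [Zr, ht, pd_zero, me_zero, e0]
  have e2 : Sg P s J y (P.X s J y) t 0 = 0 := by
    simp [Sg, ht, e0, cov, mean]
  rw [← congrFun (congrFun h.fix t) x, step, e1, e2]
  ext k
  simp [meanV, mean, Prog.c]



/-- the embedding of the fields -/
def emb (e : Fin (M + 1) → Fin (N + 1)) : (Fin (M + 1) → ℝ) →L[ℝ] (Fin (N + 1) → ℝ) :=
  LinearMap.toContinuousLinearMap
    { toFun := fun ξ => extend e ξ 0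
      map_add' := fun ξ ξ' => by
        funext t; classical simp only [extend_def, Pi.add_apply]; split_ifs <;> simp
      map_smul' := fun c ξ => by
        funext t; classical simp only [extend_def, Pi.smul_apply]; split_ifs <;> simp }

lemma extend_eq (e : Fin (M + 1) → Fin (N + 1)) (ξ : Fin (M + 1) → ℝ) (c : Fin (N + 1) → ℝ) :
    extend e ξ c = emb e ξ + extend e 0 c := by
  funext t
  change _ = extend e ξ 0 t + _
  classical
  simp only [extend_def]
  split_ifs <;> simp

lemma emb_single (he : Injective e) (u : Fin (M + 1)) :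
    emb e (Pi.single u 1) = Pi.single (e u) 1 := by
  funext t
  change extend e (Pi.single u (1 : ℝ)) 0 t = _
  by_cases ht : ∃ v, e v = t
  · obtain ⟨v, rfl⟩ := ht
    rw [he.extend_apply]
    simp [Pi.single_apply, he.eq_iff]
  · rw [extend_apply' _ _ _ ht, Pi.single_eq_of_ne fun h => ht ⟨u, h.symm⟩]; rfl

lemma hasFDerivAt_extend (e : Fin (M + 1) → Fin (N + 1)) (c : Fin (N + 1) → ℝ)
    (ξ : Fin (M + 1) → ℝ) : HasFDerivAt (fun ξ => extend e ξ c) (emb e) ξ := by
  rw [show (fun ξ => extend e ξ c) = fun ξ => emb e ξ + extend e 0 c from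
    funext fun ξ => extend_eq e ξ c]
  exact (emb e).hasFDerivAt.add_const _

lemma diff_extend {u : (Fin (N + 1) → ℝ) → ℝ} (hu : Differentiable ℝ u)
    (e : Fin (M + 1) → Fin (N + 1)) (c : Fin (N + 1) → ℝ) :
    Differentiable ℝ fun ξ => u (extend e ξ c) :=
  fun ξ => ((hu _).hasFDerivAt.comp ξ (hasFDerivAt_extend e c ξ)).differentiableAt

/-- the derivative in a field commutes with freezing -/
lemma fderiv_extend {u : (Fin (N + 1) → ℝ) → ℝ} (hu : Differentiable ℝ u) (he : Injective e)
    (c : Fin (N + 1) → ℝ) (ξ : Fin (M + 1) → ℝ) (v : Fin (M + 1)) :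
    fderiv ℝ (fun ξ => u (extend e ξ c)) ξ (Pi.single v 1) =
      fderiv ℝ u (extend e ξ c) (Pi.single (e v) 1) := by
  have := ((hu _).hasFDerivAt.comp ξ (hasFDerivAt_extend e c ξ)).fderiv
  rw [show (fun ξ => u (extend e ξ c)) = u ∘ fun ξ => extend e ξ c from rfl, this,
    ContinuousLinearMap.comp_apply, emb_single he]









end Crest.Agent.T157.S3P

end
namespace Crest.Agent.T157.S3P.Sm
end Crest.Agent.T157.S3P.Sm
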