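import Crest.Agent.T157.TapDef_29
import Crest.Agent.T157.ConcG_16

/-!
# Row 157, block B/S3, section 4 (local law): network-free words and leaves (helper65)
-/

set_option autoImplicit false

noncomputable section

namespace Crest.Agent.T157.S3L

open MeasureTheory ProbabilityTheory Matrix Filter Set
open Crest.ProbabilityR.SpinGlassDynamics
open Crest.Agent.T157.E Crest.Agent.T157.Tap
open Crest.Agent.T157.Conc (en ELip)

section words
variable {L κ Ω : Type} [Fintype L] [Fintype κ] [Fintype Ω]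

/-- mean of `φ` under `N(0, A Aᵀ)` -/
def gm (A : Matrix L κ ℝ) (φ : (L → ℝ) → ℝ) : ℝ := ∫ z, φ (A *ᵥ z) ∂gv κ
/-- entrywise `ℓ¹` distance -/
def d1 (M N : Matrix L L ℝ) : ℝ := ∑ l, ∑ m, |M l m - N l m|
/-- squared Frobenius norm -/
def f2 (A : Matrix L κ ℝ) : ℝ := ∑ l, ∑ k, A l k ^ 2
/-- law of a spin in the field `b` -/
def hb (b : ℝ) (σ : Bool) : ℝ := Real.exp (spin σ * b) / (2 * Real.cosh b)
/-- the impurity model: `s ∼ hb b`, `ξ = s Σ_{·o} + N(0,Σ)`, `Σ = A Aᵀ` -/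
def mdl (A : Matrix L κ ℝ) (o : L) (b : ℝ) (ψ : Bool → (L → ℝ) → ℝ) : ℝ :=
  ∑ σ, hb b σ * gm A fun x => ψ σ (spin σ • (fun l => (A * Aᵀ) l o) + x)
/-- normalised test functions -/
def Tst (ψ : Bool → (L → ℝ) → ℝ) : Prop := ∀ σ, ELip 1 (ψ σ) ∧ |ψ σ 0| ≤ 1
/-- a spin in the field `b + ξ_o` attached to the cavity law of `ξ` -/
def tl (w : Ω → ℝ) (ξ : Ω → L → ℝ) (o : L) (b : ℝ) (ψ : Bool → (L → ℝ) → ℝ) : ℝ :=
  (∑ σ, Real.exp (spin σ * b) * mean w fun x => Real.exp (spin σ * ξ x o) * ψ σ (ξ x)) /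
    ∑ σ, Real.exp (spin σ * b) * mean w fun x => Real.exp (spin σ * ξ x o)

end words


/-- the annealed cavity law is Gaussian when the overlaps concentrate -/
def MeanStmt : Prop := ∀ (L κ ι Ω : Type) [Fintype L] [Fintype κ] [Fintype ι] [Fintype Ω]
  (w : Ω → ℝ) (M : Ω → Matrix L ι ℝ) (A : Matrix L κ ℝ) (φ : (L → ℝ) → ℝ) (δ : ℝ),
  SL.Wt w → ELip 1 φ → (mean w fun x => d1 (M x * (M x)ᵀ) (A * Aᵀ)) ≤ δ →
  |(∫ z, mean w (fun x => φ (M x *ᵥ z)) ∂gv ι) - gm A φ| ≤ 2 * √((Fintype.card L + 1) * δ)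

/-- from the cavity law to the law with the spin attached (deterministic) -/
def TiltStmt : Prop := ∀ (L : Type) [Fintype L] (o : L) (C ε : ℝ), 0 < ε → ∃ δ > (0 : ℝ),
  ∀ (κ Ω : Type) [Fintype κ] [Fintype Ω] (w : Ω → ℝ) (ξ : Ω → L → ℝ) (A : Matrix L κ ℝ),
    SL.Wt w → (mean w fun x => en (ξ x) ^ 4) ≤ C →
    (mean w fun x => Real.exp (4 * |ξ x o|)) ≤ C → f2 A ≤ C →
    (∀ φ, ELip 1 φ → |(mean w fun x => φ (ξ x)) - gm A φ| ≤ δ) →
    ∀ b ψ, Tst ψ → |tl w ξ o b ψ - mdl A o b ψ| ≤ ε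

/-- values and continuity of the model -/
def MdlStmt : Prop := ∀ (L : Type) [Fintype L] (o : L),
  (∀ (κ : Type) [Fintype κ] (A : Matrix L κ ℝ) (b : ℝ),
    mdl A o b (fun σ _ => spin σ) = Real.tanh b ∧
    ∀ l, mdl A o b (fun _ x => x l) = (A * Aᵀ) l o * Real.tanh b) ∧
  ∀ C : ℝ, ∃ K : ℝ, ∀ (κ κ' : Type) [Fintype κ] [Fintype κ'] (A : Matrix L κ ℝ)
    (B : Matrix L κ' ℝ) (b b' d : ℝ) (ψ : Bool → (L → ℝ) → ℝ), Tst ψ → f2 A ≤ C → d ≤ 1 →
    d1 (A * Aᵀ) (B * Bᵀ) ≤ d → |mdl A o b ψ - mdl B o b' ψ| ≤ K * (|b - b'| + √d)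

variable {n : ℕ}

/-- replace the off-diagonal part of the row and column `i` -/
def rs (i : Fin n) (W : Mx n) (z : V n) : Mx n := fun k l =>
  if k = i ∧ l ≠ i then z l else if l = i ∧ k ≠ i then z k else W k l

/-- measurable data attached to the site `i` which do not see the row `i` -/
structure Cav (L : Type) (n : ℕ) where
  w : Fin n → Mx n × V n → Cube n → ℝ
  M : Fin n → Mx n × V n → Cube n → Matrix L (Fin n) ℝ
  pos : ∀ i p x, 0 < w i p x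
  mw : ∀ i x, Measurable fun p => w i p x
  mM : ∀ i x l k, Measurable fun p => M i p x l k
  iw : ∀ i W z y, w i (rs i W z, y) = w i (W, y)
  iM : ∀ i W z y, M i (rs i W z, y) = M i (W, y)
  col : ∀ i p x l, M i p x l i = 0

/-- the quenched cavity law at the site `i` is `ε`-far from the annealed one -/
def Cav.Bad {L : Type} [Fintype L] (c : Cav L n) (C ε : ℝ) (p : Mx n × V n) (i : Fin n) : Prop :=
  (∀ u : V n, (mean (c.w i p) fun x => en (c.M i p x *ᵥ u) ^ 2) ≤ C * en u ^ 2) ∧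
  ∃ φ, ELip 1 φ ∧ ε < |(mean (c.w i p) fun x => φ (c.M i p x *ᵥ p.1 i)) -
    ∫ z, mean (c.w i p) (fun x => φ (c.M i p x *ᵥ ((1 / √n) • z))) ∂gv (Fin n)|

/-- quenched = annealed at every site, uniformly over Lipschitz functions -/
def RowCltStmt : Prop := ∀ (L : Type) [Fintype L] (c : ∀ n, Cav L n), ∀ β ∈ Ico (0 : ℝ) 1,
  ∀ (r C ε : ℝ), 0 < ε → Top.Whp GOE fun n W =>
    (SL.law sv (ising (β • W) 0) r).real {y | ∃ i, (c n).Bad C ε (W, y) i} ≤ ε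

end Crest.Agent.T157.S3L

end
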