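import Mathlib
import Crest.Agent.T157.S3LDef_65

-- ▼ part T157/S3IA_52
section

/-! S3 (ID), part A: negligible site vectors along a filter of instances. -/

namespace Crest.Agent.T157.S3I

open Filter Topology Finset

variable {I : Type*} {F : Filter I} {n : I → ℕ} {K : I → ℝ}

/-- negligible site vector: `|d i| ≤ e + r i`, `∑ r⁴ ≤ C K`, eventually, for every `e > 0`. -/
def Ng (F : Filter I) (n : I → ℕ) (K : I → ℝ) (d : ∀ a, Fin (n a) → ℝ) : Prop :=
  ∃ C : ℝ, 0 ≤ C ∧ ∀ e : ℝ, 0 < e → ∀ᶠ a in F, ∃ r : Fin (n a) → ℝ,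
    (∑ i, r i ^ 4 ≤ C * K a) ∧ ∀ i, |d a i| ≤ e + r i

lemma pow4_add (x y : ℝ) : (x + y) ^ 4 ≤ 8 * (x ^ 4 + y ^ 4) := by
  have h1 : (x + y) ^ 2 ≤ 2 * (x ^ 2 + y ^ 2) := by nlinarith [sq_nonneg (x - y)]
  have h2 : (x + y) ^ 4 = ((x + y) ^ 2) ^ 2 := by ring
  have h3 : ((x + y) ^ 2) ^ 2 ≤ (2 * (x ^ 2 + y ^ 2)) ^ 2 :=
    pow_le_pow_left₀ (sq_nonneg _) h1 2
  nlinarith [sq_nonneg (x ^ 2 - y ^ 2)]

theorem Ng.of_le {d d' : ∀ a, Fin (n a) → ℝ} (h : Ng F n K d)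
    (hle : ∀ᶠ a in F, ∀ i, |d' a i| ≤ |d a i|) : Ng F n K d' := by
  obtain ⟨C, hC, h⟩ := h
  refine ⟨C, hC, fun e he => ?_⟩
  filter_upwards [h e he, hle] with a ⟨r, hr, hd⟩ hl
  exact ⟨r, hr, fun i => (hl i).trans (hd i)⟩

theorem Ng.congr {d d' : ∀ a, Fin (n a) → ℝ} (h : Ng F n K d)
    (he : ∀ᶠ a in F, ∀ i, d' a i = d a i) : Ng F n K d' :=
  h.of_le (he.mono fun a ha i => by rw [ha i])

theorem Ng.abs {d : ∀ a, Fin (n a) → ℝ} (h : Ng F n K d) : Ng F n K (fun a i => |d a i|) :=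
  h.of_le (Eventually.of_forall fun a i => by rw [abs_abs])

theorem Ng.neg {d : ∀ a, Fin (n a) → ℝ} (h : Ng F n K d) : Ng F n K (fun a i => - d a i) :=
  h.of_le (Eventually.of_forall fun a i => by rw [abs_neg])

theorem Ng.add {d d' : ∀ a, Fin (n a) → ℝ} (h : Ng F n K d) (h' : Ng F n K d') :
    Ng F n K (fun a i => d a i + d' a i) := by
  obtain ⟨C, hC, h⟩ := h
  obtain ⟨C', hC', h'⟩ := h'
  refine ⟨8 * (C + C'), by positivity, fun e he => ?_⟩
  filter_upwards [h (e / 2) (by positivity), h' (e / 2) (by positivity)] with a ⟨r, hr, hd⟩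
    ⟨r', hr', hd'⟩
  refine ⟨fun i => r i + r' i, ?_, fun i => ?_⟩
  · calc ∑ i, (r i + r' i) ^ 4 ≤ ∑ i, 8 * (r i ^ 4 + r' i ^ 4) :=
          sum_le_sum fun i _ => pow4_add _ _
      _ = 8 * (∑ i, r i ^ 4 + ∑ i, r' i ^ 4) := by rw [← mul_sum, sum_add_distrib]
      _ ≤ 8 * (C + C') * K a := by nlinarith
  · have := abs_add_le (d a i) (d' a i)
    linarith [hd i, hd' i]

theorem Ng.sub {d d' : ∀ a, Fin (n a) → ℝ} (h : Ng F n K d) (h' : Ng F n K d') :
    Ng F n K (fun a i => d a i - d' a i) := by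
  simpa only [sub_eq_add_neg] using h.add h'.neg

theorem Ng.const_mul {d : ∀ a, Fin (n a) → ℝ} (h : Ng F n K d) (c : ℝ) :
    Ng F n K (fun a i => c * d a i) := by
  obtain ⟨C, hC, h⟩ := h
  refine ⟨(|c| + 1) ^ 4 * C, by positivity, fun e he => ?_⟩
  have hc : 0 < |c| + 1 := by positivity
  filter_upwards [h (e / (|c| + 1)) (by positivity)] with a ⟨r, hr, hd⟩
  refine ⟨fun i => (|c| + 1) * r i, ?_, fun i => ?_⟩
  · calc ∑ i, ((|c| + 1) * r i) ^ 4 = (|c| + 1) ^ 4 * ∑ i, r i ^ 4 := by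
          rw [mul_sum]; exact sum_congr rfl fun i _ => by ring
      _ ≤ (|c| + 1) ^ 4 * (C * K a) := by gcongr
      _ = _ := by ring
  · rw [abs_mul]
    have h1 : |c| * |d a i| ≤ (|c| + 1) * |d a i| := by nlinarith [abs_nonneg (d a i)]
    have h2 : (|c| + 1) * |d a i| ≤ (|c| + 1) * (e / (|c| + 1) + r i) := by
      gcongr; exact hd i
    have h3 : (|c| + 1) * (e / (|c| + 1) + r i) = e + (|c| + 1) * r i := by field_simp
    linarith

/-- domination by a constant multiple -/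
theorem Ng.of_le_mul {d d' : ∀ a, Fin (n a) → ℝ} (h : Ng F n K d) (c : ℝ)
    (hle : ∀ᶠ a in F, ∀ i, |d' a i| ≤ c * |d a i|) : Ng F n K d' :=
  (h.const_mul c).of_le (hle.mono fun a ha i => (ha i).trans (by
    rw [abs_mul]; exact mul_le_mul_of_nonneg_right (le_abs_self c) (abs_nonneg _)))

/-- uniformly small vectors are negligible -/
theorem Ng.of_unif {d : ∀ a, Fin (n a) → ℝ}
    (h : ∀ e : ℝ, 0 < e → ∀ᶠ a in F, ∀ i, |d a i| ≤ e) : Ng F n K d := by
  refine ⟨0, le_rfl, fun e he => ?_⟩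
  filter_upwards [h e he] with a ha
  exact ⟨fun _ => 0, by simp, fun i => by simpa using ha i⟩

theorem Ng.zero : Ng F n K (fun _ _ => 0) :=
  Ng.of_unif fun e he => Eventually.of_forall fun a i => by simpa using he.le

theorem Ng.of_tendsto {c : I → ℝ} (h : Tendsto c F (𝓝 0)) : Ng F n K (fun a _ => c a) :=
  Ng.of_unif fun e he => by
    have := (Metric.tendsto_nhds.1 h) e he
    filter_upwards [this] with a ha i
    rw [Real.dist_eq, sub_zero] at ha
    exact ha.le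

theorem Ng.of_tendsto' {c : I → ℝ} {c0 : ℝ} (h : Tendsto c F (𝓝 c0)) :
    Ng F n K (fun a _ => c a - c0) :=
  Ng.of_tendsto (tendsto_sub_nhds_zero_iff.2 h)

theorem Ng.sum {ι : Type*} (T : Finset ι) {d : ι → ∀ a, Fin (n a) → ℝ}
    (h : ∀ j ∈ T, Ng F n K (d j)) : Ng F n K (fun a i => ∑ j ∈ T, d j a i) := by
  classical
  induction T using Finset.induction_on with
  | empty => simpa using (Ng.zero : Ng F n K (fun _ _ => 0))
  | insert j T hj ih =>
    have h1 := h j (mem_insert_self _ _)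
    have h2 := ih fun k hk => h k (mem_insert_of_mem hk)
    exact (h1.add h2).congr (Eventually.of_forall fun a i => by rw [sum_insert hj])



/-- the average of a negligible vector tends to `0` when `K = o(n)`. -/
theorem Ng.avg_abs {d : ∀ a, Fin (n a) → ℝ} (h : Ng F n K d)
    (hK : Tendsto (fun a => K a / n a) F (𝓝 0)) :
    Tendsto (fun a => (∑ i, |d a i|) / n a) F (𝓝 0) := by
  obtain ⟨C, hC, h⟩ := h
  refine Metric.tendsto_nhds.2 fun e he => ?_
  have hK' : Tendsto (fun a => C * (K a / n a)) F (𝓝 0) := by simpa using hK.const_mul C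
  have h3 : 0 < (e / 3) ^ 4 := by positivity
  filter_upwards [h (e / 3) (by positivity), Metric.tendsto_nhds.1 hK' _ h3] with a ⟨r, hr, hd⟩ hk
  rw [Real.dist_eq, sub_zero] at hk ⊢
  have hk' : C * (K a / n a) < (e / 3) ^ 4 := (le_abs_self _).trans_lt hk
  rcases Nat.eq_zero_or_pos (n a) with h0 | hpos
  · have : ((n a : ℕ) : ℝ) = 0 := by exact_mod_cast h0
    rw [this, div_zero, abs_zero]; exact he
  have hn : (0 : ℝ) < n a := by exact_mod_cast hpos
  rw [abs_of_nonneg (by positivity), div_lt_iff₀ hn]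
  -- r ≤ e/3 + r^4 / (e/3)^3
  have hr1 : ∀ i, r i ≤ e / 3 + r i ^ 4 / (e / 3) ^ 3 := by
    intro i
    have he3 : 0 < e / 3 := by positivity
    rcases le_total (r i) (e / 3) with h1 | h1
    · have : 0 ≤ r i ^ 4 / (e / 3) ^ 3 := by positivity
      linarith
    · have h2 : (e / 3) ^ 3 ≤ r i ^ 3 := pow_le_pow_left₀ he3.le h1 3
      have h4 : r i ≤ r i ^ 4 / (e / 3) ^ 3 := by
        rw [le_div_iff₀ (by positivity)]
        have : 0 ≤ r i := he3.le.trans h1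
        nlinarith
      linarith
  have hs : ∑ i, |d a i| ≤ ∑ i : Fin (n a), (2 * (e / 3) + r i ^ 4 / (e / 3) ^ 3) :=
    sum_le_sum fun i _ => by linarith [hd i, hr1 i]
  rw [sum_add_distrib, sum_const, card_univ, Fintype.card_fin, nsmul_eq_mul, ← sum_div] at hs
  have h5 : (∑ i, r i ^ 4) / (e / 3) ^ 3 < e / 3 * n a := by
    rw [div_lt_iff₀ (by positivity)]
    have h6 : C * K a < (e / 3) ^ 4 * n a := by
      rw [← mul_div_assoc, div_lt_iff₀ hn] at hk'; exact hk'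
    calc ∑ i, r i ^ 4 ≤ C * K a := hr
      _ < (e / 3) ^ 4 * n a := h6
      _ = e / 3 * n a * (e / 3) ^ 3 := by ring
  nlinarith

theorem Ng.avg {d : ∀ a, Fin (n a) → ℝ} (h : Ng F n K d)
    (hK : Tendsto (fun a => K a / n a) F (𝓝 0)) :
    Tendsto (fun a => (∑ i, d a i) / n a) F (𝓝 0) := by
  refine squeeze_zero_norm' ?_ (h.avg_abs hK)
  refine Eventually.of_forall fun a => ?_
  rw [Real.norm_eq_abs, abs_div, Nat.abs_cast]
  exact div_le_div_of_nonneg_right (abs_sum_le_sum_abs _ _) (Nat.cast_nonneg _)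

/-- (L2) averages: `q - u ∈ Ng`, `avg u → c` give `avg q → c`. -/
theorem Ng.avg_of {q u : ∀ a, Fin (n a) → ℝ} {c : ℝ} (h : Ng F n K (fun a i => q a i - u a i))
    (hK : Tendsto (fun a => K a / n a) F (𝓝 0))
    (hu : Tendsto (fun a => (∑ i, u a i) / n a) F (𝓝 c)) :
    Tendsto (fun a => (∑ i, q a i) / n a) F (𝓝 c) := by
  have := (h.avg hK).add hu
  rw [zero_add] at this
  refine this.congr fun a => ?_
  rw [← add_div, ← sum_add_distrib]
  exact congrArg (· / (n a : ℝ)) (sum_congr rfl fun i _ => by ring)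

/-- products of bounded identified vectors -/
theorem Ng.mul_sub {q q' u u' : ∀ a, Fin (n a) → ℝ} (B : ℝ)
    (h : Ng F n K (fun a i => q a i - u a i)) (h' : Ng F n K (fun a i => q' a i - u' a i))
    (hb : ∀ᶠ a in F, ∀ i, |q' a i| ≤ B) (hb' : ∀ᶠ a in F, ∀ i, |u a i| ≤ B) :
    Ng F n K (fun a i => q a i * q' a i - u a i * u' a i) := by
  have h1 : Ng F n K (fun a i => (q a i - u a i) * q' a i) :=
    h.of_le_mul B (hb.mono fun a ha i => by
      rw [abs_mul, mul_comm]; exact mul_le_mul_of_nonneg_right (ha i) (abs_nonneg _))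
  have h2 : Ng F n K (fun a i => u a i * (q' a i - u' a i)) :=
    h'.of_le_mul B (hb'.mono fun a ha i => by
      rw [abs_mul]; exact mul_le_mul_of_nonneg_right (ha i) (abs_nonneg _))
  exact (h1.add h2).congr (Eventually.of_forall fun a i => by ring)

end Crest.Agent.T157.S3I
end

-- ▼ part T157/S3IB_52

/-! S3 (ID), part B: the model, blocks of nodes, closure lemmas along a filter (helper52). -/

set_option autoImplicit false
set_option linter.unusedSectionVars false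

noncomputable section

namespace Crest.Agent.T157.S3I

open MeasureTheory ProbabilityTheory Matrix Filter Topology Finset
open Crest.ProbabilityR.SpinGlassDynamics
open Crest.Agent.T157.E hiding hb
open Crest.Agent.T157.S3L
open Crest.Agent.T157.Conc (en ELip)

section model
variable {L κ : Type} [Fintype L] [Fintype κ]

lemma hb_nonneg (b : ℝ) (σ : Bool) : 0 ≤ hb b σ := by
  have := Real.cosh_pos b
  unfold hb; positivity

lemma sum_hb (b : ℝ) : ∑ σ, hb b σ = 1 := by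
  have := Real.cosh_pos b
  simp only [hb, Fintype.sum_bool, spin, if_true, Bool.false_eq_true, if_false, one_mul, neg_mul]
  rw [← add_div, div_eq_one_iff_eq (by positivity), Real.cosh_eq]; ring

lemma spin_not (σ : Bool) : spin (!σ) = - spin σ := by cases σ <;> simp [spin]

lemma hb_neg (b : ℝ) (σ : Bool) : hb (-b) (!σ) = hb b σ := by
  simp only [hb, spin_not, Real.cosh_neg, mul_neg, neg_mul, neg_neg]


lemma en_mulVec (A : Matrix L κ ℝ) (z : κ → ℝ) : en (A *ᵥ z) ≤ √(f2 A) * en z := by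
  unfold en
  rw [← Real.sqrt_mul (by unfold f2; positivity)]
  refine Real.sqrt_le_sqrt ?_
  unfold f2
  rw [sum_mul]
  exact sum_le_sum fun l _ => sum_mul_sq_le_sq_mul_sq _ _ _

lemma elip_comp {Λ : ℝ} {φ : (L → ℝ) → ℝ} (h : ELip Λ φ) (A : Matrix L κ ℝ) (c : L → ℝ) :
    ELip (|Λ| * √(f2 A)) fun z => φ (c + A *ᵥ z) := fun x y => by
  have h1 := h.abs (c + A *ᵥ x) (c + A *ᵥ y)
  rw [add_sub_add_left_eq_sub, ← mulVec_sub] at h1
  rw [mul_assoc]
  exact h1.trans (mul_le_mul_of_nonneg_left (en_mulVec A _) (abs_nonneg _))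

lemma int_comp {Λ : ℝ} {φ : (L → ℝ) → ℝ} (h : ELip Λ φ) (A : Matrix L κ ℝ) (c : L → ℝ) :
    Integrable (fun z => φ (c + A *ᵥ z)) (gv κ) := (elip_comp h A c).integrable

variable (A : Matrix L κ ℝ) (o : L) (b : ℝ)

lemma mdl_const_mul (c : ℝ) (ψ : Bool → (L → ℝ) → ℝ) :
    mdl A o b (fun σ x => c * ψ σ x) = c * mdl A o b ψ := by
  simp only [mdl, gm, integral_const_mul, mul_sum]
  exact sum_congr rfl fun σ _ => by ring

lemma mdl_const (c : ℝ) : mdl A o b (fun _ _ => c) = c := by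
  simp only [mdl, gm, integral_const, probReal_univ, smul_eq_mul, one_mul]
  rw [← sum_mul, sum_hb, one_mul]

lemma mdl_add {Λ Λ' : ℝ} {ψ ψ' : Bool → (L → ℝ) → ℝ} (h : ∀ σ, ELip Λ (ψ σ))
    (h' : ∀ σ, ELip Λ' (ψ' σ)) :
    mdl A o b (fun σ x => ψ σ x + ψ' σ x) = mdl A o b ψ + mdl A o b ψ' := by
  simp only [mdl, gm]
  rw [← sum_add_distrib]
  refine sum_congr rfl fun σ _ => ?_
  rw [integral_add (int_comp (h σ) A _) (int_comp (h' σ) A _), mul_add]

lemma mdl_sub {Λ Λ' : ℝ} {ψ ψ' : Bool → (L → ℝ) → ℝ} (h : ∀ σ, ELip Λ (ψ σ))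
    (h' : ∀ σ, ELip Λ' (ψ' σ)) :
    mdl A o b (fun σ x => ψ σ x - ψ' σ x) = mdl A o b ψ - mdl A o b ψ' := by
  simp only [mdl, gm]
  rw [← sum_sub_distrib]
  refine sum_congr rfl fun σ _ => ?_
  rw [integral_sub (int_comp (h σ) A _) (int_comp (h' σ) A _), mul_sub]

lemma abs_mdl_le {B : ℝ} {ψ : Bool → (L → ℝ) → ℝ} (h : ∀ σ x, |ψ σ x| ≤ B) :
    |mdl A o b ψ| ≤ B := by
  unfold mdl
  refine (abs_sum_le_sum_abs _ _).trans ?_
  calc ∑ σ, |hb b σ * gm A fun x => ψ σ (spin σ • (fun l => (A * Aᵀ) l o) + x)|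
      ≤ ∑ σ, hb b σ * B := sum_le_sum fun σ _ => by
        rw [abs_mul, abs_of_nonneg (hb_nonneg b σ)]
        refine mul_le_mul_of_nonneg_left ?_ (hb_nonneg b σ)
        have := norm_integral_le_of_norm_le_const (μ := gv κ)
          (f := fun z => ψ σ (spin σ • (fun l => (A * Aᵀ) l o) + A *ᵥ z)) (C := B)
          (ae_of_all _ fun z => h σ _)
        simpa [gm] using this
    _ = B := by rw [← sum_mul, sum_hb, one_mul]

lemma abs_mdl_sub_le {Λ Λ' B : ℝ} {ψ ψ' : Bool → (L → ℝ) → ℝ} (h : ∀ σ, ELip Λ (ψ σ))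
    (h' : ∀ σ, ELip Λ' (ψ' σ)) (hB : ∀ σ x, |ψ σ x - ψ' σ x| ≤ B) :
    |mdl A o b ψ - mdl A o b ψ'| ≤ B := by
  rw [← mdl_sub A o b h h']; exact abs_mdl_le A o b hB

lemma gm_neg (φ : (L → ℝ) → ℝ) : gm A (fun x => φ (-x)) = gm A φ := by
  unfold gm
  have h : (gv κ).IsNegInvariant := by
    have : (gaussianReal 0 1).IsNegInvariant :=
      ⟨by simpa [Measure.neg] using gaussianReal_map_neg (μ := 0) (v := 1)⟩
    infer_instance
  rw [← integral_neg_eq_self (fun z => φ (A *ᵥ z)) (gv κ)]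
  simp only [mulVec_neg]

/-- the gauge symmetry of the model -/
lemma mdl_neg (ψ : Bool → (L → ℝ) → ℝ) :
    mdl A o (-b) ψ = mdl A o b (fun σ x => ψ (!σ) (-x)) := by
  unfold mdl
  rw [← Equiv.sum_comp (Equiv.boolNot)]
  refine sum_congr rfl fun σ _ => ?_
  simp only [Equiv.boolNot_apply, hb_neg, spin_not]
  congr 1
  rw [← gm_neg]
  simp only [neg_add, neg_smul]

/-- `ψ` reads only the nodes in `B` -/
def Reads (B : Set L) (ψ : Bool → (L → ℝ) → ℝ) : Prop :=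
  ∀ σ x y, (∀ l ∈ B, x l = y l) → ψ σ x = ψ σ y

open Classical in
/-- rows outside `B` set to zero -/
def pr (B : Set L) (A : Matrix L κ ℝ) : Matrix L κ ℝ := fun l k => if l ∈ B then A l k else 0

open Classical in
lemma pr_gram (B : Set L) (l m : L) :
    (pr B A * (pr B A)ᵀ) l m = if l ∈ B ∧ m ∈ B then (A * Aᵀ) l m else 0 := by
  simp only [Matrix.mul_apply, transpose_apply, pr]
  by_cases hl : l ∈ B <;> by_cases hm : m ∈ B <;> simp [hl, hm]

lemma mdl_pr {B : Set L} (ho : o ∈ B) {ψ : Bool → (L → ℝ) → ℝ} (h : Reads B ψ) :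
    mdl (pr B A) o b ψ = mdl A o b ψ := by
  unfold mdl gm
  refine sum_congr rfl fun σ _ => ?_
  congr 1
  refine integral_congr_ae (ae_of_all _ fun z => h σ _ _ fun l hl => ?_)
  simp only [Pi.add_apply, Pi.smul_apply, pr_gram, hl, ho, and_self, if_true]
  simp only [mulVec, dotProduct, pr, hl, if_true]

lemma tst_div {Λ : ℝ} (hΛ : 0 < Λ) {ψ : Bool → (L → ℝ) → ℝ} (h : ∀ σ, ELip Λ (ψ σ))
    (h0 : ∀ σ, |ψ σ 0| ≤ Λ) : Tst fun σ x => Λ⁻¹ * ψ σ x := fun σ => by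
  refine ⟨?_, ?_⟩
  · have := (h σ).const_mul Λ⁻¹
    rwa [abs_of_pos (inv_pos.2 hΛ), inv_mul_cancel₀ hΛ.ne'] at this
  · rw [abs_mul, abs_of_pos (inv_pos.2 hΛ), inv_mul_le_iff₀ hΛ, mul_one]; exact h0 σ

/-- the model is Lipschitz in the field -/
lemma mdl_lip_b (hM : MdlStmt) : ∃ K : ℝ, 0 ≤ K ∧ ∀ (Λ b b' : ℝ) (ψ : Bool → (L → ℝ) → ℝ), 0 < Λ →
    (∀ σ, ELip Λ (ψ σ)) → (∀ σ, |ψ σ 0| ≤ Λ) →
    |mdl A o b ψ - mdl A o b' ψ| ≤ Λ * K * |b - b'| := by
  obtain ⟨K, hK⟩ := (hM L o).2 (f2 A)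
  refine ⟨|K|, abs_nonneg _, fun Λ b b' ψ hΛ h h0 => ?_⟩
  have h1 := hK κ κ A A b b' 0 _ (tst_div hΛ h h0) le_rfl zero_le_one (by simp [d1])
  rw [mdl_const_mul, mdl_const_mul, ← mul_sub, abs_mul, abs_of_pos (inv_pos.2 hΛ),
    inv_mul_le_iff₀ hΛ, Real.sqrt_zero, add_zero] at h1
  refine h1.trans ?_
  rw [mul_assoc]
  exact mul_le_mul_of_nonneg_left
    (mul_le_mul_of_nonneg_right (le_abs_self K) (abs_nonneg _)) hΛ.le

variable {P : Type}

/-- admissible parametrised test function: Lipschitz in the nodes and in the parameters of `T`,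
for parameters in `Q` -/
structure Adm (Λ : ℝ) (Q : Set (P → ℝ)) (T : Finset P) (g : (P → ℝ) → Bool → (L → ℝ) → ℝ) :
    Prop where
  lip : ∀ p ∈ Q, ∀ σ, ELip Λ (g p σ)
  zero : ∀ p ∈ Q, ∀ σ, |g p σ 0| ≤ Λ
  par : ∀ p ∈ Q, ∀ p' ∈ Q, ∀ σ x, |g p σ x - g p' σ x| ≤ Λ * ∑ j ∈ T, |p j - p' j|




end model

section inst
variable {I : Type*} {F : Filter I} {n : I → ℕ} {K : I → ℝ}
variable {L κ κ' : Type} [Fintype L] [Fintype κ] [Fintype κ']
variable {w : ∀ a, Cube (n a) → ℝ} {X : ∀ a, Cube (n a) → Fin (n a) → L → ℝ}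
  {b : ∀ a, Fin (n a) → ℝ} {o : L}

/-- the local law, uniformly over the test functions that read the nodes in `B` -/
def LLd (F : Filter I) (n : I → ℕ) (K : I → ℝ) (w : ∀ a, Cube (n a) → ℝ)
    (X : ∀ a, Cube (n a) → Fin (n a) → L → ℝ) (b : ∀ a, Fin (n a) → ℝ) (o : L)
    (A : I → Matrix L κ ℝ) (B : Set L) : Prop :=
  ∃ D : ∀ a, Fin (n a) → ℝ, Ng F n K D ∧ ∀ᶠ a in F, ∀ i ψ, Tst ψ → Reads B ψ →
    |mean (w a) (fun x => ψ (x i) (X a x i)) - mdl (A a) o (b a i) ψ| ≤ D a i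

/-- from the `ε + r` form -/
theorem LLd.of_eps {A : I → Matrix L κ ℝ} {B : Set L} (C : ℝ) (hC : 0 ≤ C)
    (h : ∀ e : ℝ, 0 < e → ∀ᶠ a in F, ∃ r : Fin (n a) → ℝ, (∑ i, r i ^ 4 ≤ C * K a) ∧
      ∀ i ψ, Tst ψ → Reads B ψ →
        |mean (w a) (fun x => ψ (x i) (X a x i)) - mdl (A a) o (b a i) ψ| ≤ e + r i) :
    LLd F n K w X b o A B := by
  let S : ∀ a, Fin (n a) → Set ℝ := fun a i => {t | ∃ ψ, Tst ψ ∧ Reads B ψ ∧
    t = |mean (w a) (fun x => ψ (x i) (X a x i)) - mdl (A a) o (b a i) ψ|}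
  have hne : ∀ a i, (S a i).Nonempty := fun a i =>
    ⟨_, fun _ _ => 0, fun σ => ⟨fun x y => by simpa using Conc.en_nonneg _, by simp⟩,
      fun _ _ _ _ => rfl, rfl⟩
  refine ⟨fun a i => sSup (S a i), ⟨C, hC, fun e he => ?_⟩, ?_⟩
  · filter_upwards [h e he] with a ⟨r, hr, hd⟩
    refine ⟨r, hr, fun i => ?_⟩
    have h0 : 0 ≤ sSup (S a i) := Real.sSup_nonneg fun t ht => by
      obtain ⟨ψ, _, _, ht⟩ := ht
      exact ht ▸ abs_nonneg _
    show |sSup (S a i)| ≤ _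
    rw [abs_of_nonneg h0]
    exact csSup_le (hne a i) fun t ⟨ψ, h1, h2, ht⟩ => ht ▸ hd i ψ h1 h2
  · filter_upwards [h 1 one_pos] with a ⟨r, _, hd⟩ i ψ h1 h2
    exact le_csSup ⟨1 + r i, fun t ⟨ψ, h1, h2, ht⟩ => ht ▸ hd i ψ h1 h2⟩ ⟨ψ, h1, h2, rfl⟩


theorem LLd.mono {A : I → Matrix L κ ℝ} {B B' : Set L} (h : LLd F n K w X b o A B)
    (hB : B' ⊆ B) : LLd F n K w X b o A B' := by
  obtain ⟨D, hD, h⟩ := h
  exact ⟨D, hD, h.mono fun a ha i ψ h1 h2 =>
    ha i ψ h1 fun σ x y hxy => h2 σ x y fun l hl => hxy l (hB hl)⟩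

/-- (L1, Gram part) replace the Gram matrix by its limit on a block -/
theorem LLd.model (hM : MdlStmt) {A : I → Matrix L κ ℝ} {B : Set L}
    (h : LLd F n K w X b o A B) (ho : o ∈ B) (M : Matrix L κ' ℝ)
    (hS : ∀ l ∈ B, ∀ m ∈ B, Tendsto (fun a => (A a * (A a)ᵀ) l m) F (𝓝 ((M * Mᵀ) l m))) :
    LLd F n K w X b o (fun _ => M) B := by
  classical
  obtain ⟨D, hD, h⟩ := h
  obtain ⟨K0, hK⟩ := (hM L o).2 (f2 (pr B M))
  let d : I → ℝ := fun a => d1 (pr B M * (pr B M)ᵀ) (pr B (A a) * (pr B (A a))ᵀ)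
  have hd : Tendsto d F (𝓝 0) := by
    have : Tendsto d F (𝓝 (∑ l : L, ∑ m : L, (0 : ℝ))) := by
      refine tendsto_finsetSum _ fun l _ => tendsto_finsetSum _ fun m _ => ?_
      simp only [pr_gram]
      split_ifs with hlm
      · have := ((hS l hlm.1 m hlm.2).const_sub ((M * Mᵀ) l m)).abs
        simpa using this
      · simpa using tendsto_const_nhds
    simpa using this
  have hs : Tendsto (fun a => K0 * (0 + √(d a))) F (𝓝 0) := by
    have := (hd.sqrt.const_add 0).const_mul K0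
    simpa using this
  refine ⟨fun a i => D a i + K0 * (0 + √(d a)), hD.add (Ng.of_tendsto hs), ?_⟩
  filter_upwards [h, hd.eventually (ge_mem_nhds one_pos)] with a ha h1 i ψ h2 h3
  have h4 := hK κ' κ (pr B M) (pr B (A a)) (b a i) (b a i) (d a) ψ h2 le_rfl h1 le_rfl
  rw [mdl_pr _ _ _ ho h3, mdl_pr _ _ _ ho h3, sub_self, abs_zero, abs_sub_comm] at h4
  have h5 := ha i ψ h2 h3
  have h6 := abs_sub_le (mean (w a) fun x => ψ (x i) (X a x i)) (mdl (A a) o (b a i) ψ)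
    (mdl M o (b a i) ψ)
  linarith

lemma abs_mean_le {Ω : Type*} [Fintype Ω] {v f : Ω → ℝ} (h : SL.Wt v) {c : ℝ}
    (hf : ∀ x, |f x| ≤ c) : |mean v f| ≤ c := by
  refine abs_le.2 ⟨?_, h.mean_le fun x => (abs_le.1 (hf x)).2⟩
  have := h.mean_mono (f := fun _ => -c) (g := f) fun x => (abs_le.1 (hf x)).1
  rwa [h.mean_const] at this

variable {P : Type}

/-- (L1, uniform form) the local law with the model parameters -/
theorem LLd.par {A : I → Matrix L κ ℝ} {B : Set L} (h : LLd F n K w X b o A B)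
    (hw : ∀ᶠ a in F, SL.Wt (w a)) {Q : Set (P → ℝ)} {T : Finset P}
    {p q : ∀ a, Fin (n a) → P → ℝ} (hp : ∀ᶠ a in F, ∀ i, p a i ∈ Q)
    (hq : ∀ᶠ a in F, ∀ i, q a i ∈ Q) (hT : ∀ j ∈ T, Ng F n K fun a i => p a i j - q a i j) :
    ∃ D : ∀ a, Fin (n a) → ℝ, Ng F n K D ∧ ∀ᶠ a in F, ∀ i (Λ : ℝ)
      (g : (P → ℝ) → Bool → (L → ℝ) → ℝ), 0 < Λ → Adm Λ Q T g → (∀ p ∈ Q, Reads B (g p)) →
      |mean (w a) (fun x => g (p a i) (x i) (X a x i)) - mdl (A a) o (b a i) (g (q a i))|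
        ≤ Λ * D a i := by
  obtain ⟨D, hD, h⟩ := h
  refine ⟨fun a i => D a i + ∑ j ∈ T, |p a i j - q a i j|,
    hD.add (Ng.sum T fun j hj => (hT j hj).abs), ?_⟩
  filter_upwards [h, hw, hp, hq] with a ha hwa hpa hqa i Λ g hΛ hg hr
  have h1 := ha i _ (tst_div hΛ (hg.lip _ (hqa i)) (hg.zero _ (hqa i)))
    (fun σ x y hxy => by rw [hr _ (hqa i) σ x y hxy])
  rw [mdl_const_mul, SL.mean_const_mul, ← mul_sub, abs_mul, abs_of_pos (inv_pos.2 hΛ),
    inv_mul_le_iff₀ hΛ] at h1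
  have h2 : |mean (w a) (fun x => g (p a i) (x i) (X a x i)) -
      mean (w a) (fun x => g (q a i) (x i) (X a x i))| ≤ Λ * ∑ j ∈ T, |p a i j - q a i j| := by
    rw [← SL.mean_sub]
    exact abs_mean_le hwa fun x => hg.par _ (hpa i) _ (hqa i) _ _
  have h3 := abs_sub_le (mean (w a) (fun x => g (p a i) (x i) (X a x i)))
    (mean (w a) (fun x => g (q a i) (x i) (X a x i))) (mdl (A a) o (b a i) (g (q a i)))
  rw [mul_add]
  linarith

/-- (L1) a site mean is identified -/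
theorem LLd.site {A : I → Matrix L κ ℝ} {B : Set L} (h : LLd F n K w X b o A B)
    (hw : ∀ᶠ a in F, SL.Wt (w a)) {Q : Set (P → ℝ)} {T : Finset P}
    {p q : ∀ a, Fin (n a) → P → ℝ} (hp : ∀ᶠ a in F, ∀ i, p a i ∈ Q)
    (hq : ∀ᶠ a in F, ∀ i, q a i ∈ Q) (hT : ∀ j ∈ T, Ng F n K fun a i => p a i j - q a i j)
    {Λ : ℝ} (hΛ : 0 < Λ) {g : (P → ℝ) → Bool → (L → ℝ) → ℝ} (hg : Adm Λ Q T g)
    (hr : ∀ p ∈ Q, Reads B (g p)) :
    Ng F n K fun a i => mean (w a) (fun x => g (p a i) (x i) (X a x i)) -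
      mdl (A a) o (b a i) (g (q a i)) := by
  obtain ⟨D, hD, h⟩ := h.par hw hp hq hT
  exact hD.of_le_mul Λ (h.mono fun a ha i => (ha i Λ g hΛ hg hr).trans
    (mul_le_mul_of_nonneg_left (le_abs_self _) hΛ.le))

end inst

section scal
variable {I : Type*} {F : Filter I} {Ω : I → Type*} [∀ a, Fintype (Ω a)] {w : ∀ a, Ω a → ℝ}

/-- a bounded scalar observable which converges in `L¹(μ)` to the constant `c` -/
structure CP (F : Filter I) (w : ∀ a, Ω a → ℝ) (η : ∀ a, Ω a → ℝ) (c : ℝ) : Prop where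
  bd : ∃ B : ℝ, ∀ᶠ a in F, ∀ x, |η a x| ≤ B
  lim : Tendsto (fun a => mean (w a) fun x => |η a x - c|) F (𝓝 0)

variable {η η' : ∀ a, Ω a → ℝ} {c c' : ℝ}


theorem CP.of_tendsto (hw : ∀ᶠ a in F, SL.Wt (w a)) {k : I → ℝ} (h : Tendsto k F (𝓝 c)) :
    CP F w (fun a _ => k a) c := by
  refine ⟨⟨|c| + 1, ?_⟩, ?_⟩
  · filter_upwards [h.abs.eventually (ge_mem_nhds (lt_add_one |c|))] with a ha _ using ha
  · have h1 : Tendsto (fun a => |k a - c|) F (𝓝 0) := by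
      simpa using (tendsto_sub_nhds_zero_iff.2 h).abs
    refine h1.congr' ?_
    filter_upwards [hw] with a ha
    rw [ha.mean_const]

theorem CP.const (hw : ∀ᶠ a in F, SL.Wt (w a)) (c : ℝ) : CP F w (fun _ _ => c) c :=
  CP.of_tendsto hw tendsto_const_nhds

theorem CP.add (hw : ∀ᶠ a in F, SL.Wt (w a)) (h : CP F w η c) (h' : CP F w η' c') :
    CP F w (fun a x => η a x + η' a x) (c + c') := by
  obtain ⟨⟨B, hB⟩, h⟩ := h
  obtain ⟨⟨B', hB'⟩, h'⟩ := h'
  refine ⟨⟨B + B', ?_⟩, ?_⟩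
  · filter_upwards [hB, hB'] with a h1 h2 x using (abs_add_le _ _).trans (add_le_add (h1 x) (h2 x))
  · have := h.add h'
    rw [add_zero] at this
    refine squeeze_zero' (hw.mono fun a ha => ha.mean_nonneg fun x => abs_nonneg _) ?_ this
    filter_upwards [hw] with a ha
    rw [← SL.mean_add]
    refine ha.mean_mono fun x => ?_
    have := abs_add_le (η a x - c) (η' a x - c')
    rwa [show η a x - c + (η' a x - c') = η a x + η' a x - (c + c') by ring] at this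

theorem CP.mul (hw : ∀ᶠ a in F, SL.Wt (w a)) (h : CP F w η c) (h' : CP F w η' c') :
    CP F w (fun a x => η a x * η' a x) (c * c') := by
  obtain ⟨⟨B, hB⟩, h⟩ := h
  obtain ⟨⟨B', hB'⟩, h'⟩ := h'
  refine ⟨⟨B * B', ?_⟩, ?_⟩
  · filter_upwards [hB, hB'] with a h1 h2 x
    rw [abs_mul]
    exact mul_le_mul (h1 x) (h2 x) (abs_nonneg _) ((abs_nonneg _).trans (h1 x))
  · have := (h.const_mul B').add (h'.const_mul |c|)
    rw [mul_zero, mul_zero, add_zero] at this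
    refine squeeze_zero' (hw.mono fun a ha => ha.mean_nonneg fun x => abs_nonneg _) ?_ this
    filter_upwards [hw, hB'] with a ha h2
    rw [← SL.mean_const_mul, ← SL.mean_const_mul, ← SL.mean_add]
    refine ha.mean_mono fun x => ?_
    have h3 := abs_add_le ((η a x - c) * η' a x) (c * (η' a x - c'))
    rw [show (η a x - c) * η' a x + c * (η' a x - c') = η a x * η' a x - c * c' by ring,
      abs_mul, abs_mul] at h3
    have h4 := mul_le_mul_of_nonneg_left (h2 x) (abs_nonneg (η a x - c))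
    linarith

theorem CP.neg (hw : ∀ᶠ a in F, SL.Wt (w a)) (h : CP F w η c) :
    CP F w (fun a x => - η a x) (-c) := by
  simpa using (CP.const hw (-1)).mul hw h

theorem CP.sub (hw : ∀ᶠ a in F, SL.Wt (w a)) (h : CP F w η c) (h' : CP F w η' c') :
    CP F w (fun a x => η a x - η' a x) (c - c') := by
  simpa only [sub_eq_add_neg] using h.add hw (h'.neg hw)

theorem CP.sum {ι : Type*} (hw : ∀ᶠ a in F, SL.Wt (w a)) (T : Finset ι)
    {η : ι → ∀ a, Ω a → ℝ} {c : ι → ℝ} (h : ∀ j ∈ T, CP F w (η j) (c j)) :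
    CP F w (fun a x => ∑ j ∈ T, η j a x) (∑ j ∈ T, c j) := by
  classical
  induction T using Finset.induction_on with
  | empty => simpa using CP.const hw 0
  | insert j T hj ih =>
    simpa only [sum_insert hj] using
      (h j (mem_insert_self _ _)).add hw (ih fun k hk => h k (mem_insert_of_mem hk))

theorem CP.congr (h : CP F w η c) (he : ∀ᶠ a in F, ∀ x, η' a x = η a x) : CP F w η' c := by
  obtain ⟨⟨B, hB⟩, h⟩ := h
  refine ⟨⟨B, ?_⟩, h.congr' ?_⟩
  · filter_upwards [hB, he] with a h1 h2 x using (h2 x).symm ▸ h1 x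
  · filter_upwards [he] with a h2
    simp only [h2]


end scal

end Crest.Agent.T157.S3I

end
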