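import Crest.Agent.T157.S3Fl_82

/-!
# Row 157, block S3 (helper82): Jacobians on the cube, Schur and Hadamard bounds, chain rule
-/

set_option autoImplicit false
set_option linter.unusedSectionVars false

noncomputable section

namespace Crest.Agent.T157.S3F

open Matrix Function Finset
open Crest.Agent.T157.E (Cube sv)
open Crest.Agent.T157.Eig
open Crest.Agent.T157.Rec (grad grad_update)

section mat
variable {ι κ : Type*} [Fintype ι] [Fintype κ] [DecidableEq ι] [DecidableEq κ]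

lemma col_sq_le (A : Matrix ι κ ℝ) (j : κ) : ∑ k, A k j ^ 2 ≤ opn A ^ 2 := by
  have := mulVec_dot_le A (Pi.single j 1)
  simpa [dotProduct, sq, Pi.single_apply] using this

lemma row_sq_le (A : Matrix ι κ ℝ) (k : ι) : ∑ j, A k j ^ 2 ≤ opn A ^ 2 := by
  have := col_sq_le Aᵀ k
  rwa [opn_transpose] at this

/-- Hadamard bound in the form `|M_kj| ≤ X_kj Y_kj` -/
lemma opn_le_of_had {M : Matrix ι κ ℝ} {X Y : ι → κ → ℝ} {a b : ℝ} (ha : 0 ≤ a) (hb : 0 ≤ b)
    (h : ∀ k j, M k j ^ 2 ≤ X k j * Y k j) (hX0 : ∀ k j, 0 ≤ X k j) (hY0 : ∀ k j, 0 ≤ Y k j)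
    (hX : ∀ k, ∑ j, X k j ≤ a ^ 2) (hY : ∀ j, ∑ k, Y k j ≤ b ^ 2) : opn M ≤ a * b := by
  refine opn_le_of_sq (by positivity) fun v => ?_
  have h1 : ∀ k, (M *ᵥ v) k * (M *ᵥ v) k ≤ a ^ 2 * ∑ j, Y k j * v j ^ 2 := fun k => by
    have := sum_sq_le_sum_mul_sum_of_sq_le_mul univ (r := fun j => M k j * v j) (f := X k)
      (g := fun j => Y k j * v j ^ 2) (fun j _ => hX0 k j)
      (fun j _ => mul_nonneg (hY0 k j) (sq_nonneg _)) (fun j _ => by
        rw [mul_pow, ← mul_assoc]; exact mul_le_mul_of_nonneg_right (h k j) (sq_nonneg _))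
    rw [← sq]
    exact this.trans (mul_le_mul_of_nonneg_right (hX k)
      (sum_nonneg fun j _ => mul_nonneg (hY0 k j) (sq_nonneg _)))
  refine (sum_le_sum fun k _ => h1 k).trans ?_
  rw [← mul_sum, sum_comm, mul_pow, mul_assoc]
  refine mul_le_mul_of_nonneg_left ?_ (sq_nonneg _)
  rw [dotProduct, mul_sum]
  refine sum_le_sum fun j _ => ?_
  rw [← sum_mul, ← sq]
  exact mul_le_mul_of_nonneg_right (hY j) (sq_nonneg _)

/-- **(HAD)** -/
lemma opn_had (X Y : Matrix ι κ ℝ) {a b : ℝ} (ha : 0 ≤ a) (hb : 0 ≤ b)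
    (hX : ∀ k, ∑ j, X k j ^ 2 ≤ a ^ 2) (hY : ∀ j, ∑ k, Y k j ^ 2 ≤ b ^ 2) :
    opn (X ⊙ Y) ≤ a * b :=
  opn_le_of_had ha hb (fun k j => by rw [hadamard_apply, mul_pow]) (fun _ _ => sq_nonneg _)
    (fun _ _ => sq_nonneg _) hX hY

lemma opn_had' (X Y : Matrix ι κ ℝ) : opn (X ⊙ Y) ≤ opn X * opn Y :=
  opn_had X Y (opn_nonneg X) (opn_nonneg Y) (row_sq_le X) (col_sq_le Y)

/-- Schur test -/
lemma opn_schur {M : Matrix ι κ ℝ} {P : ι → κ → ℝ} {c : ℝ} (hc : 0 ≤ c)
    (h : ∀ k j, |M k j| ≤ P k j) (h1 : ∀ k, ∑ j, P k j ≤ c) (h2 : ∀ j, ∑ k, P k j ≤ c) :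
    opn M ≤ c := by
  have h0 : ∀ k j, 0 ≤ P k j := fun k j => (abs_nonneg _).trans (h k j)
  have := opn_le_of_had (M := M) (X := P) (Y := P) (Real.sqrt_nonneg c) (Real.sqrt_nonneg c)
    (fun k j => by rw [← sq_abs, ← sq]; exact pow_le_pow_left₀ (abs_nonneg _) (h k j) 2) h0 h0
    (by rwa [Real.sq_sqrt hc]) (by rwa [Real.sq_sqrt hc])
  rwa [Real.mul_self_sqrt hc] at this

/-- entries bounded by squares of entries -/
lemma opn_le_of_sq_entries {σ : Type*} [Fintype σ] {M : Matrix ι κ ℝ} {G : σ → Matrix ι κ ℝ}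
    {L : ℝ} (hL : 0 ≤ L) (h : ∀ k j, |M k j| ≤ L * ∑ m, G m k j ^ 2) :
    opn M ≤ L * ∑ m, opn (G m) ^ 2 := by
  refine opn_schur (by positivity) h (fun k => ?_) fun j => ?_ <;>
  · rw [← mul_sum, sum_comm]
    refine mul_le_mul_of_nonneg_left (sum_le_sum fun m _ => ?_) hL
    first | exact row_sq_le _ _ | exact col_sq_le _ _

lemma opn_diag_mul {d : ι → ℝ} {c : ℝ} (hc : 0 ≤ c) (h : ∀ i, |d i| ≤ c) (A : Matrix ι κ ℝ) :
    opn (diagonal d * A) ≤ c * opn A :=
  (opn_mul_le _ _).trans (mul_le_mul_of_nonneg_right (opn_diagonal_le hc h) (opn_nonneg A))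

lemma opn_mul_diag {d : κ → ℝ} {c : ℝ} (hc : 0 ≤ c) (h : ∀ i, |d i| ≤ c) (A : Matrix ι κ ℝ) :
    opn (A * diagonal d) ≤ opn A * c :=
  (opn_mul_le _ _).trans (mul_le_mul_of_nonneg_left (opn_diagonal_le hc h) (opn_nonneg A))

end mat

variable {n : ℕ} {κ : Type*} [Fintype κ] [DecidableEq κ]

/-- the matrix `(d_j u_k)_{kj}` -/
def jac (u : Cube n → κ → ℝ) (x : Cube n) : Matrix κ (Fin n) ℝ :=
  of fun k j => grad (fun y => u y k) x j
/-- the matrix `(bar^j u_k)_{kj}` -/
def barM (u : Cube n → κ → ℝ) (x : Cube n) : Matrix κ (Fin n) ℝ :=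
  of fun k j => bar (fun y => u y k) x j

lemma jac_apply (u : Cube n → κ → ℝ) (x : Cube n) (k : κ) (j : Fin n) :
    jac u x k j = grad (fun y => u y k) x j := rfl

lemma jac_add (u v : Cube n → κ → ℝ) (x : Cube n) :
    jac (fun y => u y + v y) x = jac u x + jac v x := by
  ext k j; simp only [jac, of_apply, Pi.add_apply, Matrix.add_apply, grad, SL.incr]; ring
lemma jac_sub (u v : Cube n → κ → ℝ) (x : Cube n) :
    jac (fun y => u y - v y) x = jac u x - jac v x := by
  ext k j; simp only [jac, of_apply, Pi.sub_apply, Matrix.sub_apply, grad, SL.incr]; ring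
lemma jac_smul (c : ℝ) (u : Cube n → κ → ℝ) (x : Cube n) :
    jac (fun y => c • u y) x = c • jac u x := by
  ext k j
  simp only [jac, of_apply, Pi.smul_apply, Matrix.smul_apply, smul_eq_mul, grad, SL.incr]; ring
lemma jac_const (c : κ → ℝ) (x : Cube n) : jac (fun _ => c) x = 0 := by
  ext k j; simp [jac, grad, SL.incr]
lemma jac_sum {σ : Type*} (S : Finset σ) (u : σ → Cube n → κ → ℝ) (x : Cube n) :
    jac (fun y => ∑ m ∈ S, u m y) x = ∑ m ∈ S, jac (u m) x := by
  ext k j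
  simp only [jac, of_apply, Finset.sum_apply, Matrix.sum_apply, Da.Gr.grad_sum]
lemma jac_mulVec {ι : Type*} [Fintype ι] (J : Matrix ι κ ℝ) (u : Cube n → κ → ℝ) (x : Cube n) :
    jac (fun y => J *ᵥ u y) x = J * jac u x := by
  ext k j
  simp only [jac, of_apply, mulVec, dotProduct, mul_apply, Da.Gr.grad_sum, Rec.grad_const_mul,
    Pi.smul_apply, smul_eq_mul]
lemma jac_sv (x : Cube n) : jac sv x = 1 := by
  ext k j; simp [jac, Da.Gr.grad_sv, one_apply, eq_comm]

/-- `bar^j a(k) M_kj = a(k) M_kj - s_j d_j a(k) M_kj` -/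
lemma barM_had (a : Cube n → κ → ℝ) (x : Cube n) (M : Matrix κ (Fin n) ℝ) :
    barM a x ⊙ M = diagonal (a x) * M - (jac a x ⊙ M) * diagonal (sv x) := by
  ext k j
  simp only [barM, jac, hadamard_apply, of_apply, Matrix.sub_apply, diagonal_mul, mul_diagonal, bar]
  ring

lemma abs_sv (x : Cube n) (j : Fin n) : |sv x j| ≤ 1 := by
  have := Rec.sv_mul_self x j
  rw [← abs_one, ← sq_le_sq]; nlinarith

lemma opn_barM_had {a : Cube n → κ → ℝ} {x : Cube n} {c : ℝ} (hc : 0 ≤ c) (h : ∀ k, |a x k| ≤ c)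
    (M : Matrix κ (Fin n) ℝ) : opn (barM a x ⊙ M) ≤ (c + opn (jac a x)) * opn M := by
  rw [barM_had, add_mul]
  refine (opn_sub_le _ _).trans (add_le_add (opn_diag_mul hc h M) ?_)
  exact (opn_mul_diag zero_le_one (abs_sv x) _).trans (by rw [mul_one]; exact opn_had' _ _)

/-- exact product rule for Jacobians -/
lemma jac_mul (a u : Cube n → κ → ℝ) (x : Cube n) :
    jac (fun y => a y * u y) x = barM a x ⊙ jac u x + jac a x ⊙ barM u x := by
  ext k j
  simp only [jac, barM, of_apply, Pi.mul_apply, Matrix.add_apply, hadamard_apply, grad_mul_bar]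

lemma opn_jac_mul {a u : Cube n → κ → ℝ} {x : Cube n} {c d : ℝ} (hc : 0 ≤ c) (hd : 0 ≤ d)
    (ha : ∀ k, |a x k| ≤ c) (hu : ∀ k, |u x k| ≤ d) : opn (jac (fun y => a y * u y) x) ≤
      (c + opn (jac a x)) * opn (jac u x) + (d + opn (jac u x)) * opn (jac a x) := by
  rw [jac_mul, hadamard_comm (jac a x)]
  exact (opn_add_le _ _).trans (add_le_add (opn_barM_had hc ha _) (opn_barM_had hd hu _))

/-! ### squared variation of vector fields -/

/-- `∑_j |d_j u|²`, the squared Hilbert-Schmidt norm of the Jacobian -/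
def hsJ (u : Cube n → κ → ℝ) (x : Cube n) : ℝ := ∑ k, ∑ j, jac u x k j ^ 2

lemma hsJ_nonneg (u : Cube n → κ → ℝ) (x : Cube n) : 0 ≤ hsJ u x := by unfold hsJ; positivity


lemma hsJ_mulVec {ι : Type*} [Fintype ι] [DecidableEq ι] (J : Matrix ι κ ℝ) (u : Cube n → κ → ℝ)
    (x : Cube n) : hsJ (fun y => J *ᵥ u y) x ≤ opn J ^ 2 * hsJ u x := by
  unfold hsJ
  rw [jac_mulVec, sum_comm, sum_comm (f := fun k j => jac u x k j ^ 2), mul_sum]
  refine sum_le_sum fun j _ => ?_
  have := mulVec_dot_le J fun k => jac u x k j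
  simpa only [dotProduct, ← sq, mulVec, mul_apply] using this

lemma hsJ_add (u v : Cube n → κ → ℝ) (x : Cube n) :
    hsJ (fun y => u y + v y) x ≤ 2 * hsJ u x + 2 * hsJ v x := by
  unfold hsJ
  rw [jac_add]
  simp only [mul_sum, ← sum_add_distrib, Matrix.add_apply]
  exact sum_le_sum fun k _ => sum_le_sum fun j _ => by
    nlinarith [sq_nonneg (jac u x k j - jac v x k j)]


/-- **(JV)**, one diagonal letter -/
lemma hsJ_mul {a u : Cube n → κ → ℝ} {c : ℝ} (ha : ∀ y k, |a y k| ≤ c) (x : Cube n) :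
    hsJ (fun y => a y * u y) x ≤
      2 * c ^ 2 * hsJ u x + 2 * opn (jac a x) ^ 2 * (u x ⬝ᵥ u x) := by
  have h1 : ∀ k j, jac (fun y => a y * u y) x k j ^ 2 ≤
      2 * c ^ 2 * jac u x k j ^ 2 + 2 * (jac a x k j ^ 2 * u x k ^ 2) := fun k j => by
    have e : jac (fun y => a y * u y) x k j =
        a (Rec.fl x j) k * jac u x k j + jac a x k j * u x k := by
      simp only [jac_apply, Pi.mul_apply, Da.Gr.grad_mul, Da.Gr.val_fl (fun y => a y k)]
      ring
    have e2 : a (Rec.fl x j) k ^ 2 ≤ c ^ 2 := by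
      rw [← sq_abs]; exact pow_le_pow_left₀ (abs_nonneg _) (ha _ k) 2
    have e3 := mul_le_mul_of_nonneg_right e2 (sq_nonneg (jac u x k j))
    rw [e]
    nlinarith [sq_nonneg (a (Rec.fl x j) k * jac u x k j - jac a x k j * u x k)]
  unfold hsJ
  refine (sum_le_sum fun k _ => sum_le_sum fun j _ => h1 k j).trans ?_
  simp only [sum_add_distrib, ← mul_sum, ← sum_mul]
  refine add_le_add le_rfl ?_
  rw [mul_assoc, dotProduct, mul_sum univ _ (opn _ ^ 2)]
  refine mul_le_mul_of_nonneg_left (sum_le_sum fun k _ => ?_) zero_le_two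
  rw [← sq]
  exact mul_le_mul_of_nonneg_right (row_sq_le _ k) (sq_nonneg _)


/-! ### the chain rule -/

section chain
variable {σ : Type*} [Fintype σ]

/-- `g` has the gradient `g'` with a quadratic Taylor remainder -/
def Tay (L : ℝ) (g : (σ → ℝ) → ℝ) (g' : (σ → ℝ) → σ → ℝ) : Prop :=
  ∀ ξ h, |g (ξ + h) - g ξ - g' ξ ⬝ᵥ h| ≤ L * ∑ m, h m ^ 2

lemma fld_fl (X : σ → Cube n → Fin n → ℝ) (x : Cube n) (k j : Fin n) :
    (fun m => X m (Rec.fl x j) k) =
      (fun m => X m x k) + fun m => -(2 * sv x j * jac (X m) x k j) := by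
  funext m
  rw [Pi.add_apply, Da.Gr.val_fl (fun y => X m y k), jac_apply]; ring

/-- **chain rule** at the current point -/
lemma chain {L : ℝ} {g : Fin n → Bool → (σ → ℝ) → ℝ} {g' : Fin n → Bool → (σ → ℝ) → σ → ℝ}
    (hT : ∀ k b, Tay L (g k b) (g' k b)) (X : σ → Cube n → Fin n → ℝ) (x : Cube n) (k j : Fin n) :
    |jac (fun y k => g k (y k) fun m => X m y k) x k j -
      ((if j = k then (g k true (fun m => X m x k) - g k false fun m => X m x k) / 2 else 0) +
        ∑ m, g' k (Rec.fl x j k) (fun m => X m x k) m * jac (X m) x k j)| ≤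
      2 * L * ∑ m, jac (X m) x k j ^ 2 := by
  have hs := Rec.sv_mul_self x j
  have h1 := hT k (Rec.fl x j k) (fun m => X m x k) fun m => -(2 * sv x j * jac (X m) x k j)
  rw [← fld_fl] at h1
  have e1 : ∑ m, (-(2 * sv x j * jac (X m) x k j)) ^ 2 = 4 * ∑ m, jac (X m) x k j ^ 2 := by
    rw [mul_sum]
    exact sum_congr rfl fun m _ => by linear_combination (4 * jac (X m) x k j ^ 2) * hs
  have e2 : g' k (Rec.fl x j k) (fun m => X m x k) ⬝ᵥ (fun m => -(2 * sv x j * jac (X m) x k j)) =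
      -(2 * sv x j) * ∑ m, g' k (Rec.fl x j k) (fun m => X m x k) m * jac (X m) x k j := by
    rw [dotProduct, mul_sum]; exact sum_congr rfl fun m _ => by ring
  have e3 : sv x j * (g k (x k) (fun m => X m x k) - g k (Rec.fl x j k) fun m => X m x k) / 2 =
      if j = k then (g k true (fun m => X m x k) - g k false fun m => X m x k) / 2 else 0 := by
    split_ifs with h
    · subst h
      simp only [Rec.fl, update_self, sv, Crest.ProbabilityR.SpinGlassDynamics.spin]
      cases x j <;> simp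
    · rw [Rec.fl, update_of_ne (Ne.symm h)]; simp
  rw [e1, e2] at h1
  rw [jac_apply, Rec.grad_eq, ← e3]
  set A := g k (Rec.fl x j k) fun m => X m (Rec.fl x j) k
  set B := g k (Rec.fl x j k) fun m => X m x k
  set S := ∑ m, g' k (Rec.fl x j k) (fun m => X m x k) m * jac (X m) x k j
  have e4 : sv x j * ((g k (x k) fun m => X m x k) - A) / 2 -
      (sv x j * ((g k (x k) fun m => X m x k) - B) / 2 + S) =
      -(sv x j / 2) * (A - B - -(2 * sv x j) * S) := by linear_combination S * hs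
  rw [e4, abs_mul, abs_neg, abs_div, abs_two]
  have := mul_le_mul (div_le_div_of_nonneg_right (abs_sv x j) zero_le_two) h1 (abs_nonneg _)
    (by norm_num)
  linarith

/-- **(J1)** for a local function -/
lemma opn_jac_loc {L C : ℝ} (hL : 0 ≤ L) (hC : 0 ≤ C) {g : Fin n → Bool → (σ → ℝ) → ℝ}
    {g' : Fin n → Bool → (σ → ℝ) → σ → ℝ} (hT : ∀ k b, Tay L (g k b) (g' k b))
    (h1 : ∀ k b ξ m, |g' k b ξ m| ≤ C) (h2 : ∀ k ξ, |g k true ξ - g k false ξ| ≤ 2 * C)
    (X : σ → Cube n → Fin n → ℝ) (x : Cube n) :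
    opn (jac (fun y k => g k (y k) fun m => X m y k) x) ≤
      C + 3 * C * ∑ m, opn (jac (X m) x) + 2 * L * ∑ m, opn (jac (X m) x) ^ 2 := by
  set u := jac (fun y k => g k (y k) fun m => X m y k) x
  set d : Fin n → ℝ := fun k => (g k true (fun m => X m x k) - g k false fun m => X m x k) / 2 +
    ∑ m, (g' k (!x k) (fun m => X m x k) m - g' k (x k) (fun m => X m x k) m) * jac (X m) x k k
  set P := ∑ m, diagonal (fun k => g' k (x k) (fun m => X m x k) m) * jac (X m) x with hP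
  have e : u = diagonal d + P + (u - (diagonal d + P)) := by abel
  have hS : 0 ≤ ∑ m, opn (jac (X m) x) := sum_nonneg fun m _ => opn_nonneg _
  have b1 : opn (diagonal d) ≤ C + 2 * C * ∑ m, opn (jac (X m) x) := by
    refine opn_diagonal_le (by positivity) fun k => (abs_add_le _ _).trans (add_le_add ?_ ?_)
    · rw [abs_div, abs_two]; linarith [h2 k fun m => X m x k]
    · rw [mul_sum]
      refine (abs_sum_le_sum_abs _ _).trans (sum_le_sum fun m _ => ?_)
      rw [abs_mul]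
      refine mul_le_mul ((abs_sub _ _).trans ?_) (abs_entry_le _ k k) (abs_nonneg _) (by positivity)
      linarith [h1 k (!x k) (fun m => X m x k) m, h1 k (x k) (fun m => X m x k) m]
  have b2 : opn P ≤ C * ∑ m, opn (jac (X m) x) := by
    rw [mul_sum]
    exact (opn_sum_le _ _).trans (sum_le_sum fun m _ => opn_diag_mul hC (fun k => h1 _ _ _ _) _)
  have b3 : opn (u - (diagonal d + P)) ≤ 2 * L * ∑ m, opn (jac (X m) x) ^ 2 := by
    refine opn_le_of_sq_entries (by positivity) fun k j => ?_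
    refine le_trans (le_of_eq ?_) (chain hT X x k j)
    congr 1
    rw [Matrix.sub_apply, Matrix.add_apply, hP, Matrix.sum_apply]
    simp only [diagonal_mul]
    congr 1
    by_cases h : j = k
    · subst h
      simp only [diagonal_apply_eq, if_true, d, Rec.fl, update_self, add_assoc, ← sum_add_distrib]
      congr 1
      exact sum_congr rfl fun m _ => by ring
    · rw [diagonal_apply_ne _ (Ne.symm h), if_neg h, Rec.fl, update_of_ne (Ne.symm h)]
  rw [e]
  linarith [opn_add_le (diagonal d + P) (u - (diagonal d + P)), opn_add_le (diagonal d) P]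

end chain

end Crest.Agent.T157.S3F
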