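import Crest.Agent.T157.S3RA_52
import Crest.Agent.T157.S3RB_52
import Crest.Agent.T157.NetBs_54
import Crest.Agent.T157.S3Ex_98
import Crest.Agent.T157.NetLift_66

-- ▼ part T157/S3RApp_30
section

/-!
# Row 157, block B/S3: appending one node to a program with its model (helper30)
-/

set_option autoImplicit false

noncomputable section

namespace Crest.Agent.T157.S3R

open MeasureTheory Matrix Set Function
open Crest.Agent.T157.S3 (Fam V Mx)
open Crest.Agent.T157.S3P (PF Prog Sm Rd St eP me Zr Sg cc step Cb)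
open Crest.Agent.T157.Nt (Ix res)
open Fin (castSucc last snoc)

namespace App30

variable {m m' : ℕ}

/-- restriction of the fields -/
def rl (j : Ix m → Ix m') : (Ix m' → ℝ) →L[ℝ] (Ix m → ℝ) :=
  ContinuousLinearMap.pi fun l => ContinuousLinearMap.proj (j l)

theorem sm_res (j : Ix m → Ix m') {φ : PF m} (h : Sm φ) : Sm (res j φ : PF m') := fun s =>
  (h s).clm ((ContinuousLinearMap.id ℝ ℝ).prodMap (rl j))

theorem pd_res {j : Ix m → Ix m'} (hj : Injective j) {φ : PF m} (h : Sm φ) (l : Ix m) :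
    S3P.pd (j l) (res j φ : PF m') = res j (S3P.pd l φ) := by
  funext b s ξ
  have h1 := ((h.diff b s (rl j ξ)).hasFDerivAt.comp ξ (rl j).hasFDerivAt).fderiv
  have h2 : rl j (Pi.single (j l) 1) = Pi.single l 1 := by
    funext k
    change (Pi.single (j l) (1 : ℝ) : Ix m' → ℝ) (j k) = _
    simp [Pi.single_apply, hj.eq_iff]
  change fderiv ℝ (φ b s ∘ rl j) ξ _ = fderiv ℝ (φ b s) (rl j ξ) _
  rw [h1, ContinuousLinearMap.comp_apply, h2]

/-- a family with one more member -/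
def sn (u : Ix m → PF m) (φ : PF m) : Ix (m + 1) → PF (m + 1) :=
  snoc (fun l => res castSucc (u l)) (res castSucc φ)

@[simp] lemma sn_cs (u : Ix m → PF m) (φ : PF m) (l : Ix m) :
    sn u φ (castSucc l) = res castSucc (u l) := Fin.snoc_castSucc ..
@[simp] lemma sn_last (u : Ix m → PF m) (φ : PF m) : sn u φ (last _) = res castSucc φ :=
  Fin.snoc_last ..

lemma sn_sm {u : Ix m → PF m} {φ : PF m} (hu : ∀ l, Sm (u l)) (h : Sm φ) (l : Ix (m + 1)) :
    Sm (sn u φ l) := by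
  induction l using Fin.lastCases with
  | last => rw [sn_last]; exact sm_res _ h
  | cast l => rw [sn_cs]; exact sm_res _ (hu l)

lemma sn_rd {u : Ix m → PF m} (φ : PF m) (hu : ∀ l, Rd l (u l)) (l : Ix (m + 1)) :
    Rd l (sn u φ l) := by
  induction l using Fin.lastCases with
  | last =>
    rw [sn_last]
    exact fun b s ξ ξ' e => congrArg (φ b s) (funext fun k => e _ (Fin.castSucc_lt_last k))
  | cast l =>
    rw [sn_cs]
    exact fun b s ξ ξ' e => hu l b s _ _ fun k hk => e _ (Fin.castSucc_lt_castSucc_iff.2 hk)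

/-- the program with one more node -/
def pr (P : Prog m) (f g g' : PF m) : Prog (m + 1) := ⟨sn P.f f, sn P.g g, sn P.g' g'⟩

variable {P : Prog m} {f g g' : PF m}

lemma ok (h : P.Ok) (hf : Sm f) (hg : Sm g) (hg' : Sm g') : (pr P f g g').Ok where
  sf := sn_sm h.sf hf
  sg := sn_sm h.sg hg
  sg' := sn_sm h.sg' hg'
  rf := sn_rd f h.rf
  rg := sn_rd g h.rg
  rg' := sn_rd g' h.rg'
  f0 := (sn_cs P.f f 0).trans (by rw [h.f0]; rfl)
  g0 := (sn_cs P.g g 0).trans (by rw [h.g0]; rfl)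
  g'0 := (sn_cs P.g' g' 0).trans (by rw [h.g'0]; rfl)

section inst
variable {n : ℕ} {s : ℝ} {J : Mx n} {y : V n}

lemma eP_res (j : Ix m → Ix m') (X : St n m') (φ : PF m) :
    eP s J y X (res j φ) = eP s J y (fun l => X (j l)) φ := rfl
lemma me_res (j : Ix m → Ix m') (X : St n m') (φ : PF m) :
    me s J y X (res j φ) = me s J y (fun l => X (j l)) φ := rfl

/-- the fixed point is unique -/
lemma fix_uniq (h : P.Ok) {Y : St n m} (hY : step P s J y Y = Y) : Y = P.X s J y := by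
  funext l
  rw [← (iterate_fixed hY (m + 1)), Prog.X]
  exact S3P.iter_congr h _ l l.2 _ _

lemma cc_cs (X : St n (m + 1)) (l : Ix m) :
    cc (pr P f g g') s J y X (castSucc l) = cc P s J y (fun l => X (castSucc l)) l := by
  simp only [cc, pr, sn_cs, eP_res, me_res]

lemma step_cs (h : P.Ok) (h' : (pr P f g g').Ok) (X : St n (m + 1)) (l : Ix m) :
    step (pr P f g g') s J y X (castSucc l) = step P s J y (fun l => X (castSucc l)) l := by
  have e1 : Zr (pr P f g g') s J y X (castSucc l) = Zr P s J y (fun l => X (castSucc l)) l := by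
    funext x
    rw [Zr, Zr, Fin.sum_univ_castSucc, (h'.rf _).pd_zero (h'.sf _) (Fin.le_last _), S3P.me_zero,
      zero_smul, add_zero]
    simp only [pr, sn_cs, pd_res (Fin.castSucc_injective _) (h.sf l), eP_res, me_res]
  have e2 : Sg (pr P f g g') s J y X (castSucc l) 0 = Sg P s J y (fun l => X (castSucc l)) l 0 := by
    rw [show (0 : Ix (m + 1)) = castSucc 0 from rfl]
    simp only [Sg, of_apply, pr, sn_cs, eP_res]
  funext x
  rw [step, step, e1, e2, cc_cs]

lemma X_cs (h : P.Ok) (h' : (pr P f g g').Ok) :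
    (fun l => (pr P f g g').X s J y (castSucc l)) = P.X s J y :=
  fix_uniq h (funext fun l => by rw [← step_cs h h', h'.fix])

end inst

section model
variable {r r' : ℕ}

/-- the root with one more row -/
def mr (M : Matrix (Ix m) (Fin r) ℝ) (row : Fin r → ℝ) : Matrix (Ix (m + 1)) (Fin r) ℝ :=
  of (snoc (α := fun _ => Fin r → ℝ) M row)

@[simp] lemma mr_cs (M : Matrix (Ix m) (Fin r) ℝ) (row : Fin r → ℝ) (l : Ix m) :
    mr M row (castSucc l) = M l := Fin.snoc_castSucc (α := fun _ => Fin r → ℝ) ..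
@[simp] lemma mr_last (M : Matrix (Ix m) (Fin r) ℝ) (row : Fin r → ℝ) :
    mr M row (last _) = row := Fin.snoc_last (α := fun _ => Fin r → ℝ) ..

lemma gram_eq {L : Type} (M : Matrix L (Fin r) ℝ) (l k : L) : (M * Mᵀ) l k = M l ⬝ᵥ M k := rfl

/-- reading part of the nodes -/
lemma Eb_res (j : Ix m → Ix m') (h0 : j 0 = 0) {M : Matrix (Ix m) (Fin r) ℝ}
    {M' : Matrix (Ix m') (Fin r) ℝ} (hM : ∀ l, M' (j l) = M l) {cM : ℝ → Ix m → ℝ}
    {cM' : ℝ → Ix m' → ℝ} (hc : ∀ b l, cM' b (j l) = cM b l) (φ : PF m) :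
    S3I.Eb M' 0 cM' (res j φ) = S3I.Eb M 0 cM φ := by
  funext b
  unfold S3I.Eb S3L.mdl S3L.gm
  refine Finset.sum_congr rfl fun σ _ => congrArg _ (integral_congr_ae (ae_of_all _ fun z => ?_))
  refine congrArg (φ b σ) (funext fun l => ?_)
  have e0 : M' 0 = M 0 := h0 ▸ hM 0
  change (_ : ℝ) * (M' (j l) ⬝ᵥ M' 0) + M' (j l) ⬝ᵥ z + cM' b (j l) = _
  rw [e0, hM, hc]
  rfl

/-- change of the root -/
lemma Eb_root {M : Matrix (Ix m) (Fin r) ℝ} {M' : Matrix (Ix m) (Fin r') ℝ} (h : M * Mᵀ = M' * M'ᵀ)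
    (cM : ℝ → Ix m → ℝ) {φ : PF m} (hφ : Sm φ) : S3I.Eb M 0 cM φ = S3I.Eb M' 0 cM φ := by
  funext b
  unfold S3I.Eb S3L.mdl S3L.gm
  refine Finset.sum_congr rfl fun σ _ => congrArg _ ?_
  rw [h]
  exact S3L.Clt58.int_congr h (F := fun x => φ b σ (_ + x + cM b))
    ((hφ.diff b σ).continuous.comp (by fun_prop)).measurable

end model

end App30

open App30

theorem appStmt : AppStmt := by
  intro F ν σ f g g' ε r M row p hf hg hg' pf pg pg' hε hp hnp hM hrow hrr
  have hε0 : ε ≠ 0 := by rcases hε with ⟨h, -⟩ | ⟨h, -⟩ <;> rw [h] <;> norm_num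
  replace pf := pf.resolve_left (by norm_num)
  replace pg := pg.resolve_left hε0
  replace pg' := pg'.resolve_left one_ne_zero
  have h' := ok σ.ok hf hg hg'
  set sg : Ix (σ.m + 1) → ℝ := snoc σ.sg ε with hsg
  set cM : ℝ → Ix (σ.m + 1) → ℝ :=
    fun b => snoc (σ.cM b) (σ.Eb g b + F.β ^ 2 * ∫ b, σ.Eb g' b ∂ν) with hcM
  set Pm : Ix (σ.m + 1) → Prop := snoc (fun l => l ∈ σ.Pm) p with hPm
  have s1 : ∀ l, sg (castSucc l) = σ.sg l := fun l => Fin.snoc_castSucc ..
  have s2 : sg (last _) = ε := Fin.snoc_last ..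
  have c1 : ∀ b l, cM b (castSucc l) = σ.cM b l := fun b l => Fin.snoc_castSucc ..
  have c2 : ∀ b, cM b (last _) = σ.Eb g b + F.β ^ 2 * ∫ b, σ.Eb g' b ∂ν := fun b => Fin.snoc_last ..
  have p1 : ∀ l, Pm (castSucc l) = (l ∈ σ.Pm) := fun l => Fin.snoc_castSucc ..
  have p2 : Pm (last _) = p := Fin.snoc_last ..
  have sm : ∀ ξ : Ix (σ.m + 1) → ℝ, (sg * ξ) ∘ castSucc = σ.sg * (ξ ∘ castSucc) := fun ξ =>
    funext fun l => by simp only [Function.comp_apply, Pi.mul_apply, s1]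
  have eb : ∀ φ, Sm φ → S3I.Eb (mr M row) 0 cM (res castSucc φ) = σ.Eb φ := fun φ hφ =>
    (Eb_res castSucc rfl (mr_cs M row) c1 φ).trans (Eb_root hM _ hφ)
  have eb2 : ∀ φ ψ, Sm φ → Sm ψ → S3I.Eb (mr M row) 0 cM (res castSucc φ * res castSucc ψ) =
      σ.Eb (φ * ψ) := fun φ ψ h1 h2 => eb _ (h1.mul h2)
  have gS : ∀ l k, M l ⬝ᵥ M k = σ.S l k := fun l k => by rw [← hM]; rfl
  let σ' : Sta F ν :=
    { m := σ.m + 1, r := r, P := pr σ.P f g g', sg := sg, Pm := {t | Pm t}, M := mr M row, cM := cM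
      ok := h'
      par :=
        { pm := fun l => by
            induction l using Fin.lastCases with
            | last => rw [s2]; exact hε.imp And.left And.left
            | cast l => rw [s1]; exact σ.par.pm l
          f := fun l b s ξ => by
            induction l using Fin.lastCases with
            | last => simp only [pr, sn_last, res, sm, pf, neg_one_mul]
            | cast l => simp only [pr, sn_cs, res, sm, σ.par.f]
          g := fun l b s ξ => by
            induction l using Fin.lastCases with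
            | last => simp only [pr, sn_last, res, sm, pg, s2]
            | cast l => simp only [pr, sn_cs, res, sm, σ.par.g, s1]
          g' := fun l b s ξ => by
            induction l using Fin.lastCases with
            | last => simp only [pr, sn_last, res, sm, pg', one_mul]
            | cast l => simp only [pr, sn_cs, res, sm, σ.par.g']
          ev := fun l => by
            induction l using Fin.lastCases with
            | last =>
              rw [s2]
              rintro rfl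
              rcases hε with ⟨-, rfl⟩ | ⟨h, -⟩
              · exact sn_last _ _
              · norm_num at h
            | cast l => rw [s1]; intro h; simp only [pr, sn_cs, σ.par.ev l h]; rfl
          od := fun l => by
            induction l using Fin.lastCases with
            | last =>
              rw [s2]
              rintro rfl
              rcases hε with ⟨h, -⟩ | ⟨-, rfl⟩
              · norm_num at h
              · exact sn_last _ _
            | cast l => rw [s1]; intro h; simp only [pr, sn_cs, σ.par.od l h]; rfl }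
      mod :=
        { c := fun b l => by
            induction l using Fin.lastCases with
            | last => simp only [pr, sn_last, c2, eb _ hg, eb _ hg']
            | cast l =>
              simp only [pr, sn_cs, c1, eb _ (σ.ok.sg l), eb _ (σ.ok.sg' l)]
              exact σ.mod.c b l
          S := fun l k => by
            rw [gram_eq]
            induction l using Fin.lastCases with
            | last =>
              induction k using Fin.lastCases with
              | last => simp only [pr, sn_last, mr_last, eb2 _ _ hf hf, eb _ hf, hrr]; rfl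
              | cast k =>
                simp only [pr, sn_last, sn_cs, mr_last, mr_cs, eb2 _ _ hf (σ.ok.sf k), eb _ hf,
                  eb _ (σ.ok.sf k)]
                rw [dotProduct_comm]
                exact hrow k
            | cast l =>
              induction k using Fin.lastCases with
              | last =>
                simp only [pr, sn_last, sn_cs, mr_last, mr_cs, eb2 _ _ (σ.ok.sf l) hf, eb _ hf,
                  eb _ (σ.ok.sf l)]
                refine (hrow l).trans ?_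
                simp only [Sta.Cv, mul_comm]
              | cast k =>
                simp only [pr, sn_cs, mr_cs, eb2 _ _ (σ.ok.sf l) (σ.ok.sf k), eb _ (σ.ok.sf _), gS]
                exact σ.mod.S l k }
      pm := fun l => by
        induction l using Fin.lastCases with
        | last => intro h; rw [mem_ofPred_eq, p2] at h; simp only [pr, sn_last, hp h]; rfl
        | cast l => intro h; rw [mem_ofPred_eq, p1] at h; simp only [pr, sn_cs, σ.pm l h]; rfl
      re := fun l => by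
        induction l using Fin.lastCases with
        | last =>
          intro h
          rw [mem_ofPred_eq, p2] at h
          obtain ⟨a1, a2, a3⟩ := hnp h
          simp only [pr, sn_last, a1, a2, s2, a3]
          exact ⟨rfl, rfl, trivial⟩
        | cast l =>
          intro h
          rw [mem_ofPred_eq, p1] at h
          obtain ⟨a1, a2, a3⟩ := σ.re l h
          simp only [pr, sn_cs, a1, a2, s1, a3]
          exact ⟨rfl, rfl, trivial⟩
      z := fun h => σ.z ((p1 0).mp h) }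
  have hX := fun i => X_cs (s := F.s i) (J := F.J i) (y := F.y i) σ.ok h'
  refine ⟨σ', castSucc, last _, ⟨Fin.castSucc_injective _, rfl, fun t => ?_, fun θ t => ?_,
    fun t => (p1 t).to_iff, s1, fun t t' => ?_, fun t => sn_cs _ _ _⟩, ?_, fun t => ?_, p2.to_iff, s2,
    sn_last _ _, fun i k => ?_, c2, fun t => ?_, ?_⟩
  · exact funext fun ω => congrFun (congrFun (hX ω.1) t) ω.2
  · rcases θ with θ | b
    · change cc (pr σ.P f g g') _ _ _ _ (castSucc t) θ.2 = cc σ.P _ _ _ _ t θ.2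
      rw [cc_cs, hX]
    · exact c1 b t
  · change mr M row _ ⬝ᵥ mr M row _ = _
    rw [mr_cs, mr_cs, gS]
  · rintro ⟨l, hl⟩
    exact (Fin.castSucc_lt_last l).ne hl
  · induction t using Fin.lastCases with
    | last => exact .inr rfl
    | cast l => exact .inl ⟨l, rfl⟩
  · change cc (pr σ.P f g g') _ _ _ _ (last _) k = _
    simp only [cc, pr, sn_last, eP_res, me_res]
    rw [show (fun l => σ'.P.X (F.s i) (F.J i) (F.y i) (castSucc l)) = _ from hX i]
    rfl
  · change mr M row _ ⬝ᵥ mr M row _ = _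
    rw [mr_cs, mr_last, dotProduct_comm]
    rfl
  · change mr M row _ ⬝ᵥ mr M row _ = _
    rw [mr_last]

end Crest.Agent.T157.S3R

end
end

-- ▼ part T157/S3RPar_43
section

/-! S3, realisation (helper43): thermal constants and site means are forced. -/

set_option autoImplicit false
set_option linter.unusedVariables false

noncomputable section

namespace Crest.Agent.T157.S3R

open MeasureTheory Matrix Set Function
open Crest.Agent.T157.E (Cube mean meanV)
open Crest.Agent.T157.S3 (Fam)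
open Crest.Agent.T157.S3P (PF Prog Sm bF Cb)
open Crest.Agent.T157.Nt (Fj Fn Ix res Ev Net)
open Crest.Agent.T157.S3L (mdl gm)

namespace Par43

theorem cut (B : ℝ) : ∃ χ : ℝ → ℝ, Cb χ ∧ (∀ x, χ (-x) = -χ x) ∧ ∀ x, |x| ≤ B → χ x = x := by
  let f : ContDiffBump (0 : ℝ) := ⟨|B| + 1, |B| + 2, by positivity, by linarith⟩
  refine ⟨fun x => x * f x, fun j => ?_, fun x => by beta_reduce; rw [f.neg, neg_mul], fun x hx => by
    beta_reduce
    rw [f.one_of_mem_closedBall (by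
      rw [mem_closedBall_zero_iff, Real.norm_eq_abs]
      exact hx.trans ((le_abs_self B).trans (le_add_of_nonneg_right zero_le_one))), mul_one]⟩
  have h : ContDiff ℝ j fun x : ℝ => x * f x := contDiff_id.mul f.contDiff
  exact ⟨h, (h.continuous_iteratedFDeriv le_rfl).bounded_above_of_compact_support
    ((f.hasCompactSupport.mul_left (f := fun x : ℝ => x)).iteratedFDeriv j)⟩

variable {F : Fam} {ν : Measure ℝ} {n : ℕ} {N : Net n} {σ σ' σ'' : Sta F ν} {e : Ix n → Ix σ.m}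
  {D T : Set (Ix n)} {X : Ix n → F.Vf} {j : Ix σ.m → Ix σ'.m} {j' : Ix σ'.m → Ix σ''.m}
  {H : JL F n} {φ : PF σ.m}

theorem le_trans (h : σ.Le σ' j) (h' : σ'.Le σ'' j') : σ.Le σ'' (j' ∘ j) :=
  ⟨h'.inj.comp h.inj, by rw [Function.comp_apply, h.zero, h'.zero], fun t => (h'.X _).trans (h.X t),
    fun θ t => (h'.cv θ _).trans (h.cv θ t), fun t => (h'.pm _).trans (h.pm t),
    fun t => (h'.sg _).trans (h.sg t), fun t t' => (h'.S _ _).trans (h.S t t'),
    fun t => by rw [Function.comp_apply, h'.f, h.f]; rfl⟩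

theorem bs_le (b : Bs N σ e D X) (h : σ.Le σ' j) : Bs N σ' (j ∘ e) D X :=
  ⟨b.z, by rw [Function.comp_apply, b.e0, h.zero], fun u hu v hv huv => b.inj hu hv (h.inj huv),
    fun u hu => mt (h.pm _).1 (b.re u hu), fun u hu v hv => (h.S _ _).trans (b.S u hu v hv),
    fun u hu => (b.X u hu).trans (h.X _).symm⟩

theorem eb_zero (σ : Sta F ν) : σ.Eb 0 = 0 :=
  funext fun b => abs_nonpos_iff.1 (S3I.abs_Eb_le σ.M 0 σ.cM (fun _ _ _ => by simp) b)

theorem cv_zero (σ : Sta F ν) (ψ : PF σ.m) : σ.Cv 0 ψ = 0 := by simp [Sta.Cv, eb_zero]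

theorem x_par (σ : Sta F ν) {t : Ix σ.m} (ht : t ∈ σ.Pm) (ω : F.Ω) (k : Fin (F.n ω.1)) :
    σ.X t ω k = σ.cv (.inl ⟨ω.1, k⟩) t := by
  have h := congrFun (congrFun (congrFun
    (σ.ok.fix (s := F.s ω.1) (J := F.J ω.1) (y := F.y ω.1)) t) ω.2) k
  have e1 : ∀ m : Ix σ.m, S3P.pd m (0 : PF σ.m) = 0 := fun m => by
    funext b s ξ; simp [S3P.pd]
  refine h.symm.trans ?_
  simp [S3P.step, S3P.Zr, S3P.Sg, σ.pm t ht, e1, S3P.me_zero, S3P.eP, meanV, mean, E.cov, Sta.cv,
    Prog.c, mulVec, dotProduct]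

theorem ct_ev (b : Bs N σ e D X) (hT : T ⊆ D) (h : σ.Ct e T H φ) : σ.e φ = ev X H :=
  funext fun ω => funext fun k => h (.inl ⟨ω.1, k⟩) _ _ _ (fun t ht => x_par σ ht ω k)
    fun u hu => by rw [b.X u (hT hu)]; rfl

theorem ct_eb (b : Bs N σ e D X) (hT : T ⊆ D) (hφ : Sm φ) (h : σ.Ct e T H φ) :
    σ.Eb φ = N.E (md H) := by
  classical
  funext β
  let η : (Ix n → ℝ) → Ix σ.m → ℝ := fun ξ t =>
    if h : ∃ u ∈ T, e u = t then ξ h.choose else σ.cM β t
  have h1 : ∀ s ξ, φ β s (η ξ) = H (.inr β) s ξ := fun s ξ => h (.inr β) s _ _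
    (fun t ht => dif_neg fun ⟨u, hu, e⟩ => b.re u (hT hu) (e ▸ ht)) fun u hu => by
      have h : ∃ v ∈ T, e v = e u := ⟨u, hu, rfl⟩
      simp only [η, dif_pos h]
      rw [b.inj (hT h.choose_spec.1) (hT hu) h.choose_spec.2]
  have h2 : ∀ s, Continuous (H (.inr β) s) := fun s => by
    rw [← funext (h1 s)]
    refine (hφ.diff β s).continuous.comp (continuous_pi fun t => ?_)
    simp only [η]
    split_ifs
    · exact continuous_apply _
    · exact continuous_const
  have h3 : ∀ s ξ ξ', (∀ u ∈ D, ξ u = ξ' u) → H (.inr β) s ξ = H (.inr β) s ξ' := fun s ξ ξ' e => by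
    rw [← h1, ← h1]
    refine congrArg _ (funext fun t => ?_)
    simp only [η]
    split_ifs with h
    · exact e _ (hT h.choose_spec.1)
    · rfl
  have h4 : σ.Eb φ β = mdl σ.M 0 β fun s ξ => H (.inr β) s (ξ ∘ e) :=
    S3I.mdl_congr_rows σ.M 0 β (ψ := fun s ξ => φ β s (ξ + σ.cM β)) fun s ξ hξ =>
      h (.inr β) s (ξ + σ.cM β) (ξ ∘ e) (fun t ht => by
      have := σ.mod.S t t
      rw [σ.pm t ht] at this
      rw [Pi.add_apply, hξ t (this.trans (cv_zero σ 0)), zero_add]; rfl) fun u hu => by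
      have := σ.mod.c β (e u)
      rw [(σ.re _ (b.re u (hT hu))).1, (σ.re _ (b.re u (hT hu))).2.1] at this
      have e0 := eb_zero σ
      rw [Sta.Eb] at e0
      rw [Pi.add_apply, this, e0]; simp
  rw [h4, Net.E, Nt.Eb, mdl, mdl]
  refine Finset.sum_congr rfl fun s _ => congrArg _ ?_
  let A : Matrix (Ix n) (Fin σ.r) ℝ := of fun u k => if u ∈ D then σ.M (e u) k else 0
  let A' : Matrix (Ix n) (Ix n) ℝ := of fun u k => if u ∈ D then N.A u k else 0
  have h5 : A * Aᵀ = A' * A'ᵀ := by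
    ext u v
    by_cases hu : u ∈ D
    · by_cases hv : v ∈ D
      · simpa [A, A', mul_apply, hu, hv, Sta.S, Net.S] using b.S u hu v hv
      · simp [A, A', mul_apply, hv]
    · simp [A, A', mul_apply, hu]
  have h6 := S3L.Clt58.int_congr h5 (F := fun x => H (.inr β) s
    (Crest.ProbabilityR.SpinGlassDynamics.spin s • (fun u => N.S u 0) + x))
    ((h2 s).comp (continuous_const.add continuous_id)).measurable
  refine Eq.trans (integral_congr_ae (ae_of_all _ fun z => h3 s _ _ fun u hu => ?_))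
    (h6.trans (integral_congr_ae (ae_of_all _ fun z => h3 s _ _ fun u hu => ?_)))
  · have := b.S u hu 0 b.z
    rw [b.e0] at this
    simp only [Function.comp_apply, Pi.add_apply, Pi.smul_apply, ← this, A, mulVec, dotProduct, of_apply,
      if_pos hu, Sta.S]
  · simp only [Pi.add_apply, Pi.smul_apply, A', mulVec, dotProduct, of_apply, if_pos hu, Net.S]

theorem abs_mean_le {C : ℝ} (i : F.I) {f : Cube (F.n i) → ℝ} (h : ∀ x, |f x| ≤ C) :
    |mean (F.w i) f| ≤ C := by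
  have hw := Pl.wt_ising (F.J i) (F.y i)
  rw [abs_le]
  exact ⟨(hw.mean_const (-C)).symm.trans_le (hw.mean_mono fun x => (abs_le.1 (h x)).1),
    (hw.mean_mono fun x => (abs_le.1 (h x)).2).trans_eq (hw.mean_const C)⟩

/-- append a parameter and read it -/
theorem par (hA : AppStmt) [IsProbabilityMeasure ν] (σ : Sta F ν) {g g' : PF σ.m} {ε : ℝ}
    (hg : Sm g) (hg' : Sm g') (pg : Pr σ.sg ε g) (pg' : Pr σ.sg 1 g')
    (hε : ε = 1 ∨ ε = -1 ∧ g' = 0) {d : F.Df} {c : ℝ → ℝ}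
    (hd : ∀ i k, d i k = F.EV (σ.e g) i k + F.me (σ.e g') i)
    (hc : ∀ b, c b = σ.Eb g b + F.β ^ 2 * ∫ b, σ.Eb g' b ∂ν) :
    ∃ (σ' : Sta F ν) (j : Ix σ.m → Ix σ'.m), σ.Le σ' j ∧ σ.Pe σ' j ∧
      ∀ e : Ix n → Ix σ'.m, σ'.Av e ∅ ε (jv d c) := by
  obtain ⟨σ', j, t, h1, -, h2, h3, h4, -, h5, h6, -⟩ := hA F ν σ 0 g g' ε σ.r σ.M 0 True Sm.zero hg
    hg' (.inr fun _ _ _ => by simp) pg pg' (hε.imp_left fun h => ⟨h, rfl⟩) (fun _ => rfl)
    (fun h => absurd trivial h) rfl (fun t => by simp [cv_zero]) (by simp [cv_zero])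
  obtain ⟨C, C0, hC⟩ := hg.bd
  obtain ⟨C', C0', hC'⟩ := hg'.bd
  obtain ⟨χ, c1, c2, c3⟩ := cut (C + F.β ^ 2 * C')
  refine ⟨σ', j, h1, fun t' ht => (h2 t').resolve_right fun e => ht (e ▸ h3.2 trivial),
    fun e => ⟨fun _ _ η => χ (η t), by simpa using Sm.comp c1 0 (Pi.single t 1) Sm.zero,
      .inr fun b s ξ => ?_, fun θ s η ξ hη _ => ?_⟩⟩
  · beta_reduce
    rw [Pi.mul_apply, h4]
    rcases hε with rfl | ⟨rfl, -⟩ <;> simp [c2]
  · change χ (η t) = _
    rw [hη t (h3.2 trivial)]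
    rcases θ with ⟨i, k⟩ | b
    · refine (c3 _ ?_).trans ((h5 i k).trans (hd i k).symm)
      rw [h5]
      refine (abs_add_le _ _).trans (add_le_add (abs_mean_le i fun x => hC _ _ _)
        (abs_mean_le i fun x => ?_))
      · change |F.s i ^ 2 * ∑ k, σ.e g' ⟨i, x⟩ k| ≤ _
        rw [abs_mul, abs_sq]
        refine (mul_le_mul_of_nonneg_left ((Finset.abs_sum_le_sum_abs _ _).trans
          (Finset.sum_le_card_nsmul _ _ C' fun k _ => hC' _ _ _)) (sq_nonneg _)).trans ?_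
        rw [Finset.card_univ, Fintype.card_fin, nsmul_eq_mul, ← mul_assoc, Fam.s, div_pow,
          Real.sq_sqrt (Nat.cast_nonneg _)]
        refine mul_le_mul_of_nonneg_right ?_ C0'
        rcases eq_or_ne (F.n i : ℝ) 0 with h | h
        · rw [h, mul_zero]; positivity
        · rw [div_mul_cancel₀ _ h]
    · refine (c3 _ ?_).trans ((h6 b).trans (hc b).symm)
      rw [h6]
      refine (abs_add_le _ _).trans (add_le_add (S3I.abs_Eb_le _ _ _ hC b) ?_)
      · rw [abs_mul, abs_sq]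
        refine mul_le_mul_of_nonneg_left ?_ (sq_nonneg _)
        simpa using norm_integral_le_of_norm_le_const (μ := ν) (C := C') (f := σ.Eb g')
          (ae_of_all _ fun b => S3I.abs_Eb_le σ.M 0 σ.cM hC' b)

theorem pe_trans (h : σ.Pe σ' j) (l : σ'.Le σ'' j') (h' : σ'.Pe σ'' j') : σ.Pe σ'' (j' ∘ j) :=
  fun t ht => by
    obtain ⟨t, rfl⟩ := h' t ht
    obtain ⟨t, rfl⟩ := h t (mt (l.pm t).2 ht)
    exact ⟨t, rfl⟩

end Par43

open Par43

theorem parStmt (hA : AppStmt) : ParStmt := by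
  intro F ν _ n N σ e D X b T hT H
  have z : ∀ σ : Sta F ν, (∀ i k, F.EV (σ.e 0) i k = 0) ∧ ∀ i, F.me (σ.e 0) i = 0 := fun σ =>
    ⟨fun i k => by simp [Fam.EV, meanV, mean, Sta.e, S3.Net.ev, S3P.fl, S3P.lf], fun i => by
      simp [Fam.me, Fam.E, mean, Sta.e, S3.Net.ev, S3P.fl, S3P.lf, Uw.eta]⟩
  refine ⟨fun h σ1 j l1 => ?_, fun ε hε h σ1 j l1 => ?_⟩ <;>
    obtain ⟨σ2, j', l2, p2, φ, hφ, pφ, c⟩ := h σ1 j l1 <;>
    have b2 := bs_le (bs_le b l1) l2
  · obtain ⟨σ3, j'', l3, p3, h⟩ := par (n := n) hA σ2 Sm.zero hφ (.inr fun _ _ _ => by simp) pφ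
      (.inl rfl) (d := fun i _ => F.me (ev X H) i) (c := fun _ => F.β ^ 2 * Ev ν N.A 0 (md H))
      (fun i k => by rw [(z σ2).1, zero_add, ct_ev b2 hT c])
      (fun _ => by rw [eb_zero, ct_eb b2 hT hφ c]; simp [Ev, Net.E])
    exact ⟨σ3, _, le_trans l2 l3, pe_trans p2 l3 p3, h _⟩
  · obtain ⟨σ3, j'', l3, p3, h⟩ := par (n := n) hA σ2 hφ Sm.zero pφ (.inr fun _ _ _ => by simp)
      (hε.imp_right fun h => ⟨h, rfl⟩) (d := F.EV (ev X H)) (c := N.E (md H))
      (fun i k => by rw [(z σ2).2, add_zero, ct_ev b2 hT c])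
      (fun _ => by rw [eb_zero, ct_eb b2 hT hφ c]; simp)
    exact ⟨σ3, _, le_trans l2 l3, pe_trans p2 l3 p3, h _⟩

end Crest.Agent.T157.S3R

end
end

-- ▼ part T157/S3RPi_30
section

/-!
# Row 157, block B/S3: the pairing constants are forced (helper30)
-/

set_option autoImplicit false

noncomputable section

namespace Crest.Agent.T157.S3R

open MeasureTheory Matrix Set Function
open Crest.Agent.T157.S3 (Fam)
open Crest.Agent.T157.Nt (Fj Fn Ix BS dx gs sp co cb res th rf Ev Net FactStmt pair)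

namespace Pi30

variable {F : Fam} {ν : Measure ℝ} {n : ℕ}

/-- the equation of the pairing constants in joint form -/
theorem jc_eq {N : Net n} {X : Ix n → F.Vf} {G : Ix n → JL F n} {π : Ix n → Ix n → F.I → ℝ}
    {v p : Ix n} (h1 : π v p = piR N X G π v p) (hm : md (G p) = N.f p)
    (h2 : N.S v p = pair F.β ν N.A 0 (1 - sp * th 0) (N.al v) (N.a v) (gs (N.f p))
      (fun q => dx q (N.f p)) N.S) :
    jc (n := n) (π v p) (N.S v p) =
      jc (F.me (ev X (lift F (N.al v) * (1 - sp * lift F (th 0)) * gs (G p))))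
        (F.β ^ 2 * Ev ν N.A 0 (md (lift F (N.al v) * (1 - sp * lift F (th 0)) * gs (G p)))) +
      ∑ q, ∑ r, jc (F.me (ev X (lift F (N.a v q) * dx r (G p))))
        (F.β ^ 2 * Ev ν N.A 0 (md (lift F (N.a v q) * dx r (G p)))) * jc (π q r) (N.S q r) := by
  funext θ s x
  rcases θ with θ | b
  · simp only [Pi.add_apply, Finset.sum_apply, Pi.mul_apply, jc, jv, cb, Sum.elim_inl]
    exact congrFun h1 θ.1
  · simp only [Pi.add_apply, Finset.sum_apply, Pi.mul_apply, jc, jv, cb, Sum.elim_inr]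
    rw [h2, pair, ← hm, mul_add, Finset.mul_sum]
    simp only [Finset.mul_sum, mul_assoc]
    rfl

theorem jc_zero (X : Ix n → F.Vf) (A : Matrix (Ix n) (Ix n) ℝ) :
    jc (n := n) (F.me (ev X 0)) (F.β ^ 2 * Ev ν A 0 (md (F := F) 0)) = 0 := by
  funext θ s x
  rcases θ with θ | b
  · simp [jc, jv, cb, Fam.me, Fam.E, ev, Uw.eta, E.mean]
  · simp [jc, jv, cb, Ev, Nt.Eb, md, S3L.mdl, S3L.gm]

end Pi30

open Pi30 Sta

theorem piStmt (hP : ParStmt) (hF : FactStmt) : PiStmt := by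
  intro F ν _ n N σ e D X G π hN h v
  have hB := h.bs
  have hG : ∀ p ∈ D, σ.Fa e D (-1) (G p) := fun p hp =>
    (Av.fa ⟨_, σ.ok.sf _, σ.pr_f _, h.ct p hp⟩).mono inter_subset_left
  induction v using WellFoundedLT.induction with
  | ind v ih =>
  intro hv hd p hp
  rw [jc_eq (h.pi v hv p hp) (h.md p hp) (((hF _ ν n N hN).2.1 v hd).2 p)]
  refine Fa.add ((hP F ν n N σ e D X hB D subset_rfl _).1 ?_)
    (Fa.sum _ fun q _ => Fa.sum _ fun r _ => ?_)
  · refine ((hB.fa_lift Nt.bsStmt subset_rfl (hN.fl v).bal (h.cl v hv).1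
      (.inr ((hN.ev v).1.trans (one_smul _ _).symm))).mul (fa_one.sub (fa_sp.mul'
      (hB.fa_lift Nt.bsStmt subset_rfl ((Nt.bsStmt _).th0 0) (on_th hB.z) (ε := -1) (.inr ?_))
      (by norm_num)))).mul' (hG p hp).gs (by norm_num)
    funext b s x
    simp only [rf, th, Pi.neg_apply, Pi.smul_apply, smul_eq_mul, ← neg_add, Real.tanh_neg,
      neg_one_mul]
  · by_cases h0 : N.a v q = 0 ∨ r ∉ D
    · have : lift F (N.a v q) * dx r (G p) = 0 := by
        rcases h0 with h0 | h0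
        · rw [h0]; exact zero_mul _
        · rw [(hB.fa_on subset_rfl (hG p hp)).dx_zero h0, mul_zero]
      rw [this, jc_zero, zero_mul]
      exact fa_zero
    · rw [not_or, not_not] at h0
      refine ((hP F ν n N σ e D X hB D subset_rfl _).1 ?_).mul'
        (ih q (not_le.1 fun k => h0.1 (hN.tri v q k))
          (by_contra fun k => h0.1 (((h.cl v hv).2 q).2 k))
          (by_contra fun k => h0.1 ((hN.fl v).nd q k)) r h0.2) (one_mul _)
      exact (hB.fa_lift Nt.bsStmt subset_rfl ((hN.fl v).ba q).1 ((h.cl v hv).2 q).1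
        (.inr (((hN.ev v).2 q).trans (one_smul _ _).symm))).mul'
        (hB.fa_dx subset_rfl (hG p hp) r) (by norm_num)

end Crest.Agent.T157.S3R

end
end

-- ▼ part T157/S3RZ_65
section

/-! S3, realisation (helper65): the drift fields and the drifts of flows are forced. -/

set_option autoImplicit false
set_option linter.unusedVariables false

noncomputable section

namespace Crest.Agent.T157.S3R

open MeasureTheory Matrix Set Function
open Crest.Agent.T157.S3 (Fam)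
open Crest.Agent.T157.Nt (Fj Fn Ix BS dx gs sp co cb res th rf Ev Net BsStmt FactStmt)
open Sta

theorem flowStmt (hB : BsStmt) (hP : PiStmt) (hZ : ZetaStmt) : FlowStmt := by
  intro F ν _ n N σ e D X G π hN hR T hT h0 hc al a ε hF o1 o2 hz hε
  have hb := hR.bs
  have a0 : ∀ v, (v ∈ T ∧ N.dr v) ∨ a v = 0 := fun v => by
    by_cases h1 : v ∈ T
    · exact (em (N.dr v)).imp (fun h => ⟨h1, h⟩) (hF.nd v)
    · exact Or.inr (hz v h1)
  have hζ : ∀ v, ∃ ζ, σ.Fa e T (-1) ζ ∧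
      (a v = 0 ∨ md ζ = -N.S 0 v • sp ∧ ev X ζ = Zf N X G v - X v) := fun v => by
    rcases a0 v with ⟨h1, h2⟩ | h
    · obtain ⟨ζ, k1, k2⟩ := hZ F ν n N σ e D X G π hN hR v (hT h1) h2
      exact ⟨ζ, k1.mono (hc v h1), Or.inr k2⟩
    · exact ⟨0, fa_zero, Or.inl h⟩
  choose ζ z1 z2 using hζ
  have fa : ∀ v, σ.Fa e T ε (lift F (a v)) := fun v =>
    hb.fa_lift hB hT (hF.ba v).1 (o2 v) (hε.imp_right fun h => h.2 v)
  refine ⟨(sp - lift F (th 0)) * lift F al + ∑ v, (lift F (a v * co v) + lift F (a v) * ζ v) -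
    ∑ v, ∑ p, jc (π v p) (N.S v p) * dx p (lift F (a v)), ?_, ?_, ?_⟩
  · refine (((fa_sp.sub (hb.fa_lift hB hT ((hB _).th0 0) (on_th h0) (Or.inr ?_))).mul'
      (hb.fa_lift hB hT hF.bal o1 (hε.imp_right fun h => h.1)) (neg_one_mul ε)).add
      (Fa.sum _ fun v _ => .add ?_ ((fa v).mul' (z1 v) (mul_neg_one ε)))).sub
      (Fa.sum _ fun v _ => Fa.sum _ fun p _ => ?_)
    · funext b s x
      simp only [rf, th, Pi.neg_apply, ← neg_add, Real.tanh_neg, Pi.smul_apply, smul_eq_mul,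
        neg_one_mul]
    · rcases a0 v with ⟨h1, -⟩ | h
      · refine hb.fa_lift hB hT (hF.ba v).2 ((o2 v).mul (on_co h1))
          (hε.imp (by simp) fun h => ?_)
        funext b s x
        have := congrFun (congrFun (congrFun (h.2 v) b) s) x
        simp only [rf, co, Pi.mul_apply, Pi.neg_apply, Pi.smul_apply, smul_eq_mul] at this ⊢
        rw [this]; ring
      · rw [h, zero_mul]; exact fa_zero
    · by_cases hp : p ∈ T
      · rcases a0 v with ⟨h1, h2⟩ | h
        · exact ((hP F ν n N σ e D X G π hN hR v (hT h1) h2 p (hT hp)).mono (empty_subset _)).mul'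
            (hb.fa_dx hT (fa v) p) (one_mul _)
        · rw [h, show lift F (0 : Fn (Ix n)) = 0 from rfl, dx_zero, mul_zero]; exact fa_zero
      · rw [(o2 v).lift.dx_zero hp, mul_zero]; exact fa_zero
  · funext b s x
    have e1 : ∀ v, a v b s x * ζ v (.inr b) s x = -(a v b s x * (N.S 0 v * sp (L := Ix n) b s x)) :=
      fun v => by
      rcases z2 v with h | ⟨h, -⟩
      · simp [h]
      · rw [show ζ v (.inr b) s x = _ from congrFun (congrFun (congrFun h b) s) x]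
        simp
    simp only [md, Net.drift, Nt.dft, Nt.dl, Pi.add_apply, Pi.sub_apply, Pi.mul_apply,
      Finset.sum_apply, Pi.smul_apply, smul_eq_mul, Finset.sum_sub_distrib, mul_sub, add_sub_assoc]
    congr 2
    rw [← Finset.sum_sub_distrib]
    exact Finset.sum_congr rfl fun v _ => congrArg₂ _ rfl (e1 v)
  · funext ω k
    have e0 : X 0 ω k = S3.hf (F.J ω.1) (F.y ω.1) ω.2 k - bi F ω.1 k := by
      rw [hb.X 0 hb.z, hb.e0]
      exact congrFun (σ.ok.X0 ω.2) k
    have e1 : ∀ v, ev X (lift F (a v)) ω k * X v ω k + ev X (lift F (a v)) ω k * ev X (ζ v) ω k =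
        ev X (lift F (a v)) ω k * Zf N X G v ω k := fun v => by
      rcases z2 v with h | ⟨-, h⟩
      · simp [h, ev, lift]
      · rw [h, Pi.sub_apply, Pi.sub_apply]; ring
    simp only [tA, Pi.add_apply, Pi.sub_apply, Pi.mul_apply, Finset.sum_apply, Pi.smul_apply,
      smul_eq_mul, ← e1]
    simp only [ev, Pi.add_apply, Pi.sub_apply, Pi.mul_apply, Finset.sum_apply]
    congr 3
    change _ - Real.tanh (bi F ω.1 k + X 0 ω k) = _
    rw [e0, add_sub_cancel]
    rfl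

namespace Z65
variable {F : Fam} {ν : Measure ℝ} {n : ℕ} {N : Net n} {σ : Sta F ν} {e : Ix n → Ix σ.m}
  {D : Set (Ix n)} {X : Ix n → F.Vf} {G : Ix n → JL F n} {π : Ix n → Ix n → F.I → ℝ}

lemma E_sub (hB : BsStmt) (N : Net n) {φ ψ : Fn (Ix n)} (h : BS φ) (h' : BS ψ) (b : ℝ) :
    N.E (φ - ψ) b = N.E φ b - N.E ψ b :=
  let ⟨_, _, _, hl⟩ := bl_of_sm (sm_of_bs hB h)
  let ⟨_, _, _, hl'⟩ := bl_of_sm (sm_of_bs hB h')
  S3I.mdl_sub N.A 0 b (hl.elip b) (hl'.elip b)

lemma fa_G (h : Rp N σ e D X G π) {u : Ix n} (hu : u ∈ D) : σ.Fa e (D ∩ Iio u) (-1) (G u) :=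
  Av.fa ⟨_, σ.ok.sf _, σ.pr_f _, h.ct u hu⟩

lemma ev_G (h : Rp N σ e D X G π) {u : Ix n} (hu : u ∈ D) : ev X (G u) = σ.e (σ.P.f (e u)) :=
  h.bs.ev inter_subset_left (h.ct u hu)

lemma me_zero (i : F.I) : F.me (ev X 0) i = 0 := by
  simp [Fam.me, Fam.E, ev, Uw.eta, E.mean]

lemma sum_eq (h : Rp N σ e D X G π) {v : Ix n} (hv : v ∈ D) (ω : F.Ω) :
    ∑ t, (σ.P.net F).o (e v) t ω.1 • σ.e (σ.P.f t) ω =
      ∑ m, F.me (ev X (dx m (G v))) ω.1 • ev X (G m) ω := by
  classical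
  rw [← Finset.sum_subset (Finset.subset_univ (Finset.univ.filter (· ∈ D))) fun m _ hm => by
    rw [(h.bs.fa_on inter_subset_left (fa_G h hv)).dx_zero fun k => hm (by simpa using k.1), me_zero,
      zero_smul]]
  refine (Finset.sum_of_injOn e (by simpa using h.bs.inj) (fun _ _ => Finset.mem_univ _)
    (fun t _ ht => ?_) fun m hm => ?_).symm
  · rw [σ.pm t (by_contra fun k => ht (by simpa using h.sur t k))]
    exact smul_zero _
  · have hm := (Finset.mem_filter.1 hm).2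
    rw [ev_G h hm, h.bs.ev le_rfl (h.bs.dx (σ.ok.sf _) (h.ct v hv) inter_subset_left hm
      inter_subset_left le_rfl hm)]
    rfl

lemma X_eq (h : Rp N σ e D X G π) {v : Ix n} (hv : v ∈ D) (ω : F.Ω) : X v ω = cen (fun ω =>
    F.J ω.1 *ᵥ ev X (G v) ω - ∑ m, F.me (ev X (dx m (G v))) ω.1 • ev X (G m) ω) ω +
      σ.P.S (F.s ω.1) (F.J ω.1) (F.y ω.1) (e v) 0 • F.EV (ev X sp) ω.1 := by
  have e1 : (fun ω => F.J ω.1 *ᵥ ev X (G v) ω - ∑ m, F.me (ev X (dx m (G v))) ω.1 • ev X (G m) ω) =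
      fun ω : F.Ω => S3P.Zr σ.P (F.s ω.1) (F.J ω.1) (F.y ω.1)
        (σ.P.X (F.s ω.1) (F.J ω.1) (F.y ω.1)) (e v) ω.2 := funext fun ω => by
    rw [← sum_eq h hv, ev_G h hv]; rfl
  have e2 : S3P.cc σ.P (F.s ω.1) (F.J ω.1) (F.y ω.1) (σ.P.X (F.s ω.1) (F.J ω.1) (F.y ω.1)) (e v) =
      0 := by
    ext k
    simp [S3P.cc, (σ.re _ (h.bs.re v hv)).1, (σ.re _ (h.bs.re v hv)).2.1, S3P.me_zero, S3P.eP,
      E.meanV, E.mean]
  rw [e1, h.bs.X v hv]
  refine (congrFun (congrFun σ.ok.fix (e v)) ω.2).symm.trans ?_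
  rw [S3P.step, e2, add_zero]
  rfl

lemma S_eq (h : Rp N σ e D X G π) {v : Ix n} (hv : v ∈ D) (c : ℝ → ℝ) (i : F.I) :
    F.me (ev X ((G v - jv (F.EV (ev X (G v))) c) * sp)) i =
      σ.P.S (F.s i) (F.J i) (F.y i) (e v) 0 := by
  have hw := Pl.wt_ising (F.J i) (F.y i)
  change E.mean (E.ising (F.J i) (F.y i)) (fun x => F.s i ^ 2 * ∑ k : Fin (F.n i), (ev X (G v) ⟨i, x⟩ k -
    E.mean (E.ising (F.J i) (F.y i)) fun x => ev X (G v) ⟨i, x⟩ k) * E.sv x k) = F.s i ^ 2 * ∑ k,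
      E.cov _ (fun x => σ.e (σ.P.f (e v)) ⟨i, x⟩ k)
        fun x => σ.P.e (F.s i) (F.J i) (F.y i) (σ.P.f 0) x k
  rw [SL.mean_const_mul, SL.mean_sum]
  simp only [σ.ok.e0, ← ev_G h hv, hw.cov_eq, SL.mean_const_mul, sub_mul, SL.mean_sub]

end Z65

open Z65 in
theorem zetaStmt (hB : BsStmt) (hF : FactStmt) (hP : ParStmt) : ZetaStmt := by
  intro F ν _ n N σ e D X G π hN hR v hv hd
  have hb := hR.bs
  obtain ⟨f1, f2, -⟩ := hF F.β ν n N hN
  obtain ⟨h0, hf⟩ := hN.drf v hd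
  have sub : D ∩ Iio v ⊆ D := inter_subset_left
  have P1 := fun H => (hP F ν n N σ e D X hb _ sub H).1
  have P2 := fun H => (hP F ν n N σ e D X hb _ sub H).2 (-1) (Or.inr rfl)
  have oa : ∀ m, On (D ∩ Iio v) (N.a v m) := fun m => ((hR.cl v hv).2 m).1.inter ((hN.rd' v).2 m)
  refine ⟨∑ m, jc (F.me (ev X (dx m (G v) - lift F (N.a v m))))
      (F.β ^ 2 * Ev ν N.A 0 (md (dx m (G v) - lift F (N.a v m)))) *
        (G m - jv (F.EV (ev X (G m))) (N.E (md (G m)))) -
    jc (F.me (ev X ((G v - jv (F.EV (ev X (G v))) (N.E (md (G v)))) * sp)))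
      (F.β ^ 2 * Ev ν N.A 0 (md ((G v - jv (F.EV (ev X (G v))) (N.E (md (G v)))) * sp))) *
        jv (F.EV (ev X sp)) (N.E (md (sp : JL F n))), ?_, ?_, ?_⟩
  · refine (Fa.sum _ fun m _ => ?_).sub (((P1 _ (((fa_G hR hv).sub ((P2 _ (fa_G hR hv)).mono
      (empty_subset _))).mul' fa_sp (by norm_num))).mul' (P2 _ fa_sp) (one_mul _)).mono
        (empty_subset _))
    by_cases hm : m ∈ D ∩ Iio v
    · have g := (fa_G hR hm.1).mono (inter_subset_inter_right D (Iio_subset_Iio (le_of_lt hm.2)))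
      have d := hb.fa_dx sub (fa_G hR hv) m
      rw [neg_neg] at d
      exact ((P1 _ (d.sub (hb.fa_lift hB sub ((hN.fl v).ba m).1 (oa m)
        (Or.inr (by rw [(hN.ev v).2, one_smul]))))).mono (empty_subset _)).mul'
        (g.sub ((P2 _ g).mono (empty_subset _))) (one_mul _)
    · have a0 : N.a v m = 0 := by
        by_cases h1 : m ∈ D
        · exact hN.tri v m (not_lt.1 fun h2 => hm ⟨h1, h2⟩)
        · exact ((hR.cl v hv).2 m).2 h1
      have z : jc (F.me (ev X (dx m (G v) - lift F (N.a v m))))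
          (F.β ^ 2 * Ev ν N.A 0 (md (dx m (G v) - lift F (N.a v m)))) = (0 : JL F n) := by
        rw [(hb.fa_on sub (fa_G hR hv)).dx_zero hm, a0, show (0 : JL F n) - lift F 0 = 0 from
          sub_self _]
        funext θ s x
        rcases θ with θ | b
        · exact me_zero _
        · exact mul_eq_zero_of_right _ (integral_eq_zero_of_ae
            (ae_of_all _ fun b => S3I.mdl_const N.A 0 b 0))
      rw [z, zero_mul]; exact fa_zero
  · have e1 : ∀ m, F.β ^ 2 * Ev ν N.A 0 (md (dx m (G v) - lift F (N.a v m))) =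
        if m = 0 then -N.S v 0 else 0 := fun m => by
      have : ∀ b, Nt.Eb N.A 0 (md (dx m (G v) - lift F (N.a v m))) b =
          if m = 0 then -N.E (N.D * N.al v) b else 0 := fun b => by
        change N.E (dx m (md (G v)) - N.a v m) b = _
        rw [hR.md v hv, E_sub hB N ((hB _).dx m (hN.bs v)) ((hN.fl v).ba m).1, hf,
          (f1 _ _ (hN.fl v)).2.2.2]
        split_ifs <;> ring
      simp only [Ev, this]
      split_ifs
      · rw [integral_neg, (f2 v hd).1, mul_neg]; rfl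
      · simp
    have e2 : F.β ^ 2 * Ev ν N.A 0 (md ((G v - jv (F.EV (ev X (G v))) (N.E (md (G v)))) * sp)) =
        N.S v 0 := by
      rw [hN.gr, Nt.gram, of_apply, Ev]
      congr 2
      funext b
      obtain ⟨_, _, _, l1⟩ := bl_of_sm (sm_of_bs hB ((hB _).mul (hN.bs v) (hB _).sp))
      obtain ⟨_, _, _, l2⟩ := bl_of_sm (sm_of_bs hB ((hB _).smul (N.E (N.f v) b) (hB (Ix n)).sp))
      have := S3I.mdl_sub N.A 0 b (l1.elip b) (l2.elip b)
      rw [hN.f0, Nt.Cv]
      refine Eq.trans ?_ (this.trans (congrArg _ (S3I.mdl_const_mul N.A 0 b _ _)))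
      change S3L.mdl N.A 0 b (fun s x => (md (G v) b s x - N.E (md (G v)) b) * _) = _
      simp only [hR.md v hv, sub_mul]
      rfl
    have e3 : N.S v 0 = N.S 0 v := by simp only [Net.S, mul_apply, transpose_apply, mul_comm]
    rw [e2]
    simp only [e1]
    funext b s x
    have e4 : G 0 (.inr b) s x = sp (L := Ix n) b s x :=
      congrFun (congrFun (congrFun ((hR.md 0 hb.z).trans hN.f0) b) s) x
    have e5 : md (G 0) = md (sp : JL F n) := (hR.md 0 hb.z).trans hN.f0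
    simp only [md, jc, jv, cb, Pi.sub_apply, Pi.mul_apply, Finset.sum_apply, Sum.elim_inr, ite_mul,
      zero_mul, Finset.sum_ite_eq', Finset.mem_univ, if_true, e4, Pi.smul_apply, smul_eq_mul] at e5 ⊢
    rw [e5, e3]
    ring
  · funext ω k
    have hw := Pl.wt_ising (F.J ω.1) (F.y ω.1)
    have e1 : ∀ m, F.me (ev X (dx m (G v) - lift F (N.a v m))) ω.1 =
        F.me (ev X (dx m (G v))) ω.1 - F.me (ev X (lift F (N.a v m))) ω.1 := fun m => by
      simp only [Fam.me, Fam.E, ← SL.mean_sub, ← Uw.eta_sub]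
      rfl
    rw [Pi.sub_apply, X_eq hR hv, ← S_eq hR hv (N.E (md (G v)))]
    have e2 : ∀ c : Ix n → ℝ, E.mean (F.w ω.1) (fun x => ∑ m, c m * ev X (G m) ⟨ω.1, x⟩ k) =
        ∑ m, c m * E.mean (F.w ω.1) fun x => ev X (G m) ⟨ω.1, x⟩ k := fun c => by
      rw [SL.mean_sum]; simp only [SL.mean_const_mul]
    rw [ev]
    simp only [Finset.sum_apply, Pi.mul_apply, Pi.sub_apply, Pi.add_apply, Pi.smul_apply, jc, jv, cb,
      Sum.elim_inl, e1, Zf, cen, Fam.EV, E.meanV, SL.mean_sub, smul_eq_mul, e2, sub_mul, mul_sub,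
      Finset.sum_sub_distrib]
    simp only [ev]
    ring

end Crest.Agent.T157.S3R

end
end

-- ▼ part T157/S3RStep_60
section

/-! S3, realisation of a model network (helper60): placing one more node. -/

set_option autoImplicit false

noncomputable section

namespace Crest.Agent.T157.S3R

open MeasureTheory Matrix Set Function
open Crest.Agent.T157.S3 (Fam)
open Crest.Agent.T157.S3P (PF Prog Sm bF)
open Crest.Agent.T157.Nt (Fj Fn Ix BS dx gs sp co cb res th rf Ev Net Tl)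
open scoped MatrixOrder

namespace St60

variable {F : Fam} {ν : Measure ℝ} {n : ℕ} {σ σ' σ'' : Sta F ν} {N : Net n}
  {e : Ix n → Ix σ.m} {D T : Set (Ix n)} {X X' : Ix n → F.Vf} {j : Ix σ.m → Ix σ'.m}

lemma le_rfl' (σ : Sta F ν) : σ.Le σ id :=
  ⟨injective_id, rfl, fun _ => rfl, fun _ _ => rfl, fun _ => Iff.rfl, fun _ => rfl,
    fun _ _ => rfl, fun _ => rfl⟩

lemma le_tr {j' : Ix σ'.m → Ix σ''.m} (h : σ.Le σ' j) (h' : σ'.Le σ'' j') : σ.Le σ'' (j' ∘ j) :=
  ⟨h'.inj.comp h.inj, by simp [h.zero, h'.zero], fun t => (h'.X _).trans (h.X t),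
    fun θ t => (h'.cv _ _).trans (h.cv θ t), fun t => (h'.pm _).trans (h.pm t),
    fun t => (h'.sg _).trans (h.sg t), fun t t' => (h'.S _ _).trans (h.S t t'),
    fun t => by rw [Function.comp_apply, h'.f, h.f]; rfl⟩

lemma ct_le (h : σ.Le σ' j) {G : JL F n} {φ : PF σ.m} (hc : σ.Ct e T G φ) {e' : Ix n → Ix σ'.m}
    {T' : Set (Ix n)} (hT : T ⊆ T') (he : ∀ u ∈ T, e' u = j (e u)) : σ'.Ct e' T' G (res j φ) :=
  fun θ s η ξ h1 h2 => hc θ s (η ∘ j) ξ (fun t ht => (h1 _ ((h.pm t).2 ht)).trans (h.cv θ t))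
    fun u hu => by rw [h2 u (hT hu), he u hu]; rfl

lemma bs_le (h : σ.Le σ' j) (hb : Bs N σ e D X) : Bs N σ' (j ∘ e) D X :=
  ⟨hb.z, by rw [Function.comp_apply, hb.e0, h.zero], h.inj.comp_injOn hb.inj,
    fun u hu hm => hb.re u hu ((h.pm _).1 hm), fun u hu v hv => (h.S _ _).trans (hb.S u hu v hv),
    fun u hu => (hb.X u hu).trans (h.X _).symm⟩

lemma ct_rep (hb : Bs N σ e D X) (hT : T ⊆ D) {G : JL F n} {φ : PF σ.m} (hc : σ.Ct e T G φ)
    (θ : Pt F) : ∃ η : (Ix n → ℝ) → Ix σ.m → ℝ, Continuous η ∧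
      (∀ ξ ξ', (∀ u ∈ T, ξ u = ξ' u) → η ξ = η ξ') ∧ ∀ s ξ, G θ s ξ = φ (bv F θ) s (η ξ) := by
  classical
  refine ⟨fun ξ t => if h : ∃ u ∈ T, e u = t then ξ h.choose else σ.cv θ t,
    continuous_pi fun t => ?_, fun ξ ξ' h => funext fun t => ?_,
    fun s ξ => (hc θ s _ ξ (fun t ht => ?_) fun u hu => ?_).symm⟩
  · split_ifs
    exacts [continuous_apply _, continuous_const]
  · beta_reduce
    split_ifs with h'
    exacts [h _ h'.choose_spec.1, rfl]
  · exact dif_neg fun ⟨u, hu, h⟩ => hb.re u (hT hu) (h ▸ ht)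
  · have h' : ∃ v ∈ T, e v = e u := ⟨u, hu, rfl⟩
    beta_reduce
    rw [dif_pos h', hb.inj (hT h'.choose_spec.1) (hT hu) h'.choose_spec.2]

lemma ct_on (hb : Bs N σ e D X) (hT : T ⊆ D) {G : JL F n} {φ : PF σ.m} (hc : σ.Ct e T G φ) :
    On D G := fun θ s ξ ξ' h => by
  obtain ⟨η, -, h1, h2⟩ := ct_rep hb hT hc θ
  rw [h2, h2, h1 ξ ξ' fun u hu => h u (hT hu)]

lemma ct_eb (L : Tl) (hb : Bs N σ e D X) (hT : T ⊆ D) {G : JL F n} {φ : PF σ.m}
    (hc : σ.Ct e T G φ) (hφ : Sm φ) : σ.Eb φ = N.E (md G) := by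
  classical
  funext b
  let M : Matrix (Ix n) (Ix σ.m) ℝ := fun u => if u ∈ D then Pi.single (e u) 1 else 0
  have hM : ∀ ξ u, u ∈ D → (M *ᵥ ξ) u = ξ (e u) := fun ξ u hu => by
    simp [M, mulVec, hu]
  obtain ⟨η, c1, -, c2⟩ := ct_rep hb hT hc (.inr b)
  have h1 : σ.Eb φ b = S3L.mdl σ.M 0 b fun s ξ => md G b s (M *ᵥ ξ) := by
    refine S3I.mdl_congr_rows σ.M 0 b (ψ := fun s ξ => φ b s (ξ + σ.cM b)) fun s ξ hξ =>
      hc (.inr b) s (ξ + σ.cM b) (M *ᵥ ξ) (fun t ht => ?_) fun u hu => ?_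
    · rw [Pi.add_apply, hξ t (by
        rw [σ.mod.S, σ.pm t ht, mul_zero, S3I.Eb_zero]; simp), zero_add]; rfl
    · obtain ⟨g1, g2, -⟩ := σ.re _ (hb.re u (hT hu))
      rw [hM _ u (hT hu), Pi.add_apply, σ.mod.c, g1, g2, S3I.Eb_zero]; simp
  have x1 := L.ex ℝ (Ix σ.m) (Fin σ.r)
  rw [h1, x1.eq, x1.pb σ.M (S3I.pr D N.A) M 0 0 _ (md G b) ?_ (by simp [M, hb.z, hb.e0])
    fun s => ?_, ← (L.ex ℝ (Ix n) (Ix n)).eq]
  · exact S3I.mdl_pr _ _ _ hb.z fun s x y h => ct_on hb hT hc _ s x y h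
  · ext u v
    rw [S3I.pr_gram, Matrix.mul_assoc]
    change _ = (M *ᵥ fun t => σ.S t ⬝ᵥ M v) u
    by_cases hu : u ∈ D
    · rw [hM _ u hu, dotProduct_comm]
      change _ = (M *ᵥ σ.S (e u)) v
      by_cases hv : v ∈ D
      · rw [hM _ v hv, if_pos ⟨hu, hv⟩, hb.S u hu v hv]; rfl
      · simp [M, mulVec, hv]
    · simp [M, mulVec, hu]
  · rw [show md G b s = fun ξ => φ b s (η ξ) from funext (c2 s)]
    exact ((hφ.diff b s).continuous.comp c1).measurable

lemma fa_lift (L : Tl) (hb : Bs N σ e D X) (hT : T ⊆ D) {H : Fn (Ix n)} (h : BS H) (ho : On T H)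
    (hr : rf H = -H) : σ.Fa e T (-1) (lift F H) := fun σ' j hj => by
  refine ⟨σ', id, le_rfl' σ', fun t _ => ⟨t, rfl⟩, res (j ∘ e) H, fun s k => ?_,
    Or.inr fun b s ξ => ?_, fun θ s η ξ _ h2 => ho _ s _ _ fun u hu => (h2 u hu).symm⟩
  · refine (L.bs _).iter ?_ k s
    rw [(L.dx ℝ _).res]
    exact (L.bs _).pb _ h
  · rw [neg_one_mul]
    refine Eq.trans (ho _ _ _ (-(ξ ∘ j ∘ e)) fun u hu => ?_)
      (congrFun (congrFun (congrFun hr b) s) (ξ ∘ j ∘ e))
    simp [hj.sg, (σ.re _ (hb.re u (hT hu))).2.2]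

lemma bl {m : ℕ} {φ : PF m} (h : Sm φ) : S3I.BL φ := by
  obtain ⟨A, a0, hA⟩ := h.bd
  obtain ⟨B, b0, hB⟩ := h.taylor
  refine ⟨A + B * (m + 1) + 1, by positivity, fun b s ξ => (hA b s ξ).trans (by
    have : 0 ≤ B * (m + 1) := by positivity
    linarith), fun b b' s ξ ξ' => (hB b' b s ξ' ξ).1.trans ?_⟩
  have h1 : ∑ m, |ξ m - ξ' m| ≤ (m + 1) * Conc.en (ξ - ξ') := by
    simpa using Finset.sum_le_card_nsmul Finset.univ _ _ fun m _ => Conc.abs_le_en (ξ - ξ') m
  have h2 := Conc.en_nonneg (ξ - ξ')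
  have h3 := abs_nonneg (b - b')
  nlinarith [mul_le_mul_of_nonneg_left h1 b0, mul_nonneg b0 h3, mul_nonneg a0 h3, mul_nonneg a0 h2,
    mul_nonneg (mul_nonneg b0 h3) (Nat.cast_nonneg (α := ℝ) m)]

lemma pg (σ : Sta F ν) : S3I.Pg σ.P.f σ.P.g σ.P.g' σ.sg where
  bl l := ⟨bl (σ.ok.sf l), bl (σ.ok.sg l), bl (σ.ok.sg' l)⟩
  dep l b := ⟨σ.ok.rf l b, σ.ok.rg l b, σ.ok.rg' l b⟩
  par l := ⟨fun b s ξ => (σ.par.f l b s ξ).trans (neg_one_mul _).symm, σ.par.g l,
    fun b s ξ => (σ.par.g' l b s ξ).trans (one_mul _).symm⟩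
  sgn l := (σ.par.pm l).imp (fun e => ⟨e, σ.par.ev l e⟩) fun e => ⟨e, σ.par.od l e⟩

lemma cv_comm (φ ψ : PF σ.m) : σ.Cv φ ψ = σ.Cv ψ φ := by
  simp only [Sta.Cv, mul_comm φ, mul_comm (σ.Eb φ _)]

/-- the Gram row of a new node -/
lemma exists_row [IsProbabilityMeasure ν] (σ : Sta F ν) {φ : PF σ.m} (hφ : Sm φ) :
    ∃ (r : ℕ) (M : Matrix (Ix σ.m) (Fin r) ℝ) (row : Fin r → ℝ), M * Mᵀ = σ.S ∧
      (∀ t, (M *ᵥ row) t = σ.Cv φ (σ.P.f t)) ∧ row ⬝ᵥ row = σ.Cv φ φ := by
  let f : Fin (σ.m + 2) → PF σ.m := Fin.cons φ σ.P.f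
  have hf : ∀ i, S3I.BL (f i) := Fin.cases (bl hφ) fun t => bl (σ.ok.sf t)
  have int : ∀ ψ, S3I.BL ψ → MemLp (σ.Eb ψ) 2 ν := fun ψ h =>
    let ⟨Λ, _, hb, _⟩ := id h
    .of_bound (σ.mod.Eb_cont (pg σ) h).aestronglyMeasurable Λ
      (ae_of_all _ (S3I.abs_Eb_le _ _ _ hb))
  have int2 : ∀ i k, Integrable (fun b => σ.Eb (f i * f k) b - σ.Eb (f i) b * σ.Eb (f k) b) ν :=
    fun i k => ((int _ ((hf i).mul (hf k))).integrable one_le_two).sub
      ((int _ (hf i)).integrable_mul (int _ (hf k)))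
  let S : Matrix (Fin (σ.m + 2)) (Fin (σ.m + 2)) ℝ := fun i k => σ.Cv (f i) (f k)
  have hS : S.PosSemidef := by
    refine PosSemidef.of_dotProduct_mulVec_nonneg ?_ fun v => ?_
    · ext i k
      rw [conjTranspose_apply, star_trivial]
      exact cv_comm _ _
    · have e : star v ⬝ᵥ S *ᵥ v = F.β ^ 2 * ∫ b, ∑ i, ∑ k, v i * v k *
          (σ.Eb (f i * f k) b - σ.Eb (f i) b * σ.Eb (f k) b) ∂ν := by
        rw [integral_finsetSum _ fun i _ => integrable_finsetSum _ fun k _ =>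
          (int2 i k).const_mul _, Finset.mul_sum]
        refine Finset.sum_congr rfl fun i _ => ?_
        rw [integral_finsetSum _ fun k _ => (int2 i k).const_mul _, Finset.mul_sum, mulVec,
          dotProduct, Finset.mul_sum]
        refine Finset.sum_congr rfl fun k _ => ?_
        rw [integral_const_mul]
        simp only [star_trivial, S, Sta.Cv]; ring
      rw [e]
      exact mul_nonneg (sq_nonneg _) (integral_nonneg fun b => S3I.gram_nonneg _ _ _ hf v b)
  obtain ⟨B, hB⟩ := CStarAlgebra.nonneg_iff_eq_star_mul_self.1 hS.nonneg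
  have h : ∀ i k, Bᵀ i ⬝ᵥ Bᵀ k = σ.Cv (f i) (f k) := fun i k =>
    (congrFun (congrFun hB i) k).symm
  exact ⟨σ.m + 2, fun t => Bᵀ t.succ, Bᵀ 0, by
    ext t t'
    exact (h _ _).trans (σ.mod.S t t').symm, fun t => (h _ _).trans (cv_comm _ _), h 0 0⟩

/-! ### letters that read the placed nodes only -/

section rd
variable {J : Type} {G H : Fj J (Ix n)}

lemma on_mul (h : On D G) (h' : On D H) : On D (G * H) := fun θ s x y e => by
  rw [Pi.mul_apply, Pi.mul_apply, Pi.mul_apply, h θ s x y e, h' θ s x y e]; rfl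

lemma on_gs (h : On D G) : On D (gs G) := fun θ s x y e => by
  simp only [gs, h θ _ x y e]

lemma on_dx (h : On D G) (r : Ix n) : On D (dx r G) := fun θ s ξ ξ' e => by
  have : (fun v => G θ s (ξ + v)) = fun v => G θ s (ξ' + v) :=
    funext fun v => h θ s _ _ fun m hm => by simp [e m hm]
  have h1 := fderiv_comp_add_left (𝕜 := ℝ) (f := G θ s) (x := 0) ξ
  have h2 := fderiv_comp_add_left (𝕜 := ℝ) (f := G θ s) (x := 0) ξ'
  rw [add_zero] at h1 h2
  rw [dx, dx, ← h1, ← h2, this]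

lemma dx_off (h : On D G) {r : Ix n} (hr : r ∉ D) : dx r G = 0 := by
  funext θ s ξ
  by_cases hd : DifferentiableAt ℝ (G θ s) ξ
  · have h1 := hd.hasFDerivAt.hasLineDerivAt (Pi.single r 1)
    have h2 : (fun t : ℝ => G θ s (ξ + t • (Pi.single r 1 : Ix n → ℝ))) = fun _ => G θ s ξ :=
      funext fun t => h θ s _ _ fun k hk => by simp [(ne_of_mem_of_not_mem hk hr)]
    rw [HasLineDerivAt, h2] at h1
    exact h1.unique (hasDerivAt_const _ _)
  · simp [dx, fderiv_zero_of_not_differentiableAt hd]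

lemma on_mono {D' : Set (Ix n)} (h : On D G) (hD : D ⊆ D') : On D' G :=
  fun θ s x y e => h θ s x y fun u hu => e u (hD hu)

end rd

lemma on_lift {H : Fn (Ix n)} (h : On D H) : On D (lift F H) := fun _ => h _

lemma ev_congr {G : JL F n} (h : On D G) (hX : ∀ u ∈ D, X' u = X u) : ev X' G = ev X G :=
  funext fun _ => funext fun _ => h _ _ _ _ fun u hu => by rw [hX u hu]

lemma me_zero (X : Ix n → F.Vf) (i : F.I) : F.me (ev X 0) i = 0 := by
  simp [Fam.me, Fam.E, ev, Uw.eta, E.mean]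

lemma lift_zero : lift F (0 : Fn (Ix n)) = 0 := rfl

variable {G G' : Ix n → JL F n} {π π' : Ix n → Ix n → F.I → ℝ}

lemma tA_congr (hX : ∀ u ∈ D, X' u = X u) (hπ : ∀ v ∈ D, ∀ p ∈ D, π' v p = π v p)
    {Z Z' : Ix n → F.Vf} (hZ : ∀ u ∈ D, Z' u = Z u) {al : Fn (Ix n)} {a : Ix n → Fn (Ix n)}
    (h1 : On D al) (h2 : ∀ v, On D (a v) ∧ (v ∉ D → a v = 0)) :
    tA X' π' Z' al a = tA X π Z al a := by
  funext ω
  have z : ∀ (Y : Ix n → F.Vf), ev Y 0 ω = 0 := fun _ => rfl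
  simp only [tA, ev_congr (on_lift h1) hX, fun v => ev_congr (on_lift (h2 v).1) hX,
    fun v p => ev_congr (on_dx (on_lift (F := F) (h2 v).1) p) hX]
  congr 2
  · refine Finset.sum_congr rfl fun m _ => ?_
    by_cases hm : m ∈ D
    · rw [hZ m hm]
    · rw [(h2 m).2 hm, lift_zero, z, zero_mul, zero_mul]
  · funext m
    refine Finset.sum_congr rfl fun p _ => ?_
    by_cases hp : p ∈ D
    · by_cases hm : m ∈ D
      · rw [hπ m hm p hp]
      · rw [(h2 m).2 hm, lift_zero, dx_off (D := ∅) (fun _ _ _ _ _ => rfl) (notMem_empty p), z,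
          smul_zero, smul_zero]
    · rw [dx_off (on_lift (h2 m).1) hp, z, smul_zero, smul_zero]

end St60

open St60

theorem stepStmt (L : Tl) (hA : AppStmt) (hFl : FlowStmt) : StepStmt := by
  intro F ν _ n N σ e D X G π hN hR w hw hI
  classical
  have b := hR.bs
  have w0 : (0 : Ix n) < w := Fin.pos_iff_ne_zero.2 fun h => hw (h ▸ b.z)
  have ne : ∀ u ∈ D, u ≠ w := fun u hu => ne_of_mem_of_not_mem hu hw
  have hT : D ∩ Iio w ⊆ D := inter_subset_left
  have rd : ∀ {H : Fn (Ix n)}, Nt.Rd w H → On (D ∩ Iio w) H :=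
    fun h b s x y e => h b s x y fun m hm => e m ⟨hI hm, hm⟩
  have a0 : ∀ v ∉ D ∩ Iio w, N.a w v = 0 := fun v hv =>
    hN.tri w v (not_lt.1 fun h => hv ⟨hI h, h⟩)
  obtain ⟨H, h1, h2, h3⟩ : ∃ H, σ.Fa e (D ∩ Iio w) (-1) H ∧ md H = N.f w ∧
      (N.dr w → ev X H = tA X π (Zf N X G) (N.al w) (N.a w)) := by
    by_cases hd : N.dr w
    · obtain ⟨A, a1, a2, a3⟩ := hFl F ν n N σ e D X G π hN hR _ hT ⟨b.z, w0⟩
        (fun v hv u hu => ⟨hu.1, mem_Iio.2 (lt_trans hu.2 hv.2)⟩) (N.al w) (N.a w) 1 (hN.fl w)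
        (rd (hN.rd' w).1) (fun v => rd ((hN.rd' w).2 v)) a0
        (Or.inr ⟨by rw [one_smul, (hN.ev w).1], fun v => by rw [one_smul, (hN.ev w).2]⟩)
      exact ⟨A, a1, a2.trans (hN.drf w hd).2.symm, fun _ => a3⟩
    · exact ⟨_, fa_lift L b hT (hN.bs w) (rd (hN.rd w)) (hN.od w), rfl, fun h => absurd h hd⟩
  obtain ⟨σ1, j1, l1, p1, φ, s1, s2, s3⟩ := h1 σ id (le_rfl' σ)
  obtain ⟨r, M, row, m1, m2, m3⟩ := exists_row σ1 s1
  obtain ⟨σ', j2, t, l2, t1, t2, t3, -, t4, -, -, t5, t6⟩ := hA F ν σ1 φ 0 0 (-1) r M row False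
    s1 .zero .zero s2 (Or.inr fun _ _ _ => by simp) (Or.inr fun _ _ _ => by simp)
    (Or.inr ⟨rfl, rfl⟩) False.elim (fun _ => ⟨rfl, rfl, rfl⟩) m1 m2 m3
  have l := le_tr l1 l2
  have b1 := bs_le l1 b
  have b' := bs_le l b
  set e' := update ((j2 ∘ j1) ∘ e) w t with he'
  set X' := update X w (σ'.X t) with hX'
  set G' := update G w H with hG'
  have e1 : ∀ u ∈ D, e' u = j2 (j1 (e u)) := fun u hu => update_of_ne (ne u hu) _ _
  have e2 : e' w = t := update_self ..
  have x1 : ∀ u ∈ D, X' u = X u := fun u hu => update_of_ne (ne u hu) _ _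
  have g1 : ∀ u ∈ D, G' u = G u := fun u hu => update_of_ne (ne u hu) _ _
  have g2 : G' w = H := update_self ..
  have oG : ∀ u ∈ D, On D (G u) := fun u hu => ct_on b inter_subset_left (hR.ct u hu)
  have oH : On D H := ct_on b1 hT s3
  obtain ⟨π', hπ⟩ := S3.Ex98.tri_ex (α := Ix n → F.I → ℝ) wellFounded_lt
    (fun v u p => piR N X' G' u v p) fun v u u' h => by
      funext p i
      exact congrArg _ (S3.Ex98.sum_lt (fun q hq => by rw [h q hq]) fun q hq => by
        simp [hN.tri v q hq, lift_zero, me_zero])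
  have π1 : ∀ v ∈ D, ∀ p ∈ D, π' v p = π v p := fun v => by
    induction v using WellFoundedLT.induction with
    | ind v ih =>
      intro hv p hp
      funext i
      rw [hπ, hR.pi v hv p hp]
      have o1 : On D (1 - sp * lift F (th 0) : JL F n) := fun θ s x y h => by
        simp [lift, th, sp, h 0 b.z]
      simp only [piR, g1 p hp, ev_congr (on_mul (on_mul (on_lift (hR.cl v hv).1) o1)
        (on_gs (oG p hp))) x1,
        fun q r => ev_congr (on_mul (on_lift ((hR.cl v hv).2 q).1) (on_dx (oG p hp) r)) x1]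
      congr 1
      refine Finset.sum_congr rfl fun q _ => Finset.sum_congr rfl fun r _ => ?_
      by_cases hr : r ∈ D
      · by_cases hq : N.a v q = 0
        · simp [hq, lift_zero, me_zero]
        · rw [ih q (not_le.1 fun h => hq (hN.tri v q h))
            (of_not_not fun h => hq (((hR.cl v hv).2 q).2 h)) r hr]
      · simp [dx_off (oG p hp) hr, me_zero]
  have Z1 : ∀ u ∈ D, Zf N X' G' u = Zf N X G u := fun u hu => by
    unfold Zf
    congr 1
    funext ω
    rw [g1 u hu, ev_congr (oG u hu) x1]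
    congr 1
    refine Finset.sum_congr rfl fun m _ => ?_
    by_cases hm : m ∈ D
    · rw [g1 m hm, ev_congr (oG m hm) x1, ev_congr (on_lift ((hR.cl u hu).2 m).1) x1]
    · simp [((hR.cl u hu).2 m).2 hm, lift_zero, me_zero]
  have gram : ∀ {A B : JL F n} {φ ψ : PF σ1.m} {u v : Ix n}, σ1.Ct (j1 ∘ e) D A φ →
      σ1.Ct (j1 ∘ e) D B ψ → Sm φ → Sm ψ → md A = N.f u → md B = N.f v → σ1.Cv φ ψ = N.S u v :=
    fun {A B φ ψ u v} c1 c2 k1 k2 d1 d2 => by
      have c3 : σ1.Ct (j1 ∘ e) D (A * B) (φ * ψ) := fun θ s η ξ q1 q2 => by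
        simp only [Pi.mul_apply, c1 θ s η ξ q1 q2, c2 θ s η ξ q1 q2]
      rw [Sta.Cv, ct_eb L b1 subset_rfl c1 k1, ct_eb L b1 subset_rfl c2 k2,
        ct_eb L b1 subset_rfl c3 (k1.mul k2), show md (A * B) = md A * md B from rfl, d1, d2, hN.gr]
      rfl
  have c1 : σ1.Ct (j1 ∘ e) D H φ := ct_le (le_rfl' σ1) s3 hT fun _ _ => rfl
  have c2 : ∀ v ∈ D, σ1.Ct (j1 ∘ e) D (G v) (σ1.P.f (j1 (e v))) := fun v hv =>
    l1.f _ ▸ ct_le l1 (hR.ct v hv) inter_subset_left fun _ _ => rfl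
  have S1 : ∀ v ∈ D, σ'.S t (j2 (j1 (e v))) = N.S w v := fun v hv => by
    rw [t5, m2, gram c1 (c2 v hv) s1 (σ1.ok.sf _) h2 (hR.md v hv)]
  have sy : ∀ {k l : ℕ} (A : Matrix (Ix k) (Fin l) ℝ) u v, (A * Aᵀ) u v = (A * Aᵀ) v u :=
    fun A u v => by simp only [Matrix.mul_apply, transpose_apply, mul_comm]
  have sub : D ⊆ insert w D := subset_insert w D
  have clw : On D (N.al w) ∧ ∀ v, On D (N.a w v) ∧ (v ∉ D → N.a w v = 0) :=
    ⟨on_mono (rd (hN.rd' w).1) hT, fun v =>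
      ⟨on_mono (rd ((hN.rd' w).2 v)) hT, fun hv => a0 v fun h => hv h.1⟩⟩
  refine ⟨σ', j2 ∘ j1, e', X', G', π', ⟨⟨sub b.z, (e1 0 b.z).trans b'.e0, ?_, ?_, ?_, ?_⟩,
    fun t' ht' => ?_, ?_, ?_, fun u hu => ?_, fun v _ p _ => congrFun (hπ v) p, ?_⟩, l, e1⟩
  · refine (injOn_insert hw).2 ⟨(b'.inj.congr fun u hu => (e1 u hu).symm), ?_⟩
    rintro ⟨u, hu, h⟩
    exact t1 ⟨_, (e1 u hu).symm.trans (h.trans e2)⟩
  · rintro u (rfl | hu)
    · rw [e2]; exact t3.1
    · rw [e1 u hu]; exact b'.re u hu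
  · rintro u (rfl | hu) v (rfl | hv)
    · rw [e2, t6, m3, gram c1 c1 s1 s1 h2 h2]
    · rw [e2, e1 v hv, S1 v hv]
    · rw [e2, e1 u hu]
      exact (sy σ'.M _ _).trans ((S1 u hu).trans (sy N.A _ _))
    · rw [e1 u hu, e1 v hv]; exact b'.S u hu v hv
  · rintro u (rfl | hu)
    · rw [e2]; exact update_self ..
    · rw [x1 u hu, e1 u hu]; exact b'.X u hu
  · rcases t2 t' with ⟨t1', rfl⟩ | rfl
    · obtain ⟨t0, rfl⟩ := p1 t1' fun h => ht' ((l2.pm _).2 h)
      obtain ⟨u, hu, rfl⟩ := hR.sur t0 fun h => ht' ((l.pm _).2 h)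
      exact ⟨u, sub hu, e1 u hu⟩
    · exact ⟨w, mem_insert _ _, e2⟩
  · rintro u (rfl | hu)
    · rw [e2, t4, g2]
      exact ct_le l2 s3 (inter_subset_inter_left _ sub) fun v hv => e1 v hv.1
    · rw [e1 u hu, g1 u hu, show j2 (j1 (e u)) = (j2 ∘ j1) (e u) from rfl, l.f]
      exact ct_le l (hR.ct u hu) (inter_subset_inter_left _ sub) fun v hv => e1 v hv.1
  · rintro u (rfl | hu)
    · rw [g2, h2]
    · rw [g1 u hu, hR.md u hu]
  · have : On D (N.al u) ∧ ∀ v, On D (N.a u v) ∧ (v ∉ D → N.a u v = 0) := by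
      rcases hu with rfl | hu
      exacts [clw, hR.cl u hu]
    exact ⟨on_mono this.1 sub, fun v =>
      ⟨on_mono (this.2 v).1 sub, fun hv => (this.2 v).2 fun h => hv (sub h)⟩⟩
  · rintro u (rfl | hu) hd
    · rw [g2, ev_congr oH x1, h3 hd, tA_congr x1 π1 Z1 clw.1 clw.2]
    · rw [g1 u hu, ev_congr (oG u hu) x1, hR.dr u hu hd,
        tA_congr x1 π1 Z1 (hR.cl u hu).1 (hR.cl u hu).2]

end Crest.Agent.T157.S3R

end
end

-- ▼ part T157/S3RTr_75

/-! S3, realisation: transport along an extension of the model network (helper75). -/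

set_option autoImplicit false
set_option linter.unusedVariables false

noncomputable section

namespace Crest.Agent.T157.S3R

open MeasureTheory Matrix Set Function
open Crest.Agent.T157.S3 (Fam)
open Crest.Agent.T157.Nt (Fj Fn Ix BS dx gs sp co cb res th rf Ev Net)
open Crest.Agent.T157.Nt.Lift66 (sum_range ext_off dx_res dx_res_off)

namespace Tr75

variable {F : Fam} {n n' : ℕ} {N : Net n} {N' : Net n'} {ι : Ix n → Ix n'} {X : Ix n → F.Vf}
  {G : Ix n → JL F n} {π : Ix n → Ix n → F.I → ℝ}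

def Xe (ι : Ix n → Ix n') (X : Ix n → F.Vf) : Ix n' → F.Vf := extend ι X 0
def Ge (ι : Ix n → Ix n') (G : Ix n → JL F n) : Ix n' → JL F n' := extend ι (fun u => res ι (G u)) 0
def πe (ι : Ix n → Ix n') (π : Ix n → Ix n → F.I → ℝ) : Ix n' → Ix n' → F.I → ℝ :=
  extend ι (fun v => extend ι (π v) 0) 0

theorem Xe_ap (hι : Injective ι) (u : Ix n) : Xe ι X (ι u) = X u := hι.extend_apply _ _ _
theorem Ge_ap (hι : Injective ι) (u : Ix n) : Ge ι G (ι u) = res ι (G u) := hι.extend_apply _ _ _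
theorem πe_ap (hι : Injective ι) (u v : Ix n) : πe ι π (ι u) (ι v) = π u v := by
  rw [πe, hι.extend_apply, hι.extend_apply]
theorem πe_l {u : Ix n'} (hu : u ∉ range ι) (v : Ix n') : πe ι π u v = 0 := by
  rw [πe, ext_off _ hu]; rfl
theorem πe_r (hι : Injective ι) (u : Ix n) {v : Ix n'} (hv : v ∉ range ι) : πe ι π (ι u) v = 0 := by
  rw [πe, hι.extend_apply, ext_off _ hv]

theorem ev_res (hι : Injective ι) (H : JL F n) : ev (Xe ι X) (res ι H) = ev X H := by
  funext ω k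
  simp only [ev, res, Function.comp_def, Xe_ap hι]

theorem ev_zero (Y : Ix n' → F.Vf) : ev Y (0 : JL F n') = 0 := rfl

theorem lift_res (H : Fn (Ix n)) : lift F (res ι H) = res ι (lift F H) := rfl

theorem Zf_res (h : N.Ext N' ι) (v : Ix n) : Zf N' (Xe ι X) (Ge ι G) (ι v) = Zf N X G v := by
  have hι := h.mono.injective
  rw [Zf, Zf]
  congr 1
  funext ω
  rw [sum_range hι fun l hl => by rw [Ge, ext_off _ hl, ev_zero, Pi.zero_apply, smul_zero]]
  simp only [Ge_ap hι, h.a, lift_res, ev_res hι]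

theorem piR_res (h : N.Ext N' ι) (v p : Ix n) :
    piR N' (Xe ι X) (Ge ι G) (πe ι π) (ι v) (ι p) = piR N X G π v p := by
  have hι := h.mono.injective
  funext i
  rw [piR, piR, sum_range hι fun l hl => by simp [πe_l hl]]
  congr 1
  · rw [← ev_res hι, h.al, Ge_ap hι, ← h.zero]; rfl
  · refine Finset.sum_congr rfl fun q _ => ?_
    rw [sum_range hι fun l hl => by simp [πe_r hι q hl]]
    refine Finset.sum_congr rfl fun r _ => ?_
    rw [πe_ap hι, ← ev_res hι, h.a, Ge_ap hι, dx_res hι]; rfl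

theorem tA_res (h : N.Ext N' ι) (u : Ix n) :
    tA (Xe ι X) (πe ι π) (Zf N' (Xe ι X) (Ge ι G)) (N'.al (ι u)) (N'.a (ι u)) =
      tA X π (Zf N X G) (N.al u) (N.a u) := by
  have hι := h.mono.injective
  funext ω
  rw [tA, tA, sum_range hι fun l hl => by
      rw [h.a0 u l hl, show lift F (0 : Fn (Ix n')) = 0 from rfl, ev_zero, Pi.zero_apply, zero_mul],
    sum_range hι (g := fun m => ∑ p, πe ι π m p ω.1 • ev (Xe ι X) (dx p (lift F (N'.a (ι u) m))) ω)
      fun l hl => by simp [πe_l hl]]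
  simp only [h.al, h.a, lift_res, ev_res hι, Zf_res h]
  congr 1
  refine Finset.sum_congr rfl fun q _ => ?_
  rw [sum_range hι fun l hl => by simp [πe_r hι q hl]]
  simp only [πe_ap hι, dx_res hι, ev_res hι]

theorem on_res {J : Type} (H : Fj J (Ix n)) : On (range ι) (res ι H) := fun θ s x x' e => by
  have : x ∘ ι = x' ∘ ι := funext fun u => e _ ⟨u, rfl⟩
  simp only [res, this]

end Tr75

open Tr75

theorem trStmt : TrStmt := by
  intro F ν _ n N σ e D X G π hN h hD n' N' ι hx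
  subst hD
  have hι := hx.mono.injective
  have he : ∀ u, extend ι e (fun _ => 0) (ι u) = e u := fun u => hι.extend_apply _ _ _
  refine ⟨extend ι e fun _ => 0, Xe ι X, Ge ι G, πe ι π, ⟨⟨⟨0, hx.zero⟩, ?_, ?_, ?_, ?_, ?_⟩,
    fun t ht => ?_, ?_, ?_, ?_, ?_, ?_⟩, he⟩
  · rw [← hx.zero, he, h.bs.e0]
  · rintro _ ⟨u, rfl⟩ _ ⟨v, rfl⟩ huv
    rw [he, he] at huv
    rw [h.bs.inj trivial trivial huv]
  · rintro _ ⟨u, rfl⟩
    rw [he]; exact h.bs.re u trivial
  · rintro _ ⟨u, rfl⟩ _ ⟨v, rfl⟩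
    rw [he, he, h.bs.S u trivial v trivial, ← hx.S]; rfl
  · rintro _ ⟨u, rfl⟩
    rw [he, Xe_ap hι]; exact h.bs.X u trivial
  · obtain ⟨u, -, hu⟩ := h.sur t ht
    exact ⟨ι u, ⟨u, rfl⟩, (he u).trans hu⟩
  · rintro _ ⟨u, rfl⟩ θ s η ξ h1 h2
    rw [he, Ge_ap hι]
    exact h.ct u trivial θ s η (ξ ∘ ι) h1 fun v hv =>
      (h2 (ι v) ⟨⟨v, rfl⟩, hx.mono hv.2⟩).trans (congrArg η (he v))
  · rintro _ ⟨u, rfl⟩
    rw [Ge_ap hι, hx.f, ← h.md u trivial]; rfl
  · rintro _ ⟨u, rfl⟩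
    refine ⟨hx.al u ▸ on_res _, fun v => ⟨?_, hx.a0 u v⟩⟩
    by_cases hv : v ∈ range ι
    · obtain ⟨v, rfl⟩ := hv
      exact hx.a u v ▸ on_res _
    · rw [hx.a0 u v hv]; exact fun _ _ _ _ _ => rfl
  · rintro _ ⟨v, rfl⟩ _ ⟨p, rfl⟩
    rw [πe_ap hι, piR_res hx]; exact h.pi v trivial p trivial
  · rintro _ ⟨u, rfl⟩ hu
    rw [Ge_ap hι, ev_res hι, tA_res hx]; exact h.dr u trivial ((hx.dr u).1 hu)

end Crest.Agent.T157.S3R
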