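import Mathlib
import Crest.Agent.T157.S3Def_69
import Crest.Agent.T157.PlE_37

-- ▼ part T157/S3Cb_65
section

/-!
# Smooth functions with all derivatives bounded (helper65)
-/

set_option autoImplicit false

noncomputable section

namespace Crest.Agent.T157.S3P

open Finset

variable {E E' F G : Type} [NormedAddCommGroup E] [NormedSpace ℝ E] [NormedAddCommGroup E']
  [NormedSpace ℝ E'] [NormedAddCommGroup F] [NormedSpace ℝ F] [NormedAddCommGroup G]
  [NormedSpace ℝ G]

/-- `C^j` with bounded derivative of order `j` -/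
def Cj (j : ℕ) (φ : E → F) : Prop := ContDiff ℝ j φ ∧ ∃ C, ∀ p, ‖iteratedFDeriv ℝ j φ p‖ ≤ C

/-- smooth, all derivatives bounded -/
def Cb (φ : E → ℝ) : Prop := ∀ j, Cj j φ

lemma Cj.add {j : ℕ} {φ ψ : E → F} (h : Cj j φ) (h' : Cj j ψ) : Cj j fun p => φ p + ψ p := by
  obtain ⟨h1, C, hC⟩ := h
  obtain ⟨h2, C', hC'⟩ := h'
  refine ⟨h1.add h2, C + C', fun p => ?_⟩
  rw [fun_iteratedFDeriv_add_apply h1.contDiffAt h2.contDiffAt]
  exact (norm_add_le _ _).trans (add_le_add (hC p) (hC' p))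

lemma Cj.const (j : ℕ) (c : F) : Cj j fun _ : E => c := by
  refine ⟨contDiff_const, ‖c‖, fun p => ?_⟩
  rcases eq_or_ne j 0 with rfl | h
  · simp
  · simp [iteratedFDeriv_const_of_ne h]

lemma Cj.sum {j : ℕ} {ι : Type*} (t : Finset ι) {φ : ι → E → F} (h : ∀ i ∈ t, Cj j (φ i)) :
    Cj j fun p => ∑ i ∈ t, φ i p := by
  classical
  induction t using Finset.induction_on with
  | empty => simpa using Cj.const j (0 : F)
  | insert i t hi ih =>
    simp only [sum_insert hi]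
    exact (h i (mem_insert_self _ _)).add (ih fun k hk => h k (mem_insert_of_mem hk))

lemma Cj.clm {j : ℕ} {φ : E → F} (h : Cj j φ) (L : F →L[ℝ] G) : Cj j fun p => L (φ p) := by
  obtain ⟨h1, C, hC⟩ := h
  exact ⟨L.contDiff.comp h1, ‖L‖ * C, fun p => (L.norm_iteratedFDeriv_comp_left h1.contDiffAt
    le_rfl).trans (mul_le_mul_of_nonneg_left (hC p) (norm_nonneg _))⟩

namespace Cb
variable {φ ψ : E → ℝ}

lemma contDiff (h : Cb φ) (j : ℕ) : ContDiff ℝ j φ := (h j).1
lemma diff (h : Cb φ) : Differentiable ℝ φ := (h.contDiff 1).differentiable (by simp)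
lemma continuous (h : Cb φ) : Continuous φ := h.diff.continuous
lemma bd (h : Cb φ) : ∃ C, ∀ p, |φ p| ≤ C := by simpa using (h 0).2
lemma const (c : ℝ) : Cb fun _ : E => c := fun j => .const j c
lemma add (h : Cb φ) (h' : Cb ψ) : Cb fun p => φ p + ψ p := fun j => (h j).add (h' j)
lemma sum {ι : Type*} (t : Finset ι) {φ : ι → E → ℝ} (h : ∀ i ∈ t, Cb (φ i)) :
    Cb fun p => ∑ i ∈ t, φ i p := fun j => .sum t fun i hi => h i hi j

lemma mul (h : Cb φ) (h' : Cb ψ) : Cb fun p => φ p * ψ p := fun j => by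
  choose C hC using fun i => (h i).2
  choose C' hC' using fun i => (h' i).2
  refine ⟨(h j).1.mul (h' j).1, ∑ i ∈ range (j + 1), (j.choose i : ℝ) * C i * C' (j - i), fun p =>
    (norm_iteratedFDeriv_mul_le (h j).1 (h' j).1 p le_rfl).trans (sum_le_sum fun i _ => ?_)⟩
  have := (norm_nonneg _).trans (hC i p)
  exact mul_le_mul (mul_le_mul_of_nonneg_left (hC i p) (Nat.cast_nonneg _)) (hC' _ p)
    (norm_nonneg _) (by positivity)

lemma const_mul (h : Cb φ) (c : ℝ) : Cb fun p => c * φ p := (const c).mul h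
lemma neg (h : Cb φ) : Cb fun p => -φ p := by simpa using h.const_mul (-1)
lemma sub (h : Cb φ) (h' : Cb ψ) : Cb fun p => φ p - ψ p := by
  simpa only [sub_eq_add_neg] using h.add h'.neg
lemma div_const (h : Cb φ) (c : ℝ) : Cb fun p => φ p / c := by
  simpa only [div_eq_mul_inv] using h.mul (const c⁻¹)
lemma pow (h : Cb φ) (k : ℕ) : Cb fun p => φ p ^ k := by
  induction k with
  | zero => simpa using const 1
  | succ k ih => simpa only [pow_succ] using ih.mul h

/-- directional derivatives -/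
lemma der (h : Cb φ) (v : E) : Cb fun p => fderiv ℝ φ p v := fun j => by
  obtain ⟨h1, C, hC⟩ := h (j + 1)
  have h2 : ContDiff ℝ j (fderiv ℝ φ) := h1.fderiv_right (by simp)
  exact ⟨h2.clm_apply contDiff_const, ‖v‖ * C, fun p => (norm_iteratedFDeriv_clm_apply_const
    h2.contDiffAt le_rfl).trans (mul_le_mul_of_nonneg_left
      (norm_iteratedFDeriv_fderiv.trans_le (hC p)) (norm_nonneg _))⟩

/-- affine changes of variables, with bounds that do not depend on the translation -/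
lemma affine' (h : Cb φ) (L : E' →L[ℝ] E) (j : ℕ) : ∃ C, ∀ c, ContDiff ℝ j (fun q => φ (c + L q)) ∧
    ∀ q, ‖iteratedFDeriv ℝ j (fun q => φ (c + L q)) q‖ ≤ C := by
  obtain ⟨h1, C, hC⟩ := h j
  refine ⟨C * ‖L‖ ^ j, fun c => ?_⟩
  have h2 : ContDiff ℝ j fun p => φ (c + p) := h1.comp (contDiff_const.add contDiff_id)
  refine ⟨h2.comp L.contDiff, fun q => ?_⟩
  rw [show (fun q => φ (c + L q)) = (fun p => φ (c + p)) ∘ L from rfl,
    L.iteratedFDeriv_comp_right h2 q le_rfl, iteratedFDeriv_comp_add_left]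
  refine (ContinuousMultilinearMap.norm_compContinuousLinearMap_le _ _).trans ?_
  rw [prod_const, card_univ, Fintype.card_fin]
  exact mul_le_mul_of_nonneg_right (hC _) (by positivity)

lemma affine (h : Cb φ) (L : E' →L[ℝ] E) (c : E) : Cb fun q => φ (c + L q) := fun j =>
  let ⟨C, hC⟩ := h.affine' L j
  ⟨(hC c).1, C, (hC c).2⟩

lemma clm (h : Cb φ) (L : E' →L[ℝ] E) : Cb fun q => φ (L q) := by simpa using h.affine L 0

/-- coinduction -/
theorem of_closed [FiniteDimensional ℝ E] (S : Set (E → ℝ)) (h : ∀ ψ ∈ S, Differentiable ℝ ψ ∧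
    (∃ C, ∀ p, |ψ p| ≤ C) ∧ ∀ v, (fun p => fderiv ℝ ψ p v) ∈ S) : ∀ ψ ∈ S, Cb ψ := by
  suffices H : ∀ j, ∀ ψ ∈ S, Cj j ψ from fun ψ hψ j => H j ψ hψ
  intro j
  induction j with
  | zero => exact fun ψ hψ => ⟨contDiff_zero.2 (h ψ hψ).1.continuous, by simpa using (h ψ hψ).2.1⟩
  | succ j ih =>
    intro ψ hψ
    let b := Module.finBasis ℝ E
    have h1 : Cj j fun p => ∑ i, (ContinuousLinearMap.toSpanSingleton ℝ
        (LinearMap.toContinuousLinearMap (b.coord i))) (fderiv ℝ ψ p (b i)) :=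
      .sum _ fun i _ => (ih _ ((h ψ hψ).2.2 (b i))).clm _
    have e : (fun p => ∑ i, (ContinuousLinearMap.toSpanSingleton ℝ
        (LinearMap.toContinuousLinearMap (b.coord i))) (fderiv ℝ ψ p (b i))) = fderiv ℝ ψ := by
      ext p v
      conv_rhs => rw [← b.sum_repr v, map_sum]
      simp [mul_comm]
    rw [e] at h1
    obtain ⟨h2, C, hC⟩ := h1
    refine ⟨?_, C, fun p => norm_iteratedFDeriv_fderiv.symm.trans_le (hC p)⟩
    push_cast
    exact contDiff_succ_iff_fderiv.2 ⟨(h ψ hψ).1, by simp, h2⟩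

/-- composition with a function whose derivatives are in the class -/
theorem comp [FiniteDimensional ℝ E] {χ : ℝ → ℝ} (hχ : Cb χ) {u : E → ℝ}
    (hu : Differentiable ℝ u) (hd : ∀ v, Cb fun p => fderiv ℝ u p v) : Cb fun p => χ (u p) := by
  let S : AddSubmonoid (E → ℝ) := AddSubmonoid.closure
    {f | ∃ (χ : ℝ → ℝ) (G : E → ℝ), Cb χ ∧ Cb G ∧ f = fun p => χ (u p) * G p}
  have h0 : (fun p => χ (u p)) ∈ S := AddSubmonoid.subset_closure ⟨χ, _, hχ, const 1, by simp⟩
  refine of_closed S (fun ψ hψ => ?_) _ h0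
  induction hψ using AddSubmonoid.closure_induction with
  | mem f hf =>
    obtain ⟨χ, G, h1, h2, rfl⟩ := hf
    obtain ⟨C, hC⟩ := h1.bd
    obtain ⟨C', hC'⟩ := h2.bd
    have d1 : Differentiable ℝ fun p => χ (u p) := h1.diff.comp hu
    refine ⟨d1.mul h2.diff, ⟨C * C', fun p => by
      rw [abs_mul]; exact mul_le_mul (hC _) (hC' _) (abs_nonneg _) ((abs_nonneg _).trans (hC 0))⟩,
      fun v => ?_⟩
    have e : (fun p => fderiv ℝ (fun p => χ (u p) * G p) p v) =
        (fun p => χ (u p) * fderiv ℝ G p v) +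
          fun p => fderiv ℝ χ (u p) 1 * (fderiv ℝ u p v * G p) := by
      ext p
      rw [fderiv_fun_mul (d1 p) (h2.diff p), fderiv_fun_comp p (h1.diff _) (hu p)]
      have : fderiv ℝ χ (u p) (fderiv ℝ u p v) = fderiv ℝ u p v * fderiv ℝ χ (u p) 1 := by
        rw [← smul_eq_mul, ← map_smul, smul_eq_mul, mul_one]
      simp [this]
      ring
    rw [e]
    exact add_mem (AddSubmonoid.subset_closure ⟨χ, _, h1, h2.der v, rfl⟩)
      (AddSubmonoid.subset_closure ⟨_, _, h1.der 1, (hd v).mul h2, rfl⟩)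
  | zero => exact ⟨differentiable_const _, ⟨0, by simp⟩, fun v => by
      simp only [fderiv_zero, Pi.zero_apply, _root_.zero_apply]
      exact zero_mem _⟩
  | add f g _ _ h1 h2 =>
    obtain ⟨a1, ⟨C, hC⟩, a3⟩ := h1
    obtain ⟨b1, ⟨C', hC'⟩, b3⟩ := h2
    refine ⟨a1.add b1, ⟨C + C', fun p => (abs_add_le _ _).trans (add_le_add (hC p) (hC' p))⟩,
      fun v => ?_⟩
    have e : (fun p => fderiv ℝ (f + g) p v) = (fun p => fderiv ℝ f p v) + fun p => fderiv ℝ g p v := by
      ext p; simp [fderiv_add (a1 p) (b1 p)]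
    rw [e]
    exact add_mem (a3 v) (b3 v)


/-- Lipschitz bound and Taylor expansion with a quadratic rest -/
lemma taylor (h : Cb φ) : ∃ C, 0 ≤ C ∧ ∀ p q, |φ q - φ p| ≤ C * ‖q - p‖ ∧
    |φ q - φ p - fderiv ℝ φ p (q - p)| ≤ C * ‖q - p‖ ^ 2 := by
  obtain ⟨-, C1, h1⟩ := h 1
  obtain ⟨c2, C2, h2⟩ := h 2
  have a1 : ∀ p, ‖fderiv ℝ φ p‖ ≤ C1 := fun p => by simpa using h1 p
  have a2 : ∀ p, ‖fderiv ℝ (fderiv ℝ φ) p‖ ≤ C2 := fun p => by
    have := (norm_iteratedFDeriv_fderiv (n := 1)).trans_le (h2 p)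
    simpa using this
  have d2 : Differentiable ℝ (fderiv ℝ φ) :=
    (c2.fderiv_right (m := 1) (by norm_num)).differentiable (by simp)
  have p1 := (norm_nonneg _).trans (a1 0)
  have p2 : 0 ≤ C2 := (norm_nonneg _).trans (h2 0)
  refine ⟨C1 + C2, by positivity, fun p q => ⟨?_, ?_⟩⟩
  · exact (convex_univ.norm_image_sub_le_of_norm_fderiv_le (fun x _ => h.diff x) (fun x _ => a1 x)
      trivial trivial).trans (mul_le_mul_of_nonneg_right (by linarith) (norm_nonneg _))
  · have := (convex_closedBall p ‖q - p‖).norm_image_sub_le_of_norm_fderiv_le'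
      (C := C2 * ‖q - p‖) (φ := fderiv ℝ φ p) (fun x _ => h.diff x) (fun x hx =>
        (convex_univ.norm_image_sub_le_of_norm_fderiv_le (fun x _ => d2 x) (fun x _ => a2 x)
          trivial trivial).trans (mul_le_mul_of_nonneg_left (mem_closedBall_iff_norm.1 hx) p2))
      (Metric.mem_closedBall_self (norm_nonneg _)) (mem_closedBall_iff_norm.2 le_rfl)
    exact this.trans (by nlinarith [sq_nonneg ‖q - p‖])

end Cb

lemma hasDerivAt_tanh (x : ℝ) : HasDerivAt Real.tanh (1 - Real.tanh x ^ 2) x := by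
  have h := (Real.hasDerivAt_sinh x).div (Real.hasDerivAt_cosh x) (Real.cosh_pos x).ne'
  have e : Real.sinh / Real.cosh = Real.tanh := funext fun y => (Real.tanh_eq_sinh_div_cosh y).symm
  rw [e] at h
  refine h.congr_deriv ?_
  have := (Real.cosh_pos x).ne'
  rw [Real.tanh_eq_sinh_div_cosh]
  field_simp

theorem cb_tanh : Cb Real.tanh := by
  refine Cb.of_closed {f | ∃ P : Polynomial ℝ, f = fun x => P.eval (Real.tanh x)} ?_ _
    ⟨Polynomial.X, by simp⟩
  rintro _ ⟨P, rfl⟩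
  have hd := fun x => (P.hasDerivAt (Real.tanh x)).comp x (hasDerivAt_tanh x)
  obtain ⟨C, hC⟩ := (isCompact_Icc (a := (-1 : ℝ)) (b := 1)).exists_bound_of_continuousOn
    P.continuous.continuousOn
  refine ⟨fun x => (hd x).differentiableAt, ⟨C, fun x => hC _ (abs_le.1 (Real.abs_tanh_lt_one x).le)⟩,
    fun v => ⟨Polynomial.C v * (P.derivative * (1 - Polynomial.X ^ 2)), ?_⟩⟩
  ext x
  have := (hd x).hasFDerivAt.fderiv
  rw [show (fun x => P.eval (Real.tanh x)) = (fun x => P.eval x) ∘ Real.tanh from rfl, this]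
  simp

end Crest.Agent.T157.S3P

end
end

-- ▼ part T157/S3Prog_65

/-!
# Row 157, block B/S3: programs and their canonical realisation (helper65)

Static site parameters and thermal constants are nodes with `f = 0`.
-/

set_option autoImplicit false

noncomputable section

namespace Crest.Agent.T157.S3P

open Matrix Finset Function
open Crest.ProbabilityR.SpinGlassDynamics (spin)
open Crest.Agent.T157.E (Cube sv ising mean meanV cov mag)
open Crest.Agent.T157.S3 (V Mx LF Dep hf Fam Net)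
open Crest.Agent.T157.Uw (eta)

/-- functions of the static field, the spin and the fields -/
abbrev PF (N : ℕ) : Type := ℝ → Bool → (Fin (N + 1) → ℝ) → ℝ

variable {n N : ℕ}

/-- smooth in `(b, ξ)`, all derivatives bounded -/
def Sm (φ : PF N) : Prop := ∀ s, Cb fun p : ℝ × (Fin (N + 1) → ℝ) => φ p.1 s p.2
/-- reads the fields `m < l` only -/
def Rd (l : Fin (N + 1)) (φ : PF N) : Prop :=
  ∀ b s ξ ξ', (∀ m, m < l → ξ m = ξ' m) → φ b s ξ = φ b s ξ'
/-- the letter attached to the static field `b` -/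
def lf (φ : PF N) (b : V n) : LF n (N + 1) := fun k => φ (b k)
def pd (m : Fin (N + 1)) (φ : PF N) : PF N := fun b s ξ => fderiv ℝ (φ b s) ξ (Pi.single m 1)
def gs (φ : PF N) : PF N := fun b _ ξ => (φ b true ξ - φ b false ξ) / 2
/-- derivative in the static field -/
def db (φ : PF N) : PF N :=
  fun b s ξ => fderiv ℝ (fun p : ℝ × (Fin (N + 1) → ℝ) => φ p.1 s p.2) (b, ξ) (1, 0)

/-- a program: node function, site mean and average which are added to the centring -/
structure Prog (N : ℕ) where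
  f : Fin (N + 1) → PF N
  g : Fin (N + 1) → PF N
  g' : Fin (N + 1) → PF N

namespace Prog
variable (P : Prog N)

structure Ok : Prop where
  sf : ∀ l, Sm (P.f l)
  sg : ∀ l, Sm (P.g l)
  sg' : ∀ l, Sm (P.g' l)
  rf : ∀ l, Rd l (P.f l)
  rg : ∀ l, Rd l (P.g l)
  rg' : ∀ l, Rd l (P.g' l)
  f0 : P.f 0 = fun _ s _ => spin s
  g0 : P.g 0 = 0
  g'0 : P.g' 0 = 0

/-- parity with the signs `sg` -/
structure Par (sg : Fin (N + 1) → ℝ) : Prop where
  pm : ∀ l, sg l = 1 ∨ sg l = -1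
  f : ∀ l b s ξ, P.f l (-b) (!s) (sg * ξ) = -P.f l b s ξ
  g : ∀ l b s ξ, P.g l (-b) (!s) (sg * ξ) = sg l * P.g l b s ξ
  g' : ∀ l b s ξ, P.g' l (-b) (!s) (sg * ξ) = P.g' l b s ξ
  ev : ∀ l, sg l = 1 → P.f l = 0
  od : ∀ l, sg l = -1 → P.g' l = 0

end Prog

/-- fields -/
abbrev St (n N : ℕ) : Type := Fin (N + 1) → Cube n → V n

section inst
variable (P : Prog N) (s : ℝ) (J : Mx n) (y : V n)

/-- the static field -/
def bF : V n := y + J *ᵥ mag (ising J y) - eta s (1 - mag (ising J y) ^ 2) • mag (ising J y)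
/-- evaluation of a letter -/
def eP (X : St n N) (φ : PF N) : Cube n → V n := fun x k => φ (bF s J y k) (x k) fun l => X l x k
/-- `E η(φ)` -/
def me (X : St n N) (φ : PF N) : ℝ := mean (ising J y) fun x => eta s (eP s J y X φ x)
/-- Gram matrix -/
def Sg (X : St n N) : Matrix (Fin (N + 1)) (Fin (N + 1)) ℝ := of fun l m => s ^ 2 * ∑ k,
  cov (ising J y) (fun x => eP s J y X (P.f l) x k) fun x => eP s J y X (P.f m) x k
/-- uncentred field -/
def Zr (X : St n N) (l : Fin (N + 1)) (x : Cube n) : V n :=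
  J *ᵥ eP s J y X (P.f l) x - ∑ m, me s J y X (pd m (P.f l)) • eP s J y X (P.f m) x
/-- static offset -/
def cc (X : St n N) (l : Fin (N + 1)) : V n :=
  meanV (ising J y) (eP s J y X (P.g l)) + fun _ => me s J y X (P.g' l)
def step (X : St n N) : St n N := fun l x => Zr P s J y X l x - meanV (ising J y) (Zr P s J y X l) +
  Sg P s J y X l 0 • mag (ising J y) + cc P s J y X l

/-- **the canonical fields** -/
def Prog.X : St n N := (step P s J y)^[N + 1] 0
def Prog.e (φ : PF N) : Cube n → V n := eP s J y (P.X s J y) φ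
def Prog.o (l m : Fin (N + 1)) : ℝ := me s J y (P.X s J y) (pd m (P.f l))
def Prog.S : Matrix (Fin (N + 1)) (Fin (N + 1)) ℝ := Sg P s J y (P.X s J y)
def Prog.c (l : Fin (N + 1)) : V n := cc P s J y (P.X s J y) l
def Prog.κ (l : Fin (N + 1)) : V n := meanV (ising J y) (Zr P s J y (P.X s J y) l) -
  P.S s J y l 0 • mag (ising J y) - P.c s J y l

end inst

/-! ### the class `Sm` -/

section sm
variable {φ ψ : PF N}


lemma Sm.spin' (c : Bool → ℝ) : Sm (N := N) fun _ s _ => c s := fun s => .const (c s)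
lemma Sm.const (c : ℝ) : Sm (N := N) fun _ _ _ => c := fun _ => .const c
lemma Sm.zero : Sm (0 : PF N) := .const 0
lemma Sm.one : Sm (1 : PF N) := .const 1
lemma Sm.add (h : Sm φ) (h' : Sm ψ) : Sm (φ + ψ) := fun s => (h s).add (h' s)
lemma Sm.sub (h : Sm φ) (h' : Sm ψ) : Sm (φ - ψ) := fun s => (h s).sub (h' s)
lemma Sm.neg (h : Sm φ) : Sm (-φ) := fun s => (h s).neg
lemma Sm.mul (h : Sm φ) (h' : Sm ψ) : Sm (φ * ψ) := fun s => (h s).mul (h' s)
lemma Sm.smul (h : Sm φ) (c : ℝ) : Sm (c • φ) := fun s => (h s).const_mul c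
lemma Sm.sum {ι : Type*} (t : Finset ι) {φ : ι → PF N} (h : ∀ i ∈ t, Sm (φ i)) :
    Sm (∑ i ∈ t, φ i) := fun s => by
  simpa only [Finset.sum_apply] using Cb.sum t fun i hi => h i hi s
lemma Sm.gs (h : Sm φ) : Sm (gs φ) := fun _ => ((h true).sub (h false)).div_const 2
lemma Sm.db (h : Sm φ) : Sm (db φ) := fun s => (h s).der (1, 0)

lemma Sm.hasFDerivAt (h : Sm φ) (b : ℝ) (s : Bool) (ξ : Fin (N + 1) → ℝ) :
    HasFDerivAt (φ b s) ((fderiv ℝ (fun p : ℝ × (Fin (N + 1) → ℝ) => φ p.1 s p.2) (b, ξ)).comp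
      (ContinuousLinearMap.inr ℝ _ _)) ξ :=
  ((h s).diff (b, ξ)).hasFDerivAt.comp ξ (hasFDerivAt_prodMk_right b ξ)

lemma Sm.pd_eq (h : Sm φ) (m : Fin (N + 1)) (b : ℝ) (s : Bool) (ξ : Fin (N + 1) → ℝ) :
    S3P.pd m φ b s ξ =
      fderiv ℝ (fun p : ℝ × (Fin (N + 1) → ℝ) => φ p.1 s p.2) (b, ξ) (0, Pi.single m 1) := by
  rw [S3P.pd, (h.hasFDerivAt b s ξ).fderiv]; rfl

lemma Sm.pd (h : Sm φ) (m : Fin (N + 1)) : Sm (pd m φ) := fun s => by
  simpa only [h.pd_eq] using (h s).der (0, Pi.single m 1)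

/-- a function of one variable in the class, of an affine form plus an element of the class -/
lemma Sm.comp {χ : ℝ → ℝ} (hχ : Cb χ) (a : ℝ) (u : Fin (N + 1) → ℝ) (h : Sm φ) :
    Sm (N := N) fun b s ξ => χ (a * b + u ⬝ᵥ ξ + φ b s ξ) := fun s => by
  let L : (ℝ × (Fin (N + 1) → ℝ)) →L[ℝ] ℝ := LinearMap.toContinuousLinearMap
    { toFun := fun p => a * p.1 + u ⬝ᵥ p.2
      map_add' := fun p q => by simp [mul_add]; ring
      map_smul' := fun c p => by simp; ring }
  have d := fun p => L.hasFDerivAt.add ((h s).diff p).hasFDerivAt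
  refine hχ.comp (u := fun p => L p + φ p.1 s p.2) (fun p => (d p).differentiableAt) fun v => ?_
  have e : ∀ p, fderiv ℝ (fun p => L p + φ p.1 s p.2) p = _ := fun p => (d p).fderiv
  simp only [e]
  exact (Cb.const (L v)).add ((h s).der v)

lemma Sm.th : Sm (N := N) fun b _ ξ => Real.tanh (b + ξ 0) := by
  simpa using Sm.comp cb_tanh 1 (Pi.single 0 1) (Sm.zero (N := N))

lemma Sm.bd (h : Sm φ) : ∃ C, 0 ≤ C ∧ ∀ b s ξ, |φ b s ξ| ≤ C := by
  choose C hC using fun s => (h s).bd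
  exact ⟨|C true| + |C false|, by positivity, fun b s ξ => (hC s (b, ξ)).trans (by
    cases s <;> linarith [le_abs_self (C true), le_abs_self (C false), abs_nonneg (C true),
      abs_nonneg (C false)])⟩

lemma Sm.diff (h : Sm φ) (b : ℝ) (s : Bool) : Differentiable ℝ (φ b s) :=
  fun ξ => (h.hasFDerivAt b s ξ).differentiableAt

/-- Lipschitz bound and first order expansion in `(b, ξ)` -/
lemma Sm.taylor (h : Sm φ) : ∃ C, 0 ≤ C ∧ ∀ b b' s ξ ξ',
    |φ b' s ξ' - φ b s ξ| ≤ C * (|b' - b| + ∑ m, |ξ' m - ξ m|) ∧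
    |φ b' s ξ' - φ b s ξ - S3P.db φ b s ξ * (b' - b) - ∑ m, S3P.pd m φ b s ξ * (ξ' m - ξ m)| ≤
      C * ((b' - b) ^ 2 + ∑ m, (ξ' m - ξ m) ^ 2) := by
  choose C h0 hC using fun s => (h s).taylor
  refine ⟨C true + C false, add_nonneg (h0 _) (h0 _), fun b b' s ξ ξ' => ?_⟩
  have hs : C s ≤ C true + C false := by cases s <;> linarith [h0 true, h0 false]
  obtain ⟨h1, h2⟩ := hC s (b, ξ) (b', ξ')
  have p1 : 0 ≤ ∑ m, |ξ' m - ξ m| := sum_nonneg fun _ _ => abs_nonneg _
  have p2 : 0 ≤ ∑ m, (ξ' m - ξ m) ^ 2 := sum_nonneg fun _ _ => sq_nonneg _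
  have n1 : ‖(b', ξ') - (b, ξ)‖ ≤ |b' - b| + ∑ m, |ξ' m - ξ m| :=
    max_le (le_add_of_nonneg_right p1) (le_add_of_nonneg_of_le (abs_nonneg _)
      ((pi_norm_le_iff_of_nonneg p1).2 fun m => single_le_sum (f := fun m => |ξ' m - ξ m|)
        (fun _ _ => abs_nonneg _) (mem_univ m)))
  have n2 : ‖(b', ξ') - (b, ξ)‖ ≤ √((b' - b) ^ 2 + ∑ m, (ξ' m - ξ m) ^ 2) :=
    max_le (Real.abs_le_sqrt (le_add_of_nonneg_right p2)) ((pi_norm_le_iff_of_nonneg
      (Real.sqrt_nonneg _)).2 fun m => Real.abs_le_sqrt (le_add_of_nonneg_of_le (sq_nonneg _)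
        (single_le_sum (f := fun m => (ξ' m - ξ m) ^ 2) (fun _ _ => sq_nonneg _) (mem_univ m))))
  have n3 := pow_le_pow_left₀ (norm_nonneg _) n2 2
  rw [Real.sq_sqrt (by positivity)] at n3
  refine ⟨h1.trans (mul_le_mul hs n1 (norm_nonneg _) ((h0 s).trans hs)), le_of_eq_of_le ?_
    (h2.trans (mul_le_mul hs n3 (sq_nonneg _) ((h0 s).trans hs)))⟩
  have e : (b', ξ') - (b, ξ) = (b' - b) • ((1 : ℝ), (0 : Fin (N + 1) → ℝ)) +
      ∑ m, (ξ' m - ξ m) • ((0 : ℝ), (Pi.single m 1 : Fin (N + 1) → ℝ)) := by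
    ext k
    · simp [Prod.fst_sum]
    · simp [Prod.snd_sum, Finset.sum_apply, Pi.single_apply]
  rw [e, map_add, map_sum, sub_sub]
  simp only [map_smul, smul_eq_mul, h.pd_eq, S3P.db, mul_comm]

lemma Rd.mono {l l' : Fin (N + 1)} (h : Rd l φ) (hl : l ≤ l') : Rd l' φ :=
  fun b s ξ ξ' e => h b s ξ ξ' fun m hm => e m (hm.trans_le hl)

lemma Rd.pd {l : Fin (N + 1)} (h : Rd l φ) (m : Fin (N + 1)) : Rd l (pd m φ) := fun b s ξ ξ' e => by
  have : (fun v => φ b s (ξ + v)) = fun v => φ b s (ξ' + v) :=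
    funext fun v => h b s _ _ fun m hm => by simp [e m hm]
  have h1 := fderiv_comp_add_left (𝕜 := ℝ) (f := φ b s) (x := 0) ξ
  have h2 := fderiv_comp_add_left (𝕜 := ℝ) (f := φ b s) (x := 0) ξ'
  rw [add_zero] at h1 h2
  rw [S3P.pd, S3P.pd, ← h1, ← h2, this]

lemma Rd.pd_zero {l m : Fin (N + 1)} (h : Rd l φ) (hs : Sm φ) (hm : l ≤ m) : S3P.pd m φ = 0 := by
  ext b s ξ
  have h1 := (hs.hasFDerivAt b s ξ).differentiableAt.hasFDerivAt.hasLineDerivAt (Pi.single m 1)
  have h2 : (fun t : ℝ => φ b s (ξ + t • (Pi.single m 1 : Fin (N + 1) → ℝ))) = fun _ => φ b s ξ :=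
    funext fun t => h b s _ _ fun k hk => by simp [(hk.trans_le hm).ne]
  rw [HasLineDerivAt, h2] at h1
  exact h1.unique (hasDerivAt_const _ _)

end sm

/-! ### the fixed point equations -/

section fix
variable {P : Prog N} {s : ℝ} {J : Mx n} {y : V n} {X X' : St n N} {l : Fin (N + 1)} {φ : PF N}

lemma eP_congr (h : Rd l φ) (e : ∀ m, m < l → X m = X' m) : eP s J y X φ = eP s J y X' φ :=
  funext fun _ => funext fun _ => h _ _ _ _ fun m hm => by rw [e m hm]

lemma me_zero : me s J y X (0 : PF N) = 0 := by simp [me, eP, eta, mean]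

lemma step_congr (h : P.Ok) (e : ∀ m, m < l → X m = X' m) :
    step P s J y X l = step P s J y X' l := by
  have e1 : Zr P s J y X l = Zr P s J y X' l := by
    ext1 x
    rw [Zr, Zr, eP_congr (h.rf l) e]
    congr 1
    refine sum_congr rfl fun m _ => ?_
    rcases lt_or_ge m l with hm | hm
    · rw [me, me, eP_congr ((h.rf l).pd m) e, eP_congr ((h.rf m).mono hm.le) e]
    · rw [(h.rf l).pd_zero (h.sf l) hm, me_zero, me_zero, zero_smul, zero_smul]
  ext1 x
  simp only [step, e1, Sg, cc, me, of_apply, eP_congr (h.rf l) e, eP_congr (h.rg l) e,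
    eP_congr (h.rg' l) e, eP_congr ((h.rf 0).mono l.zero_le) e]

lemma iter_congr (h : P.Ok) (t : ℕ) : ∀ (l : Fin (N + 1)), l.1 < t → ∀ X X' : St n N,
    (step P s J y)^[t] X l = (step P s J y)^[t] X' l := by
  induction t with
  | zero => exact fun _ h => absurd h (Nat.not_lt_zero _)
  | succ t ih =>
    intro l hl X X'
    rw [iterate_succ_apply', iterate_succ_apply']
    exact step_congr h fun m hm => ih m (by have : m.1 < l.1 := hm; omega) X X'

theorem Prog.Ok.fix (h : P.Ok) : step P s J y (P.X s J y) = P.X s J y := by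
  ext1 l
  rw [Prog.X, ← iterate_succ_apply' (step P s J y), iterate_succ_apply]
  exact iter_congr h _ l l.2 _ _

/-- the recursion -/
theorem Prog.Ok.X_eq (h : P.Ok) (l : Fin (N + 1)) (x : Cube n) : P.X s J y l x =
    J *ᵥ P.e s J y (P.f l) x - ∑ m, P.o s J y l m • P.e s J y (P.f m) x - P.κ s J y l := by
  rw [← congrFun (congrFun h.fix l) x, step, Prog.κ]
  change Zr P s J y _ l x - _ + _ + _ = Zr P s J y _ l x - _
  rw [Prog.S, Prog.c]
  abel

/-- the centring -/
theorem Prog.Ok.mean_X (h : P.Ok) (l : Fin (N + 1)) : meanV (ising J y) (P.X s J y l) =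
    P.S s J y l 0 • mag (ising J y) + P.c s J y l := by
  ext k
  have hw := Pl.wt_ising J y
  rw [← congrFun h.fix l]
  simp only [meanV, step, Pi.add_apply, Pi.sub_apply, SL.mean_add, SL.mean_sub, hw.mean_const,
    sub_self, zero_add]
  rfl

lemma Prog.Ok.e0 (h : P.Ok) : P.e s J y (P.f 0) = sv := by rw [h.f0]; rfl

lemma Prog.Ok.o_zero (h : P.Ok) {l m : Fin (N + 1)} (hm : l ≤ m) : P.o s J y l m = 0 := by
  rw [Prog.o, (h.rf l).pd_zero (h.sf l) hm, me_zero]

lemma Prog.Ok.c0 (h : P.Ok) : P.c s J y 0 = 0 := by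
  ext k; simp [Prog.c, cc, h.g0, h.g'0, me_zero, eP, meanV, mean]

lemma Prog.Ok.S00 (h : P.Ok) : P.S s J y 0 0 = eta s (1 - mag (ising J y) ^ 2) := by
  change s ^ 2 * ∑ k, cov (ising J y) (fun x => P.e s J y (P.f 0) x k)
    (fun x => P.e s J y (P.f 0) x k) = _
  rw [h.e0, eta]
  congr 1
  refine sum_congr rfl fun k _ => ?_
  rw [(Pl.wt_ising J y).cov_eq]
  simp only [Rec.sv_mul_self, (Pl.wt_ising J y).mean_const, Pi.sub_apply, Pi.one_apply, sq]
  rfl

theorem Prog.Ok.X0 (h : P.Ok) (x : Cube n) : P.X s J y 0 x = hf J y x - bF s J y := by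
  have e : Zr P s J y (P.X s J y) 0 = fun x => J *ᵥ sv x := by
    ext1 x
    change J *ᵥ P.e s J y (P.f 0) x - ∑ m, P.o s J y 0 m • P.e s J y (P.f m) x = _
    simp [h.e0, h.o_zero (Fin.zero_le _)]
  have e2 : meanV (ising J y) (fun x => J *ᵥ sv x) = J *ᵥ mag (ising J y) := by
    ext k
    simp only [meanV, mag, mulVec, dotProduct, SL.mean_sum, SL.mean_const_mul]
  rw [← congrFun (congrFun h.fix 0) x, step, e, e2]
  change _ - _ + P.S s J y 0 0 • _ + P.c s J y 0 = _
  rw [h.c0, h.S00, hf, bF]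
  abel

/-- the Gram matrix has a factor -/
theorem exists_fac (P : Prog N) (s : ℝ) (J : Mx n) (y : V n) :
    ∃ A : Matrix (Fin (N + 1)) (Fin (N + 1)) ℝ, A * Aᵀ = P.S s J y := by
  have h : (P.S s J y).PosSemidef := by
    have e : P.S s J y = s ^ 2 • ∑ k, E.covMat (ising J y)
        fun x l => P.e s J y (P.f l) x k := by
      ext l m; simp only [Matrix.smul_apply, Matrix.sum_apply, smul_eq_mul]; rfl
    rw [e]
    exact (posSemidef_sum _ fun k _ => (Pl.wt_ising J y).covMat_psd _).smul (sq_nonneg s)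
  open scoped MatrixOrder in
  obtain ⟨B, hB⟩ := CStarAlgebra.nonneg_iff_eq_star_mul_self.1 h.nonneg
  exact ⟨Bᵀ, by rw [hB, transpose_transpose]; rfl⟩

end fix

/-! ### measurability in the instance; sites without couplings -/

section meas
variable {α : Type*} [MeasurableSpace α] {P : Prog N} {s : ℝ} {J : α → Mx n} {y : α → V n}
  (hJ : Measurable J) (hy : Measurable y)
include hJ hy

lemma meas_mag : Measurable fun a => mag (ising (J a) (y a)) :=
  measurable_pi_lambda _ fun _ => Pl.measurable_mean_ising hJ hy fun _ => measurable_const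

lemma meas_bF : Measurable fun a => bF s (J a) (y a) := by
  have := meas_mag hJ hy
  unfold bF eta
  have h2 : Measurable fun a => s ^ 2 * ∑ k, (1 - mag (ising (J a) (y a)) ^ 2 : V n) k :=
    measurable_const.mul (Finset.measurable_sum _ fun k _ =>
      measurable_const.sub (((measurable_pi_apply k).comp this).pow_const 2))
  exact (hy.add (hJ.t157_mulVec this)).sub (h2.smul this)

lemma meas_eP {X : α → St n N} (hX : ∀ l x, Measurable fun a => X a l x) {φ : PF N} (h : Sm φ)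
    (x : Cube n) : Measurable fun a => eP s (J a) (y a) (X a) φ x :=
  measurable_pi_lambda _ fun k => (h (x k)).continuous.measurable.comp
    (((measurable_pi_apply k).comp (meas_bF hJ hy)).prodMk
      (measurable_pi_lambda _ fun l => (measurable_pi_apply k).comp (hX l x)))

lemma meas_meanV {u : α → Cube n → V n} (hu : ∀ x, Measurable fun a => u a x) :
    Measurable fun a => meanV (ising (J a) (y a)) (u a) :=
  measurable_pi_lambda _ fun k => Pl.measurable_mean_ising hJ hy (F := fun x a => u a x k)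
    fun x => (measurable_pi_apply k).comp (hu x)

lemma meas_me {X : α → St n N} (hX : ∀ l x, Measurable fun a => X a l x) {φ : PF N} (h : Sm φ) :
    Measurable fun a => me s (J a) (y a) (X a) φ :=
  Pl.measurable_mean_ising hJ hy (F := fun x a => eta s (eP s (J a) (y a) (X a) φ x)) fun x =>
    measurable_const.mul (Finset.measurable_sum _ fun k _ =>
      (measurable_pi_apply k).comp (meas_eP hJ hy hX h x))

lemma meas_step (h : P.Ok) {X : α → St n N} (hX : ∀ l x, Measurable fun a => X a l x)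
    (l : Fin (N + 1)) (x : Cube n) : Measurable fun a => step P s (J a) (y a) (X a) l x := by
  have hZ : ∀ x, Measurable fun a => Zr P s (J a) (y a) (X a) l x := fun x =>
    (hJ.t157_mulVec (meas_eP hJ hy hX (h.sf l) x)).sub (Finset.measurable_sum _ fun m _ =>
      (meas_me hJ hy hX ((h.sf l).pd m)).smul (meas_eP hJ hy hX (h.sf m) x))
  have hc : ∀ l x k, Measurable fun a => eP s (J a) (y a) (X a) (P.f l) x k -
      meanV (ising (J a) (y a)) (eP s (J a) (y a) (X a) (P.f l)) k := fun l x k =>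
    (measurable_pi_apply k).comp ((meas_eP hJ hy hX (h.sf l) x).sub
      (meas_meanV hJ hy (meas_eP hJ hy hX (h.sf l))))
  refine (((hZ x).sub (meas_meanV hJ hy hZ)).add (Measurable.smul (measurable_const.mul
    (Finset.measurable_sum _ fun k _ => Pl.measurable_mean_ising hJ hy
      fun x => (hc l x k).mul (hc 0 x k))) (meas_mag hJ hy))).add
    ((meas_meanV hJ hy (meas_eP hJ hy hX (h.sg l))).add
      (measurable_pi_lambda _ fun _ => meas_me hJ hy hX (h.sg' l)))

theorem Prog.Ok.meas_X (h : P.Ok) (l : Fin (N + 1)) (x : Cube n) :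
    Measurable fun a => P.X s (J a) (y a) l x := by
  suffices H : ∀ t l x, Measurable fun a => (step P s (J a) (y a))^[t] 0 l x from H _ l x
  intro t
  induction t with
  | zero => exact fun _ _ => measurable_const
  | succ t ih => simpa only [iterate_succ_apply'] using meas_step hJ hy h ih

theorem Prog.Ok.meas_e (h : P.Ok) {φ : PF N} (hφ : Sm φ) (x : Cube n) :
    Measurable fun a => P.e s (J a) (y a) φ x := meas_eP hJ hy (h.meas_X hJ hy) hφ x

end meas



/-! ### the network of a family -/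

/-- a letter of the canonical network -/
def fl (F : Fam) (φ : PF N) : F.Lf (N + 1) := fun i => lf φ (bF (F.s i) (F.J i) (F.y i))

/-- **the canonical network** -/
def Prog.net (P : Prog N) (F : Fam) : Net F N where
  X l ω := P.X (F.s ω.1) (F.J ω.1) (F.y ω.1) l ω.2
  b i := bF (F.s i) (F.J i) (F.y i)
  f l := fl F (P.f l)
  C := {g | ∃ φ, Sm φ ∧ g = fl F φ}

section net
variable {P : Prog N} {F : Fam}

lemma Sm.mem {φ : PF N} (h : Sm φ) : fl F φ ∈ (P.net F).C := ⟨φ, h, rfl⟩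

theorem Prog.Ok.net (h : P.Ok) (F : Fam) : (P.net F).Ok where
  bd := by
    rintro _ ⟨φ, hφ, rfl⟩
    obtain ⟨C, -, hC⟩ := hφ.bd
    exact ⟨C, fun _ _ _ _ => hC _ _ _⟩
  diff := by rintro _ ⟨φ, hφ, rfl⟩ i k s; exact hφ.diff _ s
  one := ⟨1, .one, rfl⟩
  sp := ⟨_, .spin' spin, rfl⟩
  th := ⟨_, .th, rfl⟩
  add := by rintro _ ⟨φ, hφ, rfl⟩ _ ⟨ψ, hψ, rfl⟩; exact ⟨_, hφ.add hψ, rfl⟩
  smul := by rintro c _ ⟨φ, hφ, rfl⟩; exact ⟨_, hφ.smul c, rfl⟩
  mul := by rintro _ ⟨φ, hφ, rfl⟩ _ ⟨ψ, hψ, rfl⟩; exact ⟨_, hφ.mul hψ, rfl⟩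
  pd := by rintro _ ⟨φ, hφ, rfl⟩ m; exact ⟨_, hφ.pd m, rfl⟩
  gs := by rintro _ ⟨φ, hφ, rfl⟩; exact ⟨_, hφ.gs, rfl⟩
  fC l := (h.sf l).mem
  f0 := by change fl F (P.f 0) = _; rw [h.f0]; rfl
  dep l i k s ξ ξ' e := h.rf l _ s ξ ξ' e
  X0 ω := h.X0 ω.2
  hX l := ⟨fun i => P.κ (F.s i) (F.J i) (F.y i) l, fun ω => h.X_eq l ω.2⟩

end net

end Crest.Agent.T157.S3P

end
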