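import Crest.Agent.T157.S3RB_52
import Crest.Agent.T157.S3Ng_60
import Crest.Agent.T157.NetDefB_32
import Crest.Agent.T157.NetFact_67
import Crest.Agent.T157.S3Prog_65
import Crest.Agent.T157.S3IC_52

-- ▼ part T157/S3RD_52
section

/-! S3, realisation (helper52): filling, extensions, local law for forced letters. -/

set_option autoImplicit false
set_option linter.unusedVariables false

noncomputable section

namespace Crest.Agent.T157.S3R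

open MeasureTheory Matrix Set Function Sta
open Crest.Agent.T157.S3 (Fam)
open Crest.Agent.T157.S3P (PF Prog Sm bF)
open Crest.Agent.T157.Nt (Fj Fn Ix BS dx gs sp co cb res th rf Ev Net BsStmt)

variable {F : Fam} {ν : Measure ℝ} {n n' : ℕ} {σ : Sta F ν} {e : Ix n → Ix σ.m} {D T : Set (Ix n)}
  {N : Net n} {X : Ix n → F.Vf} {G : Ix n → JL F n} {π : Ix n → Ix n → F.I → ℝ} {H : JL F n}
  {ε : ℝ}

/-- the local law for all programs with their models -/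
def LP (F : Fam) (ν : Measure ℝ) : Prop := ∀ (σ : Sta F ν) (φ : PF σ.m), Sm φ →
  Fam.Neg (F := F) fun i => F.EV (σ.e φ) i - fun k => σ.Eb φ (bi F i k)

lemma Sta.pg (σ : Sta F ν) : S3I.Pg σ.P.f σ.P.g σ.P.g' σ.sg where
  bl l := ⟨bl_of_sm (σ.ok.sf l), bl_of_sm (σ.ok.sg l), bl_of_sm (σ.ok.sg' l)⟩
  dep l b := ⟨σ.ok.rf l b, σ.ok.rg l b, σ.ok.rg' l b⟩
  par l := ⟨fun b s ξ => (σ.par.f l b s ξ).trans (neg_one_mul _).symm, σ.par.g l,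
    fun b s ξ => (σ.par.g' l b s ξ).trans (one_mul _).symm⟩
  sgn l := (σ.par.pm l).imp (fun h => ⟨h, σ.par.ev l h⟩) fun h => ⟨h, σ.par.od l h⟩

lemma Bs.ll (h : Bs N σ e D X) (hL : LP F ν) (hT : T ⊆ D) (hH : σ.Fa e T ε H) :
    Fam.Neg (F := F) fun i => F.EV (S3R.ev X H) i - fun k => N.E (md H) (bi F i k) := by
  obtain ⟨σ', j, hl, -, φ, hφ, -, hc⟩ := hH.av
  simpa only [(h.le hl).ev hT hc, (h.le hl).eb hT hφ hc] using hL σ' φ hφ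

lemma Bs.cont (h : Bs N σ e D X) (hT : T ⊆ D) (hH : σ.Fa e T ε H) :
    Continuous (N.E (md H)) ∧ ∃ B, ∀ b, |N.E (md H) b| ≤ B := by
  obtain ⟨σ', j, hl, -, φ, hφ, -, hc⟩ := hH.av
  obtain ⟨B, -, hB⟩ := hφ.bd
  rw [← funext ((h.le hl).eb hT hφ hc)]
  exact ⟨σ'.mod.Eb_cont σ'.pg (bl_of_sm hφ), B, S3I.abs_Eb_le _ _ _ hB⟩

lemma Sta.Fa.res {e' : Ix n' → Ix σ.m} {ι : Ix n → Ix n'} (h : σ.Fa e T ε H)
    (he : ∀ u, e' (ι u) = e u) : σ.Fa e' univ ε (res ι H) := fun σ' j hl =>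
  let ⟨σ'', j', h1, h2, φ, h3, h4, h5⟩ := h σ' j hl
  ⟨σ'', j', h1, h2, φ, h3, h4, fun θ s η ξ a b => h5 θ s η (ξ ∘ ι) a fun u _ => by
    simpa only [Function.comp_apply, he] using b (ι u) trivial⟩

variable [IsProbabilityMeasure ν]

theorem rp_fill (hS : StepStmt) (hN : N.Ok F.β ν) (h : Rp N σ e D X G π) :
    ∃ (σ' : Sta F ν) (j : Ix σ.m → Ix σ'.m) (e' : Ix n → Ix σ'.m), ∃ X' G' π',
      Rp N σ' e' univ X' G' π' ∧ σ.Le σ' j ∧ ∀ u ∈ D, e' u = j (e u) := by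
  induction hk : Dᶜ.ncard using Nat.strong_induction_on generalizing σ D X G π with
  | _ k ih =>
  rcases Dᶜ.eq_empty_or_nonempty with h0 | h0
  · obtain rfl := compl_empty_iff.1 h0
    exact ⟨σ, id, e, X, G, π, h, .refl _, fun _ _ => rfl⟩
  · obtain ⟨w, hw, hm⟩ := wellFounded_lt.has_min _ h0
    obtain ⟨σ1, j1, e1, X1, G1, π1, h1, l1, k1⟩ :=
      hS F ν n N σ e D X G π hN h w hw fun v hv => by_contra fun h2 => hm v h2 hv
    obtain ⟨σ2, j2, e2, X2, G2, π2, h2, l2, k2⟩ := ih _ (hk ▸ ncard_lt_ncard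
      ⟨compl_subset_compl.2 (subset_insert w D), fun h3 => h3 hw (mem_insert w D)⟩) h1 rfl
    exact ⟨σ2, j2 ∘ j1, e2, X2, G2, π2, h2, l1.trans l2, fun u hu => by
      rw [k2 u (mem_insert_of_mem w hu), k1 u hu]; rfl⟩

theorem rp_univ (hB : BaseStmt) (hS : StepStmt) (hN : N.Ok F.β ν) :
    ∃ (σ : Sta F ν) (e : Ix n → Ix σ.m), ∃ X G π, Rp N σ e univ X G π :=
  let ⟨_, _, _, _, _, h⟩ := hB F ν n N hN
  let ⟨σ, _, e, X, G, π, h, _⟩ := rp_fill hS hN h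
  ⟨σ, e, X, G, π, h⟩

theorem rp_ext (hT : TrStmt) (hS : StepStmt) (hN : N.Ok F.β ν) (h : Rp N σ e univ X G π)
    {N' : Net n'} {ι : Ix n → Ix n'} (hN' : N'.Ok F.β ν) (hE : N.Ext N' ι) :
    ∃ (σ' : Sta F ν) (e' : Ix n' → Ix σ'.m), ∃ X' G' π', Rp N' σ' e' univ X' G' π' ∧
      ∀ g φ, Ag σ e g φ → ∃ g', Ag σ' e' g' (res ι φ) ∧
        (net σ' e' X' G').ev g' = (net σ e X G).ev g := by
  obtain ⟨e1, X1, G1, π1, h1, k1⟩ := hT F ν n N σ e univ X G π hN h rfl n' N' ι hE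
  obtain ⟨σ', j, e', X', G', π', h2, hl, k2⟩ := rp_fill hS hN' h1
  have he : ∀ u, e' (ι u) = (j ∘ e) u := fun u => by rw [k2 _ ⟨u, rfl⟩, k1]; rfl
  refine ⟨σ', e', X', G', π', h2, ?_⟩
  rintro _ _ ⟨H, hH, rfl, rfl⟩
  refine ⟨_, ⟨res ι H, (hH.le hl).res he, rfl, rfl⟩, funext fun ω => funext fun k => ?_⟩
  change H _ _ (fun u => X' (ι u) ω k) = H _ _ fun u => X u ω k
  simp only [h2.bs.X _ trivial, he, (h.bs.le hl).X _ trivial]

omit [IsProbabilityMeasure ν]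

namespace Ag
variable {g g' : F.Lf (n + 1)} {φ φ' : Fn (Ix n)}

lemma mem (h : Ag σ e g φ) : g ∈ (net σ e X G).C := let ⟨H, h1, h2, _⟩ := h; ⟨H, h1, h2⟩
lemma of_mem (h : g ∈ (net σ e X G).C) : ∃ φ, Ag σ e g φ :=
  let ⟨H, h1, h2⟩ := h; ⟨_, H, h1, h2, rfl⟩
lemma fl (hB : BsStmt) (h : Bs N σ e univ X) (hφ : BS φ) : Ag σ e (S3P.fl F φ) φ :=
  ⟨lift F φ, h.fa_lift hB le_rfl hφ (fun _ _ _ _ a => by rw [funext fun u => a u trivial])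
    (Or.inl rfl), rfl, rfl⟩
lemma add (h : Ag σ e g φ) (h' : Ag σ e g' φ') : Ag σ e (g + g') (φ + φ') := by
  obtain ⟨H, h1, rfl, rfl⟩ := h
  obtain ⟨H', h2, rfl, rfl⟩ := h'
  exact ⟨H + H', h1.add h2, rfl, rfl⟩
lemma smul (c : ℝ) (h : Ag σ e g φ) : Ag σ e (c • g) (c • φ) := by
  obtain ⟨H, h1, rfl, rfl⟩ := h
  exact ⟨c • H, h1.smul c, rfl, rfl⟩
lemma mul (h : Ag σ e g φ) (h' : Ag σ e g' φ') : Ag σ e (g * g') (φ * φ') := by
  obtain ⟨H, h1, rfl, rfl⟩ := h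
  obtain ⟨H', h2, rfl, rfl⟩ := h'
  exact ⟨H * H', h1.mul' h2 (mul_zero 0), rfl, rfl⟩
lemma pd (hb : Bs N σ e univ X) (u : Ix n) (h : Ag σ e g φ) :
    Ag σ e ((net σ e X G).pd u g) (dx u φ) := by
  obtain ⟨H, h1, rfl, rfl⟩ := h
  exact ⟨dx u H, (hb.fa_dx le_rfl h1 u).weak, rfl, rfl⟩
lemma gs (h : Ag σ e g φ) : Ag σ e ((net σ e X G).gs g) (Nt.gs φ) := by
  obtain ⟨H, h1, rfl, rfl⟩ := h
  exact ⟨Nt.gs H, h1.gs.weak, rfl, rfl⟩
lemma f (h : Rp N σ e univ X G π) (u : Ix n) : Ag σ e ((net σ e X G).f u) (N.f u) :=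
  ⟨G u, (Av.fa ⟨_, σ.ok.sf _, σ.pr_f _, (h.ct u trivial).mono (subset_univ _)⟩).weak, rfl,
    (h.md u trivial).symm⟩
lemma ll (hb : Bs N σ e univ X) (hL : LP F ν) (h : Ag σ e g φ) : Fam.Neg (F := F) fun i =>
    F.EV ((net σ e X G).ev g) i - fun k => N.E φ (bi F i k) := by
  obtain ⟨H, h1, rfl, rfl⟩ := h
  exact hb.ll hL le_rfl h1
lemma cont (hb : Bs N σ e univ X) (h : Ag σ e g φ) :
    Continuous (N.E φ) ∧ ∃ B, ∀ b, |N.E φ b| ≤ B := by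
  obtain ⟨H, h1, rfl, rfl⟩ := h
  exact hb.cont le_rfl h1

end Ag

end Crest.Agent.T157.S3R

end
end

-- ▼ part T157/S3Top_60

/-!
# Row 157, block B/S3 (helper60): from the model top family to `TopIn`
-/

set_option autoImplicit false

noncomputable section

namespace Crest.Agent.T157.S3

open Matrix Filter Finset Topology MeasureTheory
open Crest.Agent.T157.E (Cube sv ising mean prob)
open Crest.Agent.T157.Nt (Fn Ix BS rf dx cb co res Ev pair Tl)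
open Crest.Agent.T157.S3P (fl)
open Crest.Agent.T157.Tw (sech2)
open Fam


namespace T60

/-- the static field -/
def bv (F : Fam) : F.Df := fun i => S3P.bF (F.s i) (F.J i) (F.y i)
/-- types -/
def TyB (F : Fam) : Set F.Df :=
  {t | ∃ u : ℝ → ℝ, Continuous u ∧ (∃ B, ∀ x, |u x| ≤ B) ∧ t = fun i k => u (bv F i k)}
/-- the empirical law of the static field -/
def EmpF (F : Fam) (ν : Measure ℝ) : Prop :=
  ∀ ψ : ℝ → ℝ, Continuous ψ → (∀ x, ψ (-x) = ψ x) → (∃ B, ∀ x, |ψ x| ≤ B) →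
    Tendsto (fun i => (∑ k, ψ (bv F i k)) / F.n i) F.l (𝓝 (∫ b, ψ b ∂ν))
/-- `R` realises the model network `N` -/
structure Rz (F : Fam) {n : ℕ} (N : Nt.Net n) (R : Net F n) (Ag : F.Lf (n + 1) → Fn (Ix n) → Prop) :
    Prop where
  ok : R.Ok
  hb : R.b = bv F
  ty : R.Ty (TyB F)
  mem : ∀ g φ, Ag g φ → g ∈ R.C
  fl : ∀ φ, BS φ → Ag (S3P.fl F φ) φ
  add : ∀ g φ g' φ', Ag g φ → Ag g' φ' → Ag (g + g') (φ + φ')
  smul : ∀ (c : ℝ) g φ, Ag g φ → Ag (c • g) (c • φ)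
  mul : ∀ g φ g' φ', Ag g φ → Ag g' φ' → Ag (g * g') (φ * φ')
  pd : ∀ u g φ, Ag g φ → Ag (R.pd u g) (dx u φ)
  gs : ∀ g φ, Ag g φ → Ag (R.gs g) (Nt.gs φ)
  f : ∀ u, Ag (R.f u) (N.f u)
  ll : ∀ g φ, Ag g φ → Neg fun i => F.EV (R.ev g) i - fun k => N.E φ (bv F i k)
  dr : ∃ (Φ Γ : Flow R (n + 1)) (Pb : Fin (n + 1) → Fin (n + 1) → F.I → ℝ) (Z : Fin (n + 1) → F.Vf),
    Φ.Ok ∧ Φ.IsDrift Γ Pb Z ∧ (∀ u, Φ.al u = S3P.fl F (N.al u)) ∧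
      (∀ u v, Φ.a u v = S3P.fl F (N.a u v)) ∧ ∀ al a, N.Flw al a → ∃ A, Ag A (N.drift al a) ∧
        R.ev A = Φ.tA Pb Z (S3P.fl F al) fun u => S3P.fl F (a u)

variable {F : Fam} {n : ℕ} {N : Nt.Net n} {R : Net F n} {Ag : F.Lf (n + 1) → Fn (Ix n) → Prop}
  {ν : Measure ℝ}

lemma dx_zero {l p : Ix n} {φ : Fn (Ix n)} (h : Nt.Rd l φ) (hd : Nt.Df φ) (hp : l ≤ p) :
    dx p φ = 0 := by
  ext b s ξ
  have h1 := (hd b s ξ).hasFDerivAt.hasLineDerivAt (Pi.single p 1)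
  have h2 : (fun t : ℝ => φ b s (ξ + t • (Pi.single p 1 : Ix n → ℝ))) = fun _ => φ b s ξ :=
    funext fun t => h b s _ _ fun k hk => by simp [(hk.trans_le hp).ne]
  rw [HasLineDerivAt, h2] at h1
  exact h1.unique (hasDerivAt_const _ _)

lemma rf_mul {φ ψ : Fn (Ix n)} (h : rf φ = φ) (h' : rf ψ = ψ) : rf (φ * ψ) = φ * ψ := by
  rw [show rf (φ * ψ) = rf φ * rf ψ from rfl, h, h']

lemma rf_D : rf N.D = N.D := by
  funext b s x
  simp only [rf, Nt.Net.D, Nt.th, Pi.sub_apply, Pi.pow_apply, Pi.one_apply, Pi.neg_apply,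
    ← _root_.neg_add, Real.tanh_neg, neg_sq]

lemma D_eq (h : R.b = bv F) : R.D = fl F N.D := by
  funext i k s x
  simp only [Net.D, Net.th, h, fl, S3P.lf, Nt.Net.D, Nt.th, Pi.sub_apply, Pi.mul_apply, sq,
    Pi.one_apply, bv]

variable (T : Tl)
include T

lemma bs_D : BS N.D := (T.bs _).sub (Nt.Fact67.bs_one T) ((T.bs _).pow 2 ((T.bs _).th0 0))

lemma bs_sech : BS (cb sech2 : Fn (Ix n)) := by
  have := (T.bs (Ix n)).sub (Nt.Fact67.bs_one T) ((T.bs _).pow 2 ((T.bs _).th 0))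
  convert this using 1
  funext b s x
  simp [cb, Nt.Fact67.sech2_eq]

lemma rf_gs {φ : Fn (Ix n)} (h : rf φ = -φ) : rf (Nt.gs φ) = Nt.gs φ := by
  have h1 := (T.bs _).rgs φ
  rw [h, show Nt.gs (-φ) = -Nt.gs φ from by funext b s x; simp [Nt.gs]; ring] at h1
  exact (neg_injective h1).symm

lemma rf_dx {φ : Fn (Ix n)} (h : rf φ = -φ) (hd : Nt.Df φ) (p : Ix n) : rf (dx p φ) = dx p φ := by
  have h1 := (T.bs _).rdx p hd
  rw [h, show -φ = (-1 : ℝ) • φ by simp, (T.dx _ _).smul, neg_one_smul] at h1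
  exact (neg_injective h1).symm

lemma E_cont {φ : Fn (Ix n)} (h : BS φ) : Continuous (N.E φ) ∧ ∃ B, ∀ b, |N.E φ b| ≤ B :=
  ⟨((T.gc ℝ _ _ 0).2.2.1 N.A φ (Nt.Fact67.c0 T (Nt.Fact67.ts T h))).1,
    let ⟨B, hB⟩ := (T.bs _).bd h; ⟨B, fun b => S3I.abs_mdl_le _ _ _ (hB b)⟩⟩

theorem me_ag (hF : F.Ok) (hE : EmpF F ν) (h : Rz F N R Ag) {g : F.Lf (n + 1)} {φ : Fn (Ix n)}
    (hg : Ag g φ) (hφ : BS φ) (hr : rf φ = φ) :
    Tendsto (F.me (R.ev g)) F.l (𝓝 (F.β ^ 2 * Ev ν N.A 0 φ)) :=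
  me_lim hF (h.ll g φ hg) (hE (N.E φ) (E_cont T hφ).1 (fun x => by
    change S3L.mdl _ _ _ _ = S3L.mdl _ _ _ _
    rw [S3I.mdl_neg]
    exact congrArg _ (congrFun hr x)) (E_cont T hφ).2)

omit T in
/-- a flow family with its model letters -/
structure MF (Ag : F.Lf (n + 1) → Fn (Ix n) → Prop) (Φ : Flow R (n + 1)) (al : Ix n → Fn (Ix n))
    (a : Ix n → Ix n → Fn (Ix n)) : Prop where
  hal : ∀ l, Ag (Φ.al l) (al l) ∧ BS (al l) ∧ rf (al l) = al l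
  ha : ∀ l p, Ag (Φ.a l p) (a l p) ∧ BS (a l p) ∧ rf (a l p) = a l p
  tri : ∀ l p, l ≤ p → Φ.a l p = 0 ∧ a l p = 0

theorem pair_lim (hF : F.Ok) (hE : EmpF F ν) (h : Rz F N R Ag) {Φ Φ' : Flow R (n + 1)}
    {al al' : Ix n → Fn (Ix n)} {a a' : Ix n → Ix n → Fn (Ix n)} (m1 : MF Ag Φ al a)
    (m2 : MF Ag Φ' al' a') {g : F.Lf (n + 1)} {d : Fn (Ix n)} (hg : Ag g d) (hd : BS d)
    (hr : rf d = d) {Pb : Ix n → Ix n → F.I → ℝ} (hP : Φ.IsP Φ' g Pb) {Q : Matrix (Ix n) (Ix n) ℝ}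
    (hQ : ∀ l m, Q l m = pair F.β ν N.A 0 d (al l) (a l) (al' m) (a' m) Q) (l m : Ix n) :
    Tendsto (Pb l m) F.l (𝓝 (Q l m)) := by
  have B := T.bs (Ix n)
  refine isP_lim hP (fun l p hp => (m1.tri l p hp).1)
    (c0 := fun l m => F.β ^ 2 * Ev ν N.A 0 (al l * d * al' m))
    (c := fun l p m q => F.β ^ 2 * Ev ν N.A 0 (a l p * a' m q))
    (fun l m => me_ag T hF hE h
      (h.mul _ _ _ _ (h.mul _ _ _ _ (m1.hal l).1 hg) (m2.hal m).1)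
      (B.mul (B.mul (m1.hal l).2.1 hd) (m2.hal m).2.1)
      (rf_mul (rf_mul (m1.hal l).2.2 hr) (m2.hal m).2.2))
    (fun l p m q => me_ag T hF hE h (h.mul _ _ _ _ (m1.ha l p).1 (m2.ha m q).1)
      (B.mul (m1.ha l p).2.1 (m2.ha m q).2.1) (rf_mul (m1.ha l p).2.2 (m2.ha m q).2.2))
    (fun l p m q hp => by rw [(m1.tri l p hp).2, zero_mul, Nt.Fact67.Ev_zero T, mul_zero])
    (fun l m => by rw [hQ, pair, mul_add]; simp only [mul_sum, mul_assoc]) l m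

theorem mf_grad (h : Rz F N R Ag) (hN : N.Ok F.β ν) {Γ : Flow R (n + 1)} (hΓ : Γ.IsGrad) :
    MF Ag Γ (fun l => Nt.gs (N.f l)) fun l p => dx p (N.f l) where
  hal l := ⟨hΓ.2.1 l ▸ h.gs _ _ (h.f l), (T.bs _).gs (hN.bs l), rf_gs T (hN.od l)⟩
  ha l p := ⟨hΓ.2.2 l p ▸ h.pd _ _ _ (h.f l), (T.bs _).dx p (hN.bs l),
    rf_dx T (hN.od l) ((T.bs _).df (hN.bs l)) p⟩
  tri l p hp := ⟨hΓ.1.tri l p hp, dx_zero (hN.rd l) ((T.bs _).df (hN.bs l)) hp⟩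

omit T in
theorem mf_flow (h : Rz F N R Ag) (hN : N.Ok F.β ν) {Φ : Flow R (n + 1)} (hΦ : Φ.Ok)
    (h1 : ∀ u, Φ.al u = fl F (N.al u)) (h2 : ∀ u v, Φ.a u v = fl F (N.a u v)) :
    MF Ag Φ N.al N.a where
  hal l := ⟨h1 l ▸ h.fl _ (hN.fl l).bal, (hN.fl l).bal, (hN.ev l).1⟩
  ha l p := ⟨h2 l p ▸ h.fl _ ((hN.fl l).ba p).1, ((hN.fl l).ba p).1, (hN.ev l).2 p⟩
  tri l p hp := ⟨hΦ.tri l p hp, hN.tri l p hp⟩

omit T in
lemma let_of (h : Rz F N R Ag) (Φ : Flow R (n + 1)) {al : Fn (Ix n)} {a : Ix n → Fn (Ix n)}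
    (hf : N.Flw al a) : Φ.Let (fl F al) fun u => fl F (a u) :=
  ⟨h.mem _ _ (h.fl _ hf.bal), by
    change fl F (Nt.gs al) = 0
    rw [hf.free]; rfl, fun u => h.mem _ _ (h.fl _ (hf.ba u).1)⟩

omit T in
lemma ag_sub (h : Rz F N R Ag) {g g' : F.Lf (n + 1)} {φ φ' : Fn (Ix n)} (h1 : Ag g φ)
    (h2 : Ag g' φ') : Ag (g - g') (φ - φ') := by
  simpa only [neg_one_smul, ← sub_eq_add_neg] using h.add _ _ _ _ h1 (h.smul (-1) _ _ h2)

omit T in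
/-- realisations of the extensions -/
def RX (F : Fam) (ν : Measure ℝ) {n : ℕ} (N : Nt.Net n) (R : Net F n)
    (Ag : F.Lf (n + 1) → Fn (Ix n) → Prop) : Prop :=
  ∀ (n' : ℕ) (N' : Nt.Net n') (ι : Ix n → Ix n'), N'.Ok F.β ν → N.Ext N' ι →
    ∃ (R' : Net F n') (Ag' : F.Lf (n' + 1) → Fn (Ix n') → Prop), Rz F N' R' Ag' ∧ R.Ext R' ∧
      ∀ g φ, Ag g φ → ∃ g', Ag' g' (res ι φ) ∧ R'.ev g' = R.ev g

omit T in
/-- **(ST) realised** -/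
theorem st_of (hx : RX F ν N R Ag) (hS : Nt.STStmt F.β ν) (hN : N.Ok F.β ν) {g : F.Lf (n + 1)}
    {φ : Fn (Ix n)} (hg : Ag g φ) (hφ : BS φ) (h0 : ∀ b, N.E φ b = 0) :
    ST R (TyB F) (R.ev g) := fun e he => by
  obtain ⟨n', N', ι, al, a, o, x, hf, hb⟩ := hS n N hN φ hφ h0 (e ^ 2 / 2) (by positivity)
  obtain ⟨R', Ag', h', hX, hl⟩ := hx n' N' ι o x
  obtain ⟨g', hg', e'⟩ := hl g φ hg
  obtain ⟨Φ, Γ, Pb, Z, hΦ, hD, -, -, hA⟩ := h'.dr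
  obtain ⟨A, hA, eA⟩ := hA al a hf
  refine ⟨n', n' + 1, R', Φ, Γ, Pb, Z, _, _, h'.ok, hX, h'.ty, hΦ, hD, let_of h' Φ hf, ?_⟩
  have h1 := ag_sub h' hA hg'
  have h2 := ng_sqrt he (h'.ll _ _ (h'.mul _ _ _ _ h1 h1)) fun i k => by
    simpa only [sq] using hb (bv F i k)
  rw [← eA, ← e']
  simp only [sq]
  exact h2

/-- **the top family** -/
theorem topIn_ex [IsProbabilityMeasure ν] (hB : BILStmt) (hEx : ExStmt) (hF : F.Ok)
    (hE : EmpF F ν) (h : Rz F N R Ag) (hx : RX F ν N R Ag) (hS : Nt.STStmt F.β ν)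
    (hN : N.Ok F.β ν) {l a e : ℝ} {al0 : ℝ → ℝ} {ψ : Fn (Ix n)} {m : Ix n → Fn (Ix n)} {ρ : ℝ → ℝ}
    (ht : N.TopW l a e al0 ψ m ρ) : ∃ d : Tp R (n + 1), TopIn d (TyB F) a (8 / (l - a) ^ 2 + 2) e
      (fun i k => sech2 (bv F i k) + e) (fun i k => ρ (bv F i k) * sech2 (bv F i k))
      (fun i k => ρ (bv F i k) + ρ (bv F i k) * sech2 (bv F i k) * N.S 0 0 - a) ∧
      d.ψ = fl F ψ ∧ (∀ u, d.t u = fl F (m u)) ∧ (∀ u, d.Φ.al u = fl F (N.al u)) ∧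
      (∀ u v, d.Φ.a u v = fl F (N.a u v)) ∧ Ag d.A (N.drift (Nt.gs ψ) m) := by
  obtain ⟨ht, hW⟩ := ht
  have B := T.bs (Ix n)
  have X := T.dx ℝ (Ix n)
  obtain ⟨Φ, Γ, Pb, Z, hΦ, hD, h1, h2, hA⟩ := h.dr
  obtain ⟨A, hA, eA⟩ := hA _ _ ht.fl
  obtain ⟨P11, p11⟩ := (hEx F n (n + 1) R).2.2.1 _ Γ Γ 1 hD.1.1
  obtain ⟨P12, p12⟩ := (hEx F n (n + 1) R).2.2.1 _ Γ Φ 1 hD.1.1
  obtain ⟨P22, p22⟩ := (hEx F n (n + 1) R).2.2.1 _ Φ Φ 1 hΦ
  obtain ⟨PD, pD⟩ := (hEx F n (n + 1) R).2.2.1 _ Γ Γ R.D hD.1.1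
  have bil : ∀ {g φ}, Ag g φ → BS φ → (∀ b, N.E φ b = 0) → Bil R (TyB F) (R.ev g) :=
    fun hg hφ h0 => hB F n R _ _ hF h.ok (st_of hx hS hN hg hφ h0)
  have dco : ∀ u : Ix n, Nt.Df (co u : Fn (Ix n)) := fun u b s => differentiable_apply u
  have dmul : ∀ {φ φ' : Fn (Ix n)}, Nt.Df φ → Nt.Df φ' → Nt.Df (φ * φ') :=
    fun h h' b s => (h b s).mul (h' b s)
  have lin : ∀ (c : ℝ → ℝ) (u v : Ix n), BS (cb c : Fn (Ix n)) → BS (dx v (cb c * co u)) :=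
    fun c u v hc => by
      rw [X.cbm, X.co]
      split_ifs
      exacts [B.mul hc (B.const 1), B.mul hc (B.const 0)]
  obtain ⟨dψ, bψ⟩ : Nt.Df ψ ∧ ∀ u, BS (dx u ψ) := by
    obtain ⟨G, c, hG, hc, rfl⟩ := ht.lt
    have hs : Nt.Df (∑ l, cb (c l) * co l : Fn (Ix n)) := fun b s => by
      simpa only [Finset.sum_apply] using
        Differentiable.sum (u := univ) fun l _ => dmul (B.df (hc l)) (dco l) b s
    refine ⟨fun b s => (B.df hG b s).add (hs b s), fun u => ?_⟩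
    rw [X.add u (B.df hG) hs, X.sum u _ fun l _ => dmul (B.df (hc l)) (dco l)]
    exact B.add (B.dx u hG) (B.sum _ fun l _ => lin _ l u (hc l))
  have bq : BS (cb fun b => ρ b * sech2 b : Fn (Ix n)) := B.mul ht.bρ (bs_sech T)
  have bα : BS (cb fun b => ρ b + ρ b * sech2 b * N.S 0 0 - a : Fn (Ix n)) :=
    B.sub (B.add ht.bρ (B.mul bq (B.const _))) (B.const _)
  set W : Fn (Ix n) := cb (fun b => ρ b * sech2 b) * co 0 - a • ψ -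
    cb (fun b => ρ b + ρ b * sech2 b * N.S 0 0 - a) * Nt.sp with hWd
  have d1 : Nt.Df (a • ψ) := fun b s => (dψ b s).const_smul a
  have d2 := dmul (B.df bq) (dco 0)
  have d3 : Nt.Df (cb (fun b => ρ b * sech2 b) * co 0 - a • ψ) := fun b s => (d2 b s).sub (d1 b s)
  have d4 := B.df (B.mul bα B.sp)
  have dW : Nt.Df W := fun b s => (d3 b s).sub (d4 b s)
  have bW : ∀ u, BS (dx u W) := fun u => by
    rw [hWd, X.sub u d3 d4, X.sub u d2 d1, X.smul]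
    exact B.sub (B.sub (lin _ 0 u bq) (B.smul a (bψ u))) (B.dx u (B.mul bα B.sp))
  have gW : BS (Nt.gs W) := by
    convert B.sub (B.smul (-a) ht.fl.bal) (B.gs (B.mul bα B.sp)) using 1
    funext b s x
    simp only [hWd, Nt.gs, cb, co, Pi.sub_apply, Pi.mul_apply, Pi.smul_apply, smul_eq_mul]
    ring
  have bA : BS (N.drift (Nt.gs ψ) m) := Nt.Fact67.bs_dft T 0 N.S ht.fl.bal ht.fl.ba
  have eR : N.R a ψ m ρ = N.drift (Nt.gs ψ) m + W := by rw [Nt.Net.R, hWd]; abel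
  have AC := h.mem _ _ hA
  have pr : ∀ u, R.pd u (A + fl F W) = R.pd u A + fl F (dx u W) := fun u => by
    funext i k s x
    exact congrArg (· (Pi.single u 1)) (fderiv_add (h.ok.diff A AC i k s x) (dW _ s x))
  have ar : ∀ u, Ag (R.pd u (A + fl F W)) (dx u (N.R a ψ m ρ)) ∧ BS (dx u (N.R a ψ m ρ)) :=
    fun u => by
      rw [pr, eR, X.add u (B.df bA) dW]
      exact ⟨h.add _ _ _ _ (h.pd u _ _ hA) (h.fl _ (bW u)), B.add (B.dx u bA) (bW u)⟩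
  have gr : Ag (R.gs (A + fl F W)) (Nt.gs (N.R a ψ m ρ)) := by
    have e1 : R.gs (A + fl F W) = R.gs A + fl F (Nt.gs W) := by
      funext i k s x
      simp only [Net.gs, S3.gs, fl, S3P.lf, Nt.gs, Pi.add_apply]; ring
    have e2 : Nt.gs (N.drift (Nt.gs ψ) m + W) = Nt.gs (N.drift (Nt.gs ψ) m) + Nt.gs W := by
      funext b s x
      simp only [Nt.gs, Pi.add_apply]; ring
    rw [eR, e1, e2]
    exact h.add _ _ _ _ (h.gs _ _ hA) (h.fl _ gW)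
  have aD : Ag R.D N.D := D_eq (N := N) h.hb ▸ h.fl _ (bs_D T)
  have aψ : ∀ u, Ag (R.pd u (fl F ψ)) (dx u ψ) := fun u => h.fl _ (bψ u)
  have at' : ∀ u, Ag (fl F (m u)) (m u) := fun u => h.fl _ (ht.fl.ba u).1
  have gψ : Ag (R.gs (fl F ψ)) (Nt.gs ψ) := h.fl _ ht.fl.bal
  have mΓ := mf_grad T h hN hD.1
  have mΦ := mf_flow h hN hΦ h1 h2
  have a1 : Ag 1 1 := h.fl _ (B.const 1)
  have en' : ∀ {Pb : Ix n → Ix n → F.I → ℝ} {Q : Matrix (Ix n) (Ix n) ℝ}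
      {x x' : Ix n → F.Lf (n + 1)} {y y' : Ix n → Fn (Ix n)},
      (∀ l m, Tendsto (Pb l m) F.l (𝓝 (Q l m))) → (∀ u, Ag (x u) (y u)) → (∀ u, Ag (x' u) (y' u)) →
      Neg fun i => en R Pb x x' i - fun k => ∑ l, ∑ m, N.E (y l * y' m) (bv F i k) * Q l m :=
    fun hP hx hx' => en_neg h.ok hP (fun l => h.mem _ _ (hx l)) (fun l => h.mem _ _ (hx' l))
      fun l m => h.ll _ _ (h.mul _ _ _ _ (hx l) (hx' m))
  have lD := pair_lim T hF hE h mΓ mΓ aD (bs_D T) rf_D pD hN.hD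
  have Qe : ∀ {r : F.Lf (n + 1)} {φ : Fn (Ix n)} {c : F.Df}, Ag (R.gs r) (Nt.gs φ) →
      (∀ u, Ag (R.pd u r) (dx u φ)) → (∀ i k, N.Q φ (bv F i k) ≤ c i k) →
      Le (fun i => F.EV (R.ev (R.gs r * R.D * R.gs r)) i +
        en R PD (fun m => R.pd m r) (fun m => R.pd m r) i) c := fun hg hp hc =>
    le_of_neg (neg_congr (neg_add (h.ll _ _ (h.mul _ _ _ _ (h.mul _ _ _ _ hg aD) hg))
      (en' lD hp hp)) fun i k => by
        simp only [Pi.sub_apply, Pi.add_apply, Nt.Net.Q, sq, mul_comm (Nt.gs _) N.D, mul_assoc]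
        ring) hc
  refine ⟨⟨Φ, Γ, Pb, Z, fl F ψ, fun u => fl F (m u), A, A + fl F W, P11, P12, P22, PD⟩,
    ⟨h.ok, h.ty, hΦ, hD, ⟨fun i k s => dψ _ s, h.mem _ _ gψ, fun u => h.mem _ _ (aψ u)⟩,
    fun u => h.mem _ _ (at' u), AC, eA,
    ⟨fun i k s => (h.ok.diff A AC i k s).add (dW _ s), h.mem _ _ gr, fun u => h.mem _ _ (ar u).1⟩,
    fun ω => ?_, fun u => bil (aψ u) (bψ u) (ht.c1 u), fun u => bil (at' u) (ht.fl.ba u).1 (ht.c2 u),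
    fun u => bil (ar u).1 (ar u).2 (ht.c3 u),
    neg_congr (h.ll _ _ (h.mul _ _ _ _ aD gψ)) fun i k => by simp only [Pi.sub_apply, ht.hq],
    p11, p12, p22, pD, ?_, Qe gr (fun u => (ar u).1) fun i k => ht.QR _,
    Qe gψ aψ fun i k => hW _⟩, rfl, fun _ => rfl, h1, h2, hA⟩
  · funext k
    simp only [Net.ev, hWd, fl, S3P.lf, cb, co, Nt.sp, sv, bv, Pi.add_apply, Pi.sub_apply,
      Pi.mul_apply, Pi.smul_apply, smul_eq_mul]
    ring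
  · have z := Nt.Fact67.Ev_zero T N.A 0 ν
    have l11 := pair_lim T hF hE h mΓ mΓ a1 (B.const 1) rfl p11
      (Q := N.P1.submatrix .inl .inl) fun l m => (hN.h1 _ _).trans (by
        simp [pair, Fintype.sum_sum_type, Nt.ea, Nt.eal, z])
    have l12 := pair_lim T hF hE h mΓ mΦ a1 (B.const 1) rfl p12
      (Q := N.P1.submatrix .inl .inr) fun l m => (hN.h1 _ _).trans (by
        simp [pair, Fintype.sum_sum_type, Nt.ea, Nt.eal, z])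
    have l21 := pair_lim T hF hE h mΓ mΦ a1 (B.const 1) rfl p12
      (Q := (N.P1.submatrix .inr .inl)ᵀ) fun l m => (hN.h1 _ _).trans (by
        simp only [pair, Fintype.sum_sum_type, Nt.ea, Nt.eal, z, Sum.elim_inl, Sum.elim_inr,
          zero_mul, mul_zero, mul_one, sum_const_zero, add_zero, zero_add, transpose_apply,
          submatrix_apply]
        simp only [mul_comm (N.al _), mul_comm (N.a _ _)]
        rw [sum_comm])
    have l22 := pair_lim T hF hE h mΦ mΦ a1 (B.const 1) rfl p22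
      (Q := N.P1.submatrix .inr .inr) fun l m => (hN.h1 _ _).trans (by
        simp [pair, Fintype.sum_sum_type, Nt.ea, Nt.eal, z])
    refine le_of_neg (neg_congr (neg_add (neg_sub (neg_sub (en' l11 aψ aψ) (en' l12 aψ at'))
      (en' l21 aψ at')) (en' l22 at' at')) fun i k => ?_) fun i k => ht.en (bv F i k)
    have ng : ∀ φ : Fn (Ix n), ∀ b, N.E (-φ) b = -N.E φ b := fun φ b => by
      simpa [Nt.Net.E] using Nt.Fact67.E_smul T N.A 0 (-1) φ b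
    simp only [Pi.sub_apply, Pi.add_apply, Pi.smul_apply, smul_eq_mul, Fintype.sum_sum_type,
      Sum.elim_inl, Sum.elim_inr, mul_neg, neg_mul, ng, sum_add_distrib, sum_neg_distrib,
      submatrix_apply, transpose_apply, mul_comm (m _) (dx _ ψ)]
    rw [sum_comm (f := fun x y => N.E (dx y ψ * m x) (bv F i k) * N.P1 (.inr x) (.inl y))]
    ring


end T60

end Crest.Agent.T157.S3

end
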