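import Crest.Agent.T157.S3RA_52
import Crest.Agent.T157.NetBs_54
import Crest.Agent.T157.S3Ex_98
import Crest.Agent.T157.S3Fn_60
import Crest.Agent.T157.S3Top_60_Mg
import Crest.Agent.T157.S3RTr_75_Mg
import Crest.Agent.T157.S3LDef_65
import Crest.Agent.T157.TapPl_37
import Crest.Agent.T157.NrmG_84
import Crest.Agent.T157.ConcL_16
import Crest.Agent.T157.S3Clt_58
import Crest.Agent.T157.S3C3_65
import Crest.Agent.T157.S3CA_16
import Crest.Agent.T157.S3Ja_82
import Crest.Agent.T157.S3Prog_65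
import Crest.Agent.T157.S3Tilt_22
import Crest.Agent.T157.S3IB_52
import Crest.Agent.T157.TyF_23
import Crest.Agent.T157.S3Def_69
import Crest.Agent.T157.S3IC_52
import Crest.Agent.T157.S3Ng_60

-- ▼ part T157/S3RFin_90
section

/-! S3, realisation of a model network: the first node and the realised network (helper90). -/

set_option autoImplicit false
set_option linter.unusedVariables false

noncomputable section

namespace Crest.Agent.T157.S3R

open MeasureTheory Matrix Set Function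
open Crest.ProbabilityR.SpinGlassDynamics (spin)
open Crest.Agent.T157.S3 (Fam)
open Crest.Agent.T157.S3P (PF Prog Sm bF)
open Crest.Agent.T157.Nt (Fj Fn Ix BS dx gs sp co cb res th rf Ev Net FactStmt)

namespace F90

variable {F : Fam} {ν : Measure ℝ} {n : ℕ}

lemma mdl_spin {L κ : Type} [Fintype L] [Fintype κ] (A : Matrix L κ ℝ) (o : L) (b : ℝ)
    (c : Bool → ℝ) : S3L.mdl A o b (fun s _ => c s) = ∑ σ, S3L.hb b σ * c σ := by
  simp only [S3L.mdl, S3L.gm, integral_const, probReal_univ, smul_eq_mul, one_mul]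

lemma sm_bs {H : Fn (Ix n)} (h : BS H) : Sm H := fun s j => (Nt.bsStmt _).iter h j s

lemma sm_res {m m' : ℕ} (j : Ix m → Ix m') {φ : PF m} (h : Sm φ) : Sm (res j φ) := fun s => by
  have := (h s).clm (E' := ℝ × (Ix m' → ℝ)) ((ContinuousLinearMap.id ℝ ℝ).prodMap
    (ContinuousLinearMap.pi fun t => ContinuousLinearMap.proj (R := ℝ) (φ := fun _ => ℝ) (j t)))
  exact this

lemma me0 (i : F.I) : F.me (fun _ => 0) i = 0 := by simp [Fam.me, Fam.E, Uw.eta, E.mean]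

lemma le_refl (σ : Sta F ν) : σ.Le σ id :=
  ⟨injective_id, rfl, fun _ => rfl, fun _ _ => rfl, fun _ => Iff.rfl, fun _ => rfl,
    fun _ _ => rfl, fun _ => rfl⟩

lemma le_trans {σ σ' σ'' : Sta F ν} {j j'} (h : σ.Le σ' j) (h' : σ'.Le σ'' j') :
    σ.Le σ'' (j' ∘ j) :=
  ⟨h'.inj.comp h.inj, (congrArg j' h.zero).trans h'.zero, fun t => (h'.X _).trans (h.X t),
    fun θ t => (h'.cv θ _).trans (h.cv θ t), fun t => (h'.pm _).trans (h.pm t),
    fun t => (h'.sg _).trans (h.sg t), fun t t' => (h'.S _ _).trans (h.S t t'),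
    fun t => (h'.f _).trans (by rw [h.f]; rfl)⟩

variable {σ σ' : Sta F ν} {e : Ix n → Ix σ.m} {T : Set (Ix n)} {G G' G'' : JL F n} {φ : PF σ.m}

lemma av_le {j} (h : σ.Le σ' j) (a : σ.Av e T 0 G) : σ'.Av (j ∘ e) T 0 G :=
  let ⟨φ, h1, _, h3⟩ := a
  ⟨res j φ, sm_res j h1, .inl rfl, fun θ s η ξ hη hξ =>
    h3 θ s (η ∘ j) ξ (fun t ht => (hη _ ((h.pm t).2 ht)).trans (h.cv θ t)) hξ⟩

lemma fa_av (a : σ.Av e T 0 G) : σ.Fa e T 0 G := fun σ' j h =>
  ⟨σ', id, le_refl σ', fun t _ => ⟨t, rfl⟩, (av_le h a :)⟩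

/-- the fields sit at distinct nodes which are not parameters -/
def Gd (σ : Sta F ν) (e : Ix n → Ix σ.m) : Prop := Injective e ∧ ∀ u, e u ∉ σ.Pm

lemma Gd.le {j} (g : Gd σ e) (h : σ.Le σ' j) : Gd σ' (j ∘ e) :=
  ⟨h.inj.comp g.1, fun u hu => g.2 u ((h.pm _).1 hu)⟩

lemma fa2 (g : Gd σ e) (a : σ.Fa e T 0 G) (a' : σ.Fa e T 0 G')
    (op : ∀ (τ : Sta F ν) (d : Ix n → Ix τ.m) φ φ', Gd τ d → Sm φ → Sm φ' → τ.Ct d T G φ →
      τ.Ct d T G' φ' → ∃ ψ, Sm ψ ∧ τ.Ct d T G'' ψ) : σ.Fa e T 0 G'' := fun σ1 j h => by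
  obtain ⟨σ2, j2, h2, p2, a2⟩ := a σ1 j h
  obtain ⟨σ3, j3, h3, p3, φ', s', -, c'⟩ := a' σ2 (j2 ∘ j) (le_trans h h2)
  obtain ⟨φ, s, -, c⟩ := av_le h3 a2
  obtain ⟨ψ, sψ, cψ⟩ := op σ3 _ φ φ' (((g.le h).le h2).le h3) s s' c c'
  refine ⟨σ3, j3 ∘ j2, le_trans h2 h3, fun t ht => ?_, ψ, sψ, .inl rfl, cψ⟩
  obtain ⟨t1, rfl⟩ := p3 t ht
  obtain ⟨t0, rfl⟩ := p2 t1 fun h' => ht ((h3.pm _).2 h')
  exact ⟨t0, rfl⟩

lemma ct_eq (g : Gd σ e) (c : σ.Ct e T G φ) (θ s) {η : Ix σ.m → ℝ}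
    (hη : ∀ t ∈ σ.Pm, η t = σ.cv θ t) {ξ ξ' : Ix n → ℝ} (h : ∀ u ∈ T, ξ' u = ξ u) :
    G θ s ξ' = φ (bv F θ) s (extend e ξ η) :=
  (c θ s _ ξ' (fun t ht => by
      rw [extend_apply' _ _ _ (by rintro ⟨u, rfl⟩; exact g.2 u ht), hη t ht])
    fun u hu => by rw [g.1.extend_apply, h u hu]).symm

lemma ct_dx (g : Gd σ e) (s : Sm φ) (c : σ.Ct e univ G φ) (m : Ix n) :
    σ.Ct e univ (dx m G) (S3P.pd (e m) φ) := fun θ t η ξ hη hξ => by
  have h1 : G θ t = fun ξ => φ (bv F θ) t (extend e ξ η) :=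
    funext fun ξ => ct_eq g c θ t hη fun _ _ => rfl
  have h2 : extend e ξ η = η := funext fun u => by
    by_cases hu : ∃ v, e v = u
    · obtain ⟨v, rfl⟩ := hu
      rw [g.1.extend_apply, hξ v trivial]
    · rw [extend_apply' _ _ _ hu]
  rw [dx, h1, S3P.fderiv_extend (s.diff _ _) g.1, h2]
  rfl

lemma fa_rep (g : Gd σ e) (a : σ.Fa e univ 0 G) :
    (∃ C, ∀ θ s ξ, |G θ s ξ| ≤ C) ∧ ∀ θ s, Differentiable ℝ (G θ s) := by
  obtain ⟨τ, j, h, -, φ, s, -, c⟩ := a σ id (le_refl σ)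
  have r : ∀ θ t, G θ t = fun ξ => φ (bv F θ) t (extend (j ∘ id ∘ e) ξ (τ.cv θ)) := fun θ t =>
    funext fun ξ => ct_eq (g.le h) c θ t (fun _ _ => rfl) fun _ _ => rfl
  obtain ⟨C, -, hC⟩ := s.bd
  exact ⟨⟨C, fun θ t ξ => by rw [r]; exact hC _ _ _⟩,
    fun θ t => by rw [r]; exact S3P.diff_extend (s.diff _ _) _ _⟩

lemma fa_lift (σ : Sta F ν) (e : Ix n → Ix σ.m) {H : Fn (Ix n)} (h : Sm H) :
    σ.Fa e univ 0 (lift F H) :=
  fa_av ⟨res e H, sm_res e h, .inl rfl, fun θ s η ξ _ hξ =>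
    congrArg (H _ s) (funext fun u => (hξ u trivial).symm)⟩

lemma ct_ev {X : Ix n → F.Vf} (hX : ∀ u, X u = σ.X (e u)) (c : σ.Ct e T G φ) : ev X G = σ.e φ := by
  funext ω k
  exact (c (.inl ⟨ω.1, k⟩) (ω.2 k) (fun t => σ.X t ω k) _
    (fun t ht => congrFun (σ.ok.X_par (σ.pm t ht) ω.2) k) fun u _ => by rw [hX]).symm

variable {N : Net n} {X : Ix n → F.Vf} {π : Ix n → Ix n → F.I → ℝ}

theorem net_ok {G : Ix n → JL F n} (h : Rp N σ e univ X G π) : (net σ e X G).Ok := by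
  have g : Gd σ e := ⟨injOn_univ.1 h.bs.inj, fun u => h.bs.re u trivial⟩
  have hX : ∀ u, X u = σ.X (e u) := fun u => h.bs.X u trivial
  have c : ∀ u, σ.Ct e univ (G u) (σ.P.f (e u)) := fun u θ s η ξ hη hξ =>
    h.ct u trivial θ s η ξ hη fun v _ => hξ v trivial
  refine ⟨?_, ?_, ⟨_, fa_lift σ e .one, rfl⟩, ⟨_, fa_lift σ e (.spin' spin), rfl⟩,
    ⟨_, fa_lift σ e .th, rfl⟩, ?_, ?_, ?_, ?_, ?_,
    fun l => ⟨_, fa_av ⟨_, σ.ok.sf _, .inl rfl, c l⟩, rfl⟩, ?_, fun l i k s ξ ξ' hξ => ?_,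
    fun ω => ?_, fun l => ⟨fun i => σ.P.κ (F.s i) (F.J i) (F.y i) (e l), fun ω => ?_⟩⟩
  · rintro _ ⟨H, a, rfl⟩
    obtain ⟨C, hC⟩ := (fa_rep g a).1
    exact ⟨C, fun _ _ _ _ => hC _ _ _⟩
  · rintro _ ⟨H, a, rfl⟩ i k s
    exact (fa_rep g a).2 _ s
  · rintro _ ⟨H, a, rfl⟩ _ ⟨H', a', rfl⟩
    exact ⟨H + H', fa2 g a a' fun τ d φ φ' _ s s' c c' => ⟨_, s.add s', fun θ t η ξ hη hξ =>
      congrArg₂ (· + ·) (c θ t η ξ hη hξ) (c' θ t η ξ hη hξ)⟩, rfl⟩
  · rintro r _ ⟨H, a, rfl⟩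
    exact ⟨r • H, fa2 g a a fun τ d φ φ' _ s s' c c' => ⟨_, s.smul r, fun θ t η ξ hη hξ =>
      congrArg (r * ·) (c θ t η ξ hη hξ)⟩, rfl⟩
  · rintro _ ⟨H, a, rfl⟩ _ ⟨H', a', rfl⟩
    exact ⟨H * H', fa2 g a a' fun τ d φ φ' _ s s' c c' => ⟨_, s.mul s', fun θ t η ξ hη hξ =>
      congrArg₂ (· * ·) (c θ t η ξ hη hξ) (c' θ t η ξ hη hξ)⟩, rfl⟩
  · rintro _ ⟨H, a, rfl⟩ m
    exact ⟨dx m H, fa2 g a a fun τ d φ φ' g' s s' c c' => ⟨_, s.pd _, ct_dx g' s c m⟩, rfl⟩
  · rintro _ ⟨H, a, rfl⟩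
    exact ⟨gs H, fa2 g a a fun τ d φ φ' _ s s' c c' => ⟨_, s.gs, fun θ t η ξ hη hξ =>
      congrArg₂ (fun x y : ℝ => (x - y) / 2) (c θ _ η ξ hη hξ) (c θ _ η ξ hη hξ)⟩, rfl⟩
  · funext i k s ξ
    refine (ct_eq g (c 0) (.inl ⟨i, k⟩) s (fun _ _ => rfl) fun _ _ => rfl).trans ?_
    rw [h.bs.e0, σ.ok.f0]
    rfl
  · exact (ct_eq g (h.ct l trivial) (.inl ⟨i, k⟩) s (fun _ _ => rfl) fun _ _ => rfl).trans
      (ct_eq g (h.ct l trivial) (.inl ⟨i, k⟩) s (fun _ _ => rfl) fun u hu => (hξ u hu.2).symm).symm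
  · change X 0 ω = _
    rw [hX, h.bs.e0]
    exact σ.ok.X0 ω.2
  · change X l ω = F.J ω.1 *ᵥ ev X (G l) ω - ∑ m, F.me (ev X (dx m (G l))) ω.1 • ev X (G m) ω - _
    rw [hX, ct_ev hX (c l)]
    refine (σ.ok.X_eq (e l) ω.2).trans ?_
    congr 2
    refine (Fintype.sum_of_injective e g.1 _ _ (fun t ht => ?_) fun m => ?_).symm
    · rw [σ.pm t (by_contra fun h' => let ⟨u, _, hu⟩ := h.sur t h'; ht ⟨u, hu⟩)]
      exact smul_zero _
    · rw [ct_ev hX (ct_dx g (σ.ok.sf _) (c l) m), ct_ev hX (c m)]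
      rfl

lemma tA_zero (Z : Ix n → F.Vf) (ω : F.Ω) : tA X π Z 0 0 ω = 0 := by
  have e1 : ev X (lift F (0 : Fn (Ix n))) ω = 0 := rfl
  have e2 : ∀ p, ev X (dx p (lift F (0 : Fn (Ix n)))) ω = 0 := fun p => by
    funext k
    change fderiv ℝ (fun _ : Ix n → ℝ => (0 : ℝ)) _ _ = 0
    simp
  simp [tA, e1, e2]

end F90

open F90

theorem baseStmt : BaseStmt := fun F ν _ n N hN => by
  have hS : 0 ≤ N.S 0 0 := hN.pd.posSemidef.diag_nonneg
  have nd : ¬ N.dr 0 := fun h => lt_irrefl _ (hN.drf 0 h).1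
  have eS : ∀ l m : Fin 1, ((of fun _ _ => √(N.S 0 0) : Matrix (Fin 1) (Fin 1) ℝ) *
      (of fun _ _ => √(N.S 0 0) : Matrix (Fin 1) (Fin 1) ℝ)ᵀ) l m = N.S 0 0 := fun l m => by
    simp [mul_apply, Real.mul_self_sqrt hS]
  let σ : Sta F ν :=
    { m := 0, r := 1, P := ⟨fun _ _ s _ => spin s, 0, 0⟩, sg := fun _ => -1, Pm := ∅
      M := of fun _ _ => √(N.S 0 0), cM := 0
      ok := ⟨fun _ => .spin' spin, fun _ => .zero, fun _ => .zero, fun _ _ _ _ _ _ => rfl,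
        fun _ _ _ _ _ _ => rfl, fun _ _ _ _ _ _ => rfl, rfl, rfl, rfl⟩
      par := ⟨fun _ => .inr rfl, fun _ _ s _ => by cases s <;> simp [spin],
        fun _ _ _ _ => (mul_zero _).symm, fun _ _ _ _ => rfl, fun _ h => by norm_num at h,
        fun _ _ => rfl⟩
      mod := ⟨fun b l => by simp [S3I.Eb_zero], fun l m => by
        rw [eS, hN.gr]
        simp only [Nt.gram, of_apply, hN.f0, Nt.Cv]
        congr 2
        funext b
        exact congrArg₂ (· - ·) ((mdl_spin _ _ b fun s => spin s * spin s).trans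
          (mdl_spin _ _ b fun s => spin s * spin s).symm)
          (congrArg₂ (· * ·) ((mdl_spin _ _ b spin).trans (mdl_spin _ _ b spin).symm)
            ((mdl_spin _ _ b spin).trans (mdl_spin _ _ b spin).symm))⟩
      pm := fun _ h => h.elim
      re := fun _ _ => ⟨rfl, rfl, rfl⟩
      z := id }
  refine ⟨σ, fun _ => 0, fun _ => σ.X 0, fun _ => sp, 0, ⟨rfl, rfl, fun u hu v hv _ =>
    hu.trans hv.symm, fun _ _ => id, ?_, fun _ _ => rfl⟩,
    fun t _ => ⟨0, rfl, Subsingleton.elim (α := Fin 1) _ _⟩, fun _ _ _ _ _ _ _ _ => rfl, ?_, ?_,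
    ?_, ?_⟩
  · rintro _ rfl _ rfl
    exact eS 0 0
  · rintro _ rfl
    exact hN.f0.symm
  · rintro _ rfl
    rw [(hN.nd 0 nd).1, (hN.nd 0 nd).2]
    exact ⟨fun _ _ _ _ _ => rfl, fun v => ⟨fun _ _ _ _ _ => rfl, fun _ => rfl⟩⟩
  · rintro _ rfl _ rfl
    funext i
    have : lift F (0 : Fn (Ix n)) = 0 := rfl
    simp only [piR, (hN.nd 0 nd).1, this, zero_mul, Pi.zero_apply, mul_zero, Finset.sum_const_zero,
      add_zero]
    exact (me0 i).symm
  · rintro _ rfl h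
    exact (nd h).elim

theorem finStmt (hF : FlowStmt) : FinStmt := fun F ν _ n N σ e D X G π hN h hD => by
  subst hD
  classical
  have ok := net_ok h
  obtain ⟨Φ, hΦ, e1, e2⟩ := (S3.exStmt F n (n + 1) (net σ e X G)).1 (fun u => S3P.fl F (N.al u))
    (fun u v => S3P.fl F (N.a u v)) (fun l => ⟨⟨_, fa_lift σ e (sm_bs (hN.fl l).bal), rfl⟩, by
      funext i k s ξ
      exact congrFun (congrFun (congrFun (hN.fl l).free _) s) ξ,
      fun m => ⟨_, fa_lift σ e (sm_bs ((hN.fl l).ba m).1), rfl⟩⟩)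
    fun l m hl => by rw [hN.tri l m hl]; rfl
  obtain ⟨Γ, hΓ⟩ := (S3.exStmt F n (n + 1) (net σ e X G)).2.1 ok
  let Z : Ix n → F.Vf := fun l => if N.dr l then Zf N X G l else 0
  have tz : ∀ al a, N.Flw al a →
      Φ.tA π Z (S3P.fl F al) (fun v => S3P.fl F (a v)) = tA X π (Zf N X G) al a := fun al a hf => by
    funext ω
    change F.τ ω * ev X (lift F al) ω + ∑ m, ev X (lift F (a m)) ω * Z m ω - _ = _
    refine congrArg₂ (· - ·) (congrArg _ (Finset.sum_congr rfl fun m _ => ?_)) rfl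
    by_cases hm : N.dr m
    · simp only [Z, if_pos hm]
    · rw [hf.nd m hm]
      exact (zero_mul _).trans (zero_mul _).symm
  have ot : ∀ i l m, Φ.ot i l m = F.me (ev X (lift F (N.a l m))) i := fun i l m => by
    rw [S3.Flow.ot, e2]; rfl
  have tA' : ∀ l, Φ.tA π Z (Φ.al l) (Φ.a l) = tA X π (Zf N X G) (N.al l) (N.a l) := fun l => by
    rw [e1, e2]; exact tz _ _ (hN.fl l)
  refine ⟨ok, Φ, Γ, Z, hΦ, ⟨hΓ, fun l m i => ?_, fun l ω => ?_⟩, fun u => by rw [e1],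
    fun u v => by rw [e2], fun al a hf => ?_⟩
  · simp only [e1, e2, hΓ.2.1, hΓ.2.2]
    exact congrFun (h.pi l trivial m trivial) i
  · by_cases hl : N.dr l
    · have : Φ.U π Z l = fun ω => F.J ω.1 *ᵥ ev X (G l) ω -
          ∑ m, F.me (ev X (lift F (N.a l m))) ω.1 • ev X (G m) ω := by
        funext ω
        simp only [S3.Flow.U, tA', ot, ← h.dr l trivial hl]
        refine congrArg _ (Finset.sum_congr rfl fun m _ => ?_)
        by_cases hm : N.dr m
        · rw [← h.dr m trivial hm]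
        · have : F.me (ev X (lift F (N.a l m))) ω.1 = 0 := by rw [(hN.fl l).nd m hm]; exact me0 _
          rw [this, zero_smul, zero_smul]
      rw [this]
      simp only [Z, if_pos hl]
      rfl
    · have : Φ.U π Z l = 0 := by
        funext ω
        have : ∀ m, F.me (ev X (lift F (N.a l m))) ω.1 = 0 := fun m => by
          rw [(hN.nd l hl).2]; exact me0 _
        simp only [S3.Flow.U, tA', ot, this, zero_smul, Finset.sum_const_zero, sub_zero]
        rw [(hN.nd l hl).1, (hN.nd l hl).2, tA_zero, mulVec_zero]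
        rfl
      rw [this]
      simp only [Z, if_neg hl]
      ext k
      simp [Fam.EV, E.meanV, E.mean]
  · have hon : ∀ H : Fn (Ix n), On univ H := fun H θ s x x' hx => by
      rw [funext fun u => hx u trivial]
    obtain ⟨A, a1, a2, a3⟩ := hF F ν n N σ e univ X G π hN h univ Subset.rfl trivial
      (fun _ _ => subset_univ _) al a 0 hf (hon _) (fun _ => hon _) (fun v hv => (hv trivial).elim)
      (.inl rfl)
    rw [neg_zero] at a1
    exact ⟨ins A, ⟨A, a1, rfl, a2.symm⟩, a3.trans (tz al a hf).symm⟩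

end Crest.Agent.T157.S3R

end
end

-- ▼ part T157/S3RAll_52
section

/-! S3, realisation (helper52): assembly. -/

set_option autoImplicit false

noncomputable section

namespace Crest.Agent.T157.S3R

open MeasureTheory Set
open Crest.Agent.T157.S3 (Fam)
open Crest.Agent.T157.S3.T60 (Rz RX)
open Crest.Agent.T157.Nt (Ix Net Tl FactStmt)

variable {F : Fam} {ν : Measure ℝ} [IsProbabilityMeasure ν] {n : ℕ} {N : Net n}

theorem flow (T : Tl) (hF : FactStmt) : FlowStmt :=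
  flowStmt T.bs (piStmt (parStmt appStmt) hF) (zetaStmt T.bs hF (parStmt appStmt))

theorem Rp.rz (T : Tl) (hF : FactStmt) (hL : LP F ν) (hN : N.Ok F.β ν) {σ : Sta F ν}
    {e : Ix n → Ix σ.m} {X : Ix n → F.Vf} {G : Ix n → JL F n} {π : Ix n → Ix n → F.I → ℝ}
    (h : Rp N σ e univ X G π) : Rz F N (net σ e X G) (Ag σ e) :=
  let ⟨h1, Φ, Γ, Z, h2⟩ := finStmt (flow T hF) F ν n N σ e univ X G π hN h rfl
  { ok := h1
    hb := rfl
    ty := fun _ hd => let ⟨φ, hφ⟩ := Ag.of_mem hd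
      ⟨_, ⟨N.E φ, (hφ.cont h.bs).1, (hφ.cont h.bs).2, rfl⟩, hφ.ll h.bs hL⟩
    mem := fun _ _ => Ag.mem
    fl := fun _ => Ag.fl T.bs h.bs
    add := fun _ _ _ _ => Ag.add
    smul := fun c _ _ => Ag.smul c
    mul := fun _ _ _ _ => Ag.mul
    pd := fun u _ _ => Ag.pd h.bs u
    gs := fun _ _ => Ag.gs
    f := Ag.f h
    ll := fun _ _ => Ag.ll h.bs hL
    dr := ⟨Φ, Γ, π, Z, h2⟩ }


end Crest.Agent.T157.S3R

end
end

-- ▼ part T157/S3Row_65
section

/-!
# Row 157, block B/S3, section 4: quenched = annealed cavity law at every site (helper65)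
-/

set_option autoImplicit false

noncomputable section

namespace Crest.Agent.T157.S3L

open MeasureTheory ProbabilityTheory Matrix Filter Set Topology
open Crest.ProbabilityR.SpinGlassDynamics
open Crest.Agent.T157.E Crest.Agent.T157.Tap Crest.Agent.T157.Cond
open Crest.Agent.T157.Conc (en ELip en_nonneg en_sq)

namespace Row65

/-- finite nets of the class of `1`-Lipschitz functions -/
theorem net (L : Type) [Fintype L] {η : ℝ} (hη : 0 < η) : ∃ T : Set ((L → ℝ) → ℝ), T.Finite ∧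
    (∀ ψ ∈ T, ELip 1 ψ) ∧ ∀ φ, ELip 1 φ → ∃ ψ ∈ T, ∀ x, |φ x - φ 0 - ψ x| ≤ η * (1 + en x ^ 2) := by
  classical
  set N : ℝ := (Fintype.card L : ℝ) with hN
  have hN0 : 0 ≤ N := Nat.cast_nonneg _
  have hε : 0 < η / (2 * N + 1) := by positivity
  obtain ⟨P, hPf, hP⟩ := Metric.totallyBounded_iff.1
    (isCompact_closedBall (0 : L → ℝ) (2 / η)).totallyBounded _ hε
  have := hPf.fintype
  let ev : ((L → ℝ) → ℝ) → P → ℝ := fun φ p => φ p - φ 0
  have hb : Bornology.IsBounded (ev '' {φ | ELip 1 φ}) := by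
    refine (Metric.isBounded_closedBall (x := 0) (r := ∑ p : P, en p.1)).subset ?_
    rintro _ ⟨φ, hφ, rfl⟩
    have h0 : 0 ≤ ∑ p : P, en p.1 := Finset.sum_nonneg fun p _ => en_nonneg _
    rw [mem_closedBall_zero_iff, pi_norm_le_iff_of_nonneg h0]
    intro p
    have := hφ p 0
    rw [one_mul, sub_zero] at this
    exact this.trans (Finset.single_le_sum (f := fun p : P => en p.1) (fun p _ => en_nonneg _)
      (Finset.mem_univ p))
  obtain ⟨t, hts, htf, ht⟩ := Metric.finite_approx_of_totallyBounded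
    (hb.isCompact_closure.totallyBounded.subset subset_closure) _ hε
  have hts' : ∀ y ∈ t, ∃ φ, ELip 1 φ ∧ ev φ = y := fun y hy => hts hy
  choose! g hg hge using hts'
  refine ⟨(fun y x => g y x - g y 0) '' t, htf.image _, ?_, fun φ hφ => ?_⟩
  · rintro _ ⟨y, hy, rfl⟩
    exact (hg y hy).sub_const _
  obtain ⟨y, hy, hφy⟩ := mem_iUnion₂.1 (ht ⟨φ, hφ, rfl⟩)
  refine ⟨_, ⟨y, hy, rfl⟩, fun x => ?_⟩
  have hG : ELip 1 (g y) := hg y hy
  have hx0 := en_nonneg x
  by_cases hx : ‖x‖ ≤ 2 / η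
  · obtain ⟨p, hp, hxp⟩ := mem_iUnion₂.1 (hP (mem_closedBall_zero_iff.2 hx))
    rw [Metric.mem_ball, dist_eq_norm] at hxp hφy
    have e1 : en (x - p) ≤ N * (η / (2 * N + 1)) :=
      (Conc.en_le_card_norm _).trans (mul_le_mul_of_nonneg_left hxp.le hN0)
    have e2 : |φ p - φ 0 - (g y p - g y 0)| ≤ η / (2 * N + 1) := by
      have := (norm_le_pi_norm (ev φ - y) ⟨p, hp⟩).trans hφy.le
      rwa [← hge y hy] at this
    have e3 := hφ x p
    have e4 := hG x p
    have e5 : η / (2 * N + 1) * (2 * N + 1) = η := div_mul_cancel₀ _ (by positivity)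
    rw [abs_le] at e2 e3 e4 ⊢
    constructor <;> nlinarith [sq_nonneg (en x)]
  · have h1 : 2 / η < en x := (not_le.1 hx).trans_le (Conc.norm_le_en x)
    rw [div_lt_iff₀ hη] at h1
    have e3 := hφ x 0
    have e4 := hG x 0
    rw [sub_zero, abs_le] at e3 e4
    rw [abs_le]
    constructor <;> nlinarith

variable {n : ℕ}

lemma meas_rs (i : Fin n) {Ω : Type*} [MeasurableSpace Ω] {W : Ω → Mx n} {z : Ω → V n}
    (hW : Measurable W) (hz : Measurable z) : Measurable fun ω => rs i (W ω) (z ω) := by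
  refine measurable_mat_iff.2 fun k l => ?_
  unfold rs
  split_ifs
  · exact (measurable_pi_apply l).comp hz
  · exact (measurable_pi_apply k).comp hz
  · exact hW.t157_entry k l

/-- resampling a row preserves the GOE -/
theorem map_rs (s : ℝ) (i : Fin n) : ((goe (Fin n) s).prod (gv (Fin n))).map
    (fun p => rs i p.1 (s • p.2)) = goe (Fin n) s := by
  refine map_eq_goe (meas_rs i measurable_fst (by fun_prop)) fun M => ?_
  let M' : Mx n := fun k l => if (k = i ∧ l ≠ i) ∨ (l = i ∧ k ≠ i) then 0 else M k l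
  let a : V n := fun l => if l = i then 0 else s * (M i l + M l i)
  have key : ∀ (F : Fin n → Fin n → ℝ), ∑ k, ∑ l, F k l =
      (∑ k, ∑ l, if (k = i ∧ l ≠ i) ∨ (l = i ∧ k ≠ i) then 0 else F k l) +
        ∑ l, if l = i then 0 else F i l + F l i := fun F => by
    have e1 : ∑ l, (if l = i then 0 else F i l + F l i) =
        (∑ k, ∑ l, if k = i ∧ l ≠ i then F k l else 0) +
          ∑ k, ∑ l, if l = i ∧ k ≠ i then F k l else 0 := by
      rw [Finset.sum_comm, ← Finset.sum_add_distrib]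
      refine Finset.sum_congr rfl fun l _ => ?_
      by_cases h : l = i <;> simp [h]
    rw [e1, ← Finset.sum_add_distrib, ← Finset.sum_add_distrib]
    refine Finset.sum_congr rfl fun k _ => ?_
    rw [← Finset.sum_add_distrib, ← Finset.sum_add_distrib]
    refine Finset.sum_congr rfl fun l _ => ?_
    by_cases h : k = i <;> by_cases h' : l = i <;> simp [h, h']
  have e : ∀ p : Mx n × V n, pair M (rs i p.1 (s • p.2)) = pair M' p.1 + a ⬝ᵥ p.2 := fun p => by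
    rw [pair, key, pair, dotProduct]
    congr 1
    · refine Finset.sum_congr rfl fun k _ => Finset.sum_congr rfl fun l _ => ?_
      by_cases h : k = i <;> by_cases h' : l = i <;> simp [h, h', M', rs]
    · refine Finset.sum_congr rfl fun l _ => ?_
      by_cases h' : l = i
      · simp [h', a]
      · simp [h', a, rs]; ring
  simp only [e]
  rw [CF_prod (goe (Fin n) s) (gv (Fin n)) (fun W => pair M' W) (fun z => a ⬝ᵥ z), CF_goe, CF_gv,
    ← Complex.exp_add]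
  have h2 : s ^ 2 * Vq M = s ^ 2 * Vq M' + a ⬝ᵥ a := by
    rw [Vq_eq_sum, Vq_eq_sum, key fun k l => (M k l + M l k) ^ 2, add_div, mul_add, dotProduct]
    congr 1
    · congr 2
      refine Finset.sum_congr rfl fun k _ => Finset.sum_congr rfl fun l _ => ?_
      by_cases h : k = i <;> by_cases h' : l = i <;> simp [h, h', M']
    · rw [Finset.sum_div, Finset.mul_sum]
      refine Finset.sum_congr rfl fun l _ => ?_
      by_cases h' : l = i
      · simp [h', a]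
      · simp [h', a]; ring
  rw [h2]
  congr 1
  push_cast
  ring

lemma plW_rs (β : ℝ) (i : Fin n) (W : Mx n) (u σ : V n) :
    plW β (rs i W u) σ = rs i (plW β W σ) (u + (β / n * σ i) • σ) := by
  ext k l
  by_cases h : k = i <;> by_cases h' : l = i <;> simp [h, h', rs, plW, vecMulVec_apply] <;> ring

/-- planted probability of an event with small row sections -/
theorem row_le (β s : ℝ) (i : Fin n) (σ : V n) {A : Set (Mx n × V n)} (hA : MeasurableSet A)
    {δ : ENNReal} (h : ∀ W y, gv (Fin n)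
      {z | (rs i W ((1 / √n : ℝ) • z + (β / n * σ i) • σ), y) ∈ A} ≤ δ) :
    ((GOE n).prod (gv (Fin n))) {z | (plW β z.1 σ, s • σ + √s • z.2) ∈ A} ≤ δ := by
  have hB : MeasurableSet {z : Mx n × V n | (plW β z.1 σ, s • σ + √s • z.2) ∈ A} :=
    hA.preimage (by unfold plW; fun_prop)
  rw [Measure.prod_apply_symm hB]
  refine (lintegral_mono fun g => ?_).trans_eq (by rw [lintegral_const, measure_univ, mul_one])
  have hm := meas_rs i (measurable_fst (β := V n)) (z := fun p => (1 / √n : ℝ) • p.2) (by fun_prop)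
  have hBg := measurable_prodMk_right (y := g) hB
  rw [GOE, ← map_rs _ i, Measure.map_apply hm hBg, Measure.prod_apply (hm hBg)]
  refine (lintegral_mono fun W => ?_).trans_eq (by rw [lintegral_const, measure_univ, mul_one])
  refine le_of_eq_of_le (congrArg _ ?_) (h (plW β W σ) (s • σ + √s • g))
  ext z
  simp only [mem_preimage, mem_ofPred_eq, plW_rs]

section quench
variable {L Ω : Type} [Fintype L] [Fintype Ω] {w : Ω → ℝ} {M : Ω → Matrix L (Fin n) ℝ} {C : ℝ}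

/-- the cavity mean of a test function as a function of the row -/
def Ph (w : Ω → ℝ) (M : Ω → Matrix L (Fin n) ℝ) (φ : (L → ℝ) → ℝ) (u : V n) : ℝ :=
  mean w fun x => φ (M x *ᵥ u)

/-- covariance bound -/
def Cv (w : Ω → ℝ) (M : Ω → Matrix L (Fin n) ℝ) (C : ℝ) : Prop :=
  ∀ u : V n, (mean w fun x => en (M x *ᵥ u) ^ 2) ≤ C * en u ^ 2

lemma mean_le_sqrt (hw : SL.Wt w) (f : Ω → ℝ) : mean w f ≤ √(mean w fun x => f x ^ 2) := by
  refine Real.le_sqrt_of_sq_le ?_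
  have h := hw.var_nonneg f
  rw [SL.var_eq_cov, hw.cov_eq] at h
  simp only [sq]
  linarith

lemma abs_mean_sub (hw : SL.Wt w) {f g d : Ω → ℝ} (h : ∀ x, |f x - g x| ≤ d x) :
    |mean w f - mean w g| ≤ mean w d := by
  rw [← SL.mean_sub, abs_le, neg_le, ← SL.mean_neg]
  exact ⟨hw.mean_mono fun x => (neg_le_abs _).trans (h x),
    hw.mean_mono fun x => (le_abs_self _).trans (h x)⟩

lemma elip_Ph (hw : SL.Wt w) (hC : 0 ≤ C) (h : Cv w M C) {φ : (L → ℝ) → ℝ} (hφ : ELip 1 φ) :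
    ELip √C (Ph w M φ) := fun u v => by
  refine (abs_mean_sub hw (d := fun x => en (M x *ᵥ (u - v))) fun x => ?_).trans
    ((mean_le_sqrt hw _).trans ?_)
  · simpa [mulVec_sub] using hφ (M x *ᵥ u) (M x *ᵥ v)
  · rw [← Real.sqrt_sq (en_nonneg (u - v)), ← Real.sqrt_mul hC]
    exact Real.sqrt_le_sqrt (h _)

lemma elip_smul {K : ℝ} {F : V n → ℝ} (h : ELip K F) (c : ℝ) :
    ELip (K * |c|) fun z => F (c • z) := fun u v => by
  have := h (c • u) (c • v)
  rwa [← smul_sub, Conc.en_smul, ← mul_assoc] at this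

lemma Ph_sub (hw : SL.Wt w) (h : Cv w M C) {φ ψ : (L → ℝ) → ℝ} {η : ℝ} (hη : 0 ≤ η)
    (hφ : ∀ x, |φ x - φ 0 - ψ x| ≤ η * (1 + en x ^ 2)) (u : V n) :
    |Ph w M φ u - φ 0 - Ph w M ψ u| ≤ η * (1 + C * en u ^ 2) := by
  have := abs_mean_sub hw (f := fun x => φ (M x *ᵥ u) - φ 0) (g := fun x => ψ (M x *ᵥ u))
    fun x => hφ (M x *ᵥ u)
  rw [SL.mean_sub, hw.mean_const, SL.mean_const_mul, SL.mean_add, hw.mean_const] at this
  exact this.trans (mul_le_mul_of_nonneg_left (add_le_add le_rfl (h u)) hη)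

lemma en_sq_dot (u : V n) : en u ^ 2 = u ⬝ᵥ u := by rw [en_sq]; simp [dotProduct, sq]

lemma int_Ph_sub (hn : 0 < n) (hw : SL.Wt w) (hC : 0 ≤ C) (h : Cv w M C) {φ ψ : (L → ℝ) → ℝ}
    {η : ℝ} (hη : 0 ≤ η) (h1 : ELip 1 φ) (h2 : ELip 1 ψ)
    (hφ : ∀ x, |φ x - φ 0 - ψ x| ≤ η * (1 + en x ^ 2)) :
    |(∫ z, Ph w M φ ((1 / √n : ℝ) • z) ∂gv (Fin n)) - φ 0 -
      ∫ z, Ph w M ψ ((1 / √n : ℝ) • z) ∂gv (Fin n)| ≤ η * (1 + C) := by
  have i1 := (elip_smul (elip_Ph hw hC h h1) (1 / √n)).integrable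
  have i2 := (elip_smul (elip_Ph hw hC h h2) (1 / √n)).integrable
  have hn' : (0 : ℝ) < n := Nat.cast_pos.2 hn
  have i3 : Integrable (fun z : V n => η * (1 + C / n * (z ⬝ᵥ z))) (gv (Fin n)) :=
    ((integrable_const _).add (Nrm.integrable_dot_self.const_mul _)).const_mul _
  have e : ∫ z : V n, η * (1 + C / n * (z ⬝ᵥ z)) ∂gv (Fin n) = η * (1 + C) := by
    rw [integral_const_mul, integral_add (integrable_const _)
      (Nrm.integrable_dot_self.const_mul _), integral_const_mul, Nrm.integral_dot_self]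
    simp [hn'.ne']
  have e0 : φ 0 = ∫ _ : V n, φ 0 ∂gv (Fin n) := by simp
  have i4 : Integrable (fun z => Ph w M φ ((1 / √n : ℝ) • z) - φ 0) (gv (Fin n)) :=
    i1.sub (integrable_const _)
  rw [e0, ← integral_sub i1 (integrable_const _), ← integral_sub i4 i2, ← e]
  rw [← Real.norm_eq_abs]
  refine norm_integral_le_of_norm_le i3 (.of_forall fun z => ?_)
  rw [Real.norm_eq_abs]
  refine (Ph_sub hw h hη hφ _).trans_eq ?_
  rw [Conc.en_smul, mul_pow, sq_abs, div_pow, Real.sq_sqrt hn'.le, en_sq_dot]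
  ring

/-- concentration in the (shifted) row -/
lemma sec_le (hn : 0 < n) (hw : SL.Wt w) (hC : 0 < C) (h : Cv w M C) {ψ : (L → ℝ) → ℝ}
    (hψ : ELip 1 ψ) {v : V n} {ε : ℝ} (hv : √C * en v ≤ ε) :
    gv (Fin n) {z | 2 * ε < |Ph w M ψ ((1 / √n : ℝ) • z + v) -
      ∫ z, Ph w M ψ ((1 / √n : ℝ) • z) ∂gv (Fin n)|} ≤
      ENNReal.ofReal (2 * Real.exp (-(ε ^ 2 / (2 * C)) * n)) := by
  have hl := elip_Ph hw hC.le h hψ
  have hε : 0 ≤ ε := le_trans (mul_nonneg (Real.sqrt_nonneg _) (en_nonneg _)) hv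
  have hn' : (0 : ℝ) < n := Nat.cast_pos.2 hn
  have := Conc.tail_lip_abs (elip_smul hl (1 / √n)) hε
  rw [mul_pow, sq_abs, div_pow, Real.sq_sqrt hn'.le, Real.sq_sqrt hC.le,
    show -ε ^ 2 / (2 * (C * (1 ^ 2 / n))) = -(ε ^ 2 / (2 * C)) * n by field_simp] at this
  rw [← ofReal_measureReal]
  refine ENNReal.ofReal_le_ofReal (le_trans (measureReal_mono fun z hz => ?_) this)
  have h1 := hl ((1 / √n : ℝ) • z + v) ((1 / √n : ℝ) • z)
  rw [add_sub_cancel_left] at h1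
  have h2 := abs_sub_le (Ph w M ψ ((1 / √n : ℝ) • z + v)) (Ph w M ψ ((1 / √n : ℝ) • z))
    (∫ z, Ph w M ψ ((1 / √n : ℝ) • z) ∂gv (Fin n))
  simp only [mem_ofPred_eq] at hz ⊢
  linarith

end quench

section cav
variable {L : Type} [Fintype L] (c : Cav L n) (C ε : ℝ) (ψ : (L → ℝ) → ℝ) (i : Fin n)

/-- the measurable bad event of one site and one test function -/
def ev : Set (Mx n × V n) := {p | Cv (c.w i p) (c.M i p) C} ∩
  {p | 2 * ε < |Ph (c.w i p) (c.M i p) ψ (p.1 i) -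
    ∫ z, Ph (c.w i p) (c.M i p) ψ ((1 / √n : ℝ) • z) ∂gv (Fin n)|}

omit [Fintype L] in
lemma meas_mean {α : Type*} [MeasurableSpace α] {q : α → Mx n × V n} (hq : Measurable q)
    {F : α → Cube n → ℝ} (hF : ∀ x, Measurable fun a => F a x) :
    Measurable fun a => mean (c.w i (q a)) (F a) :=
  Finset.measurable_sum _ fun x _ => (((c.mw i x).comp hq).div
    (Finset.measurable_sum _ fun x _ => (c.mw i x).comp hq)).mul (hF x)

omit [Fintype L] in
lemma meas_M (x : Cube n) : Measurable fun p => c.M i p x := measurable_mat_iff.2 (c.mM i x)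

lemma meas_ev {ψ : (L → ℝ) → ℝ} (hψ : ELip 1 ψ) : MeasurableSet (ev c C ε ψ i) := by
  have hm := hψ.continuous.measurable
  refine .inter ?_ (measurableSet_lt measurable_const (Measurable.abs (.sub ?_ ?_)))
  · let q : Mx n × V n → (Cube n → ℝ) × (Cube n → L → Fin n → ℝ) :=
      fun p => (prob (c.w i p), fun x l k => c.M i p x l k)
    have hq : Measurable q := .prodMk (measurable_pi_lambda _ fun x => (c.mw i x).div
      (Finset.measurable_sum _ fun x _ => c.mw i x)) (measurable_pi_lambda _ fun x =>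
        measurable_pi_lambda _ fun l => measurable_pi_lambda _ fun k => c.mM i x l k)
    have hc : IsClosed (⋂ u : V n, {θ : (Cube n → ℝ) × (Cube n → L → Fin n → ℝ) |
        ∑ x, θ.1 x * ∑ l, (∑ k, θ.2 x l k * u k) ^ 2 ≤ C * en u ^ 2}) :=
      isClosed_iInter fun u => isClosed_le (by fun_prop) continuous_const
    convert hq hc.measurableSet using 1
    ext p
    simp only [Cv, mean, en_sq, mem_preimage, mem_iInter, mem_ofPred_eq, q, mulVec, dotProduct]
  · exact meas_mean c i measurable_id fun x => hm.comp ((meas_M c i x).t157_mulVec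
      ((measurable_pi_apply i).comp measurable_fst))
  · exact (StronglyMeasurable.integral_prod_right' (f := fun a : (Mx n × V n) × V n =>
      Ph (c.w i a.1) (c.M i a.1) ψ ((1 / √n : ℝ) • a.2)) (meas_mean c i measurable_fst fun x =>
        hm.comp (((meas_M c i x).comp measurable_fst).t157_mulVec
          (by fun_prop))).stronglyMeasurable).measurable

omit [Fintype L] in
lemma Ph_rs (p : Mx n × V n) (W : Mx n) (u : V n) :
    Ph (c.w i p) (c.M i p) ψ (rs i W u i) = Ph (c.w i p) (c.M i p) ψ u := by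
  unfold Ph
  congr 1
  ext x
  congr 1
  ext l
  simp only [mulVec, dotProduct]
  refine Finset.sum_congr rfl fun k _ => ?_
  by_cases h : k = i
  · simp [h, c.col]
  · simp [h, rs]

lemma planted_ev (hn : 0 < n) {C ε β : ℝ} (hC : 0 < C) (hε : √C * (|β| / √n) ≤ ε) (s : ℝ)
    {ψ : (L → ℝ) → ℝ} (hψ : ELip 1 ψ) (σ : Cube n) : ((GOE n).prod (gv (Fin n)))
      {z | (plW β z.1 (sv σ), s • sv σ + √s • z.2) ∈ ev c C ε ψ i} ≤
      ENNReal.ofReal (2 * Real.exp (-(ε ^ 2 / (2 * C)) * n)) := by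
  refine row_le β s i _ (meas_ev c C ε i hψ) fun W y => ?_
  simp only [ev, mem_inter_iff, mem_ofPred_eq, c.iw, c.iM, Ph_rs]
  by_cases h : Cv (c.w i (W, y)) (c.M i (W, y)) C
  · refine le_trans (measure_mono fun z hz => hz.2) (sec_le hn (.of_pos (c.pos i _)) hC h hψ
      (le_of_eq_of_le ?_ hε))
    have hn' : (0 : ℝ) < n := Nat.cast_pos.2 hn
    have h1 : ∀ k, sv σ k ^ 2 = 1 := fun k => by unfold sv spin; split_ifs <;> norm_num
    have h2 : |sv σ i| = 1 := by unfold sv spin; split_ifs <;> norm_num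
    rw [Conc.en_smul, en, abs_mul, h2, abs_div, abs_of_pos hn']
    simp only [h1, Finset.sum_const, Finset.card_univ, Fintype.card_fin, nsmul_eq_mul, mul_one]
    congr 1
    rw [div_mul_eq_mul_div, div_eq_div_iff hn'.ne' (Real.sqrt_pos.2 hn').ne', mul_assoc,
      Real.mul_self_sqrt hn'.le]
  · simp [h]

end cav

lemma en_row_le (W : Mx n) (i : Fin n) : en (W i) ≤ Eig.opn W := by
  have := Eig.nrm_mulVec_le Wᵀ (Pi.single i 1)
  rw [Eig.opn_transpose, mulVec_single_one] at this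
  have h1 : Eig.nrm (Pi.single i (1 : ℝ) : V n) = 1 := by simp [Eig.nrm]
  rw [h1, mul_one] at this
  rwa [en, show ∑ k, W i k ^ 2 = Wᵀ.col i ⬝ᵥ Wᵀ.col i by simp [dotProduct, sq, Matrix.col]]

end Row65

open Row65 in
theorem rowCltStmt : RowCltStmt := by
  intro L _ c β hβ r C0 ε hε
  set C := |C0| + 1 with hCd
  have hC : 0 < C := by positivity
  obtain ⟨T, hTf, hT1, hT⟩ := net L (η := ε / (2 * (2 + 10 * C))) (by positivity)
  let A : ∀ n, Set (Mx n × V n) := fun n => ⋃ i : Fin n, ⋃ ψ ∈ hTf.toFinset, ev (c n) C (ε / 4) ψ i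
  have hA : ∀ n, MeasurableSet (A n) := fun n => .iUnion fun i =>
    Finset.measurableSet_biUnion _ fun ψ hψ => meas_ev _ _ _ _ (hT1 ψ (hTf.mem_toFinset.1 hψ))
  set κ := (ε / 4) ^ 2 / (2 * C) with hκ
  have hκ0 : 0 < κ := by positivity
  have h1 : Top.Whp GOE fun n W => (SL.law sv (ising (β • W) 0) r).real {y | (W, y) ∈ A n} < ε := by
    refine Top.whp_iff.2 fun e he => ?_
    obtain ⟨η, hη, hL⟩ := Pl.tight_LRW hβ.1 hβ.2 (half_pos he)
    have t1 : Tendsto (fun n : ℕ => (n : ℝ) * (hTf.toFinset.card * (2 * Real.exp (-κ * n))) / (ε * η))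
        atTop (𝓝 0) := by
      have := ((Real.tendsto_pow_mul_exp_neg_atTop_nhds_zero 1).comp
        (tendsto_natCast_atTop_atTop.const_mul_atTop hκ0)).const_mul
          (hTf.toFinset.card * 2 / κ / (ε * η))
      rw [mul_zero] at this
      refine this.congr fun n => ?_
      simp only [Function.comp, pow_one, neg_mul]
      field_simp
    have t2 : Tendsto (fun n : ℕ => √C * (|β| / √n)) atTop (𝓝 0) := by
      have := ((Real.tendsto_sqrt_atTop.comp tendsto_natCast_atTop_atTop).const_div_atTop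
        |β|).const_mul √C
      rwa [mul_zero] at this
    filter_upwards [t1.eventually (ge_mem_nhds (half_pos he)),
      t2.eventually (ge_mem_nhds (show 0 < ε / 4 by positivity)), eventually_gt_atTop 0]
      with n a1 a2 hn
    rw [← ofReal_measureReal]
    refine ENNReal.ofReal_le_ofReal ?_
    simp only [not_lt]
    refine (TapPl.transfer_law β r (hA n) hε hη (δ := n * (hTf.toFinset.card * (2 * Real.exp (-κ * n))))
      fun σ => ENNReal.toReal_le_of_le_ofReal (by positivity) ?_).trans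
        (by linarith [hL n hn.ne'])
    have e : {z : Mx n × V n | (plW β z.1 (sv σ), r • sv σ + √r • z.2) ∈ A n} = ⋃ i : Fin n,
        ⋃ ψ ∈ hTf.toFinset, {z | (plW β z.1 (sv σ), r • sv σ + √r • z.2) ∈
          ev (c n) C (ε / 4) ψ i} := by
      ext z; simp [A]
    rw [e]
    refine (measure_iUnion_fintype_le _ _).trans ((Finset.sum_le_sum fun i _ =>
      (measure_biUnion_finset_le _ _).trans (Finset.sum_le_sum fun ψ hψ => planted_ev (c n) i hn hC
        a2 r (hT1 ψ (hTf.mem_toFinset.1 hψ)) σ)).trans_eq ?_)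
    simp only [Finset.sum_const, Finset.card_univ, Fintype.card_fin, nsmul_eq_mul]
    rw [ENNReal.ofReal_mul n.cast_nonneg, ENNReal.ofReal_mul (Nat.cast_nonneg _),
      ENNReal.ofReal_natCast, ENNReal.ofReal_natCast]
  refine (h1.and TapPl.whp_opn).mono ?_
  filter_upwards [eventually_gt_atTop 0] with n hn W hW
  have := SL.isProb_law (φ := sv) (s := r) (Pl.wt_ising (β • W) 0)
  refine le_trans (measureReal_mono ?_) hW.1.le
  rintro y ⟨i, h0, φ, hφ, hlt⟩
  have hw : SL.Wt ((c n).w i (W, y)) := .of_pos ((c n).pos i _)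
  have hv : Cv ((c n).w i (W, y)) ((c n).M i (W, y)) C := fun u => (h0 u).trans
    (mul_le_mul_of_nonneg_right (by linarith [le_abs_self C0]) (sq_nonneg _))
  obtain ⟨ψ, hψ, hφψ⟩ := hT φ hφ
  refine mem_iUnion.2 ⟨i, mem_iUnion₂.2 ⟨ψ, hTf.mem_toFinset.2 hψ, hv, ?_⟩⟩
  have hη : 0 ≤ ε / (2 * (2 + 10 * C)) := by positivity
  have b1 := Ph_sub hw hv hη hφψ (W i)
  have b2 := int_Ph_sub hn hw hC.le hv hη hφ (hT1 ψ hψ) hφψ
  have b3 : en (W i) ^ 2 ≤ 3 ^ 2 := pow_le_pow_left₀ (en_nonneg _) ((en_row_le W i).trans hW.2) 2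
  have b4 : ε / (2 * (2 + 10 * C)) * (2 + 10 * C) = ε / 2 := by field_simp
  have b5 := mul_le_mul_of_nonneg_left (mul_le_mul_of_nonneg_left b3 hC.le) hη
  change ε < |Ph _ _ φ (W i) - ∫ z, Ph _ _ φ ((1 / √n : ℝ) • z) ∂gv (Fin n)| at hlt
  by_contra hc
  simp only [mem_ofPred_eq, not_lt] at hc
  refine absurd hlt (not_lt.2 ?_)
  rw [abs_le] at b1 b2 hc ⊢
  constructor <;> nlinarith

end Crest.Agent.T157.S3L

end
end

-- ▼ part T157/S3Ll_65
section

/-!
# Row 157, block B/S3, section 4: the local law from the cavity data (network free; helper65)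
-/

set_option autoImplicit false

noncomputable section

namespace Crest.Agent.T157.S3L.Ll65

open MeasureTheory ProbabilityTheory Matrix Filter Set Topology Function
open Crest.ProbabilityR.SpinGlassDynamics
open Crest.Agent.T157.E Crest.Agent.T157.Tap
open Crest.Agent.T157.Conc (en ELip en_nonneg en_sq)

variable {n : ℕ} {L κ : Type} [Fintype L] [Fintype κ]

lemma sum_site (i : Fin n) (G : Bool → Cube n → ℝ) (h : ∀ σ x τ, G σ (update x i τ) = G σ x) :
    2 * ∑ x : Cube n, G (x i) x = ∑ σ, ∑ x : Cube n, G σ x := by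
  have inv : Involutive fun x : Cube n => update x i (!x i) := fun x => by simp
  have e : ∑ x : Cube n, G (x i) x = ∑ x : Cube n, G (!x i) x := by
    rw [← Equiv.sum_comp inv.toPerm]
    exact Finset.sum_congr rfl fun x _ => by simp [h]
  rw [two_mul, Finset.sum_comm]
  nth_rewrite 2 [e]
  rw [← Finset.sum_add_distrib]
  refine Finset.sum_congr rfl fun x _ => ?_
  cases x i <;> simp [add_comm]

omit [Fintype L] in
/-- the law of `(s_i, ξ)` is the cavity law with the spin attached -/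
lemma mean_eq_tl {w wc : Cube n → ℝ} {ξ : Cube n → L → ℝ} {i : Fin n} {o : L} {b : ℝ}
    (hc : SL.Wt wc) (hw : ∀ x, w x = wc x * Real.exp (sv x i * (b + ξ x o)))
    (h1 : ∀ x τ, wc (update x i τ) = wc x) (h2 : ∀ x τ, ξ (update x i τ) = ξ x)
    (ψ : Bool → (L → ℝ) → ℝ) : (mean w fun x => ψ (x i) (ξ x)) = tl wc ξ o b ψ := by
  have key : ∀ F : Bool → (L → ℝ) → ℝ, ∑ σ, Real.exp (spin σ * b) *
      (mean wc fun x => Real.exp (spin σ * ξ x o) * F σ (ξ x)) =
      2 * (∑ x, w x * F (x i) (ξ x)) / ∑ x, wc x := fun F => by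
    simp only [hw, sv]
    rw [sum_site i (fun σ x => wc x * Real.exp (spin σ * (b + ξ x o)) * F σ (ξ x))
      fun σ x τ => by rw [h1, h2], Finset.sum_div]
    refine Finset.sum_congr rfl fun σ _ => ?_
    rw [SL.mean_eq_div, ← mul_div_assoc, Finset.mul_sum]
    congr 1
    refine Finset.sum_congr rfl fun x _ => ?_
    rw [mul_add, Real.exp_add]
    ring
  have k1 := key fun _ _ => 1
  simp only [mul_one] at k1
  rw [tl, key, k1, SL.mean_eq_div, div_div_div_cancel_right₀ hc.pos.ne',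
    mul_div_mul_left _ _ two_ne_zero]

lemma tst_spin : Tst fun σ (_ : L → ℝ) => spin σ := fun σ =>
  ⟨fun x y => by simpa using en_nonneg _, by cases σ <;> simp [spin]⟩

lemma tst_coord (l : L) : Tst fun _ (x : L → ℝ) => x l := fun _ =>
  ⟨fun x y => by simpa using Conc.abs_le_en (x - y) l, by simp⟩

/-- one site: recentring and replacement of the cavity fields by the true ones -/
theorem site (L : Type) [Fintype L] (o : L) (C : ℝ) : ∃ K > (0 : ℝ), ∀ (Ω κ : Type) [Fintype Ω]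
    [Fintype κ] (w : Ω → ℝ) (s : Ω → Bool) (X ξ : Ω → L → ℝ) (A : Matrix L κ ℝ) (b b' ε : ℝ),
    SL.Wt w → f2 A ≤ C → (∀ ψ, Tst ψ → |(mean w fun x => ψ (s x) (ξ x)) - mdl A o b' ψ| ≤ ε) →
    (∀ l, (mean w fun x => X x l) = (A * Aᵀ) l o * mean w fun x => spin (s x)) →
    (∀ x, X x o = ξ x o + (b' - b)) → ∀ ψ, Tst ψ →
    |(mean w fun x => ψ (s x) (X x)) - mdl A o b ψ| ≤
      K * ε + ∑ l, √(var w fun x => X x l - ξ x l) := by
  obtain ⟨hv, hK⟩ := mdlStmt L o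
  obtain ⟨K, hK⟩ := hK C
  refine ⟨1 + (Fintype.card L + |K|) * (|C| + 1), by positivity, ?_⟩
  intro Ω κ _ _ w s X ξ A b b' ε hw hA h hm ho ψ hψ
  have hε : 0 ≤ ε := (abs_nonneg _).trans (h ψ hψ)
  have hc : ∀ l, |mean w fun x => X x l - ξ x l| ≤ (|C| + 1) * ε := fun l => by
    have a1 := h _ tst_spin
    have a2 := h _ (tst_coord l)
    rw [(hv κ A b').1] at a1
    rw [(hv κ A b').2] at a2
    have a3 : |(A * Aᵀ) l o| ≤ |C| :=
      (Clt58.gram_le A l o).trans (((Clt58.trace_eq A).trans_le hA).trans (le_abs_self C))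
    rw [SL.mean_sub, hm, show ∀ p q r t : ℝ, p * q - r = p * (q - t) - (r - p * t) from
      fun _ _ _ _ => by ring]
    refine (abs_sub _ _).trans ?_
    rw [abs_mul, add_mul, one_mul]
    exact add_le_add (mul_le_mul a3 a1 (abs_nonneg _) (abs_nonneg _)) a2
  have hb : |b' - b| ≤ (|C| + 1) * ε := by
    have := hc o
    simp only [ho, add_sub_cancel_left] at this
    rwa [hw.mean_const] at this
  have b1 := hK κ κ A A b' b 0 ψ hψ hA zero_le_one (by simp [d1])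
  rw [Real.sqrt_zero, add_zero] at b1
  have b2 : K * |b' - b| ≤ |K| * ((|C| + 1) * ε) :=
    mul_le_mul (le_abs_self K) hb (abs_nonneg _) (abs_nonneg _)
  have b3 := Row65.abs_mean_sub hw (f := fun x => ψ (s x) (X x)) (g := fun x => ψ (s x) (ξ x))
    (d := fun x => ∑ l, ((|C| + 1) * ε + |X x l - ξ x l - mean w fun x => X x l - ξ x l|))
    fun x => ((hψ (s x)).1 _ _).trans (by
      rw [one_mul]
      refine (Conc.en_le_sum _).trans (Finset.sum_le_sum fun l _ => ?_)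
      have := abs_add_le (mean w fun x => X x l - ξ x l)
        (X x l - ξ x l - mean w fun x => X x l - ξ x l)
      rw [add_sub_cancel] at this
      exact this.trans (add_le_add (hc l) le_rfl))
  have b4 : (mean w fun x => ∑ l, ((|C| + 1) * ε +
      |X x l - ξ x l - mean w fun x => X x l - ξ x l|)) ≤
      Fintype.card L * ((|C| + 1) * ε) + ∑ l, √(var w fun x => X x l - ξ x l) := by
    rw [SL.mean_sum, ← Finset.card_univ, ← nsmul_eq_mul, ← Finset.sum_const,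
      ← Finset.sum_add_distrib]
    refine Finset.sum_le_sum fun l _ => ?_
    rw [SL.mean_add, hw.mean_const]
    refine add_le_add le_rfl ((Row65.mean_le_sqrt hw _).trans_eq ?_)
    simp only [sq_abs]
    rfl
  have b5 := h ψ hψ
  rw [abs_le] at b1 b3 b5 ⊢
  constructor <;> nlinarith

/-- the cavity data of the site `i` for the weight `w`, the row `g`, the fields `X`, the static
field `b` and the Gram factor `A`; `c` is the size of the couplings -/
structure Site (C δ c : ℝ) (o : L) (w : Cube n → ℝ) (g : V n) (X : Cube n → L → ℝ) (b : ℝ)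
    (A : Matrix L κ ℝ) (i : Fin n) (wc : Cube n → ℝ) (Vc : Cube n → Matrix L (Fin n) ℝ) : Prop where
  pos : ∀ x, 0 < wc x
  fw : ∀ x τ, wc (update x i τ) = wc x
  fV : ∀ x τ, Vc (update x i τ) = Vc x
  tilt : ∃ b', (∀ x, w x = wc x * Real.exp (sv x i * (b' + (Vc x *ᵥ g) o))) ∧
    ∀ x, X x o = (Vc x *ᵥ g) o + (b' - b)
  cen : ∀ l, (mean w fun x => X x l) = (A * Aᵀ) l o * mean w fun x => sv x i
  m4 : (mean wc fun x => en (Vc x *ᵥ g) ^ 4) ≤ C
  e4 : (mean wc fun x => Real.exp (4 * |(Vc x *ᵥ g) o|)) ≤ C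
  fA : f2 A ≤ C
  ov : (mean wc fun x => d1 (c ^ 2 • (Vc x * (Vc x)ᵀ)) (A * Aᵀ)) ≤ δ

/-- **local law at one site** from the cavity data and "quenched = annealed" -/
theorem ll_site (hT : TiltStmt) (L : Type) [Fintype L] (o : L) (C ε : ℝ) (hε : 0 < ε) :
    ∃ δ > (0 : ℝ), ∀ (n : ℕ) (κ : Type) [Fintype κ] (c : ℝ) (w : Cube n → ℝ) (g : V n)
      (X : Cube n → L → ℝ) (b : ℝ) (A : Matrix L κ ℝ) (i : Fin n) (wc : Cube n → ℝ)
      (Vc : Cube n → Matrix L (Fin n) ℝ), Site C δ c o w g X b A i wc Vc →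
      (∀ φ, ELip 1 φ → |(mean wc fun x => φ (Vc x *ᵥ g)) -
        ∫ z, mean wc (fun x => φ (Vc x *ᵥ (c • z))) ∂gv (Fin n)| ≤ δ) →
      ∀ ψ, Tst ψ → |(mean w fun x => ψ (x i) (X x)) - mdl A o b ψ| ≤
        ε + ∑ l, √(var w fun x => X x l - (Vc x *ᵥ g) l) := by
  obtain ⟨K, hK0, hK⟩ := site L o C
  obtain ⟨δ, hδ, hδ'⟩ := hT L o C (ε / K) (by positivity)
  have hN : (0 : ℝ) < Fintype.card L + 1 := by positivity
  refine ⟨min (δ / 2) ((δ / 4) ^ 2 / (Fintype.card L + 1)), by positivity, ?_⟩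
  intro n κ _ c w g X b A i wc Vc h hq ψ hψ
  obtain ⟨b', h1, h2⟩ := h.tilt
  have hc : SL.Wt wc := .of_pos h.pos
  have hw : SL.Wt w := .of_pos fun x => by rw [h1]; exact mul_pos (h.pos x) (Real.exp_pos _)
  have := hK (Cube n) κ w (fun x => x i) X (fun x => Vc x *ᵥ g) A b b' (ε / K) hw h.fA
    (fun ψ hψ => ?_) h.cen h2 ψ hψ
  · rwa [mul_div_cancel₀ _ hK0.ne'] at this
  rw [mean_eq_tl (ξ := fun x => Vc x *ᵥ g) hc h1 h.fw fun x τ => by rw [h.fV]]
  refine hδ' κ (Cube n) wc _ A hc h.m4 h.e4 h.fA (fun φ hφ => ?_) b' ψ hψ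
  have a1 := (hq φ hφ).trans (min_le_left _ _)
  have a2 := meanStmt L κ (Fin n) (Cube n) wc (fun x => c • Vc x) A φ _ hc hφ
    (le_of_eq_of_le (by simp only [transpose_smul, Matrix.smul_mul, Matrix.mul_smul, smul_smul, sq])
      (h.ov.trans (min_le_right _ _)))
  rw [mul_div_cancel₀ _ hN.ne', Real.sqrt_sq (by positivity)] at a2
  simp only [smul_mulVec, ← mulVec_smul] at a2
  rw [abs_le] at a1 a2 ⊢
  constructor <;> linarith [a1.1, a1.2, a2.1, a2.2]

/-- the fourth powers of the site errors -/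
lemma sum_four {ι : Type} [Fintype ι] {v : ι → L → ℝ} (hv : ∀ i l, 0 ≤ v i l) {K : ℝ}
    (h : ∀ l, ∑ i, v i l ^ 2 ≤ K) : ∑ i, (∑ l, √(v i l)) ^ 4 ≤ (Fintype.card L : ℝ) ^ 4 * K := by
  have h1 : ∀ i, (∑ l, √(v i l)) ^ 4 ≤ (Fintype.card L : ℝ) ^ 3 * ∑ l, v i l ^ 2 := fun i => by
    have := pow_sum_le_card_mul_sum_pow (s := Finset.univ) (f := fun l => √(v i l))
      (fun l _ => Real.sqrt_nonneg _) 3
    refine this.trans_eq ?_
    congr 1
    refine Finset.sum_congr rfl fun l _ => ?_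
    rw [show 3 + 1 = 2 * 2 from rfl, pow_mul, Real.sq_sqrt (hv i l)]
  refine (Finset.sum_le_sum fun i _ => h1 i).trans ?_
  rw [← Finset.mul_sum, Finset.sum_comm, pow_succ _ 3, mul_assoc]
  refine mul_le_mul_of_nonneg_left ((Finset.sum_le_sum fun l _ => h l).trans_eq ?_) (by positivity)
  simp

end Crest.Agent.T157.S3L.Ll65

end
end

-- ▼ part T157/S3CB_16
section

/-!
# Row 157, block S3, section 4 (helper16): (C1), transfer between a law and its cavity law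
-/

set_option autoImplicit false

noncomputable section

namespace Crest.Agent.T157.S3C

open Matrix Finset Function Real Filter Topology
open Crest.ProbabilityR.SpinGlassDynamics (spin)
open Crest.Agent.T157.E Crest.Agent.T157.Eig
open Crest.Agent.T157.Rec (grad fl)

section gen
variable {Ω : Type*} [Fintype Ω] {w f g : Ω → ℝ}

lemma mean_cs (hw : SL.Wt w) (f g : Ω → ℝ) :
    (mean w fun x => f x * g x) ^ 2 ≤ (mean w fun x => f x ^ 2) * mean w fun x => g x ^ 2 := by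
  have h := sum_mul_sq_le_sq_mul_sq univ (fun x => √(prob w x) * f x) fun x => √(prob w x) * g x
  have e : ∀ x, √(prob w x) * √(prob w x) = prob w x := fun x => mul_self_sqrt (hw.prob_nonneg x)
  simp only [mul_pow, sq_sqrt (hw.prob_nonneg _)] at h
  refine le_of_eq_of_le ?_ h
  rw [mean]
  congr 1
  exact sum_congr rfl fun x _ => by linear_combination (-(f x * g x)) * e x

lemma mean_sq_le (hw : SL.Wt w) (f : Ω → ℝ) : mean w f ^ 2 ≤ mean w fun x => f x ^ 2 := by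
  simpa [hw.mean_const] using mean_cs hw f fun _ => 1


lemma le_of_gt {X C A : ℝ} (k : ℕ) (h : ∀ A' > A, X ≤ C * A' ^ k) : X ≤ C * A ^ k :=
  ge_of_tendsto (f := fun A' => C * A' ^ k) (x := 𝓝[>] A)
    (((by fun_prop : Continuous fun A' : ℝ => C * A' ^ k).tendsto A).mono_left nhdsWithin_le_nhds)
    (eventually_nhdsWithin_of_forall h)

lemma four_le_exp (z : ℝ) : z ^ 4 ≤ 24 * exp |z| := by
  have := pow_div_factorial_le_exp |z| (abs_nonneg z) 4
  rw [Even.pow_abs (by decide), div_le_iff₀ (by positivity)] at this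
  norm_num [Nat.factorial] at this
  linarith

/-- moments around the mean from moments around another centre -/
lemma four_centre (hw : SL.Wt w) (f : Ω → ℝ) (c : ℝ) :
    (mean w fun x => (f x - mean w f) ^ 4) ≤ 16 * mean w fun x => (f x - c) ^ 4 := by
  have h1 : (mean w f - c) ^ 4 ≤ mean w fun x => (f x - c) ^ 4 := by
    have a1 := mean_sq_le hw fun x => f x - c
    have a2 := mean_sq_le hw fun x => (f x - c) ^ 2
    rw [SL.mean_sub, hw.mean_const] at a1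
    simp only [← pow_mul] at a2
    exact le_trans (by rw [show 4 = 2 * 2 from rfl, pow_mul]; gcongr) a2
  have h2 : ∀ x, (f x - mean w f) ^ 4 ≤ 8 * (f x - c) ^ 4 + 8 * (mean w f - c) ^ 4 := fun x => by
    have := (by decide : Even 4).add_pow_le (a := f x - c) (b := c - mean w f)
    rw [sub_add_sub_cancel, show (c - mean w f) ^ 4 = (mean w f - c) ^ 4 by ring] at this
    norm_num at this
    linarith
  refine (hw.mean_mono h2).trans ?_
  rw [SL.mean_add, SL.mean_const_mul, hw.mean_const]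
  linarith

end gen

variable {n : ℕ} {w wc h : Cube n → ℝ} {K : ℝ} {i : Fin n}

/-- subgaussian concentration of Lipschitz functions -/
def Mg (w : Cube n → ℝ) (K : ℝ) : Prop := ∀ (F : Cube n → ℝ) (A : ℝ), (∀ x, nrm (grad F x) ≤ A) →
  ∀ t, (mean w fun x => exp (t * (F x - mean w F))) ≤ exp (K * A ^ 2 * t ^ 2)

theorem mg_of_atd {κ : ℝ} (h : Atd.ATd w K (exp (-(κ * n)))) (hw : ∀ x, 0 < w x) (hK : 0 ≤ K)
    (hκ : 0 < κ) : Mg w (4 * (K + 8 / κ)) := by
  have hW : SL.Wt w := .of_pos hw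
  have key : ∀ (F : Cube n → ℝ) (A : ℝ), (∀ x, nrm (grad F x) ≤ A) → ∀ t, 0 ≤ t →
      (mean w fun x => exp (t * (F x - mean w F))) ≤ exp (4 * (K + 8 / κ) * A ^ 2 * t ^ 2) := by
    intro F A hA t ht
    have A0 : 0 ≤ A := (nrm_nonneg _).trans (hA default)
    have h1 := h.lmgf_le hw hK hκ (G := F) (A := 2 * A) (by positivity) (fun x =>
      (S3.Hb.Vp_le_grad F x).trans (by nlinarith [(nrm_le_iff A0).1 (hA x)])) ht
    have h2 := (log_le_iff_le_exp (Ent.mean_exp_pos hW.isP _)).1 h1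
    simp only [mul_sub, exp_sub, SL.mean_div_const]
    rw [div_le_iff₀ (exp_pos _), ← exp_add]
    exact h2.trans_eq (by congr 1; change t * mean w F + _ = _; ring)
  intro F A hA t
  rcases le_total 0 t with ht | ht
  · exact key F A hA t ht
  · have := key (fun x => -1 * F x) A (fun x => by
      rw [Rec.grad_const_mul, nrm_smul]; simpa using hA x) (-t) (by linarith)
    rw [SL.mean_const_mul, neg_sq] at this
    exact le_of_eq_of_le (by congr 1; ext x; congr 1; ring) this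


lemma Mg.abs (hM : Mg w K) (hw : SL.Wt w) {F : Cube n → ℝ} {A : ℝ} (hA : ∀ x, nrm (grad F x) ≤ A)
    (t : ℝ) : (mean w fun x => exp (t * |F x - mean w F|)) ≤ 2 * exp (K * A ^ 2 * t ^ 2) := by
  have h1 := hM F A hA t
  have h2 := hM F A hA (-t)
  rw [neg_sq] at h2
  refine le_trans (hw.mean_mono fun x => ?_) ((SL.mean_add _ _ _).trans_le
    ((add_le_add h1 h2).trans_eq (two_mul _).symm))
  rcases abs_cases (F x - mean w F) with e | e <;> rw [e.1]
  · exact le_add_of_nonneg_right (exp_pos _).le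
  · rw [mul_neg, neg_mul]; exact le_add_of_nonneg_left (exp_pos _).le

/-- fourth moment under a law dominated in `L²` -/
lemma Mg.four_dom (hM : Mg w K) (hw : SL.Wt w) {v : Cube n → ℝ} (hv : SL.Wt v) {D : ℝ} (hD : 0 ≤ D)
    {F : Cube n → ℝ} {A : ℝ} (hA : ∀ x, nrm (grad F x) ≤ A)
    (hd : ∀ φ : ℝ → ℝ, (∀ z, 0 ≤ φ z) →
      (mean v fun x => φ (F x)) ^ 2 ≤ D ^ 2 * mean w fun x => φ (F x) ^ 2) :
    (∀ t, (mean v fun x => exp (t * |F x - mean w F|)) ≤ 2 * D * exp (2 * K * A ^ 2 * t ^ 2)) ∧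
      (mean v fun x => (F x - mean w F) ^ 4) ≤ 48 * D * exp (2 * K) * A ^ 4 := by
  have A0 : 0 ≤ A := (nrm_nonneg _).trans (hA default)
  have key : ∀ A', A ≤ A' → ∀ t, (mean v fun x => exp (t * |F x - mean w F|)) ≤
      2 * D * exp (2 * K * A' ^ 2 * t ^ 2) := fun A' hA' t => by
    have h1 := hd (fun z => exp (t * |z - mean w F|)) fun _ => (exp_pos _).le
    have h2 := hM.abs hw (fun x => (hA x).trans hA') (2 * t)
    simp only [← exp_nat_mul, Nat.cast_ofNat, ← mul_assoc] at h1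
    refine abs_le_of_sq_le_sq' (h1.trans ((mul_le_mul_of_nonneg_left h2 (sq_nonneg D)).trans ?_))
      (by positivity) |>.2
    rw [mul_pow, mul_pow (2 * D), ← exp_nat_mul, show K * A' ^ 2 * (2 ^ 2 * t ^ 2) =
      (2 : ℕ) * (2 * K * A' ^ 2 * t ^ 2) by push_cast; ring]
    nlinarith [mul_nonneg (sq_nonneg D) (exp_pos ((2 : ℕ) * (2 * K * A' ^ 2 * t ^ 2))).le]
  refine ⟨key A le_rfl, le_of_gt 4 fun A' hA' => ?_⟩
  have p : 0 < A' := A0.trans_lt hA'
  have h1 := key A' hA'.le A'⁻¹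
  rw [mul_assoc (2 * K), ← mul_pow, mul_inv_cancel₀ p.ne', one_pow, mul_one] at h1
  refine (hv.mean_mono (g := fun x => 24 * A' ^ 4 * exp (A'⁻¹ * |F x - mean w F|))
    fun x => ?_).trans ?_
  · have := mul_le_mul_of_nonneg_left (four_le_exp (A'⁻¹ * (F x - mean w F))) (pow_pos p 4).le
    rw [← mul_pow, mul_inv_cancel_left₀ p.ne', abs_mul, abs_of_pos (inv_pos.2 p)] at this
    linarith
  · rw [SL.mean_const_mul]
    nlinarith [mul_le_mul_of_nonneg_left h1 (pow_pos p 4).le]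

lemma Mg.four (hM : Mg w K) (hw : SL.Wt w) {F : Cube n → ℝ} {A : ℝ} (hA : ∀ x, nrm (grad F x) ≤ A) :
    (mean w fun x => (F x - mean w F) ^ 4) ≤ 48 * exp (2 * K) * A ^ 4 := by
  simpa using (hM.four_dom hw hw zero_le_one hA fun φ _ => by simpa using mean_sq_le hw _).2

/-- a function which does not see the spin `i` -/
def Fr (i : Fin n) {α : Type*} (f : Cube n → α) : Prop := ∀ x τ, f (update x i τ) = f x

/-- `wc` is the cavity weight of `w` at the site `i`, `h` is the local field -/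
structure Cv (w wc h : Cube n → ℝ) (i : Fin n) : Prop where
  pos : ∀ x, 0 < wc x
  fw : Fr i wc
  fh : Fr i h
  eq : ∀ x, w x = wc x * exp (sv x i * h x)

lemma Cv.wpos (c : Cv w wc h i) (x : Cube n) : 0 < w x := by
  rw [c.eq]; exact mul_pos (c.pos x) (exp_pos _)

lemma Cv.sum_eq (c : Cv w wc h i) {Φ : Cube n → ℝ} (hΦ : Fr i Φ) :
    ∑ x, w x * (Φ x / cosh (h x)) = ∑ x, wc x * Φ x := by
  have := S3L.Ll65.sum_site i (fun σ x => wc x * exp (spin σ * h x) * (Φ x / cosh (h x)))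
    fun σ x τ => by rw [c.fw, c.fh, hΦ]
  rw [sum_comm] at this
  refine mul_left_cancel₀ two_ne_zero ((congrArg _ (sum_congr rfl fun x _ => by
    rw [c.eq]; rfl)).trans (this.trans ?_))
  rw [mul_sum]
  refine sum_congr rfl fun x _ => ?_
  have := (cosh_pos (h x)).ne'
  simp only [Fintype.sum_bool, spin]
  field_simp
  simp [cosh_eq]
  ring

lemma Cv.mean_eq (c : Cv w wc h i) {Φ : Cube n → ℝ} (hΦ : Fr i Φ) :
    (mean w fun x => Φ x / cosh (h x)) = mean wc Φ * mean w fun x => 1 / cosh (h x) := by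
  rw [SL.mean_eq_div, SL.mean_eq_div, SL.mean_eq_div, c.sum_eq hΦ,
    c.sum_eq (Φ := fun _ => 1) fun _ _ => rfl]
  have := (SL.Wt.of_pos c.pos).pos.ne'
  simp only [mul_one]
  field_simp

lemma cosh_le_mul (a b : ℝ) : cosh a ≤ cosh b * exp |a - b| := by
  rw [cosh_eq, cosh_eq, div_mul_eq_mul_div, add_mul, ← exp_add, ← exp_add]
  gcongr
  · linarith [le_abs_self (a - b)]
  · linarith [neg_abs_le (a - b)]

/-- **(C1)** the cavity law has a bounded `L²` density -/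
theorem Cv.dom (c : Cv w wc h i) (hM : Mg w K) {A : ℝ} (hA : ∀ x, nrm (grad h x) ≤ A)
    {Φ : Cube n → ℝ} (hΦ : Fr i Φ) (h0 : ∀ x, 0 ≤ Φ x) :
    mean wc Φ ^ 2 ≤ (2 * exp (4 * K * A ^ 2)) ^ 2 * mean w fun x => Φ x ^ 2 := by
  have hw : SL.Wt w := .of_pos c.wpos
  have hc : SL.Wt wc := .of_pos c.pos
  set m := mean w h
  set u : Cube n → ℝ := fun x => exp |h x - m| with hu
  have u0 : ∀ x, 0 < u x := fun x => exp_pos _
  have m0 := cosh_pos m
  have e2 : (mean w fun x => u x ^ 2) ≤ 2 * exp (4 * K * A ^ 2) := by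
    have := hM.abs hw hA 2
    simp only [hu, ← exp_nat_mul, Nat.cast_ofNat]
    exact this.trans_eq (by congr 2; ring)
  set E := mean w fun x => u x ^ 2
  set P := mean wc Φ
  have P0 : 0 ≤ P := hc.mean_nonneg h0
  have a1 : cosh m * (mean w fun x => Φ x / cosh (h x)) ≤ mean w fun x => Φ x * u x := by
    rw [← SL.mean_const_mul]
    refine hw.mean_mono fun x => ?_
    rw [← mul_div_assoc, div_le_iff₀ (cosh_pos _), mul_comm, mul_assoc]
    refine mul_le_mul_of_nonneg_left ?_ (h0 x)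
    rw [mul_comm]; exact (cosh_le_mul m (h x)).trans_eq (by rw [abs_sub_comm])
  have a2 : (mean w fun x => (u x)⁻¹) ≤ cosh m * mean w fun x => 1 / cosh (h x) := by
    rw [← SL.mean_const_mul]
    refine hw.mean_mono fun x => ?_
    rw [mul_one_div, le_div_iff₀ (cosh_pos _), inv_mul_le_iff₀ (u0 x), mul_comm]
    exact cosh_le_mul _ _
  have a3 : 1 ≤ (mean w fun x => (u x)⁻¹) * mean w u := by
    have := mean_cs hw (fun x => √(u x)⁻¹) fun x => √(u x)
    simp only [sq_sqrt (u0 _).le, sq_sqrt (inv_pos.2 (u0 _)).le, ← sqrt_mul (inv_pos.2 (u0 _)).le,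
      inv_mul_cancel₀ (u0 _).ne', sqrt_one, hw.mean_const, one_pow] at this
    exact this
  have a4 := mean_sq_le hw u
  have a5 := mean_cs hw Φ u
  have U0 : 0 ≤ mean w u := hw.mean_nonneg fun x => (u0 x).le
  rw [c.mean_eq hΦ] at a1
  have b1 : P ≤ (mean w fun x => Φ x * u x) * mean w u := by
    have := mul_le_mul_of_nonneg_left a2 P0
    nlinarith [mul_le_mul_of_nonneg_left a3 P0, mul_le_mul_of_nonneg_right this U0,
      mul_le_mul_of_nonneg_right a1 U0]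
  have F0 : 0 ≤ mean w fun x => Φ x ^ 2 := hw.mean_nonneg fun x => sq_nonneg _
  have E0 : 0 ≤ E := hw.mean_nonneg fun x => sq_nonneg _
  calc P ^ 2 ≤ ((mean w fun x => Φ x * u x) * mean w u) ^ 2 := by gcongr
    _ ≤ ((mean w fun x => Φ x ^ 2) * E) * E := by
      rw [mul_pow]; exact mul_le_mul a5 a4 (sq_nonneg _) (mul_nonneg F0 E0)
    _ ≤ _ := by
      rw [mul_assoc, mul_comm, ← sq]; gcongr

/-- **(C1)** Lipschitz functions under the cavity law -/
theorem c1 (K A0 : ℝ) : ∃ C, 1 ≤ C ∧ ∀ (n : ℕ) (w wc h : Cube n → ℝ) (i : Fin n), Cv w wc h i →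
    Mg w K → (∀ x, nrm (grad h x) ≤ A0) → ∀ (Ψ : Cube n → ℝ) (A : ℝ), Fr i Ψ →
    (∀ x, nrm (grad Ψ x) ≤ A) → |mean wc Ψ - mean w Ψ| ≤ C * A ∧
      (mean wc fun x => (Ψ x - mean wc Ψ) ^ 2) ≤ C * A ^ 2 ∧
      (mean wc fun x => (Ψ x - mean wc Ψ) ^ 4) ≤ C * A ^ 4 ∧
      (A ≤ A0 → (mean wc fun x => exp (4 * |Ψ x - mean wc Ψ|)) ≤ C) := by
  obtain ⟨D, hD⟩ : ∃ D, D = 2 * exp (4 * K * A0 ^ 2) := ⟨_, rfl⟩
  have D0 : 0 ≤ D := by rw [hD]; positivity
  obtain ⟨E, hE⟩ : ∃ E, E = 1 + 16 * (48 * D * exp (2 * K)) := ⟨_, rfl⟩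
  have E1 : 1 ≤ E := by rw [hE]; exact le_add_of_nonneg_right (by positivity)
  refine ⟨E + exp (4 * (E * A0)) * (2 * D * exp (2 * |K| * A0 ^ 2 * 4 ^ 2)),
    E1.trans (le_add_of_nonneg_right (by positivity)), ?_⟩
  intro n w wc h i c hM hh Ψ A hΨ hA
  set C := E + exp (4 * (E * A0)) * (2 * D * exp (2 * |K| * A0 ^ 2 * 4 ^ 2))
  have EC : E ≤ C := le_add_of_nonneg_right (by positivity)
  have hw : SL.Wt w := .of_pos c.wpos
  have hc : SL.Wt wc := .of_pos c.pos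
  have A1 : 0 ≤ A := (nrm_nonneg _).trans (hA default)
  obtain ⟨k1, k2⟩ := hM.four_dom hw hc D0 hA fun φ hφ =>
    hD ▸ c.dom hM hh (fun x τ => by rw [hΨ]) fun x => hφ _
  have k0 : 0 ≤ 48 * D * exp (2 * K) * A ^ 4 := by positivity
  have k3 : (mean wc fun x => (Ψ x - mean wc Ψ) ^ 4) ≤ E * A ^ 4 :=
    (four_centre hc Ψ (mean w Ψ)).trans (by rw [hE]; nlinarith [pow_nonneg A1 4])
  have k4 : |mean wc Ψ - mean w Ψ| ≤ E * A := by
    have a1 := mean_sq_le hc fun x => Ψ x - mean w Ψ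
    have a2 := mean_sq_le hc fun x => (Ψ x - mean w Ψ) ^ 2
    rw [SL.mean_sub, hc.mean_const] at a1
    simp only [← pow_mul] at a2
    refine (pow_le_pow_iff_left₀ (abs_nonneg _) (by positivity) (by norm_num : 4 ≠ 0)).1 ?_
    rw [Even.pow_abs (by decide), mul_pow]
    have a3 : (mean wc Ψ - mean w Ψ) ^ 4 ≤ _ :=
      le_trans (by rw [show 4 = 2 * 2 from rfl, pow_mul]; gcongr) a2
    have a4 : E * A ^ 4 ≤ E ^ 4 * A ^ 4 :=
      mul_le_mul_of_nonneg_right (le_self_pow₀ E1 (by norm_num)) (by positivity)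
    rw [hE] at a4 ⊢
    nlinarith [pow_nonneg A1 4]
  refine ⟨k4.trans (by gcongr), ?_, k3.trans (by gcongr), fun hA0 => ?_⟩
  · have a2 := mean_sq_le hc fun x => (Ψ x - mean wc Ψ) ^ 2
    simp only [← pow_mul] at a2
    refine (abs_le_of_sq_le_sq' (a2.trans (k3.trans ?_)) (by positivity : 0 ≤ E * A ^ 2)).2.trans
      (by gcongr)
    rw [mul_pow, ← pow_mul]
    exact mul_le_mul_of_nonneg_right (le_self_pow₀ E1 (by norm_num)) (by positivity)
  · refine (hc.mean_mono (g := fun x => exp (4 * (E * A0)) * exp (4 * |Ψ x - mean w Ψ|))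
      fun x => ?_).trans ?_
    · rw [← exp_add, exp_le_exp]
      have := abs_sub_le (Ψ x) (mean w Ψ) (mean wc Ψ)
      rw [abs_sub_comm (mean w Ψ)] at this
      nlinarith [mul_le_mul_of_nonneg_left hA0 (zero_le_one.trans E1)]
    · rw [SL.mean_const_mul]
      refine le_trans ?_ (le_add_of_nonneg_left (zero_le_one.trans E1))
      refine mul_le_mul_of_nonneg_left ((k1 4).trans ?_) (exp_pos _).le
      gcongr
      exact le_abs_self K

/-! ### the cavity Ising weight -/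

/-- couplings with the row and the column `i` removed -/
def cJ (J : Matrix (Fin n) (Fin n) ℝ) (i : Fin n) : Matrix (Fin n) (Fin n) ℝ :=
  of fun k l => if k = i ∨ l = i then 0 else J k l

lemma sv_update_ne (x : Cube n) (τ : Bool) {k : Fin n} (hk : k ≠ i) : sv (update x i τ) k = sv x k := by
  simp only [sv, update_of_ne hk]

lemma fr_dot {g : Fin n → ℝ} (hg : g i = 0) : Fr i fun x => g ⬝ᵥ sv x := fun x τ =>
  sum_congr rfl fun k _ => by
    by_cases hk : k = i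
    · simp [hk, hg]
    · rw [sv_update_ne x τ hk]

theorem cv_ising {J : Matrix (Fin n) (Fin n) ℝ} (hJ : Jᵀ = J) (h0 : J i i = 0) (y : Fin n → ℝ) :
    Cv (ising J y) (ising (cJ J i) (update y i 0)) (fun x => J i ⬝ᵥ sv x + y i) i where
  pos _ := exp_pos _
  fw x τ := by
    have e1 := fr_dot (i := i) (g := update y i 0) (update_self ..) x τ
    have e2 : cJ J i *ᵥ sv (update x i τ) = cJ J i *ᵥ sv x :=
      funext fun k => fr_dot (i := i) (g := cJ J i k) (by simp [cJ]) x τ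
    have e3 := fr_dot (i := i) (g := cJ J i *ᵥ sv x) (by simp [cJ, mulVec, dotProduct]) x τ
    simp only at e1 e3
    rw [ising, ising, e1, e2, dotProduct_comm (sv (update x i τ)), e3, dotProduct_comm]
  fh x τ := congrArg (· + y i) (fr_dot h0 x τ)
  eq x := by
    rw [ising, ising, ← exp_add]
    congr 1
    have hs : ∀ k l, J k l = J l k := fun k l => by rw [← transpose_apply J l k, hJ]
    have e1 : y ⬝ᵥ sv x = update y i 0 ⬝ᵥ sv x + y i * sv x i := by
      conv_lhs => rw [show y = update y i 0 + Pi.single i (y i) from funext fun k => by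
        by_cases hk : k = i
        · simp [hk]
        · simp [hk]]
      rw [add_dotProduct, single_dotProduct]
    have e2 : J = cJ J i + (vecMulVec (Pi.single i 1) (J i) + vecMulVec (J i) (Pi.single i 1)) := by
      ext k l
      by_cases hk : k = i <;> by_cases hl : l = i <;>
        simp [cJ, vecMulVec_apply, hk, hl, h0, hs i k]
    have e3 : sv x ⬝ᵥ J *ᵥ sv x = sv x ⬝ᵥ cJ J i *ᵥ sv x + 2 * (sv x i * (J i ⬝ᵥ sv x)) := by
      conv_lhs => rw [e2]
      simp only [add_mulVec, dotProduct_add, vecMulVec_mulVec, dotProduct_smul, single_dotProduct,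
        dotProduct_single, op_smul_eq_mul, dotProduct_comm (sv x) (J i)]
      ring
    rw [e1, e3]; ring

end Crest.Agent.T157.S3C

end
end

-- ▼ part T157/S3CC_16
section

/-!
# Row 157, block S3, section 4 (helper16): tools for (C2), (C3)
-/

set_option autoImplicit false

noncomputable section

namespace Crest.Agent.T157.S3C

open Matrix Finset Function Real
open Crest.Agent.T157.E Crest.Agent.T157.Eig
open Crest.Agent.T157.Rec (grad fl)
open Crest.Agent.T157.Uw (eta UW)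
open Crest.Agent.T157.S3F (jac)
open Crest.Agent.T157.S3L.C365 (Tri Rc Prp Opb Src)

variable {n : ℕ} {i : Fin n} {w wc : Cube n → ℝ} {s C A0 : ℝ}

/-- indicator of the sites `k ≠ i` -/
def ei (i : Fin n) : Fin n → ℝ := fun k => if k = i then 0 else 1

lemma abs_ei (i k : Fin n) : |ei i k| ≤ 1 := by unfold ei; split_ifs <;> simp
lemma ei_self (i : Fin n) : ei i i = 0 := if_pos rfl
lemma ei_ne {k : Fin n} (h : k ≠ i) : ei i k = 1 := if_neg h
lemma ei_ei (v : Fin n → ℝ) : ei i * (ei i * v) = ei i * v := by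
  ext k; by_cases h : k = i <;> simp [ei, h]
lemma nrm_ei_le (v : Fin n → ℝ) : nrm (ei i * v) ≤ nrm v := by
  simpa using nrm_mul_le zero_le_one (abs_ei i) v
lemma sub_ei (v : Fin n → ℝ) : v - ei i * v = v i • Pi.single i 1 := by
  ext k; by_cases h : k = i <;> simp [ei, h]
lemma nrm_le_ei (i : Fin n) (v : Fin n → ℝ) : nrm v ≤ nrm (ei i * v) + |v i| := by
  have := nrm_add_le (ei i * v) (v - ei i * v)
  rwa [add_sub_cancel, sub_ei, nrm_smul, nrm_single, mul_one] at this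
lemma ei_dot (u v : Fin n → ℝ) : (ei i * u) ⬝ᵥ v = u ⬝ᵥ (ei i * v) :=
  sum_congr rfl fun k _ => by simp only [Pi.mul_apply]; ring

lemma cJ_mulVec (J : Matrix (Fin n) (Fin n) ℝ) (v : Fin n → ℝ) :
    cJ J i *ᵥ v = ei i * (J *ᵥ (ei i * v)) := by
  ext k
  by_cases h : k = i
  · simp [cJ, ei, h, mulVec, dotProduct]
  · simp only [cJ, ei, h, mulVec, dotProduct, of_apply, false_or, Pi.mul_apply, if_false, one_mul]
    exact sum_congr rfl fun l _ => by split_ifs <;> simp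

lemma opn_cJ (J : Matrix (Fin n) (Fin n) ℝ) (i : Fin n) : opn (cJ J i) ≤ opn J :=
  opn_le_of_nrm (opn_nonneg J) fun v => by
    rw [cJ_mulVec]
    exact (nrm_ei_le _).trans ((nrm_mulVec_le _ _).trans
      (mul_le_mul_of_nonneg_left (nrm_ei_le _) (opn_nonneg J)))

lemma nrm_le_sqrt {v : Fin n → ℝ} {B : ℝ} (hB : 0 ≤ B) (h : ∀ k, |v k| ≤ B) : nrm v ≤ B * √n := by
  have := nrm_mul_le hB h 1
  rwa [mul_one, show nrm (1 : Fin n → ℝ) = √n by simp [nrm, dotProduct]] at this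

lemma s_sqrt (hs : s ^ 2 * n ≤ 1) : |s| * √n ≤ 1 := by
  rw [← sqrt_sq_eq_abs, ← sqrt_mul (sq_nonneg s)]
  exact sqrt_le_one.2 hs


/-- a small scalar times a bounded vector -/
lemma nrm_small (hs : s ^ 2 * n ≤ 1) {c D B : ℝ} (hc : |c| ≤ D * |s|) (hD : 0 ≤ D) (hB : 0 ≤ B)
    {v : Fin n → ℝ} (h : ∀ k, |v k| ≤ B) : nrm (c • v) ≤ D * B := by
  rw [nrm_smul]
  refine (mul_le_mul hc (nrm_le_sqrt hB h) (nrm_nonneg _) (by positivity)).trans ?_
  nlinarith [mul_le_mul_of_nonneg_left (s_sqrt hs) (mul_nonneg hD hB)]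

lemma abs_eta_nrm (hs : s ^ 2 * n ≤ 1) (v : Fin n → ℝ) : |eta s v| ≤ nrm v * |s| := by
  have h1 := (abs_dot_le 1 v).trans (mul_le_mul_of_nonneg_right
    (nrm_le_sqrt (v := 1) zero_le_one (by simp)) (nrm_nonneg v))
  rw [eta, abs_mul, abs_pow, show ∑ k, v k = 1 ⬝ᵥ v by simp [dotProduct]]
  nlinarith [mul_le_mul_of_nonneg_left h1 (sq_nonneg |s|), mul_le_mul_of_nonneg_left (s_sqrt hs)
    (mul_nonneg (nrm_nonneg v) (abs_nonneg s))]

lemma eta_meanV (w : Cube n → ℝ) (u : Cube n → Fin n → ℝ) :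
    (mean w fun x => eta s (u x)) = eta s (meanV w u) := by
  simp only [eta, SL.mean_const_mul, SL.mean_sum, meanV]

lemma grad_dot_eq (v : Fin n → ℝ) (u : Cube n → Fin n → ℝ) (x : Cube n) :
    grad (fun x => v ⬝ᵥ u x) x = (jac u x)ᵀ *ᵥ v := by
  ext j
  rw [S3.Hb.grad_dot]
  exact sum_congr rfl fun k _ => mul_comm _ _

lemma nrm_grad_dot (v : Fin n → ℝ) {u : Cube n → Fin n → ℝ} {x : Cube n} {B : ℝ}
    (h : opn (jac u x) ≤ B) : nrm (grad (fun x => v ⬝ᵥ u x) x) ≤ B * nrm v := by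
  rw [grad_dot_eq]
  exact (nrm_mulVec_le _ _).trans (mul_le_mul_of_nonneg_right ((opn_transpose _).trans_le h)
    (nrm_nonneg v))

lemma nrm_grad_eta (hs : s ^ 2 * n ≤ 1) {e : Fin n → ℝ} (he : ∀ k, |e k| ≤ 1)
    {u : Cube n → Fin n → ℝ} {x : Cube n} {B : ℝ} (h : opn (jac u x) ≤ B) :
    nrm (grad (fun x => eta s (e * u x)) x) ≤ B * |s| := by
  have B0 := (opn_nonneg _).trans h
  have e1 : (fun x => eta s (e * u x)) = fun x => (s ^ 2 • e) ⬝ᵥ u x := by
    ext x; rw [smul_dotProduct]; rfl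
  rw [e1]
  refine (nrm_grad_dot _ h).trans (mul_le_mul_of_nonneg_left ?_ B0)
  simpa using nrm_small hs (c := s ^ 2) (D := |s|) (by rw [abs_pow, sq]) (abs_nonneg s)
    zero_le_one he

lemma opb_jac {u : Cube n → Fin n → ℝ} {x : Cube n} {B : ℝ} (h : opn (jac u x) ≤ B) :
    Opb (fun k => u x - u (fl x k)) (2 * B) := fun v => by
  have e : (fun k => v ⬝ᵥ (u x - u (fl x k))) =
      (2 : ℝ) • (sv x * grad (fun x => v ⬝ᵥ u x) x) := by
    ext k
    simp only [Pi.smul_apply, Pi.mul_apply, smul_eq_mul, Rec.grad_eq, dotProduct_sub]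
    linear_combination (-(v ⬝ᵥ u x - v ⬝ᵥ u (fl x k))) * Rec.sv_mul_self x k
  rw [e, nrm_smul, abs_two, mul_assoc]
  refine mul_le_mul_of_nonneg_left ((nrm_mul_le zero_le_one (S3F.abs_sv x) _).trans ?_) zero_le_two
  rw [one_mul]; exact nrm_grad_dot v h

/-- the conclusion of `c1` -/
def C1 (C A0 : ℝ) (w wc : Cube n → ℝ) (i : Fin n) : Prop := ∀ (Ψ : Cube n → ℝ) (A : ℝ), Fr i Ψ →
  (∀ x, nrm (grad Ψ x) ≤ A) → |mean wc Ψ - mean w Ψ| ≤ C * A ∧
    (mean wc fun x => (Ψ x - mean wc Ψ) ^ 2) ≤ C * A ^ 2 ∧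
    (mean wc fun x => (Ψ x - mean wc Ψ) ^ 4) ≤ C * A ^ 4 ∧
    (A ≤ A0 → (mean wc fun x => exp (4 * |Ψ x - mean wc Ψ|)) ≤ C)

lemma Fr.dot {u : Cube n → Fin n → ℝ} (h : Fr i fun x => ei i * u x) (v : Fin n → ℝ) :
    Fr i fun x => (ei i * v) ⬝ᵥ u x := fun x τ => by
  simp only [ei_dot]; exact congrArg _ (h x τ)

/-- transfer of the means of two close vector fields -/
lemma C1.meanV (h : C1 C A0 w wc i) (hC : 0 ≤ C) (hw : SL.Wt w) {u u' : Cube n → Fin n → ℝ}
    (hf : Fr i fun x => ei i * u' x) {B D : ℝ} (hB : ∀ x, opn (jac u' x) ≤ B)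
    (hD : ∀ x, nrm (ei i * (u x - u' x)) ≤ D) :
    nrm (ei i * (meanV w u - meanV wc u')) ≤ D + C * B := by
  have B0 := (opn_nonneg _).trans (hB default)
  have D0 := (nrm_nonneg _).trans (hD default)
  set v := ei i * (E.meanV w u - E.meanV wc u') with hv
  have e : ei i * v = v := ei_ei _
  have h1 := (h _ _ (hf.dot v) fun x => nrm_grad_dot _ (hB x)).1
  rw [e] at h1
  have h2 : (mean w fun x => v ⬝ᵥ u x - v ⬝ᵥ u' x) ≤ nrm v * D := hw.mean_le fun x => by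
    rw [← dotProduct_sub, ← e, ei_dot, e]
    exact (dot_le _ _).trans (mul_le_mul_of_nonneg_left (hD x) (nrm_nonneg v))
  have h3 : nrm v * nrm v = v ⬝ᵥ E.meanV w u - v ⬝ᵥ E.meanV wc u' := by
    rw [nrm_mul_self, ← dotProduct_sub]
    conv_rhs => rw [← e, ei_dot]
  rw [SL.meanV_dot, SL.meanV_dot] at h3
  rw [SL.mean_sub] at h2
  rcases (nrm_nonneg v).eq_or_lt with h0 | h0
  · rw [← h0]; positivity
  · refine le_of_mul_le_mul_left ?_ h0
    linarith [neg_abs_le ((mean wc fun x => v ⬝ᵥ u' x) - mean w fun x => v ⬝ᵥ u' x)]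

lemma abs_eta_sub (hs : s ^ 2 * n ≤ 1) {u u' : Fin n → ℝ} {B D : ℝ} (h : ∀ k, |u k| ≤ B)
    (h' : ∀ k, |u' k| ≤ B) (hD : nrm (ei i * (u - u')) ≤ D) :
    |eta s u - eta s u'| ≤ (D + 2 * B) * |s| := by
  rw [← Uw.eta_sub]
  refine (abs_eta_nrm hs _).trans (mul_le_mul_of_nonneg_right ((nrm_le_ei i _).trans
    (add_le_add hD ((abs_sub _ _).trans ?_))) (abs_nonneg s))
  linarith [h i, h' i]

lemma abs_meanV_le (hw : SL.Wt w) {u : Cube n → Fin n → ℝ} {B : ℝ} (h : ∀ x k, |u x k| ≤ B)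
    (k : Fin n) : |meanV w u k| ≤ B := hw.abs_mean_le fun x => h x k

/-- **propagators and their entries** -/
theorem prp_rows (L : Type) [Fintype L] [LinearOrder L] (R : ℝ) {B : ℝ} (hB : 1 ≤ B) :
    ∃ (C : ℝ) (k : ℕ), 1 ≤ C ∧ ∀ (n : ℕ) (s K : ℝ) (J : Matrix (Fin n) (Fin n) ℝ),
      UW s J R k K → Jᵀ = J → 0 ≤ K → s ^ 2 * n ≤ 1 →
      ∀ (a : L → L → Fin n → ℝ) (o : L → L → ℝ) (Θ : ℝ), (∀ l m i, |a l m i| ≤ B) →
      (∀ l m, |o l m| ≤ B) → 0 ≤ Θ → (∀ l m, |eta s (a l m) - o l m| ≤ Θ) →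
      ∃ (T Z : L → L → Matrix (Fin n) (Fin n) ℝ) (M : Fin n → ℝ),
        Prp univ (fun l => univ.filter (· < l)) J o a T Z ∧ (∀ i, 0 ≤ M i) ∧
        ∑ i, M i ^ 4 ≤ C * (K ^ 2 + 1) ∧ ∀ l q i j, |Z l q i j| ≤ M i + C * Θ := by
  obtain ⟨C, k, c1, hC⟩ := rows L R hB
  refine ⟨C, k, c1, fun n s K J hU hJ hK hs a o Θ ha ho h0 hΘ => ?_⟩
  obtain ⟨M, m0, m1, m2⟩ := hC (Fin n) s K J hU hJ hK (by simpa using hs) a ha
  choose T Y h using fun (q : L) (j : Fin n) => exists_sol J a o (Pi.single q (Pi.single j 1))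
  refine ⟨fun l q => of fun k j => T q j l k, fun l q => of fun k j => Y q j l k, M,
    fun q _ l _ => ⟨?_, ?_⟩, m0, m1, fun l q i j => ?_⟩
  · ext k j
    have := congrFun ((h q j).t l) k
    simp only [of_apply, Matrix.add_apply, Matrix.sum_apply, diagonal_mul, this, Pi.add_apply,
      Finset.sum_apply, Pi.mul_apply]
    congr 1
    by_cases e : l = q <;> simp [e, one_apply, Pi.single_apply]
  · ext k j
    have := congrFun ((h q j).y l) k
    simp only [of_apply, Matrix.sub_apply, Matrix.sum_apply, Matrix.smul_apply, this, Pi.sub_apply,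
      Finset.sum_apply, Pi.smul_apply, mul_apply]
    rfl
  · obtain ⟨r, r1, r2⟩ := m2 i a (fun _ _ _ _ => rfl) ha l
    have h1 := r2 o _ _ _ Θ 1 (h q j) ho h0 (fun l m _ => hΘ l m) zero_le_one fun p => by
      by_cases e : p = q <;> simp [e, nrm_single]
    rw [sum_eq_single q (fun p _ hp => by simp [hp]) (by simp), Pi.single_eq_same,
      dotProduct_single, mul_one, mul_one] at h1
    have := abs_add_le (r q j) (Y q j l i - r q j)
    rw [add_sub_cancel] at this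
    exact this.trans (add_le_add (r1 q j) h1)

lemma tri_lt (N : ℕ) : Tri (univ : Finset (Fin N)) (fun l => univ.filter (· < l)) Fin.val :=
  ⟨fun _ _ => subset_univ _, fun _ _ _ hm => (mem_filter.1 hm).2⟩

end Crest.Agent.T157.S3C

end
end

-- ▼ part T157/S3CD_16
section

/-!
# Row 157, block S3, section 4 (helper16): (C2), a canonical system and its cavity system
-/

set_option autoImplicit false

noncomputable section

namespace Crest.Agent.T157.S3C

open Matrix Finset Function Real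
open Crest.ProbabilityR.SpinGlassDynamics (spin)
open Crest.Agent.T157.E Crest.Agent.T157.Eig
open Crest.Agent.T157.Rec (grad fl)
open Crest.Agent.T157.Uw (eta UW)
open Crest.Agent.T157.S3F (jac Tay)

lemma unif {τ : Type*} [Fintype τ] {P : τ → ℝ → Prop} (mono : ∀ t C C', C ≤ C' → P t C → P t C')
    (h : ∀ t, ∃ C, P t C) : ∃ C, 1 ≤ C ∧ ∀ t, P t C := by
  choose C hC using h
  refine ⟨1 + ∑ t, |C t|, le_add_of_nonneg_right (by positivity), fun t => mono t _ _ ?_ (hC t)⟩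
  linarith [single_le_sum (f := fun t => |C t|) (fun _ _ => abs_nonneg _) (mem_univ t),
    le_abs_self (C t)]

/-- functions of the static field, the spin and the nodes -/
abbrev PF (N : ℕ) : Type := ℝ → Bool → (Fin (N + 1) → ℝ) → ℝ

variable {N n : ℕ}

/-- bounded, Lipschitz, with a quadratic Taylor rest in the nodes -/
def R1 (φ : PF N) : Prop := ∃ (Λ : ℝ) (φ' : ℝ → Bool → (Fin (N + 1) → ℝ) → Fin (N + 1) → ℝ),
  0 ≤ Λ ∧ (∀ b s ξ, |φ b s ξ| ≤ Λ) ∧
  (∀ b b' s ξ ξ', |φ b s ξ - φ b' s ξ'| ≤ Λ * (|b - b'| + ∑ m, |ξ m - ξ' m|)) ∧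
  (∀ b s, Tay Λ (φ b s) (φ' b s)) ∧ ∀ b s ξ m, |φ' b s ξ m| ≤ Λ

/-- `φ` reads the nodes with the property `p` only -/
def Rd (p : Fin (N + 1) → Prop) (φ : PF N) : Prop :=
  ∀ b s ξ ξ', (∀ m, p m → ξ m = ξ' m) → φ b s ξ = φ b s ξ'

lemma rd_true (φ : PF N) : Rd (fun _ => True) φ := fun b s ξ ξ' h => by
  rw [show ξ = ξ' from funext fun m => h m trivial]

/-- a program: nodes `f`, static parts `g`, `g'`, derivatives `fb`, `fm` of the nodes -/
structure Pg (N : ℕ) where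
  f : Fin (N + 1) → PF N
  g : Fin (N + 1) → PF N
  g' : Fin (N + 1) → PF N
  fb : Fin (N + 1) → PF N
  fm : Fin (N + 1) → Fin (N + 1) → PF N

structure Pg.Ok (P : Pg N) : Prop where
  rf : ∀ l, R1 (P.f l)
  rg : ∀ l, R1 (P.g l)
  rg' : ∀ l, R1 (P.g' l)
  rb : ∀ l, R1 (P.fb l)
  rm : ∀ l m, R1 (P.fm l m)
  tay : ∃ Λ, ∀ l b b' s ξ ξ', |P.f l b' s ξ' - P.f l b s ξ - P.fb l b s ξ * (b' - b) -
    ∑ m, P.fm l m b s ξ * (ξ' m - ξ m)| ≤ Λ * ((b' - b) ^ 2 + ∑ m, (ξ' m - ξ m) ^ 2)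
  df : ∀ l, Rd (· < l) (P.f l)
  dg : ∀ l, Rd (· < l) (P.g l)
  dg' : ∀ l, Rd (· < l) (P.g' l)
  dm : ∀ l m, Rd (· < l) (P.fm l m)
  tri : ∀ l m, l ≤ m → P.fm l m = 0
  f0 : P.f 0 = fun _ s _ => spin s
  g0 : P.g 0 = 0
  g0' : P.g' 0 = 0

/-- evaluation along the fields -/
def ev (b : Fin n → ℝ) (X : Fin (N + 1) → Cube n → Fin n → ℝ) (φ : PF N) (x : Cube n) : Fin n → ℝ :=
  fun k => φ (b k) (x k) fun l => X l x k
/-- `E η(u)` -/
def me (s : ℝ) (w : Cube n → ℝ) (u : Cube n → Fin n → ℝ) : ℝ := mean w fun x => eta s (u x)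
/-- centring -/
def ctr (w : Cube n → ℝ) (u : Cube n → Fin n → ℝ) (x : Cube n) : Fin n → ℝ := u x - meanV w u
/-- Gram entry `s² ∑ₖ Cov(uₖ, vₖ)` -/
def Sg (s : ℝ) (w : Cube n → ℝ) (u v : Cube n → Fin n → ℝ) : ℝ :=
  me s w fun x => ctr w u x * ctr w v x
/-- static part of the node `l` -/
def cs (P : Pg N) (s : ℝ) (w : Cube n → ℝ) (b : Fin n → ℝ) (X : Fin (N + 1) → Cube n → Fin n → ℝ)
    (l : Fin (N + 1)) : Fin n → ℝ := meanV w (ev b X (P.g l)) + me s w (ev b X (P.g' l)) • 1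

/-- the equations of the canonical network -/
structure Sys (P : Pg N) (s : ℝ) (J : Matrix (Fin n) (Fin n) ℝ) (y : Fin n → ℝ) (w : Cube n → ℝ)
    (b : Fin n → ℝ) (X : Fin (N + 1) → Cube n → Fin n → ℝ) : Prop where
  hb : b = y + J *ᵥ meanV w sv - eta s (1 - meanV w sv * meanV w sv) • meanV w sv
  hX : ∀ l, ∃ κ, ∀ x, X l x = J *ᵥ ev b X (P.f l) x -
    ∑ m, me s w (ev b X (P.fm l m)) • ev b X (P.f m) x - κ
  cen : ∀ l, meanV w (X l) = Sg s w (ev b X (P.f l)) sv • meanV w sv + cs P s w b X l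

lemma Sg_eq (s : ℝ) (w : Cube n → ℝ) (u v : Cube n → Fin n → ℝ) :
    Sg s w u v = s ^ 2 * ∑ k, cov w (fun x => u x k) fun x => v x k := by
  rw [Sg, me, eta_meanV]; rfl

lemma ev_zero (b : Fin n → ℝ) (X : Fin (N + 1) → Cube n → Fin n → ℝ) : ev b X 0 = fun _ => 0 := rfl
lemma me_zero (s : ℝ) (w : Cube n → ℝ) : me s w (fun _ => 0) = 0 := by simp [me, eta, mean]

lemma abs_me_le {s B : ℝ} {w : Cube n → ℝ} (hs : s ^ 2 * n ≤ 1) (hw : SL.Wt w) (hB : 0 ≤ B)
    {u : Cube n → Fin n → ℝ} (h : ∀ x k, |u x k| ≤ B) : |me s w u| ≤ B :=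
  hw.abs_mean_le fun x => Uw.abs_eta_le (by simpa using hs) hB (h x)

lemma meanV_mulVec (w : Cube n → ℝ) (J : Matrix (Fin n) (Fin n) ℝ) (u : Cube n → Fin n → ℝ) :
    meanV w (fun x => J *ᵥ u x) = J *ᵥ meanV w u := funext fun k => (SL.meanV_dot w u (J k)).symm

lemma Sys.ctr_eq {P : Pg N} {s : ℝ} {J : Matrix (Fin n) (Fin n) ℝ} {y b : Fin n → ℝ} {w : Cube n → ℝ}
    {X : Fin (N + 1) → Cube n → Fin n → ℝ} (hP : P.Ok) (h : Sys P s J y w b X) (hw : SL.Wt w)
    (l : Fin (N + 1)) (x : Cube n) : X l x = J *ᵥ ctr w (ev b X (P.f l)) x -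
      ∑ m with m < l, me s w (ev b X (P.fm l m)) • ctr w (ev b X (P.f m)) x +
      (Sg s w (ev b X (P.f l)) sv • meanV w sv + cs P s w b X l) := by
  obtain ⟨κ, hκ⟩ := h.hX l
  have e : meanV w (X l) = J *ᵥ meanV w (ev b X (P.f l)) -
      ∑ m, me s w (ev b X (P.fm l m)) • meanV w (ev b X (P.f m)) - κ := by
    rw [← meanV_mulVec]
    ext k
    simp only [meanV, hκ, Pi.sub_apply, SL.mean_sub, hw.mean_const, Finset.sum_apply, Pi.smul_apply,
      smul_eq_mul, SL.mean_sum, SL.mean_const_mul]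
  rw [← h.cen, e, hκ, sum_filter_of_ne fun m _ hm => not_le.1 fun hl => hm (by
    rw [hP.tri l m hl, ev_zero, me_zero, zero_smul])]
  simp only [ctr, mulVec_sub, smul_sub, sum_sub_distrib]
  abel

lemma ev_trunc {p : Fin (N + 1) → Prop} [DecidablePred p] {φ : PF N} (h : Rd p φ) (b : Fin n → ℝ)
    (X Z : Fin (N + 1) → Cube n → Fin n → ℝ) :
    ev b X φ = ev b (fun m => if p m then X m else Z m) φ :=
  funext fun _ => funext fun _ => h _ _ _ _ fun m hm => by simp [hm]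

/-- chain rule in the operator norm -/
lemma R1.jac_le {φ : PF N} (h : R1 φ) {p : Fin (N + 1) → Prop} (hp : Rd p φ) (C : ℝ) : ∃ D,
    ∀ (n : ℕ) (b : Fin n → ℝ) (X : Fin (N + 1) → Cube n → Fin n → ℝ) (x : Cube n),
      (∀ m, p m → opn (jac (X m) x) ≤ C) → opn (jac (ev b X φ) x) ≤ D := by
  classical
  obtain ⟨Λ, φ', h0, h1, -, h3, h4⟩ := h
  refine ⟨Λ + 3 * Λ * ∑ _m : Fin (N + 1), |C| + 2 * Λ * ∑ _m : Fin (N + 1), |C| ^ 2,
    fun n b X x hX => ?_⟩
  rw [ev_trunc hp b X fun _ _ => 0]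
  have k : ∀ m, opn (jac (if p m then X m else fun _ => 0) x) ≤ |C| := fun m => by
    split_ifs with hm
    · exact (hX m hm).trans (le_abs_self C)
    · simp [S3F.jac_const]
  refine (S3F.opn_jac_loc (g := fun k => φ (b k)) (g' := fun k => φ' (b k)) h0 h0
    (fun k s => h3 _ s) (fun k s => h4 _ s) (fun k ξ => (abs_sub _ _).trans
      (by linarith [h1 (b k) true ξ, h1 (b k) false ξ])) _ x).trans ?_
  gcongr with m _ m _
  · exact k m
  · exact opn_nonneg _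
  · exact k m

/-- **(J1)** with the operator norm of the couplings only -/
theorem j1 {P : Pg N} (hP : P.Ok) (R : ℝ) (l : Fin (N + 1)) : ∃ C, ∀ (n : ℕ) (s : ℝ)
    (J : Matrix (Fin n) (Fin n) ℝ) (y b : Fin n → ℝ) (w : Cube n → ℝ)
    (X : Fin (N + 1) → Cube n → Fin n → ℝ), s ^ 2 * n ≤ 1 → opn J ≤ R → SL.Wt w →
    Sys P s J y w b X → ∀ x, opn (jac (X l) x) ≤ C := by
  induction l using WellFoundedLT.induction with
  | ind l ih =>
  choose! C hC using ih
  choose D hD using fun m => (hP.rf m).jac_le (hP.df m) (∑ q, |C q|)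
  choose Λ φ' h0 h1 h2 using hP.rm l
  refine ⟨|R| * D l + ∑ m with m < l, Λ m * D m, fun n s J y b w X hs hR hw h x => ?_⟩
  have k : ∀ m ≤ l, opn (jac (ctr w (ev b X (P.f m))) x) ≤ D m := fun m hm => by
    rw [show ctr w (ev b X (P.f m)) = fun x => ev b X (P.f m) x - meanV w _ from rfl, S3F.jac_sub,
      S3F.jac_const, sub_zero]
    exact hD m n b X x fun q hq => (hC q (hq.trans_le hm) n s J y b w X hs hR hw h x).trans
      ((le_abs_self _).trans (single_le_sum (f := fun q => |C q|) (fun _ _ => abs_nonneg _)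
        (mem_univ q)))
  rw [show X l = _ from funext (h.ctr_eq hP hw l), S3F.jac_add, S3F.jac_const, add_zero,
    S3F.jac_sub, S3F.jac_mulVec, S3F.jac_sum]
  refine (opn_sub_le _ _).trans (add_le_add (Uw.opn_mul_le' (hR.trans (le_abs_self R)) (k l le_rfl))
    ((opn_sum_le _ _).trans (sum_le_sum fun m hm => ?_)))
  rw [S3F.jac_smul, opn_smul]
  exact mul_le_mul (abs_me_le hs hw (h0 m) fun x k => h1 m _ _ _) (k m (mem_filter.1 hm).2.le)
    (opn_nonneg _) (h0 m)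

/-! ### a system together with its cavity system -/

/-- an instance with a distinguished site -/
structure Ins (P : Pg N) (R K : ℝ) where
  n : ℕ
  s : ℝ
  i : Fin n
  J : Matrix (Fin n) (Fin n) ℝ
  y : Fin n → ℝ
  b : Fin n → ℝ
  b' : Fin n → ℝ
  X : Fin (N + 1) → Cube n → Fin n → ℝ
  X' : Fin (N + 1) → Cube n → Fin n → ℝ
  hs : s ^ 2 * n ≤ 1
  symm : Jᵀ = J
  diag : J i i = 0
  op : opn J ≤ R
  mg : Mg (ising J y) K
  sys : Sys P s J y (ising J y) b X
  sys' : Sys P s (cJ J i) (update y i 0) (ising (cJ J i) (update y i 0)) b' X'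

namespace Ins
variable {P : Pg N} {R K : ℝ}

def w (a : Ins P R K) : Cube a.n → ℝ := ising a.J a.y
def wc (a : Ins P R K) : Cube a.n → ℝ := ising (cJ a.J a.i) (update a.y a.i 0)
lemma hw (a : Ins P R K) : SL.Wt a.w := .of_pos fun _ => exp_pos _
lemma hc (a : Ins P R K) : SL.Wt a.wc := .of_pos fun _ => exp_pos _
def e (φ : PF N) (a : Ins P R K) : Cube a.n → Fin a.n → ℝ := ev a.b a.X φ
def e' (φ : PF N) (a : Ins P R K) : Cube a.n → Fin a.n → ℝ := ev a.b' a.X' φ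

lemma c1 (R K : ℝ) : ∃ C, 1 ≤ C ∧ ∀ a : Ins P R K, C1 C R a.w a.wc a.i := by
  obtain ⟨C, c, h⟩ := S3C.c1 K R
  refine ⟨C, c, fun a => h a.n _ _ _ a.i (cv_ising a.symm a.diag a.y) a.mg fun x => ?_⟩
  rw [Rec.grad_add, Rec.grad_const, add_zero, Rec.grad_lin]
  exact (nrm_row_le _ _).trans a.op

/-- vector fields -/
abbrev VF (P : Pg N) (R K : ℝ) : Type := ∀ a : Ins P R K, Cube a.n → Fin a.n → ℝ

def Bd (u : VF P R K) : Prop := ∃ C, 0 ≤ C ∧ ∀ a x k, |u a x k| ≤ C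
def Jb (u : VF P R K) : Prop := ∃ C, 0 ≤ C ∧ ∀ a x, opn (jac (u a) x) ≤ C
/-- close in `ℓ²` off the site -/
def Cl (u u' : VF P R K) : Prop := ∃ C, 0 ≤ C ∧ ∀ a x, nrm (ei a.i * (u a x - u' a x)) ≤ C
/-- free of the spin `i` off the site `i` -/
def Fo (u : VF P R K) : Prop := ∀ a, Fr a.i fun x => ei a.i * u a x
/-- bounded scalars which differ by `O(n^{-1/2})` -/
def Sc (c c' : Ins P R K → ℝ) : Prop := ∃ C, 0 ≤ C ∧ ∀ a, |c a| ≤ C ∧ |c a - c' a| ≤ C * |a.s|

structure GP (u u' : VF P R K) : Prop where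
  b : Bd u
  b' : Bd u'
  j : Jb u
  j' : Jb u'
  c : Cl u u'
  f : Fo u'

variable {u u' v v' : VF P R K} {c c' : Ins P R K → ℝ}

lemma Cl.refl (u : VF P R K) : Cl u u := ⟨0, le_rfl, fun _ _ => by simp⟩
lemma Cl.add (h : Cl u u') (g : Cl v v') : Cl (fun a x => u a x + v a x) fun a x => u' a x + v' a x :=
  let ⟨C, c0, h⟩ := h; let ⟨D, d0, g⟩ := g
  ⟨C + D, add_nonneg c0 d0, fun a x => by
    rw [add_sub_add_comm, mul_add]; exact (nrm_add_le _ _).trans (add_le_add (h a x) (g a x))⟩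
lemma Cl.sub (h : Cl u u') (g : Cl v v') : Cl (fun a x => u a x - v a x) fun a x => u' a x - v' a x :=
  let ⟨C, c0, h⟩ := h; let ⟨D, d0, g⟩ := g
  ⟨C + D, add_nonneg c0 d0, fun a x => by
    rw [sub_sub_sub_comm, mul_sub]; exact (nrm_sub_le _ _).trans (add_le_add (h a x) (g a x))⟩
lemma Cl.sum {κ : Type*} (t : Finset κ) {u u' : κ → VF P R K} (h : ∀ q ∈ t, Cl (u q) (u' q)) :
    Cl (fun a x => ∑ q ∈ t, u q a x) fun a x => ∑ q ∈ t, u' q a x := by
  classical
  induction t using Finset.induction_on with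
  | empty => simpa using Cl.refl _
  | insert k t hk ih =>
    simp only [sum_insert hk]
    exact (h k (mem_insert_self _ _)).add (ih fun j hj => h j (mem_insert_of_mem hj))
lemma Cl.nrm (h : Cl u u') (hb : Bd u) :
    ∃ C, 0 ≤ C ∧ ∀ a x, nrm (u a x - ei a.i * u' a x) ≤ C :=
  let ⟨C, c0, h⟩ := h; let ⟨D, d0, g⟩ := hb
  ⟨C + D, add_nonneg c0 d0, fun a x => (nrm_le_ei a.i _).trans (add_le_add
    (by rw [mul_sub, ei_ei, ← mul_sub]; exact h a x) (by simpa [ei_self] using g a x a.i))⟩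
lemma Cl.J (h : Cl u u') (hb : Bd u) :
    Cl (fun a x => a.J *ᵥ u a x) fun a x => cJ a.J a.i *ᵥ u' a x :=
  let ⟨C, c0, h⟩ := h.nrm hb
  ⟨|R| * C, by positivity, fun a x => by
    beta_reduce
    rw [cJ_mulVec, mul_sub, ei_ei, ← mul_sub, ← mulVec_sub]
    exact (nrm_ei_le _).trans ((nrm_mulVec_le _ _).trans (mul_le_mul (a.op.trans (le_abs_self R))
      (h a x) (nrm_nonneg _) (abs_nonneg R)))⟩
lemma Cl.smul (hc : Sc c c') (h : Cl u u') (hb : Bd u') :
    Cl (fun a x => c a • u a x) fun a x => c' a • u' a x :=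
  let ⟨C, c0, hc⟩ := hc; let ⟨D, d0, h⟩ := h; let ⟨B, b0, g⟩ := hb
  ⟨C * D + C * B, by positivity, fun a x => by
    rw [show ei a.i * (c a • u a x - c' a • u' a x) = c a • (ei a.i * (u a x - u' a x)) +
      ei a.i * ((c a - c' a) • u' a x) by ext k; simp; ring]
    refine (nrm_add_le _ _).trans (add_le_add ?_ ((nrm_ei_le _).trans
      (nrm_small a.hs (hc a).2 c0 b0 (g a x))))
    rw [nrm_smul]; exact mul_le_mul (hc a).1 (h a x) (nrm_nonneg _) c0⟩

lemma Fo.eq (h : Fo u) (a : Ins P R K) (x : Cube a.n) (τ : Bool) :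
    ei a.i * u a (update x a.i τ) = ei a.i * u a x := h a x τ
lemma Fo.const (z : ∀ a : Ins P R K, Fin a.n → ℝ) : Fo fun a _ => z a := fun _ _ _ => rfl
lemma Fo.add (h : Fo u) (g : Fo v) : Fo fun a x => u a x + v a x := fun a x τ => by
  simp only [mul_add]; rw [h.eq, g.eq]
lemma Fo.sub (h : Fo u) (g : Fo v) : Fo fun a x => u a x - v a x := fun a x τ => by
  simp only [mul_sub]; rw [h.eq, g.eq]
lemma Fo.smul (c : Ins P R K → ℝ) (h : Fo u) : Fo fun a x => c a • u a x := fun a x τ => by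
  simp only [mul_smul_comm]; rw [h.eq]
lemma Fo.sum {κ : Type*} (t : Finset κ) {u : κ → VF P R K} (h : ∀ q ∈ t, Fo (u q)) :
    Fo fun a x => ∑ q ∈ t, u q a x := fun a x τ => by
  simp only [mul_sum]; exact sum_congr rfl fun q hq => h q hq a x τ
lemma Fo.J (h : Fo u) : Fo fun a x => cJ a.J a.i *ᵥ u a x := fun a x τ => by
  simp only [cJ_mulVec]; rw [h.eq]
lemma Fo.mul (h : Fo u) (g : Fo v) : Fo fun a x => u a x * v a x := fun a x τ => by
  have e : ∀ p q : Fin a.n → ℝ, ei a.i * (p * q) = (ei a.i * p) * (ei a.i * q) := fun p q => by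
    rw [mul_mul_mul_comm, ← mul_assoc, ← mul_assoc, mul_assoc _ p, ← mul_assoc, ← mul_one (_ * _),
      mul_assoc (ei _) (ei _), ei_ei, mul_one, mul_assoc]
  simp only [e]; rw [h.eq, g.eq]

lemma Bd.add (h : Bd u) (g : Bd v) : Bd fun a x => u a x + v a x :=
  let ⟨C, c0, h⟩ := h; let ⟨D, d0, g⟩ := g
  ⟨C + D, add_nonneg c0 d0, fun a x k => (abs_add_le _ _).trans (add_le_add (h a x k) (g a x k))⟩
lemma Bd.sub (h : Bd u) (g : Bd v) : Bd fun a x => u a x - v a x :=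
  let ⟨C, c0, h⟩ := h; let ⟨D, d0, g⟩ := g
  ⟨C + D, add_nonneg c0 d0, fun a x k => (abs_sub _ _).trans (add_le_add (h a x k) (g a x k))⟩
lemma Bd.mul (h : Bd u) (g : Bd v) : Bd fun a x => u a x * v a x :=
  let ⟨C, c0, h⟩ := h; let ⟨D, d0, g⟩ := g
  ⟨C * D, mul_nonneg c0 d0, fun a x k => by
    simp only [Pi.mul_apply, abs_mul]; exact mul_le_mul (h a x k) (g a x k) (abs_nonneg _) c0⟩
lemma Jb.sub (h : Jb u) (g : Jb v) : Jb fun a x => u a x - v a x :=
  let ⟨C, c0, h⟩ := h; let ⟨D, d0, g⟩ := g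
  ⟨C + D, add_nonneg c0 d0, fun a x => by
    rw [S3F.jac_sub]; exact (opn_sub_le _ _).trans (add_le_add (h a x) (g a x))⟩
lemma Jb.const (z : ∀ a : Ins P R K, Fin a.n → ℝ) : Jb fun a _ => z a :=
  ⟨0, le_rfl, fun a x => by simp [S3F.jac_const]⟩
lemma Jb.mul (h : Jb u) (g : Jb v) (hu : Bd u) (hv : Bd v) : Jb fun a x => u a x * v a x :=
  let ⟨C, c0, h⟩ := h; let ⟨D, d0, g⟩ := g; let ⟨A, a0, hu⟩ := hu; let ⟨B, b0, hv⟩ := hv
  ⟨(A + C) * D + (B + D) * C, by positivity, fun a x =>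
    (S3F.opn_jac_mul a0 b0 (hu a x) (hv a x)).trans (by
      have := h a x; have := g a x; have := opn_nonneg (jac (u a) x)
      have := opn_nonneg (jac (v a) x); gcongr)⟩

lemma GP.sub (h : GP u u') (g : GP v v') : GP (fun a x => u a x - v a x) fun a x => u' a x - v' a x :=
  ⟨h.b.sub g.b, h.b'.sub g.b', h.j.sub g.j, h.j'.sub g.j', h.c.sub g.c, h.f.sub g.f⟩

lemma GP.mul (h : GP u u') (g : GP v v') : GP (fun a x => u a x * v a x) fun a x => u' a x * v' a x := by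
  refine ⟨h.b.mul g.b, h.b'.mul g.b', h.j.mul g.j h.b g.b, h.j'.mul g.j' h.b' g.b', ?_, h.f.mul g.f⟩
  obtain ⟨A, a0, hA⟩ := h.b
  obtain ⟨B, b0, hB⟩ := g.b'
  obtain ⟨C, c0, hC⟩ := h.c
  obtain ⟨D, d0, hD⟩ := g.c
  refine ⟨A * D + B * C, by positivity, fun a x => ?_⟩
  rw [show ei a.i * (u a x * v a x - u' a x * v' a x) = u a x * (ei a.i * (v a x - v' a x)) +
    v' a x * (ei a.i * (u a x - u' a x)) by ring]
  exact (nrm_add_le _ _).trans (add_le_add
    ((nrm_mul_le a0 (hA a x) _).trans (mul_le_mul_of_nonneg_left (hD a x) a0))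
    ((nrm_mul_le b0 (hB a x) _).trans (mul_le_mul_of_nonneg_left (hC a x) b0)))

lemma gp_one : GP (P := P) (R := R) (K := K) (fun _ _ => 1) fun _ _ => 1 :=
  ⟨⟨1, zero_le_one, by simp⟩, ⟨1, zero_le_one, by simp⟩, .const _, .const _, .refl _, .const _⟩

lemma gp_sv : GP (P := P) (R := R) (K := K) (fun _ => sv) fun _ => sv := by
  have h1 : Bd (P := P) (R := R) (K := K) fun _ => sv := ⟨1, zero_le_one, fun _ => S3F.abs_sv⟩
  have h2 : Jb (P := P) (R := R) (K := K) fun _ => sv :=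
    ⟨1, zero_le_one, fun _ x => by rw [S3F.jac_sv]; exact opn_one_le⟩
  refine ⟨h1, h1, h2, h2, .refl _, fun a x τ => funext fun k => ?_⟩
  by_cases hk : k = a.i
  · simp [hk, ei_self]
  · simp only [Pi.mul_apply, sv_update_ne x τ hk]

lemma GP.mean (h : GP u u') : GP (fun a _ => meanV a.w (u a)) fun a _ => meanV a.wc (u' a) := by
  obtain ⟨A, a0, hA⟩ := h.b
  obtain ⟨B, b0, hB⟩ := h.b'
  obtain ⟨C, c0, hC⟩ := h.c
  obtain ⟨D, d0, hD⟩ := h.j'
  obtain ⟨E, e1, hE⟩ := c1 (P := P) R K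
  have e0 : 0 ≤ E := zero_le_one.trans e1
  exact ⟨⟨A, a0, fun a _ => abs_meanV_le a.hw (hA a)⟩, ⟨B, b0, fun a _ => abs_meanV_le a.hc (hB a)⟩,
    .const _, .const _, ⟨C + E * D, by positivity, fun a _ =>
      (hE a).meanV e0 a.hw (h.f a) (hD a) (hC a)⟩, .const _⟩

lemma GP.ctr (h : GP u u') : GP (fun a => ctr a.w (u a)) fun a => ctr a.wc (u' a) := h.sub h.mean

lemma GP.me (h : GP u u') : Sc (fun a => me a.s a.w (u a)) fun a => me a.s a.wc (u' a) := by
  obtain ⟨A, a0, hA⟩ := h.mean.b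
  obtain ⟨B, b0, hB⟩ := h.mean.b'
  obtain ⟨C, c0, hC⟩ := h.mean.c
  refine ⟨C + 2 * (A + B), by positivity, fun a => ?_⟩
  simp only [S3C.me, eta_meanV]
  refine ⟨(Uw.abs_eta_le (by simpa using a.hs) a0 (hA a default)).trans (by linarith),
    abs_eta_sub a.hs (fun k => (hA a default k).trans (by linarith))
      (fun k => (hB a default k).trans (by linarith)) (hC a default)⟩

lemma GP.Sg (h : GP u u') (g : GP v v') :
    Sc (fun a => Sg a.s a.w (u a) (v a)) fun a => Sg a.s a.wc (u' a) (v' a) := (h.ctr.mul g.ctr).me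

/-- the static fields are close -/
lemma cl_b : Cl (P := P) (R := R) (K := K) (fun a _ => a.b) fun a _ => a.b' := by
  have hm := (gp_sv (P := P) (R := R) (K := K)).mean
  have h1 := (gp_one.sub (hm.mul hm)).me
  have h2 : Cl (P := P) (R := R) (K := K) (fun a _ => a.y) fun a _ => update a.y a.i 0 :=
    ⟨0, le_rfl, fun a _ => by
      rw [show ei a.i * (a.y - update a.y a.i 0) = 0 from funext fun k => by
        by_cases hk : k = a.i <;> simp [hk, ei_self], nrm_zero]⟩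
  obtain ⟨C, c0, h⟩ := (h2.add (hm.c.J hm.b)).sub (Cl.smul h1 hm.c hm.b')
  refine ⟨C, c0, fun a x => le_of_eq_of_le ?_ (h a x)⟩
  simp only [S3C.me, a.hw.mean_const, a.hc.mean_const]
  rw [a.sys.hb, a.sys'.hb]
  rfl

lemma gp_ev (hP : P.Ok) {φ : PF N} (h : R1 φ) {p : Fin (N + 1) → Prop} (hp : Rd p φ)
    (hX : ∀ m, p m → Cl (P := P) (R := R) (K := K) (fun a => a.X m) (fun a => a.X' m) ∧
      Fo (P := P) (R := R) (K := K) fun a => a.X' m) : GP (P := P) (R := R) (K := K) (e φ) (e' φ) := by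
  classical
  obtain ⟨C, c1, hC⟩ := unif (fun _ _ _ h h' n s J y b w X a e c d x =>
    (h' n s J y b w X a e c d x).trans h)
    (j1 hP R)
  obtain ⟨D, hD⟩ := h.jac_le (rd_true φ) C
  obtain ⟨Λ, φ', h0, h1, h2, -⟩ := h
  refine ⟨⟨Λ, h0, fun a x k => h1 _ _ _⟩, ⟨Λ, h0, fun a x k => h1 _ _ _⟩,
    ⟨|D|, abs_nonneg _, fun a x => (hD _ _ _ x fun m _ => hC m _ _ _ _ _ _ _ a.hs a.op a.hw a.sys x).trans
      (le_abs_self D)⟩, ⟨|D|, abs_nonneg _, fun a x => (hD _ _ _ x fun m _ => hC m _ _ _ _ _ _ _ a.hs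
      ((opn_cJ _ _).trans a.op) a.hc a.sys' x).trans (le_abs_self D)⟩, ?_, fun a x τ => ?_⟩
  · obtain ⟨B, b0, hB⟩ := cl_b (P := P) (R := R) (K := K)
    choose! E e0 hE using fun m hm => (hX m hm).1
    refine ⟨Λ * (B + ∑ m with p m, E m), mul_nonneg h0 (add_nonneg b0 (sum_nonneg fun m hm =>
      e0 m (mem_filter.1 hm).2)), fun a x => ?_⟩
    have ab : ∀ z : Fin a.n → ℝ, nrm (fun k => |z k|) = nrm z := fun z => by simp [nrm, dotProduct]
    refine (S3L.C365.nrm_mono (v := Λ • ((fun k => |(ei a.i * (a.b - a.b')) k|) +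
      ∑ m with p m, fun k => |(ei a.i * (a.X m x - a.X' m x)) k|)) fun k => ?_).trans ?_
    · by_cases hk : k = a.i
      · simp [hk, ei_self]
      · simp only [Pi.mul_apply, ei_ne hk, one_mul, Pi.sub_apply, Pi.smul_apply, Pi.add_apply,
          Finset.sum_apply, smul_eq_mul, e']
        rw [ev_trunc hp a.b' a.X' a.X]
        refine (h2 _ _ _ _ _).trans_eq ?_
        congr 2
        rw [sum_filter]
        exact sum_congr rfl fun m _ => by by_cases hm : p m <;> simp [hm]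
    · rw [nrm_smul, abs_of_nonneg h0]
      refine mul_le_mul_of_nonneg_left ((nrm_add_le _ _).trans (add_le_add ((ab _).trans_le (hB a x))
        ((Uw.nrm_sum_le _ _).trans (sum_le_sum fun m hm => (ab _).trans_le
          (hE m (mem_filter.1 hm).2 a x))))) h0
  · ext k
    by_cases hk : k = a.i
    · simp [hk, ei_self]
    · simp only [Pi.mul_apply, ei_ne hk, one_mul, e', ev, update_of_ne hk]
      refine hp _ _ _ _ fun m hm => ?_
      simpa only [Pi.mul_apply, ei_ne hk, one_mul] using congrFun ((hX m hm).2 a x τ) k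

/-- **(C2)** -/
theorem c2 (hP : P.Ok) (l : Fin (N + 1)) :
    Cl (P := P) (R := R) (K := K) (fun a => a.X l) (fun a => a.X' l) ∧
      Fo (P := P) (R := R) (K := K) fun a => a.X' l := by
  induction l using WellFoundedLT.induction with
  | ind l ih =>
  have hf : ∀ m ≤ l, GP (P := P) (R := R) (K := K) (e (P.f m)) (e' (P.f m)) := fun m hm =>
    gp_ev hP (hP.rf m) (hP.df m) fun q hq => ih q (hq.trans_le hm)
  have ho := fun m => (gp_ev hP (hP.rm l m) (hP.dm l m) ih).me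
  have hg := (gp_ev hP (hP.rg l) (hP.dg l) ih).mean
  have hg' := (gp_ev hP (hP.rg' l) (hP.dg' l) ih).me
  have hm := (gp_sv (P := P) (R := R) (K := K)).mean
  have e1 : (fun a : Ins P R K => a.X l) = _ := funext fun a => funext (a.sys.ctr_eq hP a.hw l)
  have e2 : (fun a : Ins P R K => a.X' l) = _ := funext fun a => funext (a.sys'.ctr_eq hP a.hc l)
  rw [e1, e2]
  exact ⟨(((hf l le_rfl).ctr.c.J (hf l le_rfl).ctr.b).sub (Cl.sum _ fun m hm => Cl.smul (ho m)
    (hf m (mem_filter.1 hm).2.le).ctr.c (hf m (mem_filter.1 hm).2.le).ctr.b')).add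
    ((Cl.smul ((hf l le_rfl).Sg gp_sv) hm.c hm.b').add (hg.c.add (Cl.smul hg' (.refl _) gp_one.b))),
    ((hf l le_rfl).ctr.f.J.sub (Fo.sum _ fun m hm => (hf m (mem_filter.1 hm).2.le).ctr.f.smul _)).add
      (.const _)⟩

theorem gp_e (hP : P.Ok) {φ : PF N} (h : R1 φ) : GP (P := P) (R := R) (K := K) (e φ) (e' φ) :=
  gp_ev hP h (rd_true φ) fun m _ => c2 hP m

end Ins

end Crest.Agent.T157.S3C

end
end

-- ▼ part T157/S3CE_16
section

/-!
# Row 157, block S3, section 4 (helper16): (C3) and the cavity data of one site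
-/

set_option autoImplicit false

noncomputable section

namespace Crest.Agent.T157.S3C

open Matrix Finset Function Real
open Crest.Agent.T157.E Crest.Agent.T157.Eig
open Crest.Agent.T157.Rec (grad fl)
open Crest.Agent.T157.Uw (eta UW)
open Crest.Agent.T157.S3F (jac)
open Crest.Agent.T157.S3L.C365 (Tri Rc Prp Opb Src)
open Crest.Agent.T157.Conc (en en_sq)

lemma l1_le {n : ℕ} (v : Fin n → ℝ) : ∑ j, |v j| ≤ nrm v * √n := by
  have h := dot_le (fun j => |v j|) 1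
  rw [show nrm (fun j => |v j|) = nrm v by simp [nrm, dotProduct]] at h
  refine le_of_eq_of_le (by simp [dotProduct]) (h.trans (mul_le_mul_of_nonneg_left ?_ (nrm_nonneg v)))
  simpa using nrm_le_sqrt (v := (1 : Fin n → ℝ)) zero_le_one (by simp)

lemma en_eq {ι : Type*} [Fintype ι] (v : ι → ℝ) : en v = nrm v := by simp [en, nrm, dotProduct, sq]

namespace Ins
variable {N : ℕ} {P : Pg N} {R K : ℝ} {u u' v v' : VF P R K} {c c' : Ins P R K → ℝ}

def o (a : Ins P R K) (l m : Fin (N + 1)) : ℝ := me a.s a.w (e (P.fm l m) a)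
def o' (a : Ins P R K) (l m : Fin (N + 1)) : ℝ := me a.s a.wc (e' (P.fm l m) a)
def dF (l : Fin (N + 1)) : VF P R K := fun a x => e (P.f l) a x - ei a.i * e' (P.f l) a x
def Yd (l : Fin (N + 1)) : VF P R K :=
  fun a x => a.J *ᵥ dF l a x - ∑ m with m < l, o a l m • dF m a x
def z (a : Ins P R K) (l : Fin (N + 1)) : Fin a.n → ℝ :=
  ei a.i * ((a.sys.hX l).choose - (a.sys'.hX l).choose)
/-- the centred cavity nodes -/
def Vc (a : Ins P R K) (x : Cube a.n) : Matrix (Fin (N + 1)) (Fin a.n) ℝ :=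
  of fun l => ei a.i * ctr a.wc (e' (P.f l) a) x

lemma Yd_eq (hP : P.Ok) (l : Fin (N + 1)) (a : Ins P R K) (x : Cube a.n) :
    Yd l a x = a.J *ᵥ dF l a x - ∑ m, o a l m • dF m a x := by
  rw [Yd, sum_filter_of_ne fun m _ hm => not_le.1 fun hl => hm (by
    rw [o, hP.tri l m hl, e, ev_zero, me_zero, zero_smul])]

lemma dX (hP : P.Ok) (l : Fin (N + 1)) (a : Ins P R K) (x : Cube a.n) :
    ei a.i * (a.X l x - a.X' l x) = ei a.i * Yd l a x -
      ∑ q, (o a l q - o' a l q) • (ei a.i * e' (P.f q) a x) - z a l := by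
  rw [Yd_eq hP, (a.sys.hX l).choose_spec x, (a.sys'.hX l).choose_spec x, cJ_mulVec, z]
  simp only [dF, mul_sub, mul_sum, mul_smul_comm, ei_ei, sub_smul, smul_sub, sum_sub_distrib,
    mulVec_sub, o, o', e, e', w, wc]
  abel

def Nb (u : VF P R K) : Prop := ∃ C, 0 ≤ C ∧ ∀ a x, nrm (u a x) ≤ C
def L1 (u : VF P R K) : Prop := ∃ C, ∀ a x, ∑ j, |u a x j| ≤ C
def Sr (u : VF P R K) : Prop := ∃ C, ∀ a, Src C (u a)

lemma sumP {Q : VF P R K → Prop} (h0 : Q fun _ _ => 0)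
    (ha : ∀ {u v}, Q u → Q v → Q fun a x => u a x + v a x) {κ : Type*} (t : Finset κ)
    {u : κ → VF P R K} (h : ∀ q ∈ t, Q (u q)) : Q fun a x => ∑ q ∈ t, u q a x := by
  classical
  induction t using Finset.induction_on with
  | empty => simpa using h0
  | insert k t hk ih =>
    simp only [sum_insert hk]
    exact ha (h k (mem_insert_self _ _)) (ih fun j hj => h j (mem_insert_of_mem hj))

lemma Nb.add (h : Nb u) (g : Nb v) : Nb fun a x => u a x + v a x :=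
  let ⟨C, c0, h⟩ := h; let ⟨D, d0, g⟩ := g
  ⟨C + D, add_nonneg c0 d0, fun a x => (nrm_add_le _ _).trans (add_le_add (h a x) (g a x))⟩
lemma Nb.sub (h : Nb u) (g : Nb v) : Nb fun a x => u a x - v a x :=
  let ⟨C, c0, h⟩ := h; let ⟨D, d0, g⟩ := g
  ⟨C + D, add_nonneg c0 d0, fun a x => (nrm_sub_le _ _).trans (add_le_add (h a x) (g a x))⟩
lemma Nb.sum {κ : Type*} (t : Finset κ) {u : κ → VF P R K} (h : ∀ q ∈ t, Nb (u q)) :
    Nb fun a x => ∑ q ∈ t, u q a x := sumP ⟨0, le_rfl, fun _ _ => by simp⟩ Nb.add t h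
lemma Nb.J (h : Nb u) : Nb fun a x => a.J *ᵥ u a x :=
  let ⟨C, c0, h⟩ := h
  ⟨|R| * C, by positivity, fun a x => (nrm_mulVec_le _ _).trans (mul_le_mul
    (a.op.trans (le_abs_self R)) (h a x) (nrm_nonneg _) (abs_nonneg R))⟩
lemma Nb.smul (hc : Sc c c') (h : Nb u) : Nb fun a x => c a • u a x :=
  let ⟨C, c0, hc⟩ := hc; let ⟨D, d0, h⟩ := h
  ⟨C * D, by positivity, fun a x => by
    rw [nrm_smul]; exact mul_le_mul (hc a).1 (h a x) (nrm_nonneg _) c0⟩
lemma Nb.mul (hc : Bd u) (h : Nb v) : Nb fun a x => u a x * v a x :=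
  let ⟨C, c0, hc⟩ := hc; let ⟨D, d0, h⟩ := h
  ⟨C * D, by positivity, fun a x => (nrm_mul_le c0 (hc a x) _).trans
    (mul_le_mul_of_nonneg_left (h a x) c0)⟩
lemma bd_ei : Bd (P := P) (R := R) (K := K) fun a _ => ei a.i := ⟨1, zero_le_one, fun a _ => abs_ei a.i⟩
lemma Sc.nb (hc : Sc c c') (h : Bd u) : Nb fun a x => (c a - c' a) • u a x :=
  let ⟨C, c0, hc⟩ := hc; let ⟨D, d0, h⟩ := h
  ⟨C * D, by positivity, fun a x => nrm_small a.hs (hc a).2 c0 d0 (h a x)⟩

lemma L1.add (h : L1 u) (g : L1 v) : L1 fun a x => u a x + v a x :=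
  let ⟨C, h⟩ := h; let ⟨D, g⟩ := g
  ⟨C + D, fun a x => (sum_le_sum fun _ _ => abs_add_le _ _).trans
    (sum_add_distrib.trans_le (add_le_add (h a x) (g a x)))⟩
lemma L1.sum {κ : Type*} (t : Finset κ) {u : κ → VF P R K} (h : ∀ q ∈ t, L1 (u q)) :
    L1 fun a x => ∑ q ∈ t, u q a x := sumP ⟨0, fun _ _ => by simp⟩ L1.add t h
lemma Sc.l1 (hc : Sc c c') (h : Nb u) : L1 fun a x => (c a - c' a) • u a x :=
  let ⟨C, c0, hc⟩ := hc; let ⟨D, d0, h⟩ := h
  ⟨C * D, fun a x => by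
    simp only [Pi.smul_apply, smul_eq_mul, abs_mul, ← mul_sum]
    refine (mul_le_mul (hc a).2 ((l1_le _).trans (mul_le_mul_of_nonneg_right (h a x) (sqrt_nonneg _)))
      (by positivity) (by positivity)).trans ?_
    nlinarith [mul_le_mul_of_nonneg_left (s_sqrt a.hs) (mul_nonneg c0 d0)]⟩
lemma Nb.l1 (h : Nb u) : L1 fun a x => u a x a.i • Pi.single a.i 1 :=
  let ⟨C, _, h⟩ := h
  ⟨C, fun a x => by
    rw [sum_eq_single a.i (fun j _ hj => by simp [hj]) (by simp)]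
    simpa using (abs_apply_le_nrm _ _).trans (h a x)⟩

lemma Sr.add (h : Sr u) (g : Sr v) : Sr fun a x => u a x + v a x :=
  let ⟨C, h⟩ := h; let ⟨D, g⟩ := g
  ⟨C + D, fun a => (h a).add (g a)⟩
lemma Sr.sum {κ : Type*} (t : Finset κ) {u : κ → VF P R K} (h : ∀ q ∈ t, Sr (u q)) :
    Sr fun a x => ∑ q ∈ t, u q a x := sumP ⟨0, fun _ => .zero⟩ Sr.add t h
lemma sr_mul (h : Bd u) (g : Jb u) {z : ∀ a : Ins P R K, Fin a.n → ℝ} (hz : Nb fun a _ => z a) :
    Sr fun a x => u a x * z a :=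
  let ⟨C, c0, h⟩ := h; let ⟨D, d0, g⟩ := g; let ⟨E, _, hz⟩ := hz
  ⟨(C + 2 * D) * E, fun a => Src.mul (by positivity) (fun x k => (h a x k).trans (by linarith))
    (fun x v => (opb_jac (g a x) v).trans (mul_le_mul_of_nonneg_right (by linarith) (nrm_nonneg v)))
    (hz a default)⟩

lemma sc_o (hP : P.Ok) (l m : Fin (N + 1)) :
    Sc (P := P) (R := R) (K := K) (fun a => o a l m) fun a => o' a l m := (gp_e hP (hP.rm l m)).me
lemma nb_dF (hP : P.Ok) (l : Fin (N + 1)) : Nb (P := P) (R := R) (K := K) (dF l) :=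
  (gp_e hP (hP.rf l)).c.nrm (gp_e hP (hP.rf l)).b
lemma nb_Yd (hP : P.Ok) (l : Fin (N + 1)) : Nb (P := P) (R := R) (K := K) (Yd l) :=
  (nb_dF hP l).J.sub (Nb.sum _ fun m _ => Nb.smul (sc_o hP l m) (nb_dF hP m))
lemma nb_z (hP : P.Ok) (l : Fin (N + 1)) : Nb (P := P) (R := R) (K := K) fun a _ => -z a l := by
  obtain ⟨C, c0, h⟩ := (Nb.sub (c2 hP l).1 ((Nb.mul bd_ei (nb_Yd hP l)).sub (Nb.sum univ fun q _ =>
    (sc_o (R := R) (K := K) hP l q).nb (bd_ei.mul (gp_e hP (hP.rf q)).b'))))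
  refine ⟨C, c0, fun a x => le_of_eq_of_le ?_ (h a x)⟩
  simp only [dX hP, sub_sub_cancel_left]

/-- the smooth sources -/
def src (l : Fin (N + 1)) : VF P R K := fun a x => e (P.fb l) a x * (ei a.i * (a.b - a.b')) +
  (∑ m, e (P.fm l m) a x * -z a m +
    ∑ m, ∑ q, (e (P.fm l m) a x * e (P.f q) a x) * ((o' a m q - o a m q) • ei a.i))
/-- the rough sources -/
def rho (l : Fin (N + 1)) : VF P R K := fun a x =>
  dF l a x - ∑ m with m < l, e (P.fm l m) a x * Yd m a x - src l a x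

lemma sr_src (hP : P.Ok) (l : Fin (N + 1)) : Sr (P := P) (R := R) (K := K) (src l) := by
  have g := fun φ (h : R1 φ) => gp_e (R := R) (K := K) hP h
  refine (sr_mul (g _ (hP.rb l)).b (g _ (hP.rb l)).j cl_b).add ((Sr.sum _ fun m _ =>
    sr_mul (g _ (hP.rm l m)).b (g _ (hP.rm l m)).j (nb_z hP m)).add (Sr.sum _ fun m _ =>
      Sr.sum _ fun q _ => sr_mul ((g _ (hP.rm l m)).mul (g _ (hP.rf q))).b
        ((g _ (hP.rm l m)).mul (g _ (hP.rf q))).j ?_))
  obtain ⟨C, c0, h⟩ := (sc_o (R := R) (K := K) hP m q).nb bd_ei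
  exact ⟨C, c0, fun a x => by beta_reduce; rw [← neg_sub, neg_smul, nrm_neg]; exact h a x⟩

lemma l1_rho (hP : P.Ok) (l : Fin (N + 1)) : L1 (P := P) (R := R) (K := K) (rho l) := by
  have g := fun φ (h : R1 φ) => gp_e (R := R) (K := K) hP h
  have h1 : L1 (P := P) (R := R) (K := K) fun a x => ei a.i * (e (P.f l) a x - e' (P.f l) a x -
      e (P.fb l) a x * (a.b - a.b') - ∑ m, e (P.fm l m) a x * (a.X m x - a.X' m x)) := by
    obtain ⟨Λ, hΛ⟩ := hP.tay
    obtain ⟨B, b0, hB⟩ := cl_b (P := P) (R := R) (K := K)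
    choose E e0 hE using fun m => (c2 (R := R) (K := K) hP m).1
    refine ⟨|Λ| * (B ^ 2 + ∑ m, E m ^ 2), fun a x => (sum_le_sum (g := fun k => |Λ| *
      ((ei a.i * (a.b - a.b')) k ^ 2 + ∑ m, (ei a.i * (a.X m x - a.X' m x)) k ^ 2))
      fun k _ => ?_).trans ?_⟩
    · by_cases hk : k = a.i
      · simp [hk, ei_self]
      · have := hΛ l (a.b k) (a.b' k) (x k) (fun m => a.X m x k) fun m => a.X' m x k
        rw [← abs_neg] at this
        simp only [Pi.mul_apply, ei_ne hk, one_mul, Pi.sub_apply, Finset.sum_apply, e, e', ev]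
        refine (le_of_eq_of_le ?_ this).trans (mul_le_mul (le_abs_self Λ) (le_of_eq ?_)
          (by positivity) (abs_nonneg Λ))
        · simp only [mul_sub, sum_sub_distrib]; congr 1; ring
        · simp only [sub_sq']; congr 1
          · ring
          · exact sum_congr rfl fun m _ => by ring
    · rw [← mul_sum, sum_add_distrib, sum_comm]
      have sq : ∀ (v : Fin a.n → ℝ) (C : ℝ), nrm v ≤ C → ∑ k, v k ^ 2 ≤ C ^ 2 := fun v C h => by
        rw [← en_sq, en_eq]; exact pow_le_pow_left₀ (nrm_nonneg v) h 2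
      exact mul_le_mul_of_nonneg_left (add_le_add (sq _ _ (hB a x))
        (sum_le_sum fun m _ => sq _ _ (hE m a x))) (abs_nonneg Λ)
  obtain ⟨C, h⟩ := (h1.add (L1.sum univ fun m _ => L1.sum univ fun q _ => (sc_o hP m q).l1
    (Nb.mul (g _ (hP.rm l m)).b (g _ (hP.rf q)).c))).add ((nb_dF hP l).sub
      (Nb.sum univ fun m _ => Nb.mul (g _ (hP.rm l m)).b (nb_Yd hP m))).l1
  refine ⟨C, fun a x => le_of_eq_of_le (sum_congr rfl fun k _ => congrArg _ ?_) (h a x)⟩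
  rw [rho, sum_filter_of_ne fun m _ hm => not_le.1 fun hl => hm (by
    rw [hP.tri l m hl, e, ev_zero, zero_mul])]
  by_cases hk : k = a.i
  · simp [hk, ei_self, src, z, Finset.sum_apply]
  · have key : ∀ m, e (P.fm l m) a x k * (a.X m x k - a.X' m x k) =
        e (P.fm l m) a x k * Yd m a x k + (∑ q, e (P.fm l m) a x k * e (P.f q) a x k *
          (o' a m q - o a m q) + ∑ q, (o a m q - o' a m q) * (e (P.fm l m) a x k *
          (e (P.f q) a x k - e' (P.f q) a x k))) + e (P.fm l m) a x k * -z a m k := fun m => by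
      have := congrFun (dX hP m a x) k
      simp only [Pi.mul_apply, ei_ne hk, one_mul, Pi.sub_apply, Finset.sum_apply, Pi.smul_apply,
        smul_eq_mul] at this
      rw [this, ← sum_add_distrib, mul_sub, mul_sub, mul_sum, sub_eq_add_neg, sub_eq_add_neg,
        ← sum_neg_distrib, mul_neg]
      congr 2
      exact sum_congr rfl fun q _ => by ring
    simp only [src, dF, Pi.mul_apply, ei_ne hk, one_mul, Pi.sub_apply, Finset.sum_apply,
      Pi.smul_apply, smul_eq_mul, Pi.add_apply, Pi.neg_apply, key, sum_add_distrib, mul_one,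
      Pi.single_eq_of_ne hk, mul_zero]
    ring

/-- **(C3)** at one site -/
theorem c3 (hP : P.Ok) (R K : ℝ) : ∃ C, ∀ (a : Ins P R K)
    (T Z : Cube a.n → Fin (N + 1) → Fin (N + 1) → Matrix (Fin a.n) (Fin a.n) ℝ) (M : Cube a.n → ℝ)
    (l : Fin (N + 1)) (K0 δ c0 : ℝ), 0 ≤ K0 → 0 ≤ δ → Atd.ATd a.w K0 δ →
    (∀ x, Prp univ (fun l => univ.filter (· < l)) a.J (o a) (fun l m => e (P.fm l m) a x) (T x) (Z x)) →
    (∀ x q j, |Z x l q a.i j| ≤ M x) →
    var a.w (fun x => a.X l x a.i - c0 - (Vc a x *ᵥ a.J a.i) l) ≤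
      2 * (K0 + 1) * C ^ 2 * (mean a.w fun x => M x ^ 2) + 4 * δ * C ^ 2 := by
  obtain ⟨B, b1, hB⟩ := unif (τ := Fin (N + 1) × Fin (N + 1)) (P := fun p C => R ≤ C ∧
      ∀ a : Ins P R K, |o a p.1 p.2| ≤ C ∧ Src C (src p.1 a) ∧ ∀ x, (∀ k, |e (P.fm p.1 p.2) a x k| ≤ C) ∧
        2 * opn (jac (e (P.fm p.1 p.2) a) x) ≤ C ∧ ∑ j, |rho p.1 a x j| ≤ C)
    (fun _ _ _ h g => ⟨g.1.trans h, fun a => ⟨(g.2 a).1.trans h, (g.2 a).2.1.mono h, fun x =>
      ⟨fun k => (((g.2 a).2.2 x).1 k).trans h, ((g.2 a).2.2 x).2.1.trans h,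
        ((g.2 a).2.2 x).2.2.trans h⟩⟩⟩) fun p => by
    obtain ⟨C1, c1, h1⟩ := sc_o (R := R) (K := K) hP p.1 p.2
    obtain ⟨C2, h2⟩ := sr_src (R := R) (K := K) hP p.1
    obtain ⟨C3, c3, h3⟩ := (gp_e (R := R) (K := K) hP (hP.rm p.1 p.2)).b
    obtain ⟨C4, c4, h4⟩ := (gp_e (R := R) (K := K) hP (hP.rm p.1 p.2)).j
    obtain ⟨C5, h5⟩ := l1_rho (R := R) (K := K) hP p.1
    have := abs_nonneg R; have := abs_nonneg C2; have := abs_nonneg C5
    exact ⟨|R| + C1 + |C2| + C3 + 2 * C4 + |C5|, by linarith [le_abs_self R], fun a =>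
      ⟨by linarith [(h1 a).1], (h2 a).mono (by linarith [le_abs_self C2]), fun x =>
        ⟨fun k => by linarith [h3 a x k], by linarith [h4 a x], by linarith [h5 a x, le_abs_self C5]⟩⟩⟩
  obtain ⟨C, -, hC⟩ := S3L.C365.core (tri_lt (N + 1)) (zero_le_one.trans b1)
  refine ⟨C, fun a T Z M l K0 δ c0 hK hδ hA hp hZ => ?_⟩
  obtain ⟨Ψ, hΨ⟩ := hC a.n a.J (o a) (fun x l m => e (P.fm l m) a x) (fun x l => src l a x)
    (fun x l => rho l a x) (fun x l => dF l a x) (fun x l => Yd l a x) T Z M a.i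
    (a.op.trans (hB (0, 0)).1) (fun l _ m _ => ((hB (l, m)).2 a).1)
    (fun x l _ m _ => (((hB (l, m)).2 a).2.2 x).1)
    (fun x l _ m _ v => (opb_jac le_rfl v).trans (mul_le_mul_of_nonneg_right
      (((hB (l, m)).2 a).2.2 x).2.1 (nrm_nonneg v)))
    (fun q _ => ((hB (q, 0)).2 a).2.1) (fun x q _ => (((hB (q, 0)).2 a).2.2 x).2.2)
    (fun x l _ => ⟨by simp only [Pi.add_apply, rho]; abel, rfl⟩) hp l (mem_univ l)
    fun x q _ j => hZ x q j
  refine le_of_eq_of_le ?_ (S3L.C365.var_le (fun _ => exp_pos _) hK hδ hA hΨ)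
  refine (congrArg _ (funext fun x => ?_)).trans (a.hw.isP.var_add_const _
    (a.J a.i ⬝ᵥ (ei a.i * meanV a.wc (e' (P.f l) a)) - (a.sys.hX l).choose a.i - c0))
  rw [Yd_eq hP, (a.sys.hX l).choose_spec x]
  change _ - c0 - (ei a.i * ctr a.wc (e' (P.f l) a) x) ⬝ᵥ a.J a.i = _
  simp only [dF, ctr, Pi.sub_apply, Finset.sum_apply, Pi.smul_apply, Pi.mul_apply, ei_self, zero_mul,
    sub_zero, mulVec_sub, mul_sub, dotProduct_comm _ (a.J a.i), dotProduct_sub, o, e, w]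
  change _ = _ - a.J a.i ⬝ᵥ _ - _ + _
  ring

lemma Vc_mulVec (a : Ins P R K) (x : Cube a.n) (u : Fin a.n → ℝ) (l : Fin (N + 1)) :
    (Vc a x *ᵥ u) l = (ei a.i * u) ⬝ᵥ e' (P.f l) a x -
      mean a.wc fun x => (ei a.i * u) ⬝ᵥ e' (P.f l) a x := by
  rw [← SL.meanV_dot, ← dotProduct_sub, ei_dot, dotProduct_comm]; rfl

lemma ei_row (a : Ins P R K) : ei a.i * a.J a.i = a.J a.i := by
  ext k; by_cases hk : k = a.i <;> simp [ei, hk, a.diag]

/-- the overlaps of the cavity nodes concentrate at the Gram matrix of the full system -/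
lemma ov (h : GP u u') : ∃ C, ∀ a : Ins P R K,
    (mean a.wc fun x => |eta a.s (ei a.i * u' a x) - me a.s a.w (u a)|) ≤ C * |a.s| := by
  obtain ⟨B, b0, hB⟩ := h.b'
  obtain ⟨D, d0, hD⟩ := h.j'
  obtain ⟨E, e1, hE⟩ := c1 (P := P) R K
  obtain ⟨F, f0, hF⟩ := h.me
  refine ⟨E * D + (2 * B + F), fun a => ?_⟩
  set Ψ : Cube a.n → ℝ := fun x => eta a.s (ei a.i * u' a x) with hΨ
  have h1 := (hE a Ψ (D * |a.s|) (fun x τ => congrArg (eta a.s) (h.f a x τ))
    fun x => nrm_grad_eta a.hs (abs_ei _) (hD a x)).2.1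
  have h2 : (mean a.wc fun x => |Ψ x - mean a.wc Ψ|) ≤ E * (D * |a.s|) := by
    have := mean_sq_le a.hc fun x => |Ψ x - mean a.wc Ψ|
    simp only [sq_abs] at this
    refine (abs_le_of_sq_le_sq' (this.trans (h1.trans ?_)) (by positivity)).2
    rw [mul_pow E]
    exact mul_le_mul_of_nonneg_right (le_self_pow₀ e1 two_ne_zero) (sq_nonneg _)
  have h3 : |mean a.wc Ψ - me a.s a.wc (u' a)| ≤ 2 * B * |a.s| := by
    rw [me, ← SL.mean_sub]
    refine a.hc.abs_mean_le fun x => (abs_eta_sub (i := a.i) (D := 0) a.hs (fun k => ?_) (hB a x)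
      (by rw [mul_sub, ei_ei, sub_self, nrm_zero])).trans_eq (by rw [zero_add])
    rw [Pi.mul_apply, abs_mul]
    exact (mul_le_of_le_one_left (abs_nonneg _) (abs_ei _ _)).trans (hB a x k)
  refine (a.hc.mean_mono (g := fun x => |Ψ x - mean a.wc Ψ| + (2 * B + F) * |a.s|)
    fun x => ?_).trans ?_
  · have := (hF a).2
    rw [abs_sub_comm] at this
    linarith [abs_sub_le (Ψ x) (mean a.wc Ψ) (me a.s a.w (u a)),
      abs_sub_le (mean a.wc Ψ) (me a.s a.wc (u' a)) (me a.s a.w (u a))]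
  · rw [SL.mean_add, a.hc.mean_const]; linarith

/-- **the cavity data of one site** -/
theorem site (hP : P.Ok) (R K : ℝ) : ∃ C, 1 ≤ C ∧ ∀ a : Ins P R K,
    (∀ u, (mean a.wc fun x => en (Vc a x *ᵥ u) ^ 2) ≤ C * en u ^ 2) ∧
    ∀ (κ : Type) [Fintype κ] (A : Matrix (Fin (N + 1)) κ ℝ),
      (∀ l m, (A * Aᵀ) l m = Sg a.s a.w (e (P.f l) a) (e (P.f m) a)) →
      S3L.Ll65.Site C (C * |a.s|) a.s 0 a.w (a.J a.i)
        (fun x l => a.X l x a.i - cs P a.s a.w a.b a.X l a.i) (a.b a.i) A a.i a.wc (Vc a) := by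
  have g := fun l => gp_e (R := R) (K := K) hP (hP.rf l)
  obtain ⟨E, e1, hE⟩ := c1 (P := P) R K
  have e0 : 0 ≤ E := zero_le_one.trans e1
  obtain ⟨D, d1, hD⟩ := unif (P := fun l C => ∀ (a : Ins P R K) x, opn (jac (e' (P.f l) a) x) ≤ C)
    (fun _ _ _ h g a x => (g a x).trans h) fun l => let ⟨C, _, h⟩ := (g l).j'; ⟨C, h⟩
  obtain ⟨S, s1, hS⟩ := unif (τ := Fin (N + 1) × Fin (N + 1)) (P := fun p C => ∀ a : Ins P R K,
    |Sg a.s a.w (e (P.f p.1) a) (e (P.f p.2) a)| ≤ C ∧ (mean a.wc fun x => |eta a.s (ei a.i *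
      (ctr a.wc (e' (P.f p.1) a) x * ctr a.wc (e' (P.f p.2) a) x)) -
        Sg a.s a.w (e (P.f p.1) a) (e (P.f p.2) a)|) ≤ C * |a.s|)
    (fun _ _ _ h g a => ⟨(g a).1.trans h, (g a).2.trans (mul_le_mul_of_nonneg_right h (abs_nonneg _))⟩)
    fun p => by
      obtain ⟨C1, c1, h1⟩ := (g p.1).Sg (g p.2)
      obtain ⟨C2, h2⟩ := ov ((g p.1).ctr.mul (g p.2).ctr)
      exact ⟨C1 + |C2|, fun a => ⟨(h1 a).1.trans (le_add_of_nonneg_right (abs_nonneg _)), (h2 a).trans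
        (mul_le_mul_of_nonneg_right (by linarith [le_abs_self C2]) (abs_nonneg _))⟩⟩
  obtain ⟨L, hL⟩ : ∃ L : ℝ, L = (N + 1 : ℕ) := ⟨_, rfl⟩
  have L1 : 1 ≤ L := by rw [hL]; exact_mod_cast Nat.succ_pos N
  have p1 : 0 ≤ L * (E * D ^ 2) := by positivity
  have p2 : 0 ≤ L * (L * (E * (D * |R|) ^ 4)) := by positivity
  have p3 : 0 ≤ L * (L * S) := by positivity
  refine ⟨E + L * (E * D ^ 2) + L * (L * (E * (D * |R|) ^ 4)) + L * (L * S), by linarith, fun a => ?_⟩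
  have key := fun l u => hE a _ _ ((g l).f a |>.dot u) fun x => nrm_grad_dot (ei a.i * u) (hD l a x)
  have cd : ∀ t : ℝ, ∑ _l : Fin (N + 1), t = L * t := fun t => by simp [hL]
  have f0 : ∀ b X, ev (n := a.n) b X (P.f 0) = sv := fun b X => by rw [hP.f0]; rfl
  have c0 : cs P a.s a.w a.b a.X 0 = 0 := by
    rw [cs, hP.g0, hP.g0', ev_zero, me_zero, zero_smul, add_zero]; ext k; simp [meanV, mean]
  refine ⟨fun u => ?_, fun κ _ A hA => ⟨fun _ => exp_pos _,
    (cv_ising a.symm a.diag a.y).fw, fun x τ => ?_, ⟨a.y a.i + a.J a.i ⬝ᵥ meanV a.wc sv, fun x => ?_,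
    fun x => ?_⟩, fun l => ?_, ?_, ?_, ?_, ?_⟩⟩
  · simp only [en_sq (Vc _ _ *ᵥ _), SL.mean_sum, Vc_mulVec]
    have q : (D * nrm (ei a.i * u)) ^ 2 ≤ (D * en u) ^ 2 := by
      rw [en_eq]; have := nrm_nonneg (ei a.i * u); gcongr; exact nrm_ei_le u
    refine (sum_le_sum fun l _ => (key l u).2.1.trans (mul_le_mul_of_nonneg_left q e0)).trans ?_
    rw [cd, mul_pow]
    nlinarith [mul_nonneg (add_nonneg (add_nonneg e0 p2) p3) (sq_nonneg (en u))]
  · exact congrArg of (funext fun l => (g l).ctr.f a x τ)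
  · rw [Vc_mulVec, ei_row, e', f0, ← SL.meanV_dot]
    exact ((cv_ising a.symm a.diag a.y).eq x).trans (by congr 3; ring)
  · have s0 : Sg a.s a.w sv sv = eta a.s (1 - meanV a.w sv * meanV a.w sv) := by
      rw [Sg_eq, eta]
      congr 1
      refine sum_congr rfl fun k _ => ?_
      rw [a.hw.cov_eq]
      simp only [Rec.sv_mul_self, a.hw.mean_const]
      rfl
    have hb := congrFun a.sys.hb a.i
    rw [Vc_mulVec, ei_row, e', f0, ← SL.meanV_dot, a.sys.ctr_eq hP a.hw, hb]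
    simp only [w] at c0 s0 ⊢
    rw [c0, f0, s0]
    simp only [Fin.not_lt_zero, filter_false, sum_empty, ctr, mulVec_sub, Pi.add_apply, Pi.sub_apply,
      Pi.zero_apply]
    change a.J a.i ⬝ᵥ _ - _ - _ + _ - _ = _
    ring
  · have := congrFun (a.sys.cen l) a.i
    rw [SL.mean_sub, a.hw.mean_const, hA, e, e, f0, sub_eq_iff_eq_add]
    exact this
  · have r : nrm (ei a.i * a.J a.i) ≤ |R| :=
      (nrm_ei_le _).trans ((nrm_row_le _ _).trans (a.op.trans (le_abs_self R)))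
    refine (a.hc.mean_mono (g := fun x => L * ∑ l, (Vc a x *ᵥ a.J a.i) l ^ 4) fun x => ?_).trans ?_
    · have := pow_sum_le_card_mul_sum_pow (s := univ) (f := fun l => (Vc a x *ᵥ a.J a.i) l ^ 2)
        (fun _ _ => sq_nonneg _) 1
      rw [show 4 = 2 * 2 from rfl, pow_mul, en_sq]
      simp only [pow_mul]
      simpa [hL] using this
    · simp only [SL.mean_const_mul, SL.mean_sum, Vc_mulVec]
      have q : (D * nrm (ei a.i * a.J a.i)) ^ 4 ≤ (D * |R|) ^ 4 := by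
        have := nrm_nonneg (ei a.i * a.J a.i); gcongr
      refine (mul_le_mul_of_nonneg_left (sum_le_sum fun l _ => (key l _).2.2.1.trans
        (mul_le_mul_of_nonneg_left q e0)) (by linarith)).trans ?_
      rw [cd]; linarith
  · have := (hE a _ R ((g 0).f a |>.dot (a.J a.i)) fun x => by
      rw [e', f0, Rec.grad_lin]
      exact (nrm_ei_le _).trans ((nrm_row_le _ _).trans a.op)).2.2.2 le_rfl
    simp only [Vc_mulVec]
    linarith
  · rw [S3L.f2, ← S3L.Clt58.trace_eq, trace]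
    refine (sum_le_sum fun l _ => ((hA l l).trans_le ((le_abs_self _).trans (hS (l, l) a).1))).trans ?_
    rw [cd]
    nlinarith [mul_le_mul_of_nonneg_right L1 (mul_nonneg (zero_le_one.trans L1) (zero_le_one.trans s1))]
  · simp only [S3L.d1, SL.mean_sum, hA]
    refine (sum_le_sum fun l _ => sum_le_sum fun m _ => le_of_eq_of_le ?_ (hS (l, m) a).2).trans ?_
    · congr 1
      ext x
      congr 2
      simp only [Matrix.smul_apply, smul_eq_mul, eta, mul_apply, transpose_apply, Vc, of_apply]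
      congr 1
      refine sum_congr rfl fun k _ => ?_
      by_cases hk : k = a.i <;> simp [ei, hk]
    · rw [cd, cd]
      nlinarith [mul_nonneg (add_nonneg (add_nonneg e0 p1) p2) (abs_nonneg a.s)]

end Ins

end Crest.Agent.T157.S3C

end
end

-- ▼ part T157/S3CF_16
section

/-!
# Row 157, block S3, section 4 (helper16): the cavity data of the canonical network
-/

set_option autoImplicit false

noncomputable section

namespace Crest.Agent.T157.S3C

open Matrix Finset Function Real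
open Crest.Agent.T157.E Crest.Agent.T157.Eig
open Crest.Agent.T157.Rec (grad fl)
open Crest.Agent.T157.Uw (eta UW)
open Crest.Agent.T157.S3F (jac)
open Crest.Agent.T157.S3P (Prog Sm bF)
open Crest.Agent.T157.Conc (en)

variable {N n : ℕ}

lemma r1_of_sm {φ : S3P.PF N} (h : Sm φ) : R1 φ := by
  obtain ⟨A, a0, hA⟩ := h.bd
  obtain ⟨B, b0, hB⟩ := h.taylor
  obtain ⟨C, c1, hC⟩ := unif (P := fun m C => ∀ b s ξ, |S3P.pd m φ b s ξ| ≤ C)
    (fun _ _ _ h g b s ξ => (g b s ξ).trans h) fun m => let ⟨C, _, h⟩ := (h.pd m).bd; ⟨C, h⟩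
  refine ⟨A + B + C, fun b s ξ m => S3P.pd m φ b s ξ, by linarith, fun b s ξ => by linarith [hA b s ξ],
    fun b b' s ξ ξ' => (hB b' b s ξ' ξ).1.trans (mul_le_mul_of_nonneg_right (by linarith)
      (by positivity)), fun b s ξ v => ?_, fun b s ξ m => by linarith [hC m b s ξ]⟩
  have := (hB b b s ξ (ξ + v)).2
  simp only [sub_self, mul_zero, sub_zero, Pi.add_apply, add_sub_cancel_left, ne_eq,
    OfNat.ofNat_ne_zero, not_false_eq_true, zero_pow, zero_add] at this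
  exact this.trans (mul_le_mul_of_nonneg_right (by linarith) (by positivity))

def toPg (P : Prog N) : Pg N :=
  ⟨P.f, P.g, P.g', fun l => S3P.db (P.f l), fun l m => S3P.pd m (P.f l)⟩

lemma ok_toPg {P : Prog N} (h : P.Ok) : (toPg P).Ok where
  rf l := r1_of_sm (h.sf l)
  rg l := r1_of_sm (h.sg l)
  rg' l := r1_of_sm (h.sg' l)
  rb l := r1_of_sm (h.sf l).db
  rm l m := r1_of_sm ((h.sf l).pd m)
  tay := by
    obtain ⟨C, -, hC⟩ := unif (P := fun l C => ∀ b b' s ξ ξ', |P.f l b' s ξ' - P.f l b s ξ -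
      S3P.db (P.f l) b s ξ * (b' - b) - ∑ m, S3P.pd m (P.f l) b s ξ * (ξ' m - ξ m)| ≤
        C * ((b' - b) ^ 2 + ∑ m, (ξ' m - ξ m) ^ 2)) (fun _ _ _ h g b b' s ξ ξ' =>
      (g b b' s ξ ξ').trans (mul_le_mul_of_nonneg_right h (by positivity)))
      fun l => let ⟨C, _, h⟩ := (h.sf l).taylor; ⟨C, fun b b' s ξ ξ' => (h b b' s ξ ξ').2⟩
    exact ⟨C, hC⟩
  df := h.rf
  dg := h.rg
  dg' := h.rg'
  dm l m := (h.rf l).pd m
  tri l _ hm := (h.rf l).pd_zero (h.sf l) hm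
  f0 := h.f0
  g0 := h.g0
  g0' := h.g'0

section
variable {P : Prog N} (s : ℝ) (J : Matrix (Fin n) (Fin n) ℝ) (y : Fin n → ℝ)

lemma cs_eq (l : Fin (N + 1)) :
    cs (toPg P) s (ising J y) (bF s J y) (P.X s J y) l = P.c s J y l := by
  ext k; simp only [cs, Pi.add_apply, Pi.smul_apply, Pi.one_apply, smul_eq_mul, mul_one]; rfl

lemma S_eq (l m : Fin (N + 1)) :
    P.S s J y l m = Sg s (ising J y) (P.e s J y (P.f l)) (P.e s J y (P.f m)) := (Sg_eq ..).symm

lemma sys_prog (h : P.Ok) : Sys (toPg P) s J y (ising J y) (bF s J y) (P.X s J y) where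
  hb := by rw [bF, sq]; rfl
  hX l := ⟨_, h.X_eq l⟩
  cen l := by rw [h.mean_X, S_eq, h.e0, cs_eq]; rfl

end

/-- the cavity weight -/
def wcv (J : Matrix (Fin n) (Fin n) ℝ) (y : Fin n → ℝ) (i : Fin n) : Cube n → ℝ :=
  ising (cJ J i) (update y i 0)

/-- the centred nodes of the cavity network, off the site `i` -/
def Vcv (P : Prog N) (s : ℝ) (J : Matrix (Fin n) (Fin n) ℝ) (y : Fin n → ℝ) (i : Fin n)
    (x : Cube n) : Matrix (Fin (N + 1)) (Fin n) ℝ := of fun l => ei i *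
      (P.e s (cJ J i) (update y i 0) (P.f l) x -
        meanV (wcv J y i) (P.e s (cJ J i) (update y i 0) (P.f l)))

set_option maxHeartbeats 1600000 in
/-- **(C1), (C2), (C3), Good'** for the canonical network -/
theorem cav {P : Prog N} (hP : P.Ok) (R : ℝ) {K0 κ0 : ℝ} (hK0 : 0 ≤ K0) (hκ : 0 < κ0) :
    ∃ (C : ℝ) (k : ℕ), 1 ≤ C ∧ ∀ (n : ℕ) (s Kw : ℝ) (J : Matrix (Fin n) (Fin n) ℝ) (y : Fin n → ℝ),
      s ^ 2 * n ≤ 1 → Jᵀ = J → (∀ j, J j j = 0) → UW s J R k Kw → 0 ≤ Kw →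
      Atd.ATd (ising J y) K0 (exp (-(κ0 * n))) →
      (∀ i, (∀ u, (mean (wcv J y i) fun x => en (Vcv P s J y i x *ᵥ u) ^ 2) ≤ C * en u ^ 2) ∧
        ∀ (κ : Type) [Fintype κ] (A : Matrix (Fin (N + 1)) κ ℝ), A * Aᵀ = P.S s J y →
          S3L.Ll65.Site C (C * |s|) s 0 (ising J y) (J i)
            (fun x l => P.X s J y l x i - P.c s J y l i) (bF s J y i) A i (wcv J y i)
            (Vcv P s J y i)) ∧
      ∀ l, ∑ i, var (ising J y) (fun x => P.X s J y l x i - P.c s J y l i -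
        (Vcv P s J y i x *ᵥ J i) l) ^ 2 ≤ C * (Kw ^ 2 + 1) := by
  have hQ := ok_toPg hP
  set K := 4 * (K0 + 8 / κ0) with hK
  obtain ⟨C1, c1, h1⟩ := Ins.site hQ R K
  obtain ⟨C2, h2⟩ := Ins.c3 hQ R K
  obtain ⟨B, b1, hB⟩ := unif (τ := Fin (N + 1) × Fin (N + 1)) (P := fun p C =>
      (∀ b s ξ, |S3P.pd p.2 (P.f p.1) b s ξ| ≤ C) ∧ ∀ (a : Ins (toPg P) R K) x,
        opn (jac (Ins.e ((toPg P).fm p.1 p.2) a) x) ≤ C)
    (fun _ _ _ h g => ⟨fun b s ξ => (g.1 b s ξ).trans h, fun a x => (g.2 a x).trans h⟩) fun p => by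
      obtain ⟨C, c0, h⟩ := ((hP.sf p.1).pd p.2).bd
      obtain ⟨D, d0, g⟩ := (Ins.gp_e (R := R) (K := K) hQ (hQ.rm p.1 p.2)).j
      exact ⟨C + D, fun b s ξ => by linarith [h b s ξ], fun a x => by linarith [g a x]⟩
  obtain ⟨C3, k, c3, h3⟩ := prp_rows (Fin (N + 1)) R b1
  obtain ⟨D, hD⟩ : ∃ D, D = 2 * (K0 + 1) * C2 ^ 2 := ⟨_, rfl⟩
  obtain ⟨G, hG⟩ : ∃ G : ℝ, G = (#(univ : Finset (Fin (N + 1) × Fin (N + 1))) : ℝ) ^ 4 *
    (48 * exp (2 * K) * B ^ 4) := ⟨_, rfl⟩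
  have G0 : 0 ≤ G := by rw [hG]; positivity
  have q0 : 0 ≤ 16 * D ^ 2 * C3 + (16 * D ^ 2 * (C3 ^ 4 * G) + 32 * C2 ^ 4 / κ0) := by positivity
  refine ⟨C1 + (16 * D ^ 2 * C3 + (16 * D ^ 2 * (C3 ^ 4 * G) + 32 * C2 ^ 4 / κ0)), k, by linarith,
    fun n s Kw J y hs hJ hd hU hKw hA => ?_⟩
  have hw : SL.Wt (ising J y) := .of_pos fun _ => exp_pos _
  have hM : Mg (ising J y) K := mg_of_atd hA (fun _ => exp_pos _) hK0 hκ
  let a : Fin n → Ins (toPg P) R K := fun i => ⟨n, s, i, J, y, _, _, _, _, hs, hJ, hd i, hU.op, hM,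
    sys_prog s J y hP, sys_prog s _ _ hP⟩
  refine ⟨fun i => ⟨fun u => ((h1 (a i)).1 u).trans (mul_le_mul_of_nonneg_right (by linarith)
    (sq_nonneg _)), fun κ _ A hA => ?_⟩, fun l => ?_⟩
  · have := (h1 (a i)).2 κ A fun l m => by rw [hA]; exact S_eq ..
    simp only [← cs_eq]
    exact ⟨this.pos, this.fw, this.fV, this.tilt, this.cen, this.m4.trans (by linarith),
      this.e4.trans (by linarith), this.fA.trans (by linarith), this.ov.trans
        (mul_le_mul_of_nonneg_right (by linarith) (abs_nonneg s))⟩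
  set θ : Fin (N + 1) × Fin (N + 1) → Cube n → ℝ := fun p x =>
    eta s (P.e s J y (S3P.pd p.2 (P.f p.1)) x) - P.o s J y p.1 p.2 with hθ
  have t0 : ∀ x, 0 ≤ ∑ p, |θ p x| := fun x => by positivity
  choose T Z M hp m0 m1 m2 using fun x => h3 n s Kw J hU hJ hKw hs
    (fun l m => P.e s J y (S3P.pd m (P.f l)) x) (P.o s J y) (∑ p, |θ p x|)
    (fun l m i => (hB (l, m)).1 _ _ _) (fun l m => abs_me_le hs hw (zero_le_one.trans b1)
      fun x k => (hB (l, m)).1 _ _ _) (t0 x) fun l m =>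
      single_le_sum (f := fun p => |θ p x|) (fun _ _ => abs_nonneg _) (mem_univ (l, m))
  set δ := exp (-(κ0 * n)) with hδ
  have key : ∀ i, var (ising J y) (fun x => P.X s J y l x i - P.c s J y l i -
      (Vcv P s J y i x *ᵥ J i) l) ^ 2 ≤ 16 * D ^ 2 * (mean (ising J y) fun x => M x i ^ 4) +
        (16 * D ^ 2 * (C3 ^ 4 * G) * s ^ 4 + 32 * C2 ^ 4 * δ ^ 2) := fun i => by
    have v1 := h2 (a i) T Z (fun x => M x i + C3 * ∑ p, |θ p x|) l K0 δ (P.c s J y l i) hK0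
      (exp_pos _).le hA hp fun x q j => m2 x l q i j
    rw [← hD] at v1
    have v2 := mean_sq_le hw fun x => (M x i + C3 * ∑ p, |θ p x|) ^ 2
    have v3 : (mean (ising J y) fun x => (∑ p, |θ p x|) ^ 4) ≤ G * s ^ 4 := by
      refine (hw.mean_mono fun x => pow_sum_le_card_mul_sum_pow (fun _ _ => abs_nonneg _) 3).trans ?_
      rw [SL.mean_const_mul, SL.mean_sum, hG, pow_succ _ 3 (M := ℝ), mul_assoc, mul_assoc]
      refine mul_le_mul_of_nonneg_left ((sum_le_card_nsmul _ _ _ fun p _ => ?_).trans_eq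
        (nsmul_eq_mul _ _)) (by positivity)
      have := hM.four hw fun x => nrm_grad_eta hs (e := 1) (by simp) ((hB p).2 (a i) x)
      simp only [one_mul, mul_pow, (by decide : Even 4).pow_abs, ← mul_assoc] at this
      simp only [(by decide : Even (3 + 1)).pow_abs]
      exact this
    have v4 : (mean (ising J y) fun x => ((M x i + C3 * ∑ p, |θ p x|) ^ 2) ^ 2) ≤
        8 * (mean (ising J y) fun x => M x i ^ 4) + 8 * (C3 ^ 4 * (G * s ^ 4)) := by
      refine (hw.mean_mono (g := fun x => 8 * M x i ^ 4 + 8 * (C3 ^ 4 * (∑ p, |θ p x|) ^ 4))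
        fun x => ?_).trans ?_
      · have := add_pow_le (m0 x i) (mul_nonneg (zero_le_one.trans c3) (t0 x)) 4
        rw [← pow_mul, ← mul_pow]
        norm_num at this ⊢
        linarith
      · simp only [SL.mean_add, SL.mean_const_mul]
        gcongr
    refine (pow_le_pow_left₀ (hw.var_nonneg _) v1 2).trans ?_
    change (D * (mean (ising J y) _) + _) ^ 2 ≤ _
    nlinarith [mul_le_mul_of_nonneg_left (v2.trans v4) (sq_nonneg D),
      sq_nonneg (D * (mean (ising J y) fun x => (M x i + C3 * ∑ p, |θ p x|) ^ 2) - 4 * δ * C2 ^ 2)]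
  refine (sum_le_sum fun i _ => key i).trans ?_
  rw [sum_add_distrib, ← mul_sum, ← SL.mean_sum, sum_const, card_univ, Fintype.card_fin,
    nsmul_eq_mul]
  have w1 := mul_le_mul_of_nonneg_left (hw.mean_le m1) (by positivity : 0 ≤ 16 * D ^ 2)
  have w2 : (n : ℝ) * s ^ 4 ≤ 1 := by
    rcases Nat.eq_zero_or_pos n with rfl | h
    · simp
    · have : (1 : ℝ) ≤ n := by exact_mod_cast h
      nlinarith [sq_nonneg s, mul_le_mul_of_nonneg_left hs (sq_nonneg s)]
  have w3 : (n : ℝ) * δ ^ 2 ≤ 1 / κ0 := by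
    have d1 : δ ≤ 1 := exp_le_one_iff.2 (neg_nonpos.2 (by positivity))
    have d0 : 0 < δ := exp_pos _
    have d2 : κ0 * n * δ ≤ 1 := by
      rw [hδ, exp_neg, mul_inv_le_iff₀ (exp_pos _), one_mul]
      linarith [add_one_le_exp (κ0 * n)]
    rw [le_div_iff₀ hκ]
    nlinarith [mul_le_mul_of_nonneg_left d1 (by positivity : 0 ≤ κ0 * n * δ)]
  have w4 := mul_le_mul_of_nonneg_left w2 (by positivity : 0 ≤ 16 * D ^ 2 * (C3 ^ 4 * G))
  have w5 := mul_le_mul_of_nonneg_left w3 (by positivity : 0 ≤ 32 * C2 ^ 4)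
  rw [mul_one_div] at w5
  have w6 : 0 ≤ (C1 + (16 * D ^ 2 * (C3 ^ 4 * G) + 32 * C2 ^ 4 / κ0)) * Kw ^ 2 := by positivity
  nlinarith

end Crest.Agent.T157.S3C

end
end

-- ▼ part T157/S3Cav_65
section

/-!
# Row 157, block B/S3: the cavity network, the leaves of the local law and their glue (helper65)
-/

set_option autoImplicit false

noncomputable section

namespace Crest.Agent.T157.S3P

open MeasureTheory Matrix Finset Function Filter
open Crest.Agent.T157.E Crest.Agent.T157.Eig Crest.Agent.T157.S3L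
open Crest.Agent.T157.S3 (V Mx Fam)
open Crest.Agent.T157.S3C (cJ ei)
open Crest.Agent.T157.S3F (jac)
open Crest.Agent.T157.Conc (en ELip)

variable {n N : ℕ}

section cav
variable (P : Prog N) (s : ℝ) (J : Mx n) (y : V n) (i : Fin n)

/-- the cavity weight -/
def wc : Cube n → ℝ := ising (cJ J i) (update y i 0)
/-- letters of the cavity network -/
def Prog.ec (φ : PF N) : Cube n → V n := P.e s (cJ J i) (update y i 0) φ
/-- centred cavity nodes, off the site `i` -/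
def Prog.Vc (x : Cube n) : Matrix (Fin (N + 1)) (Fin n) ℝ :=
  of fun l => ei i * (P.ec s J y i (P.f l) x - meanV (wc J y i) (P.ec s J y i (P.f l)))

end cav

/-- the deterministic part of the cavity comparison -/
def CV (P : Prog N) (F : Fam) : Prop := ∃ C : ℝ, ∀ (a : F.I) (κ : Type) [Fintype κ]
  (A : Matrix (Fin (N + 1)) κ ℝ), A * Aᵀ = P.S (F.s a) (F.J a) (F.y a) →
  (∀ i, Ll65.Site C (C * |F.s a|) (F.s a) 0 (F.w a) (F.J a i)
      (fun x => (fun l => P.X (F.s a) (F.J a) (F.y a) l x i) - fun l => P.c (F.s a) (F.J a) (F.y a) l i)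
      (bF (F.s a) (F.J a) (F.y a) i) A i (wc (F.J a) (F.y a) i) (P.Vc (F.s a) (F.J a) (F.y a) i) ∧
    Row65.Cv (wc (F.J a) (F.y a) i) (P.Vc (F.s a) (F.J a) (F.y a) i) C) ∧
  ∀ l, ∑ i, var (F.w a) (fun x => P.X (F.s a) (F.J a) (F.y a) l x i - P.c (F.s a) (F.J a) (F.y a) l i -
    (P.Vc (F.s a) (F.J a) (F.y a) i x *ᵥ F.J a i) l) ^ 2 ≤ C * F.K a

/-- quenched = annealed for the cavity fields (holds for the typical family) -/
def QA (P : Prog N) (F : Fam) : Prop := ∀ C ε : ℝ, 0 < ε → ∀ᶠ a in F.l, ∀ i,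
  Row65.Cv (wc (F.J a) (F.y a) i) (P.Vc (F.s a) (F.J a) (F.y a) i) C → ∀ φ, ELip 1 φ →
  |(mean (wc (F.J a) (F.y a) i) fun x => φ (P.Vc (F.s a) (F.J a) (F.y a) i x *ᵥ F.J a i)) -
    ∫ z, mean (wc (F.J a) (F.y a) i)
      (fun x => φ (P.Vc (F.s a) (F.J a) (F.y a) i x *ᵥ (F.s a • z))) ∂gv (Fin (F.n a))| ≤ ε

/-- **the local law** -/
def LL (P : Prog N) (F : Fam) : Prop := ∀ (κ : Type) [Fintype κ]
  (A : F.I → Matrix (Fin (N + 1)) κ ℝ), (∀ a, A a * (A a)ᵀ = P.S (F.s a) (F.J a) (F.y a)) →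
  S3I.LLd F.l F.n F.K F.w (fun a x k => (fun l => P.X (F.s a) (F.J a) (F.y a) l x k) -
    fun l => P.c (F.s a) (F.J a) (F.y a) l k) (fun a => bF (F.s a) (F.J a) (F.y a)) 0 A Set.univ

/-- **(LL)** from the cavity comparison -/
theorem ll_of {P : Prog N} {F : Fam} (hF : F.Ok) (hC : CV P F) (hQ : QA P F) : LL P F := by
  intro κ _ A hA
  obtain ⟨C, hC⟩ := hC
  refine S3I.LLd.of_eps ((Fintype.card (Fin (N + 1)) : ℝ) ^ 4 * |C|) (by positivity) fun e he => ?_
  obtain ⟨δ, hδ, H⟩ := Ll65.ll_site tiltStmt (Fin (N + 1)) 0 C e he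
  have hs : Tendsto (fun a => C * |F.s a|) F.l (nhds 0) := by
    have h1 : Tendsto (fun a => √(F.n a : ℝ)) F.l atTop :=
      Real.tendsto_sqrt_atTop.comp (tendsto_natCast_atTop_atTop.comp hF.lim)
    simpa only [abs_zero, mul_zero, Fam.s] using ((h1.const_div_atTop F.β).abs).const_mul C
  filter_upwards [hQ C δ hδ, hs.eventually (ge_mem_nhds hδ)] with a h1 h2
  obtain ⟨h3, h4⟩ := hC a κ (A a) (hA a)
  refine ⟨_, ?_, fun i ψ hψ _ => H _ κ (F.s a) _ (F.J a i) _ _ (A a) i _ _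
    { (h3 i).1 with ov := (h3 i).1.ov.trans h2 } (h1 i (h3 i).2) ψ hψ⟩
  rw [mul_assoc]
  exact Ll65.sum_four (fun i l => (Pl.wt_ising _ _).var_nonneg _) fun l => (h4 l).trans
    (mul_le_mul_of_nonneg_right (le_abs_self _) (zero_le_one.trans (hF.K1 a)))

/-! ### the cavity data of a GOE matrix -/

lemma cJ_rs (β : ℝ) (i : Fin n) (W : Mx n) (z : V n) :
    cJ (β • Cond.offd (rs i W z)) i = cJ (β • Cond.offd W) i := by
  ext k l
  by_cases h : k = i ∨ l = i
  · simp [cJ, h]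
  · have ⟨h1, h2⟩ := not_or.1 h
    simp [cJ, Cond.offd, rs, h1, h2, diagonal_apply]

lemma meas_cJ (β : ℝ) (i : Fin n) : Measurable fun p : Mx n × V n => cJ (β • Cond.offd p.1) i :=
  Cond.measurable_mat_iff.2 fun k l => by
    simp only [cJ, of_apply]
    split_ifs
    · exact measurable_const
    · exact measurable_const.mul ((Cond.measurable_offd.comp measurable_fst).t157_entry k l)

lemma meas_upd (i : Fin n) : Measurable fun p : Mx n × V n => update p.2 i 0 :=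
  (measurable_update_left (a := i) (x := 0)).comp measurable_snd

/-- the cavity data -/
def Prog.Ok.cav {P : Prog N} (h : P.Ok) (β : ℝ) (n : ℕ) : Cav (Fin (N + 1)) n where
  w i p := wc (β • Cond.offd p.1) p.2 i
  M i p x := β • P.Vc (β / √n) (β • Cond.offd p.1) p.2 i x
  pos _ _ _ := Real.exp_pos _
  mw i x := Pl.measurable_ising (meas_cJ β i) (meas_upd i) x
  mM i x l k := measurable_const.mul (measurable_const.mul (.sub
    ((measurable_pi_apply k).comp (h.meas_e (meas_cJ β i) (meas_upd i) (h.sf l) x))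
    ((measurable_pi_apply k).comp (meas_meanV (meas_cJ β i) (meas_upd i)
      (h.meas_e (meas_cJ β i) (meas_upd i) (h.sf l))))))
  iw i W z y := by simp only [wc, cJ_rs]
  iM i W z y := by ext1 x; simp only [Prog.Vc, Prog.ec, wc, cJ_rs]
  col i p x l := by simp [Prog.Vc, ei]

/-- quenched = annealed, GOE form -/
theorem qa_goe {P : Prog N} (h : P.Ok) {β : ℝ} (hβ : β ∈ Set.Ico (0 : ℝ) 1) (r C : ℝ) {ε e : ℝ}
    (hε : 0 < ε) (he : 0 < e) : Top.Whp Tap.GOE fun n W =>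
    (SL.law sv (ising (β • W) 0) r).real {y | ¬ ∀ i, Row65.Cv (wc (β • Cond.offd W) y i)
      (P.Vc (β / √n) (β • Cond.offd W) y i) C → ∀ φ, ELip 1 φ →
      |(mean (wc (β • Cond.offd W) y i)
          fun x => φ (P.Vc (β / √n) (β • Cond.offd W) y i x *ᵥ (β • Cond.offd W) i)) -
        ∫ z, mean (wc (β • Cond.offd W) y i) (fun x => φ (P.Vc (β / √n) (β • Cond.offd W) y i x *ᵥ
          ((β / √n) • z))) ∂gv (Fin n)| ≤ ε} ≤ e := by
  refine (rowCltStmt _ (h.cav β) β hβ r (β ^ 2 * C) _ (lt_min hε he)).imp fun n W hW => ?_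
  have := SL.isProb_law (φ := sv) (s := r) (Pl.wt_ising (β • W) 0)
  refine le_trans (measureReal_mono fun y hy => ?_) (hW.trans (min_le_right _ _))
  simp only [Set.mem_ofPred_eq, not_forall, not_le] at hy
  obtain ⟨i, h1, φ, h2, h3⟩ := hy
  refine ⟨i, fun u => ?_, φ, h2, (min_le_left _ _).trans_lt (h3.trans_eq ?_)⟩
  · simp only [Prog.Ok.cav, smul_mulVec, Conc.en_smul, mul_pow, sq_abs, SL.mean_const_mul, mul_assoc]
    exact mul_le_mul_of_nonneg_left (h1 u) (sq_nonneg _)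
  · have e : ∀ x, P.Vc (β / √n) (β • Cond.offd W) y i x *ᵥ (β • Cond.offd W) i =
        β • P.Vc (β / √n) (β • Cond.offd W) y i x *ᵥ W i := fun x => by
      ext l
      simp only [mulVec, dotProduct, Pi.smul_apply, smul_eq_mul, mul_sum]
      refine sum_congr rfl fun k _ => ?_
      by_cases hk : k = i
      · simp [hk, Prog.Vc, ei]
      · simp [Cond.offd, Ne.symm hk]; ring
    simp only [Prog.Ok.cav, smul_mulVec, e, ← mulVec_smul, smul_smul, mul_one_div]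

end Crest.Agent.T157.S3P

end
end

-- ▼ part T157/S3CV_16
section

/-!
# Row 157, block S3, section 4 (helper16): the cavity comparison for good families
-/

set_option autoImplicit false

noncomputable section

namespace Crest.Agent.T157.S3P

open Matrix Finset
open Crest.Agent.T157.S3 (Fam)

/-- **(C1)-(C3)** in the words of the local law -/
theorem cv {N : ℕ} {P : Prog N} {F : Fam} (hP : P.Ok) (hF : F.Ok) : CV P F := by
  obtain ⟨K0, κ0, hκ, hA⟩ := hF.hAT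
  obtain ⟨R, hR⟩ := hF.uw
  obtain ⟨C, k, c1, hC⟩ := S3C.cav hP R (le_max_right K0 0) hκ
  obtain ⟨D, hD⟩ := hR k
  have c2 : C ≤ C * (D ^ 2 + 1) := by nlinarith [sq_nonneg D]
  refine ⟨C * (D ^ 2 + 1), fun a κ _ A hAA => ?_⟩
  have n0 : (0 : ℝ) < F.n a := by exact_mod_cast hF.pos a
  have K1 := hF.K1 a
  have hs : F.s a ^ 2 * F.n a ≤ 1 := by
    rw [Fam.s, div_pow, Real.sq_sqrt n0.le, div_mul_cancel₀ _ n0.ne']
    exact pow_le_one₀ hF.beta.1 hF.beta.2
  obtain ⟨h1, h2⟩ := hC (F.n a) (F.s a) (|D| * √(F.K a)) (F.J a) (F.y a) hs (hF.symm a) (hF.diag a)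
    ((hD a).mono le_rfl le_rfl (mul_le_mul_of_nonneg_right (le_abs_self D) (Real.sqrt_nonneg _)))
    (by positivity) ((hA a).mono (fun _ => Real.exp_pos _) (le_max_left _ _) le_rfl)
  refine ⟨fun i => ⟨?_, fun u => ((h1 i).1 u).trans (mul_le_mul_of_nonneg_right c2 (sq_nonneg _))⟩,
    fun l => (h2 l).trans ?_⟩
  · have h := (h1 i).2 κ A hAA
    exact ⟨h.pos, h.fw, h.fV, h.tilt, h.cen, h.m4.trans c2, h.e4.trans c2, h.fA.trans c2,
      h.ov.trans (mul_le_mul_of_nonneg_right c2 (abs_nonneg _))⟩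
  · rw [mul_pow, sq_abs, Real.sq_sqrt (by linarith), mul_assoc]
    exact mul_le_mul_of_nonneg_left (by nlinarith) (by linarith)

end Crest.Agent.T157.S3P

end
end

-- ▼ part T157/S3Typ_23
section

/-!
# Row 157, part B (S3): the typical family (helper23)

`fam β s G` is the family of the instances satisfying `G`, with the trace of the typical filter;
`exists_good` produces a typical `G` for which the family is good.
-/

set_option autoImplicit false

noncomputable section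

namespace Crest.Agent.T157.Pos

open MeasureTheory ProbabilityTheory Matrix Filter Set Topology
open Crest.ProbabilityR.SpinGlassDynamics
open Crest.Agent.T157.E Crest.Agent.T157.Eig Crest.Agent.T157.Tap

/-- the family of the instances satisfying `G` -/
@[reducible] def fam (β s : ℝ) (G : In → Prop) : S3.Fam where
  I := {i : In // G i}
  l := comap Subtype.val (TF β s)
  n i := i.1.n
  β := β
  K i := Real.log i.1.n
  J i := i.1.J β
  y i := i.1.y

variable {β s : ℝ} {G : In → Prop}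

/-- entry -/
theorem fam_in {P : In → Prop} (h : ∀ᶠ i in TF β s, P i) : ∀ᶠ i in (fam β s G).l, P i.1 :=
  tendsto_comap.eventually h

theorem fam_tendsto {α : Type*} {f : In → α} {l : Filter α} (h : Tendsto f (TF β s) l) :
    Tendsto (fun i : (fam β s G).I => f i.1) (fam β s G).l l := h.comp tendsto_comap

/-- exit -/
theorem fam_out (hG : ∀ᶠ i in TF β s, G i) {P : (fam β s G).I → Prop}
    (h : ∀ᶠ i in (fam β s G).l, P i) : ∀ᶠ i in TF β s, ∃ hi : G i, P ⟨i, hi⟩ :=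
  (hG.and (eventually_comap.1 h)).mono fun i hi => ⟨hi.1, hi.2 ⟨i, hi.1⟩ rfl⟩



/-- good instances -/
structure Gd (β K ρ κ : ℝ) (C : ℕ → ℝ) (i : In) : Prop where
  n3 : 3 ≤ i.n
  op : opn (i.J β) ≤ 3
  uw : ∀ k, Uw.UW (β / √i.n) (i.J β) 3 k (C k * √(Real.log i.n))
  atd : ∀ v : V i.n, nrm v ≤ ρ * √i.n → Atd.ATd (ising (i.J β) (i.y + v)) K (Real.exp (-(κ * i.n)))
  cov : ∀ v : V i.n, nrm v ≤ ρ * √i.n →
    ∀ u : V i.n, u ⬝ᵥ covM (ising (i.J β) (i.y + v)) *ᵥ u ≤ K * (u ⬝ᵥ u)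
  acc : nrm (th (i.b β) - mag (ising (i.J β) i.y)) ≤ K

lemma one_le_log {n : ℕ} (hn : 3 ≤ n) : 1 ≤ Real.log n := by
  have : (3 : ℝ) ≤ n := by exact_mod_cast hn
  rw [Real.le_log_iff_exp_le (by linarith)]
  linarith [Real.exp_one_lt_d9]

lemma uw_triv {n : ℕ} {J : Mx n} (hβ : β ∈ Ioc (0 : ℝ) 1) (hJ : opn J ≤ 3) (k : ℕ) :
    Uw.UW (β / √n) J 3 k (4 ^ k * √n) := ⟨hJ, fun l _ hl hb => by
  have h := (Uw.opn_VU (Uw.sq_param (pow_le_one₀ hβ.1.le hβ.2) n) hJ hb).1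
  have h2 : opn (Uw.Vk (β / √n) J l) ≤ 4 ^ k :=
    h.trans (by rw [show (1 : ℝ) + 3 = 4 by norm_num]; exact pow_le_pow_right₀ (by norm_num) hl)
  refine (nrm_le_iff (by positivity)).2 ?_
  rw [dot_eq, mul_pow, Real.sq_sqrt (Nat.cast_nonneg n), mul_comm, ← nsmul_eq_mul, ← Fin.sum_const]
  refine Finset.sum_le_sum fun j _ => ?_
  rw [← sq_abs]
  exact pow_le_pow_left₀ (abs_nonneg _) ((abs_entry_le _ j j).trans h2) 2⟩

/-- good instances are typical -/
theorem ev_Gd (hβ : β ∈ Ioo (0 : ℝ) 1) (hs : 0 ≤ s) : ∃ K > (0 : ℝ), ∃ ρ > (0 : ℝ), ∃ κ > (0 : ℝ),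
    ∃ C : ℕ → ℝ, ∀ᶠ i in TF β s, Gd β K ρ κ C i := by
  have hβ' : β ∈ Ioc (0 : ℝ) 1 := ⟨hβ.1, hβ.2.le⟩
  obtain ⟨K1, hK1, ρ1, hρ1, κ, hκ, h1⟩ := TF.atd hβ hs
  obtain ⟨K2, ρ2, hK2, hρ2, h2⟩ := TF.cov hβ' hs (Or.inl hβ.2)
  obtain ⟨M, hM, h3⟩ := TF.acc hβ' hs
  choose C C0 hC using TF.uw (s := s) hβ'
  obtain ⟨κ', t, h4⟩ := TF.diag hC
  choose N hN using fun k => eventually_atTop.1 (t.eventually_ge_atTop k)
  refine ⟨K1 + K2 + M, by positivity, min ρ1 ρ2, lt_min hρ1 hρ2, κ, hκ,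
    fun k => C k + 4 ^ k * √(N k), ?_⟩
  filter_upwards [h1, h2, h3, h4, TF.opn hβ', TF.lim.eventually_ge_atTop 3] with i a1 a2 a3 a4 a5 a6
  have l1 : 1 ≤ √(Real.log i.n) := Real.one_le_sqrt.2 (one_le_log a6)
  refine ⟨a6, a5, fun k => ?_, fun v hv => (a1 v (hv.trans (by gcongr; exact min_le_left _ _))).mono
    (fun _ => Real.exp_pos _) (by linarith) le_rfl, fun v hv u => (a2 v (hv.trans (by
      gcongr; exact min_le_right _ _)) u).trans (mul_le_mul_of_nonneg_right (by linarith)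
        (Eig.dot_self_nonneg u)), by linarith⟩
  rcases le_total (N k) i.n with h | h
  · exact (a4 k (hN k _ h)).mono le_rfl le_rfl (by gcongr; exact le_add_of_nonneg_right (by positivity))
  · refine (uw_triv hβ' a5 k).mono le_rfl le_rfl (le_trans ?_ (le_mul_of_one_le_right
      (by have := C0 k; positivity) l1))
    exact le_add_of_nonneg_of_le (C0 k) (by gcongr)

lemma ev_log {e : ℝ} (he : 0 < e) : ∀ᶠ n : ℕ in atTop, Real.log n ≤ (n : ℝ) ^ e := by
  refine tendsto_natCast_atTop_atTop.eventually (p := fun x : ℝ => Real.log x ≤ x ^ e) ?_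
  filter_upwards [(isLittleO_log_rpow_atTop he).bound one_pos, eventually_ge_atTop 0] with x h1 h2
  rw [one_mul, Real.norm_eq_abs, Real.norm_eq_abs, abs_of_nonneg (Real.rpow_nonneg h2 _)] at h1
  exact (le_abs_self _).trans h1

theorem fam_ok (hβ : β ∈ Icc (0 : ℝ) 1) {K ρ κ : ℝ} {C : ℕ → ℝ} (hρ : 0 ≤ ρ) (hκ : 0 < κ)
    (h : ∀ i, G i → Gd β K ρ κ C i) : (fam β s G).Ok := by
  have h1 : Tendsto (fun i : {i : In // G i} => i.1.n) (comap Subtype.val (TF β s)) atTop :=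
    TF.lim.comp tendsto_comap
  have h2 : ∀ i : {i : In // G i}, Atd.ATd (ising (i.1.J β) i.1.y) K
      (Real.exp (-(κ * i.1.n))) := fun i => by
    have := (h i.1 i.2).atd 0 (by rw [nrm_zero]; positivity)
    rwa [add_zero] at this
  have h3 : ∀ k, ∃ C : ℝ, ∀ i : {i : In // G i}, Uw.UW (β / √i.1.n) (i.1.J β) 3 k
      (C * √(Real.log i.1.n)) := fun k => ⟨C k, fun i => (h i.1 i.2).uw k⟩
  refine ⟨h1, fun i => lt_of_lt_of_le (by norm_num) (h i.1 i.2).n3, hβ,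
    fun i => one_le_log (h i.1 i.2).n3, fun e he => h1.eventually (ev_log he),
    fun i => In.symm (β := β) i.1, fun i => In.diag (β := β) i.1, ⟨K, κ, hκ, h2⟩, 3, ?_⟩
  simp only [S3.Fam.s]
  convert h3

/-- **the typical family**; `G0` is any typical property wanted for all the instances -/
theorem exists_good (hβ : β ∈ Ioo (0 : ℝ) 1) (hs : 0 ≤ s) {G0 : In → Prop}
    (h0 : ∀ᶠ i in TF β s, G0 i) : ∃ G : In → Prop, (∀ᶠ i in TF β s, G i) ∧ (fam β s G).Ok ∧
      ∃ K > (0 : ℝ), ∃ ρ > (0 : ℝ), ∃ κ > (0 : ℝ), ∃ C, ∀ i, G i → G0 i ∧ Gd β K ρ κ C i := by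
  obtain ⟨K, hK, ρ, hρ, κ, hκ, C, h⟩ := ev_Gd hβ hs
  exact ⟨fun i => G0 i ∧ Gd β K ρ κ C i, h0.and h,
    fam_ok ⟨hβ.1.le, hβ.2.le⟩ hρ.le hκ fun _ hi => hi.2, K, hK, ρ, hρ, κ, hκ, C, fun _ hi => hi⟩

/-- **(EMP)** along the family, in the shape of `S3I.Emp` -/
theorem fam_emp {q : ℝ} (hβ : β ∈ Ioc (0 : ℝ) 1) (hL : Lv β s q) (ψ : ℝ → ℝ) (hf : Continuous ψ)
    (he : ∀ x, ψ (-x) = ψ x) (hb : ∃ B, ∀ x, |ψ x| ≤ B) :
    Tendsto (fun i : (fam β s G).I => (∑ k, ψ (i.1.b β k)) / (fam β s G).n i) (fam β s G).l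
      (𝓝 (gE ψ (s + β ^ 2 * q) (s + β ^ 2 * q))) :=
  fam_tendsto (TF.emp hβ hL hf he hb.choose_spec)

end Crest.Agent.T157.Pos

end
end

-- ▼ part T157/S3LL_65
section

/-!
# Row 157, block B/S3: the local law for the canonical network (helper65)
-/

set_option autoImplicit false

noncomputable section

namespace Crest.Agent.T157.S3P

open Filter Set Matrix Topology
open Crest.Agent.T157.E Crest.Agent.T157.Pos
open Crest.Agent.T157.S3 (Fam)

variable {N : ℕ} {P : Prog N} {F : Fam}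

lemma s_sq (F : Fam) (a : F.I) : F.s a ^ 2 = F.β ^ 2 / F.n a := by
  rw [Fam.s, div_pow, Real.sq_sqrt (Nat.cast_nonneg _)]

/-- **(LL)** -/
theorem ll (hP : P.Ok) (hF : F.Ok) (hQ : QA P F) : LL P F := ll_of hF (cv hP hF) hQ

lemma Sm.bl {φ : PF N} (h : Sm φ) : S3I.BL φ := by
  obtain ⟨A, a0, hA⟩ := h.bd
  obtain ⟨B, b0, hB⟩ := h.taylor
  refine ⟨A + B * (N + 1) + 1, by positivity, fun b s ξ => (hA b s ξ).trans (by
    have : 0 ≤ B * (N + 1) := by positivity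
    linarith), fun b b' s ξ ξ' => (hB b' b s ξ' ξ).1.trans ?_⟩
  have h1 : ∑ m, |ξ m - ξ' m| ≤ (N + 1) * Conc.en (ξ - ξ') := by
    simpa using Finset.sum_le_card_nsmul Finset.univ _ _ fun m _ => Conc.abs_le_en (ξ - ξ') m
  have h2 := Conc.en_nonneg (ξ - ξ')
  have h3 := abs_nonneg (b - b')
  nlinarith [mul_le_mul_of_nonneg_left h1 b0, mul_nonneg b0 h3, mul_nonneg a0 h3, mul_nonneg a0 h2,
    mul_nonneg (mul_nonneg b0 h3) (Nat.cast_nonneg (α := ℝ) N)]

lemma Prog.Ok.pg (h : P.Ok) {sg : Fin (N + 1) → ℝ} (hp : P.Par sg) : S3I.Pg P.f P.g P.g' sg where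
  bl l := ⟨(h.sf l).bl, (h.sg l).bl, (h.sg' l).bl⟩
  dep l b := ⟨h.rf l b, h.rg l b, h.rg' l b⟩
  par l := ⟨fun b s ξ => (hp.f l b s ξ).trans (neg_one_mul _).symm, hp.g l,
    fun b s ξ => (hp.g' l b s ξ).trans (one_mul _).symm⟩
  sgn l := (hp.pm l).imp (fun e => ⟨e, hp.ev l e⟩) fun e => ⟨e, hp.od l e⟩

lemma neg_of_ng {d : F.Df} (h : S3I.Ng F.l F.n F.K d) : Fam.Neg d := fun e he => by
  obtain ⟨C, -, h⟩ := h
  refine ⟨C / (e / 2) ^ 2, (h (e / 2) (half_pos he)).mono fun a ⟨r, h1, h2⟩ => ?_⟩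
  rw [div_mul_eq_mul_div, le_div_iff₀ (by positivity), Finset.sum_mul]
  refine (Finset.sum_le_sum fun k _ => ?_).trans h1
  rcases le_total (|d a k| - e) 0 with h3 | h3
  · rw [max_eq_right h3]; simp; positivity
  · rw [max_eq_left h3, ← mul_pow, show 4 = 2 * 2 from rfl, pow_mul]
    exact pow_le_pow_left₀ (by positivity) (by nlinarith [h2 k]) 2

/-- **(LL) + (ID)**: the canonical constants converge and the local law holds with the model constants -/
theorem llm (hP : P.Ok) {sg : Fin (N + 1) → ℝ} (hp : P.Par sg) (hF : F.Ok) (hQ : QA P F)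
    {ν : (ℝ → ℝ) → ℝ} (h0 : ν 0 = 0)
    (hE : S3I.Emp F.l F.n (fun a => bF (F.s a) (F.J a) (F.y a)) ν) {κ : Type} [Fintype κ]
    {M : Matrix (Fin (N + 1)) κ ℝ} {cM : ℝ → Fin (N + 1) → ℝ} (hM : S3I.Mod P.f P.g P.g' F.β ν M cM) :
    (∀ l m, Tendsto (fun a => P.S (F.s a) (F.J a) (F.y a) l m) F.l (𝓝 ((M * Mᵀ) l m))) ∧
    (∀ l, S3I.Ng F.l F.n F.K fun a k =>
      P.c (F.s a) (F.J a) (F.y a) l k - cM (bF (F.s a) (F.J a) (F.y a) k) l) ∧
    S3I.LLm F.l F.n F.K F.w (fun a x k l => P.X (F.s a) (F.J a) (F.y a) l x k)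
      (fun a => bF (F.s a) (F.J a) (F.y a)) 0 M cM univ := by
  choose A hA using fun a => exists_fac P (F.s a) (F.J a) (F.y a)
  have := S3I.ident (c := fun a k l => P.c (F.s a) (F.J a) (F.y a) l k) (hP.pg hp) hM h0
    (S3.T60.K_div hF) hE (.of_forall fun a => Pl.wt_ising _ _) (ll hP hF hQ _ A hA)
    (.of_forall fun a k l => congrArg (_ + ·) (S3.T60.me_eq ((P.net F).ev (fl F (P.g' l))) a))
    (.of_forall fun a l m => by rw [hA, ← mul_div_assoc, mul_div_right_comm, ← s_sq]; rfl)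
  simp only [hA] at this
  exact this

/-- means of letters are the model values up to negligible vectors -/
theorem llp (hP : P.Ok) {sg : Fin (N + 1) → ℝ} (hp : P.Par sg) (hF : F.Ok) (hQ : QA P F)
    {ν : (ℝ → ℝ) → ℝ} (h0 : ν 0 = 0)
    (hE : S3I.Emp F.l F.n (fun a => bF (F.s a) (F.J a) (F.y a)) ν) {κ : Type} [Fintype κ]
    {M : Matrix (Fin (N + 1)) κ ℝ} {cM : ℝ → Fin (N + 1) → ℝ} (hM : S3I.Mod P.f P.g P.g' F.β ν M cM)
    {φ : PF N} (hφ : Sm φ) : Fam.Neg (F := F) fun a => F.EV ((P.net F).ev (fl F φ)) a -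
      fun k => S3I.Eb M 0 cM φ (bF (F.s a) (F.J a) (F.y a) k) :=
  neg_of_ng ((llm hP hp hF hQ h0 hE hM).2.2.bl hφ.bl fun _ => S3I.reads_univ _)

/-! ### the typical family -/

variable {β s : ℝ} {G : In → Prop}

theorem qa_fam (h : P.Ok) (hβ : β ∈ Ico (0 : ℝ) 1) : QA P (fam β s G) := fun C ε hε =>
  (fam_in (TF.of_goe fun e he => qa_goe h hβ s C hε he)).mono fun a ha => by
    rw [a.1.offd_W] at ha
    exact ha

/-- the static field of the canonical network is the cavity field -/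
theorem bF_fam (a : (fam β s G).I) :
    bF ((fam β s G).s a) ((fam β s G).J a) ((fam β s G).y a) = a.1.b β := by
  rw [In.b_eq, bF, Uw.eta, s_sq, Tap.avg, ← mul_div_assoc, mul_div_right_comm]
  rfl


theorem emp_fam {q : ℝ} (hβ : β ∈ Ioc (0 : ℝ) 1) (hL : Lv β s q) : S3I.Emp (fam β s G).l (fam β s G).n
    (fun a => bF ((fam β s G).s a) ((fam β s G).J a) ((fam β s G).y a))
    fun ψ => Tap.gE ψ (s + β ^ 2 * q) (s + β ^ 2 * q) := fun ψ h1 h2 h3 =>
  (fam_emp hβ hL ψ h1 h2 h3).congr fun a => by rw [← bF_fam]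

end Crest.Agent.T157.S3P

end
end

-- ▼ part T157/S3Lp_65

/-!
# Row 157, block B/S3: the local law in the words of the realisation layer (helper65)
-/

set_option autoImplicit false

noncomputable section

namespace Crest.Agent.T157.S3P

open MeasureTheory ProbabilityTheory Filter Set
open Crest.Agent.T157.Pos
open Crest.Agent.T157.S3 (Fam)

theorem lp_of {F : Fam} {ν : Measure ℝ} (hF : F.Ok) (hQ : ∀ (N : ℕ) (P : Prog N), P.Ok → QA P F)
    (hE : S3.T60.EmpF F ν) : S3R.LP F ν := fun σ _ hφ =>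
  llp σ.ok σ.par hF (hQ _ _ σ.ok) (ν := fun ψ => ∫ b, ψ b ∂ν) (integral_zero _ _) hE σ.mod hφ

/-- the law of `t + √t Z` -/
def nu (t : ℝ) : Measure ℝ := (gaussianReal 0 1).map fun z => t + √t * z

instance (t : ℝ) : IsProbabilityMeasure (nu t) :=
  Measure.isProbabilityMeasure_map (by fun_prop)

lemma int_nu (t : ℝ) {ψ : ℝ → ℝ} (h : Continuous ψ) : ∫ b, ψ b ∂nu t = Tap.gE ψ t t :=
  integral_map (by fun_prop) h.aestronglyMeasurable

variable {β s q : ℝ} {G : In → Prop}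

theorem empF_fam (hβ : β ∈ Ioc (0 : ℝ) 1) (hL : Lv β s q) :
    S3.T60.EmpF (fam β s G) (nu (s + β ^ 2 * q)) := fun ψ h1 h2 h3 => by
  rw [int_nu _ h1]
  exact emp_fam hβ hL ψ h1 h2 h3

theorem lp_fam (hβ : β ∈ Ioo (0 : ℝ) 1) (hL : Lv β s q) (hF : (fam β s G).Ok) :
    S3R.LP (fam β s G) (nu (s + β ^ 2 * q)) :=
  lp_of hF (fun _ _ h => qa_fam h ⟨hβ.1.le, hβ.2⟩) (empF_fam ⟨hβ.1, hβ.2.le⟩ hL)

end Crest.Agent.T157.S3P

end
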