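import Crest.Agent.T157.S3HbS_80
import Crest.Agent.T157.S3Gr_7_Mg
import Crest.Agent.T157.S3Cl_71_Mg
import Crest.Agent.T157.S3AnsF_90_Mg
import Crest.Agent.T157.LcLocB_30
import Crest.Agent.T157.LcExt_3
import Crest.Agent.T157.LcCal_52
import Crest.Agent.T157.LcPol_3
import Crest.Agent.T157.LcDef_30
import Crest.Agent.T157.LcDefB_30
import Crest.Agent.T157.LcSpec_3_Mg
import Crest.Agent.T157.LcEq_6
import Crest.Agent.T157.NetEx_13_Mg
import Crest.Agent.T157.NetDefB_32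
import Crest.Agent.T157.NetBs_54
import Crest.Agent.T157.NetSt_58_Mg
import Crest.Agent.T157.NetFact_67
import Crest.Agent.T157.NetLift_66
import Crest.Agent.T157.S3Lp_65_Mg
import Crest.Agent.T157.TyF_23
import Crest.Agent.T157.S3Gg_96
import Crest.Agent.T157.S1Par_97
import Crest.Agent.T157.S1An_90
import Crest.Agent.T157.AtC_39

-- ▼ part T157/S3All_43
section

/-!
# Row 157, part B, block S3 (helper43): the deterministic leaves, unconditionally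
-/

namespace Crest.Agent.T157.S3

theorem j1Stmt : J1Stmt := j1Glue clsStmt
theorem wxStmt : WXStmt := wxGlue clsStmt j1Stmt
theorem j2Stmt : J2Stmt := j2Glue clsStmt j1Stmt wxStmt
theorem clStmt : CLStmt := clGlue exStmt clsStmt j1Stmt wxStmt j2Stmt
theorem bilStmt : BILStmt := bilGlue hbStmt exStmt clsStmt j1Stmt j2Stmt dgStmt clStmt
theorem gramStmt : GRAMStmt := gramGlue clsStmt j1Stmt wxStmt

end Crest.Agent.T157.S3
end

-- ▼ part T157/S3AnsAll_90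
section

/-!
# Row 157, block B/S3 (helper90): the deterministic layer is closed
-/

namespace Crest.Agent.T157.S3

theorem reg1Stmt : REG1Stmt := reg1Glue hbStmt exStmt dualStmt clsStmt j1Stmt wxStmt

theorem regStmt : REGStmt :=
  (regGlue hbStmt exStmt dualStmt clsStmt j1Stmt wxStmt j2Stmt dgStmt reg1Stmt).1

theorem regGStmt : REGgStmt :=
  (regGlue hbStmt exStmt dualStmt clsStmt j1Stmt wxStmt j2Stmt dgStmt reg1Stmt).2

theorem colStmt : COLStmt := colGlue hbStmt exStmt dualStmt clsStmt j1Stmt wxStmt reg1Stmt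

theorem flatStmt : FlatStmt := flatGlue hbStmt clsStmt j1Stmt wxStmt


end Crest.Agent.T157.S3
end

-- ▼ part T157/LcXL_30
section

/-!
# Row 157, block B/S4b (helper30): extended towers at a level, the local ansatz on them
-/

set_option autoImplicit false

noncomputable section

namespace Crest.Agent.T157.Tw

open MeasureTheory Real Matrix Set

/-- the trivial extension -/
def Ext.triv (b : Bath) : Ext := ⟨b, b, 1, by simp, by simp, by simp⟩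

/-- `E sech² ξ` -/
def pb (ν : Measure ℝ) : ℝ := ∫ ξ, sech2 ξ ∂ν

/-- the one-dimensional bath spanned by the node `(s - tanh ξ) / √pb`, read over `b` -/
def up (β : ℝ) (ν : Measure ℝ) (b : Bath) : Bath :=
  ⟨1, of fun _ _ => |Eb ν b (fun _ => sS _) fun _ => sS _| / pb ν, fun _ => β * √(pb ν), by
    have h : (of fun _ _ => |Eb ν b (fun _ => sS _) fun _ => sS _| / pb ν : Matrix (Fin 1) (Fin 1) ℝ) =
        Matrix.diagonal fun _ => |Eb ν b (fun _ => sS _) fun _ => sS _| / pb ν := by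
      ext i j; rw [Subsingleton.elim i j]; simp
    rw [h]
    exact posSemidef_diagonal_iff.2 fun _ => div_nonneg (abs_nonneg _)
      (integral_nonneg fun ξ => (sech2_pos ξ).le)⟩

/-- **the first layer**: one node `(s - tanh ξ) / √pb`, read over itself -/
def base (β : ℝ) (ν : Measure ℝ) : Bath := up β ν (up β ν Bath.nil)

/-- **extended towers at the level `ν`**; the first step uses functions of the spin only -/
inductive XL (β : ℝ) (ν : Measure ℝ) : Ext → Prop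
  | base {e f0 f} : Step β ν 0 (Ext.triv (base β ν)) e f0 f → XL β ν e
  | step {e e' D f0 f} : XL β ν e → Step β ν D e e' f0 f → XL β ν e'

variable {β : ℝ} {ν : Measure ℝ}

lemma pb_pos [IsProbabilityMeasure ν] : 0 < pb ν :=
  (integral_pos_iff_support_of_nonneg (fun ξ => (sech2_pos ξ).le) (bm_sech2.int ν)).2 (by
    have : Function.support sech2 = univ := eq_univ_of_forall fun ξ => (sech2_pos ξ).ne'
    simp [this])

lemma Eb_nonneg (b : Bath) (F : ℝ → SV b.m) : 0 ≤ Eb ν b F F :=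
  integral_nonneg fun ξ => (cal.ok b ξ).pE _



lemma TwL.up [IsProbabilityMeasure ν] {𝒞 : Cls} {b : Bath} (hb : TwL admStmt 𝒞 β b) :
    TwL admStmt 𝒞 β (up β ν b) := by
  have p0 := pb_pos (ν := ν)
  have s0 := sqrt_pos.2 p0
  have hN : (lev admStmt 𝒞 ν b).N (lev admStmt 𝒞 ν b).σ (lev admStmt 𝒞 ν b).σ = pb ν :=
    integral_congr_ae (ae_of_all _ fun ξ => (okStmt b ξ).2.1)
  have hE : (lev admStmt 𝒞 ν b).En (lev admStmt 𝒞 ν b).σ (lev admStmt 𝒞 ν b).σ =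
    Eb ν b (fun _ => sS _) fun _ => sS _ := rfl
  have q := mul_self_sqrt p0.le
  refine TwL.step (b' := ⟨1, (Tw.up β ν b).A, fun _ => √(pb ν), (Tw.up β ν b).psd⟩) ν
    (f := fun _ => (√(pb ν))⁻¹ • (lev admStmt 𝒞 ν b).σ) hb ⟨fun k l => ?_, fun k l => ?_, fun k => ?_⟩
  · rw [Subsingleton.elim k l, if_pos rfl]
    simp only [map_smul, LinearMap.smul_apply, smul_eq_mul, hN]
    field_simp; linarith [sq_sqrt p0.le]
  · simp only [map_smul, LinearMap.smul_apply, smul_eq_mul, hE]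
    change _ = |Eb ν b (fun _ => sS _) fun _ => sS _| / pb ν
    rw [abs_of_nonneg (Eb_nonneg _ _), ← mul_assoc, ← mul_inv, q, div_eq_inv_mul]
  · simp only [map_smul, smul_eq_mul, hN]
    field_simp; linarith [sq_sqrt p0.le]


/-- the spin lies in the span of the nodes -/
lemma Step.stt {D : ℕ} {e e' : Ext} {f0 f} (h : Step β ν D e e' f0 f) :
    ∀ᵐ ξ ∂ν, β • stS _ ξ = ∑ k, e'.bt.g k • f k ξ := by
  filter_upwards [h.st, ae_all_iff.2 h.inc] with ξ h1 h2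
  have h3 := congrArg (pull e.ι) h1
  rw [map_smul, Ext3.pull_st, map_sum] at h3
  simp only [h3, map_smul, h2, Finset.smul_sum, smul_smul, e'.hg, mulVec, dotProduct,
    Finset.sum_smul]
  rw [Finset.sum_comm]
  simp only [mul_comm]

lemma Ext.gg (e : Ext) : e.bt.g ⬝ᵥ e.bt.g = e.b.g ⬝ᵥ e.b.g := by
  rw [e.hg, dotProduct_mulVec, vecMul_mulVec, e.iso, vecMul_one]

lemma Step.gg [IsProbabilityMeasure ν] (fa : FamApi) {D : ℕ} {e e' : Ext} {f0 f}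
    (h : Step β ν D e e' f0 f) : e'.b.g ⬝ᵥ e'.b.g = β ^ 2 * pb ν := by
  have h1 : ∑ k, e'.bt.g k * Nb ν e.bt (fun _ => sS _) (f k) = β * pb ν := by
    simp only [Nb, pb, ← integral_const_mul]
    rw [← integral_finsetSum _ fun k _ => ((fa.N _ _ (fa.le _ (Ext3.s_mem0 _)) _
      (h.c1 k).1).2.int ν).const_mul _]
    refine integral_congr_ae (h.stt.mono fun ξ hξ => ?_)
    have h2 := congrArg ((imS e.bt ξ).N (sS _)) hξ
    rw [map_smul, (cal.ok _ _).sN, Ext3.N_st cal, cal.Ns] at h2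
    simpa using h2.symm
  rw [← e'.gg, sq, mul_assoc, ← h1, Finset.mul_sum]
  exact Finset.sum_congr rfl fun k _ => by rw [mul_left_comm, h.g]

lemma XL.gg [IsProbabilityMeasure ν] (fa : FamApi) {e : Ext} (h : XL β ν e) :
    e.b.g ⬝ᵥ e.b.g = β ^ 2 * pb ν := by
  cases h with
  | base h => exact h.gg fa
  | step _ h => exact h.gg fa







end Crest.Agent.T157.Tw
end
end

-- ▼ part T157/LcEx_49
section

/-!
# Row 157, block B/S4c (helper49): irreducible functions and the exact ansatz (`ExGlue`)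
-/

set_option autoImplicit false

noncomputable section

namespace Crest.Agent.T157.Tw

open Real Matrix Set

namespace Ex49

variable {m k : ℕ}

/-- `⟨v, Z⟩` -/
def zl (b : Bath) : (Fin b.m → ℝ) →ₗ[ℝ] SV b.m := emb (zS b)

lemma zl_apply (b : Bath) (v : Fin b.m → ℝ) : zl b v = ∑ j, v j • zS b j := emb_apply _ _
lemma lin_apply (v : Fin m → ℝ) : linS m v = ∑ j, v j • xS j := emb_apply _ _

lemma zl_eq (b : Bath) (v : Fin b.m → ℝ) : zl b v = linS _ v - (v ⬝ᵥ b.g) • sS _ := by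
  rw [zl_apply, lin_apply, dotProduct, Finset.sum_smul, ← Finset.sum_sub_distrib]
  exact Finset.sum_congr rfl fun j _ => by rw [zS, smul_sub, smul_smul]

lemma pull_s (ι : Matrix (Fin k) (Fin m) ℝ) : pull ι (sS m) = sS k := rfl
lemma fl_x (j : Fin m) : fl m (xS j) = xS j := rfl

lemma alg (r : ℝ) : algebraMap ℝ (SV m) r = r • 1 := Algebra.algebraMap_eq_smul_one r

lemma rs_inv (b : Bath) (ξ : ℝ) {F : SV b.m} (h : fl _ F = F) : rsS b ξ F = 0 := by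
  simp [rsS, h]

lemma rs_one (b : Bath) (ξ : ℝ) : rsS b ξ 1 = 0 := rs_inv b ξ (map_one _)

lemma rs_lin (b : Bath) (ξ : ℝ) (v : Fin b.m → ℝ) : rsS b ξ (linS _ v) = 0 :=
  rs_inv b ξ (by simp only [lin_apply, map_sum, map_smul, fl_x])

lemma w_g (e : Ext) (u : Fin e.b.m → ℝ) : e.w u ⬝ᵥ e.bt.g = 0 := by
  rw [e.hg, dotProduct_comm, ← vecMul_transpose, ← dotProduct_mulVec, Ext.w, mulVec_sub,
    mulVec_mulVec, mulVec_mulVec, mulVec_mulVec, ← e.hA, e.iso, one_mulVec, sub_self,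
    dotProduct_zero]

lemma iso_g (e : Ext) (u : Fin e.b.m → ℝ) : (e.ι *ᵥ u) ⬝ᵥ e.bt.g = u ⬝ᵥ e.b.g := by
  rw [e.hg, ← vecMul_transpose, ← dotProduct_mulVec, mulVec_mulVec, e.iso, one_mulVec]

section forms
variable {V : Type} [AddCommGroup V] [Module ℝ V] {H : Pre V}

lemma add_le (h : H.Ok) {c : ℝ} (hc : 0 ≤ c) (F G : V) :
    c * H.N (F + G) (F + G) + H.En (F + G) (F + G) ≤
      2 * (c * H.N F F + H.En F F) + 2 * (c * H.N G G + H.En G G) := by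
  have h1 := mul_nonneg hc (h.pN (F - G))
  have h2 := h.pE (F - G)
  simp only [map_add, map_sub, LinearMap.add_apply, LinearMap.sub_apply] at h1 h2 ⊢
  linarith

end forms

lemma mf_add {b : Bath} {ξ c : ℝ} (h : (imS b ξ).Ok) (hc : 0 ≤ c) (F G : SV b.m) :
    Mf b ξ c (F + G) ≤ 2 * Mf b ξ c F + 2 * Mf b ξ c G := add_le h hc F G

lemma mf_smul (b : Bath) (ξ c r : ℝ) (F : SV b.m) : Mf b ξ c (r • F) = r ^ 2 * Mf b ξ c F := by
  simp only [Mf, map_smul, LinearMap.smul_apply, smul_eq_mul]; ring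

section cal
variable (c : Cal)
include c

lemma d_z (b : Bath) (i j : Fin b.m) : dd i (zS b j) = if j = i then 1 else 0 := by
  rw [zS, map_sub, map_smul, c.ds, c.dx, smul_zero, sub_zero]

lemma d_zl (b : Bath) (i : Fin b.m) (v : Fin b.m → ℝ) : dd i (zl b v) = v i • 1 := by
  simp [zl_apply, d_z c]

lemma d_lin (i : Fin m) (v : Fin m → ℝ) : dd i (linS m v) = v i • 1 := by
  simp [lin_apply, c.dx]

lemma ex_zl (b : Bath) (ξ : ℝ) (v : Fin b.m → ℝ) (F : SV b.m) :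
    exS b ξ (zl b v * F) = ∑ j, v j * exS b ξ (dd j F) := by
  simp only [zl_apply, Finset.sum_mul, smul_mul_assoc, map_sum, map_smul, c.stein, smul_eq_mul]

lemma ex_zl1 (b : Bath) (ξ : ℝ) (v : Fin b.m → ℝ) : exS b ξ (zl b v) = 0 := by
  simpa [c.done] using ex_zl c b ξ v 1

lemma ex_szl (b : Bath) (ξ : ℝ) (v : Fin b.m → ℝ) : exS b ξ (sS _ * zl b v) = 0 := by
  simpa [c.ds, mul_comm] using ex_zl c b ξ v (sS _)

lemma p_eq (ξ : ℝ) : sech2 ξ = 1 - tanh ξ ^ 2 := by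
  rw [← c.Ns Bath.nil ξ, c.N, c.ss, c.ex1, c.exs, sq]

lemma N_one (b : Bath) (ξ : ℝ) (F : SV b.m) : (imS b ξ).N F 1 = 0 := by
  rw [c.N, mul_one, c.ex1, mul_one, sub_self]

lemma N_zl (b : Bath) (ξ : ℝ) (v : Fin b.m → ℝ) (F : SV b.m) :
    (imS b ξ).N F (zl b v) = ∑ j, v j * exS b ξ (dd j F) := by
  rw [c.N, mul_comm F, ex_zl c, ex_zl1 c, mul_zero, sub_zero]

lemma En_one (b : Bath) (ξ : ℝ) (F : SV b.m) : (imS b ξ).En F 1 = 0 := by
  simp [c.En, rs_one, c.done]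

lemma En_lin (b : Bath) (ξ : ℝ) (v : Fin b.m → ℝ) {F : SV b.m} (h : ∀ j, exS b ξ (dd j F) = 0) :
    (imS b ξ).En F (linS _ v) = 0 := by
  simp [c.En, rs_lin, d_lin c, h]

lemma ex_gen (b : Bath) (ξ : ℝ) (F : SV b.m) : exS b ξ (gen b ξ F) = 0 := by
  rw [← one_mul (gen b ξ F), c.l0, (c.ok b ξ).sE, En_one c]

lemma gen_one (b : Bath) (ξ : ℝ) : gen b ξ 1 = 0 := by
  simp [gen, ouS, rs_one, c.done]

lemma gen_lin (b : Bath) (ξ : ℝ) (v : Fin b.m → ℝ) : gen b ξ (linS _ v) = zl b (b.A *ᵥ v) := by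
  simp [gen, ouS, rs_lin, d_lin c, c.done, zl_apply, mulVec, dotProduct, Finset.sum_smul, smul_smul]

lemma gen_s (b : Bath) (ξ : ℝ) : gen b ξ (sS _) = rsS b ξ (sS _) := by
  simp [gen, ouS, c.ds]

lemma pull_lin (ι : Matrix (Fin k) (Fin m) ℝ) (v : Fin m → ℝ) :
    pull ι (linS m v) = linS k (ι *ᵥ v) := by
  simp only [lin_apply, map_sum, map_smul, c.p_x, Finset.smul_sum, smul_smul, mulVec, dotProduct,
    Finset.sum_smul]
  rw [Finset.sum_comm]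
  simp only [mul_comm]

lemma ex_s_mul (b : Bath) (ξ : ℝ) (F : SV b.m) :
    exS b ξ (sS _ * F) = exS b 0 (sS _ * F) + tanh ξ * exS b 0 F := by
  rw [c.aff, ← mul_assoc, c.ss, one_mul]

omit c in
lemma irr_eq (b : Bath) (ξ : ℝ) (F : SV b.m) : irr b ξ F =
    F - (exS b 0 F • 1 + exS b 0 (sS _ * F) • sS _) - zl b fun j => exS b ξ (dd j F) := by
  rw [irr, alg, zl_apply]

lemma irr_irr (b : Bath) (ξ : ℝ) (F : SV b.m) : Irr b ξ (irr b ξ F) := by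
  have h0 : exS b ξ (irr b ξ F) = 0 := by
    simp only [irr_eq, map_sub, map_add, map_smul, c.ex1, c.exs, ex_zl1 c, smul_eq_mul]
    rw [c.aff b ξ F]; ring
  refine ⟨h0, fun j => ?_, ?_⟩
  · simp [irr_eq, d_zl c, c.done, c.ds, c.ex1]
  · rw [c.N, h0, irr_eq]
    simp only [mul_sub, mul_add, mul_smul_comm, map_sub, map_add, map_smul, c.ss, mul_one, c.ex1,
      c.exs, ex_szl c, smul_eq_mul]
    rw [ex_s_mul c b ξ F]; ring

lemma irr_fix (b : Bath) (ξ : ℝ) (F : SV b.m) (h : Irr b ξ F) : irr b ξ F = F := by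
  obtain ⟨h1, h2, h3⟩ := h
  rw [c.N, h1, mul_zero, sub_zero, ex_s_mul c] at h3
  rw [c.aff] at h1
  have hp := sech2_pos ξ
  rw [p_eq c] at hp
  have a0 : exS b 0 F = 0 := by
    have : (1 - tanh ξ ^ 2) * exS b 0 F = 0 := by linear_combination h1 - tanh ξ * h3
    exact (mul_eq_zero.1 this).resolve_left hp.ne'
  have a1 : exS b 0 (sS _ * F) = 0 := by rw [a0] at h3; linarith
  simp [irr, a0, a1, h2]

omit c in
lemma R_eq (e : Ext) (a ξ : ℝ) (Ξ : SV e.b.m) : e.R a ξ Ξ =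
    gen e.bt ξ (pull e.ι (sS _ + Ξ)) - a • pull e.ι Ξ - (imS e.b ξ).En (sS _) (sS _ + Ξ) •
      ((1 / sech2 ξ) • (sS _ - tanh ξ • 1) - zl e.bt e.bt.g) := by
  rw [Ext.R, stS, alg, zl_apply]

lemma ex_d_pull (e : Ext) (ξ : ℝ) {F : SV e.b.m} (h : ∀ j, exS e.b ξ (dd j F) = 0) (j) :
    exS e.bt ξ (dd j (pull e.ι F)) = 0 := by
  simp [c.p_d, c.p_ex, h]

lemma irr_R (e : Ext) (a ξ : ℝ) (Ξ : SV e.b.m) (h : Irr e.b ξ Ξ) : Irr e.bt ξ (e.R a ξ Ξ) := by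
  obtain ⟨h1, h2, h3⟩ := h
  have hq : (imS e.bt ξ).En (sS _) (pull e.ι (sS _ + Ξ)) = (imS e.b ξ).En (sS _) (sS _ + Ξ) :=
    c.p_En e ξ (sS _) _
  have h0 : exS e.bt ξ (e.R a ξ Ξ) = 0 := by
    simp only [R_eq, map_sub, map_smul, ex_gen c, c.p_ex, h1, c.exs, c.ex1, ex_zl1 c, smul_eq_mul]
    ring
  refine ⟨h0, fun j => ?_, ?_⟩
  · have h4 : ∀ j, exS e.b ξ (dd j (sS _ + Ξ)) = 0 := fun j => by simp [c.ds, h2]
    simp only [R_eq, map_sub, map_smul, c.dgen, map_add (exS e.bt ξ), map_sum, ex_gen c,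
      ex_d_pull c e ξ h4, ex_d_pull c e ξ h2, c.psi_ex, hq, c.ds, c.done, d_zl c, c.ex1,
      smul_eq_mul, map_zero, mul_zero, Finset.sum_const_zero]
    ring
  · have h5 : exS e.bt ξ (sS _ * pull e.ι Ξ) = 0 := by
      rw [c.N, h1, mul_zero, sub_zero, ← c.p_ex, map_mul] at h3; exact h3
    have hp := (sech2_pos ξ).ne'
    rw [c.N, h0, R_eq]
    simp only [mul_sub, mul_smul_comm, map_sub, map_smul, c.l0, hq, h5, c.ss, mul_one, c.ex1,
      c.exs, ex_szl c, smul_eq_mul]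
    have : 1 / sech2 ξ * 1 - 1 / sech2 ξ * (tanh ξ * tanh ξ) = 1 := by
      field_simp; rw [p_eq c]
    linear_combination (-(imS e.b ξ).En (sS _) (sS _ + Ξ)) * this

lemma N_le (b : Bath) (ξ : ℝ) (F : SV b.m) : (imS b ξ).N F F ≤ exS b ξ (F * F) := by
  rw [c.N]; nlinarith [mul_self_nonneg (exS b ξ F)]

lemma En_g (b : Bath) (ξ : ℝ) {F G : SV b.m} (h : ∀ j, dd j F = b.g j • G) :
    (imS b ξ).En F F = exS b ξ (rsS b ξ F * rsS b ξ F) + b.g ⬝ᵥ b.A *ᵥ b.g * exS b ξ (G * G) := by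
  simp only [c.En, h, smul_mul_assoc, mul_smul_comm, map_smul, smul_eq_mul, dotProduct, mulVec,
    Finset.sum_mul, Finset.mul_sum]
  congr 1
  exact Finset.sum_congr rfl fun _ _ => Finset.sum_congr rfl fun _ _ => by ring

lemma R0 (e : Ext) : ∃ C, ∀ a ξ, Mf e.bt ξ 1 (e.R a ξ 0) ≤ C * sech2 ξ := by
  set g2 := e.bt.g ⬝ᵥ e.bt.g
  set gA := e.bt.g ⬝ᵥ e.bt.A *ᵥ e.bt.g
  have hg2 : 0 ≤ g2 := dotProduct_self_star_nonneg e.bt.g
  have hgA : 0 ≤ gA := e.bt.psd.dotProduct_mulVec_nonneg e.bt.g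
  refine ⟨2 * (2 + gA) + 4 * 2 + 4 * (2 * g2 + gA), fun a ξ => ?_⟩
  have ok := c.ok e.bt ξ
  have hp := sech2_pos ξ
  have hp1 := sech2_le ξ
  set q := (imS e.bt ξ).En (sS _) (sS _) with hq
  have hq0 : 0 ≤ q := ok.pE _
  have hq1 : q ≤ sech2 ξ := c.Es _ _
  have hq' : (imS e.b ξ).En (sS _) (sS _) = q := (c.p_En e ξ (sS _) (sS _)).symm
  have e1 : e.R a ξ 0 = rsS e.bt ξ (sS _) +
      ((-(q / sech2 ξ)) • (sS _ - tanh ξ • 1) + q • zl e.bt e.bt.g) := by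
    rw [R_eq, add_zero, map_zero, pull_s, gen_s c, hq']
    module
  have r0 : exS e.bt ξ (rsS e.bt ξ (sS _) * rsS e.bt ξ (sS _)) = q := by simp [hq, c.En, c.ds]
  have m1 : Mf e.bt ξ 1 (rsS e.bt ξ (sS _)) ≤ (2 + gA) * sech2 ξ := by
    have a1 := N_le c e.bt ξ (rsS e.bt ξ (sS _))
    have a2 := c.rs_le e.bt ξ (rsS e.bt ξ (sS _))
    have a3 := c.psi_le e.bt ξ (sS _)
    have a4 : ∀ j, dd j (rsS e.bt ξ (sS _)) = e.bt.g j • -psi e.bt ξ (sS _) := fun j => by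
      rw [c.drs, c.ds, map_zero]; module
    rw [Mf, En_g c _ _ a4, show -psi e.bt ξ (sS _) * -psi e.bt ξ (sS _) =
      psi e.bt ξ (sS _) * psi e.bt ξ (sS _) by ring]
    rw [r0] at a1 a2 a3
    nlinarith [mul_le_mul_of_nonneg_left (a3.trans hq1) hgA]
  have m2 : Mf e.bt ξ 1 ((-(q / sech2 ξ)) • (sS _ - tanh ξ • 1)) ≤ 2 * sech2 ξ := by
    have a1 : (q / sech2 ξ) ^ 2 ≤ 1 := pow_le_one₀ (by positivity) ((div_le_one hp).2 hq1)
    rw [mf_smul, Mf, neg_sq]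
    simp only [map_sub, map_smul, LinearMap.sub_apply, LinearMap.smul_apply, N_one c, En_one c,
      ok.sN 1, ok.sE 1, c.Ns, smul_eq_mul, mul_zero, sub_zero, ← hq]
    nlinarith
  have m3 : Mf e.bt ξ 1 (q • zl e.bt e.bt.g) ≤ (2 * g2 + gA) * sech2 ξ := by
    have a0 : exS e.bt ξ (zl e.bt e.bt.g * zl e.bt e.bt.g) = g2 := by
      simp [ex_zl c, d_zl c, c.ex1, g2, dotProduct]
    have a1 := N_le c e.bt ξ (zl e.bt e.bt.g)
    have a2 := c.rs_le e.bt ξ (zl e.bt e.bt.g)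
    have a3 : q ^ 2 ≤ sech2 ξ := by nlinarith
    have a4 : Mf e.bt ξ 1 (zl e.bt e.bt.g) ≤ 2 * g2 + gA := by
      rw [Mf, En_g c _ _ fun j => d_zl c _ j _, mul_one, c.ex1]
      linarith
    rw [mf_smul, mul_comm]
    exact mul_le_mul a4 a3 (sq_nonneg _) (by positivity)
  rw [e1]
  have s1 := mf_add ok one_pos.le (rsS e.bt ξ (sS _))
    ((-(q / sech2 ξ)) • (sS _ - tanh ξ • 1) + q • zl e.bt e.bt.g)
  have s2 := mf_add ok one_pos.le ((-(q / sech2 ξ)) • (sS _ - tanh ξ • 1)) (q • zl e.bt e.bt.g)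
  linarith

end cal

lemma s_mem (p : PolApi) (m D : ℕ) : sS m ∈ PolS m D := by simpa using p.s (p.one m D)

lemma irr_pol (p : PolApi) (b : Bath) (ξ : ℝ) (D : ℕ) (hD : 1 ≤ D) (F : SV b.m)
    (hF : F ∈ PolS b.m D) : irr b ξ F ∈ PolS b.m D := by
  rw [irr, alg]
  refine sub_mem (sub_mem hF (add_mem (Submodule.smul_mem _ _ (p.one _ _))
    (Submodule.smul_mem _ _ (s_mem p _ _)))) (sum_mem fun j _ => Submodule.smul_mem _ _ ?_)
  refine sub_mem (p.mono _ hD ?_) (Submodule.smul_mem _ _ (s_mem p _ _))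
  simpa using p.x j (p.one b.m 0)

theorem irrApi (c : Cal) (p : PolApi) : IrrApi :=
  ⟨irr_irr c, irr_fix c, irr_pol p, irr_R c, R0 c⟩

section ex
variable (c : Cal) {b : Bath} {l a ξ : ℝ} {D : ℕ} {φ : SV b.m} {u : Fin b.m → ℝ}
include c

/-- a priori bounds on a Galerkin solution -/
lemma gal_bd (p : PolApi) (ha : 0 ≤ a) (hl : a < l) (hC : Coer b l) (hφ : Gal b ξ (-a) D φ) :
    (imS b ξ).En (sS _) φ = sech2 ξ + a * (imS b ξ).N (sS _) φ ∧ 0 ≤ (imS b ξ).N (sS _) φ ∧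
      (imS b ξ).En φ φ ≤ 1 / (l - a) + a / (l - a) ^ 2 := by
  have ok := c.ok b ξ
  have h1 := hφ.2.2 _ (s_mem p _ _)
  have h2 := hφ.2.2 _ hφ.1
  have h3 := hC.2 ξ D φ hφ.1
  have h4 := ok.pN φ
  have h5 := ok.pN (sS _ - (l - a) • φ)
  have h0 : 0 < l - a := sub_pos.2 hl
  have hp := sech2_le ξ
  simp only [map_sub, map_smul, LinearMap.sub_apply, LinearMap.smul_apply, smul_eq_mul, c.Ns,
    ok.sN φ (sS _)] at h5
  rw [c.Ns, ok.sN φ, ok.sE φ] at h1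
  have h6 : (l - a) * (imS b ξ).N φ φ ≤ (imS b ξ).N (sS _) φ := by linarith
  have h7 : (imS b ξ).N (sS _) φ ≤ 1 / (l - a) := by
    rw [le_div_iff₀ h0]; nlinarith [mul_le_mul_of_nonneg_left h6 h0.le]
  have h8 : (imS b ξ).N φ φ ≤ 1 / (l - a) ^ 2 := by
    rw [sq, ← div_div, le_div_iff₀ h0]; linarith
  refine ⟨by linarith, (mul_nonneg h0.le h4).trans h6, ?_⟩
  have := mul_le_mul_of_nonneg_left h8 ha
  rw [mul_one_div] at this
  linarith

omit c in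
lemma decomp {γ : ℝ} (hd : ∀ j, exS b ξ (dd j φ) = γ * u j) :
    φ = irr b ξ φ + exS b 0 φ • 1 + cf b ξ φ • sS _ + γ • linS _ u ∧
      cf b ξ φ = exS b 0 (sS _ * φ) - γ * (u ⬝ᵥ b.g) := by
  have h1 : cf b ξ φ = exS b 0 (sS _ * φ) - γ * (u ⬝ᵥ b.g) := by
    simp only [cf, hd, dotProduct, Finset.mul_sum, mul_assoc]
  refine ⟨?_, h1⟩
  have h2 : (fun j => exS b ξ (dd j φ)) = γ • u := funext hd
  rw [irr_eq, h1, h2, map_smul, zl_eq]
  module

/-- the scalar identities -/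
lemma core (p : PolApi) (ha : 0 ≤ a) (hl : a < l) (hC : Coer b l) (hD : 1 ≤ D)
    (hφ : Gal b ξ (-a) D φ) (hd : ∀ j, exS b ξ (dd j φ) = (imS b ξ).En (sS _) φ * u j) :
    1 ≤ cf b ξ φ ∧ ∀ Ξ, Ξ = (cf b ξ φ)⁻¹ • irr b ξ φ →
      Mf b ξ 1 Ξ ≤ 2 * (1 + a) / (l - a) + 4 ∧ l * sech2 ξ ≤ (imS b ξ).En (sS _) (sS _ + Ξ) ∧
      (imS b ξ).En (sS _) Ξ ≤ 0 ∧
      cf b ξ φ * (imS b ξ).En (sS _) (sS _ + Ξ) = (imS b ξ).En (sS _) φ ∧
      (imS b ξ).En (sS _) φ = sech2 ξ * (1 + a * exS b 0 (sS _ * φ)) := by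
  have ok := c.ok b ξ
  obtain ⟨g1, g2, -⟩ := gal_bd c p ha hl hC hφ
  obtain ⟨d1, d2⟩ := decomp hd
  obtain ⟨i1, i2, i3⟩ := irr_irr c b ξ φ
  have hP := irr_pol p b ξ D hD φ hφ.1
  have hp := sech2_pos ξ
  have hp1 := sech2_le ξ
  have h0 : 0 < l - a := sub_pos.2 hl
  set γ := (imS b ξ).En (sS _) φ with hγ
  set ψ := irr b ξ φ
  set κ := cf b ξ φ
  have hγp : sech2 ξ ≤ γ := by nlinarith [mul_nonneg ha g2]
  have hs : ∀ j, exS b ξ (dd j (sS b.m)) = 0 := fun j => by rw [c.ds, map_zero]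
  have hlin : linS _ u = zl b u + (u ⬝ᵥ b.g) • sS _ := by rw [zl_eq, sub_add_cancel]
  have e1 : γ = (imS b ξ).En (sS _) ψ + κ * (imS b ξ).En (sS _) (sS _) := by
    have := congrArg ((imS b ξ).En (sS _)) d1
    simpa only [map_add, map_smul, En_one c, En_lin c b ξ u hs, smul_eq_mul, mul_zero,
      add_zero] using this
  have e2 : (imS b ξ).N (sS _) φ = sech2 ξ * exS b 0 (sS _ * φ) := by
    have := congrArg ((imS b ξ).N (sS _)) d1
    simp only [hlin, map_add, map_smul, N_one c, N_zl c, hs, i3, c.Ns, smul_eq_mul, mul_zero,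
      add_zero, zero_add, Finset.sum_const_zero] at this
    rw [this, d2]; ring
  have e3 : (imS b ξ).En ψ ψ - a * (imS b ξ).N ψ ψ + κ * (imS b ξ).En (sS _) ψ = 0 := by
    have h1 := hφ.2.2 _ hP
    have h2 := congrArg ((imS b ξ).N ψ) d1
    have h3 := congrArg ((imS b ξ).En ψ) d1
    simp only [hlin, map_add, map_smul, N_one c, N_zl c, i2, ok.sN ψ (sS _), i3, smul_eq_mul,
      mul_zero, add_zero, Finset.sum_const_zero] at h2
    simp only [map_add, map_smul, En_one c, En_lin c b ξ u i2, smul_eq_mul, mul_zero,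
      add_zero, ok.sE ψ (sS _)] at h3
    rw [ok.sN φ, ok.sE φ, h2, h3, i3] at h1
    linarith
  have hκ : κ ≠ 0 := fun h => by
    have h1 := hC.2 ξ D ψ hP
    have h2 := ok.pN ψ
    rw [h, zero_mul, add_zero] at e3 e1
    have h3 : (imS b ξ).N ψ ψ = 0 := by nlinarith
    rw [c.N, i1, mul_zero, sub_zero] at h3
    rw [c.defn b ξ ψ h3, map_zero] at e1
    linarith
  have key : ∀ Ξ, Ξ = κ⁻¹ • ψ → Mf b ξ 1 Ξ ≤ 2 * (1 + a) / (l - a) + 4 ∧
      l * sech2 ξ ≤ (imS b ξ).En (sS _) (sS _ + Ξ) ∧ (imS b ξ).En (sS _) Ξ ≤ 0 ∧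
      κ * (imS b ξ).En (sS _) (sS _ + Ξ) = γ ∧
      γ = sech2 ξ * (1 + a * exS b 0 (sS _ * φ)) := fun Ξ hΞ => by
    have hψ : ψ = κ • Ξ := by rw [hΞ, smul_smul, mul_inv_cancel₀ hκ, one_smul]
    have hΞP : Ξ ∈ PolS b.m D := hΞ ▸ Submodule.smul_mem _ _ hP
    have n0 : (imS b ξ).N (sS _) Ξ = 0 := by rw [hΞ, map_smul, i3, smul_zero]
    rw [hψ] at e1 e3
    simp only [map_smul, LinearMap.smul_apply, smul_eq_mul] at e1 e3
    have f1 : (imS b ξ).En Ξ Ξ - a * (imS b ξ).N Ξ Ξ + (imS b ξ).En (sS _) Ξ = 0 := by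
      refine mul_left_cancel₀ (mul_ne_zero hκ hκ) ?_
      linear_combination e3
    have f2 := hC.2 ξ D Ξ hΞP
    have f3 := hC.2 ξ D _ (add_mem (s_mem p _ _) hΞP)
    have f4 := ok.pN Ξ
    have f5 := c.Es b ξ
    have f6 := mul_nonneg h0.le f4
    simp only [map_add, LinearMap.add_apply, c.Ns, n0, ok.sN Ξ (sS _), ok.sE Ξ (sS _)] at f3 ⊢
    have f7 : 0 ≤ l * sech2 ξ := mul_nonneg (ha.trans hl.le) hp.le
    have f8 : (imS b ξ).N Ξ Ξ ≤ 1 / (l - a) := by rw [le_div_iff₀ h0]; nlinarith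
    refine ⟨?_, by nlinarith, by nlinarith, by linarith, by rw [g1, e2]; ring⟩
    have f9 := mul_le_mul_of_nonneg_left f8 (add_nonneg zero_le_one ha)
    have f10 : 0 ≤ (1 + a) * (1 / (l - a)) := by positivity
    have f11 : 2 * (1 + a) / (l - a) = 2 * ((1 + a) * (1 / (l - a))) := by ring
    rw [Mf, f11]
    nlinarith
  refine ⟨?_, key⟩
  obtain ⟨-, k1, k2, k3, -⟩ := key _ rfl
  have k4 : 0 < l * sech2 ξ := mul_pos (ha.trans_lt hl) hp
  have k5 := c.Es b ξ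
  rw [map_add] at k1 k3
  by_contra hlt
  nlinarith [mul_pos (sub_pos.2 (not_le.1 hlt)) (k4.trans_le k1)]

end ex

/-- the residual of the ansatz -/
lemma res_eq (c : Cal) (e : Ext) {a ξ γ κ q : ℝ} {φ Ξ : SV e.b.m} {u : Fin e.b.m → ℝ}
    {r1 r2 : SV e.bt.m} (hu : e.b.A *ᵥ u + (-a) • u = e.b.g) (h0 : exS e.b ξ φ = 0)
    (d1 : φ = κ • Ξ + exS e.b 0 φ • 1 + κ • sS _ + γ • linS _ u)
    (d2 : κ = exS e.b 0 (sS _ * φ) - γ * (u ⬝ᵥ e.b.g))
    (hq : q = (imS e.b ξ).En (sS _) (sS _ + Ξ)) (h1 : κ * q = γ)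
    (h2 : γ = sech2 ξ * (1 + a * exS e.b 0 (sS _ * φ)))
    (hr : (-a) • pull e.ι φ + gen e.bt ξ (pull e.ι φ) - stS _ ξ =
      r1 + (γ • linS _ (e.w u) + r2)) : κ • e.R a ξ Ξ = r1 + r2 := by
  have hp := (sech2_pos ξ).ne'
  rw [c.aff] at h0
  set α := exS e.b 0 φ
  set β := exS e.b 0 (sS _ * φ)
  have a1 : e.bt.A *ᵥ (e.ι *ᵥ u) = e.w u + e.bt.g + a • e.ι *ᵥ u := by
    rw [Ext.w, e.hg, ← hu, mulVec_add, mulVec_smul]; module
  have a2 : gen e.bt ξ (linS _ (e.ι *ᵥ u)) = linS _ (e.w u) + zl e.bt e.bt.g +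
      a • (linS _ (e.ι *ᵥ u) - (u ⬝ᵥ e.b.g) • sS _) := by
    rw [gen_lin c, a1, map_add, map_add, map_smul, zl_eq _ (e.w u), w_g, zero_smul, sub_zero,
      zl_eq _ (e.ι *ᵥ u), iso_g]
  have a3 : pull e.ι φ = κ • pull e.ι Ξ + α • 1 + κ • sS _ + γ • linS _ (e.ι *ᵥ u) := by
    have := congrArg (pull e.ι) d1
    simpa only [map_add, map_smul, map_one, pull_s, pull_lin c] using this
  have a4 : κ * q * (1 / sech2 ξ) = 1 + a * β := by rw [h1, h2]; field_simp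
  have a5 : α = -(tanh ξ * β) := by linarith
  have a6 : β = κ + γ * (u ⬝ᵥ e.b.g) := by linarith
  rw [a3, stS, alg] at hr
  simp only [map_add, map_smul, gen_one c, a2] at hr
  have a7 : r1 + r2 = (r1 + (γ • linS _ (e.w u) + r2)) - γ • linS _ (e.w u) := by abel
  rw [a7, ← hr, R_eq, ← hq, map_add, map_add, pull_s, smul_sub, smul_sub, smul_smul κ q, smul_sub,
    smul_smul (κ * q), a4, h1, a5, a6]
  module

theorem exStmt (c : Cal) (p : PolApi) (fx : FixStmt) (ga : GalStmt) : ExStmt := by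
  intro l a ε ha hl hε
  have h0 : 0 < l - a := sub_pos.2 hl
  set K := 1 + 1 / (l - a) with hK
  set K2 := 1 / (l - a) + a / (l - a) ^ 2 with hK2
  have hKp : 0 < K := by positivity
  have hK2p : 0 < K2 := by positivity
  refine ⟨ε / (4 * K * K2), by positivity, fun e hC hE => ?_⟩
  obtain ⟨C, hC0, hfx⟩ := fx e l a ha hl hC
  refine ⟨⌈4 * K * C / ε⌉₊ + 1, by omega, fun D hD a' ha' u hu ξ φ hφ => ?_⟩
  have hD1 : 1 ≤ D := by omega
  have hl' : a' < l := ha'.2.trans_lt hl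
  have h0' : 0 < l - a' := sub_pos.2 hl'
  have hla : l - a ≤ l - a' := by linarith [ha'.2]
  obtain ⟨hd, r1, r2, hr, m1, m2, -⟩ := hfx D hD1 ξ (-a') (neg_le_neg ha'.2) φ hφ _
    (fun y hy => hE y (by linarith)) u hu
  obtain ⟨k0, key⟩ := core c p ha'.1 hl' hC hD1 hφ hd
  refine ⟨k0, fun Ξ hΞ => ?_⟩
  obtain ⟨k1, k2, k3, k4, k5⟩ := key Ξ hΞ
  obtain ⟨d1, d2⟩ := decomp hd
  have hκ : cf e.b ξ φ ≠ 0 := (one_pos.trans_le k0).ne'
  have hp := sech2_pos ξ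
  refine ⟨?_, k1, k2, k3, ?_⟩
  · have hψ : irr e.b ξ φ = cf e.b ξ φ • Ξ := by
      rw [hΞ, smul_smul, mul_inv_cancel₀ hκ, one_smul]
    rw [hψ] at d1
    have ok := c.ok e.bt ξ
    have s0 := res_eq c e hu hφ.2.1 d1 d2 rfl k4 k5 hr
    have s1 := mf_add ok one_pos.le r1 r2
    have s2 : ∀ r, Mf e.bt ξ 1 r ≤ K * Mf e.bt ξ (-a' + l) r := fun r => by
      have n1 := ok.pN r
      have n2 := ok.pE r
      have n3 : 1 ≤ 1 / (l - a) * (-a' + l) := by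
        rw [one_div_mul_eq_div, one_le_div h0]; linarith
      have n4 : 0 < 1 / (l - a) := by positivity
      have n5 : 0 ≤ (-a' + l) * (imS e.bt ξ).N r r := mul_nonneg (by linarith) n1
      rw [Mf, Mf, hK]
      nlinarith [mul_le_mul_of_nonneg_right n3 n1, mul_nonneg n4.le n2]
    have s3 : (imS e.b ξ).En φ φ ≤ K2 := (gal_bd c p ha'.1 hl' hC hφ).2.2.trans (by
      rw [hK2]; gcongr; exact ha'.2)
    have s4 : K * Mf e.bt ξ (-a' + l) r1 ≤ ε / 4 := by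
      have hD0 : (0 : ℝ) < D := by exact_mod_cast hD1
      have n1 : 4 * K * C / ε ≤ D := (Nat.le_ceil _).trans (by exact_mod_cast (by omega))
      rw [div_le_iff₀ hε] at n1
      refine (mul_le_mul_of_nonneg_left m1 hKp.le).trans ?_
      rw [← mul_div_assoc, div_le_iff₀ hD0]
      linarith
    have s5 : K * Mf e.bt ξ (-a' + l) r2 ≤ ε / 4 := by
      refine (mul_le_mul_of_nonneg_left (m2.trans (mul_le_mul_of_nonneg_right s3
        (by positivity))) hKp.le).trans (le_of_eq ?_)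
      field_simp
    have s6 : 0 ≤ Mf e.bt ξ 1 (e.R a' ξ Ξ) := add_nonneg (mul_nonneg one_pos.le (ok.pN _)) (ok.pE _)
    rw [← s0, mf_smul] at s1
    nlinarith [s2 r1, s2 r2, mul_le_mul_of_nonneg_right (one_le_pow₀ k0 (n := 2)) s6]
  · have g1 := ((ga e.b l hC D (-a') (by linarith)).2 ξ φ hφ).1
    rw [neg_neg] at g1
    have g2 : e.b.g ⬝ᵥ e.b.A *ᵥ u = e.b.g ⬝ᵥ e.b.g + a' * (u ⬝ᵥ e.b.g) := by
      have : e.b.A *ᵥ u = e.b.g + a' • u := by rw [← hu]; module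
      rw [this, dotProduct_add, dotProduct_smul, smul_eq_mul, dotProduct_comm e.b.g u]
    have hq : 0 < (imS e.b ξ).En (sS _) (sS _ + Ξ) := (mul_pos (ha.trans_lt hl) hp).trans_le k2
    have hγ : 0 < (imS e.b ξ).En (sS _) φ := k4 ▸ mul_pos (one_pos.trans_le k0) hq
    rw [g1, g2]
    have g3 : exS e.b 0 (sS _ * φ) = cf e.b ξ φ + (imS e.b ξ).En (sS _) φ * (u ⬝ᵥ e.b.g) := by
      linarith
    rw [g3] at k5
    set γ := (imS e.b ξ).En (sS _) φ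
    set q := (imS e.b ξ).En (sS _) (sS _ + Ξ)
    have g4 : a' / q = a' * cf e.b ξ φ / γ := by rw [← k4]; field_simp
    have g5 : 1 / sech2 ξ = (1 + a' * (cf e.b ξ φ + γ * (u ⬝ᵥ e.b.g))) / γ := by
      rw [div_eq_div_iff hp.ne' hγ.ne']; linarith
    rw [g4, g5]
    field_simp
    ring

end Ex49

theorem exGlue : ExGlue := fun c p fx ga => ⟨Ex49.irrApi c p, Ex49.exStmt c p fx ga⟩

end Crest.Agent.T157.Tw

end
end

-- ▼ part T157/LcOut_2
section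

/-!
# Row 157, block B/S4c (helper2): the polynomial local ansatz, `Tw.outGlue`
-/

set_option autoImplicit false

noncomputable section

namespace Crest.Agent.T157.Tw

open MeasureTheory Real Matrix Set Filter Topology
open Crest.Agent.R238.Gap Crest.Agent.R253.Meh74

namespace Out2

/-! ### non-negative bilinear forms -/

section form
variable {V : Type} [AddCommGroup V] [Module ℝ V] {B : V →ₗ[ℝ] V →ₗ[ℝ] ℝ}

lemma b_add (hp : ∀ u, 0 ≤ B u u) (u v : V) : B (u + v) (u + v) ≤ 2 * B u u + 2 * B v v := by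
  have := hp (u - v)
  simp only [map_add, map_sub, LinearMap.add_apply, LinearMap.sub_apply] at *
  linarith

lemma b_sub (hp : ∀ u, 0 ≤ B u u) (u v : V) : B (u - v) (u - v) ≤ 2 * B u u + 2 * B v v := by
  have := hp (u + v)
  simp only [map_add, map_sub, LinearMap.add_apply, LinearMap.sub_apply] at *
  linarith

lemma b_smul (t : ℝ) (u : V) : B (t • u) (t • u) = t ^ 2 * B u u := by
  simp only [map_smul, LinearMap.smul_apply, smul_eq_mul]; ring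

lemma b_conv (hp : ∀ u, 0 ≤ B u u) {t : ℝ} (h0 : 0 ≤ t) (h1 : t ≤ 1) (u v : V) :
    B (t • u + (1 - t) • v) (t • u + (1 - t) • v) ≤ t * B u u + (1 - t) * B v v := by
  have := mul_nonneg (mul_nonneg h0 (sub_nonneg.2 h1)) (hp (u - v))
  simp only [map_add, map_sub, map_smul, LinearMap.add_apply, LinearMap.sub_apply,
    LinearMap.smul_apply, smul_eq_mul] at *
  nlinarith

lemma b_cs (hp : ∀ u, 0 ≤ B u u) (hs : ∀ u v, B u v = B v u) (u v : V) :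
    B u v ^ 2 ≤ B u u * B v v := by
  have := LinearMap.BilinForm.apply_mul_apply_le_of_forall_zero_le B hp u v
  rwa [hs v u, ← sq] at this

end form

/-! ### elementary facts -/

lemma sech2_pos (ξ : ℝ) : 0 < sech2 ξ := by unfold sech2; have := cosh_pos ξ; positivity

lemma sech2_eq (ξ : ℝ) : sech2 ξ = 1 - tanh ξ ^ 2 := by
  have h := (cosh_pos ξ).ne'
  rw [sech2, tanh_eq_sinh_div_cosh]; field_simp; rw [cosh_sq]; ring

lemma sech2_le (ξ : ℝ) : sech2 ξ ≤ 1 := by rw [sech2_eq]; nlinarith [sq_nonneg (tanh ξ)]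

lemma sech2_neg (ξ : ℝ) : sech2 (-ξ) = sech2 ξ := by simp [sech2]

lemma sech2_cont : Continuous sech2 := by
  rw [show sech2 = fun ξ => 1 - tanh ξ ^ 2 from funext sech2_eq]
  exact continuous_const.sub (contDiff_tanh'.continuous.pow 2)

lemma abs_sech2 (ξ : ℝ) : |ξ| * sech2 ξ ≤ 1 := by
  have h1 : |ξ| ≤ cosh ξ := by
    rw [← cosh_abs]; exact (self_le_sinh_iff.2 (abs_nonneg ξ)).trans (sinh_lt_cosh _).le
  have h2 := one_le_cosh ξ
  rw [sech2, mul_one_div, div_le_one (by positivity)]; nlinarith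

lemma small (K : ℝ) {x : ℝ} (hx : 0 < x) : ∀ᶠ η in 𝓝[>] (0 : ℝ), η * K ≤ x := by
  have : Tendsto (fun η : ℝ => η * K) (𝓝 0) (𝓝 (0 * K)) :=
    (continuous_id.mul continuous_const).tendsto 0
  exact (this.eventually (eventually_le_nhds (by simpa using hx))).filter_mono nhdsWithin_le_nhds


/-! ### irreducible polynomials -/

def irrL (b : Bath) (ξ : ℝ) : SV b.m →ₗ[ℝ] SV b.m where
  toFun := irr b ξ
  map_add' F G := by
    simp only [irr, mul_add, map_add, add_smul, Finset.sum_add_distrib]; abel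
  map_smul' r F := by
    simp only [irr, mul_smul_comm, map_smul, smul_eq_mul, RingHom.id_apply, mul_smul,
      ← Finset.smul_sum, Algebra.algebraMap_eq_smul_one]
    module

def IS (b : Bath) (D : ℕ) (ξ : ℝ) : Submodule ℝ (SV b.m) where
  carrier := {F | F ∈ PolS b.m D ∧ Irr b ξ F}
  add_mem' hF hG := ⟨add_mem hF.1 hG.1, by simp [hF.2.1, hG.2.1],
    fun j => by simp [hF.2.2.1 j, hG.2.2.1 j], by simp [hF.2.2.2, hG.2.2.2]⟩
  zero_mem' := ⟨zero_mem _, by simp, fun j => by simp, by simp⟩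
  smul_mem' r F hF := ⟨Submodule.smul_mem _ r hF.1, by simp [hF.2.1],
    fun j => by simp [hF.2.2.1 j], by simp [hF.2.2.2]⟩

lemma ex_cont (c : Cal) (b : Bath) (F : SV b.m) : Continuous fun ξ => exS b ξ F := by
  rw [show (fun ξ => exS b ξ F) = _ from funext fun ξ => c.aff b ξ F]
  exact continuous_const.add (contDiff_tanh'.continuous.mul continuous_const)

lemma poly_mem (m : ℕ) (p : Polynomial ℝ) :
    (fun ξ => algebraMap ℝ (SV m) (p.eval (tanh ξ))) ∈ N0 m := by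
  have ht : (fun ξ => algebraMap ℝ (SV m) (tanh ξ)) ∈ N0 m :=
    Algebra.subset_adjoin (Or.inl (Or.inl rfl))
  induction p using Polynomial.induction_on' with
  | add p q hp hq => convert add_mem hp hq using 1; funext ξ; simp
  | monomial n a =>
    convert Subalgebra.smul_mem _ (pow_mem ht n) a using 1; funext ξ; simp [Algebra.smul_def]

lemma irr_mem (f : FamApi) (b : Bath) {D : ℕ} {P : SV b.m} (hP : P ∈ PolS b.m D) :
    (fun ξ => irr b ξ P) ∈ N0 b.m := by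
  have hs : (fun _ => sS b.m) ∈ N0 b.m := Algebra.subset_adjoin (Or.inl (Or.inr rfl))
  have hx : ∀ j, (fun _ => xS j) ∈ N0 b.m := fun j => Algebra.subset_adjoin (Or.inr ⟨j, rfl⟩)
  convert sub_mem (sub_mem (f.cst hP) (add_mem (Subalgebra.algebraMap_mem _ (exS b 0 P))
    (Subalgebra.smul_mem _ hs (exS b 0 (sS _ * P))))) (sum_mem (t := Finset.univ) fun j _ =>
      mul_mem (f.ex0 b _ (f.d0 j _ (f.cst hP)))
        (sub_mem (hx j) (Subalgebra.smul_mem _ hs (b.g j)))) using 1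
  funext ξ
  simp [irr, zS, Algebra.smul_def]

/-- Weierstrass approximation of a compactly supported combination -/
lemma approx (f : FamApi) (w : WsStmt) (b : Bath) {n : ℕ} (Q : Fin n → ℝ → SV b.m)
    (hQ : ∀ i, Q i ∈ N0 b.m) (S : ℝ → Submodule ℝ (SV b.m)) (hS : ∀ i ξ, Q i ξ ∈ S ξ)
    (d : Fin n → ℝ → ℝ) (hd : ∀ i, Continuous (d i) ∧ HasCompactSupport (d i)) {η : ℝ}
    (hη : 0 < η) : ∃ V ∈ N0 b.m, ∀ ξ, V ξ ∈ S ξ ∧
      (imS b ξ).N (V ξ - ∑ i, d i ξ • Q i ξ) (V ξ - ∑ i, d i ξ • Q i ξ) ≤ η * sech2 ξ ^ 2 := by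
  choose M hM using fun i j => (f.N b _ (f.le b (hQ i)) _ (f.le b (hQ j))).2.2
  obtain ⟨t, ⟨h1, h2⟩, h0⟩ := (((small (∑ i, ∑ j, M i j) hη).and (small 1 one_pos)).and
    self_mem_nhdsWithin).exists
  have h0 : 0 < t := h0
  choose p hp using fun i => w (fun ξ => d i ξ * (sech2 ξ)⁻¹)
    ((hd i).1.mul (sech2_cont.inv₀ fun ξ => (sech2_pos ξ).ne')) (hd i).2.mul_right t h0
  refine ⟨fun ξ => ∑ i, (sech2 ξ * (p i).eval (tanh ξ)) • Q i ξ, ?_,
    fun ξ => ⟨sum_mem fun i _ => Submodule.smul_mem _ _ (hS i ξ), ?_⟩⟩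
  · convert sum_mem (t := Finset.univ) fun i _ =>
      mul_mem (poly_mem b.m ((1 - Polynomial.X ^ 2) * p i)) (hQ i) using 1
    funext ξ
    simp [sech2_eq, Algebra.smul_def]
  · have hp0 := sech2_pos ξ
    have he : ∀ i, |sech2 ξ * (p i).eval (tanh ξ) - d i ξ| ≤ t * sech2 ξ := fun i => by
      have : sech2 ξ * (p i).eval (tanh ξ) - d i ξ =
          -(d i ξ * (sech2 ξ)⁻¹ - (p i).eval (tanh ξ)) * sech2 ξ := by field_simp; ring
      rw [this, abs_mul, abs_neg, abs_of_pos hp0]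
      exact mul_le_mul_of_nonneg_right (hp i ξ) hp0.le
    have hM0 : ∀ i j, 0 ≤ M i j := fun i j => (abs_nonneg _).trans (hM i j 0)
    rw [← Finset.sum_sub_distrib]
    simp only [← sub_smul, map_sum, map_smul, LinearMap.sum_apply, LinearMap.smul_apply,
      smul_eq_mul]
    calc _ ≤ ∑ i, t * sech2 ξ * ∑ j, t * sech2 ξ * M j i := by
          refine Finset.sum_le_sum fun i _ => (le_abs_self _).trans ?_
          rw [abs_mul]
          refine mul_le_mul (he i) ((Finset.abs_sum_le_sum_abs _ _).trans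
            (Finset.sum_le_sum fun j _ => ?_)) (abs_nonneg _) (by positivity)
          rw [abs_mul]
          exact mul_le_mul (he j) (hM j i ξ) (abs_nonneg _) (by positivity)
      _ = t * (t * ∑ i, ∑ j, M i j) * sech2 ξ ^ 2 := by
          rw [Finset.sum_comm]; simp only [← Finset.mul_sum]; ring
      _ ≤ η * sech2 ξ ^ 2 := by
          refine mul_le_mul_of_nonneg_right ?_ (sq_nonneg _)
          have : 0 ≤ t * ∑ i, ∑ j, M i j :=
            mul_nonneg h0.le (Finset.sum_nonneg fun i _ => Finset.sum_nonneg fun j _ => hM0 i j)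
          nlinarith

/-! ### the reflection `(ξ, s, X) ↦ (-ξ, -s, -X)` -/

structure Rf (b : Bath) (ρ : SV b.m →ₐ[ℝ] SV b.m) : Prop where
  pt : ∀ F s X, (ρ F).1 s X = F.1 (!s) (-X)
  pol : ∀ D, ∀ F ∈ PolS b.m D, ρ F ∈ PolS b.m D
  n0 : ∀ F ∈ N0 b.m, (fun ξ => ρ (F (-ξ))) ∈ N0 b.m
  ex : ∀ ξ F, exS b ξ (ρ F) = exS b (-ξ) F
  N : ∀ ξ F G, (imS b ξ).N (ρ F) (ρ G) = (imS b (-ξ)).N F G
  En : ∀ ξ F G, (imS b ξ).En (ρ F) (ρ G) = (imS b (-ξ)).En F G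

lemma ex_rf (f : FamApi) (b : Bath) : ∃ ρ, Rf b ρ := by
  obtain ⟨ρ, h1, h2, h3, h4⟩ := f.refl b.m
  refine ⟨ρ, h1, h2, h3, fun ξ F => ?_, fun ξ F G => ?_, fun ξ F G => ?_⟩
  · simpa using (h4 b.A b.g b.psd (-ξ) F F).1
  · simpa using (h4 b.A b.g b.psd (-ξ) F G).2.1
  · simpa using (h4 b.A b.g b.psd (-ξ) F G).2.2

section rf
variable {b : Bath} {ρ : SV b.m →ₐ[ℝ] SV b.m} (h : Rf b ρ)
include h

lemma Rf.inv (F : SV b.m) : ρ (ρ F) = F := Subtype.ext <| funext fun s => funext fun X => by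
  simp [h.pt]

lemma Rf.s : ρ (sS _) = -sS _ := Subtype.ext <| funext fun s => funext fun X => by
  rw [h.pt]; cases s <;> simp [sS, sg]

lemma Rf.z (j : Fin b.m) : ρ (zS b j) = -zS b j := by
  have : ρ (xS j) = -xS j := Subtype.ext <| funext fun s => funext fun X => by
    rw [h.pt]; simp [xS]
  rw [zS, map_sub, map_smul, this, h.s]; module

lemma Rf.d (c : Cal) (ξ : ℝ) (j : Fin b.m) (F : SV b.m) :
    exS b ξ (dd j (ρ F)) = -exS b (-ξ) (dd j F) := by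
  rw [← c.stein, ← c.stein, ← h.ex, map_mul ρ, h.z, ← map_neg]; congr 1; ring

lemma Rf.sx (F : SV b.m) : exS b 0 (sS _ * ρ F) = -exS b 0 (sS _ * F) := by
  have := h.ex 0 (sS _ * F)
  rw [neg_zero, map_mul ρ, h.s] at this
  rw [← this, ← map_neg]; congr 1; ring

lemma Rf.irr (c : Cal) (ξ : ℝ) (F : SV b.m) : irr b ξ (ρ F) = ρ (irr b (-ξ) F) := by
  simp only [Tw.irr, map_sub, map_add, map_smul, map_sum, h.d c, h.sx, h.ex, neg_zero, h.s, h.z,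
    AlgHom.commutes, smul_neg, neg_smul]

lemma Rf.cf (c : Cal) (ξ : ℝ) (F : SV b.m) : cf b ξ (-ρ F) = cf b (-ξ) F := by
  have : sS _ * -ρ F = -(sS _ * ρ F) := by ring
  simp only [Tw.cf, this, map_neg, h.d c, h.sx, neg_neg]

lemma Rf.Ns (ξ : ℝ) (F : SV b.m) : (imS b ξ).N (sS _) (ρ F) = -(imS b (-ξ)).N (sS _) F := by
  rw [← h.N, h.s]; simp

lemma Rf.is (c : Cal) {D : ℕ} {ξ : ℝ} {F : SV b.m} (hF : F ∈ IS b D (-ξ)) : ρ F ∈ IS b D ξ :=
  ⟨h.pol _ _ hF.1, by rw [h.ex, hF.2.1], fun j => by rw [h.d c, hF.2.2.1, neg_zero],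
    by rw [h.Ns, hF.2.2.2, neg_zero]⟩

lemma Rf.gal {D : ℕ} {ξ y : ℝ} {φ : SV b.m} (hφ : Gal b (-ξ) y D φ) : Gal b ξ y D (-ρ φ) := by
  refine ⟨neg_mem (h.pol _ _ hφ.1), by rw [map_neg, h.ex, hφ.2.1, neg_zero], fun P hP => ?_⟩
  have := hφ.2.2 _ (h.pol _ _ hP)
  rw [← h.inv P, h.Ns]
  simp only [map_neg, LinearMap.neg_apply, h.N, h.En]
  linarith

/-- the odd part is as close to an odd family -/
lemma Rf.odd (c : Cal) {D : ℕ} {V T : ℝ → SV b.m} {η : ℝ} (hV : V ∈ N0 b.m)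
    (hT : ∀ ξ, T ξ = -ρ (T (-ξ)))
    (H : ∀ ξ, V ξ ∈ IS b D ξ ∧ (imS b ξ).N (V ξ - T ξ) (V ξ - T ξ) ≤ η * sech2 ξ ^ 2) :
    ∃ Ξ ∈ N0 b.m, OddF Ξ ∧
      ∀ ξ, Ξ ξ ∈ IS b D ξ ∧ (imS b ξ).N (Ξ ξ - T ξ) (Ξ ξ - T ξ) ≤ η * sech2 ξ ^ 2 := by
  refine ⟨fun ξ => (1 / 2 : ℝ) • (V ξ - ρ (V (-ξ))),
    Subalgebra.smul_mem _ (sub_mem hV (h.n0 V hV)) _, fun ξ s X => ?_,
    fun ξ => ⟨Submodule.smul_mem _ _ (sub_mem (H ξ).1 (h.is c (H _).1)), ?_⟩⟩
  · simp [h.pt]; ring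
  · have e : (1 / 2 : ℝ) • (V ξ - ρ (V (-ξ))) - T ξ =
        (1 / 2 : ℝ) • ((V ξ - T ξ) - ρ (V (-ξ) - T (-ξ))) := by
      have := hT ξ
      rw [map_sub, ← neg_eq_iff_eq_neg.2 this]; module
    have h1 := b_sub (c.ok b ξ).pN (V ξ - T ξ) (ρ (V (-ξ) - T (-ξ)))
    have h2 := (H (-ξ)).2
    rw [h.N] at h1
    rw [sech2_neg] at h2
    rw [e, b_smul]
    linarith [(H ξ).2]

end rf

lemma gal_uniq (c : Cal) {b : Bath} {l ξ y : ℝ} {D : ℕ} (hC : Coer b l) (hy : -l < y)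
    {φ ψ : SV b.m} (hφ : Gal b ξ y D φ) (hψ : Gal b ξ y D ψ) : φ = ψ := by
  have hP := sub_mem hφ.1 hψ.1
  have h1 := hφ.2.2 _ hP
  have h2 := hψ.2.2 _ hP
  have h3 := hC.2 ξ D _ hP
  have h4 := (c.ok b ξ).pN (φ - ψ)
  have h5 : y * (imS b ξ).N (φ - ψ) (φ - ψ) + (imS b ξ).En (φ - ψ) (φ - ψ) = 0 := by
    rw [LinearMap.map_sub₂, LinearMap.map_sub₂]; linarith
  have h6 : (imS b ξ).N (φ - ψ) (φ - ψ) = 0 := by nlinarith
  rw [c.N, map_sub _ φ, hφ.2.1, hψ.2.1] at h6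
  exact sub_eq_zero.1 (c.defn b ξ _ (by linarith))

/-! ### the estimate at a fixed static field -/

/-- `Mf 1` as a bilinear form -/
def MB (b : Bath) (ξ : ℝ) : SV b.m →ₗ[ℝ] SV b.m →ₗ[ℝ] ℝ := (imS b ξ).N + (imS b ξ).En

lemma Mf_eq (b : Bath) (ξ : ℝ) (F : SV b.m) : Mf b ξ 1 F = MB b ξ F F := by simp [Mf, MB]

lemma MB_nn (c : Cal) (b : Bath) (ξ : ℝ) (F : SV b.m) : 0 ≤ MB b ξ F F :=
  add_nonneg ((c.ok b ξ).pN F) ((c.ok b ξ).pE F)

lemma res_le (c : Cal) (e : Ext) {D : ℕ} {l a ε C C0 η χ ξ : ℝ} {X δ : SV e.b.m} (hl : 0 < l)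
    (hC : 0 ≤ C) (hη : 0 ≤ η) (h0 : 0 ≤ χ) (h1 : χ ≤ 1)
    (hB : ∀ F ∈ PolS e.b.m D, (imS e.b ξ).En F F ≤ C * (imS e.b ξ).N F F ∧
      Mf e.bt ξ 1 (gen e.bt ξ (pull e.ι F)) ≤ C * (imS e.b ξ).N F F)
    (hs : sS _ ∈ PolS e.b.m D) (hδ : δ ∈ PolS e.b.m D) (hN : (imS e.b ξ).N δ δ ≤ η)
    (hq : l * sech2 ξ ≤ (imS e.b ξ).En (sS _) (sS _))
    (hR0 : Mf e.bt ξ 1 (e.R a ξ 0) ≤ C0 * sech2 ξ) (hχ : (1 - χ) * (C0 * sech2 ξ) ≤ ε / 8)
    (hX : Mf e.bt ξ 1 (e.R a ξ X) ≤ ε / 8)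
    (hK : η * (2 * C + 4 * a ^ 2 * (1 + C) + 8 * C * (C + C0) / l) ≤ ε / 4) :
    Mf e.bt ξ 1 (e.R a ξ (χ • X + δ)) ≤ ε := by
  have hp := sech2_pos ξ
  have nn := MB_nn c e.bt ξ
  obtain ⟨W, hW⟩ : ∃ W, W = (1 / sech2 ξ) • stS _ ξ - ∑ j, e.bt.g j • zS e.bt j := ⟨_, rfl⟩
  have e1 : e.R a ξ (χ • X + δ) = (χ • e.R a ξ X + (1 - χ) • e.R a ξ 0) +
      (gen e.bt ξ (pull e.ι δ) - (a • pull e.ι δ + (imS e.b ξ).En (sS _) δ • W)) := by
    simp only [Ext.R, ← hW, map_add, map_smul, map_zero, smul_eq_mul]; module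
  have e2 : (imS e.b ξ).En (sS _) (sS _) • W = gen e.bt ξ (pull e.ι (sS _)) - e.R a ξ 0 := by
    simp only [Ext.R, ← hW, add_zero, map_zero]; module
  have b1 := b_conv nn h0 h1 (e.R a ξ X) (e.R a ξ 0)
  have b2 := b_sub nn (gen e.bt ξ (pull e.ι (sS _))) (e.R a ξ 0)
  have b3 := (hB _ hs).2
  have b4 := (hB _ hδ).2
  have b5 := (hB _ hδ).1.trans (mul_le_mul_of_nonneg_left hN hC)
  have b6 : MB e.bt ξ (pull e.ι δ) (pull e.ι δ) ≤ (1 + C) * η := by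
    simp only [MB, LinearMap.add_apply, c.p_N, c.p_En]; linarith
  have b7 := b_cs (c.ok e.b ξ).pE (c.ok e.b ξ).sE (sS _) δ
  have b8 := b_add nn (a • pull e.ι δ) ((imS e.b ξ).En (sS _) δ • W)
  have b9 := b_sub nn (gen e.bt ξ (pull e.ι δ)) (a • pull e.ι δ + (imS e.b ξ).En (sS _) δ • W)
  rw [← e2, b_smul] at b2
  rw [b_smul, b_smul] at b8
  rw [c.Ns] at b3
  rw [Mf_eq] at *
  rw [e1]
  refine (b_add nn _ _).trans ?_
  have nW := nn W
  have nR := nn (e.R a ξ X)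
  have nE := (c.ok e.b ξ).pE δ
  generalize MB e.bt ξ W W = w at *
  generalize (imS e.b ξ).En (sS _) (sS _) = q at *
  have hq0 : 0 < q := (mul_pos hl hp).trans_le hq
  have c1 : q * w ≤ 2 * (C + C0) / l := by
    rw [le_div_iff₀ hl]
    refine le_of_mul_le_mul_right ?_ hp
    have := mul_le_mul_of_nonneg_left hq (mul_nonneg hq0.le nW)
    nlinarith
  have c2 : (imS e.b ξ).En (sS _) δ ^ 2 * w ≤ C * η * (2 * (C + C0) / l) :=
    calc _ ≤ q * (imS e.b ξ).En δ δ * w := mul_le_mul_of_nonneg_right b7 nW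
      _ = (imS e.b ξ).En δ δ * (q * w) := by ring
      _ ≤ _ := mul_le_mul b5 c1 (mul_nonneg hq0.le nW) (mul_nonneg hC hη)
  have c3 := mul_le_mul_of_nonneg_left b6 (sq_nonneg a)
  have c4 := mul_le_mul_of_nonneg_left hN hC
  have c5 := mul_le_mul_of_nonneg_left hR0 (sub_nonneg.2 h1)
  have c6 := mul_le_mul_of_nonneg_right h1 nR
  have c7 : η * (2 * C + 4 * a ^ 2 * (1 + C) + 8 * C * (C + C0) / l) =
      2 * (C * η) + 4 * (a ^ 2 * ((1 + C) * η)) + 4 * (C * η * (2 * (C + C0) / l)) := by ring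
  linarith

lemma last_le {l a a' G ε κ p γ q q' : ℝ} (hl : 0 < l) (hp : 0 < p) (h0 : 0 ≤ a') (ha : a' ≤ a)
    (hG : 0 ≤ G) (hε : 0 < ε) (hκ : 0 ≤ κ) (hκ1 : κ * 2 ≤ l) (hκ2 : κ * (2 * a * (1 + a * G)) ≤ ε * l ^ 2)
    (h1 : p ≤ γ) (h2 : γ ≤ p * (1 + a' * G)) (hq : l * p ≤ q) (hq' : q - κ * p ≤ q') :
    a' / q' - a' / q ≤ ε / γ := by
  have hγ : 0 < γ := hp.trans_le h1
  have h3 : l * p / 2 ≤ q - κ * p := by nlinarith
  have h4 : 0 < q - κ * p := lt_of_lt_of_le (by positivity) h3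
  have h5 : 0 < q := lt_of_lt_of_le (by positivity) hq
  have h6 : a' / q' ≤ a' / (q - κ * p) := div_le_div_of_nonneg_left h0 h4 hq'
  have h7 : a' / (q - κ * p) - a' / q = a' * (κ * p) / ((q - κ * p) * q) := by field_simp; ring
  have h8 : a' * (κ * p) / ((q - κ * p) * q) ≤ a * (κ * p) / (l * p / 2 * (l * p)) := by
    have : 0 ≤ a := h0.trans ha
    gcongr
  have h9 : ε / (p * (1 + a * G)) ≤ ε / γ :=
    div_le_div_of_nonneg_left hε.le hγ (h2.trans (by gcongr))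
  have h10 : a * (κ * p) / (l * p / 2 * (l * p)) ≤ ε / (p * (1 + a * G)) := by
    have : 0 ≤ a := h0.trans ha
    rw [div_le_div_iff₀ (by positivity) (by positivity)]
    have := mul_le_mul_of_nonneg_right hκ2 (by positivity : 0 ≤ p ^ 2 / 2)
    nlinarith
  linarith

lemma point (c : Cal) (e : Ext) {D : ℕ} {l a a' G ε C C0 η κ χ ξ γ B : ℝ} {X Y : SV e.b.m}
    (hl : 0 < l) (h0 : 0 ≤ a') (ha : a' ≤ a) (hal : a < l) (hG : 0 ≤ G) (hε : 0 < ε)
    (hC0 : 0 ≤ C) (e0 : 0 ≤ η) (k0 : 0 ≤ κ) (c0 : 0 ≤ χ) (c1 : χ ≤ 1)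
    (hB : ∀ F ∈ PolS e.b.m D, (imS e.b ξ).En F F ≤ C * (imS e.b ξ).N F F ∧
      Mf e.bt ξ 1 (gen e.bt ξ (pull e.ι F)) ≤ C * (imS e.b ξ).N F F)
    (hs : sS _ ∈ PolS e.b.m D) (hX : X ∈ PolS e.b.m D) (hY : Y ∈ PolS e.b.m D)
    (hN : (imS e.b ξ).N (Y - χ • X) (Y - χ • X) ≤ η * sech2 ξ ^ 2)
    (hq : l * sech2 ξ ≤ (imS e.b ξ).En (sS _) (sS _))
    (hR0 : Mf e.bt ξ 1 (e.R a' ξ 0) ≤ C0 * sech2 ξ) (c2 : (1 - χ) * (C0 * sech2 ξ) ≤ ε / 8)
    (k1 : κ * 2 ≤ l) (k2 : κ * (2 * a * (1 + a * G)) ≤ ε * l ^ 2) (e1 : η * C ≤ κ ^ 2)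
    (e2 : η * ((1 + C) * l) ≤ 2)
    (e3 : η * (2 * C + 4 * a' ^ 2 * (1 + C) + 8 * C * (C + C0) / l) ≤ ε / 4)
    (g1 : sech2 ξ ≤ γ) (g2 : γ ≤ sech2 ξ * (1 + a' * G))
    (x1 : Mf e.bt ξ 1 (e.R a' ξ X) ≤ ε / 8) (x2 : Mf e.b ξ 1 X ≤ 2 * (1 + a') / (l - a') + 4)
    (x3 : l * sech2 ξ ≤ (imS e.b ξ).En (sS _) (sS _ + X)) (x4 : (imS e.b ξ).En (sS _) X ≤ 0)
    (x5 : 1 / γ + B = 1 / sech2 ξ + e.b.g ⬝ᵥ e.b.g - a' / (imS e.b ξ).En (sS _) (sS _ + X)) :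
    Mf e.bt ξ 1 (e.R a' ξ Y) ≤ ε ∧ Mf e.b ξ 1 Y ≤ 8 * (1 + a') / (l - a') + 8 ∧
      l * sech2 ξ / 2 ≤ (imS e.b ξ).En (sS _) (sS _ + Y) ∧
      (imS e.b ξ).En (sS _) (sS _ + Y) ≤ 2 * sech2 ξ ∧ (1 - ε) / γ + B ≤
        1 / sech2 ξ + e.b.g ⬝ᵥ e.b.g - a' / (imS e.b ξ).En (sS _) (sS _ + Y) := by
  obtain ⟨δ, rfl⟩ : ∃ δ, Y = χ • X + δ := ⟨Y - χ • X, by abel⟩
  have hδ : δ ∈ PolS e.b.m D := by simpa using sub_mem hY (Submodule.smul_mem _ χ hX)
  rw [add_sub_cancel_left] at hN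
  have hp := sech2_pos ξ
  have hp1 := sech2_le ξ
  have hN1 : (imS e.b ξ).N δ δ ≤ η :=
    hN.trans (mul_le_of_le_one_right e0 (pow_le_one₀ hp.le hp1))
  have hq1 := c.Es e.b ξ
  have hE1 := (hB _ hδ).1
  have hk : |(imS e.b ξ).En (sS _) δ| ≤ κ * sech2 ξ := by
    refine abs_le_of_sq_le_sq ?_ (by positivity)
    calc _ ≤ _ := b_cs (c.ok e.b ξ).pE (c.ok e.b ξ).sE (sS _) δ
      _ ≤ 1 * (C * (η * sech2 ξ ^ 2)) := mul_le_mul (hq1.trans hp1)
        (hE1.trans (mul_le_mul_of_nonneg_left hN hC0)) ((c.ok e.b ξ).pE δ) zero_le_one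
      _ = η * C * sech2 ξ ^ 2 := by ring
      _ ≤ κ ^ 2 * sech2 ξ ^ 2 := mul_le_mul_of_nonneg_right e1 (sq_nonneg _)
      _ = _ := by ring
  rw [abs_le] at hk
  have hqe : (imS e.b ξ).En (sS _) (sS _ + (χ • X + δ)) = (imS e.b ξ).En (sS _) (sS _) +
      χ * (imS e.b ξ).En (sS _) X + (imS e.b ξ).En (sS _) δ := by
    simp only [map_add, map_smul, smul_eq_mul]; ring
  have q1 := mul_nonneg c0 (neg_nonneg.2 x4)
  have q2 := mul_nonneg (sub_nonneg.2 c1) (neg_nonneg.2 x4)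
  have q3 := mul_le_mul_of_nonneg_right k1 hp.le
  have hq2 : (imS e.b ξ).En (sS _) (sS _ + X) - κ * sech2 ξ ≤
      (imS e.b ξ).En (sS _) (sS _ + (χ • X + δ)) := by
    rw [hqe, map_add]; linarith [hk.1]
  refine ⟨res_le c e hl hC0 e0 c0 c1 hB hs hδ hN1 hq hR0 c2 x1 e3, ?_, by linarith,
    by rw [hqe]; linarith [hk.2], ?_⟩
  · have nn := MB_nn c e.b ξ
    have b1 := b_add nn (χ • X) δ
    have b2 : MB e.b ξ δ δ ≤ (1 + C) * η := by
      simp only [MB, LinearMap.add_apply]; linarith [mul_le_mul_of_nonneg_left hN1 hC0]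
    have b3 : (1 + C) * η ≤ 2 * (1 + a') / (l - a') := by
      rw [le_div_iff₀ (by linarith)]
      linarith [mul_nonneg (mul_nonneg (by linarith : 0 ≤ 1 + C) e0) h0]
    have b4 : 8 * (1 + a') / (l - a') = 4 * (2 * (1 + a') / (l - a')) := by ring
    rw [b_smul] at b1
    rw [Mf_eq] at x2 ⊢
    linarith [mul_le_mul_of_nonneg_right (pow_le_one₀ c0 c1 : χ ^ 2 ≤ 1) (nn X),
      mul_nonneg (by linarith : 0 ≤ 1 + C) e0]
  · have := last_le hl hp h0 ha hG hε k0 k1 k2 g1 g2 x3 hq2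
    rw [sub_div]; linarith

end Out2


end Crest.Agent.T157.Tw
end
end

-- ▼ part T157/LcOutB_30
section

/-!
# Row 157, block B/S4b (helper30, after helper2): the two-sided output
-/

set_option autoImplicit false

noncomputable section

namespace Crest.Agent.T157.Tw

open MeasureTheory Real Matrix Set Filter Topology
open Out2

lemma cut2 {C x : ℝ} (hx : 0 < x) (B : ℝ) : ∃ χ : ℝ → ℝ, Continuous χ ∧ HasCompactSupport χ ∧
    ∀ ξ, χ (-ξ) = χ ξ ∧ 0 ≤ χ ξ ∧ χ ξ ≤ 1 ∧ (1 - χ ξ) * (C * sech2 ξ) ≤ x ∧ (χ ξ = 1 ∨ B ≤ |ξ|) := by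
  set T := max (C / x) B
  have one : ∀ ξ, |ξ| ≤ T → max 0 (min 1 (T + 1 - |ξ|)) = 1 := fun ξ h => by
    rw [min_eq_left (by linarith), max_eq_right zero_le_one]
  refine ⟨fun ξ => max 0 (min 1 (T + 1 - |ξ|)), by fun_prop, ?_, fun ξ => ⟨by simp,
    le_max_left _ _, max_le zero_le_one (min_le_left _ _), ?_, ?_⟩⟩
  · refine HasCompactSupport.intro (isCompact_Icc (a := -(T + 1)) (b := T + 1))
      fun ξ hξ => max_eq_left ((min_le_right _ _).trans ?_)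
    rw [mem_Icc, ← abs_le, not_le] at hξ; linarith
  · beta_reduce
    rcases le_total |ξ| T with h | h
    · rw [one ξ h]; simpa using hx.le
    · replace h := (le_max_left _ _).trans h
      rw [div_le_iff₀ hx] at h
      have h1 : C * sech2 ξ ≤ x := by nlinarith [abs_sech2 ξ, sech2_pos ξ]
      have h2 : 0 ≤ max 0 (min 1 (T + 1 - |ξ|)) := le_max_left _ _
      have h3 : max 0 (min 1 (T + 1 - |ξ|)) ≤ 1 := max_le zero_le_one (min_le_left _ _)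
      nlinarith
  · exact (le_total |ξ| T).imp (one ξ) fun h => (le_max_right _ _).trans h

lemma up_le {l a a' G ε κ p χ q0 q q' : ℝ} (hl : 0 < l) (hp : 0 < p) (h0 : 0 ≤ a') (ha : a' ≤ a)
    (hG : 0 ≤ G) (hε : 0 < ε) (hκ : 0 ≤ κ) (k2 : κ * (2 * a * (1 + a * G)) ≤ ε * l ^ 2)
    (c0 : 0 ≤ χ) (c1 : χ ≤ 1) (h1 : l * p ≤ q) (h2 : q ≤ q0) (h3 : q0 ≤ p) (h4 : 0 < q')
    (h5 : q' ≤ q0 + χ * (q - q0) + κ * p) (h6 : χ = 1 ∨ a' / q ≤ (a' + ε / 2) / p) :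
    a' / q - a' / q' ≤ ε / p := by
  obtain ⟨r, hr⟩ : ∃ r, r = q0 + χ * (q - q0) := ⟨_, rfl⟩
  have a0 : 0 ≤ a := h0.trans ha
  have r1 : q ≤ r := by nlinarith
  have r2 : r ≤ p := by nlinarith
  have lp := mul_pos hl hp
  have r0 : 0 < r := by linarith
  have kp := mul_nonneg hκ hp.le
  have e1 : a' / (r + κ * p) ≤ a' / q' := div_le_div_of_nonneg_left h0 h4 (hr ▸ h5)
  have e2 : a' / r - a' / (r + κ * p) = a' * (κ * p) / (r * (r + κ * p)) := by field_simp; ring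
  have e3 : a' * (κ * p) / (r * (r + κ * p)) ≤ a * (κ * p) / (l * p * (l * p)) := by
    gcongr <;> linarith
  have e4 : a * (κ * p) / (l * p * (l * p)) ≤ ε / 2 / p := by
    rw [div_le_div_iff₀ (by positivity) hp]
    have := mul_le_mul_of_nonneg_right k2 (by positivity : 0 ≤ p ^ 2 / 2)
    nlinarith [mul_nonneg (mul_nonneg (mul_nonneg hκ a0) (mul_nonneg a0 hG)) (sq_nonneg p)]
  have e5 : a' / q - a' / r ≤ ε / 2 / p := by
    rcases h6 with rfl | h6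
    · rw [hr, one_mul, add_sub_cancel, sub_self]; positivity
    · have := div_le_div_of_nonneg_left h0 r0 r2
      rw [add_div] at h6; linarith
  have e6 : ε / p = ε / 2 / p + ε / 2 / p := by ring
  linarith

theorem outGlue2 : OutGlue2 := by
  intro c pa f w bd ga gm ir ex eq l a G ε ha hal hG hε
  have hl : 0 < l := ha.trans_lt hal
  obtain ⟨η0, hη0, H⟩ := ex l a (ε / 8) ha hal (by positivity)
  refine ⟨η0, hη0, fun e hC hR hE => ?_⟩
  obtain ⟨D0, hD0, H⟩ := H e hC hE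
  refine ⟨D0, fun D hD a' ha' u hu => ?_⟩
  have hal' : a' < l := ha'.2.trans_lt hal
  have hy : -l < -a' := by linarith
  obtain ⟨n, P, cc, hP, hφ⟩ := (ga e.b l hC D (-a') hy).1
  replace H := fun ξ => H D hD a' ha' u hu ξ _ (hφ ξ)
  have hγ := (gm e.b l a' G ha'.1 hal' hC
    (fun ξ D F hF y h1 h2 => hR ξ D F hF y (by linarith [ha'.2]) h2) D).2
  obtain ⟨C, hC0, hB⟩ := bd e D
  obtain ⟨C0, hR0⟩ := ir.R0 e
  obtain ⟨_, -, B, hT⟩ := eq l a' (e.b.g ⬝ᵥ e.b.g) ha'.1 hal' (ε / 2) (half_pos hε)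
  replace hT := fun ξ => (hT e.b D hC le_rfl ξ).2
  obtain ⟨χ, hχc, hχs, hχ⟩ := cut2 (C := C0) (by positivity : 0 < ε / 8) B
  obtain ⟨κ, ⟨k1, k2⟩, k0⟩ := (((small 2 hl).and (small (2 * a * (1 + a * G))
    (by positivity : 0 < ε * l ^ 2))).and self_mem_nhdsWithin).exists
  have k0 : 0 < κ := k0
  obtain ⟨η, ⟨⟨e1, e2⟩, e3⟩, e0⟩ := ((((small C (by positivity : 0 < κ ^ 2)).and
    (small ((1 + C) * l) two_pos)).and (small (2 * C + 4 * a' ^ 2 * (1 + C) + 8 * C * (C + C0) / l)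
    (by positivity : 0 < ε / 4))).and self_mem_nhdsWithin).exists
  have e0 : 0 < η := e0
  obtain ⟨ρ, hρ⟩ := ex_rf f e.b
  obtain ⟨φ, hφd⟩ : ∃ φ : ℝ → SV e.b.m, ∀ ξ, φ ξ = ∑ i, cc i ξ • P i := ⟨_, fun _ => rfl⟩
  have hcf : Continuous fun ξ => cf e.b ξ (φ ξ) := by
    have h1 := fun i => (hP i).2
    have h2 := ex_cont c e.b
    simp only [hφd, cf, Finset.mul_sum, mul_smul_comm, map_sum, map_smul, smul_eq_mul]
    fun_prop
  have hT' : ∀ ξ, ∑ i, (χ ξ * ((cf e.b ξ (φ ξ))⁻¹ * cc i ξ)) • irr e.b ξ (P i) =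
      χ ξ • ((cf e.b ξ (φ ξ))⁻¹ • irr e.b ξ (φ ξ)) := fun ξ => by
    have : irr e.b ξ (φ ξ) = ∑ i, cc i ξ • irr e.b ξ (P i) := by
      rw [hφd]; exact (map_sum (irrL e.b ξ) _ _).trans (by simp only [map_smul]; rfl)
    simp only [this, Finset.smul_sum, mul_smul]
  simp only [← hφd] at H hφ
  have hI : ∀ ξ, ∀ F ∈ PolS e.b.m D, irr e.b ξ F ∈ IS e.b D ξ := fun ξ F hF =>
    ⟨ir.pol _ _ _ (hD0.trans hD) _ hF, ir.irr _ _ _⟩
  obtain ⟨V, hV, hVa⟩ := approx f w e.b (fun i ξ => irr e.b ξ (P i))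
    (fun i => irr_mem f _ (hP i).1) (IS e.b D) (fun i ξ => hI ξ _ (hP i).1)
    (fun i ξ => χ ξ * ((cf e.b ξ (φ ξ))⁻¹ * cc i ξ))
    (fun i => ⟨hχc.mul ((hcf.inv₀ fun ξ => (one_pos.trans_le (H ξ).1).ne').mul (hP i).2),
      hχs.mul_right⟩) e0
  simp only [hT'] at hVa
  obtain ⟨Ξ, h1, h2, h3⟩ := hρ.odd c hV (fun ξ => by
    have h := gal_uniq c hC hy (hφ ξ) (hρ.gal (hφ (-ξ)))
    have h' : irr e.b ξ (φ ξ) = -ρ (irr e.b (-ξ) (φ (-ξ))) := by
      rw [h, ← hρ.irr c]; exact map_neg (irrL e.b ξ) _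
    rw [h', (hχ ξ).1, ← hρ.cf c, ← h, map_smul, map_smul]; module) hVa
  have hs : sS _ ∈ PolS e.b.m D := by simpa using pa.s (pa.one _ D)
  refine ⟨Ξ, ⟨h1, h2, fun ξ => (h3 ξ).1.2.1, fun ξ => (h3 ξ).1.1⟩, fun ξ =>
    ⟨(h3 ξ).1.2, ir.R _ _ _ _ (h3 ξ).1.2, ?_⟩⟩
  obtain ⟨x1, x2, x3, x4, x5⟩ := (H ξ).2 _ rfl
  obtain ⟨-, c0, c1, c2, c3⟩ := hχ ξ
  have hX := Submodule.smul_mem _ (cf e.b ξ (φ ξ))⁻¹ (hI ξ _ (hφ ξ).1).1
  obtain ⟨y1, y2, y3, y4, y5⟩ := point c e hl ha'.1 ha'.2 hal hG hε hC0 e0.le k0.le c0 c1 (hB ξ) hs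
    hX (h3 ξ).1.1 (h3 ξ).2
    (c.Ns e.b ξ ▸ hC.2 ξ D _ hs) (hR0 a' ξ) c2 k1 k2 e1 e2 e3 (hγ ξ).2.1 (hγ ξ).2.2 x1 x2 x3 x4 x5
  refine ⟨y1, y2, y3, y4, ?_⟩
  have hp := sech2_pos ξ
  have g1 := (hγ ξ).2.1
  have hN := (h3 ξ).2
  have hδ := sub_mem (h3 ξ).1.1 (Submodule.smul_mem _ (χ ξ) hX)
  generalize (cf e.b ξ (φ ξ))⁻¹ • irr e.b ξ (φ ξ) = X at *
  have hq1 := c.Es e.b ξ
  have hk : |(imS e.b ξ).En (sS _) (Ξ ξ - χ ξ • X)| ≤ κ * sech2 ξ := by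
    refine abs_le_of_sq_le_sq ?_ (by positivity)
    calc _ ≤ _ := b_cs (c.ok e.b ξ).pE (c.ok e.b ξ).sE (sS _) _
      _ ≤ 1 * (C * (η * sech2 ξ ^ 2)) := mul_le_mul (hq1.trans (sech2_le ξ))
        ((hB ξ _ hδ).1.trans (mul_le_mul_of_nonneg_left hN hC0)) ((c.ok e.b ξ).pE _) zero_le_one
      _ = η * C * sech2 ξ ^ 2 := by ring
      _ ≤ κ ^ 2 * sech2 ξ ^ 2 := mul_le_mul_of_nonneg_right e1 (sq_nonneg _)
      _ = _ := by ring
  have hh : e.b.g ⬝ᵥ e.b.g ≤ e.b.g ⬝ᵥ e.b.A *ᵥ u := by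
    obtain ⟨k, -⟩ := sol_bd hC.1 (y := -a') (by linarith) hu
    have := le_trans (mul_nonneg (by linarith) (dot_nonneg u)) k
    rw [gAu hu]; nlinarith [ha'.1]
  have d1 : ε / gamD e.b a' D ξ ≤ ε / sech2 ξ := div_le_div_of_nonneg_left hε.le hp g1
  have z := up_le (q0 := (imS e.b ξ).En (sS _) (sS _)) (q' := (imS e.b ξ).En (sS _) (sS _ + Ξ ξ))
    hl hp ha'.1 ha'.2 hG hε k0.le k2 c0 c1 x3 (by rw [map_add]; linarith) hq1
    (lt_of_lt_of_le (by positivity) y3) (by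
      have := (abs_le.1 hk).2
      simp only [map_add, map_sub, map_smul, smul_eq_mul] at this ⊢
      linarith) (c3.imp_right fun hB' => by
      have t := (abs_le.1 (hT ξ hB')).2
      have γ0 := hp.trans_le g1
      have t2 : (1 - a') / sech2 ξ ≤ (1 + ε / 2) / gamD e.b a' D ξ := by
        rw [div_le_div_iff₀ hp γ0]
        rw [← mul_div_assoc, sub_le_iff_le_add, div_le_iff₀ hp] at t
        linarith
      have t3 : ε / 2 / gamD e.b a' D ξ ≤ ε / 2 / sech2 ξ :=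
        div_le_div_of_nonneg_left (half_pos hε).le hp g1
      rw [add_div] at t2 ⊢
      rw [sub_div] at t2
      linarith)
  rw [sub_div] at y5
  rw [abs_le]
  constructor <;> linarith

end Crest.Agent.T157.Tw
end
end

-- ▼ part T157/LcTail_26
section

/-!
# Row 157, block B/S4b (helper26): `TailGlue`, the variance of `tanh` in large static fields
-/

set_option autoImplicit false

noncomputable section

namespace Crest.Agent.T157.Tw

open MeasureTheory ProbabilityTheory Real Matrix Set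
open Crest.Agent.R238.Gap Crest.Agent.R253.Meh74

namespace Tail26

lemma mgfG {m : ℕ} (v : E m) (t : ℝ) :
    Integrable (fun z => exp (t * inner ℝ v z)) (gam m) ∧
      ∫ z, exp (t * inner ℝ v z) ∂gam m = exp (‖v‖ ^ 2 * t ^ 2 / 2) := by
  have h := IsGaussian.map_eq_gaussianReal (μ := gam m) (innerSL ℝ v)
  rw [integral_strongDual_stdGaussian, variance_dual_stdGaussian, innerSL_apply_norm] at h
  have hm : AEMeasurable (innerSL ℝ v) (gam m) := (innerSL ℝ v).continuous.measurable.aemeasurable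
  have hc : ∀ μ : Measure ℝ, AEStronglyMeasurable (fun x => exp (t * x)) μ := fun μ =>
    (by fun_prop : Continuous fun x => exp (t * x)).aestronglyMeasurable
  constructor
  · have := integrable_exp_mul_gaussianReal (μ := 0) (v := (‖v‖ ^ 2).toNNReal) t
    rw [← h, integrable_map_measure (hc _) hm] at this
    exact this
  · have := congrFun (mgf_fun_id_gaussianReal (μ := 0) (v := (‖v‖ ^ 2).toNNReal)) t
    rw [mgf, ← h, integral_map hm (hc _), Real.coe_toNNReal _ (sq_nonneg _)] at this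
    simpa using this

lemma one_sub_tanh (z : ℝ) : (1 - tanh z) ^ 2 ≤ 4 * exp (-3 * z) := by
  have hu := exp_pos z
  have e1 : exp (-z) = (exp z)⁻¹ := exp_neg z
  have e2 : exp (-3 * z) = (exp z ^ 3)⁻¹ := by
    rw [← exp_nat_mul, ← exp_neg]; congr 1; push_cast; ring
  have e3 : 1 - tanh z = 2 / (exp z ^ 2 + 1) := by
    rw [tanh_eq_sinh_div_cosh, sinh_eq, cosh_eq, e1]; field_simp; ring
  rw [e3, e2, div_pow, ← div_eq_mul_inv, div_le_div_iff₀ (by positivity) (by positivity)]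
  nlinarith [mul_nonneg (sq_nonneg (exp z)) (sq_nonneg (exp z - 1)), pow_pos hu 3, pow_pos hu 2]

lemma sub_tanh {σ : ℝ} (hσ : σ = 1 ∨ σ = -1) (z : ℝ) :
    (tanh z - σ) * (tanh z - σ) ≤ 4 * exp (-3 * σ * z) := by
  rcases hσ with rfl | rfl
  · have := one_sub_tanh z
    rw [mul_one]; nlinarith
  · have := one_sub_tanh (-z)
    rw [tanh_neg] at this
    rw [show -3 * -1 * z = -3 * -z by ring]; nlinarith

lemma sech_ge (ξ : ℝ) : exp (-2 * |ξ|) ≤ sech2 ξ := by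
  have h1 : cosh ξ ≤ exp |ξ| := by
    rw [cosh_eq]
    have := exp_le_exp.2 (le_abs_self ξ)
    have := exp_le_exp.2 (neg_le_abs ξ)
    linarith
  have e : exp (-2 * |ξ|) = 1 / exp |ξ| ^ 2 := by
    rw [← exp_nat_mul, one_div, ← exp_neg]; congr 1; push_cast; ring
  rw [e, sech2]
  exact one_div_le_one_div_of_le (by have := cosh_pos ξ; positivity)
    (pow_le_pow_left₀ (cosh_pos ξ).le h1 2)

lemma ex_le (b : Bath) (ξ : ℝ) {σ K : ℝ} (hσ : σ = 1 ∨ σ = -1) (hK : b.g ⬝ᵥ b.g ≤ K) :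
    exS b ξ ((tS b ξ - algebraMap ℝ _ σ) * (tS b ξ - algebraMap ℝ _ σ)) ≤
      4 * exp (-3 * σ * ξ + 8 * K) := by
  have hv : ‖b.v‖ ^ 2 ≤ K := by
    rw [EuclideanSpace.real_norm_sq_eq]
    simpa [Bath.v, dotProduct, sq] using hK
  have hσ2 : σ ^ 2 = 1 := by rcases hσ with rfl | rfl <;> norm_num
  have key : ∀ s, ∫ z, (tanh (fld b ξ (z + sg s • b.v)) - σ) * (tanh (fld b ξ (z + sg s • b.v)) - σ)
      ∂gam b.m ≤ 4 * exp (-3 * σ * ξ + 8 * K) := fun s => by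
    obtain ⟨hi, he⟩ := mgfG b.v (-3 * σ)
    have hs : -(σ * sg s) ≤ 1 := by
      rcases hσ with rfl | rfl <;> cases s <;> norm_num [sg]
    refine (integral_mono_of_nonneg (g := fun z => 4 * exp (-3 * σ * ξ + 3 * K) *
      exp (-3 * σ * inner ℝ b.v z)) (ae_of_all _ fun z => mul_self_nonneg _) (hi.const_mul _)
      (ae_of_all _ fun z => (sub_tanh hσ _).trans ?_)).trans ?_
    · beta_reduce
      rw [mul_assoc 4, ← exp_add]
      refine mul_le_mul_of_nonneg_left (exp_le_exp.2 ?_) (by norm_num)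
      rw [fld, inner_add_right, inner_smul_right, real_inner_self_eq_norm_sq]
      nlinarith [mul_le_mul_of_nonneg_right hs (sq_nonneg ‖b.v‖)]
    · rw [integral_const_mul, he, mul_assoc 4, ← exp_add]
      refine mul_le_mul_of_nonneg_left (exp_le_exp.2 ?_) (by norm_num)
      rw [mul_pow, hσ2]
      nlinarith [sq_nonneg ‖b.v‖]
  change ∑ s, hb ξ s * ∫ z, (tanh (fld b ξ (z + sg s • b.v)) - σ) *
    (tanh (fld b ξ (z + sg s • b.v)) - σ) ∂gam b.m ≤ _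
  rw [Fintype.sum_bool]
  have h1 := mul_le_mul_of_nonneg_left (key true) (hb_pos ξ true).le
  have h2 := mul_le_mul_of_nonneg_left (key false) (hb_pos ξ false).le
  refine (add_le_add h1 h2).trans (le_of_eq ?_)
  rw [← add_mul, hb_sum, one_mul]

end Tail26

open Tail26 in
theorem tailGlue : TailGlue := fun C K η hη => by
  refine ⟨8 * K - log (η / 4), fun b hK ξ hB => ?_⟩
  obtain ⟨σ, hσ, hξ⟩ : ∃ σ : ℝ, (σ = 1 ∨ σ = -1) ∧ σ * ξ = |ξ| := by
    rcases le_total 0 ξ with h | h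
    · exact ⟨1, .inl rfl, by rw [abs_of_nonneg h, one_mul]⟩
    · exact ⟨-1, .inr rfl, by rw [abs_of_nonpos h, neg_one_mul]⟩
  have h1 := ex_le b ξ hσ hK
  have e : (tS b ξ - algebraMap ℝ _ σ) * (tS b ξ - algebraMap ℝ _ σ) =
      tS b ξ * tS b ξ - (2 * σ) • tS b ξ + (σ * σ) • 1 := by
    simp only [Algebra.algebraMap_eq_smul_one, sub_mul, mul_sub, smul_mul_assoc, mul_smul_comm,
      one_mul, mul_one, smul_smul]
    module
  rw [e, map_add, map_sub, map_smul, map_smul, C.ex1, smul_eq_mul, smul_eq_mul] at h1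
  have h2 : 4 * exp (-3 * σ * ξ + 8 * K) ≤ η * exp (-2 * |ξ|) := by
    rw [show η = 4 * exp (log (η / 4)) by rw [exp_log (by positivity)]; ring, mul_assoc 4,
      ← exp_add]
    refine mul_le_mul_of_nonneg_left (exp_le_exp.2 ?_) (by norm_num)
    nlinarith
  have h3 := mul_le_mul_of_nonneg_left (sech_ge ξ) hη.le
  rw [C.N]
  nlinarith [sq_nonneg (exS b ξ (tS b ξ) - σ)]

end Crest.Agent.T157.Tw
end
end

-- ▼ part T157/LcAll_30
section

/-!
# Row 157, block B/S4b (helper30): assembly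
-/

set_option autoImplicit false

namespace Crest.Agent.T157.Tw

theorem famApi : FamApi := famGlue cal polApi
theorem bdStmt : BdStmt := bdGlue cal polApi
theorem specStmt : SpecStmt := specGlue cal polApi
theorem fixStmt : FixStmt := fixGlue cal polApi specStmt
theorem galStmt : GalStmt := (galGlue cal polApi famApi).1
theorem gamStmt : GamStmt := (galGlue cal polApi famApi).2
theorem apStmt : ApStmt := apGlue cal polApi famApi wsStmt bdStmt galStmt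
theorem oneStmt : OneStmt := oneGlue cal polApi famApi bdStmt fixStmt galStmt gamStmt apStmt
theorem irrApi : IrrApi := (exGlue cal polApi fixStmt galStmt).1
theorem exStmt : ExStmt := (exGlue cal polApi fixStmt galStmt).2
theorem twStep : TwStep := (extGlue cal polApi famApi).1
theorem extStmt : ExtStmt := (extGlue cal polApi famApi).2
theorem tailStmt : TailStmt := tailGlue cal
theorem eqStmt : EqStmt := eqGlue cal polApi galStmt tailStmt

theorem outStmt2 : OutStmt2 :=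
  outGlue2 cal polApi famApi wsStmt bdStmt galStmt gamStmt irrApi exStmt eqStmt

/-- **the local ansatz** -/
theorem locStmt2 : LocStmt2 := locGlue2 polApi gamStmt oneStmt outStmt2 eqStmt twStep

end Crest.Agent.T157.Tw
end

-- ▼ part T157/LcMf_30
section

/-!
# Row 157, block B/S4b (helper30): the weighted energy of the ansatz
-/

set_option autoImplicit false

namespace Crest.Agent.T157.Tw

open Real Ex49

lemma amgm {x A B c : ℝ} (hc : 0 < c) (hA : 0 ≤ A) (hB : 0 ≤ B) (h : x ^ 2 ≤ A * B) :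
    |x| ≤ c / 4 * A + B / c := by
  refine abs_le_of_sq_le_sq (h.trans ?_) (by positivity)
  have e : A * B = 4 * (c / 4 * A) * (B / c) := by field_simp
  rw [e]; nlinarith [sq_nonneg (c / 4 * A - B / c)]

theorem Out2.mf_le {e : Ext} {D : ℕ} {l a ε : ℝ} {Ξ : ℝ → SV e.b.m} {al : ℝ → ℝ} (hC : Coer e.b l)
    (ha : 0 ≤ a) (hal : a < l) (h : Out2 e D l a ε Ξ al) (ξ : ℝ) :
    Mf e.b ξ 1 (Ξ ξ) ≤ 4 / (l - a) ^ 2 * (sech2 ξ + ε) := by
  obtain ⟨hI, -, hR, -⟩ := h.2 ξ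
  have hX := hC.2 ξ D _ (h.1.2.2.2 ξ)
  have hs := hC.2 ξ D _ (s_mem polApi e.b.m D)
  generalize Ξ ξ = X at *
  have ok := cal.ok e.b ξ
  have ok' := cal.ok e.bt ξ
  have hp := sech2_pos ξ
  have hq := cal.Es e.b ξ
  rw [cal.Ns] at hs
  have l1 : l ≤ 1 := by nlinarith
  have c0 : 0 < l - a := sub_pos.2 hal
  have h0 : exS e.bt ξ (pull e.ι X) = 0 := by rw [cal.p_ex, hI.1]
  have key : (imS e.bt ξ).N (e.R a ξ X) (pull e.ι X) = (imS e.b ξ).En (sS _) X +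
      (imS e.b ξ).En X X - a * (imS e.b ξ).N X X := by
    have e1 := Ext3.N_gen cal e.bt ξ (pull e.ι (sS _ + X)) _ h0
    have e2 := Ext3.N_st cal e.bt ξ (pull e.ι X)
    have e3 := N_zl cal e.bt ξ e.bt.g (pull e.ι X)
    rw [← pull_s e.ι, cal.p_N, hI.2.2] at e2
    rw [ok'.sN, zl_apply] at e3
    simp only [ex_d_pull cal e ξ hI.2.1, mul_zero, Finset.sum_const_zero] at e3
    rw [cal.p_En, LinearMap.map_add₂] at e1
    simp only [Ext.R, map_sub, map_smul, LinearMap.sub_apply, LinearMap.smul_apply, smul_eq_mul, e1,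
      e2, e3, cal.p_N]
    ring
  have r0 : (imS e.bt ξ).N (e.R a ξ X) (e.R a ξ X) ≤ ε := by
    have := ok'.pE (e.R a ξ X)
    rw [Mf] at hR; linarith
  have N0 := ok.pN X
  have E0 := ok.pE X
  have ε0 : 0 ≤ ε := (ok'.pN _).trans r0
  have b1 := Out2.b_cs ok'.pN ok'.sN (e.R a ξ X) (pull e.ι X)
  have b2 := Out2.b_cs ok.pE ok.sE (sS _) X
  rw [cal.p_N] at b1
  have a1 := abs_le.1 (amgm c0 N0 ε0 (b1.trans (by nlinarith)))
  have a2 := abs_le.1 (amgm c0 E0 hp.le (b2.trans (by nlinarith)))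
  rw [Mf, one_mul, div_mul_eq_mul_div, le_div_iff₀ (by positivity)]
  have q1 : (l - a) * (imS e.b ξ).En X X ≤ (imS e.b ξ).En X X - a * (imS e.b ξ).N X X := by
    refine le_of_mul_le_mul_left ?_ (ha.trans_lt hal)
    nlinarith [mul_le_mul_of_nonneg_left hX ha, mul_le_mul_of_nonneg_right l1 (mul_nonneg c0.le E0)]
  have q2 : (imS e.b ξ).En X X - a * (imS e.b ξ).N X X ≤ 2 * ((sech2 ξ + ε) / (l - a)) := by
    rw [add_div]; linarith [a1.2, a2.1]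
  have q3 := mul_le_mul_of_nonneg_left q2 c0.le
  rw [mul_left_comm, mul_div_cancel₀ _ c0.ne'] at q3
  nlinarith [mul_le_mul_of_nonneg_left q1 c0.le, mul_le_mul_of_nonneg_left hX c0.le]

end Crest.Agent.T157.Tw
end

-- ▼ part T157/NetAll_32
section

/-!
# Row 157, block B/S3, section 7 (helper32): the model networks, unconditionally
-/

set_option autoImplicit false

noncomputable section

namespace Crest.Agent.T157.Nt

open MeasureTheory Set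
open Crest.Agent.T157.Tw (lam)

namespace All

theorem tl : Tl := ⟨dxStmt, bsStmt, tsStmt, exStmt, gcStmt_13⟩
theorem ibpStmt : IbpStmt := ibpGlue tl
theorem avStmt : AvStmt := avGlue tl
theorem cutStmt : CutStmt := cutGlue tl
theorem factStmt : FactStmt := (factGlue tl ibpStmt).1
theorem trivStmt : TrivStmt := (factGlue tl ibpStmt).2
theorem liftStmt : LiftStmt := liftGlue tl
theorem pertStmt : PertStmt := pertGlue tl ibpStmt factStmt
theorem appStmt : AppStmt := appGlue tl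
theorem stepStmt : StepStmt :=
  stepGlue tl Tw.famApi cutStmt dictStmt factStmt pertStmt appStmt liftStmt
theorem baseStmt : BaseStmt := baseGlue tl Tw.famApi dictStmt factStmt liftStmt
theorem topStmtW : TopStmtW := topGlueW tl Tw.famApi avStmt cutStmt dictStmt factStmt
theorem herStmt : HerStmt := herGlue tl avStmt
theorem movStmt : MovStmt := movGlue tl
theorem symStmt : SymStmt := symGlue tl
theorem drfStmt : DrfStmt := drfGlue tl factStmt pertStmt appStmt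

/-- **the networks with a top family** -/
theorem netStmtW : NetStmtW := by
  intro 𝒞 h𝒞 β h0 h1 a ha ν _
  obtain ⟨e0, t0, s0⟩ := baseStmt 𝒞 β h0 ν
  obtain ⟨e1, f0, f, st, -, -⟩ :=
    Tw.extStmt β ν 0 e0 ∅ ∅ finite_empty finite_empty (by simp) (by simp)
  obtain ⟨γ, h, c1, c2, c3, H⟩ := Tw.locStmt2 𝒞 h𝒞 β h0 h1 a ha ν
    (fun e => ∀ (n : ℕ) (N : Net n), N.Ok β ν → Sim β ν N e _ id) e1
    (fun n N hN => stepStmt β h0 ν n N 0 e0 e1 f0 f Empty Empty.elim st (fun t => t.elim)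
      (fun i _ l ξ => Tw.polApi.d0 i ((st.c0 l).2.2.2 ξ)) (s0 n N hN))
    (Tw.twStep 𝒞 h𝒞 β h0.ne' ν 0 e0 e1 f0 f st t0)
    (fun e he => ⟨0, fun D _ 𝒱 hV hC => by
      obtain ⟨e', g0, g, st', hi, -⟩ := Tw.extStmt β ν D e 𝒱 ∅ hV finite_empty hC (by simp)
      exact ⟨e', g0, g, st', hi, fun n N hN => stepStmt β h0 ν n N D e e' g0 g _ id st'
        Function.injective_id (fun i hi => absurd ⟨i, rfl⟩ hi) (he n N hN)⟩⟩)
  refine ⟨γ, h, c1, c2, c3, fun e he n N hN => ?_⟩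
  obtain ⟨e', D, hS, hT, -, -, Ξ, hO⟩ := H (e / 2) (by positivity)
  have := topStmtW β h0 ν n N e' D _ a (e / 2) Ξ _ ha.1 ha.2 (by positivity) (hS n N hN) hO
    (hO.mf_le (Tw.coer_resp Tw.polApi h𝒞 ha.2 hT).1 ha.1 ha.2)
  rwa [mul_div_cancel₀ _ two_ne_zero] at this

theorem netStmt : NetStmt := netStmtW.net

/-- **(ST)** -/
theorem stAll : STAll := fun 𝒞 h𝒞 β h0 h1 hl ν _ =>
  have r := rootGlue tl factStmt liftStmt movStmt netStmt 𝒞 h𝒞 β h0 h1 hl ν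
  stGlue tl avStmt liftStmt drfStmt symStmt β h0 h1 ν r
    (st1Glue tl avStmt factStmt liftStmt herStmt movStmt β ν r)

end All

end Crest.Agent.T157.Nt

end
end

-- ▼ part T157/LcFx_30
section

/-!
# Row 157, block B/S4b (helper30): the diagonal `1 / γ + h` has the exact form `1 / g + β² E g`
-/

set_option autoImplicit false

namespace Crest.Agent.T157.Tw

open MeasureTheory Real Set

theorem exists_fix (β : ℝ) (ν : Measure ℝ) [IsProbabilityMeasure ν] {γ : ℝ → ℝ} {h M : ℝ}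
    (hc : Continuous γ) (h0 : ∀ ξ, sech2 ξ ≤ γ ξ) (hM : ∀ ξ, γ ξ ≤ M) (hh : β ^ 2 * ∫ ξ, γ ξ ∂ν ≤ h) :
    ∃ t ∈ Icc 0 h, ∃ g : ℝ → ℝ, (∀ ξ, g ξ = γ ξ / (1 + t * γ ξ)) ∧ Continuous g ∧
      ∀ ξ, sech2 ξ / (1 + h) ≤ g ξ ∧ 0 < g ξ ∧ g ξ ≤ γ ξ ∧
        1 / γ ξ + h = 1 / g ξ + β ^ 2 * ∫ ξ, g ξ ∂ν := by
  have p0 : ∀ ξ, 0 < γ ξ := fun ξ => (sech2_pos ξ).trans_le (h0 ξ)
  have d0 : ∀ t ξ, 1 ≤ 1 + |t| * γ ξ := fun t ξ =>
    le_add_of_nonneg_right (mul_nonneg (abs_nonneg t) (p0 ξ).le)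
  have b0 : ∀ t ξ, 0 < γ ξ / (1 + |t| * γ ξ) ∧ γ ξ / (1 + |t| * γ ξ) ≤ γ ξ := fun t ξ =>
    ⟨div_pos (p0 ξ) (by linarith [d0 t ξ]), div_le_self (p0 ξ).le (d0 t ξ)⟩
  have cg : ∀ t, Continuous fun ξ => γ ξ / (1 + |t| * γ ξ) := fun t =>
    hc.div (by fun_prop) fun ξ => by linarith [d0 t ξ]
  have cI : Continuous fun t : ℝ => ∫ ξ, γ ξ / (1 + |t| * γ ξ) ∂ν :=
    continuous_of_dominated (bound := fun _ => M) (fun t => (cg t).aestronglyMeasurable)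
      (fun t => ae_of_all _ fun ξ => by
        rw [norm_eq_abs, abs_of_pos (b0 t ξ).1]; exact (b0 t ξ).2.trans (hM ξ))
      (integrable_const _) (ae_of_all _ fun ξ =>
        continuous_const.div (by fun_prop) fun t => by linarith [d0 t ξ])
  have i0 : ∀ t, 0 ≤ β ^ 2 * ∫ ξ, γ ξ / (1 + |t| * γ ξ) ∂ν := fun t =>
    mul_nonneg (sq_nonneg _) (integral_nonneg fun ξ => (b0 t ξ).1.le)
  have hp : 0 ≤ h := le_trans (by simpa using i0 0) hh
  obtain ⟨t, ht, e⟩ := intermediate_value_Icc hp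
    (f := fun t => t + β ^ 2 * ∫ ξ, γ ξ / (1 + |t| * γ ξ) ∂ν) (by fun_prop)
    (show h ∈ Icc _ _ from ⟨by simpa using hh, by simpa using i0 h⟩)
  have b1 := b0 t
  have c1 := cg t
  simp only [abs_of_nonneg ht.1] at e b1 c1
  refine ⟨t, ht, _, fun _ => rfl, c1, fun ξ => ⟨?_, (b1 ξ).1, (b1 ξ).2, ?_⟩⟩
  · have := mul_nonneg ht.1 (p0 ξ).le
    rw [div_le_div_iff₀ (by linarith) (by linarith)]
    nlinarith [h0 ξ, mul_le_mul_of_nonneg_left (sech2_le ξ) this,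
      mul_le_mul_of_nonneg_right ht.2 (p0 ξ).le]
  · have := (p0 ξ).ne'
    rw [← e, one_div_div, add_div, mul_div_cancel_right₀ _ this]; ring

end Crest.Agent.T157.Tw
end

-- ▼ part T157/S3Fam_60
section

/-!
# Row 157, block B/S3 (helper60): the ansatz on a family of instances
-/

set_option autoImplicit false

noncomputable section

namespace Crest.Agent.T157.S3.T60

open Matrix Filter Set MeasureTheory
open Crest.Agent.T157.Eig
open Crest.Agent.T157.E (Cube)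
open Crest.Agent.T157.Nt (Fn Ix BS cb)
open Crest.Agent.T157.S3P (fl)
open Crest.Agent.T157.Tw (sech2 Cls PV lam sech2_pos)
open Fam An90

/-- `AnsFam` with named data -/
def AnsX (F : Fam) (𝒯 : Set F.Df) (a C0 C' e : ℝ) (p q α : F.Df) (ψ : F.Vf) (T : F.Mf) : Prop :=
  ∃ C : ℝ, 1 ≤ C ∧ ∀ e1 > (0 : ℝ), ∃ η > (0 : ℝ), ∃ D : List F.Df, (∀ t ∈ D, t ∈ 𝒯) ∧ ∃ C1 : ℝ,
    0 ≤ C1 ∧ ∀ᶠ i in F.l, AnsAt (F.J i) (F.y i) a C C0 C' e e1 η (F.K i) (E0 e1 C1 D i) (p i) (q i) (α i)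
      (fun x => ψ ⟨i, x⟩) fun x => T ⟨i, x⟩

theorem AnsX.fam {F : Fam} {𝒯 : Set F.Df} {a C0 C' e : ℝ} {p q α : F.Df} {ψ : F.Vf} {T : F.Mf}
    (h : AnsX F 𝒯 a C0 C' e p q α ψ T) : AnsFam F 𝒯 a C0 C' e p q α :=
  let ⟨C, _, H⟩ := h
  ⟨C, ψ, T, fun e1 he => let ⟨η, η0, D, hD, C1, _, H⟩ := H e1 he; ⟨η, η0, D, hD, C1, H⟩⟩

/-- rescaling of the ansatz -/
theorem scale {n : ℕ} {J : Mx n} {y p q α : V n} {a C C0 C' e e1 η K c : ℝ} {E E' : V n → ℝ}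
    {ψ : Cube n → V n} {T : Cube n → Mx n} (h : AnsAt J y a C C0 C' e e1 η K E p q α ψ T)
    (c0 : 0 ≤ c) (c1 : c ≤ 1) (hE : ∀ w, E (c • w) ≤ E' w) (hC0 : 0 ≤ C0) (hC' : 0 ≤ C')
    (he : 0 ≤ e) (hp : ∀ k, 0 ≤ p k) : AnsAt J y a C C0 C' e e1 η K E' p (c • q) (c • α)
      (fun x => c • ψ x) fun x => c • T x := by
  have hC : 0 ≤ C := (opn_nonneg _).trans (h.opψ default)
  have cc : c * c ≤ 1 := by nlinarith
  have i1 : ∀ w u : V n, w ⬝ᵥ (c • u) = (c • w) ⬝ᵥ u := fun w u => by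
    rw [dotProduct_smul, smul_dotProduct]
  have i2 : ∀ (w : V n) (M : Mx n), (c • M)ᵀ *ᵥ w = Mᵀ *ᵥ (c • w) := fun w M => by
    rw [transpose_smul, smul_mulVec, mulVec_smul]
  have i3 : ∀ u w : V n, (c • u) * w = u * (c • w) := fun u w => by
    rw [smul_mul_assoc, mul_smul_comm]
  have n1 : ∀ w : V n, C * nrm (c • w) ≤ C * nrm w := fun w => mul_le_mul_of_nonneg_left (by
    rw [nrm_smul, abs_of_nonneg c0]; exact mul_le_of_le_one_left (nrm_nonneg w) c1) hC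
  have n2 : ∀ w : V n, ‖w‖ ≤ η → ‖c • w‖ ≤ η := fun w hw => le_trans (by
    rw [norm_smul, Real.norm_of_nonneg c0]; exact mul_le_of_le_one_left (norm_nonneg w) c1) hw
  have n3 : ∀ w : V n, (c • w) ⬝ᵥ (c • w) ≤ w ⬝ᵥ w := fun w => by
    rw [dotProduct_smul, smul_dotProduct, smul_smul]
    exact mul_le_of_le_one_left (dot_self_nonneg w) cc
  have n4 : ∀ w : V n, C0 * ((c • w) ⬝ᵥ (p * (c • w))) ≤ C0 * (w ⬝ᵥ (p * w)) := fun w =>
    mul_le_mul_of_nonneg_left (by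
      rw [mul_smul_comm, dotProduct_smul, smul_dotProduct, smul_smul]
      exact mul_le_of_le_one_left (qd_nonneg hp w) cc) hC0
  have o1 : ∀ M : Mx n, opn M ≤ C → opn (c • M) ≤ C := fun M hM => le_trans (by
    rw [opn_smul, abs_of_nonneg c0]; exact mul_le_of_le_one_left (opn_nonneg M) c1) hM
  refine ⟨fun x k j b => congrArg (c * ·) (h.free x k j b), fun x => ?_, fun x => o1 _ (h.opT x),
    fun w ν hν => ?_, fun w hw => ?_, fun w hw => ?_, fun w hw => ?_, fun w hw ν hν G hG => ?_,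
    fun w hw z ν hν => ?_, fun w hw => ?_⟩
  · rw [S3F.jac_smul]; exact o1 _ (h.opψ x)
  · simp only [smul_mulVec, i1]
    exact (h.dv _ ν hν).trans (mul_le_mul_of_nonneg_right (n1 w) (Real.sqrt_nonneg _))
  · obtain ⟨Ω, h1, h2⟩ := h.vg _ (n2 w hw)
    simp only [i1, i3]
    exact ⟨Ω, Ver.mono h1 le_rfl (n1 w) (hE w), by linarith [n4 w, hE w]⟩
  · obtain ⟨Ω, h1⟩ := h.vf _ (n2 w hw)
    simp only [i2, i3]
    exact ⟨Ω, Ver.mono h1 le_rfl (n1 w) (hE w)⟩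
  · simp only [i1, i2]
    exact Exc.mono (h.gf _ (n2 w hw)) le_rfl
      (by linarith [mul_le_mul_of_nonneg_left (n3 w) (mul_nonneg hC' he), hE w]) fun _ => le_rfl
  · simp only [smul_mulVec, i1, i3] at hG
    refine (h.eq _ (n2 w hw) ν hν G hG).trans ?_
    nlinarith [mul_le_mul_of_nonneg_left (n3 w) (mul_nonneg hC' (Real.sqrt_nonneg e)), hE w]
  · simp only [i2, i3]
    linarith [h.rs _ (n2 w hw) z ν hν, hE w]
  · simp only [i1]
    linarith [h.en _ (n2 w hw), n4 w, hE w]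

lemma E0_smul {F : Fam} (hF : F.Ok) {e C c : ℝ} (he : 0 ≤ e) (c0 : 0 ≤ c) (c1 : c ≤ 1)
    (D : List F.Df) (i : F.I) (w : V (F.n i)) : E0 e C D i (c • w) ≤ E0 e |C| D i w := by
  have h1 : Fam.Pi D i (c • w) = c * Fam.Pi D i w := by
    simp only [Fam.Pi, smul_dotProduct, smul_eq_mul, abs_mul, abs_of_nonneg c0, List.sum_map_mul_left,
      mul_div_assoc]
  have h2 := E0_mono hF (e := e) (C := C) (C' := |C|) (w := c • w) le_rfl (le_refl (Fam.Pi D i _))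
  refine h2.trans ?_
  have cc : c * c ≤ 1 := by nlinarith
  have h3 := mul_le_of_le_one_left (mul_nonneg he (dot_self_nonneg w)) cc
  have h4 := mul_le_of_le_one_left (mul_nonneg (abs_nonneg C) (sq_nonneg (Fam.Pi D i w))) cc
  simp only [E0, h1, dotProduct_smul, smul_dotProduct, smul_eq_mul]
  nlinarith

theorem AnsX.scale {F : Fam} (hF : F.Ok) {𝒯 : Set F.Df} {a C0 C' e c : ℝ} {p q α : F.Df} {ψ : F.Vf}
    {T : F.Mf} (h : AnsX F 𝒯 a C0 C' e p q α ψ T) (c0 : 0 ≤ c) (c1 : c ≤ 1) (hC0 : 0 ≤ C0)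
    (hC' : 0 ≤ C') (he : 0 ≤ e) (hp : ∀ i k, 0 ≤ p i k) : AnsX F 𝒯 a C0 C' e p (fun i => c • q i)
      (fun i => c • α i) (fun ω => c • ψ ω) fun ω => c • T ω := by
  obtain ⟨C, h1, H⟩ := h
  refine ⟨C, h1, fun e1 he1 => ?_⟩
  obtain ⟨η, η0, D, hD, C1, -, H⟩ := H e1 he1
  exact ⟨η, η0, D, hD, |C1|, abs_nonneg _, H.mono fun i hi =>
    T60.scale hi c0 c1 (E0_smul hF he1.le c0 c1 D i) hC0 hC' he (hp i)⟩

lemma qs_pos {F : Fam} {𝒯 : Set F.Df} {p : Pr F} (hF : F.Ok) (hp : Mo p) (h : Qs 𝒯 p) :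
    ∀ e > (0 : ℝ), ∃ η > (0 : ℝ), ∃ D : List F.Df, (∀ t ∈ D, t ∈ 𝒯) ∧ ∃ C : ℝ, 0 ≤ C ∧
      ∀ᶠ i in F.l, ∀ w : V (F.n i), ‖w‖ ≤ η → p e (E0 e C D i w) i w := fun e he =>
  let ⟨η, η0, D, hD, C, H⟩ := h e he
  ⟨η, η0, D, hD, |C|, abs_nonneg C, H.mono fun _ b w hw =>
    hp _ _ _ _ _ (E0_mono hF le_rfl le_rfl) (b w hw)⟩

theorem ansX (K0 κ0 RJ : ℝ) (hκ : 0 < κ0) : ∃ C' : ℝ, 0 ≤ C' ∧ ∀ F : Fam, F.Ok →
    (∀ i, Atd.ATd (F.w i) K0 (Real.exp (-(κ0 * F.n i))) ∧ opn (F.J i) ≤ RJ) →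
    ∀ (N P : ℕ) (R : Net F N) (d : Tp R P) (𝒯 : Set F.Df) (a C0 e : ℝ) (p q α : F.Df), 0 < e →
      TopIn d 𝒯 a C0 e p q α →
      AnsX F 𝒯 a (2 * C0) C' e p q α (R.ev d.ψ) (d.Φ.tTb (R.gs d.ψ) d.t) := by
  obtain ⟨C, c, hb⟩ := hb_unif hbStmt K0 κ0 RJ hκ
  have a0 := le_abs_self C
  refine ⟨7 + 2 * |C|, by positivity, fun F hF hA N P R d 𝒯 a C0 e p q α he h => ?_⟩
  have hb := hb F hF (fun i => (hA i).1) fun i => (hA i).2
  have hR := h.net
  have c0 := hb.C0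
  have hT := ((j1Stmt F N R hF hR).2.2.2.2 P _ h.flow).2 _ _ (K71.let_grad hR d.Φ h.top h.tC)
  obtain ⟨C1, h1⟩ := ((j1Stmt F N R hF hR).2.2.2.1 _ h.top).1
  obtain ⟨C2, h2⟩ := hT.2.1
  obtain ⟨C3, c3, h3⟩ := dv_field hbStmt clsStmt j1Stmt clStmt hF h
  obtain ⟨C4, h4⟩ := vg_field gramStmt regGStmt flatStmt hF h
  obtain ⟨C5, h5, h6⟩ := vf_field hbStmt j1Stmt regStmt flatStmt hF h
  have h7 := gf_field (C' := 7 + 2 * |C|) (by linarith) he.le gramStmt regStmt regGStmt hF h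
  have h8 := eq_field (C' := 7 + 2 * |C|) hb (by linarith) he clsStmt j1Stmt clStmt gramStmt
    regGStmt colStmt hF h
  have h9 := en_field gramStmt regGStmt hF h
  have H := qs_pos hF (Mo.and (Mo.and ?m4 ?m5) (Mo.and (Mo.and ?m6 ?m7) (Mo.and ?m8 ?m9)))
    (Qs.and hF (Mo.and ?m4 ?m5) (Mo.and (Mo.and ?m6 ?m7) (Mo.and ?m8 ?m9))
      (Qs.and hF ?m4 ?m5 h4 h5) (Qs.and hF (Mo.and ?m6 ?m7) (Mo.and ?m8 ?m9)
        (Qs.and hF ?m6 ?m7 h6 h7) (Qs.and hF ?m8 ?m9 h8 h9)))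
  case m4 => exact fun _ _ _ _ _ hB ⟨Ω, a1, a2⟩ => ⟨Ω, Ver.mono a1 le_rfl le_rfl hB, by linarith⟩
  case m5 => exact fun _ _ _ _ _ hB ⟨Ω, a1⟩ => ⟨Ω, Ver.mono a1 le_rfl le_rfl hB⟩
  case m6 => exact fun _ _ _ _ _ hB H z ν hν => (H z ν hν).trans (by linarith)
  case m7 => exact fun _ _ _ _ _ hB H => Exc.mono H le_rfl (by linarith) fun _ => le_rfl
  case m8 => exact fun _ _ _ _ _ hB H ν hν G hG => (H ν hν G hG).trans (by linarith)
  case m9 => exact fun _ _ _ _ _ hB H => H.trans (by linarith)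
  have a1 := abs_nonneg C1
  have a2 := abs_nonneg C2
  have a4 := abs_nonneg C4
  have a5 := abs_nonneg C5
  refine ⟨1 + |C1| + |C2| + C3 + |C4| + |C5|, by linarith, fun e1 he1 => ?_⟩
  obtain ⟨η, η0, D, hD, C6, c6, H⟩ := H e1 he1
  refine ⟨η, η0, D, hD, C6, c6, H.mono fun i b => ⟨hT.2.2 i, fun x => (h1 ⟨i, x⟩).trans ?_,
    fun x => (h2 ⟨i, x⟩).trans ?_, fun w ν hν => (h3 i w ν hν).trans ?_, fun w hw => ?_,
    fun w hw => ?_, fun w hw => (b w hw).2.1.2, fun w hw => (b w hw).2.2.1,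
    fun w hw => (b w hw).2.1.1, fun w hw => (b w hw).2.2.2⟩⟩
  · linarith [le_abs_self C1]
  · linarith [le_abs_self C2]
  · exact mul_le_mul_of_nonneg_right (mul_le_mul_of_nonneg_right (by linarith) (nrm_nonneg _))
      (Real.sqrt_nonneg _)
  · obtain ⟨Ω, b1, b2⟩ := (b w hw).1.1
    exact ⟨Ω, Ver.mono b1 le_rfl (mul_le_mul_of_nonneg_right (by linarith [le_abs_self C4])
      (nrm_nonneg _)) le_rfl, b2⟩
  · obtain ⟨Ω, b1⟩ := (b w hw).1.2
    exact ⟨Ω, Ver.mono b1 le_rfl (mul_le_mul_of_nonneg_right (by linarith [le_abs_self C5])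
      (nrm_nonneg _)) le_rfl⟩

/-! ### the model side -/

/-- the canonical diagonal -/
def a0 (β : ℝ) (ν : Measure ℝ) (g : ℝ → ℝ) (b : ℝ) : ℝ := 1 / g b + β ^ 2 * ∫ x, g x ∂ν
/-- the diagonal of the ansatz -/
def alf (s0 a : ℝ) (ρ : ℝ → ℝ) (b : ℝ) : ℝ := 1 / sech2 b + s0 - a / (ρ b * sech2 b)

/-- the susceptibility -/
structure MO (β l a : ℝ) (ν : Measure ℝ) (g : ℝ → ℝ) : Prop where
  cont : Continuous g
  even : ∀ b, g (-b) = g b
  pos : ∀ b, 0 < g b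
  lo : ∀ b, sech2 b / 4 ≤ g b
  hi : ∀ b, β * g b ≤ sech2 b * (1 - β * (l - a))
  a0 : ∀ b, 0 < a0 β ν g b ∧ sech2 b * a0 β ν g b ≤ 4

/-- the diagonals of the ansatz -/
structure DO (l a e s0 : ℝ) (al0 ρ : ℝ → ℝ) : Prop where
  cb : S3P.Cb ρ
  even : ∀ b, ρ (-b) = ρ b
  lo : ∀ b, l / 4 ≤ ρ b
  hi : ∀ b, ρ b ≤ 3
  al : ∀ b, sech2 b * |alf s0 a ρ b - al0 b| ≤ e

theorem do_of {n : ℕ} {N : Nt.Net n} {l a e : ℝ} {al0 ρ : ℝ → ℝ} {ψ : Fn (Ix n)}
    {m : Ix n → Fn (Ix n)} (h : N.Top l a e al0 ψ m ρ) : DO l a e (N.S 0 0) al0 ρ :=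
  ⟨S3P.Cb.clm (φ := fun p : ℝ × (Ix n → ℝ) => ρ p.1)
      (fun k => (Nt.All.tl.bs _).iter h.bρ k true) (ContinuousLinearMap.inl ℝ ℝ _),
    fun b => (h.hρ b).1, fun b => (h.hρ b).2.1, fun b => (h.hρ b).2.2,
    fun b => (le_div_iff₀' (sech2_pos b)).1 (h.hal b)⟩

lemma alf_mul {s0 a : ℝ} {ρ : ℝ → ℝ} {b : ℝ} (h : ρ b ≠ 0) :
    ρ b + ρ b * sech2 b * s0 - a = alf s0 a ρ b * (ρ b * sech2 b) := by
  have := (sech2_pos b).ne'
  rw [alf]; field_simp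

lemma S00 {β : ℝ} {ν : Measure ℝ} [IsProbabilityMeasure ν] {n : ℕ} {N : Nt.Net n} (h : N.Ok β ν) :
    N.S 0 0 = β ^ 2 * ∫ b, sech2 b ∂ν := (Nt.All.factStmt β ν n N h).2.2.2

theorem modelOut (𝒞 : Cls) (h𝒞 : ∀ m, 𝒞.C m = PV m) {β a : ℝ} (h0 : 0 < β) (h1 : β < 1)
    (ha : a ∈ Ico 0 (lam 𝒞 β)) (ν : Measure ℝ) [IsProbabilityMeasure ν] :
    ∃ g, MO β (lam 𝒞 β) a ν g ∧ ∀ e > (0 : ℝ), ∀ (n : ℕ) (N : Nt.Net n), N.Ok β ν →
      ∃ (n' : ℕ) (N' : Nt.Net n') (ι : Ix n → Ix n'), N'.Ok β ν ∧ N.Ext N' ι ∧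
        ∃ ψ m ρ, N'.TopW (lam 𝒞 β) a e (a0 β ν g) ψ m ρ := by
  obtain ⟨γ, h, c1, c2, c3, H⟩ := Nt.All.netStmtW 𝒞 h𝒞 β h0 h1 a ha ν
  have s1 : ∀ b, sech2 b ≤ 1 := fun b => by
    rw [sech2, div_le_one (by positivity [Real.cosh_pos b])]
    exact one_le_pow₀ (Real.one_le_cosh b)
  have p0 : ∀ b, 0 < γ b := fun b => (sech2_pos b).trans_le (c2 b).2.1
  obtain ⟨t, ht, g, g1, g2, g3⟩ := Tw.exists_fix β ν (M := 1 / β) c1 (fun b => (c2 b).2.1)
    (fun b => by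
      rw [le_div_iff₀' h0]
      nlinarith [(c2 b).2.2, s1 b, mul_pos (sech2_pos b) (mul_pos h0 (sub_pos.2 ha.2))]) c3
  have h3 : h ≤ 3 := by
    obtain ⟨N0, o0⟩ := Nt.All.trivStmt β h0 ν
    obtain ⟨n', N', ι, o, -, ψ, m, ρ, T, -⟩ := H 1 one_pos 0 N0 o0
    have e1 := (abs_le.1 (T.hal 0)).1
    have e2 : sech2 0 = 1 := by simp [sech2]
    have e3 : ∫ b, sech2 b ∂ν ≤ 1 := by
      simpa using norm_integral_le_of_norm_le_const (μ := ν) (f := sech2) (C := 1)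
        (ae_of_all _ fun b => by rw [Real.norm_of_nonneg (sech2_pos b).le]; exact s1 b) |>.trans'
          (le_abs_self _)
    have e4 : 0 ≤ a / (ρ 0 * sech2 0) := div_nonneg ha.1
      (mul_nonneg (by linarith [(T.hρ 0).2.1, ha.1, ha.2]) (sech2_pos 0).le)
    have e5 := one_div_pos.2 (p0 0)
    have e6 : β ^ 2 ≤ 1 := by nlinarith
    rw [S00 o, e2] at e1
    rw [e2] at e4
    nlinarith [mul_le_mul_of_nonneg_left e3 (sq_nonneg β)]
  have h0' : 0 ≤ h := ht.1.trans ht.2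
  have e : a0 β ν g = fun b => 1 / γ b + h := funext fun b => (g3 b).2.2.2.symm
  refine ⟨g, ⟨g2, fun b => by rw [g1, g1, (c2 b).1], fun b => (g3 b).2.1,
    fun b => le_trans (div_le_div_of_nonneg_left (sech2_pos b).le (by linarith) (by linarith))
      (g3 b).1, fun b => (mul_le_mul_of_nonneg_left (g3 b).2.2.1 h0.le).trans (c2 b).2.2,
    fun b => ?_⟩, e ▸ H⟩
  rw [e]
  have : sech2 b * (1 / γ b) ≤ 1 := by rw [mul_one_div, div_le_one (p0 b)]; exact (c2 b).2.1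
  exact ⟨by positivity [p0 b], by nlinarith [s1 b, sech2_pos b]⟩

/-! ### the family -/

/-- everything that the realisation of a top family gives -/
structure Out (F : Fam) (ν : Measure ℝ) {n : ℕ} (N : Nt.Net n) (l a e C' : ℝ) (ψ : Fn (Ix n))
    (m : Ix n → Fn (Ix n)) (ρ : ℝ → ℝ) (R : Net F n) (Ag : F.Lf (n + 1) → Fn (Ix n) → Prop)
    (d : Tp R (n + 1)) : Prop where
  rz : Rz F N R Ag
  rx : RX F ν N R Ag
  top : TopIn d (TyB F) a (8 / (l - a) ^ 2 + 2) e (fun i k => sech2 (bv F i k) + e)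
    (fun i k => ρ (bv F i k) * sech2 (bv F i k))
    fun i k => ρ (bv F i k) + ρ (bv F i k) * sech2 (bv F i k) * N.S 0 0 - a
  hψ : d.ψ = fl F ψ
  ht : ∀ u, d.t u = fl F (m u)
  hal : ∀ u, d.Φ.al u = fl F (N.al u)
  ha : ∀ u v, d.Φ.a u v = fl F (N.a u v)
  ans : AnsX F (TyB F) a (2 * (8 / (l - a) ^ 2 + 2)) C' e (fun i k => sech2 (bv F i k) + e)
    (fun i k => ρ (bv F i k) * sech2 (bv F i k))
    (fun i => (fun k => alf (N.S 0 0) a ρ (bv F i k)) * fun k => ρ (bv F i k) * sech2 (bv F i k))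
    (R.ev (fl F ψ)) (d.Φ.tTb (R.gs d.ψ) d.t)

/-- the ansatz rescaled by `2 / 3`: `l / 6 * sech² ≤ q ≤ 2 sech²` -/
theorem Out.ans' {F : Fam} {ν : Measure ℝ} {n : ℕ} {N : Nt.Net n} {l a e C' : ℝ} {ψ : Fn (Ix n)}
    {m : Ix n → Fn (Ix n)} {ρ : ℝ → ℝ} {R : Net F n} {Ag : F.Lf (n + 1) → Fn (Ix n) → Prop}
    {d : Tp R (n + 1)} (h : Out F ν N l a e C' ψ m ρ R Ag d) (hF : F.Ok) (hC : 0 ≤ C') (he : 0 ≤ e) :
    AnsX F (TyB F) a (2 * (8 / (l - a) ^ 2 + 2)) C' e (fun i k => sech2 (bv F i k) + e)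
      (fun i k => 2 / 3 * ρ (bv F i k) * sech2 (bv F i k))
      (fun i => (fun k => alf (N.S 0 0) a ρ (bv F i k)) *
        fun k => 2 / 3 * ρ (bv F i k) * sech2 (bv F i k))
      (fun ω => (2 / 3 : ℝ) • R.ev (fl F ψ) ω) fun ω => (2 / 3 : ℝ) • d.Φ.tTb (R.gs d.ψ) d.t ω := by
  convert h.ans.scale hF (c := 2 / 3) (by norm_num) (by norm_num) (by positivity) hC he
    fun i k => add_nonneg (sech2_pos _).le he using 1
  · funext i k; simp [mul_assoc]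
  · funext i k; simp; ring



end Crest.Agent.T157.S3.T60

end
end

-- ▼ part T157/TyG_23
section

/-!
# Row 157, part B (S1, G2): typical tuples of gauges (helper23)
-/

set_option autoImplicit false

noncomputable section

namespace Crest.Agent.T157.Pos

open MeasureTheory ProbabilityTheory Matrix Filter Set Topology
open Crest.ProbabilityR.SpinGlassDynamics
open Crest.Agent.T157.E Crest.Agent.T157.Eig Crest.Agent.T157.Cond Crest.Agent.T157.Tap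
open Crest.Agent.T157.SL
open Crest.Agent.T157.Pl (tau cmul isSign_sv)

variable {n : ℕ} {β s : ℝ}

/-- the gauged instance -/
def In.gg (i : In) (σ : Cube i.n) : In := ⟨i.n, tau σ * i.g, i.d, sv σ * i.y⟩

lemma In.gg_J (i : In) (σ : Cube i.n) :
    (i.gg σ).J β = diagonal (sv σ) * i.J β * diagonal (sv σ) := by
  simp only [In.J, In.gg, Pl.Jmat_gauge, Matrix.mul_smul, Matrix.smul_mul]
  rfl

lemma In.gg_mag (i : In) (σ : Cube i.n) :
    mag (ising ((i.gg σ).J β) (i.gg σ).y) = sv σ * mag (ising (i.J β) i.y) := by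
  rw [In.gg_J]; exact (congrArg mag (Pl.ising_gauge σ _ _)).trans (Pl.mag_gauge σ _)

lemma In.gg_b (i : In) (σ : Cube i.n) : (i.gg σ).b β = sv σ * i.b β := by
  rw [In.b_eq, In.b_eq, In.gg_mag, In.gg_J]
  have h := isSign_sv σ
  have e := TapPl.cj_mulVec h (i.J β) (mag (ising (i.J β) i.y))
  rw [TapPl.cj] at e
  rw [mul_sub, mul_add, mul_smul_comm, ← e, ← TapPl.DD_sign h (mag (ising (i.J β) i.y))]
  rfl

lemma mp_law (σ : Cube n) (g : Pair n → ℝ) : MeasurePreserving (fun y => sv σ * y)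
    (law sv (gibbsWeight n β g) s) (law sv (gibbsWeight n β (tau σ * g)) s) := by
  have hm : Measurable fun y : V n => sv σ * y := (isSign_sv σ).emb.measurable
  refine ⟨hm, ?_⟩
  rw [law, law, Measure.map_finset_sum' hm.aemeasurable, ← Equiv.sum_comp (Pl.gauge σ)]
  refine Finset.sum_congr rfl fun x _ => ?_
  have e : (Gs (Fin n)).map (fun z => sv σ * z) = Gs (Fin n) :=
    (Pl.mp_sign_law false (isSign_sv σ)).map_eq
  rw [Measure.map_smul, Pl.prob_gauge, Measure.map_map hm (by fun_prop)]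
  conv_rhs => rw [← e, Measure.map_map (by fun_prop) hm]
  congr 2; funext z
  simp only [Function.comp_apply, Pl.gauge_apply, Pl.sv_cmul, mul_add, mul_smul_comm,
    (isSign_sv σ).mul_self]

/-- number of the events which occur -/
def cnt {X I : Type*} [Fintype I] (A : I → Set X) (x : X) : ℝ := ∑ i, (A i).indicator 1 x

lemma markov_cnt {X I : Type*} [MeasurableSpace X] [Fintype I] (μ : Measure X) [IsFiniteMeasure μ]
    (A : I → Set X) (t : ℝ) : t * μ.real {x | ¬ cnt A x < t} ≤ ∑ i, μ.real (A i) := by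
  have hi : ∀ i, Integrable ((toMeasurable μ (A i)).indicator (1 : X → ℝ)) μ := fun i =>
    (integrable_const _).indicator (measurableSet_toMeasurable μ _)
  rcases le_total t 0 with ht | ht
  · exact (mul_nonpos_of_nonpos_of_nonneg ht measureReal_nonneg).trans
      (Finset.sum_nonneg fun _ _ => measureReal_nonneg)
  have h := mul_meas_ge_le_integral_of_nonneg (μ := μ)
    (f := fun x => ∑ i, (toMeasurable μ (A i)).indicator (1 : X → ℝ) x)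
    (ae_of_all _ fun x => Finset.sum_nonneg fun i _ =>
    indicator_nonneg (fun _ _ => zero_le_one) x) (integrable_finsetSum Finset.univ fun i _ => hi i) t
  rw [integral_finsetSum _ fun i _ => hi i] at h
  simp only [integral_indicator_one (measurableSet_toMeasurable μ _), Measure.real,
    measure_toMeasurable] at h
  refine le_trans (mul_le_mul_of_nonneg_left (measureReal_mono fun x hx => ?_) ht) h
  exact (not_lt.1 hx).trans (Finset.sum_le_sum fun i _ => indicator_le_indicator_of_subset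
    (subset_toMeasurable μ _) (fun _ => zero_le_one) x)

/-- most gauges of a typical instance are typical -/
theorem TF.most {P : In → Prop} (h : ∀ᶠ i in TF β s, P i) {δ : ℝ} (hδ : 0 < δ) :
    ∀ᶠ i in TF β s, cnt (fun σ : Cube i.n => {_u : Unit | ¬ P (i.gg σ)}) () < δ * 2 ^ i.n := by
  refine ev_TF.2 fun ε hε => ?_
  have h1 := (ev_TF.1 h (δ * ε / 2) (by positivity)).real.const_mul (2 / (δ * ε))
  rw [mul_zero] at h1
  refine Top.Whp.imp (P := fun n p => cnt (fun σ : Cube n => {p : (Pair n → ℝ) × V n |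
    ¬ bad β s P n (tau σ * p.1, p.2) ≤ δ * ε / 2}) p < δ * ε / 2 * 2 ^ n)
      (Top.whp_of_real_le h1 (.of_forall fun n => ?_)) fun n p hp => ?_
  · refine le_of_mul_le_mul_left ((markov_cnt (GD n) _ _).trans ((Finset.sum_le_card_nsmul _ _
      ((GD n).real {p | ¬ bad β s P n p ≤ δ * ε / 2}) fun σ _ => ENNReal.toReal_mono
        (measure_ne_top _ _) (((Pl.mp_gauge false σ).prod (.id (gv (Fin n)))).measure_preimage_le
          {p | ¬ bad β s P n p ≤ δ * ε / 2})).trans_eq ?_)) (by positivity)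
    simp only [Finset.card_univ, Fintype.card_fun, Fintype.card_bool, Fintype.card_fin,
      nsmul_eq_mul]
    generalize (GD n).real _ = r
    push_cast; field_simp
  have := prob_law β s n p.1
  refine le_of_mul_le_mul_left (a := δ * 2 ^ n) (le_trans (markov_cnt (law sv (gibbsWeight n β p.1) s)
    (fun σ : Cube n => {y | ¬ P ⟨n, tau σ * p.1, p.2, sv σ * y⟩}) _) ?_) (by positivity)
  refine (Finset.sum_le_sum (g := fun σ => δ * ε / 2 + {p : (Pair n → ℝ) × V n |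
    ¬ bad β s P n (tau σ * p.1, p.2) ≤ δ * ε / 2}.indicator 1 p) fun σ _ => ?_).trans ?_
  · have := prob_law β s n (tau σ * p.1)
    by_cases hc : bad β s P n (tau σ * p.1, p.2) ≤ δ * ε / 2
    · rw [indicator_of_notMem (by exact not_not.2 hc), add_zero]
      exact le_trans (ENNReal.toReal_mono (measure_ne_top _ _)
        ((mp_law σ p.1).measure_preimage_le {y | ¬ P ⟨n, tau σ * p.1, p.2, y⟩})) hc
    · rw [indicator_of_mem (by exact hc)]
      exact measureReal_le_one.trans (le_add_of_nonneg_left (by positivity))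
  rw [Finset.sum_add_distrib, Finset.sum_const, Finset.card_univ, Fintype.card_fun,
    Fintype.card_bool, Fintype.card_fin, nsmul_eq_mul]
  unfold cnt at hp
  push_cast; linarith

lemma sum_dot_sq (u : V n) : ∑ x : Cube n, (sv x ⬝ᵥ u) ^ 2 = 2 ^ n * (u ⬝ᵥ u) := by
  have e : ∀ i j, ∑ x : Cube n, sv x i * sv x j = if i = j then 2 ^ n else 0 := fun i j => by
    split_ifs with h
    · subst h; simp [sv, spin_mul_self]
    · have := Equiv.sum_comp (Pl.gauge (Function.update (Pl.one n) i false))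
        fun x : Cube n => sv x i * sv x j
      simp only [Pl.gauge_apply, Pl.sv_cmul, Pi.mul_apply] at this
      simp only [sv, Function.update_self, Function.update_of_ne (Ne.symm h), Pl.one, spin,
        if_true, Bool.false_eq_true, if_false, neg_mul, one_mul, Finset.sum_neg_distrib] at this ⊢
      linarith
  simp only [sq, dotProduct, Finset.sum_mul_sum, mul_mul_mul_comm _ (u _)]
  rw [Finset.sum_comm, Finset.mul_sum]
  refine Finset.sum_congr rfl fun i _ => ?_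
  rw [Finset.sum_comm]
  simp [← Finset.sum_mul, e]

lemma greedy {ι : Type*} [Fintype ι] {R : Cube n → Prop} {f : ι → V n} {B T : ℝ} (hT : 0 < T)
    (hR : cnt (fun σ : Cube n => {_u : Unit | ¬ R σ}) () < 1 / 2 * 2 ^ n)
    (hf : ∀ l, f l ⬝ᵥ f l ≤ B) (N : ℕ) (hN : 2 * (N * (Fintype.card ι * B)) ≤ T ^ 2) :
    ∀ k ≤ N, ∃ σ : Fin k → Cube n, (∀ a, R (σ a)) ∧
      ∀ a b, a ≠ b → ∀ l, |sv (σ a) ⬝ᵥ (sv (σ b) * f l)| ≤ T := by
  intro k
  induction k with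
  | zero => exact fun _ => ⟨Fin.elim0, fun a => a.elim0, fun a => a.elim0⟩
  | succ k ih =>
    intro hk
    obtain ⟨σ, h1, h2⟩ := ih (by omega)
    obtain ⟨x, -, hx⟩ := Finset.exists_lt_of_sum_lt (s := Finset.univ) (g := fun _ => T ^ 2)
      (f := fun x : Cube n => ∑ a, ∑ l, (sv x ⬝ᵥ (sv (σ a) * f l)) ^ 2 +
        T ^ 2 * {_u : Unit | ¬ R x}.indicator 1 ()) (by
      rw [Finset.sum_add_distrib, ← Finset.mul_sum, Finset.sum_comm, Finset.sum_const,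
        Finset.card_univ, Fintype.card_fun, Fintype.card_bool, Fintype.card_fin, nsmul_eq_mul]
      have t1 : ∑ a, ∑ x : Cube n, ∑ l, (sv x ⬝ᵥ (sv (σ a) * f l)) ^ 2 ≤
          k * (2 ^ n * ∑ l, f l ⬝ᵥ f l) := by
        refine (Finset.sum_le_card_nsmul _ _ (2 ^ n * ∑ l, f l ⬝ᵥ f l) fun a _ => ?_).trans_eq
          (by simp)
        rw [Finset.sum_comm, Finset.mul_sum]
        exact Finset.sum_le_sum fun l _ => by
          rw [sum_dot_sq, TapPl.dot_sign (isSign_sv _)]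
      have t2 : ∑ l, f l ⬝ᵥ f l ≤ Fintype.card ι * B := by
        simpa using Finset.sum_le_card_nsmul Finset.univ _ _ fun l _ => hf l
      have t0 : 0 ≤ ∑ l, f l ⬝ᵥ f l := Finset.sum_nonneg fun l _ => Eig.dot_self_nonneg _
      have t3 : (k : ℝ) * ∑ l, f l ⬝ᵥ f l ≤ N * (Fintype.card ι * B) :=
        mul_le_mul (by exact_mod_cast (by omega)) t2 t0 (Nat.cast_nonneg N)
      have t4 := mul_lt_mul_of_pos_left hR (pow_pos hT 2)
      have t5 := mul_le_mul_of_nonneg_left (show k * ∑ l, f l ⬝ᵥ f l ≤ T ^ 2 / 2 by linarith)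
        (show (0 : ℝ) ≤ 2 ^ n by positivity)
      unfold cnt at t4
      push_cast; linarith)
    have s0 : ∀ a, 0 ≤ ∑ l, (sv x ⬝ᵥ (sv (σ a) * f l)) ^ 2 := fun a => by positivity
    have hR' : R x := by
      by_contra hc
      rw [indicator_of_mem (by exact hc), Pi.one_apply, mul_one] at hx
      linarith [Finset.sum_nonneg fun a (_ : a ∈ Finset.univ) => s0 a]
    rw [indicator_of_notMem (by exact not_not.2 hR'), mul_zero, add_zero] at hx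
    have h3 : ∀ a l, |sv x ⬝ᵥ (sv (σ a) * f l)| ≤ T := fun a l => abs_le_of_sq_le_sq
      (((Finset.single_le_sum (f := fun l => (sv x ⬝ᵥ (sv (σ a) * f l)) ^ 2)
        (fun _ _ => sq_nonneg _) (Finset.mem_univ l)).trans (Finset.single_le_sum
          (fun a _ => s0 a) (Finset.mem_univ a))).trans hx.le) hT.le
    refine ⟨Fin.cons x σ, fun a => Fin.cases hR' h1 a, fun a b => ?_⟩
    refine Fin.cases ?_ (fun a => ?_) a <;> refine Fin.cases ?_ (fun b => ?_) b <;> intro hab l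
    · exact absurd rfl hab
    · exact h3 b l
    · have := h3 a l
      rwa [show sv x ⬝ᵥ (sv (σ a) * f l) = sv (σ a) ⬝ᵥ (sv x * f l) from
        Finset.sum_congr rfl fun _ _ => by simp only [Pi.mul_apply]; ring] at this
    · exact h2 a b (fun e => hab (congrArg _ e)) l

lemma bessel {N : ℕ} {u : Fin N → V n} {A T : ℝ} (hT : 0 ≤ T) (hA : 0 ≤ A)
    (h1 : ∀ a, u a ⬝ᵥ u a ≤ A) (h2 : ∀ a b, a ≠ b → |u a ⬝ᵥ u b| ≤ T) (w : V n) :
    ∑ a, (u a ⬝ᵥ w) ^ 2 ≤ (A + N * T) * (w ⬝ᵥ w) := by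
  set c : Fin N → ℝ := fun a => u a ⬝ᵥ w with hc
  set z := ∑ a, c a • u a with hz
  have e1 : z ⬝ᵥ w = ∑ a, c a ^ 2 := by
    simp only [hz, sum_dotProduct, smul_dotProduct, smul_eq_mul, sq, hc]
  have e2 : z ⬝ᵥ z ≤ (A + N * T) * ∑ a, c a ^ 2 := by
    have : z ⬝ᵥ z ≤ ∑ a, ∑ b, ((if a = b then A * c a ^ 2 else 0) + T / 2 * (c a ^ 2 + c b ^ 2)) := by
      simp only [hz, sum_dotProduct, dotProduct_sum, smul_dotProduct, dotProduct_smul, smul_eq_mul,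
        Finset.mul_sum]
      refine Finset.sum_le_sum fun a _ => Finset.sum_le_sum fun b _ => ?_
      split_ifs with h
      · subst h; nlinarith [h1 a, sq_nonneg (c a)]
      · have t := h2 b a (Ne.symm h)
        have t2 : c a * (c b * (u b ⬝ᵥ u a)) ≤ |c a| * |c b| * T := by
          rw [← mul_assoc, ← abs_mul]
          exact (le_abs_self _).trans ((abs_mul _ _).trans_le
            (mul_le_mul_of_nonneg_left t (abs_nonneg _)))
        nlinarith [sq_nonneg (|c a| - |c b|), sq_abs (c a), sq_abs (c b)]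
    refine this.trans_eq ?_
    simp only [Finset.sum_add_distrib, Finset.sum_ite_eq, Finset.mem_univ, if_true, mul_add,
      Finset.sum_const, Finset.card_univ, Fintype.card_fin, nsmul_eq_mul, ← Finset.mul_sum]
    ring
  have e3 : (z ⬝ᵥ w) ^ 2 ≤ z ⬝ᵥ z * (w ⬝ᵥ w) := by
    rw [← sq_abs, ← nrm_sq, ← nrm_sq, ← mul_pow]
    exact pow_le_pow_left₀ (abs_nonneg _) (abs_dot_le _ _) 2
  have w0 := Eig.dot_self_nonneg w
  rcases (Finset.sum_nonneg fun a (_ : a ∈ Finset.univ) => sq_nonneg (c a)).eq_or_lt with h | h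
  · rw [← h]; positivity
  · rw [e1] at e3
    refine le_of_mul_le_mul_left ?_ h
    nlinarith [mul_le_mul_of_nonneg_right e2 w0]

/-- **(G2)** a typical instance has `N` typical gauged copies with nearly orthogonal gauges -/
theorem TF.tuple {P : In → Prop} (h : ∀ᶠ i in TF β s, P i) {ι : Type*} [Fintype ι]
    (f : ι → ∀ i : In, V i.n) {B : ℝ} (hf : ∀ l i k, |f l i k| ≤ B) (N : ℕ) {ε : ℝ} (hε : 0 < ε) :
    ∀ᶠ i in TF β s, ∃ σ : Fin N → Cube i.n, (∀ a, P (i.gg (σ a))) ∧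
      ∀ a b, a ≠ b → ∀ l, |sv (σ a) ⬝ᵥ (sv (σ b) * f l i)| ≤ ε * i.n := by
  filter_upwards [TF.most h one_half_pos, TF.lim.eventually ((eventually_gt_atTop 0).and
    (tendsto_natCast_atTop_atTop.eventually_ge_atTop (2 * (N * (Fintype.card ι * B ^ 2)) / ε ^ 2)))]
    with i h1 ⟨h2, h3⟩
  have hn : (0 : ℝ) < i.n := by positivity
  rw [div_le_iff₀ (by positivity)] at h3
  refine greedy (B := B ^ 2 * i.n) (by positivity) h1 (fun l => ?_) N (by nlinarith) N le_rfl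
  rw [dot_eq, mul_comm, ← nsmul_eq_mul, ← Fin.sum_const]
  exact Finset.sum_le_sum fun k _ => sq_le_sq' (abs_le.1 (hf l i k)).1 (abs_le.1 (hf l i k)).2

/-- **(G2)** for every vector `w` some typical gauged copy is nearly orthogonal to the types -/
theorem TF.gauge {ι : Type*} [Fintype ι] (B : ℝ) {e : ℝ} (he : 0 < e) : ∃ N : ℕ, 0 < N ∧
    ∀ (β s : ℝ) (P : In → Prop), (∀ᶠ i in TF β s, P i) → ∀ d : ι → ∀ i : In, V i.n,
      (∀ l i k, |d l i k| ≤ B) → ∀ᶠ i in TF β s, ∃ σ : Fin N → Cube i.n, (∀ a, P (i.gg (σ a))) ∧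
        ∀ w : V i.n, ∃ a, ∑ l, ((sv (σ a) * d l i) ⬝ᵥ w) ^ 2 ≤ e * i.n * (w ⬝ᵥ w) := by
  set c : ℝ := Fintype.card ι + 1 with hc
  have c0 : 0 < c := by positivity
  obtain ⟨N, hN⟩ := exists_nat_gt (2 * c * B ^ 2 / e)
  have N0 : (0 : ℝ) < N := lt_of_le_of_lt (by positivity) hN
  rw [div_lt_iff₀ he] at hN
  refine ⟨N, by exact_mod_cast N0, fun β s P h d hd => (TF.tuple h (fun l i => d l i * d l i)
    (B := B ^ 2) (fun l i k => by
      rw [Pi.mul_apply, abs_mul_self, ← sq]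
      exact sq_le_sq' (abs_le.1 (hd l i k)).1 (abs_le.1 (hd l i k)).2) N
        (show 0 < e / (2 * c) by positivity)).mono fun i ⟨σ, h1, h2⟩ => ⟨σ, h1, fun w => ?_⟩⟩
  have w0 := Eig.dot_self_nonneg w
  have : Nonempty (Fin N) := ⟨⟨0, by exact_mod_cast N0⟩⟩
  obtain ⟨a, -, ha⟩ := Finset.exists_le_of_sum_le (s := Finset.univ) Finset.univ_nonempty
    (f := fun a => ∑ l, ((sv (σ a) * d l i) ⬝ᵥ w) ^ 2) (g := fun _ => e * i.n * (w ⬝ᵥ w)) (by
    rw [Finset.sum_comm, Fin.sum_const, nsmul_eq_mul]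
    refine (Finset.sum_le_card_nsmul _ _ _ fun l _ => bessel (A := B ^ 2 * i.n)
      (T := e / (2 * c) * i.n) (by positivity) (by positivity) (fun a => ?_)
        (fun a b hab => ?_) w).trans ?_
    · rw [TapPl.dot_sign (isSign_sv _), dot_eq, mul_comm, ← nsmul_eq_mul, ← Fin.sum_const]
      exact Finset.sum_le_sum fun k _ => sq_le_sq' (abs_le.1 (hd l i k)).1 (abs_le.1 (hd l i k)).2
    · convert h2 a b hab l using 2
      exact Finset.sum_congr rfl fun _ _ => by simp only [Pi.mul_apply]; ring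
    · rw [Finset.card_univ, nsmul_eq_mul]
      refine (mul_le_mul_of_nonneg_right (show _ ≤ c by linarith) (by positivity)).trans ?_
      rw [show c * ((B ^ 2 * i.n + N * (e / (2 * c) * i.n)) * (w ⬝ᵥ w)) =
        (c * B ^ 2 + N * e / 2) * (i.n * (w ⬝ᵥ w)) by field_simp, mul_assoc e, ← mul_assoc]
      rw [← mul_assoc (N : ℝ), mul_assoc _ (i.n : ℝ)]
      exact mul_le_mul_of_nonneg_right (by linarith) (by positivity))
  exact ⟨a, ha⟩

end Crest.Agent.T157.Pos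

end
end

-- ▼ part T157/S1SupA_60
section

/-!
# Row 157, block S1 (helper60): the ansatz along the typical filter; only odd types remain
-/

set_option autoImplicit false

noncomputable section

namespace Crest.Agent.T157.S1.SA

open Matrix Filter Finset
open Crest.Agent.T157.Eig
open Crest.Agent.T157.E (Cube sv ising prob)
open Crest.Agent.T157.Rec (grad)
open Crest.Agent.T157.S3 Crest.Agent.T157.S3.Fam Crest.Agent.T157.S3.An90 Crest.Agent.T157.S3.Gg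
open Crest.Agent.T157.S3.T60 (TyB bv)
open Crest.Agent.T157.Pos (In TF fam)

section inst
variable {n : ℕ}

/-- the gradient of `w · ψ` is `Tgᵀ w` up to an excess -/
def Lk (J : Mx n) (y : V n) (e1 η : ℝ) (E : V n → ℝ) (ψ : Cube n → V n) (Tg : Cube n → Mx n) : Prop :=
  ∀ w, ‖w‖ ≤ η → Exc (ising J y) e1 (E w) fun x => nrm (grad (fun z => w ⬝ᵥ ψ z) x - (Tg x)ᵀ *ᵥ w)

/-- one copy of the ansatz with its link -/
structure Cp (J : Mx n) (y : V n) (a C C0 C' e e1 η K : ℝ) (E : V n → ℝ) (p q α : V n)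
    (Tg : Cube n → Mx n) (ψ : Cube n → V n) (T : Cube n → Mx n) : Prop where
  ans : AnsAt J y a C C0 C' e e1 η K E p q α ψ T
  lk : Lk J y e1 η E ψ Tg

/-- the error for the test vectors `f` -/
def Ety (e1 C1 K : ℝ) {k : ℕ} (f : Fin k → V n) (w : V n) : ℝ :=
  e1 * (w ⬝ᵥ w) + K + C1 * ∑ j, (w ⬝ᵥ f j) ^ 2

variable {J : Mx n} {y p q α p' : V n} {a C C0 C' e e1 η K D D0 f1 η' K' : ℝ} {E E' : V n → ℝ}
  {ψ : Cube n → V n} {T Tg : Cube n → Mx n}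

theorem amono (h : AnsAt J y a C C0 C' e e1 η K E p q α ψ T) (hC : C ≤ D)
    (hp : ∀ w, C0 * (w ⬝ᵥ (p * w)) ≤ D0 * (w ⬝ᵥ (p' * w))) (he : e1 ≤ f1) (hη : η' ≤ η) (hK : K ≤ K')
    (hE : ∀ w, E w ≤ E' w) : AnsAt J y a D D0 C' e f1 η' K' E' p' q α ψ T := by
  have c0 : 0 ≤ C := (opn_nonneg _).trans (h.opψ default)
  have n1 : ∀ w : V n, C * nrm w ≤ D * nrm w := fun w =>
    mul_le_mul_of_nonneg_right hC (nrm_nonneg w)
  have k1 : ∀ ν, Chain22.IsP ν → e1 * Ent.kl ν (prob (ising J y)) ≤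
      f1 * Ent.kl ν (prob (ising J y)) := fun ν hν =>
    mul_le_mul_of_nonneg_right he (Ent.kl_nonneg hν
      (Chain22.isP_prob' (Da.Gr.ising_pos J y)) (.of_pos _ (Chain22.prob_pos' (Da.Gr.ising_pos J y))))
  refine ⟨h.free, fun x => (h.opψ x).trans hC, fun x => (h.opT x).trans hC, fun w ν hν => ?_,
    fun w hw => ?_, fun w hw => ?_, fun w hw => ?_, fun w hw ν hν G hG => ?_,
    fun w hw z ν hν => ?_, fun w hw => ?_⟩
  · exact (h.dv w ν hν).trans (mul_le_mul (n1 w) (Real.sqrt_le_sqrt (by linarith))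
      (Real.sqrt_nonneg _) ((mul_nonneg c0 (nrm_nonneg w)).trans (n1 w)))
  · obtain ⟨Ω, h1, h2⟩ := h.vg w (hw.trans hη)
    exact ⟨Ω, Ver.mono h1 he (n1 w) (hE w), by linarith [hp w, hE w]⟩
  · obtain ⟨Ω, h1⟩ := h.vf w (hw.trans hη)
    exact ⟨Ω, Ver.mono h1 he (n1 w) (hE w)⟩
  · exact Exc.mono (h.gf w (hw.trans hη)) he (by linarith [hE w]) fun _ => le_rfl
  · linarith [h.eq w (hw.trans hη) ν hν G hG, hE w, k1 ν hν]
  · linarith [h.rs w (hw.trans hη) z ν hν, hE w, k1 ν hν,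
      mul_le_mul_of_nonneg_right he (dot_self_nonneg z)]
  · linarith [h.en w (hw.trans hη), hp w, hE w]

theorem Lk.mono (h : Lk J y e1 η E ψ Tg) (he : e1 ≤ f1) (hη : η' ≤ η) (hE : ∀ w, E w ≤ E' w) :
    Lk J y f1 η' E' ψ Tg := fun w hw => Exc.mono (h w (hw.trans hη)) he (hE w) fun _ => le_rfl

theorem Cp.mono (h : Cp J y a C C0 C' e e1 η K E p q α Tg ψ T) (hC : C ≤ D)
    (hp : ∀ w, C0 * (w ⬝ᵥ (p * w)) ≤ D0 * (w ⬝ᵥ (p' * w))) (he : e1 ≤ f1) (hη : η' ≤ η) (hK : K ≤ K')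
    (hE : ∀ w, E w ≤ E' w) : Cp J y a D D0 C' e f1 η' K' E' p' q α Tg ψ T :=
  ⟨amono h.ans hC hp he hη hK hE, h.lk.mono he hη hE⟩

/-- pull-back along a gauge transformation -/
theorem Cp.back (z : Cube n) (h : Cp (cj z J) (sv z * y) a C C0 C' e e1 η K E p q α Tg ψ T) :
    Cp J y a C C0 C' e e1 η K (fun w => E (sv z * w)) p q α (gM z Tg) (gV z ψ) (gM z T) := by
  refine ⟨ansAt' z h.ans, fun w hw => ?_⟩
  have := exc_g z (h.lk (sv z * w) ((norm_g z w).trans_le hw))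
  rw [cj_cj, gg] at this
  convert this using 2
  rw [Gg.grad_dot, congrFun (flow_g z w Tg), gV, gV, ← mul_sub, nrm_g]

end inst

/-- a flat test vector -/
def fv (β : ℝ) (u : ℝ → ℝ) (i : In) : V i.n := (√(i.n : ℝ))⁻¹ • fun k => u (i.b β k)
/-- odd part -/
def od (u : ℝ → ℝ) (x : ℝ) : ℝ := (u x - u (-x)) / 2

/-- the ansatz at one instance: one copy for all types, and for each weight a copy for the odd types -/
structure AnsI (β a C C0 C' e e1 η C1 : ℝ) {k : ℕ} (d : Fin k → ℝ → ℝ) (p q α : ℝ → ℝ)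
    (Tg : ∀ i : In, Cube i.n → Mx i.n) (i : In) : Prop where
  all : ∃ ψ T, Cp (i.J β) i.y a C C0 C' e e1 η (Real.log i.n)
    (Ety e1 C1 (C1 * Real.log i.n) fun j => fv β (d j) i) (fun l => p (i.b β l))
    (fun l => q (i.b β l)) (fun l => α (i.b β l)) (Tg i) ψ T
  odd : ∀ w, ∃ E ψ T, Cp (i.J β) i.y a C C0 C' e e1 η (Real.log i.n) E (fun l => p (i.b β l))
    (fun l => q (i.b β l)) (fun l => α (i.b β l)) (Tg i) ψ T ∧
    E w ≤ Ety e1 C1 (C1 * Real.log i.n) (fun j => fv β (od (d j)) i) w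

/-- **the ansatz along the typical filter** -/
def AnsT (β s a C0 C' e : ℝ) (p q α : ℝ → ℝ) (Tg : ∀ i : In, Cube i.n → Mx i.n) : Prop :=
  ∃ C ≥ (1 : ℝ), ∀ e1 > (0 : ℝ), ∃ η > (0 : ℝ), ∃ (k : ℕ) (d : Fin k → ℝ → ℝ) (C1 : ℝ),
    (∀ j, Continuous (d j) ∧ ∀ x, |d j x| ≤ 1) ∧ 0 ≤ C1 ∧
      ∀ᶠ i in TF β s, AnsI β a C C0 C' e e1 η C1 d p q α Tg i

/-- the same on a family -/
def AnsL (F : Fam) (a C0 C' e : ℝ) (p q α : F.Df) (Tg : ∀ i, Cube (F.n i) → Mx (F.n i)) : Prop :=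
  ∃ C ≥ (1 : ℝ), ∀ e1 > (0 : ℝ), ∃ η > (0 : ℝ), ∃ D : List F.Df, (∀ t ∈ D, t ∈ TyB F) ∧ ∃ C1 : ℝ,
    0 ≤ C1 ∧ ∀ᶠ i in F.l, ∃ ψ T, Cp (F.J i) (F.y i) a C C0 C' e e1 η (F.K i) (E0 e1 C1 D i) (p i)
      (q i) (α i) (Tg i) ψ T

variable {β s : ℝ} {G : In → Prop}

/-- normalisation of the types -/
lemma types (D : List (fam β s G).Df) (hD : ∀ t ∈ D, t ∈ TyB (fam β s G)) :
    ∃ (k : ℕ) (d : Fin k → ℝ → ℝ) (B : ℝ), (∀ j, Continuous (d j) ∧ ∀ x, |d j x| ≤ 1) ∧ 0 ≤ B ∧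
      ∀ i w, Fam.Pi D i w ^ 2 ≤ B * ∑ j, (w ⬝ᵥ fv β (d j) i.1) ^ 2 := by
  choose u u1 u2 u3 using fun j : Fin D.length => hD D[j.1] (List.getElem_mem _)
  choose B hB using u2
  set M : ℝ := 1 + ∑ j, |B j| with hM
  have M0 : 0 < M := by positivity
  have hM' : ∀ j x, |u j x| ≤ M := fun j x => ((hB j x).trans (le_abs_self _)).trans
    ((single_le_sum (f := fun j => |B j|) (fun _ _ => abs_nonneg _) (mem_univ j)).trans (by linarith))
  refine ⟨D.length, fun j x => u j x / M, M ^ 2 * D.length, fun j => ⟨(u1 j).div_const _, fun x => by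
    rw [abs_div, abs_of_pos M0, div_le_one M0]; exact hM' j x⟩, by positivity, fun i w => ?_⟩
  have e : Fam.Pi D i w = M * ∑ j, |w ⬝ᵥ fv β (fun x => u j x / M) i.1| := by
    rw [Fam.Pi, ← Fin.sum_univ_fun_getElem, sum_div, mul_sum]
    refine sum_congr rfl fun j _ => ?_
    have : D[j.1] i = M • fun k => u j (i.1.b β k) / M := by
      rw [u3 j]; funext k
      have e : bv (fam β s G) i = i.1.b β := S3P.bF_fam i
      simp only [e, Pi.smul_apply, smul_eq_mul]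
      field_simp
    rw [this, fv, dotProduct_smul, dotProduct_smul, smul_eq_mul, smul_eq_mul, abs_mul, abs_mul,
      abs_of_pos M0, abs_of_nonneg (inv_nonneg.2 (Real.sqrt_nonneg _))]
    ring
  have := sq_sum_le_card_mul_sum_sq (s := univ)
    (f := fun j => |w ⬝ᵥ fv β (fun x => u j x / M) i.1|)
  simp only [sq_abs, card_univ, Fintype.card_fin] at this
  rw [e, mul_pow, mul_assoc]
  exact mul_le_mul_of_nonneg_left this (sq_nonneg M)

lemma ev_g {u : ℝ → ℝ} (h : ∀ x, u (-x) = u x) (i : In) (σ : Cube i.n) :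
    (fun l => u ((i.gg σ).b β l)) = fun l => u (i.b β l) := by
  funext l
  refine (congrArg u (congrFun (Pos.In.gg_b (β := β) i σ) l)).trans ?_
  change u (sv σ l * i.b β l) = _
  rcases sv_cases σ l with e | e <;> simp [e, h]

lemma fv_g (u : ℝ → ℝ) (i : In) (σ : Cube i.n) (w : V i.n) : (sv σ * w) ⬝ᵥ fv β u (i.gg σ) =
    w ⬝ᵥ fv β (od u) i + (√(i.n : ℝ))⁻¹ *
      ((sv σ * fun l => (u (i.b β l) + u (-i.b β l)) / 2) ⬝ᵥ w) := by
  have e0 : fv β u (i.gg σ) = ((√(i.n : ℝ))⁻¹ • fun l => u (sv σ l * i.b β l) : V i.n) := by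
    rw [fv, Pos.In.gg_b]; rfl
  rw [e0]
  simp only [fv, dotProduct, Pi.smul_apply, smul_eq_mul, Pi.mul_apply, mul_sum, ← sum_add_distrib]
  refine sum_congr rfl fun l _ => ?_
  rcases sv_cases σ l with e | e <;> simp only [e, od, one_mul, neg_mul] <;> ring

/-- **the gauge step** -/
theorem ansT_of {a C0 C' e : ℝ} {p q α : ℝ → ℝ} {Tg : ∀ i : In, Cube i.n → Mx i.n}
    (hG : ∀ᶠ i in TF β s, G i) (hp : ∀ x, p (-x) = p x) (hq : ∀ x, q (-x) = q x)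
    (hα : ∀ x, α (-x) = α x) (hT : ∀ (i : In) (σ : Cube i.n), gM σ (Tg (i.gg σ)) = Tg i)
    (h : AnsL (fam β s G) a C0 C' e (fun i l => p (i.1.b β l)) (fun i l => q (i.1.b β l))
      (fun i l => α (i.1.b β l)) fun i => Tg i.1) : AnsT β s a C0 C' e p q α Tg := by
  obtain ⟨C, hC, H⟩ := h
  refine ⟨C, hC, fun e1 he => ?_⟩
  obtain ⟨η, η0, D, hD, C1, c1, H⟩ := H (e1 / 2) (half_pos he)
  obtain ⟨k, d, B, hd, B0, hB⟩ := types D hD
  set A : ℝ := C1 * (B + 1) with hA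
  have A0 : 0 ≤ A := by positivity
  have H1 : ∀ᶠ i in TF β s, 1 ≤ i.n ∧ ∃ ψ T, Cp (i.J β) i.y a C C0 C' e e1 η (Real.log i.n)
      (Ety (e1 / 2) A (A * Real.log i.n) fun j => fv β (d j) i) (fun l => p (i.b β l))
      (fun l => q (i.b β l)) (fun l => α (i.b β l)) (Tg i) ψ T := by
    filter_upwards [Pos.fam_out hG H, Pos.TF.lim.eventually (eventually_ge_atTop 1)]
      with i ⟨hi, ψ, T, h⟩ h1
    refine ⟨h1, ψ, T, h.mono le_rfl (fun _ => le_rfl) (half_le_self he.le) le_rfl le_rfl fun w => ?_⟩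
    have l0 : 0 ≤ Real.log i.n := Real.log_natCast_nonneg _
    have := mul_le_mul_of_nonneg_left (hB ⟨i, hi⟩ w) c1
    have s0 : 0 ≤ ∑ j, (w ⬝ᵥ fv β (d j) i) ^ 2 := sum_nonneg fun _ _ => sq_nonneg _
    simp only [E0, Ety, hA]
    nlinarith [mul_nonneg c1 s0, mul_nonneg (mul_nonneg c1 B0) l0]
  obtain ⟨N, -, hN⟩ := Pos.TF.gauge (ι := Fin k) 1 (e := e1 / (4 * (A + 1))) (by positivity)
  refine ⟨η, η0, k, d, 2 * A, hd, by positivity, ?_⟩
  filter_upwards [H1, hN β s _ H1 (fun j i l => (d j (i.b β l) + d j (-i.b β l)) / 2) fun j i l => by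
    have h1 := abs_le.1 ((hd j).2 (i.b β l))
    have h2 := abs_le.1 ((hd j).2 (-i.b β l))
    exact abs_le.2 ⟨by linarith, by linarith⟩] with i ⟨n1, ψ, T, h⟩ ⟨σ, h1, h2⟩
  have l0 : 0 ≤ Real.log i.n := Real.log_natCast_nonneg _
  refine ⟨⟨ψ, T, h.mono le_rfl (fun _ => le_rfl) le_rfl le_rfl le_rfl fun w => ?_⟩, fun w => ?_⟩
  · have s0 : 0 ≤ ∑ j, (w ⬝ᵥ fv β (d j) i) ^ 2 := sum_nonneg fun _ _ => sq_nonneg _
    simp only [Ety]
    nlinarith [mul_nonneg A0 s0, mul_nonneg A0 l0, mul_nonneg he.le (dot_self_nonneg w)]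
  obtain ⟨j, hj⟩ := h2 w
  obtain ⟨-, ψ', T', h3⟩ := h1 j
  rw [ev_g hp, ev_g hq, ev_g hα, Pos.In.gg_J] at h3
  have h4 := Cp.back (σ j) h3
  rw [hT] at h4
  refine ⟨_, _, _, h4, ?_⟩
  have n0 : (0 : ℝ) < i.n := by exact_mod_cast n1
  have e1' : ∀ t : ℝ, ((√(i.n : ℝ))⁻¹ * t) ^ 2 = t ^ 2 / i.n := fun t => by
    rw [mul_pow, inv_pow, Real.sq_sqrt n0.le]; ring
  have h5 : ∑ l, ((sv (σ j) * w) ⬝ᵥ fv β (d l) (i.gg (σ j))) ^ 2 ≤
      2 * ∑ l, (w ⬝ᵥ fv β (od (d l)) i) ^ 2 + 2 * (e1 / (4 * (A + 1)) * (w ⬝ᵥ w)) := by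
    have h6 := div_le_div_of_nonneg_right hj n0.le
    rw [mul_right_comm, mul_div_cancel_right₀ _ n0.ne', sum_div] at h6
    refine le_trans ?_ (add_le_add_right (mul_le_mul_of_nonneg_left h6 zero_le_two) _)
    rw [mul_sum, mul_sum, ← sum_add_distrib]
    refine sum_le_sum fun l _ => ?_
    rw [fv_g, ← e1']
    exact add_sq_le.trans_eq (mul_add _ _ _)
  have h7 : A * (e1 / (4 * (A + 1))) ≤ e1 / 4 := by
    rw [← mul_div_assoc, div_le_div_iff₀ (by positivity) (by norm_num)]; nlinarith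
  have h8 := mul_le_mul_of_nonneg_right h7 (dot_self_nonneg w)
  have h9 := mul_le_mul_of_nonneg_left h5 A0
  simp only [Ety]
  change e1 / 2 * ((sv (σ j) * w) ⬝ᵥ (sv (σ j) * w)) + A * Real.log i.n + _ ≤ _
  rw [dot_gg]
  refine (add_le_add_right h9 _).trans ?_
  nlinarith [mul_nonneg A0 l0]

end Crest.Agent.T157.S1.SA

end
end

-- ▼ part T157/PosN_23
section

/-!
# Row 157, part B (S1): (POS) with a normalised mode and level-uniform constants (helper23)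
-/

set_option autoImplicit false

noncomputable section

namespace Crest.Agent.T157.Pos

open MeasureTheory ProbabilityTheory Matrix Filter Set Topology
open Crest.ProbabilityR.SpinGlassDynamics
open Crest.Agent.T157.E Crest.Agent.T157.Eig Crest.Agent.T157.Cond Crest.Agent.T157.Tap
open Crest.Agent.T157.SL

variable {n : ℕ}

/-- **(POS)**, positive times, with the explicit dependence on the overlap -/
theorem pos2 {β a0 : ℝ} (hβ : β ∈ Ioc (0 : ℝ) 1) (ha : β < a0) :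
    ∃ κ η : ℝ, 0 < κ ∧ κ ≤ 1 / 2 ∧ 0 < η ∧ ∀ s q, 0 < s → 0 < q →
      IsQ β s q → ∀ a : ℝ → ℝ, Continuous a → (∀ x, a (-x) = a x) → (∀ x, a0 ≤ a x) →
      ∃ r > (0 : ℝ), Typ β s fun n W y => ∀ ξ al : V n,
        nrm (th ξ - mag (ising (β • W) y)) ≤ r * √n →
        (∀ i, a (ξ i) + β ^ 2 * gE (fun x => 1 / a x) (s + β ^ 2 * q) (s + β ^ 2 * q) - η ≤ al i) →
        PosF κ (8 * η) (2 * ((36 / η + 6) * (2 / q)) + 2) (β • W) al (mag (ising (β • W) y)) := by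
  obtain ⟨κ, η, δ, κ1, κ0, κh, η0, -, δ0, κ10, hR⟩ := rob hβ ha
  have a00 : 0 < a0 := hβ.1.trans ha
  refine ⟨κ, η, κ0, κh, η0, fun s q hs0 ham hq a hca he h0 => ?_⟩
  set C := (36 / η + 6) * (2 / q) with hC
  have C0 : 0 ≤ C := by positivity
  obtain ⟨L, hL, hG⟩ := gE_lo h0 hca (Φ := fun u => 1 / u) (by fun_prop)
    (fun x => continuousAt_const.div continuousAt_id (a00.trans_le (h0 x)).ne') (K := 1 / a0)
    (fun u x h1 _ => by
      rw [abs_of_pos (one_div_pos.2 (a00.trans_le h1))]; exact one_div_le_one_div_of_le a00 h1)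
    (s + β ^ 2 * q) (s + β ^ 2 * q) η0
  set f : ℝ → ℝ := fun x => lo a L (Real.tanh x) with hf
  have f1 : Continuous f := (cont_lo h0 hL.le).comp TapFrz.continuous_tanh
  have f2 : ∀ x, f (-x) = f x := fun x => by
    simp only [hf]; rw [Real.tanh_neg, lo_neg h0 hL.le he]
  have f3 : ∀ x, a0 ≤ f x := fun x => le_lo h0 hL.le _
  obtain ⟨κ2, κ20, hRef⟩ := ref_VB hβ ha κh η0 κ10 hR hs0.le ham le_rfl f1 f3
  obtain ⟨κ3, κ30, w⟩ := tapT cellStmt ramStmt seStmt hoefStmt detStmt14 hβ hs0 hq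
    (half_pos ham) κ20 (fun n => isOpen_VB _ _ _ _ _ _ _ f1 n)
    (fun n σ W x h => gauge_VB _ _ _ _ _ _ _ f2 n σ W x h) hRef
  set G0 := gE (fun x => 1 / f x) (s + β ^ 2 * q) (s + β ^ 2 * q) with hG0
  have w' : Typ β s fun n W y => (mean (ising (β • W) y) fun σ => {y | ∃ x,
      Ymap (β • W) (β ^ 2) x = y ∧ (unp β W (sv σ), x) ∈ VB β a0 κ δ (β ^ 2 * G0 - 9 * η)
        (9 * η) C f n}.indicator 1 y) < 1 / 2 :=
    Typ.of_mul κ30 (w.imp fun n W hW => by simpa only [not_lt] using hW)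
  obtain ⟨M, M0, hA⟩ := acc hβ hs0
  obtain ⟨K, ρ1, K0, ρ10, hK⟩ := cov hβ hs0.le (Or.inr hs0)
  set ρ := η / L with hρ
  have ρ0 : 0 < ρ := by positivity
  have r0 : 0 < √δ * ρ / 2 := by positivity
  refine ⟨√δ * ρ / 2, r0, ((hA.and hK).and w').mono ?_⟩
  filter_upwards [ev_sq (M := M) r0, tendsto_natCast_atTop_atTop.eventually_ge_atTop
    ((2 * C * M + 2 * K) / η)] with n ⟨hn, hM⟩ hn2 W y ⟨⟨⟨⟨x, hx⟩, h1⟩, h2⟩, h3⟩ ξ al hξ hal v
  have hn' : (0 : ℝ) < n := by positivity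
  have v0 := Eig.dot_self_nonneg v
  have b1 : β ^ 2 ≤ 1 := pow_le_one₀ hβ.1.le hβ.2
  have h4 := near (by positivity) (h1 x hx) hM hξ
  set T := Finset.univ.filter fun i => ρ < |(th ξ - th x) i| with hT
  have hTc : (T.card : ℝ) ≤ δ * n := by
    have t1 := (card_far (u := th ξ - th x) ρ0).trans (pow_le_pow_left₀ (nrm_nonneg _) h4 2)
    rw [show (2 * (√δ * ρ / 2 * √(n : ℝ))) ^ 2 = √δ ^ 2 * √(n : ℝ) ^ 2 * ρ ^ 2 by ring,
      Real.sq_sqrt δ0.le, Real.sq_sqrt hn'.le] at t1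
    exact le_of_mul_le_mul_right t1 (by positivity)
  have g1 : β ^ 2 * G0 ≤ β ^ 2 * gE (fun x => 1 / a x) (s + β ^ 2 * q) (s + β ^ 2 * q) + η := by
    have t1 := mul_le_mul_of_nonneg_left (abs_le.1 hG).2 (sq_nonneg β)
    have t2 := mul_le_of_le_one_left η0.le b1
    linarith
  have g2 : qd (cutT a0 T fun i => f (x i)) v + (β ^ 2 * G0 - 9 * η) * (v ⬝ᵥ v) ≤ qd al v := by
    rw [← qd_add_const]
    refine qd_mono (fun i => ?_) v
    have t0 := hal i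
    unfold cutT; split_ifs with hi
    · linarith [h0 (ξ i)]
    · have t1 : |Real.tanh (ξ i) - Real.tanh (x i)| ≤ ρ :=
        not_lt.1 fun hc => hi (Finset.mem_filter.2 ⟨Finset.mem_univ _, hc⟩)
      have t2 := lo_le h0 hL.le (Real.tanh (x i)) (ξ i)
      have t3 : L * |Real.tanh (ξ i) - Real.tanh (x i)| ≤ η := by
        rw [hρ, le_div_iff₀ hL] at t1; linarith
      simp only [hf]; linarith
  have g3 := mul_le_mul_of_nonneg_left g2 (show 0 ≤ 1 - κ by linarith)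
  set m := mag (ising (β • W) y) with hm
  have g4 := avg_step (Cov15.wt_ising (β • W) y) (fun σ => by
      classical rw [indicator_apply]; split_ifs <;> simp) h3
    (D := β * (v ⬝ᵥ W *ᵥ v) + 9 * η * (v ⬝ᵥ v) - (1 - κ) * qd al v - C / n * (th x ⬝ᵥ v) ^ 2)
    (c := β ^ 2 / n) (by positivity) v fun σ hσ => by
      have t1 : (unp β W (sv σ), x) ∉ VB β a0 κ δ (β ^ 2 * G0 - 9 * η) (9 * η) C f n := fun hc => by
        rw [indicator_of_mem (by exact ⟨x, hx, hc⟩)] at hσ; simp at hσ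
      have t2 := not_lt.1 fun hc => t1 ⟨T, hTc, v, hc⟩
      simp only [unp, sub_mulVec, smul_mulVec, vmv_mulVec, dotProduct_sub, dotProduct_smul,
        smul_eq_mul, dotProduct_comm (sv σ) v] at t2
      have e : β * (v ⬝ᵥ W *ᵥ v - β / n * (v ⬝ᵥ sv σ * v ⬝ᵥ sv σ)) =
        β * (v ⬝ᵥ W *ᵥ v) - β ^ 2 / n * (v ⬝ᵥ sv σ) ^ 2 := by ring
      linarith
  have g5 := h2 0 (by rw [nrm_zero]; positivity) v
  rw [add_zero] at g5
  rw [← hm, dotProduct_comm v m] at g4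
  have g6 : (th x ⬝ᵥ v) ^ 2 ≤ 2 * (m ⬝ᵥ v) ^ 2 + 2 * (M * (v ⬝ᵥ v)) := by
    have t1 : ((m - th x) ⬝ᵥ v) ^ 2 ≤ M * (v ⬝ᵥ v) := by
      rw [← sq_abs, ← nrm_sq]
      refine (pow_le_pow_left₀ (abs_nonneg _) (abs_dot_le _ _) 2).trans ?_
      rw [mul_pow]; exact mul_le_mul_of_nonneg_right (h1 x hx) (sq_nonneg _)
    rw [sub_dotProduct] at t1
    nlinarith [sq_nonneg (2 * (m ⬝ᵥ v) - th x ⬝ᵥ v)]
  have g7 : 2 * (β ^ 2 / n) * (v ⬝ᵥ covM (ising (β • W) y) *ᵥ v + (m ⬝ᵥ v) ^ 2) ≤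
      2 * (1 / n) * (K * (v ⬝ᵥ v) + (m ⬝ᵥ v) ^ 2) :=
    mul_le_mul (by gcongr) (by linarith) (add_nonneg
      ((Cov15.wt_ising _ _).covMat_quad_nonneg sv v) (sq_nonneg _)) (by positivity)
  have g8 := mul_le_mul_of_nonneg_left g6 (show 0 ≤ C / n by positivity)
  have g9 : (2 * C * M + 2 * K) / n * (v ⬝ᵥ v) ≤ η * (v ⬝ᵥ v) := by
    refine mul_le_mul_of_nonneg_right ?_ v0
    rw [div_le_iff₀ η0] at hn2
    rw [div_le_iff₀ hn']; linarith
  rw [smul_mulVec, dotProduct_smul, smul_eq_mul]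
  have e1 : (2 * C + 2) / n * (m ⬝ᵥ v) ^ 2 + (2 * C * M + 2 * K) / n * (v ⬝ᵥ v) =
      C / n * (2 * (m ⬝ᵥ v) ^ 2 + 2 * (M * (v ⬝ᵥ v))) +
        2 * (1 / n) * (K * (v ⬝ᵥ v) + (m ⬝ᵥ v) ^ 2) := by ring
  linarith

/-- `al - J ⪰ κ al - C u uᵀ / |u|²` -/
def PosN (κ C : ℝ) (J : Mx n) (al u : V n) : Prop :=
  ∀ v : V n, v ⬝ᵥ J *ᵥ v ≤ (1 - κ) * qd al v + C * ((u ⬝ᵥ v) ^ 2 / (u ⬝ᵥ u))

lemma md_nn (u v : V n) : 0 ≤ (u ⬝ᵥ v) ^ 2 / (u ⬝ᵥ u) :=
  div_nonneg (sq_nonneg _) (Eig.dot_self_nonneg u)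

lemma md_le (u v : V n) : (u ⬝ᵥ v) ^ 2 / (u ⬝ᵥ u) ≤ v ⬝ᵥ v := by
  refine div_le_of_le_mul₀ (Eig.dot_self_nonneg u) (Eig.dot_self_nonneg v) ?_
  rw [← sq_abs, ← nrm_sq, ← nrm_sq, ← mul_pow, mul_comm]
  exact pow_le_pow_left₀ (abs_nonneg _) (abs_dot_le _ _) 2

lemma PosF.posN {κ η C C' : ℝ} {J : Mx n} {al u : V n} (h : PosF κ η C J al u) (hη : 0 ≤ η)
    (hC : C / n * (u ⬝ᵥ u) ≤ C') : PosN κ C' J al u := by
  intro v
  have h1 := h v
  have h2 := mul_nonneg hη (Eig.dot_self_nonneg v)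
  rcases (Eig.dot_self_nonneg u).eq_or_lt with e | e
  · rw [dotProduct_self_eq_zero.1 e.symm] at h1 ⊢
    simp only [zero_dotProduct, div_zero, mul_zero, ne_eq, OfNat.ofNat_ne_zero, not_false_eq_true,
      zero_pow] at h1 ⊢
    linarith
  · have := mul_le_mul_of_nonneg_right hC (md_nn u v)
    rw [mul_assoc, mul_div_cancel₀ _ e.ne'] at this
    linarith

variable {T : ∀ n, Mx n → Mx n} {β s q : ℝ}

lemma mag_sq (hT : Adm T) (hβ : β ∈ Ioc (0 : ℝ) 1) (hL : Lv β s q) (hq : 0 < q) :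
    Typ β s fun n W y => mag (ising (β • T n W) y) ⬝ᵥ mag (ising (β • T n W) y) ≤ 6 * q * n := by
  obtain ⟨M, -, hA⟩ := accF hT hβ hL.1
  refine (hA.and (empF hT hβ hL (ψ := fun x => Real.tanh x ^ 2)
    (TapFrz.continuous_tanh.pow 2) (fun x => by rw [Real.tanh_neg, neg_sq]) (K := 1) (fun x => by
      rw [abs_pow]; exact pow_le_one₀ (abs_nonneg _) (SE.abs_tanh_le x)) hq)).mono ?_
  filter_upwards [tendsto_natCast_atTop_atTop.eventually_ge_atTop (M ^ 2 / q),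
    eventually_gt_atTop 0] with n h1 hn W y ⟨h2, h3⟩
  have hn' : (0 : ℝ) < n := by positivity
  rw [← hL.2.1.2] at h3
  have h4 := (abs_le.1 h3).2
  rw [avg, sub_le_iff_le_add, div_le_iff₀ hn'] at h4
  rw [div_le_iff₀ hq] at h1
  have h5 := pow_le_pow_left₀ (nrm_nonneg _) h2 2
  have h6 := Eig.dot_self_nonneg ((2 : ℝ) • th (fld β (T n W) y) - mag (ising (β • T n W) y))
  have h7 : th (fld β (T n W) y) ⬝ᵥ th (fld β (T n W) y) ≤ (q + q) * n := (dot_eq _).trans_le h4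
  rw [nrm_sq] at h5
  simp only [sub_dotProduct, dotProduct_sub, smul_dotProduct, dotProduct_smul, smul_eq_mul] at h5 h6
  linarith

/-- **(POS)** at the cavity field, all levels, uniform constants -/
theorem posN (hT : Adm T) (hβ : β ∈ Ioc (0 : ℝ) 1) {a0 : ℝ} (ha : β < a0) :
    ∃ κ η C : ℝ, 0 < κ ∧ 0 < η ∧ η ≤ a0 / 2 ∧ 0 ≤ C ∧ ∀ s q, Lv β s q → ∀ a : ℝ → ℝ, Continuous a →
      (∀ x, a (-x) = a x) → (∀ x, a0 ≤ a x) → Typ β s fun n W y => ∀ al : V n,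
        (∀ i, a (fld β (T n W) y i) +
          β ^ 2 * gE (fun x => 1 / a x) (s + β ^ 2 * q) (s + β ^ 2 * q) - η ≤ al i) →
        PosN κ C (β • T n W) al (mag (ising (β • T n W) y)) := by
  have a00 : 0 < a0 := hβ.1.trans ha
  obtain ⟨κ, η, κ0, -, η0, h⟩ := pos2 hβ ha
  obtain ⟨κ', η', κ0', -, η0', h'⟩ := posF hT hβ ha
  obtain ⟨C', -, h'⟩ := h' 1 one_pos
  set e := min (min η η') (a0 / 2) with he
  have e1 : e ≤ η := (min_le_left _ _).trans (min_le_left _ _)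
  have e2 : e ≤ η' := (min_le_left _ _).trans (min_le_right _ _)
  have e3 : e ≤ a0 / 2 := min_le_right _ _
  refine ⟨min κ κ', e, 24 * (36 / η + 6) + 12, lt_min κ0 κ0', by positivity, e3, by positivity,
    fun s q hL a hc hev h0 => ?_⟩
  have G0 : 0 ≤ β ^ 2 * gE (fun x => 1 / a x) (s + β ^ 2 * q) (s + β ^ 2 * q) :=
    mul_nonneg (sq_nonneg _) (integral_nonneg fun x => (one_div_pos.2 (a00.trans_le (h0 _))).le)
  rcases hL.1.eq_or_lt with rfl | hs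
  · refine ((h' 0 q hL (.inl rfl) a hc hev h0).and (typ_zero (P := fun _ _ y => y = 0)
      (Top.whp_of_eventually (.of_forall fun _ _ => rfl)))).mono
        (.of_forall fun n W y ⟨h1, h2⟩ al hal => ?_)
    refine ((h1 al fun i => by linarith [hal i]).mono (fun i => by linarith [hal i, h0 (fld β
      (T n W) y i)]) (min_le_right _ _) le_rfl le_rfl).posN η0'.le ?_
    rw [h2, TopL.mag_ising_zero, dotProduct_zero, mul_zero]; positivity
  obtain ⟨am, ham, hq0⟩ := SE.lower hs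
  have q0 : 0 < q := ham.trans_le (by
    have := hq0 (s + β ^ 2 * q) (s + β ^ 2 * q) (by
      linarith [mul_nonneg (sq_nonneg β) hL.2.1.1.1])
    rwa [← hL.2.1.2] at this)
  obtain ⟨r, hr, w⟩ := h s q hs q0 hL.2.1 a hc hev h0
  refine ((atF hT hβ hs.le (P := fun n W y ξ => ∀ al : V n, (∀ i, a (ξ i) +
    β ^ 2 * gE (fun x => 1 / a x) (s + β ^ 2 * q) (s + β ^ 2 * q) - η ≤ al i) →
      PosF κ (7 * η) (2 * ((36 / η + 6) * (2 / q)) + 2) (β • T n W) al (mag (ising (β • T n W) y)))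
    ⟨r, hr, w.mono' (hT η η0) (.of_forall fun n W y hW hy ξ hξ al hal => ?_)⟩).and
      (mag_sq hT hβ hL q0)).mono ?_
  · rw [hW.mag] at hξ ⊢
    exact (hy ξ al hξ hal).nd hβ hW
  filter_upwards [eventually_gt_atTop 0] with n hn W y ⟨h1, h2⟩ al hal
  refine ((h1 al fun i => by linarith [hal i]).mono (fun i => by linarith [hal i, h0 (fld β
    (T n W) y i)]) (min_le_left _ _) le_rfl le_rfl).posN (by positivity)
      ((mul_le_mul_of_nonneg_left h2 (by positivity)).trans ?_)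
  have hn' : (0 : ℝ) < n := by positivity
  rw [show (2 * ((36 / η + 6) * (2 / q)) + 2) / n * (6 * q * n) = 24 * (36 / η + 6) + 12 * q by
    field_simp; ring]
  linarith [hL.2.1.1.2]

/-- inversion of `al - J` off the pinned set `S` -/
theorem PosN.inv {κ C K a0 c : ℝ} (hκ : 0 < κ) (hC : 0 ≤ C) (ha : 0 < a0) (hc : 0 < c) :
    ∃ C1 ≥ (1 : ℝ), ∀ (n : ℕ) (J : Mx n) (al m p : V n), PosN κ C J al m → opn J ≤ K →
      (∀ i, a0 ≤ al i) → (∀ i, c ≤ p i * al i) → ∀ (S : Finset (Fin n)) (Δ : V n),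
      (∀ i ∈ S, Δ i = 0) → Δ ⬝ᵥ Δ ≤ C1 * ∑ i ∈ Sᶜ, (p * (al * Δ - J *ᵥ Δ)) i ^ 2 +
        C1 * ((m ⬝ᵥ Δ) ^ 2 / (m ⬝ᵥ m)) := by
  set G := 1 / (κ * a0) with hG
  have G0 : 0 < G := by positivity
  set A := 2 + 8 * C * G + 2 * (K * G) ^ 2 with hA
  have A0 : 0 < A := by positivity
  refine ⟨1 + A / c ^ 2 + 8 * C * G, by
    have : 0 ≤ A / c ^ 2 + 8 * C * G := by positivity
    linarith, fun n J al m p h hJ hal hp S v hv => ?_⟩
  have a0' : ∀ i, 0 < al i := fun i => ha.trans_le (hal i)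
  set w : V n := fun i => if i ∈ S then 0 else (al * v - J *ᵥ v) i / al i with hw
  set z := v - w with hz
  have e1 : qd al z = z ⬝ᵥ J *ᵥ v := Finset.sum_congr rfl fun i _ => by
    have := (a0' i).ne'
    simp only [hz, hw, Pi.sub_apply, Pi.mul_apply]
    split_ifs with hi
    · simp [hv i hi]
    · field_simp; ring
  have e2 : z ⬝ᵥ J *ᵥ v = z ⬝ᵥ J *ᵥ z + z ⬝ᵥ J *ᵥ w := by
    rw [show v = z + w by simp [hz], mulVec_add, dotProduct_add]
  have w0 := Eig.dot_self_nonneg w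
  have h1 : a0 * (z ⬝ᵥ z) ≤ qd al z := by
    have := qd_mono (A := fun _ => 0 + a0) (B := al) (by simpa using hal) z
    rw [qd_add_const] at this
    simpa [qd] using this
  have h2 : z ⬝ᵥ J *ᵥ w ≤ nrm z * (K * nrm w) := (le_abs_self _).trans ((abs_dot_le _ _).trans
    (mul_le_mul_of_nonneg_left ((nrm_mulVec_le _ _).trans
      (mul_le_mul_of_nonneg_right hJ (nrm_nonneg _))) (nrm_nonneg _)))
  have h3 : (m ⬝ᵥ z) ^ 2 / (m ⬝ᵥ m) ≤ 2 * ((m ⬝ᵥ v) ^ 2 / (m ⬝ᵥ m)) + 2 * (w ⬝ᵥ w) := by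
    refine le_trans ?_ (add_le_add le_rfl (mul_le_mul_of_nonneg_left (md_le m w) two_pos.le))
    rw [← mul_add, ← add_div, ← mul_div_assoc, hz, dotProduct_sub]
    exact div_le_div_of_nonneg_right (by nlinarith [sq_nonneg (m ⬝ᵥ v + m ⬝ᵥ w)])
      (Eig.dot_self_nonneg m)
  set R := (m ⬝ᵥ v) ^ 2 / (m ⬝ᵥ m) with hR
  have R0 : 0 ≤ R := md_nn m v
  have h4 : κ * a0 * (z ⬝ᵥ z) ≤ C * (2 * R + 2 * (w ⬝ᵥ w)) + nrm z * (K * nrm w) := by
    have t1 := h z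
    have t2 := mul_le_mul_of_nonneg_left h1 hκ.le
    have t3 := mul_le_mul_of_nonneg_left h3 hC
    nlinarith
  have h5 : z ⬝ᵥ z ≤ G * (C * (2 * R + 2 * (w ⬝ᵥ w))) + nrm z * (K * G * nrm w) := by
    have := mul_le_mul_of_nonneg_left h4 G0.le
    refine le_trans (le_of_eq ?_) (this.trans_eq (by ring))
    rw [hG]; field_simp
  have h6 : v ⬝ᵥ v ≤ 2 * (z ⬝ᵥ z) + 2 * (w ⬝ᵥ w) := by
    have := Eig.dot_self_nonneg (z - w)
    rw [show v = z + w by simp [hz]]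
    simp only [add_dotProduct, dotProduct_add, sub_dotProduct, dotProduct_sub] at this ⊢
    linarith
  have h7 := sq_nonneg (nrm z - K * G * nrm w)
  rw [sub_sq, mul_pow, nrm_sq, nrm_sq] at h7
  have h8 : v ⬝ᵥ v ≤ A * (w ⬝ᵥ w) + 8 * C * G * R := by rw [hA]; linarith
  set Z := ∑ i ∈ Sᶜ, (p * (al * v - J *ᵥ v)) i ^ 2 with hZ
  have Z0 : 0 ≤ Z := Finset.sum_nonneg fun i _ => sq_nonneg _
  have h9 : w ⬝ᵥ w ≤ Z / c ^ 2 := by
    rw [dot_eq, ← Finset.sum_add_sum_compl S, Finset.sum_eq_zero fun i hi => by simp [hw, hi],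
      zero_add, hZ, Finset.sum_div]
    refine Finset.sum_le_sum fun i hi => ?_
    have := (a0' i).ne'
    rw [hw]; dsimp only
    rw [if_neg (Finset.mem_compl.1 hi), le_div_iff₀ (by positivity), Pi.mul_apply p,
      show (p i * (al * v - J *ᵥ v) i) ^ 2 = ((al * v - J *ᵥ v) i / al i) ^ 2 * (p i * al i) ^ 2 by
        field_simp]
    exact mul_le_mul_of_nonneg_left (pow_le_pow_left₀ hc.le (hp i) 2) (sq_nonneg _)
  have t1 := mul_le_mul_of_nonneg_left h9 A0.le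
  have t2 : 0 ≤ 8 * C * G * Z := by positivity
  have t3 : 0 ≤ A / c ^ 2 * R := by positivity
  rw [show A * (Z / c ^ 2) = A / c ^ 2 * Z by ring] at t1
  linarith

/-- **the clause `pos` of `S1.LinOK2`**, level-uniform: `al ≥ a (b) + β² E (1 / a) - η`,
`p al ≥ c` -/
theorem linPos (hβ : β ∈ Ioc (0 : ℝ) 1) {a0 c : ℝ} (ha : β < a0) (hc : 0 < c) :
    ∃ C1 ≥ (1 : ℝ), ∃ η > (0 : ℝ), ∀ s q, Lv β s q → ∀ a : ℝ → ℝ, Continuous a →
      (∀ x, a (-x) = a x) → (∀ x, a0 ≤ a x) → TypJ β s fun n J y => ∀ al p : V n,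
        (∀ i, a (fld β J y i) +
          β ^ 2 * gE (fun x => 1 / a x) (s + β ^ 2 * q) (s + β ^ 2 * q) - η ≤ al i) →
        (∀ i, c ≤ p i * al i) → ∀ (S : Finset (Fin n)) (Δ : V n), (∀ i ∈ S, Δ i = 0) →
        Δ ⬝ᵥ Δ ≤ C1 * ∑ i ∈ Sᶜ, (p * (al * Δ - (β • J) *ᵥ Δ)) i ^ 2 +
          C1 * ((mag (ising (β • J) y) ⬝ᵥ Δ) ^ 2 /
            (mag (ising (β • J) y) ⬝ᵥ mag (ising (β • J) y))) := by
  have a00 : 0 < a0 := hβ.1.trans ha
  obtain ⟨κ, η, C, κ0, η0, η1, C0, h⟩ := posN adm_offd hβ ha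
  obtain ⟨C1, h1, hI⟩ := PosN.inv (K := 4) κ0 C0 (half_pos a00) hc
  refine ⟨C1, h1, η, η0, fun s q hL a hca hev h0 => Typ.toJ ((h s q hL a hca hev h0).mono'
    ((adm_offd 1 one_pos).and TapPl.whp_opn) (.of_forall fun n W y ⟨⟨d, e, _, hd⟩, hW⟩ hy al p hal
      hp => hI n _ al _ p (hy al hal) ?_ (fun i => ?_) hp))⟩
  · have := opn_sub_le W (diagonal d)
    rw [← eq_sub_of_add_eq e.symm] at this
    rw [opn_smul, abs_of_pos hβ.1]
    nlinarith [opn_diagonal_le zero_le_one hd, hβ.1, hβ.2, opn_nonneg (offd W)]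
  · have : 0 ≤ β ^ 2 * gE (fun x => 1 / a x) (s + β ^ 2 * q) (s + β ^ 2 * q) :=
      mul_nonneg (sq_nonneg _) (integral_nonneg fun x => (one_div_pos.2 (a00.trans_le (h0 _))).le)
    linarith [hal i, h0 (fld β (offd W) y i)]

theorem TypJ.ev {P : ∀ n, Mx n → V n → Prop} (h : TypJ β s P) :
    ∀ᶠ i in TF β s, P i.n (Jmat i.n i.g) i.y := by
  obtain ⟨κ, hκ, h⟩ := h
  exact TF.of_dis (P := fun n g y => P n (Jmat n g) y) fun ε hε => h.mono
    (((TapPl.tendsto_exp_neg hκ).eventually (ge_mem_nhds hε)).mono fun _ hn _ hW => hW.trans hn)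

/-- the same along the filter of typical instances -/
theorem TF.linPos (hβ : β ∈ Ioc (0 : ℝ) 1) {a0 c : ℝ} (ha : β < a0) (hc : 0 < c) :
    ∃ C1 ≥ (1 : ℝ), ∃ η > (0 : ℝ), ∀ s q, Lv β s q → ∀ a : ℝ → ℝ, Continuous a →
      (∀ x, a (-x) = a x) → (∀ x, a0 ≤ a x) → ∀ᶠ i in TF β s, ∀ al p : V i.n,
        (∀ k, a (i.b β k) +
          β ^ 2 * gE (fun x => 1 / a x) (s + β ^ 2 * q) (s + β ^ 2 * q) - η ≤ al k) →
        (∀ k, c ≤ p k * al k) → ∀ (S : Finset (Fin i.n)) (Δ : V i.n), (∀ k ∈ S, Δ k = 0) →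
        Δ ⬝ᵥ Δ ≤ C1 * ∑ k ∈ Sᶜ, (p * (al * Δ - i.J β *ᵥ Δ)) k ^ 2 +
          C1 * ((mag (ising (i.J β) i.y) ⬝ᵥ Δ) ^ 2 /
            (mag (ising (i.J β) i.y) ⬝ᵥ mag (ising (i.J β) i.y))) := by
  obtain ⟨C1, h1, η, η0, h⟩ := Pos.linPos hβ ha hc
  exact ⟨C1, h1, η, η0, fun s q hL a h2 h3 h4 => (h s q hL a h2 h3 h4).ev⟩

end Crest.Agent.T157.Pos

end
end

-- ▼ part T157/S1SupB_60
section

/-!
# Row 157, block S1 (helper60): base points, diagonals, exit from the typical filter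
-/

set_option autoImplicit false

noncomputable section

namespace Crest.Agent.T157.S1.SA

open Matrix Filter Finset MeasureTheory
open Crest.ProbabilityR.SpinGlassDynamics
open Crest.Agent.T157.Eig Crest.Agent.T157.E Crest.Agent.T157.SL
open Crest.Agent.T157.S3 (V Mx)
open Crest.Agent.T157.S3.T60 (MO DO a0 alf)
open Crest.Agent.T157.Pos (In TF Lv)
open Crest.Agent.T157.Top (Whp)
open Crest.Agent.T157.Tw (sech2 sech2_pos)

variable {β : ℝ}

/-- base hypothesis and covariance bound on a macroscopic ball -/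
def Ball (β K ρ κ : ℝ) (i : In) : Prop := ∀ v : V i.n, nrm v ≤ ρ * √i.n →
  Bas (i.J β) K κ (i.y + v) ∧ ∀ u : V i.n, u ⬝ᵥ covM (ising (i.J β) (i.y + v)) *ᵥ u ≤ K * (u ⬝ᵥ u)

theorem Ball.bas {K ρ κ : ℝ} {i : In} (h : Ball β K ρ κ i) (hρ : 0 ≤ ρ) : Bas (i.J β) K κ i.y := by
  simpa using (h 0 (by rw [nrm_zero]; positivity)).1

/-- **level-uniform base points** -/
theorem tf_ball (hβ : β ∈ Set.Ioo (0 : ℝ) 1) : ∃ K > (0 : ℝ), ∃ ρ > (0 : ℝ), ∃ κ > (0 : ℝ),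
    (Whp disorderLaw fun n g => Bas (β • Jmat n g) K κ 0) ∧
      ∀ s ≥ (0 : ℝ), ∀ᶠ i in TF β s, Ball β K ρ κ i := by
  obtain ⟨K, hK, ρ, hρ, κ, hκ, h⟩ := Atd.atyC β hβ
  refine ⟨K, hK, ρ, hρ, κ, hκ, h.mono ?_, fun s hs => Pos.TF.of_dis
    (P := fun n g y => Ball β K ρ κ ⟨n, g, 0, y⟩) fun ε hε => h.mono ?_⟩
  · filter_upwards [eventually_ge_atTop 1] with n hn g hg
    by_contra hc
    have h2 := hg 0 le_rfl
    simp only [gibbsWeight_eq_ising, Tap.Cov15.tilt0] at h2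
    have n0 : (0 : ℝ) < n := by exact_mod_cast hn
    have h3 : Real.exp (-(κ * n)) < 1 := Real.exp_lt_one_iff.2 (by nlinarith)
    refine absurd (le_trans (TopL.law_zero _ (Da.Gr.ising_pos _ _) ?_) h2) (not_le.2 h3)
    exact fun h => hc (by simpa [Bas] using (h 0 (by rw [nrm_zero]; positivity)).1)
  · filter_upwards [(TapPl.tendsto_exp_neg hκ).eventually (ge_mem_nhds hε)] with n hn g hg
    have := hg s hs
    simp only [gibbsWeight_eq_ising, Tap.Cov15.tilt0] at this ⊢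
    rw [neg_mul] at hn
    exact this.trans hn

lemma sech2_le (b : ℝ) : sech2 b ≤ 1 := by
  rw [sech2, div_le_one (by positivity [Real.cosh_pos b])]
  exact one_le_pow₀ (Real.one_le_cosh b)

lemma sech2_neg (b : ℝ) : sech2 (-b) = sech2 b := by simp [sech2]

/-- the rescaled weight of the ansatz -/
def qf (ρ : ℝ → ℝ) (b : ℝ) : ℝ := 2 / 3 * ρ b * sech2 b

section model
variable {l a a' e s0 : ℝ} {ν : Measure ℝ} {g al0 ρ : ℝ → ℝ}

theorem mo_hi (h : MO β l a ν g) (h0 : 0 < β) (ha : a ≤ a') (b : ℝ) :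
    β * g b ≤ sech2 b * (1 - β * (l - a')) :=
  (h.hi b).trans (mul_le_mul_of_nonneg_left (by nlinarith) (sech2_pos b).le)

theorem mo_r0 (h : MO β l a ν g) (h0 : 0 < β) (ha : a ≤ a') : 0 < 1 - β * (l - a') :=
  (mul_pos_iff_of_pos_left (sech2_pos 0)).1 ((mul_pos h0 (h.pos 0)).trans_le (mo_hi h h0 ha 0))

/-- `β g ≤ sech²` -/
theorem mo_le (h : MO β l a ν g) (h0 : 0 < β) (ha : a ≤ l) (b : ℝ) : β * g b ≤ sech2 b := by
  simpa using mo_hi h h0 ha b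

theorem qf_mem (h : DO l a e s0 al0 ρ) (b : ℝ) :
    l / 6 * sech2 b ≤ qf ρ b ∧ qf ρ b ≤ 2 * sech2 b :=
  ⟨mul_le_mul_of_nonneg_right (by linarith [h.lo b]) (sech2_pos b).le,
    mul_le_mul_of_nonneg_right (by linarith [h.hi b]) (sech2_pos b).le⟩

theorem qf_neg (h : DO l a e s0 al0 ρ) (b : ℝ) : qf ρ (-b) = qf ρ b := by
  rw [qf, qf, h.even, sech2_neg]

theorem alf_neg (h : DO l a e s0 al0 ρ) (b : ℝ) : alf s0 a ρ (-b) = alf s0 a ρ b := by
  rw [alf, alf, h.even, sech2_neg]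

end model

/-- the clauses of `LinOK2` on the diagonals -/
structure LinA {n : ℕ} (J : Mx n) (y0 p a0 al q : V n) (lq C1 e : ℝ) : Prop where
  hp : ∀ i, 0 < p i ∧ p i ≤ 1
  hq : ∀ i, lq * p i ≤ q i ∧ q i ≤ 2 * p i
  ha : ∀ i, p i * |a0 i| ≤ C1 ∧ p i * |al i - a0 i| ≤ e
  pos : ∀ (S : Finset (Fin n)) (Δ : V n), (∀ i ∈ S, Δ i = 0) →
    Δ ⬝ᵥ Δ ≤ C1 * ∑ i ∈ Sᶜ, zv J p a0 Δ i ^ 2 +
      C1 * ((mag (ising J y0) ⬝ᵥ Δ) ^ 2 / (mag (ising J y0) ⬝ᵥ mag (ising J y0)))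

/-- **the diagonals**, with a constant which does not depend on the level -/
theorem linA (hβ : β ∈ Set.Ioo (0 : ℝ) 1) {l a' : ℝ} (ha' : a' < l) : ∃ C1 ≥ (4 : ℝ),
    ∀ s q, Lv β s q → ∀ a ≤ a', ∀ g, MO β l a (S3P.nu (s + β ^ 2 * q)) g → ∀ᶠ i in TF β s,
      ∀ e s0 ρ, DO l a e s0 (a0 β (S3P.nu (s + β ^ 2 * q)) g) ρ →
        LinA (i.J β) i.y (fun k => sech2 (i.b β k))
          (fun k => a0 β (S3P.nu (s + β ^ 2 * q)) g (i.b β k)) (fun k => alf s0 a ρ (i.b β k))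
          (fun k => qf ρ (i.b β k)) (l / 6) C1 e := by
  set r : ℝ := max (1 - β * (l - a')) (1 / 2) with hr
  have r0 : 0 < r := lt_max_of_lt_right one_half_pos
  have r1 : r < 1 := max_lt (by nlinarith [hβ.1]) (by norm_num)
  obtain ⟨C1, c1, η, η0, H⟩ := Pos.TF.linPos ⟨hβ.1, hβ.2.le⟩ (a0 := β / r) (c := β)
    (by rw [lt_div_iff₀ r0]; nlinarith [hβ.1]) hβ.1
  refine ⟨max C1 4, le_max_right _ _, fun s q hL a ha g hg => ?_⟩
  have e1 : ∫ x, g x ∂S3P.nu (s + β ^ 2 * q) = Tap.gE (fun x => 1 / (1 / g x)) (s + β ^ 2 * q)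
      (s + β ^ 2 * q) := by simpa only [one_div_one_div] using S3P.int_nu _ hg.cont
  have i0 : 0 ≤ ∫ x, g x ∂S3P.nu (s + β ^ 2 * q) := integral_nonneg fun x => (hg.pos x).le
  filter_upwards [H s q hL (fun x => 1 / g x) (continuous_const.div hg.cont fun x => (hg.pos x).ne')
    (fun x => by rw [hg.even]) fun x => by
      rw [div_le_div_iff₀ r0 (hg.pos x), one_mul]
      exact (mo_hi hg hβ.1 ha x).trans ((mul_le_of_le_one_left (mo_r0 hg hβ.1 ha).le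
        (sech2_le x)).trans (le_max_left _ _))] with i hi e s0 ρ hd
  refine ⟨fun k => ⟨sech2_pos _, sech2_le _⟩, fun k => qf_mem hd _, fun k => ⟨?_, hd.al _⟩,
    fun S Δ hS => ?_⟩
  · rw [abs_of_pos (hg.a0 _).1]; exact (hg.a0 _).2.trans (le_max_right _ _)
  · refine (hi (fun k => a0 β (S3P.nu (s + β ^ 2 * q)) g (i.b β k)) (fun k => sech2 (i.b β k))
      (fun k => by rw [a0, e1]; linarith) (fun k => ?_) S Δ hS).trans (add_le_add
        (mul_le_mul_of_nonneg_right (le_max_left _ _) (sum_nonneg fun _ _ => sq_nonneg _))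
        (mul_le_mul_of_nonneg_right (le_max_left _ _) (Pos.md_nn _ _)))
    have h1 : β ≤ sech2 (i.b β k) * (1 / g (i.b β k)) := by
      rw [mul_one_div, le_div_iff₀ (hg.pos _)]; exact mo_le hg hβ.1 (by linarith) _
    rw [a0, mul_add]
    linarith [mul_nonneg (sech2_pos (i.b β k)).le (mul_nonneg (sq_nonneg β) i0)]

/-! ### exit -/

section exit
variable {n : ℕ} {p : Par} {z : Cap} {J : Mx n} {O : Orc n} {m i : ℕ}



end exit


end Crest.Agent.T157.S1.SA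

end
end

-- ▼ part T157/S1SupC_60

/-!
# Row 157, block S1 (helper60): the families of the supply
-/

set_option autoImplicit false

noncomputable section

namespace Crest.Agent.T157.S1.SA

open Matrix Filter Finset MeasureTheory
open Crest.Agent.T157.Eig Crest.Agent.T157.E
open Crest.Agent.T157.S3 (V Mx)
open Crest.Agent.T157.S3.Gg (gM)
open Crest.Agent.T157.S3.T60 (MO DO a0 alf)
open Crest.Agent.T157.Nt (Fn Ix)
open Crest.Agent.T157.Pos (In TF Lv fam)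
open Crest.Agent.T157.Tw (sech2 sech2_pos Cls PV lam)

/-- matrix fields on the instances -/
abbrev Mf : Type := ∀ i : In, Cube i.n → Mx i.n

/-- the family of rate `a` at the level `s`; `X` : what is known on the linked fields -/
def FamT (β l a s q0 C0 C' : ℝ) (X : Mf → Prop) (g : ℝ → ℝ) : Prop :=
  MO β l a (S3P.nu (s + β ^ 2 * q0)) g ∧ ∀ e > (0 : ℝ), ∃ (s0 : ℝ) (ρ : ℝ → ℝ) (Tg : Mf),
    DO l a e s0 (a0 β (S3P.nu (s + β ^ 2 * q0)) g) ρ ∧ X Tg ∧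
      AnsT β s a C0 C' e (fun x => sech2 x + e) (qf ρ) (fun x => alf s0 a ρ x * qf ρ x) Tg

/-- **the part A of the supply** -/
def AStmt (β l : ℝ) (X : ℝ → Mf → Prop) : Prop := ∀ a' < l, ∀ K0 κ0 : ℝ, 0 < κ0 →
  (∀ s ≥ (0 : ℝ), ∀ᶠ i in TF β s, Bas (i.J β) K0 κ0 i.y) → ∃ C0 ≥ (0 : ℝ), ∃ C' ≥ (0 : ℝ),
    ∀ s q0, Lv β s q0 → ∀ a, 0 ≤ a → a ≤ a' → ∃ g, FamT β l a s q0 C0 C' (X s) g

/-- **the link on a family** -/
def FamLk (β : ℝ) (X : ℝ → Mf → Prop) : Prop := ∀ K0 κ0 : ℝ, 0 < κ0 → ∃ C' ≥ (0 : ℝ),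
  ∀ (s q0 : ℝ) (G : In → Prop), Lv β s q0 → (fam β s G).Ok →
    (∀ i, G i → Bas (i.J β) K0 κ0 i.y ∧ opn (i.J β) ≤ 3) → Nt.STStmt β (S3P.nu (s + β ^ 2 * q0)) →
    ∀ (n : ℕ) (N : Nt.Net n) (l a e : ℝ) (al0 : ℝ → ℝ) (ψ : Fn (Ix n)) (m : Ix n → Fn (Ix n))
      (ρ : ℝ → ℝ), 0 < l → 0 < e → N.Ok β (S3P.nu (s + β ^ 2 * q0)) → N.TopW l a e al0 ψ m ρ →
      ∃ Tg : Mf, X s Tg ∧ (∀ (i : In) (σ : Cube i.n), gM σ (Tg (i.gg σ)) = Tg i) ∧
        AnsL (fam β s G) a (2 * (8 / (l - a) ^ 2 + 2)) C' e (fun i k => sech2 (i.1.b β k) + e)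
          (fun i k => qf ρ (i.1.b β k)) (fun i k => alf (N.S 0 0) a ρ (i.1.b β k) * qf ρ (i.1.b β k))
          fun i => Tg i.1

theorem AnsT.mono {β s a C0 D0 C' e : ℝ} {p q α : ℝ → ℝ} {Tg : Mf} (h : AnsT β s a C0 C' e p q α Tg)
    (hC : C0 ≤ D0) (hp : ∀ x, 0 ≤ p x) : AnsT β s a D0 C' e p q α Tg := by
  obtain ⟨C, c1, H⟩ := h
  refine ⟨C, c1, fun e1 he => ?_⟩
  obtain ⟨η, η0, k, d, C1, h1, h2, h3⟩ := H e1 he
  have m1 : ∀ (i : In) (w : V i.n), C0 * (w ⬝ᵥ ((fun l => p (i.b β l)) * w)) ≤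
      D0 * (w ⬝ᵥ ((fun l => p (i.b β l)) * w)) := fun i w => mul_le_mul_of_nonneg_right hC
    (sum_nonneg fun l _ => by
      rw [Pi.mul_apply, mul_left_comm]; exact mul_nonneg (hp _) (mul_self_nonneg _))
  refine ⟨η, η0, k, d, C1, h1, h2, h3.mono fun i hi => ⟨?_, fun w => ?_⟩⟩
  · obtain ⟨ψ, T, h⟩ := hi.all
    exact ⟨ψ, T, h.mono le_rfl (m1 i) le_rfl le_rfl le_rfl fun _ => le_rfl⟩
  · obtain ⟨E, ψ, T, h, h'⟩ := hi.odd w
    exact ⟨E, ψ, T, h.mono le_rfl (m1 i) le_rfl le_rfl le_rfl fun _ => le_rfl, h'⟩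

theorem aStmt_of (𝒞 : Cls) (h𝒞 : ∀ m, 𝒞.C m = PV m) {β : ℝ} (h0 : 0 < β) (h1 : β < 1)
    {X : ℝ → Mf → Prop} (h : FamLk β X) : AStmt β (lam 𝒞 β) X := by
  intro a' ha' K0 κ0 hκ hB
  obtain ⟨C', c0, H⟩ := h K0 κ0 hκ
  refine ⟨2 * (8 / (lam 𝒞 β - a') ^ 2 + 2), by positivity, C', c0, fun s q0 hL a a0' aa => ?_⟩
  have ha : a ∈ Set.Ico 0 (lam 𝒞 β) := ⟨a0', aa.trans_lt ha'⟩
  have hl := ha.1.trans_lt ha.2
  obtain ⟨g, g1, g2⟩ := S3.T60.modelOut 𝒞 h𝒞 h0 h1 ha (S3P.nu (s + β ^ 2 * q0))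
  refine ⟨g, g1, fun e he => ?_⟩
  obtain ⟨N0, o0⟩ := Nt.All.trivStmt β h0 (S3P.nu (s + β ^ 2 * q0))
  obtain ⟨n, N, -, o, -, ψ, m, ρ, t⟩ := g2 e he 0 N0 o0
  obtain ⟨G, hG, hF, K, -, r, -, κ, -, C, hg⟩ := Pos.exists_good ⟨h0, h1⟩ hL.1 (hB s hL.1)
  obtain ⟨Tg, t1, t2, t3⟩ := H s q0 G hL hF (fun i hi => ⟨(hg i hi).1, (hg i hi).2.op⟩)
    (Nt.All.stAll 𝒞 h𝒞 β h0 h1 hl _).2 n N _ a e _ ψ m ρ hl he o t
  have d := S3.T60.do_of t.1
  refine ⟨_, ρ, Tg, d, t1, (ansT_of hG (fun x => by rw [sech2_neg]) (qf_neg d)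
    (fun x => by rw [alf_neg d, qf_neg d]) t2 t3).mono ?_ fun x => by positivity [sech2_pos x]⟩
  have := div_le_div_of_nonneg_left (show (0 : ℝ) ≤ 8 by norm_num) (pow_pos (sub_pos.2 ha') 2)
    (pow_le_pow_left₀ (sub_pos.2 ha').le (show lam 𝒞 β - a' ≤ lam 𝒞 β - a by linarith) 2)
  linarith

end Crest.Agent.T157.S1.SA

end
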