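import Crest.Agent.T157.S3Fn_60
import Crest.Agent.T157.ZDef_73
import Crest.Agent.T157.S3Gg_96
import Crest.Agent.T157.S3Ex_98
import Crest.Agent.T157.S1SupC_60
import Crest.Agent.T157.KTc_36

-- ▼ part T157/KProg_69
section

/-!
# Row 157, part B (helper69): the canonical fields of a program lie in every thermal calculus
-/

set_option autoImplicit false

noncomputable section

namespace Crest.Agent.T157.KP69

open Matrix Finset
open Crest.ProbabilityR.SpinGlassDynamics (spin)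
open Crest.Agent.T157.E (Cube sv ising mean meanV cov mag)
open Crest.Agent.T157.Tap (V Mx avg)
open Crest.Agent.T157.Z (OL EL)
open Crest.Agent.T157.S3P

/-- words in the world `(s, y)` -/
abbrev Wd : Type := ∀ n : ℕ, Mx n → Cube n → V n → V n
def Bdd (U : Wd) : Prop := ∃ M : ℝ, ∀ n J s y i, |U n J s y i| ≤ M

/-- a thermal calculus -/
structure Api (T : Wd → Prop) : Prop where
  sp : T fun _ _ s _ => sv s
  fy : T fun _ _ _ y => y
  map : ∀ (m : ℕ) (φ : (Fin m → ℝ) → ℝ) (U : Fin m → Wd), OL φ → (∀ l, T (U l)) →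
    T fun n J s y i => φ fun l => U l n J s y i
  ev : ∀ (m : ℕ) (ψ : (Fin m → ℝ) → ℝ) (U : Fin m → Wd) (W : Wd), EL ψ → (∀ l, T (U l)) → T W →
    T fun n J s y i => (ψ fun l => U l n J s y i) * W n J s y i
  add : ∀ (U W : Wd) (a b : ℝ), T U → T W → T fun n J s y => a • U n J s y + b • W n J s y
  mul : ∀ U : Wd, T U → T fun n J s y => J *ᵥ U n J s y
  sc : ∀ U W Z : Wd, T U → T W → T Z → T fun n J s y => avg (U n J s y * W n J s y) • Z n J s y
  tm : ∀ U : Wd, T U → Bdd U → T fun n J _ y => meanV (ising J y) fun t => U n J t y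
  tme : ∀ U : Wd, T U → Bdd U → T fun n J s y => sv s * meanV (ising J y) fun t => sv t * U n J t y

/-- bounded Lipschitz -/
def BLp {E : Type*} [PseudoMetricSpace E] (f : E → ℝ) : Prop :=
  ∃ L M : ℝ, 0 ≤ L ∧ (∀ u v, |f u - f v| ≤ L * dist u v) ∧ ∀ u, |f u| ≤ M

section blp
variable {E : Type*} [PseudoMetricSpace E] {f g : E → ℝ}

lemma BLp.lip (h : BLp f) : ∃ L, LipschitzWith L f :=
  let ⟨L, _, _, h, _⟩ := h; ⟨_, LipschitzWith.of_dist_le' (K := L) h⟩

lemma BLp.const (c : ℝ) : BLp fun _ : E => c := ⟨0, |c|, le_rfl, by simp, fun _ => le_rfl⟩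

lemma BLp.add (h : BLp f) (h' : BLp g) : BLp fun u => f u + g u := by
  obtain ⟨L, M, l0, a, b⟩ := h
  obtain ⟨L', M', l0', a', b'⟩ := h'
  refine ⟨L + L', M + M', by positivity, fun u v => ?_, fun u => (abs_add_le _ _).trans
    (add_le_add (b u) (b' u))⟩
  rw [add_sub_add_comm, add_mul]
  exact (abs_add_le _ _).trans (add_le_add (a u v) (a' u v))

lemma BLp.mul (h : BLp f) (h' : BLp g) : BLp fun u => f u * g u := by
  obtain ⟨L, M, l0, a, b⟩ := h
  obtain ⟨L', M', l0', a', b'⟩ := h'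
  refine ⟨L * |M'| + |M| * L', M * M', by positivity, fun u v => ?_, fun u => ?_⟩
  · rw [show f u * g u - f v * g v = (f u - f v) * g u + f v * (g u - g v) by ring]
    refine (abs_add_le _ _).trans ?_
    rw [abs_mul, abs_mul]
    have h1 := mul_le_mul (a u v) ((b' u).trans (le_abs_self _)) (abs_nonneg _) (by positivity)
    have h2 := mul_le_mul ((b v).trans (le_abs_self _)) (a' u v) (abs_nonneg _) (abs_nonneg _)
    linarith
  · rw [abs_mul]
    exact mul_le_mul (b u) (b' u) (abs_nonneg _) ((abs_nonneg _).trans (b u))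

end blp

/-- scalar clip -/
def cl (M x : ℝ) : ℝ := max (-M) (min M x)

lemma cl_neg {M : ℝ} (h : 0 ≤ M) (x : ℝ) : cl M (-x) = -cl M x := by
  simp only [cl, max_def, min_def]; split_ifs <;> linarith

lemma cl_of {M x : ℝ} (h : |x| ≤ M) : cl M x = x := by
  rw [cl, min_eq_right (abs_le.1 h).2, max_eq_right (abs_le.1 h).1]

lemma blp_cl {κ : Type} [Fintype κ] (M : ℝ) (j : κ) : BLp fun u : κ → ℝ => cl M (u j) := by
  refine ⟨1, |M|, zero_le_one, fun u v => ?_, fun u => ?_⟩
  · have := dist_le_pi_dist u v j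
    rw [Real.dist_eq] at this
    rw [one_mul]
    exact ((abs_max_sub_max_le_max _ _ _ _).trans (max_le (by simp) ((abs_min_sub_min_le_max
      _ _ _ _).trans (max_le (by simp) le_rfl)))).trans this
  · have := le_abs_self M
    have := neg_abs_le M
    simp only [abs_le, cl, max_def, min_def]
    split_ifs <;> constructor <;> linarith

lemma spin_abs (b : Bool) : |spin b| = 1 := by cases b <;> simp [spin]
lemma sv_sv {n : ℕ} (s : Cube n) (u : V n) : sv s * (sv s * u) = u := by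
  ext i; simp only [Pi.mul_apply, ← mul_assoc, Rec.sv_mul_self, one_mul]

variable {N : ℕ} {T : Wd → Prop}

namespace Api
variable (h : Api T)
include h

lemma zero : T fun _ _ _ _ => 0 := by simpa using h.add _ _ 0 0 h.sp h.sp
lemma smul {U : Wd} (c : ℝ) (a : T U) : T fun n J s y => c • U n J s y := by
  simpa using h.add _ _ c 0 a a
lemma add' {U W : Wd} (a : T U) (b : T W) : T fun n J s y => U n J s y + W n J s y := by
  simpa using h.add _ _ 1 1 a b
lemma sub {U W : Wd} (a : T U) (b : T W) : T fun n J s y => U n J s y - W n J s y := by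
  simpa [sub_eq_add_neg] using h.add _ _ 1 (-1) a b
lemma sum {ι : Type*} (t : Finset ι) {U : ι → Wd} (a : ∀ i ∈ t, T (U i)) :
    T fun n J s y => ∑ i ∈ t, U i n J s y := by
  classical
  induction t using Finset.induction_on with
  | empty => simpa using h.zero
  | insert i t hi ih =>
    simpa only [sum_insert hi] using h.add' (a i (mem_insert_self _ _))
      (ih fun j hj => a j (mem_insert_of_mem hj))

lemma mapK {κ : Type} [Fintype κ] {φ : (κ → ℝ) → ℝ} {U : κ → Wd} (ho : ∀ u, φ (-u) = -φ u)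
    (hl : BLp φ) (a : ∀ l, T (U l)) : T fun n J s y i => φ fun l => U l n J s y i := by
  let e := Fintype.equivFin κ
  obtain ⟨L, hL⟩ := hl.lip
  have := h.map _ (fun u => φ (u ∘ e)) (fun l => U (e.symm l)) ⟨fun u => ho (u ∘ e), L * 1,
    hL.comp (LipschitzWith.of_dist_le_mul fun u v => by
      rw [NNReal.coe_one, one_mul]
      exact (dist_pi_le_iff dist_nonneg).2 fun k => dist_le_pi_dist u v _)⟩ fun l => a _
  simpa only [Function.comp_def, Equiv.symm_apply_apply] using this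

/-- multiplication by an even bounded vector -/
lemma emul {G W : Wd} (a : T fun n J s y => sv s * G n J s y) (hG : Bdd G) (b : T W) :
    T fun n J s y => G n J s y * W n J s y := by
  obtain ⟨M, hM⟩ := hG
  have l := (blp_cl 1 (0 : Fin 2)).mul (blp_cl |M| (1 : Fin 2))
  have := h.ev 2 (fun u => cl 1 (u 0) * cl |M| (u 1))
    ![fun _ _ s _ => sv s, fun n J s y => sv s * G n J s y] W
    ⟨fun u => by simp [cl_neg], l.lip, let ⟨_, M, _, _, c⟩ := l; ⟨M, c⟩⟩
    (Fin.forall_fin_two.2 ⟨h.sp, a⟩) b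
  convert this using 6 with n J s y i
  have e : |sv s i * G n J s y i| ≤ |M| := by
    rw [abs_mul, sv, spin_abs, one_mul]; exact (hM _ _ _ _ _).trans (le_abs_self _)
  simp only [Pi.mul_apply, Matrix.cons_val_zero, Matrix.cons_val_one]
  rw [cl_of (x := sv s i) (spin_abs _).le, cl_of e, ← mul_assoc, Rec.sv_mul_self, one_mul]

/-- the mean of an even bounded vector -/
lemma emean {G : Wd} (a : T fun n J s y => sv s * G n J s y) (hG : Bdd G) :
    T fun n J s y => sv s * meanV (ising J y) fun t => G n J t y := by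
  obtain ⟨M, hM⟩ := hG
  simpa only [sv_sv] using h.tme _ a ⟨M, fun n J s y i => by
    simp only [Pi.mul_apply, abs_mul, sv, spin_abs, one_mul]; exact hM _ _ _ _ _⟩

/-- multiplication by the average of an even vector -/
lemma amul {G W : Wd} (a : T fun n J s y => sv s * G n J s y) (b : T W) :
    T fun n J s y => avg (G n J s y) • W n J s y := by
  simpa only [sv_sv] using h.sc _ _ _ h.sp a b

lemma mag : T fun _ J _ y => mag (ising J y) :=
  h.tm _ h.sp ⟨1, fun _ _ _ _ _ => (spin_abs _).le⟩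

end Api

lemma eta_eq (β : ℝ) {n : ℕ} (u : V n) : Uw.eta (β / √n) u = β ^ 2 * avg u := by
  rw [Uw.eta, avg, div_pow, Real.sq_sqrt (Nat.cast_nonneg n)]; ring

lemma me_eq (β : ℝ) {n : ℕ} (J : Mx n) (y : V n) (X : St n N) (φ : PF N) :
    me (β / √n) J y X φ = β ^ 2 * avg (meanV (ising J y) (eP (β / √n) J y X φ)) := by
  rw [← eta_eq]
  simp only [me, Uw.eta, SL.mean_const_mul, SL.mean_sum, meanV]

theorem Api.bF (h : Api T) (β : ℝ) : T fun n J _ y => bF (β / √n) J y := by
  have a1 := h.smul (β ^ 2) (h.sub (h.sc _ _ _ h.sp h.sp h.mag) (h.sc _ _ _ h.mag h.mag h.mag))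
  convert h.sub (h.add' h.fy (h.mul _ h.mag)) a1 using 5 with n J s y
  rw [S3P.bF, eta_eq, ← sub_smul, smul_smul]
  congr 3
  simp only [avg, ← sub_div, ← sum_sub_distrib, Pi.mul_apply, Rec.sv_mul_self, Pi.sub_apply,
    Pi.one_apply, sq]

/-- parity `ε` -/
def Pr (sg : Fin (N + 1) → ℝ) (ε : ℝ) (φ : PF N) : Prop :=
  ∀ b s ξ, φ (-b) (!s) (sg * ξ) = ε * φ b s ξ

/-- odd representative of a vector of parity `ε` -/
def tw {n : ℕ} (ε : ℝ) (s : Cube n) (u : V n) : V n := if ε = 1 then sv s * u else u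

lemma blp_let {φ : PF N} (hφ : Sm φ) (σ : Bool) (c : Fin (N + 1) → ℝ) (hc : ∀ m, |c m| ≤ 1) :
    BLp fun u : Bool ⊕ Fin (N + 1) → ℝ => φ (u (.inl false)) σ fun m => c m * u (.inr m) := by
  obtain ⟨C, C0, hC⟩ := hφ.taylor
  obtain ⟨M, -, hM⟩ := hφ.bd
  refine ⟨C * (1 + (N + 1)), M, by positivity, fun u v => ((hC _ _ _ _ _).1).trans ?_,
    fun _ => hM _ _ _⟩
  have d : ∀ k, |u k - v k| ≤ dist u v := fun k => dist_le_pi_dist u v k
  have : ∑ m, |c m * u (.inr m) - c m * v (.inr m)| ≤ ∑ _m : Fin (N + 1), dist u v :=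
    sum_le_sum fun m _ => by
      rw [← mul_sub, abs_mul]
      exact (mul_le_of_le_one_left (abs_nonneg _) (hc m)).trans (d _)
  rw [sum_const, card_univ, Fintype.card_fin, nsmul_eq_mul] at this
  rw [mul_assoc]
  refine mul_le_mul_of_nonneg_left ?_ C0
  push_cast at this
  linarith [d (.inl false)]

section let_
variable (h : Api T) (β : ℝ) {sg : Fin (N + 1) → ℝ} (hs : ∀ l, sg l = 1 ∨ sg l = -1)
  {Y : ∀ n : ℕ, Mx n → V n → St n N} (hY : ∀ m, T fun n J s y => tw (sg m) s (Y n J y m s))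
include h hs hY

/-- odd letters -/
theorem Api.odd {φ : PF N} (hφ : Sm φ) (hp : Pr sg (-1) φ) :
    T fun n J s y => eP (β / √n) J y (Y n J y) φ s := by
  have s1 : ∀ m, |sg m| = 1 := fun m => by rcases hs m with e | e <;> simp [e]
  have s2 : ∀ m, sg m * sg m = 1 := fun m => by rcases hs m with e | e <;> simp [e]
  let Φ : (Bool ⊕ Fin (N + 1) → ℝ) → ℝ := fun u =>
    (1 / 2 + 1 / 2 * cl 1 (u (.inl true))) * φ (u (.inl false)) true (fun m => 1 * u (.inr m)) +
    (1 / 2 + -(1 / 2) * cl 1 (u (.inl true))) * φ (u (.inl false)) false fun m => -sg m * u (.inr m)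
  have hl : BLp Φ := (((BLp.const _).add ((BLp.const _).mul (blp_cl _ _))).mul
    (blp_let hφ true 1 (by simp))).add (((BLp.const _).add ((BLp.const _).mul (blp_cl _ _))).mul
    (blp_let hφ false (fun m => -sg m) fun m => by rw [abs_neg, s1]))
  have ho : ∀ u, Φ (-u) = -Φ u := fun u => by
    have e1 := hp (u (.inl false)) true fun m => 1 * u (.inr m)
    have e2 := hp (u (.inl false)) false fun m => -sg m * u (.inr m)
    have f1 : (sg * fun m => 1 * u (.inr m)) = fun m => -sg m * -u (.inr m) := by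
      ext m; simp
    have f2 : (sg * fun m => -sg m * u (.inr m)) = fun m => 1 * -u (.inr m) := by
      ext m; simp only [Pi.mul_apply]; linear_combination -(u (.inr m)) * s2 m
    rw [f1] at e1
    rw [f2] at e2
    simp only [Φ, Pi.neg_apply, cl_neg zero_le_one]
    simp only [Bool.not_true, Bool.not_false] at e1 e2
    rw [e1, e2]; ring
  let U : Bool ⊕ Fin (N + 1) → Wd := Sum.elim
    (fun b => if b then fun _ _ s _ => sv s else fun n J _ y => S3P.bF (β / √n) J y)
    fun m n J s y => tw (sg m) s (Y n J y m s)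
  have hU : ∀ l, T (U l) := by
    rintro ((_ | _) | m)
    exacts [h.bF β, h.sp, hY m]
  convert h.mapK ho hl hU using 6 with n J s y i
  simp only [Φ, U, eP, Sum.elim_inl, Sum.elim_inr, if_true, Bool.false_eq_true, if_false, sv,
    cl_of (spin_abs _).le, tw]
  cases hi : s i
  · have : (fun m => -sg m * (if sg m = 1 then sv s * Y n J y m s else Y n J y m s) i) =
        fun m => Y n J y m s i := by
      ext m; rcases hs m with e | e <;> norm_num [e, sv, hi, spin]
    rw [this]; norm_num [spin]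
  · have : (fun m => 1 * (if sg m = 1 then sv s * Y n J y m s else Y n J y m s) i) =
        fun m => Y n J y m s i := by
      ext m; rcases hs m with e | e <;> norm_num [e, sv, hi, spin]
    rw [this]; norm_num [spin]

/-- even letters -/
theorem Api.even {φ : PF N} (hφ : Sm φ) (hp : Pr sg 1 φ) :
    T fun n J s y => sv s * eP (β / √n) J y (Y n J y) φ s :=
  h.odd β hs hY ((Sm.spin' spin).mul hφ) fun b s ξ => by
    simp only [Pi.mul_apply, hp b s ξ]; cases s <;> simp [spin]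

end let_

lemma bdd_eP (β : ℝ) (Y : ∀ n : ℕ, Mx n → V n → St n N) {φ : PF N} (hφ : Sm φ) :
    Bdd fun n J s y => eP (β / √n) J y (Y n J y) φ s :=
  let ⟨M, _, hM⟩ := hφ.bd; ⟨M, fun _ _ _ _ _ => hM _ _ _⟩

lemma Pr.pd {sg : Fin (N + 1) → ℝ} {ε : ℝ} {φ : PF N} (hp : Pr sg ε φ) (hφ : Sm φ)
    {m : Fin (N + 1)} (hm : sg m = -1) : Pr sg (-ε) (pd m φ) := fun b s ξ => by
  let L : (Fin (N + 1) → ℝ) →L[ℝ] (Fin (N + 1) → ℝ) :=
    ContinuousLinearMap.pi fun k => sg k • ContinuousLinearMap.proj k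
  have hL : ∀ v, L v = sg * v := fun v => rfl
  have h1 := ((hφ.diff (-b) (!s)) (L ξ)).hasFDerivAt.comp ξ L.hasFDerivAt
  have h2 := ((hφ.diff b s) ξ).hasFDerivAt.const_mul ε
  have e : φ (-b) (!s) ∘ L = fun v => ε * φ b s v := funext fun v => hp b s v
  rw [e] at h1
  have h3 := congrArg (fun A => A (Pi.single m 1)) (h1.unique h2)
  have e2 : L (Pi.single m 1) = -Pi.single m 1 := by
    ext k; by_cases hk : k = m <;> simp [hL, hk, hm]
  simp only [ContinuousLinearMap.comp_apply, e2, map_neg, _root_.smul_apply,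
    smul_eq_mul, hL] at h3
  simp only [S3P.pd]
  linarith

section prog
variable (h : Api T) (β : ℝ) {P : Prog N} {sg : Fin (N + 1) → ℝ} (hP : P.Ok) (hs : P.Par sg)
include h hP hs

/-- **the canonical fields** -/
theorem Api.X (l : Fin (N + 1)) : T fun n J s y => tw (sg l) s (P.X (β / √n) J y l s) := by
  induction l using WellFoundedLT.induction with
  | ind l ih =>
  let Y : ∀ n : ℕ, Mx n → V n → St n N := fun n J y m =>
    if m < l then P.X (β / √n) J y m else 0
  have hY : ∀ m, T fun n J s y => tw (sg m) s (Y n J y m s) := fun m => by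
    by_cases hm : m < l
    · simpa only [Y, if_pos hm] using ih m hm
    · simpa [Y, hm, tw] using h.zero
  have e : ∀ {φ : PF N}, Rd l φ → ∀ (n : ℕ) (J : Mx n) (y : V n),
      eP (β / √n) J y (Y n J y) φ = eP (β / √n) J y (P.X (β / √n) J y) φ :=
    fun hr n J y => eP_congr hr fun m hm => by simp only [Y, if_pos hm]
  have od : ∀ {φ : PF N}, Sm φ → Rd l φ → Pr sg (-1) φ →
      T fun n J s y => eP (β / √n) J y (P.X (β / √n) J y) φ s := fun a b c => by
    simpa only [e b] using h.odd β hs.pm hY a c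
  have ev : ∀ {φ : PF N}, Sm φ → Rd l φ → Pr sg 1 φ →
      T fun n J s y => sv s * eP (β / √n) J y (P.X (β / √n) J y) φ s := fun a b c => by
    simpa only [e b] using h.even β hs.pm hY a c
  have bd := fun {φ : PF N} (a : Sm φ) => bdd_eP β (fun n J y => P.X (β / √n) J y) a
  have hm : ∀ {φ : PF N}, Sm φ → Rd l φ → Pr sg 1 φ → ∀ {W : Wd}, T W →
      T fun n J s y => me (β / √n) J y (P.X (β / √n) J y) φ • W n J s y := fun a b c _ w => by
    simpa only [me_eq, smul_smul] using h.smul (β ^ 2) (h.amul (h.emean (ev a b c) (bd a)) w)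
  have pf : ∀ m, Pr sg (-1) (P.f m) := fun m b s ξ => by rw [hs.f]; ring
  rcases hs.pm l with h1 | h1
  · have a1 := h.emean (ev (hP.sg l) (hP.rg l) fun b s ξ => by rw [hs.g, h1]) (bd (hP.sg l))
    have a2 := hm (hP.sg' l) (hP.rg' l) (fun b s ξ => by rw [hs.g', one_mul]) h.sp
    convert h.add' a1 a2 using 5 with n J s y
    rw [tw, if_pos h1, hP.X_par (hs.ev l h1), Prog.c, cc, mul_add]
    congr 1
    ext i; simp [mul_comm]
  · have f1 := od (hP.sf l) (hP.rf l) (pf l)
    have m1 := h.tm _ f1 (bd (hP.sf l))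
    have z : ∀ {A : Fin (N + 1) → Wd}, (∀ m, m ≤ l → T (A m)) → (∀ m, P.f m = 0 → A m = 0) →
        T fun n J s y => J *ᵥ A l n J s y -
          ∑ m, me (β / √n) J y (P.X (β / √n) J y) (pd m (P.f l)) • A m n J s y := fun a b =>
      h.sub (h.mul _ (a l le_rfl)) (h.sum _ fun m _ => by
        rcases lt_or_ge m l with hm' | hm'
        · rcases hs.pm m with h2 | h2
          · simpa [b m (hs.ev m h2)] using h.zero
          · exact hm ((hP.sf l).pd m) ((hP.rf l).pd m)
              (by simpa using (pf l).pd (hP.sf l) h2) (a m hm'.le)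
        · simpa [(hP.rf l).pd_zero (hP.sf l) hm', me_zero] using h.zero)
    have z1 := z (A := fun m n J s y => eP (β / √n) J y (P.X (β / √n) J y) (P.f m) s)
      (fun m hm' => od (hP.sf m) ((hP.rf m).mono hm') (pf m)) fun m e0 => by
        ext n J s y i; simp [e0, eP]
    have z2 := z (A := fun m n J _ y => meanV (ising J y) fun t =>
        eP (β / √n) J y (P.X (β / √n) J y) (P.f m) t)
      (fun m hm' => h.tm _ (od (hP.sf m) ((hP.rf m).mono hm') (pf m)) (bd (hP.sf m))) fun m e0 => by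
        ext n J s y i; simp [e0, eP, meanV, mean]
    have s1 := hm ((hP.sf l).mul (Sm.spin' spin)) (fun b s ξ ξ' e' => by
      simp only [Pi.mul_apply, hP.rf l b s ξ ξ' e']) (fun b s ξ => by
        simp only [Pi.mul_apply, hs.f]; cases s <;> simp [spin]) h.mag
    have s2 := h.smul (β ^ 2) (h.sc _ _ _ m1 h.mag h.mag)
    have c1 := h.tm _ (od (hP.sg l) (hP.rg l) fun b s ξ => by rw [hs.g, h1]) (bd (hP.sg l))
    convert h.add' (h.add' (h.sub z1 z2) (h.sub s1 s2)) c1 using 5 with n J s y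
    have hw := Pl.wt_ising J y
    rw [tw, if_neg (by rw [h1]; norm_num), ← congrFun (congrFun hP.fix l) s, step, cc, hs.od l h1,
      me_zero]
    congr 1
    · congr 1
      · congr 1
        ext k
        simp only [meanV, Zr, Pi.sub_apply, Finset.sum_apply, Pi.smul_apply, smul_eq_mul, mulVec,
          dotProduct, SL.mean_sub, SL.mean_sum, SL.mean_const_mul]
      · rw [smul_smul, ← sub_smul, me_eq, ← mul_sub, Sg, of_apply, ← Uw.eta, eta_eq, hP.f0]
        congr 2
        simp only [avg, ← sub_div, ← sum_sub_distrib, hw.cov_eq]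
        rfl
    · ext k; simp


/-- even letters of the program -/
theorem Api.ee {φ : PF N} (hφ : Sm φ) (hp : Pr sg 1 φ) :
    T fun n J s y => sv s * P.e (β / √n) J y φ s := h.even β hs.pm (h.X β hP hs) hφ hp

/-- multiplication by an even letter -/
theorem Api.em {φ : PF N} (hφ : Sm φ) (hp : Pr sg 1 φ) {W : Wd} (hW : T W) :
    T fun n J s y => P.e (β / √n) J y φ s * W n J s y :=
  h.emul (h.ee β hP hs hφ hp) (bdd_eP β (fun n J y => P.X (β / √n) J y) hφ) hW

/-- multiplication by a thermal constant -/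
theorem Api.cm {φ : PF N} (hφ : Sm φ) (hp : Pr sg 1 φ) {W : Wd} (hW : T W) :
    T fun n J s y => me (β / √n) J y (P.X (β / √n) J y) φ • W n J s y := by
  simpa only [me_eq, smul_smul] using h.smul (β ^ 2) (h.amul (h.emean
    (h.even β hs.pm (h.X β hP hs) hφ hp) (bdd_eP β (fun n J y => P.X (β / √n) J y) hφ)) hW)

/-- **forward recursions** with even letters and thermal constants -/
theorem Api.fwd {K : ℕ} {a : Fin K → Fin K → PF N} (ha : ∀ l m, Sm (a l m) ∧ Pr sg 1 (a l m))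
    (tri : ∀ l m, l ≤ m → a l m = 0) {g c c' : Fin K → Wd} (hg : ∀ l, T (g l))
    (hr : ∀ (n : ℕ) J s y, S3.RecV J (fun l m => P.e (β / √n) J y (a l m) s)
      (fun l m => me (β / √n) J y (P.X (β / √n) J y) (a l m)) (fun l => g l n J s y)
      (fun l => c l n J s y) fun l => c' l n J s y) (l : Fin K) : T (c l) ∧ T (c' l) := by
  induction l using WellFoundedLT.induction with
  | ind l ih =>
  have h1 : T (c l) := by
    convert h.add' (hg l) (h.sum univ (U := fun m n J s y => P.e (β / √n) J y (a l m) s *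
      c' m n J s y) fun m _ => ?_) using 5 with n J s y
    · exact (hr n J s y l).1
    · rcases lt_or_ge m l with hm | hm
      · exact h.em β hP hs (ha l m).1 (ha l m).2 (ih m hm).2
      · have : ∀ (n : ℕ) (J : Mx n) y s, P.e (β / √n) J y (0 : PF N) s = 0 := fun _ _ _ _ => rfl
        simpa [tri l m hm, this] using h.zero
  refine ⟨h1, ?_⟩
  convert h.sub (h.mul _ h1) (h.sum univ (U := fun m n J s y =>
    me (β / √n) J y (P.X (β / √n) J y) (a l m) • c m n J s y) fun m _ => ?_) using 5 with n J s y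
  · exact (hr n J s y l).2
  · rcases lt_or_ge m l with hm | hm
    · exact h.cm β hP hs (ha l m).1 (ha l m).2 (ih m hm).1
    · simpa [tri l m hm, me_zero] using h.zero

end prog

end Crest.Agent.T157.KP69

end
end

-- ▼ part T157/S3LkA_40
section

/-!
# Row 157, block B/S3 (helper40): the canonical top word of a program
-/

set_option autoImplicit false

noncomputable section

namespace Crest.Agent.T157.S3.Lk

open Matrix Finset
open Crest.ProbabilityR.SpinGlassDynamics (spin)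
open Crest.Agent.T157.E (Cube sv ising mean meanV cov mag)
open Crest.Agent.T157.Eig
open Crest.Agent.T157.Pl (cmul cmul_cmul)
open Crest.Agent.T157.S3P (PF Prog Sm St bF eP me Zr Sg cc step me_zero)
open Crest.Agent.T157.KP69 (Pr Api Wd)
open Crest.Agent.T157.S3.Gg

/-! ### triangular recursions -/

section rec_
variable {n K : ℕ} {J : Mx n} {a : Fin K → Fin K → V n} {ot : Fin K → Fin K → ℝ}
  {S T Y T' Y' : Fin K → Mx n}

/-- the words of a recursion -/
def Yw (J : Mx n) (a : Fin K → Fin K → V n) (ot : Fin K → Fin K → ℝ) (S : Fin K → Mx n) :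
    (Fin K → Mx n) × (Fin K → Mx n) := Classical.epsilon fun p => RecM J a ot S p.1 p.2

lemma Yw_spec (ha : ∀ l m, l ≤ m → a l m = 0) (ho : ∀ l m, l ≤ m → ot l m = 0) :
    RecM J a ot S (Yw J a ot S).1 (Yw J a ot S).2 :=
  Classical.epsilon_spec (p := fun p : (Fin K → Mx n) × (Fin K → Mx n) => RecM J a ot S p.1 p.2)
    (let ⟨T, Y, h⟩ := Ex98.recM_ex J ha ho S; ⟨(T, Y), h⟩)

lemma recM_uniq (ha : ∀ l m, l ≤ m → a l m = 0) (ho : ∀ l m, l ≤ m → ot l m = 0)
    (h : RecM J a ot S T Y) (h' : RecM J a ot S T' Y') (l : Fin K) : T l = T' l ∧ Y l = Y' l := by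
  induction l using WellFoundedLT.induction with
  | ind l ih =>
  have e : T l = T' l := by
    rw [(h l).1, (h' l).1]
    exact congrArg _ (Ex98.sum_lt (fun m hm => by rw [(ih m hm).2]) fun m hm => by simp [ha l m hm])
  refine ⟨e, ?_⟩
  rw [(h l).2, (h' l).2, e]
  exact congrArg _ (Ex98.sum_lt (fun m hm => by rw [(ih m hm).1]) fun m hm => by simp [ho l m hm])

lemma recM_opn (K : ℕ) {M : ℝ} (M0 : 0 ≤ M) (l : Fin K) : ∃ C ≥ (0 : ℝ), ∀ (n : ℕ) (J : Mx n) a ot
    (S T Y : Fin K → Mx n), (∀ l m, l ≤ m → a l m = 0) → (∀ l m, l ≤ m → ot l m = 0) → opn J ≤ M →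
    (∀ l m k, |a l m k| ≤ M) → (∀ l m, |ot l m| ≤ M) → (∀ l, opn (S l) ≤ M) → RecM J a ot S T Y →
    opn (T l) ≤ C ∧ opn (Y l) ≤ C := by
  induction l using WellFoundedLT.induction with
  | ind l ih =>
  choose! C C0 hC using ih
  set B : ℝ := ∑ m, if m < l then M * C m else 0 with hB
  have B0 : 0 ≤ B := sum_nonneg fun m _ => by
    split_ifs with h
    exacts [mul_nonneg M0 (C0 m h), le_rfl]
  refine ⟨(M + 1) * (M + B) + B, by positivity, fun n J a ot S T Y ha ho hJ h1 h2 h3 h => ?_⟩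
  have e : opn (T l) ≤ M + B := by
    rw [(h l).1]
    refine (opn_add_le _ _).trans (add_le_add (h3 l) ((opn_sum_le _ _).trans (sum_le_sum fun m _ => ?_)))
    split_ifs with hm
    · exact (opn_mul_le _ _).trans (mul_le_mul (opn_diagonal_le M0 (h1 l m))
        (hC m hm n J a ot S T Y ha ho hJ h1 h2 h3 h).2 (opn_nonneg _) M0)
    · simp [ha l m (not_lt.1 hm)]
  refine ⟨by nlinarith, ?_⟩
  rw [(h l).2]
  refine (opn_sub_le _ _).trans (add_le_add ((opn_mul_le _ _).trans ((mul_le_mul hJ e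
    (opn_nonneg _) M0).trans (by nlinarith))) ((opn_sum_le _ _).trans (sum_le_sum fun m _ => ?_)))
  split_ifs with hm
  · rw [opn_smul]
    exact mul_le_mul (h2 l m) (hC m hm n J a ot S T Y ha ho hJ h1 h2 h3 h).1 (opn_nonneg _) M0
  · simp [ho l m (not_lt.1 hm)]

variable (z : Cube n)

lemma cj_diag (u : V n) : cj z (diagonal u) = diagonal u := by
  ext i j
  by_cases h : i = j
  · subst h
    rw [cj_apply, mul_right_comm, Rec.sv_mul_self, one_mul]
  · simp [cj_apply, h]

lemma cj_mul (A B : Mx n) : cj z (A * B) = cj z A * cj z B := by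
  ext i j
  simp only [cj_apply, mul_apply, mul_sum, sum_mul]
  refine sum_congr rfl fun k _ => ?_
  linear_combination -(sv z i * A i k * B k j * sv z j) * Rec.sv_mul_self z k

lemma cj_top (A : Mx n) (u : Fin K → V n) (Y : Fin K → Mx n) :
    cj z (A + ∑ m, diagonal (u m) * Y m) = cj z A + ∑ m, diagonal (u m) * cj z (Y m) := by
  have : ∀ m, diagonal (u m) * cj z (Y m) = cj z (diagonal (u m) * Y m) := fun m => by
    rw [cj_mul, cj_diag]
  simp only [this]
  simp only [cj, Matrix.mul_add, Matrix.add_mul, Matrix.mul_sum, Matrix.sum_mul]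

lemma recM_g {u : Fin K → V n} (h : RecM (cj z J) a ot (fun l => diagonal (u l)) T Y) :
    RecM J a ot (fun l => diagonal (u l)) (fun l => cj z (T l)) fun l => cj z (Y l) := fun l => by
  refine ⟨by beta_reduce; rw [(h l).1, cj_top, cj_diag], ?_⟩
  have : J * cj z (T l) = cj z (cj z J * T l) := by rw [cj_mul, cj_cj]
  simp only [this]
  rw [(h l).2]
  simp only [cj, Matrix.mul_sub, Matrix.sub_mul, Matrix.mul_sum, Matrix.sum_mul, Matrix.mul_smul,
    Matrix.smul_mul]

end rec_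

/-! ### gauge covariance of the canonical fields -/

section gauge
variable {n N : ℕ} (z : Cube n) (s : ℝ) (J : Mx n) (y : V n) {sg : Fin (N + 1) → ℝ}

/-- transport of the fields -/
def gX (sg : Fin (N + 1) → ℝ) (X : St n N) : St n N :=
  fun l x => (if sg l = 1 then 1 else sv z) * X l (cmul z x)

lemma bF_g : bF s (cj z J) (sv z * y) = sv z * bF s J y := by
  have : (sv z * mag (ising J y)) ^ 2 = mag (ising J y) ^ 2 := funext fun i => sq_g z i _
  rw [bF, bF, mag_g, cj_mulVec_g, this, mul_sub, mul_add, mul_smul_comm]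

lemma meanV_g (u : Cube n → V n) (c : V n) :
    meanV (ising (cj z J) (sv z * y)) (fun x => c * u (cmul z x)) = c * meanV (ising J y) u := by
  funext k
  simp only [meanV, Pi.mul_apply, SL.mean_const_mul]
  rw [mean_g z J y fun x => u x k]

variable (hs : ∀ l, sg l = 1 ∨ sg l = -1) (X : St n N) {φ : PF N}
include hs

lemma eP_g {ε : ℝ} (hp : Pr sg ε φ) (x : Cube n) (k : Fin n) :
    eP s (cj z J) (sv z * y) (gX z sg X) φ x k =
      (if z k then 1 else ε) * eP s J y X φ (cmul z x) k := by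
  simp only [eP, bF_g, gX, Pi.mul_apply]
  cases hz : z k
  · have e1 : sv z k = -1 := by simp [sv, hz, spin]
    have e2 : x k = !(cmul z x k) := by simp [cmul, hz]
    have e3 : (fun l => (if sg l = 1 then 1 else sv z : V n) k * X l (cmul z x) k) =
        sg * fun l => X l (cmul z x) k := funext fun l => by
      rcases hs l with h | h <;> norm_num [h, e1]
    rw [e3, e1, neg_one_mul, e2, hp]
    simp
  · have e1 : sv z k = 1 := by simp [sv, hz, spin]
    have e2 : x k = cmul z x k := by simp [cmul, hz]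
    have e3 : (fun l => (if sg l = 1 then 1 else sv z : V n) k * X l (cmul z x) k) =
        fun l => X l (cmul z x) k := funext fun l => by
      split_ifs <;> simp [e1]
    rw [e3, e1, one_mul, ← e2]
    simp

lemma eP_ev (hp : Pr sg 1 φ) :
    eP s (cj z J) (sv z * y) (gX z sg X) φ = fun x => eP s J y X φ (cmul z x) := by
  funext x k
  rw [eP_g z s J y hs X hp, ite_self, one_mul]

lemma eP_od (hp : Pr sg (-1) φ) :
    eP s (cj z J) (sv z * y) (gX z sg X) φ = fun x => sv z * eP s J y X φ (cmul z x) := by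
  funext x k
  rw [eP_g z s J y hs X hp, Pi.mul_apply, sv]
  cases z k <;> simp [spin]

lemma me_ev (hp : Pr sg 1 φ) : me s (cj z J) (sv z * y) (gX z sg X) φ = me s J y X φ := by
  rw [me, eP_ev z s J y hs X hp]
  exact mean_g z J y fun x => Uw.eta s (eP s J y X φ x)

omit hs
variable {P : Prog N} (hP : P.Ok) (hp : P.Par sg)
include hP hp

lemma step_g : step P s (cj z J) (sv z * y) (gX z sg X) = gX z sg (step P s J y X) := by
  have pf : ∀ m, Pr sg (-1) (P.f m) := fun m b s ξ => by rw [hp.f]; ring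
  have e0 : ∀ (J : Mx n) y X x, eP s J y X (0 : PF N) x = 0 := fun _ _ _ _ => rfl
  have hZ : ∀ l, Zr P s (cj z J) (sv z * y) (gX z sg X) l =
      fun x => sv z * Zr P s J y X l (cmul z x) := fun l => by
    funext x
    simp only [Zr, fun m => eP_od z s J y hp.pm X (pf m), cj_mulVec_g, mul_sub, mul_sum]
    refine congrArg _ (sum_congr rfl fun m _ => ?_)
    rcases hp.pm m with h | h
    · simp [hp.ev m h, e0]
    · rw [me_ev z s J y hp.pm X (by simpa using (pf l).pd (hP.sf l) h), mul_smul_comm]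
  have hS : ∀ l, Sg P s (cj z J) (sv z * y) (gX z sg X) l 0 = Sg P s J y X l 0 := fun l => by
    simp only [Sg, of_apply, fun m => eP_od z s J y hp.pm X (pf m), (Pl.wt_ising _ _).cov_eq]
    refine congrArg _ (sum_congr rfl fun k _ => ?_)
    have h1 := fun u => congrFun (meanV_g z J y u (sv z)) k
    simp only [meanV] at h1
    rw [h1, h1, ← mean_g z J y fun x => eP s J y X (P.f l) x k * eP s J y X (P.f 0) x k]
    have h2 : ∀ a b : ℝ, sv z k * a * (sv z k * b) = a * b := fun a b => by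
      linear_combination a * b * Rec.sv_mul_self z k
    simp only [Pi.mul_apply, h2]
    rfl
  have g' : ∀ l, Pr sg 1 (P.g' l) := fun l b s ξ => by rw [hp.g', one_mul]
  funext l x
  rw [step, hZ, meanV_g, hS, mag_g, cc, me_ev z s J y hp.pm X (g' l), gX, step, cc]
  rcases hp.pm l with h | h
  · have z1 : Zr P s J y X l = 0 := by
      funext x
      simp [Zr, hp.ev l h, S3P.pd_zero, me_zero, e0]
    have z2 : Sg P s J y X l 0 = 0 := by simp [Sg, hp.ev l h, e0, cov, mean]
    have z3 : meanV (ising J y) (0 : Cube n → V n) = 0 := by ext; simp [meanV, mean]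
    have := meanV_g z J y (eP s J y X (P.g l)) 1
    simp only [one_mul] at this
    rw [eP_ev z s J y hp.pm X (fun b s ξ => by rw [hp.g, h]), this, z1, z2, z3, if_pos h]
    simp
  · rw [eP_od z s J y hp.pm X (fun b s ξ => by rw [hp.g, h]), meanV_g, hp.od l h, me_zero,
      if_neg (by rw [h]; norm_num)]
    ext k
    simp only [Pi.add_apply, Pi.sub_apply, Pi.mul_apply, Pi.smul_apply, smul_eq_mul]
    ring

theorem X_g : P.X s (cj z J) (sv z * y) = gX z sg (P.X s J y) := by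
  suffices H : ∀ t, (step P s (cj z J) (sv z * y))^[t] 0 = gX z sg ((step P s J y)^[t] 0) from H _
  intro t
  induction t with
  | zero => funext l x; simp [gX]
  | succ t ih =>
    rw [Function.iterate_succ_apply', Function.iterate_succ_apply', ih, step_g z s J y _ hP hp]

theorem e_g (h : Pr sg 1 φ) (x : Cube n) :
    P.e s (cj z J) (sv z * y) φ (cmul z x) = P.e s J y φ x := by
  rw [Prog.e, X_g z s J y hP hp, eP_ev z s J y hp.pm _ h]
  simp only [cmul_cmul]
  rfl

theorem me_g (h : Pr sg 1 φ) :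
    me s (cj z J) (sv z * y) (P.X s (cj z J) (sv z * y)) φ = me s J y (P.X s J y) φ := by
  rw [X_g z s J y hP hp, me_ev z s J y hp.pm _ h]

end gauge

/-! ### the top word -/

/-- a program with the letters of a flow family and top letters -/
structure Pg where
  m : ℕ
  K : ℕ
  P : Prog m
  sg : Fin (m + 1) → ℝ
  al : Fin K → PF m
  a : Fin K → Fin K → PF m
  al0 : PF m
  a0 : Fin K → PF m

namespace Pg
variable (g : Pg)

structure Ok : Prop where
  ok : g.P.Ok
  par : g.P.Par g.sg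
  al : ∀ l, Sm (g.al l) ∧ Pr g.sg 1 (g.al l)
  a : ∀ l p, Sm (g.a l p) ∧ Pr g.sg 1 (g.a l p)
  al0 : Sm g.al0 ∧ Pr g.sg 1 g.al0
  a0 : ∀ l, Sm (g.a0 l) ∧ Pr g.sg 1 (g.a0 l)
  tri : ∀ l p, l ≤ p → g.a l p = 0

section
variable {n : ℕ} (s : ℝ) (J : Mx n) (y : V n) (x : Cube n)

def av (l p : Fin g.K) : V n := g.P.e s J y (g.a l p) x
def ot (l p : Fin g.K) : ℝ := me s J y (g.P.X s J y) (g.a l p)
def S (l : Fin g.K) : Mx n := diagonal (g.P.e s J y (g.al l) x)
def W : (Fin g.K → Mx n) × (Fin g.K → Mx n) := Yw J (g.av s J y x) (g.ot s J y) (g.S s J y x)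
/-- **the canonical top word** -/
def Tg : Mx n := diagonal (g.P.e s J y g.al0 x) +
  ∑ p, diagonal (g.P.e s J y (g.a0 p) x) * (g.W s J y x).2 p

variable {g} (h : g.Ok)
include h

lemma Ok.av0 (l p : Fin g.K) (hp : l ≤ p) : g.av s J y x l p = 0 := by rw [av, h.tri l p hp]; rfl
lemma Ok.ot0 (l p : Fin g.K) (hp : l ≤ p) : g.ot s J y l p = 0 := by rw [ot, h.tri l p hp, me_zero]
lemma Ok.rec' : RecM J (g.av s J y x) (g.ot s J y) (g.S s J y x) (g.W s J y x).1 (g.W s J y x).2 :=
  Yw_spec (h.av0 s J y x) (h.ot0 s J y)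
lemma Ok.uniq {T Y : Fin g.K → Mx n} (h' : RecM J (g.av s J y x) (g.ot s J y) (g.S s J y x) T Y) :
    (g.W s J y x).2 = Y :=
  funext fun l => (recM_uniq (h.av0 s J y x) (h.ot0 s J y) (h.rec' s J y x) h' l).2

/-- **gauge covariance** -/
theorem Ok.Tg_g (z : Cube n) : gM z (g.Tg s (cj z J) (sv z * y)) = g.Tg s J y := by
  funext x
  have h1 := h.rec' s (cj z J) (sv z * y) (cmul z x)
  have e1 : g.av s (cj z J) (sv z * y) (cmul z x) = g.av s J y x :=
    funext₂ fun l p => e_g z s J y h.ok h.par (h.a l p).2 x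
  have e2 : g.ot s (cj z J) (sv z * y) = g.ot s J y :=
    funext₂ fun l p => me_g z s J y h.ok h.par (h.a l p).2
  have e3 : g.S s (cj z J) (sv z * y) (cmul z x) = fun l => diagonal (g.P.e s J y (g.al l) x) :=
    funext fun l => congrArg _ (e_g z s J y h.ok h.par (h.al l).2 x)
  rw [e1, e2, e3] at h1
  rw [gM, Tg, Tg, cj_top, cj_diag, h.uniq s J y x (recM_g z h1), e_g z s J y h.ok h.par h.al0.2]
  simp only [fun p => e_g z s J y h.ok h.par (h.a0 p).2 x]

end

variable {g} (h : g.Ok) (β : ℝ)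
include h

/-- **operator norm** -/
theorem Ok.opn_le : ∃ C, ∀ (n : ℕ) (J : Mx n) (y : V n) (x : Cube n), opn J ≤ 3 →
    opn (g.Tg (β / √n) J y x) ≤ C := by
  choose A A0 hA using fun l p => (h.a l p).1.bd
  choose B B0 hB using fun l => (h.al l).1.bd
  choose D D0 hD using fun l => (h.a0 l).1.bd
  obtain ⟨E, E0, hE⟩ := h.al0.1.bd
  set M : ℝ := 3 + (β ^ 2 + 1) * ∑ l, ∑ p, A l p + ∑ l, B l with hM
  have a1 : ∀ l p, A l p ≤ ∑ l, ∑ p, A l p := fun l p =>
    (single_le_sum (f := A l) (fun _ _ => A0 _ _) (mem_univ p)).trans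
      (single_le_sum (f := fun l => ∑ p, A l p) (fun _ _ => sum_nonneg fun _ _ => A0 _ _) (mem_univ l))
  have s1 : 0 ≤ ∑ l, ∑ p, A l p := sum_nonneg fun _ _ => sum_nonneg fun _ _ => A0 _ _
  have s2 : 0 ≤ ∑ l, B l := sum_nonneg fun _ _ => B0 _
  have s3 := mul_nonneg (sq_nonneg β) s1
  choose C C0 hC using recM_opn g.K (show 0 ≤ M by positivity)
  refine ⟨E + ∑ p, D p * C p, fun n J y x hJ => (opn_add_le _ _).trans (add_le_add
    (opn_diagonal_le E0 fun k => hE _ _ _) ((opn_sum_le _ _).trans (sum_le_sum fun p _ =>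
      (opn_mul_le _ _).trans (mul_le_mul (opn_diagonal_le (D0 p) fun k => hD _ _ _ _)
        (hC p n J _ _ _ _ _ (h.av0 _ J y x) (h.ot0 _ J y) (by linarith) (fun l m k => ?_)
          (fun l m => ?_) (fun l => ?_) (h.rec' _ J y x)).2 (opn_nonneg _) (D0 p)))))⟩
  · exact (hA l m _ _ _).trans (by linarith [a1 l m])
  · refine ((Pl.wt_ising J y).abs_mean_le (c := β ^ 2 * A l m) fun t => ?_).trans
      (by nlinarith [a1 l m, sq_nonneg β])
    rw [KP69.eta_eq, abs_mul, abs_sq, Tap.avg, abs_div, Nat.abs_cast]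
    refine mul_le_mul_of_nonneg_left (div_le_of_le_mul₀ (Nat.cast_nonneg n) (A0 l m)
      ((abs_sum_le_sum_abs _ _).trans ((sum_le_sum fun k _ => hA l m _ _ _).trans ?_))) (sq_nonneg β)
    simp [mul_comm]
  · exact (opn_diagonal_le (B0 l) fun k => hB l _ _ _).trans (by
      linarith [single_le_sum (f := B) (fun _ _ => B0 _) (mem_univ l)])

/-- **the top word acts on every thermal calculus** -/
theorem Ok.api {T : Wd → Prop} (hT : Api T) {U : Wd} (hU : T U) :
    T fun n J s y => g.Tg (β / √n) J y s *ᵥ U n J s y := by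
  have dm : ∀ {n : ℕ} (u v : V n), diagonal u *ᵥ v = u * v := fun u v =>
    funext fun i => mulVec_diagonal u v i
  have H := hT.fwd β h.ok h.par h.a h.tri
    (g := fun l n J s y => g.P.e (β / √n) J y (g.al l) s * U n J s y)
    (c := fun l n J s y => (g.W (β / √n) J y s).1 l *ᵥ U n J s y)
    (c' := fun l n J s y => (g.W (β / √n) J y s).2 l *ᵥ U n J s y)
    (fun l => hT.em β h.ok h.par (h.al l).1 (h.al l).2 hU) fun n J s y l => by
      have h1 := h.rec' (β / √n) J y s l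
      constructor
      · simp only []
        rw [h1.1, add_mulVec, sum_mulVec]
        simp only [← mulVec_mulVec, S, dm, av]
      · simp only []
        rw [h1.2, sub_mulVec, sum_mulVec]
        simp only [← mulVec_mulVec, smul_mulVec, ot]
  convert hT.add' (hT.em β h.ok h.par h.al0.1 h.al0.2 hU) (hT.sum univ fun p _ =>
    hT.em β h.ok h.par (h.a0 p).1 (h.a0 p).2 (H p).2) using 5 with n J s y
  rw [Tg, add_mulVec, sum_mulVec]
  simp only [← mulVec_mulVec, dm]

end Pg

end Crest.Agent.T157.S3.Lk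

end
end

-- ▼ part T157/S3LkF_90
section

/-! Row 157, block B/S3 (helper90): the link of the ansatz on a family. -/

set_option autoImplicit false

noncomputable section

namespace Crest.Agent.T157.S1.SA

open Matrix Filter MeasureTheory
open Crest.Agent.T157.Eig
open Crest.Agent.T157.E (Cube)
open Crest.Agent.T157.Rec (grad)
open Crest.Agent.T157.S3 Crest.Agent.T157.S3.Fam Crest.Agent.T157.S3.An90 Crest.Agent.T157.S3.T60
open Crest.Agent.T157.Nt (Fn Ix)
open Crest.Agent.T157.Tw (sech2)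

/-- the gradient of the top letter is linked to the gradient flow -/
theorem lk_qs {F : Fam} (hF : F.Ok) {N P : ℕ} {R : Net F N} {d : Tp R P} {𝒯 : Set F.Df} {a C0 e : ℝ}
    {p q α : F.Df} (h : TopIn d 𝒯 a C0 e p q α) : Qs 𝒯 fun e B i w => Exc (F.w i) e B fun x =>
      nrm (grad (fun z => w ⬝ᵥ R.ev d.ψ ⟨i, z⟩) x -
        (d.Γ.tT (R.gs d.ψ) (fun m => R.pd m d.ψ) ⟨i, x⟩)ᵀ *ᵥ w) := by
  obtain ⟨C, h1⟩ := regGStmt F N R 𝒯 d.Γ d.ψ hF h.net h.ty h.drift.1 h.top h.bψ
  refine Qs.imp hF (p := fun e B i w => ∃ Ω, Rg e (C * nrm w) Ω ∧ Exc (F.w i) e B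
      (fun x => nrm ((d.Γ.tT (R.gs d.ψ) (fun m => R.pd m d.ψ) ⟨i, x⟩)ᵀ *ᵥ w - Ω x)) ∧
      Exc (F.w i) e B fun x => nrm (grad (fun z => w ⬝ᵥ R.ev d.ψ ⟨i, z⟩) x - Ω x))
    (fun _ _ _ _ _ hB ⟨Ω, a, b, c⟩ => ⟨Ω, a, Exc.mono b le_rfl hB fun _ => le_rfl,
      Exc.mono c le_rfl hB fun _ => le_rfl⟩)
    (fun _ _ _ _ _ hB H => Exc.mono H le_rfl hB fun _ => le_rfl) h1 fun e he =>
    ⟨e / 4, by positivity, 1, one_pos, 4, 0, by norm_num, by linarith,
      .of_forall fun i w B _ _ ⟨Ω, _, b, c⟩ => Exc.mono (Exc.add (Da.Gr.ising_pos _ _) c b)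
        (by linarith) (by linarith) fun x => (nrm_tri _ (Ω x) _).trans_eq (by
          rw [nrm_sub_comm (Ω x)])⟩

/-- **the rescaled ansatz with its link** -/
theorem ansL_out {F : Fam} (hF : F.Ok) {ν : Measure ℝ} {n : ℕ} {N : Nt.Net n} {l a e C' : ℝ}
    {ψ : Fn (Ix n)} {m : Ix n → Fn (Ix n)} {ρ : ℝ → ℝ} {R : Net F n}
    {Ag : F.Lf (n + 1) → Fn (Ix n) → Prop} {d : Tp R (n + 1)} (h : Out F ν N l a e C' ψ m ρ R Ag d)
    (hC : 0 ≤ C') (he : 0 ≤ e) : AnsL F a (2 * (8 / (l - a) ^ 2 + 2)) C' e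
      (fun i k => sech2 (bv F i k) + e) (fun i k => qf ρ (bv F i k))
      (fun i k => alf (N.S 0 0) a ρ (bv F i k) * qf ρ (bv F i k))
      fun i x => (2 / 3 : ℝ) • d.Γ.tT (R.gs d.ψ) (fun m => R.pd m d.ψ) ⟨i, x⟩ := by
  obtain ⟨C, c1, H⟩ := h.ans' hF hC he
  refine ⟨C, c1, fun e1 he1 => ?_⟩
  obtain ⟨η, η0, D, hD, C1, -, H⟩ := H e1 he1
  obtain ⟨η', η0', D', hD', C2, H'⟩ := lk_qs hF h.top e1 he1
  refine ⟨min η η', lt_min η0 η0', D ++ D', List.forall_mem_append.2 ⟨hD, hD'⟩, |C1| + |C2|,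
    by positivity, ?_⟩
  filter_upwards [H, H'] with i b b'
  refine ⟨_, _, amono b le_rfl (fun _ => le_rfl) le_rfl (min_le_left _ _) le_rfl fun w =>
    E0_mono hF (by linarith [abs_nonneg C2]) (by rw [Pi_append]; linarith [Pi_nonneg D' i w]),
    fun w hw => ?_⟩
  have h1 := b' ((2 / 3 : ℝ) • w) (by
    rw [norm_smul, Real.norm_of_nonneg (by norm_num)]
    linarith [hw.trans (min_le_right _ _), norm_nonneg w])
  refine Exc.mono h1 le_rfl ((E0_smul hF he1.le (by norm_num) (by norm_num) D' i w).trans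
    (E0_mono hF (by rw [abs_abs]; linarith [abs_nonneg C1])
      (by rw [Pi_append]; linarith [Pi_nonneg D i w]))) fun x => le_of_eq ?_
  simp only [h.hψ, dotProduct_smul, smul_dotProduct, transpose_smul, smul_mulVec, mulVec_smul]

end Crest.Agent.T157.S1.SA

end
end

-- ▼ part T157/S3LkI_90
section

/-! Row 157, block B/S3 (helper90): the gradient flow of a realisation is a canonical top word. -/

set_option autoImplicit false

noncomputable section

namespace Crest.Agent.T157.S3.Lk90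

open Matrix MeasureTheory Set
open Crest.Agent.T157.E (Cube)
open Crest.Agent.T157.Nt (Fn Ix BS dx res rf cb co Tl FactStmt)
open Crest.Agent.T157.S3P (fl)
open Crest.Agent.T157.S3R
open Crest.Agent.T157.S3.T60 (Rz RX Out)
open Crest.Agent.T157.S3.Lk (Pg)
open Crest.Agent.T157.Pos (In)

variable {F : Fam} {ν : Measure ℝ} {n : ℕ} {N : Nt.Net n} {σ : Sta F ν} {e : Ix n → Ix σ.m}
  {X : Ix n → F.Vf} {G : Ix n → JL F n} {π : Ix n → Ix n → F.I → ℝ} {ψ : Fn (Ix n)}

theorem top_d (T : Tl) (h : Nt.LT ψ) : Nt.Df ψ ∧ ∀ u, BS (dx u ψ) := by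
  have B := T.bs (Ix n)
  have X := T.dx ℝ (Ix n)
  have dco : ∀ u : Ix n, Nt.Df (co u : Fn (Ix n)) := fun u b s => differentiable_apply u
  have dmul : ∀ {φ φ' : Fn (Ix n)}, Nt.Df φ → Nt.Df φ' → Nt.Df (φ * φ') :=
    fun h h' b s => (h b s).mul (h' b s)
  obtain ⟨G, c, hG, hc, rfl⟩ := h
  have hs : Nt.Df (∑ l, cb (c l) * co l : Fn (Ix n)) := fun b s => by
    simpa only [Finset.sum_apply] using
      Differentiable.sum (u := Finset.univ) fun l _ => dmul (B.df (hc l)) (dco l) b s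
  refine ⟨fun b s => (B.df hG b s).add (hs b s), fun u => ?_⟩
  rw [X.add u (B.df hG) hs, X.sum u _ fun l _ => dmul (B.df (hc l)) (dco l)]
  refine B.add (B.dx u hG) (B.sum _ fun l _ => ?_)
  rw [X.cbm, X.co]
  split_ifs
  exacts [B.mul (hc l) (B.const 1), B.mul (hc l) (B.const 0)]

/-- the program of the gradient flow of a realisation -/
def pg (σ : Sta F ν) (e : Ix n → Ix σ.m) (ψ : Fn (Ix n)) (c : ℝ) : Pg where
  m := σ.m
  K := n + 1
  P := σ.P
  sg := σ.sg
  al l := S3P.gs (σ.P.f (e l))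
  a l p := if p < l then S3P.pd (e p) (σ.P.f (e l)) else 0
  al0 := c • res e (Nt.gs ψ)
  a0 p := c • res e (dx p ψ)

theorem pg_ok (T : Tl) (h : Rp N σ e univ X G π) (h1 : Nt.LT ψ) (h2 : rf ψ = -ψ)
    (h3 : BS (Nt.gs ψ)) (c : ℝ) : (pg σ e ψ c).Ok := by
  have sg : ∀ u, σ.sg (e u) = -1 := fun u => (σ.re _ (h.bs.re u trivial)).2.2
  have k : ∀ {φ}, S3R.Pr σ.sg (- -1) φ → KP69.Pr σ.sg 1 φ := fun h b s ξ => by
    simpa only [neg_neg] using h.resolve_left (by norm_num) b s ξ
  have r : ∀ {H : Fn (Ix n)}, BS H → rf H = H → S3P.Sm (c • res e H) ∧ KP69.Pr σ.sg 1 (c • res e H) :=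
    fun {H} hb hr => ⟨(sm_res e (sm_of_bs T.bs hb)).smul c, fun b s ξ => by
      have : (σ.sg * ξ) ∘ e = -(ξ ∘ e) := funext fun u => by simp [sg]
      simp only [Pi.smul_apply, res, this, one_mul]
      exact congrArg _ (congrFun (congrFun (congrFun hr b) s) _)⟩
  refine ⟨σ.ok, σ.par, fun l => ⟨(σ.ok.sf _).gs, k (σ.pr_f _).gs⟩, fun l p => ?_,
    r h3 (T60.rf_gs T h2), fun p => r ((top_d T h1).2 p) (T60.rf_dx T h2 (top_d T h1).1 p),
    fun l p hp => if_neg (not_lt.2 hp)⟩
  simp only [pg]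
  split_ifs
  · exact ⟨(σ.ok.sf _).pd _, k ((σ.pr_f _).pd (σ.ok.sf _) (sg p))⟩
  · exact ⟨.zero, fun _ _ _ => (one_mul _).symm⟩

theorem tg_eq (h : Rp N σ e univ X G π) (c : ℝ) (ho : (pg σ e ψ c).Ok)
    {Γ : Flow (net σ e X G) (n + 1)} (hΓ : Γ.IsGrad) (ω : F.Ω) :
    c • Γ.tT ((net σ e X G).gs (fl F ψ)) (fun m => (net σ e X G).pd m (fl F ψ)) ω =
      (pg σ e ψ c).Tg (F.s ω.1) (F.J ω.1) (F.y ω.1) ω.2 := by
  have ct := fun l => (h.ct l trivial).mono (subset_univ _)
  have e1 : ∀ l p, (net σ e X G).ev (Γ.a l p) = σ.e ((pg σ e ψ c).a l p) := fun l p => by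
    simp only [pg]
    split_ifs with hp
    · rw [hΓ.2.2]
      exact h.bs.ev le_rfl (h.bs.dx (σ.ok.sf _) (ct l) le_rfl trivial le_rfl le_rfl trivial)
    · rw [hΓ.1.tri l p (not_lt.1 hp)]; rfl
  have e2 : ∀ l, (net σ e X G).ev (Γ.al l) = σ.e ((pg σ e ψ c).al l) := fun l => by
    rw [hΓ.2.1]
    exact h.bs.ev (H := Nt.gs (G l)) le_rfl fun θ s η ξ a b => by
      simp only [pg, S3P.gs, Nt.gs, ct l θ _ η ξ a b]
  have e3 : ∀ H : Fn (Ix n), (net σ e X G).ev (fl F H) = σ.e (res e H) := fun H =>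
    h.bs.ev (H := lift F H) le_rfl fun θ s η ξ _ a =>
      congrArg (H _ s) (funext fun u => (a u trivial).symm)
  have e4 := ho.uniq (F.s ω.1) (F.J ω.1) (F.y ω.1) ω.2 (T := fun l => Γ.T l ω)
    (Y := fun l => Γ.Y l ω) fun l => ⟨by
      simp only [Flow.T, Flow.tT, Net.dg, e1, e2]; rfl, by
      simp only [hΓ.1.hY l ω, Flow.ot, e1]; rfl⟩
  rw [Pg.Tg, e4, Flow.tT, smul_add, Finset.smul_sum]
  simp only [Net.dg, ← smul_mul_assoc, ← diagonal_smul]
  exact congrArg₂ _ (congrArg _ (congrArg (c • ·) (congrFun (e3 (Nt.gs ψ)) ω)))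
    (Finset.sum_congr rfl fun p _ => congrArg (fun u => diagonal (c • u) * _)
      (congrFun (e3 (dx p ψ)) ω))

theorem real' [IsProbabilityMeasure ν] (T : Tl) (hF : FactStmt) (hL : LP F ν) (hN : N.Ok F.β ν) :
    ∃ (σ : Sta F ν) (e : Ix n → Ix σ.m), ∃ X G π, Rp N σ e univ X G π ∧
      RX F ν N (net σ e X G) (Ag σ e) := by
  have hS := stepStmt T appStmt (flow T hF)
  obtain ⟨σ, e, X, G, π, h⟩ := rp_univ baseStmt hS hN
  refine ⟨σ, e, X, G, π, h, fun n' N' ι hN' hE => ?_⟩
  obtain ⟨σ', e', X', G', π', h', H⟩ := rp_ext trStmt hS hN h hN' hE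
  refine ⟨_, _, h'.rz T hF hL hN', fun g hg => ?_, H⟩
  obtain ⟨φ, hφ⟩ := Ag.of_mem hg
  obtain ⟨g', h1, h2⟩ := H g φ hφ
  exact ⟨g', h1.mem, h2⟩

/-- **the link** -/
theorem famLk {β : ℝ} (h0 : 0 < β) (h1 : β < 1) : S1.SA.FamLk β fun _ Tg =>
    ∃ g : Pg, g.Ok ∧ ∀ i : In, Tg i = g.Tg (β / √i.n) (i.J β) i.y := by
  intro K0 κ0 hκ
  obtain ⟨C', c0, H⟩ := T60.ansX K0 κ0 3 hκ
  refine ⟨C', c0, fun s q0 G hL hF hG hS n N l a e al0 ψ m ρ hl he hN ht => ?_⟩
  have hP := S3P.lp_fam ⟨h0, h1⟩ hL hF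
  obtain ⟨σ, ι, X, W, π, h, hx⟩ := real' (F := Pos.fam β s G) Nt.All.tl Nt.All.factStmt hP hN
  have hz := h.rz Nt.All.tl Nt.All.factStmt hP hN
  obtain ⟨d, t1, t2, t3, t4, t5, -⟩ := T60.topIn_ex Nt.All.tl bilStmt exStmt hF
    (S3P.empF_fam ⟨h0, h1.le⟩ hL) hz hx hS hN ht
  have ho := pg_ok Nt.All.tl h ht.1.lt ht.1.od ht.1.fl.bal (2 / 3)
  have hO : Out _ _ N l a e C' ψ m ρ _ _ d := ⟨hz, hx, t1, t2, t3, t4, t5, by
    have := H _ hF (fun i => hG i.1 i.2) n _ _ d _ _ _ _ _ _ _ he t1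
    rw [t2] at this ⊢
    convert this using 1
    funext i k
    exact (T60.alf_mul (by linarith [(ht.1.hρ (T60.bv _ i k)).2.1] :
      0 < ρ (T60.bv _ i k)).ne').symm⟩
  refine ⟨_, ⟨_, ho, fun _ => rfl⟩, fun i z => ?_, ?_⟩
  · rw [Pos.In.gg_J]
    exact ho.Tg_g _ _ _ z
  · have := S1.SA.ansL_out hF hO c0 he.le
    have eb : ∀ i, T60.bv (Pos.fam β s G) i = i.1.b β := S3P.bF_fam
    simp only [eb, t2, tg_eq h _ ho t1.drift.1] at this
    exact this

end Crest.Agent.T157.S3.Lk90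

end
end

-- ▼ part T157/KProgB_69

/-!
# Row 157, part B (helper69): `K.TC` is a thermal calculus
-/

set_option autoImplicit false

noncomputable section

namespace Crest.Agent.T157.KP69

open Matrix Set
open Crest.Agent.T157.Eig (nrm nrm_le_iff)
open Crest.Agent.T157.K (TC TcStmt TmStmt L2)

lemma Bdd.l2 {U : Wd} (h : Bdd U) : L2 U := by
  obtain ⟨M, hM⟩ := h
  refine ⟨|M|, fun n J s y _ => ?_⟩
  rw [nrm_le_iff (by positivity), mul_pow, Real.sq_sqrt n.cast_nonneg]
  calc U n J s y ⬝ᵥ U n J s y ≤ ∑ _i : Fin n, |M| ^ 2 := Finset.sum_le_sum fun i _ => by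
        rw [← sq, ← sq_abs]
        exact pow_le_pow_left₀ (abs_nonneg _) ((hM _ _ _ _ i).trans (le_abs_self M)) 2
    _ = _ := by simp [mul_comm]

/-- **the thermal calculus of the kernel route** -/
theorem api (hc : TcStmt) (hm : TmStmt) {β r : ℝ} (hβ : β ∈ Ioo (0 : ℝ) 1) (hr : 0 ≤ r) :
    Api (TC β r) :=
  have b : β ∈ Icc (0 : ℝ) 1 := Ioo_subset_Icc_self hβ
  { sp := hc.spin β b r
    fy := hc.fld β b r
    map := fun m φ _ o u => Z.apB.map _ β b _ _ m φ _ o u
    ev := fun m ψ _ _ o u w => Z.apB.ev _ β b _ _ m ψ _ _ o u w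
    add := fun _ _ s t u w => Z.apB.add _ β b _ _ _ _ s t u w
    mul := fun _ u => (Z.apB.mul _ β b _ _ _ u).1
    sc := fun _ _ _ u w z => Z.apB.sc _ β b _ _ _ _ _ u w z
    tm := fun U u d => (hm β hβ r hr U u d.l2).1
    tme := fun U u d => (hm β hβ r hr U u d.l2).2 }

end Crest.Agent.T157.KP69

end
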