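import Crest.Agent.T157.Fe_84
import Crest.Agent.T157.TapDef_29
import Crest.Agent.T157.TapKr_50
import Crest.Agent.T157.TapPl_37
import Crest.Agent.T157.TapSE_6
import Crest.Agent.T157.TapCov_15
import Crest.Agent.T157.TapFrz_25
import Crest.Agent.T157.TapCell_53
import Crest.Agent.T157.LpAll_17

-- ▼ part T157/PosA_23
section

/-!
# Row 157, part B (S3, POS): the free edge, robust on `δ n` exceptional sites (helper23)

`Pos.rob`: for a fixed profile `A ≥ a0 > β`, off an event of probability `exp (-κ₁ n)`, for all sets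
`T` of at most `δ n` sites, `β W + 10 η ⪯ (1 - κ) (A off T, a0 on T) + (1 - κ) (β² avg (1/A) - 10 η)`.
-/

set_option autoImplicit false

noncomputable section

namespace Crest.Agent.T157.Pos

open MeasureTheory ProbabilityTheory Matrix Filter Set
open Crest.ProbabilityR.SpinGlassDynamics
open Crest.Agent.T157.E Crest.Agent.T157.Eig Crest.Agent.T157.Cond Crest.Agent.T157.Tap

variable {n : ℕ}

/-- the quadratic form of a diagonal matrix -/
def qd (A v : V n) : ℝ := ∑ i, A i * v i ^ 2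

/-- the profile `A` off `T`, the floor `a0` on `T` -/
def cutT (a0 : ℝ) (T : Finset (Fin n)) (A : V n) : V n := fun i => if i ∈ T then a0 else A i

/-- some exceptional set and some vector violate the edge bound -/
def Viol (β a0 κ δ m e : ℝ) (A : V n) (W : Mx n) : Prop :=
  ∃ T : Finset (Fin n), (T.card : ℝ) ≤ δ * n ∧ ∃ v : V n,
    (1 - κ) * (qd (cutT a0 T A) v + m * (v ⬝ᵥ v)) < β * (v ⬝ᵥ W *ᵥ v) + e * (v ⬝ᵥ v)

lemma dot_eq (v : V n) : v ⬝ᵥ v = ∑ i, v i ^ 2 := Finset.sum_congr rfl fun i _ => by ring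

lemma qd_mono {A B : V n} (h : ∀ i, A i ≤ B i) (v : V n) : qd A v ≤ qd B v :=
  Finset.sum_le_sum fun i _ => mul_le_mul_of_nonneg_right (h i) (sq_nonneg _)

lemma qd_add_const (A : V n) (m : ℝ) (v : V n) :
    qd (fun i => A i + m) v = qd A v + m * (v ⬝ᵥ v) := by
  simp only [qd, dot_eq, Finset.mul_sum, ← Finset.sum_add_distrib]
  exact Finset.sum_congr rfl fun i _ => by ring

lemma qd_smul (c : ℝ) (A v : V n) : qd (fun i => c * A i) v = c * qd A v := by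
  simp only [qd, Finset.mul_sum]
  exact Finset.sum_congr rfl fun i _ => by ring

lemma le_cutT {a0 : ℝ} {A : V n} (h : ∀ i, a0 ≤ A i) (T : Finset (Fin n)) (i : Fin n) :
    a0 ≤ cutT a0 T A i := by
  unfold cutT; split_ifs
  · exact le_rfl
  · exact h i

lemma sum_inv_cutT {a0 : ℝ} (ha : 0 < a0) {A : V n} (h : ∀ i, a0 ≤ A i) (T : Finset (Fin n)) :
    ∑ i, 1 / cutT a0 T A i ≤ ∑ i, 1 / A i + T.card / a0 := by
  have e : (T.card : ℝ) / a0 = ∑ i, if i ∈ T then 1 / a0 else 0 := by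
    rw [Finset.sum_ite_mem, Finset.univ_inter, Finset.sum_const, nsmul_eq_mul]; ring
  rw [e, ← Finset.sum_add_distrib]
  refine Finset.sum_le_sum fun i _ => ?_
  have : 0 < A i := ha.trans_le (h i)
  unfold cutT; split_ifs
  · have : 0 < 1 / A i := by positivity
    linarith
  · simp

lemma avg_inv_le {a0 : ℝ} (ha : 0 < a0) {A : V n} (h : ∀ i, a0 ≤ A i) (hn : 0 < n) :
    avg (fun i => 1 / A i) ≤ 1 / a0 := by
  have hn' : (0 : ℝ) < n := by positivity
  rw [avg, div_le_iff₀ hn']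
  calc ∑ i, 1 / A i ≤ ∑ _i : Fin n, 1 / a0 :=
        Finset.sum_le_sum fun i _ => one_div_le_one_div_of_le ha (h i)
    _ = _ := by simp [mul_comm]

/-- the number of small sets -/
lemma card_small {u δ : ℝ} (hu : 0 < u) (hδ : δ ≤ u ^ 2) (n : ℕ) :
    (((Finset.univ : Finset (Finset (Fin n))).filter fun T => (T.card : ℝ) ≤ δ * n).card : ℝ) ≤
      Real.exp (2 * u * n) := by
  have h1 : ∀ T : Finset (Fin n), (T.card : ℝ) ≤ δ * n → 1 ≤ u ^ T.card * Real.exp (u * n) := by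
    intro T hT
    have a1 : Real.exp (-(1 / u)) ≤ u := by
      have := Real.add_one_le_exp (1 / u)
      rw [Real.exp_neg, inv_le_comm₀ (Real.exp_pos _) hu, ← one_div]
      linarith
    have a2 : Real.exp (-(1 / u)) ^ T.card ≤ u ^ T.card :=
      pow_le_pow_left₀ (Real.exp_pos _).le a1 _
    rw [← Real.exp_nat_mul] at a2
    have a3 : (T.card : ℝ) ≤ u ^ 2 * n :=
      hT.trans (mul_le_mul_of_nonneg_right hδ (Nat.cast_nonneg n))
    have a4 : (T.card : ℝ) * (1 / u) ≤ u * n := by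
      rw [mul_one_div, div_le_iff₀ hu]; nlinarith
    calc (1 : ℝ) = Real.exp 0 := Real.exp_zero.symm
      _ ≤ Real.exp (T.card * -(1 / u) + u * n) := Real.exp_le_exp.2 (by linarith)
      _ = _ := Real.exp_add _ _
      _ ≤ _ := mul_le_mul_of_nonneg_right a2 (Real.exp_pos _).le
  have h2 : ∑ T : Finset (Fin n), u ^ T.card = (1 + u) ^ n := by
    have := Finset.prod_one_add (s := (Finset.univ : Finset (Fin n))) (f := fun _ => u)
    simp only [Finset.prod_const, Finset.card_univ, Fintype.card_fin, Finset.powerset_univ] at this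
    exact this.symm
  have h3 : (1 + u) ^ n ≤ Real.exp (u * n) := by
    rw [mul_comm, Real.exp_nat_mul]
    exact pow_le_pow_left₀ (by positivity) (by linarith [Real.add_one_le_exp u]) _
  calc _ = ∑ _T ∈ (Finset.univ : Finset (Finset (Fin n))).filter
        (fun T => (T.card : ℝ) ≤ δ * n), (1 : ℝ) := by simp
    _ ≤ ∑ T ∈ (Finset.univ : Finset (Finset (Fin n))).filter
        (fun T => (T.card : ℝ) ≤ δ * n), u ^ T.card * Real.exp (u * n) :=
        Finset.sum_le_sum fun T hT => h1 T (Finset.mem_filter.1 hT).2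
    _ ≤ ∑ T : Finset (Fin n), u ^ T.card * Real.exp (u * n) :=
        Finset.sum_le_sum_of_subset_of_nonneg (Finset.filter_subset _ _)
          fun T _ _ => by positivity
    _ = (1 + u) ^ n * Real.exp (u * n) := by rw [← Finset.sum_mul, h2]
    _ ≤ Real.exp (u * n) * Real.exp (u * n) :=
        mul_le_mul_of_nonneg_right h3 (Real.exp_pos _).le
    _ = _ := by rw [← Real.exp_add]; congr 1; ring

/-- one fixed profile -/
lemma one {β τ t : ℝ} (hβ : β ∈ Ioc (0 : ℝ) 1) (hn : 0 < n) {a : V n} (h : ∀ i, τ < a i)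
    (ht : 0 ≤ t) :
    (GOE n).real {W | ∃ v : V n, qd a v + (-τ + β ^ 2 * avg (fun i => 1 / (a i - τ)) + t) *
      (v ⬝ᵥ v) < β * (v ⬝ᵥ W *ᵥ v)} ≤ Real.exp (-(t ^ 2 / 4) * n) := by
  have : Nonempty (Fin n) := ⟨⟨0, hn⟩⟩
  have hn' : (0 : ℝ) < n := by positivity
  have h1 := Fe.fe_tail_goe (β * (1 / √n)) h ht
  rw [Fe.fe, Fe.sq_param] at h1
  have h2 : Real.exp (-t ^ 2 / (4 * (β ^ 2 / n))) ≤ Real.exp (-(t ^ 2 / 4) * n) := by
    have a0 : β ^ 2 ≤ 1 := pow_le_one₀ hβ.1.le hβ.2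
    have a1 : 0 < β ^ 2 := pow_pos hβ.1 2
    refine Real.exp_le_exp.2 ?_
    rw [show -t ^ 2 / (4 * (β ^ 2 / n)) = -(t ^ 2 / 4 * n / β ^ 2) by field_simp, neg_mul,
      neg_le_neg_iff, le_div_iff₀ a1]
    exact mul_le_of_le_one_right (by positivity) a0
  refine le_trans (ENNReal.toReal_mono (measure_ne_top _ _) ?_) (h1.trans h2)
  refine le_trans (measure_mono_ae ?_) ((Fe.mp_smul (1 / √n) β).measure_preimage_le _)
  filter_upwards [goe_ae_symm (ι := Fin n) (1 / √n)] with W hW ⟨v, hv⟩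
  have hH : (β • W - diagonal a).IsHermitian :=
    (herm_iff.2 (by rw [transpose_smul, hW])).sub (Fe.herm_diag a)
  have h3 := quad_le_top hH v
  rw [sub_mulVec, dotProduct_sub, Fe.quad_diag, smul_mulVec, dotProduct_smul, smul_eq_mul] at h3
  by_contra hc0
  have hc : lam (β • W - diagonal a) 0 < -τ + β ^ 2 / n * ∑ i, 1 / (a i - τ) + t :=
    not_le.1 hc0
  have e : β ^ 2 / n * ∑ i, 1 / (a i - τ) = β ^ 2 * avg fun i => 1 / (a i - τ) := by
    rw [avg]; ring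
  rw [e] at hc
  have := mul_le_mul_of_nonneg_right hc.le (Eig.dot_self_nonneg v)
  rw [qd] at hv
  linarith

lemma scal {β ρ κ a : ℝ} (hβ : 0 < β) (hρ : 0 < ρ) (hκ : 0 ≤ κ) (hκ1 : κ ≤ 1 / 2)
    (hκ2 : κ * (β + 4 * ρ) ≤ ρ) (ha : β + 4 * ρ ≤ a) :
    ρ < (1 - κ) * a ∧ 1 / ((1 - κ) * a - ρ) ≤ (1 + 2 * κ) * (1 / a) + ρ / (β + 2 * ρ) ^ 2 := by
  have h1 : β + 3 * ρ ≤ (1 - κ) * a := by nlinarith
  have ha0 : 0 < a := by linarith
  refine ⟨by linarith, ?_⟩
  set b := (1 - κ) * a with hb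
  have b0 : 0 < b := by linarith
  have b1 : 0 < b - ρ := by linarith
  have e : 1 / (b - ρ) = 1 / b + ρ / (b * (b - ρ)) := by field_simp; ring
  rw [e]
  refine add_le_add ?_ (div_le_div_of_nonneg_left hρ.le (by positivity) (by nlinarith))
  rw [mul_one_div, div_le_div_iff₀ b0 ha0, hb]
  have : 0 ≤ κ * (1 - 2 * κ) * a := by
    have : 0 ≤ 1 - 2 * κ := by linarith
    positivity
  nlinarith

/-- **robust free edge** -/
theorem rob {β a0 : ℝ} (hβ : β ∈ Ioc (0 : ℝ) 1) (ha : β < a0) :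
    ∃ κ η δ κ1 : ℝ, 0 < κ ∧ κ ≤ 1 / 2 ∧ 0 < η ∧ η ≤ 1 ∧ 0 < δ ∧ 0 < κ1 ∧ ∀ n : ℕ, 0 < n →
      ∀ A : V n, (∀ i, a0 ≤ A i) → (GOE n).real {W | Viol β a0 κ δ
        (β ^ 2 * avg (fun i => 1 / A i) - 10 * η) (10 * η) A W} ≤ Real.exp (-κ1 * n) := by
  have hβ0 := hβ.1
  set ρ := (a0 - β) / 4 with hρ
  have ρ0 : 0 < ρ := by rw [hρ]; linarith
  have ea : a0 = β + 4 * ρ := by rw [hρ]; ring
  have a00 : 0 < a0 := hβ0.trans ha
  set c1 := 1 - β ^ 2 / (β + 2 * ρ) ^ 2 with hc1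
  have c10 : 0 < c1 := by
    rw [hc1, sub_pos, div_lt_one (by positivity)]; nlinarith
  set E := min (ρ * c1 / 40) 1 with hE
  have E0 : 0 < E := lt_min (by positivity) one_pos
  have E1 : E ≤ ρ * c1 / 40 := min_le_left _ _
  have E2 : E ≤ 1 := min_le_right _ _
  set κ := min E (min (1 / 2) (ρ / a0)) with hκ
  have κ0 : 0 < κ := lt_min E0 (lt_min (by norm_num) (by positivity))
  have κ1 : κ ≤ E := min_le_left _ _
  have κ2 : κ ≤ 1 / 2 := (min_le_right _ _).trans (min_le_left _ _)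
  have κ3 : κ ≤ ρ / a0 := (min_le_right _ _).trans (min_le_right _ _)
  rw [le_div_iff₀ a00] at κ3
  set u := E ^ 2 / 16 with hu
  have u0 : 0 < u := by positivity
  have u1 : u ≤ 1 := by rw [hu]; nlinarith
  have u2 : u ^ 2 ≤ E := by
    have : u ≤ E := by rw [hu]; nlinarith
    nlinarith
  refine ⟨κ, E, u ^ 2, E ^ 2 / 8, κ0, κ2, E0, E2, by positivity, by positivity, ?_⟩
  intro n hn A hA
  have hn' : (0 : ℝ) < n := by positivity
  set F := (Finset.univ : Finset (Finset (Fin n))).filter fun T => (T.card : ℝ) ≤ u ^ 2 * n with hF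
  have hsc : ∀ (T : Finset (Fin n)) i, _ := fun T i =>
    scal hβ0 ρ0 κ0.le κ2 (by rw [← ea]; exact κ3) (ea.ge.trans (le_cutT hA T i))
  calc _ ≤ (GOE n).real (⋃ T ∈ F, {W | ∃ v : V n, qd (fun i => (1 - κ) * cutT a0 T A i) v +
        (-ρ + β ^ 2 * avg (fun i => 1 / ((1 - κ) * cutT a0 T A i - ρ)) + E) * (v ⬝ᵥ v) <
          β * (v ⬝ᵥ W *ᵥ v)}) := by
        refine measureReal_mono (fun W ⟨T, hT, v, hv⟩ => ?_) (measure_ne_top _ _)
        refine mem_iUnion₂.2 ⟨T, Finset.mem_filter.2 ⟨Finset.mem_univ _, hT⟩, v, ?_⟩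
        rw [qd_smul]
        set G := avg fun i => 1 / A i with hG
        have G0 : 0 ≤ G := div_nonneg (Finset.sum_nonneg fun i _ =>
          (one_div_pos.2 (a00.trans_le (hA i))).le) hn'.le
        have b1 : β ^ 2 / a0 ≤ 1 := by
          rw [div_le_one a00]; nlinarith [hβ.2]
        have G1 : β ^ 2 * G ≤ 1 := by
          have := mul_le_mul_of_nonneg_left (avg_inv_le a00 hA hn) (sq_nonneg β)
          rw [mul_one_div] at this
          exact this.trans b1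
        have s1 : avg (fun i => 1 / ((1 - κ) * cutT a0 T A i - ρ)) ≤
            (1 + 2 * κ) * (G + u ^ 2 / a0) + ρ / (β + 2 * ρ) ^ 2 := by
          rw [avg, div_le_iff₀ hn']
          refine (Finset.sum_le_sum fun i _ => (hsc T i).2).trans ?_
          rw [Finset.sum_add_distrib, ← Finset.mul_sum, Finset.sum_const, Finset.card_univ,
            Fintype.card_fin, nsmul_eq_mul]
          have t1 := sum_inv_cutT a00 hA T
          have t2 : (T.card : ℝ) / a0 ≤ u ^ 2 / a0 * n := by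
            rw [div_mul_eq_mul_div]; exact div_le_div_of_nonneg_right hT a00.le
          have t3 : ∑ i, 1 / A i = G * n := by rw [hG, avg]; field_simp
          have t4 := mul_le_mul_of_nonneg_left (t1.trans (add_le_add t3.le t2))
            (show 0 ≤ 1 + 2 * κ by positivity)
          linarith
        have s2 : β ^ 2 * (u ^ 2 / a0) ≤ E := by
          rw [show β ^ 2 * (u ^ 2 / a0) = β ^ 2 / a0 * u ^ 2 by ring]
          exact (mul_le_of_le_one_left (by positivity) b1).trans u2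
        have s3 : β ^ 2 * (ρ / (β + 2 * ρ) ^ 2) = ρ - ρ * c1 := by rw [hc1]; ring
        have s4 := mul_le_mul_of_nonneg_left s1 (sq_nonneg β)
        have s5 : β ^ 2 * ((1 + 2 * κ) * (G + u ^ 2 / a0)) ≤ β ^ 2 * G + 5 * E := by
          have r1 : κ * (β ^ 2 * G) ≤ E := (mul_le_of_le_one_right κ0.le G1).trans κ1
          have r2 : κ * (β ^ 2 * (u ^ 2 / a0)) ≤ E :=
            (mul_le_of_le_one_right κ0.le (s2.trans E2)).trans κ1
          linarith
        have s6 : -ρ + β ^ 2 * avg (fun i => 1 / ((1 - κ) * cutT a0 T A i - ρ)) + E + 10 * E ≤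
            (1 - κ) * (β ^ 2 * G - 10 * E) := by
          have r1 : κ * (β ^ 2 * G) ≤ E := (mul_le_of_le_one_right κ0.le G1).trans κ1
          have r2 : 0 ≤ κ * E := by positivity
          rw [mul_add, s3] at s4
          linarith
        have s7 := mul_le_mul_of_nonneg_right s6 (Eig.dot_self_nonneg v)
        linarith
    _ ≤ ∑ T ∈ F, Real.exp (-(E ^ 2 / 4) * n) :=
        (measureReal_biUnion_finset_le _ _).trans (Finset.sum_le_sum fun T _ =>
          one hβ hn (fun i => (hsc T i).1) E0.le)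
    _ ≤ Real.exp (2 * u * n) * Real.exp (-(E ^ 2 / 4) * n) := by
        rw [Finset.sum_const, nsmul_eq_mul]
        exact mul_le_mul_of_nonneg_right (card_small u0 le_rfl n) (Real.exp_pos _).le
    _ = _ := by rw [← Real.exp_add, hu]; congr 1; ring

end Crest.Agent.T157.Pos

end
end

-- ▼ part T157/PosB_23
section

/-!
# Row 157, part B (S3): generic Kac-Rice transfer, joint planted transfer (helper23)

* `Pos.kr`: an event of `(W, x)` that is exponentially rare in the reference model of `CellStmt` is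
  exponentially rare for the TAP solutions of the planted model;
* `Pos.joint`: transfer of events of `(W, σ, y)` to the localisation of the Gibbs measure;
* `Pos.tapT`: the two together with the gauge.
-/

set_option autoImplicit false

noncomputable section

namespace Crest.Agent.T157.Pos

open MeasureTheory ProbabilityTheory Matrix Filter Set Topology
open Crest.ProbabilityR.SpinGlassDynamics
open Crest.Agent.T157.E Crest.Agent.T157.Eig Crest.Agent.T157.Cond Crest.Agent.T157.Tap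
open Crest.Agent.T157.SL

variable {n : ℕ}

/-- the reference model of `CellStmt` -/
abbrev Ref (n : ℕ) : Measure ((V n × V n) × Mx n) := ((gv (Fin n)).prod (gv (Fin n))).prod (GOE n)

lemma isQ_strong (hSE : SEStmt) {β s q : ℝ} (hβ : β ∈ Icc (0 : ℝ) 1) (hs : 0 < s) (hq : IsQ β s q) :
    ∃ ν > (0 : ℝ), ∀ a ∈ Icc (0 : ℝ) 1, ∀ b : ℝ, ν * (|a - q| + |b - q|) ≤
      |a - gE (fun x => Real.tanh x ^ 2) (s + β ^ 2 * b) (s + β ^ 2 * a)| +
      |b - gE Real.tanh (s + β ^ 2 * b) (s + β ^ 2 * a)| := by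
  obtain ⟨q', -, ν, hν, h⟩ := hSE.2.2 β hβ s hs
  have h1 := h q hq.1 q
  have h0 : 0 ≤ s + β ^ 2 * q := by have := hq.1.1; positivity
  rw [(hSE.1 _ h0).1, ← hq.2, sub_self, abs_zero, add_zero] at h1
  have h2 : |q - q'| ≤ 0 := by
    by_contra hc
    have := mul_pos hν (show 0 < |q - q'| + |q - q'| by linarith [not_le.1 hc])
    linarith
  rw [sub_eq_zero.1 (abs_nonpos_iff.1 h2)]
  exact ⟨ν, hν, h⟩

open Kr50 in
/-- **generic Kac-Rice transfer** -/
theorem kr (hC : CellStmt) (hR : RamStmt) (hSE : SEStmt) (hH : HoefStmt) {β s q ε1 κ1 : ℝ}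
    (hβ : β ∈ Ioc (0 : ℝ) 1) (hs0 : 0 < s) (hq : IsQ β s q) (hε1 : 0 < ε1) (hκ1 : 0 < κ1)
    {B : ∀ n, Set (Mx n × V n)} (hBm : ∀ n, MeasurableSet (B n))
    (hSF : ∀ᶠ n : ℕ in atTop, Ref n {z | |aS (xv β s q q z.1.1 z.1.2) - q| ≤ ε1 ∧
      (glueW β (xv β s q q z.1.1 z.1.2) z.1.2 z.2, xv β s q q z.1.1 z.1.2) ∈ B n} ≤
        ENNReal.ofReal (Real.exp (-κ1 * n))) :
    ∃ c' > (0 : ℝ), ∃ ε > (0 : ℝ), ∃ κ > (0 : ℝ), ∀ᶠ n : ℕ in atTop,
      ((GOE n).prod (gv (Fin n))) {z | opn (plW β z.1 1) ≤ 3 ∧ DET (plW β z.1 1) β c' ε ∧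
        ∃ x, Ymap (β • plW β z.1 1) (β ^ 2) x = s • (1 : V n) + Real.sqrt s • z.2 ∧
          (z.1, x) ∈ B n} ≤ ENNReal.ofReal (Real.exp (-κ * n)) := by
  have hβ' : β ∈ Icc (0 : ℝ) 1 := ⟨hβ.1.le, hβ.2⟩
  obtain ⟨ν, hν, hqν⟩ := isQ_strong hSE hβ' hs0 hq
  obtain ⟨am1, ham1, κ2, hκ2, hH2⟩ := hH.2 s hs0
  obtain ⟨a, ha, haq⟩ := hSE.2.1 s hs0
  have hqa : a ≤ q := by
    have := haq (s + β ^ 2 * q) (s + β ^ 2 * q) (by
      have := mul_nonneg (sq_nonneg β) hq.1.1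
      linarith)
    rwa [← hq.2] at this
  set am : ℝ := min am1 a with ham
  have ham0 : 0 < am := by positivity
  obtain ⟨C, hC0⟩ := hC β hβ' s hs0 am ham0
  set ε0 : ℝ := min (min ε1 (am / 2)) (κ1 / 2 / (|C| + 1)) with hε0
  have hε0p : 0 < ε0 := by positivity
  have hε01 : ε0 ≤ ε1 := (min_le_left _ _).trans (min_le_left _ _)
  have hε02 : ε0 ≤ am / 2 := (min_le_left _ _).trans (min_le_right _ _)
  have hε03 : ε0 ≤ κ1 / 2 / (|C| + 1) := min_le_right _ _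
  rw [le_div_iff₀ (by positivity)] at hε03
  obtain ⟨ε, hε, hεε0, κ3, hκ3, hfar⟩ := far hC hR hH hβ' hs0 ham0 hν hε0p hqν
  obtain ⟨F, hFK, hFfin, hFcov⟩ := Metric.finite_approx_of_totallyBounded
    ((isCompact_Icc (a := am) (b := 1)).prod ((isCompact_Icc (a := (-1 : ℝ)) (b := 1)).prod
      (isCompact_Icc (a := (-6 : ℝ)) (b := 6)))).totallyBounded ε hε
  classical
  set F' : Finset (ℝ × ℝ × ℝ) := hFfin.toFinset.filter
    fun p => ε0 / 2 ≤ |p.2.2| ∨ ε0 / 2 ≤ |p.1 - q| + |p.2.1 - q| with hF'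
  set κ : ℝ := min (min (κ1 / 2) κ2) κ3 with hκ
  have hκp : 0 < κ := by positivity
  have hk1 : κ ≤ κ1 / 2 := (min_le_left _ _).trans (min_le_left _ _)
  have hk2 : κ ≤ κ2 := (min_le_left _ _).trans (min_le_right _ _)
  have hk3 : κ ≤ κ3 := min_le_right _ _
  refine ⟨am, ham0, ε, hε, κ / 2, by positivity, ?_⟩
  filter_upwards [hSF, ev_exp (3 + 4 * F'.card) hκp, eventually_gt_atTop 0] with n hSF hev hn
  have hn' : (0 : ℝ) < n := by positivity
  set H : Set (V n) := {g | 2 * Real.sqrt n < nrm g ∨ ∃ (J : Mx n) (b : ℝ) (x : V n), opn J ≤ 3 ∧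
      b ∈ Icc (0 : ℝ) 1 ∧ Ymap J b x = s • (1 : V n) + Real.sqrt s • g ∧ aS x < am1} with hHd
  have hmono : ∀ {k : ℝ}, κ ≤ k → Real.exp (-k * n) ≤ Real.exp (-κ * n) := fun hk =>
    Real.exp_le_exp.2 (by nlinarith)
  have b1 : ((GOE n).prod (gv (Fin n))) {z | z.2 ∈ H} ≤ ENNReal.ofReal (2 * Real.exp (-κ * n)) :=
    (prod_snd_le _ _ (fun z hz => hz)).trans ((hH2 n hn).trans
      (ENNReal.ofReal_le_ofReal (by linarith [hmono hk2])))
  have b2 : ((GOE n).prod (gv (Fin n))) (cellE n β s ε0 am q q 0 (B n)) ≤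
      ENNReal.ofReal (Real.exp (-κ * n)) := by
    refine (hC0 n ε0 am q q 0 (B n) hn hε0p hε02 ⟨(min_le_right _ _).trans hqa, hq.1.2⟩ (by simp)
      (hBm n)).trans (ofReal_mul_le (Real.exp_pos _).le
        ((measure_mono fun z hz => ?_).trans hSF) ?_)
    · obtain ⟨h1, -, -, h3⟩ := hz
      exact ⟨h1.trans hε01, h3⟩
    · rw [← Real.exp_add]
      refine Real.exp_le_exp.2 ?_
      have : C * ε0 ≤ |C| * ε0 := mul_le_mul_of_nonneg_right (le_abs_self _) hε0p.le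
      nlinarith
  have b3 : ((GOE n).prod (gv (Fin n))) (⋃ p ∈ F', cellE n β s ε am p.1 p.2.1 p.2.2 univ) ≤
      ENNReal.ofReal (F'.card * (4 * Real.exp (-κ * n))) := by
    refine (measure_biUnion_finset_le _ _).trans ?_
    rw [ENNReal.ofReal_mul (Nat.cast_nonneg _), ENNReal.ofReal_natCast, ← nsmul_eq_mul]
    refine Finset.sum_le_card_nsmul _ _ _ fun p hp => ?_
    rw [hF', Finset.mem_filter, Finite.mem_toFinset] at hp
    have h1 := hFK hp.1
    refine (hfar n am p.1 p.2.1 p.2.2 hn h1.1 ?_ hp.2).trans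
      (ENNReal.ofReal_le_ofReal (by linarith [hmono hk3]))
    exact abs_le.2 ⟨by linarith [h1.2.2.1], by linarith [h1.2.2.2]⟩
  calc _ ≤ ((GOE n).prod (gv (Fin n))) (({z | z.2 ∈ H} ∪ cellE n β s ε0 am q q 0 (B n)) ∪
        ⋃ p ∈ F', cellE n β s ε am p.1 p.2.1 p.2.2 univ) := by
        refine measure_mono fun z hz => ?_
        obtain ⟨h1, h2, x, h3, h4⟩ := hz
        by_cases hzH : z.2 ∈ H
        · exact Or.inl (Or.inl hzH)
        simp only [hHd, mem_ofPred_eq, not_or, not_lt, not_exists, not_and] at hzH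
        obtain ⟨h5, h6⟩ := hzH
        have h7 : am ≤ aS x := (min_le_left _ _).trans (h6 _ _ x (by
          rw [opn_smul, abs_of_nonneg hβ'.1]
          nlinarith [opn_nonneg (plW β z.1 1), hβ.2, hβ.1])
          ⟨sq_nonneg β, pow_le_one₀ hβ'.1 hβ.2⟩ h3)
        have h8 : avg (DD (th x)) ≤ 1 - am := by rw [avg_DD hn]; linarith
        have h9 := abs_SW_le hn hβ' h1 (ham0.trans_le h7)
        by_cases hcen : |aS x - q| ≤ ε0 ∧ |bS x - q| ≤ ε0 ∧ |SW β z.1 x - 0| ≤ ε0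
        · exact Or.inl (Or.inr ⟨h1, DET_mono h2 (by linarith), h5, x, h3, h8, hcen.1, hcen.2.1,
            hcen.2.2, h4⟩)
        have h10 : (aS x, bS x, SW β z.1 x) ∈ Icc am 1 ×ˢ Icc (-1 : ℝ) 1 ×ˢ Icc (-6 : ℝ) 6 :=
          ⟨⟨h7, aS_le_one x⟩, abs_le.1 (abs_bS_le x), abs_le.1 h9⟩
        obtain ⟨p, hpF, hp⟩ := mem_iUnion₂.1 (hFcov h10)
        rw [Metric.mem_ball, Prod.dist_eq, Prod.dist_eq, max_lt_iff, max_lt_iff, Real.dist_eq,
          Real.dist_eq, Real.dist_eq] at hp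
        obtain ⟨p1, p2, p3⟩ := hp
        dsimp only at p1 p2 p3
        refine Or.inr (mem_iUnion₂.2 ⟨p, ?_, h1, h2, h5, x, h3, h8, p1.le, p2.le, p3.le, mem_univ _⟩)
        rw [hF', Finset.mem_filter, Finite.mem_toFinset]
        refine ⟨hpF, ?_⟩
        by_contra hcon
        push Not at hcon
        obtain ⟨q1, q2⟩ := hcon
        have r1 := abs_sub_le (aS x) p.1 q
        have r2 := abs_sub_le (bS x) p.2.1 q
        have r3 := abs_sub_le (SW β z.1 x) p.2.2 0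
        rw [sub_zero p.2.2] at r3
        have r4 := abs_nonneg (p.1 - q)
        have r5 := abs_nonneg (p.2.1 - q)
        exact hcen ⟨by linarith, by linarith, by linarith⟩
    _ ≤ ENNReal.ofReal (2 * Real.exp (-κ * n)) + ENNReal.ofReal (Real.exp (-κ * n)) +
        ENNReal.ofReal (F'.card * (4 * Real.exp (-κ * n))) :=
        (measure_union_le _ _).trans (add_le_add ((measure_union_le _ _).trans (add_le_add b1 b2)) b3)
    _ ≤ _ := by
        rw [← ENNReal.ofReal_add (by positivity) (by positivity),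
          ← ENNReal.ofReal_add (by positivity) (by positivity)]
        exact ENNReal.ofReal_le_ofReal (by linarith)

/-! ### the joint transfer -/

lemma transfer_joint (β s : ℝ) {A : Cube n → Set (Mx n × V n)} (hA : ∀ σ, MeasurableSet (A σ))
    {δ ε η : ℝ} (hε : 0 < ε) (hη : 0 < η) (h : ∀ σ : Cube n, ((GOE n).prod (gv (Fin n))).real
      {z | (plW β z.1 (sv σ), s • sv σ + Real.sqrt s • z.2) ∈ A σ} ≤ δ) :
    (GOE n).real {W | ε ≤ mean (ising (β • W) 0) fun σ => px sv s {y | (W, y) ∈ A σ} σ} ≤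
      (GOE n).real {W | Pl.LRW n β W < η} + δ / (ε * η) := by
  refine (Pl.transferW_mean β (fun σ => TapPl.measurable_px s (hA σ) σ) (fun _ _ => px_nonneg _)
    (fun σ => (integrable_const 1).mono' ((TapPl.measurable_px s (hA σ) σ).comp
      (by fun_prop)).aestronglyMeasurable (.of_forall fun W => by
        rw [Real.norm_of_nonneg (px_nonneg _)]; exact px_le_one _)) hε hη).trans
    (add_le_add le_rfl (div_le_div_of_nonneg_right ?_ (mul_pos hε hη).le))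
  rw [div_le_iff₀ (by positivity), ← Pl.card_cube, mul_comm, ← nsmul_eq_mul, ← Finset.card_univ,
    ← Finset.sum_const]
  refine Finset.sum_le_sum fun σ _ => le_of_eq_of_le ?_ (h σ)
  have hS : MeasurableSet {z : Mx n × V n |
      (plW β z.1 (sv σ), s • sv σ + Real.sqrt s • z.2) ∈ A σ} :=
    (hA σ).preimage (by unfold plW; fun_prop)
  simp only [TapPl.px_eq s (hA σ)]
  rw [Measure.real, Measure.prod_apply hS, ← integral_toReal
    (measurable_measure_prodMk_left hS).aemeasurable (.of_forall fun _ => measure_lt_top _ _)]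
  rfl

/-- posterior mass of a joint event -/
lemma law_post (J : Mx n) {s : ℝ} (hs : 0 ≤ s) {A : Cube n → Set (V n)}
    (hA : ∀ σ, MeasurableSet (A σ)) :
    (law sv (ising J 0) s).real {y | 1 / 2 ≤ mean (ising J y) fun σ => (A σ).indicator 1 y} ≤
      2 * mean (ising J 0) fun σ => px sv s (A σ) σ := by
  have hF : ∀ σ, MG ((A σ).indicator (1 : V n → ℝ)) := fun σ => (MG.const 1).indicator (hA σ)
  have h1 := mg_mean (φ := sv) (Cov15.wt_ising J 0) s hF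
  have h2 := bayes (φ := sv) (Cov15.wt_ising J 0) hs (SInt.of_mg hF)
  simp only [mean_post_sv, Cov15.tilt0] at h1 h2
  have h3 := Cov15.law_markov (J := J) (s := s) (h1.const_mul 2) fun y =>
    mul_nonneg zero_le_two ((Cov15.wt_ising J y).mean_nonneg fun σ =>
      indicator_nonneg (fun _ _ => zero_le_one) y)
  rw [slE_const_mul, ← h2, slE_eq_mean] at h3
  have e : ∀ σ : Cube n, ∫ z, (A σ).indicator (1 : V n → ℝ) (s • sv σ + √s • z) ∂Gs (Fin n) =
      px sv s (A σ) σ := fun σ => by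
    rw [px, ← integral_indicator_one (hA σ), integral_map (by fun_prop)
      (measurable_one.indicator (hA σ)).aestronglyMeasurable]
  simp only [e] at h3
  refine le_trans (le_of_eq ?_) h3
  congr 1; ext y; simp only [mem_ofPred_eq]; constructor <;> intro h <;> linarith

/-- **joint transfer** -/
theorem joint {β s κ : ℝ} (hβ : β ∈ Icc (0 : ℝ) 1) (hs : 0 ≤ s) (hκ : 0 < κ)
    {A : ∀ n, Cube n → Set (Mx n × V n)} (hA : ∀ n σ, MeasurableSet (A n σ))
    (h : ∀ᶠ n : ℕ in atTop, ∀ σ : Cube n, ((GOE n).prod (gv (Fin n)))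
      {z | (plW β z.1 (sv σ), s • sv σ + Real.sqrt s • z.2) ∈ A n σ} ≤
        ENNReal.ofReal (Real.exp (-κ * n))) :
    Top.Whp GOE fun n W => (law sv (ising (β • W) 0) s).real {y | 1 / 2 ≤ mean (ising (β • W) y)
      fun σ => {y | (W, y) ∈ A n σ}.indicator 1 y} ≤ 2 * Real.exp (-(κ / 2) * n) := by
  have h1 := Pl.tendsto_LRW_lt_rpow hβ.1 hβ.2 (a := κ / 4) (c := 1) (by positivity) one_pos
  refine Top.whp_of_real_le ((h1.add (TapPl.tendsto_exp_neg (κ := κ / 4) (by positivity))).trans_eq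
    (by simp)) ?_
  filter_upwards [h] with n hn
  refine le_trans (measureReal_mono fun W hW => ?_) ((transfer_joint β s (hA n)
    (Real.exp_pos (-(κ / 2) * n)) (Real.exp_pos (-(κ / 4 * (n : ℝ) ^ (1 : ℝ))))
    (δ := Real.exp (-κ * n))
      fun σ => ENNReal.toReal_le_of_le_ofReal (Real.exp_pos _).le (hn σ)).trans_eq ?_)
  · have h2 := (not_le.1 hW).trans_le (law_post (β • W) hs
      (A := fun σ => {y | (W, y) ∈ A n σ}) fun σ => measurable_prodMk_left (hA n σ))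
    rw [mem_ofPred_eq]; linarith
  · rw [← Real.exp_add, ← Real.exp_sub, Real.rpow_one]
    congr 2
    ring

/-! ### open events of the unplanted matrix and the TAP solution -/

/-- the matrix with the planted direction removed -/
def unp (β : ℝ) (W : Mx n) (σ : V n) : Mx n := W - (β / n) • vecMulVec σ σ

lemma unp_plW (β : ℝ) (W : Mx n) (σ : V n) : unp β (plW β W σ) σ = W := by simp [unp, plW]

lemma exists_pos_fun {B : Set (Mx n × V n)} (hB : IsOpen B) :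
    ∃ f : Mx n × V n → ℝ, Continuous f ∧ ∀ z, z ∈ B ↔ 0 < f z := by
  haveI : TopologicalSpace.PseudoMetrizableSpace (Mx n) :=
    inferInstanceAs (TopologicalSpace.PseudoMetrizableSpace (Fin n → Fin n → ℝ))
  letI := TopologicalSpace.pseudoMetrizableSpacePseudoMetric (Mx n × V n)
  rcases Bᶜ.eq_empty_or_nonempty with hE | hE
  · exact ⟨fun _ => 1, continuous_const, fun z => by simp [compl_empty_iff.1 hE]⟩
  · exact ⟨fun z => Metric.infDist z Bᶜ, Metric.continuous_infDist_pt _, fun z => by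
      rw [← hB.isClosed_compl.notMem_iff_infDist_pos hE, mem_compl_iff, not_not]⟩

open TapPl in
/-- **TAP transfer**: `{0 < φ k}` is a gauge invariant open event of `(W₀, x)` -/
theorem tapT (hC : CellStmt) (hR : RamStmt) (hSE : SEStmt) (hH : HoefStmt) (hD : DETStmt)
    {β s q ε1 κ1 : ℝ} (hβ : β ∈ Ioc (0 : ℝ) 1) (hs0 : 0 < s) (hq : IsQ β s q) (hε1 : 0 < ε1)
    (hκ1 : 0 < κ1) {B : ∀ n, Set (Mx n × V n)} (hB : ∀ n, IsOpen (B n))
    (hg : ∀ n (σ : Cube n) (W : Mx n) (x : V n), (cj (sv σ) W, x) ∈ B n → (W, sv σ * x) ∈ B n)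
    (hSF : ∀ᶠ n : ℕ in atTop, Ref n {z | |aS (xv β s q q z.1.1 z.1.2) - q| ≤ ε1 ∧
      (glueW β (xv β s q q z.1.1 z.1.2) z.1.2 z.2, xv β s q q z.1.1 z.1.2) ∈ B n} ≤
        ENNReal.ofReal (Real.exp (-κ1 * n))) :
    ∃ κ > (0 : ℝ), Top.Whp GOE fun n W => (law sv (ising (β • W) 0) s).real
      {y | 1 / 2 ≤ mean (ising (β • W) y) fun σ => {y | ∃ x, Ymap (β • W) (β ^ 2) x = y ∧
        (unp β W (sv σ), x) ∈ B n}.indicator 1 y} ≤ 2 * Real.exp (-κ * n) := by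
  have hβ' : β ∈ Icc (0 : ℝ) 1 := ⟨hβ.1.le, hβ.2⟩
  obtain ⟨c', hc', ε, hε, κ, hκ, h⟩ := kr hC hR hSE hH hβ hs0 hq hε1 hκ1
    (fun n => (hB n).measurableSet) hSF
  have hA : ∀ (n : ℕ) (σ : Cube n), MeasurableSet {z : Mx n × V n | opn z.1 ≤ 3 ∧
      DET z.1 β c' ε ∧ ∃ x, Ymap (β • z.1) (β ^ 2) x = z.2 ∧ (unp β z.1 (sv σ), x) ∈ B n} := by
    intro n σ
    refine (measurableSet_le (Nrm.measurable_opn'.comp measurable_fst) measurable_const).inter
      (((TapFrz.measStmt n β 0 0 c' ε).2.2.preimage measurable_fst).inter ?_)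
    obtain ⟨f, hf, hfB⟩ := exists_pos_fun (hB n)
    have := TapFrz.measurableSet_exists_pos (Θ := Mx n × V n) (X := V n)
      (C := {w | Ymap (β • w.1.1) (β ^ 2) w.2 = w.1.2}) (isClosed_eq (TapFrz.cont_Ymap
        (by fun_prop) continuous_const continuous_snd) (by fun_prop))
        (f := fun w => f (unp β w.1.1 (sv σ), w.2)) (hf.comp (by unfold unp; fun_prop))
    simp only [hfB]
    exact this
  refine ⟨κ / 2, half_pos hκ, ((joint hβ' hs0.le hκ hA ?_).and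
    (whp_opn.and (hD β hβ' c' hc' ε hε))).imp fun n W hW => ?_⟩
  · filter_upwards [h] with n hn σ
    refine (planted_gauge β s (hA n σ) σ).trans_le (le_trans (measure_mono fun z hz => ?_) hn)
    have hσ := Pl.isSign_sv σ
    obtain ⟨h1, h2, x, h3, h4⟩ := hz
    refine ⟨by rwa [opn_cj hσ] at h1, ?_, sv σ * x, ?_, hg n σ _ _ ?_⟩
    · simpa only [cj_cj hσ] using DET_cj hσ h2
    · have := Ymap_cj hσ (β • cj (sv σ) (plW β z.1 1)) (β ^ 2) x
      dsimp only at h3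
      rw [h3, cj_smul, cj_cj hσ, hσ.mul_self] at this
      exact this
    · dsimp only at h4
      rwa [← plW_cj, mul_one, unp_plW] at h4
  · simpa only [mem_ofPred_eq, hW.2.1, hW.2.2, true_and] using hW.1

end Crest.Agent.T157.Pos

end
end

-- ▼ part T157/PosC_23
section

/-!
# Row 157, part B (S3): envelopes, the reference model bounds (helper23)
-/

set_option autoImplicit false

noncomputable section

namespace Crest.Agent.T157.Pos

open MeasureTheory ProbabilityTheory Matrix Filter Set Topology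
open Crest.ProbabilityR.SpinGlassDynamics
open Crest.Agent.T157.E Crest.Agent.T157.Eig Crest.Agent.T157.Cond Crest.Agent.T157.Tap
open Crest.Agent.T157.SL

variable {n : ℕ}

/-! ### the lower envelope, Lipschitz in `tanh` -/

def lo (a : ℝ → ℝ) (L t : ℝ) : ℝ := ⨅ x, (a x + L * |Real.tanh x - t|)

section env
variable {a : ℝ → ℝ} {a0 L : ℝ}

lemma lo_le (h0 : ∀ x, a0 ≤ a x) (hL : 0 ≤ L) (t x : ℝ) :
    lo a L t ≤ a x + L * |Real.tanh x - t| :=
  ciInf_le ⟨a0, by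
    rintro _ ⟨x, rfl⟩
    exact (h0 x).trans (le_add_of_nonneg_right (by positivity))⟩ x

lemma le_lo (h0 : ∀ x, a0 ≤ a x) (hL : 0 ≤ L) (t : ℝ) : a0 ≤ lo a L t :=
  le_ciInf fun x => (h0 x).trans (le_add_of_nonneg_right (by positivity))

lemma lo_tanh_le (h0 : ∀ x, a0 ≤ a x) (hL : 0 ≤ L) (x : ℝ) : lo a L (Real.tanh x) ≤ a x := by
  simpa using lo_le h0 hL (Real.tanh x) x

lemma lo_lip (h0 : ∀ x, a0 ≤ a x) (hL : 0 ≤ L) (t t' : ℝ) : lo a L t ≤ lo a L t' + L * |t' - t| := by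
  rw [← sub_le_iff_le_add]
  refine le_ciInf fun x => ?_
  have h1 := lo_le h0 hL t x
  have h2 := mul_le_mul_of_nonneg_left (abs_sub_le (Real.tanh x) t' t) hL
  linarith

lemma cont_lo (h0 : ∀ x, a0 ≤ a x) (hL : 0 ≤ L) : Continuous (lo a L) :=
  (LipschitzWith.of_le_add_mul' L fun t t' => by
    rw [Real.dist_eq, abs_sub_comm]; exact lo_lip h0 hL t t').continuous

lemma lo_neg (h0 : ∀ x, a0 ≤ a x) (hL : 0 ≤ L) (he : ∀ x, a (-x) = a x) (t : ℝ) :
    lo a L (-t) = lo a L t := by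
  have key : ∀ t, lo a L (-t) ≤ lo a L t := fun t => le_ciInf fun x => by
    have := lo_le h0 hL (-t) (-x)
    rwa [he, Real.tanh_neg, neg_sub_neg, abs_sub_comm] at this
  exact (key t).antisymm (by simpa using key (-t))

lemma lo_tendsto (h0 : ∀ x, a0 ≤ a x) (ha : Continuous a) (x : ℝ) :
    Tendsto (fun L : ℕ => lo a L (Real.tanh x)) atTop (𝓝 (a x)) := by
  refine tendsto_order.2 ⟨fun b hb => ?_, fun b hb => .of_forall fun L =>
    (lo_tanh_le h0 (Nat.cast_nonneg L) x).trans_lt hb⟩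
  obtain ⟨b', hb1, hb2⟩ := exists_between hb
  obtain ⟨δ, hδ, h⟩ := Metric.eventually_nhds_iff.1 (ha.continuousAt.eventually (lt_mem_nhds hb2))
  have hm : StrictMono Real.tanh := strictMono_of_deriv_pos fun y => by
    rw [(SE.hasDerivAt_tanh y).deriv]; linarith [Real.tanh_sq_lt_one y]
  set ρ := min (Real.tanh (x + δ) - Real.tanh x) (Real.tanh x - Real.tanh (x - δ)) with hρ
  have ρ0 : 0 < ρ := lt_min (sub_pos.2 (hm (by linarith))) (sub_pos.2 (hm (by linarith)))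
  filter_upwards [tendsto_natCast_atTop_atTop.eventually_ge_atTop ((b' - a0) / ρ)] with L hL
  refine hb1.trans_le (le_ciInf fun y => ?_)
  by_cases hy : dist y x < δ
  · exact (h hy).le.trans (le_add_of_nonneg_right (by positivity))
  have h1 : ρ ≤ |Real.tanh y - Real.tanh x| := by
    rw [Real.dist_eq, not_lt, le_abs] at hy
    rcases hy with hy | hy
    · exact (min_le_left _ _).trans ((sub_le_sub_right (hm.monotone (by linarith)) _).trans
        (le_abs_self _))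
    · refine (min_le_right _ _).trans ?_
      rw [abs_sub_comm]
      exact (sub_le_sub_left (hm.monotone (by linarith)) _).trans (le_abs_self _)
  rw [div_le_iff₀ ρ0] at hL
  have := mul_le_mul_of_nonneg_left h1 (Nat.cast_nonneg (α := ℝ) L)
  linarith [h0 y]

lemma gE_lo (h0 : ∀ x, a0 ≤ a x) (ha : Continuous a) {Φ : ℝ → ℝ} (hm : Measurable Φ)
    (hΦ : ∀ x, ContinuousAt Φ (a x)) {K : ℝ} (hK : ∀ u x, a0 ≤ u → u ≤ a x → |Φ u| ≤ K)
    (m v : ℝ) {e : ℝ} (he : 0 < e) : ∃ L : ℝ, 0 < L ∧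
      |gE (fun x => Φ (lo a L (Real.tanh x))) m v - gE (fun x => Φ (a x)) m v| ≤ e := by
  have h : Tendsto (fun L : ℕ => gE (fun x => Φ (lo a L (Real.tanh x))) m v) atTop
      (𝓝 (gE (fun x => Φ (a x)) m v)) :=
    tendsto_integral_of_dominated_convergence (fun _ => K)
      (fun L => (hm.comp ((cont_lo h0 (Nat.cast_nonneg L)).measurable.comp
        (TapFrz.continuous_tanh.measurable.comp (by fun_prop)))).aestronglyMeasurable)
      (integrable_const K) (fun L => .of_forall fun z => hK _ _ (le_lo h0 (Nat.cast_nonneg L) _)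
        (lo_tanh_le h0 (Nat.cast_nonneg L) _))
      (.of_forall fun z => (hΦ _).tendsto.comp (lo_tendsto h0 ha _))
  obtain ⟨L, h1, h2⟩ := ((Metric.tendsto_nhds.1 h e he).and (eventually_gt_atTop 0)).exists
  exact ⟨L, by positivity, h1.le⟩

end env

/-! ### the reference model -/

lemma nrm_unitv (u : V n) : nrm (unitv u) ≤ 1 := by
  rw [nrm]; exact Real.sqrt_le_one.2 (unitv_dot_le u)

lemma glue_quad (hn : 0 < n) {β : ℝ} (hβ : β ∈ Icc (0 : ℝ) 1) {x Z : V n} (ha : 0 < aS x)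
    (hZ : nrm Z ≤ 2 * √n) {W : Mx n} (hW : opn W ≤ 3) (v : V n) :
    v ⬝ᵥ glueW β x Z W *ᵥ v ≤ v ⬝ᵥ W *ᵥ v + 12 * (|unitv (th x) ⬝ᵥ v| * nrm v) +
      6 * (unitv (th x) ⬝ᵥ v) ^ 2 := by
  have hs : (0 : ℝ) < √n := by positivity
  rw [glueW, ← Cell.shift_eq hn ha β]
  set e := unitv (th x) with he
  have e1 : nrm e ≤ 1 := nrm_unitv _
  have e0 := nrm_nonneg e
  set ω := (1 / √(n : ℝ)) • (Z + (β * (1 - aS x) * √n) • e) with hω
  have a1 := Cell.aS_le_one x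
  have ω1 : nrm ω ≤ 3 := by
    rw [hω, nrm_smul, abs_of_pos (by positivity), one_div, inv_mul_le_iff₀ hs]
    refine (nrm_add_le _ _).trans ?_
    have b0 : 0 ≤ β * (1 - aS x) := mul_nonneg hβ.1 (by linarith)
    have b1 : β * (1 - aS x) ≤ 1 := mul_le_one₀ hβ.2 (by linarith) (by linarith)
    rw [nrm_smul, abs_of_nonneg (by positivity)]
    have : β * (1 - aS x) * √n * nrm e ≤ 1 * √n * 1 := by gcongr
    linarith
  have hP : nextR 1 (th x) *ᵥ v = v - (e ⬝ᵥ v) • e := by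
    rw [nextR, sub_mulVec, one_mulVec, vmv_mulVec, dirv, one_mulVec]
  have q1 : v ⬝ᵥ (nextR 1 (th x) * W * nextR 1 (th x)) *ᵥ v =
      (v - (e ⬝ᵥ v) • e) ⬝ᵥ W *ᵥ (v - (e ⬝ᵥ v) • e) := by
    rw [← mulVec_mulVec, ← mulVec_mulVec, dotProduct_mulVec, ← mulVec_transpose,
      nextR_symm IsProj.one, hP]
  have q2 : v ⬝ᵥ rk2 ω e *ᵥ v = 2 * (e ⬝ᵥ v) * (ω ⬝ᵥ v) - (e ⬝ᵥ ω) * (e ⬝ᵥ v) ^ 2 := by
    simp only [rk2, sub_mulVec, add_mulVec, smul_mulVec, vmv_mulVec, dotProduct_sub,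
      dotProduct_add, dotProduct_smul, smul_eq_mul]
    rw [dotProduct_comm v ω, dotProduct_comm v e]
    ring
  rw [add_mulVec, dotProduct_add, q1, q2]
  simp only [mulVec_sub, mulVec_smul, sub_dotProduct, dotProduct_sub, smul_dotProduct,
    dotProduct_smul, smul_eq_mul]
  set c := e ⬝ᵥ v
  have v0 := nrm_nonneg v
  have o0 := opn_nonneg W
  have w0 := nrm_nonneg ω
  have r1 : |ω ⬝ᵥ v| ≤ 3 * nrm v := (abs_dot_le _ _).trans (by gcongr)
  have r2 : |e ⬝ᵥ ω| ≤ 3 := (abs_dot_le _ _).trans (by nlinarith)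
  have r3 : |v ⬝ᵥ W *ᵥ e| ≤ 3 * nrm v :=
    (abs_bil_le _ _ _).trans (mul_le_mul hW (mul_le_of_le_one_right v0 e1) (by positivity)
      (by norm_num))
  have r4 : |e ⬝ᵥ W *ᵥ v| ≤ 3 * nrm v :=
    (abs_bil_le _ _ _).trans (mul_le_mul hW (mul_le_of_le_one_left v0 e1) (by positivity)
      (by norm_num))
  have r5 : |e ⬝ᵥ W *ᵥ e| ≤ 3 :=
    (abs_bil_le _ _ _).trans (by nlinarith [mul_le_one₀ e1 e0 e1, mul_nonneg e0 e0])
  have k : ∀ {u b : ℝ}, |u| ≤ b → |c * u| ≤ |c| * b := fun h => by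
    rw [abs_mul]; exact mul_le_mul_of_nonneg_left h (abs_nonneg _)
  have k2 : ∀ {u : ℝ}, |u| ≤ 3 → |u * c ^ 2| ≤ 3 * c ^ 2 := fun h => by
    rw [abs_mul, abs_of_nonneg (sq_nonneg c)]; exact mul_le_mul_of_nonneg_right h (sq_nonneg _)
  have t1 := abs_le.1 (k r1)
  have t2 := abs_le.1 (k2 r2)
  have t3 := abs_le.1 (k r3)
  have t4 := abs_le.1 (k r4)
  have t5 := abs_le.1 (k2 r5)
  nlinarith [t1.2, t2.1, t3.1, t4.1, t5.2]

/-- the violation of (POS) for the unplanted matrix and the profile `f (x i)` -/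
def VB (β a0 κ δ m e C : ℝ) (f : ℝ → ℝ) (n : ℕ) : Set (Mx n × V n) :=
  {z | ∃ T : Finset (Fin n), (T.card : ℝ) ≤ δ * n ∧ ∃ v : V n,
    (1 - κ) * (qd (cutT a0 T fun i => f (z.2 i)) v + m * (v ⬝ᵥ v)) + C / n * (th z.2 ⬝ᵥ v) ^ 2 <
      β * (v ⬝ᵥ z.1 *ᵥ v) + e * (v ⬝ᵥ v)}

lemma isOpen_VB (β a0 κ δ m e C : ℝ) {f : ℝ → ℝ} (hf : Continuous f) (n : ℕ) :
    IsOpen (VB β a0 κ δ m e C f n) := by
  simp only [VB, ofPred_exists, ofPred_and]
  refine isOpen_iUnion fun T => IsOpen.inter isOpen_const (isOpen_iUnion fun v => isOpen_lt ?_ ?_)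
  · refine (continuous_const.mul (Continuous.add ?_ continuous_const)).add
      (continuous_const.mul (((TapFrz.cont_th continuous_snd).dotProduct continuous_const).pow 2))
    refine continuous_finsetSum _ fun i _ => Continuous.mul ?_ continuous_const
    unfold cutT
    split_ifs
    · exact continuous_const
    · exact hf.comp ((continuous_apply i).comp continuous_snd)
  · exact (continuous_const.mul (continuous_const.dotProduct
      (continuous_fst.matrix_mulVec continuous_const))).add continuous_const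

open TapPl in
lemma gauge_VB (β a0 κ δ m e C : ℝ) {f : ℝ → ℝ} (hf : ∀ x, f (-x) = f x) (n : ℕ) (σ : Cube n)
    (W : Mx n) (x : V n) (h : (cj (sv σ) W, x) ∈ VB β a0 κ δ m e C f n) :
    (W, sv σ * x) ∈ VB β a0 κ δ m e C f n := by
  obtain ⟨T, hT, v, hv⟩ := h
  have hσ := Pl.isSign_sv σ
  refine ⟨T, hT, sv σ * v, ?_⟩
  have e1 : (fun i => f ((sv σ * x) i)) = fun i => f (x i) := by
    funext i; rcases hσ i with e | e <;> simp [e, hf]
  have e2 : ∀ A : V n, qd A (sv σ * v) = qd A v := fun A => Finset.sum_congr rfl fun i _ => by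
    rcases hσ i with e | e <;> simp [e]
  have e3 : v ⬝ᵥ cj (sv σ) W *ᵥ v = (sv σ * v) ⬝ᵥ W *ᵥ (sv σ * v) := by
    conv_lhs => rw [← hσ.mul_self v, cj_mulVec hσ, dot_sign hσ]
  dsimp only at hv ⊢
  rw [e1, e2, dot_sign hσ, th_sign hσ, dot_sign hσ, ← e3]
  exact hv

lemma prod_le {X Y : Type*} [MeasurableSpace X] [MeasurableSpace Y] (μ : Measure X)
    (ν : Measure Y) [IsProbabilityMeasure μ] [IsProbabilityMeasure ν] {N S : Set (X × Y)}
    (hN : MeasurableSet N) (B : Set X) (δ : ENNReal)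
    (h : ∀ z ∈ S, z ∈ N ∧ (z.1 ∈ B ∨ ν (Prod.mk z.1 ⁻¹' N) ≤ δ)) : μ.prod ν S ≤ μ B + δ := by
  have hG : MeasurableSet {x | ν (Prod.mk x ⁻¹' N) ≤ δ} :=
    measurableSet_le (measurable_measure_prodMk_left hN) measurable_const
  calc μ.prod ν S ≤ μ.prod ν (B ×ˢ univ ∪ N ∩ {x | ν (Prod.mk x ⁻¹' N) ≤ δ} ×ˢ univ) :=
        measure_mono fun z hz => (h z hz).2.imp (fun h' => ⟨h', trivial⟩)
          fun h' => ⟨(h z hz).1, h', trivial⟩
    _ ≤ _ := (measure_union_le _ _).trans (add_le_add (by rw [Measure.prod_prod]; simp) ?_)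
  rw [Measure.prod_apply (hN.inter (hG.prod .univ))]
  refine (lintegral_mono (g := fun _ => δ) fun x => ?_).trans (by rw [lintegral_const]; simp)
  by_cases hx : ν (Prod.mk x ⁻¹' N) ≤ δ
  · exact (measure_mono fun y hy => hy.1).trans hx
  · refine le_trans (le_of_eq ?_) zero_le
    exact measure_mono_null (fun y hy => (hx hy.2.1).elim) measure_empty

lemma ev_three {k1 k2 : ℝ} (h1 : 0 < k1) (h2 : 0 < k2) : ∃ κ > (0 : ℝ), ∀ᶠ n : ℕ in atTop,
    (Real.exp (-n / 2) + 2 * Real.exp (-n * k1 ^ 2 / 2)) +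
      (2 * Real.exp (-(n * 1 ^ 2 / 4)) + Real.exp (-k2 * n)) ≤ Real.exp (-κ * n) := by
  set κ := min (min (1 / 4) (k1 ^ 2 / 2)) k2 with hκ
  have κ0 : 0 < κ := by positivity
  have a1 : κ ≤ 1 / 4 := (min_le_left _ _).trans (min_le_left _ _)
  have a2 : κ ≤ k1 ^ 2 / 2 := (min_le_left _ _).trans (min_le_right _ _)
  have a3 : κ ≤ k2 := min_le_right _ _
  refine ⟨κ / 2, by positivity, ?_⟩
  filter_upwards [Kr50.ev_exp 6 κ0] with n hn
  have hn' : (0 : ℝ) ≤ n := Nat.cast_nonneg n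
  have b : ∀ {u : ℝ}, u ≤ -κ * n → Real.exp u ≤ Real.exp (-κ * n) := Real.exp_le_exp.2
  have b1 := b (u := -n / 2) (by nlinarith)
  have b2 := b (u := -n * k1 ^ 2 / 2) (by nlinarith)
  have b3 := b (u := -(n * 1 ^ 2 / 4)) (by nlinarith)
  have b4 := b (u := -k2 * n) (by nlinarith)
  linarith

/-- (POS) in the reference model -/
lemma ref_VB {β a0 κ η δ κ1 s q am : ℝ} (hβ : β ∈ Ioc (0 : ℝ) 1) (ha : β < a0) (hκ : κ ≤ 1 / 2)
    (hη : 0 < η) (hκ1 : 0 < κ1) (hR : ∀ n : ℕ, 0 < n →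
      ∀ A : V n, (∀ i, a0 ≤ A i) → (GOE n).real {W | Viol β a0 κ δ
        (β ^ 2 * avg (fun i => 1 / A i) - 10 * η) (10 * η) A W} ≤ Real.exp (-κ1 * n))
    (hs : 0 ≤ s) (ham : 0 < am) (hq : am ≤ q) {f : ℝ → ℝ} (hf : Continuous f)
    (h0 : ∀ x, a0 ≤ f x) : ∃ κ2 > (0 : ℝ), ∀ᶠ n : ℕ in atTop,
      Ref n {z | |aS (xv β s q q z.1.1 z.1.2) - q| ≤ am / 2 ∧
        (glueW β (xv β s q q z.1.1 z.1.2) z.1.2 z.2, xv β s q q z.1.1 z.1.2) ∈
          VB β a0 κ δ (β ^ 2 * gE (fun x => 1 / f x) (s + β ^ 2 * q) (s + β ^ 2 * q) - 9 * η)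
            (9 * η) ((36 / η + 6) * (2 / am)) f n} ≤ ENNReal.ofReal (Real.exp (-κ2 * n)) := by
  have a00 : 0 < a0 := hβ.1.trans ha
  have hβ' : β ∈ Icc (0 : ℝ) 1 := ⟨hβ.1.le, hβ.2⟩
  obtain ⟨κ2, hκ2, hev⟩ := ev_three hη hκ1
  refine ⟨κ2, hκ2, ?_⟩
  filter_upwards [hev, eventually_gt_atTop 0] with n hev hn
  have hn' : (0 : ℝ) < n := by positivity
  set G := gE (fun x => 1 / f x) (s + β ^ 2 * q) (s + β ^ 2 * q) with hG
  have hb : ∀ x, |a0 * (1 / f x)| ≤ 1 := fun x => by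
    have := a00.trans_le (h0 x)
    rw [abs_of_pos (by positivity), mul_one_div, div_le_one this]; exact h0 x
  have hL := SE.hoeff_xv hn β q hs (ham.le.trans hq) (f := fun x => a0 * (1 / f x))
    (by have := hf.measurable; fun_prop) hb hη.le
  rw [SE.gE_const_mul, ← hG] at hL
  have hmx : Measurable fun z : (V n × V n) × Mx n => xv β s q q z.1.1 z.1.2 := by
    unfold xv; fun_prop
  have hN : MeasurableSet {z : (V n × V n) × Mx n | |aS (xv β s q q z.1.1 z.1.2) - q| ≤ am / 2 ∧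
        (glueW β (xv β s q q z.1.1 z.1.2) z.1.2 z.2, xv β s q q z.1.1 z.1.2) ∈
          VB β a0 κ δ (β ^ 2 * G - 9 * η) (9 * η) ((36 / η + 6) * (2 / am)) f n} := by
    have m1 : Measurable fun x : V n => aS x := (TapFrz.cont_avg (continuous_pi fun i =>
      ((continuous_apply i).comp (TapFrz.cont_th continuous_id)).pow 2)).measurable
    have m2 : Measurable fun x : V n => th x := (TapFrz.cont_th continuous_id).measurable
    refine (measurableSet_le ((m1.comp hmx).sub_const q).abs measurable_const).inter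
      ((isOpen_VB _ _ _ _ _ _ _ hf n).measurableSet.preimage (Measurable.prodMk ?_ hmx))
    have m3 := m1.comp hmx
    have m4 := m2.comp hmx
    unfold glueW
    exact (Measurable.t157_rk2 (by fun_prop) m4.t157_unitv).t157_add
      (((measurable_const.t157_nextR m4).t157_mul measurable_snd).t157_mul
        (measurable_const.t157_nextR m4))
  refine (prod_le _ _ hN ({z | 2 * √(n : ℝ) < nrm z.2} ∪ {z | η ≤ |avg (fun i => a0 *
    (1 / f (xv β s q q z.1 z.2 i))) - a0 * G|}) (ENNReal.ofReal (2 * Real.exp (-(n * 1 ^ 2 / 4)) +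
      Real.exp (-κ1 * n))) fun z hz => ⟨hz, ?_⟩).trans ?_
  · by_cases hB : z.1 ∈ ({z | 2 * √(n : ℝ) < nrm z.2} ∪ {z | η ≤ |avg (fun i => a0 *
        (1 / f (xv β s q q z.1 z.2 i))) - a0 * G|} : Set (V n × V n))
    · exact Or.inl hB
    right
    simp only [mem_union, mem_ofPred_eq, not_or, not_lt, not_le] at hB
    set x := xv β s q q z.1.1 z.1.2 with hx
    have hax : am / 2 ≤ aS x := by have := (abs_le.1 hz.1).1; linarith
    have hax0 : 0 < aS x := by linarith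
    have l1 : β ^ 2 * avg (fun i => 1 / f (x i)) ≤ β ^ 2 * G + η := by
      have e : avg (fun i => a0 * (1 / f (x i))) = a0 * avg fun i => 1 / f (x i) := by
        rw [avg, avg, ← Finset.mul_sum, mul_div_assoc]
      have h1 := (abs_lt.1 hB.2).2
      rw [e, ← mul_sub] at h1
      have b1 : β ^ 2 ≤ a0 := by nlinarith [hβ.2, hβ.1]
      by_cases hd : avg (fun i => 1 / f (x i)) - G ≤ 0
      · nlinarith [sq_nonneg β]
      · nlinarith [mul_le_mul_of_nonneg_right b1 (not_le.1 hd).le]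
    refine (ofReal_measureReal (measure_ne_top _ _)).symm.trans_le (ENNReal.ofReal_le_ofReal ?_)
    refine le_trans (measureReal_mono (fun W hW => ?_) (measure_ne_top _ _))
      ((measureReal_union_le _ _).trans (add_le_add (Nrm.goe_opn_tail_n zero_le_one)
        (hR n hn (fun i => f (x i)) fun i => h0 _)))
    by_cases hW3 : 2 + 1 ≤ opn W
    · exact Or.inl hW3
    obtain ⟨-, T, hT, v, hv⟩ := hW
    refine Or.inr ⟨T, hT, v, ?_⟩
    dsimp only at hv
    rw [← hx] at hv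
    have g1 := glue_quad hn hβ' hax0 hB.1 (W := W) (by linarith [not_le.1 hW3]) v
    set c := unitv (th x) ⬝ᵥ v with hc
    have g2 : (th x ⬝ᵥ v) ^ 2 = n * aS x * c ^ 2 := by
      conv_lhs => rw [← len_smul_unitv (th x), smul_dotProduct, smul_eq_mul, mul_pow, len_sq,
        Cell.dot_th x hn]
    have g3 : 12 * (|c| * nrm v) ≤ η * (v ⬝ᵥ v) + 36 / η * c ^ 2 := by
      rw [← nrm_sq, ← sq_abs c]
      have : 0 ≤ (η * nrm v - 6 * |c|) ^ 2 / η := by positivity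
      have e : (η * nrm v - 6 * |c|) ^ 2 / η =
        η * nrm v ^ 2 + 36 / η * |c| ^ 2 - 12 * (|c| * nrm v) := by field_simp; ring
      linarith
    have g4 : (36 / η + 6) * c ^ 2 ≤ (36 / η + 6) * (2 / am) / n * (th x ⬝ᵥ v) ^ 2 := by
      rw [g2, show (36 / η + 6) * (2 / am) / n * (n * aS x * c ^ 2) =
        (36 / η + 6) * c ^ 2 * (aS x / (am / 2)) by field_simp]
      exact le_mul_of_one_le_right (by positivity) ((one_le_div (by positivity)).2 hax)
    have g5 : 0 ≤ 12 * (|c| * nrm v) + 6 * c ^ 2 := by have := nrm_nonneg v; positivity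
    have g6 := mul_le_mul_of_nonneg_left g1 hβ.1.le
    have g7 := mul_le_of_le_one_left g5 hβ.2
    have g8 := mul_le_mul_of_nonneg_left (mul_le_mul_of_nonneg_right l1 (Eig.dot_self_nonneg v))
      (show 0 ≤ 1 - κ by linarith)
    linarith
  · have hZ : ((gv (Fin n)).prod (gv (Fin n))).real {z | 2 * √(n : ℝ) < nrm z.2} ≤
        Real.exp (-n / 2) := le_trans (ENNReal.toReal_mono (measure_ne_top _ _)
          (Kr50.prod_snd_le _ _ fun z hz => hz)) (SE.nrm_tail n)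
    refine le_trans (add_le_add ((ofReal_measureReal (measure_ne_top _ _)).symm.trans_le
      (ENNReal.ofReal_le_ofReal ((measureReal_union_le _ _).trans (add_le_add hZ hL)))) le_rfl) ?_
    rw [← ENNReal.ofReal_add (by positivity) (by positivity)]
    exact ENNReal.ofReal_le_ofReal hev

end Crest.Agent.T157.Pos

end
end

-- ▼ part T157/PosD_23
section

/-!
# Row 157, part B (S3): (ACC), (EMP), (POS) along the localisation, GOE form (helper23)

* `Pos.acc`: every TAP solution is `ℓ²`-close to the magnetisation;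
* `Pos.emp`: empirical averages of even bounded continuous functions of any field `ξ` with
  `tanh ξ` close to the magnetisation;
* `Pos.pos`: `al - β W ⪰ κ al + η - C m mᵀ / n`.
-/

set_option autoImplicit false

noncomputable section

namespace Crest.Agent.T157.Pos

open MeasureTheory ProbabilityTheory Matrix Filter Set Topology
open Crest.ProbabilityR.SpinGlassDynamics
open Crest.Agent.T157.E Crest.Agent.T157.Eig Crest.Agent.T157.Cond Crest.Agent.T157.Tap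
open Crest.Agent.T157.SL

variable {n : ℕ}

/-- `P n W y` fails with exponentially small mass along the localisation at time `s`, whp in `W` -/
def Typ (β s : ℝ) (P : ∀ n, Mx n → V n → Prop) : Prop := ∃ κ > (0 : ℝ), Top.Whp GOE fun n W =>
  (law sv (ising (β • W) 0) s).real {y | ¬ P n W y} ≤ Real.exp (-κ * n)

section typ
variable {β s : ℝ} {P Q : ∀ n, Mx n → V n → Prop}

lemma Typ.of_mul {κ A : ℝ} (hκ : 0 < κ) (h : Top.Whp GOE fun n W =>
    (law sv (ising (β • W) 0) s).real {y | ¬ P n W y} ≤ A * Real.exp (-κ * n)) : Typ β s P :=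
  ⟨κ / 2, half_pos hκ, h.mono ((Kr50.ev_exp A hκ).mono fun _ hn _ hW => hW.trans hn)⟩

lemma Typ.mono' (h : Typ β s P) {R : ∀ n, Mx n → Prop} (hR : Top.Whp GOE R)
    (hPQ : ∀ᶠ n in atTop, ∀ W y, R n W → P n W y → Q n W y) : Typ β s Q := by
  obtain ⟨κ, hκ, h⟩ := h
  refine ⟨κ, hκ, (h.and hR).mono (hPQ.mono fun n hn W hW => le_trans ?_ hW.1)⟩
  have := isProb_law (φ := sv) (s := s) (Cov15.wt_ising (β • W) 0)
  exact measureReal_mono fun y hy hy' => hy (hn W y hW.2 hy')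

lemma Typ.mono (h : Typ β s P) (hPQ : ∀ᶠ n in atTop, ∀ W y, P n W y → Q n W y) : Typ β s Q :=
  h.mono' Top.whp_true (hPQ.mono fun _ hn W y _ => hn W y)

lemma Typ.and (h : Typ β s P) (h' : Typ β s Q) : Typ β s fun n W y => P n W y ∧ Q n W y := by
  obtain ⟨κ, hκ, h⟩ := h
  obtain ⟨κ', hκ', h'⟩ := h'
  refine Typ.of_mul (A := 2) (lt_min hκ hκ') ((h.and h').imp fun n W hW => ?_)
  have := isProb_law (φ := sv) (s := s) (Cov15.wt_ising (β • W) 0)
  have hn : (0 : ℝ) ≤ n := Nat.cast_nonneg n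
  have e1 : Real.exp (-κ * n) ≤ Real.exp (-min κ κ' * n) :=
    Real.exp_le_exp.2 (by nlinarith [min_le_left κ κ'])
  have e2 : Real.exp (-κ' * n) ≤ Real.exp (-min κ κ' * n) :=
    Real.exp_le_exp.2 (by nlinarith [min_le_right κ κ'])
  refine le_trans (measureReal_mono (s₂ := {y | ¬ P n W y} ∪ {y | ¬ Q n W y})
    fun y hy => not_and_or.1 hy) ((measureReal_union_le _ _).trans ?_)
  linarith [hW.1, hW.2]

lemma typ_true : Typ β s fun _ _ _ => True :=
  ⟨1, one_pos, Top.whp_of_eventually (.of_forall fun n W => by simp [Real.exp_nonneg])⟩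

lemma Typ.finset {ι : Type*} (S : Finset ι) {R : ι → ∀ n, Mx n → V n → Prop}
    (h : ∀ i ∈ S, Typ β s (R i)) : Typ β s fun n W y => ∀ i ∈ S, R i n W y := by
  classical
  induction S using Finset.induction_on with
  | empty => exact typ_true.mono (.of_forall fun _ _ _ _ => by simp)
  | insert a S _ ih =>
    exact ((h a (Finset.mem_insert_self _ _)).and (ih fun i hi =>
      h i (Finset.mem_insert_of_mem hi))).mono (.of_forall fun _ _ _ hh => by
        simpa only [Finset.forall_mem_insert] using hh)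


end typ

/-- the covariance bound at one time -/
theorem cov {β s : ℝ} (hβ : β ∈ Ioc (0 : ℝ) 1) (hs : 0 ≤ s) (h : β < 1 ∨ 0 < s) :
    ∃ K ρ : ℝ, 0 ≤ K ∧ 0 < ρ ∧ Typ β s fun n W y => ∀ v : V n, nrm v ≤ ρ * √n →
      ∀ u : V n, u ⬝ᵥ covM (ising (β • W) (y + v)) *ᵥ u ≤ K * (u ⬝ᵥ u) := by
  obtain ⟨K, ρ, hρ, κ, hκ, w⟩ := LpAll.covStmt β hβ s hs h s
  refine ⟨|K|, ρ, abs_nonneg _, hρ, Typ.mono (P := fun n W y =>
    CovOK (ising (β • W) 0) K (ρ * √n) y) ⟨κ, hκ, w.imp fun n W hW => hW s ⟨le_rfl, le_rfl⟩⟩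
    (.of_forall fun n W y hy v hv u => ?_)⟩
  have := hy v hv u
  rw [Cov15.tilt0] at this
  exact this.trans (mul_le_mul_of_nonneg_right (le_abs_self _) (Eig.dot_self_nonneg u))

/-- **(ACC)** -/
theorem acc {β s : ℝ} (hβ : β ∈ Ioc (0 : ℝ) 1) (hs : 0 < s) : ∃ M : ℝ, 0 ≤ M ∧
    Typ β s fun _ W y => (∃ x, Ymap (β • W) (β ^ 2) x = y) ∧ ∀ x, Ymap (β • W) (β ^ 2) x = y →
      nrm (mag (ising (β • W) y) - th x) ^ 2 ≤ M := by
  obtain ⟨K, M, ρ, α, κ, A, M0, r1, -, r3, hκ, -, w⟩ := Cov15.main TapFrz.measStmt ufStmt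
    TapFrz.frzStmt exStmt errStmt lipCovStmt (winStmt exStmt) LpAll.frozStmt LpAll.allGoodStmt
    s hβ hs one_pos one_pos
  refine ⟨M + 1, by linarith, Typ.mono' (P := fun n W y => ∀ x, Ymap (β • W) (β ^ 2) x = y →
    nrm (mag (ising (β • W) y) - th x) ^ 2 ≤ M + 1) ⟨κ / 4, by positivity, w.mono ?_⟩
    Cov15.whp_symm (.of_forall fun _ W y hW h =>
      ⟨(exStmt _ _ _ (by rw [transpose_smul, hW])).1 y, h⟩)⟩
  filter_upwards [Cov15.ev_num A hκ] with n hn W ⟨_, Γ, g1, g2, g3, g4⟩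
  have := isProb_law (φ := sv) (s := s) (Cov15.wt_ising (β • W) 0)
  have hE := slE_nonneg (φ := sv) (s := s) (F := fun _ y => Γ y) (Cov15.wt_ising (β • W) 0)
    fun _ y => g2 y
  have h1 := le_mul_of_one_le_left hE (Real.one_le_exp
    (show 0 ≤ 2 * (2 * ρ * √(n : ℝ)) * √(n : ℝ) by positivity))
  refine le_trans (measureReal_mono fun y hy => ?_) ((Cov15.law_markov g1 g2).trans ?_)
  · simp only [mem_ofPred_eq, not_forall, not_le] at hy
    obtain ⟨x, hx, hy⟩ := hy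
    have := g3 x 0 x (by rw [nrm_zero]; positivity) (add_zero _).symm
      (by rw [sub_self, nrm_zero]; exact mul_nonneg (by linarith) (Real.sqrt_nonneg _))
    rw [add_zero, hx] at this
    rw [mem_ofPred_eq]; linarith
  · linarith [Real.exp_pos (-(κ / 2) * n)]

lemma avg_abs_le (hn : 0 < n) (w : V n) : avg (fun i => |w i|) ≤ nrm w / √n := by
  have hn' : (0 : ℝ) < n := by positivity
  have h := (le_abs_self _).trans (abs_dot_le (fun i => |w i|) (1 : V n))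
  have e : nrm (fun i => |w i|) = nrm w := by simp [nrm, dotProduct]
  rw [e, Cell.nrm_one] at h
  simp only [dotProduct, Pi.one_apply, mul_one] at h
  rw [avg, div_le_div_iff₀ hn' (by positivity)]
  calc (∑ i, |w i|) * √n ≤ nrm w * √n * √n := by gcongr
    _ = _ := by rw [mul_assoc, Real.mul_self_sqrt hn'.le]

/-- the bad set for an empirical average -/
def EB (f : ℝ → ℝ) (G e : ℝ) (n : ℕ) : Set (Mx n × V n) := {z | e < |avg (fun i => f (z.2 i)) - G|}

lemma ref_EB {β s q : ℝ} (hs : 0 ≤ s) (hq : 0 ≤ q) {f : ℝ → ℝ} (hf : Continuous f)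
    (hb : ∀ x, |f x| ≤ 1) {e : ℝ} (he0 : 0 < e) :
    ∀ᶠ n : ℕ in atTop, Ref n {z | |aS (xv β s q q z.1.1 z.1.2) - q| ≤ 1 ∧
      (glueW β (xv β s q q z.1.1 z.1.2) z.1.2 z.2, xv β s q q z.1.1 z.1.2) ∈
        EB f (gE f (s + β ^ 2 * q) (s + β ^ 2 * q)) e n} ≤
        ENNReal.ofReal (Real.exp (-(e ^ 2 / 2 / 2) * n)) := by
  filter_upwards [Kr50.ev_exp 2 (show 0 < e ^ 2 / 2 by positivity), eventually_gt_atTop 0]
    with n hn hn0
  have h0 := SE.hoeff_xv hn0 β q hs hq hf.measurable hb he0.le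
  rw [show -(n : ℝ) * e ^ 2 / 2 = -(e ^ 2 / 2) * n by ring] at h0
  have h1 := h0.trans hn
  refine le_trans (Kr50.prod_fst_le _ _ ?_)
    ((ofReal_measureReal (measure_ne_top _ _)).symm.trans_le (ENNReal.ofReal_le_ofReal h1))
  intro z hz
  have h2 := hz.2
  simp only [EB, mem_ofPred_eq] at h2 ⊢
  exact h2.le

/-- empirical averages at the TAP solutions -/
lemma emp_tap {β s q : ℝ} (hβ : β ∈ Ioc (0 : ℝ) 1) (hs : 0 < s) (hq : IsQ β s q) {f : ℝ → ℝ}
    (hf : Continuous f) (he : ∀ x, f (-x) = f x) (hb : ∀ x, |f x| ≤ 1) {e : ℝ} (he0 : 0 < e) :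
    Typ β s fun _ W y => ∀ x, Ymap (β • W) (β ^ 2) x = y →
      |avg (fun i => f (x i)) - gE f (s + β ^ 2 * q) (s + β ^ 2 * q)| ≤ e := by
  have h1 := ref_EB (β := β) hs.le hq.1.1 hf hb he0
  generalize gE f (s + β ^ 2 * q) (s + β ^ 2 * q) = G at h1 ⊢
  have h2 : ∀ n, IsOpen (EB f G e n) := fun n =>
    isOpen_lt continuous_const (((TapFrz.cont_avg (continuous_pi fun i =>
      hf.comp ((continuous_apply i).comp continuous_snd))).sub continuous_const).abs)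
  have h3 : ∀ n (σ : Cube n) (W : Mx n) (x : V n), (TapPl.cj (sv σ) W, x) ∈ EB f G e n →
      (W, sv σ * x) ∈ EB f G e n := fun n σ W x h => by
    have e1 : (fun i => f ((sv σ * x) i)) = fun i => f (x i) := by
      funext i; rcases Pl.isSign_sv σ i with e | e <;> simp [e, he]
    simpa only [EB, mem_ofPred_eq, e1] using h
  obtain ⟨κ, hκ, w⟩ := tapT cellStmt ramStmt seStmt hoefStmt detStmt14 hβ hs hq one_pos
    (by positivity) h2 h3 h1
  refine Typ.of_mul hκ (w.imp fun n W hW => le_trans ?_ hW)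
  have := isProb_law (φ := sv) (s := s) (Cov15.wt_ising (β • W) 0)
  refine measureReal_mono fun y hy => ?_
  simp only [mem_ofPred_eq, not_forall, not_le] at hy
  obtain ⟨x, hx, hy⟩ := hy
  refine (Cov15.wt_ising _ _).le_mean fun σ => ?_
  rw [indicator_of_mem (by exact ⟨x, hx, hy⟩)]
  norm_num

lemma ev_sq {M r : ℝ} (hr : 0 < r) : ∀ᶠ n : ℕ in atTop, 0 < n ∧ M ≤ (r * √(n : ℝ)) ^ 2 := by
  filter_upwards [tendsto_natCast_atTop_atTop.eventually_ge_atTop (M / r ^ 2),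
    eventually_gt_atTop 0] with n hn hn0
  rw [mul_pow, Real.sq_sqrt (Nat.cast_nonneg n)]
  rw [div_le_iff₀ (by positivity)] at hn
  exact ⟨hn0, by linarith⟩

lemma near {m p ξ : V n} {M ρ : ℝ} (hρ : 0 ≤ ρ) (h1 : nrm (m - p) ^ 2 ≤ M) (h2 : M ≤ ρ ^ 2)
    (h3 : nrm (ξ - m) ≤ ρ) : nrm (ξ - p) ≤ 2 * ρ := by
  have h4 := abs_le_of_sq_le_sq' (h1.trans h2) hρ
  have := nrm_add_le (ξ - m) (m - p)
  rw [sub_add_sub_cancel] at this
  linarith [h4.2]

lemma emp_lo {β s q : ℝ} (hβ : β ∈ Ioc (0 : ℝ) 1) (hs : 0 < s) (hq : IsQ β s q) {ψ : ℝ → ℝ}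
    (hf : Continuous ψ) (he : ∀ x, ψ (-x) = ψ x) (hb : ∀ x, |ψ x| ≤ 1) {e : ℝ} (he0 : 0 < e) :
    ∃ r > (0 : ℝ), Typ β s fun n W y => ∀ ξ, nrm (th ξ - mag (ising (β • W) y)) ≤ r * √n →
      gE ψ (s + β ^ 2 * q) (s + β ^ 2 * q) - e ≤ avg fun i => ψ (ξ i) := by
  have h0 : ∀ x, -1 ≤ ψ x := fun x => (abs_le.1 (hb x)).1
  obtain ⟨L, hL, hG⟩ := gE_lo h0 hf (Φ := fun u => u) measurable_id (fun _ => continuousAt_id)
    (K := 1) (fun u x h1 h2 => abs_le.2 ⟨h1, h2.trans (abs_le.1 (hb x)).2⟩)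
    (s + β ^ 2 * q) (s + β ^ 2 * q) (e := e / 3) (by positivity)
  obtain ⟨M, -, hA⟩ := acc hβ hs
  have hT := emp_tap hβ hs hq (f := fun x => lo ψ L (Real.tanh x))
    ((cont_lo h0 hL.le).comp TapFrz.continuous_tanh)
    (fun x => by rw [Real.tanh_neg, lo_neg h0 hL.le he])
    (fun x => abs_le.2 ⟨le_lo h0 hL.le _, (lo_tanh_le h0 hL.le x).trans (abs_le.1 (hb x)).2⟩)
    (e := e / 3) (by positivity)
  have r0 : 0 < e / (6 * L) := by positivity
  refine ⟨e / (6 * L), r0, (hA.and hT).mono ?_⟩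
  filter_upwards [ev_sq (M := M) r0] with n ⟨hn, hM⟩ W y ⟨⟨⟨x, hx⟩, h1⟩, h2⟩ ξ hξ
  have hn' : (0 : ℝ) < n := by positivity
  have hsq : (0 : ℝ) < √n := by positivity
  have h3 := near (by positivity) (h1 x hx) hM hξ
  have h4 := (avg_abs_le hn (th ξ - th x)).trans (div_le_div_of_nonneg_right h3 hsq.le)
  rw [show 2 * (e / (6 * L) * √(n : ℝ)) / √(n : ℝ) = e / 3 / L by field_simp; norm_num,
    le_div_iff₀ hL] at h4
  have h5 : avg (fun i => lo ψ L (Real.tanh (x i))) ≤ (avg fun i => ψ (ξ i)) +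
      avg (fun i => |(th ξ - th x) i|) * L := by
    rw [avg, avg, avg, div_mul_eq_mul_div, ← add_div, Finset.sum_mul, ← Finset.sum_add_distrib]
    refine div_le_div_of_nonneg_right (Finset.sum_le_sum fun i _ => ?_) hn'.le
    rw [mul_comm]; exact lo_le h0 hL.le _ _
  linarith [(abs_le.1 (h2 x hx)).1, (abs_le.1 hG).1]

/-- **(EMP)** -/
theorem emp {β s q : ℝ} (hβ : β ∈ Ioc (0 : ℝ) 1) (hs : 0 < s) (hq : IsQ β s q) {ψ : ℝ → ℝ}
    (hf : Continuous ψ) (he : ∀ x, ψ (-x) = ψ x) {K : ℝ} (hb : ∀ x, |ψ x| ≤ K) {e : ℝ}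
    (he0 : 0 < e) :
    ∃ r > (0 : ℝ), Typ β s fun n W y => ∀ ξ, nrm (th ξ - mag (ising (β • W) y)) ≤ r * √n →
      |avg (fun i => ψ (ξ i)) - gE ψ (s + β ^ 2 * q) (s + β ^ 2 * q)| ≤ e := by
  have K0 : 0 < K + 1 := by linarith [(abs_nonneg _).trans (hb 0)]
  have hb' : ∀ {c : ℝ}, |c| = (K + 1)⁻¹ → ∀ x, |c * ψ x| ≤ 1 := fun hc x => by
    rw [abs_mul, hc, inv_mul_le_iff₀ K0]; linarith [hb x]
  obtain ⟨r1, hr1, h1⟩ := emp_lo hβ hs hq (ψ := fun x => (K + 1)⁻¹ * ψ x) (by fun_prop)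
    (fun x => by rw [he]) (hb' (abs_of_pos (by positivity))) (e := (K + 1)⁻¹ * e) (by positivity)
  obtain ⟨r2, hr2, h2⟩ := emp_lo hβ hs hq (ψ := fun x => -(K + 1)⁻¹ * ψ x) (by fun_prop)
    (fun x => by rw [he]) (hb' (by rw [abs_neg]; exact abs_of_pos (by positivity)))
    (e := (K + 1)⁻¹ * e) (by positivity)
  refine ⟨min r1 r2, lt_min hr1 hr2, (h1.and h2).mono (.of_forall fun n W y h ξ hξ => ?_)⟩
  have a1 := h.1 ξ (hξ.trans (by gcongr; exact min_le_left _ _))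
  have a2 := h.2 ξ (hξ.trans (by gcongr; exact min_le_right _ _))
  have e1 : ∀ c : ℝ, avg (fun i => c * ψ (ξ i)) = c * avg fun i => ψ (ξ i) := fun c => by
    rw [avg, avg, ← Finset.mul_sum, mul_div_assoc]
  rw [SE.gE_const_mul, e1] at a1 a2
  have c0 : 0 < (K + 1)⁻¹ := by positivity
  exact abs_le.2 ⟨le_of_mul_le_mul_left (by linarith) c0, le_of_mul_le_mul_left (by linarith) c0⟩

/-! ### positivity -/

lemma avg_step {w : Cube n → ℝ} (hw : Wt w) {I : Cube n → ℝ} (hI : ∀ σ, I σ = 0 ∨ I σ = 1)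
    (hm : mean w I < 1 / 2) {D c : ℝ} (hc : 0 ≤ c) (v : V n)
    (h : ∀ σ, I σ = 0 → D ≤ c * (v ⬝ᵥ sv σ) ^ 2) :
    D ≤ 2 * c * (v ⬝ᵥ covM w *ᵥ v + (v ⬝ᵥ mag w) ^ 2) := by
  have e : mean w (fun σ => (v ⬝ᵥ sv σ) ^ 2) = v ⬝ᵥ covM w *ᵥ v + (v ⬝ᵥ mag w) ^ 2 := by
    rw [covM, covMat_quad, hw.cov_eq, mag, meanV_dot]
    simp only [sq, sub_add_cancel]
  have h0 : 0 ≤ mean w fun σ => (v ⬝ᵥ sv σ) ^ 2 := hw.mean_nonneg fun _ => sq_nonneg _
  rw [← e]
  by_cases hD : D ≤ 0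
  · exact hD.trans (by positivity)
  have h1 : mean w (fun σ => D - D * I σ) ≤ mean w fun σ => c * (v ⬝ᵥ sv σ) ^ 2 :=
    hw.mean_mono fun σ => by
      rcases hI σ with e | e
      · rw [e, mul_zero, sub_zero]; exact h σ e
      · rw [e, mul_one, sub_self]; positivity
  rw [mean_sub, hw.mean_const, mean_const_mul, mean_const_mul] at h1
  nlinarith [not_le.1 hD]

lemma card_far {u : V n} {ρ : ℝ} (hρ : 0 < ρ) :
    ((Finset.univ.filter fun i => ρ < |u i|).card : ℝ) * ρ ^ 2 ≤ nrm u ^ 2 := by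
  rw [nrm_sq, dot_eq, ← nsmul_eq_mul, ← Finset.sum_const]
  refine (Finset.sum_le_sum fun i hi => ?_).trans (Finset.sum_le_sum_of_subset_of_nonneg
    (Finset.filter_subset _ _) fun _ _ _ => sq_nonneg _)
  rw [← sq_abs (u i)]
  exact pow_le_pow_left₀ hρ.le (Finset.mem_filter.1 hi).2.le 2

/-- `al - J ⪰ κ al + η - C u uᵀ / n` -/
def PosF (κ η C : ℝ) (J : Mx n) (al u : V n) : Prop :=
  ∀ v : V n, v ⬝ᵥ J *ᵥ v + η * (v ⬝ᵥ v) ≤ (1 - κ) * qd al v + C / n * (u ⬝ᵥ v) ^ 2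

/-- **(POS)**, positive times -/
theorem pos {β a0 : ℝ} (hβ : β ∈ Ioc (0 : ℝ) 1) (ha : β < a0) :
    ∃ κ η : ℝ, 0 < κ ∧ κ ≤ 1 / 2 ∧ 0 < η ∧ ∀ t0 > (0 : ℝ), ∃ C : ℝ, 0 ≤ C ∧ ∀ s q, t0 ≤ s →
      IsQ β s q → ∀ a : ℝ → ℝ, Continuous a → (∀ x, a (-x) = a x) → (∀ x, a0 ≤ a x) →
      ∃ r > (0 : ℝ), Typ β s fun n W y => ∀ ξ al : V n,
        nrm (th ξ - mag (ising (β • W) y)) ≤ r * √n →
        (∀ i, a (ξ i) + β ^ 2 * gE (fun x => 1 / a x) (s + β ^ 2 * q) (s + β ^ 2 * q) - η ≤ al i) →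
        PosF κ (8 * η) C (β • W) al (mag (ising (β • W) y)) := by
  obtain ⟨κ, η, δ, κ1, κ0, κh, η0, -, δ0, κ10, hR⟩ := rob hβ ha
  have a00 : 0 < a0 := hβ.1.trans ha
  refine ⟨κ, η, κ0, κh, η0, fun t0 ht0 => ?_⟩
  obtain ⟨am, ham, hq0⟩ := SE.lower ht0
  set C := (36 / η + 6) * (2 / am) with hC
  have C0 : 0 ≤ C := by positivity
  refine ⟨2 * C + 2, by positivity, fun s q hs hq a hca he h0 => ?_⟩
  have hs0 : 0 < s := ht0.trans_le hs
  have hqa : am ≤ q := by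
    have := hq0 (s + β ^ 2 * q) (s + β ^ 2 * q) (by
      have := mul_nonneg (sq_nonneg β) hq.1.1
      linarith)
    rwa [← hq.2] at this
  obtain ⟨L, hL, hG⟩ := gE_lo h0 hca (Φ := fun u => 1 / u) (by fun_prop)
    (fun x => continuousAt_const.div continuousAt_id (a00.trans_le (h0 x)).ne') (K := 1 / a0)
    (fun u x h1 _ => by
      rw [abs_of_pos (one_div_pos.2 (a00.trans_le h1))]; exact one_div_le_one_div_of_le a00 h1)
    (s + β ^ 2 * q) (s + β ^ 2 * q) η0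
  set f : ℝ → ℝ := fun x => lo a L (Real.tanh x) with hf
  have f1 : Continuous f := (cont_lo h0 hL.le).comp TapFrz.continuous_tanh
  have f2 : ∀ x, f (-x) = f x := fun x => by
    simp only [hf]; rw [Real.tanh_neg, lo_neg h0 hL.le he]
  have f3 : ∀ x, a0 ≤ f x := fun x => le_lo h0 hL.le _
  obtain ⟨κ2, κ20, hRef⟩ := ref_VB hβ ha κh η0 κ10 hR hs0.le ham hqa f1 f3
  obtain ⟨κ3, κ30, w⟩ := tapT cellStmt ramStmt seStmt hoefStmt detStmt14 hβ hs0 hq
    (half_pos ham) κ20 (fun n => isOpen_VB _ _ _ _ _ _ _ f1 n)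
    (fun n σ W x h => gauge_VB _ _ _ _ _ _ _ f2 n σ W x h) hRef
  set G0 := gE (fun x => 1 / f x) (s + β ^ 2 * q) (s + β ^ 2 * q) with hG0
  have w' : Typ β s fun n W y => (mean (ising (β • W) y) fun σ => {y | ∃ x,
      Ymap (β • W) (β ^ 2) x = y ∧ (unp β W (sv σ), x) ∈ VB β a0 κ δ (β ^ 2 * G0 - 9 * η)
        (9 * η) C f n}.indicator 1 y) < 1 / 2 :=
    Typ.of_mul κ30 (w.imp fun n W hW => by simpa only [not_lt] using hW)
  obtain ⟨M, M0, hA⟩ := acc hβ hs0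
  obtain ⟨K, ρ1, K0, ρ10, hK⟩ := cov hβ hs0.le (Or.inr hs0)
  set ρ := η / L with hρ
  have ρ0 : 0 < ρ := by positivity
  have r0 : 0 < √δ * ρ / 2 := by positivity
  refine ⟨√δ * ρ / 2, r0, ((hA.and hK).and w').mono ?_⟩
  filter_upwards [ev_sq (M := M) r0, tendsto_natCast_atTop_atTop.eventually_ge_atTop
    ((2 * C * M + 2 * K) / η)] with n ⟨hn, hM⟩ hn2 W y ⟨⟨⟨⟨x, hx⟩, h1⟩, h2⟩, h3⟩ ξ al hξ hal v
  have hn' : (0 : ℝ) < n := by positivity
  have v0 := Eig.dot_self_nonneg v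
  have b1 : β ^ 2 ≤ 1 := pow_le_one₀ hβ.1.le hβ.2
  have h4 := near (by positivity) (h1 x hx) hM hξ
  set T := Finset.univ.filter fun i => ρ < |(th ξ - th x) i| with hT
  have hTc : (T.card : ℝ) ≤ δ * n := by
    have t1 := (card_far (u := th ξ - th x) ρ0).trans (pow_le_pow_left₀ (nrm_nonneg _) h4 2)
    rw [show (2 * (√δ * ρ / 2 * √(n : ℝ))) ^ 2 = √δ ^ 2 * √(n : ℝ) ^ 2 * ρ ^ 2 by ring,
      Real.sq_sqrt δ0.le, Real.sq_sqrt hn'.le] at t1
    exact le_of_mul_le_mul_right t1 (by positivity)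
  have g1 : β ^ 2 * G0 ≤ β ^ 2 * gE (fun x => 1 / a x) (s + β ^ 2 * q) (s + β ^ 2 * q) + η := by
    have t1 := mul_le_mul_of_nonneg_left (abs_le.1 hG).2 (sq_nonneg β)
    have t2 := mul_le_of_le_one_left η0.le b1
    linarith
  have g2 : qd (cutT a0 T fun i => f (x i)) v + (β ^ 2 * G0 - 9 * η) * (v ⬝ᵥ v) ≤ qd al v := by
    rw [← qd_add_const]
    refine qd_mono (fun i => ?_) v
    have t0 := hal i
    unfold cutT; split_ifs with hi
    · linarith [h0 (ξ i)]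
    · have t1 : |Real.tanh (ξ i) - Real.tanh (x i)| ≤ ρ :=
        not_lt.1 fun hc => hi (Finset.mem_filter.2 ⟨Finset.mem_univ _, hc⟩)
      have t2 := lo_le h0 hL.le (Real.tanh (x i)) (ξ i)
      have t3 : L * |Real.tanh (ξ i) - Real.tanh (x i)| ≤ η := by
        rw [hρ, le_div_iff₀ hL] at t1; linarith
      simp only [hf]; linarith
  have g3 := mul_le_mul_of_nonneg_left g2 (show 0 ≤ 1 - κ by linarith)
  set m := mag (ising (β • W) y) with hm
  have g4 := avg_step (Cov15.wt_ising (β • W) y) (fun σ => by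
      classical rw [indicator_apply]; split_ifs <;> simp) h3
    (D := β * (v ⬝ᵥ W *ᵥ v) + 9 * η * (v ⬝ᵥ v) - (1 - κ) * qd al v - C / n * (th x ⬝ᵥ v) ^ 2)
    (c := β ^ 2 / n) (by positivity) v fun σ hσ => by
      have t1 : (unp β W (sv σ), x) ∉ VB β a0 κ δ (β ^ 2 * G0 - 9 * η) (9 * η) C f n := fun hc => by
        rw [indicator_of_mem (by exact ⟨x, hx, hc⟩)] at hσ; simp at hσ
      have t2 := not_lt.1 fun hc => t1 ⟨T, hTc, v, hc⟩
      simp only [unp, sub_mulVec, smul_mulVec, vmv_mulVec, dotProduct_sub, dotProduct_smul,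
        smul_eq_mul, dotProduct_comm (sv σ) v] at t2
      have e : β * (v ⬝ᵥ W *ᵥ v - β / n * (v ⬝ᵥ sv σ * v ⬝ᵥ sv σ)) =
        β * (v ⬝ᵥ W *ᵥ v) - β ^ 2 / n * (v ⬝ᵥ sv σ) ^ 2 := by ring
      linarith
  have g5 := h2 0 (by rw [nrm_zero]; positivity) v
  rw [add_zero] at g5
  rw [← hm, dotProduct_comm v m] at g4
  have g6 : (th x ⬝ᵥ v) ^ 2 ≤ 2 * (m ⬝ᵥ v) ^ 2 + 2 * (M * (v ⬝ᵥ v)) := by
    have t1 : ((m - th x) ⬝ᵥ v) ^ 2 ≤ M * (v ⬝ᵥ v) := by
      rw [← sq_abs, ← nrm_sq]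
      refine (pow_le_pow_left₀ (abs_nonneg _) (abs_dot_le _ _) 2).trans ?_
      rw [mul_pow]; exact mul_le_mul_of_nonneg_right (h1 x hx) (sq_nonneg _)
    rw [sub_dotProduct] at t1
    nlinarith [sq_nonneg (2 * (m ⬝ᵥ v) - th x ⬝ᵥ v)]
  have g7 : 2 * (β ^ 2 / n) * (v ⬝ᵥ covM (ising (β • W) y) *ᵥ v + (m ⬝ᵥ v) ^ 2) ≤
      2 * (1 / n) * (K * (v ⬝ᵥ v) + (m ⬝ᵥ v) ^ 2) :=
    mul_le_mul (by gcongr) (by linarith) (add_nonneg
      ((Cov15.wt_ising _ _).covMat_quad_nonneg sv v) (sq_nonneg _)) (by positivity)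
  have g8 := mul_le_mul_of_nonneg_left g6 (show 0 ≤ C / n by positivity)
  have g9 : (2 * C * M + 2 * K) / n * (v ⬝ᵥ v) ≤ η * (v ⬝ᵥ v) := by
    refine mul_le_mul_of_nonneg_right ?_ v0
    rw [div_le_iff₀ η0] at hn2
    rw [div_le_iff₀ hn']; linarith
  rw [smul_mulVec, dotProduct_smul, smul_eq_mul]
  have e1 : (2 * C + 2) / n * (m ⬝ᵥ v) ^ 2 + (2 * C * M + 2 * K) / n * (v ⬝ᵥ v) =
      C / n * (2 * (m ⬝ᵥ v) ^ 2 + 2 * (M * (v ⬝ᵥ v))) +
        2 * (1 / n) * (K * (v ⬝ᵥ v) + (m ⬝ᵥ v) ^ 2) := by ring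
  linarith

end Crest.Agent.T157.Pos

end
end

-- ▼ part T157/PosE_23

/-!
# Row 157, part B (S3): (ACC), (EMP), (POS) for the cavity field, all levels, SK form (helper23)

`T` is either the identity or the removal of the diagonal (`Adm`); `fld β J y` is the field
`b = y + J m - β² avg (1 - m²) m`; `Lv β s q` covers the level `s = 0`.
-/

set_option autoImplicit false

noncomputable section

namespace Crest.Agent.T157.Pos

open MeasureTheory ProbabilityTheory Matrix Filter Set Topology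
open Crest.ProbabilityR.SpinGlassDynamics
open Crest.Agent.T157.E Crest.Agent.T157.Eig Crest.Agent.T157.Cond Crest.Agent.T157.Tap
open Crest.Agent.T157.SL

variable {n : ℕ}

/-! ### the diagonal -/

/-- `J` differs from `W` by a small diagonal -/
def Nd (η : ℝ) (W J : Mx n) : Prop := ∃ d : V n, W = J + diagonal d ∧ nrm d ≤ 2 ∧ ∀ i, |d i| ≤ η

/-- admissible modifications of the diagonal -/
def Adm (T : ∀ n, Mx n → Mx n) : Prop := ∀ η > (0 : ℝ), Top.Whp GOE fun n W => Nd η W (T n W)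


lemma whp_of_diag {P : ∀ n, V n → Prop} (hm : ∀ n, MeasurableSet {d : V n | ¬ P n d})
    (h : Top.Whp (fun n => gv (Fin n)) fun n g => P n fun i => √2 * g i / √n) :
    Top.Whp GOE fun n W => P n fun i => W i i := by
  refine tendsto_of_tendsto_of_tendsto_of_le_of_le tendsto_const_nhds h (fun n => zero_le)
    fun n => ?_
  have hm' : MeasurableSet {W : Mx n | ¬ P n fun i => W i i} :=
    (hm n).preimage (measurable_pi_lambda _ fun i => measurable_id.t157_entry i i)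
  refine ((mp_Wmat (n := n)).measure_preimage hm'.nullMeasurableSet).symm.trans_le
    (le_trans (measure_mono fun p hp => ?_) ((measurePreserving_snd (μ := disorderLaw n)
      (ν := gv (Fin n))).measure_preimage_le _))
  simpa [Wmat, Jmat_diag] using hp

lemma whp_d2 : Top.Whp GOE fun _ W => ∑ i, W i i ^ 2 ≤ 4 := by
  refine whp_of_diag (P := fun _ d => ∑ i, d i ^ 2 ≤ 4)
    (fun n => (measurableSet_le (f := fun d : V n => ∑ i, d i ^ 2) (by fun_prop)
      measurable_const).compl) (Top.whp_of_real_le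
      (((TapPl.tendsto_exp_neg (κ := 1 / 8) (by norm_num)).const_mul 2).trans_eq (by simp)) ?_)
  filter_upwards [eventually_gt_atTop 0] with n hn
  have hn' : (0 : ℝ) < n := by exact_mod_cast hn
  have h1 := Conc.chi_tail (ι := Fin n) Conc.sg1_gauss (fun _ => Conc.sq_entry false) hn'
    (by simp) hn'.le
  rw [show (n : ℝ) ^ 2 / (8 * n) = n / 8 by field_simp, min_self, Fintype.card_fin,
    show -((n : ℝ) / 8) = -(1 / 8) * n by ring] at h1
  refine le_trans (measureReal_mono fun g hg => ?_) h1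
  simp only [mem_ofPred_eq, not_le, div_pow, mul_pow, Real.sq_sqrt hn'.le,
    Real.sq_sqrt two_pos.le, ← Finset.sum_div, ← Finset.mul_sum, lt_div_iff₀ hn'] at hg ⊢
  exact le_trans (by linarith) (le_abs_self _)

lemma whp_d4 {η : ℝ} (hη : 0 < η) : Top.Whp GOE fun _ W => ∑ i, W i i ^ 4 ≤ η ^ 4 := by
  refine whp_of_diag (P := fun _ d => ∑ i, d i ^ 4 ≤ η ^ 4)
    (fun n => (measurableSet_le (f := fun d : V n => ∑ i, d i ^ 4) (by fun_prop)
      measurable_const).compl) (Top.whp_of_real_le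
      (tendsto_const_div_atTop_nhds_zero_nat (4 * TapFrz.m4 / η ^ 4)) ?_)
  filter_upwards [eventually_gt_atTop 0] with n hn
  have hn' : (0 : ℝ) < n := by exact_mod_cast hn
  have h := mul_meas_ge_le_integral_of_nonneg (μ := gv (Fin n)) (f := fun g => ∑ i, g i ^ 4)
    (ae_of_all _ fun g => Finset.sum_nonneg fun i _ => by positivity)
    (integrable_finsetSum _ fun i _ => TapFrz.integrable_four_coord i) (η ^ 4 * n ^ 2 / 4)
  rw [integral_finsetSum _ fun i _ => TapFrz.integrable_four_coord i] at h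
  simp only [TapFrz.integral_four_coord, Finset.sum_const, Finset.card_univ, Fintype.card_fin,
    nsmul_eq_mul] at h
  rw [← le_div_iff₀' (by positivity)] at h
  refine le_trans (measureReal_mono fun g hg => ?_) (h.trans_eq (by field_simp))
  have e1 : √(n : ℝ) ^ 4 = n ^ 2 := by rw [show 4 = 2 * 2 from rfl, pow_mul, Real.sq_sqrt hn'.le]
  have e2 : √(2 : ℝ) ^ 4 = 4 := by
    rw [show 4 = 2 * 2 from rfl, pow_mul, Real.sq_sqrt two_pos.le]; norm_num
  simp only [mem_ofPred_eq, not_le, div_pow, mul_pow, e1, e2, ← Finset.sum_div, ← Finset.mul_sum,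
    lt_div_iff₀ (show (0 : ℝ) < n ^ 2 by positivity)] at hg ⊢
  linarith

theorem adm_offd : Adm fun _ W => offd W := fun η hη => (whp_d2.and (whp_d4 hη)).imp
  fun n W h => ⟨fun i => W i i, by simp [offd], (nrm_le_iff two_pos.le).2 (by
    rw [dot_eq]; linarith [h.1]), fun i => by
    have := (Finset.single_le_sum (f := fun i => W i i ^ 4) (fun _ _ => by positivity)
      (Finset.mem_univ i)).trans h.2
    rw [← (by decide : Even 4).pow_abs] at this
    exact (pow_le_pow_iff_left₀ (abs_nonneg _) hη.le (by norm_num)).1 this⟩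

lemma Nd.prob {η : ℝ} {W J : Mx n} (h : Nd η W J) (β : ℝ) (y : V n) :
    prob (ising (β • W) y) = prob (ising (β • J) y) := by
  obtain ⟨d, rfl, -⟩ := h
  rw [smul_add, ← diagonal_smul, Pl.prob_ising_add_diagonal]

lemma Nd.mag {η : ℝ} {W J : Mx n} (h : Nd η W J) (β : ℝ) (y : V n) :
    mag (ising (β • J) y) = mag (ising (β • W) y) := by
  funext i; simp only [E.mag, meanV, mean, h.prob]

lemma Nd.covM {η : ℝ} {W J : Mx n} (h : Nd η W J) (β : ℝ) (y : V n) :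
    covM (ising (β • J) y) = covM (ising (β • W) y) := by
  funext i j; simp only [E.covM, covMat, E.cov, mean, h.prob]

/-- the SK form of `Typ` -/
def TypJ (β s : ℝ) (P : ∀ n, Mx n → V n → Prop) : Prop :=
  ∃ κ > (0 : ℝ), Top.Whp disorderLaw fun n g =>
    (law sv (gibbsWeight n β g) s).real {y | ¬ P n (Jmat n g) y} ≤ Real.exp (-κ * n)

theorem Typ.toJ {β s : ℝ} {P : ∀ n, Mx n → V n → Prop}
    (h : Typ β s fun n W y => P n (offd W) y) : TypJ β s P := by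
  obtain ⟨κ, hκ, h⟩ := h
  refine ⟨κ, hκ, Top.Whp.of_prod_fst (ν := fun n => gv (Fin n)) ((h.comp (T := fun n p =>
    Wmat n p.1 p.2) fun n => mp_Wmat).imp fun n p hp => ?_)⟩
  simpa only [law, GoeT.prob_ising_Wmat, offd_Wmat] using hp

/-! ### the level `0` -/

lemma typ_zero {β : ℝ} {P : ∀ n, Mx n → V n → Prop} (h : Top.Whp GOE fun n W => P n W 0) :
    Typ β 0 P := ⟨1, one_pos, h.imp fun n W hW => by
  have : law sv (ising (β • W) 0) 0 {y | ¬ P n W y} = 0 := by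
    refine measure_mono_null (t := {0}ᶜ) (fun y hy e => hy (by rwa [mem_singleton_iff.1 e])) ?_
    simp only [law, Measure.coe_finsetSum, Finset.sum_apply, Measure.smul_apply]
    refine Finset.sum_eq_zero fun x _ => ?_
    rw [Measure.map_apply (by fun_prop) (measurableSet_singleton _).compl]
    simp [preimage]
  rw [Measure.real, this]; exact (Real.exp_pos _).le⟩

/-- levels: `q` is the overlap at the level `s` -/
def Lv (β s q : ℝ) : Prop := 0 ≤ s ∧ IsQ β s q ∧ (s = 0 → q = 0)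

lemma gE_zero (f : ℝ → ℝ) : gE f 0 0 = f 0 := by simp [gE]

theorem lv_zero (β : ℝ) : Lv β 0 0 :=
  ⟨le_rfl, ⟨⟨le_rfl, zero_le_one⟩, by simp [gE_zero]⟩, fun _ => rfl⟩

theorem exists_lv (β : ℝ) {s : ℝ} (hs : 0 ≤ s) : ∃ q, Lv β s q := by
  rcases hs.eq_or_lt with rfl | h
  · exact ⟨0, lv_zero β⟩
  · obtain ⟨q, hq⟩ := SE.exists_isQ β s
    exact ⟨q, hs, hq, fun e => absurd e h.ne'⟩

lemma emp_lo0 {ψ : ℝ → ℝ} (hf : Continuous ψ) {K : ℝ} (hb : ∀ x, -K ≤ ψ x) {e : ℝ} (he0 : 0 < e) :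
    ∃ r > (0 : ℝ), ∀ n : ℕ, 0 < n → ∀ ξ : V n, nrm (th ξ) ≤ r * √n →
      ψ 0 - e ≤ avg fun i => ψ (ξ i) := by
  obtain ⟨L, h1, hL⟩ := (((lo_tendsto hb hf 0).eventually (lt_mem_nhds
    (show ψ 0 - e / 2 < ψ 0 by linarith))).and (eventually_gt_atTop 0)).exists
  have L0 : (0 : ℝ) < L := by positivity
  refine ⟨e / 2 / L, by positivity, fun n hn ξ hξ => ?_⟩
  have hn' : (0 : ℝ) < n := by positivity
  have h4 := (avg_abs_le hn (th ξ)).trans ((div_le_iff₀ (by positivity)).2 hξ)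
  rw [le_div_iff₀ L0] at h4
  have h5 : lo ψ L (Real.tanh 0) ≤ (avg fun i => ψ (ξ i)) + avg (fun i => |th ξ i|) * L := by
    rw [avg, avg, div_mul_eq_mul_div, ← add_div, Finset.sum_mul, ← Finset.sum_add_distrib,
      le_div_iff₀ hn', mul_comm, ← nsmul_eq_mul, ← Fin.sum_const]
    refine Finset.sum_le_sum fun i _ => ?_
    have := lo_le hb L0.le (Real.tanh 0) (ξ i)
    rwa [Real.tanh_zero, sub_zero, mul_comm, ← Real.tanh_zero] at this
  linarith

lemma PosF.mono {κ κ' η η' C C' : ℝ} {J : Mx n} {al u : V n} (h : PosF κ η C J al u)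
    (h0 : ∀ i, 0 ≤ al i) (h1 : κ' ≤ κ) (h2 : η' ≤ η) (h3 : C ≤ C') : PosF κ' η' C' J al u := by
  intro v
  have a1 : 0 ≤ qd al v := Finset.sum_nonneg fun i _ => mul_nonneg (h0 i) (sq_nonneg _)
  have a2 := mul_le_mul_of_nonneg_right h2 (Eig.dot_self_nonneg v)
  have a3 : C / n * (u ⬝ᵥ v) ^ 2 ≤ C' / n * (u ⬝ᵥ v) ^ 2 := by gcongr
  nlinarith [h v]

lemma pos0 {β a0 : ℝ} (hβ : β ∈ Ioc (0 : ℝ) 1) (ha : β < a0) :
    ∃ κ η : ℝ, 0 < κ ∧ 0 < η ∧ ∀ a : ℝ → ℝ, Continuous a → (∀ x, a0 ≤ a x) →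
      ∃ r > (0 : ℝ), Top.Whp GOE fun n W => ∀ ξ al : V n, nrm (th ξ) ≤ r * √n →
        (∀ i, a (ξ i) + β ^ 2 * (1 / a 0) - η ≤ al i) → PosF κ (8 * η) 0 (β • W) al 0 := by
  obtain ⟨κ, η, δ, κ1, κ0, kh, η0, -, δ0, κ10, hR⟩ := rob hβ ha
  have a00 : 0 < a0 := hβ.1.trans ha
  refine ⟨κ, η, κ0, η0, fun a hca h0 => ?_⟩
  obtain ⟨L, hL, hG⟩ := gE_lo h0 hca (Φ := fun u => 1 / u) (by fun_prop)
    (fun x => continuousAt_const.div continuousAt_id (a00.trans_le (h0 x)).ne') (K := 1 / a0)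
    (fun u x h1 _ => by
      rw [abs_of_pos (one_div_pos.2 (a00.trans_le h1))]; exact one_div_le_one_div_of_le a00 h1)
    0 0 η0
  rw [gE_zero, gE_zero, Real.tanh_zero] at hG
  set ρ := η / L with hρ
  have ρ0 : 0 < ρ := by positivity
  refine ⟨√δ * ρ, by positivity, (Top.whp_of_real_le (P := fun n W => ¬ Viol β a0 κ δ
    (β ^ 2 * (1 / lo a L 0) - 10 * η) (10 * η) (fun _ => lo a L 0) W)
    (TapPl.tendsto_exp_neg κ10) ?_).mono ?_⟩
  · filter_upwards [eventually_gt_atTop 0] with n hn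
    have := hR n hn (fun _ => lo a L 0) fun _ => le_lo h0 hL.le 0
    rw [avg, Fin.sum_const, nsmul_eq_mul, mul_div_cancel_left₀ _ (by positivity)] at this
    simpa only [not_not] using this
  filter_upwards [eventually_gt_atTop 0] with n hn W hW ξ al hξ hal v
  have hn' : (0 : ℝ) < n := by positivity
  set T := Finset.univ.filter fun i => ρ < |th ξ i| with hT
  have hTc : (T.card : ℝ) ≤ δ * n := by
    have t1 := (card_far (u := th ξ) ρ0).trans (pow_le_pow_left₀ (nrm_nonneg _) hξ 2)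
    rw [show (√δ * ρ * √(n : ℝ)) ^ 2 = √δ ^ 2 * √(n : ℝ) ^ 2 * ρ ^ 2 by ring,
      Real.sq_sqrt δ0.le, Real.sq_sqrt hn'.le] at t1
    exact le_of_mul_le_mul_right t1 (by positivity)
  have g1 : β ^ 2 * (1 / lo a L 0) ≤ β ^ 2 * (1 / a 0) + η := by
    have t1 := mul_le_mul_of_nonneg_left (abs_le.1 hG).2 (sq_nonneg β)
    have t2 := mul_le_of_le_one_left η0.le (pow_le_one₀ (n := 2) hβ.1.le hβ.2)
    linarith
  have g2 : qd (cutT a0 T fun _ => lo a L 0) v + (β ^ 2 * (1 / lo a L 0) - 10 * η) * (v ⬝ᵥ v) ≤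
      qd al v := by
    rw [← qd_add_const]
    refine qd_mono (fun i => ?_) v
    have t0 := hal i
    unfold cutT; split_ifs with hi
    · linarith [h0 (ξ i)]
    · have t1 : |Real.tanh (ξ i)| ≤ ρ :=
        not_lt.1 fun hc => hi (Finset.mem_filter.2 ⟨Finset.mem_univ _, hc⟩)
      have t2 := lo_le h0 hL.le 0 (ξ i)
      rw [hρ, le_div_iff₀ hL] at t1
      rw [sub_zero] at t2; linarith
  have g3 := mul_le_mul_of_nonneg_left g2 (show 0 ≤ 1 - κ by linarith)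
  have g4 := not_lt.1 fun hc => hW ⟨T, hTc, v, hc⟩
  have g5 := mul_nonneg η0.le (Eig.dot_self_nonneg v)
  rw [smul_mulVec, dotProduct_smul, smul_eq_mul, zero_div, zero_mul]
  linarith

/-! ### the final forms -/

/-- the cavity field `b = y + J m - β² avg (1 - m²) m` -/
def fld (β : ℝ) (J : Mx n) (y : V n) : V n := Lp.cav (β • J) (β ^ 2) y (mag (ising (β • J) y))

lemma fld_tap {β η M : ℝ} (hβ : β ∈ Ioc (0 : ℝ) 1) {W J : Mx n} (h : Nd η W J) (hW : opn W ≤ 3)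
    {x y : V n} (hx : Ymap (β • W) (β ^ 2) x = y) (hM : nrm (mag (ising (β • W) y) - th x) ≤ M) :
    nrm (fld β J y - x) ≤ 6 * M + 2 := by
  have hJ : opn (β • W) ≤ 3 := by
    rw [opn_smul, abs_of_pos hβ.1]; nlinarith [hβ.2, opn_nonneg W, hβ.1]
  have hm := Lp.G1.cb_mag (Cov15.wt_ising (β • W) y)
  have h1 := Lp.G1.cav_lip hJ ⟨sq_nonneg β, pow_le_one₀ hβ.1.le hβ.2⟩ y (Ymap (β • W) (β ^ 2) x)
    hm (cb_th x)
  rw [Lp.G1.cav_Ymap, hx, sub_self, nrm_zero] at h1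
  rw [fld, h.mag]
  set m := mag (ising (β • W) y)
  obtain ⟨d, rfl, hd, -⟩ := h
  have e : Lp.cav (β • J) (β ^ 2) y m - x =
      (Lp.cav (β • (J + diagonal d)) (β ^ 2) y m - x) - β • (diagonal d *ᵥ m) := by
    simp only [Lp.cav, smul_add, add_mulVec, smul_mulVec]; abel
  have h2 : nrm (diagonal d *ᵥ m) ≤ nrm d := Real.sqrt_le_sqrt (Finset.sum_le_sum fun i _ => by
    rw [mulVec_diagonal, ← sq, ← sq, mul_pow]
    exact mul_le_of_le_one_right (sq_nonneg _) ((sq_le_one_iff_abs_le_one _).2 (hm i)))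
  have h3 := nrm_sub_le (Lp.cav (β • (J + diagonal d)) (β ^ 2) y m - x) (β • (diagonal d *ᵥ m))
  rw [nrm_smul, abs_of_pos hβ.1] at h3
  rw [e]
  nlinarith [hβ.2, nrm_nonneg (diagonal d *ᵥ m), hβ.1]

variable {T : ∀ n, Mx n → Mx n} {β s q : ℝ}

/-- **(ACC)** the cavity field is `O(1)`-close to every TAP solution (`s > 0`) -/
theorem accT (hT : Adm T) (hβ : β ∈ Ioc (0 : ℝ) 1) (hs : 0 < s) : ∃ M : ℝ, 0 ≤ M ∧
    Typ β s fun n W y => (∃ x, Ymap (β • W) (β ^ 2) x = y) ∧ ∀ x, Ymap (β • W) (β ^ 2) x = y →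
      nrm (mag (ising (β • T n W) y) - th x) ≤ M ∧ nrm (fld β (T n W) y - x) ≤ M := by
  obtain ⟨M, -, h⟩ := acc hβ hs
  refine ⟨6 * √M + 2, by positivity, h.mono' ((hT 1 one_pos).and TapPl.whp_opn)
    (.of_forall fun n W y hW hy => ⟨hy.1, fun x hx => ?_⟩)⟩
  have := Real.le_sqrt_of_sq_le (hy.2 x hx)
  exact ⟨by rw [hW.1.mag]; linarith [Real.sqrt_nonneg M], fld_tap hβ hW.1 hW.2 hx this⟩

/-- **(ACC)** the TAP equation for the magnetisation, up to `O(1)` in `ℓ²` (all levels) -/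
theorem accF (hT : Adm T) (hβ : β ∈ Ioc (0 : ℝ) 1) (hs : 0 ≤ s) : ∃ M : ℝ, 0 ≤ M ∧
    Typ β s fun n W y => nrm (th (fld β (T n W) y) - mag (ising (β • T n W) y)) ≤ M := by
  rcases hs.eq_or_lt with rfl | hs
  · refine ⟨0, le_rfl, typ_zero (Top.whp_of_eventually (.of_forall fun n W => ?_))⟩
    have : th (0 : V n) = 0 := funext fun _ => Real.tanh_zero
    simp [fld, TopL.mag_ising_zero, Lp.cav, this, nrm_zero]
  obtain ⟨M, M0, h⟩ := accT hT hβ hs
  refine ⟨2 * M, by positivity, h.mono (.of_forall fun n W y ⟨⟨x, hx⟩, hy⟩ => ?_)⟩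
  have h1 := SE.nrm_th_sub_le (fld β (T n W) y) x
  have h2 := nrm_sub_le (th (fld β (T n W) y) - th x) (mag (ising (β • T n W) y) - th x)
  rw [sub_sub_sub_cancel_right] at h2
  linarith [(hy x hx).1, (hy x hx).2]

lemma atF (hT : Adm T) (hβ : β ∈ Ioc (0 : ℝ) 1) (hs : 0 ≤ s) {P : ∀ n, Mx n → V n → V n → Prop}
    (h : ∃ r > (0 : ℝ), Typ β s fun n W y => ∀ ξ,
      nrm (th ξ - mag (ising (β • T n W) y)) ≤ r * √n → P n W y ξ) :
    Typ β s fun n W y => P n W y (fld β (T n W) y) := by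
  obtain ⟨r, hr, h⟩ := h
  obtain ⟨M, M0, h'⟩ := accF hT hβ hs
  refine (h.and h').mono ?_
  filter_upwards [ev_sq (M := M ^ 2) hr] with n hn W y hy
  exact hy.1 _ (hy.2.trans (abs_le_of_sq_le_sq' hn.2 (by positivity)).2)

/-- **(EMP)**, any field -/
theorem empT (hT : Adm T) (hβ : β ∈ Ioc (0 : ℝ) 1) (hL : Lv β s q) {ψ : ℝ → ℝ}
    (hf : Continuous ψ) (he : ∀ x, ψ (-x) = ψ x) {K : ℝ} (hb : ∀ x, |ψ x| ≤ K) {e : ℝ}
    (he0 : 0 < e) :
    ∃ r > (0 : ℝ), Typ β s fun n W y => ∀ ξ, nrm (th ξ - mag (ising (β • T n W) y)) ≤ r * √n →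
      |avg (fun i => ψ (ξ i)) - gE ψ (s + β ^ 2 * q) (s + β ^ 2 * q)| ≤ e := by
  rcases hL.1.eq_or_lt with rfl | hs
  · obtain ⟨r1, hr1, h1⟩ := emp_lo0 hf (fun x => (abs_le.1 (hb x)).1) he0
    obtain ⟨r2, hr2, h2⟩ := emp_lo0 hf.neg (K := K) (fun x => neg_le_neg (abs_le.1 (hb x)).2) he0
    refine ⟨min r1 r2, lt_min hr1 hr2, typ_zero (Top.whp_of_eventually ?_)⟩
    filter_upwards [eventually_gt_atTop 0] with n hn W ξ hξ
    rw [TopL.mag_ising_zero, sub_zero] at hξ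
    have a1 := h1 n hn ξ (hξ.trans (by gcongr; exact min_le_left _ _))
    have a2 := h2 n hn ξ (hξ.trans (by gcongr; exact min_le_right _ _))
    simp only [avg, Pi.neg_apply, Finset.sum_neg_distrib, neg_div] at a1 a2
    rw [hL.2.2 rfl, mul_zero, add_zero, gE_zero, avg]
    exact abs_le.2 ⟨by linarith, by linarith⟩
  obtain ⟨r, hr, h⟩ := emp hβ hs hL.2.1 hf he hb he0
  exact ⟨r, hr, h.mono' (hT 1 one_pos) (.of_forall fun n W y hW hy => by rwa [hW.mag])⟩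

/-- **(EMP)** at the cavity field -/
theorem empF (hT : Adm T) (hβ : β ∈ Ioc (0 : ℝ) 1) (hL : Lv β s q) {ψ : ℝ → ℝ}
    (hf : Continuous ψ) (he : ∀ x, ψ (-x) = ψ x) {K : ℝ} (hb : ∀ x, |ψ x| ≤ K) {e : ℝ}
    (he0 : 0 < e) : Typ β s fun n W y =>
      |avg (fun i => ψ (fld β (T n W) y i)) - gE ψ (s + β ^ 2 * q) (s + β ^ 2 * q)| ≤ e :=
  atF hT hβ hL.1 (P := fun _ _ _ ξ =>
    |avg (fun i => ψ (ξ i)) - gE ψ (s + β ^ 2 * q) (s + β ^ 2 * q)| ≤ e) (empT hT hβ hL hf he hb he0)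

lemma PosF.nd {κ η C : ℝ} (hβ : β ∈ Ioc (0 : ℝ) 1) {W J : Mx n} (hW : Nd η W J) {al u : V n}
    (h : PosF κ (8 * η) C (β • W) al u) : PosF κ (7 * η) C (β • J) al u := by
  intro v
  obtain ⟨d, rfl, -, hd⟩ := hW
  have h1 := h v
  have h2 : -η * (v ⬝ᵥ v) ≤ β * (v ⬝ᵥ diagonal d *ᵥ v) := by
    rw [dotProduct, dotProduct, Finset.mul_sum, Finset.mul_sum]
    refine Finset.sum_le_sum fun i _ => ?_
    have t1 : -η ≤ β * d i := by
      nlinarith [(abs_le.1 (hd i)).1, hβ.1, hβ.2, (abs_nonneg _).trans (hd i)]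
    rw [mulVec_diagonal]
    nlinarith [mul_self_nonneg (v i)]
  simp only [smul_mulVec, add_mulVec, dotProduct_smul, dotProduct_add, smul_eq_mul] at h1 ⊢
  linarith

/-- **(POS)**, any field, all levels -/
theorem posT (hT : Adm T) (hβ : β ∈ Ioc (0 : ℝ) 1) {a0 : ℝ} (ha : β < a0) :
    ∃ κ η : ℝ, 0 < κ ∧ κ ≤ 1 / 2 ∧ 0 < η ∧ ∀ t0 > (0 : ℝ), ∃ C : ℝ, 0 ≤ C ∧ ∀ s q, Lv β s q →
      (s = 0 ∨ t0 ≤ s) → ∀ a : ℝ → ℝ, Continuous a → (∀ x, a (-x) = a x) → (∀ x, a0 ≤ a x) →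
      ∃ r > (0 : ℝ), Typ β s fun n W y => ∀ ξ,
        nrm (th ξ - mag (ising (β • T n W) y)) ≤ r * √n → ∀ al : V n,
        (∀ i, a (ξ i) + β ^ 2 * gE (fun x => 1 / a x) (s + β ^ 2 * q) (s + β ^ 2 * q) - η ≤ al i) →
        PosF κ η C (β • T n W) al (mag (ising (β • T n W) y)) := by
  obtain ⟨κ, η, κ0, kh, η0, h⟩ := pos hβ ha
  obtain ⟨κ', η', κ0', η0', h'⟩ := pos0 hβ ha
  have a00 : 0 < a0 := hβ.1.trans ha
  set e := min (min η η') a0 with he
  have e0 : 0 < e := by positivity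
  have e1 : e ≤ η := (min_le_left _ _).trans (min_le_left _ _)
  have e2 : e ≤ η' := (min_le_left _ _).trans (min_le_right _ _)
  have e3 : e ≤ a0 := min_le_right _ _
  refine ⟨min κ κ', e, lt_min κ0 κ0', (min_le_left _ _).trans kh, e0, fun t0 ht0 => ?_⟩
  obtain ⟨C, C0, h⟩ := h t0 ht0
  refine ⟨C, C0, fun s q hL hs a hc hev h0 => ?_⟩
  have G0 : 0 ≤ β ^ 2 * gE (fun x => 1 / a x) (s + β ^ 2 * q) (s + β ^ 2 * q) := mul_nonneg
    (sq_nonneg _) (SE.gE_nonneg (fun x => (one_div_pos.2 (a00.trans_le (h0 x))).le) _ _)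
  rcases hs with rfl | hs
  · obtain ⟨r, hr, w⟩ := h' a hc h0
    refine ⟨r, hr, typ_zero ((w.and (hT η' η0')).imp fun n W hW ξ hξ al hal => ?_)⟩
    rw [TopL.mag_ising_zero] at hξ ⊢
    refine ((hW.1 ξ al (by rwa [sub_zero] at hξ) fun i => ?_).nd hβ hW.2).mono
      (fun i => by linarith [hal i, h0 (ξ i)]) (min_le_right _ _) (by linarith) C0
    have := hal i
    rw [hL.2.2 rfl, mul_zero, add_zero, gE_zero] at this
    linarith
  · obtain ⟨r, hr, w⟩ := h s q hs hL.2.1 a hc hev h0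
    refine ⟨r, hr, w.mono' (hT η η0) (.of_forall fun n W y hW hy ξ hξ al hal => ?_)⟩
    rw [hW.mag] at hξ ⊢
    exact ((hy ξ al hξ fun i => by linarith [hal i]).nd hβ hW).mono
      (fun i => by linarith [hal i, h0 (ξ i)]) (min_le_left _ _) (by linarith) le_rfl

/-- **(POS)** at the cavity field -/
theorem posF (hT : Adm T) (hβ : β ∈ Ioc (0 : ℝ) 1) {a0 : ℝ} (ha : β < a0) :
    ∃ κ η : ℝ, 0 < κ ∧ κ ≤ 1 / 2 ∧ 0 < η ∧ ∀ t0 > (0 : ℝ), ∃ C : ℝ, 0 ≤ C ∧ ∀ s q, Lv β s q →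
      (s = 0 ∨ t0 ≤ s) → ∀ a : ℝ → ℝ, Continuous a → (∀ x, a (-x) = a x) → (∀ x, a0 ≤ a x) →
      Typ β s fun n W y => ∀ al : V n, (∀ i, a (fld β (T n W) y i) +
          β ^ 2 * gE (fun x => 1 / a x) (s + β ^ 2 * q) (s + β ^ 2 * q) - η ≤ al i) →
        PosF κ η C (β • T n W) al (mag (ising (β • T n W) y)) := by
  obtain ⟨κ, η, κ0, kh, η0, h⟩ := posT hT hβ ha
  refine ⟨κ, η, κ0, kh, η0, fun t0 ht0 => (h t0 ht0).imp fun C hC =>
    ⟨hC.1, fun s q hL hs a hc he h0 => ?_⟩⟩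
  exact atF hT hβ hL.1 (P := fun n W y ξ => ∀ al : V n, (∀ i, a (ξ i) +
    β ^ 2 * gE (fun x => 1 / a x) (s + β ^ 2 * q) (s + β ^ 2 * q) - η ≤ al i) →
      PosF κ η C (β • T n W) al (mag (ising (β • T n W) y))) (hC.2 s q hL hs a hc he h0)

/-- inversion of `al - J` on a principal block `S`, in the unweighted norm: with
`w = 1_S (al - J) v / (al - μ)` and `v` supported in `S`, `|v|² ≤ C' (|w|² + (m·v)² / n)` -/
theorem PosF.inv {κ η C μ G K : ℝ} {J : Mx n} {al m : V n} (h : PosF κ η C J al m) (hκ : 0 < κ)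
    (hC : 0 ≤ C) (hμ : 0 ≤ κ * μ + η) (hG : 0 < G) (hal : ∀ i, 1 / G ≤ al i - μ)
    (hJ : opn (J - μ • 1) ≤ K) (hm : Cb m) (S : Finset (Fin n)) {v w : V n}
    (hv : ∀ i ∉ S, v i = 0)
    (hw : ∀ i, w i = if i ∈ S then (al i * v i - (J *ᵥ v) i) / (al i - μ) else 0) :
    v ⬝ᵥ v ≤ (2 + 8 * C * G / κ + 2 * (K * G / κ) ^ 2) * (w ⬝ᵥ w) +
      8 * C * G / κ / n * (m ⬝ᵥ v) ^ 2 := by
  have a0 : ∀ i, 0 < al i - μ := fun i => (one_div_pos.2 hG).trans_le (hal i)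
  set B := J - μ • (1 : Mx n) with hB
  set z := v - w with hz
  have e1 : qd (fun i => al i - μ) z = z ⬝ᵥ B *ᵥ v := Finset.sum_congr rfl fun i _ => by
    have := (a0 i).ne'
    simp only [hz, hB, Pi.sub_apply, hw i, sub_mulVec, smul_mulVec, one_mulVec, Pi.smul_apply,
      smul_eq_mul]
    split_ifs with hi
    · field_simp; ring
    · simp [hv i hi]
  have e2 : z ⬝ᵥ B *ᵥ v = z ⬝ᵥ J *ᵥ z - μ * (z ⬝ᵥ z) + z ⬝ᵥ B *ᵥ w := by
    rw [show v = z + w by simp [hz], mulVec_add, dotProduct_add]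
    simp only [hB, sub_mulVec, smul_mulVec, one_mulVec, dotProduct_sub, dotProduct_smul,
      smul_eq_mul]
  have e3 : qd al z = qd (fun i => al i - μ) z + μ * (z ⬝ᵥ z) := by
    rw [← qd_add_const]; simp
  have z0 := Eig.dot_self_nonneg z
  have w0 := Eig.dot_self_nonneg w
  have h1 : 1 / G * (z ⬝ᵥ z) ≤ qd (fun i => al i - μ) z := by
    have := qd_mono (A := fun _ => 0 + 1 / G) (B := fun i => al i - μ) (by simpa using hal) z
    rw [qd_add_const] at this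
    simpa [qd] using this
  have h2 : z ⬝ᵥ B *ᵥ w ≤ nrm z * (K * nrm w) := (le_abs_self _).trans ((abs_dot_le _ _).trans
    (mul_le_mul_of_nonneg_left ((nrm_mulVec_le _ _).trans
      (mul_le_mul_of_nonneg_right hJ (nrm_nonneg _))) (nrm_nonneg _)))
  have h3 : C / n * (m ⬝ᵥ z) ^ 2 ≤ 2 * C / n * (m ⬝ᵥ v) ^ 2 + 2 * C * (w ⬝ᵥ w) := by
    rcases Nat.eq_zero_or_pos n with hn | hn
    · simp only [hn, Nat.cast_zero, div_zero, zero_mul, zero_add]; positivity
    have hn' : (0 : ℝ) < n := by positivity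
    have t1 : (m ⬝ᵥ w) ^ 2 ≤ n * (w ⬝ᵥ w) := by
      rw [← sq_abs, ← nrm_sq]
      refine (pow_le_pow_left₀ (abs_nonneg _) (abs_dot_le _ _) 2).trans ?_
      rw [mul_pow, nrm_sq m, dot_eq m]
      refine mul_le_mul_of_nonneg_right ((Finset.sum_le_sum fun i _ =>
        (sq_le_one_iff_abs_le_one _).2 (hm i)).trans_eq (by simp)) (sq_nonneg _)
    have t2 : (m ⬝ᵥ z) ^ 2 ≤ 2 * (m ⬝ᵥ v) ^ 2 + 2 * (n * (w ⬝ᵥ w)) := by
      rw [hz, dotProduct_sub]; nlinarith [sq_nonneg (m ⬝ᵥ v + m ⬝ᵥ w)]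
    refine (mul_le_mul_of_nonneg_left t2 (by positivity)).trans_eq ?_
    field_simp
  have h4 : κ / G * (z ⬝ᵥ z) ≤
      2 * C / n * (m ⬝ᵥ v) ^ 2 + 2 * C * (w ⬝ᵥ w) + nrm z * (K * nrm w) := by
    have t1 := h z
    have t2 := mul_le_mul_of_nonneg_left h1 hκ.le
    have t3 := mul_nonneg hμ z0
    rw [e3] at t1
    rw [show κ / G * (z ⬝ᵥ z) = κ * (1 / G * (z ⬝ᵥ z)) by ring]
    nlinarith
  have h5 : z ⬝ᵥ z ≤ G / κ * (2 * C / n * (m ⬝ᵥ v) ^ 2 + 2 * C * (w ⬝ᵥ w)) +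
      nrm z * (K * G / κ * nrm w) := by
    have := mul_le_mul_of_nonneg_left h4 (show 0 ≤ G / κ by positivity)
    refine le_trans (le_of_eq ?_) (this.trans_eq (by ring))
    field_simp
  have h6 : v ⬝ᵥ v ≤ 2 * (z ⬝ᵥ z) + 2 * (w ⬝ᵥ w) := by
    have := Eig.dot_self_nonneg (z - w)
    rw [show v = z + w by simp [hz]]
    simp only [add_dotProduct, dotProduct_add, sub_dotProduct, dotProduct_sub] at this ⊢
    linarith
  have h7 := sq_nonneg (nrm z - K * G / κ * nrm w)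
  rw [sub_sq, mul_pow, nrm_sq, nrm_sq] at h7
  have e4 : (2 + 8 * C * G / κ + 2 * (K * G / κ) ^ 2) * (w ⬝ᵥ w) +
      8 * C * G / κ / n * (m ⬝ᵥ v) ^ 2 = 2 * (w ⬝ᵥ w) + 2 * ((K * G / κ) ^ 2 * (w ⬝ᵥ w)) +
        4 * (G / κ * (2 * C / n * (m ⬝ᵥ v) ^ 2 + 2 * C * (w ⬝ᵥ w))) := by ring
  rw [e4]; linarith


end Crest.Agent.T157.Pos

end
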