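import Crest.Agent.T157.RipB_25
import Crest.Agent.T157.ConcHW_16
import Crest.Agent.T157.PosE_23
import Crest.Agent.T157.TyF_23
import Crest.Agent.T157.Cav_35

-- ▼ part T157/RipC_25
section

/-!
# Row 157, part B (helper25): restricted isometry, perturbations, closedness, Gaussian vectors
-/

set_option autoImplicit false
set_option maxHeartbeats 400000
set_option linter.unusedSectionVars false
set_option linter.unusedVariables false

noncomputable section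

namespace Crest.Agent.T157.Rip

open Matrix Finset MeasureTheory Filter
open Crest.Agent.T157.Eig Crest.Agent.T157.Cond Crest.Agent.T157.Uw
open Crest.Agent.T157.E (gv)

variable {ι : Type*} [Fintype ι] [DecidableEq ι]
variable {s R m ε ε' δ : ℝ} {J J' : Matrix ι ι ℝ} {A F F' : Set (ι → ℝ)} {k : ℕ} {x y : ι → ℝ}

lemma FlV.mono (h : FlV s J A k m ε x) (he : ε ≤ ε') : FlV s J A k m ε' x :=
  fun l h1 h2 => (h l h1 h2).mono le_rfl he

lemma FlV.add (h : FlV s J A k m ε x) (h' : FlV s J A k m ε' y) :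
    FlV s J A k m (ε + ε') (x + y) := fun l h1 h2 => by
  rw [mulVec_add]; exact (h l h1 h2).add (h' l h1 h2)

lemma FlV.smul (h : FlV s J A k m ε x) {c C : ℝ} (hc : |c| ≤ C) (he : 0 ≤ ε) :
    FlV s J A k m (C * ε) (c • x) := fun l h1 h2 => by
  rw [mulVec_smul]; exact (h l h1 h2).smul hc he

/-- **a perturbation of small operator norm** (for example a small diagonal) -/
theorem RIP.small (h : RIP s J A F k m ε) (hs : s ^ 2 * Fintype.card ι ≤ 1) (hR : opn J ≤ R)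
    (hR' : opn J' ≤ R) (hA : BdS A) (hF : ∀ f ∈ F, nrm f ≤ 1) (hd : opn (J' - J) ≤ δ) :
    RIP s J' A F k m (ε + (k + 1) * (1 + R) ^ (k + 1) * ((1 + R) ^ k * δ)) := by
  have R0 : 0 ≤ R := (opn_nonneg _).trans hR
  have δ0 : 0 ≤ δ := (opn_nonneg _).trans hd
  refine h.perturb hs hR' hA hF (by positivity) fun y l h1 h2 => fl_of_nrm ?_
  refine (nrm_V hs hR (h2.bd hA) h1 _).1.trans ?_
  rw [mul_assoc]
  exact mul_le_mul_of_nonneg_left ((nrm_mulVec_le _ _).trans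
    (mul_le_mul_of_nonneg_right hd (nrm_nonneg _))) (by positivity)

/-- **a perturbation of low rank** along flat vectors -/
theorem RIP.lowrank (h : RIP s J A F k m ε) (hs : s ^ 2 * Fintype.card ι ≤ 1) (hJ : opn J ≤ 3)
    (hA : BdS A) (he : 0 ≤ ε) {e z u : ι → ℝ} (fe : Fl m ε e) (fz : Fl m ε z) (fu : Fl m ε u)
    (ne : nrm e ≤ 1) (nz : nrm z ≤ 1) (nu : nrm u ≤ 1) (me : e ∈ F)
    (mA : ∀ a ∈ A, a * e ∈ F ∧ a * z ∈ F ∧ a * u ∈ F) (hF' : F' ⊆ F) (nF : ∀ f ∈ F', nrm f ≤ 1)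
    {C : ℝ} (C0 : 0 ≤ C) (hH : ∀ y, ∃ c1 c2 c3 c4 : ℝ, |c1| ≤ C * nrm y ∧ |c2| ≤ C * nrm y ∧
      |c3| ≤ C * nrm y ∧ |c4| ≤ C * nrm y ∧
      (J' - J) *ᵥ y = c1 • z + c2 • e + c3 • (J *ᵥ e) + c4 • u) :
    opn J' ≤ 3 + 6 * C ∧
      RIP s J' A F' k m (ε + (k + 1) * (1 + (3 + 6 * C)) ^ (k + 1) * (5 * C * ε)) := by
  have hR : opn J' ≤ 3 + 6 * C := by
    have h1 : opn (J' - J) ≤ 6 * C := opn_le_of_nrm (by positivity) fun y => by
      obtain ⟨c1, c2, c3, c4, a1, a2, a3, a4, e1⟩ := hH y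
      have b : ∀ {c r : ℝ} {w : ι → ℝ}, |c| ≤ C * nrm y → nrm w ≤ r →
          nrm (c • w) ≤ C * nrm y * r := fun h1 h2 => by
        rw [nrm_smul]; exact mul_le_mul h1 h2 (nrm_nonneg _) ((abs_nonneg _).trans h1)
      have b3 : nrm (J *ᵥ e) ≤ 3 := (nrm_mulVec_le _ _).trans
        (by nlinarith [nrm_nonneg e, opn_nonneg J])
      rw [e1]
      linarith [nrm_add_le (c1 • z + c2 • e + c3 • (J *ᵥ e)) (c4 • u),
        nrm_add_le (c1 • z + c2 • e) (c3 • (J *ᵥ e)), nrm_add_le (c1 • z) (c2 • e),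
        b a1 nz, b a2 ne, b a3 b3, b a4 nu]
    have h2 := opn_add_le (J' - J) J
    rw [sub_add_cancel] at h2
    linarith
  refine ⟨hR, (h.mono subset_rfl hF' le_rfl le_rfl le_rfl).perturb hs hR hA nF (by positivity)
    fun y => ?_⟩
  obtain ⟨c1, c2, c3, c4, a1, a2, a3, a4, e1⟩ := hH y
  have v2 := h.flV fe fun a ha => (mA a ha).1
  rw [e1]
  refine (((((h.flV fz fun a ha => (mA a ha).2.1).smul a1 he).add (v2.smul a2 he)).add
    ((h.flV_J hs he hA v2 me).smul a3 (by positivity))).add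
    ((h.flV fu fun a ha => (mA a ha).2.2).smul a4 he)).mono (le_of_eq (by ring))

/-! ### closedness -/

section closed
variable {X κ κ' : Type*} [TopologicalSpace X]

lemma cont_VU' {Jx : X → Matrix ι ι ℝ} (hJ : Continuous Jx) (s : ℝ) : ∀ l : List (X → ι → ℝ),
    (∀ a ∈ l, Continuous a) → (Continuous fun x => Vk s (Jx x) (l.map fun a => a x)) ∧
      Continuous fun x => Uk s (Jx x) (l.map fun a => a x)
  | [], _ => ⟨continuous_const, continuous_const⟩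
  | a :: l, h => by
    obtain ⟨h1, h2⟩ := cont_VU' hJ s l fun b hb => h b (List.mem_cons_of_mem _ hb)
    have ha := h a List.mem_cons_self
    have h3 : Continuous fun x => eta s (a x) := by unfold eta; fun_prop
    exact ⟨(hJ.matrix_mul (ha.matrix_diagonal.matrix_mul h1)).sub (h3.smul h2),
      ha.matrix_diagonal.matrix_mul h1⟩

lemma in_range {g : κ → ι → ℝ} {l : List (ι → ℝ)} (h : In (Set.range g) l) :
    ∃ L : List κ, l = L.map g := by
  induction l with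
  | nil => exact ⟨[], rfl⟩
  | cons a l ih =>
    obtain ⟨L, rfl⟩ := ih (in_cons.1 h).2
    obtain ⟨j, rfl⟩ := (in_cons.1 h).1
    exact ⟨j :: L, rfl⟩

lemma isClosed_RIP {Jx : X → Matrix ι ι ℝ} (hJ : Continuous Jx) {α : κ → X → ι → ℝ}
    {φ : κ' → X → ι → ℝ} (hα : ∀ j, Continuous (α j)) (hφ : ∀ j, Continuous (φ j)) (s : ℝ) (k : ℕ)
    (m ε : ℝ) : IsClosed {x | RIP s (Jx x) (Set.range fun j => α j x) (Set.range fun j => φ j x)
      k m ε} := by
  have hW : ∀ L : List κ, Continuous fun x => Wk s (Jx x) (L.map fun j => α j x) := fun L => by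
    have := (cont_VU' hJ s (L.map α ++ [fun _ => 1]) (by
      intro a ha
      rcases List.mem_append.1 ha with h | h
      · obtain ⟨j, -, rfl⟩ := List.mem_map.1 h
        exact hα j
      · rw [List.mem_singleton.1 h]; exact continuous_const)).1
    simpa [Wk, Function.comp_def] using this
  have e : {x | RIP s (Jx x) (Set.range fun j => α j x) (Set.range fun j => φ j x) k m ε} =
      ⋂ (L : List κ) (_ : L.length ≤ k) (v : ι → ℝ) (_ : Sp m v),
        (⋂ (u : ι → ℝ) (_ : Sp m u),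
          {x | |v ⬝ᵥ Wk s (Jx x) (L.map fun j => α j x) *ᵥ u| ≤ ε * nrm u * nrm v}) ∩
        ⋂ j, {x | |v ⬝ᵥ Wk s (Jx x) (L.map fun j => α j x) *ᵥ φ j x| ≤ ε * nrm v} := by
    ext x
    simp only [Set.mem_iInter, Set.mem_inter_iff, Set.mem_ofPred_eq]
    refine ⟨fun h L hL v hv => ?_, fun h => ⟨fun l h1 h2 u hu v hv => ?_,
      fun l h1 h2 f hf v hv => ?_⟩⟩
    · have h2 : In (Set.range fun j => α j x) (L.map fun j => α j x) := fun a ha => by
        obtain ⟨j, -, rfl⟩ := List.mem_map.1 ha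
        exact ⟨j, rfl⟩
      exact ⟨fun u hu => h.sp _ (by simpa using hL) h2 u hu v hv,
        fun j => h.fl _ (by simpa using hL) h2 _ ⟨j, rfl⟩ v hv⟩
    · obtain ⟨L, rfl⟩ := in_range h2
      exact (h L (by simpa using h1) v hv).1 u hu
    · obtain ⟨L, rfl⟩ := in_range h2
      obtain ⟨j, rfl⟩ := hf
      exact (h L (by simpa using h1) v hv).2 j
  rw [e]
  refine isClosed_iInter fun L => isClosed_iInter fun _ => isClosed_iInter fun v =>
    isClosed_iInter fun _ => IsClosed.inter (isClosed_iInter fun u => isClosed_iInter fun _ =>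
      isClosed_le (continuous_const.dotProduct ((hW L).matrix_mulVec continuous_const)).abs
        continuous_const) (isClosed_iInter fun j => isClosed_le
      (continuous_const.dotProduct ((hW L).matrix_mulVec (hφ j))).abs continuous_const)

end closed

universe u

/-- **a Gaussian vector is flat** -/
theorem gauss_fl (hε : 0 < ε) : ∃ δ > (0 : ℝ), ∀ (ι : Type u) [Fintype ι] [DecidableEq ι],
    (gv ι).real {z | ¬ Fl (δ * Fintype.card ι) (ε * √(Fintype.card ι)) z} ≤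
      2 * Real.exp (-(ε ^ 2 / 16 * Fintype.card ι)) := by
  classical
  set t : ℝ := min (ε ^ 2 / 32) 1 with ht
  have t0 : 0 < t := by positivity
  have t1 : t ≤ 1 := min_le_right _ _
  have t2 : t ≤ ε ^ 2 / 32 := min_le_left _ _
  have l0 : 0 < Real.log (5 / t) := Real.log_pos ((one_lt_div t0).2 (by linarith))
  refine ⟨ε ^ 2 / (32 * Real.log (5 / t)), by positivity, fun ι _ _ => ?_⟩
  set δ : ℝ := ε ^ 2 / (32 * Real.log (5 / t)) with hδ
  choose Nt c2 c3 c4 using fun T : Finset ι => Nrm.exists_half_net T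
  set n : ℝ := (Fintype.card ι : ℝ) with hn'
  have n0 : 0 ≤ n := Nat.cast_nonneg _
  set TT := univ.filter fun T : Finset ι => (T.card : ℝ) ≤ δ * n with hTT
  have hsub : {z : ι → ℝ | ¬ Fl (δ * n) (ε * √n) z} ⊆ ⋃ T ∈ TT, ⋃ c ∈ Nt T,
      {z | ε * √n / 2 ≤ |ex0 T c ⬝ᵥ z|} := by
    intro z hz
    by_contra h
    simp only [Set.mem_ofPred_eq, Set.mem_iUnion, not_exists, not_le] at h
    refine hz fun v ⟨T, b1, b2⟩ => ?_
    have h5 := Nrm.nrm_le_of_net (c4 T) (w := fun i : T => z i) (M := ε * √n / 2) fun c hc => by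
      rw [← ex0_dot]
      exact (le_abs_self _).trans (h T (mem_filter.2 ⟨mem_univ _, b1⟩) c hc).le
    rw [← ex0_res b2, ex0_dot, nrm_ex0]
    refine (abs_dot_le _ _).trans ?_
    nlinarith [mul_le_mul_of_nonneg_left h5 (nrm_nonneg fun i : T => v i)]
  have hT : ∀ T ∈ TT, (gv ι).real (⋃ c ∈ Nt T, {z | ε * √n / 2 ≤ |ex0 T c ⬝ᵥ z|}) ≤
      2 * Real.exp (-(ε ^ 2 / 8 * n)) * 5 ^ T.card := fun T _ => by
    refine (measureReal_biUnion_finset_le _ _).trans ((sum_le_card_nsmul _ _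
      (2 * Real.exp (-(ε ^ 2 / 8 * n))) fun c hc => ?_).trans ?_)
    · have h1 : ∑ i, ex0 T c i ^ 2 ≤ 1 := by
        have h2 := c3 T c hc
        rw [← nrm_ex0, nrm_le_iff zero_le_one, one_pow] at h2
        simpa [dotProduct, sq] using h2
      refine (Conc.lin_tail Conc.sg1_gauss _ h1 (by positivity)).trans (le_of_eq ?_)
      rw [div_pow, mul_pow, Real.sq_sqrt n0]
      congr 2
      ring
    · rw [nsmul_eq_mul, mul_comm]
      refine mul_le_mul_of_nonneg_left ?_ (by positivity)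
      exact_mod_cast (by simpa using c2 T : (Nt T).card ≤ 5 ^ T.card)
  refine (measureReal_mono hsub (measure_ne_top _ _)).trans
    (((measureReal_biUnion_finset_le _ _).trans (sum_le_sum hT)).trans ?_)
  rw [← mul_sum, mul_assoc]
  refine mul_le_mul_of_nonneg_left ((mul_le_mul_of_nonneg_left
    (sum_small (ι := ι) (m := δ * n) t0 (show t ≤ 5 by linarith)) (Real.exp_pos _).le).trans ?_)
    zero_le_two
  rw [← Real.exp_add]
  have : δ * n * Real.log (5 / t) = ε ^ 2 / 32 * n := by rw [hδ]; field_simp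
  exact Real.exp_le_exp.2 (by nlinarith)

end Crest.Agent.T157.Rip
end
end

-- ▼ part T157/RipD_25
section

/-!
# Row 157, part B (helper25): uniform Kac-Rice transfer, joint transfer with small posterior mass

`krU` is `Pos.kr` of helper23 (same proof) with constants that do not depend on the event.
-/

set_option autoImplicit false
set_option linter.unusedVariables false

noncomputable section

namespace Crest.Agent.T157.Rip

open MeasureTheory ProbabilityTheory Matrix Filter Set Topology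
open Crest.ProbabilityR.SpinGlassDynamics
open Crest.Agent.T157.E Crest.Agent.T157.Eig Crest.Agent.T157.Cond Crest.Agent.T157.Tap
open Crest.Agent.T157.SL Crest.Agent.T157.Pos

variable {n : ℕ}

open Kr50 in
/-- **generic Kac-Rice transfer**, uniform in the event -/
theorem krU {β s q ε1 κ1 : ℝ}
    (hβ : β ∈ Ioc (0 : ℝ) 1) (hs0 : 0 < s) (hq : IsQ β s q) (hε1 : 0 < ε1) (hκ1 : 0 < κ1) :
    ∃ c' > (0 : ℝ), ∃ ε > (0 : ℝ), ∃ κ > (0 : ℝ), ∀ᶠ n : ℕ in atTop,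
      ∀ B : Set (Mx n × V n), MeasurableSet B →
      Ref n {z | |aS (xv β s q q z.1.1 z.1.2) - q| ≤ ε1 ∧
        (glueW β (xv β s q q z.1.1 z.1.2) z.1.2 z.2, xv β s q q z.1.1 z.1.2) ∈ B} ≤
          ENNReal.ofReal (Real.exp (-κ1 * n)) →
      ((GOE n).prod (gv (Fin n))) {z | opn (plW β z.1 1) ≤ 3 ∧ DET (plW β z.1 1) β c' ε ∧
        ∃ x, Ymap (β • plW β z.1 1) (β ^ 2) x = s • (1 : V n) + Real.sqrt s • z.2 ∧
          (z.1, x) ∈ B} ≤ ENNReal.ofReal (Real.exp (-κ * n)) := by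
  have hβ' : β ∈ Icc (0 : ℝ) 1 := ⟨hβ.1.le, hβ.2⟩
  obtain ⟨ν, hν, hqν⟩ := isQ_strong seStmt hβ' hs0 hq
  obtain ⟨am1, ham1, κ2, hκ2, hH2⟩ := hoefStmt.2 s hs0
  obtain ⟨a, ha, haq⟩ := seStmt.2.1 s hs0
  have hqa : a ≤ q := by
    have := haq (s + β ^ 2 * q) (s + β ^ 2 * q) (by
      have := mul_nonneg (sq_nonneg β) hq.1.1
      linarith)
    rwa [← hq.2] at this
  set am : ℝ := min am1 a with ham
  have ham0 : 0 < am := by positivity
  obtain ⟨C, hC0⟩ := cellStmt β hβ' s hs0 am ham0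
  set ε0 : ℝ := min (min ε1 (am / 2)) (κ1 / 2 / (|C| + 1)) with hε0
  have hε0p : 0 < ε0 := by positivity
  have hε01 : ε0 ≤ ε1 := (min_le_left _ _).trans (min_le_left _ _)
  have hε02 : ε0 ≤ am / 2 := (min_le_left _ _).trans (min_le_right _ _)
  have hε03 : ε0 ≤ κ1 / 2 / (|C| + 1) := min_le_right _ _
  rw [le_div_iff₀ (by positivity)] at hε03
  obtain ⟨ε, hε, hεε0, κ3, hκ3, hfar⟩ := far cellStmt ramStmt hoefStmt hβ' hs0 ham0 hν hε0p hqν
  obtain ⟨F, hFK, hFfin, hFcov⟩ := Metric.finite_approx_of_totallyBounded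
    ((isCompact_Icc (a := am) (b := 1)).prod ((isCompact_Icc (a := (-1 : ℝ)) (b := 1)).prod
      (isCompact_Icc (a := (-6 : ℝ)) (b := 6)))).totallyBounded ε hε
  classical
  set F' : Finset (ℝ × ℝ × ℝ) := hFfin.toFinset.filter
    fun p => ε0 / 2 ≤ |p.2.2| ∨ ε0 / 2 ≤ |p.1 - q| + |p.2.1 - q| with hF'
  set κ : ℝ := min (min (κ1 / 2) κ2) κ3 with hκ
  have hκp : 0 < κ := by positivity
  have hk1 : κ ≤ κ1 / 2 := (min_le_left _ _).trans (min_le_left _ _)
  have hk2 : κ ≤ κ2 := (min_le_left _ _).trans (min_le_right _ _)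
  have hk3 : κ ≤ κ3 := min_le_right _ _
  refine ⟨am, ham0, ε, hε, κ / 2, by positivity, ?_⟩
  filter_upwards [ev_exp (3 + 4 * F'.card) hκp, eventually_gt_atTop 0] with n hev hn B hBm hSF
  have hn' : (0 : ℝ) < n := by positivity
  set H : Set (V n) := {g | 2 * Real.sqrt n < nrm g ∨ ∃ (J : Mx n) (b : ℝ) (x : V n), opn J ≤ 3 ∧
      b ∈ Icc (0 : ℝ) 1 ∧ Ymap J b x = s • (1 : V n) + Real.sqrt s • g ∧ aS x < am1} with hHd
  have hmono : ∀ {k : ℝ}, κ ≤ k → Real.exp (-k * n) ≤ Real.exp (-κ * n) := fun hk =>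
    Real.exp_le_exp.2 (by nlinarith)
  have b1 : ((GOE n).prod (gv (Fin n))) {z | z.2 ∈ H} ≤ ENNReal.ofReal (2 * Real.exp (-κ * n)) :=
    (prod_snd_le _ _ (fun z hz => hz)).trans ((hH2 n hn).trans
      (ENNReal.ofReal_le_ofReal (by linarith [hmono hk2])))
  have b2 : ((GOE n).prod (gv (Fin n))) (cellE n β s ε0 am q q 0 B) ≤
      ENNReal.ofReal (Real.exp (-κ * n)) := by
    refine (hC0 n ε0 am q q 0 B hn hε0p hε02 ⟨(min_le_right _ _).trans hqa, hq.1.2⟩ (by simp)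
      hBm).trans (ofReal_mul_le (Real.exp_pos _).le
        ((measure_mono fun z hz => ?_).trans hSF) ?_)
    · obtain ⟨h1, -, -, h3⟩ := hz
      exact ⟨h1.trans hε01, h3⟩
    · rw [← Real.exp_add]
      refine Real.exp_le_exp.2 ?_
      have : C * ε0 ≤ |C| * ε0 := mul_le_mul_of_nonneg_right (le_abs_self _) hε0p.le
      nlinarith
  have b3 : ((GOE n).prod (gv (Fin n))) (⋃ p ∈ F', cellE n β s ε am p.1 p.2.1 p.2.2 univ) ≤
      ENNReal.ofReal (F'.card * (4 * Real.exp (-κ * n))) := by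
    refine (measure_biUnion_finset_le _ _).trans ?_
    rw [ENNReal.ofReal_mul (Nat.cast_nonneg _), ENNReal.ofReal_natCast, ← nsmul_eq_mul]
    refine Finset.sum_le_card_nsmul _ _ _ fun p hp => ?_
    rw [hF', Finset.mem_filter, Finite.mem_toFinset] at hp
    have h1 := hFK hp.1
    refine (hfar n am p.1 p.2.1 p.2.2 hn h1.1 ?_ hp.2).trans
      (ENNReal.ofReal_le_ofReal (by linarith [hmono hk3]))
    exact abs_le.2 ⟨by linarith [h1.2.2.1], by linarith [h1.2.2.2]⟩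
  calc _ ≤ ((GOE n).prod (gv (Fin n))) (({z | z.2 ∈ H} ∪ cellE n β s ε0 am q q 0 B) ∪
        ⋃ p ∈ F', cellE n β s ε am p.1 p.2.1 p.2.2 univ) := by
        refine measure_mono fun z hz => ?_
        obtain ⟨h1, h2, x, h3, h4⟩ := hz
        by_cases hzH : z.2 ∈ H
        · exact Or.inl (Or.inl hzH)
        simp only [hHd, mem_ofPred_eq, not_or, not_lt, not_exists, not_and] at hzH
        obtain ⟨h5, h6⟩ := hzH
        have h7 : am ≤ aS x := (min_le_left _ _).trans (h6 _ _ x (by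
          rw [opn_smul, abs_of_nonneg hβ'.1]
          nlinarith [opn_nonneg (plW β z.1 1), hβ.2, hβ.1])
          ⟨sq_nonneg β, pow_le_one₀ hβ'.1 hβ.2⟩ h3)
        have h8 : avg (DD (th x)) ≤ 1 - am := by rw [avg_DD hn]; linarith
        have h9 := abs_SW_le hn hβ' h1 (ham0.trans_le h7)
        by_cases hcen : |aS x - q| ≤ ε0 ∧ |bS x - q| ≤ ε0 ∧ |SW β z.1 x - 0| ≤ ε0
        · exact Or.inl (Or.inr ⟨h1, DET_mono h2 (by linarith), h5, x, h3, h8, hcen.1, hcen.2.1,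
            hcen.2.2, h4⟩)
        have h10 : (aS x, bS x, SW β z.1 x) ∈ Icc am 1 ×ˢ Icc (-1 : ℝ) 1 ×ˢ Icc (-6 : ℝ) 6 :=
          ⟨⟨h7, aS_le_one x⟩, abs_le.1 (abs_bS_le x), abs_le.1 h9⟩
        obtain ⟨p, hpF, hp⟩ := mem_iUnion₂.1 (hFcov h10)
        rw [Metric.mem_ball, Prod.dist_eq, Prod.dist_eq, max_lt_iff, max_lt_iff, Real.dist_eq,
          Real.dist_eq, Real.dist_eq] at hp
        obtain ⟨p1, p2, p3⟩ := hp
        dsimp only at p1 p2 p3
        refine Or.inr (mem_iUnion₂.2 ⟨p, ?_, h1, h2, h5, x, h3, h8, p1.le, p2.le, p3.le, mem_univ _⟩)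
        rw [hF', Finset.mem_filter, Finite.mem_toFinset]
        refine ⟨hpF, ?_⟩
        by_contra hcon
        push Not at hcon
        obtain ⟨q1, q2⟩ := hcon
        have r1 := abs_sub_le (aS x) p.1 q
        have r2 := abs_sub_le (bS x) p.2.1 q
        have r3 := abs_sub_le (SW β z.1 x) p.2.2 0
        rw [sub_zero p.2.2] at r3
        have r4 := abs_nonneg (p.1 - q)
        have r5 := abs_nonneg (p.2.1 - q)
        exact hcen ⟨by linarith, by linarith, by linarith⟩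
    _ ≤ ENNReal.ofReal (2 * Real.exp (-κ * n)) + ENNReal.ofReal (Real.exp (-κ * n)) +
        ENNReal.ofReal (F'.card * (4 * Real.exp (-κ * n))) :=
        (measure_union_le _ _).trans (add_le_add ((measure_union_le _ _).trans (add_le_add b1 b2)) b3)
    _ ≤ _ := by
        rw [← ENNReal.ofReal_add (by positivity) (by positivity),
          ← ENNReal.ofReal_add (by positivity) (by positivity)]
        exact ENNReal.ofReal_le_ofReal (by linarith)
/-- posterior mass of a joint event -/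
lemma law_post' (J : Mx n) {s c : ℝ} (hs : 0 ≤ s) (hc : 0 < c) {A : Cube n → Set (V n)}
    (hA : ∀ σ, MeasurableSet (A σ)) :
    (law sv (ising J 0) s).real {y | c ≤ mean (ising J y) fun σ => (A σ).indicator 1 y} ≤
      c⁻¹ * mean (ising J 0) fun σ => px sv s (A σ) σ := by
  have hF : ∀ σ, MG ((A σ).indicator (1 : V n → ℝ)) := fun σ => (MG.const 1).indicator (hA σ)
  have h1 := mg_mean (φ := sv) (Cov15.wt_ising J 0) s hF
  have h2 := bayes (φ := sv) (Cov15.wt_ising J 0) hs (SInt.of_mg hF)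
  simp only [mean_post_sv, Cov15.tilt0] at h1 h2
  have h3 := Cov15.law_markov (J := J) (s := s) (h1.const_mul c⁻¹) fun y =>
    mul_nonneg (inv_pos.2 hc).le ((Cov15.wt_ising J y).mean_nonneg fun σ =>
      indicator_nonneg (fun _ _ => zero_le_one) y)
  rw [slE_const_mul, ← h2, slE_eq_mean] at h3
  have e : ∀ σ : Cube n, ∫ z, (A σ).indicator (1 : V n → ℝ) (s • sv σ + √s • z) ∂Gs (Fin n) =
      px sv s (A σ) σ := fun σ => by
    rw [px, ← integral_indicator_one (hA σ), integral_map (by fun_prop)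
      (measurable_one.indicator (hA σ)).aestronglyMeasurable]
  simp only [e] at h3
  refine le_trans (le_of_eq ?_) h3
  congr 1; ext y; simp only [mem_ofPred_eq]; rw [le_inv_mul_iff₀ hc, mul_one]

/-- the posterior mass of `{σ | ¬ P}` is exponentially small, for typical fields -/
def TypS (β s κ : ℝ) (P : ∀ n, Mx n → V n → Cube n → Prop) : Prop :=
  Top.Whp GOE fun n W => (law sv (ising (β • W) 0) s).real {y | Real.exp (-κ * n) ≤
    mean (ising (β • W) y) ({σ | ¬ P n W y σ}.indicator 1)} ≤ Real.exp (-κ * n)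

/-- **joint transfer** -/
theorem joint' {β s κ : ℝ} (hβ : β ∈ Icc (0 : ℝ) 1) (hs : 0 ≤ s) (hκ : 0 < κ)
    {A : ∀ n, Cube n → Set (Mx n × V n)} (hA : ∀ n σ, MeasurableSet (A n σ))
    (h : ∀ᶠ n : ℕ in atTop, ∀ σ : Cube n, ((GOE n).prod (gv (Fin n)))
      {z | (plW β z.1 (sv σ), s • sv σ + Real.sqrt s • z.2) ∈ A n σ} ≤
        ENNReal.ofReal (Real.exp (-κ * n))) :
    TypS β s (κ / 4) fun n W y σ => (W, y) ∉ A n σ := by
  have h1 := Pl.tendsto_LRW_lt_rpow hβ.1 hβ.2 (a := κ / 4) (c := 1) (by positivity) one_pos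
  refine Top.whp_of_real_le ((h1.add (TapPl.tendsto_exp_neg (κ := κ / 4) (by positivity))).trans_eq
    (by simp)) ?_
  filter_upwards [h] with n hn
  refine le_trans (measureReal_mono fun W hW => ?_) ((transfer_joint β s (hA n)
    (Real.exp_pos (-(κ / 2) * n)) (Real.exp_pos (-(κ / 4 * (n : ℝ) ^ (1 : ℝ))))
    (δ := Real.exp (-κ * n))
      fun σ => ENNReal.toReal_le_of_le_ofReal (Real.exp_pos _).le (hn σ)).trans_eq ?_)
  · have h2 := law_post' (β • W) hs (Real.exp_pos (-(κ / 4) * n))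
      (A := fun σ => {y | (W, y) ∈ A n σ}) fun σ => measurable_prodMk_left (hA n σ)
    have e : ∀ y, ({σ | ¬ (W, y) ∉ A n σ}.indicator 1 : Cube n → ℝ) =
        fun σ => {y | (W, y) ∈ A n σ}.indicator 1 y := fun y => funext fun σ => by
      classical simp [indicator_apply]
    simp only [mem_ofPred_eq, not_le, e] at hW ⊢
    have h3 := hW.trans_le h2
    rw [lt_inv_mul_iff₀ (Real.exp_pos _), ← Real.exp_add] at h3
    exact le_trans (le_of_eq (by congr 1; ring)) h3.le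
  · rw [← Real.exp_add, ← Real.exp_sub, Real.rpow_one]
    congr 2
    ring

lemma ind_le {P Q : Cube n → Prop} (h : ∀ σ, P σ → Q σ) (σ : Cube n) :
    ({σ | ¬ Q σ}.indicator 1 : Cube n → ℝ) σ ≤ {σ | ¬ P σ}.indicator 1 σ :=
  indicator_le_indicator_of_subset (s := {σ | ¬ Q σ}) (t := {σ | ¬ P σ})
    (fun σ hσ h' => hσ (h σ h')) (fun _ => zero_le_one) σ

lemma TypS.mono' {β s κ : ℝ} {P Q : ∀ n, Mx n → V n → Cube n → Prop} (h : TypS β s κ P)
    {R : ∀ n, Mx n → Prop} (hR : Top.Whp GOE R)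
    (hPQ : ∀ᶠ n in atTop, ∀ W y σ, R n W → P n W y σ → Q n W y σ) : TypS β s κ Q := by
  refine (h.and hR).mono (hPQ.mono fun n hn W hW => le_trans ?_ hW.1)
  have := isProb_law (φ := sv) (s := s) (Cov15.wt_ising (β • W) 0)
  refine measureReal_mono fun y hy => le_trans hy ((Cov15.wt_ising _ _).mean_mono fun σ => ?_)
  exact ind_le (fun σ => hn W y σ hW.2) σ

/-- combination with a typical property of the field -/
lemma TypS.mono_typ {β s κ : ℝ} (hκ : 0 < κ) {P Q : ∀ n, Mx n → V n → Cube n → Prop}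
    (h : TypS β s κ P) {R : ∀ n, Mx n → V n → Prop} (hR : Typ β s R)
    (hPQ : ∀ᶠ n in atTop, ∀ W y σ, R n W y → P n W y σ → Q n W y σ) :
    ∃ κ' > (0 : ℝ), TypS β s κ' Q := by
  obtain ⟨κ1, h1, hR⟩ := hR
  have h0 := lt_min hκ h1
  refine ⟨min κ κ1 / 2, by positivity, (h.and hR).mono ?_⟩
  filter_upwards [hPQ, Kr50.ev_exp 2 h0] with n hn h2 W hW
  have := isProb_law (φ := sv) (s := s) (Cov15.wt_ising (β • W) 0)
  have n0 : (0 : ℝ) ≤ n := Nat.cast_nonneg n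
  have b : ∀ {k k' : ℝ}, k ≤ k' → Real.exp (-k' * n) ≤ Real.exp (-k * n) := fun hk =>
    Real.exp_le_exp.2 (by nlinarith)
  refine le_trans (measureReal_mono fun y hy => ?_) (((measureReal_union_le _ _).trans
    (add_le_add hW.1 hW.2)).trans (by linarith [b (min_le_left κ κ1), b (min_le_right κ κ1)]))
  by_cases hy' : R n W y
  · refine Or.inl ((b (by linarith [min_le_left κ κ1])).trans (le_trans hy
      ((Cov15.wt_ising _ _).mean_mono fun σ => ?_)))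
    exact ind_le (fun σ => hn W y σ hy') σ
  · exact Or.inr hy'

/-- properties that do not depend on the spins -/
lemma TypS.typ {β s κ : ℝ} (hκ : 0 < κ) {P : ∀ n, Mx n → V n → Prop}
    (h : TypS β s κ fun n W y _ => P n W y) : Typ β s P := by
  refine ⟨κ, hκ, h.imp fun n W hW => le_trans ?_ hW⟩
  have := isProb_law (φ := sv) (s := s) (Cov15.wt_ising (β • W) 0)
  refine measureReal_mono fun y hy => (Cov15.wt_ising _ _).le_mean fun σ => ?_
  rw [indicator_of_mem (by exact hy)]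
  exact Real.exp_le_one_iff.2 (by have : (0 : ℝ) ≤ n := Nat.cast_nonneg n; nlinarith)


open TapPl in
/-- **TAP transfer** of open events of `(σ, W, x)`, uniform in the event -/
theorem tapS {β s q ε1 κ1 : ℝ} (hβ : β ∈ Ioc (0 : ℝ) 1) (hs0 : 0 < s) (hq : IsQ β s q)
    (hε1 : 0 < ε1) (hκ1 : 0 < κ1) : ∃ κ > (0 : ℝ), ∀ B : ∀ n, Cube n → Set (Mx n × V n),
    (∀ n σ, IsOpen (B n σ)) → (∀ᶠ n : ℕ in atTop, ∀ σ : Cube n,
      Ref n {z | |aS (xv β s q q z.1.1 z.1.2) - q| ≤ ε1 ∧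
        (cj (sv σ) (plW β (glueW β (xv β s q q z.1.1 z.1.2) z.1.2 z.2) 1),
          sv σ * xv β s q q z.1.1 z.1.2) ∈ B n σ} ≤ ENNReal.ofReal (Real.exp (-κ1 * n))) →
    TypS β s κ fun n W y σ => ∀ x, Ymap (β • W) (β ^ 2) x = y → (W, x) ∉ B n σ := by
  have hβ' : β ∈ Icc (0 : ℝ) 1 := ⟨hβ.1.le, hβ.2⟩
  obtain ⟨c', hc', ε, hε, κ, hκ, h⟩ := krU hβ hs0 hq hε1 hκ1
  refine ⟨κ / 4, by positivity, fun B hB hSF => ?_⟩
  have hA : ∀ (n : ℕ) (σ : Cube n), MeasurableSet {z : Mx n × V n | opn z.1 ≤ 3 ∧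
      DET z.1 β c' ε ∧ ∃ x, Ymap (β • z.1) (β ^ 2) x = z.2 ∧ (z.1, x) ∈ B n σ} := by
    intro n σ
    refine (measurableSet_le (Nrm.measurable_opn'.comp measurable_fst) measurable_const).inter
      (((TapFrz.measStmt n β 0 0 c' ε).2.2.preimage measurable_fst).inter ?_)
    obtain ⟨f, hf, hfB⟩ := exists_pos_fun (hB n σ)
    have := TapFrz.measurableSet_exists_pos (Θ := Mx n × V n) (X := V n)
      (C := {w | Ymap (β • w.1.1) (β ^ 2) w.2 = w.1.2}) (isClosed_eq (TapFrz.cont_Ymap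
        (by fun_prop) continuous_const continuous_snd) (by fun_prop))
        (f := fun w => f (w.1.1, w.2)) (hf.comp (by fun_prop))
    simp only [hfB]
    exact this
  refine (joint' hβ' hs0.le hκ hA ?_).mono' (whp_opn.and (detStmt14 β hβ' c' hc' ε hε))
    (.of_forall fun n W y σ hW h1 x hx h2 => h1 ⟨hW.1, hW.2, x, hx, h2⟩)
  filter_upwards [h, hSF] with n hn hSF σ
  have hc : Continuous fun z : Mx n × V n => (cj (sv σ) (plW β z.1 1), sv σ * z.2) := by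
    unfold cj plW; fun_prop
  refine (planted_gauge β s (hA n σ) σ).trans_le (le_trans (measure_mono fun z hz => ?_)
    (hn _ ((hB n σ).preimage hc).measurableSet (hSF σ)))
  have hσ := Pl.isSign_sv σ
  obtain ⟨h1, h2, x, h3, h4⟩ := hz
  refine ⟨by rwa [opn_cj hσ] at h1, ?_, sv σ * x, ?_, ?_⟩
  · simpa only [cj_cj hσ] using DET_cj hσ h2
  · have := Ymap_cj hσ (β • cj (sv σ) (plW β z.1 1)) (β ^ 2) x
    dsimp only at h3
    rw [h3, cj_smul, cj_cj hσ, hσ.mul_self] at this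
    exact this
  · simpa only [mem_preimage, hσ.mul_self] using h4

end Crest.Agent.T157.Rip

end
end

-- ▼ part T157/RipE_25
section

/-!
# Row 157, part B (helper25): restricted isometry along the localisation
-/

set_option autoImplicit false
set_option linter.unusedVariables false

noncomputable section

namespace Crest.Agent.T157.Rip

open MeasureTheory ProbabilityTheory Matrix Filter Set Topology
open Crest.ProbabilityR.SpinGlassDynamics
open Crest.Agent.T157.E Crest.Agent.T157.Eig Crest.Agent.T157.Cond Crest.Agent.T157.Tap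
open Crest.Agent.T157.SL Crest.Agent.T157.Pos

variable {n N : ℕ}

/-- the normalised vectors -/
def Fs {κ : Type*} (φ : κ → V n) : Set (V n) := range fun j => (√(n : ℝ))⁻¹ • φ j

lemma nrm_flat {x : V n} (h : ∀ i, |x i| ≤ 1) : nrm ((√(n : ℝ))⁻¹ • x) ≤ 1 := by
  have h1 : nrm x ≤ √n := by
    have := nrm_mul_le zero_le_one h (1 : V n)
    rwa [mul_one, one_mul, Cell.nrm_one] at this
  rw [nrm_smul, abs_of_nonneg (by positivity)]
  exact (mul_le_mul_of_nonneg_left h1 (by positivity)).trans inv_mul_le_one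

lemma fl_flat (hn : 0 < n) {x : V n} {c δ ε : ℝ} (hc : 0 ≤ c) (h : ∀ i, |x i| ≤ c / √n)
    (hδ : c * √δ ≤ ε) (δ0 : 0 ≤ δ) : Fl (δ * n) ε x := by
  refine (fl_of_sup (by positivity) h).mono le_rfl (le_trans (le_of_eq ?_) hδ)
  have : (0 : ℝ) < √n := by positivity
  rw [Real.sqrt_mul δ0]
  field_simp

lemma sq_card {β : ℝ} (hβ : β ∈ Ioc (0 : ℝ) 1) (hn : 0 < n) :
    (β / √(n : ℝ)) ^ 2 * Fintype.card (Fin n) ≤ 1 := by
  have : (0 : ℝ) < n := by positivity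
  rw [div_pow, Real.sq_sqrt this.le, Fintype.card_fin, div_mul_cancel₀ _ this.ne']
  exact pow_le_one₀ hβ.1.le hβ.2

/-- RIP for the scaled GOE -/
lemma rip_GOE (k N : ℕ) {ε : ℝ} (hε : 0 < ε) : ∃ δ > (0 : ℝ), ∃ κ > (0 : ℝ), ∀ᶠ n : ℕ in atTop,
    ∀ β ∈ Ioc (0 : ℝ) 1, ∀ A F : Finset (V n), A.card ≤ N → F.card ≤ N → BdS (A : Set (V n)) →
    (∀ f ∈ F, nrm f ≤ 1) → GOE n {W | ¬ (opn (β • W) ≤ 3 ∧
      RIP (β / √n) (β • W) (A : Set (V n)) (F : Set (V n)) k (δ * n) ε)} ≤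
      ENNReal.ofReal (Real.exp (-κ * n)) := by
  obtain ⟨δ, δ0, κ, κ0, n0, h⟩ := rip_goe.{0} k N hε
  refine ⟨δ, δ0, κ, κ0, ?_⟩
  filter_upwards [eventually_ge_atTop n0, eventually_gt_atTop 0] with n h1 hn β hβ A F a1 a2 a3 a4
  have := hβ.1
  have h2 := h (Fin n) (β / √n) (by positivity) (sq_card hβ hn) (by simpa using h1) A F a1 a2 a3 a4
  rw [Fintype.card_fin, div_eq_mul_one_div, ← goe_smul, ← neg_mul] at h2
  rw [div_eq_mul_one_div]
  refine le_trans (Measure.le_map_apply (f := fun W : Mx n => β • W) (by fun_prop) {W | ¬ (opn W ≤ 3 ∧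
    RIP (β * (1 / √n)) W (A : Set (V n)) (F : Set (V n)) k (δ * n) ε)}) ?_
  exact (ofReal_measureReal (measure_ne_top _ _)).symm.trans_le (ENNReal.ofReal_le_ofReal h2)

lemma P_th (x : V n) : nextR 1 (th x) *ᵥ th x = 0 := by
  rw [nextR, sub_mulVec, one_mulVec, vmv_mulVec, dirv, one_mulVec, unitv_dot_self, len_smul_unitv,
    sub_self]

lemma Ymap_glue (β : ℝ) (x Z : V n) (W : Mx n) :
    Ymap (β • plW β (glueW β x Z W) 1) (β ^ 2) x = Ymap (β • plW β (glueW β x Z 0) 1) (β ^ 2) x := by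
  simp only [Ymap, plW, glueW, smul_mulVec, add_mulVec, ← mulVec_mulVec, P_th, mulVec_zero]

lemma glue_H (hn : 0 < n) {β : ℝ} (hβ : β ∈ Ioc (0 : ℝ) 1) {x Z : V n} (ha : 0 < aS x)
    (hZ : nrm Z ≤ 2 * √n) {W : Mx n} (hW : opn (β • W) ≤ 3) (y : V n) : ∃ c1 c2 c3 c4 : ℝ,
    |c1| ≤ 13 * nrm y ∧ |c2| ≤ 13 * nrm y ∧ |c3| ≤ 13 * nrm y ∧ |c4| ≤ 13 * nrm y ∧
    (β • plW β (glueW β x Z W) 1 - β • W) *ᵥ y = c1 • ((2 * √(n : ℝ))⁻¹ • Z) +
      c2 • unitv (th x) + c3 • ((β • W) *ᵥ unitv (th x)) + c4 • ((√(n : ℝ))⁻¹ • (1 : V n)) := by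
  have hs : (0 : ℝ) < √n := by positivity
  have β0 := hβ.1
  have β1 := hβ.2
  rw [plW, glueW, ← Cell.shift_eq hn ha β]
  set e := unitv (th x) with he
  have e1 : nrm e ≤ 1 := nrm_unitv _
  have e0 := nrm_nonneg e
  have y0 := nrm_nonneg y
  set b := β * (1 - aS x) with hb
  have b0 : 0 ≤ b := mul_nonneg β0.le (by linarith [Cell.aS_le_one x])
  have b1 : b ≤ 1 := mul_le_one₀ β1 (by linarith [Cell.aS_le_one x]) (by linarith)
  set ω := (1 / √(n : ℝ)) • (Z + (b * √n) • e) with hω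
  have ωe : ω = (2 : ℝ) • ((2 * √(n : ℝ))⁻¹ • Z) + b • e := by
    rw [hω, smul_add, smul_smul, smul_smul]
    congr 2 <;> field_simp
  have ω1 : nrm ω ≤ 3 := by
    rw [hω, nrm_smul, abs_of_pos (by positivity), one_div, inv_mul_le_iff₀ hs]
    refine (nrm_add_le _ _).trans ?_
    rw [nrm_smul, abs_of_nonneg (by positivity)]
    have : b * √n * nrm e ≤ 1 * √n * 1 := by gcongr
    linarith
  have hP : ∀ v, nextR 1 (th x) *ᵥ v = v - (e ⬝ᵥ v) • e := fun v => by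
    rw [nextR, sub_mulVec, one_mulVec, vmv_mulVec, dirv, one_mulVec]
  set u : V n := (√(n : ℝ))⁻¹ • (1 : V n) with hu
  have u1 : nrm u ≤ 1 := nrm_flat fun _ => by simp
  have ue : ((β / n) • vecMulVec (1 : V n) (1 : V n)) *ᵥ y = (β * (u ⬝ᵥ y)) • u := by
    rw [smul_mulVec, vmv_mulVec, hu, smul_dotProduct, smul_smul, smul_smul, smul_eq_mul]
    congr 1
    have : (n : ℝ) = √n * √n := (Real.mul_self_sqrt (Nat.cast_nonneg n)).symm
    conv_lhs => rw [this]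
    field_simp
  have r1 : |e ⬝ᵥ y| ≤ nrm y := (abs_dot_le _ _).trans (by nlinarith)
  have r2 : |ω ⬝ᵥ y| ≤ 3 * nrm y := (abs_dot_le _ _).trans (by gcongr)
  have r3 : |e ⬝ᵥ ω| ≤ 3 := (abs_dot_le _ _).trans (by nlinarith [nrm_nonneg ω])
  have r4 : |e ⬝ᵥ (β • W) *ᵥ y| ≤ 3 * nrm y :=
    (abs_bil_le _ _ _).trans (mul_le_mul hW (mul_le_of_le_one_left y0 e1) (by positivity)
      (by norm_num))
  have r5 : |e ⬝ᵥ (β • W) *ᵥ e| ≤ 3 := (abs_bil_le _ _ _).trans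
    (by nlinarith [mul_le_one₀ e1 e0 e1, mul_nonneg e0 e0, opn_nonneg (β • W)])
  have r6 : |u ⬝ᵥ y| ≤ nrm y := (abs_dot_le _ _).trans (by nlinarith [nrm_nonneg u])
  have m : ∀ {p q P Q : ℝ}, |p| ≤ P → |q| ≤ Q → |p * q| ≤ P * Q := fun h1 h2 => by
    rw [abs_mul]; exact mul_le_mul h1 h2 (abs_nonneg _) ((abs_nonneg _).trans h1)
  have aβ : |β| ≤ 1 := by rwa [abs_of_pos β0]
  have ab : |b| ≤ 1 := by rwa [abs_of_nonneg b0]
  refine ⟨2 * (β * (e ⬝ᵥ y)), β * b * (e ⬝ᵥ y) + β * (ω ⬝ᵥ y) - β * (e ⬝ᵥ ω) * (e ⬝ᵥ y) -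
    e ⬝ᵥ (β • W) *ᵥ y + (e ⬝ᵥ (β • W) *ᵥ e) * (e ⬝ᵥ y), -(e ⬝ᵥ y), β * (β * (u ⬝ᵥ y)),
    ?_, ?_, ?_, ?_, ?_⟩
  · linarith [m (le_refl |(2 : ℝ)|) (m aβ r1), abs_two (α := ℝ), m (abs_two (α := ℝ)).le (m aβ r1)]
  · have t1 := abs_le.1 (m (m aβ ab) r1)
    have t2 := abs_le.1 (m aβ r2)
    have t3 := abs_le.1 (m (m aβ r3) r1)
    have t4 := abs_le.1 r4
    have t5 := abs_le.1 (m r5 r1)
    rw [abs_le]
    constructor <;> linarith [t1.1, t1.2, t2.1, t2.2, t3.1, t3.2, t4.1, t4.2, t5.1, t5.2]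
  · rw [abs_neg]; linarith
  · linarith [m aβ (m aβ r6)]
  · rw [sub_mulVec, smul_mulVec β, add_mulVec, add_mulVec, ue, ← mulVec_mulVec, ← mulVec_mulVec,
      hP, hP]
    simp only [rk2, sub_mulVec, add_mulVec, smul_mulVec, vmv_mulVec, mulVec_sub, mulVec_smul,
      dotProduct_sub, dotProduct_smul, smul_eq_mul]
    generalize ω ⬝ᵥ y = p, e ⬝ᵥ ω = q
    rw [ωe]
    module

/-- RIP for low rank perturbations of the GOE -/
lemma fix_gen (k N : ℕ) {ε : ℝ} (hε : 0 < ε) : ∃ e > (0 : ℝ), ∃ δ0 > (0 : ℝ),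
    ∃ κ > (0 : ℝ), ∀ᶠ n : ℕ in atTop, ∀ β ∈ Ioc (0 : ℝ) 1, ∀ δ ≤ δ0, ∀ p z u : V n, nrm p ≤ 1 →
    nrm z ≤ 1 → nrm u ≤ 1 → Fl (δ * n) e p → Fl (δ * n) e z → Fl (δ * n) e u →
    ∀ J' : Mx n → Mx n, (∀ W, opn (β • W) ≤ 3 → ∀ y, ∃ c1 c2 c3 c4 : ℝ, |c1| ≤ 13 * nrm y ∧
      |c2| ≤ 13 * nrm y ∧ |c3| ≤ 13 * nrm y ∧ |c4| ≤ 13 * nrm y ∧
      (J' W - β • W) *ᵥ y = c1 • z + c2 • p + c3 • ((β • W) *ᵥ p) + c4 • u) →
    ∀ α φ : Fin N → V n, (∀ j i, |α j i| ≤ 1) → (∀ j i, |φ j i| ≤ 1) →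
    GOE n {W | ¬ RIP (β / √n) (J' W) (range α) (Fs φ) k (δ * n) ε} ≤
      ENNReal.ofReal (Real.exp (-κ * n)) := by
  classical
  set C : ℝ := 1 + (k + 1) * (1 + (3 + 6 * 13)) ^ (k + 1) * (5 * 13) with hC
  have C0 : 0 < C := by positivity
  have e0 : 0 < ε / C := by positivity
  obtain ⟨δ1, δ10, κ, κ0, h⟩ := rip_GOE k (4 * N + 1) e0
  refine ⟨ε / C, e0, δ1, δ10, κ, κ0, ?_⟩
  filter_upwards [h, eventually_gt_atTop 0] with n h hn β hβ δ hδ e z u ne nz nu fe fz fu J' hJ'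
    α φ hα hφ
  set A := Finset.univ.image α with hA
  have cA : (A : Set (V n)) = range α := by simp [hA]
  have bA : BdS (range α) := by rintro _ ⟨j, rfl⟩; exact hα j
  set F := insert e ((Finset.univ.image fun j => (√(n : ℝ))⁻¹ • φ j) ∪ (A.image (· * e) ∪
    (A.image (· * z) ∪ A.image (· * u)))) with hF
  have c1 : A.card ≤ N := Finset.card_image_le.trans (by simp)
  have c2 : F.card ≤ 4 * N + 1 := by
    refine (Finset.card_insert_le _ _).trans (Nat.add_le_add_right ?_ 1)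
    have d1 : (Finset.univ.image fun j => (√(n : ℝ))⁻¹ • φ j).card ≤ N :=
      Finset.card_image_le.trans (by simp)
    have d2 : ∀ w : V n, (A.image (· * w)).card ≤ N := fun w => Finset.card_image_le.trans c1
    refine (Finset.card_union_le _ _).trans ((Nat.add_le_add d1 ((Finset.card_union_le _ _).trans
      (Nat.add_le_add (d2 e) ((Finset.card_union_le _ _).trans
        (Nat.add_le_add (d2 z) (d2 u)))))).trans (by omega))
  have nF : ∀ f ∈ F, nrm f ≤ 1 := by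
    have d : ∀ w : V n, nrm w ≤ 1 → ∀ f ∈ A.image (· * w), nrm f ≤ 1 := fun w hw f hf => by
      obtain ⟨a, ha, rfl⟩ := Finset.mem_image.1 hf
      simpa using (nrm_mul_le zero_le_one (bA a (cA ▸ ha)) w).trans (by linarith)
    intro f hf
    simp only [hF, Finset.mem_insert, Finset.mem_union] at hf
    rcases hf with rfl | hf | hf | hf | hf
    · exact ne
    · obtain ⟨j, -, rfl⟩ := Finset.mem_image.1 hf
      exact nrm_flat (hφ j)
    exacts [d e ne f hf, d z nz f hf, d u nu f hf]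
  refine le_trans (measure_mono fun W hW => ?_) (h β hβ A F (by omega) c2 (cA ▸ bA) nF)
  refine fun h1 => hW ?_
  have h2 := h1.2.mono (cA ▸ subset_rfl : range α ⊆ A) subset_rfl le_rfl
    (mul_le_mul_of_nonneg_right hδ (Nat.cast_nonneg n)) le_rfl
  refine (h2.lowrank (F' := Fs φ) (sq_card hβ hn) h1.1 bA e0.le fe fz fu ne nz nu (by simp [hF])
    (fun a ha => ?_) ?_ ?_ (by norm_num) (hJ' W h1.1)).2.mono subset_rfl subset_rfl
      le_rfl le_rfl (le_of_eq ?_)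
  · have ha' : a ∈ A := by rw [← Finset.mem_coe, cA]; exact ha
    simp only [hF, Finset.coe_insert, Finset.coe_union, mem_insert_iff, mem_union, Finset.mem_coe]
    exact ⟨Or.inr (Or.inr (Or.inl (Finset.mem_image_of_mem _ ha'))),
      Or.inr (Or.inr (Or.inr (Or.inl (Finset.mem_image_of_mem _ ha')))),
      Or.inr (Or.inr (Or.inr (Or.inr (Finset.mem_image_of_mem _ ha'))))⟩
  · rintro _ ⟨j, rfl⟩
    simp only [hF, Finset.coe_insert, Finset.coe_union, mem_insert_iff, mem_union, Finset.mem_coe]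
    exact Or.inr (Or.inl (Finset.mem_image_of_mem _ (Finset.mem_univ j)))
  · rintro _ ⟨j, rfl⟩
    exact nrm_flat (hφ j)
  · field_simp
    rw [hC]; ring

lemma fl_unit (hn : 0 < n) {σ : V n} (h : ∀ i, |σ i| ≤ 1) {δ e : ℝ} (δ0 : 0 ≤ δ) (hδ : δ ≤ e ^ 2)
    (e0 : 0 ≤ e) : Fl (δ * n) e ((√(n : ℝ))⁻¹ • σ) := fl_flat hn zero_le_one (fun i => by
  rw [Pi.smul_apply, smul_eq_mul, abs_mul, abs_of_nonneg (by positivity), one_div]
  exact mul_le_of_le_one_right (by positivity) (h i))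
    (by rw [one_mul]; exact Real.sqrt_le_iff.2 ⟨e0, hδ⟩) δ0

/-- RIP in the reference model, `x` and `Z` being fixed -/
lemma ref_fix (k N : ℕ) {ε am : ℝ} (hε : 0 < ε) (ham : 0 < am) : ∃ e > (0 : ℝ), ∃ δ0 > (0 : ℝ),
    ∃ κ > (0 : ℝ), ∀ᶠ n : ℕ in atTop, ∀ β ∈ Ioc (0 : ℝ) 1, ∀ δ ∈ Icc 0 δ0, ∀ x Z : V n, am ≤ aS x →
    nrm Z ≤ 2 * √n → Fl (δ * n) (e * √n) Z → ∀ α φ : Fin N → V n, (∀ j i, |α j i| ≤ 1) →
    (∀ j i, |φ j i| ≤ 1) → GOE n {W | ¬ RIP (β / √n) (β • plW β (glueW β x Z W) 1) (range α) (Fs φ)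
      k (δ * n) ε} ≤ ENNReal.ofReal (Real.exp (-κ * n)) := by
  obtain ⟨e, e0, δ1, δ10, κ, κ0, h⟩ := fix_gen k N hε
  refine ⟨e, e0, min δ1 (e ^ 2 * min am 1), by positivity, κ, κ0, ?_⟩
  filter_upwards [h, eventually_gt_atTop 0] with n h hn β hβ δ hδ x Z hx hZ fZ
  have hs : (0 : ℝ) < √n := by positivity
  have ax : 0 < aS x := ham.trans_le hx
  have δ2 : δ ≤ e ^ 2 * min am 1 := hδ.2.trans (min_le_right _ _)
  have δ3 : √δ ≤ e * √(min am 1) := by
    rw [← Real.sqrt_sq e0.le, ← Real.sqrt_mul (sq_nonneg _)]; exact Real.sqrt_le_sqrt δ2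
  have m0 : 0 < √(min am 1) := by positivity
  refine h β hβ δ (hδ.2.trans (min_le_left _ _)) _ _ _ (nrm_unitv _) ?_ (nrm_flat fun _ => by simp)
    ?_ ?_ (fl_unit hn (fun _ => by simp) hδ.1 (δ2.trans (mul_le_of_le_one_right (sq_nonneg _)
      (min_le_right _ _))) e0.le) _ fun W hW => glue_H hn hβ ax hZ hW
  · rw [nrm_smul, abs_of_pos (by positivity), inv_mul_le_iff₀ (by positivity)]; linarith
  · refine fl_flat hn (c := (√(min am 1))⁻¹) (by positivity) (fun i => ?_) (by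
      rw [inv_mul_le_iff₀ m0]; linarith) hδ.1
    have s1 : √(min am 1) ≤ √(aS x) := Real.sqrt_le_sqrt ((min_le_left _ _).trans hx)
    rw [unitv, Cell.len_th x hn, Pi.smul_apply, smul_eq_mul, abs_mul, abs_of_pos (by positivity),
      div_eq_mul_inv, mul_inv, mul_comm (√(min am 1))⁻¹]
    refine (mul_le_of_le_one_right (by positivity) (Cell.abs_th_le x i)).trans ?_
    gcongr
  · exact (fZ.smul (le_refl _) (by positivity)).mono le_rfl (by
      rw [abs_of_pos (by positivity), inv_mul_le_iff₀ (by positivity)]; nlinarith)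

/-- RIP in the planted model -/
lemma pl_fix (k N : ℕ) {ε : ℝ} (hε : 0 < ε) : ∃ δ > (0 : ℝ), ∃ κ > (0 : ℝ), ∀ᶠ n : ℕ in atTop,
    ∀ β ∈ Ioc (0 : ℝ) 1, ∀ σ : V n, (∀ i, |σ i| ≤ 1) → ∀ α φ : Fin N → V n, (∀ j i, |α j i| ≤ 1) →
    (∀ j i, |φ j i| ≤ 1) → GOE n {W | ¬ RIP (β / √n) (β • plW β W σ) (range α) (Fs φ)
      k (δ * n) ε} ≤ ENNReal.ofReal (Real.exp (-κ * n)) := by
  obtain ⟨e, e0, δ1, δ10, κ, κ0, h⟩ := fix_gen k N hε
  refine ⟨min δ1 (e ^ 2), by positivity, κ, κ0, ?_⟩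
  filter_upwards [h, eventually_gt_atTop 0] with n h hn β hβ σ hσ
  have u1 := nrm_flat hσ
  have fu := fl_unit hn hσ (δ := min δ1 (e ^ 2)) (by positivity) (min_le_right _ _) e0.le
  refine h β hβ _ (min_le_left _ _) _ _ _ u1 u1 u1 fu fu fu _ fun W hW y => ?_
  have y0 := nrm_nonneg y
  refine ⟨0, 0, 0, β ^ 2 * (((√(n : ℝ))⁻¹ • σ) ⬝ᵥ y), by simpa, by simpa, by simpa, ?_, ?_⟩
  · rw [abs_mul, abs_of_nonneg (sq_nonneg β)]
    nlinarith [abs_dot_le ((√(n : ℝ))⁻¹ • σ) y, pow_le_one₀ (n := 2) hβ.1.le hβ.2,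
      abs_nonneg (((√(n : ℝ))⁻¹ • σ) ⬝ᵥ y), mul_le_mul_of_nonneg_right u1 y0]
  · rw [plW, smul_add, add_sub_cancel_left, smul_mulVec, smul_mulVec, vmv_mulVec, smul_dotProduct]
    simp only [zero_smul, zero_add]
    simp only [smul_smul, smul_eq_mul]
    congr 1
    have : (n : ℝ) = √n * √n := (Real.mul_self_sqrt (Nat.cast_nonneg n)).symm
    have hs : (0 : ℝ) < √n := by positivity
    conv_lhs => rw [this]
    field_simp

/-- letters: bounded continuous functions of the spins, the TAP point and the field -/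
def Lt (N : ℕ) (α : ∀ n, Cube n → Fin N → V n × V n → V n) : Prop :=
  ∀ n σ j, Continuous (α n σ j) ∧ ∀ p i, |α n σ j p i| ≤ 1

open TapPl in
/-- **RIP along the localisation**, letters at the TAP solutions -/
theorem rip_tap (k N : ℕ) {ε t0 : ℝ} (hε : 0 < ε) (ht0 : 0 < t0) : ∃ δ > (0 : ℝ),
    ∀ β ∈ Ioc (0 : ℝ) 1, ∀ s, t0 ≤ s → ∃ κ > (0 : ℝ), ∀ α φ, Lt N α → Lt N φ →
      TypS β s κ fun n W y σ => ∀ x, Ymap (β • W) (β ^ 2) x = y → RIP (β / √n) (β • W)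
        (range fun j => α n σ j (x, y)) (Fs fun j => φ n σ j (x, y)) k (δ * n) ε := by
  obtain ⟨am, ham, hq0⟩ := SE.lower ht0
  obtain ⟨e, e0, δ1, δ10, κ1, κ10, h⟩ := ref_fix k N hε (half_pos ham)
  obtain ⟨δ2, δ20, hg⟩ := gauss_fl.{0} e0
  set δ := min δ1 δ2 with hδ
  have δ0 : 0 < δ := by positivity
  refine ⟨δ, δ0, fun β hβ s hs => ?_⟩
  have hs0 : 0 < s := ht0.trans_le hs
  obtain ⟨q, hq⟩ := SE.exists_isQ β s
  have hqa : am ≤ q := by
    have := hq0 (s + β ^ 2 * q) (s + β ^ 2 * q) (by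
      have := mul_nonneg (sq_nonneg β) hq.1.1
      linarith)
    rwa [← hq.2] at this
  set κ2 := min (min (1 / 2) (e ^ 2 / 16)) κ1 with hκ2
  have κ20 : 0 < κ2 := by positivity
  obtain ⟨κ, κ0, hT⟩ := tapS hβ hs0 hq (half_pos ham) (half_pos κ20)
  refine ⟨κ, κ0, fun α φ hα hφ => ?_⟩
  set B : ∀ n, Cube n → Set (Mx n × V n) := fun n σ => {z | RIP (β / √n) (β • z.1)
    (range fun j => α n σ j (z.2, Ymap (β • z.1) (β ^ 2) z.2))
    (Fs fun j => φ n σ j (z.2, Ymap (β • z.1) (β ^ 2) z.2)) k (δ * n) ε}ᶜ with hB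
  have hBo : ∀ n σ, IsOpen (B n σ) := fun n σ => by
    have hc : Continuous fun z : Mx n × V n => (z.2, Ymap (β • z.1) (β ^ 2) z.2) :=
      continuous_snd.prodMk (TapFrz.cont_Ymap (by fun_prop) continuous_const continuous_snd)
    exact (isClosed_RIP (Jx := fun z : Mx n × V n => β • z.1) (by fun_prop)
      (fun j => (hα n σ j).1.comp hc)
      (fun j => ((hφ n σ j).1.comp hc).const_smul (√(n : ℝ))⁻¹) _ _ _ _).isOpen_compl
  refine (hT B hBo ?_).mono' Top.whp_true (.of_forall fun n W y σ _ h1 x hx => ?_)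
  swap
  · have := h1 x hx
    simp only [hB, mem_compl_iff, not_not, mem_ofPred_eq, hx] at this
    exact this
  filter_upwards [h, Kr50.ev_exp 4 κ20, eventually_gt_atTop 0] with n h hev hn σ
  have hσ := Pl.isSign_sv σ
  have hmx : Measurable fun z : (V n × V n) × Mx n => xv β s q q z.1.1 z.1.2 := by
    unfold xv; fun_prop
  have m1 : Measurable fun x : V n => aS x := (TapFrz.cont_avg (continuous_pi fun i =>
    ((continuous_apply i).comp (TapFrz.cont_th continuous_id)).pow 2)).measurable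
  have m2 : Measurable fun x : V n => th x := (TapFrz.cont_th continuous_id).measurable
  have m3 := m1.comp hmx
  have m4 := m2.comp hmx
  have m5 : Measurable fun z : (V n × V n) × Mx n =>
      (glueW β (xv β s q q z.1.1 z.1.2) z.1.2 z.2, xv β s q q z.1.1 z.1.2) := by
    refine Measurable.prodMk ?_ hmx
    unfold glueW
    exact (Measurable.t157_rk2 (by fun_prop) m4.t157_unitv).t157_add
      (((measurable_const.t157_nextR m4).t157_mul measurable_snd).t157_mul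
        (measurable_const.t157_nextR m4))
  have hc : Continuous fun z : Mx n × V n => (cj (sv σ) (plW β z.1 1), sv σ * z.2) := by
    unfold cj plW; fun_prop
  refine (prod_le _ _ ((measurableSet_le (m3.sub_const q).abs measurable_const).inter
    (((hBo n σ).preimage hc).measurableSet.preimage m5))
    {z | 2 * √(n : ℝ) < nrm z.2 ∨ ¬ Fl (δ2 * n) (e * √n) z.2}
    (ENNReal.ofReal (Real.exp (-κ1 * n))) fun z hz => ⟨hz, ?_⟩).trans ?_
  · by_cases hb : 2 * √(n : ℝ) < nrm z.1.2 ∨ ¬ Fl (δ2 * n) (e * √n) z.1.2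
    · exact Or.inl hb
    right
    rw [not_or, not_lt, not_not] at hb
    set x := xv β s q q z.1.1 z.1.2 with hx
    set y := Ymap (β • plW β (glueW β x z.1.2 0) 1) (β ^ 2) x with hy
    refine le_trans (measure_mono fun W hW => ?_) (h β hβ δ ⟨δ0.le, min_le_left _ _⟩ x z.1.2
      (by have := (abs_le.1 (show |aS x - q| ≤ am / 2 from hz.1)).1; linarith) hb.1 (hb.2.mono (mul_le_mul_of_nonneg_right
        (min_le_right _ _) (Nat.cast_nonneg n)) le_rfl) (fun j => α n σ j (sv σ * x, sv σ * y))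
      (fun j => sv σ * φ n σ j (sv σ * x, sv σ * y)) (fun j => (hα n σ j).2 _) fun j i => by
        rw [Pi.mul_apply, abs_mul]
        rcases hσ i with e | e <;> simpa [e] using (hφ n σ j).2 _ i)
    refine fun h1 => hW.2 ?_
    simp only [mem_ofPred_eq]
    rw [← hx, ← cj_smul, Ymap_cj hσ, Ymap_glue, ← hy]
    refine h1.conj (fun i => sign_mul_self hσ i) ?_
    rintro _ ⟨j, rfl⟩
    exact ⟨j, (mul_smul_comm _ _ _).symm⟩
  · have h1 : ((gv (Fin n)).prod (gv (Fin n)))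
        {z | 2 * √(n : ℝ) < nrm z.2 ∨ ¬ Fl (δ2 * n) (e * √n) z.2} ≤
        ENNReal.ofReal (Real.exp (-n / 2) + 2 * Real.exp (-(e ^ 2 / 16 * n))) := by
      refine (Kr50.prod_snd_le _ _ (A := {z | 2 * √(n : ℝ) < nrm z} ∪
        {z | ¬ Fl (δ2 * n) (e * √n) z}) fun z hz => hz).trans
        ((ofReal_measureReal (measure_ne_top _ _)).symm.trans_le (ENNReal.ofReal_le_ofReal
          ((measureReal_union_le _ _).trans (add_le_add (SE.nrm_tail n) ?_))))
      simpa using hg (Fin n)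
    refine (add_le_add h1 le_rfl).trans ?_
    rw [← ENNReal.ofReal_add (by positivity) (by positivity)]
    refine ENNReal.ofReal_le_ofReal (le_trans ?_ hev)
    have n0 : (0 : ℝ) ≤ n := Nat.cast_nonneg n
    have a1 : κ2 ≤ 1 / 2 := (min_le_left _ _).trans (min_le_left _ _)
    have a2 : κ2 ≤ e ^ 2 / 16 := (min_le_left _ _).trans (min_le_right _ _)
    have a3 : κ2 ≤ κ1 := min_le_right _ _
    have b : ∀ {u : ℝ}, u ≤ -κ2 * n → Real.exp u ≤ Real.exp (-κ2 * n) := Real.exp_le_exp.2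
    linarith [b (u := -n / 2) (by nlinarith), b (u := -(e ^ 2 / 16 * n)) (by nlinarith),
      b (u := -κ1 * n) (by nlinarith)]

/-- **RIP along the localisation**, letters depending on the spins and the field, all times -/
theorem rip_pl (k N : ℕ) {ε : ℝ} (hε : 0 < ε) : ∃ δ > (0 : ℝ), ∃ κ > (0 : ℝ),
    ∀ β ∈ Ioc (0 : ℝ) 1, ∀ s, 0 ≤ s → ∀ α φ, Lt N α → Lt N φ →
      TypS β s κ fun n W y σ => RIP (β / √n) (β • W)
        (range fun j => α n σ j (0, y)) (Fs fun j => φ n σ j (0, y)) k (δ * n) ε := by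
  obtain ⟨δ, δ0, κ, κ0, h⟩ := pl_fix k N hε
  refine ⟨δ, δ0, κ / 4, by positivity, fun β hβ s hs α φ hα hφ => ?_⟩
  have hA : ∀ n σ, MeasurableSet {z : Mx n × V n | RIP (β / √n) (β • z.1)
      (range fun j => α n σ j (0, z.2)) (Fs fun j => φ n σ j (0, z.2)) k (δ * n) ε}ᶜ := fun n σ => by
    have hc : Continuous fun z : Mx n × V n => ((0 : V n), z.2) := by fun_prop
    exact (isClosed_RIP (Jx := fun z : Mx n × V n => β • z.1) (by fun_prop)
      (fun j => (hα n σ j).1.comp hc) (fun j => ((hφ n σ j).1.comp hc).const_smul (√(n : ℝ))⁻¹)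
        _ _ _ _).measurableSet.compl
  refine (joint' ⟨hβ.1.le, hβ.2⟩ hs κ0 hA ?_).mono' Top.whp_true
    (.of_forall fun n W y σ _ h1 => not_not.1 h1)
  filter_upwards [h] with n h σ
  refine (Measure.prod_apply_symm ((hA n σ).preimage (f := fun z : Mx n × V n =>
    (plW β z.1 (sv σ), s • sv σ + √s • z.2)) (by unfold plW; fun_prop))).trans_le ?_
  refine (lintegral_mono (g := fun _ => ENNReal.ofReal (Real.exp (-κ * n))) fun g => ?_).trans_eq
    (by rw [lintegral_const, measure_univ, mul_one])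
  exact h β hβ (sv σ) (fun i => by rcases Pl.isSign_sv σ i with e | e <;> simp [e])
    (fun j => α n σ j (0, s • sv σ + √s • g)) (fun j => φ n σ j (0, s • sv σ + √s • g))
    (fun j => (hα n σ j).2 _) fun j => (hφ n σ j).2 _

/-- local letters -/
def loc (a : Fin N → ℝ → ℝ → ℝ) (σ : Cube n) (x : V n) (j : Fin N) : V n :=
  fun i => a j (sv σ i) (x i)

lemma near_loc {a : Fin N → ℝ → ℝ → ℝ} (ha : ∀ j t, UniformContinuous (a j t))
    (hb : ∀ j t x, |a j t x| ≤ 1) {d m : ℝ} (hd : 0 < d) (hm : 0 < m) : ∃ r > (0 : ℝ),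
    ∀ n : ℕ, 0 < n → ∀ (σ : Cube n) (x ξ : V n), nrm (ξ - x) ≤ r * √n → ∀ j,
      Near (m * n) d (loc a σ x j) (loc a σ ξ j) ∧
      nrm ((√(n : ℝ))⁻¹ • loc a σ ξ j - (√(n : ℝ))⁻¹ • loc a σ x j) ≤ d + 2 * √m := by
  have h1 : ∀ p : Fin N × Bool, ∀ᶠ ρ in 𝓝[>] (0 : ℝ), ∀ u v, |u - v| ≤ ρ →
      |a p.1 (spin p.2) u - a p.1 (spin p.2) v| ≤ d := fun p => by
    obtain ⟨ρ, ρ0, h⟩ := Metric.uniformContinuous_iff.1 (ha p.1 (spin p.2)) d hd
    filter_upwards [Ioo_mem_nhdsGT ρ0] with ρ' h' u v huv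
    exact (h (show dist u v < ρ from huv.trans_lt h'.2)).le
  obtain ⟨ρ, h2, ρ0⟩ := ((eventually_all.2 h1).and self_mem_nhdsWithin).exists
  have ρ0 : 0 < ρ := ρ0
  refine ⟨√m * ρ, by positivity, fun n hn σ x ξ h j => ?_⟩
  have n0 : (0 : ℝ) < n := by positivity
  obtain ⟨T, hT, h3⟩ := near_of_sq (a := x) (a' := ξ) (m := m * n) ρ0 (by
    rw [← nrm_sq]
    refine (pow_le_pow_left₀ (nrm_nonneg _) h 2).trans (le_of_eq ?_)
    rw [mul_pow, mul_pow, Real.sq_sqrt hm.le, Real.sq_sqrt n0.le]; ring)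
  have h4 : ∀ i ∉ T, |loc a σ ξ j i - loc a σ x j i| ≤ d := fun i hi =>
    h2 (j, σ i) _ _ (h3 i hi)
  refine ⟨⟨T, hT, h4⟩, ?_⟩
  set v := loc a σ ξ j - loc a σ x j with hv
  have e : v = (fun i => if i ∈ T then 0 else v i) + fun i => if i ∈ T then v i else 0 :=
    funext fun i => by by_cases hi : i ∈ T <;> simp [hi]
  have b1 : nrm (fun i => if i ∈ T then 0 else v i) ≤ d * √n := by
    have := nrm_mul_le hd.le (a := fun i => if i ∈ T then 0 else v i) (fun i => by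
      by_cases hi : i ∈ T
      · simp [hi, hd.le]
      · simpa [hi, hv] using h4 i hi) (1 : V n)
    rwa [mul_one, Cell.nrm_one] at this
  have b2 : nrm (fun i => if i ∈ T then v i else 0) ≤ 2 * √(m * n) := by
    set w : V n := fun i => if i ∈ T then v i else 0 with hw
    have h5 := fl_of_sup (m := m * n) (x := w) zero_le_two (fun i => by
      by_cases hi : i ∈ T
      · simp only [hw, hi, if_true, hv, Pi.sub_apply, loc]
        exact (abs_sub _ _).trans (by linarith [hb j (sv σ i) (ξ i), hb j (sv σ i) (x i)])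
      · simp [hw, hi]) w ⟨T, hT, fun i hi => by simp [hw, hi]⟩
    rw [← nrm_mul_self, abs_of_nonneg (mul_self_nonneg _)] at h5
    rcases (nrm_nonneg w).eq_or_lt with h0 | h0
    · rw [← h0]; positivity
    · exact le_of_mul_le_mul_right h5 h0
  rw [← smul_sub, ← hv, nrm_smul, abs_of_nonneg (by positivity), inv_mul_le_iff₀ (by positivity), e]
  rw [Real.sqrt_mul hm.le] at b2
  linarith [nrm_add_le (fun i => if i ∈ T then 0 else v i) fun i => if i ∈ T then v i else 0]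

/-- **(RIP)** local letters of the spins and of any field close to the cavity field, all levels;
`T = id` or `T = offd` -/
theorem ripT {T : ∀ n, Mx n → Mx n} (hT : Adm T) (k N : ℕ) {ε t0 : ℝ} (hε : 0 < ε) (ht0 : 0 < t0) :
    ∃ δ > (0 : ℝ), ∀ β ∈ Ioc (0 : ℝ) 1, ∀ s, s = 0 ∨ t0 ≤ s → ∀ a : Fin N → ℝ → ℝ → ℝ,
      (∀ j t, UniformContinuous (a j t)) → (∀ j t x, |a j t x| ≤ 1) → ∃ r > (0 : ℝ), ∃ κ > (0 : ℝ),
      TypS β s κ fun n W y σ => opn (β • T n W) ≤ 4 ∧ ∀ ξ, nrm (ξ - fld β (T n W) y) ≤ r * √n →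
        RIP (β / √n) (β • T n W) (range (loc a σ ξ)) (Fs (loc a σ ξ)) k (δ * n) ε := by
  set P : ℝ := (1 + 4) ^ (k + 1) with hP
  set e : ℝ := ε / (1 + (11 * k + 3) * P + (k + 1) * P * (1 + 4) ^ k) with he
  have e0 : 0 < e := by positivity
  obtain ⟨δ1, δ10, h1⟩ := rip_tap k N e0 ht0
  obtain ⟨δ2, δ20, κ2, κ20, h2⟩ := rip_pl k N e0
  set δ := min (min δ1 δ2) (min e (e ^ 2)) with hδ
  have δ0 : 0 < δ := by positivity
  have d1 : δ ≤ δ1 := (min_le_left _ _).trans (min_le_left _ _)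
  have d2 : δ ≤ δ2 := (min_le_left _ _).trans (min_le_right _ _)
  have d3 : δ ≤ e := (min_le_right _ _).trans (min_le_left _ _)
  have d4 : √δ ≤ e := Real.sqrt_le_iff.2 ⟨e0.le, (min_le_right _ _).trans (min_le_right _ _)⟩
  refine ⟨δ, δ0, fun β hβ s hs a ha hb => ?_⟩
  obtain ⟨r, r0, hr⟩ := near_loc ha hb e0 δ0
  have hL : Lt N fun n σ j p => loc a σ p.1 j := fun n σ j =>
    ⟨continuous_pi fun i => (ha j _).continuous.comp (by fun_prop), fun p i => hb _ _ _⟩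
  have key : ∀ n : ℕ, 0 < n → ∀ (W : Mx n) (σ : Cube n) (x ξ : V n) (δ' : ℝ), δ ≤ δ' →
      Nd (min e 1) W (T n W) ∧ opn W ≤ 3 → nrm (ξ - x) ≤ r * √n →
      RIP (β / √n) (β • W) (range (loc a σ x)) (Fs (loc a σ x)) k (δ' * n) e →
      opn (β • T n W) ≤ 4 ∧ RIP (β / √n) (β • T n W) (range (loc a σ ξ)) (Fs (loc a σ ξ)) k (δ * n) ε := by
    rintro n hn W σ x ξ δ' hδ' ⟨⟨d, e1, -, e2⟩, hW⟩ hξ h
    have n0 : (0 : ℝ) < n := by positivity
    have bA : ∀ x : V n, BdS (range (loc a σ x)) := fun x => by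
      rintro _ ⟨j, rfl⟩ i; exact hb _ _ _
    have nF : ∀ f ∈ Fs (loc a σ ξ), nrm f ≤ 1 := by
      rintro _ ⟨j, rfl⟩; exact nrm_flat fun i => hb _ _ _
    have sm : ∀ {M : Mx n} {c : ℝ}, opn M ≤ c → opn (β • M) ≤ c := fun h => by
      rw [opn_smul, abs_of_pos hβ.1]; exact (mul_le_of_le_one_left (opn_nonneg _) hβ.2).trans h
    have o1 : opn (T n W - W) ≤ min e 1 := by
      rw [opn_sub_comm, sub_eq_iff_eq_add'.2 e1]
      exact opn_diagonal_le (by positivity) e2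
    have o2 : opn (T n W) ≤ 4 := by
      have := opn_add_le (T n W - W) W
      rw [sub_add_cancel] at this
      linarith [min_le_right e 1]
    have h3 := ((h.mono subset_rfl subset_rfl le_rfl (mul_le_mul_of_nonneg_right hδ' n0.le)
      le_rfl).near (R := 4) (δ := 3 * e) (F' := Fs (loc a σ ξ)) (sq_card hβ hn) (sm (by linarith))
      (bA x) (bA ξ) e0.le (by positivity) ?_ ?_ ?_).small (R := 4) (J' := β • T n W) (δ := e)
      (sq_card hβ hn) (sm (by linarith)) (sm o2) (bA ξ) nF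
      (by rw [← smul_sub]; exact sm (o1.trans (min_le_left _ _)))
    · refine ⟨sm o2, h3.mono subset_rfl subset_rfl le_rfl le_rfl (le_of_eq ?_)⟩
      rw [← hP, ← div_mul_cancel₀ ε (show 1 + (11 * k + 3) * P + (k + 1) * P * (1 + 4) ^ k ≠ 0 by
        positivity), ← he]
      ring
    · have := sq_card hβ hn
      rw [Fintype.card_fin] at this
      nlinarith [mul_le_mul_of_nonneg_left this δ0.le]
    · rintro _ ⟨j, rfl⟩
      obtain ⟨U, u1, u2⟩ := (hr n hn σ x ξ hξ j).1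
      exact ⟨_, ⟨j, rfl⟩, U, u1, fun i hi => (u2 i hi).trans (by linarith)⟩
    · rintro _ ⟨j, rfl⟩
      exact ⟨nF _ ⟨j, rfl⟩, _, ⟨j, rfl⟩, (hr n hn σ x ξ hξ j).2.trans (by linarith)⟩
  have hW := (hT (min e 1) (by positivity)).and TapPl.whp_opn
  have fin : ∀ {κ : ℝ} {δ' : ℝ} {R : ∀ n, Mx n → V n → V n → Prop}, 0 < κ → δ ≤ δ' →
      (Typ β s fun n W y => ∃ x, R n W y x ∧ nrm (fld β (T n W) y - x) ≤ r / 2 * √n) →
      (TypS β s κ fun n W y σ => ∀ x, R n W y x → RIP (β / √n) (β • W) (range (loc a σ x))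
        (Fs (loc a σ x)) k (δ' * n) e) → ∃ r > (0 : ℝ), ∃ κ > (0 : ℝ),
      TypS β s κ fun n W y σ => opn (β • T n W) ≤ 4 ∧ ∀ ξ, nrm (ξ - fld β (T n W) y) ≤ r * √n →
        RIP (β / √n) (β • T n W) (range (loc a σ ξ)) (Fs (loc a σ ξ)) k (δ * n) ε := by
    intro κ δ' R κ0 hd t1 t2
    refine ⟨r / 2, by positivity, t2.mono_typ κ0 (t1.mono' hW (Q := fun n W y =>
      (Nd (min e 1) W (T n W) ∧ opn W ≤ 3) ∧ ∃ x, R n W y x ∧
        nrm (fld β (T n W) y - x) ≤ r / 2 * √n) (.of_forall fun n W y a b => ⟨a, b⟩)) ?_⟩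
    filter_upwards [eventually_gt_atTop 0] with n hn W y σ ⟨g1, x, g2, g3⟩ g4
    refine ⟨(key n hn W σ x x δ' hd g1 (by rw [sub_self, nrm_zero]; positivity) (g4 x g2)).1,
      fun ξ hξ => (key n hn W σ x ξ δ' hd g1 ?_ (g4 x g2)).2⟩
    have := nrm_add_le (ξ - fld β (T n W) y) (fld β (T n W) y - x)
    rw [sub_add_sub_cancel] at this
    linarith
  rcases hs with rfl | hs
  · refine fin (R := fun _ _ _ x => x = 0) κ20 d2 (typ_zero (Top.whp_of_eventually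
      (.of_forall fun n W => ⟨0, rfl, ?_⟩))) ((h2 β hβ 0 le_rfl _ _ hL hL).mono' Top.whp_true
        (.of_forall fun n W y σ _ h x hx => hx ▸ h))
    simp only [fld, TopL.mag_ising_zero, Lp.cav, mulVec_zero, smul_zero, add_zero, sub_zero,
      nrm_zero]
    positivity
  · obtain ⟨κ, κ0, h⟩ := h1 β hβ s hs
    obtain ⟨M, M0, hM⟩ := accT hT hβ (ht0.trans_le hs)
    have h3 := h _ _ hL hL
    beta_reduce at h3
    refine fin (R := fun _ W y x => Ymap (β • W) (β ^ 2) x = y) κ0 d1 (hM.mono ?_) h3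
    filter_upwards [ev_sq (M := M ^ 2) (half_pos r0)] with n hn W y ⟨⟨x, hx⟩, g⟩
    exact ⟨x, hx, (g x hx).2.trans (abs_le_of_sq_le_sq' hn.2
      (mul_nonneg (half_pos r0).le (Real.sqrt_nonneg _))).2⟩

/-- **(RIP)** letters of the field only -/
theorem ripF {T : ∀ n, Mx n → Mx n} (hT : Adm T) (k N : ℕ) {ε t0 : ℝ} (hε : 0 < ε) (ht0 : 0 < t0) :
    ∃ δ > (0 : ℝ), ∀ β ∈ Ioc (0 : ℝ) 1, ∀ s, s = 0 ∨ t0 ≤ s → ∀ a : Fin N → ℝ → ℝ,
      (∀ j, UniformContinuous (a j)) → (∀ j x, |a j x| ≤ 1) → ∃ r > (0 : ℝ),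
      Typ β s fun n W y => opn (β • T n W) ≤ 4 ∧ ∀ ξ : V n, nrm (ξ - fld β (T n W) y) ≤ r * √n →
        RIP (β / √n) (β • T n W) (range fun j i => a j (ξ i)) (Fs fun j i => a j (ξ i))
          k (δ * n) ε := by
  obtain ⟨δ, δ0, h⟩ := ripT hT k N hε ht0
  refine ⟨δ, δ0, fun β hβ s hs a ha hb => ?_⟩
  obtain ⟨r, r0, κ, κ0, h⟩ := h β hβ s hs (fun j _ => a j) (fun j _ => ha j) fun j _ => hb j
  exact ⟨r, r0, TypS.typ κ0 h⟩

end Crest.Agent.T157.Rip

end
end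

-- ▼ part T157/RipF_25
section

/-!
# Row 157, part B (helper25): restricted isometry and cavity vectors at typical instances
-/

set_option autoImplicit false
set_option linter.unusedVariables false

noncomputable section

namespace Crest.Agent.T157.Rip

open MeasureTheory ProbabilityTheory Matrix Filter Set Topology
open Crest.ProbabilityR.SpinGlassDynamics
open Crest.Agent.T157.E Crest.Agent.T157.Eig Crest.Agent.T157.Cond Crest.Agent.T157.Tap
open Crest.Agent.T157.SL Crest.Agent.T157.Pos Crest.Agent.T157.Uw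

variable {n N : ℕ} {T : ∀ n, Mx n → Mx n} {β s : ℝ}

/-- tightness of the cavity field -/
theorem tightF (hT : Adm T) (hβ : β ∈ Ioc (0 : ℝ) 1) (hs : 0 ≤ s) {δ : ℝ} (hδ : 0 < δ) :
    ∃ M > (0 : ℝ), Typ β s fun n W y =>
      ((Finset.univ.filter fun i => M < |fld β (T n W) y i|).card : ℝ) ≤ δ * n := by
  obtain ⟨q, hq⟩ := exists_lv β hs
  have hc : ∀ M : ℝ, Continuous fun x : ℝ => min 1 (|x| / M) := fun M => by fun_prop
  have hb : ∀ M : ℕ, ∀ x : ℝ, |min 1 (|x| / M)| ≤ 1 := fun M x => by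
    rw [abs_of_nonneg (le_min zero_le_one (by positivity))]; exact min_le_left _ _
  have h : Tendsto (fun M : ℕ => gE (fun x => min 1 (|x| / M)) (s + β ^ 2 * q) (s + β ^ 2 * q))
      atTop (𝓝 (∫ _z, (0 : ℝ) ∂gaussianReal 0 1)) := by
    refine tendsto_integral_of_dominated_convergence (fun _ => 1) (fun M => ?_) (integrable_const _)
      (fun M => ae_of_all _ fun z => hb M _) (ae_of_all _ fun z => ?_)
    · exact Continuous.aestronglyMeasurable (by fun_prop)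
    · simpa using (tendsto_const_nhds (x := (1 : ℝ))).min (tendsto_const_div_atTop_nhds_zero_nat _)
  rw [integral_zero] at h
  obtain ⟨M, h1, h2⟩ := ((h.eventually (ge_mem_nhds (half_pos hδ))).and (eventually_gt_atTop 0)).exists
  have M0 : (0 : ℝ) < M := Nat.cast_pos.2 h2
  refine ⟨M, M0, (empF hT hβ hq (hc M) (fun x => by rw [abs_neg]) (hb M) (half_pos hδ)).mono ?_⟩
  filter_upwards [eventually_gt_atTop 0] with n hn W y h3
  have h4 : avg (fun i => min 1 (|fld β (T n W) y i| / M)) ≤ δ := by linarith [(abs_le.1 h3).2]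
  rw [avg, div_le_iff₀ (by positivity)] at h4
  refine le_trans ?_ h4
  rw [Finset.card_eq_sum_ones, Nat.cast_sum, Finset.sum_filter]
  refine Finset.sum_le_sum fun i _ => ?_
  split_ifs with hi
  · exact le_min (by simp) (by simpa using (one_le_div M0).2 hi.le)
  · exact le_min zero_le_one (by positivity)

lemma nrm_supp {v : V n} {S : Finset (Fin n)} {m c : ℝ} (hc : 0 ≤ c) (hS : (S.card : ℝ) ≤ m)
    (h0 : ∀ i ∉ S, v i = 0) (h : ∀ i, |v i| ≤ c) : nrm v ≤ c * √m := by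
  have h5 := fl_of_sup (m := m) (x := v) hc h v ⟨S, hS, h0⟩
  rw [← nrm_mul_self, abs_of_nonneg (mul_self_nonneg _)] at h5
  rcases (nrm_nonneg v).eq_or_lt with h1 | h1
  · rw [← h1]; positivity
  · exact le_of_mul_le_mul_right h5 h1

/-- **(RIP)** bounded continuous letters of the cavity field -/
theorem ripC (hT : Adm T) (k N : ℕ) {ε t0 : ℝ} (hε : 0 < ε) (ht0 : 0 < t0) :
    ∃ δ > (0 : ℝ), ∀ β ∈ Ioc (0 : ℝ) 1, ∀ s, s = 0 ∨ t0 ≤ s → ∀ a : Fin N → ℝ → ℝ,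
      (∀ j, Continuous (a j)) → (∀ j x, |a j x| ≤ 1) → Typ β s fun n W y => opn (β • T n W) ≤ 4 ∧
        RIP (β / √n) (β • T n W) (range fun j i => a j (fld β (T n W) y i))
          (Fs fun j i => a j (fld β (T n W) y i)) k (δ * n) ε := by
  set e : ℝ := ε / (1 + (5 * k + 1) * (1 + 4) ^ (k + 1)) with he
  have e0 : 0 < e := by positivity
  obtain ⟨δ1, δ10, h⟩ := ripF hT k N e0 ht0
  set δ := min δ1 (min e ((e / 2) ^ 2)) with hδ
  have δ0 : 0 < δ := by positivity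
  have d3 : δ ≤ e := (min_le_right _ _).trans (min_le_left _ _)
  have d4 : √δ ≤ e / 2 := Real.sqrt_le_iff.2 ⟨by positivity, (min_le_right _ _).trans (min_le_right _ _)⟩
  refine ⟨δ, δ0, fun β hβ s hs a ha hb => ?_⟩
  obtain ⟨M, M0, hM⟩ := tightF hT hβ (hs.elim (fun h => h.ge) ht0.le.trans) δ0
  have mM : -M ≤ M := by linarith
  obtain ⟨r, r0, h⟩ := h β hβ s hs (fun j x => a j (projIcc (-M) M mM x)) (fun j =>
    (CompactSpace.uniformContinuous_of_continuous ((ha j).comp continuous_subtype_val)).comp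
      (LipschitzWith.projIcc mM).uniformContinuous) fun j x => hb _ _
  refine (h.and hM).mono ?_
  filter_upwards [eventually_gt_atTop 0] with n hn W y ⟨⟨h1, h2⟩, h3⟩
  have n0 : (0 : ℝ) < n := by positivity
  have h4 := (h2 _ (by rw [sub_self, nrm_zero]; positivity)).mono subset_rfl subset_rfl le_rfl
    (mul_le_mul_of_nonneg_right (show δ ≤ δ1 from min_le_left _ _) n0.le) le_rfl
  have h5 : ∀ j, ∀ i ∉ Finset.univ.filter fun i => M < |fld β (T n W) y i|,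
      a j (fld β (T n W) y i) - a j (projIcc (-M) M mM (fld β (T n W) y i)) = 0 := fun j i hi => by
    rw [projIcc_of_mem mM (abs_le.1 (by simpa using hi)), sub_self]
  refine ⟨h1, (h4.near (sq_card hβ hn) h1 (by rintro _ ⟨j, rfl⟩ i; exact hb _ _)
    (by rintro _ ⟨j, rfl⟩ i; exact hb _ _) e0.le e0.le ?_ ?_ ?_).mono subset_rfl subset_rfl le_rfl
      le_rfl (le_of_eq ?_)⟩
  · rw [div_pow, Real.sq_sqrt n0.le, mul_comm δ, ← mul_assoc, div_mul_cancel₀ _ n0.ne']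
    exact (mul_le_of_le_one_left δ0.le (pow_le_one₀ hβ.1.le hβ.2)).trans d3
  · rintro _ ⟨j, rfl⟩
    exact ⟨_, ⟨j, rfl⟩, _, h3, fun i hi => by rw [h5 j i hi, abs_zero]; exact e0.le⟩
  · rintro _ ⟨j, rfl⟩
    refine ⟨nrm_flat fun i => hb _ _, _, ⟨j, rfl⟩, ?_⟩
    rw [← smul_sub, nrm_smul, abs_of_nonneg (by positivity), inv_mul_le_iff₀ (by positivity)]
    refine (nrm_supp zero_le_two h3 (h5 j) fun i => (abs_sub _ _).trans
      (by linarith [hb j (fld β (T n W) y i), hb j (projIcc (-M) M mM (fld β (T n W) y i))])).trans ?_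
    rw [Real.sqrt_mul δ0.le]
    nlinarith [Real.sqrt_nonneg (n : ℝ)]
  · rw [he]; field_simp; ring

/-- **(RIP)** in the filter of typical instances -/
theorem TF.rip (hβ : β ∈ Ioc (0 : ℝ) 1) (hs : 0 ≤ s) {ι : Type*} [Fintype ι] (k : ℕ) {ε : ℝ}
    (hε : 0 < ε) : ∃ δ > (0 : ℝ), ∀ a : ι → ℝ → ℝ, (∀ j, Continuous (a j)) → (∀ j x, |a j x| ≤ 1) →
      ∀ᶠ i in TF β s, RIP (β / √i.n) (i.J β) (range fun j k => a j (i.b β k))
        (Fs fun j k => a j (i.b β k)) k (δ * i.n) ε := by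
  obtain ⟨t0, t1, t2⟩ : ∃ t0 > (0 : ℝ), s = 0 ∨ t0 ≤ s :=
    hs.eq_or_lt.elim (fun h => ⟨1, one_pos, .inl h.symm⟩) fun h => ⟨s, h, .inr le_rfl⟩
  obtain ⟨δ, δ0, h⟩ := ripC adm_offd k (Fintype.card ι) hε t1
  refine ⟨δ, δ0, fun a ha hb => ?_⟩
  set e := Fintype.equivFin ι
  refine ((h β hβ s t2 (fun j => a (e.symm j)) (fun j => ha _) fun j => hb _).evJ
    (P := fun n J y => opn (β • J) ≤ 4 ∧ RIP (β / √n) (β • J) (range fun j i => a (e.symm j) (fld β J y i))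
      (Fs fun j i => a (e.symm j) (fld β J y i)) k (δ * n) ε)).mono fun i hi => hi.2.mono ?_ ?_
        le_rfl le_rfl le_rfl
  · rintro _ ⟨j, rfl⟩; exact ⟨e j, by simp [In.b]⟩
  · rintro _ ⟨j, rfl⟩; exact ⟨e j, by simp [In.b]⟩

lemma eta_avg (hn : 0 < n) (β : ℝ) (g : V n) : eta (β / √n) g = β ^ 2 * avg g := by
  rw [eta, avg, div_pow, Real.sq_sqrt (Nat.cast_nonneg n)]; ring

/-- **cavity vectors at typical instances** -/
theorem TF.cav (hβ : β ∈ Ioc (0 : ℝ) 1) {q0 : ℝ} (hL : Lv β s q0) {M ρ C2 e ε : ℝ} (hM : 1 ≤ M)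
    (hρ0 : 0 ≤ ρ) (hρ1 : ρ < 1) (hC2 : 1 ≤ C2) (he : 0 < e) (hε : 0 < ε) (κ : Type) [Fintype κ] :
    ∃ δ > (0 : ℝ), ∀ (g q : ℝ → ℝ) (d : κ → ℝ → ℝ), Continuous g → (∀ x, g (-x) = g x) →
      Continuous q → (∀ l, Continuous (d l)) → (∀ l x, |d l x| ≤ 1) →
      (∀ x, 0 < g x ∧ g x ≤ M ∧ β * g x ≤ ρ ∧ g x ≤ C2 * q x) → ∀ᶠ i in TF β s,
      |eta (β / √i.n) (fun k => g (i.b β k)) - β ^ 2 * gE g (s + β ^ 2 * q0) (s + β ^ 2 * q0)| ≤ ε ∧
      ∀ p α : V i.n, (∀ k, 0 ≤ p k ∧ p k ≤ C2 * q (i.b β k) ∧ p k ≤ C2 * g (i.b β k)) →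
        (∀ k, |α k - q (i.b β k) * (1 / g (i.b β k) + eta (β / √i.n) fun k => g (i.b β k))| ≤ e) →
        ∃ Wm, Cav (i.J β) p (fun k => q (i.b β k)) α (eta (β / √i.n) fun k => g (i.b β k))
          (2 * C2 / (1 - ρ)) (2 * C2 ^ 2 / (1 - ρ) ^ 2) ((2 * C2 / (1 - ρ) + 1) * e) ε (δ * i.n)
          (Fs fun l k => d l (i.b β k)) Wm := by
  obtain ⟨k, ε0, e0, h⟩ := Rip.cav hM hρ0 hρ1 hC2 he hε
  have M2 : M ≤ M ^ 2 := le_self_pow₀ hM two_ne_zero
  have m1 : M ^ 2 ≤ M ^ 2 * C2 := le_mul_of_one_le_right (sq_nonneg _) hC2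
  have m2 : C2 ≤ M ^ 2 * C2 := le_mul_of_one_le_left (by linarith) (hM.trans M2)
  have M0 : 0 < M := by linarith
  have C0 : 0 < C2 := by linarith
  obtain ⟨δ, δ0, hr⟩ := TF.rip hβ hL.1 (ι := Fin 3 ⊕ κ) k
    (ε := ε0 / (M ^ 2 * C2) ^ (k + 1)) (by positivity)
  refine ⟨δ, δ0, fun g q d cg eg cq cd bd hg => ?_⟩
  have q0 : ∀ x, 0 < q x := fun x => (mul_pos_iff_of_pos_left C0).1 ((hg x).1.trans_le (hg x).2.2.2)
  have b1 : ∀ x, |g x / M| ≤ 1 := fun x => by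
    rw [abs_of_pos (div_pos (hg x).1 M0)]; exact (div_le_one M0).2 (hg x).2.1
  have h1 := hr (Sum.elim ![fun x => g x / M, fun x => g x / M * (g x / M), fun _ => 1]
    fun l x => g x / q x / C2 * d l x) (by
      rintro (j | l)
      · fin_cases j <;> simp <;> fun_prop
      · exact ((cg.div cq fun x => (q0 x).ne').div_const _).mul (cd l)) (by
      rintro (j | l) x
      · fin_cases j
        exacts [b1 x, (abs_mul _ _).trans_le (mul_le_one₀ (b1 x) (abs_nonneg _) (b1 x)), abs_one.le]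
      · refine (abs_mul _ _).trans_le (mul_le_one₀ ?_ (abs_nonneg _) (bd l x))
        rw [abs_of_pos (div_pos (div_pos (hg x).1 (q0 x)) C0), div_le_one C0, div_le_iff₀ (q0 x)]
        exact (hg x).2.2.2)
  have h2 := ((TF.emp hβ hL cg eg (K := M) fun x => by
    rw [abs_of_pos (hg x).1]; exact (hg x).2.1).const_mul (β ^ 2)).eventually
      (Metric.closedBall_mem_nhds _ hε)
  filter_upwards [h1, h2, TF.lim.eventually (eventually_gt_atTop 0)] with i h1 h2 hn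
  refine ⟨by rw [eta_avg hn]; exact h2, fun p α hp hα => ?_⟩
  have h3 := h1.scale (by positivity) (hC2.trans m2)
  rw [mul_div_cancel₀ _ (by positivity)] at h3
  obtain ⟨Wm, hW⟩ := h _ _ _ _ _ _ (fun k => g (i.b β k)) p (fun k => q (i.b β k)) α h3
    i.symm (sq_card hβ hn)
    ⟨M, by rw [abs_of_pos M0]; linarith, _, ⟨.inl 0, rfl⟩, funext fun k => by simp; field_simp⟩
    ⟨M ^ 2, by rw [abs_of_nonneg (sq_nonneg _)]; exact m1, _, ⟨.inl 1, rfl⟩,
      funext fun k => by simp; field_simp⟩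
    ⟨1, by rw [abs_one]; linarith, _, ⟨.inl 2, rfl⟩, funext fun k => by simp⟩
    (fun k => (hg _).1) (fun k => (hg _).2.1) (fun k => q0 _) (fun k => (hp k).1)
    (fun k => (hg _).2.2.2) (fun k => (hp k).2.1) (fun k => (hp k).2.2) (by
      rw [eta_avg hn, avg, ← mul_div_assoc, div_le_iff₀ (by positivity), Finset.mul_sum]
      refine (Finset.sum_le_card_nsmul _ _ (ρ ^ 2) fun k _ => ?_).trans (by simp [mul_comm])
      have := pow_le_pow_left₀ (mul_pos hβ.1 (hg (i.b β k)).1).le (hg (i.b β k)).2.2.1 2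
      rw [Pi.mul_apply]; linarith) hα
  refine ⟨Wm, { hW with ty := fun c hc f hf => hW.ty c hc f ?_ }⟩
  obtain ⟨l, rfl⟩ := hf
  refine ⟨C2, by rw [abs_of_pos C0]; exact m2, _, ⟨.inr l, rfl⟩, funext fun k => ?_⟩
  simp
  field_simp

/-- gauge covariance of the cavity vectors -/
theorem Cav.conj {ι : Type*} [Fintype ι] [DecidableEq ι] {J Wm : Matrix ι ι ℝ} {p q α σ : ι → ℝ}
    {x C C0 e ε m : ℝ} {Ft : Set (ι → ℝ)} (h : Cav J p q α x C C0 e ε m Ft Wm)
    (hσ : ∀ i, σ i * σ i = 1) : Cav (diagonal σ * J * diagonal σ) p q α x C C0 e ε m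
      {f | σ * f ∈ Ft} (diagonal σ * Wm * diagonal σ) := by
  have e1 : ∀ (A : Matrix ι ι ℝ) c, (diagonal σ * A * diagonal σ) *ᵥ c = σ * A *ᵥ (σ * c) :=
    fun A c => by
      rw [← mulVec_mulVec, ← mulVec_mulVec,
        show diagonal σ *ᵥ c = σ * c from funext fun i => by simp [mulVec_diagonal]]
      exact funext fun i => by simp [mulVec_diagonal]
  have e2 : ∀ u v : ι → ℝ, σ * (u * (σ * v)) = u * v := fun u v => funext fun i => by
    simp only [Pi.mul_apply]; linear_combination (u i * v i) * hσ i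
  have e3 : ∀ v : ι → ℝ, σ * (σ * v) = v := fun v => by simpa using e2 1 v
  have e4 : ∀ u v : ι → ℝ, (σ * v) ⬝ᵥ (u * (σ * v)) = v ⬝ᵥ (u * v) := fun u v =>
    Finset.sum_congr rfl fun i _ => by
      simp only [Pi.mul_apply]; linear_combination (u i * v i * v i) * hσ i
  have e5 : ∀ v : ι → ℝ, (σ * v) ⬝ᵥ (σ * v) = v ⬝ᵥ v := fun v => by simpa using e4 1 v
  refine ⟨fun c hc => ?_, fun c hc => ?_, fun c hc => ?_, fun c hc => ?_, fun c hc => ?_,
    fun c hc f hf => ?_, fun c hc => ?_, fun c hc => ?_⟩ <;>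
    simp only [e1, e2, e4, nrm_sign hσ] <;> have hc' := hc.mul_left σ
  · exact nrm_sign hσ c ▸ h.nr _ hc'
  · exact e5 c ▸ h.en _ hc'
  · exact nrm_sign hσ c ▸ (h.fl _ hc').sign hσ
  · have := (h.fj _ hc').sign hσ
    rwa [nrm_sign hσ, mul_sub, mul_smul_comm, e3] at this
  · have := h.eq _ hc'
    rw [← nrm_sign hσ, nrm_sign hσ c] at this
    simpa only [mul_sub, mul_smul_comm, e3, mul_left_comm σ α] using this
  · have := h.ty _ hc' _ hf
    rw [nrm_sign hσ] at this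
    refine le_trans (le_of_eq ?_) this
    congr 1
    exact Finset.sum_congr rfl fun i _ => by simp only [Pi.mul_apply]; ring
  · exact nrm_sign hσ c ▸ (h.jj _ hc').sign hσ
  · exact e5 c ▸ h.je _ hc'

end Crest.Agent.T157.Rip

end
end

-- ▼ part T157/RipG_25

/-!
# Row 157, part B (helper25): cavity vectors orthogonal to an extra family of modes
-/

set_option autoImplicit false
set_option linter.unusedVariables false

noncomputable section

namespace Crest.Agent.T157.Rip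

open MeasureTheory ProbabilityTheory Matrix Filter Set Topology
open Crest.ProbabilityR.SpinGlassDynamics
open Crest.Agent.T157.E Crest.Agent.T157.Eig Crest.Agent.T157.Cond Crest.Agent.T157.Tap
open Crest.Agent.T157.SL Crest.Agent.T157.Pos Crest.Agent.T157.Uw Cav35

/-- vectors whose Wick powers are flat -/
def FW {ι : Type*} [Fintype ι] [DecidableEq ι] (s : ℝ) (J : Matrix ι ι ℝ) (g q : ι → ℝ) (k : ℕ)
    (m ε : ℝ) : Set (ι → ℝ) := {f | ∀ j ≤ k, Fl m ε (Ww s J g j *ᵥ (g / q * f))}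

lemma ty_of {ι : Type*} [Fintype ι] [DecidableEq ι] {s m ε : ℝ} {J : Matrix ι ι ℝ} {g q f c : ι → ℝ}
    {K k : ℕ} (hJ : Jᵀ = J) (hk : K ≤ k) (hf : f ∈ FW s J g q k m ε) (hc : Sp m c) :
    |((diagonal (g / q) * Yy s J g (K + 1)) *ᵥ c) ⬝ᵥ f| ≤ (K + 1) * ε * nrm c := by
  have e1 : ((diagonal (g / q) * Yy s J g (K + 1)) *ᵥ c) ⬝ᵥ f =
      c ⬝ᵥ ∑ k ∈ Finset.range (K + 1), Ww s J g k *ᵥ (g / q * f) := by
    rw [← Yy_mv, dotProduct_mulVec, ← mulVec_transpose, ← mulVec_mulVec, dmv]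
    have : (Yy s J g (K + 1))ᵀ = Yy s J g (K + 1) := by
      simp only [Yy, transpose_sum, Ww_symm hJ]
    rw [this]
    exact Finset.sum_congr rfl fun i _ => by simp only [Pi.mul_apply]; ring
  have f1 := Fl.sum (Finset.range (K + 1)) (z := fun k => Ww s J g k *ᵥ (g / q * f))
    (fun j hj => hf j (by have := Finset.mem_range.1 hj; omega)) c hc
  rw [e1]
  simpa using f1

/-- **existence of the cavity vectors**, orthogonal to every vector with flat Wick powers -/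
theorem cavW {M ρ C2 e ε : ℝ} (hM : 1 ≤ M) (hρ0 : 0 ≤ ρ) (hρ1 : ρ < 1) (hC2 : 1 ≤ C2) (he : 0 < e)
    (hε : 0 < ε) : ∃ (k : ℕ) (ε0 : ℝ), 0 < ε0 ∧ ∀ (ι : Type) [Fintype ι] [DecidableEq ι] (s m : ℝ)
      (J : Matrix ι ι ℝ) (A F : Set (ι → ℝ)) (g p q α : ι → ℝ), RIP s J A F k m ε0 → Jᵀ = J →
      s ^ 2 * Fintype.card ι ≤ 1 → g ∈ A → g * g ∈ A → (1 : ι → ℝ) ∈ A → (∀ i, 0 < g i) →
      (∀ i, g i ≤ M) → (∀ i, 0 < q i) → (∀ i, 0 ≤ p i) → (∀ i, g i ≤ C2 * q i) →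
      (∀ i, p i ≤ C2 * q i) → (∀ i, p i ≤ C2 * g i) → eta s (g * g) ≤ ρ ^ 2 →
      (∀ i, |α i - q i * (1 / g i + eta s g)| ≤ e) →
      ∃ Wm, ∀ m' ≤ m, Cav J p q α (eta s g) (2 * C2 / (1 - ρ)) (2 * C2 ^ 2 / (1 - ρ) ^ 2)
        ((2 * C2 / (1 - ρ) + 1) * e) ε m' ({f | g / q * f ∈ F} ∪ FW s J g q k m' ε0) Wm := by
  have hM2 : 0 < M ^ 2 + 1 := by positivity
  obtain ⟨K, hK⟩ := exists_pow_lt_of_lt_one (show 0 < e / (2 * (M ^ 2 + 1)) by positivity) hρ1
  have K0 : (0 : ℝ) ≤ K := Nat.cast_nonneg _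
  set τ : ℝ := min (min (1 / ((K : ℝ) + 1)) (e / (2 * (M ^ 2 + 1))))
    (min 1 (ε / (2 * C2 ^ 2 * (K + 1) ^ 2 + 1))) with hτ
  have τ0 : 0 < τ := by positivity
  have τ1 : τ ≤ 1 / (K + 1) := (min_le_left _ _).trans (min_le_left _ _)
  have τ2 : τ ≤ e / (2 * (M ^ 2 + 1)) := (min_le_left _ _).trans (min_le_right _ _)
  have τ3 : τ ≤ 1 := (min_le_right _ _).trans (min_le_left _ _)
  have τ4 : τ ≤ ε / (2 * C2 ^ 2 * (K + 1) ^ 2 + 1) := (min_le_right _ _).trans (min_le_right _ _)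
  rw [le_div_iff₀ (by positivity)] at τ1 τ2 τ4
  rw [lt_div_iff₀ (by positivity)] at hK
  set ε0 := min (τ ^ 2 / (1 + M * (K + 1))) (ε / ((C2 + M ^ 2 + 1) * (K + 3)))
  have e0 : 0 < ε0 := by positivity
  have t4 : (C2 + M ^ 2 + 1) * (K + 3) * ε0 ≤ ε := by
    rw [mul_comm, ← le_div_iff₀ (by positivity)]
    exact min_le_right _ _
  refine ⟨2 * (K + 1) + 1, ε0, e0,
    fun ι _ _ s m J A F g p q α h hJ hs hg hgg h1 g0 gM q0 p0 gq pq pg hρ hα => ?_⟩
  have hW := cav_of h hJ hs e0.le hM hρ0 hρ1 hC2 he.le hg hgg h1 g0 gM q0 p0 gq pq pg hρ hα τ0.le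
    (by push_cast; rw [mul_comm, ← le_div_iff₀ (by positivity)]; exact min_le_left _ _)
    (by linarith) (by
      have a : 0 ≤ 2 * C2 ^ 2 * (K + 1) ^ 2 := by positivity
      have b : τ ^ 2 ≤ τ := by nlinarith
      nlinarith [mul_le_mul_of_nonneg_left b a]) (by linarith) t4
  refine ⟨Matrix.diagonal (g / q) * Yy s J g (K + 1), fun m' hm => ?_⟩
  have hW' := hW.mono (eta_nonneg fun i => (g0 i).le) le_rfl le_rfl le_rfl le_rfl hm subset_rfl
  refine { hW' with ty := fun c hc f hf => hf.elim (hW'.ty c hc f) fun hf => ?_ }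
  refine (ty_of hJ (by omega) hf hc).trans (mul_le_mul_of_nonneg_right ?_ (nrm_nonneg _))
  exact le_trans (mul_le_mul_of_nonneg_right (by nlinarith) e0.le) t4

variable {β s : ℝ}

/-- **cavity vectors at typical instances**, orthogonal to the types and to `FW` -/
theorem TF.cavW (hβ : β ∈ Ioc (0 : ℝ) 1) {q0 : ℝ} (hL : Lv β s q0) {M ρ C2 e ε : ℝ} (hM : 1 ≤ M)
    (hρ0 : 0 ≤ ρ) (hρ1 : ρ < 1) (hC2 : 1 ≤ C2) (he : 0 < e) (hε : 0 < ε) (κ : Type) [Fintype κ] :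
    ∃ (k : ℕ) (ε0 δ : ℝ), 0 < ε0 ∧ 0 < δ ∧ ∀ (g q : ℝ → ℝ) (d : κ → ℝ → ℝ), Continuous g →
      (∀ x, g (-x) = g x) → Continuous q → (∀ l, Continuous (d l)) → (∀ l x, |d l x| ≤ 1) →
      (∀ x, 0 < g x ∧ g x ≤ M ∧ β * g x ≤ ρ ∧ g x ≤ C2 * q x) → ∀ᶠ i in TF β s,
      |eta (β / √i.n) (fun k => g (i.b β k)) - β ^ 2 * gE g (s + β ^ 2 * q0) (s + β ^ 2 * q0)| ≤ ε ∧
      ∀ p α : V i.n, (∀ k, 0 ≤ p k ∧ p k ≤ C2 * q (i.b β k) ∧ p k ≤ C2 * g (i.b β k)) →
        (∀ k, |α k - q (i.b β k) * (1 / g (i.b β k) + eta (β / √i.n) fun k => g (i.b β k))| ≤ e) →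
        ∃ Wm, ∀ m ≤ δ * i.n, Cav (i.J β) p (fun k => q (i.b β k)) α
          (eta (β / √i.n) fun k => g (i.b β k)) (2 * C2 / (1 - ρ)) (2 * C2 ^ 2 / (1 - ρ) ^ 2)
          ((2 * C2 / (1 - ρ) + 1) * e) ε m ((Fs fun l k => d l (i.b β k)) ∪
            FW (β / √i.n) (i.J β) (fun k => g (i.b β k)) (fun k => q (i.b β k)) k m ε0) Wm := by
  obtain ⟨k, ε0, e0, h⟩ := Rip.cavW hM hρ0 hρ1 hC2 he hε
  have M2 : M ≤ M ^ 2 := le_self_pow₀ hM two_ne_zero
  have m1 : M ^ 2 ≤ M ^ 2 * C2 := le_mul_of_one_le_right (sq_nonneg _) hC2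
  have m2 : C2 ≤ M ^ 2 * C2 := le_mul_of_one_le_left (by linarith) (hM.trans M2)
  have M0 : 0 < M := by linarith
  have C0 : 0 < C2 := by linarith
  obtain ⟨δ, δ0, hr⟩ := TF.rip hβ hL.1 (ι := Fin 3 ⊕ κ) k
    (ε := ε0 / (M ^ 2 * C2) ^ (k + 1)) (by positivity)
  refine ⟨k, ε0, δ, e0, δ0, fun g q d cg eg cq cd bd hg => ?_⟩
  have q0 : ∀ x, 0 < q x := fun x => (mul_pos_iff_of_pos_left C0).1 ((hg x).1.trans_le (hg x).2.2.2)
  have b1 : ∀ x, |g x / M| ≤ 1 := fun x => by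
    rw [abs_of_pos (div_pos (hg x).1 M0)]; exact (div_le_one M0).2 (hg x).2.1
  have h1 := hr (Sum.elim ![fun x => g x / M, fun x => g x / M * (g x / M), fun _ => 1]
    fun l x => g x / q x / C2 * d l x) (by
      rintro (j | l)
      · fin_cases j <;> simp <;> fun_prop
      · exact ((cg.div cq fun x => (q0 x).ne').div_const _).mul (cd l)) (by
      rintro (j | l) x
      · fin_cases j
        exacts [b1 x, (abs_mul _ _).trans_le (mul_le_one₀ (b1 x) (abs_nonneg _) (b1 x)), abs_one.le]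
      · refine (abs_mul _ _).trans_le (mul_le_one₀ ?_ (abs_nonneg _) (bd l x))
        rw [abs_of_pos (div_pos (div_pos (hg x).1 (q0 x)) C0), div_le_one C0, div_le_iff₀ (q0 x)]
        exact (hg x).2.2.2)
  have h2 := ((TF.emp hβ hL cg eg (K := M) fun x => by
    rw [abs_of_pos (hg x).1]; exact (hg x).2.1).const_mul (β ^ 2)).eventually
      (Metric.closedBall_mem_nhds _ hε)
  filter_upwards [h1, h2, TF.lim.eventually (eventually_gt_atTop 0)] with i h1 h2 hn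
  refine ⟨by rw [eta_avg hn]; exact h2, fun p α hp hα => ?_⟩
  have h3 := h1.scale (by positivity) (hC2.trans m2)
  rw [mul_div_cancel₀ _ (by positivity)] at h3
  obtain ⟨Wm, hW⟩ := h _ _ _ _ _ _ (fun k => g (i.b β k)) p (fun k => q (i.b β k)) α h3
    i.symm (sq_card hβ hn)
    ⟨M, by rw [abs_of_pos M0]; linarith, _, ⟨.inl 0, rfl⟩, funext fun k => by simp; field_simp⟩
    ⟨M ^ 2, by rw [abs_of_nonneg (sq_nonneg _)]; exact m1, _, ⟨.inl 1, rfl⟩,
      funext fun k => by simp; field_simp⟩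
    ⟨1, by rw [abs_one]; linarith, _, ⟨.inl 2, rfl⟩, funext fun k => by simp⟩
    (fun k => (hg _).1) (fun k => (hg _).2.1) (fun k => q0 _) (fun k => (hp k).1)
    (fun k => (hg _).2.2.2) (fun k => (hp k).2.1) (fun k => (hp k).2.2) (by
      rw [eta_avg hn, avg, ← mul_div_assoc, div_le_iff₀ (by positivity), Finset.mul_sum]
      refine (Finset.sum_le_card_nsmul _ _ (ρ ^ 2) fun k _ => ?_).trans (by simp [mul_comm])
      have := pow_le_pow_left₀ (mul_pos hβ.1 (hg (i.b β k)).1).le (hg (i.b β k)).2.2.1 2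
      rw [Pi.mul_apply]; linarith) hα
  refine ⟨Wm, fun m hm => { hW m hm with ty := fun c hc f hf => (hW m hm).ty c hc f (hf.imp ?_ id) }⟩
  rintro ⟨l, rfl⟩
  refine ⟨C2, by rw [abs_of_pos C0]; exact m2, _, ⟨.inr l, rfl⟩, funext fun k => ?_⟩
  simp
  field_simp

/-- flatness of the Wick powers of a family of modes -/
def FlW (β s : ℝ) (g q : ℝ → ℝ) (Vf : ∀ i : Pos.In, Set (V i.n)) : Prop :=
  ∀ (k : ℕ) (ε : ℝ), 0 < ε → ∃ δ > (0 : ℝ), ∀ᶠ i in TF β s, ∀ f ∈ Vf i, ∀ j ≤ k,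
    Fl (δ * i.n) ε (Ww (β / √i.n) (i.J β) (fun k => g (i.b β k)) j *ᵥ
      ((fun k => g (i.b β k) / q (i.b β k)) * f))

/-- **cavity vectors at typical instances**, orthogonal to the types and to the modes `Vf` -/
theorem TF.cavV (hβ : β ∈ Ioc (0 : ℝ) 1) {q0 : ℝ} (hL : Lv β s q0) {M ρ C2 e ε : ℝ} (hM : 1 ≤ M)
    (hρ0 : 0 ≤ ρ) (hρ1 : ρ < 1) (hC2 : 1 ≤ C2) (he : 0 < e) (hε : 0 < ε) {κ : Type} [Fintype κ]
    {g q : ℝ → ℝ} {d : κ → ℝ → ℝ} (cg : Continuous g) (eg : ∀ x, g (-x) = g x) (cq : Continuous q)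
    (cd : ∀ l, Continuous (d l)) (bd : ∀ l x, |d l x| ≤ 1)
    (hg : ∀ x, 0 < g x ∧ g x ≤ M ∧ β * g x ≤ ρ ∧ g x ≤ C2 * q x) {Vf : ∀ i : Pos.In, Set (V i.n)}
    (hV : FlW β s g q Vf) : ∃ δ > (0 : ℝ), ∀ᶠ i in TF β s,
      |eta (β / √i.n) (fun k => g (i.b β k)) - β ^ 2 * gE g (s + β ^ 2 * q0) (s + β ^ 2 * q0)| ≤ ε ∧
      ∀ p α : V i.n, (∀ k, 0 ≤ p k ∧ p k ≤ C2 * q (i.b β k) ∧ p k ≤ C2 * g (i.b β k)) →
        (∀ k, |α k - q (i.b β k) * (1 / g (i.b β k) + eta (β / √i.n) fun k => g (i.b β k))| ≤ e) →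
        ∃ Wm, Cav (i.J β) p (fun k => q (i.b β k)) α (eta (β / √i.n) fun k => g (i.b β k))
          (2 * C2 / (1 - ρ)) (2 * C2 ^ 2 / (1 - ρ) ^ 2) ((2 * C2 / (1 - ρ) + 1) * e) ε (δ * i.n)
          ((Fs fun l k => d l (i.b β k)) ∪ Vf i) Wm := by
  obtain ⟨k, ε0, δ, e0, δ0, h⟩ := TF.cavW hβ hL hM hρ0 hρ1 hC2 he hε κ
  obtain ⟨δ', δ1, h'⟩ := hV k ε0 e0
  refine ⟨min δ δ', lt_min δ0 δ1, ?_⟩
  filter_upwards [h g q d cg eg cq cd bd hg, h'] with i h1 h2
  refine ⟨h1.1, fun p α hp hα => ?_⟩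
  obtain ⟨Wm, hW⟩ := h1.2 p α hp hα
  have n0 : (0 : ℝ) ≤ i.n := Nat.cast_nonneg _
  have h3 := hW _ (mul_le_mul_of_nonneg_right (min_le_left δ δ') n0)
  exact ⟨Wm, { h3 with ty := fun c hc f hf => h3.ty c hc f (hf.imp id fun hf j hj =>
    (h2 f hf j hj).mono (mul_le_mul_of_nonneg_right (min_le_right δ δ') n0) le_rfl) }⟩

end Crest.Agent.T157.Rip

end
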