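import Crest.Agent.T157.LpG1_17
import Crest.Agent.T157.TapEx_80
import Crest.Agent.T157.TapSE_6
import Crest.Agent.T157.PosE_23
import Crest.Agent.T157.ZDef_73

-- ▼ part T157/ZMd_23
section

/-!
# Row 157, part B (Z): mirror descent follows the TAP point (helper23)
-/

set_option autoImplicit false

noncomputable section

namespace Crest.Agent.T157.Md

open Matrix Set Filter
open Crest.Agent.T157.E Crest.Agent.T157.Eig Crest.Agent.T157.Tap
open Crest.Agent.T157.Lp (cav)

/-- Bregman divergence of `log cosh` -/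
def br (a b : ℝ) : ℝ := Real.log (Real.cosh a) - Real.log (Real.cosh b) - Real.tanh b * (a - b)

lemma br_three (a b c : ℝ) : br a c - br b c = (Real.tanh a - Real.tanh c) * (a - b) - br b a := by
  simp only [br]; ring

lemma le_br (a b : ℝ) : (Real.tanh a - Real.tanh b) ^ 2 / 2 ≤ br a b := by
  have hd : ∀ x, HasDerivAt (fun x => br x b - (Real.tanh x - Real.tanh b) ^ 2 / 2)
      ((Real.tanh x - Real.tanh b) * Real.tanh x ^ 2) x := fun x => by
    have h1 := (Real.hasDerivAt_cosh x).log (Real.cosh_pos x).ne'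
    rw [← Real.tanh_eq_sinh_div_cosh] at h1
    have h2 := ((h1.sub_const (Real.log (Real.cosh b))).sub
      (((hasDerivAt_id x).sub_const b).const_mul (Real.tanh b))).sub
        ((((SE.hasDerivAt_tanh x).sub_const (Real.tanh b)).pow 2).div_const 2)
    refine (h2.congr_deriv ?_).congr_of_eventuallyEq (.of_forall fun _ => rfl)
    simp only [Nat.cast_ofNat]; ring
  have h0 : br b b - (Real.tanh b - Real.tanh b) ^ 2 / 2 = 0 := by simp [br]
  rw [← sub_nonneg, ← h0]
  rcases le_total b a with h | h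
  · refine monotoneOn_of_deriv_nonneg (convex_Ici b) (fun x _ => (hd x).continuousAt.continuousWithinAt)
      (fun x _ => (hd x).differentiableAt.differentiableWithinAt) (fun x hx => ?_) self_mem_Ici h h
    rw [(hd x).deriv]
    exact mul_nonneg (sub_nonneg.2 (SE.monotone_tanh (interior_subset hx))) (sq_nonneg _)
  · refine antitoneOn_of_deriv_nonpos (convex_Iic b) (fun x _ => (hd x).continuousAt.continuousWithinAt)
      (fun x _ => (hd x).differentiableAt.differentiableWithinAt) (fun x hx => ?_) h self_mem_Iic h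
    rw [(hd x).deriv]
    exact mul_nonpos_of_nonpos_of_nonneg (sub_nonpos.2 (SE.monotone_tanh
      (mem_Iic.1 (interior_subset hx))))
      (sq_nonneg _)

lemma br_le (a b : ℝ) : br a b ≤ (Real.tanh a - Real.tanh b) * (a - b) := by
  have h1 := br_three a b b
  have h2 : br b b = 0 := by simp [br]
  linarith [le_br b a, sq_nonneg (Real.tanh b - Real.tanh a)]

lemma tanh_seg (a b : ℝ) {t : ℝ} (ht : t ∈ Icc (0 : ℝ) 1) :
    |Real.tanh (b + t * (a - b)) - Real.tanh b| ≤ |Real.tanh a - Real.tanh b| := by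
  rcases le_total b a with h | h
  · have h1 := SE.monotone_tanh (show b ≤ b + t * (a - b) by nlinarith [ht.1])
    have h2 := SE.monotone_tanh (show b + t * (a - b) ≤ a by nlinarith [ht.2])
    rw [abs_of_nonneg (by linarith), abs_of_nonneg (by linarith)]; linarith
  · have h1 := SE.monotone_tanh (show b + t * (a - b) ≤ b by nlinarith [ht.1])
    have h2 := SE.monotone_tanh (show a ≤ b + t * (a - b) by nlinarith [ht.2])
    rw [abs_of_nonpos (by linarith), abs_of_nonpos (by linarith)]; linarith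

variable {n : ℕ} {J : Mx n} {b c r η : ℝ} {p0 y xs : V n}

/-- Bregman divergence -/
def Br (x x' : V n) : ℝ := ∑ i, br (x i) (x' i)

lemma le_Br (x x' : V n) : nrm (th x - th x') ^ 2 / 2 ≤ Br x x' := by
  rw [nrm_sq, dotProduct, Finset.sum_div]
  exact Finset.sum_le_sum fun i _ => by rw [← sq]; exact le_br (x i) (x' i)

lemma Br_le (x x' : V n) : Br x x' ≤ (th x - th x') ⬝ᵥ (x - x') :=
  Finset.sum_le_sum fun i _ => br_le (x i) (x' i)

lemma Br_le_sq (x x' : V n) : Br x x' ≤ nrm (x - x') ^ 2 :=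
  (Br_le x x').trans ((le_abs_self _).trans ((abs_dot_le _ _).trans (by
    rw [sq]; exact mul_le_mul_of_nonneg_right (SE.nrm_th_sub_le _ _) (nrm_nonneg _))))

lemma Br_three (x x' z : V n) : Br x z - Br x' z = (th x - th z) ⬝ᵥ (x - x') - Br x' x := by
  simp only [Br, dotProduct, ← Finset.sum_sub_distrib]
  exact Finset.sum_congr rfl fun i _ => br_three _ _ _

/-- one step of mirror descent on the TAP free energy -/
def md (J : Mx n) (b η : ℝ) (y x : V n) : V n := x - η • (Ymap J b x - y)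

lemma md_eq (J : Mx n) (b η : ℝ) (y x : V n) :
    md J b η y x = (1 - η) • x + η • cav J b y (th x) := by
  simp only [md, Ymap, cav]; module

lemma cav_fix (h : Ymap J b xs = y) : cav J b y (th xs) = xs := by rw [← h, Lp.G1.cav_Ymap]

lemma cav_sub (hJ : opn J ≤ 3) (hb : b ∈ Icc (0 : ℝ) 1) (y x x' : V n) :
    nrm (cav J b y (th x) - cav J b y (th x')) ≤ 6 * nrm (th x - th x') := by
  simpa [nrm_zero] using Lp.G1.cav_lip hJ hb y y (cb_th x) (cb_th x')

lemma md_sub (hJ : opn J ≤ 3) (hb : b ∈ Icc (0 : ℝ) 1) (hη : η ∈ Icc (0 : ℝ) 1)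
    (h : Ymap J b xs = y) (x : V n) :
    nrm (md J b η y x - xs) ≤ (1 - η) * nrm (x - xs) + η * (6 * nrm (th x - th xs)) := by
  have e : md J b η y x - xs = (1 - η) • (x - xs) + η • (cav J b y (th x) - cav J b y (th xs)) := by
    rw [md_eq, cav_fix h]; module
  rw [e]
  refine (nrm_add_le _ _).trans ?_
  rw [nrm_smul, nrm_smul, abs_of_nonneg hη.1, abs_of_nonneg (sub_nonneg.2 hη.2)]
  exact add_le_add le_rfl (mul_le_mul_of_nonneg_left (cav_sub hJ hb y x xs) hη.1)

lemma md_th (hJ : opn J ≤ 3) (hb : b ∈ Icc (0 : ℝ) 1) (h0 : 0 ≤ η) (hη : η ≤ 1 / 6)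
    (h : Ymap J b xs = y) (x : V n) : nrm (th (md J b η y x) - th xs) ≤ 2 * nrm (th x - th xs) := by
  have e : md J b η y x - (xs + (1 - η) • (x - xs)) =
      η • (cav J b y (th x) - cav J b y (th xs)) := by rw [md_eq, cav_fix h]; module
  have h1 := SE.nrm_th_sub_le (md J b η y x) (xs + (1 - η) • (x - xs))
  rw [e, nrm_smul, abs_of_nonneg h0] at h1
  have h2 : nrm (th (xs + (1 - η) • (x - xs)) - th xs) ≤ nrm (th x - th xs) :=
    Real.sqrt_le_sqrt (Finset.sum_le_sum fun i _ => by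
      rw [← sq, ← sq]
      exact sq_le_sq.2 (tanh_seg (x i) (xs i) ⟨by linarith, by linarith⟩))
  have h3 := nrm_add_le (th (md J b η y x) - th (xs + (1 - η) • (x - xs)))
    (th (xs + (1 - η) • (x - xs)) - th xs)
  rw [sub_add_sub_cancel] at h3
  nlinarith [mul_le_mul_of_nonneg_left (cav_sub hJ hb y x xs) h0, nrm_nonneg (th x - th xs)]

/-- contraction of the Bregman divergence on a good ball -/
theorem md_step (hJ : opn J ≤ 3) (hb : b ∈ Icc (0 : ℝ) 1) (hc : c ∈ Ioc (0 : ℝ) 1)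
    (hG : GoodB J b c r p0) (h0 : 0 ≤ η) (hη : η ≤ c / 72) (h : Ymap J b xs = y) {x : V n}
    (hx : nrm (th xs - p0) + 2 * nrm (th x - th xs) ≤ r) :
    (1 + η * c / 14) * Br (md J b η y x) xs ≤ Br x xs := by
  have η6 : η ≤ 1 / 6 := by linarith [hc.2]
  set x' := md J b η y x with hx'
  have h1 := md_th hJ hb h0 η6 h x
  rw [← hx'] at h1
  have h2 : nrm (th x' - p0) ≤ r := by
    have := nrm_add_le (th x' - th xs) (th xs - p0)
    rw [sub_add_sub_cancel] at this; linarith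
  have h3 := Ex80.mono hc.1 hG (p := th xs) (q := th x') (th_lt xs) (th_lt x')
    (by linarith [nrm_nonneg (th x - th xs)]) h2
  rw [Ex80.ath_th, Ex80.ath_th, h, ← nrm_sq] at h3
  set D := th x' - th xs with hD
  set G := D ⬝ᵥ (Ymap J b x' - y) with hGd
  have e1 : Ymap J b x' - y = x' - cav J b y (th x') := by simp only [Ymap, cav]; abel
  have h4 : D ⬝ᵥ (x' - xs) ≤ G + 6 * nrm D ^ 2 := by
    have e : x' - xs = (Ymap J b x' - y) + (cav J b y (th x') - cav J b y (th xs)) := by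
      rw [e1, cav_fix h]; abel
    have t := (le_abs_self _).trans ((abs_dot_le D _).trans
      (mul_le_mul_of_nonneg_left (cav_sub hJ hb y x' xs) (nrm_nonneg _)))
    rw [e, dotProduct_add]; nlinarith
  have h5 : (1 - η) * (D ⬝ᵥ (x' - x)) ≤ -η * G + η * (nrm D * (6 * nrm (th x - th x'))) := by
    have e : (1 - η) • (x' - x) =
        -η • (Ymap J b x' - y) + η • (cav J b y (th x) - cav J b y (th x')) := by
      rw [e1]; conv_lhs => rw [hx', md_eq]
      conv_rhs => enter [1, 2, 1]; rw [hx', md_eq]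
      module
    have t := (le_abs_self _).trans ((abs_dot_le D _).trans
      (mul_le_mul_of_nonneg_left (cav_sub hJ hb y x x') (nrm_nonneg _)))
    rw [← smul_eq_mul, ← dotProduct_smul, e, dotProduct_add, dotProduct_smul, dotProduct_smul,
      smul_eq_mul, smul_eq_mul]
    exact add_le_add le_rfl (mul_le_mul_of_nonneg_left t h0)
  have h6 := Br_three x' x xs
  have h7 := le_Br x x'
  have h8 := Br_le x' xs
  have h9 := le_Br x' xs
  rw [← hD] at h6 h8 h9
  set u := nrm (th x - th x')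
  set d := nrm D
  have G0 : 0 ≤ G := le_trans (mul_nonneg hc.1.le (sq_nonneg _)) h3
  have k1 : η * (d * (6 * u)) ≤ 36 * η * (η * d ^ 2) + u ^ 2 / 4 := by
    nlinarith [sq_nonneg (6 * η * d - u / 2)]
  have k2 : η * d ^ 2 ≤ G / 72 := by nlinarith [sq_nonneg d]
  have k3 : u ^ 2 / 4 ≤ (1 - η) * Br x x' := by nlinarith [sq_nonneg u]
  have k4 : η * G / 2 ≤ (1 - η) * (Br x xs - Br x' xs) := by
    have := mul_le_mul_of_nonneg_left k2 h0
    have e : (1 - η) * (Br x xs - Br x' xs) = -((1 - η) * (D ⬝ᵥ (x' - x))) + (1 - η) * Br x x' := by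
      rw [show Br x xs - Br x' xs = -(D ⬝ᵥ (x' - x) - Br x x') by linarith]; ring
    linarith
  have k5 : c * Br x' xs ≤ 7 * G := by nlinarith [hc.1, hc.2]
  have k6 : 0 ≤ Br x xs - Br x' xs :=
    nonneg_of_mul_nonneg_right (a := 1 - η) (by nlinarith) (by linarith)
  nlinarith [mul_le_mul_of_nonneg_left k5 h0]

/-- geometric convergence on a good ball -/
theorem md_iter (hJ : opn J ≤ 3) (hb : b ∈ Icc (0 : ℝ) 1) (hc : c ∈ Ioc (0 : ℝ) 1)
    (hG : GoodB J b c r p0) (h0 : 0 ≤ η) (hη : η ≤ c / 72) (h : Ymap J b xs = y) {x : V n} {a : ℝ}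
    (ha : nrm (x - xs) ≤ a) (hx : nrm (th xs - p0) + 3 * a ≤ r) (k : ℕ) :
    nrm ((md J b η y)^[k] x - xs) ≤ 18 * a * (1 - η * c / 56) ^ k := by
  have a0 : 0 ≤ a := (nrm_nonneg _).trans ha
  have t0 : 0 ≤ η * c := mul_nonneg h0 hc.1.le
  have t1 : η * c ≤ η := mul_le_of_le_one_right h0 hc.2
  have η1 : η ≤ 1 / 72 := by linarith [hc.2]
  set μ := 1 - η * c / 56 with hμ
  have μ0 : 0 ≤ μ := by linarith
  suffices H : Br ((md J b η y)^[k] x) xs ≤ (a * μ ^ k) ^ 2 ∧
      nrm ((md J b η y)^[k] x - xs) ≤ 18 * a * μ ^ k from H.2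
  induction k with
  | zero => exact ⟨(Br_le_sq _ _).trans (by simpa using pow_le_pow_left₀ (nrm_nonneg _) ha 2),
      by simpa using ha.trans (by linarith)⟩
  | succ k ih =>
    rw [Function.iterate_succ_apply']
    set z := (md J b η y)^[k] x
    have m0 : 0 ≤ a * μ ^ k := by positivity
    have m1 : a * μ ^ k ≤ a := mul_le_of_le_one_right a0 (pow_le_one₀ μ0 (by linarith))
    have h1 : nrm (th z - th xs) ≤ 3 / 2 * (a * μ ^ k) :=
      abs_le_of_sq_le_sq' (by nlinarith [le_Br z xs, ih.1]) (by positivity) |>.2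
    have h2 := md_step hJ hb hc hG h0 hη h (x := z) (by linarith)
    have h3 := md_sub hJ hb ⟨h0, by linarith⟩ h z
    refine ⟨le_of_mul_le_mul_left (h2.trans (ih.1.trans ?_)) (by positivity), h3.trans ?_⟩
    · rw [pow_succ μ, ← mul_assoc, mul_pow (a * μ ^ k), mul_left_comm]
      refine le_mul_of_one_le_right (sq_nonneg _) ?_
      rw [hμ]; nlinarith [mul_nonneg t0 (sq_nonneg (η * c)), mul_nonneg t0 t0]
    · have u1 := mul_le_mul_of_nonneg_left ih.2 (show 0 ≤ 1 - η by linarith)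
      have u2 := mul_le_mul_of_nonneg_left h1 h0
      have u3 := mul_le_mul_of_nonneg_left (show 1 - η / 2 ≤ μ by linarith) m0
      rw [pow_succ]; nlinarith

/-- from one field to a neighbouring field -/
theorem level (hS : Jᵀ = J) (hJ : opn J ≤ 3) (hb : b ∈ Icc (0 : ℝ) 1) (hc : c ∈ Ioc (0 : ℝ) 1)
    {x0 y1 X : V n} (hG : GoodB J b c r (th x0)) (h0 : 0 ≤ η) (hη : η ≤ c / 72) {ρ e : ℝ}
    (hy : nrm (y1 - Ymap J b x0) ≤ ρ) (hX : nrm (X - x0) ≤ e) (hr : 3 * e + 22 * (ρ / c) < r) :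
    ∃ x1, Ymap J b x1 = y1 ∧ nrm (th x1 - th x0) ≤ ρ / c ∧ nrm (x1 - x0) ≤ 7 * (ρ / c) ∧
      ∀ k, nrm ((md J b η y1)^[k] X - x1) ≤ 18 * (e + 7 * (ρ / c)) * (1 - η * c / 56) ^ k := by
  have e0 : 0 ≤ e := (nrm_nonneg _).trans hX
  have ρ0 : 0 ≤ ρ := (nrm_nonneg _).trans hy
  have ρ1 : ρ ≤ ρ / c := le_div_self ρ0 hc.1 hc.2
  obtain ⟨E1, E2⟩ := (exStmt n J b hS).2 c r (th x0) hc.1 hG
  obtain ⟨x1, h1, h2⟩ := E2 x0 y1 (by
    rw [sub_self, nrm_zero, zero_add]
    linarith [div_le_div_of_nonneg_right hy hc.1.le])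
  have h3 : nrm (th x1 - th x0) ≤ ρ / c := by
    have := E1 x1 x0 h2.le (by rw [sub_self, nrm_zero]; linarith)
    rw [h1] at this
    rw [le_div_iff₀ hc.1]; linarith
  have h4 := Lp.G1.cav_lip hJ hb (Ymap J b x1) (Ymap J b x0) (cb_th x1) (cb_th x0)
  rw [Lp.G1.cav_Ymap, Lp.G1.cav_Ymap, h1] at h4
  refine ⟨x1, h1, h3, by linarith, md_iter hJ hb hc hG h0 hη h1 ?_ (by linarith)⟩
  have := nrm_sub_le (X - x0) (x1 - x0)
  rw [sub_sub_sub_cancel_right] at this; linarith

/-- the orbit: `K` steps at each of the fields `y 1, y 2, …` -/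
def orb (J : Mx n) (b η : ℝ) (K : ℕ) (y : ℕ → V n) (X : V n) : ℕ → V n
  | 0 => X
  | j + 1 => (md J b η (y (j + 1)))^[K] (orb J b η K y X j)

/-- **mirror descent follows the TAP point** along a chain of good fields -/
theorem follow (hS : Jᵀ = J) (hJ : opn J ≤ 3) (hb : b ∈ Icc (0 : ℝ) 1) (hc : c ∈ Ioc (0 : ℝ) 1)
    (h0 : 0 ≤ η) (hη : η ≤ c / 72) {K N : ℕ} {θ ρ : ℝ} (hK : 18 * (1 - η * c / 56) ^ K ≤ θ)
    (hθ : θ ≤ 1 / 2) (hr : 43 * (ρ / c) < r) {y : ℕ → V n} {X x0 : V n}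
    (hG : ∀ j < N, ∀ x, Ymap J b x = y j → GoodB J b c r (th x))
    (hy : ∀ j < N, nrm (y (j + 1) - y j) ≤ ρ) (hx0 : Ymap J b x0 = y 0)
    (hX : nrm (X - x0) ≤ 14 * θ * (ρ / c)) :
    ∀ j ≤ N, ∃ x, Ymap J b x = y j ∧ nrm (orb J b η K y X j - x) ≤ 14 * θ * (ρ / c) := by
  intro j
  induction j with
  | zero => exact fun _ => ⟨x0, hx0, hX⟩
  | succ j ih =>
    intro hj
    obtain ⟨x, h1, h2⟩ := ih (by omega)
    have ρ0 : 0 ≤ ρ / c := div_nonneg ((nrm_nonneg _).trans (hy j hj)) hc.1.le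
    have t := mul_le_mul_of_nonneg_right hθ ρ0
    obtain ⟨x1, a1, -, -, a2⟩ := level hS hJ hb hc (hG j hj x h1) h0 hη (y1 := y (j + 1)) (ρ := ρ)
      (by rw [h1]; exact hy j hj) (e := 7 * (ρ / c)) (h2.trans (by linarith)) (by linarith)
    exact ⟨x1, a1, (a2 K).trans (by nlinarith [mul_le_mul_of_nonneg_right hK ρ0])⟩

lemma exists_K (h0 : 0 < η) (hc : c ∈ Ioc (0 : ℝ) 1) (hη : η ≤ c / 72) {θ : ℝ} (hθ : 0 < θ) :
    ∃ K : ℕ, ∀ k ≥ K, 18 * (1 - η * c / 56) ^ k ≤ θ := by
  have t0 := mul_pos h0 hc.1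
  have t1 : η * c ≤ 1 := mul_le_one₀ (by linarith [hc.2]) hc.1.le hc.2
  obtain ⟨K, hK⟩ := exists_pow_lt_of_lt_one (show 0 < θ / 18 by positivity)
    (show 1 - η * c / 56 < 1 by linarith)
  exact ⟨K, fun k hk => by
    linarith [pow_le_pow_of_le_one (show 0 ≤ 1 - η * c / 56 by linarith) (by linarith) hk]⟩

end Crest.Agent.T157.Md

end
private theorem rz_4b6c851efd : type_of% @_root_.Crest.Agent.T157.Md.orb.eq_def := @_root_.Crest.Agent.T157.Md.orb.eq_def -- L237
private theorem rz_f173f41284 : type_of% @_root_.Crest.Agent.T157.Md.orb.eq_1 := @_root_.Crest.Agent.T157.Md.orb.eq_1 -- L237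
end

-- ▼ part T157/ZBr_23
section

/-!
# Row 157, part B (Z): Brownian bridge labels; the TAP point is an explicit orbit (helper23)
-/

set_option autoImplicit false

noncomputable section

namespace Crest.Agent.T157.Md

open MeasureTheory ProbabilityTheory Matrix Filter Set Topology Complex
open Crest.ProbabilityR.SpinGlassDynamics
open Crest.Agent.T157.E Crest.Agent.T157.Eig Crest.Agent.T157.Cond Crest.Agent.T157.Tap
open Crest.Agent.T157.SL Crest.Agent.T157.Pos

variable {n M : ℕ}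

/-- independent standard Gaussian labels -/
def Lab {Ω : Type*} [MeasurableSpace Ω] (P : Measure Ω) (Z : Fin M → Ω → V n) : Prop :=
  (∀ k, Measurable (Z k)) ∧ ∀ (c : Fin M → ℝ) (u : V n),
    CF P (fun ω => u ⬝ᵥ ∑ k, c k • Z k ω) = cexp (-(((∑ k, c k ^ 2) * (u ⬝ᵥ u) : ℝ) : ℂ) / 2)

theorem lab_gv : Lab (gv (Fin M × Fin n)) fun k z i => z (k, i) := by
  refine ⟨fun k => by fun_prop, fun c u => ?_⟩
  have := CF_gv (fun p : Fin M × Fin n => c p.1 * u p.2)
  convert this using 4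
  · simp only [dotProduct, Fintype.sum_prod_type, Finset.sum_apply, Pi.smul_apply, smul_eq_mul,
      Finset.mul_sum]
    rw [Finset.sum_comm]
    exact Finset.sum_congr rfl fun k _ => Finset.sum_congr rfl fun i _ => by ring
  · simp only [dotProduct, Fintype.sum_prod_type, Finset.sum_mul_sum]
    norm_cast
    exact Finset.sum_congr rfl fun k _ => Finset.sum_congr rfl fun i _ => by ring


section lab
variable {Ω : Type*} [MeasurableSpace Ω] {P : Measure Ω} [IsProbabilityMeasure P]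
  {Z : Fin M → Ω → V n}

omit [IsProbabilityMeasure P] in
lemma Lab.meas (hZ : Lab P Z) (c : Fin M → ℝ) : Measurable fun ω => ∑ k, c k • Z k ω :=
  Finset.measurable_sum _ fun k _ => (hZ.1 k).const_smul (c k)

lemma Lab.map (hZ : Lab P Z) (a : ℝ) (c : Fin M → ℝ) {t : ℝ} (h : a ^ 2 + ∑ k, c k ^ 2 = t) :
    ((gv (Fin n)).prod P).map (fun p => a • p.1 + ∑ k, c k • Z k p.2) =
      (gv (Fin n)).map fun g => √t • g := by
  have t0 : 0 ≤ t := by rw [← h]; positivity
  refine ext_vec ((measurable_fst.const_smul a).add ((hZ.meas c).comp measurable_snd))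
    (by fun_prop) fun u => ?_
  simp only [dotProduct_add, dotProduct_smul, ← smul_dotProduct]
  rw [CF_prod (gv (Fin n)) P (fun g => (a • u) ⬝ᵥ g) (fun ω => u ⬝ᵥ ∑ k, c k • Z k ω), hZ.2,
    CF_gv, CF_gv, ← Complex.exp_add, ← add_div, ← neg_add, ← ofReal_add]
  congr 4
  simp only [dotProduct_smul, smul_dotProduct, smul_eq_mul, ← mul_assoc, Real.mul_self_sqrt t0]
  rw [← h]; ring

/-- the field at an earlier time, from the field and independent labels -/
theorem Lab.law (hZ : Lab P Z) {w : Cube n → ℝ} {r t a : ℝ} {c : Fin M → ℝ} (hr : 0 ≤ r)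
    (h1 : a * r = t) (h2 : a ^ 2 * r + ∑ k, c k ^ 2 = t) :
    MeasurePreserving (fun p : V n × Ω => a • p.1 + ∑ k, c k • Z k p.2) ((law sv w r).prod P)
      (law sv w t) := by
  have hm : Measurable fun p : V n × Ω => a • p.1 + ∑ k, c k • Z k p.2 :=
    (measurable_fst.const_smul a).add ((hZ.meas c).comp measurable_snd)
  refine ⟨hm, ?_⟩
  rw [SL.law, SL.law, ← Measure.sum_fintype, Measure.prod_sum_left, Measure.sum_fintype,
    Measure.map_finset_sum' hm.aemeasurable]
  refine Finset.sum_congr rfl fun x _ => ?_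
  rw [Measure.prod_smul_left, Measure.map_smul]
  congr 1
  have h3 := hZ.map (a * √r) c (t := t) (by rw [mul_pow, Real.sq_sqrt hr, h2])
  have h4 := congrArg (Measure.map fun v : V n => t • sv x + v) h3
  have hm' : Measurable fun p : V n × Ω => (a * √r) • p.1 + ∑ k, c k • Z k p.2 :=
    (measurable_fst.const_smul (a * √r)).add ((hZ.meas c).comp measurable_snd)
  rw [Measure.map_map (by fun_prop) hm', Measure.map_map (by fun_prop) (by fun_prop)] at h4
  conv_lhs => rw [← Measure.map_id (μ := P), Measure.map_prod_map _ _ (by fun_prop) measurable_id,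
    Measure.map_map hm (by fun_prop)]
  refine Eq.trans ?_ h4
  congr 1; funext p
  simp only [Function.comp_apply, Prod.map_fst, Prod.map_snd, id, smul_add, smul_smul, h1, add_assoc]

end lab

/-- coefficients of the bridge -/
def cS (r : ℝ) (S : Finset (Fin M)) (k : Fin M) : ℝ :=
  √(r / M) * ((if k ∈ S then 1 else 0) - S.card / M)

lemma cS_sq {r : ℝ} (hr : 0 ≤ r) (hM : 0 < M) (S : Finset (Fin M)) :
    ((S.card : ℝ) / M) ^ 2 * r + ∑ k, cS r S k ^ 2 = S.card / M * r := by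
  have hM' : (0 : ℝ) < M := by positivity
  have e : ∀ k, cS r S k ^ 2 = r / M * ((1 - 2 * (S.card / M)) * (if k ∈ S then 1 else 0) +
      (S.card / M) ^ 2) := fun k => by
    rw [cS, mul_pow, Real.sq_sqrt (by positivity)]
    split_ifs <;> ring
  simp only [e, ← Finset.mul_sum, Finset.sum_add_distrib, Finset.sum_ite_mem, Finset.univ_inter,
    Finset.sum_const, Finset.card_univ, Fintype.card_fin, nsmul_eq_mul]
  field_simp; ring

/-- the labels below `i` -/
def lw (M i : ℕ) : Finset (Fin M) := Finset.univ.filter fun k => (k : ℕ) < i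

lemma card_lw {i : ℕ} (h : i ≤ M) : (lw M i).card = i := by
  rw [lw, Fin.card_filter_val_lt, min_eq_right h]

/-- the bridge at the time `i r / M` -/
def yB (r : ℝ) (i : ℕ) (y : V n) (z : Fin M → V n) : V n :=
  ((i : ℝ) / M) • y + ∑ k, cS r (lw M i) k • z k

lemma yB_top (hM : 0 < M) (r : ℝ) (y : V n) (z : Fin M → V n) : yB r M y z = y := by
  have hM' : (M : ℝ) ≠ 0 := by positivity
  simp [yB, cS, lw, hM']

lemma yB_succ (r : ℝ) (i : Fin M) (y : V n) (z : Fin M → V n) :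
    yB r (i + 1) y z - yB r i y z = ((1 : ℝ) / M) • y + ∑ k, cS r {i} k • z k := by
  have e : ∀ k, cS r (lw M (i + 1)) k = cS r (lw M i) k + cS r {i} k := fun k => by
    rw [cS, cS, cS, card_lw i.2, card_lw i.2.le]
    simp only [lw, Finset.mem_filter, Finset.mem_univ, true_and,
      Finset.card_singleton, Finset.mem_singleton, Fin.ext_iff]
    push_cast
    split_ifs <;> first | ring1 | omega
  simp only [yB, e, add_smul, Finset.sum_add_distrib]
  push_cast
  rw [add_div, add_smul]; abel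

/-! ### exponentially typical events with labels -/

/-- `Q n W ω` fails with exponentially small `μ n W`-mass, whp in `W` -/
def TypM {Ω : ℕ → Type} [∀ n, MeasurableSpace (Ω n)] (μ : ∀ n, Mx n → Measure (Ω n))
    (Q : ∀ n, Mx n → Ω n → Prop) : Prop :=
  ∃ κ > (0 : ℝ), Top.Whp GOE fun n W => (μ n W).real {ω | ¬ Q n W ω} ≤ Real.exp (-κ * n)

section typ
variable {Ω Ω' : ℕ → Type} [∀ n, MeasurableSpace (Ω n)] [∀ n, MeasurableSpace (Ω' n)]
  {μ : ∀ n, Mx n → Measure (Ω n)} [∀ n W, IsFiniteMeasure (μ n W)] {P Q : ∀ n, Mx n → Ω n → Prop}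

lemma TypM.mono' (h : TypM μ P) {R : ∀ n, Mx n → Prop} (hR : Top.Whp GOE R)
    (hPQ : ∀ᶠ n in atTop, ∀ W y, R n W → P n W y → Q n W y) : TypM μ Q := by
  obtain ⟨κ, hκ, h⟩ := h
  exact ⟨κ, hκ, (h.and hR).mono (hPQ.mono fun n hn W hW => le_trans
    (measureReal_mono fun y hy hy' => hy (hn W y hW.2 hy')) hW.1)⟩

lemma TypM.mono (h : TypM μ P) (hPQ : ∀ᶠ n in atTop, ∀ W y, P n W y → Q n W y) : TypM μ Q :=
  h.mono' Top.whp_true (hPQ.mono fun _ hn W y _ => hn W y)

lemma TypM.and (h : TypM μ P) (h' : TypM μ Q) : TypM μ fun n W y => P n W y ∧ Q n W y := by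
  obtain ⟨κ, hκ, h⟩ := h
  obtain ⟨κ', hκ', h'⟩ := h'
  have k0 := lt_min hκ hκ'
  refine ⟨_, half_pos k0, (h.and h').mono ((Kr50.ev_exp 2 k0).mono fun n hn' W hW =>
    le_trans ?_ hn')⟩
  have hn : (0 : ℝ) ≤ n := Nat.cast_nonneg n
  have e1 : Real.exp (-κ * n) ≤ Real.exp (-min κ κ' * n) :=
    Real.exp_le_exp.2 (by nlinarith [min_le_left κ κ'])
  have e2 : Real.exp (-κ' * n) ≤ Real.exp (-min κ κ' * n) :=
    Real.exp_le_exp.2 (by nlinarith [min_le_right κ κ'])
  refine le_trans (measureReal_mono (s₂ := {y | ¬ P n W y} ∪ {y | ¬ Q n W y})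
    fun y hy => not_and_or.1 hy) ((measureReal_union_le _ _).trans ?_)
  linarith [hW.1, hW.2]

lemma TypM.range {R : ℕ → ∀ n, Mx n → Ω n → Prop} (N : ℕ) (h : ∀ j < N, TypM μ (R j)) :
    TypM μ fun n W y => ∀ j < N, R j n W y := by
  induction N with
  | zero => exact ⟨1, one_pos, Top.whp_of_eventually (.of_forall fun n W => by
      simp [Real.exp_nonneg])⟩
  | succ N ih =>
    exact ((ih fun j hj => h j (by omega)).and (h N (by omega))).mono
      (.of_forall fun _ _ _ hh j hj => (Nat.lt_succ_iff_lt_or_eq.1 hj).elim (hh.1 j)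
        fun e => e ▸ hh.2)

omit [∀ n W, IsFiniteMeasure (μ n W)] in
lemma TypM.comp [∀ n W, IsFiniteMeasure (μ n W)] (h : TypM μ P) {ν : ∀ n, Mx n → Measure (Ω' n)}
    {T : ∀ n, Ω' n → Ω n} (hT : ∀ n W, MeasurePreserving (T n) (ν n W) (μ n W)) :
    TypM ν fun n W ω => P n W (T n ω) := by
  obtain ⟨κ, hκ, h⟩ := h
  exact ⟨κ, hκ, h.imp fun n W hW => le_trans (ENNReal.toReal_mono (measure_ne_top _ _)
    ((hT n W).measure_preimage_le {ω | ¬ P n W ω})) hW⟩

end typ

instance (β s : ℝ) (W : Mx n) : IsProbabilityMeasure (law sv (ising (β • W) 0) s) :=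
  isProb_law (Cov15.wt_ising _ _)

lemma typ_nrm (β : ℝ) {t R : ℝ} (ht : 0 ≤ t) (h1 : t ≤ 1) (hR : t ≤ (R / 10) ^ 2) (h0 : 0 < R) :
    Typ β t fun n _ y => nrm y ≤ R / 2 * √n := by
  refine ⟨1 / 2, one_half_pos, Top.whp_of_eventually ?_⟩
  filter_upwards [eventually_gt_atTop 0] with n hn W
  refine (Cov15.law_tail (Cov15.wt_ising _ _) t
    (measurableSet_le continuous_nrm.measurable measurable_const).compl fun σ g hg hc =>
      hc ?_).trans_eq (by congr 1; ring)
  have := Cov15.nrm_path hn ht h1 hR h0 σ hg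
  rw [mem_ofPred_eq]; linarith

lemma goodB_mono {J : Mx n} {b c c' r : ℝ} {p : V n} (h : GoodB J b c r p) (hc : c' ≤ c) :
    GoodB J b c' r p := fun q h1 h2 => ⟨fun u => le_trans
      (mul_le_mul_of_nonneg_right hc (Eig.dot_self_nonneg u)) ((h q h1 h2).1 u),
    (h q h1 h2).2.trans (by linarith)⟩

lemma orb_succ (J : Mx n) (b η : ℝ) (K : ℕ) (y : ℕ → V n) (X : V n) (j : ℕ) :
    orb J b η K y X (j + 1) = orb J b η K (fun i => y (i + 1)) (orb J b η K y X 1) j := by
  induction j with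
  | zero => rfl
  | succ j ih => rw [orb, ih]; rfl

lemma exists_small {r d : ℝ} (hr : 0 < r) (hd : 0 < d) : ∃ m : ℕ, 0 < m ∧ r / m ≤ d := by
  obtain ⟨m, hm⟩ := exists_nat_gt (r / d)
  have m0 : (0 : ℝ) < m := lt_trans (by positivity) hm
  exact ⟨m, by exact_mod_cast m0, by rw [div_le_iff₀ m0]; rw [div_lt_iff₀ hd] at hm; linarith⟩

/-- **(SOL)** the TAP point of the field at the level `r` is an explicit orbit driven by the field
and by independent Gaussian labels -/
theorem sol {β r ε : ℝ} (hβ : β ∈ Ioo (0 : ℝ) 1) (hr : 0 < r) (hε : 0 < ε) :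
    ∃ (η : ℝ) (K N L M : ℕ), 0 < η ∧ η ≤ 1 ∧ L + N = M ∧
      ∀ (Ω : ℕ → Type) [∀ n, MeasurableSpace (Ω n)] (P : ∀ n, Measure (Ω n))
        [∀ n, IsProbabilityMeasure (P n)] (Z : ∀ n, Fin M → Ω n → V n), (∀ n, Lab (P n) (Z n)) →
      TypM (fun n W => (law sv (ising (β • W) 0) r).prod (P n)) fun n W p =>
        ∃ x, Ymap (β • W) (β ^ 2) x = p.1 ∧ nrm (orb (β • W) (β ^ 2) η K
          (fun j => yB r (L + j - 1) p.1 fun k => Z n k p.2) 0 (N + 1) - x) ≤ ε * √n := by
  have hβ' : β ∈ Icc (0 : ℝ) 1 := ⟨hβ.1.le, hβ.2.le⟩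
  have b1 : 0 < 1 - β := sub_pos.2 hβ.2
  set c0 := (1 - β) ^ 2 / 2 with hc0
  have c00 : 0 < c0 := by positivity
  have c01 : c0 ≤ 1 := by rw [hc0]; nlinarith [hβ.1]
  set R0 := c0 * ((1 - β) / 4) / 22 with hR0
  have R00 : 0 < R0 := by positivity
  obtain ⟨m, m0, hm⟩ := exists_small hr (lt_min one_pos (show 0 < (R0 / 10) ^ 2 by positivity))
  have m0' : (0 : ℝ) < m := by positivity
  obtain ⟨c1, hc1, r1, hr1, hG⟩ := LpAll.allGoodStmt β ⟨hβ.1, hβ.2.le⟩ (r / m) (by positivity) r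
  set c := min c1 c0 with hc
  have c' : 0 < c := lt_min hc1 c00
  have cc : c ≤ c0 := min_le_right _ _
  set ρ := c * min (r1 / 44) (ε / 7) with hρ
  have ρ0 : 0 < ρ := by positivity
  obtain ⟨L, L0, hL⟩ := exists_small (show 0 < r / m by positivity)
    (lt_min one_pos (show 0 < (2 * ρ / 10) ^ 2 by positivity))
  have L0' : (0 : ℝ) < L := by positivity
  obtain ⟨K0, hK0⟩ := exists_K (η := c / 72) (by positivity) ⟨c00, c01⟩ (by linarith)
    (θ := ρ / c / (R0 / 2 / c0)) (by positivity)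
  obtain ⟨K1, hK1⟩ := exists_K (η := c / 72) (by positivity) ⟨c', cc.trans c01⟩ le_rfl one_half_pos
  obtain ⟨N, hN⟩ : ∃ N, L + N = L * m := Nat.exists_eq_add_of_le (Nat.le_mul_of_pos_right L m0)
    |>.imp fun _ h => h.symm
  have M0 : 0 < L * m := by positivity
  refine ⟨c / 72, max K0 K1, N, L, L * m, by positivity, by linarith, hN,
    fun Ω _ P _ Z hZ => ?_⟩
  have mp : ∀ (S : Finset (Fin (L * m))) {t : ℝ}, (S.card : ℝ) / (L * m : ℕ) * r = t → ∀ n (W : Mx n),
      MeasurePreserving (fun p : V n × Ω n => ((S.card : ℝ) / (L * m : ℕ)) • p.1 +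
        ∑ k, cS r S k • Z n k p.2) ((law sv (ising (β • W) 0) r).prod (P n))
          (law sv (ising (β • W) 0) t) :=
    fun S t ht n W => (hZ n).law hr.le ht ((cS_sq hr.le M0 S).trans ht)
  have h1 := TypM.comp (typ_nrm β (by positivity) (hm.trans (min_le_left _ _))
    (hm.trans (min_le_right _ _)) R00) (mp (lw _ L) (by
      rw [card_lw (by omega)]; push_cast; field_simp))
  have h2 := TypM.range (μ := fun n W => (law sv (ising (β • W) 0) r).prod (P n)) N
    (R := fun j n W p => ¬ BadY β c1 (r1 * √n) W (yB r (L + j) p.1 fun k => Z n k p.2))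
    fun j hj => by
      have hj' : ((L + j : ℕ) : ℝ) ≤ (L * m : ℕ) := by exact_mod_cast (by omega)
      obtain ⟨κ, hκ, w⟩ := hG (((L + j : ℕ) : ℝ) / (L * m : ℕ) * r) ⟨by
        rw [div_le_iff₀ m0']; push_cast
        rw [show ((L : ℝ) + j) / (L * m) * r * m = r + j / L * r by field_simp]
        exact le_add_of_nonneg_right (by positivity),
        mul_le_of_le_one_left hr.le ((div_le_one (by positivity)).2 hj')⟩
      have := TypM.comp (P := fun n W y => ¬ BadY β c1 (r1 * √n) W y)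
        ⟨κ, hκ, w.imp fun n W hW => by simpa only [not_not] using hW⟩
        (mp (lw _ (L + j)) (by rw [card_lw (by omega)]))
      simpa only [yB, card_lw (show L + j ≤ L * m by omega)] using this
  have h3 := TypM.range (μ := fun n W => (law sv (ising (β • W) 0) r).prod (P n)) N
    (R := fun j n _ p => nrm (yB r (L + j + 1) p.1 (fun k => Z n k p.2) -
      yB r (L + j) p.1 fun k => Z n k p.2) ≤ ρ * √n) fun j hj => by
      have := TypM.comp (typ_nrm β (by positivity) (hL.trans (min_le_left _ _))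
        (hL.trans (min_le_right _ _)) (by positivity)) (mp {⟨L + j, by omega⟩} (by
          rw [Finset.card_singleton]; push_cast; field_simp))
      refine this.mono (.of_forall fun n W p hp => ?_)
      rw [yB_succ r ⟨L + j, by omega⟩]
      rw [Finset.card_singleton, Nat.cast_one] at hp
      exact hp.trans_eq (by ring)
  refine ((h1.and h2).and h3).mono' (Cov15.whp_symm.and (Cov15.whp_opn
    (δ := (1 - β) ^ 2 / 4) (by positivity))) ?_
  filter_upwards [eventually_gt_atTop 0] with n hn W p ⟨hS, hop⟩ ⟨⟨a1, a2⟩, a3⟩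
  have s0 : (0 : ℝ) < √n := by positivity
  have hS' : (β • W)ᵀ = β • W := by rw [transpose_smul, hS]
  have hJ : opn (β • W) ≤ 3 := by
    rw [opn_smul, abs_of_pos hβ.1]; nlinarith [hβ.1, hβ.2, opn_nonneg W]
  have hb : β ^ 2 ∈ Icc (0 : ℝ) 1 := ⟨sq_nonneg _, pow_le_one₀ hβ'.1 hβ'.2⟩
  rw [card_lw (by omega)] at a1
  have e0 : R0 / 2 * √(n : ℝ) / c0 = (1 - β) / 4 * √n / 44 := by rw [hR0]; field_simp; norm_num
  have e1 : ρ * √(n : ℝ) / c = min (r1 / 44) (ε / 7) * √n := by rw [hρ]; field_simp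
  obtain ⟨x1, d1, -, -, d2⟩ := level hS' hJ hb ⟨c00, c01⟩ (Cov15.good_zero hn hβ' hop)
    (η := c / 72) (by positivity) (by linarith) (y1 := yB r L p.1 fun k => Z n k p.2) (X := 0)
    (e := 0) (ρ := R0 / 2 * √n) (by rw [Cov15.Ymap_zero, sub_zero]; exact a1)
    (by rw [sub_zero, nrm_zero]) (by rw [e0]; linarith [mul_pos b1 s0])
  have u1 := mul_le_mul_of_nonneg_right (min_le_left (r1 / 44) (ε / 7)) s0.le
  have u2 := mul_le_mul_of_nonneg_right (min_le_right (r1 / 44) (ε / 7)) s0.le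
  obtain ⟨x, d3, d4⟩ := follow hS' hJ hb ⟨c', cc.trans c01⟩ (η := c / 72) (by positivity) le_rfl
    (hK1 _ (le_max_right K0 K1)) le_rfl (r := r1 * √n) (ρ := ρ * √n) (N := N)
    (by rw [e1]; linarith [mul_pos hr1 s0])
    (y := fun j => yB r (L + j) p.1 fun k => Z n k p.2)
    (X := (md (β • W) (β ^ 2) (c / 72) (yB r L p.1 fun k => Z n k p.2))^[max K0 K1] 0)
    (fun j hj x hx => goodB_mono (not_not.1 fun hc => a2 j hj ⟨x, hx, hc⟩) (min_le_left _ _))
    a3 d1 ((d2 _).trans (by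
      have := mul_le_mul_of_nonneg_left (hK0 _ (le_max_left K0 K1))
        (show 0 ≤ 7 * (R0 / 2 * √(n : ℝ) / c0) by positivity)
      rw [show 7 * (R0 / 2 * √(n : ℝ) / c0) * (ρ / c / (R0 / 2 / c0)) = 7 * (ρ * √n / c) by
        field_simp] at this
      linarith)) N le_rfl
  rw [hN, yB_top M0] at d3
  refine ⟨x, d3, ?_⟩
  rw [orb_succ]
  rw [e1] at d4
  exact d4.trans (by linarith)

end Crest.Agent.T157.Md

end
end

-- ▼ part T157/ZAn_23
section

/-!
# Row 157, part B (Z): typical fields are anchored (helper23)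
-/

set_option autoImplicit false

noncomputable section

namespace Crest.Agent.T157.Z

open MeasureTheory ProbabilityTheory Matrix Filter Set Topology
open Crest.ProbabilityR.SpinGlassDynamics
open Crest.Agent.T157.E Crest.Agent.T157.Eig Crest.Agent.T157.Cond Crest.Agent.T157.Tap
open Crest.Agent.T157.Pos

namespace An23

variable {n : ℕ} {β η c r : ℝ} {W J : Mx n}





lemma ev_le (A : ℝ) {r : ℝ} (hr : 0 < r) : ∀ᶠ n : ℕ in atTop, A ≤ r * √(n : ℝ) :=
  (ev_sq (M := A ^ 2) hr).mono fun _ hn => (abs_le_of_sq_le_sq' hn.2 (by positivity)).2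

end An23


end Crest.Agent.T157.Z

end
end

-- ▼ part T157/ZSol_23

/-!
# Row 157, part B (Z): the magnetisation is approximable (helper23)
-/

set_option autoImplicit false

noncomputable section

namespace Crest.Agent.T157.Z

open MeasureTheory ProbabilityTheory Matrix Filter Set Topology
open Crest.ProbabilityR.SpinGlassDynamics
open Crest.Agent.T157.E Crest.Agent.T157.Eig Crest.Agent.T157.Cond Crest.Agent.T157.Tap
open Crest.Agent.T157.Pos Crest.Agent.T157.Md Crest.Agent.T157.SL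

namespace Sol23

variable {ι : Type} {X Y : Nt ι}

lemma nw_add (s t : ℝ) (hX : Nw False X) (hY : Nw False Y) :
    Nw False fun n J a => s • X n J a + t • Y n J a := by
  have h : LipschitzWith (‖s‖₊ + ‖t‖₊) fun u : Fin 2 → ℝ => s * u 0 + t * u 1 :=
    LipschitzWith.of_dist_le_mul fun u v => by
      rw [Real.dist_eq, show s * u 0 + t * u 1 - (s * v 0 + t * v 1) =
        s * (u 0 - v 0) + t * (u 1 - v 1) by ring, NNReal.coe_add, add_mul]
      refine (abs_add_le _ _).trans (add_le_add ?_ ?_) <;> rw [abs_mul] <;>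
        exact mul_le_mul_of_nonneg_left (dist_le_pi_dist u v _) (abs_nonneg _)
  exact Nw.map _ ![X, Y] ⟨fun u => by simp; ring, _, h⟩ False.elim (Fin.forall_fin_two.2 ⟨hX, hY⟩)

lemma nw_th (hX : Nw False X) : Nw False fun n J a => th (X n J a) :=
  Nw.map (fun u : Fin 1 → ℝ => Real.tanh (u 0)) (fun _ => X) ⟨fun u => by simp, 1,
    LipschitzWith.of_dist_le_mul fun u v => by
      rw [NNReal.coe_one, one_mul]
      exact (SE.abs_tanh_sub_le _ _).trans (dist_le_pi_dist u v 0)⟩ False.elim fun _ => hX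

lemma bd_th (X : Nt ι) : Bd fun n J a => th (X n J a) := ⟨1, fun _ _ _ => cb_th _⟩

lemma nw_md (b η : ℝ) (hX : Nw False X) (hY : Nw False Y) :
    Nw False fun n J a => md (tJ J) b η (Y n J a) (X n J a) := by
  have h1 := nw_th hX
  convert nw_add 1 η (nw_add (1 - η) η hX hY) (nw_add 1 b (Nw.mul _ h1 (bd_th X))
    (nw_add (-1) 1 h1 (Nw.sc _ _ _ h1 h1 h1 (bd_th X) (bd_th X) (bd_th X)))) using 4 with n J a
  rcases n.eq_zero_or_pos with rfl | hn
  · exact Subsingleton.elim _ _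
  have e : avg (DD (th (X n J a))) = 1 - avg (th (X n J a) * th (X n J a)) := by
    have : (n : ℝ) ≠ 0 := by positivity
    simp only [avg, DD, Finset.sum_sub_distrib, Fin.sum_const, Pi.mul_apply, sq]
    field_simp; simp
  unfold Md.md Ymap; rw [e]; module

lemma nw_iter (b η : ℝ) (hX : Nw False X) (hY : Nw False Y) (k : ℕ) :
    Nw False fun n J a => (md (tJ J) b η (Y n J a))^[k] (X n J a) := by
  induction k with
  | zero => exact hX
  | succ k ih => simpa only [Function.iterate_succ_apply'] using nw_md b η ih hY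

lemma nw_orb (b η : ℝ) (K : ℕ) {Y : ℕ → Nt ι} (hX : Nw False X) (hY : ∀ j, Nw False (Y j))
    (j : ℕ) : Nw False fun n J a => orb (tJ J) b η K (fun j => Y j n J a) (X n J a) j := by
  induction j with
  | zero => exact hX
  | succ j ih => exact nw_iter b η ih (hY _) K

lemma nw_yB (hL : LipStmt) (r : ℝ) (M i : ℕ) : Nw (ι := Unit ⊕ Fin M) False fun _ _ a =>
    yB r i (a (.inl ())) fun k => a (.inr k) := by
  convert hL.lin Unit (Unit ⊕ Fin M) False
    (fun _ => Sum.elim (fun _ => (i : ℝ) / M) (cS r (lw M i))) () using 4 with n J a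
  funext j
  simp [yB, lc, Fintype.sum_sum_type]

variable {n : ℕ}

lemma meas_rows [Fintype ι] (c d : ι → ℝ) (σ : V n) : Measurable (rows c d σ) := by
  unfold rows; fun_prop

instance [Fintype ι] (c d : ι → ℝ) (σ : V n) : IsProbabilityMeasure (RL c d σ) :=
  Measure.isProbabilityMeasure_map (meas_rows c d σ).aemeasurable

lemma lab_RL (M : ℕ) : Lab (RL (0 : Fin M → ℝ) 1 (0 : V n)) fun k z => z k := by
  refine ⟨fun k => by fun_prop, fun c u => ?_⟩
  rw [RL, CF_map (meas_rows _ _ _) (by unfold dotProduct; simp only [Finset.sum_apply]; fun_prop),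
    ← lab_gv.2 c u]
  congr 1; funext w
  congr 2; funext k; congr 1; funext i; simp [rows]

/-- from the GOE form with labels to `Hp` -/
lemma hp_of (hH : HpStmt) {β r : ℝ} {M : ℕ} {Q : ∀ n, Mx n → (Unit ⊕ Fin M → V n) → Prop}
    (hm : ∀ n J, MeasurableSet {a | ¬ Q n J a})
    (h : TypM (fun n W => (law sv (ising (β • W) 0) r).prod (RL (0 : Fin M → ℝ) 1 (0 : V n)))
      fun n W p => Q n (β • offd W) (Sum.elim (fun _ => p.1) p.2)) :
    Hp β (Sum.elim (fun _ : Unit => r) 0) (Sum.elim (fun _ => √r) 1) Q := by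
  obtain ⟨κ, hκ, h⟩ := h
  refine ⟨κ, hκ, Top.Whp.of_prod_fst (ν := fun n => gv (Fin n)) ((h.comp (T := fun n p =>
    Wmat n p.1 p.2) fun n => mp_Wmat).imp fun n p hp => le_trans ?_ hp)⟩
  have hw := Cov15.wt_ising (β • Wmat n p.1 p.2) 0
  beta_reduce
  rw [mean, ← GoeT.prob_ising_Wmat β p.1 p.2, offd_Wmat, law, ← Measure.sum_fintype,
    Measure.prod_sum_left, Measure.sum_fintype, Measure.real, Measure.coe_finsetSum,
    Finset.sum_apply]
  simp only [Measure.prod_smul_left, Measure.smul_apply, smul_eq_mul]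
  rw [ENNReal.toReal_sum fun x _ => ENNReal.mul_ne_top ENNReal.ofReal_ne_top (measure_ne_top _ _)]
  refine Finset.sum_le_sum fun x _ => ?_
  rw [ENNReal.toReal_mul, ENNReal.toReal_ofReal (hw.prob_nonneg x)]
  refine mul_le_mul_of_nonneg_left (ENNReal.toReal_mono (measure_ne_top _ _) ?_) (hw.prob_nonneg x)
  have h1 : MeasurePreserving (fun a : Unit → V n => a ()) (RL (fun _ => r) (fun _ => √r) (sv x))
      ((gv (Fin n)).map fun z => r • sv x + √r • z) := by
    refine ⟨by fun_prop, ?_⟩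
    have e : (gv (Unit × Fin n)).map _ = gv (Fin n) := (R339.Guerra.mp_comp
      (fun i : Fin n => ((), i)) fun i j h => (Prod.mk.inj h).2).map_eq
    rw [RL, Measure.map_map (by fun_prop) (meas_rows _ _ _), ← e,
      Measure.map_map (by fun_prop) (by fun_prop)]
    rfl
  have e : RL (0 : Fin M → ℝ) 1 (sv x) = RL 0 1 0 := by
    unfold RL rows; simp
  rw [hH.split, Measure.map_apply (measurable_pi_lambda _ fun l => by
    rcases l with l | l <;> simp only [Sum.elim_inl, Sum.elim_inr] <;> fun_prop) (hm _ _), e]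
  exact le_trans (measure_mono fun q hq => hq)
    ((h1.prod (MeasurePreserving.id _)).measure_preimage_le _)

end Sol23

open Sol23 in
theorem solGlue : SolGlue := by
  intro hL hH hA _ β hβ r hr
  have hβ1 : β ∈ Icc (0 : ℝ) 1 := ⟨hβ.1.le, hβ.2.le⟩
  rcases hr.eq_or_lt with rfl | hr
  · refine hA.lim _ _ _ _ _ fun ε hε => ⟨_, hA.net _ β hβ1 _ _ _ (nw_add 0 0 (.inp ()) (.inp ())),
      hH.mono _ _ _ _ _ _ ((hH.ty β 0 le_rfl fun _ _ y => y = 0).1
        (Typ.toJ (P := fun _ _ y => y = 0) (typ_zero (Top.whp_of_eventually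
          (.of_forall fun _ _ => rfl))))) (.of_forall fun n J a h => ?_)⟩
    beta_reduce
    rw [h, TopL.mag_ising_zero]
    simp only [zero_smul, add_zero, sub_zero, nrm_zero]; positivity
  intro ε hε
  obtain ⟨η, K, N, L, M, -, -, -, hs⟩ := sol hβ hr (show 0 < ε / 3 by positivity)
  have hX := nw_th (nw_orb (β ^ 2) η K (nw_add 0 0 (.inp (.inl ())) (.inp (.inl ())))
    (fun j => nw_yB hL r M (L + j - 1)) (N + 1))
  simp only [zero_smul, add_zero] at hX
  obtain ⟨C, C0, hC⟩ := hL.lip _ _ _ hX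
  obtain ⟨A, -, hA⟩ := acc ⟨hβ.1, hβ.2.le⟩ hr
  refine ⟨M, _, hX, bd_th _, hp_of hH (fun n J => (measurableSet_le (continuous_nrm.comp
    (Continuous.sub ?_ ((hL.cont _ _ _ hX n).comp (continuous_const.prodMk continuous_id)))
      ).measurable measurable_const).compl) (((hs _ _ _ fun n => lab_RL M).and (TypM.comp hA
        fun n W => measurePreserving_fst)).mono' ((adm_offd (ε / 3 / (C + 1)) (by positivity)).and
          TapPl.whp_opn) ?_)⟩
  · have h : Continuous fun y => mag (ising J y) :=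
      (Lp.G1.continuous_mag_tilt (Cov15.wt_ising J 0)).congr fun y => by rw [Cov15.tilt0]
    exact h.comp (continuous_apply (Sum.inl () : Unit ⊕ Fin M))
  filter_upwards [An23.ev_le (√A) (show 0 < ε / 3 by positivity)] with n hn W p ⟨hW, hop⟩
    ⟨⟨x, hx, h1⟩, _, h2⟩
  have h3 := Real.le_sqrt_of_sq_le (h2 x hx)
  have h4 := hC n (β • W) (β • offd W) (Sum.elim (fun _ => p.1) p.2) (Sum.elim (fun _ => p.1) p.2)
  have h5 : opn (β • W - β • offd W) ≤ ε / 3 / (C + 1) := by
    obtain ⟨d, e, -, hd⟩ := hW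
    rw [← smul_sub, sub_eq_iff_eq_add'.2 e, opn_smul, abs_of_pos hβ.1]
    exact (mul_le_of_le_one_left (opn_nonneg _) hβ.2.le).trans
      (opn_diagonal_le (by positivity) hd)
  have h6 : C * (√(n : ℝ) * opn (β • W - β • offd W)) ≤ ε / 3 * √n := by
    refine (mul_le_mul (le_add_of_nonneg_right zero_le_one) (mul_le_mul_of_nonneg_left h5
      (Real.sqrt_nonneg _)) (mul_nonneg (Real.sqrt_nonneg _) (opn_nonneg _))
      (by positivity)).trans_eq ?_
    field_simp
  rw [(hL.tJ_le n (β • W)).2 (by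
    rw [opn_smul, abs_of_pos hβ.1]; nlinarith [hβ.1, hβ.2, opn_nonneg W]), sub_self] at h4
  simp only [nA, Pi.zero_apply, nrm_zero, Finset.sum_const_zero, zero_add, Sum.elim_inl,
    Sum.elim_inr] at h4 ⊢
  rw [hW.mag]
  have h7 := (SE.nrm_th_sub_le _ _).trans h1
  have t1 := nrm_sub_le (mag (ising (β • W) p.1) - th x) (th (orb (β • W) (β ^ 2) η K
    (fun j => yB r (L + j - 1) p.1 fun k => p.2 k) 0 (N + 1)) - th x)
  rw [sub_sub_sub_cancel_right] at t1
  refine le_trans (le_of_eq (congrArg nrm (sub_add_sub_cancel _ _ _).symm)) ((nrm_add_le _ _).trans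
    ((add_le_add t1 h4).trans ?_))
  linarith

end Crest.Agent.T157.Z

end
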