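import Crest.Agent.T157.ZAll_73
import Crest.Agent.T157.ZSol_23
import Crest.Agent.T157.RipG_25
import Crest.Agent.T157.SpJ_25
import Crest.Agent.T157.KTc_36

-- ▼ part T157/ZFl_25
section

/-!
# Row 157, part B (helper25): continuous letters; approximable vectors have flat Wick powers
-/

set_option autoImplicit false
set_option linter.unusedVariables false

noncomputable section

namespace Crest.Agent.T157.Z

open MeasureTheory ProbabilityTheory Matrix Filter Set Topology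
open Crest.ProbabilityR.SpinGlassDynamics
open Crest.Agent.T157.E Crest.Agent.T157.Eig Crest.Agent.T157.Tap
open Crest.Agent.T157.Rip (Fl Sp res FlW nrm_mul_le)
open Crest.Agent.T157.Rip.Cav35 (Ww Uu)
open Crest.Agent.T157.Pos (In TF)

namespace Fl25

variable {n : ℕ}

lemma lip_apx {ψ : ℝ → ℝ} (hc : Continuous ψ) {M R ε σ : ℝ} (hb : ∀ x, |ψ x| ≤ M) (hR : 0 ≤ R)
    (hε : 0 < ε) (hσ : σ = 1 ∨ σ = -1) (he : ∀ x, ψ (-x) = σ * ψ x) : ∃ φ : ℝ → ℝ,
    (∃ L, LipschitzWith L φ) ∧ (∀ x, φ (-x) = σ * φ x) ∧ (∀ x, |φ x| ≤ M + ε) ∧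
      ∀ x, |x| ≤ R → |ψ x - φ x| ≤ ε := by
  obtain ⟨p, hp⟩ := exists_polynomial_near_of_continuousOn (-R) R ψ hc.continuousOn ε hε
  have mR : -R ≤ R := by linarith
  obtain ⟨L, hL⟩ := (p.contDiff_aeval (𝕜 := ℝ) 1).contDiffOn.exists_lipschitzOnWith one_ne_zero
    (convex_Icc (-R) R) isCompact_Icc
  set f : ℝ → ℝ := fun x => p.eval (projIcc (-R) R mR x : ℝ) with hf
  have h1 : LipschitzWith (L * 1) f := by
    have := hL.to_restrict.comp (LipschitzWith.projIcc mR)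
    simpa [Function.comp_def, Polynomial.coe_aeval_eq_eval] using this
  have h2 : ∀ x, |f x| ≤ M + ε := fun x => by
    have := hp _ (projIcc (-R) R mR x).2
    have h3 := hb (projIcc (-R) R mR x : ℝ)
    rw [abs_le] at h3 ⊢
    rw [abs_lt] at this
    constructor <;> simp only [hf] <;> linarith [this.1, this.2]
  have h3 : ∀ x, |x| ≤ R → |f x - ψ x| ≤ ε := fun x hx => by
    have := hp x (abs_le.1 hx)
    simpa only [hf, projIcc_of_mem mR (abs_le.1 hx)] using this.le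
  refine ⟨fun x => (f x + σ * f (-x)) / 2, ⟨L * 1, LipschitzWith.of_dist_le_mul fun x y => ?_⟩,
    fun x => ?_, fun x => ?_, fun x hx => ?_⟩
  · have a := h1.dist_le_mul x y
    have b := h1.dist_le_mul (-x) (-y)
    rw [dist_neg_neg] at b
    rw [Real.dist_eq (f _), abs_le] at a b
    rw [Real.dist_eq (_ / 2), abs_le]
    rcases hσ with rfl | rfl <;> constructor <;> linarith [a.1, a.2, b.1, b.2]
  · rcases hσ with rfl | rfl <;> simp only [neg_neg] <;> ring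
  · have a := abs_le.1 (h2 x)
    have b := abs_le.1 (h2 (-x))
    rw [abs_le]
    rcases hσ with rfl | rfl <;> constructor <;> linarith [a.1, a.2, b.1, b.2]
  · have a := abs_le.1 (h3 x hx)
    have b := abs_le.1 (h3 (-x) (by rwa [abs_neg]))
    rw [he] at b
    rw [abs_le]
    rcases hσ with rfl | rfl <;> constructor <;> linarith [a.1, a.2, b.1, b.2]

lemma nrm_res (S : Finset (Fin n)) (v : V n) : nrm (res S v) = √(∑ i ∈ S, v i ^ 2) := by
  rw [nrm, dotProduct, ← Finset.sum_subset (Finset.subset_univ S) fun i _ hi => by simp [res, hi]]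
  exact congrArg _ (Finset.sum_congr rfl fun i hi => by simp [res, hi, sq])

lemma near {a u w : V n} {B C R ε : ℝ} (hB : 0 ≤ B) (hε : 0 ≤ ε) (hR : 0 < R) (hC : 0 ≤ C)
    (h1 : ∀ i, |a i| ≤ B) (h2 : ∀ i, |u i| ≤ R → |a i| ≤ ε) (hu : nrm u ≤ C * √n) :
    ∃ S : Finset (Fin n), √S.card ≤ C / R * √n ∧
      nrm (a * w) ≤ ε * nrm w + B * √(∑ i ∈ S, w i ^ 2) := by
  set S := Finset.univ.filter fun i => R < |u i| with hS
  refine ⟨S, ?_, ?_⟩
  · have h3 : (S.card : ℝ) * R ^ 2 ≤ ∑ i ∈ S, u i ^ 2 := by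
      rw [← nsmul_eq_mul]
      exact Finset.card_nsmul_le_sum _ _ _ fun i hi => by
        rw [← sq_abs (u i)]; exact pow_le_pow_left₀ hR.le (Finset.mem_filter.1 hi).2.le 2
    have h4 := Real.sqrt_le_sqrt h3
    rw [← nrm_res, Real.sqrt_mul (Nat.cast_nonneg _), Real.sqrt_sq hR.le] at h4
    rw [div_mul_eq_mul_div, le_div_iff₀ hR]
    exact h4.trans ((Rip.nrm_res_le _ _).trans hu)
  · have e : a * w = res Sᶜ a * w + a * res S w := funext fun i => by
      by_cases hi : i ∈ S <;> simp [res, hi]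
    rw [e, ← nrm_res]
    refine (nrm_add_le _ _).trans (add_le_add (nrm_mul_le hε (fun i => ?_) _) (nrm_mul_le hB h1 _))
    unfold res
    split_ifs with hi
    · exact h2 i (by simpa [hS] using hi)
    · simpa using hε

end Fl25

open Fl25

section ap
variable {ι : Type} [Fintype ι] {β : ℝ} {c d : ι → ℝ} {U W : Nt ι} {ψ : ℝ → ℝ} {M : ℝ}

/-- **Ev0** : even bounded continuous multipliers -/
theorem ap_ev0 (hβ : β ∈ Icc (0 : ℝ) 1) (hU : Ap β c d U) (hW : Ap β c d W) (hc : Continuous ψ)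
    (he : ∀ x, ψ (-x) = ψ x) (hb : ∀ x, |ψ x| ≤ M) :
    Ap β c d fun n J a i => ψ (U n J a i) * W n J a i := by
  have M0 : 0 ≤ M := (abs_nonneg _).trans (hb 0)
  refine apA.lim _ _ _ _ _ fun ε hε => ?_
  obtain ⟨⟨C, C0, h1⟩, -⟩ := apA.bd _ _ _ _ _ hU
  obtain ⟨⟨C', C0', h2⟩, h3⟩ := apA.bd _ _ _ _ _ hW
  obtain ⟨M', M0', h3⟩ := h3 (ε / (3 * (2 * M + 1))) (by positivity)
  set R := 3 * (2 * M + 1) * (M' * C + 1) / ε with hR
  have R0 : 0 < R := by positivity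
  set e := min 1 (ε / (3 * (C' + 1))) with he'
  have e0 : 0 < e := by positivity
  obtain ⟨φ, ⟨L, hL⟩, p1, p2, p3⟩ := lip_apx hc hb R0.le e0 (.inl rfl) (by simpa using he)
  refine ⟨_, apB.ev _ β hβ c d 1 (fun u => φ (u 0)) (fun _ => U) W ⟨fun u => by simpa using p1 _,
    ⟨_, hL.comp (LipschitzWith.eval 0)⟩, _, fun u => p2 _⟩ (fun _ => hU) hW,
    hpStmt.mono _ _ _ _ _ _ (hpStmt.and _ _ _ _ _ _ h1 (hpStmt.and _ _ _ _ _ _ h2 h3))
      (.of_forall fun n J a ⟨a1, a2, _, a3⟩ => ?_)⟩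
  obtain ⟨S, s1, s2⟩ := near (a := fun i => ψ (U n J a i) - φ (U n J a i)) (w := W n J a)
    (B := 2 * M + 1) (by positivity) e0.le R0 C0 (fun i => (abs_sub _ _).trans (by
      linarith [hb (U n J a i), p2 (U n J a i), show e ≤ 1 from min_le_left _ _]))
      (fun i hi => p3 _ hi) a1
  refine le_trans (le_of_eq (congrArg nrm (funext fun i => by simp [sub_mul]))) (s2.trans ?_)
  have n0 := Real.sqrt_nonneg (n : ℝ)
  have b1 : e * nrm (W n J a) ≤ ε / 3 * √n :=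
    calc _ ≤ ε / (3 * (C' + 1)) * ((C' + 1) * √n) :=
          mul_le_mul (min_le_right _ _) (by nlinarith) (nrm_nonneg _) (by positivity)
      _ = _ := by field_simp
  have b2 : M' * √S.card ≤ ε / (3 * (2 * M + 1)) * √n :=
    calc _ ≤ M' * (C / R * √n) := by gcongr
      _ ≤ (M' * C + 1) / R * √n := by
          rw [← mul_assoc, ← mul_div_assoc]; gcongr; linarith
      _ = _ := by rw [hR]; field_simp
  have b3 := mul_le_mul_of_nonneg_left ((a3 S).trans (add_le_add_right b2 _))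
    (show 0 ≤ 2 * M + 1 by positivity)
  have b4 : (2 * M + 1) * (ε / (3 * (2 * M + 1)) * √n + ε / (3 * (2 * M + 1)) * √n) =
      2 * ε / 3 * √n := by field_simp; ring
  linarith

/-- odd bounded continuous letters -/
theorem ap_od0 (hβ : β ∈ Icc (0 : ℝ) 1) (hU : Ap β c d U) (hc : Continuous ψ)
    (he : ∀ x, ψ (-x) = -ψ x) (hb : ∀ x, |ψ x| ≤ M) :
    Ap β c d fun n J a i => ψ (U n J a i) := by
  have M0 : 0 ≤ M := (abs_nonneg _).trans (hb 0)
  refine apA.lim _ _ _ _ _ fun ε hε => ?_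
  obtain ⟨⟨C, C0, h1⟩, -⟩ := apA.bd _ _ _ _ _ hU
  set R := 2 * (2 * M + 1) * (C + 1) / ε with hR
  have R0 : 0 < R := by positivity
  set e := min 1 (ε / 2) with he'
  have e0 : 0 < e := by positivity
  obtain ⟨φ, ⟨L, hL⟩, p1, p2, p3⟩ := lip_apx hc hb R0.le e0 (.inr rfl) (by simpa using he)
  refine ⟨_, apB.map _ β hβ c d 1 (fun u => φ (u 0)) (fun _ => U) ⟨fun u => by simpa using p1 _,
    ⟨_, hL.comp (LipschitzWith.eval 0)⟩⟩ (fun _ => hU),
    hpStmt.mono _ _ _ _ _ _ h1 (.of_forall fun n J a a1 => ?_)⟩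
  obtain ⟨S, s1, s2⟩ := near (a := fun i => ψ (U n J a i) - φ (U n J a i)) (w := 1)
    (B := 2 * M + 1) (by positivity) e0.le R0 C0 (fun i => (abs_sub _ _).trans (by
      linarith [hb (U n J a i), p2 (U n J a i), show e ≤ 1 from min_le_left _ _]))
      (fun i hi => p3 _ hi) a1
  refine le_trans (le_of_eq (congrArg nrm (funext fun i => by simp))) (s2.trans ?_)
  have n0 := Real.sqrt_nonneg (n : ℝ)
  have b0 : nrm (1 : V n) = √n := by simp [nrm, dotProduct]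
  have b1 : e * √n ≤ ε / 2 * √n := mul_le_mul_of_nonneg_right (min_le_right _ _) n0
  have b2 : (2 * M + 1) * √S.card ≤ ε / 2 * √n :=
    calc _ ≤ (2 * M + 1) * ((C + 1) / R * √n) := by
          gcongr; refine s1.trans ?_; gcongr; linarith
      _ = _ := by rw [hR]; field_simp
  simp only [b0, Pi.one_apply, one_pow, Finset.sum_const, nsmul_eq_mul, mul_one]
  linarith

end ap

variable {β s : ℝ}

theorem solStmt : SolStmt := solGlue lipStmt hpStmt apA apB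

/-- the cavity field is approximable -/
theorem rq_b (hβ : β ∈ Ioo (0 : ℝ) 1) (hs : 0 ≤ s) :
    Rq β s fun _ J y => Lp.cav J (β ^ 2) y (mag (ising J y)) := by
  have hβ1 : β ∈ Icc (0 : ℝ) 1 := ⟨hβ.1.le, hβ.2.le⟩
  have m := solStmt β hβ s hs
  have y := apA.net _ β hβ1 (fun _ : Unit => s) (fun _ => √s) _ (.inp ())
  have h := apB.add _ β hβ1 _ _ _ _ 1 (β ^ 2) (apB.add _ β hβ1 _ _ _ _ 1 (-β ^ 2)
    (apB.add _ β hβ1 _ _ _ _ 1 1 y (apB.mul _ β hβ1 _ _ _ m).1) m) (apB.sc _ β hβ1 _ _ _ _ _ m m m)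
  unfold Rq
  convert h using 4 with n J a
  funext i
  have n0 : (0 : ℝ) < n := Nat.cast_pos.2 i.pos
  simp only [Lp.cav, avg, DD, Pi.add_apply, Pi.sub_apply, Pi.smul_apply, smul_eq_mul, Pi.mul_apply,
    Finset.sum_sub_distrib, Finset.sum_const, Finset.card_univ, Fintype.card_fin, nsmul_eq_mul, ← sq]
  field_simp
  ring

theorem Ty.ev {P : ∀ n, Mx n → V n → Prop} (h : Ty β s P) : ∀ᶠ i in TF β s, P i.n (i.J β) i.y := by
  obtain ⟨κ, hκ, h⟩ := h
  exact TF.of_dis (P := fun n g y => P n (β • Jmat n g) y) fun ε hε => h.mono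
    (((TapPl.tendsto_exp_neg hκ).eventually (ge_mem_nhds hε)).mono fun _ hn _ hW => hW.trans hn)

/-- combinations of approximable vectors with bounded coefficients -/
inductive PA (β s : ℝ) : (∀ i : In, V i.n) → Prop
  | base (U : ∀ n, Mx n → V n → V n) : Rq β s U → PA β s fun i => U i.n (i.J β) i.y
  | add (X Y : ∀ i : In, V i.n) : PA β s X → PA β s Y → PA β s fun i => X i + Y i
  | smul (c : In → ℝ) (C : ℝ) (X : ∀ i : In, V i.n) : (∀ i, |c i| ≤ C) → PA β s X →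
      PA β s fun i => c i • X i

variable {X : ∀ i : In, V i.n}

theorem PA.sum {κ : Type} (hβ : β ∈ Icc (0 : ℝ) 1) (t : Finset κ) {X : κ → ∀ i : In, V i.n}
    (h : ∀ l ∈ t, PA β s (X l)) : PA β s fun i => ∑ l ∈ t, X l i := by
  classical
  induction t using Finset.induction_on with
  | empty =>
    simpa using PA.smul (fun _ => 0) 0 _ (fun _ => by simp) (PA.base (β := β) (s := s)
      (fun _ _ y => y) (apA.net _ β hβ (fun _ : Unit => s) (fun _ => √s) _ (.inp ())))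
  | insert a t ha ih =>
    simpa only [Finset.sum_insert ha] using PA.add _ _ (h a (Finset.mem_insert_self _ _))
      (ih fun l hl => h l (Finset.mem_insert_of_mem hl))

theorem PA.mul (hβ : β ∈ Icc (0 : ℝ) 1) (h : PA β s X) : PA β s fun i => i.J β *ᵥ X i := by
  induction h with
  | base U h => exact .base (fun n J y => J *ᵥ U n J y) (apB.mul _ β hβ _ _ _ h).1
  | add X Y _ _ h1 h2 => simpa only [mulVec_add] using h1.add _ _ h2
  | smul c C X hc _ h1 => simpa only [mulVec_smul] using h1.smul c C _ hc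

theorem PA.ev (hβ : β ∈ Ioo (0 : ℝ) 1) (hs : 0 ≤ s) {ψ : ℝ → ℝ} {M : ℝ} (hc : Continuous ψ)
    (he : ∀ x, ψ (-x) = ψ x) (hb : ∀ x, |ψ x| ≤ M) (h : PA β s X) :
    PA β s fun i => (fun k => ψ (i.b β k)) * X i := by
  induction h with
  | base U h =>
    exact .base (fun n J y k => ψ (Lp.cav J (β ^ 2) y (mag (ising J y)) k) * U n J y k)
      (ap_ev0 ⟨hβ.1.le, hβ.2.le⟩ (rq_b hβ hs) h hc he hb)
  | add X Y _ _ h1 h2 => simpa only [mul_add] using h1.add _ _ h2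
  | smul c C X hc _ h1 => simpa only [mul_smul_comm] using h1.smul c C _ hc

/-- odd types -/
theorem PA.od (hβ : β ∈ Ioo (0 : ℝ) 1) (hs : 0 ≤ s) {ψ : ℝ → ℝ} {M : ℝ} (hc : Continuous ψ)
    (he : ∀ x, ψ (-x) = -ψ x) (hb : ∀ x, |ψ x| ≤ M) : PA β s fun i k => ψ (i.b β k) :=
  .base (fun n J y k => ψ (Lp.cav J (β ^ 2) y (mag (ising J y)) k))
    (ap_od0 ⟨hβ.1.le, hβ.2.le⟩ (rq_b hβ hs) hc he hb)

theorem PA.flat (hs : 0 ≤ s) (h : PA β s X) : ∀ ε > (0 : ℝ), ∃ δ > (0 : ℝ),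
    ∀ᶠ i in TF β s, Fl (δ * i.n) (ε * √i.n) (X i) := by
  induction h with
  | base U h =>
    intro ε hε
    obtain ⟨M, M0, h1⟩ := (apA.bd _ _ _ _ _ h).2 (ε / 2) (half_pos hε)
    refine ⟨(ε / (2 * (M + 1))) ^ 2, by positivity, ((hpStmt.ty β s hs fun n J y =>
      nrm (U n J y - cp M (U n J y)) ≤ ε / 2 * √n ∧ ∀ S : Finset (Fin n),
        √(∑ i ∈ S, U n J y i ^ 2) ≤ ε / 2 * √n + M * √S.card).2 h1).ev.mono
          fun i ⟨_, h2⟩ v ⟨T, h3, h4⟩ => ?_⟩
    have e : v ⬝ᵥ U i.n (i.J β) i.y = v ⬝ᵥ res T (U i.n (i.J β) i.y) :=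
      Finset.sum_congr rfl fun k _ => by by_cases hk : k ∈ T <;> simp [res, hk, h4 k]
    rw [e, mul_comm]
    refine (abs_dot_le _ _).trans (mul_le_mul_of_nonneg_left ?_ (nrm_nonneg _))
    have h5 := Real.sqrt_le_sqrt h3
    rw [Real.sqrt_mul (sq_nonneg _), Real.sqrt_sq (by positivity)] at h5
    have h6 : M * √T.card ≤ ε / 2 * √i.n :=
      calc _ ≤ (M + 1) * (ε / (2 * (M + 1)) * √i.n) := by gcongr; linarith
        _ = _ := by field_simp
    rw [nrm_res]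
    linarith [h2 T]
  | add X Y _ _ h1 h2 =>
    intro ε hε
    obtain ⟨a, a0, h1⟩ := h1 _ (half_pos hε)
    obtain ⟨b, b0, h2⟩ := h2 _ (half_pos hε)
    refine ⟨min a b, lt_min a0 b0, (h1.and h2).mono fun i ⟨h1, h2⟩ => ?_⟩
    have n0 : (0 : ℝ) ≤ i.n := Nat.cast_nonneg _
    exact ((h1.mono (mul_le_mul_of_nonneg_right (min_le_left a b) n0) le_rfl).add
      (h2.mono (mul_le_mul_of_nonneg_right (min_le_right a b) n0) le_rfl)).mono le_rfl
        (le_of_eq (by ring))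
  | smul c C X hc _ h1 =>
    intro ε hε
    have b0 : 0 < |C| + 1 := by positivity
    obtain ⟨a, a0, h1⟩ := h1 _ (div_pos hε b0)
    refine ⟨a, a0, h1.mono fun i h1 => (h1.smul (C := |C| + 1)
      (by linarith [hc i, le_abs_self C]) (by positivity)).mono le_rfl (le_of_eq (by field_simp))⟩

theorem PA.ww (hβ : β ∈ Ioo (0 : ℝ) 1) (hs : 0 ≤ s) {g : ℝ → ℝ} {M : ℝ} (hc : Continuous g)
    (he : ∀ x, g (-x) = g x) (hb : ∀ x, |g x| ≤ M) (h : PA β s X) (k : ℕ) :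
    (PA β s fun i => Ww (β / √i.n) (i.J β) (fun k => g (i.b β k)) k *ᵥ X i) ∧
      PA β s fun i => Uu (β / √i.n) (i.J β) (fun k => g (i.b β k)) k *ᵥ X i := by
  have hβ1 : β ∈ Icc (0 : ℝ) 1 := ⟨hβ.1.le, hβ.2.le⟩
  induction k with
  | zero => simpa only [Rip.Cav35.Ww_zero, Rip.Cav35.Uu_zero, one_mulVec] using ⟨h.mul hβ1, h⟩
  | succ k ih =>
    have h1 : PA β s fun i => Uu (β / √i.n) (i.J β) (fun k => g (i.b β k)) (k + 1) *ᵥ X i := by
      simpa only [Rip.Cav35.Uu_succ, ← mulVec_mulVec, Rip.Cav35.dmv] using ih.1.ev hβ hs hc he hb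
    refine ⟨?_, h1⟩
    have h2 := (h1.mul hβ1).add _ _ (ih.2.smul
      (fun i => -Uw.eta (β / √i.n) fun k => g (i.b β k)) M _ fun i => ?_)
    · simpa only [Rip.Cav35.Ww_succ, sub_mulVec, smul_mulVec, ← mulVec_mulVec, neg_smul,
        ← sub_eq_add_neg] using h2
    · rw [abs_neg]
      refine Uw.abs_eta_le ?_ ((abs_nonneg _).trans (hb 0)) fun _ => hb _
      rcases Nat.eq_zero_or_pos i.n with h0 | h0
      · simp [h0]
      · exact Rip.sq_card ⟨hβ.1, hβ.2.le⟩ h0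

/-- **FlW** for finitely many approximable vectors -/
theorem flW (hβ : β ∈ Ioo (0 : ℝ) 1) (hs : 0 ≤ s) {g q : ℝ → ℝ} {M : ℝ} (cg : Continuous g)
    (eg : ∀ x, g (-x) = g x) (bg : ∀ x, |g x| ≤ M) (cq : Continuous fun x => g x / q x)
    (eq : ∀ x, q (-x) = q x) (bq : ∀ x, |g x / q x| ≤ M) {κ : Type} [Finite κ]
    {X : κ → ∀ i : In, V i.n} (h : ∀ l, PA β s (X l)) :
    FlW β s g q fun i => range fun l => (√(i.n : ℝ))⁻¹ • X l i := by
  intro k ε hε
  choose δ δ0 hδ using fun p : κ × Fin (k + 1) => (((h p.1).ev hβ hs cq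
    (fun x => by rw [eg, eq]) bq).ww hβ hs cg eg bg p.2).1.flat hs ε hε
  obtain ⟨a, a0, ha⟩ : ∃ a > (0 : ℝ), ∀ p, a ≤ δ p := by
    obtain ⟨a, h1, h2⟩ := ((eventually_all.2 fun p => eventually_le_nhds (δ0 p)).filter_mono
      (nhdsWithin_le_nhds (s := Ioi (0 : ℝ)))).and self_mem_nhdsWithin |>.exists
    exact ⟨a, h2, h1⟩
  refine ⟨a, a0, ?_⟩
  filter_upwards [eventually_all.2 hδ, TF.lim.eventually (eventually_gt_atTop 0)] with i h1 hn
  rintro _ ⟨l, rfl⟩ j hj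
  have n0 : (0 : ℝ) < i.n := Nat.cast_pos.2 hn
  rw [mul_smul_comm, mulVec_smul]
  exact ((h1 (l, ⟨j, by omega⟩)).smul (C := (√(i.n : ℝ))⁻¹) (abs_of_nonneg (by positivity)).le
    (by positivity)).mono (mul_le_mul_of_nonneg_right (ha _) n0.le) (le_of_eq (by field_simp))

end Crest.Agent.T157.Z

end
end

-- ▼ part T157/KFl_25

/-!
# Row 157, part B (helper25): thermal words have flat Wick powers
-/

set_option autoImplicit false
set_option linter.unusedVariables false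

noncomputable section

namespace Crest.Agent.T157.K

open MeasureTheory ProbabilityTheory Matrix Filter Set Topology
open Crest.Agent.T157.E Crest.Agent.T157.Eig
open Crest.Agent.T157.Tap (V Mx)
open Crest.Agent.T157.Z
open Crest.Agent.T157.Rip (Fl Sp res FlW)
open Crest.Agent.T157.Rip.Cav35 (Ww Uu)
open Crest.Agent.T157.Pos (In TF)

variable {β s : ℝ} {u : ∀ n, Mx n → V n → V n}

theorem ty_iff : TY β s u ↔ Ap β (wc s) (wd s) fun n J a => u n J (a false) := Iff.rfl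

theorem ty_rq (h : Rq β s u) : TY β s u := by
  let f : Unit ↪ Bool := ⟨fun _ => false, fun _ _ _ => rfl⟩
  refine ty_iff.2 (apA.emb Unit Bool β (wc s) (wd s) f (fun n J a => u n J (a ())) ?_)
  have e1 : wc s ∘ f = fun _ => s := funext fun _ => by simp [wc, f]
  have e2 : wd s ∘ f = fun _ => √s := funext fun _ => by simp [wd, f]
  rw [e1, e2]
  exact h

theorem ty_bf (hβ : β ∈ Ioo (0 : ℝ) 1) (hs : 0 ≤ s) : TY β s (bf β) := ty_rq (rq_b hβ hs)

theorem ty_of_hp (hs : 0 ≤ s) {P : ∀ n, Mx n → V n → Prop}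
    (h : Hp β (wc s) (wd s) fun n J a => P n J (a false)) : Ty β s P := by
  refine (hpStmt.ty β s hs P).2 (hpStmt.prj Unit Unit β _ _ (fun _ => 1) (fun _ => 0) _ ?_)
  let f : Bool ↪ Unit ⊕ Unit := ⟨fun t => if t then .inr () else .inl (), by decide⟩
  refine hpStmt.emb Bool (Unit ⊕ Unit) β _ _ f (fun n J a => P n J (a false)) ?_
  convert h using 1 <;> funext t <;> cases t <;> rfl

theorem ty_flat (hs : 0 ≤ s) (h : TY β s u) {ε : ℝ} (hε : 0 < ε) :
    ∃ δ > (0 : ℝ), Ty β s fun n J y => Fl (δ * n) (ε * √n) (u n J y) := by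
  obtain ⟨M, M0, h1⟩ := (apA.bd _ _ _ _ _ (ty_iff.1 h)).2 (ε / 2) (half_pos hε)
  refine ⟨(ε / (2 * (M + 1))) ^ 2, by positivity, ty_of_hp hs (hpStmt.mono _ _ _ _ _ _ h1
    (.of_forall fun n J a ⟨_, h2⟩ v ⟨T, h3, h4⟩ => ?_))⟩
  have e : v ⬝ᵥ u n J (a false) = v ⬝ᵥ res T (u n J (a false)) :=
    Finset.sum_congr rfl fun k _ => by by_cases hk : k ∈ T <;> simp [res, hk, h4 k]
  rw [e, mul_comm]
  refine (abs_dot_le _ _).trans (mul_le_mul_of_nonneg_left ?_ (nrm_nonneg _))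
  have h5 := Real.sqrt_le_sqrt h3
  rw [Real.sqrt_mul (sq_nonneg _), Real.sqrt_sq (by positivity)] at h5
  have h6 : M * √T.card ≤ ε / 2 * √n :=
    calc _ ≤ (M + 1) * (ε / (2 * (M + 1)) * √n) := by gcongr; linarith
      _ = _ := by field_simp
  rw [Fl25.nrm_res]
  linarith [h2 T]

/-- combinations of thermal words with bounded coefficients -/
inductive PY (β s : ℝ) : (∀ i : In, V i.n) → Prop
  | base (u : ∀ n, Mx n → V n → V n) : TY β s u → PY β s fun i => u i.n (i.J β) i.y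
  | add (X Y : ∀ i : In, V i.n) : PY β s X → PY β s Y → PY β s fun i => X i + Y i
  | smul (c : In → ℝ) (C : ℝ) (X : ∀ i : In, V i.n) : (∀ i, |c i| ≤ C) → PY β s X →
      PY β s fun i => c i • X i

variable {X : ∀ i : In, V i.n}

theorem PY.of_pa (h : PA β s X) : PY β s X := by
  induction h with
  | base U h => exact .base U (ty_rq h)
  | add X Y _ _ h1 h2 => exact h1.add _ _ h2
  | smul c C X hc _ h1 => exact h1.smul c C _ hc

theorem PY.sum {κ : Type} (hβ : β ∈ Icc (0 : ℝ) 1) (t : Finset κ) {X : κ → ∀ i : In, V i.n}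
    (h : ∀ l ∈ t, PY β s (X l)) : PY β s fun i => ∑ l ∈ t, X l i := by
  classical
  induction t using Finset.induction_on with
  | empty => exact .of_pa (PA.sum hβ ∅ (X := X) (by simp))
  | insert a t ha ih =>
    simpa only [Finset.sum_insert ha] using PY.add _ _ (h a (Finset.mem_insert_self _ _))
      (ih fun l hl => h l (Finset.mem_insert_of_mem hl))

theorem PY.mul (hβ : β ∈ Icc (0 : ℝ) 1) (h : PY β s X) : PY β s fun i => i.J β *ᵥ X i := by
  induction h with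
  | base U h => exact .base (fun n J y => J *ᵥ U n J y) (ty_iff.2 (apB.mul _ β hβ _ _ _ (ty_iff.1 h)).1)
  | add X Y _ _ h1 h2 => simpa only [mulVec_add] using h1.add _ _ h2
  | smul c C X hc _ h1 => simpa only [mulVec_smul] using h1.smul c C _ hc

theorem PY.ev (hβ : β ∈ Ioo (0 : ℝ) 1) (hs : 0 ≤ s) {ψ : ℝ → ℝ} {M : ℝ} (hc : Continuous ψ)
    (he : ∀ x, ψ (-x) = ψ x) (hb : ∀ x, |ψ x| ≤ M) (h : PY β s X) :
    PY β s fun i => (fun k => ψ (i.b β k)) * X i := by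
  induction h with
  | base U h =>
    exact .base (fun n J y k => ψ (bf β n J y k) * U n J y k)
      (ty_iff.2 (ap_ev0 ⟨hβ.1.le, hβ.2.le⟩ (ty_iff.1 (ty_bf hβ hs)) (ty_iff.1 h) hc he hb))
  | add X Y _ _ h1 h2 => simpa only [mul_add] using h1.add _ _ h2
  | smul c C X hc _ h1 => simpa only [mul_smul_comm] using h1.smul c C _ hc

theorem PY.flat (hs : 0 ≤ s) (h : PY β s X) : ∀ ε > (0 : ℝ), ∃ δ > (0 : ℝ),
    ∀ᶠ i in TF β s, Fl (δ * i.n) (ε * √i.n) (X i) := by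
  induction h with
  | base U h => exact fun ε hε => (ty_flat hs h hε).imp fun δ h1 => ⟨h1.1, h1.2.ev⟩
  | add X Y _ _ h1 h2 =>
    intro ε hε
    obtain ⟨a, a0, h1⟩ := h1 _ (half_pos hε)
    obtain ⟨b, b0, h2⟩ := h2 _ (half_pos hε)
    refine ⟨min a b, lt_min a0 b0, (h1.and h2).mono fun i ⟨h1, h2⟩ => ?_⟩
    have n0 : (0 : ℝ) ≤ i.n := Nat.cast_nonneg _
    exact ((h1.mono (mul_le_mul_of_nonneg_right (min_le_left a b) n0) le_rfl).add
      (h2.mono (mul_le_mul_of_nonneg_right (min_le_right a b) n0) le_rfl)).mono le_rfl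
        (le_of_eq (by ring))
  | smul c C X hc _ h1 =>
    intro ε hε
    have b0 : 0 < |C| + 1 := by positivity
    obtain ⟨a, a0, h1⟩ := h1 _ (div_pos hε b0)
    refine ⟨a, a0, h1.mono fun i h1 => (h1.smul (C := |C| + 1)
      (by linarith [hc i, le_abs_self C]) (by positivity)).mono le_rfl (le_of_eq (by field_simp))⟩

theorem PY.ww (hβ : β ∈ Ioo (0 : ℝ) 1) (hs : 0 ≤ s) {g : ℝ → ℝ} {M : ℝ} (hc : Continuous g)
    (he : ∀ x, g (-x) = g x) (hb : ∀ x, |g x| ≤ M) (h : PY β s X) (k : ℕ) :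
    (PY β s fun i => Ww (β / √i.n) (i.J β) (fun k => g (i.b β k)) k *ᵥ X i) ∧
      PY β s fun i => Uu (β / √i.n) (i.J β) (fun k => g (i.b β k)) k *ᵥ X i := by
  have hβ1 : β ∈ Icc (0 : ℝ) 1 := ⟨hβ.1.le, hβ.2.le⟩
  induction k with
  | zero => simpa only [Rip.Cav35.Ww_zero, Rip.Cav35.Uu_zero, one_mulVec] using ⟨h.mul hβ1, h⟩
  | succ k ih =>
    have h1 : PY β s fun i => Uu (β / √i.n) (i.J β) (fun k => g (i.b β k)) (k + 1) *ᵥ X i := by
      simpa only [Rip.Cav35.Uu_succ, ← mulVec_mulVec, Rip.Cav35.dmv] using ih.1.ev hβ hs hc he hb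
    refine ⟨?_, h1⟩
    have h2 := (h1.mul hβ1).add _ _ (ih.2.smul
      (fun i => -Uw.eta (β / √i.n) fun k => g (i.b β k)) M _ fun i => ?_)
    · simpa only [Rip.Cav35.Ww_succ, sub_mulVec, smul_mulVec, ← mulVec_mulVec, neg_smul,
        ← sub_eq_add_neg] using h2
    · rw [abs_neg]
      refine Uw.abs_eta_le ?_ ((abs_nonneg _).trans (hb 0)) fun _ => hb _
      rcases Nat.eq_zero_or_pos i.n with h0 | h0
      · simp [h0]
      · exact Rip.sq_card ⟨hβ.1, hβ.2.le⟩ h0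

/-- **FlW** for finitely many thermal words -/
theorem flW (hβ : β ∈ Ioo (0 : ℝ) 1) (hs : 0 ≤ s) {g q : ℝ → ℝ} {M : ℝ} (cg : Continuous g)
    (eg : ∀ x, g (-x) = g x) (bg : ∀ x, |g x| ≤ M) (cq : Continuous fun x => g x / q x)
    (eq : ∀ x, q (-x) = q x) (bq : ∀ x, |g x / q x| ≤ M) {κ : Type} [Finite κ]
    {X : κ → ∀ i : In, V i.n} (h : ∀ l, PY β s (X l)) :
    FlW β s g q fun i => range fun l => (√(i.n : ℝ))⁻¹ • X l i := by
  intro k ε hε
  choose δ δ0 hδ using fun p : κ × Fin (k + 1) => (((h p.1).ev hβ hs cq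
    (fun x => by rw [eg, eq]) bq).ww hβ hs cg eg bg p.2).1.flat hs ε hε
  obtain ⟨a, a0, ha⟩ : ∃ a > (0 : ℝ), ∀ p, a ≤ δ p := by
    obtain ⟨a, h1, h2⟩ := ((eventually_all.2 fun p => eventually_le_nhds (δ0 p)).filter_mono
      (nhdsWithin_le_nhds (s := Ioi (0 : ℝ)))).and self_mem_nhdsWithin |>.exists
    exact ⟨a, h2, h1⟩
  refine ⟨a, a0, ?_⟩
  filter_upwards [eventually_all.2 hδ, TF.lim.eventually (eventually_gt_atTop 0)] with i h1 hn
  rintro _ ⟨l, rfl⟩ j hj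
  have n0 : (0 : ℝ) < i.n := Nat.cast_pos.2 hn
  rw [mul_smul_comm, mulVec_smul]
  exact ((h1 (l, ⟨j, by omega⟩)).smul (C := (√(i.n : ℝ))⁻¹) (abs_of_nonneg (by positivity)).le
    (by positivity)).mono (mul_le_mul_of_nonneg_right (ha _) n0.le) (le_of_eq (by field_simp))

/-- **cavity vectors orthogonal to the types and to finitely many thermal words** -/
theorem cavY (hβ : β ∈ Ioo (0 : ℝ) 1) {q0 : ℝ} (hL : Pos.Lv β s q0) {M ρ C2 e ε : ℝ} (hM : 1 ≤ M)
    (hρ0 : 0 ≤ ρ) (hρ1 : ρ < 1) (hC2 : 1 ≤ C2) (he : 0 < e) (hε : 0 < ε) {κ ι : Type} [Fintype κ]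
    [Finite ι] {g q : ℝ → ℝ} {d : κ → ℝ → ℝ} (cg : Continuous g) (eg : ∀ x, g (-x) = g x)
    (cq : Continuous q) (eq : ∀ x, q (-x) = q x) (cd : ∀ l, Continuous (d l))
    (bd : ∀ l x, |d l x| ≤ 1) (hg : ∀ x, 0 < g x ∧ g x ≤ M ∧ β * g x ≤ ρ ∧ g x ≤ C2 * q x)
    {f : ι → ∀ n, Mx n → V n → V n} (hf : ∀ l, TY β s (f l)) : ∃ δ > (0 : ℝ), ∀ᶠ i in TF β s,
      |Uw.eta (β / √i.n) (fun k => g (i.b β k)) -
        β ^ 2 * Tap.gE g (s + β ^ 2 * q0) (s + β ^ 2 * q0)| ≤ ε ∧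
      ∀ p α : V i.n, (∀ k, 0 ≤ p k ∧ p k ≤ C2 * q (i.b β k) ∧ p k ≤ C2 * g (i.b β k)) →
        (∀ k, |α k - q (i.b β k) * (1 / g (i.b β k) +
          Uw.eta (β / √i.n) fun k => g (i.b β k))| ≤ e) →
        ∃ Wm, Rip.Cav (i.J β) p (fun k => q (i.b β k)) α (Uw.eta (β / √i.n) fun k => g (i.b β k))
          (2 * C2 / (1 - ρ)) (2 * C2 ^ 2 / (1 - ρ) ^ 2) ((2 * C2 / (1 - ρ) + 1) * e) ε (δ * i.n)
          ((Rip.Fs fun l k => d l (i.b β k)) ∪
            range fun l => (√(i.n : ℝ))⁻¹ • f l i.n (i.J β) i.y) Wm := by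
  have C0 : 0 < C2 := by linarith
  have q0 : ∀ x, 0 < q x := fun x => (mul_pos_iff_of_pos_left C0).1 ((hg x).1.trans_le (hg x).2.2.2)
  refine Rip.TF.cavV ⟨hβ.1, hβ.2.le⟩ hL hM hρ0 hρ1 hC2 he hε cg eg cq cd bd hg
    (flW (M := max M C2) hβ hL.1 cg eg (fun x => ?_) (cg.div cq fun x => (q0 x).ne') eq (fun x => ?_)
      fun l => .base _ (hf l))
  · rw [abs_of_pos (hg x).1]; exact le_max_of_le_left (hg x).2.1
  · rw [abs_of_pos (div_pos (hg x).1 (q0 x))]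
    exact le_max_of_le_right ((div_le_iff₀ (q0 x)).2 (hg x).2.2.2)

end Crest.Agent.T157.K

end
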