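import Crest.Agent.T157.UeD_83
import Crest.Agent.T157.S3Def_69
import Crest.Agent.T157.BDefB_95

/-!
# Row 157, part B, block S1 (helper97): states, potentials, deterministic leaves, interfaces

Text: `docs/T157_B_S1.md`.  Everything here is about one instance `(n, J, f)`.
-/

set_option autoImplicit false

noncomputable section

namespace Crest.Agent.T157.S1

open MeasureTheory Real Matrix Finset
open Crest.Agent.T157.E Crest.Agent.T157.SL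
open Crest.Agent.T157.Ta (Ar Cnt Dm wt XG)
open Crest.Agent.T157.Ue (El Lw)
open Crest.Agent.T157.Rec (grad)
open Crest.Agent.T157.Eig (nrm opn)
open Crest.Agent.T157.S3 (V Mx tau Dg TS Rg Exc)
open Crest.Agent.T157.S3F (Free)
open Crest.Agent.T157.Atd (ATd)
open Crest.Agent.T157.Rv (Warm)

variable {n : ℕ}

/-! ### data and states -/

/-- couplings, density, precision of the bursts, loudness threshold, weight of loud edges, `log sup f` -/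
structure Dat (n : ℕ) where
  J : Mx n
  f : Cube n → ℝ
  P : ℝ
  η0 : ℝ
  θ : ℝ
  T0 : ℝ

structure Dat.Ok (D : Dat n) : Prop where
  symm : D.Jᵀ = D.J
  diag : ∀ i, D.J i i = 0
  op : opn D.J ≤ 3
  fpos : ∀ x, 0 < D.f x
  fle : ∀ x, D.f x ≤ exp D.T0
  P1 : 1 ≤ D.P
  e0 : 0 < D.η0
  e1 : D.η0 ≤ 1 / 4
  t0 : 0 ≤ D.θ
  t1 : D.θ ≤ 1 - 2 * D.η0

/-- fields of `ν` and `π`, pinned set, pinned values, centres, tilt and its certificate -/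
structure St (n : ℕ) where
  y : V n
  y' : V n
  S : Finset (Fin n)
  sS : Cube n
  x : V n
  Th : Cube n → ℝ
  L : ℝ
  Om : Cube n → V n
  G : Cube n → ℝ

/-- the class of the tilts -/
structure Cl (e A : ℝ) (s : St n) : Prop where
  L0 : 0 ≤ s.L
  gr : ∀ σ, nrm (grad s.Th σ) ≤ s.L
  rg : Rg e s.L s.Om
  ex : ∀ σ, nrm (grad s.Th σ - s.Om σ) ≤ s.G σ
  ts : TS A s.G

section words
variable (D : Dat n) (s : St n)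

def uu (σ : Cube n) (k : Fin n) : ℝ := (D.J *ᵥ sv σ) k - s.x k
def U (σ : Cube n) : ℝ := D.P / 2 * ∑ k ∈ s.S, uu D s σ k ^ 2
def U6 (σ : Cube n) : ℝ := ∑ k ∈ s.S, (D.P * uu D s σ k ^ 2) ^ 3
/-- likelihood of the pins and of the bursts -/
def ell (σ : Cube n) : ℝ := if ∀ k ∈ s.S, σ k = s.sS k then exp (-U D s σ) else 0
def loc (σ : Cube n) : ℝ := ising D.J s.y σ * ell D s σ
def nu (σ : Cube n) : ℝ := loc D s σ * D.f σ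
def del : V n := s.y' - s.y
def pi : Cube n → ℝ := wt (loc D s) fun σ => del s ⬝ᵥ sv σ + s.Th σ
def AA : ℝ := Ar (Ue.rw D.η0 D.θ D.f) (nu D s) (pi D s) +
  (1 - D.θ) / 2 * El (Lw D.η0 D.f) (nu D s) (loc D s)
def HH : ℝ := kl (nu D s) (pi D s)
def Hy : ℝ := kl (nu D s) (ising D.J s.y)
def Del : V n := Dm (nu D s) (pi D s)
def Dz : ℝ := D.T0 - log (mean (ising D.J s.y) fun σ => ell D s σ * D.f σ)
/-- the budget -/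
def Bd : ℝ := Hy D s + del s ⬝ᵥ del s + s.L ^ 2 + mean (nu D s) (U D s) + #s.S
/-- the budget seen from the base point `y0` -/
def Bb (y0 : V n) : ℝ := Bd D s + nrm (s.y - y0) ^ 2
/-- weighted energy of `g` under `ν` -/
def Eg (g : Cube n → ℝ) : ℝ := Cnt (fun i σ => grad g σ i ^ 2) (nu D s)
def Ex : ℝ := mean (nu D s) fun σ => s.G σ ^ 2
/-- all sizes are at most `t` -/
def Sz (t : ℝ) : Prop := Dz D s ≤ t ∧ del s ⬝ᵥ del s ≤ t ∧ s.L ^ 2 ≤ t ∧ (#s.S : ℝ) ≤ t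

end words

/-- both fields move -/
def St.mv (s : St n) (p q : V n) : St n := { s with y := s.y + p, y' := s.y' + q }
/-- unsynchronisation -/
def St.un (s : St n) : St n := { s with y' := s.y }
/-- new pins -/
def St.pin (s : St n) (B : Finset (Fin n)) (sg : Cube n) (x' : V n) : St n :=
  { s with S := s.S ∪ B, sS := sg, x := x' }
/-- a new tilt with its certificate -/
def St.tl (s : St n) (φ : Cube n → ℝ) (l : ℝ) (Ω : Cube n → V n) (G : Cube n → ℝ) : St n :=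
  { s with Th := s.Th + φ, L := s.L + l, Om := s.Om + Ω, G := s.G + G }

/-- coefficients of the potential -/
structure Cf where
  l : ℝ
  a : ℝ
  γ : ℝ
  g1 : ℝ
  g2 : ℝ
  Λ : ℝ
  T : ℝ

/-- the potential; `ξ` collects the martingale terms -/
def Pot (D : Dat n) (c : Cf) (ξ : Cube n → ℝ) (s : St n) : ℝ :=
  c.l * AA D s - c.a * HH D s + c.γ * (Bd D s + mean (nu D s) (U6 D s)) + c.g1 * Eg D s s.Th +
    c.g2 * Ex D s + c.Λ * (del s ⬝ᵥ del s) + exp ((Dz D s - c.T) / 2) + mean (nu D s) ξ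

/-- functions of the configuration and of the field -/
abbrev Fy (n : ℕ) : Type := Cube n → V n → ℝ
/-- nonnegative, measurable, of exponential growth -/
def XF (F : Fy n) : Prop := (∀ σ, XG (F σ)) ∧ ∀ σ y, 0 ≤ F σ y
/-- prediction over a time `t` -/
def Ew (t : ℝ) (F : Fy n) : Fy n := fun σ y => ∫ g, F σ (y + t • sv σ + √t • g) ∂Gs (Fin n)
/-- Euclidean distance to a set -/
def dG (G : Set (V n)) (y : V n) : ℝ :=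
  Metric.infDist (WithLp.toLp 2 y : EuclideanSpace ℝ (Fin n)) (WithLp.toLp 2 '' G)
/-- indicator of `d ^ 2 > t` -/
def far (G : Set (V n)) (t : ℝ) (y : V n) : ℝ := if t < dG G y ^ 2 then 1 else 0
/-- the base hypothesis at `y0` -/
def Bas (J : Mx n) (K0 κ0 : ℝ) (y0 : V n) : Prop := ATd (ising J y0) K0 (exp (-(κ0 * n)))

/-! ### what the ansatz gives for one weight vector -/

/-- `(α - J + P J 1_S J) u` -/
def Mq (J : Mx n) (P : ℝ) (S : Finset (Fin n)) (al u : V n) : V n :=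
  al * u - J *ᵥ u + P • J *ᵥ fun k => if k ∈ S then (J *ᵥ u) k else 0

/-- rate `a`, residual `e`, regularity `e1`, network constant `CN`, uniform constant `C0`, scale `l` -/
structure AnsW (J : Mx n) (y0 : V n) (a : ℝ) (p al q : V n) (e e1 CN C0 K : ℝ) (w : V n) (l : ℝ)
    (φ : Cube n → ℝ) (W Ω : Cube n → V n) (G : Cube n → ℝ) : Prop where
  gr : ∀ σ, nrm (grad φ σ) ≤ CN * l
  fr : Free W
  rg : Rg e1 (CN * l) Ω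
  ex : ∀ σ, nrm (grad φ σ - Ω σ) ≤ G σ
  ts : TS e1 G
  g2 : (mean (ising J y0) fun σ => G σ ^ 2) ≤ e1 * l ^ 2 + K
  c : ∀ v, Wt v → (mean v fun σ => nrm (grad φ σ - W σ) ^ 2) ≤ e * (l ^ 2 + kl v (ising J y0)) + K
  d : ∀ v, Wt v → ∀ R : Cube n → ℝ,
    (R = fun σ => W σ ⬝ᵥ tau J y0 σ - a * φ σ - (al * (q * w) - J *ᵥ (q * w)) ⬝ᵥ sv σ) →
    |mean v R - mean (ising J y0) R| ≤ e * (l ^ 2 + kl v (ising J y0)) + K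
  f : Exc (ising J y0) e1 (e1 * l ^ 2 + K) fun σ =>
    nrm fun i => max (|(J *ᵥ (Dg J y0 σ * Ω σ - q * w)) i| - e1) 0
  g : ∀ v, Wt v → (mean v fun σ => Dg J y0 σ ⬝ᵥ (Ω σ * Ω σ)) ≤
    C0 * (p ⬝ᵥ (w * w)) + e1 * (l ^ 2 + kl v (ising J y0)) + K

/-- admissible weights: `k` modes `v`, sup bound, cap, tolerance -/
def Adm (k : ℕ) (v : ℕ → V n) (η t ε : ℝ) (w : V n) (l : ℝ) : Prop :=
  ‖w‖ ≤ 3 * η ∧ nrm w ≤ l ∧ l ^ 2 ≤ t ∧ ∑ a ∈ range k, (v a ⬝ᵥ w) ^ 2 ≤ ε * l ^ 2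

/-- the threshold vector -/
def zv (J : Mx n) (p a0 Δ : V n) : V n := p * (a0 * Δ - J *ᵥ Δ)
/-- the collective deficit -/
def Mod (J : Mx n) (y0 a0 q : V n) (k : ℕ) (v : ℕ → V n) (Δ : V n) : ℝ :=
  ∑ a ∈ range k, (v a ⬝ᵥ (q * (a0 * Δ - J *ᵥ Δ))) ^ 2 +
    (mag (ising J y0) ⬝ᵥ Δ) ^ 2 / (mag (ising J y0) ⬝ᵥ mag (ising J y0))

/-- diagonals, positivity, modes, and the correction for the pins -/
structure LinOK (J : Mx n) (P : ℝ) (y0 p a0 al q : V n) (k : ℕ) (v : ℕ → V n)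
    (lq C0 C1 CP e η t ε : ℝ) : Prop where
  hp : ∀ i, 0 < p i ∧ p i ≤ 1
  hq : ∀ i, lq * p i ≤ q i ∧ q i ≤ 2 * p i
  ha : ∀ i, p i * |a0 i| ≤ C1 ∧ p i * |al i - a0 i| ≤ e
  pos : ∀ (S : Finset (Fin n)) (Δ : V n), (∀ i ∈ S, Δ i = 0) →
    Δ ⬝ᵥ Δ ≤ C1 * ∑ i ∈ Sᶜ, zv J p a0 Δ i ^ 2 +
      C1 * ((mag (ising J y0) ⬝ᵥ Δ) ^ 2 / (mag (ising J y0) ⬝ᵥ mag (ising J y0)))
  on : ∀ a < k, ∀ b < k, v a ⬝ᵥ v b = if a = b then 1 else 0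
  sup : ∀ u : V n, u ⬝ᵥ u ≤ t → ‖∑ a ∈ range k, (v a ⬝ᵥ u) • v a‖ ≤ η
  sp : ∀ S : Finset (Fin n), (#S : ℝ) ≤ t → ∑ a ∈ range k, ∑ i ∈ S, v a i ^ 2 ≤ ε / 4
  pin : ∀ (S : Finset (Fin n)) (u : V n), (#S : ℝ) ≤ t → (∀ i ∈ S, u i = 0) → ‖u‖ ≤ 2 * η →
    u ⬝ᵥ u ≤ t → ∃ w : V n, ‖w‖ ≤ 3 * η ∧ nrm w ≤ CP * nrm u ∧ p ⬝ᵥ (w * w) ≤ C0 * (u ⬝ᵥ u) ∧
      ∑ a ∈ range k, (v a ⬝ᵥ (w - u)) ^ 2 ≤ ε / 4 * (u ⬝ᵥ u) ∧
      ∑ i ∈ Sᶜ, (Mq J P S al (q * w) - (al * (q * u) - J *ᵥ (q * u))) i ^ 2 ≤ ε * (u ⬝ᵥ u)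

/-! ### deterministic leaves -/

/-- signs and crude bounds -/
def CrudeStmt : Prop := ∀ (n : ℕ) (D : Dat n) (s : St n), D.Ok →
  Ta.Pr (nu D s) (pi D s) ∧ Ta.Pr (nu D s) (loc D s) ∧ Ta.Pr (loc D s) (nu D s) ∧
  0 ≤ AA D s ∧ 0 ≤ HH D s ∧ 0 ≤ Hy D s ∧ 0 ≤ mean (nu D s) (U D s) ∧ 0 ≤ mean (nu D s) (U6 D s) ∧
  (∀ g, 0 ≤ Eg D s g) ∧ 0 ≤ Ex D s ∧ Hy D s + mean (nu D s) (U D s) ≤ Dz D s ∧
  Del D s ⬝ᵥ Del D s ≤ 4 * n ∧ (∀ i ∈ s.S, Del D s i = 0) ∧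
  ∀ e A, Cl e A s → HH D s ≤ Dz D s + 4 * √n * (s.L + nrm (del s))

/-- **(B1)** -/
def B1Stmt : Prop := ∀ K0 κ0 : ℝ, 0 < κ0 → ∃ C ≥ (1 : ℝ), ∀ (n : ℕ) (D : Dat n) (s : St n)
  (y0 : V n) (e A : ℝ), D.Ok → Cl e A s → Bas D.J K0 κ0 y0 →
  kl (nu D s) (ising D.J y0) ≤ C * Bb D s y0 ∧ kl (pi D s) (ising D.J y0) ≤ C * Bb D s y0 ∧
  mean (pi D s) (U D s) ≤ C * Bb D s y0 ∧ Del D s ⬝ᵥ Del D s ≤ C * Bb D s y0 ∧
  HH D s ≤ C * Bb D s y0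

/-- **(N)** -/
def NStmt : Prop := ∀ K0 κ0 S : ℝ, 0 < κ0 → ∃ C ≥ (1 : ℝ), ∀ (n : ℕ) (w f : Cube n → ℝ) (T0 r : ℝ)
  (G : Set (V n)), (∀ x, 0 < w x) → ATd w K0 (exp (-(κ0 * n))) → Warm w T0 f → 0 ≤ r → r ≤ S →
  (law sv w r).real Gᶜ ≤ 1 / 2 → G.Nonempty ∧
  (mean w fun σ => f σ * Ew r (fun _ y => dG G y ^ 2) σ 0) ≤ C * (ent w f + 1) ∧
  ∀ t, 0 ≤ t → (mean w fun σ => f σ * Ew r (fun _ => far G t) σ 0) ≤ exp (T0 + C - t / C)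

/-- calculus of predictions and of the distance -/
def MtStmt : Prop := ∀ n : ℕ,
  (∀ F : Fy n, Ew 0 F = F) ∧
  (∀ (F : Fy n) (t : ℝ), XF F → 0 ≤ t → XF (Ew t F)) ∧
  (∀ (F : Fy n) (t u : ℝ), XF F → 0 ≤ t → 0 ≤ u → Ew t (Ew u F) = Ew (t + u) F) ∧
  (∀ (F F' : Fy n) (t : ℝ), XF F → XF F' → 0 ≤ t → Ew t (F + F') = Ew t F + Ew t F') ∧
  (∀ (F : Fy n) (t c : ℝ), Ew t (c • F) = c • Ew t F) ∧
  (∀ (F F' : Fy n) (c : ℝ), XF F → XF F' → 0 ≤ c → XF (F + F') ∧ XF (c • F)) ∧ XF (0 : Fy n) ∧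
  (∀ (G : Set (V n)) (t : ℝ), XF (fun _ y => dG G y ^ 2) ∧ XF fun _ => far G t) ∧
  ∀ (G : Set (V n)) (y : V n), G.Nonempty → ∃ y0 ∈ G, nrm (y - y0) ^ 2 ≤ dG G y ^ 2 + 1

/-- **WIN** -/
def WinStmt : Prop := ∀ (n : ℕ) (D : Dat n) (s : St n) (c : Cf) (τ c1 R : ℝ) (F : Fy n),
  D.Ok → XF F → 0 < τ → 0 ≤ c.l → c.l ≤ 1 → 0 ≤ c.a → 0 ≤ c.γ → 0 ≤ c.g1 → 0 ≤ c.g2 → 0 ≤ c.Λ →
  τ / 2 + 6 * (c.Λ + c.γ) * τ ^ 2 ≤ c1 →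
  (∀ p q : V n, c1 * (Del D (s.mv p q) ⬝ᵥ Del D (s.mv p q)) - R ≤
    Pot D c (fun σ => F σ (s.y + p)) (s.mv p q)) →
  -R ≤ Pot D { c with Λ := 3 / 2 * (c.Λ + c.γ) } (fun σ => Ew τ F σ s.y) s

/-- the large constant of a tilt -/
def Mx' (C P CN κ η0 ω : ℝ) : ℝ := C * (P * CN / (κ * η0 * ω)) ^ 2

/-- **T0 - T5** -/
def TiltStmt : Prop := ∀ K0 κ0 : ℝ, 0 < κ0 → ∃ C ≥ (1 : ℝ), ∀ (n : ℕ) (D : Dat n) (s : St n)
  (y0 p al q w : V n) (a e e1 ec CN C0 K l κ c ω : ℝ) (φ : Cube n → ℝ) (W Ω : Cube n → V n)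
  (G : Cube n → ℝ), D.Ok → Cl ec ec s → Bas D.J K0 κ0 y0 →
  AnsW D.J y0 a p al q e e1 CN C0 K w l φ W Ω G → (∀ i, 0 ≤ p i) → 0 ≤ a → a ≤ 1 → 0 ≤ e → 0 ≤ e1 →
  e1 ≤ ec → 1 ≤ CN → 0 ≤ C0 → 1 ≤ K → 0 ≤ l → 0 < κ → κ ≤ 1 → 0 < c → 0 < ω → ω ≤ 1 →
  C * D.P * √e ≤ κ * ω → Mx' C D.P CN κ D.η0 ω ^ 2 * ec ≤ 1 →
  AA D (s.un.tl φ (CN * l) Ω G) - (1 - 2 * D.η0) * a * HH D (s.un.tl φ (CN * l) Ω G) +
      (1 - 2 * D.η0) * ((q * w) ⬝ᵥ Mq D.J D.P s.S al (Del D s)) ≤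
    (1 + κ) * AA D s - (1 - 2 * D.η0) * a * HH D s + C * C0 * (p ⬝ᵥ (w * w)) +
      c * (Del D s ⬝ᵥ Del D s) + (C / κ + 1 / c) * (del s ⬝ᵥ del s) + ω * (Bb D s y0 + l ^ 2) +
      Mx' C D.P CN κ D.η0 ω * (Ex D s + K)

/-- **T7** : the increments of the energy and of the excess, seen from any state -/
def IncStmt : Prop := ∀ K0 κ0 : ℝ, 0 < κ0 → ∃ C ≥ (1 : ℝ), ∀ (n : ℕ) (D : Dat n) (s : St n)
  (y0 p al q w : V n) (a e e1 ec CN C0 K l ω : ℝ) (φ : Cube n → ℝ) (W Ω : Cube n → V n)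
  (G : Cube n → ℝ), D.Ok → Cl ec ec s → Bas D.J K0 κ0 y0 →
  AnsW D.J y0 a p al q e e1 CN C0 K w l φ W Ω G → (∀ i, 0 ≤ p i) → 0 ≤ e1 → e1 ≤ ec → 1 ≤ CN →
  0 ≤ C0 → 1 ≤ K → 0 ≤ l → 0 < ω → ω ≤ 1 → Mx' C D.P CN 1 D.η0 ω ^ 2 * ec ≤ 1 →
  Eg D s φ ≤ C * C0 * (p ⬝ᵥ (w * w)) + ω * (AA D s + Bb D s y0 + l ^ 2) +
      Mx' C D.P CN 1 D.η0 ω * (Ex D s + K) ∧
    (mean (nu D s) fun σ => G σ ^ 2) ≤ C * (e1 * (Bb D s y0 + l ^ 2) + K)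

/-- update of the class, subadditivity -/
def ClStmt : Prop := ∀ (n : ℕ) (D : Dat n) (s : St n), D.Ok →
  (∀ e A e' A', Cl e A s → e ≤ e' → A ≤ A' → Cl e' A' s) ∧
  (∀ (m : ℕ) (e l : ℝ) (φ : Cube n → ℝ) (Ω : Cube n → V n) (G : Cube n → ℝ), 0 ≤ e → 0 ≤ l →
    Cl (m * e) (m ^ 2 * e) s → (∀ σ, nrm (grad φ σ) ≤ l) → Rg e l Ω →
    (∀ σ, nrm (grad φ σ - Ω σ) ≤ G σ) → TS e G →
    Cl ((m + 1) * e) ((m + 1) ^ 2 * e) (s.tl φ l Ω G)) ∧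
  (∀ (g g' : Cube n → ℝ) (t : ℝ), 0 < t →
    Eg D s (g + g') ≤ (1 + 1 / t) * Eg D s g + (1 + t) * Eg D s g') ∧
  ∀ e A, 0 ≤ e → 0 ≤ A → s.Th = 0 → s.L = 0 → s.Om = 0 → s.G = 0 → Cl e A s


/-- level zero -/
def L0Stmt : Prop := ∀ (n : ℕ) (D : Dat n) (s : St n), D.Ok → mean (ising D.J 0) D.f = 1 →
  s.y = 0 → s.y' = 0 → s.S = ∅ → s.Th = 0 →
  2 * AA D s ≤ Rv.II (ising D.J 0) D.f + D.θ * B.Df (B.dn (ising D.J 0) D.f) (ising D.J 0) ∧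
  HH D s = ent (ising D.J 0) D.f ∧ Hy D s = ent (ising D.J 0) D.f ∧ Dz D s = D.T0 ∧
  ∀ ξ, mean (nu D s) ξ = mean (ising D.J 0) fun σ => D.f σ * ξ σ

/-! ### interfaces of the burst and of the end -/

/-- **the burst and the reveal at the base point `y0`**, in continuation form.  `Ad w l` : admissible
weights, `φ w` : the tilts; `lb` `ab` : the rates after the event; `t` : cap of the sizes. -/
def BurstOK (J : Mx n) (P η0 θ : ℝ) (y0 p : V n) (Ad : V n → ℝ → Prop) (φ : V n → Cube n → ℝ)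
    (l a lb ab c0 gW gP ΛB CP CN ω ec t K : ℝ) : Prop :=
  ∀ (D : Dat n) (s : St n) (B : Finset (Fin n)) (ξ : Cube n → ℝ) (γ g1 T T' R : ℝ),
    D.Ok → D.J = J → D.P = P → D.η0 = η0 → D.θ = θ → Cl ec ec s → Sz D s t →
    nrm (s.y - y0) ^ 2 ≤ t → Disjoint B s.S → (#B : ℝ) ≤ t → (∀ σ, 0 ≤ ξ σ) → 0 ≤ γ → γ ≤ 1 →
    0 ≤ g1 → T + CP * #B * log (n + 2) ≤ T' →
    (∀ (sg : Cube n) (x' w : V n) (u : ℝ) (s' : St n), (∀ k ∈ s.S, sg k = s.sS k ∧ x' k = s.x k) →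
      Ad w u → s' = (s.pin B sg x').tl (φ w) 0 0 0 →
      -R ≤ lb * AA D s' - ab * HH D s' +
        γ * (Hy D s' + mean (nu D s') (U D s') + mean (nu D s') (U6 D s')) + g1 * Eg D s' s.Th +
        exp ((Dz D s' - T') / 2) + mean (nu D s') ξ + gW * u ^ 2 + gP * (p ⬝ᵥ (w * w))) →
    c0 * ∑ k ∈ B, (Del D s k ^ 2 + (J *ᵥ Del D s) k ^ 2) - R - K ≤ l * AA D s - a * HH D s +
      ΛB * (del s ⬝ᵥ del s) + (ω + γ * CP) * (Bb D s y0 + #B) + CN * Ex D s +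
      γ * mean (nu D s) (U6 D s) + g1 * Eg D s s.Th + exp ((Dz D s - T) / 2) + mean (nu D s) ξ

/-- **the end** -/
def EndOK (J : Mx n) (P η0 θ : ℝ) (fe : Fy n) (a cE g1 CE ME ω ec t K : ℝ) : Prop :=
  ∀ (D : Dat n) (s : St n), D.Ok → D.J = J → D.P = P → D.η0 = η0 → D.θ = θ → Cl ec ec s → Sz D s t →
    cE * (Del D s ⬝ᵥ Del D s) - K ≤ AA D s - a * HH D s + ω * (Bd D s + mean (nu D s) (U6 D s)) +
      g1 * Eg D s s.Th + ME * Ex D s + CE * (del s ⬝ᵥ del s) + mean (nu D s) fun σ => fe σ s.y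

end Crest.Agent.T157.S1

end
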