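import Crest.Agent.T157.KTmP_8_Mg
import Crest.Agent.T157.KDefB_19
import Crest.Agent.T157.KCrt_42
import Crest.Agent.T157.ZLip_85
import Crest.Agent.T157.KFl_25
import Crest.Agent.T157.KGc_85
import Crest.Agent.T157.KAll_66
import Crest.Agent.T157.KRl_58
import Crest.Agent.T157.KPd_90
import Crest.Agent.T157.S1W_6
import Crest.Agent.T157.S1Cr_89
import Crest.Agent.T157.WsAll_32
import Crest.Agent.T157.KMdDef_93
import Crest.Agent.T157.KPg_11
import Crest.Agent.T157.KZ0_74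
import Crest.Agent.T157.S1Pin_33

-- ▼ part T157/KTm_42
section

/-!
# Row 157, part B (helper42): thermal means, unconditional
-/

namespace Crest.Agent.T157.K

theorem tmStmt : TmStmt := tm_of tmGlue8

end Crest.Agent.T157.K
end

-- ▼ part T157/KzTar_42
section

/-!
# Row 157, part B (helper42): the targets of a window
-/

set_option autoImplicit false

noncomputable section

namespace Crest.Agent.T157.Kz

open MeasureTheory Real Matrix Finset Filter Topology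
open Crest.ProbabilityR.SpinGlassDynamics
open Crest.Agent.T157.E Crest.Agent.T157.Eig Crest.Agent.T157.K
open Crest.Agent.T157.Tap (V Mx)
open Crest.Agent.T157.SL (law)
open Crest.Agent.T157.Z (Nt Nw Ty)
open Crest.Agent.T157.Zf (QQ)
open Crest.Agent.T157.Md (Crt gR eR)
open Crest.Agent.T157.Pos (In TF)

namespace Tar42

theorem ty_ev {β r : ℝ} {P : ∀ n, Mx n → V n → Prop} (h : Ty β r P) :
    ∀ᶠ x in TF β r, P x.n (x.J β) x.y := by
  obtain ⟨κ, hκ, h⟩ := h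
  exact Pos.TF.of_dis (P := fun n g y => P n (β • Jmat n g) y) fun ε hε =>
    h.mono (((TapPl.tendsto_exp_neg hκ).eventually (ge_mem_nhds hε)).mono
      fun _ hn _ hW => hW.trans hn)

theorem mo_ev {β r ε : ℝ} {P : ∀ n, Mx n → V n → Prop} (h : ∀ᶠ x in TF β r, P x.n (x.J β) x.y)
    (hε : 0 < ε) : Mo β r ε P := Pos.TF.out (P := fun n g y => P n (β • Jmat n g) y) h hε

end Tar42

open Tar42

theorem tarGlue : TarGlue := by
  intro hA hM hG hB hPs hP hD hT hC hR hTc hTg hRp β hβ K0 κ0 κ00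
  have hβ' : β ∈ Set.Icc (0 : ℝ) 1 := ⟨hβ.1.le, hβ.2.le⟩
  obtain ⟨c1, H1⟩ := Md.crtGlue hR hPs hP hD hT hC hG
  obtain ⟨CM, CM1, c0, H0⟩ := hM K0 κ0 κ00
  obtain ⟨c2, hG⟩ := hG
  obtain ⟨c3, hP⟩ := hP
  obtain ⟨c4, c41, hD⟩ := hD
  obtain ⟨c, d0, d1, d2, d3, d4⟩ := ((eventually_ge_atTop c0).and ((eventually_ge_atTop c1).and
    ((eventually_ge_atTop c2).and ((eventually_ge_atTop c3).and (eventually_ge_atTop c4))))).exists
  obtain ⟨K, -, hK⟩ := hA β hβ.1.le hβ.2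
  refine ⟨CM, CM1, fun r r0 P R ω ε nb a ω0 ω1 ε0 ha => ?_⟩
  choose C C0 hC' using fun b => (hTc.flat β r r0 _ (ha b)).1
  obtain ⟨k, δ, δ0, Λ0, H0⟩ := H0 c d0 P (∑ b, C b) R ω nb ω0 ω1
  choose m E E1 E2 E3 using fun b => hRp β hβ' r r0 _ (ha b) δ δ0
  obtain ⟨M, M0, hb⟩ := ((eventually_gt_atTop 0).and
    (eventually_all.2 fun b => Md.ev_blo hB (E1 b) (E2 b))).exists
  obtain ⟨Λ, l0, l1, H1⟩ := ((eventually_ge_atTop Λ0).and ((eventually_ge_atTop 1).and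
    (H1 c d1 (Fin nb) m E k K r M δ (ε / 2) (fun b => ⟨E1 b, E2 b⟩) r0 M0 δ0 (half_pos ε0) hb))).exists
  obtain ⟨e, H1⟩ := H1.exists
  obtain ⟨η, η0, H1⟩ := ((eventually_ge_atTop 0).and H1).exists
  obtain ⟨θ, θ0, H0⟩ := H0 Λ l0 M e η M0.le η0
  have cM : 0 ≤ c * M := mul_nonneg (by linarith) M0.le
  refine ⟨⟨k, c, Λ, M, m, E⟩, eR c Λ M k, fun b => ⟨E1 b, E2 b, ?_, fun n J hJ =>
    (hG c d2 n J _ Λ M k _ (hTc.jq n J hJ) l1 M0.le (hb b n J)).1⟩, θ, θ0, ?_⟩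
  · refine (hTg β hβ' r r0 _ (E b) c Λ (c * M) (Z.L85.mono (E1 b)) (E2 b) (by linarith) cM
      fun l => ⟨_, fun n J hJ => (hP c d3 n J _ Λ (c * M) _ l (hTc.jq n J hJ) l1 cM ?_).1⟩).2 k
    exact Pg11.rf_mono (hD n J _ _ M (hTc.jq n J hJ) M0.le (hb b n J)).1
      (mul_le_mul_of_nonneg_right d4 M0.le)
  have e1 := ty_ev ((hTc.ty β r r0 fun _ J _ => GJ J).2 (hTc.gj Bool β hβ' _ _))
  have e2 := eventually_all.2 fun b => (ty_ev (hC' b)).and (ty_ev (E3 b))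
  have := mo_ev (P := fun n J y => GJ J ∧ ∀ b, nrm (a b n J y) ≤ C b * √n ∧
    mean (ising J y) (dev (QQ J) (Eh (E b) n J) (a b n J y) y) ≤ δ * n) (e1.and e2) (half_pos ε0)
  refine (this.and hK).mono ?_
  filter_upwards [H0, eventually_gt_atTop 0] with n H0 n0 g ⟨h1, h2⟩
  have := Pos.prob_law β r n g
  have key : ∀ y, (GJ (β • Jmat n g) ∧ ∀ b, nrm (a b n (β • Jmat n g) y) ≤ C b * √n ∧
      mean (ising (β • Jmat n g) y) (dev (QQ (β • Jmat n g)) (Eh (E b) n (β • Jmat n g))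
        (a b n (β • Jmat n g) y) y) ≤ δ * n) → (∀ b, Crt (β • Jmat n g) (QQ (β • Jmat n g)) y c Λ M e η
        δ k (Eh (E b) n (β • Jmat n g))) → ModC K0 κ0 CM P R ω θ ⟨k, c, Λ, M, m, E⟩ (β • Jmat n g) y
        fun b => a b n (β • Jmat n g) y := by
    intro y ⟨hJ, h3⟩ h4 D s t ec A κ a1 a2 a3 a4 a5
    rw [← a2] at hJ h3 h4 a4 a5 ⊢
    exact H0 (Fin nb) _ y _ _ D s t ec A κ (by simp) (hTc.jq n _ hJ) (fun b => (h4 b).tgt (hb b n _)
      ((h3 b).1.trans (mul_le_mul_of_nonneg_right (single_le_sum (fun b _ => C0 b) (mem_univ b))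
        (sqrt_nonneg _))) (h3 b).2) a1 a3 a4 a5
  by_cases hJ : GJ (β • Jmat n g)
  · rw [gibbsWeight_eq_ising] at h2
    have h3 := H1 n _ _ n0 (hTc.jq n _ hJ) h2
    rw [← gibbsWeight_eq_ising] at h3
    refine (measureReal_mono (fun y hy => ?_) (measure_ne_top _ _)).trans
      ((measureReal_union_le _ _).trans ((add_le_add h1 h3).trans_eq (add_halves ε)))
    by_contra hn
    simp only [Set.mem_union, Set.mem_ofPred_eq, not_or, not_not] at hn
    exact hy (key y hn.1 hn.2)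
  · refine (measureReal_mono (fun y _ => ?_) (measure_ne_top _ _)).trans
      (h1.trans (half_le_self ε0.le))
    exact fun h => hJ h.1

end Crest.Agent.T157.Kz

end
end

-- ▼ part T157/KzBar_25
section

/-!
# Row 157, part B (helper25): the predicted responses are in the thermal calculus
-/

set_option autoImplicit false

noncomputable section

namespace Crest.Agent.T157.Kz

open MeasureTheory Matrix Filter
open Crest.Agent.T157.E Crest.Agent.T157.Eig Crest.Agent.T157.K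
open Crest.Agent.T157.Tap (V Mx)
open Crest.Agent.T157.Z (cp)
open Crest.Agent.T157.Md (gb)

namespace Bar25

variable {n : ℕ}

lemma nrm_sup {v : V n} {e : ℝ} (h : ∀ i, |v i| ≤ e) : nrm v ≤ |e| * √n := by
  have := Rip.nrm_mul_le (abs_nonneg e) (fun i => (h i).trans (le_abs_self e)) (1 : V n)
  rwa [mul_one, show nrm (1 : V n) = √n by simp [nrm, dotProduct]] at this

lemma cont {e : ℝ} {u : Cube n → V n → V n} (h : RF e u) (s : Cube n) : Continuous (u s) := by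
  refine continuous_iff_continuousAt.2 fun y => tendsto_iff_norm_sub_tendsto_zero.2 ?_
  have h1 : Continuous fun y' => e * nrm (y' - y) :=
    continuous_const.mul (continuous_nrm.comp (continuous_id.sub continuous_const))
  refine squeeze_zero (fun _ => norm_nonneg _) (fun y' => ?_) (by simpa using h1.tendsto y)
  refine le_trans ((pi_norm_le_iff_of_nonneg (nrm_nonneg _)).2 fun i => ?_) (h.lip s y' y)
  exact abs_apply_le_nrm _ i

end Bar25

open Bar25 in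
theorem barGlue : BarGlue := by
  intro hT hc hm hE β hβ r hr t ht T g ⟨⟨C, hC⟩, hTg⟩ hg ⟨e, he⟩ ε hε
  have hβ1 : β ∈ Set.Icc (0 : ℝ) 1 := ⟨hβ.1.le, hβ.2.le⟩
  have h1 : TC β r fun n J s y => gb (g n J) t y s := hc β hβ1 r hr t ht g hg
    ⟨⟨|e|, fun n J s y hJ => nrm_sup (((he n J hJ).r0 y).sup s)⟩,
      fun n J s hJ => (cont (he n J hJ) s).measurable⟩
  have h2 := (hm β hβ r hr _ (hTg _ h1) ⟨|C| * |e|, fun n J s y hJ => by
    refine (nrm_mulVec_le _ _).trans ((mul_le_mul ((hC n J y s hJ).trans (le_abs_self C))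
      (nrm_sup (e := e) fun j => ?_) (nrm_nonneg _) (abs_nonneg _)).trans_eq (by ring))
    exact (norm_integral_le_of_norm_le_const (μ := SL.Gs (Fin n)) (C := e)
      (f := fun z => g n J s (y + t • sv s + √t • z) j)
      (.of_forall fun z => ((he n J hJ).r0 _).sup s j)).trans_eq (by simp)⟩).1
  obtain ⟨M, M0, h3⟩ := (hT.flat β r hr _ h2).2 ε hε
  have hb : ∀ x : ℝ, |max (-M) (min M x)| ≤ M := fun x =>
    abs_le.2 ⟨le_max_left _ _, max_le (by linarith) (min_le_left _ _)⟩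
  refine ⟨fun n J y => cp M (ub J y (T n J y) (g n J) t), ty_iff.2 ((hE _ β hβ1 _ _
    (fun x => max (-M) (min M x)) _ (fun _ _ _ => 0) (by fun_prop) ⟨M, hb⟩ (ty_iff.1 h2)).1
      fun x => ?_), ⟨M, fun _ _ _ _ => hb _⟩, h3.ev.mono fun x hx => hx.1⟩
  simp only [max_def, min_def]
  split_ifs <;> linarith

end Crest.Agent.T157.Kz

end
end

-- ▼ part T157/KzZ_64
section

/-!
# Row 157, part B: the collective supply from the steps of the backward recursion (helper64)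
-/

set_option autoImplicit false

noncomputable section

namespace Crest.Agent.T157.Kz

open MeasureTheory Real Matrix Finset Filter
open Crest.ProbabilityR.SpinGlassDynamics
open Crest.Agent.T157.E Crest.Agent.T157.Eig Crest.Agent.T157.K Crest.Agent.T157.S1
open Crest.Agent.T157.Tap (V Mx)
open Crest.Agent.T157.SL (Wt law)
open Crest.Agent.T157.Z (Nt Nw)
open Crest.Agent.T157.Pos (In TF)
open Crest.Agent.T157.Top (Whp)

namespace Z64

/-- the empty window -/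
def d0 : Wn := ⟨0, ⟨0, 0, 0, 0, Fin.elim0, fun b => b.elim0⟩, 0, 0, 1⟩

/-- what holds for every window -/
def Un (x : Wn) : Prop := 0 < x.η ∧ 0 ≤ x.cz ∧ ∀ b, Nw True (x.d.E b) ∧ Z.Bd (x.d.E b)

theorem un_d0 : Un d0 := ⟨one_pos, le_rfl, fun b => b.elim0⟩

theorem un_of {β r : ℝ} {x : Wn} (h : x.Ok β r) : Un x :=
  ⟨h.2.2, h.2.1, fun b => ⟨(h.1 b).1, (h.1 b).2.1⟩⟩

theorem whp_gj {β : ℝ} (hβ : β ∈ Set.Ioo (0 : ℝ) 1) :
    Whp disorderLaw fun n g => GJ (β • Jmat n g) :=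
  Z.Hp58.whp_opn.imp fun n g hg => ⟨In.symm ⟨n, g, 0, 0⟩, In.diag ⟨n, g, 0, 0⟩, by
    rw [opn_smul, abs_of_pos hβ.1]
    nlinarith [hβ.1, hβ.2, opn_nonneg (Jmat n g)]⟩

theorem mass_le {X : Type} [MeasurableSpace X] (μ : Measure X) [IsFiniteMeasure μ] (s : Finset ℕ)
    {A : X → Prop} {B : ℕ → X → Prop} {a ε : ℝ} (hA : μ.real {y | ¬ A y} ≤ a)
    (hB : ∀ i ∈ s, μ.real {y | ¬ B i y} ≤ ε) :
    μ.real {y | A y ∧ ∀ i ∈ s, B i y}ᶜ ≤ a + #s * ε := by
  refine (measureReal_mono (s₂ := {y | ¬ A y} ∪ ⋃ i ∈ s, {y | ¬ B i y}) fun y hy => ?_).trans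
    ((measureReal_union_le _ _).trans (add_le_add hA ((measureReal_biUnion_finset_le _ _).trans ?_)))
  · by_cases h : A y
    · refine Or.inr ?_
      by_contra hc
      exact hy ⟨h, fun i hi => not_not.1 fun h' => hc (Set.mem_biUnion hi h')⟩
    · exact Or.inl h
  · exact (Finset.sum_le_card_nsmul _ _ _ hB).trans_eq (nsmul_eq_mul _ _)

end Z64

open Z64

theorem zGlue : ZGlue := by
  intro _ hS hL hR β hβ lam 𝒬 hQ hloc a0 ab a' h1 h2 h3 h4
  obtain ⟨u, uOk, hBas, H⟩ := hloc a0 ab a' h1 h2 h3 h4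
  obtain ⟨CM, CM0, hstep⟩ := hS β hβ u.K0 u.κ0 u.C1 uOk.k0
  refine ⟨{ u with CM := CM }, { uOk with CM0 := CM0 }, fun w wOk hw ha0 hab hθ => ?_⟩
  have wCM : w.CM = CM := congrArg P1.CM hw
  have wK : w.K0 = u.K0 := by simpa using congrArg P1.K0 hw
  have wκ : w.κ0 = u.κ0 := by simpa using congrArg P1.κ0 hw
  have wC : w.C1 = u.C1 := by simpa using congrArg P1.C1 hw
  obtain ⟨CP, gW, CP1, gW0, H2⟩ := H w wOk (by rw [wCM]; exact hw) ha0 hab hθ
  choose! pv α H3 using H2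
  choose! CN q T H4 using H3
  obtain ⟨ε, hε⟩ : ∃ ε : ℝ, ε = 1 / (4 * (2 ^ w.N + 1)) := ⟨_, rfl⟩
  have ε0 : 0 < ε := by rw [hε]; positivity
  obtain ⟨W, hW, hpast⟩ := hR Wn d0 w.N (fun m i ω e prev x => Un x ∧ (1 ≤ m → m < w.N → 0 < ω →
      ω ≤ 1 → 0 < e → (∀ m' i', Sub w.N (m + 1) i m' i' → (prev m' i').Ok β (m' * w.τ)) →
      x.Ok β (m * w.τ) ∧ Win β w CP gW m i (pv m) (α m) ω (max (CN m ω) CM) e ε prev x))
    fun m i ω e prev => by
      by_cases hc : 1 ≤ m ∧ m < w.N ∧ 0 < ω ∧ ω ≤ 1 ∧ 0 < e ∧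
          ∀ m' i', Sub w.N (m + 1) i m' i' → (prev m' i').Ok β (m' * w.τ)
      · obtain ⟨c1, c2, c3, c4, c5, c6⟩ := hc
        obtain ⟨x, hx⟩ := hstep w CP gW m i (pv m) (α m) ω (CN m ω) (q m ω) (T m ω) e ε prev wOk wK wκ
          wC wCM.ge hBas c1 c2 c3 c4 c5 ε0 (H4 m c1 c2 ω c3 c4) c6
        exact ⟨x, un_of hx.1, fun _ _ _ _ _ _ => hx⟩
      · exact ⟨d0, un_d0, fun c1 c2 c3 c4 c5 c6 => absurd ⟨c1, c2, c3, c4, c5, c6⟩ hc⟩
  refine ⟨CP, gW, fun m ω => max (CN m ω) CM, fun j ω e =>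
    ((range w.N ×ˢ range (j + 1)).filter fun x => x.2 + 2 ^ (w.N - (x.1 + 1)) ≤ j).fold min 1
      fun x => (W ω e x.1 x.2).η, CP1, gW0, ⟨fun j ω e => ?_, fun j ω ω' e e' k1 k2 => ?_⟩, ?_⟩
  · exact (Finset.lt_fold_min _).2 ⟨one_pos, fun x _ => (hW ω e x.1 x.2).1.1⟩
  · exact Finset.fold_congr fun x hx => by
      rw [hpast j ω ω' e e' k1 k2 x.1 x.2 (Finset.mem_filter.1 hx).2]
  intro p pOk hp hCP hgW hthr c e' c0 c1 e0
  subst hp
  have hun : ∀ m i, Un (W p.ω p.ee m i) := fun m i => (hW p.ω p.ee m i).1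
  have hok : ∀ k m i, p.N - m ≤ k → 1 ≤ m → m < p.N → (W p.ω p.ee m i).Ok β (m * p.τ) ∧
      Win β p.toP2 CP gW m i (pv m) (α m) (p.ω m i) (max (CN m (p.ω m i)) CM)
        (p.ee (i + 2 ^ (p.N - (m + 1)))) ε
        (fun m' i' => if Sub p.N (m + 1) i m' i' then W p.ω p.ee m' i' else d0)
        (W p.ω p.ee m i) := by
    intro k
    induction k with
    | zero => intro m i k1 _ k3; omega
    | succ k ih =>
      intro m i k1 k2 k3
      refine (hW p.ω p.ee m i).2 k2 k3 (pOk.ω0 m i) (pOk.ω1 m i) (pOk.e0 _) fun m' i' hs => ?_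
      simp only [if_pos hs]
      exact (ih m' i' (by have := hs.1; omega) (by have := hs.1; omega) hs.2.1).1
  have hmo : ∀ m i, 1 ≤ m → m < p.N → p.Val (m + 1) i → Mo β (m * p.τ) ε fun n J y => ∀ G,
      S1.Good p (capOf p c e' n) J (orc p.N (W p.ω p.ee) G J) m i y (pv m n J y) (α m n J y) :=
    fun m i k1 k2 k3 => (hok _ m i le_rfl k1 k2).2 p
      ⟨pOk, rfl, hCP, hgW, k3, rfl, hthr.1 m i k2, (hthr.2 _).trans ((Finset.fold_min_le _).2 (Or.inr
        ⟨(m, i), Finset.mem_filter.2 ⟨Finset.mem_product.2 ⟨mem_range.2 k2, mem_range.2 (Nat.lt_succ_of_le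
          (Nat.le_add_right _ _))⟩, le_rfl⟩, le_rfl⟩))⟩
      rfl c e' c0 c1 e0 _ (fun m' i' => (hun m' i').2.1) rfl fun m' i' hs => (if_pos hs).symm
  obtain ⟨k, Q, Cq, C, hQ', Cq0, hlev⟩ := hL β 𝒬 p.N p.τ (W p.ω p.ee) hQ pOk.τ0.le
    fun m i => (hun m i).2
  refine ⟨k, Q, Cq, hQ', Cq0, ?_⟩
  have w1 := Whp.finset (μ := disorderLaw) (Icc 1 p.N) (R := fun m n g =>
    (law sv (gibbsWeight n β g) (m * p.τ)).real {y | ¬ Bas (β • Jmat n g) u.K0 u.κ0 y} ≤ 1 / 4)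
    fun m _ => by
      obtain ⟨ρ, ρ0, hρ⟩ := hBas.2 (m * p.τ) (mul_nonneg (Nat.cast_nonneg _) pOk.τ0.le)
      exact Pos.TF.out (P := fun n g y => Bas (β • Jmat n g) u.K0 u.κ0 y)
        (hρ.mono fun x hx => hx x.y (by rw [sub_self, nrm_zero]; positivity)) (by norm_num)
  have w2 := Whp.finset (μ := disorderLaw) (Icc 1 p.N ×ˢ range (2 ^ p.N + 1)) (R := fun x n g =>
    (law sv (gibbsWeight n β g) (x.1 * p.τ)).real {y | ¬ (x.1 < p.N → p.Val (x.1 + 1) x.2 → ∀ G,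
      S1.Good p (capOf p c e' n) (β • Jmat n g) (orc p.N (W p.ω p.ee) G (β • Jmat n g)) x.1 x.2 y
        (pv x.1 n (β • Jmat n g) y) (α x.1 n (β • Jmat n g) y))} ≤ ε) fun x hx => by
      by_cases hc : x.1 < p.N ∧ p.Val (x.1 + 1) x.2
      · refine (hmo x.1 x.2 (mem_Icc.1 (Finset.mem_product.1 hx).1).1 hc.1 hc.2).imp fun n g hg => ?_
        have := Pos.prob_law β (x.1 * p.τ) n g
        exact le_trans (measureReal_mono fun y hy h => hy fun _ _ => h) hg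
      · refine Top.whp_of_eventually (.of_forall fun n g => ?_)
        rw [Set.eq_empty_of_forall_notMem (s := {y | ¬ _}) fun y hy =>
          hy fun k1 k2 => absurd ⟨k1, k2⟩ hc, measureReal_empty]
        exact ε0.le
  have hK : ∀ᶠ n : ℕ in atTop, C ≤ (n : ℝ) ^ e' :=
    ((tendsto_rpow_atTop e0).comp tendsto_natCast_atTop_atTop).eventually_ge_atTop C
  refine (((hBas.1.and w1).and w2).and (whp_gj hβ)).mono ?_
  filter_upwards [hK, eventually_gt_atTop 0] with n hn n0 g ⟨⟨⟨b0, b1⟩, b2⟩, b3⟩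
  obtain ⟨l1, l2⟩ := hlev n g n0 b3
  refine ⟨orc p.N (W p.ω p.ee) (fun m => {y | Bas (β • Jmat n g) u.K0 u.κ0 y ∧
    ∀ i ∈ range (2 ^ p.N + 1), m < p.N → p.Val (m + 1) i → ∀ G,
      S1.Good p (capOf p c e' n) (β • Jmat n g) (orc p.N (W p.ω p.ee) G (β • Jmat n g)) m i y
        (pv m n (β • Jmat n g) y) (α m n (β • Jmat n g) y)}) (β • Jmat n g),
    by rw [wK, wκ]; exact b0, fun m m1 m2 => ?_, fun m _ _ y hy => by rw [wK, wκ]; exact hy.1,
    fun m _ m2 y hy => ⟨_, _, fun i hi => hy.2 i (mem_range.2 (Nat.lt_succ_of_le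
      ((Nat.le_add_right _ _).trans hi))) m2 hi _⟩, fun m' i' _ σ y => ?_, l1,
    fun f hf => (l2 _ f hf).trans (add_le_add le_rfl hn)⟩
  · have := Pos.prob_law β (m * p.τ) n g
    rw [← gibbsWeight_eq_ising]
    refine (mass_le _ _ (b1 m (mem_Icc.2 ⟨m1, m2⟩)) fun i hi =>
      b2 (m, i) (Finset.mem_product.2 ⟨mem_Icc.2 ⟨m1, m2⟩, hi⟩)).trans_eq ?_
    rw [card_range, hε]
    push_cast
    field_simp
    ring
  · have : Rec.grad (0 : Cube n → ℝ) σ = 0 := Rec.grad_const 0 σ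
    simp [Wd.rs, Md.Rsp, this]

end Crest.Agent.T157.Kz

end
end

-- ▼ part T157/KzStep_76
section

/-!
# Row 157, part B (helper76): one step of the backward recursion
-/

set_option autoImplicit false

noncomputable section

namespace Crest.Agent.T157.Kz

open MeasureTheory Real Matrix Finset Filter
open Crest.ProbabilityR.SpinGlassDynamics
open Crest.Agent.T157.E Crest.Agent.T157.Eig Crest.Agent.T157.K Crest.Agent.T157.S1
open Crest.Agent.T157.Tap (V Mx)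
open Crest.Agent.T157.SL (law)
open Crest.Agent.T157.Pos (In TF)

namespace St76

theorem ev_pow (K : ℝ) {a δ : ℝ} (ha : 0 < a) (hδ : 0 < δ) :
    ∀ᶠ n : ℕ in atTop, K * (n : ℝ) ^ (1 - a) ≤ δ * n := by
  filter_upwards [B.ev_mul (K / δ) (show 1 - a < 1 by linarith)] with n h
  rw [rpow_one, div_mul_eq_mul_div, div_le_iff₀ hδ] at h
  linarith

theorem modes_mono {n : ℕ} {ι : Type} [Fintype ι] {h : ι → V n} {k : ℕ} {v : ℕ → V n} {R R' : ℝ}
    (hm : Modes R h k v) (hR : R ^ 2 ≤ R' ^ 2) : Modes R' h k v := by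
  obtain ⟨T, h1, h2⟩ := hm
  exact ⟨T, h1, fun x => (h2 x).trans
    (mul_le_mul_of_nonneg_right hR (sum_nonneg fun _ _ => sq_nonneg _))⟩

theorem mo_and {β r ε : ℝ} {P Q R : ∀ n, Mx n → V n → Prop} (hε : 0 < ε) (hP : Mo β r (ε / 2) P)
    (hQ : ∀ᶠ x in TF β r, Q x.n (x.J β) x.y) (h : ∀ n J y, P n J y → Q n J y → R n J y) :
    Mo β r ε R :=
  (hP.and (Pos.TF.out (P := fun n g y => Q n (β • Jmat n g) y) hQ (half_pos hε))).imp
    fun n g hp => by
      have := Pos.prob_law β r n g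
      refine le_trans (measureReal_mono (s₂ := {y | ¬ P n (β • Jmat n g) y} ∪
        {y | ¬ Q n (β • Jmat n g) y}) fun y hy => not_and_or.1 fun c => hy (h _ _ _ c.1 c.2))
        ((measureReal_union_le _ _).trans ?_)
      exact (add_le_add hp.1 hp.2).trans_eq (add_halves ε)

/-- the windows below `(m, i)` -/
abbrev Sw (N m i : ℕ) : Type := {p : ℕ × ℕ // Sub N m i p.1 p.2}

instance (N m i : ℕ) : Finite (Sw N m i) :=
  Set.Finite.to_subtype (((Set.finite_le_nat N).prod (Set.finite_le_nat (i + 2 ^ (N - m)))).subset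
    fun _ hp => ⟨hp.2.1.le, le_of_add_le_left hp.2.2.2⟩)

theorem XS_congr {N m i : ℕ} {W W' : ℕ → ℕ → Wn} (h : ∀ m' i', Sub N m i m' i' → W m' i' = W' m' i') :
    XS N W m i = XS N W' m i :=
  sum_congr rfl fun m' _ => sum_congr rfl fun i' _ => by
    split_ifs with c
    exacts [by rw [h m' i' c], rfl]

theorem XS_nn {N m i : ℕ} {W : ℕ → ℕ → Wn} (h : ∀ m' i', Sub N m i m' i' → 0 ≤ (W m' i').cz) :
    0 ≤ XS N W m i :=
  sum_nonneg fun m' _ => sum_nonneg fun i' _ => by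
    split_ifs with c
    exacts [by have := h m' i' c; unfold Wn.wt; positivity, le_rfl]

theorem ty_sub {β r : ℝ} (hβ : β ∈ Set.Icc (0 : ℝ) 1) {u v : Vy} (hu : TY β r u) (hv : TY β r v) :
    TY β r fun n J y => u n J y - J *ᵥ v n J y := by
  have := Z.apB.add Bool β hβ (wc r) (wd r) (fun n J a => u n J (a false))
    (fun n J a => J *ᵥ v n J (a false)) 1 (-1) hu
    (Z.apB.mul Bool β hβ (wc r) (wd r) (fun n J a => v n J (a false)) hv).1
  simp only [one_smul, neg_smul, ← sub_eq_add_neg] at this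
  exact this

end St76

open St76

theorem stepGlue : StepGlue := by
  intro hTc hTb hTar hBar hMag hTok hMok β hβ K0 κ0 C1 hκ
  obtain ⟨CM, CM1, hT⟩ := hTar β hβ K0 κ0 hκ
  refine ⟨2 * CM * (2 * C1 + 6) ^ 2, by positivity, ?_⟩
  intro w CP gW m i pv α ω CN q T e ε prev hw hK hk hC hCM hB m1 mN ω0 ω1 e0 ε0 hL hprev
  obtain ⟨Mq, Mα, hTg, hL⟩ := hL
  obtain ⟨C, C1', hTk⟩ := hTok K0 κ0 (w.N * w.τ) hκ
  have τ0 := hw.τ0
  have hβ' : β ∈ Set.Icc (0 : ℝ) 1 := ⟨hβ.1.le, hβ.2.le⟩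
  have r0 : (0 : ℝ) < m * w.τ := by positivity
  have X0 : 0 ≤ XS w.N prev (m + 1) i := XS_nn fun m' i' c => (hprev m' i' c).2.1
  obtain ⟨ei, ei0, ei1, eie, eiX⟩ : ∃ ei > (0 : ℝ), ei ≤ 1 ∧ ei ≤ e ∧
      C * w.N * XS w.N prev (m + 1) i * ei ≤ e := by
    have A0 : 0 ≤ C * w.N * XS w.N prev (m + 1) i := by positivity
    generalize C * w.N * XS w.N prev (m + 1) i = A at A0
    have h1 : e / (A + 1) ≤ e := div_le_self e0.le (by linarith)
    have h2 : A * (e / (A + 1)) ≤ e := by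
      rw [← mul_div_assoc, div_le_iff₀ (by linarith)]; nlinarith
    exact ⟨min 1 (e / (A + 1)), by positivity, min_le_left _ _, (min_le_right _ _).trans h1,
      (mul_le_mul_of_nonneg_left (min_le_right _ _) A0).trans h2⟩
  have hf : ∀ j : Σ p : Sw w.N (m + 1) i, Fin (prev p.1.1 p.1.2).nb, ∃ f : Vy,
      TY β (m * w.τ) f ∧ Be f ∧ ∀ᶠ x in TF β (m * w.τ), nrm (ub (x.J β) x.y (T _ (x.J β) x.y)
        ((prev j.1.1.1 j.1.1.2).d.g j.2 _ (x.J β)) (((j.1.1.1 : ℝ) - m) * w.τ) -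
          f _ (x.J β) x.y) ≤ ei * √x.n := by
    rintro ⟨⟨⟨m', i'⟩, c⟩, b⟩
    obtain ⟨-, -, h1, h2⟩ := (hprev m' i' c).1 b
    have hm : (m : ℝ) ≤ m' := by exact_mod_cast (Nat.le_succ m).trans c.1
    refine hBar β hβ _ r0.le _ (mul_nonneg (sub_nonneg.2 hm) τ0.le) T _ hTg ?_ ⟨_, h2⟩ ei ei0
    rwa [show (m : ℝ) * w.τ + ((m' : ℝ) - m) * w.τ = m' * w.τ by ring]
  choose f f1 f2 f3 using hf
  letI := Fintype.ofFinite (Σ p : Sw w.N (m + 1) i, Fin (prev p.1.1 p.1.2).nb)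
  obtain ⟨η, η0, nh, h, R0, hh, hG⟩ := hL ei ei0 _ f fun b => ⟨f1 b, f2 b⟩
  obtain ⟨R1, hR1⟩ := hMag β hβ _ r0
  obtain ⟨R, hR0, hR1'⟩ : ∃ R : ℝ, R0 ^ 2 ≤ R ^ 2 ∧ R1 ^ 2 ≤ R ^ 2 :=
    ⟨|R0| + |R1|, by nlinarith [sq_abs R0, abs_nonneg R0, abs_nonneg R1],
      by nlinarith [sq_abs R1, abs_nonneg R0, abs_nonneg R1]⟩
  obtain ⟨d, e', ok, θ, θ0, hMo⟩ := hT _ r0.le w.P R (ω / 2) (ε / 2) (nh + 1)
    (Fin.cons (fun _ J y => mag (ising J y)) fun b n J y =>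
      α n J y * (q n J y * h b n J y) - J *ᵥ (q n J y * h b n J y)) (by positivity) (by linarith)
    (half_pos ε0) (Fin.cases (hTb.mag β hβ _ r0.le) fun b => by
      have := ty_sub hβ' (Mα _ (hh b)) (Mq _ (hh b))
      simp only [mul_assoc] at this
      exact this)
  refine ⟨⟨nh + 1, d, 2 * CM * R ^ 2, e', η⟩, ⟨ok, by positivity, η0⟩, ?_⟩
  intro p hF he c e'' c0 c1 e0' W hW hWx hWp
  obtain ⟨ρ, ρ0, hρ⟩ := hB.2 _ r0.le
  have hN : p.N = w.N := by rw [← hF.hw]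
  have hτ : p.τ = w.τ := by rw [← hF.hw]
  have a1 : 0 < c / 16 ^ m / 2 := by positivity
  have a2 : 0 < c / 16 ^ m / 8 := by positivity
  refine mo_and (Q := fun n J y => (GoodA p (capOf p c e'' n) J m i y (pv n J y) (α n J y) (q n J y)
    ei R0 (T n J y) (fun b => f b n J y) (fun b => h b n J y) ∧
    (∀ y', nrm (y' - y) ≤ ρ * √n → Bas J K0 κ0 y') ∧ GJ J ∧
    (n : ℝ) ≤ R1 ^ 2 * (mag (ising J y) ⬝ᵥ mag (ising J y)) ∧
    ∀ j, nrm (ub J y (T n J y) ((prev j.1.1.1 j.1.1.2).d.g j.2 n J) (((j.1.1.1 : ℝ) - m) * w.τ) -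
      f j n J y) ≤ ei * √n) ∧ 0 < n ∧ 1 * (n : ℝ) ^ (1 - c / 16 ^ m / 2) ≤ ρ ^ 2 * n ∧
    1 * (n : ℝ) ^ (1 - c / 16 ^ m / 2) ≤ θ * n ∧
    C * w.N * XS w.N prev (m + 1) i * p.CN m i ^ 2 * (n : ℝ) ^ (1 - c / 16 ^ m / 8) ≤ e * n)
    ε0 hMo ?_ ?_
  · have hn := (Pos.TF.lim (β := β) (s := m * w.τ)).eventually ((eventually_gt_atTop 0).and
      ((ev_pow 1 a1 (pow_pos ρ0 2)).and ((ev_pow 1 a1 θ0).and
        (ev_pow (C * w.N * XS w.N prev (m + 1) i * p.CN m i ^ 2) a2 e0))))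
    filter_upwards [hG p i { hF with hC := (le_max_left _ _).trans hF.hC } (he ▸ eie) c e'' c0 c1 e0',
      hρ, Pos.TF.opn ⟨hβ.1, hβ.2.le⟩, hR1, eventually_all.2 f3, hn] with x h1 h2 h3 h4 h5 h6
    exact ⟨⟨h1, h2, ⟨x.symm, x.diag, h3⟩, h4, h5⟩, h6⟩
  rintro n J y hM ⟨⟨⟨pA, al, k, v, ε', Ad, φ, g1, g2, g3, g4, g5, g6, g7, g8⟩, hb, gj, hm, hu⟩,
    n0, t1, t2, t3⟩ G
  have hX : XS p.N W (m + 1) i = XS w.N prev (m + 1) i := by rw [hN]; exact XS_congr hWp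
  have n0' : (0 : ℝ) < n := by exact_mod_cast n0
  have tok := fun pA al u0 u ψ => hTk n p (capOf p c e'' n) J W G m i y pA al (q n J y) u0 u ei
    (T n J y) _ (fun b => f b n J y) ψ n0 hF.ok
    (one_le_rpow (by exact_mod_cast n0) e0'.le) (by rw [hN, hτ]) m1 (hN ▸ mN) hF.val
    (hb y (by rw [sub_self, nrm_zero]; positivity)) ei0.le ei1 hW (fun m' i' cs => by
      rw [hN] at cs
      rw [hWp m' i' cs, hτ]
      exact fun b => ⟨((hprev m' i' cs).1 b).2.2.2 n J gj, ⟨⟨(m', i'), cs⟩, b⟩, hu ⟨⟨(m', i'), cs⟩, b⟩⟩)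
    (by rw [hX, hN, he]; exact eiX) (by rw [hX, hN, he, ← mul_assoc]; exact t3)
  refine ⟨pA, al, q n J y, k, v, ε', Ad, φ, g1, g2, g3, g4, fun u0 u ha => ?_,
    fun u0 u ha => tok _ _ _ _ _ (g6 u0 u ha), g7, ?_⟩
  · obtain ⟨ψ, hψ⟩ := g5 u0 u ha
    exact (tok _ _ _ _ _ hψ).imp fun _ ht => ht.1
  have eK : p.K0 = K0 := by rw [← hK, ← hF.hw]
  have ek : p.κ0 = κ0 := by rw [← hk, ← hF.hw]
  have eC : p.C1 = C1 := by rw [← hC, ← hF.hw]
  have eP : p.P = w.P := by rw [← hF.hw]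
  have eM : p.CM = w.CM := by rw [← hF.hw]
  refine hMok n p _ J W G m i y _ _ al _ k nh v (fun b => h b n J y) d CM R θ ε' e' η _ n0 hF.ok gj m1
    (hN ▸ mN) hF.val hW hWx CM1 (by rw [eC, eM]; exact hCM)
    (by rw [eC]; exact (le_max_right _ _).trans hF.hC) (fun y' hy => ?_) (by simpa [capOf] using t2)
    g4 (modes_mono g8 hR0) (hm.trans (mul_le_mul_of_nonneg_right hR1' (dot_self_nonneg _))) ?_
  · rw [eK, ek]
    refine hb y' (le_of_pow_le_pow_left₀ two_ne_zero (by positivity) ?_)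
    rw [mul_pow, sq_sqrt n0'.le]
    exact hy.trans (by simpa [capOf] using t1)
  · rw [eK, ek, eP, hF.hω]
    convert hM using 2 with b
    exact Fin.cases rfl (fun _ => rfl) b

end Crest.Agent.T157.Kz

end
end

-- ▼ part T157/KzLev_63
section

/-!
# Row 157, part B (helper63): the collective observables at level zero
-/

set_option autoImplicit false

noncomputable section

namespace Crest.Agent.T157.Kz

open MeasureTheory Real Matrix Finset
open Crest.ProbabilityR.SpinGlassDynamics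
open Crest.Agent.T157.E Crest.Agent.T157.Eig Crest.Agent.T157.K Crest.Agent.T157.S1
open Crest.Agent.T157.Tap (V Mx)
open Crest.Agent.T157.SL (Wt MG)
open Crest.Agent.T157.Z (tJ)
open Crest.Agent.T157.Zf (QQ)

theorem levGlue : LevGlue := fun hT hP hΦ _ β 𝒬 N τ W hH hτ hW => by
  classical
  let I := Σ m : Icc 1 N, Σ i : range (2 ^ N + 1), Fin (W m i).nb
  have r0 : ∀ m : ℕ, 0 ≤ (m : ℝ) * τ := fun m => by positivity
  choose C c1 hC using fun x : I => hΦ _ _ ((hW x.1 x.2.1).2 x.2.2).1 ((hW x.1 x.2.1).2 x.2.2).2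
    (W x.1 x.2.1).d.k 0 _ (r0 x.1)
  let Q : I → B.Ob := fun x => Lm.Qo β (Lm.Of.ob β fun n J =>
    phi (Sq.rt (tJ J + (4 : ℝ) • (1 : Mx n))) (Eh ((W x.1 x.2.1).d.E x.2.2) n (tJ J))
      (W x.1 x.2.1).d.k ((x.1 : ℕ) * τ))
  refine ⟨Fintype.card I, fun j => Q ((Fintype.equivFin I).symm j), ∑ x : I, (W x.1 x.2.1).cz,
    ∑ x : I, (W x.1 x.2.1).cz * C x, fun j => hH _ (r0 _) _ _ _ ((hW _ _).2 _).1 ((hW _ _).2 _).2,
    sum_nonneg fun x _ => (hW _ _).1, fun n g hn hJ => ?_⟩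
  have hQ := hT.jq n _ hJ
  have ht : tJ (β • Jmat n g) = β • Jmat n g := (Z.lipStmt.tJ_le n _).2 hJ.2.2
  have eQ : ∀ (x : I) s, Q x n g s = phi (QQ (β • Jmat n g))
      (Eh ((W x.1 x.2.1).d.E x.2.2) n (β • Jmat n g)) (W x.1 x.2.1).d.k ((x.1 : ℕ) * τ) s ^ 2 :=
    fun x s => by
      have := (hC x n _ _ _ hn hQ rfl).1
      simp only [Q, Lm.Qo, Lm.Of.ob, gibbsWeight_eq_ising]
      rw [show Eh ((W x.1 x.2.1).d.E x.2.2) n (tJ (β • Jmat n g)) =
        Eh ((W x.1 x.2.1).d.E x.2.2) n (β • Jmat n g) by rw [ht]]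
      exact (congrArg (fun c => (_ - c) ^ 2) this).trans (by rw [sub_zero]; rfl)
  simp only [B.Mom, gibbsWeight_eq_ising, eQ]
  set J := β • Jmat n g
  have mg : ∀ m i b s, MG fun y =>
      psi (QQ J) (Eh ((W m i).d.E b) n J) (W m i).d.k s y ^ 2 := fun m i b s => by
    obtain ⟨_, -, h⟩ := hP _ _ ((hW m i).2 b).1 ((hW m i).2 b).2 (W m i).d.k 0 0 le_rfl
    obtain ⟨_, _, _, _, h, -⟩ := h n J _ hQ 1 le_rfl
    exact Rec.mg_sq (Gc85.der_mg h.der (fun s y => (h.gr s y).2) s)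
  have ez : ∀ m s y, zn N W J m s y = ∑ i ∈ range (2 ^ N + 1), ∑ b, (W m i).cz / n *
      psi (QQ J) (Eh ((W m i).d.E b) n J) (W m i).d.k s y ^ 2 := fun m s y => by
    simp only [zn, Finset.sum_apply, Pi.smul_apply, smul_eq_mul, Wd.zs, Md.Zs, ← mul_sum]
    exact sum_congr rfl fun i _ => by ring
  refine ⟨fun m => ⟨fun s => ?_, fun s y => ?_⟩, fun T0 f hf => ?_⟩
  · have := MG.sum (range (2 ^ N + 1)) fun i _ => MG.sum univ fun b _ =>
      (mg m i b s).const_mul ((W m i).cz / n)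
    rw [← funext (ez m s)] at this
    exact ⟨this.meas, this.bd⟩
  · rw [ez]
    exact sum_nonneg fun i _ => sum_nonneg fun b _ =>
      mul_nonneg (div_nonneg (hW m i).1 n.cast_nonneg) (sq_nonneg _)
  have hw : Wt (ising J 0) := .of_pos fun _ => exp_pos _
  have ew : ∀ (m : ℕ) s, Ew (m * τ) (zn N W J m) s 0 = ∑ i ∈ range (2 ^ N + 1), ∑ b, (W m i).cz *
      phq (QQ J) (Eh ((W m i).d.E b) n J) (W m i).d.k (m * τ) s := fun m s => by
    have i1 := fun i b => (((mg m i b s).const_mul ((W m i).cz / n)).affine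
      ((m * τ) • sv s) √(m * τ)).int
    simp only [Ew, ez, zero_add]
    rw [integral_finsetSum _ fun i _ => integrable_finsetSum _ fun b _ => i1 i b]
    refine sum_congr rfl fun i _ => (integral_finsetSum _ fun b _ => i1 i b).trans
      (sum_congr rfl fun b _ => ?_)
    rw [integral_const_mul, phq]; ring
  rw [Equiv.sum_comp (Fintype.equivFin I).symm fun x => mean (ising J 0) fun s => f s * phi (QQ J)
    (Eh ((W x.1 x.2.1).d.E x.2.2) n J) (W x.1 x.2.1).d.k ((x.1 : ℕ) * τ) s ^ 2, mul_sum,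
    ← sum_add_distrib, Fintype.sum_sigma, ← sum_coe_sort]
  refine sum_le_sum fun m _ => ?_
  simp only [ew, mul_sum, SL.mean_sum]
  rw [Fintype.sum_sigma, ← sum_coe_sort]
  refine sum_le_sum fun i _ => sum_le_sum fun b _ => ?_
  have h1 := single_le_sum (f := fun x : I => (W x.1 x.2.1).cz) (fun x _ => (hW _ _).1)
    (mem_univ ⟨m, i, b⟩)
  refine (hw.mean_mono fun s => mul_le_mul_of_nonneg_left (mul_le_mul_of_nonneg_left
    ((hC ⟨m, i, b⟩ n _ _ _ hn hQ rfl).2.2.2.2.1 s).2 (hW _ _).1) (hf.1 s).le).trans ?_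
  simp only [mul_add, SL.mean_add, mul_left_comm (f _), SL.mean_const_mul, SL.mean_mul_const,
    hf.2.1, one_mul]
  exact add_le_add (mul_le_mul_of_nonneg_right h1
    (hw.mean_nonneg fun s => mul_nonneg (hf.1 s).le (sq_nonneg _))) le_rfl

end Crest.Agent.T157.Kz

end
end

-- ▼ part T157/KzAll_42
section

/-!
# Row 157, part B (helper42): the collective supply, assembled
-/

namespace Crest.Agent.T157.Kz

open Crest.Agent.T157.K

theorem tar_of (hM : Md.ModStmt) : TarStmt :=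
  tarGlue Rv.at0 hM (Md.regGlue progStmt dirStmt gtStmt) bpStmt psiStmt progStmt dirStmt tailStmt
    concStmt revStmt tcStmt tcgStmt repStmt

theorem barStmt : BarStmt := barGlue tcStmt tchStmt tmStmt evStmt

theorem levStmt : LevStmt := levGlue tcStmt psiStmt phiStmt S1.mtStmt

theorem zSup_of (hM : Md.ModStmt) (hg : MagStmt) (ht : TokGlue) (hk : MokGlue)
    (hr : RecStmt) : ZSup :=
  zGlue tcStmt (Kz.stepGlue tcStmt tbStmt (tar_of hM) barStmt hg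
    (ht (Md.predGlue rfStmt) S1.mtStmt) (hk Md.linStmt S1.crudeStmt)) levStmt hr

end Crest.Agent.T157.Kz
end

-- ▼ part T157/KMdB_93
section

/-!
# Row 157, block S5 (helper93): the cut of `ModGlue`
-/

set_option autoImplicit false

noncomputable section

namespace Crest.Agent.T157.Md

open MeasureTheory Real Matrix Finset Filter
open Crest.Agent.T157.E Crest.Agent.T157.Eig Crest.Agent.T157.K
open Crest.Agent.T157.Tap (V Mx)
open Crest.Agent.T157.Rec (grad)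
open Crest.Agent.T157.SL (Wt)
open Crest.Agent.T157.S3.Hd (AD)
open Crest.Agent.T157.S1 (Dat St Cl Sz Bas Bb Ex Del del nu pi U)

variable {n : ℕ}

/-! ### words -/

/-- regularity constant of `Om` -/
def eO (c Λ M : ℝ) (k : ℕ) : ℝ := (k + 1) * (exp (c * (k + 1) * Λ) * (c * M))

/-- `ψ` acts as `lin a` on warm laws -/
def CZ (J : Mx n) (y : V n) (lam T : ℝ) (ψ : Cube n → ℝ) (a : V n) : Prop :=
  ∀ v, Wt v → kl v (ising J y) ≤ T →
    (mean v ψ - (mean v (lin a) - mean (ising J y) (lin a))) ^ 2 ≤ lam * n * (kl v (ising J y) + 1)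
/-- the tail `K^k (lin a)` is not seen by warm laws -/
def CT (J Q : Mx n) (y : V n) (lam T : ℝ) (k : ℕ) (a : V n) : Prop :=
  ∀ v, Wt v → kl v (ising J y) ≤ T →
    (mean v ((Ky Q y)^[k] (lin a)) - mean (ising J y) (lin a)) ^ 2 ≤ lam * n * (kl v (ising J y) + 1)
/-- `Ω` represents the gradient of `∑_{l<k} K^l (lin a)` -/
structure CB (J Q : Mx n) (y : V n) (lam e η : ℝ) (k : ℕ) (Ω : U2 n) (a : V n) : Prop where
  bs : ∃ X L, BS0 (Ks Q y k (lin a)) (fun s => Ω s y) X e L ∧ mean (ising J y) X ≤ lam * n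
  rf : RF e Ω
  jx : (mean (ising J y) fun s => exc η (J *ᵥ gt Q Ω s y)) ≤ lam * n

/-- the common prefix of the certificates at the running field `y` -/
def Cert (Φ : ∀ n : ℕ, Mx n → Mx n → V n → (lam T e η : ℝ) → ℕ → (Cube n → ℝ) → U2 n → V n → Prop) :
    Prop := ∀ K : ℝ, ∃ c0 : ℝ, ∀ c ≥ c0, ∀ A0 lam : ℝ, 0 < lam → ∃ k0 : ℕ, ∀ k ≥ k0,
  ∃ δ0 > (0 : ℝ), ∃ Λ0 : ℝ, ∀ Λ ≥ Λ0, ∀ M e η : ℝ, 0 ≤ M → 0 ≤ η → ∃ θ > (0 : ℝ), ∀ᶠ n : ℕ in atTop,
  ∀ (J Q : Mx n) (y0 y : V n) (E : V n → V n → V n) (a : V n) (δ T : ℝ), JQ J Q → δ ≤ δ0 →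
    Tgt J Q y0 c Λ M e η δ A0 k E a → AD (ising J y0) K (1 / n) → AD (ising J y) K (1 / n) →
    nrm (y - y0) ^ 2 ≤ T → T ≤ θ * n →
    Φ n J Q y lam T (eO c Λ M k) η k (fun s => psi Q E k s y) (Om Q c Λ M k E) a

def CertZ : Prop := Cert fun _ J _ y lam T _ _ _ ψ _ a => CZ J y lam T ψ a
def CertT : Prop := Cert fun _ J Q y lam T _ _ k _ _ a => CT J Q y lam T k a
def CertB : Prop := Cert fun _ J Q y lam _ e η k _ Ω a => CB J Q y lam e η k Ω a

/-- all budgets of the state are at most `β` -/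
structure Bud (D : Dat n) (s : St n) (β : ℝ) : Prop where
  kn : kl (nu D s) (ising D.J s.y) + 1 ≤ β
  kp : kl (pi D s) (ising D.J s.y) + 1 ≤ β
  up : mean (pi D s) (U D s) ≤ β
  dl : del s ⬝ᵥ del s ≤ β
  ll : s.L ^ 2 ≤ β
  ss : (#s.S : ℝ) ≤ β

/-- `π ∑_{j ∉ S} u_j G_j` -/
def pr (D : Dat n) (s : St n) (u G : Cube n → V n) : ℝ :=
  mean (pi D s) fun σ => ∑ j ∈ s.Sᶜ, u σ j * G σ j

/-! ### leaves -/

/-- the first-order identity for one target -/
def FoT : Prop := ∀ K : ℝ, ∃ C ≥ (1 : ℝ), ∀ (n : ℕ) (D : Dat n) (s : St n) (Q : Mx n)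
  (ε ec lam T e η β : ℝ) (k : ℕ) (ψ : Cube n → ℝ) (Ω : U2 n) (a : V n) (g : Cube n → V n), D.Ok →
  JQ D.J Q → Cl ec ec s → AD (ising D.J s.y) K ε → Bud D s β → β ≤ T → 0 ≤ lam →
  CZ D.J s.y lam T ψ a → CT D.J Q s.y lam T k a → CB D.J Q s.y lam e η k Ω a →
  (g = fun σ => gt Q Ω σ s.y) →
  (a ⬝ᵥ Del D s - (mean (nu D s) ψ - (pr D s (fun _ => del s) g + pr D s (grad s.Th) g -
    pr D s (grad (U D s)) g))) ^ 2 ≤ C * D.P ^ 4 * β * (lam * n + e ^ 2 * β)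

/-- the size of a combination of response fields -/
def GsT : Prop := ∀ K : ℝ, ∃ C ≥ (1 : ℝ), ∀ (n : ℕ) (ι : Type) [Fintype ι] (J Q : Mx n) (y : V n)
  (ε lam e η R A N : ℝ) (k : ℕ) (Ω : ι → U2 n) (a : ι → V n) (κ : ι → ℝ) (G : Cube n → V n), JQ J Q →
  AD (ising J y) K ε → (∀ b, CB J Q y lam e η k (Ω b) (a b)) → 0 ≤ lam → 0 ≤ e → 0 ≤ η → 0 ≤ R →
  (Fintype.card ι : ℝ) ≤ N → ∑ b, κ b ^ 2 ≤ R ^ 2 → nrm (∑ b, κ b • a b) ≤ A * √n →
  (k : ℝ) ^ 2 * ε ≤ 1 → (G = fun σ => ∑ b, κ b • gt Q (Ω b) σ y) →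
  R0 (C * N * R * e) G ∧ ∀ (v : Cube n → ℝ) (β : ℝ), Wt v → kl v (ising J y) + 1 ≤ β →
    (mean v fun σ => nrm (G σ) ^ 2) ≤ C * (A ^ 2 * n + (N * R) ^ 2 * (lam * n + e ^ 2 * β)) ∧
    ∀ S : Finset (Fin n), (mean v fun σ => ∑ i ∈ S, (J *ᵥ G σ) i ^ 2) ≤
      C * (N * R) ^ 2 * (η ^ 2 * #S + lam * n + e ^ 2 * β)

/-- the part of the tilt: from `π` to `ν` -/
def ThT : Prop := ∀ K : ℝ, ∃ C ≥ (1 : ℝ), ∀ (n : ℕ) (D : Dat n) (s : St n) (ε ec e Γ β : ℝ)
  (G : Cube n → V n), D.Ok → Cl ec ec s → AD (ising D.J s.y) K ε → Bud D s β → ec ≤ 1 → β ≤ n →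
  ε * n ≤ 1 → R0 e G → (mean (ising D.J s.y) fun σ => nrm (G σ) ^ 2) ≤ Γ →
  (mean (nu D s) fun σ => nrm (G σ) ^ 2) ≤ Γ → (mean (pi D s) fun σ => nrm (G σ) ^ 2) ≤ Γ →
  pr D s (grad s.Th) G ^ 2 ≤ 2 * (mean (nu D s) fun σ => grad s.Th σ ⬝ᵥ G σ) ^ 2 +
    C * (Γ * (Ex D s + ec * β) + e ^ 2 * β ^ 2)

/-- the part of the bursts -/
def UT : Prop := ∃ C ≥ (1 : ℝ), ∀ (n : ℕ) (D : Dat n) (s : St n) (e W β : ℝ) (G : Cube n → V n),
  D.Ok → Bud D s β → (∀ σ i, |G σ i| ≤ e) →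
  (mean (pi D s) fun σ => ∑ i ∈ s.S, (D.J *ᵥ G σ) i ^ 2) ≤ W →
  pr D s (grad (U D s)) G ^ 2 ≤ C * D.P ^ 2 * β * (W + e ^ 2 * β)

def CertZGlue : Prop := DirStmt → TrfStmt → Z0Stmt → CertZ
def CertTGlue : Prop := RevStmt → GapStmt → ProgStmt → DirStmt → TrfStmt → TrStmt → CertT
def CertBGlue : Prop := RevStmt → ProgStmt → DirStmt → TrfStmt → RegStmt → CertB
def FoTGlue : Prop := RevStmt → FoStmt → FoT
def GsTGlue : Prop := RevStmt → GapStmt → TrfStmt → GtStmt → GsT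
def ThTGlue : Prop := TrStmt → ThT

/-! ### tools -/

/-- optimisation in `θ` -/
theorem opt {x H B θm : ℝ} (hH : 0 ≤ H) (hθ : 0 < θm) (h1 : H + 1 ≤ B * θm ^ 2)
    (h : ∀ θ, 0 < θ → θ ≤ θm → |x| ≤ H / θ + θ * B) : x ^ 2 ≤ 4 * B * (H + 1) := by
  have hB : 0 < B := by
    by_contra hb
    nlinarith [mul_nonneg (neg_nonneg.2 (not_lt.1 hb)) (sq_nonneg θm)]
  obtain ⟨r, r0, r3⟩ : ∃ r : ℝ, 0 < r ∧ r ^ 2 * B = H + 1 :=
    ⟨√((H + 1) / B), sqrt_pos.2 (by positivity), by rw [sq_sqrt (by positivity)]; field_simp⟩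
  have r1 : r ≤ θm := by
    refine abs_le_of_sq_le_sq' ?_ hθ.le |>.2
    exact le_of_mul_le_mul_right (by linarith) hB
  have h2 : |x| ≤ 2 * (r * B) := by
    have : H / r ≤ r * B := by rw [div_le_iff₀ r0]; nlinarith
    linarith [h r r0 r1]
  calc x ^ 2 = |x| ^ 2 := (sq_abs x).symm
    _ ≤ (2 * (r * B)) ^ 2 := pow_le_pow_left₀ (abs_nonneg x) h2 2
    _ = 4 * B * (r ^ 2 * B) := by ring
    _ = _ := by rw [r3]

theorem is_pos (J : Mx n) (y : V n) (s : Cube n) : 0 < ising J y s := exp_pos _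
theorem wt_is (J : Mx n) (y : V n) : Wt (ising J y) := .of_pos (is_pos J y)
theorem kl_nn (J : Mx n) (y : V n) {v : Cube n → ℝ} (hv : Wt v) : 0 ≤ kl v (ising J y) :=
  (S1n.pr_of (is_pos J y) hv).kl_nonneg

/-- (H1) from `AD` -/
theorem h1_ad {w : Cube n → ℝ} {K ε : ℝ} (hw : ∀ x, 0 < w x) (h : AD w K ε) : Xt.H1 w K := by
  obtain ⟨K0, k, h0, hk, h1, -, h2⟩ := h
  intro G A hA hG t ht
  refine (Xt.h1_of_atd h2 hw h0 hk G A hA hG t ht).trans ?_
  have : 8 / k ≤ 32 / k := div_le_div_of_nonneg_right (by norm_num) hk.le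
  gcongr
  linarith

/-- transfer of a small mean from the base point to the running field -/
theorem near (hT : TrfStmt) (K : ℝ) : ∃ C ≥ (1 : ℝ), ∀ (n : ℕ) (J : Mx n) (y0 y : V n) (X : F2 n)
    (e ε T : ℝ), AD (ising J y0) K ε → RE e X → nrm (y - y0) ^ 2 ≤ T →
    (mean (ising J y) fun s => X s y) ≤
      4 * (mean (ising J y0) fun s => X s y0) + C * e ^ 2 * (T + 1) := by
  obtain ⟨C, hC, h⟩ := hT K
  refine ⟨C * (16 * |K| + 1), by nlinarith [abs_nonneg K], fun n J y0 y X e ε T hA hX hy => ?_⟩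
  have h1 := S1n.kl_tilt_self (is_pos J y0) (h1_ad (is_pos J y0) hA) (y - y0)
  rw [tilt_ising, add_sub_cancel, ← nrm_sq, ← abs_of_pos hA.pos] at h1
  refine (h n _ _ X e ε y0 y (is_pos J y0) hA (wt_is J y) hX).trans (add_le_add_right ?_ _)
  have h2 := mul_le_mul_of_nonneg_left hy (abs_nonneg K)
  have h3 : kl (ising J y) (ising J y0) + nrm (y - y0) ^ 2 + 1 ≤ (16 * |K| + 1) * (T + 1) := by
    nlinarith [abs_nonneg K]
  calc _ ≤ C * e ^ 2 * ((16 * |K| + 1) * (T + 1)) := by gcongr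
    _ = _ := by ring

end Crest.Agent.T157.Md

end
end

-- ▼ part T157/KMd_93
section

/-!
# Row 157, block S5 (helper93): `ModStmt` from the leaves of `KMdB_93`
-/

set_option autoImplicit false

noncomputable section

namespace Crest.Agent.T157.Md

open MeasureTheory Real Matrix Finset Filter Topology
open Crest.Agent.T157.E Crest.Agent.T157.Eig Crest.Agent.T157.K Crest.Agent.T157.SL
open Crest.Agent.T157.Tap (V Mx)
open Crest.Agent.T157.Rec (grad)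
open Crest.Agent.T157.S3.Hd (AD)
open Crest.Agent.T157.S1 (Dat St Cl Sz Bas Bb Bd Hy Ex Del del nu pi U)

namespace G93

variable {n : ℕ} {ι : Type} [Fintype ι]

theorem msq {v : Cube n → ℝ} (hv : Wt v) (f : Cube n → ℝ) :
    mean v f ^ 2 ≤ mean v fun x => f x ^ 2 := by
  have h := hv.mean_nonneg (f := fun x => (f x - mean v f) ^ 2) fun _ => sq_nonneg _
  have e : (fun x => (f x - mean v f) ^ 2) =
      fun x => f x ^ 2 - (2 * mean v f) * f x + mean v f ^ 2 := by ext x; ring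
  rw [e, mean_add, mean_sub, mean_const_mul, hv.mean_const] at h
  nlinarith

theorem cs {κ : ι → ℝ} {R : ℝ} (h : ∑ b, κ b ^ 2 ≤ R ^ 2) (x : ι → ℝ) :
    (∑ b, κ b * x b) ^ 2 ≤ R ^ 2 * ∑ b, x b ^ 2 :=
  (sum_mul_sq_le_sq_mul_sq _ _ _).trans
    (mul_le_mul_of_nonneg_right h (sum_nonneg fun _ _ => sq_nonneg _))

/-- a combination seen by a law -/
theorem comb {v : Cube n → ℝ} (hv : Wt v) (hn : 0 < (n : ℝ)) {κ : ι → ℝ} {R : ℝ}
    (h : ∑ b, κ b ^ 2 ≤ R ^ 2) (f : ι → Cube n → ℝ) :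
    (∑ b, κ b * mean v (f b)) ^ 2 ≤ R ^ 2 * n * mean v fun σ => (∑ b, f b σ ^ 2) / n := by
  rw [mean_div_const, mul_assoc, mul_div_cancel₀ _ hn.ne', mean_sum]
  exact (cs h _).trans (mul_le_mul_of_nonneg_left (sum_le_sum fun b _ => msq hv _) (sq_nonneg _))

theorem pr_sum (D : Dat n) (s : St n) (u : Cube n → V n) (κ : ι → ℝ) (g : ι → Cube n → V n) :
    pr D s u (fun σ => ∑ b, κ b • g b σ) = ∑ b, κ b * pr D s u (g b) := by
  simp only [pr, ← mean_const_mul, ← mean_sum]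
  congr 1
  ext σ
  simp only [Finset.sum_apply, Pi.smul_apply, smul_eq_mul, mul_sum]
  rw [sum_comm]
  exact sum_congr rfl fun b _ => sum_congr rfl fun j _ => by ring

theorem pr_del {D : Dat n} (s : St n) (h : D.Ok) (G : Cube n → V n) :
    pr D s (fun _ => del s) G ^ 2 ≤ del s ⬝ᵥ del s * mean (pi D s) fun σ => nrm (G σ) ^ 2 := by
  have hw := (S1.W6.pr_pi s h).hw
  rw [← mean_const_mul]
  refine (msq hw _).trans (hw.mean_mono fun σ => (sum_mul_sq_le_sq_mul_sq _ _ _).trans ?_)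
  rw [nrm_sq, dotProduct, dotProduct]
  simp only [sq]
  exact mul_le_mul (sum_le_sum_of_subset_of_nonneg (subset_univ _) fun _ _ _ => mul_self_nonneg _)
    (sum_le_sum_of_subset_of_nonneg (subset_univ _) fun _ _ _ => mul_self_nonneg _)
    (sum_nonneg fun _ _ => mul_self_nonneg _) (sum_nonneg fun _ _ => mul_self_nonneg _)

theorem bud {D : Dat n} {s : St n} (h : D.Ok) {C : ℝ} (hC : 1 ≤ C)
    (h1 : kl (pi D s) (ising D.J s.y) ≤ C * Bb D s s.y) (h2 : mean (pi D s) (U D s) ≤ C * Bb D s s.y) :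
    0 ≤ Bd D s ∧ Bud D s (C * (Bd D s + 1)) := by
  have e : Bb D s s.y = Bd D s := by simp [Bb]
  rw [e] at h1 h2
  have a1 := S1.W6.Hy_nonneg s h
  have a2 := S1.W6.nuU_nonneg s h
  have a3 := Eig.dot_self_nonneg (del s)
  have a4 := sq_nonneg s.L
  have a5 : (0 : ℝ) ≤ #s.S := Nat.cast_nonneg _
  have e2 : Bd D s = Hy D s + del s ⬝ᵥ del s + s.L ^ 2 + mean (nu D s) (U D s) + #s.S := rfl
  have b0 : 0 ≤ Bd D s := by linarith
  have b1 : Bd D s + 1 ≤ C * (Bd D s + 1) := le_mul_of_one_le_left (by linarith) hC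
  refine ⟨b0, ?_, by linarith, by linarith, by linarith, by linarith, by linarith⟩
  show Hy D s + 1 ≤ _
  linarith

theorem ev_ad {K0 κ0 : ℝ} (hκ : 0 < κ0) : ∀ᶠ n : ℕ in atTop, ∀ (J : Mx n) (y : V n), Bas J K0 κ0 y →
    AD (ising J y) (max K0 0 + 32 / κ0) (1 / n) := by
  have t1 : Tendsto (fun n : ℕ => (n : ℝ)) atTop atTop := tendsto_natCast_atTop_atTop
  have t2 := ((tendsto_pow_mul_exp_neg_atTop_nhds_zero 3).comp
    (t1.const_mul_atTop (half_pos hκ))).const_mul (5120 / (κ0 / 2) ^ 3)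
  filter_upwards [t2.eventually_le_const (u := 1) (by simp), t1.eventually_gt_atTop 0] with
    n h2 h3 J y h1
  refine ⟨max K0 0, κ0, le_max_right _ _, hκ, le_rfl, ?_,
    h1.mono (is_pos J y) (le_max_left _ _) le_rfl⟩
  rw [le_div_iff₀ (by positivity)]
  refine le_of_eq_of_le ?_ h2
  simp only [Function.comp_apply]
  rw [show κ0 * (n : ℝ) / 2 = κ0 / 2 * n by ring, mul_pow]
  field_simp

theorem sq5 (a b c d e : ℝ) :
    (a + b - (c + d - e)) ^ 2 ≤ 5 * (a ^ 2 + b ^ 2 + c ^ 2 + d ^ 2 + e ^ 2) := by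
  nlinarith [sq_nonneg (a - b), sq_nonneg (a + c), sq_nonneg (a + d), sq_nonneg (a - e),
    sq_nonneg (b + c), sq_nonneg (b + d), sq_nonneg (b - e), sq_nonneg (c - d), sq_nonneg (c + e),
    sq_nonneg (d + e)]

/-- the final count -/
theorem num {r z p1 p2 p3 n Cf Cg Ct Cu Cb P Z R2 A2 β B σ ω ec dd zs rs ex H CM : ℝ} (hn : 0 < n)
    (hg : 1 ≤ Cg) (ht : 1 ≤ Ct) (hb : 1 ≤ Cb) (hA : 0 ≤ A2) (hR : 0 ≤ R2) (hB : 0 ≤ B)
    (hβ : β = Cb * B) (hdd : 0 ≤ dd) (hzs : 0 ≤ zs) (hrs : 0 ≤ rs) (hex : 0 ≤ ex)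
    (hH : H = Cf * P ^ 4 + Ct * Cg ^ 2 + 2 * Cu * P ^ 2 * Cg ^ 2) (hσ : 10 * Z * H * Cb * σ ≤ ω)
    (hCM : CM = 20 * Ct * Cg * Cb) (hec : CM * A2 * ec ≤ ω)
    (h1 : r ^ 2 ≤ Cf * P ^ 4 * (Z * σ * β * n)) (h2 : z ^ 2 ≤ R2 * n * zs)
    (h3 : p1 ^ 2 ≤ dd * (2 * Cg * A2 * n))
    (h4 : p2 ^ 2 ≤ 2 * (R2 * n * rs) + Ct * (2 * Cg * A2 * n * (ex + ec * β)) +
      Ct * Cg ^ 2 * (Z * σ * β * n))
    (h5 : p3 ^ 2 ≤ 2 * Cu * P ^ 2 * Cg ^ 2 * (Z * σ * β * n)) :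
    (r + z - (p1 + p2 - p3)) ^ 2 / n ≤ CM * A2 * dd + CM * R2 * (zs + rs) + ω * B + CM * A2 * ex := by
  rw [div_le_iff₀ hn]
  have c1 : 1 ≤ Ct * Cg := one_le_mul_of_one_le_of_one_le ht hg
  have c2 : 10 * (Ct * Cg) ≤ CM := by rw [hCM]; nlinarith
  have c3 : 10 * Cg ≤ CM := by nlinarith
  have d1 := mul_le_mul_of_nonneg_right c3 (show 0 ≤ A2 * dd * n by positivity)
  have d2 := mul_le_mul_of_nonneg_right (show 10 ≤ CM by linarith) (show 0 ≤ R2 * zs * n by positivity)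
  have d3 := mul_le_mul_of_nonneg_right (show 10 ≤ CM by linarith) (show 0 ≤ R2 * rs * n by positivity)
  have d4 := mul_le_mul_of_nonneg_right c2 (show 0 ≤ A2 * ex * n by positivity)
  have d5 := mul_le_mul_of_nonneg_right hec (show 0 ≤ B * n by positivity)
  have d6 := mul_le_mul_of_nonneg_right hσ (show 0 ≤ B * n by positivity)
  have d7 : 0 ≤ R2 * zs * n := by positivity
  refine (sq5 _ _ _ _ _).trans ?_
  subst hβ hH hCM
  linarith

end G93

open G93 in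
/-- **ModDet** from its leaves -/
theorem modOf (hZ : CertZ) (hT : CertT) (hB : CertB) (hF : FoT) (hG : GsT) (hH : ThT) (hU : UT)
    (h1 : S1.B1Stmt) : ModStmt := by
  intro K0 κ0 hκ
  obtain ⟨Cb, cb, b1⟩ := h1 K0 κ0 hκ
  have hA := ev_ad (K0 := K0) hκ
  generalize max K0 0 + 32 / κ0 = K at hA
  obtain ⟨Cf, cf, fo⟩ := hF K
  obtain ⟨Cg, cg, gs⟩ := hG K
  obtain ⟨Ct, ct, th⟩ := hH K
  obtain ⟨Cu, cu, ut⟩ := hU
  obtain ⟨c1, hZ⟩ := hZ K
  obtain ⟨c2, hT⟩ := hT K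
  obtain ⟨c3, hB⟩ := hB K
  have m1 : 1 ≤ Ct * Cg * Cb :=
    one_le_mul_of_one_le_of_one_le (one_le_mul_of_one_le_of_one_le ct cg) cb
  refine ⟨20 * Ct * Cg * Cb, by linarith, max (max c1 0) (max c2 c3),
    fun c hc P A0 R ω nb w0 w1 => ?_⟩
  simp only [ge_iff_le, max_le_iff] at hc
  obtain ⟨H, eH⟩ : ∃ H, H = Cf * P ^ 4 + Ct * Cg ^ 2 + 2 * Cu * P ^ 2 * Cg ^ 2 := ⟨_, rfl⟩
  have H1 : 1 ≤ H := by
    have := one_le_mul_of_one_le_of_one_le ct (one_le_pow₀ (n := 2) cg)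
    have : 0 ≤ Cf * P ^ 4 + 2 * Cu * P ^ 2 * Cg ^ 2 := by positivity
    linarith
  obtain ⟨Z, eZ⟩ : ∃ Z : ℝ, Z = (nb * |R|) ^ 2 := ⟨_, rfl⟩
  have Z0 : 0 ≤ Z := eZ ▸ sq_nonneg _
  obtain ⟨lam, l0, l1⟩ : ∃ lam > (0 : ℝ), 10 * Z * H * Cb * (2 * lam) ≤ ω := by
    refine ⟨ω / (20 * (Z + 1) * H * Cb), by positivity, ?_⟩
    rw [← mul_div_assoc, ← mul_div_assoc, div_le_iff₀ (by positivity)]
    nlinarith [show 0 ≤ ω * H * Cb by positivity]
  have l2 : Z * (2 * lam) ≤ 1 := by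
    have := mul_le_mul_of_nonneg_left (one_le_mul_of_one_le_of_one_le H1 cb)
      (show 0 ≤ Z * lam by positivity)
    linarith
  obtain ⟨k1, hZ⟩ := hZ c hc.1.1 A0 lam l0
  obtain ⟨k2, hT⟩ := hT c hc.2.1 A0 lam l0
  obtain ⟨k3, hB⟩ := hB c hc.2.2 A0 lam l0
  obtain ⟨k, q1, q2, q3⟩ : ∃ k, k1 ≤ k ∧ k2 ≤ k ∧ k3 ≤ k := ⟨k1 + k2 + k3, by omega⟩
  obtain ⟨δ1, d1, Λ1, hZ⟩ := hZ k q1
  obtain ⟨δ2, d2, Λ2, hT⟩ := hT k q2
  obtain ⟨δ3, d3, Λ3, hB⟩ := hB k q3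
  refine ⟨k, min δ1 (min δ2 δ3), by positivity, max Λ1 (max Λ2 Λ3), fun Λ hΛ M e η hM hη => ?_⟩
  simp only [ge_iff_le, max_le_iff] at hΛ
  obtain ⟨θ1, t1, hZ⟩ := hZ Λ hΛ.1 M e η hM hη
  obtain ⟨θ2, t2, hT⟩ := hT Λ hΛ.2.1 M e η hM hη
  obtain ⟨θ3, t3, hB⟩ := hB Λ hΛ.2.2 M e η hM hη
  have e0 : 0 ≤ eO c Λ M k := by have := hc.1.2; unfold eO; positivity
  generalize eO c Λ M k = e1 at hB e0
  obtain ⟨ρ, r0, r1, r2, r3, r4, r5⟩ : ∃ ρ > (0 : ℝ), ρ ≤ θ1 ∧ ρ ≤ θ2 ∧ ρ ≤ θ3 ∧ ρ ≤ 1 ∧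
      (e1 ^ 2 + η ^ 2) * ρ ≤ lam := by
    refine ⟨min (min θ1 (min θ2 θ3)) (min 1 (lam / (e1 ^ 2 + η ^ 2 + 1))), by positivity, by simp,
      by simp, by simp, by simp, ?_⟩
    refine (mul_le_mul_of_nonneg_left ((min_le_right _ _).trans (min_le_right _ _))
      (by positivity)).trans ?_
    rw [← mul_div_assoc, div_le_iff₀ (by positivity)]
    linarith
  refine ⟨ρ / (5 * Cb), by positivity, ?_⟩
  have tn : Tendsto (fun n : ℕ => (n : ℝ)) atTop atTop := tendsto_natCast_atTop_atTop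
  filter_upwards [hZ, hT, hB, hA, tn.eventually_gt_atTop 0, tn.eventually_ge_atTop ((k : ℝ) ^ 2),
    tn.eventually_ge_atTop (5 * Cb / ρ)] with n hZ hT hB hA n0 nk nρ ι _ Q y0 E a D s t ec A κ hι hQ
    tg ok hP B0 By cl sz hy ht A1 hec hκ' hna
  subst hP
  obtain ⟨-, f2, f3, -⟩ := b1 n D s s.y ec ec ok cl By
  obtain ⟨b0, bd⟩ := bud ok cb f2 f3
  obtain ⟨β, eβ⟩ : ∃ β, β = Cb * (Bd D s + 1) := ⟨_, rfl⟩
  rw [← eβ] at bd
  have β0 : 0 ≤ β := by rw [eβ]; positivity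
  have ht' : 5 * Cb * t ≤ ρ * n := by
    rw [div_mul_eq_mul_div, le_div_iff₀ (by positivity)] at ht; linarith
  rw [div_le_iff₀ r0] at nρ
  have t0 : 0 ≤ t := (sq_nonneg _).trans hy
  have βT : β ≤ ρ * n := by
    have : Bd D s ≤ 4 * t := by
      have := S1.W6.gibbs s ok
      unfold Bd
      linarith [sz.1, sz.2.1, sz.2.2.1, sz.2.2.2]
    have := mul_le_mul_of_nonneg_left this (by linarith : 0 ≤ Cb)
    linarith
  have yT : nrm (s.y - y0) ^ 2 ≤ ρ * n := by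
    linarith only [mul_le_mul_of_nonneg_right cb t0, t0, hy, ht']
  have a0 := hA _ _ B0
  have ay := hA _ _ By
  have le : ∀ θ, ρ ≤ θ → ρ * n ≤ θ * n := fun θ h => mul_le_mul_of_nonneg_right h n0.le
  have cZ := fun b => hZ _ Q y0 s.y _ _ _ _ hQ (min_le_left _ _) (tg b) a0 ay yT (le _ r1)
  have cT := fun b => hT _ Q y0 s.y _ _ _ _ hQ ((min_le_right _ _).trans (min_le_left _ _)) (tg b)
    a0 ay yT (le _ r2)
  have cB := fun b => hB _ Q y0 s.y _ _ _ _ hQ ((min_le_right _ _).trans (min_le_right _ _)) (tg b)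
    a0 ay yT (le _ r3)
  clear hZ hT hB hA b1
  have sm : (e1 ^ 2 + η ^ 2) * β ≤ lam * n := by
    have := mul_le_mul_of_nonneg_left βT (show 0 ≤ e1 ^ 2 + η ^ 2 by positivity)
    have := mul_le_mul_of_nonneg_right r5 n0.le
    linarith
  have s1 : 0 ≤ e1 ^ 2 * β := by positivity
  have s2 : 0 ≤ η ^ 2 * β := by positivity
  have s3 : 0 ≤ lam * n := by positivity
  have hκ2 : ∑ b, κ b ^ 2 ≤ |R| ^ 2 := by rwa [sq_abs]
  have nb' : (Fintype.card ι : ℝ) ≤ nb := by exact_mod_cast hι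
  obtain ⟨G, eG⟩ : ∃ G : Cube n → V n, G = fun σ => ∑ b, κ b • gR Q c Λ M k (E b) σ s.y := ⟨_, rfl⟩
  obtain ⟨g0, g1⟩ := gs n ι D.J Q s.y _ lam e1 η |R| A nb k _ a κ G hQ ay cB l0.le e0 hη
    (abs_nonneg _) nb' hκ2 hna (by rwa [mul_one_div, div_le_one n0]) eG
  rw [← eZ] at g1
  have A2 : 1 ≤ A ^ 2 := one_le_pow₀ A1
  have gΓ : ∀ v, Wt v → kl v (ising D.J s.y) + 1 ≤ β →
      (mean v fun σ => nrm (G σ) ^ 2) ≤ 2 * Cg * A ^ 2 * n := fun v hv h => by
    have u1 : Z * (lam * n + e1 ^ 2 * β) ≤ Z * (2 * lam) * n := by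
      rw [mul_assoc]; exact mul_le_mul_of_nonneg_left (by linarith) Z0
    have u2 := mul_le_mul_of_nonneg_right (l2.trans A2) n0.le
    exact (g1 v β hv h).1.trans ((mul_le_mul_of_nonneg_left (by linarith) (by linarith)).trans_eq
      (show Cg * (2 * (A ^ 2 * n)) = _ by ring))
  have pp := S1.W6.pr_pi s ok
  have k0 : kl (ising D.J s.y) (ising D.J s.y) + 1 ≤ β := by
    rw [show kl (ising D.J s.y) (ising D.J s.y) = 0 from Ent.kl_self _]
    linarith [kl_nn D.J s.y pp.hv, bd.kn]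
  have ec1 : ec ≤ 1 := by
    by_contra h
    have u1 := mul_le_mul m1 A2 zero_le_one (zero_le_one.trans m1)
    have u2 := mul_le_mul u1 (not_le.1 h).le zero_le_one (by positivity)
    linarith only [u2, hec, w1]
  have eg : (Cg * nb * |R| * e1) ^ 2 * β ≤ Cg ^ 2 * (Z * (2 * lam) * n) := by
    rw [show (Cg * nb * |R| * e1) ^ 2 * β = Cg ^ 2 * ((nb * |R|) ^ 2 * (e1 ^ 2 * β)) by ring, ← eZ,
      mul_assoc Z]
    exact mul_le_mul_of_nonneg_left (mul_le_mul_of_nonneg_left (by linarith only [sm, s2, s3]) Z0)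
      (sq_nonneg _)
  have p2 := th n D s _ ec _ _ β G ok cl ay bd ec1 (βT.trans ((le _ r4).trans_eq (one_mul _)))
    (by rw [one_div, inv_mul_cancel₀ n0.ne']) g0 (gΓ _ (wt_is _ _) k0) (gΓ _ pp.hv bd.kn)
    (gΓ _ pp.hw bd.kp)
  have p3 := ut n D s _ _ β G ok bd g0.sup ((g1 _ β pp.hw bd.kp).2 s.S)
  have rb := fun b => fo n D s Q _ ec lam _ e1 η β k _ _ (a b) _ ok hQ cl ay bd βT l0.le (cZ b) (cT b)
    (cB b) rfl
  clear fo gs th ut cZ cT cB g1
  have e2 : mean (nu D s) (fun σ => grad s.Th σ ⬝ᵥ G σ) =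
      ∑ b, κ b * mean (nu D s) fun σ => grad s.Th σ ⬝ᵥ gR Q c Λ M k (E b) σ s.y := by
    simp only [eG, dotProduct_sum, dotProduct_smul, smul_eq_mul, mean_sum, mean_const_mul]
  have key := num (r := ∑ b, κ b * (a b ⬝ᵥ Del D s - (mean (nu D s) (fun σ => psi Q (E b) k σ s.y) -
      (pr D s (fun _ => del s) (fun σ => gR Q c Λ M k (E b) σ s.y) +
        pr D s (grad s.Th) (fun σ => gR Q c Λ M k (E b) σ s.y) -
        pr D s (grad (U D s)) fun σ => gR Q c Λ M k (E b) σ s.y))))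
    (p1 := pr D s (fun _ => del s) G) (p2 := pr D s (grad s.Th) G) (p3 := pr D s (grad (U D s)) G)
    (rs := mean (nu D s) fun σ => Rsp (fun b => gR Q c Λ M k (E b)) s.Th σ s.y) (ex := Ex D s)
    n0 cg ct cb (sq_nonneg A) (sq_nonneg R) (by linarith) eβ (Eig.dot_self_nonneg (del s))
    (pp.hv.mean_nonneg fun σ => by positivity)
    (pp.hv.mean_nonneg fun σ => by unfold Rsp; positivity) (pp.hv.mean_nonneg fun σ => sq_nonneg _)
    eH l1 rfl hec ?_ (comb pp.hv n0 hκ' fun b σ => psi Q (E b) k σ s.y)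
    ((pr_del s ok G).trans (mul_le_mul_of_nonneg_left (gΓ _ pp.hw bd.kp) (Eig.dot_self_nonneg _))) ?_ ?_
  · refine le_of_eq_of_le ?_ (key.trans ?_)
    · simp only [eG, pr_sum, sum_dotProduct, smul_dotProduct, smul_eq_mul, mul_sub, mul_add,
        sum_sub_distrib, sum_add_distrib]
      ring
    · have : Bd D s ≤ Bb D s y0 := le_add_of_nonneg_right (sq_nonneg _)
      have := mul_le_mul_of_nonneg_left this w0.le
      unfold Zs
      linarith only [this]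
  · refine (cs hκ' _).trans ((mul_le_mul_of_nonneg_left (sum_le_card_nsmul _ _
      (Cf * D.P ^ 4 * β * (2 * lam * n)) fun b _ => (rb b).trans ?_) (sq_nonneg _)).trans ?_)
    · exact mul_le_mul_of_nonneg_left (by linarith only [sm, s2]) (by positivity)
    · have : R ^ 2 * (Fintype.card ι : ℝ) ≤ Z := by
        rw [eZ, mul_pow, sq_abs, mul_comm]
        exact mul_le_mul_of_nonneg_right (nb'.trans (by exact_mod_cast Nat.le_self_pow two_ne_zero nb))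
          (sq_nonneg _)
      rw [card_univ, nsmul_eq_mul, ← mul_assoc]
      exact (mul_le_mul_of_nonneg_right this (by positivity)).trans_eq (by ring)
  · have u1 := comb pp.hv n0 hκ' fun b σ => grad s.Th σ ⬝ᵥ gR Q c Λ M k (E b) σ s.y
    rw [← e2] at u1
    have u2 := mul_le_mul_of_nonneg_left eg (show 0 ≤ Ct * β by positivity)
    unfold Rsp
    linarith only [u1, u2, p2]
  · have u1 : Cg * Z * (η ^ 2 * #s.S + lam * n + e1 ^ 2 * β) ≤ Cg ^ 2 * (Z * (2 * lam) * n) := by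
      have := mul_le_mul_of_nonneg_left bd.ss (sq_nonneg η)
      rw [mul_assoc, mul_assoc Z]
      exact mul_le_mul (le_self_pow₀ cg two_ne_zero)
        (mul_le_mul_of_nonneg_left (by linarith only [this, sm]) Z0) (by positivity) (sq_nonneg _)
    exact p3.trans ((mul_le_mul_of_nonneg_left (add_le_add u1 eg) (by positivity)).trans_eq (by ring))

end Crest.Agent.T157.Md

end
end

-- ▼ part T157/KCertT_14
section

/-!
# Row 157, block S5 (helper14): the tail certificate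
-/

set_option autoImplicit false
set_option linter.all false

noncomputable section

namespace Crest.Agent.T157.Md

open MeasureTheory Real Matrix Finset Filter
open Crest.Agent.T157.E Crest.Agent.T157.Eig Crest.Agent.T157.K
open Crest.Agent.T157.Tap (V Mx)
open Crest.Agent.T157.Rec (grad)
open Crest.Agent.T157.SL (Wt)
open Crest.Agent.T157.S3.Hd (AD)

namespace CT14

variable {n : ℕ}

theorem grad_lin (a : V n) (s : Cube n) : grad (lin a) s = a := Rec.grad_lin a s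

theorem rf_mono {e e' : ℝ} {u : U2 n} (h : RF e u) (he : e ≤ e') : RF e' u :=
  ⟨fun ζ => ⟨fun s i => ((h.r0 ζ).sup s i).trans he, fun s => ((h.r0 ζ).op s).trans he⟩,
    fun s ζ ζ' => (h.lip s ζ ζ').trans (mul_le_mul_of_nonneg_right he (nrm_nonneg _))⟩

theorem inv_it (hR : RevStmt) {J Q : Mx n} (hJ : JQ J Q) (y : V n) (F : Cube n → ℝ) (k : ℕ) :
    mean (ising J y) ((Ky Q y)^[k] F) = mean (ising J y) F := by
  induction k with
  | zero => rfl
  | succ k ih => rw [Function.iterate_succ_apply', hR.inv n J Q y _ hJ, ih]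

theorem na {a : V n} {A0 : ℝ} (h : nrm a ≤ A0 * √n) : nrm a ≤ |A0| * √n :=
  h.trans (mul_le_mul_of_nonneg_right (le_abs_self _) (sqrt_nonneg _))

theorem sq_A (A0 : ℝ) (n : ℕ) : (|A0| * √n) ^ 2 = A0 ^ 2 * n := by
  rw [mul_pow, sq_abs, sq_sqrt (Nat.cast_nonneg n)]

/-- the programs at the running field -/
theorem prog_y (hP : ProgStmt) (hD : DirStmt) (hT : TrfStmt) (K : ℝ) : ∃ c0 ≥ (1 : ℝ),
    ∃ C ≥ (1 : ℝ), ∀ c ≥ c0, ∀ (n : ℕ) (J Q : Mx n) (y0 y : V n) (Λ M e η δ A0 ε T : ℝ) (k l : ℕ)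
      (E : V n → V n → V n) (a : V n), JQ J Q → 1 ≤ Λ → 0 ≤ M → Tgt J Q y0 c Λ M e η δ A0 k E a →
      AD (ising J y0) K ε → nrm (y - y0) ^ 2 ≤ T → l ≤ k →
      ∃ X', BS0 ((Ky Q y)^[l] (lin a)) (fun s => wS Q c Λ (c * M) (dirS Q E) l s y) X'
        (exp (c * l * Λ) * (c * M)) (c ^ l * (|A0| * √n)) ∧
        mean (ising J y) X' ≤ c ^ l * ((l + 1) * (4 * (δ * n) +
          C * (exp (c * k * Λ) * (c * M)) ^ 2 * (T + 1)) + exp (-(Λ ^ 2 / c)) * (A0 ^ 2 * n)) := by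
  obtain ⟨cp, hP⟩ := hP
  obtain ⟨Cd, d1, hD⟩ := hD
  obtain ⟨C, C1, hN⟩ := near hT K
  refine ⟨max cp Cd, d1.trans (le_max_right _ _), C, C1,
    fun c hc n J Q y0 y Λ M e η δ A0 ε T k l E a hJ hΛ hM tg hA hy hl => ?_⟩
  have c1 : Cd ≤ c := (le_max_right _ _).trans hc
  have c0 : 0 ≤ c := by linarith
  have m0 : 0 ≤ Cd * M := by positivity
  have m1 : Cd * M ≤ c * M := mul_le_mul_of_nonneg_right c1 hM
  have m2 : 0 ≤ c * M := by positivity
  obtain ⟨r1, -, -, -, -, r6, r7, r8⟩ := hD n J Q E M hJ hM tg.blo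
  have rf := rf_mono r1 m1
  have pr := fun j => hP c ((le_max_left _ _).trans hc) n J Q Λ (c * M) (dirS Q E) j hJ hΛ m2 rf
  obtain ⟨X', b1, b2⟩ := (pr l).2.2.2 y (lin a) (fun s => nrm (a - dirS Q E s y) ^ 2) (|A0| * √n)
    ⟨fun s => by rw [grad_lin]; exact na tg.na, fun s => by rw [grad_lin], rf.r0 y, fun s =>
      ⟨((r6 a).sb y s).1, ((r6 a).sb y s).2.trans (mul_le_mul_of_nonneg_right
        (pow_le_pow_left₀ m0 m1 2) (sq_nonneg _))⟩⟩
  refine ⟨X', b1, b2.trans (mul_le_mul_of_nonneg_left ?_ (by positivity))⟩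
  have T0 : 0 ≤ T + 1 := by linarith [sq_nonneg (nrm (y - y0))]
  have key : ∀ (X : F2 n) (e' : ℝ), 0 ≤ e' → e' ≤ exp (c * k * Λ) * (c * M) → RE e' X →
      (mean (ising J y0) fun s => X s y0) ≤ δ * n → (mean (ising J y) fun s => X s y) ≤
      4 * (δ * n) + C * (exp (c * k * Λ) * (c * M)) ^ 2 * (T + 1) := fun X e' h0 h1 h2 h3 =>
    (hN n J y0 y X e' ε T hA h2 hy).trans (by gcongr)
  have h1 : (mean (ising J y) fun s => nrm (a - dirS Q E s y) ^ 2) ≤ _ :=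
    ((wt_is J y).mean_mono fun s => (r8 a y).1 s).trans (key _ _ m0 (m1.trans
      (le_mul_of_one_le_left m2 (one_le_exp (by positivity)))) (r7 a) tg.dv)
  have h2 := sum_le_card_nsmul (range l) _ _ fun j hj => key _ _ (by positivity)
    (mul_le_mul_of_nonneg_right (exp_le_exp.2 (by
      have : (j : ℝ) + 1 ≤ k := by exact_mod_cast (mem_range.1 hj).trans_le hl
      gcongr)) m2) (pr j).2.2.1 (tg.xs j ((mem_range.1 hj).trans_le hl))
  rw [card_range, nsmul_eq_mul] at h2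
  rw [sq_A]
  linarith

theorem ex_k {γ : ℝ} (h0 : 0 < γ) (h1 : γ < 1) (A : ℝ) {b : ℝ} (hb : 0 < b) :
    ∃ k0 : ℕ, ∀ k ≥ k0, A * (1 - γ) ^ k ≤ b := by
  have h := (tendsto_pow_atTop_nhds_zero_of_lt_one (show 0 ≤ 1 - γ by linarith)
    (show 1 - γ < 1 by linarith)).const_mul A
  rw [mul_zero] at h
  exact eventually_atTop.1 (h.eventually (ge_mem_nhds hb))

theorem ex_L {c : ℝ} (hc : 0 < c) (A : ℝ) {b : ℝ} (hb : 0 < b) :
    ∃ Λ0 : ℝ, ∀ Λ ≥ Λ0, 1 ≤ Λ ∧ A * exp (-(Λ ^ 2 / c)) ≤ b := by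
  have h := (tendsto_exp_neg_atTop_nhds_zero.comp
    ((tendsto_pow_atTop two_ne_zero).atTop_div_const hc)).const_mul A
  rw [mul_zero] at h
  exact eventually_atTop.1 ((eventually_ge_atTop 1).and (h.eventually (ge_mem_nhds hb)))

end CT14

open CT14 in
/-- **the tail certificate** -/
theorem certTGlue : CertTGlue := by
  intro hR hG hP hD hT hTr K
  obtain ⟨c0, c1, Cn, n1, hp⟩ := prog_y hP hD hT K
  obtain ⟨γ, Cg, g0, g1, g2, hG⟩ := hG K
  obtain ⟨C, C1, hTr⟩ := hTr K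
  refine ⟨c0, fun c hc A0 lam l0 => ?_⟩
  have c2 : 1 ≤ c := c1.trans hc
  obtain ⟨b, b0, hb⟩ : ∃ b > (0 : ℝ), C * (5 * b) = lam / 4 :=
    ⟨lam / (20 * C), by positivity, by field_simp; norm_num⟩
  obtain ⟨k0, hk0⟩ := ex_k g0 g1 (Cg * A0 ^ 2) b0
  refine ⟨k0, fun k hk => ?_⟩
  have ck : 1 ≤ c ^ k := one_le_pow₀ c2
  obtain ⟨Λ0, hΛ0⟩ := ex_L (show 0 < c by linarith) (c ^ k * A0 ^ 2) b0
  refine ⟨b / (c ^ k * (k + 1) * 4), by positivity, Λ0, fun Λ hΛ M e η hM _ => ?_⟩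
  obtain ⟨Λ1, hΛ1⟩ := hΛ0 Λ hΛ
  obtain ⟨ek, hek⟩ : ∃ ek, ek = exp (c * k * Λ) * (c * M) := ⟨_, rfl⟩
  have e0 : 0 ≤ ek := by rw [hek]; positivity
  obtain ⟨Z, Z1, Z2, Z3⟩ : ∃ Z : ℝ, 1 ≤ Z ∧ ek ≤ Z ∧ c ^ k * |A0| ≤ Z :=
    ⟨1 + ek + c ^ k * |A0|, by linarith [mul_nonneg (zero_le_one.trans ck) (abs_nonneg A0)],
      by linarith [mul_nonneg (zero_le_one.trans ck) (abs_nonneg A0)], by linarith⟩
  obtain ⟨G, hGd⟩ : ∃ G, G = c ^ k * (k + 1) * Cn * ek ^ 2 := ⟨_, rfl⟩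
  have G0 : 0 ≤ G := by rw [hGd]; positivity
  have t0 : 0 < (C * Z)⁻¹ := by positivity
  refine ⟨min (b / (G + 1)) (lam * (C * Z)⁻¹ ^ 2 / 8), by positivity, ?_⟩
  filter_upwards [tendsto_natCast_atTop_atTop.eventually_ge_atTop
    ((Cg * A0 ^ 2 + G + 2 * Z ^ 2) / b), tendsto_natCast_atTop_atTop.eventually_ge_atTop
    (8 / (lam * (C * Z)⁻¹ ^ 2)), eventually_gt_atTop 0] with n n2 n3 n4
  intro J Q y0 y E a δ T hJ hδ tg hA0 hA hy hT v hv hk1
  have n0 : (0 : ℝ) < n := by exact_mod_cast n4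
  obtain ⟨X', b1, b2⟩ := hp c hc n J Q y0 y Λ M e η δ A0 _ T k k E a hJ Λ1 hM tg hA0 hy le_rfl
  rw [← hek] at b1 b2
  have a2 : nrm a ^ 2 ≤ A0 ^ 2 * n := sq_A A0 n ▸ pow_le_pow_left₀ (nrm_nonneg a) (na tg.na) 2
  obtain ⟨-, -, u3, -⟩ := hG n J Q y (1 / n) (A0 ^ 2 * n) (lin a) k hJ hA fun s => by
    rw [grad_lin]; exact a2
  have u4 : (mean (ising J y) fun s => nrm (grad (lin a) s) ^ 2) ≤ A0 ^ 2 * n := by
    simp only [grad_lin]; rw [(wt_is J y).mean_const]; exact a2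
  have t1 : T ≤ b / (G + 1) * n := hT.trans (mul_le_mul_of_nonneg_right (min_le_left _ _) n0.le)
  have t2 : T ≤ lam * (C * Z)⁻¹ ^ 2 / 8 * n :=
    hT.trans (mul_le_mul_of_nonneg_right (min_le_right _ _) n0.le)
  have s1 : (mean (ising J y) fun s => nrm (grad ((Ky Q y)^[k] (lin a)) s) ^ 2) ≤
      b * n + Cg * A0 ^ 2 := by
    refine u3.trans (add_le_add ?_ (le_of_eq (by field_simp)))
    have p0 : 0 ≤ Cg * (1 - γ) ^ k := mul_nonneg (by linarith) (pow_nonneg (by linarith) k)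
    linarith [mul_le_mul_of_nonneg_left u4 p0, mul_le_mul_of_nonneg_right (hk0 k hk) n0.le]
  have s2 : mean (ising J y) X' ≤ 3 * (b * n) + G := by
    rw [le_div_iff₀ (by positivity)] at hδ
    have q1 : G * T ≤ b * n := by
      rw [div_mul_eq_mul_div, le_div_iff₀ (by positivity)] at t1
      linarith [sq_nonneg (nrm (y - y0))]
    refine b2.trans ?_
    rw [hGd] at q1 ⊢
    linarith [mul_le_mul_of_nonneg_right hδ n0.le, mul_le_mul_of_nonneg_right hΛ1 n0.le]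
  have s3 : 1 / n * (c ^ k * (|A0| * √n)) ^ 2 ≤ Z ^ 2 := by
    rw [← mul_assoc (c ^ k), mul_pow, sq_sqrt n0.le, one_div, mul_comm, mul_inv_cancel_right₀ n0.ne']
    exact pow_le_pow_left₀ (by positivity) Z3 2
  have s4 := pow_le_pow_left₀ e0 Z2 2
  rw [div_le_iff₀ b0] at n2
  rw [div_le_iff₀ (by positivity)] at n3
  rw [← inv_it hR hJ y (lin a) k]
  refine (opt (B := lam * n / 4) (kl_nn J y hv) t0 (by linarith) fun θ θ0 θ1 => ?_).trans_eq
    (by ring)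
  have z1 : C * θ * Z ≤ 1 := by
    rw [← one_div, le_div_iff₀ (by positivity)] at θ1
    linarith
  have Cθ : 0 ≤ C * θ := by positivity
  refine (hTr n _ v _ X' _ ek _ _ θ J y hJ.symm hJ.diag hJ.op rfl hA hv b1 θ0
    ((mul_le_mul_of_nonneg_left Z2 Cθ).trans z1) ?_).trans (add_le_add le_rfl ?_)
  · rw [← mul_assoc (c ^ k), ← mul_assoc]
    exact mul_le_of_le_one_left (sqrt_nonneg _) ((mul_le_mul_of_nonneg_left Z3 Cθ).trans z1)
  · calc _ ≤ C * θ * (5 * b * n) := mul_le_mul_of_nonneg_left (by linarith) Cθ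
      _ = θ * (C * (5 * b) * n) := by ring
      _ = _ := by rw [hb]; ring

end Crest.Agent.T157.Md

end
end

-- ▼ part T157/KMdC_11
section

/-!
# Row 157, block S5 (helper11): the certificate of the program at the running field
-/

set_option autoImplicit false

noncomputable section

namespace Crest.Agent.T157.Md

open Real Matrix Finset Filter
open Crest.Agent.T157.E Crest.Agent.T157.Eig Crest.Agent.T157.K
open Crest.Agent.T157.Tap (V Mx)
open Crest.Agent.T157.Rec (grad)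
open Crest.Agent.T157.S3.Hb (Vp)

namespace Cb11

variable {n : ℕ}

theorem nrm_sum (k : ℕ) (u : ℕ → V n) : nrm (∑ l ∈ range k, u l) ≤ ∑ l ∈ range k, nrm (u l) :=
  le_sum_of_subadditive nrm nrm_zero.le nrm_add_le _ u

theorem sq_sum (k : ℕ) (a : ℕ → ℝ) : (∑ l ∈ range k, a l) ^ 2 ≤ k * ∑ l ∈ range k, a l ^ 2 := by
  simpa using sq_sum_le_card_mul_sum_sq (s := range k) (f := a)

theorem vp_sum (k : ℕ) (X : ℕ → Cube n → ℝ) (s : Cube n) :
    Vp (fun s => ∑ l ∈ range k, X l s) s ≤ k * ∑ l ∈ range k, Vp (X l) s := by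
  simp only [Vp]
  rw [sum_comm, mul_sum]
  refine sum_le_sum fun j _ => le_trans (S3.Hb.max_sq_le ?_) (sq_sum k _)
  rw [← sum_sub_distrib]
  exact sum_le_sum fun l _ => le_max_left _ _

/-- certificates of finite sums -/
theorem bs0_sum {k : ℕ} {F X : ℕ → Cube n → ℝ} {ω : ℕ → Cube n → V n} {e e' L : ℝ}
    (h : ∀ l < k, BS0 (F l) (ω l) (X l) e L) (hr : R0 e' fun s => ∑ l ∈ range k, ω l s)
    (h0 : 0 ≤ e) (he : k * e ≤ e') : BS0 (∑ l ∈ range k, F l) (fun s => ∑ l ∈ range k, ω l s)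
      (fun s => k * ∑ l ∈ range k, X l s) e' (k * L) := by
  have g : ∀ s, grad (∑ l ∈ range k, F l) s = ∑ l ∈ range k, grad (F l) s := fun s => by
    ext i
    simp only [grad, SL.incr, Finset.sum_apply, ← sum_sub_distrib, sum_div]
  have k0 : (0 : ℝ) ≤ k := k.cast_nonneg
  refine ⟨fun s => ?_, fun s => ?_, hr, Pg11.sb_mono (e := k * e) (fun s => ⟨mul_nonneg k0
    (sum_nonneg fun l hl => ((h l (mem_range.1 hl)).sb s).1), ?_⟩) (mul_nonneg k0 h0) he⟩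
  · rw [g]
    exact (nrm_sum _ _).trans ((sum_le_card_nsmul _ _ L fun l hl =>
      (h l (mem_range.1 hl)).gr s).trans_eq (by simp))
  · rw [g, ← sum_sub_distrib]
    exact (pow_le_pow_left₀ (nrm_nonneg _) (nrm_sum _ _) 2).trans ((sq_sum _ _).trans
      (mul_le_mul_of_nonneg_left (sum_le_sum fun l hl => (h l (mem_range.1 hl)).app s) k0))
  · rw [S3.Hb.Vp_const_mul k0]
    refine (mul_le_mul_of_nonneg_left ((vp_sum k X s).trans (mul_le_mul_of_nonneg_left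
      (sum_le_sum fun l hl => ((h l (mem_range.1 hl)).sb s).2) k0)) (sq_nonneg _)).trans_eq ?_
    rw [← mul_sum]; ring

end Cb11

open Cb11 in
theorem certBGlue : CertBGlue := fun _ ⟨c1, hP⟩ ⟨Cd, d1, hD⟩ hT ⟨c2, hG⟩ K => by
  obtain ⟨C, hC, hn⟩ := near hT K
  refine ⟨max (max c1 c2) Cd, fun c hc A0 lam hl => ⟨0, fun k _ => ?_⟩⟩
  have cd : Cd ≤ c := (le_max_right _ _).trans hc
  have c0 : 1 ≤ c := d1.le.trans cd
  have k0 : (0 : ℝ) ≤ k := k.cast_nonneg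
  have ck : 1 ≤ c ^ k := one_le_pow₀ c0
  obtain ⟨b, b0, hb⟩ : ∃ b > (0 : ℝ), (k + 1) * ((k + 1) * (c ^ k * ((k + 2) * b))) = lam :=
    ⟨lam / ((k + 1) * ((k + 1) * (c ^ k * (k + 2)))), by positivity, by field_simp⟩
  refine ⟨b / 8, by positivity, max 1 (c * A0 ^ 2 / b), fun Λ hΛ M e η hM hη => ?_⟩
  have Λ1 : 1 ≤ Λ := (le_max_left _ _).trans hΛ
  set x := exp (c * (k + 1) * Λ) * (c * M) with hx
  have cM : 0 ≤ c * M := by positivity
  have xl : ∀ l : ℝ, 0 ≤ l → l ≤ k + 1 → c * M ≤ exp (c * l * Λ) * (c * M) ∧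
      exp (c * l * Λ) * (c * M) ≤ x := fun l l0 hl =>
    ⟨le_mul_of_one_le_left cM (one_le_exp (by positivity)), by rw [hx]; gcongr⟩
  have x0 : 0 ≤ x := by positivity
  set Z := 6 * eR c Λ M k with hZ
  have xZ : x ≤ Z := by
    rw [hZ, eR, ← hx]
    nlinarith [mul_le_mul_of_nonneg_right c0 (mul_nonneg k0 x0), mul_le_mul_of_nonneg_right c0 x0,
      mul_nonneg k0 x0]
  have Z0 : 0 < C * Z ^ 2 + 1 := by positivity
  refine ⟨b / 4 / (C * Z ^ 2 + 1), by positivity, ?_⟩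
  filter_upwards [tendsto_natCast_atTop_atTop.eventually_ge_atTop (4 * (C * Z ^ 2) / b)]
    with n hN J Q y0 y E a δ T hJ hδ t hA _ hy hT'
  have n0 : (0 : ℝ) ≤ n := n.cast_nonneg
  have nr : ∀ (X : F2 n) (z : ℝ), 0 ≤ z → z ≤ Z → RE z X →
      (mean (ising J y0) fun s => X s y0) ≤ δ * n → (mean (ising J y) fun s => X s y) ≤ b * n :=
    fun X z z0 hz hX h0 => by
      have h1 := hn n J y0 y X Z _ T hA (Pg11.re_mono hX z0 hz) hy
      have h2 := mul_le_mul_of_nonneg_left hT' Z0.le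
      rw [← mul_assoc, mul_div_cancel₀ _ Z0.ne'] at h2
      rw [div_le_iff₀ b0] at hN
      nlinarith [mul_le_mul_of_nonneg_right hδ n0, (sq_nonneg _).trans hy]
  obtain ⟨D1, -, -, -, -, D6, D7, D8⟩ := hD n J Q E M hJ hM t.blo
  have dM : Cd * M ≤ c * M := mul_le_mul_of_nonneg_right cd hM
  have d0 : 0 ≤ Cd * M := by positivity
  have P := fun l => hP c (((le_max_left _ _).trans (le_max_left _ _)).trans hc) n J Q Λ (c * M) _ l
    hJ Λ1 cM (Pg11.rf_mono D1 dM)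
  have w := wt_is J y
  have B0 : BS0 (lin a) (fun s => dirS Q E s y) (fun s => nrm (a - dirS Q E s y) ^ 2) (c * M)
      (|A0| * √n) := by
    have g : ∀ s, grad (lin a) s = a := Rec.grad_lin a
    exact ⟨fun s => (g s).symm ▸ t.na.trans (mul_le_mul_of_nonneg_right (le_abs_self _)
      (sqrt_nonneg _)), fun s => by rw [g], Pg11.r0_mono (D1.r0 y) dM,
      Pg11.sb_mono ((D6 a).sb y) d0 dM⟩
  choose X hX mX using fun l => (P l).2.2.2 y _ _ _ B0
  have rf : RF (eO c Λ M k) (Om Q c Λ M k E) := by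
    refine Pg11.rf_mono (Rl58.RF.sum (c := fun _ => x) _ fun l hl => Pg11.rf_mono (P l).1
      (xl l l.cast_nonneg ?_).2) ?_
    · linarith [(Nat.cast_le (α := ℝ)).2 (mem_range.1 hl).le]
    · simp only [sum_const, card_range, nsmul_eq_mul, eO, ← hx]; linarith
  have bl : b ≤ lam := by
    rw [← hb]
    have h1 : b ≤ (k + 2) * b := le_mul_of_one_le_left b0.le (by linarith)
    have h2 := h1.trans (le_mul_of_one_le_left (b0.le.trans h1) ck)
    have h3 := h2.trans (le_mul_of_one_le_left (b0.le.trans h2) (show 1 ≤ (k : ℝ) + 1 by linarith))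
    exact h3.trans (le_mul_of_one_le_left (b0.le.trans h3) (by linarith))
  refine ⟨⟨_, _, by
    have := bs0_sum (e := x) (L := c ^ k * (|A0| * √n)) (fun l hl => Pg11.bs0_mono (hX l)
      (by positivity) (xl l l.cast_nonneg (by linarith [(Nat.cast_le (α := ℝ)).2 hl.le])).2
      (mul_le_mul_of_nonneg_right (pow_le_pow_right₀ c0 hl.le) (by positivity)))
      (by simpa only [Om, Finset.sum_apply] using rf.r0 y) x0
      (show k * x ≤ eO c Λ M k by rw [eO, ← hx]; linarith)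
    simpa only [Om, Finset.sum_apply, Ks] using this, ?_⟩, rf,
    (nr _ _ (x0.trans xZ) le_rfl ((hG c (((le_max_right _ _).trans (le_max_left _ _)).trans hc) n J Q
      Λ M k E hJ Λ1 hM t.blo).2.2 η hη) t.jx).trans (mul_le_mul_of_nonneg_right bl n0)⟩
  have m0 : (mean (ising J y) fun s => nrm (a - dirS Q E s y) ^ 2) ≤ b * n :=
    (w.mean_mono fun s => (D8 a y).1 s).trans
      (nr _ _ d0 ((dM.trans ((xl 0 le_rfl (by linarith)).1.trans (xl 0 le_rfl (by linarith)).2)).trans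
        xZ) (D7 a) t.dv)
  have m1 : exp (-(Λ ^ 2 / c)) * (|A0| * √n) ^ 2 ≤ b * n := by
    rw [mul_pow, sq_abs, sq_sqrt n0, ← mul_assoc]
    refine mul_le_mul_of_nonneg_right ?_ n0
    have h1 := (div_le_iff₀ b0).1 ((le_max_right _ _).trans hΛ)
    have h2 : A0 ^ 2 ≤ Λ ^ 2 / c * b := by
      rw [div_mul_eq_mul_div, le_div_iff₀ (by linarith)]
      nlinarith [mul_le_mul_of_nonneg_left Λ1 (mul_nonneg (zero_le_one.trans Λ1) b0.le)]
    rw [exp_neg, inv_mul_le_iff₀ (exp_pos _)]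
    nlinarith [add_one_le_exp (Λ ^ 2 / c)]
  have m2 : ∀ l ∈ range k, mean (ising J y) (X l) ≤ c ^ k * ((k + 2) * b) * n := fun l hl => by
    have lk := (mem_range.1 hl).le
    have h1 := sum_le_card_nsmul (range l) _ (b * n) fun j hj => nr _ _ (by positivity)
      ((xl (j + 1) (by positivity) (by
        linarith [(Nat.cast_le (α := ℝ)).2 ((mem_range.1 hj).le.trans lk)])).2.trans xZ)
      (P j).2.2.1 (t.xs j ((mem_range.1 hj).trans_le lk))
    rw [card_range, nsmul_eq_mul] at h1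
    have h2 := mul_le_mul_of_nonneg_right ((Nat.cast_le (α := ℝ)).2 lk) (mul_nonneg b0.le n0)
    calc _ ≤ c ^ l * ((k + 2) * b * n) :=
          (mX l).trans (mul_le_mul_of_nonneg_left (by linarith) (by positivity))
      _ ≤ c ^ k * ((k + 2) * b * n) :=
          mul_le_mul_of_nonneg_right (pow_le_pow_right₀ c0 lk) (by positivity)
      _ = _ := by ring
  rw [SL.mean_const_mul, SL.mean_sum, ← hb]
  refine (mul_le_mul_of_nonneg_left (sum_le_card_nsmul _ _ _ m2) k0).trans ?_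
  rw [card_range, nsmul_eq_mul, mul_assoc ((k : ℝ) + 1), mul_assoc ((k : ℝ) + 1)]
  gcongr <;> linarith

end Crest.Agent.T157.Md

end
end

-- ▼ part T157/KMdF_89
section

/-!
# Row 157, block S5 (helper89): the first-order identity for one target
-/

set_option autoImplicit false

noncomputable section

namespace Crest.Agent.T157.Md

open MeasureTheory Real Matrix Finset Filter
open Crest.Agent.T157.E Crest.Agent.T157.Eig Crest.Agent.T157.K
open Crest.Agent.T157.Tap (V Mx)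
open Crest.Agent.T157.Rec (grad)
open Crest.Agent.T157.SL (Wt)
open Crest.Agent.T157.S1 (Dat St Cl Del del nu pi U)

namespace F89

variable {n : ℕ}

/-- the exponent of `π` -/
def Gp (D : Dat n) (s : St n) (σ : Cube n) : ℝ := (del s ⬝ᵥ sv σ + s.Th σ) - U D s σ

theorem pi_eq (D : Dat n) (s : St n) : pi D s = slc D.J s.y s.S s.sS (Gp D s) := by
  funext σ
  simp only [S1.pi, Ta.wt, S1.loc, S1.ell, slc, Gp]
  split_ifs
  · rw [mul_assoc, ← exp_add]; congr 2; ring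
  · simp

theorem grad_Gp (D : Dat n) (s : St n) (σ : Cube n) :
    grad (Gp D s) σ = del s + grad s.Th σ - grad (U D s) σ := by
  rw [← S1.Pin33.grad_tilt]; exact Rec.grad_sub _ _ σ

theorem tel (hR : RevStmt) {J Q : Mx n} (h : JQ J Q) (y : V n) (k : ℕ) (G : Cube n → ℝ) :
    Ks Q y k G - Ky Q y (Ks Q y k G) = fun s => G s - (Ky Q y)^[k] G s := by
  induction k with
  | zero =>
    funext s
    have := congrFun (Kc.Kf_sub (φ := fun x => Q *ᵥ sv x) (t := 1) (wt_is J y) G G) s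
    simp only [sub_self] at this
    simp only [Ks, range_zero, sum_empty, Function.iterate_zero, id, sub_self, Pi.sub_apply,
      Pi.zero_apply, hR.kf n J Q y h]
    rw [zero_sub, neg_eq_zero]; exact this
  | succ k ih =>
    funext s
    have e : Ks Q y (k + 1) G = fun x => Ks Q y k G x + (Ky Q y)^[k] G x := by
      funext x; simp only [Ks, sum_range_succ, Pi.add_apply]
    have i := congrFun ih s
    have a := congrFun (Kc.Kf_add (φ := fun x => Q *ᵥ sv x) (t := 1) (wt_is J y) (Ks Q y k G)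
      ((Ky Q y)^[k] G)) s
    rw [← hR.kf n J Q y h] at a
    rw [Function.iterate_succ_apply', Pi.sub_apply, e, a]
    rw [Pi.sub_apply] at i
    linarith

theorem del_eq (D : Dat n) (s : St n) (a : V n) :
    a ⬝ᵥ Del D s = mean (nu D s) (lin a) - mean (pi D s) (lin a) := by
  have : ∀ v : Cube n → ℝ, mean v (lin a) = a ⬝ᵥ mag v := fun v => by
    unfold lin
    simp only [dotProduct, SL.mean_sum, SL.mean_const_mul]; rfl
  rw [this, this, ← dotProduct_sub]; rfl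

theorem arith {A1 A2 A3 C e d x P β m : ℝ} {n0 : 0 ≤ m} (P1 : 1 ≤ P) (β1 : 1 ≤ β) (d0 : 0 ≤ d)
    (x0 : 0 ≤ x) (d1 : d ≤ 601 * P ^ 2 * β) (x1 : x ≤ m + e ^ 2 * β) (a1 : A1 ^ 2 ≤ m * β)
    (a2 : A2 ^ 2 ≤ m * β) (a3 : |A3| ≤ C * (e * d + √d * √x)) :
    (A1 + A2 + A3) ^ 2 ≤ (6 + 6 * C ^ 2 * (601 ^ 2 + 601)) * P ^ 4 * β * (m + e ^ 2 * β) := by
  set Y := m + e ^ 2 * β with hY
  have Y0 : m ≤ Y := le_add_of_nonneg_right (by positivity)
  have Y1 : e ^ 2 * β ≤ Y := le_add_of_nonneg_left n0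
  have p2 : 1 ≤ P ^ 2 := one_le_pow₀ P1
  have p4 : P ^ 2 ≤ P ^ 4 := pow_le_pow_right₀ P1 (by norm_num)
  set Z := P ^ 4 * β * Y with hZ
  have z0 : m * β ≤ Z := by
    rw [hZ, mul_assoc, mul_comm m]
    exact (mul_le_mul_of_nonneg_left Y0 (by linarith)).trans
      (le_mul_of_one_le_left (by nlinarith) (p2.trans p4))
  have z1 := a1.trans z0
  have z2 := a2.trans z0
  have z3 : A3 ^ 2 ≤ C ^ 2 * (2 * ((601 ^ 2 + 601) * Z)) := by
    have h1 : A3 ^ 2 ≤ (C * (e * d + √d * √x)) ^ 2 := by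
      rw [← sq_abs A3]; exact pow_le_pow_left₀ (abs_nonneg _) a3 2
    have h2 : (√d * √x) ^ 2 = d * x := by rw [mul_pow, sq_sqrt d0, sq_sqrt x0]
    have h3 : d * x ≤ 601 * Z := by
      calc d * x ≤ 601 * P ^ 4 * β * Y := mul_le_mul (d1.trans (by gcongr)) x1 x0 (by positivity)
        _ = _ := by rw [hZ]; ring
    have h4 : (e * d) ^ 2 ≤ 601 ^ 2 * Z := by
      calc (e * d) ^ 2 = e ^ 2 * d ^ 2 := mul_pow _ _ _
        _ ≤ e ^ 2 * (601 * P ^ 2 * β) ^ 2 := by gcongr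
        _ = 601 ^ 2 * (P ^ 4 * β * (e ^ 2 * β)) := by ring
        _ ≤ _ := by rw [hZ]; gcongr
    have h5 : (e * d + √d * √x) ^ 2 ≤ 2 * ((601 ^ 2 + 601) * Z) := by
      nlinarith [sq_nonneg (e * d - √d * √x)]
    rw [mul_pow] at h1
    exact h1.trans (mul_le_mul_of_nonneg_left h5 (sq_nonneg C))
  rw [mul_assoc, mul_assoc, ← mul_assoc (P ^ 4), ← hZ]
  nlinarith [sq_nonneg (A1 - A2), sq_nonneg (A1 - A3), sq_nonneg (A2 - A3)]

end F89

open F89 in
theorem foTGlue : FoTGlue := by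
  intro hR hF K
  obtain ⟨C, C1, hC⟩ := hF K
  refine ⟨6 + 6 * C ^ 2 * (601 ^ 2 + 601), by nlinarith [sq_nonneg C], ?_⟩
  intro n D s Q ε ec lam T e η β k ψ Ω a g hD hJ hc hA hB hT l0 cz ct cb hg
  obtain ⟨X, L, hb, hX⟩ := cb.bs
  have wn := (S1.W6.pr_pi s hD).hv
  have wp := (S1.W6.pr_pi s hD).hw
  have kn := kl_nn D.J s.y wn
  have kp := kl_nn D.J s.y wp
  have b1 := hB.kn
  have b2 := hB.kp
  have a1 := cz _ wn (by linarith)
  have a2 := ct _ wp (by linarith)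
  have a3 := hC n D.J Q s.y _ X (Gp D s) Ω e L ε s.S s.sS _ _ _ hJ hA hb (pi_eq D s) rfl rfl
  set d := (mean (pi D s) fun σ => ∑ j ∈ s.Sᶜ, grad (Gp D s) σ j ^ 2) + #s.S with hd
  set x := mean (ising D.J s.y) X + e ^ 2 * (kl (pi D s) (ising D.J s.y) + 1) with hx
  have P1 := hD.P1
  have β1 : 1 ≤ β := by linarith
  have n0 : (0 : ℝ) ≤ lam * n := by positivity
  have x0 : 0 ≤ x := add_nonneg ((wt_is _ _).mean_nonneg fun σ => (hb.sb σ).1) (by positivity)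
  have x1 : x ≤ lam * n + e ^ 2 * β := add_le_add hX (by gcongr)
  have d0 : 0 ≤ d := add_nonneg (wp.mean_nonneg fun σ => sum_nonneg fun _ _ => sq_nonneg _) (by positivity)
  have d1 : d ≤ 601 * D.P ^ 2 * β := by
    have h1 : (mean (pi D s) fun σ => ∑ j ∈ s.Sᶜ, grad (Gp D s) σ j ^ 2) ≤
        mean (pi D s) fun σ => 108 * D.P * U D s σ + (6 * β + 486 * D.P ^ 2 * β) := by
      refine wp.mean_mono fun σ => ?_
      have u1 := S1.Pin33.sum_grad_U_le (s := s) hD σ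
      have u2 : ∑ j, grad s.Th σ j ^ 2 ≤ β := by
        have := pow_le_pow_left₀ (nrm_nonneg _) (hc.gr σ) 2
        rw [nrm_sq] at this
        simpa only [dotProduct, ← sq] using this.trans hB.ll
      have u3 : ∑ j, del s j ^ 2 ≤ β := by simpa only [dotProduct, ← sq] using hB.dl
      have u4 := mul_le_mul_of_nonneg_left hB.ss (by positivity : 0 ≤ 162 * D.P ^ 2)
      calc _ ≤ ∑ j, grad (Gp D s) σ j ^ 2 :=
            sum_le_sum_of_subset_of_nonneg (subset_univ _) fun _ _ _ => sq_nonneg _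
        _ ≤ ∑ j, (3 * del s j ^ 2 + 3 * grad s.Th σ j ^ 2 + 3 * grad (U D s) σ j ^ 2) := by
            refine sum_le_sum fun j _ => ?_
            rw [grad_Gp, Pi.sub_apply, Pi.add_apply]
            nlinarith [sq_nonneg (del s j - grad s.Th σ j), sq_nonneg (del s j + grad (U D s) σ j),
              sq_nonneg (grad s.Th σ j + grad (U D s) σ j)]
        _ ≤ _ := by
            rw [sum_add_distrib, sum_add_distrib, ← mul_sum, ← mul_sum, ← mul_sum]
            linarith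
    rw [SL.mean_add, SL.mean_const_mul, wp.mean_const] at h1
    have h2 := mul_le_mul_of_nonneg_left hB.up (by positivity : 0 ≤ 108 * D.P)
    have h3 := hB.ss
    have h4 : D.P * β ≤ D.P ^ 2 * β := by gcongr; nlinarith
    have h5 : β ≤ D.P ^ 2 * β := by nlinarith
    have h6 : mean (pi D s) (fun σ => U D s σ) = mean (pi D s) (U D s) := rfl
    linarith
  have e1 : (mean (pi D s) fun σ => ∑ j ∈ s.Sᶜ, grad (Gp D s) σ j * gt Q Ω σ s.y j) =
      pr D s (fun _ => del s) g + pr D s (grad s.Th) g - pr D s (grad (U D s)) g := by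
    subst hg
    simp only [pr, grad_Gp, Pi.sub_apply, Pi.add_apply, sub_mul, add_mul, sum_sub_distrib,
      sum_add_distrib, SL.mean_sub, SL.mean_add]
  rw [tel hR hJ, SL.mean_sub, e1] at a3
  rw [del_eq]
  refine le_of_eq_of_le ?_ (arith (n0 := n0) P1 β1 d0 x0 d1 x1
    (a1.trans (mul_le_mul_of_nonneg_left b1 n0)) (a2.trans (mul_le_mul_of_nonneg_left b2 n0)) a3)
  ring

end Crest.Agent.T157.Md

end
end

-- ▼ part T157/KMdG_52
section

/-!
# Row 157, block S5 (helper52): the size of a combination of response fields, `Md.gsTGlue`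
-/

set_option autoImplicit false

noncomputable section

namespace Crest.Agent.T157.Md

open MeasureTheory Real Matrix Finset Filter
open Crest.Agent.T157.E Crest.Agent.T157.Eig Crest.Agent.T157.K
open Crest.Agent.T157.Tap (V Mx)
open Crest.Agent.T157.Rec (grad)
open Crest.Agent.T157.SL (Wt)
open Crest.Agent.T157.S3.Hd (AD)

namespace Gs52

variable {n : ℕ} {ι : Type} [Fintype ι]

theorem Ks_lin (hR : RevStmt) {J Q : Mx n} (h : JQ J Q) (y : V n) (k : ℕ) (κ : ι → ℝ)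
    (F : ι → Cube n → ℝ) :
    Ks Q y k (fun x => ∑ b, κ b * F b x) = fun x => ∑ b, κ b * Ks Q y k (F b) x := by
  have it : ∀ l, (Ky Q y)^[l] (fun x => ∑ b, κ b * F b x) =
      fun x => ∑ b, κ b * (Ky Q y)^[l] (F b) x := by
    intro l
    induction l with
    | zero => rfl
    | succ l ih =>
      simp only [Function.iterate_succ_apply', ih]
      rw [hR.kf n J Q y h, Kc.Kf_sum (wt_is J y)]
      simp only [Kc.Kf_const_mul]
  ext x
  simp only [Ks, Finset.sum_apply, it, mul_sum]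
  exact sum_comm

theorem grad_comb (κ : ι → ℝ) (F : ι → Cube n → ℝ) (s : Cube n) :
    grad (fun x => ∑ b, κ b * F b x) s = ∑ b, κ b • grad (F b) s := by
  ext j
  simp only [Rec.grad_eq, Finset.sum_apply, Pi.smul_apply, smul_eq_mul, ← sum_sub_distrib, mul_sum,
    sum_div]
  exact sum_congr rfl fun b _ => by ring

theorem cs (κ : ι → ℝ) (d : ι → V n) (S : Finset (Fin n)) {R : ℝ} (h : ∑ b, κ b ^ 2 ≤ R ^ 2) :
    ∑ i ∈ S, (∑ b, κ b • d b) i ^ 2 ≤ R ^ 2 * ∑ b, ∑ i ∈ S, d b i ^ 2 := by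
  rw [sum_comm, mul_sum]
  refine sum_le_sum fun i _ => ?_
  simp only [Finset.sum_apply, Pi.smul_apply, smul_eq_mul]
  exact (sum_mul_sq_le_sq_mul_sq _ _ _).trans
    (mul_le_mul_of_nonneg_right h (sum_nonneg fun _ _ => sq_nonneg _))

theorem sq_exc {η : ℝ} (v : V n) (S : Finset (Fin n)) :
    ∑ i ∈ S, v i ^ 2 ≤ 2 * (η ^ 2 * #S) + 2 * exc η v := by
  have h1 : ∑ i ∈ S, max (|v i| - η) 0 ^ 2 ≤ exc η v :=
    sum_le_sum_of_subset_of_nonneg (subset_univ S) fun _ _ _ => sq_nonneg _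
  have h2 : ∑ i ∈ S, v i ^ 2 ≤ ∑ i ∈ S, (2 * η ^ 2 + 2 * max (|v i| - η) 0 ^ 2) :=
    sum_le_sum fun i _ => by
      have a := le_max_left (|v i| - η) 0
      have b := pow_le_pow_left₀ (abs_nonneg (v i)) (show |v i| ≤ η + max (|v i| - η) 0 by linarith) 2
      rw [sq_abs] at b
      nlinarith [sq_nonneg (η - max (|v i| - η) 0)]
  rw [sum_add_distrib, ← mul_sum, ← mul_sum, sum_const, nsmul_eq_mul] at h2
  linarith

theorem sum_le_sq {f : ι → ℝ} {x N : ℝ} (hx : 0 ≤ x) (hN : (Fintype.card ι : ℝ) ≤ N)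
    (h : ∀ b, f b ≤ x) : ∑ b, f b ≤ N ^ 2 * x := by
  have h1 : ∑ b, f b ≤ (Fintype.card ι : ℝ) * x := by
    simpa using sum_le_card_nsmul univ f x fun b _ => h b
  have h2 : (Fintype.card ι : ℝ) ≤ (Fintype.card ι : ℝ) ^ 2 := by
    exact_mod_cast Nat.le_self_pow two_ne_zero _
  have h3 := pow_le_pow_left₀ (Nat.cast_nonneg _) hN 2
  exact h1.trans (mul_le_mul_of_nonneg_right (h2.trans h3) hx)

end Gs52

open Gs52 Rl58 in
theorem gsTGlue : GsTGlue := fun hR hG hT ⟨Cq, q1, hQ⟩ K => by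
  obtain ⟨γ, Cg, -, -, g1, hG⟩ := hG K
  obtain ⟨Ct, t1, hT⟩ := hT K
  have tq : Cq ≤ Ct * Cq ^ 2 := by nlinarith [mul_le_mul t1 (le_refl (Cq ^ 2)) (sq_nonneg _) (by linarith)]
  refine ⟨16 * Cg + 72 * (Ct * Cq ^ 2), by linarith,
    fun n ι _ J Q y ε lam e η R A N k Ω a κ G hJ hA hB l0 e0 η0 R0' hN hκ ha hk hG' => ?_⟩
  have hw := wt_is J y
  have N0 : 0 ≤ N := (Nat.cast_nonneg _).trans hN
  have hW : RF (N * R * e) (∑ b, κ b • Ω b) := by
    refine RF.mono (RF.sum univ fun b _ => RF.smul (hB b).rf (κ b)) ?_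
    have h1 : ∀ b ∈ univ, |κ b| * e ≤ R * e := fun b _ => mul_le_mul_of_nonneg_right
      (abs_le_of_sq_le_sq' ((single_le_sum (f := fun b => κ b ^ 2) (fun _ _ => sq_nonneg _)
        (mem_univ b)).trans hκ) R0' |> abs_le.2) e0
    have h2 := sum_le_card_nsmul univ _ _ h1
    rw [nsmul_eq_mul, card_univ] at h2
    rw [mul_assoc]
    exact h2.trans (mul_le_mul_of_nonneg_right hN (mul_nonneg R0' e0))
  have hg : G = fun σ => gt Q (∑ b, κ b • Ω b) σ y := by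
    rw [hG', (hQ n J Q 0 e hJ (RF.mono RF.zero e0)).2.2.2 ι κ Ω fun b => (hB b).rf]
    simp only [Finset.sum_apply, Pi.smul_apply]
  obtain ⟨r1, -, r2, -⟩ := hQ n J Q _ _ hJ hW
  have P0 : 0 ≤ N * R * e := by positivity
  refine ⟨hg ▸ (RF.mono r1 ?_).r0 y, fun v β hv hβ => ?_⟩
  · have : Cq ≤ 16 * Cg + 72 * (Ct * Cq ^ 2) := by linarith
    calc _ ≤ (16 * Cg + 72 * (Ct * Cq ^ 2)) * (N * R * e) := mul_le_mul_of_nonneg_right this P0
      _ = _ := by ring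
  have β0 : 0 ≤ β := by linarith [kl_nn J y hv]
  have tr : ∀ (X : F2 n) (c : ℝ), RE c X → (mean v fun s => X s y) ≤
      4 * (mean (ising J y) fun s => X s y) + Ct * c ^ 2 * β := fun X c hX => by
    have := hT n _ v X c ε y y (is_pos J y) hA hv hX
    rw [sub_self, nrm_zero, zero_pow two_ne_zero, add_zero] at this
    exact this.trans (add_le_add_right (mul_le_mul_of_nonneg_left hβ (by positivity)) _)
  have ln : 0 ≤ lam * n := by positivity
  have eb : 0 ≤ e ^ 2 * β := by positivity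
  have nr : 0 ≤ (N * R) ^ 2 := sq_nonneg _
  have a1 := mul_nonneg nr ln
  have a2 := mul_nonneg nr eb
  constructor
  · choose X L hX mX using fun b => (hB b).bs
    have an : 0 ≤ A ^ 2 * n := by positivity
    have ha2 : ∀ s, nrm (grad (lin (∑ b, κ b • a b)) s) ^ 2 ≤ A ^ 2 * n := fun s => by
      have := pow_le_pow_left₀ (nrm_nonneg _) ha 2
      rw [mul_pow, sq_sqrt (Nat.cast_nonneg n)] at this
      exact (congrArg (fun u => nrm u ^ 2) (Rec.grad_lin _ s)).trans_le this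
    have g4 := (hG n J Q y ε _ _ k hJ hA ha2).2.2.2
    have g5 := mul_le_mul_of_nonneg_left (hw.mean_le ha2) (by linarith : 0 ≤ Cg)
    have g6 := mul_le_mul_of_nonneg_left hk (mul_nonneg (by linarith : 0 ≤ Cg) an)
    have el : lin (∑ b, κ b • a b) = fun x => ∑ b, κ b * lin (a b) x := by
      ext x; simp only [lin, sum_dotProduct, smul_dotProduct, smul_eq_mul]
    have pt : ∀ s, nrm ((∑ b, κ b • Ω b) s y) ^ 2 ≤
        2 * nrm (grad (Ks Q y k (lin (∑ b, κ b • a b))) s) ^ 2 + 2 * R ^ 2 * ∑ b, X b s := fun s => by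
      have c1 := cs κ (fun b => grad (Ks Q y k (lin (a b))) s - Ω b s y) univ hκ
      simp only [sum_sq] at c1
      have c2 := mul_le_mul_of_nonneg_left (sum_le_sum fun b (_ : b ∈ univ) => (hX b).app s)
        (sq_nonneg R)
      have c3 : (∑ b, κ b • Ω b) s y = grad (Ks Q y k (lin (∑ b, κ b • a b))) s -
          ∑ b, κ b • (grad (Ks Q y k (lin (a b))) s - Ω b s y) := by
        rw [el, Ks_lin hR hJ, grad_comb]
        simp only [Finset.sum_apply, Pi.smul_apply, smul_sub, sum_sub_distrib, sub_sub_cancel]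
      rw [c3]
      have c4 := pow_le_pow_left₀ (nrm_nonneg _) (nrm_sub_le
        (grad (Ks Q y k (lin (∑ b, κ b • a b))) s)
        (∑ b, κ b • (grad (Ks Q y k (lin (a b))) s - Ω b s y))) 2
      nlinarith [sq_nonneg (nrm (grad (Ks Q y k (lin (∑ b, κ b • a b))) s) -
        nrm (∑ b, κ b • (grad (Ks Q y k (lin (a b))) s - Ω b s y)))]
    have m1 := hw.mean_mono pt
    rw [SL.mean_add, SL.mean_const_mul, SL.mean_const_mul, SL.mean_sum] at m1
    have m2 := mul_le_mul_of_nonneg_left (sum_le_sq ln hN mX) (sq_nonneg R)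
    have m3 := tr _ _ (re_sq r1)
    have m4 := r2 y
    have a3 := mul_nonneg (by linarith : 0 ≤ Cg - 1) a1
    have a4 := mul_nonneg (by linarith : 0 ≤ Cg) a2
    have a5 := mul_nonneg (by linarith : 0 ≤ Ct * Cq ^ 2) a1
    have a6 := mul_nonneg (by linarith : 0 ≤ Ct * Cq ^ 2) a2
    have a7 := mul_nonneg (by linarith : 0 ≤ Ct * Cq ^ 2) an
    rw [hg]
    linarith
  · intro S
    have s0 : 0 ≤ η ^ 2 * #S := by positivity
    have pt : ∀ σ, ∑ i ∈ S, (J *ᵥ G σ) i ^ 2 ≤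
        R ^ 2 * ∑ b, (2 * (η ^ 2 * #S) + 2 * exc η (J *ᵥ gt Q (Ω b) σ y)) := fun σ => by
      have c1 : J *ᵥ G σ = ∑ b, κ b • (J *ᵥ gt Q (Ω b) σ y) := by
        simp only [hG', mulVec_sum, mulVec_smul]
      rw [c1]
      exact (cs κ _ S hκ).trans (mul_le_mul_of_nonneg_left (sum_le_sum fun b _ => sq_exc _ S)
        (sq_nonneg R))
    have m1 := hv.mean_mono pt
    rw [SL.mean_const_mul, SL.mean_sum (s := univ)] at m1
    have tq0 : 0 ≤ Ct * Cq ^ 2 := by linarith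
    have m2 : ∀ b, (mean v fun σ => 2 * (η ^ 2 * #S) + 2 * exc η (J *ᵥ gt Q (Ω b) σ y)) ≤
        2 * (η ^ 2 * #S) + 8 * (lam * n) + 72 * (Ct * Cq ^ 2) * (e ^ 2 * β) := fun b => by
      have := tr _ _ (re_exc hJ.op (hQ n J Q _ e hJ (hB b).rf).1 η0)
      rw [SL.mean_add, hv.mean_const, SL.mean_const_mul]
      linarith [(hB b).jx]
    have m3 := mul_le_mul_of_nonneg_left (sum_le_sq (by positivity) hN m2) (sq_nonneg R)
    have a0 := mul_nonneg nr s0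
    have a3 := mul_nonneg (by linarith : 0 ≤ Cg - 1) a1
    have a4 := mul_nonneg (by linarith : 0 ≤ Cg) a2
    have a5 := mul_nonneg tq0 a1
    have a6 := mul_nonneg tq0 a0
    have a7 := mul_nonneg (by linarith : 0 ≤ Cg - 1) a0
    linarith

end Crest.Agent.T157.Md

end
end

-- ▼ part T157/KMdU_43
section

/-!
# Row 157, block S5 (helper43): the part of the bursts in `ModGlue`
-/

set_option autoImplicit false

noncomputable section

namespace Crest.Agent.T157.Md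

open Real Matrix Finset
open Crest.Agent.T157.E Crest.Agent.T157.Eig Crest.Agent.T157.SL
open Crest.Agent.T157.Tap (V)
open Crest.Agent.T157.Rec (grad)
open Crest.Agent.T157.S1 (Dat St pi U loc ell)
open Crest.Agent.T157.S1.Pin33

namespace U43

variable {n : ℕ} {D : Dat n} {s : St n}

/-- restriction to `S` -/
def mk (S : Finset (Fin n)) (u : V n) : V n := fun i => if i ∈ S then u i else 0

theorem dot_mk (S : Finset (Fin n)) (a u : V n) : a ⬝ᵥ mk S u = ∑ i ∈ S, a i * u i := by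
  simp [mk, dotProduct, sum_ite_mem]

theorem mk_sq (S : Finset (Fin n)) (u : V n) : nrm (mk S u) ^ 2 = ∑ i ∈ S, u i ^ 2 := by
  rw [nrm_sq, dot_mk]
  exact sum_congr rfl fun i hi => by rw [mk, if_pos hi, sq]

theorem wt_pi (D : Dat n) (s : St n) : Wt (pi D s) :=
  Ta.wt_wt ⟨loc_nonneg, sum_pos' (fun x _ => loc_nonneg x) ⟨s.sS, mem_univ _, by
    rw [loc, ell, if_pos fun _ _ => rfl]; exact mul_pos (exp_pos _) (exp_pos _)⟩⟩ _

theorem pt (hD : D.Ok) {e : ℝ} (e0 : 0 ≤ e) {g : V n} (hg : ∀ i, |g i| ≤ e) (σ : Cube n) :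
    |∑ j ∈ s.Sᶜ, grad (U D s) σ j * g j| ≤
      D.P * (nrm (um D s σ) * (nrm (mk s.S (D.J *ᵥ g)) + 3 * nrm (mk s.S g)) + e * (9 * #s.S)) := by
  have e1 : (D.J *ᵥ um D s σ) ⬝ᵥ g = um D s σ ⬝ᵥ mk s.S (D.J *ᵥ g) := by
    rw [← hD.symm, mulVec_transpose, ← dotProduct_mulVec, hD.symm, dot_mk, dotProduct]
    exact (sum_subset (subset_univ _) fun k _ hk => by simp [um, hk]).symm
  have e2 := sum_add_sum_compl s.S fun j => (D.J *ᵥ um D s σ) j * g j
  rw [← dot_mk] at e2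
  have e3 : ∑ j ∈ s.Sᶜ, grad (U D s) σ j * g j = D.P * (um D s σ ⬝ᵥ mk s.S (D.J *ᵥ g) -
      (D.J *ᵥ um D s σ) ⬝ᵥ mk s.S g - ∑ j ∈ s.Sᶜ, sv σ j * (∑ k ∈ s.S, D.J k j ^ 2) * g j) := by
    rw [← e1, dotProduct.eq_1 _ g, ← e2, add_sub_cancel_left, ← sum_sub_distrib, mul_sum]
    exact sum_congr rfl fun j _ => by rw [grad_U hD]; ring
  have a1 := abs_dot_le (um D s σ) (mk s.S (D.J *ᵥ g))
  have a2 := (abs_dot_le (D.J *ᵥ um D s σ) (mk s.S g)).trans (mul_le_mul_of_nonneg_right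
    ((nrm_mulVec_le _ _).trans (mul_le_mul_of_nonneg_right hD.op (nrm_nonneg _))) (nrm_nonneg _))
  have a3 : |∑ j ∈ s.Sᶜ, sv σ j * (∑ k ∈ s.S, D.J k j ^ 2) * g j| ≤ e * (9 * #s.S) := by
    refine (abs_sum_le_sum_abs _ _).trans ((sum_le_sum_of_subset_of_nonneg (subset_univ _)
      fun _ _ _ => abs_nonneg _).trans (le_trans ?_
        (mul_le_mul_of_nonneg_left (sum_colS_le (s := s) hD) e0)))
    rw [mul_sum]
    refine sum_le_sum fun j _ => ?_
    have h0 : 0 ≤ ∑ k ∈ s.S, D.J k j ^ 2 := sum_nonneg fun _ _ => sq_nonneg _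
    have h1 : |sv σ j| = 1 := by
      rw [← sq_eq_sq₀ (abs_nonneg _) zero_le_one, sq_abs, sq, Rec.sv_mul_self, one_pow]
    rw [abs_mul, abs_mul, h1, one_mul, abs_of_nonneg h0, mul_comm]
    exact mul_le_mul_of_nonneg_right (hg j) h0
  rw [e3, abs_mul, abs_of_nonneg (by linarith [hD.P1])]
  refine mul_le_mul_of_nonneg_left ?_ (by linarith [hD.P1])
  rw [abs_le] at a1 a2 a3 ⊢
  constructor <;> linarith [a1.1, a1.2, a2.1, a2.2, a3.1, a3.2]

end U43

open U43 in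
theorem uT : UT := by
  refine ⟨234, by norm_num, fun n D s e W β G hD hB hG hW => ?_⟩
  have hw := wt_pi D s
  have hP := hD.P1
  have S0 : (0 : ℝ) ≤ #s.S := Nat.cast_nonneg _
  have b0 : 0 ≤ β := S0.trans hB.ss
  have W0 : 0 ≤ W := (hw.mean_nonneg fun σ => sum_nonneg fun _ _ => sq_nonneg _).trans hW
  have hG' : ∀ σ i, |G σ i| ≤ |e| := fun σ i => (hG σ i).trans (le_abs_self e)
  rw [← sq_abs e]
  have e0 := abs_nonneg e
  generalize |e| = e at hG' e0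
  set a : Cube n → ℝ := fun σ => nrm (um D s σ)
  set b : Cube n → ℝ := fun σ => nrm (mk s.S (D.J *ᵥ G σ)) + 3 * nrm (mk s.S (G σ))
  have h1 := hw.mean_mono fun σ => (abs_le.1 (pt (s := s) hD e0 (hG' σ) σ)).2
  have h2 := hw.mean_mono (f := fun σ => -1 * (D.P * (a σ * b σ + e * (9 * #s.S)))) fun σ =>
    (neg_one_mul _).trans_le (abs_le.1 (pt (s := s) hD e0 (hG' σ) σ)).1
  rw [mean_const_mul, mean_const_mul, mean_add, hw.mean_const, neg_one_mul] at h2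
  rw [mean_const_mul, mean_add, hw.mean_const] at h1
  have h3 : (mean (pi D s) fun σ => a σ * b σ) ^ 2 ≤
      (mean (pi D s) fun σ => a σ * a σ) * mean (pi D s) fun σ => b σ * b σ :=
    hw.isP.ip_sq_le a b
  have h4 : (mean (pi D s) fun σ => a σ * a σ) ≤ 2 * β := by
    refine (hw.mean_mono (g := fun σ => 2 * U D s σ) fun σ => ?_).trans ?_
    · have := um_dot (D := D) (s := s) σ
      rw [nrm_mul_self]
      nlinarith [Eig.dot_self_nonneg (um D s σ)]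
    · rw [mean_const_mul]; linarith [hB.up]
  have h5 : (mean (pi D s) fun σ => b σ * b σ) ≤ 2 * W + 18 * (e ^ 2 * β) := by
    refine (hw.mean_mono (g := fun σ => 2 * ∑ i ∈ s.S, (D.J *ᵥ G σ) i ^ 2 + 18 * (e ^ 2 * β))
      fun σ => ?_).trans ?_
    · have c1 := mk_sq s.S (D.J *ᵥ G σ)
      have c2 : nrm (mk s.S (G σ)) ^ 2 ≤ e ^ 2 * β := by
        rw [mk_sq]
        refine (sum_le_card_nsmul _ _ (e ^ 2) fun i _ =>
          sq_le_sq' (abs_le.1 (hG' σ i)).1 (abs_le.1 (hG' σ i)).2).trans ?_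
        rw [nsmul_eq_mul, mul_comm]
        exact mul_le_mul_of_nonneg_left hB.ss (sq_nonneg _)
      nlinarith [sq_nonneg (nrm (mk s.S (D.J *ᵥ G σ)) - 3 * nrm (mk s.S (G σ)))]
    · rw [mean_add, mean_const_mul, hw.mean_const]; linarith
  have h6 := h3.trans (mul_le_mul h4 h5 (hw.mean_nonneg fun σ => mul_self_nonneg _) (by positivity))
  have h7 := sq_le_sq' h2 h1
  have h8 : (e * (9 * #s.S)) ^ 2 ≤ (e * (9 * β)) ^ 2 :=
    pow_le_pow_left₀ (by positivity) (mul_le_mul_of_nonneg_left (by linarith [hB.ss]) e0) 2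
  refine h7.trans ?_
  rw [mul_pow, mul_comm 234, mul_assoc, mul_assoc]
  refine mul_le_mul_of_nonneg_left ?_ (sq_nonneg _)
  change ((mean (pi D s) fun σ => a σ * b σ) + _) ^ 2 ≤ _
  nlinarith [sq_nonneg ((mean (pi D s) fun σ => a σ * b σ) - e * (9 * #s.S)), mul_nonneg b0 W0]

end Crest.Agent.T157.Md

end
end

-- ▼ part T157/KMdZ_78
section

/-!
# Row 157, block S5 (helper78): the certificate `CertZ`
-/

set_option autoImplicit false

noncomputable section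

namespace Crest.Agent.T157.Md

open MeasureTheory Real Matrix Finset Filter
open Crest.Agent.T157.E Crest.Agent.T157.Eig Crest.Agent.T157.K
open Crest.Agent.T157.Tap (V Mx)

namespace Z78

variable {n : ℕ}

/-- the part on the cube of a joint certificate, with larger constants -/
theorem bs0 {F X : F2 n} {g ω β : U2 n} {e L e' L' : ℝ} (h : BS F g ω β X e L) (h0 : 0 ≤ e)
    (he : e ≤ e') (hL : L ≤ L') (y : V n) :
    BS0 (fun s => F s y) (fun s => ω s y) (fun s => X s y) e' L' :=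
  ⟨fun s => (h.gr s y).1.trans hL, fun s => (le_add_of_nonneg_right (sq_nonneg _)).trans (h.app s y),
    ⟨fun s i => ((h.rω.r0 y).sup s i).trans he, fun s => ((h.rω.r0 y).op s).trans he⟩,
    fun s => ⟨(h.rX.sb y s).1, (h.rX.sb y s).2.trans
      (mul_le_mul_of_nonneg_right (pow_le_pow_left₀ h0 he 2) (h.rX.sb y s).1)⟩⟩

theorem ev_ge (x : ℝ) {b : ℝ} (hb : 0 < b) : ∀ᶠ n : ℕ in atTop, x ≤ b * n :=
  (tendsto_natCast_atTop_atTop.const_mul_atTop hb).eventually_ge_atTop x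

end Z78

theorem certZGlue : CertZGlue := by
  intro hD hT hZ K
  obtain ⟨C1, hC1, hD⟩ := hD
  obtain ⟨C2, hC2, hN⟩ := near hT K
  obtain ⟨γ, C, hγ0, hγ1, hC, hZ⟩ := hZ K
  refine ⟨0, fun c _ A0 lam hl => ?_⟩
  obtain ⟨b, hb, hbl⟩ : ∃ b : ℝ, 0 < b ∧ 16 * C * b = lam :=
    ⟨lam / (16 * C), by positivity, by field_simp⟩
  have hk : ∀ᶠ k : ℕ in atTop, (1 - γ) ^ k * A0 ^ 2 ≤ b := by
    have h := (tendsto_pow_atTop_nhds_zero_of_lt_one (by linarith : 0 ≤ 1 - γ)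
      (by linarith)).mul_const (A0 ^ 2)
    rw [zero_mul] at h
    exact h.eventually (eventually_le_nhds hb)
  obtain ⟨k0, hk⟩ := eventually_atTop.1 hk
  refine ⟨k0, fun k hk0 => ⟨b / 8, by positivity, 0, fun Λ _ M e η hM _ => ?_⟩⟩
  obtain ⟨Z, hZ1, hZe, hZM, hZA⟩ : ∃ Z : ℝ, 1 ≤ Z ∧ e ≤ Z ∧ M ≤ Z ∧ A0 ≤ Z :=
    ⟨|e| + M + |A0| + 1, by linarith [abs_nonneg e, abs_nonneg A0],
      by linarith [le_abs_self e, abs_nonneg A0], by linarith [abs_nonneg e, abs_nonneg A0],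
      by linarith [abs_nonneg e, le_abs_self A0]⟩
  obtain ⟨W, hW, hW0⟩ : ∃ W : ℝ, W = C2 * (C1 ^ 2 + 1) * Z ^ 2 ∧ 0 < W := ⟨_, rfl, by positivity⟩
  obtain ⟨m, hm, hm0⟩ : ∃ m : ℝ, m = 1 / (C * Z) ∧ 0 < m := ⟨_, rfl, by positivity⟩
  have hCm : C * m * Z = 1 := by rw [hm]; field_simp
  refine ⟨min (b / W) (lam / 8 * m ^ 2), by positivity, ?_⟩
  filter_upwards [Z78.ev_ge (W + Z ^ 2 + (k + 1) ^ 2 * Z ^ 2) hb,
    Z78.ev_ge 1 (by positivity : 0 < lam / 8 * m ^ 2), eventually_gt_atTop 0]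
    with n hn1 hn2 hn0 J Q y0 y E a δ T hJ hδ hg h0 h1 hy hTn v hv hH
  have n0 : (0 : ℝ) < n := by exact_mod_cast hn0
  have s0 : 0 ≤ √(n : ℝ) := sqrt_nonneg _
  have s2 : √(n : ℝ) ^ 2 = n := sq_sqrt n0.le
  have T0 : 0 ≤ T := (sq_nonneg _).trans hy
  have T1 : W * T ≤ b * n := by
    calc W * T ≤ W * (b / W * n) := by
          gcongr; exact hTn.trans (mul_le_mul_of_nonneg_right (min_le_left _ _) n0.le)
      _ = _ := by field_simp
  have T2 : T ≤ lam / 8 * m ^ 2 * n :=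
    hTn.trans (mul_le_mul_of_nonneg_right (min_le_right _ _) n0.le)
  have d1 : δ * n ≤ b / 8 * n := mul_le_mul_of_nonneg_right hδ n0.le
  obtain ⟨g, ω, β, X, e', L, hB, e0, e1, L1, hX⟩ := hg.ps
  have a1 : mean (ising J y) (dev Q E a y) ≤ 4 * (δ * n) + C2 * (C1 * Z) ^ 2 * (T + 1) := by
    refine (hN n J y0 y (fun s y => dev Q E a y s) (C1 * M) _ T h0
      ((hD n J Q E M hJ hM hg.blo).2.2.2.2.2.2.1 a) hy).trans ?_
    have := hg.dv
    gcongr
  have a2 : (mean (ising J y) fun s => X s y) ≤ 4 * (δ * n) + C2 * Z ^ 2 * (T + 1) := by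
    refine (hN n J y0 y X e' _ T h0 hB.rX hy).trans ?_
    gcongr
    exact e1.trans hZe
  have a3 : (1 - γ) ^ k * nrm a ^ 2 ≤ b * n := by
    have h2 : nrm a ^ 2 ≤ A0 ^ 2 * n := by
      rw [← s2, ← mul_pow]; exact pow_le_pow_left₀ (nrm_nonneg a) hg.na 2
    have h3 : 0 ≤ (1 - γ) ^ k := pow_nonneg (by linarith) k
    calc _ ≤ (1 - γ) ^ k * (A0 ^ 2 * n) := mul_le_mul_of_nonneg_left h2 h3
      _ = (1 - γ) ^ k * A0 ^ 2 * n := by ring
      _ ≤ _ := mul_le_mul_of_nonneg_right (hk k hk0) n0.le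
  have a4 : ((k : ℝ) + 1) ^ 2 * (1 / n) * (Z * √n) ^ 2 = (k + 1) ^ 2 * Z ^ 2 := by
    rw [mul_pow, s2]; field_simp
  have a5 : C2 * (C1 * Z) ^ 2 * (T + 1) + C2 * Z ^ 2 * (T + 1) = W * T + W := by rw [hW]; ring
  refine (opt (B := lam * n / 4) (kl_nn J y hv) hm0 (by linarith) fun θ θ0 θ1 => ?_).trans_eq
    (by ring)
  have c1 : C * θ * Z ≤ 1 := by rw [← hCm]; gcongr
  refine (hZ n J Q E k a y _ _ v M Z (Z * √n) (1 / n) θ hJ h1 hv hM hZM hg.blo
    (hg.na.trans (by gcongr)) (by gcongr)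
    (Z78.bs0 hB e0 (e1.trans hZe) (L1.trans (by gcongr)) y) θ0 c1
    (by rw [← mul_assoc]; exact mul_le_of_le_one_left s0 c1)).trans (add_le_add_right ?_ _)
  calc _ ≤ C * θ * (4 * b * n) := by gcongr; linarith
    _ = _ := by rw [← hbl]; ring

end Crest.Agent.T157.Md

end
end

-- ▼ part T157/KTh_38
section

/-!
# Row 157, block S5 (helper38): the part of the tilt, `Md.thTGlue`
-/

set_option autoImplicit false

noncomputable section

namespace Crest.Agent.T157.Md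

open Real Matrix Finset
open Crest.Agent.T157.E Crest.Agent.T157.Eig Crest.Agent.T157.K Crest.Agent.T157.SL
open Crest.Agent.T157.Tap (V Mx)
open Crest.Agent.T157.Rec (grad fl)
open Crest.Agent.T157.S3 (Rg)
open Crest.Agent.T157.S3F (jac hsJ jac_apply col_sq_le)
open Crest.Agent.T157.S3.Rg (nrm_sq' nrm_le_of_sq nrm_mul_le fl_eq)
open Crest.Agent.T157.S3.Hd (AD)
open Crest.Agent.T157.S1 (Dat St Cl Ex nu pi)

variable {n : ℕ}

namespace Th38

/-- the gradient of a scalar product -/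
lemma grad_dot {u b : Cube n → V n} {a1 a2 L : ℝ} {x : Cube n} (h1 : opn (jac u x) ≤ a1)
    (h2 : opn (jac b x) ≤ a2) (h3 : nrm (b x) ≤ L) (h5 : hsJ b x ≤ L ^ 2) :
    nrm (grad (fun x => b x ⬝ᵥ u x) x) ≤ a2 * nrm (u x) + 3 * (a1 * L) := by
  have a0 : 0 ≤ a1 := (opn_nonneg _).trans h1
  have L0 : 0 ≤ L := (nrm_nonneg _).trans h3
  have e : grad (fun x => b x ⬝ᵥ u x) x = (jac u x)ᵀ *ᵥ b x + (jac b x)ᵀ *ᵥ u x -
      (2 : ℝ) • (sv x * fun j => ∑ k, jac u x k j * jac b x k j) := by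
    funext j
    rw [Rec.grad_eq]
    simp only [dotProduct, mulVec, transpose_apply, Pi.add_apply, Pi.sub_apply, Pi.smul_apply,
      Pi.mul_apply, smul_eq_mul, mul_sum, sum_div, ← sum_add_distrib, ← sum_sub_distrib]
    refine sum_congr rfl fun k _ => ?_
    rw [fl_eq (fun y => u y k), fl_eq (fun y => b y k), jac_apply, jac_apply]
    linear_combination (grad (fun y => u y k) x j * b x k + grad (fun y => b y k) x j * u x k -
      2 * sv x j * grad (fun y => u y k) x j * grad (fun y => b y k) x j) * Rec.sv_mul_self x j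
  have t : ∀ (A : Mx n) (v : V n) (a : ℝ), opn A ≤ a → nrm (Aᵀ *ᵥ v) ≤ a * nrm v :=
    fun A v a hA => (nrm_mulVec_le _ _).trans
      (mul_le_mul_of_nonneg_right ((opn_transpose _).trans_le hA) (nrm_nonneg _))
  have t3 : nrm (fun j => ∑ k, jac u x k j * jac b x k j) ≤ a1 * L := by
    refine nrm_le_of_sq (by positivity) ?_
    rw [hsJ, sum_comm] at h5
    rw [mul_pow]
    refine le_trans ?_ (mul_le_mul_of_nonneg_left h5 (sq_nonneg _))
    rw [mul_sum]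
    refine sum_le_sum fun j _ => (sum_mul_sq_le_sq_mul_sq _ _ _).trans ?_
    exact mul_le_mul_of_nonneg_right ((col_sq_le _ j).trans
      (pow_le_pow_left₀ (opn_nonneg _) h1 2)) (sum_nonneg fun _ _ => sq_nonneg _)
  have t4 := nrm_mul_le (v := fun j => ∑ k, jac u x k j * jac b x k j) zero_le_one (S3F.abs_sv x)
  rw [e]
  refine (nrm_sub_le _ _).trans ((add_le_add (nrm_add_le _ _) le_rfl).trans ?_)
  rw [nrm_smul, abs_two]
  linarith [t _ (b x) _ h1, t _ (u x) _ h2, mul_le_mul_of_nonneg_left h3 a0]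

lemma cs {v f a b : Cube n → ℝ} (hv : Wt v) (h : ∀ x, |f x| ≤ a x * b x) :
    mean v f ^ 2 ≤ (mean v fun x => a x ^ 2) * mean v fun x => b x ^ 2 := by
  have h1 : |mean v f| ≤ mean v fun x => a x * b x := by
    refine abs_le.2 ⟨?_, hv.mean_mono fun x => (abs_le.1 (h x)).2⟩
    rw [← mean_neg]; exact hv.mean_mono fun x => (abs_le.1 (h x)).1
  have h2 := pow_le_pow_left₀ (abs_nonneg _) h1 2
  rw [sq_abs] at h2
  simp only [sq]
  simp only [← sq (mean v _)]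
  exact h2.trans (hv.isP.ip_sq_le a b)

/-- the certificate of the scalar product -/
lemma bs {Ω G : Cube n → V n} {ec e L : ℝ} (hΩ : Rg ec L Ω) (hG : R0 e G) (e1 : ec ≤ 1)
    (hL : L ^ 2 ≤ n) : BS0 (fun x => Ω x ⬝ᵥ G x) 0
      (fun x => 2 * ec ^ 2 * nrm (G x) ^ 2 + 18 * (e ^ 2 * L ^ 2)) (5 * e) (5 * e * √n) := by
  have e0 : 0 ≤ e := (opn_nonneg _).trans (hG.op default)
  have c0 : 0 ≤ ec := (opn_nonneg _).trans (hΩ default).2.1
  have c2 : ec ^ 2 ≤ 1 := pow_le_one₀ c0 e1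
  have h1 : ∀ x, nrm (grad (fun x => Ω x ⬝ᵥ G x) x) ^ 2 ≤
      2 * ec ^ 2 * nrm (G x) ^ 2 + 18 * (e ^ 2 * L ^ 2) := fun x => by
    have := pow_le_pow_left₀ (nrm_nonneg _)
      (grad_dot (Pd90.jac_le hG x) (hΩ x).2.1 (hΩ x).2.2.1 (hΩ x).2.2.2) 2
    nlinarith [sq_nonneg (ec * nrm (G x) - 3 * (e * L))]
  refine ⟨fun x => abs_le_of_sq_le_sq' ((h1 x).trans ?_) (by positivity) |>.2,
    fun x => by simpa using h1 x, ⟨fun _ _ => by simpa using e0, fun x => ?_⟩,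
    fun x => ⟨by positivity, ?_⟩⟩
  · have h2 := pow_le_pow_left₀ (nrm_nonneg _) (Di.nrm_le_sup e0 (hG.sup x)) 2
    simp only [mul_pow, sq_sqrt (n.cast_nonneg (α := ℝ))] at h2 ⊢
    have h3 := mul_le_mul c2 h2 (sq_nonneg _) zero_le_one
    have h4 := mul_le_mul_of_nonneg_left hL (sq_nonneg e)
    have h5 : 0 ≤ e ^ 2 * n := by positivity
    linarith
  · rw [show Reg.jac (0 : Cube n → V n) x = 0 by ext; simp [Reg.jac], opn_zero]; positivity
  · have h2 := (Di.sb_dist hG.op 0 x).2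
    simp only [zero_sub, nrm_neg] at h2
    have h3 := S3.Hb.Vp_const_mul (c := 2 * ec ^ 2) (by positivity) (fun s => nrm (G s) ^ 2) x
    have h4 : S3.Hb.Vp (fun x => 2 * ec ^ 2 * nrm (G x) ^ 2 + 18 * (e ^ 2 * L ^ 2)) x =
        S3.Hb.Vp (fun x => 2 * ec ^ 2 * nrm (G x) ^ 2) x := by
      simp only [S3.Hb.Vp, add_sub_add_right_eq_sub]
    rw [h4, h3]
    have h5 := mul_le_mul_of_nonneg_left h2 (sq_nonneg (2 * ec ^ 2))
    have h6 : 0 ≤ e ^ 2 * (ec ^ 2 * nrm (G x) ^ 2) := by positivity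
    have h7 := mul_le_mul_of_nonneg_right c2 h6
    have h8 : 0 ≤ e ^ 2 * (e ^ 2 * L ^ 2) := by positivity
    linarith

/-- transport of the scalar product -/
lemma tr (hT : TrStmt) (K : ℝ) : ∃ C ≥ (1 : ℝ), ∀ (n : ℕ) (J : Mx n) (y : V n) (v : Cube n → ℝ)
    (Ω G : Cube n → V n) (ε ec e L Γ β : ℝ), Jᵀ = J → (∀ i, J i i = 0) → opn J ≤ 3 →
    AD (ising J y) K ε → Wt v → Rg ec L Ω → R0 e G → ec ≤ 1 → L ^ 2 ≤ β → β ≤ n → ε * n ≤ 1 →
    kl v (ising J y) + 1 ≤ β → (mean (ising J y) fun σ => nrm (G σ) ^ 2) ≤ Γ →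
    ((mean v fun x => Ω x ⬝ᵥ G x) - mean (ising J y) fun x => Ω x ⬝ᵥ G x) ^ 2 ≤
      C * (Γ * (ec * β) + e ^ 2 * β ^ 2) := by
  obtain ⟨C, C1, h⟩ := hT K
  refine ⟨444 * C ^ 2, by nlinarith, fun n J y v Ω G ε ec e L Γ β hJ h0 h3 hA hv hΩ hG e1 hL hβ hε hk
    hΓ => ?_⟩
  have e0 : 0 ≤ e := (opn_nonneg _).trans (hG.op default)
  have c0 : 0 ≤ ec := (opn_nonneg _).trans (hΩ default).2.1
  have k0 := kl_nn J y hv
  have W := wt_is J y
  have Γ0 : 0 ≤ Γ := (W.mean_nonneg fun _ => sq_nonneg _).trans hΓ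
  have β1 : 1 ≤ β := by linarith
  have C0 : 0 < C := by linarith
  rcases e0.eq_or_lt with rfl | e0
  · have : G = 0 := by ext σ i; exact abs_nonpos_iff.1 (hG.sup σ i)
    simp only [this, Pi.zero_apply, dotProduct_zero, hv.mean_const, W.mean_const, sub_self]
    rw [zero_pow two_ne_zero]
    positivity
  have B := bs hΩ hG e1 (hL.trans hβ)
  have hX : (mean (ising J y) fun x => 2 * ec ^ 2 * nrm (G x) ^ 2 + 18 * (e ^ 2 * L ^ 2)) ≤
      2 * (ec * Γ) + 18 * (e ^ 2 * β) := by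
    rw [mean_add, mean_const_mul, W.mean_const]
    have a1 := mul_le_mul_of_nonneg_left hΓ (sq_nonneg ec)
    have a2 := mul_le_mul_of_nonneg_right e1 (mul_nonneg c0 Γ0)
    have a3 := mul_le_mul_of_nonneg_left hL (sq_nonneg e)
    linarith
  have hg := (W.mean_mono fun x => (by simpa using B.app x :
    nrm (grad (fun x => Ω x ⬝ᵥ G x) x) ^ 2 ≤ _)).trans hX
  have p1 : 0 ≤ ec * Γ := by positivity
  have p2 : 0 ≤ e ^ 2 * β := by positivity
  have p3 : e ^ 2 ≤ e ^ 2 * β := le_mul_of_one_le_right (sq_nonneg _) β1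
  have o := opt (x := (mean v fun x => Ω x ⬝ᵥ G x) - mean (ising J y) fun x => Ω x ⬝ᵥ G x)
    (B := C * (4 * (ec * Γ) + 86 * (e ^ 2 * β)) + β * (C * (5 * e)) ^ 2) (θm := 1 / (C * (5 * e))) k0
    (by positivity) (by
      have : β * (C * (5 * e)) ^ 2 * (1 / (C * (5 * e))) ^ 2 = β := by field_simp
      have p : 0 ≤ C * (4 * (ec * Γ) + 86 * (e ^ 2 * β)) * (1 / (C * (5 * e))) ^ 2 := by positivity
      linarith) fun θ t0 t1 => by
      rw [le_div_iff₀ (by positivity)] at t1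
      refine (h n _ v _ _ 0 (5 * e) (5 * e * √n) ε θ J y hJ h0 h3 rfl hA hv B t0 (by linarith)
        (by linarith [mul_le_mul_of_nonneg_right t1 (sqrt_nonneg (n : ℝ))])).trans
        (add_le_add le_rfl ?_)
      have a1 : ε * (5 * e * √n) ^ 2 ≤ 25 * e ^ 2 := by
        rw [mul_pow, sq_sqrt (n.cast_nonneg (α := ℝ))]
        linarith [mul_le_mul_of_nonneg_left hε (sq_nonneg e)]
      have a2 : 0 ≤ θ * (β * (C * (5 * e)) ^ 2) := by positivity
      refine (mul_le_mul_of_nonneg_left (show _ ≤ 4 * (ec * Γ) + 86 * (e ^ 2 * β) by linarith)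
        (by positivity)).trans ?_
      linarith
  refine o.trans ((mul_le_mul_of_nonneg_left hk (by positivity)).trans ?_)
  have q1 : C ≤ C ^ 2 := by nlinarith
  have q2 := mul_le_mul_of_nonneg_right q1 (mul_nonneg p1 (zero_le_one.trans β1))
  have q3 := mul_le_mul_of_nonneg_right q1 (mul_nonneg p2 (zero_le_one.trans β1))
  have q4 : 0 ≤ C ^ 2 * (ec * Γ * β) := by positivity
  linarith

lemma five (T a b c d s : ℝ) :
    (T + a + b - c - d - s) ^ 2 ≤ 2 * T ^ 2 + 10 * (a ^ 2 + b ^ 2 + c ^ 2 + d ^ 2 + s ^ 2) := by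
  have h : (a + b - c - d - s) ^ 2 ≤ 5 * (a ^ 2 + b ^ 2 + c ^ 2 + d ^ 2 + s ^ 2) := by
    linarith [sq_nonneg (a - b), sq_nonneg (a + c), sq_nonneg (a + d), sq_nonneg (a + s),
      sq_nonneg (b + c), sq_nonneg (b + d), sq_nonneg (b + s), sq_nonneg (c - d), sq_nonneg (c - s),
      sq_nonneg (d - s)]
  linarith [sq_nonneg (T - (a + b - c - d - s))]

end Th38

open Th38

theorem thTGlue : ThTGlue := fun hT K => by
  obtain ⟨C, C1, h⟩ := tr hT K
  refine ⟨10 * (5 + 48 * |K| + 2 * C), by linarith [abs_nonneg K],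
    fun n D s ε ec e Γ β G hD hc hA hB e1 hβ hε hG h1 h2 h3 => ?_⟩
  have hν := (S1.W6.pr_pi s hD).hv
  have hπ := (S1.W6.pr_pi s hD).hw
  have e0 : 0 ≤ e := (opn_nonneg _).trans (hG.op default)
  have c0 : 0 ≤ ec := (opn_nonneg _).trans (hc.rg default).2.1
  have K0 := hA.pos
  have Γ0 : 0 ≤ Γ := (hν.mean_nonneg fun _ => sq_nonneg _).trans h2
  have β0 : 0 ≤ β := (sq_nonneg _).trans hB.ll
  have X0 : 0 ≤ Ex D s := hν.mean_nonneg fun _ => sq_nonneg _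
  have b1 := h n D.J s.y _ s.Om G ε ec e s.L Γ β hD.symm hD.diag hD.op hA hπ hc.rg hG e1 hB.ll hβ hε
    hB.kp h1
  have b2 := h n D.J s.y _ s.Om G ε ec e s.L Γ β hD.symm hD.diag hD.op hA hν hc.rg hG e1 hB.ll hβ hε
    hB.kn h1
  have c : ∀ x, |(grad s.Th x - s.Om x) ⬝ᵥ G x| ≤ s.G x * nrm (G x) := fun x =>
    (abs_dot_le _ _).trans (mul_le_mul_of_nonneg_right (hc.ex x) (nrm_nonneg _))
  have x1 : (mean (pi D s) fun x => s.G x ^ 2) ≤ 4 * Ex D s + K * √ec ^ 2 *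
      (32 * kl (nu D s) (ising D.J s.y) + 16 * kl (pi D s) (ising D.J s.y) + 18) :=
    (h1_ad (is_pos _ _) hA).xfer (is_pos _ _) K0
      ((Xt.lip2_iff (sqrt_nonneg ec)).2 (by rw [sq_sqrt c0]; exact hc.ts)) hν.isP hπ.isP
  rw [sq_sqrt c0] at x1
  have x2 : (mean (pi D s) fun x => s.G x ^ 2) ≤ 4 * Ex D s + 48 * (K * (ec * β)) := by
    have := mul_le_mul_of_nonneg_left (show 32 * kl (nu D s) (ising D.J s.y) +
      16 * kl (pi D s) (ising D.J s.y) + 18 ≤ 48 * β by linarith [hB.kn, hB.kp]) (mul_nonneg K0.le c0)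
    linarith
  have a1 := (cs hπ c).trans (mul_le_mul x2 h3 (hπ.mean_nonneg fun _ => sq_nonneg _) (by positivity))
  have a2 : _ ≤ Ex D s * Γ := (cs hν c).trans (mul_le_mul_of_nonneg_left h2 X0)
  have s1 : (mean (pi D s) fun σ => ∑ j ∈ s.S, grad s.Th σ j * G σ j) ^ 2 ≤ (e * β) ^ 2 := by
    refine sq_le_sq' (abs_le.1 ?_).1 (abs_le.1 ?_).2 <;>
    refine hπ.abs_mean_le fun σ => abs_le_of_sq_le_sq' ?_ (by positivity) |> abs_le.2 <;>
    refine (sum_mul_sq_le_sq_mul_sq _ _ _).trans ?_ <;>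
    · have u1 : ∑ j ∈ s.S, grad s.Th σ j ^ 2 ≤ β :=
        ((sum_le_univ_sum_of_nonneg fun _ => sq_nonneg _).trans_eq (nrm_sq' _).symm).trans
          ((pow_le_pow_left₀ (nrm_nonneg _) (hc.gr σ) 2).trans hB.ll)
      have u2 : ∑ j ∈ s.S, G σ j ^ 2 ≤ β * e ^ 2 :=
        (sum_le_card_nsmul _ _ (e ^ 2) fun j _ => sq_le_sq' (abs_le.1 (hG.sup σ j)).1
          (abs_le.1 (hG.sup σ j)).2).trans (by
            rw [nsmul_eq_mul]; exact mul_le_mul_of_nonneg_right hB.ss (sq_nonneg _))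
      exact (mul_le_mul u1 u2 (sum_nonneg fun _ _ => sq_nonneg _) β0).trans_eq (by ring)
  have e2 : pr D s (grad s.Th) G = (mean (pi D s) fun σ => grad s.Th σ ⬝ᵥ G σ) -
      mean (pi D s) fun σ => ∑ j ∈ s.S, grad s.Th σ j * G σ j := by
    rw [pr, ← mean_sub]
    congr 1; ext σ
    rw [dotProduct, ← sum_add_sum_compl s.S, add_sub_cancel_left]
  simp only [sub_dotProduct, mean_sub] at a1 a2
  have f := five (mean (nu D s) fun σ => grad s.Th σ ⬝ᵥ G σ)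
    ((mean (pi D s) fun σ => grad s.Th σ ⬝ᵥ G σ) - mean (pi D s) fun σ => s.Om σ ⬝ᵥ G σ)
    ((mean (pi D s) fun σ => s.Om σ ⬝ᵥ G σ) - mean (ising D.J s.y) fun σ => s.Om σ ⬝ᵥ G σ)
    ((mean (nu D s) fun σ => s.Om σ ⬝ᵥ G σ) - mean (ising D.J s.y) fun σ => s.Om σ ⬝ᵥ G σ)
    ((mean (nu D s) fun σ => grad s.Th σ ⬝ᵥ G σ) - mean (nu D s) fun σ => s.Om σ ⬝ᵥ G σ)
    (mean (pi D s) fun σ => ∑ j ∈ s.S, grad s.Th σ j * G σ j)
  rw [e2, abs_of_pos K0]
  refine le_trans (le_of_eq (by congr 1; ring)) (f.trans (add_le_add le_rfl ?_))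
  have p1 : 0 ≤ Γ * Ex D s := by positivity
  have p2 : 0 ≤ Γ * (ec * β) := by positivity
  have p3 : 0 ≤ e ^ 2 * β ^ 2 := by positivity
  linarith [mul_nonneg K0.le p1, mul_nonneg K0.le p3, mul_nonneg (zero_le_one.trans C1) p1]

end Crest.Agent.T157.Md

end
end

-- ▼ part T157/KMdAll_93
section

/-!
# Row 157, block S5 (helper93): the collective deficit and the predicted responses, assembled
-/

namespace Crest.Agent.T157.Md

open Crest.Agent.T157.K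

theorem modGlue : ModGlue := fun hR hG hP hD hTf hT hZ hF hGt _ hB =>
  modOf (certZGlue hD hTf hZ) (certTGlue hR hG hP hD hTf hT)
    (certBGlue hR hP hD hTf (regGlue hP hD hGt)) (foTGlue hR hF) (gsTGlue hR hG hTf hGt) (thTGlue hT)
    uT hB

theorem modStmt : ModStmt := modGlue revStmt gapStmt progStmt dirStmt trfStmt trStmt z0Stmt foStmt
  gtStmt S1.W6.crude S1.b1Stmt

end Crest.Agent.T157.Md
end

-- ▼ part T157/KzMag_25
section

/-!
# Row 157, part B (helper25): the magnetisation does not vanish at a positive level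
-/

set_option autoImplicit false

noncomputable section

namespace Crest.Agent.T157.Kz

open MeasureTheory ProbabilityTheory Matrix Filter Topology
open Crest.Agent.T157.E Crest.Agent.T157.Eig
open Crest.Agent.T157.Tap (V Mx th avg gE)
open Crest.Agent.T157.Pos (In TF)

theorem magStmt25 : MagStmt := by
  intro β hβ r hr
  have hβ1 : β ∈ Set.Ioc (0 : ℝ) 1 := ⟨hβ.1, hβ.2.le⟩
  obtain ⟨q, hq⟩ := Pos.exists_lv β hr.le
  have ct : Continuous Real.tanh := by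
    have : Real.tanh = fun x => Real.sinh x / Real.cosh x := funext Real.tanh_eq_sinh_div_cosh
    rw [this]
    exact Real.continuous_sinh.div Real.continuous_cosh fun x => (Real.cosh_pos x).ne'
  have hb : ∀ x : ℝ, |Real.tanh x ^ 2| ≤ 1 := fun x => by
    rw [abs_pow]; exact pow_le_one₀ (abs_nonneg _) (Real.abs_tanh_lt_one x).le
  set v := r + β ^ 2 * q with hv
  have v0 : 0 < v := by have := hq.2.1.1.1; positivity
  set c := gE (fun x => Real.tanh x ^ 2) v v with hc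
  have c0 : 0 < c := by
    have h1 : (gaussianReal 0 1).IsOpenPosMeasure :=
      (gaussianReal_absolutelyContinuous' 0 one_ne_zero).isOpenPosMeasure
    have h2 : Continuous fun z : ℝ => Real.tanh (v + √v * z) ^ 2 := (ct.comp (by fun_prop)).pow 2
    refine integral_pos_of_integrable_nonneg_nonzero (x := 0) h2 ((integrable_const (1 : ℝ)).mono'
      h2.aestronglyMeasurable (.of_forall fun z => hb _)) (fun z => sq_nonneg _) ?_
    simp only [mul_zero, add_zero, Real.tanh_eq_sinh_div_cosh]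
    exact (pow_pos (div_pos (Real.sinh_pos_iff.2 v0) (Real.cosh_pos v)) 2).ne'
  obtain ⟨M, M0, hM⟩ := Pos.TF.acc (s := r) hβ1 hr.le
  refine ⟨√(8 / c), ?_⟩
  filter_upwards [hM, (Pos.TF.emp hβ1 hq (ct.pow 2) (fun x => by simp) hb).eventually
    (le_mem_nhds (half_lt_self c0)), Pos.TF.lim.eventually (eventually_gt_atTop 0),
    (tendsto_natCast_atTop_atTop.comp Pos.TF.lim).eventually (eventually_ge_atTop (8 * M ^ 2 / c))]
    with x h1 h2 h3 h4
  have n0 : (0 : ℝ) < x.n := Nat.cast_pos.2 h3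
  set m := mag (ising (x.J β) x.y)
  have h5 : c / 2 * x.n ≤ nrm (th (x.b β)) ^ 2 := by
    rw [nrm_sq, ← le_div_iff₀ n0]
    exact h2.trans_eq (by simp [avg, dotProduct, th, sq])
  have h6 : nrm (th (x.b β)) ≤ M + nrm m := by
    have := nrm_add_le (th (x.b β) - m) m
    rw [sub_add_cancel] at this
    linarith
  have h7 := pow_le_pow_left₀ (nrm_nonneg _) h6 2
  have h8 : 8 * M ^ 2 ≤ x.n * c := (div_le_iff₀ c0).1 h4
  rw [Real.sq_sqrt (by positivity), ← nrm_sq, div_mul_eq_mul_div, le_div_iff₀ c0]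
  nlinarith [sq_nonneg (M - nrm m)]

end Crest.Agent.T157.Kz

end
end

-- ▼ part T157/KzTok_38
section

/-!
# Row 157, part B (helper38): PredOK for a tilt, `Kz.tokGlue38` (`rho`, `rho_xf`, `rho_pv`: text of helper71)
-/

set_option autoImplicit false

noncomputable section

namespace Crest.Agent.T157.Kz

open MeasureTheory Real Matrix Finset Filter
open Crest.Agent.T157.E Crest.Agent.T157.Eig Crest.Agent.T157.K Crest.Agent.T157.S1
open Crest.Agent.T157.SL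
open Crest.Agent.T157.Tap (V Mx)
open Crest.Agent.T157.Rec (grad)
open Crest.Agent.T157.S3 (Rg Exc TS)
open Crest.Agent.T157.Md (Rsp gb)

namespace Tk38

variable {n : ℕ}

/-- the responses of the acts below the window `(m + 1, i)` to the tilt `φ` -/
def rho (N : ℕ) (W : ℕ → ℕ → Wn) (J : Mx n) (m i : ℕ) (φ : Cube n → ℝ) (m' : ℕ) : Fy n :=
  fun σ y => N * ∑ i' ∈ range (2 ^ N + 1),
    if Sub N (m + 1) i m' i' then (W m' i').cz * (W m' i').d.rs J φ σ y else 0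

lemma cont {e : ℝ} {u : Cube n → V n → V n} (h : RF e u) (s : Cube n) : Continuous (u s) := by
  refine continuous_iff_continuousAt.2 fun y => tendsto_iff_norm_sub_tendsto_zero.2 ?_
  have h1 : Continuous fun y' => e * nrm (y' - y) :=
    continuous_const.mul (continuous_nrm.comp (continuous_id.sub continuous_const))
  refine squeeze_zero (fun _ => norm_nonneg _) (fun y' => ?_) (by simpa using h1.tendsto y)
  refine le_trans ((pi_norm_le_iff_of_nonneg (nrm_nonneg _)).2 fun i => ?_) (h.lip s y' y)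
  exact abs_apply_le_nrm _ i

lemma rsp_nn {ι : Type} [Fintype ι] (g : ι → U2 n) (φ : Cube n → ℝ) (σ : Cube n) (y : V n) :
    0 ≤ Rsp g φ σ y := div_nonneg (sum_nonneg fun _ _ => sq_nonneg _) n.cast_nonneg

/-- one squared response -/
lemma xf_sq {e : ℝ} {g : U2 n} (h : RF e g) (a : Cube n → V n) :
    XF fun σ y => (a σ ⬝ᵥ g σ y) ^ 2 := by
  refine ⟨fun σ => ⟨((continuous_const.dotProduct (cont h σ)).pow 2).measurable,
    (∑ j, |a σ j| * e) ^ 2, 0, sq_nonneg _, le_rfl, fun y => ?_⟩, fun _ _ => sq_nonneg _⟩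
  rw [zero_mul, exp_zero, mul_one, abs_pow]
  refine pow_le_pow_left₀ (abs_nonneg _) ((abs_sum_le_sum_abs _ _).trans (sum_le_sum fun j _ => ?_)) 2
  rw [abs_mul]
  exact mul_le_mul_of_nonneg_left ((h.r0 y).sup σ j) (abs_nonneg _)

lemma xf_smul (hM : MtStmt) {F : Fy n} (h : XF F) {c : ℝ} (hc : 0 ≤ c) :
    XF fun σ y => c * F σ y := ((hM n).2.2.2.2.2.1 F F c h h hc).2

lemma xf_sum (hM : MtStmt) {ι : Type} (t : Finset ι) {F : ι → Fy n} (h : ∀ b ∈ t, XF (F b)) :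
    XF fun σ y => ∑ b ∈ t, F b σ y := by
  classical
  induction t using Finset.induction_on with
  | empty => exact (hM n).2.2.2.2.2.2.1
  | insert b t hb ih =>
    simp only [sum_insert hb]
    exact ((hM n).2.2.2.2.2.1 _ _ 0 (h b (mem_insert_self _ _))
      (ih fun c hc => h c (mem_insert_of_mem hc)) le_rfl).1

lemma xf_rsp (hM : MtStmt) {ι : Type} [Fintype ι] {g : ι → U2 n} {e : ℝ} (h : ∀ b, RF e (g b))
    (φ : Cube n → ℝ) : XF (Rsp g φ) := by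
  have := xf_smul hM (xf_sum hM univ fun b _ => xf_sq (h b) (grad φ)) (inv_nonneg.2 n.cast_nonneg)
  convert this using 3 with σ y
  rw [Rsp, div_eq_inv_mul]

section
variable {N m i : ℕ} {W : ℕ → ℕ → Wn} {J : Mx n}

theorem rho_xf (hM : MtStmt) (hz : ∀ m' i', 0 ≤ (W m' i').cz)
    (hg : ∀ m' i', Sub N (m + 1) i m' i' → ∀ b, RF (W m' i').e ((W m' i').d.g b n J))
    (φ : Cube n → ℝ) (m' : ℕ) : XF (rho N W J m i φ m') := by
  refine xf_smul hM (xf_sum hM _ fun i' _ => ?_) N.cast_nonneg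
  by_cases h : Sub N (m + 1) i m' i'
  · simp only [if_pos h]
    exact xf_smul hM (xf_rsp hM (hg m' i' h) φ) (hz m' i')
  · simp only [if_neg h]
    exact (hM n).2.2.2.2.2.2.1

lemma rsp_add {ι : Type} [Fintype ι] (g : ι → U2 n) (Θ φ : Cube n → ℝ) (σ : Cube n) (y : V n)
    (c : ℝ) : c * Rsp g (Θ + φ) σ y ≤ (c + 1) * Rsp g Θ σ y + c * (c + 1) * Rsp g φ σ y := by
  simp only [Rsp, ← mul_div_assoc, ← add_div, mul_sum, ← sum_add_distrib]
  refine div_le_div_of_nonneg_right (sum_le_sum fun b _ => ?_) n.cast_nonneg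
  rw [show grad (Θ + φ) σ = grad Θ σ + grad φ σ from Rec.grad_add Θ φ σ, add_dotProduct]
  nlinarith [sq_nonneg (grad Θ σ ⬝ᵥ g b σ y - c * (grad φ σ ⬝ᵥ g b σ y))]

theorem rho_pv {p : Par} (G : ℕ → Set (V n)) (h1 : 1 ≤ m) (hm : m < p.N) (hv : p.Val (m + 1) i)
    (hz : ∀ m' i', 0 ≤ (W m' i').cz) (φ : Cube n → ℝ) (L' : ℝ) :
    ∀ i0 Th L F, p.Nx m i0 i → (orc p.N W G J).PV m i0 Th L F →
      (orc p.N W G J).PV (m + 1) i (Th + φ) (L + L') (F + rho p.N W J m i φ) := by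
  intro i0 Th L F hx h m' i' hs σ y
  have e2 : 2 ^ (p.N - m) = 2 * 2 ^ (p.N - (m + 1)) := by
    rw [← pow_succ', show p.N - (m + 1) + 1 = p.N - m by omega]
  have hs0 : Sub p.N m i0 m' i' := by
    obtain ⟨a1, a2, a3, a4⟩ := hs
    refine ⟨by omega, a2, ?_, ?_⟩ <;> rcases hx with hx | hx <;> omega
  have hi : i' ∈ range (2 ^ p.N + 1) := by
    have a4 := hs.2.2.2
    have : i + 2 ^ (p.N - (m + 1)) ≤ 2 ^ p.N := hv
    exact mem_range.2 (Nat.lt_succ_of_le (((Nat.le_add_right _ _).trans a4).trans this))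
  have k1 := h m' i' hs0 σ y
  have k2 : (W m' i').cz * (W m' i').d.rs J φ σ y ≤ ∑ i' ∈ range (2 ^ p.N + 1),
      if Sub p.N (m + 1) i m' i' then (W m' i').cz * (W m' i').d.rs J φ σ y else 0 := by
    refine le_trans (le_of_eq (if_pos hs).symm) (single_le_sum (f := fun i' =>
      if Sub p.N (m + 1) i m' i' then (W m' i').cz * (W m' i').d.rs J φ σ y else 0)
      (fun j _ => ?_) hi)
    split_ifs
    exacts [mul_nonneg (hz _ _) (rsp_nn _ _ _ _), le_rfl]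
  have k3 := mul_le_mul_of_nonneg_left (rsp_add (fun b => (W m' i').d.g b n J) Th φ σ y m)
    (mul_nonneg p.N.cast_nonneg (hz m' i') : (0 : ℝ) ≤ _)
  have m0 : (0 : ℝ) < m := by exact_mod_cast h1
  have k4 := mul_le_mul_of_nonneg_left k1 (by positivity : (0 : ℝ) ≤ m + 1)
  have k5 := mul_le_mul_of_nonneg_left k2 (by positivity : (0 : ℝ) ≤ m * (m + 1) * p.N)
  refine le_of_mul_le_mul_left ?_ m0
  simp only [Wd.rs, Pi.add_apply, rho] at k4 k5 ⊢
  push_cast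
  linarith

end

lemma ew_smul (hM : MtStmt) (F : Fy n) (t c : ℝ) (σ : Cube n) (y : V n) :
    Ew t (fun σ y => c * F σ y) σ y = c * Ew t F σ y :=
  congrFun (congrFun ((hM n).2.2.2.2.1 F t c) σ) y

lemma ew_sum (hM : MtStmt) {ι : Type} (s : Finset ι) {F : ι → Fy n} (h : ∀ b ∈ s, XF (F b)) {t : ℝ}
    (ht : 0 ≤ t) (σ : Cube n) (y : V n) :
    Ew t (fun σ y => ∑ b ∈ s, F b σ y) σ y = ∑ b ∈ s, Ew t (F b) σ y := by
  classical
  induction s using Finset.induction_on with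
  | empty => simp [Ew]
  | insert b s hb ih =>
    simp only [sum_insert hb]
    rw [← ih fun c hc => h c (mem_insert_of_mem hc)]
    exact congrFun (congrFun ((hM n).2.2.2.1 _ _ t (h b (mem_insert_self _ _))
      (xf_sum hM s fun c hc => h c (mem_insert_of_mem hc)) ht) σ) y

lemma gb_sq {e : ℝ} {g : U2 n} (h : RF e g) (t : ℝ) (y : V n) (σ : Cube n) :
    nrm (gb g t y σ) ^ 2 ≤ e ^ 2 * n := by
  have a : ∀ j, |gb g t y σ j| ≤ e := fun j => by
    have := norm_integral_le_of_norm_le_const (μ := Gs (Fin n))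
      (f := fun x => g σ (y + t • sv σ + √t • x) j) (C := e)
      (.of_forall fun x => (h.r0 _).sup σ j)
    simpa [gb, Ew] using this
  rw [nrm_sq, dotProduct]
  refine (sum_le_card_nsmul _ _ (e ^ 2) fun j _ => ?_).trans_eq (by simp [mul_comm])
  rw [← sq, ← sq_abs]
  exact pow_le_pow_left₀ (abs_nonneg _) (a j) 2

lemma sq_mean {v f : Cube n → ℝ} (hv : Wt v) : mean v f ^ 2 ≤ mean v fun x => f x ^ 2 := by
  have := hv.mean_nonneg (f := fun x => f x ^ 2 + (-2 * mean v f * f x + mean v f ^ 2))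
    fun x => by nlinarith [sq_nonneg (f x - mean v f)]
  rw [mean_add, mean_add, mean_const_mul, hv.mean_const] at this
  linarith

lemma mean_dot (μ : Cube n → ℝ) (w : V n) (T : Cube n → Mx n) (a : Cube n → V n) :
    (mean μ fun σ => ((T σ)ᵀ *ᵥ w) ⬝ᵥ a σ) = w ⬝ᵥ meanV μ fun σ => T σ *ᵥ a σ := by
  have e : ∀ σ, ((T σ)ᵀ *ᵥ w) ⬝ᵥ a σ = ∑ j, w j * (T σ *ᵥ a σ) j := fun σ => by
    rw [mulVec_transpose, ← dotProduct_mulVec]; rfl
  simp only [e, mean_sum, mean_const_mul]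
  rfl

/-- the mean response at the base point -/
lemma base {J : Mx n} {y0 w f : V n} {T : Cube n → Mx n} {g : U2 n} {φ : Cube n → ℝ}
    {e t ei u B : ℝ} (hg : RF e g) (e0 : 0 ≤ ei) (e1 : ei ≤ 1) (hw : nrm w ≤ u)
    (hf : nrm (ub J y0 T g t - f) ≤ ei * √n) (ho : (w ⬝ᵥ f) ^ 2 ≤ ei * n * u ^ 2)
    (hl : Exc (ising J y0) ei B fun σ => nrm (grad φ σ - (T σ)ᵀ *ᵥ w)) :
    (mean (ising J y0) fun σ => grad φ σ ⬝ᵥ gb g t y0 σ) ^ 2 ≤
      3 * (n * (2 * ei * u ^ 2 + e ^ 2 * B)) := by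
  obtain ⟨G, g1, -, -, g4⟩ := hl
  have hμ : Wt (ising J y0) := .of_pos fun _ => exp_pos _
  have n0 : (0 : ℝ) ≤ n := n.cast_nonneg
  have eq : (mean (ising J y0) fun σ => grad φ σ ⬝ᵥ gb g t y0 σ) = w ⬝ᵥ f + w ⬝ᵥ (ub J y0 T g t - f) +
      mean (ising J y0) fun σ => (grad φ σ - (T σ)ᵀ *ᵥ w) ⬝ᵥ gb g t y0 σ := by
    rw [← dotProduct_add, add_sub_cancel, ub, ← mean_dot, ← mean_add]
    congr 1; funext σ; rw [← add_dotProduct, add_sub_cancel]
  have h2 : (w ⬝ᵥ (ub J y0 T g t - f)) ^ 2 ≤ ei * n * u ^ 2 := by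
    have a := pow_le_pow_left₀ (abs_nonneg _) ((abs_dot_le w _).trans
      (mul_le_mul hw hf (nrm_nonneg _) ((nrm_nonneg _).trans hw))) 2
    rw [sq_abs, mul_pow, mul_pow, sq_sqrt n0] at a
    have b : 0 ≤ (1 - ei) * (ei * n * u ^ 2) := mul_nonneg (by linarith) (by positivity)
    linarith
  have h3 : (mean (ising J y0) fun σ => (grad φ σ - (T σ)ᵀ *ᵥ w) ⬝ᵥ gb g t y0 σ) ^ 2 ≤
      e ^ 2 * n * B := by
    refine (sq_mean hμ).trans (le_trans (hμ.mean_mono (g := fun σ => e ^ 2 * n * G σ ^ 2) fun σ => ?_) ?_)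
    · have a := pow_le_pow_left₀ (abs_nonneg _) (abs_dot_le (grad φ σ - (T σ)ᵀ *ᵥ w) (gb g t y0 σ)) 2
      rw [sq_abs, mul_pow, mul_comm] at a
      exact a.trans (mul_le_mul (gb_sq hg t y0 σ) (pow_le_pow_left₀ (nrm_nonneg _) (g1 σ) 2)
        (sq_nonneg _) (by positivity))
    · rw [mean_const_mul]; exact mul_le_mul_of_nonneg_left g4 (by positivity)
  rw [eq]
  generalize w ⬝ᵥ f = a at *
  generalize w ⬝ᵥ (ub J y0 T g t - _) = b at *
  generalize (mean (ising J y0) fun σ => (grad φ σ - (T σ)ᵀ *ᵥ w) ⬝ᵥ gb g t y0 σ) = c at *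
  nlinarith [sq_nonneg (a - b), sq_nonneg (a - c), sq_nonneg (b - c)]

/-- the arithmetic of one response -/
lemma ar1 {x m C n ei u K k d e L Y : ℝ} (hC : 0 ≤ C) (hn : 0 < n) (e0 : 0 ≤ ei) (K0 : 0 ≤ K)
    (k0 : 0 ≤ k) (d0 : 0 ≤ d) (hL : L ^ 2 ≤ Y * n) (Y0 : 0 ≤ Y)
    (hm : m ≤ 3 * (n * (2 * ei * u ^ 2 + e ^ 2 * (ei * (u ^ 2 + K)))))
    (hx : x ≤ C * (m + e ^ 2 * n * (ei * (u ^ 2 + K) + ei * (k + 1)) + e ^ 2 * L ^ 2 * (k + 1 + d))) :
    n⁻¹ * x ≤ (e ^ 2 + 1) * (C * (6 * ei * (u ^ 2 + k + 1) + 4 * ei * K + Y * (k + 1 + d))) := by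
  rw [inv_mul_le_iff₀ hn]
  refine hx.trans ?_
  have a1 : e ^ 2 * L ^ 2 * (k + 1 + d) ≤ e ^ 2 * (Y * n) * (k + 1 + d) := by gcongr
  have a2 : 0 ≤ n * (e ^ 2 * ei * (2 * u ^ 2 + 5 * (k + 1)) + 6 * ei * (k + 1) + 4 * ei * K +
      Y * (k + 1 + d)) := by positivity
  calc _ ≤ C * (n * ((e ^ 2 + 1) * (6 * ei * (u ^ 2 + k + 1) + 4 * ei * K + Y * (k + 1 + d)))) :=
        mul_le_mul_of_nonneg_left (by linarith) hC
    _ = _ := by ring

/-- summation over the acts of one level -/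
lemma rho_le (hM : MtStmt) {N m i m' : ℕ} {W : ℕ → ℕ → Wn} {J : Mx n} {φ v : Cube n → ℝ} {y : V n}
    {t Z : ℝ} (ht : 0 ≤ t) (Z0 : 0 ≤ Z) (hz : ∀ m' i', 0 ≤ (W m' i').cz)
    (hg : ∀ i', Sub N (m + 1) i m' i' → ∀ b, RF (W m' i').e ((W m' i').d.g b n J) ∧
      (n : ℝ)⁻¹ * (mean v fun σ => Ew t (fun σ y => (grad φ σ ⬝ᵥ (W m' i').d.g b n J σ y) ^ 2) σ y) ≤
        ((W m' i').e ^ 2 + 1) * Z) :
    (mean v fun σ => Ew t (rho N W J m i φ m') σ y) ≤ N * XS N W (m + 1) i * Z := by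
  have w0 : ∀ a b, 0 ≤ if Sub N (m + 1) i a b then (W a b).wt else 0 := fun a b => by
    have := hz a b
    split_ifs
    exacts [by unfold Wn.wt; positivity, le_rfl]
  have hx : ∀ i' ∈ range (2 ^ N + 1), XF fun σ y =>
      if Sub N (m + 1) i m' i' then (W m' i').cz * (W m' i').d.rs J φ σ y else 0 := fun i' _ => by
    by_cases h : Sub N (m + 1) i m' i'
    · simp only [if_pos h]
      exact xf_smul hM (xf_rsp hM (fun b => (hg i' h b).1) φ) (hz m' i')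
    · simp only [if_neg h]
      exact (hM n).2.2.2.2.2.2.1
  have h1 : ∑ i' ∈ range (2 ^ N + 1), (if Sub N (m + 1) i m' i' then (W m' i').wt else 0) ≤
      XS N W (m + 1) i := by
    by_cases hm : m' < N
    · exact single_le_sum (f := fun a => ∑ i' ∈ range (2 ^ N + 1),
        if Sub N (m + 1) i a i' then (W a i').wt else 0)
        (fun a _ => sum_nonneg fun b _ => w0 a b) (mem_range.2 hm)
    · rw [sum_eq_zero fun b _ => if_neg fun h => hm h.2.1]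
      exact sum_nonneg fun a _ => sum_nonneg fun b _ => w0 a b
  unfold rho
  simp only [ew_smul hM, ew_sum hM _ hx ht, mean_const_mul, mean_sum]
  rw [mul_assoc]
  refine mul_le_mul_of_nonneg_left (le_trans ?_ (mul_le_mul_of_nonneg_right h1 Z0)) N.cast_nonneg
  rw [sum_mul]
  refine sum_le_sum fun i' _ => ?_
  by_cases h : Sub N (m + 1) i m' i'
  · have e : (W m' i').d.rs J φ = fun σ y =>
        (n : ℝ)⁻¹ * ∑ b, (grad φ σ ⬝ᵥ (W m' i').d.g b n J σ y) ^ 2 := by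
      funext σ y; rw [Wd.rs, Rsp, div_eq_inv_mul]
    simp only [if_pos h, e, ew_smul hM, mean_const_mul, mean_sum,
      ew_sum hM univ (fun b _ => xf_sq (hg i' h b).1 (grad φ)) ht]
    rw [Wn.wt, mul_assoc, mul_assoc, mul_sum]
    refine mul_le_mul_of_nonneg_left ?_ (hz m' i')
    exact (sum_le_card_nsmul _ _ _ fun b _ => (hg i' h b).2).trans_eq (by simp)
  · simp [if_neg h, Ew, mean]

lemma ar2 {C X ei e1 u K k d Y : ℝ} (e0 : 0 ≤ e1) (e11 : e1 ≤ 1) (K0 : 0 ≤ K)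
    (k0 : 0 ≤ k) (d0 : 0 ≤ d) (h1 : 12 * C * X * ei ≤ e1) (h2 : 12 * C * X * Y ≤ e1) :
    X * (C * (6 * ei * (u ^ 2 + k + 1) + 4 * ei * K + Y * (k + 1 + d))) ≤
      e1 * (u ^ 2 + k + d + 1) + K := by
  have a1 := mul_le_mul_of_nonneg_right h1 (by positivity : 0 ≤ u ^ 2 + k + 1)
  have a2 := mul_le_mul_of_nonneg_right (h1.trans e11) K0
  have a3 := mul_le_mul_of_nonneg_right h2 (by positivity : 0 ≤ k + 1 + d)
  have a4 : 0 ≤ e1 * u ^ 2 := by positivity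
  have a5 := mul_nonneg e0 k0
  have a6 := mul_nonneg e0 d0
  linarith

lemma ee_le {p : Par} (ok : p.Ok) (j : ℕ) : p.ee j ≤ 1 := by
  have h0 := (ok.e0 j).le
  have h1 := ok.M1 j
  have h2 := ok.C1'
  have h3 : 1 ≤ p.CZ := by nlinarith [ok.CZ1, ok.lq0, ok.lq1]
  have h4 : (1 : ℝ) ≤ 8 ^ p.N := one_le_pow₀ (by norm_num)
  have h5 : (1 : ℝ) ≤ p.N + 1 := by linarith [p.N.cast_nonneg (α := ℝ)]
  refine le_trans ?_ (ok.le j)
  calc p.ee j = 1 * 1 * 1 * 1 ^ 2 * 1 * 1 ^ 2 * p.ee j := by ring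
    _ ≤ _ := by gcongr; norm_num

end Tk38

open Tk38

theorem tokGlue38 : TokGlue := by
  intro hP hM K0 κ0 S hκ
  obtain ⟨C, C1, hC⟩ := hP K0 κ0 S hκ
  refine ⟨12 * C, by linarith, fun n p z J W G m i y0 pA al q w u ei T ι f φ hn ok K1 hS h1 hm hv
    hb e0 e1 hz hg a1 a2 tk => ?_⟩
  obtain ⟨W0, Ω0, G0, an⟩ := tk.ans
  obtain ⟨Ω, rg, G1, g1, -, g3, g4⟩ := tk.reg
  refine ⟨⟨φ, W0, Ω0, G0, rho p.N W J m i φ⟩, ⟨an, tk.u0, tk.ut,
    rho_xf hM hz (fun a b h c => (hg a b h c).1) φ, fun v y m' wv _ _ l1 l2 => ?_,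
    rho_pv G h1 hm hv hz φ _⟩, rfl⟩
  have n0 : (0 : ℝ) < n := by exact_mod_cast hn
  have hμ : Wt (ising J y0) := .of_pos fun _ => exp_pos _
  have k0 : 0 ≤ kl v (ising J y0) :=
    Ent.kl_nonneg wv.isP hμ.isP (Ent.AC.of_pos _ fun x => div_pos (exp_pos _) hμ.pos)
  have l3 : (m : ℝ) ≤ m' := by exact_mod_cast l1.le
  have l4 : (m' : ℝ) ≤ p.N := by exact_mod_cast l2
  have t0 : 0 ≤ ((m' : ℝ) - m) * p.τ := mul_nonneg (by linarith) ok.τ0.le
  have t1 : ((m' : ℝ) - m) * p.τ ≤ S :=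
    (mul_le_mul_of_nonneg_right (by linarith [m.cast_nonneg (α := ℝ)]) ok.τ0.le).trans hS
  have t2 : 0 ≤ p.CN m i ^ 2 * z.t' m / n :=
    div_nonneg (mul_nonneg (sq_nonneg _) ((sq_nonneg _).trans tk.ut)) n0.le
  have t3 : (p.CN m i * u) ^ 2 ≤ p.CN m i ^ 2 * z.t' m / n * n := by
    rw [div_mul_cancel₀ _ n0.ne', mul_pow]; exact mul_le_mul_of_nonneg_left tk.ut (sq_nonneg _)
  have K0' : 0 ≤ z.K := by linarith
  have C0 : 0 ≤ C := by linarith
  refine (rho_le hM t0 (Z := C * (6 * ei * (u ^ 2 + kl v (ising J y0) + 1) + 4 * ei * z.K +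
    p.CN m i ^ 2 * z.t' m / n * (kl v (ising J y0) + 1 + nrm (y - y0) ^ 2))) (by positivity) hz
    fun i' hs b => ⟨(hg m' i' hs b).1, ?_⟩).trans
    (ar2 (ok.e0 _).le (ee_le ok _) K0' k0 (sq_nonneg _) (by simpa only [mul_assoc] using a1) ?_)
  · obtain ⟨r, j, hj⟩ := hg m' i' hs b
    exact ar1 C0 n0 e0 K0' k0 (sq_nonneg _) t3 t2 (base r e0 e1 tk.wu hj (tk.ort j) tk.lk)
      (hC n J y0 y _ _ _ ei _ _ φ G1 v Ω hb r t0 t1 an.gr rg g1 g3 g4 e1 wv)
  · rw [← mul_div_assoc, div_le_iff₀ n0]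
    simpa only [mul_assoc] using a2

end Crest.Agent.T157.Kz

end
end

-- ▼ part T157/KzMok_75
section

/-!
# Row 157, part B (helper75): `MokGlue`
-/

set_option autoImplicit false

noncomputable section

namespace Crest.Agent.T157.Kz

open MeasureTheory Real Matrix Finset Filter
open Crest.Agent.T157.E Crest.Agent.T157.Eig Crest.Agent.T157.K Crest.Agent.T157.S1
open Crest.Agent.T157.Tap (V Mx)
open Crest.Agent.T157.SL (Wt)

namespace Mok75

variable {n : ℕ}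

/-- the accuracy of the window beats the network constant -/
theorem ec_le (p : Par) (hp : p.Ok) {m : ℕ} (i : ℕ) (hm : m < p.N) :
    p.CN m i * p.ec (m + 1) i ≤ p.ω m i := by
  set j := p.bt (m + 1) i with hj
  have hij : i + 1 ≤ j := by
    have : 1 ≤ 2 ^ (p.N - (m + 1)) := Nat.one_le_two_pow
    simp only [hj, Par.bt]; omega
  have h1 := (hp.lM m i hm).1.trans (hp.Mm hij)
  have h2 := hp.le j
  have hω0 := hp.ω0 m i
  have hω1 := hp.ω1 m i
  have hCN := hp.CN1 m i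
  have hM := hp.M1 j
  have he := hp.e0 j
  have hC := hp.C1'
  have hP := hp.P1
  have hκ0 := hp.κ0'
  have hκ1 := hp.κ1
  have hη0 := hp.η00
  have hη1 := hp.η01
  have hZ : 1 ≤ p.CZ := by
    have a := hp.CZ1
    have b := hp.lq0
    have c := hp.lq1
    by_contra hc
    nlinarith [not_le.1 hc]
  have hx : 1 ≤ p.CN m i / p.ω m i := by rw [le_div_iff₀ hω0]; linarith
  have hy : p.CN m i / p.ω m i ≤ p.P * p.CN m i / (p.κ * p.η0 * p.ω m i) := by
    refine div_le_div₀ (by positivity) (by nlinarith) (by positivity) ?_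
    have : p.κ * p.η0 ≤ 1 := by nlinarith
    nlinarith
  have h3 : p.CN m i / p.ω m i ≤ p.M j := by
    refine le_trans ?_ h1
    unfold Mx'
    nlinarith [sq_nonneg (p.P * p.CN m i / (p.κ * p.η0 * p.ω m i))]
  rw [div_le_iff₀ hω0] at h3
  have h4 : p.M j * (p.N ^ 2 * p.ee j) ≤ 1 := by
    refine le_trans ?_ h2
    have a : (1 : ℝ) ≤ 8 ^ p.N := one_le_pow₀ (by norm_num)
    have b : (p.N : ℝ) ^ 2 ≤ (p.N + 1) ^ 2 := by gcongr; linarith
    have c : p.M j ≤ p.M j ^ 2 := by nlinarith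
    have d : 1 ≤ 8 * p.C * p.CZ := by nlinarith
    calc p.M j * (p.N ^ 2 * p.ee j) = 1 * (p.N : ℝ) ^ 2 * 1 * p.M j * p.ee j := by ring
      _ ≤ _ := by gcongr
  have h5 : 0 ≤ (p.N : ℝ) ^ 2 * p.ee j := by positivity
  calc p.CN m i * p.ec (m + 1) i = p.CN m i * (p.N ^ 2 * p.ee j) := rfl
    _ ≤ p.M j * p.ω m i * (p.N ^ 2 * p.ee j) := by gcongr
    _ = p.ω m i * (p.M j * (p.N ^ 2 * p.ee j)) := by ring
    _ ≤ p.ω m i * 1 := by gcongr
    _ = _ := mul_one _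

theorem zs_nn {nb : ℕ} (d : Wd nb) (J : Mx n) (σ : Cube n) (y : V n) : 0 ≤ d.zs J σ y := by
  unfold Wd.zs Md.Zs; positivity

theorem rs_nn {nb : ℕ} (d : Wd nb) (J : Mx n) (Θ : Cube n → ℝ) (σ : Cube n) (y : V n) :
    0 ≤ d.rs J Θ σ y := by
  unfold Wd.rs Md.Rsp; positivity

theorem zs_le {N : ℕ} {W : ℕ → ℕ → Wn} (hW : ∀ m i, 0 ≤ (W m i).cz) (J : Mx n) (m : ℕ) {i : ℕ}
    (hi : i ≤ 2 ^ N) (σ : Cube n) (y : V n) :
    (W m i).cz * (W m i).d.zs J σ y ≤ zn N W J m σ y := by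
  simp only [zn, Finset.sum_apply, Pi.smul_apply, smul_eq_mul]
  exact single_le_sum (f := fun i => (W m i).cz * (W m i).d.zs J σ y)
    (fun i _ => mul_nonneg (hW m i) (zs_nn _ _ _ _)) (mem_range.2 (by omega))

theorem sub_nx (p : Par) {m i0 i : ℕ} (hm : m < p.N) (h : p.Nx m i0 i) : Sub p.N m i0 m i := by
  have h2 : 2 ^ (p.N - m) = 2 * 2 ^ (p.N - (m + 1)) := by
    rw [← pow_succ']; congr 1; omega
  refine ⟨le_rfl, hm, ?_, ?_⟩ <;> rcases h with h | h <;> omega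

end Mok75

open Mok75 in
theorem mokGlue : MokGlue := by
  intro hL hCr n p z J W G m i y0 pv a0 al q k nh v h d CM R θ ε e η η' hn hp hJ m1 mN hval hW hWm
    hCM hpM hpN hBas hθ hlin hmod hmag hM D s i0 F hD hDJ hDP hNx hCl hPV hSz hy
  obtain ⟨T, hT1, hT2⟩ := hmod
  obtain ⟨hpr, -, -, -, -, c1, c2, -, -, c3, -⟩ := hCr n D s hD
  have hw : Wt (nu D s) := hpr.hv
  have hn' : (0 : ℝ) < n := by exact_mod_cast hn
  have hC1 := hp.C11
  have hω := hp.ω0 m i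
  set A : ℝ := 2 * p.C1 + 6 with hA
  have A1 : 1 ≤ A := by linarith
  have hec : CM * A ^ 2 * p.ec (m + 1) i ≤ p.ω m i / 2 := by
    have a := ec_le p hp i mN
    have b : 0 ≤ p.ec (m + 1) i := mul_nonneg (sq_nonneg _) (hp.e0 _).le
    nlinarith [mul_le_mul_of_nonneg_right hpN b]
  have b0 : Bas J p.K0 p.κ0 y0 := hBas y0 (by simpa using (sq_nonneg _).trans hy)
  have key := fun κ => hM D s (z.t m) _ A κ hD hDJ hDP b0 (hBas _ hy) hCl hSz hy hθ A1 hec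
  set mz := mean (nu D s) fun σ => d.zs J σ s.y with hmz
  set mr := mean (nu D s) fun σ => d.rs J s.Th σ s.y with hmr
  have mz0 : 0 ≤ mz := hw.mean_nonneg fun σ => zs_nn _ _ _ _
  have mr0 : 0 ≤ mr := hw.mean_nonneg fun σ => rs_nn _ _ _ _ _
  have dd : 0 ≤ del s ⬝ᵥ del s := by rw [← nrm_sq]; positivity
  have bb : 0 ≤ Bb D s y0 := by unfold Bb S1.Bd; positivity
  set Z := CM * A ^ 2 * (del s ⬝ᵥ del s) + CM * R ^ 2 * (mz + mr) + p.ω m i / 2 * (Bb D s y0 + 1) +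
    CM * A ^ 2 * Ex D s with hZ
  have Z0 : 0 ≤ Z := by positivity
  -- the modes
  have h1 : ∑ a ∈ range k, (v a ⬝ᵥ (q * (a0 * Del D s - J *ᵥ Del D s))) ^ 2 ≤ Z := by
    refine hL n (Fin nh) J a0 q (Del D s) k v h T p.C1 R Z hn hJ.1 hJ.2.2 (fun j => ?_) hlin.on hT1
      hT2 Z0 fun κ hκ hκ' => ?_
    · obtain ⟨p0, p1⟩ := hlin.hp j
      obtain ⟨q0, q1⟩ := hlin.hq j
      have q2 : 0 ≤ q j := le_trans (mul_nonneg hp.lq0.le p0.le) q0
      rw [abs_mul, abs_of_nonneg q2]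
      exact ⟨by nlinarith [(hlin.ha j).1, abs_nonneg (a0 j)], by linarith⟩
    · have := key (Fin.cons 0 κ) (by simpa [Fin.sum_univ_succ] using hκ)
        (by simpa [Fin.sum_univ_succ] using hκ')
      simpa [Fin.sum_univ_succ] using this
  -- the magnetisation
  set μ := mag (ising J y0) with hμ
  have h2 : (μ ⬝ᵥ Del D s) ^ 2 / (μ ⬝ᵥ μ) ≤ Z := by
    have μ0 : 0 < μ ⬝ᵥ μ := by
      rcases (show 0 ≤ μ ⬝ᵥ μ by rw [← nrm_sq]; positivity).eq_or_lt with h0 | h0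
      · rw [← h0] at hmag; linarith
      · exact h0
    have μ1 : 0 < nrm μ := sqrt_pos.2 μ0
    have e1 : (√n / nrm μ) ^ 2 = n / (μ ⬝ᵥ μ) := by rw [div_pow, sq_sqrt hn'.le, nrm_sq]
    have e2 : ∑ b : Fin (nh + 1), (Fin.cons (√n / nrm μ) 0 : Fin (nh + 1) → ℝ) b •
        (Fin.cons μ fun b => a0 * (q * h b) - J *ᵥ (q * h b) : Fin (nh + 1) → V n) b =
        (√n / nrm μ) • μ := by simp [Fin.sum_univ_succ]
    have := key (Fin.cons (√n / nrm μ) 0)
      (by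
        have : ∑ b : Fin (nh + 1), (Fin.cons (√n / nrm μ) 0 : Fin (nh + 1) → ℝ) b ^ 2 =
          (√n / nrm μ) ^ 2 := by simp [Fin.sum_univ_succ]
        rw [this, e1, div_le_iff₀ μ0]; exact hmag)
      (by
        rw [e2, nrm_smul, abs_of_nonneg (by positivity), div_mul_cancel₀ _ μ1.ne']
        exact le_mul_of_one_le_left (sqrt_nonneg _) A1)
    rw [e2, smul_dotProduct, smul_eq_mul, mul_pow, e1] at this
    refine le_trans (le_of_eq ?_) this
    field_simp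
  -- the oracle
  have hi : i ≤ 2 ^ p.N := le_trans (Nat.le_add_right _ _) hval
  have h3 : 2 * CM * R ^ 2 * mz ≤ mean (nu D s) fun σ => (orc p.N W G J).zn m σ s.y := by
    rw [hmz, ← SL.mean_const_mul]
    refine hw.mean_mono fun σ => ?_
    have := zs_le hW J m hi σ s.y
    rw [hWm] at this
    exact this
  have h4 : 2 * CM * R ^ 2 * mr ≤ mean (nu D s) fun σ => F m σ s.y := by
    rw [hmr, ← SL.mean_const_mul]
    refine hw.mean_mono fun σ => ?_
    have a := hPV m i (sub_nx p mN hNx) σ s.y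
    rw [hWm] at a
    have m0 : (0 : ℝ) < m := by exact_mod_cast m1
    have mN' : (m : ℝ) ≤ p.N := by exact_mod_cast mN.le
    have b : 0 ≤ 2 * CM * R ^ 2 * d.rs J s.Th σ s.y := mul_nonneg (by positivity) (rs_nn _ _ _ _ _)
    exact le_of_mul_le_mul_left ((mul_le_mul_of_nonneg_right mN' b).trans a) m0
  have h5 := mul_le_mul_of_nonneg_right hpM dd
  have h6 := mul_le_mul_of_nonneg_right hpN c3
  unfold S1.Mod
  rw [← hμ]
  linarith

end Crest.Agent.T157.Kz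

end
end

-- ▼ part T157/KzRec_42

/-!
# Row 157, part B (helper42): the backward recursion (after helper36's `KRec_36`)
-/

set_option autoImplicit false

noncomputable section

namespace Crest.Agent.T157.Kz

namespace Rec42

variable {D : Type} (d0 : D) (N : ℕ) (S : ℕ → ℕ → ℝ → ℝ → (ℕ → ℕ → D) → D)

/-- `k` steps of the recursion -/
def it (ω : ℕ → ℕ → ℝ) (e : ℕ → ℝ) : ℕ → ℕ → ℕ → D
  | 0 => fun _ _ => d0
  | k + 1 => fun m i => S m i (ω m i) (e (i + 2 ^ (N - (m + 1))))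
      fun m' i' => if Sub N (m + 1) i m' i' then it ω e k m' i' else d0

theorem it_succ (ω : ℕ → ℕ → ℝ) (e : ℕ → ℝ) (k m i : ℕ) : it d0 N S ω e (k + 1) m i =
    S m i (ω m i) (e (i + 2 ^ (N - (m + 1))))
      fun m' i' => if Sub N (m + 1) i m' i' then it d0 N S ω e k m' i' else d0 := rfl

theorem stab (ω : ℕ → ℕ → ℝ) (e : ℕ → ℝ) :
    ∀ k m i, N ≤ m + k + 1 → it d0 N S ω e (k + 2) m i = it d0 N S ω e (k + 1) m i := by
  intro k
  induction k with
  | zero =>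
    intro m i h
    rw [it_succ, it_succ]
    congr 1
    funext m' i'
    split_ifs with hs
    · exact absurd (hs.1.trans_lt hs.2.1) (by omega)
    · rfl
  | succ k ih =>
    intro m i h
    rw [it_succ d0 N S ω e (k + 2), it_succ d0 N S ω e (k + 1)]
    congr 1
    funext m' i'
    split_ifs with hs
    · exact ih m' i' (by have := hs.1; omega)
    · rfl

theorem loc {j : ℕ} {ω ω' : ℕ → ℕ → ℝ} {e e' : ℕ → ℝ} (h1 : ∀ m, ∀ i < j, ω m i = ω' m i)
    (h2 : ∀ i ≤ j, e i = e' i) :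
    ∀ k m i, i + 2 ^ (N - (m + 1)) ≤ j → it d0 N S ω e k m i = it d0 N S ω' e' k m i := by
  intro k
  induction k with
  | zero => intro m i _; rfl
  | succ k ih =>
    intro m i h
    have : 0 < 2 ^ (N - (m + 1)) := by positivity
    rw [it_succ, it_succ, h1 m i (by omega), h2 _ h]
    congr 1
    funext m' i'
    split_ifs with hs
    · exact ih m' i' (hs.2.2.2.trans h)
    · rfl

end Rec42

theorem recStmt42 : RecStmt := fun D d0 N R h => by
  choose S hS using h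
  refine ⟨fun ω e => Rec42.it d0 N S ω e (N + 1), fun ω e m i => ?_,
    fun j ω ω' e e' h1 h2 => Rec42.loc d0 N S h1 h2 _⟩
  have : Rec42.it d0 N S ω e (N + 1) m i = Rec42.it d0 N S ω e (N + 2) m i :=
    (Rec42.stab d0 N S ω e N m i (by omega)).symm
  simp only []
  rw [this, Rec42.it_succ d0 N S ω e (N + 1)]
  exact hS _ _ _ _ _

end Crest.Agent.T157.Kz

end
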