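import Crest.Agent.T157.LmBasA_78
import Crest.Agent.T157.LmDef_76
import Crest.Agent.T157.TwM1_52
import Crest.Agent.T157.LmDefB_76
import Crest.Agent.T157.ZLip_85

-- ▼ part T157/LmBasB_5
section

/-!
# Row 157, block B/S5 (helper5): the `L²` part of `BasStmt`
-/

set_option autoImplicit false

noncomputable section

namespace Crest.Agent.T157.Lm

open MeasureTheory Real Filter Topology Finset
open Crest.Agent.R238.Gap (E)
open Crest.Agent.R253.Meh74 (gam)
open Crest.Agent.T157.E (Cube sv mean gen)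
open Crest.Agent.T157.Chain22 (sg)
open Crest.Agent.T157.Pl (one)

/-- the change-of-measure part of `BasStmt` -/
structure BasA : Prop where
  R_apply : ∀ m n (S : GS m n) k z e, S.R k z e =
    if S.inc k e = true then -z e - 2 * S.α e else z e
  rev : ∀ m n (S : GS m n) k (F : E m → ℝ), Measurable F → Integrable F (gam m) →
    Integrable (fun z => S.c k z * F (S.R k z)) (gam m) ∧
      ∫ z, S.c k z * F (S.R k z) ∂gam m = ∫ z, S.c k z * F z ∂gam m
  orb : ∀ m n (S : GS m n) (F : E m → ℝ), Measurable F → Integrable F (gam m) →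
    Integrable (fun z => mean (S.w z) (S.orb F z)) (gam m) ∧
      ∫ z, mean (S.w z) (S.orb F z) ∂gam m = ∫ z, F z ∂gam m
  orb_L : ∀ m n (S : GS m n) F z, S.orb (S.L F) z = gen (S.w z) (S.orb F z)
  orb_T : ∀ m n (S : GS m n) t F z, 0 < n → S.orb (S.T t F) z = sg (S.w z) t (S.orb F z)
  res : ∀ m n (S : GS m n) ζ F z, 0 < n → 0 < ζ → ζ * S.Rz ζ F z - S.L (S.Rz ζ F) z =
    F z - (n / (ζ + n)) ^ n ^ 2 * S.P^[n ^ 2] F z

namespace B5

variable {m n : ℕ} {S : GS m n} {k : Fin n} {F G : E m → ℝ}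

/-! ### measurability -/

theorem cont_gz (σ : Cube n) : Continuous (S.gz σ) :=
  (PiLp.continuous_toLp 2 _).comp (continuous_pi fun e => by fun_prop)
theorem meas_gz (σ : Cube n) : Measurable (S.gz σ) := (cont_gz σ).measurable
theorem meas_R : Measurable (S.R k) := meas_gz _
theorem cont_h : Continuous (S.h k) :=
  continuous_finsetSum _ fun e _ => by split_ifs <;> fun_prop
theorem cont_tanh : Continuous tanh := by
  have : tanh = fun x => sinh x / cosh x := funext tanh_eq_sinh_div_cosh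
  rw [this]
  exact continuous_sinh.div continuous_cosh fun x => (cosh_pos x).ne'
theorem cont_c : Continuous (S.c k) := (continuous_const.sub (cont_tanh.comp cont_h)).div_const 2
theorem meas_c : Measurable (S.c k) := cont_c.measurable
theorem c_pos (z : E m) : 0 < S.c k z := by
  unfold GS.c; linarith [tanh_lt_one (S.h k z)]
theorem c_lt (z : E m) : S.c k z < 1 := by
  unfold GS.c; linarith [neg_one_lt_tanh (S.h k z)]
theorem cont_w (σ : Cube n) : Continuous fun z => S.w z σ := by unfold GS.w; fun_prop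
theorem meas_T (t : ℝ) (hF : Measurable F) : Measurable (S.T t F) :=
  Finset.measurable_sum _ fun y _ =>
    (Rec.measurable_hbCt (fun x => (cont_w x).measurable) t _ y).mul (hF.comp (meas_gz y))

/-! ### square integrable functions -/

theorem sq_nn (F : E m → ℝ) : 0 ≤ sq F := integral_nonneg fun _ => sq_nonneg _
theorem int_sq (h : M2 F) : Integrable (fun z => F z ^ 2) (gam m) := h.2.integrable_sq
theorem int_mul (h : M2 F) (h' : M2 G) : Integrable (fun z => F z * G z) (gam m) :=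
  h.2.integrable_mul h'.2
theorem m2_of (hF : Measurable F) {g : E m → ℝ} (hg : Integrable g (gam m))
    (h : ∀ z, F z ^ 2 ≤ g z) : M2 F ∧ sq F ≤ ∫ z, g z ∂gam m := by
  have i : Integrable (fun z => F z ^ 2) (gam m) :=
    hg.mono' (hF.pow_const 2).aestronglyMeasurable
      (ae_of_all _ fun z => by rw [norm_of_nonneg (sq_nonneg _)]; exact h z)
  exact ⟨⟨hF, (memLp_two_iff_integrable_sq hF.aestronglyMeasurable).2 i⟩, integral_mono i hg h⟩
theorem m2_sub (h : M2 F) (h' : M2 G) : M2 fun z => F z - G z := ⟨h.1.sub h'.1, h.2.sub h'.2⟩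
theorem m2_mul (a : ℝ) (h : M2 F) : M2 fun z => a * F z := ⟨h.1.const_mul a, h.2.const_mul a⟩
theorem m2_sum {ι : Type*} (s : Finset ι) {f : ι → E m → ℝ} (h : ∀ i ∈ s, M2 (f i)) :
    M2 fun z => ∑ i ∈ s, f i z :=
  ⟨Finset.measurable_sum _ fun i hi => (h i hi).1, memLp_finsetSum _ fun i hi => (h i hi).2⟩

theorem int_c {f : E m → ℝ} (h : Integrable f (gam m)) :
    Integrable (fun z => S.c k z * f z) (gam m) :=
  h.bdd_mul (c := 1) meas_c.aestronglyMeasurable
    (ae_of_all _ fun z => by rw [norm_of_nonneg (c_pos z).le]; exact (c_lt z).le)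

theorem m2_c (h : M2 F) : M2 fun z => S.c k z * F z :=
  (m2_of (F := fun z => S.c k z * F z) (meas_c.mul h.1) (int_sq h) fun z => by
    rw [mul_pow]
    exact mul_le_of_le_one_left (sq_nonneg _) (pow_le_one₀ (c_pos z).le (c_lt z).le)).1

theorem fatou {f : ℕ → E m → ℝ} {g : E m → ℝ} {B : ℝ} (hi : ∀ N, Integrable (f N) (gam m))
    (hm : ∀ N, Measurable (f N)) (h0 : ∀ N z, 0 ≤ f N z) (hg : Measurable g)
    (lim : ∀ z, Tendsto (fun N => f N z) atTop (𝓝 (g z))) (hB : ∀ N, ∫ z, f N z ∂gam m ≤ B) :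
    Integrable g (gam m) ∧ ∫ z, g z ∂gam m ≤ B := by
  have g0 : ∀ z, 0 ≤ g z := fun z => ge_of_tendsto' (lim z) fun N => h0 N z
  have B0 : 0 ≤ B := (integral_nonneg (h0 0)).trans (hB 0)
  have h1 : ∫⁻ z, ENNReal.ofReal (g z) ∂gam m ≤ ENNReal.ofReal B := by
    have e : ∀ z, ENNReal.ofReal (g z) = liminf (fun N => ENNReal.ofReal (f N z)) atTop :=
      fun z => (ENNReal.tendsto_ofReal (lim z)).liminf_eq.symm
    simp only [e]
    refine (lintegral_liminf_le fun N => (hm N).ennreal_ofReal).trans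
      (liminf_le_of_frequently_le' (Frequently.of_forall fun N => ?_))
    rw [← ofReal_integral_eq_lintegral_ofReal (hi N) (ae_of_all _ (h0 N))]
    exact ENNReal.ofReal_le_ofReal (hB N)
  have i : Integrable g (gam m) :=
    (lintegral_ofReal_ne_top_iff_integrable hg.aestronglyMeasurable (ae_of_all _ g0)).1
      (h1.trans_lt ENNReal.ofReal_lt_top).ne
  rw [← ofReal_integral_eq_lintegral_ofReal i (ae_of_all _ g0)] at h1
  exact ⟨i, (ENNReal.ofReal_le_ofReal_iff B0).1 h1⟩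

theorem jensen {ι : Type*} (s : Finset ι) {θ : ι → ℝ} (h : ∀ i, 0 ≤ θ i) (a : ι → ℝ) :
    (∑ i ∈ s, θ i * a i) ^ 2 ≤ (∑ i ∈ s, θ i) * ∑ i ∈ s, θ i * a i ^ 2 :=
  sum_sq_le_sum_mul_sum_of_sq_le_mul s (fun i _ => h i)
    (fun i _ => mul_nonneg (h i) (sq_nonneg _)) fun i _ => le_of_eq (by ring)

variable (A : BasA)
include A

theorem RR (z : E m) : S.R k (S.R k z) = z := by
  ext e
  simp only [A.R_apply]
  split_ifs <;> ring

theorem rev_sq (h : M2 F) : Integrable (fun z => S.c k z * F (S.R k z) ^ 2) (gam m) ∧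
    ∫ z, S.c k z * F (S.R k z) ^ 2 ∂gam m = ∫ z, S.c k z * F z ^ 2 ∂gam m :=
  A.rev m n S k _ (h.1.pow_const 2) (int_sq h)

theorem m2_cR (h : M2 F) : M2 fun z => S.c k z * F (S.R k z) :=
  (m2_of (F := fun z => S.c k z * F (S.R k z)) (meas_c.mul (h.1.comp meas_R))
    (rev_sq (S := S) (k := k) A h).1 fun z => by
    have a : 0 < S.c k z := c_pos z
    have b : S.c k z < 1 := c_lt z
    rw [mul_pow]
    exact mul_le_mul_of_nonneg_right (by nlinarith) (sq_nonneg _)).1

/-- reversibility for functions that are only integrable against the rate -/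
theorem rev' {f : E m → ℝ} (hf : Measurable f) (h1 : Integrable (fun z => S.c k z * f z) (gam m))
    (h2 : Integrable (fun z => S.c k z * f (S.R k z)) (gam m)) :
    ∫ z, S.c k z * f (S.R k z) ∂gam m = ∫ z, S.c k z * f z ∂gam m := by
  let τ : ℕ → ℝ → ℝ := fun N u => if |u| ≤ N then u else 0
  have τm : ∀ N, Measurable (τ N) := fun N =>
    Measurable.ite (measurableSet_le (by fun_prop) measurable_const) measurable_id measurable_const
  have τb : ∀ N u, |τ N u| ≤ |u| ∧ |τ N u| ≤ N := fun N u => by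
    simp only [τ]; split_ifs with h
    · exact ⟨le_rfl, h⟩
    · simp
  have τl : ∀ u, Tendsto (fun N => τ N u) atTop (𝓝 u) := fun u =>
    tendsto_const_nhds.congr' <| (tendsto_natCast_atTop_atTop.eventually
      (eventually_ge_atTop |u|)).mono fun N hN => (if_pos hN).symm
  have key : ∀ g : E m → ℝ, Measurable g → Integrable (fun z => S.c k z * g z) (gam m) →
      Tendsto (fun N => ∫ z, S.c k z * τ N (g z) ∂gam m) atTop
        (𝓝 (∫ z, S.c k z * g z ∂gam m)) := fun g hg hi =>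
    tendsto_integral_of_dominated_convergence _
      (fun N => (meas_c.mul ((τm N).comp hg)).aestronglyMeasurable) hi.norm
      (fun N => ae_of_all _ fun z => by
        rw [norm_mul, norm_mul]
        exact mul_le_mul_of_nonneg_left (τb N _).1 (norm_nonneg _))
      (ae_of_all _ fun z => (τl _).const_mul _)
  refine tendsto_nhds_unique (key _ (hf.comp meas_R) h2) ((key f hf h1).congr fun N => ?_)
  exact (A.rev m n S k (fun z => τ N (f z)) ((τm N).comp hf)
    (Integrable.of_bound ((τm N).comp hf).aestronglyMeasurable N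
      (ae_of_all _ fun z => (τb N _).2))).2.symm

theorem int_FR (h : M2 F) (h' : M2 G) :
    Integrable (fun z => S.c k z * (F z * G (S.R k z))) (gam m) :=
  (int_mul h (m2_cR (S := S) (k := k) A h')).congr (ae_of_all _ fun z => by ring)

theorem rev_RR (h : M2 F) (h' : M2 G) :
    Integrable (fun z => S.c k z * (F (S.R k z) * G (S.R k z))) (gam m) ∧
      ∫ z, S.c k z * (F (S.R k z) * G (S.R k z)) ∂gam m = ∫ z, S.c k z * (F z * G z) ∂gam m :=
  A.rev m n S k (fun z => F z * G z) (h.1.mul h'.1) (int_mul h h')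

theorem rev_FR (h : M2 F) (h' : M2 G) : ∫ z, S.c k z * (G z * F (S.R k z)) ∂gam m =
    ∫ z, S.c k z * (F z * G (S.R k z)) ∂gam m := by
  have := rev' (S := S) (k := k) A (f := fun z => F z * G (S.R k z))
    (h.1.mul (h'.1.comp meas_R)) (int_FR A h h')
    ((int_FR (S := S) (k := k) A h' h).congr (ae_of_all _ fun z => by simp only [RR A, mul_comm]))
  rw [← this]
  simp only [RR A, mul_comm]

theorem m2_cD (h : M2 F) : M2 fun z => S.c k z * S.D k F z := by
  simpa only [GS.D, mul_sub] using m2_sub (m2_cR A h) (m2_c h)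

theorem m2_L (h : M2 F) : M2 (S.L F) := m2_sum _ fun _ _ => m2_cD A h

theorem En_k (h : M2 F) (h' : M2 G) :
    Integrable (fun z => S.c k z * (S.D k F z * S.D k G z)) (gam m) ∧
      ∫ z, S.c k z * (S.D k F z * S.D k G z) ∂gam m =
        -2 * ∫ z, F z * (S.c k z * S.D k G z) ∂gam m := by
  obtain ⟨i1, e1⟩ := rev_RR (S := S) (k := k) A h h'
  have i2 := int_FR (S := S) (k := k) A h h'
  have i3 := int_FR (S := S) (k := k) A h' h
  have i4 := int_c (S := S) (k := k) (int_mul h h')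
  have e2 := rev_FR (S := S) (k := k) A h h'
  have e : (fun z => S.c k z * (S.D k F z * S.D k G z)) = fun z =>
      S.c k z * (F (S.R k z) * G (S.R k z)) - S.c k z * (F z * G (S.R k z)) -
        S.c k z * (G z * F (S.R k z)) + S.c k z * (F z * G z) := by
    funext z; simp only [GS.D]; ring
  have e' : (fun z => F z * (S.c k z * S.D k G z)) = fun z =>
      S.c k z * (F z * G (S.R k z)) - S.c k z * (F z * G z) := by
    funext z; simp only [GS.D]; ring
  have j1 : Integrable (fun z => S.c k z * (F (S.R k z) * G (S.R k z)) -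
      S.c k z * (F z * G (S.R k z))) (gam m) := i1.sub i2
  have j2 : Integrable (fun z => S.c k z * (F (S.R k z) * G (S.R k z)) -
      S.c k z * (F z * G (S.R k z)) - S.c k z * (G z * F (S.R k z))) (gam m) := j1.sub i3
  rw [e, e', integral_add j2 i4, integral_sub j1 i3, integral_sub i1 i2, integral_sub i2 i4, e1, e2]
  exact ⟨j2.add i4, by ring⟩

theorem en_eq (h : M2 F) (h' : M2 G) : S.En F G = -∫ z, F z * S.L G z ∂gam m := by
  simp only [GS.En, GS.L, mul_sum, fun k => (En_k (S := S) (k := k) A h h').2]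
  rw [integral_finsetSum _ fun k _ => int_mul h (m2_cD A h'), ← mul_sum]
  ring

omit A in
theorem en_nn (F : E m → ℝ) : 0 ≤ S.En F F :=
  div_nonneg (sum_nonneg fun _ _ => integral_nonneg fun z =>
    mul_nonneg (c_pos z).le (mul_self_nonneg _)) zero_le_two

omit A in
theorem en_comm (F G : E m → ℝ) : S.En F G = S.En G F := by
  simp only [GS.En, mul_comm (S.D _ F _)]

theorem en_le (h : M2 F) : S.En F F ≤ 2 * n * sq F := by
  have : ∀ k, ∫ z, S.c k z * (S.D k F z * S.D k F z) ∂gam m ≤ 4 * sq F := fun k => by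
    obtain ⟨i1, e1⟩ := rev_sq (S := S) (k := k) A h
    have i2 := int_c (S := S) (k := k) (int_sq h)
    have l : ∫ z, S.c k z * F z ^ 2 ∂gam m ≤ sq F := integral_mono i2 (int_sq h) fun z =>
      mul_le_of_le_one_left (sq_nonneg _) (c_lt z).le
    refine (integral_mono (En_k A h h).1 ((i1.add i2).const_mul 2) fun z => ?_).trans ?_
    · have := mul_nonneg (c_pos (S := S) (k := k) z).le (sq_nonneg (F (S.R k z) + F z))
      simp only [GS.D, Pi.add_apply]
      linarith
    · simp only [Pi.add_apply]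
      rw [integral_const_mul, integral_add i1 i2, e1]
      linarith
  have := sum_le_card_nsmul univ _ _ fun k _ => this k
  rw [card_univ, Fintype.card_fin, nsmul_eq_mul] at this
  unfold GS.En
  linarith

theorem en_cs (h : M2 F) (h' : M2 G) : S.En F G ^ 2 ≤ S.En F F * S.En G G := by
  have := discrim_le_zero (a := S.En F F) (b := 2 * S.En F G) (c := S.En G G) fun x => by
    have e : ∀ k, ∫ z, S.c k z * (S.D k (fun z => x * F z + G z) z *
        S.D k (fun z => x * F z + G z) z) ∂gam m =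
        x * x * ∫ z, S.c k z * (S.D k F z * S.D k F z) ∂gam m +
        2 * x * ∫ z, S.c k z * (S.D k F z * S.D k G z) ∂gam m +
        ∫ z, S.c k z * (S.D k G z * S.D k G z) ∂gam m := fun k => by
      have i1 := (En_k (S := S) (k := k) A h h).1.const_mul (x * x)
      have i2 := (En_k (S := S) (k := k) A h h').1.const_mul (2 * x)
      have j : Integrable (fun z => x * x * (S.c k z * (S.D k F z * S.D k F z)) +
          2 * x * (S.c k z * (S.D k F z * S.D k G z))) (gam m) := i1.add i2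
      rw [← integral_const_mul, ← integral_const_mul, ← integral_add i1 i2,
        ← integral_add j (En_k (S := S) (k := k) A h' h').1]
      refine integral_congr_ae (ae_of_all _ fun z => ?_)
      simp only [GS.D]; ring
    have h0 := en_nn (S := S) fun z => x * F z + G z
    simp only [GS.En, e, sum_add_distrib, ← mul_sum] at h0 ⊢
    linarith
  rw [discrim] at this
  linarith

theorem sym_L (h : M2 F) (h' : M2 G) :
    ∫ z, S.L F z * G z ∂gam m = ∫ z, F z * S.L G z ∂gam m := by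
  have a := en_eq (S := S) A h h'
  have b := en_eq (S := S) A h' h
  rw [en_comm] at b
  simp only [mul_comm (S.L F _)]
  linarith

theorem sym_P (h : M2 F) (h' : M2 G) :
    ∫ z, S.P F z * G z ∂gam m = ∫ z, F z * S.P G z ∂gam m := by
  have e : (fun z => S.P F z * G z) = fun z => F z * G z + (n : ℝ)⁻¹ * (S.L F z * G z) := by
    funext z; simp only [GS.P]; ring
  have e' : (fun z => F z * S.P G z) = fun z => F z * G z + (n : ℝ)⁻¹ * (F z * S.L G z) := by
    funext z; simp only [GS.P]; ring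
  rw [e, e', integral_add (int_mul h h') ((int_mul (m2_L A h) h').const_mul _),
    integral_add (int_mul h h') ((int_mul h (m2_L A h')).const_mul _), integral_const_mul,
    integral_const_mul, sym_L A h h']

theorem m2_P (hn : 0 < n) (h : M2 F) : M2 (S.P F) ∧ sq (S.P F) ≤ sq F := by
  have n0 : (0 : ℝ) < n := Nat.cast_pos.2 hn
  have i : ∀ k, Integrable (fun z => F z ^ 2 - S.c k z * F z ^ 2 + S.c k z * F (S.R k z) ^ 2)
      (gam m) := fun k => ((int_sq h).sub (int_c (int_sq h))).add (rev_sq A h).1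
  have e : ∀ k, ∫ z, F z ^ 2 - S.c k z * F z ^ 2 + S.c k z * F (S.R k z) ^ 2 ∂gam m = sq F :=
    fun k => by
      have j : Integrable (fun z => F z ^ 2 - S.c k z * F z ^ 2) (gam m) :=
        (int_sq h).sub (int_c (int_sq h))
      rw [integral_add j (rev_sq A h).1, integral_sub (int_sq h) (int_c (int_sq h)),
        (rev_sq A h).2, sq]
      ring
  have := m2_of (F := S.P F) (h.1.add ((m2_L A h).1.div_const _))
    ((integrable_finsetSum univ fun k _ => i k).const_mul (n : ℝ)⁻¹) fun z => by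
      have e1 : S.P F z = ∑ k : Fin n, (n : ℝ)⁻¹ * (F z + S.c k z * S.D k F z) := by
        rw [← mul_sum, sum_add_distrib, sum_const, card_univ, Fintype.card_fin, nsmul_eq_mul,
          GS.P, GS.L]
        field_simp
      rw [e1]
      refine (jensen univ (fun _ => (inv_pos.2 n0).le) _).trans ?_
      rw [sum_const, card_univ, Fintype.card_fin, nsmul_eq_mul, mul_inv_cancel₀ n0.ne', one_mul,
        mul_sum]
      refine sum_le_sum fun k _ => mul_le_mul_of_nonneg_left ?_ (inv_pos.2 n0).le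
      have := mul_nonneg (mul_nonneg (c_pos (S := S) (k := k) z).le
        (sub_nonneg.2 (c_lt (S := S) (k := k) z).le)) (sq_nonneg (F (S.R k z) - F z))
      simp only [GS.D]
      linarith
  refine ⟨this.1, this.2.trans_eq ?_⟩
  rw [integral_const_mul, integral_finsetSum _ fun k _ => i k]
  simp only [e, sum_const, card_univ, Fintype.card_fin, nsmul_eq_mul]
  field_simp

theorem m2_it (hn : 0 < n) (j : ℕ) (h : M2 F) : M2 (S.P^[j] F) ∧ sq (S.P^[j] F) ≤ sq F := by
  induction j with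
  | zero => exact ⟨h, le_rfl⟩
  | succ j ih =>
    rw [Function.iterate_succ_apply']
    exact ⟨(m2_P A hn ih.1).1, (m2_P A hn ih.1).2.trans ih.2⟩

theorem sym_it (hn : 0 < n) (j : ℕ) (h : M2 F) : ∀ {G : E m → ℝ}, M2 G →
    ∫ z, S.P^[j] F z * G z ∂gam m = ∫ z, F z * S.P^[j] G z ∂gam m := by
  induction j with
  | zero => exact fun _ => rfl
  | succ j ih =>
    intro G h'
    rw [Function.iterate_succ_apply', sym_P A (m2_it A hn j h).1 h', ih (m2_P A hn h').1,
      Function.iterate_succ_apply]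

theorem sym_Rz (hn : 0 < n) (ζ : ℝ) (h : M2 F) (h' : M2 G) :
    ∫ z, S.Rz ζ F z * G z ∂gam m = ∫ z, F z * S.Rz ζ G z ∂gam m := by
  simp only [GS.Rz, sum_mul, mul_sum, mul_assoc, mul_left_comm (F _)]
  rw [integral_finsetSum _ fun j _ => (int_mul (m2_it A hn j h).1 h').const_mul _,
    integral_finsetSum _ fun j _ => (int_mul h (m2_it A hn j h').1).const_mul _]
  simp only [integral_const_mul, sym_it A hn _ h h']

theorem m2_Rz (hn : 0 < n) {ζ : ℝ} (hζ : 0 < ζ) (h : M2 F) :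
    M2 (S.Rz ζ F) ∧ sq (S.Rz ζ F) ≤ sq F / ζ ^ 2 := by
  have n0 : (0 : ℝ) < n := Nat.cast_pos.2 hn
  have θ0 : ∀ j : ℕ, 0 ≤ ((n : ℝ) / (ζ + n)) ^ j / (ζ + n) := fun j => by positivity
  have θ1 : ∑ j ∈ range (n ^ 2), ((n : ℝ) / (ζ + n)) ^ j / (ζ + n) ≤ 1 / ζ := by
    have r1 : (n : ℝ) / (ζ + n) < 1 := by rw [div_lt_one (by positivity)]; linarith
    have := (summable_geometric_of_lt_one (by positivity) r1).sum_le_tsum (range (n ^ 2))
      fun j _ => by positivity
    rw [tsum_geometric_of_lt_one (by positivity) r1] at this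
    rw [← sum_div, div_le_iff₀ (by positivity)]
    refine this.trans_eq ?_
    rw [show 1 - (n : ℝ) / (ζ + n) = ζ / (ζ + n) by field_simp; ring]
    field_simp
  have i := fun j => (int_sq (m2_it (S := S) A hn j h).1).const_mul
    (((n : ℝ) / (ζ + n)) ^ j / (ζ + n))
  have := m2_of (F := S.Rz ζ F) (m2_sum _ fun j _ => m2_mul _ (m2_it A hn j h).1).1
    ((integrable_finsetSum (range (n ^ 2)) fun j _ => i j).const_mul (1 / ζ)) fun z =>
      (jensen _ θ0 _).trans (mul_le_mul_of_nonneg_right θ1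
        (sum_nonneg fun j _ => mul_nonneg (θ0 j) (sq_nonneg _)))
  refine ⟨this.1, this.2.trans ?_⟩
  rw [integral_const_mul, integral_finsetSum _ fun j _ => i j]
  simp only [integral_const_mul]
  calc _ ≤ 1 / ζ * ∑ j ∈ range (n ^ 2), ((n : ℝ) / (ζ + n)) ^ j / (ζ + n) * sq F :=
        mul_le_mul_of_nonneg_left (sum_le_sum fun j _ =>
          mul_le_mul_of_nonneg_left (m2_it A hn j h).2 (θ0 j)) (by positivity)
    _ ≤ 1 / ζ * (1 / ζ * sq F) := by
        rw [← sum_mul]
        exact mul_le_mul_of_nonneg_left (mul_le_mul_of_nonneg_right θ1 (sq_nn F)) (by positivity)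
    _ = _ := by field_simp

/-- the semigroup preserves the mean of bounded functions -/
theorem int_T (hn : 0 < n) {t : ℝ} (ht : 0 ≤ t) {f : E m → ℝ} (hf : Measurable f) {b : ℝ}
    (h0 : ∀ z, 0 ≤ f z) (hb : ∀ z, f z ≤ b) :
    Integrable (S.T t f) (gam m) ∧ ∫ z, S.T t f z ∂gam m = ∫ z, f z ∂gam m := by
  have i : Integrable (S.T t f) (gam m) :=
    Integrable.of_bound (meas_T t hf).aestronglyMeasurable b (ae_of_all _ fun z => by
      have : 0 ≤ S.T t f z := Rec.sg_nonneg hn (S.w_pos z) ht (fun _ => h0 _) _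
      rw [norm_of_nonneg this]
      exact (Rec.sg_mono hn (S.w_pos z) ht (fun _ => hb _) _).trans_eq
        (Rec.sg_const hn (S.w_pos z) t b _))
  have i' : Integrable f (gam m) := Integrable.of_bound hf.aestronglyMeasurable b
    (ae_of_all _ fun z => by rw [norm_of_nonneg (h0 z)]; exact hb z)
  refine ⟨i, ?_⟩
  rw [← (A.orb m n S _ (meas_T t hf) i).2, ← (A.orb m n S _ hf i').2]
  simp only [A.orb_T _ _ _ _ _ _ hn, Rec.mean_sg' hn (S.w_pos _)]

theorem m2_T (hn : 0 < n) {t : ℝ} (ht : 0 ≤ t) (h : M2 F) :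
    M2 (S.T t F) ∧ sq (S.T t F) ≤ sq F := by
  have fm : ∀ N : ℕ, Measurable fun z => min (F z ^ 2) N := fun N =>
    (h.1.pow_const 2).min measurable_const
  have f0 : ∀ (N : ℕ) z, 0 ≤ min (F z ^ 2) N := fun N z => le_min (sq_nonneg _) N.cast_nonneg
  have a := fun N => int_T (S := S) A hn ht (fm N) (f0 N) fun _ => min_le_right _ _
  obtain ⟨i, l⟩ := fatou (B := sq F) (g := S.T t fun z => F z ^ 2) (fun N => (a N).1)
    (fun N => meas_T t (fm N)) (fun N z => Rec.sg_nonneg hn (S.w_pos z) ht (fun _ => f0 N _) _)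
    (meas_T t (h.1.pow_const 2))
    (fun z => tendsto_finsetSum _ fun y _ => Tendsto.const_mul _ <|
      tendsto_const_nhds.congr' <| (tendsto_natCast_atTop_atTop.eventually
        (eventually_ge_atTop (F (S.gz y z) ^ 2))).mono fun N hN => (min_eq_left hN).symm)
    fun N => (a N).2.trans_le (integral_mono_of_nonneg (ae_of_all _ (f0 N)) (int_sq h)
      (ae_of_all _ fun z => min_le_left _ _))
  have := m2_of (meas_T (S := S) t h.1) i fun z => Low.sg_sq_le hn (S.w_pos z) ht _ _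
  exact ⟨this.1, this.2.trans l⟩

end B5

open B5 in
theorem bas_of (A : BasA) : BasStmt where
  R_apply := A.R_apply
  rev := A.rev
  orb := A.orb
  orb_L := A.orb_L
  orb_T := A.orb_T
  m2_L _ _ _ _ h := m2_L A h
  m2_P _ _ _ _ hn h := m2_P A hn h
  m2_Rz _ _ _ _ _ hn hζ h := m2_Rz A hn hζ h
  m2_T _ _ _ _ _ hn ht h := m2_T A hn ht h
  int_En _ _ _ _ _ _ h h' := (En_k A h h').1
  en_eq _ _ _ _ _ h h' := en_eq A h h'
  en_le _ _ _ F h := ⟨en_nn F, en_le A h⟩
  en_cs _ _ _ _ _ h h' := en_cs A h h'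
  sym_P _ _ _ _ _ h h' := sym_P A h h'
  sym_Rz _ _ _ ζ _ _ hn h h' := sym_Rz A hn ζ h h'
  res := A.res

theorem basStmt : BasStmt := bas_of ⟨Bas.R_apply, Bas.rev, Bas.orb, Bas.orb_L, Bas.orb_T, Bas.res⟩

end Crest.Agent.T157.Lm

end
end

-- ▼ part T157/LmCom_48
section

/-!
# Row 157, block B/S5 (helper48): commutator estimates
-/

set_option autoImplicit false

noncomputable section

namespace Crest.Agent.T157.Lm

open MeasureTheory Real Filter Topology Finset Matrix
open Crest.Agent.R238.Gap (E pd PG pg_const)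
open Crest.Agent.R253.Meh74 (gam C1 c1_const c1_coord pd_sum' pd_coord poincare1)
open Crest.Agent.T157.Hm (en C0 ip c0_of c0_pd c0_const pd_const)
open Crest.Agent.T157.Rn (Tm SmStmt)
open Crest.Agent.T157.Tw (mv)
open Crest.Agent.T157.Tw.M1 (mv_apply pd_aff c1_aff pg_aff int_av cont_av' pg_av int_pg)

namespace C48

variable {m n : ℕ}

/-! ### squared norms -/

theorem en_eq (f : E m → ℝ) : en f = ∑ j, sq (pd j f) := by simp only [en, ip, sq, pow_two]

theorem en2_eq (f : E m → ℝ) : en2 f = ∑ j, ∑ i, sq (pd i (pd j f)) := by simp only [en2, en_eq]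

theorem sq_nn (f : E m → ℝ) : 0 ≤ sq f := integral_nonneg fun _ => sq_nonneg _

theorem c0_sq {f : E m → ℝ} (h : C0 f) : C0 fun z => f z ^ 2 := by simpa only [pow_two] using h.mul h

theorem c0_smul (c : ℝ) {f : E m → ℝ} (h : C0 f) : C0 fun z => c * f z := (c0_const c).mul h

theorem m2 {f : E m → ℝ} (h : C0 f) : M2 f := ⟨h.c.measurable, h.memLp⟩

/-- pointwise quadratic inequalities integrate -/
theorem sq_le_sum {ι : Type} (T : Finset ι) {f : E m → ℝ} {g : ι → E m → ℝ} (hg : ∀ i, C0 (g i))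
    (b : ι → ℝ) (h : ∀ z, f z ^ 2 ≤ ∑ i ∈ T, b i * g i z ^ 2) : sq f ≤ ∑ i ∈ T, b i * sq (g i) := by
  have hi : ∀ i ∈ T, Integrable (fun z => b i * g i z ^ 2) (gam m) := fun i _ =>
    (c0_smul _ (c0_sq (hg i))).int
  refine (integral_mono_of_nonneg (ae_of_all _ fun _ => sq_nonneg _) (integrable_finsetSum _ hi)
    (ae_of_all _ h)).trans_eq ?_
  rw [integral_finsetSum _ hi]
  simp only [integral_const_mul, sq]

theorem sq_le_two {f g g' : E m → ℝ} (hg : C0 g) (hg' : C0 g') (b b' : ℝ)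
    (h : ∀ z, f z ^ 2 ≤ b * g z ^ 2 + b' * g' z ^ 2) : sq f ≤ b * sq g + b' * sq g' := by
  simpa using sq_le_sum (f := f) (univ : Finset Bool) (g := fun i => cond i g g')
    (fun i => by cases i <;> assumption) (fun i => cond i b b') fun z => by simpa using h z

/-- at most two terms -/
theorem sq_src {b : Fin n → ℝ} {p : Fin n → Prop} [DecidablePred p] (hp : (univ.filter p).card ≤ 2)
    (hb : ∀ k, ¬ p k → b k = 0) {g : Fin n → E m → ℝ} (hg : ∀ k, C0 (g k)) :
    sq (fun z => ∑ k, b k * g k z) ≤ ∑ k, 2 * b k ^ 2 * sq (g k) :=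
  sq_le_sum _ hg _ fun z => by
    rw [← sum_filter_of_ne (p := p) fun k _ h => not_not.1 fun h' => h (by rw [hb k h', zero_mul])]
    refine sq_sum_le_card_mul_sum_sq.trans ?_
    have h2 : ((univ.filter p).card : ℝ) ≤ 2 := by exact_mod_cast hp
    refine (mul_le_mul h2 (sum_le_univ_sum_of_nonneg fun k => sq_nonneg _)
      (sum_nonneg fun _ _ => sq_nonneg _) zero_le_two).trans_eq ?_
    rw [mul_sum]; exact sum_congr rfl fun k _ => by ring

theorem sq_step (hn : 0 < n) {a t : E m → ℝ} (ha : C0 a) (ht : C0 t) :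
    sq (fun z => a z + t z / n) ≤ (1 + 1 / n) * sq a + 2 / n * sq t :=
  sq_le_two ha ht _ _ fun z => by
    have h1 : (1 : ℝ) ≤ n := by exact_mod_cast hn
    have h2 : 1 / (n : ℝ) ≤ 1 := by rw [div_le_one (by linarith)]; exact h1
    have h3 : 0 ≤ 1 / (n : ℝ) := by positivity
    rw [div_eq_mul_one_div (t z), div_eq_mul_one_div 2]
    generalize 1 / (n : ℝ) = x at *
    nlinarith [mul_nonneg h3 (sq_nonneg (a z - t z)),
      mul_nonneg (mul_nonneg h3 (sub_nonneg.2 h2)) (sq_nonneg (t z))]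

/-- Jensen with weights -/
theorem sq_comb (T : Finset ℕ) {θ : ℕ → ℝ} (h0 : ∀ j, 0 ≤ θ j) {g : ℕ → E m → ℝ} (hg : ∀ j, C0 (g j)) :
    sq (fun z => ∑ j ∈ T, θ j * g j z) ≤ (∑ j ∈ T, θ j) * ∑ j ∈ T, θ j * sq (g j) := by
  refine (sq_le_sum T hg (fun j => (∑ j ∈ T, θ j) * θ j) fun z => ?_).trans_eq (by
    simp only [mul_sum _ _ (∑ j ∈ T, θ j), mul_assoc])
  have := sum_mul_sq_le_sq_mul_sq T (fun j => √(θ j)) fun j => √(θ j) * g j z
  simp only [← mul_assoc, mul_self_sqrt (h0 _), mul_pow, sq_sqrt (h0 _)] at this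
  simpa only [mul_sum _ _ (∑ j ∈ T, θ j), mul_assoc] using this

/-- Gaussian Poincaré inequality in a set of variables -/
theorem row_poin (p : Fin m → Prop) [DecidablePred p] {F : E m → ℝ} (hF : C1 F) :
    ∃ M : E m → ℝ, C0 M ∧ (∀ z z' : E m, (∀ e, ¬ p e → z e = z' e) → M z = M z') ∧
      sq (fun z => F z - M z) ≤ ∑ e, if p e then sq (pd e F) else 0 := by
  set P : Matrix (Fin m) (Fin m) ℝ := diagonal fun e => if p e then 0 else 1 with hP
  set Q : Matrix (Fin m) (Fin m) ℝ := diagonal fun e => if p e then 1 else 0 with hQ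
  have hPQ : P * Pᵀ + Q * Qᵀ = 1 := by
    rw [hP, hQ, diagonal_transpose, diagonal_transpose, diagonal_mul_diagonal, diagonal_mul_diagonal,
      diagonal_add, ← diagonal_one]
    congr 1; funext e; split_ifs <;> simp
  set M := Tw.M1.av (mv P) (mv Q) F with hM
  have c0M : C0 M := ⟨cont_av' _ _ hF.cont hF.g, pg_av _ _ hF.g⟩
  have inv : ∀ z z' : E m, (∀ e, ¬ p e → z e = z' e) → M z = M z' := fun z z' h => by
    have : mv P z = mv P z' := by
      ext e
      simp only [mv_apply, hP, diagonal_apply, ite_mul, zero_mul, sum_ite_eq, mem_univ, if_true]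
      split_ifs with h1
      exacts [rfl, by rw [h e h1]]
    simp only [hM, Tw.M1.av, this]
  refine ⟨M, c0M, inv, ?_⟩
  have av : ∀ {G : E m → ℝ}, C0 G → ∫ z, G z ∂gam m = ∫ z, Tw.M1.av (mv P) (mv Q) G z ∂gam m ∧
      C0 (Tw.M1.av (mv P) (mv Q) G) := fun h =>
    ⟨by simpa using (int_av hPQ h.c h.g 0).symm, cont_av' _ _ h.c h.g, pg_av _ _ h.g⟩
  have h1 := av (c0_sq ((c0_of hF).sub c0M))
  have h2 : ∀ e, C0 fun z => Q e e * pd e F z ^ 2 := fun e => c0_smul _ (c0_sq (c0_pd hF e))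
  have h3 := av (C0.sum univ fun e _ => h2 e)
  have h4 : ∑ e, (if p e then sq (pd e F) else 0) = ∫ z, ∑ e, Q e e * pd e F z ^ 2 ∂gam m := by
    rw [integral_finsetSum _ fun e _ => (h2 e).int]
    refine sum_congr rfl fun e _ => ?_
    rw [integral_const_mul, hQ, diagonal_apply_eq]; split_ifs <;> simp [sq]
  rw [sq, h1.1, h4, h3.1]
  refine integral_mono h1.2.int h3.2.int fun z => ?_
  have f1 := c1_aff hF (mv P z) Q
  have f2 := poincare1 (f1.sub (c1_const (M z)))
  have f3 : ∫ y, (F (mv P z + mv Q y) - M z) ∂gam m = 0 := by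
    rw [integral_sub (c0_of f1).int (integrable_const _)]; simp [hM, Tw.M1.av]
  have f4 : ∀ y, M (mv P z + mv Q y) = M z := fun y => inv _ _ fun e he => by
    simp [mv_apply, hP, hQ, diagonal_apply, he]
  have f5 : ∀ e y, pd e (fun y => F (mv P z + mv Q y) - M z) y ^ 2 =
      Q e e * pd e F (mv P z + mv Q y) ^ 2 := fun e y => by
    rw [Hm.pd_sub f1 (c1_const _)]
    simp only [pd_const, sub_zero, pd_aff hF.diff, hQ, diagonal_apply, ite_mul, zero_mul, sum_ite_eq',
      mem_univ, if_true]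
    split_ifs <;> simp
  simp only [f3, f5] at f2
  simp only [Tw.M1.av, f4]
  rw [integral_finsetSum _ fun e _ => int_pg _ _ (h2 e).c (h2 e).g z]
  linarith

/-! ### the flips -/

variable (S : GS m n)

def eps (k : Fin n) (e : Fin m) : ℝ := if S.inc k e = true then -1 else 1
def aa (k : Fin n) (e : Fin m) : ℝ := if S.inc k e = true then S.α e else 0
/-- twisted difference -/
def Dt (s : ℝ) (k : Fin n) (w : E m → ℝ) (z : E m) : ℝ := s * w (S.R k z) - w z
/-- twisted step -/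
def Pt (s : Fin n → ℝ) (w : E m → ℝ) (z : E m) : ℝ := w z + (∑ k, S.c k z * Dt S (s k) k w z) / n
def c1 (k : Fin n) (z : E m) : ℝ := -2 * (S.c k z * (1 - S.c k z))
def c2 (k : Fin n) (z : E m) : ℝ := -2 * (c1 S k z * (1 - 2 * S.c k z))
/-- weighted norm -/
def Jk (k : Fin n) (X : E m → ℝ) : ℝ := ∫ z, S.c k z * X z ^ 2 ∂gam m

theorem Dt_one (k : Fin n) (w : E m → ℝ) : Dt S 1 k w = S.D k w := by
  funext z; simp [Dt, GS.D]

theorem Pt_one (w : E m → ℝ) : Pt S (fun _ => 1) w = S.P w := by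
  funext z; simp only [Pt, Dt_one, GS.P, GS.L]

theorem En_eq (w : E m → ℝ) : ∑ k, Jk S k (S.D k w) = 2 * S.En w w := by
  simp only [Jk, GS.En, pow_two]; ring

theorem c_mem (k : Fin n) (z : E m) : 0 ≤ S.c k z ∧ S.c k z ≤ 1 := by
  have h1 := tanh_lt_one (S.h k z)
  have h2 := neg_one_lt_tanh (S.h k z)
  unfold GS.c; constructor <;> linarith

theorem c1_sq (k : Fin n) (z : E m) : c1 S k z ^ 2 ≤ S.c k z := by
  obtain ⟨h0, h1⟩ := c_mem S k z
  unfold c1
  generalize S.c k z = c at *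
  have h2 : 4 * c * (1 - c) ≤ 1 := by nlinarith [sq_nonneg (1 - 2 * c)]
  have h3 : 4 * c * (1 - c) * (1 - c) ≤ 1 * 1 := mul_le_mul h2 (by linarith) (by linarith) zero_le_one
  nlinarith [mul_le_mul_of_nonneg_left h3 h0]

theorem c2_sq (k : Fin n) (z : E m) : c2 S k z ^ 2 ≤ 4 * S.c k z := by
  obtain ⟨h0, h1⟩ := c_mem S k z
  have h2 := c1_sq S k z
  have h3 : (1 - 2 * S.c k z) ^ 2 ≤ 1 := by nlinarith
  unfold c2
  nlinarith [mul_le_mul h2 h3 (sq_nonneg _) h0]

theorem hasDerivAt_th (x : ℝ) : HasDerivAt tanh (1 - tanh x ^ 2) x := by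
  have hc := (cosh_pos x).ne'
  have h := (hasDerivAt_sinh x).div (hasDerivAt_cosh x) hc
  have e : tanh = fun y => sinh y / cosh y := funext tanh_eq_sinh_div_cosh
  rw [e]
  refine h.congr_deriv ?_
  field_simp

theorem h_eq (k : Fin n) : S.h k = fun z => ∑ e, aa S k e * (z e + S.α e) := by
  funext z; simp only [GS.h, aa, ite_mul, zero_mul]

theorem c1_h (k : Fin n) : C1 (S.h k) := by
  rw [h_eq]; exact C1.sum fun e _ => ((c1_coord e).add (c1_const _)).smul _

theorem pd_h (k : Fin n) (e : Fin m) (z : E m) : pd e (S.h k) z = aa S k e := by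
  rw [h_eq, pd_sum' fun e _ => ((c1_coord e).add (c1_const _)).smul _]
  simp only [(c1_const _).pd_mul ((c1_coord _).add (c1_const _)), (c1_coord _).pd_add (c1_const _),
    pd_const, pd_coord]
  simp

theorem fd_c (k : Fin n) (z : E m) : HasFDerivAt (S.c k) (c1 S k z • fderiv ℝ (S.h k) z) z := by
  have h := (((hasDerivAt_th (S.h k z)).const_sub 1).div_const 2).comp_hasFDerivAt z
    ((c1_h S k).diff z).hasFDerivAt
  have e : c1 S k z = -(1 - tanh (S.h k z) ^ 2) / 2 := by unfold c1 GS.c; ring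
  rw [e]; exact h

theorem pd_c (k : Fin n) (e : Fin m) : pd e (S.c k) = fun z => aa S k e * c1 S k z := by
  funext z
  rw [← pd_h S k e z, pd, (fd_c S k z).fderiv, mul_comm]; rfl

theorem c0_c (k : Fin n) : C0 (S.c k) :=
  ⟨continuous_iff_continuousAt.2 fun z => (fd_c S k z).continuousAt,
    PG.of_bdd (K := 1) fun z => abs_le.2 ⟨by linarith [(c_mem S k z).1], (c_mem S k z).2⟩⟩

theorem c0_c1 (k : Fin n) : C0 (c1 S k) := c0_smul _ ((c0_c S k).mul ((c0_const 1).sub (c0_c S k)))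

theorem c1_c (k : Fin n) : C1 (S.c k) := by
  refine ⟨contDiff_one_iff_fderiv.2 ⟨fun z => (fd_c S k z).differentiableAt, ?_⟩, (c0_c S k).g,
    fun e => by rw [pd_c]; exact (c0_smul _ (c0_c1 S k)).g⟩
  rw [funext fun z => (fd_c S k z).fderiv]
  exact (c0_c1 S k).c.smul ((c1_h S k).c.continuous_fderiv one_ne_zero)

theorem c1_c1 (k : Fin n) : C1 (c1 S k) := ((c1_c S k).mul ((c1_const 1).sub (c1_c S k))).smul _

theorem c0_c2 (k : Fin n) : C0 (c2 S k) :=
  c0_smul _ ((c0_c1 S k).mul ((c0_const 1).sub (c0_smul _ (c0_c S k))))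

theorem pd_c1 (k : Fin n) (e : Fin m) (z : E m) : pd e (c1 S k) z = aa S k e * c2 S k z := by
  have h := c1_c S k
  unfold c1
  rw [(c1_const _).pd_mul (h.mul ((c1_const 1).sub h)), h.pd_mul ((c1_const 1).sub h),
    Hm.pd_sub (c1_const 1) h]
  simp only [pd_const, pd_c, c2]; ring

theorem tm_c (hS : SmStmt) (k : Fin n) : ∀ j, Tm j (S.c k)
  | 0 => ⟨(c0_c S k).c, (c0_c S k).g⟩
  | j + 1 => ⟨c1_c S k, fun e => by
      have h := tm_c hS k j
      have := hS.mul _ _ _ _ (hS.const m j (aa S k e)) (hS.mul _ _ _ _ (hS.const m j (-2))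
        (hS.mul _ _ _ _ h (hS.add _ _ _ _ (hS.const m j 1) (hS.mul _ _ _ _ (hS.const m j (-1)) h))))
      simpa only [pd_c, c1, neg_one_mul, ← sub_eq_add_neg] using this⟩

theorem sq_c {k : Fin n} {b X : E m → ℝ} {a : ℝ} (hb : ∀ z, b z ^ 2 ≤ a * S.c k z) (hX : C0 X) :
    sq (fun z => b z * X z) ≤ a * Jk S k X := by
  rw [Jk, ← integral_const_mul]
  refine integral_mono_of_nonneg (ae_of_all _ fun _ => sq_nonneg _)
    (c0_smul _ ((c0_c S k).mul (c0_sq hX))).int (ae_of_all _ fun z => ?_)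
  simp only [mul_pow, ← mul_assoc]
  exact mul_le_mul_of_nonneg_right (hb z) (sq_nonneg _)

theorem Jk_nn (k : Fin n) (X : E m → ℝ) : 0 ≤ Jk S k X :=
  integral_nonneg fun z => mul_nonneg (c_mem S k z).1 (sq_nonneg _)

theorem Jk_le (k : Fin n) {X : E m → ℝ} (hX : C0 X) : Jk S k X ≤ sq X :=
  integral_mono ((c0_c S k).mul (c0_sq hX)).int (c0_sq hX).int fun z =>
    mul_le_of_le_one_left (sq_nonneg _) (c_mem S k z).2

theorem Jk_two (k : Fin n) {X Y Z : E m → ℝ} (hY : C0 Y) (hZ : C0 Z) {a b : ℝ}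
    (h : ∀ z, X z ^ 2 ≤ a * Y z ^ 2 + b * Z z ^ 2) : Jk S k X ≤ a * Jk S k Y + b * Jk S k Z := by
  have i1 := (c0_smul a ((c0_c S k).mul (c0_sq hY))).int
  have i2 := (c0_smul b ((c0_c S k).mul (c0_sq hZ))).int
  simp only [Jk, ← integral_const_mul]
  rw [← integral_add i1 i2]
  refine integral_mono_of_nonneg (ae_of_all _ fun z => mul_nonneg (c_mem S k z).1 (sq_nonneg _))
    (i1.add i2) (ae_of_all _ fun z => ?_)
  have := mul_le_mul_of_nonneg_left (h z) (c_mem S k z).1
  simp only; linarith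

variable (hB : BasStmt)
include hB

theorem R_eq (k : Fin n) : ∃ v : E m, ∀ z, S.R k z = v + mv (diagonal (eps S k)) z :=
  ⟨WithLp.toLp 2 fun e => -2 * aa S k e, fun z => by
    ext e
    simp only [hB.R_apply, PiLp.add_apply, mv_apply, diagonal_apply, ite_mul, zero_mul, sum_ite_eq,
      mem_univ, if_true, eps, aa]
    split_ifs <;> ring⟩

theorem c0_R (k : Fin n) {w : E m → ℝ} (h : C0 w) : C0 fun z => w (S.R k z) := by
  obtain ⟨v, hv⟩ := R_eq S hB k
  simp only [hv]; exact ⟨h.c.comp (by fun_prop), pg_aff h.g _ _⟩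

theorem c1_R (k : Fin n) {w : E m → ℝ} (h : C1 w) : C1 fun z => w (S.R k z) := by
  obtain ⟨v, hv⟩ := R_eq S hB k
  simp only [hv]; exact c1_aff h _ _

theorem pd_R (k : Fin n) {w : E m → ℝ} (h : C1 w) (e : Fin m) :
    pd e (fun z => w (S.R k z)) = fun z => eps S k e * pd e w (S.R k z) := by
  obtain ⟨v, hv⟩ := R_eq S hB k
  funext z
  simp only [hv, pd_aff h.diff, diagonal_apply, ite_mul, zero_mul, sum_ite_eq', mem_univ, if_true]

theorem tm_R (hS : SmStmt) (k : Fin n) : ∀ (j : ℕ) {w : E m → ℝ}, Tm j w → Tm j fun z => w (S.R k z)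
  | 0, _, h => ⟨(c0_R S hB k ⟨h.1, h.2⟩).c, (c0_R S hB k ⟨h.1, h.2⟩).g⟩
  | j + 1, _, h => ⟨c1_R S hB k h.1, fun e => by
      rw [pd_R S hB k h.1]; exact hS.mul _ _ _ _ (hS.const m j _) (tm_R hS k j (h.2 e))⟩

theorem tm_P (hS : SmStmt) {j : ℕ} {w : E m → ℝ} (h : Tm j w) : Tm j (S.P w) := by
  have := hS.add _ _ _ _ h (hS.mul _ _ _ _ (hS.sum _ _ _ univ _ fun k _ => hS.mul _ _ _ _ (tm_c S hS k j)
    (hS.add _ _ _ _ (tm_R S hB hS k j h) (hS.mul _ _ _ _ (hS.const m j (-1)) h))) (hS.const m j (n : ℝ)⁻¹))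
  simp only [neg_one_mul, ← sub_eq_add_neg, ← div_eq_mul_inv] at this
  exact this

theorem c0_Dt (s : ℝ) (k : Fin n) {w : E m → ℝ} (h : C0 w) : C0 (Dt S s k w) :=
  (c0_smul s (c0_R S hB k h)).sub h

theorem c1_Dt (s : ℝ) (k : Fin n) {w : E m → ℝ} (h : C1 w) : C1 (Dt S s k w) :=
  ((c1_R S hB k h).smul s).sub h

theorem pd_Dt (s : ℝ) (k : Fin n) {w : E m → ℝ} (h : C1 w) (e : Fin m) (z : E m) :
    pd e (Dt S s k w) z = Dt S (s * eps S k e) k (pd e w) z := by
  unfold Dt
  rw [Hm.pd_sub ((c1_R S hB k h).smul s) h]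
  simp only [(c1_const s).pd_mul (c1_R S hB k h), pd_const, pd_R S hB k h]; ring

theorem c0_Pt (s : Fin n → ℝ) {w : E m → ℝ} (h : C0 w) : C0 (Pt S s w) := by
  have := h.add ((C0.sum univ fun k _ => (c0_c S k).mul (c0_Dt S hB (s k) k h)).mul (c0_const (n : ℝ)⁻¹))
  simp only [← div_eq_mul_inv] at this
  exact this

theorem c1_Pt (s : Fin n → ℝ) {w : E m → ℝ} (h : C1 w) : C1 (Pt S s w) := by
  have := h.add ((C1.sum (s := univ) fun k _ => (c1_c S k).mul (c1_Dt S hB (s k) k h)).mul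
    (c1_const (n : ℝ)⁻¹))
  simp only [← div_eq_mul_inv] at this
  exact this

theorem pd_Pt (s : Fin n → ℝ) {w : E m → ℝ} (h : C1 w) (e : Fin m) : pd e (Pt S s w) = fun z =>
    Pt S (fun k => s k * eps S k e) (pd e w) z + (∑ k, aa S k e * (c1 S k z * Dt S (s k) k w z)) / n := by
  funext z
  have h1 := fun k => (c1_c S k).mul (c1_Dt S hB (s k) k h)
  have h2 := C1.sum (s := univ) fun k _ => h1 k
  unfold Pt
  simp only [div_eq_mul_inv]
  rw [h.pd_add (h2.mul (c1_const _)), h2.pd_mul (c1_const _), pd_sum' fun k _ => h1 k]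
  simp only [pd_const, (c1_c S _).pd_mul (c1_Dt S hB _ _ h), pd_c, pd_Dt S hB _ _ h, sum_add_distrib,
    mul_assoc]
  ring

theorem sq_Pt (hn : 0 < n) {s : Fin n → ℝ} (hs : ∀ k, |s k| = 1) {w : E m → ℝ} (h : C0 w) :
    sq (Pt S s w) ≤ sq w := by
  have ha : C0 fun z => |w z| := ⟨h.c.abs, h.g.abs⟩
  obtain ⟨h1, h2⟩ := hB.m2_P m n S _ hn (m2 ha)
  have n0 : (0 : ℝ) < n := by exact_mod_cast hn
  refine le_trans (integral_mono_of_nonneg (ae_of_all _ fun _ => sq_nonneg _)
    ((memLp_two_iff_integrable_sq h1.2.1).1 h1.2) (ae_of_all _ fun z => ?_))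
    (h2.trans_eq (by simp only [sq, sq_abs]))
  have e : ∀ (s : Fin n → ℝ) (w : E m → ℝ), Pt S s w z =
      (∑ k, ((1 - S.c k z) * w z + S.c k z * (s k * w (S.R k z)))) / n := fun s w => by
    rw [eq_div_iff n0.ne', Pt, add_mul, div_mul_cancel₀ _ n0.ne', mul_comm]
    rw [show (n : ℝ) * w z = ∑ _k : Fin n, w z by simp, ← sum_add_distrib]
    exact sum_congr rfl fun k _ => by unfold Dt; ring
  refine sq_le_sq' (neg_le_of_abs_le ?_) (le_of_abs_le ?_) <;>
  · rw [← Pt_one, e, e, abs_div, abs_of_pos n0]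
    refine div_le_div_of_nonneg_right ((abs_sum_le_sum_abs _ _).trans (sum_le_sum fun k _ => ?_)) n0.le
    refine (abs_add_le _ _).trans_eq ?_
    rw [abs_mul, abs_mul, abs_mul, hs, abs_of_nonneg (c_mem S k z).1,
      abs_of_nonneg (sub_nonneg.2 (c_mem S k z).2)]

variable {S} {B : ℝ} (hO : S.Ok B)
include hO

omit hB in
theorem two (e : Fin m) {x : ℝ} (hx : 0 ≤ x) : ∑ k, (if S.inc k e = true then x else 0) ≤ 2 * x := by
  rw [← sum_filter, sum_const, nsmul_eq_mul]
  exact mul_le_mul_of_nonneg_right (by exact_mod_cast hO.two e) hx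

omit hB in
theorem row (k : Fin n) : ∑ e, aa S k e ^ 2 ≤ B := by
  simpa only [aa, ite_pow, ne_eq, OfNat.ofNat_ne_zero, not_false_eq_true, zero_pow] using hO.row k

omit hB in
theorem B0 : 0 ≤ B := (sum_nonneg fun _ _ => sq_nonneg _).trans (row hO ⟨0, hO.pos⟩)

/-- **(1)** -/
theorem en_le {F : E m → ℝ} (hF : C1 F) : ∑ k, Jk S k (S.D k F) ≤ 8 * en F := by
  have h1 : ∀ k, Jk S k (S.D k F) ≤ 4 * ∑ e, if S.inc k e = true then sq (pd e F) else 0 := fun k => by
    obtain ⟨M, hM, inv, h⟩ := row_poin (fun e => S.inc k e = true) hF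
    have hG := (c0_of hF).sub hM
    have h2 := Jk_two S k (X := S.D k F) (c0_R S hB k hG) hG (a := 2) (b := 2) fun z => by
      rw [inv (S.R k z) z fun e he => by rw [hB.R_apply, if_neg he], GS.D]
      nlinarith [sq_nonneg (F (S.R k z) + F z - 2 * M z)]
    have h3 : Jk S k (fun z => F (S.R k z) - M (S.R k z)) = Jk S k fun z => F z - M z :=
      (hB.rev m n S k _ (c0_sq hG).c.measurable (c0_sq hG).int).2
    linarith [Jk_le S k hG]
  refine (sum_le_sum fun k _ => h1 k).trans ?_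
  rw [← mul_sum, sum_comm, en_eq]
  linarith [sum_le_sum fun e (_ : e ∈ univ) => two hO e (sq_nn (pd e F)), mul_sum univ (fun e => sq (pd e F)) 2]

theorem tw_le {w : E m → ℝ} (hw : C1 w) (e : Fin m) :
    ∑ k, Jk S k (Dt S (eps S k e) k w) ≤ 16 * en w + 16 * sq w := by
  have h0 := c0_of hw
  have h1 : ∀ k, Jk S k (Dt S (eps S k e) k w) ≤ 2 * Jk S k (S.D k w) +
      if S.inc k e = true then 8 * sq w else 0 := fun k => by
    unfold eps
    split_ifs
    · refine (Jk_two S k (Dt_one S k w ▸ c0_Dt S hB 1 k h0) h0 (a := 2) (b := 8) fun z => ?_).trans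
        (by linarith [Jk_le S k h0])
      unfold Dt GS.D; nlinarith [sq_nonneg (w (S.R k z) - 3 * w z)]
    · rw [Dt_one]; linarith [Jk_nn S k (S.D k w)]
  refine (sum_le_sum fun k _ => h1 k).trans ?_
  rw [sum_add_distrib, ← mul_sum]
  linarith [en_le hB hO hw, two hO e (x := 8 * sq w) (by linarith [sq_nn w])]

omit hB in
/-- sources with one coefficient -/
theorem src_le {X : Fin n → E m → ℝ} (hX : ∀ k, C0 (X k)) :
    ∑ e, sq (fun z => ∑ k, aa S k e * (c1 S k z * X k z)) ≤ 2 * B * ∑ k, Jk S k (X k) := by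
  refine (sum_le_sum fun e _ => sq_src (b := fun k => aa S k e) (hO.two e) (fun k h => if_neg h)
    fun k => (c0_c1 S k).mul (hX k)).trans ?_
  rw [sum_comm, mul_sum]
  refine sum_le_sum fun k _ => ?_
  rw [← sum_mul, ← mul_sum]
  exact mul_le_mul (by linarith [row hO k]) ((sq_c S (a := 1) (fun z => by
    simpa using c1_sq S k z) (hX k)).trans_eq (one_mul _)) (sq_nn _) (by linarith [B0 hO])

omit hB in
/-- sources with two coefficients -/
theorem src2_le {X : Fin n → E m → ℝ} (hX : ∀ k, C0 (X k)) :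
    ∑ e, ∑ e', sq (fun z => ∑ k, aa S k e * aa S k e' * (c2 S k z * X k z)) ≤
      8 * B ^ 2 * ∑ k, Jk S k (X k) := by
  refine (sum_le_sum fun e _ => sum_le_sum fun e' _ => sq_src (hO.two e)
    (fun k h => by rw [aa, if_neg h, zero_mul]) fun k => (c0_c2 S k).mul (hX k)).trans ?_
  rw [sum_congr rfl fun e _ => sum_comm, sum_comm, mul_sum]
  refine sum_le_sum fun k _ => ?_
  have e : ∑ e, ∑ e', 2 * (aa S k e * aa S k e') ^ 2 * sq (fun z => c2 S k z * X k z) =
      2 * (∑ e, aa S k e ^ 2) ^ 2 * sq fun z => c2 S k z * X k z := by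
    rw [pow_two (∑ e, aa S k e ^ 2), sum_mul_sum]
    simp only [mul_sum, sum_mul, mul_pow]
  rw [e]
  calc _ ≤ 2 * B ^ 2 * (4 * Jk S k (X k)) := by
        gcongr
        exacts [sq_nn _, row hO k, sq_c S (c2_sq S k) (hX k)]
    _ = _ := by ring

omit hO hB in
theorem abs_eps (k : Fin n) (e : Fin m) : |eps S k e| = 1 := by unfold eps; split_ifs <;> simp

theorem en_P {F : E m → ℝ} (hF : C1 F) : en (S.P F) ≤ (1 + (1 + 32 * B) / n) * en F := by
  have n0 : (0 : ℝ) < n := by exact_mod_cast hO.pos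
  have hX := fun k => c0_Dt S hB 1 k (c0_of hF)
  have h1 : ∀ e, sq (pd e (S.P F)) ≤ (1 + 1 / n) * sq (pd e F) +
      2 / n * sq fun z => ∑ k, aa S k e * (c1 S k z * Dt S 1 k F z) := fun e => by
    rw [← Pt_one, pd_Pt S hB _ hF]
    refine (sq_step hO.pos (c0_Pt S hB _ (c0_pd hF e))
      (C0.sum _ fun k _ => c0_smul _ ((c0_c1 S k).mul (hX k)))).trans (add_le_add_left ?_ _)
    exact mul_le_mul_of_nonneg_left (sq_Pt S hB hO.pos (fun k => by
      rw [one_mul, abs_eps]) (c0_pd hF e)) (by positivity)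
  rw [en_eq (S.P F)]
  refine (sum_le_sum fun e _ => h1 e).trans ?_
  rw [sum_add_distrib, ← mul_sum, ← mul_sum, ← en_eq]
  have h2 := src_le hO hX
  have h3 := mul_le_mul_of_nonneg_left (en_le hB hO hF) (B0 hO)
  simp only [Dt_one] at h2 ⊢
  have h4 := mul_le_mul_of_nonneg_left (h2.trans (show _ ≤ 16 * B * en F by linarith))
    (show (0 : ℝ) ≤ 2 / n by positivity)
  refine (add_le_add_right h4 _).trans_eq (by ring)

theorem en2_P {F : E m → ℝ} (hF : Tm 2 F) : en2 (S.P F) ≤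
    (1 + 1 / n) * en2 F + (384 * B + 384 * B ^ 2) / n * (en F + en2 F) := by
  have n0 : (0 : ℝ) < n := by exact_mod_cast hO.pos
  have B0 := B0 hO
  have f1 := hF.1
  have f2 : ∀ e, C1 (pd e F) := fun e => (hF.2 e).1
  have hX := fun k => c0_Dt S hB 1 k (c0_of f1)
  have hY := fun e k => c0_Dt S hB (eps S k e) k (c0_pd f1 e)
  set A : Fin m → Fin m → E m → ℝ := fun e e' z =>
    ∑ k, aa S k e' * (c1 S k z * Dt S (eps S k e) k (pd e F) z) with hA
  set C : Fin m → Fin m → E m → ℝ := fun e e' z =>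
    ∑ k, aa S k e * aa S k e' * (c2 S k z * Dt S 1 k F z) with hC
  have cA : ∀ e e', C0 (A e e') := fun e e' => C0.sum _ fun k _ => c0_smul _ ((c0_c1 S k).mul (hY e k))
  have cC : ∀ e e', C0 (C e e') := fun e e' => C0.sum _ fun k _ => c0_smul _ ((c0_c2 S k).mul (hX k))
  have h1 : ∀ e e', sq (pd e' (pd e (S.P F))) ≤ (1 + 1 / n) * sq (pd e' (pd e F)) +
      6 / n * (sq (A e e') + sq (A e' e) + sq (C e e')) := fun e e' => by
    have g1 := fun k => ((c1_c1 S k).mul (c1_Dt S hB 1 k f1)).smul (aa S k e)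
    have g2 := C1.sum (s := univ) fun k _ => g1 k
    have e1 : pd e' (pd e (S.P F)) = fun z => Pt S (fun k => eps S k e * eps S k e') (pd e' (pd e F)) z +
        (A e e' z + A e' e z + C e e' z) / n := by
      funext z
      rw [← Pt_one, pd_Pt S hB _ f1]
      simp only [one_mul, div_eq_mul_inv]
      rw [(c1_Pt S hB _ (f2 e)).pd_add (g2.mul (c1_const _)), g2.pd_mul (c1_const _),
        pd_sum' fun k _ => g1 k, pd_Pt S hB _ (f2 e)]
      simp only [pd_const, (c1_const _).pd_mul ((c1_c1 S _).mul (c1_Dt S hB 1 _ f1)),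
        (c1_c1 S _).pd_mul (c1_Dt S hB 1 _ f1), pd_c1, pd_Dt S hB _ _ f1, one_mul, hA, hC, mul_add,
        sum_add_distrib, mul_assoc, zero_mul, zero_add, div_eq_mul_inv]
      ring
    rw [e1]
    refine (sq_step hO.pos (c0_Pt S hB _ (c0_pd (f2 e) e')) (((cA _ _).add (cA _ _)).add (cC _ _))).trans
      (add_le_add (mul_le_mul_of_nonneg_left (sq_Pt S hB hO.pos (fun k => by
        rw [abs_mul, abs_eps, abs_eps, one_mul]) (c0_pd (f2 e) e')) (by positivity)) ?_)
    have g3 := sq_le_two (f := fun z => A e e' z + A e' e z + C e e' z) ((cA e e').add (cA e' e))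
      (cC e e') (3 / 2) 3 fun z => by nlinarith [sq_nonneg (A e e' z + A e' e z - 2 * C e e' z)]
    have g4 := sq_le_two (f := fun z => A e e' z + A e' e z) (cA e e') (cA e' e) 2 2
      fun z => by nlinarith [sq_nonneg (A e e' z - A e' e z)]
    refine (mul_le_mul_of_nonneg_left (show _ ≤ 3 * (sq (A e e') + sq (A e' e) + sq (C e e')) by
      linarith) (by positivity)).trans_eq (by ring)
  have h2 : ∑ e, ∑ e', sq (A e e') ≤ 32 * B * (en F + en2 F) := by
    refine (sum_le_sum fun e _ => (src_le hO (hY e)).trans (mul_le_mul_of_nonneg_left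
      (tw_le hB hO (f2 e) e) (by positivity))).trans_eq ?_
    rw [← mul_sum, sum_add_distrib, ← mul_sum, ← mul_sum, ← en_eq, en2]; ring
  have h3 : ∑ e, ∑ e', sq (C e e') ≤ 64 * B ^ 2 * (en F + en2 F) := by
    have g1 := src2_le hO hX
    have g2 := mul_le_mul_of_nonneg_left (en_le hB hO f1) (sq_nonneg B)
    have g3 := mul_nonneg (sq_nonneg B) (show 0 ≤ en2 F from sum_nonneg fun _ _ => Hm.en_nonneg _)
    simp only [Dt_one] at g1
    simp only [hC, Dt_one]
    linarith
  rw [en2_eq (S.P F)]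
  refine (sum_le_sum fun e _ => sum_le_sum fun e' _ => h1 e e').trans ?_
  simp only [sum_add_distrib, ← mul_sum]
  rw [← en2_eq, sum_comm (f := fun e e' => sq (A e' e))]
  refine add_le_add_right ((mul_le_mul_of_nonneg_left
    (show _ ≤ (64 * B + 64 * B ^ 2) * (en F + en2 F) by linarith) (by positivity)).trans_eq (by ring)) _

end C48

open C48

theorem comGlue : ComGlue := fun hB hS B => by
  refine ⟨2 + 416 * |B| + 384 * B ^ 2, by positivity, fun m n S hO => ⟨fun F hF => ?_, fun ζ hζ F hF => ?_⟩⟩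
  · linarith [en_le hB hO hF, En_eq S F]
  have n0 : (0 : ℝ) < n := by exact_mod_cast hO.pos
  have B0 := B0 hO
  rw [abs_of_nonneg B0] at hζ
  set a := 1 + 416 * B + 384 * B ^ 2 with ha
  have a1 : 1 ≤ a := by rw [ha]; nlinarith
  have tm : ∀ j, Tm 2 (S.P^[j] F) := fun j => by
    induction j with
    | zero => exact hF
    | succ j ih => rw [Function.iterate_succ_apply']; exact tm_P S hB hS ih
  have e2 : ∀ G : E m → ℝ, 0 ≤ en2 G := fun G => sum_nonneg fun _ _ => Hm.en_nonneg _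
  have it : ∀ j, en (S.P^[j] F) ≤ (1 + a / n) ^ j * en F ∧
      en (S.P^[j] F) + en2 (S.P^[j] F) ≤ (1 + a / n) ^ j * (en F + en2 F) := fun j => by
    induction j with
    | zero => simp
    | succ j ih =>
      rw [Function.iterate_succ_apply', pow_succ']
      have h1 := en_P hB hO (tm j).1
      have h2 := en2_P hB hO (tm j)
      have h3 := Hm.en_nonneg (S.P^[j] F)
      have h4 := e2 (S.P^[j] F)
      have h5 : (0 : ℝ) ≤ 1 + a / n := by positivity
      have h6 : 0 ≤ B / n := by positivity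
      have h7 : 0 ≤ B ^ 2 / n := by positivity
      have e1 : a / n = 1 / n + 416 * (B / n) + 384 * (B ^ 2 / n) := by rw [ha]; ring
      have e3 : (1 + 32 * B) / n = 1 / n + 32 * (B / n) := by ring
      have e4 : (384 * B + 384 * B ^ 2) / n = 384 * (B / n) + 384 * (B ^ 2 / n) := by ring
      rw [e3] at h1; rw [e4] at h2
      refine ⟨le_trans ?_ ((mul_le_mul_of_nonneg_left ih.1 h5).trans_eq (by ring)),
        le_trans ?_ ((mul_le_mul_of_nonneg_left ih.2 h5).trans_eq (by ring))⟩ <;> rw [e1]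
      · nlinarith [mul_nonneg h6 h3, mul_nonneg h7 h3]
      · nlinarith [mul_nonneg h6 h4]
  set θ : ℕ → ℝ := fun j => (n / (ζ + n)) ^ j / (ζ + n) with hθ
  have z0 : 0 < ζ + n := by linarith
  have θ0 : ∀ j, 0 ≤ θ j := fun j => by positivity
  have geo : ∀ b : ℝ, 0 ≤ b → b < ζ → ∑ j ∈ range (n ^ 2), θ j * (1 + b / n) ^ j ≤ 1 / (ζ - b) :=
    fun b b0 hb => by
    have e : ∀ j, θ j * (1 + b / n) ^ j = ((n + b) / (ζ + n)) ^ j / (ζ + n) := fun j => by
      rw [hθ, div_mul_eq_mul_div, ← mul_pow]; congr 2; field_simp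
    have r1 : (n + b) / (ζ + n) < 1 := by rw [div_lt_one z0]; linarith
    have r0 : 0 ≤ (n + b) / (ζ + n) := by positivity
    simp only [e, ← sum_div]
    refine (div_le_div_of_nonneg_right (((summable_geometric_of_lt_one r0 r1).sum_le_tsum _
      fun _ _ => pow_nonneg r0 _).trans_eq (tsum_geometric_of_lt_one r0 r1)) z0.le).trans_eq ?_
    have : ζ - b ≠ 0 := by linarith
    rw [show 1 - (n + b) / (ζ + n) = (ζ - b) / (ζ + n) by field_simp; ring]; field_simp
  have s1 : ∑ j ∈ range (n ^ 2), θ j ≤ 1 := by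
    have := geo 0 le_rfl (by linarith)
    simp only [zero_div, add_zero, one_pow, mul_one, sub_zero] at this
    exact this.trans ((div_le_one (by linarith)).2 (by linarith))
  have s2 := (geo a (by linarith) (by linarith)).trans ((div_le_one (by linarith)).2 (by linarith))
  have fin : ∀ {ι : Type} [Fintype ι] (g : ι → ℕ → E m → ℝ) (u : ℝ), 0 ≤ u → (∀ i j, C0 (g i j)) →
      (∀ j, ∑ i, sq (g i j) ≤ (1 + a / n) ^ j * u) →
      ∑ i, sq (fun z => ∑ j ∈ range (n ^ 2), θ j * g i j z) ≤ u := fun g u u0 hg h => by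
    refine (sum_le_sum fun i _ => sq_comb _ θ0 (hg i)).trans ?_
    rw [← mul_sum, sum_comm]
    simp only [← mul_sum]
    refine (mul_le_mul s1 (sum_le_sum fun j _ => mul_le_mul_of_nonneg_left (h j) (θ0 j))
      (sum_nonneg fun j _ => mul_nonneg (θ0 j) (sum_nonneg fun _ _ => sq_nn _)) zero_le_one).trans ?_
    simp only [← mul_assoc, ← sum_mul, one_mul]
    exact mul_le_of_le_one_left u0 s2
  have pd1 : ∀ {g : ℕ → E m → ℝ}, (∀ j, C1 (g j)) → ∀ e,
      pd e (fun z => ∑ j ∈ range (n ^ 2), θ j * g j z) =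
        fun z => ∑ j ∈ range (n ^ 2), θ j * pd e (g j) z := fun hg e => funext fun z => by
    rw [pd_sum' fun j _ => (hg j).smul _]
    simp only [(c1_const _).pd_mul (hg _), pd_const, zero_mul, zero_add]
  have eR : S.Rz ζ F = fun z => ∑ j ∈ range (n ^ 2), θ j * S.P^[j] F z := rfl
  refine ⟨hS.sum _ _ _ _ _ fun j _ => hS.mul _ _ _ _ (hS.const m 2 _) (tm j), ?_, ?_⟩
  · rw [en_eq, eR]
    simp only [pd1 fun j => (tm j).1]
    exact fin _ _ (Hm.en_nonneg F) (fun e j => c0_pd (tm j).1 e) fun j => en_eq (S.P^[j] F) ▸ (it j).1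
  · rw [en2_eq, eR, ← Fintype.sum_prod_type']
    simp only [pd1 fun j => (tm j).1, pd1 fun j => ((tm j).2 _).1]
    refine fin (fun p : Fin m × Fin m => fun j => pd p.2 (pd p.1 (S.P^[j] F))) _
      (add_nonneg (Hm.en_nonneg F) (e2 F)) (fun p j => c0_pd ((tm j).2 _).1 _) fun j => ?_
    rw [Fintype.sum_prod_type, ← en2_eq]
    linarith [(it j).2, Hm.en_nonneg (S.P^[j] F)]

end Crest.Agent.T157.Lm

end
end

-- ▼ part T157/LmFc_43
section

/-!
# Row 157, block B/S5 (helper43): functional calculus and semigroups of the limit class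
-/

set_option autoImplicit false

noncomputable section

namespace Crest.Agent.T157.Lm

open MeasureTheory Real Filter Topology Finset Matrix
open Crest.Agent.R238.Gap (E)
open Crest.Agent.R253.Meh74 (gam)
open Crest.Agent.T157.E (Cube mean gen prob)
open Crest.Agent.T157.Chain22 (sg hbRC)

namespace Fc43

section mul
variable {m n : ℕ} {S : GS m n} {ψ χ : ℝ → ℝ} {F G H : E m → ℝ}

theorem mul_id (S : GS m n) (F : E m → ℝ) : S.Mul (fun _ => 1) F F :=
  fun _ _ _ => (one_mul _).symm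

theorem mul_comp (h : S.Mul ψ F G) (h' : S.Mul χ G H) : S.Mul (fun s => χ s * ψ s) F H :=
  fun hn z j => by rw [h' hn z j, h hn z j, mul_assoc]

theorem mul_add (h : S.Mul ψ F G) (h' : S.Mul χ F H) : S.Mul (fun s => ψ s + χ s) F (G + H) :=
  fun hn z j => by
    rw [show S.orb (G + H) z = S.orb G z + S.orb H z from rfl, Chain22.ip_add_left, h hn z j,
      h' hn z j, add_mul]

theorem mul_sub (h : S.Mul ψ F G) (h' : S.Mul χ F H) : S.Mul (fun s => ψ s - χ s) F (G - H) :=
  fun hn z j => by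
    rw [show S.orb (G - H) z = S.orb G z - S.orb H z from rfl, Chain22.ip_sub_left, h hn z j,
      h' hn z j, sub_mul]

theorem mul_smul (a : ℝ) (h : S.Mul ψ F G) : S.Mul (fun s => a * ψ s) F fun z => a * G z :=
  fun hn z j => by
    rw [show S.orb (fun z => a * G z) z = a • S.orb G z from rfl, Chain22.ip_smul_left, h hn z j,
      mul_assoc]

theorem rt_mem (hn : 0 < n) {w : Cube n → ℝ} (hw : ∀ x, 0 < w x) (j : Cube n) :
    0 ≤ (n : ℝ) * (1 - (hbRC hn hw).ev j) ∧ (n : ℝ) * (1 - (hbRC hn hw).ev j) ≤ n := by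
  have h1 := (hbRC hn hw).ev_le_one j
  have h2 := (Chain22.hbRC_psd hn hw).ev_nonneg j
  have h3 : (0 : ℝ) ≤ n := n.cast_nonneg
  constructor <;> nlinarith

theorem mul_congr (h : S.Mul ψ F G) (e : ∀ s : ℝ, 0 ≤ s → s ≤ n → ψ s = χ s) : S.Mul χ F G :=
  fun hn z j => by
    rw [h hn z j, e _ (rt_mem hn (S.w_pos z) j).1 (rt_mem hn (S.w_pos z) j).2]

theorem mul_L (hB : BasStmt) (S : GS m n) (F : E m → ℝ) : S.Mul (fun s => -s) F (S.L F) :=
  fun hn z j => by
    have e : gen (S.w z) (S.orb F z) =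
        (n : ℝ) • ((hbRC hn (S.w_pos z)).P *ᵥ S.orb F z - S.orb F z) :=
      funext fun x => Chain22.gen_eq hn (S.w_pos z) _ x
    have h := (hbRC hn (S.w_pos z)).ip_P_φ (S.orb F z) j
    rw [Chain22.hbRC_π] at h
    rw [hB.orb_L, e, Chain22.ip_smul_left, Chain22.ip_sub_left, h]
    ring

theorem mul_P (hB : BasStmt) (S : GS m n) (F : E m → ℝ) : S.Mul (fun s => 1 - s / n) F (S.P F) := by
  have h := mul_add (mul_id S F) (mul_smul (n : ℝ)⁻¹ (mul_L hB S F))
  have e : S.P F = F + fun z => (n : ℝ)⁻¹ * S.L F z := by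
    funext z; simp only [GS.P, Pi.add_apply]; ring
  rw [e]
  exact mul_congr h fun s _ _ => by ring

theorem mul_iter (hB : BasStmt) (S : GS m n) (F : E m → ℝ) (k : ℕ) :
    S.Mul (fun s => (1 - s / n) ^ k) F (S.P^[k] F) := by
  induction k with
  | zero => exact mul_congr (mul_id S F) fun s _ _ => (pow_zero _).symm
  | succ k ih =>
    rw [Function.iterate_succ_apply']
    exact mul_congr (mul_comp ih (mul_P hB S _)) fun s _ _ => (pow_succ' _ _).symm

/-- the multiplier of the truncated resolvent -/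
def rr (ζ : ℝ) (n : ℕ) (s : ℝ) : ℝ := (1 - (n / (ζ + n)) ^ n ^ 2 * (1 - s / n) ^ n ^ 2) / (s + ζ)

theorem mul_Rz (hB : BasStmt) (S : GS m n) {ζ : ℝ} (hζ : 0 < ζ) (F : E m → ℝ) :
    S.Mul (rr ζ n) F (S.Rz ζ F) := fun hn z j => by
  have h1 := mul_sub (mul_smul ζ (mul_id S (S.Rz ζ F))) (mul_L hB S (S.Rz ζ F)) hn z j
  have h2 := mul_sub (mul_id S F) (mul_smul ((n / (ζ + n)) ^ n ^ 2) (mul_iter hB S F (n ^ 2))) hn z j
  have e : (fun z => ζ * S.Rz ζ F z) - S.L (S.Rz ζ F) =
      F - fun z => (n / (ζ + n)) ^ n ^ 2 * S.P^[n ^ 2] F z :=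
    funext fun z => hB.res m n S ζ F z hn hζ
  rw [e, h2] at h1
  have h3 := (rt_mem hn (S.w_pos z) j).1
  rw [rr, div_mul_eq_mul_div, eq_div_iff (by linarith), h1]
  ring

theorem mul_T (hB : BasStmt) (S : GS m n) (t : ℝ) (F : E m → ℝ) :
    S.Mul (fun s => exp (-(t * s))) F (S.T t F) := fun hn z j => by
  have h := (hbRC hn (S.w_pos z)).ip_H_φ (n * t) (S.orb F z) j
  rw [Chain22.hbRC_π] at h
  rw [hB.orb_T m n S t F z hn, Chain22.sg_eq hn (S.w_pos z), h]
  congr 3; ring

theorem sq_eq (hB : BasStmt) (S : GS m n) (hn : 0 < n) (hF : M2 F) :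
    Integrable (fun z => ∑ j, Chain22.ip (prob (S.w z)) (S.orb F z) ((hbRC hn (S.w_pos z)).φ j) ^ 2)
      (gam m) ∧ sq F =
      ∫ z, ∑ j, Chain22.ip (prob (S.w z)) (S.orb F z) ((hbRC hn (S.w_pos z)).φ j) ^ 2 ∂gam m := by
  have h := hB.orb m n S (fun z => F z ^ 2) (hF.1.pow_const 2) hF.2.integrable_sq
  have e : (fun z => mean (S.w z) (S.orb (fun z => F z ^ 2) z)) = fun z =>
      ∑ j, Chain22.ip (prob (S.w z)) (S.orb F z) ((hbRC hn (S.w_pos z)).φ j) ^ 2 := by
    funext z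
    have := (hbRC hn (S.w_pos z)).parseval (S.orb F z) (S.orb F z)
    rw [Chain22.hbRC_π] at this
    simp only [_root_.sq]
    rw [← this]; rfl
  rw [e] at h
  exact ⟨h.1, h.2.symm⟩

theorem mul_sq_le (hB : BasStmt) (hn : 0 < n) (hF : M2 F) (hG : M2 G) (h : S.Mul ψ F G) {a : ℝ}
    (ha : ∀ s : ℝ, 0 ≤ s → s ≤ n → |ψ s| ≤ a) : sq G ≤ a ^ 2 * sq F := by
  obtain ⟨iF, eF⟩ := sq_eq hB S hn hF
  obtain ⟨iG, eG⟩ := sq_eq hB S hn hG
  rw [eF, eG, ← integral_const_mul]
  refine integral_mono iG (iF.const_mul _) fun z => ?_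
  simp only [mul_sum]
  refine sum_le_sum fun j _ => ?_
  rw [h hn z j, mul_pow]
  refine mul_le_mul_of_nonneg_right ?_ (sq_nonneg _)
  have := ha _ (rt_mem hn (S.w_pos z) j).1 (rt_mem hn (S.w_pos z) j).2
  exact sq_le_sq' (abs_le.1 this).1 (abs_le.1 this).2

theorem m2_sub (hF : M2 F) (hG : M2 G) : M2 (F - G) := ⟨hF.1.sub hG.1, hF.2.sub hG.2⟩

end mul

theorem th_le {ζ : ℝ} (hζ : 0 < ζ) {n : ℕ} (hn : 0 < n) :
    (n / (ζ + n) : ℝ) ^ n ^ 2 ≤ (ζ * n)⁻¹ := by
  have h0 : (0 : ℝ) < n := by exact_mod_cast hn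
  have h1 := one_add_mul_le_pow (a := ζ / n) (by have : 0 < ζ / n := by positivity
                                                 linarith) (n ^ 2)
  have e : (n / (ζ + n) : ℝ) = (1 + ζ / n)⁻¹ := by field_simp; ring
  rw [e, inv_pow]
  refine inv_anti₀ (by positivity) (le_trans ?_ h1)
  have : ((n ^ 2 : ℕ) : ℝ) * (ζ / n) = ζ * n := by push_cast; field_simp
  linarith

theorem rr_near {ζ : ℝ} (hζ : 0 < ζ) {n : ℕ} (hn : 0 < n) {s : ℝ} (h0 : 0 ≤ s) (h1 : s ≤ n) :
    rr ζ n s ∈ Set.Icc 0 ζ⁻¹ ∧ (s + ζ)⁻¹ ∈ Set.Icc 0 ζ⁻¹ ∧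
      |rr ζ n s - (s + ζ)⁻¹| ≤ (ζ * n)⁻¹ * ζ⁻¹ := by
  have hn' : (0 : ℝ) < n := by exact_mod_cast hn
  have a0 : 0 ≤ 1 - s / n := by rw [sub_nonneg, div_le_one hn']; exact h1
  have a1 : 1 - s / n ≤ 1 := by have : 0 ≤ s / n := by positivity
                                linarith
  have b0 : 0 ≤ (1 - s / n) ^ n ^ 2 := pow_nonneg a0 _
  have b1 : (1 - s / n) ^ n ^ 2 ≤ 1 := pow_le_one₀ a0 a1
  have c0 : 0 ≤ (n / (ζ + n) : ℝ) ^ n ^ 2 := by positivity
  have c1 : (n / (ζ + n) : ℝ) ^ n ^ 2 ≤ 1 :=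
    pow_le_one₀ (by positivity) ((div_le_one (by positivity)).2 (by linarith))
  have c2 := th_le hζ hn
  have x0 : 0 ≤ (s + ζ)⁻¹ := by positivity
  have x1 : (s + ζ)⁻¹ ≤ ζ⁻¹ := inv_anti₀ hζ (by linarith)
  rw [rr, div_eq_mul_inv]
  generalize (n / (ζ + n) : ℝ) ^ n ^ 2 = c at *
  generalize (1 - s / n) ^ n ^ 2 = b at *
  generalize (s + ζ)⁻¹ = x at *
  have d0 : 0 ≤ c * b := mul_nonneg c0 b0
  have d1 : c * b ≤ c := mul_le_of_le_one_right c0 b1
  refine ⟨⟨mul_nonneg (by linarith) x0, ?_⟩, ⟨x0, x1⟩, ?_⟩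
  · nlinarith [mul_nonneg d0 x0]
  · rw [show (1 - c * b) * x - x = -(c * b * x) by ring, abs_neg, abs_of_nonneg (mul_nonneg d0 x0)]
    exact mul_le_mul (d1.trans c2) x1 x0 (c0.trans c2)

theorem n2_eq {L : ℕ} (F : F0 L) (n : ℕ) : n2 F n = sq (F n (x0 n)) := by
  rw [n2, av, Fintype.sum_subsingleton _ (x0 n)]
  simp

theorem poly (hB : BasStmt) (hL : LinStmt) {L : ℕ} {β : ℝ} {ρ : Fin L → ℝ} {ζ : ℝ} (hζ : 0 < ζ)
    (hR : ∀ F : F0 L, Cl F → Cl (op β ρ (fun S => S.Rz ζ) F)) {C : F0 L} (hC : Cl C)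
    (p : Polynomial ℝ) : ∃ H : F0 L, Cl H ∧ ∀ n,
      (sk β ρ n).Mul (fun s => p.eval (rr ζ n s)) (C n (x0 n)) (H n (x0 n)) := by
  induction p using Polynomial.induction_on with
  | C a =>
    exact ⟨_, hL.smul L Empty (fun _ => a) C ⟨a, tendsto_const_nhds⟩ hC, fun n =>
      mul_congr (mul_smul a (mul_id _ _)) fun s _ _ => by simp⟩
  | add p q hp hq =>
    obtain ⟨H, h1, h2⟩ := hp
    obtain ⟨H', h1', h2'⟩ := hq
    exact ⟨_, hL.add L Empty H H' h1 h1', fun n =>
      mul_congr (mul_add (h2 n) (h2' n)) fun s _ _ => by simp⟩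
  | monomial k a hp =>
    obtain ⟨H, h1, h2⟩ := hp
    exact ⟨_, hR H h1, fun n =>
      mul_congr (mul_comp (h2 n) (mul_Rz hB _ hζ _)) fun s _ _ => by simp; ring⟩

/-- `e^{-ts}` in the variable `x = (s + ζ)⁻¹` -/
def vv (t ζ x : ℝ) : ℝ := exp (t * ζ) * expNegInvGlue (x / t)

theorem vv_eq {t ζ s : ℝ} (ht : 0 < t) (h : 0 < s + ζ) : vv t ζ (s + ζ)⁻¹ = exp (-(t * s)) := by
  have : ¬ (s + ζ)⁻¹ / t ≤ 0 := not_le.2 (by positivity)
  rw [vv, expNegInvGlue, if_neg this, ← exp_add]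
  congr 1; field_simp; ring

theorem vv_cont (t ζ a : ℝ) (A : Set ℝ) : ContinuousOn (dslope (vv t ζ) a) A := by
  have h : Differentiable ℝ (vv t ζ) :=
    ((expNegInvGlue.contDiff (n := 1)).differentiable (by simp)).comp
      (differentiable_id.div_const t) |>.const_mul _
  exact ((continuousOn_dslope univ_mem).2 ⟨h.continuous.continuousOn, h a⟩).mono (Set.subset_univ _)

end Fc43

open Fc43

theorem fcGlue : FcGlue := by
  intro hB _ hL L β ρ ζ hζ hR F G φ hφ hF ⟨B, hb⟩ hG hM hC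
  refine hL.closed L Empty G hG fun ε hε => ?_
  have hB1 : 0 < |B| + 1 := by positivity
  set δ := √(ε / (|B| + 1)) with hδ
  have hδ0 : 0 < δ := sqrt_pos.2 (by positivity)
  obtain ⟨p, hp⟩ := exists_polynomial_near_of_continuousOn 0 ζ⁻¹ φ hφ (δ / 2) (by positivity)
  have hq : UniformContinuousOn (fun y => p.eval y * (1 - ζ * y)) (Set.Icc 0 ζ⁻¹) :=
    isCompact_Icc.uniformContinuousOn_of_continuous (by fun_prop)
  obtain ⟨κ, hκ, hq⟩ := Metric.uniformContinuousOn_iff.1 hq (δ / 2) (by positivity)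
  obtain ⟨H, hH, hm⟩ := poly hB hL hζ hR hC p
  refine ⟨H, hH, ?_⟩
  have hlim : Tendsto (fun n : ℕ => (ζ * n)⁻¹ * ζ⁻¹) atTop (𝓝 0) := by
    simpa using (tendsto_inv_atTop_zero.comp
      (tendsto_natCast_atTop_atTop.const_mul_atTop hζ)).mul_const ζ⁻¹
  filter_upwards [hF, hb, hG, hM, hH.1, hlim.eventually_lt_const hκ, eventually_gt_atTop 0] with
    n h1 h2 h3 h4 h5 h6 hn
  have h7 : (sk β ρ n).Mul (fun s => 1 - ζ * rr ζ n s) (F n (x0 n)) (cen β ρ ζ F n (x0 n)) :=
    mul_sub (mul_id _ _) (mul_smul ζ (mul_Rz hB _ hζ _))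
  have h8 := mul_sq_le hB hn (h1.1 _) (m2_sub (h3.1 _) (h5.1 _))
    (mul_sub h4 (mul_comp h7 (hm n))) (a := δ) fun s s0 s1 => by
      obtain ⟨r1, r2, r3⟩ := rr_near hζ hn s0 s1
      have e1 := hq _ r1 _ r2 (r3.trans_lt h6)
      have e2 := hp _ r2
      have hs : 0 < s + ζ := by linarith
      have e3 : s / (s + ζ) = 1 - ζ * (s + ζ)⁻¹ := by field_simp; ring
      have e4 : 0 ≤ s / (s + ζ) := by positivity
      have e5 : s / (s + ζ) ≤ 1 := (div_le_one hs).2 (by linarith)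
      rw [Real.dist_eq, ← e3] at e1
      have e6 : |(p.eval (s + ζ)⁻¹ - φ (s + ζ)⁻¹) * (s / (s + ζ))| ≤ δ / 2 := by
        rw [abs_mul, abs_of_nonneg e4]
        exact (mul_le_of_le_one_right (abs_nonneg _) e5).trans e2.le
      rw [abs_le] at e6 ⊢
      rw [abs_lt] at e1
      constructor <;> nlinarith [e1.1, e1.2, e6.1, e6.2]
  rw [n2_eq] at h2 ⊢
  refine h8.trans ?_
  rw [hδ, sq_sqrt (by positivity), div_mul_eq_mul_div, div_le_iff₀ hB1]
  exact mul_le_mul_of_nonneg_left (by linarith [le_abs_self B]) hε.le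

theorem sgGlue : SgGlue := by
  intro hB hS hL hR hFc L β ρ F hF hb hc t ht
  obtain ⟨ζ, hζ, hR⟩ := hR L β ρ
  obtain ⟨-, hR, hR'⟩ := hR ζ le_rfl
  have hC : Cl (cen β ρ ζ F) := by
    rcases hc with hc | hc
    · have h := hL.add L Empty _ _ hc
        (hL.smul L Empty (fun _ => -ζ) _ ⟨_, tendsto_const_nhds⟩ (hR F hc))
      have e : cen β ρ ζ F = F + fun n x z => -ζ * op β ρ (fun S => S.Rz ζ) F n x z := by
        funext n x z; simp only [cen, op, Pi.add_apply]; ring
      rw [e]; exact h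
    · exact hR' F hF hb hc.1 hc.2
  have hT : ∀ᶠ n in atTop, (∀ x, M2 ((sk β ρ n).T t (F n x))) ∧
      Eqv fun x => (sk β ρ n).T t (F n x) := by
    filter_upwards [hF, eventually_gt_atTop 0] with n h hn
    exact ⟨fun x => (hB.m2_T _ _ _ t _ hn ht.le (h.1 x)).1, (hS.eqv_P L β ρ n _ h.2).2.2.1 t⟩
  constructor
  · refine hFc L β ρ ζ hζ hR F _ (fun x => ζ⁻¹ * dslope (vv t ζ) ζ⁻¹ x)
      (continuousOn_const.mul (vv_cont _ _ _ _)) hF hb ?_ (Eventually.of_forall fun n => ?_) hC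
    · filter_upwards [hF, hT] with n h h'
      exact ⟨fun x => m2_sub (h.1 x) (h'.1 x), fun p x z =>
        congrArg₂ (· - ·) (h.2 p x z) (h'.2 p x z)⟩
    · refine mul_congr (mul_sub (mul_id _ _) (mul_T hB _ t _)) fun s s0 _ => ?_
      have hs : 0 < s + ζ := by linarith
      have e1 := sub_smul_dslope (vv t ζ) ζ⁻¹ (s + ζ)⁻¹
      have e2 := vv_eq (s := 0) (ζ := ζ) ht (by linarith)
      rw [zero_add] at e2
      rw [vv_eq ht hs, e2, smul_eq_mul, mul_zero, neg_zero, exp_zero] at e1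
      have e3 : s / (s + ζ) = -ζ * ((s + ζ)⁻¹ - ζ⁻¹) := by field_simp; ring
      rw [e3, ← neg_sub, ← e1]
      field_simp
  · refine hFc L β ρ ζ hζ hR F _ (fun x => -dslope (vv t ζ) 0 x) (vv_cont _ _ _ _).neg hF hb ?_
      (Eventually.of_forall fun n => ?_) hC
    · filter_upwards [hT] with n h'
      exact ⟨fun x => hB.m2_L _ _ _ _ (h'.1 x), (hS.eqv_P L β ρ n _ h'.2).1⟩
    · refine mul_congr (mul_comp (mul_T hB _ t _) (mul_L hB _ _)) fun s s0 _ => ?_
      have hs : 0 < s + ζ := by linarith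
      have e1 := sub_smul_dslope (vv t ζ) 0 (s + ζ)⁻¹
      have e2 : vv t ζ 0 = 0 := by simp [vv]
      rw [vv_eq ht hs, e2, smul_eq_mul, sub_zero, sub_zero] at e1
      rw [← e1, div_eq_mul_inv]
      ring

end Crest.Agent.T157.Lm

end
end

-- ▼ part T157/LmHyp_14
section

/-!
# Row 157, block B/S5 (helper14): hypercontractivity, Bernstein inequalities, flips
-/

set_option autoImplicit false
set_option linter.all false

noncomputable section

namespace Crest.Agent.T157.Lm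

open MeasureTheory Real Filter Topology
open Crest.Agent.R238.Gap Crest.Agent.R238.GapPc Crest.Agent.R253.Meh74
open Crest.Agent.T157.Hm
open Crest.Agent.T157.Rn (Tm)
open scoped Convolution ContDiff

namespace Hy14

variable {m : ℕ}

lemma sq_eq (f : E m → ℝ) : Lm.sq f = ip f f := by simp only [Lm.sq, ip, pow_two]

lemma sq_nn (f : E m → ℝ) : 0 ≤ Lm.sq f := by rw [sq_eq]; exact ip_self_nonneg f

lemma four_eq (f : E m → ℝ) :
    ∫ z, f z ^ 4 ∂gam m = ip (fun z => f z * f z) (fun z => f z * f z) :=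
  integral_congr_ae (ae_of_all _ fun z => by ring)

/-! ### Bernstein -/

lemma en_le' {D : ℕ} {f : E m → ℝ} (hf : f ∈ Pl m D) : en f ≤ D * Lm.sq f := by
  rw [sq_eq]; exact en_le (le_succ D hf)

lemma en_eq (f : E m → ℝ) : en f = ∑ j, Lm.sq (pd j f) := by simp only [en, sq_eq]

lemma bern (D m : ℕ) (f : E m → ℝ) (hf : f ∈ Pl m D) :
    Tm 2 f ∧ en f ≤ D * Lm.sq f ∧ en2 f ≤ D ^ 2 * Lm.sq f := by
  refine ⟨⟨c1 hf, fun i => ⟨c1 (pd_mem_self hf i), fun j => ?_⟩⟩, en_le' hf, ?_⟩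
  · have := c0 (pd_mem_self (pd_mem_self hf i) j)
    exact ⟨this.c, this.g⟩
  · calc en2 f ≤ ∑ j, D * Lm.sq (pd j f) :=
          Finset.sum_le_sum fun j _ => en_le' (pd_mem_self hf j)
      _ = D * en f := by rw [en_eq, Finset.mul_sum]
      _ ≤ D * (D * Lm.sq f) := mul_le_mul_of_nonneg_left (en_le' hf) (Nat.cast_nonneg D)
      _ = _ := by ring

/-! ### hypercontractivity -/

lemma four_step {f : E m → ℝ} (hf : C1 f) :
    ∫ z, f z ^ 4 ∂gam m ≤ Lm.sq f ^ 2 +
      4 * ∑ j, ip (fun z => f z * f z) (fun z => pd j f z * pd j f z) := by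
  have h := poincare1 (hf.mul hf)
  have e1 : ∫ z, (f z * f z) ^ 2 ∂gam m = ∫ z, f z ^ 4 ∂gam m :=
    integral_congr_ae (ae_of_all _ fun z => by ring)
  have e2 : ∀ j, ∫ z, pd j (fun z => f z * f z) z ^ 2 ∂gam m =
      4 * ip (fun z => f z * f z) (fun z => pd j f z * pd j f z) := fun j => by
    rw [ip, ← integral_const_mul]
    refine integral_congr_ae (ae_of_all _ fun z => ?_)
    simp only [hf.pd_mul hf]; ring
  simp only [e1, e2, ← Finset.mul_sum] at h
  rw [sq_eq, ip]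
  linarith

lemma four : ∀ D : ℕ, ∃ C > (0 : ℝ), ∀ m, ∀ f ∈ Pl m D, ∫ z, f z ^ 4 ∂gam m ≤ C * Lm.sq f ^ 2
  | 0 => ⟨1, one_pos, fun m f hf => by rw [Hm.mem_zero.1 hf]; simp [Lm.sq]⟩
  | D + 1 => by
    obtain ⟨C, C0', hC⟩ := four D
    refine ⟨2 + 16 * C * D ^ 2, by positivity, fun m f hf => ?_⟩
    have h1 := four_step (c1 hf)
    have a0 : 0 ≤ ∫ z, f z ^ 4 ∂gam m := integral_nonneg fun z => by positivity
    set a := ∫ z, f z ^ 4 ∂gam m with ha
    have h2 : ∀ j, ip (fun z => f z * f z) (fun z => pd j f z * pd j f z) ≤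
        √(a * C) * Lm.sq (pd j f) := fun j => by
      have g := pd_mem hf j
      have h3 := ip_sq_le ((c0 hf).mul (c0 hf)) ((c0 g).mul (c0 g))
      rw [← four_eq, ← four_eq, ← ha] at h3
      refine le_of_sq_le_sq ?_ (mul_nonneg (sqrt_nonneg _) (sq_nn _))
      rw [mul_pow, Real.sq_sqrt (by positivity), mul_assoc]
      exact h3.trans (mul_le_mul_of_nonneg_left (hC m _ g) a0)
    have h4 : ∑ j, ip (fun z => f z * f z) (fun z => pd j f z * pd j f z) ≤
        √(a * C) * (D * Lm.sq f) := by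
      refine (Finset.sum_le_sum fun j _ => h2 j).trans ?_
      rw [← Finset.mul_sum, ← en_eq, sq_eq]
      exact mul_le_mul_of_nonneg_left (en_le hf) (sqrt_nonneg _)
    have h5 : √(a * C) ^ 2 = a * C := Real.sq_sqrt (by positivity)
    have h6 := sq_nonneg (√(a * C) - 4 * C * (D * Lm.sq f))
    have h7 : C * (8 * (√(a * C) * (D * Lm.sq f))) ≤ C * (a + 16 * C * (D * Lm.sq f) ^ 2) := by
      nlinarith
    have h8 := le_of_mul_le_mul_left h7 C0'
    nlinarith

/-! ### flips -/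

lemma aff_mem (a b : Fin m → ℝ) {T : E m → E m} (hT : ∀ z e, T z e = a e * z e + b e) :
    ∀ {D : ℕ} {f : E m → ℝ}, f ∈ Pl m D → (fun z => f (T z)) ∈ Pl m D
  | 0, f, h => by rw [Hm.mem_zero.1 h]; exact zero_mem _
  | D + 1, _, ⟨c, r, hr, rfl⟩ => by
    have : (fun z : E m => c + ∑ j, T z j * r j (T z)) =
        fun z => (c + ∑ j, z j * (a j * r j (T z))) + ∑ j, b j * r j (T z) := funext fun z => by
      rw [add_assoc, ← Finset.sum_add_distrib]
      congr 1
      exact Finset.sum_congr rfl fun j _ => by rw [hT]; ring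
    show (fun z : E m => c + ∑ j, T z j * r j (T z)) ∈ _
    rw [this]
    exact add_mem' ⟨c, _, fun j => smul_mem' _ (aff_mem a b hT (hr j)), rfl⟩
      (sum_mem' _ fun j _ => smul_mem' _ (le_succ D (aff_mem a b hT (hr j))))

lemma flip (hb : BasStmt) (D m n : ℕ) (S : GS m n) (k : Fin n) (f : E m → ℝ) (hf : f ∈ Pl m D) :
    S.D k f ∈ Pl m D :=
  sub_mem' (aff_mem (fun e => if S.inc k e = true then -1 else 1)
    (fun e => if S.inc k e = true then -2 * S.α e else 0) (fun z e => by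
      rw [hb.R_apply]; split_ifs <;> ring) hf) hf

/-! ### the weighted lower bound -/

lemma rate_eq (x : ℝ) : (1 - tanh x) / 2 = (1 + exp (2 * x))⁻¹ := by
  have h1 := exp_pos x
  have h2 : exp (-x) = (exp x)⁻¹ := exp_neg x
  have h3 : exp (2 * x) = exp x * exp x := by rw [two_mul, exp_add]
  rw [tanh_eq_sinh_div_cosh, sinh_eq, cosh_eq, h2, h3]
  field_simp
  ring

lemma int_coord (j : Fin m) : ∫ z : E m, z j ∂gam m = 0 := by
  have h := ibp_gam (c1_const (n := m) 1).c (pg_const 1) j ((c1_const 1).p j)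
  simpa [pd_const] using h

lemma aff_sq (a : Fin m → ℝ) (μ : ℝ) :
    C0 (fun z : E m => μ + ∑ j, z j * a j) ∧
      Lm.sq (fun z : E m => μ + ∑ j, z j * a j) ≤ μ ^ 2 + ∑ j, a j ^ 2 := by
  have hm : (fun z : E m => μ + ∑ j, z j * a j) ∈ Pl m 2 :=
    ⟨μ, fun j _ => a j, fun j => const_mem 0 _, rfl⟩
  refine ⟨c0 hm, ?_⟩
  have h := poincare1 (c1 hm)
  have e1 : ∀ i, pd i (fun z : E m => μ + ∑ j, z j * a j) = fun _ => a i := fun i => by
    rw [pd_form μ (r := fun j _ => a j) fun j => c1_const _]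
    funext x; simp [pd_const]
  have i1 : ∀ j, Integrable (fun z : E m => z j * a j) (gam m) := fun j =>
    ((c0_of (c1_coord j)).mul (c0_const _)).int
  have e2 : ∫ z : E m, (μ + ∑ j, z j * a j) ∂gam m = μ := by
    rw [integral_add (integrable_const _) (integrable_finsetSum _ fun j _ => i1 j),
      integral_finsetSum _ fun j _ => i1 j]
    simp [integral_mul_const, int_coord]
  simp only [e1, e2, integral_const, probReal_univ, smul_eq_mul, one_mul] at h
  rw [Lm.sq]; linarith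

lemma h_sq {n : ℕ} {S : GS m n} {B : ℝ} (hS : S.Ok B) (k : Fin n) :
    C0 (S.h k) ∧ Lm.sq (S.h k) ≤ B ^ 2 + B := by
  have e : S.h k = fun z : E m => (∑ e, if S.inc k e = true then S.α e ^ 2 else 0) +
      ∑ j, z j * (if S.inc k j = true then S.α j else 0) := funext fun z => by
    rw [GS.h, ← Finset.sum_add_distrib]
    exact Finset.sum_congr rfl fun e _ => by split_ifs <;> ring
  obtain ⟨h1, h2⟩ := aff_sq (fun j => if S.inc k j = true then S.α j else 0)
    (∑ e, if S.inc k e = true then S.α e ^ 2 else 0)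
  rw [e]
  refine ⟨h1, h2.trans ?_⟩
  have h3 := hS.row k
  have h4 : 0 ≤ ∑ e, if S.inc k e = true then S.α e ^ 2 else 0 :=
    Finset.sum_nonneg fun e _ => by split_ifs <;> positivity
  have h5 : ∑ j, (if S.inc k j = true then S.α j else 0) ^ 2 =
      ∑ e, if S.inc k e = true then S.α e ^ 2 else 0 :=
    Finset.sum_congr rfl fun e _ => by split_ifs <;> simp
  rw [h5]
  exact add_le_add (pow_le_pow_left₀ h4 h3 2) h3

lemma low_pt {A x y : ℝ} (hA : 0 < A) :
    y * y ≤ (1 + exp (2 * A)) * ((1 + exp (2 * x))⁻¹ * y ^ 2) + A⁻¹ * (y * y * |x|) := by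
  have h1 := exp_pos (2 * x)
  have h2 := exp_pos (2 * A)
  have h3 := mul_self_nonneg y
  rcases le_total x A with h | h
  · have h4 : exp (2 * x) ≤ exp (2 * A) := exp_le_exp.2 (by linarith)
    have h5 : 1 ≤ (1 + exp (2 * A)) * (1 + exp (2 * x))⁻¹ := by
      rw [← div_eq_mul_inv, one_le_div (by positivity)]; linarith
    have h6 : 0 ≤ A⁻¹ * (y * y * |x|) := by positivity
    nlinarith
  · have h5 : 1 ≤ A⁻¹ * |x| := by
      rw [← div_eq_inv_mul, one_le_div hA]; exact h.trans (le_abs_self x)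
    have h6 : 0 ≤ (1 + exp (2 * A)) * ((1 + exp (2 * x))⁻¹ * y ^ 2) := by positivity
    nlinarith

lemma low (D : ℕ) (B : ℝ) : ∃ C > (0 : ℝ), ∀ m n (S : GS m n), S.Ok B → ∀ k, ∀ f ∈ Pl m D,
    Lm.sq f ≤ C * ∫ z, S.c k z * f z ^ 2 ∂gam m := by
  obtain ⟨C, C0', hC⟩ := four D
  set K := C * (B ^ 2 + |B|) with hK
  have K0 : 0 ≤ K := by positivity
  refine ⟨2 * (1 + exp (2 * (2 * (K + 1)))), by positivity, fun m n S hS k f hf => ?_⟩
  obtain ⟨h1, h2⟩ := h_sq hS k
  have f0 := c0 hf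
  have ha : C0 fun z => |S.h k z| := ⟨h1.c.abs, h1.g.abs⟩
  have hc : C0 fun z => (1 + exp (2 * S.h k z))⁻¹ := by
    refine ⟨(continuous_const.add (continuous_exp.comp (continuous_const.mul h1.c))).inv₀
      fun z => (add_pos one_pos (exp_pos _)).ne', PG.of_bdd (K := 1) fun z => ?_⟩
    have := exp_pos (2 * S.h k z)
    rw [abs_of_pos (by positivity)]
    exact inv_le_one_of_one_le₀ (by linarith)
  have s0 := sq_nn f
  have h3 : ip (fun z => f z * f z) (fun z => |S.h k z|) ≤ (K + 1) * Lm.sq f := by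
    have h4 := ip_sq_le (f0.mul f0) ha
    have h5 : ip (fun z => |S.h k z|) (fun z => |S.h k z|) = Lm.sq (S.h k) := by
      simp only [sq_eq, ip, abs_mul_abs_self]
    rw [← four_eq, h5] at h4
    refine le_of_sq_le_sq (h4.trans ?_) (by positivity)
    calc (∫ z, f z ^ 4 ∂gam m) * Lm.sq (S.h k) ≤ C * Lm.sq f ^ 2 * (B ^ 2 + |B|) :=
          mul_le_mul (hC m f hf) (h2.trans (by linarith [le_abs_self B])) (sq_nn _) (by positivity)
      _ = K * Lm.sq f ^ 2 := by rw [hK]; ring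
      _ ≤ (K + 1) ^ 2 * Lm.sq f ^ 2 := mul_le_mul_of_nonneg_right (by nlinarith) (sq_nonneg _)
      _ = _ := by ring
  have i1 : Integrable (fun z => (1 + exp (2 * S.h k z))⁻¹ * f z ^ 2) (gam m) := by
    simpa only [pow_two] using (hc.mul (f0.mul f0)).int
  have i2 := ((f0.mul f0).mul ha).int
  have hA : 0 < 2 * (K + 1) := by positivity
  have h6 := integral_mono (f0.mul f0).int ((i1.const_mul _).add (i2.const_mul _))
    fun z => low_pt (x := S.h k z) (y := f z) hA
  simp only [Pi.add_apply] at h6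
  rw [integral_add (i1.const_mul _) (i2.const_mul _), integral_const_mul, integral_const_mul] at h6
  have h7 : (2 * (K + 1))⁻¹ * ip (fun z => f z * f z) (fun z => |S.h k z|) ≤ Lm.sq f / 2 := by
    rw [← div_eq_inv_mul, div_le_iff₀ hA]; linarith
  simp only [GS.c, rate_eq]
  rw [sq_eq, ip] at h7 ⊢
  rw [ip] at h7
  linarith

/-! ### Lipschitz functions -/

open ContinuousLinearMap in
lemma mollify {F : E m → ℝ} {B δ : ℝ} (hB : 0 ≤ B) (hδ : 0 < δ)
    (hF : ∀ z z', |F z - F z'| ≤ B * ‖z - z'‖) : ∃ V : E m → ℝ, ContDiff ℝ 1 V ∧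
      (∀ z z', |V z - V z'| ≤ B * ‖z - z'‖) ∧ ∀ z, |V z - F z| ≤ δ := by
  have hcont : Continuous F := (LipschitzWith.of_dist_le_mul (K := ⟨B, hB⟩) fun x y => by
    rw [Real.dist_eq, dist_eq_norm]; exact hF x y).continuous
  have hr : 0 < δ / (B + 1) := by positivity
  let φ : ContDiffBump (0 : E m) := ⟨δ / (B + 1) / 2, δ / (B + 1), half_pos hr, half_lt_self hr⟩
  refine ⟨(φ.normed volume) ⋆[lsmul ℝ ℝ, volume] F, ?_, fun x y => ?_, fun x => ?_⟩
  · exact φ.hasCompactSupport_normed.contDiff_convolution_left _ φ.contDiff_normed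
      hcont.locallyIntegrable
  · have hint : ∀ x, Integrable (fun t => φ.normed volume t * F (x - t)) volume := by
      intro x
      have := (φ.hasCompactSupport_normed (μ := volume)).convolutionExists_left (lsmul ℝ ℝ)
        φ.continuous_normed (hcont.locallyIntegrable (μ := volume)) x
      simpa [ConvolutionExistsAt, lsmul_apply, smul_eq_mul] using this
    have hval : ∀ x, ((φ.normed volume) ⋆[lsmul ℝ ℝ, volume] F) x =
        ∫ t, φ.normed volume t * F (x - t) := by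
      intro x; simp [convolution_def, lsmul_apply, smul_eq_mul]
    rw [hval, hval, ← integral_sub (hint x) (hint y)]
    have h1 := norm_integral_le_of_norm_le (μ := volume)
      (f := fun t => φ.normed volume t * F (x - t) - φ.normed volume t * F (y - t))
      ((φ.integrable_normed (μ := volume)).mul_const (B * ‖x - y‖)) (ae_of_all _ fun t => by
        have h0 := φ.nonneg_normed (μ := volume) t
        have h2 := hF (x - t) (y - t)
        rw [sub_sub_sub_cancel_right] at h2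
        rw [← mul_sub, Real.norm_eq_abs, abs_mul, abs_of_nonneg h0]
        exact mul_le_mul_of_nonneg_left h2 h0)
    rwa [integral_mul_const, φ.integral_normed, one_mul, Real.norm_eq_abs] at h1
  · have h4 := φ.dist_normed_convolution_le (μ := volume) (x₀ := x) (ε := δ)
      hcont.aestronglyMeasurable fun y hy => by
        have h3 : ‖y - x‖ < δ / (B + 1) := by rw [← dist_eq_norm]; exact hy
        rw [lt_div_iff₀ (by positivity)] at h3
        rw [Real.dist_eq]
        nlinarith [hF y x, norm_nonneg (y - x)]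
    rwa [Real.dist_eq] at h4

lemma c0_lip {F : E m → ℝ} {B : ℝ} (hB : 0 ≤ B) (hF : ∀ z z', |F z - F z'| ≤ B * ‖z - z'‖) :
    C0 F := by
  refine ⟨(LipschitzWith.of_dist_le_mul (K := ⟨B, hB⟩) fun x y => by
    rw [Real.dist_eq, dist_eq_norm]; exact hF x y).continuous, |F 0| + B, 1, fun x => ?_⟩
  have h1 := hF x 0
  rw [sub_zero] at h1
  have h2 := abs_sub_abs_le_abs_sub (F x) (F 0)
  nlinarith [norm_nonneg x, abs_nonneg (F 0), mul_nonneg (norm_nonneg x) (abs_nonneg (F 0))]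

lemma c1_lip {V : E m → ℝ} {B : ℝ} (hB : 0 ≤ B) (hV : ContDiff ℝ 1 V)
    (hL : ∀ z z', |V z - V z'| ≤ B * ‖z - z'‖) : C1 V ∧ en V ≤ B ^ 2 := by
  have h1 : ∀ x, ∑ i, pd i V x ^ 2 ≤ B ^ 2 := fun x => by
    rw [← norm_fderiv_sq]
    exact pow_le_pow_left₀ (norm_nonneg _)
      (norm_fderiv_le_of_lip' ℝ hB (.of_forall fun y => hL y x)) 2
  have hc : C1 V := ⟨hV, (c0_lip hB hL).g, fun i => PG.of_bdd (K := B) fun x =>
    abs_le_of_sq_le_sq (le_trans (Finset.single_le_sum (f := fun i => pd i V x ^ 2)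
      (fun _ _ => sq_nonneg _) (Finset.mem_univ i)) (h1 x)) hB⟩
  refine ⟨hc, ?_⟩
  have i1 : ∀ i, Integrable (fun x => pd i V x * pd i V x) (gam m) := fun i =>
    ((c0_pd hc i).mul (c0_pd hc i)).int
  simp only [en, ip]
  rw [← integral_finsetSum _ fun i _ => i1 i]
  have := integral_mono (integrable_finsetSum Finset.univ fun i _ => i1 i)
    (integrable_const (B ^ 2)) fun x => by simpa only [pow_two] using h1 x
  simpa using this

lemma best {D : ℕ} {F q : E m → ℝ} (hF : C0 F) (hq : q ∈ Pl m D) :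
    Lm.sq (fun z => F z - pr D F z) ≤ Lm.sq fun z => F z - q z := by
  have h1 := res_le (D := D) (hF.sub (c0 hq))
  rw [pr_unique (hF.sub (c0 hq)) (sub_mem' (pr_mem D F) hq) fun r hr => by
    rw [ip_sub (c0 (pr_mem D F)) (c0 hq) (c0 hr), ip_sub hF (c0 hq) (c0 hr), ip_pr hF hr]] at h1
  simpa only [sq_eq, sub_sub_sub_cancel_right] using h1

lemma lip_pt {t u v : ℝ} (ht : 0 < t) (hv : |v| ≤ t) : (u - v) ^ 2 ≤ (1 + t) * u ^ 2 + (t ^ 2 + t) := by
  have h1 : v ^ 2 ≤ t ^ 2 := sq_le_sq' (abs_le.1 hv).1 (abs_le.1 hv).2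
  have h2 : t * (-2 * u * v) ≤ t * (t * u ^ 2 + t) := by nlinarith [sq_nonneg (t * u + v)]
  have h3 := le_of_mul_le_mul_left h2 ht
  nlinarith

lemma lip (m : ℕ) (F : E m → ℝ) (B : ℝ) (hF : ∀ z z', |F z - F z'| ≤ B * ‖z - z'‖) (D : ℕ) :
    D * Lm.sq (fun z => F z - pr D F z) ≤ B ^ 2 := by
  have hF' : ∀ z z', |F z - F z'| ≤ |B| * ‖z - z'‖ := fun z z' =>
    (hF z z').trans (mul_le_mul_of_nonneg_right (le_abs_self B) (norm_nonneg _))
  have F0 := c0_lip (abs_nonneg B) hF'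
  have key : ∀ t > (0 : ℝ), D * Lm.sq (fun z => F z - pr D F z) ≤
      (1 + t) * B ^ 2 + D * (t ^ 2 + t) := fun t ht => by
    obtain ⟨V, h1, h2, h3⟩ := mollify (abs_nonneg B) ht hF'
    obtain ⟨h4, h5⟩ := c1_lip (abs_nonneg B) h1 h2
    have h6 := (res_le_en D h4).trans h5
    rw [sq_abs, ← sq_eq] at h6
    have p0 := c0 (pr_mem D V)
    have i1 : Integrable (fun z => (V z - pr D V z) ^ 2) (gam m) := by
      simpa only [pow_two] using (((c0_of h4).sub p0).mul ((c0_of h4).sub p0)).int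
    have i2 : Integrable (fun z => (F z - pr D V z) ^ 2) (gam m) := by
      simpa only [pow_two] using ((F0.sub p0).mul (F0.sub p0)).int
    have h7 := integral_mono i2 ((i1.const_mul (1 + t)).add (integrable_const (t ^ 2 + t)))
      fun z => by
        have := lip_pt (u := V z - pr D V z) ht (h3 z)
        simp only [Pi.add_apply]
        calc (F z - pr D V z) ^ 2 = (V z - pr D V z - (V z - F z)) ^ 2 := by ring
          _ ≤ _ := this
    simp only [Pi.add_apply] at h7
    rw [integral_add (i1.const_mul _) (integrable_const _), integral_const_mul] at h7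
    simp only [integral_const, probReal_univ, smul_eq_mul, one_mul] at h7
    have h8 := mul_le_mul_of_nonneg_left ((best F0 (pr_mem D V)).trans h7) (Nat.cast_nonneg D)
    have h9 := mul_le_mul_of_nonneg_left h6 (show 0 ≤ 1 + t by linarith)
    rw [Lm.sq] at h9
    linarith
  have hl : Tendsto (fun t : ℝ => (1 + t) * B ^ 2 + D * (t ^ 2 + t)) (𝓝[>] 0) (𝓝 (B ^ 2)) := by
    have hc : Continuous fun t : ℝ => (1 + t) * B ^ 2 + D * (t ^ 2 + t) := by fun_prop
    simpa using (hc.tendsto 0).mono_left nhdsWithin_le_nhds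
  exact ge_of_tendsto hl (eventually_nhdsWithin_of_forall key)

end Hy14

/-- **polynomial estimates** -/
theorem hypGlue : HypGlue := fun hb _ =>
  ⟨Hy14.four, Hy14.bern, Hy14.flip hb, Hy14.low, Hy14.lip⟩

end Crest.Agent.T157.Lm

end
end

-- ▼ part T157/LmSkJ_59
section

/-!
# Row 157, block B/S5 (helper59): the matrix half of `Lm.SkStmt`
-/

set_option autoImplicit false

noncomputable section

namespace Crest.Agent.T157.Lm

open MeasureTheory ProbabilityTheory Real Filter Topology Finset Matrix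
open Crest.ProbabilityR.SpinGlassDynamics (Pair disorderLaw)
open Crest.Agent.R238.Gap (E)
open Crest.Agent.R253.Meh74 (gam)
open Crest.Agent.T157.E (Cube sv Jmat)
open Crest.Agent.T157.Eig

namespace Sk59

variable {L n : ℕ}

theorem co_pt (f : Ix L n → ℝ) (e : Ix L n) : co (pt f) e = f e := by simp [co, pt]

/-! ### the radial retraction -/

/-- the radial retraction onto the ball of radius `K` -/
def rt (K : ℝ) (J : Matrix (Fin n) (Fin n) ℝ) : Matrix (Fin n) (Fin n) ℝ := (max 1 (opn J / K))⁻¹ • J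

theorem mx_pos (K : ℝ) (J : Matrix (Fin n) (Fin n) ℝ) : 0 < max 1 (opn J / K) :=
  lt_max_of_lt_left one_pos

theorem opn_rt {K : ℝ} (hK : 0 < K) (J : Matrix (Fin n) (Fin n) ℝ) : opn (rt K J) ≤ K := by
  have := mx_pos K J
  rw [rt, opn_smul, abs_of_pos (inv_pos.2 this), inv_mul_le_iff₀ this, ← div_le_iff₀ hK]
  exact le_max_right _ _



theorem sv_mul (σ : Cube n) (i : Fin n) : sv σ i * sv σ i = 1 := E.spin_mul_self _



/-! ### covariance -/

theorem Jm_act (β : ℝ) (p : Equiv.Perm (Fin n)) (z : E (Nv L n)) (i j : Fin n) :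
    Jm β (act p z) (p i) (p j) = Jm β z i j := by
  simp [Jm, act, co_pt]





theorem cont_co (e : Ix L n) : Continuous fun z : E (Nv L n) => co z e := by
  unfold co; fun_prop

theorem cont_Jm (β : ℝ) : Continuous fun z : E (Nv L n) => Jm β z :=
  continuous_pi fun i => continuous_pi fun j => by
    simp only [Jm, of_apply]
    split_ifs
    exacts [continuous_const, continuous_const.mul ((cont_co _).add continuous_const)]


/-! ### the couplings -/

/-- the variable of a pair -/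
def pe (L n : ℕ) (p : Pair n) : Fin (Nv L n) := ix L n (.inl s(p.1.1, p.1.2))

theorem pe_inj : Function.Injective (pe L n) := fun p q h => by
  have h1 := Sum.inl.inj ((ix L n).injective h)
  rcases Sym2.eq_iff.1 h1 with h | h
  · exact Subtype.ext (Prod.ext h.1 h.2)
  · have h2 := p.2
    rw [h.1, h.2] at h2
    exact absurd q.2 h2.not_gt

/-- the centred couplings -/
def gof (z : E (Nv L n)) : Pair n → ℝ := fun p => z (pe L n p)

theorem Jm_eq (β : ℝ) (z : E (Nv L n)) :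
    Jm β z = β • Jmat n (gof z) + Jm β (0 : E (Nv L n)) := by
  ext i j
  simp only [Jm, of_apply, Matrix.add_apply, Matrix.smul_apply, smul_eq_mul]
  rcases lt_trichotomy i j with h | rfl | h
  · rw [if_neg h.ne, if_neg h.ne, E.Jmat_apply_lt _ h]
    simp only [gof, pe, co, PiLp.zero_apply]; ring
  · simp [E.Jmat_diag]
  · rw [if_neg h.ne', if_neg h.ne', E.Jmat_symm, E.Jmat_apply_lt _ h, Sym2.eq_swap]
    simp only [gof, pe, co, PiLp.zero_apply]; ring

theorem opn_Jm_zero (β : ℝ) : opn (Jm β (0 : E (Nv L n))) ≤ β ^ 2 := by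
  refine (opn_le_sqrt_frob _).trans (sqrt_le_iff.2 ⟨sq_nonneg _, ?_⟩)
  have h : ∀ i j, Jm β (0 : E (Nv L n)) i j ^ 2 ≤ (β ^ 2 / n) ^ 2 := fun i j => by
    simp only [Jm, of_apply, co, PiLp.zero_apply, zero_add]
    split_ifs
    · rw [zero_pow two_ne_zero]; exact sq_nonneg _
    · rw [← pow_two, div_pow β, sq_sqrt (Nat.cast_nonneg n)]
  refine (sum_le_sum fun i _ => sum_le_sum fun j _ => h i j).trans ?_
  simp only [sum_const, card_univ, Fintype.card_fin, nsmul_eq_mul]
  rcases Nat.eq_zero_or_pos n with rfl | hn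
  · simp only [Nat.cast_zero, zero_mul]; exact sq_nonneg _
  · have : (n : ℝ) ≠ 0 := Nat.cast_ne_zero.2 hn.ne'
    exact le_of_eq (by field_simp)

theorem Jm_lip (β : ℝ) (z z' : E (Nv L n)) : opn (Jm β z - Jm β z') ≤ 2 * |β| / √n * ‖z - z'‖ := by
  rw [Jm_eq β z, Jm_eq β z', add_sub_add_right_eq_sub, ← smul_sub, Nrm.Jmat_sub, opn_smul]
  have h1 : ∑ p, (gof z - gof z') p ^ 2 ≤ ‖z - z'‖ ^ 2 := by
    rw [EuclideanSpace.real_norm_sq_eq]
    exact (sum_map univ ⟨pe L n, pe_inj⟩ fun j => (z - z') j ^ 2).symm.trans_le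
      (sum_le_sum_of_subset_of_nonneg (subset_univ _) fun _ _ _ => sq_nonneg _)
  have h2 : opn (Jmat n (gof z - gof z')) ≤ 2 / √n * ‖z - z'‖ := by
    refine (opn_le_sqrt_frob _).trans (sqrt_le_iff.2 ⟨by positivity, ?_⟩)
    rw [Nrm.frob_Jmat, mul_pow, div_pow, sq_sqrt (Nat.cast_nonneg n)]
    exact mul_le_mul (div_le_div_of_nonneg_right (by norm_num) (Nat.cast_nonneg n)) h1
      (sum_nonneg fun _ _ => sq_nonneg _) (by positivity)
  refine (mul_le_mul_of_nonneg_left h2 (abs_nonneg β)).trans (le_of_eq ?_)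
  ring


theorem mp_sel {ι κ : Type} [Fintype ι] [Fintype κ] {e : κ → ι} (he : Function.Injective e) :
    MeasurePreserving (fun (ω : ι → ℝ) k => ω (e k)) (Measure.pi fun _ => gaussianReal 0 1)
      (Measure.pi fun _ => gaussianReal 0 1) := by
  refine ⟨by fun_prop, ?_⟩
  have h : iIndepFun (fun i (ω : ι → ℝ) => ω i) (Measure.pi fun _ => gaussianReal 0 1) :=
    iIndepFun_pi (X := fun _ => id) fun _ => aemeasurable_id
  rw [(iIndepFun_iff_map_fun_eq_pi_map fun k => (measurable_pi_apply (e k)).aemeasurable).1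
    (h.precomp he)]
  congr 1
  funext k
  exact (measurePreserving_eval (fun _ : ι => gaussianReal 0 1) (e k)).map_eq

theorem mp_ofLp (m : ℕ) : MeasurePreserving (fun z : E m => z.ofLp) (gam m)
    (Measure.pi fun _ => gaussianReal 0 1) :=
  MeasurePreserving.symm (MeasurableEquiv.toLp 2 (Fin m → ℝ))
    ⟨(MeasurableEquiv.toLp 2 (Fin m → ℝ)).measurable, map_pi_eq_stdGaussian⟩

/-- the centred couplings have the disorder law -/
theorem mp_gof : MeasurePreserving (gof : E (Nv L n) → Pair n → ℝ) (gam _) (disorderLaw n) :=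
  (mp_sel pe_inj).comp (mp_ofLp _)

theorem tail_le (β : ℝ) (L n : ℕ) : (gam (Nv L n)).real {z | 3 * |β| + β ^ 2 + 1 < opn (Jm β z)} ≤
    2 * exp (-(n / 4)) := by
  have h1 := Nrm.Jmat_opn_tail (n := n) zero_le_one
  have hm : MeasurableSet {g | 2 + 1 ≤ opn (Jmat n g)} :=
    measurableSet_le measurable_const Nrm.elip_opn_Jmat.continuous.measurable
  rw [← (mp_gof (L := L)).measureReal_preimage hm.nullMeasurableSet, one_pow, mul_one] at h1
  refine (measureReal_mono (fun z hz => ?_) (measure_ne_top _ _)).trans h1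
  by_contra h
  simp only [Set.mem_ofPred_eq, Set.mem_preimage, not_le] at hz h
  have h2 := opn_add_le (β • Jmat n (gof z)) (Jm β (0 : E (Nv L n)))
  rw [← Jm_eq, opn_smul] at h2
  nlinarith [opn_Jm_zero (L := L) (n := n) β, abs_nonneg β]

theorem tail (β : ℝ) : ∃ K > (0 : ℝ), ∀ L, ∀ p : ℕ, Tendsto (fun n : ℕ => (n : ℝ) ^ p *
    (gam (Nv L n)).real {z | K < opn (Jm β z)}) atTop (𝓝 0) := by
  refine ⟨3 * |β| + β ^ 2 + 1, by positivity, fun L p => ?_⟩
  have h := ((tendsto_pow_mul_exp_neg_atTop_nhds_zero p).comp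
    ((tendsto_natCast_atTop_atTop (R := ℝ)).atTop_div_const (show (0 : ℝ) < 4 by norm_num))).const_mul
    (2 * 4 ^ p)
  rw [mul_zero] at h
  refine squeeze_zero (fun n => by positivity) (fun n => ?_) h
  refine (mul_le_mul_of_nonneg_left (tail_le β L n) (by positivity)).trans (le_of_eq ?_)
  simp only [Function.comp, div_pow]
  field_simp

end Sk59

end Crest.Agent.T157.Lm

end
end

-- ▼ part T157/LmLay_44
section

/-!
# Row 157, block B/S5 (helper44): forgetting the layers (`Lm.layGlue`)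
-/

set_option autoImplicit false

noncomputable section

namespace Crest.Agent.T157.Lm

open MeasureTheory ProbabilityTheory Real Filter Topology Matrix
open Crest.Agent.R238.Gap (E)
open Crest.Agent.R253.Meh74 (gam)
open Crest.Agent.T157.E (Cube sv gv)
open Crest.Agent.T157.Tap (V Mx)
open Sk59 (co_pt mp_sel mp_ofLp cont_co)

namespace Lay44

variable {L n : ℕ}

lemma ext {z z' : E (Nv L n)} (h : ∀ e, co z e = co z' e) : z = z' := by
  ext j
  obtain ⟨e, rfl⟩ := (ix L n).surjective j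
  exact h e

lemma co_up (z : E (Nv 0 n)) (e : Sym2 (Fin n)) : co (up L z) (.inl e) = co z (.inl e) := co_pt _ _
lemma co_up' (z : E (Nv 0 n)) (e : Fin L × Fin n) : co (up L z) (.inr e) = 0 := co_pt _ _

lemma up_act (p : Equiv.Perm (Fin n)) (z : E (Nv 0 n)) : up L (act p z) = act p (up L z) :=
  ext fun e => by cases e <;> simp only [act, co_pt, co_up, co_up', Sum.map_inl, Sum.map_inr]

lemma cont_pt {X : Type} [TopologicalSpace X] {f : X → Ix L n → ℝ} (h : ∀ e, Continuous (f · e)) :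
    Continuous fun x => pt (f x) := (PiLp.continuous_toLp 2 _).comp (continuous_pi fun _ => h _)

lemma mp_up (S : SkStmt) : MeasurePreserving
    (fun p : E (Nv 0 n) × E (Nv L n) => mix (up L p.1) p.2) ((gam _).prod (gam _)) (gam _) := by
  have hc : Continuous fun p : E (Nv 0 n) × E (Nv L n) => mix (up L p.1) p.2 := cont_pt fun e => by
    cases e
    · simp only [Sum.elim_inl, co_up]; exact (cont_co _).comp continuous_fst
    · exact (cont_co _).comp continuous_snd
  have hi : Function.Injective fun j =>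
      ix L n (Sum.map id (Prod.map Fin.elim0 id) ((ix 0 n).symm j)) :=
    (ix L n).injective.comp ((Function.injective_id.sumMap (Function.Injective.prodMap
      (fun a => a.elim0) Function.injective_id)).comp (ix 0 n).symm.injective)
  have h0 : MeasurePreserving (WithLp.toLp 2) (gv (Fin (Nv 0 n))) (gam _) :=
    ⟨WithLp.measurable_toLp _ _, map_pi_eq_stdGaussian⟩
  have h := (h0.comp ((mp_sel hi).comp (mp_ofLp _))).prod (MeasurePreserving.id (gam (Nv L n)))
  refine ⟨hc.measurable, ?_⟩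
  rw [← h.map_eq, Measure.map_map hc.measurable h.measurable]
  refine Eq.trans (congrArg (Measure.map · _) (funext fun p => ?_)) (S.mp_mix L n).map_eq
  refine ext fun e => ?_
  cases e <;> simp [mix, co_pt, co_up]
  simp [co]

/-- average over the layers -/
def T (f : E (Nv L n) → ℝ) (z : E (Nv 0 n)) : ℝ := ∫ z', f (mix (up L z) z') ∂gam _

lemma jen (S : SkStmt) {f : E (Nv L n) → ℝ} (hf : M2 f) : M2 (T f) ∧ sq (T f) ≤ sq f := by
  have h := mp_up (L := L) (n := n) S
  have m := (hf.1.comp h.measurable).stronglyMeasurable.integral_prod_right' (ν := gam (Nv L n))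
  have i := (hf.2.comp_measurePreserving h).integrable_sq
  have b : ∀ᵐ z ∂gam (Nv 0 n), ‖T f z ^ 2‖ ≤ ∫ z', f (mix (up L z) z') ^ 2 ∂gam _ := by
    filter_upwards [i.prod_right_ae] with z hz
    rw [norm_of_nonneg (sq_nonneg _)]
    exact sub_nonneg.1 ((variance_nonneg _ _).trans_eq (variance_eq_sub
      ((memLp_two_iff_integrable_sq ((hf.1.comp h.measurable).comp
        measurable_prodMk_left).aestronglyMeasurable).2 hz)))
  have j : Integrable (fun z => T f z ^ 2) (gam _) :=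
    i.integral_prod_left.mono' (m.measurable.pow_const 2).aestronglyMeasurable b
  refine ⟨⟨m.measurable, (memLp_two_iff_integrable_sq m.aestronglyMeasurable).2 j⟩, ?_⟩
  refine (integral_mono_ae j i.integral_prod_left (b.mono fun z hz => (le_abs_self _).trans hz)).trans
    (le_of_eq ((integral_prod _ i).symm.trans ?_))
  exact (integral_map h.measurable.aemeasurable (hf.1.pow_const 2).aestronglyMeasurable).symm.trans
    (by rw [h.map_eq, sq])

lemma jen_sub (S : SkStmt) {f g : E (Nv L n) → ℝ} (hf : M2 f) (hg : M2 g) :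
    sq (T f - T g) ≤ sq (f - g) := by
  have h := mp_up (L := L) (n := n) S
  refine le_trans (le_of_eq (integral_congr_ae ?_)) (jen S ⟨hf.1.sub hg.1, hf.2.sub hg.2⟩).2
  filter_upwards [((hf.2.comp_measurePreserving h).integrable one_le_two).prod_right_ae,
    ((hg.2.comp_measurePreserving h).integrable one_le_two).prod_right_ae] with z h1 h2
  exact congrArg (· ^ 2) (integral_sub h1 h2).symm

lemma rp_up (R : RtStmt) {C : Type} {q : Fam L C} (h : RP C q) :
    RP (L := 0) C fun n x z => q n x (up L z) := by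
  induction h with
  | edge a b => simp only [co_up]; exact .edge a b
  | site l a => simp only [co_up']; exact .const (R.const 0)
  | eq a b => exact .eq a b
  | const h => exact .const h
  | add _ _ h h' => exact .add h h'
  | mul _ _ h h' => exact .mul h h'
  | sum _ h => exact .sum h
  | congr _ e h => exact .congr h (e.mono fun n e => by rw [e])

lemma mp_sg {ι : Type} [Fintype ι] (s : Cube n) : MeasurePreserving
    (fun (w : ι × Fin n → ℝ) p => sv s p.2 * w p) (gv _) (gv _) :=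
  measurePreserving_pi _ _ fun p => ⟨measurable_const_mul _, by
    rw [gaussianReal_map_const_mul, mul_zero]
    congr 1
    ext
    simp [pow_two, Sk59.sv_mul]⟩

lemma cont_rows {ι : Type} (c d : ι → ℝ) (σ : V n) : Continuous (Z.rows c d σ) := by
  unfold Z.rows; fun_prop

lemma EN_eq (P : Z.LipStmt) {ι : Type} [Fintype ι] (c d : ι → ℝ) {X : Z.Nt ι} (h : Z.Nw False X)
    (J : Mx n) (σ : V n) (i : Fin n) {Ω : Type} [MeasurableSpace Ω] {μ : Measure Ω}
    {φ : Ω → ι × Fin n → ℝ} (hφ : MeasurePreserving φ μ (gv _)) :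
    EN c d X n J σ i = ∫ w, X n J (Z.rows c d σ (φ w)) i ∂μ := by
  rw [EN, Z.RL, ← hφ.map_eq, Measure.map_map (cont_rows c d σ).measurable hφ.measurable]
  exact integral_map ((cont_rows c d σ).measurable.comp hφ.measurable).aemeasurable
    ((continuous_apply i).comp ((P.cont ι _ X h n).comp (.prodMk_right J))).aestronglyMeasurable

end Lay44

open Lay44 in
theorem layGlue : LayGlue := fun P R S Q _ A => {
  cl := fun L C _ _ G hG => by
    have d : ∀ {n} (a b : (C → Fin n) → ℝ), (∀ x, a x ≤ b x) → av a ≤ av b := fun a b h =>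
      div_le_div_of_nonneg_right (Finset.sum_le_sum fun x _ => h x) (by positivity)
    refine ⟨hG.1.mono fun n h => ⟨fun x => (jen S (h.1 x)).1, fun p x z => ?_⟩, fun ε hε => ?_⟩
    · have m := S.mp L n p
      have e : ∀ z', G n (p ∘ x) (mix (up L (act p z)) (act p z')) = G n x (mix (up L z) z') :=
        fun z' => by
          rw [← h.2 p x, up_act]
          exact congrArg _ (ext fun e => by cases e <;> simp [mix, act, co_pt])
      simp only [EW, ← e]
      rw [← integral_map (f := fun z' => G n (p ∘ x) (mix (up L (act p z)) z'))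
        m.measurable.aemeasurable (((h.1 _).1.comp (mp_up S).measurable).comp
          measurable_prodMk_left).aestronglyMeasurable, m.map_eq]
    · obtain ⟨q, h1, ⟨B, h2⟩, h3⟩ := hG.2 ε hε
      have h4 := Q.eqv L C q h1
      refine ⟨_, rp_up R (A.ew L C q h1), ⟨B, ?_⟩, ?_⟩
      · filter_upwards [h2, h4] with n h2 h4
        exact (d _ _ fun x => (jen S (h4.1 x)).2).trans h2
      · filter_upwards [h3, h4, hG.1] with n h3 h4 h5
        exact (d _ _ fun x => jen_sub S (h5.1 x) (h4.1 x)).trans h3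
  en := fun β ι _ c d X h n x z => by
    have hi : Function.Injective fun p : ι × Fin n =>
        ix _ n (.inr (Prod.map (Fintype.equivFin ι) id p)) :=
      (ix _ n).injective.comp (Sum.inr_injective.comp
        ((Fintype.equivFin ι).injective.prodMap Function.injective_id))
    rw [EN_eq P c d h _ _ _ ((mp_sel hi).comp (mp_ofLp _))]
    refine integral_congr_ae (ae_of_all _ fun z' => ?_)
    have e1 : Jm β (mix (up (Fintype.card ι) z) z') = Jm β z := by
      ext i j; simp only [Jm, mix, co_pt, Sum.elim_inl, co_up]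
    have e2 : rw c d (mix (up (Fintype.card ι) z) z') = Z.rows c d 1 fun p =>
        co z' (.inr (Prod.map (Fintype.equivFin ι) id p)) := by
      funext l i; simp [rw, Z.rows, mix, co_pt]
    simp only [nf, e1, e2]
    rfl
  gauge := fun ι _ c d X h n J s x => funext fun i => by
    rw [EN_eq P c d h _ _ _ (mp_sg s), Pi.mul_apply, EN_eq P c d h _ _ _ (.id _),
      ← integral_const_mul]
    refine integral_congr_ae (ae_of_all _ fun w => ?_)
    refine Eq.trans ?_ (congrFun (P.gauge ι _ X h n J (Z.rows c d (sv x) w) (sv s) fun i =>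
      mul_self_eq_one_iff.1 (Sk59.sv_mul s i)) i)
    refine congrArg (fun a => X n (cj s J) a i) (funext fun l => funext fun j => ?_)
    simp only [Z.rows, Pl.sv_cmul, Pi.mul_apply]
    ring }

end Crest.Agent.T157.Lm

end
end

-- ▼ part T157/LmL2_7
section

/-!
# Row 157, block B/S5 (helper7): `L²` toolbox for rooted families
-/

set_option autoImplicit false
set_option linter.all false

noncomputable section

namespace Crest.Agent.T157.Lm

open MeasureTheory Real Filter Topology Finset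
open Crest.Agent.R238.Gap (E pd)
open Crest.Agent.R253.Meh74 (gam C1)
open Crest.Agent.T157.Hm (Pl en)

/-! ### one function -/

section one
variable {m : ℕ} {f g h : E m → ℝ}

theorem M2.add (hf : M2 f) (hg : M2 g) : M2 fun z => f z + g z := ⟨hf.1.add hg.1, hf.2.add hg.2⟩
theorem M2.sub (hf : M2 f) (hg : M2 g) : M2 fun z => f z - g z := ⟨hf.1.sub hg.1, hf.2.sub hg.2⟩
theorem M2.neg (hf : M2 f) : M2 fun z => -f z := ⟨hf.1.neg, hf.2.neg⟩
theorem M2.cmul (c : ℝ) (hf : M2 f) : M2 fun z => c * f z := ⟨hf.1.const_mul c, hf.2.const_mul c⟩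
theorem M2.const (c : ℝ) : M2 fun _ : E m => c := ⟨measurable_const, memLp_const c⟩
theorem M2.sum {ι : Type*} (S : Finset ι) {f : ι → E m → ℝ} (hf : ∀ i ∈ S, M2 (f i)) :
    M2 fun z => ∑ i ∈ S, f i z :=
  ⟨Finset.measurable_sum _ fun i hi => (hf i hi).1, memLp_finsetSum _ fun i hi => (hf i hi).2⟩
theorem M2.of_c0 (hf : Hm.C0 f) : M2 f := ⟨hf.c.measurable, hf.memLp⟩
theorem M2.of_pl {D : ℕ} (hf : f ∈ Pl m D) : M2 f := M2.of_c0 (Hm.c0 hf)
theorem M2.int (hf : M2 f) : Integrable f (gam m) := hf.2.integrable one_le_two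
theorem M2.int_mul (hf : M2 f) (hg : M2 g) : Integrable (fun z => f z * g z) (gam m) :=
  hf.2.integrable_mul hg.2
theorem M2.int_sq (hf : M2 f) : Integrable (fun z => f z ^ 2) (gam m) := hf.2.integrable_sq
theorem M2.of_sq (hm : Measurable f) (hf : Integrable (fun z => f z ^ 2) (gam m)) : M2 f :=
  ⟨hm, (memLp_two_iff_integrable_sq hm.aestronglyMeasurable).2 hf⟩
/-- domination -/
theorem M2.of_le (hg : M2 g) (hm : Measurable f) (h : ∀ z, |f z| ≤ |g z|) : M2 f :=
  ⟨hm, hg.2.of_le hm.aestronglyMeasurable (Eventually.of_forall h)⟩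
theorem sq_eq_ip (f : E m → ℝ) : sq f = Hm.ip f f := by simp only [sq, Hm.ip, pow_two]
theorem sq_nonneg' (f : E m → ℝ) : 0 ≤ sq f := integral_nonneg fun _ => sq_nonneg _
theorem c0_of_lip {B : ℝ} (h : ∀ z z', |f z - f z'| ≤ B * ‖z - z'‖) : Hm.C0 f := by
  have h' : ∀ z z', |f z - f z'| ≤ |B| * ‖z - z'‖ := fun z z' =>
    (h z z').trans (mul_le_mul_of_nonneg_right (le_abs_self B) (norm_nonneg _))
  refine ⟨(LipschitzWith.of_dist_le_mul (K := ⟨|B|, abs_nonneg B⟩) fun z z' => ?_).continuous,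
    |f 0| + |B|, 1, fun z => ?_⟩
  · rw [Real.dist_eq, dist_eq_norm]; exact h' z z'
  · have := h' z 0
    rw [sub_zero] at this
    have e := abs_sub_abs_le_abs_sub (f z) (f 0)
    nlinarith [abs_nonneg (f 0), abs_nonneg B, norm_nonneg z]

end one

/-! ### averages over the roots -/

variable {C : Type} [Fintype C] [DecidableEq C] {n m L : ℕ}

theorem av_add (a b : (C → Fin n) → ℝ) : av (fun x => a x + b x) = av a + av b := by
  simp only [av, sum_add_distrib, add_div]
theorem av_sub (a b : (C → Fin n) → ℝ) : av (fun x => a x - b x) = av a - av b := by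
  simp only [av, sum_sub_distrib, sub_div]
theorem av_mul (c : ℝ) (a : (C → Fin n) → ℝ) : av (fun x => c * a x) = c * av a := by
  simp only [av, ← mul_sum, mul_div_assoc]
theorem av_sum {ι : Type*} (S : Finset ι) (a : ι → (C → Fin n) → ℝ) :
    av (fun x => ∑ i ∈ S, a i x) = ∑ i ∈ S, av (a i) := by
  simp only [av]; rw [sum_comm, sum_div]
theorem av_mono {a b : (C → Fin n) → ℝ} (h : ∀ x, a x ≤ b x) : av a ≤ av b :=
  div_le_div_of_nonneg_right (sum_le_sum fun x _ => h x) (by positivity)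
theorem av_nonneg {a : (C → Fin n) → ℝ} (h : ∀ x, 0 ≤ a x) : 0 ≤ av a :=
  div_nonneg (sum_nonneg fun x _ => h x) (by positivity)
theorem av_const (hn : 0 < n) (c : ℝ) : av (fun _ : C → Fin n => c) = c := by
  simp only [av, sum_const, card_univ, Fintype.card_fun, Fintype.card_fin, nsmul_eq_mul, Nat.cast_pow]
  field_simp
theorem av_le {a : (C → Fin n) → ℝ} {c : ℝ} (hn : 0 < n) (h : ∀ x, a x ≤ c) : av a ≤ c :=
  (av_mono h).trans (av_const hn c).le

/-! ### the scalar product at a fixed size -/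

/-- all members are square integrable -/
def A2 (F : (C → Fin n) → E m → ℝ) : Prop := ∀ x, M2 (F x)
/-- scalar product at a fixed size -/
def ia (F G : (C → Fin n) → E m → ℝ) : ℝ := av fun x => ∫ z, F x z * G x z ∂gam m

theorem ipx_eq (F G : Fam L C) (n : ℕ) : ipx F G n = ia (F n) (G n) := rfl
theorem av_sq (F : (C → Fin n) → E m → ℝ) : (av fun x => sq (F x)) = ia F F := by
  simp only [ia, sq, pow_two]
theorem n2_eq (F : Fam L C) (n : ℕ) : n2 F n = ia (F n) (F n) := av_sq _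
theorem n2_nonneg (F : Fam L C) (n : ℕ) : 0 ≤ n2 F n := av_nonneg fun _ => sq_nonneg' _

section ia
variable {F G H : (C → Fin n) → E m → ℝ}

theorem A2.add (hF : A2 F) (hG : A2 G) : A2 (F + G) := fun x => (hF x).add (hG x)
theorem A2.sub (hF : A2 F) (hG : A2 G) : A2 (F - G) := fun x => (hF x).sub (hG x)
theorem A2.cmul (c : ℝ) (hF : A2 F) : A2 fun x z => c * F x z := fun x => (hF x).cmul c
theorem A2.sum {ι : Type*} (S : Finset ι) {e : ι → (C → Fin n) → E m → ℝ} (he : ∀ i ∈ S, A2 (e i)) :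
    A2 fun x z => ∑ i ∈ S, e i x z := fun x => M2.sum S fun i hi => he i hi x

theorem ia_comm (F G : (C → Fin n) → E m → ℝ) : ia F G = ia G F := by simp only [ia, mul_comm]
theorem ia_self_nonneg (F : (C → Fin n) → E m → ℝ) : 0 ≤ ia F F :=
  av_nonneg fun _ => integral_nonneg fun _ => mul_self_nonneg _
theorem ia_add (hF : A2 F) (hG : A2 G) (hH : A2 H) : ia (F + G) H = ia F H + ia G H := by
  rw [ia, ia, ia, ← av_add]
  refine congrArg av (funext fun x => ?_)
  simp only [Pi.add_apply, add_mul]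
  exact integral_add ((hF x).int_mul (hH x)) ((hG x).int_mul (hH x))
theorem ia_sub (hF : A2 F) (hG : A2 G) (hH : A2 H) : ia (F - G) H = ia F H - ia G H := by
  rw [ia, ia, ia, ← av_sub]
  refine congrArg av (funext fun x => ?_)
  simp only [Pi.sub_apply, sub_mul]
  exact integral_sub ((hF x).int_mul (hH x)) ((hG x).int_mul (hH x))
theorem ia_cmul (c : ℝ) (F H : (C → Fin n) → E m → ℝ) :
    ia (fun x z => c * F x z) H = c * ia F H := by
  rw [ia, ia, ← av_mul]
  refine congrArg av (funext fun x => ?_)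
  simp only [mul_assoc]
  exact integral_const_mul _ _
theorem ia_sum {ι : Type*} (S : Finset ι) {e : ι → (C → Fin n) → E m → ℝ} (he : ∀ i ∈ S, A2 (e i))
    (hH : A2 H) : ia (fun x z => ∑ i ∈ S, e i x z) H = ∑ i ∈ S, ia (e i) H := by
  simp only [ia]
  rw [← av_sum]
  refine congrArg av (funext fun x => ?_)
  simp only [sum_mul]
  exact integral_finsetSum _ fun i hi => (he i hi x).int_mul (hH x)
theorem ia_add' (hF : A2 F) (hG : A2 G) (hH : A2 H) : ia H (F + G) = ia H F + ia H G := by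
  rw [ia_comm, ia_add hF hG hH, ia_comm F, ia_comm G]
theorem ia_sub' (hF : A2 F) (hG : A2 G) (hH : A2 H) : ia H (F - G) = ia H F - ia H G := by
  rw [ia_comm, ia_sub hF hG hH, ia_comm F, ia_comm G]
theorem ia_cmul' (c : ℝ) (F H : (C → Fin n) → E m → ℝ) :
    ia H (fun x z => c * F x z) = c * ia H F := by rw [ia_comm, ia_cmul, ia_comm]
theorem ia_sum' {ι : Type*} (S : Finset ι) {e : ι → (C → Fin n) → E m → ℝ} (he : ∀ i ∈ S, A2 (e i))
    (hH : A2 H) : ia H (fun x z => ∑ i ∈ S, e i x z) = ∑ i ∈ S, ia H (e i) := by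
  rw [ia_comm, ia_sum S he hH]; simp only [ia_comm H]
theorem ia_cmul_self (c : ℝ) (F : (C → Fin n) → E m → ℝ) :
    ia (fun x z => c * F x z) (fun x z => c * F x z) = c ^ 2 * ia F F := by
  rw [ia_cmul, ia_cmul']; ring
theorem ia_add_self (hF : A2 F) (hG : A2 G) :
    ia (F + G) (F + G) = ia F F + 2 * ia F G + ia G G := by
  rw [ia_add hF hG (hF.add hG), ia_add' hF hG hF, ia_add' hF hG hG, ia_comm G F]; ring
theorem ia_sub_self (hF : A2 F) (hG : A2 G) :
    ia (F - G) (F - G) = ia F F - 2 * ia F G + ia G G := by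
  rw [ia_sub hF hG (hF.sub hG), ia_sub' hF hG hF, ia_sub' hF hG hG, ia_comm G F]; ring
/-- Cauchy-Schwarz -/
theorem ia_sq_le (hF : A2 F) (hG : A2 G) : ia F G ^ 2 ≤ ia F F * ia G G := by
  have h : ∀ t : ℝ, 0 ≤ ia F F * (t * t) + 2 * ia F G * t + ia G G := fun t => by
    have h1 := ia_self_nonneg ((fun x z => t * F x z) + G)
    rw [ia_add_self (hF.cmul t) hG, ia_cmul_self, ia_cmul] at h1
    linarith
  have := discrim_le_zero h
  unfold discrim at this
  nlinarith
theorem ia_add_le (hF : A2 F) (hG : A2 G) : ia (F + G) (F + G) ≤ 2 * ia F F + 2 * ia G G := by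
  have := ia_self_nonneg (F - G)
  rw [ia_sub_self hF hG] at this
  rw [ia_add_self hF hG]; linarith
theorem ia_sub_le (hF : A2 F) (hG : A2 G) : ia (F - G) (F - G) ≤ 2 * ia F F + 2 * ia G G := by
  have := ia_self_nonneg (F + G)
  rw [ia_add_self hF hG] at this
  rw [ia_sub_self hF hG]; linarith
theorem ia_tri (hF : A2 F) (hG : A2 G) (hH : A2 H) :
    ia (F - H) (F - H) ≤ 2 * ia (F - G) (F - G) + 2 * ia (G - H) (G - H) := by
  simpa only [sub_add_sub_cancel] using ia_add_le (hF.sub hG) (hG.sub hH)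
theorem ia_le_of_sub (hF : A2 F) (hG : A2 G) : ia F F ≤ 2 * ia (F - G) (F - G) + 2 * ia G G := by
  simpa only [sub_add_cancel] using ia_add_le (hF.sub hG) hG
theorem abs_ia_le (hF : A2 F) (hG : A2 G) : |ia F G| ≤ (ia F F + ia G G) / 2 := by
  have h1 := ia_self_nonneg (F - G)
  have h2 := ia_self_nonneg (F + G)
  rw [ia_sub_self hF hG] at h1
  rw [ia_add_self hF hG] at h2
  exact abs_le.2 ⟨by linarith, by linarith⟩
theorem abs_ia_small (hF : A2 F) (hG : A2 G) {ε B : ℝ} (hε : 0 < ε)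
    (h1 : ia F F ≤ ε ^ 2 / (|B| + 1)) (h2 : ia G G ≤ B) : |ia F G| ≤ ε := by
  refine abs_le_of_sq_le_sq' ((ia_sq_le hF hG).trans ?_) hε.le |>.elim fun a b => abs_le.2 ⟨a, b⟩
  have h3 : ia G G ≤ |B| + 1 := by linarith [le_abs_self B]
  refine (mul_le_mul h1 h3 (ia_self_nonneg _) (by positivity)).trans (le_of_eq ?_)
  field_simp
/-- distance to a combination of orthogonal families -/
theorem ia_proj {ι : Type} [Fintype ι] [DecidableEq ι] {e : ι → (C → Fin n) → E m → ℝ} (hF : A2 F)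
    (he : ∀ i, A2 (e i)) (ho : ∀ i j, i ≠ j → ia (e i) (e j) = 0) (a : ι → ℝ) :
    ia (F - fun x z => ∑ j, a j * e j x z) (F - fun x z => ∑ j, a j * e j x z) =
      ia F F + ∑ j, (a j ^ 2 * ia (e j) (e j) - 2 * a j * ia F (e j)) := by
  have h1 : ∀ j ∈ (univ : Finset ι), A2 fun x z => a j * e j x z := fun j _ => (he j).cmul _
  rw [ia_sub_self hF (A2.sum _ h1), ia_sum' _ h1 hF, ia_sum _ h1 (A2.sum _ h1), sum_sub_distrib,
    mul_sum]
  have : ∀ i, ia (fun x z => a i * e i x z) (fun x z => ∑ j, a j * e j x z) =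
      a i ^ 2 * ia (e i) (e i) := fun i => by
    rw [ia_sum' _ h1 (h1 i (mem_univ _)), sum_eq_single i, ia_cmul_self]
    · intro j _ hj
      rw [ia_cmul, ia_cmul', ho i j hj.symm]; ring
    · exact fun h => absurd (mem_univ i) h
  simp only [this, ia_cmul', mul_assoc]
  ring

end ia

/-! ### families -/

section fam
variable {F G H : Fam L C}

theorem Eqv.add {F G : (C → Fin n) → E (Nv L n) → ℝ} (hF : Eqv F) (hG : Eqv G) : Eqv (F + G) :=
  fun p x z => by simp only [Pi.add_apply, hF p x z, hG p x z]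
theorem Eqv.sub {F G : (C → Fin n) → E (Nv L n) → ℝ} (hF : Eqv F) (hG : Eqv G) : Eqv (F - G) :=
  fun p x z => by simp only [Pi.sub_apply, hF p x z, hG p x z]
theorem Eqv.cmul (c : ℝ) {F : (C → Fin n) → E (Nv L n) → ℝ} (hF : Eqv F) :
    Eqv fun x z => c * F x z := fun p x z => by simp only [hF p x z]
theorem Adm.a2 (hF : Adm F) : ∀ᶠ n in atTop, A2 (F n) := hF.mono fun _ h => h.1
theorem Adm.add (hF : Adm F) (hG : Adm G) : Adm (F + G) := by
  filter_upwards [hF, hG] with n h1 h2 using ⟨A2.add h1.1 h2.1, h1.2.add h2.2⟩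
theorem Adm.sub (hF : Adm F) (hG : Adm G) : Adm (F - G) := by
  filter_upwards [hF, hG] with n h1 h2 using ⟨A2.sub h1.1 h2.1, h1.2.sub h2.2⟩
theorem Adm.smul (a : ℕ → ℝ) (hF : Adm F) : Adm fun n x z => a n * F n x z :=
  hF.mono fun n h => ⟨A2.cmul (a n) h.1, h.2.cmul (a n)⟩
theorem Adm.sum {ι : Type*} (S : Finset ι) {e : ι → Fam L C} (he : ∀ i ∈ S, Adm (e i)) :
    Adm fun n x z => ∑ i ∈ S, e i n x z :=
  ((eventually_all_finset S).2 he).mono fun n h => ⟨A2.sum S fun i hi => (h i hi).1,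
    fun p x z => sum_congr rfl fun i hi => (h i hi).2 p x z⟩

theorem ev_tri (hF : Adm F) (hG : Adm G) (hH : Adm H) :
    ∀ᶠ n in atTop, n2 (F - H) n ≤ 2 * n2 (F - G) n + 2 * n2 (G - H) n := by
  filter_upwards [hF.a2, hG.a2, hH.a2] with n h1 h2 h3
  simp only [n2_eq]; exact ia_tri h1 h2 h3
theorem Bd.of_sub (hG : Bd G) (aF : Adm F) (aG : Adm G) {ε : ℝ}
    (h : ∀ᶠ n in atTop, n2 (F - G) n ≤ ε) : Bd F := by
  obtain ⟨B, hB⟩ := hG
  refine ⟨2 * ε + 2 * B, ?_⟩
  filter_upwards [aF.a2, aG.a2, h, hB] with n h1 h2 h3 h4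
  rw [n2_eq] at h3 h4 ⊢
  have h3' : ia (F n - G n) (F n - G n) ≤ ε := h3
  linarith [ia_le_of_sub h1 h2]
theorem Bd.add (hF : Bd F) (hG : Bd G) (aF : Adm F) (aG : Adm G) : Bd (F + G) := by
  obtain ⟨B, hB⟩ := hF
  obtain ⟨B', hB'⟩ := hG
  refine ⟨2 * B + 2 * B', ?_⟩
  filter_upwards [aF.a2, aG.a2, hB, hB'] with n h1 h2 h3 h4
  rw [n2_eq] at h3 h4 ⊢
  exact (ia_add_le h1 h2).trans (by linarith)
theorem Bd.sub (hF : Bd F) (hG : Bd G) (aF : Adm F) (aG : Adm G) : Bd (F - G) := by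
  obtain ⟨B, hB⟩ := hF
  obtain ⟨B', hB'⟩ := hG
  refine ⟨2 * B + 2 * B', ?_⟩
  filter_upwards [aF.a2, aG.a2, hB, hB'] with n h1 h2 h3 h4
  rw [n2_eq] at h3 h4 ⊢
  exact (ia_sub_le h1 h2).trans (by linarith)
theorem n2_smul (a : ℕ → ℝ) (F : Fam L C) (n : ℕ) :
    n2 (fun n x z => a n * F n x z) n = a n ^ 2 * n2 F n := by
  rw [n2_eq, n2_eq]; exact ia_cmul_self _ _
theorem Bd.smul (hF : Bd F) {a : ℕ → ℝ} {M : ℝ} (ha : ∀ᶠ n in atTop, |a n| ≤ M) :
    Bd fun n x z => a n * F n x z := by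
  obtain ⟨B, hB⟩ := hF
  refine ⟨M ^ 2 * B, ?_⟩
  filter_upwards [ha, hB] with n h1 h2
  rw [n2_smul]
  exact mul_le_mul (sq_le_sq' (abs_le.1 h1).1 (abs_le.1 h1).2) h2 (n2_nonneg _ _) (sq_nonneg _)
theorem Bd.sum {ι : Type*} (S : Finset ι) {e : ι → Fam L C} (he : ∀ i ∈ S, Bd (e i) ∧ Adm (e i)) :
    Bd fun n x z => ∑ i ∈ S, e i n x z := by
  classical
  induction S using Finset.induction_on with
  | empty => exact ⟨0, Eventually.of_forall fun n => by simp [n2, sq, av]⟩
  | insert i S hi ih =>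
    simp only [sum_insert hi]
    exact Bd.add (he i (mem_insert_self _ _)).1 (ih fun j hj => he j (mem_insert_of_mem hj))
      (he i (mem_insert_self _ _)).2 (Adm.sum S fun j hj => (he j (mem_insert_of_mem hj)).2)
theorem Bd.of_tendsto {l : ℝ} (h : Tendsto (n2 F) atTop (𝓝 l)) : Bd F :=
  ⟨l + 1, h.eventually (eventually_le_nhds (lt_add_one l))⟩

end fam

/-! ### convergent sequences -/

theorem Cv.of_approx {a : ℕ → ℝ} (h : ∀ ε > (0 : ℝ), ∃ b, Cv b ∧ ∀ᶠ n in atTop, |a n - b n| ≤ ε) :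
    Cv a := by
  refine cauchySeq_tendsto_of_complete (Metric.cauchySeq_iff.2 fun ε hε => ?_)
  obtain ⟨b, ⟨l, hb⟩, h⟩ := h (ε / 8) (by positivity)
  obtain ⟨N, hN⟩ := eventually_atTop.1 (h.and (Metric.tendsto_nhds.1 hb (ε / 8) (by positivity)))
  refine ⟨N, fun i hi j hj => ?_⟩
  obtain ⟨a1, a2⟩ := hN i hi
  obtain ⟨a3, a4⟩ := hN j hj
  rw [Real.dist_eq] at a2 a4 ⊢
  rw [abs_le] at a1 a3
  rw [abs_lt] at a2 a4 ⊢
  constructor <;> linarith [a1.1, a1.2, a2.1, a2.2, a3.1, a3.2, a4.1, a4.2]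
theorem Cv.add {a b : ℕ → ℝ} (ha : Cv a) (hb : Cv b) : Cv fun n => a n + b n :=
  ha.elim fun _ h => hb.elim fun _ h' => ⟨_, h.add h'⟩
theorem Cv.sub {a b : ℕ → ℝ} (ha : Cv a) (hb : Cv b) : Cv fun n => a n - b n :=
  ha.elim fun _ h => hb.elim fun _ h' => ⟨_, h.sub h'⟩
theorem Cv.mul {a b : ℕ → ℝ} (ha : Cv a) (hb : Cv b) : Cv fun n => a n * b n :=
  ha.elim fun _ h => hb.elim fun _ h' => ⟨_, h.mul h'⟩
theorem Cv.const (c : ℝ) : Cv fun _ => c := ⟨c, tendsto_const_nhds⟩
theorem Cv.bdd {a : ℕ → ℝ} (ha : Cv a) : ∃ M, ∀ᶠ n in atTop, |a n| ≤ M :=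
  ha.elim fun l h => ⟨|l| + 1, h.abs.eventually (eventually_le_nhds (lt_add_one _))⟩

/-- scalar products with a bounded family pass to `L²` limits -/
theorem cv_ipx {F G : Fam L C} (aF : Adm F) (aG : Adm G) (bG : Bd G)
    (h : ∀ ε > (0 : ℝ), ∃ q, Adm q ∧ Cv (ipx q G) ∧ ∀ᶠ n in atTop, n2 (F - q) n ≤ ε) :
    Cv (ipx F G) := by
  obtain ⟨B, hB⟩ := bG
  refine Cv.of_approx fun ε hε => ?_
  obtain ⟨q, aq, cq, hq⟩ := h (ε ^ 2 / (|B| + 1)) (by positivity)
  refine ⟨_, cq, ?_⟩
  filter_upwards [aF.a2, aG.a2, aq.a2, hq, hB] with n h1 h2 h3 h4 h5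
  rw [n2_eq] at h4 h5
  rw [ipx_eq, ipx_eq, ← ia_sub h1 h3 h2]
  exact abs_ia_small (h1.sub h3) h2 hε h4 h5
theorem ipx_comm (F G : Fam L C) : ipx F G = ipx G F := funext fun n => ia_comm _ _

end Crest.Agent.T157.Lm

end
end

-- ▼ part T157/LmLin_7
section

/-!
# Row 157, block B/S5 (helper7): `Lm.LinGlue`, the linear calculus of the limit classes
-/

set_option autoImplicit false
set_option linter.all false

noncomputable section

namespace Crest.Agent.T157.Lm

open MeasureTheory Real Filter Topology Finset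
open Crest.Agent.R238.Gap (E pd)
open Crest.Agent.R253.Meh74 (gam C1)
open Crest.Agent.T157.Hm (Pl en)

namespace Lin7

/-! ### partial averages -/

section ew
variable {m : ℕ} {φ : E m × E m → E m} (hφ : MeasurePreserving φ ((gam m).prod (gam m)) (gam m))
  {f g : E m → ℝ}
include hφ

theorem ew_m2 (hf : M2 f) : (M2 fun z => ∫ z', f (φ (z, z')) ∂gam m) ∧
    (sq fun z => ∫ z', f (φ (z, z')) ∂gam m) ≤ sq f := by
  have hm : Measurable fun p => f (φ p) := hf.1.comp hφ.measurable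
  have h2 : Integrable (fun p => f (φ p) ^ 2) ((gam m).prod (gam m)) :=
    (hφ.integrable_comp hf.int_sq.aestronglyMeasurable).2 hf.int_sq
  have me : Measurable fun z => ∫ z', f (φ (z, z')) ∂gam m :=
    (hm.stronglyMeasurable.integral_prod_right' (ν := gam m)).measurable
  have le : ∀ᵐ z ∂gam m, (∫ z', f (φ (z, z')) ∂gam m) ^ 2 ≤ ∫ z', f (φ (z, z')) ^ 2 ∂gam m :=
    h2.prod_right_ae.mono fun z hz => by
      have h3 : MemLp (fun z' => f (φ (z, z'))) 2 (gam m) := (memLp_two_iff_integrable_sq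
        (hm.comp measurable_prodMk_left).aestronglyMeasurable).2 hz
      have h4 := ProbabilityTheory.variance_nonneg (fun z' => f (φ (z, z'))) (gam m)
      rw [ProbabilityTheory.variance_eq_sub h3] at h4
      simpa using h4
  have i1 : Integrable (fun z => (∫ z', f (φ (z, z')) ∂gam m) ^ 2) (gam m) :=
    h2.integral_prod_left.mono' (me.pow_const 2).aestronglyMeasurable
      (le.mono fun z hz => by rwa [Real.norm_of_nonneg (sq_nonneg _)])
  refine ⟨M2.of_sq me i1, (integral_mono_ae i1 h2.integral_prod_left le).trans (le_of_eq ?_)⟩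
  rw [← integral_prod _ h2, sq, ← hφ.map_eq, integral_map hφ.measurable.aemeasurable
    (hf.1.pow_const 2).aestronglyMeasurable, hφ.map_eq]

theorem ew_sub (hf : M2 f) (hg : M2 g) : (sq fun z => (∫ z', f (φ (z, z')) ∂gam m) -
    ∫ z', g (φ (z, z')) ∂gam m) ≤ sq fun z => f z - g z := by
  refine le_trans (le_of_eq (integral_congr_ae ?_)) (ew_m2 hφ (hf.sub hg)).2
  have h1 := ((hφ.integrable_comp hf.int.aestronglyMeasurable).2 hf.int).prod_right_ae
  have h2 := ((hφ.integrable_comp hg.int.aestronglyMeasurable).2 hg.int).prod_right_ae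
  filter_upwards [h1, h2] with z a b
  exact congrArg (· ^ 2) (integral_sub a b).symm

end ew

theorem act_mix {L n : ℕ} (hS : SkStmt) (p : Equiv.Perm (Fin n)) (z z' : E (Nv L n)) :
    mix (act p z) (act p z') = act p (mix z z') := by
  unfold mix act
  refine congrArg pt (funext fun e => ?_)
  cases e <;> simp only [hS.co_pt, Sum.elim_inl, Sum.elim_inr, Sum.map_inl, Sum.map_inr]

variable {L : ℕ} {C : Type} [Fintype C] [DecidableEq C] {F G : Fam L C}

theorem adm_ew (hS : SkStmt) (hF : Adm F) : Adm (EW F) := hF.mono fun n h => by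
  refine ⟨fun x => (ew_m2 (hS.mp_mix L n) (h.1 x)).1, fun p x z => ?_⟩
  have hm : Measurable fun z' => F n (p ∘ x) (mix (act p z) z') :=
    (h.1 _).1.comp ((hS.mp_mix L n).measurable.comp measurable_prodMk_left)
  show ∫ z', F n (p ∘ x) (mix (act p z) z') ∂gam _ = ∫ z', F n x (mix z z') ∂gam _
  rw [← (hS.mp L n p).map_eq, integral_map (hS.mp L n p).measurable.aemeasurable
    hm.aestronglyMeasurable, (hS.mp L n p).map_eq]
  simp only [act_mix hS, h.2 p x]

theorem bd_of_cl (hP : RpStmt) (hF : Cl F) : Bd F := by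
  obtain ⟨q, h1, h2, h3⟩ := hF.2 1 one_pos
  exact h2.of_sub hF.1 (hP.eqv _ _ _ h1) h3

theorem cv_rp (hR : RtStmt) (hP : RpStmt) (hQ : RatStmt) (h1 : RP C F) (h2 : Bd F) (h3 : RP C G)
    (h4 : Bd G) : Cv (ipx F G) := by
  obtain ⟨B, h2⟩ := h2
  obtain ⟨B', h4⟩ := h4
  refine hR.cv _ ((B + B') / 2) (hQ.int _ _ _ (h1.mul h3)) ?_
  filter_upwards [(hP.eqv _ _ _ h1).a2, (hP.eqv _ _ _ h3).a2, h2, h4] with n a b c d
  rw [n2_eq] at c d
  exact (abs_ia_le a b).trans (by linarith)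

theorem closed (hP : RpStmt) (aF : Adm F)
    (h : ∀ ε > (0 : ℝ), ∃ G, Cl G ∧ ∀ᶠ n in atTop, n2 (F - G) n ≤ ε) : Cl F := by
  refine ⟨aF, fun ε hε => ?_⟩
  obtain ⟨G, hG, h1⟩ := h (ε / 4) (by positivity)
  obtain ⟨q, a, b, h2⟩ := hG.2 (ε / 4) (by positivity)
  refine ⟨q, a, b, ?_⟩
  filter_upwards [h1, h2, ev_tri aF hG.1 (hP.eqv _ _ _ a)] with n h1 h2 h3
  linarith

theorem ws (hR : RtStmt) (hP : RpStmt) (hO : OnStmt) (hW : Wk F) (hT : Ti F) : Cl F := by
  refine ⟨hW.1, fun ε hε => ?_⟩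
  obtain ⟨D, hD⟩ := hT (ε / 2) (by positivity)
  obtain ⟨M, e, e1, e2, e3⟩ := hO L C D
  have ae : ∀ j, Adm (e j) := fun j => hP.eqv _ _ _ (e1 j)
  have be : ∀ j, Bd (e j) := fun j => Bd.of_tendsto (e2 j)
  choose b hb using fun j => hW.2.2 (e j) (e1 j) (be j)
  refine ⟨fun n x z => ∑ j, b j * e j n x z,
    hP.fsum _ _ _ _ (fun j n x z => b j * e j n x z) fun j _ => hP.smul _ _ _ _ (hR.const _) (e1 j),
    Bd.sum _ (e := fun j n x z => b j * e j n x z) fun j _ =>
      ⟨(be j).smul (a := fun _ => b j) (Eventually.of_forall fun _ => le_rfl),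
        (ae j).smul fun _ => b j⟩, ?_⟩
  have lim : Tendsto (fun n => ∑ j, (b j ^ 2 * n2 (e j) n - 2 * b j * ipx F (e j) n +
      ipx F (e j) n ^ 2 / n2 (e j) n)) atTop (𝓝 0) := by
    have := tendsto_finsetSum (univ : Finset (Fin M)) fun j _ =>
      (((e2 j).const_mul (b j ^ 2)).sub ((hb j).const_mul (2 * b j))).add
        (((hb j).pow 2).div (e2 j) one_ne_zero)
    rwa [sum_eq_zero fun j _ => by ring] at this
  filter_upwards [hD, e3, hW.1.a2, eventually_all.2 fun j => (ae j).a2,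
    eventually_all.2 fun j => (e2 j).eventually (lt_mem_nhds one_pos),
    lim.eventually (eventually_le_nhds (half_pos hε))] with n ⟨w, w1, w2, w3⟩ ⟨o, sp⟩ a1 a2 a3 a4
  obtain ⟨a, ha⟩ := sp w w1 w2
  obtain rfl : w = fun x z => ∑ j, a j * e j n x z := funext fun x => funext (ha x)
  have p1 := ia_proj a1 a2 o a
  have p2 := ia_proj a1 a2 o b
  rw [av_sq] at w3
  have w4 := p1.symm.trans_le w3
  rw [n2_eq]
  refine p2.trans_le ?_
  have key : ∑ j, (b j ^ 2 * ia (e j n) (e j n) - 2 * b j * ia (F n) (e j n)) ≤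
      ∑ j, (a j ^ 2 * ia (e j n) (e j n) - 2 * a j * ia (F n) (e j n)) +
      ∑ j, (b j ^ 2 * n2 (e j) n - 2 * b j * ipx F (e j) n + ipx F (e j) n ^ 2 / n2 (e j) n) := by
    rw [← sum_add_distrib]
    refine sum_le_sum fun j _ => ?_
    have d0 := a3 j
    rw [ipx_eq, n2_eq] at *
    have : 2 * a j * ia (F n) (e j n) - a j ^ 2 * ia (e j n) (e j n) ≤
        ia (F n) (e j n) ^ 2 / ia (e j n) (e j n) := by
      rw [le_div_iff₀ d0]; nlinarith [sq_nonneg (a j * ia (e j n) (e j n) - ia (F n) (e j n))]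
    linarith
  linarith

theorem smul (hR : RtStmt) (hP : RpStmt) {a : ℕ → ℝ} (ha : Cv a) (hF : Cl F) :
    Cl fun n x z => a n * F n x z := by
  refine ⟨hF.1.smul a, fun ε hε => ?_⟩
  obtain ⟨M, hM⟩ := ha.bdd
  obtain ⟨l, hl⟩ := ha
  obtain ⟨q, q1, ⟨B, q2⟩, q3⟩ := hF.2 (ε / (4 * (M ^ 2 + 1))) (by positivity)
  refine ⟨fun n x z => l * q n x z, hP.smul _ _ _ _ (hR.const l) q1,
    Bd.smul ⟨B, q2⟩ (a := fun _ => l) (Eventually.of_forall fun _ => le_rfl), ?_⟩
  have lim : Tendsto (fun n => (a n - l) ^ 2 * B) atTop (𝓝 0) := by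
    simpa using ((hl.sub_const l).pow 2).mul_const B
  filter_upwards [hM, q2, q3, hF.1.a2, (hP.eqv _ _ _ q1).a2,
    lim.eventually (eventually_le_nhds (show 0 < ε / 4 by positivity))] with n h1 h2 h3 h4 h5 h6
  rw [n2_eq] at h2 h3 ⊢
  have e : ((fun n x z => a n * F n x z) - fun n x z => l * q n x z : Fam L C) n =
      (fun x z => a n * (F n - q n) x z) + fun x z => (a n - l) * q n x z := by
    funext x z; simp only [Pi.sub_apply, Pi.add_apply]; ring
  rw [e]
  refine (ia_add_le ((h4.sub h5).cmul _) (h5.cmul _)).trans ?_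
  rw [ia_cmul_self, ia_cmul_self]
  have h7 : a n ^ 2 ≤ M ^ 2 + 1 := by nlinarith [sq_le_sq' (abs_le.1 h1).1 (abs_le.1 h1).2]
  have h8 := mul_le_mul h7 (show ia (F n - q n) (F n - q n) ≤ _ from h3) (ia_self_nonneg _)
    (by positivity)
  have h9 : (M ^ 2 + 1) * (ε / (4 * (M ^ 2 + 1))) = ε / 4 := by field_simp
  have h10 := mul_le_mul_of_nonneg_left h2 (sq_nonneg (a n - l))
  linarith

theorem ti_of (hS : SkStmt) {B : ℝ} (h : ∀ᶠ n in atTop, Eqv (F n) ∧ (∀ x, Hm.C0 (F n x)) ∧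
    ∀ D : ℕ, D * (av fun x => sq fun z => F n x z - Hm.pr D (F n x) z) ≤ B) : Ti F := fun ε hε => by
  refine ⟨⌈B / ε⌉₊ + 1, h.mono fun n ⟨h1, h2, h3⟩ => ⟨_, fun x => Hm.pr_mem _ (F n x),
    hS.eqv_pr _ _ _ _ _ h1 h2, ?_⟩⟩
  have h4 := h3 (⌈B / ε⌉₊ + 1)
  have h5 : B / ε ≤ (⌈B / ε⌉₊ + 1 : ℕ) := by push_cast; linarith [Nat.le_ceil (B / ε)]
  rw [div_le_iff₀ hε] at h5
  exact le_of_mul_le_mul_left (h4.trans h5) (by positivity)

end Lin7

open Lin7

theorem linGlue : LinGlue := fun hH hR hS hP hQ hO =>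
  { rp := fun L C _ _ q h1 h2 => ⟨hP.eqv _ _ _ h1, fun ε hε => ⟨q, h1, h2,
      Eventually.of_forall fun n => by simpa [n2, sq, av] using hε.le⟩⟩
    wk := fun L C _ _ F hF => ⟨⟨hF.1, bd_of_cl hP hF, fun q h1 h2 =>
        cv_ipx hF.1 (hP.eqv _ _ _ h1) h2 fun ε hε => (hF.2 ε hε).imp fun q' h =>
          ⟨hP.eqv _ _ _ h.1, cv_rp hR hP hQ h.1 h.2.1 h1 h2, h.2.2⟩⟩, fun ε hε => by
      obtain ⟨q, h1, -, h3⟩ := hF.2 ε hε
      obtain ⟨D, hD⟩ := hP.deg _ _ _ h1
      refine ⟨D, ?_⟩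
      filter_upwards [hD, h3, hP.eqv _ _ _ h1] with n a b c using ⟨q n, a, c.2, b⟩⟩
    ws := fun L C _ _ F => ws hR hP hO
    cv := fun L C _ _ F G hF hG => by
      rw [ipx_comm]
      exact cv_ipx hG.1 hF.1 hF.2.1 fun ε hε => (hG.2 ε hε).imp fun q h =>
        ⟨hP.eqv _ _ _ h.1, ipx_comm F q ▸ hF.2.2 q h.1 h.2.1, h.2.2⟩
    add := fun L C _ _ F G hF hG => ⟨hF.1.add hG.1, fun ε hε => by
      obtain ⟨q, a1, a2, a3⟩ := hF.2 (ε / 4) (by positivity)
      obtain ⟨q', b1, b2, b3⟩ := hG.2 (ε / 4) (by positivity)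
      have c1 := hP.eqv _ _ _ a1
      have c2 := hP.eqv _ _ _ b1
      refine ⟨q + q', a1.add b1, a2.add b2 c1 c2, ?_⟩
      filter_upwards [a3, b3, (hF.1.sub c1).a2, (hG.1.sub c2).a2] with n h1 h2 h3 h4
      rw [add_sub_add_comm]
      rw [n2_eq] at h1 h2 ⊢
      exact (ia_add_le h3 h4).trans (by linarith)⟩
    smul := fun L C _ _ a F => smul hR hP
    closed := fun L C _ _ F => closed hP
    wclosed := fun L C _ _ F aF h => ⟨aF, (h 1 one_pos).elim fun G hG => hG.1.2.1.of_sub aF hG.1.1 hG.2,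
      fun q h1 h2 => cv_ipx aF (hP.eqv _ _ _ h1) h2 fun ε hε => (h ε hε).imp fun G hG =>
        ⟨hG.1.1, hG.1.2.2 q h1 h2, hG.2⟩⟩
    tclosed := fun L C _ _ F aF h ε hε => by
      obtain ⟨G, aG, tG, h1⟩ := h (ε / 4) (by positivity)
      obtain ⟨D, hD⟩ := tG (ε / 4) (by positivity)
      refine ⟨D, ?_⟩
      filter_upwards [h1, hD, aF.a2, aG.a2] with n h1 ⟨w, w1, w2, w3⟩ h2 h3
      refine ⟨w, w1, w2, ?_⟩
      rw [n2_eq] at h1
      rw [av_sq] at w3 ⊢
      have h1' : ia (F n - G n) (F n - G n) ≤ ε / 4 := h1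
      have w3' : ia (G n - w) (G n - w) ≤ ε / 4 := w3
      exact (ia_tri h2 h3 fun x => M2.of_pl (w1 x)).trans (by linarith)
    ti_c1 := fun L C _ _ F B h => ti_of hS (B := B) (h.mono fun n ⟨h1, h2, h3⟩ =>
      ⟨h1, fun x => Hm.c0_of (h2 x), fun D => by
        rw [← av_mul]
        exact (av_mono fun x => by rw [sq_eq_ip]; exact Hm.res_le_en D (h2 x)).trans h3⟩)
    ti_lip := fun L C _ _ F B h => ti_of hS (B := B ^ 2) (by
      filter_upwards [h, eventually_gt_atTop 0] with n ⟨h1, h2⟩ hn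
      refine ⟨h1, fun x => c0_of_lip (h2 x), fun D => ?_⟩
      rw [← av_mul]
      exact av_le hn fun x => hH.lip _ _ B (h2 x) D)
    ew := fun L C _ _ F hF => ⟨adm_ew hS hF.1, fun ε hε => by
      obtain ⟨q, a1, ⟨B, a2⟩, a3⟩ := hF.2 ε hε
      have c1 := hP.eqv _ _ _ a1
      refine ⟨EW q, hQ.ew _ _ _ a1, ⟨B, ?_⟩, ?_⟩
      · filter_upwards [a2, c1.a2] with n h1 h2
        exact (av_mono fun x => (ew_m2 (hS.mp_mix L n) (h2 x)).2).trans h1
      · filter_upwards [a3, c1.a2, hF.1.a2] with n h1 h2 h3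
        exact (av_mono fun x => ew_sub (hS.mp_mix L n) (h3 x) (h2 x)).trans h1⟩ }

end Crest.Agent.T157.Lm

end
end

-- ▼ part T157/LmNet_59

/-!
# Row 157, block B/S5 (helper59): `Lm.NetGlue` (networks are in the limit class)
-/

set_option autoImplicit false

noncomputable section

namespace Crest.Agent.T157.Lm

open MeasureTheory ProbabilityTheory Real Filter Topology Matrix
open Crest.ProbabilityR.SpinGlassDynamics (Pair disorderLaw)
open Crest.Agent.R238.Gap (E)
open Crest.Agent.R253.Meh74 (gam)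
open Crest.Agent.T157.E (Jmat)
open Crest.Agent.T157.Tap (V Mx avg)
open Crest.Agent.T157.Eig
open Crest.Agent.T157.Z (Nt Nw tJ nA)

namespace Net59

variable {m n L : ℕ}

/-! ### Lipschitz functions -/

theorem cont_of_lip {F : E m → ℝ} {B : ℝ} (h : ∀ z z', |F z - F z'| ≤ B * ‖z - z'‖) :
    Continuous F :=
  (LipschitzWith.of_dist_le' (K := B) fun z z' => by
    rw [Real.dist_eq, dist_eq_norm]; exact h z z').continuous

theorem m2_of_lip {F : E m → ℝ} {B : ℝ} (h : ∀ z z', |F z - F z'| ≤ B * ‖z - z'‖) : M2 F := by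
  refine ⟨(cont_of_lip h).measurable, ?_⟩
  have h1 : MemLp (fun z : E m => B * ‖z‖ + |F 0|) 2 (gam m) :=
    ((IsGaussian.memLp_id (gam m) 2 (by simp)).norm.const_mul B).add (memLp_const _)
  refine h1.mono' (cont_of_lip h).aestronglyMeasurable (.of_forall fun z => ?_)
  have h2 := h z 0
  rw [sub_zero] at h2
  rw [Real.norm_eq_abs]
  linarith [abs_sub_abs_le_abs_sub (F z) (F 0)]

/-- Gaussian Poincaré inequality -/
theorem var_le (hy : HypStmt) {F : E m → ℝ} {B : ℝ} (h : ∀ z z', |F z - F z'| ≤ B * ‖z - z'‖) :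
    sq (fun z => F z - ∫ z', F z' ∂gam m) ≤ B ^ 2 := by
  have h1 := hy.lip m F B h 1
  obtain ⟨c, r, hr, e⟩ := Hm.mem_succ.1 (Hm.pr_mem (m := m) (0 + 1) F)
  have e' : ∀ z, Hm.pr 1 F z = c := fun z => by
    rw [show Hm.pr 1 F = _ from e]; simp [Hm.mem_zero.1 (hr _)]
  simp only [e', Nat.cast_one, one_mul] at h1
  have h2 := (cont_of_lip h).aestronglyMeasurable (μ := gam m)
  have h3 := variance_le_expectation_sq (μ := gam m) (X := fun z => F z - c)
    (h2.sub aestronglyMeasurable_const)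
  rw [variance_sub_const h2, variance_eq_integral h2.aemeasurable] at h3
  exact h3.trans h1

theorem av1 (a : (Unit → Fin n) → ℝ) : av a = (∑ i, a fun _ => i) / n := by
  rw [av, Fintype.card_unit, pow_one]
  congr 1
  exact Fintype.sum_equiv (Equiv.funUnique Unit (Fin n)) _ _ fun _ => rfl

theorem sq_co (e : Ix L n) : sq (fun z : E (Nv L n) => co z e) = 1 := by
  have h := Nrm.integral_sq_coord (ix L n e)
  rw [T157.E.gv, ← (Sk59.mp_ofLp _).map_eq, integral_map (Sk59.mp_ofLp _).aemeasurable (by fun_prop)] at h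
  simp only [sq, pow_two]
  exact h

theorem bd_one {F : F1 L} {B : ℝ} (h : ∀ n x, sq (F n x) = B) : Bd F :=
  ⟨B, (eventually_gt_atTop 0).mono fun n hn => by
    have : (n : ℝ) ≠ 0 := Nat.cast_ne_zero.2 hn.ne'
    simp [n2, av1, h, mul_div_cancel_left₀ _ this]⟩

/-- the planted couplings have norm at most `3` -/
theorem tail3 {β : ℝ} (h0 : 0 ≤ β) (h1 : β < 1) (L : ℕ) :
    Tendsto (fun n : ℕ => (gam (Nv L n)).real {z | 3 < opn (Jm β z)}) atTop (𝓝 0) := by
  have ht : 0 < 1 - β := sub_pos.2 h1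
  have h := (tendsto_exp_neg_atTop_nhds_zero.comp (((tendsto_natCast_atTop_atTop (R := ℝ)).atTop_mul_const
    (pow_pos ht 2)).atTop_div_const (show (0 : ℝ) < 4 by norm_num))).const_mul 2
  rw [mul_zero] at h
  refine squeeze_zero (fun n => measureReal_nonneg) (fun n => ?_) h
  have h2 := Nrm.Jmat_opn_tail (n := n) ht.le
  have hm : MeasurableSet {g | 2 + (1 - β) ≤ opn (Jmat n g)} :=
    measurableSet_le measurable_const Nrm.elip_opn_Jmat.continuous.measurable
  rw [← (Sk59.mp_gof (L := L)).measureReal_preimage hm.nullMeasurableSet] at h2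
  refine (measureReal_mono (fun z hz => ?_) (measure_ne_top _ _)).trans h2
  by_contra h
  simp only [Set.mem_ofPred_eq, Set.mem_preimage, not_le] at hz h
  have h3 := opn_add_le (β • Jmat n (Sk59.gof z)) (Jm β (0 : E (Nv L n)))
  rw [← Sk59.Jm_eq, opn_smul, abs_of_nonneg h0] at h3
  nlinarith [Sk59.opn_Jm_zero (L := L) (n := n) β]

/-! ### networks in the planted gauge -/

variable {ι : Type} [Fintype ι] (β : ℝ) (c d : ι → ℝ)

/-- the vector of a word -/
def W (X : Nt ι) (z : E (Nv (Fintype.card ι) n)) : V n := X n (Jm β z) (rw c d z)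

theorem nrm_rw (z z' : E (Nv (Fintype.card ι) n)) (l : ι) :
    nrm ((rw c d z - rw c d z') l) ≤ |d l| * ‖z - z'‖ := by
  have e : (rw c d z - rw c d z') l =
      d l • fun i => (z - z') (ix _ n (.inr (Fintype.equivFin ι l, i))) := by
    funext i; simp only [rw, co, Pi.sub_apply, Pi.smul_apply, PiLp.sub_apply, smul_eq_mul]; ring
  rw [e, nrm_smul]
  refine mul_le_mul_of_nonneg_left ((nrm_le_iff (norm_nonneg _)).2 ?_) (abs_nonneg _)
  rw [EuclideanSpace.real_norm_sq_eq]
  have hi : Function.Injective fun i : Fin n => ix _ n (.inr (Fintype.equivFin ι l, i)) :=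
    fun i j h => (Prod.mk.inj (Sum.inr.inj ((ix _ n).injective h))).2
  refine le_of_eq_of_le ?_ ((Finset.sum_map Finset.univ ⟨_, hi⟩ fun j => (z - z') j ^ 2).symm.trans_le
    (Finset.sum_le_sum_of_subset_of_nonneg (Finset.subset_univ _) fun _ _ _ => sq_nonneg _))
  simp only [dotProduct, pow_two, Function.Embedding.coeFn_mk]

theorem lipW {X : Nt ι} (hX : Nw False X) : ∃ B ≥ (0 : ℝ), ∀ n (z z' : E (Nv (Fintype.card ι) n)),
    nrm (W β c d X z - W β c d X z') ≤ B * ‖z - z'‖ := by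
  obtain ⟨K, K0, hK⟩ := Z.L85.lip hX
  refine ⟨K * (∑ l, |d l| + 2 * |β|), by positivity, fun n z z' => (hK _ _ _ _ _).trans ?_⟩
  rw [mul_assoc, add_mul, Finset.sum_mul]
  refine mul_le_mul_of_nonneg_left (add_le_add (Finset.sum_le_sum fun l _ => nrm_rw c d z z' l)
    ((mul_le_mul_of_nonneg_left (Sk59.Jm_lip β z z') (sqrt_nonneg _)).trans ?_)) K0
  rw [← mul_assoc, mul_div_left_comm]
  exact mul_le_mul_of_nonneg_right (mul_le_of_le_one_right (by positivity) (div_self_le_one _))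
    (norm_nonneg _)

theorem lip_nf {X : Nt ι} (hX : Nw False X) : ∃ B, ∀ n x z z',
    |nf β c d X n x z - nf β c d X n x z'| ≤ B * ‖z - z'‖ :=
  let ⟨B, _, h⟩ := lipW β c d hX
  ⟨B, fun n x z z' => (abs_apply_le_nrm (W β c d X z - W β c d X z') (x ())).trans (h n z z')⟩

theorem adm {X : Nt ι} (hX : Nw False X) : Adm (nf β c d X) := by
  obtain ⟨B, h⟩ := lip_nf β c d hX
  refine .of_forall fun n => ⟨fun x => m2_of_lip (h n x), fun p x z => ?_⟩
  have h1 := congrFun (Z.L85.perm hX n (Jm β (act p z)) (rw c d (act p z)) p) (x ())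
  have e1 : (Jm β (act p z)).submatrix p p = Jm β z := by
    ext i j; rw [submatrix_apply, Sk59.Jm_act]
  have e2 : (fun l => rw c d (act p z) l ∘ p) = rw c d z := by
    funext l i; simp [rw, act, Sk59.co_pt]
  rw [e1, e2] at h1
  exact h1.symm

theorem sube (hl : LinStmt) (hn : NlStmt) {X : Nt ι} (hX : Nw False X) (h : Cl (nf β c d X)) :
    SubE (nf β c d X) :=
  let ⟨B, hB⟩ := lip_nf β c d hX
  hn.sub_of_lip _ _ B h.1 (hl.wk _ _ _ h).1.2.1 (.of_forall hB)

theorem cl_inp (hr : RtStmt) (hl : LinStmt) (j : ι) : Cl (nf β c d fun _ _ a => a j) := by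
  have h1 : Cl (L := Fintype.card ι) (C := Unit) fun _ _ _ => c j :=
    hl.rp _ _ _ (.const (hr.const _)) (bd_one (B := c j ^ 2) fun _ _ => by simp [sq])
  have h2 := hl.rp _ _ _ (RP.site (Fintype.equivFin ι j) ()) (bd_one fun _ _ => sq_co _)
  exact hl.add _ _ _ _ h1 (hl.smul _ _ (fun _ => d j) _ ⟨_, tendsto_const_nhds⟩ h2)

theorem cl_mul (h0 : 0 ≤ β) (h1 : β < 1) (hl : LinStmt) (hn : NlStmt) {X : Nt ι} (hX : Nw False X)
    (hB : Z.Bd X) (h : Cl (nf β c d X)) : Cl (nf β c d fun n J a => tJ J *ᵥ X n J a) := by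
  obtain ⟨K0, k0, hK⟩ := hn.Jv β
  have hG := hK (max K0 3) (le_max_left _ _) _ _ h
  set K := max K0 3 with hK'
  have K3 : 3 ≤ K := le_max_right _ _
  have hF := adm β c d (hX.mul X hB)
  obtain ⟨M, hM⟩ := hB
  refine hl.closed _ _ _ hF fun ε hε => ⟨_, hG, ?_⟩
  have ht := (tail3 h0 h1 (Fintype.card ι)).const_mul (((3 + K) * |M|) ^ 2)
  rw [mul_zero] at ht
  filter_upwards [hF, hG.1, ht.eventually_le_const hε, eventually_gt_atTop 0] with n a1 a2 a3 n0
  refine le_trans ?_ a3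
  have n0' : (0 : ℝ) < n := Nat.cast_pos.2 n0
  have hm : MeasurableSet {z : E (Nv (Fintype.card ι) n) | 3 < opn (Jm β z)} :=
    measurableSet_lt measurable_const (continuous_opn.comp (Sk59.cont_Jm β)).measurable
  rw [n2, av1, div_le_iff₀ n0']
  refine (integral_finsetSum _ fun i _ => ((a1.1 fun _ => i).2.sub
    (a2.1 fun _ => i).2).integrable_sq).symm.trans_le ?_
  rw [mul_right_comm, mul_comm, ← smul_eq_mul, ← integral_indicator_const _ hm]
  refine integral_mono_of_nonneg (.of_forall fun z => Finset.sum_nonneg fun _ _ => sq_nonneg _)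
    ((integrable_const _).indicator hm) (.of_forall fun z => ?_)
  have e : ∑ i, ((nf β c d fun n J a => tJ J *ᵥ X n J a) n (fun _ => i) -
      Jv β K (nf β c d X) n fun _ => i) z ^ 2 = nrm ((tJ (Jm β z) - Jt β K z) *ᵥ W β c d X z) ^ 2 := by
    rw [nrm_sq, sub_mulVec]; simp only [dotProduct, pow_two]; rfl
  refine e.trans_le ?_
  rw [Set.indicator_apply]
  split_ifs with hz
  · rw [← sq_sqrt n0'.le, ← mul_pow, mul_assoc]
    exact pow_le_pow_left₀ (nrm_nonneg _) ((nrm_mulVec_le _ _).trans (mul_le_mul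
      ((opn_sub_le _ _).trans (add_le_add (Z.L85.opn_tJ _) (Sk59.opn_rt (by linarith) _)))
      (Z.L85.nrm_le_of_bd (hM _ _ _)) (nrm_nonneg _) (by linarith))) 2
  · rw [Z.L85.tJ_eq (not_lt.1 hz), Jt, max_eq_left
      ((div_le_one (by linarith)).2 ((not_lt.1 hz).trans K3))]
    simp

theorem cl_sc (hy : HypStmt) (hn : NlStmt) {X Y U : Nt ι} (hX : Nw False X) (hY : Nw False Y)
    (bX : Z.Bd X) (bY : Z.Bd Y) (bZ : Z.Bd U) (cX : Cl (nf β c d X)) (cY : Cl (nf β c d Y))
    (cZ : Cl (nf β c d U)) : Cl (nf β c d fun n J a => avg (X n J a * Y n J a) • U n J a) := by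
  obtain ⟨A, hA⟩ := bX
  obtain ⟨B, hB⟩ := bY
  obtain ⟨M, hM⟩ := bZ
  obtain ⟨K1, k1, h1⟩ := lipW β c d hX
  obtain ⟨K2, k2, h2⟩ := lipW β c d hY
  have e : ∀ n z, (av fun y => nf β c d X n y z * nf β c d Y n y z) =
      W β c d X z ⬝ᵥ W β c d Y z / n := fun n z => av1 _
  have hL : ∀ n, 0 < n → ∀ z z', |(av fun y => nf β c d X n y z * nf β c d Y n y z) -
      av fun y => nf β c d X n y z' * nf β c d Y n y z'| ≤ (K1 * |B| + K2 * |A|) / √n * ‖z - z'‖ := by
    intro n n0 z z'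
    have n0' : (0 : ℝ) < n := Nat.cast_pos.2 n0
    have g1 := (abs_dot_le _ _).trans (mul_le_mul (h1 n z z') (Z.L85.nrm_le_of_bd
      (v := W β c d Y z) (hB _ _ _)) (nrm_nonneg _) (by positivity))
    have g2 := (abs_dot_le _ _).trans (mul_le_mul (h2 n z z') (Z.L85.nrm_le_of_bd
      (v := W β c d X z') (hA _ _ _)) (nrm_nonneg _) (by positivity))
    rw [e, e, ← sub_div, abs_div, abs_of_pos n0', div_le_iff₀ n0', show W β c d X z ⬝ᵥ W β c d Y z -
      W β c d X z' ⬝ᵥ W β c d Y z' = (W β c d X z - W β c d X z') ⬝ᵥ W β c d Y z +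
        (W β c d Y z - W β c d Y z') ⬝ᵥ W β c d X z' by
      rw [sub_dotProduct, sub_dotProduct, dotProduct_comm (W β c d Y z),
        dotProduct_comm (W β c d Y z')]; ring]
    refine ((abs_add_le _ _).trans (add_le_add g1 g2)).trans_eq ?_
    have := sqrt_pos.2 n0'
    rw [← mul_self_sqrt n0'.le, sqrt_mul_self this.le]
    field_simp
  have h := hn.avg _ _ _ _ M cX cY cZ (.of_forall fun n x z => hM _ _ _ _)
    ((eventually_gt_atTop 0).mono fun n n0 => m2_of_lip (hL n n0)) ?_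
  · simp only [e] at h
    exact h
  have ht := tendsto_const_div_atTop_nhds_zero_nat ((K1 * |B| + K2 * |A|) ^ 2)
  refine squeeze_zero' (.of_forall fun n => integral_nonneg fun _ => sq_nonneg _) ?_ ht
  filter_upwards [cX.1, cY.1, eventually_gt_atTop 0] with n a1 a2 n0
  have h3 := var_le hy (hL n n0)
  rw [div_pow, sq_sqrt (Nat.cast_nonneg n)] at h3
  refine le_of_eq_of_le ?_ h3
  congr 3
  rw [ipx]
  simp only [av]
  rw [integral_div, integral_finsetSum (f := fun y z => nf β c d X n y z * nf β c d Y n y z) _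
    fun y _ => (a1.1 y).2.integrable_mul (a2.1 y).2]

end Net59

open Net59

theorem netGlue : NetGlue := by
  intro _ _ hy hr _ _ hl hn _ β h0 h1 ι _ c d X hX
  induction hX with
  | inp j => exact cl_inp β c d hr hl j
  | map φ X hφ _ hX ih =>
    obtain ⟨ho, K, hK⟩ := hφ
    refine hn.comp _ _ (fun l => nf β c d (X l)) K φ ih (fun l => sube β c d hl hn (hX l) (ih l))
      hK.continuous fun u => ?_
    have h2 := hK.dist_le_mul u 0
    have h3 : φ 0 = 0 := by linarith [ho 0, congrArg φ (neg_zero (G := Fin _ → ℝ))]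
    rw [h3, dist_zero_right, dist_zero_right, Real.norm_eq_abs] at h2
    exact h2.trans (mul_le_mul_of_nonneg_left (by linarith) K.2)
  | mul X hX hB ih => exact cl_mul β c d h0 h1 hl hn hX hB ih
  | sc X Y Z hX hY _ bX bY bZ iX iY iZ => exact cl_sc β c d hy hn hX hY bX bY bZ iX iY iZ

end Crest.Agent.T157.Lm

end
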