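import Crest.Agent.T157.HdK_20
import Crest.Agent.T157.TaA_40
import Crest.Agent.T157.SLA_23
import Crest.Agent.T157.BrDef_50
import Crest.Agent.T157.UeE_83
import Crest.Agent.T157.Xtr_25
import Crest.Agent.T157.DaGr_82

-- ▼ part T157/S2Two_51
section

/-!
# Row 157, part B, S2 (helper51): two-point inequalities

`klr h k = KL(ν|μ)`, `ν± ∝ e^{±k}`, `μ± ∝ e^{±h}`.
-/

set_option autoImplicit false

noncomputable section

namespace Crest.Agent.T157.S2t

open Real MeasureTheory ProbabilityTheory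
open Crest.Agent.T157.Hd

/-- `log cosh` -/
def lc (x : ℝ) : ℝ := log (cosh x)

/-- `Λ(u) = log cosh (u + λ) - log cosh u` -/
def Lam (l u : ℝ) : ℝ := lc (u + l) - lc u

lemma min_of_deriv {f f' : ℝ → ℝ} (hf : ∀ x, HasDerivAt f (f' x) x) {a : ℝ}
    (h1 : ∀ x, a ≤ x → 0 ≤ f' x) (h2 : ∀ x, x ≤ a → f' x ≤ 0) (x : ℝ) : f a ≤ f x := by
  rcases lt_trichotomy x a with h | h | h
  · obtain ⟨c, hc, e⟩ := exists_hasDerivAt_eq_slope f f' h
      (fun y _ => (hf y).continuousAt.continuousWithinAt) (fun y _ => hf y)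
    have := h2 c hc.2.le
    rw [e, div_le_iff₀ (sub_pos.2 h)] at this
    linarith
  · rw [h]
  · obtain ⟨c, hc, e⟩ := exists_hasDerivAt_eq_slope f f' h
      (fun y _ => (hf y).continuousAt.continuousWithinAt) (fun y _ => hf y)
    have := h1 c hc.1.le
    rw [e, le_div_iff₀ (sub_pos.2 h)] at this
    linarith

lemma hasDerivAt_lc (x : ℝ) : HasDerivAt lc (tanh x) x := hasDerivAt_logcosh x

lemma inv_cosh_sq_le (x : ℝ) : 1 / cosh x ^ 2 ≤ 1 := by
  rw [div_le_one (by have := cosh_pos x; positivity)]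
  nlinarith [one_le_cosh x]

lemma tanh_lip {x y : ℝ} (h : x ≤ y) : tanh y - tanh x ≤ y - x := by
  rcases h.eq_or_lt with h | h
  · rw [h]; simp
  · obtain ⟨c, -, e⟩ := exists_hasDerivAt_eq_slope tanh (fun c => 1 / cosh c ^ 2) h
      (fun y _ => (hasDerivAt_tanh' y).continuousAt.continuousWithinAt)
      (fun y _ => hasDerivAt_tanh' y)
    have := inv_cosh_sq_le c
    rw [e, div_le_one (sub_pos.2 h)] at this
    exact this

lemma abs_tanh_sub (x y : ℝ) : |tanh x - tanh y| ≤ |x - y| := by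
  rcases le_total x y with h | h
  · rw [abs_sub_comm, abs_sub_comm x, abs_of_nonneg (sub_nonneg.2 (tanh_mono h)),
      abs_of_nonneg (sub_nonneg.2 h)]
    exact tanh_lip h
  · rw [abs_of_nonneg (sub_nonneg.2 (tanh_mono h)), abs_of_nonneg (sub_nonneg.2 h)]
    exact tanh_lip h

lemma lc_ge (u v : ℝ) : lc u + v * tanh u ≤ lc (u + v) := by
  have := min_of_deriv (f := fun v => lc (u + v) - v * tanh u)
    (f' := fun v => tanh (u + v) - tanh u) (a := 0)
    (fun x => (((hasDerivAt_lc (u + x)).comp x ((hasDerivAt_id x).const_add u)).sub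
        ((hasDerivAt_id x).mul_const (tanh u))).congr_deriv (by simp))
    (fun x hx => sub_nonneg.2 (tanh_mono (by linarith)))
    (fun x hx => sub_nonpos.2 (tanh_mono (by linarith))) v
  simp only [add_zero, zero_mul, sub_zero] at this
  linarith

lemma lc_le (u v : ℝ) : lc (u + v) ≤ lc u + v * tanh u + v ^ 2 / 2 := by
  have := min_of_deriv (f := fun v => v * tanh u + v ^ 2 / 2 - lc (u + v))
    (f' := fun v => tanh u + v - tanh (u + v)) (a := 0)
    (fun x => by
      have h1 := ((hasDerivAt_lc (u + x)).comp x ((hasDerivAt_id x).const_add u))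
      have h2 := ((hasDerivAt_id x).mul_const (tanh u))
      have h3 := (hasDerivAt_pow 2 x).div_const 2
      exact ((h2.add h3).sub h1).congr_deriv (by simp))
    (fun x hx => by have := tanh_lip (show u ≤ u + x by linarith); linarith)
    (fun x hx => by have := tanh_lip (show u + x ≤ u by linarith); linarith) v
  simp only [add_zero, zero_mul] at this
  linarith

lemma abs_lc_sub (u v : ℝ) : |lc (u + v) - lc u| ≤ |v| := by
  have h1 := lc_ge u v
  have h2 := lc_ge (u + v) (-v)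
  rw [add_neg_cancel_right] at h2
  have a1 : |v * tanh u| ≤ |v| := by
    rw [abs_mul]; exact mul_le_of_le_one_right (abs_nonneg _) (abs_tanh_lt u).le
  have a2 : |v * tanh (u + v)| ≤ |v| := by
    rw [abs_mul]; exact mul_le_of_le_one_right (abs_nonneg _) (abs_tanh_lt _).le
  rw [abs_le] at a1 a2 ⊢
  constructor <;> linarith [a1.1, a2.2]

lemma klr_eq (h k : ℝ) : klr h k = (k - h) * tanh k - lc k + lc h := rfl




/-- moving the reference field -/
theorem shift (u v k : ℝ) :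
    klr (u + v) k ≤ klr u k + |v| * |tanh k - tanh u| + v ^ 2 / 2 := by
  have h1 := lc_le u v
  have h2 : -(v * (tanh k - tanh u)) ≤ |v| * |tanh k - tanh u| := by
    rw [← abs_mul]; exact neg_le_abs _
  rw [klr_eq, klr_eq]; linarith








/-! ### the two-point lemma -/

lemma cosh_le_mul (a x : ℝ) : cosh a ≤ cosh (a + x) * exp |x| := by
  have h := abs_lc_sub a x
  have h2 : lc a ≤ lc (a + x) + |x| := by linarith [(abs_le.1 h).1]
  have := exp_le_exp.2 h2
  rwa [exp_add, lc, lc, exp_log (cosh_pos _), exp_log (cosh_pos _)] at this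

lemma abs_dLam_le (l u x : ℝ) :
    |tanh (u + x + l) - tanh (u + x)| ≤ |tanh (u + l) - tanh u| * exp (2 * |x|) := by
  rw [tanh_sub_tanh, tanh_sub_tanh, show u + x + l - (u + x) = l by ring,
    show u + l - u = l by ring, abs_div, abs_div,
    abs_of_pos (mul_pos (cosh_pos _) (cosh_pos _)), abs_of_pos (mul_pos (cosh_pos _) (cosh_pos _)),
    div_mul_eq_mul_div, div_le_div_iff₀ (mul_pos (cosh_pos _) (cosh_pos _))
      (mul_pos (cosh_pos _) (cosh_pos _)), mul_assoc]
  refine mul_le_mul_of_nonneg_left ?_ (abs_nonneg _)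
  have h1 := cosh_le_mul (u + l) x
  have h2 := cosh_le_mul u x
  rw [show u + l + x = u + x + l by ring] at h1
  calc cosh (u + l) * cosh u ≤ (cosh (u + x + l) * exp |x|) * (cosh (u + x) * exp |x|) :=
        mul_le_mul h1 h2 (cosh_pos _).le (by have := cosh_pos (u + x + l); positivity)
    _ = _ := by rw [two_mul, exp_add]; ring

lemma hasDerivAt_Lam (l u : ℝ) : HasDerivAt (Lam l) (tanh (u + l) - tanh u) u := by
  have h := (hasDerivAt_lc (u + l)).comp u ((hasDerivAt_id u).add_const l)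
  exact (h.sub (hasDerivAt_lc u)).congr_deriv (by simp)

lemma abs_Lam_sub (l u x : ℝ) :
    |Lam l (u + x) - Lam l u| ≤ |tanh (u + l) - tanh u| * exp (2 * |x|) * |x| := by
  have := (convex_Icc (u - |x|) (u + |x|)).norm_image_sub_le_of_norm_hasDerivWithin_le
    (f := Lam l) (f' := fun y => tanh (y + l) - tanh y)
    (C := |tanh (u + l) - tanh u| * exp (2 * |x|)) (x := u) (y := u + x)
    (fun y _ => (hasDerivAt_Lam l y).hasDerivWithinAt)
    (fun y hy => by
      have := abs_dLam_le l u (y - u)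
      rw [add_sub_cancel] at this
      refine this.trans (mul_le_mul_of_nonneg_left (exp_le_exp.2 ?_) (abs_nonneg _))
      have : |y - u| ≤ |x| := abs_le.2 ⟨by linarith [hy.1], by linarith [hy.2]⟩
      linarith)
    ⟨by linarith [abs_nonneg x], by linarith [abs_nonneg x]⟩
    ⟨by linarith [neg_abs_le x], by linarith [le_abs_self x]⟩
  simpa using this

lemma abs_Lam_sub' (l u x : ℝ) : |Lam l (u + x) - Lam l u| ≤ 2 * |x| := by
  have h1 := abs_le.1 (abs_lc_sub (u + l) x)
  have h2 := abs_le.1 (abs_lc_sub u x)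
  rw [Lam, Lam, show u + x + l = u + l + x by ring, abs_le]
  constructor <;> linarith [h1.1, h1.2, h2.1, h2.2]


lemma int_exp (t : ℝ) : ∫ z, exp (t * z) ∂gaussianReal 0 1 = exp (t ^ 2 / 2) := by
  have := congrFun (mgf_fun_id_gaussianReal (μ := 0) (v := 1)) t
  simpa [mgf] using this

lemma cosh_eq' (w s z : ℝ) :
    cosh (w + s * z) = exp w / 2 * exp (s * z) + exp (-w) / 2 * exp (-s * z) := by
  rw [cosh_eq, neg_add, exp_add, exp_add, neg_mul]; ring

lemma integrable_cosh (w s : ℝ) : Integrable (fun z => cosh (w + s * z)) (gaussianReal 0 1) := by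
  simp only [cosh_eq']
  exact ((integrable_exp_mul_gaussianReal s).const_mul _).add
    ((integrable_exp_mul_gaussianReal (-s)).const_mul _)

lemma int_cosh (w s : ℝ) :
    ∫ z, cosh (w + s * z) ∂gaussianReal 0 1 = cosh w * exp (s ^ 2 / 2) := by
  simp only [cosh_eq']
  rw [integral_add ((integrable_exp_mul_gaussianReal s).const_mul _)
    ((integrable_exp_mul_gaussianReal (-s)).const_mul _), integral_const_mul, integral_const_mul,
    int_exp, int_exp, neg_sq, cosh_eq]
  ring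

lemma exp_abs_le_cosh (x : ℝ) : exp |x| ≤ 2 * cosh x := by
  rw [← cosh_abs, cosh_eq]
  linarith [exp_pos (-|x|)]

lemma abs_sinh_le (x : ℝ) : |sinh x| ≤ |x| * exp |x| := by
  rw [abs_sinh, sinh_eq]
  have h1 := add_one_le_exp (-(2 * |x|))
  have h2 : exp (-|x|) = exp |x| * exp (-(2 * |x|)) := by rw [← exp_add]; congr 1; ring
  rw [h2]
  nlinarith [exp_pos |x|]

lemma cosh_le_exp (x : ℝ) : cosh x ≤ exp |x| := by
  simpa using cosh_le_mul x (-x)

lemma cosh_div (w x : ℝ) : cosh (w + x) / cosh w = cosh x + tanh w * sinh x := by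
  rw [cosh_add, tanh_eq_sinh_div_cosh]
  have := (cosh_pos w).ne'
  field_simp


lemma continuous_Lam (l : ℝ) : Continuous (Lam l) :=
  continuous_iff_continuousAt.2 fun u => (hasDerivAt_Lam l u).continuousAt


/-- the constant of the two-point lemma -/
def Ctp : ℝ := 4 * exp 32

lemma Ctp_pos : 0 < Ctp := by unfold Ctp; positivity


/-! ### completing the square: the pin `exp (-P h²/2 + y h)` on `h = m + s Z` -/

/-- centre after the pin -/
def mh (P y m s : ℝ) : ℝ := (m + s ^ 2 * y) / (1 + P * s ^ 2)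

/-- standard deviation after the pin -/
def sh (P s : ℝ) : ℝ := s / √(1 + P * s ^ 2)

/-- total mass of the pin -/
def kp (P y m s : ℝ) : ℝ :=
  exp ((s * (y - P * m)) ^ 2 / (2 * (1 + P * s ^ 2)) + y * m - P * m ^ 2 / 2) / √(1 + P * s ^ 2)






theorem pin_shift {P : ℝ} (hP : 0 ≤ P) (y m s : ℝ) (F : ℝ → ℝ) :
    ∫ z, exp (-(P * (m + s * z) ^ 2 / 2) + y * (m + s * z)) * F (m + s * z) ∂gaussianReal 0 1 =
      kp P y m s * ∫ z, F (mh P y m s + sh P s * z) ∂gaussianReal 0 1 := by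
  have hD : 0 < 1 + P * s ^ 2 := by positivity
  set q := √(1 + P * s ^ 2) with hq
  have hq0 : 0 < q := sqrt_pos.2 hD
  have hqq : q ^ 2 = 1 + P * s ^ 2 := sq_sqrt hD.le
  rw [integral_gaussianReal_eq_integral_smul one_ne_zero,
    integral_gaussianReal_eq_integral_smul one_ne_zero,
    ← integral_add_left_eq_self _ (s * (y - P * m) / (1 + P * s ^ 2))]
  have h := Measure.integral_comp_mul_left
    (fun w => gaussianPDFReal 0 1 w • F (mh P y m s + sh P s * w)) q
  rw [abs_of_pos (inv_pos.2 hq0), smul_eq_mul] at h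
  rw [kp, ← hq, div_eq_mul_inv _ q, mul_assoc, ← h, ← integral_const_mul]
  refine integral_congr_ae (Filter.Eventually.of_forall fun z => ?_)
  have e : m + s * (s * (y - P * m) / (1 + P * s ^ 2) + z) = mh P y m s + sh P s * (q * z) := by
    rw [mh, sh, ← hq]; field_simp; ring
  simp only [smul_eq_mul, gaussianPDFReal_def]
  rw [← e, ← mul_assoc, ← mul_assoc, mul_assoc _ (exp _) (exp _), ← exp_add,
    mul_left_comm (exp _), ← exp_add]
  congr 3
  rw [sub_zero, sub_zero, mul_pow q, hqq, NNReal.coe_one]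
  field_simp
  ring




end Crest.Agent.T157.S2t

end
end

-- ▼ part T157/S2Rev_51
section

/-!
# Row 157, part B, S2 (helper51): the reveal of a set of spins
-/

set_option autoImplicit false

noncomputable section

namespace Crest.Agent.T157.S2t

open Real Function Finset
open Crest.Agent.T157.E Crest.Agent.T157.SL Crest.Agent.T157.Ta
open Crest.Agent.T157.Ent (cnd)
open Crest.Agent.T157.Rec (grad)
open Crest.Agent.T157.Hd (abs_tanh_lt)
open Crest.ProbabilityR.SpinGlassDynamics (spin)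

variable {n : ℕ} {v w : Cube n → ℝ} {T : Finset (Fin n)} {k : Fin n}

/-- the spins in `T` -/
def rT (T : Finset (Fin n)) (x : Cube n) : Cube n := T.piecewise x fun _ => true

/-- the marginal on `T` -/
def mT (T : Finset (Fin n)) (w : Cube n → ℝ) (x : Cube n) : ℝ := push w (rT T) (rT T x)

/-- logarithm of the two-point law with half log-odds `u` -/
def lb (u : ℝ) (b : Bool) : ℝ := u * spin b - log 2 - lc u

/-- logarithm of the product law on `T` -/
def LB (T : Finset (Fin n)) (U : Fin n → ℝ) (x : Cube n) : ℝ := ∑ k ∈ T, lb (U k) (x k)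

/-- the local field of a weight -/
def uf (w : Cube n → ℝ) (k : Fin n) (x : Cube n) : ℝ := grad (fun y => log (w y)) x k

/-- positive along the edges of `T` starting in the support of `v` -/
def EdgePos (T : Finset (Fin n)) (v w : Cube n → ℝ) : Prop :=
  ∀ k ∈ T, ∀ x, v x ≠ 0 → ∀ b, 0 < w (update x k b)

/-- mean under `v_T ⊗ w_bath` -/
def pm (T : Finset (Fin n)) (v w G : Cube n → ℝ) : ℝ :=
  mean w fun x => mean v fun s => G (T.piecewise s x)

lemma rT_eq_iff {x y : Cube n} : rT T y = rT T x ↔ ∀ i ∈ T, y i = x i := by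
  constructor
  · intro h i hi
    have := congrFun h i
    rwa [rT, rT, piecewise_eq_of_mem _ _ _ hi, piecewise_eq_of_mem _ _ _ hi] at this
  · intro h; funext i
    by_cases hi : i ∈ T
    · rw [rT, rT, piecewise_eq_of_mem _ _ _ hi, piecewise_eq_of_mem _ _ _ hi, h i hi]
    · rw [rT, rT, piecewise_eq_of_notMem _ _ _ hi, piecewise_eq_of_notMem _ _ _ hi]

lemma off_rT (hk : k ∉ T) : OffAt k (rT T) := fun _ _ =>
  rT_eq_iff.2 fun _ hi => update_of_ne (ne_of_mem_of_not_mem hi hk) _ _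

lemma off_mT (hk : k ∉ T) (w : Cube n → ℝ) : OffAt k (mT T w) := (off_rT hk).comp _

lemma mT_pos (hv : Wt v) {x : Cube n} (hx : v x ≠ 0) : 0 < mT T v x := push_pos hv hx

lemma mT_nonneg (hv : Wt v) (x : Cube n) : 0 ≤ mT T v x := push_nonneg hv _ _

lemma mT_insert (hk : k ∉ T) (w : Cube n → ℝ) (x : Cube n) :
    mT (insert k T) w (update x k true) + mT (insert k T) w (update x k false) = mT T w x := by
  simp only [mT, push]
  rw [← mean_add]
  congr 1; funext y
  have e : ∀ b, rT (insert k T) y = rT (insert k T) (update x k b) ↔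
      y k = b ∧ rT T y = rT T x := fun b => by
    simp only [rT_eq_iff, forall_mem_insert, update_self]
    exact and_congr_right fun _ => forall₂_congr fun i hi => by
      rw [update_of_ne (ne_of_mem_of_not_mem hi hk)]
  simp only [e]
  by_cases h : rT T y = rT T x <;> cases y k <;> simp [h]

lemma kl_push {Ω A : Type*} [Fintype Ω] [Fintype A] [DecidableEq A] {v w : Ω → ℝ} (h : Pr v w)
    (ρ : Ω → A) : Ent.kl (push v ρ) (push w ρ) =
      mean v fun x => log (push v ρ (ρ x)) - log (push w ρ (ρ x)) := by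
  rw [mean_congr_supp (g := fun x => log (push v ρ (ρ x) / push w ρ (ρ x))) fun x hx =>
    (log_div (push_pos h.hv hx).ne' (push_pos h.hw (h.pos hx).2.ne').ne').symm,
    ← sum_push_mean h.hv ρ fun a _ => log (push v ρ a / push w ρ a)]
  refine sum_congr rfl fun a _ => ?_
  by_cases ha : push v ρ a = 0
  · rw [ha, zero_mul, zero_mul]
  · rw [(wt_cut h.hv ha).mean_const]

lemma cnd_self_pos (hv : Wt v) {x : Cube n} (hx : v x ≠ 0) (k : Fin n) : 0 < cnd v k x (x k) := by
  rw [cnd, update_eq_self]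
  exact div_pos (hv.pos_of_ne x hx) (den_pos hv k hx)

lemma cnd_nonneg (hv : Wt v) (k : Fin n) (x : Cube n) (b : Bool) : 0 ≤ cnd v k x b :=
  div_nonneg (hv.nn _) (add_nonneg (hv.nn _) (hv.nn _))

/-- **Han's inequality** on a subset -/
theorem han (hv : Wt v) (T : Finset (Fin n)) :
    mean v (fun x => log (mT T v x)) ≤ ∑ k ∈ T, mean v fun x => log (cnd v k x (x k)) := by
  induction T using Finset.induction_on with
  | empty =>
    have : ∀ x, mT ∅ v x = 1 := fun x => by
      simp only [mT, push, rT_eq_iff, notMem_empty, false_imp_iff, implies_true, if_true]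
      exact hv.mean_const 1
    simp only [this, log_one, sum_empty]
    exact (hv.mean_const 0).le
  | insert k T hk ih =>
    rw [sum_insert hk]
    set F : Cube n → ℝ := fun x => mT (insert k T) v x / (mT T v x * cnd v k x (x k)) with hF
    have h1 : mean v F ≤ 1 := by
      have := mean_off hv (OffAt.const k (1 : ℝ)) F
      simp only [one_mul] at this
      rw [← this, ← hv.mean_const 1]
      refine mean_mono_supp hv fun x hx => ?_
      have p := mT_pos (T := T) hv hx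
      have t : ∀ b, cnd v k x b * F (update x k b) ≤ mT (insert k T) v (update x k b) / mT T v x :=
        fun b => by
          simp only [hF, off_mT hk v x b, Ent.cnd_update, update_self]
          rcases (cnd_nonneg hv k x b).eq_or_lt with h0 | h0
          · rw [← h0, zero_mul]; exact div_nonneg (mT_nonneg hv _) p.le
          · exact le_of_eq (by field_simp)
      rw [← Ent.mean_cnd, Chain22.mean, Fintype.sum_bool]
      refine (add_le_add (t true) (t false)).trans ?_
      rw [← add_div, mT_insert hk, div_self p.ne']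
    have h2 : mean v (fun x => log (mT (insert k T) v x)) ≤
        mean v fun x => log (cnd v k x (x k)) + log (mT T v x) + (F x - 1) :=
      mean_mono_supp hv fun x hx => by
        have p1 := mT_pos (T := T) hv hx
        have p2 := mT_pos (T := insert k T) hv hx
        have p3 := cnd_self_pos hv hx k
        have := log_le_sub_one_of_pos (show 0 < F x from div_pos p2 (mul_pos p1 p3))
        rw [hF, log_div p2.ne' (mul_pos p1 p3).ne', log_mul p1.ne' p3.ne'] at this
        linarith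
    rw [mean_add, mean_add, mean_sub, hv.mean_const] at h2
    linarith

lemma exp_lb (u : ℝ) (b : Bool) : exp (lb u b) = exp (u * spin b) / (2 * cosh u) := by
  rw [lb, lc, exp_sub, exp_sub, exp_log two_pos, exp_log (cosh_pos u), div_div]

lemma sum_exp_lb (u : ℝ) : exp (lb u true) + exp (lb u false) = 1 := by
  have := (cosh_pos u).ne'
  rw [exp_lb, exp_lb, ← add_div, div_eq_one_iff_eq (by positivity), cosh_eq]
  simp [spin]; ring

lemma abs_spin (b : Bool) : |spin b| = 1 := by cases b <;> simp [spin]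


lemma two_pt {A B : ℝ} (hA : 0 < A) (hB : 0 < B) :
    log (A / (A + B)) = lb ((log A - log B) / 2) true ∧
    log (B / (A + B)) = lb ((log A - log B) / 2) false ∧
      (A * 1 + B * -1) / (A + B) = tanh ((log A - log B) / 2) := by
  set u := (log A - log B) / 2 with hu
  have e : A = B * exp u ^ 2 := by
    rw [← exp_nat_mul, hu, show ((2 : ℕ) : ℝ) * ((log A - log B) / 2) = log A - log B by
      push_cast; ring, exp_sub, exp_log hA, exp_log hB]; field_simp
  have p := exp_pos u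
  refine ⟨?_, ?_, ?_⟩
  · rw [← log_exp (lb u true), exp_lb, cosh_eq, exp_neg]
    congr 1; rw [e]; simp only [spin, if_true, mul_one]; field_simp
  · rw [← log_exp (lb u false), exp_lb, cosh_eq, exp_neg]
    congr 1; rw [e]; simp only [spin, Bool.false_eq_true, if_false, mul_neg, mul_one, exp_neg]
    field_simp
  · rw [tanh_eq_sinh_div_cosh, sinh_eq, cosh_eq, exp_neg, e]; field_simp; ring


lemma cm_eq {x : Cube n} (h : ∀ b, 0 < w (update x k b)) : cm w k x = tanh (uf w k x) := by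
  have := (two_pt (h true) (h false)).2.2
  simpa [Ta.cm, siteM, sv, spin, uf, grad, incr] using this






/-! ### the side of the reference law -/

lemma piece_iff {s x y : Cube n} :
    y = T.piecewise s x ↔ rT T y = rT T s ∧ rT Tᶜ y = rT Tᶜ x := by
  simp only [rT_eq_iff, mem_compl]
  constructor
  · rintro rfl
    exact ⟨fun i hi => piecewise_eq_of_mem _ _ _ hi, fun i hi => piecewise_eq_of_notMem _ _ _ hi⟩
  · rintro ⟨h1, h2⟩
    funext i
    by_cases hi : i ∈ T
    · rw [piecewise_eq_of_mem _ _ _ hi, h1 i hi]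
    · rw [piecewise_eq_of_notMem _ _ _ hi, h2 i hi]

lemma mT_congr {x y : Cube n} (h : rT T y = rT T x) (w : Cube n → ℝ) : mT T w y = mT T w x := by
  rw [mT, mT, h]

lemma tower_le (hw : Wt w) (s : Cube n) :
    mean w (fun x => prob w (T.piecewise s x) / mT Tᶜ w x) ≤ mT T w s := by
  have e : ∀ x, prob w (T.piecewise s x) / mT Tᶜ w x = ∑ y, (if rT T y = rT T s then 1 else 0) *
      (prob w y / mT Tᶜ w y) * if rT Tᶜ x = rT Tᶜ y then 1 else 0 := fun x => by
    rw [sum_eq_single (T.piecewise s x)]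
    · have := piece_iff.1 (rfl : T.piecewise s x = _)
      rw [if_pos this.1, if_pos this.2.symm, mT_congr this.2, one_mul, mul_one]
    · intro y _ hy
      by_cases h1 : rT T y = rT T s
      · rw [if_neg (c := rT Tᶜ x = rT Tᶜ y) fun h2 => hy (piece_iff.2 ⟨h1, h2.symm⟩), mul_zero]
      · rw [if_neg h1, zero_mul, zero_mul]
    · simp
  simp only [e]
  rw [mean_sum]
  refine sum_le_sum fun y _ => ?_
  rw [mean_const_mul, mul_assoc, mul_comm]
  refine mul_le_mul_of_nonneg_right ?_ (by split_ifs <;> norm_num)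
  change prob w y / mT Tᶜ w y * mT Tᶜ w y ≤ _
  rcases eq_or_ne (mT Tᶜ w y) 0 with h | h
  · rw [h, mul_zero]; exact hw.prob_nonneg y
  · rw [div_mul_cancel₀ _ h]

lemma sum_fibre (U : Fin n → ℝ) (y : Cube n) :
    ∑ x, (if rT Tᶜ y = rT Tᶜ x then 1 else 0) * exp (LB T U x) = 1 := by
  have hp : ∀ i, Chain22.IsP fun b => if i ∈ T then exp (lb (U i) b) else if y i = b then 1 else 0 :=
    fun i => ⟨fun b => by split_ifs <;> positivity, by
      rw [Fintype.sum_bool]
      split_ifs with h1 h2 h3 h3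
      · exact sum_exp_lb _
      · rw [h2] at h3; exact absurd h3 (by simp)
      · norm_num
      · norm_num
      · cases hy : y i <;> simp_all⟩
  refine Eq.trans (sum_congr rfl fun x _ => ?_) (Ent.isP_ppi hp).sum1
  rw [Ent.ppi, ← prod_mul_prod_compl T, LB, exp_sum, mul_comm]
  congr 1
  · exact prod_congr rfl fun i hi => (if_pos hi).symm
  · rw [prod_congr rfl fun i hi => if_neg (mem_compl.1 hi), prod_ite_zero, prod_const_one]
    by_cases h : rT Tᶜ y = rT Tᶜ x
    · rw [if_pos h, if_pos (rT_eq_iff.1 h)]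
    · rw [if_neg h, if_neg fun h' => h (rT_eq_iff.2 h')]

lemma gibbs_le (hw : Wt w) (U : Fin n → ℝ) :
    mean w (fun x => log (mT Tᶜ w x)) ≤ mean w fun x => log (prob w x) - LB T U x := by
  have h1 : mean w (fun x => mT Tᶜ w x * exp (LB T U x) / prob w x) ≤ 1 := by
    have e : ∑ x, mT Tᶜ w x * exp (LB T U x) = 1 := by
      simp only [mT, push, ← mean_mul_const]
      rw [← mean_sum]
      simp only [sum_fibre]
      exact hw.mean_const 1
    rw [← e]
    refine sum_le_sum fun x _ => ?_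
    rcases eq_or_ne (prob w x) 0 with h | h
    · rw [h, zero_mul]; exact mul_nonneg (mT_nonneg hw x) (exp_pos _).le
    · rw [mul_div_cancel₀ _ h]
  have h2 : mean w (fun x => log (mT Tᶜ w x)) ≤ mean w fun x =>
      log (prob w x) - LB T U x + (mT Tᶜ w x * exp (LB T U x) / prob w x - 1) :=
    mean_mono_supp hw fun x hx => by
      have p1 := mT_pos (T := Tᶜ) hw hx
      have p2 : 0 < prob w x := div_pos (hw.pos_of_ne x hx) hw.pos
      have := log_le_sub_one_of_pos (show 0 < mT Tᶜ w x * exp (LB T U x) / prob w x by positivity)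
      rw [log_div (by positivity) p2.ne', log_mul p1.ne' (exp_pos _).ne', log_exp] at this
      linarith
  rw [mean_add, mean_sub w _ fun _ => 1, hw.mean_const] at h2
  linarith

/-- positive on the `T`-fibres of its support -/
def FibPos (T : Finset (Fin n)) (w : Cube n → ℝ) : Prop :=
  ∀ x, w x ≠ 0 → ∀ s, 0 < w (T.piecewise s x)

lemma FibPos.edge (h : Pr v w) (hf : FibPos T w) : EdgePos T v w := fun k hk x hx b => by
  have := hf x (h.pos hx).2.ne' (update x k b)
  rwa [show T.piecewise (update x k b) x = update x k b from funext fun i => by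
    by_cases hi : i ∈ T
    · exact piecewise_eq_of_mem _ _ _ hi
    · rw [piecewise_eq_of_notMem _ _ _ hi, update_of_ne (ne_of_mem_of_not_mem hk hi).symm]] at this

lemma LB_piece (U : Fin n → ℝ) (s x : Cube n) : LB T U (T.piecewise s x) = LB T U s :=
  sum_congr rfl fun i hi => by rw [piecewise_eq_of_mem _ _ _ hi]

theorem marg_ge (hw : Wt w) (hf : FibPos T w) (U : Fin n → ℝ) (s : Cube n) :
    LB T U s - log (mT T w s) ≤ mean w (fun x => log (w x) - LB T U x) -
      mean w fun x => log (w (T.piecewise s x)) - LB T U (T.piecewise s x) := by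
  have pp : ∀ x, w x ≠ 0 → 0 < prob w (T.piecewise s x) / mT Tᶜ w x := fun x hx =>
    div_pos (div_pos (hf x hx s) hw.pos) (mT_pos hw hx)
  have h1 := mean_le_log hw fun x => log (prob w (T.piecewise s x) / mT Tᶜ w x)
  rw [mean_congr_supp (v := w) (f := fun x => exp (log _)) fun x hx => exp_log (pp x hx)] at h1
  have h0 : 0 < mean w fun x => prob w (T.piecewise s x) / mT Tᶜ w x := by
    rw [← mean_congr_supp (v := w) (f := fun x => exp (log _)) fun x hx => exp_log (pp x hx)]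
    exact mean_pos' hw fun _ => exp_pos _
  have h2 := h1.trans (log_le_log h0 (tower_le hw s))
  rw [mean_congr_supp (v := w) (g := fun x => log (w (T.piecewise s x)) - log (∑ y, w y) -
    log (mT Tᶜ w x)) fun x hx => by
      rw [prob, log_div (div_pos (hf x hx s) hw.pos).ne' (mT_pos hw hx).ne',
        log_div (hf x hx s).ne' hw.pos.ne'], mean_sub, mean_sub, hw.mean_const] at h2
  have h3 := gibbs_le (T := T) hw U
  rw [mean_congr_supp (v := w) (f := fun x => log (prob w x) - LB T U x)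
    (g := fun x => log (w x) - LB T U x - log (∑ y, w y)) fun x hx => by
      rw [prob, log_div hx hw.pos.ne']; ring, mean_sub, hw.mean_const] at h3
  simp only [LB_piece]
  rw [mean_sub w _ fun _ => LB T U s, hw.mean_const]
  linarith

lemma mean_swap {A B : Type*} [Fintype A] [Fintype B] (μ : A → ℝ) (ν : B → ℝ) (F : A → B → ℝ) :
    mean μ (fun a => mean ν fun b => F a b) = mean ν fun b => mean μ fun a => F a b :=
  Ent.mean_comm (prob μ) (prob ν) F

/-- **the error of the reveal on the side of the reference law** -/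
theorem pi_side (hv : Wt v) (hw : Wt w) (hf : FibPos T w) (U : Fin n → ℝ) :
    mean v (fun x => LB T U x - log (mT T w x)) ≤
      mean w (fun x => log (w x) - LB T U x) - pm T v w fun x => log (w x) - LB T U x := by
  refine (hv.mean_mono fun s => marg_ge hw hf U s).trans ?_
  rw [mean_sub, hv.mean_const, pm, mean_swap]

end Crest.Agent.T157.S2t

end
end

-- ▼ part T157/S2Ou_51
section

/-!
# Row 157, part B, S2 (helper51): the one-dimensional Stein equation, the channel inequality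

`ou k p m s x = ∫_0^{π/2} cos θ sin^k θ E p (m + sin θ (x - m) + cos θ s Z) dθ`.
`f = -ou 0 φ' m s` solves `s² f' x - (x - m) f x = φ x - E φ (m + s Z)`.
-/

set_option autoImplicit false

noncomputable section

namespace Crest.Agent.T157.S2t

open Real MeasureTheory ProbabilityTheory Filter Topology
open Crest.Agent.T157.Hd

/-- bounded and continuous -/
structure BC (p : ℝ → ℝ) (M : ℝ) : Prop where
  cont : Continuous p
  bd : ∀ x, |p x| ≤ M

/-- `E p (a + c Z)` -/
def Ep (p : ℝ → ℝ) (a c : ℝ) : ℝ := ∫ z, p (a + c * z) ∂gaussianReal 0 1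

/-- Ornstein–Uhlenbeck resolvent and its derivatives -/
def ou (k : ℕ) (p : ℝ → ℝ) (m s x : ℝ) : ℝ :=
  ∫ θ in (0 : ℝ)..π / 2, cos θ * sin θ ^ k * Ep p (m + sin θ * (x - m)) (cos θ * s)

variable {p p1 p2 p3 : ℝ → ℝ} {M M1 M2 M3 : ℝ}

lemma BC.nn (h : BC p M) : 0 ≤ M := (abs_nonneg _).trans (h.bd 0)

lemma BC.int (h : BC p M) (a c : ℝ) : Integrable (fun z => p (a + c * z)) (gaussianReal 0 1) :=
  (integrable_const M).mono' (h.cont.comp (by fun_prop)).aestronglyMeasurable
    (.of_forall fun _ => h.bd _)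

lemma int_abs : Integrable (fun z : ℝ => |z|) (gaussianReal 0 1) :=
  (memLp_one_iff_integrable.1 (memLp_id_gaussianReal' 1 (by simp))).abs

lemma BC.int_mul (h : BC p M) (a c : ℝ) :
    Integrable (fun z => z * p (a + c * z)) (gaussianReal 0 1) :=
  (int_abs.mul_const M).mono'
    (continuous_id.mul (h.cont.comp (by fun_prop))).aestronglyMeasurable
    (.of_forall fun z => by
      rw [Real.norm_eq_abs, abs_mul]; exact mul_le_mul_of_nonneg_left (h.bd _) (abs_nonneg _))

lemma BC.abs_Ep (h : BC p M) (a c : ℝ) : |Ep p a c| ≤ M := by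
  simpa [Ep] using norm_integral_le_of_norm_le_const (μ := gaussianReal 0 1)
    (f := fun z => p (a + c * z)) (C := M) (.of_forall fun _ => h.bd _)

lemma BC.cont_Ep (h : BC p M) {X : Type*} [TopologicalSpace X] [FirstCountableTopology X]
    {a c : X → ℝ} (ha : Continuous a) (hc : Continuous c) : Continuous fun t => Ep p (a t) (c t) :=
  continuous_of_dominated (bound := fun _ => M)
    (fun t => (h.int _ _).aestronglyMeasurable) (fun _ => .of_forall fun _ => h.bd _)
    (integrable_const M) (.of_forall fun z => h.cont.comp (by fun_prop))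

lemma Ep_zero (p : ℝ → ℝ) (a : ℝ) : Ep p a 0 = p a := by simp [Ep]

lemma Ep_stein (h1 : BC p1 M1) (h2 : BC p2 M2) (d : ∀ x, HasDerivAt p1 (p2 x) x) (a c : ℝ) :
    ∫ z, z * p1 (a + c * z) ∂gaussianReal 0 1 = c * Ep p2 a c := by
  rw [Ep, ← integral_const_mul]
  exact SL.stein1 (f := fun z => p1 (a + c * z)) (f' := fun z => c * p2 (a + c * z))
    (fun z => ((d _).comp z (((hasDerivAt_id z).const_mul c).const_add a)).congr_deriv
      (by simp [mul_comm])) (h1.int a c) ((h2.int a c).const_mul c) (h1.int_mul a c)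

lemma hasDerivAt_Ep (h : BC p M) (h1 : BC p1 M1) (d : ∀ x, HasDerivAt p (p1 x) x)
    {a c a' c' : ℝ → ℝ} {A C : ℝ} (ha : ∀ t, HasDerivAt a (a' t) t) (hc : ∀ t, HasDerivAt c (c' t) t)
    (hA : ∀ t, |a' t| ≤ A) (hC : ∀ t, |c' t| ≤ C) (t : ℝ) :
    HasDerivAt (fun t => Ep p (a t) (c t))
      (a' t * Ep p1 (a t) (c t) + c' t * ∫ z, z * p1 (a t + c t * z) ∂gaussianReal 0 1) t := by
  have i1 := (h1.int (a t) (c t)).const_mul (a' t)
  have i2 := (h1.int_mul (a t) (c t)).const_mul (c' t)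
  have := (hasDerivAt_integral_of_dominated_loc_of_deriv_le (μ := gaussianReal 0 1)
    (F := fun t z => p (a t + c t * z))
    (F' := fun t z => a' t * p1 (a t + c t * z) + c' t * (z * p1 (a t + c t * z)))
    (x₀ := t) (s := Set.univ) (bound := fun z => A * M1 + C * (|z| * M1)) univ_mem
    (.of_forall fun t => (h.int _ _).aestronglyMeasurable) (h.int _ _)
    (i1.add i2).aestronglyMeasurable
    (.of_forall fun z t _ => by
      have b := h1.bd (a t + c t * z)
      have hA0 : 0 ≤ A := (abs_nonneg _).trans (hA t)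
      have hC0 : 0 ≤ C := (abs_nonneg _).trans (hC t)
      refine (abs_add_le _ _).trans (add_le_add ?_ ?_)
      · rw [abs_mul]; exact mul_le_mul (hA t) b (abs_nonneg _) hA0
      · rw [abs_mul, abs_mul]
        exact mul_le_mul (hC t) (mul_le_mul_of_nonneg_left b (abs_nonneg _)) (by positivity) hC0)
    ((integrable_const _).add ((int_abs.mul_const M1).const_mul C))
    (.of_forall fun z t _ => ((d _).comp t ((ha t).add ((hc t).mul_const z))).congr_deriv
      (by simp only [Pi.add_apply]; ring))).2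
  rwa [integral_add i1 i2, integral_const_mul, integral_const_mul] at this

lemma BC.cont_ou (h : BC p M) (k : ℕ) (m s x : ℝ) :
    Continuous fun θ => cos θ * sin θ ^ k * Ep p (m + sin θ * (x - m)) (cos θ * s) :=
  (continuous_cos.mul (continuous_sin.pow k)).mul (h.cont_Ep (by fun_prop) (by fun_prop))

lemma abs_cs_le (k : ℕ) (θ : ℝ) : |cos θ * sin θ ^ k| ≤ |cos θ| := by
  rw [abs_mul, abs_pow]
  exact mul_le_of_le_one_right (abs_nonneg _) (pow_le_one₀ (abs_nonneg _) (abs_sin_le_one θ))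

/-- bound from a bound along the segment -/
theorem abs_ou_le (k : ℕ) {m s x B : ℝ}
    (hB : ∀ θ, |Ep p (m + sin θ * (x - m)) (cos θ * s)| ≤ B) : |ou k p m s x| ≤ B := by
  have := intervalIntegral.norm_integral_le_of_norm_le (a := 0) (b := π / 2) (μ := volume)
    (f := fun θ => cos θ * sin θ ^ k * Ep p (m + sin θ * (x - m)) (cos θ * s))
    (g := fun θ => cos θ * B) (by positivity) (.of_forall fun θ hθ => by
      have hc : 0 ≤ cos θ := cos_nonneg_of_mem_Icc ⟨by linarith [hθ.1, pi_pos], hθ.2⟩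
      rw [Real.norm_eq_abs, abs_mul]
      exact mul_le_mul ((abs_cs_le k θ).trans_eq (abs_of_nonneg hc)) (hB θ) (abs_nonneg _) hc)
    ((continuous_cos.mul continuous_const).intervalIntegrable _ _)
  rw [intervalIntegral.integral_mul_const, integral_cos] at this
  simpa [ou] using this

theorem BC.abs_ou (h : BC p M) (k : ℕ) (m s x : ℝ) : |ou k p m s x| ≤ M :=
  abs_ou_le k fun _ => h.abs_Ep _ _


lemma abs_Ep_loc {m μ κ : ℝ} (hμ : 0 ≤ μ) (hκ : 0 ≤ κ) (hp : ∀ y, |p (m + y)| ≤ μ * exp (κ * |y|))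
    (y c : ℝ) : |Ep p (m + y) c| ≤ 2 * exp (κ ^ 2 * c ^ 2 / 2) * (μ * exp (κ * |y|)) := by
  have i := ((integrable_cosh 0 (κ * c)).const_mul 2).const_mul (μ * exp (κ * |y|))
  refine (norm_integral_le_of_norm_le (f := fun z => p (m + y + c * z)) i
    (.of_forall fun z => ?_)).trans_eq ?_
  · rw [Real.norm_eq_abs, add_assoc]
    refine (hp _).trans ?_
    rw [mul_assoc μ, zero_add]
    refine mul_le_mul_of_nonneg_left ?_ hμ
    refine le_trans ?_ (mul_le_mul_of_nonneg_left (exp_abs_le_cosh _) (exp_pos _).le)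
    rw [← exp_add, exp_le_exp, mul_assoc, abs_mul κ, abs_of_nonneg hκ, ← mul_add]
    exact mul_le_mul_of_nonneg_left (abs_add_le _ _) hκ
  · rw [integral_const_mul, integral_const_mul, int_cosh, cosh_zero, mul_pow]; ring

/-- local bound -/
theorem abs_ou_loc (k : ℕ) {m μ κ : ℝ} (hμ : 0 ≤ μ) (hκ : 0 ≤ κ)
    (hp : ∀ y, |p (m + y)| ≤ μ * exp (κ * |y|)) (s x : ℝ) :
    |ou k p m s x| ≤ 2 * exp (κ ^ 2 * s ^ 2 / 2) * (μ * exp (κ * |x - m|)) := by
  refine abs_ou_le k fun θ => (abs_Ep_loc hμ hκ hp _ _).trans ?_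
  have h1 : (cos θ * s) ^ 2 ≤ s ^ 2 := by
    rw [mul_pow]; exact mul_le_of_le_one_left (sq_nonneg _) (cos_sq_le_one θ)
  have h2 : |sin θ * (x - m)| ≤ |x - m| := by
    rw [abs_mul]; exact mul_le_of_le_one_left (abs_nonneg _) (abs_sin_le_one θ)
  gcongr

theorem hasDerivAt_ou (h : BC p M) (h1 : BC p1 M1) (d : ∀ x, HasDerivAt p (p1 x) x) (k : ℕ)
    (m s x : ℝ) : HasDerivAt (ou k p m s) (ou (k + 1) p1 m s x) x :=
  (intervalIntegral.hasDerivAt_integral_of_dominated_loc_of_deriv_le (μ := volume) (a := 0)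
    (b := π / 2)
    (F := fun x θ => cos θ * sin θ ^ k * Ep p (m + sin θ * (x - m)) (cos θ * s))
    (F' := fun x θ => cos θ * sin θ ^ (k + 1) * Ep p1 (m + sin θ * (x - m)) (cos θ * s))
    (x₀ := x) (s := Set.univ) (bound := fun _ => M1) univ_mem
    (.of_forall fun x => (h.cont_ou k m s x).aestronglyMeasurable)
    ((h.cont_ou k m s x).intervalIntegrable _ _) (h1.cont_ou (k + 1) m s x).aestronglyMeasurable
    (.of_forall fun θ _ x _ => by
      rw [Real.norm_eq_abs, abs_mul, ← one_mul M1]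
      exact mul_le_mul ((abs_cs_le _ θ).trans (abs_cos_le_one θ)) (h1.abs_Ep _ _) (abs_nonneg _)
        zero_le_one)
    intervalIntegrable_const
    (.of_forall fun θ _ x _ => by
      have := hasDerivAt_Ep h h1 d (a := fun x => m + sin θ * (x - m)) (c := fun _ => cos θ * s)
        (a' := fun _ => sin θ) (c' := fun _ => 0) (A := 1) (C := 0)
        (fun t => ((((hasDerivAt_id t).sub_const m).const_mul (sin θ)).const_add m).congr_deriv
          (mul_one _)) (fun t => hasDerivAt_const t _) (fun _ => abs_sin_le_one θ) (by simp) x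
      exact (this.const_mul (cos θ * sin θ ^ k)).congr_deriv (by ring))).2

theorem BC.ou (h : BC p M) (k : ℕ) (m s : ℝ) : BC (ou k p m s) M where
  cont := by
    refine intervalIntegral.continuous_parametric_intervalIntegral_of_continuous' (μ := volume)
      (f := fun x θ => cos θ * sin θ ^ k * Ep p (m + sin θ * (x - m)) (cos θ * s)) ?_ _ _
    exact (Continuous.mul (by fun_prop) (by fun_prop)).mul
      (h.cont_Ep (a := fun q : ℝ × ℝ => m + sin q.2 * (q.1 - m)) (c := fun q => cos q.2 * s)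
        (by fun_prop) (by fun_prop))
  bd := h.abs_ou k m s

/-- **the Stein equation** of `N (m, s²)` -/
theorem ou_stein (h : BC p M) (h1 : BC p1 M1) (h2 : BC p2 M2) (d : ∀ x, HasDerivAt p (p1 x) x)
    (d1 : ∀ x, HasDerivAt p1 (p2 x) x) (m s x : ℝ) :
    (x - m) * ou 0 p1 m s x - s ^ 2 * ou 1 p2 m s x = p x - Ep p m s := by
  have i0 := (h1.cont_ou 0 m s x).intervalIntegrable (μ := volume) 0 (π / 2)
  have i1 := (h2.cont_ou 1 m s x).intervalIntegrable (μ := volume) 0 (π / 2)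
  have := intervalIntegral.integral_eq_sub_of_hasDerivAt (a := 0) (b := π / 2)
    (f := fun θ => Ep p (m + sin θ * (x - m)) (cos θ * s))
    (f' := fun θ => (x - m) * (cos θ * sin θ ^ 0 * Ep p1 (m + sin θ * (x - m)) (cos θ * s)) -
      s ^ 2 * (cos θ * sin θ ^ 1 * Ep p2 (m + sin θ * (x - m)) (cos θ * s)))
    (fun θ _ => by
      have := hasDerivAt_Ep h h1 d (a := fun θ => m + sin θ * (x - m)) (c := fun θ => cos θ * s)
        (a' := fun θ => cos θ * (x - m)) (c' := fun θ => -sin θ * s) (A := |x - m|) (C := |s|)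
        (fun t => ((hasDerivAt_sin t).mul_const _).const_add m)
        (fun t => (hasDerivAt_cos t).mul_const _)
        (fun t => by rw [abs_mul]; exact mul_le_of_le_one_left (abs_nonneg _) (abs_cos_le_one t))
        (fun t => by
          rw [abs_mul, abs_neg]; exact mul_le_of_le_one_left (abs_nonneg _) (abs_sin_le_one t)) θ
      rw [Ep_stein h1 h2 d1] at this
      exact this.congr_deriv (by ring))
    ((i0.const_mul _).sub (i1.const_mul _))
  rw [intervalIntegral.integral_sub (i0.const_mul _) (i1.const_mul _),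
    intervalIntegral.integral_const_mul, intervalIntegral.integral_const_mul] at this
  simpa [ou, Ep_zero] using this

/-- packaged form: a `C²` solution with global and local bounds -/
theorem exists_stein (h : BC p M) (h1 : BC p1 M1) (h2 : BC p2 M2) (h3 : BC p3 M3)
    (d : ∀ x, HasDerivAt p (p1 x) x) (d1 : ∀ x, HasDerivAt p1 (p2 x) x)
    (d2 : ∀ x, HasDerivAt p2 (p3 x) x) (m s : ℝ) :
    ∃ f f1 f2 : ℝ → ℝ, (∀ x, HasDerivAt f (f1 x) x) ∧ (∀ x, HasDerivAt f1 (f2 x) x) ∧
      BC f M1 ∧ BC f1 M2 ∧ BC f2 M3 ∧ (∀ x, (x - m) * f x - s ^ 2 * f1 x = p x - Ep p m s) ∧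
      ∀ μ κ, 0 ≤ μ → 0 ≤ κ → (∀ y, |p1 (m + y)| ≤ μ * exp (κ * |y|)) →
        ∀ x, |f x| ≤ 2 * exp (κ ^ 2 * s ^ 2 / 2) * (μ * exp (κ * |x - m|)) :=
  ⟨ou 0 p1 m s, ou 1 p2 m s, ou 2 p3 m s, hasDerivAt_ou h1 h2 d1 0 m s, hasDerivAt_ou h2 h3 d2 1 m s,
    h1.ou 0 m s, h2.ou 1 m s, h3.ou 2 m s, ou_stein h h1 h2 d d1 m s,
    fun _ _ hμ hκ hp x => abs_ou_loc 0 hμ hκ hp s x⟩

/-! ### the test function `Λ` -/

lemma hasDerivAt_tanh2 (x : ℝ) : HasDerivAt tanh (1 - tanh x ^ 2) x :=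
  (hasDerivAt_tanh' x).congr_deriv (by
    have := (cosh_pos x).ne'
    rw [tanh_eq_sinh_div_cosh]; field_simp; linear_combination -cosh_sq x)

lemma continuous_tanh' : Continuous tanh :=
  continuous_iff_continuousAt.2 fun x => (hasDerivAt_tanh' x).continuousAt

/-- `Λ'` -/
def L1 (l u : ℝ) : ℝ := tanh (u + l) - tanh u
/-- `Λ''` -/
def L2 (l u : ℝ) : ℝ := tanh u ^ 2 - tanh (u + l) ^ 2
/-- `Λ'''` -/
def L3 (l u : ℝ) : ℝ := 2 * (tanh u - tanh u ^ 3) - 2 * (tanh (u + l) - tanh (u + l) ^ 3)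

lemma d_L1 (l u : ℝ) : HasDerivAt (L1 l) (L2 l u) u := by
  have h := (hasDerivAt_tanh2 (u + l)).comp u ((hasDerivAt_id u).add_const l)
  exact (h.sub (hasDerivAt_tanh2 u)).congr_deriv (by simp [L2])

lemma d_L2 (l u : ℝ) : HasDerivAt (L2 l) (L3 l u) u := by
  have h := (hasDerivAt_tanh2 (u + l)).comp u ((hasDerivAt_id u).add_const l)
  exact (((hasDerivAt_tanh2 u).pow 2).sub (h.pow 2)).congr_deriv (by simp [L3]; ring)

lemma abs_L1_le (l u : ℝ) : |L1 l u| ≤ 2 := by
  have h1 := abs_lt.1 (abs_tanh_lt u)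
  have h2 := abs_lt.1 (abs_tanh_lt (u + l))
  rw [L1, abs_le]; constructor <;> linarith [h1.1, h1.2, h2.1, h2.2]

lemma abs_L2_le (l u : ℝ) : |L2 l u| ≤ 2 * |L1 l u| := by
  have h1 := abs_lt.1 (abs_tanh_lt u)
  have h2 := abs_lt.1 (abs_tanh_lt (u + l))
  rw [show L2 l u = -(tanh (u + l) + tanh u) * L1 l u by rw [L2, L1]; ring, abs_mul, abs_neg]
  refine mul_le_mul_of_nonneg_right (abs_le.2 ⟨?_, ?_⟩) (abs_nonneg _) <;>
    linarith [h1.1, h1.2, h2.1, h2.2]

lemma abs_L3_le (l u : ℝ) : |L3 l u| ≤ 4 * |L1 l u| := by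
  have h1 := abs_lt.1 (abs_tanh_lt u)
  have h2 := abs_lt.1 (abs_tanh_lt (u + l))
  rw [show L3 l u = 2 * (tanh (u + l) ^ 2 + tanh (u + l) * tanh u + tanh u ^ 2 - 1) * L1 l u by
    rw [L3, L1]; ring, abs_mul]
  refine mul_le_mul_of_nonneg_right (abs_le.2 ⟨?_, ?_⟩) (abs_nonneg _)
  · nlinarith [sq_nonneg (tanh (u + l) + tanh u), sq_nonneg (tanh u), sq_nonneg (tanh (u + l))]
  · nlinarith [h1.1, h1.2, h2.1, h2.2, sq_nonneg (tanh (u + l) - tanh u)]

lemma bc_Lam (l b : ℝ) : BC (fun h => Lam l (b + h)) |l| :=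
  ⟨(continuous_Lam l).comp (by fun_prop), fun _ => abs_lc_sub _ _⟩
lemma bc_L1 (l b : ℝ) : BC (fun h => L1 l (b + h)) 2 :=
  ⟨by have := continuous_tanh'; unfold L1; fun_prop, fun _ => abs_L1_le _ _⟩
lemma bc_L2 (l b : ℝ) : BC (fun h => L2 l (b + h)) 4 :=
  ⟨by have := continuous_tanh'; unfold L2; fun_prop,
    fun x => (abs_L2_le _ _).trans (by linarith [abs_L1_le l (b + x)])⟩
lemma bc_L3 (l b : ℝ) : BC (fun h => L3 l (b + h)) 8 :=
  ⟨by have := continuous_tanh'; unfold L3; fun_prop,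
    fun x => (abs_L3_le _ _).trans (by linarith [abs_L1_le l (b + x)])⟩

/-- Stein solution for `Λ (b + ·)` and `N (m, s²)`; `μ` is measured at any centre `c` -/
theorem stein_Lam (l b m s c : ℝ) :
    ∃ f f1 f2 : ℝ → ℝ, (∀ x, HasDerivAt f (f1 x) x) ∧ (∀ x, HasDerivAt f1 (f2 x) x) ∧
      BC f 2 ∧ BC f1 4 ∧ BC f2 8 ∧
      (∀ x, (x - m) * f x - s ^ 2 * f1 x = Lam l (b + x) - Ep (fun h => Lam l (b + h)) m s) ∧
      ∀ x, |f x| ≤ 2 * exp (2 * s ^ 2 + 4 * |m - c|) * (|L1 l (b + c)| * exp (2 * |x - c|)) := by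
  obtain ⟨f, f1, f2, a1, a2, a3, a4, a5, a6, a7⟩ := exists_stein (bc_Lam l b) (bc_L1 l b) (bc_L2 l b)
    (bc_L3 l b) (fun x => (hasDerivAt_Lam l (b + x)).comp_const_add b x)
    (fun x => (d_L1 l (b + x)).comp_const_add b x) (fun x => (d_L2 l (b + x)).comp_const_add b x) m s
  refine ⟨f, f1, f2, a1, a2, a3, a4, a5, a6, fun x => ?_⟩
  refine (a7 (|L1 l (b + c)| * exp (2 * |m - c|)) 2 (by positivity) zero_le_two (fun y => ?_) x).trans ?_
  · have := abs_dLam_le l (b + c) (m - c + y)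
    rw [show b + c + (m - c + y) = b + (m + y) by ring] at this
    refine this.trans ?_
    rw [mul_assoc, ← exp_add]
    exact mul_le_mul_of_nonneg_left (exp_le_exp.2 (by linarith [abs_add_le (m - c) y]))
      (abs_nonneg _)
  · have : |x - m| ≤ |x - c| + |m - c| := by
      have := abs_sub_le x c m
      rwa [abs_sub_comm c m] at this
    have e : ∀ a b' : ℝ, 2 * exp a * (|L1 l (b + c)| * exp b') = 2 * |L1 l (b + c)| * exp (a + b') :=
      fun a b' => by rw [exp_add]; ring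
    rw [mul_assoc (|L1 l (b + c)|), ← exp_add, e, e]
    exact mul_le_mul_of_nonneg_left (exp_le_exp.2 (by linarith)) (by positivity)

/-! ### the channel inequality -/

lemma shift_gauss {F : ℝ → ℝ} (c : ℝ) :
    ∫ z, F (c + z) ∂gaussianReal 0 1 = ∫ z, exp (c * z - c ^ 2 / 2) * F z ∂gaussianReal 0 1 := by
  have h := pin_shift (P := 0) le_rfl c 0 1 F
  simp only [mh, sh, kp, zero_mul, zero_div, neg_zero, zero_add, one_mul, add_zero, sqrt_one,
    div_one, one_pow, sub_zero, mul_zero, mul_one] at h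
  simp only [exp_sub, div_mul_eq_mul_div]
  rw [integral_div, h, mul_div_cancel_left₀ _ (exp_pos _).ne']

/-- summing out the spin: the law of `h = s² σ + s Z`, `σ` with half log-odds `w` -/
theorem spin_out (h : BC p M) (w m s : ℝ) :
    (1 + tanh w) / 2 * Ep p (m + s ^ 2) s + (1 - tanh w) / 2 * Ep p (m - s ^ 2) s =
      exp (-(s ^ 2 / 2)) * ∫ z, cosh (w + s * z) / cosh w * p (m + s * z) ∂gaussianReal 0 1 := by
  have i : ∀ c, Integrable (fun z => exp (c * z - c ^ 2 / 2) * p (m + s * z)) (gaussianReal 0 1) :=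
    fun c => by
      simp only [exp_sub]
      exact (((integrable_exp_mul_gaussianReal c).div_const _).bdd_mul
        (h.int m s).aestronglyMeasurable (c := M) (.of_forall fun _ => h.bd _)).congr
          (.of_forall fun z => mul_comm _ _)
  have e1 : Ep p (m + s ^ 2) s = ∫ z, exp (s * z - s ^ 2 / 2) * p (m + s * z) ∂gaussianReal 0 1 := by
    rw [← shift_gauss (F := fun z => p (m + s * z)), Ep]
    congr 1; funext z; congr 1; ring
  have e2 : Ep p (m - s ^ 2) s =
      ∫ z, exp (-s * z - (-s) ^ 2 / 2) * p (m + s * z) ∂gaussianReal 0 1 := by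
    rw [← shift_gauss (F := fun z => p (m + s * z)), Ep]
    congr 1; funext z; congr 1; ring
  rw [e1, e2, ← integral_const_mul, ← integral_const_mul, ← integral_const_mul,
    ← integral_add ((i s).const_mul _) ((i (-s)).const_mul _)]
  congr 1; funext z
  rw [cosh_div, cosh_eq, sinh_eq, neg_sq, sub_eq_add_neg (s * z), sub_eq_add_neg (-s * z), exp_add,
    exp_add, neg_mul]
  ring

lemma pt_channel (u l z : ℝ) {s : ℝ} (hs : 0 ≤ s) (hs1 : s ≤ 1) :
    cosh (u + l + s * z) / cosh (u + l) * Lam l (u + s * z) ≤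
      (1 + Lam l u) * (cosh (u + l + s * z) / cosh (u + l)) - cosh (u + s * z) / cosh u +
        s ^ 2 * L1 l u ^ 2 * (4 * cosh (0 + 8 * z)) := by
  set X := Lam l (u + s * z) - Lam l u with hX
  set e := exp |z| with he
  have he1 : 1 ≤ e := one_le_exp (abs_nonneg _)
  have hz : |s * z| ≤ |z| := by
    rw [abs_mul, abs_of_nonneg hs]; exact mul_le_of_le_one_left (abs_nonneg _) hs1
  have hsz : |s * z| = s * |z| := by rw [abs_mul, abs_of_nonneg hs]
  have e2 : exp (2 * |z|) = e ^ 2 := by rw [← exp_nat_mul]; norm_num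
  have hX1 : |X| ≤ |L1 l u| * e ^ 2 * (s * |z|) := by
    refine (abs_Lam_sub l u (s * z)).trans ?_
    rw [← hsz, ← e2, L1]
    gcongr
  set r := cosh (u + l + s * z) / cosh (u + l) with hr
  set r0 := cosh (u + s * z) / cosh u with hr0
  have hr0p : 0 < r0 := div_pos (cosh_pos _) (cosh_pos _)
  have hdiff : |r - r0| ≤ |L1 l u| * (s * |z| * e) := by
    rw [hr, hr0, cosh_div, cosh_div, show cosh (s * z) + tanh (u + l) * sinh (s * z) -
      (cosh (s * z) + tanh u * sinh (s * z)) = L1 l u * sinh (s * z) by rw [L1]; ring, abs_mul]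
    refine mul_le_mul_of_nonneg_left ((abs_sinh_le _).trans ?_) (abs_nonneg _)
    rw [← hsz]
    exact mul_le_mul_of_nonneg_left (exp_le_exp.2 hz) (abs_nonneg _)
  have hex : r0 * exp X = r := by
    rw [hX, Lam, Lam, exp_sub, exp_sub, exp_sub, lc, lc, lc, lc, exp_log (cosh_pos _),
      exp_log (cosh_pos _), exp_log (cosh_pos _), exp_log (cosh_pos _), hr0, hr,
      show u + s * z + l = u + l + s * z by ring]
    have := (cosh_pos u).ne'
    have := (cosh_pos (u + l)).ne'
    have := (cosh_pos (u + s * z)).ne'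
    field_simp
  have hz2 : |z| ^ 2 * e ^ 3 ≤ 4 * cosh (0 + 8 * z) := by
    have h1 : |z| ^ 2 ≤ 2 * e := by
      have := quadratic_le_exp_of_nonneg (abs_nonneg z)
      linarith [abs_nonneg z]
    have h2 := exp_abs_le_cosh (8 * z)
    have h3 : exp |8 * z| = e ^ 8 := by
      rw [abs_mul, he, ← exp_nat_mul]; norm_num
    have h4 : e ^ 4 ≤ e ^ 8 := pow_le_pow_right₀ he1 (by norm_num)
    rw [zero_add]
    calc |z| ^ 2 * e ^ 3 ≤ 2 * e * e ^ 3 := by gcongr
      _ = 2 * e ^ 4 := by ring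
      _ ≤ _ := by linarith
  have a1 : r0 * X ≤ r - r0 := by nlinarith [add_one_le_exp X]
  have a2 : (r - r0) * X ≤ |L1 l u| * (s * |z| * e) * (|L1 l u| * e ^ 2 * (s * |z|)) := by
    refine (le_abs_self _).trans ?_
    rw [abs_mul]
    exact mul_le_mul hdiff hX1 (abs_nonneg _) (by positivity)
  have a3 : |L1 l u| * (s * |z| * e) * (|L1 l u| * e ^ 2 * (s * |z|)) =
      s ^ 2 * L1 l u ^ 2 * (|z| ^ 2 * e ^ 3) := by rw [← sq_abs (L1 l u)]; ring
  have a4 := mul_le_mul_of_nonneg_left hz2 (show 0 ≤ s ^ 2 * L1 l u ^ 2 by positivity)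
  have a5 : r * Lam l (u + s * z) = r * X + Lam l u * r := by rw [hX]; ring
  linarith

/-- **channel inequality**: the relative entropy after the Gaussian channel -/
theorem channel (u l : ℝ) {s : ℝ} (hs : 0 ≤ s) (hs1 : s ≤ 1) :
    (1 + tanh (u + l)) / 2 * Ep (Lam l) (u + s ^ 2) s +
      (1 - tanh (u + l)) / 2 * Ep (Lam l) (u - s ^ 2) s ≤ Lam l u + Ctp * s ^ 2 * L1 l u ^ 2 := by
  have hb : BC (Lam l) |l| := ⟨continuous_Lam l, fun _ => abs_lc_sub _ _⟩
  rw [spin_out hb]
  have i1 := ((integrable_cosh (u + l) s).div_const (cosh (u + l)))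
  have i2 := (integrable_cosh u s).div_const (cosh u)
  have i3 := ((integrable_cosh 0 8).const_mul 4).const_mul (s ^ 2 * L1 l u ^ 2)
  have i0 : Integrable (fun z => cosh (u + l + s * z) / cosh (u + l) * Lam l (u + s * z))
      (gaussianReal 0 1) :=
    (i1.bdd_mul (hb.int u s).aestronglyMeasurable (c := |l|) (.of_forall fun _ => hb.bd _)).congr
      (.of_forall fun z => mul_comm _ _)
  have h := integral_mono i0 (((i1.const_mul (1 + Lam l u)).sub i2).add i3) fun z =>
    pt_channel u l z hs hs1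
  have e1 := integral_add ((i1.const_mul (1 + Lam l u)).sub i2) i3
  have e2 := integral_sub (i1.const_mul (1 + Lam l u)) i2
  simp only [Pi.add_apply, Pi.sub_apply] at h e1 e2
  rw [e1, e2, integral_const_mul, integral_const_mul, integral_const_mul, integral_div, integral_div,
    int_cosh, int_cosh, int_cosh, mul_div_cancel_left₀ _ (cosh_pos _).ne',
    mul_div_cancel_left₀ _ (cosh_pos _).ne', cosh_zero] at h
  refine (mul_le_mul_of_nonneg_left h (exp_pos _).le).trans ?_
  have h1 : exp (-(s ^ 2 / 2)) * exp (s ^ 2 / 2) = 1 := by rw [← exp_add]; simp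
  have h2 : exp (-(s ^ 2 / 2)) ≤ 1 := exp_le_one_iff.2 (neg_nonpos.2 (by positivity))
  have h3 : s ^ 2 * L1 l u ^ 2 * (4 * (1 * exp (8 ^ 2 / 2))) = Ctp * s ^ 2 * L1 l u ^ 2 := by
    rw [Ctp]; norm_num; ring
  have h4 : 0 ≤ Ctp * s ^ 2 * L1 l u ^ 2 := by have := Ctp_pos; positivity
  have h5 : exp (-(s ^ 2 / 2)) * ((1 + Lam l u) * exp (s ^ 2 / 2) - exp (s ^ 2 / 2)) = Lam l u := by
    linear_combination Lam l u * h1
  rw [h3, mul_add, h5]
  linarith [mul_le_mul_of_nonneg_right h2 h4]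


/-! ### the linear path -/



end Crest.Agent.T157.S2t

end
end

-- ▼ part T157/S2Ps_51
section

/-!
# Row 157, part B, S2 (helper51): the self-bounding test function

`Ψ = g / (1 + g)`, `g = a cosh (4 (x - c))`.
-/

set_option autoImplicit false

noncomputable section

namespace Crest.Agent.T157.S2t

open Real MeasureTheory ProbabilityTheory

/-- `1 / (1 + a cosh (4 (x - c)))` -/
def rr (a c x : ℝ) : ℝ := (1 + a * cosh (4 * (x - c)))⁻¹
/-- `Ψ` -/
def Ps (a c x : ℝ) : ℝ := 1 - rr a c x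
/-- first derivative -/
def Ps1 (a c x : ℝ) : ℝ := 4 * (a * sinh (4 * (x - c))) * rr a c x ^ 2
/-- second derivative -/
def Ps2 (a c x : ℝ) : ℝ :=
  16 * (a * cosh (4 * (x - c))) * rr a c x ^ 2 - 32 * (a * sinh (4 * (x - c))) ^ 2 * rr a c x ^ 3
/-- third derivative -/
def Ps3 (a c x : ℝ) : ℝ := 64 * (a * sinh (4 * (x - c))) * rr a c x ^ 2 -
  384 * ((a * cosh (4 * (x - c))) * (a * sinh (4 * (x - c)))) * rr a c x ^ 3 +
  384 * (a * sinh (4 * (x - c))) ^ 3 * rr a c x ^ 4

variable {a : ℝ} (ha : 0 ≤ a) (c x : ℝ)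

lemma d_ch : HasDerivAt (fun x => a * cosh (4 * (x - c))) (4 * (a * sinh (4 * (x - c)))) x :=
  ((((hasDerivAt_id x).sub_const c).const_mul 4).cosh.const_mul a).congr_deriv (by simp; ring)

lemma d_sh : HasDerivAt (fun x => a * sinh (4 * (x - c))) (4 * (a * cosh (4 * (x - c)))) x :=
  ((((hasDerivAt_id x).sub_const c).const_mul 4).sinh.const_mul a).congr_deriv (by simp; ring)

include ha

lemma den_pos : 0 < 1 + a * cosh (4 * (x - c)) := by have := cosh_pos (4 * (x - c)); positivity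

lemma rr_pos : 0 < rr a c x := inv_pos.2 (den_pos ha c x)

lemma rr_mul : rr a c x * (1 + a * cosh (4 * (x - c))) = 1 := inv_mul_cancel₀ (den_pos ha c x).ne'

lemma Ps_eq : Ps a c x = a * cosh (4 * (x - c)) * rr a c x := by
  rw [Ps]; linear_combination -rr_mul ha c x

lemma Ps_nn : 0 ≤ Ps a c x := by
  rw [Ps_eq ha]; have := cosh_pos (4 * (x - c)); have := rr_pos ha c x; positivity

lemma rr_le : rr a c x ≤ 1 := sub_nonneg.1 (Ps_nn ha c x)

lemma Ps_le_one : Ps a c x ≤ 1 := sub_le_self _ (rr_pos ha c x).le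

lemma Ps_le : Ps a c x ≤ a * cosh (4 * (x - c)) := by
  rw [Ps_eq ha]
  exact mul_le_of_le_one_right (mul_nonneg ha (cosh_pos _).le) (rr_le ha c x)

lemma min_le_Ps : min 1 (a * exp (4 * |x - c|)) ≤ 4 * Ps a c x := by
  have h1 := exp_abs_le_cosh (4 * (x - c))
  rw [abs_mul, abs_of_pos (by norm_num : (0 : ℝ) < 4)] at h1
  have h2 := mul_le_mul_of_nonneg_left h1 ha
  rcases le_total (rr a c x) (1 / 2) with h | h
  · exact (min_le_left _ _).trans (by rw [Ps]; linarith)
  · refine (min_le_right _ _).trans ?_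
    rw [Ps_eq ha]
    nlinarith [mul_nonneg (mul_nonneg ha (cosh_pos (4 * (x - c))).le) (sub_nonneg.2 h)]

lemma abs_sr_le : |a * sinh (4 * (x - c)) * rr a c x| ≤ Ps a c x := by
  rw [Ps_eq ha, abs_mul, abs_mul, abs_of_nonneg ha, abs_of_pos (rr_pos ha c x), abs_sinh,
    ← cosh_abs]
  exact mul_le_mul_of_nonneg_right (mul_le_mul_of_nonneg_left (sinh_lt_cosh _).le ha)
    (rr_pos ha c x).le

lemma d_rr : HasDerivAt (rr a c) (-(4 * (a * sinh (4 * (x - c))) * rr a c x ^ 2)) x :=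
  (((d_ch c x).const_add 1).inv (den_pos ha c x).ne').congr_deriv (by rw [rr]; field_simp)

lemma d_Ps : HasDerivAt (Ps a c) (Ps1 a c x) x :=
  ((d_rr ha c x).const_sub 1).congr_deriv (by rw [Ps1, neg_neg])

lemma d_Ps1 : HasDerivAt (Ps1 a c) (Ps2 a c x) x :=
  (((d_sh c x).const_mul 4).mul ((d_rr ha c x).pow 2)).congr_deriv (by
    simp only [Ps2, Pi.pow_apply]; push_cast; ring)

lemma d_Ps2 : HasDerivAt (Ps2 a c) (Ps3 a c x) x :=
  ((((d_ch c x).const_mul 16).mul ((d_rr ha c x).pow 2)).sub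
    ((((d_sh c x).pow 2).const_mul 32).mul ((d_rr ha c x).pow 3))).congr_deriv (by
    simp only [Ps3, Pi.pow_apply]; push_cast; ring)

lemma abs_Ps1_le : |Ps1 a c x| ≤ 4 * Ps a c x := by
  rw [show Ps1 a c x = 4 * rr a c x * (a * sinh (4 * (x - c)) * rr a c x) by rw [Ps1]; ring, abs_mul,
    abs_of_pos (by have := rr_pos ha c x; positivity)]
  exact mul_le_mul (by linarith [rr_le ha c x]) (abs_sr_le ha c x) (abs_nonneg _) (by norm_num)

lemma abs_Ps2_le : |Ps2 a c x| ≤ 48 := by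
  have h1 := abs_le.1 ((abs_sr_le ha c x).trans (Ps_le_one ha c x))
  have h2 := Ps_nn ha c x
  have h3 := Ps_le_one ha c x
  have h4 := rr_pos ha c x
  have h5 := rr_le ha c x
  rw [show Ps2 a c x = rr a c x * (16 * Ps a c x - 32 * (a * sinh (4 * (x - c)) * rr a c x) ^ 2) by
    rw [Ps2, Ps_eq ha]; ring, abs_mul, abs_of_pos h4]
  refine (mul_le_of_le_one_left (abs_nonneg _) h5).trans (abs_le.2 ⟨?_, ?_⟩) <;> nlinarith

lemma abs_Ps3_le : |Ps3 a c x| ≤ 832 := by
  have h0 := (abs_sr_le ha c x).trans (Ps_le_one ha c x)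
  have h1 := abs_le.1 h0
  have h2 := Ps_nn ha c x
  have h3 := Ps_le_one ha c x
  have h4 := rr_pos ha c x
  have h5 := rr_le ha c x
  rw [show Ps3 a c x = rr a c x * (a * sinh (4 * (x - c)) * rr a c x) *
    (64 - 384 * Ps a c x + 384 * (a * sinh (4 * (x - c)) * rr a c x) ^ 2) by
      rw [Ps3, Ps_eq ha]; ring, abs_mul, abs_mul, abs_of_pos h4]
  refine (mul_le_of_le_one_left (abs_nonneg _) (mul_le_one₀ h5 (abs_nonneg _) h0)).trans
    (abs_le.2 ⟨?_, ?_⟩) <;> nlinarith

lemma cont_rr : Continuous (rr a c) :=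
  continuous_iff_continuousAt.2 fun x => (d_rr ha c x).continuousAt

lemma bc_Ps : BC (Ps a c) 1 := ⟨by have := cont_rr ha c; unfold Ps; fun_prop,
  fun x => abs_le.2 ⟨by linarith [Ps_nn ha c x], Ps_le_one ha c x⟩⟩

lemma Ep_Ps_le (m s : ℝ) : Ep (Ps a c) m s ≤ exp (8 * s ^ 2 + 4 * |m - c|) * a := by
  have h := integral_mono ((bc_Ps ha c).int m s)
    ((integrable_cosh (4 * (m - c)) (4 * s)).const_mul a)
    fun z => (Ps_le ha c (m + s * z)).trans_eq (by congr 2; ring)
  rw [integral_const_mul, int_cosh] at h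
  refine h.trans ?_
  have h1 := cosh_le_exp (4 * (m - c))
  rw [abs_mul, abs_of_pos (by norm_num : (0 : ℝ) < 4)] at h1
  rw [mul_comm _ a, add_comm, exp_add, show (4 * s) ^ 2 / 2 = 8 * s ^ 2 by ring]
  gcongr

/-- Stein solution for `Ψ` and `N (m, s²)` -/
theorem stein_Ps (m s : ℝ) :
    ∃ f f1 f2 : ℝ → ℝ, (∀ x, HasDerivAt f (f1 x) x) ∧ (∀ x, HasDerivAt f1 (f2 x) x) ∧
      BC f 4 ∧ BC f1 48 ∧ BC f2 832 ∧
      (∀ x, (x - m) * f x - s ^ 2 * f1 x = Ps a c x - Ep (Ps a c) m s) ∧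
      ∀ x, |f x| ≤ 8 * exp (8 * s ^ 2 + 8 * |m - c|) * (a * exp (4 * |x - c|)) := by
  have hr := cont_rr ha c
  obtain ⟨f, f1, f2, a1, a2, a3, a4, a5, a6, a7⟩ := exists_stein (bc_Ps ha c)
    (p1 := Ps1 a c) (M1 := 4) ⟨by unfold Ps1; fun_prop,
      fun x => (abs_Ps1_le ha c x).trans (by linarith [Ps_le_one ha c x])⟩
    (p2 := Ps2 a c) ⟨by unfold Ps2; fun_prop, abs_Ps2_le ha c⟩
    (p3 := Ps3 a c) ⟨by unfold Ps3; fun_prop, abs_Ps3_le ha c⟩
    (d_Ps ha c) (d_Ps1 ha c) (d_Ps2 ha c) m s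
  refine ⟨f, f1, f2, a1, a2, a3, a4, a5, a6, fun x => ?_⟩
  refine (a7 (4 * a * exp (4 * |m - c|)) 4 (by positivity) (by norm_num) (fun y => ?_) x).trans ?_
  · refine (abs_Ps1_le ha c _).trans ?_
    have h1 := (Ps_le ha c (m + y)).trans (mul_le_mul_of_nonneg_left (cosh_le_exp _) ha)
    have h2 : exp |4 * (m + y - c)| ≤ exp (4 * |m - c|) * exp (4 * |y|) := by
      rw [← exp_add, exp_le_exp, abs_mul, abs_of_pos (by norm_num : (0 : ℝ) < 4),
        show m + y - c = m - c + y by ring]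
      linarith [abs_add_le (m - c) y]
    nlinarith [mul_le_mul_of_nonneg_left h2 ha]
  · have : |x - m| ≤ |x - c| + |m - c| := by
      have := abs_sub_le x c m
      rwa [abs_sub_comm c m] at this
    have e1 : 2 * exp (4 ^ 2 * s ^ 2 / 2) * (4 * a * exp (4 * |m - c|) * exp (4 * |x - m|)) =
        8 * a * exp (4 ^ 2 * s ^ 2 / 2 + 4 * |m - c| + 4 * |x - m|) := by
      rw [exp_add, exp_add]; ring
    have e2 : 8 * exp (8 * s ^ 2 + 8 * |m - c|) * (a * exp (4 * |x - c|)) =
        8 * a * exp (8 * s ^ 2 + 8 * |m - c| + 4 * |x - c|) := by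
      rw [exp_add _ (4 * |x - c|)]; ring
    rw [e1, e2]
    exact mul_le_mul_of_nonneg_left (exp_le_exp.2 (by linarith)) (by positivity)

end Crest.Agent.T157.S2t

end
end

-- ▼ part T157/S2Th_51
section

/-!
# Row 157, part B, S2 (helper51): Gaussian averages of `tanh`, the test function of the reveal
-/

set_option autoImplicit false

noncomputable section

namespace Crest.Agent.T157.S2t

open Real MeasureTheory ProbabilityTheory
open Crest.Agent.T157.Hd

lemma bc_tanh : BC tanh 1 := ⟨continuous_tanh', fun x => (abs_tanh_lt x).le⟩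

/-- slope of the spin dependence of `E tanh (u + s² σ + s Z)` -/
def be1 (u s : ℝ) : ℝ := (Ep tanh (u + s ^ 2) s - Ep tanh (u - s ^ 2) s) / 2

lemma be1_nonneg (u s : ℝ) : 0 ≤ be1 u s :=
  div_nonneg (sub_nonneg.2 (integral_mono (bc_tanh.int _ _) (bc_tanh.int _ _) fun z =>
    tanh_mono (by nlinarith [sq_nonneg s]))) zero_le_two

lemma be1_le (u s : ℝ) : be1 u s ≤ s ^ 2 := by
  have h := integral_mono ((bc_tanh.int (u + s ^ 2) s).sub (bc_tanh.int (u - s ^ 2) s))
    (integrable_const (2 * s ^ 2)) fun z => (tanh_lip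
      (show u - s ^ 2 + s * z ≤ u + s ^ 2 + s * z by nlinarith [sq_nonneg s])).trans_eq (by ring)
  simp only [Pi.sub_apply] at h
  rw [integral_sub (bc_tanh.int _ _) (bc_tanh.int _ _)] at h
  simp only [integral_const, probReal_univ, one_smul] at h
  rw [be1, Ep, Ep]; linarith

lemma int_sinh (w s : ℝ) :
    ∫ z, sinh (w + s * z) ∂gaussianReal 0 1 = sinh w * exp (s ^ 2 / 2) := by
  have e : ∀ z, sinh (w + s * z) = exp w / 2 * exp (s * z) - exp (-w) / 2 * exp (-s * z) :=
    fun z => by rw [sinh_eq, neg_add, exp_add, exp_add, neg_mul]; ring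
  simp only [e]
  rw [integral_sub ((integrable_exp_mul_gaussianReal s).const_mul _)
    ((integrable_exp_mul_gaussianReal (-s)).const_mul _), integral_const_mul, integral_const_mul,
    int_exp, int_exp, neg_sq, sinh_eq]
  ring

/-- the fixed point -/
theorem tanh_fix (u s : ℝ) :
    (1 + tanh u) / 2 * Ep tanh (u + s ^ 2) s + (1 - tanh u) / 2 * Ep tanh (u - s ^ 2) s = tanh u := by
  rw [spin_out bc_tanh]
  have e : ∀ z, cosh (u + s * z) / cosh u * tanh (u + s * z) = sinh (u + s * z) / cosh u := fun z => by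
    have := (cosh_pos (u + s * z)).ne'
    rw [tanh_eq_sinh_div_cosh]; field_simp
  simp only [e]
  rw [integral_div, int_sinh, tanh_eq_sinh_div_cosh, mul_comm, mul_div_right_comm, mul_assoc,
    ← exp_add]
  simp

/-- `E tanh (u + s² σ + s Z) = tanh u + β' (σ - tanh u)` for `σ = ±1` -/
theorem Ep_tanh_pm (u s σ : ℝ) (hσ : σ = 1 ∨ σ = -1) :
    Ep tanh (u + s ^ 2 * σ) s = tanh u + be1 u s * (σ - tanh u) := by
  have h := tanh_fix u s
  rcases hσ with rfl | rfl
  · rw [mul_one, be1]; linear_combination h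
  · rw [mul_neg_one, ← sub_eq_add_neg, be1]; linear_combination h

lemma Ep_comp_add (p : ℝ → ℝ) (b m s : ℝ) : Ep (fun h => p (b + h)) m s = Ep p (b + m) s := by
  simp only [Ep, add_assoc]



lemma BC.mono {p : ℝ → ℝ} {M N : ℝ} (hp : BC p M) (h : M ≤ N) : BC p N :=
  ⟨hp.cont, fun x => (hp.bd x).trans h⟩

lemma BC.shift {p : ℝ → ℝ} {M : ℝ} (hp : BC p M) (b : ℝ) : BC (fun h => p (b + h)) M :=
  ⟨hp.cont.comp (by fun_prop), fun _ => hp.bd _⟩

/-- `tanh'` -/
def T1 (u : ℝ) : ℝ := 1 - tanh u ^ 2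
/-- `tanh''` -/
def T2 (u : ℝ) : ℝ := -2 * (tanh u - tanh u ^ 3)
/-- third derivative of `tanh` -/
def T3 (u : ℝ) : ℝ := -2 * (1 - 3 * tanh u ^ 2) * (1 - tanh u ^ 2)

lemma d_T1 (u : ℝ) : HasDerivAt T1 (T2 u) u :=
  (((hasDerivAt_tanh2 u).pow 2).const_sub 1).congr_deriv (by simp [T2]; ring)

lemma d_T2 (u : ℝ) : HasDerivAt T2 (T3 u) u :=
  (((hasDerivAt_tanh2 u).sub ((hasDerivAt_tanh2 u).pow 3)).const_mul (-2)).congr_deriv
    (by simp [T3]; ring)

lemma tanh_sq_le (u : ℝ) : tanh u ^ 2 ≤ 1 := by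
  have := abs_lt.1 (abs_tanh_lt u); nlinarith

lemma bc_T1 : BC T1 1 := ⟨by have := continuous_tanh'; unfold T1; fun_prop, fun u =>
  abs_le.2 ⟨by unfold T1; linarith [tanh_sq_le u], by unfold T1; nlinarith [sq_nonneg (tanh u)]⟩⟩

lemma bc_T2 : BC T2 2 := ⟨by have := continuous_tanh'; unfold T2; fun_prop, fun u => by
  rw [show T2 u = -2 * (tanh u * T1 u) by rw [T2, T1]; ring, abs_mul, abs_mul]
  have := mul_le_one₀ (abs_tanh_lt u).le (abs_nonneg _) (bc_T1.bd u)
  norm_num; linarith⟩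

lemma bc_T3 : BC T3 4 := ⟨by have := continuous_tanh'; unfold T3; fun_prop, fun u => by
  rw [show T3 u = -2 * (1 - 3 * tanh u ^ 2) * T1 u by rw [T3, T1], abs_mul]
  have h : |-2 * (1 - 3 * tanh u ^ 2)| ≤ 4 :=
    abs_le.2 ⟨by nlinarith [sq_nonneg (tanh u)], by linarith [tanh_sq_le u]⟩
  simpa using mul_le_mul h (bc_T1.bd u) (abs_nonneg _) (by norm_num)⟩








/-- Stein solution for `tanh (b + ·)` and `N (m, s²)` -/
theorem stein_tanh (b m s : ℝ) :
    ∃ f f1 f2 : ℝ → ℝ, (∀ x, HasDerivAt f (f1 x) x) ∧ (∀ x, HasDerivAt f1 (f2 x) x) ∧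
      BC f 1 ∧ BC f1 2 ∧ BC f2 4 ∧
      ∀ x, (x - m) * f x - s ^ 2 * f1 x = tanh (b + x) - Ep tanh (b + m) s := by
  obtain ⟨f, f1, f2, a1, a2, a3, a4, a5, a6, -⟩ := exists_stein (bc_tanh.shift b) (bc_T1.shift b)
    (bc_T2.shift b) (bc_T3.shift b) (fun x => (hasDerivAt_tanh2 (b + x)).comp_const_add b x)
    (fun x => (d_T1 (b + x)).comp_const_add b x) (fun x => (d_T2 (b + x)).comp_const_add b x) m s
  exact ⟨f, f1, f2, a1, a2, a3, a4, a5, fun x => by rw [a6, Ep_comp_add]⟩

end Crest.Agent.T157.S2t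

end
end

-- ▼ part T157/S2Nu_51
section

/-!
# Row 157, part B, S1 (helper51): the reveal through the Stein equation, side of `ν`
-/

set_option autoImplicit false

noncomputable section

namespace Crest.Agent.T157.S2t

open Real Function Finset
open Crest.Agent.T157.E Crest.Agent.T157.SL Crest.Agent.T157.Ta
open Crest.Agent.T157.Ent (cnd)
open Crest.Agent.T157.Rec (grad)
open Crest.Agent.T157.Hd (abs_tanh_lt)
open Crest.ProbabilityR.SpinGlassDynamics (spin)

variable {n : ℕ} {v w : Cube n → ℝ} {T : Finset (Fin n)} {k : Fin n}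

/-- `C²` test function, bounded by `M` with two derivatives -/
def Tst (M : ℝ) (f f1 : ℝ → ℝ) : Prop :=
  ∃ f2 : ℝ → ℝ, (∀ t, HasDerivAt f (f1 t) t) ∧ (∀ t, HasDerivAt f1 (f2 t) t) ∧
    ∀ t, |f t| ≤ M ∧ |f1 t| ≤ M ∧ |f2 t| ≤ M

lemma Tst.lip {M : ℝ} {f f1 : ℝ → ℝ} (h : Tst M f f1) (t u : ℝ) : |f1 t - f1 u| ≤ M * |t - u| := by
  obtain ⟨f2, -, d, b⟩ := h
  exact convex_univ.norm_image_sub_le_of_norm_hasDerivWithin_le
    (fun x _ => (d x).hasDerivWithinAt) (fun x _ => (b x).2.2) (Set.mem_univ u) (Set.mem_univ t)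

lemma Tst.smul {M : ℝ} {f f1 : ℝ → ℝ} (h : Tst M f f1) (a : ℝ) :
    Tst (|a| * M) (fun t => a * f t) fun t => a * f1 t := by
  obtain ⟨f2, d0, d, b⟩ := h
  refine ⟨fun t => a * f2 t, fun t => (d0 t).const_mul a, fun t => (d t).const_mul a, fun t => ?_⟩
  simp only [abs_mul]
  exact ⟨by gcongr; exact (b t).1, by gcongr; exact (b t).2.1, by gcongr; exact (b t).2.2⟩

lemma Tst.mono {M N : ℝ} {f f1 : ℝ → ℝ} (h : Tst M f f1) (hM : M ≤ N) : Tst N f f1 := by
  obtain ⟨f2, d0, d, b⟩ := h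
  exact ⟨f2, d0, d, fun t => ⟨(b t).1.trans hM, (b t).2.1.trans hM, (b t).2.2.trans hM⟩⟩

/-- the features `h k` are `N (c k + V s k, V)` given the spins in `T`, in the sense of Stein -/
def SteinH (v : Cube n → ℝ) (T : Finset (Fin n)) (h : Fin n → Cube n → ℝ) (c : Fin n → ℝ)
    (V E γ : ℝ) : Prop :=
  ∀ F F1 : Fin n → Cube n → ℝ → ℝ, (∀ k y, Tst 1 (F k y) (F1 k y)) →
    |mean v fun x => ∑ k ∈ T, ((h k x - c k - V * sv x k) * F k (rT T x) (h k x) -
      V * F1 k (rT T x) (h k x))| ≤ E + γ * mean v fun x => ∑ k ∈ T, F k (rT T x) (h k x) ^ 2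

variable {h : Fin n → Cube n → ℝ} {c : Fin n → ℝ} {V E γ s : ℝ}

lemma rT_apply (hk : k ∈ T) (x : Cube n) : rT T x k = x k := piecewise_eq_of_mem _ _ _ hk

lemma sv_rT (hk : k ∈ T) (x : Cube n) : sv (rT T x) k = sv x k := by rw [sv, sv, rT_apply hk]

lemma rT_rT (x : Cube n) : rT T (rT T x) = rT T x := rT_eq_iff.2 fun _ hi => rT_apply hi x

lemma rT_update (hk : k ∈ T) (x : Cube n) (b : Bool) :
    rT T (update x k b) = update (rT T x) k b := by
  funext i
  by_cases hi : i = k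
  · rw [hi, rT_apply hk, update_self, update_self]
  · rw [update_of_ne hi]
    by_cases h : i ∈ T
    · rw [rT_apply h, rT_apply h, update_of_ne hi]
    · rw [rT, rT, piecewise_eq_of_notMem _ _ _ h, piecewise_eq_of_notMem _ _ _ h]

lemma off_rT_comp (hk : k ∈ T) {α : Type*} {g : Cube n → α} (hg : OffAt k g) :
    OffAt k fun x => g (rT T x) := fun x b => by
  simp only [rT_update hk, hg _ b]

lemma wt_push {Ω A : Type*} [Fintype Ω] [Fintype A] [DecidableEq A] {v : Ω → ℝ} (hv : Wt v)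
    (ρ : Ω → A) : Wt (push v ρ) :=
  ⟨push_nonneg hv ρ, by rw [sum_push hv]; exact one_pos⟩

lemma mean_push {Ω A : Type*} [Fintype Ω] [Fintype A] [DecidableEq A] {v : Ω → ℝ} (hv : Wt v)
    (ρ : Ω → A) (F : A → ℝ) : mean (push v ρ) F = mean v fun x => F (ρ x) := by
  rw [mean_eq_div, sum_push hv, div_one, ← sum_push_mean hv ρ fun a _ => F a]
  refine sum_congr rfl fun a _ => ?_
  by_cases ha : push v ρ a = 0
  · rw [ha, zero_mul, zero_mul]
  · rw [(wt_cut hv ha).mean_const]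

lemma SteinH.nn (hS : SteinH v T h c V E γ) : 0 ≤ E := by
  have := hS (fun _ _ _ => 0) (fun _ _ _ => 0) fun _ _ =>
    ⟨fun _ => 0, fun t => hasDerivAt_const t 0, fun t => hasDerivAt_const t 0, fun _ => by simp⟩
  simpa [mean] using this

/-- the Stein hypothesis applied to a family of solutions -/
lemma SteinH.sol (hS : SteinH v T h c V E γ) (hv : Wt v) (hγ : 0 ≤ γ) {M : ℝ} (hM : 0 < M)
    (p g : Fin n → Cube n → ℝ → ℝ) (H : ∀ k y, ∃ f f1 : ℝ → ℝ, Tst M f f1 ∧
      (∀ t, (t - (c k + V * sv y k)) * f t - V * f1 t = p k y t) ∧ ∀ t, f t ^ 2 ≤ g k y t) :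
    |∑ k ∈ T, mean v fun x => p k (rT T x) (h k x)| ≤
      M * E + γ / M * ∑ k ∈ T, mean v fun x => g k (rT T x) (h k x) := by
  choose f f1 a1 a2 a3 using H
  have b := hS (fun k y t => M⁻¹ * f k y t) (fun k y t => M⁻¹ * f1 k y t) fun k y =>
    ((a1 k y).smul M⁻¹).mono (by rw [abs_of_pos (inv_pos.2 hM), inv_mul_cancel₀ hM.ne'])
  have e : (fun x => ∑ k ∈ T, ((h k x - c k - V * sv x k) * (M⁻¹ * f k (rT T x) (h k x)) -
      V * (M⁻¹ * f1 k (rT T x) (h k x)))) = fun x => M⁻¹ * ∑ k ∈ T, p k (rT T x) (h k x) := by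
    funext x
    rw [mul_sum]
    exact sum_congr rfl fun k hk => by rw [← a2, sv_rT hk]; ring
  have l : mean v (fun x => ∑ k ∈ T, (M⁻¹ * f k (rT T x) (h k x)) ^ 2) ≤
      mean v fun x => M⁻¹ ^ 2 * ∑ k ∈ T, g k (rT T x) (h k x) := hv.mean_mono fun x => by
    rw [mul_sum]
    exact sum_le_sum fun k _ => by
      rw [mul_pow]; exact mul_le_mul_of_nonneg_left (a3 _ _ _) (sq_nonneg _)
  rw [e, mean_const_mul, mean_sum, abs_mul, abs_of_pos (inv_pos.2 hM)] at b
  rw [mean_const_mul, mean_sum v T fun k x => g k (rT T x) (h k x)] at l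
  have := mul_le_mul_of_nonneg_left (b.trans (add_le_add_right (mul_le_mul_of_nonneg_left l hγ) E))
    hM.le
  rw [← mul_assoc, mul_inv_cancel₀ hM.ne', one_mul] at this
  refine this.trans_eq ?_
  field_simp

lemma abs_sv (y : Cube n) (k : Fin n) : |sv y k| = 1 := abs_spin _

lemma abs_shift (hs : s ^ 2 ≤ 1) (a : ℝ) (y : Cube n) (k : Fin n) :
    |a + s ^ 2 * sv y k - a| ≤ 1 := by
  rw [add_sub_cancel_left, abs_mul, abs_sv, mul_one, abs_of_nonneg (sq_nonneg s)]; exact hs

lemma le_min_mul {x A K z : ℝ} (hA : x ≤ A) (hK : x ≤ K * z) (h : A ≤ K) (h0 : 0 ≤ K) :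
    x ≤ K * min 1 z := by
  rw [mul_min_of_nonneg _ _ h0, mul_one]; exact le_min (hA.trans h) hK

/-- **self-bounding** -/
theorem SteinH.ps (hS : SteinH v T h c (s ^ 2) E γ) (hv : Wt v) (hγ : 0 ≤ γ) (hs : s ^ 2 ≤ 1)
    (hK : γ * exp 16 ≤ 1) (a : Fin n → Cube n → ℝ) (ha : ∀ k y, 0 ≤ a k y) :
    ∑ k ∈ T, mean v (fun x => Ps (a k (rT T x)) (c k) (h k x)) ≤
      2 * exp 12 * ∑ k ∈ T, mean v (fun x => a k (rT T x)) + 1664 * E := by
  have b := hS.sol hv hγ (M := 832) (by norm_num)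
    (fun k y t => Ps (a k y) (c k) t - Ep (Ps (a k y) (c k)) (c k + s ^ 2 * sv y k) s)
    (fun k y t => 128 * exp 16 * Ps (a k y) (c k) t) fun k y => by
      obtain ⟨f, f1, f2, d0, d1, b0, b1, b2, e, l⟩ :=
        stein_Ps (c := c k) (ha k y) (c k + s ^ 2 * sv y k) s
      refine ⟨f, f1, ⟨f2, d0, d1, fun t => ⟨(b0.bd t).trans (by norm_num),
        (b1.bd t).trans (by norm_num), b2.bd t⟩⟩, e, fun t => ?_⟩
      have x1 : exp (8 * s ^ 2 + 8 * |c k + s ^ 2 * sv y k - c k|) ≤ exp 16 :=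
        exp_le_exp.2 (by linarith [abs_shift hs (c k) y k])
      have x2 : |f t| ≤ 8 * exp 16 * min 1 (a k y * exp (4 * |t - c k|)) :=
        le_min_mul (b0.bd t) ((l t).trans (by have := ha k y; gcongr))
          (by linarith [add_one_le_exp (16 : ℝ)]) (by positivity)
      have x3 := mul_le_mul_of_nonneg_left (min_le_Ps (c := c k) (x := t) (ha k y))
        (show 0 ≤ 8 * exp 16 by positivity)
      have x4 := mul_le_mul (b0.bd t) (x2.trans x3) (abs_nonneg _) (by norm_num)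
      rw [← sq, sq_abs] at x4
      linarith
  have m : ∀ k ∈ T, mean v (fun x => Ps (a k (rT T x)) (c k) (h k x)) -
      exp 12 * mean v (fun x => a k (rT T x)) ≤ mean v fun x => Ps (a k (rT T x)) (c k) (h k x) -
        Ep (Ps (a k (rT T x)) (c k)) (c k + s ^ 2 * sv (rT T x) k) s := fun k _ => by
    rw [← mean_const_mul, ← mean_sub]
    refine hv.mean_mono fun x => sub_le_sub_left ((Ep_Ps_le (ha k _) _ _ _).trans ?_) _
    exact mul_le_mul_of_nonneg_right
      (exp_le_exp.2 (by linarith [abs_shift hs (c k) (rT T x) k])) (ha k _)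
  have m1 := (sum_le_sum m).trans ((le_abs_self _).trans b)
  simp only [mean_const_mul] at m1
  rw [sum_sub_distrib, ← mul_sum, ← mul_sum] at m1
  have p : 0 ≤ ∑ k ∈ T, mean v (fun x => Ps (a k (rT T x)) (c k) (h k x)) :=
    sum_nonneg fun k _ => hv.mean_nonneg fun x => Ps_nn (ha k _) _ _
  have := mul_le_mul_of_nonneg_right hK p
  linarith

/-- the Stein step for `Λ` -/
theorem SteinH.lam (hS : SteinH v T h c (s ^ 2) E γ) (hv : Wt v) (hγ : 0 ≤ γ) (hs : s ^ 2 ≤ 1)
    (hK : γ * exp 16 ≤ 1) (b : Fin n → ℝ) (l : Fin n → Cube n → ℝ) :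
    ∑ k ∈ T, mean v (fun x => Lam (l k (rT T x)) (b k + h k x) -
      Ep (Lam (l k (rT T x))) (b k + c k + s ^ 2 * sv (rT T x) k) s) ≤
      3336 * E + 4 * exp 24 * γ * ∑ k ∈ T, mean v fun x => L1 (l k (rT T x)) (b k + c k) ^ 2 := by
  have q := hS.sol hv hγ (M := 8) (by norm_num)
    (fun k y t => Lam (l k y) (b k + t) - Ep (Lam (l k y)) (b k + c k + s ^ 2 * sv y k) s)
    (fun k y t => 16 * exp 12 * Ps (L1 (l k y) (b k + c k) ^ 2) (c k) t) fun k y => by
      obtain ⟨f, f1, f2, d0, d1, b0, b1, b2, e, o⟩ :=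
        stein_Lam (l k y) (b k) (c k + s ^ 2 * sv y k) s (c k)
      refine ⟨f, f1, ⟨f2, d0, d1, fun t => ⟨(b0.bd t).trans (by norm_num),
        (b1.bd t).trans (by norm_num), b2.bd t⟩⟩, fun t => by rw [e, Ep_comp_add, add_assoc],
        fun t => ?_⟩
      have x1 : exp (2 * s ^ 2 + 4 * |c k + s ^ 2 * sv y k - c k|) ≤ exp 6 :=
        exp_le_exp.2 (by linarith [abs_shift hs (c k) y k])
      have x0 : |f t| ≤ 2 * exp 6 * (|L1 (l k y) (b k + c k)| * exp (2 * |t - c k|)) :=
        (o t).trans (by gcongr)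
      have y0 := pow_le_pow_left₀ (abs_nonneg _) x0 2
      have y1 := pow_le_pow_left₀ (abs_nonneg _) (b0.bd t) 2
      simp only [mul_pow, sq_abs, ← exp_nat_mul] at y0 y1
      have x2 : f t ^ 2 ≤ 4 * exp 12 * min 1 (L1 (l k y) (b k + c k) ^ 2 * exp (4 * |t - c k|)) :=
        le_min_mul y1 (y0.trans_eq (by norm_num; left; ring))
          (by linarith [add_one_le_exp (12 : ℝ)]) (by positivity)
      have x3 := mul_le_mul_of_nonneg_left
        (min_le_Ps (c := c k) (x := t) (sq_nonneg (L1 (l k y) (b k + c k))))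
        (show 0 ≤ 4 * exp 12 by positivity)
      linarith
  have p := mul_le_mul_of_nonneg_left (hS.ps hv hγ hs hK (fun k y => L1 (l k y) (b k + c k) ^ 2)
    fun _ _ => sq_nonneg _) (show 0 ≤ 2 * exp 12 * γ by positivity)
  simp only [mean_const_mul] at q
  rw [← mul_sum] at q
  have e : exp 24 = exp 12 * exp 12 := by rw [← exp_add]; norm_num
  have k1 : γ * exp 12 ≤ 1 :=
    (mul_le_mul_of_nonneg_left (exp_le_exp.2 (by norm_num)) hγ).trans hK
  have k2 := mul_le_mul_of_nonneg_right k1 hS.nn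
  rw [e]
  linarith [le_abs_self (∑ k ∈ T, mean v (fun x => Lam (l k (rT T x)) (b k + h k x) -
      Ep (Lam (l k (rT T x))) (b k + c k + s ^ 2 * sv (rT T x) k) s))]

/-- the Stein step for `μ tanh` -/
theorem SteinH.th (hS : SteinH v T h c (s ^ 2) E γ) (hv : Wt v) (hγ : 0 ≤ γ) (b : Fin n → ℝ)
    (μ : Fin n → Cube n → ℝ) (hμ : ∀ k y, |μ k y| ≤ 2) :
    |∑ k ∈ T, mean v (fun x => μ k (rT T x) * (tanh (b k + h k x) -
      Ep tanh (b k + c k + s ^ 2 * sv (rT T x) k) s))| ≤
      8 * E + γ / 8 * ∑ k ∈ T, mean v fun x => μ k (rT T x) ^ 2 :=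
  hS.sol hv hγ (M := 8) (by norm_num)
    (fun k y t => μ k y * (tanh (b k + t) - Ep tanh (b k + c k + s ^ 2 * sv y k) s))
    (fun k y _ => μ k y ^ 2) fun k y => by
      obtain ⟨f, f1, f2, d0, d1, b0, b1, b2, e⟩ := stein_tanh (b k) (c k + s ^ 2 * sv y k) s
      have t : Tst 4 f f1 := ⟨f2, d0, d1, fun t => ⟨(b0.bd t).trans (by norm_num),
        (b1.bd t).trans (by norm_num), b2.bd t⟩⟩
      refine ⟨_, _, (t.smul (μ k y)).mono (by linarith [hμ k y]), fun t => ?_, fun t => ?_⟩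
      · rw [add_assoc, ← e]; ring
      · rw [mul_pow]
        exact mul_le_of_le_one_right (sq_nonneg _) ((sq_le_one_iff_abs_le_one _).2 (b0.bd t))

/-- the variational lower bound of the site terms -/
lemma As_ge (hp : Pr v w) (he : EdgePos T v w) (hk : k ∈ T) {l : Cube n → ℝ} (hl : OffAt k l) :
    mean v (fun x => l x * sv x k - Lam (l x) (uf w k x)) ≤ As (fun _ => 1) v w k := by
  have a := (hp.wt fun x => l x * sv x k).As_nonneg (u := fun _ => 1) (fun _ => zero_le_one) k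
  rw [As_wt hp (OffAt.const k 1), sub_nonneg] at a
  refine le_of_eq_of_le (mean_congr_supp fun x hx => ?_) a
  have p := he k hk x hx
  have p1 := p true
  have p2 := p false
  have e := cm_eq p
  have c0 := (cosh_pos (uf w k x)).ne'
  rw [one_mul, Lam, lc, lc, ← log_div (cosh_pos _).ne' c0, cosh_div, ← e, Ta.cm, siteM, siteM,
    hl x true, hl x false, cosh_eq, sinh_eq]
  congr 2
  simp only [sv, update_self, spin, if_true, Bool.false_eq_true, if_false, mul_one, mul_neg]
  field_simp; ring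

lemma chi_ge (hp : Pr v w) (he : EdgePos T v w) (hk : k ∈ T) {μ : Cube n → ℝ} (hμ : OffAt k μ) :
    mean v (fun x => 2 * (μ x * (sv x k - tanh (uf w k x))) - μ x ^ 2) ≤
      mean v fun x => chi v w k x ^ 2 := by
  have e : mean v (fun x => 2 * (μ x * (sv x k - tanh (uf w k x))) - μ x ^ 2) =
      mean v fun x => 2 * (μ x * (cm v k x - tanh (uf w k x))) - μ x ^ 2 := by
    simp only [mul_sub, mean_sub, mean_const_mul, mean_cm hp.hv hμ]
  rw [e]
  refine mean_mono_supp hp.hv fun x hx => ?_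
  rw [chi, cm_eq (he k hk x hx)]
  nlinarith [sq_nonneg (cm v k x - tanh (uf w k x) - μ x)]

/-- regularised half log-odds of the conditional law -/
def kap (η : ℝ) (v : Cube n → ℝ) (k : Fin n) (x : Cube n) : ℝ :=
  (log (cnd v k x true + η) - log (cnd v k x false + η)) / 2

lemma off_kap (η : ℝ) (v : Cube n → ℝ) (k : Fin n) : OffAt k (kap η v k) := fun x b => by
  simp only [kap, Ent.cnd_update]

lemma kap_spec (hv : Wt v) {η : ℝ} (hη : 0 < η) {x : Cube n} (hx : v x ≠ 0) (k : Fin n) :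
    log (cnd v k x (x k)) ≤ lb (kap η v k x) (x k) + 2 * η ∧
      |cm v k x - tanh (kap η v k x)| ≤ 2 * η := by
  have pA := cnd_nonneg hv k x true
  have pB := cnd_nonneg hv k x false
  have d := Ta.den_pos hv k hx
  have s1 : cnd v k x true + cnd v k x false = 1 := by
    rw [cnd, cnd, ← add_div]; exact div_self d.ne'
  have s2 : cm v k x = cnd v k x true - cnd v k x false := by
    simp only [Ta.cm, siteM, cnd, sv, update_self, spin, if_true, Bool.false_eq_true, if_false]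
    ring
  obtain ⟨t1, t2, t3⟩ := two_pt (add_pos_of_nonneg_of_pos pA hη) (add_pos_of_nonneg_of_pos pB hη)
  have s3 : cnd v k x true + η + (cnd v k x false + η) = 1 + 2 * η := by linarith
  rw [s3] at t1 t2 t3
  have p : 0 < 1 + 2 * η := by linarith
  constructor
  · have t : lb (kap η v k x) (x k) = log ((cnd v k x (x k) + η) / (1 + 2 * η)) := by
      cases x k
      · exact t2.symm
      · exact t1.symm
    have q := cnd_self_pos hv hx k
    rw [t, log_div (by positivity) p.ne']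
    have := log_le_log q (show cnd v k x (x k) ≤ cnd v k x (x k) + η by linarith)
    linarith [log_le_sub_one_of_pos p]
  · have a := abs_cm_le hv.nn k x
    rw [kap, ← t3, show (cnd v k x true + η) * 1 + (cnd v k x false + η) * -1 = cm v k x by
      rw [s2]; ring, show cm v k x - cm v k x / (1 + 2 * η) = cm v k x * (2 * η / (1 + 2 * η)) by
      field_simp; ring, abs_mul, abs_of_pos (show 0 < 2 * η / (1 + 2 * η) by positivity)]
    exact (mul_le_of_le_one_left (by positivity) a).trans (div_le_self (by positivity) (by linarith))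

lemma abs_Ep_Lam (l u : ℝ) (hs : s ^ 2 ≤ 1) :
    |Ep (Lam l) (u + s ^ 2) s - Ep (Lam l) (u - s ^ 2) s| ≤ 4 := by
  have b : BC (Lam l) |l| := by simpa using bc_Lam l 0
  rw [Ep, Ep, ← MeasureTheory.integral_sub (b.int _ _) (b.int _ _)]
  have := MeasureTheory.norm_integral_le_of_norm_le_const (μ := ProbabilityTheory.gaussianReal 0 1)
    (f := fun z => Lam l (u + s ^ 2 + s * z) - Lam l (u - s ^ 2 + s * z)) (C := 4)
    (.of_forall fun z => by
      have := abs_Lam_sub' l (u - s ^ 2 + s * z) (2 * s ^ 2)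
      rw [show u - s ^ 2 + s * z + 2 * s ^ 2 = u + s ^ 2 + s * z by ring,
        abs_of_nonneg (show 0 ≤ 2 * s ^ 2 by positivity)] at this
      exact this.trans (by linarith))
  simpa using this

/-- the algebra of one site -/
lemma site_alg {α β c1 c2 δ η m u l q e0 e1 b1 V C : ℝ} (hα : 0 ≤ α) (hβ : 0 ≤ β) (h1 : 0 < c1)
    (h2 : 0 ≤ c2) (hq : |q| ≤ 1) (hd : |q - tanh (u + l)| ≤ 2 * η) (he : |e1| ≤ 2)
    (hb : 0 ≤ b1) (hbV : b1 ≤ V) (hV : V ≤ 1)
    (hc : e0 + e1 * tanh (u + l) ≤ Lam l u + C * V * L1 l u ^ 2)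
    (hs : c1 + c2 + δ + (α * C + β) * V ≤ β / 2) :
    α * (l * q - Lam l u - m * q + m * tanh u + m ^ 2 / 2 + 2 * η) + c2 * (q - tanh u) ^ 2 ≤
      α * (l * q - (e0 + e1 * q)) + β * (L1 l u * ((1 - b1) * (q - tanh u))) -
        (β / 2 + δ) * L1 l u ^ 2 + α / 2 * (1 + α / (2 * c1)) * m ^ 2 +
        (6 * α + 2 * α * |m| + 4 * β + 8 * c2) * η := by
  obtain ⟨d, rfl⟩ : ∃ d, q = tanh u + L1 l u + d := ⟨q - tanh (u + l), by rw [L1]; ring⟩
  have t : tanh (u + l) = tanh u + L1 l u := by rw [L1]; ring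
  rw [t] at hc hd
  rw [add_sub_cancel_left] at hd
  have m2 := abs_L1_le l u
  generalize L1 l u = μ at *
  have a0 := abs_lt.1 (abs_tanh_lt u)
  have a1 : e1 * d ≤ 2 * (2 * η) :=
    (le_abs_self _).trans ((abs_mul _ _).trans_le (mul_le_mul he hd (abs_nonneg _) zero_le_two))
  have a2 : -(m * d) ≤ |m| * (2 * η) :=
    (neg_le_abs _).trans ((abs_mul _ _).trans_le (mul_le_mul_of_nonneg_left hd (abs_nonneg _)))
  have a3 : -(μ * (1 - b1) * d) ≤ 2 * 1 * (2 * η) := by
    refine (neg_le_abs _).trans ?_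
    rw [abs_mul, abs_mul]
    have : |1 - b1| ≤ 1 := abs_le.2 ⟨by linarith, by linarith⟩
    gcongr
  have a4 : d * (2 * μ + d) ≤ 2 * η * 4 := by
    refine (le_abs_self _).trans ?_
    rw [abs_mul]
    have := abs_le.1 hq
    have := abs_le.1 m2
    exact mul_le_mul hd (abs_le.2 ⟨by linarith, by linarith⟩) (abs_nonneg _)
      ((abs_nonneg _).trans hd)
  have a5 : -(α * (m * μ)) ≤ c1 * μ ^ 2 + α ^ 2 / (4 * c1) * m ^ 2 := by
    have : 0 ≤ (2 * c1 * μ + α * m) ^ 2 / (4 * c1) := by positivity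
    rw [show (2 * c1 * μ + α * m) ^ 2 / (4 * c1) =
      c1 * μ ^ 2 + α ^ 2 / (4 * c1) * m ^ 2 + α * (m * μ) by field_simp; ring] at this
    linarith
  have a6 := mul_le_mul_of_nonneg_right hs (sq_nonneg μ)
  have a7 := mul_le_mul_of_nonneg_left (mul_le_mul_of_nonneg_right hbV (sq_nonneg μ)) hβ
  have e : α / 2 * (1 + α / (2 * c1)) * m ^ 2 = α * (m ^ 2 / 2) + α ^ 2 / (4 * c1) * m ^ 2 := by
    field_simp; ring
  rw [e]
  nlinarith [mul_le_mul_of_nonneg_left hc hα, mul_le_mul_of_nonneg_left a1 hα,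
    mul_le_mul_of_nonneg_left a2 hα, mul_le_mul_of_nonneg_left a3 hβ,
    mul_le_mul_of_nonneg_left a4 h2]

lemma sv_pm (y : Cube n) (k : Fin n) : sv y k = 1 ∨ sv y k = -1 := by
  rw [sv]; cases y k <;> simp [spin]

/-- one site of the marginal law against the model -/
lemma site_le (hv : Wt v) (k : Fin n) {α β c1 c2 δ η : ℝ} (m u : ℝ) (hα : 0 ≤ α) (hβ : 0 ≤ β)
    (h1 : 0 < c1) (h2 : 0 ≤ c2) (hη : 0 < η) (hs0 : 0 ≤ s) (hs1 : s ≤ 1)
    (hs : c1 + c2 + δ + (α * Ctp + β) * s ^ 2 ≤ β / 2) :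
    α * (mean v (fun y => log (cnd v k y (y k))) - mean v fun y => lb (u + m) (y k)) +
      c2 * (mag v k - tanh u) ^ 2 ≤
      mean v (fun y => α * ((kap η v k y - u) * sv y k -
          Ep (Lam (kap η v k y - u)) (u + s ^ 2 * sv y k) s) +
        β * (L1 (kap η v k y - u) u * (sv y k - Ep tanh (u + s ^ 2 * sv y k) s)) -
        (β / 2 + δ) * L1 (kap η v k y - u) u ^ 2) + α / 2 * (1 + α / (2 * c1)) * m ^ 2 +
        (6 * α + 2 * α * |m| + 4 * β + 8 * c2) * η := by
  set l : Cube n → ℝ := fun y => kap η v k y - u with hl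
  have ol : OffAt k l := (off_kap η v k).comp fun t => t - u
  set e0 : Cube n → ℝ := fun y =>
    (Ep (Lam (l y)) (u + s ^ 2) s + Ep (Lam (l y)) (u - s ^ 2) s) / 2 with he0
  set e1 : Cube n → ℝ := fun y =>
    (Ep (Lam (l y)) (u + s ^ 2) s - Ep (Lam (l y)) (u - s ^ 2) s) / 2 with he1
  have s2 : s ^ 2 ≤ 1 := by nlinarith
  have r1 : mean v (fun y => log (cnd v k y (y k))) - mean v (fun y => lb (u + m) (y k)) ≤
      mean v fun y => l y * cm v k y - Lam (l y) u - m * cm v k y + m * tanh u + m ^ 2 / 2 +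
        2 * η := by
    have e : mean v (fun y => l y * cm v k y - Lam (l y) u - m * cm v k y + m * tanh u +
        m ^ 2 / 2 + 2 * η) = mean v fun y => l y * sv y k - Lam (l y) u - m * sv y k +
          m * tanh u + m ^ 2 / 2 + 2 * η := by
      simp only [mean_add, mean_sub, mean_cm hv ol, mean_cm hv (OffAt.const k m)]
    rw [e, ← mean_sub]
    refine mean_mono_supp hv fun y hy => ?_
    have a := (kap_spec hv hη hy k).1
    have b := lc_le u m
    simp only [lb, Lam, hl, sv, add_sub_cancel] at a ⊢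
    linarith
  have r2 : (mag v k - tanh u) ^ 2 ≤ mean v fun y => (cm v k y - tanh u) ^ 2 := by
    have e : mag v k - tanh u = mean v fun x => cm v k x - tanh u := by
      have := mean_cm (i := k) hv (OffAt.const k (1 : ℝ))
      simp only [one_mul] at this
      rw [mean_sub, hv.mean_const, this]; rfl
    rw [e]
    exact le_trans (hv.isP.mean_sq_le _) (hv.mean_mono
      (f := fun x => (cm v k x - tanh u) * (cm v k x - tanh u)) fun y => (sq _).ge)
  have r3 : mean v (fun y => α * (l y * sv y k - Ep (Lam (l y)) (u + s ^ 2 * sv y k) s) +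
      β * (L1 (l y) u * (sv y k - Ep tanh (u + s ^ 2 * sv y k) s)) -
      (β / 2 + δ) * L1 (l y) u ^ 2) = mean v fun y =>
      α * (l y * cm v k y - (e0 y + e1 y * cm v k y)) +
      β * (L1 (l y) u * ((1 - be1 u s) * (cm v k y - tanh u))) - (β / 2 + δ) * L1 (l y) u ^ 2 := by
    have o : OffAt k fun y => α * (l y - e1 y) + β * L1 (l y) u * (1 - be1 u s) :=
      ol.comp fun t => α * (t - (Ep (Lam t) (u + s ^ 2) s - Ep (Lam t) (u - s ^ 2) s) / 2) +
        β * L1 t u * (1 - be1 u s)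
    have z := congrArg (fun t => t + mean v fun y => -(α * e0 y) -
      β * L1 (l y) u * (1 - be1 u s) * tanh u - (β / 2 + δ) * L1 (l y) u ^ 2) (mean_cm hv o)
    simp only [← mean_add] at z
    refine Eq.trans (congrArg _ (funext fun y => ?_)) (z.symm.trans (congrArg _ (funext fun y => ?_)))
    · rw [Ep_tanh_pm _ _ _ (sv_pm y k)]
      rcases sv_pm y k with e | e <;> simp only [e, he0, he1, mul_one, mul_neg, ← sub_eq_add_neg] <;>
        ring
    · ring
  have r4 := mul_le_mul_of_nonneg_left r1 hα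
  have r5 := mul_le_mul_of_nonneg_left r2 h2
  refine (add_le_add r4 r5).trans ?_
  rw [r3, ← mean_const_mul, ← mean_const_mul, ← mean_add, add_assoc,
    ← hv.mean_const (α / 2 * (1 + α / (2 * c1)) * m ^ 2 +
      (6 * α + 2 * α * |m| + 4 * β + 8 * c2) * η), ← mean_add]
  refine mean_mono_supp hv fun y hy => ?_
  rw [← add_assoc]
  refine site_alg (C := Ctp) hα hβ h1 h2 (abs_cm_le hv.nn k y) ?_ ?_ (be1_nonneg u s) (be1_le u s)
    s2 ?_ hs
  · rw [hl, add_sub_cancel]; exact (kap_spec hv hη hy k).2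
  · rw [he1, abs_div, abs_two]; linarith [abs_Ep_Lam (l y) u s2]
  · refine le_of_eq_of_le ?_ (channel u (l y) hs0 hs1)
    rw [he0, he1]; ring

/-- **the reveal, side of `ν`** -/
theorem revNu (hp : Pr v w) (he : EdgePos T v w) (hS : SteinH v T h c V E γ) (hV0 : 0 ≤ V)
    (hV1 : V ≤ 1) (hγ : 0 ≤ γ) (hK : γ * exp 16 ≤ 1) (b m : Fin n → ℝ) {α β c1 c2 : ℝ}
    (hα : 0 ≤ α) (hβ : 0 ≤ β) (h1 : 0 < c1) (h2 : 0 ≤ c2)
    (hc : c1 + c2 + Ctp * (α + β) * (V + γ) ≤ β / 2) :
    α * mean v (fun x => log (mT T v x) - LB T (b + c + m) x) +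
      c2 * ∑ k ∈ T, (mag v k - tanh (b k + c k)) ^ 2 ≤
      ∑ k ∈ T, (α * As (fun _ => 1) v w k + β / 2 * mean v fun x => chi v w k x ^ 2) +
      α / 2 * (1 + α / (2 * c1)) * ∑ k ∈ T, m k ^ 2 +
      2 * (α + β) * ∑ k ∈ T, mean v (fun x => |uf w k x - (b k + h k x)|) +
      3336 * (α + β) * E := by
  obtain ⟨s, hs0, rfl⟩ : ∃ s, 0 ≤ s ∧ V = s ^ 2 := ⟨√V, sqrt_nonneg _, (sq_sqrt hV0).symm⟩
  have hs1 : s ≤ 1 := by nlinarith
  have hv := hp.hv
  have hv' := wt_push hv (rT T)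
  set v' := push v (rT T) with hv''
  refine le_of_forall_pos_le_add fun ε hε => ?_
  set K := ∑ k ∈ T, (6 * α + 2 * α * |m k| + 4 * β + 8 * c2) with hKd
  have K0 : 0 ≤ K := sum_nonneg fun k _ => by positivity
  obtain ⟨η, hη, hηK⟩ : ∃ η, 0 < η ∧ K * η ≤ ε := ⟨ε / (K + 1), by positivity, by
    rw [← mul_div_assoc, div_le_iff₀ (by positivity)]; nlinarith⟩
  set l : Fin n → Cube n → ℝ := fun k y => kap η v' k y - (b k + c k) with hl
  set δ := 4 * exp 24 * γ * α + γ / 8 * β with hδ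
  have C1 : 4 * exp 24 ≤ Ctp := by rw [Ctp]; gcongr; norm_num
  have C2 : 1 ≤ Ctp := by rw [Ctp]; linarith [add_one_le_exp (32 : ℝ)]
  have hs : c1 + c2 + δ + (α * Ctp + β) * s ^ 2 ≤ β / 2 := by
    have x1 := mul_le_mul_of_nonneg_right C1 (mul_nonneg hγ hα)
    have x2 := mul_le_mul_of_nonneg_right C2 (mul_nonneg hγ hβ)
    have x3 := mul_le_mul_of_nonneg_right C2 (mul_nonneg hβ hV0)
    have x4 := mul_nonneg hγ hβ
    rw [hδ]; linarith
  have H := han hv' T
  have e1 : mean v' (fun x => log (mT T v' x)) = mean v fun x => log (mT T v x) := by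
    rw [mean_push hv]
    refine congrArg _ (funext fun x => congrArg _ ?_)
    simp only [mT, rT_rT]
    rw [push, mean_push hv]
    simp only [rT_rT]; rfl
  have S1 := mul_le_mul_of_nonneg_left (hS.lam hv hγ hV1 hK b l) hα
  have S2 := mul_le_mul_of_nonneg_left ((le_abs_self _).trans
    (hS.th hv hγ b (fun k y => L1 (l k y) (b k + c k)) fun _ _ => abs_L1_le _ _)) hβ
  have Z : ∀ k ∈ T, α * (mean v' (fun y => log (cnd v' k y (y k))) -
      mean v fun y => lb ((b + c + m) k) (y k)) + c2 * (mag v k - tanh (b k + c k)) ^ 2 ≤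
      α * As (fun _ => 1) v w k + β / 2 * mean v (fun x => chi v w k x ^ 2) +
      α / 2 * (1 + α / (2 * c1)) * m k ^ 2 +
      2 * (α + β) * mean v (fun x => |uf w k x - (b k + h k x)|) +
      (6 * α + 2 * α * |m k| + 4 * β + 8 * c2) * η +
      (α * mean v (fun x => Lam (l k (rT T x)) (b k + h k x) -
        Ep (Lam (l k (rT T x))) (b k + c k + s ^ 2 * sv (rT T x) k) s) +
      β * mean v (fun x => L1 (l k (rT T x)) (b k + c k) * (tanh (b k + h k x) -
        Ep tanh (b k + c k + s ^ 2 * sv (rT T x) k) s)) -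
      δ * mean v fun x => L1 (l k (rT T x)) (b k + c k) ^ 2) := fun k hk => by
    have a := site_le hv' k (m k) (b k + c k) hα hβ h1 h2 hη hs0 hs1 hs
    have g1 : mean v' (fun y => lb (b k + c k + m k) (y k)) =
        mean v fun y => lb ((b + c + m) k) (y k) := by
      rw [mean_push hv]; simp only [rT_apply hk]; rfl
    have g2 : mag v' k = mag v k :=
      (mean_push hv _ fun y => sv y k).trans (congrArg _ (funext (sv_rT hk)))
    have ol : OffAt k fun x => l k (rT T x) :=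
      off_rT_comp hk ((off_kap η v' k).comp fun t => t - (b k + c k))
    have a1 := mul_le_mul_of_nonneg_left (As_ge hp he hk ol) hα
    have a2 := mul_le_mul_of_nonneg_left (chi_ge hp he hk (ol.comp fun t => L1 t (b k + c k)))
      (show 0 ≤ β / 2 by positivity)
    rw [g1, g2, mean_push hv (rT T) fun y => α * _ + β * _ - _] at a
    have a3 : mean v (fun x => α * (l k (rT T x) * sv (rT T x) k -
          Ep (Lam (l k (rT T x))) (b k + c k + s ^ 2 * sv (rT T x) k) s) +
        β * (L1 (l k (rT T x)) (b k + c k) * (sv (rT T x) k -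
          Ep tanh (b k + c k + s ^ 2 * sv (rT T x) k) s)) -
        (β / 2 + δ) * L1 (l k (rT T x)) (b k + c k) ^ 2) ≤ mean v fun x =>
        α * (l k (rT T x) * sv x k - Lam (l k (rT T x)) (uf w k x)) +
        β / 2 * (2 * (L1 (l k (rT T x)) (b k + c k) * (sv x k - tanh (uf w k x))) -
          L1 (l k (rT T x)) (b k + c k) ^ 2) + 2 * (α + β) * |uf w k x - (b k + h k x)| +
        (α * (Lam (l k (rT T x)) (b k + h k x) -
          Ep (Lam (l k (rT T x))) (b k + c k + s ^ 2 * sv (rT T x) k) s) +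
        β * (L1 (l k (rT T x)) (b k + c k) * (tanh (b k + h k x) -
          Ep tanh (b k + c k + s ^ 2 * sv (rT T x) k) s)) -
        δ * L1 (l k (rT T x)) (b k + c k) ^ 2) := hv.mean_mono fun x => by
      have q1 := abs_Lam_sub' (l k (rT T x)) (b k + h k x) (uf w k x - (b k + h k x))
      rw [add_sub_cancel] at q1
      have q2 : L1 (l k (rT T x)) (b k + c k) * (tanh (uf w k x) - tanh (b k + h k x)) ≤
          2 * |uf w k x - (b k + h k x)| := (le_abs_self _).trans ((abs_mul _ _).trans_le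
        (mul_le_mul (abs_L1_le _ _) (abs_tanh_sub _ _) (abs_nonneg _) zero_le_two))
      have q3 := mul_le_mul_of_nonneg_left ((le_abs_self _).trans q1) hα
      have q4 := mul_le_mul_of_nonneg_left q2 hβ
      rw [show sv x k = sv (rT T x) k from (sv_rT hk x).symm]
      linarith
    rw [mean_add, mean_add, mean_add, mean_sub v _ fun x => δ * _, mean_add, mean_const_mul,
      mean_const_mul, mean_const_mul, mean_const_mul, mean_const_mul, mean_const_mul] at a3
    linarith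
  have Z1 := sum_le_sum Z
  simp only [sum_add_distrib, sum_sub_distrib, ← mul_sum, ← sum_mul] at Z1
  have e2 : mean v (fun x => log (mT T v x) - LB T (b + c + m) x) =
      mean v (fun x => log (mT T v x)) - ∑ k ∈ T, mean v fun y => lb ((b + c + m) k) (y k) := by
    rw [mean_sub, ← mean_sum v T fun k y => lb ((b + c + m) k) (y k)]; rfl
  have H1 := mul_le_mul_of_nonneg_left (e1 ▸ H) hα
  have E0 := mul_nonneg hβ hS.nn
  simp only [hKd, sum_add_distrib, ← mul_sum] at hηK
  rw [e2, sum_add_distrib, ← mul_sum, ← mul_sum]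
  rw [hδ] at Z1
  linarith

end Crest.Agent.T157.S2t

end
end

-- ▼ part T157/S2Pi_51
section

/-!
# Row 157, part B, S1 (helper51): the reveal through the Stein equation, side of `π`, and the sum
-/

set_option autoImplicit false

noncomputable section

namespace Crest.Agent.T157.S2t

open Real Function Finset
open Crest.Agent.T157.E Crest.Agent.T157.SL Crest.Agent.T157.Ta

section path
variable {Ω : Type*} [Fintype Ω] {W : Ω → ℝ}

/-- the interpolating weight -/
def wP (W S : Ω → ℝ) (t : ℝ) : Ω → ℝ := wt W fun x => (t - 1) * S x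

omit [Fintype Ω] in
lemma wP_one (W S : Ω → ℝ) : wP W S 1 = W := by
  funext x; simp [wP, wt]

lemma wt_wP (hw : Wt W) (S : Ω → ℝ) (t : ℝ) : Wt (wP W S t) := wt_wt hw _

lemma hasDerivAt_logZ (hw : Wt W) (S : Ω → ℝ) (t : ℝ) :
    HasDerivAt (fun t => log (∑ x, wP W S t x)) (mean (wP W S t) S) t := by
  rw [mean_eq_div]
  refine HasDerivAt.log (HasDerivAt.fun_sum fun x _ => ?_) (wt_wt hw _).pos.ne'
  have := ((((hasDerivAt_id t).sub_const 1).mul_const (S x)).exp).const_mul (W x)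
  refine this.congr_deriv ?_
  simp only [wP, wt, id, one_mul, mul_assoc]

lemma path_le {F F' : ℝ → ℝ} (hF : ∀ t, HasDerivAt F (F' t) t) {a E : ℝ}
    (h : ∀ t ∈ Set.Icc (0 : ℝ) 1, F' t ≤ t * a + E) : F 1 - F 0 ≤ a / 2 + E := by
  have d : ∀ t, HasDerivAt (fun t => F t - (t ^ 2 / 2 * a + t * E)) (F' t - (t * a + E)) t :=
    fun t => ((hF t).sub ((((hasDerivAt_pow 2 t).div_const 2).mul_const a).add
      ((hasDerivAt_id t).mul_const E))).congr_deriv (by simp)
  have := antitoneOn_of_deriv_nonpos (convex_Icc (0 : ℝ) 1)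
    (fun t _ => (d t).continuousAt.continuousWithinAt)
    (fun t _ => (d t).differentiableAt.differentiableWithinAt)
    (fun t ht => by rw [(d t).deriv]; linarith [h t (interior_subset ht)])
    ⟨le_rfl, zero_le_one⟩ ⟨zero_le_one, le_rfl⟩ zero_le_one
  norm_num at this
  linarith

end path

variable {n : ℕ} {v w W : Cube n → ℝ} {T : Finset (Fin n)}

lemma cut_wP {A : Type*} [DecidableEq A] (W S : Cube n → ℝ) (ρ : Cube n → A) (a : A) (t : ℝ) :
    cut (wP W S t) ρ a = wP (cut W ρ a) S t := by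
  funext x; simp only [cut, wP, wt]; split_ifs <;> simp

lemma FibPos.wt (hf : FibPos T W) (G : Cube n → ℝ) : FibPos T (wt W G) := fun x hx s =>
  mul_pos (hf x (left_ne_zero_of_mul hx) s) (exp_pos _)

/-- the marginal along the interpolation -/
theorem marg_path (hp : Pr v W) (S : Cube n → ℝ) {a E : ℝ} {Es : Cube n → ℝ}
    (h1 : ∀ t ∈ Set.Icc (0 : ℝ) 1, mean (wP W S t) S ≤ t * a + E)
    (h2 : ∀ x, v x ≠ 0 → ∀ t ∈ Set.Icc (0 : ℝ) 1,
      t * a - Es x ≤ mean (wP (cut W (rT T) (rT T x)) S t) S) :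
    mean v (fun x => log (mT T (wP W S 0) x) - log (mT T W x)) ≤ E + mean v Es := by
  rw [← hp.hv.mean_const E, ← mean_add]
  refine mean_mono_supp hp.hv fun x hx => ?_
  have p := push_pos (ρ := rT T) hp.hw (hp.pos hx).2.ne'
  have hc := wt_cut hp.hw p.ne'
  have a1 := path_le (hasDerivAt_logZ hp.hw S) h1
  have a2 := path_le (a := -a) (E := Es x) (fun t => (hasDerivAt_logZ hc S t).neg)
    fun t ht => by linarith [h2 x hx t ht]
  simp only [wP_one, Pi.neg_apply] at a1 a2
  rw [mT, mT, push_eq, push_eq, cut_wP, log_div (wt_wP hc _ _).pos.ne' (wt_wP hp.hw _ _).pos.ne',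
    log_div hc.pos.ne' hp.hw.pos.ne']
  linarith

/-- **the reveal, side of `π`** -/
theorem revPi (hp : Pr v W) (hf : FibPos T W) (U : Fin n → ℝ) (S : Cube n → ℝ) {a E : ℝ}
    {Es O : Cube n → ℝ} (h1 : ∀ t ∈ Set.Icc (0 : ℝ) 1, mean (wP W S t) S ≤ t * a + E)
    (h2 : ∀ x, v x ≠ 0 → ∀ t ∈ Set.Icc (0 : ℝ) 1,
      t * a - Es x ≤ mean (wP (cut W (rT T) (rT T x)) S t) S)
    (h3 : ∀ x, W x ≠ 0 → ∀ s, (log (W x) - S x - LB T U x) - (log (W (T.piecewise s x)) -
      S (T.piecewise s x) - LB T U (T.piecewise s x)) ≤ O x) :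
    mean v (fun x => LB T U x - log (mT T W x)) ≤ E + mean v Es + mean (wP W S 0) O := by
  have hw : Wt (wP W S 0) := wt_wt hp.hw _
  have a1 := marg_path hp S h1 h2
  have a2 := pi_side (T := T) hp.hv hw (hf.wt _) U
  have e : ∀ x, W x ≠ 0 → log (wP W S 0 x) = log (W x) - S x := fun x hx => by
    rw [wP, wt, log_mul hx (exp_pos _).ne', log_exp]; ring
  have a3 : mean (wP W S 0) (fun x => log (wP W S 0 x) - LB T U x) -
      pm T v (wP W S 0) (fun x => log (wP W S 0 x) - LB T U x) ≤ mean (wP W S 0) O := by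
    rw [pm, ← mean_sub]
    refine mean_mono_supp hw fun x hx => ?_
    have hx' : W x ≠ 0 := left_ne_zero_of_mul hx
    rw [← hp.hv.mean_const (log (wP W S 0 x) - LB T U x), ← mean_sub]
    refine hp.hv.mean_le fun s => ?_
    rw [e x hx', e _ (hf x hx' s).ne']
    exact h3 x hx' s
  rw [mean_sub] at a1 a2 ⊢
  linarith


end Crest.Agent.T157.S2t

end
end

-- ▼ part T157/BrRv_51
section

/-!
# Row 157, part B, S1 (helper51): the reveal in the words of `BrDef_50`
-/

set_option autoImplicit false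

noncomputable section

namespace Crest.Agent.T157.Br

open Real Matrix Function Finset
open Crest.Agent.T157.E Crest.Agent.T157.SL Crest.Agent.T157.Ta Crest.Agent.T157.S2t
open Crest.Agent.T157.Eig (nrm opn)
open Crest.Agent.T157.S3 (hf tau Dg)

variable {n : ℕ} {κ : Type} [Fintype κ]

/-- the features are `N (c + V₁ s, V)` given the spins off `C`, in the sense of Stein -/
def SteinG (v : Cube n → ℝ) (C : Finset (Fin n)) (ι : κ → Fin n) (h : Cube n → κ → ℝ) (c : κ → ℝ)
    (V1 V E γ : ℝ) : Prop :=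
  ∀ F F1 : κ → Cube n → ℝ → ℝ, (∀ k x, Tst 1 (F k x) (F1 k x)) → (∀ k, ∀ j ∈ C, OffAt j (F k)) →
    |mean v fun x => ∑ k, ((h x k - c k - V1 * sT ι x k) * F k x (h x k) - V * F1 k x (h x k))| ≤
      E + γ * mean v fun x => ∑ k, F k x (h x k) ^ 2

/-- what the edge inequalities give for fields supported in `C` -/
def ChiH (J : Matrix (Fin n) (Fin n) ℝ) (y : Fin n → ℝ) (C : Finset (Fin n)) (v w : Cube n → ℝ)
    (ε E c1 c2 : ℝ) : Prop :=
  ∀ g : Cube n → Fin n → ℝ, (∀ x j, j ∉ C → g x j = 0) →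
    |mean v fun x => ∑ j, chi v w j x * g x j| ≤
      E + c1 * mean v (fun x => g x ⬝ᵥ (Dg J y x * g x)) + c2 * mean v fun x => exc ε (g x)

lemma chiH_self (J : Matrix (Fin n) (Fin n) ℝ) (y : Fin n → ℝ) (C : Finset (Fin n))
    (w : Cube n → ℝ) (ε : ℝ) : ChiH J y C w w ε 0 0 0 := fun g _ => by
  simp [chi, mean]

/-- the edge inequalities of `UeE_83` -/
theorem chiH_of {J : Matrix (Fin n) (Fin n) ℝ} {y : Fin n → ℝ} {C : Finset (Fin n)}
    {l f v G : Cube n → ℝ} {e : Cube n → Fin n → ℝ} {η θ ε k : ℝ} (hl : Wt l) (hf0 : ∀ x, 0 < f x)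
    (hv : v = fun x => l x * f x) (h0 : 0 < η) (h1 : η ≤ 1 / 4) (hθ : 0 ≤ θ) (hθ1 : θ ≤ 1)
    (hε : 0 < ε) (hk : ε ≤ k) (fl : Fld J y C v (wt l G) e) :
    ChiH J y C v (wt l G) ε (4 * k * ∑ i ∈ C, As (Ue.rw η θ f i) v (wt l G) i +
      62 * ε / η ^ 2 * ∑ i ∈ C, Ue.Es (Ue.Lw η f i) v l i + mean v fun x => ∑ i ∈ C,
        (4 * ε ^ 2 / k * e x i ^ 2 + 2 * ε * Rec.grad G x i ^ 2)) (28 / k) (1 / ε) := fun g hg => by
  have a := (Ue.chi_sum hl hf0 hv G h0 h1 hθ hθ1 hε hk C (fun i x => g x i) (fun i x => hf J y x i)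
    (fun i x => e x i) fl).1
  have wv : Wt v := hv ▸ hl.mul_pos hf0
  have z : ∀ F : Cube n → Fin n → ℝ, (∀ x j, j ∉ C → F x j = 0) →
      ∑ i ∈ C, mean v (fun x => F x i) = mean v fun x => ∑ j, F x j := fun F hF => by
    rw [← mean_sum]
    exact congrArg _ (funext fun x => sum_subset (subset_univ _) fun j _ hj => hF x j hj)
  rw [z (fun x i => chi v (wt l G) i x * g x i) fun x j hj => by rw [hg x j hj, mul_zero],
    z (fun x i => (1 - tanh (hf J y x i) ^ 2) * g x i ^ 2) fun x j hj => by simp [hg x j hj],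
    ← mean_sum v C fun i x => Ue.cerr k ε (e x i) (Rec.grad G x i) (g x i)] at a
  have b : mean v (fun x => ∑ i ∈ C, Ue.cerr k ε (e x i) (Rec.grad G x i) (g x i)) ≤
      mean v fun x => ∑ i ∈ C, (4 * ε ^ 2 / k * e x i ^ 2 + 2 * ε * Rec.grad G x i ^ 2) +
        1 / ε * exc ε (g x) := wv.mean_mono fun x => by
    have c : 1 / (2 * k) + 1 / (2 * ε) ≤ 1 / ε := by
      have : 1 / (2 * k) ≤ 1 / (2 * ε) := one_div_le_one_div_of_le (by positivity) (by linarith)
      have e : 1 / ε = 1 / (2 * ε) + 1 / (2 * ε) := by field_simp; norm_num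
      linarith
    simp only [Ue.cerr]
    rw [sum_add_distrib, ← mul_sum]
    refine add_le_add_right (mul_le_mul c (sum_le_sum_of_subset_of_nonneg (subset_univ _)
      fun _ _ _ => sq_nonneg _) (sum_nonneg fun _ _ => sq_nonneg _) (by positivity)) _
  rw [mean_add, mean_const_mul] at b
  have e : mean v (fun x => g x ⬝ᵥ (Dg J y x * g x)) =
      mean v fun x => ∑ j, (1 - tanh (hf J y x j) ^ 2) * g x j ^ 2 :=
    congrArg _ (funext fun x => sum_congr rfl fun j _ => by simp only [Pi.mul_apply, Dg]; ring)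
  rw [e]
  linarith

lemma Dg_mem (J : Matrix (Fin n) (Fin n) ℝ) (y : Fin n → ℝ) (x : Cube n) (j : Fin n) :
    0 ≤ Dg J y x j ∧ Dg J y x j ≤ 1 :=
  ⟨sub_nonneg.2 (tanh_sq_le _), sub_le_self _ (sq_nonneg _)⟩

lemma dq_le (d a b : Fin n → ℝ) (hd : ∀ j, 0 ≤ d j ∧ d j ≤ 1) :
    a ⬝ᵥ (d * a) ≤ 2 * (b ⬝ᵥ (d * b)) + 2 * ((a - b) ⬝ᵥ (a - b)) := by
  simp only [dotProduct, mul_sum, ← sum_add_distrib, Pi.mul_apply, Pi.sub_apply]
  refine sum_le_sum fun j _ => ?_
  have h1 := mul_nonneg (hd j).1 (sq_nonneg (a j - 2 * b j))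
  have h2 := mul_nonneg (sub_nonneg.2 (hd j).2) (sq_nonneg (a j - b j))
  nlinarith

lemma exc_le (ε : ℝ) (a b : Fin n → ℝ) :
    exc ε a ≤ 2 * exc ε b + 2 * ((a - b) ⬝ᵥ (a - b)) := by
  simp only [exc, dotProduct, mul_sum, ← sum_add_distrib, Pi.sub_apply]
  refine sum_le_sum fun j _ => ?_
  have h1 : max (|a j| - ε) 0 ≤ max (|b j| - ε) 0 + |a j - b j| := max_le
    (by linarith [le_max_left (|b j| - ε) 0, abs_sub_abs_le_abs_sub (a j) (b j)]) (by positivity)
  have h2 := pow_le_pow_left₀ (le_max_right _ _) h1 2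
  nlinarith [sq_nonneg (max (|b j| - ε) 0 - |a j - b j|), sq_abs (a j - b j)]

lemma dot_le_of_nrm {u : Fin n → ℝ} {r : ℝ} (h : nrm u ≤ r) : u ⬝ᵥ u ≤ r ^ 2 := by
  have := pow_le_pow_left₀ (Eig.nrm_nonneg _) h 2
  rwa [Eig.nrm_sq] at this


/-! ### the reveal indexed by `κ` -/

/-- the revealed spins -/
def rv (ι : κ → Fin n) (x : Cube n) : κ → Bool := fun k => x (ι k)
/-- the revealed sites -/
def Ti (ι : κ → Fin n) : Finset (Fin n) := univ.image ι
/-- logarithm of the product law with half log-odds `U` on the revealed spins -/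
def LK (ι : κ → Fin n) (U : κ → ℝ) (x : Cube n) : ℝ := ∑ k, lb (U k) (x (ι k))

variable {ι : κ → Fin n} {v w W : Cube n → ℝ} {C : Finset (Fin n)} {h : Cube n → κ → ℝ}
  {c : κ → ℝ} {V V1 E γ : ℝ}

lemma mem_Ti (k : κ) : ι k ∈ Ti ι := mem_image_of_mem _ (mem_univ k)

lemma rv_iff {x y : Cube n} : rv ι y = rv ι x ↔ rT (Ti ι) y = rT (Ti ι) x := by
  simp only [rT_eq_iff, Ti, forall_mem_image, mem_univ, true_imp_iff]
  exact funext_iff

lemma sum_Ti (hι : Injective ι) (f : Fin n → ℝ) : ∑ j ∈ Ti ι, f j = ∑ k, f (ι k) :=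
  sum_image fun _ _ _ _ h => hι h

lemma push_rv (v : Cube n → ℝ) (x : Cube n) : push v (rv ι) (rv ι x) = mT (Ti ι) v x := by
  simp only [mT, push, rv_iff]

lemma cut_rv (v : Cube n → ℝ) (x : Cube n) :
    cut v (rv ι) (rv ι x) = cut v (rT (Ti ι)) (rT (Ti ι) x) := by
  funext y; simp only [cut, rv_iff]

lemma LB_ext (hι : Injective ι) (U : κ → ℝ) (x : Cube n) :
    LB (Ti ι) (extend ι U 0) x = LK ι U x := by
  rw [LB, sum_Ti hι]; simp only [hι.extend_apply, LK]

lemma SteinG.steinH (hι : Injective ι) (hC : ∀ k, ι k ∉ C) (hS : SteinG v C ι h c V V E γ) :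
    SteinH v (Ti ι) (extend ι (fun k x => h x k) 0) (extend ι c 0) V E γ := fun F F1 hF => by
  have := hS (fun k x => F (ι k) (rT (Ti ι) x)) (fun k x => F1 (ι k) (rT (Ti ι) x))
    (fun k x => hF _ _) fun k j hj => (off_rT (T := Ti ι) fun h => by
      obtain ⟨k', -, rfl⟩ := mem_image.1 h
      exact hC k' hj).comp _
  simpa only [sum_Ti hι, hι.extend_apply, sT] using this

/-- the derivative along the interpolation of the reference law -/
lemma SteinG.path (hC : ∀ k, ι k ∉ C) (hw : Wt w) (hS : SteinG w C ι h c V1 V E 0) :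
    |mean w (fun x => sT ι x ⬝ᵥ (h x - c)) - V1 * Fintype.card κ| ≤ E := by
  have := hS (fun k x _ => sT ι x k) (fun _ _ _ => 0) (fun k x => ⟨fun _ => 0,
    fun t => hasDerivAt_const t _, fun t => hasDerivAt_const t _, fun _ =>
      ⟨(abs_sv x _).le, by simp, by simp⟩⟩) fun k j hj x b => by
    funext t
    simp only [sT, sv, update_of_ne (ne_of_mem_of_not_mem hj (hC k)).symm]
  rw [zero_mul, add_zero] at this
  rw [← hw.mean_const (V1 * Fintype.card κ), ← mean_sub]
  refine le_of_eq_of_le (congrArg _ (congrArg _ (funext fun x => ?_))) this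
  rw [dotProduct, ← card_univ, card_eq_sum_ones, Nat.cast_sum, mul_sum, ← sum_sub_distrib]
  refine sum_congr rfl fun k _ => ?_
  rcases sv_pm x (ι k) with e | e <;> simp only [sT, e, Pi.sub_apply] <;> push_cast <;> ring

/-- **the reveal, side of `π`** -/
theorem revPiK (hι : Injective ι) (hp : Pr v W) (hf : FibPos (Ti ι) W) (U : κ → ℝ) (S : Cube n → ℝ)
    {a E : ℝ} {Es O : Cube n → ℝ} (h1 : ∀ t ∈ Set.Icc (0 : ℝ) 1, mean (wP W S t) S ≤ t * a + E)
    (h2 : ∀ x, v x ≠ 0 → ∀ t ∈ Set.Icc (0 : ℝ) 1,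
      t * a - Es x ≤ mean (wP (cut W (rv ι) (rv ι x)) S t) S)
    (h3 : ∀ x, W x ≠ 0 → ∀ s, (log (W x) - S x - U ⬝ᵥ sT ι x) - (log (W ((Ti ι).piecewise s x)) -
      S ((Ti ι).piecewise s x) - U ⬝ᵥ sT ι ((Ti ι).piecewise s x)) ≤ O x) :
    mean v (fun x => LK ι U x - log (push W (rv ι) (rv ι x))) ≤
      E + mean v Es + mean (wP W S 0) O := by
  have := revPi hp hf (extend ι U 0) S h1 (fun x hx => by rw [← cut_rv]; exact h2 x hx)
    (O := O) fun x hx s => by
      have := h3 x hx s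
      simp only [LB_ext hι, LK, lb, sum_sub_distrib]
      simp only [dotProduct, sT, sv] at this
      linarith
  simpa only [LB_ext hι, push_rv] using this

/-- **the reveal** (HS4) -/
theorem revK [DecidableEq κ] (hι : Injective ι) (hC : ∀ k, ι k ∉ C) (hp : Pr v w) (he : EdgePos (Ti ι) v w)
    (hW : Pr v W) (hS : SteinG v C ι h c V V E γ) (hV0 : 0 ≤ V) (hV1 : V ≤ 1) (hγ : 0 ≤ γ)
    (hK : γ * exp 16 ≤ 1) (b m : κ → ℝ) {α β c1 c2 E' : ℝ} (hα : 0 ≤ α) (hβ : 0 ≤ β) (h1 : 0 < c1)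
    (h2 : 0 ≤ c2) (hc : c1 + c2 + Ctp * (α + β) * (V + γ) ≤ β / 2)
    (hE : mean v (fun x => LK ι (b + c + m) x - log (push W (rv ι) (rv ι x))) ≤ E') :
    α * Ent.kl (push v (rv ι)) (push W (rv ι)) +
      c2 * ∑ k, (mag v (ι k) - tanh (b k + c k)) ^ 2 ≤
      ∑ k, (α * As (fun _ => 1) v w (ι k) + β / 2 * mean v fun x => chi v w (ι k) x ^ 2) +
      α / 2 * (1 + α / (2 * c1)) * (m ⬝ᵥ m) +
      2 * (α + β) * ∑ k, mean v (fun x => |uf w (ι k) x - (b k + h x k)|) +
      3336 * (α + β) * E + α * E' := by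
  have a1 := revNu hp he (hS.steinH hι hC) hV0 hV1 hγ hK (extend ι b 0) (extend ι m 0) hα hβ h1 h2 hc
  have e : ∀ x, LB (Ti ι) (extend ι b 0 + extend ι c 0 + extend ι m 0) x = LK ι (b + c + m) x :=
    fun x => by rw [LB, sum_Ti hι]; simp only [Pi.add_apply, hι.extend_apply, LK]
  simp only [sum_Ti hι, hι.extend_apply, e, ← push_rv] at a1
  have a2 := mul_le_mul_of_nonneg_left hE hα
  rw [kl_push hW, dotProduct]
  rw [mean_sub] at a1 a2 ⊢
  simp only [← sq]
  linarith

end Crest.Agent.T157.Br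

end
end

-- ▼ part T157/BrFl_51

/-!
# Row 157, part B, S1 (helper51): local fields of pinned weights; oscillation on a subcube
-/

set_option autoImplicit false

noncomputable section

namespace Crest.Agent.T157.Br

open Real Matrix Function Finset
open Crest.Agent.T157.E Crest.Agent.T157.SL Crest.Agent.T157.Ta Crest.Agent.T157.S2t
open Crest.Agent.T157.Rec (grad fl grad_eq grad_add grad_sub grad_lin grad_const grad_const_mul)
open Crest.Agent.T157.Eig (nrm opn)
open Crest.Agent.T157.S3 (hf tau Dg)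
open Crest.Agent.T157.Xt (Lip2)

variable {n : ℕ} {κ : Type} [Fintype κ]

/-! ### oscillation on a subcube -/

theorem osc_aux {T : Finset (Fin n)} {F : Cube n → ℝ} {r : Cube n → Fin n → ℝ} {e B : ℝ}
    (hB : 0 ≤ B) (x' : Cube n) (h : ∀ x, (∀ i, i ∉ T → x i = x' i) →
      (∀ j ∈ T, F x - F (fl x j) ≤ e + |r x j|) ∧ ∑ j ∈ T, r x j ^ 2 ≤ B ^ 2) :
    ∀ (d : ℕ) (x : Cube n), (∀ i, i ∉ T → x i = x' i) → #{j | x j ≠ x' j} = d →
      F x - F x' ≤ e * d + 2 * B * √d := by
  intro d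
  induction d with
  | zero =>
    intro x _ hx
    have : x = x' := funext fun j => by
      by_contra hj
      exact (card_eq_zero.1 hx ▸ notMem_empty j) (mem_filter.2 ⟨mem_univ j, hj⟩)
    simp [this]
  | succ d ih =>
    intro x hT hx
    set S : Finset (Fin n) := {j | x j ≠ x' j} with hS
    have hne : S.Nonempty := card_pos.1 (by omega)
    have sub : S ⊆ T := fun j hj => by_contra fun h => (mem_filter.1 hj).2 (hT j h)
    obtain ⟨j, hj, hmin⟩ := exists_min_image S (fun j => r x j ^ 2) hne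
    have h1 : ((d : ℝ) + 1) * |r x j| ^ 2 ≤ B ^ 2 := by
      have := card_nsmul_le_sum S _ _ hmin
      rw [hx, nsmul_eq_mul, Nat.cast_succ] at this
      rw [sq_abs]
      exact this.trans ((sum_le_sum_of_subset_of_nonneg sub fun _ _ _ => sq_nonneg _).trans
        (h x hT).2)
    have h2 := ih (fl x j) (fun i hi => by
      rw [fl, update_of_ne (ne_of_mem_of_not_mem (sub hj) hi).symm, hT i hi]) (by
      have : (univ.filter fun k => fl x j k ≠ x' k) = S.erase j := by
        ext k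
        rw [mem_filter, mem_erase, hS, mem_filter, fl]
        by_cases hk : k = j
        · subst hk
          have := (mem_filter.1 hj).2
          rw [update_self]
          revert this; cases x k <;> cases x' k <;> simp
        · rw [update_of_ne hk]; simp [hk]
      rw [this, card_erase_of_mem hj, hx]; rfl)
    have m1 := (h x hT).1 j (sub hj)
    have m0 := abs_nonneg (r x j)
    set m := |r x j|
    have d0 : (0 : ℝ) ≤ d := d.cast_nonneg
    rw [Nat.cast_succ]
    have a0 := sqrt_nonneg (d : ℝ)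
    have a1 := sq_sqrt d0
    have b0 : 0 < √((d : ℝ) + 1) := sqrt_pos.2 (by linarith)
    have b1 := sq_sqrt (by linarith : (0 : ℝ) ≤ d + 1)
    set a := √(d : ℝ)
    set b := √((d : ℝ) + 1)
    have h3 : b * m ≤ B := le_of_sq_le_sq (by rw [mul_pow, b1]; exact h1) hB
    have h4 : 1 ≤ 2 * b * (b - a) := by nlinarith [sq_nonneg (b - a)]
    have h5 : m ≤ 2 * B * (b - a) := by
      refine le_of_mul_le_mul_left (h3.trans ?_) b0
      nlinarith [mul_le_mul_of_nonneg_left h4 hB]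
    linarith

theorem osc_sub {T : Finset (Fin n)} {F : Cube n → ℝ} {r : Cube n → Fin n → ℝ} {e B : ℝ}
    (he : 0 ≤ e) (hB : 0 ≤ B) {x x' : Cube n} (hx : ∀ i, i ∉ T → x i = x' i)
    (h : ∀ x, (∀ i, i ∉ T → x i = x' i) →
      (∀ j ∈ T, F x - F (fl x j) ≤ e + |r x j|) ∧ ∑ j ∈ T, r x j ^ 2 ≤ B ^ 2) :
    F x - F x' ≤ e * #T + 2 * B * √(#T) := by
  have c0 : #{j | x j ≠ x' j} ≤ #T :=
    card_le_card fun j hj => by_contra fun h => (mem_filter.1 hj).2 (hx j h)
  have c : (#{j | x j ≠ x' j} : ℝ) ≤ #T := by exact_mod_cast c0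
  refine (osc_aux hB x' h _ x hx rfl).trans ?_
  gcongr

/-- a two-sided Lipschitz function on a subcube -/
theorem lip2_sub {T : Finset (Fin n)} {G : Cube n → ℝ} {A : ℝ} (hG : Lip2 A G) {x x' : Cube n}
    (hx : ∀ i, i ∉ T → x i = x' i) : G x - G x' ≤ 2 * A * √(#T) := by
  have := osc_sub (F := G) (r := fun x j => G x - G (fl x j)) le_rfl hG.nn hx fun y _ =>
    ⟨fun j _ => by rw [zero_add]; exact le_abs_self _, (sum_le_sum_of_subset_of_nonneg
      (subset_univ _) fun _ _ _ => sq_nonneg _).trans ((Xt.lip2_iff hG.nn).1 hG y)⟩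
  linarith

/-- **OSC**: `|dΘ - Ω| ≤ G` on `T`, `|Ω|_∞ ≤ e`, `G` two-sided Lipschitz -/
theorem osc_cl {T : Finset (Fin n)} {Θ G : Cube n → ℝ} {Ω : Cube n → Fin n → ℝ} {e A δ : ℝ}
    (he : 0 ≤ e) (hδ : 0 < δ) (hΩ : ∀ x, ∀ j ∈ T, |Ω x j| ≤ e)
    (hG : ∀ x, nrm (grad Θ x - Ω x) ≤ G x) (hA : Lip2 A G) {x x' : Cube n}
    (hx : ∀ i, i ∉ T → x i = x' i) : |Θ x - Θ x'| ≤ (2 * e + 8 * A + 4 * δ) * #T + G x ^ 2 / δ := by
  have G0 : ∀ x, 0 ≤ G x := fun x => (Eig.nrm_nonneg _).trans (hG x)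
  have A0 := hA.nn
  have k : ∀ y : Cube n, (∀ i, i ∉ T → y i = x i) → (∀ j ∈ T, |Θ y - Θ (fl y j)| ≤
      2 * e + |2 * (grad Θ y - Ω y) j|) ∧
      ∑ j ∈ T, (2 * (grad Θ y - Ω y) j) ^ 2 ≤ (2 * (G x + 2 * A * √(#T))) ^ 2 := fun y hy => by
    constructor
    · intro j hj
      have e1 : |Θ y - Θ (fl y j)| = |2 * grad Θ y j| := by
        rw [Da.Gr.val_fl Θ, sub_sub_cancel, mul_assoc, mul_left_comm, abs_mul, abs_sv, one_mul]
      have := abs_add_le (2 * Ω y j) (2 * (grad Θ y - Ω y) j)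
      rw [show 2 * Ω y j + 2 * (grad Θ y - Ω y) j = 2 * grad Θ y j by simp only [Pi.sub_apply]; ring,
        abs_mul 2 (Ω y j), abs_two] at this
      linarith [hΩ y j hj]
    · have h1 := dot_le_of_nrm ((hG y).trans (sub_le_iff_le_add'.1 (lip2_sub hA hy)))
      simp only [mul_pow (2 : ℝ), ← mul_sum]
      refine mul_le_mul_of_nonneg_left (le_trans ?_ h1) (by positivity)
      simp only [dotProduct, ← sq]
      exact sum_le_sum_of_subset_of_nonneg (subset_univ _) fun _ _ _ => sq_nonneg _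
  have b0 : 0 ≤ 2 * (G x + 2 * A * √(#T)) := by have := G0 x; positivity
  have o1 := osc_sub (F := Θ) (by positivity : 0 ≤ 2 * e) b0 hx fun y hy =>
    have := k y fun i hi => (hy i hi).trans (hx i hi).symm
    ⟨fun j hj => (le_abs_self _).trans (this.1 j hj), this.2⟩
  have o2 := osc_sub (F := Θ) (by positivity : 0 ≤ 2 * e) b0 (fun i hi => (hx i hi).symm) fun y hy =>
    ⟨fun j hj => (le_abs_self _).trans ((k y hy).1 j hj), (k y hy).2⟩
  have s := sq_sqrt (Nat.cast_nonneg (α := ℝ) #T)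
  have q : 4 * G x * √(#T) ≤ 4 * δ * #T + G x ^ 2 / δ := by
    have : 0 ≤ (G x - 2 * δ * √(#T)) ^ 2 / δ := by positivity
    rw [show (G x - 2 * δ * √(#T)) ^ 2 / δ = G x ^ 2 / δ - 4 * G x * √(#T) + 4 * δ * √(#T) ^ 2 by
      field_simp; ring, s] at this
    linarith
  have q2 : A * √(#T) * √(#T) = A * #T := by rw [mul_assoc, ← sq, s]
  exact abs_le.2 ⟨by linarith, by linarith⟩

lemma piece_off (T : Finset (Fin n)) (s x : Cube n) : ∀ i, i ∉ T → x i = T.piecewise s x i :=
  fun _ hi => (piecewise_eq_of_notMem _ _ _ hi).symm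

/-! ### local fields -/

lemma grad_off {F : Cube n → ℝ} {j : Fin n} (h : OffAt j F) (x : Cube n) : grad F x j = 0 := by
  rw [grad_eq, fl, h, sub_self, mul_zero, zero_div]

lemma grad_congr {F G : Cube n → ℝ} {x : Cube n} {j : Fin n}
    (h : ∀ b, F (update x j b) = G (update x j b)) : grad F x j = grad G x j := by
  simp only [grad, incr, h]



variable {J : Matrix (Fin n) (Fin n) ℝ} {y : Fin n → ℝ}

lemma grad_ising (hJ : Jᵀ = J) (h0 : ∀ j, J j j = 0) (x : Cube n) (j : Fin n) :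
    grad (fun x => log (ising J y x)) x j = hf J y x j := by
  rw [grad_eq, Da.Gr.ising_fl hJ, log_mul (Da.Gr.ising_pos J y x).ne' (exp_pos _).ne', log_exp,
    Da.Gr.loc, h0, hf, Pi.add_apply]
  linear_combination ((J *ᵥ sv x) j + y j) * Rec.sv_mul_self x j

/-- the local field of `μ e^G l` at a site which `l` does not see -/
theorem uf_eq (hJ : Jᵀ = J) (h0 : ∀ j, J j j = 0) {W G l : Cube n → ℝ} {j : Fin n}
    (hW : ∀ x, W x = ising J y x * exp (G x) * l x) (hl : OffAt j l) {x : Cube n} (hx : 0 < l x) :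
    (∀ b, 0 < W (update x j b)) ∧ uf W j x = hf J y x j + grad G x j := by
  refine ⟨fun b => by
    rw [hW, hl]; exact mul_pos (mul_pos (Da.Gr.ising_pos _ _ _) (exp_pos _)) hx, ?_⟩
  rw [uf, grad_congr (G := fun z => log (ising J y z) + G z + log (l x)) fun b => by
    rw [hW, hl, log_mul (mul_pos (Da.Gr.ising_pos _ _ _) (exp_pos _)).ne' hx.ne',
      log_mul (Da.Gr.ising_pos _ _ _).ne' (exp_pos _).ne', log_exp],
    grad_add, grad_add, grad_const, add_zero, Pi.add_apply, grad_ising hJ h0]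


theorem fibPos_of {T : Finset (Fin n)} {W G l : Cube n → ℝ}
    (hW : ∀ x, W x = ising J y x * exp (G x) * l x) (l0 : ∀ x, 0 ≤ l x)
    (hl : ∀ s x, l (T.piecewise s x) = l x) : FibPos T W := fun x hx s => by
  rw [hW] at hx ⊢
  rw [hl]
  exact mul_pos (mul_pos (Da.Gr.ising_pos _ _ _) (exp_pos _))
    ((l0 x).lt_of_ne' (right_ne_zero_of_mul hx))

end Crest.Agent.T157.Br

end
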