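import Crest.Agent.T157.BrDef_50

/-!
# Row 157, block B, S1: martingales and supermartingales of the burst (helper54)
-/

set_option autoImplicit false
set_option linter.unusedVariables false
set_option linter.unusedSectionVars false

noncomputable section

namespace Crest.Agent.T157.Br

open Real Matrix Function MeasureTheory
open Crest.Agent.T157.E Crest.Agent.T157.SL Crest.Agent.T157.Ta

namespace Sm54

variable {Ω κ : Type} [Fintype Ω] [Fintype κ] [DecidableEq κ] {φ : Ω → κ → ℝ} {v μ : Ω → ℝ}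
  {P p s : ℝ}

theorem mg_shift {F : (κ → ℝ) → ℝ} (h : XG F) (z : κ → ℝ) : MG fun g => F (z + g) := by
  simpa using h.mg.affine z 1

theorem xg_sq (a : κ → ℝ) : XG fun y : κ → ℝ => (y - a) ⬝ᵥ (y - a) :=
  .sum _ fun i _ => ((LG.coord i).sub (.const (a i))).xg.mul ((LG.coord i).sub (.const (a i))).xg

theorem int_sq (u : κ → ℝ) (t : ℝ) :
    ∫ g, (u + t • g) ⬝ᵥ (u + t • g) ∂Gs κ = u ⬝ᵥ u + t ^ 2 * Fintype.card κ := by
  have e : ∀ g : κ → ℝ, (u + t • g) ⬝ᵥ (u + t • g) =
      (u ⬝ᵥ u + 2 * t * (u ⬝ᵥ g)) + t ^ 2 * ∑ i, g i * g i := fun g => by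
    simp only [dotProduct_add, add_dotProduct, dotProduct_smul, smul_dotProduct, smul_eq_mul,
      dotProduct_comm g u]
    rw [show g ⬝ᵥ g = ∑ i, g i * g i from rfl]; ring
  have i1 := ((LG.dot u).xg.mg.const_mul (2 * t)).int
  have i2 := fun i : κ => ((Rec.mg_coord i).mul (Rec.mg_coord i)).int
  have i3 : Integrable (fun g => u ⬝ᵥ u + 2 * t * (u ⬝ᵥ g)) (Gs κ) := (integrable_const _).add i1
  simp only [e]
  rw [integral_add i3 ((integrable_finsetSum _ fun i _ => i2 i).const_mul _),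
    integral_add (integrable_const _) i1, integral_const_mul, integral_const_mul, int_dot,
    integral_finsetSum _ fun i _ => i2 i]
  simp [Rec.int_coord_mul]

/-- second moment of the shifted observation -/
theorem slE_sq (hs : 0 ≤ s) (a : κ → ℝ) : slE φ v s (fun _ g => (g - a) ⬝ᵥ (g - a)) =
    mean v fun x => (s • φ x - a) ⬝ᵥ (s • φ x - a) + s * Fintype.card κ := by
  simp only [slE_eq_mean, add_sub_right_comm, int_sq, sq_sqrt hs]

theorem xg_cE (hv : Wt v) {F : Ω → (κ → ℝ) → ℝ} (hF : ∀ x, XG (F x)) (p : ℝ) : XG (cE φ v P F p) :=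
  .of_mg (mg_mean hv p fun x => (hF x).mg.conv ((P - p) • φ x) √(P - p))

theorem sm_cE (hv : Wt v) {F : Ω → (κ → ℝ) → ℝ} (hF : ∀ x, XG (F x)) : SM φ v P (cE φ v P F) :=
  ⟨xg_cE hv hF, fun p h z hp hh hP => by
    have := markov (φ := φ) (hv.post φ p z) hh (show 0 ≤ P - (p + h) by linarith)
      fun x => mg_shift (hF x) z
    rw [show h + (P - (p + h)) = P - p by ring] at this
    simp only [cE, this, post_post, add_assoc, le_refl]⟩

theorem sm_add {Y Y' : ℝ → (κ → ℝ) → ℝ} {c : ℝ} (h : SM φ v P Y) (h' : SM φ v P Y') (hc : 0 ≤ c) :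
    SM φ v P fun p z => Y p z + c * Y' p z :=
  ⟨fun p => (h.1 p).add ((h'.1 p).const_mul c), fun p r z hp hr hP => by
    rw [slE_add (.of_mg fun _ => mg_shift (h.1 _) z) (.of_mg fun _ => (mg_shift (h'.1 _) z).const_mul c),
      slE_const_mul c fun _ g => Y' (p + r) (z + g)]
    exact add_le_add (h.2 p r z hp hr hP) (mul_le_mul_of_nonneg_left (h'.2 p r z hp hr hP) hc)⟩

theorem sm_mean (hv : Wt v) (f : Ω → ℝ) : SM φ v P fun p z => mean (post φ v p z) f :=
  ⟨fun p => .of_mg (mg_mean hv p fun x => .const (f x)), fun p r z hp hr hP => by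
    simp only [← post_post, slE_mean (hv.post φ p z) hr, le_refl]⟩

theorem sm_const (hv : Wt v) (c : ℝ) : SM φ v P fun _ _ => c := by
  simpa only [(hv.post φ _ _).mean_const] using sm_mean (φ := φ) (P := P) hv fun _ => c

theorem sm_smul (hv : Wt v) {Y : ℝ → (κ → ℝ) → ℝ} {c : ℝ} (h : SM φ v P Y) (hc : 0 ≤ c) :
    SM φ v P fun p z => c * Y p z := by
  simpa only [zero_add] using sm_add (sm_const hv 0) h hc

theorem sm_add' {Y Y' : ℝ → (κ → ℝ) → ℝ} (h : SM φ v P Y) (h' : SM φ v P Y') :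
    SM φ v P fun p z => Y p z + Y' p z := by
  simpa only [one_mul] using sm_add h h' zero_le_one


theorem sm_Ar {n : ℕ} {φ : Cube n → κ → ℝ} {v w : Cube n → ℝ} {r : Fin n → Cube n → ℝ} (h : Pr v w)
    (hr : Off r) (h0 : ∀ i x, 0 ≤ r i x) : SM φ v P fun p z => Ar r (post φ v p z) (post φ w p z) :=
  ⟨fun p => xg_Ar h hr (lg_lk φ p) (lg_lk φ p), fun p s z hp hs hP => by
    simpa only [post_post] using Ar_chan_le (φ := φ) (h.post φ p p z z) hs hr h0⟩

theorem pr (hv : Wt v) (hμ : ∀ x, 0 < μ x) : Pr v μ :=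
  haveI : Nonempty Ω := ⟨hv.exists_pos.choose⟩
  ⟨hv, .of_pos hμ, fun x e => absurd e (hμ x).ne'⟩

theorem xg_klp (h : Pr v μ) (p : ℝ) : XG fun y => kl (post φ v p y) μ := by
  simpa only [wt_zero, ← post_eq] using xg_kl h (lg_lk φ p) fun _ => LG.const 0

theorem kl_post (h : Pr v μ) (y : κ → ℝ) : kl (post φ v s y) μ =
    mean (post φ v s y) fun x => log (prob v x / prob μ x) + lk φ s x y -
      log (mean v fun x => exp (lk φ s x y)) := by
  simpa only [wt_zero, ← post_eq, sub_zero, exp_zero, h.hw.mean_const, log_one, add_zero] using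
    kl_wt2 h (fun x => lk φ s x y) fun _ => 0

/-- the entropy with respect to a fixed reference is a submartingale -/
theorem kl_le (h : Pr v μ) (hs : 0 ≤ s) : kl v μ ≤ slE φ v s fun _ y => kl (post φ v s y) μ := by
  rw [show kl v μ = mean v fun x => log (prob v x / prob μ x) from rfl, ← slE_mean (φ := φ) h.hv hs]
  refine slE_mono h.hv (.of_mg fun _ => mg_mean h.hv s fun _ => .const _)
    (.of_mg fun _ => (xg_klp h s).mg) fun _ y => ?_
  have h0 := (show Pr (post φ v s y) v from ⟨h.hv.post _ _ _, h.hv, fun x e => by simp [post, e]⟩).kl_nonneg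
  rw [kl_post (.refl h.hv), mean_congr_supp (g := fun x => lk φ s x y -
    log (mean v fun x => exp (lk φ s x y))) fun x hx => by
      rw [div_self (a := prob v x) (div_pos (h.hv.pos_of_ne x (left_ne_zero_of_mul hx)) h.hv.pos).ne',
        log_one, zero_add]] at h0
  rw [kl_post h]
  simp only [add_sub_assoc, mean_add]
  linarith

/-- the information of the channel -/
theorem kl_ge (h : Pr v μ) (hs : 0 ≤ s) (a : κ → ℝ) : slE φ v s (fun _ y => kl (post φ v s y) μ) ≤
    kl v μ + s / 2 * mean v fun x => (φ x - a) ⬝ᵥ (φ x - a) := by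
  set Z : (κ → ℝ) → ℝ := fun y => log (mean v fun x => exp (lk φ s x y)) with hZ
  have lv : LG Z := .lme h.hv.nn (lg_lk φ s)
  have la : LG fun y => a ⬝ᵥ y - s / 2 * (a ⬝ᵥ a) := (LG.dot a).sub (.const _)
  have lx : ∀ x, LG fun y => 1 * ((φ x - a) ⬝ᵥ y - s / 2 * (φ x ⬝ᵥ φ x - a ⬝ᵥ a)) := fun x =>
    ((LG.dot _).sub (.const _)).const_mul 1
  have le : MG fun y => exp (a ⬝ᵥ y - s / 2 * (a ⬝ᵥ a) - Z y) := (la.sub lv).exp.mg
  have l1 : ∀ x, MG fun y => log (prob v x / prob μ x) + lk φ s x y - Z y := fun x =>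
    (((LG.const _).add (lg_lk φ s x)).sub lv).xg.mg
  have e1 : slE φ v s (fun _ y => kl (post φ v s y) μ) =
      slE φ v s fun x y => log (prob v x / prob μ x) + lk φ s x y - Z y := by
    rw [bayes h.hv hs (.of_mg l1)]
    simp only [kl_post h, hZ]
  have e2 : slE φ v s (fun _ y => exp (a ⬝ᵥ y - s / 2 * (a ⬝ᵥ a) - Z y)) = 1 := by
    rw [slE_eq_ref' hs (.of_mg fun _ => le)]
    have e : ∀ z : κ → ℝ, (∑ x, post φ v s (√s • z) x *
        exp (a ⬝ᵥ √s • z - s / 2 * (a ⬝ᵥ a) - Z (√s • z))) = (∑ x, v x) * Rec.eh (√s • a) z := fun z => by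
      have a1 : 0 < mean v fun x => exp (lk φ s x (√s • z)) := mean_pos' h.hv fun _ => exp_pos _
      have a3 : ∑ x, post φ v s (√s • z) x = (∑ x, v x) * mean v fun x => exp (lk φ s x (√s • z)) := by
        rw [mean_eq_div, mul_div_cancel₀ _ h.hv.pos.ne']; rfl
      have a4 : Rec.eh (√s • a) z = exp (a ⬝ᵥ √s • z - s / 2 * (a ⬝ᵥ a)) := by
        simp only [Rec.eh, smul_dotProduct, dotProduct_smul, smul_eq_mul, ← mul_assoc, mul_self_sqrt hs,
          dotProduct_comm a z]
        congr 1; ring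
      rw [← Finset.sum_mul, a3, exp_sub _ (Z _), hZ, exp_log a1, a4]
      field_simp
    simp only [e]
    rw [integral_const_mul, mul_div_cancel_left₀ _ h.hv.pos.ne', Rec.int_eh]
  rw [e1]
  refine (slE_mono (F' := fun x y => log (prob v x / prob μ x) - 1 +
    1 * ((φ x - a) ⬝ᵥ y - s / 2 * (φ x ⬝ᵥ φ x - a ⬝ᵥ a)) + exp (a ⬝ᵥ y - s / 2 * (a ⬝ᵥ a) - Z y)) h.hv
    (.of_mg l1) (.of_mg fun x => ((LG.const _).add (lx x)).xg.mg.add le) fun x y => by
      simp only [lk, sub_dotProduct, dotProduct_comm y]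
      linarith [add_one_le_exp (a ⬝ᵥ y - s / 2 * (a ⬝ᵥ a) - Z y)]).trans_eq ?_
  rw [slE_add (.of_mg fun x => ((LG.const _).add (lx x)).xg.mg) (.of_mg fun _ => le), e2,
    slE_add (.of_mg fun x => .const _) (.of_mg fun x => (lx x).xg.mg), slE_fun,
    slE_lin (fun _ => 1) (fun x => φ x - a) fun x => s / 2 * (φ x ⬝ᵥ φ x - a ⬝ᵥ a), mean_sub,
    h.hv.mean_const, ← mean_const_mul]
  change kl v μ - 1 + _ + _ = _
  rw [mean_congr_supp (v := v) (g := fun x => s / 2 * ((φ x - a) ⬝ᵥ (φ x - a))) fun x _ => by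
    simp only [sub_dotProduct, dotProduct_sub, dotProduct_comm (φ x) a]; ring]
  ring

theorem dot_le (a b : κ → ℝ) (hs : 0 ≤ s) (hP : s ≤ P) :
    a ⬝ᵥ a ≤ 2 * ((a + s • b) ⬝ᵥ (a + s • b)) + 2 * P ^ 2 * (b ⬝ᵥ b) := by
  simp only [dotProduct, Finset.mul_sum, ← Finset.sum_add_distrib, Pi.add_apply, Pi.smul_apply,
    smul_eq_mul]
  refine Finset.sum_le_sum fun i _ => ?_
  nlinarith [sq_nonneg (a i + 2 * (s * b i)), mul_le_mul_of_nonneg_right (pow_le_pow_left₀ hs hP 2)
    (mul_self_nonneg (b i))]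

end Sm54

open Sm54 in
theorem smStmt : SMStmt := by
  intro Ω κ _ _ _ φ v P hv
  refine ⟨fun F hF => ⟨sm_cE hv hF, by simp [cE, post_zero], fun z => by simp [cE, slE_zero]⟩,
    fun Y Y' c => sm_add, sm_mean hv, fun μ xb hμ p z hp hP => ⟨?_, ?_, fun F c hF => ?_,
      xg_klp (pr hv hμ) p, kl_ge (pr hv hμ) hp xb, ?_⟩⟩
  · have := kl_le (φ := φ) (pr (hv.post φ p z) hμ) (sub_nonneg.2 hP)
    simpa only [post_post, add_sub_cancel, cE] using this
  · have e : ∀ g : κ → ℝ, z + g - P • xb = g - (P • xb - z) := fun g => by abel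
    have hs := sub_nonneg.2 hP
    simp only [cE, e]
    rw [slE_add (.of_mg fun _ => (xg_sq _).mg.const_mul 2) (.of_mg fun _ => .const _),
      slE_const_mul 2 fun _ g => (g - (P • xb - z)) ⬝ᵥ (g - (P • xb - z)), slE_sq hs, slE_fun,
      ← mean_const_mul, ← mean_add]
    refine (hv.post φ p z).le_mean fun x => ?_
    have := dot_le (z - p • xb) (φ x - xb) hs (show P - p ≤ P by linarith)
    rw [show z - p • xb + (P - p) • (φ x - xb) = (P - p) • φ x - (P • xb - z) by module] at this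
    nlinarith [mul_nonneg hs (Nat.cast_nonneg (α := ℝ) (Fintype.card κ))]
  · have hm : ∀ x, MG fun g => max (F x (z + g) - c) 0 := fun x =>
      ((mg_shift (hF x) z).sub (.const c)).of_le
        (((mg_shift (hF x) z).sub (.const c)).meas.max measurable_const) fun g => by
          rcases le_total (F x (z + g) - c) 0 with h | h <;> simp [h]
    refine max_le ?_ (slE_nonneg (hv.post φ p z) fun _ _ => le_max_right _ _)
    have := slE_mono (φ := φ) (s := P - p) (hv.post φ p z)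
      (.of_mg fun x => (mg_shift (hF x) z).sub (.const c)) (.of_mg hm) fun _ _ => le_max_left _ _
    rwa [slE_sub (.of_mg fun x => mg_shift (hF x) z) (.of_mg fun _ => .const c), slE_fun,
      (hv.post φ p z).mean_const] at this
  · rw [slE_sq hp, mean_add, hv.mean_const, ← mean_const_mul]
    simp only [← smul_sub, smul_dotProduct, dotProduct_smul, smul_eq_mul, sq, mul_assoc]

end Crest.Agent.T157.Br
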