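import Crest.Agent.T157.S1BuB_83
import Crest.Agent.T157.S1Cr_89
import Crest.Agent.T157.BrSm_54
import Crest.Agent.T157.BrKb_61
import Crest.Agent.T157.BrDef_50
import Crest.Agent.T157.OkDef_35
import Crest.Agent.T157.NrmS_84
import Crest.Agent.T157.S1Bud_6
import Crest.Agent.T157.S3HbS_80
import Crest.Agent.T157.S1An_90
import Crest.Agent.T157.S1SupDef_30
import Crest.Agent.T157.S1W_6
import Crest.Agent.T157.S1F1_25

-- ▼ part T157/S1BuC_83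
section

/-!
# Row 157, block S1 (helper83): the continuation value of the burst
-/

set_option autoImplicit false

noncomputable section

namespace Crest.Agent.T157.S1.Bu83

open Real Matrix Finset MeasureTheory
open Crest.Agent.T157.E Crest.Agent.T157.SL Crest.Agent.T157.Ta
open Crest.Agent.T157.Rec (grad)
open Crest.Agent.T157.Eig (nrm opn)
open Crest.Agent.T157.S3 (V Mx)

variable {n : ℕ}

theorem untilt {v w ψ : Cube n → ℝ} {r : Fin n → Cube n → ℝ} {b k : ℝ} (p : Pr v w) (hr : Off r)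
    (r0 : ∀ j x, 0 ≤ r j x ∧ r j x ≤ 1) (hψ : ∀ x, nrm (grad ψ x) ≤ b) (k0 : 0 < k) (k1 : k ≤ 1) :
    Ar r v (wt w ψ) ≤ (1 + k) * Ar r v w + b ^ 2 / k := by
  have h1 : ∀ j, As (r j) v (wt w ψ) j ≤
      (1 + k) * As (r j) v w j + mean v fun x => grad ψ x j ^ 2 / k := fun j => by
    refine (As_wt_le p (hr j) (fun x => (r0 j x).1) ψ).trans ?_
    rw [As, ← mean_sub, ← mean_add, ← mean_const_mul, ← mean_add]
    refine mean_mono_supp p.hv fun x hx => ?_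
    have h2 := chi_sq_le p j hx
    have h3 : -(grad ψ x j * chi v w j x) + grad ψ x j ^ 2 / 2 ≤
        k * kls v w j x + grad ψ x j ^ 2 / k := by
      rw [← sub_le_iff_le_add', le_div_iff₀ k0]
      nlinarith [sq_nonneg (k * chi v w j x + grad ψ x j), mul_le_mul_of_nonneg_left h2 (sq_nonneg k),
        mul_le_mul_of_nonneg_left k1 (sq_nonneg (grad ψ x j))]
    have h4 := mul_le_mul_of_nonneg_left h3 (r0 j x).1
    have h5 := mul_le_of_le_one_left (div_nonneg (sq_nonneg (grad ψ x j)) k0.le) (r0 j x).2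
    linarith
  refine (sum_le_sum fun j _ => h1 j).trans ?_
  rw [sum_add_distrib, ← mul_sum, ← mean_sum]
  refine add_le_add le_rfl (p.hv.mean_le fun x => ?_)
  rw [← sum_div]
  refine div_le_div_of_nonneg_right ?_ k0.le
  have := pow_le_pow_left₀ (Eig.nrm_nonneg _) (hψ x) 2
  rwa [Eig.nrm_sq, dotProduct, ← sum_congr rfl fun j _ => sq _] at this

theorem kl_wt_le {v G : Cube n → ℝ} {β : ℝ} (hv : Wt v) (hG : ∀ x, |G x| ≤ β) :
    kl v (wt v G) ≤ 2 * β := by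
  have h0 : kl v v ≤ 0 := sum_nonpos fun x _ => mul_nonpos_of_nonneg_of_nonpos (hv.prob_nonneg x)
    (log_nonpos (div_nonneg (hv.prob_nonneg x) (hv.prob_nonneg x)) (div_self_le_one _))
  have h1 := abs_le.1 (hv.abs_mean_le hG)
  have h2 : log (mean v fun x => exp (G x)) ≤ β :=
    (log_le_iff_le_exp (mean_pos' hv fun _ => exp_pos _)).2
      (hv.mean_le fun x => exp_le_exp.2 (abs_le.1 (hG x)).2)
  rw [kl_wt (.refl hv)]
  linarith [h1.1]

variable (D : Dat n) (s : St n) (B : Finset (Fin n)) (y0 : V n) (xb : B → ℝ) (ξ : Cube n → ℝ)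
  (γ g1 θ B0 c M : ℝ)

/-- the part of the continuation value which is a posterior mean -/
def FF (x : Cube n) (u : B → ℝ) : ℝ :=
  ξ x + γ * (U D s x + U6 D s x) + θ * (B0 + U D s x + Br.sq (hB D s B x - xb)) +
    γ * (D.P / 2 * Br.sq (hB D s B x - D.P⁻¹ • u) +
      ∑ k : B, (D.P * (hB D s B x - D.P⁻¹ • u) k ^ 2) ^ 3) + θ * Br.sq (u - D.P • xb)

/-- the continuation value -/
def xi (σ : B → Bool) (u : B → ℝ) : ℝ :=
  mean (vB D s B σ u) (fun x => FF D s B xb ξ γ θ B0 x u) + γ * kl (vB D s B σ u) (ising D.J s.y) +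
    θ * kl (vB D s B σ u) (ising D.J y0) + g1 * Cnt (fun i x => grad s.Th x i ^ 2) (vB D s B σ u) +
    min (c * (√(mm (hB D s B) (nu D s) (bB B) D.P σ u))⁻¹) M

theorem xg_FF (x : Cube n) : XG (FF D s B xb ξ γ θ B0 x) := by
  have l : ∀ k, XG fun u : B → ℝ => (hB D s B x - D.P⁻¹ • u) k := fun k =>
    ((LG.const _).sub ((LG.coord k).const_mul _)).xg
  refine ((XG.const _).add (XG.const_mul _ ((XG.const_mul _ (XG.sum _ fun k _ =>
    (l k).mul (l k))).add (XG.sum _ fun k _ => ?_)))).add ((Br.Sm54.xg_sq _).const_mul _)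
  simpa only [pow_three] using ((l k).sq.const_mul D.P).mul
    (((l k).sq.const_mul D.P).mul ((l k).sq.const_mul D.P))

variable {D s B γ g1 θ c M}

theorem xg_parts (h : D.Ok) (hd : Disjoint B s.S) (hc : 0 ≤ c) (hM : 0 ≤ M) (σ : B → Bool) :
    XG (fun u => mean (vB D s B σ u) fun x => FF D s B xb ξ γ θ B0 x u) ∧
    XG (fun u => γ * kl (vB D s B σ u) (ising D.J s.y)) ∧
    XG (fun u => θ * kl (vB D s B σ u) (ising D.J y0)) ∧
    XG (fun u => g1 * Cnt (fun i x => grad s.Th x i ^ 2) (vB D s B σ u)) ∧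
    XG fun u => min (c * (√(mm (hB D s B) (nu D s) (bB B) D.P σ u))⁻¹) M :=
  have hw := wt_cut_nu h hd σ
  ⟨.of_mg (mg_mean hw _ fun x => (xg_FF D s B xb ξ γ θ B0 x).mg),
    (Br.Sm54.xg_klp (Br.Sm54.pr hw (C89.is_pos _ _)) _).const_mul _,
    (Br.Sm54.xg_klp (Br.Sm54.pr hw (C89.is_pos _ _)) _).const_mul _,
    XG.const_mul _ (.sum _ fun i _ => xg_Cs hw (fun x => (lg_lk _ _ x).meas) _ i), xg_min hc hM σ⟩

theorem xg_xi (h : D.Ok) (hd : Disjoint B s.S) (hc : 0 ≤ c) (hM : 0 ≤ M) (σ : B → Bool) :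
    XG (xi D s B y0 xb ξ γ g1 θ B0 c M σ) :=
  have ⟨a, b, c, d, e⟩ := xg_parts y0 xb ξ B0 (γ := γ) (g1 := g1) (θ := θ) h hd hc hM σ
  (((a.add b).add c).add d).add e

theorem int_FF (h : D.Ok) (hγ : 0 ≤ γ) (x : Cube n) :
    ∫ g, FF D s B xb ξ γ θ B0 x (D.P • hB D s B x + √D.P • g) ∂gv B ≤
      ξ x + γ * (U D s x + U6 D s x) + θ * (B0 + U D s x + Br.sq (hB D s B x - xb)) +
        γ * (769 * #B) + θ * (D.P ^ 2 * Br.sq (hB D s B x - xb) + D.P * #B) := by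
  have P0 : 0 < D.P := by linarith [h.P1]
  have e0 : ∀ (g : B → ℝ) k, D.P * (hB D s B x - D.P⁻¹ • (D.P • hB D s B x + √D.P • g)) k ^ 2 =
      g k ^ 2 := fun g k => by
    simp only [Pi.sub_apply, Pi.smul_apply, Pi.add_apply, smul_eq_mul]
    field_simp
    linear_combination (g k ^ 2) * mul_self_sqrt P0.le
  have e1 : ∀ g : B → ℝ, FF D s B xb ξ γ θ B0 x (D.P • hB D s B x + √D.P • g) =
      ξ x + γ * (U D s x + U6 D s x) + θ * (B0 + U D s x + Br.sq (hB D s B x - xb)) +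
        γ * (∑ k, (g k * g k / 2 + g k ^ 6)) + θ * ((D.P • (hB D s B x - xb) + √D.P • g) ⬝ᵥ
          (D.P • (hB D s B x - xb) + √D.P • g)) := fun g => by
    rw [FF, smul_sub, sub_add_eq_add_sub, sum_add_distrib]
    congr 4
    · rw [Br.sq, dotProduct, mul_sum]
      exact sum_congr rfl fun k _ => by linear_combination e0 g k / 2
    · exact sum_congr rfl fun k _ => by rw [e0, ← pow_mul]
  have l : ∀ k, XG fun g : B → ℝ => g k := fun k => (LG.coord k).xg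
  have l6 : ∀ k, XG fun g : B → ℝ => g k ^ 6 := fun k => by
    simpa only [← pow_add] using (l k).sq.mul ((l k).sq.mul (l k).sq)
  have l2 : ∀ k, XG fun g : B → ℝ => g k * g k / 2 := fun k => by
    simpa only [div_eq_mul_inv] using ((l k).mul (l k)).mul (XG.const 2⁻¹)
  have i1 := (XG.sum univ fun k _ => (l2 k).add (l6 k)).const_mul γ
  have i2 : MG fun g : B → ℝ => θ * ((D.P • (hB D s B x - xb) + √D.P • g) ⬝ᵥ
      (D.P • (hB D s B x - xb) + √D.P • g)) := by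
    simpa only [sub_zero] using (((Br.Sm54.xg_sq (0 : B → ℝ)).const_mul θ).mg.affine
      (D.P • (hB D s B x - xb)) √D.P)
  simp only [e1]
  rw [integral_add ((XG.const _).add i1).mg.int i2.int, integral_add (integrable_const _) i1.mg.int,
    integral_const_mul, integral_const_mul, Br.Sm54.int_sq, sq_sqrt P0.le,
    integral_finsetSum _ fun k _ => ((l2 k).add (l6 k)).mg.int]
  have b : ∑ k : B, ∫ g : B → ℝ, (g k * g k / 2 + g k ^ 6) ∂gv B ≤ (769 : ℝ) * #B := by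
    rw [← Fintype.card_coe, mul_comm, ← nsmul_eq_mul, ← card_univ]
    refine sum_le_card_nsmul _ _ _ fun k _ => ?_
    rw [integral_add (l2 k).mg.int (l6 k).mg.int, integral_div, Rec.int_coord_mul, if_pos rfl]
    linarith [g6 k]
  have := mul_le_mul_of_nonneg_left b hγ
  rw [← Br.Tail44.sq_smul, Fintype.card_coe]
  simp only [integral_const, probReal_univ, one_smul, Br.sq]
  linarith

theorem sl_xi (h : D.Ok) (hd : Disjoint B s.S) (hγ : 0 ≤ γ) (hg : 0 ≤ g1) (hθ : 0 ≤ θ) (hc : 0 ≤ c)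
    (hM : 0 ≤ M) : slE (hB D s B) (nu D s) D.P (fun x u => xi D s B y0 xb ξ γ g1 θ B0 c M (bB B x) u) ≤
      mean (nu D s) ξ + γ * (Hy D s + mean (nu D s) (U D s) + mean (nu D s) (U6 D s) + 770 * #B +
        D.P / 2 * mean (nu D s) fun x => Br.sq (hB D s B x - xb)) +
      θ * (B0 + kl (nu D s) (ising D.J y0) + mean (nu D s) (U D s) + (1 + D.P) * #B +
        (1 + D.P + D.P ^ 2) * mean (nu D s) fun x => Br.sq (hB D s B x - xb)) +
      g1 * Eg D s s.Th + c * exp ((2 * D.P + 10) * #B * log (n + 2) / 2) := by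
  have P1 := h.P1
  have P0 : 0 < D.P := by linarith
  have hv := (C89.pr1 (s := s) h).hv
  have hw := wt_cut_nu h hd
  have X := fun x => xg_parts y0 xb ξ B0 (γ := γ) (g1 := g1) (θ := θ) h hd hc hM (bB B x)
  have lc : log (Fintype.card (B → Bool)) ≤ #B := by
    rw [Fintype.card_fun, Fintype.card_bool, Fintype.card_coe, Nat.cast_pow, log_pow]
    exact mul_le_of_le_one_right (Nat.cast_nonneg _) (by
      have := log_two_lt_d9; norm_num at this ⊢; linarith)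
  have a1 := (rv_mean hv hw P0.le (xg_FF D s B xb ξ γ θ B0)).trans_le
    (hv.mean_mono fun x => int_FF xb ξ B0 (θ := θ) h hγ x)
  simp only [mean_add, mean_const_mul, hv.mean_const] at a1
  have a2 := mul_le_mul_of_nonneg_left ((rv_kl (φ := hB D s B) hv hw P0.le (C89.is_pos D.J s.y)
    xb).trans (add_le_add (add_le_add le_rfl lc) le_rfl)) hγ
  have a3 := mul_le_mul_of_nonneg_left ((rv_kl (φ := hB D s B) hv hw P0.le (C89.is_pos D.J y0)
    xb).trans (add_le_add (add_le_add le_rfl lc) le_rfl)) hθ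
  have a4 := mul_le_mul_of_nonneg_left (rv_cnt (φ := hB D s B) (r := fun i x => grad s.Th x i ^ 2)
    hv hw P0.le (fun i => (off_grad _ i).comp (· ^ 2)) fun _ _ => sq_nonneg _) hg
  have a5 := rv_exp (φ := hB D s B) (ρ := bB B) hv P0 (a := 9 * D.P * n) (by positivity)
    (fun x k => by
      have h1 := sum_mul_sq_le_sq_mul_sq univ (Br.rw D.J (s.S ∪ B)ᶜ Subtype.val k) (sv x)
      have h2 : ∑ j, Br.rw D.J (s.S ∪ B)ᶜ Subtype.val k j ^ 2 ≤ 9 :=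
        ((sum_le_sum fun j _ => by unfold Br.rw; split_ifs <;> simp [sq_nonneg]).trans
          (S3F.row_sq_le D.J k)).trans (by nlinarith [h.op, Eig.opn_nonneg D.J])
      have h3 : ∑ j, sv x j ^ 2 = n := by simpa only [dotProduct, sq] using sv_dot_self x
      rw [h3] at h1
      have h4 : hB D s B x k ^ 2 ≤ 9 * n :=
        h1.trans (mul_le_mul_of_nonneg_right h2 (Nat.cast_nonneg _))
      nlinarith) hc hM
  have a6 : (Fintype.card (B → Bool) : ℝ) * (4 * √(9 * D.P * n + 1)) ^ Fintype.card B ≤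
      exp ((2 * D.P + 10) * #B * log (n + 2) / 2) := by
    rw [Fintype.card_fun, Fintype.card_bool, Fintype.card_coe, Nat.cast_pow, ← mul_pow,
      show (2 * D.P + 10) * #B * log (n + 2) / 2 = (#B : ℕ) * ((D.P + 5) * log (n + 2)) by ring,
      exp_nat_mul]
    refine pow_le_pow_left₀ (by positivity) ?_ _
    have n0 : (0 : ℝ) ≤ n := Nat.cast_nonneg _
    have b1 : √(9 * D.P * n + 1) ≤ 3 * D.P * (n + 2) :=
      sqrt_le_iff.2 ⟨by positivity, by nlinarith [mul_nonneg n0 n0, mul_nonneg P0.le n0]⟩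
    have b2 : 69 / 100 ≤ log (n + 2 : ℝ) :=
      le_trans (by have := log_two_gt_d9; linarith) (log_le_log two_pos (by linarith))
    have b3 := quadratic_le_exp_of_nonneg (x := D.P * log (n + 2)) (by positivity)
    have b4 : 69 / 100 * D.P ≤ D.P * log (n + 2) := by nlinarith
    have b5 := pow_le_pow_left₀ (by positivity) b4 2
    have b6 : 3 / 2 * D.P ≤ exp (D.P * log (n + 2)) := by nlinarith [sq_nonneg (D.P - 7 / 4)]
    have b7 : (2 : ℝ) ^ 4 ≤ (n + 2) ^ 4 := pow_le_pow_left₀ (by norm_num) (by linarith) 4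
    rw [add_mul, exp_add, show (5 : ℝ) * log (n + 2) = (5 : ℕ) * log (n + 2) by norm_num,
      exp_nat_mul, exp_log (by positivity), pow_succ]
    have b8 := mul_le_mul b6 (mul_le_mul_of_nonneg_right b7 (by positivity : (0 : ℝ) ≤ n + 2))
      (by positivity) (exp_pos _).le
    push_cast
    linarith
  have m0 : 0 ≤ mean (nu D s) fun x => Br.sq (hB D s B x - xb) :=
    hv.mean_nonneg fun x => Br.Tail44.sq_nn _
  unfold xi
  rw [slE_add (.of_mg fun x => ((((X x).1.add (X x).2.1).add (X x).2.2.1).add (X x).2.2.2.1).mg)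
      (.of_mg fun x => (X x).2.2.2.2.mg),
    slE_add (.of_mg fun x => (((X x).1.add (X x).2.1).add (X x).2.2.1).mg)
      (.of_mg fun x => (X x).2.2.2.1.mg),
    slE_add (.of_mg fun x => ((X x).1.add (X x).2.1).mg) (.of_mg fun x => (X x).2.2.1.mg),
    slE_add (.of_mg fun x => (X x).1.mg) (.of_mg fun x => (X x).2.1.mg), slE_const_mul,
    slE_const_mul, slE_const_mul]
  have a7 := mul_le_mul_of_nonneg_left a6 hc
  have a8 := mul_nonneg hθ (mul_nonneg P0.le m0)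
  simp only [vB, Hy, Eg]
  linarith

end Crest.Agent.T157.S1.Bu83

end
end

-- ▼ part T157/S1BuD_83
section

/-!
# Row 157, block S1 (helper83): the act B gives `BurstOK`
-/

set_option autoImplicit false

noncomputable section

namespace Crest.Agent.T157.S1

open Real Matrix Finset
open Crest.Agent.T157.E Crest.Agent.T157.SL Crest.Agent.T157.Ta
open Crest.Agent.T157.Rec (grad)
open Crest.Agent.T157.Eig (nrm opn)
open Crest.Agent.T157.S3 (V Mx)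
open Crest.Agent.T157.Br.Tail44 (sq_nn)

namespace Bu83

variable {n : ℕ} {D : Dat n} {s : St n} {y0 : V n} {B : Finset (Fin n)} {a0 a' e ε : ℝ} {X : BX n B}
  {σ : B → Bool} {z c : B → ℝ}

theorem vp_eq (hd : Disjoint B s.S) : cut ((mkB D s y0 B a0 a' e ε X).vp D.P z)
    (mkB D s y0 B a0 a' e ε X).bT σ = vB D s B σ z := by
  rw [Br.Dat.vp, nu_eq hd, cut_post]; rfl

theorem W_eq (h : D.Ok) (hd : Disjoint B s.S) : cut ((mkB D s y0 B a0 a' e ε X).W D.P z c 0)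
    (mkB D s y0 B a0 a' e ε X).bT σ =
      wt (vB D s B σ z) fun x => del s ⬝ᵥ sv x + s.Th x - log (D.f x) + c ⬝ᵥ X.φ x := by
  rw [Br.Dat.W, pw_eq hd]
  ext x
  have := (h.fpos x).ne'
  show (if bB B x = σ then loc D s x * exp _ * exp (z ⬝ᵥ hB D s B x - D.P / 2 *
    (hB D s B x ⬝ᵥ hB D s B x)) * exp (c ⬝ᵥ X.φ x + 0 ⬝ᵥ _) else 0) =
    (if bB B x = σ then loc D s x * D.f x else 0) * exp _ * exp _
  split_ifs
  · rw [zero_dotProduct, add_zero, exp_add _ (c ⬝ᵥ X.φ x), exp_sub _ (log _), exp_log (h.fpos x)]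
    field_simp
  · simp

theorem loc_eq (h : D.Ok) (hd : Disjoint B s.S) : loc D (sc D s B σ z) = fun x =>
    cut ((mkB D s y0 B a0 a' e ε X).lp D.P z) (mkB D s y0 B a0 a' e ε X).bT σ x *
      exp (-(Br.sq z / (2 * D.P))) := by
  rw [Br.Dat.lp, l_eq hd, cut_post]
  have := loc_sc (σ := σ) (z := z) h hd fun _ => 1
  simp only [mul_one] at this
  exact this

theorem pi_eq (h : D.Ok) (hd : Disjoint B s.S) (ψ : Cube n → ℝ) :
    pi D ((sc D s B σ z).tl ψ 0 0 0) = fun x => wt (wt (vB D s B σ z) fun x =>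
      del s ⬝ᵥ sv x + s.Th x - log (D.f x) + c ⬝ᵥ X.φ x) (fun x => ψ x - c ⬝ᵥ X.φ x) x *
        exp (-(Br.sq z / (2 * D.P))) := by
  ext x
  have h1 := congrFun (nu_sc (σ := σ) (z := z) h hd) x
  have := (h.fpos x).ne'
  rw [wt_add, wt, mul_right_comm, ← h1, show del s ⬝ᵥ sv x + s.Th x - log (D.f x) + c ⬝ᵥ X.φ x +
    (ψ x - c ⬝ᵥ X.φ x) = del s ⬝ᵥ sv x + (s.Th x + ψ x) - log (D.f x) by ring, exp_sub,
    exp_log (h.fpos x), nu]
  show loc D (sc D s B σ z) x * exp (del s ⬝ᵥ sv x + (s.Th x + ψ x)) = _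
  field_simp

theorem xi_eq (h : D.Ok) (hd : Disjoint B s.S) (ξ : Cube n → ℝ) (γ g1 θ T M : ℝ) :
    xi D s B y0 (mkB D s y0 B a0 a' e ε X).xb ξ γ g1 θ X.B0 (exp ((Dz D s - T) / 2)) M σ z =
      mean (nu D (sc D s B σ z)) ξ + γ * (Hy D (sc D s B σ z) +
        mean (nu D (sc D s B σ z)) (U D (sc D s B σ z)) +
        mean (nu D (sc D s B σ z)) (U6 D (sc D s B σ z))) + g1 * Eg D (sc D s B σ z) s.Th +
      min (exp ((Dz D (sc D s B σ z) - T) / 2)) M +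
      θ * (mkB D s y0 B a0 a' e ε X).bv D.P z (vB D s B σ z) := by
  have hv : Wt (vB D s B σ z) := (wt_cut_nu h hd σ).post _ _ _
  have e0 := (exp_pos (-(Br.sq z / (2 * D.P)))).ne'
  have e1 := kl_sc (vB D s B σ z) (ising D.J s.y) e0 one_ne_zero
  simp only [mul_one] at e1
  rw [xi, Hy, Eg, Dz_sc h hd, nu_sc h hd, mean_sc _ e0, Cnt_sc _ e0, Br.Dat.bv, U_eq hd,
    mean_congr_supp (f := U D (sc D s B σ z)) fun x hx => U_sc hd (vB_supp hd hx),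
    mean_congr_supp (f := U6 D (sc D s B σ z)) fun x hx => U6_sc hd (vB_supp hd hx)]
  simp only [FF, mean_add, mean_const_mul, hv.mean_const]
  rw [show kl _ (ising D.J (sc D s B σ z).y) = _ from e1]
  show _ = _ + θ * (X.B0 + kl _ (ising D.J y0) + _ + (_ + mean _ fun x => Br.sq (hB D s B x - _)))
  ring

theorem bdd (D : Dat n) (s : St n) (X : BX n B) : ∃ β, 0 ≤ β ∧ ∀ c : B → ℝ, Br.sq c ≤ X.R → ∀ x,
    |del s ⬝ᵥ sv x + s.Th x - log (D.f x) + c ⬝ᵥ X.φ x| ≤ β := by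
  set F : Cube n → ℝ := fun x => |del s ⬝ᵥ sv x + s.Th x - log (D.f x)| + Br.sq (X.φ x) with hF
  refine ⟨‖F‖ + |X.R|, by positivity, fun c hc x => (abs_add_le _ _).trans ?_⟩
  have h1 : F x ≤ ‖F‖ := (le_abs_self _).trans (norm_le_pi_norm F x)
  have h2 := sq_nn (c - X.φ x)
  have h3 := sq_nn (c + X.φ x)
  have h4 := sq_nn c
  have h5 := sq_nn (X.φ x)
  simp only [Br.sq, add_dotProduct, dotProduct_add, sub_dotProduct, dotProduct_sub,
    dotProduct_comm (X.φ x) c, hF] at *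
  have h6 : |c ⬝ᵥ X.φ x| ≤ X.φ x ⬝ᵥ X.φ x + |X.R| :=
    abs_le.2 ⟨by linarith [le_abs_self X.R], by linarith [le_abs_self X.R]⟩
  linarith

end Bu83

open Bu83 in
/-- **the seam** -/
theorem buGlue : BuGlue := fun hC _ hK P K1 => by
  obtain ⟨Mb, Mb1, hKb⟩ := hK P K1
  obtain ⟨M1, hM1⟩ : ∃ M1, M1 = 1 + 4 * |K1| * (28 + 16 * Mb) := ⟨_, rfl⟩
  obtain ⟨M2, hM2⟩ : ∃ M2, M2 = Mb * (1 + |P| + P ^ 2) + (1 + |P|) := ⟨_, rfl⟩
  have M11 : 1 ≤ M1 := by rw [hM1]; exact le_add_of_nonneg_right (by positivity)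
  have M20 : 0 ≤ M2 := by rw [hM2]; positivity
  obtain ⟨Mk, hMk⟩ : ∃ Mk, Mk = M1 * M2 + M1 + |P| * Mb + 2 * |P| + 800 := ⟨_, rfl⟩
  have q1 : 0 ≤ M1 * M2 := by positivity
  have q2 : 0 ≤ |P| * Mb := by positivity
  have q3 := abs_nonneg P
  refine ⟨Mk, by linarith, ?_⟩
  intro mg C0 c0 k η Ms CV M hA n J y0 p Ad φ a0 a' e ε CB CE CW C2 δ ec t K' lm l a lb ab gW gP CP
    CN ω K hS c00 k0 k1 Ms0 M0 e0 hMs hMe lm0 lm1 hl lb0 hlb ha hab ab1 CB0 CE0 CW0 C20 δ0 δk K'0 gW0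
    gP0 hγ1 hγ2 hω hCP hCN hK' D s B ξ γ g1 T T' R h hJ hP hη hθ hcl hsz hy hd hBt hξ γ0 γ1 g10 hT hc
  subst hJ hP hη
  obtain ⟨X, ok, hR, hB0, hw⟩ := hS D s B h rfl rfl rfl hcl hsz hy hd hBt
  obtain ⟨β, β0, hβ⟩ := bdd D s X
  have P1 := h.P1
  have P0 : 0 < D.P := one_pos.trans_le P1
  rw [abs_of_pos P0] at hM2 hMk q2
  have K10 := ok.K0
  rw [abs_of_pos K10] at hM1
  have b1 : 1 ≤ X.B0 := ok.b1
  have xa0 : 0 ≤ X.xa := ok.xa0
  have a00 : 0 ≤ a0 * (1 - 2 * D.η0) :=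
    mul_nonneg (ok.mg0.le.trans ok.a0) (by linarith only [h.e1])
  have li := inv_pos.2 lm0
  have Mk0 : 0 ≤ Mk := by linarith only [hMk, q1, q2, P0, M11]
  have lb1 : lb ≤ 1 := by
    linarith only [hlb, lm1, mul_nonneg lb0 k0.le, mul_nonneg lm0.le k0.le]
  have key := hA n B _ ok rfl rfl hMs hMe hR (lm⁻¹ * R) (lm⁻¹ * (gW * CW ^ 2 + (gP + Mk) * δ))
    (lm⁻¹ * (gP * C2)) (fun σ u => lm⁻¹ * xi D s B y0 (mkB D s y0 B a0 a' e ε X).xb ξ γ g1 (δ * M1)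
      X.B0 (exp ((Dz D s - T') / 2)) (|R| + 2 * β) σ u) (by positivity)
    (by rw [mul_left_comm, inv_mul_le_iff₀ lm0]; exact hγ1) (by positivity)
    (by rw [inv_mul_le_iff₀ lm0]; exact hγ2)
    (fun σ => (xg_xi y0 _ ξ _ h hd (exp_pos _).le (by positivity) σ).const_mul _) ?_
  · obtain ⟨-, -, -, A0, H0, Hy0, U0, -, -, Ex0, -, -, hS0, -⟩ := hC n D s h
    have s1 := sl_xi y0 (mkB D s y0 B a0 a' e ε X).xb ξ X.B0 (θ := δ * M1) h hd γ0 g10 (by positivity)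
      (exp_pos ((Dz D s - T') / 2)).le (M := |R| + 2 * β) (by positivity)
    have s2 := (hKb n B _ mg C0 CV ok rfl 0 0 0 0 1 0 _ _ le_rfl P0.le zero_le_one le_rfl (.inl rfl)
      (by
        have := mul_nonneg M0 ((zero_le_one.trans b1).trans ok.bD)
        simp only [Br.sq, zero_dotProduct]
        exact this.trans hR) (.inl rfl) (.refl (wt_wt (Br.Cv11.pr_W ok 0 0 0 0).hw _))).2.2
    rw [Br.Dat.bud, Br.Dat.bv, Br.Dat.vp, post_zero, nu_eq hd, U_eq hd, mean_add] at s2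
    rw [slE_const_mul, nu_eq hd, pw_eq hd, l_eq hd] at key
    have s3 := dM_le (B := B) h hS0
    have s4 : (#B : ℝ) ≤ X.B0 := le_trans (Nat.cast_le.2 (card_le_card fun i hi => by
      simp only [mkB, compl_compl, mem_union]; exact .inr hi)) ok.bU
    have s5 : exp ((Dz D s - T') / 2) * exp ((2 * D.P + 10) * #B * log (n + 2) / 2) ≤
        exp ((Dz D s - T) / 2) := by
      rw [← exp_add, exp_le_exp]
      have : 0 ≤ (#B : ℝ) * log (n + 2) := mul_nonneg (Nat.cast_nonneg _)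
        (log_nonneg (by linarith only [(Nat.cast_nonneg n : (0 : ℝ) ≤ n)]))
      have h2 : 2 * D.P + 10 ≤ CP := by linarith only [hCP, hMk, mul_nonneg Mk0 CB0, q1, q2, M11]
      linarith only [mul_le_mul_of_nonneg_right h2 this, hT]
    have s6 : M * exp (-X.Dh) ≤ M := mul_le_of_le_one_right M0
      (exp_le_one_iff.2 (by linarith only [b1, show X.B0 ≤ X.Dh from ok.bD]))
    have s7 : Hy D s + mean (nu D s) (U D s) ≤ Bb D s y0 := by
      have : 0 ≤ del s ⬝ᵥ del s := sq_nn _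
      unfold Bb Bd
      linarith only [this, sq_nonneg s.L, sq_nonneg (nrm (s.y - y0)),
        (Nat.cast_nonneg #s.S : (0 : ℝ) ≤ _)]
    have s8 := (Br.Sm54.pr (C89.pr1 (s := s) h).hv (C89.is_pos D.J y0)).kl_nonneg
    have s9 : 0 ≤ mean (nu D s) fun x => Br.sq (hB D s B x - (mkB D s y0 B a0 a' e ε X).xb) :=
      (C89.pr1 h).hv.mean_nonneg fun x => sq_nn _
    have k2 : -R ≤ lm * ((1 + k) * AA D s) - lm * (a0 * (1 - 2 * D.η0)) * HH D s -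
        lm * c0 * (Br.sq (Br.dM (nu D s) (pi D s) (hB D s B)) +
          Br.sq (Br.dM (nu D s) (pi D s) (Br.sT (Subtype.val : B → Fin n)))) +
        lm * (del s ⬝ᵥ del s / c0 + Ms * e * X.B0 + M * exp (-X.Dh)) +
        slE (hB D s B) (nu D s) D.P fun x u => xi D s B y0 (mkB D s y0 B a0 a' e ε X).xb ξ γ g1
          (δ * M1) X.B0 (exp ((Dz D s - T') / 2)) (|R| + 2 * β) (bB B x) u := by
      have := mul_le_mul_of_nonneg_left key lm0.le
      rw [mul_add lm, mul_neg, mul_inv_cancel_left₀ lm0.ne', mul_inv_cancel_left₀ lm0.ne'] at this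
      refine this.trans (le_of_eq ?_)
      rw [AA, hθ, HH]
      show lm * ((1 + k) * (Ar (Ue.rw D.η0 (Ue.th a') D.f) _ _ + (1 - Ue.th a') / 2 *
        Ue.El (Ue.Lw D.η0 D.f) _ _) - a0 * _ * _ - c0 * (Br.sq (Br.dM _ _ (hB D s B)) +
        Br.sq (Br.dM _ _ (Br.sT (Subtype.val : B → Fin n)))) + del s ⬝ᵥ del s / c0 + Ms * e * X.B0 +
        M * exp (-X.Dh)) + slE (hB D s B) _ _ (fun x u => xi _ _ _ _ _ _ _ _ _ _ _ _ (bB B x) u) = _
      ring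
    generalize Br.sq (Br.dM (nu D s) (pi D s) (hB D s B)) +
      Br.sq (Br.dM (nu D s) (pi D s) (Br.sT (Subtype.val : B → Fin n))) = Q at s3 k2
    change X.B0 + kl (nu D s) (ising D.J y0) + Br.sq (0 - (0 : ℝ) • _) + (mean (nu D s) (U D s) +
      mean (nu D s) fun x => Br.sq (hB D s B x - (mkB D s y0 B a0 a' e ε X).xb)) ≤ Mb * X.B0 at s2
    have z0 := sq_nn ((0 : B → ℝ) - (0 : ℝ) • (mkB D s y0 B a0 a' e ε X).xb)
    generalize (mean (nu D s) fun x => Br.sq (hB D s B x - (mkB D s y0 B a0 a' e ε X).xb)) = E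
      at s1 s2 s9
    have d0 : 0 ≤ del s ⬝ᵥ del s / c0 := div_nonneg (sq_nn _) c00.le
    have t1 := mul_le_mul_of_nonneg_right hl A0
    have t2 := mul_le_mul_of_nonneg_right ha H0
    have t3 := mul_le_mul_of_nonneg_left s3 (by positivity : 0 ≤ lm * c0 / 19)
    have t4 := mul_le_of_le_one_left (a := lm) (b := del s ⬝ᵥ del s / c0 + Ms * e * X.B0 +
      M * exp (-X.Dh)) (by positivity) lm1
    have t5 : E ≤ Mb * X.B0 := by linarith only [s2, z0, s8, U0, b1]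
    have t6 : X.B0 + kl (nu D s) (ising D.J y0) + mean (nu D s) (U D s) + (1 + D.P) * #B +
        (1 + D.P + D.P ^ 2) * E ≤ M2 * X.B0 := by
      have u1 := mul_le_mul_of_nonneg_left t5 (by positivity : 0 ≤ D.P + D.P ^ 2)
      have u2 := mul_le_mul_of_nonneg_left s4 (by positivity : 0 ≤ 1 + D.P)
      rw [hM2]; linarith only [u1, u2, s2, z0]
    have t7 := mul_le_mul_of_nonneg_left t6 (by positivity : 0 ≤ δ * M1)
    have B0' : 0 ≤ (#B : ℝ) := Nat.cast_nonneg _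
    have Bb0 : 0 ≤ Bb D s y0 := by linarith only [s7, Hy0, U0]
    have t8 : δ * (M1 * M2) * X.B0 ≤ δ * Mk * X.B0 := by gcongr; linarith only [hMk, q2, P0, M11]
    have t9 : Bb D s y0 + 770 * #B + D.P / 2 * E ≤ Mk * (Bb D s y0 + #B) + Mk * X.B0 := by
      have u1 := mul_le_mul_of_nonneg_left t5 (by positivity : 0 ≤ D.P / 2)
      have u2 : D.P / 2 * Mb * X.B0 ≤ Mk * X.B0 := by gcongr; linarith only [hMk, q1, q2, P0, M11]
      have u3 : 770 * (Bb D s y0 + #B) ≤ Mk * (Bb D s y0 + #B) := by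
        gcongr; linarith only [hMk, q1, q2, P0, M11]
      linarith only [u1, u2, u3, Bb0]
    have t10 := mul_le_mul_of_nonneg_left t9 γ0
    have t11 := mul_le_mul_of_nonneg_left hB0 (by positivity : 0 ≤ Ms * e + Mk * δ + γ * Mk)
    have t12 := mul_le_mul_of_nonneg_right hω (by positivity : 0 ≤ Bb D s y0 + #B + K')
    have t13 := mul_le_mul_of_nonneg_right (mul_le_mul_of_nonneg_left hCP γ0)
      (by positivity : 0 ≤ Bb D s y0 + #B + K')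
    have t14 := mul_le_mul_of_nonneg_right hCN Ex0
    have t15 : γ * (Mk * CE * Ex D s) ≤ Mk * CE * Ex D s := mul_le_of_le_one_left (by positivity) γ1
    have t16 : γ * (CP * K') ≤ CP * K' := mul_le_of_le_one_left
      (mul_nonneg (le_trans (by positivity) hCP) K'0) γ1
    have t17 := mul_le_mul_of_nonneg_left s7 γ0
    have t18 : 0 ≤ γ * (Mk * K') := by positivity
    rw [one_div_mul_eq_div]
    linarith only [k2, s1, s5, s6, t1, t2, t3, t4, t7, t8, t10, t11, t12, t13, t14, t15, t16, t17, t18,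
      hK']
  · intro z c σ v w hcR hv hw'
    rw [vp_eq hd] at hv
    rw [W_eq h hd] at hw'
    have hW : Wt v := hv ▸ (wt_cut_nu h hd σ).post _ _ _
    rw [← hv] at hw'
    have pr : Pr v w := hw' ▸ (Pr.refl hW).wt _
    obtain ⟨w0, ad, pw0, gr⟩ := hw c hcR
    have h1 := hc _ _ w0 _ _ (old (D := D) (σ := σ) (z := z) hd) ad rfl
    obtain ⟨-, p1, p2, -, -, Hy0, U0, U60, Eg0, -⟩ := hC n D (sc D s B σ z) h
    have e0' := (exp_pos (-(Br.sq z / (2 * D.P)))).ne'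
    have en : nu D (sc D s B σ z) = _ := nu_sc h hd
    have el := loc_eq (y0 := y0) (a0 := a0) (a' := a') (e := e) (ε := ε) (X := X) (σ := σ) (z := z) h hd
    have ep := pi_eq (X := X) (σ := σ) (z := z) (c := c) h hd (φ w0)
    rw [← hv] at en ep
    rw [← hw'] at ep
    have r0 := Ue.rw_mem h.e0.le (by linarith only [h.e1]) h.t0 (by linarith only [h.t1, h.e0]) D.f
    have El0 := Ue.El_nonneg p1 p2 fun i x => (Ue.Lw_mem D.η0 D.f i x).1
    rw [en, el, El_sc _ _ e0'] at El0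
    have A0 := pr.Ar_nonneg fun i x => (r0 i x).1
    have θ1 : 0 ≤ (1 - D.θ) / 2 := by linarith only [h.t1, h.e0]
    have c0' := sq_nn c
    have nc : nrm c ^ 2 = Br.sq c := Eig.nrm_sq c
    have u1 := untilt pr (Ue.off_rw D.η0 D.θ D.f) r0 gr k0 k1
    have u2 : (δ * nrm c) ^ 2 / k ≤ δ * Br.sq c := by
      rw [mul_pow, nc, div_le_iff₀ k0]
      linarith only [mul_le_mul_of_nonneg_left δk (mul_nonneg δ0 c0')]
    have u3 := kl_wt_ge pr fun y => φ w0 y - c ⬝ᵥ X.φ y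
    have kb := (hKb n B _ mg C0 CV ok rfl D.P z c 0 1 0 w v P0.le le_rfl zero_le_one le_rfl (.inl rfl)
      hcR (.inr ⟨σ, by
        rw [hw', hv, ← W_eq (y0 := y0) (a0 := a0) (a' := a') (e := e) (ε := ε) h hd]
        simp only [Br.Dat.Wp, sub_self, zero_mul, wt_zero]⟩) pr).1
    have H0 := pr.kl_nonneg
    have v0 := (Br.Sm54.pr hW (C89.is_pos D.J y0)).kl_nonneg
    have bv1 : X.B0 + kl v (ising D.J y0) ≤ (mkB D s y0 B a0 a' e ε X).bv D.P z v := by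
      rw [Br.Dat.bv, U_eq hd, add_assoc (_ + _)]
      exact le_add_of_nonneg_right (add_nonneg (sq_nn _)
        (hW.mean_nonneg fun x => add_nonneg (C89.U_nn h x) (sq_nn _)))
    have kb' : kl w (ising D.J y0) ≤ Mb * ((mkB D s y0 B a0 a' e ε X).bv D.P z v + Br.sq c) := by
      refine le_trans ?_ (kb.trans (le_of_eq (by simp [Br.sq])))
      simp only [add_assoc]
      exact le_add_of_nonneg_right (add_nonneg H0 (add_nonneg (pr.hw.mean_nonneg fun x =>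
        add_nonneg (sq_nn _) (sq_nn _)) (add_nonneg (hW.mean_nonneg fun x => sq_nn _)
          (add_nonneg (sq_nn _) (sq_nn _)))))
    have u4 := ok.h1.sub_sq (C89.is_pos D.J y0) K10 (Xt.lip2_of_grad gr) hW.isP pr.hw.isP
    have hx := xi_eq (y0 := y0) (a0 := a0) (a' := a') (e := e) (ε := ε) (X := X) (σ := σ) (z := z)
      h hd ξ γ g1 (δ * M1) T' (|R| + 2 * β)
    rw [← hv] at hx
    generalize (mkB D s y0 B a0 a' e ε X).bv D.P z v = bv at bv1 kb' hx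
    have u5 : mean v (fun y => φ w0 y - c ⬝ᵥ X.φ y) - mean w (fun y => φ w0 y - c ⬝ᵥ X.φ y) ≤
        δ * M1 * (bv + Br.sq c) := by
      have w1 : 0 ≤ bv := by linarith only [bv1, b1, v0]
      refine (abs_le_of_sq_le_sq' (u4.trans ?_) (by positivity)).2
      have w2 : 16 * kl v (ising D.J y0) + 16 * kl w (ising D.J y0) + 12 ≤
          (28 + 16 * Mb) * (bv + Br.sq c) := by linarith only [kb', bv1, b1, v0, c0']
      have w3 : 4 * K1 * (28 + 16 * Mb) ≤ M1 ^ 2 := by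
        nlinarith only [hM1, M11]
      calc _ ≤ K1 * (2 * (δ * nrm c)) ^ 2 * ((28 + 16 * Mb) * (bv + Br.sq c)) :=
            mul_le_mul_of_nonneg_left w2 (by positivity)
        _ = 4 * K1 * (28 + 16 * Mb) * (δ ^ 2 * (Br.sq c * (bv + Br.sq c))) := by rw [← nc]; ring
        _ ≤ M1 ^ 2 * (δ ^ 2 * ((bv + Br.sq c) * (bv + Br.sq c))) := by
            gcongr; linarith only [w1]
        _ = _ := by ring
    have w1 : 0 ≤ bv := by linarith only [bv1, b1, v0]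
    have ξ0 : 0 ≤ mean (nu D (sc D s B σ z)) ξ := p1.hv.mean_nonneg hξ
    have eA : AA D ((sc D s B σ z).tl (φ w0) 0 0 0) = Ar (Ue.rw D.η0 D.θ D.f) v
        (wt w fun x => φ w0 x - c ⬝ᵥ X.φ x) + (1 - D.θ) / 2 * Ue.El (Ue.Lw D.η0 D.f) v
          (cut ((mkB D s y0 B a0 a' e ε X).lp D.P z) (mkB D s y0 B a0 a' e ε X).bT σ) := by
      rw [AA, ep, ← Ar_sc v _ e0', ← El_sc v _ e0', ← en, ← el]; rfl
    have eH : HH D ((sc D s B σ z).tl (φ w0) 0 0 0) = kl v (wt w fun x => φ w0 x - c ⬝ᵥ X.φ x) := by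
      rw [HH, ep, ← kl_sc v _ e0' e0', ← en]; rfl
    have eB : (mkB D s y0 B a0 a' e ε X).AA v w (cut ((mkB D s y0 B a0 a' e ε X).lp D.P z)
        (mkB D s y0 B a0 a' e ε X).bT σ) = Ar (Ue.rw D.η0 D.θ D.f) v w + (1 - D.θ) / 2 *
          Ue.El (Ue.Lw D.η0 D.f) v (cut ((mkB D s y0 B a0 a' e ε X).lp D.P z)
            (mkB D s y0 B a0 a' e ε X).bT σ) := by rw [hθ]; rfl
    rw [show s.pin B (sg s B σ) (xc D s B σ z) = sc D s B σ z from rfl, eA, eH, mul_pow, nc] at h1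
    change -R ≤ _ - _ + γ * (Hy D (sc D s B σ z) + mean (nu D (sc D s B σ z)) (U D (sc D s B σ z)) +
      mean (nu D (sc D s B σ z)) (U6 D (sc D s B σ z))) + g1 * Eg D (sc D s B σ z) s.Th +
      exp ((Dz D (sc D s B σ z) - T') / 2) + mean (nu D (sc D s B σ z)) ξ + _ + _ at h1
    have kw : kl v w ≤ 2 * β := hw' ▸ kl_wt_le hW (hβ c hcR)
    rw [eB, hx]
    generalize Ue.El _ v _ = El at El0 h1
    generalize Ar _ v w = A at A0 u1
    generalize Ar _ v (wt w _) = A' at u1 h1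
    generalize kl v (wt w _) = H' at u3 h1
    generalize mean v _ - mean w _ = d at u3 u5
    have g0 := mul_nonneg γ0 (add_nonneg (add_nonneg Hy0 U0) U60)
    have g2 := mul_nonneg g10 (Eg0 s.Th)
    generalize γ * _ = G at g0 h1
    generalize g1 * _ = G1 at g2 h1
    have y1 := mul_nonneg θ1 El0
    generalize (1 - D.θ) / 2 * El = F at y1 h1
    show _ ≤ (1 - k) * (A + F) - a0 * (1 - 2 * D.η0) * kl v w + _ + _ * (X.xa * _) + _
    have fin : -R ≤ lm * ((1 - k) * (A + F) - a0 * (1 - 2 * D.η0) * kl v w) +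
        (gW * CW ^ 2 + (gP + Mk) * δ) * Br.sq c + gP * C2 * (X.xa * Br.sq c) +
        (mean (nu D (sc D s B σ z)) ξ + G + G1 +
          min (exp ((Dz D (sc D s B σ z) - T') / 2)) (|R| + 2 * β) + δ * M1 * bv) := by
      have y2 := mul_le_mul_of_nonneg_right hab H0
      have y3 : 0 ≤ δ * M1 * bv := by positivity
      rcases le_total (exp ((Dz D (sc D s B σ z) - T') / 2)) (|R| + 2 * β) with hm | hm
      · have y4 := mul_le_mul_of_nonneg_left (u1.trans (add_le_add le_rfl u2)) lb0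
        have y5 := mul_le_mul_of_nonneg_right hlb (add_nonneg A0 y1)
        have y6 := mul_le_of_le_one_left (mul_nonneg δ0 c0') lb1
        have ab0 : 0 ≤ ab := (mul_nonneg lm0.le a00).trans hab
        have y7 := mul_le_mul_of_nonneg_left (show kl v w - δ * M1 * (bv + Br.sq c) ≤ H' by
          linarith only [u3, u5]) ab0
        have y8 := mul_le_of_le_one_left (by positivity : 0 ≤ δ * M1 * (bv + Br.sq c)) ab1
        have y9 := mul_le_mul_of_nonneg_left pw0 gP0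
        have y10 : (M1 + 1) * (δ * Br.sq c) ≤ Mk * (δ * Br.sq c) := by
          gcongr; linarith only [hMk, q1, q2, P0]
        have y11 := mul_nonneg (mul_nonneg lb0 k0.le) y1
        rw [min_eq_left hm]
        linarith only [h1, y2, y4, y5, y6, y7, y8, y9, y10, y11]
      · have y4 := mul_le_of_le_one_left H0 ab1
        have y5 : 0 ≤ lm * ((1 - k) * (A + F)) :=
          mul_nonneg lm0.le (mul_nonneg (sub_nonneg.2 k1) (add_nonneg A0 y1))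
        have y6 : 0 ≤ (gW * CW ^ 2 + (gP + Mk) * δ) * Br.sq c := by positivity
        have y7 : 0 ≤ gP * C2 * (X.xa * Br.sq c) := by positivity
        rw [min_eq_right hm]
        linarith only [y2, y3, y4, y5, y6, y7, kw, ξ0, g0, g2, neg_le_abs R]
    have := mul_le_mul_of_nonneg_left fin li.le
    rw [mul_add, mul_add, mul_add, inv_mul_cancel_left₀ lm0.ne'] at this
    linarith only [this]

/-- monotonicity in the gain and in the price of `del` -/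
theorem BurstOK.mono {n : ℕ} {J : Mx n} {P η0 θ : ℝ} {y0 p : V n} {Ad : V n → ℝ → Prop}
    {φ : V n → Cube n → ℝ} {l a lb ab c0 c0' gW gP Λ Λ' CP CN ω ec t K : ℝ}
    (h : BurstOK J P η0 θ y0 p Ad φ l a lb ab c0 gW gP Λ CP CN ω ec t K) (hc : c0' ≤ c0)
    (hΛ : Λ ≤ Λ') : BurstOK J P η0 θ y0 p Ad φ l a lb ab c0' gW gP Λ' CP CN ω ec t K := by
  intro D s B ξ γ g1 T T' R h1 h2 h3 h4 h5 h6 h7 h8 h9 h10 h11 h12 h13 h14 h15 h16
  have := h D s B ξ γ g1 T T' R h1 h2 h3 h4 h5 h6 h7 h8 h9 h10 h11 h12 h13 h14 h15 h16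
  have a := mul_le_mul_of_nonneg_right hc (sum_nonneg fun k (_ : k ∈ B) =>
    add_nonneg (sq_nonneg (Del D s k)) (sq_nonneg ((J *ᵥ Del D s) k)))
  have b := mul_le_mul_of_nonneg_right hΛ (show 0 ≤ del s ⬝ᵥ del s from sq_nn _)
  linarith only [this, a, b]

end Crest.Agent.T157.S1

end
end

-- ▼ part T157/S1BuE_83
section

/-! Row 157, S1 B-part: `BuStmt` unconditionally (helper83). -/

namespace Crest.Agent.T157.S1

theorem buStmt : BuStmt := buGlue crudeStmt Br.smStmt Br.kbStmt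

end Crest.Agent.T157.S1
end

-- ▼ part T157/BrNet_30
section

/-!
# Row 157, block B, S1: `Br.netStmt` (helper30)

Gibbs variational principle and a union bound.
-/

set_option autoImplicit false

noncomputable section

namespace Crest.Agent.T157.Br

open Real
open Crest.Agent.T157.E Crest.Agent.T157.SL Crest.Agent.T157.Ta

namespace Net30

variable {Ω : Type*} [Fintype Ω]

theorem kl_self (v : Ω → ℝ) : kl v v = 0 :=
  Finset.sum_eq_zero fun x _ => by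
    by_cases h : prob v x = 0
    · simp [h]
    · rw [div_self h, log_one, mul_zero]

/-- a bound for all laws is a bound on the exponential moment -/
theorem mgf_of {μ X : Ω → ℝ} {e b : ℝ} (hμ : ∀ x, 0 < μ x) (hw : Wt μ) (he : 0 < e)
    (h : ∀ v, Wt v → mean v X ≤ e * kl v μ + b) :
    mean μ (fun x => exp (X x / e)) ≤ exp (b / e) := by
  have hP : Pr (wt μ fun x => X x / e) μ := ⟨wt_wt hw _, hw, fun x e => absurd e (hμ x).ne'⟩
  have h1 := kl_wt hP fun x => X x / e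
  rw [kl_self, mean_div_const] at h1
  have h2 := h _ hP.hv
  have h3 : mean (wt μ fun x => X x / e) X / e ≤ kl (wt μ fun x => X x / e) μ + b / e := by
    rw [div_le_iff₀ he, add_mul, div_mul_cancel₀ _ he.ne']; linarith
  rw [← log_le_iff_le_exp (mean_pos' hw fun x => exp_pos _)]
  linarith

/-- and conversely -/
theorem of_mgf {μ v X : Ω → ℝ} {e c : ℝ} (hμ : ∀ x, 0 < μ x) (hw : Wt μ) (he : 0 < e) (hv : Wt v)
    (h : log (mean μ fun x => exp (X x / e)) ≤ c) : mean v X ≤ e * (kl v μ + c) := by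
  have hP : Pr v μ := ⟨hv, hw, fun x e => absurd e (hμ x).ne'⟩
  have h1 := mean_le_kl hP fun x => X x / e
  rw [mean_div_const, div_le_iff₀ he] at h1
  nlinarith

end Net30

open Net30 in
theorem netStmt : NetStmt := by
  intro Ω A _ μ N X e b hμ he h v a hv ha
  obtain ⟨x0, -⟩ := hv.exists_pos
  have : Nonempty Ω := ⟨x0⟩
  have hw : Wt μ := .of_pos hμ
  have hN : (0 : ℝ) < N.card := by exact_mod_cast Finset.card_pos.2 ⟨_, ha x0⟩
  have h1 : mean μ (fun x => exp (X (a x) x / e)) ≤ N.card * exp (b / e) := by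
    calc _ ≤ mean μ (fun x => ∑ c ∈ N, exp (X c x / e)) := hw.mean_mono fun x =>
          Finset.single_le_sum (f := fun c => exp (X c x / e)) (fun c _ => (exp_pos _).le) (ha x)
      _ = ∑ c ∈ N, mean μ fun x => exp (X c x / e) := mean_sum _ _ _
      _ ≤ ∑ _c ∈ N, exp (b / e) := Finset.sum_le_sum fun c hc => mgf_of hμ hw he (h c hc)
      _ = _ := by rw [Finset.sum_const, nsmul_eq_mul]
  have h2 : log (mean μ fun x => exp (X (a x) x / e)) ≤ log N.card + b / e := by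
    have := log_le_log (mean_pos' hw fun x => exp_pos (X (a x) x / e)) h1
    rwa [log_mul hN.ne' (exp_pos _).ne', log_exp] at this
  have h3 := of_mgf hμ hw he hv h2
  have h4 : e * (b / e) = b := by field_simp
  nlinarith

end Crest.Agent.T157.Br
end
end

-- ▼ part T157/OkEq_45
section

/-!
# Row 157, block B, S1 (helper45): the targets of the flows
-/

set_option autoImplicit false

noncomputable section

namespace Crest.Agent.T157.Br

open Real Matrix Function Finset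
open Crest.Agent.T157.E Crest.Agent.T157.SL Crest.Agent.T157.Ta
open Crest.Agent.T157.Rec (grad)
open Crest.Agent.T157.Eig
open Crest.Agent.T157.Xt (H1 Lip2)
open Crest.Agent.T157.S3 (Mx tau Dg Rg)

namespace Eq45

variable {n : ℕ} {κ : Type} [Fintype κ]

theorem ex_eq (ι : κ → Fin n) (c : κ → ℝ) : ex ι c = ∑ k, c k • Pi.single (ι k) (1 : ℝ) := by
  ext i
  simp only [ex, XM, mulVec, dotProduct, Finset.sum_apply, Pi.smul_apply, Pi.single_apply,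
    smul_eq_mul, eq_comm (a := i)]
  exact sum_congr rfl fun k _ => by split_ifs <;> simp

theorem ex_dot (ι : κ → Fin n) (c : κ → ℝ) (u : Fin n → ℝ) :
    ex ι c ⬝ᵥ u = ∑ k, c k * u (ι k) := by
  rw [ex_eq, sum_dotProduct]
  exact sum_congr rfl fun k _ => by rw [smul_dotProduct, single_one_dotProduct, smul_eq_mul]

theorem ex_at {ι : κ → Fin n} (hι : Injective ι) (c : κ → ℝ) (k : κ) : ex ι c (ι k) = c k := by
  classical
  simp only [ex, XM, mulVec, dotProduct, hι.eq_iff]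
  simp

theorem ex_off {ι : κ → Fin n} (c : κ → ℝ) {j : Fin n} (h : ∀ k, ι k ≠ j) : ex ι c j = 0 := by
  simp [ex, XM, mulVec, dotProduct, h]

theorem sq_ex {ι : κ → Fin n} (hι : Injective ι) (c : κ → ℝ) : sq (ex ι c) = c ⬝ᵥ c := by
  rw [sq, ex_dot]
  exact sum_congr rfl fun k _ => by rw [ex_at hι]

theorem mk_dot (C : Finset (Fin n)) (u v : Fin n → ℝ) : mk C u ⬝ᵥ v = u ⬝ᵥ mk C v :=
  sum_congr rfl fun j _ => by simp only [mk]; split_ifs <;> simp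

theorem mk_split (C : Finset (Fin n)) (u v : Fin n → ℝ) :
    mk C u ⬝ᵥ v = u ⬝ᵥ v - mk Cᶜ u ⬝ᵥ v := by
  simp only [dotProduct, ← sum_sub_distrib]
  exact sum_congr rfl fun j _ => by simp only [mk, mem_compl]; split_ifs <;> simp

theorem mk_mk (U : Finset (Fin n)) (u v : Fin n → ℝ) : mk U u ⬝ᵥ v = mk U u ⬝ᵥ mk U v :=
  sum_congr rfl fun j _ => by simp only [mk]; split_ifs <;> simp

theorem mk_sq (U : Finset (Fin n)) (u : Fin n → ℝ) : mk U u ⬝ᵥ mk U u = ∑ j ∈ U, u j ^ 2 := by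
  rw [← univ_inter U, ← sum_ite_mem, univ_inter]
  exact sum_congr rfl fun j _ => by simp only [mk]; split_ifs <;> simp [pow_two]

theorem nrm_mk_le (U : Finset (Fin n)) (u : Fin n → ℝ) : nrm (mk U u) ≤ nrm u := by
  rw [nrm_le_iff (nrm_nonneg _), nrm_sq, mk_sq]
  exact (sum_le_sum_of_subset_of_nonneg (subset_univ U) fun _ _ _ => sq_nonneg _).trans_eq
    (sum_congr rfl fun j _ => pow_two _)

theorem nrm_mk_sup {U : Finset (Fin n)} {u : Fin n → ℝ} {b ρ : ℝ} (hb : 0 ≤ b) (h0 : 0 ≤ ρ)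
    (h : ∀ j, |u j| ≤ b) (hU : (U.card : ℝ) ≤ ρ ^ 2) : nrm (mk U u) ≤ b * ρ := by
  rw [nrm_le_iff (by positivity), mk_sq]
  calc _ ≤ ∑ _j ∈ U, b ^ 2 := sum_le_sum fun j _ => by
        rw [← sq_abs]; exact pow_le_pow_left₀ (abs_nonneg _) (h j) 2
    _ = U.card * b ^ 2 := by rw [sum_const, nsmul_eq_mul]
    _ ≤ ρ ^ 2 * b ^ 2 := by gcongr
    _ = _ := by ring

theorem abs_sv (x : Cube n) (i : Fin n) : |sv x i| ≤ 1 := by
  have := Rec.sv_mul_self x i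
  rw [← pow_two, ← sq_abs] at this
  nlinarith [abs_nonneg (sv x i)]

theorem abs_tau (J : Mx n) (y : Fin n → ℝ) (x : Cube n) (i : Fin n) : |tau J y x i| ≤ 2 := by
  have h1 := abs_sv x i
  have h2 := (abs_tanh_lt_one (S3.hf J y x i)).le
  exact (abs_sub _ _).trans (by linarith)

theorem dot_dv (J : Mx n) (y : Fin n → ℝ) (C : Finset (Fin n)) (ι : κ → Fin n) (T : Cube n → Mx n)
    (Wm : Mx n) (c : κ → ℝ) (x : Cube n) :
    c ⬝ᵥ dv J y (Vm C ι T Wm) x = mk C ((T x)ᵀ *ᵥ Wm *ᵥ ex ι c) ⬝ᵥ tau J y x := by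
  rw [mk_dot, ex_eq, mulVec_sum, mulVec_sum, sum_dotProduct]
  exact sum_congr rfl fun k _ => by
    rw [mulVec_smul, mulVec_smul, smul_dotProduct, smul_eq_mul, ← mk_dot]; rfl

theorem dot_φ (ι : κ → Fin n) (ψ : Cube n → Fin n → ℝ) (Wm : Mx n) (c : κ → ℝ) (x : Cube n) :
    c ⬝ᵥ φm ι ψ Wm x = (Wm *ᵥ ex ι c) ⬝ᵥ ψ x := by
  rw [ex_eq, mulVec_sum, sum_dotProduct]
  exact sum_congr rfl fun k _ => by rw [mulVec_smul, smul_dotProduct, smul_eq_mul]; rfl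

theorem dot_h {J : Mx n} (hJ : Jᵀ = J) (C : Finset (Fin n)) (ι : κ → Fin n) (c : κ → ℝ)
    (x : Cube n) : c ⬝ᵥ hG (rw J C ι) x = mk C (J *ᵥ ex ι c) ⬝ᵥ sv x := by
  rw [mk_dot, ← hJ, mulVec_transpose, ← dotProduct_mulVec, ex_dot, hJ]
  refine sum_congr rfl fun k _ => ?_
  congr 1
  simp only [hG, mulVec, dotProduct, rw, mk]
  exact sum_congr rfl fun j _ => by split_ifs <;> simp

theorem G_sq {w v G : Cube n → ℝ} {K δ ρ : ℝ} (hw : ∀ x, 0 < w x) (hK : 1 ≤ K) (h2 : H2 w K)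
    (G0 : ∀ x, 0 ≤ G x) (hL : Lip2 δ G) (hm : mean w (fun σ => G σ ^ 2) ≤ δ ^ 2 * ρ ^ 2)
    (hρ : 1 ≤ ρ ^ 2) (hv : Wt v) :
    mean v (fun x => G x ^ 2) ≤ 3 * K * δ ^ 2 * (ρ ^ 2 + kl v w) := by
  have hw' : Wt w := .of_pos hw
  have k0 : 0 ≤ kl v w := Pr.kl_nonneg ⟨hv, hw', fun x e => absurd e (hw x).ne'⟩
  have a1 := h2 G (δ ^ 2) G0 hL.vp v hv
  have a2 : mean w G ^ 2 ≤ mean w fun σ => G σ ^ 2 := by
    have := hw'.isP.mean_sq_le G
    simp only [Chain22.ip, ← pow_two] at this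
    exact this
  have a3 : 1 * (δ ^ 2 * ρ ^ 2) ≤ K * (δ ^ 2 * ρ ^ 2) := by gcongr
  have a4 : K * δ ^ 2 * 1 ≤ K * δ ^ 2 * ρ ^ 2 := by gcongr
  have a5 : 0 ≤ K * δ ^ 2 * kl v w := by positivity
  nlinarith

variable [DecidableEq κ]

theorem fixed {D : Dat n κ} (g : D.Geo) {a x Ce CV K δ es : ℝ} {ψ : Cube n → Fin n → ℝ}
    {T : Cube n → Mx n} {Wm : Mx n} (hb : Hb D.J D.y K)
    (fm : Fm D.J D.y D.ι a x Ce CV δ es D.B0 D.R ψ T Wm) (d0 : 0 < δ) (b1 : 1 ≤ D.B0)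
    (bU : (D.Cᶜ.card : ℝ) ≤ D.B0) (hε : 3 * K * δ ≤ D.ε) (hs : D.ς ≤ D.ε) {ka : κ → ℝ}
    (hk : ka = meanV D.μ (fun z => a • φm D.ι ψ Wm z + (D.h z - x • D.s z) -
      dv D.J D.y (Vm D.C D.ι T Wm) z)) {ρ : ℝ} {c : κ → ℝ} (r0 : 0 ≤ ρ) (r1 : D.B0 ≤ ρ ^ 2)
    (r2 : ρ ^ 2 ≤ 2 * D.R) (hc : nrm c ≤ ρ) {v : Cube n → ℝ} (hv : Wt v) :
    mean v (fun z => c ⬝ᵥ (dv D.J D.y (Vm D.C D.ι T Wm) z -
      (a • φm D.ι ψ Wm z + (D.h z - x • D.s z - ka)))) ≤ (es + 9 * D.ε) * (ρ ^ 2 + kl v D.μ) := by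
  have hμ : ∀ z, 0 < D.μ z := fun z => exp_pos _
  have wμ : Wt D.μ := .of_pos hμ
  have hK := hb.1
  have e1 : δ ≤ D.ε := by nlinarith
  have e0 : 0 < D.ε := d0.trans_le e1
  have hU := bU.trans r1
  have dir := fm.dir ρ c r0 r1 r2 hc
  obtain ⟨Ω, Ω', G, rg, -, lG, mG, pt, -⟩ := dir.ver
  have q := dir.eq v hv _ rfl
  obtain ⟨W, hW⟩ : ∃ W : Cube n → Fin n → ℝ, W = fun σ => (T σ)ᵀ *ᵥ Wm *ᵥ ex D.ι c := ⟨_, rfl⟩
  have hW' : ∀ σ, (T σ)ᵀ *ᵥ Wm *ᵥ ex D.ι c = W σ := fun σ => by rw [hW]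
  simp only [hW'] at q pt
  obtain ⟨R, hR⟩ : ∃ R : Cube n → ℝ, R = fun σ => W σ ⬝ᵥ tau D.J D.y σ -
    a * (Wm *ᵥ ex D.ι c) ⬝ᵥ ψ σ - (D.J *ᵥ ex D.ι c - x • ex D.ι c) ⬝ᵥ sv σ := ⟨_, rfl⟩
  rw [← hR] at q
  obtain ⟨A, hA⟩ : ∃ A : Cube n → ℝ, A = fun σ => mk D.Cᶜ (D.J *ᵥ ex D.ι c) ⬝ᵥ sv σ -
    mk D.Cᶜ (W σ) ⬝ᵥ tau D.J D.y σ := ⟨_, rfl⟩
  have key : ∀ z, c ⬝ᵥ (a • φm D.ι ψ Wm z + (D.h z - x • D.s z) -
      dv D.J D.y (Vm D.C D.ι T Wm) z) = -(R z + A z) := fun z => by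
    have s1 : c ⬝ᵥ D.s z = ex D.ι c ⬝ᵥ sv z := (ex_dot _ _ _).symm
    simp only [dotProduct_sub, dotProduct_add, dotProduct_smul, smul_eq_mul, dot_dv, dot_φ, hW',
      Dat.h, dot_h g.symm, s1, mk_split D.C, hR, hA, sub_dotProduct, smul_dotProduct]
    ring
  have k1 : c ⬝ᵥ ka = -(mean D.μ R + mean D.μ A) := by
    rw [hk, meanV_dot]; simp only [key]; rw [mean_neg, mean_add]
  have k2 : ∀ z, c ⬝ᵥ (dv D.J D.y (Vm D.C D.ι T Wm) z -
      (a • φm D.ι ψ Wm z + (D.h z - x • D.s z - ka))) = R z + A z + c ⬝ᵥ ka := fun z => by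
    have := key z
    simp only [dotProduct_sub, dotProduct_add] at this ⊢
    linarith
  have j1 : nrm (mk D.Cᶜ (D.J *ᵥ ex D.ι c)) ≤ D.ε * ρ := by
    rw [nrm_le_iff (by positivity), mk_sq]
    refine (g.blk _ fun j hj => ex_off c fun k e => g.off k (by rw [e]; exact hj)).trans ?_
    rw [sq_ex g.inj, mul_pow, ← nrm_sq]
    have := g.s0
    have := nrm_nonneg c
    gcongr
  have pA : ∀ z, |A z| ≤ 4 * D.ε * ρ ^ 2 + 1 / D.ε * G z ^ 2 := fun z => by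
    have t1 := nrm_mk_sup zero_le_two r0 (abs_tau D.J D.y z) hU
    have t2 := nrm_mk_sup zero_le_one r0 (abs_sv z) hU
    have t3 : nrm (mk D.Cᶜ (W z)) ≤ G z + D.ε * ρ := by
      have e : mk D.Cᶜ (W z) = mk D.Cᶜ (W z - Ω z) + mk D.Cᶜ (Ω z) := by
        ext j; simp only [mk, Pi.add_apply, Pi.sub_apply]; split_ifs <;> simp
      rw [e]
      exact (nrm_add_le _ _).trans (add_le_add ((nrm_mk_le _ _).trans (pt z).1)
        (nrm_mk_sup e0.le r0 (fun j => ((norm_le_pi_norm (Ω z) j).trans (rg z).1).trans e1) hU))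
    have t4 : |mk D.Cᶜ (D.J *ᵥ ex D.ι c) ⬝ᵥ sv z| ≤ D.ε * ρ * (1 * ρ) := by
      rw [mk_mk]
      exact (abs_dot_le _ _).trans (mul_le_mul j1 t2 (nrm_nonneg _) (by positivity))
    have t5 : |mk D.Cᶜ (W z) ⬝ᵥ tau D.J D.y z| ≤ (G z + D.ε * ρ) * (2 * ρ) := by
      rw [mk_mk]
      exact (abs_dot_le _ _).trans (mul_le_mul t3 t1 (nrm_nonneg _) ((nrm_nonneg _).trans t3))
    have t6 : 2 * ρ * G z ≤ D.ε * ρ ^ 2 + 1 / D.ε * G z ^ 2 := by
      have : D.ε * ρ ^ 2 + 1 / D.ε * G z ^ 2 - 2 * ρ * G z = (D.ε * ρ - G z) ^ 2 / D.ε := by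
        field_simp; ring
      have h2 : 0 ≤ (D.ε * ρ - G z) ^ 2 / D.ε := by positivity
      linarith
    rw [hA]
    refine (abs_sub _ _).trans ?_
    nlinarith
  have mA : ∀ u, Wt u → mean u (fun z => |A z|) ≤ 4 * D.ε * ρ ^ 2 + D.ε * (ρ ^ 2 + kl u D.μ) / 3 :=
    fun u hu => by
      have k0 : 0 ≤ kl u D.μ := Pr.kl_nonneg ⟨hu, wμ, fun x e => absurd e (hμ x).ne'⟩
      have h1 := G_sq hμ hK hb.2.2.1 (fun z => (nrm_nonneg _).trans (pt z).1) lG mG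
        (b1.trans r1) hu
      refine (hu.mean_mono pA).trans ?_
      rw [mean_add, hu.mean_const, mean_const_mul]
      refine add_le_add le_rfl ?_
      rw [one_div_mul_eq_div, div_le_iff₀ e0]
      refine h1.trans ?_
      have h3 : 3 * δ ≤ D.ε := by nlinarith
      have h4 : 3 * K * δ * (3 * δ) ≤ D.ε * D.ε := by gcongr
      have h5 : 0 ≤ ρ ^ 2 + kl u D.μ := by positivity
      nlinarith [mul_le_mul_of_nonneg_right h4 h5]
  have k0 : 0 ≤ kl v D.μ := Pr.kl_nonneg ⟨hv, wμ, fun x e => absurd e (hμ x).ne'⟩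
  have m1 := (hv.mean_mono fun z => le_abs_self (A z)).trans (mA v hv)
  have m2 := (wμ.mean_mono fun z => neg_le_abs (A z)).trans (mA _ wμ)
  rw [mean_neg, Net30.kl_self] at m2
  simp only [k2]
  rw [mean_add, mean_add, hv.mean_const, k1]
  have m3 := (abs_le.1 q).2
  have m4 : 0 ≤ D.ε * kl v D.μ := by positivity
  have m5 : 0 ≤ D.ε * ρ ^ 2 := by positivity
  change mean v R - mean D.μ R ≤ es * (ρ ^ 2 + kl v D.μ) at m3
  change mean v A ≤ _ at m1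
  change -mean D.μ A ≤ _ at m2
  nlinarith

omit [DecidableEq κ] in
theorem card_le {D : Dat n κ} (g : D.Geo) : Fintype.card κ ≤ D.Cᶜ.card := by
  rw [← card_univ]
  exact card_le_card_of_injOn D.ι (fun k _ => by simpa using g.off k) g.inj.injOn

theorem net {μ v : Cube n → ℝ} (hμ : ∀ x, 0 < μ x) {Y : Cube n → κ → ℝ} {e ρ : ℝ} (he : 0 < e)
    (r0 : 0 ≤ ρ) (hκ : (Fintype.card κ : ℝ) ≤ ρ ^ 2)
    (h : ∀ c, nrm c ≤ ρ → ∀ u, Wt u → mean u (fun z => c ⬝ᵥ Y z) ≤ e * (ρ ^ 2 + kl u μ))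
    {f : Cube n → κ → ℝ} (hf : Bd ρ f) (hv : Wt v) :
    mean v (fun z => f z ⬝ᵥ Y z) ≤ 6 * e * (ρ ^ 2 + kl v μ) := by
  obtain ⟨N, N1, N2, N3⟩ := Nrm.exists_half_net κ
  obtain ⟨c0, hc0, -⟩ := N3 0 (by simp)
  choose a ha1 ha2 using fun z => exists_max_image N (fun c => c ⬝ᵥ Y z) ⟨c0, hc0⟩
  have h1 := netStmt (Cube n) (κ → ℝ) μ N (fun c z => (ρ • c) ⬝ᵥ Y z) e (e * ρ ^ 2) hμ he
    (fun c hc u hu => (h (ρ • c) (by
      rw [nrm_smul, abs_of_nonneg r0]; exact mul_le_of_le_one_right r0 (N2 c hc)) u hu).trans_eq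
        (by ring)) v a hv ha1
  have h2 : log (N.card : ℝ) ≤ 2 * ρ ^ 2 := by
    have p : (0 : ℝ) < N.card := by exact_mod_cast card_pos.2 ⟨c0, hc0⟩
    have l5 : log 5 ≤ 2 := by
      rw [log_le_iff_le_exp (by norm_num)]
      have := Real.quadratic_le_exp_of_nonneg (zero_le_two (α := ℝ))
      linarith
    calc _ ≤ log (5 ^ Fintype.card κ) := log_le_log p (by exact_mod_cast N1)
      _ = Fintype.card κ * log 5 := log_pow _ _
      _ ≤ ρ ^ 2 * 2 := mul_le_mul hκ l5 (log_nonneg (by norm_num)) (by positivity)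
      _ = _ := by ring
  have h3 : mean v (fun z => f z ⬝ᵥ Y z) ≤ mean v fun z => 2 * ((ρ • a z) ⬝ᵥ Y z) :=
    hv.mean_mono fun z => by
      have b1 := Nrm.nrm_le_of_net N3 (ha2 z)
      have b2 : nrm (f z) ≤ ρ := (nrm_le_iff r0).2 (hf z)
      refine ((le_abs_self _).trans (abs_dot_le _ _)).trans ?_
      rw [smul_dotProduct, smul_eq_mul]
      calc _ ≤ ρ * (2 * (a z ⬝ᵥ Y z)) := mul_le_mul b2 b1 (nrm_nonneg _) r0
        _ = _ := by ring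
  have k0 : 0 ≤ kl v μ := Pr.kl_nonneg ⟨hv, .of_pos hμ, fun x e => absurd e (hμ x).ne'⟩
  rw [mean_const_mul] at h3
  have h4 := mul_le_mul_of_nonneg_left h2 he.le
  have h5 : 0 ≤ e * kl v μ := by positivity
  nlinarith

end Eq45

open Eq45 in
theorem eqStmt : EqStmt := by
  intro n κ _ _ D Ce CV K δ es ψ ψ0 T T0 Wm W0 t hka hk0
  have hK := t.hb.1
  have d0 := t.d0
  have cv := t.cv
  have b1 := t.b1
  have h1 : 3 * K * δ ≤ D.ε := by
    refine le_trans ?_ t.hε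
    have : K * δ * 1 ≤ K * δ * CV := by gcongr
    have : 0 ≤ K * δ := by positivity
    nlinarith
  have e0 : 0 < D.ε := lt_of_lt_of_le (by positivity) h1
  have hμ : ∀ z, 0 < D.μ z := fun z => exp_pos _
  have k0 : ∀ v, Wt v → 0 ≤ kl v D.μ := fun v hv =>
    Pr.kl_nonneg ⟨hv, .of_pos hμ, fun x e => absurd e (hμ x).ne'⟩
  have ε1 := t.ε1
  have he := t.he
  refine ⟨fun c hc v hv => ?_, fun ρ hρ f hf v hv => ?_⟩
  · have c0 : 0 ≤ sq c := Eig.dot_self_nonneg c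
    have e : √(D.B0 + sq c) ^ 2 = D.B0 + sq c := sq_sqrt (by linarith)
    have := fixed t.toGeo t.hb t.fa d0 b1 t.bU h1 t.hs (ka := D.ka) (by rw [hka, t.hV, t.hφ])
      (ρ := √(D.B0 + sq c)) (c := c) (sqrt_nonneg _) (by linarith) (by linarith [t.bR])
      (sqrt_le_sqrt (le_add_of_nonneg_left (by linarith))) hv
    rw [e, ← t.hV, ← t.hφ] at this
    refine this.trans (mul_le_mul_of_nonneg_right (by linarith) ?_)
    linarith [k0 v hv]
  · have := net (e := max es 0 + 9 * D.ε) (Y := fun x =>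
      dv D.J D.y D.V0 x - (D.h x - D.b0 • D.s x - D.k0)) hμ (by positivity) hρ.1
      ((Nat.cast_le.2 (card_le t.toGeo)).trans (t.bU.trans hρ.2.1)) (fun c hc u hu => by
        have := fixed t.toGeo t.hb t.f0 d0 b1 t.bU h1 t.hs (ka := D.k0)
          (by simp only [hk0, t.hV0, zero_smul, zero_add]) hρ.1 hρ.2.1
          (by linarith [hρ.2.2, t.bR]) hc hu
        simp only [zero_smul, zero_add, ← t.hV0] at this
        refine this.trans (mul_le_mul_of_nonneg_right (by linarith [le_max_left es 0]) ?_)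
        have := k0 u hu
        positivity) hf hv
    refine this.trans (mul_le_mul_of_nonneg_right ?_ ?_)
    · have : max es 0 ≤ D.e / 100 := max_le (by linarith) (by linarith)
      linarith
    · have := k0 v hv
      positivity

end Crest.Agent.T157.Br

end
end

-- ▼ part T157/OkA_35
section

/-!
# Row 157, block B, S1 (helper35): tools for the leaves of `OkDef_35` (half nets, words)
-/

set_option autoImplicit false
set_option linter.unusedVariables false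
set_option linter.unusedSectionVars false

noncomputable section

namespace Crest.Agent.T157.Br.Ok35

open Real Matrix Function Finset
open Crest.Agent.T157.E Crest.Agent.T157.SL Crest.Agent.T157.Ta
open Crest.Agent.T157.Rec (grad)
open Crest.Agent.T157.Eig
open Crest.Agent.T157.Xt (H1 Lip2)
open Crest.Agent.T157.S3 (Mx tau Dg Rg FreeM)

variable {n : ℕ} {κ : Type} [Fintype κ] [DecidableEq κ]

/-- **selection on a half net** -/
theorem sel (κ : Type) [Fintype κ] [DecidableEq κ] {ρ : ℝ} (hρ : 0 < ρ) :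
    ∃ N : Finset (κ → ℝ), N.card ≤ 5 ^ Fintype.card κ ∧ (∀ a ∈ N, nrm a ≤ ρ) ∧
      ∀ g g1 : (κ → ℝ) → ℝ, (∃ C, ∀ f, nrm f ≤ ρ → g f ≤ C) →
        (∀ a r, g (a + r) ≤ g1 a + g ((2 : ℝ) • r) / 2) →
        ∃ a ∈ N, ∀ f, nrm f ≤ ρ → g f ≤ 2 * g1 a := by
  classical
  obtain ⟨N, h1, h2, h3⟩ := Nrm.exists_half_net κ
  have key : ∀ f : κ → ℝ, nrm f ≤ ρ → ∃ a ∈ N.image (ρ • ·), nrm ((2 : ℝ) • (f - a)) ≤ ρ := by
    intro f hf
    obtain ⟨c, hc, h⟩ := h3 (ρ⁻¹ • f) (by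
      rw [nrm_smul, abs_of_pos (inv_pos.2 hρ), inv_mul_le_iff₀ hρ, mul_one]; exact hf)
    refine ⟨ρ • c, mem_image_of_mem _ hc, ?_⟩
    have e : f - ρ • c = ρ • (ρ⁻¹ • f - c) := by
      rw [smul_sub, smul_smul, mul_inv_cancel₀ hρ.ne', one_smul]
    rw [e, nrm_smul, nrm_smul, abs_of_pos hρ, abs_two]
    nlinarith
  refine ⟨N.image (ρ • ·), card_image_le.trans h1, fun a ha => ?_, fun g g1 hb hs => ?_⟩
  · obtain ⟨c, hc, rfl⟩ := mem_image.1 ha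
    rw [nrm_smul, abs_of_pos hρ]
    exact mul_le_of_le_one_right hρ.le (h2 c hc)
  obtain ⟨a0, ha0, -⟩ := key 0 (by simpa using hρ.le)
  obtain ⟨a, ha, hm⟩ := exists_max_image _ g1 ⟨a0, ha0⟩
  obtain ⟨C, hC⟩ := hb
  have bdd : BddAbove (g '' {f | nrm f ≤ ρ}) := ⟨C, by rintro _ ⟨f, hf, rfl⟩; exact hC f hf⟩
  have le : ∀ f, nrm f ≤ ρ → g f ≤ sSup (g '' {f | nrm f ≤ ρ}) := fun f hf =>
    le_csSup bdd ⟨f, hf, rfl⟩
  have up : sSup (g '' {f | nrm f ≤ ρ}) ≤ g1 a + sSup (g '' {f | nrm f ≤ ρ}) / 2 := by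
    refine csSup_le ⟨g 0, 0, by simpa using hρ.le, rfl⟩ ?_
    rintro _ ⟨f, hf, rfl⟩
    obtain ⟨c, hc, h⟩ := key f hf
    have := hs c (f - c)
    rw [add_sub_cancel] at this
    linarith [hm c hc, le _ h]
  exact ⟨a, ha, fun f hf => (le f hf).trans (by linarith)⟩

/-- **random directions**: selection and the entropy cost of the net -/
theorem net2 {Ω : Type} [Fintype Ω] {μ : Ω → ℝ} (hμ : ∀ x, 0 < μ x) {ρ e b : ℝ} (hρ : 1 ≤ ρ)
    (hc : (Fintype.card κ : ℝ) ≤ ρ ^ 2) (he : 0 < e) (hb : 0 ≤ b) (g g1 X : (κ → ℝ) → Ω → ℝ)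
    (bd : ∀ x, ∃ C, ∀ f, nrm f ≤ ρ → g f x ≤ C)
    (hs : ∀ x a r, g (a + r) x ≤ g1 a x + g ((2 : ℝ) • r) x / 2)
    (hX : ∀ a, nrm a ≤ ρ → ∀ v, Wt v → mean v (X a) ≤ e * kl v μ + b) :
    ∃ a : Ω → κ → ℝ, (∀ x, nrm (a x) ≤ ρ ∧ ∀ f, nrm f ≤ ρ → g f x ≤ 2 * g1 (a x) x) ∧
      ∀ v, Wt v → mean v (fun x => max (X (a x) x) 0) ≤ e * (kl v μ + 3 * ρ ^ 2) + b := by
  classical
  obtain ⟨N, h1, h2, h3⟩ := sel κ (lt_of_lt_of_le one_pos hρ)
  choose a ha hg using fun x => h3 (fun f => g f x) (fun f => g1 f x) (bd x) (hs x)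
  refine ⟨a, fun x => ⟨h2 _ (ha x), hg x⟩, fun v hv => ?_⟩
  have k := netStmt Ω (Option (κ → ℝ)) μ (insertNone N) (fun o x => o.elim 0 fun c => X c x) e b hμ
    he (fun o ho w hw => by
      cases o with
      | none =>
        obtain ⟨x0, -⟩ := hw.exists_pos
        have : Nonempty Ω := ⟨x0⟩
        have : 0 ≤ kl w μ := (Pr.mk hw (.of_pos hμ) fun x e => absurd e (hμ x).ne').kl_nonneg
        simp only [Option.elim]
        rw [hw.mean_const]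
        positivity
      | some c => exact hX c (h2 c (by simpa using ho)) w hw) v
    (fun x => if 0 ≤ X (a x) x then some (a x) else none) hv fun x => by
      split_ifs <;> simp [ha x]
  have e1 : (fun x => max (X (a x) x) 0) = fun x =>
      (if 0 ≤ X (a x) x then some (a x) else none).elim 0 fun c => X c x := by
    funext x
    split_ifs with h
    · exact max_eq_left h
    · exact max_eq_right (not_le.1 h).le
  have l : log ((insertNone N).card : ℝ) ≤ 3 * ρ ^ 2 := by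
    have p5 : (1 : ℝ) ≤ 5 ^ Fintype.card κ := one_le_pow₀ (by norm_num)
    have c1 : ((insertNone N).card : ℝ) ≤ 2 * 5 ^ Fintype.card κ := by
      rw [card_insertNone]
      have : (N.card : ℝ) ≤ 5 ^ Fintype.card κ := by exact_mod_cast h1
      push_cast
      linarith
    have c0 : (0 : ℝ) < (insertNone N).card := by rw [card_insertNone]; positivity
    have l2 : log 2 ≤ 1 := (log_le_sub_one_of_pos two_pos).trans (by norm_num)
    have l5 : log 5 ≤ 2 := by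
      rw [log_le_iff_le_exp (by norm_num), show (2 : ℝ) = 1 + 1 by norm_num, exp_add]
      nlinarith [exp_one_gt_d9]
    have := log_le_log c0 c1
    rw [log_mul two_ne_zero (by positivity), log_pow] at this
    nlinarith [mul_le_mul_of_nonneg_left l5 (Nat.cast_nonneg (Fintype.card κ) : (0 : ℝ) ≤ _)]
  rw [e1]
  exact k.trans (by nlinarith)

lemma bd_nrm {ρ : ℝ} {f : Cube n → κ → ℝ} (h : Bd ρ f) (hρ : 0 ≤ ρ) (x : Cube n) : nrm (f x) ≤ ρ :=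
  (nrm_le_iff hρ).2 (h x)

/-! ### words -/

variable {ι : κ → Fin n} {C U : Finset (Fin n)}

lemma ex_eq (c : κ → ℝ) : ex ι c = ∑ k, c k • Pi.single (ι k) (1 : ℝ) := by
  funext i
  simp only [ex, mulVec, dotProduct, XM, Finset.sum_apply, Pi.smul_apply, Pi.single_apply,
    smul_eq_mul, eq_comm (a := i)]
  exact sum_congr rfl fun k _ => mul_comm _ _

lemma ex_add (a b : κ → ℝ) : ex ι (a + b) = ex ι a + ex ι b := mulVec_add _ _ _
lemma ex_smul (t : ℝ) (a : κ → ℝ) : ex ι (t • a) = t • ex ι a := mulVec_smul _ _ _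

lemma XM_mv (x : ℝ) (c : κ → ℝ) : XM ι x *ᵥ c = x • ex ι c := by
  funext i
  simp only [ex, mulVec, dotProduct, XM, Pi.smul_apply, smul_eq_mul, mul_sum]
  exact sum_congr rfl fun k _ => by split_ifs <;> ring

lemma ex_dot (c : κ → ℝ) (u : Fin n → ℝ) : ex ι c ⬝ᵥ u = c ⬝ᵥ fun k => u (ι k) := by
  rw [ex_eq, sum_dotProduct]
  exact sum_congr rfl fun k _ => by simp

lemma ex_app (hι : Injective ι) (c : κ → ℝ) (k : κ) : ex ι c (ι k) = c k := by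
  simp [ex, mulVec, dotProduct, XM, hι.eq_iff]

lemma ex_off (c : κ → ℝ) {i : Fin n} (h : ∀ k, ι k ≠ i) : ex ι c i = 0 := by
  simp [ex, mulVec, dotProduct, XM, h]

lemma nrm_ex (hι : Injective ι) (c : κ → ℝ) : nrm (ex ι c) = nrm c := by
  rw [nrm, nrm, ex_dot]
  simp only [ex_app hι]

lemma sp_ex {m : ℝ} (h : (Fintype.card κ : ℝ) ≤ m) (c : κ → ℝ) : Rip.Sp m (ex ι c) :=
  ⟨univ.image ι, le_trans (by exact_mod_cast card_image_le) h,
    fun i hi => ex_off c fun k e => hi (mem_image.2 ⟨k, mem_univ _, e⟩)⟩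

lemma card_le (hι : Injective ι) (off : ∀ k, ι k ∉ C) : Fintype.card κ ≤ Cᶜ.card :=
  card_le_card_of_injOn ι (fun k _ => by simpa using off k) hι.injOn

lemma mk_add (u v : Fin n → ℝ) : mk C (u + v) = mk C u + mk C v := by
  funext j; simp only [mk, Pi.add_apply]; split_ifs <;> simp
lemma mk_sub (u v : Fin n → ℝ) : mk C (u - v) = mk C u - mk C v := by
  funext j; simp only [mk, Pi.sub_apply]; split_ifs <;> simp
lemma mk_smul (t : ℝ) (u : Fin n → ℝ) : mk C (t • u) = t • mk C u := by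
  funext j; simp only [mk, Pi.smul_apply]; split_ifs <;> simp
lemma mk_compl (u : Fin n → ℝ) : mk C u = u - mk Cᶜ u := by
  funext j; simp only [mk, Pi.sub_apply, mem_compl]; split_ifs <;> simp
lemma mk_dot (u v : Fin n → ℝ) : mk C u ⬝ᵥ v = u ⬝ᵥ mk C v :=
  sum_congr rfl fun j _ => by simp only [mk]; split_ifs <;> simp
lemma mk_sq (u : Fin n → ℝ) : mk C u ⬝ᵥ mk C u = ∑ j ∈ C, u j ^ 2 := by
  rw [← Fintype.sum_ite_mem]
  exact sum_congr rfl fun j _ => by simp only [mk]; split_ifs <;> simp [pow_two]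

lemma nrm_mono {u v : Fin n → ℝ} (h : ∀ j, |u j| ≤ |v j|) : nrm u ≤ nrm v :=
  sqrt_le_sqrt (sum_le_sum fun j _ => by
    rw [← abs_mul_abs_self (u j), ← abs_mul_abs_self (v j)]
    exact mul_self_le_mul_self (abs_nonneg _) (h j))

lemma nrm_mk (u : Fin n → ℝ) : nrm (mk C u) ≤ nrm u :=
  nrm_mono fun j => by simp only [mk]; split_ifs <;> simp

lemma nrm_mk_sup {u : Fin n → ℝ} {e ρ : ℝ} (h : ∀ j, |u j| ≤ e) (he : 0 ≤ e) (hρ : 0 ≤ ρ)
    (hU : (U.card : ℝ) ≤ ρ ^ 2) : nrm (mk U u) ≤ e * ρ := by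
  rw [nrm_le_iff (by positivity), mk_sq, mul_pow]
  refine (sum_le_card_nsmul _ _ (e ^ 2) fun j _ => ?_).trans ?_
  · rw [← sq_abs]; exact pow_le_pow_left₀ (abs_nonneg _) (h j) 2
  · rw [nsmul_eq_mul, mul_comm]; exact mul_le_mul_of_nonneg_left hU (sq_nonneg _)

lemma rg_sup {e L : ℝ} {Ω : Cube n → Fin n → ℝ} (h : Rg e L Ω) (x : Cube n) (j : Fin n) :
    |Ω x j| ≤ e := (norm_le_pi_norm (Ω x) j).trans (h x).1

/-- the part of `W` on a small set -/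
lemma nrm_mk_le {W Ω : Fin n → ℝ} {e ρ G : ℝ} (h : ∀ j, |Ω j| ≤ e) (he : 0 ≤ e) (hρ : 0 ≤ ρ)
    (hU : (U.card : ℝ) ≤ ρ ^ 2) (hG : nrm (W - Ω) ≤ G) : nrm (mk U W) ≤ e * ρ + G := by
  have e1 : mk U W = mk U Ω + mk U (W - Ω) := by rw [← mk_add, add_sub_cancel]
  rw [e1]
  exact (nrm_add_le _ _).trans (add_le_add (nrm_mk_sup h he hρ hU) ((nrm_mk _).trans hG))

lemma Vf_Vm (T : Cube n → Mx n) (Wm : Mx n) (c : κ → ℝ) (x : Cube n) :
    Vf (Vm C ι T Wm) c x = mk C ((T x)ᵀ *ᵥ Wm *ᵥ ex ι c) := by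
  rw [ex_eq, mulVec_sum, mulVec_sum]
  funext j
  simp only [Vf, Vm, mk, Finset.sum_apply, Pi.smul_apply, mulVec_smul]
  split_ifs <;> simp

lemma dot_φm (ψ : Cube n → Fin n → ℝ) (Wm : Mx n) (c : κ → ℝ) (x : Cube n) :
    c ⬝ᵥ φm ι ψ Wm x = (Wm *ᵥ ex ι c) ⬝ᵥ ψ x := by
  rw [ex_eq, mulVec_sum, sum_dotProduct]
  exact sum_congr rfl fun k _ => by simp [φm, mulVec_smul]

lemma dot_dv (J : Mx n) (y : Fin n → ℝ) (V : κ → Cube n → Fin n → ℝ) (c : κ → ℝ) (x : Cube n) :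
    c ⬝ᵥ dv J y V x = Vf V c x ⬝ᵥ tau J y x := by
  rw [Vf, sum_dotProduct]
  exact sum_congr rfl fun k _ => by simp [dv]

lemma rw_dot {J : Mx n} (k : κ) (u : Fin n → ℝ) : rw J C ι k ⬝ᵥ u = (J *ᵥ mk C u) (ι k) :=
  sum_congr rfl fun j _ => by simp only [rw, mk]; split_ifs <;> simp



lemma dot_meanV (w : Cube n → ℝ) (c : κ → ℝ) (F : Cube n → κ → ℝ) :
    c ⬝ᵥ meanV w F = mean w fun x => c ⬝ᵥ F x := by
  simp only [dotProduct, mean_sum, mean_const_mul, meanV]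

lemma Dg_mem (J : Mx n) (y : Fin n → ℝ) (x : Cube n) (j : Fin n) :
    0 ≤ Dg J y x j ∧ Dg J y x j ≤ 1 := by
  have := tanh_sq_lt_one (S3.hf J y x j)
  exact ⟨by rw [Dg]; linarith, by rw [Dg]; linarith [sq_nonneg (tanh (S3.hf J y x j))]⟩

lemma nrm_Dg (J : Mx n) (y : Fin n → ℝ) (x : Cube n) (u : Fin n → ℝ) : nrm (Dg J y x * u) ≤ nrm u := by
  simpa using Rip.nrm_mul_le zero_le_one
    (fun j => abs_le.2 ⟨by linarith [(Dg_mem J y x j).1], (Dg_mem J y x j).2⟩) u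

lemma ising_pos (J : Mx n) (y : Fin n → ℝ) (x : Cube n) : 0 < ising J y x := exp_pos _

lemma kl0 {J : Mx n} {y : Fin n → ℝ} {v : Cube n → ℝ} (hv : Wt v) : 0 ≤ kl v (ising J y) :=
  (S1n.pr_of (ising_pos J y) hv).kl_nonneg

lemma mean_sq_le {w : Cube n → ℝ} (hw : Wt w) (G : Cube n → ℝ) :
    mean w G ^ 2 ≤ mean w fun x => G x ^ 2 := by
  have h := hw.mean_nonneg fun x => sq_nonneg (G x - mean w G)
  have e : (fun x => (G x - mean w G) ^ 2) =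
      fun x => G x ^ 2 - 2 * mean w G * G x + mean w G ^ 2 := by funext x; ring
  rw [e, mean_add, mean_sub, mean_const_mul, hw.mean_const] at h
  linarith

/-- the excess under any law -/
lemma G_sq {J : Mx n} {y : Fin n → ℝ} {K δ ρ : ℝ} (h : Hb J y K) {G : Cube n → ℝ}
    (G0 : ∀ x, 0 ≤ G x) (hL : Lip2 δ G) (hG : mean (ising J y) (fun σ => G σ ^ 2) ≤ δ ^ 2 * ρ ^ 2)
    (hρ : 1 ≤ ρ ^ 2) {v : Cube n → ℝ} (hv : Wt v) :
    mean v (fun σ => G σ ^ 2) ≤ K * δ ^ 2 * kl v (ising J y) + 3 * K * δ ^ 2 * ρ ^ 2 := by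
  have h1 := h.2.2.1 G (δ ^ 2) G0 hL.vp v hv
  have h2 := mean_sq_le (Wt.of_pos (ising_pos J y)) G
  have h3 : 0 ≤ (K - 1) * (δ ^ 2 * ρ ^ 2) := mul_nonneg (by linarith [h.1]) (by positivity)
  have h4 : 0 ≤ K * δ ^ 2 * (ρ ^ 2 - 1) :=
    mul_nonneg (mul_nonneg (by linarith [h.1]) (sq_nonneg _)) (by linarith)
  nlinarith

end Crest.Agent.T157.Br.Ok35
end
end

-- ▼ part T157/OkCen_31
section

/-!
# Row 157, block B, S1 (helper31): the deterministic centre of the response (`Br.CenStmt`)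
-/

set_option autoImplicit false

noncomputable section

namespace Crest.Agent.T157.Br

open Real Matrix Function Finset
open Crest.Agent.T157.E Crest.Agent.T157.SL Crest.Agent.T157.Ta
open Crest.Agent.T157.Rec (grad)
open Crest.Agent.T157.Eig
open Crest.Agent.T157.Xt (H1 Lip2)
open Crest.Agent.T157.S3 (Mx Dg Rg hf)
open Crest.Agent.T157.S3F (jac hsJ jac_add jac_const opn_jac_mul col_sq_le hsJ_add)
open Crest.Agent.T157.S3.HB80 (se se_sq se_abs opn_jac_se)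
open Ok35

namespace Cen31

variable {n : ℕ} {κ : Type} [Fintype κ] [DecidableEq κ]

/-- a scalar product of two fields -/
theorem lip_dot {b u : Cube n → Fin n → ℝ} {α β Lb Lu H : ℝ} (h1 : ∀ x, opn (jac u x) ≤ α)
    (h2 : ∀ x, opn (jac b x) ≤ β) (h3 : ∀ x, nrm (b x) ≤ Lb) (h4 : ∀ x, nrm (u x) ≤ Lu)
    (H0 : 0 ≤ H) (h5 : ∀ x, hsJ b x ≤ H ^ 2) :
    Lip2 (2 * (α * Lb + β * Lu + 2 * (α * H))) fun y => b y ⬝ᵥ u y := Xt.lip2_of_grad fun x => by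
  have a0 := (opn_nonneg _).trans (h1 x)
  have e : grad (fun y => b y ⬝ᵥ u y) x = (jac u x)ᵀ *ᵥ b x + (jac b x)ᵀ *ᵥ u x -
      (2 : ℝ) • fun j => sv x j * ∑ k, jac b x k j * jac u x k j := by
    funext j
    simp only [dotProduct, Da.Gr.grad_sum, Da.Gr.grad_mul, mulVec, transpose_apply, S3F.jac_apply,
      Pi.sub_apply, Pi.add_apply, Pi.smul_apply, smul_eq_mul, mul_sum, ← sum_add_distrib,
      ← sum_sub_distrib]
    exact sum_congr rfl fun k _ => by ring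
  have c : nrm (fun j => sv x j * ∑ k, jac b x k j * jac u x k j) ≤ α * H := by
    rw [nrm_le_iff (by positivity), mul_pow]
    refine le_trans ?_ (mul_le_mul_of_nonneg_left (h5 x) (sq_nonneg _))
    rw [hsJ, sum_comm, mul_sum]
    refine sum_le_sum fun j _ => ?_
    have s1 := sum_mul_sq_le_sq_mul_sq univ (fun k => jac b x k j) fun k => jac u x k j
    have s2 := (col_sq_le (jac u x) j).trans (pow_le_pow_left₀ (opn_nonneg _) (h1 x) 2)
    have s3 := mul_le_mul_of_nonneg_left s2 (sum_nonneg fun k (_ : k ∈ univ) => sq_nonneg (jac b x k j))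
    have s4 := Rec.sv_mul_self x j
    calc _ = sv x j * sv x j * (∑ k, jac b x k j * jac u x k j) ^ 2 := by ring
      _ ≤ _ := by rw [s4]; linarith
  have t : ∀ {A : Matrix (Fin n) (Fin n) ℝ} {v : Fin n → ℝ} {r s : ℝ}, opn A ≤ r → nrm v ≤ s →
      nrm (Aᵀ *ᵥ v) ≤ r * s := fun hA hv => (nrm_mulVec_le _ _).trans (by
    rw [opn_transpose]; exact mul_le_mul hA hv (nrm_nonneg _) ((opn_nonneg _).trans hA))
  rw [e]
  refine (nrm_sub_le _ _).trans (add_le_add ((nrm_add_le _ _).trans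
    (add_le_add (t (h1 x) (h3 x)) (t (h2 x) (h4 x)))) ?_)
  rw [nrm_smul, abs_two]
  linarith

theorem opn_DΩ {J : Mx n} (hJ : opn J ≤ 3) (y : Fin n → ℝ) {δ L : ℝ} {Ω : Cube n → Fin n → ℝ}
    (h : Rg δ L Ω) (x : Cube n) : opn (jac (fun z => Dg J y z * Ω z) x) ≤ 12973 * δ := by
  have a := opn_jac_se hJ y x
  have a0 := opn_nonneg (jac (fun x k => se (hf J y x k)) x)
  have e : Dg J y = fun z => (fun k => se (hf J y z k)) * fun k => se (hf J y z k) := by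
    funext z k; rw [Pi.mul_apply, ← pow_two, se_sq, Dg]
  have d : opn (jac (Dg J y) x) ≤ 4324 := by
    rw [e]
    refine (opn_jac_mul (a := fun z k => se (hf J y z k)) (u := fun z k => se (hf J y z k))
      zero_le_one zero_le_one (fun k => se_abs _) fun k => se_abs _).trans ?_
    nlinarith
  have d0 := opn_nonneg (jac (Dg J y) x)
  have o := (h x).2.1
  have o0 := opn_nonneg (jac Ω x)
  refine (opn_jac_mul zero_le_one (o0.trans o) (fun k => abs_le.2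
    ⟨by linarith [(Dg_mem J y x k).1], (Dg_mem J y x k).2⟩) (rg_sup h x)).trans ?_
  nlinarith [mul_le_mul d o o0 (by norm_num), mul_le_mul_of_nonneg_right d (o0.trans o)]

theorem rhoG {u G : Cube n → ℝ} {K δ ρ Z : ℝ} (hu : Wt u) (hK : 1 ≤ K) (d0 : 0 < δ) (hρ : ρ ^ 2 ≤ Z)
    (h : mean u (fun z => G z ^ 2) ≤ 3 * K * δ ^ 2 * Z) : mean u G * ρ ≤ 2 * K * δ * Z := by
  have h1 : mean u (fun z => 2 * δ * ρ * G z) ≤ mean u fun z => δ ^ 2 * ρ ^ 2 + G z ^ 2 :=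
    hu.mean_mono fun z => by nlinarith [sq_nonneg (δ * ρ - G z)]
  rw [mean_const_mul, mean_add, hu.mean_const] at h1
  have h2 : δ ^ 2 * ρ ^ 2 ≤ K * (δ ^ 2 * Z) := (mul_le_mul_of_nonneg_left hρ (sq_nonneg _)).trans
    (le_mul_of_one_le_left (mul_nonneg (sq_nonneg _) ((sq_nonneg _).trans hρ)) hK)
  refine le_of_mul_le_mul_left ?_ d0
  linarith

variable {D : Dat n κ} {a x Ce CV K δ es ρ : ℝ} {ψ b : Cube n → Fin n → ℝ} {T : Cube n → Mx n}
  {Wm : Mx n}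

/-- a fixed direction -/
theorem fixed (g : D.Geo) (hb : Hb D.J D.y K) (fm : Fm D.J D.y D.ι a x Ce CV δ es D.B0 D.R ψ T Wm)
    (d0 : 0 < δ) (cv : 1 ≤ CV) (b1 : 1 ≤ D.B0) (bU : (D.Cᶜ.card : ℝ) ≤ D.B0) (r : D.Rad ρ)
    (n1 : ∀ z, nrm (b z) ≤ 4 * CV * ρ) (n2 : ∀ z, opn (jac b z) ≤ 2 * δ)
    (n3 : ∀ z, hsJ b z ≤ (2 * CV * ρ) ^ 2) {c : κ → ℝ} (hc : nrm c ≤ ρ) {v : Cube n → ℝ}
    (hv : Wt v) : mean v (fun z => b z ⬝ᵥ (Dg D.J D.y z * Vf (Vm D.C D.ι T Wm) c z)) -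
      mean D.μ (fun z => b z ⬝ᵥ (Dg D.J D.y z * Vf (Vm D.C D.ι T Wm) c z)) ≤
        500000 * (K * CV * δ) * (ρ ^ 2 + kl v D.μ) := by
  have hμ : ∀ z, 0 < D.μ z := fun z => exp_pos _
  have wμ : Wt D.μ := .of_pos hμ
  have hK := hb.1
  obtain ⟨r0, r1, r2⟩ := r
  obtain ⟨Ω, Ω', G, rg, -, lG, mG, pt, -⟩ := (fm.dir ρ c r0 r1 (by nlinarith) hc).ver
  have L := lip_dot (opn_DΩ g.op D.y rg) n2 n1 (fun z => (nrm_Dg _ _ _ _).trans (rg z).2.2.1)
    (by positivity) n3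
  have k0 : 0 ≤ kl v D.μ := kl0 hv
  have h1 := S1n.h1_up hμ hb.2.1 L hv (θ := (400000 * (CV * δ))⁻¹) (by positivity)
  have e1 : K * (2 * (12973 * δ * (4 * CV * ρ) + 2 * δ * (CV * ρ) +
      2 * (12973 * δ * (2 * CV * ρ)))) ^ 2 * (400000 * (CV * δ))⁻¹ =
      207572 ^ 2 / 400000 * (K * CV * δ * ρ ^ 2) := by field_simp; ring
  rw [e1, div_inv_eq_mul] at h1
  have pA : ∀ z, |b z ⬝ᵥ (Dg D.J D.y z * Vf (Vm D.C D.ι T Wm) c z) - b z ⬝ᵥ (Dg D.J D.y z * Ω z)| ≤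
      4 * CV * δ * ρ ^ 2 + 8 * CV * ρ * G z := fun z => by
    rw [← dotProduct_sub, ← mul_sub, Vf_Vm, mk_compl, sub_right_comm]
    refine (abs_dot_le _ _).trans ((mul_le_mul (n1 z) ((nrm_Dg _ _ _ _).trans
      ((nrm_sub_le _ _).trans (add_le_add (pt z).1 (nrm_mk_le (rg_sup rg z) d0.le r0 (bU.trans r1)
        (pt z).1)))) (nrm_nonneg _) (by positivity)).trans_eq (by ring))
  have mA : ∀ u, Wt u → mean u (fun z => 4 * CV * δ * ρ ^ 2 + 8 * CV * ρ * G z) ≤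
      20 * (K * CV * δ) * (ρ ^ 2 + kl u D.μ) := fun u hu => by
    have k1 : 0 ≤ kl u D.μ := kl0 hu
    have := rhoG hu hK d0 (le_add_of_nonneg_right k1) (Eq45.G_sq hμ hK hb.2.2.1
      (fun z => (nrm_nonneg _).trans (pt z).1) lG mG (b1.trans r1) hu)
    rw [mean_add, hu.mean_const, mean_const_mul]
    have a1 : 1 * (CV * δ) * ρ ^ 2 ≤ K * (CV * δ) * (ρ ^ 2 + kl u D.μ) := by gcongr; linarith
    nlinarith [mul_le_mul_of_nonneg_left this (show 0 ≤ CV by linarith)]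
  have m1 := (hv.mean_mono fun z => (abs_le.1 (pA z)).2).trans (mA v hv)
  have m2 := (wμ.mean_mono fun z => neg_le.1 (abs_le.1 (pA z)).1).trans (mA _ wμ)
  rw [mean_neg, mean_sub, Net30.kl_self] at m2
  rw [mean_sub] at m1
  have a2 : kl v D.μ * (CV * δ) ≤ K * (kl v D.μ * (CV * δ)) := le_mul_of_one_le_left (by positivity) hK
  have a3 : 0 ≤ K * CV * δ * ρ ^ 2 := by positivity
  have a4 : 0 ≤ K * CV * δ * kl v D.μ := by positivity
  linarith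

/-- one family -/
theorem cen (g : D.Geo) (hb : Hb D.J D.y K) (fm : Fm D.J D.y D.ι a x Ce CV δ es D.B0 D.R ψ T Wm)
    (d0 : 0 < δ) (cv : 1 ≤ CV) (b1 : 1 ≤ D.B0) (bU : (D.Cᶜ.card : ℝ) ≤ D.B0) (r : D.Rad ρ)
    (hε : 10 ^ 7 * K * CV * δ ≤ D.ε)
    (n1 : ∀ z, nrm (b z) ≤ 4 * CV * ρ) (n2 : ∀ z, opn (jac b z) ≤ 2 * δ)
    (n3 : ∀ z, hsJ b z ≤ (2 * CV * ρ) ^ 2) {p : Cube n → Fin n → ℝ} {G : Cube n → ℝ}
    (hp : ∀ z, nrm (p z - b z) ≤ G z)
    (hG : ∀ v, Wt v → mean v G * ρ ≤ 4 * K * δ * (ρ ^ 2 + kl v D.μ)) :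
    ∃ gb, Cen D.J D.y (Vm D.C D.ι T Wm) p gb D.ε ρ D.B0 := by
  have hμ : ∀ z, 0 < D.μ z := fun z => exp_pos _
  have hK := hb.1
  have e : ∀ (c : κ → ℝ) z, c ⬝ᵥ (fun k => b z ⬝ᵥ (Dg D.J D.y z * Vm D.C D.ι T Wm k z)) =
      b z ⬝ᵥ (Dg D.J D.y z * Vf (Vm D.C D.ι T Wm) c z) := fun c z => by
    rw [Vf, mul_sum, dotProduct_sum]
    exact sum_congr rfl fun k _ => by rw [mul_smul_comm, dotProduct_smul, smul_eq_mul]
  refine ⟨meanV D.μ fun z k => b z ⬝ᵥ (Dg D.J D.y z * Vm D.C D.ι T Wm k z), fun v f hv hf => ?_⟩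
  have k0 : 0 ≤ kl v D.μ := kl0 hv
  have h1 := Eq45.net (e := 500000 * (K * CV * δ)) (Y := fun z =>
    (fun k => b z ⬝ᵥ (Dg D.J D.y z * Vm D.C D.ι T Wm k z)) -
      meanV D.μ fun z k => b z ⬝ᵥ (Dg D.J D.y z * Vm D.C D.ι T Wm k z)) hμ (by positivity) r.1
    ((Nat.cast_le.2 (Eq45.card_le g)).trans (bU.trans r.2.1)) (fun c hc u hu => by
      simp only [dotProduct_sub, dot_meanV, e]
      rw [mean_sub, hu.mean_const]
      exact fixed g hb fm d0 cv b1 bU r n1 n2 n3 hc hu) hf hv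
  have h2 : mean v (fun z => (p z - b z) ⬝ᵥ (Dg D.J D.y z * Vf (Vm D.C D.ι T Wm) (f z) z)) ≤
      mean v fun z => CV * ρ * G z := hv.mean_mono fun z => by
    refine (dot_le _ _).trans ((mul_le_mul (hp z) ((nrm_Dg _ _ _ _).trans ?_) (nrm_nonneg _)
      ((nrm_nonneg _).trans (hp z))).trans_eq (mul_comm _ _))
    rw [Vf_Vm]
    exact (nrm_mk _).trans ((fm.bW _ _).trans
      (mul_le_mul_of_nonneg_left (bd_nrm hf r.1 z) (by linarith)))
  rw [mean_const_mul] at h2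
  have h3 := mul_le_mul_of_nonneg_left (hG v hv) (show 0 ≤ CV by linarith)
  have h4 := add_le_add h1 h2
  rw [← mean_add] at h4
  simp only [dotProduct_sub, sub_dotProduct, e] at h4
  have a1 : 0 ≤ ρ ^ 2 + kl v D.μ := by positivity
  have a2 := mul_le_mul_of_nonneg_right hε a1
  have a3 : 0 ≤ K * CV * δ * (ρ ^ 2 + kl v D.μ) := by positivity
  have a4 : 0 ≤ D.ε * D.B0 := mul_nonneg (le_trans (by positivity) hε) (by linarith)
  refine (hv.mean_mono fun z => le_of_eq (by ring)).trans (h4.trans ?_)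
  change _ ≤ D.ε * (ρ ^ 2 + D.B0 + kl v D.μ)
  linarith

end Cen31

open Cen31 in
theorem cenStmt : CenStmt := by
  intro n κ _ _ D Ce CV K δ es ψ ψ0 T T0 Wm W0 t ρ r c hc
  have hμ : ∀ z, 0 < D.μ z := fun z => exp_pos _
  have hK := t.hb.1
  have cv := t.cv
  have d0 := t.d0
  have ⟨r0, r1, r2⟩ := r
  obtain ⟨Om, G1, rg1, p1, -, m1⟩ := t.tc
  obtain ⟨Ω, Ω', G, -, rg, lG, mG, pt, -⟩ :=
    (t.fa.dir ρ c r0 r1 (by nlinarith) ((nrm_le_iff r0).2 hc)).ver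
  have s1 : 0 ≤ sq D.dl := Eig.dot_self_nonneg _
  have s2 : 0 ≤ sq D.del := Eig.dot_self_nonneg _
  have bd := t.bd.trans r1
  have s3 := sq_nonneg D.L
  have l1 : nrm D.dl ≤ ρ := (nrm_le_iff r0).2 (by change sq _ ≤ _; linarith)
  have l2 : nrm D.del ≤ ρ := (nrm_le_iff r0).2 (by change sq _ ≤ _; linarith)
  have l3 : D.L ≤ ρ := (abs_le_of_sq_le_sq' (by linarith) r0).2
  have l4 : ρ ≤ CV * ρ := le_mul_of_one_le_left r0 cv
  have j : ∀ z, jac (fun z => D.dl + D.del + (Om z + Ω' z)) z = jac (fun z => Om z + Ω' z) z :=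
    fun z => by rw [jac_add (fun _ => D.dl + D.del), jac_const, zero_add]
  have n1 : ∀ z, nrm (D.dl + D.del + (Om z + Ω' z)) ≤ 4 * CV * ρ := fun z => by
    linarith [nrm_add_le (D.dl + D.del) (Om z + Ω' z), nrm_add_le D.dl D.del,
      nrm_add_le (Om z) (Ω' z), (rg1 z).2.2.1, (rg z).2.2.1]
  have n2 : ∀ z, opn (jac (fun z => D.dl + D.del + (Om z + Ω' z)) z) ≤ 2 * δ := fun z => by
    rw [j, jac_add]
    linarith [opn_add_le (jac Om z) (jac Ω' z), (rg1 z).2.1, (rg z).2.1]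
  have n3 : ∀ z, hsJ (fun z => D.dl + D.del + (Om z + Ω' z)) z ≤ (2 * CV * ρ) ^ 2 := fun z => by
    rw [hsJ, j]
    refine (hsJ_add Om Ω' z).trans ?_
    linarith [(rg1 z).2.2.2, (rg z).2.2.2, pow_le_pow_left₀ r0 l4 2]
  have hp : ∀ z, nrm (D.ψ c z - (D.dl + D.del + (Om z + Ω' z))) ≤ G1 z + G z := fun z => by
    simp only [Dat.ψ, t.hφ, dot_φm]
    rw [Rec.grad_add, Rec.grad_add, Rec.grad_lin]
    refine le_trans (le_of_eq ?_) ((nrm_add_le _ _).trans (add_le_add (p1 z) (pt z).2.1))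
    congr 1
    abel
  have hG : ∀ v, Wt v → mean v (fun z => G1 z + G z) * ρ ≤ 4 * K * δ * (ρ ^ 2 + kl v D.μ) :=
    fun v hv => by
      have k0 : 0 ≤ kl v D.μ := kl0 hv
      have a1 := rhoG hv hK d0 (le_add_of_nonneg_right k0) (Eq45.G_sq hμ hK t.hb.2.2.1
        (fun z => (nrm_nonneg _).trans (pt z).1) lG mG (t.b1.trans r1) hv)
      have a2 := rhoG (ρ := ρ) hv hK d0 (le_add_of_nonneg_right k0) ((m1 v hv).trans (by
        have : 1 * δ ^ 2 * (D.B0 + kl v D.μ) ≤ 3 * K * δ ^ 2 * (ρ ^ 2 + kl v D.μ) := by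
          have := t.b1
          gcongr
          linarith
        linarith))
      rw [mean_add]
      linarith
  rw [t.hV, t.hV0]
  exact ⟨cen t.toGeo t.hb t.fa d0 cv t.b1 t.bU r t.hε n1 n2 n3 hp hG,
    cen t.toGeo t.hb t.f0 d0 cv t.b1 t.bU r t.hε n1 n2 n3 hp hG⟩

end Crest.Agent.T157.Br

end
end

-- ▼ part T157/OkSf_35
section

/-!
# Row 157, block B, S1 (helper35): Stein families from the direction package
-/

set_option autoImplicit false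
set_option linter.unusedVariables false
set_option linter.unusedSectionVars false
set_option maxHeartbeats 800000

noncomputable section

namespace Crest.Agent.T157.Br

open Real Matrix Function Finset
open Crest.Agent.T157.E Crest.Agent.T157.SL Crest.Agent.T157.Ta
open Crest.Agent.T157.Rec (grad)
open Crest.Agent.T157.Eig
open Crest.Agent.T157.Xt (H1 Lip2)
open Crest.Agent.T157.S3 (Mx tau Dg Rg FreeM exs hf)
open Crest.Agent.T157.S3.HB80 (se)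

namespace Ok35

variable {n : ℕ} {κ : Type} [Fintype κ] [DecidableEq κ]

lemma exs_nn (e : ℝ) (u : Fin n → ℝ) : 0 ≤ exs e u := nrm_nonneg _

lemma exc_eq (e : ℝ) (u : Fin n → ℝ) : exc e u = exs e u ^ 2 := by
  rw [exs, nrm_sq]; exact sum_congr rfl fun j _ => pow_two _

lemma exs_le {e : ℝ} {u Ω : Fin n → ℝ} (C : Finset (Fin n)) (h : ∀ j, |Ω j| ≤ e) :
    exs e (mk C u) ≤ nrm (u - Ω) := nrm_mono fun j => by
  have h0 : 0 ≤ e := (abs_nonneg _).trans (h j)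
  rw [abs_of_nonneg (le_max_right _ _), Pi.sub_apply]
  refine max_le ?_ (abs_nonneg _)
  have := abs_sub_abs_le_abs_sub (u j) (Ω j)
  simp only [mk]
  split_ifs
  · linarith [h j]
  · rw [abs_zero]; linarith [abs_nonneg (u j - Ω j)]

lemma exs_anti {e e' : ℝ} (h : e ≤ e') (u : Fin n → ℝ) : exs e' u ≤ exs e u := nrm_mono fun j => by
  rw [abs_of_nonneg (le_max_right (|u j| - e') 0), abs_of_nonneg (le_max_right (|u j| - e) 0)]
  exact max_le_max (by linarith) le_rfl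

lemma exs_half (e : ℝ) (u w : Fin n → ℝ) :
    exs (2 * e) (u + w) ≤ exs e u + exs (2 * e) ((2 : ℝ) • w) / 2 := by
  have e1 : exs (2 * e) ((2 : ℝ) • w) / 2 =
      nrm ((1 / 2 : ℝ) • fun k => max (|((2 : ℝ) • w) k| - 2 * e) 0) := by
    rw [nrm_smul, abs_of_pos (by norm_num : (0 : ℝ) < 1 / 2), exs]; ring
  rw [e1]
  refine le_trans (nrm_mono fun j => ?_) (nrm_add_le _ _)
  simp only [Pi.add_apply, Pi.smul_apply, smul_eq_mul, abs_mul, abs_two]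
  have h1 := le_max_left (|u j| - e) 0
  have h2 := le_max_right (|u j| - e) 0
  have h3 := le_max_left (2 * |w j| - 2 * e) 0
  have h4 := le_max_right (2 * |w j| - 2 * e) 0
  rw [abs_of_nonneg (le_max_right (|u j + w j| - 2 * e) 0)]
  exact le_trans (max_le (by linarith [abs_add_le (u j) (w j)]) (by linarith)) (le_abs_self _)

lemma Vf_add (V : κ → Cube n → Fin n → ℝ) (a b : κ → ℝ) (x : Cube n) :
    Vf V (a + b) x = Vf V a x + Vf V b x := by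
  simp only [Vf, Pi.add_apply, add_smul, sum_add_distrib]
lemma Vf_smul (V : κ → Cube n → Fin n → ℝ) (t : ℝ) (a : κ → ℝ) (x : Cube n) :
    Vf V (t • a) x = t • Vf V a x := by
  simp only [Vf, Pi.smul_apply, smul_eq_mul, Finset.smul_sum, smul_smul]
lemma Vf_single (V : κ → Cube n → Fin n → ℝ) (k : κ) (x : Cube n) :
    Vf V (Pi.single k 1) x = V k x := by
  rw [Vf, sum_eq_single k (fun l _ h => by simp [h]) (by simp)]; simp

/-- a linear map is almost subadditive on half nets -/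
lemma lin_half {L : (κ → ℝ) → Fin n → ℝ} (ha : ∀ a b, L (a + b) = L a + L b)
    (hs : ∀ (t : ℝ) a, L (t • a) = t • L a) (a r : κ → ℝ) :
    nrm (L (a + r)) ≤ nrm (L a) + nrm (L ((2 : ℝ) • r)) / 2 := by
  rw [ha, hs, nrm_smul, abs_two]
  linarith [nrm_add_le (L a) (L r)]

lemma abs_app_le (u : Fin n → ℝ) (i : Fin n) : |u i| ≤ nrm u := by
  simpa [nrm_single] using abs_dot_le (Pi.single i 1) u

lemma se_mul_le (J : Mx n) (y : Fin n → ℝ) (σ : Cube n) (u : Fin n → ℝ) :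
    nrm ((fun k => se (hf J y σ k)) * u) ≤ nrm u := by
  simpa using Rip.nrm_mul_le zero_le_one (fun k => S3.HB80.se_abs (hf J y σ k)) u

lemma dg_dot (J : Mx n) (y : Fin n → ℝ) (σ : Cube n) (u : Fin n → ℝ) :
    u ⬝ᵥ (Dg J y σ * u) = nrm ((fun k => se (hf J y σ k)) * u) ^ 2 := by
  rw [S1.An90.se_dot]
  exact sum_congr rfl fun j _ => by simp only [Pi.mul_apply]; ring

variable {J : Mx n} {y : Fin n → ℝ} {ι : κ → Fin n} {C : Finset (Fin n)}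
  {a x Ce CV δ es B0 R K ε ρ : ℝ} {ψ : Cube n → Fin n → ℝ} {T : Cube n → Mx n} {Wm : Mx n}

/-- the defect of the response on the small set -/
def Nm (J : Mx n) (y : Fin n → ℝ) (C : Finset (Fin n)) (ι : κ → Fin n) (V : κ → Cube n → Fin n → ℝ)
    (x : ℝ) (f : κ → ℝ) (σ : Cube n) : Fin n → ℝ :=
  mk Cᶜ (J *ᵥ (Dg J y σ * Vf V f σ) - x • ex ι f)

lemma Nm_add (V : κ → Cube n → Fin n → ℝ) (σ : Cube n) (f g : κ → ℝ) :
    Nm J y C ι V x (f + g) σ = Nm J y C ι V x f σ + Nm J y C ι V x g σ := by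
  rw [Nm, Nm, Nm, ← mk_add, Vf_add, ex_add, mul_add, mulVec_add, smul_add]; congr 1; abel
lemma Nm_smul (V : κ → Cube n → Fin n → ℝ) (σ : Cube n) (t : ℝ) (f : κ → ℝ) :
    Nm J y C ι V x (t • f) σ = t • Nm J y C ι V x f σ := by
  rw [Nm, Nm, ← mk_smul, Vf_smul, ex_smul, mul_smul_comm, mulVec_smul, smul_sub, smul_comm x t]

/-- one direction -/
lemma fix (hF : Fm J y ι a x Ce CV δ es B0 R ψ T Wm) (hb : Hb J y K) (hJ : opn J ≤ 3)
    (hρ : 1 ≤ ρ) (h1 : B0 ≤ ρ ^ 2) (h2 : ρ ^ 2 ≤ 2 * R) (hU : (Cᶜ.card : ℝ) ≤ ρ ^ 2) (hδ : 0 < δ)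
    {c : κ → ℝ} (hc : nrm c ≤ ρ) : ∃ G F : Cube n → ℝ, (∀ σ, 0 ≤ G σ ∧
      exs δ (Vf (Vm C ι T Wm) c σ) ≤ G σ ∧ nrm (Nm J y C ι (Vm C ι T Wm) x c σ) ≤ 4 * δ * ρ + 7 * G σ ∧
      nrm ((fun k => se (hf J y σ k)) * Vf (Vm C ι T Wm) c σ) ≤ F σ + G σ) ∧
      ∀ v, Wt v → mean v (fun σ => G σ ^ 2) ≤ K * δ ^ 2 * kl v (ising J y) + 3 * K * δ ^ 2 * ρ ^ 2 ∧
        mean v (fun σ => F σ ^ 2) ≤
          2 * ((Ce * x + δ) * ρ ^ 2) + K * (4 * (139 * δ) ^ 2) * (kl v (ising J y) + 1) := by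
  have ρ0 : 0 ≤ ρ := by linarith
  obtain ⟨Ω, Ω', G, hΩ, -, hL, hG, hp, hE, -⟩ := (hF.dir ρ c ρ0 h1 h2 hc).ver
  have G0 : ∀ σ, 0 ≤ G σ := fun σ => (nrm_nonneg _).trans (hp σ).1
  refine ⟨G, fun σ => nrm ((fun k => se (hf J y σ k)) * Ω σ), fun σ => ⟨G0 σ, ?_, ?_, ?_⟩,
    fun v hv => ⟨G_sq hb G0 hL hG (by nlinarith) hv, ?_⟩⟩
  · rw [Vf_Vm]; exact (exs_le C (rg_sup hΩ σ)).trans (hp σ).1
  · obtain ⟨p1, -, p3⟩ := hp σ
    set W := (T σ)ᵀ *ᵥ Wm *ᵥ ex ι c with hW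
    have m1 := nrm_mk_le (rg_sup hΩ σ) hδ.le ρ0 hU p1
    have j : ∀ u, nrm (mk Cᶜ (J *ᵥ (Dg J y σ * u))) ≤ 3 * nrm u := fun u =>
      (nrm_mk _).trans ((nrm_mulVec_le _ _).trans
        (mul_le_mul hJ (nrm_Dg J y σ u) (nrm_nonneg _) (by norm_num)))
    have e1 : Nm J y C ι (Vm C ι T Wm) x c σ = mk Cᶜ (J *ᵥ (Dg J y σ * Ω σ) - x • ex ι c) +
        mk Cᶜ (J *ᵥ (Dg J y σ * (W - Ω σ))) - mk Cᶜ (J *ᵥ (Dg J y σ * mk Cᶜ W)) := by
      rw [Nm, Vf_Vm, ← hW, mk_compl (C := C) W, ← mk_add, ← mk_sub, mul_sub, mul_sub, mulVec_sub,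
        mulVec_sub]
      congr 1; abel
    rw [e1]
    have := p3 Cᶜ hU
    linarith [nrm_sub_le (mk Cᶜ (J *ᵥ (Dg J y σ * Ω σ) - x • ex ι c) +
      mk Cᶜ (J *ᵥ (Dg J y σ * (W - Ω σ)))) (mk Cᶜ (J *ᵥ (Dg J y σ * mk Cᶜ W))),
      nrm_add_le (mk Cᶜ (J *ᵥ (Dg J y σ * Ω σ) - x • ex ι c)) (mk Cᶜ (J *ᵥ (Dg J y σ * (W - Ω σ)))),
      j (W - Ω σ), j (mk Cᶜ W)]
  · set W := (T σ)ᵀ *ᵥ Wm *ᵥ ex ι c with hW
    have e1 : (fun k => se (hf J y σ k)) * W =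
        (fun k => se (hf J y σ k)) * Ω σ + (fun k => se (hf J y σ k)) * (W - Ω σ) := by
      rw [← mul_add, add_sub_cancel]
    have e2 : nrm ((fun k => se (hf J y σ k)) * mk C W) ≤ nrm ((fun k => se (hf J y σ k)) * W) :=
      nrm_mono fun j => by simp only [mk, Pi.mul_apply]; split_ifs; exacts [le_rfl, by rw [mul_zero, abs_zero]; exact abs_nonneg _]
    rw [Vf_Vm, ← hW]
    refine e2.trans ?_
    rw [e1]
    exact (nrm_add_le _ _).trans (add_le_add le_rfl ((se_mul_le J y σ _).trans (hp σ).1))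
  · have h3 := hb.2.2.1 _ _ (fun σ => nrm_nonneg _) (S1.An90.vp_se hJ y hΩ) v hv
    have h4 := mean_sq_le (Wt.of_pos (ising_pos J y))
      fun σ => nrm ((fun k => se (hf J y σ k)) * Ω σ)
    simp only [← dg_dot] at h4
    linarith

/-- the common hypotheses -/
structure Hs (J : Mx n) (y : Fin n → ℝ) (ι : κ → Fin n) (C : Finset (Fin n))
    (a x Ce CV δ es B0 R K ε ρ t : ℝ) (ψ : Cube n → Fin n → ℝ) (T : Cube n → Mx n) (Wm : Mx n) :
    Prop where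
  hF : Fm J y ι a x Ce CV δ es B0 R ψ T Wm
  hb : Hb J y K
  hJ : opn J ≤ 3
  hι : Injective ι
  off : ∀ k, ι k ∉ C
  hρ : 1 ≤ ρ
  h1 : B0 ≤ ρ ^ 2
  h2 : ρ ^ 2 ≤ 2 * R
  hU : (Cᶜ.card : ℝ) ≤ ρ ^ 2
  hδ : 0 < δ
  cv : 1 ≤ CV
  cx : 0 ≤ Ce * x
  hx : 0 ≤ x
  ρ0 : 0 ≤ ρ
  ρ2 : 1 ≤ ρ ^ 2
  hc : (Fintype.card κ : ℝ) ≤ ρ ^ 2
  δt : δ ≤ t
  tε : 10 ^ 7 * t ≤ ε
  t0 : 0 < t
  ε0 : 0 < ε
  kd : K * δ ^ 2 ≤ t ^ 2
  kd0 : 0 < K * δ ^ 2
  tt : 10 ^ 14 * t ^ 2 ≤ ε ^ 2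
  t2 : 10 ^ 7 * t ^ 2 ≤ t

variable {t : ℝ}

lemma bdV (hF : Fm J y ι a x Ce CV δ es B0 R ψ T Wm) (f : κ → ℝ) (σ : Cube n) :
    nrm (Vf (Vm C ι T Wm) f σ) ≤ CV * nrm f := by
  rw [Vf_Vm]; exact (nrm_mk _).trans (hF.bW f σ)

lemma yg {ε : ℝ} (ε0 : 0 < ε) (u g : ℝ) : u * (2 * g) ≤ ε / 2 * u ^ 2 + 2 / ε * g ^ 2 := by
  have : ε / 2 * u ^ 2 + 2 / ε * g ^ 2 - u * (2 * g) = (ε * u - 2 * g) ^ 2 / (2 * ε) := by
    field_simp; ring
  have h : 0 ≤ (ε * u - 2 * g) ^ 2 / (2 * ε) := by positivity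
  linarith

lemma resp (h : Hs J y ι C a x Ce CV δ es B0 R K ε ρ t ψ T Wm) : ∃ a2 : Cube n → κ → ℝ,
    (∀ σ f, nrm f ≤ ρ → nrm (Nm J y C ι (Vm C ι T Wm) x f σ) ≤
      2 * nrm (Nm J y C ι (Vm C ι T Wm) x (a2 σ) σ)) ∧ ∀ v, Wt v →
      2 / ε * mean v (fun σ => nrm (Nm J y C ι (Vm C ι T Wm) x (a2 σ) σ) ^ 2) ≤
        ε / 2 * (ρ ^ 2 + kl v (ising J y)) := by
  obtain ⟨hF, hb, hJ, hι, off, hρ, h1, h2, hU, hδ, cv, cx, hx, ρ0, ρ2, hc, δt, tε, t0, ε0, kd, kd0,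
    tt, t2⟩ := h
  set V := Vm C ι T Wm with hV
  have bd' : ∀ f σ, nrm f ≤ ρ → nrm (Vf V f σ) ≤ CV * ρ := fun f σ hf =>
    (bdV hF f σ).trans (mul_le_mul_of_nonneg_left hf (by linarith))
  have μ0 := ising_pos J y
  have fx := fun c hc => fix (C := C) (c := c) hF hb hJ hρ h1 h2 hU hδ hc
  obtain ⟨a2, ha2, hm2⟩ := net2 μ0 hρ hc (e := 98 * t ^ 2) (b := 326 * t ^ 2 * ρ ^ 2) (by positivity)
    (by positivity) (fun f σ => nrm (Nm J y C ι V x f σ)) (fun f σ => nrm (Nm J y C ι V x f σ))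
    (fun f σ => nrm (Nm J y C ι V x f σ) ^ 2) (fun σ => ⟨3 * (CV * ρ) + x * ρ, fun f hf => by
      refine (nrm_mk _).trans ((nrm_sub_le _ _).trans (add_le_add ((nrm_mulVec_le _ _).trans
        (mul_le_mul hJ ((nrm_Dg J y σ _).trans (bd' f σ hf)) (nrm_nonneg _) (by norm_num))) ?_))
      rw [nrm_smul, abs_of_nonneg hx, nrm_ex hι]
      exact mul_le_mul_of_nonneg_left hf hx⟩)
    (fun σ => lin_half (L := fun f => Nm J y C ι V x f σ) (Nm_add V σ) (Nm_smul V σ))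
    fun c hc v hv => by
      obtain ⟨G, F, hp, hm⟩ := fx c hc
      have H0 := kl0 (J := J) (y := y) hv
      have p : ∀ σ, nrm (Nm J y C ι V x c σ) ^ 2 ≤ 32 * (δ ^ 2 * ρ ^ 2) + 98 * G σ ^ 2 := fun σ => by
        have := pow_le_pow_left₀ (nrm_nonneg _) (hp σ).2.2.1 2
        linarith [sq_nonneg (4 * δ * ρ - 7 * G σ)]
      have := hv.mean_mono p
      rw [mean_add, hv.mean_const, mean_const_mul] at this
      have d2 : δ ^ 2 ≤ t ^ 2 := pow_le_pow_left₀ hδ.le δt 2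
      linarith [(hm v hv).1, mul_le_mul_of_nonneg_right kd H0,
        mul_le_mul_of_nonneg_right kd (sq_nonneg ρ), mul_le_mul_of_nonneg_right d2 (sq_nonneg ρ)]
  have n2 : ∀ v, Wt v → 2 / ε * mean v (fun σ => nrm (Nm J y C ι V x (a2 σ) σ) ^ 2) ≤
      ε / 2 * (ρ ^ 2 + kl v (ising J y)) := fun v hv => by
    have H0 := kl0 (J := J) (y := y) hv
    have := (hv.mean_mono fun σ => le_max_left (nrm (Nm J y C ι V x (a2 σ) σ) ^ 2) 0).trans (hm2 v hv)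
    rw [div_mul_eq_mul_div, div_le_iff₀ ε0]
    linarith [mul_le_mul_of_nonneg_right tt H0, mul_le_mul_of_nonneg_right tt (sq_nonneg ρ),
      mul_nonneg (sq_nonneg t) H0, mul_nonneg (sq_nonneg t) (sq_nonneg ρ)]
  exact ⟨a2, fun σ => (ha2 σ).2, n2⟩

lemma sf2 (h : Hs J y ι C a x Ce CV δ es B0 R K ε ρ t ψ T Wm)
    {v : Cube n → ℝ} {f : Cube n → κ → ℝ} (hv : Wt v) (hB : Bd ρ f) {ζ : Cube n → Fin n → ℝ}
    (hζ : ∀ σ, ∀ j ∈ C, ζ σ j = 0) :
    mean v (fun σ => ζ σ ⬝ᵥ J *ᵥ (Dg J y σ * Vf (Vm C ι T Wm) (f σ) σ) - ζ σ ⬝ᵥ XM ι x *ᵥ f σ) ≤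
      ε * (ρ ^ 2 + kl v (ising J y) + mean v fun σ => ζ σ ⬝ᵥ ζ σ) := by
  obtain ⟨a2, ha2, n2⟩ := resp h
  obtain ⟨hF, hb, hJ, hι, off, hρ, h1, h2, hU, hδ, cv, cx, hx, ρ0, ρ2, hc, δt, tε, t0, ε0, kd, kd0,
    tt, t2⟩ := h
  set V := Vm C ι T Wm with hV
  have bd' : ∀ f σ, nrm f ≤ ρ → nrm (Vf V f σ) ≤ CV * ρ := fun f σ hf =>
    (bdV hF f σ).trans (mul_le_mul_of_nonneg_left hf (by linarith))
  have μ0 := ising_pos J y
  have fx := fun c hc => fix (C := C) (c := c) hF hb hJ hρ h1 h2 hU hδ hc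
  have p : ∀ σ, ζ σ ⬝ᵥ J *ᵥ (Dg J y σ * Vf V (f σ) σ) - ζ σ ⬝ᵥ XM ι x *ᵥ f σ ≤
      ε / 2 * (ζ σ ⬝ᵥ ζ σ) + 2 / ε * nrm (Nm J y C ι V x (a2 σ) σ) ^ 2 := fun σ => by
    have e0 : mk Cᶜ (ζ σ) = ζ σ := by
      funext j
      simp only [mk, mem_compl]
      split_ifs with h
      exacts [(hζ σ j h).symm, rfl]
    have e1 : ζ σ ⬝ᵥ J *ᵥ (Dg J y σ * Vf V (f σ) σ) - ζ σ ⬝ᵥ XM ι x *ᵥ f σ =
        ζ σ ⬝ᵥ Nm J y C ι V x (f σ) σ := by
      rw [Nm, ← mk_dot, e0, XM_mv, dotProduct_sub]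
    rw [e1, ← nrm_sq]
    exact (dot_le _ _).trans ((mul_le_mul_of_nonneg_left (ha2 σ _ (bd_nrm hB ρ0 σ))
      (nrm_nonneg _)).trans (yg ε0 _ _))
  have := hv.mean_mono p
  rw [mean_add, mean_const_mul, mean_const_mul] at this
  have z0 := hv.mean_nonneg fun σ => Eig.dot_self_nonneg (ζ σ)
  have H0 := kl0 (J := J) (y := y) hv
  linarith [n2 v hv, mul_nonneg ε0.le z0, mul_nonneg ε0.le H0, mul_nonneg ε0.le (sq_nonneg ρ)]

lemma sf3 (h : Hs J y ι C a x Ce CV δ es B0 R K ε ρ t ψ T Wm)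
    {v : Cube n → ℝ} {f : Cube n → κ → ℝ} (hv : Wt v) (hB : Bd ρ f) :
    mean v (fun σ => ∑ k, f σ k * (rw J C ι k ⬝ᵥ (Dg J y σ * Vm C ι T Wm k σ) - x)) ≤
      ε * (ρ ^ 2 + kl v (ising J y)) := by
  obtain ⟨a2, ha2, n2⟩ := resp h
  obtain ⟨hF, hb, hJ, hι, off, hρ, h1, h2, hU, hδ, cv, cx, hx, ρ0, ρ2, hc, δt, tε, t0, ε0, kd, kd0,
    tt, t2⟩ := h
  set V := Vm C ι T Wm with hV
  have bd' : ∀ f σ, nrm f ≤ ρ → nrm (Vf V f σ) ≤ CV * ρ := fun f σ hf =>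
    (bdV hF f σ).trans (mul_le_mul_of_nonneg_left hf (by linarith))
  have μ0 := ising_pos J y
  have fx := fun c hc => fix (C := C) (c := c) hF hb hJ hρ h1 h2 hU hδ hc
  have p : ∀ σ, ∑ k, f σ k * (rw J C ι k ⬝ᵥ (Dg J y σ * V k σ) - x) ≤
      ε / 2 * ρ ^ 2 + 2 / ε * nrm (Nm J y C ι V x (a2 σ) σ) ^ 2 := fun σ => by
    set g := nrm (Nm J y C ι V x (a2 σ) σ) with hg
    have g0 : 0 ≤ g := nrm_nonneg _
    have q : ∀ k, ρ * |rw J C ι k ⬝ᵥ (Dg J y σ * V k σ) - x| ≤ 2 * g := fun k => by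
      have e0 : mk C (Dg J y σ * V k σ) = Dg J y σ * V k σ := by
        funext j
        simp only [mk, Pi.mul_apply, hV, Vm]
        split_ifs <;> simp
      have e1 : rw J C ι k ⬝ᵥ (Dg J y σ * V k σ) - x =
          Nm J y C ι V x (Pi.single k 1) σ (ι k) := by
        rw [rw_dot, e0, Nm, Vf_single, mk, if_pos (mem_compl.2 (off k)), Pi.sub_apply,
          Pi.smul_apply, ex_app hι]
        simp
      have h3 := ha2 σ (ρ • Pi.single k 1) (by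
        rw [nrm_smul, nrm_single, abs_of_nonneg ρ0, mul_one])
      simp only [Nm_smul, nrm_smul, abs_of_nonneg ρ0] at h3
      rw [e1]
      exact (mul_le_mul_of_nonneg_left (abs_app_le _ _) ρ0).trans h3
    have q2 : nrm (fun k => rw J C ι k ⬝ᵥ (Dg J y σ * V k σ) - x) ≤ 2 * g := by
      rw [nrm_le_iff (by positivity)]
      have ρp : 0 < ρ ^ 2 := by positivity
      refine le_of_mul_le_mul_left ?_ ρp
      rw [dotProduct, mul_sum]
      refine (sum_le_card_nsmul _ _ ((2 * g) ^ 2) fun k _ => ?_).trans ?_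
      · have := pow_le_pow_left₀ (by positivity) (q k) 2
        rw [mul_pow, sq_abs] at this
        linarith
      · rw [nsmul_eq_mul, card_univ]
        exact mul_le_mul_of_nonneg_right hc (sq_nonneg _)
    exact (dot_le (f σ) _).trans ((mul_le_mul (bd_nrm hB ρ0 σ) q2 (nrm_nonneg _) ρ0).trans (yg ε0 _ _))
  have := hv.mean_mono p
  rw [mean_add, hv.mean_const, mean_const_mul] at this
  have H0 := kl0 (J := J) (y := y) hv
  linarith [n2 v hv, mul_nonneg ε0.le H0]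

lemma sf4 (h : Hs J y ι C a x Ce CV δ es B0 R K ε ρ t ψ T Wm)
    {v : Cube n → ℝ} {f : Cube n → κ → ℝ} (hv : Wt v) (hB : Bd ρ f) :
    mean v (fun σ => exc ε (Vf (Vm C ι T Wm) (f σ) σ)) ≤ ε ^ 2 * (ρ ^ 2 + kl v (ising J y)) := by
  obtain ⟨hF, hb, hJ, hι, off, hρ, h1, h2, hU, hδ, cv, cx, hx, ρ0, ρ2, hc, δt, tε, t0, ε0, kd, kd0,
    tt, t2⟩ := h
  set V := Vm C ι T Wm with hV
  have bd' : ∀ f σ, nrm f ≤ ρ → nrm (Vf V f σ) ≤ CV * ρ := fun f σ hf =>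
    (bdV hF f σ).trans (mul_le_mul_of_nonneg_left hf (by linarith))
  have μ0 := ising_pos J y
  have fx := fun c hc => fix (C := C) (c := c) hF hb hJ hρ h1 h2 hU hδ hc
  obtain ⟨a4, ha4, hm4⟩ := net2 μ0 hρ hc (e := t ^ 2) (b := 3 * t ^ 2 * ρ ^ 2) (by positivity)
    (by positivity) (fun f σ => exs (2 * δ) (Vf V f σ)) (fun f σ => exs δ (Vf V f σ))
    (fun f σ => exs δ (Vf V f σ) ^ 2) (fun σ => ⟨CV * ρ, fun f hf => le_trans (nrm_mono fun j => by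
      rw [abs_of_nonneg (le_max_right _ _)]
      exact max_le (by linarith) (abs_nonneg _)) (bd' f σ hf)⟩)
    (fun σ a r => by simp only [Vf_add, Vf_smul]; exact exs_half δ _ _) fun c hc v hv => by
      obtain ⟨G, F, hp, hm⟩ := fx c hc
      have H0 := kl0 (J := J) (y := y) hv
      have := hv.mean_mono fun σ => pow_le_pow_left₀ (exs_nn _ _) (hp σ).2.1 2
      linarith [(hm v hv).1, mul_le_mul_of_nonneg_right kd H0,
        mul_le_mul_of_nonneg_right kd (sq_nonneg ρ)]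
  have p : ∀ σ, exc ε (Vf V (f σ) σ) ≤ 4 * max (exs δ (Vf V (a4 σ) σ) ^ 2) 0 := fun σ => by
    have h3 := (exs_anti (show 2 * δ ≤ ε by linarith) _).trans ((ha4 σ).2 _ (bd_nrm hB ρ0 σ))
    have := pow_le_pow_left₀ (exs_nn _ _) h3 2
    rw [exc_eq]
    linarith [le_max_left (exs δ (Vf V (a4 σ) σ) ^ 2) 0]
  have := hv.mean_mono p
  rw [mean_const_mul] at this
  have H0 := kl0 (J := J) (y := y) hv
  linarith [hm4 v hv, mul_le_mul_of_nonneg_right tt H0,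
    mul_le_mul_of_nonneg_right tt (sq_nonneg ρ), mul_nonneg (sq_nonneg t) H0,
    mul_nonneg (sq_nonneg t) (sq_nonneg ρ)]

lemma sf6 (h : Hs J y ι C a x Ce CV δ es B0 R K ε ρ t ψ T Wm)
    {v : Cube n → ℝ} {f : Cube n → κ → ℝ} (hv : Wt v) (hB : Bd ρ f) :
    mean v (fun σ => Vf (Vm C ι T Wm) (f σ) σ ⬝ᵥ (Dg J y σ * Vf (Vm C ι T Wm) (f σ) σ)) ≤
      16 * Ce * x * mean v (fun σ => f σ ⬝ᵥ f σ) + ε * (ρ ^ 2 + kl v (ising J y)) := by
  obtain ⟨hF, hb, hJ, hι, off, hρ, h1, h2, hU, hδ, cv, cx, hx, ρ0, ρ2, hc, δt, tε, t0, ε0, kd, kd0,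
    tt, t2⟩ := h
  set V := Vm C ι T Wm with hV
  have bd' : ∀ f σ, nrm f ≤ ρ → nrm (Vf V f σ) ≤ CV * ρ := fun f σ hf =>
    (bdV hF f σ).trans (mul_le_mul_of_nonneg_left hf (by linarith))
  have μ0 := ising_pos J y
  have fx := fun c hc => fix (C := C) (c := c) hF hb hJ hρ h1 h2 hU hδ hc
  obtain ⟨a6, ha6, hm6⟩ := net2 μ0 hρ hc (e := 7 * 10 ^ 5 * t ^ 2)
    (b := (16 * t + 7 * 10 ^ 5 * t ^ 2) * ρ ^ 2) (by positivity) (by positivity)
    (fun f σ => nrm ((fun k => se (hf J y σ k)) * Vf V f σ))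
    (fun f σ => nrm ((fun k => se (hf J y σ k)) * Vf V f σ))
    (fun f σ => 4 * nrm ((fun k => se (hf J y σ k)) * Vf V f σ) ^ 2 - 16 * Ce * x * ρ ^ 2)
    (fun σ => ⟨CV * ρ, fun f hf => (se_mul_le J y σ _).trans (bd' f σ hf)⟩)
    (fun σ => lin_half (L := fun f => (fun k => se (hf J y σ k)) * Vf V f σ)
      (fun a b => by rw [Vf_add, mul_add]) fun t a => by rw [Vf_smul, mul_smul_comm])
    fun c hc v hv => by
      obtain ⟨G, F, hp, hm⟩ := fx c hc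
      have H0 := kl0 (J := J) (y := y) hv
      have p : ∀ σ, 4 * nrm ((fun k => se (hf J y σ k)) * Vf V c σ) ^ 2 - 16 * Ce * x * ρ ^ 2 ≤
          8 * F σ ^ 2 + 8 * G σ ^ 2 - 16 * Ce * x * ρ ^ 2 := fun σ => by
        have := pow_le_pow_left₀ (nrm_nonneg _) (hp σ).2.2.2 2
        linarith [sq_nonneg (F σ - G σ)]
      have := hv.mean_mono p
      rw [mean_sub v (fun σ => 8 * F σ ^ 2 + 8 * G σ ^ 2), mean_add, hv.mean_const, mean_const_mul,
        mean_const_mul] at this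
      linarith [(hm v hv).1, (hm v hv).2, mul_le_mul_of_nonneg_right kd H0,
        mul_le_mul_of_nonneg_right kd (sq_nonneg ρ), mul_le_mul_of_nonneg_right δt (sq_nonneg ρ),
        mul_le_mul_of_nonneg_left ρ2 kd0.le, mul_nonneg (sq_nonneg t) H0,
        mul_nonneg (sq_nonneg t) (sq_nonneg ρ)]
  have p : ∀ σ, Vf V (f σ) σ ⬝ᵥ (Dg J y σ * Vf V (f σ) σ) ≤ 16 * Ce * x * (f σ ⬝ᵥ f σ) +
      max (4 * nrm ((fun k => se (hf J y σ k)) * Vf V (a6 σ) σ) ^ 2 - 16 * Ce * x * ρ ^ 2) 0 :=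
    fun σ => by
      set M := max (4 * nrm ((fun k => se (hf J y σ k)) * Vf V (a6 σ) σ) ^ 2 -
        16 * Ce * x * ρ ^ 2) 0 with hM
      have M0 : 0 ≤ M := le_max_right _ _
      have M1 : 4 * nrm ((fun k => se (hf J y σ k)) * Vf V (a6 σ) σ) ^ 2 -
        16 * Ce * x * ρ ^ 2 ≤ M := le_max_left _ _
      rw [dg_dot, ← nrm_sq (f σ)]
      have f1 := bd_nrm hB ρ0 σ
      rcases (nrm_nonneg (f σ)).eq_or_lt with h0 | h0
      · have : f σ = (0 : ℝ) • f σ := by rw [nrm_eq_zero.1 h0.symm, smul_zero]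
        rw [this, Vf_smul, zero_smul, mul_zero, zero_smul]
        simpa using M0
      · have h3 := (ha6 σ).2 ((ρ / nrm (f σ)) • f σ) (by
          rw [nrm_smul, abs_of_nonneg (by positivity), div_mul_cancel₀ _ h0.ne'])
        simp only [Vf_smul, mul_smul_comm, nrm_smul] at h3
        rw [abs_of_nonneg (by positivity), div_mul_eq_mul_div, div_le_iff₀ h0] at h3
        have h4 := pow_le_pow_left₀ (mul_nonneg ρ0 (nrm_nonneg _)) h3 2
        have ρp : 0 < ρ ^ 2 := by positivity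
        refine le_of_mul_le_mul_left ?_ ρp
        have f2 : nrm (f σ) ^ 2 ≤ ρ ^ 2 := pow_le_pow_left₀ h0.le f1 2
        linarith [mul_le_mul_of_nonneg_right M1 (sq_nonneg (nrm (f σ))),
          mul_le_mul_of_nonneg_left f2 M0]
  have := hv.mean_mono p
  rw [mean_add, mean_const_mul] at this
  have H0 := kl0 (J := J) (y := y) hv
  linarith [hm6 v hv, mul_le_mul_of_nonneg_right t2 H0,
    mul_le_mul_of_nonneg_right t2 (sq_nonneg ρ), mul_le_mul_of_nonneg_right tε H0,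
    mul_le_mul_of_nonneg_right tε (sq_nonneg ρ), mul_nonneg t0.le H0,
    mul_nonneg t0.le (sq_nonneg ρ)]

/-- **SF** for one family -/
theorem sf1 (hF : Fm J y ι a x Ce CV δ es B0 R ψ T Wm) (hb : Hb J y K) (hJ : opn J ≤ 3)
    (hs : Jᵀ = J) (hι : Injective ι) (off : ∀ k, ι k ∉ C) (hρ : 1 ≤ ρ) (h1 : B0 ≤ ρ ^ 2)
    (h2 : ρ ^ 2 ≤ 2 * R) (hU : (Cᶜ.card : ℝ) ≤ ρ ^ 2) (hδ : 0 < δ) (cv : 1 ≤ CV) (ce : 0 ≤ Ce)
    (hx : 0 ≤ x) (hε : 10 ^ 7 * K * CV * δ ≤ ε) (ε1 : ε ≤ 1) :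
    SF J y C (rw J C ι) (Vm C ι T Wm) (dv J y (Vm C ι T Wm)) (XM ι x) (fun _ => x) (16 * Ce * x)
      CV ε ρ := by
  have K1 := hb.1
  have ρ0 : 0 ≤ ρ := by linarith
  have ρ2 : 1 ≤ ρ ^ 2 := by nlinarith
  have hc : (Fintype.card κ : ℝ) ≤ ρ ^ 2 := le_trans (by exact_mod_cast card_le hι off) hU
  obtain ⟨t, ht⟩ : ∃ t, t = K * δ := ⟨_, rfl⟩
  have δt : δ ≤ t := by rw [ht]; nlinarith
  have tε : 10 ^ 7 * t ≤ ε := by
    rw [ht]; nlinarith [mul_le_mul_of_nonneg_left cv (show 0 ≤ K * δ by positivity)]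
  have t0 : 0 < t := by linarith
  have ε0 : 0 < ε := by linarith
  have kd : K * δ ^ 2 ≤ t ^ 2 := by
    rw [show K * δ ^ 2 = t * δ by rw [ht]; ring, pow_two]; exact mul_le_mul_of_nonneg_left δt t0.le
  have kd0 : 0 < K * δ ^ 2 := by positivity
  have tt : 10 ^ 14 * t ^ 2 ≤ ε ^ 2 := by nlinarith
  have t2 : 10 ^ 7 * t ^ 2 ≤ t := by nlinarith
  have h : Hs J y ι C a x Ce CV δ es B0 R K ε ρ t ψ T Wm := ⟨hF, hb, hJ, hι, off, hρ, h1, h2, hU, hδ,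
    cv, mul_nonneg ce hx, hx, ρ0, ρ2, hc, δt, tε, t0, ε0, kd, kd0, tt, t2⟩
  refine ⟨fun k σ j b => ?_, fun k σ j hj => if_neg hj, bdV hF, fun v f hv hf => ?_,
    fun v f ζ hv hf hζ => sf2 h hv hf hζ, fun v f hv hf => sf3 h hv hf,
    fun v f hv hf => sf4 h hv hf, fun v f hv hf => sf6 h hv hf⟩
  · simp only [Vm, mk, mulVec, dotProduct, transpose_apply, hF.free σ _ j b]
  · have H0 := kl0 (J := J) (y := y) hv
    simp only [dot_dv, sub_self, hv.mean_const]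
    positivity

end Ok35

/-- **SF** -/
theorem sfStmt : SfStmt := by
  intro n κ _ _ D Ce CV K δ es ψ ψ0 T T0 Wm W0 h ρ ⟨r0, r1, r2⟩
  have ρ1 : 1 ≤ ρ := by nlinarith [h.b1]
  have R0 : ρ ^ 2 ≤ 2 * D.R := by nlinarith
  have ε1 : D.ε ≤ 1 := by linarith [h.ε1, h.e1]
  rw [h.hV, h.hV0]
  exact ⟨Ok35.sf1 h.fa h.hb h.op h.symm h.inj h.off ρ1 r1 R0 (h.bU.trans r1) h.d0 h.cv h.ce h.xa.1
      h.hε ε1,
    Ok35.sf1 h.f0 h.hb h.op h.symm h.inj h.off ρ1 r1 R0 (h.bU.trans r1) h.d0 h.cv h.ce h.b0.1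
      h.hε ε1⟩

end Crest.Agent.T157.Br
end
end

-- ▼ part T157/OkDir_12
section

/-!
# Row 157, block B, S1 (helper12): `Br.dirStmt`, the family from the ansatz and the cavity vectors
-/

set_option autoImplicit false
set_option linter.unusedVariables false
set_option linter.unusedSectionVars false

noncomputable section

namespace Crest.Agent.T157.Br

open Real Matrix Function Finset
open Crest.Agent.T157.E Crest.Agent.T157.SL Crest.Agent.T157.Ta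
open Crest.Agent.T157.Rec (grad)
open Crest.Agent.T157.Eig
open Crest.Agent.T157.Xt (H1 Lip2)
open Crest.Agent.T157.S3 (Mx tau Dg Rg FreeM AnsAt Exc exs TS)
open Crest.Agent.T157.S3F (jac)
open Crest.Agent.T157.Rip (Cav Fl Sp)
open Ok35

namespace Dir12

variable {n : ℕ}

lemma grad_dot (w : Fin n → ℝ) (ψ : Cube n → Fin n → ℝ) (x : Cube n) :
    grad (fun σ => w ⬝ᵥ ψ σ) x = (jac ψ x)ᵀ *ᵥ w := by
  funext j
  rw [S3.Hb.grad_dot]
  exact sum_congr rfl fun k _ => mul_comm _ _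

lemma nrm_tr {M : Mx n} {C : ℝ} (h : opn M ≤ C) (w : Fin n → ℝ) : nrm (Mᵀ *ᵥ w) ≤ C * nrm w :=
  (nrm_mulVec_le _ _).trans (mul_le_mul_of_nonneg_right (by rwa [opn_transpose]) (nrm_nonneg _))

lemma quad_le {d : Fin n → ℝ} (hd : ∀ j, 0 ≤ d j ∧ d j ≤ 1) (g u : Fin n → ℝ) :
    g ⬝ᵥ (d * g) ≤ 2 * (u ⬝ᵥ (d * u)) + 2 * nrm (g - u) ^ 2 := by
  simp only [nrm_sq, dotProduct, Finset.mul_sum, ← Finset.sum_add_distrib, Pi.mul_apply, Pi.sub_apply]
  refine Finset.sum_le_sum fun j _ => ?_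
  obtain ⟨h0, h1⟩ := hd j
  nlinarith [mul_nonneg h0 (sq_nonneg (g j - 2 * u j)),
    mul_nonneg (sub_nonneg.2 h1) (sq_nonneg (g j - u j))]

lemma mk_exs {U : Finset (Fin n)} {e ρ : ℝ} (he : 0 ≤ e) (hρ : 0 ≤ ρ) (hU : (U.card : ℝ) ≤ ρ ^ 2)
    (v : Fin n → ℝ) : nrm (mk U v) ≤ e * ρ + exs e v := by
  refine nrm_mk_le (Ω := fun j => max (-e) (min e (v j))) (fun j => ?_) he hρ hU
    (nrm_mono fun j => ?_)
  · exact abs_le.2 ⟨le_max_left _ _, max_le (by linarith) (min_le_left _ _)⟩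
  · rw [abs_of_nonneg (le_max_right _ (0 : ℝ)), Pi.sub_apply]
    have := le_max_left (|v j| - e) 0
    have := le_max_right (|v j| - e) 0
    have := le_abs_self (v j)
    have := neg_abs_le (v j)
    rcases le_total e (v j) with h | h
    · rw [min_eq_left h, max_eq_right (by linarith), abs_le]; constructor <;> linarith
    · rw [min_eq_right h]
      rcases le_total (-e) (v j) with h' | h'
      · rw [max_eq_right h', abs_le]; constructor <;> linarith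
      · rw [max_eq_left h', abs_le]; constructor <;> linarith

lemma mk_flat {U : Finset (Fin n)} {m ε : ℝ} {v : Fin n → ℝ} (h : Fl m ε v) (he : 0 ≤ ε)
    (hU : (U.card : ℝ) ≤ m) : nrm (mk U v) ≤ ε := by
  have h1 := (le_abs_self _).trans (h (mk U v) ⟨U, hU, fun i hi => if_neg hi⟩)
  have e : mk U v ⬝ᵥ v = mk U v ⬝ᵥ mk U v :=
    sum_congr rfl fun j _ => by simp only [mk]; split_ifs <;> simp
  rw [e, ← nrm_mul_self] at h1
  rcases (nrm_nonneg (mk U v)).eq_or_lt with h0 | h0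
  · rwa [← h0]
  · exact le_of_mul_le_mul_right h1 h0

lemma ts_lip {e : ℝ} {G : Cube n → ℝ} (he : 0 ≤ e) (h : TS e G) : Lip2 √e G :=
  (Xt.lip2_iff (sqrt_nonneg _)).2 fun x => by rw [sq_sqrt he]; exact h x

lemma rg_mono {e e' L L' : ℝ} {Ω : Cube n → Fin n → ℝ} (h : Rg e L Ω) (he : e ≤ e') (hL : L ≤ L') :
    Rg e' L' Ω := fun x => ⟨(h x).1.trans he, (h x).2.1.trans he, (h x).2.2.1.trans hL,
  (h x).2.2.2.trans (pow_le_pow_left₀ ((nrm_nonneg _).trans (h x).2.2.1) hL 2)⟩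

/-- one direction after the splitting `w = u + z` -/
structure Sit (J : Mx n) (y : Fin n → ℝ) (a CN C0 C' e e1 η K0 x Cw Cp ew εw K δ es ρ : ℝ)
    (E : (Fin n → ℝ) → ℝ) (p q α : Fin n → ℝ) (ψ : Cube n → Fin n → ℝ) (T : Cube n → Mx n)
    (c u z : Fin n → ℝ) : Prop where
  hJ : opn J ≤ 3
  hb : Hb J y K
  an : AnsAt J y a CN C0 C' e e1 η K0 E p q α ψ T
  hq : ∀ i, |q i| ≤ 2
  hα : ∀ i, |α i| ≤ CN
  a0 : 0 ≤ a
  a1 : a ≤ 1
  x0 : 0 ≤ x
  cn : 1 ≤ CN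
  cp : 0 ≤ C0 * Cp
  c' : 0 ≤ C'
  e0 : 0 ≤ e
  e1' : e ≤ 1
  e10 : 0 ≤ e1
  cw : 1 ≤ Cw
  ew0 : 0 ≤ ew
  εw0 : 0 ≤ εw
  d0 : 0 < δ
  des : δ ≤ es
  es1 : es ≤ 1
  ρ0 : 0 ≤ ρ
  ρ1 : 1 ≤ ρ ^ 2
  k0 : 0 ≤ K0
  k1 : K0 ≤ ρ ^ 2
  n1 : 1000 * (K * e1) ≤ δ ^ 2
  n3 : 1000 * (CN * εw) ≤ δ ^ 2
  n4 : 100 * (C' * √e * Cw ^ 2) ≤ es
  n4' : 100 * (K * (ew + δ)) ≤ es
  n5 : C' * e * Cw ^ 2 ≤ x + δ / 100
  hu : ‖u‖ ≤ η
  nu : nrm u ≤ 2 * Cw * ρ
  nz : nrm z ≤ εw * ρ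
  Eu : E u ≤ 0.009 * (δ ^ 2 * ρ ^ 2)
  pu : C0 * (u ⬝ᵥ (p * u)) ≤ 2 * (C0 * Cp * x * ρ ^ 2) + 0.004 * (δ ^ 2 * ρ ^ 2)
  fj : ∀ U : Finset (Fin n), (U.card : ℝ) ≤ ρ ^ 2 →
    nrm (mk U (J *ᵥ (q * (u + z)) - x • c)) ≤ εw * ρ
  eq : nrm (α * (u + z) - J *ᵥ (q * (u + z)) - (J *ᵥ c - x • c)) ≤ ew * ρ

variable {J : Mx n} {y : Fin n → ℝ} {a CN C0 C' e e1 η K0 x Cw Cp ew εw K δ es ρ : ℝ}
  {E : (Fin n → ℝ) → ℝ} {p q α : Fin n → ℝ} {ψ : Cube n → Fin n → ℝ} {T : Cube n → Mx n}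
  {c u z : Fin n → ℝ}

namespace Sit

variable (h : Sit J y a CN C0 C' e e1 η K0 x Cw Cp ew εw K δ es ρ E p q α ψ T c u z)
include h

lemma d1 : δ ≤ 1 := h.des.trans h.es1
lemma dd : δ ^ 2 ≤ δ := by nlinarith [h.d0, h.d1]
lemma e1d : 1000 * e1 ≤ δ ^ 2 := by nlinarith [h.n1, h.hb.1, h.e10]
lemma εd : 1000 * εw ≤ δ ^ 2 := by nlinarith [h.n3, h.cn, h.εw0]
lemma zT (σ : Cube n) : nrm ((T σ)ᵀ *ᵥ z) ≤ CN * εw * ρ :=
  (nrm_tr (h.an.opT σ) z).trans (by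
    rw [mul_assoc]; exact mul_le_mul_of_nonneg_left h.nz (by linarith [h.cn]))
lemma zψ (σ : Cube n) : nrm (grad (fun σ => z ⬝ᵥ ψ σ) σ) ≤ CN * εw * ρ := by
  rw [grad_dot]
  exact (nrm_tr (h.an.opψ σ) z).trans (by
    rw [mul_assoc]; exact mul_le_mul_of_nonneg_left h.nz (by linarith [h.cn]))
lemma zJ : nrm (J *ᵥ (q * z)) ≤ 6 * (εw * ρ) := by
  have h1 := Rip.nrm_mul_le zero_le_two h.hq z
  have h2 := (nrm_mulVec_le J (q * z)).trans (mul_le_mul_of_nonneg_right h.hJ (nrm_nonneg _))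
  linarith [h.nz]
lemma uu : u ⬝ᵥ u ≤ 4 * (Cw ^ 2 * ρ ^ 2) := by
  have := (nrm_le_iff (by have := h.cw; have := h.ρ0; positivity)).1 h.nu
  linarith [show (2 * Cw * ρ) ^ 2 = 4 * (Cw ^ 2 * ρ ^ 2) by ring]
lemma gadd (σ : Cube n) : grad (fun σ => (u + z) ⬝ᵥ ψ σ) σ =
    grad (fun σ => u ⬝ᵥ ψ σ) σ + grad (fun σ => z ⬝ᵥ ψ σ) σ := by
  rw [grad_dot, grad_dot, grad_dot, mulVec_add]
lemma zsq : (CN * εw * ρ) ^ 2 ≤ 0.000001 * (δ ^ 2 * ρ ^ 2) := by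
  have h0 : 0 ≤ CN * εw := mul_nonneg (by linarith [h.cn]) h.εw0
  have h1 : (CN * εw) ^ 2 ≤ (δ / 1000) ^ 2 :=
    pow_le_pow_left₀ h0 (by linarith [h.n3, h.dd]) 2
  nlinarith [mul_le_mul_of_nonneg_right h1 (sq_nonneg ρ)]

lemma ver : ∃ (Ω Ω' : Cube n → Fin n → ℝ) (G : Cube n → ℝ), Rg δ (2 * CN * Cw * ρ) Ω ∧
    Rg δ (2 * CN * Cw * ρ) Ω' ∧
    Lip2 δ G ∧ mean (ising J y) (fun σ => G σ ^ 2) ≤ δ ^ 2 * ρ ^ 2 ∧
    (∀ σ, nrm ((T σ)ᵀ *ᵥ (u + z) - Ω σ) ≤ G σ ∧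
      nrm (grad (fun σ => (u + z) ⬝ᵥ ψ σ) σ - Ω' σ) ≤ G σ ∧ ∀ U : Finset (Fin n),
      (U.card : ℝ) ≤ ρ ^ 2 → nrm (Br.mk U (J *ᵥ (Dg J y σ * Ω σ) - x • c)) ≤ δ * ρ + G σ) ∧
    mean (ising J y) (fun σ => Ω σ ⬝ᵥ (Dg J y σ * Ω σ)) ≤ (100 * (C0 * Cp + 1) * x + δ) * ρ ^ 2 ∧
    mean (ising J y) (fun σ => Ω' σ ⬝ᵥ (Dg J y σ * Ω' σ)) ≤
      (100 * (C0 * Cp + 1) * x + δ) * ρ ^ 2 := by
  obtain ⟨Ω, r1, ⟨G1, g1, p1, t1, m1⟩, G3, g3, p3, t3, m3⟩ := h.an.vf u h.hu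
  obtain ⟨Ω', ⟨r2, ⟨G2, g2, p2, t2, m2⟩, -⟩, en⟩ := h.an.vg u h.hu
  obtain ⟨G4, g4, p4, -, m4⟩ := h.an.gf u h.hu
  have hw : Wt (ising J y) := .of_pos (ising_pos J y)
  have ρ0 := h.ρ0
  have d0 := h.d0
  have Eu := h.Eu
  have e1d := h.e1d
  have dd := h.dd
  have z0 : 0 ≤ CN * εw * ρ := (nrm_nonneg _).trans (h.zT default)
  have hL : CN * nrm u ≤ 2 * CN * Cw * ρ := by
    nlinarith [mul_le_mul_of_nonneg_left h.nu (by linarith [h.cn] : 0 ≤ CN)]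
  have D0 : 0 ≤ δ ^ 2 * ρ ^ 2 := by positivity
  have D1 : δ ^ 2 * ρ ^ 2 ≤ δ * ρ ^ 2 := mul_le_mul_of_nonneg_right dd (sq_nonneg _)
  have X0 : 0 ≤ x * ρ ^ 2 := mul_nonneg h.x0 (sq_nonneg _)
  have X1 : 0 ≤ C0 * Cp * x * ρ ^ 2 := by have := h.cp; have := h.x0; positivity
  have eE : (100 * (C0 * Cp + 1) * x + δ) * ρ ^ 2 =
      100 * (C0 * Cp * x * ρ ^ 2) + 100 * (x * ρ ^ 2) + δ * ρ ^ 2 := by ring
  refine ⟨Ω, Ω', fun σ => G1 σ + G2 σ + G3 σ + CN * εw * ρ, rg_mono r1 (by linarith [h.e10]) hL,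
    rg_mono r2 (by linarith [h.e10]) hL, ?_, ?_, fun σ => ⟨?_, ?_, fun U hU => ?_⟩, ?_, ?_⟩
  · refine ((((ts_lip h.e10 t1).add (ts_lip h.e10 t2)).add (ts_lip h.e10 t3)).add
      (Xt.lip2_const _)).mono ?_
    have : √e1 ≤ δ / 3 := sqrt_le_iff.2 ⟨by positivity, by nlinarith [h.e10]⟩
    linarith
  · have := hw.mean_mono (f := fun σ => (G1 σ + G2 σ + G3 σ + CN * εw * ρ) ^ 2)
      (g := fun σ => 4 * G1 σ ^ 2 + 4 * G2 σ ^ 2 + 4 * G3 σ ^ 2 + 4 * (CN * εw * ρ) ^ 2) fun σ => by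
        generalize CN * εw * ρ = t
        nlinarith [sq_nonneg (G1 σ - G2 σ), sq_nonneg (G1 σ - G3 σ), sq_nonneg (G1 σ - t),
          sq_nonneg (G2 σ - G3 σ), sq_nonneg (G2 σ - t), sq_nonneg (G3 σ - t)]
    simp only [mean_add, mean_const_mul, hw.mean_const] at this
    linarith [h.zsq]
  · have := nrm_add_le ((T σ)ᵀ *ᵥ u - Ω σ) ((T σ)ᵀ *ᵥ z)
    rw [mulVec_add, add_sub_right_comm]
    linarith [g1 σ, h.zT σ, p2 σ, p3 σ]
  · have := nrm_add_le (grad (fun σ => u ⬝ᵥ ψ σ) σ - Ω' σ) (grad (fun σ => z ⬝ᵥ ψ σ) σ)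
    rw [h.gadd, add_sub_right_comm]
    linarith [g2 σ, h.zψ σ, p1 σ, p3 σ]
  · have e0 : J *ᵥ (Dg J y σ * Ω σ) - x • c = J *ᵥ (Dg J y σ * Ω σ - q * u) +
        (J *ᵥ (q * (u + z)) - x • c) - J *ᵥ (q * z) := by
      rw [mul_add, mulVec_add, mulVec_sub]; abel
    rw [e0, Ok35.mk_sub, Ok35.mk_add]
    have a1 := mk_exs h.e10 ρ0 hU (J *ᵥ (Dg J y σ * Ω σ - q * u))
    have a2 := h.fj U hU
    have a3 := (nrm_mk (C := U) _).trans h.zJ
    have a4 : (e1 + 7 * εw) * ρ ≤ δ * ρ :=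
      mul_le_mul_of_nonneg_right (by linarith [h.εd, sq_nonneg δ]) ρ0
    refine (nrm_sub_le _ _).trans ((add_le_add (nrm_add_le _ _) le_rfl).trans ?_)
    linarith [g3 σ, p1 σ, p2 σ]
  · have k1 := hw.mean_mono (f := fun σ => Ω σ ⬝ᵥ (Dg J y σ * Ω σ))
      (g := fun σ => 2 * (Ω' σ ⬝ᵥ (Dg J y σ * Ω' σ)) + 6 * G1 σ ^ 2 + 6 * G4 σ ^ 2 + 6 * G2 σ ^ 2)
      fun σ => by
        have b1 := quad_le (Dg_mem J y σ) (Ω σ) (Ω' σ)
        have b2 : nrm (Ω σ - Ω' σ) ≤ G1 σ + G4 σ + G2 σ := by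
          have e0 : Ω σ - Ω' σ = grad (fun σ => u ⬝ᵥ ψ σ) σ - Ω' σ -
              (grad (fun σ => u ⬝ᵥ ψ σ) σ - (T σ)ᵀ *ᵥ u) - ((T σ)ᵀ *ᵥ u - Ω σ) := by abel
          rw [e0]
          refine (nrm_sub_le _ _).trans ((add_le_add (nrm_sub_le _ _) le_rfl).trans ?_)
          linarith [g1 σ, g2 σ, g4 σ]
        have b3 := pow_le_pow_left₀ (nrm_nonneg _) b2 2
        nlinarith [sq_nonneg (G1 σ - G2 σ), sq_nonneg (G1 σ - G4 σ), sq_nonneg (G2 σ - G4 σ)]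
    simp only [mean_add, mean_const_mul] at k1
    have k2 : C' * e * (u ⬝ᵥ u) ≤ 4 * (x * ρ ^ 2) + 0.04 * (δ * ρ ^ 2) := by
      have b1 := mul_le_mul_of_nonneg_left h.uu (mul_nonneg h.c' h.e0)
      have b2 := mul_le_mul_of_nonneg_right h.n5 (sq_nonneg ρ)
      linarith
    rw [eE]
    linarith [h.pu]
  · rw [eE]
    linarith [h.pu]

lemma gf (v : Cube n → ℝ) (hv : Wt v) :
    mean v (fun σ => nrm (grad (fun σ => (u + z) ⬝ᵥ ψ σ) σ - (T σ)ᵀ *ᵥ (u + z)) ^ 2) ≤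
      es * (ρ ^ 2 + kl v (ising J y)) := by
  obtain ⟨G4, g4, p4, t4, m4⟩ := h.an.gf u h.hu
  have hw : Wt (ising J y) := .of_pos (ising_pos J y)
  have H0 := kl0 (J := J) (y := y) hv
  have k1 := hv.mean_mono
    (f := fun σ => nrm (grad (fun σ => (u + z) ⬝ᵥ ψ σ) σ - (T σ)ᵀ *ᵥ (u + z)) ^ 2)
    (g := fun σ => 2 * G4 σ ^ 2 + 8 * (CN * εw * ρ) ^ 2) fun σ => by
      have b2 : nrm (grad (fun σ => (u + z) ⬝ᵥ ψ σ) σ - (T σ)ᵀ *ᵥ (u + z)) ≤
          G4 σ + 2 * (CN * εw * ρ) := by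
        rw [h.gadd, mulVec_add, add_sub_add_comm]
        refine (nrm_add_le _ _).trans ((add_le_add le_rfl (nrm_sub_le _ _)).trans ?_)
        linarith [g4 σ, h.zT σ, h.zψ σ]
      have b3 := pow_le_pow_left₀ (nrm_nonneg _) b2 2
      nlinarith [sq_nonneg (G4 σ - 2 * (CN * εw * ρ))]
  simp only [mean_add, mean_const_mul, hv.mean_const] at k1
  have k2 := h.hb.2.2.1 G4 e1 p4 (fun σ => by
    simpa only [sq_sqrt h.e10] using (ts_lip h.e10 t4).vp σ) v hv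
  have k3 := mean_sq_le hw G4
  have k4 : C' * e * (u ⬝ᵥ u) ≤ 0.04 * (es * ρ ^ 2) := by
    have b0 : e ≤ √e := le_sqrt_of_sq_le (by nlinarith [h.e0, h.e1'])
    have b1 := mul_le_mul (mul_le_mul_of_nonneg_left b0 h.c') h.uu (Eig.dot_self_nonneg u)
      (mul_nonneg h.c' (sqrt_nonneg _))
    have b2 := mul_le_mul_of_nonneg_right h.n4 (sq_nonneg ρ)
    linarith
  have de : δ ^ 2 ≤ es := h.dd.trans h.des
  have k5 : δ ^ 2 * ρ ^ 2 ≤ es * ρ ^ 2 := mul_le_mul_of_nonneg_right de (sq_nonneg _)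
  have k6 : K * e1 * (kl v (ising J y) + 1) ≤ es / 1000 * (kl v (ising J y) + ρ ^ 2) :=
    mul_le_mul (by linarith [h.n1]) (by linarith [h.ρ1]) (by linarith) (by linarith [sq_nonneg δ])
  have k7 : 0 ≤ es * kl v (ising J y) := mul_nonneg (by linarith [sq_nonneg δ]) H0
  have k8 : 0 ≤ δ ^ 2 * ρ ^ 2 := by positivity
  linarith [h.zsq, h.Eu]

lemma dz (v : Cube n → ℝ) (hv : Wt v) : |mean v fun σ => z ⬝ᵥ T σ *ᵥ tau J y σ| ≤
    es / 1000 * (ρ ^ 2 + kl v (ising J y)) := by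
  have H0 := kl0 (J := J) (y := y) hv
  have k1 : |mean v fun σ => z ⬝ᵥ T σ *ᵥ tau J y σ| ≤ CN * nrm z * √(kl v (ising J y) + K0) :=
    h.an.dv z (prob v) hv.isP
  have k2 : ρ * √(kl v (ising J y) + K0) ≤ ρ ^ 2 + kl v (ising J y) := by
    have := sq_sqrt (add_nonneg H0 h.k0)
    nlinarith [sq_nonneg (ρ - √(kl v (ising J y) + K0)), h.k1]
  have k3 : CN * nrm z * √(kl v (ising J y) + K0) ≤ CN * (εw * ρ) * √(kl v (ising J y) + K0) :=
    mul_le_mul_of_nonneg_right (mul_le_mul_of_nonneg_left h.nz (by linarith [h.cn])) (sqrt_nonneg _)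
  have k4 : CN * εw * (ρ * √(kl v (ising J y) + K0)) ≤ es / 1000 * (ρ ^ 2 + kl v (ising J y)) :=
    mul_le_mul (by linarith [h.n3, h.dd, h.des]) k2 (mul_nonneg h.ρ0 (sqrt_nonneg _))
      (by linarith [h.d0, h.des])
  linarith

lemma eqn (v : Cube n → ℝ) (hv : Wt v) (R : Cube n → ℝ)
    (hR : R = fun σ => ((T σ)ᵀ *ᵥ (u + z)) ⬝ᵥ tau J y σ - a * ((u + z) ⬝ᵥ ψ σ) -
      (J *ᵥ c - x • c) ⬝ᵥ sv σ) :
    |mean v R - mean (ising J y) R| ≤ es * (ρ ^ 2 + kl v (ising J y)) := by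
  have hw : Wt (ising J y) := .of_pos (ising_pos J y)
  have H0 := kl0 (J := J) (y := y) hv
  have ρ0 := h.ρ0
  have d0 := h.d0
  have ew0 := h.ew0
  obtain ⟨r, hr⟩ : ∃ r, r = α * u - J *ᵥ (q * u) - (J *ᵥ c - x • c) := ⟨_, rfl⟩
  obtain ⟨G, hG⟩ : ∃ G : Cube n → ℝ, ∀ σ,
    G σ = u ⬝ᵥ T σ *ᵥ tau J y σ - a * (u ⬝ᵥ ψ σ) - (α * u - J *ᵥ (q * u)) ⬝ᵥ sv σ := ⟨_, fun _ => rfl⟩
  obtain ⟨g, hg⟩ : ∃ g : Cube n → ℝ, g = fun σ => r ⬝ᵥ sv σ - a * (z ⬝ᵥ ψ σ) := ⟨_, rfl⟩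
  have eR : R = fun σ => G σ + z ⬝ᵥ T σ *ᵥ tau J y σ + g σ := by
    funext σ
    have e1 : ((T σ)ᵀ *ᵥ (u + z)) ⬝ᵥ tau J y σ = (u + z) ⬝ᵥ T σ *ᵥ tau J y σ := by
      rw [dotProduct_mulVec, mulVec_transpose]
    simp only [hR, hG, hg, hr, e1, add_dotProduct, sub_dotProduct]
    ring
  have nr : nrm r ≤ ew * ρ + CN * (εw * ρ) + 6 * (εw * ρ) := by
    have e1 : r = α * (u + z) - J *ᵥ (q * (u + z)) - (J *ᵥ c - x • c) - α * z + J *ᵥ (q * z) := by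
      rw [hr, mul_add, mul_add, mulVec_add]; abel
    have b1 := (Rip.nrm_mul_le (by linarith [h.cn]) h.hα z).trans
      (mul_le_mul_of_nonneg_left h.nz (by linarith [h.cn]))
    rw [e1]
    refine (nrm_add_le _ _).trans ((add_le_add (nrm_sub_le _ _) le_rfl).trans ?_)
    linarith [h.eq, h.zJ]
  have lg : Lip2 (2 * ((ew + δ) * ρ)) g := Xt.lip2_of_grad fun σ => by
    rw [hg, Rec.grad_sub, Rec.grad_lin, Rec.grad_const_mul]
    have b1 : nrm (a • grad (fun σ => z ⬝ᵥ ψ σ) σ) ≤ CN * εw * ρ := by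
      rw [nrm_smul, abs_of_nonneg h.a0]
      exact (mul_le_of_le_one_left (nrm_nonneg _) h.a1).trans (h.zψ σ)
    have b2 : (2 * (CN * εw) + 6 * εw) * ρ ≤ δ * ρ :=
      mul_le_mul_of_nonneg_right (by linarith [h.n3, h.εd, h.dd]) ρ0
    refine (nrm_sub_le _ _).trans ?_
    linarith
  have θ0 : 0 < (ew + δ)⁻¹ := by positivity
  have u1 := S1n.h1_up (ising_pos J y) h.hb.2.1 lg hv θ0
  have u2 := S1n.h1_lo (ising_pos J y) h.hb.2.1 lg hv θ0
  have eθ : kl v (ising J y) / (ew + δ)⁻¹ + K * (2 * ((ew + δ) * ρ)) ^ 2 * (ew + δ)⁻¹ =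
      (ew + δ) * kl v (ising J y) + 4 * (K * (ew + δ) * ρ ^ 2) := by
    field_simp; ring
  rw [eθ] at u1 u2
  have u3 : (ew + δ) * kl v (ising J y) ≤ es / 100 * kl v (ising J y) :=
    mul_le_mul_of_nonneg_right (by nlinarith [h.n4', h.hb.1]) H0
  have u4 : K * (ew + δ) * ρ ^ 2 ≤ es / 100 * ρ ^ 2 :=
    mul_le_mul_of_nonneg_right (by linarith [h.n4']) (sq_nonneg _)
  have k1 : |mean v G - mean (ising J y) G| ≤ C' * √e * (u ⬝ᵥ u + kl v (ising J y)) + E u +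
      e1 * kl v (ising J y) := h.an.eq u h.hu (prob v) hv.isP G hG
  have k2 := h.dz v hv
  have k3 := h.dz _ hw
  rw [show kl (ising J y) (ising J y) = 0 from Ent.kl_self _] at k3
  have s0 : 0 ≤ C' * √e := mul_nonneg h.c' (sqrt_nonneg _)
  have k4 : C' * √e * (u ⬝ᵥ u) ≤ 0.04 * (es * ρ ^ 2) := by
    have b1 := mul_le_mul_of_nonneg_left h.uu s0
    have b2 := mul_le_mul_of_nonneg_right h.n4 (sq_nonneg ρ)
    linarith
  have k5 : C' * √e * kl v (ising J y) ≤ es / 100 * kl v (ising J y) :=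
    mul_le_mul_of_nonneg_right (by nlinarith [h.n4, mul_nonneg s0 (sub_nonneg.2 (one_le_pow₀ h.cw (n := 2)))]) H0
  have de : δ ^ 2 ≤ es := h.dd.trans h.des
  have k6 : e1 * kl v (ising J y) ≤ es / 1000 * kl v (ising J y) :=
    mul_le_mul_of_nonneg_right (by linarith [h.e1d]) H0
  have k7 : δ ^ 2 * ρ ^ 2 ≤ es * ρ ^ 2 := mul_le_mul_of_nonneg_right de (sq_nonneg _)
  have k8 : 0 ≤ es * kl v (ising J y) := mul_nonneg (by linarith [sq_nonneg δ]) H0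
  have k9 : 0 ≤ δ ^ 2 * ρ ^ 2 := by positivity
  rw [abs_le] at k1 k2 k3 ⊢
  simp only [eR, mean_add]
  constructor <;> linarith [k1.1, k1.2, k2.1, k2.2, k3.1, k3.2, h.Eu]

end Sit

end Dir12

open Dir12

set_option maxHeartbeats 800000 in
theorem dirStmt : DirStmt := by
  intro n κ _ _ J y ι a CN C0 C' e e1 η K0 K' C1 x Cw Cp ew εw m K δ es B0 R E p q α ψ T Ft Wm hJ hι
    hb an cav hF hE hp a0 a1 x0 x1 cn c0 c' e0 e1' e10 η0 k0 c1 cw cp ew0 εw0 εw1 d0 des es1 b1 hκ hR hη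
    n1 n2 kb n3 n4 n5
  have sp := fun c : κ → ℝ => sp_ex (ι := ι) hκ c
  have nw : ∀ c, nrm (Wm *ᵥ ex ι c) ≤ Cw * nrm c := fun c => by
    simpa only [nrm_ex hι] using cav.nr _ (sp c)
  have bb : ∀ c, CN * nrm (Wm *ᵥ ex ι c) ≤ 2 * CN * Cw * nrm c := fun c => by
    have b1 := mul_le_mul_of_nonneg_left (nw c) (by linarith : 0 ≤ CN)
    have b2 : 0 ≤ CN * (Cw * nrm c) := by have := nrm_nonneg c; positivity
    linarith
  refine ⟨an.free, fun c σ => (nrm_tr (an.opT σ) _).trans (bb c), fun c σ => ?_,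
    fun ρ c ρ0 hB hρ hc => ?_⟩
  · rw [grad_dot]; exact (nrm_tr (an.opψ σ) _).trans (bb c)
  have K1 := hb.1
  have c0' := nrm_nonneg c
  have nc : nrm (ex ι c) ≤ ρ := (nrm_ex hι c).trans_le hc
  have εc : εw * nrm (ex ι c) ≤ εw * ρ := mul_le_mul_of_nonneg_left nc εw0
  have nw' : nrm (Wm *ᵥ ex ι c) ≤ Cw * ρ :=
    (nw c).trans (mul_le_mul_of_nonneg_left hc (by linarith))
  obtain ⟨z, -, nz, hz⟩ := (cav.fl _ (sp c)).split (mul_nonneg εw0 (nrm_nonneg _)) η0 (by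
    have b1 := (nrm_le_iff (by positivity)).1 nw'
    linarith [mul_le_mul_of_nonneg_left hρ (sq_nonneg Cw)])
  obtain ⟨u, hu⟩ : ∃ u, u = Wm *ᵥ ex ι c - z := ⟨_, rfl⟩
  have ew' : Wm *ᵥ ex ι c = u + z := by rw [hu, sub_add_cancel]
  have nz' := nz.trans εc
  have nu : nrm u ≤ 2 * Cw * ρ := by
    rw [hu]
    linarith [nrm_sub_le (Wm *ᵥ ex ι c) z, mul_le_mul_of_nonneg_right (εw1.trans cw) ρ0]
  have R0 := sq_nonneg ρ
  have m1 : 1000 * (Cw ^ 2 * e1) ≤ δ ^ 2 := by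
    linarith [mul_nonneg (sub_nonneg.2 K1) (mul_nonneg (sq_nonneg Cw) e10)]
  have m3 : 1000 * ((CN + C0 + C1 + 1) * εw) ≤ δ ^ 2 := by
    linarith [mul_nonneg (sub_nonneg.2 K1) (mul_nonneg (by linarith : 0 ≤ CN + C0 + C1 + 1) εw0)]
  have q1 : 0 ≤ CN * εw := by positivity
  have q2 : 0 ≤ C0 * εw := by positivity
  have q3 : 0 ≤ C1 * εw := by positivity
  have s0 : 0 ≤ C' * √e * Cw ^ 2 := by positivity
  have εε : εw ^ 2 ≤ εw := by linarith [mul_nonneg εw0 (sub_nonneg.2 εw1)]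
  have H : Sit J y a CN C0 C' e e1 η K0 x Cw Cp ew εw K δ es ρ E p q α ψ T (ex ι c) u z := by
    refine ⟨hJ, hb, an, fun i => (hp i).2.2.1, fun i => (hp i).2.2.2, a0, a1, x0, cn,
      mul_nonneg c0 cp, c', e0, e1', e10, cw, ew0, εw0, d0, des, es1, ρ0, b1.trans hB, k0,
      kb.trans hB, ?_, by linarith, ?_, ?_, n5,
      (pi_norm_le_iff_of_nonneg η0.le).2 fun i => by rw [hu]; exact hz i, nu, nz', ?_, ?_,
      fun U hU => ?_, ?_⟩
    · linarith [mul_nonneg (mul_nonneg (by linarith : 0 ≤ K) e10)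
        (sub_nonneg.2 (one_le_pow₀ cw (n := 2)))]
    · linarith [mul_nonneg (sub_nonneg.2 K1) s0, mul_nonneg (by linarith : 0 ≤ K)
        (by linarith : 0 ≤ ew + δ)]
    · linarith [mul_nonneg (by linarith : 0 ≤ K) s0]
    · have b1 := hE u (2 * (εw * ρ)) (by positivity) fun f hf => by
        have b2 := cav.ty _ (sp c) f hf
        have b3 := (abs_dot_le z f).trans (mul_le_of_le_one_right (nrm_nonneg _) (hF f hf))
        rw [hu, sub_dotProduct]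
        exact (abs_sub _ _).trans (by linarith)
      have b2 := mul_le_mul_of_nonneg_left ((nrm_le_iff (by positivity)).1 nu) e10
      have b3 := mul_le_mul_of_nonneg_right m1 R0
      have b4 := mul_le_mul_of_nonneg_left hB (sq_nonneg δ)
      have b5 : C1 * εw ^ 2 * ρ ^ 2 ≤ δ ^ 2 / 1000 * ρ ^ 2 := mul_le_mul_of_nonneg_right
        ((mul_le_mul_of_nonneg_left εε c1).trans (by linarith)) R0
      linarith
    · have b1 := quad_le (d := p) (fun i => ⟨(hp i).1, (hp i).2.1⟩) u (Wm *ᵥ ex ι c)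
      have b2 : nrm (u - Wm *ᵥ ex ι c) ^ 2 ≤ (εw * ρ) ^ 2 := by
        rw [hu, sub_sub_cancel_left, nrm_neg]; exact pow_le_pow_left₀ (nrm_nonneg _) nz' 2
      have b3 := (cav.en _ (sp c)).trans (mul_le_mul_of_nonneg_left ((nrm_le_iff ρ0).1 nc)
        (by positivity))
      have b4 : εw ^ 2 * ρ ^ 2 ≤ εw * ρ ^ 2 := mul_le_mul_of_nonneg_right εε R0
      have b5 : u ⬝ᵥ (p * u) ≤ 2 * (Cp * x * ρ ^ 2) + 4 * (εw * ρ ^ 2) := by linarith
      have b6 := mul_le_mul_of_nonneg_left b5 c0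
      have b7 : C0 * εw * ρ ^ 2 ≤ δ ^ 2 / 1000 * ρ ^ 2 := mul_le_mul_of_nonneg_right (by linarith) R0
      linarith
    · rw [← ew']
      exact (mk_flat (cav.fj _ (sp c)) (mul_nonneg εw0 (nrm_nonneg _)) (by linarith)).trans εc
    · rw [← ew']
      exact (cav.eq _ (sp c)).trans (mul_le_mul_of_nonneg_left nc ew0)
  rw [ew']
  exact ⟨H.ver, H.gf, H.eqn⟩

end Crest.Agent.T157.Br
end
end

-- ▼ part T157/S1Sup_30

/-!
# Row 157, block S1 (helper30): the supply `BSup` of the act B from two families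
-/

set_option autoImplicit false
set_option maxHeartbeats 800000

noncomputable section

namespace Crest.Agent.T157.S1

open Real Matrix Finset
open Crest.Agent.T157.E Crest.Agent.T157.SL
open Crest.Agent.T157.Rec (grad fl)
open Crest.Agent.T157.Eig
open Crest.Agent.T157.S3 (V Mx AnsAt Rg TS)
open Crest.Agent.T157.S3F (jac)
open Crest.Agent.T157.Rip (Cav Sp Fl)
open Crest.Agent.T157.Xt (H1 Lip2)

namespace Sup30

variable {n : ℕ} {κ : Type} [Fintype κ]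

lemma ex_apply (ι : κ → Fin n) (c : κ → ℝ) (i : Fin n) :
    Br.ex ι c i = ∑ k, if ι k = i then c k else 0 := by
  simp [Br.ex, Br.XM, mulVec, dotProduct]

lemma ex_dot (ι : κ → Fin n) (c : κ → ℝ) (y : V n) : Br.ex ι c ⬝ᵥ y = ∑ k, c k * y (ι k) := by
  simp only [dotProduct, ex_apply, sum_mul, ite_mul, zero_mul]
  rw [sum_comm]
  simp only [sum_ite_eq, mem_univ, if_true]

lemma sq_ex [DecidableEq κ] {ι : κ → Fin n} (h : Function.Injective ι) (c : κ → ℝ) :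
    Br.ex ι c ⬝ᵥ Br.ex ι c = c ⬝ᵥ c := by
  rw [ex_dot]
  simp only [ex_apply, h.eq_iff, sum_ite_eq', mem_univ, if_true, dotProduct]

lemma sp_ex {B : Finset (Fin n)} {m : ℝ} (h : (#B : ℝ) ≤ m) (c : B → ℝ) :
    Sp m (Br.ex (Subtype.val : B → Fin n) c) :=
  ⟨B, h, fun i hi => by
    rw [ex_apply]; exact sum_eq_zero fun k _ => if_neg fun e : k.1 = i => hi (e ▸ k.2)⟩

lemma dot_φm (ι : κ → Fin n) (ψ : Cube n → V n) (Wm : Mx n) (c : κ → ℝ) (x : Cube n) :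
    c ⬝ᵥ Br.φm ι ψ Wm x = (Wm *ᵥ Br.ex ι c) ⬝ᵥ ψ x := by
  rw [dotProduct_comm (Wm *ᵥ _), dotProduct_mulVec, dotProduct_comm (_ ᵥ* _), ex_dot]
  refine sum_congr rfl fun k _ => ?_
  rw [Br.φm, dotProduct_comm (Wm *ᵥ _), dotProduct_mulVec, dotProduct_single, mul_one]

lemma nrm_grad_dot {ψ : Cube n → V n} {C : ℝ} (h : ∀ x, opn (jac ψ x) ≤ C) (z : V n) (x : Cube n) :
    nrm (grad (fun y => z ⬝ᵥ ψ y) x) ≤ C * nrm z := by
  have e : grad (fun y => z ⬝ᵥ ψ y) x = (jac ψ x)ᵀ *ᵥ z := by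
    funext j
    simp only [grad, SL.incr, dotProduct, ← sum_sub_distrib, sum_div, mulVec, transpose_apply, jac,
      of_apply]
    exact sum_congr rfl fun k _ => by ring
  rw [e]
  exact (nrm_mulVec_le _ _).trans
    (mul_le_mul_of_nonneg_right (by rw [opn_transpose]; exact h x) (nrm_nonneg _))

/-- sparse blocks of the couplings are small -/
lemma blk {J : Mx n} {m ε : ℝ} (h : ∀ c, Sp m c → Fl m (ε * nrm c) (J *ᵥ c)) (he : 0 ≤ ε)
    {U : Finset (Fin n)} (hU : (#U : ℝ) ≤ m) {u : V n} (hu : Sp m u) :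
    ∑ i ∈ U, (J *ᵥ u) i ^ 2 ≤ ε ^ 2 * (u ⬝ᵥ u) := by
  set v : V n := fun i => if i ∈ U then (J *ᵥ u) i else 0 with hv
  have e1 : v ⬝ᵥ v = ∑ i ∈ U, (J *ᵥ u) i ^ 2 := by
    simp only [dotProduct, hv, ite_mul, zero_mul, mul_ite, mul_zero]
    rw [← sum_filter, filter_mem_eq_inter, univ_inter]
    exact sum_congr rfl fun i hi => by rw [if_pos hi, sq]
  have e2 : v ⬝ᵥ (J *ᵥ u) = v ⬝ᵥ v := sum_congr rfl fun i _ => by
    by_cases hi : i ∈ U <;> simp [hv, hi]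
  have h1 := (le_abs_self _).trans (h u hu v ⟨U, hU, fun i hi => if_neg hi⟩)
  rw [e2, ← nrm_mul_self] at h1
  have h0 : 0 ≤ ε * nrm u := mul_nonneg he (nrm_nonneg _)
  have h2 : nrm v ≤ ε * nrm u := by
    rcases (nrm_nonneg v).eq_or_lt with h0' | h0'
    · rw [← h0']; exact h0
    · exact le_of_mul_le_mul_right h1 h0'
  rw [← e1, ← nrm_sq, ← nrm_sq, ← mul_pow]
  exact pow_le_pow_left₀ (nrm_nonneg _) h2 2

/-- the size of the density with respect to the base -/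
lemma size {D : Dat n} (h : D.Ok) (s : St n) (y0 : V n) (x : Cube n) :
    prob (nu D s) x ≤ exp (Dz D s + 2 * (√n * nrm (s.y - y0))) * prob (ising D.J y0) x := by
  set A := √n * nrm (s.y - y0)
  have hA : ∀ σ : Cube n, |(s.y - y0) ⬝ᵥ sv σ| ≤ A := fun σ => by
    refine (abs_dot_le _ _).trans (le_of_eq ?_)
    rw [mul_comm]; congr 1
    simp [nrm, dotProduct, Rec.sv_mul_self]
  have e : ∀ σ, ising D.J s.y σ = ising D.J y0 σ * exp ((s.y - y0) ⬝ᵥ sv σ) := fun σ => by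
    rw [← tilt, tilt_ising, add_sub_cancel]
  have Z0 := (C89.wt_is D.J y0).pos
  have Z1 := (C89.wt_is D.J s.y).pos
  have hm := C89.mean_pos (s := s) h
  have h1 : exp (-A) * ∑ σ, ising D.J y0 σ ≤ ∑ σ, ising D.J s.y σ := by
    rw [mul_sum]
    refine sum_le_sum fun σ _ => ?_
    rw [e, mul_comm]
    exact mul_le_mul_of_nonneg_left (exp_le_exp.2 (abs_le.1 (hA σ)).1) (C89.is_pos _ _ _).le
  have h2 : nu D s x ≤ ising D.J y0 x * exp A * exp D.T0 := by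
    rw [nu, loc, e]
    refine mul_le_mul ((mul_le_of_le_one_right (mul_pos (C89.is_pos _ _ _) (exp_pos _)).le
      (C89.ell_le h x)).trans (mul_le_mul_of_nonneg_left (exp_le_exp.2 (abs_le.1 (hA x)).2)
      (C89.is_pos _ _ _).le)) (h.fle x) (h.fpos x).le
      (mul_pos (C89.is_pos _ _ _) (exp_pos _)).le
  rw [prob, prob, C89.Z_nu, Dz, exp_add, exp_sub, exp_log hm, div_le_iff₀ (mul_pos Z1 hm)]
  refine h2.trans ?_
  have e2 : exp (2 * A) * exp (-A) = exp A := by rw [← exp_add]; congr 1; ring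
  have h3 := mul_le_mul_of_nonneg_left h1 (show 0 ≤ exp D.T0 * exp (2 * A) *
    (ising D.J y0 x / ∑ σ, ising D.J y0 σ) from
      mul_nonneg (by positivity) (div_pos (C89.is_pos _ _ _) Z0).le)
  calc _ = exp D.T0 * exp (2 * A) * (ising D.J y0 x / ∑ σ, ising D.J y0 σ) *
        (exp (-A) * ∑ σ, ising D.J y0 σ) := by rw [← e2]; field_simp
    _ ≤ _ := h3
    _ = _ := by field_simp

/-- the class of the old tilt, with the truncated excess -/
lemma tc {D : Dat n} (h : D.Ok) {s : St n} {y0 : V n} {ec K δ A : ℝ} (c : Cl ec ec s)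
    (h1 : H1 (ising D.J y0) K) (hK : 1 ≤ K) (d0 : 0 < δ) (d1 : δ ≤ 1) (he : 32 * K * ec ≤ δ ^ 2)
    (hA : kl (nu D s) (ising D.J y0) + 1 ≤ A) : ∃ X, 0 ≤ X ∧ X ≤ Ex D s ∧ X ≤ 4 * s.L ^ 2 ∧
      Br.Tc (ising D.J y0) δ s.L (A + 4 / δ ^ 2 * X) s.Th := by
  have hν := (C89.pr0 (s := s) h).hv
  have e0 : 0 ≤ ec := (norm_nonneg _).trans (c.rg default).1
  have G0 : ∀ σ, 0 ≤ s.G σ := fun σ => (nrm_nonneg _).trans (c.ex σ)
  have L0 := c.L0
  set G : Cube n → ℝ := fun σ => min (s.G σ) (2 * s.L) with hG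
  have g0 : ∀ σ, 0 ≤ G σ := fun σ => le_min (G0 σ) (by positivity)
  have ts : TS ec G := fun σ => (sum_le_sum fun j _ => by
    rw [← sq_abs, ← sq_abs (s.G σ - _)]
    exact pow_le_pow_left₀ (abs_nonneg _) ((abs_min_sub_min_le_max _ _ _ _).trans (by simp)) 2).trans
      (c.ts σ)
  have e2 : ec ≤ δ ^ 2 := by nlinarith
  have e1 : ec ≤ δ := by nlinarith
  refine ⟨mean (nu D s) fun σ => G σ ^ 2, hν.mean_nonneg fun _ => sq_nonneg _,
    hν.mean_mono fun σ => pow_le_pow_left₀ (g0 σ) (min_le_left _ _) 2,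
    (hν.mean_mono (g := fun _ => 4 * s.L ^ 2) fun σ =>
      (pow_le_pow_left₀ (g0 σ) (min_le_right _ _) 2).trans_eq (by ring)).trans_eq (hν.mean_const _),
    s.Om, G, fun σ => ⟨(c.rg σ).1.trans e1, (c.rg σ).2.1.trans e1, (c.rg σ).2.2⟩, fun σ =>
      le_min (c.ex σ) ((nrm_sub_le _ _).trans (by linarith [c.gr σ, (c.rg σ).2.2.1])),
    (F25.lip2_of_ts ts).mono (sqrt_le_left d0.le |>.2 e2), fun v hv => ?_⟩
  have := F25.xferE h1 (C89.is_pos _ _) (by linarith) e0 ts hν hv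
  have k1 : 0 ≤ kl v (ising D.J y0) := (S1n.pr_of (C89.is_pos _ _) hv).kl_nonneg
  have k2 : 0 ≤ kl (nu D s) (ising D.J y0) := (S1n.pr_of (C89.is_pos _ _) hν).kl_nonneg
  have e3 : δ ^ 2 * (4 / δ ^ 2 * mean (nu D s) fun σ => G σ ^ 2) =
      4 * mean (nu D s) fun σ => G σ ^ 2 := by field_simp
  have h4 : K * ec * (32 * kl (nu D s) (ising D.J y0) + 16 * kl v (ising D.J y0) + 18) ≤
      δ ^ 2 / 32 * (32 * kl (nu D s) (ising D.J y0) + 16 * kl v (ising D.J y0) + 18) :=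
    mul_le_mul_of_nonneg_right (by linarith) (by positivity)
  have h5 := mul_le_mul_of_nonneg_left hA (sq_nonneg δ)
  nlinarith [mul_nonneg (sq_nonneg δ) k1, sq_nonneg δ]

/-- the clipped cavity vector -/
lemma clip {J Wm : Mx n} {p q α pB : V n} {x Cw Cp ew εw m R ηA : ℝ} {Ft : Set (V n)}
    (h : Cav J p q α x Cw Cp ew εw m Ft Wm) (hF : ∀ f ∈ Ft, nrm f ≤ 1) (hp : ∀ i, 0 ≤ p i ∧ p i ≤ 1)
    (hB : ∀ i, pB i ≤ 2 * p i) (h1 : 1 ≤ Cw) (w0 : 0 ≤ εw) (w1 : εw ≤ 1) (hη : 0 < ηA)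
    (hm : Cw ^ 2 * R ≤ m * ηA ^ 2) {u : V n} (hu : Sp m u) (hR : u ⬝ᵥ u ≤ R) : ∃ z : V n,
      nrm z ≤ εw * nrm u ∧ ‖Wm *ᵥ u - z‖ ≤ ηA ∧ nrm (Wm *ᵥ u - z) ≤ 2 * Cw * nrm u ∧
      (∀ f ∈ Ft, |(Wm *ᵥ u - z) ⬝ᵥ f| ≤ εw * (2 * Cw * nrm u)) ∧
      pB ⬝ᵥ ((Wm *ᵥ u - z) * (Wm *ᵥ u - z)) ≤ (4 * Cp * x + 8 * εw) * (u ⬝ᵥ u) := by
  have u0 := nrm_nonneg u
  have n1 := h.nr u hu
  have n2 : Wm *ᵥ u ⬝ᵥ Wm *ᵥ u ≤ m * ηA ^ 2 := by
    rw [← nrm_sq]
    refine (pow_le_pow_left₀ (nrm_nonneg _) n1 2).trans ?_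
    rw [mul_pow, nrm_sq]
    exact (mul_le_mul_of_nonneg_left hR (sq_nonneg _)).trans hm
  obtain ⟨z, -, z1, z2⟩ := (h.fl u hu).split (mul_nonneg w0 u0) hη n2
  have a1 : εw * nrm u ≤ Cw * nrm u := mul_le_mul_of_nonneg_right (w1.trans h1) u0
  refine ⟨z, z1, (pi_norm_le_iff_of_nonneg hη.le).2 fun i => z2 i,
    (nrm_sub_le _ _).trans (by linarith), fun f hf => ?_, ?_⟩
  · have b1 := h.ty u hu f hf
    have b2 := (abs_dot_le z f).trans (mul_le_of_le_one_right (nrm_nonneg _) (hF f hf))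
    rw [sub_dotProduct]
    refine (abs_sub _ _).trans ?_
    nlinarith [mul_le_mul_of_nonneg_left h1 (mul_nonneg w0 u0)]
  · have b1 := h.en u hu
    have b2 : z ⬝ᵥ z ≤ εw * (u ⬝ᵥ u) := by
      rw [← nrm_sq, ← nrm_sq]
      refine (pow_le_pow_left₀ (nrm_nonneg _) z1 2).trans ?_
      rw [mul_pow]
      exact mul_le_mul_of_nonneg_right (by nlinarith) (sq_nonneg _)
    have b3 : pB ⬝ᵥ ((Wm *ᵥ u - z) * (Wm *ᵥ u - z)) ≤
        4 * (Wm *ᵥ u ⬝ᵥ (p * Wm *ᵥ u)) + 4 * (z ⬝ᵥ z) := by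
      simp only [dotProduct, mul_sum, ← sum_add_distrib]
      refine sum_le_sum fun i _ => ?_
      simp only [Pi.mul_apply, Pi.sub_apply]
      nlinarith [mul_le_mul_of_nonneg_right (hB i) (mul_self_nonneg ((Wm *ᵥ u) i - z i)),
        mul_nonneg (hp i).1 (mul_self_nonneg ((Wm *ᵥ u) i + z i)),
        mul_le_mul_of_nonneg_right (hp i).2 (mul_self_nonneg (z i))]
    linarith

section dict
variable (D : Dat n) (s : St n) (y0 : V n) {B : Finset (Fin n)} (a a' e ε : ℝ) (X : BX n B)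

lemma S_eq (h : Disjoint B s.S) : (mkB D s y0 B a a' e ε X).S = s.S := by
  ext i
  simp only [Br.Dat.S, mkB, mem_filter, mem_univ, true_and, mem_compl, not_not, mem_union]
  exact ⟨fun h' => h'.1.resolve_right fun hi => h'.2 ⟨i, hi⟩ rfl, fun hi =>
    ⟨.inl hi, fun k e => disjoint_left.1 h k.2 (e ▸ hi)⟩⟩

lemma U_eq (h : Disjoint B s.S) : (mkB D s y0 B a a' e ε X).U = U D s := by
  funext x; rw [Br.Dat.U, S_eq D s y0 a a' e ε X h]; rfl

lemma ν_eq (h : Disjoint B s.S) : (mkB D s y0 B a a' e ε X).ν = nu D s := by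
  funext x
  rw [Br.Dat.ν, Br.Dat.l, U_eq D s y0 a a' e ε X h, S_eq D s y0 a a' e ε X h, nu, loc, ell]
  congr 1
  change (if ∀ i ∈ s.S, x i = s.sS i then ising D.J y0 x * exp ((s.y - y0) ⬝ᵥ sv x - U D s x)
    else 0) = _
  split_ifs
  · rw [sub_eq_add_neg _ (U D s x), exp_add, ← mul_assoc, ← tilt, tilt_ising, add_sub_cancel]
  · rw [mul_zero]

end dict

end Sup30

open Sup30 in
theorem supGlue : SupGlue := fun hH hD hO K0 κ0 hκ => by
  obtain ⟨K, hK⟩ := hH K0 κ0 hκ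
  obtain ⟨C, C1, hC⟩ := b1Stmt K0 κ0 hκ
  refine ⟨max K 1, le_max_right _ _, 4 * C, by linarith, ?_⟩
  intro n J y0 pB p p0 Ad φ c Ft F0 ψ ψ0 T T0 Wm W0 P η0 a a' mg xa b0 e ε δ es M Dh R δB ηA ec t Kb
    hB fa f0 hc hp hAd hη hm g0 g1 g2 g3 g4 g5 g6 a1 a2 a3 a4 a5 a6 a7 s1 s2 s3 s4 s5 D s B hd hJ hP
    hη0 cl sz hy dj hBt
  subst hJ hP hη0
  have hb := hK n D.J y0 hd.symm hd.diag hd.op hB
  rw [max_eq_left hb.1] at hc a1 a6 s5 ⊢
  obtain ⟨k1, -⟩ := hC n D s y0 ec ec hd cl hB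
  obtain ⟨z1, z2, z3, z4⟩ := sz
  have n1 := W6.Hy_nonneg s hd
  have n2 := W6.nuU_nonneg s hd
  have n3 := W6.gibbs s hd
  have n4 := SL.dot_self_nonneg (del s)
  have n5 := sq_nonneg s.L
  have n6 := sq_nonneg (nrm (s.y - y0))
  have n7 : (0 : ℝ) ≤ #s.S := Nat.cast_nonneg _
  have n8 : (0 : ℝ) ≤ #B := Nat.cast_nonneg _
  have b1 := hc.b1
  have d0 := hc.d0
  have eB : Bb D s y0 = Hy D s + del s ⬝ᵥ del s + s.L ^ 2 + mean (nu D s) (U D s) + #s.S +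
    nrm (s.y - y0) ^ 2 := rfl
  have B0 : 0 ≤ Bb D s y0 := by linarith
  have A1 : 4 * (Bb D s y0 + #B + Kb) ≤ 4 * C * (Bb D s y0 + #B + Kb) :=
    mul_le_mul_of_nonneg_right (by linarith) (by linarith)
  have A2 : kl (nu D s) (ising D.J y0) + 1 ≤ 4 * C * (Bb D s y0 + #B + Kb) := by
    linarith [mul_nonneg (zero_le_one.trans C1) B0, mul_nonneg (zero_le_one.trans C1) n8,
      mul_le_mul C1 b1 zero_le_one (zero_le_one.trans C1)]
  have A3 : 4 * C * (Bb D s y0 + #B + Kb) ≤ 4 * C * (6 * t + Kb) :=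
    mul_le_mul_of_nonneg_left (by linarith) (by linarith)
  obtain ⟨Y, Y0, Y1, Y2, tc'⟩ := tc hd cl hb.2.1 hb.1 d0 (hc.ds.trans hc.s1) a6 A2
  have c0 : 0 ≤ 4 / δ ^ 2 := by positivity
  have Y3 : 4 / δ ^ 2 * Y ≤ 16 * t / δ ^ 2 :=
    (mul_le_mul_of_nonneg_left (show Y ≤ 4 * t by linarith) c0).trans_eq (by ring)
  have Y4 := mul_nonneg c0 Y0
  have Y5 := mul_le_mul_of_nonneg_left Y1 c0
  generalize hA : 4 * C * (Bb D s y0 + #B + Kb) = A at *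
  generalize hZ : A + 4 / δ ^ 2 * Y = Z at *
  have AZ : A ≤ Z := by linarith
  have ZD : Z ≤ Dh := by linarith
  have Z1 : 1 ≤ Z := by linarith
  have DR : Dh ≤ R := (le_mul_of_one_le_left (by linarith) s3).trans s4
  have t2 : t ≤ Dh := by linarith [sqrt_nonneg (n * t)]
  have m1 := hc.m1
  have fm : ∀ {a x p Ft ψ T Wm}, Fa c D.J y0 a x δ p Ft ψ T Wm →
      Br.Fm D.J y0 (Subtype.val : B → Fin n) a x c.Ce c.CV δ es Z R ψ T Wm := by
    rintro a x p Ft ψ T Wm ⟨h1, h2, h3, h4, h5, h6, E, q, α, h7, h8, h9, h10⟩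
    exact hD n B D.J y0 Subtype.val a c.CN c.C0 c.C' c.e c.e1 c.η c.K0 c.K' c.C1 x c.Cw c.Cp c.ew
      c.εw c.m K δ es Z R E p q α ψ T Ft Wm hd.op Subtype.val_injective hb h7 h8 h6 h9 h10 h1 h2 h3 h4
      hc.CN hc.C0 hc.C' hc.e0 hc.e1 hc.e10 hc.η hc.K0 hc.C1 hc.Cw hc.Cp hc.ew hc.w0 hc.w1 d0 hc.ds
      hc.s1 Z1 (by rw [Fintype.card_coe]; linarith) m1 hc.m2 hc.h1
      (hc.bK'.trans (mul_le_mul_of_nonneg_left (by linarith) (sq_nonneg _))) (by linarith [hc.bK])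
      hc.h2 hc.h3 h5
  have fa' := fm fa
  have f0' := fm f0
  obtain ⟨-, -, x0, x1, -, hF, E, q, α, an, cv, -, hq⟩ := fa
  obtain ⟨-, -, y0', y1, -⟩ := f0
  have CN := hc.CN
  have Cw := hc.Cw
  have w0 := hc.w0
  have cV : 1 ≤ c.CV := by
    have := mul_le_mul CN Cw zero_le_one (zero_le_one.trans CN)
    rw [FC.CV]; linarith
  have cU : (#(s.S ∪ B) : ℝ) ≤ #s.S + #B := by exact_mod_cast card_union_le _ _
  have cm : (#(s.S ∪ B) : ℝ) ≤ c.m := by linarith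
  set X : BX n B := ⟨Br.Vm (s.S ∪ B)ᶜ Subtype.val T Wm, Br.Vm (s.S ∪ B)ᶜ Subtype.val T0 W0,
    Br.φm Subtype.val ψ Wm, meanV (ising D.J y0) fun x => a • Br.φm Subtype.val ψ Wm x +
      (Br.hG (Br.rw D.J (s.S ∪ B)ᶜ Subtype.val) x - xa • Br.sT Subtype.val x) -
      Br.dv D.J y0 (Br.Vm (s.S ∪ B)ᶜ Subtype.val T Wm) x,
    meanV (ising D.J y0) fun x => Br.hG (Br.rw D.J (s.S ∪ B)ᶜ Subtype.val) x -
      b0 • Br.sT Subtype.val x - Br.dv D.J y0 (Br.Vm (s.S ∪ B)ᶜ Subtype.val T0 W0) x,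
    xa, b0, c.εw, Z, Dh, R⟩ with hX
  refine ⟨X, ?_, s4, by change Z ≤ _; linarith, fun u hu => ?_⟩
  · have e1 := ν_eq D s y0 a a' e ε X dj
    have e2 := U_eq D s y0 a a' e ε X dj
    have n9 : Br.sq (s.y - y0) = nrm (s.y - y0) ^ 2 := (nrm_sq _).symm
    have hw : c.εw ≤ ε := by
      have := mul_le_mul_of_nonneg_right
        (mul_le_mul cV hd.P1 zero_le_one (zero_le_one.trans cV)) w0
      linarith
    refine hO n B { mkB D s y0 B a a' e ε X with L := s.L } mg c.Ce c.CV K δ es ψ ψ0 T T0 Wm W0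
      ⟨⟨hd.symm, hd.diag, hd.op, Subtype.val_injective,
        fun k hk => mem_compl.1 hk (mem_union_right _ k.2), fun j => ?_, fun u hu => ?_, w0, hd.P1⟩,
        hb, fa', f0', rfl, rfl, rfl, tc', d0, cV, ?_, ⟨x0, x1⟩, ⟨y0', y1⟩, Z1, ?_, ?_, ZD.trans DR, a1,
        a2, a3, hw, a4⟩ s5 rfl rfl hd.fpos g0 g1 g2 g3 g4 hd.e0 g5 g6 a5 (Xt.lip2_of_grad cl.gr) ?_ ?_ ?_
      (fun x => ?_) ZD
    · have := blk cv.jj w0 cm (u := Pi.single j 1) ⟨{j}, by rw [card_singleton]; push_cast; linarith,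
        fun i hi => Pi.single_eq_of_ne (by simpa using hi) _⟩
      simpa [mkB, hX] using this
    · have := blk cv.jj w0 cm (u := u) ⟨_, cm, fun i hi => hu i (mem_compl.2 hi)⟩
      simpa [mkB, hX, Br.sq] using this
    · rw [FC.Ce]; have := mul_nonneg hc.C0 hc.Cp; positivity
    · change (#(s.S ∪ B)ᶜᶜ : ℝ) ≤ Z
      rw [compl_compl]; linarith
    · change Br.sq (s.y - y0) + del s ⬝ᵥ del s + s.L ^ 2 ≤ Z
      linarith
    · change kl (mkB D s y0 B a a' e ε X).ν (ising D.J y0) ≤ Z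
      rw [e1]; linarith
    · change mean (mkB D s y0 B a a' e ε X).ν (mkB D s y0 B a a' e ε X).U ≤ Z
      rw [e1, e2]; linarith
    · change 4 * s.L ^ 2 + Br.sq (s.y - y0) + del s ⬝ᵥ del s ≤ Z
      linarith
    · change prob (mkB D s y0 B a a' e ε X).ν x ≤ exp Dh * prob (ising D.J y0) x
      rw [e1]
      refine (size hd s y0 x).trans (mul_le_mul_of_nonneg_right (exp_le_exp.2 ?_)
        ((C89.wt_is _ _).prob_nonneg x))
      have : √n * nrm (s.y - y0) ≤ √(n * t) := by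
        rw [sqrt_mul (Nat.cast_nonneg _)]
        exact mul_le_mul_of_nonneg_left (le_sqrt_of_sq_le hy) (sqrt_nonneg _)
      linarith
  · have e1 := sq_ex (Subtype.val_injective (p := (· ∈ B))) u
    have e2 : nrm (Br.ex Subtype.val u) = nrm u := congrArg sqrt e1
    have hu' : u ⬝ᵥ u ≤ R := hu
    obtain ⟨z, z1, z2, z3, z4, z5⟩ := clip cv hF (fun i => ⟨(hq i).1, (hq i).2.1⟩) hp Cw w0 hc.w1 hη hm
      (sp_ex (show (#B : ℝ) ≤ c.m by linarith) u) (e1.trans_le hu')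
    rw [e2] at z1 z3 z4
    rw [e1] at z5
    obtain ⟨h1, h2⟩ := hAd _ _ z2 z3 (by
      rw [mul_pow, nrm_sq]; linarith [mul_le_mul_of_nonneg_left hu' (sq_nonneg c.Cw)]) z4
    have b2 : 8 * c.εw ≤ 8 * c.CN * c.εw := by linarith [mul_le_mul_of_nonneg_right CN w0]
    refine ⟨_, h1, z5.trans (mul_le_mul_of_nonneg_right (by change _ ≤ _ * xa + _; linarith)
      (SL.dot_self_nonneg _)), fun x => ?_⟩
    have e3 : (fun y => φ (Wm *ᵥ Br.ex Subtype.val u - z) y - u ⬝ᵥ X.φ y) = fun y => (-z) ⬝ᵥ ψ y := by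
      funext y
      rw [h2]
      change _ - u ⬝ᵥ Br.φm Subtype.val ψ Wm y = _
      rw [dot_φm, ← sub_dotProduct, sub_sub_cancel_left]
    rw [e3]
    refine (nrm_grad_dot an.opψ _ x).trans ?_
    rw [nrm_neg]
    linarith [mul_le_mul_of_nonneg_left z1 (zero_le_one.trans CN),
      mul_le_mul_of_nonneg_right a7 (nrm_nonneg u),
      mul_nonneg (mul_nonneg (zero_le_one.trans CN) w0) (nrm_nonneg u)]

end Crest.Agent.T157.S1

end
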