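import Crest.Agent.T157.S1Par_97

-- ▼ part T157/S1Act_59
section

/-!
# Row 157, part B, block S1 (helper59): the act, `S1.ActGlue`
-/

set_option autoImplicit false

noncomputable section

namespace Crest.Agent.T157.S1

open Real Matrix Finset
open Crest.Agent.T157.E Crest.Agent.T157.SL
open Crest.Agent.T157.Eig (nrm opn)
open Crest.Agent.T157.S3 (V Mx)

namespace Act59

variable {n : ℕ}

/-- the pigeonhole on two disjoint bands -/
theorem bands (S : Finset (Fin n)) (z : V n) (a b c : ℝ) :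
    ∃ lo hi, (lo = b ∧ hi = a ∨ lo = c ∧ hi = b) ∧ ∑ j ∈ Sᶜ, z j ^ 2 ≤
      2 * ((fun j => if j ∉ S ∧ |z j| < lo then z j else 0) ⬝ᵥ
        (fun j => if j ∉ S ∧ |z j| < lo then z j else 0) +
      ∑ j ∈ univ.filter fun j => j ∉ S ∧ hi ≤ |z j|, z j ^ 2) := by
  have key : ∀ lo hi : ℝ, ∑ j ∈ Sᶜ, z j ^ 2 ≤ (fun j => if j ∉ S ∧ |z j| < lo then z j else 0) ⬝ᵥ
      (fun j => if j ∉ S ∧ |z j| < lo then z j else 0) +
      ∑ j ∈ univ.filter fun j => j ∉ S ∧ hi ≤ |z j|, z j ^ 2 +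
      ∑ j ∈ Sᶜ, if lo ≤ |z j| ∧ |z j| < hi then z j ^ 2 else 0 := fun lo hi => by
    rw [dotProduct, sum_filter, ← sum_add_distrib, ← univ_inter Sᶜ, ← sum_ite_mem, ← sum_ite_mem,
      ← sum_add_distrib]
    refine sum_le_sum fun j _ => ?_
    have := sq_nonneg (z j)
    by_cases h : j ∈ S
    · simp [h]
    simp only [h, not_false_eq_true, true_and, mem_compl, if_true, ← not_lt]
    by_cases h1 : |z j| < lo <;> by_cases h2 : |z j| < hi <;> simp [h1, h2, ← pow_two, this]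
  have h : (∑ j ∈ Sᶜ, if b ≤ |z j| ∧ |z j| < a then z j ^ 2 else 0) +
      (∑ j ∈ Sᶜ, if c ≤ |z j| ∧ |z j| < b then z j ^ 2 else 0) ≤ ∑ j ∈ Sᶜ, z j ^ 2 := by
    rw [← sum_add_distrib]
    refine sum_le_sum fun j _ => ?_
    have := sq_nonneg (z j)
    split_ifs with h1 h2
    · exact absurd h1.1 h2.2.not_ge
    all_goals linarith
  rcases le_total (∑ j ∈ Sᶜ, if b ≤ |z j| ∧ |z j| < a then z j ^ 2 else 0)
    (∑ j ∈ Sᶜ, if c ≤ |z j| ∧ |z j| < b then z j ^ 2 else 0) with h' | h'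
  · exact ⟨b, a, .inl ⟨rfl, rfl⟩, by linarith [key b a]⟩
  · exact ⟨c, b, .inr ⟨rfl, rfl⟩, by linarith [key c b]⟩

theorem bt_mid (p : Par) {m : ℕ} (h : m < p.N) (i : ℕ) :
    p.bt (m + 1) (i + 2 ^ (p.N - (m + 1))) = p.bt m i := by
  rw [Par.bt, Par.bt, show p.N - m = p.N - (m + 1) + 1 by omega, pow_succ]; ring

theorem bt_le (p : Par) {m i0 i : ℕ} (h : m < p.N) (hi : p.Nx m i0 i) :
    i0 ≤ i ∧ i + 1 ≤ p.bt (m + 1) i ∧ p.bt (m + 1) i ≤ p.bt m i0 := by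
  have h1 := bt_mid p h i0
  have h2 : 1 ≤ 2 ^ (p.N - (m + 1)) := Nat.one_le_two_pow
  rw [Par.bt] at h1
  rcases hi with rfl | rfl <;> simp only [Par.bt] at h1 ⊢ <;> omega

theorem mode_le (J : Mx n) (y0 a0 q : V n) (k : ℕ) (v : ℕ → V n) (Δ : V n) :
    0 ≤ Mod J y0 a0 q k v Δ ∧ (mag (ising J y0) ⬝ᵥ Δ) ^ 2 / (mag (ising J y0) ⬝ᵥ mag (ising J y0)) ≤
      Mod J y0 a0 q k v Δ := by
  have h1 : 0 ≤ ∑ a ∈ range k, (v a ⬝ᵥ (q * (a0 * Δ - J *ᵥ Δ))) ^ 2 := sum_nonneg fun _ _ => sq_nonneg _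
  have h2 := div_nonneg (sq_nonneg (mag (ising J y0) ⬝ᵥ Δ)) (Eig.dot_self_nonneg (mag (ising J y0)))
  exact ⟨add_nonneg h1 h2, le_add_of_nonneg_left h1⟩

variable {p : Par}

theorem CZ_ge (h : p.Ok) : 1 ≤ p.CZ ∧ 4 * p.C1 * p.c1 + 1 / (2 * p.lq) ≤ p.CZ := by
  have h1 : 1 / p.lq ≤ p.CZ := (div_le_iff₀ h.lq0).2 h.CZ1
  have h2 : 1 ≤ 1 / p.lq := (le_div_iff₀ h.lq0).2 (by linarith [h.lq1])
  have h3 : 1 ≤ p.C * p.C0 ^ 2 := one_le_mul_of_one_le_of_one_le h.C1' (one_le_pow₀ h.C01)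
  have h4 : p.τ' ≤ 1 := by nlinarith [h.t1, h.t0, h.lq1]
  have h5 : p.τ' * p.lq ≤ 1 := mul_le_one₀ h4 h.lq0.le h.lq1
  have h6 : 1 / (2 * p.lq) = 1 / p.lq / 2 := by rw [div_div, mul_comm]
  exact ⟨h2.trans h1, by linarith [h.c1T]⟩

theorem g2_le (h : p.Ok) {m i0 i : ℕ} (hm : m < p.N) (hi : p.Nx m i0 i) :
    4 * p.g2 (m + 1) i + 2 * p.M (i + 1) ≤ p.g2 m i0 := by
  obtain ⟨-, h1, h2⟩ := bt_le p hm hi
  have a1 := h.Mm h1
  have a2 := h.Mm h2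
  have a3 : (1 : ℝ) ≤ 8 ^ (p.N - (m + 1)) := one_le_pow₀ (by norm_num)
  have a4 := h.M1 (p.bt (m + 1) i)
  rw [Par.g2, Par.g2, show p.N - m = p.N - (m + 1) + 1 by omega, pow_succ]
  nlinarith [mul_le_mul_of_nonneg_left a2 (zero_le_one.trans a3)]

theorem Λ_le (h : p.Ok) : (p.C / p.κ + 1 / p.c1 + (p.Cu / p.κ + 3 / 2 * p.Λ)) / 2 + p.CZ * p.CM ≤ p.Λ := by
  have a1 : 0 ≤ p.C / p.κ := div_nonneg (by linarith [h.C1']) h.κ0'.le
  have a2 : 0 ≤ 1 / p.c1 := div_nonneg zero_le_one h.c10.le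
  have a3 : 0 ≤ p.Cu / p.κ := div_nonneg (by linarith [h.Cu1]) h.κ0'.le
  linarith [h.hΛ]

theorem cl_up (hcl : ClStmt) {X : Cx n} (hX : X.Ok) {m i0 i : ℕ} {s : St n} {F : ℕ → Fy n}
    (hm : m < X.p.N) (hi : X.p.Nx m i0 i) (hs : X.In m i0 s F) :
    Cl (X.p.ec (m + 1) i) (X.p.ec (m + 1) i) s := by
  have a1 : X.p.e1 m i0 ≤ X.p.e1 (m + 1) i := hX.ok.ea (bt_le X.p hm hi).2.2
  have a2 : 0 ≤ X.p.e1 m i0 := (hX.ok.e0 _).le
  have a3 : (m : ℝ) ≤ X.p.N := Nat.cast_le.2 hm.le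
  have a4 : (1 : ℝ) ≤ X.p.N := Nat.one_le_cast.2 hX.ok.N1
  have a5 : (0 : ℝ) ≤ m := Nat.cast_nonneg m
  exact (hcl n X.D s hX.dok).1 _ _ _ _ hs.cl (mul_le_mul (by nlinarith) a1 a2 (sq_nonneg _))
    (mul_le_mul (by nlinarith) a1 a2 (sq_nonneg _))

theorem sz {X : Cx n} (hX : X.Ok) {m : ℕ} {s : St n} {y0 : V n} (hm : m < X.p.N)
    (hN : X.Near m s y0) : Sz X.D s (X.z.t m) ∧ nrm (s.y - y0) ^ 2 ≤ X.z.t m := by
  obtain ⟨-, -, h1, h2, h3⟩ := hN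
  have a1 := hX.cap.h1 m hm.le 0 (Nat.zero_le _)
  have a2 : 0 ≤ 4 * X.z.T m + lg n + 1 := (Eig.dot_self_nonneg _).trans h2
  have a3 : 1 ≤ X.p.C * X.p.C1 ^ 2 := one_le_mul_of_one_le_of_one_le hX.ok.C1' (one_le_pow₀ hX.ok.C11)
  have a4 : 4 * X.z.T m + lg n + 1 ≤ X.p.η 0 ^ 2 * X.z.t m := by nlinarith
  have a5 : 0 ≤ X.z.t m := nonneg_of_mul_nonneg_right (a2.trans a4) (pow_pos (hX.ok.h0 0) 2)
  have a6 := mul_le_of_le_one_left a5 (pow_le_one₀ (n := 2) (hX.ok.h0 0).le (hX.ok.h1 0))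
  have a7 := sq_nonneg s.L
  have a8 := sq_nonneg (nrm (s.y - y0))
  have a9 : (0 : ℝ) ≤ #s.S := Nat.cast_nonneg _
  exact ⟨⟨by linarith, by linarith, by linarith, by linarith⟩, by linarith⟩

/-- the martingale terms -/
theorem fu_le (hf : FuStmt) {X : Cx n} (hX : X.Ok) {m i0 i : ℕ} {s : St n} {F : ℕ → Fy n}
    (hm : m < X.p.N) (hF : ∀ m', XF (F m')) (hγ : X.p.γ (m + 1) i ≤ X.p.γ m i0) (hw : Wt (nu X.D s)) :
    X.p.γ m i0 * dG (X.O.G m) s.y ^ 2 + X.p.CZ * ((mean (nu X.D s) fun σ => X.O.zn m σ s.y) +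
      mean (nu X.D s) fun σ => F m σ s.y) +
      (mean (nu X.D s) fun σ => X.Fu (m + 1) m (X.Ft (m + 1) i F) σ s.y) ≤
      mean (nu X.D s) fun σ => X.Fu m m (X.Ft m i0 F) σ s.y := by
  obtain ⟨-, -, -, h1, h2, -⟩ := hf n X hX m i0 F hF
  rw [← mean_add, ← mean_const_mul, ← hw.mean_const (X.p.γ m i0 * dG (X.O.G m) s.y ^ 2), ← mean_add,
    ← mean_add, h1 m hm.le]
  refine hw.mean_mono fun σ => add_le_add ?_ (h2 (m + 1) i (m + 1) m (Nat.le_succ m) hγ σ s.y)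
  have a1 : 0 ≤ big n * far (X.O.G m) (X.z.T m) s.y :=
    mul_nonneg (by unfold big; positivity) (by unfold far; split_ifs <;> norm_num)
  simp only [Cx.Ft, if_neg hm.ne]
  linarith

/-- one window -/
theorem one (hc : CrudeStmt) (hcl : ClStmt) (hf : FuStmt) (hT : BrTStmt) (hB : BrBStmt) {X : Cx n}
    (hX : X.Ok) {m i0 i : ℕ} {s : St n} {F : ℕ → Fy n} {y0 pv a0 : V n} (m1 : 1 ≤ m) (mN : m < X.p.N)
    (hV : X.p.Val m i0) (hi : X.p.Nx m i0 i) (hU : X.Upd m i) (hs : X.In m i0 s F)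
    (hN : X.Near m s y0) (hG : X.p.Val (m + 1) i → Good X.p X.z X.D.J X.O m i y0 pv a0) {zs : V n}
    (hz : zs = fun j => if j ∉ s.S ∧ |zv X.D.J pv a0 (Del X.D s) j| < X.p.η (X.p.bt (m + 1) i) then
      zv X.D.J pv a0 (Del X.D s) j else 0)
    (hb : ∑ j ∈ s.Sᶜ, zv X.D.J pv a0 (Del X.D s) j ^ 2 ≤ 2 * (zs ⬝ᵥ zs +
      ∑ j ∈ univ.filter fun j => j ∉ s.S ∧ X.p.η i ≤ |zv X.D.J pv a0 (Del X.D s) j|,
        zv X.D.J pv a0 (Del X.D s) j ^ 2)) : X.ActAt m i0 s F := by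
  have h := hX.ok
  obtain ⟨i1, -, i3⟩ := bt_le X.p mN hi
  have hV' : X.p.Val (m + 1) i := i3.trans hV
  obtain ⟨pA, al, q, k, v, ε, Ad, φ, e0, e1, hA, hL, t1, t2, hb', hM⟩ := hG hV'
  have b1 := hT n X hX m i0 i s F y0 m1 mN hV' hi hU hs hN pv pA a0 al q zs k v ε e0 e1 hA hL t1 hz
  have b2 := hB n X hX m i0 i s F y0 m1 mN hV' hi hU hs hN pv pA a0 al q Ad φ
    (univ.filter fun j => j ∉ s.S ∧ X.p.η i ≤ |zv X.D.J pv a0 (Del X.D s) j|) (fun j => (hA j).1)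
    hL.hp (fun j => (hL.ha j).1) t2 hb' fun j => by simp
  obtain ⟨c1, -, -, -, -, c2, c3, c4, -, c5, -, -, c6, -⟩ := hc n X.D s hX.dok
  have b3 := hL.pos s.S _ c6
  have b4 := hM X.D s i0 F hX.dok rfl hX.hP hi (cl_up hcl hX mN hi hs) hs.pv (sz hX mN hN).1
    (sz hX mN hN).2
  obtain ⟨d1, d2⟩ := mode_le X.D.J y0 a0 q k v (Del X.D s)
  obtain ⟨z1, z2⟩ := CZ_ge h
  have g1 := h.lγ m i mN
  have g2 := h.γa m i1
  have g3 := h.γ0 (m + 1) i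
  have g4 := h.ω0 m i
  have g5 : X.p.γ (m + 1) i ≤ X.p.CP * X.p.γ (m + 1) i := le_mul_of_one_le_left g3.le h.CP1
  have g6 : X.p.ω m i ≤ X.p.CZ * X.p.ω m i := le_mul_of_one_le_left g4.le z1
  have b5 := fu_le hf hX (i := i) mN hs.xf (by linarith) c1.hv
  have n1 := Eig.dot_self_nonneg (del s)
  have n2 := Eig.dot_self_nonneg (Del X.D s)
  have n3 : 0 ≤ Bd X.D s := by unfold Bd; positivity
  have n4 : Bb X.D s y0 ≤ Bd X.D s + dG (X.O.G m) s.y ^ 2 + 1 := by unfold Bb; linarith [hN.2.1]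
  have n5 : 0 ≤ Bb X.D s y0 := add_nonneg n3 (sq_nonneg _)
  have k1 : (8 : ℝ) ≤ 8 * X.p.C * 8 ^ X.p.N * X.p.M (2 ^ X.p.N) * X.z.K := by
    have := one_le_mul_of_one_le_of_one_le (one_le_mul_of_one_le_of_one_le
      (one_le_mul_of_one_le_of_one_le h.C1' (one_le_pow₀ (n := X.p.N) (show (1 : ℝ) ≤ 8 by norm_num)))
      (h.M1 (2 ^ X.p.N))) hX.cap.K1
    linarith
  have k2 : X.R m = X.R (m + 1) + X.z.Kb := by simp only [Cx.R, Nat.cast_add, Nat.cast_one]; ring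
  have k3 := hX.cap.Kb
  have c10 := h.c10
  have C10 : 0 ≤ X.p.C1 := by linarith [h.C11]
  have p1 := mul_le_mul_of_nonneg_left hb (show 0 ≤ 8 * X.p.C1 * X.p.c1 by positivity)
  have p2 := mul_le_mul_of_nonneg_left (b3.trans (add_le_add_right
    (mul_le_mul_of_nonneg_left d2 C10) _)) (show 0 ≤ 8 * X.p.c1 by positivity)
  have p3 := mul_le_mul_of_nonneg_right z2 d1
  have p4 := mul_le_mul_of_nonneg_left b4 (zero_le_one.trans z1)
  have p5 := mul_le_mul_of_nonneg_right (Λ_le h) n1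
  have p6 := mul_le_mul_of_nonneg_right (show 4 * X.p.g2 (m + 1) i + X.p.M (i + 1) +
    X.p.CZ * X.p.CN m i ≤ X.p.g2 m i0 by linarith [g2_le h mN hi, (h.lM m i mN).2.2.1]) c5
  have p7 := mul_le_mul_of_nonneg_right (show 15 * X.p.CP * X.p.γ (m + 1) i + X.p.ω m i +
    X.p.CZ * X.p.ω m i ≤ X.p.γ m i0 by linarith) n5
  have p8 := mul_le_mul_of_nonneg_right (show 15 * X.p.CP * X.p.γ (m + 1) i + X.p.ω m i ≤
    X.p.γ m i0 by linarith) c4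
  have p9 := mul_le_mul_of_nonneg_left n4 (h.γ0 m i0).le
  have q1 : Mod X.D.J y0 a0 q k v (Del X.D s) / X.p.lq =
      2 * (1 / (2 * X.p.lq) * Mod X.D.J y0 a0 q k v (Del X.D s)) := by
    have := h.lq0; field_simp
  have q2 := h.γ1 m i0
  have q3 := mul_nonneg c10.le n2
  simp only [Cx.Br] at b1 b2
  simp only [Cx.ActAt, Pot, Cx.cf]
  linarith

end Act59

open Act59

theorem actGlue : ActGlue := by
  intro hc hcl hf hp hT hB n X hX m i0 m1 mN hV hU s F hs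
  rcases hp n X hX m i0 s F m1 mN.le hs with h | ⟨y0, hN⟩
  · exact h
  obtain ⟨pv, a0, hG⟩ := hX.es.good m m1 mN y0 hN.1
  obtain ⟨lo, hi, ⟨rfl, rfl⟩ | ⟨rfl, rfl⟩, h⟩ := bands s.S (zv X.D.J pv a0 (Del X.D s)) (X.p.η i0)
    (X.p.η (X.p.bt (m + 1) i0)) (X.p.η (X.p.bt (m + 1) (X.p.bt (m + 1) i0)))
  · exact one hc hcl hf hT hB hX m1 mN hV (.inl rfl) (hU _ (.inl rfl)) hs hN (hG _) rfl h
  · exact one hc hcl hf hT hB hX m1 mN hV (.inr rfl) (hU _ (.inr rfl)) hs hN (hG _) rfl h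

end Crest.Agent.T157.S1

end
end

-- ▼ part T157/S1BrB_6
section

/-!
# Row 157, block B/S1 (helper6): the branch B
-/

set_option autoImplicit false

noncomputable section

namespace Crest.Agent.T157.S1

open Real Matrix Finset
open Crest.Agent.T157.E Crest.Agent.T157.SL
open Crest.Agent.T157.Eig (nrm opn nrm_sq nrm_nonneg)
open Crest.Agent.T157.S3 (V Mx)

namespace BrB6

variable {n : ℕ}

lemma zv_sq {J : Mx n} {pv a0 Δ : V n} {C1 : ℝ} (h1 : 1 ≤ C1) (hp : ∀ j, 0 < pv j ∧ pv j ≤ 1)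
    (ha : ∀ j, pv j * |a0 j| ≤ C1) (j : Fin n) :
    zv J pv a0 Δ j ^ 2 ≤ 2 * C1 ^ 2 * (Δ j ^ 2 + (J *ᵥ Δ) j ^ 2) := by
  have a : (pv j * a0 j) ^ 2 ≤ C1 ^ 2 := sq_le_sq' (by
    nlinarith [neg_abs_le (a0 j), ha j, (hp j).1]) (by nlinarith [le_abs_self (a0 j), ha j, (hp j).1])
  have b : pv j ^ 2 ≤ C1 ^ 2 := pow_le_pow_left₀ (hp j).1.le ((hp j).2.trans h1) 2
  have c := mul_le_mul_of_nonneg_right a (sq_nonneg (Δ j))
  have d := mul_le_mul_of_nonneg_right b (sq_nonneg ((J *ᵥ Δ) j))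
  simp only [zv, Pi.mul_apply, Pi.sub_apply]
  nlinarith [sq_nonneg (pv j * a0 j * Δ j + pv j * (J *ᵥ Δ) j)]

lemma sum_le {J : Mx n} (hJ : opn J ≤ 3) (Δ : V n) (B : Finset (Fin n)) :
    ∑ j ∈ B, (Δ j ^ 2 + (J *ᵥ Δ) j ^ 2) ≤ 10 * (Δ ⬝ᵥ Δ) := by
  have h := pow_le_pow_left₀ (nrm_nonneg _) ((Eig.nrm_mulVec_le J Δ).trans
    (mul_le_mul_of_nonneg_right hJ (nrm_nonneg _))) 2
  rw [mul_pow, nrm_sq, nrm_sq] at h
  refine (sum_le_univ_sum_of_nonneg fun j => by positivity).trans ?_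
  simp only [sum_add_distrib, dotProduct, ← sq] at h ⊢
  linarith

lemma e1_le {p : Par} (o : p.Ok) {m i0 i : ℕ} (hm : m < p.N) (h : p.Nx m i0 i) :
    p.e1 m i0 ≤ p.e1 (m + 1) i := o.ea (by
  have e2 : 2 ^ (p.N - m) = 2 * 2 ^ (p.N - (m + 1)) := by rw [← pow_succ']; congr 1; omega
  simp only [Par.bt, Par.Nx] at h ⊢
  omega)

lemma one_le_CZ {p : Par} (o : p.Ok) : 1 ≤ p.CZ := by
  nlinarith [o.CZ1, o.lq0, o.lq1, nonneg_of_mul_nonneg_left (zero_le_one.trans o.CZ1) o.lq0]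

end BrB6

open BrB6

set_option maxHeartbeats 1600000 in
theorem brBGlue : BrBGlue := by
  intro hC hL hF n X h m i0 i s F y0 m1 mN hV hN hU hI hn pv pA a0 al q Ad φ B p0 hp ha hA hB eB
  have o := h.ok
  obtain ⟨hp', -, -, -, -, y1, u1, u6, -, ex0, gb, -⟩ := hC n X.D s h.dok
  obtain ⟨g0, -, n1, n2, n3⟩ := hn
  have bas := h.es.bas m m1 mN.le y0 g0
  have e0 := (o.e0 (X.p.bt (m + 1) i)).le
  have m1' : (1 : ℝ) ≤ m := by exact_mod_cast m1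
  have mN' : (m : ℝ) ≤ X.p.N := by exact_mod_cast mN.le
  have cl1 : Cl (m * X.p.e1 (m + 1) i) (m ^ 2 * X.p.e1 (m + 1) i) s :=
    (hL n X.D s h.dok).1 _ _ _ _ hI.cl (by gcongr; exact e1_le o mN hN) (by gcongr; exact e1_le o mN hN)
  have cl2 : Cl (X.p.ec (m + 1) i) (X.p.ec (m + 1) i) s := (hL n X.D s h.dok).1 _ _ _ _ cl1
    (mul_le_mul_of_nonneg_right (by nlinarith) e0) (mul_le_mul_of_nonneg_right (by gcongr) e0)
  have b1 := (h.lf.b1 n X.D s y0 _ _ h.dok cl1 bas).2.1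
  have h1 := h.cap.h1 m mN.le i (le_trans (Nat.le_add_right _ _) hV)
  obtain ⟨h4, h5⟩ := h.cap.h4 m mN
  have d0 : 0 ≤ del s ⬝ᵥ del s := dot_self_nonneg _
  have S0 : (0 : ℝ) ≤ #s.S := Nat.cast_nonneg _
  have B0 : (0 : ℝ) ≤ #B := Nat.cast_nonneg _
  have L0 := sq_nonneg s.L
  have Y0 := sq_nonneg (nrm (s.y - y0))
  have eb : Bb X.D s y0 = Hy X.D s + del s ⬝ᵥ del s + s.L ^ 2 + mean (nu X.D s) (U X.D s) + #s.S +
    nrm (s.y - y0) ^ 2 := rfl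
  have C1 := o.C11
  have C0 := o.C1'
  have CP := o.CP1
  have η0 := o.h0 i
  have γ0 := o.γ0 (m + 1) i
  have ω0 := o.ω0 m i
  have CZ := one_le_CZ o
  obtain ⟨Q, hQ⟩ : ∃ Q, Q = 4 * X.z.T m + lg n + 1 := ⟨_, rfl⟩
  rw [← hQ] at n1 n2 h1
  have Q0 : 0 ≤ Q := d0.trans n2
  have q1 : Q ≤ 40 * X.p.C * X.p.C1 ^ 2 * Q :=
    le_mul_of_one_le_left Q0 (by nlinarith [one_le_pow₀ C1 (n := 2)])
  have t0 : 0 ≤ X.z.t m := nonneg_of_mul_nonneg_right (Q0.trans (q1.trans h1)) (by positivity)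
  have q2 : Q ≤ X.z.t m :=
    q1.trans (h1.trans (mul_le_of_le_one_left t0 (pow_le_one₀ η0.le (o.h1 i))))
  set Z := ∑ j ∈ B, zv X.D.J pv a0 (Del X.D s) j ^ 2 with hZ
  set Y := ∑ j ∈ B, (Del X.D s j ^ 2 + (X.D.J *ᵥ Del X.D s) j ^ 2) with hY
  have z1 : Z ≤ 2 * X.p.C1 ^ 2 * Y := by
    rw [hY, mul_sum]; exact sum_le_sum fun j _ => zv_sq C1 hp ha j
  have z2 : X.p.η i ^ 2 * #B ≤ Z := by
    rw [mul_comm, ← nsmul_eq_mul]
    exact card_nsmul_le_sum _ _ _ fun j hj => by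
      rw [← sq_abs (zv _ _ _ _ j)]; exact pow_le_pow_left₀ η0.le ((eB j).1 hj).2 2
  have z0 : 0 ≤ Z := le_trans (by positivity) z2
  have Bt : (#B : ℝ) ≤ X.z.t m := by
    refine le_of_mul_le_mul_left (z2.trans (z1.trans (le_trans ?_ h1))) (by positivity)
    have := (sum_le h.dok.op (Del X.D s) B).trans (mul_le_mul_of_nonneg_left (b1.trans
      (mul_le_mul_of_nonneg_left (show _ ≤ 2 * Q by linarith) (by linarith))) (by norm_num))
    refine (mul_le_mul_of_nonneg_left this (by positivity)).trans_eq (by ring)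
  have lγ := o.lγ m i mN
  have γ1 : X.p.γ (m + 1) i ≤ X.p.CP * X.p.γ (m + 1) i := le_mul_of_one_le_left γ0.le CP
  have M0 := o.M1 (X.p.bt (m + 1) i)
  have g2 : 0 ≤ X.p.g2 (m + 1) i := by unfold Par.g2; positivity
  have g10 := o.g10
  have key := hB X.D s B (fun σ => 4 * X.p.g2 (m + 1) i * s.G σ ^ 2 +
      X.Fu (m + 1) m (X.Ft (m + 1) i F) σ s.y) (3 * X.p.γ (m + 1) i) (X.p.gg m) (X.z.T m) (X.z.T (m + 1))
    (X.R (m + 1) + 6 * X.p.C * 8 ^ X.p.N * X.p.M (2 ^ X.p.N) * X.z.K +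
      (3 / 2 * X.p.Λ + 9 / 2 * X.p.γ (m + 1) i) * (del s ⬝ᵥ del s) +
      6 * X.p.γ (m + 1) i * (s.L ^ 2 + (#s.S + #B) + nrm (s.y - y0) ^ 2))
    h.dok rfl h.hP h.hη h.hθ cl2 ⟨by linarith, by linarith, by linarith, by linarith⟩ (by linarith)
    (disjoint_left.2 fun j hj => ((eB j).1 hj).1) Bt
    (fun σ => add_nonneg (by positivity)
      (((hF n X h (m + 1) i F hI.xf).2.1 (m + 1) m m.le_succ).2 σ s.y))
    (by positivity) (by nlinarith [o.γ1 m i, mul_pos (zero_lt_one.trans_le CZ) ω0])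
    (by unfold Par.gg; positivity)
    (le_trans (by gcongr; exact log_nonneg (by linarith [(n.cast_nonneg : (0 : ℝ) ≤ n)])) h5)
    fun sg x' w u s' _ ad e => by
      obtain ⟨t, tk, e'⟩ := hA w u ad
      have cu : (#(s.S ∪ B) : ℝ) ≤ #s.S + #B := by exact_mod_cast card_union_le _ _
      have := hU (s.pin B sg x') s' F i0 y0 pA al q w u t hN bas p0 tk hI.pv hI.xf
        ⟨cl1.L0, cl1.gr, cl1.rg, cl1.ex, cl1.ts⟩ hI.hL (cu.trans (by linarith [hI.hS])) (n2.trans q2)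
        (show nrm (s.y - y0) ^ 2 ≤ _ by linarith) (e' ▸ e)
      have w1 := mul_le_mul_of_nonneg_right (o.lW m i mN) (sq_nonneg u)
      have w2 := mul_le_mul_of_nonneg_left cu γ0.le
      simp only [St.pin, del] at this ⊢
      linarith
  rw [mean_add, show (mean (nu X.D s) fun σ => 4 * X.p.g2 (m + 1) i * s.G σ ^ 2) =
    4 * X.p.g2 (m + 1) i * Ex X.D s from mean_const_mul _ _ _] at key
  have k1 : 16 * X.p.C1 * X.p.c1 * Z + (X.p.ω m i + 9 * X.p.γ (m + 1) i * X.p.CP) * #B ≤ X.p.c0 * Y := by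
    refine le_of_mul_le_mul_left ?_ (show 0 < 4 * X.p.C1 ^ 2 by positivity)
    have a1 := mul_le_mul_of_nonneg_right (o.lB m i mN) B0
    have a2 := mul_le_mul_of_nonneg_left z2 o.c00.le
    have a3 := mul_le_mul_of_nonneg_left z1 o.c00.le
    have a4 := mul_le_mul_of_nonneg_right o.c1B z0
    linarith
  have k2 : X.z.K ≤ X.p.C * 8 ^ X.p.N * X.p.M (2 ^ X.p.N) * X.z.K :=
    le_mul_of_one_le_left (zero_le_one.trans h.cap.K1)
      (one_le_mul_of_one_le_of_one_le (one_le_mul_of_one_le_of_one_le C0 (one_le_pow₀ (by norm_num))) (o.M1 _))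
  have k3 : X.p.CN m i * Ex X.D s ≤ X.p.M (i + 1) * Ex X.D s := mul_le_mul_of_nonneg_right
    ((le_mul_of_one_le_left (zero_le_one.trans (o.CN1 m i)) CZ).trans (o.lM m i mN).2.2.1) ex0
  have b0 : 0 ≤ Bb X.D s y0 := by linarith
  have k4 := mul_le_mul_of_nonneg_right γ1 b0
  have k5 := mul_le_mul_of_nonneg_right γ1 u6
  have k6 := mul_le_mul_of_nonneg_right γ1 B0
  have k7 := mul_le_mul_of_nonneg_left (show del s ⬝ᵥ del s + s.L ^ 2 + #s.S + nrm (s.y - y0) ^ 2 ≤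
    Bb X.D s y0 by linarith) γ0.le
  have k8 := mul_nonneg γ0.le d0
  have k9 := mul_nonneg γ0.le b0
  have k10 := mul_nonneg γ0.le u6
  have k11 := mul_nonneg ω0.le u6
  have K1 := h.cap.K1
  unfold Cx.Br
  linarith

end Crest.Agent.T157.S1
end
end

-- ▼ part T157/S1BrT_68
section

/-!
# Row 157, part B, block S1 (helper68): the branch T of the act
-/

set_option autoImplicit false

noncomputable section

namespace Crest.Agent.T157.S1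

open MeasureTheory Real Matrix Finset Filter
open Crest.Agent.T157.E Crest.Agent.T157.SL
open Crest.Agent.T157.Eig (nrm opn)
open Crest.Agent.T157.S3 (V Mx)
open Crest.Agent.T157.Rv (Warm)

namespace B68

variable {n : ℕ}

lemma dot0 (u : V n) : 0 ≤ u ⬝ᵥ u := by rw [← Eig.nrm_sq]; positivity

lemma lin (w f g : Cube n → ℝ) (c : ℝ) :
    (mean w fun x => c * f x + g x) = c * mean w f + mean w g := by
  simp only [mean, mul_add, sum_add_distrib, mul_sum]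
  congr 1
  exact sum_congr rfl fun x _ => by ring

lemma mod0 (J : Mx n) (y0 a0 q : V n) (k : ℕ) (v : ℕ → V n) (Δ : V n) : 0 ≤ Mod J y0 a0 q k v Δ :=
  add_nonneg (sum_nonneg fun _ _ => sq_nonneg _) (div_nonneg (sq_nonneg _) (dot0 _))

/-- the threshold vector is at most `20 C1 ^ 2 |Δ| ^ 2` -/
lemma zv_le {J : Mx n} {pv a0 : V n} {C1 : ℝ} (Δ : V n) (hJ : opn J ≤ 3) (hC : 1 ≤ C1)
    (hp : ∀ j, 0 < pv j ∧ pv j ≤ 1) (ha : ∀ j, pv j * |a0 j| ≤ C1) :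
    ∑ j, zv J pv a0 Δ j ^ 2 ≤ 20 * C1 ^ 2 * (Δ ⬝ᵥ Δ) := by
  have h1 : ∀ j, zv J pv a0 Δ j ^ 2 ≤ 2 * C1 ^ 2 * (Δ j * Δ j) + 2 * ((J *ᵥ Δ) j * (J *ᵥ Δ) j) := by
    intro j
    have e : zv J pv a0 Δ j = pv j * a0 j * Δ j - pv j * (J *ᵥ Δ) j := by
      simp only [zv, Pi.mul_apply, Pi.sub_apply]; ring
    have a1 : (pv j * a0 j) ^ 2 ≤ C1 ^ 2 := by
      rw [← sq_abs (pv j * a0 j), abs_mul, abs_of_pos (hp j).1]
      exact pow_le_pow_left₀ (mul_nonneg (hp j).1.le (abs_nonneg _)) (ha j) 2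
    have a2 : pv j ^ 2 ≤ 1 := pow_le_one₀ (hp j).1.le (hp j).2
    have a3 := mul_le_mul_of_nonneg_right a1 (sq_nonneg (Δ j))
    have a4 := mul_le_mul_of_nonneg_right a2 (sq_nonneg ((J *ᵥ Δ) j))
    rw [e]
    nlinarith only [a3, a4, sq_nonneg (pv j * a0 j * Δ j + pv j * (J *ᵥ Δ) j)]
  have h2 : (J *ᵥ Δ) ⬝ᵥ (J *ᵥ Δ) ≤ 9 * (Δ ⬝ᵥ Δ) := by
    have a := pow_le_pow_left₀ (Eig.nrm_nonneg _) ((Eig.nrm_mulVec_le J Δ).trans
      (mul_le_mul_of_nonneg_right hJ (Eig.nrm_nonneg _))) 2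
    rw [mul_pow, Eig.nrm_sq, Eig.nrm_sq] at a
    linarith
  have h3 : ∑ j, zv J pv a0 Δ j ^ 2 ≤ 2 * C1 ^ 2 * (Δ ⬝ᵥ Δ) + 2 * ((J *ᵥ Δ) ⬝ᵥ (J *ᵥ Δ)) := by
    refine (sum_le_sum fun j _ => h1 j).trans (le_of_eq ?_)
    simp only [dotProduct, sum_add_distrib, mul_sum]
  have h4 : 1 ≤ C1 ^ 2 := one_le_pow₀ hC
  have h5 := mul_le_mul_of_nonneg_right h4 (dot0 Δ)
  linarith

lemma bt_le (p : Par) {m i0 i : ℕ} (hm : m < p.N) (h : p.Nx m i0 i) : p.bt (m + 1) i ≤ p.bt m i0 := by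
  have e : 2 ^ (p.N - m) = 2 * 2 ^ (p.N - (m + 1)) := by
    rw [show p.N - m = p.N - (m + 1) + 1 by omega, pow_succ]; ring
  unfold Par.bt
  rcases h with h | h <;> rw [h, e] <;> omega

lemma bt_ge (p : Par) (m i : ℕ) : i + 1 ≤ p.bt m i :=
  Nat.add_le_add_left Nat.one_le_two_pow i

lemma cz1 {p : Par} (h : p.Ok) : 1 ≤ p.CZ := by
  have a := h.CZ1
  have b := h.lq0
  have c := h.lq1
  by_contra hc
  rw [not_le] at hc
  nlinarith only [a, b, c, hc]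

lemma lb_mem {p : Par} (h : p.Ok) {m : ℕ} (hm : m ≤ p.N) : 1 / 2 ≤ p.lb m ∧ p.lb m ≤ 1 := by
  have k1 : (1 : ℝ) ≤ 1 + p.κ := by linarith [h.κ0']
  have a : (1 + p.κ) ^ (2 * m + 1) ≤ 2 := (pow_le_pow_right₀ k1 (by omega)).trans h.rl
  have b : 1 ≤ (1 + p.κ) ^ (2 * m + 1) := one_le_pow₀ k1
  refine ⟨?_, inv_le_one_of_one_le₀ b⟩
  rw [one_div]
  exact inv_anti₀ (by linarith) a

lemma lb_l {p : Par} (h : p.Ok) (m : ℕ) : p.lb m * (1 + p.κ) = p.l m := by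
  have k1 : (1 + p.κ) ≠ 0 := by linarith [h.κ0']
  unfold Par.lb Par.l
  field_simp
  ring

lemma lb_ah {p : Par} (h : p.Ok) (m : ℕ) : p.lb m * ((1 - 2 * p.η0) * p.ah m) = p.am m := by
  have k1 : (1 + p.κ) ≠ 0 := by linarith [h.κ0']
  have k2 : (1 - 2 * p.η0) ≠ 0 := by linarith [h.η01]
  unfold Par.lb Par.ah Par.am
  field_simp
  ring

lemma ah_mem {p : Par} (h : p.Ok) {m : ℕ} (hm : m ≤ p.N) : 0 ≤ p.ah m ∧ p.ah m ≤ 1 := by
  have k1 : (1 : ℝ) ≤ 1 + p.κ := by linarith [h.κ0']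
  have k2 : 0 < 1 - 2 * p.η0 := by linarith [h.η01]
  have a0 : 0 ≤ p.a := by linarith [h.a00, h.a0a]
  refine ⟨div_nonneg (by positivity) k2.le, (div_le_one k2).2 ?_⟩
  have a := mul_le_mul_of_nonneg_left (pow_le_pow_right₀ k1 (by omega : 3 * m + 1 ≤ 3 * p.N + 1)) a0
  have b := mul_le_mul_of_nonneg_right h.ab1 k2.le
  linarith [h.ra]

lemma am_mono {p : Par} (h : p.Ok) (m : ℕ) : p.am m ≤ p.am (m + 1) :=
  mul_le_mul_of_nonneg_left (pow_le_pow_right₀ (by linarith [h.κ0']) (Nat.le_succ m))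
    (by linarith [h.a00, h.a0a])

/-- the small parameter condition of the tilt and of the increments -/
lemma mx_ec {p : Par} (h : p.Ok) {m i : ℕ} {x : ℝ} (x0 : 0 ≤ x) (hx : x ≤ p.M (i + 1)) :
    x ^ 2 * p.ec m i ≤ 1 := by
  have a1 : x ^ 2 ≤ p.M (p.bt m i) ^ 2 := pow_le_pow_left₀ x0 (hx.trans (h.Mm (bt_ge p m i))) 2
  have a2 := h.le (p.bt m i)
  have e0 := (h.e0 (p.bt m i)).le
  have a3 : (p.N : ℝ) ^ 2 ≤ 8 * p.C * p.CZ * (p.N + 1) ^ 2 * 8 ^ p.N := by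
    have b1 : (p.N : ℝ) ^ 2 ≤ (p.N + 1) ^ 2 := pow_le_pow_left₀ (by positivity) (by linarith) 2
    have b2 : (1 : ℝ) ≤ 8 * p.C * p.CZ := by nlinarith only [h.C1', cz1 h]
    have b3 : (1 : ℝ) ≤ 8 ^ p.N := one_le_pow₀ (by norm_num)
    calc (p.N : ℝ) ^ 2 ≤ 1 * (p.N + 1) ^ 2 * 1 := by linarith
      _ ≤ _ := mul_le_mul (mul_le_mul_of_nonneg_right b2 (by positivity)) b3 zero_le_one
          (by positivity)
  calc x ^ 2 * p.ec m i = x ^ 2 * (p.N : ℝ) ^ 2 * p.ee (p.bt m i) := by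
        unfold Par.ec Par.e1; ring
    _ ≤ p.M (p.bt m i) ^ 2 * (8 * p.C * p.CZ * (p.N + 1) ^ 2 * 8 ^ p.N) * p.ee (p.bt m i) :=
        mul_le_mul_of_nonneg_right (mul_le_mul a1 a3 (by positivity) (by positivity)) e0
    _ ≤ 1 := by linarith

lemma lg0 (n : ℕ) : 0 ≤ lg n :=
  mul_nonneg (by norm_num) (log_nonneg (by have := n.cast_nonneg (α := ℝ); linarith))

/-- `40 C C1 ^ 2 (4 T + lg + 1) ≤ t` -/
lemma cap_t {p : Par} {z : Cap} (h : p.Ok) (hz : z.Ok p n) {m : ℕ} (hm : m ≤ p.N) :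
    40 * p.C * p.C1 ^ 2 * (4 * z.T m + lg n + 1) ≤ z.t m ∧ 4 * z.T m + lg n + 1 ≤ z.t m := by
  have a := hz.h1 m hm 0 (Nat.zero_le _)
  have b : 1 ≤ 4 * z.T m + lg n + 1 := by linarith [(hz.Tn m hm).1, lg0 n]
  have c : (1 : ℝ) ≤ 40 * p.C * p.C1 ^ 2 := by
    nlinarith only [h.C1', one_le_pow₀ (n := 2) h.C11]
  have d := mul_le_mul_of_nonneg_right c (by linarith : 0 ≤ 4 * z.T m + lg n + 1)
  have e : p.η 0 ^ 2 ≤ 1 := pow_le_one₀ (h.h0 0).le (h.h1 0)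
  have f : 0 ≤ z.t m := by
    by_contra hc
    rw [not_le] at hc
    nlinarith only [a, b, d, hc, sq_nonneg (p.η 0)]
  have g := mul_le_mul_of_nonneg_right e f
  exact ⟨by linarith, by linarith⟩

/-- the gain -/
lemma gain {μ τ lq Z Md c E D X : ℝ} (μ0 : 1 / 4 ≤ μ) (μ1 : μ ≤ 1) (τ0 : 0 < τ) (τ1 : τ ≤ 1)
    (l0 : 0 < lq) (Z0 : 0 ≤ Z) (M0 : 0 ≤ Md) (D0 : 0 ≤ D) (E0 : 0 ≤ E) (hE : E ≤ c)
    (hX : τ * (lq / 2 * Z - Md / lq - E * (Z + D)) ≤ X) :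
    τ * lq / 8 * Z - Md / lq - c * (Z + D) ≤ μ * X := by
  have a := mul_le_mul_of_nonneg_left hX (by linarith : 0 ≤ μ)
  have b := mul_le_mul_of_nonneg_right μ0 (by positivity : 0 ≤ τ * (lq / 2 * Z))
  have m1 : μ * τ ≤ 1 := mul_le_one₀ μ1 τ0.le τ1
  have c1 := mul_le_mul_of_nonneg_right m1 (by positivity : 0 ≤ Md / lq)
  have d := mul_le_mul_of_nonneg_right m1 (by positivity : 0 ≤ E * (Z + D))
  have e := mul_le_mul_of_nonneg_right hE (by positivity : 0 ≤ Z + D)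
  nlinarith only [a, b, c1, d, e]

/-- the costs proportional to `Z` -/
lemma cost {lb C C0 gP τ lq Z ω g CP W u c1 C1 : ℝ} (l1 : lb ≤ 1) (hC : 1 ≤ C)
    (hC0 : 1 ≤ C0) (g1 : gP ≤ 1) (τ0 : 0 < τ) (τ1 : τ ≤ 1) (q0 : 0 < lq) (Z0 : 0 ≤ Z) (ω0 : 0 < ω)
    (ω1 : ω ≤ 1) (W0 : 0 ≤ W) (hW : W ≤ C0 * τ ^ 2 * Z + ω ^ 4 * u ^ 2) (hu : u ^ 2 = CP ^ 2 * τ ^ 2 * Z)
    (t1 : 128 * C * C0 ^ 2 * τ ≤ lq) (lω : 2 * C * C0 * ω ≤ 1) (lT : 64 * (2 * ω + g) * CP ^ 2 ≤ lq)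
    (hC1 : 1 ≤ C1) (c0 : 0 < c1) (cT : 256 * C1 * c1 ≤ τ * lq) :
    lb * (C * C0 * W) + gP * W + lb * (ω * u ^ 2) + g * u ^ 2 + c1 * Z + 16 * C1 * c1 * Z ≤
      τ * lq / 8 * Z := by
  have cc : 1 ≤ C * C0 := one_le_mul_of_one_le_of_one_le hC hC0
  have a1 : lb * (C * C0 * W) ≤ C * C0 * W := mul_le_of_le_one_left (by positivity) l1
  have a2 : gP * W ≤ C * C0 * W := mul_le_mul_of_nonneg_right (g1.trans cc) W0
  have a3 := mul_le_mul_of_nonneg_left hW (by positivity : 0 ≤ 2 * (C * C0))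
  have a4 := mul_le_mul_of_nonneg_right t1 (by positivity : 0 ≤ τ * Z)
  have a5 := mul_le_mul_of_nonneg_right lω (by positivity : 0 ≤ ω ^ 3 * u ^ 2)
  have a6 : ω ^ 3 * u ^ 2 ≤ ω * u ^ 2 :=
    mul_le_mul_of_nonneg_right (pow_le_of_le_one ω0.le ω1 (by norm_num)) (sq_nonneg u)
  have a7 : lb * (ω * u ^ 2) ≤ ω * u ^ 2 := mul_le_of_le_one_left (by positivity) l1
  have a8 : 64 * ((2 * ω + g) * u ^ 2) ≤ τ * lq * Z := by
    have b1 := mul_le_mul_of_nonneg_right lT (by positivity : 0 ≤ τ ^ 2 * Z)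
    have b2 := mul_le_mul_of_nonneg_right τ1 (by positivity : 0 ≤ τ * lq * Z)
    rw [hu]
    nlinarith only [b1, b2]
  have a9 := mul_le_mul_of_nonneg_right cT Z0
  have a10 := mul_le_mul_of_nonneg_right hC1 (by positivity : 0 ≤ c1 * Z)
  have a11 : 0 ≤ τ * lq * Z := by positivity
  nlinarith only [a1, a2, a3, a4, a5, a6, a7, a8, a9, a10, a11]

end B68

open B68

theorem brTGlue : BrTGlue := by
  intro hCr hCl _ n X hX m i0 i s F y0 m1 mN hV hN hU hI hNe pv pA a0 al q zs k v ε ε0 ε1 hpA hL hT hz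
  have hp := hX.ok
  have hc := hX.cap
  obtain ⟨-, -, -, -, -, Hy0, U0, U60, -, Ex0, HD, -, hΔ, -⟩ := hCr n X.D s hX.dok
  obtain ⟨yG, -, n1, n2, Dz0⟩ := hNe
  have hB : Bas X.D.J X.p.K0 X.p.κ0 y0 := hX.es.bas m m1 mN.le y0 yG
  obtain ⟨ct1, ct2⟩ := cap_t hp hc mN.le
  have T0 := (hc.Tn m mN.le).1
  have L0 := lg0 n
  have d0 := dot0 (del s)
  have Δ0 := dot0 (Del X.D s)
  have Z0 := dot0 zs
  have sL := sq_nonneg s.L
  have sy := sq_nonneg (nrm (s.y - y0))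
  have S0 : (0 : ℝ) ≤ #s.S := Nat.cast_nonneg _
  have eB : Bb X.D s y0 = Hy X.D s + del s ⬝ᵥ del s + s.L ^ 2 + mean (nu X.D s) (U X.D s) + #s.S +
      nrm (s.y - y0) ^ 2 := rfl
  have B0 : 0 ≤ Bb X.D s y0 := by rw [eB]; positivity
  have t0 : 0 ≤ X.z.t m := by linarith
  have C0 : 0 ≤ X.p.C := by linarith [hp.C1']
  -- the size of `zs`
  have zt : zs ⬝ᵥ zs ≤ X.z.t m := by
    have a1 : zs ⬝ᵥ zs ≤ ∑ j, zv X.D.J pv a0 (Del X.D s) j ^ 2 := by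
      refine sum_le_sum fun j _ => ?_
      rw [hz]
      dsimp only
      split_ifs
      · rw [sq]
      · rw [mul_zero]; exact sq_nonneg _
    have a2 := zv_le (Del X.D s) hX.dok.op hp.C11 hL.hp fun j => (hL.ha j).1
    have a3 := (hX.lf.b1 n X.D s y0 _ _ hX.dok hI.cl hB).2.1
    have a4 : Bb X.D s y0 ≤ 2 * (4 * X.z.T m + lg n + 1) := by rw [eB]; linarith
    have a5 := mul_le_mul_of_nonneg_left (a3.trans (mul_le_mul_of_nonneg_left a4 C0))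
      (by positivity : 0 ≤ 20 * X.p.C1 ^ 2)
    linarith
  have τ1 : X.p.τ' ≤ 1 := by
    have a := hp.t1
    have b : 1 ≤ X.p.C * X.p.C0 ^ 2 := one_le_mul_of_one_le_of_one_le hp.C1' (one_le_pow₀ hp.C01)
    have c := mul_le_mul_of_nonneg_right b hp.t0.le
    nlinarith only [a, c, hp.lq1, hp.t0]
  obtain ⟨w, hA, hw, hg⟩ := hX.lf.t6 n X.D.J X.p.P y0 pv a0 al q k v _ _ _ _ _ _ _ (X.z.t' m) ε X.p.τ'
    s.S (Del X.D s) zs hX.dok.symm hX.dok.op hL hp.lq0 hp.lq1 (by linarith [hp.C01]) hp.C11 hp.CP1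
    hp.eL0.le (hp.h0 _) ε0 hp.t0 τ1 (by linarith [hI.hS]) hΔ hz zt (hc.h2 m mN.le)
  obtain ⟨t, ht⟩ := hT w _ hA
  generalize hu : X.p.CP * X.p.τ' * nrm zs = u at hA ht
  have u2 : u ^ 2 = X.p.CP ^ 2 * X.p.τ' ^ 2 * (zs ⬝ᵥ zs) := by
    rw [← hu, mul_pow, mul_pow, Eig.nrm_sq]
  -- classes
  have e0 := (hp.e0 (X.p.bt (m + 1) i)).le
  have em : X.p.e1 m i0 ≤ X.p.e1 (m + 1) i := hp.ea (bt_le X.p mN hN)
  have m0 : (0 : ℝ) ≤ m := Nat.cast_nonneg m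
  have cl1 : Cl (m * X.p.e1 (m + 1) i) (m ^ 2 * X.p.e1 (m + 1) i) s :=
    (hCl n X.D s hX.dok).1 _ _ _ _ hI.cl (mul_le_mul_of_nonneg_left em m0)
      (mul_le_mul_of_nonneg_left em (sq_nonneg _))
  have N1 : (1 : ℝ) ≤ X.p.N := by exact_mod_cast hp.N1
  have mN' : (m : ℝ) ≤ X.p.N := by exact_mod_cast mN.le
  have cl2 : Cl (X.p.ec (m + 1) i) (X.p.ec (m + 1) i) s :=
    (hCl n X.D s hX.dok).1 _ _ _ _ cl1
      (mul_le_mul_of_nonneg_right (by nlinarith only [N1, mN']) e0)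
      (mul_le_mul_of_nonneg_right (pow_le_pow_left₀ m0 mN' 2) e0)
  have ω0 := hp.ω0 m i
  have ω1 := hp.ω1 m i
  obtain ⟨M1, -⟩ := hp.lM m i mN
  have Mx0 : 0 ≤ Mx' X.p.C X.p.P (X.p.CN m i) X.p.κ X.p.η0 (X.p.ω m i) :=
    mul_nonneg C0 (sq_nonneg _)
  -- the tilt
  have hti := hX.lf.tilt n X.D s y0 pA al q w _ _ _ _ _ _ _ u X.p.κ X.p.c1 (X.p.ω m i) _ _ _ _
    hX.dok cl2 hB ht.ans (fun j => (hpA j).1) (ah_mem hp mN.le).1 (ah_mem hp mN.le).2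
    (by positivity) e0 (le_mul_of_one_le_left e0 (one_le_pow₀ N1)) (hp.CN1 m i)
    (by linarith [hp.C01]) hc.K1 ht.u0 hp.κ0' hp.κ1 hp.c10 ω0 ω1
    (by
      rw [hX.hP, show X.p.ω m i ^ 4 = (X.p.ω m i ^ 2) ^ 2 by ring, sqrt_sq (sq_nonneg _)]
      have := mul_le_mul_of_nonneg_right (hp.lω m i).1 ω0.le
      nlinarith only [this])
    (by rw [hX.hP, hX.hη]; exact mx_ec hp Mx0 M1)
  rw [hX.hP, hX.hη] at hti
  -- the update
  have dz : del s.un = 0 := sub_self _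
  have hup := hU s.un (s.un.tl t.φ 0 0 0) F i0 y0 pA al q w u t hN hB (fun j => (hpA j).1) ht hI.pv hI.xf
    ⟨cl1.L0, cl1.gr, cl1.rg, cl1.ex, cl1.ts⟩ hI.hL
    (by
      have := (hc.h4 m mN).1
      show (#s.S : ℝ) ≤ _
      linarith [hI.hS])
    (by rw [dz, zero_dotProduct]; exact t0)
    (by
      show nrm (s.y - y0) ^ 2 ≤ _
      linarith) rfl
  rw [dz, zero_dotProduct, mul_zero, add_zero, lin] at hup
  have H1 : 0 ≤ HH X.D (s.un.tl t.φ 0 0 0) := (hCr n X.D _ hX.dok).2.2.2.2.1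
  have r1 : AA X.D (s.un.tl t.φ (X.p.CN m i * u) t.Ω t.G) = AA X.D (s.un.tl t.φ 0 0 0) := rfl
  have r2 : HH X.D (s.un.tl t.φ (X.p.CN m i * u) t.Ω t.G) = HH X.D (s.un.tl t.φ 0 0 0) := rfl
  rw [r1, r2] at hti
  generalize AA X.D (s.un.tl t.φ 0 0 0) = A1 at hti hup
  generalize HH X.D (s.un.tl t.φ 0 0 0) = H' at hti hup H1
  change _ ≤ X.p.lb m * A1 - X.p.am (m + 1) * H' + 3 * X.p.γ (m + 1) i *
      (Hy X.D s + mean (nu X.D s) (U X.D s) + mean (nu X.D s) (U6 X.D s)) +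
    X.p.gg m * Eg X.D s s.Th + exp ((Dz X.D s - X.z.T (m + 1)) / 2) +
    (4 * X.p.g2 (m + 1) i * Ex X.D s +
      mean (nu X.D s) fun σ => X.Fu (m + 1) m (X.Ft (m + 1) i F) σ s.y) + _ + _ at hup
  change -(_ + 6 * X.p.γ (m + 1) i * (s.L ^ 2 + #s.S + nrm (s.y - y0) ^ 2)) ≤ _ at hup
  obtain ⟨lb0, lb1⟩ := lb_mem hp mN.le
  have lb0' : 0 ≤ X.p.lb m := by linarith
  have hm := mul_le_mul_of_nonneg_left hti lb0'
  have k1 := lb_l hp m
  have k2 := lb_ah hp m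
  have k3 := mul_le_mul_of_nonneg_right (am_mono hp m) H1
  have η0 := hp.η00
  have η1 := hp.η01
  have gn := gain (μ := X.p.lb m * (1 - 2 * X.p.η0)) (c := X.p.c1) (by nlinarith only [lb0, η1])
    (mul_le_one₀ lb1 (by linarith) (by linarith)) hp.t0 τ1 hp.lq0 Z0 (mod0 _ _ _ _ _ _ _) Δ0
    (by have := hp.eL0; have := hp.C11; positivity)
    (by
      have a : √ε ≤ X.p.eL := by rw [sqrt_le_left hp.eL0.le]; exact ε1
      have b := mul_le_mul_of_nonneg_left a (by have := hp.C11; positivity : 0 ≤ X.p.C * X.p.C1)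
      linarith [hp.eL1]) hg
  have W0 : 0 ≤ pA ⬝ᵥ (w * w) := sum_nonneg fun j _ => mul_nonneg (hpA j).1 (mul_self_nonneg _)
  have hW : pA ⬝ᵥ (w * w) ≤ X.p.C0 * X.p.τ' ^ 2 * (zs ⬝ᵥ zs) + X.p.ω m i ^ 4 * u ^ 2 := by
    have a1 : pA ⬝ᵥ (w * w) ≤ pv ⬝ᵥ (w * w) + X.p.ω m i ^ 4 * (w ⬝ᵥ w) := by
      simp only [dotProduct, mul_sum, ← sum_add_distrib, Pi.mul_apply, ← add_mul]
      exact sum_le_sum fun j _ => mul_le_mul_of_nonneg_right (hpA j).2 (mul_self_nonneg _)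
    have a2 : w ⬝ᵥ w ≤ u ^ 2 := by
      rw [← Eig.nrm_sq]; exact pow_le_pow_left₀ (Eig.nrm_nonneg _) hA.2.1 2
    have a3 := mul_le_mul_of_nonneg_left a2 (by positivity : 0 ≤ X.p.ω m i ^ 4)
    linarith
  have co := cost lb1 hp.C1' hp.C01 hp.gP1 hp.t0 τ1 hp.lq0 Z0 ω0 ω1 W0 hW u2 hp.t1
    (hp.lω m i).2 (hp.lT m i mN) hp.C11 hp.c10 hp.c1T
  -- the remaining terms
  have γ0 := hp.γ0 (m + 1) i
  have s1 : X.p.lb m * (X.p.c1 * (Del X.D s ⬝ᵥ Del X.D s)) ≤ X.p.c1 * (Del X.D s ⬝ᵥ Del X.D s) :=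
    mul_le_of_le_one_left (mul_nonneg hp.c10.le Δ0) lb1
  have s2 : X.p.lb m * ((X.p.C / X.p.κ + 1 / X.p.c1) * (del s ⬝ᵥ del s)) ≤
      (X.p.C / X.p.κ + 1 / X.p.c1) * (del s ⬝ᵥ del s) :=
    mul_le_of_le_one_left (by have := hp.κ0'; have := hp.c10; positivity) lb1
  have s3 : X.p.lb m * (X.p.ω m i * Bb X.D s y0) ≤
      X.p.ω m i * (Bb X.D s y0 + mean (nu X.D s) (U6 X.D s)) :=
    (mul_le_of_le_one_left (mul_nonneg ω0.le B0) lb1).trans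
      (mul_le_mul_of_nonneg_left (by linarith) ω0.le)
  have K0 : 0 ≤ X.z.K := by linarith [hc.K1]
  have s4 : X.p.lb m * (Mx' X.p.C X.p.P (X.p.CN m i) X.p.κ X.p.η0 (X.p.ω m i) * (Ex X.D s + X.z.K)) ≤
      X.p.M (i + 1) * Ex X.D s + 2 * (X.p.C * 8 ^ X.p.N * X.p.M (2 ^ X.p.N) * X.z.K) := by
    have a1 := (mul_le_of_le_one_left (mul_nonneg Mx0 (add_nonneg Ex0 K0)) lb1).trans
      (mul_le_mul_of_nonneg_right M1 (add_nonneg Ex0 K0))
    have a2 : X.p.M (i + 1) ≤ X.p.M (2 ^ X.p.N) := hp.Mm ((bt_ge X.p (m + 1) i).trans hV)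
    have a3 : (1 : ℝ) ≤ X.p.C * 8 ^ X.p.N :=
      one_le_mul_of_one_le_of_one_le hp.C1' (one_le_pow₀ (by norm_num))
    have a4 : 0 ≤ X.p.M (2 ^ X.p.N) * X.z.K := mul_nonneg (by linarith [hp.M1 (2 ^ X.p.N)]) K0
    have a5 := mul_le_mul_of_nonneg_right a2 K0
    have a6 := mul_le_mul_of_nonneg_right a3 a4
    nlinarith only [a1, a4, a5, a6]
  have s5 : 6 * X.p.γ (m + 1) i * (s.L ^ 2 + #s.S + nrm (s.y - y0) ^ 2) + 3 * X.p.γ (m + 1) i *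
      (Hy X.D s + mean (nu X.D s) (U X.D s) + mean (nu X.D s) (U6 X.D s)) ≤
      15 * X.p.CP * X.p.γ (m + 1) i * (Bb X.D s y0 + mean (nu X.D s) (U6 X.D s)) := by
    have a1 : 6 * (s.L ^ 2 + #s.S + nrm (s.y - y0) ^ 2) + 3 *
        (Hy X.D s + mean (nu X.D s) (U X.D s) + mean (nu X.D s) (U6 X.D s)) ≤
        15 * (Bb X.D s y0 + mean (nu X.D s) (U6 X.D s)) := by rw [eB]; linarith
    have a2 := mul_le_mul_of_nonneg_left a1 γ0.le
    have a3 := mul_le_mul_of_nonneg_right hp.CP1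
      (mul_nonneg γ0.le (add_nonneg B0 U60))
    nlinarith only [a2, a3]
  have s6 : exp ((Dz X.D s - X.z.T (m + 1)) / 2) ≤ exp ((Dz X.D s - X.z.T m) / 2) :=
    exp_le_exp.2 (by linarith [(hc.h4 m mN).1])
  unfold Cx.Br
  rw [← k1, ← k2]
  rw [← k2] at k3
  linarith [hm, hup, k3, gn, co, s1, s2, s3, s4, s5, s6]

end Crest.Agent.T157.S1

end
end

-- ▼ part T157/S1Fu_6
section

/-!
# Row 157, block B/S1 (helper6): `FuGlue`, `StaGlue`, `MasterGlue`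
-/

set_option autoImplicit false

noncomputable section

namespace Crest.Agent.T157.S1

open MeasureTheory Real Matrix Finset
open Crest.Agent.T157.E Crest.Agent.T157.SL
open Crest.Agent.T157.S3 (V Mx)

namespace Fu6

variable {n : ℕ} (hM : MtStmt)
include hM

lemma xf_add {F G : Fy n} (h : XF F) (h' : XF G) : XF (F + G) :=
  ((hM n).2.2.2.2.2.1 F G 0 h h' le_rfl).1

lemma xf_smul {F : Fy n} {c : ℝ} (h : XF F) (hc : 0 ≤ c) : XF (c • F) :=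
  ((hM n).2.2.2.2.2.1 F F c h h hc).2

lemma xf_sum {κ : Type} (s : Finset κ) {F : κ → Fy n} (h : ∀ k ∈ s, XF (F k)) : XF (∑ k ∈ s, F k) :=
  sum_induction _ _ (fun _ _ => xf_add hM) (hM n).2.2.2.2.2.2.1 h

lemma xf_Ew {F : Fy n} {t : ℝ} (h : XF F) (ht : 0 ≤ t) : XF (Ew t F) := (hM n).2.1 F t h ht

lemma Ew_add {F G : Fy n} {t : ℝ} (h : XF F) (h' : XF G) (ht : 0 ≤ t) :
    Ew t (F + G) = Ew t F + Ew t G := (hM n).2.2.2.1 F G t h h' ht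

lemma Ew_smul (F : Fy n) (t c : ℝ) : Ew t (c • F) = c • Ew t F := (hM n).2.2.2.2.1 F t c

lemma Ew_sum {κ : Type} (s : Finset κ) {F : κ → Fy n} {t : ℝ} (h : ∀ k ∈ s, XF (F k)) (ht : 0 ≤ t) :
    Ew t (∑ k ∈ s, F k) = ∑ k ∈ s, Ew t (F k) := by
  classical
  induction s using Finset.induction_on with
  | empty => simpa using Ew_smul hM (0 : Fy n) t 0
  | insert k s hk ih =>
    rw [sum_insert hk, sum_insert hk, Ew_add hM (h k (by simp)) (xf_sum hM _ fun j hj => h j (by simp [hj])) ht,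
      ih fun j hj => h j (by simp [hj])]

lemma Ew_le {F G H : Fy n} {t : ℝ} (h : XF F) (h' : XF H) (ht : 0 ≤ t) (e : G = F + H) :
    Ew t F ≤ Ew t G := by
  rw [e, Ew_add hM h h' ht]
  exact le_add_of_nonneg_right fun σ y => (xf_Ew hM h' ht).2 σ y

omit hM in
lemma time_nonneg {X : Cx n} (h : X.Ok) {k lo m' N : ℕ} (hk : k ≤ lo) (hm : m' ∈ Icc lo N) :
    0 ≤ ((m' : ℝ) - k) * X.p.τ :=
  mul_nonneg (sub_nonneg.2 (Nat.cast_le.2 (hk.trans (mem_Icc.1 hm).1))) h.ok.τ0.le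

omit hM in
lemma CZ_nonneg {p : Par} (h : p.Ok) : 0 ≤ p.CZ :=
  nonneg_of_mul_nonneg_left (zero_le_one.trans h.CZ1) h.lq0

lemma xf_Ft {X : Cx n} (h : X.Ok) (m i : ℕ) {F : ℕ → Fy n} (hF : ∀ m', XF (F m')) (m' : ℕ) :
    XF (X.Ft m i F m') := by
  have d := (hM n).2.2.2.2.2.2.2.1 (X.O.G m') (X.z.T m')
  have e : XF (if m' = X.p.N then X.fe else 0) := by
    split_ifs; exacts [h.en.xf, (hM n).2.2.2.2.2.2.1]
  have := xf_add hM (xf_add hM (xf_add hM (xf_smul hM d.1 (h.ok.γ0 m i).le)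
    (xf_smul hM d.2 (show 0 ≤ big n by unfold big; positivity)))
    (xf_smul hM (xf_add hM (h.es.xz m') (hF m')) (CZ_nonneg h.ok))) e
  convert this using 1
  funext σ y
  simp only [Cx.Ft, Pi.add_apply, Pi.smul_apply, smul_eq_mul, ite_apply, Pi.zero_apply]

lemma xf_Fu {X : Cx n} (h : X.Ok) {lo k : ℕ} (hk : k ≤ lo) {F : ℕ → Fy n} (hF : ∀ m', XF (F m')) :
    XF (X.Fu lo k F) := xf_sum hM _ fun m' hm => xf_Ew hM (hF m') (time_nonneg h hk hm)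

end Fu6

open Fu6

theorem fuGlue : FuGlue := fun hM n X h m i F hF => by
  have t := xf_Ft hM h m i hF
  refine ⟨t, fun lo k hk => xf_Fu hM h hk t, fun lo k hk => ?_, fun k hk => ?_, fun m' i' lo k hk hγ => ?_,
    fun ρ lo k hk hρ => ?_⟩
  · rw [Cx.Fu, Ew_sum hM _ (fun m' hm => xf_Ew hM (t m') (time_nonneg h hk hm)) h.ok.τ0.le]
    refine sum_congr rfl fun m' hm => ?_
    rw [(hM n).2.2.1 _ _ _ (t m') h.ok.τ0.le (time_nonneg h hk hm)]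
    congr 1; push_cast; ring
  · rw [Cx.Fu, Cx.Fu, ← insert_Icc_add_one_left_eq_Icc hk, sum_insert (by simp), sub_self, zero_mul,
      (hM n).1]
  · refine sum_le_sum fun j hj => Ew_le hM (xf_Ft hM h m' i' hF j) (xf_smul hM
      ((hM n).2.2.2.2.2.2.2.1 (X.O.G j) 0).1 (sub_nonneg.2 hγ)) (time_nonneg h hk hj) ?_
    funext σ y
    simp only [Cx.Ft, Pi.add_apply, Pi.smul_apply, smul_eq_mul]
    ring
  · simp only [Cx.Fu, smul_sum, ← sum_add_distrib]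
    refine sum_congr rfl fun j hj => ?_
    rw [← Ew_smul hM, ← Ew_add hM (t j) (xf_smul hM (hρ j) (CZ_nonneg h.ok)) (time_nonneg h hk hj)]
    congr 1
    funext σ y
    simp only [Cx.Ft, Pi.add_apply, Pi.smul_apply, smul_eq_mul]
    ring

theorem staGlue : StaGlue := fun hW hF n X h m i hm hA s F hI => by
  have o := h.ok
  obtain ⟨-, x, e, -⟩ := hF n X h (m + 1) i F hI.xf
  have k1 : (1 : ℝ) ≤ 1 + X.p.κ := le_add_of_nonneg_right o.κ0'.le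
  have a0 : 0 < X.p.a := o.a00.trans o.a0a
  have M0 := zero_le_one.trans (o.M1 (X.p.bt (m + 1) i))
  have g0 := o.g10
  have L0 := o.CE0.trans o.ΛE
  have := hW n X.D s (X.cf (m + 1) i) X.p.τ X.p.c1 (X.R (m + 1)) _ h.dok (x (m + 1) (m + 1) le_rfl) o.τ0
    (by simp only [Cx.cf, Par.l]; positivity) (inv_le_one_of_one_le₀ (one_le_pow₀ k1))
    (by simp only [Cx.cf, Par.am]; positivity) (o.γ0 _ _).le (by simp only [Cx.cf, Par.gg]; positivity)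
    (by simp only [Cx.cf, Par.g2]; positivity) L0
    (le_trans (by simp only [Cx.cf]; gcongr; exact o.γ1 _ _) o.win)
    fun p q => hA (s.mv p q) F ⟨⟨hI.cl.L0, hI.cl.gr, hI.cl.rg, hI.cl.ex, hI.cl.ts⟩, hI.pv, hI.xf, hI.hL, hI.hS⟩
  rwa [e (m + 1) m m.lt_succ_self] at this

theorem masterGlue : MasterGlue := fun hU hA hF hS hT n X h => by
  have key : ∀ d m i, m + d + 1 = X.p.N → X.p.Val (m + 1) i → X.Sta m i := fun d => by
    induction d with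
    | zero => exact fun m i e v => hS n X h m i (by omega) (by
        rw [show m + 1 = X.p.N by omega] at v ⊢; exact hF n X h i v)
    | succ d ih =>
      refine fun m i e v => hS n X h m i (by omega) (hA n X h (m + 1) i (by omega) (by omega) v
        fun i' hi => ?_)
      have v' : X.p.Val (m + 1 + 1) i' := by
        have e2 : 2 ^ (X.p.N - (m + 1)) = 2 * 2 ^ (X.p.N - (m + 1 + 1)) := by
          rw [← pow_succ']; congr 1; omega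
        simp only [Par.Val, Par.bt, Par.Nx] at v hi ⊢
        omega
      exact hU n X h (m + 1) i' (by omega) (by omega) v' (ih (m + 1) i' (by omega) v')
  have N1 := h.ok.N1
  exact hT n X h (key (X.p.N - 1) 0 0 (by omega) (by
    simp only [Par.Val, Par.bt, zero_add]; exact Nat.pow_le_pow_right two_pos (by omega)))

end Crest.Agent.T157.S1
end
end

-- ▼ part T157/S1Lad_61

/-!
# Row 157, part B, block S1 (helper61): the ladder of constants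
-/

set_option autoImplicit false

noncomputable section

namespace Crest.Agent.T157.S1

open Filter Topology Set

namespace Lad61

/-- sequences defined from their past -/
theorem ex_seq (F : ℕ → (ℕ → ℝ) → ℝ) (hF : ∀ j x y, (∀ i < j, x i = y i) → F j x = F j y) :
    ∃ x : ℕ → ℝ, ∀ j, x j = F j x := by
  let G : ∀ j : ℕ, (∀ i, i < j → ℝ) → ℝ := fun j r => F j fun i => if h : i < j then r i h else 0
  refine ⟨Nat.lt_wfRel.wf.fix G, fun j => ?_⟩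
  rw [WellFounded.fix_eq]
  exact hF j _ _ fun i hi => dif_pos hi

theorem small (A : ℝ) {b : ℝ} (hb : 0 < b) : ∀ᶠ x in 𝓝[>] (0 : ℝ), A * x ≤ b :=
  mem_nhdsWithin_of_mem_nhds ((by fun_prop : ContinuousAt (fun x : ℝ => A * x) 0).eventually
    (ge_mem_nhds (by simpa using hb)))

/-- a chain `g, Γ 0 g, Γ 1 (Γ 0 g), …` -/
def ch (Γ : ℕ → ℝ → ℝ) (g : ℝ) : ℕ → ℝ
  | 0 => g
  | m + 1 => Γ m (ch Γ g m)

theorem ch_congr {Γ Γ' : ℕ → ℝ → ℝ} (g : ℝ) (j : ℕ) (h : ∀ i < j, Γ i = Γ' i) :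
    ch Γ g j = ch Γ' g j := by
  induction j with
  | zero => rfl
  | succ j ih => rw [ch, ch, ih fun i hi => h i (by omega), h j (by omega)]

theorem ch_pos {Γ : ℕ → ℝ → ℝ} (h : ∀ m x, 0 < x → 0 < Γ m x) {g : ℝ} (hg : 0 < g) (m : ℕ) :
    0 < ch Γ g m := by
  induction m with
  | zero => exact hg
  | succ m ih => exact h m _ ih

end Lad61

open Lad61 in
theorem ladStmt : LadStmt := by
  intro w CP gW cN CNf ηf MEf hw CP1 gW0 cN1 hP
  have CZ0 : 0 < w.CZ := pos_of_mul_pos_left (one_pos.trans_le hw.CZ1) hw.lq0.le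
  have step : ∀ (η : ℝ) (m : ℕ) (γ : ℝ), ∃ ω C γ' : ℝ, 0 < η → 0 < γ → (0 < ω ∧ ω ≤ 1) ∧
      (1 ≤ C ∧ CNf m ω ≤ C) ∧ (0 < γ' ∧ γ' ≤ γ) ∧ 15 * CP * γ' + 2 * w.CZ * ω ≤ γ ∧
      (w.C * w.P * ω ≤ w.κ ∧ 2 * w.C * w.C0 * ω ≤ 1) ∧ 8 * γ' * C ^ 2 ≤ gW ∧
      64 * (2 * ω + 8 * γ' * C ^ 2) * CP ^ 2 ≤ w.lq ∧
      4 * w.C1 ^ 2 * (ω + 9 * γ' * CP) ≤ w.c0 * η ^ 2 := fun η m γ => by
    by_cases h : 0 < η ∧ 0 < γ
    swap
    · exact ⟨0, 0, 0, fun a b => absurd ⟨a, b⟩ h⟩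
    have h1 := half_pos h.2
    have h2 := half_pos hw.lq0
    have h3 := half_pos (mul_pos hw.c00 (pow_pos h.1 2))
    obtain ⟨ω, a0, a1, a2, a3, a4, a5, a6⟩ := (eventually_mem_nhdsWithin.and ((small 1 one_pos).and
      ((small (2 * w.CZ) h1).and ((small (w.C * w.P) hw.κ0').and ((small (2 * w.C * w.C0) one_pos).and
        ((small (128 * CP ^ 2) h2).and (small (4 * w.C1 ^ 2) h3))))))).exists
    obtain ⟨γ', b0, b1, b2, b3, b4, b5⟩ := (eventually_mem_nhdsWithin.and ((small 1 h.2).and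
      ((small (15 * CP) h1).and ((small (8 * max 1 (CNf m ω) ^ 2) gW0).and
        ((small (512 * max 1 (CNf m ω) ^ 2 * CP ^ 2) h2).and (small (36 * w.C1 ^ 2 * CP) h3)))))).exists
    exact ⟨ω, max 1 (CNf m ω), γ', fun _ _ => ⟨⟨a0, by linarith⟩, ⟨le_max_left _ _, le_max_right _ _⟩,
      ⟨b0, by linarith⟩, by linarith, ⟨a3, a4⟩, by linarith, by linarith, by linarith⟩⟩
  choose Ω Cn Γ hs using step
  have big : ∀ η g M₀ : ℝ, ∃ M : ℝ, M₀ ≤ M ∧ MEf (ch (Γ η) g w.N) ≤ M ∧ ∀ m < w.N,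
      Mx' w.C w.P (Cn η m (ch (Γ η) g m)) w.κ w.η0 (Ω η m (ch (Γ η) g m)) ≤ M ∧
      Mx' w.C w.P (Cn η m (ch (Γ η) g m)) 1 w.η0 (ch (Γ η) g (m + 1)) ≤ M ∧
      w.CZ * Cn η m (ch (Γ η) g m) ≤ M ∧ (ch (Γ η) g (m + 1))⁻¹ ≤ M := fun η g M₀ =>
    ((eventually_ge_atTop _).and ((eventually_ge_atTop _).and ((eventually_all_finite (finite_Iio _)).2
      fun m _ => (eventually_ge_atTop _).and ((eventually_ge_atTop _).and
        ((eventually_ge_atTop _).and (eventually_ge_atTop _)))))).exists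
  choose Mn hM using big
  obtain ⟨g0, g00, g01, g02⟩ := (eventually_mem_nhdsWithin.and ((small 2 hw.κ0').and
    (small (1 + w.N * cN) (sub_pos.2 hw.a0a)))).exists
  let g : (ℕ → ℝ) → ℕ → ℝ := fun η => ch (fun j x => ch (Γ (η j)) x w.N) g0
  let γ : (ℕ → ℝ) → ℕ → ℕ → ℝ := fun η m i => ch (Γ (η i)) (g η i) (min m w.N)
  let ω : (ℕ → ℝ) → ℕ → ℕ → ℝ := fun η m i => Ω (η i) m (γ η m i)
  let M : (ℕ → ℝ) → ℕ → ℝ := fun η => ch (fun j x => Mn (η j) (g η j) x) 1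
  let A : ℝ := 8 * w.C * w.CZ * (w.N + 1) ^ 2 * 8 ^ w.N
  let ee : (ℕ → ℝ) → ℕ → ℝ := fun η j => (A * M η j ^ 2)⁻¹
  have lg : ∀ j x y, (∀ i < j, x i = y i) → g x j = g y j := fun j x y h =>
    ch_congr _ _ fun i hi => by rw [h i hi]
  obtain ⟨η, hη⟩ := ex_seq (fun j η => min 1 (ηf j (ω η) (ee η))) fun j x y h => by
    rw [hP.2 j (ω x) (ω y) (ee x) (ee y) (fun m i hi => ?_) fun i hi => ?_]
    · simp only [ω, γ, h i hi, lg i x y fun i' h' => h i' (h'.trans hi)]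
    · simp only [ee, M]
      rw [ch_congr _ _ fun i' h' => ?_]
      rw [h i' (by omega), lg i' x y fun k hk => h k (by omega)]
  have η0 : ∀ j, 0 < η j := fun j => by rw [hη]; exact lt_min one_pos (hP.1 _ _ _)
  have cp : ∀ i x m, 0 < x → 0 < ch (Γ (η i)) x m := fun i x m hx =>
    ch_pos (fun m y hy => (hs _ m y (η0 i) hy).2.2.1.1) hx m
  have ca : ∀ i x, 0 < x → Antitone (ch (Γ (η i)) x) := fun i x hx =>
    antitone_nat_of_succ_le fun m => (hs _ m _ (η0 i) (cp i x m hx)).2.2.1.2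
  have gp : ∀ i, 0 < g η i := ch_pos (fun j x hx => cp j x _ hx) g00
  have γ0 : ∀ m i, 0 < γ η m i := fun m i => cp i _ _ (gp i)
  have γa : ∀ m, Antitone (γ η m) := fun m => antitone_nat_of_succ_le fun i =>
    (ca _ _ (gp _) (Nat.zero_le _)).trans (ca _ _ (gp i) (min_le_right _ _))
  have γg : ∀ m i, γ η m i ≤ g0 := fun m i =>
    (γa m (Nat.zero_le i)).trans (ca _ _ (gp 0) (Nat.zero_le _))
  have h : ∀ m i, _ := fun m i => hs (η i) m (γ η m i) (η0 i) (γ0 m i)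
  have e0 : ∀ m i, m < w.N → γ η m i = ch (Γ (η i)) (g η i) m := fun m i hm => by
    simp only [γ, min_eq_left hm.le]
  have e1 : ∀ m i, m < w.N → γ η (m + 1) i = Γ (η i) m (γ η m i) := fun m i hm => by
    simp only [γ, min_eq_left hm.le, min_eq_left (Nat.succ_le_of_lt hm), ch]
  have Mm : Monotone (M η) := monotone_nat_of_le_succ fun j => (hM _ _ _).1
  have M1 : ∀ j, 1 ≤ M η j := fun j => Mm (Nat.zero_le j)
  have A0 : 0 < A := by have := hw.C1'; positivity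
  refine ⟨⟨w, CP, gW, cN, γ η, ω η, fun m i => Cn (η i) m (γ η m i), M η, ee η, η⟩,
    { o2 := hw
      CP1 := CP1
      gW0 := gW0
      cN1 := cN1
      γ0 := γ0
      γ1 := fun m i => by linarith [γg m i, hw.κ1]
      γa := γa
      ω0 := fun m i => (h m i).1.1
      ω1 := fun m i => (h m i).1.2
      CN1 := fun m i => (h m i).2.1.1
      lγ := fun m i hm => by simpa only [e1 m i hm] using (h m i).2.2.2.1
      lω := fun m i => (h m i).2.2.2.2.1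
      lκ := fun m i => by linarith [γg m i]
      lW := fun m i hm => by simpa only [e1 m i hm] using (h m i).2.2.2.2.2.1
      lT := fun m i hm => by simpa only [e1 m i hm] using (h m i).2.2.2.2.2.2.1
      lB := fun m i hm => by simpa only [e1 m i hm] using (h m i).2.2.2.2.2.2.2
      M1 := M1
      Mm := Mm
      lM := fun m i hm => ?_
      e0 := fun j => by have := M1 j; simp only [ee]; positivity
      ea := fun i j hij => inv_anti₀ (by have := M1 i; positivity) (mul_le_mul_of_nonneg_left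
        (pow_le_pow_left₀ (by linarith [M1 i]) (Mm hij) 2) A0.le)
      le := fun j => (mul_inv_cancel₀ (by have := M1 j; positivity : A * M η j ^ 2 ≠ 0)).le
      h0 := η0
      h1 := fun j => (hη j).trans_le (min_le_left _ _)
      l0 := by
        rw [mul_comm]
        exact (mul_le_mul_of_nonneg_left (γg 1 0) (by positivity)).trans g02 },
    rfl, rfl, rfl, rfl, ⟨fun m i _ => (h m i).2.1.2, fun j => (hη j).trans_le (min_le_right _ _)⟩,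
    fun i => by simp only [γ, min_self]; exact (hM (η i) (g η i) (M η i)).2.1⟩
  obtain ⟨a, b, c, d⟩ := (hM (η i) (g η i) (M η i)).2.2 m hm
  rw [ch, ← e0 m i hm, ← e1 m i hm] at b d
  rw [← e0 m i hm] at a c
  exact ⟨a, b, c, (inv_le_iff_one_le_mul₀' (γ0 _ _)).1 d⟩

end Crest.Agent.T157.S1
end
private theorem rz_29a08bb9a4 : type_of% @_root_.Crest.Agent.T157.S1.Lad61.ch.eq_def := @_root_.Crest.Agent.T157.S1.Lad61.ch.eq_def -- L30
private theorem rz_6af496dbd9 : type_of% @_root_.Crest.Agent.T157.S1.Lad61.ch.eq_1 := @_root_.Crest.Agent.T157.S1.Lad61.ch.eq_1 -- L30
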