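import Crest.Agent.T157.S1Lin_97
import Crest.Agent.T157.S1Def_97
import Crest.Agent.T157.BrChi_58
import Crest.Agent.T157.Xtr_25
import Crest.Agent.T157.S1TiBa_91
import Crest.Agent.T157.S1Pin_33
import Crest.Agent.T157.S1Cr_89
import Crest.Agent.T157.S1W_6
import Crest.Agent.T157.TaS_40

-- ▼ part T157/S1T62_39
section

/-!
# Row 157, part B, block S1 (helper39, after helper27): the choice of the weight, two tolerances
-/

set_option autoImplicit false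

noncomputable section

namespace Crest.Agent.T157.S1

open Real Matrix Finset
open Crest.Agent.T157.E
open Crest.Agent.T157.Eig
open Crest.Agent.T157.S3 (V Mx)

namespace T62

variable {n k : ℕ} {v : ℕ → V n}

/-- the projection on the modes -/
def Pj (k : ℕ) (v : ℕ → V n) (x : V n) : V n := ∑ a ∈ range k, (v a ⬝ᵥ x) • v a
/-- restriction to `S` -/
def rs (S : Finset (Fin n)) (x : V n) : V n := fun i => if i ∈ S then x i else 0

theorem Pj_dot (x y : V n) : Pj k v x ⬝ᵥ y = ∑ a ∈ range k, (v a ⬝ᵥ x) * (v a ⬝ᵥ y) := by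
  simp [Pj, sum_dotProduct]

theorem dot_Pj (on : ∀ a < k, ∀ b < k, v a ⬝ᵥ v b = if a = b then 1 else 0) (x : V n) {b : ℕ}
    (hb : b < k) : v b ⬝ᵥ Pj k v x = v b ⬝ᵥ x := by
  rw [dotProduct_comm, Pj_dot, sum_congr rfl fun a ha => by rw [on a (mem_range.1 ha) b hb]]
  simp [hb]

theorem res (on : ∀ a < k, ∀ b < k, v a ⬝ᵥ v b = if a = b then 1 else 0) (x : V n) :
    (x - Pj k v x) ⬝ᵥ (x - Pj k v x) = x ⬝ᵥ x - ∑ a ∈ range k, (v a ⬝ᵥ x) ^ 2 := by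
  have h1 : Pj k v x ⬝ᵥ Pj k v x = ∑ a ∈ range k, (v a ⬝ᵥ x) ^ 2 := by
    rw [Pj_dot]; exact sum_congr rfl fun a ha => by rw [dot_Pj on x (mem_range.1 ha), sq]
  have h2 : Pj k v x ⬝ᵥ x = ∑ a ∈ range k, (v a ⬝ᵥ x) ^ 2 := by
    rw [Pj_dot]; exact sum_congr rfl fun a _ => (sq _).symm
  rw [sub_dotProduct, dotProduct_sub, dotProduct_sub, dotProduct_comm x (Pj k v x), h1, h2]; ring

theorem bessel (on : ∀ a < k, ∀ b < k, v a ⬝ᵥ v b = if a = b then 1 else 0) (x : V n) :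
    ∑ a ∈ range k, (v a ⬝ᵥ x) ^ 2 ≤ x ⬝ᵥ x := by
  have := dot_self_nonneg (x - Pj k v x)
  rw [res on] at this; linarith

theorem rs_Pj (S : Finset (Fin n)) (x : V n) : rs S (Pj k v x) ⬝ᵥ rs S (Pj k v x) ≤
    (∑ a ∈ range k, (v a ⬝ᵥ x) ^ 2) * ∑ a ∈ range k, ∑ i ∈ S, v a i ^ 2 := by
  have h : rs S (Pj k v x) ⬝ᵥ rs S (Pj k v x) = ∑ i ∈ S, (∑ a ∈ range k, (v a ⬝ᵥ x) * v a i) ^ 2 := by
    simp [rs, Pj, dotProduct, sq, Finset.sum_apply]
  rw [h, sum_comm (s := range k), mul_sum]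
  exact sum_le_sum fun i _ => sum_mul_sq_le_sq_mul_sq _ _ _

theorem dot_J {J : Mx n} (hJ : Jᵀ = J) (a b : V n) : a ⬝ᵥ J *ᵥ b = (J *ᵥ a) ⬝ᵥ b := by
  rw [dotProduct_mulVec, ← mulVec_transpose, hJ]

theorem al_symm {J : Mx n} (hJ : Jᵀ = J) (al a b : V n) :
    a ⬝ᵥ (al * b - J *ᵥ b) = b ⬝ᵥ (al * a - J *ᵥ a) := by
  rw [dotProduct_sub, dotProduct_sub, dot_J hJ, dotProduct_comm (J *ᵥ a)]
  congr 1
  exact sum_congr rfl fun i _ => by simp only [Pi.mul_apply]; ring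

theorem Mq_symm {J : Mx n} (hJ : Jᵀ = J) (P : ℝ) (S : Finset (Fin n)) (al a b : V n) :
    a ⬝ᵥ Mq J P S al b = b ⬝ᵥ Mq J P S al a := by
  unfold Mq
  rw [dotProduct_add, dotProduct_add, al_symm hJ, dotProduct_smul, dotProduct_smul, dot_J hJ a,
    dot_J hJ b]
  congr 2
  exact sum_congr rfl fun i _ => by dsimp only; split_ifs <;> ring

theorem rs_sq (S : Finset (Fin n)) (x : V n) : rs S x ⬝ᵥ rs S x = ∑ i ∈ S, x i ^ 2 := by
  simp [rs, dotProduct, sq]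

theorem nrm_mono {x y : V n} (h : ∀ i, |x i| ≤ |y i|) : nrm x ≤ nrm y :=
  sqrt_le_sqrt (sum_le_sum fun i _ => by simpa [← sq] using sq_le_sq.2 (h i))

end T62

set_option maxHeartbeats 1000000 in
open T62 in
theorem t6Stmt2 : T6Stmt2 := by
  refine ⟨3, by norm_num, fun n J P y0 p a0 al q k v lq C0 C1 CP e η t t' ε τ S Δ zs hJ op h lq0 lq1
    C00 C11 CP1 e0 η0 ε0 τ0 τ1 hS hΔ hz zt ht => ?_⟩
  set Pz := Pj k v zs with hP
  set r := rs S Pz with hr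
  set u : V n := τ • (zs - Pz + r) with hu
  have zS : ∀ i ∈ S, zs i = 0 := fun i hi => by simp [hz, hi]
  have uS : ∀ i ∈ S, u i = 0 := fun i hi => by simp [hu, hr, rs, hi, zS i hi]
  have ui : ∀ i, |u i| ≤ |(τ • (zs - Pz)) i| := fun i => by
    by_cases hi : i ∈ S
    · rw [uS i hi, abs_zero]; exact abs_nonneg _
    · simp [hu, hr, rs, hi]
  have Z0 := nrm_nonneg zs
  have D0 := nrm_nonneg Δ
  have c0 : 0 ≤ ∑ a ∈ range k, (v a ⬝ᵥ zs) ^ 2 := sum_nonneg fun _ _ => sq_nonneg _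
  have c1 := bessel h.on zs
  have un : nrm u ≤ τ * nrm zs := by
    refine (nrm_mono ui).trans ?_
    rw [nrm_smul, abs_of_pos τ0]
    exact mul_le_mul_of_nonneg_left (sqrt_le_sqrt (by rw [res h.on]; linarith)) τ0.le
  have uu : u ⬝ᵥ u ≤ τ ^ 2 * (zs ⬝ᵥ zs) := by
    rw [← nrm_sq, ← nrm_sq, ← mul_pow]; exact pow_le_pow_left₀ (nrm_nonneg _) un 2
  have z0 := dot_self_nonneg zs
  have τ2 : τ ^ 2 * (zs ⬝ᵥ zs) ≤ zs ⬝ᵥ zs := mul_le_of_le_one_left z0 (pow_le_one₀ τ0.le τ1)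
  have us : ‖u‖ ≤ 2 * η := (pi_norm_le_iff_of_nonneg (by positivity)).2 fun i => by
    have a1 : |Pz i| ≤ η := (norm_le_pi_norm Pz i).trans (h.sup zs zt)
    have a2 : |zs i| ≤ η := by
      rw [hz]; dsimp only; split_ifs with h'
      exacts [h'.2.le, by simpa using η0.le]
    refine (ui i).trans ?_
    rw [Pi.smul_apply, smul_eq_mul, abs_mul, abs_of_pos τ0, Pi.sub_apply]
    nlinarith [abs_sub (zs i) (Pz i), abs_nonneg (zs i - Pz i)]
  obtain ⟨w, w1, w2, w3, w4, w5⟩ := h.pin S u hS uS us (by linarith)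
  have rr : r ⬝ᵥ r ≤ ε / 4 * (zs ⬝ᵥ zs) :=
    (rs_Pj S zs).trans (by rw [mul_comm]; exact mul_le_mul (h.sp S hS) c1 c0 (by positivity))
  have l2 : (CP * τ * nrm zs) ^ 2 = CP ^ 2 * (τ ^ 2 * (zs ⬝ᵥ zs)) := by rw [← nrm_sq]; ring
  have CP2 : 1 ≤ CP ^ 2 := one_le_pow₀ CP1
  refine ⟨w, ⟨w1, w2.trans (by rw [mul_assoc]; exact mul_le_mul_of_nonneg_left un (by linarith)),
    ?_, ?_⟩, w3.trans (by rw [mul_assoc]; exact mul_le_mul_of_nonneg_left uu C00), ?_⟩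
  · rw [l2]; exact (mul_le_mul_of_nonneg_left (by linarith) (by positivity)).trans ht
  · have a1 : ∀ a ∈ range k, (v a ⬝ᵥ w) ^ 2 ≤
        2 * (v a ⬝ᵥ (w - u)) ^ 2 + 2 * τ ^ 2 * (v a ⬝ᵥ r) ^ 2 := fun a ha => by
      have : v a ⬝ᵥ w = v a ⬝ᵥ (w - u) + τ * (v a ⬝ᵥ r) := by
        rw [dotProduct_sub, hu, dotProduct_smul, dotProduct_add, dotProduct_sub, hP,
          dot_Pj h.on zs (mem_range.1 ha), smul_eq_mul]; ring
      rw [this]; nlinarith [sq_nonneg (v a ⬝ᵥ (w - u) - τ * (v a ⬝ᵥ r))]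
    have a2 := sum_le_sum a1
    rw [sum_add_distrib, ← mul_sum, ← mul_sum] at a2
    have a3 := mul_le_mul_of_nonneg_left ((bessel h.on r).trans rr) (sq_nonneg τ)
    have a4 := mul_le_mul_of_nonneg_left uu ε0
    have a5 := mul_le_mul_of_nonneg_right CP2 (mul_nonneg ε0 (mul_nonneg (sq_nonneg τ) z0))
    rw [l2]; linarith
  clear w1 w2 w3 w4 us ui uS l2 ht
  set Y := q * (a0 * Δ - J *ᵥ Δ) with hY
  set E := rs Sᶜ (Mq J P S al (q * w) - (al * (q * u) - J *ᵥ (q * u))) with hE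
  have s0 := sqrt_nonneg ε
  have e1 : (q * w) ⬝ᵥ Mq J P S al Δ = Δ ⬝ᵥ E + (τ * (zs ⬝ᵥ Y - Pz ⬝ᵥ Y + r ⬝ᵥ Y) +
      u ⬝ᵥ (q * (al - a0) * Δ)) := by
    have a1 : Δ ⬝ᵥ E = Δ ⬝ᵥ (Mq J P S al (q * w) - (al * (q * u) - J *ᵥ (q * u))) :=
      sum_congr rfl fun i _ => by
        by_cases hi : i ∈ S
        · simp [hΔ i hi]
        · simp [hE, rs, hi]
    have a2 : τ * (zs ⬝ᵥ Y - Pz ⬝ᵥ Y + r ⬝ᵥ Y) = u ⬝ᵥ Y := by
      rw [hu, smul_dotProduct, add_dotProduct, sub_dotProduct, smul_eq_mul]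
    have a3 : u ⬝ᵥ Y + u ⬝ᵥ (q * (al - a0) * Δ) = (q * u) ⬝ᵥ (al * Δ - J *ᵥ Δ) := by
      rw [← dotProduct_add]
      exact sum_congr rfl fun i _ => by simp only [hY, Pi.mul_apply, Pi.add_apply, Pi.sub_apply]; ring
    rw [a1, a2, a3, Mq_symm hJ, dotProduct_sub, al_symm hJ al Δ, sub_add_cancel]
  have qp : ∀ i, 0 ≤ q i := fun i => (mul_pos lq0 (h.hp i).1).le.trans (h.hq i).1
  have e2 : nrm E ≤ e * (τ * nrm zs) := by
    rw [nrm_le_iff (by positivity), mul_pow, mul_pow, nrm_sq]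
    exact (rs_sq _ _).trans_le (w5.trans (mul_le_mul_of_nonneg_left uu (sq_nonneg e)))
  clear_value E
  have e3 : nrm (q * (al - a0) * Δ) ≤ 2 * e * nrm Δ := by
    rw [← abs_of_nonneg (show 0 ≤ 2 * e by positivity), ← nrm_smul]
    refine nrm_mono fun i => ?_
    simp only [Pi.mul_apply, Pi.sub_apply, Pi.smul_apply, smul_eq_mul, abs_mul]
    rw [abs_of_nonneg (qp i), abs_two, abs_of_nonneg e0]
    exact mul_le_mul_of_nonneg_right (by
      nlinarith [(h.hq i).2, (h.ha i).2, abs_nonneg (al i - a0 i)]) (abs_nonneg _)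
  have e4 : nrm Y ≤ 8 * C1 * nrm Δ := by
    have a1 : nrm (q * (a0 * Δ)) ≤ nrm ((2 * C1) • Δ) := nrm_mono fun i => by
      simp only [Pi.mul_apply, Pi.smul_apply, smul_eq_mul, abs_mul]
      rw [abs_of_nonneg (qp i), abs_two, abs_of_nonneg (by linarith : 0 ≤ C1), ← mul_assoc]
      exact mul_le_mul_of_nonneg_right (by
        nlinarith [(h.hq i).2, (h.ha i).1, abs_nonneg (a0 i)]) (abs_nonneg _)
    have a2 : nrm (q * J *ᵥ Δ) ≤ nrm ((2 : ℝ) • J *ᵥ Δ) := nrm_mono fun i => by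
      simp only [Pi.mul_apply, Pi.smul_apply, smul_eq_mul, abs_mul]
      rw [abs_of_nonneg (qp i), abs_two]
      exact mul_le_mul_of_nonneg_right (by linarith [(h.hq i).2, (h.hp i).2]) (abs_nonneg _)
    rw [nrm_smul, abs_of_nonneg (by linarith)] at a1 a2
    have a3 := (nrm_mulVec_le J Δ).trans (mul_le_mul_of_nonneg_right op D0)
    rw [hY, mul_sub]
    nlinarith [nrm_sub_le (q * (a0 * Δ)) (q * J *ᵥ Δ)]
  have e5 : lq * (zs ⬝ᵥ zs) ≤ zs ⬝ᵥ Y := by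
    rw [dotProduct, mul_sum]
    refine sum_le_sum fun i _ => ?_
    rw [hz]; dsimp only; split_ifs
    · simp only [zv, hY, Pi.mul_apply]
      have := mul_le_mul_of_nonneg_right (h.hq i).1
        (mul_nonneg (h.hp i).1.le (mul_self_nonneg ((a0 * Δ - J *ᵥ Δ) i)))
      linarith
    · simp
  have e6 : Pz ⬝ᵥ Y ≤ lq / 2 * (zs ⬝ᵥ zs) + Mod J y0 a0 q k v Δ / lq := by
    have a1 : ∀ a ∈ range k, (v a ⬝ᵥ zs) * (v a ⬝ᵥ Y) ≤
        lq / 2 * (v a ⬝ᵥ zs) ^ 2 + 1 / lq * (v a ⬝ᵥ Y) ^ 2 := fun a _ => by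
      rw [← sub_nonneg, show ∀ x y : ℝ, lq / 2 * x ^ 2 + 1 / lq * y ^ 2 - x * y =
        ((lq * x - y) ^ 2 + y ^ 2) / (2 * lq) from fun x y => by field_simp; ring]
      positivity
    have a2 := sum_le_sum a1
    rw [sum_add_distrib, ← mul_sum, ← mul_sum, ← Pj_dot] at a2
    have a3 : 0 ≤ (mag (ising J y0) ⬝ᵥ Δ) ^ 2 / (mag (ising J y0) ⬝ᵥ mag (ising J y0)) / lq :=
      div_nonneg (div_nonneg (sq_nonneg _) (dot_self_nonneg _)) lq0.le
    have a4 := mul_le_mul_of_nonneg_left c1 (half_pos lq0).le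
    rw [Mod, add_div, ← hY, div_eq_inv_mul _ lq, ← one_div]; linarith
  have e7 : nrm r ≤ √ε / 2 * nrm zs := by
    rw [nrm_le_iff (by positivity), mul_pow, div_pow, sq_sqrt ε0, nrm_sq]; linarith
  have f1 := neg_le_of_abs_le ((abs_dot_le Δ E).trans (mul_le_mul_of_nonneg_left e2 D0))
  have f2 := neg_le_of_abs_le ((abs_dot_le u _).trans (mul_le_mul un e3 (nrm_nonneg _) (by positivity)))
  have f3 := neg_le_of_abs_le ((abs_dot_le r Y).trans (mul_le_mul e7 e4 (nrm_nonneg _) (by positivity)))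
  have g1 : 2 * (nrm zs * nrm Δ) ≤ zs ⬝ᵥ zs + Δ ⬝ᵥ Δ := by
    rw [← nrm_sq, ← nrm_sq]; nlinarith [sq_nonneg (nrm zs - nrm Δ)]
  have g2 : e + 2 * e + 4 * C1 * √ε ≤ 6 * C1 * (e + √ε) := by nlinarith
  have g3 := mul_le_mul g2 g1 (by positivity) (by positivity)
  have g4 := mul_le_mul_of_nonneg_left (show lq / 2 * (zs ⬝ᵥ zs) - Mod J y0 a0 q k v Δ / lq -
      3 * C1 * (e + √ε) * (zs ⬝ᵥ zs + Δ ⬝ᵥ Δ) ≤ zs ⬝ᵥ Y - Pz ⬝ᵥ Y + r ⬝ᵥ Y -
      (e + 2 * e) * (nrm zs * nrm Δ) by linarith) τ0.le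
  rw [e1]; linarith

end Crest.Agent.T157.S1

end
end

-- ▼ part T157/S1TiDef_56
section

/-!
# Row 157, part B, block S1 (helper56): the two halves of `TiltStmt`
-/

set_option autoImplicit false

noncomputable section

namespace Crest.Agent.T157.S1

open MeasureTheory Real Matrix Finset
open Crest.Agent.T157.E Crest.Agent.T157.SL
open Crest.Agent.T157.S3 (V Mx tau)

variable {n : ℕ}

/-- the hypotheses of `TiltStmt` -/
structure TiH (K0 κ0 C : ℝ) (D : Dat n) (s : St n) (y0 p al q w : V n) (a e e1 ec CN C0 K l κ ω : ℝ)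
    (φ : Cube n → ℝ) (W Ω : Cube n → V n) (G : Cube n → ℝ) : Prop where
  ok : D.Ok
  cl : Cl ec ec s
  bas : Bas D.J K0 κ0 y0
  ans : AnsW D.J y0 a p al q e e1 CN C0 K w l φ W Ω G
  p0 : ∀ i, 0 ≤ p i
  e0 : 0 ≤ e
  e10 : 0 ≤ e1
  e1c : e1 ≤ ec
  CN1 : 1 ≤ CN
  C00 : 0 ≤ C0
  K1 : 1 ≤ K
  l0 : 0 ≤ l
  k0 : 0 < κ
  k1 : κ ≤ 1
  o0 : 0 < ω
  o1 : ω ≤ 1
  he : C * D.P * √e ≤ κ * ω
  hc : Mx' C D.P CN κ D.η0 ω ^ 2 * ec ≤ 1

/-- `ν ⟨χ, W⟩` -/
def chW (D : Dat n) (s : St n) (W : Cube n → V n) : ℝ :=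
  mean (nu D s) fun σ => ∑ i, Ta.chi (nu D s) (pi D s) i σ * W σ i

/-- **T0 - T2** -/
def TiltA : Prop := ∀ K0 κ0 : ℝ, 0 < κ0 → ∃ C ≥ (1 : ℝ), ∀ (n : ℕ) (D : Dat n) (s : St n)
  (y0 p al q w : V n) (a e e1 ec CN C0 K l κ ω : ℝ) (φ : Cube n → ℝ) (W Ω : Cube n → V n)
  (G : Cube n → ℝ), TiH K0 κ0 C D s y0 p al q w a e e1 ec CN C0 K l κ ω φ W Ω G →
  AA D (s.un.tl φ (CN * l) Ω G) + (1 - 2 * D.η0) * chW D s W ≤
    (1 + κ) * AA D s + C * C0 * (p ⬝ᵥ (w * w)) + C / κ * (del s ⬝ᵥ del s) + ω * (Bb D s y0 + l ^ 2) +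
      Mx' C D.P CN κ D.η0 ω * (Ex D s + K)

/-- **T3 - T4** -/
def TiltB : Prop := ∀ K0 κ0 : ℝ, 0 < κ0 → ∃ C ≥ (1 : ℝ), ∀ (n : ℕ) (D : Dat n) (s : St n)
  (y0 p al q w : V n) (a e e1 ec CN C0 K l κ ω : ℝ) (φ : Cube n → ℝ) (W Ω : Cube n → V n)
  (G : Cube n → ℝ), TiH K0 κ0 C D s y0 p al q w a e e1 ec CN C0 K l κ ω φ W Ω G →
  (mean (nu D s) fun σ => W σ ⬝ᵥ tau D.J y0 σ) - (mean (pi D s) fun σ => W σ ⬝ᵥ tau D.J y0 σ) +
      D.P * ∑ k ∈ s.S, (D.J *ᵥ Del D s) k * (D.J *ᵥ (q * w)) k ≤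
    chW D s W + ω * (Bb D s y0 + l ^ 2) + Mx' C D.P CN κ D.η0 ω * (Ex D s + K)

def TiltAGlue : Prop := CrudeStmt → B1Stmt → TiltA
def TiltBGlue : Prop := CrudeStmt → B1Stmt → TiltB

end Crest.Agent.T157.S1

end
end

-- ▼ part T157/S1TiC_56
section

/-!
# Row 157, part B, block S1 (helper56): assembly of `TiltStmt` (T5)
-/

set_option autoImplicit false

noncomputable section

namespace Crest.Agent.T157.S1

open MeasureTheory Real Matrix Finset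
open Crest.Agent.T157.E Crest.Agent.T157.SL
open Crest.Agent.T157.S3 (V Mx tau)

namespace Ti56

variable {n : ℕ}

theorem mean_lin (v : Cube n → ℝ) (u : V n) : (mean v fun σ => u ⬝ᵥ sv σ) = u ⬝ᵥ mag v :=
  (meanV_dot v sv u).symm

theorem pi_tl (D : Dat n) (s : St n) (φ : Cube n → ℝ) (l : ℝ) (Ω : Cube n → V n) (G : Cube n → ℝ) :
    pi D (s.un.tl φ l Ω G) = Ta.wt (pi D s) fun σ => φ σ - del s ⬝ᵥ sv σ := by
  funext σ
  change loc D s σ * exp ((s.y - s.y) ⬝ᵥ sv σ + (s.Th σ + φ σ)) =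
    loc D s σ * exp (del s ⬝ᵥ sv σ + s.Th σ) * exp (φ σ - del s ⬝ᵥ sv σ)
  rw [mul_assoc, ← exp_add, sub_self, zero_dotProduct]; congr 2; ring

theorem HH_tl {D : Dat n} {s : St n} (h : Ta.Pr (nu D s) (pi D s)) (φ : Cube n → ℝ) (l : ℝ)
    (Ω : Cube n → V n) (G : Cube n → ℝ) : HH D s ≤ HH D (s.un.tl φ l Ω G) +
      (mean (nu D s) φ - mean (pi D s) φ) - del s ⬝ᵥ Del D s := by
  have := Ta.kl_wt_ge h fun σ => φ σ - del s ⬝ᵥ sv σ
  rw [← pi_tl D s φ l Ω G, mean_sub, mean_sub, mean_lin, mean_lin] at this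
  rw [Del, Ta.Dm, dotProduct_sub]
  change kl _ _ ≤ kl (nu D s) _ + _ - _
  linarith

theorem Mq_dot {J : Mx n} (hJ : Jᵀ = J) (P : ℝ) (S : Finset (Fin n)) (al u Δ : V n) :
    u ⬝ᵥ Mq J P S al Δ = (al * u - J *ᵥ u) ⬝ᵥ Δ + P * ∑ k ∈ S, (J *ᵥ Δ) k * (J *ᵥ u) k := by
  have e : ∀ v, u ⬝ᵥ J *ᵥ v = J *ᵥ u ⬝ᵥ v := fun v => by
    rw [dotProduct_mulVec, ← mulVec_transpose, hJ]
  rw [Mq, dotProduct_add, dotProduct_sub, dotProduct_smul, e, e, sub_dotProduct, smul_eq_mul]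
  congr 2
  · exact Finset.sum_congr rfl fun i _ => by simp only [Pi.mul_apply]; ring
  · simp only [dotProduct, mul_ite, mul_zero, Finset.sum_ite_mem, Finset.univ_inter, mul_comm]

theorem Mx_mul (C P CN κ η ω : ℝ) : Mx' C P CN κ η (ω / 3) = Mx' (9 * C) P CN κ η ω := by
  unfold Mx'
  rw [show κ * η * (ω / 3) = κ * η * ω / 3 by ring, div_div_eq_mul_div, mul_div_right_comm]; ring

theorem err {C C1 P e κ ω B l k k' : ℝ} (c1 : 1 ≤ C1) (hC : 6 * C1 ≤ C) (P1 : 1 ≤ P) (e0 : 0 ≤ e)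
    (k1 : κ ≤ 1) (o0 : 0 < ω) (o1 : ω ≤ 1) (he : C * P * √e ≤ κ * ω) (B0 : 0 ≤ B) (h : k ≤ C1 * B)
    (h' : k' ≤ C1 * B) : e * (l ^ 2 + k) + e * (l ^ 2 + k') ≤ ω / 3 * (B + l ^ 2) := by
  have se := sqrt_nonneg e
  have h0 : 0 ≤ C * √e := mul_nonneg (by linarith) se
  have h1 : C * √e ≤ ω := by nlinarith
  have h2 : √e ≤ 1 := by nlinarith
  have e2 : 6 * C1 * e ≤ ω := by nlinarith [sq_sqrt e0, mul_le_mul_of_nonneg_right hC se]
  nlinarith [mul_le_mul_of_nonneg_left h e0, mul_le_mul_of_nonneg_left h' e0,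
    mul_le_mul_of_nonneg_right e2 B0, mul_le_mul_of_nonneg_right e2 (sq_nonneg l),
    mul_le_mul_of_nonneg_right c1 (show 0 ≤ e * l ^ 2 by positivity)]

theorem young {t c : ℝ} (t0 : 0 ≤ t) (t1 : t ≤ 1) (c0 : 0 < c) (u v : V n) :
    -(t * (u ⬝ᵥ v)) ≤ c * (v ⬝ᵥ v) + 1 / c * (u ⬝ᵥ u) := by
  simp only [dotProduct, Finset.mul_sum, ← Finset.sum_neg_distrib, ← Finset.sum_add_distrib]
  refine Finset.sum_le_sum fun i _ => le_of_mul_le_mul_left ?_ c0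
  have h2 : t ^ 2 ≤ 1 := pow_le_one₀ t0 t1
  rw [show c * (c * (v i * v i) + 1 / c * (u i * u i)) = (c * v i) ^ 2 + u i ^ 2 by field_simp]
  nlinarith [sq_nonneg (c * v i + t * u i / 2), mul_le_mul_of_nonneg_right h2 (sq_nonneg (u i))]

end Ti56

open Ti56

theorem tiltC (cr : CrudeStmt) (b1 : B1Stmt) (hA : TiltA) (hB : TiltB) : TiltStmt := by
  intro K0 κ0 hκ0
  obtain ⟨C1, c1, b1⟩ := b1 K0 κ0 hκ0
  obtain ⟨CA, cA, hA⟩ := hA K0 κ0 hκ0
  obtain ⟨CB, cB, hB⟩ := hB K0 κ0 hκ0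
  obtain ⟨C, hC⟩ : ∃ C, C = 9 * CA + 9 * CB + 6 * C1 := ⟨_, rfl⟩
  refine ⟨C, by linarith, ?_⟩
  intro n D s y0 p al q w a e e1 ec CN C0 K l κ c ω φ W Ω G ok cl bas ans p0 a0 a1 e0 e10 e1c CN1 C00 K1
    l0 k0 k1 c0 o0 o1 he hc
  have P1 := ok.P1
  have η0 := ok.e0
  have η1 := ok.e1
  obtain ⟨x, hx, x1⟩ : ∃ x, (∀ C, Mx' C D.P CN κ D.η0 ω = C * x) ∧ 1 ≤ x := by
    refine ⟨_, fun _ => rfl, one_le_pow₀ ((one_le_div (by positivity)).2 ?_)⟩
    exact (mul_le_one₀ (mul_le_one₀ k1 η0.le (by linarith)) o0.le o1).trans (one_le_mul_of_one_le_of_one_le P1 CN1)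
  have H : ∀ C', 1 ≤ C' → 9 * C' ≤ C →
      TiH K0 κ0 C' D s y0 p al q w a e e1 ec CN C0 K l κ (ω / 3) φ W Ω G := fun C' h1 h2 => by
    refine ⟨ok, cl, bas, ans, p0, e0, e10, e1c, CN1, C00, K1, l0, k0, k1, by linarith, by linarith, ?_, ?_⟩
    · linarith [mul_le_mul_of_nonneg_right h2 (show 0 ≤ D.P * √e by positivity),
        show 0 ≤ C' * (D.P * √e) by positivity]
    · rw [Mx_mul, hx]
      rw [hx] at hc
      refine le_trans ?_ hc
      have : 0 ≤ ec := e10.trans e1c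
      gcongr
  have A := hA n D s y0 p al q w a e e1 ec CN C0 K l κ _ φ W Ω G (H CA cA (by linarith))
  have B := hB n D s y0 p al q w a e e1 ec CN C0 K l κ _ φ W Ω G (H CB cB (by linarith))
  clear H hA hB
  obtain ⟨pr, -, -, -, -, y1, y2, -, -, x0, -⟩ := cr n D s ok
  obtain ⟨k2, k3, -⟩ := b1 n D s y0 ec ec ok cl bas
  have B0 : 0 ≤ Bb D s y0 := by
    have := dot_self_nonneg (del s)
    unfold Bb Bd; positivity
  have d1 := abs_le.1 (ans.d _ pr.hv _ rfl)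
  have d2 := abs_le.1 (ans.d _ pr.hw _ rfl)
  simp only [mean_sub, mean_const_mul, mean_lin] at d1 d2
  have T := HH_tl pr φ (CN * l) Ω G
  rw [Mq_dot ok.symm, hx]
  rw [Mx_mul, hx] at A B
  have e3 : (al * (q * w) - D.J *ᵥ (q * w)) ⬝ᵥ Del D s =
      (al * (q * w) - D.J *ᵥ (q * w)) ⬝ᵥ mag (nu D s) - (al * (q * w) - D.J *ᵥ (q * w)) ⬝ᵥ mag (pi D s) :=
    dotProduct_sub _ _ _
  have e4 := err (l := l) c1 (by linarith) P1 e0 k1 o0 o1 he B0 k2 k3
  obtain ⟨r, hr, r0, r1⟩ : ∃ r, r = 1 - 2 * D.η0 ∧ 0 ≤ r ∧ r ≤ 1 := ⟨_, rfl, by linarith, by linarith⟩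
  rw [← hr] at A ⊢
  have ra0 : 0 ≤ r * a := mul_nonneg r0 a0
  have e5 := young ra0 (mul_le_one₀ r1 a0 a1) c0 (del s) (Del D s)
  have X1 : K ≤ x * (Ex D s + K) :=
    (le_add_of_nonneg_left x0).trans (le_mul_of_one_le_left (by positivity) x1)
  have X2 := mul_le_mul_of_nonneg_right c1 (show 0 ≤ x * (Ex D s + K) by positivity)
  have f1 : r * (a * (mean (nu D s) φ - mean (pi D s) φ) +
      ((al * (q * w) - D.J *ᵥ (q * w)) ⬝ᵥ Del D s +
        D.P * ∑ k ∈ s.S, (D.J *ᵥ Del D s) k * (D.J *ᵥ (q * w)) k) - chW D s W) ≤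
      2 * (ω / 3 * (Bb D s y0 + l ^ 2)) + (9 * CB + 6 * C1) * (x * (Ex D s + K)) :=
    (mul_le_mul_of_nonneg_left (by linarith) r0).trans (mul_le_of_le_one_left (by positivity) r1)
  have f2 := mul_le_mul_of_nonneg_left T ra0
  have f3 : CA * C0 * (p ⬝ᵥ (w * w)) ≤ C * C0 * (p ⬝ᵥ (w * w)) := by
    have : 0 ≤ p ⬝ᵥ (w * w) := Finset.sum_nonneg fun i _ => mul_nonneg (p0 i) (mul_self_nonneg _)
    gcongr; linarith
  have f4 : CA / κ * (del s ⬝ᵥ del s) ≤ C / κ * (del s ⬝ᵥ del s) := by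
    have := dot_self_nonneg (del s)
    gcongr; linarith
  have f5 : C * x * (Ex D s + K) = (9 * CA + 9 * CB + 6 * C1) * (x * (Ex D s + K)) := by rw [hC]; ring
  linarith

/-- **task 937** -/
theorem tiltGlue (hA : TiltAGlue) (hB : TiltBGlue) (cr : CrudeStmt) (b1 : B1Stmt) : TiltStmt :=
  tiltC cr b1 (hA cr b1) (hB cr b1)

end Crest.Agent.T157.S1

end
end

-- ▼ part T157/S1TiA_58
section

/-!
# Row 157, block S1: the site part of a tilt (helper58)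
-/

set_option autoImplicit false

noncomputable section

namespace Crest.Agent.T157.S1

open Real Matrix Finset Function
open Crest.Agent.T157.E Crest.Agent.T157.SL
open Crest.Agent.T157.Ta
open Crest.Agent.T157.Ue (El Es Lw es xs Ld)
open Crest.Agent.T157.Rec (grad grad_add grad_sub grad_lin grad_const grad_const_mul grad_eq)
open Crest.Agent.T157.Eig (nrm opn nrm_sq nrm_nonneg opn_nonneg mulVec_dot_le)
open Crest.Agent.T157.S3 (V Mx tau Dg hf TS Rg)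
open Crest.ProbabilityR.SpinGlassDynamics (spin)

namespace TiA58

variable {n : ℕ} {D : Dat n} {s : St n} {σ : Cube n}

/-! ### the local field of `π` -/

theorem grad_ising {J : Mx n} (hJ : Jᵀ = J) (h0 : ∀ j, J j j = 0) (y : V n) (x : Cube n) (j : Fin n) :
    grad (fun x => log (ising J y x)) x j = hf J y x j := by
  rw [grad_eq, Da.Gr.ising_fl hJ, log_mul (Da.Gr.ising_pos J y x).ne' (exp_pos _).ne', log_exp,
    Da.Gr.loc, h0, hf, Pi.add_apply]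
  linear_combination ((J *ᵥ sv x) j + y j) * Rec.sv_mul_self x j

/-- the exponent of `π` over `loc` -/
def Gp (s : St n) (σ : Cube n) : ℝ := del s ⬝ᵥ sv σ + s.Th σ

theorem grad_Gp (s : St n) (σ : Cube n) : grad (Gp s) σ = del s + grad s.Th σ := by
  rw [show Gp s = fun σ => del s ⬝ᵥ sv σ + s.Th σ from rfl, grad_add, grad_lin]

/-- the shift of the local field of `π` with respect to the base point -/
def ef (D : Dat n) (s : St n) (y0 : V n) (σ : Cube n) : V n :=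
  s.y' - y0 + grad s.Th σ - grad (U D s) σ

theorem pins (hx : nu D s σ ≠ 0) : ∀ k ∈ s.S, σ k = s.sS k := by
  by_contra h
  exact hx (by simp only [nu, loc, ell, if_neg h, mul_zero, zero_mul])

theorem cm_pi (hD : D.Ok) (y0 : V n) (hx : nu D s σ ≠ 0) {j : Fin n} (hj : j ∉ s.S) :
    cm (pi D s) j σ = tanh (hf D.J y0 σ j + ef D s y0 σ j) := by
  have e : ∀ b, pi D s (update σ j b) = exp (log (ising D.J s.y (update σ j b)) -
      U D s (update σ j b) + Gp s (update σ j b)) := fun b => by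
    have h : ∀ k ∈ s.S, update σ j b k = s.sS k := fun k hk => by
      rw [update_of_ne (ne_of_mem_of_not_mem hk hj)]; exact pins hx k hk
    rw [exp_add, sub_eq_add_neg, exp_add, exp_log (Da.Gr.ising_pos _ _ _), pi, wt, loc, ell, if_pos h]
    rfl
  have hF : Ue.Fr (pi D s) j σ := ⟨by rw [e]; exact exp_pos _, by rw [e]; exact exp_pos _⟩
  rw [hF.cm, Hd.hl, e, e, log_exp, log_exp]
  congr 1
  change grad (fun z => log (ising D.J s.y z) - U D s z + Gp s z) σ j = _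
  rw [grad_add, grad_sub, grad_Gp, Pi.add_apply, Pi.sub_apply, grad_ising hD.symm hD.diag]
  simp only [hf, ef, del, Pi.add_apply, Pi.sub_apply]
  ring

theorem cm_pin (hw : Wt (loc D s)) (hx : nu D s σ ≠ 0) {j : Fin n} (hj : j ∈ s.S) :
    cm (pi D s) j σ ^ 2 = 1 := by
  have h0 : loc D s σ ≠ 0 := fun e => hx (by rw [nu, e, zero_mul])
  have hF : ¬Ue.Fr (loc D s) j σ := fun hF => by
    have k : ∀ b, 0 < loc D s (update σ j b) → b = s.sS j := fun b hb => by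
      by_contra h
      rw [loc, ell, if_neg fun h' => h (by simpa using h' j hj), mul_zero] at hb
      exact lt_irrefl _ hb
    exact absurd ((k _ hF.1).trans (k _ hF.2).symm) (by simp)
  obtain ⟨b, hb⟩ := Ue.pinned hw h0 hF
  rw [show cm (pi D s) j σ = spin b from (hb (fun σ => exp (Gp s σ)) fun _ => exp_pos _).2]
  cases b <;> simp [spin]

theorem var_pi (hD : D.Ok) (hw : Wt (loc D s)) (y0 : V n) (hx : nu D s σ ≠ 0) (j : Fin n) :
    1 - cm (pi D s) j σ ^ 2 ≤ 7.4 * Dg D.J y0 σ j + ef D s y0 σ j ^ 2 := by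
  by_cases hj : j ∈ s.S
  · rw [cm_pin hw hx hj, sub_self]
    have := Br.Chi58.Dg_nonneg D.J y0 σ j
    positivity
  · exact Br.Chi58.shift (cm_pi hD y0 hx hj)

theorem grad_U (D : Dat n) (s : St n) (σ : Cube n) (j : Fin n) : grad (U D s) σ j =
    D.P * (D.Jᵀ *ᵥ fun k => if k ∈ s.S then uu D s σ k else 0) j -
      D.P * sv σ j * ∑ k ∈ s.S, D.J k j ^ 2 := by
  have e : ∀ k, grad (fun z => uu D s z k) σ j = D.J k j := fun k => by
    rw [show (fun z => uu D s z k) = fun z => D.J k ⬝ᵥ sv z - s.x k from rfl, grad_sub, grad_lin,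
      grad_const, sub_zero]
  rw [show U D s = fun z => D.P / 2 * ∑ k ∈ s.S, uu D s z k ^ 2 from rfl, grad_const_mul, Pi.smul_apply,
    Da.Gr.grad_sum]
  simp only [sq, Da.Gr.grad_mul, e, mulVec, dotProduct, transpose_apply, mul_ite, mul_zero,
    sum_ite_mem, univ_inter, smul_eq_mul, mul_sum, ← sum_sub_distrib]
  exact sum_congr rfl fun k _ => by ring

theorem grad_U_sq (hD : D.Ok) (σ : Cube n) :
    ∑ j, grad (U D s) σ j ^ 2 ≤ 36 * D.P * U D s σ + 162 * D.P ^ 2 * #s.S := by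
  have o2 : opn D.J ^ 2 ≤ 9 := by nlinarith [hD.op, opn_nonneg D.J]
  have col : ∀ j, ∑ k, D.J k j ^ 2 ≤ 9 := fun j => (Da.Gr.row_sq_le D.J j).trans o2
  have row : ∀ k, ∑ j, D.J k j ^ 2 ≤ 9 := fun k => by
    refine le_trans (le_of_eq (sum_congr rfl fun j _ => ?_)) (col k)
    rw [← transpose_apply D.J, hD.symm]
  set u : V n := fun k => if k ∈ s.S then uu D s σ k else 0 with hu
  have h1 : ∑ j, (D.Jᵀ *ᵥ u) j ^ 2 ≤ 9 * ∑ k ∈ s.S, uu D s σ k ^ 2 := by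
    have a := mulVec_dot_le D.Jᵀ u
    have b : u ⬝ᵥ u = ∑ k ∈ s.S, uu D s σ k ^ 2 := by
      simp only [hu, dotProduct, mul_ite, ite_mul, mul_zero, zero_mul, sum_ite_mem, univ_inter, sq,
        inter_self]
    rw [hD.symm, b] at a
    rw [hD.symm]
    simp only [sq] at a ⊢
    exact a.trans (mul_le_mul_of_nonneg_right (by simpa only [sq] using o2)
      (sum_nonneg fun _ _ => mul_self_nonneg _))
  have h2 : ∑ j, (∑ k ∈ s.S, D.J k j ^ 2) ^ 2 ≤ 81 * #s.S := by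
    calc _ ≤ ∑ j, 9 * ∑ k ∈ s.S, D.J k j ^ 2 := sum_le_sum fun j _ => by
          rw [sq]
          exact mul_le_mul_of_nonneg_right ((sum_le_univ_sum_of_nonneg fun _ => sq_nonneg _).trans
            (col j)) (sum_nonneg fun _ _ => sq_nonneg _)
      _ = 9 * ∑ k ∈ s.S, ∑ j, D.J k j ^ 2 := by rw [← mul_sum, sum_comm]
      _ ≤ 9 * ∑ _k ∈ s.S, (9 : ℝ) := by gcongr with k; exact row k
      _ = _ := by rw [sum_const, nsmul_eq_mul]; ring
  have h3 : ∀ j, grad (U D s) σ j ^ 2 ≤ 2 * D.P ^ 2 * (D.Jᵀ *ᵥ u) j ^ 2 +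
      2 * D.P ^ 2 * (∑ k ∈ s.S, D.J k j ^ 2) ^ 2 := fun j => by
    rw [grad_U]
    have := Rec.sv_mul_self σ j
    set a := (D.Jᵀ *ᵥ u) j
    set b := ∑ k ∈ s.S, D.J k j ^ 2
    have e : (D.P * sv σ j * b) ^ 2 = D.P ^ 2 * b ^ 2 := by
      linear_combination D.P ^ 2 * b ^ 2 * this
    nlinarith [sq_nonneg (D.P * a + D.P * sv σ j * b)]
  refine (sum_le_sum fun j _ => h3 j).trans ?_
  rw [sum_add_distrib, ← mul_sum, ← mul_sum, U]
  have p2 : 0 ≤ 2 * D.P ^ 2 := by positivity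
  nlinarith [mul_le_mul_of_nonneg_left h1 p2, mul_le_mul_of_nonneg_left h2 p2]

theorem sum_sq (v : V n) : ∑ j, v j ^ 2 = nrm v ^ 2 := by
  rw [nrm_sq]; simp only [dotProduct, sq]

theorem sum_sq_le {v : V n} {c : ℝ} (h : nrm v ≤ c) : ∑ j, v j ^ 2 ≤ c ^ 2 := by
  rw [sum_sq]; exact pow_le_pow_left₀ (nrm_nonneg _) h 2

theorem ef_sq (hD : D.Ok) {e A : ℝ} (hc : Cl e A s) (y0 : V n) (σ : Cube n) :
    ∑ j, ef D s y0 σ j ^ 2 ≤ 4 * (nrm (s.y - y0) ^ 2 + del s ⬝ᵥ del s + s.L ^ 2) +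
      144 * D.P * U D s σ + 648 * D.P ^ 2 * #s.S := by
  have h : ∀ j, ef D s y0 σ j ^ 2 ≤ 4 * ((s.y - y0) j ^ 2 + del s j ^ 2 + grad s.Th σ j ^ 2) +
      4 * grad (U D s) σ j ^ 2 := fun j => by
    have e : ef D s y0 σ j = (s.y - y0) j + del s j + grad s.Th σ j - grad (U D s) σ j := by
      simp only [ef, del, Pi.add_apply, Pi.sub_apply]; ring
    rw [e]
    generalize (s.y - y0) j = a, del s j = b, grad s.Th σ j = c, grad (U D s) σ j = d
    nlinarith [sq_nonneg (a - b), sq_nonneg (a - c), sq_nonneg (a + d), sq_nonneg (b - c),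
      sq_nonneg (b + d), sq_nonneg (c + d)]
  refine (sum_le_sum fun j _ => h j).trans ?_
  simp only [sum_add_distrib, ← mul_sum]
  rw [sum_sq, sum_sq (del s), nrm_sq (del s)]
  linarith [sum_sq_le (hc.gr σ), grad_U_sq (s := s) hD σ]

/-- **the shift of the field is paid by the budget** -/
theorem ef_mean (hD : D.Ok) {e A : ℝ} (hc : Cl e A s) (y0 : V n) (hv : Wt (nu D s))
    (hH : 0 ≤ Hy D s) (hU : 0 ≤ mean (nu D s) (U D s)) :
    mean (nu D s) (fun σ => ∑ j, ef D s y0 σ j ^ 2) ≤ 648 * D.P ^ 2 * Bb D s y0 := by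
  refine (hv.mean_mono fun σ => ef_sq hD hc y0 σ).trans ?_
  rw [mean_add, mean_add, hv.mean_const, hv.mean_const, mean_const_mul, Bb, Bd]
  have P1 := hD.P1
  have P2 : D.P ≤ D.P ^ 2 := by nlinarith
  have a : 0 ≤ nrm (s.y - y0) ^ 2 + del s ⬝ᵥ del s + s.L ^ 2 := by rw [← nrm_sq]; positivity
  have b1 := mul_le_mul_of_nonneg_right (P1.trans P2) a
  have b2 := mul_le_mul_of_nonneg_right P2 hU
  have b3 := mul_nonneg (sq_nonneg D.P) hH
  have b4 := mul_nonneg (sq_nonneg D.P) hU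
  nlinarith

/-! ### site inequalities -/

/-- the density of `AA` -/
def aa (D : Dat n) (s : St n) (σ : Cube n) (j : Fin n) : ℝ :=
  Ue.rw D.η0 D.θ D.f j σ * kls (nu D s) (pi D s) j σ +
    (1 - D.θ) / 2 * (Lw D.η0 D.f j σ * es (nu D s) (loc D s) j σ)

theorem AA_eq (D : Dat n) (s : St n) : AA D s = mean (nu D s) fun σ => ∑ j, aa D s σ j := by
  simp only [AA, aa, Ar, As, El, Es, mean_sum, mean_add, mean_const_mul, sum_add_distrib, mul_sum]

theorem xs_le {c a b o : ℝ} (ho : |o| ≤ c / 2) : xs c (a + b) ≤ 8 * (a ^ 2 + (b - o) ^ 2) := by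
  have := Ue.xs_le_sq (t := a + b) ho
  nlinarith [sq_nonneg (a - (b - o))]

section site
variable (hD : D.Ok) (hw : Wt (loc D s)) (hx : nu D s σ ≠ 0) (j : Fin n)
include hD hw hx

theorem dens_nonneg : 0 ≤ Ue.rw D.η0 D.θ D.f j σ * kls (nu D s) (pi D s) j σ ∧
    0 ≤ Lw D.η0 D.f j σ * es (nu D s) (loc D s) j σ := by
  obtain ⟨p1, p2⟩ := Ue.pr_mul (v := nu D s) hw hD.fpos rfl
  exact ⟨mul_nonneg (Ue.rw_mem hD.e0.le (by linarith [hD.e1]) hD.t0 (by linarith [hD.t1, hD.e0]) _ _ _).1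
    ((p1.wt _).kls_nonneg j hx), mul_nonneg (Ue.Lw_mem _ _ _ _).1 (Ue.es_nonneg p1 p2 j hx)⟩

/-- **`χ²` is paid by `AA`, `δ` and the excess** -/
theorem chi_sq {o : ℝ} (ho : |o| ≤ D.η0 / 2) : chi (nu D s) (pi D s) j σ ^ 2 ≤
    3248 * aa D s σ j + 16 * (del s j ^ 2 + (grad s.Th σ j - o) ^ 2) := by
  obtain ⟨p1, p2⟩ := Ue.pr_mul (v := nu D s) hw hD.fpos rfl
  obtain ⟨d1, d2⟩ := dens_nonneg hD hw hx j
  have k0 : 0 ≤ kls (nu D s) (pi D s) j σ := (p1.wt _).kls_nonneg j hx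
  have a1 : chi (nu D s) (pi D s) j σ ^ 2 / 2 ≤ kls (nu D s) (pi D s) j σ := chi_sq_le (p1.wt _) j hx
  have z : 0 ≤ del s j ^ 2 + (grad s.Th σ j - o) ^ 2 := by positivity
  have t1 : 0 ≤ 1 - D.θ := by linarith [hD.t1, hD.e0]
  have d3 := mul_nonneg t1 d2
  unfold aa
  by_cases h : 1 / 2 ≤ Ue.rw D.η0 D.θ D.f j σ
  · have := mul_le_mul_of_nonneg_right h k0
    linarith
  · have hL : Ld D.η0 D.f j σ := by
      by_contra hL
      exact h (by rw [Ue.rw_of_not hL]; linarith [hD.e1])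
    rw [Ue.rw_of hL, not_le] at h
    have a2 := Ue.chi_loud_site (v := nu D s) hw hD.fpos rfl (Gp s) hD.e0 (by linarith [hD.e1])
      zero_le_one le_rfl j hx
    rw [grad_Gp, Pi.add_apply, one_mul, one_pow, mul_one] at a2
    nth_rw 1 [Ue.Lw_of hL] at a2
    rw [one_mul] at a2
    have a3 := xs_le (a := del s j) (b := grad s.Th σ j) ho
    have a4 := mul_le_mul_of_nonneg_right Ue.exp_six d2
    have a5 := mul_le_mul_of_nonneg_right h.le d2
    change chi (nu D s) (pi D s) j σ ^ 2 ≤ _ at a2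
    linarith

theorem loud {κ g o o' : ℝ} (k0 : 0 < κ) (k1 : κ ≤ 1) (ho : |o| ≤ κ / 100 * D.η0 / 2)
    (ho' : |o'| ≤ κ / 100 * D.η0 / 2) :
    (1 - 2 * D.η0 - Ue.rw D.η0 D.θ D.f j σ) * (chi (nu D s) (pi D s) j σ * g) ≤
      κ / 3 * aa D s σ j + 400 * (1 / κ * (g - o') ^ 2) +
        8 * (del s j ^ 2 + (grad s.Th σ j - o) ^ 2) := by
  obtain ⟨d1, d2⟩ := dens_nonneg hD hw hx j
  have a1 := Ue.tilt_err_site (v := nu D s) hw hD.fpos rfl (Gp s) hD.e0 (by linarith [hD.e1])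
    (ρ := κ / 100) (by positivity) (by linarith) g j hx
  rw [grad_Gp, Pi.add_apply] at a1
  have a2 := xs_le (a := del s j) (b := grad s.Th σ j) ho
  have a3 := mul_le_mul_of_nonneg_left (Ue.xs_le_sq (t := g) ho') (by positivity : 0 ≤ 1 / (κ / 100))
  have e3 : 1 / (κ / 100) * (4 * (g - o') ^ 2) = 400 * (1 / κ * (g - o') ^ 2) := by field_simp; ring
  have a4 : κ / 100 + exp 6 * (κ / 100) ^ 2 ≤ κ / 6 := by
    have := mul_le_mul_of_nonneg_right Ue.exp_six (sq_nonneg (κ / 100))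
    nlinarith
  have a5 := mul_le_mul_of_nonneg_right a4 d2
  have t0 : 0 ≤ 1 - 2 * D.η0 - D.θ := by linarith [hD.t1]
  have t1 : 1 - 2 * D.η0 - D.θ ≤ 1 - D.θ := by linarith [hD.e0]
  have t2 : 1 - 2 * D.η0 - D.θ ≤ 1 := by linarith [hD.t0, hD.e0]
  have a6 : Lw D.η0 D.f j σ * (chi (nu D s) (pi D s) j σ * g) ≤
      Lw D.η0 D.f j σ * (|chi (nu D s) (pi D s) j σ| * |g|) :=
    mul_le_mul_of_nonneg_left (by rw [← abs_mul]; exact le_abs_self _) (Ue.Lw_mem _ _ _ _).1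
  have a7 : Lw D.η0 D.f j σ * (chi (nu D s) (pi D s) j σ * g) ≤
      κ / 6 * (Lw D.η0 D.f j σ * es (nu D s) (loc D s) j σ) + (400 * (1 / κ * (g - o') ^ 2) +
        8 * (del s j ^ 2 + (grad s.Th σ j - o) ^ 2)) := by
    change Lw D.η0 D.f j σ * (|chi (nu D s) (pi D s) j σ| * |g|) ≤ _ at a1
    linarith
  have a8 := mul_le_mul_of_nonneg_left a7 t0
  have a9 := mul_le_mul_of_nonneg_right t1 (mul_nonneg (by positivity : 0 ≤ κ / 6) d2)
  have a10 := mul_le_of_le_one_left (by positivity : 0 ≤ 400 * (1 / κ * (g - o') ^ 2) +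
    8 * (del s j ^ 2 + (grad s.Th σ j - o) ^ 2)) t2
  have a11 := mul_nonneg k0.le d1
  rw [Ue.rw_eq, aa]
  linarith

end site

theorem cg_split {q o r d : ℝ} (hq : |q| ≤ 1) (ho : |o| ≤ 1 / 2) :
    cg q (o + r - d) ≤ 12 * ((1 - q ^ 2) * o ^ 2) + 12 * (r ^ 2 + d ^ 2) := by
  have h0 : 0 ≤ 1 - q ^ 2 := by nlinarith [abs_le.1 hq]
  have h1 : 1 - q ^ 2 ≤ 1 := by nlinarith [sq_nonneg q]
  have z : 0 ≤ (1 - q ^ 2) * o ^ 2 := by positivity
  rcases le_total |o + r - d| 1 with h | h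
  · have a := Br.Chi58.cg_small hq h
    have b : (o + r - d) ^ 2 ≤ 3 * o ^ 2 + 3 * (r ^ 2 + d ^ 2) := by
      nlinarith [sq_nonneg (o - r), sq_nonneg (o + d), sq_nonneg (r + d)]
    have c := mul_le_mul_of_nonneg_left b h0
    have c' := mul_le_of_le_one_left (by positivity : 0 ≤ r ^ 2 + d ^ 2) h1
    nlinarith
  · have a := cg_le hq (o + r - d)
    have b := Ue.xs_le_sq (c := 1) (t := 2 * (o + r - d)) (o := o) ho
    have b1 : |o + r - d| ≤ |o| + |r - d| := by rw [add_sub_assoc]; exact abs_add_le _ _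
    have b2 : |o + r - d| ≤ 2 * |r - d| := by linarith
    have b3 := pow_le_pow_left₀ (abs_nonneg _) b2 2
    rw [mul_pow, sq_abs, sq_abs] at b3
    nlinarith [sq_nonneg (r + d)]

theorem young {κ u : ℝ} (k0 : 0 < κ) (u0 : 0 ≤ u) (u1 : u ≤ 1) (c x : ℝ) :
    u * (c * x) ≤ κ / 9744 * c ^ 2 + 2436 * (1 / κ * x ^ 2) := by
  have a := Ue.amgm_abs (u := c) (τ := x) (by positivity : 0 < κ / 4872)
  have e : 1 / (κ / 4872) * x ^ 2 / 2 = 2436 * (1 / κ * x ^ 2) := by field_simp; ring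
  have b : u * (c * x) ≤ |x| * |c| := by
    rw [← abs_mul, mul_comm x]
    exact (mul_le_mul_of_nonneg_left (le_abs_self _) u0).trans (mul_le_of_le_one_left (abs_nonneg _) u1)
  linarith

/-- **the inequality at a site** -/
theorem site (hD : D.Ok) (hw : Wt (loc D s)) (hx : nu D s σ ≠ 0) (j : Fin n) (y0 : V n)
    {κ g W o o' e : ℝ} (k0 : 0 < κ) (k1 : κ ≤ 1) (he : e ≤ κ / 100 * D.η0 / 2) (ho : |o| ≤ e)
    (ho' : |o'| ≤ e) :
    -(Ue.rw D.η0 D.θ D.f j σ * ((g - del s j) * chi (nu D s) (pi D s) j σ)) +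
      Ue.rw D.η0 D.θ D.f j σ * cg (cm (pi D s) j σ) (g - del s j) +
      (1 - 2 * D.η0) * (chi (nu D s) (pi D s) j σ * W) ≤ κ * aa D s σ j +
      2500 * (1 / κ * ((g - W) ^ 2 + del s j ^ 2 + (g - o') ^ 2 + (grad s.Th σ j - o) ^ 2)) +
      89 * (Dg D.J y0 σ j * (o' * o')) + 12 * e ^ 2 * ef D s y0 σ j ^ 2 := by
  have e0 := hD.e0
  have e1 := hD.e1
  have h1 : κ / 100 * D.η0 / 2 ≤ D.η0 / 2 := by nlinarith
  obtain ⟨r0, r1⟩ := Ue.rw_mem e0.le (by linarith) hD.t0 (by linarith [hD.t1]) D.f j σ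
  have hq := abs_cm_le (wt_wt hw (Gp s)).nn j σ
  have a1 := chi_sq hD hw hx j (ho.trans (he.trans h1))
  have a2 := loud hD hw hx j (g := g) k0 k1 (ho.trans he) (ho'.trans he)
  have a3 := cg_split (r := g - o') (d := del s j) hq (ho'.trans (he.trans (by linarith)))
  rw [add_sub_cancel] at a3
  have a4 := mul_le_of_le_one_left (cg_nonneg hq (g - del s j)) r1
  have a5 := mul_le_mul_of_nonneg_right (var_pi hD hw y0 hx j) (sq_nonneg o')
  have a6 : o' ^ 2 ≤ e ^ 2 := by rw [← sq_abs]; exact pow_le_pow_left₀ (abs_nonneg _) ho' 2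
  have a7 := mul_le_mul_of_nonneg_left a6 (sq_nonneg (ef D s y0 σ j))
  have a8 := young k0 (u := 1 - 2 * D.η0) (by linarith) (by linarith) (chi (nu D s) (pi D s) j σ) (W - g)
  have a9 := young k0 r0 r1 (chi (nu D s) (pi D s) j σ) (del s j)
  have a10 := mul_le_mul_of_nonneg_left a1 k0.le
  have i1 : 1 ≤ 1 / κ := one_le_one_div k0 k1
  have b1 := le_mul_of_one_le_left (sq_nonneg (del s j)) i1
  have b2 := le_mul_of_one_le_left (sq_nonneg (g - o')) i1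
  have b3 := le_mul_of_one_le_left (sq_nonneg (grad s.Th σ j - o)) i1
  have b4 := mul_le_of_le_one_left (sq_nonneg (del s j)) k1
  have b5 := mul_le_of_le_one_left (sq_nonneg (grad s.Th σ j - o)) k1
  have b6 : 0 ≤ 1 / κ * (g - W) ^ 2 := by positivity
  have b7 := mul_nonneg (Br.Chi58.Dg_nonneg D.J y0 σ j) (sq_nonneg o')
  have b8 := sq_nonneg (del s j)
  have b9 := sq_nonneg (g - o')
  have b10 := sq_nonneg (grad s.Th σ j - o)
  change cg (cm (pi D s) j σ) _ ≤ 12 * ((1 - cm (pi D s) j σ ^ 2) * _) + _ at a3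
  change _ * cg (cm (pi D s) j σ) _ ≤ cg (cm (pi D s) j σ) _ at a4
  linarith

/-- **the tilt identity for `AA`** -/
theorem AA_tl (hD : D.Ok) (hw : Wt (loc D s)) (φ : Cube n → ℝ) (l : ℝ) (Ω : Cube n → V n)
    (G : Cube n → ℝ) : AA D (s.un.tl φ l Ω G) = AA D s + mean (nu D s) fun σ => ∑ j,
      (-(Ue.rw D.η0 D.θ D.f j σ * ((grad φ σ j - del s j) * chi (nu D s) (pi D s) j σ)) +
        Ue.rw D.η0 D.θ D.f j σ * cg (cm (pi D s) j σ) (grad φ σ j - del s j)) := by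
  have e : pi D (s.un.tl φ l Ω G) = wt (pi D s) fun σ => φ σ - del s ⬝ᵥ sv σ := by
    rw [pi, pi, wt_add]
    change wt (loc D s) _ = _
    congr 1; funext σ
    simp [del, St.un, St.tl]; ring
  have g : ∀ σ j, grad (fun σ => φ σ - del s ⬝ᵥ sv σ) σ j = grad φ σ j - del s j := fun σ j => by
    rw [grad_sub, grad_lin, Pi.sub_apply]
  have p : Pr (nu D s) (pi D s) := (Ue.pr_mul (v := nu D s) hw hD.fpos rfl).1.wt _
  rw [AA, AA, e]
  change Ar _ (nu D s) _ + _ * El _ (nu D s) (loc D s) = _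
  simp only [Ar, As_wt' p (Ue.off_rw D.η0 D.θ D.f _), g, mean_sum, mean_add, mean_neg,
    sum_add_distrib, sum_sub_distrib, sum_neg_distrib]
  ring

/-- the certificate of the new tilt under any law -/
theorem G_sq {K0 κ0 e1 : ℝ} {J : Mx n} {y0 : V n} (hκ : 0 < κ0) (h : Bas J K0 κ0 y0) (e0 : 0 ≤ e1)
    {G v : Cube n → ℝ} (hG : TS e1 G) (hv : Wt v) : mean v (fun σ => G σ ^ 2) ≤
      4 * mean (ising J y0) (fun σ => G σ ^ 2) +
        (max K0 1 + 8 / κ0) * e1 * (16 * kl v (ising J y0) + 18) := by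
  have hw := Da.Gr.ising_pos J y0
  have h1 := Xt.h1_of_atd (h.mono hw (le_max_left K0 1) le_rfl) hw (by positivity) hκ
  have a := h1.xfer hw (by positivity) ((Xt.lip2_iff (sqrt_nonneg e1)).2 (by rwa [sq_sqrt e0]))
    (Wt.of_pos hw).isP hv.isP
  rw [Ent.kl_self, sq_sqrt e0, mul_zero, zero_add] at a
  exact a

theorem scales {C P CN κ η ω e ec : ℝ} (C1 : 1 ≤ C) (P1 : 1 ≤ P) (CN1 : 1 ≤ CN) (k0 : 0 < κ)
    (k1 : κ ≤ 1) (η0 : 0 < η) (η1 : η ≤ 1) (o0 : 0 < ω) (o1 : ω ≤ 1) (e0 : 0 ≤ e) (ec0 : 0 ≤ ec)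
    (he : C * P * √e ≤ κ * ω) (hM : Mx' C P CN κ η ω ^ 2 * ec ≤ 1) :
    C ≤ Mx' C P CN κ η ω * κ ∧ C * (P ^ 2 * ec) ≤ κ * ω ∧ C * ec ≤ κ * η ∧ C * e ≤ κ * ω := by
  have u0 : 0 < κ * η * ω := by positivity
  have u1 : κ * η * ω ≤ κ * η := mul_le_of_le_one_right (by positivity) o1
  have u2 : κ * η * ω ≤ κ * ω := by
    rw [mul_right_comm]; exact mul_le_of_le_one_right (by positivity) η1
  have u3 : κ * ω ≤ κ := mul_le_of_le_one_right k0.le o1
  have m1 : C * P ^ 2 ≤ Mx' C P CN κ η ω * (κ * η * ω) := by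
    rw [Mx', div_pow, mul_pow, mul_assoc]
    refine mul_le_mul_of_nonneg_left ?_ (by linarith)
    rw [sq (κ * η * ω), div_mul_eq_mul_div, mul_div_mul_right _ _ u0.ne', le_div_iff₀ u0]
    exact mul_le_mul_of_nonneg_left ((u2.trans (u3.trans k1)).trans (one_le_pow₀ CN1)) (sq_nonneg _)
  have M0 : 0 ≤ Mx' C P CN κ η ω := by rw [Mx']; positivity
  generalize Mx' C P CN κ η ω = M at *
  have m2 : C ≤ C * P ^ 2 := le_mul_of_one_le_right (by linarith) (one_le_pow₀ P1)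
  have m3 : C ≤ M * κ := (m2.trans m1).trans (mul_le_mul_of_nonneg_left (u2.trans u3) M0)
  have M1 : 1 ≤ M := (C1.trans m3).trans (mul_le_of_le_one_right M0 k1)
  have m4 : M * ec ≤ 1 :=
    le_trans (mul_le_mul_of_nonneg_right (le_self_pow₀ M1 two_ne_zero) ec0) hM
  have m5 : C * P ^ 2 * ec ≤ κ * η * ω := by
    linarith [mul_le_mul_of_nonneg_right m1 ec0, mul_le_mul_of_nonneg_left m4 u0.le]
  refine ⟨m3, by linarith, (mul_le_mul_of_nonneg_right m2 ec0).trans (m5.trans u1), ?_⟩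
  have s0 := sqrt_nonneg e
  have s1 : C * √e ≤ κ * ω := le_trans (mul_le_mul_of_nonneg_right
    (le_mul_of_one_le_right (by linarith) P1) s0) he
  have s2 : √e ≤ 1 := (le_mul_of_one_le_left s0 C1).trans (s1.trans (u3.trans k1))
  calc C * e = C * √e * √e := by rw [mul_assoc, mul_self_sqrt e0]
    _ ≤ κ * ω := (mul_le_of_le_one_right (by positivity) s2).trans s1

theorem final {CB K1 P κ ω e e1 ec K l2 B H M d X pw c g g0 y z : ℝ} (CB1 : 1 ≤ CB) (K11 : 1 ≤ K1)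
    (P1 : 1 ≤ P) (k0 : 0 < κ) (k1 : κ ≤ 1) (o0 : 0 < ω) (o1 : ω ≤ 1) (e0 : 0 ≤ e) (e10 : 0 ≤ e1)
    (e1c : e1 ≤ ec) (K0 : 1 ≤ K) (l0 : 0 ≤ l2) (B0 : 0 ≤ B) (d0 : 0 ≤ d) (X0 : 0 ≤ X) (p0 : 0 ≤ pw)
    (b1 : H ≤ CB * B) (m3 : 10 ^ 6 * (CB * K1) ≤ M * κ)
    (m5 : 10 ^ 6 * (CB * K1) * (P ^ 2 * ec) ≤ κ * ω) (m8 : 10 ^ 6 * (CB * K1) * e ≤ κ * ω)
    (r1 : c ≤ e * (l2 + H) + K) (r2 : g ≤ 4 * g0 + K1 * e1 * (16 * H + 18)) (g2 : g0 ≤ e1 * l2 + K)
    (r3 : y ≤ pw + e1 * (l2 + H) + K) (r4 : z ≤ 648 * P ^ 2 * B) :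
    2500 * (1 / κ * (c + d + g + X)) + 89 * y + 12 * ec ^ 2 * z ≤ 10 ^ 6 * (CB * K1) * pw +
      10 ^ 6 * (CB * K1) / κ * d + ω * (B + l2) + M * (X + K) := by
  have N1 : CB ≤ CB * K1 := le_mul_of_one_le_right (by linarith) K11
  have N2 : K1 ≤ CB * K1 := le_mul_of_one_le_left (by linarith) CB1
  have t2 : K1 * H ≤ CB * K1 * B := by linarith [mul_le_mul_of_nonneg_left b1 (by linarith : 0 ≤ K1)]
  generalize CB * K1 = N at *
  have N3 : 1 ≤ N := CB1.trans N1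
  have ec0 : 0 ≤ ec := e10.trans e1c
  have T0 : 0 ≤ B + l2 := by positivity
  have t0 : l2 ≤ N * l2 := le_mul_of_one_le_left l0 N3
  have t3 : 0 ≤ N * B := by positivity
  have t1 : l2 + H ≤ N * (B + l2) := by linarith [mul_le_mul_of_nonneg_right N1 B0]
  have u3 : κ * ω ≤ 1 := (mul_le_of_le_one_right k0.le o1).trans k1
  have u4 : κ * ω ≤ ω := mul_le_of_le_one_left o0.le k1
  have n1 : ec ≤ P ^ 2 * ec := le_mul_of_one_le_left ec0 (one_le_pow₀ P1)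
  have n2 : 10 ^ 6 * N * e1 ≤ κ * ω :=
    (mul_le_mul_of_nonneg_left (e1c.trans n1) (by positivity)).trans m5
  have x0 := mul_le_mul_of_nonneg_left t1 e0
  have x0' := mul_le_mul_of_nonneg_left t1 e10
  have x1 := mul_le_mul_of_nonneg_right m8 T0
  have x2 := mul_le_mul_of_nonneg_right n2 T0
  have x3 : e1 * l2 ≤ e1 * (N * (B + l2)) := mul_le_mul_of_nonneg_left (by linarith) e10
  have x4 : e1 * (K1 * H) ≤ e1 * (N * (B + l2)) := mul_le_mul_of_nonneg_left (by linarith) e10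
  have x5 := mul_le_mul_of_nonneg_right N2 e10
  have x5' := mul_nonneg (by linarith : 0 ≤ N) e10
  have x6 : 1 / κ * (c + d + g + X) ≤ 1 / κ * (21 * (κ * ω * (B + l2) / 10 ^ 6) + d + 23 * (X + K)) :=
    mul_le_mul_of_nonneg_left (by linarith) (by positivity)
  have x7 : 1 / κ * (21 * (κ * ω * (B + l2) / 10 ^ 6) + d + 23 * (X + K)) =
      21 * (ω * (B + l2)) / 10 ^ 6 + 1 / κ * d + 23 * (1 / κ * (X + K)) := by
    field_simp
  have x8 : 10 ^ 6 * (1 / κ * d) ≤ 10 ^ 6 * N / κ * d := by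
    rw [← mul_assoc, mul_one_div]; gcongr; linarith
  have EK : 0 ≤ X + K := by linarith
  have x9 : 10 ^ 6 * (1 / κ * (X + K)) ≤ M * (X + K) := by
    rw [← mul_assoc, mul_one_div]
    exact mul_le_mul_of_nonneg_right ((div_le_iff₀ k0).2 (by linarith)) EK
  have x10 := le_mul_of_one_le_left EK (one_le_one_div k0 k1)
  have x11 := le_mul_of_one_le_left p0 N3
  have x12 := mul_le_mul_of_nonneg_right u4 T0
  have y0 := le_mul_of_one_le_left (by positivity : 0 ≤ P ^ 2 * ec) N3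
  have y1 : 10 ^ 6 * (P ^ 2 * ec) ≤ ω := by linarith
  have y2 : ec * B ≤ B + l2 := (mul_le_of_le_one_left B0 (by linarith)).trans (by linarith)
  have y3 := mul_le_mul y1 y2 (by positivity) o0.le
  have y4 := mul_le_mul_of_nonneg_left r4 (by positivity : 0 ≤ 12 * ec ^ 2)
  have x14 : 0 ≤ ω * (B + l2) := by positivity
  have x15 : 0 ≤ 1 / κ * d := by positivity
  linarith

/-- **the sum of the site inequalities** -/
theorem key (hD : D.Ok) (hw : Wt (loc D s)) {ec A κ : ℝ} (hc : Cl ec A s) (y0 : V n) (φ : Cube n → ℝ)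
    (l : ℝ) (W : Cube n → V n) {Ω : Cube n → V n} {G : Cube n → ℝ} (hΩ : ∀ σ, ‖Ω σ‖ ≤ ec)
    (hG : ∀ σ, nrm (grad φ σ - Ω σ) ≤ G σ) (k0 : 0 < κ) (k1 : κ ≤ 1) (he : ec ≤ κ / 100 * D.η0 / 2) :
    AA D (s.un.tl φ l Ω G) + (1 - 2 * D.η0) * chW D s W ≤ (1 + κ) * AA D s +
      (2500 * (1 / κ * (mean (nu D s) (fun σ => nrm (grad φ σ - W σ) ^ 2) + del s ⬝ᵥ del s +
        mean (nu D s) (fun σ => G σ ^ 2) + Ex D s)) +
      89 * mean (nu D s) (fun σ => Dg D.J y0 σ ⬝ᵥ (Ω σ * Ω σ)) +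
      12 * ec ^ 2 * mean (nu D s) fun σ => ∑ j, ef D s y0 σ j ^ 2) := by
  have hv : Wt (nu D s) := hw.mul_pos hD.fpos
  rw [AA_tl hD hw, add_mul, one_mul, add_assoc, add_assoc]
  refine add_le_add le_rfl ?_
  rw [AA_eq, chW, Ex, ← hv.mean_const (del s ⬝ᵥ del s)]
  simp only [← mean_const_mul, ← mean_add]
  refine mean_mono_supp hv fun σ hx => ?_
  have a1 := sum_le_sum fun j (_ : j ∈ univ) => site hD hw hx j y0 (g := grad φ σ j) (W := W σ j)
    (o := s.Om σ j) (o' := Ω σ j) (e := ec) k0 k1 he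
    ((norm_le_pi_norm (s.Om σ) j).trans (hc.rg σ).1) ((norm_le_pi_norm (Ω σ) j).trans (hΩ σ))
  have a2 := sum_sq (grad φ σ - W σ)
  have a3 := sum_sq (del s)
  have a4 := sum_sq_le (hG σ)
  have a5 := sum_sq_le (hc.ex σ)
  rw [nrm_sq] at a3
  simp only [Pi.sub_apply] at a2 a4 a5
  simp only [sum_add_distrib, ← mul_sum, a2, a3] at a1
  have a6 := mul_le_mul_of_nonneg_left (add_le_add a4 a5) (by positivity : 0 ≤ 1 / κ)
  have a7 : Dg D.J y0 σ ⬝ᵥ (Ω σ * Ω σ) = ∑ j, Dg D.J y0 σ j * (Ω σ j * Ω σ j) := rfl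
  rw [sum_add_distrib, a7]
  linarith

end TiA58

open TiA58 in
theorem tiltAGlue : TiltAGlue := by
  intro hC hB K0 κ0 hκ
  obtain ⟨CB, CB1, hB⟩ := hB K0 κ0 hκ
  have K11 : 1 ≤ max K0 1 + 8 / κ0 := le_add_of_le_of_nonneg (le_max_right _ _) (by positivity)
  have N1 : 1 ≤ CB * (max K0 1 + 8 / κ0) := one_le_mul_of_one_le_of_one_le CB1 K11
  refine ⟨10 ^ 6 * (CB * (max K0 1 + 8 / κ0)), by linarith,
    fun n D s y0 p al q w a e e1 ec CN C0 K l κ ω φ W Ω G h => ?_⟩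
  obtain ⟨hD, hc, hb, hA, p0, e0, e10, e1c, CN1, C00, K1, l0, k0, k1, o0, o1, he, hM⟩ := h
  obtain ⟨-, c2, -, -, -, c6, c7, -, -, c10, -⟩ := hC n D s hD
  obtain ⟨b1, -⟩ := hB n D s y0 ec ec hD hc hb
  have ec0 := e10.trans e1c
  obtain ⟨m3, m5, m6, m8⟩ := scales (by linarith) hD.P1 CN1 k0 k1 hD.e0 (by linarith [hD.e1]) o0 o1 e0
    ec0 he hM
  have dd : 0 ≤ del s ⬝ᵥ del s := by rw [← nrm_sq]; positivity
  have B0 : 0 ≤ Bb D s y0 := by rw [Bb, Bd]; positivity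
  have a1 := key hD c2.hw hc y0 φ (CN * l) W (fun σ => (hA.rg σ).1.trans e1c) hA.ex k0 k1
    (by linarith [le_mul_of_one_le_left ec0 N1])
  have a2 := final CB1 K11 hD.P1 k0 k1 o0 o1 e0 e10 e1c K1 (sq_nonneg l) B0 dd c10
    (mul_nonneg C00 (sum_nonneg fun i _ => mul_nonneg (p0 i) (mul_self_nonneg (w i)))) b1 m3 m5 m8
    (hA.c _ c2.hv) (G_sq hκ hb e10 hA.ts c2.hv) hA.g2 (hA.g _ c2.hv) (ef_mean hD hc y0 c2.hv c6 c7)
  change _ ≤ _ * (C0 * (p ⬝ᵥ (w * w))) + _ + _ + _ at a2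
  linarith

end Crest.Agent.T157.S1

end
end

-- ▼ part T157/S1TiB_91
section

/-!
# Row 157, block B, S1 (helper91): the mismatch and the pins in a tilt, `TiltB`
-/

set_option autoImplicit false

noncomputable section

namespace Crest.Agent.T157.S1

open Real Matrix Finset
open Crest.Agent.T157.E Crest.Agent.T157.SL
open Crest.Agent.T157.Ta (cm chi mean_cm off_cm mean_mono_supp abs_cm_le)
open Crest.Agent.T157.Rec (grad)
open Crest.Agent.T157.Eig (nrm opn nrm_nonneg nrm_add_le nrm_sub_le nrm_sq nrm_neg abs_dot_le)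
open Crest.Agent.T157.S3 (V Mx hf tau Dg TS Rg)
open Crest.Agent.T157.S3F (Free)
open Crest.Agent.T157.S3.Rg (nrm_mul_le)
open Crest.Agent.T157.Xt (H1 Lip2 lip2_iff)
open Pin33

namespace Tb91

variable {n : ℕ}

/-- the mismatch -/
def cv (D : Dat n) (s : St n) (y0 : V n) (x : Cube n) : V n :=
  fun j => cm (pi D s) j x - tanh (hf D.J y0 x j)
/-- the shift of the field -/
def ep (D : Dat n) (s : St n) (y0 : V n) (x : Cube n) : V n :=
  s.y' - y0 + grad s.Th x - grad (U D s) x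
/-- the smooth part -/
def F1 (D : Dat n) (s : St n) (y0 : V n) (Ω : Cube n → V n) (x : Cube n) : ℝ :=
  (Dg D.J y0 x * Ω x) ⬝ᵥ (s.y' - y0 + s.Om x)
/-- the remainder -/
def Rm (D : Dat n) (s : St n) (y0 z : V n) (W Ω : Cube n → V n) (x : Cube n) : ℝ :=
  W x ⬝ᵥ cv D s y0 x - F1 D s y0 Ω x + D.P * (um D s x ⬝ᵥ D.J *ᵥ z)
/-- the deterministic part of the budget -/
def B0 (s : St n) (y0 : V n) : ℝ := nrm (s.y - y0) ^ 2 + del s ⬝ᵥ del s + s.L ^ 2 + #s.S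

variable {D : Dat n} {s : St n} {y0 z : V n} {W Ω : Cube n → V n} {x : Cube n} {ec A e1 L : ℝ}

lemma ep_le (hD : D.Ok) (hc : Cl ec A s) (x : Cube n) :
    ep D s y0 x ⬝ᵥ ep D s y0 x ≤ 648 * (D.P ^ 2 * (B0 s y0 + U D s x)) := by
  have h : ep D s y0 x ⬝ᵥ ep D s y0 x ≤ 4 * ∑ i, sh D s y0 x i := by
    rw [mul_sum]
    refine sum_le_sum fun i _ => ?_
    have e : ep D s y0 x i = (s.y - y0) i + del s i + grad s.Th x i - grad (U D s) x i := by
      simp only [ep, del, Pi.add_apply, Pi.sub_apply]; ring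
    rw [e, sh]
    set a := (s.y - y0) i
    set b := del s i
    set c := grad s.Th x i
    set d := grad (U D s) x i
    nlinarith [sq_nonneg (a - b), sq_nonneg (a - c), sq_nonneg (a + d), sq_nonneg (b - c),
      sq_nonneg (b + d), sq_nonneg (c + d)]
  have := sum_sh_le hD hc y0 x
  rw [B0]
  linarith

lemma Rm_eq (hD : D.Ok) (x : Cube n) : Rm D s y0 z W Ω x = (W x - Ω x) ⬝ᵥ cv D s y0 x +
    (Ω x ⬝ᵥ cv D s y0 x - (Dg D.J y0 x * Ω x) ⬝ᵥ ep D s y0 x) +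
    (Dg D.J y0 x * Ω x) ⬝ᵥ (grad s.Th x - s.Om x) -
    D.P * (um D s x ⬝ᵥ D.J *ᵥ (Dg D.J y0 x * Ω x - z)) +
    D.P * ∑ j, (Dg D.J y0 x * Ω x) j * sv x j * ∑ k ∈ s.S, D.J k j ^ 2 := by
  set u := Dg D.J y0 x * Ω x with hu
  have e1 : u ⬝ᵥ grad (U D s) x = D.P * (um D s x ⬝ᵥ D.J *ᵥ u) -
      D.P * ∑ j, u j * sv x j * ∑ k ∈ s.S, D.J k j ^ 2 := by
    rw [dotProduct_mulVec, ← mulVec_transpose, hD.symm, dotProduct, dotProduct, mul_sum, mul_sum,
      ← sum_sub_distrib]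
    exact sum_congr rfl fun j _ => by rw [grad_U hD]; ring
  simp only [Rm, F1, ep, ← hu, sub_dotProduct, dotProduct_sub, dotProduct_add, mulVec_sub, e1]
  ring

lemma Rm_le (hD : D.Ok) (hc : Cl ec A s) (hΩ : Rg e1 L Ω) (hx : loc D s x ≠ 0) (hw : Wt (pi D s))
    {a g gf l : ℝ} (hl : 0 < l) (h1 : nrm (W x - Ω x) ≤ a + g)
    (h2 : (nrm fun i => max (|(D.J *ᵥ (Dg D.J y0 x * Ω x - z)) i| - e1) 0) ≤ gf) :
    |Rm D s y0 z W Ω x| ≤ (654 * l + 1320 * e1) * (D.P ^ 2 * (B0 s y0 + U D s x)) +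
      L * s.G x + l⁻¹ * (a ^ 2 + g ^ 2 + gf ^ 2) := by
  have P1 := hD.P1
  have P0 : 0 ≤ D.P := by linarith
  have e0 : 0 ≤ e1 := (norm_nonneg _).trans (hΩ x).1
  have U0 := U_nonneg (s := s) hD x
  have S0 : (0 : ℝ) ≤ #s.S := Nat.cast_nonneg _
  have hS : (#s.S : ℝ) ≤ B0 s y0 := by
    rw [B0]; linarith [sq_nonneg (nrm (s.y - y0)), Eig.dot_self_nonneg (del s), sq_nonneg s.L]
  obtain ⟨c1, c2⟩ := lin (S := s.S) (h := hf D.J y0 x) (ε := ep D s y0 x) (c := cv D s y0 x)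
    (hΩ x).1 (fun j hj => by
      rw [cv, cm_pi hD hx hj]
      congr 2
      simp only [hf, ep, Pi.add_apply, Pi.sub_apply]; ring) fun j =>
      (abs_sub _ _).trans (by linarith [abs_cm_le hw.nn j x, abs_th (hf D.J y0 x j)])
  have hε := ep_le (y0 := y0) hD hc x
  have t1 := (abs_dot_le (W x - Ω x) (cv D s y0 x)).trans
    (mul_le_mul_of_nonneg_right h1 (nrm_nonneg _))
  have t1' := young hl (nrm (cv D s y0 x)) (a + g)
  have t1'' : l⁻¹ * (a + g) ^ 2 ≤ l⁻¹ * (2 * (a ^ 2 + g ^ 2)) :=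
    mul_le_mul_of_nonneg_left (by nlinarith [sq_nonneg (a - g)]) (by positivity)
  have nu : nrm (Dg D.J y0 x * Ω x) ≤ L :=
    (nrm_mul_le zero_le_one (abs_Dg _ _ x)).trans ((one_mul _).trans_le (hΩ x).2.2.1)
  have t3 := (abs_dot_le (Dg D.J y0 x * Ω x) (grad s.Th x - s.Om x)).trans
    (mul_le_mul nu (hc.ex x) (nrm_nonneg _) ((nrm_nonneg _).trans nu))
  have t4 := pin_le (S := s.S) (z := um D s x) (g := D.J *ᵥ (Dg D.J y0 x * Ω x - z))
    (fun k hk => if_neg hk) P0 e0 hl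
  have eU : D.P * (um D s x ⬝ᵥ um D s x) = 2 * U D s x := by rw [← um_dot]; ring
  rw [eU] at t4
  have t4' := mul_le_mul_of_nonneg_left (pow_le_pow_left₀ (nrm_nonneg _) h2 2) (inv_nonneg.2 hl.le)
  have t5 : |D.P * ∑ j, (Dg D.J y0 x * Ω x) j * sv x j * ∑ k ∈ s.S, D.J k j ^ 2| ≤
      D.P * (e1 * (9 * #s.S)) := by
    rw [abs_mul, abs_of_nonneg P0]
    refine mul_le_mul_of_nonneg_left ((abs_sum_le_sum_abs _ _).trans (le_trans ?_
      (mul_le_mul_of_nonneg_left (sum_colS_le hD) e0))) P0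
    rw [mul_sum]
    refine sum_le_sum fun j _ => ?_
    have r0 : 0 ≤ ∑ k ∈ s.S, D.J k j ^ 2 := sum_nonneg fun _ _ => sq_nonneg _
    rw [abs_mul, abs_of_nonneg r0, abs_mul, Pi.mul_apply, abs_mul]
    refine mul_le_mul_of_nonneg_right ?_ r0
    have := mul_le_mul (mul_le_mul (abs_Dg D.J y0 x j) ((norm_le_pi_norm (Ω x) j).trans (hΩ x).1)
      (abs_nonneg _) zero_le_one) (S3F.abs_sv x j) (abs_nonneg _) (by positivity)
    rwa [one_mul, mul_one] at this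
  set Q := D.P ^ 2 * (B0 s y0 + U D s x) with hQ
  have P2 : D.P ≤ D.P ^ 2 := by nlinarith
  have q1 : D.P * #s.S ≤ Q := mul_le_mul P2 (by linarith) S0 (sq_nonneg _)
  have q2 : D.P * U D s x ≤ Q := mul_le_mul P2 (by linarith) U0 (sq_nonneg _)
  have q3 : (#s.S : ℝ) ≤ Q := (le_mul_of_one_le_left S0 P1).trans q1
  have q4 : U D s x ≤ Q := (le_mul_of_one_le_left U0 P1).trans q2
  have q5 : l * (nrm (cv D s y0 x) ^ 2 + D.P * (2 * U D s x)) ≤ l * (654 * Q) :=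
    mul_le_mul_of_nonneg_left (by linarith) hl.le
  have q6 : e1 * (2 * (ep D s y0 x ⬝ᵥ ep D s y0 x) + 3 * #s.S + (2 * U D s x + D.P * #s.S) +
      9 * (D.P * #s.S)) ≤ e1 * (1320 * Q) := mul_le_mul_of_nonneg_left (by linarith) e0
  have q7 : 0 ≤ l⁻¹ * (a ^ 2 + g ^ 2) := by positivity
  rw [Rm_eq hD]
  change |_ - (Dg D.J y0 x * Ω x) ⬝ᵥ _| ≤ _ at c2
  rw [abs_le] at c2 t1 t3 t4 t5 ⊢
  constructor <;> linarith [c2.1, c2.2, t1.1, t1.2, t3.1, t3.2, t4.1, t4.2, t5.1, t5.2]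

lemma lip_F1 (hD : D.Ok) (hc : Cl ec A s) {CN l : ℝ} (hΩ : Rg e1 (CN * l) Ω) (h1 : e1 ≤ ec)
    (hC : 1 ≤ CN) (hl : 0 ≤ l) :
    Lip2 (78000 * ec * CN * (nrm (s.y' - y0) + s.L + l)) (F1 D s y0 Ω) := by
  have e0 : 0 ≤ e1 := (norm_nonneg _).trans (hΩ default).1
  have c0 := e0.trans h1
  have ej : ∀ x, S3F.jac (fun z => s.y' - y0 + s.Om z) x = S3F.jac s.Om x := fun x => by
    rw [S3F.jac_add (fun _ => s.y' - y0), S3F.jac_const, zero_add]
  refine (lip_dot (u := fun x => Dg D.J y0 x * Ω x) (b := fun x => s.y' - y0 + s.Om x)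
    (a1 := 13000 * ec) (a2 := ec) (Lb := nrm (s.y' - y0) + s.L) (Lu := CN * l) hc.L0
    (fun x => (jac_DO hD.op y0 hΩ x).trans (by linarith)) (fun x => ej x ▸ (hc.rg x).2.1)
    (fun x => (nrm_add_le _ _).trans (add_le_add le_rfl (hc.rg x).2.2.1))
    (fun x => (nrm_mul_le zero_le_one (abs_Dg _ _ x)).trans ((one_mul _).trans_le (hΩ x).2.2.1))
    fun x => ?_).mono ?_
  · have := (hc.rg x).2.2.2
    rwa [S3F.hsJ, ← ej] at this
  · have a1 := mul_nonneg c0 (nrm_nonneg (s.y' - y0))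
    have a2 := mul_nonneg c0 hc.L0
    linarith [le_mul_of_one_le_right a1 hC, le_mul_of_one_le_right a2 hC,
      mul_nonneg (mul_nonneg c0 hl) (zero_le_one.trans hC)]

lemma sz_le (s : St n) (y0 : V n) (l : ℝ) :
    (nrm (s.y' - y0) + s.L + l) ^ 2 ≤ 6 * (B0 s y0 + l ^ 2) := by
  have a1 : nrm (s.y' - y0) ≤ nrm (s.y - y0) + nrm (del s) := by
    rw [show s.y' - y0 = s.y - y0 + del s by rw [del]; abel]; exact nrm_add_le _ _
  have a3 := pow_le_pow_left₀ (nrm_nonneg _) a1 2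
  have S0 : (0 : ℝ) ≤ #s.S := Nat.cast_nonneg _
  rw [B0, ← nrm_sq (del s)]
  linarith [sq_nonneg (nrm (s.y - y0) - nrm (del s)), sq_nonneg (nrm (s.y' - y0) - s.L),
    sq_nonneg (nrm (s.y' - y0) - l), sq_nonneg (s.L - l), sq_nonneg s.L, sq_nonneg l]

lemma mean_um (v : Cube n → ℝ) (hv : Wt v) (g : V n) : (mean v fun x => um D s x ⬝ᵥ g) =
    ∑ k ∈ s.S, ((D.J *ᵥ mag v) k - s.x k) * g k := by
  have e : ∀ x, um D s x ⬝ᵥ g = ∑ k ∈ s.S, (∑ j, D.J k j * sv x j - s.x k) * g k := fun x => by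
    rw [dotProduct, ← sum_subset (subset_univ s.S) fun k _ hk => by simp [um, hk]]
    exact sum_congr rfl fun k hk => by rw [um, if_pos hk]; rfl
  simp only [e, mean_sum, mean_mul_const, mean_sub, mean_const_mul, hv.mean_const]
  rfl

/-- the exact identity -/
lemma ident (hν : Wt (nu D s)) (hπ : Wt (pi D s)) (hW : Free W) :
    (mean (nu D s) fun σ => W σ ⬝ᵥ tau D.J y0 σ) - (mean (pi D s) fun σ => W σ ⬝ᵥ tau D.J y0 σ) +
      D.P * ∑ k ∈ s.S, (D.J *ᵥ Del D s) k * (D.J *ᵥ z) k = chW D s W +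
      (mean (nu D s) (Rm D s y0 z W Ω) - mean (pi D s) (Rm D s y0 z W Ω)) +
      (mean (nu D s) (F1 D s y0 Ω) - mean (pi D s) (F1 D s y0 Ω)) := by
  have e : ∀ v, Wt v → (mean v fun σ => W σ ⬝ᵥ tau D.J y0 σ) =
      (mean v fun σ => ∑ i, chi v (pi D s) i σ * W σ i) + mean v (Rm D s y0 z W Ω) +
        mean v (F1 D s y0 Ω) - D.P * mean v fun x => um D s x ⬝ᵥ D.J *ᵥ z := fun v hv => by
    have e1 : (mean v fun σ => ∑ i, chi v (pi D s) i σ * W σ i) =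
        mean v fun σ => ∑ i, (W σ i * sv σ i - W σ i * cm (pi D s) i σ) := by
      simp only [mean_sum, mean_sub]
      refine sum_congr rfl fun i _ => ?_
      rw [← mean_cm hv (u := fun σ => W σ i) fun σ b => hW σ i b, ← mean_sub]
      congr 1; funext σ; rw [chi]; ring
    rw [e1, ← mean_add, ← mean_add, ← mean_const_mul, ← mean_sub]
    congr 1; funext σ
    have : W σ ⬝ᵥ tau D.J y0 σ =
        ∑ i, (W σ i * sv σ i - W σ i * cm (pi D s) i σ) + W σ ⬝ᵥ cv D s y0 σ := by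
      rw [dotProduct, dotProduct, ← sum_add_distrib]
      exact sum_congr rfl fun i _ => by rw [tau, cv]; ring
    rw [this, Rm]; ring
  have e2 : (mean (pi D s) fun σ => ∑ i, chi (pi D s) (pi D s) i σ * W σ i) = 0 := by
    simp [chi, hπ.mean_const]
  have e3 : ∑ k ∈ s.S, (D.J *ᵥ Del D s) k * (D.J *ᵥ z) k =
      (mean (nu D s) fun x => um D s x ⬝ᵥ D.J *ᵥ z) - mean (pi D s) fun x => um D s x ⬝ᵥ D.J *ᵥ z := by
    rw [mean_um _ hν, mean_um _ hπ, ← sum_sub_distrib]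
    exact sum_congr rfl fun k _ => by rw [Del, Ta.Dm, mulVec_sub, Pi.sub_apply]; ring
  rw [e _ hν, e _ hπ, e2, e3, chW]
  ring

end Tb91

set_option maxHeartbeats 800000 in
open Tb91 in
theorem tiltBGlue : TiltBGlue := by
  intro hCr hB1 K0 κ0 hκ
  obtain ⟨CB, CB1, hB⟩ := hB1 K0 κ0 hκ
  obtain ⟨Kh, hKh⟩ : ∃ Kh, Kh = max K0 0 + 8 / κ0 := ⟨_, rfl⟩
  have Kh0 : 0 < Kh := by rw [hKh]; positivity
  obtain ⟨A, hA⟩ : ∃ A, A = CB * (1 + Kh) := ⟨_, rfl⟩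
  have A2 : Kh * CB ≤ A := by rw [hA]; nlinarith
  have A3 : CB ≤ A := by rw [hA]; nlinarith
  have A4 : Kh ≤ A := (le_mul_of_one_le_right Kh0.le CB1).trans A2
  have A1 : 1 ≤ A := CB1.trans A3
  have C1 : 1 ≤ 10 ^ 7 * A ^ 2 := by nlinarith
  refine ⟨10 ^ 7 * A ^ 2, C1, ?_⟩
  intro n D s y0 p al q w a e e1 ec CN C0 K l κ ω φ W Ω G h
  obtain ⟨hD, hc, bas, ans, -, e0, e10, e1c, CN1, -, K1, l0, k0, k1, o0, o1, he, hM⟩ := h
  obtain ⟨⟨hν, hπ, -⟩, -, -, -, -, Hy0, U0, -, -, Ex0, -⟩ := hCr n D s hD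
  obtain ⟨b1, b2, b3, -⟩ := hB n D s y0 ec ec hD hc bas
  have hw : ∀ x, 0 < ising D.J y0 x := fun _ => exp_pos _
  have H : H1 (ising D.J y0) Kh := hKh ▸ Xt.h1_of_atd (Atd.ATd.mono bas hw (le_max_left K0 0) le_rfl)
    hw (le_max_right _ _) hκ
  obtain ⟨Gf, f1, -, f3, f4⟩ := ans.f
  have P1 := hD.P1
  have c0 := e10.trans e1c
  have η0 := hD.e0
  set M := Mx' (10 ^ 7 * A ^ 2) D.P CN κ D.η0 ω with hMx
  have m1 : 10 ^ 7 * A ^ 2 * D.P ^ 2 * CN ^ 2 ≤ M * ω ^ 2 := by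
    have a1 : (κ * D.η0) ^ 2 ≤ 1 := pow_le_one₀ (by positivity)
      (mul_le_one₀ k1 η0.le (by linarith [hD.e1]))
    have a2 : M * ω ^ 2 * (κ * D.η0) ^ 2 = 10 ^ 7 * A ^ 2 * D.P ^ 2 * CN ^ 2 := by
      rw [hMx, Mx']; field_simp
    rw [← a2]
    exact mul_le_of_le_one_right (by rw [hMx, Mx']; positivity) a1
  have M0 : 0 ≤ M := by rw [hMx, Mx']; positivity
  have P2 : 1 ≤ D.P ^ 2 := one_le_pow₀ P1
  have C2 : 1 ≤ CN ^ 2 := one_le_pow₀ CN1
  have o2 : ω ^ 2 ≤ 1 := pow_le_one₀ o0.le o1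
  have M1 : 1 ≤ M := (one_le_mul_of_one_le_of_one_le (one_le_mul_of_one_le_of_one_le C1 P2) C2).trans
    (m1.trans (mul_le_of_le_one_right M0 o2))
  have m2 : M * ec ≤ 1 := le_trans (mul_le_mul_of_nonneg_right (by nlinarith) c0) hM
  have c1 : ec ≤ 1 := (le_mul_of_one_le_left c0 M1).trans m2
  have m3 : 10 ^ 7 * A ^ 2 * D.P ^ 2 * CN ^ 2 * ec ≤ ω ^ 2 :=
    (mul_le_mul_of_nonneg_right m1 c0).trans (by
      rw [mul_right_comm]; exact mul_le_of_le_one_left (sq_nonneg _) m2)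
  have m4 : 10 ^ 7 * A ^ 2 * D.P ^ 2 * e ≤ ω ^ 2 := by
    have a1 := pow_le_pow_left₀ (by positivity) (he.trans (mul_le_of_le_one_left o0.le k1)) 2
    rw [mul_pow, mul_pow, sq_sqrt e0, sq (10 ^ 7 * A ^ 2)] at a1
    have a2 := le_mul_of_one_le_left (show 0 ≤ 10 ^ 7 * A ^ 2 * D.P ^ 2 * e by positivity) C1
    linarith
  set B := Bb D s y0 with hBb
  have eB : B = Hy D s + mean (nu D s) (U D s) + B0 s y0 := by rw [hBb, Bb, Bd, B0]; ring
  have d0 := Eig.dot_self_nonneg (del s)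
  have S0 : (0 : ℝ) ≤ #s.S := Nat.cast_nonneg _
  have B00 : 0 ≤ B0 s y0 := by rw [B0]; positivity
  have Bn : 0 ≤ B := by linarith
  have l2 := sq_nonneg l
  obtain ⟨T, hT⟩ : ∃ T, T = B + l ^ 2 := ⟨_, rfl⟩
  have T0 : 0 ≤ T := by linarith
  have t1 : CB * B ≤ A * T := mul_le_mul A3 (by linarith) Bn (by linarith)
  have t2 : T ≤ A * T := le_mul_of_one_le_left T0 A1
  have t3 : Kh * (CB * B) ≤ A * T := by
    rw [← mul_assoc]; exact mul_le_mul A2 (by linarith) Bn (by linarith)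
  have t4 : Kh ≤ A * K := A4.trans (le_mul_of_one_le_right (by linarith) K1)
  have t5 : K ≤ A * K := le_mul_of_one_le_left (by linarith) A1
  obtain ⟨m, hm⟩ : ∃ m, m = ω / (8000 * D.P ^ 2 * A) := ⟨_, rfl⟩
  have m0 : 0 < m := by rw [hm]; positivity
  have key : ∀ v, Wt v → (∀ x, v x ≠ 0 → loc D s x ≠ 0) → kl v (ising D.J y0) ≤ CB * B →
      mean v (U D s) ≤ CB * B → (mean v fun x => s.G x ^ 2) ≤ 4 * Ex D s + Kh * ec * (48 * (CB * B) + 18) →
      |mean v (Rm D s y0 (q * w) W Ω)| ≤ ω * T / 3 + M * (Ex D s + K) / 3 := by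
    intro v hv hs k1 k2 k3
    have g : ∀ g : Cube n → ℝ, TS e1 g → (mean (ising D.J y0) fun x => g x ^ 2) ≤ e1 * l ^ 2 + K →
        (mean v fun x => g x ^ 2) ≤ 20 * (ec * (A * T)) + 22 * (A * K) := fun g g1 g2 => by
      have a1 := sq_le H hw Kh0 e10 g1 hv
      have a2 := mul_le_mul_of_nonneg_left (mul_le_mul_of_nonneg_left k1 Kh0.le) e10
      have a3 := mul_le_mul e1c t3 (by positivity) c0
      have a4 := mul_le_mul e1c (show l ^ 2 ≤ A * T by linarith) l2 c0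
      have a5 := mul_le_of_le_one_right Kh0.le (e1c.trans c1)
      linarith
    have g1 := g G ans.ts ans.g2
    have g2 := g Gf f3 f4
    have g3 := ans.c v hv
    have g4 : e * (l ^ 2 + kl v (ising D.J y0)) ≤ e * (A * T) := mul_le_mul_of_nonneg_left (by
      have := mul_le_mul_of_nonneg_right A3 Bn
      have := le_mul_of_one_le_left l2 A1
      rw [hT]; linarith) e0
    have pt : ∀ x, v x ≠ 0 → |Rm D s y0 (q * w) W Ω x| ≤
        (654 * m + 1320 * ec) * (D.P ^ 2 * (B0 s y0 + U D s x)) + m * l ^ 2 +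
          m⁻¹ * (nrm (grad φ x - W x) ^ 2 + G x ^ 2 + Gf x ^ 2 + CN ^ 2 * s.G x ^ 2) := fun x hx => by
      have a1 := Rm_le (y0 := y0) (z := q * w) (W := W) hD hc ans.rg (hs x hx) hπ m0
        (a := nrm (grad φ x - W x)) (g := G x) (by
          rw [show W x - Ω x = -(grad φ x - W x) + (grad φ x - Ω x) by abel]
          exact (nrm_add_le _ _).trans (add_le_add (nrm_neg _).le (ans.ex x))) (f1 x)
      have a2 := young m0 l (CN * s.G x)
      have a3 : e1 * (D.P ^ 2 * (B0 s y0 + U D s x)) ≤ ec * (D.P ^ 2 * (B0 s y0 + U D s x)) :=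
        mul_le_mul_of_nonneg_right e1c (by have := U_nonneg (s := s) hD x; positivity)
      have a4 : 0 ≤ m⁻¹ * (CN * s.G x) ^ 2 := by positivity
      linarith
    have a1 := Br.St91.abs_mean
      (mean_mono_supp hv fun x hx => (le_abs_self _).trans (pt x hx))
      (mean_mono_supp hv fun x hx => (neg_le_abs _).trans (pt x hx)) fun _ => rfl
    simp only [mean_add, mean_const_mul, hv.mean_const] at a1
    refine a1.trans (le_trans ?_ (num1 A1 P1 CN1 o0 o1 T0 (show 0 ≤ Ex D s + K by linarith) c0 M0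
      m4 m3 m1 hm))
    refine add_le_add (add_le_add (mul_le_mul_of_nonneg_left (mul_le_mul_of_nonneg_left
      (by linarith) (sq_nonneg _)) (by positivity)) (mul_le_mul_of_nonneg_left (by linarith) m0.le))
      (mul_le_mul_of_nonneg_left ?_ (by positivity))
    have u1 := mul_le_mul_of_nonneg_left t3 c0
    have u2 := mul_le_of_le_one_right Kh0.le c1
    have u3 := le_mul_of_one_le_left Ex0 A1
    have u4 := mul_le_mul_of_nonneg_left (show (mean v fun x => s.G x ^ 2) ≤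
      4 * (A * Ex D s) + 48 * (ec * (A * T)) + 18 * (A * K) by linarith) (sq_nonneg CN)
    have u5 := le_mul_of_one_le_left (show 0 ≤ ec * (A * T) by positivity) C2
    have u6 := le_mul_of_one_le_left (show 0 ≤ A * K by linarith) C2
    have u7 : 0 ≤ CN ^ 2 * (A * Ex D s) := by positivity
    linarith
  have x0 : 0 ≤ Kh * ec * (48 * (CB * B) + 18) := by positivity
  have r1 := key _ hν (fun x => loc_of_nu) b1 (le_trans (by linarith)
    (le_mul_of_one_le_left Bn CB1)) (by change Ex D s ≤ _; linarith)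
  have r2 := key _ hπ (fun x => loc_of_pi) b2 b3 (by
    have a1 := H.xfer hw Kh0 ((lip2_iff (sqrt_nonneg ec)).2 (by rw [sq_sqrt c0]; exact hc.ts))
      hν.isP hπ.isP
    rw [sq_sqrt c0] at a1
    refine le_trans a1 (add_le_add le_rfl (mul_le_mul_of_nonneg_left ?_ (by positivity)))
    change 32 * kl _ _ + 16 * kl _ _ + 18 ≤ _
    linarith)
  have r3 : mean (nu D s) (F1 D s y0 Ω) - mean (pi D s) (F1 D s y0 Ω) ≤ ω * (T + 1) / 4 := by
    refine num2 A1 CN1 o0 o1 T0 c0 (le_trans ?_ m3) ((H.sub_sq hw Kh0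
      (lip_F1 (y0 := y0) hD hc ans.rg e1c CN1 l0) hν.isP hπ.isP).trans ?_)
    · linarith [le_mul_of_one_le_left (show 0 ≤ A ^ 2 * CN ^ 2 * ec by positivity) P2]
    have a2 : (nrm (s.y' - y0) + s.L + l) ^ 2 ≤ 6 * T := (sz_le s y0 l).trans (by linarith)
    have a5 : Kh * (16 * kl (nu D s) (ising D.J y0) + 16 * kl (pi D s) (ising D.J y0) + 12) ≤
        32 * A * (T + 1) := by
      linarith [mul_le_mul_of_nonneg_left b1 Kh0.le, mul_le_mul_of_nonneg_left b2 Kh0.le]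
    change Kh * _ * (16 * kl _ _ + 16 * kl _ _ + 12) ≤ _
    rw [mul_right_comm, mul_comm, mul_pow]
    refine mul_le_mul (mul_le_mul_of_nonneg_left a2 (sq_nonneg _)) a5 (mul_nonneg Kh0.le ?_)
      (by positivity)
    linarith [(Ta.Pr.mk hν (.of_pos hw) fun x e => absurd e (hw x).ne').kl_nonneg,
      (Ta.Pr.mk hπ (.of_pos hw) fun x e => absurd e (hw x).ne').kl_nonneg]
  rw [ident (Ω := Ω) hν hπ ans.fr, ← hT]
  have z1 := le_mul_of_one_le_left (show 0 ≤ Ex D s + K by linarith) M1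
  linarith [(abs_le.1 r1).2, (abs_le.1 r2).1, mul_nonneg o0.le T0]

end Crest.Agent.T157.S1

end
end

-- ▼ part T157/S1Ti_56
section

/-! # Row 157, S1: the tilt statement, unconditional (helper56) -/

namespace Crest.Agent.T157.S1

theorem tiltStmt : TiltStmt := tiltGlue tiltAGlue tiltBGlue crudeStmt b1Stmt

end Crest.Agent.T157.S1
end

-- ▼ part T157/S1Inc_33
section

/-!
# Row 157, part B, block S1: the increments of the energy and of the excess (helper33)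
-/

set_option autoImplicit false

noncomputable section

namespace Crest.Agent.T157.S1

open Real Matrix Finset Function
open Crest.Agent.T157.E Crest.Agent.T157.SL
open Crest.Agent.T157.Ta (kls)
open Crest.Agent.T157.Ue (Lw es)
open Crest.Agent.T157.Rec (grad)
open Crest.Agent.T157.Eig (nrm opn)
open Crest.Agent.T157.S3 (V Mx hf Dg TS)
open Pin33

namespace Inc33

variable {n : ℕ} {D : Dat n} {s : St n} {x : Cube n}

/-- the site term of `AA` -/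
def aa (D : Dat n) (s : St n) (i : Fin n) (x : Cube n) : ℝ :=
  Ue.rw D.η0 D.θ D.f i x * kls (nu D s) (pi D s) i x +
    (1 - D.θ) / 2 * (Lw D.η0 D.f i x * es (nu D s) (loc D s) i x)

lemma mean_aa : (mean (nu D s) fun x => ∑ i, aa D s i x) = AA D s := by
  simp only [aa, mean_sum, mean_add, mean_const_mul, sum_add_distrib, ← mul_sum]
  rfl


/-- at a free site the conditional mean of `ν` is close to the one of the base point -/
lemma cm_nu_sub (hD : D.Ok) (hw : Wt (loc D s)) (hx : nu D s x ≠ 0) (y0 : V n) (i : Fin n) :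
    0 ≤ aa D s i x ∧ (Ta.cm (nu D s) i x ^ 2 = 1 ∨
      (Ta.cm (nu D s) i x - tanh (hf D.J y0 x i)) ^ 2 ≤ 2 / D.η0 * aa D s i x + 8 * sh D s y0 x i) := by
  have e0 := hD.e0
  have e1 := hD.e1
  have t0 := hD.t0
  have t1 := hD.t1
  rcases Ue.site_dict hw hD.fpos (v := nu D s) rfl (fun σ => del s ⬝ᵥ sv σ + s.Th σ) i hx with
    ⟨p, h, k, k1, -, -, k4, k5, k6, k7, -, -⟩ | ⟨k1, -, -, k4, b, k5, -, -⟩
  · have k1' : kls (nu D s) (pi D s) i x = _ := k1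
    have k7' : Ta.cm (pi D s) i x = _ := k7
    have a1 := Ue.pinsker p k
    have a2 := Ue.sq_le_ee h k
    have a3 := Ue.klr_nonneg p k
    have a4 := Ue.ee_nonneg h k
    have key : ∀ u : ℝ, D.η0 * (tanh k - u) ^ 2 ≤ aa D s i x →
        (u - tanh (hf D.J y0 x i)) ^ 2 ≤ 4 * sh D s y0 x i →
        (tanh k - tanh (hf D.J y0 x i)) ^ 2 ≤ 2 / D.η0 * aa D s i x + 8 * sh D s y0 x i :=
      fun u h1 h2 => by
        have h3 : (tanh k - u) ^ 2 ≤ 1 / D.η0 * aa D s i x := by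
          rw [one_div, inv_mul_eq_div, le_div_iff₀ e0]; linarith
        have h4 : 2 / D.η0 * aa D s i x = 2 * (1 / D.η0 * aa D s i x) := by ring
        nlinarith [sq_nonneg (tanh k - u - (u - tanh (hf D.J y0 x i)))]
    by_cases hl : Ue.Ld D.η0 D.f i x
    · have ea : aa D s i x = D.θ * Hd.klr p k + (1 - D.θ) / 2 * Ue.ee h k := by
        rw [aa, k1', k4, Ue.rw_of hl, Ue.Lw_of hl, one_mul]
      have b1 := mul_nonneg t0 a3
      have b2 : D.η0 * Ue.ee h k ≤ (1 - D.θ) / 2 * Ue.ee h k :=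
        mul_le_mul_of_nonneg_right (by linarith) a4
      refine ⟨by rw [ea]; nlinarith, ?_⟩
      by_cases hi : i ∈ s.S
      · left; rw [cm_nu_pin hD (loc_of_nu hx) hi, sq, Rec.sv_mul_self]
      · right
        rw [k5]
        refine key (tanh h) ?_ (k6 ▸ c_loc hD (loc_of_nu hx) hi y0)
        rw [ea]; nlinarith
    · have ea : aa D s i x = (1 - 2 * D.η0) * Hd.klr p k := by
        rw [aa, k1', k4, Ue.rw_of_not hl, Ue.Lw_of_not hl, zero_mul, mul_zero, add_zero]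
      refine ⟨by rw [ea]; exact mul_nonneg (by linarith) a3, ?_⟩
      by_cases hi : i ∈ s.S
      · left; rw [cm_nu_pin hD (loc_of_nu hx) hi, sq, Rec.sv_mul_self]
      · right
        rw [k5]
        refine key (tanh p) ?_ (k7' ▸ c_pi hD (loc_of_nu hx) hi y0)
        rw [ea]; nlinarith [sq_nonneg (tanh k - tanh p)]
  · have k1' : kls (nu D s) (pi D s) i x = _ := k1
    refine ⟨by rw [aa, k1', k4]; simp, .inl ?_⟩
    rw [k5, sq, spin_mul_self]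

lemma pt {g o c t e A : ℝ} (hc : |c| ≤ 1) (ht : |t| ≤ 1) (ho : |o| ≤ e) (hA : 0 ≤ A)
    (h : c ^ 2 = 1 ∨ (c - t) ^ 2 ≤ A) :
    g ^ 2 * (1 - c ^ 2) ≤ 2 * (g - o) ^ 2 + 2 * ((1 - t ^ 2) * (o * o)) + 2 * e * o ^ 2 + 2 * e * A := by
  have he : 0 ≤ e := (abs_nonneg _).trans ho
  have c1 : c ^ 2 ≤ 1 := by rwa [← sq_abs, sq_le_one_iff₀ (abs_nonneg _)]
  have t1 : t ^ 2 ≤ 1 := by rwa [← sq_abs, sq_le_one_iff₀ (abs_nonneg _)]
  have p1 := mul_nonneg (sub_nonneg.2 t1) (mul_self_nonneg o)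
  have p2 := mul_nonneg he (sq_nonneg o)
  have p3 := mul_nonneg he hA
  rcases h with h | h
  · rw [h, sub_self, mul_zero]; nlinarith [sq_nonneg (g - o)]
  · have h1 : 1 - c ^ 2 ≤ 1 - t ^ 2 + 2 * |c - t| := by
      have : t ^ 2 - c ^ 2 = -(c - t) * (c + t) := by ring
      have h2 : -(c - t) * (c + t) ≤ |c - t| * |c + t| := by
        rw [← abs_mul, neg_mul]; exact neg_le_abs _
      have h3 : |c + t| ≤ 2 := (abs_add_le _ _).trans (by linarith)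
      nlinarith [abs_nonneg (c - t)]
    have h2 : g ^ 2 * (1 - c ^ 2) ≤ 2 * (g - o) ^ 2 + 2 * (o ^ 2 * (1 - c ^ 2)) := by
      have : g ^ 2 ≤ 2 * (g - o) ^ 2 + 2 * o ^ 2 := by nlinarith [sq_nonneg (g - 2 * o)]
      nlinarith [mul_le_mul_of_nonneg_right this (sub_nonneg.2 c1),
        mul_nonneg (sq_nonneg (g - o)) (sq_nonneg c)]
    have h3 := mul_le_mul_of_nonneg_left h1 (sq_nonneg o)
    have h4 : o ^ 2 * (2 * |c - t|) ≤ e * o ^ 2 + e * A := by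
      have h5 : |o| * (2 * |c - t|) ≤ o ^ 2 + A := by
        nlinarith [sq_nonneg (|o| - |c - t|), sq_abs o, sq_abs (c - t)]
      calc _ = |o| * (|o| * (2 * |c - t|)) := by rw [← mul_assoc |o|, ← sq, sq_abs]
        _ ≤ e * (o ^ 2 + A) := mul_le_mul ho h5 (by positivity) he
        _ = _ := by ring
    nlinarith

/-- the energy of `φ` through a small field `Ω` -/
theorem Eg_le (hD : D.Ok) {ec A : ℝ} (hc : Cl ec A s) (hw : Wt (loc D s)) (hv : Wt (nu D s))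
    (hH : 0 ≤ Hy D s) (y0 : V n) {φ G : Cube n → ℝ} {Ω : Cube n → V n} {e L : ℝ} (he : 0 ≤ e)
    (hs : ∀ x, ‖Ω x‖ ≤ e) (hL : ∀ x, nrm (Ω x) ≤ L) (hG : ∀ x, nrm (grad φ x - Ω x) ≤ G x) :
    Eg D s φ ≤ 2 * (mean (nu D s) fun x => G x ^ 2) +
      2 * (mean (nu D s) fun x => Dg D.J y0 x ⬝ᵥ (Ω x * Ω x)) +
      2 * e * (L ^ 2 + 2 / D.η0 * AA D s + 1296 * D.P ^ 2 * Bb D s y0) := by
  have e0 := hD.e0
  have h1 : Eg D s φ = mean (nu D s) fun x =>
      ∑ i, grad φ x i ^ 2 * (1 - Ta.cm (nu D s) i x ^ 2) := by rw [mean_sum]; rfl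
  have h2 := Ta.mean_mono_supp hv (f := fun x => ∑ i, grad φ x i ^ 2 * (1 - Ta.cm (nu D s) i x ^ 2))
    (g := fun x => 2 * G x ^ 2 + 2 * (Dg D.J y0 x ⬝ᵥ (Ω x * Ω x)) + 2 * e * (L ^ 2 +
      2 / D.η0 * ∑ i, aa D s i x + 8 * ∑ i, sh D s y0 x i)) fun x hx => by
    have a1 := sum_le_sum fun i (_ : i ∈ univ) => pt (g := grad φ x i) (o := Ω x i)
      (Ta.abs_cm_le hv.nn i x) (abs_tanh_lt_one (hf D.J y0 x i)).le
      ((norm_le_pi_norm (Ω x) i).trans (hs x))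
      (add_nonneg (mul_nonneg (by positivity) (cm_nu_sub hD hw hx y0 i).1)
        (mul_nonneg (by norm_num) (sh_nonneg y0 x i))) (cm_nu_sub hD hw hx y0 i).2
    have a2 : ∑ i, (grad φ x i - Ω x i) ^ 2 ≤ G x ^ 2 := by
      have := pow_le_pow_left₀ (Eig.nrm_nonneg _) (hG x) 2
      rw [Eig.nrm_sq] at this
      simpa only [sq (_ - _ : ℝ), dotProduct, Pi.sub_apply] using this
    have a3 : ∑ i, Ω x i ^ 2 ≤ L ^ 2 := by
      have := pow_le_pow_left₀ (Eig.nrm_nonneg _) (hL x) 2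
      rw [Eig.nrm_sq] at this
      simpa only [sq (Ω _ _), dotProduct] using this
    simp only [sum_add_distrib, ← mul_sum] at a1
    have a4 : Dg D.J y0 x ⬝ᵥ (Ω x * Ω x) =
      ∑ i, (1 - tanh (hf D.J y0 x i) ^ 2) * (Ω x i * Ω x i) := rfl
    have a5 := mul_le_mul_of_nonneg_left a3 he
    simp only [a4]
    linarith
  simp only [mean_add, mean_const_mul, hv.mean_const, mean_aa] at h2
  have h3 := mul_le_mul_of_nonneg_left (mean_sh_le hD hc hv hH y0) he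
  rw [h1]
  linarith

/-- second moments of two-sided Lipschitz functions -/
theorem sq_le {K0 κ0 : ℝ} (hκ : 0 < κ0) {J : Mx n} {y0 : V n} (hB : Bas J K0 κ0 y0)
    {v G : Cube n → ℝ} (hv : Wt v) {e : ℝ} (he : 0 ≤ e) (hG : TS e G) :
    (mean v fun x => G x ^ 2) ≤ 2 * (mean (ising J y0) fun x => G x ^ 2) +
      2 * ((|K0| + 8 / κ0) * e * (8 * kl v (ising J y0) + 3)) := by
  have hw : ∀ x, 0 < ising J y0 x := fun _ => exp_pos _
  have h1 := (Xt.h1_of_atd (Atd.ATd.mono hB hw (le_abs_self K0) le_rfl) hw (abs_nonneg _) hκ).cen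
    hw (by positivity) ((Xt.lip2_iff (sqrt_nonneg e)).2 fun x => by rw [sq_sqrt he]; exact hG x)
    hv.isP
  rw [sq_sqrt he] at h1
  have h2 := S3.Rg.mean_sq (Chain22.isP_prob' hw) G
  set m := Chain22.mean (prob (ising J y0)) G
  have h3 := hv.mean_mono (f := fun x => G x ^ 2) (g := fun x => 2 * (G x - m) ^ 2 + 2 * m ^ 2)
    fun x => by nlinarith [sq_nonneg (G x - 2 * m)]
  simp only [mean_add, mean_const_mul, hv.mean_const] at h3
  have h4 : (mean v fun x => (G x - m) ^ 2) ≤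
    (|K0| + 8 / κ0) * e * (8 * kl v (ising J y0) + 3) := h1
  have h5 : m ^ 2 ≤ mean (ising J y0) fun x => G x ^ 2 := h2
  linarith

lemma Bb_nonneg (hH : 0 ≤ Hy D s) (hU : 0 ≤ mean (nu D s) (U D s)) (y0 : V n) : 0 ≤ Bb D s y0 := by
  have := Eig.dot_self_nonneg (del s)
  unfold Bb Bd; positivity

/-- arithmetic of the large constant -/
lemma Mx'_facts {C P CN η ω e : ℝ} (hC : 1 ≤ C) (hP : 1 ≤ P) (hN : 1 ≤ CN) (h0 : 0 < η) (h1 : η ≤ 1)
    (w0 : 0 < ω) (w1 : ω ≤ 1) (he : 0 ≤ e) (h : Mx' C P CN 1 η ω ^ 2 * e ≤ 1) :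
    C ≤ Mx' C P CN 1 η ω ∧ e ≤ 1 ∧ e * C ≤ ω ∧ e * (C * CN ^ 2) ≤ ω ∧ e * (C * P ^ 2) ≤ ω ∧
      e * (C / η) ≤ ω := by
  set m := P * CN / (1 * η * ω) with hm
  have hηω : 0 < 1 * η * ω := by positivity
  have g : ∀ t, t * (1 * η * ω) ≤ P * CN → t ≤ m := fun t ht => (le_div_iff₀ hηω).2 ht
  have k0 : 1 * η * ω ≤ 1 := by nlinarith
  have pc : 1 ≤ P * CN := by nlinarith
  have m1 : 1 ≤ m := g 1 (by linarith)
  have mP : P ≤ m := g P (by nlinarith)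
  have mN : CN ≤ m := g CN (by nlinarith)
  have mη : 1 / η ≤ m := g _ (by
    have : 1 / η * (1 * η * ω) = ω := by field_simp
    linarith)
  have mω : 1 ≤ m * ω := by
    have := g (1 / ω) (by
      have : 1 / ω * (1 * η * ω) = η := by field_simp
      linarith)
    rwa [div_le_iff₀ w0] at this
  have m2 : m ≤ m ^ 2 := by nlinarith
  have hM : Mx' C P CN 1 η ω = C * m ^ 2 := rfl
  rw [hM] at h ⊢
  have M1 : m ≤ C * m ^ 2 := by nlinarith
  have key : e * (C * m ^ 2) ≤ ω := by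
    have a : 0 ≤ e * (C * m ^ 2) := by positivity
    have b : e * (C * m ^ 2) * m ≤ 1 := by nlinarith [mul_le_mul_of_nonneg_left M1 a]
    nlinarith [mul_le_mul_of_nonneg_left mω a]
  have f : ∀ t, t ≤ m ^ 2 → e * (C * t) ≤ ω := fun t ht =>
    (mul_le_mul_of_nonneg_left (mul_le_mul_of_nonneg_left ht (by linarith)) he).trans key
  have eC : e * C ≤ ω := by simpa using f 1 (by linarith)
  refine ⟨by nlinarith, by nlinarith, eC, f _ (by gcongr), f _ (by gcongr), ?_⟩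
  rw [div_eq_mul_one_div]
  exact f _ (mη.trans m2)

end Inc33

open Inc33 in
theorem incGlue (hCr : CrudeStmt) (hB1 : B1Stmt) : IncStmt := by
  intro K0 κ0 hκ
  obtain ⟨CB, hCB, hB⟩ := hB1 K0 κ0 hκ
  set K1 := |K0| + 8 / κ0 with hK1
  have K10 : 0 ≤ K1 := by positivity
  set C2 := 2 + 16 * K1 * CB + 6 * K1 with hC2
  have C20 : 0 ≤ 16 * K1 * CB := by positivity
  refine ⟨8 * C2 + 8 * CB + 20000, by linarith, ?_⟩
  intro n D s y0 p al q w a e e1 ec CN C0 K l ω φ W Ω G hD hc hBas hA hp he1 hec hN hC0 hK hl w0 w1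
    hM
  set C := 8 * C2 + 8 * CB + 20000 with hC
  obtain ⟨h1, h2, -, hAA, -, hH, hU, -, -, hEx, -⟩ := hCr n D s hD
  have hv := h1.hv
  have hb := Bb_nonneg hH hU y0
  have hkl := (hB n D s y0 ec ec hD hc hBas).1
  obtain ⟨m1, m2, m3, m4, m5, m6⟩ := Mx'_facts (e := e1) (show 1 ≤ C by linarith) hD.P1 hN hD.e0
    (by linarith [hD.e1]) w0 w1 he1 ((mul_le_mul_of_nonneg_left hec (sq_nonneg _)).trans hM)
  have l2 := sq_nonneg l
  have g1 : (mean (nu D s) fun x => G x ^ 2) ≤ C2 * (e1 * (Bb D s y0 + l ^ 2) + K) := by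
    have a1 := sq_le hκ hBas hv he1 hA.ts
    have a2 := hA.g2
    have a3 : K1 * e1 * (8 * kl (nu D s) (ising D.J y0) + 3) ≤
        K1 * e1 * (8 * (CB * Bb D s y0) + 3) := by gcongr
    have a4 : K1 * e1 ≤ K1 * K := by gcongr; linarith
    have a5 := mul_nonneg he1 hb
    have a6 := mul_nonneg he1 l2
    rw [hC2]
    nlinarith [mul_nonneg C20 a6, mul_nonneg C20 (zero_le_one.trans hK), mul_nonneg K10 a5,
      mul_nonneg K10 a6]
  have z : 0 ≤ e1 * (Bb D s y0 + l ^ 2) + K := by positivity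
  refine ⟨?_, g1.trans (mul_le_mul_of_nonneg_right (by linarith) z)⟩
  have g2 := Eg_le hD hc h2.hw hv hH y0 he1 (fun x => (hA.rg x).1) (fun x => (hA.rg x).2.2.1) hA.ex
  have g3 := hA.g _ hv
  have pw : 0 ≤ p ⬝ᵥ (w * w) := sum_nonneg fun i _ => mul_nonneg (hp i) (mul_self_nonneg _)
  have e0 := hD.e0
  have b1 : 2 * (C0 * (p ⬝ᵥ (w * w))) ≤ C * C0 * (p ⬝ᵥ (w * w)) := by
    rw [mul_assoc]; exact mul_le_mul_of_nonneg_right (by linarith) (mul_nonneg hC0 pw)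
  have b2 : (2 * C2 + 2) * K ≤ Mx' C D.P CN 1 D.η0 ω * (Ex D s + K) :=
    mul_le_mul (by linarith) (by linarith) (by linarith) (by linarith)
  have b3 : e1 * kl (nu D s) (ising D.J y0) ≤ e1 * (CB * Bb D s y0) := by gcongr
  have c1 : e1 * (2 * C2 + 2 * CB + 2) ≤ ω / 4 := by nlinarith
  have c2 : e1 * (2 * CN ^ 2) ≤ ω / 4 := by
    nlinarith [mul_nonneg he1 (sq_nonneg CN)]
  have c3 : e1 * (2592 * D.P ^ 2) ≤ ω / 4 := by
    nlinarith [mul_nonneg he1 (sq_nonneg D.P)]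
  have c4 : e1 * (4 / D.η0) ≤ ω := by
    refine le_trans ?_ m6; gcongr; linarith
  have d1 := mul_le_mul_of_nonneg_right c1 (add_nonneg hb l2)
  have d2 := mul_le_mul_of_nonneg_right c2 l2
  have d3 := mul_le_mul_of_nonneg_right c3 hb
  have d4 := mul_le_mul_of_nonneg_right c4 hAA
  have d5 : 2 * e1 * (2 / D.η0 * AA D s) = e1 * (4 / D.η0) * AA D s := by ring
  have d6 := mul_nonneg w0.le hb
  have d7 := mul_nonneg w0.le l2
  have d8 := mul_nonneg he1 hb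
  have d9 := mul_nonneg (mul_nonneg he1 l2) (zero_le_one.trans hCB)
  nlinarith

end Crest.Agent.T157.S1

end
end

-- ▼ part T157/S1Win_62

/-!
# Row 157, part B, block S1 (helper62): the synchronous window (`S1.winGlue`)
-/

set_option autoImplicit false

noncomputable section

namespace Crest.Agent.T157.S1

open MeasureTheory Real Matrix Finset
open Crest.Agent.T157.E Crest.Agent.T157.SL Crest.Agent.T157.Ta
open Crest.Agent.T157.Ue (El Lw)
open Crest.Agent.T157.Rec (grad)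
open Crest.Agent.T157.S3 (V)

namespace Win62

variable {n : ℕ}

/-- integrable with integral at most `b` -/
def IL (P : Measure (P2 n)) (f : P2 n → ℝ) (b : ℝ) : Prop := Integrable f P ∧ ∫ p, f p ∂P ≤ b

section
variable {P : Measure (P2 n)} {f g : P2 n → ℝ} {a b : ℝ}

lemma IL.add (h : IL P f a) (h' : IL P g b) : IL P (fun p => f p + g p) (a + b) :=
  ⟨h.1.add h'.1, by rw [integral_add h.1 h'.1]; exact add_le_add h.2 h'.2⟩

lemma IL.mul (h : IL P f a) {c : ℝ} (hc : 0 ≤ c) : IL P (fun p => c * f p) (c * a) :=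
  ⟨h.1.const_mul c, by rw [integral_const_mul]; exact mul_le_mul_of_nonneg_left h.2 hc⟩

lemma IL.neg (h : Integrable f P) (e : a ≤ ∫ p, f p ∂P) : IL P (fun p => -f p) (-a) :=
  ⟨h.neg, by rw [integral_neg]; exact neg_le_neg e⟩

lemma IL.fin [IsProbabilityMeasure P] (h : IL P f a) (e : ∀ p, b ≤ f p) : b ≤ a := by
  have := integral_mono (integrable_const b) h.1 e
  rw [integral_const, probReal_univ, one_smul] at this
  exact this.trans h.2

end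

variable {r : Fin n → Cube n → ℝ} {v w : Cube n → ℝ} {τ ε : ℝ} {P : Measure (P2 n)}

lemma il_fst (hP : Win r v w τ ε P) (hv : Wt v) {K : V n → ℝ} (hK : XG K) {b : ℝ}
    (e : slE sv v τ (fun _ => K) ≤ b) : IL P (fun p => K p.1) b := by
  refine ⟨hP.int _ hK.fst, ?_⟩
  rw [← integral_map (φ := Prod.fst) (f := K) measurable_fst.aemeasurable
    hK.meas.aestronglyMeasurable, hP.fst, integral_law hv hK.meas (.of_mg fun _ => hK.mg)]
  exact e

lemma l0 (x : Cube n) : LG fun y : V n => y ⬝ᵥ sv x := LG.dot' _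

lemma il_mean (hP : Win r v w τ ε P) (hv : Wt v) (hτ : 0 ≤ τ) (g : Cube n → ℝ) :
    IL P (fun p => mean (tilt v p.1) g) (mean v g) :=
  il_fst hP hv (K := fun y => mean (tilt v y) g)
    (xg_mean hv (fun x => (l0 x).meas) fun _ => .const _)
    (by simp only [← mean_post_sv v τ, slE_mean hv hτ, le_refl])

lemma il_F (hP : Win r v w τ ε P) (hv : Wt v) (hτ : 0 ≤ τ) {F : Fy n} (hF : XF F) (y : V n) :
    IL P (fun p => mean (tilt v p.1) fun σ => F σ (y + p.1)) (mean v fun σ => Ew τ F σ y) := by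
  have m : ∀ σ, XG fun z : V n => F σ (y + z) := fun σ => (hF.1 σ).comp (a := ‖y‖) (b := 1)
    (by fun_prop) zero_le_one fun z => by rw [one_mul]; exact norm_add_le _ _
  refine il_fst hP hv (K := fun z => mean (tilt v z) fun σ => F σ (y + z))
    (xg_mean hv (fun x => (l0 x).meas) m) (le_of_eq ?_)
  simp only [← mean_post_sv v τ]
  rw [← bayes hv hτ (.of_mg fun σ => (m σ).mg), slE_eq_mean]
  simp only [Ew, add_assoc]

lemma il_kl (hP : Win r v w τ ε P) {μ : Cube n → ℝ} (h : Pr v μ) (hτ : 0 ≤ τ) :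
    IL P (fun p => kl (tilt v p.1) (tilt μ p.1)) (kl v μ) :=
  il_fst hP h.hv (K := fun y => kl (tilt v y) (tilt μ y)) (xg_kl h l0 l0)
    (by simpa only [kl_post_sv] using kl_chan_le (φ := sv) h hτ)

lemma il_cnt (hP : Win r v w τ ε P) (hv : Wt v) (hτ : 0 ≤ τ) {u : Fin n → Cube n → ℝ} (hu : Off u)
    (h0 : ∀ i x, 0 ≤ u i x) : IL P (fun p => Cnt u (tilt v p.1)) (Cnt u v) :=
  il_fst hP hv (K := fun y => Cnt u (tilt v y))
    (XG.sum _ fun i _ => xg_Cs hv (fun x => (l0 x).meas) (u i) i)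
    (by simpa only [Cnt_post_sv] using Cnt_chan_le (φ := sv) hv hτ hu h0)

/-- the normalisation of `ν` is an inverse martingale -/
lemma il_inv {μ k : Cube n → ℝ} (hP : Win r (fun x => μ x * k x) w τ ε P) (hμ : Wt μ)
    (hv : Wt fun x => μ x * k x) (hτ : 0 ≤ τ) : 0 < mean μ k ∧ (∀ y, 0 < mean (tilt μ y) k) ∧
    IL P (fun p => (mean (tilt μ p.1) k)⁻¹) (mean μ k)⁻¹ := by
  have m0 : 0 < mean μ k := by rw [mean_eq_div]; exact div_pos hv.pos hμ.pos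
  have z1 : ∀ y : V n, 0 < mean μ fun x => exp (y ⬝ᵥ sv x) := fun y =>
    mean_pos' hμ fun _ => exp_pos _
  have z2 : ∀ y : V n, 0 < mean (fun x => μ x * k x) fun x => exp (y ⬝ᵥ sv x) := fun y =>
    mean_pos' hv fun _ => exp_pos _
  have e : ∀ y : V n, mean (tilt μ y) k = mean μ k *
      (mean (fun x => μ x * k x) fun x => exp (y ⬝ᵥ sv x)) / mean μ fun x => exp (y ⬝ᵥ sv x) := by
    intro y
    rw [mean_mul_weight μ k _ hμ.pos.ne', mul_div_cancel₀ _ m0.ne']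
    simp only [mul_comm (k _)]
    exact mean_mul_weight μ _ k hμ.pos.ne'
  have m1 : ∀ y, 0 < mean (tilt μ y) k := fun y => by
    rw [e]; exact div_pos (mul_pos m0 (z2 y)) (z1 y)
  have xg : XG fun y : V n => (mean (tilt μ y) k)⁻¹ := by
    have x1 := (((LG.lme hμ.nn l0).sub (LG.lme hv.nn l0)).exp).const_mul (mean μ k)⁻¹
    refine (congrArg XG (funext fun y => ?_)).mpr x1
    rw [e, exp_sub, exp_log (z1 y), exp_log (z2 y)]
    have := z1 y; have := z2 y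
    field_simp
  refine ⟨m0, m1, il_fst hP hv xg (le_of_eq ?_)⟩
  rw [slE_mul_weight' hμ hτ k (.of_mg fun _ => xg.mg)]
  simp only [mean_post_sv, mul_inv_cancel₀ (m1 _).ne']
  rw [slE_fun, hμ.mean_const, one_div]

lemma amgm {m m0 : ℝ} (hm : 0 < m) (h0 : 0 < m0) (a T : ℝ) : exp ((a - log m - T) / 2) ≤
    exp ((a - log m0 - T) / 2) / 2 + exp ((a - log m0 - T) / 2) * m0 / 2 * m⁻¹ := by
  set t := exp ((log m0 - log m) / 2) with ht
  have e1 : exp ((a - log m - T) / 2) = exp ((a - log m0 - T) / 2) * t := by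
    rw [ht, ← exp_add]; congr 1; ring
  have e2 : t * t = m0 * m⁻¹ := by
    rw [ht, ← exp_add, add_halves, exp_sub, exp_log hm, exp_log h0, div_eq_mul_inv]
  rw [e1, show exp ((a - log m0 - T) / 2) * m0 / 2 * m⁻¹ =
    exp ((a - log m0 - T) / 2) * (m0 * m⁻¹) / 2 by ring, ← e2]
  nlinarith [mul_nonneg (exp_pos ((a - log m0 - T) / 2)).le (sq_nonneg (t - 1))]

lemma sq_add (a b : V n) : (a - b) ⬝ᵥ (a - b) ≤ 3 / 2 * (a ⬝ᵥ a) + 3 * (b ⬝ᵥ b) := by
  simp only [dotProduct, mul_sum, ← sum_add_distrib, Pi.sub_apply]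
  exact sum_le_sum fun i _ => by nlinarith [sq_nonneg (a i + 2 * b i)]

variable (D : Dat n) (s : St n) (p q : V n)

lemma loc_mv : loc D (s.mv p q) = tilt (loc D s) p := by
  funext σ
  show ising D.J (s.y + p) σ * ell D s σ = _
  rw [← tilt_ising, tilt, tilt, loc, mul_right_comm]

lemma nu_mv : nu D (s.mv p q) = tilt (nu D s) p := by
  funext σ
  rw [nu, loc_mv, tilt, tilt, nu, mul_right_comm]

lemma del_mv : del (s.mv p q) = del s - (p - q) := by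
  show s.y' + q - (s.y + p) = s.y' - s.y - (p - q)
  abel

lemma pi_mv : pi D (s.mv p q) = tilt (pi D s) q := by
  funext σ
  rw [pi, loc_mv, del_mv]
  show loc D s σ * exp (p ⬝ᵥ sv σ) * exp ((del s - (p - q)) ⬝ᵥ sv σ + s.Th σ) =
    loc D s σ * exp (del s ⬝ᵥ sv σ + s.Th σ) * exp (q ⬝ᵥ sv σ)
  rw [mul_assoc, mul_assoc, ← exp_add, ← exp_add, sub_dotProduct, sub_dotProduct]
  congr 2; ring

lemma pot_mv (c : Cf) (ξ : Cube n → ℝ) : Pot D c ξ (s.mv p q) =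
    c.l * (Ar (Ue.rw D.η0 D.θ D.f) (tilt (nu D s) p) (tilt (pi D s) q) +
      (1 - D.θ) / 2 * El (Lw D.η0 D.f) (tilt (nu D s) p) (tilt (loc D s) p)) -
    c.a * kl (tilt (nu D s) p) (tilt (pi D s) q) +
    c.γ * (kl (tilt (nu D s) p) (tilt (ising D.J s.y) p) +
      (del s - (p - q)) ⬝ᵥ (del s - (p - q)) + s.L ^ 2 + mean (tilt (nu D s) p) (U D s) + #s.S +
      mean (tilt (nu D s) p) (U6 D s)) +
    c.g1 * Cnt (fun i σ => grad s.Th σ i ^ 2) (tilt (nu D s) p) +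
    c.g2 * mean (tilt (nu D s) p) (fun σ => s.G σ ^ 2) +
    c.Λ * ((del s - (p - q)) ⬝ᵥ (del s - (p - q))) +
    exp ((D.T0 - log (mean (tilt (ising D.J s.y) p) fun σ => ell D s σ * D.f σ) - c.T) / 2) +
    mean (tilt (nu D s) p) ξ := by
  simp only [Pot, AA, HH, Bd, Hy, Eg, Ex, Dz, nu_mv, pi_mv, loc_mv, del_mv, tilt_ising]
  rfl

end Win62

open Win62 in
theorem winGlue (hC : CrudeStmt) : WinStmt := by
  intro n D s c τ c1 R F hD hF hτ l0' l1 a0 g0 g1 g2 L0 hc h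
  obtain ⟨p1, p2, p3, -⟩ := hC n D s hD
  have hμ : Wt (ising D.J s.y) := Wt.of_pos fun _ => exp_pos _
  have p4 : Pr (nu D s) (ising D.J s.y) := ⟨p1.hv, hμ, fun x hx => absurd hx (exp_pos _).ne'⟩
  have hθ : 0 ≤ (1 - D.θ) / 2 := by linarith [hD.t1, hD.e0]
  have c0 : 0 ≤ c1 := le_trans (by positivity) hc
  refine le_of_forall_pos_le_add fun ε0 hε0 => ?_
  have hε : 0 < ε0 / (1 + 3 * (c.Λ + c.γ)) := by positivity
  obtain ⟨P, hP⟩ := sync n (Ue.rw D.η0 D.θ D.f) (nu D s) (pi D s) τ _ p1 (Ue.off_rw _ _ _)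
    (Ue.rw_mem hD.e0.le (by linarith [hD.e1]) hD.t0 (by linarith [hD.t1, hD.e0]) _) hτ hε
  have := hP.prob
  have hν : nu D s = fun σ => ising D.J s.y σ * (ell D s σ * D.f σ) :=
    funext fun σ => mul_assoc _ _ _
  obtain ⟨m0, m1, iE⟩ := il_inv (hν ▸ hP) hμ (hν ▸ p1.hv) hτ.le
  have k1 : ∀ x : Cube n, LG fun q : P2 n => q.1 ⬝ᵥ sv x := fun x => (LG.dot' _).fst
  have k2 : ∀ x : Cube n, LG fun q : P2 n => q.2 ⬝ᵥ sv x := fun x => (LG.dot' _).snd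
  have mY : XG fun q : P2 n => (q.1 - q.2) ⬝ᵥ (q.1 - q.2) := XG.sum _ fun i _ => by
    have := ((LG.coord i).fst.sub (LG.coord i).snd : LG fun q : P2 n => q.1 i - q.2 i).xg
    exact this.mul this
  have iA : IL P _ _ := ⟨hP.int _ (xg_Ar p1 (Ue.off_rw D.η0 D.θ D.f) k1 k2), hP.A⟩
  have iL : IL P _ _ := Ue.El_win p2 p3 (Ue.off_Lw D.η0 D.f) (fun i x => (Ue.Lw_mem _ _ i x).1)
    hτ.le hP
  have iH := IL.neg (hP.int _ (xg_kl p1 k1 k2)) hP.H
  have iY : IL P _ _ := ⟨hP.int _ mY, hP.Y⟩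
  have iD := IL.neg (hP.int _ (xg_D2 p1.hv p1.hw)) le_rfl
  have d0 : 0 ≤ ∫ p, D2 (nu D s) (pi D s) p ∂P := (dot_self_nonneg _).trans hP.D
  have iC := il_cnt hP p1.hv hτ.le (u := fun i σ => grad s.Th σ i ^ 2)
    (fun i => (off_grad s.Th i).comp (· ^ 2)) fun _ _ => sq_nonneg _
  set E0 := exp ((Dz D s - c.T) / 2) with hE0
  have E1 : 0 < E0 := exp_pos _
  have key := ((((((((((((iA.add (iL.mul hθ)).mul l0').add (iH.mul a0)).add
    ((il_kl hP p4 hτ.le).mul g0)).add ((il_mean hP p1.hv hτ.le (U D s)).mul g0)).add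
    ((il_mean hP p1.hv hτ.le (U6 D s)).mul g0)).add (iC.mul g1)).add
    ((il_mean hP p1.hv hτ.le fun σ => s.G σ ^ 2).mul g2)).add
    (iY.mul (show 0 ≤ 3 * (c.Λ + c.γ) by positivity))).add
    (iE.mul (show 0 ≤ E0 * (mean (ising D.J s.y) fun σ => ell D s σ * D.f σ) / 2 by
      positivity))).add (il_F hP p1.hv hτ.le hF s.y)).add (iD.mul c0)).fin
    (b := -R - (c.γ * (s.L ^ 2 + #s.S) + 3 / 2 * (c.Λ + c.γ) * (del s ⬝ᵥ del s) + E0 / 2))
    fun p => by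
      have a1 := h p.1 p.2
      rw [pot_mv, Del, nu_mv, pi_mv] at a1
      have a2 := mul_le_mul_of_nonneg_left (sq_add (del s) (p.1 - p.2)) (add_nonneg L0 g0)
      have a3 := amgm (m1 p.1) m0 D.T0 c.T
      simp only [D2, tilt_eq] at a1 a3 ⊢
      simp only [hE0, Dz]
      linarith
  set I := ∫ p, D2 (nu D s) (pi D s) p ∂P
  set e := ε0 / (1 + 3 * (c.Λ + c.γ)) with he
  have b1 : E0 * (mean (ising D.J s.y) fun σ => ell D s σ * D.f σ) / 2 *
      (mean (ising D.J s.y) fun σ => ell D s σ * D.f σ)⁻¹ = E0 / 2 := by field_simp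
  have b2 : e + 3 * (c.Λ + c.γ) * e = ε0 := by rw [he]; field_simp
  have b3 := mul_le_mul_of_nonneg_right hc d0
  have b4 := mul_le_mul_of_nonneg_right l1 (show 0 ≤ τ / 2 * I + e by positivity)
  have b5 := mul_nonneg g0 (dot_self_nonneg (del s))
  simp only [Pot, AA, HH, Bd, Hy, Eg, Ex]
  rw [b1] at key
  linarith

end Crest.Agent.T157.S1

end
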