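import Crest.Agent.T157.KzRec_42_Mg
import Crest.Agent.T157.S1Par_97
import Crest.Agent.T157.S1Cr_89
import Crest.Agent.T157.S1Lad_61_Mg
import Crest.Agent.T157.S1PSc_71
import Crest.Agent.T157.S1Stat_27
import Crest.Agent.T157.S1Win_62_Mg
import Crest.Agent.T157.S1W_6

-- ▼ part T157/KzFin_42
section

/-!
# Row 157, part B (helper42): the collective supply, unconditional
-/

namespace Crest.Agent.T157.Kz

theorem zSup : ZSup := zSup_of Md.modStmt magStmt25 tokGlue38 mokGlue recStmt42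

end Crest.Agent.T157.Kz
end

-- ▼ part T157/S1PB_22
section

/-!
# Row 157, block S1 (helper22): basic facts on the constants of `S1Par_97`
-/

set_option autoImplicit false
set_option linter.unusedSectionVars false
set_option linter.unusedVariables false

noncomputable section

namespace Crest.Agent.T157.S1

open Real

namespace Par.Ok
variable {p : Par} (h : p.Ok)
include h

lemma k1 : 1 ≤ 1 + p.κ := by linarith [h.κ0']
lemma pw1 (k : ℕ) : 1 ≤ (1 + p.κ) ^ k := one_le_pow₀ h.k1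
lemma pw0 (k : ℕ) : 0 < (1 + p.κ) ^ k := lt_of_lt_of_le one_pos (h.pw1 k)
lemma a0' : 0 < p.a := h.a00.trans h.a0a
lemma l_pos (m : ℕ) : 0 < p.l m := inv_pos.2 (h.pw0 _)
lemma l_le (m : ℕ) : p.l m ≤ 1 := inv_le_one_of_one_le₀ (h.pw1 _)
lemma am_pos (m : ℕ) : 0 < p.am m := mul_pos h.a0' (h.pw0 _)
lemma N0 : (0 : ℝ) < p.N := by exact_mod_cast h.N1
lemma gg0 (m : ℕ) : 0 ≤ p.gg m := by
  have := h.N0; exact mul_nonneg h.g10 (by positivity)
lemma M0 (j : ℕ) : 0 < p.M j := lt_of_lt_of_le one_pos (h.M1 j)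
lemma g2_ge (m i : ℕ) : p.M (p.bt m i) ≤ p.g2 m i :=
  le_mul_of_one_le_left (h.M0 _).le (one_le_pow₀ (by norm_num))
lemma g21 (m i : ℕ) : 1 ≤ p.g2 m i := (h.M1 _).trans (h.g2_ge m i)
lemma g20 (m i : ℕ) : 0 ≤ p.g2 m i := zero_le_one.trans (h.g21 m i)
lemma C0 : 0 < p.C := lt_of_lt_of_le one_pos h.C1'
lemma CZ1' : 1 ≤ p.CZ := by
  have h1 := h.CZ1; have h2 := h.lq0; have h3 := h.lq1
  have h0 : 0 < p.CZ := (pos_iff_pos_of_mul_pos (one_pos.trans_le h1)).2 h2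
  nlinarith
lemma CZ0 : 0 ≤ p.CZ := zero_le_one.trans h.CZ1'
lemma C_le_div : p.C ≤ p.C / p.κ := by
  rw [le_div_iff₀ h.κ0']; exact mul_le_of_le_one_right h.C0.le h.κ1
lemma Cu_le_div : p.Cu ≤ p.Cu / p.κ := by
  rw [le_div_iff₀ h.κ0']; exact mul_le_of_le_one_right (zero_le_one.trans h.Cu1) h.κ1
lemma Λ4 : 4 * p.C ≤ p.Λ := by
  have h1 := h.hΛ; have h2 := h.C_le_div; have h3 := h.Cu_le_div; have h4 := h.Cu1
  have h5 : 0 < 1 / p.c1 := one_div_pos.2 h.c10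
  have h6 := mul_nonneg h.CZ0 h.CM0
  linarith
lemma Λ1 : 4 ≤ p.Λ := by linarith [h.Λ4, h.C1']
lemma Λ0 : 0 ≤ p.Λ := by linarith [h.Λ1]
end Par.Ok

namespace Par
variable {p : Par}
lemma lt_bt (m i : ℕ) : i + 1 ≤ p.bt m i := by
  unfold Par.bt; have := Nat.one_le_two_pow (n := p.N - m); omega
lemma two_pow_sub {m : ℕ} (hm : m < p.N) :
    2 ^ (p.N - m) = 2 ^ (p.N - (m + 1)) + 2 ^ (p.N - (m + 1)) := by
  rw [show p.N - m = p.N - (m + 1) + 1 by omega, pow_succ]; ring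
lemma Nx.le {m i0 i : ℕ} (hx : p.Nx m i0 i) : i0 ≤ i := by
  rcases hx with h | h
  · exact h.ge
  · exact h ▸ Nat.le_add_right _ _
lemma Nx.bt_le {m i0 i : ℕ} (hx : p.Nx m i0 i) (hm : m < p.N) : p.bt (m + 1) i ≤ p.bt m i0 := by
  unfold Par.bt; rw [two_pow_sub hm]
  rcases hx with h | h
  · rw [h, ← add_assoc]; exact Nat.le_add_right _ _
  · rw [h, add_assoc]
lemma Nx.val {m i0 i : ℕ} (hx : p.Nx m i0 i) (hm : m < p.N) (hv : p.Val m i0) :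
    p.Val (m + 1) i := (hx.bt_le hm).trans hv
lemma Val.lt {m i : ℕ} (hv : p.Val m i) : i + 1 ≤ 2 ^ p.N := (lt_bt m i).trans hv
lemma Val.le {m i : ℕ} (hv : p.Val m i) : i ≤ 2 ^ p.N := by have := hv.lt; omega
lemma val_zero (m : ℕ) : p.Val m 0 := by
  unfold Par.Val Par.bt; rw [zero_add]; exact Nat.pow_le_pow_right (by norm_num) (Nat.sub_le _ _)
end Par

namespace Par.Ok
variable {p : Par} (h : p.Ok)
include h
end Par.Ok

lemma lg0 (n : ℕ) : 0 ≤ lg n := by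
  have : (0 : ℝ) ≤ n := Nat.cast_nonneg n
  exact mul_nonneg (by norm_num) (log_nonneg (by linarith))
lemma big1 (n : ℕ) : 1 ≤ big n := by
  have : (0 : ℝ) ≤ n := Nat.cast_nonneg n
  exact one_le_pow₀ (by linarith)

namespace Cap.Ok
variable {z : Cap} {p : Par} {n : ℕ} (hz : z.Ok p n)
include hz
lemma T0' {m : ℕ} (hm : m ≤ p.N) : 0 ≤ z.T m := (hz.Tn m hm).1
/-- `40 C C1² (4 T + lg + 1) ≤ t` -/
lemma t_ge' (h : p.Ok) {m : ℕ} (hm : m ≤ p.N) :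
    40 * p.C * p.C1 ^ 2 * (4 * z.T m + lg n + 1) ≤ z.t m := by
  have h1 := hz.h1 m hm 0 (Nat.zero_le _)
  have h2 := h.h0 0; have h3 := h.h1 0; have h4 := hz.T0' hm; have h5 := lg0 n
  have h6 := h.C0; have h7 : 0 < p.C1 := one_pos.trans_le h.C11
  have h8 : 0 < p.η 0 ^ 2 * z.t m := lt_of_lt_of_le (by positivity) h1
  have h9 : 0 < z.t m := (pos_iff_pos_of_mul_pos h8).1 (by positivity)
  have h10 : p.η 0 ^ 2 ≤ 1 := pow_le_one₀ h2.le h3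
  nlinarith
lemma t_ge40 (h : p.Ok) {m : ℕ} (hm : m ≤ p.N) : 40 * (4 * z.T m + lg n + 1) ≤ z.t m := by
  have h1 := hz.t_ge' h hm; have h4 := hz.T0' hm; have h5 := lg0 n
  have h2 : 1 ≤ p.C * p.C1 ^ 2 := one_le_mul_of_one_le_of_one_le h.C1' (one_le_pow₀ h.C11)
  nlinarith
lemma t_ge (h : p.Ok) {m : ℕ} (hm : m ≤ p.N) : 4 * z.T m + lg n + 1 ≤ z.t m := by
  linarith [hz.t_ge40 h hm, hz.T0' hm, lg0 n]
lemma t1 (h : p.Ok) {m : ℕ} (hm : m ≤ p.N) : 1 ≤ z.t m := by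
  linarith [hz.t_ge h hm, hz.T0' hm, lg0 n]
lemma K0 : 0 ≤ z.K := zero_le_one.trans hz.K1
/-- `16 K ≤ Kb` -/
lemma K_le (h : p.Ok) : 16 * z.K ≤ z.Kb := by
  have h1 := hz.Kb; have h2 := hz.K1
  have h3 : 1 ≤ p.C * 8 ^ p.N * p.M (2 ^ p.N) := one_le_mul_of_one_le_of_one_le
    (one_le_mul_of_one_le_of_one_le h.C1' (one_le_pow₀ (by norm_num))) (h.M1 _)
  nlinarith
lemma Kb0 (h : p.Ok) : 0 ≤ z.Kb := by linarith [hz.K_le h, hz.K1]
end Cap.Ok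

lemma Cx.R0 {n : ℕ} {X : Cx n} (hX : X.Ok) {m : ℕ} (hm : m ≤ X.p.N + 1) : 0 ≤ X.R m := by
  have : (m : ℝ) ≤ X.p.N + 1 := by exact_mod_cast hm
  exact mul_nonneg (by linarith) (hX.cap.Kb0 hX.ok)

end Crest.Agent.T157.S1

end
end

-- ▼ part T157/S1Lf_22
section

/-!
# Row 157, block S1 (helper22): `leafGlue` (and copies `Lf22.fuGlue`, `Lf22.staGlue`, `Lf22.masterGlue`; the
root names are in `S1Fu_6`)
-/

set_option autoImplicit false

noncomputable section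

namespace Crest.Agent.T157.S1

open Real Matrix Finset
open Crest.Agent.T157.E Crest.Agent.T157.SL
open Crest.Agent.T157.Eig (nrm opn)
open Crest.Agent.T157.S3 (V Mx)

variable {n : ℕ}

namespace Lf22

lemma dss (v : V n) : 0 ≤ v ⬝ᵥ v := sum_nonneg fun _ _ => mul_self_nonneg _
lemma pww {p : V n} (hp : ∀ i, 0 ≤ p i) (w : V n) : 0 ≤ p ⬝ᵥ (w * w) :=
  sum_nonneg fun i _ => mul_nonneg (hp i) (mul_self_nonneg _)
lemma Bd0 {D : Dat n} (hD : D.Ok) (s : St n) : 0 ≤ Bd D s := by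
  obtain ⟨-, -, -, -, -, h1, h2, -⟩ := crudeStmt n D s hD
  have := dss (del s)
  unfold Bd; positivity
lemma Bb0 {D : Dat n} (hD : D.Ok) (s : St n) (y0 : V n) : 0 ≤ Bb D s y0 :=
  add_nonneg (Bd0 hD s) (sq_nonneg _)
lemma Ex0 {D : Dat n} (hD : D.Ok) (s : St n) : 0 ≤ Ex D s :=
  (crudeStmt n D s hD).2.2.2.2.2.2.2.2.2.1
lemma Mx0 {C : ℝ} (hC : 0 ≤ C) (P CN κ η0 ω : ℝ) : 0 ≤ Mx' C P CN κ η0 ω :=
  mul_nonneg hC (sq_nonneg _)
lemma Mx_mono {C C' : ℝ} (h : C ≤ C') (P CN κ η0 ω : ℝ) :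
    Mx' C P CN κ η0 ω ≤ Mx' C' P CN κ η0 ω := mul_le_mul_of_nonneg_right h (sq_nonneg _)
lemma Mx_sq {C C' P CN κ η0 ω ec : ℝ} (hC : 0 ≤ C) (h : C ≤ C') (he : 0 ≤ ec)
    (h1 : Mx' C' P CN κ η0 ω ^ 2 * ec ≤ 1) : Mx' C P CN κ η0 ω ^ 2 * ec ≤ 1 :=
  (mul_le_mul_of_nonneg_right (pow_le_pow_left₀ (Mx0 hC ..) (Mx_mono h ..) 2) he).trans h1

end Lf22
open Lf22

theorem leafGlue : LeafGlue := by
  intro hB hT hI hS K0 κ0 hκ
  obtain ⟨C1, h1, b1⟩ := hB K0 κ0 hκ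
  obtain ⟨C2, h2, b2⟩ := hT K0 κ0 hκ
  obtain ⟨C3, h3, b3⟩ := hI K0 κ0 hκ
  obtain ⟨C4, h4, b4⟩ := hS
  obtain ⟨C, hC, l1, l2, l3, l4⟩ : ∃ C : ℝ, 1 ≤ C ∧ C1 ≤ C ∧ C2 ≤ C ∧ C3 ≤ C ∧ C4 ≤ C :=
    ⟨C1 + C2 + C3 + C4, by linarith, by linarith, by linarith, by linarith, by linarith⟩
  refine ⟨C, hC, ?_, ?_, ?_, ?_⟩
  · intro n D s y0 e A hD hc hb
    obtain ⟨a1, -, -, a2, a3⟩ := b1 n D s y0 e A hD hc hb
    have := mul_le_mul_of_nonneg_right l1 (Bb0 hD s y0)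
    exact ⟨a1.trans this, a2.trans this, a3.trans this⟩
  · intro n D s y0 p al q w a e e1 ec CN C0 K l κ c ω φ W Ω G hD hc hb hA hp a0 a1 e0 e10 e1c
      CN1 C00 K1 l0 κ0' κ1 c0 ω0 ω1 hs hM
    have hP : 0 ≤ D.P := zero_le_one.trans hD.P1
    have t := b2 n D s y0 p al q w a e e1 ec CN C0 K l κ c ω φ W Ω G hD hc hb hA hp a0 a1 e0 e10 e1c
      CN1 C00 K1 l0 κ0' κ1 c0 ω0 ω1
      ((mul_le_mul_of_nonneg_right (mul_le_mul_of_nonneg_right l2 hP) (sqrt_nonneg _)).trans hs)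
      (Mx_sq (zero_le_one.trans h2) l2 (e10.trans e1c) hM)
    have u1 := mul_le_mul_of_nonneg_right (mul_le_mul_of_nonneg_right l2 C00) (pww hp w)
    have u2 := mul_le_mul_of_nonneg_right
      (add_le_add_left (div_le_div_of_nonneg_right l2 κ0'.le) (1 / c)) (dss (del s))
    have u3 := mul_le_mul_of_nonneg_right (Mx_mono l2 D.P CN κ D.η0 ω)
      (add_nonneg (Ex0 hD s) (zero_le_one.trans K1))
    linarith
  · intro n D s y0 p al q w a e e1 ec CN C0 K l ω φ W Ω G hD hc hb hA hp e10 e1c CN1 C00 K1 l0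
      ω0 ω1 hM
    obtain ⟨t1, t2⟩ := b3 n D s y0 p al q w a e e1 ec CN C0 K l ω φ W Ω G hD hc hb hA hp e10 e1c
      CN1 C00 K1 l0 ω0 ω1 (Mx_sq (zero_le_one.trans h3) l3 (e10.trans e1c) hM)
    have u1 := mul_le_mul_of_nonneg_right (mul_le_mul_of_nonneg_right l3 C00) (pww hp w)
    have u3 := mul_le_mul_of_nonneg_right (Mx_mono l3 D.P CN 1 D.η0 ω)
      (add_nonneg (Ex0 hD s) (zero_le_one.trans K1))
    refine ⟨by linarith, t2.trans (mul_le_mul_of_nonneg_right l3 ?_)⟩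
    have := Bb0 hD s y0
    positivity
  · intro n J P y0 p a0 al q k v lq C0 C1' CP e η t t' ε τ S Δ zs hJ ho hL q0 q1 C00 C11 CP1 e0
      η0 ε0 τ0 τ1 hS' hΔ hz hzt ht
    obtain ⟨w, w1, w2, w3⟩ := b4 n J P y0 p a0 al q k v lq C0 C1' CP e η t t' ε τ S Δ zs hJ ho hL
      q0 q1 C00 C11 CP1 e0 η0 ε0 τ0 τ1 hS' hΔ hz hzt ht
    refine ⟨w, w1, w2, le_trans (mul_le_mul_of_nonneg_left ?_ τ0.le) w3⟩
    have := mul_le_mul_of_nonneg_right (mul_le_mul_of_nonneg_right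
      (mul_le_mul_of_nonneg_right l4 (zero_le_one.trans C11)) (add_nonneg e0 (sqrt_nonneg ε)))
      (add_nonneg (dss zs) (dss Δ))
    linarith

namespace Lf22

lemma Ft_eq (X : Cx n) (m i : ℕ) (F : ℕ → Fy n) (j : ℕ) : X.Ft m i F j =
    X.p.γ m i • (fun _ y => dG (X.O.G j) y ^ 2 : Fy n) +
      (big n • (fun _ => far (X.O.G j) (X.z.T j) : Fy n) + X.p.CZ • (X.O.zn j + F j) +
        if j = X.p.N then X.fe else 0) := by
  funext σ y
  by_cases h : j = X.p.N <;> simp [Cx.Ft, h] <;> ring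

section mt
variable (hM : MtStmt)
include hM

lemma xf_add {F G : Fy n} (hF : XF F) (hG : XF G) : XF (F + G) :=
  ((hM n).2.2.2.2.2.1 F G 0 hF hG le_rfl).1
lemma xf_smul {F : Fy n} (hF : XF F) {c : ℝ} (hc : 0 ≤ c) : XF (c • F) :=
  ((hM n).2.2.2.2.2.1 F F c hF hF hc).2
lemma xf_zero : XF (0 : Fy n) := (hM n).2.2.2.2.2.2.1
lemma xf_Ew {F : Fy n} (hF : XF F) {t : ℝ} (ht : 0 ≤ t) : XF (Ew t F) := (hM n).2.1 F t hF ht
lemma Ew_add {F G : Fy n} (hF : XF F) (hG : XF G) {t : ℝ} (ht : 0 ≤ t) :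
    Ew t (F + G) = Ew t F + Ew t G := (hM n).2.2.2.1 F G t hF hG ht
lemma Ew_smul (F : Fy n) (t c : ℝ) : Ew t (c • F) = c • Ew t F := (hM n).2.2.2.2.1 F t c
lemma Ew_zero (t : ℝ) : Ew t (0 : Fy n) = 0 := by
  simpa using Ew_smul hM (0 : Fy n) t 0
lemma xf_sum {S : Finset ℕ} {F : ℕ → Fy n} (h : ∀ j ∈ S, XF (F j)) : XF (∑ j ∈ S, F j) :=
  sum_induction F XF (fun _ _ => xf_add hM) (xf_zero hM) h
lemma Ew_sum {S : Finset ℕ} {F : ℕ → Fy n} (h : ∀ j ∈ S, XF (F j)) {t : ℝ} (ht : 0 ≤ t) :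
    Ew t (∑ j ∈ S, F j) = ∑ j ∈ S, Ew t (F j) := by
  induction S using Finset.induction_on with
  | empty => simpa using Ew_zero hM t
  | insert a S ha ih =>
    have h' : ∀ j ∈ S, XF (F j) := fun j hj => h j (mem_insert_of_mem hj)
    rw [sum_insert ha, sum_insert ha, Ew_add hM (h a (mem_insert_self _ _)) (xf_sum hM h') ht,
      ih h']
lemma Ew_mono {F G : Fy n} (hF : XF F) (hG : XF G) {t : ℝ} (ht : 0 ≤ t) :
    Ew t F ≤ Ew t (F + G) := by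
  rw [Ew_add hM hF hG ht]
  exact le_add_of_nonneg_right fun σ y => (xf_Ew hM hG ht).2 σ y

lemma xf_Ft {X : Cx n} (hX : X.Ok) (m i : ℕ) {F : ℕ → Fy n} (hF : ∀ j, XF (F j)) (j : ℕ) :
    XF (X.Ft m i F j) := by
  rw [Ft_eq]
  have hd := (hM n).2.2.2.2.2.2.2.1 (X.O.G j) (X.z.T j)
  refine xf_add hM (xf_smul hM hd.1 (hX.ok.γ0 m i).le) (xf_add hM (xf_add hM
    (xf_smul hM hd.2 (zero_le_one.trans (big1 n)))
    (xf_smul hM (xf_add hM (hX.es.xz j) (hF j)) hX.ok.CZ0)) ?_)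
  split_ifs
  exacts [hX.en.xf, xf_zero hM]

end mt

lemma time0 {X : Cx n} (hX : X.Ok) {lo k j : ℕ} (hk : k ≤ lo) (hj : j ∈ Icc lo X.p.N) :
    0 ≤ ((j : ℝ) - k) * X.p.τ := by
  have : (k : ℝ) ≤ j := by exact_mod_cast hk.trans (mem_Icc.1 hj).1
  exact mul_nonneg (by linarith) hX.ok.τ0.le

end Lf22

theorem Lf22.fuGlue : FuGlue := by
  intro hM n X hX m i F hF
  have hFt := fun m i => xf_Ft hM hX m i hF
  refine ⟨hFt m i, fun lo k hk => xf_sum hM fun j hj => xf_Ew hM (hFt m i j) (time0 hX hk hj),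
    fun lo k hk => ?_, fun k hk => ?_, fun m' i' lo k hk hγ => ?_, fun ρ lo k hk hρ => ?_⟩
  · unfold Cx.Fu
    rw [Ew_sum hM (fun j hj => xf_Ew hM (hFt m i j) (time0 hX hk hj)) hX.ok.τ0.le]
    refine sum_congr rfl fun j hj => ?_
    rw [(hM n).2.2.1 _ _ _ (hFt m i j) hX.ok.τ0.le (time0 hX hk hj)]
    congr 1; push_cast; ring
  · unfold Cx.Fu
    rw [← insert_Icc_add_one_left_eq_Icc hk, sum_insert (by simp), sub_self, zero_mul, (hM n).1]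
  · refine sum_le_sum fun j hj => ?_
    have e : X.Ft m i F j = X.Ft m' i' F j +
        (X.p.γ m i - X.p.γ m' i') • (fun _ y => dG (X.O.G j) y ^ 2 : Fy n) := by
      rw [Ft_eq, Ft_eq, sub_smul]; abel
    rw [e]
    exact Ew_mono hM (hFt m' i' j) (xf_smul hM ((hM n).2.2.2.2.2.2.2.1 (X.O.G j) 0).1
      (sub_nonneg.2 hγ)) (time0 hX hk hj)
  · unfold Cx.Fu
    rw [smul_sum, ← sum_add_distrib]
    refine sum_congr rfl fun j hj => ?_
    have e : X.Ft m i (F + ρ) j = X.Ft m i F j + X.p.CZ • ρ j := by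
      rw [Ft_eq, Ft_eq, Pi.add_apply, ← add_assoc (X.O.zn j), smul_add _ _ (ρ j)]; abel
    rw [e, Ew_add hM (hFt m i j) (xf_smul hM (hρ j) hX.ok.CZ0) (time0 hX hk hj), Ew_smul hM]

/-- the states of a window do not see the fields -/
lemma Cx.In.mv {X : Cx n} {m i : ℕ} {s : St n} {F : ℕ → Fy n} (h : X.In m i s F) (p q : V n) :
    X.In m i (s.mv p q) F :=
  ⟨⟨h.cl.L0, h.cl.gr, h.cl.rg, h.cl.ex, h.cl.ts⟩, h.pv, h.xf, h.hL, h.hS⟩

theorem Lf22.staGlue : StaGlue := by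
  intro hW hF n X hX m i _ hA s F hI
  obtain ⟨-, f2, f3, -⟩ := hF n X hX (m + 1) i F hI.xf
  have h := hX.ok
  have w := hW n X.D s (X.cf (m + 1) i) X.p.τ X.p.c1 (X.R (m + 1))
    (X.Fu (m + 1) (m + 1) (X.Ft (m + 1) i F)) hX.dok (f2 _ _ le_rfl) h.τ0 (h.l_pos _).le (h.l_le _)
    (h.am_pos _).le (h.γ0 _ _).le (h.gg0 _) (h.g20 _ _) h.Λ0
    (by
      have := mul_le_mul_of_nonneg_right (h.γ1 (m + 1) i) (sq_nonneg X.p.τ)
      have := h.win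
      show X.p.τ / 2 + 6 * (X.p.Λ + X.p.γ (m + 1) i) * X.p.τ ^ 2 ≤ X.p.c1
      linarith)
    (fun p q => hA (s.mv p q) F (hI.mv p q))
  rw [f3 (m + 1) m (Nat.lt_succ_self m)] at w
  exact w

theorem Lf22.masterGlue : MasterGlue := by
  intro hU hA hF hS hT n X hX
  have key : ∀ d m, m + d = X.p.N → 1 ≤ m → ∀ i, X.p.Val m i → X.Act m i := by
    intro d
    induction d with
    | zero => intro m hm _ i hv; obtain rfl : m = X.p.N := hm; exact hF n X hX i hv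
    | succ d ih =>
      intro m hm h1 i0 hv
      have hlt : m < X.p.N := by omega
      exact hA n X hX m i0 h1 hlt hv fun i hx => hU n X hX m i h1 hlt (hx.val hlt hv)
        (hS n X hX m i hlt (ih (m + 1) (by omega) (by omega) i (hx.val hlt hv)))
  have hN := hX.ok.N1
  exact hT n X hX (hS n X hX 0 0 hN
    (key (X.p.N - 1) 1 (by omega) le_rfl 0 (Par.val_zero 1)))

end Crest.Agent.T157.S1

end
end

-- ▼ part T157/S1PF_84
section

/-!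
# Row 157, part B, block S1 (helper84): `PreGlue`, `FinGlue`
-/

set_option autoImplicit false

noncomputable section

namespace Crest.Agent.T157.S1

open Real Matrix Finset
open Crest.Agent.T157.E Crest.Agent.T157.SL
open Crest.Agent.T157.Eig (nrm)

namespace PF84

variable {p : Par} (h : p.Ok)
include h

theorem a0 : 0 < p.a := h.a00.trans h.a0a
theorem k1 : 1 ≤ 1 + p.κ := by linarith [h.κ0']

theorem a3 : p.a * (1 + p.κ) ^ (3 * p.N) ≤ p.ab ∧ 0 < p.ab := by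
  have h1 := mul_le_mul_of_nonneg_left (pow_le_pow_right₀ (k1 h) (Nat.le_succ (3 * p.N))) (a0 h).le
  have h2 : 0 < p.a * (1 + p.κ) ^ (3 * p.N) := mul_pos (a0 h) (pow_pos (by linarith [h.κ0']) _)
  have h3 : 0 < p.ab := (mul_pos_iff_of_pos_right (by linarith [h.η01])).1 (h2.trans_le (h1.trans h.ra))
  exact ⟨(h1.trans h.ra).trans (mul_le_of_le_one_right h3.le (by linarith [h.η00])), h3⟩

theorem am {m : ℕ} (hm : m ≤ p.N) : 0 ≤ p.am m ∧ p.am m ≤ 1 :=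
  ⟨mul_nonneg (a0 h).le (pow_nonneg (by linarith [h.κ0']) _),
    (mul_le_mul_of_nonneg_left (pow_le_pow_right₀ (k1 h) (by omega)) (a0 h).le).trans
      ((a3 h).1.trans h.ab1)⟩

theorem lN : 1 / 2 ≤ p.l p.N ∧ p.l p.N ≤ 1 ∧ p.am p.N ≤ p.l p.N * p.ab := by
  have h1 : 1 ≤ (1 + p.κ) ^ (2 * p.N) := one_le_pow₀ (k1 h)
  refine ⟨?_, inv_le_one_of_one_le₀ h1, ?_⟩
  · rw [one_div]
    exact inv_anti₀ (by linarith) ((pow_le_pow_right₀ (k1 h) (Nat.le_succ _)).trans h.rl)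
  · rw [Par.l, le_inv_mul_iff₀ (by linarith), Par.am, mul_left_comm, ← pow_add,
      show 2 * p.N + p.N = 3 * p.N by ring]
    exact (a3 h).1

theorem CZ0 : 0 < p.CZ := (mul_pos_iff_of_pos_right h.lq0).1 (by linarith [h.CZ1])

theorem c1 : p.c1 ≤ 1 := by
  have h1 : 1 * 1 * p.τ' ≤ p.C * p.C0 ^ 2 * p.τ' := mul_le_mul_of_nonneg_right
    (mul_le_mul h.C1' (one_le_pow₀ h.C01) zero_le_one (by linarith [h.C1'])) h.t0.le
  have h2 := mul_le_mul_of_nonneg_left h.lq1 h.t0.le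
  have h3 := mul_le_mul_of_nonneg_right h.C11 h.c10.le
  linarith [h.t1, h.c1T, h.lq1, h.c10]

theorem Λ4 : 4 * p.C ≤ p.Λ := by
  have h1 : p.C ≤ p.C / p.κ := le_div_self (by linarith [h.C1']) h.κ0' h.κ1
  have h2 := one_div_pos.2 h.c10
  have h3 := div_nonneg (zero_le_one.trans h.Cu1) h.κ0'.le
  have h4 := mul_nonneg (CZ0 h).le h.CM0
  linarith [h.hΛ]

theorem KK {z : Cap} {n : ℕ} (c : z.Ok p n) : z.K ≤ z.Kb := by
  have h1 : 1 * 1 * 1 ≤ p.C * 8 ^ p.N * p.M (2 ^ p.N) := mul_le_mul (mul_le_mul h.C1'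
    (one_le_pow₀ (by norm_num)) zero_le_one (by linarith [h.C1'])) (h.M1 _) zero_le_one
    (by have := h.C1'; positivity)
  nlinarith [c.Kb, c.K1]

omit h in
theorem exp_ge (n : ℕ) {x : ℝ} (hx : lg n ≤ x) : 13 * n + x ≤ exp (x / 2) := by
  have n0 : (0 : ℝ) ≤ n := n.cast_nonneg
  have h1 : ((n : ℝ) + 2) ^ 4 ≤ exp (x / 4) := by
    rw [← exp_log (show (0 : ℝ) < n + 2 by linarith), ← exp_nat_mul, exp_le_exp]
    unfold lg at hx; push_cast; linarith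
  have h2 := add_one_le_exp (x / 4)
  have h3 : 32 * (n : ℝ) + 16 ≤ (n + 2) ^ 4 := by nlinarith [sq_nonneg (n : ℝ), pow_nonneg n0 3, pow_nonneg n0 4]
  rw [show x / 2 = x / 4 + x / 4 by ring, exp_add]
  nlinarith

omit h in
theorem big_ge (n : ℕ) : 13 * n + lg n ≤ big n := by
  have n0 : (0 : ℝ) ≤ n := n.cast_nonneg
  have := log_le_sub_one_of_pos (show (0 : ℝ) < n + 2 by linarith)
  unfold lg big
  nlinarith [sq_nonneg (n : ℝ), pow_nonneg n0 3, pow_nonneg n0 4]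

end PF84

open PF84

/-- the martingale term dominates the indicator of a far field and the term of the end -/
theorem PF84.xi_ge (hF : FuStmt) {n : ℕ} {X : Cx n} (hX : X.Ok) {m i : ℕ} (hm : m ≤ X.p.N)
    {F : ℕ → Fy n} (xf : ∀ m', XF (F m')) (σ : Cube n) (y : S3.V n) :
    big n * far (X.O.G m) (X.z.T m) y + (if m = X.p.N then X.fe σ y else 0) ≤
      X.Fu m m (X.Ft m i F) σ y := by
  obtain ⟨-, f2, -, f4, -⟩ := hF n X hX m i F xf
  have h1 := (f2 (m + 1) m m.le_succ).2 σ y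
  have h2 := mul_nonneg (hX.ok.γ0 m i).le (sq_nonneg (dG (X.O.G m) y))
  have h3 := mul_nonneg (CZ0 hX.ok).le (add_nonneg ((hX.es.xz m).2 σ y) ((xf m).2 σ y))
  rw [f4 m hm, Pi.add_apply, Pi.add_apply, Cx.Ft]
  linarith

theorem PF84.far_nn {n : ℕ} (G : Set (S3.V n)) (t : ℝ) (y : S3.V n) : 0 ≤ big n * far G t y :=
  mul_nonneg (by unfold big; positivity) (by unfold far; split_ifs <;> norm_num)

theorem preGlue : PreGlue := fun hC hM hF n X hX m i s F m1 mN I => by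
  have h := hX.ok
  obtain ⟨pr, -, -, cA, cH, cy, cU, c6, cE, cx, cD, c4, -, cc⟩ := hC n X.D s hX.dok
  replace cc := cc _ _ I.cl
  obtain ⟨T0, Tn, -⟩ := hX.cap.Tn m mN
  obtain ⟨a0, a1⟩ := am h mN
  have n0 : (0 : ℝ) ≤ n := n.cast_nonneg
  have d0 := Eig.dot_self_nonneg (del s)
  have D0 := Eig.dot_self_nonneg (Del X.D s)
  have S0 : (0 : ℝ) ≤ #s.S := Nat.cast_nonneg _
  have hfe : ∀ σ, 0 ≤ if m = X.p.N then X.fe σ s.y else 0 := fun σ => by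
    split_ifs
    exacts [hX.en.xf.2 σ s.y, le_rfl]
  have hξ : big n * far (X.O.G m) (X.z.T m) s.y ≤
      mean (nu X.D s) fun σ => X.Fu m m (X.Ft m i F) σ s.y :=
    pr.hv.le_mean fun σ => (le_add_of_nonneg_right (hfe σ)).trans (xi_ge hF hX mN I.xf σ s.y)
  -- it is enough to dominate the two negative terms
  have key : X.p.c1 * (Del X.D s ⬝ᵥ Del X.D s) + X.p.am m * HH X.D s ≤
      X.p.Λ * (del s ⬝ᵥ del s) + exp ((Dz X.D s - X.z.T m) / 2) +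
        big n * far (X.O.G m) (X.z.T m) s.y → X.ActAt m i s F := fun k => by
    have b1 : 0 ≤ X.p.l m * AA X.D s :=
      mul_nonneg (inv_nonneg.2 (pow_nonneg (by linarith [h.κ0']) _)) cA
    have b2 : 0 ≤ X.p.γ m i * (Bd X.D s + mean (nu X.D s) (U6 X.D s)) :=
      mul_nonneg (h.γ0 m i).le (by unfold Bd; positivity)
    have b3 : 0 ≤ X.p.gg m * Eg X.D s s.Th := mul_nonneg (mul_nonneg h.g10 (by positivity)) (cE _)
    have b4 : 0 ≤ X.p.g2 m i * Ex X.D s :=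
      mul_nonneg (mul_nonneg (by positivity) (zero_le_one.trans (h.M1 _))) cx
    have b5 : 0 ≤ X.R m := mul_nonneg (by linarith [(Nat.cast_le (α := ℝ)).2 mN])
      (by linarith [KK h hX.cap, hX.cap.K1])
    simp only [Cx.ActAt, Pot, Cx.cf]
    linarith
  have L1 : 1 ≤ X.p.Λ := by linarith [Λ4 h, h.C1']
  have crude : X.p.c1 * (Del X.D s ⬝ᵥ Del X.D s) + X.p.am m * HH X.D s ≤
      X.p.Λ * (del s ⬝ᵥ del s) + 12 * n + Dz X.D s := by
    have b1 := sq_sqrt n0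
    have b2 := Eig.nrm_sq (del s)
    have b3 := I.hL
    nlinarith [mul_le_mul_of_nonneg_right (c1 h) D0, mul_le_mul_of_nonneg_right a1 cH,
      mul_le_mul_of_nonneg_right L1 d0, sq_nonneg (√n - s.L), sq_nonneg (2 * √n - nrm (del s))]
  have e0 := exp_pos ((Dz X.D s - X.z.T m) / 2)
  have f0 := far_nn (X.O.G m) (X.z.T m) s.y
  rcases le_or_gt (lg n) (Dz X.D s - X.z.T m) with h1 | h1
  · exact Or.inl (key (by linarith [exp_ge n h1]))
  rcases lt_or_ge (X.z.T m) (dG (X.O.G m) s.y ^ 2) with h2 | h2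
  · refine Or.inl (key ?_)
    rw [far, if_pos h2]
    linarith [big_ge n]
  obtain ⟨y0, y1, y2⟩ := (hM n).2.2.2.2.2.2.2.2 (X.O.G m) s.y (hX.na n _ X.D.f X.z.T0 (m * X.p.τ) _
    (fun x => exp_pos _) hX.es.bas0 hX.wm (mul_nonneg m.cast_nonneg h.τ0.le)
    (mul_le_mul_of_nonneg_right (Nat.cast_le.2 mN) h.τ0.le) (hX.es.mass m m1 mN)).1
  have hS : Dz X.D s + s.L ^ 2 + #s.S + nrm (s.y - y0) ^ 2 ≤ 4 * X.z.T m + lg n + 1 := by
    linarith [I.hL, I.hS]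
  rcases le_or_gt (del s ⬝ᵥ del s) (Dz X.D s + s.L ^ 2 + #s.S + nrm (s.y - y0) ^ 2) with h3 | h3
  · exact Or.inr ⟨y0, y1, y2, hS, h3.trans hS, by linarith⟩
  obtain ⟨-, b2, b3⟩ := hX.lf.b1 n X.D s y0 _ _ hX.dok I.cl (hX.es.bas m m1 mN y0 y1)
  have b4 := mul_le_mul_of_nonneg_left (show Bb X.D s y0 ≤ 2 * (del s ⬝ᵥ del s) by
    unfold Bb Bd; linarith) (zero_le_one.trans h.C1')
  exact Or.inl (key (by
    linarith [mul_le_mul_of_nonneg_right (c1 h) D0, mul_le_mul_of_nonneg_right a1 cH,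
      mul_le_mul_of_nonneg_right (Λ4 h) d0]))

theorem finGlue : FinGlue := fun hC hCl hF hP n X hX i hi s F I => by
  have h := hX.ok
  refine (hP n X hX _ i s F h.N1 le_rfl I).elim id fun ⟨y0, _, _, n1, n2, n3⟩ => ?_
  obtain ⟨pr, -, -, cA, cH, cy, cU, c6, cE, cx, -⟩ := hC n X.D s hX.dok
  obtain ⟨l1, l2, l3⟩ := lN h
  have d0 := Eig.dot_self_nonneg (del s)
  have D0 := Eig.dot_self_nonneg (Del X.D s)
  have S0 : (0 : ℝ) ≤ #s.S := Nat.cast_nonneg _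
  have N1 : (1 : ℝ) ≤ X.p.N := by exact_mod_cast h.N1
  have ht : 4 * X.z.T X.p.N + lg n + 1 ≤ X.z.t X.p.N := by
    have b1 := hX.cap.h1 _ le_rfl 0 (Nat.zero_le _)
    have b2 : 1 * 1 ≤ X.p.C * X.p.C1 ^ 2 :=
      mul_le_mul h.C1' (one_le_pow₀ h.C11) zero_le_one (by linarith [h.C1'])
    have b3 := mul_le_mul_of_nonneg_right b2 (d0.trans n2)
    have b4 : X.p.η 0 ^ 2 ≤ 1 := pow_le_one₀ (h.h0 0).le (h.h1 0)
    have b5 : 0 ≤ X.z.t X.p.N := nonneg_of_mul_nonneg_right (a := X.p.η 0 ^ 2) (by linarith)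
      (pow_pos (h.h0 0) 2)
    linarith [mul_le_mul_of_nonneg_right b4 b5]
  have E := hX.en.fin i hi X.D s hX.dok rfl hX.hP hX.hη hX.hθ ((hCl n X.D s hX.dok).1 _ _ _ _ I.cl
    (mul_le_mul_of_nonneg_right (by nlinarith) (h.e0 _).le) le_rfl)
    ⟨by linarith [sq_nonneg s.L, sq_nonneg (nrm (s.y - y0))], n2.trans ht,
      by linarith [sq_nonneg (nrm (s.y - y0))], by linarith [sq_nonneg s.L, sq_nonneg (nrm (s.y - y0))]⟩
  have hξ : (mean (nu X.D s) fun σ => X.fe σ s.y) ≤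
      mean (nu X.D s) fun σ => X.Fu X.p.N X.p.N (X.Ft X.p.N i F) σ s.y := pr.hv.mean_mono fun σ => by
    have := xi_ge (i := i) hF hX le_rfl I.xf σ s.y
    rw [if_pos rfl] at this
    linarith [far_nn (X.O.G X.p.N) (X.z.T X.p.N) s.y]
  have b1 : 0 ≤ X.p.γ X.p.N i * (Bd X.D s + mean (nu X.D s) (U6 X.D s)) + X.p.g1 * Eg X.D s s.Th +
      X.p.M (i + 1) * Ex X.D s + X.p.CE * (del s ⬝ᵥ del s) + mean (nu X.D s) fun σ => X.fe σ s.y := by
    have := h.γ0 X.p.N i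
    have := h.g10
    have := cE s.Th
    have := h.M1 (i + 1)
    have := h.CE0
    have := pr.hv.mean_nonneg fun σ => hX.en.xf.2 σ s.y
    unfold Bd; positivity
  have b2 := mul_le_mul_of_nonneg_left E (show 0 ≤ X.p.l X.p.N by linarith)
  have b3 := mul_le_mul_of_nonneg_right (show X.p.c1 ≤ X.p.l X.p.N * X.p.cE by
    nlinarith [h.c1E, h.c10]) D0
  simp only [Cx.ActAt, Pot, Cx.cf, Cx.R, Par.gg, Par.g2, Par.bt, Nat.sub_self, pow_zero, mul_one,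
    one_mul, sub_self, zero_add]
  linarith [mul_le_mul_of_nonneg_right l2 b1, mul_le_mul_of_nonneg_right l3 cH,
    mul_le_mul_of_nonneg_right h.ΛE d0, exp_pos ((Dz X.D s - X.z.T X.p.N) / 2), KK h hX.cap,
    mul_le_mul_of_nonneg_right l2 (zero_le_one.trans hX.cap.K1)]

end Crest.Agent.T157.S1

end
end

-- ▼ part T157/S1Tot_44
section

/-!
# Row 157, part B, block S1 (helper44): the inequality at level zero
-/

set_option autoImplicit false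

noncomputable section

namespace Crest.Agent.T157.S1

open MeasureTheory Real Matrix Finset
open Crest.Agent.T157.E Crest.Agent.T157.SL

theorem totGlue : TotGlue := fun hC hL hM h0 n X h hS => by
  obtain ⟨-, -, -, m4, m5, m6, -, m8, -⟩ := hM n
  obtain ⟨s, hs⟩ : ∃ s : St n, s = ⟨0, 0, ∅, default, 0, 0, 0, 0, 0⟩ := ⟨_, rfl⟩
  have o := h.ok
  have N1 := o.N1
  have T1 := (h.cap.Tn 1 N1).1
  have κ0 := o.κ0'
  have γ0 := o.γ0 1 0
  have a0 := o.a00.trans o.a0a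
  have CZ : 0 < X.p.CZ := (pos_iff_pos_of_mul_pos (one_pos.trans_le o.CZ1)).2 o.lq0
  have e1 : 0 ≤ X.p.e1 1 0 := (o.e0 _).le
  have b0 : 0 ≤ big n := by unfold big; positivity
  have S := hS s 0 ⟨(hL n X.D s h.dok).2.2.2 _ _ (by positivity) (by positivity) (hs ▸ rfl) (hs ▸ rfl)
    (hs ▸ rfl) (hs ▸ rfl), hs ▸ h.es.pv0, fun _ => (hM n).2.2.2.2.2.2.1, by simpa [hs] using T1,
    by simpa [hs] using T1⟩
  obtain ⟨l1, l2, l3, l4, l5⟩ := h0 n X.D s h.dok h.wm.2.1 (hs ▸ rfl) (hs ▸ rfl) (hs ▸ rfl) (hs ▸ rfl)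
  obtain ⟨-, -, -, A0, H0, -⟩ := hC n X.D s h.dok
  have z1 : mean (nu X.D s) (U X.D s) = 0 := by simp [mean, U, hs]
  have z2 : mean (nu X.D s) (U6 X.D s) = 0 := by simp [mean, U6, hs]
  have z3 : Eg X.D s s.Th = 0 := by simp [Eg, Ta.Cnt, Ta.Cs, mean, Rec.grad, incr, hs]
  have z4 : Ex X.D s = 0 := by simp [Ex, mean, hs]
  have z5 : del s ⬝ᵥ del s = 0 := by simp [del, hs]
  have z6 : s.L ^ 2 = 0 ∧ (#s.S : ℝ) = 0 ∧ s.y = 0 := by simp [hs]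
  have z7 : exp ((X.D.T0 - X.z.T 1) / 2) ≤ 1 := exp_le_one_iff.2 (by linarith [h.hT, h.cap.z0])
  have k : ∀ m ∈ Icc 1 X.p.N, (mean (ising X.D.J 0) fun σ => X.D.f σ *
      Ew (((m : ℝ) - (0 : ℕ)) * X.p.τ) (X.Ft 1 0 0 m) σ 0) ≤
      X.p.γ 1 0 * (X.p.cN * (ent (ising X.D.J 0) X.D.f + 1)) + 1 + X.p.CZ *
        (mean (ising X.D.J 0) fun σ => X.D.f σ * Ew (m * X.p.τ) (X.O.zn m) σ 0) +
        if m = X.p.N then X.z.K else 0 := fun m hm => by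
    obtain ⟨p1, p2⟩ := mem_Icc.1 hm
    have t0 : 0 ≤ (m : ℝ) * X.p.τ := mul_nonneg m.cast_nonneg o.τ0.le
    obtain ⟨-, n1, n2⟩ := h.na n (ising X.D.J 0) _ _ _ _ (fun _ => exp_pos _) h.es.bas0 h.wm t0
      (mul_le_mul_of_nonneg_right (Nat.cast_le.2 p2) o.τ0.le) (h.es.mass m p1 p2)
    obtain ⟨x1, x2⟩ := m8 (X.O.G m) (X.z.T m)
    replace x1 := (m6 _ _ _ x1 x1 γ0.le).2
    replace x2 := (m6 _ _ _ x2 x2 b0).2
    have x3 := (m6 _ _ _ (h.es.xz m) (h.es.xz m) CZ.le).2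
    have x4 := (m6 _ _ 0 x1 x2 le_rfl).1
    have x5 := (m6 _ _ 0 x4 x3 le_rfl).1
    have n3 := (mul_le_mul_of_nonneg_left (n2 _ (h.cap.Tn m p2).1) b0).trans (h.cap.z1 m p1 p2)
    replace n1 := mul_le_mul_of_nonneg_left n1 γ0.le
    obtain ⟨E, hE, x6, n4⟩ : ∃ E : Fy n, (∀ σ y, (if m = X.p.N then X.fe σ y else 0) = E σ y) ∧ XF E ∧
        (mean (ising X.D.J 0) fun σ => X.D.f σ * Ew (m * X.p.τ) E σ 0) ≤
          if m = X.p.N then X.z.K else 0 := by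
      split_ifs with hN
      · exact ⟨X.fe, fun _ _ => rfl, h.en.xf, hN ▸ h.en.lev _ h.wm⟩
      · exact ⟨0, fun _ _ => rfl, (hM n).2.2.2.2.2.2.1, by simp [mean, Ew]⟩
    rw [Nat.cast_zero, sub_zero, show X.Ft 1 0 0 m = (X.p.γ 1 0 • fun _ y => dG (X.O.G m) y ^ 2) +
      (big n • fun _ => far (X.O.G m) (X.z.T m)) + X.p.CZ • X.O.zn m + E from
        funext₂ fun σ y => by simp [Cx.Ft, hE],
      m4 _ _ _ x5 x6 t0, m4 _ _ _ x4 x3 t0, m4 _ _ _ x1 x2 t0, m5, m5, m5]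
    simp only [Pi.add_apply, Pi.smul_apply, smul_eq_mul, mul_add, mul_left_comm (X.D.f _), mean_add,
      mean_const_mul] at n1 ⊢
    linarith
  replace k := sum_le_sum k
  rw [sum_add_distrib, sum_add_distrib, ← mul_sum, sum_ite_eq', if_pos (mem_Icc.2 ⟨N1, le_rfl⟩),
    sum_const, Nat.card_Icc, Nat.add_sub_cancel, nsmul_eq_mul, ← mean_sum] at k
  have k2 := mul_le_mul_of_nonneg_left (h.es.lev _ h.wm) CZ.le
  simp only [Pot, Cx.cf, Cx.R, Cx.Fu, Bd, l2, l3, l4, z1, z2, z3, z4, z5, z6, zero_add] at S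
  simp only [l5, Finset.sum_apply, mul_sum] at S
  rw [l2] at H0
  rw [h.hθ] at l1
  have p1 : ∀ j, 1 ≤ (1 + X.p.κ) ^ j := fun j => one_le_pow₀ (by linarith)
  have q1 := mul_le_mul_of_nonneg_right (inv_le_one_of_one_le₀ (p1 (2 * 1))) A0
  have q2 := mul_le_mul_of_nonneg_right (le_mul_of_one_le_right a0.le (p1 1)) H0
  have q3 := mul_le_mul_of_nonneg_right o.l0 H0
  have q4 : X.p.a ≤ 1 := ((le_mul_of_one_le_right a0.le (p1 _)).trans o.ra).trans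
    (mul_le_one₀ o.ab1 (by linarith [o.η01]) (by linarith [o.η00]))
  simp only [Par.l, Par.am, Nat.cast_one] at S
  replace S := S.trans (add_le_add (add_le_add le_rfl z7) k)
  unfold Tot
  linarith [o.l0, o.a00]

end Crest.Agent.T157.S1

end
end

-- ▼ part T157/S1Upd_65
section

/-!
# Row 157, part B, block S1 (helper65): `S1.updGlue`
-/

set_option autoImplicit false

noncomputable section

namespace Crest.Agent.T157.S1

open MeasureTheory Real Matrix Finset Filter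
open Crest.Agent.T157.E Crest.Agent.T157.SL
open Crest.Agent.T157.Eig (nrm opn)
open Crest.Agent.T157.S3 (V Mx)

namespace Upd65

variable {n : ℕ}

theorem xf_add {F G : Fy n} (h : XF F) (h' : XF G) : XF (F + G) := by
  refine ⟨fun σ => ?_, fun σ y => add_nonneg (h.2 σ y) (h'.2 σ y)⟩
  obtain ⟨C, c, h1, h2, h3⟩ := (h.1 σ).bd
  obtain ⟨C', c', h1', h2', h3'⟩ := (h'.1 σ).bd
  refine ⟨(h.1 σ).meas.add (h'.1 σ).meas, C + C', c + c', by positivity, by positivity, fun p => ?_⟩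
  rw [add_mul C]
  refine (abs_add_le _ _).trans (add_le_add ((h3 p).trans ?_) ((h3' p).trans ?_)) <;>
  gcongr <;> linarith

/-! ### constants -/

section consts
variable {p : Par} (h : p.Ok)
include h

theorem CZ1 : 1 ≤ p.CZ := by
  have h1 := h.CZ1
  have h2 := h.lq0
  have h3 := h.lq1
  have h4 : 0 < p.CZ := by
    by_contra hc
    nlinarith [not_lt.1 hc]
  nlinarith

theorem am_bd {m : ℕ} (hm : m ≤ p.N) : 0 ≤ p.am m ∧ p.am m ≤ 1 := by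
  have a0 : 0 ≤ p.a := by linarith [h.a00, h.a0a]
  have k0 := h.κ0'
  refine ⟨by unfold Par.am; positivity, ?_⟩
  have h1 : (1 + p.κ) ^ m ≤ (1 + p.κ) ^ (3 * p.N + 1) := pow_le_pow_right₀ (by linarith) (by omega)
  have h2 : p.ab * (1 - 2 * p.η0) ≤ 1 := by
    have b1 := h.η00
    have b2 := h.η01
    have b3 := h.ab1
    nlinarith
  calc p.am m ≤ p.a * (1 + p.κ) ^ (3 * p.N + 1) := mul_le_mul_of_nonneg_left h1 a0
    _ ≤ 1 := h.ra.trans h2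

theorem l_add {m : ℕ} (hm : m < p.N) (i : ℕ) : p.l (m + 1) + p.γ (m + 1) i ≤ p.lb m := by
  have k0 := h.κ0'
  have h1 : (1 + p.κ) ^ (2 * (m + 1)) ≤ 2 :=
    (pow_le_pow_right₀ (by linarith) (by omega)).trans h.rl
  have h2 : 0 < (1 + p.κ) ^ (2 * (m + 1)) := by positivity
  have h3 : p.lb m = (1 + p.κ) * p.l (m + 1) := by
    unfold Par.lb Par.l
    rw [show 2 * (m + 1) = (2 * m + 1) + 1 by ring, pow_succ _ (2 * m + 1)]
    field_simp
  have h4 : 1 / 2 ≤ p.l (m + 1) := by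
    unfold Par.l
    rw [one_div]
    exact inv_anti₀ h2 h1
  have h5 := h.lκ (m + 1) i
  rw [h3]
  nlinarith

theorem lb_nn (m : ℕ) : 0 ≤ p.lb m := by
  have k0 := h.κ0'
  unfold Par.lb; positivity

theorem gg_nn (m : ℕ) : 0 ≤ p.gg m := by
  have := h.g10
  unfold Par.gg; positivity

omit h in
theorem gg_step {m : ℕ} (hm : m < p.N) : p.gg (m + 1) * (1 + 1 / p.N) = p.gg m := by
  unfold Par.gg
  rw [show p.N - m = (p.N - (m + 1)) + 1 by omega, pow_succ, mul_assoc]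

theorem gg_h (m : ℕ) : p.gg m * (1 + p.N) * (p.C * p.C0) ≤ p.gP := by
  have g0 := h.g10
  have c1 := h.C1'
  have c2 := h.C01
  have h1 : (1 + 1 / p.N : ℝ) ^ (p.N - m) ≤ (1 + 1 / p.N) ^ p.N :=
    pow_le_pow_right₀ (by have : (0 : ℝ) ≤ 1 / p.N := by positivity
                          linarith) (by omega)
  refine le_trans ?_ h.g11
  unfold Par.gg
  calc p.g1 * (1 + 1 / p.N) ^ (p.N - m) * (1 + p.N) * (p.C * p.C0)
      ≤ p.g1 * (1 + 1 / p.N) ^ p.N * (1 + p.N) * (p.C * p.C0) := by gcongr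
    _ = _ := by ring

theorem le_bt (m i : ℕ) : p.M (i + 1) ≤ p.M (p.bt m i) :=
  h.Mm (Nat.add_le_add_left Nat.one_le_two_pow i)

theorem small {m : ℕ} (hm : m < p.N) (i : ℕ) :
    8 * p.C * p.CZ * (p.N + 1) ^ 2 * 8 ^ p.N * p.M (p.bt (m + 1) i) * p.e1 (m + 1) i ≤
      p.γ (m + 1) i := by
  have h1 := h.le (p.bt (m + 1) i)
  have h2 := (h.lM m i hm).2.2.2
  have h3 := le_bt h (m + 1) i
  have h4 := h.M1 (p.bt (m + 1) i)
  have h5 := h.γ0 (m + 1) i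
  refine le_of_mul_le_mul_right ?_ (show 0 < p.M (p.bt (m + 1) i) by linarith)
  unfold Par.e1
  calc _ = 8 * p.C * p.CZ * (p.N + 1) ^ 2 * 8 ^ p.N * p.M (p.bt (m + 1) i) ^ 2 *
        p.ee (p.bt (m + 1) i) := by ring
    _ ≤ 1 := h1
    _ ≤ p.γ (m + 1) i * p.M (i + 1) := h2
    _ ≤ _ := by gcongr

theorem g2_le (m i : ℕ) : p.g2 m i ≤ 8 ^ p.N * p.M (p.bt m i) :=
  mul_le_mul_of_nonneg_right (pow_le_pow_right₀ (by norm_num) (by omega))
    (zero_le_one.trans (h.M1 _))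

theorem small1 {m : ℕ} (hm : m < p.N) (i : ℕ) :
    8 * p.C * p.g2 (m + 1) i * p.e1 (m + 1) i ≤ p.γ (m + 1) i := by
  refine le_trans ?_ (small h hm i)
  have c1 := h.C1'
  have c2 := CZ1 h
  have e0 : 0 < p.e1 (m + 1) i := h.e0 _
  have m1 := h.M1 (p.bt (m + 1) i)
  have n0 : (0 : ℝ) ≤ p.N := Nat.cast_nonneg _
  have g := g2_le h (m + 1) i
  calc _ ≤ 8 * p.C * (8 ^ p.N * p.M (p.bt (m + 1) i)) * p.e1 (m + 1) i := by gcongr
    _ = 8 * p.C * 1 * 1 ^ 2 * 8 ^ p.N * p.M (p.bt (m + 1) i) * p.e1 (m + 1) i := by ring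
    _ ≤ _ := by gcongr; linarith

theorem small2 {m : ℕ} (hm : m < p.N) (i : ℕ) :
    4 * p.C * p.CZ * p.N * p.e1 (m + 1) i ≤ p.γ (m + 1) i := by
  refine le_trans ?_ (small h hm i)
  have c1 := h.C1'
  have c2 := CZ1 h
  have e0 : 0 < p.e1 (m + 1) i := h.e0 _
  have m1 := h.M1 (p.bt (m + 1) i)
  have n0 : (0 : ℝ) ≤ p.N := Nat.cast_nonneg _
  have h8 : (1 : ℝ) ≤ 8 ^ p.N := one_le_pow₀ (by norm_num)
  have n1 : (p.N : ℝ) ≤ (p.N + 1) ^ 2 := by nlinarith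
  calc _ = 4 * p.C * p.CZ * p.N * 1 * 1 * p.e1 (m + 1) i := by ring
    _ ≤ _ := by gcongr; norm_num

theorem k_terms {m i : ℕ} (hm : m < p.N) (hV : p.Val (m + 1) i) {K : ℝ} (K1 : 1 ≤ K) :
    p.g2 (m + 1) i * K + 4 * p.C * p.g2 (m + 1) i * K + 1 + p.CZ * p.N * K ≤
      6 * p.C * 8 ^ p.N * p.M (2 ^ p.N) * K := by
  have c1 := h.C1'
  have c2 := CZ1 h
  have m1 := h.M1 (p.bt (m + 1) i)
  have m2 : p.M (p.bt (m + 1) i) ≤ p.M (2 ^ p.N) := h.Mm hV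
  have h8 : (1 : ℝ) ≤ 8 ^ p.N := one_le_pow₀ (by norm_num)
  have g0 : 0 ≤ p.g2 (m + 1) i := by unfold Par.g2; positivity
  have g1 : 8 * p.g2 (m + 1) i ≤ 8 ^ p.N * p.M (2 ^ p.N) := by
    unfold Par.g2
    rw [← mul_assoc, ← pow_succ']
    exact mul_le_mul (pow_le_pow_right₀ (by norm_num) (by omega)) m2 (by linarith) (by linarith)
  have z1 : p.CZ ≤ p.M (2 ^ p.N) := by
    have b1 := (h.lM m i hm).2.2.1
    have b2 : p.CZ * 1 ≤ p.CZ * p.CN m i := by gcongr; exact h.CN1 m i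
    linarith [le_bt h (m + 1) i]
  have n1 : (p.N : ℝ) ≤ 8 ^ p.N := by
    exact_mod_cast (Nat.lt_pow_self (by norm_num : 1 < 8)).le
  have a1 : 1 * (8 * p.g2 (m + 1) i) * K ≤ p.C * (8 ^ p.N * p.M (2 ^ p.N)) * K := by gcongr
  have a2 : p.C * (8 * p.g2 (m + 1) i) * K ≤ p.C * (8 ^ p.N * p.M (2 ^ p.N)) * K := by gcongr
  have m3 := h.M1 (2 ^ p.N)
  have a3 : 1 * (1 * 1) * 1 ≤ p.C * (8 ^ p.N * p.M (2 ^ p.N)) * K := by gcongr
  have a4 : 1 * (p.N * p.CZ) * K ≤ p.C * (8 ^ p.N * p.M (2 ^ p.N)) * K := by gcongr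
  linarith

theorem t_big {z : Cap} {n : ℕ} (hz : z.Ok p n) {m : ℕ} (hm : m ≤ p.N) (lg0 : 0 ≤ lg n) :
    p.C * (5 * z.T m + lg n) ≤ z.t m := by
  have a1 := hz.h1 m hm 0 (Nat.zero_le _)
  have a2 := h.h0 0
  have a3 := h.h1 0
  have a4 := h.C11
  have c1 := h.C1'
  have T0 := (hz.Tn m hm).1
  have a5 : p.C * (5 * z.T m + lg n + 1) ≤ 40 * p.C * p.C1 ^ 2 * (4 * z.T m + lg n + 1) := by
    calc _ = 1 * p.C * 1 ^ 2 * (5 * z.T m + lg n + 1) := by ring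
      _ ≤ 1 * p.C * p.C1 ^ 2 * (40 * (4 * z.T m + lg n + 1)) := by gcongr; linarith
      _ = _ := by ring
  have a9 : 0 < p.C * (5 * z.T m + lg n + 1) := by positivity
  have a7 : 0 < z.t m := (mul_pos_iff_of_pos_left (pow_pos a2 2)).1 (a9.trans_le (a5.trans a1))
  have a8 : p.η 0 ^ 2 * z.t m ≤ 1 ^ 2 * z.t m := by gcongr
  linarith

theorem Mec (j : ℕ) : p.M j ^ 2 * (p.N ^ 2 * p.ee j) ≤ 1 := by
  refine le_trans ?_ (h.le j)
  have c1 := h.C1'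
  have c2 := CZ1 h
  have e0 := h.e0 j
  have h8 : (1 : ℝ) ≤ 8 ^ p.N := one_le_pow₀ (by norm_num)
  calc p.M j ^ 2 * (p.N ^ 2 * p.ee j) = 1 * 1 * 1 * (p.N : ℝ) ^ 2 * 1 * p.M j ^ 2 * p.ee j := by ring
    _ ≤ _ := by gcongr <;> linarith

end consts

theorem crude_exp (n : ℕ) {x : ℝ} (hx : lg n < x) : x + 9 * n ≤ exp (x / 2) := by
  have n0 : (0 : ℝ) ≤ n := Nat.cast_nonneg n
  have l0 : 0 ≤ log ((n : ℝ) + 2) := log_nonneg (by linarith)
  have x0 : 0 ≤ x := by unfold lg at hx; linarith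
  have h1 : ((n : ℝ) + 2) ^ 4 ≤ exp (x / 4) := by
    rw [← exp_log (show 0 < ((n : ℝ) + 2) ^ 4 by positivity), log_pow]
    exact exp_le_exp.2 (by unfold lg at hx; push_cast; linarith)
  have h2 : x / 4 + 1 ≤ exp (x / 4) := add_one_le_exp _
  have h3 : 16 + 32 * (n : ℝ) ≤ ((n : ℝ) + 2) ^ 4 := by
    nlinarith [pow_nonneg n0 2, pow_nonneg n0 3, pow_nonneg n0 4]
  calc x + 9 * n ≤ (16 + 32 * (n : ℝ)) * (x / 4 + 1) := by nlinarith
    _ ≤ exp (x / 4) * exp (x / 4) := by gcongr; exact h3.trans h1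
    _ = exp (x / 2) := by rw [← exp_add]; ring_nf

end Upd65

open Upd65 in
theorem updGlue : UpdGlue := by
  intro hCr hCl hFu n X hX m i hm1 hmN hV hSta s s' F i0 y0 pA al q w u t hNx hB hpA hT hPV hF hc hL
    hS hd hy hs'
  have hp := hX.ok
  have hz := hX.cap
  have hD := hX.dok
  set D := X.D with hDd
  set γ := X.p.γ (m + 1) i with hγ
  set e := X.p.e1 (m + 1) i with he
  set CN := X.p.CN m i with hCN
  set s2 : St n := s.tl t.φ (CN * u) t.Ω t.G with hs2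
  have γ0 : 0 < γ := hp.γ0 _ _
  have γ1 : γ ≤ 1 := hp.γ1 _ _
  have e0 : 0 < e := hp.e0 _
  have CN1 : 1 ≤ CN := hp.CN1 _ _
  have u0 := hT.u0
  have C1 := hp.C1'
  have C01 := hp.C01
  have K1 := hz.K1
  have Z1 := CZ1 hp
  have N1 : (1 : ℝ) ≤ X.p.N := by exact_mod_cast hp.N1
  have n0 : (0 : ℝ) ≤ n := Nat.cast_nonneg n
  have h8 : (1 : ℝ) ≤ 8 ^ X.p.N := one_le_pow₀ (by norm_num)
  have hi : i ≤ 2 ^ X.p.N := le_trans (Nat.le_add_right _ _) hV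
  have MN1 := hp.M1 (2 ^ X.p.N)
  -- sizes
  obtain ⟨T0, -, tn⟩ := hz.Tn m hmN.le
  obtain ⟨T0', Tn', -⟩ := hz.Tn (m + 1) hmN
  have tT : X.z.t m ≤ X.z.T (m + 1) := by linarith [(hz.h4 m hmN).1]
  have lg0 : 0 ≤ lg n := by
    have := log_nonneg (show (1 : ℝ) ≤ n + 2 by linarith)
    unfold lg; linarith
  have tbig := t_big hp hz (m := m + 1) hmN lg0
  have hL2 : (s.L + CN * u) ^ 2 ≤ 2 * s.L ^ 2 + 2 * CN ^ 2 * u ^ 2 := by
    linarith [sq_nonneg (s.L - CN * u)]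
  have hL3 : (s.L + CN * u) ^ 2 ≤ X.z.T (m + 1) := by
    have a1 := hz.h3 m hmN i hi
    have a2 : CN ^ 2 * u ^ 2 ≤ CN ^ 2 * X.z.t' m := by gcongr; exact hT.ut
    linarith
  -- the new state
  have c2 : Cl ((m + 1) * e) ((m + 1) ^ 2 * e) s2 :=
    (hCl n D s hD).2.1 m e (CN * u) t.φ t.Ω t.G e0.le (by positivity) hc hT.ans.gr hT.ans.rg
      hT.ans.ex hT.ans.ts
  have hIn : X.In (m + 1) i s2 (F + t.ρ) :=
    { cl := by push_cast; exact c2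
      pv := hT.pv i0 _ _ _ hNx hPV
      xf := fun m' => xf_add (hF m') (hT.xf m')
      hL := hL3
      hS := hS }
  obtain ⟨pr, -, -, A0, H0, Y0, U0, U60, E0, -, YU, -, -, HD⟩ := hCr n D s2 hD
  have wt : Wt (nu D s2) := pr.hv
  obtain ⟨-, fx, -, -, -, fadd⟩ := hFu n X hX (m + 1) i F hF
  have Φ0 : 0 ≤ mean (nu D s2) fun σ => X.Fu (m + 1) m (X.Ft (m + 1) i F) σ s.y :=
    wt.mean_nonneg fun σ => (fx (m + 1) m (Nat.le_succ m)).2 σ s.y
  have G0 : 0 ≤ mean (nu D s2) fun σ => s.G σ ^ 2 := wt.mean_nonneg fun σ => sq_nonneg _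
  have W0 : 0 ≤ pA ⬝ᵥ (w * w) := sum_nonneg fun j _ => mul_nonneg (hpA j) (mul_self_nonneg _)
  have d0 : 0 ≤ del s ⬝ᵥ del s := sum_nonneg fun j _ => mul_self_nonneg _
  have S0 : (0 : ℝ) ≤ #s.S := Nat.cast_nonneg _
  have r0 : 0 ≤ nrm (s.y - y0) ^ 2 := sq_nonneg _
  have Mb := hp.M1 (X.p.bt (m + 1) i)
  have h8' : (1 : ℝ) ≤ 8 ^ (X.p.N - (m + 1)) := one_le_pow₀ (by norm_num)
  have g2a : X.p.M (X.p.bt (m + 1) i) ≤ X.p.g2 (m + 1) i := le_mul_of_one_le_left (by linarith) h8'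
  have g2b := g2_le hp (m + 1) i
  have g2c : X.p.g2 (m + 1) i ≤ 8 ^ X.p.N * X.p.M (2 ^ X.p.N) :=
    g2b.trans (mul_le_mul_of_nonneg_left (hp.Mm hV) (by linarith))
  have g20 : 0 ≤ X.p.g2 (m + 1) i := by linarith
  obtain ⟨am0, am1⟩ := am_bd hp (m := m + 1) hmN
  have gP0 := hp.gP0
  -- the goal in the words of `s2`
  subst hs'
  change _ ≤ X.p.lb m * AA D s2 - X.p.am (m + 1) * HH D s2 + 3 * γ *
      (Hy D s2 + mean (nu D s2) (U D s2) + mean (nu D s2) (U6 D s2)) +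
    X.p.gg m * Eg D s2 s.Th + exp ((Dz D s2 - X.z.T (m + 1)) / 2) +
    (mean (nu D s2) fun σ => 4 * X.p.g2 (m + 1) i * s.G σ ^ 2 +
      X.Fu (m + 1) m (X.Ft (m + 1) i F) σ s.y) + 8 * γ * CN ^ 2 * u ^ 2 + X.p.gP * (pA ⬝ᵥ (w * w))
  rw [mean_add, mean_const_mul]
  by_cases hcase : lg n < Dz D s2 - X.z.T (m + 1)
  · -- the crude case
    have a1 := crude_exp n hcase
    have a2 := HD _ _ c2
    have sq : √(n : ℝ) * √(n : ℝ) = n := mul_self_sqrt n0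
    have a3 : s2.L ≤ √n := le_sqrt_of_sq_le (hL3.trans Tn')
    have a4 : nrm (del s2) ≤ √n := sqrt_le_sqrt (hd.trans tn)
    have a5 : 4 * √(n : ℝ) * (s2.L + nrm (del s2)) ≤ 4 * √(n : ℝ) * (√n + √n) := by gcongr
    have a6 : X.p.am (m + 1) * HH D s2 ≤ 1 * HH D s2 := by gcongr
    have Λ0 : 0 ≤ X.p.Λ := hp.CE0.trans hp.ΛE
    have R0 : 0 ≤ X.R (m + 1) := by
      have b1 : ((m + 1 : ℕ) : ℝ) ≤ X.p.N := by exact_mod_cast hmN
      have b2 : 0 ≤ X.z.Kb := le_trans (by positivity) hz.Kb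
      exact mul_nonneg (by linarith) b2
    have b1 : 0 ≤ X.p.lb m * AA D s2 := mul_nonneg (lb_nn hp m) A0
    have b2 : 0 ≤ X.p.gg m * Eg D s2 s.Th := mul_nonneg (gg_nn hp m) (E0 _)
    have b3 : 0 ≤ 3 * γ * (Hy D s2 + mean (nu D s2) (U D s2) + mean (nu D s2) (U6 D s2)) := by
      positivity
    have b4 : 0 ≤ 4 * X.p.g2 (m + 1) i * mean (nu D s2) fun σ => s.G σ ^ 2 := by positivity
    have b5 : 0 ≤ 8 * γ * CN ^ 2 * u ^ 2 := by positivity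
    have b6 : 0 ≤ X.p.gP * (pA ⬝ᵥ (w * w)) := by positivity
    have b7 : 0 ≤ 6 * X.p.C * 8 ^ X.p.N * X.p.M (2 ^ X.p.N) * X.z.K := by positivity
    have b8 : 0 ≤ (3 / 2 * X.p.Λ + 9 / 2 * γ) * (del s ⬝ᵥ del s) := by positivity
    have b9 : 0 ≤ 6 * γ * (s.L ^ 2 + #s.S + nrm (s.y - y0) ^ 2) := by positivity
    linarith
  -- the main case
  rw [not_lt] at hcase
  have st := hSta s2 (F + t.ρ) hIn
  have eF : (mean (nu D s2) fun σ => X.Fu (m + 1) m (X.Ft (m + 1) i (F + t.ρ)) σ s2.y) =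
      (mean (nu D s2) fun σ => X.Fu (m + 1) m (X.Ft (m + 1) i F) σ s.y) +
        X.p.CZ * mean (nu D s2) fun σ => X.Fu (m + 1) m t.ρ σ s.y := by
    rw [fadd t.ρ (m + 1) m (Nat.le_succ m) hT.xf, ← mean_const_mul, ← mean_add]
    rfl
  change _ ≤ X.p.l (m + 1) * AA D s2 - X.p.am (m + 1) * HH D s2 +
    γ * (Bd D s2 + mean (nu D s2) (U6 D s2)) + X.p.gg (m + 1) * Eg D s2 (s.Th + t.φ) +
    X.p.g2 (m + 1) i * Ex D s2 + 3 / 2 * (X.p.Λ + γ) * (del s ⬝ᵥ del s) +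
    exp ((Dz D s2 - X.z.T (m + 1)) / 2) +
    mean (nu D s2) fun σ => X.Fu (m + 1) m (X.Ft (m + 1) i (F + t.ρ)) σ s2.y at st
  rw [eF] at st
  have eB : Bb D s2 y0 = Hy D s2 + del s ⬝ᵥ del s + (s.L + CN * u) ^ 2 + mean (nu D s2) (U D s2) +
      #s.S + nrm (s.y - y0) ^ 2 := rfl
  have eBd : Bd D s2 = Bb D s2 y0 - nrm (s.y - y0) ^ 2 := (add_sub_cancel_right _ _).symm
  set B := Bb D s2 y0 with hBd
  have rB : nrm (s.y - y0) ^ 2 ≤ B := by rw [eB]; linarith [sq_nonneg (s.L + CN * u)]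
  have B0 : 0 ≤ B := r0.trans rB
  have Bu : 0 ≤ B + u ^ 2 := by positivity
  -- energy
  have gg0 := gg_nn hp (m + 1)
  set hh := X.p.gg (m + 1) * (1 + X.p.N) with hhh
  have hh0 : 0 ≤ hh := by positivity
  have hh1 : hh * (X.p.C * X.p.C0) ≤ X.p.gP := gg_h hp (m + 1)
  have hh2 : hh ≤ 1 := by
    have : hh * (1 * 1) ≤ hh * (X.p.C * X.p.C0) := by gcongr
    linarith [hp.gP1]
  have s1 : X.p.gg (m + 1) * Eg D s2 (s.Th + t.φ) ≤ X.p.gg m * Eg D s2 s.Th + hh * Eg D s2 t.φ := by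
    have := mul_le_mul_of_nonneg_left ((hCl n D s2 hD).2.2.1 s.Th t.φ X.p.N (by linarith)) gg0
    rw [← gg_step hmN, hhh]
    linarith
  have mN : ((m : ℝ) + 1) ≤ X.p.N := by exact_mod_cast hmN
  have m0 : (0 : ℝ) ≤ m := Nat.cast_nonneg m
  have NN : (X.p.N : ℝ) ≤ X.p.N ^ 2 := le_self_pow₀ N1 two_ne_zero
  have c3 : Cl (X.p.ec (m + 1) i) (X.p.ec (m + 1) i) s2 :=
    (hCl n D s2 hD).1 _ _ _ _ c2 (mul_le_mul_of_nonneg_right (mN.trans NN) e0.le)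
      (mul_le_mul_of_nonneg_right (by gcongr) e0.le)
  set Mx := Mx' X.p.C D.P CN 1 D.η0 γ with hMx
  have Mx1 : Mx ≤ X.p.M (i + 1) := by
    rw [hMx, hX.hP, hX.hη]; exact (hp.lM m i hmN).2.1
  have Mx0 : 0 ≤ Mx := by rw [hMx, Mx']; positivity
  have Mx2 : Mx ≤ X.p.M (X.p.bt (m + 1) i) := Mx1.trans (le_bt hp _ _)
  obtain ⟨i1, i2⟩ := hX.lf.inc n D s2 y0 pA al q w _ _ e (X.p.ec (m + 1) i) CN X.p.C0 X.z.K u γ
    t.φ t.W t.Ω t.G hD c3 hB hT.ans hpA e0.le (le_mul_of_one_le_left e0.le (N1.trans NN)) CN1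
    (by linarith) K1 u0 γ0 γ1 (le_trans (mul_le_mul_of_nonneg_right (by gcongr)
      (by unfold Par.ec; positivity)) (Mec hp (X.p.bt (m + 1) i)))
  have X0 : 0 ≤ Ex D s2 := wt.mean_nonneg fun σ => sq_nonneg _
  have s2' : hh * Eg D s2 t.φ ≤ X.p.gP * (pA ⬝ᵥ (w * w)) + γ * (AA D s2 + B + u ^ 2) +
      X.p.g2 (m + 1) i * (Ex D s2 + X.z.K) := by
    have a1 := mul_le_mul_of_nonneg_left i1 hh0
    have a2 : hh * (X.p.C * X.p.C0) * (pA ⬝ᵥ (w * w)) ≤ X.p.gP * (pA ⬝ᵥ (w * w)) := by gcongr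
    have a3 : hh * (γ * (AA D s2 + B + u ^ 2)) ≤ 1 * (γ * (AA D s2 + B + u ^ 2)) := by gcongr
    have a4 : hh * (Mx * (Ex D s2 + X.z.K)) ≤ 1 * (X.p.g2 (m + 1) i * (Ex D s2 + X.z.K)) := by
      gcongr; exact Mx2.trans g2a
    linarith
  -- excess
  have s3 : Ex D s2 ≤ 2 * (mean (nu D s2) fun σ => s.G σ ^ 2) +
      2 * mean (nu D s2) fun σ => t.G σ ^ 2 := by
    rw [← mean_const_mul, ← mean_const_mul, ← mean_add]
    refine wt.mean_mono fun σ => ?_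
    change (s.G σ + t.G σ) ^ 2 ≤ _
    linarith [sq_nonneg (s.G σ - t.G σ)]
  have q1 : 8 * X.p.C * X.p.g2 (m + 1) i * e ≤ γ := small1 hp hmN i
  have q2 : 4 * X.p.C * X.p.CZ * X.p.N * e ≤ γ := small2 hp hmN i
  have s4 : 2 * X.p.g2 (m + 1) i * Ex D s2 ≤
      4 * X.p.g2 (m + 1) i * (mean (nu D s2) fun σ => s.G σ ^ 2) + γ / 2 * (B + u ^ 2) +
        4 * X.p.C * X.p.g2 (m + 1) i * X.z.K := by
    have a1 : 2 * X.p.g2 (m + 1) i * Ex D s2 ≤ 2 * X.p.g2 (m + 1) i *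
        (2 * (mean (nu D s2) fun σ => s.G σ ^ 2) + 2 * (X.p.C * (e * (B + u ^ 2) + X.z.K))) := by
      gcongr; linarith
    have a2 := mul_le_mul_of_nonneg_right q1 Bu
    linarith
  -- predictions
  have kl1 := (hX.lf.b1 n D s2 y0 _ _ hD c2 hB).1
  have BT : B ≤ 5 * X.z.T (m + 1) + lg n := by rw [eB]; linarith
  have kl2 : kl (nu D s2) (ising D.J y0) ≤ X.z.t (m + 1) :=
    kl1.trans ((mul_le_mul_of_nonneg_left BT (by linarith)).trans tbig)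
  have y2 : nrm (s.y - y0) ^ 2 ≤ X.z.t (m + 1) := by
    have : 1 * (5 * X.z.T (m + 1) + lg n) ≤ X.p.C * (5 * X.z.T (m + 1) + lg n) := by gcongr
    linarith
  have s5 : (mean (nu D s2) fun σ => X.Fu (m + 1) m t.ρ σ s.y) ≤
      X.p.N * (e * (2 * X.p.C * (B + u ^ 2) + 1) + X.z.K) := by
    have a1 : (fun σ => X.Fu (m + 1) m t.ρ σ s.y) = fun σ => ∑ m' ∈ Icc (m + 1) X.p.N,
        Ew (((m' : ℝ) - m) * X.p.τ) (t.ρ m') σ s.y := by
      funext σ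
      simp only [Cx.Fu, Finset.sum_apply]
    rw [a1, mean_sum]
    have a2 : u ^ 2 + kl (nu D s2) (ising D.J y0) + nrm (s.y - y0) ^ 2 + 1 ≤
        2 * X.p.C * (B + u ^ 2) + 1 := by
      have b1 : 1 * B ≤ X.p.C * B := by gcongr
      have b2 : 1 * u ^ 2 ≤ X.p.C * u ^ 2 := by gcongr
      linarith [sq_nonneg u]
    refine (sum_le_card_nsmul _ _ (e * (2 * X.p.C * (B + u ^ 2) + 1) + X.z.K) fun m' hm' => ?_).trans ?_
    · obtain ⟨b1, b2⟩ := mem_Icc.1 hm'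
      exact (hT.pred _ s.y m' wt kl2 y2 b1 b2).trans
        (add_le_add (mul_le_mul_of_nonneg_left a2 e0.le) le_rfl)
    · rw [nsmul_eq_mul]
      gcongr
      rw [Nat.card_Icc]
      exact_mod_cast (by omega : X.p.N + 1 - (m + 1) ≤ X.p.N)
  have s5' : X.p.CZ * (mean (nu D s2) fun σ => X.Fu (m + 1) m t.ρ σ s.y) ≤
      γ / 2 * (B + u ^ 2) + 1 + X.p.CZ * X.p.N * X.z.K := by
    have a1 := mul_le_mul_of_nonneg_left s5 (show 0 ≤ X.p.CZ by linarith)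
    have a2 := mul_le_mul_of_nonneg_right q2 Bu
    have a3 : 1 * (X.p.CZ * X.p.N * e) ≤ (4 * X.p.C) * (X.p.CZ * X.p.N * e) := by gcongr; linarith
    linarith
  have s6 : X.p.g2 (m + 1) i * X.z.K + 4 * X.p.C * X.p.g2 (m + 1) i * X.z.K + 1 +
      X.p.CZ * X.p.N * X.z.K ≤ 6 * X.p.C * 8 ^ X.p.N * X.p.M (2 ^ X.p.N) * X.z.K :=
    k_terms hp hmN hV K1
  have s7 := mul_le_mul_of_nonneg_right (l_add hp hmN i) A0
  have s8 : γ * B ≤ γ * (Hy D s2 + mean (nu D s2) (U D s2) + del s ⬝ᵥ del s + 2 * s.L ^ 2 +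
      2 * CN ^ 2 * u ^ 2 + #s.S + nrm (s.y - y0) ^ 2) := by
    gcongr; rw [eB]; linarith
  have s9 : γ * 1 ^ 2 * u ^ 2 ≤ γ * CN ^ 2 * u ^ 2 := by gcongr
  have s10 : 0 ≤ γ * mean (nu D s2) (U6 D s2) := by positivity
  have s11 : 0 ≤ γ * nrm (s.y - y0) ^ 2 := by positivity
  have s12 : 0 ≤ γ * #s.S := by positivity
  rw [eBd] at st
  linarith

end Crest.Agent.T157.S1

end
end

-- ▼ part T157/S1All_83

/-! Row 157, block S1: assembly of the deterministic scheme (helper83). -/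

namespace Crest.Agent.T157.S1

theorem leafStmt : LeafStmt := leafGlue b1Stmt tiltStmt (incGlue crudeStmt b1Stmt) t6Stmt2
theorem fuStmt : FuStmt := fuGlue mtStmt
theorem preStmt : PreStmt := preGlue crudeStmt mtStmt fuStmt
theorem updStmt : UpdStmt := updGlue crudeStmt clStmt fuStmt
theorem brTStmt : BrTStmt := brTGlue crudeStmt clStmt fuStmt
theorem brBStmt : BrBStmt := brBGlue crudeStmt clStmt fuStmt
theorem actStmt : ActStmt := actGlue crudeStmt clStmt fuStmt preStmt brTStmt brBStmt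
theorem finStmt : FinStmt := finGlue crudeStmt clStmt fuStmt preStmt
theorem staStmt : StaStmt := staGlue (winGlue crudeStmt) fuStmt
theorem totStmt : TotStmt := totGlue crudeStmt clStmt mtStmt l0Stmt
theorem masterStmt : MasterStmt := masterGlue updStmt actStmt finStmt staStmt totStmt
theorem s1Out : S1Out :=
  statGlue crudeStmt leafStmt nStmt mtStmt masterStmt scalStmt ladStmt capStmt

end Crest.Agent.T157.S1
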