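import Crest.Agent.T157.BrDef_50
import Crest.Agent.T157.Xtr_25

/-!
# Row 157, block B, S1: the act B (burst and reveal), data, leaves and glue (helper50)

Text: `docs/T157_B_S1b.md`.  `D.S` old pins, `D.ι` the new set `T`, `D.C` the remaining free sites.
-/

set_option autoImplicit false
set_option linter.unusedVariables false

noncomputable section

namespace Crest.Agent.T157.Br

open Real Matrix Function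
open Crest.Agent.T157.E Crest.Agent.T157.SL Crest.Agent.T157.Ta
open Crest.Agent.T157.Rec (grad)
open Crest.Agent.T157.Eig (nrm opn)
open Crest.Agent.T157.Xt (H1 Lip2)

/-- the data of one act -/
structure Dat (n : ℕ) (κ : Type) where
  J : Matrix (Fin n) (Fin n) ℝ
  y : Fin n → ℝ
  C : Finset (Fin n)
  ι : κ → Fin n
  x0 : Cube n
  xS : Fin n → ℝ
  dl : Fin n → ℝ
  del : Fin n → ℝ
  f : Cube n → ℝ
  Θ : Cube n → ℝ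
  V : κ → Cube n → Fin n → ℝ
  V0 : κ → Cube n → Fin n → ℝ
  φ : Cube n → κ → ℝ
  ka : κ → ℝ
  k0 : κ → ℝ
  a : ℝ
  a' : ℝ
  η : ℝ
  P : ℝ
  xa : ℝ
  b0 : ℝ
  e : ℝ
  ε : ℝ
  ς : ℝ
  L : ℝ
  B0 : ℝ
  Dh : ℝ
  R : ℝ

/-- the response matrix `x 1_T` -/
def XM {n : ℕ} {κ : Type} (ι : κ → Fin n) (x : ℝ) : Matrix (Fin n) κ ℝ :=
  fun i k => if ι k = i then x else 0

/-- the divergences of the flows -/
def dv {n : ℕ} {κ : Type} (J : Matrix (Fin n) (Fin n) ℝ) (y : Fin n → ℝ) (V : κ → Cube n → Fin n → ℝ)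
    (x : Cube n) : κ → ℝ := fun k => V k x ⬝ᵥ S3.tau J y x

/-- squared Euclidean norm -/
def sq {κ : Type} [Fintype κ] (u : κ → ℝ) : ℝ := u ⬝ᵥ u

namespace Dat
variable {n : ℕ} {κ : Type} [Fintype κ] [DecidableEq κ] (D : Dat n κ)

/-- old pins -/
def S : Finset (Fin n) := Finset.univ.filter fun i => i ∉ D.C ∧ ∀ k, D.ι k ≠ i
def h : Cube n → κ → ℝ := hG (rw D.J D.C D.ι)
def s : Cube n → κ → ℝ := sT D.ι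
def bT (x : Cube n) : κ → Bool := fun k => x (D.ι k)
def μ : Cube n → ℝ := ising D.J D.y
def U (x : Cube n) : ℝ := D.P / 2 * ∑ i ∈ D.S, ((D.J *ᵥ sv x) i - D.xS i) ^ 2
/-- `loc` -/
def l (x : Cube n) : ℝ := if ∀ i ∈ D.S, x i = D.x0 i then D.μ x * exp (D.dl ⬝ᵥ sv x - D.U x) else 0
def ν (x : Cube n) : ℝ := D.l x * D.f x
def pw : Cube n → ℝ := wt D.l fun x => D.del ⬝ᵥ sv x + D.Θ x
/-- normalised site weights on `C` -/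
def r (j : Fin n) (x : Cube n) : ℝ :=
  if j ∈ D.C then Ue.rw D.η (Ue.th D.a') D.f j x / (1 - 2 * D.η) else 0
def lw (j : Fin n) (x : Cube n) : ℝ := if j ∈ D.C then Ue.Lw D.η D.f j x else 0
/-- the functional on all sites -/
def AA (v w lc : Cube n → ℝ) : ℝ :=
  Ar (Ue.rw D.η (Ue.th D.a') D.f) v w + (1 - Ue.th D.a') / 2 * Ue.El (Ue.Lw D.η D.f) v lc
/-- the normalised functional on `C` -/
def AC (v w lc : Cube n → ℝ) : ℝ :=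
  Ar D.r v w + (1 - Ue.th D.a') / (2 * (1 - 2 * D.η)) * Ue.El D.lw v lc
/-- the converted functional on `T` -/
def AT (β : ℝ) (v w : Cube n → ℝ) : ℝ :=
  ∑ k, (D.a * As (fun _ => 1) v w (D.ι k) + β / 2 * mean v fun x => chi v w (D.ι k) x ^ 2)
def xb : κ → ℝ := meanV D.μ D.h
def vp (p : ℝ) (z : κ → ℝ) : Cube n → ℝ := post D.h D.ν p z
def lp (p : ℝ) (z : κ → ℝ) : Cube n → ℝ := post D.h D.l p z
def W (p : ℝ) (z c m : κ → ℝ) : Cube n → ℝ := wS D.h D.φ D.s D.pw p z c m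
/-- the path which removes the coupling between `T` and `C` -/
def Wp (p : ℝ) (z c m : κ → ℝ) (t : ℝ) (mh : κ → ℝ) : Cube n → ℝ :=
  wt (D.W p z c m) fun x => (t - 1) * (D.s x ⬝ᵥ (D.h x - mh))
/-- a reference weight: the path or one of its slices -/
def Ref (p : ℝ) (z c m : κ → ℝ) (t : ℝ) (mh : κ → ℝ) (w : Cube n → ℝ) : Prop :=
  w = D.Wp p z c m t mh ∨ ∃ σ, w = cut (D.Wp p z c m t mh) D.bT σ
/-- the budget of a law at the state `(p, z)` -/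
def bv (p : ℝ) (z : κ → ℝ) (v : Cube n → ℝ) : ℝ :=
  D.B0 + kl v D.μ + sq (z - p • D.xb) + mean v fun x => D.U x + sq (D.h x - D.xb)
def bud (p : ℝ) (z : κ → ℝ) : ℝ := D.bv p z (D.vp p z)
/-- the final majorant of the budget -/
def Fn (x : Cube n) (u : κ → ℝ) : ℝ := D.B0 + kl (D.vp D.P u) D.μ + 2 * sq (u - D.P • D.xb) +
  (2 * D.P ^ 2 + 1) * sq (D.h x - D.xb) + D.U x
def ψ (c : κ → ℝ) : Cube n → Fin n → ℝ := grad fun x => (D.dl + D.del) ⬝ᵥ sv x + D.Θ x + c ⬝ᵥ D.φ x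
def ζ (p : ℝ) (z : κ → ℝ) (t : ℝ) (x : Cube n) (i : Fin n) : ℝ :=
  if i ∈ D.S then -(D.P * ((D.J *ᵥ sv x) i - D.xS i))
  else ∑ k, if D.ι k = i then z k - p * D.h x k - (1 - t) * D.s x k else 0
/-- squared gradient of the tilt on `C` -/
def ug (c : κ → ℝ) (j : Fin n) (x : Cube n) : ℝ :=
  if j ∈ D.C then grad (fun y => c ⬝ᵥ D.φ y) x j ^ 2 else 0
/-- small in mean under every law -/
def Sm (g : Cube n → ℝ) (b : ℝ) : Prop := ∀ v, Wt v → mean v g ≤ D.e * (b + kl v D.μ)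
/-- admissible radii -/
def Rad (ρ : ℝ) : Prop := 0 ≤ ρ ∧ D.B0 ≤ ρ ^ 2 ∧ ρ ^ 2 ≤ D.R

structure Geo : Prop where
  symm : D.Jᵀ = D.J
  diag : ∀ j, D.J j j = 0
  op : opn D.J ≤ 3
  inj : Injective D.ι
  off : ∀ k, D.ι k ∉ D.C
  col : ∀ j, ∑ i ∈ D.Cᶜ, D.J i j ^ 2 ≤ D.ς ^ 2
  blk : ∀ u : Fin n → ℝ, (∀ j ∈ D.C, u j = 0) → ∑ i ∈ D.Cᶜ, (D.J *ᵥ u) i ^ 2 ≤ D.ς ^ 2 * sq u
  s0 : 0 ≤ D.ς
  P1 : 1 ≤ D.P

/-- the hypotheses of the act; `mg` is the margin, `β = (1 - a') (1 - mg)`; `e` is the soft accuracy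
(chosen before `CV`), `ε` the hard one (chosen after `CV`) -/
structure Ok (mg C0 CV K1 : ℝ) : Prop extends D.Geo where
  h1 : H1 D.μ K1
  K0 : 0 < K1
  fp : ∀ x, 0 < D.f x
  mg0 : 0 < mg
  mg1 : mg ≤ 1 / 2
  a0 : mg ≤ D.a
  aU : D.a * (1 - 2 * D.η) + mg ≤ D.a'
  a1 : D.a' + mg ≤ 1
  η0 : 0 < D.η
  η1 : 2 * D.η ≤ mg
  xa0 : 0 ≤ D.xa
  xa1 : (1 + D.a / ((1 - D.a') * (1 - mg))) * D.xa ≤ 1 - mg
  b00 : 0 ≤ D.b0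
  b01 : D.b0 ≤ 1
  e0 : 0 < D.ε
  cv : 1 ≤ CV
  c0 : 0 ≤ C0
  sm : 3 * CV * D.P * D.ς ≤ D.ε
  sfa : ∀ ρ, D.Rad ρ → SF D.J D.y D.C (rw D.J D.C D.ι) D.V (dv D.J D.y D.V) (XM D.ι D.xa)
    (fun _ => D.xa) (C0 * D.xa) CV D.ε ρ
  sf0 : ∀ ρ, D.Rad ρ → SF D.J D.y D.C (rw D.J D.C D.ι) D.V0 (dv D.J D.y D.V0) (XM D.ι D.b0)
    (fun _ => D.b0) (C0 * D.b0) CV D.ε ρ
  eqa : ∀ c, sq c ≤ D.R → D.Sm (fun x => c ⬝ᵥ (dv D.J D.y D.V x -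
    (D.a • D.φ x + (D.h x - D.xa • D.s x - D.ka)))) (D.B0 + sq c)
  eq0 : ∀ ρ, D.Rad ρ → ∀ f, Bd ρ f →
    D.Sm (fun x => f x ⬝ᵥ (dv D.J D.y D.V0 x - (D.h x - D.b0 • D.s x - D.k0))) (ρ ^ 2)
  cen : ∀ ρ, D.Rad ρ → ∀ c, sq c ≤ ρ ^ 2 → (∃ gb, Cen D.J D.y D.V (D.ψ c) gb D.ε ρ D.B0) ∧
    ∃ gb, Cen D.J D.y D.V0 (D.ψ c) gb D.ε ρ D.B0
  lipφ : ∀ c x, nrm (grad (fun y => c ⬝ᵥ D.φ y) x) ≤ CV * nrm c
  trφ : ∀ c, sq c ≤ D.R → ∀ v, Wt v →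
    |mean v (fun x => c ⬝ᵥ D.φ x) - mean D.μ fun x => c ⬝ᵥ D.φ x| ≤ K1 * (D.B0 + sq c) + kl v D.μ / 8
  gf : ∀ c, sq c ≤ D.R → D.Sm
    (fun x => ∑ j ∈ D.C, (grad (fun y => c ⬝ᵥ D.φ y) x j - Vf D.V c x j) ^ 2) (D.B0 + sq c)
  osc : ∀ c, sq c ≤ D.R → ∃ g, D.Sm g (D.B0 + sq c) ∧ ∀ x x' : Cube n,
    (∀ i, (∀ k, D.ι k ≠ i) → x' i = x i) → D.Θ x + c ⬝ᵥ D.φ x - (D.Θ x' + c ⬝ᵥ D.φ x') ≤ g x
  lipΘ : Lip2 D.L D.Θ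
  excΘ : ∀ v, Wt v → mean v (fun x => exc D.ε (grad D.Θ x)) ≤ D.ε ^ 2 * (D.B0 + kl v D.μ)
  b1 : 1 ≤ D.B0
  bU : (D.Cᶜ.card : ℝ) ≤ D.B0
  bd : sq D.dl + sq D.del + D.L ^ 2 ≤ D.B0
  bk : kl D.ν D.μ ≤ D.B0
  bu : mean D.ν D.U ≤ D.B0
  sz : ∀ x, prob D.ν x ≤ exp D.Dh * prob D.μ x
  bD : D.B0 ≤ D.Dh

end Dat


/-- **HC**: concentration of linear features -/
def HcStmt : Prop := ∀ (n : ℕ) (κ : Type) [Fintype κ] (w : Cube n → ℝ) (K : ℝ)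
    (gk : κ → Fin n → ℝ), (∀ x, 0 < w x) → H1 w K → 0 < K →
  (∀ c : κ → ℝ, nrm (∑ k, c k • gk k) ≤ 3 * nrm c) →
  mean w (fun x => exp (sq (hG gk x - meanV w (hG gk)) / (288 * K))) ≤ exp (Fintype.card κ) ∧
  ∀ v, Wt v → mean v (fun x => sq (hG gk x - meanV w (hG gk))) ≤ 288 * K * (Fintype.card κ + kl v w)

/-- **FLD**: the local fields of a reference weight -/
def FldStmt : Prop := ∀ (n : ℕ) (κ : Type) [Fintype κ] [DecidableEq κ] (D : Dat n κ), D.Geo →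
  ∀ p z t, 0 ≤ p → p ≤ D.P → (∀ x, ∀ j ∈ D.C, D.ζ p z t x j = 0) ∧
    (∀ x b (f : κ → ℝ), D.ζ p z t x ⬝ᵥ XM D.ι b *ᵥ f = b * ((z - p • D.h x - (1 - t) • D.s x) ⬝ᵥ f)) ∧
    ∃ ψ' : Cube n → Fin n → ℝ, (∀ x, nrm (ψ' x) ≤ 3 * D.P * D.ς * √(D.Cᶜ.card)) ∧
      ∀ c m mh w v, D.Ref p z c m t mh w → (∀ x, w x = 0 → v x = 0) →
        Wt w ∧ Fld D.J D.y D.C v w fun x => D.ψ c x + D.J *ᵥ D.ζ p z t x + ψ' x

/-- **KB**: the budgets of a reference weight -/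
def KbStmt : Prop := ∀ P K1 : ℝ, ∃ M ≥ (1 : ℝ), ∀ (n : ℕ) (κ : Type) [Fintype κ] [DecidableEq κ]
    (D : Dat n κ) (mg C0 CV : ℝ), D.Ok mg C0 CV K1 → D.P = P →
  ∀ p z c m t mh w v, 0 ≤ p → p ≤ P → 0 ≤ t → t ≤ 1 → (t = 1 ∨ p = P) → sq c ≤ D.R →
    D.Ref p z c m t mh w → Pr v w → kl w D.μ + kl v w + mean w (fun x => sq (D.ζ p z t x) + sq (D.h x - D.xb)) +
      mean v (fun x => sq (D.ζ p z t x)) + sq (dM v w D.h) + sq (dM v w D.s) ≤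
        M * (D.bv p z v + sq c + sq m + (1 - t) * sq (mh - D.xb)) ∧
      (∀ x, sq (D.ψ c x) ≤ 6 * CV ^ 2 * (D.B0 + sq c)) ∧ D.bud 0 0 ≤ M * D.B0

/-- **TAIL**: the final majorant of the budget -/
def TailStmt : Prop := ∀ P K1 : ℝ, ∃ M ≥ (1 : ℝ), ∀ (n : ℕ) (κ : Type) [Fintype κ] [DecidableEq κ]
    (D : Dat n κ) (mg C0 CV : ℝ), D.Ok mg C0 CV K1 → D.P = P →
  (∀ x, XG (D.Fn x)) ∧ (∀ p z, 0 ≤ p → p ≤ P → D.bud p z ≤ cE D.h D.ν P D.Fn p z) ∧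
    slE D.h D.ν P D.Fn ≤ M * D.B0 ∧
    ∀ Λ, M * D.Dh ≤ Λ → slE D.h D.ν P (fun x u => max (D.Fn x u - Λ) 0) ≤ M * exp (-D.Dh)

/-- **HD, FZ, CNT**: first and second order of a tilt at a state of the burst -/
def HdStmt : Prop := ∃ K ≥ (1 : ℝ), ∀ P K1 η t : ℝ, 0 < η → 0 < t → t ≤ 1 → ∃ Ms ≥ (1 : ℝ),
  ∀ CV : ℝ, ∃ M ≥ (1 : ℝ), ∀ (n : ℕ) (κ : Type) [Fintype κ] [DecidableEq κ] (D : Dat n κ) (mg C0 : ℝ),
    D.Ok mg C0 CV K1 → D.P = P → D.η = η → Ms * D.e ≤ 1 → M * D.ε ≤ D.e →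
    ∀ p z c m c' m' ρ v w, 0 ≤ p → p ≤ P → D.Rad ρ →
    sq c ≤ ρ ^ 2 → sq c' ≤ ρ ^ 2 → v = D.vp p z → w = D.W p z c m →
    dr D.r D.a v w (fun x => c' ⬝ᵥ D.φ x) ≤ -((1 + p * D.xa) * (c' ⬝ᵥ dM v w D.h)) +
        D.xa * (c' ⬝ᵥ dM v w D.s) + t * D.AC v w (D.lp p z) + Ms * D.e * (ρ ^ 2 + D.bud p z + sq m) ∧
      Ar D.r v (D.W p z (c + c') (m + m')) - D.a * kl v (D.W p z (c + c') (m + m')) ≤
        Ar D.r v w - D.a * kl v w + dr D.r D.a v w (fun x => c' ⬝ᵥ D.φ x) + D.a * (m' ⬝ᵥ dM v w D.s) +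
          K * C0 * D.xa * sq c' + Ms * D.e * (ρ ^ 2 + D.bud p z + sq m) ∧
      Ar D.r v (D.W p z (c + c') (m + m')) ≤
        2 * Ar D.r v w + K * C0 * D.xa * sq c' + Ms * D.e * (ρ ^ 2 + D.bud p z + sq m) ∧
      Cnt (D.ug c') v ≤ K * C0 * D.xa * sq c' +
        Ms * D.e * (D.AC v w (D.lp p z) + ρ ^ 2 + D.bud p z + sq m)


/-- **CV**: static conversion on `T`, pinned sites, supermartingales -/
def CvStmt : Prop := ∀ (n : ℕ) (κ : Type) [Fintype κ] [DecidableEq κ] (D : Dat n κ) (mg C0 CV K1 : ℝ),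
  D.Ok mg C0 CV K1 → 256 * D.ε ≤ mg * D.η →
  (∀ k, 0 ≤ k → (1 - 2 * D.η) * ((1 + k) * D.AC D.ν D.pw D.l + D.AT ((1 - D.a') * (1 - mg)) D.ν D.pw) ≤
    (1 + k) * D.AA D.ν D.pw D.l + 8 / mg * sq D.del + 32 / mg * D.ε * D.B0) ∧
  (∀ z c m, (∀ σ, kl (cut (D.vp D.P z) D.bT σ) (cut (D.W D.P z c 0) D.bT σ) =
      kl (cut (D.vp D.P z) D.bT σ) (cut (D.W D.P z c m) D.bT σ)) ∧
    ∑ σ, push (D.vp D.P z) D.bT σ * D.AA (cut (D.vp D.P z) D.bT σ) (cut (D.W D.P z c 0) D.bT σ)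
      (cut (D.lp D.P z) D.bT σ) = (1 - 2 * D.η) * D.AC (D.vp D.P z) (D.W D.P z c m) (D.lp D.P z) ∧
    ∑ σ, push (D.vp D.P z) D.bT σ * Cnt (D.ug c) (cut (D.vp D.P z) D.bT σ) =
      Cnt (D.ug c) (D.vp D.P z)) ∧
  (∀ c m, SM D.h D.ν D.P fun p z => Ar D.r (D.vp p z) (D.W p z c m)) ∧
  SM D.h D.ν D.P (fun p z => Ue.El D.lw (D.vp p z) (D.lp p z)) ∧
  (∀ β, SM D.h D.ν D.P fun p z => D.AT β (D.vp p z) (post D.h D.pw p z)) ∧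
  (∀ p z c m, Pr (D.vp p z) (D.W p z c m) ∧ 0 ≤ Ar D.r (D.vp p z) (D.W p z c m) ∧
    0 ≤ Ue.El D.lw (D.vp p z) (D.lp p z) ∧ Cnt (D.ug c) (D.vp p z) ≤ CV ^ 2 * sq c) ∧
  Off D.r ∧ (∀ j x, 0 ≤ D.r j x ∧ D.r j x ≤ 1) ∧
  ∀ j x k, D.r j x * grad (fun y => D.s y k) x j = 0

def KbGlue : Prop := HcStmt → KbStmt
def TailGlue : Prop := SMStmt → HcStmt → TailStmt
def HdGlue : Prop := Hs1Stmt → ChiStmt → FldStmt → KbStmt → HdStmt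

end Crest.Agent.T157.Br
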