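import Crest.Agent.T157.BrActA_50
import Crest.Agent.T157.BrDefB_50
import Crest.Agent.T157.BrChi_58
import Crest.Agent.T157.DaGr_82
import Crest.Agent.T157.S1BpDef_30
import Crest.Agent.T157.S1W_6

-- ▼ part T157/BrActB_50
section

/-!
# Row 157, block B, S1: the glue of the act B, initial tilt and assembly (helper50)
-/

set_option autoImplicit false
set_option linter.unusedVariables false
set_option linter.unusedSectionVars false

noncomputable section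

namespace Crest.Agent.T157.Br.Act50

open Real Matrix Function
open Crest.Agent.T157.E Crest.Agent.T157.SL Crest.Agent.T157.Ta
open Crest.Agent.T157.Rec (grad)
open Crest.Agent.T157.Br.Sm54

variable {n : ℕ} {κ : Type} [Fintype κ] [DecidableEq κ] {D : Dat n κ}
  {mg C0 CV K1 KC Mk Mt Mh M4 t k : ℝ}

lemma vp00 : D.vp 0 0 = D.ν := post00 _
lemma lp00 : D.lp 0 0 = D.l := post00 _
lemma W00 : D.W 0 0 0 0 = D.pw := (W_zero 0 0).trans (post00 _)

lemma xg_max {F : (κ → ℝ) → ℝ} (h : XG F) (c : ℝ) : XG fun y => max (F y - c) 0 :=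
  .of_mg ((h.mg.sub (.const c)).of_le ((h.mg.sub (.const c)).meas.max measurable_const) fun g => by
    rcases le_total (F g - c) 0 with h | h <;> simp [h])

variable (H : Cx D mg C0 CV K1 KC Mk Mt Mh M4 t k)
include H

/-- the initial tilt -/
lemma init {k0 : ℝ} {d δ c0 m0 : κ → ℝ} (hd : d = dM D.ν D.pw D.h) (hδ : δ = dM D.ν D.pw D.s)
    (hc : c0 = k0 • d) (hm : m0 = (-(D.xa * k0 / D.a)) • d + (-k0) • δ) (k1 : 0 ≤ k0)
    (k2 : 2 * k0 ≤ mg) (b0 : D.bud 0 0 ≤ Mk * D.B0) (hR : Mk ^ 2 * D.B0 ≤ D.R) :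
    sq c0 + sq m0 ≤ Mk ^ 2 * D.B0 ∧ sq c0 ≤ k0 ^ 2 * (sq d + sq δ) ∧
      sq m0 ≤ 2 * k0 ^ 2 / mg ^ 2 * (sq d + sq δ) ∧
      Ar D.r D.ν (D.W 0 0 c0 m0) - D.a * kl D.ν (D.W 0 0 c0 m0) ≤
        Ar D.r D.ν D.pw - D.a * kl D.ν D.pw - mg * k0 * (sq d + sq δ) + KC * k0 ^ 2 * (sq d + sq δ) +
          t * D.AC D.ν D.pw D.l + 4 * Mh * Mk ^ 2 * D.e * D.B0 ∧
      Ar D.r D.ν (D.W 0 0 c0 m0) ≤
        2 * Ar D.r D.ν D.pw + KC * k0 ^ 2 * (sq d + sq δ) + 2 * Mh * Mk ^ 2 * D.e * D.B0 := by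
  have m0' := H.ok.mg0
  have m1 := H.ok.mg1
  have a0 := a_pos H.ok
  have b1 := H.ok.b1
  have M1 := H.Mk1
  have d0 := sq_nn d
  have δ0 := sq_nn δ
  have P0 : 0 ≤ D.P := by linarith [H.ok.P1]
  have B1 : D.B0 ≤ Mk * D.B0 := le_mul_of_one_le_left (by linarith) M1
  have B2 : Mk * D.B0 ≤ Mk ^ 2 * D.B0 := by
    rw [pow_two, mul_assoc]; exact le_mul_of_one_le_left (by linarith) M1
  have kb := H.kb 0 0 0 0 le_rfl P0 (by rw [sq_zero]; linarith)
  have kn := (H.pr 0 0 0 0).kl_nonneg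
  rw [vp00, W00] at kb kn
  rw [sq_zero, add_zero, add_zero, ← hd, ← hδ] at kb
  have X1 : sq d + sq δ ≤ Mk ^ 2 * D.B0 := by
    have := mul_le_mul_of_nonneg_left b0 (by linarith : 0 ≤ Mk)
    linarith
  have s1 : sq c0 = k0 ^ 2 * sq d := by rw [hc, sq_smul]
  have q1 : k0 ^ 2 ≤ k0 ^ 2 / mg ^ 2 := by
    rw [le_div_iff₀ (by positivity)]
    exact mul_le_of_le_one_right (sq_nonneg _) (pow_le_one₀ m0'.le (by linarith))
  have q2 : k0 ^ 2 / mg ^ 2 ≤ 1 / 4 := by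
    rw [div_le_iff₀ (by positivity)]; nlinarith
  have s2 : sq m0 ≤ 2 * k0 ^ 2 / mg ^ 2 * (sq d + sq δ) := by
    have u := sq_add2 ((-(D.xa * k0 / D.a)) • d) ((-k0) • δ)
    rw [← hm, sq_smul, sq_smul, neg_sq, neg_sq] at u
    have u1 : (D.xa * k0 / D.a) ^ 2 ≤ k0 ^ 2 / mg ^ 2 := by
      rw [← div_pow]
      refine pow_le_pow_left₀ (by have := H.ok.xa0; positivity) ?_ 2
      exact div_le_div₀ k1 (mul_le_of_le_one_left k1 (xa_le H.ok)) m0' H.ok.a0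
    have u2 := mul_le_mul_of_nonneg_right u1 d0
    have u3 := mul_le_mul_of_nonneg_right q1 δ0
    rw [mul_div_assoc]
    linarith
  have s3 : sq c0 ≤ k0 ^ 2 * (sq d + sq δ) := by rw [s1]; nlinarith [sq_nonneg k0]
  have s4 : sq c0 + sq m0 ≤ Mk ^ 2 * D.B0 := by
    have u1 := mul_le_mul_of_nonneg_right (q1.trans q2) (add_nonneg d0 δ0)
    have u2 := mul_le_mul_of_nonneg_right q2 (add_nonneg d0 δ0)
    rw [mul_div_assoc] at s2
    linarith
  have e : √(Mk ^ 2 * D.B0) ^ 2 = Mk ^ 2 * D.B0 := sq_sqrt (by linarith)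
  obtain ⟨h1, h2, h3, -⟩ := H.hd 0 0 0 0 c0 m0 √(Mk ^ 2 * D.B0) _ _ le_rfl P0
    ⟨sqrt_nonneg _, by rw [e]; linarith, by rw [e]; exact hR⟩ (by rw [e, sq_zero]; linarith)
    (by rw [e]; linarith [sq_nn m0]) vp00.symm W00.symm
  rw [e, sq_zero, zero_add, zero_add] at h2 h3
  rw [e, sq_zero, lp00, ← hd, ← hδ] at h1
  rw [← hδ] at h2
  have E0 : 0 ≤ Mh * D.e := mul_nonneg H.Mh0 H.e0
  have w1 : Mh * D.e * (Mk ^ 2 * D.B0 + D.bud 0 0 + 0) ≤ Mh * D.e * (2 * (Mk ^ 2 * D.B0)) :=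
    mul_le_mul_of_nonneg_left (by linarith) E0
  have w2 : KC * D.xa * sq c0 ≤ KC * k0 ^ 2 * (sq d + sq δ) := by
    rw [mul_assoc, mul_assoc]
    exact mul_le_mul_of_nonneg_left ((mul_le_of_le_one_left (sq_nn _) (xa_le H.ok)).trans s3) H.KC0
  have e1 : c0 ⬝ᵥ d = k0 * sq d := by rw [hc, smul_dotProduct, smul_eq_mul, sq]
  have e2 : D.a * (m0 ⬝ᵥ δ) = -(D.xa * (c0 ⬝ᵥ δ)) - D.a * k0 * sq δ := by
    rw [hc, hm, add_dotProduct, smul_dotProduct, smul_dotProduct, smul_dotProduct, sq]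
    simp only [smul_eq_mul]
    field_simp
    ring
  have w3 : mg * k0 * sq d ≤ k0 * sq d := by
    rw [mul_assoc]; exact mul_le_of_le_one_left (by positivity) (by linarith)
  have w4 : mg * k0 * sq δ ≤ D.a * k0 * sq δ := by
    rw [mul_assoc, mul_assoc]; exact mul_le_mul_of_nonneg_right H.ok.a0 (by positivity)
  rw [e1] at h1
  rw [e2] at h2
  exact ⟨s4, s3, s2, by linarith, by linarith⟩

/-- the act in normalised units -/
lemma core (hB : BurstStmt) {s γ1 γ2 cc k0 τ : ℝ} {ξ : (κ → Bool) → (κ → ℝ) → ℝ}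
    (k1 : 0 ≤ k0) (k2 : 2 * k0 ≤ mg) (k3 : k0 * (20 / mg ^ 4 + 2 * KC + 8) ≤ mg / 2)
    (hk : 0 ≤ k) (hτ : D.P * t = τ) (τ1 : 16 * τ ≤ k) (τ2 : 64 * τ * KC ≤ mg) (τ3 : 4 * τ ≤ 1)
    (c1 : cc ≤ 1) (c2 : 384 * cc ≤ mg)
    (e1 : 32 * (M4 * Mk * D.e * N1 mg D.P) ≤ mg) (e2 : 32 * (D.P * (4 * Mh * Mk * D.e * N1 mg D.P)) ≤ mg)
    (b0 : D.bud 0 0 ≤ Mk * D.B0) (hR : T1 Mk mg D.P * (2 * Mt * D.Dh) ≤ D.R)
    (hF : ∀ x, XG (D.Fn x)) (t1 : slE D.h D.ν D.P D.Fn ≤ Mt * D.B0)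
    (t2 : slE D.h D.ν D.P (fun x u => max (D.Fn x u - Mt * D.Dh) 0) ≤ Mt * exp (-D.Dh))
    (cv : ∀ z c m, (∀ σ, kl (cut (D.vp D.P z) D.bT σ) (cut (D.W D.P z c 0) D.bT σ) =
      kl (cut (D.vp D.P z) D.bT σ) (cut (D.W D.P z c m) D.bT σ)) ∧
      ∑ σ, push (D.vp D.P z) D.bT σ * D.AA (cut (D.vp D.P z) D.bT σ) (cut (D.W D.P z c 0) D.bT σ)
        (cut (D.lp D.P z) D.bT σ) = (1 - 2 * D.η) * D.AC (D.vp D.P z) (D.W D.P z c m) (D.lp D.P z))
    (sA : ∀ c m, SM D.h D.ν D.P fun p z => Ar D.r (D.vp p z) (D.W p z c m))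
    (sE : SM D.h D.ν D.P fun p z => Ue.El D.lw (D.vp p z) (D.lp p z))
    (sT : ∀ β, SM D.h D.ν D.P fun p z => D.AT β (D.vp p z) (post D.h D.pw p z))
    (r0 : Off D.r) (r2 : ∀ j x, 0 ≤ D.r j x ∧ D.r j x ≤ 1)
    (r3 : ∀ j x k, D.r j x * grad (fun y => D.s y k) x j = 0)
    (g0 : 0 ≤ γ1) (g1 : D.P * γ1 ≤ cc) (g2 : 0 ≤ γ2) (g3 : γ2 ≤ cc) (hξ : ∀ σ, XG (ξ σ))
    (hS : ∀ z c σ v w, sq c ≤ D.R → v = cut (D.vp D.P z) D.bT σ → w = cut (D.W D.P z c 0) D.bT σ →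
      -s ≤ (1 - k) * D.AA v w (cut (D.lp D.P z) D.bT σ) - D.a * (1 - 2 * D.η) * kl v w + γ1 * sq c +
        γ2 * (D.xa * sq c) + ξ σ z) :
    -(s / (1 - 2 * D.η)) ≤ (1 + k) * D.AC D.ν D.pw D.l + D.AT ((1 - D.a') * (1 - mg)) D.ν D.pw -
      D.a * kl D.ν D.pw - mg * k0 / 2 * (sq (dM D.ν D.pw D.h) + sq (dM D.ν D.pw D.s)) +
      (6 * Mh * Mk ^ 2 + (M4 + 8 * D.P * Mh) * Mk * G1 Mk * Mt) * D.e * D.B0 +
      (2 + 4 * D.P) * T1 Mk mg D.P * Mt * exp (-D.Dh) +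
      1 / (1 - 2 * D.η) * slE D.h D.ν D.P fun x u => ξ (D.bT x) u := by
  have m0' := H.ok.mg0
  have a0 := a_pos H.ok
  have a1 := a_le H.ok
  have b1 := H.ok.b1
  have bD := H.ok.bD
  have M1 := H.Mk1
  have Mt1 := H.Mt1
  have Mh0 := H.Mh0
  have M40 := H.M40
  have KC0 := H.KC0
  have e0 := H.e0
  have t0 := H.t0
  have P1 := H.ok.P1
  have P0 : 0 ≤ D.P := by linarith
  have N0 : 0 ≤ N1 mg D.P := N1_nn P0
  have G0 : 0 ≤ G1 Mk := by unfold G1; positivity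
  have L0 : 0 ≤ Lg Mk mg D.P := by unfold Lg; positivity
  have T0 := T1_nn H
  have cc0 : 0 ≤ cc := g2.trans g3
  have τ0 : 0 ≤ τ := by rw [← hτ]; positivity
  have hΛ : D.B0 ≤ 2 * Mt * D.Dh := by nlinarith
  have hR' : Mk ^ 2 * D.B0 ≤ D.R := by
    refine le_trans ?_ hR
    refine mul_le_mul ?_ hΛ (by linarith) T0
    have u1 : Mk ^ 2 ≤ Lg Mk mg D.P := by
      have : Mk ^ 2 ≤ G1 Mk + N1 mg D.P := by unfold G1; nlinarith
      exact this.trans (le_mul_of_one_le_left (by linarith) M1)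
    exact u1.trans (le_mul_of_one_le_right L0 (one_le_exp (by positivity)))
  obtain ⟨i0, i1, i2, i3, i4⟩ := init H rfl rfl rfl rfl k1 k2 b0 hR'
  set d := dM D.ν D.pw D.h
  set δ := dM D.ν D.pw D.s
  set c0 := k0 • d
  set m0 := (-(D.xa * k0 / D.a)) • d + (-k0) • δ
  obtain ⟨ρ0, -, ρ2⟩ := rR_bd H
  have pr := H.pr 0 0 c0 m0
  rw [vp00] at pr
  have hv := pr.hv
  have r1' := (r1 H.ok).1
  have hT : ∀ x, XG fun y => max (D.Fn x y - 2 * Mt * D.Dh / 2) 0 := fun x => xg_max (hF x) _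
  have B := hB n κ D.r D.ν (D.W 0 0 c0 m0) D.h D.φ D.s D.a D.xa ((1 + mg / 4) * rR D mg) D.P
    (12 * cc + M4 * Mk * D.e * N1 mg D.P) (2 * t * KC + 4 * Mh * Mk * D.e * N1 mg D.P)
    (Lg Mk mg D.P) (2 * Mt * D.Dh) (s / (1 - 2 * D.η))
    (Xf D mg Mk M4 cc (2 * Mt * D.Dh) c0 m0 ξ) (Zf D mg Mk Mh t (2 * Mt * D.Dh) c0 m0)
    pr r0 r2 r3 a0 H.ok.xa0 (xa_le H.ok) (by positivity) P0 (by positivity) (by positivity) L0
    (by linarith) (by
      have u : 12 * cc + M4 * Mk * D.e * N1 mg D.P +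
          D.P * (2 * t * KC + 4 * Mh * Mk * D.e * N1 mg D.P) ≤ mg / 8 := by
        have : D.P * (2 * t * KC) = 2 * τ * KC := by rw [← hτ]; ring
        linarith
      have := mul_le_mul a1 u (by positivity) zero_le_one
      linarith)
    (sm_add (sm_add (sm_add (sm_add' (sm_add (sm_const hv _) sE (cl_nn H.ok)) (sT _))
      (sm_cE hv hF) (by positivity)) (sm_cE hv hT) (by positivity))
      (sm_cE hv fun x => hξ (D.bT x)) (by positivity))
    (sm_add (sm_add (sm_add (sm_smul hv (sA c0 m0) (by positivity)) sE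
      (mul_nonneg t0 (cl_nn H.ok))) (sm_cE hv hF) (by positivity)) (sm_cE hv hT) (by positivity))
    (Zf_nn H _ c0 m0)
    (fun p z cb m I p0 p1 hI V W d' hV hW hd => by
      rw [W_W] at hW
      subst hV hW
      exact dich H hI p0 p1 i0 hΛ hR hd)
    (fun z cb m I hI => by
      rw [W_W]
      exact term H hI i0 hΛ hR hk g0 g1 g2 g3 (cv z) (hS z))
  have c00 : ∀ F : Cube n → (κ → ℝ) → ℝ, cE D.h D.ν D.P F 0 0 = slE D.h D.ν D.P F := fun F => by
    simp [cE, post00]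
  have eΛ : 2 * Mt * D.Dh / 2 = Mt * D.Dh := by ring
  simp only [Xf, Zf, c00, vp00, lp00, post00, eΛ] at B
  have nA := H.ar 0 0 0 0
  have nE := mul_nonneg (cl_nn H.ok) (H.el 0 0)
  have nW := H.ar 0 0 c0 m0
  rw [vp00, W00] at nA
  rw [vp00, lp00] at nE
  rw [vp00] at nW
  have eA : D.AC D.ν D.pw D.l = Ar D.r D.ν D.pw + cl D * Ue.El D.lw D.ν D.l := rfl
  have nF : 0 ≤ slE D.h D.ν D.P D.Fn := slE_nonneg hv (Fn_nn H)
  have nT : 0 ≤ slE D.h D.ν D.P fun x u => max (D.Fn x u - Mt * D.Dh) 0 :=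
    slE_nonneg hv fun _ _ => le_max_right _ _
  have X0 : 0 ≤ sq d + sq δ := add_nonneg (sq_nn d) (sq_nn δ)
  have tτ : t ≤ τ := by rw [← hτ]; exact le_mul_of_one_le_left t0 P1
  rw [eA] at i3 ⊢
  generalize Ar D.r D.ν (D.W 0 0 c0 m0) = A1 at *
  generalize Ar D.r D.ν D.pw = A0 at *
  generalize Ue.El D.lw D.ν D.l = E0 at *
  generalize slE D.h D.ν D.P D.Fn = F0 at *
  generalize (slE D.h D.ν D.P fun x u => max (D.Fn x u - Mt * D.Dh) 0) = F1 at *
  generalize sq d + sq δ = X at *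
  have z1 : (1 + D.a) * D.P * (2 * t * A1 + t * cl D * E0 + 4 * Mh * Mk * D.e * G1 Mk * F0 +
      2 * T1 Mk mg D.P * F1) ≤ 2 * D.P * (2 * t * A1 + t * cl D * E0 +
        4 * Mh * Mk * D.e * G1 Mk * F0 + 2 * T1 Mk mg D.P * F1) := by
    refine mul_le_mul_of_nonneg_right (mul_le_mul_of_nonneg_right (by linarith) P0) ?_
    have := mul_nonneg t0 nE
    have : 0 ≤ 2 * t * A1 := by positivity
    have : 0 ≤ 4 * Mh * Mk * D.e * G1 Mk * F0 := by positivity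
    have : 0 ≤ 2 * T1 Mk mg D.P * F1 := by positivity
    linarith
  have z2 : 2 * D.P * (2 * t * A1 + t * cl D * E0) = 4 * τ * A1 + 2 * τ * (cl D * E0) := by
    rw [← hτ]; ring
  have z3 := mul_le_mul_of_nonneg_left i4 (by positivity : 0 ≤ 4 * τ)
  have z4 := mul_le_of_le_one_left (by positivity : 0 ≤ KC * k0 ^ 2 * X + 2 * Mh * Mk ^ 2 * D.e * D.B0) τ3
  have z5 := mul_le_mul_of_nonneg_right τ1 nA
  have z6 := mul_le_mul_of_nonneg_right τ1 nE
  have z7 := mul_le_mul_of_nonneg_right tτ (add_nonneg nA nE)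
  have z8 := mul_nonneg τ0 nA
  have z9 := mul_nonneg τ0 nE
  have y1 := mul_le_mul_of_nonneg_left t1 (by positivity : 0 ≤ (M4 + 8 * D.P * Mh) * Mk * G1 Mk * D.e)
  have y2 := mul_le_mul_of_nonneg_left t2 (by positivity : 0 ≤ (2 + 4 * D.P) * T1 Mk mg D.P)
  have y3 : 10 / mg ^ 2 * sq m0 ≤ 20 / mg ^ 4 * k0 ^ 2 * X :=
    (mul_le_mul_of_nonneg_left i2 (by positivity)).trans_eq (by field_simp; ring)
  have y4 : 8 * cc * sq c0 ≤ 8 * (k0 ^ 2 * X) := by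
    have := mul_le_of_le_one_left (sq_nn c0) c1
    linarith
  have y5 := mul_le_mul_of_nonneg_right k3 (mul_nonneg k1 X0)
  linarith

end Crest.Agent.T157.Br.Act50
end
end

-- ▼ part T157/BrHdA_71
section

/-!
# Row 157, block B, S1 (helper71): dictionary for the states of the burst
-/

set_option autoImplicit false
set_option linter.unusedSectionVars false

noncomputable section

namespace Crest.Agent.T157.Br.Hd71

open Real Matrix Function
open Crest.Agent.T157.E Crest.Agent.T157.SL Crest.Agent.T157.Ta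
open Crest.Agent.T157.Rec (grad)
open Crest.Agent.T157.Eig (nrm opn)
open Crest.Agent.T157.S3 (Dg)

variable {n : ℕ} {κ : Type} [Fintype κ] [DecidableEq κ] {D : Dat n κ} {mg C0 CV K1 : ℝ}

lemma sq_nn (u : κ → ℝ) : 0 ≤ sq u := Finset.sum_nonneg fun _ _ => mul_self_nonneg _

lemma sq_neg (u : κ → ℝ) : sq (-u) = sq u := by simp [sq]

lemma sq_add (u u' : κ → ℝ) : sq (u + u') ≤ 2 * sq u + 2 * sq u' := by
  have := sq_nn (u - u')
  simp only [sq, add_dotProduct, dotProduct_add, sub_dotProduct, dotProduct_sub,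
    dotProduct_comm u' u] at this ⊢
  linarith

lemma sq_add3 (a b c : κ → ℝ) : sq (a + b + c) ≤ 3 * (sq a + sq b + sq c) := by
  have h1 := sq_nn (a - b)
  have h2 := sq_nn (a - c)
  have h3 := sq_nn (b - c)
  simp only [sq, add_dotProduct, dotProduct_add, sub_dotProduct, dotProduct_sub,
    dotProduct_comm b a, dotProduct_comm c a, dotProduct_comm c b] at h1 h2 h3 ⊢
  linarith

lemma sq_of_nrm {u : κ → ℝ} {r : ℝ} (h : nrm u ≤ r) : sq u ≤ r ^ 2 := by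
  have := pow_le_pow_left₀ (Eig.nrm_nonneg _) h 2
  rwa [Eig.nrm_sq] at this

lemma dq_le (d a b : Fin n → ℝ) (hd : ∀ j, 0 ≤ d j ∧ d j ≤ 1) :
    a ⬝ᵥ (d * a) ≤ 2 * (b ⬝ᵥ (d * b)) + 2 * sq (a - b) := by
  simp only [sq, dotProduct, Finset.mul_sum, ← Finset.sum_add_distrib, Pi.mul_apply, Pi.sub_apply]
  refine Finset.sum_le_sum fun j _ => ?_
  have h1 := mul_nonneg (hd j).1 (sq_nonneg (a j - 2 * b j))
  have h2 := mul_nonneg (sub_nonneg.2 (hd j).2) (sq_nonneg (a j - b j))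
  nlinarith

lemma exc_le (ε : ℝ) (a b : Fin n → ℝ) : exc ε a ≤ 2 * exc ε b + 2 * sq (a - b) := by
  simp only [sq, exc, dotProduct, Finset.mul_sum, ← Finset.sum_add_distrib, Pi.sub_apply]
  refine Finset.sum_le_sum fun j _ => ?_
  have h1 : max (|a j| - ε) 0 ≤ max (|b j| - ε) 0 + |a j - b j| := max_le
    (by linarith [le_max_left (|b j| - ε) 0, abs_sub_abs_le_abs_sub (a j) (b j)]) (by positivity)
  have h2 := pow_le_pow_left₀ (le_max_right _ _) h1 2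
  nlinarith [sq_nonneg (max (|b j| - ε) 0 - |a j - b j|), sq_abs (a j - b j)]

lemma exc_nn (ε : ℝ) (a : Fin n → ℝ) : 0 ≤ exc ε a := Finset.sum_nonneg fun _ _ => sq_nonneg _

lemma Dg_mem (J : Matrix (Fin n) (Fin n) ℝ) (y : Fin n → ℝ) (x : Cube n) (j : Fin n) :
    0 ≤ Dg J y x j ∧ Dg J y x j ≤ 1 := ⟨Chi58.Dg_nonneg J y x j, sub_le_self _ (sq_nonneg _)⟩

lemma dq_nn (J : Matrix (Fin n) (Fin n) ℝ) (y : Fin n → ℝ) (x : Cube n) (a : Fin n → ℝ) :
    0 ≤ a ⬝ᵥ (Dg J y x * a) := Finset.sum_nonneg fun j _ => by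
  have := mul_nonneg (Dg_mem J y x j).1 (mul_self_nonneg (a j))
  simp only [Pi.mul_apply]; linarith

lemma sc4 {q q' d e ε : ℝ} (g : ℝ) (hq : |q| ≤ 1) (hq' : |q'| ≤ 1) (hε : 0 < ε) (hd : 0 ≤ d)
    (hs : 1 - q ^ 2 ≤ 7.4 * d + e ^ 2) :
    g ^ 2 * (1 - q' ^ 2) ≤ 8 * Chi58.mj ε d e g + 4 * ε * (|q' - q| * |g|) := by
  have c1 : 0 ≤ d * g ^ 2 := by positivity
  have c2 : 0 ≤ ε ^ 2 * e ^ 2 := by positivity
  have c3 : 0 ≤ Ue.exc ε g ^ 2 := by positivity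
  have c0 : 0 ≤ ε * (|q' - q| * |g|) := by positivity
  unfold Chi58.mj
  rcases le_total |g| (2 * ε) with h | h
  · have b : g ^ 2 ≤ (2 * ε) ^ 2 := by rw [← sq_abs g]; exact pow_le_pow_left₀ (abs_nonneg _) h 2
    have a : 1 - q' ^ 2 ≤ 1 - q ^ 2 + 2 * |q' - q| := by
      have a1 : |q' + q| ≤ 2 := (abs_add_le _ _).trans (by linarith)
      have a2 := mul_le_mul_of_nonneg_right a1 (abs_nonneg (q' - q))
      rw [← abs_mul] at a2
      nlinarith [neg_abs_le ((q' + q) * (q' - q))]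
    have c4 := mul_le_mul_of_nonneg_left (a.trans (add_le_add hs le_rfl)) (sq_nonneg g)
    have c5 := mul_le_mul_of_nonneg_left b (sq_nonneg e)
    have c6 := mul_le_mul_of_nonneg_left h (mul_nonneg (abs_nonneg (q' - q)) (abs_nonneg g))
    rw [mul_assoc, abs_mul_abs_self, ← pow_two] at c6
    nlinarith
  · have b : |g| / 2 ≤ Ue.exc ε g := le_trans (by linarith) (le_max_left _ _)
    have c4 := pow_le_pow_left₀ (by positivity) b 2
    rw [div_pow, sq_abs] at c4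
    nlinarith [mul_nonneg (sq_nonneg g) (sq_nonneg q')]

lemma mu_pos (D : Dat n κ) (x : Cube n) : 0 < D.μ x := exp_pos _

lemma pr_mu (D : Dat n κ) {v : Cube n → ℝ} (hv : Wt v) : Pr v D.μ :=
  ⟨hv, .of_pos (mu_pos D), fun x e => absurd e (mu_pos D x).ne'⟩

lemma wt_l (D : Dat n κ) : Wt D.l := by
  have h : ∀ x, 0 ≤ D.l x := fun x => by
    unfold Dat.l; split_ifs
    exacts [(mul_pos (mu_pos D x) (exp_pos _)).le, le_rfl]
  refine ⟨h, Finset.sum_pos' (fun x _ => h x) ⟨D.x0, Finset.mem_univ _, ?_⟩⟩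
  rw [Dat.l, if_pos fun _ _ => rfl]
  exact mul_pos (mu_pos D _) (exp_pos _)

lemma wt_lp (D : Dat n κ) (p : ℝ) (z : κ → ℝ) : Wt (D.lp p z) := (wt_l D).post _ _ _

lemma vp_eq (D : Dat n κ) (p : ℝ) (z : κ → ℝ) : D.vp p z = fun x => D.lp p z x * D.f x :=
  post_mul _ _ _ _ _

lemma W_eq (D : Dat n κ) (p : ℝ) (z c m : κ → ℝ) : D.W p z c m =
    wt (D.lp p z) fun x => D.del ⬝ᵥ sv x + D.Θ x + c ⬝ᵥ D.φ x + m ⬝ᵥ D.s x := by
  ext x
  simp only [Dat.W, wS, Dat.pw, Dat.lp, wt, post, mul_assoc, ← exp_add]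
  congr 2; ring

lemma W_add (D : Dat n κ) (p : ℝ) (z c m c' m' : κ → ℝ) : D.W p z (c + c') (m + m') =
    wt (D.W p z c m) fun x => c' ⬝ᵥ D.φ x + m' ⬝ᵥ D.s x := by
  simp only [W_eq, wt_add, add_dotProduct]
  congr 1; ext x; ring

lemma ref_W (D : Dat n κ) (p : ℝ) (z c m mh : κ → ℝ) : D.Ref p z c m 1 mh (D.W p z c m) :=
  Or.inl (by simp [Dat.Wp, wt_zero])

lemma pr_lp (hf : ∀ x, 0 < D.f x) (p : ℝ) (z : κ → ℝ) :
    Pr (D.vp p z) (D.lp p z) ∧ Pr (D.lp p z) (D.vp p z) := Ue.pr_mul (wt_lp D p z) hf (vp_eq D p z)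

lemma pr_W (hf : ∀ x, 0 < D.f x) (p : ℝ) (z c m : κ → ℝ) : Pr (D.vp p z) (D.W p z c m) := by
  rw [W_eq]; exact (pr_lp hf p z).1.wt _

lemma grad_s (G : D.Geo) (m : κ → ℝ) (x : Cube n) {j : Fin n} (hj : j ∈ D.C) :
    grad (fun x => m ⬝ᵥ D.s x) x j = 0 := by
  have : ∀ b, D.s (update x j b) = D.s x := fun b => funext fun k => by
    simp only [Dat.s, sT, sv]
    rw [update_of_ne fun e : D.ι k = j => G.off k (by rwa [e])]
  simp only [grad, incr, this, sub_self, zero_div]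

lemma grad_G (G : D.Geo) (c m : κ → ℝ) (x : Cube n) {j : Fin n} (hj : j ∈ D.C) :
    grad (fun x => D.del ⬝ᵥ sv x + D.Θ x + c ⬝ᵥ D.φ x + m ⬝ᵥ D.s x) x j = (D.ψ c x + -D.dl) j := by
  simp only [Dat.ψ, Rec.grad_add, Rec.grad_lin, Pi.add_apply, grad_s G m x hj, Pi.neg_apply]
  ring

lemma off_r (D : Dat n κ) : Off D.r := fun j x b => by
  simp only [Dat.r, Ue.off_rw D.η _ D.f j x b]

lemma r_zero (D : Dat n κ) (j : Fin n) (x : Cube n) (hj : j ∉ D.C) : D.r j x = 0 := if_neg hj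

lemma th_mem (H : D.Ok mg C0 CV K1) :
    0 ≤ Ue.th D.a' ∧ Ue.th D.a' ≤ 1 - 2 * D.η ∧ 1 / 2 ≤ 1 - 2 * D.η :=
  ⟨Ue.th_nonneg _, max_le (by linarith [H.a1, H.η1, H.mg0]) (by linarith [H.η1, H.mg1]),
    by linarith [H.η1, H.mg1]⟩

lemma r_mem (H : D.Ok mg C0 CV K1) (j : Fin n) (x : Cube n) : 0 ≤ D.r j x ∧ D.r j x ≤ 1 := by
  obtain ⟨h1, h2, h3⟩ := th_mem H
  have h4 : 0 < 1 - 2 * D.η := by linarith
  unfold Dat.r Ue.rw
  split_ifs
  exacts [⟨by positivity, (div_le_one h4).2 h2⟩, ⟨by positivity, (div_le_one h4).2 le_rfl⟩,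
    ⟨le_rfl, zero_le_one⟩]

lemma one_sub_r (H : D.Ok mg C0 CV K1) {j : Fin n} (hj : j ∈ D.C) (x : Cube n) :
    1 - D.r j x ≤ (1 - Ue.th D.a') * Ue.Lw D.η D.f j x := by
  obtain ⟨h1, h2, h3⟩ := th_mem H
  have h4 : 0 < 1 - 2 * D.η := by linarith
  rw [Dat.r, if_pos hj]
  unfold Ue.rw Ue.Lw
  split_ifs
  · rw [mul_one, sub_le_sub_iff_left, le_div_iff₀ h4]
    nlinarith [H.η0]
  · rw [div_self h4.ne', sub_self, mul_zero]

lemma lw_nn (D : Dat n κ) (j : Fin n) (x : Cube n) : 0 ≤ D.lw j x := by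
  unfold Dat.lw; split_ifs
  exacts [(Ue.Lw_mem _ _ _ _).1, le_rfl]

lemma card_le (G : D.Geo) : (Fintype.card κ : ℝ) ≤ D.Cᶜ.card := by
  exact_mod_cast Finset.card_le_card_of_injOn D.ι
    (fun k _ => Finset.mem_coe.2 (Finset.mem_compl.2 (G.off k))) G.inj.injOn

lemma sps (H : D.Ok mg C0 CV K1) {ρ : ℝ} (hρ : D.Rad ρ) (he : D.ε ≤ 1) :
    Sps D.J (rw D.J D.C D.ι) CV D.ε ρ D.ς := by
  have s0 := H.s0
  have c0 : 0 ≤ CV * D.ς := mul_nonneg (zero_le_one.trans H.cv) s0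
  refine ⟨H.symm, H.diag, H.op, fun k => ?_, fun j => ?_, s0, H.e0, he, H.cv,
    by nlinarith [H.sm, H.P1], ((card_le H.toGeo).trans H.bU).trans hρ.2.1, hρ.1⟩
  · have h1 := Eig.nrm_mulVec_le D.J (Pi.single (D.ι k) 1)
    rw [Eig.nrm_single, mul_one] at h1
    refine (Eig.nrm_le_iff (by norm_num)).2 (le_trans ?_ (sq_of_nrm (h1.trans H.op)))
    refine Finset.sum_le_sum fun j _ => ?_
    have e : D.J j (D.ι k) = D.J (D.ι k) j := by rw [← transpose_apply D.J, H.symm]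
    simp only [rw, mulVec_single_one, col_apply, e]
    split_ifs
    exacts [le_rfl, by simpa using mul_self_nonneg _]
  · refine le_trans ?_ (H.col j)
    calc ∑ k, rw D.J D.C D.ι k j ^ 2 ≤ ∑ k, D.J (D.ι k) j ^ 2 := Finset.sum_le_sum fun k _ => by
          unfold rw; split_ifs
          exacts [le_rfl, by simpa using sq_nonneg _]
      _ = ∑ i ∈ Finset.univ.image D.ι, D.J i j ^ 2 := by rw [Finset.sum_image H.inj.injOn]
      _ ≤ _ := Finset.sum_le_sum_of_subset_of_nonneg (fun i hi => by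
          obtain ⟨k, -, rfl⟩ := Finset.mem_image.1 hi
          exact Finset.mem_compl.2 (H.off k)) fun _ _ _ => sq_nonneg _

lemma U_nn (G : D.Geo) (x : Cube n) : 0 ≤ D.U x :=
  mul_nonneg (by linarith [G.P1]) (Finset.sum_nonneg fun _ _ => sq_nonneg _)

lemma kl_le_bv (G : D.Geo) (p : ℝ) (z : κ → ℝ) {v : Cube n → ℝ} (hv : Wt v) :
    D.B0 + kl v D.μ ≤ D.bv p z v := by
  have h1 := sq_nn (z - p • D.xb)
  have h2 := hv.mean_nonneg fun x => add_nonneg (U_nn G x) (sq_nn (D.h x - D.xb))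
  unfold Dat.bv; linarith

lemma psi'_le (H : D.Ok mg C0 CV K1) {ρ r : ℝ} (hρ : D.Rad ρ)
    (h : r ≤ 3 * D.P * D.ς * √(D.Cᶜ.card)) : CV * r ≤ D.ε * ρ := by
  have h1 : √(D.Cᶜ.card : ℝ) ≤ ρ := (sqrt_le_iff.2 ⟨hρ.1, H.bU.trans hρ.2.1⟩)
  have h2 := mul_le_mul H.sm h1 (sqrt_nonneg _) H.e0.le
  have h3 := mul_le_mul_of_nonneg_left h (zero_le_one.trans H.cv)
  linarith

end Crest.Agent.T157.Br.Hd71

end
end

-- ▼ part T157/BrHd_71
section

/-!
# Row 157, block B, S1 (helper71): first and second order of a tilt at a state of the burst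
-/

set_option autoImplicit false
set_option linter.unusedSectionVars false

noncomputable section

namespace Crest.Agent.T157.Br

open Real Matrix Function
open Crest.Agent.T157.E Crest.Agent.T157.SL Crest.Agent.T157.Ta
open Crest.Agent.T157.Rec (grad)
open Crest.Agent.T157.Eig (nrm opn)
open Crest.Agent.T157.S3 (Dg)

namespace Hd71

variable {n : ℕ} {κ : Type} [Fintype κ] [DecidableEq κ] {D : Dat n κ} {mg C0 CV K1 : ℝ}

/-- the gradient of the tilt on `C` -/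
def gC (D : Dat n κ) (c : κ → ℝ) (x : Cube n) (j : Fin n) : ℝ :=
  if j ∈ D.C then grad (fun y => c ⬝ᵥ D.φ y) x j else 0

lemma r_mul {F : ℝ → ℝ} (G : D.Geo) (c m : κ → ℝ) (j : Fin n) (x : Cube n) :
    D.r j x * F (grad (fun x => c ⬝ᵥ D.φ x + m ⬝ᵥ D.s x) x j) = D.r j x * F (gC D c x j) := by
  by_cases hj : j ∈ D.C
  · rw [Rec.grad_add, Pi.add_apply, grad_s G m x hj, add_zero, gC, if_pos hj]
  · rw [r_zero D j x hj, zero_mul, zero_mul]

/-- the exact expansion of `A^r` under the tilt -/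
lemma Ar_add (H : D.Ok mg C0 CV K1) (p : ℝ) (z c m c' m' : κ → ℝ) {v w : Cube n → ℝ}
    (hv : v = D.vp p z) (hw : w = D.W p z c m) : Ar D.r v (D.W p z (c + c') (m + m')) =
      Ar D.r v w - mean v (fun x => ∑ j, D.r j x * (gC D c' x j * chi v w j x)) +
        mean v fun x => ∑ j, D.r j x * cg (cm w j x) (gC D c' x j) := by
  have pr : Pr v w := by rw [hv, hw]; exact pr_W H.fp p z c m
  have e := fun j x => r_mul (F := fun g => g * chi v w j x) H.toGeo c' m' j x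
  rw [W_add, ← hw]
  simp only [Ar, As_wt' pr (off_r D _), Finset.sum_add_distrib, Finset.sum_sub_distrib, mean_sum,
    e, r_mul (F := cg (cm w _ _)) H.toGeo]

lemma dr_eq (D : Dat n κ) (c' : κ → ℝ) (v w : Cube n → ℝ) :
    dr D.r D.a v w (fun x => c' ⬝ᵥ D.φ x) =
      -mean v (fun x => ∑ j, D.r j x * (gC D c' x j * chi v w j x)) +
        D.a * (mean v (fun x => c' ⬝ᵥ D.φ x) - mean w fun x => c' ⬝ᵥ D.φ x) := by
  rw [dr, mean_sum]
  congr 3; ext j; congr 1; ext x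
  by_cases hj : j ∈ D.C
  · rw [gC, if_pos hj]
  · rw [r_zero D j x hj, zero_mul, zero_mul]

lemma gC_sub {V : κ → Cube n → Fin n → ℝ} (hV : ∀ k x j, j ∉ D.C → V k x j = 0) (c : κ → ℝ)
    (x : Cube n) : sq (gC D c x - Vf V c x) =
      ∑ j ∈ D.C, (grad (fun y => c ⬝ᵥ D.φ y) x j - Vf V c x j) ^ 2 := by
  rw [sq, dotProduct, ← Finset.sum_subset (Finset.subset_univ D.C) fun j _ hj => by
    simp [gC, hj, Vf, hV _ x j hj]]
  exact Finset.sum_congr rfl fun j hj => by simp only [gC, Pi.sub_apply, if_pos hj]; ring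

/-- the loud edges -/
lemma loud (H : D.Ok mg C0 CV K1) {K t B : ℝ} (p : ℝ) (z c m : κ → ℝ) {v w : Cube n → ℝ}
    (hv : v = D.vp p z) (g : Cube n → Fin n → ℝ)
    (h : mean v (fun x => ∑ j, (if j ∈ D.C then 1 else 0) * Ue.Lw D.η D.f j x *
        (|chi v w j x| * |g x j|)) ≤
      (t / 4 + K * D.ε / D.η ^ 2) *
        Ue.El (fun j x => (if j ∈ D.C then 1 else 0) * Ue.Lw D.η D.f j x) v (D.lp p z) +
      mean v fun x => 2 * D.ε * (∑ j ∈ D.C,
        grad (fun x => D.del ⬝ᵥ sv x + D.Θ x + c ⬝ᵥ D.φ x + m ⬝ᵥ D.s x) x j ^ 2) +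
        1 / D.ε * exc D.ε (g x))
    (ht : 0 < t) (hK : K * D.ε / D.η ^ 2 ≤ t / 4) (hψ : ∀ x, sq (D.ψ c x) ≤ 12 * CV ^ 2 * B)
    (hB : D.B0 ≤ B) :
    mean v (fun x => ∑ j ∈ D.C, (1 - D.r j x) * (|chi v w j x| * |g x j|)) ≤
      t * ((1 - Ue.th D.a') / (2 * (1 - 2 * D.η)) * Ue.El D.lw v (D.lp p z)) +
        52 * CV ^ 2 * D.ε * B + 1 / D.ε * mean v fun x => exc D.ε (g x) := by
  obtain ⟨t0, t1, t2⟩ := th_mem H
  have e0 := H.e0
  have η0 := H.η0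
  have pr := hv ▸ pr_lp H.fp p z
  have e : (fun j x => (if j ∈ D.C then 1 else 0) * Ue.Lw D.η D.f j x) = D.lw := by
    ext j x; unfold Dat.lw; split_ifs <;> simp
  rw [e] at h
  have E0 : 0 ≤ Ue.El D.lw v (D.lp p z) := Ue.El_nonneg pr.1 pr.2 (lw_nn D)
  have cv : 1 ≤ CV ^ 2 := one_le_pow₀ H.cv
  have B0 : 0 ≤ B := zero_le_one.trans (H.b1.trans hB)
  have a1 : mean v (fun x => 2 * D.ε * (∑ j ∈ D.C,
      grad (fun x => D.del ⬝ᵥ sv x + D.Θ x + c ⬝ᵥ D.φ x + m ⬝ᵥ D.s x) x j ^ 2) +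
        1 / D.ε * exc D.ε (g x)) ≤ 52 * CV ^ 2 * D.ε * B + 1 / D.ε * mean v fun x => exc D.ε (g x) := by
    rw [mean_add, mean_const_mul _ _ (1 / D.ε)]
    refine add_le_add (pr.1.hv.mean_le fun x => ?_) le_rfl
    have b1 : ∑ j ∈ D.C, grad (fun x => D.del ⬝ᵥ sv x + D.Θ x + c ⬝ᵥ D.φ x + m ⬝ᵥ D.s x) x j ^ 2 ≤
        sq (D.ψ c x + -D.dl) := by
      rw [Finset.sum_congr rfl fun j hj => by rw [grad_G H.toGeo c m x hj, pow_two]]
      exact Finset.sum_le_sum_of_subset_of_nonneg (Finset.subset_univ _)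
        fun _ _ _ => mul_self_nonneg _
    have b2 := sq_add (D.ψ c x) (-D.dl)
    rw [sq_neg] at b2
    have b3 : sq D.dl ≤ CV ^ 2 * B := by
      have := mul_le_mul_of_nonneg_right cv B0
      linarith [H.bd, sq_nn D.del, sq_nonneg D.L]
    have b4 := mul_le_mul_of_nonneg_left (b1.trans b2) (by positivity : 0 ≤ 2 * D.ε)
    have b5 := mul_le_mul_of_nonneg_left (hψ x) e0.le
    have b6 := mul_le_mul_of_nonneg_left b3 e0.le
    linarith
  have a2 : mean v (fun x => ∑ j ∈ D.C, (1 - D.r j x) * (|chi v w j x| * |g x j|)) ≤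
      (1 - Ue.th D.a') * mean v fun x => ∑ j, (if j ∈ D.C then 1 else 0) * Ue.Lw D.η D.f j x *
        (|chi v w j x| * |g x j|) := by
    rw [← mean_const_mul]
    refine pr.1.hv.mean_mono fun x => ?_
    rw [Finset.mul_sum, ← Finset.sum_subset (Finset.subset_univ D.C) fun j _ hj => by simp [hj]]
    refine Finset.sum_le_sum fun j hj => ?_
    rw [if_pos hj, one_mul, ← mul_assoc (1 - Ue.th D.a')]
    exact mul_le_mul_of_nonneg_right (one_sub_r H hj x) (by positivity)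
  have X0 : 0 ≤ 52 * CV ^ 2 * D.ε * B + 1 / D.ε * mean v fun x => exc D.ε (g x) :=
    add_nonneg (by positivity) (mul_nonneg (by positivity) (pr.1.hv.mean_nonneg fun x => exc_nn _ _))
  have θ1 : 0 ≤ 1 - Ue.th D.a' := by linarith
  have a3 := mul_le_mul_of_nonneg_left (h.trans (add_le_add
    (mul_le_mul_of_nonneg_right (add_le_add le_rfl hK) E0) a1)) θ1
  have a4 := mul_le_mul_of_nonneg_right (show 1 - Ue.th D.a' ≤ 1 by linarith) X0
  have a5 : (1 - Ue.th D.a') / 2 ≤ (1 - Ue.th D.a') / (2 * (1 - 2 * D.η)) :=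
    div_le_div_of_nonneg_left θ1 (by linarith) (by linarith)
  have a6 := mul_le_mul_of_nonneg_left (mul_le_mul_of_nonneg_right a5 E0) ht.le
  linarith

/-- the count -/
lemma cnt (H : D.Ok mg C0 CV K1) (c' : κ → ℝ) {v w : Cube n → ℝ} (pr : Pr v w)
    {E : Cube n → Fin n → ℝ} (hF : Fld D.J D.y D.C v w E) : Cnt (D.ug c') v ≤
      8 * mean v (fun x => gC D c' x ⬝ᵥ (Dg D.J D.y x * gC D c' x) + D.ε ^ 2 * (E x ⬝ᵥ E x) +
        exc D.ε (gC D c' x)) +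
      4 * D.ε * (mean v (fun x => ∑ j, D.r j x * (|chi v w j x| * |gC D c' x j|)) +
        mean v fun x => ∑ j ∈ D.C, (1 - D.r j x) * (|chi v w j x| * |gC D c' x j|)) := by
  simp only [Cnt, Cs, ← mean_sum, ← mean_add, ← mean_const_mul]
  refine mean_mono_supp pr.hv fun x hx => ?_
  rw [Chi58.sum_mj, Finset.sum_subset (s₁ := D.C) (Finset.subset_univ D.C) fun j _ hj => by
    simp [gC, hj], ← Finset.sum_add_distrib, Finset.mul_sum, Finset.mul_sum, ← Finset.sum_add_distrib]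
  refine Finset.sum_le_sum fun j _ => ?_
  by_cases hj : j ∈ D.C
  · have := sc4 (gC D c' x j) (abs_cm_le pr.hw.nn j x) (abs_cm_le pr.hv.nn j x) H.e0
      (Dg_mem D.J D.y x j).1 (Chi58.shift (hF x hx j hj))
    rw [Dat.ug, if_pos hj, chi]
    rw [gC, if_pos hj] at this ⊢
    linarith
  · have := Chi58.mj_nonneg (Dg_mem D.J D.y x j).1 D.ε (E x j) (gC D c' x j)
    rw [Dat.ug, if_neg hj]
    rw [gC, if_neg hj] at this ⊢
    simp only [abs_zero, mul_zero, zero_mul, add_zero]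
    linarith

lemma feat (D : Dat n κ) (p : ℝ) (z c' : κ → ℝ) {u : Cube n → ℝ} (hu : Wt u)
    {ζ : Cube n → Fin n → ℝ} (hζ : ∀ x, ζ x ⬝ᵥ XM D.ι D.xa *ᵥ c' =
      D.xa * ((z - p • D.h x - (1 - 1 : ℝ) • D.s x) ⬝ᵥ c')) :
    mean u (fun x => c' ⬝ᵥ (dv D.J D.y D.V x - D.a • D.φ x) - ζ x ⬝ᵥ XM D.ι D.xa *ᵥ c') =
      mean u (fun x => c' ⬝ᵥ (dv D.J D.y D.V x - (D.a • D.φ x + (D.h x - D.xa • D.s x - D.ka)))) +
        (1 + p * D.xa) * (c' ⬝ᵥ meanV u D.h) - D.xa * (c' ⬝ᵥ meanV u D.s) -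
        (c' ⬝ᵥ D.ka + D.xa * (c' ⬝ᵥ z)) := by
  rw [meanV_dot, meanV_dot, ← mean_const_mul, ← mean_const_mul, ← hu.mean_const (c' ⬝ᵥ D.ka + _),
    ← mean_add, ← mean_sub, ← mean_sub]
  congr 1; ext x
  simp only [hζ, sub_self, zero_smul, sub_zero, dotProduct_comm _ c', dotProduct_sub, dotProduct_add,
    dotProduct_smul, smul_eq_mul]
  ring

end Hd71

set_option maxHeartbeats 1000000 in
open Hd71 in
theorem hdGlue : HdGlue := by
  rintro ⟨KH, KH0, hH⟩ ⟨KC, KC1, hC⟩ hF hK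
  refine ⟨4 * KC + 26, by linarith, fun P K1 η t η0 t0 t1 => ?_⟩
  obtain ⟨Mb, Mb1, hb⟩ := hK P K1
  have KC0 : 0 ≤ KC := by linarith
  have Mb0 : 0 ≤ Mb := by linarith
  have ti : 0 < 1 / t := by positivity
  refine ⟨18 * KC + Mb + 2 * (1 / t) + 130, by linarith, fun CV => ?_⟩
  have m1 : 0 ≤ 8 / t := by positivity
  have m2 : 0 ≤ 4 * KC / (t * η ^ 2) := by positivity
  have m3 : 0 ≤ KH * (2 + Mb + 24 * CV ^ 2) := by positivity
  have m4 : 0 ≤ CV ^ 2 := by positivity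
  refine ⟨8 / t + 4 * KC / (t * η ^ 2) + KH * (2 + Mb + 24 * CV ^ 2) + 208 * CV ^ 2 + 27 * Mb +
    4 * KC + 10, by linarith, ?_⟩
  intro n κ _ _ D mg C0 H hP hη hs hM p z c m c' m' ρ v w p0 pP hρ hc hc' hv hw
  subst hP hη
  have e0 := H.e0
  have le : ∀ q : ℝ, q ≤ 8 / t + 4 * KC / (t * D.η ^ 2) + KH * (2 + Mb + 24 * CV ^ 2) +
      208 * CV ^ 2 + 27 * Mb + 4 * KC + 10 → q * D.ε ≤ D.e := fun q hq =>
    (mul_le_mul_of_nonneg_right hq e0.le).trans hM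
  have ee : D.ε ≤ D.e := by simpa using le 1 (by linarith)
  have e00 : 0 < D.e := e0.trans_le ee
  have e1 : D.e ≤ 1 := le_trans (le_mul_of_one_le_left e00.le (by linarith)) hs
  have ε1 : D.ε ≤ 1 := ee.trans e1
  have q1 : 2 * D.ε ≤ t / 4 := by
    have := (le (8 / t) (by linarith)).trans e1
    rw [div_mul_eq_mul_div, div_le_one t0] at this
    linarith
  have q2 : KC * D.ε / D.η ^ 2 ≤ t / 4 := by
    have := (le (4 * KC / (t * D.η ^ 2)) (by linarith)).trans e1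
    rw [div_mul_eq_mul_div, div_le_one (by positivity)] at this
    rw [div_le_iff₀ (by positivity)]
    linarith
  have pr : Pr v w := by rw [hv, hw]; exact pr_W H.fp p z c m
  obtain ⟨B, hB⟩ : ∃ B, B = ρ ^ 2 + D.bud p z + sq m := ⟨_, rfl⟩
  rw [← hB]
  have hbud : D.bud p z = D.bv p z v := by rw [hv]; rfl
  have kv0 := (pr_mu D pr.hv).kl_nonneg
  have kw0 := (pr_mu D pr.hw).kl_nonneg
  have b1 := H.b1
  have b2 := hρ.2.1
  have kb := kl_le_bv H.toGeo p z pr.hv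
  have sm := sq_nn m
  have kv : ρ ^ 2 + kl v D.μ ≤ B := by linarith
  have B0 : 0 ≤ B := by linarith
  obtain ⟨f1, f2, ψ', f3, f4⟩ := hF n κ D H.toGeo p z 1 p0 pP
  obtain ⟨k1, k2, -⟩ := hb n κ D mg C0 CV H rfl p z c m 1 0 w v p0 pP zero_le_one le_rfl (.inl rfl)
    (hc.trans hρ.2.2) (hw ▸ ref_W D p z c m 0) pr
  have k3 : kl w D.μ + mean w (fun x => sq (D.ζ p z 1 x)) + mean v (fun x => sq (D.ζ p z 1 x)) ≤
      Mb * B := by
    have a1 := pr.kl_nonneg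
    have a2 := pr.hw.mean_nonneg fun x => sq_nn (D.h x - D.xb)
    have a3 := sq_nn (dM v w D.h)
    have a4 := sq_nn (dM v w D.s)
    have a5 : D.bv p z v + sq c + sq m + (1 - 1) * sq (0 - D.xb) ≤ B := by linarith
    have a6 := mul_le_mul_of_nonneg_left a5 Mb0
    rw [mean_add] at k1
    linarith
  have z1 := pr.hw.mean_nonneg fun x => sq_nn (D.ζ p z 1 x)
  have z2 := pr.hv.mean_nonneg fun x => sq_nn (D.ζ p z 1 x)
  have k4 : ∀ x, sq (D.ψ c x) ≤ 12 * CV ^ 2 * B := fun x => by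
    have := mul_le_mul_of_nonneg_left (show D.B0 + sq c ≤ 2 * B by linarith) m4
    linarith [k2 x]
  have k5 : ∀ x, CV * nrm (ψ' x) ≤ D.ε * ρ := fun x => psi'_le H hρ (f3 x)
  have Fv := (f4 c m 0 w v (hw ▸ ref_W D p z c m 0) pr.ac).2
  have Fw := (f4 c m 0 w w (hw ▸ ref_W D p z c m 0) fun _ h => h).2
  obtain ⟨E, hE⟩ : ∃ E : Cube n → Fin n → ℝ, E = fun x => D.ψ c x + D.J *ᵥ D.ζ p z 1 x + ψ' x :=
    ⟨_, rfl⟩
  have k6 : mean v (fun x => E x ⬝ᵥ E x) ≤ (36 * CV ^ 2 + 27 * Mb + 3) * B := by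
    have : mean v (fun x => E x ⬝ᵥ E x) ≤
        mean v fun x => (36 * CV ^ 2 * B + 3 * B) + 27 * sq (D.ζ p z 1 x) := pr.hv.mean_mono fun x => by
      have a1 := sq_add3 (D.ψ c x) (D.J *ᵥ D.ζ p z 1 x) (ψ' x)
      have a2 := sq_of_nrm ((Eig.nrm_mulVec_le D.J (D.ζ p z 1 x)).trans
        (mul_le_mul_of_nonneg_right H.op (Eig.nrm_nonneg _)))
      rw [mul_pow, Eig.nrm_sq] at a2
      have a3 := sq_of_nrm ((le_mul_of_one_le_left (Eig.nrm_nonneg (ψ' x)) H.cv).trans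
        ((k5 x).trans (mul_le_of_le_one_left hρ.1 ε1)))
      have a4 := k4 x
      rw [hE]
      simp only [sq] at a1 a2 a3 a4 ⊢
      linarith
    rw [mean_add, pr.hv.mean_const, mean_const_mul] at this
    linarith
  have S := H.sfa ρ hρ
  have bd : Bd ρ fun _ : Cube n => c' := fun _ => hc'
  have g1 := H.gf c' (hc'.trans hρ.2.2) v pr.hv
  have g2 : mean v (fun x => ∑ j ∈ D.C, (grad (fun y => c' ⬝ᵥ D.φ y) x j - Vf D.V c' x j) ^ 2) ≤
      2 * (D.e * B) := by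
    have := mul_le_mul_of_nonneg_left (show D.B0 + sq c' + kl v D.μ ≤ 2 * B by linarith) e00.le
    linarith
  have εB : D.ε * (ρ ^ 2 + kl v D.μ) ≤ D.ε * B := mul_le_mul_of_nonneg_left kv e0.le
  have g3 : mean v (fun x => exc D.ε (Vf D.V c' x)) ≤ D.ε * (D.ε * B) :=
    (S.f4 v _ pr.hv bd).trans (by
      rw [pow_two, mul_assoc]; exact mul_le_mul_of_nonneg_left εB e0.le)
  have g4 : mean v (fun x => Vf D.V c' x ⬝ᵥ (Dg D.J D.y x * Vf D.V c' x)) ≤
      C0 * D.xa * sq c' + D.ε * B := by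
    have := S.f6 v _ pr.hv bd
    rw [pr.hv.mean_const] at this
    exact this.trans (add_le_add le_rfl εB)
  have εB0 : 0 ≤ D.ε * B := by positivity
  have εε : ∀ X, 0 ≤ X → D.ε * X ≤ X := fun X hX => mul_le_of_le_one_left hX ε1
  have leB : ∀ q : ℝ, q ≤ 8 / t + 4 * KC / (t * D.η ^ 2) + KH * (2 + Mb + 24 * CV ^ 2) +
      208 * CV ^ 2 + 27 * Mb + 4 * KC + 10 → q * (D.ε * B) ≤ D.e * B := fun q hq => by
    rw [← mul_assoc]; exact mul_le_mul_of_nonneg_right (le q hq) B0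
  obtain ⟨Gm, hGm⟩ : ∃ Gm, Gm = mean v fun x => gC D c' x ⬝ᵥ (Dg D.J D.y x * gC D c' x) +
    D.ε ^ 2 * (E x ⬝ᵥ E x) + exc D.ε (gC D c' x) := ⟨_, rfl⟩
  have G1 : Gm ≤ 2 * (C0 * D.xa * sq c') + 9 * (D.e * B) := by
    have a1 : Gm ≤ mean v fun x => 2 * (Vf D.V c' x ⬝ᵥ (Dg D.J D.y x * Vf D.V c' x)) +
        D.ε ^ 2 * (E x ⬝ᵥ E x) + 2 * exc D.ε (Vf D.V c' x) +
        4 * ∑ j ∈ D.C, (grad (fun y => c' ⬝ᵥ D.φ y) x j - Vf D.V c' x j) ^ 2 := by
      rw [hGm]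
      refine pr.hv.mean_mono fun x => ?_
      have c1 := dq_le _ (gC D c' x) (Vf D.V c' x) (Dg_mem D.J D.y x)
      have c2 := exc_le D.ε (gC D c' x) (Vf D.V c' x)
      rw [gC_sub S.supp] at c1 c2
      linarith
    simp only [mean_add, mean_const_mul] at a1
    have a2 := mul_le_mul_of_nonneg_left k6 (sq_nonneg D.ε)
    have a3 := εε ((36 * CV ^ 2 + 27 * Mb + 3) * (D.ε * B)) (by positivity)
    have a4 := εε _ εB0
    have a5 := leB (36 * CV ^ 2 + 27 * Mb + 7) (by linarith)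
    linarith
  have G2 : mean v (fun x => exc D.ε (gC D c' x)) ≤ Gm := by
    rw [hGm]
    exact pr.hv.mean_mono fun x => le_add_of_nonneg_left (add_nonneg (dq_nn _ _ _ _)
      (mul_nonneg (sq_nonneg _) (sq_nn (E x))))
  have G0 : 0 ≤ Gm := (pr.hv.mean_nonneg fun x => exc_nn _ _).trans G2
  have X0 : 0 ≤ C0 * D.xa * sq c' := mul_nonneg (mul_nonneg H.c0 H.xa0) (sq_nn c')
  have eB0 : 0 ≤ D.e * B := by positivity
  have G3 := mul_le_mul_of_nonneg_left G1 KC0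
  have G4 := mul_nonneg KC0 X0
  have G5 := mul_nonneg KC0 eB0
  have G6 := mul_nonneg Mb0 eB0
  have G7 := mul_nonneg ti.le eB0
  rw [← hE] at Fv
  have L := fun g => loud H (K := KC) (w := w) p z c m hv g
    ((hC n D.J D.y D.C (fun j _ => if j ∈ D.C then 1 else 0) v w E g D.ε (t / 4) pr
      (fun j _ => by split_ifs <;> norm_num) (fun j _ hj => if_neg hj) Fv e0 q1 (by linarith)).2.2
      _ D.f _ D.η (wt_lp D p z) H.fp (hv.trans (vp_eq D p z)) (hw.trans (W_eq D p z c m)) η0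
      (by linarith [H.η1, H.mg1])) t0 q2 k4 (by linarith)
  obtain ⟨c1, c2, -⟩ := hC n D.J D.y D.C D.r v w E (gC D c') D.ε 1 pr (r_mem H) (r_zero D) Fv e0
    (by linarith) le_rfl
  rw [← hGm] at c1 c2
  have A0 : 0 ≤ Ar D.r v w := pr.Ar_nonneg fun j x => (r_mem H j x).1
  obtain ⟨El, hEl⟩ : ∃ El, El = (1 - Ue.th D.a') / (2 * (1 - 2 * D.η)) * Ue.El D.lw v (D.lp p z) :=
    ⟨_, rfl⟩
  have El0 : 0 ≤ El := by
    obtain ⟨t0, t1, t2⟩ := th_mem H
    have := hv ▸ pr_lp H.fp p z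
    rw [hEl]
    exact mul_nonneg (div_nonneg (by linarith [H.η0]) (by linarith))
      (Ue.El_nonneg this.1 this.2 (lw_nn D))
  have hAC : D.AC v w (D.lp p z) = Ar D.r v w + El := by rw [hEl]; rfl
  rw [← hEl] at L
  have hA := Ar_add H p z c m c' m' hv hw
  refine ⟨?_, ?_, ?_, ?_⟩
  · obtain ⟨gb, hgb⟩ := (H.cen ρ hρ c hc).1
    have a1 := hH n κ D.J D.y D.C (rw D.J D.C D.ι) D.V D.φ (fun x => dv D.J D.y D.V x - D.a • D.φ x)
      (XM D.ι D.xa) (fun _ => D.xa) gb c' D.a (C0 * D.xa) CV D.ε ρ D.ς D.B0 t D.r v w (D.ψ c)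
      (D.ζ p z 1) ψ' (by simpa only [add_sub_cancel] using S) hgb (sps H hρ ε1) pr (r_mem H)
      (r_zero D) Fw f1 k5 (by linarith) hc' t0
    rw [feat D p z c' pr.hv fun x => f2 x _ _, feat D p z c' pr.hw fun x => f2 x _ _] at a1
    have a2 := H.eqa (-c') (by rw [sq_neg]; exact hc'.trans hρ.2.2) v pr.hv
    have a3 := H.eqa c' (hc'.trans hρ.2.2) w pr.hw
    simp only [neg_dotProduct, mean_neg, sq_neg] at a2
    have a4 := mul_le_mul_of_nonneg_left (show D.B0 + sq c' + kl v D.μ ≤ 2 * B by linarith) e00.le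
    have a5 := mul_le_mul_of_nonneg_left
      (show D.B0 + sq c' + kl w D.μ ≤ 2 * B + Mb * B by linarith) e00.le
    have a6 := L fun x => Vf D.V c' x
    have a7 : 1 / D.ε * mean v (fun x => exc D.ε (Vf D.V c' x)) ≤ D.ε * B := by
      rw [one_div, inv_mul_le_iff₀ e0]; exact g3
    have a8 := leB (52 * CV ^ 2 + 1) (by linarith)
    have a9 := mul_le_mul_of_nonneg_left g2 ti.le
    have s1 : mean v (fun x => D.ψ c x ⬝ᵥ D.ψ c x) ≤ 12 * CV ^ 2 * B := pr.hv.mean_le k4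
    have s2 : mean w (fun x => D.ψ c x ⬝ᵥ D.ψ c x) ≤ 12 * CV ^ 2 * B := pr.hw.mean_le k4
    have a10 : ρ ^ 2 + D.B0 + kl v (ising D.J D.y) + kl w (ising D.J D.y) +
        mean v (fun x => D.ψ c x ⬝ᵥ D.ψ c x + D.ζ p z 1 x ⬝ᵥ D.ζ p z 1 x) +
        mean w (fun x => D.ψ c x ⬝ᵥ D.ψ c x + D.ζ p z 1 x ⬝ᵥ D.ζ p z 1 x) ≤
        (2 + Mb + 24 * CV ^ 2) * B := by
      rw [mean_add, mean_add]
      simp only [sq, Dat.μ] at k3 kv kv0
      linarith
    have a11 := mul_le_mul_of_nonneg_left a10 (mul_nonneg KH0 e0.le)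
    have a12 := leB (KH * (2 + Mb + 24 * CV ^ 2)) (by linarith)
    rw [hAC]
    simp only [dM, dotProduct_sub]
    linarith
  · have a1 := mul_le_mul_of_nonneg_left (kl_wt_ge pr fun x => c' ⬝ᵥ D.φ x + m' ⬝ᵥ D.s x)
      (H.mg0.le.trans H.a0)
    rw [hA, W_add, ← hw, dr_eq]
    simp only [mean_add, ← meanV_dot _ D.s] at a1
    simp only [dM, dotProduct_sub]
    linarith
  · have a1 : -mean v (fun x => ∑ j, D.r j x * (gC D c' x j * chi v w j x)) ≤
        mean v fun x => ∑ j, D.r j x * (|chi v w j x| * |gC D c' x j|) := by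
      rw [← mean_neg]
      refine pr.hv.mean_mono fun x => ?_
      rw [← Finset.sum_neg_distrib]
      refine Finset.sum_le_sum fun j _ => ?_
      rw [← mul_neg, ← abs_mul, mul_comm (chi v w j x)]
      exact mul_le_mul_of_nonneg_left (neg_le_abs _) (r_mem H j x).1
    rw [hA]
    rw [div_one] at c1
    linarith
  · have a1 := cnt H c' pr Fv
    rw [← hGm] at a1
    rw [div_one] at c1
    have a2 := mul_le_mul_of_nonneg_left (add_le_add c1 (L (gC D c'))) (by positivity : 0 ≤ 4 * D.ε)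
    have a3 : D.ε * (1 / D.ε * mean v fun x => exc D.ε (gC D c' x)) =
        mean v fun x => exc D.ε (gC D c' x) := by field_simp
    have a4 := mul_le_mul_of_nonneg_right ((le (4 * KC) (by linarith)).trans e1) G0
    have a5 := mul_le_mul_of_nonneg_right (le 4 (by linarith)) A0
    have a6 := mul_le_mul_of_nonneg_right (le 4 (by linarith)) El0
    have a7 := mul_le_mul_of_nonneg_left (mul_le_of_le_one_left El0 t1) e0.le
    have a8 := εε (208 * CV ^ 2 * (D.ε * B)) (by positivity)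
    have a9 := leB (208 * CV ^ 2) (by linarith)
    have a10 : 1 * (D.e * (Ar D.r v w + El)) ≤
        (18 * KC + Mb + 2 * (1 / t) + 130) * (D.e * (Ar D.r v w + El)) :=
      mul_le_mul_of_nonneg_right (by linarith) (by positivity)
    have e : (18 * KC + Mb + 2 * (1 / t) + 130) * D.e *
        (D.AC v w (D.lp p z) + ρ ^ 2 + D.bud p z + sq m) =
        (18 * KC + Mb + 2 * (1 / t) + 130) * (D.e * (Ar D.r v w + El)) +
          (18 * KC + Mb + 2 * (1 / t) + 130) * (D.e * B) := by rw [hAC, hB]; ring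
    rw [e]
    linarith

end Crest.Agent.T157.Br

end
end

-- ▼ part T157/BrFd_16
section

/-!
# Row 157, block B, S1 (helper16): the local fields of a reference weight (`FldStmt`)
-/

set_option autoImplicit false
set_option linter.unusedSectionVars false

noncomputable section

namespace Crest.Agent.T157.Br.Fd16

open Real Matrix Function Finset
open Crest.Agent.T157.E Crest.Agent.T157.SL Crest.Agent.T157.Ta
open Crest.Agent.T157.Rec (grad fl grad_eq grad_add grad_sub grad_lin grad_const grad_const_mul)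
open Crest.Agent.T157.Eig (nrm opn)
open Crest.Agent.T157.S3 (hf)
open Crest.ProbabilityR.SpinGlassDynamics (spin)

variable {n : ℕ} {κ : Type} [Fintype κ] [DecidableEq κ]

lemma g_off {F : Cube n → ℝ} {j : Fin n} (h : OffAt j F) (x : Cube n) : grad F x j = 0 := by
  rw [grad_eq, fl, h, sub_self, mul_zero, zero_div]

lemma g_pin {κ : Type} [Fintype κ] (gk : κ → Fin n → ℝ) (p : ℝ) (z : κ → ℝ) (x : Cube n) (j : Fin n) :
    grad (fun x => lk (hG gk) p x z) x j =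
      ∑ k, (z k - p * hG gk x k) * gk k j + p * sv x j * ∑ k, gk k j ^ 2 := by
  have e : ∀ k, grad (fun x => hG gk x k) x j = gk k j := fun k => congrFun (grad_lin (gk k) x) j
  simp only [lk, dotProduct, mul_sum, ← sum_sub_distrib, ← sum_add_distrib]
  rw [Da.Gr.grad_sum]
  refine sum_congr rfl fun k _ => ?_
  rw [grad_sub, grad_const_mul, grad_const_mul, Pi.sub_apply, Pi.smul_apply, Pi.smul_apply,
    Da.Gr.grad_mul, e]
  simp only [smul_eq_mul]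
  ring

lemma cm_exp {w H l : Cube n → ℝ} {j : Fin n} (hw : ∀ x, w x = exp (H x) * l x) (hl : OffAt j l)
    {x : Cube n} (hx : l x ≠ 0) : cm w j x = tanh (grad H x j) := by
  have a := exp_pos (H (update x j true) / 2)
  have b := exp_pos (H (update x j false) / 2)
  have e : ∀ t : ℝ, exp t = exp (t / 2) ^ 2 := fun t => by rw [pow_two, ← exp_add, add_halves]
  simp only [Ta.cm, siteM, sv, update_self, spin, hw, hl x, grad, incr, tanh_eq, sub_div, neg_sub,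
    exp_sub, if_true, Bool.false_eq_true, if_false]
  rw [e (H (update x j true)), e (H (update x j false))]
  field_simp
  ring

lemma g_quad {J : Matrix (Fin n) (Fin n) ℝ} (hJ : Jᵀ = J) (h0 : ∀ j, J j j = 0) (y : Fin n → ℝ)
    (x : Cube n) (j : Fin n) : grad (fun x => log (ising J y x)) x j = hf J y x j := by
  rw [grad_eq, Da.Gr.ising_fl hJ, log_mul (Da.Gr.ising_pos J y x).ne' (exp_pos _).ne', log_exp,
    Da.Gr.loc, h0, hf, Pi.add_apply]
  linear_combination ((J *ᵥ sv x) j + y j) * Rec.sv_mul_self x j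

variable {D : Dat n κ}

lemma nS_C {j : Fin n} (h : j ∈ D.C) : j ∉ D.S := fun e => (mem_filter.1 e).2.1 h
lemma nS_T (k : κ) : D.ι k ∉ D.S := fun e => (mem_filter.1 e).2.2 k rfl

lemma ne_T (hD : D.Geo) {j : Fin n} (h : j ∈ D.C) (k : κ) : D.ι k ≠ j := fun e =>
  hD.off k (by rw [e]; exact h)

lemma ζ_T (hD : D.Geo) (p : ℝ) (z : κ → ℝ) (t : ℝ) (x : Cube n) (k : κ) :
    D.ζ p z t x (D.ι k) = z k - p * D.h x k - (1 - t) * D.s x k := by
  simp only [Dat.ζ, if_neg (nS_T k), hD.inj.eq_iff, sum_ite_eq', mem_univ, if_true]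

lemma ζ_C (hD : D.Geo) (p : ℝ) (z : κ → ℝ) (t : ℝ) (x : Cube n) {j : Fin n} (h : j ∈ D.C) :
    D.ζ p z t x j = 0 := by
  rw [Dat.ζ, if_neg (nS_C h)]
  exact sum_eq_zero fun k _ => if_neg (ne_T hD h k)

/-- sums off `C` split into `S` and `T` -/
lemma split (hD : D.Geo) (F : Fin n → ℝ) : ∑ i ∈ D.Cᶜ, F i = ∑ i ∈ D.S, F i + ∑ k, F (D.ι k) := by
  rw [← sum_image (s := univ) (g := D.ι) (f := F) fun a _ b _ h => hD.inj h, ← sum_union]
  · refine sum_congr (Finset.ext fun i => ?_) fun _ _ => rfl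
    simp only [mem_compl, mem_union, Dat.S, mem_filter, mem_univ, true_and, mem_image]
    constructor
    · intro h; by_cases e : ∃ k, D.ι k = i
      · exact Or.inr e
      · exact Or.inl ⟨h, fun k hk => e ⟨k, hk⟩⟩
    · rintro (h | ⟨k, rfl⟩); exacts [h.1, hD.off k]
  · exact disjoint_left.2 fun i hi e => by
      obtain ⟨k, -, rfl⟩ := mem_image.1 e; exact nS_T k hi

/-- the self-interaction field -/
def ψ' (D : Dat n κ) (p : ℝ) (x : Cube n) (j : Fin n) : ℝ :=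
  if j ∈ D.C then sv x j * (D.P * ∑ i ∈ D.S, D.J i j ^ 2 + p * ∑ k, D.J (D.ι k) j ^ 2) else 0

lemma ψ'_le (hD : D.Geo) {p : ℝ} (p0 : 0 ≤ p) (p1 : p ≤ D.P) (x : Cube n) :
    nrm (ψ' D p x) ≤ 3 * D.P * D.ς * √(D.Cᶜ.card) := by
  have P0 : 0 ≤ D.P := p0.trans p1
  have s0 := hD.s0
  rw [Eig.nrm_le_iff (by positivity), mul_pow, sq_sqrt (Nat.cast_nonneg _)]
  have a : ∀ j, ψ' D p x j * ψ' D p x j ≤ D.P ^ 2 * D.ς ^ 2 * ∑ i ∈ D.Cᶜ, D.J i j ^ 2 := fun j => by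
    have c := hD.col j
    have s := split hD fun i => D.J i j ^ 2
    have b1 : 0 ≤ ∑ i ∈ D.S, D.J i j ^ 2 := by positivity
    have b2 : 0 ≤ ∑ k, D.J (D.ι k) j ^ 2 := by positivity
    unfold ψ'
    split_ifs
    · rw [mul_mul_mul_comm, Rec.sv_mul_self, one_mul]
      set A := ∑ i ∈ D.Cᶜ, D.J i j ^ 2
      have h1 : D.P * ∑ i ∈ D.S, D.J i j ^ 2 + p * ∑ k, D.J (D.ι k) j ^ 2 ≤ D.P * A := by
        rw [s]; nlinarith
      have h2 := mul_self_le_mul_self (by positivity) h1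
      have h3 : D.P ^ 2 * A * A ≤ D.P ^ 2 * A * D.ς ^ 2 :=
        mul_le_mul_of_nonneg_left c (by rw [s]; positivity)
      nlinarith
    · rw [mul_zero]; positivity
  refine (sum_le_sum fun j _ => a j).trans ?_
  rw [← mul_sum, sum_comm]
  have b : ∑ i ∈ D.Cᶜ, ∑ j, D.J i j ^ 2 ≤ D.Cᶜ.card * 9 := by
    rw [← nsmul_eq_mul]
    refine sum_le_card_nsmul _ _ _ fun i _ => ?_
    have h1 := Da.Gr.row_sq_le D.Jᵀ i
    rw [Eig.opn_transpose] at h1
    exact le_trans h1 (by nlinarith [hD.op, Eig.opn_nonneg D.J])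
  nlinarith [mul_le_mul_of_nonneg_left b (show 0 ≤ D.P ^ 2 * D.ς ^ 2 by positivity)]

/-- the exponent of the path -/
def Hx (D : Dat n κ) (p : ℝ) (z c m : κ → ℝ) (t : ℝ) (mh : κ → ℝ) (x : Cube n) : ℝ :=
  log (ising D.J D.y x) + ((D.dl + D.del) ⬝ᵥ sv x + D.Θ x + c ⬝ᵥ D.φ x) - D.U x + lk D.h p x z +
    m ⬝ᵥ D.s x + (t - 1) * (D.s x ⬝ᵥ (D.h x - mh))

/-- the indicator of the old pins -/
def i0 (D : Dat n κ) (x : Cube n) : ℝ := if ∀ i ∈ D.S, x i = D.x0 i then 1 else 0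

lemma Wp_eq (p : ℝ) (z c m : κ → ℝ) (t : ℝ) (mh : κ → ℝ) (x : Cube n) :
    D.Wp p z c m t mh x = exp (Hx D p z c m t mh x) * i0 D x := by
  simp only [Dat.Wp, Dat.W, wS, Dat.pw, post_eq, wt, Dat.l, i0, Hx, Dat.μ]
  split_ifs
  · rw [← exp_log (Da.Gr.ising_pos D.J D.y x), log_exp]
    simp only [← exp_add, mul_one, add_dotProduct]
    congr 1; ring
  · simp

lemma g_U (x : Cube n) (j : Fin n) : grad D.U x j = -(∑ i ∈ D.S, -(D.P * ((D.J *ᵥ sv x) i - D.xS i)) *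
    D.J i j + D.P * sv x j * ∑ i ∈ D.S, D.J i j ^ 2) := by
  have e : D.U = fun x => D.P / 2 * ∑ i ∈ D.S, D.xS i ^ 2 -
      lk (hG fun i : D.S => D.J i) D.P x fun i => D.P * D.xS i := funext fun x => by
    simp only [Dat.U, lk, dotProduct, mul_sum, ← sum_sub_distrib]
    rw [← sum_coe_sort D.S, ← sum_coe_sort D.S, ← sum_sub_distrib]
    refine sum_congr rfl fun i _ => ?_
    simp only [hG, mulVec]; ring
  rw [e, grad_sub, grad_const, Pi.sub_apply, g_pin, Pi.zero_apply, zero_sub,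
    sum_coe_sort D.S fun i => D.J i j ^ 2, ← sum_coe_sort D.S fun i =>
      -(D.P * ((D.J *ᵥ sv x) i - D.xS i)) * D.J i j]
  congr 2
  exact sum_congr rfl fun i _ => by simp only [hG, mulVec]; ring

lemma off_s (hD : D.Geo) {j : Fin n} (hj : j ∈ D.C) : OffAt j D.s := fun x b => funext fun k => by
  simp only [Dat.s, sT, sv]
  rw [update_of_ne (ne_T hD hj k)]

lemma g_H (hD : D.Geo) (p : ℝ) (z c m : κ → ℝ) (t : ℝ) (mh : κ → ℝ) (x : Cube n) {j : Fin n}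
    (hj : j ∈ D.C) : grad (Hx D p z c m t mh) x j =
      hf D.J D.y x j + (D.ψ c x + D.J *ᵥ D.ζ p z t x + ψ' D p x) j := by
  have os := off_s hD hj
  have r : ∀ k, rw D.J D.C D.ι k j = D.J (D.ι k) j := fun k => if_pos hj
  have g1 : grad (fun y => m ⬝ᵥ D.s y) x j = 0 := g_off (fun y b => by rw [os]) x
  have g2 : grad (fun y => D.s y ⬝ᵥ (D.h y - mh)) x j = ∑ k, D.s x k * D.J (D.ι k) j := by
    simp only [dotProduct]
    rw [Da.Gr.grad_sum]
    refine sum_congr rfl fun k _ => ?_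
    have a : grad (fun y => D.s y k) x j = 0 := g_off (fun y b => by rw [os]) x
    have b : grad (fun y => (D.h y - mh) k) x j = D.J (D.ι k) j := by
      simp only [Pi.sub_apply]
      rw [grad_sub, grad_const, sub_zero, ← r]
      exact congrFun (grad_lin _ x) j
    rw [Da.Gr.grad_mul, a, b]; ring
  have g3 : (D.J *ᵥ D.ζ p z t x) j = ∑ i ∈ D.S, -(D.P * ((D.J *ᵥ sv x) i - D.xS i)) * D.J i j +
      ∑ k, (z k - p * D.h x k - (1 - t) * D.s x k) * D.J (D.ι k) j := by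
    have e : ∀ i, D.J j i = D.J i j := fun i => by rw [← hD.symm, transpose_apply, hD.symm]
    rw [mulVec, dotProduct, ← sum_add_sum_compl D.C, sum_eq_zero fun i hi => by
      rw [ζ_C hD p z t x hi, mul_zero], zero_add, split hD]
    congr 1
    · exact sum_congr rfl fun i hi => by rw [Dat.ζ, if_pos hi, e, mul_comm]
    · exact sum_congr rfl fun k _ => by rw [ζ_T hD, e, mul_comm]
  have g4 := g_pin (rw D.J D.C D.ι) p z x j
  simp only [r] at g4
  unfold Hx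
  rw [grad_add, grad_add, grad_add, grad_sub, grad_add, grad_const_mul]
  simp only [Pi.add_apply, Pi.sub_apply, Pi.smul_apply, smul_eq_mul]
  rw [g_quad hD.symm hD.diag, g1, g2, g3, g_U, ψ', if_pos hj]
  have g5 : ∑ k, (z k - p * D.h x k - (1 - t) * D.s x k) * D.J (D.ι k) j =
      ∑ k, (z k - p * D.h x k) * D.J (D.ι k) j + (t - 1) * ∑ k, D.s x k * D.J (D.ι k) j := by
    rw [mul_sum, ← sum_add_distrib]; exact sum_congr rfl fun k _ => by ring
  rw [g5]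
  change _ + D.ψ c x j - _ + grad (fun x => lk (hG (rw D.J D.C D.ι)) p x z) x j + _ + _ = _
  rw [g4]
  simp only [Dat.h]
  ring

lemma off_i0 {j : Fin n} (hj : j ∈ D.C) : OffAt j (i0 D) := fun x b => by
  have e : (∀ i ∈ D.S, update x j b i = D.x0 i) ↔ ∀ i ∈ D.S, x i = D.x0 i :=
    forall₂_congr fun i hi => by
      rw [update_of_ne (show i ≠ j from fun e => nS_C hj (by rw [← e]; exact hi))]
  simp only [i0, e]

/-- a reference weight is `e^H` times an indicator -/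
lemma ref_eq (hD : D.Geo) {p : ℝ} {z c m : κ → ℝ} {t : ℝ} {mh : κ → ℝ} {w : Cube n → ℝ}
    (h : D.Ref p z c m t mh w) : ∃ l : Cube n → ℝ, (∀ x, w x = exp (Hx D p z c m t mh x) * l x) ∧
      (∀ j ∈ D.C, OffAt j l) ∧ (∀ x, 0 ≤ l x) ∧ ∃ x, 0 < l x := by
  have i1 : ∀ x, 0 ≤ i0 D x := fun x => by unfold i0; split_ifs <;> norm_num
  rcases h with rfl | ⟨σ, rfl⟩
  · exact ⟨i0 D, Wp_eq p z c m t mh, fun j hj => off_i0 hj, i1, D.x0, by simp [i0]⟩
  · refine ⟨fun x => if D.bT x = σ then i0 D x else 0, fun x => ?_, fun j hj x b => ?_,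
      fun x => ?_, extend D.ι σ D.x0, ?_⟩
    · by_cases h : D.bT x = σ <;> simp [cut, Wp_eq, h]
    · have e : D.bT (update x j b) = D.bT x := funext fun k =>
        update_of_ne (ne_T hD hj k) _ _
      simp only [e, off_i0 hj x b]
    · dsimp only; split_ifs; exacts [i1 x, le_rfl]
    · have e : D.bT (extend D.ι σ D.x0) = σ := funext fun k => hD.inj.extend_apply _ _ k
      have e2 : ∀ i ∈ D.S, extend D.ι σ D.x0 i = D.x0 i := fun i hi =>
        extend_apply' _ _ _ fun ⟨k, hk⟩ => (mem_filter.1 hi).2.2 k hk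
      simp only [if_pos e, i0, if_pos e2, one_pos]

end Crest.Agent.T157.Br.Fd16

namespace Crest.Agent.T157.Br

open Real Matrix Finset Fd16

theorem fldStmt : FldStmt := fun n κ _ _ D hD p z t p0 p1 => by
  refine ⟨fun x j hj => ζ_C hD p z t x hj, fun x b f => ?_, ψ' D p, ψ'_le hD p0 p1,
    fun c m mh w v hw hv => ?_⟩
  · simp only [dotProduct, mulVec, XM, mul_sum]
    rw [sum_comm]
    refine sum_congr rfl fun k _ => ?_
    simp only [ite_mul, zero_mul, mul_ite, mul_zero, sum_ite_eq, mem_univ, if_true, ζ_T hD,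
      Pi.sub_apply, Pi.smul_apply, smul_eq_mul]
    ring
  · obtain ⟨l, e, o, l0, x0, hx0⟩ := ref_eq hD hw
    have w0 : ∀ x, 0 ≤ w x := fun x => by rw [e]; exact mul_nonneg (exp_pos _).le (l0 x)
    refine ⟨⟨w0, sum_pos' (fun x _ => w0 x) ⟨x0, mem_univ _, by
      rw [e]; exact mul_pos (exp_pos _) hx0⟩⟩, fun x hx j hj => ?_⟩
    rw [cm_exp e (o j hj) fun h => hx (hv x (by rw [e, h, mul_zero])), g_H hD p z c m t mh x hj]

end Crest.Agent.T157.Br
end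
end

-- ▼ part T157/S1Bp_30

/-!
# Row 157, block S1 (helper30): the burst part of the supply, one instance
-/

set_option autoImplicit false
set_option maxHeartbeats 1600000

noncomputable section

namespace Crest.Agent.T157.S1

open Real Matrix Finset
open Crest.Agent.T157.E Crest.Agent.T157.SL
open Crest.Agent.T157.Eig (nrm opn)
open Crest.Agent.T157.S3 (V Mx)

namespace Bp30

variable {n : ℕ}

lemma mono {J : Mx n} {P η0 θ : ℝ} {y0 p : V n} {Ad : V n → ℝ → Prop} {φ : V n → Cube n → ℝ}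
    {l a lb ab c0 gW gP Λ CP CN ω ec t K c0' Λ' CP' : ℝ}
    (h : BurstOK J P η0 θ y0 p Ad φ l a lb ab c0 gW gP Λ CP CN ω ec t K) (h1 : c0' ≤ c0) (h2 : Λ ≤ Λ')
    (h3 : CP ≤ CP') : BurstOK J P η0 θ y0 p Ad φ l a lb ab c0' gW gP Λ' CP' CN ω ec t K := by
  intro D s B ξ γ g1 T T' R hd hJ hP hη hθ cl sz hy dj hB hξ g0 g1' g2 hT hc
  have n8 : (0 : ℝ) ≤ #B := Nat.cast_nonneg _
  have l0 : 0 ≤ log ((n : ℝ) + 2) := log_nonneg (by linarith [Nat.cast_nonneg (α := ℝ) n])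
  have := h D s B ξ γ g1 T T' R hd hJ hP hη hθ cl sz hy dj hB hξ g0 g1' g2
    (by linarith [mul_le_mul_of_nonneg_right (mul_le_mul_of_nonneg_right h3 n8) l0]) hc
  have n4 := SL.dot_self_nonneg (del s)
  have B0 : 0 ≤ Bb D s y0 + #B := by
    have n1 := W6.Hy_nonneg s hd
    have n2 := W6.nuU_nonneg s hd
    rw [Bb, Bd]; positivity
  have s0 : 0 ≤ ∑ k ∈ B, (Del D s k ^ 2 + (J *ᵥ Del D s) k ^ 2) := sum_nonneg fun _ _ => by positivity
  linarith [mul_le_mul_of_nonneg_right h1 s0, mul_le_mul_of_nonneg_right h2 n4,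
    mul_le_mul_of_nonneg_right (mul_le_mul_of_nonneg_left h3 g0) B0]

lemma Fa.mono {c : FC} {J : Mx n} {y p : V n} {a x δ : ℝ} {Ft : Set (V n)} {ψ : Cube n → V n}
    {T : Cube n → Mx n} {Wm : Mx n} (h : Fa c J y a x 0 p Ft ψ T Wm) (hδ : 0 ≤ δ) :
    Fa c J y a x δ p Ft ψ T Wm :=
  ⟨h.1, h.2.1, h.2.2.1, h.2.2.2.1, by linarith [h.2.2.2.2.1], h.2.2.2.2.2⟩

/-- the margin -/
lemma margin {a0 ab a' xb : ℝ} (h0 : 0 < a0) (h1 : ab < a') (x0 : 0 ≤ xb) (x1 : xb < 1 - a') :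
    ∃ mg > (0 : ℝ), mg ≤ 1 / 2 ∧ mg ≤ a0 ∧ ab + mg ≤ a' ∧ a' + mg ≤ 1 ∧ ∀ a x, 0 ≤ a → a ≤ ab →
      0 ≤ x → x ≤ xb → (1 + a / ((1 - a') * (1 - mg))) * x ≤ 1 - mg := by
  set mg := min (min (1 / 2) a0) (min (a' - ab) ((1 - a' - xb) / 2)) with hm
  have m1 : mg ≤ 1 / 2 := (min_le_left _ _).trans (min_le_left _ _)
  have m2 : mg ≤ a0 := (min_le_left _ _).trans (min_le_right _ _)
  have m3 : mg ≤ a' - ab := (min_le_right _ _).trans (min_le_left _ _)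
  have m4 : mg ≤ (1 - a' - xb) / 2 := (min_le_right _ _).trans (min_le_right _ _)
  have m0 : 0 < mg := lt_min (lt_min (by norm_num) h0) (lt_min (by linarith) (by linarith))
  refine ⟨mg, m0, m1, m2, by linarith, by linarith, fun a x a0' a1 y0 y1 => ?_⟩
  have p : 0 < (1 - a') * (1 - mg) := mul_pos (by linarith) (by linarith)
  have h2 : 1 + a / ((1 - a') * (1 - mg)) ≤ 1 / ((1 - a') * (1 - mg)) := by
    rw [← le_sub_iff_add_le, ← sub_div, le_div_iff₀ p]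
    nlinarith [mul_pos m0 (show 0 < 1 - a' by linarith)]
  refine (mul_le_mul_of_nonneg_right h2 y0).trans ?_
  rw [div_mul_eq_mul_div, div_le_iff₀ p]
  nlinarith [mul_nonneg (show 0 ≤ 1 - a' by linarith) (sq_nonneg mg),
    mul_nonneg m0.le (show 0 ≤ a' by linarith)]

/-- the rates -/
lemma rates {p : Par} (h : p.Ok) {m : ℕ} (hm : m < p.N) : ∃ lm, 1 / 2 ≤ lm ∧ lm ≤ 1 ∧
    lm * (1 + p.κ / 6) ≤ p.l m ∧ 0 ≤ p.lb m ∧ p.lb m * (1 + p.κ / 6) ≤ lm * (1 - p.κ / 6) ∧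
    p.am m ≤ lm * (p.ah m * (1 - 2 * p.η0)) ∧ lm * (p.ah m * (1 - 2 * p.η0)) ≤ p.am (m + 1) ∧
    p.am (m + 1) ≤ 1 ∧ p.a0 ≤ p.ah m ∧ p.ah m ≤ p.ab ∧ p.ah m * (1 - 2 * p.η0) ≤ p.ab := by
  have k0 := h.κ0'
  have k1 := h.κ1
  have e0 := h.η00
  have e1 := h.η01
  have a0 : 0 < p.a := h.a00.trans h.a0a
  have u1 : 1 ≤ 1 + p.κ := by linarith
  have pw : ∀ {i j : ℕ}, i ≤ j → (1 + p.κ) ^ i ≤ (1 + p.κ) ^ j := fun hij => pow_le_pow_right₀ u1 hij
  have q0 : 0 < 1 - 2 * p.η0 := by linarith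
  have ea : p.ah m * (1 - 2 * p.η0) = p.a * (1 + p.κ) ^ (3 * m + 1) := div_mul_cancel₀ _ q0.ne'
  have hr : p.a * (1 + p.κ) ^ (3 * m + 1) ≤ p.ab * (1 - 2 * p.η0) :=
    (mul_le_mul_of_nonneg_left (pw (by omega)) a0.le).trans h.ra
  have ab0 : 0 < p.ab := (mul_pos_iff_of_pos_right q0).1 (lt_of_lt_of_le (by positivity) hr)
  have hr2 : p.ab * (1 - 2 * p.η0) ≤ p.ab := mul_le_of_le_one_right ab0.le (by linarith)
  set v := (1 + p.κ) ^ (2 * m) with hv
  have v1 : 1 ≤ v := one_le_pow₀ u1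
  have v2 : v * (1 + p.κ) ≤ 2 := by rw [hv, ← pow_succ]; exact (pw (by omega)).trans h.rl
  have e3 : (1 + p.κ) ^ (3 * m + 1) = v * ((1 + p.κ) ^ m * (1 + p.κ)) := by rw [hv]; ring
  have m0 : 0 < p.a * (1 + p.κ) ^ m := by positivity
  have e4 : (v * (1 + p.κ / 6))⁻¹ * (p.a * (v * ((1 + p.κ) ^ m * (1 + p.κ)))) =
      p.a * (1 + p.κ) ^ m * (1 + p.κ) / (1 + p.κ / 6) := by field_simp
  refine ⟨(v * (1 + p.κ / 6))⁻¹, ?_, inv_le_one_of_one_le₀ (by nlinarith), ?_,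
    by rw [Par.lb]; positivity, ?_, ?_, ?_, ?_, ?_, ?_, by linarith⟩
  · rw [one_div]; exact inv_anti₀ (by positivity) (by nlinarith)
  · rw [Par.l, ← hv]; exact le_of_eq (by field_simp)
  · rw [Par.lb, pow_succ, ← hv, inv_mul_eq_div, inv_mul_eq_div,
      div_le_div_iff₀ (by positivity) (by positivity)]
    nlinarith [mul_nonneg (zero_le_one.trans v1) (mul_nonneg k0.le (show 0 ≤ 1 - p.κ by linarith)),
      mul_pos (zero_lt_one.trans_le v1) k0]
  · rw [ea, e3, e4, Par.am, le_div_iff₀ (by positivity)]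
    exact mul_le_mul_of_nonneg_left (by linarith) m0.le
  · rw [ea, e3, e4, Par.am, pow_succ, ← mul_assoc]
    exact div_le_self (by positivity) (by linarith)
  · rw [Par.am]
    linarith [mul_le_mul_of_nonneg_left (pw (show m + 1 ≤ 3 * m + 1 by omega)) a0.le, h.ab1]
  · rw [Par.ah, le_div_iff₀ q0]
    linarith [h.a0a, le_mul_of_one_le_right a0.le (one_le_pow₀ (n := 3 * m + 1) u1),
      mul_pos h.a00 e0]
  · rw [Par.ah, div_le_iff₀ q0]; exact hr

/-- the accuracy of the class -/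
lemma ec_le {p : Par} (h : p.Ok) {m : ℕ} (hm : m < p.N) (i : ℕ) :
    8 * p.CN m i ^ 2 * p.ec (m + 1) i ≤ 1 := by
  have c1 : 1 ≤ p.CZ := by
    by_contra hc
    nlinarith [h.CZ1, h.lq0, h.lq1]
  have n1 := h.CN1 m i
  have h1 : p.CN m i ≤ p.M (p.bt (m + 1) i) :=
    ((le_mul_of_one_le_left (by linarith) c1).trans (h.lM m i hm).2.2.1).trans
      (h.Mm (Nat.add_le_add_left Nat.one_le_two_pow i))
  have h2 := h.le (p.bt (m + 1) i)
  have e0 := (h.e0 (p.bt (m + 1) i)).le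
  have C1 := h.C1'
  have h3 : (p.N : ℝ) ^ 2 ≤ p.C * p.CZ * (p.N + 1) ^ 2 * 8 ^ p.N :=
    ((pow_le_pow_left₀ (by positivity) (by linarith) 2).trans (le_mul_of_one_le_left (by positivity)
      (one_le_mul_of_one_le_of_one_le C1 c1))).trans
      (le_mul_of_one_le_right (by positivity) (one_le_pow₀ (by norm_num)))
  have h4 := mul_le_mul h3 (pow_le_pow_left₀ (by linarith) h1 2) (sq_nonneg _) (by positivity)
  rw [Par.ec, Par.e1]
  linarith [mul_le_mul_of_nonneg_right h4 e0]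

end Bp30

open Bp30 in
theorem bpGlue : BpGlue := by
  intro hA hB hS K0 κ0 a0 ab a' xb C0 C' Cw Cp hκ ha0 hab x0 x1 hC0 hC' hCw hCp
  obtain ⟨K, K1, CB, B1, hS⟩ := hS K0 κ0 hκ
  obtain ⟨mg, m0, m1, m2, m3, m4, m5⟩ := margin ha0 hab x0 x1
  obtain ⟨Ce, hCe⟩ : ∃ Ce, Ce = 100 * (C0 * Cp + 1) := ⟨_, rfl⟩
  have Ce0 : 0 ≤ Ce := by rw [hCe]; positivity
  obtain ⟨c0, c00, Cu, u1, hA⟩ := hA mg (16 * Ce) m0 (by positivity)
  have i1 : 0 < 1 / c0 := by positivity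
  have i2 : 0 < 2 / mg := by positivity
  refine ⟨c0 / 38, by positivity, c0 / (8 * Cp + 2), by positivity, 6 * Cu + 1 / c0 + 2 / mg,
    by linarith, fun w hw w1 w2 w3 w4 w5 w6 => ?_⟩
  have k0 := hw.κ0'
  have k1 := hw.κ1
  have P1 := hw.P1
  have e0 := hw.η00
  obtain ⟨Ms, s1, hA⟩ := hA (w.κ / 6) w.P (K * (2 * Ce + 6)) w.η0 (by positivity) (by linarith)
    (le_trans (pow_le_pow_left₀ (by positivity) (by
      rw [div_div_eq_mul_div]; exact div_le_div_of_nonneg_right (by linarith) k0.le) 8) hw.hP) e0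
  obtain ⟨Mk, q1, hB⟩ := hB w.P (K * (2 * Ce + 6))
  have CP1 : 1 ≤ Mk * (CB + 1) := one_le_mul_of_one_le_of_one_le q1 (by linarith)
  refine ⟨Mk * (CB + 1), CP1, c0 / (16 * w.P * Cw ^ 2), by positivity, fun ω hω => ?_⟩
  obtain ⟨o, o0, o1, o2⟩ : ∃ o > (0 : ℝ), o ≤ 1 ∧ o ≤ ω :=
    ⟨min 1 ω, lt_min one_pos hω, min_le_left _ _, min_le_right _ _⟩
  obtain ⟨e, e0', he⟩ : ∃ e > (0 : ℝ), Ms * e * CB = o / 2 :=
    ⟨o / (2 * Ms * CB), by positivity, by field_simp⟩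
  have he1 : Ms * e ≤ 1 := by linarith [le_mul_of_one_le_right (show 0 ≤ Ms * e by positivity) B1]
  have he2 : e ≤ 1 := (le_mul_of_one_le_left e0'.le s1).trans he1
  obtain ⟨dB, d0, d1, d2, d3⟩ : ∃ dB > (0 : ℝ), dB ≤ w.κ / 6 ∧ w.P * ((1 + Mk) * dB) ≤ c0 / 4 ∧
      Mk * dB * CB ≤ o / 2 := by
    refine ⟨min (w.κ / 6) (min (c0 / 4 / (w.P * (1 + Mk))) (o / 2 / (Mk * CB))), by positivity,
      min_le_left _ _, ?_, ?_⟩
    · rw [← mul_assoc, ← le_div_iff₀' (by positivity)]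
      exact (min_le_right _ _).trans (min_le_left _ _)
    · rw [mul_right_comm, ← le_div_iff₀' (by positivity)]
      exact (min_le_right _ _).trans (min_le_right _ _)
  have d4 : Mk * dB ≤ 1 := by linarith [le_mul_of_one_le_right (show 0 ≤ Mk * dB by positivity) B1]
  obtain ⟨u, u0, hu⟩ : ∃ u > (0 : ℝ), 100 * K * ((C' * Cw ^ 2 + 2) * u) = e / 100 :=
    ⟨e / 100 / (100 * K * (C' * Cw ^ 2 + 2)), by positivity, by field_simp⟩
  have u2 : u ≤ e / 100 := by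
    have : 1 ≤ 100 * K * (C' * Cw ^ 2 + 2) :=
      one_le_mul_of_one_le_of_one_le (by linarith) (by linarith [mul_nonneg hC' (sq_nonneg Cw)])
    linarith [le_mul_of_one_le_left u0.le this]
  refine ⟨u ^ 2, by positivity, fun CN n1 => ?_⟩
  obtain ⟨CV, hCV⟩ : ∃ CV, CV = 2 * CN * Cw := ⟨_, rfl⟩
  have v1 : 1 ≤ CV := by linarith [one_le_mul_of_one_le_of_one_le n1 hCw]
  obtain ⟨M, M1, hA⟩ := hA CV
  obtain ⟨ε, ε0, hε⟩ : ∃ ε > (0 : ℝ), 100 * (M * ε) = e := ⟨e / (100 * M), by positivity, by field_simp⟩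
  obtain ⟨d, δ0, δ1, δ2⟩ : ∃ d > (0 : ℝ), 10 ^ 7 * K * CV * d ≤ ε ∧ d ≤ u :=
    ⟨min (ε / (10 ^ 7 * K * CV)) u, by positivity,
      by rw [← le_div_iff₀' (by positivity)]; exact min_le_left _ _, min_le_right _ _⟩
  have δ3 : d ≤ 1 := by linarith
  have δ4 : d ^ 2 ≤ 1 := pow_le_one₀ δ0.le δ3
  obtain ⟨Z, hZ⟩ : ∃ Z, Z = 1 / d ^ 2 := ⟨_, rfl⟩
  have Z1 : 1 ≤ Z := by rw [hZ, le_div_iff₀ (by positivity)]; linarith
  have Zd : d ^ 2 * Z = 1 := by rw [hZ]; field_simp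
  obtain ⟨f, f0, f1, f2, f3⟩ : ∃ f > (0 : ℝ), 1000 * K * (Cw ^ 2 + (CN + C0 + 1)) * f ≤ d ^ 2 ∧
      3 * CV * w.P * f ≤ ε ∧ 8 * CN * f ≤ dB := by
    refine ⟨min (d ^ 2 / (1000 * K * (Cw ^ 2 + (CN + C0 + 1)))) (min (ε / (3 * CV * w.P))
      (dB / (8 * CN))), by positivity, ?_, ?_, ?_⟩ <;> rw [← le_div_iff₀' (by positivity)]
    exacts [min_le_left _ _, (min_le_right _ _).trans (min_le_left _ _),
      (min_le_right _ _).trans (min_le_right _ _)]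
  have j1 : 0 ≤ (2 + Mk) * (4 * Z) := by positivity
  have j2 : 0 ≤ (1 + Mk * (CB + 1)) * (1000 * Z) := by positivity
  have j3 : 0 ≤ 4 * K * Z := by positivity
  have j4 : 0 ≤ M * (6 * CB + 16 * Z + 1000 * CB * Z) := by positivity
  have j5 : 0 ≤ (2 * K * CV) ^ 2 := by positivity
  refine ⟨f, f0, (2 + Mk) * (4 * Z) + (1 + Mk * (CB + 1)) * (1000 * Z) + 4 * K * Z +
    M * (6 * CB + 16 * Z + 1000 * CB * Z) + (2 * K * CV) ^ 2 + 2 * M, by linarith, ?_⟩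
  generalize hX : (2 + Mk) * (4 * Z) + (1 + Mk * (CB + 1)) * (1000 * Z) + 4 * K * Z +
    M * (6 * CB + 16 * Z + 1000 * CB * Z) + (2 * K * CV) ^ 2 + 2 * M = X
  intro p hp hpw p1 p2 m i hm p3 p4 n J y0 pA pp p0 Ad φ c Ft F0 ψ ψ0 T T0 Wm W0 xa b0 ηA t Kk Kb R
    c1 c2 c3 c4 c5 th hb fa fb hx hA2 hAd
  subst hpw c1 c2 c3 c4 c5
  obtain ⟨lm, l1, l2, l3, l4, l5, l6, l7, l8, l9, l10, l11⟩ := rates hp hm
  have b1 := th.b1
  have t0 := th.t0
  have g0 := th.g0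
  have C1 := th.C1
  have r0 := sqrt_nonneg (n * t)
  have g2 : c.εw ≤ f := by linarith [th.g1, mul_nonneg C1 g0]
  have X1 : 1 ≤ X := by linarith
  have R0 : 0 ≤ R := le_trans (by positivity) th.R1
  have y1 : 0 ≤ 1000 * K := by positivity
  have y2 : 1000 * K * c.Cw ^ 2 * f ≤ d ^ 2 := by
    linarith [mul_nonneg (mul_nonneg y1 (show 0 ≤ c.CN + c.C0 + 1 by linarith)) f0.le]
  have y3 : 1000 * K * (c.CN + c.C0 + 1) * f ≤ d ^ 2 := by
    linarith [mul_nonneg (mul_nonneg y1 (sq_nonneg c.Cw)) f0.le]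
  have f4 : f ≤ 1 := by
    linarith [le_mul_of_one_le_left f0.le (one_le_mul_of_one_le_of_one_le
      (show 1 ≤ 1000 * K by linarith) (show 1 ≤ c.CN + c.C0 + 1 by linarith))]
  have z1 : Kb ≤ 1000 * Z * Kb := le_mul_of_one_le_left (by linarith) (by linarith)
  have hc : c.Ok K d (e / 100) (1000 * Z * Kb) R := by
    refine ⟨n1, hC0, hC', th.e0, th.e1.trans (pow_le_one₀ u0.le (by linarith)), th.f0, th.η0, th.K0, C1,
      hCw, hCp, th.w0, g0, by linarith, δ0, by linarith, by linarith, by linarith, by linarith [th.K1],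
      ?_, th.m1, th.m2, (mul_le_mul_of_nonneg_left th.f1 (by positivity)).trans y2, ?_, ?_⟩
    · have : d ^ 2 * (1000 * Z * Kb) = 1000 * Kb := by linear_combination 1000 * Kb * Zd
      linarith [th.K2]
    · have a1 : (c.CN + c.C0 + c.C1 + 1) * c.εw ≤ (c.CN + c.C0 + 1) * f := by
        linarith [mul_le_mul_of_nonneg_left th.g1 (show 0 ≤ c.CN + c.C0 + 1 by linarith),
          mul_nonneg (mul_nonneg (show 0 ≤ c.CN + c.C0 by linarith) C1) g0]
      linarith [mul_le_mul_of_nonneg_left a1 y1]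
    · have a1 : √c.e ≤ u := sqrt_le_left u0.le |>.2 th.e1
      have a2 : c.ew ≤ u := th.w1.trans (by
        rw [sq]; exact mul_le_of_le_one_left u0.le (by linarith))
      have a3 : c.C' * √c.e * c.Cw ^ 2 + c.ew + d ≤ (c.C' * c.Cw ^ 2 + 2) * u := by
        linarith [mul_le_mul_of_nonneg_left a1 (mul_nonneg hC' (sq_nonneg c.Cw))]
      linarith [mul_le_mul_of_nonneg_left a3 (show 0 ≤ 100 * K by positivity)]
  have eC : c.Ce = Ce := hCe.symm
  have eV : c.CV = CV := hCV.symm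
  have η2 : 2 * p.η0 ≤ mg := by
    have a1 : 2 / mg * p.η0 ≤ 1 := by
      linarith [hp.hη, mul_le_mul_of_nonneg_right (mul_le_mul (show 2 / mg ≤ p.Cu by linarith) P1
        zero_le_one (by linarith)) e0.le]
    rwa [div_mul_eq_mul_div, div_le_one m0] at a1
  have ec := ec_le hp hm i
  have ec0 : 0 ≤ p.ec (m + 1) i := mul_nonneg (sq_nonneg _) (hp.e0 _).le
  have s := hS n J y0 pA pp p0 Ad φ c Ft F0 ψ ψ0 T T0 Wm W0 p.P p.η0 (p.ah m) a' mg xa b0 e ε d (e / 100)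
    M (R / M) R dB ηA (p.ec (m + 1) i) t (1000 * Z * Kb) hb (Fa.mono fa δ0.le) (Fa.mono fb δ0.le) hc hA2
    hAd th.A0 th.m3 m0 m1 (by linarith) (by linarith) m4 η2
    (m5 _ _ (by linarith) (by linarith) fa.2.2.1 hx) (eV ▸ δ1)
    (by linarith [le_mul_of_one_le_left ε0.le M1]) he2 (by linarith)
    (by rw [eV]; exact (mul_le_mul_of_nonneg_left g2 (by positivity)).trans f2) (by
      have a1 : 4 * K * Z ≤ p.CN m i ^ 2 := (show _ ≤ p.CN m i by linarith).trans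
        (le_self_pow₀ (by linarith) two_ne_zero)
      have a2 := mul_le_mul_of_nonneg_left (mul_le_mul_of_nonneg_right a1 ec0) (sq_nonneg d)
      have a3 : d ^ 2 * (4 * K * Z * p.ec (m + 1) i) = 4 * K * p.ec (m + 1) i := by
        linear_combination 4 * K * p.ec (m + 1) i * Zd
      linarith [mul_le_mul_of_nonneg_left ec (sq_nonneg d)])
    ((mul_le_mul_of_nonneg_left g2 (by positivity)).trans f3) (by
      have a1 : 16 * t / d ^ 2 = 16 * Z * t := by rw [hZ]; ring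
      have a2 := mul_le_mul_of_nonneg_right (show M * (6 * CB + 16 * Z + 1000 * CB * Z) ≤ X by linarith)
        (show 0 ≤ t + √(n * t) + Kb by linarith)
      have a3 : CB * (6 * t + 1000 * Z * Kb) + 16 * Z * t ≤
          (6 * CB + 16 * Z + 1000 * CB * Z) * (t + √(n * t) + Kb) := by
        have : 0 ≤ (6 * CB + 16 * Z + 1000 * CB * Z) * √(n * t) + (6 * CB + 16 * Z) * Kb +
          1000 * CB * Z * t := by positivity
        linarith
      rw [a1, le_div_iff₀' (by positivity)]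
      linarith [mul_le_mul_of_nonneg_left a3 (zero_le_one.trans M1), th.R1]) (by
      have a2 := mul_le_mul_of_nonneg_right (show 2 * M ≤ X by linarith)
        (show 0 ≤ t + √(n * t) + Kb by linarith)
      have : 0 ≤ M * t + 2 * M * Kb := by positivity
      rw [le_div_iff₀' (by positivity)]
      linarith [th.R1]) M1 (by rw [mul_div_cancel₀ _ (by positivity)]) (by
      rw [eV]
      refine le_sqrt_of_sq_le ?_
      rw [mul_pow, sq_sqrt R0]
      linarith [th.R2, mul_le_mul_of_nonneg_right (show (2 * K * CV) ^ 2 ≤ X by linarith) R0])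
  rw [eC, eV] at s
  have gW := hp.gW0
  have gP := hp.gP0
  have e4 : 4 / d ^ 2 = 4 * Z := by rw [hZ]; ring
  have := hB mg (16 * Ce) c0 (p.κ / 6) p.η0 Ms CV M hA n J y0 pA Ad φ (p.ah m) a' e ε CB (4 / d ^ 2)
    (2 * c.Cw) (4 * c.Cp) dB (p.ec (m + 1) i) t (1000 * Z * Kb) lm (p.l m) (p.am m) (p.lb m)
    (p.am (m + 1)) p.gW p.gP (Mk * (CB + 1)) (p.CN m i) (p.ω m i) Kk s c00 (by positivity) (by linarith)
    (by linarith) (by linarith) e0'.le he1 (by linarith [mul_pos (zero_lt_one.trans_le M1) ε0])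
    (by linarith) l2 l3 l4 l5 l6 l7 l8 (by linarith) (by positivity) (by linarith) (by linarith) d0.le
    d1 (by positivity) gW.le gP.le (by
      rw [le_div_iff₀ (by positivity)] at p2
      have a1 := mul_le_mul_of_nonneg_left (mul_le_mul_of_nonneg_right
        (show p.gP + Mk ≤ 1 + Mk by linarith [hp.gP1]) d0.le) (zero_le_one.trans P1)
      linarith [mul_le_mul_of_nonneg_right l1 c00.le]) (by
      rw [le_div_iff₀ (by positivity)] at w2
      linarith [mul_le_mul_of_nonneg_right l1 c00.le]) (by linarith) le_rfl (by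
      rw [e4]
      linarith [mul_le_mul_of_nonneg_right (show Ms * e + Mk * dB + Mk ≤ 2 + Mk by linarith)
        (show 0 ≤ 4 * Z by linarith)]) (by
      have a1 := mul_le_mul_of_nonneg_right (show p.ω m i + Mk * (CB + 1) ≤ 1 + Mk * (CB + 1) by
        linarith [hp.ω1 m i]) (show 0 ≤ 1000 * Z * Kb by positivity)
      have a2 := mul_le_mul_of_nonneg_right
        (show (1 + Mk * (CB + 1)) * (1000 * Z) + M ≤ X by linarith) (zero_le_one.trans b1)
      linarith [th.bK, le_mul_of_one_le_right (zero_le_one.trans M1) b1])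
  rw [w6]
  exact mono this (by linarith [mul_le_mul_of_nonneg_right l1 c00.le])
    ((show 1 / c0 ≤ p.Cu by linarith).trans (le_div_self (by linarith) k0 k1)) p1

end Crest.Agent.T157.S1

end
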