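import Crest.Agent.T157.S1LocDef_60
import Crest.Agent.T157.KFl_25
import Crest.Agent.T157.S1PSc_71
import Crest.Agent.T157.S1BpDef_30
import Crest.Agent.T157.S1SupC_60
import Crest.Agent.T157.RipG_25
import Crest.Agent.T157.S1Lin_97
import Crest.Agent.T157.Cav_35

-- ▼ part T157/S1Loc_60
section

/-!
# Row 157, block S1 (helper60): assembly of the local supply
-/

set_option autoImplicit false

noncomputable section

namespace Crest.Agent.T157.S1.SA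

open Matrix Filter Finset MeasureTheory
open Crest.Agent.T157.Eig Crest.Agent.T157.E
open Crest.Agent.T157.S3 (V Mx)
open Crest.Agent.T157.S3.An90
open Crest.Agent.T157.S3.T60 (MO DO a0 alf)
open Crest.Agent.T157.Pos (In TF Lv)
open Crest.Agent.T157.Tw (sech2 sech2_pos)
open Crest.Agent.T157.K (TY bf ty_iff ty_bf)
open Crest.Agent.T157.Kz (Vy Be Mu TokA)

/-- **one tilt** -/
theorem tokA_of (K0 κ0 : ℝ) (hκ : 0 < κ0) : ∃ Cb ≥ (1 : ℝ), ∀ (n : ℕ) (p : Par) (z : Cap) (J : Mx n)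
    (m i : ℕ) (y0 pA al q w : V n) (u ei C C0 C' e e1 η K C1 K1 δ : ℝ) (E : V n → ℝ)
    (Tg T : Cube n → Mx n) (ψ : Cube n → V n) (k : ℕ) (d : Fin k → V n) (ι : Type) (f : ι → V n),
    0 < n → opn J ≤ 3 → Bas J K0 κ0 y0 →
    Cp J y0 (p.ah m) C C0 C' e e1 η K E pA q (al * q) Tg ψ T → (∀ j, 0 ≤ pA j) → 0 ≤ C' → 0 ≤ e →
    e1 ≤ 1 → ‖w‖ ≤ η → nrm w ≤ u → u ^ 2 ≤ z.t' m → E w ≤ Ety e1 C1 K1 d w →
    (∀ j, |w ⬝ᵥ d j| ≤ δ * u) → (∀ b, |w ⬝ᵥ (√(n : ℝ))⁻¹ • f b| ≤ δ * u) → 0 ≤ C1 → 0 ≤ K1 →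
    C1 * k * δ ^ 2 ≤ e1 → δ ^ 2 ≤ ei → Cb * (C' * (e + √e) + 3 * e1) ≤ p.ω m i ^ 4 →
    Cb * (3 * e1) ≤ ei → ei ≤ p.e1 (m + 1) i → C ≤ p.CN m i → 2 * C0 ≤ p.C0 →
    Cb * (K1 + 1) ≤ z.K → K1 ≤ ei * z.K →
    TokA p z J m i y0 pA al q w u ei Tg f fun σ => w ⬝ᵥ ψ σ := by
  obtain ⟨Cb, b1, H⟩ := ansW K0 κ0 hκ
  refine ⟨Cb, b1, fun n p z J m i y0 pA al q w u ei C C0 C' e e1 η K C1 K1 δ E Tg T ψ k d ι f n0 hJ hB h
    hp c' e0 e11 hw hu ut hE hd hf c1 k1 d1 d2 a1 a2 a3 a4 a5 a6 a7 => ?_⟩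
  obtain ⟨Ω, ⟨hr, hx, -⟩, -⟩ := h.ans.vg w hw
  have f0 := Rg.e0 hr
  have u0 := (nrm_nonneg w).trans hu
  have sq' : ∀ {t : ℝ}, |t| ≤ δ * u → t ^ 2 ≤ δ ^ 2 * u ^ 2 := fun ht => by
    rw [← mul_pow, ← sq_abs]; exact pow_le_pow_left₀ (abs_nonneg _) ht 2
  have q0 := sq_nonneg u
  have hE' : E w ≤ 2 * e1 * u ^ 2 + K1 := by
    have s1 := sum_le_card_nsmul univ _ _ fun j _ => sq' (hd j)
    rw [card_univ, Fintype.card_fin, nsmul_eq_mul] at s1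
    have := mul_le_mul_of_nonneg_left s1 c1
    have := mul_le_mul_of_nonneg_left ((nrm_le_iff u0).1 hu) f0
    have := mul_le_mul_of_nonneg_right d1 q0
    rw [Ety] at hE
    linarith
  have g1 : 3 * e1 ≤ ei := (le_mul_of_one_le_left (by linarith) b1).trans a2
  have hE2 : E w ≤ ei * (u ^ 2 + z.K) := by nlinarith
  have c0 : 0 ≤ C := (opn_nonneg _).trans (h.ans.opψ default)
  obtain ⟨Ω', G, H⟩ := H n J y0 _ C (p.C0 / 2) C' e e1 η K E pA q al ψ T hJ hB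
    (amono h.ans le_rfl (fun v => mul_le_mul_of_nonneg_right (by linarith) (sum_nonneg fun l _ => by
      rw [Pi.mul_apply, mul_left_comm]; exact mul_nonneg (hp _) (mul_self_nonneg _)))
      le_rfl le_rfl le_rfl fun _ => le_rfl) c' e0 e11 w hw
  have H1 := H u (2 * e1) K1 (p.ω m i ^ 4) (p.e1 (m + 1) i) (p.CN m i) z.K hu hE' (by linarith) k1
    (by linarith) (by linarith) a4 a6
  rw [mul_div_cancel₀ _ two_ne_zero] at H1
  refine ⟨⟨_, _, _, H1⟩, u0, ut, hu, ⟨Ω, Rg.mono hr (by linarith)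
    (mul_le_mul a4 hu (nrm_nonneg w) (c0.trans a4)), Exc.mono hx (by linarith) hE2 fun _ => le_rfl⟩,
    Exc.mono (h.lk w hw) (by linarith) hE2 fun _ => le_rfl, fun b => ?_⟩
  have n1 : (0 : ℝ) < n := Nat.cast_pos.2 n0
  have := sq' (hf b)
  rw [dotProduct_smul, smul_eq_mul, mul_pow, inv_pow, Real.sq_sqrt n1.le, inv_mul_le_iff₀ n1] at this
  nlinarith [mul_le_mul_of_nonneg_right d2 (mul_nonneg n1.le q0)]

variable {β s : ℝ}

lemma mu_of (hβ : β ∈ Set.Ioo (0 : ℝ) 1) (hs : 0 ≤ s) {ψ : ℝ → ℝ} {M : ℝ} (hc : Continuous ψ)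
    (he : ∀ x, ψ (-x) = ψ x) (hb : ∀ x, |ψ x| ≤ M) : Mu β s fun n J y k => ψ (bf β n J y k) :=
  fun _ h => ty_iff.2 (Z.ap_ev0 ⟨hβ.1.le, hβ.2.le⟩ (ty_iff.1 (ty_bf hβ hs)) (ty_iff.1 h) hc he hb)

lemma ty_od (hβ : β ∈ Set.Ioo (0 : ℝ) 1) (hs : 0 ≤ s) {ψ : ℝ → ℝ} (hc : Continuous ψ)
    (hb : ∀ x, |ψ x| ≤ 1) : (TY β s fun n J y k => od ψ (bf β n J y k)) ∧
      Be fun n J y k => od ψ (bf β n J y k) := by
  have h1 : ∀ x, |od ψ x| ≤ 1 := fun x => by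
    have h1 := abs_le.1 (hb x)
    have h2 := abs_le.1 (hb (-x))
    exact abs_le.2 ⟨by rw [od]; linarith, by rw [od]; linarith⟩
  exact ⟨ty_iff.2 (Z.ap_od0 ⟨hβ.1.le, hβ.2.le⟩ (ty_iff.1 (ty_bf hβ hs))
    (show Continuous (od ψ) by unfold od; fun_prop) (fun x => by simp only [od, neg_neg]; ring) h1),
    1, fun _ _ _ _ => h1 _⟩

lemma ah_le60 {w : P2} (h : w.Ok) {m : ℕ} (hm : m < w.N) : 0 ≤ ah w m ∧ ah w m ≤ w.ab := by
  have d0 : 0 < 1 - 2 * w.η0 := by linarith [h.η01]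
  have a0 : 0 < w.a := h.a00.trans h.a0a
  have k0 := h.κ0'
  refine ⟨by rw [ah]; positivity, (div_le_iff₀ d0).2 (le_trans (mul_le_mul_of_nonneg_left
    (pow_le_pow_right₀ (by linarith) (by omega)) a0.le) h.ra)⟩

lemma small {f : ℝ → ℝ} (hf : Continuous f) (h0 : f 0 = 0) {a : ℝ} (ha : 0 < a) :
    ∀ᶠ x in nhdsWithin (0 : ℝ) (Set.Ioi 0), f x ≤ a :=
  ((hf.tendsto' 0 0 h0).eventually (eventually_le_nhds ha)).filter_mono nhdsWithin_le_nhds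

lemma sizes (A : ℝ) {e : ℝ} (he : 0 < e) (hA : 0 ≤ A) :
    ∀ᶠ n : ℕ in atTop, 0 < n ∧ A * (Real.log n + 1) ≤ (n : ℝ) ^ e := by
  filter_upwards [Sc71.ev (2 * A) he, eventually_ge_atTop 1] with n h n1
  have l1 := Sc71.one_le_log n1
  have n2 : (1 : ℝ) ≤ n := by exact_mod_cast n1
  have l2 : Real.log n ≤ Real.log (n + 2) := Real.log_le_log (by linarith) (by linarith)
  rw [Real.rpow_zero, one_mul] at h
  exact ⟨n1, by nlinarith⟩

set_option maxHeartbeats 1000000 in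
/-- **the assembly** -/
theorem locGlue : LocGlue := by
  intro β hβ l l1 hA hB hL b0 ab a' h0 h1 h2 h3
  have a'0 : 0 ≤ a' := by linarith
  obtain ⟨K0, -, r, r0, κ0, κp, W0, hb⟩ := tf_ball hβ
  have hBas : ∀ s ≥ (0 : ℝ), ∀ᶠ i in TF β s, Bas (i.J β) K0 κ0 i.y := fun s hs =>
    (hb s hs).mono fun i h => h.bas r0.le
  obtain ⟨C0, c0', C', c', HA⟩ := hA a' h3 K0 κ0 κp hBas
  obtain ⟨c0, c00, gP, gP0, Cu, Cu1, HB⟩ := hB K0 κ0 b0 ab a' C0 C' κp h0 h1 h2 h3 c0' c' hBas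
    fun s q0 hq => (HA s q0 hq 0 le_rfl a'0).imp fun g h => ⟨h.1, fun e he =>
      let ⟨s0, ρ, Tg, d, _, t⟩ := h.2 e he
      ⟨s0, ρ, Tg, d, trivial, t⟩⟩
  obtain ⟨D0, C1, C11, HL⟩ := hL a' h3 a'0
  obtain ⟨Cb, Cb1, HT⟩ := tokA_of K0 κ0 κp
  refine ⟨⟨K0, κ0, l / 6, max (max (2 * C0) D0) 1, C1, 0, c0, min gP 1, Cu⟩,
    ⟨κp, by show 0 < l / 6; linarith, by show l / 6 ≤ 1; linarith, le_max_right _ _, C11, le_rfl, c00,
      lt_min gP0 one_pos, min_le_right _ _, Cu1⟩,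
    ⟨W0, fun s hs => ⟨r, r0, (hb s hs).mono fun x hx y hy => by simpa using (hx _ hy).1⟩⟩,
    fun w wk hw w1 w2 w3 => ?_⟩
  have v1 : w.lq = l / 6 := congrArg P1.lq hw
  have v2 : w.C0 = max (max (2 * C0) D0) 1 := congrArg P1.C0 hw
  have v3 : w.C1 = C1 := congrArg P1.C1 hw
  obtain ⟨CP, CP1, gW, gW0, HB⟩ := HB w wk (congrArg P1.c0 hw).le
    ((congrArg P1.gP hw).le.trans (min_le_left _ _)) (congrArg P1.Cu hw).ge w1 w2 w3
  obtain ⟨DP, HL⟩ := HL w.P wk.P1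
  obtain ⟨eT, eT0, HL⟩ := HL w.eL wk.eL0
  refine ⟨max CP DP, gW, le_max_of_le_left CP1, gW0, fun m m1 mN => ?_⟩
  have s0' : 0 ≤ m * w.τ := mul_nonneg (Nat.cast_nonneg m) wk.τ0.le
  obtain ⟨q0, hq⟩ := Pos.exists_lv β s0'
  have ah0 := (ah_le60 wk mN).1
  have ah1 : ah w m ≤ a' := by linarith [(ah_le60 wk mN).2]
  obtain ⟨g, hg, HA⟩ := HA _ q0 hq _ ah0 ah1
  refine ⟨fun n J y k => sech2 (bf β n J y k),
    fun n J y k => a0 β (S3P.nu (m * w.τ + β ^ 2 * q0)) g (bf β n J y k), fun ω ω0 ω1 => ?_⟩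
  obtain ⟨eB, eB0, HB⟩ := HB m mN m1 q0 hq g hg ω ω0
  have o4 : 0 < ω ^ 4 := by positivity
  obtain ⟨e, ⟨⟨⟨eB', eT'⟩, eω⟩, eC⟩, e0⟩ := ((((small continuous_id rfl eB0).and
    (small continuous_id rfl eT0)).and (small continuous_id rfl o4)).and
    (small (f := fun e => Cb * (C' * (e + √e))) (by fun_prop) (by simp) (half_pos o4))).and
    self_mem_nhdsWithin |>.exists
  replace e0 : 0 < e := e0
  obtain ⟨s0, ρ, Tg, hd, ⟨T, hT, rT⟩, C, C1', HA⟩ := HA e e0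
  obtain ⟨X, δB, δB0, HB⟩ := HB e e0 eB' s0 ρ hd C C1'
  have cs : Continuous sech2 := by
    unfold sech2; fun_prop (disch := intro x; positivity [Real.cosh_pos x])
  have cq : Continuous (qf ρ) := by
    have := (hd.cb 0).1.continuous
    unfold qf; fun_prop
  have q0' : ∀ x, 0 ≤ qf ρ x := fun x =>
    (mul_nonneg (by linarith) (sech2_pos x).le).trans (qf_mem hd x).1
  refine ⟨max C X, fun n J y k => qf ρ (bf β n J y k), T, mu_of (M := 2) hβ s0' cq (qf_neg hd)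
    fun x => by rw [abs_of_nonneg (q0' x)]; linarith [(qf_mem hd x).2, sech2_le x],
    mu_of (M := 8) (ψ := fun x => a0 β (S3P.nu (m * w.τ + β ^ 2 * q0)) g x * qf ρ x) hβ s0'
      (((continuous_const.div hg.cont fun x => (hg.pos x).ne').add continuous_const).mul cq)
      (fun x => by rw [a0, a0, hg.even, qf_neg hd]) fun x => by
        rw [abs_of_nonneg (mul_nonneg (hg.a0 x).1.le (q0' x))]
        linarith [mul_le_mul_of_nonneg_left (qf_mem hd x).2 (hg.a0 x).1.le, (hg.a0 x).2],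
    hT, fun ei ei0 ι _ f hf => ?_⟩
  obtain ⟨e1, ⟨⟨⟨f1, f2⟩, f3⟩, f4⟩, f0⟩ := ((((small continuous_id rfl δB0).and
    (small continuous_id rfl one_pos)).and
    (small (f := fun e => Cb * (3 * e)) (by fun_prop) (by simp) ei0)).and
    (small (f := fun e => Cb * (3 * e)) (by fun_prop) (by simp) (half_pos o4))).and
    self_mem_nhdsWithin |>.exists
  obtain ⟨η, η0, k, d, A, hd', A0, HA⟩ := HA e1 f0
  obtain ⟨δ, ⟨δ1, δ2⟩, δ0⟩ := ((small (f := fun x => A * k * x ^ 2) (by fun_prop) (by simp) f0).and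
    (small (f := fun x => x ^ 2) (by fun_prop) (by simp) ei0)).and self_mem_nhdsWithin |>.exists
  set ev := Fintype.equivFin (Fin k ⊕ ι)
  set h : Fin k ⊕ ι → Vy := Sum.elim (fun j n J y l => od (d j) (bf β n J y l)) f with hh
  have th : ∀ b, TY β (m * w.τ) (h b) ∧ Be (h b) := by
    rintro (j | b)
    exacts [ty_od hβ s0' (hd' j).1 (hd' j).2, hf b]
  obtain ⟨ε, R, ε0, ε1, HL⟩ := HL _ q0 hq _ ah0 ah1 g hg e s0 ρ eT' hd _ (fun b => h (ev.symm b))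
    (fun b => th _) δ δ0
  refine ⟨η / 3, by positivity, _, fun b => h (ev.symm b), R, fun b => (th _).1,
    fun p i hp hei c e' c0 c1 e'0 => ?_⟩
  obtain ⟨pk, rfl, hP, hW, -, rfl, hC, hη⟩ := hp
  have cm : 0 < c / 16 ^ m / 2 := by positivity
  filter_upwards [HA, HB e1 f0 f1 η η0 k d A hd' A0 ι f hf δ δ0 p i pk rfl
    (hP ▸ le_max_left _ _) hW.le le_rfl ((le_max_right _ _).trans hC) c e' c0 c1 e'0,
    HL _ (pk.h0 (p.bt (m + 1) i)) (1 - c / 16 ^ m / 2) (by linarith) p.C0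
      (v2 ▸ le_max_of_le_left (le_max_right _ _)) p.CP (hP ▸ le_max_right _ _),
    hBas _ s0', Pos.TF.opn ⟨hβ.1, hβ.2.le⟩, Pos.TF.lim.eventually
      (sizes (Cb * (A + 1) + A / ei) e'0 (by positivity))]
    with x hA hB ⟨k', v, l1, l2, l3⟩ hb hJ ⟨n0, hn⟩
  obtain ⟨ψ, T', hc⟩ := hA.all
  have l0 : 0 ≤ Real.log x.n := Real.log_natCast_nonneg _
  have key : ∀ (w : V x.n) (u : ℝ) (E : V x.n → ℝ) ψ T' (d : Fin k → V x.n),
      Cp (x.J β) x.y (p.ah m) C C0 C' e e1 η (Real.log x.n) E (fun l => sech2 (x.b β l) + e)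
        (fun l => qf ρ (x.b β l)) (fun l => alf s0 (p.ah m) ρ (x.b β l) * qf ρ (x.b β l)) (Tg x) ψ T' →
      E w ≤ Ety e1 A (A * Real.log x.n) d w →
      AdS η δ ((capOf p c e' x.n).t' m) d (fun b => wv β (f b) x) w u →
      TokA p (capOf p c e' x.n) (x.J β) m i x.y (fun l => sech2 (x.b β l) + e)
        (fun l => alf s0 (p.ah m) ρ (x.b β l)) (fun l => qf ρ (x.b β l)) w u ei
        (T x.n (x.J β) x.y) (fun b => f b x.n (x.J β) x.y) fun σ => w ⬝ᵥ ψ σ :=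
    fun w u E ψ T' d hc hE ⟨a1, a2, a3, a4, a5⟩ => by
      have b1 : 0 ≤ A / ei * (Real.log x.n + 1) := by positivity
      have b2 : 0 ≤ Cb * (A + 1) * (Real.log x.n + 1) := by positivity
      refine rT x ▸ HT _ p _ _ m i _ _ _ _ w u ei C C0 C' e e1 η _ A _ δ E _ T' ψ k d ι _ n0 hJ hb hc
        (fun j => by positivity [sech2_pos (x.b β j)]) c' e0.le f2 a1 a2 a3 hE a4 a5 A0
        (by positivity) δ1 δ2 (by linarith) f3 hei ((le_max_left _ _).trans hC)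
        (v2 ▸ le_max_of_le_left (le_max_left _ _)) ?_ ?_
      · refine le_trans ?_ (show Cb * (A + 1) * (Real.log x.n + 1) ≤ (x.n : ℝ) ^ e' by linarith)
        rw [mul_assoc]
        exact mul_le_mul_of_nonneg_left (by nlinarith) (by linarith)
      · refine le_trans ?_ (mul_le_mul_of_nonneg_left
          (show A / ei * (Real.log x.n + 1) ≤ (x.n : ℝ) ^ e' by linarith) ei0.le)
        rw [← mul_assoc, mul_div_cancel₀ _ ei0.ne']
        linarith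
  refine ⟨fun l => sech2 (x.b β l) + e, fun l => alf s0 (p.ah m) ρ (x.b β l), k', v, ε, _,
    fun v σ => v ⬝ᵥ ψ σ, ε0, ε1, fun j => ⟨by positivity [sech2_pos (x.b β j)],
      add_le_add le_rfl eω⟩, by rw [v1, v3]; exact l1, fun w u hw => ?_,
    fun w u hw => key w u _ ψ T' _ hc le_rfl hw, hB ψ T' hc.ans, l2⟩
  obtain ⟨E, ψ', T'', h1, h2⟩ := hA.odd w
  refine ⟨_, key w u E ψ' T'' _ h1 h2 ⟨hw.1.trans (by linarith), hw.2.1, hw.2.2.1, fun j => ?_,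
    fun b => ?_⟩⟩
  · have := l3 _ w u hw (ev (.inl j))
    rw [Equiv.symm_apply_apply] at this
    exact this
  · have := l3 _ w u hw (ev (.inr b))
    rw [Equiv.symm_apply_apply] at this
    exact this

end Crest.Agent.T157.S1.SA

end
end

-- ▼ part T157/S1BpT_30
section

/-!
# Row 157, block S1 (helper30): the burst part of the supply along the typical filter
-/

set_option autoImplicit false
set_option maxHeartbeats 800000

noncomputable section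

namespace Crest.Agent.T157.S1

open Real Matrix Filter Finset MeasureTheory
open Crest.Agent.T157.Eig Crest.Agent.T157.E
open Crest.Agent.T157.S3 (V Mx AnsAt)
open Crest.Agent.T157.S3.T60 (MO DO a0 alf)
open Crest.Agent.T157.Pos (In TF Lv)
open Crest.Agent.T157.Tw (sech2 sech2_pos)
open Crest.Agent.T157.Rip (Cav Fs FlW)
open Crest.Agent.T157.Uw (eta)
open SA

namespace BpT30

lemma cav_half {n : ℕ} {J Wm : Mx n} {p p' q α : V n} {x C C0 e ε m R d : ℝ} {Ft : Set (V n)}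
    (h : Cav J p q α x C C0 e ε m Ft Wm) (hR : opn J ≤ R) (hC : C ≤ R) (hd : 0 ≤ d)
    (hp : ∀ i, p' i ≤ p i + d) (hx : d * R ^ 2 ≤ x) : Cav J p' q α x C (C0 + 1) e ε m Ft Wm :=
  have h' := h.weight hR hC hd hp
  ⟨h.nr, fun c hc => (h'.en c hc).trans
      (mul_le_mul_of_nonneg_right (by linarith) (Eig.dot_self_nonneg c)), h.fl, h.fj, h.eq, h.ty, h.jj,
    fun c hc => (h'.je c hc).trans (mul_le_mul_of_nonneg_right (by linarith) (Eig.dot_self_nonneg c))⟩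

lemma cont_sech2 : Continuous sech2 := by
  unfold sech2
  exact continuous_const.div (by fun_prop) fun x => by positivity [Real.cosh_pos x]

/-- the constants of the cavity vectors -/
def r0 (β l a' : ℝ) : ℝ := max (1 - β * (l - a')) 0
def C2 (β l : ℝ) : ℝ := 6 / (l * β) + 4
def Cw (β l a' : ℝ) : ℝ := 2 * C2 β l / (1 - r0 β l a')
def Cq (β l a' : ℝ) : ℝ := 2 * C2 β l ^ 2 / (1 - r0 β l a') ^ 2 + 1

variable {β l a' : ℝ}

lemma r0_lt (hβ : β ∈ Set.Ioo (0 : ℝ) 1) (h : a' < l) : r0 β l a' < 1 :=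
  max_lt (by linarith [mul_pos hβ.1 (sub_pos.2 h)]) one_pos

lemma C2_ge (hβ : β ∈ Set.Ioo (0 : ℝ) 1) (hl : 0 < l) : 4 ≤ C2 β l :=
  le_add_of_nonneg_left (by have := hβ.1; positivity)

lemma Cw_ge (hβ : β ∈ Set.Ioo (0 : ℝ) 1) (hl : 0 < l) (h : a' < l) : 3 ≤ Cw β l a' := by
  rw [Cw, le_div_iff₀ (sub_pos.2 (r0_lt hβ h))]
  have : 0 ≤ r0 β l a' := le_max_right _ _
  linarith [C2_ge hβ hl]

lemma int_pos {a : ℝ} {ν : Measure ℝ} [IsProbabilityMeasure ν] {g : ℝ → ℝ} (hβ : 0 < β)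
    (ha : a ≤ l) (hg : MO β l a ν g) : 0 < ∫ y, g y ∂ν := by
  rw [integral_pos_iff_support_of_nonneg (fun y => (hg.pos y).le) ((integrable_const (1 / β)).mono'
    hg.cont.aestronglyMeasurable (.of_forall fun y => by
      rw [Real.norm_eq_abs, abs_of_pos (hg.pos y), le_div_iff₀' hβ]
      exact (mo_le hg hβ ha y).trans (sech2_le y))),
    show Function.support g = Set.univ from Set.eq_univ_of_forall fun y => (hg.pos y).ne']
  simp

/-- **one family at typical instances** -/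
lemma faT (hβ : β ∈ Set.Ioo (0 : ℝ) 1) (hl : 0 < l) (hl1 : l ≤ 1) (ha' : a' < l) {s q0 a C0 C' : ℝ}
    (hL : Lv β s q0) (h0 : 0 ≤ a) (ha : a ≤ a') (c1 : 0 ≤ C') {g : ℝ → ℝ}
    (hg : MO β l a (S3P.nu (s + β ^ 2 * q0)) g) : ∃ e0 > (0 : ℝ),
    ∀ (e s0 : ℝ) (ρ : ℝ → ℝ), 0 < e → e ≤ e0 → DO l a e s0 (a0 β (S3P.nu (s + β ^ 2 * q0)) g) ρ →
    ∀ (k : ℕ) (d : Fin k → ℝ → ℝ), (∀ j, Continuous (d j) ∧ ∀ x, |d j x| ≤ 1) →
    ∀ Vf, FlW β s g (qf ρ) Vf → (∀ᶠ i in TF β s, ∀ f ∈ Vf i, nrm f ≤ 1) → ∀ ε > (0 : ℝ), ε ≤ e →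
    ∃ μ > (0 : ℝ), ∀ᶠ i in TF β s, ∃ x Wm, x ≤ β ∧ ∀ (c : FC) (C e1 η C1 : ℝ) ψ T, c.C0 = 2 * C0 →
      c.C' = C' → c.e = e → c.Cw = Cw β l a' → c.Cp = Cq β l a' → c.ew = (Cw β l a' + 1) * (4 * e) →
      c.εw = ε → c.m ≤ μ * i.n → C ≤ c.CN → 10 ≤ c.CN → e1 ≤ c.e1 → c.η ≤ η → log i.n ≤ c.K0 →
      C1 * log i.n ≤ c.K' → 0 ≤ C1 → C1 * k ≤ c.C1 →
      AnsAt (i.J β) i.y a C C0 C' e e1 η (log i.n) (Ety e1 C1 (C1 * log i.n) fun j => fv β (d j) i)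
        (fun k => sech2 (i.b β k) + e) (fun k => qf ρ (i.b β k))
        (fun k => alf s0 a ρ (i.b β k) * qf ρ (i.b β k)) ψ T →
      Fa c (i.J β) i.y a x 0 (fun k => (sech2 (i.b β k) + e) / 2)
        ((Fs fun j k => d j (i.b β k)) ∪ Vf i) ψ T Wm := by
  have b0 := hβ.1
  have al : a ≤ l := by linarith
  have w3 := Cw_ge hβ hl ha'
  have c4 := C2_ge hβ hl
  obtain ⟨z, hz⟩ : ∃ z, z = β ^ 2 * ∫ y, g y ∂S3P.nu (s + β ^ 2 * q0) := ⟨_, rfl⟩
  have z0 : 0 < z := hz ▸ mul_pos (pow_pos b0 2) (int_pos b0 al hg)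
  have w1 : 1 ≤ Cw β l a' ^ 2 := one_le_pow₀ (by linarith)
  have D1 : 1 ≤ (C' + 1) * Cw β l a' ^ 2 := one_le_mul_of_one_le_of_one_le (by linarith) w1
  refine ⟨min 1 (z / (2 * ((C' + 1) * Cw β l a' ^ 2))), by positivity,
    fun e s0 ρ e0 he hd k d cd Vf hV nV ε ε0 εe => ?_⟩
  have e1 : e ≤ 1 := he.trans (min_le_left _ _)
  have e2 : e * (2 * ((C' + 1) * Cw β l a' ^ 2)) ≤ z :=
    (le_div_iff₀ (by positivity)).1 (he.trans (min_le_right _ _))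
  have gb : ∀ x, β * g x ≤ 1 := fun x => (mo_le hg b0 al x).trans (sech2_le x)
  have sq : ∀ x, sech2 x / β ≤ C2 β l * qf ρ x := fun x => by
    have h1 := (qf_mem hd x).1
    have h2 : 0 ≤ qf ρ x := le_trans (by positivity [sech2_pos x]) h1
    calc sech2 x / β = 6 / (l * β) * (l / 6 * sech2 x) := by field_simp
      _ ≤ 6 / (l * β) * qf ρ x := mul_le_mul_of_nonneg_left h1 (by positivity)
      _ ≤ _ := mul_le_mul_of_nonneg_right (le_add_of_nonneg_right (by norm_num)) h2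
  obtain ⟨μ, μ0, H⟩ := Rip.TF.cavV ⟨b0, hβ.2.le⟩ hL (M := 1 / β) (ρ := r0 β l a') (C2 := C2 β l)
    (e := 4 * e) (one_le_one_div b0 hβ.2.le) (le_max_right _ _) (r0_lt hβ ha') (by linarith)
    (by positivity) ε0 hg.cont hg.even (q := qf ρ)
    ((continuous_const.mul (hd.cb 0).1.continuous).mul cont_sech2) (fun j => (cd j).1)
    (fun j => (cd j).2) (fun x => ⟨hg.pos x, (le_div_iff₀' b0).2 (gb x),
      (mo_hi hg b0 ha x).trans ((mul_le_of_le_one_left (mo_r0 hg b0 ha).le (sech2_le x)).trans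
        (le_max_left _ _)), ((le_div_iff₀' b0).2 (mo_le hg b0 al x)).trans (sq x)⟩) hV
  refine ⟨μ, μ0, ?_⟩
  filter_upwards [H, nV, Pos.TF.opn ⟨b0, hβ.2.le⟩, Pos.TF.lim.eventually (eventually_gt_atTop 0)]
    with i ⟨h1, h2⟩ h3 h4 hn
  rw [← S3P.int_nu _ hg.cont, ← hz] at h1
  obtain ⟨x, hx⟩ : ∃ x, x = eta (β / √i.n) fun k => g (i.b β k) := ⟨_, rfl⟩
  rw [← hx] at h1 h2
  have q1 : ∀ y, 0 ≤ qf ρ y ∧ qf ρ y ≤ 2 * sech2 y := fun y =>
    ⟨le_trans (by positivity [sech2_pos y]) (qf_mem hd y).1, (qf_mem hd y).2⟩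
  have q2 : ∀ y, qf ρ y ≤ 2 := fun y => by linarith [(q1 y).2, sech2_le y]
  have q3 : ∀ y, qf ρ y * |alf s0 a ρ y - a0 β (S3P.nu (s + β ^ 2 * q0)) g y| ≤ 2 * e := fun y => by
    linarith [mul_le_mul_of_nonneg_right (q1 y).2
      (abs_nonneg (alf s0 a ρ y - a0 β (S3P.nu (s + β ^ 2 * q0)) g y)), hd.al y]
  obtain ⟨Wm, hW⟩ := h2 (fun k => sech2 (i.b β k))
    (fun k => alf s0 a ρ (i.b β k) * qf ρ (i.b β k)) (fun k => ⟨(sech2_pos _).le,
      (le_div_self (sech2_pos _).le b0 hβ.2.le).trans (sq _), by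
        linarith [hg.lo (i.b β k), mul_le_mul_of_nonneg_right c4 (hg.pos (i.b β k)).le]⟩) fun k => by
    have e3 : alf s0 a ρ (i.b β k) * qf ρ (i.b β k) - qf ρ (i.b β k) * (1 / g (i.b β k) + x) =
        qf ρ (i.b β k) * (alf s0 a ρ (i.b β k) - a0 β (S3P.nu (s + β ^ 2 * q0)) g (i.b β k)) -
          qf ρ (i.b β k) * (x - z) := by rw [a0, ← hz]; ring
    rw [e3]
    refine (abs_sub _ _).trans ?_
    rw [abs_mul, abs_mul, abs_of_nonneg (q1 _).1]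
    linarith [q3 (i.b β k), mul_le_mul (q2 (i.b β k)) h1 (abs_nonneg _) zero_le_two]
  have x1 : e * ((C' + 1) * Cw β l a' ^ 2) ≤ x := by
    linarith [(abs_le.1 h1).1, mul_le_mul_of_nonneg_left D1 e0.le]
  have x2 : x ≤ β := by
    have n0 : (0 : ℝ) < i.n := Nat.cast_pos.2 hn
    rw [hx, Rip.eta_avg hn, Tap.avg, ← mul_div_assoc, div_le_iff₀ n0, mul_sum]
    refine (sum_le_card_nsmul _ _ β fun k _ => ?_).trans (by simp [mul_comm])
    linarith [mul_le_mul_of_nonneg_left (gb (i.b β k)) b0.le]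
  have y1 : 0 ≤ e * Cw β l a' ^ 2 := by positivity
  have y2 : 0 ≤ C' * e * Cw β l a' ^ 2 := by positivity
  refine ⟨x, Wm, x2, fun c C f η C1 ψ T k1 k2 k3 k4 k5 k6 k7 k8 k9 k10 k11 k12 k13 k14 k15 k16 hA =>
    ⟨h0, by linarith, by linarith, by linarith [hβ.2], by rw [k2, k3, k4]; linarith, ?_,
      Ety f C1 (C1 * log i.n) fun j => fv β (d j) i, fun k => qf ρ (i.b β k),
      fun k => alf s0 a ρ (i.b β k) * qf ρ (i.b β k), ?_, ?_, fun w t t0 ht => ?_, fun k => ⟨by positivity [sech2_pos (i.b β k)],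
        by linarith [sech2_le (i.b β k)], (abs_of_nonneg (q1 _).1).trans_le (q2 _), ?_⟩⟩⟩
  · rintro f (⟨j, rfl⟩ | hf)
    exacts [Rip.nrm_flat fun k => (cd j).2 _, h3 f hf]
  · rw [k1, k2, k3]
    refine amono hA k9 (fun w => le_of_eq ?_) k11 k12 k13 fun _ => le_rfl
    simp only [dotProduct, Pi.mul_apply, mul_sum]
    exact sum_congr rfl fun _ _ => by ring
  · rw [k4, k5, k6, k7]
    exact (cav_half hW (h4.trans w3) le_rfl e0.le
      (fun k => by linarith [sech2_pos (i.b β k)]) (by linarith)).mono (by linarith) le_rfl le_rfl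
        le_rfl le_rfl k8 subset_rfl
  · have h5 : ∑ j, (w ⬝ᵥ fv β (d j) i) ^ 2 ≤ k * t ^ 2 :=
      (sum_le_card_nsmul _ _ (t ^ 2) fun j _ => sq_le_sq' (abs_le.1 (ht _ (.inl ⟨j, rfl⟩))).1
        (abs_le.1 (ht _ (.inl ⟨j, rfl⟩))).2).trans (by simp)
    rw [Ety]
    linarith [mul_le_mul_of_nonneg_left h5 k15, mul_le_mul_of_nonneg_right k16 (sq_nonneg t),
      mul_le_mul_of_nonneg_right k11 (Eig.dot_self_nonneg w)]
  · have h5 := abs_sub_abs_le_abs_sub (alf s0 a ρ (i.b β k))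
      (a0 β (S3P.nu (s + β ^ 2 * q0)) g (i.b β k))
    rw [abs_of_pos (hg.a0 _).1] at h5
    rw [abs_mul, abs_of_nonneg (q1 _).1]
    linarith [mul_le_mul_of_nonneg_left h5 (q1 (i.b β k)).1, q3 (i.b β k), (hg.a0 (i.b β k)).2,
      mul_le_mul_of_nonneg_right (q1 (i.b β k)).2 (hg.a0 (i.b β k)).1.le]

/-- the scales -/
lemma scales {γ e A X B : ℝ} (h0 : 0 < γ) (h1 : γ ≤ 1) (he : 0 < e) (hA : 1 ≤ A) (hX : 0 ≤ X)
    (hB : 0 ≤ B) : ∀ᶠ n : ℕ in atTop, ∃ Kb R : ℝ, 0 ≤ R ∧ 1 ≤ Kb ∧ A * log n ≤ Kb ∧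
      X * Kb ≤ (n : ℝ) ^ e ∧ X * ((n : ℝ) ^ (1 - γ / 2) + √(n * (n : ℝ) ^ (1 - γ / 2)) + Kb) ≤ R ∧
      B * R ≤ (n : ℝ) ^ (1 - γ / 8) ∧ (n : ℝ) ^ (1 - γ / 8) ≤ n := by
  filter_upwards [Sc71.ev (X * A) he, Sc71.ev (X * (2 + A)) (show 1 - γ / 4 < 1 - γ / 6 by linarith),
    Sc71.ev B (show 1 - γ / 6 < 1 - γ / 8 by linarith), eventually_ge_atTop 1] with n a1 a2 a3 hn
  have n1 : (1 : ℝ) ≤ n := by exact_mod_cast hn
  have n0 : (0 : ℝ) < n := by linarith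
  have L1 : 1 ≤ log (n + 2) := (le_log_iff_exp_le (by linarith)).2
    (by linarith [exp_one_lt_d9])
  have u1 : 1 ≤ (n : ℝ) ^ (1 - γ / 4) := one_le_rpow n1 (by linarith)
  have u2 : (n : ℝ) ^ (1 - γ / 2) ≤ (n : ℝ) ^ (1 - γ / 4) :=
    rpow_le_rpow_of_exponent_le n1 (by linarith)
  have u3 : √(n * (n : ℝ) ^ (1 - γ / 2)) = (n : ℝ) ^ (1 - γ / 4) := by
    rw [sqrt_eq_iff_mul_self_eq (by positivity) (by positivity), ← rpow_add n0, mul_comm,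
      ← rpow_add_one n0.ne']
    congr 1; ring
  have r0 : 0 ≤ (n : ℝ) ^ (1 - γ / 6) := by positivity
  refine ⟨A * log (n + 2), (n : ℝ) ^ (1 - γ / 6), r0, one_le_mul_of_one_le_of_one_le hA L1,
    mul_le_mul_of_nonneg_left (log_le_log n0 (by linarith)) (by linarith),
    by simpa [mul_assoc] using a1, le_trans ?_ a2,
    (mul_le_mul_of_nonneg_left (le_mul_of_one_le_right r0 L1) hB).trans a3,
    (rpow_le_rpow_of_exponent_le n1 (by linarith)).trans (rpow_one _).le⟩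
  rw [u3, mul_assoc]
  refine mul_le_mul_of_nonneg_left ?_ hX
  linarith [le_mul_of_one_le_right (zero_le_one.trans u1) L1,
    mul_le_mul_of_nonneg_left (le_mul_of_one_le_left (zero_le_one.trans L1) u1) (zero_le_one.trans hA)]

end BpT30

open BpT30

/-- **the burst part along the typical filter** -/
theorem bT (hB : BPart) {β l K0 κ0 a00 ab a' C0 C' : ℝ} (hβ : β ∈ Set.Ioo (0 : ℝ) 1)
    (hl : l ≤ (1 - β) ^ 2) (hκ : 0 < κ0) (hK : ∀ s ≥ (0 : ℝ), ∀ᶠ i in TF β s, Bas (i.J β) K0 κ0 i.y)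
    (h0 : 0 < a00) (h1 : ab < a') (h2 : 0 ≤ a') (h3 : a' < l) (c0 : 0 ≤ C0) (c1 : 0 ≤ C')
    {X0 : ℝ → Mf → Prop} (H0 : ∀ s q0, Lv β s q0 → ∃ g, FamT β l 0 s q0 C0 C' (X0 s) g) :
    ∃ c0 > (0 : ℝ), ∃ gP > (0 : ℝ), ∃ Cu ≥ (1 : ℝ), ∀ w : P2, w.Ok → w.c0 ≤ c0 → w.gP ≤ gP →
    Cu ≤ w.Cu → w.a0 = a00 → w.ab = ab → w.θ = Ue.th a' → ∃ CP ≥ (1 : ℝ), ∃ gW > (0 : ℝ),
    ∀ (s q0 a : ℝ) (g : ℝ → ℝ), Lv β s q0 → 0 ≤ a → a ≤ a' → MO β l a (S3P.nu (s + β ^ 2 * q0)) g →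
    ∀ ω > (0 : ℝ), ∃ eB > (0 : ℝ), ∀ (e s0 : ℝ) (ρ : ℝ → ℝ), 0 < e → e ≤ eB →
    DO l a e s0 (a0 β (S3P.nu (s + β ^ 2 * q0)) g) ρ → ∀ C : ℝ, ∃ X ≥ (1 : ℝ), ∃ δB > (0 : ℝ),
    ∀ (e1 η C1 : ℝ) (k : ℕ) (d : Fin k → ℝ → ℝ) (Vf : ∀ i : In, Set (V i.n)), e1 ≤ δB → 0 < η →
    0 ≤ C1 → (∀ j, Continuous (d j) ∧ ∀ x, |d j x| ≤ 1) → FlW β s g (qf ρ) Vf →
    (∀ᶠ i in TF β s, ∀ f ∈ Vf i, nrm f ≤ 1) → ∀ ηA > (0 : ℝ), ∀ εA > (0 : ℝ),
    ∀ p : Par, p.Ok → p.toP2 = w → CP ≤ p.CP → p.gW ≤ gW → ∀ m j : ℕ, m < p.N → p.ah m = a →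
    ω ≤ p.ω m j → X ≤ p.CN m j → ∀ c ∈ Set.Ioc (0 : ℝ) 1, ∀ e' > (0 : ℝ), ∀ᶠ i in TF β s, ∀ ψ T,
      AnsAt (i.J β) i.y a C C0 C' e e1 η (log i.n) (Ety e1 C1 (C1 * log i.n) fun j => fv β (d j) i)
        (fun k => sech2 (i.b β k) + e) (fun k => qf ρ (i.b β k))
        (fun k => alf s0 a ρ (i.b β k) * qf ρ (i.b β k)) ψ T →
      ∀ (Ad : V i.n → ℝ → Prop) (φ : V i.n → Cube i.n → ℝ),
      (∀ v u, ‖v‖ ≤ ηA → nrm v ≤ u → u ^ 2 ≤ (capOf p c e' i.n).t' m →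
        (∀ f ∈ (Fs fun j k => d j (i.b β k)) ∪ Vf i, |v ⬝ᵥ f| ≤ εA * u) →
          Ad v u ∧ φ v = fun x => v ⬝ᵥ ψ x) →
      BurstOK (i.J β) p.P p.η0 p.θ i.y (fun k => sech2 (i.b β k) + e) Ad φ (p.l m) (p.am m) (p.lb m)
        (p.am (m + 1)) p.c0 p.gW p.gP (p.Cu / p.κ) p.CP (p.CN m j) (p.ω m j) (p.ec (m + 1) j)
        ((capOf p c e' i.n).t m) (capOf p c e' i.n).K := by
  have l0 : 0 < l := h2.trans_lt h3
  have b1 : 0 < 1 - β := sub_pos.2 hβ.2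
  have l1 : l ≤ 1 - β := hl.trans (by rw [sq]; exact mul_le_of_le_one_left b1.le (by linarith [hβ.1]))
  have l2 : l ≤ 1 := by linarith [hβ.1]
  have w3 := Cw_ge hβ l0 h3
  obtain ⟨c0, p1, gP, p2, Cu, p3, H⟩ := hB K0 κ0 a00 ab a' β (2 * C0) C' (Cw β l a') (Cq β l a') hκ h0
    h1 hβ.1.le (by linarith) (by positivity) c1 (by linarith) (by rw [Cq]; positivity)
  refine ⟨c0, p1, gP, p2, Cu, p3, fun w u1 u2 u3 u4 u5 u6 u7 => ?_⟩
  obtain ⟨CP, p4, gW, p5, H⟩ := H w u1 u2 u3 u4 u5 u6 u7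
  refine ⟨CP, p4, gW, p5, fun s q0 a g hL a0' aa hg ω ω0 => ?_⟩
  obtain ⟨es, s0', H⟩ := H ω ω0
  obtain ⟨g0, hg0, G0⟩ := H0 s q0 hL
  obtain ⟨x1, x10, F1⟩ := faT (C0 := C0) hβ l0 l2 h3 hL a0' aa c1 hg
  obtain ⟨x0, x00, F0⟩ := faT (C0 := C0) hβ l0 l2 h3 hL le_rfl h2 c1 hg0
  refine ⟨min (min x1 x0) (es / ((Cw β l a' + 1) * 4)), by positivity,
    fun e s0 ρ e0 he hd C => ?_⟩
  have he1 : e * ((Cw β l a' + 1) * 4) ≤ es :=
    (le_div_iff₀ (by positivity)).1 (he.trans (min_le_right _ _))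
  obtain ⟨s1, ρ0, Tg, hd0, -, D, -, A0⟩ := G0 e e0
  obtain ⟨δ, δ0, X, X1, H⟩ := H (max (max C D) 10) (le_trans (by norm_num) (le_max_right _ _))
  refine ⟨X, X1, δ, δ0, fun e1 η C1 k d Vf v1 v2 v3 v4 v5 v6 ηA v7 εA v8 p hp hw v9 v10 m j hm ha v11
    v12 c hc e' v13 => ?_⟩
  obtain ⟨η0, η00, k0, d0, D1, cd0, D0, A0⟩ := A0 δ δ0
  obtain ⟨E, hE⟩ : ∃ E : ℝ, E = C1 * k + D1 * k0 := ⟨_, rfl⟩
  have E1 : 0 ≤ C1 * k := by positivity
  have E2 : 0 ≤ D1 * k0 := by positivity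
  have E0 : 0 < E + 1 := by linarith
  obtain ⟨ε, ε0, ε1, ε2, ε3⟩ : ∃ ε > (0 : ℝ), ε ≤ e ∧ ε ≤ εA ∧ ε ≤ δ / (E + 1) :=
    ⟨min (min e εA) (δ / (E + 1)), by positivity, (min_le_left _ _).trans (min_le_left _ _),
      (min_le_left _ _).trans (min_le_right _ _), min_le_right _ _⟩
  obtain ⟨μ1, μ10, F1⟩ := F1 e s0 ρ e0 (he.trans ((min_le_left _ _).trans (min_le_left _ _))) hd k d
    v4 Vf v5 v6 ε ε0 ε1
  obtain ⟨μ0, μ00, F0⟩ := F0 e s1 ρ0 e0 (he.trans ((min_le_left _ _).trans (min_le_right _ _))) hd0 k0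
    d0 cd0 (fun _ => ∅) (fun _ _ _ => ⟨1, one_pos, .of_forall fun _ _ h => h.elim⟩)
    (.of_forall fun _ _ h => h.elim) ε ε0 ε1
  obtain ⟨μ, μp, m1, m0⟩ : ∃ μ > (0 : ℝ), μ ≤ μ1 ∧ μ ≤ μ0 :=
    ⟨_, lt_min μ10 μ00, min_le_left _ _, min_le_right _ _⟩
  obtain ⟨ζ, ζp, z1, z0⟩ : ∃ ζ > (0 : ℝ), ζ ≤ η ∧ ζ ≤ η0 :=
    ⟨_, lt_min v2 η00, min_le_left _ _, min_le_right _ _⟩
  have γ0 : 0 < c / 16 ^ m := by positivity [hc.1]
  have y1 : 0 ≤ 2 / μ := by positivity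
  have y2 : 0 ≤ 2 * Cw β l a' ^ 2 / (μ * ζ ^ 2) := by positivity
  have y3 : 0 ≤ Cw β l a' ^ 2 / (μ * ηA ^ 2) := by positivity
  have y4 : 0 ≤ 4 * Cw β l a' ^ 2 := by positivity
  filter_upwards [F1, F0, A0, hK s hL.1, Pos.TF.lim.eventually (scales (A := C1 + D1 + 1) (X := X)
    (B := X + 2 / μ + 2 * Cw β l a' ^ 2 / (μ * ζ ^ 2) + Cw β l a' ^ 2 / (μ * ηA ^ 2) +
      4 * Cw β l a' ^ 2) γ0 ((div_le_self hc.1.le (one_le_pow₀ (by norm_num))).trans hc.2) v13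
    (by linarith) (by linarith) (by linarith))]
    with i ⟨xa, Wm, xβ, f1⟩ ⟨b0, W0, _, f0⟩ ⟨⟨ψ0, T0, a0⟩, _⟩ bas ⟨Kb, R, r0, r1, r2, r3, r4, r5, r6⟩
    ψ T hA Ad φ hAd
  have n0 : (0 : ℝ) ≤ i.n := Nat.cast_nonneg _
  have L0 : 0 ≤ log i.n := log_natCast_nonneg _
  have L1 := mul_nonneg v3 L0
  have L2 := mul_nonneg D0 L0
  have r7 : ∀ B, B ≤ X + 2 / μ + 2 * Cw β l a' ^ 2 / (μ * ζ ^ 2) + Cw β l a' ^ 2 / (μ * ηA ^ 2) +
      4 * Cw β l a' ^ 2 → B * R ≤ (i.n : ℝ) ^ (1 - c / 16 ^ m / 8) := fun B h =>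
    (mul_le_mul_of_nonneg_right h r0).trans r5
  have r8 : ∀ B r, 0 < r → B / r ≤ X + 2 / μ + 2 * Cw β l a' ^ 2 / (μ * ζ ^ 2) +
      Cw β l a' ^ 2 / (μ * ηA ^ 2) + 4 * Cw β l a' ^ 2 → B * R ≤ i.n * r := fun B r hr h => by
    rw [← div_le_iff₀ hr, mul_div_right_comm]; exact (r7 _ h).trans r6
  subst ha
  refine H p hp hw v9 v10 m j hm v11 v12 i.n (i.J β) i.y _ _ _ Ad φ ⟨max (max C D) 10, 2 * C0, C', e,
    δ, ζ, log i.n, (C1 + D1) * log i.n, E, Cw β l a', Cq β l a', (Cw β l a' + 1) * (4 * e), ε,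
    μ * i.n⟩ _ _ ψ ψ0 T T0 Wm W0 xa b0 ηA _ _ Kb R rfl rfl rfl rfl rfl
    ⟨e0.le, ?_, by positivity, ?_, δ0.le, le_rfl, ζp, ?_, ε0.le, (le_div_iff₀' E0).1 ε3, L0, ?_, ?_, r1,
      r3, rpow_nonneg n0 _, r4, (r7 _ (by linarith)).trans r6, ?_, ?_, v7, ?_⟩ bas
    (f1 _ C e1 η C1 ψ T rfl rfl rfl rfl rfl rfl rfl (mul_le_mul_of_nonneg_right m1 n0)
      ((le_max_left _ _).trans (le_max_left _ _)) (le_max_right _ _) v1 z1 le_rfl ?_ v3 ?_ hA)
    (f0 _ D δ η0 D1 ψ0 T0 rfl rfl rfl rfl rfl rfl rfl (mul_le_mul_of_nonneg_right m0 n0)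
      ((le_max_right _ _).trans (le_max_left _ _)) (le_max_right _ _) le_rfl z0 le_rfl ?_ D0 ?_ a0.ans)
    xβ (fun k => by linarith) fun v u g1 g2 g3 g4 => hAd v u g1 g2 (g3.trans (r7 _ (by linarith)))
      fun f hf => (g4 f hf).trans (mul_le_mul_of_nonneg_right ε2 ((nrm_nonneg v).trans g2))
  all_goals dsimp only
  · linarith [mul_nonneg e0.le (show 0 ≤ Cw β l a' by linarith)]
  · linarith
  · linarith
  · linarith
  · linarith
  · linarith [r8 2 μ μp (by linarith)]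
  · linarith [r8 _ _ (show 0 < μ * ζ ^ 2 by positivity) (show 2 * Cw β l a' ^ 2 / _ ≤ _ by linarith)]
  · linarith [r8 _ _ (show 0 < μ * ηA ^ 2 by positivity) (show Cw β l a' ^ 2 / _ ≤ _ by linarith)]
  all_goals linarith

end Crest.Agent.T157.S1

end
end

-- ▼ part T157/S1BT_30
section

/-!
# Row 157, block S1 (helper30): slot B of the local supply
-/

set_option autoImplicit false
set_option maxHeartbeats 800000

noncomputable section

namespace Crest.Agent.T157.S1.SA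

open Matrix Filter Finset MeasureTheory
open Crest.Agent.T157.Eig Crest.Agent.T157.E
open Crest.Agent.T157.Pos (In TF Lv)
open Crest.Agent.T157.Tw (sech2 sech2_pos)

lemma ah_mem30 {w : P2} (h : w.Ok) {m : ℕ} (hm : m ≤ w.N) : 0 ≤ ah w m ∧ ah w m ≤ w.ab := by
  have k0 := h.κ0'
  have a0 : 0 < w.a := h.a00.trans h.a0a
  have q0 : 0 < 1 - 2 * w.η0 := by linarith [h.η01]
  refine ⟨by rw [ah]; positivity, (div_le_iff₀ q0).2 (le_trans ?_ h.ra)⟩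
  exact mul_le_mul_of_nonneg_left (pow_le_pow_right₀ (by linarith) (by omega)) a0.le

/-- **slot B** -/
theorem bT (hB : BPart) {β l : ℝ} (hβ : β ∈ Set.Ioo (0 : ℝ) 1) (hl : l ≤ (1 - β) ^ 2) : BT β l := by
  intro K0 κ0 b0 ab a' C0 C' k0 h0 h1 h2 h3 c0 c1 hK H0
  have b0' := hβ.1
  have l0 : 0 < l := by linarith
  have l1 : l ≤ 1 := hl.trans (pow_le_one₀ (by linarith [hβ.2]) (by linarith))
  obtain ⟨c0, p1, gP, p2, Cu, p3, H⟩ := S1.bT hB hβ hl k0 hK h0 h2 (by linarith) h3 c0 c1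
    (X0 := fun _ _ => True) H0
  refine ⟨c0, p1, gP, p2, Cu, p3, fun w u1 u2 u3 u4 u5 u6 u7 => ?_⟩
  obtain ⟨CP, p4, gW, p5, H⟩ := H w u1 u2 u3 u4 u5 u6 u7
  refine ⟨CP, p4, gW, p5, fun m hm _ q0 hL g hg ω ω0 => ?_⟩
  have ha : ah w m ≤ a' := by linarith [(ah_mem30 u1 hm.le).2]
  obtain ⟨eB, p6, H⟩ := H _ q0 _ g hL (ah_mem30 u1 hm.le).1 ha hg ω ω0
  refine ⟨eB, p6, fun e e0 he s0 ρ hd C _ => ?_⟩
  obtain ⟨X, -, δ, p7, H⟩ := H e s0 ρ e0 he hd C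
  refine ⟨X, δ, p7, fun e1 _ v1 η v2 k d C1 cd v3 ι _ f hf ε ε0 p i hp hw v4 v5 v6 v7 c e' v8 v9
    v10 => ?_⟩
  choose B hB using fun b => (hf b).2
  obtain ⟨M, hM⟩ : ∃ M : ℝ, M = 1 + ∑ b, |B b| := ⟨_, rfl⟩
  have M1 : 1 ≤ M := hM ▸ le_add_of_nonneg_right (sum_nonneg fun _ _ => abs_nonneg _)
  have M0 : 0 < M := by linarith
  have hB' : ∀ b n J y j, |f b n J y j| ≤ M := fun b n J y j => ((hB b n J y j).trans
    (le_abs_self _)).trans ((single_le_sum (f := fun b => |B b|) (fun _ _ => abs_nonneg _)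
      (mem_univ b)).trans (by linarith))
  have g1 : ∀ x, β * g x ≤ sech2 x := mo_le hg b0' (by linarith)
  have q0' : ∀ x, 0 < qf ρ x := fun x => lt_of_lt_of_le (by positivity [sech2_pos x]) (qf_mem hd x).1
  have hV := K.flW (M := 6 / (l * β)) hβ hL.1 hg.cont hg.even (q := qf ρ) (fun x => by
      rw [abs_of_pos (hg.pos x), le_div_iff₀ (by positivity)]
      linarith [g1 x, sech2_le x, mul_le_of_le_one_left (mul_pos b0' (hg.pos x)).le l1])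
    (hg.cont.div ((continuous_const.mul (hd.cb 0).1.continuous).mul BpT30.cont_sech2)
      fun x => (q0' x).ne') (qf_neg hd) (fun x => by
      rw [abs_of_pos (div_pos (hg.pos x) (q0' x)), div_le_div_iff₀ (q0' x) (by positivity)]
      linarith [(qf_mem hd x).1, mul_le_mul_of_nonneg_left (g1 x) l0.le])
    (X := fun b x => M⁻¹ • f b x.n (x.J β) x.y)
    fun b => .smul (fun _ => M⁻¹) _ _ (fun _ => le_rfl) (.base _ (hf b).1)
  filter_upwards [H e1 η C1 k d _ v1 v2 v3 cd hV (.of_forall fun x => by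
      rintro _ ⟨b, rfl⟩
      refine Rip.nrm_flat fun j => ?_
      rw [Pi.smul_apply, smul_eq_mul, abs_mul, abs_of_pos (inv_pos.2 M0), inv_mul_le_iff₀ M0, mul_one]
      exact hB' _ _ _ _ _) η v2 (ε / M) (by positivity) p hp hw v4 v5 m i (by rw [← hw] at hm; exact hm)
    (by rw [← hw]; rfl) v6 v7 c ⟨v8, v9⟩ e' v10] with x hx ψ T hA
  refine hx ψ T hA _ _ fun v u g1 g2 g3 g4 => ⟨⟨g1, g2, g3, fun j => (g4 _ (.inl ⟨j, rfl⟩)).trans
    (mul_le_mul_of_nonneg_right (div_le_self ε0.le M1) ((nrm_nonneg v).trans g2)), fun b => ?_⟩, rfl⟩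
  have := g4 _ (.inr ⟨b, rfl⟩)
  dsimp only at this
  rw [smul_comm, dotProduct_smul, smul_eq_mul, abs_mul, abs_of_pos (inv_pos.2 M0),
    inv_mul_le_iff₀ M0, ← mul_assoc, mul_div_cancel₀ _ M0.ne'] at this
  exact this

end Crest.Agent.T157.S1.SA

end
end

-- ▼ part T157/S1Pn_35
section

/-!
# Row 157, part B, block S1 (helper35): the correction for the pins from the cavity vectors
-/

set_option autoImplicit false
set_option linter.unusedVariables false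
set_option maxHeartbeats 800000

noncomputable section

namespace Crest.Agent.T157.S1

open Real Matrix Finset
open Crest.Agent.T157.Eig
open Crest.Agent.T157.S3 (V Mx)
open Crest.Agent.T157.Rip

variable {n : ℕ}

namespace Pn35

/-- restriction -/
def rs (S : Finset (Fin n)) (u : V n) : V n := fun k => if k ∈ S then u k else 0

lemma rs_sp {S : Finset (Fin n)} {m : ℝ} (h : (#S : ℝ) ≤ m) (u : V n) : Sp m (rs S u) :=
  ⟨S, h, fun i hi => if_neg hi⟩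

lemma rs_dot (S : Finset (Fin n)) (u : V n) : rs S u ⬝ᵥ u = rs S u ⬝ᵥ rs S u :=
  sum_congr rfl fun i _ => by simp only [rs]; split_ifs <;> simp

lemma nrm_rs_le (S : Finset (Fin n)) (u : V n) : nrm (rs S u) ≤ nrm u :=
  sqrt_le_sqrt (sum_le_sum fun i _ => by
    simp only [rs]; split_ifs; exacts [le_rfl, by rw [mul_zero]; exact mul_self_nonneg _])

lemma le_of_sq {a b : ℝ} (ha : 0 ≤ a) (hb : 0 ≤ b) (h : a * a ≤ b * a) : a ≤ b := by
  rcases ha.eq_or_lt with h0 | h0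
  · linarith
  · exact le_of_mul_le_mul_right h h0

lemma nrm_rs_fl {S : Finset (Fin n)} {m ε : ℝ} {u : V n} (h : Fl m ε u) (hS : (#S : ℝ) ≤ m)
    (he : 0 ≤ ε) : nrm (rs S u) ≤ ε := by
  have := (le_abs_self _).trans (h _ (rs_sp hS u))
  rw [rs_dot, ← nrm_mul_self] at this
  exact le_of_sq (nrm_nonneg _) he this

lemma sum_compl_le (S : Finset (Fin n)) {u w : V n} (h : ∀ i ∉ S, u i = w i) :
    ∑ i ∈ Sᶜ, u i ^ 2 ≤ nrm w ^ 2 := by
  rw [nrm_sq, dotProduct]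
  refine le_trans (le_of_eq (sum_congr rfl fun i hi => by rw [h i (mem_compl.1 hi), sq]))
    (sum_le_sum_of_subset_of_nonneg (subset_univ _) fun i _ _ => mul_self_nonneg _)


/-- the field of a bounded weight on a small set -/
lemma dual {J : Mx n} (hJ : Jᵀ = J) {p q u : V n} (hp : ∀ i, 0 < p i ∧ p i ≤ 1)
    (hq : ∀ i, 0 ≤ q i ∧ q i ≤ 2 * p i) (S : Finset (Fin n)) {b : ℝ} (hb : 0 ≤ b)
    (h : (J *ᵥ rs S (J *ᵥ (q * u))) ⬝ᵥ (p * J *ᵥ rs S (J *ᵥ (q * u))) ≤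
      b ^ 2 * (rs S (J *ᵥ (q * u)) ⬝ᵥ rs S (J *ᵥ (q * u)))) :
    nrm (rs S (J *ᵥ (q * u))) ≤ 2 * b * nrm u := by
  set c := rs S (J *ᵥ (q * u)) with hc
  have e1 : c ⬝ᵥ c = ((fun i => √(p i)) * J *ᵥ c) ⬝ᵥ ((fun i => q i / √(p i)) * u) := by
    rw [hc, ← rs_dot, ← hc, dotProduct_mulVec, ← mulVec_transpose, hJ]
    refine sum_congr rfl fun i _ => ?_
    have := (sqrt_pos.2 (hp i).1).ne'
    simp only [Pi.mul_apply]
    field_simp
  have h1 : nrm ((fun i => √(p i)) * J *ᵥ c) ≤ b * nrm c := by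
    rw [nrm_le_iff (mul_nonneg hb (nrm_nonneg _)), mul_pow, nrm_sq]
    refine le_trans (le_of_eq (sum_congr rfl fun i _ => ?_)) h
    simp only [Pi.mul_apply]
    linear_combination ((J *ᵥ c) i) ^ 2 * mul_self_sqrt (hp i).1.le
  have h2 : nrm ((fun i => q i / √(p i)) * u) ≤ 2 * nrm u :=
    nrm_mul_le zero_le_two (fun i => by
      have s0 := sqrt_pos.2 (hp i).1
      have s1 : √(p i) ≤ 1 := sqrt_le_one.2 (hp i).2
      rw [abs_of_nonneg (div_nonneg (hq i).1 s0.le), div_le_iff₀ s0]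
      nlinarith [mul_self_sqrt (hp i).1.le, (hq i).2]) u
  refine le_of_sq (nrm_nonneg _) (by have := nrm_nonneg u; positivity) ?_
  rw [nrm_mul_self, e1]
  refine (dot_le _ _).trans ((mul_le_mul h1 h2 (nrm_nonneg _)
    (mul_nonneg hb (nrm_nonneg _))).trans_eq ?_)
  ring

end Pn35

open Pn35

/-- **the clause `pin` of `LinOK2`** -/
theorem pin_of_cav {J Wm : Mx n} {p al q : V n} {P x Cw Cp ew εw m Cα e η t ε : ℝ} {k : ℕ}
    {v : ℕ → V n} {Ft : Set (V n)} (h : Cav J p q (al * q) x Cw Cp ew εw m Ft Wm) (hJ : Jᵀ = J)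
    (hR : opn J ≤ 3) (hp : ∀ i, 0 < p i ∧ p i ≤ 1) (hq : ∀ i, 0 ≤ q i ∧ q i ≤ 2 * p i)
    (hα : ∀ i, |al i * q i| ≤ Cα) (hv : ∀ a < k, v a ∈ Ft ∧ nrm (v a) ≤ 1) (hP : 1 ≤ P)
    (hx : 0 ≤ x) (hCw : 0 ≤ Cw) (hCp : 0 ≤ Cp) (hew : 0 ≤ ew) (hε : 0 ≤ εw) (hCα : 0 ≤ Cα)
    (hη : 0 < η) (h1 : εw * P ≤ 1) (h2 : t ≤ m) (h3 : 36 * P ^ 2 * Cw ^ 2 * t ≤ m * η ^ 2)
    (h4 : k * (12 * P * εw) ^ 2 ≤ ε / 4) (h5 : 6 * P * (ew + (Cα + 6 + 21 * P) * εw) ≤ e)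
    (S : Finset (Fin n)) (u : V n) (hS : (#S : ℝ) ≤ t) (hu : ‖u‖ ≤ 2 * η) (hut : u ⬝ᵥ u ≤ t) :
    ∃ w : V n, ‖w‖ ≤ 3 * η ∧ nrm w ≤ (1 + 6 * P * (Cw + 1)) * nrm u ∧
      p ⬝ᵥ (w * w) ≤ (111 + 12 * (Cp + 1) ^ 2) * (u ⬝ᵥ u) ∧
      ∑ a ∈ range k, (v a ⬝ᵥ (w - u)) ^ 2 ≤ ε / 4 * (u ⬝ᵥ u) ∧
      ∑ i ∈ Sᶜ, (Mq J P S al (q * w) - (al * (q * u) - J *ᵥ (q * u))) i ^ 2 ≤ e ^ 2 * (u ⬝ᵥ u) := by
  have Sm := hS.trans h2
  have u0 := nrm_nonneg u
  have P0 : 0 < P := by linarith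
  have d0 : 0 < 1 + P * x := by positivity
  have ε1 : εw ≤ 1 := by nlinarith
  have q2 : ∀ i, |q i| ≤ 2 := fun i => by
    rw [abs_of_nonneg (hq i).1]; linarith [(hq i).2, (hp i).2]
  have jq : ∀ z, nrm (J *ᵥ (q * z)) ≤ 6 * nrm z := fun z =>
    (nrm_mulVec_le _ _).trans ((mul_le_mul hR (nrm_mul_le zero_le_two q2 z) (nrm_nonneg _)
      (by norm_num)).trans_eq (by ring))
  have j3 : ∀ z, nrm (J *ᵥ z) ≤ 3 * nrm z := fun z =>
    (nrm_mulVec_le _ _).trans (mul_le_mul_of_nonneg_right hR (nrm_nonneg _))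
  set c' := rs S (J *ᵥ (q * u)) with hc'
  obtain ⟨r, hr⟩ : ∃ r, r = P / (1 + P * x) := ⟨_, rfl⟩
  have r0 : 0 ≤ r := by rw [hr]; positivity
  have rP : r ≤ P := by rw [hr]; exact div_le_self P0.le (by nlinarith)
  have rx : r * (1 + P * x) = P := by rw [hr]; field_simp
  have sc : Sp m (r • c') := (rs_sp Sm _).smul r
  have nc : nrm (r • c') ≤ 6 * P * nrm u := by
    rw [nrm_smul, abs_of_nonneg r0]
    exact (mul_le_mul rP ((nrm_rs_le _ _).trans (jq u)) (nrm_nonneg _) P0.le).trans_eq (by ring)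
  have c0 := nrm_nonneg (r • c')
  have nW : nrm (Wm *ᵥ (r • c')) ≤ Cw * (6 * P * nrm u) :=
    (h.nr _ sc).trans (mul_le_mul_of_nonneg_left nc hCw)
  obtain ⟨z, -, nz, hz⟩ := (h.fl _ sc).split (mul_nonneg hε c0) hη (by
    have := pow_le_pow_left₀ (nrm_nonneg _) nW 2
    rw [nrm_sq, mul_pow, mul_pow, nrm_sq] at this
    have h6 := mul_le_mul_of_nonneg_left hut (show 0 ≤ Cw ^ 2 * (6 * P) ^ 2 by positivity)
    linarith)
  have nz' : nrm z ≤ εw * (6 * P * nrm u) := nz.trans (mul_le_mul_of_nonneg_left nc hε)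
  have z0 := nrm_nonneg z
  refine ⟨u - (Wm *ᵥ (r • c') - z), ?_, ?_, ?_, ?_, ?_⟩
  · refine (norm_sub_le _ _).trans ?_
    have : ‖Wm *ᵥ (r • c') - z‖ ≤ η := (pi_norm_le_iff_of_nonneg hη.le).2 hz
    linarith
  · have := mul_le_mul_of_nonneg_right ε1 (show 0 ≤ 6 * P * nrm u by positivity)
    linarith [nrm_sub_le u (Wm *ᵥ (r • c') - z), nrm_sub_le (Wm *ᵥ (r • c')) z]
  · have b0 : 0 ≤ Cp * x + εw := by positivity
    have d := dual (u := u) hJ hp hq S (sqrt_nonneg (Cp * x + εw)) (by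
      rw [sq_sqrt b0]; exact h.je c' (rs_sp Sm _))
    have d2 := pow_le_pow_left₀ (nrm_nonneg _) d 2
    rw [mul_pow, mul_pow, sq_sqrt b0, nrm_sq, nrm_sq, ← hc'] at d2
    have en := h.en _ sc
    rw [smul_dotProduct, dotProduct_smul, smul_eq_mul, smul_eq_mul] at en
    have rb : r * (Cp * x + εw) ≤ Cp + 1 := by
      have a1 : r * x ≤ 1 := by
        refine le_of_mul_le_mul_left ?_ P0
        nlinarith
      nlinarith [mul_le_mul_of_nonneg_left a1 hCp, mul_le_mul_of_nonneg_right rP hε]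
    have uu := dot_self_nonneg u
    have en2 : (Wm *ᵥ (r • c')) ⬝ᵥ (p * Wm *ᵥ (r • c')) ≤ 4 * (Cp + 1) ^ 2 * (u ⬝ᵥ u) := by
      have a2 := pow_le_pow_left₀ (mul_nonneg r0 b0) rb 2
      have a3 := mul_le_mul_of_nonneg_left d2 (show 0 ≤ (Cp * x + εw) * (r * r) by positivity)
      nlinarith [mul_le_mul_of_nonneg_right a2 uu]
    have zz : z ⬝ᵥ z ≤ 36 * (u ⬝ᵥ u) := by
      have a4 : nrm z ≤ 6 * nrm u := by nlinarith
      have := pow_le_pow_left₀ z0 a4 2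
      rw [mul_pow, nrm_sq, nrm_sq] at this
      linarith
    have sp : p ⬝ᵥ ((u - (Wm *ᵥ (r • c') - z)) * (u - (Wm *ᵥ (r • c') - z))) ≤
        3 * (u ⬝ᵥ u) + 3 * ((Wm *ᵥ (r • c')) ⬝ᵥ (p * Wm *ᵥ (r • c'))) + 3 * (z ⬝ᵥ z) := by
      simp only [dotProduct, mul_sum, ← sum_add_distrib, Pi.mul_apply, Pi.sub_apply]
      refine sum_le_sum fun i _ => ?_
      generalize (Wm *ᵥ (r • c')) i = W
      have a5 : (u i - (W - z i)) * (u i - (W - z i)) ≤ 3 * (u i * u i + W * W + z i * z i) := by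
        nlinarith [sq_nonneg (u i + W), sq_nonneg (u i - z i), sq_nonneg (W + z i)]
      nlinarith [mul_le_mul_of_nonneg_left a5 (hp i).1.le,
        mul_le_mul_of_nonneg_right (hp i).2 (mul_self_nonneg (u i)),
        mul_le_mul_of_nonneg_right (hp i).2 (mul_self_nonneg (z i))]
    linarith
  · have : ∀ a ∈ range k, (v a ⬝ᵥ (u - (Wm *ᵥ (r • c') - z) - u)) ^ 2 ≤
        (12 * P * εw) ^ 2 * (u ⬝ᵥ u) := fun a ha => by
      obtain ⟨a1, a2⟩ := hv a (mem_range.1 ha)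
      have b1 := (h.ty _ sc _ a1).trans (mul_le_mul_of_nonneg_left nc hε)
      have b2 := (abs_dot_le (v a) z).trans (mul_le_mul a2 nz' z0 zero_le_one)
      rw [show u - (Wm *ᵥ (r • c') - z) - u = z - Wm *ᵥ (r • c') by abel, dotProduct_sub,
        dotProduct_comm (v a) (Wm *ᵥ _), ← nrm_sq, ← mul_pow, ← sq_abs]
      exact pow_le_pow_left₀ (abs_nonneg _) ((abs_sub _ _).trans (by linarith)) 2
    refine (sum_le_card_nsmul _ _ _ this).trans ?_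
    rw [card_range, nsmul_eq_mul, ← mul_assoc]
    exact mul_le_mul_of_nonneg_right h4 (dot_self_nonneg u)
  · set W := Wm *ᵥ (r • c') with hW
    have f1 := nrm_rs_fl (h.fj _ sc) Sm (mul_nonneg hε c0)
    have f2 := h.eq _ sc
    rw [← hW] at f1 f2
    have cS : ∀ i ∉ S, c' i = 0 := fun i hi => if_neg hi
    have e1 : (fun k => if k ∈ S then (J *ᵥ (q * (u - (W - z)))) k else 0) =
        c' - x • r • c' - rs S (J *ᵥ (q * W) - x • r • c') + rs S (J *ᵥ (q * z)) := by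
      funext i
      simp only [mul_sub, mulVec_sub, hc', rs, Pi.sub_apply, Pi.add_apply, Pi.smul_apply,
        smul_eq_mul]
      split_ifs <;> ring
    have key := sum_compl_le S
      (u := Mq J P S al (q * (u - (W - z))) - (al * (q * u) - J *ᵥ (q * u)))
      (w := -(al * q * W - J *ᵥ (q * W) - (J *ᵥ (r • c') - x • r • c')) +
        (al * q * z - J *ᵥ (q * z)) - P • J *ᵥ rs S (J *ᵥ (q * W) - x • r • c') +
        P • J *ᵥ rs S (J *ᵥ (q * z))) fun i hi => by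
          rw [Mq, e1]
          simp only [mul_sub, mulVec_sub, mulVec_add, mulVec_smul, Pi.sub_apply, Pi.add_apply,
            Pi.smul_apply, Pi.mul_apply, Pi.neg_apply, smul_eq_mul, cS i hi]
          linear_combination (-(J *ᵥ c') i) * rx
    refine key.trans ?_
    rw [← nrm_sq u, ← mul_pow]
    refine pow_le_pow_left₀ (nrm_nonneg _) ?_ 2
    have g1 := nrm_mul_le hCα (a := al * q) hα z
    have g2 := jq z
    have g3 := (j3 _).trans (mul_le_mul_of_nonneg_left f1 zero_le_three)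
    have g4 := (j3 _).trans (mul_le_mul_of_nonneg_left ((nrm_rs_le S _).trans g2) zero_le_three)
    have g5 := nrm_add_le (-(al * q * W - J *ᵥ (q * W) - (J *ᵥ (r • c') - x • r • c')) +
        (al * q * z - J *ᵥ (q * z)) - P • J *ᵥ rs S (J *ᵥ (q * W) - x • r • c'))
      (P • J *ᵥ rs S (J *ᵥ (q * z)))
    have g6 := nrm_sub_le (-(al * q * W - J *ᵥ (q * W) - (J *ᵥ (r • c') - x • r • c')) +
        (al * q * z - J *ᵥ (q * z))) (P • J *ᵥ rs S (J *ᵥ (q * W) - x • r • c'))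
    have g7 := nrm_add_le (-(al * q * W - J *ᵥ (q * W) - (J *ᵥ (r • c') - x • r • c')))
      (al * q * z - J *ᵥ (q * z))
    have g8 := nrm_sub_le (al * q * z) (J *ᵥ (q * z))
    rw [nrm_smul, abs_of_pos P0] at g5 g6
    rw [nrm_neg] at g7
    have g9 := mul_le_mul_of_nonneg_left g3 P0.le
    have g10 := mul_le_mul_of_nonneg_left g4 P0.le
    have g11 : (Cα + 6 + 18 * P) * nrm z ≤ (Cα + 6 + 18 * P) * (εw * nrm (r • c')) :=
      mul_le_mul_of_nonneg_left nz (by positivity)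
    have g12 : (ew + (Cα + 6 + 21 * P) * εw) * nrm (r • c') ≤
        (ew + (Cα + 6 + 21 * P) * εw) * (6 * P * nrm u) :=
      mul_le_mul_of_nonneg_left nc (by positivity)
    linarith [mul_le_mul_of_nonneg_right h5 u0]

end Crest.Agent.T157.S1

end
end

-- ▼ part T157/S1Gs_35
section

/-!
# Row 157, part B, block S1 (helper35): orthonormal modes by Gram–Schmidt with a cut
-/

set_option autoImplicit false
set_option linter.unusedVariables false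
set_option linter.unusedSectionVars false

noncomputable section

namespace Crest.Agent.T157.Rip

open Real Matrix Finset
open Crest.Agent.T157.Eig

variable {σ ι : Type} [Fintype σ] [DecidableEq σ] [Fintype ι]

/-- orthonormal bounded combinations `v a`, `a < k`, of the `h b` -/
structure Gs (h : ι → σ → ℝ) (R : ℝ) (k : ℕ) (v : ℕ → σ → ℝ) (T : ℕ → ι → ℝ) : Prop where
  on : ∀ a < k, ∀ b < k, v a ⬝ᵥ v b = if a = b then 1 else 0
  co : ∀ a < k, v a = ∑ b, T a b • h b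
  bd : ∀ a < k, ∑ b, |T a b| ≤ R

variable {h : ι → σ → ℝ} {R : ℝ} {k : ℕ} {v : ℕ → σ → ℝ} {T : ℕ → ι → ℝ}

lemma Gs.nrm_v (g : Gs h R k v T) {a : ℕ} (ha : a < k) : nrm (v a) = 1 := by
  rw [nrm, g.on a ha a ha, if_pos rfl, sqrt_one]

lemma Gs.mono (g : Gs h R k v T) {R' : ℝ} (hR : R ≤ R') : Gs h R' k v T :=
  ⟨g.on, g.co, fun a ha => (g.bd a ha).trans hR⟩

lemma Gs.dot_sum (g : Gs h R k v T) (x : ℕ → ℝ) {a : ℕ} (ha : a < k) :
    v a ⬝ᵥ ∑ c ∈ range k, x c • v c = x a := by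
  rw [dotProduct_sum, sum_eq_single a (fun c hc hne => by
    rw [dotProduct_smul, g.on a ha c (mem_range.1 hc), if_neg hne.symm, smul_zero])
    (fun hn => absurd (mem_range.2 ha) hn), dotProduct_smul, g.on a ha a ha, if_pos rfl, smul_eq_mul,
    mul_one]

/-- a seminorm-type bound passes to the modes -/
lemma Gs.abs_le (g : Gs h R k v T) {w : σ → ℝ} {c : ℝ} (hc : 0 ≤ c) (hw : ∀ b, |w ⬝ᵥ h b| ≤ c)
    {a : ℕ} (ha : a < k) : |w ⬝ᵥ v a| ≤ R * c := by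
  rw [g.co a ha, dotProduct_sum]
  refine (abs_sum_le_sum_abs _ _).trans (le_trans (sum_le_sum fun b _ => ?_)
    ((sum_mul _ _ _).ge.trans (mul_le_mul_of_nonneg_right (g.bd a ha) hc)))
  rw [dotProduct_smul, smul_eq_mul, abs_mul]
  exact mul_le_mul_of_nonneg_left (hw b) (abs_nonneg _)

lemma Gs.sup (g : Gs h R k v T) {c : ℝ} (hc : 0 ≤ c) (hw : ∀ b i, |h b i| ≤ c) {a : ℕ} (ha : a < k)
    (i : σ) : |v a i| ≤ R * c := by
  simpa using g.abs_le (w := Pi.single i 1) hc (fun b => by simpa using hw b i) ha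

lemma Gs.op (g : Gs h R k v T) (x : ℕ → ℝ) :
    ∑ b, (∑ a ∈ range k, x a * T a b) ^ 2 ≤ k * R ^ 2 * ∑ a ∈ range k, x a ^ 2 := by
  refine (sum_le_sum fun b _ => sum_mul_sq_le_sq_mul_sq _ _ _).trans ?_
  rw [← mul_sum, mul_comm, sum_comm]
  refine mul_le_mul_of_nonneg_right ((sum_le_card_nsmul _ _ (R ^ 2) fun a ha => ?_).trans_eq
    (by rw [card_range, nsmul_eq_mul])) (sum_nonneg fun _ _ => sq_nonneg _)
  refine le_trans ?_ (pow_le_pow_left₀ (sum_nonneg fun _ _ => abs_nonneg _) (g.bd a (mem_range.1 ha)) 2)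
  simp only [← sq_abs (T a _)]
  exact sum_sq_le_sq_sum_of_nonneg fun _ _ => abs_nonneg _

/-- **Gram–Schmidt with a cut** -/
theorem gs {δ B : ℝ} (hδ : 0 < δ) (hB : 0 ≤ B) (N : ℕ) : ∃ R ≥ (1 : ℝ), ∀ (σ ι : Type) [Fintype σ]
    [DecidableEq σ] [Fintype ι] (h : ι → σ → ℝ) (s : Finset ι), #s ≤ N → (∀ b, nrm (h b) ≤ B) →
    ∃ k ≤ N, ∃ v T, Gs h R k v T ∧
      ∀ b ∈ s, ∀ w, |w ⬝ᵥ h b| ≤ δ * nrm w + B * ∑ a ∈ range k, |v a ⬝ᵥ w| := by
  classical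
  induction N with
  | zero =>
    exact ⟨1, le_rfl, fun σ ι _ _ _ h s hs _ => ⟨0, le_rfl, 0, 0, ⟨by simp, by simp, by simp⟩,
      by simp [card_eq_zero.1 (Nat.le_zero.1 hs)]⟩⟩
  | succ N ih =>
    obtain ⟨R, R1, ih⟩ := ih
    have q0 : 0 ≤ (1 + N * (B * R)) / δ := by positivity
    refine ⟨R + (1 + N * (B * R)) / δ, by linarith, fun σ ι _ _ _ h s hs hh => ?_⟩
    rcases s.eq_empty_or_nonempty with rfl | ⟨b0, hb0⟩
    · exact ⟨0, Nat.zero_le _, 0, 0, ⟨by simp, by simp, by simp⟩, by simp⟩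
    obtain ⟨k, hk, v, T, g, H⟩ := ih σ ι h (s.erase b0) (by rw [card_erase_of_mem hb0]; omega) hh
    obtain ⟨r, hr⟩ : ∃ r, r = h b0 - ∑ a ∈ range k, (v a ⬝ᵥ h b0) • v a := ⟨_, rfl⟩
    have cB : ∀ a < k, |v a ⬝ᵥ h b0| ≤ B := fun a ha =>
      (abs_dot_le _ _).trans (by rw [g.nrm_v ha, one_mul]; exact hh b0)
    have ro : ∀ a < k, v a ⬝ᵥ r = 0 := fun a ha => by
      rw [hr, dotProduct_sub, g.dot_sum _ ha, sub_self]
    have key : ∀ w, |w ⬝ᵥ h b0| ≤ |w ⬝ᵥ r| + B * ∑ a ∈ range k, |v a ⬝ᵥ w| := fun w => by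
      rw [show h b0 = r + ∑ a ∈ range k, (v a ⬝ᵥ h b0) • v a by rw [hr]; abel, dotProduct_add,
        dotProduct_sum, mul_sum]
      refine (abs_add_le _ _).trans (add_le_add le_rfl ((abs_sum_le_sum_abs _ _).trans
        (sum_le_sum fun a ha => ?_)))
      rw [dotProduct_smul, smul_eq_mul, abs_mul, dotProduct_comm w]
      exact mul_le_mul_of_nonneg_right (cB a (mem_range.1 ha)) (abs_nonneg _)
    rcases le_or_gt (nrm r) δ with h1 | h1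
    · refine ⟨k, by omega, v, T, g.mono (by linarith), fun b hb w => ?_⟩
      rcases eq_or_ne b b0 with rfl | hne
      · have := (abs_dot_le w r).trans (mul_le_mul_of_nonneg_left h1 (nrm_nonneg w))
        linarith [key w]
      · exact H b (mem_erase.2 ⟨hne, hb⟩) w
    have r0 : 0 < nrm r := hδ.trans h1
    have rB : nrm r ≤ B := by
      have e : r ⬝ᵥ r = r ⬝ᵥ h b0 := by
        nth_rewrite 2 [hr]
        rw [dotProduct_sub, dotProduct_sum, sum_eq_zero fun a ha => by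
          rw [dotProduct_smul, dotProduct_comm r, ro a (mem_range.1 ha), smul_zero], sub_zero]
      have := (dot_le r (h b0)).trans (mul_le_mul_of_nonneg_left (hh b0) r0.le)
      rw [← e, ← nrm_mul_self] at this
      exact le_of_mul_le_mul_left this r0
    have vo : ∀ a ∈ range k, Function.update v k ((nrm r)⁻¹ • r) a = v a := fun a ha =>
      Function.update_of_ne (mem_range.1 ha).ne _ _
    have lt : ∀ {a}, a < k + 1 → a = k ∨ a < k := fun ha => by omega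
    refine ⟨k + 1, by omega, Function.update v k ((nrm r)⁻¹ • r), Function.update T k
      fun b => (nrm r)⁻¹ * ((if b = b0 then 1 else 0) - ∑ a ∈ range k, (v a ⬝ᵥ h b0) * T a b),
      ⟨fun a ha b hb => ?_, fun a ha => ?_, fun a ha => ?_⟩, fun b hb w => ?_⟩
    · rcases lt ha with rfl | ha <;> rcases lt hb with hb | hb
      · rw [hb, Function.update_self, if_pos rfl, smul_dotProduct, dotProduct_smul, ← nrm_mul_self]
        simp only [smul_eq_mul]; field_simp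
      · rw [Function.update_self, vo b (mem_range.2 hb), if_neg hb.ne', smul_dotProduct,
          dotProduct_comm, ro b hb, smul_zero]
      · rw [hb, Function.update_self, vo a (mem_range.2 ha), if_neg ha.ne, dotProduct_smul, ro a ha,
          smul_zero]
      · rw [vo a (mem_range.2 ha), vo b (mem_range.2 hb), g.on a ha b hb]
    · rcases lt ha with rfl | ha
      · simp only [Function.update_self, mul_smul, ← smul_sum, sub_smul, sum_sub_distrib, ite_smul,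
          one_smul, zero_smul, sum_ite_eq', mem_univ, if_true, sum_smul]
        rw [sum_comm, hr]
        congr 2
        exact sum_congr rfl fun c hc => by rw [g.co c (mem_range.1 hc), ← smul_sum]
      · rw [vo a (mem_range.2 ha), Function.update_of_ne ha.ne, g.co a ha]
    · rcases lt ha with rfl | ha
      · simp only [Function.update_self, abs_mul, ← mul_sum, abs_of_pos (inv_pos.2 r0)]
        have e : ∑ b, |(if b = b0 then (1 : ℝ) else 0) - ∑ c ∈ range a, (v c ⬝ᵥ h b0) * T c b| ≤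
            1 + N * (B * R) := by
          refine (sum_le_sum fun b _ => (abs_sub _ _).trans (add_le_add le_rfl
            (abs_sum_le_sum_abs _ _))).trans ?_
          rw [sum_add_distrib, sum_comm]
          refine add_le_add (by simp [apply_ite abs]) ((sum_le_card_nsmul _ _ (B * R)
            fun c hc => ?_).trans ?_)
          · simp only [abs_mul, ← mul_sum]
            exact mul_le_mul (cB c (mem_range.1 hc)) (g.bd c (mem_range.1 hc))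
              (sum_nonneg fun _ _ => abs_nonneg _) hB
          · rw [card_range, nsmul_eq_mul]
            exact mul_le_mul_of_nonneg_right (by exact_mod_cast hk) (by positivity)
        have := mul_le_mul (inv_anti₀ hδ h1.le) e (sum_nonneg fun _ _ => abs_nonneg _)
          (inv_pos.2 hδ).le
        rw [div_eq_inv_mul]
        linarith
      · rw [Function.update_of_ne ha.ne]
        linarith [g.bd a ha]
    · rw [sum_range_succ, sum_congr rfl fun a ha => by rw [vo a ha], Function.update_self, mul_add]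
      have w0 := mul_nonneg hδ.le (nrm_nonneg w)
      rcases eq_or_ne b b0 with rfl | hne
      · have : |w ⬝ᵥ r| ≤ B * |((nrm r)⁻¹ • r) ⬝ᵥ w| := by
          rw [smul_dotProduct, smul_eq_mul, abs_mul, abs_of_pos (inv_pos.2 r0), dotProduct_comm r,
            ← mul_assoc]
          exact le_mul_of_one_le_left (abs_nonneg _) ((le_mul_inv_iff₀ r0).2 (by linarith))
        linarith [key w]
      · linarith [H b (mem_erase.2 ⟨hne, hb⟩) w,
          mul_nonneg hB (abs_nonneg (((nrm r)⁻¹ • r) ⬝ᵥ w))]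

/-- the cavity vectors are orthogonal to the modes -/
lemma Cav.gs {J Wm : Matrix σ σ ℝ} {p q α : σ → ℝ} {x C C0 e ε m : ℝ} {Ft : Set (σ → ℝ)}
    (H : Cav J p q α x C C0 e ε m Ft Wm) (hx : 0 ≤ x) (hε : 0 ≤ ε) (hR : 1 ≤ R) (g : Gs h R k v T)
    (hF : ∀ b, h b ∈ Ft) : Cav J p q α x C C0 e (R * ε) m (Ft ∪ v '' Set.Iio k) Wm := by
  have H' := H.mono hx le_rfl le_rfl le_rfl (le_mul_of_one_le_left hε hR) le_rfl subset_rfl
  refine ⟨H'.nr, H'.en, H'.fl, H'.fj, H'.eq, fun c hc f hf => ?_, H'.jj, H'.je⟩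
  rcases hf with hf | ⟨a, ha, rfl⟩
  · exact H'.ty c hc f hf
  · rw [mul_assoc]
    exact g.abs_le (mul_nonneg hε (nrm_nonneg _)) (fun b => H.ty c hc _ (hF b)) ha

end Crest.Agent.T157.Rip

end
end

-- ▼ part T157/S1Md_35
section

/-!
# Row 157, part B, block S1 (helper35): `LinOK2` from the cavity vectors and bounded generators
-/

set_option autoImplicit false
set_option linter.unusedVariables false
set_option maxHeartbeats 1600000

noncomputable section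

namespace Crest.Agent.T157.S1

open Real Matrix Finset
open Crest.Agent.T157.E Crest.Agent.T157.SL
open Crest.Agent.T157.Eig
open Crest.Agent.T157.S3 (V Mx)
open Crest.Agent.T157.Rip

variable {n : ℕ}

/-- the modes `v a`, `a < k`, of the generators `f b`: the data of `Md.LinStmt`, and orthogonality -/
structure Gen {ι : Type} [Fintype ι] (f : ι → V n) (R δ B : ℝ) (k : ℕ) (v : ℕ → V n)
    (T : ℕ → ι → ℝ) : Prop where
  on : ∀ a < k, ∀ b < k, v a ⬝ᵥ v b = if a = b then 1 else 0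
  co : ∀ a < k, v a = (√(n : ℝ))⁻¹ • ∑ b, T a b • f b
  op : ∀ x : ℕ → ℝ, ∑ b, (∑ a ∈ range k, x a * T a b) ^ 2 ≤ R ^ 2 * ∑ a ∈ range k, x a ^ 2
  ort : ∀ η t ε w l, 0 ≤ ε → Adm k v η t ε w l → ∀ b,
    |w ⬝ᵥ (√(n : ℝ))⁻¹ • f b| ≤ (δ + B * √ε) * l

lemma Md35.ar {k N R B : ℝ} (k0 : 0 ≤ k) (kN : k ≤ N) (R0 : 0 ≤ R) (hB : 0 ≤ B) :
    k * (R * B) ≤ 2 * (N + 1) * (B + 1) * R / 2 ∧ (k + 1) * R ≤ 2 * (N + 1) * (B + 1) * R / 2 := by
  have N0 := k0.trans kN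
  constructor <;> linarith [mul_le_mul_of_nonneg_right kN (mul_nonneg R0 hB),
    mul_le_mul_of_nonneg_right kN R0, mul_nonneg N0 R0, mul_nonneg R0 hB,
    mul_nonneg N0 (mul_nonneg R0 hB)]

lemma Md35.al {p q al a0 C e : ℝ} (hp : 0 < p) (q0 : 0 ≤ q) (hq : q ≤ 2 * p) (h1 : p * |a0| ≤ C)
    (h2 : p * |al - a0| ≤ e) : |al * q| ≤ 2 * (C + e) := by
  have a1 : |al| ≤ |a0| + |al - a0| := by simpa using abs_add_le a0 (al - a0)
  rw [abs_mul, abs_of_nonneg q0]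
  linarith [mul_le_mul_of_nonneg_left hq (abs_nonneg al), mul_le_mul_of_nonneg_left a1 hp.le]

/-- **`LinOK2`** -/
theorem linOK2_of {δ B : ℝ} (hδ : 0 < δ) (hB : 0 ≤ B) (N : ℕ) : ∃ R ≥ (1 : ℝ), ∀ (n : ℕ) (ι : Type)
    [Fintype ι] (f : ι → V n) (J Wm : Mx n) (y0 p a0 al q : V n) (Ft : Set (V n))
    (P x lq C0 C1 CP Cw Cp ew εw m e η t ε : ℝ), Fintype.card ι ≤ N → 0 < n →
    (∀ b i, |f b i| ≤ B) → (∀ b, (√(n : ℝ))⁻¹ • f b ∈ Ft) → (∀ i, 0 < p i ∧ p i ≤ 1) →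
    (∀ i, lq * p i ≤ q i ∧ q i ≤ 2 * p i) → (∀ i, p i * |a0 i| ≤ C1 ∧ p i * |al i - a0 i| ≤ e) →
    (∀ (S : Finset (Fin n)) (Δ : V n), (∀ i ∈ S, Δ i = 0) →
      Δ ⬝ᵥ Δ ≤ C1 * ∑ i ∈ Sᶜ, zv J p a0 Δ i ^ 2 +
        C1 * ((mag (ising J y0) ⬝ᵥ Δ) ^ 2 / (mag (ising J y0) ⬝ᵥ mag (ising J y0)))) →
    Cav J p q (al * q) x Cw Cp ew εw m Ft Wm → Jᵀ = J → opn J ≤ 3 → 0 ≤ lq → 1 ≤ P → 0 ≤ x →
    0 ≤ Cw → 0 ≤ Cp → 0 ≤ ew → 0 ≤ εw → 0 < η → 1 + 6 * P * (Cw + 1) ≤ CP →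
    111 + 12 * (Cp + 1) ^ 2 ≤ C0 → R * εw * P ≤ 1 → (24 * P * (R * εw)) ^ 2 ≤ ε →
    6 * P * (ew + (2 * (C1 + e) + 6 + 21 * P) * (R * εw)) ≤ e → 0 ≤ t → t ≤ m →
    36 * P ^ 2 * Cw ^ 2 * t ≤ m * η ^ 2 → R ^ 2 * t ≤ η ^ 2 * n → R ^ 2 * t ≤ ε * n →
    ∃ k ≤ N, ∃ v T, LinOK2 J P y0 p a0 al q k v lq C0 C1 CP e η t ε ∧ Gen f R δ (N * B) k v T := by
  obtain ⟨R, R1, H⟩ := gs hδ hB N
  have N0 : (0 : ℝ) ≤ N := Nat.cast_nonneg _
  have RR : R ≤ 2 * (N + 1) * (B + 1) * R := by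
    refine le_mul_of_one_le_left (by linarith) ?_
    linarith [mul_nonneg N0 hB]
  refine ⟨2 * (N + 1) * (B + 1) * R, R1.trans RR, fun n ι _ f J Wm y0 p a0 al q Ft P x lq C0 C1 CP Cw Cp
    ew εw m e η t ε hι hn hf hF Ap Aq Aa Ao h hJ hO hlq hP hx hCw hCp hew hε hη hCP hC0 h1 h2 h3 t0 h4 h5 h6 h7 => ?_⟩
  generalize hR' : 2 * (N + 1) * (B + 1) * R = R' at *
  have n0 : (0 : ℝ) < n := Nat.cast_pos.2 hn
  have s0 : 0 < √(n : ℝ) := sqrt_pos.2 n0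
  have hs : ∀ b i, |((√(n : ℝ))⁻¹ • f b) i| ≤ B / √n := fun b i => by
    rw [Pi.smul_apply, smul_eq_mul, abs_mul, abs_of_pos (inv_pos.2 s0), div_eq_inv_mul]
    exact mul_le_mul_of_nonneg_left (hf b i) (inv_pos.2 s0).le
  obtain ⟨k, hk, v, T, g, ho⟩ := H (Fin n) ι (fun b => (√(n : ℝ))⁻¹ • f b) univ hι fun b => by
    rw [nrm_le_iff hB, dotProduct]
    refine (sum_le_card_nsmul _ _ ((B / √n) ^ 2) fun i _ => ?_).trans_eq ?_
    · rw [← sq, ← sq_abs]; exact pow_le_pow_left₀ (abs_nonneg _) (hs b i) 2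
    · rw [card_univ, Fintype.card_fin, nsmul_eq_mul, div_pow, sq_sqrt n0.le]; field_simp
  have kN : (k : ℝ) ≤ N := Nat.cast_le.2 hk
  have k0 : (0 : ℝ) ≤ k := Nat.cast_nonneg _
  have R0 : 0 ≤ R := by linarith
  have kR : k * (R * B) ≤ R' / 2 ∧ (k + 1) * R ≤ R' / 2 := hR' ▸ Md35.ar k0 kN R0 hB
  have kk : (k : ℝ) ≤ k ^ 2 := by exact_mod_cast Nat.le_self_pow two_ne_zero k
  have vs := fun a ha => g.sup (by positivity) hs (a := a) ha
  have hq0 : ∀ i, 0 ≤ q i ∧ q i ≤ 2 * p i := fun i =>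
    ⟨(mul_nonneg hlq (Ap i).1.le).trans (Aq i).1, (Aq i).2⟩
  have hα : ∀ i, |al i * q i| ≤ 2 * (C1 + e) := fun i =>
    Md35.al (Ap i).1 (hq0 i).1 (hq0 i).2 (Aa i).1 (Aa i).2
  have Ce : 0 ≤ 2 * (C1 + e) := (abs_nonneg _).trans (hα ⟨0, hn⟩)
  have Rε : R * εw ≤ R' * εw := mul_le_mul_of_nonneg_right RR hε
  have Rε0 : 0 ≤ R * εw := mul_nonneg R0 hε
  refine ⟨k, hk, v, T, ⟨Ap, Aq, Aa, Ao, g.on, fun u hu => ?_, fun S hS => ?_,
    fun S u hS _ hu hut => ?_⟩, g.on, fun a ha => ?_, fun z => (g.op z).trans ?_,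
    fun η t ε w l hε hA b => (ho b (mem_univ _) w).trans ?_⟩
  · have b1 : ‖∑ a ∈ range k, (v a ⬝ᵥ u) • v a‖ ≤ k * (nrm u * (R * (B / √n))) := by
      refine (norm_sum_le _ _).trans ((sum_le_card_nsmul _ _ _ fun a ha => ?_).trans_eq
        (by rw [card_range, nsmul_eq_mul]))
      rw [norm_smul]
      exact mul_le_mul ((abs_dot_le _ _).trans_eq (by rw [g.nrm_v (mem_range.1 ha), one_mul]))
        ((pi_norm_le_iff_of_nonneg (by positivity)).2 (vs a (mem_range.1 ha))) (norm_nonneg _)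
        (nrm_nonneg _)
    have b2 : R' * nrm u ≤ η * √n := by
      refine abs_le_of_sq_le_sq' ?_ (by positivity) |>.2
      rw [mul_pow, mul_pow, nrm_sq, sq_sqrt n0.le]
      exact (mul_le_mul_of_nonneg_left hu (sq_nonneg _)).trans h6
    refine b1.trans ?_
    rw [show k * (nrm u * (R * (B / √n))) = k * (R * B) * nrm u / √n by ring, div_le_iff₀ s0]
    linarith [mul_le_mul_of_nonneg_right kR.1 (nrm_nonneg u), mul_nonneg hη.le s0.le]
  · refine (sum_le_card_nsmul _ _ (t * (R * (B / √n)) ^ 2) fun a ha => ?_).trans ?_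
    · refine (sum_le_card_nsmul _ _ ((R * (B / √n)) ^ 2) fun i _ => ?_).trans ?_
      · rw [← sq_abs]; exact pow_le_pow_left₀ (abs_nonneg _) (vs a (mem_range.1 ha) i) 2
      · rw [nsmul_eq_mul]; exact mul_le_mul_of_nonneg_right hS (sq_nonneg _)
    · rw [card_range, nsmul_eq_mul, mul_pow, div_pow, sq_sqrt n0.le,
        show k * (t * (R ^ 2 * (B ^ 2 / n))) = k * (R * B) ^ 2 * t / n by ring, div_le_iff₀ n0]
      have b1 := pow_le_pow_left₀ (by positivity) kR.1 2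
      have b2 := mul_le_mul_of_nonneg_right kk (sq_nonneg (R * B))
      have b3 : k * (R * B) ^ 2 ≤ R' ^ 2 / 4 := by linarith [mul_pow (k : ℝ) (R * B) 2]
      linarith [mul_le_mul_of_nonneg_right b3 t0]
  · obtain ⟨w, w1, w2, w3, w4⟩ := pin_of_cav (k := k) (v := v) (h.gs hx hε R1 g hF) hJ hO Ap hq0 hα
      (fun a ha => ⟨.inr ⟨a, ha, rfl⟩, (g.nrm_v ha).le⟩) hP hx hCw hCp hew Rε0 Ce hη
      ((mul_le_mul_of_nonneg_right Rε (by linarith)).trans h1) h4 h5 (ε := ε) (e := e) (by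
        have b1 : k * (R * εw) ≤ R' * εw := by
          linarith [mul_le_mul_of_nonneg_right kR.2 hε]
        have b2 := pow_le_pow_left₀ (by positivity) (mul_le_mul_of_nonneg_left b1
          (show 0 ≤ 12 * P by linarith)) 2
        have b3 := mul_le_mul_of_nonneg_right kk (sq_nonneg (12 * P * (R * εw)))
        linarith)
      (le_trans (mul_le_mul_of_nonneg_left (add_le_add le_rfl (mul_le_mul_of_nonneg_left Rε
        (by linarith))) (by linarith)) h3) S u hS hu hut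
    exact ⟨w, w1, w2.trans (mul_le_mul_of_nonneg_right hCP (nrm_nonneg _)),
      w3.trans (mul_le_mul_of_nonneg_right hC0 (Eig.dot_self_nonneg _)), w4⟩
  · rw [g.co a ha, smul_sum]
    exact sum_congr rfl fun b _ => smul_comm _ _ _
  · refine mul_le_mul_of_nonneg_right ?_ (sum_nonneg fun _ _ => sq_nonneg _)
    have b1 := pow_le_pow_left₀ (by positivity) (kR.2.trans (half_le_self (R0.trans RR))) 2
    linarith [sq_nonneg R, mul_nonneg k0 (sq_nonneg R), mul_nonneg (sq_nonneg (k : ℝ)) (sq_nonneg R)]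
  · have l0 := (nrm_nonneg w).trans hA.2.1
    have b1 : ∑ a ∈ range k, |v a ⬝ᵥ w| ≤ k * (√ε * l) := by
      refine (sum_le_card_nsmul _ _ _ fun a ha => ?_).trans_eq (by rw [card_range, nsmul_eq_mul])
      refine abs_le_of_sq_le_sq ?_ (by positivity)
      rw [mul_pow, sq_sqrt hε]
      exact (single_le_sum (f := fun a => (v a ⬝ᵥ w) ^ 2) (fun _ _ => sq_nonneg _) ha).trans hA.2.2.2
    have b2 := mul_le_mul_of_nonneg_left (b1.trans (mul_le_mul_of_nonneg_right kN (by positivity))) hB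
    linarith [mul_le_mul_of_nonneg_left hA.2.1 hδ.le]

end Crest.Agent.T157.S1

end
end

-- ▼ part T157/S1LT_35
section

/-!
# Row 157, part B, block S1 (helper35): `LinOK2` along a filter of instances
-/

set_option autoImplicit false
set_option linter.unusedVariables false

noncomputable section

namespace Crest.Agent.T157.S1

open Real Matrix Finset Filter
open Crest.Agent.T157.E Crest.Agent.T157.SL
open Crest.Agent.T157.Eig
open Crest.Agent.T157.S3 (V Mx)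
open Crest.Agent.T157.Rip

/-- sublinear caps -/
def Sub1 (t : ℕ → ℝ) : Prop := ∀ θ > (0 : ℝ), ∀ᶠ n : ℕ in atTop, 0 ≤ t n ∧ t n ≤ θ * n

lemma sub1_pow {c : ℝ} (hc : 0 < c) : Sub1 fun n => (n : ℝ) ^ (1 - c) := fun θ hθ => by
  have := ((tendsto_rpow_neg_atTop hc).comp tendsto_natCast_atTop_atTop).eventually
    (ge_mem_nhds hθ)
  filter_upwards [this, eventually_gt_atTop 0] with n h1 h2
  have n0 : (0 : ℝ) < n := Nat.cast_pos.2 h2
  refine ⟨by positivity, ?_⟩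
  rw [sub_eq_neg_add, rpow_add n0, rpow_one]
  exact mul_le_mul_of_nonneg_right h1 n0.le

/-- **`LinOK2` and the modes at typical instances** -/
theorem lT {I ι : Type} [Fintype ι] {l : Filter I} {n : I → ℕ} (hn : Tendsto n l atTop)
    {J : ∀ i, Mx (n i)} {y0 p a0 al q : ∀ i, V (n i)} {h : ι → ∀ i, V (n i)}
    {B P lq C0 C1 CP Cw Cp ew e ei : ℝ} (hB : 0 ≤ B) (hlq : 0 ≤ lq) (hP : 1 ≤ P) (hC1 : 0 ≤ C1)
    (hCw : 0 ≤ Cw) (hCp : 0 ≤ Cp) (hew : 0 ≤ ew) (he : 0 < e) (hei : 0 < ei)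
    (hCP : 1 + 6 * P * (Cw + 1) ≤ CP) (hC0 : 111 + 12 * (Cp + 1) ^ 2 ≤ C0) (hwe : 12 * P * ew ≤ e)
    (hA : ∀ᶠ i in l, (J i)ᵀ = J i ∧ opn (J i) ≤ 3 ∧ (∀ b k, |h b i k| ≤ B) ∧
      (∀ k, 0 < p i k ∧ p i k ≤ 1) ∧ (∀ k, lq * p i k ≤ q i k ∧ q i k ≤ 2 * p i k) ∧
      (∀ k, p i k * |a0 i k| ≤ C1 ∧ p i k * |al i k - a0 i k| ≤ e) ∧
      ∀ (S : Finset (Fin (n i))) (Δ : V (n i)), (∀ k ∈ S, Δ k = 0) →
        Δ ⬝ᵥ Δ ≤ C1 * ∑ k ∈ Sᶜ, zv (J i) (p i) (a0 i) Δ k ^ 2 + C1 * ((mag (ising (J i) (y0 i)) ⬝ᵥ Δ) ^ 2 /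
          (mag (ising (J i) (y0 i)) ⬝ᵥ mag (ising (J i) (y0 i)))))
    (hC : ∀ εw > (0 : ℝ), ∃ θ > (0 : ℝ), ∀ᶠ i in l, ∃ x Ft Wm, 0 ≤ x ∧
      (∀ b, (√(n i : ℝ))⁻¹ • h b i ∈ Ft) ∧
      Cav (J i) (p i) (q i) (al i * q i) x Cw Cp ew εw (θ * n i) Ft Wm) :
    ∃ ε > (0 : ℝ), ε ≤ e ^ 2 ∧ ∃ R : ℝ, ∀ η > (0 : ℝ), ∀ t, Sub1 t → ∀ᶠ i in l, ∃ k v,
      LinOK2 (J i) P (y0 i) (p i) (a0 i) (al i) (q i) k v lq C0 C1 CP e η (t (n i)) ε ∧
      (∃ T : ℕ → ι → ℝ, (∀ a < k, v a = (√(n i : ℝ))⁻¹ • ∑ b, T a b • h b i) ∧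
        ∀ x : ℕ → ℝ, ∑ b, (∑ a ∈ range k, x a * T a b) ^ 2 ≤ R ^ 2 * ∑ a ∈ range k, x a ^ 2) ∧
      ∀ η' t' w u, Adm k v η' t' ε w u → ∀ b, |w ⬝ᵥ (√(n i : ℝ))⁻¹ • h b i| ≤ ei * u ∧
        (w ⬝ᵥ h b i) ^ 2 ≤ ei * n i * u ^ 2 := by
  obtain ⟨δ, δ0, δ1, δe⟩ : ∃ δ : ℝ, 0 < δ ∧ δ ≤ 1 ∧ δ ≤ ei :=
    ⟨min 1 ei, lt_min one_pos hei, min_le_left _ _, min_le_right _ _⟩
  obtain ⟨R, R1, H⟩ := linOK2_of (half_pos δ0) hB (Fintype.card ι)
  obtain ⟨D, hD⟩ : ∃ D : ℝ, D = Fintype.card ι * B := ⟨_, rfl⟩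
  have D0 : 0 ≤ D := by rw [hD]; positivity
  obtain ⟨s, s0, s1, se, sD⟩ : ∃ s : ℝ, 0 < s ∧ s ≤ 1 ∧ s ≤ e ∧ D * s ≤ δ / 2 := by
    refine ⟨min 1 (min e (δ / 2 / (D + 1))), by positivity, min_le_left _ _,
      (min_le_right _ _).trans (min_le_left _ _), ?_⟩
    have := (le_div_iff₀ (show 0 < D + 1 by linarith)).1
      ((min_le_right 1 _).trans (min_le_right e (δ / 2 / (D + 1))))
    have h0 : 0 < min 1 (min e (δ / 2 / (D + 1))) := by positivity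
    linarith
  obtain ⟨Y, hY⟩ : ∃ Y : ℝ, Y = 2 * (C1 + e) + 6 + 21 * P := ⟨_, rfl⟩
  have P0 : 0 < P := by linarith
  have R0 : 0 < R := by linarith
  have Y0 : 2 ≤ Y := by linarith
  obtain ⟨r, r0, hr⟩ : ∃ r : ℝ, 0 < r ∧ 12 * P * Y * r = s :=
    ⟨s / (12 * P * Y), by positivity, by field_simp⟩
  have rP : 24 * P * r ≤ s := by
    linarith [mul_le_mul_of_nonneg_right Y0 (show 0 ≤ 12 * P * r by positivity)]
  have rR : R * (r / R) = r := by field_simp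
  obtain ⟨θ, θ0, hC⟩ := hC (r / R) (by positivity)
  refine ⟨s ^ 2, by positivity, pow_le_pow_left₀ s0.le se 2, R, fun η hη t ht => ?_⟩
  filter_upwards [hA, hC, hn.eventually (eventually_gt_atTop 0), hn.eventually (ht θ θ0),
    hn.eventually (ht (θ * η ^ 2 / (36 * P ^ 2 * Cw ^ 2 + 1)) (by positivity)),
    hn.eventually (ht (η ^ 2 / R ^ 2) (by positivity)),
    hn.eventually (ht (s ^ 2 / R ^ 2) (by positivity))] with i ⟨a1, a2, a3, a4, a5, a6, a7⟩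
    ⟨x, Ft, Wm, x0, hF, c⟩ n0 ⟨t0, t1⟩ ⟨_, t2⟩ ⟨_, t3⟩ ⟨_, t4⟩
  rw [div_mul_eq_mul_div, le_div_iff₀ (by positivity)] at t2 t3 t4
  obtain ⟨k, -, v, T, L, G⟩ := H (n i) ι (fun b => h b i) (J i) Wm (y0 i) (p i) (a0 i) (al i) (q i) Ft
    P x lq C0 C1 CP Cw Cp ew (r / R) (θ * n i) e η (t (n i)) (s ^ 2) le_rfl n0 a3 hF a4 a5 a6 a7 c a1 a2
    hlq hP x0 hCw hCp hew (by positivity) hη hCP hC0 (by rw [rR]; linarith [mul_pos r0 P0])
    (by rw [rR]; exact pow_le_pow_left₀ (by positivity) rP 2) (by rw [rR, ← hY]; linarith) t0 t1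
    (by linarith) (by linarith) (by linarith)
  refine ⟨k, v, L, ⟨T, G.co, G.op⟩, fun η' t' w u hA b => ?_⟩
  have u0 := (nrm_nonneg w).trans hA.2.1
  have o := G.ort η' t' _ w u (sq_nonneg s) hA b
  rw [sqrt_sq s0.le, ← hD] at o
  replace o := o.trans (mul_le_mul_of_nonneg_right (show _ ≤ δ by linarith) u0)
  refine ⟨o.trans (mul_le_mul_of_nonneg_right δe u0), ?_⟩
  have N0 : (0 : ℝ) < n i := Nat.cast_pos.2 n0
  have o2 := pow_le_pow_left₀ (abs_nonneg _) o 2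
  rw [sq_abs, dotProduct_smul, smul_eq_mul, mul_pow, inv_pow, sq_sqrt N0.le, inv_mul_le_iff₀ N0] at o2
  have : δ * δ ≤ ei := (mul_le_of_le_one_left δ0.le δ1).trans δe
  linarith [mul_le_mul_of_nonneg_right this (mul_nonneg N0.le (sq_nonneg u))]

end Crest.Agent.T157.S1

end
end

-- ▼ part T157/S1LY_35

/-!
# Row 157, part B, block S1 (helper35): slot L of the local supply
-/

set_option autoImplicit false
set_option linter.unusedVariables false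
set_option maxHeartbeats 800000

noncomputable section

namespace Crest.Agent.T157.S1.SA

open Real Matrix Filter Finset MeasureTheory
open Crest.Agent.T157.Eig Crest.Agent.T157.E
open Crest.Agent.T157.S3 (V Mx)
open Crest.Agent.T157.S3.T60 (MO DO a0 alf)
open Crest.Agent.T157.Pos (In TF Lv)
open Crest.Agent.T157.Tw (sech2 sech2_pos)
open Crest.Agent.T157.Rip (Cav)
open Crest.Agent.T157.Uw (eta)

lemma LY35.cont : Continuous sech2 := by
  unfold sech2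
  exact continuous_const.div (by fun_prop) fun x => by positivity [Real.cosh_pos x]

/-- **slot L** -/
theorem ltStmt {β : ℝ} (hβ : β ∈ Set.Ioo (0 : ℝ) 1) (l : ℝ) : LT β l := by
  intro a' ha' a0'
  have b0 := hβ.1
  have hl : 0 < l := a0'.trans_lt ha'
  obtain ⟨C1, c1, HA⟩ := linA hβ ha'
  obtain ⟨r, hr⟩ : ∃ r, r = max (1 - β * (l - a')) 0 := ⟨_, rfl⟩
  have r0 : 0 ≤ r := hr ▸ le_max_right _ _
  have r1 : r < 1 := hr ▸ max_lt (by linarith [mul_pos b0 (sub_pos.2 ha')]) one_pos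
  have r2 : 0 < 1 - r := sub_pos.2 r1
  obtain ⟨C2, hC2⟩ : ∃ C2, C2 = 6 / (l * β) + 4 := ⟨_, rfl⟩
  have c4 : 4 ≤ C2 := hC2 ▸ le_add_of_nonneg_left (by positivity)
  have c0 : 0 < C2 := by linarith
  obtain ⟨Cw, hw⟩ : ∃ Cw, Cw = 2 * C2 / (1 - r) := ⟨_, rfl⟩
  obtain ⟨Cp, hp⟩ : ∃ Cp, Cp = 2 * C2 ^ 2 / (1 - r) ^ 2 := ⟨_, rfl⟩
  have w0 : 0 ≤ Cw := by rw [hw]; positivity
  have p0 : 0 ≤ Cp := by rw [hp]; positivity
  refine ⟨111 + 12 * (Cp + 1) ^ 2, C1, by linarith, fun P hP => ⟨1 + 6 * P * (Cw + 1), fun eL eL0 => ?_⟩⟩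
  have P0 : 0 < P := by linarith
  obtain ⟨eT, T0, hT⟩ : ∃ eT > (0 : ℝ), 12 * P * ((Cw + 1) * (4 * eT)) = eL :=
    ⟨eL / (48 * P * (Cw + 1)), by positivity, by field_simp; ring⟩
  have TL : eT ≤ eL := by
    linarith [mul_le_mul_of_nonneg_right hP T0.le, mul_nonneg (mul_nonneg P0.le w0) T0.le]
  refine ⟨eT, T0, fun s q0 hL a h0 ha g hg e s0 ρ he hd nh h hh δ δ0 => ?_⟩
  have al : a ≤ l := by linarith
  choose M hM using fun b => (hh b).2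
  have gb : ∀ x, β * g x ≤ 1 := fun x => (mo_le hg b0 al x).trans (sech2_le x)
  have q1 : ∀ y, 0 ≤ qf ρ y ∧ qf ρ y ≤ 2 * sech2 y := fun y =>
    ⟨le_trans (by positivity [sech2_pos y]) (qf_mem hd y).1, (qf_mem hd y).2⟩
  have sq : ∀ x, sech2 x / β ≤ C2 * qf ρ x := fun x =>
    calc sech2 x / β = 6 / (l * β) * (l / 6 * sech2 x) := by field_simp
      _ ≤ 6 / (l * β) * qf ρ x := mul_le_mul_of_nonneg_left (qf_mem hd x).1 (by positivity)
      _ ≤ _ := mul_le_mul_of_nonneg_right (by linarith) (q1 x).1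
  obtain ⟨ε, ε0, ε1, R, H⟩ := lT (l := TF β s) (n := fun i : In => i.n) Pos.TF.lim
    (J := fun i => i.J β) (y0 := fun i => i.y) (p := fun i j => sech2 (i.b β j))
    (a0 := fun i j => a0 β (S3P.nu (s + β ^ 2 * q0)) g (i.b β j))
    (al := fun i j => alf s0 a ρ (i.b β j)) (q := fun i j => qf ρ (i.b β j))
    (h := fun b i => h b i.n (i.J β) i.y) (B := ∑ b, |M b|) (lq := l / 6) (C1 := C1)
    (ew := (Cw + 1) * (4 * eT)) (sum_nonneg fun _ _ => abs_nonneg _) (by positivity) hP (by linarith)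
    w0 p0 (by positivity) eL0 δ0 le_rfl le_rfl hT.le (by
      filter_upwards [HA s q0 hL a ha g hg, Pos.TF.opn ⟨b0, hβ.2.le⟩] with i hi ho
      have A := hi e s0 ρ hd
      exact ⟨i.symm, ho, fun b k => (hM b _ _ _ k).trans ((le_abs_self _).trans
        (single_le_sum (f := fun b => |M b|) (fun _ _ => abs_nonneg _) (mem_univ b))), A.hp, A.hq,
        fun k => ⟨(A.ha k).1, (A.ha k).2.trans (he.trans TL)⟩, A.pos⟩) fun εw w0 => by
      obtain ⟨μ, μ0, H⟩ := K.cavY hβ hL (M := 1 / β) (ρ := r) (C2 := C2) (e := 4 * eT)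
        (ε := min εw eT) (one_le_one_div b0 hβ.2.le) r0 r1 (by linarith) (by positivity)
        (lt_min w0 T0) (κ := Fin 0) (d := fun _ _ => 0) hg.cont hg.even (q := qf ρ)
        ((continuous_const.mul (hd.cb 0).1.continuous).mul LY35.cont) (qf_neg hd)
        (fun _ => continuous_const) (fun _ _ => by simp)
        (fun x => ⟨hg.pos x, (le_div_iff₀' b0).2 (gb x), (mo_hi hg b0 ha x).trans
          ((mul_le_of_le_one_left (mo_r0 hg b0 ha).le (sech2_le x)).trans (hr ▸ le_max_left _ _)),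
          ((le_div_iff₀' b0).2 (mo_le hg b0 al x)).trans (sq x)⟩) fun b => (hh b).1
      refine ⟨μ, μ0, H.mono fun i ⟨h1, h2⟩ => ?_⟩
      rw [← S3P.int_nu _ hg.cont] at h1
      have x0 : 0 ≤ eta (β / √i.n) fun k => g (i.b β k) :=
        Rip.Cav35.eta_nonneg fun k => (hg.pos _).le
      rw [← hw, ← hp] at h2
      generalize (eta (β / √i.n) fun k => g (i.b β k)) = x at h1 h2 x0
      obtain ⟨Wm, hW⟩ := h2 (fun k => sech2 (i.b β k))
        ((fun k => alf s0 a ρ (i.b β k)) * fun k => qf ρ (i.b β k)) (fun k => ⟨(sech2_pos _).le,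
          (le_div_self (sech2_pos _).le b0 hβ.2.le).trans (sq _), by
            linarith [hg.lo (i.b β k), mul_le_mul_of_nonneg_right c4 (hg.pos (i.b β k)).le]⟩)
        fun k => by
          have e3 : alf s0 a ρ (i.b β k) * qf ρ (i.b β k) - qf ρ (i.b β k) * (1 / g (i.b β k) + x) =
              qf ρ (i.b β k) * (alf s0 a ρ (i.b β k) - a0 β (S3P.nu (s + β ^ 2 * q0)) g (i.b β k)) -
                qf ρ (i.b β k) * (x - β ^ 2 * ∫ y, g y ∂S3P.nu (s + β ^ 2 * q0)) := by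
            rw [a0]; ring
          rw [Pi.mul_apply, e3]
          refine (abs_sub _ _).trans ?_
          rw [abs_mul, abs_mul, abs_of_nonneg (q1 _).1]
          linarith [hd.al (i.b β k), mul_le_mul_of_nonneg_right (q1 (i.b β k)).2 (abs_nonneg
            (alf s0 a ρ (i.b β k) - a0 β (S3P.nu (s + β ^ 2 * q0)) g (i.b β k))),
            mul_le_mul (show qf ρ (i.b β k) ≤ 2 by linarith [(q1 (i.b β k)).2, sech2_le (i.b β k)])
              (h1.trans (min_le_right _ _)) (abs_nonneg _) zero_le_two]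
      exact ⟨x, _, Wm, x0, fun b => .inr ⟨b, rfl⟩,
        hW.mono x0 le_rfl le_rfl le_rfl (min_le_left _ _) le_rfl subset_rfl⟩
  refine ⟨ε, R, ε0.le, ε1, fun η η0 γ hγ D0 hD DP hDP => ?_⟩
  have ht := sub1_pow (sub_pos.2 hγ)
  simp only [sub_sub_cancel] at ht
  refine (H η η0 _ ht).mono fun i ⟨k, v, L, hm, ho⟩ => ⟨k, v, ⟨L.hp, L.hq, L.ha, L.pos, L.on, L.sup,
    L.sp, fun S u h1 h2 h3 h4 => ?_⟩, hm, fun t w u hA b => (ho η t w u hA b).1⟩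
  obtain ⟨w, w1, w2, w3, w4⟩ := L.pin S u h1 h2 h3 h4
  exact ⟨w, w1, w2.trans (mul_le_mul_of_nonneg_right hDP (nrm_nonneg _)),
    w3.trans (mul_le_mul_of_nonneg_right hD (Eig.dot_self_nonneg _)), w4⟩

end Crest.Agent.T157.S1.SA

end
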