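import Crest.Agent.T157.ZAll_73

/-!
# Row 157, part B, package (Z): square roots of `J + 4`, averaged approximable words (helper64)
-/

set_option autoImplicit false

noncomputable section

namespace Crest.Agent.T157.Z

open MeasureTheory ProbabilityTheory Matrix Filter Set
open Crest.ProbabilityR.SpinGlassDynamics
open Crest.Agent.T157.E Crest.Agent.T157.Eig Crest.Agent.T157.Tap
open Crest.Agent.R339.Guerra (mp_comp)

namespace Q64

variable {n : ℕ}

theorem herm {J : Mx n} (h : Jᵀ = J) : J.IsHermitian := by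
  rw [IsHermitian, conjTranspose_eq_transpose_of_trivial, h]

open scoped MatrixOrder in
theorem sqrt_eq {J Q : Mx n} (h : Jᵀ = J) (h3 : opn J ≤ 3) (hQ : Q.PosSemidef)
    (e : Q * Q = J + (4 : ℝ) • (1 : Mx n)) : Q = fnK (fun x => √(x + 4)) J := by
  have hJ := herm h
  have hR : (fnK (fun x => √(x + 4)) J).PosSemidef := by
    refine .of_dotProduct_mulVec_nonneg (fnK_herm _ _) fun x => ?_
    rw [star_trivial, quad_fnK]
    exact Finset.sum_nonneg fun k _ => mul_nonneg (Real.sqrt_nonneg _) (mul_self_nonneg _)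
  refine (CFC.mul_self_eq_mul_self_iff Q _ hQ.nonneg hR.nonneg).1 ?_
  rw [e, fnK_mul hJ, fnK_congr (g := fun x => x + 4), fnK_add, fnK_id_real hJ, fnK_const hJ]
  intro k _
  have := abs_le.1 ((abs_lam_le hJ k).trans h3)
  exact Real.mul_self_sqrt (by linarith [this.1])

theorem aeval_eq {J : Mx n} (h : Jᵀ = J) (p : Polynomial ℝ) :
    Polynomial.aeval J p = fnK (fun x => p.eval x) J := by
  have hJ := herm h
  induction p using Polynomial.induction_on with
  | C a =>
    simp only [Polynomial.aeval_C, Polynomial.eval_C]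
    rw [fnK_const hJ, Algebra.algebraMap_eq_smul_one]
  | add p q hp hq =>
    simp only [map_add, Polynomial.eval_add]
    rw [fnK_add, hp, hq]
  | monomial k a hk =>
    rw [pow_succ, ← mul_assoc, map_mul, hk, Polynomial.aeval_X]
    conv_lhs => rw [show ∀ A : Mx n, A * J = A * fnK (fun x : ℝ => x) J from
      fun A => by rw [fnK_id_real hJ]]
    rw [fnK_mul hJ]
    simp only [Polynomial.eval_mul, Polynomial.eval_X]

theorem ap_poly {ι : Type} [Fintype ι] {β : ℝ} (hβ : β ∈ Icc (0 : ℝ) 1) (c d : ι → ℝ) {U : Nt ι}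
    (hU : Ap β c d U) (p : Polynomial ℝ) :
    Ap β c d fun n J a => Polynomial.aeval J p *ᵥ U n J a := by
  induction p using Polynomial.induction_on with
  | C a =>
    have := apB.add ι β hβ c d U U a 0 hU hU
    convert this using 4 with n J x
    rw [Polynomial.aeval_C, Algebra.algebraMap_eq_smul_one, smul_mulVec, one_mulVec, zero_smul,
      add_zero]
  | add p q hp hq =>
    have := apB.add ι β hβ c d _ _ 1 1 hp hq
    convert this using 4 with n J x
    rw [map_add, add_mulVec, one_smul, one_smul]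
  | monomial k a hk =>
    have := (apB.mul ι β hβ c d _ hk).1
    convert this using 4 with n J x
    rw [mulVec_mulVec, pow_succ, ← mul_assoc, mul_comm, map_mul, Polynomial.aeval_X]

theorem jensen {α : Type} [MeasurableSpace α] (μ : Measure α) [IsProbabilityMeasure μ]
    {D : α → V n} (hD : Measurable D) {K : ℝ} (δ : ℝ) (hK : ∀ a i, |D a i| ≤ K) :
    nrm (fun i => ∫ a, D a i ∂μ) ^ 2 ≤
      δ ^ 2 * n + K ^ 2 * n * μ.real {a | ¬ nrm (D a) ≤ δ * √n} := by
  have hm : ∀ i, Measurable fun a => D a i := fun i => (measurable_pi_apply i).comp hD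
  have h2 : ∀ i, MemLp (fun a => D a i) 2 μ := fun i =>
    MemLp.of_bound (hm i).aestronglyMeasurable K (.of_forall fun a => hK a i)
  have hB : MeasurableSet {a | ¬ nrm (D a) ≤ δ * √n} :=
    (measurableSet_le (continuous_nrm.measurable.comp hD) measurable_const).compl
  have hi : ∀ i, Integrable (fun a => D a i ^ 2) μ := fun i => (h2 i).integrable_sq
  calc nrm (fun i => ∫ a, D a i ∂μ) ^ 2 = ∑ i, (∫ a, D a i ∂μ) ^ 2 := by
        rw [nrm_sq, dotProduct]; exact Finset.sum_congr rfl fun i _ => by ring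
    _ ≤ ∑ i, ∫ a, D a i ^ 2 ∂μ := by
        refine Finset.sum_le_sum fun i _ => ?_
        have := variance_nonneg (fun a => D a i) μ
        rw [variance_eq_sub (h2 i)] at this
        simpa using this
    _ = ∫ a, ∑ i, D a i ^ 2 ∂μ := (integral_finsetSum _ fun i _ => hi i).symm
    _ ≤ ∫ a, (δ ^ 2 * n + {a | ¬ nrm (D a) ≤ δ * √n}.indicator (fun _ => K ^ 2 * n) a) ∂μ := by
        refine integral_mono (integrable_finsetSum _ fun i _ => hi i)
          ((integrable_const _).add ((integrable_const _).indicator hB)) fun a => ?_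
        have e : ∑ i, D a i ^ 2 = nrm (D a) ^ 2 := by
          rw [nrm_sq, dotProduct]; exact Finset.sum_congr rfl fun i _ => by ring
        by_cases ha : nrm (D a) ≤ δ * √n
        · have : nrm (D a) ^ 2 ≤ (δ * √n) ^ 2 := pow_le_pow_left₀ (nrm_nonneg _) ha 2
          rw [mul_pow, Real.sq_sqrt (Nat.cast_nonneg n)] at this
          simp only [e, indicator, mem_ofPred_eq, ha, not_true_eq_false, if_false, add_zero]
          exact this
        · have : ∑ i, D a i ^ 2 ≤ ∑ _i : Fin n, K ^ 2 := Finset.sum_le_sum fun i _ =>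
            sq_le_sq' (abs_le.1 (hK a i)).1 (abs_le.1 (hK a i)).2
          rw [Finset.sum_const, Finset.card_univ, Fintype.card_fin, nsmul_eq_mul] at this
          simp only [indicator, mem_ofPred_eq, ha, not_false_eq_true, if_true]
          nlinarith [sq_nonneg δ, Nat.cast_nonneg (α := ℝ) n]
    _ = _ := by
        rw [integral_add (integrable_const _) ((integrable_const _).indicator hB),
          integral_indicator_const _ hB, integral_const]
        simp only [probReal_univ, smul_eq_mul]
        ring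

theorem meas_lab {m : ℕ} (y : V n) : Measurable (lab (m := m) y) := by
  refine measurable_pi_lambda _ fun l => measurable_pi_lambda _ fun i => ?_
  cases l with
  | inl l => exact measurable_const
  | inr l => exact measurable_pi_apply (l, i)

theorem RL_lab {m : ℕ} (σ : V n) : RL (Sum.elim (1 : Unit → ℝ) (0 : Fin m → ℝ)) (Sum.elim 0 1) σ =
    (gv (Fin m × Fin n)).map (lab σ) := by
  have hm := mp_comp (ι := (Unit ⊕ Fin m) × Fin n) (Prod.map Sum.inr id)
    (Sum.inr_injective.prodMap Function.injective_id)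
  conv_rhs => rw [show gv (Fin m × Fin n) = _ from hm.map_eq.symm]
  rw [RL, Measure.map_map (meas_lab σ) hm.measurable]
  congr 1
  funext w l i
  cases l <;> simp [rows, lab]




end Q64

open Q64

theorem qStmt : QStmt := by
  intro ι _ β hβ c d Q hQ U hU
  refine apA.lim ι β c d _ fun ε hε => ?_
  obtain ⟨⟨C, C0, hC⟩, -⟩ := apA.bd ι β c d U hU
  obtain ⟨K, hK⟩ := hpStmt.good ι β hβ c d
  obtain ⟨p, hp⟩ := exists_polynomial_near_of_continuousOn (-3) 3 (fun x => √(x + 4))
    (by fun_prop) (ε / (C + 1)) (by positivity)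
  refine ⟨_, ap_poly hβ c d hU p, A48.imp hpStmt (hpStmt.and ι β c d _ _ hC hK) ?_⟩
  rintro n J a ⟨h1, h2, h3, -⟩
  obtain ⟨q1, q2⟩ := hQ n J h2 h3
  rw [← sub_mulVec, sqrt_eq h2 h3 q1 q2, aeval_eq h2, ← fnK_sub]
  have h4 : opn (fnK (fun x => √(x + 4) - p.eval x) J) ≤ ε / (C + 1) :=
    opn_fnK_le (herm h2) (by positivity) fun k _ => by
      rw [abs_sub_comm]
      exact (hp _ (abs_le.1 ((abs_lam_le (herm h2) k).trans h3))).le
  refine (nrm_mulVec_le _ _).trans ((mul_le_mul h4 h1 (nrm_nonneg _) (by positivity)).trans ?_)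
  rw [← mul_assoc]
  refine mul_le_mul_of_nonneg_right ?_ (Real.sqrt_nonneg _)
  rw [div_mul_eq_mul_div, div_le_iff₀ (by positivity)]
  nlinarith


end Crest.Agent.T157.Z

end
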