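import Crest.Agent.T157.ZAll_73

/-!
# Row 157, package (Z) (helper16): threshold sampling (`SmpStmt`, `ThStmt`)
-/

set_option autoImplicit false

noncomputable section

namespace Crest.Agent.T157.Z

open MeasureTheory ProbabilityTheory Matrix Filter Set Real
open Crest.ProbabilityR.SpinGlassDynamics
open Crest.Agent.T157.E Crest.Agent.T157.Eig Crest.Agent.T157.Tap
open scoped Topology

namespace Th16

/-- the standard Gaussian -/
abbrev γ : Measure ℝ := gaussianReal 0 1

lemma γ_le : γ ≤ volume := by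
  rw [γ, gaussianReal_of_var_ne_zero _ one_ne_zero]
  conv_rhs => rw [← withDensity_one (μ := volume)]
  refine withDensity_mono (ae_of_all _ fun x => ?_)
  rw [gaussianPDF, Pi.one_apply, ENNReal.ofReal_le_one, gaussianPDFReal]
  refine mul_le_one₀ (inv_le_one_of_one_le₀ (one_le_sqrt.2 ?_)) (exp_pos _).le (exp_le_one_iff.2 ?_)
  · simp only [NNReal.coe_one, mul_one]; linarith [pi_gt_three]
  · exact div_nonpos_of_nonpos_of_nonneg (neg_nonpos.2 (sq_nonneg _)) (by positivity)

lemma cdf_le {a b : ℝ} (h : a ≤ b) : cdf γ b ≤ cdf γ a + (b - a) := by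
  rw [cdf_eq_real, cdf_eq_real, ← Iic_union_Ioc_eq_Iic h]
  refine (measureReal_union_le _ _).trans (add_le_add_right ?_ _)
  rw [← Real.volume_real_Ioc_of_le h]
  exact ENNReal.toReal_mono (by simp) (γ_le _)

lemma cdf_lip : LipschitzWith 1 (cdf γ) := LipschitzWith.of_dist_le_mul fun a b => by
  rw [NNReal.coe_one, one_mul, Real.dist_eq, Real.dist_eq]
  rcases le_total a b with h | h
  · rw [abs_sub_comm, abs_sub_comm a, abs_of_nonneg (sub_nonneg.2 (monotone_cdf γ h)),
      abs_of_nonneg (sub_nonneg.2 h)]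
    linarith [cdf_le h]
  · rw [abs_of_nonneg (sub_nonneg.2 (monotone_cdf γ h)), abs_of_nonneg (sub_nonneg.2 h)]
    linarith [cdf_le h]

lemma cdf_neg (t : ℝ) : cdf γ (-t) = 1 - cdf γ t := by
  have := nullSingletonClass_gaussianReal (μ := 0) (v := 1) one_ne_zero
  have e : γ.map (fun x => -x) = γ := by rw [γ, gaussianReal_map_neg, neg_zero]
  rw [cdf_eq_real, cdf_eq_real, ← probReal_compl_eq_one_sub measurableSet_Iic, compl_Iic]
  conv_lhs => rw [← e]
  rw [map_measureReal_apply measurable_neg measurableSet_Iic,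
    show (fun x : ℝ => -x) ⁻¹' Iic (-t) = Ici t from Set.ext fun x => by simp]
  exact measureReal_congr Ioi_ae_eq_Ici.symm


lemma G_mid {p : ℝ} (p0 : 0 < p) (p1 : p < 1) : γ.real {t | cdf γ t ≤ p} = p := by
  have hc : IsClosed {t | cdf γ t ≤ p} := isClosed_le cdf_lip.continuous continuous_const
  obtain ⟨a, ha⟩ := ((tendsto_cdf_atBot γ).eventually (eventually_le_nhds p0)).exists
  obtain ⟨b, hb⟩ := ((tendsto_cdf_atTop γ).eventually (lt_mem_nhds p1)).exists
  have hB : BddAbove {t | cdf γ t ≤ p} := ⟨b, fun t ht => le_of_not_ge fun h =>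
    absurd ((monotone_cdf γ h).trans ht) (not_le.2 hb)⟩
  have h0 := hc.csSup_mem ⟨a, ha⟩ hB
  rw [show {t | cdf γ t ≤ p} = Iic (sSup {t | cdf γ t ≤ p}) from Set.ext fun t =>
    ⟨fun h => le_csSup hB h, fun h => (monotone_cdf γ h).trans h0⟩, ← cdf_eq_real]
  refine le_antisymm h0 (le_of_forall_pos_le_add fun ε hε => ?_)
  have h1 : ¬ cdf γ (sSup {t | cdf γ t ≤ p} + ε) ≤ p := fun h => by linarith [le_csSup hB h]
  linarith [cdf_le (show sSup {t | cdf γ t ≤ p} ≤ sSup {t | cdf γ t ≤ p} + ε by linarith)]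

lemma G_eq (p : ℝ) : γ.real {t | cdf γ t ≤ p} = max 0 (min 1 p) := by
  rcases le_or_gt 1 p with h | h
  · rw [show {t | cdf γ t ≤ p} = univ from eq_univ_of_forall fun t => (cdf_le_one γ t).trans h,
      probReal_univ, min_eq_left h, max_eq_right zero_le_one]
  rcases lt_or_ge 0 p with h0 | h0
  · rw [G_mid h0 h, min_eq_right h.le, max_eq_right h0.le]
  rw [min_eq_right h.le, max_eq_left h0]
  refine le_antisymm (le_of_forall_pos_le_add fun ε hε => ?_) measureReal_nonneg
  have a := lt_min hε one_half_pos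
  rw [zero_add]
  refine le_trans (measureReal_mono fun t (ht : cdf γ t ≤ p) => show cdf γ t ≤ min ε (1 / 2) by
    linarith) ((G_mid a ((min_le_right _ _).trans_lt one_half_lt_one)).trans_le (min_le_left _ _))

/-- the uniform variable on `(-1, 1)` -/
def uf (t : ℝ) : ℝ := 2 * cdf γ t - 1

lemma meas_uf : Measurable uf := (cdf_lip.continuous.measurable.const_mul 2).sub_const 1

lemma U_eq (s : ℝ) : γ.real {t | uf t ≤ s} = max 0 (min 1 ((1 + s) / 2)) := by
  rw [← G_eq]; congr 1; ext t; simp only [uf, mem_ofPred_eq]; constructor <;> intro h <;> linarith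

lemma d_tanh (x : ℝ) : HasDerivAt tanh (1 - tanh x ^ 2) x := by
  have h := (hasDerivAt_sinh x).div (hasDerivAt_cosh x) (cosh_pos x).ne'
  have e : tanh = sinh / cosh := funext tanh_eq_sinh_div_cosh
  rw [← e] at h
  refine h.congr_deriv ?_
  rw [tanh_eq_sinh_div_cosh]
  have := (cosh_pos x).ne'
  field_simp

lemma tanh_lip : LipschitzWith 1 tanh := lipschitzWith_of_nnnorm_deriv_le
  (fun x => (d_tanh x).differentiableAt) fun x => by
    rw [(d_tanh x).deriv, ← NNReal.coe_le_coe, coe_nnnorm, Real.norm_eq_abs, NNReal.coe_one, abs_le]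
    constructor <;> nlinarith [neg_one_lt_tanh x, tanh_lt_one x]

variable {n : ℕ}

lemma meas_smp : Measurable fun p : V n × V n => smp p.1 p.2 := measurable_pi_lambda _ fun i => by
  refine measurable_to_bool ?_
  have : MeasurableSet {p : V n × V n | uf (p.2 i) ≤ tanh (p.1 i)} :=
    measurableSet_le (meas_uf.comp (by fun_prop))
      (tanh_lip.continuous.measurable.comp (by fun_prop))
  convert this using 1
  ext p; simp [smp, uf]

lemma site (x : ℝ) (b : Bool) : γ.real {t | decide (2 * cdf γ t - 1 ≤ tanh x) = b} =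
    exp (x * spin b) / ∑ b', exp (x * spin b') := by
  have a1 := neg_one_lt_tanh x
  have a2 := tanh_lt_one x
  have e := U_eq (tanh x)
  rw [min_eq_right (by linarith), max_eq_right (by linarith)] at e
  have p1 := exp_pos x
  have p2 := exp_pos (-x)
  cases b
  · rw [show {t | decide (2 * cdf γ t - 1 ≤ tanh x) = false} = {t | uf t ≤ tanh x}ᶜ from
      Set.ext fun t => by simp [uf],
      probReal_compl_eq_one_sub (measurableSet_le meas_uf measurable_const), e, tanh_eq]
    simp only [spin, Fintype.sum_bool, if_true, Bool.false_eq_true, if_false, mul_one, mul_neg]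
    field_simp; ring
  · rw [show {t | decide (2 * cdf γ t - 1 ≤ tanh x) = true} = {t | uf t ≤ tanh x} from
      Set.ext fun t => by simp [uf], e, tanh_eq]
    simp only [spin, Fintype.sum_bool, if_true, Bool.false_eq_true, if_false, mul_one, mul_neg]
    field_simp; ring

lemma prob_prod (x : V n) (s : Cube n) :
    prob (ising 0 x) s = ∏ i, exp (x i * spin (s i)) / ∑ b', exp (x i * spin b') := by
  have e : ∀ s : Cube n, ising 0 x s = ∏ j, exp (x j * spin (s j)) := fun s => by
    simp [ising, dotProduct, exp_sum, sv]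
  rw [prob, Finset.prod_div_distrib, Finset.prod_univ_sum, Fintype.piFinset_univ]
  simp only [e]

/-- indicator of the band -/
def ind (δ t w : ℝ) : ℝ := if t - δ < uf w ∧ uf w ≤ t + δ then 1 else 0

lemma meas_ind (δ : ℝ) : Measurable fun p : ℝ × ℝ => ind δ p.1 p.2 :=
  Measurable.ite ((measurableSet_lt (by fun_prop) (meas_uf.comp measurable_snd)).inter
    (measurableSet_le (meas_uf.comp measurable_snd) (by fun_prop))) measurable_const measurable_const

lemma ind_bd (δ t w : ℝ) : 0 ≤ ind δ t w ∧ ind δ t w ≤ 1 := by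
  unfold ind; split_ifs <;> norm_num

lemma int_exp {δ : ℝ} (h : 0 ≤ δ) (t : ℝ) : ∫ w, exp (ind δ t w) ∂γ ≤ exp (2 * δ) := by
  have m : ∀ s, MeasurableSet {w | uf w ≤ s} := fun s => measurableSet_le meas_uf measurable_const
  have mB := (m (t + δ)).diff (m (t - δ))
  have e : ∀ w, exp (ind δ t w) ≤ 1 + 2 * ({w | uf w ≤ t + δ} \ {w | uf w ≤ t - δ}).indicator 1 w :=
    fun w => by
      unfold ind
      split_ifs with c
      · rw [indicator_of_mem (show w ∈ {w | uf w ≤ t + δ} \ {w | uf w ≤ t - δ} from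
          ⟨c.2, not_le.2 c.1⟩), Pi.one_apply]
        linarith [exp_one_lt_d9]
      · rw [exp_zero]; linarith [indicator_nonneg (s := {w | uf w ≤ t + δ} \ {w | uf w ≤ t - δ})
          (f := (1 : ℝ → ℝ)) (fun _ _ => zero_le_one) w]
  have i1 : Integrable (({w | uf w ≤ t + δ} \ {w | uf w ≤ t - δ}).indicator (1 : ℝ → ℝ)) γ :=
    (integrable_const 1).indicator mB
  refine (integral_mono_of_nonneg (ae_of_all _ fun w => (exp_pos _).le)
    ((integrable_const 1).add (i1.const_mul 2)) (ae_of_all _ e)).trans ?_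
  simp only [Pi.add_apply]
  rw [integral_add (integrable_const 1) (i1.const_mul 2), integral_const_mul, integral_indicator_one mB,
    measureReal_sdiff (s₁ := {w | uf w ≤ t + δ}) (s₂ := {w | uf w ≤ t - δ})
      (fun w (hw : uf w ≤ t - δ) => show uf w ≤ t + δ by linarith) (m _), U_eq, U_eq]
  have : max 0 (min 1 ((1 + (t + δ)) / 2)) ≤ max 0 (min 1 ((1 + (t - δ)) / 2)) + δ := by
    simp only [max_def, min_def]; split_ifs <;> linarith
  simp only [integral_const, probReal_univ, smul_eq_mul, mul_one]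
  linarith [add_one_le_exp (2 * δ)]

lemma cnt_tail {μ : Type} [Fintype μ] {δ : ℝ} (h : 0 ≤ δ) (t : μ → ℝ) :
    (gv μ).real {w | 3 * δ * Fintype.card μ ≤ ∑ p, ind δ (t p) (w p)} ≤
      exp (-δ * Fintype.card μ) := by
  have m : Measurable fun w : μ → ℝ => ∑ p, ind δ (t p) (w p) :=
    Finset.measurable_sum _ fun p _ => (meas_ind δ).comp (f := fun w : μ → ℝ => (t p, w p))
      (by fun_prop)
  have i1 : Integrable (fun w : μ → ℝ => exp (1 * ∑ p, ind δ (t p) (w p))) (gv μ) :=
    Integrable.of_bound (m.const_mul 1).exp.aestronglyMeasurable (exp (Fintype.card μ))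
      (ae_of_all _ fun w => by
        rw [Real.norm_eq_abs, abs_exp, one_mul]
        exact exp_le_exp.2 ((Finset.sum_le_card_nsmul _ _ 1 fun p _ => (ind_bd _ _ _).2).trans_eq
          (by simp)))
  refine (measure_ge_le_exp_mul_mgf _ zero_le_one i1).trans ?_
  simp only [mgf, one_mul, exp_sum]
  rw [integral_fintype_prod_eq_prod (fun p w => exp (ind δ (t p) w))]
  have := Finset.prod_le_prod (s := Finset.univ) (fun p _ => integral_nonneg fun w =>
    (exp_pos (ind δ (t p) w)).le) fun p _ => int_exp h (t p)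
  rw [Finset.prod_const, Finset.card_univ, ← exp_nat_mul] at this
  refine (mul_le_mul_of_nonneg_left this (exp_pos _).le).trans_eq ?_
  rw [← exp_add]; congr 1; ring

/-- a fresh label rarely falls into the bands -/
lemma fresh {ι : Type} [Fintype ι] (β : ℝ) (c d : ι → ℝ) {δ : ℝ} (h : 0 < δ) (T : Nt ι)
    (hT : ∀ n J, Measurable (T n J)) :
    Hp β (Sum.elim c (0 : Unit → ℝ)) (Sum.elim d 1) fun n J a =>
      ∑ i, ind δ (T n J (fun l => a (.inl l)) i) (a (.inr ()) i) < 3 * δ * n ∨ n = 0 := by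
  refine ⟨δ, h, Top.whp_of_eventually (.of_forall fun n g =>
    (Hp58.wt_gibbs n β g).mean_le fun x => ?_)⟩
  set J := β • Jmat n g
  have me : Measurable fun p : (ι → V n) × (Unit → V n) => (Sum.elim p.1 p.2 : ι ⊕ Unit → V n) :=
    (MeasurableEquiv.sumPiEquivProdPi fun _ : ι ⊕ Unit => V n).symm.measurable
  have mS : MeasurableSet {a : ι ⊕ Unit → V n |
      3 * δ * n ≤ ∑ i, ind δ (T n J (fun l => a (.inl l)) i) (a (.inr ()) i)} :=
    measurableSet_le measurable_const (Finset.measurable_sum _ fun i _ => (meas_ind δ).comp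
      (f := fun a : ι ⊕ Unit → V n => (T n J (fun l => a (.inl l)) i, a (.inr ()) i))
      (((measurable_pi_apply i).comp ((hT n J).comp (by fun_prop))).prodMk (by fun_prop)))
  refine (measureReal_mono (s₂ := {a : ι ⊕ Unit → V n |
      3 * δ * n ≤ ∑ i, ind δ (T n J (fun l => a (.inl l)) i) (a (.inr ()) i)})
    fun a ha => not_lt.1 (not_or.1 ha).1).trans ?_
  rw [Hp58.split, map_measureReal_apply me mS, Measure.real, Measure.prod_apply (me mS)]
  refine ENNReal.toReal_le_of_le_ofReal (exp_pos _).le ((lintegral_mono (g := fun _ =>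
    ENNReal.ofReal (exp (-δ * n))) fun a => ?_).trans_eq (by simp))
  have t := cnt_tail h.le fun p : Unit × Fin n => T n J a p.2
  simp only [Fintype.card_prod, Fintype.card_unit, Fintype.card_fin, one_mul] at t
  refine (ENNReal.le_ofReal_iff_toReal_le (measure_ne_top _ _) (exp_pos _).le).2 (le_trans ?_ t)
  rw [RL, Measure.map_apply (Hp58.meas_rows _ _ _) (measurable_prodMk_left (me mS))]
  refine le_of_eq ?_
  rw [Measure.real]
  congr 2
  ext w
  simp [rows, Fintype.sum_prod_type]

/-- the ramp -/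
def rp (δ : ℝ) (u : Fin 2 → ℝ) : ℝ := max (-1) (min 1 ((tanh (u 0) - uf (u 1)) / δ))

lemma ol_rp (δ : ℝ) : OL (rp δ) := by
  refine ⟨fun u => ?_, ?_⟩
  · have e : (tanh (-u 0) - uf (-u 1)) / δ = -((tanh (u 0) - uf (u 1)) / δ) := by
      rw [tanh_neg, uf, uf, cdf_neg]; ring
    simp only [rp, Pi.neg_apply, e, max_def, min_def]
    split_ifs <;> linarith
  · have a : LipschitzWith (1 * 1) fun u : Fin 2 → ℝ => tanh (u 0) := tanh_lip.comp (LipschitzWith.eval 0)
    have b : LipschitzWith (1 * 1) fun u : Fin 2 → ℝ => cdf γ (u 1) := cdf_lip.comp (LipschitzWith.eval 1)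
    have c := (lipschitzWith_smul δ⁻¹).comp
      (a.sub (((lipschitzWith_smul (2 : ℝ)).comp b).sub (LipschitzWith.const' (1 : ℝ) (K := 0))))
    refine ⟨_, Eq.mp (congrArg _ (funext fun u => ?_)) ((c.const_min 1).const_max (-1))⟩
    simp only [rp, uf, Function.comp, smul_eq_mul, div_eq_inv_mul]

lemma err {δ : ℝ} (h : 0 < δ) (s t w : ℝ) : (spin (decide (2 * cdf γ w - 1 ≤ tanh s)) - rp δ ![t, w]) ^ 2 ≤
    4 * ind δ (tanh t) w + 4 / δ ^ 2 * (s - t) ^ 2 := by
  have a : |tanh s - tanh t| ≤ |s - t| := by simpa [Real.dist_eq] using tanh_lip.dist_le_mul s t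
  have b : (spin (decide (2 * cdf γ w - 1 ≤ tanh s)) - rp δ ![t, w]) ^ 2 ≤ 4 := by
    have b1 : -1 ≤ rp δ ![t, w] := le_max_left _ _
    have b2 : rp δ ![t, w] ≤ 1 := max_le (by norm_num) (min_le_left _ _)
    unfold spin; split_ifs <;> nlinarith
  have c0 : 0 ≤ 4 / δ ^ 2 * (s - t) ^ 2 := by positivity
  by_cases c : δ ≤ |s - t|
  · have : 4 ≤ 4 / δ ^ 2 * (s - t) ^ 2 := by
      rw [div_mul_eq_mul_div, le_div_iff₀ (by positivity), ← sq_abs (s - t)]
      nlinarith [mul_self_le_mul_self h.le c]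
    linarith [(ind_bd δ (tanh t) w).1]
  have a' := abs_le.1 (a.trans (not_le.1 c).le)
  unfold ind
  split_ifs with e
  · linarith
  rcases not_and_or.1 e with e | e
  · have e1 : 1 ≤ (tanh t - uf w) / δ := by rw [le_div_iff₀ h]; linarith
    have e2 : 2 * cdf γ w - 1 ≤ tanh s := by unfold uf at e; linarith
    simp [rp, e2, spin, min_eq_left e1, c0]
  · have e1 : (tanh t - uf w) / δ ≤ -1 := by rw [div_le_iff₀ h]; linarith
    have e2 : ¬ 2 * cdf γ w - 1 ≤ tanh s := by unfold uf at e; linarith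
    have e3 : rp δ ![t, w] = -1 := max_eq_left ((min_le_right _ _).trans e1)
    simp only [e2, e3, spin, decide_false, Bool.false_eq_true, if_false]
    linarith

end Th16

open Th16

theorem smpStmt : SmpStmt := fun n => ⟨meas_smp, fun x F => by
  have m : Measurable (smp x) := meas_smp.comp (f := fun w => (x, w)) (by fun_prop)
  have := Measure.isProbabilityMeasure_map (μ := gv (Fin n)) m.aemeasurable
  rw [← integral_map m.aemeasurable (measurable_of_finite F).aestronglyMeasurable,
    integral_fintype Integrable.of_finite, mean]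
  refine Finset.sum_congr rfl fun s _ => ?_
  rw [smul_eq_mul, prob_prod, map_measureReal_apply m (measurableSet_singleton s),
    show smp x ⁻¹' {s} = univ.pi fun i => {t | decide (2 * cdf γ t - 1 ≤ tanh (x i)) = s i} from
      Set.ext fun w => by simp [smp, funext_iff], Measure.real, Measure.pi_pi, ENNReal.toReal_prod]
  congr 1
  exact Finset.prod_congr rfl fun i _ => site (x i) (s i)⟩

theorem thStmt : ThStmt := fun ι κ _ _ β _ c d f j hj hc hd U hU ε hε => by
  set δ := ε ^ 2 / 24 with hδ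
  have δ0 : 0 < δ := by positivity
  obtain ⟨m, X, h3, -, h5⟩ := hU (ε * δ / 4) (by positivity)
  let g : ι ⊕ Fin m ↪ κ ⊕ Fin m := f.sumMap (Function.Embedding.refl _)
  let g' : (ι ⊕ Fin m) ⊕ Unit ↪ κ ⊕ Fin m := ⟨Sum.elim g fun _ => .inl j, by
    have k : ∀ a, g a ≠ .inl j := by
      rintro (a | a) e
      exacts [hj ⟨a, Sum.inl_injective e⟩, Sum.inr_ne_inl e]
    rintro (a | a) (b | b) e
    exacts [congrArg _ (g.injective e), absurd e (k a), absurd e.symm (k b), rfl]⟩
  have h6 := A48.emb' hpStmt (c' := Sum.elim c 0) (d' := Sum.elim d 1) g (by rintro (l | l) <;> rfl)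
    (by rintro (l | l) <;> rfl) h5
  have h7 := A48.emb' hpStmt (c' := Sum.elim c 0) (d' := Sum.elim d 1) g'
    (by rintro ((l | l) | l); exacts [rfl, rfl, hc]) (by rintro ((l | l) | l); exacts [rfl, rfl, hd])
    (fresh β (Sum.elim (c ∘ f) 0) (Sum.elim (d ∘ f) 1) δ0 (fun n J a => th (X n J a)) fun n J =>
      measurable_pi_lambda _ fun i => tanh_lip.continuous.measurable.comp ((measurable_pi_apply i).comp
        ((lipStmt.cont _ _ X h3 n).comp (f := fun a => (J, a)) (by fun_prop)).measurable))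
  refine ⟨m, fun n J a i => rp δ fun l => (![fun n J a => X n J fun l => a (g l),
    fun _ _ a => a (.inl j)] : Fin 2 → Nt (κ ⊕ Fin m)) l n J a i,
    .map _ _ (ol_rp δ) False.elim (Fin.forall_fin_two.2 ⟨A48.rel lipStmt h3 g, .inp _⟩),
    ⟨1, fun n J a i => abs_le.2 ⟨le_max_left _ _, max_le (by norm_num) (min_le_left _ _)⟩⟩,
    A48.imp hpStmt (hpStmt.and _ _ _ _ _ _ h6 h7) fun n J a h => ?_⟩
  obtain ⟨h1, h2⟩ := h
  rw [nrm_le_iff (by positivity), mul_pow, sq_sqrt (Nat.cast_nonneg _)] at h1 ⊢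
  have h8 : ∑ i, ind δ (tanh (X n J (fun l => a (g l)) i)) (a (.inl j) i) ≤ 3 * δ * n := by
    rcases h2 with h2 | rfl
    · exact h2.le
    · simp
  have h9 := Finset.sum_le_sum (s := Finset.univ) fun i _ => err δ0 (U n J (fun l => a (.inl (f l))) i)
    (X n J (fun l => a (g l)) i) (a (.inl j) i)
  rw [Finset.sum_add_distrib, ← Finset.mul_sum, ← Finset.mul_sum] at h9
  have h10 : ∑ i, (U n J (fun l => a (.inl (f l))) i - X n J (fun l => a (g l)) i) ^ 2 ≤
      (ε * δ / 4) ^ 2 * n := le_trans (le_of_eq (Finset.sum_congr rfl fun i _ => sq _)) h1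
  have h11 := mul_le_mul_of_nonneg_left h10 (show 0 ≤ 4 / δ ^ 2 by positivity)
  rw [show 4 / δ ^ 2 * ((ε * δ / 4) ^ 2 * n) = ε ^ 2 / 4 * n by field_simp] at h11
  refine le_trans (le_of_eq (Finset.sum_congr rfl fun i _ => ?_)) (h9.trans ?_)
  · rw [← sq]
    congr 3
  · nlinarith [mul_nonneg (sq_nonneg ε) (Nat.cast_nonneg (α := ℝ) n)]

end Crest.Agent.T157.Z

end
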