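import Crest.Agent.T157.ZDefF_73
import Crest.Agent.T157.TapAlg_29

-- ▼ part T157/ZfExA_27
section

/-!
# Row 157, part B, kernel route (helper27): the base observable as a mean over rows
-/

set_option autoImplicit false

noncomputable section

namespace Crest.Agent.T157.Zf

open MeasureTheory ProbabilityTheory Matrix Filter Set
open Crest.Agent.T157.E Crest.Agent.T157.Eig Crest.Agent.T157.Tap Crest.Agent.T157.Z
open Crest.Agent.T157.Z.Hp58 (meas_rows law_emb split)
open Crest.ProbabilityR.SpinGlassDynamics (spin)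

namespace Ex27

variable {n m : ℕ}

theorem int_tanh (a : ℝ) : Integrable (fun z => Real.tanh (a + z)) (gaussianReal 0 1) :=
  Integrable.of_bound (continuous_tanh'.comp (by fun_prop)).aestronglyMeasurable 1
    (.of_forall fun _ => (Real.abs_tanh_lt_one _).le)

theorem int_neg (f : ℝ → ℝ) (hf : Continuous f) :
    ∫ z, f (-z) ∂gaussianReal 0 1 = ∫ z, f z ∂gaussianReal 0 1 := by
  rw [← integral_map (φ := fun z : ℝ => -z) (by fun_prop) hf.aestronglyMeasurable, gaussianReal_map_neg,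
    neg_zero]

theorem kz_neg : ∫ z, Real.tanh (-1 + z) ∂gaussianReal 0 1 = -kz := by
  rw [kz, ← integral_neg, ← int_neg _ (continuous_tanh'.comp' (by fun_prop))]
  exact integral_congr_ae (.of_forall fun z => by
    simp only; rw [← Real.tanh_neg]; congr 1; ring)

theorem kz_pos : 0 < kz := by
  have hm : StrictMono Real.tanh := strictMono_of_deriv_pos fun x => by
    rw [(hasDerivAt_tanh' x).deriv]; linarith [Real.tanh_sq_lt_one x]
  have h : ∀ z : ℝ, 0 < Real.tanh (1 + z) - Real.tanh (-1 + z) := fun z => sub_pos.2 (hm (by linarith))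
  have := (integral_pos_iff_support_of_nonneg (fun z => (h z).le) ((int_tanh 1).sub (int_tanh (-1)))).2
    (by rw [eq_univ_of_forall (s := Function.support _) fun z => (h z).ne']; simp)
  rw [integral_sub (int_tanh 1) (int_tanh (-1)), kz_neg, ← kz] at this
  linarith

theorem int_th (s : Cube n) (i : Fin n) :
    ∫ b, Real.tanh (b () i) ∂ RL (fun _ : Unit => 1) (fun _ => 1) (sv s) = kz * sv s i := by
  have hc : Continuous fun z : ℝ => Real.tanh (sv s i + z) := continuous_tanh'.comp (by fun_prop)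
  rw [RL, integral_map (meas_rows _ _ _).aemeasurable
    (continuous_tanh'.comp' (by fun_prop)).aestronglyMeasurable]
  have h := (measurePreserving_eval (fun _ : Unit × Fin n => gaussianReal 0 1) ((), i)).map_eq
  have e : ∫ z, Real.tanh (sv s i + z) ∂gaussianReal 0 1 = kz * sv s i := by
    cases hs : s i
    · rw [show sv s i = -1 by simp [sv, spin, hs], kz_neg]; ring
    · rw [show sv s i = 1 by simp [sv, spin, hs], kz]; ring
  rw [← e, ← h, integral_map (measurable_pi_apply _).aemeasurable hc.aestronglyMeasurable]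
  simp [rows]

theorem int_split {ι κ : Type} [Fintype ι] [Fintype κ] (c d : ι → ℝ) (c' d' : κ → ℝ) (σ : V n)
    {F : (ι ⊕ κ → V n) → ℝ} (hF : Continuous F) {B : ℝ} (hB : ∀ a, |F a| ≤ B) :
    ∫ u, F u ∂ RL (Sum.elim c c') (Sum.elim d d') σ =
      ∫ a, ∫ b, F (Sum.elim a b) ∂ RL c' d' σ ∂ RL c d σ := by
  have me : Measurable fun p : (ι → V n) × (κ → V n) => (Sum.elim p.1 p.2 : ι ⊕ κ → V n) :=
    (MeasurableEquiv.sumPiEquivProdPi fun _ : ι ⊕ κ => V n).symm.measurable
  rw [split, integral_map me.aemeasurable hF.aestronglyMeasurable, integral_prod]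
  exact Integrable.of_bound (hF.measurable.comp me).aestronglyMeasurable B (.of_forall fun _ => hB _)

theorem cont_th : Continuous (th : V n → V n) :=
  continuous_pi fun i => continuous_tanh'.comp (continuous_apply i)

theorem int_unit (s : Cube n) (x p : V n) :
    ∫ b, x ⬝ᵥ (kz⁻¹ • th (b ()) - p) ∂ RL (fun _ : Unit => 1) (fun _ => 1) (sv s) = x ⬝ᵥ (sv s - p) := by
  have hi : ∀ i, Integrable (fun b : Unit → V n => Real.tanh (b () i))
      (RL (fun _ : Unit => 1) (fun _ => 1) (sv s)) := fun i =>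
    Integrable.of_bound (continuous_tanh'.comp' (by fun_prop)).aestronglyMeasurable 1
      (.of_forall fun _ => (Real.abs_tanh_lt_one _).le)
  simp only [dotProduct, Pi.sub_apply, Pi.smul_apply, smul_eq_mul, th]
  rw [integral_finsetSum _ fun i _ => (((hi i).const_mul _).sub' (integrable_const _)).const_mul _]
  refine Finset.sum_congr rfl fun i _ => ?_
  rw [integral_const_mul, integral_sub ((hi i).const_mul _) (integrable_const _), integral_const_mul,
    int_th, ← mul_assoc, inv_mul_cancel₀ kz_pos.ne', one_mul]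
  simp

/-- the rows read by `X` -/
def R2 (m : ℕ) : Fin 2 ⊕ Fin m → Fin 3 ⊕ Fin m := Sum.elim ![.inl 0, .inl 1] .inr

theorem Xb_eq (X : Nt (Fin 2 ⊕ Fin m)) (J : Mx n) (a : Fin 3 ⊕ Fin m → V n) :
    Xb X n J a = X n J fun l => a (R2 m l) := by
  unfold Xb
  congr 1
  funext l
  rcases l with l | l
  · fin_cases l <;> rfl
  · rfl

/-- the rows of the base inside three blocks -/
def F3 (m : ℕ) : Fin 3 ⊕ Fin m ↪ (Fin 2 ⊕ Fin m) ⊕ Unit :=
  ⟨Sum.elim ![.inl (.inl 0), .inl (.inl 1), .inr ()] fun l => .inl (.inr l), by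
    rintro (a | a) (b | b) h
    · fin_cases a <;> fin_cases b <;> simp_all
    · fin_cases a <;> simp_all
    · fin_cases b <;> simp_all
    · simp_all⟩

theorem cont_Tb (J : Mx n) : Continuous fun p : V n × (Fin 3 ⊕ Fin m → V n) => Tb J p.1 p.2 := by
  refine continuous_pi fun l => ?_
  rcases l with l | l
  · fin_cases l <;> simp [Tb, xu] <;> fun_prop
  · simp [Tb]; fun_prop

theorem abs_dot {x u : V n} {M N : ℝ} (hx : ∀ i, |x i| ≤ M) (hu : ∀ i, |u i| ≤ N) :
    |x ⬝ᵥ u| ≤ n * (M * N) := by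
  refine (Finset.abs_sum_le_sum_abs _ _).trans ((Finset.sum_le_card_nsmul _ _ (M * N) fun i _ => ?_).trans
    (by simp))
  rw [abs_mul]
  exact mul_le_mul (hx i) (hu i) (abs_nonneg _) ((abs_nonneg _).trans (hx i))

theorem abs_U (u x : V n) (i : Fin n) : |(kz⁻¹ • th u - th x) i| ≤ kz⁻¹ + 1 := by
  have k0 := (inv_pos.2 kz_pos).le
  refine (abs_sub _ _).trans (add_le_add ?_ (Real.abs_tanh_lt_one _).le)
  rw [Pi.smul_apply, smul_eq_mul, abs_mul, abs_of_nonneg k0]
  exact mul_le_of_le_one_right k0 (Real.abs_tanh_lt_one _).le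

/-- **the representation** -/
theorem rep (hK : KeStmt) {X : Nt (Fin 2 ⊕ Fin m)} (hX : Nw True X) (hb : Bd X) {J : Mx n}
    (hJ : Jᵀ = J) (s : Cube n) (y : V n) :
    ∫ z, Eb2 X n J (xr J s y z) y ⬝ᵥ (sv s - th (xr J s y z)) ∂gv (Fin n) =
      ∫ u, Xb X n J (Tb J y u) ⬝ᵥ Ub m n J (Tb J y u) ∂ RL (cb m) (db m) (sv s) := by
  obtain ⟨M, hM⟩ := hb
  have cX : Continuous (X n J) := (lipStmt.diff _ X hX n J).continuous
  have cT : Continuous fun u : Fin 3 ⊕ Fin m → V n => Tb J y u := 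
    (cont_Tb J).comp' (f := fun u => (y, u)) (by fun_prop)
  have cG : Continuous fun u => Xb X n J (Tb J y u) ⬝ᵥ Ub m n J (Tb J y u) := by
    have := @cont_th n
    simp only [Xb_eq, Ub]
    fun_prop
  have e1 : cb m = Sum.elim (Sum.elim c1 0) (fun _ : Unit => (1 : ℝ)) ∘ F3 m := by
    funext l; rcases l with l | l
    · fin_cases l <;> rfl
    · rfl
  have e2 : db m = Sum.elim (Sum.elim d1 1) (fun _ : Unit => (1 : ℝ)) ∘ F3 m := by
    funext l; rcases l with l | l
    · fin_cases l <;> rfl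
    · rfl
  have cl : ∀ x : V n × (Fin m × Fin n → ℝ) → V n, Continuous x →
      Continuous fun p => X n J (lab2 (x p) y p.2) := fun x hx => cX.comp' (continuous_pi fun l => by
    rcases l with l | l
    · fin_cases l <;> simp [lab2] <;> fun_prop
    · simp [lab2]; fun_prop)
  have mE : Measurable fun x => Eb2 X n J x y ⬝ᵥ (sv s - th x) := by
    refine Finset.measurable_sum _ fun i _ => Measurable.mul ?_ (by
      exact ((continuous_apply i).comp (continuous_const.sub cont_th)).measurable)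
    exact (StronglyMeasurable.integral_prod_right' (ν := gv (Fin m × Fin n))
      ((continuous_apply i).comp (cl Prod.fst continuous_fst)).stronglyMeasurable).measurable
  rw [e1, e2, ← law_emb, integral_map (Measurable.aemeasurable (by fun_prop)) cG.aestronglyMeasurable,
    int_split (B := n * (M * (kz⁻¹ + 1))) _ _ _ _ _ (cG.comp' (by fun_prop)) fun a =>
      abs_dot (fun i => hM _ _ _ i) (abs_U _ _)]
  have e3 : ∀ (a : Fin 2 ⊕ Fin m → V n) (b : Unit → V n),
      Xb X n J (Tb J y fun l => Sum.elim a b (F3 m l)) ⬝ᵥ Ub m n J (Tb J y fun l => Sum.elim a b (F3 m l)) =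
      X n J (Sum.elim ![xu J y (a (.inl 0)) (a (.inl 1)), y] fun l => a (.inr l)) ⬝ᵥ
        (kz⁻¹ • th (b ()) - th (xu J y (a (.inl 0)) (a (.inl 1)))) := fun _ _ => rfl
  simp only [e3, int_unit]
  have cx : Continuous fun a : Fin 2 ⊕ Fin m → V n => xu J y (a (.inl 0)) (a (.inl 1)) := by
    unfold xu; fun_prop
  have cy : Continuous fun a : Fin 2 ⊕ Fin m → V n =>
      X n J (Sum.elim ![xu J y (a (.inl 0)) (a (.inl 1)), y] fun l => a (.inr l)) ⬝ᵥ
        (sv s - th (xu J y (a (.inl 0)) (a (.inl 1)))) := (cX.comp' (continuous_pi fun l => by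
      rcases l with l | l
      · fin_cases l <;> simp <;> fun_prop
      · simp; fun_prop)).dotProduct (continuous_const.sub (cont_th.comp' cx))
  rw [int_split (B := n * (M * (1 + 1))) _ _ _ _ _ cy fun a =>
      abs_dot (fun i => hM _ _ _ i) fun i => (abs_sub _ _).trans (add_le_add
        (by cases h : s i <;> simp [sv, spin, h]) (Real.abs_tanh_lt_one _).le)]
  have e4 : ∀ x v : V n, ∫ b, X n J (Sum.elim ![x, y] b) ⬝ᵥ v ∂ RL (0 : Fin m → ℝ) 1 (sv s) =
      Eb2 X n J x y ⬝ᵥ v := fun x v => by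
    have c2 : Continuous fun w => X n J (lab2 x y w) :=
      (cl (fun _ => x) continuous_const).comp' (f := fun w => (x, w)) (by fun_prop)
    rw [RL, integral_map (meas_rows _ _ _).aemeasurable ((cX.comp' (continuous_pi fun l => by
      rcases l with l | l <;> simp <;> fun_prop)).dotProduct continuous_const).aestronglyMeasurable]
    have e5 : ∀ w, (Sum.elim ![x, y] (rows (0 : Fin m → ℝ) 1 (sv s) w) : Fin 2 ⊕ Fin m → V n) =
        lab2 x y w := fun w => by
      unfold lab2; congr 1; funext l i; simp [rows]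
    simp only [e5, dotProduct, Eb2]
    rw [integral_finsetSum _ fun i _ => (Integrable.of_bound ((continuous_apply i).comp'
      c2).aestronglyMeasurable M (.of_forall fun _ => hM _ _ _ i)).mul_const _]
    exact Finset.sum_congr rfl fun i _ => integral_mul_const _ _
  simp only [Sum.elim_inl, Sum.elim_inr, e4]
  rw [← integral_map (φ := xr J s y) (by unfold xr; fun_prop) mE.aestronglyMeasurable,
    ← hK.law n J s y hJ, integral_map (by unfold xu; fun_prop) mE.aestronglyMeasurable]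

end Ex27

end Crest.Agent.T157.Zf

end
end

-- ▼ part T157/ZfExB_27
section

/-!
# Row 157, part B, kernel route (helper27): the exact gradients of the base observable
-/

set_option autoImplicit false

noncomputable section

namespace Crest.Agent.T157.Zf

open MeasureTheory ProbabilityTheory Matrix Filter Set
open Crest.Agent.T157.E Crest.Agent.T157.Eig Crest.Agent.T157.Tap Crest.Agent.T157.Z
open Crest.Agent.T157.Z.ApB11 (fd_dot nrm_mono)
open Crest.Agent.T157.Rec (grad)

namespace Ex27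

variable {n m : ℕ}

theorem fd_le {E : Type} [NormedAddCommGroup E] [NormedSpace ℝ E] {φ : E → ℝ} {a v : E} {K : ℝ}
    (h : DifferentiableAt ℝ φ a) (K0 : 0 ≤ K) (hl : ∀ t : ℝ, |φ (a + t • v) - φ a| ≤ K * |t|) :
    |fderiv ℝ φ a v| ≤ K :=
  HasDerivAt.le_of_lip' (h.hasFDerivAt.hasLineDerivAt v) K0 (.of_forall fun t => by simpa using hl t)

theorem fd_row {ι : Type} [Fintype ι] [DecidableEq ι] (L : (ι → V n) →L[ℝ] ℝ) (j : ι) (v : V n) :
    L (Pi.single j v) = (fun k => L (Pi.single j (Pi.single k 1))) ⬝ᵥ v := by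
  have h : (Pi.single j v : ι → V n) = ∑ k, v k • (Pi.single j (Pi.single k 1) : ι → V n) := by
    funext l i
    by_cases hl : l = j
    · subst hl; simp [Finset.sum_apply, Pi.single_apply]
    · simp [Finset.sum_apply, Pi.single_eq_of_ne hl]
  rw [h, map_sum]
  exact Finset.sum_congr rfl fun k _ => by rw [map_smul, smul_eq_mul, mul_comm]

theorem nA_single {ι : Type} [Fintype ι] [DecidableEq ι] (j : ι) (v : V n) :
    nA (Pi.single j v : ι → V n) = nrm v := by
  rw [nA, Finset.sum_eq_single j (fun l _ hl => by simp [Pi.single_eq_of_ne hl]) (by simp)]; simp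

theorem nA3 (a : Fin 3 ⊕ Fin m → V n) : nA a =
    nrm (a (.inl 0)) + nrm (a (.inl 1)) + nrm (a (.inl 2)) + ∑ l, nrm (a (.inr l)) := by
  simp [nA, Fin.sum_univ_three]

theorem nA_R2 (a : Fin 3 ⊕ Fin m → V n) : nA (fun l => a (R2 m l)) ≤ nA a := by
  rw [nA3]; simp [nA, R2, nrm_nonneg]

theorem nrm_le {x : V n} {M : ℝ} (h : ∀ i, |x i| ≤ M) (M0 : 0 ≤ M) : nrm x ≤ M * √n := by
  rw [nrm_le_iff (by positivity), mul_pow, Real.sq_sqrt (Nat.cast_nonneg n)]
  refine (Finset.sum_le_card_nsmul _ _ (M ^ 2) fun i _ => ?_).trans (by simp [mul_comm])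
  rw [← sq]; exact sq_le_sq' (neg_le_of_abs_le (h i)) (le_of_abs_le (h i))

theorem th_lip (x y : V n) : nrm (th x - th y) ≤ nrm (x - y) := by
  rw [← Z.ApB11.nrm_abs (x - y)]
  refine nrm_mono fun i => ?_
  have h : ∀ u : ℝ, ‖1 - Real.tanh u ^ 2‖ ≤ 1 := fun u => by
    rw [Real.norm_eq_abs, abs_le]
    constructor <;> nlinarith [Real.tanh_sq_lt_one u, sq_nonneg (Real.tanh u)]
  exact (Convex.norm_image_sub_le_of_norm_hasDerivWithin_le (s := univ)
    (fun u _ => (hasDerivAt_tanh' u).hasDerivWithinAt) (fun u _ => h u) convex_univ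
    (mem_univ (y i)) (mem_univ (x i))).trans_eq (one_mul _)

theorem nrm_DD (p x : V n) : nrm (DD (th p) * x) ≤ nrm x := by
  rw [← Z.ApB11.nrm_abs x]
  refine nrm_mono fun i => ?_
  rw [Pi.mul_apply, abs_mul]
  refine mul_le_of_le_one_left (abs_nonneg _) (abs_le.2 ?_)
  simp only [DD, th]
  constructor <;> nlinarith [Real.tanh_sq_lt_one (p i), sq_nonneg (Real.tanh (p i))]

theorem Ub_lip (J : Mx n) (a a' : Fin 3 ⊕ Fin m → V n) :
    nrm (Ub m n J a - Ub m n J a') ≤ (kz⁻¹ + 1) * nA (a - a') := by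
  have k0 := (inv_pos.2 kz_pos).le
  have e : Ub m n J a - Ub m n J a' = kz⁻¹ • (th (a (.inl 2)) - th (a' (.inl 2))) -
      (th (a (.inl 0)) - th (a' (.inl 0))) := by simp only [Ub, smul_sub]; abel
  have h : ∀ j, nrm (a j - a' j) ≤ nA (a - a') := fun j =>
    Finset.single_le_sum (f := fun l => nrm ((a - a') l)) (fun _ _ => nrm_nonneg _) (Finset.mem_univ j)
  rw [e]
  refine (nrm_sub_le _ _).trans ?_
  rw [nrm_smul, abs_of_nonneg k0]
  nlinarith [(th_lip _ _).trans (h (.inl 2)), (th_lip _ _).trans (h (.inl 0))]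

/-- the rows `Tb` are linear in the field and the rows -/
def TL (J : Mx n) : (V n × (Fin 3 ⊕ Fin m → V n)) →L[ℝ] (Fin 3 ⊕ Fin m → V n) :=
  LinearMap.toContinuousLinearMap
    { toFun := fun p => Tb J p.1 p.2
      map_add' := fun p q => by
        funext l
        rcases l with l | l
        · fin_cases l <;> simp [Tb, xu, mulVec_add]; abel
        · simp [Tb]
      map_smul' := fun c p => by
        funext l
        rcases l with l | l
        · fin_cases l <;> simp [Tb, xu, mulVec_smul]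
        · simp [Tb] }

theorem TL_apply (J : Mx n) (y : V n) (u : Fin 3 ⊕ Fin m → V n) : TL J (y, u) = Tb J y u := rfl

theorem nA_Tb (hK : KeStmt) {J : Mx n} (hJ : Jᵀ = J) (y : V n) (u : Fin 3 ⊕ Fin m → V n) :
    nA (Tb J y u) ≤ 2 * nrm y + 7 * nA u := by
  obtain ⟨-, h1, h2⟩ := hK.op n J hJ
  have a1 := (nrm_mulVec_le (AA J) (u (.inl 0))).trans (mul_le_mul_of_nonneg_right h1 (nrm_nonneg _))
  have a2 := (nrm_mulVec_le (BB J) (u (.inl 1))).trans (mul_le_mul_of_nonneg_right h2 (nrm_nonneg _))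
  have a3 := nrm_add_le (y + AA J *ᵥ u (.inl 0)) (BB J *ᵥ u (.inl 1))
  have a4 := nrm_add_le y (AA J *ᵥ u (.inl 0))
  have a5 : 0 ≤ ∑ l, nrm (u (.inr l)) := Finset.sum_nonneg fun _ _ => nrm_nonneg _
  have e : nA (Tb J y u) = nrm (y + AA J *ᵥ u (.inl 0) + BB J *ᵥ u (.inl 1)) + nrm y +
      nrm (u (.inl 2)) + ∑ l, nrm (u (.inr l)) := nA3 _
  rw [e, nA3]
  linarith [nrm_nonneg (u (.inl 1)), nrm_nonneg (u (.inl 2))]

theorem Tb0 (J : Mx n) (e : V n) : Tb J 0 (Pi.single (.inl 0) e) =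
    (Pi.single (.inl 0) (AA J *ᵥ e) : Fin 3 ⊕ Fin m → V n) := by
  funext l
  rcases l with l | l
  · fin_cases l <;> simp [Tb, xu]
  · simp [Tb]

theorem Tb2 (J : Mx n) (e : V n) : Tb J 0 (Pi.single (.inl 2) e) =
    (Pi.single (.inl 2) e : Fin 3 ⊕ Fin m → V n) := by
  funext l
  rcases l with l | l
  · fin_cases l <;> simp [Tb, xu]
  · simp [Tb]

theorem Tby (J : Mx n) (e : V n) : Tb J e 0 =
    (Pi.single (.inl 0) e + Pi.single (.inl 1) e : Fin 3 ⊕ Fin m → V n) := by
  funext l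
  rcases l with l | l
  · fin_cases l <;> simp [Tb, xu]
  · simp [Tb]

section net

variable {X : Nt (Fin 2 ⊕ Fin m)} (hX : Nw True X) (J : Mx n)
include hX

theorem dXb : Differentiable ℝ (Xb X n J) := by
  have := lipStmt.diff _ X hX n J
  rw [show Xb X n J = fun a => X n J fun l => a (R2 m l) from funext (Xb_eq X J)]
  fun_prop

theorem dg : Differentiable ℝ fun a => Xb X n J a ⬝ᵥ Ub m n J a := by
  have h1 := differentiable_pi.1 (dXb hX J)
  have h2 : Differentiable ℝ Real.tanh := fun x => (hasDerivAt_tanh' x).differentiableAt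
  simp only [dotProduct, Ub, th, Pi.sub_apply, Pi.smul_apply, smul_eq_mul]
  fun_prop

theorem fd_g (a v : Fin 3 ⊕ Fin m → V n) : fderiv ℝ (fun a => Xb X n J a ⬝ᵥ Ub m n J a) a v =
    fderiv ℝ (fun a' => Ub m n J a ⬝ᵥ Xb X n J a') a v +
      (kz⁻¹ • (DD (th (a (.inl 2))) * Xb X n J a)) ⬝ᵥ v (.inl 2) -
      (DD (th (a (.inl 0))) * Xb X n J a) ⬝ᵥ v (.inl 0) := by
  have hl : HasDerivAt (fun t : ℝ => Xb X n J (a + t • v)) (fderiv ℝ (Xb X n J) a v) 0 :=
    (dXb hX J a).hasFDerivAt.hasLineDerivAt v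
  have ht : ∀ l i, HasDerivAt (fun t : ℝ => Real.tanh (a l i + t * v l i))
      ((1 - Real.tanh (a l i) ^ 2) * v l i) 0 := fun l i => by
    have := (hasDerivAt_tanh' _).comp (0 : ℝ)
      (((hasDerivAt_id' (0 : ℝ)).mul_const (v l i)).const_add (a l i))
    rw [zero_mul, add_zero, one_mul] at this
    exact this
  have h := HasDerivAt.fun_sum (u := Finset.univ) fun i _ => (hasDerivAt_pi.1 hl i).fun_mul
    (((ht (.inl 2) i).const_mul kz⁻¹).fun_sub (ht (.inl 0) i))
  rw [HasDerivAt.unique ((dg hX J a).hasFDerivAt.hasLineDerivAt v) h, fd_dot (dXb hX J a)]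
  simp only [dotProduct, ← Finset.sum_add_distrib, ← Finset.sum_sub_distrib]
  exact Finset.sum_congr rfl fun i _ => by simp [Ub, DD, th]; ring

theorem fd_0 (a : Fin 3 ⊕ Fin m → V n) (v : V n) :
    fderiv ℝ (fun a => Xb X n J a ⬝ᵥ Ub m n J a) a (Pi.single (.inl 0) v) = gx X n J a ⬝ᵥ v := by
  rw [fd_g hX, fd_row, gx, sub_dotProduct]; simp; rfl

theorem fd_1 (a : Fin 3 ⊕ Fin m → V n) (v : V n) :
    fderiv ℝ (fun a => Xb X n J a ⬝ᵥ Ub m n J a) a (Pi.single (.inl 1) v) =
      adj (.inl 1) (Xb X) (Ub m) n J a ⬝ᵥ v := by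
  rw [fd_g hX, fd_row]; simp; rfl

theorem fd_2 (a : Fin 3 ⊕ Fin m → V n) (v : V n) :
    fderiv ℝ (fun a => Xb X n J a ⬝ᵥ Ub m n J a) a (Pi.single (.inl 2) v) =
      (kz⁻¹ • (DD (th (a (.inl 2))) * Xb X n J a)) ⬝ᵥ v := by
  have h : |fderiv ℝ (fun a' => Ub m n J a ⬝ᵥ Xb X n J a') a (Pi.single (.inl 2) v)| ≤ 0 :=
    fd_le ((Z.ApB11.hd_dot (dXb hX J a).hasFDerivAt _).differentiableAt) le_rfl fun t => by
      have : Xb X n J (a + t • (Pi.single (.inl 2) v : Fin 3 ⊕ Fin m → V n)) = Xb X n J a := by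
        simp [Xb]
      simp only [this, sub_self, abs_zero, zero_mul, le_refl]
  rw [fd_g hX, abs_nonpos_iff.1 h]; simp

end net

/-- the constants of a network -/
structure Cn (X : Nt (Fin 2 ⊕ Fin m)) (L M : ℝ) : Prop where
  L0 : 0 ≤ L
  M0 : 0 ≤ M
  lip : ∀ n J a a', nrm (Xb X n J a - Xb X n J a') ≤ L * nA (a - a')
  bd : ∀ n J a, nrm (Xb X n J a) ≤ M * √n

theorem cn {X : Nt (Fin 2 ⊕ Fin m)} (hX : Nw True X) (hb : Bd X) : ∃ L M, Cn X L M := by
  obtain ⟨L, L0, hL⟩ := lipStmt.lip _ _ X hX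
  obtain ⟨M, hM⟩ := hb
  refine ⟨L, |M|, L0, abs_nonneg _, fun n J a a' => ?_, fun n J a =>
    nrm_le (fun i => (hM _ _ _ i).trans (le_abs_self M)) (abs_nonneg _)⟩
  rw [Xb_eq, Xb_eq]
  refine (hL _ _ _ _ _).trans (mul_le_mul_of_nonneg_left ?_ L0)
  rw [sub_self, opn_zero, mul_zero, add_zero]
  exact nA_R2 (a - a')

theorem nrm_Ub (J : Mx n) (a : Fin 3 ⊕ Fin m → V n) : nrm (Ub m n J a) ≤ (kz⁻¹ + 1) * √n :=
  nrm_le (abs_U _ _) (by have := kz_pos; positivity)

variable {X : Nt (Fin 2 ⊕ Fin m)} {L M : ℝ}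

theorem Cn.g_lip (h : Cn X L M) (J : Mx n) (a a' : Fin 3 ⊕ Fin m → V n) :
    |Xb X n J a ⬝ᵥ Ub m n J a - Xb X n J a' ⬝ᵥ Ub m n J a'| ≤
      (L + M) * (kz⁻¹ + 1) * √n * nA (a - a') := by
  have e : Xb X n J a ⬝ᵥ Ub m n J a - Xb X n J a' ⬝ᵥ Ub m n J a' =
      (Xb X n J a - Xb X n J a') ⬝ᵥ Ub m n J a + Xb X n J a' ⬝ᵥ (Ub m n J a - Ub m n J a') := by
    rw [sub_dotProduct, dotProduct_sub]; ring
  have a1 := (abs_dot_le _ _).trans (mul_le_mul (h.lip n J a a') (nrm_Ub J a) (nrm_nonneg _)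
    ((nrm_nonneg _).trans (h.lip n J a a')))
  have a2 := (abs_dot_le _ _).trans (mul_le_mul (h.bd n J a') (Ub_lip J a a') (nrm_nonneg _)
    ((nrm_nonneg _).trans (h.bd n J a')))
  rw [e]
  linarith [abs_add_le ((Xb X n J a - Xb X n J a') ⬝ᵥ Ub m n J a)
    (Xb X n J a' ⬝ᵥ (Ub m n J a - Ub m n J a'))]

theorem Cn.adj_le (h : Cn X L M) (hX : Nw True X) (j : Fin 3 ⊕ Fin m) (J : Mx n)
    (a : Fin 3 ⊕ Fin m → V n) : nrm (adj j (Xb X) (Ub m) n J a) ≤ L * ((kz⁻¹ + 1) * √n) := by
  set w := adj j (Xb X) (Ub m) n J a with hw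
  have L0 := h.L0
  have U0 := (nrm_nonneg _).trans (nrm_Ub J a)
  have w0 := nrm_nonneg w
  have h1 : |fderiv ℝ (fun a' => Ub m n J a ⬝ᵥ Xb X n J a') a (Pi.single j w)| ≤
      L * ((kz⁻¹ + 1) * √n) * nrm w :=
    fd_le ((Z.ApB11.hd_dot (dXb hX J a).hasFDerivAt _).differentiableAt) (by positivity) fun t => by
      rw [← dotProduct_sub]
      refine (abs_dot_le _ _).trans ((mul_le_mul (nrm_Ub J a) (h.lip n J _ a) (nrm_nonneg _) U0).trans_eq ?_)
      rw [add_sub_cancel_left, ← Pi.single_smul, nA_single, nrm_smul]; ring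
  rw [fd_row] at h1
  replace h1 : |w ⬝ᵥ w| ≤ _ := h1
  rw [← nrm_mul_self, abs_mul_self] at h1
  rcases w0.eq_or_lt with e | e
  · rw [← e]; positivity
  · exact le_of_mul_le_mul_right h1 e

end Ex27

open Ex27 in
theorem exBase (hG : GsStmt) (hK : KeStmt) (m : ℕ) (X : Nt (Fin 2 ⊕ Fin m)) (hX : Nw True X)
    (hb : Bd X) : ∃ C, ∀ n (J : Mx n) s y, Jᵀ = J →
    ga (Ps0 X) n J s y = Gm (cb m) (db m) (ph1 (lm (cb m) (db m)))
      (fun _ u => g0a X n J (Tb J y u)) s ∧
    gb (Ps0 X) n J s y = Gm (cb m) (db m) (fun _ => 1) (fun _ u => g0b X n J (Tb J y u)) s ∧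
    ∀ a, nrm (g0a X n J a) ≤ C * √n ∧ nrm (g0b X n J a) ≤ C * √n := by
  obtain ⟨L, M, h⟩ := cn hX hb
  have ⟨L0, M0, k0⟩ := And.intro h.L0 <| And.intro h.M0 (inv_pos.2 kz_pos).le
  refine ⟨7 * (L * (kz⁻¹ + 1) + M) + kz⁻¹ * M, fun n J s y hJ => ?_⟩
  obtain ⟨sA, oA, -⟩ := hK.op n J hJ
  set g := fun a => Xb X n J a ⬝ᵥ Ub m n J a with hg
  set K := (L + M) * (kz⁻¹ + 1) * √n with hKd
  have K0 : 0 ≤ K := by positivity
  have eP : ∀ s y, Ps0 X n J s y = (∫ u, g (Tb J y u) ∂(RL (cb m) (db m) (sv s))) / √n :=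
    fun s y => by rw [Ps0, rep hK hX hb hJ]
  have lp : ∀ y y' u u', |g (Tb J y u) - g (Tb J y' u')| ≤ K * (2 * nrm (y - y') + 7 * nA (u - u')) :=
    fun y y' u u' => (h.g_lip J _ _).trans (mul_le_mul_of_nonneg_left (by
      rw [← TL_apply, ← TL_apply, ← map_sub]; exact nA_Tb hK hJ _ _) K0)
  have du : ∀ u, HasFDerivAt (fun u => g (Tb J y u))
      ((fderiv ℝ g (Tb J y u)).comp ((TL J).comp (.inr ℝ _ _))) u := fun u =>
    (dg hX J _).hasFDerivAt.comp u ((TL J).hasFDerivAt.comp u (hasFDerivAt_prodMk_right y u))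
  have dy : ∀ u, HasFDerivAt (fun y => g (Tb J y u))
      ((fderiv ℝ g (Tb J y u)).comp ((TL J).comp (.inl ℝ _ _))) y := fun u =>
    (dg hX J _).hasFDerivAt.comp y ((TL J).hasFDerivAt.comp y (hasFDerivAt_prodMk_left y u))
  refine ⟨funext fun k => ?_, funext fun k => ?_, fun a => ?_⟩
  · have n0 : √(n : ℝ) ≠ 0 := (Real.sqrt_pos.2 (by exact_mod_cast k.pos)).ne'
    have ad : Ad (cb m) (db m) := fun l _ => by
      rcases l with l | l
      · fin_cases l <;> simp [db]
      · simp [db]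
    have e := congrFun (hG _ _ _ ad n (fun _ u => g (Tb J y u)) (K * 7)
      (fun _ u => (du u).differentiableAt) (fun _ u u' => by
        simpa [mul_assoc] using lp y y u u') s) k
    have e1 : ga (Ps0 X) n J s y k =
        grad (fun s => ∫ u, g (Tb J y u) ∂(RL (cb m) (db m) (sv s))) s k := by
      simp only [ga, eP, Pi.smul_apply, smul_eq_mul, grad, SL.incr]; field_simp
    rw [e1, e]
    simp only [Pi.add_apply, Gm, grad, SL.incr, sub_self, zero_div, mul_zero, integral_zero, add_zero]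
    refine integral_congr_ae (.of_forall fun u => ?_)
    simp only [(du u).fderiv]
    congr 1
    simp only [cb, Fintype.sum_sum_type, Fin.sum_univ_three, Sum.elim_inl, Sum.elim_inr, cons_val,
      Pi.zero_apply, zero_mul, Finset.sum_const_zero, one_mul, add_zero, ContinuousLinearMap.comp_apply,
      ContinuousLinearMap.inr_apply, TL_apply, Tb0, Tb2]
    rw [hg, fd_0 hX, fd_2 hX, dotProduct_mulVec, ← mulVec_transpose, sA]
    simp [g0a]
  · have n0 : √(n : ℝ) ≠ 0 := (Real.sqrt_pos.2 (by exact_mod_cast k.pos)).ne'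
    have cg : Continuous fun p : (Fin 3 ⊕ Fin m → V n) × V n => g (Tb J p.2 p.1) :=
      (dg hX J).continuous.comp' ((cont_Tb J).comp' (f := Prod.swap) continuous_swap)
    obtain ⟨i1, i2⟩ := hasFDerivAt_integral_of_dominated_loc_of_lip' (μ := RL (cb m) (db m) (sv s))
      (F := fun y u => g (Tb J y u)) (bound := fun _ => K * (2 * √n)) (x₀ := y) univ_mem
      (fun x _ => (cg.comp' (f := fun u => (u, x)) (by fun_prop)).aestronglyMeasurable)
      (Integrable.of_bound (cg.comp' (f := fun u => (u, y)) (by fun_prop)).aestronglyMeasurable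
        (M * √n * ((kz⁻¹ + 1) * √n)) (.of_forall fun u => (abs_dot_le _ _).trans
          (mul_le_mul (h.bd _ _ _) (nrm_Ub J _) (nrm_nonneg _) (by positivity))))
      (F' := fun u => fderiv ℝ (fun y => g (Tb J y u)) y)
      ((measurable_fderiv_with_param ℝ (f := fun u y => g (Tb J y u)) cg).comp
        (measurable_id.prodMk measurable_const)).aestronglyMeasurable
      (.of_forall fun u x _ => (lp x y u u).trans (by
        have := nrm_le (x := x - y) (fun i => norm_le_pi_norm (x - y) i) (norm_nonneg _)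
        rw [sub_self, show nA (0 : Fin 3 ⊕ Fin m → V n) = 0 by simp [nA], mul_assoc K]
        exact mul_le_mul_of_nonneg_left (by linarith) K0))
      (integrable_const _) (.of_forall fun u => (dy u).differentiableAt.hasFDerivAt)
    rw [gb, show Ps0 X n J s = fun y => (√n)⁻¹ * ∫ u, g (Tb J y u) ∂(RL (cb m) (db m) (sv s)) from
      funext fun y => by rw [eP, div_eq_inv_mul], (i2.const_mul _).fderiv,
      _root_.smul_apply, smul_eq_mul, mul_inv_cancel_left₀ n0,
      ContinuousLinearMap.integral_apply i1, Gm]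
    refine integral_congr_ae (.of_forall fun u => ?_)
    simp only [(dy u).fderiv, ContinuousLinearMap.comp_apply, ContinuousLinearMap.inl_apply, TL_apply,
      Tby, map_add]
    rw [hg, fd_0 hX, fd_1 hX]
    simp [g0b]
  · have a0 := h.adj_le hX (.inl 0) J a
    have a1 := h.adj_le hX (.inl 1) J a
    have a2 := (nrm_DD (a (.inl 0)) _).trans (h.bd n J a)
    have a3 := (nrm_DD (a (.inl 2)) _).trans (h.bd n J a)
    have a4 : nrm (gx X n J a) ≤ L * ((kz⁻¹ + 1) * √n) + M * √n :=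
      (nrm_sub_le _ _).trans (add_le_add a0 a2)
    have a5 := (nrm_mulVec_le (AA J) (gx X n J a)).trans (mul_le_mul oA a4 (nrm_nonneg _) (by norm_num))
    have a6 := mul_le_mul_of_nonneg_left a3 k0
    have p1 : 0 ≤ L * ((kz⁻¹ + 1) * √n) := by positivity
    have p2 : 0 ≤ M * √n := by positivity
    have p3 : 0 ≤ kz⁻¹ * (M * √n) := by positivity
    refine ⟨(nrm_add_le _ _).trans ?_, (nrm_add_le _ _).trans (by linarith)⟩
    rw [nrm_smul, abs_of_nonneg k0]; linarith

end Crest.Agent.T157.Zf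

end
end

-- ▼ part T157/ZfExS_16

/-!
# Row 157, part B, kernel route (helper16): the exact recursion of the gradients, step and top
-/

set_option autoImplicit false
set_option linter.unusedVariables false

noncomputable section

namespace Crest.Agent.T157.Zf

open MeasureTheory ProbabilityTheory Matrix Filter Set
open Crest.Agent.T157.E Crest.Agent.T157.Eig Crest.Agent.T157.Tap Crest.Agent.T157.Z
open Crest.Agent.T157.Rec (grad)

namespace Ex16

variable {n : ℕ}

lemma fd_line {E E' : Type} [NormedAddCommGroup E] [NormedSpace ℝ E] [NormedAddCommGroup E']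
    [NormedSpace ℝ E'] {G : E → ℝ} {H : E' → ℝ} {u v : E} {x w : E'} (hG : DifferentiableAt ℝ G u)
    (hH : DifferentiableAt ℝ H x) (e : ∀ t : ℝ, G (u + t • v) = H (x + t • w)) :
    fderiv ℝ G u v = fderiv ℝ H x w := by
  rw [← hG.lineDeriv_eq_fderiv, ← hH.lineDeriv_eq_fderiv, lineDeriv, lineDeriv]; simp only [e]

/-- differentiation under the integral -/
lemma fd_int {α : Type} [MeasurableSpace α] [TopologicalSpace α] [OpensMeasurableSpace α]
    (μ : Measure α) [IsFiniteMeasure μ] {Φ : α → V n → ℝ} (hc : Continuous Φ.uncurry)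
    (hd : ∀ a, Differentiable ℝ (Φ a)) {L M : ℝ} (hL : ∀ a y y', |Φ a y - Φ a y'| ≤ L * ‖y - y'‖)
    (y : V n) (hb : ∀ a, |Φ a y| ≤ M) :
    Integrable (fun a => fderiv ℝ (Φ a) y) μ ∧
      HasFDerivAt (fun y => ∫ a, Φ a y ∂μ) (∫ a, fderiv ℝ (Φ a) y ∂μ) y := by
  have hm : ∀ y, AEStronglyMeasurable (fun a => Φ a y) μ := fun y =>
    (hc.comp (Continuous.prodMk_left y)).aestronglyMeasurable
  exact hasFDerivAt_integral_of_dominated_loc_of_lip (F := fun y a => Φ a y) (s := univ)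
    (bound := fun _ => L) univ_mem (.of_forall hm)
    ((integrable_const M).mono' (hm y) (.of_forall hb))
    ((measurable_fderiv_with_param ℝ hc).comp
      (measurable_id.prodMk measurable_const)).aestronglyMeasurable
    (.of_forall fun a => LipschitzOnWith.of_dist_le_mul fun y _ y' _ => by
      rw [Real.dist_eq, dist_eq_norm]
      exact (hL a y y').trans (mul_le_mul_of_nonneg_right (le_abs_self L) (norm_nonneg _)))
    (integrable_const L) (.of_forall fun a => (hd a y).hasFDerivAt)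

lemma dp (t : Cube n) : Differentiable ℝ fun h : V n => prob (ising 0 h) t := by
  have h1 : ∀ t, Differentiable ℝ fun h : V n => ising 0 h t := fun t => by
    unfold ising dotProduct; fun_prop
  simp only [prob, div_eq_mul_inv]
  exact (h1 t).mul ((Differentiable.fun_sum fun t _ => h1 t).inv fun h => (Kv.wt_ising 0 h).pos.ne')

lemma dm (F : Cube n → ℝ) : Differentiable ℝ fun h : V n => mean (ising 0 h) F :=
  Differentiable.fun_sum fun t _ => (dp t).mul_const _

/-- the gradient of a product mean -/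
def gm (F : Cube n → ℝ) (x : V n) : V n := DD (th x) * fun k => mean (ising 0 x) fun s => grad F s k

lemma fd_mean (F : Cube n → ℝ) (x v : V n) :
    fderiv ℝ (fun x => mean (ising 0 x) F) x v = v ⬝ᵥ gm F x := by
  rw [← (dm F x).lineDeriv_eq_fderiv, Kv.ld_mean0]
  congr 1; funext k; exact Kv.covV0 F x k

lemma lip_mean {F : Cube n → ℝ} {C : ℝ} (h : ∀ s k, |grad F s k| ≤ C) (x x' : V n) :
    |mean (ising 0 x) F - mean (ising 0 x') F| ≤ n * C * ‖x - x'‖ := by
  have hg : ∀ x k, |gm F x k| ≤ C := fun x k => by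
    have h1 := abs_lt.1 (Real.abs_tanh_lt_one (x k))
    have h2 : |DD (th x) k| ≤ 1 := by
      change |1 - Real.tanh (x k) ^ 2| ≤ 1
      rw [abs_le]; constructor <;> nlinarith
    rw [gm, Pi.mul_apply, abs_mul]
    exact (mul_le_of_le_one_left (abs_nonneg _) h2).trans
      ((Kv.wt_ising 0 x).abs_mean_le fun s => h s k)
  rcases Nat.eq_zero_or_pos n with rfl | hn
  · simp [Subsingleton.elim x x']
  have C0 : 0 ≤ C := (abs_nonneg _).trans (h default ⟨0, hn⟩)
  refine convex_univ.norm_image_sub_le_of_norm_fderiv_le (𝕜 := ℝ) (fun x _ => dm F x)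
    (fun x _ => ContinuousLinearMap.opNorm_le_bound _ (by positivity) fun v => ?_) trivial trivial
  rw [fd_mean, Real.norm_eq_abs, dotProduct]
  refine (Finset.abs_sum_le_sum_abs _ _).trans ((Finset.sum_le_sum (g := fun _ => C * ‖v‖)
    fun k _ => ?_).trans_eq (by simp [mul_assoc]))
  rw [abs_mul, mul_comm]
  exact mul_le_mul (hg x k) (norm_le_pi_norm v k) (abs_nonneg _) C0

lemma norm_le_nrm (v : V n) : ‖v‖ ≤ nrm v :=
  (pi_norm_le_iff_of_nonneg (nrm_nonneg v)).2 fun i => abs_apply_le_nrm v i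

lemma nrm_le_norm (v : V n) : nrm v ≤ √n * ‖v‖ := by
  rw [nrm_le_iff (by positivity), mul_pow, Real.sq_sqrt (Nat.cast_nonneg n), dotProduct]
  refine (Finset.sum_le_sum (g := fun _ => ‖v‖ ^ 2) fun i _ => ?_).trans_eq (by simp)
  rw [← pow_two, ← sq_abs]
  exact pow_le_pow_left₀ (abs_nonneg _) (norm_le_pi_norm v i) 2

/-- the field enters twice -/
lemma fd_joint {f : Cube n → V n → ℝ} (hf : ∀ s, Differentiable ℝ (f s)) (w y : V n) :
    DifferentiableAt ℝ (fun y => mean (ising 0 (y + w)) fun s => f s y) y ∧ ∀ v,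
    fderiv ℝ (fun y => mean (ising 0 (y + w)) fun s => f s y) y v =
      v ⬝ᵥ gm (fun s => f s y) (y + w) + mean (ising 0 (y + w)) fun s => fderiv ℝ (f s) y v := by
  have p : ∀ s, HasFDerivAt (fun y => prob (ising 0 (y + w)) s)
      (fderiv ℝ (fun x => prob (ising 0 x) s) (y + w)) y := fun s => by
    have := HasFDerivAt.comp (f := fun y : V n => y + w) y (dp s (y + w)).hasFDerivAt
      ((hasFDerivAt_id y).add_const w)
    rw [ContinuousLinearMap.comp_id] at this
    exact this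
  have h1 := HasFDerivAt.fun_sum (u := Finset.univ) fun s _ => (p s).mul (hf s y).hasFDerivAt
  have h2 := HasFDerivAt.fun_sum (u := Finset.univ) fun s _ =>
    (dp s (y + w)).hasFDerivAt.mul_const (f s y)
  refine ⟨h1.differentiableAt, fun v => ?_⟩
  rw [← fd_mean]
  refine (congrArg (· v) h1.fderiv).trans (Eq.trans ?_ (congrArg (· v + _) h2.fderiv).symm)
  simp only [_root_.sum_apply, _root_.add_apply, _root_.smul_apply, smul_eq_mul, mean,
    Finset.sum_add_distrib]
  exact add_comm _ _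

lemma Gm_smul {ι : Type} [Fintype ι] (c d : ι → ℝ) (φ : ℝ → ℝ) (Y : Cube n → (ι → V n) → V n)
    (s : Cube n) (a : ℝ) : a • Gm c d φ Y s = Gm c d φ (fun s u => a • Y s u) s := by
  funext k
  simp only [Gm, Pi.smul_apply, smul_eq_mul, ← integral_const_mul, mul_left_comm]

lemma ad1 : Ad c1 d1 := fun l _ => by
  fin_cases l
  · exact inv_ne_zero (Real.sqrt_ne_zero'.2 (by norm_num))
  · exact one_ne_zero

lemma cont_xu (J : Mx n) : Continuous fun p : (Fin 2 → V n) × V n => xu J p.2 (p.1 0) (p.1 1) := by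
  unfold xu; fun_prop

variable {f : Sf} {C : ℝ} {J : Mx n}

lemma abs_grad (h : Sc f C) (hJ : Jᵀ = J) (y : V n) (s : Cube n) (k : Fin n) :
    |grad (fun s => f n J s y) s k| ≤ C :=
  (abs_apply_le_nrm _ k).trans ((nrm_le_iff h.pos).2 (h.grad n J s y hJ))

lemma lip_y (h : Sc f C) (hJ : Jᵀ = J) (s : Cube n) (y y' : V n) :
    |f n J s y - f n J s y'| ≤ C * nrm (y - y') := by
  simpa using h.lip n J J s y y' hJ hJ

/-- the kernel through the rows -/
lemma Ky_eq (hK : KeStmt) (hJ : Jᵀ = J) (f : Sf) (s : Cube n) (y : V n) : Ky f n J s y =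
    ∫ u, mean (ising 0 (xu J y (u 0) (u 1))) (fun s' => f n J s' y) ∂(RL c1 d1 (sv s)) := by
  have m1 : Measurable fun u : Fin 2 → V n => xu J y (u 0) (u 1) :=
    ((cont_xu J).comp (Continuous.prodMk_left y)).measurable
  have m2 : Measurable (xr J s y) := by unfold xr; fun_prop
  have c := (Kv.cont_mean0 fun s' => f n J s' y).aestronglyMeasurable
    (μ := (gv (Fin n)).map (xr J s y))
  rw [Ky, ← integral_map m2.aemeasurable c, ← hK.law n J s y hJ,
    integral_map m1.aemeasurable (hK.law n J s y hJ ▸ c)]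

lemma gm_ga (f : Sf) (J : Mx n) (x y : V n) :
    √(n : ℝ) • gm (fun s => f n J s y) x = DD (th x) * Sm x y (ga f n J) := by
  funext k
  simp only [gm, Sm, ga, Pi.smul_apply, Pi.mul_apply, smul_eq_mul, SL.mean_const_mul]
  ring

theorem step_a (hG : GsStmt) (hK : KeStmt) (h : Sc f C) (hJ : Jᵀ = J) (s : Cube n) (y : V n) :
    ga (Ky f) n J s y = Gm c1 d1 (ph1 (lm c1 d1)) (fun _ u => AA J *ᵥ
      (DD (th (xu J y (u 0) (u 1))) * Sm (xu J y (u 0) (u 1)) y (ga f n J))) s := by
  obtain ⟨hA, o1, o2⟩ := hK.op n J hJ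
  have dx : Differentiable ℝ fun u : Fin 2 → V n => xu J y (u 0) (u 1) := by
    unfold xu mulVec dotProduct; fun_prop
  have dG := (dm fun s' => f n J s' y).comp dx
  have e := hG (Fin 2) c1 d1 ad1 n
    (fun _ u => mean (ising 0 (xu J y (u 0) (u 1))) fun s' => f n J s' y) (n * C * 7)
    (fun _ => dG) (fun _ u u' => (lip_mean (abs_grad h hJ y) _ _).trans (by
      have e1 : xu J y (u 0) (u 1) - xu J y (u' 0) (u' 1) =
          AA J *ᵥ (u - u') 0 + BB J *ᵥ (u - u') 1 := by
        simp only [xu, Pi.sub_apply, mulVec_sub]; abel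
      have h1 := (nrm_mulVec_le (AA J) ((u - u') 0)).trans
        (mul_le_mul_of_nonneg_right o1 (nrm_nonneg _))
      have h2 := (nrm_mulVec_le (BB J) ((u - u') 1)).trans
        (mul_le_mul_of_nonneg_right o2 (nrm_nonneg _))
      rw [e1, mul_assoc _ 7, nA, Fin.sum_univ_two]
      refine mul_le_mul_of_nonneg_left ((norm_le_nrm _).trans ((nrm_add_le _ _).trans ?_))
        (mul_nonneg (Nat.cast_nonneg n) h.pos)
      linarith [nrm_nonneg ((u - u') 1)])) s
  have z : ∀ φ, Gm c1 d1 φ (fun s u => grad (fun _ => mean (ising 0 (xu J y (u 0) (u 1)))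
      fun s' => f n J s' y) s) s = 0 := fun φ => by
    funext k; simp [Gm, Rec.grad_eq]
  rw [z, add_zero] at e
  simp only [ga, Ky_eq hK hJ]
  rw [e, Gm_smul]
  congr 1
  funext _ u k
  have e2 := fd_line (v := Pi.single 0 (Pi.single k 1)) (w := AA J *ᵥ Pi.single k 1) (dG u)
    (dm (fun s' => f n J s' y) (xu J y (u 0) (u 1))) fun t => by
      simp only [Function.comp_apply, xu, Pi.add_apply, Pi.smul_apply, Pi.single_eq_same,
        Pi.single_eq_of_ne (show (1 : Fin 2) ≠ 0 by decide), smul_zero, add_zero, mulVec_add,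
        mulVec_smul]
      congr 2; abel
  rw [fd_mean, ← vecMul_transpose (AA J) (Pi.single k 1), ← dotProduct_mulVec, hA,
    single_dotProduct, one_mul] at e2
  rw [← gm_ga, mulVec_smul, Pi.smul_apply, Pi.smul_apply, Fin.sum_univ_two, ← e2]
  simp [c1, Function.comp_def]

theorem step_b (hK : KeStmt) (h : Sc f C) (hJ : Jᵀ = J) (s : Cube n) (y : V n) :
    gb (Ky f) n J s y = Gm c1 d1 (fun _ => 1) (fun _ u =>
      DD (th (xu J y (u 0) (u 1))) * Sm (xu J y (u 0) (u 1)) y (ga f n J) +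
        Sm (xu J y (u 0) (u 1)) y (gb f n J)) s := by
  have ex : ∀ (u : Fin 2 → V n) y, xu J y (u 0) (u 1) = y + (AA J *ᵥ u 0 + BB J *ᵥ u 1) :=
    fun u y => add_assoc _ _ _
  have hd := fun s => h.diff n J s hJ
  obtain ⟨i, e⟩ := fd_int (RL c1 d1 (sv s)) (L := n * C + C * √n) (M := C * √n)
    (Φ := fun u y => mean (ising 0 (xu J y (u 0) (u 1))) fun s' => f n J s' y)
    (continuous_finsetSum _ fun s' _ => ((Kv.cont_prob0 s').comp (cont_xu J)).mul
      ((hd s').continuous.comp continuous_snd))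
    (fun u y => by simp only [ex]; exact (fd_joint hd _ y).1)
    (fun u y y' => by
      have h1 := lip_mean (abs_grad h hJ y) (xu J y (u 0) (u 1)) (xu J y' (u 0) (u 1))
      have h2 := (Kv.wt_ising 0 (xu J y' (u 0) (u 1))).abs_mean_le fun s' =>
        (lip_y h hJ s' y y').trans (mul_le_mul_of_nonneg_left (nrm_le_norm _) h.pos)
      rw [SL.mean_sub] at h2
      rw [show xu J y (u 0) (u 1) - xu J y' (u 0) (u 1) = y - y' by simp only [ex]; abel] at h1
      exact (abs_sub_le _ _ _).trans ((add_le_add h1 h2).trans_eq (by ring)))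
    y fun u => (Kv.wt_ising 0 _).abs_mean_le fun s' => h.sup n J s' y hJ
  funext k
  rw [gb, funext (Ky_eq hK hJ f s), e.fderiv, ContinuousLinearMap.integral_apply i,
    ← integral_const_mul, Gm]
  congr 1
  funext u
  rw [← gm_ga]
  simp only [ex]
  rw [(fd_joint hd _ y).2, single_dotProduct]
  simp only [Sm, gb, Pi.add_apply, Pi.smul_apply, smul_eq_mul, SL.mean_const_mul]
  ring

/-- the channel through one row -/
lemma Ew_eq (h : Sc f C) (hJ : Jᵀ = J) (r : ℝ) (s : Cube n) : Ew r f n J s =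
    ∫ u, f n J s (u ()) ∂(RL (fun _ : Unit => r) (fun _ => √r) (sv s)) := by
  have hm := R339.Guerra.mp_comp (ι := Unit × Fin n) (fun i : Fin n => ((), i))
    fun _ _ h => congrArg Prod.snd h
  have c := (h.diff n J s hJ).continuous
  have c1 : Continuous fun u : Unit → V n => f n J s (u ()) := c.comp (continuous_apply ())
  have c2 : Continuous fun w : V n => f n J s (r • sv s + √r • w) := c.comp (by fun_prop)
  rw [RL, integral_map (Hp58.meas_rows _ _ _).aemeasurable c1.aestronglyMeasurable, Ew,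
    show gv (Fin n) = _ from hm.map_eq.symm,
    integral_map hm.measurable.aemeasurable c2.aestronglyMeasurable]
  rfl

end Ex16

open Ex16

theorem exStep (hG : GsStmt) (hK : KeStmt) : ∀ f C, Sc f C → ∀ n (J : Mx n) s y, Jᵀ = J →
    ga (Ky f) n J s y = Gm c1 d1 (ph1 (lm c1 d1)) (fun _ u => AA J *ᵥ
      (DD (th (xu J y (u 0) (u 1))) * Sm (xu J y (u 0) (u 1)) y (ga f n J))) s ∧
    gb (Ky f) n J s y = Gm c1 d1 (fun _ => 1) (fun _ u =>
      DD (th (xu J y (u 0) (u 1))) * Sm (xu J y (u 0) (u 1)) y (ga f n J) +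
        Sm (xu J y (u 0) (u 1)) y (gb f n J)) s :=
  fun _ _ h _ _ s y hJ => ⟨step_a hG hK h hJ s y, step_b hK h hJ s y⟩

theorem exTop (hG : GsStmt) : ∀ f C, Sc f C → ∀ r ≥ (0 : ℝ), ∀ n (J : Mx n) s y, Jᵀ = J →
    gt (Ew r f) n J s y =
    Gm (fun _ : Unit => r) (fun _ => √r) (ph1 (lm (fun _ : Unit => r) fun _ => √r))
      (fun s u => r • gb f n J s (u ())) s +
    Gm (fun _ : Unit => r) (fun _ => √r) ph2 (fun s u => ga f n J s (u ())) s := by
  intro f C h r hr n J s y hJ
  have dG : ∀ s, Differentiable ℝ fun u : Unit → V n => f n J s (u ()) := fun s =>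
    (h.diff n J s hJ).comp (differentiable_apply ())
  have e := hG Unit (fun _ => r) (fun _ => √r) (fun _ h => (Real.sqrt_ne_zero hr).2 h) n
    (fun s u => f n J s (u ())) C dG (fun s u u' => by
      simpa [nA] using lip_y h hJ s (u ()) (u' ())) s
  rw [gt, funext (Ew_eq h hJ r), e, smul_add, Gm_smul, Gm_smul]
  congr 2
  funext s u k
  have e2 := fd_line (v := Pi.single () (Pi.single k 1)) (w := Pi.single k 1) (dG s u)
    (h.diff n J s hJ (u ())) fun t => by simp
  simp only [gb, Pi.smul_apply, smul_eq_mul, Finset.univ_unique, Finset.sum_singleton, ← e2]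
  ring

end Crest.Agent.T157.Zf

end
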