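import Crest.Agent.T157.ZDefF_73
import Crest.Agent.T157.DaGr_82
import Crest.Agent.T157.ZQ_64
import Crest.Agent.T157.KCov_47
import Crest.Agent.T157.KRg_75
import Crest.Agent.T157.KDi_8

-- ▼ part T157/ZfAv_62
section

/-!
# Row 157, part B, kernel route (helper62): label means of approximable words
-/

set_option autoImplicit false

noncomputable section

namespace Crest.Agent.T157.Zf

open MeasureTheory ProbabilityTheory Matrix Filter Set Real
open Crest.ProbabilityR.SpinGlassDynamics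
open Crest.Agent.T157.E Crest.Agent.T157.Eig Crest.Agent.T157.Tap Crest.Agent.T157.Z
open scoped Topology

namespace Av62

variable {n : ℕ} {ι μ ν : Type} [Fintype ι] [Fintype μ] [Fintype ν]

/-- the law of the labels -/
def Lb (μ : Type) [Fintype μ] (n : ℕ) : Measure (μ → V n) :=
  (gv (μ × Fin n)).map fun w l j => w (l, j)

theorem RL_eq (σ : V n) : RL (0 : μ → ℝ) 1 σ = Lb μ n := by
  rw [RL, Lb]; congr 1; funext w l j; simp [rows]

instance : IsProbabilityMeasure (Lb μ n) := RL_eq (μ := μ) (0 : V n) ▸ inferInstance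

omit [Fintype μ] in
theorem mcu : Measurable fun (w : μ × Fin n → ℝ) (l : μ) (j : Fin n) => w (l, j) := by fun_prop

omit [Fintype ι] [Fintype μ] in
theorem mel : Measurable fun p : (ι → V n) × (μ → V n) => (Sum.elim p.1 p.2 : ι ⊕ μ → V n) :=
  (MeasurableEquiv.sumPiEquivProdPi fun _ : ι ⊕ μ => V n).symm.measurable

omit [Fintype ι] [Fintype μ] in
theorem mel1 (a : ι → V n) : Measurable fun b : μ → V n => (Sum.elim a b : ι ⊕ μ → V n) :=
  mel.comp measurable_prodMk_left

theorem emb (f : μ ↪ ν) : (Lb ν n).map (fun b l => b (f l)) = Lb μ n := by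
  rw [← RL_eq 0, Hp58.law_emb]; exact RL_eq 0

theorem pair (f : μ ⊕ μ ↪ ν) : (Lb ν n).map (fun b => (fun l => b (f (.inl l)),
    fun l => b (f (.inr l)))) = (Lb μ n).prod (Lb μ n) := by
  have m1 : Measurable fun (b : ν → V n) l => b (f l) := by fun_prop
  have m2 : Measurable fun b : μ ⊕ μ → V n => (fun l => b (.inl l), fun l => b (.inr l)) := by
    fun_prop
  have e := Hp58.split (0 : μ → ℝ) 1 (0 : μ → ℝ) 1 (0 : V n)
  rw [Sum.elim_zero_zero, Sum.elim_one_one, RL_eq, RL_eq, ← emb f] at e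
  have e2 := congrArg (Measure.map fun b : μ ⊕ μ → V n =>
    (fun l => b (.inl l), fun l => b (.inr l))) e
  rw [Measure.map_map m2 m1, Measure.map_map m2 mel] at e2
  exact e2.trans Measure.map_id

theorem split (c d : ι → ℝ) (σ : V n) {B : Set (ι ⊕ μ → V n)} (hB : MeasurableSet B) :
    RL (Sum.elim c (0 : μ → ℝ)) (Sum.elim d 1) σ B =
      ∫⁻ a, Lb μ n {b | Sum.elim a b ∈ B} ∂(RL c d σ) := by
  rw [Hp58.split, Measure.map_apply mel hB, Measure.prod_apply (mel hB), RL_eq]
  rfl

/-- events that are likely given the rows -/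
theorem fresh (β : ℝ) (c d : ι → ℝ) {k : ℝ} (hk : 0 < k) {P : ∀ n, Mx n → (ι ⊕ μ → V n) → Prop}
    (hm : ∀ n J, MeasurableSet {a | ¬ P n J a})
    (h : ∀ n J a, (Lb μ n).real {b | ¬ P n J (Sum.elim a b)} ≤ exp (-k * n)) :
    Hp β (Sum.elim c 0) (Sum.elim d 1) P := by
  refine ⟨k, hk, Top.whp_of_eventually (.of_forall fun n g =>
    (Hp58.wt_gibbs n β g).mean_le fun x => ?_)⟩
  rw [Measure.real, split c d _ (hm n _)]
  refine ENNReal.toReal_le_of_le_ofReal (exp_pos _).le ((lintegral_mono (g := fun _ =>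
    ENNReal.ofReal (exp (-k * n))) fun a => ?_).trans_eq (by simp))
  exact (ENNReal.le_ofReal_iff_toReal_le (measure_ne_top _ _) (exp_pos _).le).2 (h n _ a)

section gen
variable {α : Type} [MeasurableSpace α] (ρ : Measure α) [IsProbabilityMeasure ρ]

theorem ib {f : α → ℝ} (hf : Measurable f) {K : ℝ} (h : ∀ a, |f a| ≤ K) : Integrable f ρ :=
  Integrable.of_bound hf.aestronglyMeasurable K (.of_forall h)

theorem ico {D : α → V n} (hD : Measurable D) {K : ℝ} (hK : ∀ a, nrm (D a) ≤ K) (i : Fin n) :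
    Integrable (fun a => D a i) ρ :=
  ib ρ ((measurable_pi_apply i).comp hD) fun a => (abs_apply_le_nrm _ i).trans (hK a)

theorem nrm_int {D : α → V n} (hD : Measurable D) {K : ℝ} (hK : ∀ a, nrm (D a) ≤ K) :
    nrm (fun i => ∫ a, D a i ∂ρ) ≤ ∫ a, nrm (D a) ∂ρ := by
  obtain ⟨v, hv⟩ : ∃ v : V n, v = fun i => ∫ a, D a i ∂ρ := ⟨_, rfl⟩
  have i1 := fun i => (ico ρ hD hK i).const_mul (v i)
  have i2 := ib ρ (continuous_nrm.measurable.comp hD) (K := K) fun a =>
    (abs_of_nonneg (nrm_nonneg _)).trans_le (hK a)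
  have e : nrm v * nrm v ≤ nrm v * ∫ a, nrm (D a) ∂ρ := by
    rw [nrm_mul_self, ← integral_const_mul]
    calc v ⬝ᵥ v = ∫ a, ∑ i, v i * D a i ∂ρ := by
          rw [integral_finsetSum _ fun i _ => i1 i]
          exact Finset.sum_congr rfl fun i _ => by rw [integral_const_mul]; congr 1; rw [hv]
      _ ≤ _ := integral_mono (integrable_finsetSum _ fun i _ => i1 i) (i2.const_mul _)
          fun a => dot_le v (D a)
  rw [← hv]
  rcases (nrm_nonneg v).eq_or_lt with h0 | h0
  · rw [← h0]; exact integral_nonneg fun a => nrm_nonneg _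
  · exact le_of_mul_le_mul_left e h0

theorem jen {D : α → V n} (hD : Measurable D) {K δ : ℝ} (δ0 : 0 ≤ δ) (hK : ∀ a, nrm (D a) ≤ K) :
    nrm (fun i => ∫ a, D a i ∂ρ) ≤ δ + K * ρ.real {a | ¬ nrm (D a) ≤ δ} := by
  have hB : MeasurableSet {a | ¬ nrm (D a) ≤ δ} :=
    (measurableSet_le (continuous_nrm.measurable.comp hD) measurable_const).compl
  have i1 := (integrable_const (μ := ρ) K).indicator hB
  refine (nrm_int ρ hD hK).trans ((integral_mono_of_nonneg (.of_forall fun a => nrm_nonneg _)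
    ((integrable_const δ).add i1) (.of_forall fun a => ?_)).trans_eq ?_)
  · by_cases ha : nrm (D a) ≤ δ
    · simp only [Pi.add_apply, indicator, mem_ofPred_eq, ha, not_true_eq_false, if_false, add_zero]
    · have := hK a
      simp only [Pi.add_apply, indicator, mem_ofPred_eq, ha, not_false_eq_true, if_true]
      linarith
  · simp only [Pi.add_apply]
    rw [integral_add (integrable_const _) i1, integral_indicator_const _ hB]
    simp [mul_comm]

/-- the mean of orthogonal bounded variables -/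
theorem avg_sq {N : ℕ} {Y : Fin N → α → ℝ} (hY : ∀ t, Measurable (Y t)) {B : ℝ}
    (hB : ∀ t a, |Y t a| ≤ B) (ho : ∀ t s, s ≠ t → ∫ a, Y t a * Y s a ∂ρ = 0) :
    ∫ a, (∑ t, Y t a) ^ 2 ∂ρ ≤ N * B ^ 2 := by
  have b : ∀ t s a, |Y t a * Y s a| ≤ B ^ 2 := fun t s a => by
    rw [abs_mul, sq]
    exact mul_le_mul (hB t a) (hB s a) (abs_nonneg _) ((abs_nonneg _).trans (hB t a))
  have i1 : ∀ t s, Integrable (fun a => Y t a * Y s a) ρ := fun t s =>
    ib ρ ((hY t).mul (hY s)) (b t s)
  simp only [sq (∑ t, Y t _), Finset.sum_mul_sum]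
  rw [integral_finsetSum _ fun t _ => integrable_finsetSum _ fun s _ => i1 t s]
  refine (Finset.sum_le_sum (g := fun _ => B ^ 2) fun t _ => ?_).trans_eq (by simp)
  rw [integral_finsetSum _ fun s _ => i1 t s,
    Finset.sum_eq_single t (fun s _ h => ho t s h) fun h => absurd (Finset.mem_univ t) h]
  exact (integral_mono (i1 t t) (integrable_const _) fun a =>
    (le_abs_self _).trans (b t t a)).trans_eq (by simp)

end gen

/-- the mean over the labels -/
def av (Y : Nt (ι ⊕ μ)) : Nt ι := fun n J a i => ∫ b, Y n J (Sum.elim a b) i ∂(Lb μ n)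

omit [Fintype ι] in
theorem meas_av {Y : Nt (ι ⊕ μ)} {J : Mx n} (h : Measurable (Y n J)) : Measurable (av Y n J) :=
  measurable_pi_lambda _ fun i => (StronglyMeasurable.integral_prod_right'
    (f := fun p : (ι → V n) × (μ → V n) => Y n J (Sum.elim p.1 p.2) i)
    ((measurable_pi_apply i).comp (h.comp mel)).stronglyMeasurable).measurable

/-- a small word has a small mean -/
theorem cond {β : ℝ} {c d : ι → ℝ} {D : Nt (ι ⊕ μ)} {K δ η : ℝ} (K0 : 0 ≤ K) (δ0 : 0 ≤ δ)
    (η0 : 0 < η) (hD : ∀ n (J : Mx n), Jᵀ = J → Measurable (D n J) ∧ ∀ a, nrm (D n J a) ≤ K * √n)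
    (h : Hp β (Sum.elim c 0) (Sum.elim d 1) fun n J a => nrm (D n J a) ≤ δ * √n) :
    Hp β c d fun n J a => nrm (av D n J a) ≤ (δ + K * η) * √n := by
  obtain ⟨k, k0, hW⟩ := h
  have hev : ∀ᶠ n : ℕ in atTop, exp (-(k / 2) * n) ≤ η :=
    (tendsto_exp_atBot.comp (tendsto_natCast_atTop_atTop.const_mul_atTop_of_neg
      (by linarith))).eventually (eventually_le_nhds η0)
  refine ⟨k / 2, by linarith, hW.mono ?_⟩
  filter_upwards [hev] with n hn g hg
  have hw := Hp58.wt_gibbs n β g
  obtain ⟨m1, b1⟩ := hD n (β • Jmat n g) (by rw [transpose_smul, Jmat_transpose])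
  generalize β • Jmat n g = J at *
  have hB : MeasurableSet {a | ¬ nrm (D n J a) ≤ δ * √n} :=
    (measurableSet_le (continuous_nrm.measurable.comp m1) measurable_const).compl
  refine le_of_mul_le_mul_left ?_ η0
  rw [← SL.mean_const_mul]
  refine (hw.mean_mono fun x => ?_).trans (hg.trans ?_)
  · have a1 := mul_meas_ge_le_lintegral₀ (μ := RL c d (sv x))
      (measurable_measure_prodMk_left (ν := Lb μ n) (mel hB)).aemeasurable (ENNReal.ofReal η)
    have a2 := ENNReal.toReal_mono (measure_ne_top _ _) (a1.trans_eq (split c d (sv x) hB).symm)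
    rw [ENNReal.toReal_mul, ENNReal.toReal_ofReal η0.le] at a2
    refine le_trans (mul_le_mul_of_nonneg_left (measureReal_mono fun a ha => ?_) η0.le) a2
    refine (ENNReal.ofReal_le_iff_le_toReal (measure_ne_top _ _)).2 (le_of_not_ge fun hc => ha ?_)
    refine (jen (Lb μ n) (m1.comp (mel1 a)) (δ := δ * √n) (by positivity) fun b => b1 _).trans ?_
    have := mul_le_mul_of_nonneg_left hc (show 0 ≤ K * √n by positivity)
    exact (add_le_add le_rfl this).trans_eq (by ring)
  · have := mul_le_mul_of_nonneg_right hn (exp_pos (-(k / 2) * n)).le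
    rwa [← exp_add, show -(k / 2) * n + -(k / 2) * n = -k * n by ring] at this

theorem tailL {F : (ν → V n) → ℝ} (hF : Measurable F) {L t : ℝ} (L0 : 0 ≤ L) (ht : 0 ≤ t)
    (h : ∀ b b', |F b - F b'| ≤ L * nA (b - b')) :
    (Lb ν n).real {b | t ≤ F b - ∫ b, F b ∂(Lb ν n)} ≤
      exp (-t ^ 2 / (2 * (L * Fintype.card ν + 1) ^ 2)) := by
  classical
  rw [Lb, integral_map mcu.aemeasurable hF.aestronglyMeasurable, map_measureReal_apply mcu
    (measurableSet_le measurable_const (hF.sub_const _))]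
  refine Conc.tail_lip (F := fun w => F fun l j => w (l, j)) (fun w w' => (h _ _).trans ?_) ht
  have e : Conc.en (w - w') = nrm (w - w') := by simp only [Conc.en, nrm, dotProduct, sq]
  have a : nA ((fun l j => w (l, j)) - fun l j => w' (l, j)) ≤ Fintype.card ν * nrm (w - w') :=
    (Finset.sum_le_sum (g := fun _ => nrm (w - w')) fun l _ => Hp58.nrm_row_le (w - w') l).trans_eq
      (by simp)
  rw [e]
  nlinarith [mul_le_mul_of_nonneg_left a L0, nrm_nonneg (w - w')]

/-- the label mean of a bounded network -/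
theorem ap_av (β : ℝ) (c d : ι → ℝ) {X : Nt (ι ⊕ μ)} (hX : Nw False X) (hb : Bd X) :
    Ap β c d (av X) := fun ε hε => by
  obtain ⟨M, M0, hM⟩ := A48.Bd.pos hb
  obtain ⟨N, hN⟩ := exists_nat_gt (16 * M ^ 2 / ε ^ 2)
  have N0 : (0 : ℝ) < N := lt_of_le_of_lt (by positivity) hN
  let e := Fintype.equivFin (Fin N × μ)
  obtain ⟨X', hX'⟩ : ∃ X' : Nt (ι ⊕ Fin (Fintype.card (Fin N × μ))), X' = fun n J a =>
      lc (fun (_ : Unit) (_ : Fin N) => (N : ℝ)⁻¹)
        (fun t => X n J fun j => a (Sum.map id (fun l => e (t, l)) j)) () := ⟨_, rfl⟩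
  have w1 : Nw False X' := hX' ▸ lipStmt.comp _ _ _ _ _ (lipStmt.lin _ _ _ _ ()) fun t =>
    A48.rel lipStmt hX _
  have mX : ∀ n J, Measurable (X n J) := fun n J =>
    ((lipStmt.cont _ _ _ hX n).comp (Continuous.prodMk_right J)).measurable
  have mX' : ∀ n J, Measurable (X' n J) := fun n J =>
    ((lipStmt.cont _ _ _ w1 n).comp (Continuous.prodMk_right J)).measurable
  have b1 : ∀ n J a i, |X' n J a i| ≤ M := fun n J a i => by
    rw [hX']
    refine (Finset.abs_sum_le_sum_abs _ _).trans ((Finset.sum_le_sum (g := fun _ => (N : ℝ)⁻¹ * M)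
      fun t _ => ?_).trans_eq ?_)
    · rw [abs_mul, abs_of_pos (inv_pos.2 N0)]
      exact mul_le_mul_of_nonneg_left (hM _ _ _ _) (inv_pos.2 N0).le
    · simp [N0.ne']
  obtain ⟨L, L0, hL⟩ := lipStmt.lip _ _ _ w1
  refine ⟨_, X', w1, ⟨M, b1⟩, fresh β c d (k := (ε / 2) ^ 2 /
    (2 * (L * Fintype.card (Fin (Fintype.card (Fin N × μ))) + 1) ^ 2)) (by positivity)
    (fun n J => (measurableSet_le (continuous_nrm.measurable.comp (((meas_av (mX n J)).comp
      (by fun_prop)).sub (mX' n J))) measurable_const).compl) fun n J a => ?_⟩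
  have mD : Measurable fun b => av X n J a - X' n J (Sum.elim a b) :=
    measurable_const.sub ((mX' n J).comp (mel1 a))
  have mF : Measurable fun b => nrm (av X n J a - X' n J (Sum.elim a b)) :=
    continuous_nrm.measurable.comp mD
  have bA : ∀ i, |av X n J a i| ≤ M := fun i => by
    simpa [av] using norm_integral_le_of_norm_le_const (μ := Lb μ n) (C := M)
      (f := fun b => X n J (Sum.elim a b) i) (.of_forall fun b => hM _ _ _ _)
  have bD : ∀ b i, |(av X n J a - X' n J (Sum.elim a b)) i| ≤ 2 * M := fun b i =>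
    (abs_sub _ _).trans (by linarith [bA i, b1 n J (Sum.elim a b) i])
  have s1 : ∀ i, ∫ b, (av X n J a - X' n J (Sum.elim a b)) i ^ 2 ∂(Lb _ n) ≤ (ε / 2) ^ 2 := fun i => by
    obtain ⟨G, hG⟩ : ∃ G : (μ → V n) → ℝ, G = fun b =>
      (N : ℝ)⁻¹ * (av X n J a i - X n J (Sum.elim a b) i) := ⟨_, rfl⟩
    have m0 : Measurable fun b => X n J (Sum.elim a b) i :=
      (measurable_pi_apply i).comp ((mX n J).comp (mel1 a))
    have mG : Measurable G := hG ▸ (measurable_const.sub m0).const_mul _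
    have G0 : ∫ b, G b ∂(Lb μ n) = 0 := by
      rw [hG, integral_const_mul, integral_sub (integrable_const _) (ib _ m0 fun b => hM _ _ _ _)]
      simp [av]
    have k := avg_sq (Lb (Fin (Fintype.card (Fin N × μ))) n) (Y := fun t b => G fun l => b (e (t, l)))
      (B := (N : ℝ)⁻¹ * (2 * M)) (fun t => mG.comp (by fun_prop)) (fun t b => by
        rw [hG, abs_mul, abs_of_pos (inv_pos.2 N0)]
        exact mul_le_mul_of_nonneg_left ((abs_sub _ _).trans (by
          linarith [bA i, hM n J (Sum.elim a fun l => b (e (t, l))) i])) (inv_pos.2 N0).le)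
      fun t s h => by
        let f : μ ⊕ μ ↪ Fin (Fintype.card (Fin N × μ)) :=
          ⟨Sum.elim (fun l => e (t, l)) fun l => e (s, l), by
            rintro (x | x) (y | y) hxy <;> have := Prod.mk.inj (e.injective hxy)
            exacts [congrArg _ this.2, absurd this.1.symm h, absurd this.1 h, congrArg _ this.2]⟩
        have := integral_prod_mul (μ := Lb μ n) (ν := Lb μ n) G G
        rw [G0, mul_zero, ← pair f, integral_map (by fun_prop)
          (f := fun z : (μ → V n) × (μ → V n) => G z.1 * G z.2)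
          ((mG.comp measurable_fst).mul (mG.comp measurable_snd)).aestronglyMeasurable] at this
        exact this
    refine le_trans (le_of_eq ?_) (k.trans ?_)
    · congr 1; funext b; congr 1
      have : ∀ t, (fun j => (Sum.elim a b : _ → V n) (Sum.map id (fun l => e (t, l)) j)) =
          Sum.elim a fun l => b (e (t, l)) := fun t => funext (by rintro (j | j) <;> rfl)
      simp only [hG, hX', lc, Pi.sub_apply, this, mul_sub, Finset.sum_sub_distrib]
      simp [N0.ne']
    · rw [div_lt_iff₀ (by positivity)] at hN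
      rw [show N * ((N : ℝ)⁻¹ * (2 * M)) ^ 2 = 4 * M ^ 2 / N by field_simp; ring, div_le_iff₀ N0]
      linarith
  have l2 : MemLp (fun b => nrm (av X n J a - X' n J (Sum.elim a b))) 2 (Lb _ n) :=
    MemLp.of_bound mF.aestronglyMeasurable (|2 * M| * √n) (.of_forall fun b =>
      (abs_of_nonneg (nrm_nonneg _)).trans_le (L85.nrm_le_of_bd (bD b)))
  have s2 : ∫ b, nrm (av X n J a - X' n J (Sum.elim a b)) ∂(Lb _ n) ≤ ε / 2 * √n := by
    have v := variance_nonneg (fun b => nrm (av X n J a - X' n J (Sum.elim a b))) (Lb _ n)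
    rw [variance_eq_sub l2] at v
    refine (abs_le_of_sq_le_sq' ((sub_nonneg.1 v).trans ?_) (by positivity)).2
    simp only [Pi.pow_apply, nrm_sq, dotProduct, ← sq]
    rw [integral_finsetSum (f := fun i b => (av X n J a - X' n J (Sum.elim a b)) i ^ 2) _
      fun i _ => (MemLp.of_bound ((measurable_pi_apply i).comp
      mD).aestronglyMeasurable _ (.of_forall fun b => bD b i)).integrable_sq, mul_pow,
      sq_sqrt n.cast_nonneg]
    exact (Finset.sum_le_sum fun i _ => s1 i).trans_eq (by simp [mul_comm])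
  refine le_trans (measureReal_mono fun b hb => ?_) ((tailL mF L0 (t := ε / 2 * √n) (by positivity)
    fun b b' => ?_).trans_eq ?_)
  · have : ε * √n < nrm (av X n J a - X' n J (Sum.elim a b)) := not_le.1 hb
    simp only [mem_ofPred_eq]
    linarith
  · have k : ∀ b b', nrm (av X n J a - X' n J (Sum.elim a b)) -
        nrm (av X n J a - X' n J (Sum.elim a b')) ≤ L * nA (b' - b) := fun b b' => by
      have h1 := A48.tri (av X n J a) (X' n J (Sum.elim a b')) (X' n J (Sum.elim a b))
      have h2 := hL n J J (Sum.elim a b') (Sum.elim a b)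
      have h3 : nA (Sum.elim a b' - Sum.elim a b) = nA (b' - b) := by
        simp only [nA, Fintype.sum_sum_type, Pi.sub_apply, Sum.elim_inl, Sum.elim_inr, sub_self,
          nrm_zero, Finset.sum_const_zero, zero_add]
      rw [h3, sub_self, opn_zero, mul_zero, add_zero] at h2
      linarith
    have h4 : nA (b' - b) = nA (b - b') := Finset.sum_congr rfl fun l _ => by
      rw [← nrm_neg, Pi.sub_apply, Pi.sub_apply, neg_sub]
    exact abs_le.2 ⟨by linarith [k b' b], h4 ▸ k b b'⟩
  · rw [mul_pow, sq_sqrt n.cast_nonneg]; congr 1; ring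

end Av62

open Av62

theorem avStmt : AvStmt := fun ι κ _ _ β hβ c d U ⟨M, hM⟩ hm hU => by
  refine apA.lim ι β c d _ fun ε hε => ?_
  obtain ⟨m, X, h1, h2, h3⟩ := hU (ε / 2) (by positivity)
  obtain ⟨M', hM'⟩ := h2
  let r := Equiv.sumAssoc ι κ (Fin m)
  have w1 := A48.rel lipStmt h1 r
  have mX : ∀ n J, Measurable fun a : ι ⊕ κ ⊕ Fin m → V n => X n J fun j => a (r j) := fun n J =>
    ((lipStmt.cont _ _ _ w1 n).comp (Continuous.prodMk_right J)).measurable
  have mU : ∀ n (J : Mx n), Jᵀ = J → Measurable fun a : ι ⊕ κ ⊕ Fin m → V n =>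
      U n J fun l => a (r (.inl l)) := fun n J hJ => (hm n J hJ).comp (by fun_prop)
  have bU : ∀ n (J : Mx n), Jᵀ = J → ∀ a, nrm (U n J a) ≤ |M| * √n := fun n J hJ a =>
    (hM n J hJ a).trans (mul_le_mul_of_nonneg_right (le_abs_self M) (sqrt_nonneg _))
  have bX : ∀ n J a, nrm (X n J a) ≤ |M'| * √n := fun n J a => L85.nrm_le_of_bd (hM' n J a)
  have h4 := A48.emb' hpStmt (c' := Sum.elim c (0 : κ ⊕ Fin m → ℝ)) (d' := Sum.elim d 1)
    r.toEmbedding (by rintro ((l | l) | l) <;> rfl) (by rintro ((l | l) | l) <;> rfl) h3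
  have h5 := cond (D := fun n J a => (U n J fun l => a (r (.inl l))) - X n J fun j => a (r j))
    (K := |M| + |M'|) (δ := ε / 2) (η := ε / 2 / (|M| + |M'| + 1)) (by positivity) (by positivity)
    (by positivity) (fun n J hJ => ⟨(mU n J hJ).sub (mX n J), fun a => (nrm_sub_le _ _).trans
      ((add_le_add (bU n J hJ _) (bX n J _)).trans_eq (by ring))⟩) h4
  obtain ⟨K, hK⟩ := hpStmt.good ι β hβ c d
  refine ⟨_, ap_av β c d w1 ⟨M', fun n J a i => hM' _ _ _ _⟩,
    A48.imp hpStmt (hpStmt.and _ _ _ _ _ _ h5 hK) fun n J a h => ?_⟩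
  obtain ⟨h6, hJ, -⟩ := h
  refine le_trans (le_of_eq ?_) (h6.trans (mul_le_mul_of_nonneg_right ?_ (sqrt_nonneg _)))
  · congr 1; funext i
    have m0 : Measurable fun b : κ → V n => U n J (Sum.elim a b) i :=
      (measurable_pi_apply i).comp ((hm n J hJ).comp (mel1 a))
    have m1 : Measurable fun (b : κ ⊕ Fin m → V n) l =>
        b ((Function.Embedding.inl : κ ↪ κ ⊕ Fin m) l) :=
      measurable_pi_lambda _ fun l => measurable_pi_apply _
    simp only [av, Pi.sub_apply]
    rw [integral_sub (ico _ (D := fun b => U n J fun l => Sum.elim a b (r (.inl l)))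
      ((mU n J hJ).comp (mel1 a)) (fun b => bU n J hJ _) i)
      (ico _ (D := fun b => X n J fun j => Sum.elim a b (r j)) ((mX n J).comp (mel1 a))
        (fun b => bX n J _) i),
      ← integral_map mcu.aemeasurable m0.aestronglyMeasurable, ← Lb,
      ← emb (Function.Embedding.inl : κ ↪ κ ⊕ Fin m), integral_map m1.aemeasurable
        m0.aestronglyMeasurable]
    congr 2; funext b; congr 1
    exact funext (by rintro (l | l) <;> rfl)
  · have : (|M| + |M'|) * (ε / 2 / (|M| + |M'| + 1)) ≤ ε / 2 := by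
      rw [← mul_div_assoc, div_le_iff₀ (by positivity)]; nlinarith
    linarith

end Crest.Agent.T157.Zf

end
end

-- ▼ part T157/ZfCh_8
section

/-!
# Row 157, part B, kernel route (helper8): the exact gradients are approximable
-/

set_option autoImplicit false

noncomputable section

namespace Crest.Agent.T157.Zf

open MeasureTheory Matrix Filter Set
open Crest.Agent.T157.E Crest.Agent.T157.Eig Crest.Agent.T157.Tap Crest.Agent.T157.Z
open Crest.Agent.T157.Z.ApB11

theorem bp2Glue : Bp2Glue := by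
  intro hT κ _ _ ι _ β hβ c d j X W hX hW
  have net : ∀ {X : Nt κ}, Nw True X → Ap β c d fun n J a => X n J fun l => W l n J a :=
    fun h => hT.net κ ι β hβ c d _ W (lipStmt.mono κ _ _ h) hW
  have df : ∀ {X : Nt κ}, Nw True X → ∀ n J a, DifferentiableAt ℝ (X n J) a :=
    fun h n J a => lipStmt.diff κ _ h n J a
  induction hX with
  | inp j' =>
    intro U hU
    convert apB.add ι β hβ c d U U (if j' = j then 1 else 0) 0 hU hU using 1
    ext n J a k
    rw [fd_dot (differentiableAt_apply j' _), (hasFDerivAt_apply j' _).fderiv]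
    by_cases h : j' = j <;> simp [h]
  | map φ X ho hs hX ih =>
    intro U hU
    convert apB.sum ι β hβ c d _ _ fun l => ih l _
      (apB.ev ι β hβ c d _ _ _ U (el_d ho (hs trivial) l) (fun l => net (hX l)) hU) using 1
    ext n J a k
    rw [fd_map (hs trivial).1 fun l => df (hX l) n J _, Finset.sum_apply]
  | mul X hX _ ih =>
    intro U hU
    convert ih _ (apB.mul ι β hβ c d U hU).2.2 using 1
    ext n J a k
    simp only [dotProduct_mulVec, mulVec_transpose]
  | sc X Y Z hX hY hZ _ _ _ ihX ihY ihZ =>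
    intro U hU
    convert apB.add ι β hβ c d _ _ 1 1 (ihZ _ (apB.sc ι β hβ c d _ _ U (net hX) (net hY) hU))
      (apB.add ι β hβ c d _ _ 1 1 (ihX _ (apB.sc ι β hβ c d U _ _ hU (net hZ) (net hY)))
        (ihY _ (apB.sc ι β hβ c d U _ _ hU (net hZ) (net hX)))) using 1
    ext n J a k
    rw [fd_sc (df hX n J _) (df hY n J _) (df hZ n J _), one_smul, one_smul, one_smul, one_smul]
    rfl

namespace Ch8

variable {n m : ℕ} {ι : Type} [Fintype ι] {β : ℝ} {c d : ι → ℝ} {U W : Nt ι}

theorem lipT : LipschitzWith 1 fun u : Fin 1 → ℝ => Real.tanh (u 0) :=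
  .of_dist_le_mul fun u v => by
    rw [NNReal.coe_one, one_mul]; exact (Da.Gr.tanh_lip _ _).trans (dist_le_pi_dist u v 0)

theorem mT : Measurable Real.tanh :=
  (continuous_iff_continuousAt.2 fun x => (Da.Gr.hasDerivAt_tanh x).continuousAt).measurable

theorem m_th {α : Type} [MeasurableSpace α] {x : α → V n} (h : Measurable x) :
    Measurable fun a => th (x a) := measurable_pi_lambda _ fun i => mT.comp (h.eval (a := i))

theorem m_DD {α : Type} [MeasurableSpace α] {x : α → V n} (h : Measurable x) :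
    Measurable fun a => DD (th (x a)) :=
  measurable_pi_lambda _ fun i => measurable_const.sub ((mT.comp (h.eval (a := i))).pow_const 2)

theorem m_mv {α : Type} [MeasurableSpace α] (A : Mx n) {x : α → V n} (h : Measurable x) :
    Measurable fun a => A *ᵥ x a :=
  (LinearMap.toContinuousLinearMap (mulVecLin A)).continuous.measurable.comp h

theorem m_Dm {α : Type} [MeasurableSpace α] {x v : α → V n} (h : Measurable x) (hv : Measurable v) :
    Measurable fun a => DD (th (x a)) * v a := (m_DD h).mul hv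

theorem m_add {α : Type} [MeasurableSpace α] {x v : α → V n} (h : Measurable x) (hv : Measurable v) :
    Measurable fun a => x a + v a := h.add hv

theorem m_sub {α : Type} [MeasurableSpace α] {x v : α → V n} (h : Measurable x) (hv : Measurable v) :
    Measurable fun a => x a - v a := h.sub hv

theorem m_smul {α : Type} [MeasurableSpace α] (t : ℝ) {x : α → V n} (h : Measurable x) :
    Measurable fun a => t • x a := h.const_smul t

theorem m_Sm {α : Type} [MeasurableSpace α] (hK : KeStmt) {x y : α → V n} (hx : Measurable x)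
    (hy : Measurable y) {a : Cube n → V n → V n} (h : ∀ s, Measurable (a s)) :
    Measurable fun p => Sm (x p) (y p) a := by
  have := (hK.meas n a h).comp (hx.prodMk hy)
  exact this

theorem m_xu {α : Type} [MeasurableSpace α] (J : Mx n) {y u z : α → V n} (hy : Measurable y)
    (hu : Measurable u) (hz : Measurable z) : Measurable fun a => xu J (y a) (u a) (z a) :=
  (hy.add (m_mv _ hu)).add (m_mv _ hz)

theorem ap_add (hβ : β ∈ Icc (0 : ℝ) 1) (hU : Ap β c d U) (hW : Ap β c d W) :
    Ap β c d fun n J a => U n J a + W n J a := by simpa using apB.add ι β hβ c d U W 1 1 hU hW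

theorem ap_sub (hβ : β ∈ Icc (0 : ℝ) 1) (hU : Ap β c d U) (hW : Ap β c d W) :
    Ap β c d fun n J a => U n J a - W n J a := by
  simpa [sub_eq_add_neg] using apB.add ι β hβ c d U W 1 (-1) hU hW

theorem ap_smul (hβ : β ∈ Icc (0 : ℝ) 1) (t : ℝ) (hU : Ap β c d U) :
    Ap β c d fun n J a => t • U n J a := by simpa using apB.add ι β hβ c d U U t 0 hU hU

theorem ap_th (hβ : β ∈ Icc (0 : ℝ) 1) (hU : Ap β c d U) : Ap β c d fun n J a => th (U n J a) :=
  apB.map ι β hβ c d 1 (fun u => Real.tanh (u 0)) (fun _ => U)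
    ⟨fun u => by simp [Real.tanh_neg], _, lipT⟩ fun _ => hU

theorem ap_DD (hβ : β ∈ Icc (0 : ℝ) 1) (hU : Ap β c d U) (hW : Ap β c d W) :
    Ap β c d fun n J a => DD (th (U n J a)) * W n J a := by
  have b : ∀ u : Fin 1 → ℝ, |Real.tanh (u 0)| ≤ 1 := fun u => (Real.abs_tanh_lt_one _).le
  obtain ⟨K, hK⟩ := lip_mul lipT lipT b b
  exact apB.ev ι β hβ c d 1 (fun u => 1 - Real.tanh (u 0) ^ 2) (fun _ => U) W
    ⟨fun u => by simp [Real.tanh_neg], ⟨_, by
      simpa only [sq] using (LipschitzWith.const (1 : ℝ)).sub hK⟩, 1, fun u => by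
      have := abs_le.1 (b u)
      beta_reduce
      rw [abs_le]; constructor <;> nlinarith⟩ (fun _ => hU) hW

theorem nrm_DD (x v : V n) : nrm (DD (th x) * v) ≤ nrm v := by
  rw [← nrm_abs v]
  refine nrm_mono fun i => ?_
  have := abs_lt.1 (Real.abs_tanh_lt_one (x i))
  rw [Pi.mul_apply, abs_mul]
  exact mul_le_of_le_one_left (abs_nonneg _) (by
    simp only [DD, th]; rw [abs_le]; constructor <;> nlinarith)

theorem lm0 (c d : ι → ℝ) : 0 ≤ lm c d := Finset.sum_nonneg fun _ _ => by positivity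

theorem nwXb {X : Nt (Fin 2 ⊕ Fin m)} (hX : Nw True X) : Nw True (Xb X) := by
  convert lipStmt.comp _ (Fin 3 ⊕ Fin m) True X
    (fun j _ _ a => a (Sum.elim ![.inl 0, .inl 1] .inr j)) hX fun j => .inp _ using 1
  ext n J a i
  rw [Xb]
  congr 1
  ext1 j
  rcases j with j | j
  · fin_cases j <;> rfl
  · rfl

theorem m_adj [DecidableEq ι] (j : ι) {X : Nt ι} (hX : Nw True X) (J : Mx n)
    (hU : Measurable (U n J)) : Measurable (adj j X U n J) := measurable_pi_lambda _ fun k => by
  simp only [adj, fd_dot (lipStmt.diff ι _ hX n J _)]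
  exact Finset.measurable_sum _ fun i _ => (hU.eval (a := i)).mul
    ((measurable_fderiv_apply_const ℝ (X n J) _).eval (a := i))

theorem ad1 : Ad c1 d1 := fun l => by fin_cases l <;> simp [c1, d1]

theorem adb : Ad (cb m) (db m) := fun l => by
  rcases l with l | l
  · fin_cases l <;> simp [cb, db]
  · simp [cb]

theorem ap_g0 (hT : TrStmt) (hB : Bp2Stmt) (hβ : β ∈ Icc (0 : ℝ) 1) {X : Nt (Fin 2 ⊕ Fin m)}
    (hX : Nw True X) {W : Fin 3 ⊕ Fin m → Nt ι} (hW : ∀ l, Ap β c d (W l)) :
    Ap β c d (fun n J a => g0a X n J fun l => W l n J a) ∧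
      Ap β c d fun n J a => g0b X n J fun l => W l n J a := by
  have hXb := nwXb hX
  have a1 := hT.net _ ι β hβ c d _ _ (lipStmt.mono _ _ _ hXb) hW
  have a2 : Ap β c d fun n J a => Ub m n J fun l => W l n J a :=
    ap_sub hβ (ap_smul hβ kz⁻¹ (ap_th hβ (hW (.inl 2)))) (ap_th hβ (hW (.inl 0)))
  have a4 : ∀ j, Ap β c d fun n J a => adj j (Xb X) (Ub m) n J fun l => W l n J a := fun j =>
    hB _ ι β hβ c d j (Xb X) W hXb hW _ a2
  have a3 : Ap β c d fun n J a => gx X n J fun l => W l n J a :=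
    ap_sub hβ (a4 (.inl 0)) (ap_DD hβ (hW (.inl 0)) a1)
  exact ⟨ap_add hβ (hT.xu ι β hβ c d _ _ _ a3 a3 a3).1 (ap_smul hβ kz⁻¹ (ap_DD hβ (hW (.inl 2)) a1)),
    ap_add hβ a3 (a4 (.inl 1))⟩

theorem tr_of (hT : TrStmt) (hβ : β ∈ Icc (0 : ℝ) 1) {φ : ℝ → ℝ}
    {F : ∀ n, Mx n → Cube n → V n → (ι → V n) → V n} (key : Tr2 β F) (M : ℝ) (ad : Ad c d)
    (mu : Mu (lm c d) φ) (h1 : ∀ n (J : Mx n) s, Jᵀ = J → ∀ y u, nrm (F n J s y u) ≤ M * √n)
    (h2 : ∀ n (J : Mx n) s, Jᵀ = J → Measurable fun p : V n × (ι → V n) => F n J s p.1 p.2) {G : Vf}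
    (e : ∀ n (J : Mx n) s y, Jᵀ = J → G n J s y = Gm c d φ (fun s u => F n J s y u) s) : Tr β G :=
  hT.congr β hβ _ _ (hT.gm ι β hβ c d φ M F ad mu (fun n J s hJ => ⟨h1 n J s hJ, h2 n J s hJ⟩) key)
    fun n J hJ => funext₂ fun s y => e n J s y hJ

end Ch8

open Ch8

set_option maxHeartbeats 800000 in
theorem chGlue : ChGlue := fun hM hT hB hK hS hE => by
  refine ⟨fun β hβ m X hX hb => ?_, fun β hβ f C hf ha hb => ?_, fun β hβ f C hf r hr ha hb => ?_⟩
  · obtain ⟨C, hC⟩ := hE.base m X hX hb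
    have hXb := nwXb hX
    have mX : ∀ n J, Measurable (Xb X n J) := fun n J => (lipStmt.diff _ _ hXb n J).continuous.measurable
    have mU : ∀ n J, Measurable (Ub m n J) := fun n J =>
      m_sub (m_smul _ (m_th (measurable_pi_apply _))) (m_th (measurable_pi_apply _))
    have mg : ∀ n J, Measurable (gx X n J) := fun n J =>
      m_sub (m_adj _ hXb J (mU n J)) (m_Dm (measurable_pi_apply _) (mX n J))
    have mA : ∀ n J, Measurable (g0a X n J) := fun n J =>
      m_add (m_mv _ (mg n J)) (m_smul _ (m_Dm (measurable_pi_apply _) (mX n J)))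
    have mB : ∀ n J, Measurable (g0b X n J) := fun n J => m_add (mg n J) (m_adj _ hXb J (mU n J))
    have mT : ∀ n (J : Mx n), Measurable fun p : V n × (Fin 3 ⊕ Fin m → V n) => Tb J p.1 p.2 :=
      fun n J => measurable_pi_lambda _ fun l => by
        rcases l with l | l
        · fin_cases l
          · exact m_xu J measurable_fst measurable_snd.eval measurable_snd.eval
          · exact measurable_fst
          · exact measurable_snd.eval
        · exact measurable_snd.eval
    have hW : ∀ (ι : Type) [Fintype ι] (c d : ι → ℝ) (Y : Nt ι) (U : Fin 3 ⊕ Fin m → Nt ι),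
        Ap β c d Y → (∀ l, Ap β c d (U l)) →
        ∀ l, Ap β c d fun n J a => Tb J (Y n J a) (fun l => U l n J a) l :=
      fun ι _ c d Y U hY hU l => by
        rcases l with l | l
        · fin_cases l
          · exact (hT.xu ι β hβ c d Y _ _ hY (hU _) (hU _)).2
          · exact hY
          · exact hU _
        · exact hU _
    have key : Tr2 β (fun n J (_ : Cube n) y u => g0a X n J (Tb J y u)) ∧
        Tr2 β (fun n J (_ : Cube n) y u => g0b X n J (Tb J y u)) :=
      ⟨fun ι _ c d S Y U _ _ _ _ hY hU => (ap_g0 hT hB hβ hX (hW ι c d Y U hY hU)).1,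
        fun ι _ c d S Y U _ _ _ _ hY hU => (ap_g0 hT hB hβ hX (hW ι c d Y U hY hU)).2⟩
    have mu := hM _ (lm0 (cb m) (db m))
    exact ⟨tr_of hT hβ key.1 C adb mu.1 (fun n J s hJ y u => ((hC n J s y hJ).2.2 _).1)
        (fun n J _ _ => (mA n J).comp (mT n J)) fun n J s y hJ => (hC n J s y hJ).1,
      tr_of hT hβ key.2 C adb mu.2.2 (fun n J s hJ y u => ((hC n J s y hJ).2.2 _).2)
        (fun n J _ _ => (mB n J).comp (mT n J)) fun n J s y hJ => (hC n J s y hJ).2.1⟩
  · have hn := hS.nrm f C hf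
    have C0 := hf.pos
    have sm : ∀ n (a : Cube n → V n → V n) x y, (∀ s, nrm (a s y) ≤ C * √n) →
        nrm (Sm x y a) ≤ C * √n := fun n a x y h => by
      have h1 := hK.jen n a (fun _ _ => 0) x y
      have e : Sm x y (fun _ _ => (0 : V n)) = 0 := by ext; simp [Sm, mean]
      simp only [e, sub_zero] at h1
      have hw : SL.Wt (ising 0 x) := .of_pos fun _ => Real.exp_pos _
      exact (abs_le_of_sq_le_sq' (h1.trans (hw.mean_le fun s =>
        pow_le_pow_left₀ (nrm_nonneg _) (h s) 2)) (by positivity)).2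
    have mx : ∀ n (J : Mx n), Measurable fun p : V n × (Fin 2 → V n) => xu J p.1 (p.2 0) (p.2 1) :=
      fun n J => m_xu J measurable_fst measurable_snd.eval measurable_snd.eval
    have ma : ∀ n (J : Mx n), Jᵀ = J → Measurable fun p : V n × (Fin 2 → V n) =>
        DD (th (xu J p.1 (p.2 0) (p.2 1))) * Sm (xu J p.1 (p.2 0) (p.2 1)) p.1 (ga f n J) :=
      fun n J hJ => m_Dm (mx n J) (m_Sm hK (mx n J) measurable_fst fun s => (hn n J s hJ).1)
    have mb : ∀ n (J : Mx n), Jᵀ = J → Measurable fun p : V n × (Fin 2 → V n) =>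
        Sm (xu J p.1 (p.2 0) (p.2 1)) p.1 (gb f n J) :=
      fun n J hJ => m_Sm hK (mx n J) measurable_fst fun s => (hn n J s hJ).2.1
    have ba : ∀ n (J : Mx n), Jᵀ = J → ∀ x y, nrm (DD (th x) * Sm x y (ga f n J)) ≤ C * √n :=
      fun n J hJ x y => (nrm_DD _ _).trans (sm n _ x y fun s => ((hn n J s hJ).2.2 y).1)
    have key : Tr2 β (fun n J (_ : Cube n) y (u : Fin 2 → V n) => AA J *ᵥ
        (DD (th (xu J y (u 0) (u 1))) * Sm (xu J y (u 0) (u 1)) y (ga f n J))) ∧
        Tr2 β (fun n J (_ : Cube n) y (u : Fin 2 → V n) => DD (th (xu J y (u 0) (u 1))) *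
          Sm (xu J y (u 0) (u 1)) y (ga f n J) + Sm (xu J y (u 0) (u 1)) y (gb f n J)) := by
      refine ⟨fun ι _ c d S Y U _ mY mU _ hY hU => ?_, fun ι _ c d S Y U _ mY mU _ hY hU => ?_⟩
      all_goals
        have a0 := (hT.xu ι β hβ c d Y _ _ hY (hU 0) (hU 1)).2
        have m0 : Ms fun n J a => xu J (Y n J a) (U 0 n J a) (U 1 n J a) := fun n J hJ =>
          m_xu J (mY n J hJ) (mU 0 n J hJ) (mU 1 n J hJ)
        have a1 := ap_DD hβ a0 (hT.sm ι β hβ c d _ Y _ C (fun n J s hJ =>
          ⟨(hn n J s hJ).1, fun y => ((hn n J s hJ).2.2 y).1⟩) ha m0 mY a0 hY)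
      · exact (hT.xu ι β hβ c d Y _ _ hY a1 hY).1
      · exact ap_add hβ a1 (hT.sm ι β hβ c d _ Y _ C (fun n J s hJ =>
          ⟨(hn n J s hJ).2.1, fun y => ((hn n J s hJ).2.2 y).2⟩) hb m0 mY a0 hY)
    have mu := hM _ (lm0 c1 d1)
    refine ⟨tr_of hT hβ key.1 (7 * C) ad1 mu.1 (fun n J s hJ y u => ?_)
        (fun n J _ hJ => m_mv _ (ma n J hJ)) fun n J s y hJ => (hE.step f C hf n J s y hJ).1,
      tr_of hT hβ key.2 (C + C) ad1 mu.2.2 (fun n J s hJ y u => ?_)
        (fun n J _ hJ => m_add (ma n J hJ) (mb n J hJ))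
        fun n J s y hJ => (hE.step f C hf n J s y hJ).2⟩
    · exact (nrm_mulVec_le _ _).trans ((mul_le_mul (hK.op n J hJ).2.1 (ba n J hJ _ y)
        (nrm_nonneg _) (by norm_num)).trans_eq (mul_assoc _ _ _).symm)
    · exact (nrm_add_le _ _).trans ((add_le_add (ba n J hJ _ y)
        (sm n _ _ y fun s => ((hn n J s hJ).2.2 y).2)).trans_eq (add_mul _ _ _).symm)
  · have hn := hS.nrm f C hf
    have ad : Ad (fun _ : Unit => r) fun _ => √r := fun _ h => (Real.sqrt_ne_zero hr).2 h
    have mu := hM _ (lm0 (fun _ : Unit => r) fun _ => √r)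
    have k1 : Tr2 β fun n J s _ (u : Unit → V n) => r • gb f n J s (u ()) :=
      fun ι _ c d S Y U mS _ mU hS _ hU => ap_smul hβ r (hb ι c d S _ mS (mU ()) hS (hU ()))
    have k2 : Tr2 β fun n J s _ (u : Unit → V n) => ga f n J s (u ()) :=
      fun ι _ c d S Y U mS _ mU hS _ hU => ha ι c d S _ mS (mU ()) hS (hU ())
    have me : ∀ n, Measurable fun p : V n × (Unit → V n) => p.2 () := fun n => measurable_snd.eval
    have t1 := hT.gm _ β hβ _ _ _ (r * C) _ ad mu.1 (fun n J s hJ => ⟨fun y u => by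
        rw [nrm_smul, abs_of_nonneg hr, mul_assoc]
        exact mul_le_mul_of_nonneg_left ((hn n J s hJ).2.2 _).2 hr,
        m_smul r ((hn n J s hJ).2.1.comp (me n))⟩) k1
    have t2 := hT.gm _ β hβ _ _ _ C _ ad mu.2.1 (fun n J s hJ =>
      ⟨fun y u => ((hn n J s hJ).2.2 _).1, (hn n J s hJ).1.comp (me n)⟩) k2
    refine hT.congr β hβ _ _ (fun ι _ c d S Y mS mY hS hY => ?_)
      fun n J hJ => funext₂ fun s y => hE.top f C hf r hr n J s y hJ
    exact ap_add hβ (t1 ι c d S Y mS mY hS hY) (t2 ι c d S Y mS mY hS hY)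

end Crest.Agent.T157.Zf

end
end

-- ▼ part T157/ZfFin_73
section

/-!
# Row 157, part B, kernel route (helper73): from approximable gradients to limits
-/

set_option autoImplicit false

noncomputable section

namespace Crest.Agent.T157.Zf

open MeasureTheory ProbabilityTheory Matrix Filter Set Topology
open Crest.ProbabilityR.SpinGlassDynamics
open Crest.Agent.T157.E Crest.Agent.T157.Eig Crest.Agent.T157.Tap Crest.Agent.T157.Z
open Crest.Agent.T157.Rec (grad)

namespace Fin73

variable {n : ℕ}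

/-- the configuration read off a row -/
def cu (v : V n) : Cube n := fun i => decide (0 < v i)

theorem cu_sv (x : Cube n) : cu (sv x) = x := by
  funext i; cases h : x i <;> simp [cu, sv, spin, h]

theorem sv_cu {v : V n} (h : ∀ i, v i = 1 ∨ v i = -1) : sv (cu v) = v := by
  funext i; rcases h i with e | e <;> simp [cu, sv, spin, e]

theorem meas_cu : Measurable (cu : V n → Cube n) := by
  refine measurable_pi_lambda _ fun i => measurable_to_bool ?_
  have : (fun v : V n => cu v i) ⁻¹' {true} = {v | 0 < v i} := by ext v; simp [cu]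
  rw [this]; exact measurableSet_lt measurable_const (measurable_pi_apply i)

theorem symm_J (β : ℝ) (g : Pair n → ℝ) : (β • Jmat n g)ᵀ = β • Jmat n g := by
  ext i j; simp [Jmat_symm g j i]

theorem ev_poly (a b κ ε : ℝ) (hκ : 0 < κ) (hε : 0 < ε) :
    ∀ᶠ n : ℕ in atTop, (a * n + b) * Real.exp (-κ * n) ≤ ε := by
  have h0 : Tendsto (fun n : ℕ => κ * n) atTop atTop :=
    tendsto_natCast_atTop_atTop.const_mul_atTop hκ
  have h1 := ((Real.tendsto_pow_mul_exp_neg_atTop_nhds_zero 1).comp h0).const_mul (a / κ)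
  have h2 := (Real.tendsto_exp_neg_atTop_nhds_zero.comp h0).const_mul b
  have h3 := h1.add h2
  simp only [mul_zero, add_zero] at h3
  filter_upwards [h3.eventually (eventually_le_nhds hε)] with n hn
  refine le_trans (le_of_eq ?_) hn
  simp only [Function.comp, pow_one, neg_mul]
  field_simp

end Fin73

open Fin73

theorem finStmt : FinStmt := by
  intro β hβ Φ B hC hT ε hε
  have hI : Ap β (1 : Unit → ℝ) 0 fun _ _ a => a () := apA.net _ β hβ _ _ _ (Nw.inp ())
  have hS : Ap β (1 : Unit → ℝ) 0 fun n _ a => sv (cu (a ())) := by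
    refine apA.lim _ β _ _ _ fun e he => ⟨_, hI, hpStmt.mono _ β _ _ _ _
      (hpStmt.spin _ β _ _ () rfl rfl) (.of_forall fun n J a h => ?_)⟩
    rw [sv_cu h, sub_self, nrm_zero]; positivity
  have hA := hT Unit 1 0 (fun n _ a => cu (a ())) (fun _ _ a => a ())
    (fun n J _ => meas_cu.comp (measurable_pi_apply ())) (fun n J _ => measurable_pi_apply ()) hS hI
  obtain ⟨m, X, hX, hXb, κ, κ0, hW⟩ := hA (√(ε / 2)) (by positivity)
  obtain ⟨M, M0, hM⟩ := A48.Bd.pos hXb
  refine ⟨Unit ⊕ Fin m, inferInstance, Sum.elim 1 0, Sum.elim 0 1, X, hX, hXb, hW.mono ?_⟩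
  filter_upwards [ev_poly (2 * |B|) (2 * M ^ 2) κ (ε / 2) κ0 (by positivity)] with n hn g hg
  have hw := Hp58.wt_gibbs n β g
  have hJ := symm_J β g
  set J := β • Jmat n g
  have mX : Measurable (X n J) :=
    ((lipStmt.cont _ _ _ hX n).comp (Continuous.prodMk_right J)).measurable
  refine (hw.mean_mono (g := fun x => ε / 2 * n + (2 * |B| * n + 2 * M ^ 2) * n *
    (RL (Sum.elim (1 : Unit → ℝ) (0 : Fin m → ℝ)) (Sum.elim 0 1) (sv x)).real
      {a | ¬ nrm (gt Φ n J (cu (a (.inl ()))) (a (.inl ())) - X n J a) ≤ √(ε / 2) * √n})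
    fun x => ?_).trans ?_
  · set v : V n := √(n : ℝ) • grad (Φ n J) x with hv
    have hvi : ∀ i, |v i| ≤ √(|B| * n) := fun i => by
      refine Real.abs_le_sqrt ?_
      have h1 : grad (Φ n J) x i ^ 2 ≤ |B| := by
        refine le_trans ?_ (((hC n).grad J x hJ).trans (le_abs_self B))
        rw [sq]
        exact Finset.single_le_sum (f := fun i => grad (Φ n J) x i * grad (Φ n J) x i)
          (fun i _ => mul_self_nonneg _) (Finset.mem_univ i)
      rw [hv, Pi.smul_apply, smul_eq_mul, mul_pow, Real.sq_sqrt n.cast_nonneg, mul_comm]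
      gcongr
    have mD : Measurable fun a => v - X n J a := measurable_const.sub mX
    have h := Q64.jensen (RL (Sum.elim (1 : Unit → ℝ) (0 : Fin m → ℝ)) (Sum.elim 0 1) (sv x))
      mD (K := √(|B| * n) + M) (√(ε / 2)) fun a i =>
        (abs_sub _ _).trans (add_le_add (hvi i) (hM _ _ _ _))
    rw [Real.sq_sqrt (by positivity)] at h
    have e : v - Lm.EN (Sum.elim 1 0) (Sum.elim 0 1) X n J (sv x) = fun i => ∫ a, (v - X n J a) i
        ∂(RL (Sum.elim (1 : Unit → ℝ) (0 : Fin m → ℝ)) (Sum.elim 0 1) (sv x)) := by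
      funext i
      simp only [Pi.sub_apply]
      rw [integral_sub (integrable_const _) (Integrable.of_bound (f := fun a => X n J a i)
        ((measurable_pi_apply i).comp mX).aestronglyMeasurable M (.of_forall fun a => hM _ _ _ _))]
      simp [Lm.EN]
    rw [e]
    refine h.trans (add_le_add le_rfl (mul_le_mul ?_ ?_ measureReal_nonneg (by positivity)))
    · have := Real.sq_sqrt (show 0 ≤ |B| * n by positivity)
      gcongr
      nlinarith [sq_nonneg (√(|B| * n) - M)]
    · rw [Q64.RL_lab]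
      refine ENNReal.toReal_mono (measure_ne_top _ _) ?_
      have ms : MeasurableSet {a : Unit ⊕ Fin m → V n | ¬ nrm (v - X n J a) ≤ √(ε / 2) * √n} := by
        have : Measurable fun a : Unit ⊕ Fin m → V n => nrm (v - X n J a) := by
          unfold nrm dotProduct; fun_prop
        exact (measurableSet_le this measurable_const).compl
      rw [Measure.map_apply (Q64.meas_lab _) ms]
      refine le_trans (le_of_eq ?_) (Measure.le_map_apply (Q64.meas_lab _).aemeasurable _)
      congr 1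
      ext w
      simp [lab, gt, cu_sv, hv]
  · rw [SL.mean_add, hw.mean_const, SL.mean_const_mul]
    have h1 := mul_le_mul_of_nonneg_left hg
      (show 0 ≤ (2 * |B| * n + 2 * M ^ 2) * (n : ℝ) by positivity)
    have h2 := mul_le_mul_of_nonneg_left hn (n.cast_nonneg (α := ℝ))
    nlinarith

theorem outGlue : OutGlue := by
  intro hS hSc hT hCh hF β h0 h1 Φ ⟨r, r0, k, m, X, hX, hb, e⟩
  have hβ : β ∈ Icc (0 : ℝ) 1 := ⟨h0, h1.le⟩
  have it : ∀ l, (∃ C, Sc (Ky^[l] (Ps0 X)) C) ∧ Tr β (ga (Ky^[l] (Ps0 X))) ∧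
      Tr β (gb (Ky^[l] (Ps0 X))) := by
    intro l
    induction l with
    | zero => exact ⟨hSc.base m X hX hb, hCh.base β hβ m X hX hb⟩
    | succ l ih =>
      obtain ⟨⟨C, hC⟩, ha, hb⟩ := ih
      rw [Function.iterate_succ_apply']
      exact ⟨hSc.step _ C hC, hCh.step β hβ _ C hC ha hb⟩
  have z : Tr β fun _ _ _ _ => 0 := fun ι _ c d S Y _ _ _ hY => by
    simpa using apB.add ι β hβ c d Y Y 0 0 hY hY
  have ad : ∀ F G : Vf, Tr β F → Tr β G → Tr β fun n J s y => F n J s y + G n J s y :=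
    fun F G hF hG ι _ c d S Y m1 m2 a1 a2 => by
      simpa using apB.add ι β hβ c d _ _ 1 1 (hF ι c d S Y m1 m2 a1 a2) (hG ι c d S Y m1 m2 a1 a2)
  have sm : ∀ k, (∃ C, Sc (Psk k X) C) ∧ Tr β (ga (Psk k X)) ∧ Tr β (gb (Psk k X)) := by
    intro k
    induction k with
    | zero =>
      have e0 : Psk 0 X = fun _ _ _ _ => 0 := by funext n J s y; simp [Psk]
      rw [e0]
      refine ⟨⟨0, hSc.zero⟩, hT.congr β hβ _ _ z fun n J _ => ?_, hT.congr β hβ _ _ z fun n J _ => ?_⟩
      · funext s y i; simp [ga, grad, SL.incr]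
      · funext s y i; simp [gb]
    | succ k ih =>
      obtain ⟨⟨C, hC⟩, ha, hb⟩ := ih
      obtain ⟨⟨C', hC'⟩, ha', hb'⟩ := it k
      have e1 : Psk (k + 1) X = fun n J s y => Psk k X n J s y + Ky^[k] (Ps0 X) n J s y := by
        funext n J s y; simp [Psk, Finset.sum_range_succ]
      rw [e1]
      refine ⟨⟨_, hSc.add _ _ _ _ hC hC'⟩, hT.congr β hβ _ _ (ad _ _ ha ha') fun n J _ => ?_,
        hT.congr β hβ _ _ (ad _ _ hb hb') fun n J hJ => ?_⟩
      · funext s y i; simp only [ga, grad, SL.incr, Pi.smul_apply, Pi.add_apply, smul_eq_mul]; ring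
      · funext s y i
        simp only [gb, Pi.add_apply]
        rw [fderiv_fun_add (hC.diff n J s hJ y) (hC'.diff n J s hJ y)]
        simp [mul_add]
  obtain ⟨⟨C, hC⟩, ha, hb'⟩ := sm k
  obtain ⟨B, hB⟩ := hSc.top _ C hC r r0
  subst e
  exact hS β h0 h1 _ B (.of_forall fun n => (hB n).1)
    (hF β hβ _ B (fun n => (hB n).1) (hCh.top β hβ _ C hC r r0 ha hb'))

end Crest.Agent.T157.Zf

end
end

-- ▼ part T157/ZfGm_14
section

/-!
# Row 157, part B, kernel route (helper14): means over Gaussian rows, the multipliers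
-/

set_option autoImplicit false
set_option linter.all false

noncomputable section

namespace Crest.Agent.T157.Zf

open MeasureTheory ProbabilityTheory Matrix Filter Set
open Crest.Agent.T157.E Crest.Agent.T157.Eig Crest.Agent.T157.Tap Crest.Agent.T157.Z

namespace Gm14

variable {n : ℕ}

theorem map_dot {κ : Type} [Fintype κ] (a : κ → ℝ) :
    (gv κ).map (fun x => a ⬝ᵥ x) = gaussianReal 0 (a ⬝ᵥ a).toNNReal := by
  classical
  have : IsProbabilityMeasure ((gv κ).map fun x => a ⬝ᵥ x) :=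
    Measure.isProbabilityMeasure_map (by fun_prop)
  refine Measure.ext_of_charFun (funext fun t => ?_)
  have h := Cond.CF_gv (t • a)
  rw [charFun_gaussianReal, charFun_apply_real, integral_map (by fun_prop) (by fun_prop)]
  simp only [Cond.CF, smul_dotProduct, dotProduct_smul, smul_eq_mul] at h
  rw [Real.coe_toNNReal _ (dot_self_nonneg a)]
  push_cast at h ⊢
  rw [h]
  congr 1; ring

theorem map_sqrt {l : ℝ} (hl : 0 ≤ l) :
    (gaussianReal 0 1).map (fun t => √l * t) = gaussianReal 0 l.toNNReal := by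
  rw [gaussianReal_map_const_mul]
  congr 1
  · simp
  · ext; simp [Real.sq_sqrt hl, hl]

variable {ι : Type} [Fintype ι]

theorem lm_nn (c d : ι → ℝ) : 0 ≤ lm c d := Finset.sum_nonneg fun _ _ => by positivity

theorem meas_t (c d : ι → ℝ) (s : Cube n) (k : Fin n) :
    Measurable fun u : ι → V n => sv s k * hr c d u k := by
  simp only [hr, Finset.sum_apply, Pi.smul_apply, smul_eq_mul]
  fun_prop

/-- the law of the local statistic is `N (l, l)` -/
theorem law (c d : ι → ℝ) (s : Cube n) (k : Fin n) :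
    (RL c d (sv s)).map (fun u => sv s k * hr c d u k) =
      (gaussianReal 0 1).map fun z => lm c d + √(lm c d) * z := by
  have ss : sv s k * sv s k = 1 := spin_mul_self _
  set a : ι × Fin n → ℝ := fun p => if p.2 = k then sv s k * (c p.1 / d p.1) else 0 with ha
  have e1 : a ⬝ᵥ a = lm c d := by
    simp only [dotProduct, Fintype.sum_prod_type, ha, ite_mul, mul_ite, mul_zero, zero_mul, lm]
    refine Finset.sum_congr rfl fun l _ => ?_
    rw [Finset.sum_eq_single k (fun j _ hj => by simp [hj]) (by simp)]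
    simp only [if_true]
    rw [← div_pow]
    linear_combination (c l / d l) ^ 2 * ss
  have e2 : ∀ w, sv s k * hr c d (rows c d (sv s) w) k = lm c d + a ⬝ᵥ w := fun w => by
    simp only [dotProduct, Fintype.sum_prod_type, ha, ite_mul, zero_mul, lm, hr, rows,
      Finset.sum_apply, Pi.smul_apply, smul_eq_mul, Finset.sum_ite_eq', Finset.mem_univ, if_true,
      Finset.mul_sum, ← Finset.sum_add_distrib]
    refine Finset.sum_congr rfl fun l _ => ?_
    have e3 : c l / d l ^ 2 * d l = c l / d l := by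
      by_cases h : d l = 0
      · simp [h]
      · field_simp
    linear_combination (c l ^ 2 / d l ^ 2) * ss + sv s k * w (l, k) * e3
  have hm : Measurable (rows c d (sv s)) := by unfold rows; fun_prop
  rw [RL, Measure.map_map (meas_t c d s k) hm,
    show (fun u => sv s k * hr c d u k) ∘ rows c d (sv s) =
      (fun t => lm c d + t) ∘ fun w => a ⬝ᵥ w from funext e2,
    ← Measure.map_map (by fun_prop) (by fun_prop), map_dot, e1, ← map_sqrt (lm_nn c d),
    Measure.map_map (by fun_prop) (by fun_prop)]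
  rfl

theorem int_t (c d : ι → ℝ) (s : Cube n) (k : Fin n) {f : ℝ → ℝ} (hf : Measurable f) :
    ∫ u, f (sv s k * hr c d u k) ∂(RL c d (sv s)) = gl (lm c d) f := by
  rw [← integral_map (meas_t c d s k).aemeasurable hf.aestronglyMeasurable, law,
    integral_map (by fun_prop) hf.aestronglyMeasurable, gl]

theorem l2_t (c d : ι → ℝ) (s : Cube n) (k : Fin n) {f : ℝ → ℝ} (hf : G2 (lm c d) f) :
    MemLp (fun u => f (sv s k * hr c d u k)) 2 (RL c d (sv s)) := by
  have h2 : Measurable fun t => f t ^ 2 := hf.1.pow_const 2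
  refine (memLp_two_iff_integrable_sq (hf.1.comp (meas_t c d s k)).aestronglyMeasurable).2 ?_
  refine (integrable_map_measure h2.aestronglyMeasurable (meas_t c d s k).aemeasurable).1 ?_
  rw [law]
  exact (integrable_map_measure h2.aestronglyMeasurable (by fun_prop)).2 hf.2

/-- Cauchy–Schwarz -/
theorem cs {Ω : Type*} [MeasurableSpace Ω] {μ : Measure Ω} {f g : Ω → ℝ} (hf : MemLp f 2 μ)
    (hg : MemLp g 2 μ) : (∫ u, f u * g u ∂μ) ^ 2 ≤ (∫ u, f u ^ 2 ∂μ) * ∫ u, g u ^ 2 ∂μ := by
  have i1 := hf.integrable_sq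
  have i2 := hg.integrable_sq
  have i3 : Integrable (fun u => f u * g u) μ := hf.integrable_mul hg
  have h : ∀ t : ℝ, 0 ≤ (∫ u, f u ^ 2 ∂μ) * (t * t) + 2 * (∫ u, f u * g u ∂μ) * t +
      ∫ u, g u ^ 2 ∂μ := fun t => by
    have h1 : 0 ≤ ∫ u, (t * t * f u ^ 2 + 2 * t * (f u * g u) + g u ^ 2) ∂μ :=
      integral_nonneg fun u => by
        simp only [Pi.zero_apply]; nlinarith [sq_nonneg (t * f u + g u)]
    have i4 : Integrable (fun u => t * t * f u ^ 2 + 2 * t * (f u * g u)) μ :=
      (i1.const_mul _).add (i3.const_mul _)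
    rw [integral_add i4 i2,
      integral_add (i1.const_mul _) (i3.const_mul _), integral_const_mul, integral_const_mul] at h1
    linarith
  have := discrim_le_zero h
  unfold discrim at this
  nlinarith

theorem nsq (v : V n) : nrm v ^ 2 = ∑ j, v j ^ 2 := by
  rw [nrm_sq]; simp only [dotProduct, sq]

theorem l2_co {Ω : Type*} [MeasurableSpace Ω] {μ : Measure Ω} {Y : Ω → V n} (hY : Measurable Y)
    (hi : Integrable (fun u => nrm (Y u) ^ 2) μ) (k : Fin n) : MemLp (fun u => Y u k) 2 μ := by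
  have hm : Measurable fun u => Y u k := (measurable_pi_apply k).comp hY
  rw [memLp_two_iff_integrable_sq hm.aestronglyMeasurable]
  refine hi.mono' (hm.pow_const 2).aestronglyMeasurable (ae_of_all _ fun u => ?_)
  rw [Real.norm_eq_abs, abs_of_nonneg (sq_nonneg _), nsq]
  exact Finset.single_le_sum (f := fun j => Y u j ^ 2) (fun _ _ => sq_nonneg _) (Finset.mem_univ k)

theorem sum_int {Ω : Type*} [MeasurableSpace Ω] {μ : Measure Ω} {Y : Ω → V n}
    (h : ∀ k, MemLp (fun u => Y u k) 2 μ) : ∑ k, ∫ u, Y u k ^ 2 ∂μ = ∫ u, nrm (Y u) ^ 2 ∂μ := by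
  simp only [nsq]
  rw [integral_finsetSum _ fun k _ => (h k).integrable_sq]

/-! ### multipliers -/

theorem int_abs (a : ℝ) : Integrable (fun z => Real.exp (a * |z|)) (gaussianReal 0 1) := by
  refine ((integrable_exp_mul_gaussianReal a).add (integrable_exp_mul_gaussianReal (-a))).mono'
    (by fun_prop) (ae_of_all _ fun z => ?_)
  have h1 := Real.exp_pos (a * z)
  have h2 := Real.exp_pos (-a * z)
  rw [Real.norm_eq_abs, Real.abs_exp, Pi.add_apply]
  rcases abs_cases z with h | h
  · rw [h.1]; linarith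
  · rw [h.1, mul_neg, ← neg_mul]; linarith

theorem mu_of {l : ℝ} {φ : ℝ → ℝ} (hm : Measurable φ) (h0 : ∀ t, 0 ≤ φ t) (h1 : φ l ≤ 1)
    (hr : ∀ t t', φ t * Real.exp (-(2 * |t - t'|)) ≤ φ t') : Mu l φ := by
  have mom : ∀ q : ℕ, Integrable (fun z => φ (l + √l * z) ^ q) (gaussianReal 0 1) := fun q => by
    refine (int_abs (q * (2 * √l))).mono' ((hm.comp (by fun_prop)).pow_const q).aestronglyMeasurable
      (ae_of_all _ fun z => ?_)
    have h2 := (hr (l + √l * z) l).trans h1
    rw [add_sub_cancel_left, abs_mul, abs_of_nonneg (Real.sqrt_nonneg l), Real.exp_neg,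
      ← div_eq_mul_inv, div_le_one (Real.exp_pos _)] at h2
    rw [Real.norm_eq_abs, abs_of_nonneg (pow_nonneg (h0 _) q), mul_assoc, Real.exp_nat_mul,
      mul_assoc]
    exact pow_le_pow_left₀ (h0 _) h2 q
  refine ⟨⟨hm, mom 2⟩, fun Λ hΛ => ?_, fun p => ⟨gl l fun t => φ t ^ (p + 2), fun Λ hΛ => ?_⟩⟩
  · have m0 : ∀ t, 0 ≤ min (φ t) Λ := fun t => le_min (h0 t) (by linarith)
    have m1 : ∀ t, min (φ t) Λ ^ 2 ≤ φ t ^ 2 := fun t =>
      pow_le_pow_left₀ (m0 t) (min_le_left _ _) 2
    have key : ∀ t t', min (φ t) Λ - min (φ t') Λ ≤ 2 * Λ * |t - t'| := fun t t' => by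
      have e0 := Real.exp_pos (-(2 * |t - t'|))
      have e1 := Real.add_one_le_exp (-(2 * |t - t'|))
      have e2 : Real.exp (-(2 * |t - t'|)) ≤ 1 := Real.exp_le_one_iff.2 (by
        linarith [abs_nonneg (t - t')])
      have a1 : min (φ t) Λ * Real.exp (-(2 * |t - t'|)) ≤ min (φ t') Λ :=
        le_min ((mul_le_mul_of_nonneg_right (min_le_left _ _) e0.le).trans (hr t t'))
          ((mul_le_of_le_one_right (m0 t) e2).trans (min_le_right _ _))
      nlinarith [mul_le_mul_of_nonneg_left e1 (m0 t),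
        mul_le_mul_of_nonneg_right (min_le_right (φ t) Λ) (abs_nonneg (t - t'))]
    have hi : Integrable (fun z => min (φ (l + √l * z)) Λ ^ 2) (gaussianReal 0 1) :=
      (mom 2).mono' (((hm.comp (by fun_prop)).min measurable_const).pow_const 2).aestronglyMeasurable
        (ae_of_all _ fun z => by
          rw [Real.norm_eq_abs, abs_of_nonneg (sq_nonneg _)]; exact m1 _)
    refine ⟨⟨fun t => ?_, fun t t' => abs_le.2 ⟨?_, key t t'⟩⟩, ⟨hm.min measurable_const, hi⟩,
      integral_mono hi (mom 2) fun z => m1 _⟩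
    · rw [abs_of_nonneg (m0 t)]; linarith [min_le_right (φ t) Λ]
    · have := key t' t
      rw [abs_sub_comm] at this; linarith
  · have Λ0 : 0 < Λ := by linarith
    rw [gl, gl, ← integral_div]
    refine integral_mono_of_nonneg (ae_of_all _ fun z => sq_nonneg _) ((mom (p + 2)).div_const _)
      (ae_of_all _ fun z => ?_)
    have f0 := h0 (l + √l * z)
    simp only
    generalize φ (l + √l * z) = x at f0
    rcases le_total x Λ with h | h
    · rw [min_eq_left h, sub_self, zero_pow two_ne_zero]; positivity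
    · rw [min_eq_right h, le_div_iff₀ (by positivity), pow_add, mul_comm]
      exact mul_le_mul (pow_le_pow_left₀ Λ0.le h p) (pow_le_pow_left₀ (by linarith) (by linarith) 2)
        (sq_nonneg _) (by positivity)

theorem rho_ratio (a u u' : ℝ) : Kv.rho a u * Real.exp (-(2 * |u - u'|)) ≤ Kv.rho a u' := by
  rw [Kv.rho, Kv.rho, ← intervalIntegral.integral_mul_const]
  refine intervalIntegral.integral_mono_on zero_le_one
    (Continuous.intervalIntegrable (by fun_prop) _ _)
    (Continuous.intervalIntegrable (by fun_prop) _ _) fun t ht => ?_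
  rw [← Real.exp_add]
  refine Real.exp_le_exp.2 ?_
  nlinarith [mul_le_mul_of_nonneg_left (neg_abs_le (u - u')) ht.1, abs_nonneg (u - u'), ht.1, ht.2]

end Gm14

open Gm14 in
theorem gmStmt : GmStmt where
  err ι _ c d _ n φ φ' Y Y' s h1 h2 m1 m2 i1 i2 := by
    have y1 := l2_co m1 i1
    have y2 := l2_co (Y := fun u => Y s u - Y' s u) (m1.sub m2) i2
    have g1 : ∀ k, ∫ u, (φ (sv s k * hr c d u k) - φ' (sv s k * hr c d u k)) ^ 2 ∂(RL c d (sv s)) =
        gl (lm c d) fun t => (φ t - φ' t) ^ 2 := fun k =>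
      int_t c d s k ((h1.1.sub h2.1).pow_const 2)
    have g2 : ∀ k, ∫ u, φ' (sv s k * hr c d u k) ^ 2 ∂(RL c d (sv s)) =
        gl (lm c d) fun t => φ' t ^ 2 := fun k => int_t c d s k (h2.1.pow_const 2)
    rw [nsq, ← sum_int y1, ← sum_int y2, Finset.mul_sum, Finset.mul_sum, ← Finset.sum_add_distrib]
    refine Finset.sum_le_sum fun k _ => ?_
    have f1 := l2_t c d s k h1
    have f2 := l2_t c d s k h2
    have y3 : MemLp (fun u => Y' s u k) 2 (RL c d (sv s)) := by
      have := (y1 k).sub (y2 k)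
      refine (iff_of_eq (congrArg (MemLp · 2 _) (funext fun u => ?_))).1 this
      simp
    have a1 := cs (f1.sub f2) (y1 k)
    have a2 := cs f2 (y2 k)
    simp only [Pi.sub_apply] at a1
    rw [g1] at a1
    rw [g2] at a2
    have j1 : Integrable (fun u => φ (sv s k * hr c d u k) * Y s u k) (RL c d (sv s)) :=
      f1.integrable_mul (y1 k)
    have j2 : Integrable (fun u => φ' (sv s k * hr c d u k) * Y s u k) (RL c d (sv s)) :=
      f2.integrable_mul (y1 k)
    have j3 : Integrable (fun u => φ' (sv s k * hr c d u k) * Y' s u k) (RL c d (sv s)) :=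
      f2.integrable_mul y3
    simp only [Pi.sub_apply, sub_mul, mul_sub] at a1 a2 ⊢
    rw [integral_sub j1 j2] at a1
    rw [integral_sub j2 j3] at a2
    simp only [Gm]
    nlinarith [sq_nonneg ((∫ u, φ (sv s k * hr c d u k) * Y s u k ∂(RL c d (sv s))) -
      2 * (∫ u, φ' (sv s k * hr c d u k) * Y s u k ∂(RL c d (sv s))) +
      ∫ u, φ' (sv s k * hr c d u k) * Y' s u k ∂(RL c d (sv s)))]
  meas ι _ c d n φ Y s hφ hY := by
    refine measurable_pi_lambda _ fun k => ?_
    exact (StronglyMeasurable.integral_prod_right' (ν := RL c d (sv s))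
      (f := fun p : V n × (ι → V n) => φ (sv s k * hr c d p.2 k) * Y p.1 s p.2 k)
      (((hφ.comp (meas_t c d s k)).comp measurable_snd).mul
        ((measurable_pi_apply k).comp hY)).stronglyMeasurable).measurable

open Gm14 in
theorem muStmt : MuStmt := fun l hl =>
  ⟨mu_of ((Kv.cont_rho l).comp (by fun_prop)).measurable (fun _ => (Kv.rho_pos _ _).le)
      (by simpa [ph1] using Kv.rho_le hl 0) fun t t' => by
        simpa only [ph1, sub_sub_sub_cancel_right] using rho_ratio l (t - l) (t' - l),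
    mu_of (by unfold ph2; fun_prop) (fun _ => (Real.exp_pos _).le)
      (Real.exp_le_one_iff.2 (by linarith)) fun t t' => by
        rw [ph2, ph2, ← Real.exp_add]
        exact Real.exp_le_exp.2 (by linarith [neg_abs_le (t - t')]),
    mu_of measurable_const (fun _ => zero_le_one) le_rfl fun t t' => by
      rw [one_mul]
      exact Real.exp_le_one_iff.2 (by linarith [abs_nonneg (t - t')])⟩

end Crest.Agent.T157.Zf

end
end

-- ▼ part T157/ZfGs_63
section

/-!
# Row 157, part B, kernel route (helper63): the exact gradient through Gaussian rows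
-/

set_option autoImplicit false
set_option linter.unusedSectionVars false

noncomputable section

namespace Crest.Agent.T157.Zf

open MeasureTheory ProbabilityTheory Matrix Real
open Crest.Agent.T157.E Crest.Agent.T157.Eig Crest.Agent.T157.Tap Crest.Agent.T157.Z
open Crest.Agent.T157.SL (MG cm)
open Crest.Agent.T157.Rec (grad fl)

namespace Gs63

variable {n : ℕ} {ι : Type} [Fintype ι] [DecidableEq ι] {c d : ι → ℝ}

/-- the shift of the noise that moves the spin `k` by `a` -/
def vv (c d : ι → ℝ) (a : ℝ) (k : Fin n) : ι × Fin n → ℝ :=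
  fun p => if p.2 = k then a * (c p.1 / d p.1) else 0

/-- the direction of the rows -/
def ek (c : ι → ℝ) (k : Fin n) : ι → V n := fun l => Pi.single k (c l)

lemma mr (c d : ι → ℝ) (σ : V n) : Continuous (rows c d σ) := by unfold rows; fun_prop

lemma rows_add (h : Ad c d) (σ : V n) (a t : ℝ) (k : Fin n) (w : ι × Fin n → ℝ) :
    rows c d σ (w + t • vv c d a k) = rows c d σ w + (t * a) • ek c k := by
  funext l i
  simp only [rows, vv, ek, Pi.add_apply, Pi.smul_apply, smul_eq_mul, Pi.single_apply]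
  split_ifs
  · by_cases hc : c l = 0
    · simp [hc]
    · have := h l hc
      field_simp; ring
  · simp

lemma dot_vv (a : ℝ) (k : Fin n) (w : ι × Fin n → ℝ) :
    w ⬝ᵥ vv c d a k = a * ∑ l, c l / d l * w (l, k) := by
  simp only [dotProduct, vv, Fintype.sum_prod_type, mul_ite, mul_zero, Finset.sum_ite_eq',
    Finset.mem_univ, if_true, Finset.mul_sum]
  exact Finset.sum_congr rfl fun l _ => by ring

lemma vv_vv (a : ℝ) (k : Fin n) : vv c d a k ⬝ᵥ vv c d a k = a * a * lm c d := by
  simp only [dot_vv, lm, Finset.mul_sum, ← div_pow]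
  exact Finset.sum_congr rfl fun l _ => by simp only [vv, if_true]; ring

lemma hr_rows (σ : V n) (k : Fin n) (w : ι × Fin n → ℝ) :
    hr c d (rows c d σ w) k = lm c d * σ k + ∑ l, c l / d l * w (l, k) := by
  simp only [hr, lm, rows, Finset.sum_apply, Pi.smul_apply, smul_eq_mul, Finset.sum_mul,
    ← Finset.sum_add_distrib]
  refine Finset.sum_congr rfl fun l _ => ?_
  by_cases hd : d l = 0
  · simp [hd]
  · field_simp

lemma ek_eq (c : ι → ℝ) (k : Fin n) :
    ek c k = ∑ l, c l • (Pi.single l (Pi.single k 1) : ι → V n) := by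
  funext l i
  simp [ek, Finset.sum_apply, Pi.single_apply, ite_apply]

lemma mg {G : (ι → V n) → ℝ} {L : ℝ} (hc : Continuous G)
    (hL : ∀ u u', |G u - G u'| ≤ L * nA (u - u')) (σ : V n) : MG fun w => G (rows c d σ w) := by
  have m := (MG.const |G (rows c d σ 0)|).add ((MG.sum Finset.univ fun (l : ι) _ =>
    (MG.const 1).add (MG.sum Finset.univ fun (i : Fin n) _ =>
      (((Rec.mg_coord (l, i)).const_mul (d l)).mul
        ((Rec.mg_coord (l, i)).const_mul (d l))))).const_mul |L|)
  refine m.of_le (hc.comp (mr c d σ)).measurable fun w => le_trans ?_ (le_abs_self _)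
  have h1 := hL (rows c d σ w) (rows c d σ 0)
  have h2 : nA (rows c d σ w - rows c d σ 0) ≤ ∑ l, (1 + ∑ i, d l * w (l, i) * (d l * w (l, i))) :=
    Finset.sum_le_sum fun l _ => by
      have e : (rows c d σ w - rows c d σ 0) l = fun i => d l * w (l, i) := by
        funext i; simp [rows]
      have := nrm_sq fun i => d l * w (l, i)
      rw [e]
      simp only [dotProduct] at this
      nlinarith [sq_nonneg (nrm (fun i => d l * w (l, i)) - 1)]
  have h3 : 0 ≤ nA (rows c d σ w - rows c d σ 0) := Finset.sum_nonneg fun _ _ => nrm_nonneg _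
  nlinarith [abs_sub_abs_le_abs_sub (G (rows c d σ w)) (G (rows c d σ 0)),
    mul_le_mul (le_abs_self L) h2 h3 (abs_nonneg L)]

end Gs63

open Gs63

theorem gsStmt : GsStmt := fun ι _ _ c d h n G L hG hL s => by
  funext k
  have hs := Rec.sv_mul_self s k
  set a : ℝ := -2 * sv s k with ha
  set v := vv c d a k with hv
  have mh : Measurable fun u : ι → V n => sv s k * hr c d u k := by
    simp only [hr, Finset.sum_apply]; fun_prop
  have e1 : ∀ w, rows c d (sv (fl s k)) w = rows c d (sv s) (v + w) := fun w => by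
    have := rows_add h (sv s) a 1 k w
    rw [one_smul, one_mul, add_comm] at this
    rw [this, Kv.sv_fl]
    funext l i
    simp only [rows, ek, Pi.add_apply, Pi.smul_apply, smul_eq_mul, Pi.single_apply, ← ha]
    split_ifs <;> ring
  have m := fun t => mg (c := c) (d := d) (hG t).continuous (hL t) (sv s)
  have m' : ∀ t, Integrable (fun w => G t (rows c d (sv s) (v + w))) (gv (ι × Fin n)) :=
    fun t => by simpa using ((m t).affine v 1).int
  have hl : ∀ w, LipschitzWith (L * nA (a • ek c k)).toNNReal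
      fun t : ℝ => G s (rows c d (sv s) (w + t • v)) := fun w =>
    LipschitzWith.of_dist_le_mul fun x y => by
      rw [Real.dist_eq, Real.dist_eq, rows_add h, rows_add h]
      refine (hL _ _ _).trans ?_
      rw [add_sub_add_left_eq_sub, ← sub_smul, ← sub_mul, mul_smul,
        show nA ((x - y) • a • ek c k) = nA (a • ek c k) * |x - y| by
          simp only [nA, Pi.smul_apply, nrm_smul, Finset.mul_sum, mul_comm], ← mul_assoc]
      exact mul_le_mul_of_nonneg_right (Real.le_coe_toNNReal _) (abs_nonneg _)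
  obtain ⟨i1, e2⟩ := Kv.dv (f := fun w => G s (rows c d (sv s) w))
    ((hG s).continuous.comp (mr c d _)) hl
  have e3 : ∀ w, lineDeriv ℝ (fun w => G s (rows c d (sv s) w)) w v = a * ∑ l, c l *
      fderiv ℝ (G s) (rows c d (sv s) w) (Pi.single l (Pi.single k 1)) := fun w => by
    have := (hG s (rows c d (sv s) w)).lineDeriv_eq_fderiv (v := a • ek c k)
    rw [map_smul, ek_eq, map_sum, ← ek_eq] at this
    simp only [map_smul, smul_eq_mul] at this
    rw [← this, lineDeriv, lineDeriv]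
    simp only [hv, rows_add h, smul_smul]
  have e4 : ∀ w, sv s k * hr c d (rows c d (sv s) w) k = lm c d - w ⬝ᵥ v / 2 := fun w => by
    rw [hr_rows, hv, dot_vv, ha]
    linear_combination lm c d * hs
  have e5 : v ⬝ᵥ v = 4 * lm c d := by rw [hv, vv_vv, ha]; linear_combination 4 * lm c d * hs
  have e6 := cm v fun w => G s (rows c d (sv s) w) - G (fl s k) (rows c d (sv s) w)
  rw [integral_sub (m' s) (m' _)] at e6
  rw [integral_sub (m' s) (m s).int] at e2
  simp only [e3, mul_assoc, integral_const_mul] at e2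
  rw [Rec.grad_eq, Pi.add_apply, Gm, Gm, RL, RL,
    integral_map (mr c d _).aemeasurable (hG _).continuous.aestronglyMeasurable,
    integral_map (mr c d _).aemeasurable (hG _).continuous.aestronglyMeasurable,
    integral_map (mr c d _).aemeasurable, integral_map (mr c d _).aemeasurable]
  · simp only [e1, e4, Rec.grad_eq, ph1, ph2, Kv.rho_eq]
    have e7 : ∀ w, exp (-2 * (lm c d - w ⬝ᵥ v / 2)) * (sv s k * (G s (rows c d (sv s) w) -
        G (fl s k) (rows c d (sv s) w)) / 2) = sv s k / 2 * (exp (w ⬝ᵥ v - v ⬝ᵥ v / 2) *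
          (G s (rows c d (sv s) w) - G (fl s k) (rows c d (sv s) w))) := fun w => by
      rw [e5, show -2 * (lm c d - w ⬝ᵥ v / 2) = w ⬝ᵥ v - 4 * lm c d / 2 by ring]; ring
    have e8 : ∀ w, -2 * (lm c d - w ⬝ᵥ v / 2 - lm c d) = w ⬝ᵥ v := fun w => by ring
    simp only [e7, e8, integral_const_mul, ← e6, ← e5, mul_comm (Kv.rr _ _)]
    linear_combination (-sv s k / 2) * e2 + (∫ w, (∑ l, c l * fderiv ℝ (G s) (rows c d (sv s) w)
      (Pi.single l (Pi.single k 1))) * Kv.rr (v ⬝ᵥ v) (w ⬝ᵥ v) ∂gv (ι × Fin n)) * hs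
  · refine Measurable.aestronglyMeasurable (Measurable.mul ?_ ?_)
    · exact (measurable_exp.comp (measurable_const_mul _)).comp mh
    · simp only [Rec.grad_eq]
      exact ((((hG _).continuous.sub (hG _).continuous).const_mul _).div_const _).measurable
  · refine Measurable.aestronglyMeasurable (Measurable.mul ?_ ?_)
    · exact ((Kv.cont_rho _).measurable.comp (measurable_sub_const _)).comp mh
    · exact Finset.measurable_sum _ fun l _ => (measurable_fderiv_apply_const ℝ _ _).const_mul _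

end Crest.Agent.T157.Zf

end
end

-- ▼ part T157/ZfKe_15
section

/-!
# Row 157, part B, kernel route: the kernel step (`Zf.keStmt`, `Zf.sc_step`, helper15)
-/

set_option autoImplicit false
set_option linter.unusedVariables false

noncomputable section

namespace Crest.Agent.T157.Zf

open MeasureTheory ProbabilityTheory Matrix Filter Set
open Crest.Agent.T157.E Crest.Agent.T157.Eig Crest.Agent.T157.Tap Crest.Agent.T157.Z
open Crest.Agent.T157.Rec (grad)
open Crest.Agent.T157.Pl (cmul)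
open Crest.Agent.T157.Conc (en ELip)

namespace Ke15

variable {n : ℕ} {J J' : Mx n}

/-! ### the matrices -/

theorem tJ_sy (h : Jᵀ = J) : (tJ J)ᵀ = tJ J := by rw [tJ, transpose_smul, h]

theorem AA_sy (h : Jᵀ = J) : (AA J)ᵀ = AA J := by
  rw [AA, transpose_add, tJ_sy h, transpose_smul, transpose_one]

theorem g1_AA (h : Jᵀ = J) : Sq.G1 (AA J) :=
  Sq.g1_shift (herm_iff.2 (tJ_sy h)) (L85.opn_tJ J) (by norm_num)

theorem opn_AA (J : Mx n) : opn (AA J) ≤ 7 :=
  (Sq.opn_shift (L85.opn_tJ J) (by norm_num)).trans (by norm_num)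

theorem QQ_sy (J : Mx n) : (QQ J)ᵀ = QQ J := Sq.rt_symm _

theorem QQ_mul (h : Jᵀ = J) : QQ J * QQ J = AA J := (g1_AA h).mul

theorem opn_QQ (h : Jᵀ = J) : opn (QQ J) ≤ 3 := by
  have h1 : opn (QQ J) ^ 2 = opn (AA J) := (g1_AA h).opn_rt
  nlinarith [opn_AA J, opn_nonneg (QQ J)]

theorem M_eq (J : Mx n) :
    (8 : ℝ) • AA J - AA J * AA J = -(tJ J * tJ J) + (16 : ℝ) • (1 : Mx n) := by
  simp only [AA, smul_add, Matrix.add_mul, Matrix.mul_add, Matrix.smul_mul, Matrix.mul_smul,
    Matrix.one_mul, Matrix.mul_one, smul_smul]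
  module

theorem opn_TT (J : Mx n) : opn (-(tJ J * tJ J)) ≤ 9 := by
  rw [opn_neg]
  nlinarith [opn_mul_le (tJ J) (tJ J), L85.opn_tJ J, opn_nonneg (tJ J)]

theorem g1_M (h : Jᵀ = J) : Sq.G1 ((8 : ℝ) • AA J - AA J * AA J) := by
  rw [M_eq]
  exact Sq.g1_shift (herm_iff.2 (by rw [transpose_neg, transpose_mul, tJ_sy h])) (opn_TT J)
    (by norm_num)

theorem s8 : (√8 : ℝ)⁻¹ * (√8)⁻¹ = 1 / 8 := by
  rw [← mul_inv, Real.mul_self_sqrt (by norm_num)]; norm_num

theorem opn_BB (h : Jᵀ = J) : opn (BB J) ≤ 3 := by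
  have h1 := (g1_M h).opn_rt
  have h2 : opn ((8 : ℝ) • AA J - AA J * AA J) ≤ 9 + 16 := by
    rw [M_eq]; exact Sq.opn_shift (opn_TT J) (by norm_num)
  have h3 : opn (BB J) ^ 2 ≤ 3 ^ 2 := by
    rw [BB, opn_smul, mul_pow, sq_abs, h1, sq, s8]
    linarith
  exact (pow_le_pow_iff_left₀ (opn_nonneg _) (by norm_num) two_ne_zero).1 h3

theorem BB_sy (J : Mx n) : (BB J)ᵀ = BB J := by rw [BB, transpose_smul, Sq.rt_symm]

theorem BB_mul (h : Jᵀ = J) : BB J * BB J = AA J - (1 / 8 : ℝ) • (AA J * AA J) := by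
  rw [BB, Matrix.smul_mul, Matrix.mul_smul, smul_smul, (g1_M h).mul, s8, smul_sub, smul_smul]
  norm_num

theorem dot_sy {M : Mx n} (h : Mᵀ = M) (t v : V n) : t ⬝ᵥ M *ᵥ v = (M *ᵥ t) ⬝ᵥ v := by
  rw [dotProduct_mulVec, ← mulVec_transpose, h]

theorem sq_sy {M : Mx n} (h : Mᵀ = M) (t : V n) : (M *ᵥ t) ⬝ᵥ (M *ᵥ t) = t ⬝ᵥ (M * M) *ᵥ t := by
  rw [← dot_sy h, mulVec_mulVec]

theorem QQ_lip (h : Jᵀ = J) (h' : J'ᵀ = J') :
    opn (AA J - AA J') ≤ 2 * opn (J - J') ∧ opn (QQ J - QQ J') ≤ opn (J - J') := by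
  have h1 : opn (AA J - AA J') ≤ 2 * opn (J - J') := by
    rw [AA, AA, add_sub_add_right_eq_sub]; exact L85.tJ_lip J J'
  exact ⟨h1, (Sq.rt_lip (g1_AA h) (g1_AA h')).trans (by linarith)⟩

theorem cj_one (s : Cube n) : Lm.cj s 1 = 1 := by
  rw [Lm.cj, Matrix.mul_one, diagonal_mul_diagonal, ← diagonal_one]
  congr 1
  funext i
  exact L85.sgn_mul (Pl.isSign_sv s) i

theorem AA_cj (s : Cube n) (J : Mx n) : AA (Lm.cj s J) = Lm.cj s (AA J) := by
  have h := cj_one s
  simp only [Lm.cj] at h ⊢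
  rw [AA, AA, L85.tJ_gauge (Pl.isSign_sv s), Matrix.mul_add, Matrix.add_mul, Matrix.mul_smul,
    Matrix.smul_mul, h]

theorem QQ_cj (h : Jᵀ = J) (s : Cube n) : QQ (Lm.cj s J) = Lm.cj s (QQ J) := by
  ext i j
  rw [QQ, Sq.rt_sign (g1_AA h) (L85.sgn_mul (Pl.isSign_sv s)) fun i j => by
    rw [AA_cj, Lm.cj, mul_diagonal, diagonal_mul]; ring]
  rw [Lm.cj, mul_diagonal, diagonal_mul, QQ]; ring

theorem AA_pe (e : Equiv.Perm (Fin n)) (J : Mx n) : AA (J.submatrix e e) = (AA J).submatrix e e := by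
  rw [AA, AA, L85.tJ_perm, submatrix_add, submatrix_smul]
  simp

theorem QQ_pe (h : Jᵀ = J) (e : Equiv.Perm (Fin n)) :
    QQ (J.submatrix e e) = (QQ J).submatrix e e := by
  ext i j
  exact Sq.rt_perm (g1_AA h) e (fun i j => by rw [AA_pe]; rfl) i j

theorem xr_cj (h : Jᵀ = J) (s x : Cube n) (y z : V n) :
    xr (Lm.cj s J) (cmul s x) (sv s * y) (sv s * z) = sv s * xr J x y z := by
  rw [xr, xr, AA_cj, QQ_cj h, Pl.sv_cmul, Lm.cj, Lm.cj, Kv.cj_mulVec, Kv.cj_mulVec, mul_add, mul_add]

theorem xr_pe (h : Jᵀ = J) (e : Equiv.Perm (Fin n)) (x : Cube n) (y z : V n) :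
    xr (J.submatrix e e) (x ∘ e) (y ∘ e) (z ∘ e) = xr J x y z ∘ e := by
  rw [xr, xr, AA_pe, QQ_pe h, Kv.sv_perm, Kv.sub_mulVec, Kv.sub_mulVec]; rfl

/-! ### product means -/

theorem dp (t : Cube n) : Differentiable ℝ fun h : V n => prob (ising 0 h) t := by
  have h1 : ∀ t, Differentiable ℝ fun h : V n => ising 0 h t := fun t => by
    unfold ising dotProduct; fun_prop
  simp only [prob, div_eq_mul_inv]
  exact (h1 t).mul ((Differentiable.fun_sum fun t _ => h1 t).inv fun h => (K75.wt_prod h).pos.ne')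

theorem cm {X : Type} [TopologicalSpace X] {a : Cube n → X → ℝ} {hh : X → V n}
    (ha : ∀ t, Continuous (a t)) (h : Continuous hh) :
    Continuous fun x => mean (ising 0 (hh x)) fun t => a t x :=
  continuous_finsetSum _ fun t _ => ((dp t).continuous.comp h).mul (ha t)

theorem nrm_sv (s : Cube n) : nrm (sv s) = √n := by
  rw [nrm]
  congr 1
  simp [dotProduct, L85.sgn_mul (Pl.isSign_sv s)]

theorem nrm_le_sup (v : V n) : nrm v ≤ √n * ‖v‖ := by
  rw [nrm_le_iff (by positivity), mul_pow, Real.sq_sqrt (Nat.cast_nonneg n)]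
  calc v ⬝ᵥ v ≤ ∑ i : Fin n, ‖v‖ ^ 2 := Finset.sum_le_sum fun i _ => by
        rw [← sq, ← sq_abs]
        exact pow_le_pow_left₀ (abs_nonneg _) (norm_le_pi_norm v i) 2
    _ = _ := by simp

theorem law (h : Jᵀ = J) (s : Cube n) (y : V n) :
    (RL c1 d1 (sv s)).map (fun u => xu J y (u 0) (u 1)) = (gv (Fin n)).map (xr J s y) := by
  have m1 : Measurable fun u : Fin 2 → V n => xu J y (u 0) (u 1) :=
    Continuous.measurable (by unfold xu; fun_prop)
  have m2 : Measurable (xr J s y) := Continuous.measurable (by unfold xr; fun_prop)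
  have m3 := Hp58.meas_rows c1 d1 (sv s)
  rw [RL, Measure.map_map m1 m3]
  refine Cond.ext_vec (m1.comp m3) m2 fun t => ?_
  have e1 : ∀ w, t ⬝ᵥ ((fun u : Fin 2 → V n => xu J y (u 0) (u 1)) ∘ rows c1 d1 (sv s)) w =
      t ⬝ᵥ (y + AA J *ᵥ sv s) + (fun q : Fin 2 × Fin n =>
        (![(√8)⁻¹ • AA J *ᵥ t, BB J *ᵥ t] : Fin 2 → V n) q.1 q.2) ⬝ᵥ w := fun w => by
    have r0 : rows c1 d1 (sv s) w 0 = sv s + (√8)⁻¹ • fun i => w (0, i) := by
      funext i; simp [rows, c1, d1]
    have r1 : rows c1 d1 (sv s) w 1 = fun i => w (1, i) := by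
      funext i; simp [rows, c1, d1]
    rw [Function.comp, xu, r0, r1, mulVec_add, mulVec_smul]
    simp only [dotProduct_add, dotProduct_smul, dot_sy (AA_sy h) t fun i => w (0, i),
      dot_sy (BB_sy J) t fun i => w (1, i)]
    simp only [dotProduct, Fintype.sum_prod_type, Fin.sum_univ_two, cons_val_zero, cons_val_one,
      Pi.smul_apply, smul_eq_mul, Finset.mul_sum, mul_assoc, add_assoc]
  have e2 : ∀ z, t ⬝ᵥ xr J s y z = t ⬝ᵥ (y + AA J *ᵥ sv s) + (QQ J *ᵥ t) ⬝ᵥ z := fun z => by
    rw [xr, dotProduct_add, dot_sy (QQ_sy J)]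
  simp only [e1, e2, Hp58.CF_aff]
  congr 5
  have e3 : ((√8)⁻¹ • AA J *ᵥ t) ⬝ᵥ ((√8)⁻¹ • AA J *ᵥ t) + (BB J *ᵥ t) ⬝ᵥ (BB J *ᵥ t) =
      (QQ J *ᵥ t) ⬝ᵥ (QQ J *ᵥ t) := by
    rw [smul_dotProduct, dotProduct_smul, smul_smul, s8, sq_sy (AA_sy h), sq_sy (BB_sy J),
      sq_sy (QQ_sy J), BB_mul h, QQ_mul h, sub_mulVec, smul_mulVec, dotProduct_sub, dotProduct_smul]
    ring
  rw [← e3]
  simp only [dotProduct, Fintype.sum_prod_type, Fin.sum_univ_two, cons_val_zero, cons_val_one]

/-! ### one step -/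

variable {f : Sf} {C : ℝ}

theorem pt_lip (hf : Sc f C) (h : Jᵀ = J) (h' : J'ᵀ = J') (x x' y y' : V n) :
    |mean (ising 0 x) (fun s => f n J s y) - mean (ising 0 x') fun s => f n J' s y'| ≤
      C * (nrm (y - y') + √n * opn (J - J')) + C * nrm (x - x') := by
  have := K75.abs_prod_sub (F := fun s => f n J s y) (F' := fun s => f n J' s y') hf.pos
    (fun s => hf.grad n J' s y' h') (fun s => hf.lip n J J' s y y' h h') x x'
  rwa [K75.en_eq] at this

theorem pt_bd (hf : Sc f C) (h : Jᵀ = J) (x y : V n) :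
    |mean (ising 0 x) fun s => f n J s y| ≤ C * √n :=
  (K75.wt_prod x).abs_mean_le fun s => hf.sup n J s y h

theorem pt_cont (hf : Sc f C) (h : Jᵀ = J) (s : Cube n) : Continuous fun p : V n × V n =>
    mean (ising 0 (xr J s p.2 p.1)) fun t => f n J t p.2 :=
  cm (fun t => (hf.diff n J t h).continuous.comp continuous_snd) (by unfold xr; fun_prop)

theorem pt_int (hf : Sc f C) (h : Jᵀ = J) (s : Cube n) (y : V n) :
    Integrable (fun z => mean (ising 0 (xr J s y z)) fun t => f n J t y) (gv (Fin n)) :=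
  Integrable.of_bound (C := C * √n)
    ((pt_cont hf h s).comp (continuous_id.prodMk continuous_const)).aestronglyMeasurable
    (.of_forall fun z => pt_bd hf h _ y)

theorem step_lip (hf : Sc f C) (h : Jᵀ = J) (h' : J'ᵀ = J') (x : Cube n) (y y' : V n) :
    |Ky f n J x y - Ky f n J' x y'| ≤ 4 * C * (nrm (y - y') + √n * opn (J - J')) := by
  have C0 := hf.pos
  have o0 := opn_nonneg (J - J')
  have n0 := nrm_nonneg (y - y')
  obtain ⟨hA, hQ⟩ := QQ_lip h h'
  have hx : ∀ z, nrm (xr J x y z - xr J' x y' z) ≤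
      nrm (y - y') + 2 * (√n * opn (J - J')) + opn (J - J') * nrm z := fun z => by
    have e : xr J x y z - xr J' x y' z =
        (y - y') + (AA J - AA J') *ᵥ sv x + (QQ J - QQ J') *ᵥ z := by
      simp only [xr, sub_mulVec]; abel
    have h1 := (nrm_mulVec_le (AA J - AA J') (sv x)).trans
      (mul_le_mul_of_nonneg_right hA (nrm_nonneg _))
    have h2 := (nrm_mulVec_le (QQ J - QQ J') z).trans (mul_le_mul_of_nonneg_right hQ (nrm_nonneg _))
    rw [nrm_sv] at h1
    rw [e]
    linarith [nrm_add_le (y - y' + (AA J - AA J') *ᵥ sv x) ((QQ J - QQ J') *ᵥ z),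
      nrm_add_le (y - y') ((AA J - AA J') *ᵥ sv x)]
  have i1 := pt_int hf h x y
  have i2 := pt_int hf h' x y'
  have i3 := (Nrm.integrable_nrm (ι := Fin n)).const_mul (C * opn (J - J'))
  have hm : ∫ z, nrm z ∂(gv (Fin n)) ≤ √n := by simpa using Nrm.integral_nrm_le (ι := Fin n)
  rw [Ky, Ky, ← integral_sub i1 i2]
  refine abs_integral_le_integral_abs.trans ((integral_mono (i1.sub i2).abs
    ((integrable_const (C * (2 * nrm (y - y') + 3 * (√n * opn (J - J'))))).add i3) fun z => ?_).trans ?_)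
  · have h1 := pt_lip hf h h' (xr J x y z) (xr J' x y' z) y y'
    have h2 := mul_le_mul_of_nonneg_left (hx z) C0
    simp only [Pi.add_apply, Pi.sub_apply]
    linarith
  · rw [integral_add' (integrable_const _) i3, integral_const, probReal_univ, one_smul,
      integral_const_mul]
    have h1 := mul_le_mul_of_nonneg_left hm (mul_nonneg C0 o0)
    have h2 := mul_nonneg C0 n0
    linarith

theorem step_grad (hf : Sc f C) (h : Jᵀ = J) (x : Cube n) (y : V n) :
    grad (fun s => Ky f n J s y) x ⬝ᵥ grad (fun s => Ky f n J s y) x ≤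
      (8 * Real.exp 14 * C) ^ 2 := by
  have C0 := hf.pos
  have hE := K75.elip_prod_lin (F := fun s => f n J s y) C0 (fun s => hf.grad n J s y h) y (QQ J)
  have e : (fun s => Ky f n J s y) = Rec.Pm (fun s => QQ J *ᵥ sv s) 1 fun _ u =>
      mean (ising 0 (y + (QQ J)ᵀ *ᵥ u)) fun s => f n J s y := by
    funext s
    simp only [Ky, Rec.Pm, xr, one_smul, Real.sqrt_one, QQ_sy, mulVec_add, mulVec_mulVec, QQ_mul h,
      add_assoc]
  have hG : Kc.FG (fun s : Cube n => QQ J *ᵥ sv s) 7 :=
    Kc.fg_opn (by rw [QQ_sy, QQ_mul h]; exact opn_AA J)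
  rw [e]
  refine (hG.grad_le zero_le_one (K75.mg_of_elip hE) _ x).trans
    ((mul_le_mul_of_nonneg_left (K75.var_Pm (Ψ := fun _ u =>
      mean (ising 0 (y + (QQ J)ᵀ *ᵥ u)) fun s => f n J s y) (p := x) zero_le_one hE)
      (Kc.Ga_nonneg zero_le_one (by norm_num))).trans ?_)
  have h1 : (C * opn (QQ J)) ^ 2 ≤ (C * 3) ^ 2 :=
    pow_le_pow_left₀ (mul_nonneg C0 (opn_nonneg _)) (mul_le_mul_of_nonneg_left (opn_QQ h) C0) 2
  have h2 : Kc.Ga 1 7 = 7 * Real.exp 14 ^ 2 := by
    rw [Kc.Ga, ← Real.exp_nat_mul]; norm_num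
  have h3 := mul_le_mul_of_nonneg_left h1 (by positivity : 0 ≤ 7 * Real.exp 14 ^ 2)
  have h4 : 0 ≤ Real.exp 14 ^ 2 * C ^ 2 := by positivity
  rw [h2]
  nlinarith

theorem step_diff (hf : Sc f C) (h : Jᵀ = J) (x : Cube n) : Differentiable ℝ (Ky f n J x) := by
  intro y0
  have C0 := hf.pos
  have hd : ∀ z, Differentiable ℝ fun y => mean (ising 0 (xr J x y z)) fun t => f n J t y := fun z =>
    Differentiable.fun_sum fun t _ =>
      ((dp t).comp (by unfold xr; fun_prop)).mul (hf.diff n J t h)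
  have hm := (measurable_fderiv_with_param ℝ
    (f := fun z y => mean (ising 0 (xr J x y z)) fun t => f n J t y) (pt_cont hf h x)).comp
    (measurable_id.prodMk (measurable_const (a := y0)))
  refine (hasFDerivAt_integral_of_dominated_loc_of_lip' (μ := gv (Fin n)) (s := univ)
    (F := fun y z => mean (ising 0 (xr J x y z)) fun t => f n J t y)
    (F' := fun z => fderiv ℝ (fun y => mean (ising 0 (xr J x y z)) fun t => f n J t y) y0)
    (bound := fun _ => 2 * C * √n) univ_mem (fun y _ => (pt_int hf h x y).1) (pt_int hf h x y0)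
    hm.aestronglyMeasurable (.of_forall fun z y _ => ?_) (integrable_const _)
    (.of_forall fun z => (hd z y0).hasFDerivAt)).2.differentiableAt
  have h1 := pt_lip hf h h (xr J x y z) (xr J x y0 z) y y0
  have e : xr J x y z - xr J x y0 z = y - y0 := by simp only [xr]; abel
  rw [e, sub_self, opn_zero, mul_zero, add_zero] at h1
  have h2 := mul_le_mul_of_nonneg_left (nrm_le_sup (y - y0)) C0
  rw [Real.norm_eq_abs]
  linarith

end Ke15

open Ke15

theorem keStmt : KeStmt where
  op n J h := ⟨AA_sy h, opn_AA J, opn_BB h⟩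
  law n J s y h := law h s y
  jen n a b x y := by
    simp only [nrm_sq, dotProduct, SL.mean_sum]
    refine Finset.sum_le_sum fun k _ => ?_
    have := Kc.mean_sub_sq_le (K75.wt_prod x) (fun s => a s y k - b s y k) 0
    simpa only [sub_zero, SL.mean_sub, sq, Sm, Pi.sub_apply] using this
  meas n a ha := measurable_pi_lambda _ fun k => Finset.measurable_sum _ fun s _ =>
    ((dp s).continuous.measurable.comp measurable_fst).mul
      ((measurable_pi_apply k).comp ((ha s).comp measurable_snd))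

theorem sc_step : ∀ f C, Sc f C → ∃ C', Sc (Ky f) C' := by
  intro f C hf
  have C0 := hf.pos
  have e1 : 1 ≤ Real.exp 14 := Real.one_le_exp (by norm_num)
  have hC : 4 * C ≤ 8 * Real.exp 14 * C := by nlinarith
  refine ⟨8 * Real.exp 14 * C, by positivity, fun n J s x y h => ?_, fun n J e x y h => ?_,
    fun n J J' x y y' h h' => (step_lip hf h h' x y y').trans ?_, fun n J x y h => step_grad hf h x y,
    fun n J x y h => ?_, fun n J x h => step_diff hf h x⟩
  · rw [Ky, Ky, ← (Kv.iso_sign (Pl.isSign_sv s)).int]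
    refine integral_congr_ae (.of_forall fun z => ?_)
    simp only [xr_cj h]
    refine Kv.mean_equiv (Pl.gauge s) (fun t => ?_) fun t => hf.gauge n J s t y h
    simpa using Kv.ising_gauge s 0 (xr J x y z) t
  · rw [Ky, Ky, ← (Kv.iso_perm e).int]
    refine integral_congr_ae (.of_forall fun z => ?_)
    simp only [xr_pe h]
    refine Kv.mean_equiv (Kv.pe e) (fun t => ?_) fun t => hf.perm n J e t y h
    simpa [Kv.pe_apply] using Kv.ising_perm e 0 (xr J x y z) t
  · exact mul_le_mul_of_nonneg_right hC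
      (add_nonneg (nrm_nonneg _) (mul_nonneg (Real.sqrt_nonneg _) (opn_nonneg _)))
  · have := norm_integral_le_of_norm_le_const (μ := gv (Fin n)) (C := C * √n)
      (f := fun z => mean (ising 0 (xr J x y z)) fun t => f n J t y)
      (.of_forall fun z => pt_bd hf h _ y)
    rw [probReal_univ, mul_one] at this
    exact this.trans (mul_le_mul_of_nonneg_right (by linarith) (Real.sqrt_nonneg _))

end Crest.Agent.T157.Zf

end
end

-- ▼ part T157/ZfSc_31
section

/-!
# Row 157, part B, kernel route (helper31): sums, the top channel and the norms of `Zf.Sc`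
-/

set_option autoImplicit false

noncomputable section

namespace Crest.Agent.T157.Zf

open MeasureTheory Matrix
open Crest.Agent.T157.E Crest.Agent.T157.Eig Crest.Agent.T157.Tap Crest.Agent.T157.Z
open Crest.Agent.T157.Rec (grad Pm)
open Crest.Agent.T157.Conc (ELip)

namespace Sc31

variable {f : Sf} {C : ℝ} {n : ℕ} {J : Mx n}

theorem elip (h : Sc f C) (hJ : Jᵀ = J) (x : Cube n) : ELip C (f n J x) := fun y y' => by
  simpa [K75.en_eq] using h.lip n J J x y y' hJ hJ

theorem nrm_grad (h : Sc f C) (hJ : Jᵀ = J) (x : Cube n) (y : V n) :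
    nrm (grad (fun s => f n J s y) x) ≤ C := (nrm_le_iff h.pos).2 (h.grad n J x y hJ)

theorem Ew_eq (r : ℝ) : Ew r f n J = Pm sv r (f n J) := rfl

end Sc31

open Sc31

theorem sc_add : ∀ f g C C', Sc f C → Sc g C' →
    Sc (fun n J s y => f n J s y + g n J s y) (C + C') := fun f g C C' h h' =>
  ⟨add_nonneg h.pos h'.pos, fun n J s x y hJ => by simp only [h.gauge n J s x y hJ, h'.gauge n J s x y hJ],
    fun n J e x y hJ => by simp only [h.perm n J e x y hJ, h'.perm n J e x y hJ],
    fun n J J' x y y' hJ hJ' => by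
      rw [add_sub_add_comm, add_mul]
      exact (abs_add_le _ _).trans (add_le_add (h.lip n J J' x y y' hJ hJ') (h'.lip n J J' x y y' hJ hJ')),
    fun n J x y hJ => (nrm_le_iff (add_nonneg h.pos h'.pos)).1 (by
      rw [Rec.grad_add]
      exact (nrm_add_le _ _).trans (add_le_add (nrm_grad h hJ x y) (nrm_grad h' hJ x y))),
    fun n J x y hJ => by
      rw [add_mul]
      exact (abs_add_le _ _).trans (add_le_add (h.sup n J x y hJ) (h'.sup n J x y hJ)),
    fun n J x hJ => (h.diff n J x hJ).add (h'.diff n J x hJ)⟩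

theorem sc_zero : Sc (fun _ _ _ _ => 0) 0 :=
  ⟨le_rfl, fun _ _ _ _ _ _ => rfl, fun _ _ _ _ _ _ => rfl, by simp, by simp [Rec.grad_const], by simp,
    fun _ _ _ _ => differentiable_const _⟩

theorem sc_top : ∀ f C, Sc f C → ∀ r ≥ (0 : ℝ), ∃ B, ∀ n, Lm.Cov (Ew r f n) B ∧
    ∀ (J : Mx n) x y, Jᵀ = J → |Ew r f n J x - Ew r f n J y| ≤ B * √n := by
  intro f C h r hr
  have C0 := h.pos
  have G0 := Kc.Ga_nonneg hr zero_le_one
  have G1 : 0 ≤ 2 * Kc.Ga r 1 * (r * C ^ 2) + 2 * Real.exp (4 * r * 1) * C ^ 2 := by positivity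
  refine ⟨2 * Kc.Ga r 1 * (r * C ^ 2) + 2 * Real.exp (4 * r * 1) * C ^ 2 + 2 * C, fun n =>
    ⟨⟨fun J s x hJ => (Kv.iso_sign (Pl.isSign_sv s)).pm (Pl.sv_cmul s x) fun u => h.gauge n J s x u hJ,
      fun J e x hJ => (Kv.iso_perm e).pm (Kv.sv_perm e x) fun u => h.perm n J e x u hJ,
      fun J J' x hJ hJ' => ?_, fun J x hJ => ?_⟩, fun J x y hJ => ?_⟩⟩
  · have := K75.abs_gauss_sub (δ := C * (√n * opn (J - J'))) (K75.mg_of_elip (elip h hJ x))
      (elip h hJ' x) (fun u => by simpa using h.lip n J J' x u u hJ hJ') (r • sv x) (r • sv x) √r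
    rw [sub_self, K75.en_eq, nrm_zero, mul_zero, add_zero] at this
    exact this.trans (mul_le_mul_of_nonneg_right (by linarith)
      (mul_nonneg (Real.sqrt_nonneg _) (opn_nonneg _)))
  · have m := fun x => K75.mg_of_elip (elip h hJ x)
    have h1 := Kc.fg_sv.grad_le' hr m (Pm sv r (f n J) x) x
    have h2 := K75.var_Pm (φ := sv) hr (elip h hJ x)
    have h3 : Pm sv r (fun x u => grad (fun x => f n J x u) x ⬝ᵥ grad (fun x => f n J x u) x) x ≤
        C ^ 2 := Rec.Pm_le (fun x => SL.MG.sum _ fun j _ => (Kc.mg_grad m x j).mul (Kc.mg_grad m x j))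
      fun u => h.grad n J x u hJ
    rw [Ew_eq]
    refine h1.trans (le_add_of_le_of_nonneg ?_ (by positivity))
    gcongr
  · have a : ∀ x, |Ew r f n J x| ≤ C * √n := fun x => by
      simpa [Ew] using norm_integral_le_of_norm_le_const (μ := gv (Fin n)) (C := C * √n)
        (f := fun w => f n J x (r • sv x + √r • w)) (ae_of_all _ fun w => h.sup n J x _ hJ)
    refine (abs_sub _ _).trans ?_
    nlinarith [a x, a y, mul_nonneg G1 (Real.sqrt_nonneg (n : ℝ))]

theorem sc_nrm : ∀ f C, Sc f C → ∀ n (J : Mx n) s, Jᵀ = J → Measurable (ga f n J s) ∧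
    Measurable (gb f n J s) ∧ ∀ y, nrm (ga f n J s y) ≤ C * √n ∧ nrm (gb f n J s y) ≤ C * √n := by
  intro f C h n J s hJ
  have k : ∀ v : V n, nrm v ≤ C → nrm (√(n : ℝ) • v) ≤ C * √n := fun v hv => by
    rw [nrm_smul, abs_of_nonneg (Real.sqrt_nonneg _), mul_comm]
    exact mul_le_mul_of_nonneg_right hv (Real.sqrt_nonneg _)
  refine ⟨measurable_pi_lambda _ fun j => ?_, measurable_pi_lambda _ fun j =>
    (measurable_fderiv_apply_const ℝ _ _).const_mul _, fun y => ⟨k _ (nrm_grad h hJ s y),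
      k (Conc.grad (f n J s) y) ?_⟩⟩
  · have m := fun x => (elip h hJ x).continuous.measurable
    simp only [ga, Pi.smul_apply, smul_eq_mul, Rec.grad_eq]
    exact ((((m _).sub (m _)).const_mul _).div_const _).const_mul _
  · have := (elip h hJ s).gr2_le y
    rw [Conc.gr2_eq, K75.en_eq] at this
    exact (abs_le_of_sq_le_sq' this h.pos).2

end Crest.Agent.T157.Zf

end
end

-- ▼ part T157/ZfSc_5

/-!
# Row 157, part B, kernel route (helper5): scalar regularity of `Ψ₀`
-/

set_option autoImplicit false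

noncomputable section

namespace Crest.Agent.T157.Zf

open MeasureTheory Matrix Filter Set
open Crest.Agent.T157.E Crest.Agent.T157.Eig Crest.Agent.T157.Tap Crest.Agent.T157.Z
open Crest.Agent.T157.Rec (grad)
open Crest.Agent.T157.Pl (cmul)

namespace S5

/-- differentiation under the integral for a Lipschitz family -/
theorem diff_int {H α : Type*} [NormedAddCommGroup H] [NormedSpace ℝ H] [FiniteDimensional ℝ H]
    [TopologicalSpace α] [MeasurableSpace α] [OpensMeasurableSpace α] (μ : Measure α)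
    [IsFiniteMeasure μ] {F : α → H → ℝ} (hc : Continuous F.uncurry)
    (hd : ∀ a, Differentiable ℝ (F a)) {L B : ℝ} (hl : ∀ a x x', |F a x - F a x'| ≤ L * ‖x - x'‖)
    (hb : ∀ a x, |F a x| ≤ B) : Differentiable ℝ fun x => ∫ a, F a x ∂μ := fun x => by
  borelize H
  have : ProperSpace H := FiniteDimensional.proper ℝ H
  have m : ∀ x, AEStronglyMeasurable (fun a => F a x) μ := fun x =>
    (hc.comp (Continuous.prodMk_left x)).aestronglyMeasurable
  exact (hasFDerivAt_integral_of_dominated_loc_of_lip' (F := fun x a => F a x) (bound := fun _ => L)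
    (F' := fun a => fderiv ℝ (F a) x) univ_mem (fun x _ => m x)
    (Integrable.of_bound (m x) B (.of_forall fun a => hb a x))
    ((measurable_fderiv_with_param ℝ hc).comp measurable_prodMk_right).aestronglyMeasurable
    (.of_forall fun a x' _ => hl a x' x) (integrable_const _)
    (.of_forall fun a => (hd a x).hasFDerivAt)).2.differentiableAt

variable {n m : ℕ} {X : Nt (Fin 2 ⊕ Fin m)} {J J' : Mx n} {M L : ℝ}

theorem nrm_le_norm (v : V n) : nrm v ≤ √n * ‖v‖ :=
  (K.Di.nrm_le_sup (norm_nonneg v) fun i => norm_le_pi_norm v i).trans_eq (mul_comm _ _)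

theorem abs_div_le {a b : ℝ} (hb : 0 ≤ b) (h : |a| ≤ √n * b) : |a / √n| ≤ b := by
  rw [abs_div, abs_of_nonneg (Real.sqrt_nonneg _)]
  exact div_le_of_le_mul₀ (Real.sqrt_nonneg _) hb (h.trans_eq (mul_comm _ _))

/-! ### the matrices -/

theorem g1 (h : Jᵀ = J) : Sq.G1 (AA J) :=
  Sq.g1_shift (herm_iff.2 (by rw [tJ, transpose_smul, h])) (L85.opn_tJ J) (by norm_num)
theorem opA (J : Mx n) : opn (AA J) ≤ 7 :=
  (Sq.opn_shift (L85.opn_tJ J) (by norm_num)).trans (by norm_num)
theorem opQ (h : Jᵀ = J) : opn (QQ J) ≤ 3 :=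
  abs_le_of_sq_le_sq' (((g1 h).opn_rt.trans_le (opA J)).trans (by norm_num)) (by norm_num) |>.2
theorem dA (J J' : Mx n) : opn (AA J - AA J') ≤ 2 * opn (J - J') := by
  rw [AA, AA, add_sub_add_right_eq_sub]; exact L85.tJ_lip J J'
theorem dQ (h : Jᵀ = J) (h' : J'ᵀ = J') : opn (QQ J - QQ J') ≤ opn (J - J') :=
  (Sq.rt_lip (g1 h) (g1 h')).trans (by linarith [dA J J'])

theorem cj_apply (s : Cube n) (A : Mx n) (i j : Fin n) : Lm.cj s A i j = sv s i * sv s j * A i j := by
  rw [Lm.cj, mul_diagonal, diagonal_mul]; ring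
theorem AA_cj (s : Cube n) (J : Mx n) : AA (Lm.cj s J) = Lm.cj s (AA J) := by
  rw [AA, Lm.cj, L85.tJ_gauge (Pl.isSign_sv s), ← Lm.cj]
  ext i j
  simp only [AA, cj_apply, Matrix.add_apply, Matrix.smul_apply, Matrix.one_apply, smul_eq_mul]
  split_ifs with e
  · subst e; linear_combination (-4) * Rec.sv_mul_self s i
  · ring
theorem QQ_cj (s : Cube n) (h : Jᵀ = J) : QQ (Lm.cj s J) = Lm.cj s (QQ J) := by
  ext i j
  rw [cj_apply]
  exact Sq.rt_sign (g1 h) (Rec.sv_mul_self s) (fun i j => by rw [AA_cj, cj_apply]) i j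
theorem xr_cj (s x : Cube n) (h : Jᵀ = J) (y z : V n) :
    xr (Lm.cj s J) (cmul s x) (sv s * y) (sv s * z) = sv s * xr J x y z := by
  rw [xr, xr, AA_cj, QQ_cj s h, Pl.sv_cmul, Lm.cj, Lm.cj, Kv.cj_mulVec, Kv.cj_mulVec, mul_add, mul_add]
theorem AA_perm (e : Equiv.Perm (Fin n)) (J : Mx n) : AA (J.submatrix e e) = (AA J).submatrix e e := by
  rw [AA, L85.tJ_perm]
  ext i j
  simp [AA, one_apply]
theorem QQ_perm (e : Equiv.Perm (Fin n)) (h : Jᵀ = J) :
    QQ (J.submatrix e e) = (QQ J).submatrix e e := by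
  ext i j
  exact Sq.rt_perm (g1 h) e (fun i j => by rw [AA_perm]; rfl) i j
theorem xr_perm (e : Equiv.Perm (Fin n)) (x : Cube n) (h : Jᵀ = J) (y z : V n) :
    xr (J.submatrix e e) (x ∘ e) (y ∘ e) (z ∘ e) = xr J x y z ∘ e := by
  rw [xr, xr, AA_perm, QQ_perm e h, Kv.sv_perm, Kv.sub_mulVec, Kv.sub_mulVec]; rfl
theorem xr_eq (h : Jᵀ = J) (s : Cube n) (y z : V n) : xr J s y z = y + QQ J *ᵥ (QQ J *ᵥ sv s + z) := by
  rw [mulVec_add, mulVec_mulVec, QQ, (g1 h).mul, xr, add_assoc, QQ]
theorem nrm_sv (s : Cube n) : nrm (sv s) ≤ 1 * √n :=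
  K.Di.nrm_le_sup zero_le_one fun i => by rcases Pl.isSign_sv s i with e | e <;> simp [e]
theorem xr_lip (h : Jᵀ = J) (h' : J'ᵀ = J') (s : Cube n) (y y' z : V n) :
    nrm (xr J s y z - xr J' s y' z) ≤ nrm (y - y') + 2 * (√n * opn (J - J')) + opn (J - J') * nrm z := by
  have e : xr J s y z - xr J' s y' z = y - y' + (AA J - AA J') *ᵥ sv s + (QQ J - QQ J') *ᵥ z := by
    rw [xr, xr, sub_mulVec, sub_mulVec]; abel
  have a := (nrm_mulVec_le _ _).trans (mul_le_mul (dA J J') (nrm_sv s) (nrm_nonneg _)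
    (mul_nonneg zero_le_two (opn_nonneg _)))
  have b := (nrm_mulVec_le _ z).trans (mul_le_mul_of_nonneg_right (dQ h h') (nrm_nonneg _))
  rw [e]
  linarith [nrm_add_le (y - y' + (AA J - AA J') *ᵥ sv s) ((QQ J - QQ J') *ᵥ z),
    nrm_add_le (y - y') ((AA J - AA J') *ᵥ sv s)]

/-! ### the averaged direction -/

theorem cont_lab : Continuous fun p : (Fin m × Fin n → ℝ) × V n × V n => lab2 p.2.1 p.2.2 p.1 :=
  continuous_pi fun l => by
    rcases l with l | l
    · fin_cases l
      exacts [continuous_snd.fst, continuous_snd.snd]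
    · exact continuous_pi fun i => (continuous_apply (l, i)).comp continuous_fst

theorem nA_lab (x y x' y' : V n) (w : Fin m × Fin n → ℝ) :
    nA (lab2 x y w - lab2 x' y' w) = nrm (x - x') + nrm (y - y') := by
  simp [nA, lab2, nrm]

theorem eb_sup (hM : ∀ n J a i, |X n J a i| ≤ M) (x y : V n) (i : Fin n) : |Eb2 X n J x y i| ≤ M := by
  have := norm_integral_le_of_norm_le_const (μ := gv (Fin m × Fin n))
    (f := fun w => X n J (lab2 x y w) i) (C := M) (.of_forall fun w => hM n J _ i)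
  rwa [probReal_univ, mul_one] at this

theorem cont_X (hX : Nw True X) (J : Mx n) (i : Fin n) :
    Continuous fun p : (Fin m × Fin n → ℝ) × V n × V n => X n J (lab2 p.2.1 p.2.2 p.1) i :=
  (continuous_apply i).comp ((L85.cont hX n).comp (continuous_const.prodMk cont_lab))

theorem eb_lip (hX : Nw True X) (hM : ∀ n J a i, |X n J a i| ≤ M) (L0 : 0 ≤ L)
    (hL : ∀ n J J' a a', nrm (X n J a - X n J' a') ≤ L * (nA (a - a') + √n * opn (J - J')))
    (x y x' y' : V n) : nrm (Eb2 X n J x y - Eb2 X n J' x' y') ≤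
      L * (nrm (x - x') + nrm (y - y') + √n * opn (J - J')) := by
  have hi : ∀ J x y i, Integrable (fun w => X n J (lab2 x y w) i) (gv (Fin m × Fin n)) :=
    fun J x y i => Integrable.of_bound ((cont_X hX J i).comp
      (Continuous.prodMk_left (x, y))).aestronglyMeasurable M (.of_forall fun w => hM n J _ i)
  set u := Eb2 X n J x y - Eb2 X n J' x' y' with hu
  have e : u ⬝ᵥ u = ∫ w, u ⬝ᵥ (X n J (lab2 x y w) - X n J' (lab2 x' y' w)) ∂gv (Fin m × Fin n) := by
    simp only [dotProduct, Pi.sub_apply]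
    refine Eq.trans (Finset.sum_congr rfl fun i _ => ?_)
      (integral_finsetSum _ fun i _ => ((hi J x y i).sub (hi J' x' y' i)).const_mul (u i)).symm
    simp only [Pi.sub_apply]
    rw [integral_const_mul, integral_sub (hi J x y i) (hi J' x' y' i)]; rfl
  have h1 := norm_integral_le_of_norm_le_const (μ := gv (Fin m × Fin n))
    (f := fun w => u ⬝ᵥ (X n J (lab2 x y w) - X n J' (lab2 x' y' w)))
    (C := nrm u * (L * (nrm (x - x') + nrm (y - y') + √n * opn (J - J'))))
    (.of_forall fun w => (abs_dot_le _ _).trans (mul_le_mul_of_nonneg_left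
      ((hL n J J' _ _).trans_eq (by rw [nA_lab])) (nrm_nonneg _)))
  rw [probReal_univ, mul_one, ← e, ← nrm_mul_self] at h1
  rcases (nrm_nonneg u).eq_or_lt with h | h
  · rw [← h]
    have := nrm_nonneg (x - x'); have := nrm_nonneg (y - y'); have := opn_nonneg (J - J')
    positivity
  · exact le_of_mul_le_mul_left ((le_abs_self _).trans h1) h

theorem eb_cj (hX : Nw True X) (s : Cube n) (J : Mx n) (x y : V n) :
    Eb2 X n (Lm.cj s J) (sv s * x) (sv s * y) = sv s * Eb2 X n J x y := by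
  ext i
  rw [Pi.mul_apply, Eb2, Eb2, ← integral_const_mul, ← (Kv.iso_sign (ε := fun p : Fin m × Fin n =>
    sv s p.2) fun p => Pl.isSign_sv s p.2).int]
  refine integral_congr_ae (.of_forall fun w => ?_)
  have e : lab2 (sv s * x) (sv s * y) ((fun p : Fin m × Fin n => sv s p.2) * w) =
      fun l => sv s * lab2 x y w l := by
    funext l
    rcases l with l | l
    · fin_cases l <;> rfl
    · rfl
  simp only [e]
  exact congrFun (L85.gauge hX n J _ _ (Pl.isSign_sv s)) i

theorem eb_perm (hX : Nw True X) (e : Equiv.Perm (Fin n)) (J : Mx n) (x y : V n) :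
    Eb2 X n (J.submatrix e e) (x ∘ e) (y ∘ e) = Eb2 X n J x y ∘ e := by
  ext i
  rw [Function.comp_apply, Eb2, Eb2, ← (Kv.iso_perm ((Equiv.refl (Fin m)).prodCongr e)).int]
  refine integral_congr_ae (.of_forall fun w => ?_)
  have h : lab2 (x ∘ e) (y ∘ e) (w ∘ (Equiv.refl (Fin m)).prodCongr e) =
      fun l => lab2 x y w l ∘ e := by
    funext l
    rcases l with l | l
    · fin_cases l <;> rfl
    · rfl
  simp only [h]
  exact congrFun (L85.perm hX n J _ e) i

theorem eb_diff (hX : Nw True X) (hM : ∀ n J a i, |X n J a i| ≤ M) (L0 : 0 ≤ L)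
    (hL : ∀ n J J' a a', nrm (X n J a - X n J' a') ≤ L * (nA (a - a') + √n * opn (J - J')))
    (J : Mx n) : Differentiable ℝ fun p : V n × V n => Eb2 X n J p.1 p.2 :=
  differentiable_pi.2 fun i => diff_int (gv (Fin m × Fin n))
    (F := fun w (p : V n × V n) => X n J (lab2 p.1 p.2 w) i) (L := L * (2 * √n)) (cont_X hX J i)
    (fun w => (differentiable_pi.1 (L85.diff hX n J) i).comp (differentiable_pi.2 fun l => by
      rcases l with l | l
      · fin_cases l
        exacts [differentiable_fst, differentiable_snd]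
      · exact differentiable_const _))
    (fun w p p' => by
      refine (abs_apply_le_nrm (X n J (lab2 p.1 p.2 w) - X n J (lab2 p'.1 p'.2 w)) i).trans
        ((hL n J J _ _).trans ?_)
      rw [nA_lab, sub_self, opn_zero, mul_zero, add_zero, mul_assoc]
      refine mul_le_mul_of_nonneg_left ?_ L0
      have a : nrm (p.1 - p'.1) ≤ √n * ‖(p - p').1‖ := nrm_le_norm _
      have b : nrm (p.2 - p'.2) ≤ √n * ‖(p - p').2‖ := nrm_le_norm _
      linarith [
        mul_le_mul_of_nonneg_left (norm_fst_le (p - p')) (Real.sqrt_nonneg n),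
        mul_le_mul_of_nonneg_left (norm_snd_le (p - p')) (Real.sqrt_nonneg n)])
    fun w p => hM n J _ i

/-! ### the integrand -/

/-- the integrand of `Ψ₀` -/
def hh (X : Nt (Fin 2 ⊕ Fin m)) (J : Mx n) (s : Cube n) (x y : V n) : ℝ :=
  Eb2 X n J x y ⬝ᵥ (sv s - th x)

theorem nrm_st (s : Cube n) (x : V n) : nrm (sv s - th x) ≤ 2 * √n := by
  linarith [nrm_sub_le (sv s) (th x), nrm_sv s,
    K.Di.nrm_le_sup (v := th x) zero_le_one fun i => (Real.abs_tanh_lt_one _).le]

theorem hh_sup (M0 : 0 ≤ M) (hM : ∀ n J a i, |X n J a i| ≤ M) (s : Cube n) (x y : V n) :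
    |hh X J s x y| ≤ √n * (2 * M * √n) :=
  (abs_dot_le _ _).trans ((mul_le_mul (K.Di.nrm_le_sup M0 (eb_sup hM x y)) (nrm_st s x)
    (nrm_nonneg _) (by positivity)).trans_eq (by ring))

theorem hh_lip (hX : Nw True X) (M0 : 0 ≤ M) (hM : ∀ n J a i, |X n J a i| ≤ M) (L0 : 0 ≤ L)
    (hL : ∀ n J J' a a', nrm (X n J a - X n J' a') ≤ L * (nA (a - a') + √n * opn (J - J')))
    (s : Cube n) (x y x' y' : V n) : |hh X J s x y - hh X J' s x' y'| ≤
      √n * ((2 * L + M) * (nrm (x - x') + nrm (y - y') + √n * opn (J - J'))) := by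
  have e : hh X J s x y - hh X J' s x' y' = (Eb2 X n J x y - Eb2 X n J' x' y') ⬝ᵥ (sv s - th x) +
      Eb2 X n J' x' y' ⬝ᵥ (th x' - th x) := by
    simp only [hh, sub_dotProduct, dotProduct_sub]; ring
  have x0 := nrm_nonneg (x - x')
  have y0 := nrm_nonneg (y - y')
  have d0 := mul_nonneg (Real.sqrt_nonneg n) (opn_nonneg (J - J'))
  have a := (abs_dot_le _ _).trans (mul_le_mul (eb_lip (J := J) (J' := J') hX hM L0 hL x y x' y')
    (nrm_st s x) (nrm_nonneg _) (by positivity))
  have b := (abs_dot_le _ _).trans (mul_le_mul (K.Di.nrm_le_sup M0 (eb_sup (J := J') hM x' y'))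
    (K.Di.nrm_th x' x) (nrm_nonneg _) (by positivity))
  rw [← nrm_neg (x' - x), neg_sub] at b
  rw [e]
  refine (abs_add_le _ _).trans ?_
  linarith [mul_nonneg (mul_nonneg M0 (Real.sqrt_nonneg n)) (add_nonneg y0 d0)]

theorem hh_diff (hX : Nw True X) (hM : ∀ n J a i, |X n J a i| ≤ M) (L0 : 0 ≤ L)
    (hL : ∀ n J J' a a', nrm (X n J a - X n J' a') ≤ L * (nA (a - a') + √n * opn (J - J')))
    (J : Mx n) (s : Cube n) : Differentiable ℝ fun p : V n × V n => hh X J s p.1 p.2 := by
  have t : Differentiable ℝ Real.tanh := by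
    rw [show Real.tanh = fun x => Real.sinh x / Real.cosh x from funext Real.tanh_eq_sinh_div_cosh]
    exact Real.differentiable_sinh.div Real.differentiable_cosh fun x => (Real.cosh_pos x).ne'
  unfold hh dotProduct
  refine Differentiable.fun_sum fun i _ => (differentiable_pi.1 (eb_diff hX hM L0 hL J) i).fun_mul ?_
  exact (differentiable_const _).fun_sub (t.comp (f := fun p : V n × V n => p.1 i) (by fun_prop))

end S5

open S5 in
theorem sc_base : ∀ (m : ℕ) (X : Nt (Fin 2 ⊕ Fin m)), Nw True X → Bd X → ∃ C, Sc (Ps0 X) C := by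
  intro m X hX ⟨M', hM'⟩
  obtain ⟨L, L0, hL⟩ := L85.lip hX
  obtain ⟨M, M0, hM⟩ : ∃ M ≥ (0 : ℝ), ∀ n J a i, |X n J a i| ≤ M :=
    ⟨|M'|, abs_nonneg _, fun n J a i => (hM' n J a i).trans (le_abs_self _)⟩
  have e : ∀ n (J : Mx n) s y, Ps0 X n J s y = (∫ z, hh X J s (xr J s y z) y ∂gv (Fin n)) / √n :=
    fun _ _ _ _ => rfl
  have hc : ∀ {n} (J : Mx n) s, Continuous fun p : V n × V n => hh X J s p.1 p.2 := fun J s =>
    (hh_diff hX hM L0 hL J s).continuous
  have cx : ∀ {n} (J : Mx n) s, Continuous fun p : V n × V n => hh X J s (xr J s p.2 p.1) p.2 :=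
    fun J s => (hc J s).comp (f := fun p : V _ × V _ => (xr J s p.2 p.1, p.2)) (by unfold xr; fun_prop)
  have hi : ∀ {n} (J : Mx n) s y, Integrable (fun z => hh X J s (xr J s y z) y) (gv (Fin n)) :=
    fun J s y => Integrable.of_bound ((cx J s).comp (Continuous.prodMk_left y)).aestronglyMeasurable _
      (.of_forall fun z => hh_sup M0 hM s _ _)
  set K := 2 * L + M with hK
  have K0 : 0 ≤ K := by positivity
  set G := 2 * Kc.Ga 1 7 * (3 * K) ^ 2 + 2 * Real.exp (4 * 1 * 7) * M ^ 2 with hG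
  have g0 := Kc.Ga_nonneg zero_le_one (by norm_num : (0 : ℝ) ≤ 7)
  have G0 : 0 ≤ G := by positivity
  have s0 := Real.sqrt_nonneg G
  refine ⟨4 * K + 2 * M + √G, by positivity, fun n J s x y h => ?_, fun n J p x y h => ?_,
    fun n J J' x y y' h h' => ?_, fun n J x y h => ?_, fun n J x y h => ?_, fun n J x h => ?_⟩
  · rw [e, e, ← (Kv.iso_sign (Pl.isSign_sv s)).int]
    simp only [xr_cj s x h, hh, eb_cj hX, Pl.sv_cmul]
    congr 2 with z
    rw [show th (sv s * xr J x y z) = sv s * th (xr J x y z) from funext fun i => by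
      rcases Pl.isSign_sv s i with e | e <;> simp [th, e], ← mul_sub,
      (Kv.iso_sign (Pl.isSign_sv s)).dot]
  · rw [e, e, ← (Kv.iso_perm p).int]
    simp only [xr_perm p x h, hh, eb_perm hX]
    congr 2 with z
    exact (Kv.iso_perm p).dot _ (sv x - th (xr J x y z))
  · have y0 := nrm_nonneg (y - y')
    have o0 := opn_nonneg (J - J')
    have r0 := Real.sqrt_nonneg n
    rw [e, e, ← sub_div, ← integral_sub (hi J x y) (hi J' x y')]
    refine (abs_div_le (b := K * (2 * nrm (y - y') + 4 * (√n * opn (J - J')))) (by positivity)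
      ?_).trans ?_
    swap
    · have := mul_nonneg (add_nonneg (mul_nonneg zero_le_two M0) s0) (add_nonneg y0 (mul_nonneg r0 o0))
      linarith [mul_nonneg K0 y0]
    have i : Integrable (fun z : V n => √n * K * opn (J - J') * nrm z) (gv (Fin n)) :=
      Nrm.integrable_nrm.const_mul _
    rw [← Real.norm_eq_abs]
    refine (norm_integral_le_of_norm_le ((integrable_const (√n * (K * (2 * nrm (y - y') +
      3 * (√n * opn (J - J')))))).add i) (.of_forall fun z => ?_)).trans ?_
    · refine (hh_lip hX M0 hM L0 hL x _ _ _ _).trans ?_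
      have := mul_le_mul_of_nonneg_left (xr_lip h h' x y y' z) (mul_nonneg r0 K0)
      simp only [Pi.add_apply]
      linarith
    · simp only [Pi.add_apply]
      rw [integral_add (integrable_const _) i, integral_const, probReal_univ, one_smul,
        integral_const_mul]
      have := mul_le_mul_of_nonneg_left (Nrm.integral_nrm_le (ι := Fin n))
        (mul_nonneg (mul_nonneg r0 K0) o0)
      rw [Fintype.card_fin] at this
      linarith
  · set Ψ : Cube n → V n → ℝ := fun s u => hh X J s (y + QQ J *ᵥ u) y / √n with hΨ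
    have e1 : (fun s => Ps0 X n J s y) = Rec.Pm (fun s => QQ J *ᵥ sv s) 1 Ψ := by
      funext s
      simp only [e, Rec.Pm, hΨ, xr_eq h, one_smul, Real.sqrt_one, integral_div]
    have mΨ : ∀ s, SL.MG (Ψ s) := fun s => .of_bdd (((hc J s).comp
      (f := fun u => (y + QQ J *ᵥ u, y)) (by fun_prop)).measurable.div_const _) (2 * M * √n)
      fun u => abs_div_le (by positivity) (hh_sup M0 hM s _ _)
    have fg : Kc.FG (fun s => QQ J *ᵥ sv s) 7 := Kc.fg_opn (by rw [QQ, (g1 h).tmul]; exact opA J)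
    rw [e1]
    refine (fg.grad_le' zero_le_one mΨ (∫ z, Ψ x (QQ J *ᵥ sv x + z) ∂gv (Fin n)) x).trans
      (le_trans (b := G) (add_le_add (mul_le_mul_of_nonneg_left ?_ (by positivity))
        (mul_le_mul_of_nonneg_left ?_ (by positivity))) ?_)
    · simp only [Rec.Pm, one_smul, Real.sqrt_one]
      refine Conc.var_lip (F := fun z => Ψ x (QQ J *ᵥ sv x + z)) fun z z' => ?_
      rw [Nrm.en_eq_nrm, hΨ]
      simp only
      rw [← sub_div]
      refine abs_div_le (mul_nonneg (by positivity) (nrm_nonneg _))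
        ((hh_lip hX M0 hM L0 hL x _ _ _ _).trans ?_)
      rw [add_sub_add_left_eq_sub, ← mulVec_sub, add_sub_add_left_eq_sub, sub_self, sub_self, opn_zero,
        mul_zero, add_zero, nrm_eq_zero.2 rfl, add_zero]
      refine mul_le_mul_of_nonneg_left ?_ (Real.sqrt_nonneg _)
      linarith [mul_le_mul_of_nonneg_left ((nrm_mulVec_le _ (z - z')).trans
        (mul_le_mul_of_nonneg_right (opQ h) (nrm_nonneg _))) K0]
    · have gr : ∀ u, grad (fun s => Ψ s u) x = (√(n : ℝ))⁻¹ • Eb2 X n J (y + QQ J *ᵥ u) y := fun u => by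
        rw [← Rec.grad_lin ((√(n : ℝ))⁻¹ • Eb2 X n J (y + QQ J *ᵥ u) y) x]
        funext j
        simp only [Rec.grad_eq, hΨ, hh, dotProduct_sub, smul_dotProduct, smul_eq_mul]
        ring
      simp only [gr, Rec.Pm]
      refine (Real.le_norm_self _).trans ((norm_integral_le_of_norm_le_const (C := M ^ 2)
        (.of_forall fun z => ?_)).trans_eq (by rw [probReal_univ, mul_one]))
      rw [← nrm_sq, norm_pow, Real.norm_eq_abs, abs_of_nonneg (nrm_nonneg _), nrm_smul,
        abs_of_nonneg (by positivity), inv_mul_eq_div]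
      exact pow_le_pow_left₀ (div_nonneg (nrm_nonneg _) (Real.sqrt_nonneg _)) (div_le_of_le_mul₀
        (Real.sqrt_nonneg _) M0 (T157.K.Di.nrm_le_sup M0 (eb_sup hM _ _))) 2
    · exact (Real.sq_sqrt G0).symm.trans_le (pow_le_pow_left₀ s0 (by linarith) 2)
  · rw [e]
    refine (abs_div_le (b := 2 * M * √n) (by positivity) ?_).trans
      (mul_le_mul_of_nonneg_right (by linarith) (Real.sqrt_nonneg _))
    rw [← Real.norm_eq_abs]
    exact (norm_integral_le_of_norm_le_const (.of_forall fun z => hh_sup M0 hM x _ _)).trans_eq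
      (by rw [probReal_univ, mul_one])
  · rw [funext (e n J x)]
    simp only [div_eq_mul_inv]
    refine Differentiable.mul_const (diff_int (gv (Fin n))
      (F := fun z y => hh X J x (xr J x y z) y) (L := √n * (K * (2 * √n))) (cx J x)
      (fun z => (hh_diff hX hM L0 hL J x).comp (f := fun y => (xr J x y z, y))
        (by unfold xr; fun_prop)) (fun z y y' => ?_) fun z y => hh_sup M0 hM x _ _) _
    refine (hh_lip hX M0 hM L0 hL x _ _ _ _).trans ?_
    rw [show xr J x y z - xr J x y' z = y - y' by rw [xr, xr]; abel, sub_self, opn_zero, mul_zero,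
      add_zero, mul_assoc, mul_assoc]
    refine mul_le_mul_of_nonneg_left (mul_le_mul_of_nonneg_left ?_ K0) (Real.sqrt_nonneg _)
    linarith [nrm_le_norm (y - y')]

theorem scStmt : ScStmt := ⟨sc_base, sc_step, sc_add, sc_zero, sc_top, sc_nrm⟩

end Crest.Agent.T157.Zf

end
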