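import Crest.Agent.T157.BrAct_50
import Crest.Agent.T157.S1Bp_30_Mg
import Crest.Agent.T157.S1Sup_30_Mg
import Crest.Agent.T157.OkAll_31
import Crest.Agent.T157.KProgB_69_Mg
import Crest.Agent.T157.S1LocDef_60
import Crest.Agent.T157.S1LY_35_Mg
import Crest.Agent.T157.ZfExS_16_Mg
import Crest.Agent.T157.LmDef_76
import Crest.Agent.T157.ConcG_16
import Mathlib.Topology.ContinuousMap.StoneWeierstrass
import Crest.Agent.T157.LmNlB_63_Mg
import Crest.Agent.T157.LmDefB_76
import Crest.Agent.T157.LmLim_32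
import Crest.Agent.T157.NrmG_84
import Crest.Agent.T157.NrmS_84
import Crest.Agent.T157.ZDefS_73
import Crest.Agent.T157.ZQ_64
import Crest.Agent.T157.LmNet_59_Mg
import Crest.Agent.T157.RnSm_16
import Crest.Agent.T157.ZfSc_5_Mg
import Crest.Agent.T157.ZfTr_23
import Crest.Agent.T157.ZTh_16
import Crest.Agent.T157.BAll_88
import Crest.Agent.T157.KAll_66
import Crest.Agent.T157.KzRec_42_Mg
import Crest.Agent.T157.S1All_83_Mg

-- ▼ part T157/S1BpAll_50
section

/-!
# Row 157, block B, S1: the burst part of the supply, unconditional (helper50)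
-/

namespace Crest.Agent.T157.S1

theorem actP : ActP := Br.actP

theorem bPart : BPart := bpGlue actP buStmt supStmt

end Crest.Agent.T157.S1
end

-- ▼ part T157/S3LkC_40
section

/-!
# Row 157, block B/S3 (helper40): the link in the words of the calculus
-/

set_option autoImplicit false

namespace Crest.Agent.T157.S3.Lk

open Crest.Agent.T157.S1.SA

variable (hc : K.TcStmt) (hm : K.TmStmt) {β : ℝ} (h0 : 0 < β) (h1 : β < 1)
include hc hm h0 h1

theorem famXT : FamLk β (XT β) := fun K0 κ0 hκ =>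
  let ⟨C', c0, H⟩ := Lk90.famLk h0 h1 K0 κ0 hκ
  ⟨C', c0, fun s q0 G hL hF hG hS n N l a e al0 ψ m ρ hl he hN ht =>
    let ⟨Tg, ⟨g, ho, hg⟩, h⟩ := H s q0 G hL hF hG hS n N l a e al0 ψ m ρ hl he hN ht
    ⟨Tg, ⟨fun n J y => g.Tg (β / √n) J y,
      ⟨(ho.opn_le β).imp fun _ hC n J y x hJ => hC n J y x hJ.2.2,
        fun _ hU => ho.api β (KP69.api hc hm ⟨h0, h1⟩ hL.1) hU⟩, hg⟩, h⟩⟩

/-- **the part A of the supply** -/
theorem aStmtXT (𝒞 : Tw.Cls) (h𝒞 : ∀ m, 𝒞.C m = Tw.PV m) : AStmt β (Tw.lam 𝒞 β) (XT β) :=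
  aStmt_of 𝒞 h𝒞 h0 h1 (famXT hc hm h0 h1)

end Crest.Agent.T157.S3.Lk
end

-- ▼ part T157/S1LocF_60
section

/-!
# Row 157, block S1 (helper60): the local supply at the rate of the towers
-/

set_option autoImplicit false

namespace Crest.Agent.T157.S1.SA

/-- **the local supply** (the body of `TopZ.LocF`) -/
theorem locF (hB : BPart) (hc : K.TcStmt) (hm : K.TmStmt) (𝒞 : Tw.Cls)
    (h𝒞 : ∀ m, 𝒞.C m = Tw.PV m) (β : ℝ) (h0 : 0 < β) (h1 : β < 1) : Kz.LocSup β (Tw.lam 𝒞 β) :=
  have hl := (Tw.lamStmt 𝒞 β h0.le h1).2.1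
  locGlue β ⟨h0, h1⟩ _ (hl.trans (by nlinarith)) (S3.Lk.aStmtXT hc hm h0 h1 𝒞 h𝒞)
    (bT hB ⟨h0, h1⟩ hl) (ltStmt ⟨h0, h1⟩ _)

end Crest.Agent.T157.S1.SA
end

-- ▼ part T157/ZfEx_27
section

/-!
# Row 157, part B, kernel route (helper27): the exact gradients `ExStmt`
-/

namespace Crest.Agent.T157.Zf

theorem exGlue : ExGlue := fun hG hK => ⟨exBase hG hK, exStep hG hK, exTop hG⟩

end Crest.Agent.T157.Zf
end

-- ▼ part T157/LmNlC_38
section

/-!
# Row 157, block B/S5 (helper38): exponential moments of Lipschitz families, composition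
-/

set_option autoImplicit false

noncomputable section

namespace Crest.Agent.T157.Lm.NlC

open MeasureTheory ProbabilityTheory Real Filter Topology Finset
open Crest.Agent.R238.Gap (E)
open Crest.Agent.R253.Meh74 (gam)
open Crest.Agent.T157.Conc (gv ELip mgf_lip en_eq_norm)

variable {L n : ℕ}

lemma av_le {a : (Unit → Fin n) → ℝ} {c : ℝ} (hc : 0 ≤ c) (h : ∀ x, a x ≤ c) : av a ≤ c := by
  refine div_le_of_le_mul₀ (by positivity) hc ((sum_le_card_nsmul _ _ c fun x _ => h x).trans_eq ?_)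
  simp [mul_comm]

lemma root_sq (hS : SkStmt) {F : (Unit → Fin n) → E (Nv L n) → ℝ} (hm : ∀ x, Measurable (F x))
    (he : Eqv F) (x y : Unit → Fin n) : sq (F y) = sq (F x) := by
  have h := hS.mp L n (Equiv.swap (x ()) (y ()))
  have e : Equiv.swap (x ()) (y ()) ∘ x = y := funext fun _ => Equiv.swap_apply_left _ _
  rw [sq, ← h.map_eq, integral_map h.measurable.aemeasurable
    ((hm y).pow_const 2).aestronglyMeasurable, sq]
  simp only [← he (Equiv.swap (x ()) (y ())) x, e]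

lemma cosh_int {m : ℕ} {F : E m → ℝ} {B Q c : ℝ} (h : ∀ z z', |F z - F z'| ≤ B * ‖z - z'‖)
    (h2 : M2 F) (hQ : sq F ≤ Q ^ 2) (Q0 : 0 ≤ Q) (hc : Q ≤ c) (hB : |B| ≤ c) (c0 : 0 < c) :
    Integrable (fun z => cosh (F z / c)) (gam m) ∧ ∫ z, cosh (F z / c) ∂gam m ≤ exp 2 := by
  have mp : MeasurePreserving (WithLp.toLp 2 : (Fin m → ℝ) → E m) (gv (Fin m)) (gam m) :=
    ⟨by fun_prop, map_pi_eq_stdGaussian⟩
  have hG : ELip B fun x : Fin m → ℝ => F (WithLp.toLp 2 x) := fun x y => by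
    rw [en_eq_norm]; exact h _ _
  have tr : ∀ g : ℝ → ℝ, Measurable g → ∫ z, g (F z) ∂gam m = ∫ x, g (F (WithLp.toLp 2 x)) ∂gv _ :=
    fun g hg => by
      rw [← mp.map_eq]
      exact integral_map mp.measurable.aemeasurable (hg.comp h2.1).aestronglyMeasurable
  set μ := ∫ x, F (WithLp.toLp 2 x) ∂gv (Fin m) with hμ
  have m1 : |μ| ≤ c := by
    have := variance_nonneg F (gam m)
    rw [variance_eq_sub h2.2, tr (fun u => u) measurable_id'] at this
    exact (abs_le_of_sq_le_sq (by simp only [sq, Pi.pow_apply] at this hQ; linarith) Q0).trans hc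
  have k : ∀ s : ℝ, |s| ≤ c⁻¹ → Integrable (fun z => exp (s * F z)) (gam m) ∧
      ∫ z, exp (s * F z) ∂gam m ≤ exp 2 := fun s hs => by
    refine ⟨(mp.integrable_comp (by have := h2.1; fun_prop)).1 (hG.integrable_exp s), ?_⟩
    have e : ∀ u, exp (s * u) = exp (s * μ) * exp (s * (u - μ)) := fun u => by
      rw [← exp_add]; congr 1; ring
    rw [tr (fun u => exp (s * u)) (by fun_prop)]
    rw [funext fun x => e (F (WithLp.toLp 2 x)), integral_const_mul]
    refine (mul_le_mul_of_nonneg_left (mgf_lip hG s) (exp_pos _).le).trans ?_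
    have a : ∀ u, |u| ≤ c → |s * u| ≤ 1 := fun u hu => by
      rw [abs_mul]
      exact (mul_le_mul hs hu (abs_nonneg _) (by positivity)).trans_eq (inv_mul_cancel₀ c0.ne')
    have b := (sq_le_one_iff_abs_le_one _).2 (a B hB)
    rw [← exp_add]
    exact exp_le_exp.2 (by nlinarith [(le_abs_self _).trans (a μ m1)])
  obtain ⟨i1, j1⟩ := k c⁻¹ (abs_of_pos (inv_pos.2 c0)).le
  obtain ⟨i2, j2⟩ := k (-c⁻¹) (by rw [abs_neg]; exact (abs_of_pos (inv_pos.2 c0)).le)
  have e : (fun z => cosh (F z / c)) = fun z => (exp (c⁻¹ * F z) + exp (-c⁻¹ * F z)) / 2 := by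
    funext z; rw [cosh_eq, div_eq_inv_mul (F z), neg_mul]
  rw [e, integral_div, integral_add i1 i2]
  exact ⟨(i1.add i2).div_const 2, by linarith⟩

theorem subLip (hS : SkStmt) : ∀ L (X : F1 L) (B : ℝ), Adm X → Bd X →
    (∀ᶠ n in atTop, ∀ x z z', |X n x z - X n x z'| ≤ B * ‖z - z'‖) → SubE X := by
  intro L X B hA ⟨B0, hB⟩ hl
  have e0 := exp_pos 2
  have s0 := sqrt_nonneg |B0|
  have a0 := abs_nonneg B
  refine ⟨√|B0| + |B| + exp 2, by positivity, ?_⟩
  filter_upwards [hA, hB, hl, eventually_gt_atTop 0] with n hA hB hl hn x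
  have e : n2 X n = sq (X n x) := by
    have : (n : ℝ) ≠ 0 := by positivity
    simp only [n2, av, fun y => root_sq hS (fun x => (hA.1 x).1) hA.2 x y]
    simp [this]
  obtain ⟨h1, h2⟩ := cosh_int (c := √|B0| + |B| + exp 2) (hl x) (hA.1 x) (Q := √|B0|) (by
    rw [sq_sqrt (abs_nonneg _), ← e]; exact hB.trans (le_abs_self _)) s0 (by linarith) (by linarith)
    (by positivity)
  exact ⟨h1, by linarith⟩

lemma abs_arcsin_sin (u : ℝ) : |arcsin (sin u)| ≤ |u| := by
  rcases le_total |u| (π / 2) with h | h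
  · rw [arcsin_sin (abs_le.1 h).1 (abs_le.1 h).2]
  · exact (abs_le.2 ⟨neg_pi_div_two_le_arcsin _, arcsin_le_pi_div_two _⟩).trans h

lemma four_le {B : ℝ} (hB : 0 < B) (u : ℝ) : u ^ 4 ≤ 48 * B ^ 4 * cosh (u / B) := by
  have h := pow_div_factorial_le_exp |u / B| (abs_nonneg _) 4
  have h2 : exp |u / B| ≤ 2 * cosh (u / B) := by
    rw [← cosh_abs, cosh_eq]; linarith [exp_pos (-|u / B|)]
  rw [Even.pow_abs (by decide), div_pow, div_div, div_le_iff₀ (by positivity)] at h
  have := mul_le_mul_of_nonneg_right h2 (show 0 ≤ B ^ 4 * ((4 : ℕ).factorial : ℝ) by positivity)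
  norm_num [Nat.factorial] at h this
  linarith

lemma err_le {d : ℕ} {M θ : ℝ} {ψ : (Fin d → ℝ) → ℝ} (hψ : ∀ u, |ψ u| ≤ M * (1 + ‖u‖))
    (θ0 : 0 < θ) (θ1 : θ ≤ 1) (u : Fin d → ℝ) :
    (ψ u - ψ fun l => arcsin (sin (θ * u l)) / θ) ^ 2 ≤ 16 * M ^ 2 * θ ^ 2 * ∑ l, u l ^ 4 := by
  have M0 : 0 ≤ M := by simpa using (abs_nonneg _).trans (hψ 0)
  rcases le_total (θ * ‖u‖) 1 with h | h
  · have : (fun l => arcsin (sin (θ * u l)) / θ) = u := funext fun l => by
      have : |θ * u l| ≤ π / 2 := by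
        rw [abs_mul, abs_of_pos θ0]
        linarith [mul_le_mul_of_nonneg_left (show |u l| ≤ _ from norm_le_pi_norm u l) θ0.le,
          pi_gt_three]
      rw [arcsin_sin (abs_le.1 this).1 (abs_le.1 this).2, mul_div_cancel_left₀ _ θ0.ne']
    rw [this, sub_self, zero_pow two_ne_zero]
    positivity
  have u0 := norm_nonneg u
  have h1 : ‖fun l => arcsin (sin (θ * u l)) / θ‖ ≤ ‖u‖ := (pi_norm_le_iff_of_nonneg u0).2 fun l => by
    rw [norm_eq_abs, abs_div, abs_of_pos θ0, div_le_iff₀' θ0]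
    refine (abs_arcsin_sin _).trans ?_
    rw [abs_mul, abs_of_pos θ0]
    exact mul_le_mul_of_nonneg_left (norm_le_pi_norm u l) θ0.le
  have h2 : ‖u‖ ^ 4 ≤ ∑ l, u l ^ 4 := by
    rcases isEmpty_or_nonempty (Fin d) with e | e
    · simp [Subsingleton.elim u 0]
    obtain ⟨l, hl⟩ := Finite.exists_max fun l => ‖u l‖
    refine (pow_le_pow_left₀ u0 ((pi_norm_le_iff_of_nonneg (norm_nonneg _)).2 hl) 4).trans ?_
    rw [norm_eq_abs, Even.pow_abs (by decide)]
    exact single_le_sum (f := fun l => u l ^ 4) (fun l _ => by positivity) (mem_univ l)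
  have h3 : 1 + ‖u‖ ≤ 2 * θ * ‖u‖ ^ 2 := by nlinarith [mul_le_mul_of_nonneg_right θ1 u0]
  have h4 : |ψ u - ψ fun l => arcsin (sin (θ * u l)) / θ| ≤ 4 * M * θ * ‖u‖ ^ 2 := by
    refine (abs_sub _ _).trans ?_
    linarith [hψ u, hψ fun l => arcsin (sin (θ * u l)) / θ, mul_le_mul_of_nonneg_left h1 M0,
      mul_le_mul_of_nonneg_left h3 M0]
  rw [← sq_abs]
  refine (pow_le_pow_left₀ (abs_nonneg _) h4 2).trans ?_
  linarith [mul_le_mul_of_nonneg_left h2 (show 0 ≤ 16 * M ^ 2 * θ ^ 2 by positivity)]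

lemma m2_comp {m d : ℕ} {X : Fin d → E m → ℝ} {M : ℝ} {ψ : (Fin d → ℝ) → ℝ} (h : ∀ l, M2 (X l))
    (hc : Continuous ψ) (hψ : ∀ u, |ψ u| ≤ M * (1 + ‖u‖)) : M2 fun z => ψ fun l => X l z := by
  have M0 : 0 ≤ M := by simpa using (abs_nonneg _).trans (hψ 0)
  have me : Measurable fun z => ψ fun l => X l z :=
    hc.measurable.comp (measurable_pi_lambda (fun z l => X l z) fun l => (h l).1)
  have k0 : MemLp (fun z => ∑ l, |X l z|) 2 (gam m) :=
    memLp_finsetSum (f := fun l z => |X l z|) univ fun l _ => (h l).2.abs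
  have k1 := (MemLp.add (memLp_const (1 : ℝ)) k0).const_mul M
  refine ⟨me, k1.mono' me.aestronglyMeasurable (ae_of_all _ fun z =>
    (hψ _).trans (mul_le_mul_of_nonneg_left (add_le_add le_rfl ?_) M0))⟩
  exact (pi_norm_le_iff_of_nonneg (sum_nonneg fun _ _ => abs_nonneg _)).2 fun l =>
    single_le_sum (f := fun l => |X l z|) (fun _ _ => abs_nonneg _) (mem_univ l)

theorem comp (hR : RtStmt) (hL : LinStmt)
    (hmul : ∀ L (a v : F1 L) (M : ℝ), Cl a → Cl v → (∀ᶠ n in atTop, ∀ x z, |a n x z| ≤ M) →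
      Cl (a * v))
    (hsin : ∀ L (X : F1 L), Cl X → SubE X →
      ∀ᶠ θ : ℝ in 𝓝 0, Cl fun n x z => Real.sin (θ * X n x z)) :
    ∀ L (d : ℕ) (X : Fin d → F1 L) (M : ℝ) (ψ : (Fin d → ℝ) → ℝ), (∀ l, Cl (X l)) →
    (∀ l, SubE (X l)) → Continuous ψ → (∀ u, |ψ u| ≤ M * (1 + ‖u‖)) →
    Cl fun n x z => ψ fun l => X l n x z := by
  intro L d X M ψ hX hE hc hψ
  refine hL.closed L Unit _ ((eventually_all.2 fun l => (hX l).1).mono fun n h =>
    ⟨fun x => m2_comp (fun l => (h l).1 x) hc hψ,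
      fun p x z => by simp only [fun l => (h l).2 p x z]⟩) fun ε ε0 => ?_
  choose B B0 hB using hE
  set Q := ∑ l, 48 * B l ^ 4 * B l with hQ
  have t1 : ∀ᶠ θ : ℝ in 𝓝 0, 32 * M ^ 2 * θ ^ 2 * Q < ε / 2 :=
    (by fun_prop : Continuous fun θ : ℝ => 32 * M ^ 2 * θ ^ 2 * Q).continuousAt.eventually
      (gt_mem_nhds (by simpa using ε0))
  obtain ⟨θ, ⟨hs, h1⟩, θ0, θ1⟩ := ((((eventually_all.2 fun l => hsin L _ (hX l)
    ⟨B l, B0 l, hB l⟩).and t1).filter_mono nhdsWithin_le_nhds).and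
      (Ioo_mem_nhdsGT (zero_lt_one' ℝ))).exists
  let U : ∀ n, (Unit → Fin n) → E (Nv L n) → Fin d → Set.Icc (-1 : ℝ) 1 :=
    fun n x z l => ⟨sin (θ * X l n x z), sin_mem_Icc _⟩
  let A : Subalgebra ℝ C(Fin d → Set.Icc (-1 : ℝ) 1, ℝ) :=
    { carrier := {g | Cl fun n x z => g (U n x z)}
      mul_mem' := fun {f g} hf hg => hmul L _ _ ‖f‖ hf hg
        (Eventually.of_forall fun n x z => f.norm_coe_le_norm _)
      add_mem' := fun hf hg => hL.add L Unit _ _ hf hg
      algebraMap_mem' := fun c => hL.rp L Unit _ (RP.const (hR.const c))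
        ⟨c ^ 2, Eventually.of_forall fun n => av_le (sq_nonneg c) fun x => by simp [sq]⟩ }
  have sep : A.SeparatesPoints := fun u v huv => by
    obtain ⟨l, hl⟩ := Function.ne_iff.1 huv
    exact ⟨_, ⟨⟨fun w => (w l : ℝ), by fun_prop⟩, hs l, rfl⟩, Subtype.coe_injective.ne hl⟩
  obtain ⟨g, hg⟩ := ContinuousMap.exists_mem_subalgebra_near_continuous_of_separatesPoints A sep
    (fun u => ψ fun l => arcsin (u l) / θ) (hc.comp (by fun_prop)) (√ε / 2) (by positivity)
  refine ⟨_, g.2, ?_⟩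
  filter_upwards [eventually_all.2 hB] with n hB
  refine av_le ε0.le fun x => ?_
  have i1 : Integrable (fun z => 32 * M ^ 2 * θ ^ 2 * ∑ l, 48 * B l ^ 4 * cosh (X l n x z / B l))
      (gam _) := (integrable_finsetSum _ fun l _ => (hB l x).1.const_mul _).const_mul _
  refine (integral_mono_of_nonneg (ae_of_all _ fun z => sq_nonneg _)
    (i1.add (integrable_const (ε / 2))) (ae_of_all _ fun z => ?_)).trans ?_
  · have a := err_le hψ θ0 θ1.le fun l => X l n x z
    have b := pow_le_pow_left₀ (norm_nonneg _) (hg (U n x z)).le 2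
    rw [norm_eq_abs, sq_abs, div_pow, sq_sqrt ε0.le] at b
    have c := mul_le_mul_of_nonneg_left (sum_le_sum fun l (_ : l ∈ univ) =>
      four_le (B0 l) (X l n x z)) (show 0 ≤ 16 * M ^ 2 * θ ^ 2 by positivity)
    simp only [Pi.sub_apply, Pi.add_apply, U] at b ⊢
    nlinarith [sq_nonneg ((ψ fun l => X l n x z) + g.1 (U n x z) -
      2 * ψ fun l => arcsin (sin (θ * X l n x z)) / θ)]
  · rw [integral_add' i1 (integrable_const _), integral_const_mul, integral_finsetSum _
      fun l _ => (hB l x).1.const_mul _]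
    have : ∑ l, ∫ z, 48 * B l ^ 4 * cosh (X l n x z / B l) ∂gam _ ≤ Q := sum_le_sum fun l _ => by
      rw [integral_const_mul]
      exact mul_le_mul_of_nonneg_left (hB l x).2 (by positivity)
    simp only [integral_const, probReal_univ, one_smul]
    linarith [mul_le_mul_of_nonneg_left this (show 0 ≤ 32 * M ^ 2 * θ ^ 2 by positivity)]

end Crest.Agent.T157.Lm.NlC

end
end

-- ▼ part T157/LmNl_84
section

/-!
# Row 157, block B/S5 (helper84): `NlGlue`
-/

set_option autoImplicit false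

namespace Crest.Agent.T157.Lm

theorem nlGlue : NlGlue := fun hH hR hS hP hL =>
  ⟨Nl.mul hH hS hP hL, NlC.subLip hS, Nl.sin hH hS hP hL hR,
    NlC.comp hR hL (Nl.mul hH hS hP hL) (Nl.sin hH hS hP hL hR), NlB.jv hH hR hS hP hL,
    NlB.avg hH hR hS hP hL⟩

end Crest.Agent.T157.Lm
end

-- ▼ part T157/LmOn_59
section

/-!
# Row 157, block B/S5 (helper59): `Lm.OnGlue` (Gram–Schmidt for rational polynomial families)
-/

set_option autoImplicit false

noncomputable section

namespace Crest.Agent.T157.Lm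

open MeasureTheory Real Filter Topology Finset
open Crest.Agent.R238.Gap (E)
open Crest.Agent.R253.Meh74 (gam)
open Crest.Agent.T157.Hm (Pl C0)

namespace On59

variable {L : ℕ} {C : Type} [Fintype C] [DecidableEq C]

theorem ipx_eq (F G : Fam L C) (n : ℕ) : ipx F G n = av fun x => Hm.ip (F n x) (G n x) := rfl

theorem n2_eq (F : Fam L C) : n2 F = ipx F F := by
  funext n; simp only [n2, ipx, sq, pow_two]

theorem ipx_comm (F G : Fam L C) (n : ℕ) : ipx F G n = ipx G F n := by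
  simp only [ipx, mul_comm]

theorem ipx_nonneg (F : Fam L C) (n : ℕ) : 0 ≤ ipx F F n :=
  div_nonneg (sum_nonneg fun _ _ => Hm.ip_self_nonneg _) (by positivity)

theorem ipx_smul (a : ℕ → ℝ) (F G : Fam L C) (n : ℕ) :
    ipx (fun n x z => a n * F n x z) G n = a n * ipx F G n := by
  simp only [ipx_eq, Hm.ip_smul, av, ← mul_sum, mul_div_assoc]

theorem ipx_res {ι : Type} [Fintype ι] (a : ι → ℕ → ℝ) (F G : Fam L C) (e : ι → Fam L C) (n : ℕ)
    (hF : ∀ x, C0 (F n x)) (hG : ∀ x, C0 (G n x)) (he : ∀ j x, C0 (e j n x)) :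
    ipx (F - fun n x z => ∑ j, a j n * e j n x z) G n = ipx F G n - ∑ j, a j n * ipx (e j) G n := by
  have h : ∀ x, Hm.ip ((F - fun n x z => ∑ j, a j n * e j n x z) n x) (G n x) =
      Hm.ip (F n x) (G n x) - ∑ j, a j n * Hm.ip (e j n x) (G n x) := fun x => by
    have h1 : ∀ j ∈ (univ : Finset ι), C0 fun z => a j n * e j n x z :=
      fun j _ => (Hm.c0_const _).mul (he j x)
    have h2 := Hm.ip_sub (hF x) (C0.sum univ h1) (hG x)
    rw [Hm.ip_sum univ h1 (hG x)] at h2
    simp only [Hm.ip_smul] at h2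
    exact h2
  simp only [ipx_eq, h, av, sum_sub_distrib, sub_div, ← mul_div_assoc, ← sum_div, mul_sum]
  rw [sum_comm]

theorem eq_zero {F : Fam L C} {n : ℕ} (hn : 0 < n) (hF : ∀ x, C0 (F n x)) (h : ipx F F n = 0) :
    F n = 0 := by
  have h1 : (0 : ℝ) < (n : ℝ) ^ Fintype.card C := by positivity
  rw [ipx_eq, av, div_eq_zero_iff, or_iff_left h1.ne',
    sum_eq_zero_iff_of_nonneg fun _ _ => Hm.ip_self_nonneg _] at h
  exact funext fun x => Hm.eq_zero_of_ip (hF x) (h x (mem_univ x))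

omit [Fintype C] [DecidableEq C] in
theorem ev_c0 (hp : RpStmt) {F : Fam L C} (hF : RP C F) : ∀ᶠ n in atTop, ∀ x, C0 (F n x) :=
  let ⟨_, h⟩ := hp.deg L C F hF
  h.mono fun _ h x => Hm.c0 (h x)

theorem rt_ipx (ha : RatStmt) {F G : Fam L C} (hF : RP C F) (hG : RP C G) : Rt (ipx F G) :=
  ha.int L C _ (hF.mul hG)

/-- an asymptotically orthonormal family -/
structure ON {M : ℕ} (e : Fin M → Fam L C) : Prop where
  rp : ∀ j, RP C (e j)
  one : ∀ j, Tendsto (n2 (e j)) atTop (𝓝 1)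
  orth : ∀ᶠ n in atTop, ∀ i j, i ≠ j → ipx (e i) (e j) n = 0

/-- one Gram–Schmidt step -/
theorem step (hr : RtStmt) (hp : RpStmt) (ha : RatStmt) {M : ℕ} {e : Fin M → Fam L C} (he : ON e)
    {g : Fam L C} (hg : RP C g) : ∃ (M' : ℕ) (e' : Fin M' → Fam L C), ON e' ∧ ∀ᶠ n in atTop,
      g n ∈ Submodule.span ℝ (Set.range fun j => e' j n) ∧
      Submodule.span ℝ (Set.range fun j => e j n) ≤ Submodule.span ℝ (Set.range fun j => e' j n) := by
  set r : Fin M → ℕ → ℝ := fun j n => ipx g (e j) n * (ipx (e j) (e j) n)⁻¹ with hr'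
  set g' : Fam L C := g - fun n x z => ∑ j, r j n * e j n x z with hg'
  have p1 : RP C g' := hp.sub L C _ _ hg (hp.fsum L C _ univ (fun j n x z => r j n * e j n x z)
    fun j _ => hp.smul L C _ _ (hr.mul _ _ (rt_ipx ha hg (he.rp j))
      (hr.inv _ (rt_ipx ha (he.rp j) (he.rp j)))) (he.rp j))
  have hs : ∀ n, g n = g' n + ∑ j, r j n • e j n := fun n => by
    funext x z; simp [hg', Finset.sum_apply]
  have hs' : ∀ n, ∑ j, r j n • e j n ∈ Submodule.span ℝ (Set.range fun j => e j n) := fun n =>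
    Submodule.sum_mem _ fun j _ => Submodule.smul_mem _ _ (Submodule.subset_span ⟨j, rfl⟩)
  have p2 : ∀ᶠ n in atTop, ∀ i, ipx g' (e i) n = 0 := by
    filter_upwards [ev_c0 hp hg, eventually_all.2 fun j => ev_c0 hp (he.rp j), he.orth,
      eventually_all.2 fun j => (he.one j).eventually_ne one_ne_zero] with n h1 h2 h3 h4 i
    rw [hg', ipx_res r g (e i) e n h1 (h2 i) h2, sum_eq_single i
      (fun j _ hj => by rw [h3 j i hj, mul_zero]) (fun h => absurd (mem_univ i) h), hr']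
    have := h4 i
    rw [n2_eq] at this
    simp only [inv_mul_cancel_right₀ this, sub_self]
  rcases hr.dich _ (rt_ipx ha p1 p1) with h | ⟨s, κ, h0, h⟩
  · refine ⟨M, e, he, ?_⟩
    filter_upwards [h, ev_c0 hp p1, eventually_gt_atTop 0] with n h1 h2 h3
    rw [hs n, eq_zero h3 h2 h1, zero_add]
    exact ⟨hs' n, le_rfl⟩
  have hκ : 0 < κ := lt_of_le_of_ne (ge_of_tendsto' h fun n =>
    div_nonneg (ipx_nonneg _ _) (rpow_nonneg (Nat.cast_nonneg _) _)) h0.symm
  set c : ℕ → ℝ := fun n => (√κ)⁻¹ * (n : ℝ) ^ (-s / 2) with hc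
  set f : Fam L C := fun n x z => c n * g' n x z with hf
  refine ⟨M + 1, Fin.cons f e, ⟨fun j => ?_, fun j => ?_, ?_⟩, ?_⟩
  · refine Fin.cases ?_ (fun j => he.rp j) j
    exact hp.smul L C _ _ (hr.mul _ _ (hr.const _) (hr.rpow _)) p1
  · refine Fin.cases ?_ (fun j => he.one j) j
    have h1 := h.div_const κ
    rw [div_self h0] at h1
    refine h1.congr' ((eventually_gt_atTop 0).mono fun n hn => ?_)
    have hn' : (0 : ℝ) < n := Nat.cast_pos.2 hn
    have h2 : c n * c n = ((n : ℝ) ^ s)⁻¹ * κ⁻¹ := by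
      simp only [hc]
      rw [mul_mul_mul_comm, ← rpow_add hn', ← mul_inv, mul_self_sqrt hκ.le, add_halves,
        rpow_neg hn'.le, mul_comm]
    simp only [Fin.cons_zero, n2_eq, hf]
    rw [ipx_smul, ipx_comm g' fun n x z => c n * g' n x z, ipx_smul, ← mul_assoc, h2]
    ring
  · filter_upwards [he.orth, p2] with n h1 h2 i j
    refine Fin.cases ?_ (fun i => ?_) i <;> refine Fin.cases ?_ (fun j => ?_) j <;> intro hij
    · exact absurd rfl hij
    · simp only [Fin.cons_zero, Fin.cons_succ, hf]; rw [ipx_smul, h2, mul_zero]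
    · simp only [Fin.cons_zero, Fin.cons_succ, hf]; rw [ipx_comm, ipx_smul, h2, mul_zero]
    · exact h1 i j fun h => hij (h ▸ rfl)
  · filter_upwards [eventually_gt_atTop 0] with n hn
    have hn' : (0 : ℝ) < n := Nat.cast_pos.2 hn
    have h1 : Submodule.span ℝ (Set.range fun j => e j n) ≤
        Submodule.span ℝ (Set.range fun j => (Fin.cons f e : Fin (M + 1) → Fam L C) j n) :=
      Submodule.span_mono (by rintro _ ⟨j, rfl⟩; exact ⟨j.succ, rfl⟩)
    have h2 : c n ≠ 0 := (mul_pos (inv_pos.2 (sqrt_pos.2 hκ)) (rpow_pos_of_pos hn' _)).ne'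
    have h3 : g' n = (c n)⁻¹ • f n := by
      funext x z; simp only [hf, Pi.smul_apply, smul_eq_mul, inv_mul_cancel_left₀ h2]
    refine ⟨?_, h1⟩
    rw [hs n, h3]
    exact Submodule.add_mem _ (Submodule.smul_mem _ _ (Submodule.subset_span ⟨0, rfl⟩)) (h1 (hs' n))

/-- Gram–Schmidt -/
theorem gs (hr : RtStmt) (hp : RpStmt) (ha : RatStmt) {ι : Type} {g : ι → Fam L C}
    (hg : ∀ i, RP C (g i)) (s : Finset ι) : ∃ (M : ℕ) (e : Fin M → Fam L C), ON e ∧
      ∀ᶠ n in atTop, ∀ i ∈ s, g i n ∈ Submodule.span ℝ (Set.range fun j => e j n) := by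
  classical
  induction s using Finset.induction_on with
  | empty => exact ⟨0, Fin.elim0, ⟨fun j => j.elim0, fun j => j.elim0,
      .of_forall fun _ j => j.elim0⟩, .of_forall fun _ i hi => absurd hi (notMem_empty i)⟩
  | insert i s _ ih =>
    obtain ⟨M, e, he, h⟩ := ih
    obtain ⟨M', e', he', h'⟩ := step hr hp ha he (hg i)
    refine ⟨M', e', he', (h.and h').mono fun n hn k hk => ?_⟩
    rcases mem_insert.1 hk with rfl | hk
    exacts [hn.2.1, hn.2.2 (hn.1 k hk)]

end On59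

open On59

theorem onGlue : OnGlue := by
  intro hr hp ha hs L C _ _ D
  obtain ⟨ι, _, g, hg, h⟩ := hs L C D
  obtain ⟨M, e, he, h'⟩ := gs hr hp ha hg univ
  refine ⟨M, e, he.rp, he.one, ?_⟩
  filter_upwards [he.orth, h', eventually_gt_atTop 0] with n h1 h2 hn
  refine ⟨h1, fun w hw hw' => ?_⟩
  obtain ⟨a, ha⟩ := h n hn w hw hw'
  have h3 : w = ∑ i, a i • g i n := by
    funext x z; simp [ha, Finset.sum_apply]
  obtain ⟨b, hb⟩ := Submodule.mem_span_range_iff_exists_fun ℝ |>.1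
    (show w ∈ Submodule.span ℝ (Set.range fun j => e j n) from h3 ▸ Submodule.sum_mem _
      fun i _ => Submodule.smul_mem _ _ (h2 i (mem_univ i)))
  exact ⟨b, fun x z => by rw [← hb]; simp [Finset.sum_apply]⟩

end Crest.Agent.T157.Lm

end
end

-- ▼ part T157/LmRat_87
section

/-!
# Row 157, block B/S5 (helper87): `Lm.RatGlue`

Normal forms of rational polynomial families, pattern functions, Gaussian moments of monomials.
-/

set_option autoImplicit false
set_option linter.unusedVariables false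
set_option linter.unusedSectionVars false

noncomputable section

namespace Crest.Agent.T157.Lm

open MeasureTheory ProbabilityTheory Real Filter Topology Finset
open Crest.Agent.R238.Gap (E)
open Crest.Agent.R253.Meh74 (gam)

namespace Rat87

/-! ### moments -/

def mom (k : ℕ) : ℝ := ∫ t, t ^ k ∂gaussianReal 0 1

lemma int_pow (k : ℕ) : Integrable (fun t : ℝ => t ^ k) (gaussianReal 0 1) :=
  integrable_pow_of_mem_interior_integrableExpSet (X := id) (by simp) k

open Classical in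
/-- the moment of a monomial with the coincidence pattern `ρ` -/
def Mo {W : Type} (s : Finset W) (ρ : W → W → Prop) : ℝ :=
  ∏ T ∈ s.image (fun r => s.filter fun r' => ρ r' r), mom T.card

lemma moment {W : Type} {m : ℕ} (s : Finset W) (f : W → Fin m) :
    Integrable (fun z : E m => ∏ r ∈ s, z (f r)) (gam m) ∧
      ∫ z : E m, ∏ r ∈ s, z (f r) ∂gam m = Mo s fun r r' => f r = f r' := by
  classical
  have mp : MeasurePreserving (MeasurableEquiv.toLp 2 (Fin m → ℝ))
      (Measure.pi fun _ => gaussianReal 0 1) (gam m) :=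
    ⟨(MeasurableEquiv.toLp 2 (Fin m → ℝ)).measurable, map_pi_eq_stdGaussian⟩
  have e : ∀ y : Fin m → ℝ, ∏ r ∈ s, y (f r) = ∏ j, y j ^ #{r ∈ s | f r = j} := fun y => by
    rw [prod_comp y f]
    refine prod_subset (subset_univ _) fun j _ hj => ?_
    rw [filter_eq_empty_iff.2 fun r hr h => hj (mem_image.2 ⟨r, hr, h⟩), card_empty, pow_zero]
  constructor
  · rw [← mp.integrable_comp_emb (MeasurableEquiv.measurableEmbedding _)]
    have := Integrable.fintype_prod (μ := fun _ : Fin m => gaussianReal 0 1)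
      fun j => int_pow #{r ∈ s | f r = j}
    exact this.congr (Eventually.of_forall fun y => (e y).symm)
  · rw [← mp.integral_comp']
    have h1 : ∫ y : Fin m → ℝ, ∏ r ∈ s, y (f r) ∂Measure.pi (fun _ => gaussianReal 0 1) =
        ∏ j, mom #{r ∈ s | f r = j} := by
      simp_rw [e]
      exact integral_fintype_prod_eq_prod (fun j (t : ℝ) => t ^ #{r ∈ s | f r = j})
    refine h1.trans ?_
    have h2 : Mo s (fun r r' => f r = f r') =
        ∏ T ∈ (s.image f).image (fun j => s.filter fun r => f r = j), mom T.card := by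
      rw [image_image, Mo]
      congr
      funext r
      simp only [Function.comp]
      congr
    rw [h2, prod_image]
    · refine (prod_subset (subset_univ _) fun j _ hj => ?_).symm
      rw [filter_eq_empty_iff.2 fun r hr h => hj (mem_image.2 ⟨r, hr, h⟩), card_empty]
      simp [mom]
    · intro j hj j' _ h
      obtain ⟨r, hr, rfl⟩ := mem_image.1 hj
      have h3 : r ∈ s.filter fun r' => f r' = j' := by
        have h4 : (s.filter fun r' => f r' = f r) = s.filter fun r' => f r' = j' := h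
        rw [← h4]; exact mem_filter.2 ⟨hr, rfl⟩
      exact (mem_filter.1 h3).2

/-! ### letters and patterns -/

abbrev Lt (L : ℕ) (C : Type) : Type := Sym2 C ⊕ Fin L × C

variable {L : ℕ} {C C' C'' : Type}

def lm (σ : C → C') : Lt L C → Lt L C' := Sum.map (Sym2.map σ) (Prod.map id σ)

lemma lm_comp (σ : C → C') (τ : C' → C'') (l : Lt L C) : lm (τ ∘ σ) l = lm τ (lm σ l) := by
  rcases l with e | p
  · induction e using Sym2.ind with | _ a b => rfl
  · rfl

lemma lm_inj {σ : C → C'} (h : Function.Injective σ) : Function.Injective (lm (L := L) σ) :=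
  (Sym2.map.injective h).sumMap (Function.injective_id.prodMap h)

/-- the pattern of coincidences -/
def kr (x : C → C') : C → C → Prop := fun a b => x a = x b

def rel (κ : C → C → Prop) (l l' : Lt L C) : Prop := lm (Quot.mk κ) l = lm (Quot.mk κ) l'

lemma rel_kr (x : C → C') (l l' : Lt L C) : lm x l = lm x l' ↔ rel (kr x) l l' := by
  have hj : Function.Injective (Quot.lift (r := kr x) x fun _ _ h => h) := by
    rintro ⟨a⟩ ⟨b⟩ h
    exact Quot.sound h
  have e : x = (Quot.lift (r := kr x) x fun _ _ h => h) ∘ Quot.mk (kr x) := rfl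
  rw [rel, ← (lm_inj hj).eq_iff, ← lm_comp, ← lm_comp, ← e]

lemma moment' {W : Type} {n : ℕ} (s : Finset W) (w : W → Lt L C) (x : C → Fin n) :
    Integrable (fun z : E (Nv L n) => ∏ r ∈ s, co z (lm x (w r))) (gam _) ∧
      ∫ z : E (Nv L n), ∏ r ∈ s, co z (lm x (w r)) ∂gam _ =
        Mo s fun r r' => rel (kr x) (w r) (w r') := by
  have h := moment s fun r => ix L n (lm x (w r))
  simp only [EmbeddingLike.apply_eq_iff_eq, rel_kr] at h
  exact h

/-- pattern functions -/
def PF (C : Type) (g : ∀ n, (C → Fin n) → ℝ) : Prop := ∃ G : (C → C → Prop) → ℕ → ℝ,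
  (∀ κ, Rt (G κ)) ∧ ∀ᶠ n in atTop, ∀ x, g n x = G (kr x) n

lemma PF.congr {g g' : ∀ n, (C → Fin n) → ℝ} (h : PF C g) (e : ∀ᶠ n in atTop, ∀ x, g n x = g' n x) :
    PF C g' := by
  obtain ⟨G, h1, h2⟩ := h
  exact ⟨G, h1, (h2.and e).mono fun n h x => (h.2 x).symm.trans (h.1 x)⟩

lemma PF.add (T : RtStmt) {g g' : ∀ n, (C → Fin n) → ℝ} (h : PF C g) (h' : PF C g') :
    PF C fun n x => g n x + g' n x := by
  obtain ⟨G, h1, h2⟩ := h
  obtain ⟨G', h1', h2'⟩ := h'
  exact ⟨fun κ n => G κ n + G' κ n, fun κ => T.add _ _ (h1 κ) (h1' κ),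
    (h2.and h2').mono fun n h x => by beta_reduce; rw [h.1, h.2]⟩

lemma PF.reindex {g : ∀ n, (C → Fin n) → ℝ} (h : PF C g) (σ : C → C') :
    PF C' fun n y => g n (y ∘ σ) := by
  obtain ⟨G, h1, h2⟩ := h
  exact ⟨fun κ => G fun a b => κ (σ a) (σ b), fun κ => h1 _, h2.mono fun n h y => h _⟩

lemma rt_nat (T : RtStmt) (k : ℕ) : Rt fun n => (n : ℝ) ^ k :=
  T.congr _ _ (T.rpow k) (Eventually.of_forall fun n => rpow_natCast _ _)

/-- a new site -/
def nw (κ : C → C → Prop) : Option C → Option C → Prop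
  | none, none => True
  | some a, some b => κ a b
  | _, _ => False

lemma sum_split [Fintype C] {n : ℕ} (x : C → Fin n) (φ : Fin n → ℝ) (c : ℝ)
    (h : ∀ i, (∀ a, x a ≠ i) → φ i = c) :
    ∑ i, φ i = ∑ a, (φ (x a) - c) * ((#{b | x b = x a} : ℕ) : ℝ)⁻¹ + n * c := by
  have h1 : ∑ a, (φ (x a) - c) * ((#{b | x b = x a} : ℕ) : ℝ)⁻¹ = ∑ i, (φ i - c) := by
    rw [sum_comp (fun i => (φ i - c) * ((#{b | x b = i} : ℕ) : ℝ)⁻¹) x]
    rw [← sum_subset (subset_univ (univ.image x)) fun i _ hi => by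
      rw [h i fun a ha => hi (mem_image.2 ⟨a, mem_univ a, ha⟩), sub_self]]
    refine sum_congr rfl fun i hi => ?_
    obtain ⟨a, -, rfl⟩ := mem_image.1 hi
    have : ((#{b | x b = x a} : ℕ) : ℝ) ≠ 0 :=
      Nat.cast_ne_zero.2 (card_ne_zero.2 ⟨a, by simp⟩)
    rw [nsmul_eq_mul]
    field_simp
  rw [h1, sum_sub_distrib]
  simp

lemma PF.sum (T : RtStmt) [Finite C] {g : ∀ n, (Option C → Fin n) → ℝ} (h : PF (Option C) g) :
    PF C fun n x => ∑ i, g n fun o => o.elim i x := by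
  classical
  have := Fintype.ofFinite C
  obtain ⟨G, h1, h2⟩ := h
  refine ⟨fun κ n => ∑ a, (G (fun o o' => κ (o.getD a) (o'.getD a)) n + -1 * G (nw κ) n) *
    ((#{b | κ b a} : ℕ) : ℝ)⁻¹ + (n : ℝ) ^ 1 * G (nw κ) n, fun κ => T.add _ _ (T.sum _ _ _ fun a _ =>
      T.mul _ _ (T.add _ _ (h1 _) (T.mul _ _ (T.const _) (h1 _))) (T.const _))
      (T.mul _ _ (rt_nat T 1) (h1 _)), h2.mono fun n h x => ?_⟩
  beta_reduce
  rw [sum_split x _ (G (nw (kr x)) n) fun i hi => ?_]
  · simp only [pow_one, neg_one_mul, ← sub_eq_add_neg]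
    congr 1
    refine sum_congr rfl fun a _ => ?_
    rw [h]
    congr 3
    · funext o o'
      cases o <;> cases o' <;> rfl
    · simp only [kr]
  · rw [h]
    congr 1
    funext o o'
    rcases o with _ | a <;> rcases o' with _ | b <;> simp [kr, nw, hi, (hi _).symm]

lemma PF.total (T : RtStmt) (C : Type) [Finite C] : ∀ [Fintype C] [DecidableEq C]
    (g : ∀ n, (C → Fin n) → ℝ), PF C g → Rt fun n => ∑ x, g n x := by
  refine Finite.induction_empty_option (P := fun C => ∀ [Fintype C] [DecidableEq C]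
    (g : ∀ n, (C → Fin n) → ℝ), PF C g → Rt fun n => ∑ x, g n x) ?_ ?_ ?_ C
  · intro α β e ih _ _ g hg
    classical
    have := Fintype.ofEquiv β e.symm
    refine T.congr _ _ (ih _ (hg.reindex e.symm)) (Eventually.of_forall fun n => ?_)
    exact Fintype.sum_equiv (e.arrowCongr (Equiv.refl _)) _ _ fun y => rfl
  · rintro _ _ g ⟨G, h1, h2⟩
    refine T.congr _ _ (h1 fun _ _ => True) (h2.mono fun n h => ?_)
    rw [Fintype.sum_unique, h]
    congr 1
    funext a
    exact a.elim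
  · intro α _ ih _ _ g hg
    classical
    refine T.congr _ _ (ih _ (hg.sum T)) (Eventually.of_forall fun n => ?_)
    rw [sum_comm, ← Fintype.sum_prod_type']
    refine Fintype.sum_equiv (Equiv.piOptionEquivProd (β := fun _ => Fin n)).symm _ _ fun p => ?_
    congr 1
    funext o
    cases o <;> rfl

lemma PF.rp (T : RtStmt) (R : RpStmt) [Finite C] {g : ∀ n, (C → Fin n) → ℝ} (h : PF C g) :
    RP (L := L) C fun n x _ => g n x := by
  classical
  have := Fintype.ofFinite C
  obtain ⟨G, h1, h2⟩ := h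
  have k : ∀ (κ : C → C → Prop) (p : C × C), RP (L := L) C fun n x _ =>
      if κ p.1 p.2 ↔ x p.1 = x p.2 then 1 else 0 := fun κ p => by
    by_cases hp : κ p.1 p.2
    · simpa [hp] using RP.eq (L := L) p.1 p.2
    · refine (R.sub L C _ _ (.const (T.const 1)) (.eq p.1 p.2)).congr
        (Eventually.of_forall fun n => ?_)
      funext x z
      by_cases hx : x p.1 = x p.2 <;> simp [hp, hx]
  refine (R.fsum L C _ univ _ fun κ _ => R.smul L C _ _ (h1 κ)
    (R.fprod L C _ univ _ fun p _ => k κ p)).congr (h2.mono fun n h => ?_)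
  funext x z
  rw [h, sum_eq_single (kr x)]
  · simp [kr]
  · intro κ _ hκ
    obtain ⟨p, hp⟩ : ∃ p : C × C, ¬(κ p.1 p.2 ↔ x p.1 = x p.2) := by
      by_contra hc
      push Not at hc
      exact hκ (funext fun a => funext fun b => propext (hc (a, b)))
    rw [prod_eq_zero (mem_univ p) (if_neg hp), mul_zero]
  · simp

/-! ### normal forms -/

inductive NF : (C : Type) → Fam L C → Prop
  | mono {C W : Type} [Fintype W] (w : W → Lt L C) {G : (C → C → Prop) → ℕ → ℝ} :
      (∀ κ, Rt (G κ)) → NF C fun n x z => G (kr x) n * ∏ r, co z (lm x (w r))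
  | add {C : Type} {F G : Fam L C} : NF C F → NF C G → NF C fun n x z => F n x z + G n x z
  | sum {C : Type} {F : Fam L (Option C)} : NF (Option C) F →
      NF C fun n x z => ∑ i, F n (fun o => o.elim i x) z
  | congr {C : Type} {F G : Fam L C} : NF C F → (∀ᶠ n in atTop, F n = G n) → NF C G

lemma NF.eq {F G : Fam L C} (h : NF C F) (e : ∀ n x z, F n x z = G n x z) : NF C G :=
  h.congr (Eventually.of_forall fun n => funext fun x => funext (e n x))

lemma NF.reindex {F : Fam L C} (h : NF C F) : ∀ (C' : Type) (σ : C → C'),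
    NF C' fun n y z => F n (y ∘ σ) z := by
  induction h with
  | @mono C W _ w G hG =>
    intro C' σ
    exact (NF.mono (fun r => lm σ (w r)) (G := fun κ => G fun a b => κ (σ a) (σ b))
      fun κ => hG _).eq fun n y z => by simp only [lm_comp]; rfl
  | add _ _ ih ih' => exact fun C' σ => (ih C' σ).add (ih' C' σ)
  | sum _ ih =>
    intro C' σ
    refine (ih _ (Option.map σ)).sum.eq fun n y z => sum_congr rfl fun i _ => ?_
    congr 1
    funext o
    cases o <;> rfl
  | congr _ e ih => exact fun C' σ => (ih C' σ).congr (e.mono fun n h => by rw [h])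

lemma NF.mul_mono (T : RtStmt) {F : Fam L C} (h : NF C F) : ∀ (W : Type) [Fintype W]
    (w : W → Lt L C) (G : (C → C → Prop) → ℕ → ℝ), (∀ κ, Rt (G κ)) →
    NF C fun n x z => (G (kr x) n * ∏ r, co z (lm x (w r))) * F n x z := by
  induction h with
  | @mono C W' _ w' G' hG' =>
    intro W _ w G hG
    refine (NF.mono (Sum.elim w w') (G := fun κ n => G κ n * G' κ n)
      fun κ => T.mul _ _ (hG κ) (hG' κ)).eq fun n x z => ?_
    simp only [Fintype.prod_sum_type, Sum.elim_inl, Sum.elim_inr]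
    ring
  | add _ _ ih ih' =>
    exact fun W _ w G hG => ((ih W w G hG).add (ih' W w G hG)).eq fun n x z => (mul_add _ _ _).symm
  | sum _ ih =>
    intro W _ w G hG
    refine (ih W (fun r => lm some (w r)) (fun κ => G fun a b => κ (some a) (some b))
      fun κ => hG _).sum.eq fun n x z => ?_
    rw [mul_sum]
    simp only [← lm_comp]
    rfl
  | congr _ e ih => exact fun W _ w G hG => (ih W w G hG).congr (e.mono fun n h => by rw [h])

lemma NF.mul (T : RtStmt) {F : Fam L C} (h : NF C F) : ∀ H : Fam L C, NF C H →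
    NF C fun n x z => F n x z * H n x z := by
  induction h with
  | mono w hG => exact fun H hH => hH.mul_mono T _ w _ hG
  | add _ _ ih ih' => exact fun H hH => ((ih H hH).add (ih' H hH)).eq fun n x z => (add_mul _ _ _).symm
  | sum _ ih =>
    exact fun H hH => (ih _ (hH.reindex _ some)).sum.eq fun n x z => by
      beta_reduce
      rw [sum_mul]
      rfl
  | congr _ e ih => exact fun H hH => (ih H hH).congr (e.mono fun n h => by rw [h])

lemma nf_of_rp (T : RtStmt) {F : Fam L C} (h : RP C F) : NF C F := by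
  classical
  induction h with
  | edge a b =>
    exact (NF.mono (fun _ : Unit => .inl s(a, b)) (G := fun _ _ => 1) fun _ => T.const 1).eq
      fun n x z => by simp [lm]
  | site l a =>
    exact (NF.mono (fun _ : Unit => .inr (l, a)) (G := fun _ _ => 1) fun _ => T.const 1).eq
      fun n x z => by simp [lm]
  | eq a b =>
    exact (NF.mono (W := Empty) Empty.elim (G := fun κ _ => if κ a b then 1 else 0)
      fun _ => T.const _).eq fun n x z => by simp [kr]
  | const hρ => exact (NF.mono (W := Empty) Empty.elim fun _ => hρ).eq fun n x z => by simp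
  | add _ _ ih ih' => exact ih.add ih'
  | mul _ _ ih ih' => exact ih.mul T _ ih'
  | sum _ ih => exact ih.sum
  | congr _ e ih => exact ih.congr e

lemma NF.int (T : RtStmt) {F : Fam L C} (h : NF C F) : Finite C →
    (∀ᶠ n in atTop, ∀ x, Integrable (F n x) (gam _)) ∧ PF C fun n x => ∫ z, F n x z ∂gam _ := by
  induction h with
  | @mono C W _ w G hG =>
    refine fun _ => ⟨Eventually.of_forall fun n x => (moment' univ w x).1.const_mul _,
      fun κ n => G κ n * Mo univ fun r r' => rel κ (w r) (w r'),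
      fun κ => T.mul _ _ (hG κ) (T.const _), Eventually.of_forall fun n x => ?_⟩
    beta_reduce
    rw [integral_const_mul, (moment' univ w x).2]
  | add _ _ ih ih' =>
    intro hC
    obtain ⟨h1, h2⟩ := ih hC
    obtain ⟨h3, h4⟩ := ih' hC
    exact ⟨(h1.and h3).mono fun n h x => (h.1 x).add (h.2 x), (h2.add T h4).congr
      ((h1.and h3).mono fun n h x => (integral_add (h.1 x) (h.2 x)).symm)⟩
  | sum _ ih =>
    intro hC
    obtain ⟨h1, h2⟩ := ih inferInstance
    exact ⟨h1.mono fun n h x => integrable_finsetSum _ fun i _ => h _, (h2.sum T).congr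
      (h1.mono fun n h x => (integral_finsetSum _ fun i _ => h _).symm)⟩
  | congr _ e ih =>
    intro hC
    obtain ⟨h1, h2⟩ := ih hC
    exact ⟨(h1.and e).mono fun n h x => h.2 ▸ h.1 x, h2.congr (e.mono fun n h x => by rw [h])⟩

lemma rp_letter (l : Lt L C) : RP C fun n x z => co z (lm x l) := by
  rcases l with e | p
  · induction e using Sym2.ind with | _ a b => exact .edge a b
  · exact .site p.1 p.2

lemma NF.ew (T : RtStmt) (S : SkStmt) (R : RpStmt) {F : Fam L C} (h : NF C F) : Finite C →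
    (∀ᶠ n in atTop, ∀ x z, Integrable (fun z' => F n x (mix z z')) (gam _)) ∧
      RP C fun n x z => ∫ z', F n x (mix z z') ∂gam _ := by
  induction h with
  | @mono C W _ w G hG =>
    intro hC
    have e : ∀ n (x : C → Fin n) (z z' : E (Nv L n)), G (kr x) n * ∏ r, co (mix z z') (lm x (w r)) =
        (G (kr x) n * ∏ r with (w r).isLeft, co z (lm x (w r))) *
          ∏ r with ¬(w r).isLeft, co z' (lm x (w r)) := fun n x z z' => by
      rw [mul_assoc, ← prod_ite]
      congr 1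
      refine prod_congr rfl fun r _ => ?_
      rw [mix, S.co_pt]
      rcases w r with e | p <;> rfl
    simp only [e]
    refine ⟨Eventually.of_forall fun n x z => (moment' _ w x).1.const_mul _, ?_⟩
    have h1 : PF C fun n x => G (kr x) n * Mo {r | ¬(w r).isLeft} fun r r' =>
        rel (kr x) (w r) (w r') := ⟨fun κ n => G κ n * Mo {r | ¬(w r).isLeft} fun r r' =>
        rel κ (w r) (w r'), fun κ => T.mul _ _ (hG κ) (T.const _),
        Eventually.of_forall fun n x => rfl⟩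
    refine ((h1.rp T R).mul (R.fprod L C W {r | (w r).isLeft} _ fun r _ => rp_letter (w r))).congr
      (Eventually.of_forall fun n => ?_)
    funext x z
    rw [integral_const_mul, (moment' _ w x).2]
    ring
  | add _ _ ih ih' =>
    intro hC
    obtain ⟨h1, h2⟩ := ih hC
    obtain ⟨h3, h4⟩ := ih' hC
    exact ⟨(h1.and h3).mono fun n h x z => (h.1 x z).add (h.2 x z), (h2.add h4).congr
      ((h1.and h3).mono fun n h => funext fun x => funext fun z =>
        (integral_add (h.1 x z) (h.2 x z)).symm)⟩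
  | sum _ ih =>
    intro hC
    obtain ⟨h1, h2⟩ := ih inferInstance
    exact ⟨h1.mono fun n h x z => integrable_finsetSum _ fun i _ => h _ z, h2.sum.congr
      (h1.mono fun n h => funext fun x => funext fun z =>
        (integral_finsetSum _ fun i _ => h _ z).symm)⟩
  | congr _ e ih =>
    intro hC
    obtain ⟨h1, h2⟩ := ih hC
    exact ⟨(h1.and e).mono fun n h x z => h.2 ▸ h.1 x z, h2.congr (e.mono fun n h => by rw [h])⟩

end Rat87

open Rat87

theorem ratGlue : RatGlue := fun T S R =>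
  ⟨fun L C _ _ F hF => T.congr _ _ (T.mul _ _ (PF.total T C _ ((nf_of_rp T hF).int T inferInstance).2)
      (T.inv _ (rt_nat T (Fintype.card C)))) (Eventually.of_forall fun n => (div_eq_mul_inv _ _).symm),
    fun L C _ _ F hF => ((nf_of_rp T hF).ew T S R inferInstance).2⟩

end Crest.Agent.T157.Lm

end
private theorem rz_81a0284f57 : type_of% @_root_.Crest.Agent.T157.Lm.Rat87.nw.eq_1 := @_root_.Crest.Agent.T157.Lm.Rat87.nw.eq_1 -- L136
end

-- ▼ part T157/LmResA_30
section

/-!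
# Row 157, block B/S5 (helper30): `L²` toolbox at fixed size, Galerkin estimate
-/

set_option autoImplicit false

noncomputable section

namespace Crest.Agent.T157.Lm.R30

open MeasureTheory Real Filter Topology Finset
open Crest.Agent.R238.Gap (E pd)
open Crest.Agent.R253.Meh74 (gam C1 c1_const)
open Crest.Agent.T157.Hm (Pl en ip C0 pr)
open Crest.Agent.T157.Rn (Tm)

/-! ### two nonnegative forms -/

section abs
variable {W : Type*} [AddCommGroup W] [Module ℝ W]

/-- symmetric and nonnegative -/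
structure Ps (Q : W →ₗ[ℝ] W →ₗ[ℝ] ℝ) : Prop where
  s : ∀ x y, Q x y = Q y x
  p : ∀ x, 0 ≤ Q x x

variable {I Q : W →ₗ[ℝ] W →ₗ[ℝ] ℝ}

lemma Ps.young (h : Ps Q) (x y : W) (t : ℝ) : 2 * t * Q x y ≤ Q x x + t ^ 2 * Q y y := by
  have := h.p (x - t • y)
  simp only [map_sub, map_smul, LinearMap.sub_apply, LinearMap.smul_apply, smul_eq_mul,
    h.s y x] at this
  linarith

lemma Ps.add_le (h : Ps Q) (x y : W) : Q (x + y) (x + y) ≤ 2 * Q x x + 2 * Q y y := by
  have := h.young x y 1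
  simp only [map_add, LinearMap.add_apply, h.s y x]
  linarith

lemma Ps.sub_le (h : Ps Q) (x y : W) : Q (x - y) (x - y) ≤ 2 * Q x x + 2 * Q y y := by
  have := h.young x y (-1)
  simp only [map_sub, LinearMap.sub_apply, h.s y x]
  linarith

lemma Ps.abs_le (h : Ps Q) (x y : W) : |Q x y| ≤ (Q x x + Q y y) / 2 :=
  _root_.abs_le.2 ⟨by linarith [h.young x y (-1)], by linarith [h.young x y 1]⟩

/-- **Galerkin estimate** -/
theorem gal (hQ : Ps Q) {ζ : ℝ} (hζ : 0 < ζ) (hI : ∀ x, ζ * I x x ≤ Q x x) {M : ℕ} {e : Fin M → W}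
    (ho : ∀ i j, i ≠ j → I (e i) (e j) = 0) (h1 : ∀ j, 1 / 2 ≤ I (e j) (e j)) (u : W)
    (a a' : Fin M → ℝ) : Q (u - ∑ j, a j • e j) (u - ∑ j, a j • e j) ≤
      8 / ζ * ∑ j, Q (∑ i, a i • e i - u) (e j) ^ 2 +
        6 * Q (u - ∑ j, a' j • e j) (u - ∑ j, a' j • e j) := by
  set v := ∑ j, (a j - a' j) • e j with hv
  set y := u - ∑ j, a' j • e j with hy
  set x := ∑ i, a i • e i - u with hx
  have e1 : v = x + y := by simp only [hv, hx, hy, sub_smul, sum_sub_distrib]; abel
  have e2 : u - ∑ j, a j • e j = y - v := by rw [e1, hx]; abel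
  have i1 : ∑ j, (a j - a' j) ^ 2 ≤ 2 * I v v := by
    rw [hv, map_sum, mul_sum]
    refine sum_le_sum fun j _ => ?_
    rw [map_smul, LinearMap.map_sum₂, sum_eq_single j (fun i _ hi => by simp [ho i j hi]) (by simp)]
    simp only [map_smul, LinearMap.smul_apply, smul_eq_mul]
    nlinarith [h1 j, sq_nonneg (a j - a' j)]
  have i2 : Q x v ≤ ζ / 8 * ∑ j, (a j - a' j) ^ 2 + 2 / ζ * ∑ j, Q x (e j) ^ 2 := by
    rw [hv, map_sum, mul_sum, mul_sum, ← sum_add_distrib]
    refine sum_le_sum fun j _ => ?_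
    rw [map_smul, smul_eq_mul]
    have : 0 ≤ 2 / ζ * (Q x (e j) - ζ / 4 * (a j - a' j)) ^ 2 := by positivity
    have e3 : 2 / ζ * (Q x (e j) - ζ / 4 * (a j - a' j)) ^ 2 = 2 / ζ * Q x (e j) ^ 2 -
      (a j - a' j) * Q x (e j) + ζ / 8 * (a j - a' j) ^ 2 := by field_simp; ring
    linarith
  have i3 := hQ.young y v (1 / 2)
  have i4 : Q v v = Q x v + Q y v := by
    conv_lhs => rw [show Q v = Q x + Q y by rw [e1, map_add]]
    rfl
  have i5 := hQ.sub_le y v
  have i6 := mul_le_mul_of_nonneg_left i1 (show 0 ≤ ζ / 8 by positivity)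
  have i7 := hI v
  rw [e2, show 8 / ζ = 4 * (2 / ζ) by ring]
  linarith

end abs

/-! ### square integrable functions -/

variable {m n : ℕ} {F G H : E m → ℝ}

lemma m2_add (h : M2 F) (h' : M2 G) : M2 (F + G) := ⟨h.1.add h'.1, h.2.add h'.2⟩
lemma m2_sub (h : M2 F) (h' : M2 G) : M2 (F - G) := ⟨h.1.sub h'.1, h.2.sub h'.2⟩
lemma m2_smul (c : ℝ) (h : M2 F) : M2 (c • F) := ⟨h.1.const_smul c, h.2.const_smul c⟩
lemma m2_int (h : M2 F) (h' : M2 G) : Integrable (fun z => F z * G z) (gam m) :=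
  h.2.integrable_mul h'.2
lemma m2_c0 (h : C0 F) : M2 F := ⟨h.c.measurable, h.memLp⟩
lemma m2_pl {D : ℕ} (h : F ∈ Pl m D) : M2 F := m2_c0 (Hm.c0 h)
lemma sq_eq (F : E m → ℝ) : sq F = ip F F := by simp only [sq, ip, pow_two]
lemma sq_nn (F : E m → ℝ) : 0 ≤ sq F := integral_nonneg fun _ => sq_nonneg _

/-- the space of the admissible functions -/
def V (m : ℕ) : Submodule ℝ (E m → ℝ) where
  carrier := {F | M2 F}
  add_mem' := m2_add
  zero_mem' := ⟨measurable_const, MemLp.zero⟩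
  smul_mem' c _ := m2_smul c

lemma ip_add (h : M2 F) (h' : M2 G) (k : M2 H) : ip (F + G) H = ip F H + ip G H := by
  simp only [ip, Pi.add_apply, add_mul]; exact integral_add (m2_int h k) (m2_int h' k)
lemma ip_sub (h : M2 F) (h' : M2 G) (k : M2 H) : ip (F - G) H = ip F H - ip G H := by
  simp only [ip, Pi.sub_apply, sub_mul]; exact integral_sub (m2_int h k) (m2_int h' k)
lemma ip_smul (c : ℝ) (F H : E m → ℝ) : ip (c • F) H = c * ip F H := Hm.ip_smul c F H

/-- a form from its linearity in the first argument -/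
def mkB (f : (E m → ℝ) → (E m → ℝ) → ℝ) (hs : ∀ F G, f F G = f G F)
    (ha : ∀ F G H, M2 F → M2 G → M2 H → f (F + G) H = f F H + f G H)
    (hc : ∀ (c : ℝ) F H, M2 F → M2 H → f (c • F) H = c * f F H) : V m →ₗ[ℝ] V m →ₗ[ℝ] ℝ :=
  LinearMap.mk₂ ℝ (fun F G => f F.1 G.1) (fun F G H => ha _ _ _ F.2 G.2 H.2)
    (fun c F H => hc c _ _ F.2 H.2)
    (fun H F G => by rw [hs, hs H.1, hs H.1]; exact ha _ _ _ F.2 G.2 H.2)
    fun c H F => by rw [hs, hs H.1]; exact hc c _ _ F.2 H.2

/-- scalar product -/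
def IB (m : ℕ) : V m →ₗ[ℝ] V m →ₗ[ℝ] ℝ :=
  mkB ip Hm.ip_comm (fun _ _ _ => ip_add) fun c F H _ _ => ip_smul c F H

lemma ps_I : Ps (IB m) := ⟨fun _ _ => Hm.ip_comm _ _, fun _ => Hm.ip_self_nonneg _⟩

lemma sq_add (h : M2 F) (h' : M2 G) : sq (F + G) ≤ 2 * sq F + 2 * sq G := by
  simp only [sq_eq]; exact ps_I.add_le ⟨F, h⟩ ⟨G, h'⟩
lemma sq_sub (h : M2 F) (h' : M2 G) : sq (F - G) ≤ 2 * sq F + 2 * sq G := by
  simp only [sq_eq]; exact ps_I.sub_le ⟨F, h⟩ ⟨G, h'⟩
lemma sq_smul (c : ℝ) (F : E m → ℝ) : sq (c • F) = c ^ 2 * sq F := by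
  simp only [sq, Pi.smul_apply, smul_eq_mul, mul_pow]; exact integral_const_mul _ _
lemma abs_ip (h : M2 F) (h' : M2 G) : |ip F G| ≤ (sq F + sq G) / 2 := by
  simp only [sq_eq]; exact ps_I.abs_le ⟨F, h⟩ ⟨G, h'⟩

lemma en_sub (h : C1 F) (h' : C1 G) (c : ℝ) :
    C1 (F - c • G) ∧ en (F - c • G) ≤ 2 * en F + 2 * c ^ 2 * en G := by
  refine ⟨h.sub (h'.smul c), ?_⟩
  rw [en, en, en, mul_sum, mul_sum, ← sum_add_distrib]
  refine sum_le_sum fun j _ => ?_
  have e : pd j (F - c • G) = pd j F - c • pd j G := by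
    refine (Hm.pd_sub h (h'.smul c) j).trans (funext fun x => ?_)
    rw [(c1_const c).pd_mul h', Hm.pd_const, zero_mul, zero_add]; rfl
  have := sq_sub (m2_c0 (Hm.c0_pd h j)) (m2_smul c (m2_c0 (Hm.c0_pd h' j)))
  rw [sq_smul, sq_eq, sq_eq, sq_eq] at this
  rw [e]; linarith

/-- the two errors of the projection on the polynomials -/
lemma pr_err (h : Tm 2 F) (D : ℕ) : C1 (F - pr (D + 1) F) ∧ D * sq (F - pr (D + 1) F) ≤ en F ∧
    D * en (F - pr (D + 1) F) ≤ en2 F := by
  refine ⟨Hm.c1_res _ h.1, ?_, ?_⟩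
  · have := Hm.res_le_en (D + 1) h.1
    rw [← sq_eq] at this
    push_cast at this
    have h0 := sq_nn fun x => F x - pr (D + 1) F x
    change D * sq (fun x => F x - pr (D + 1) F x) ≤ _
    linarith
  · rw [en, en2, mul_sum]
    refine sum_le_sum fun j _ => ?_
    rw [show pd j (F - pr (D + 1) F) = _ from Hm.pd_res D h.1 j]
    exact Hm.res_le_en D (h.2 j).1

/-! ### operators of a gauge system -/

variable {S : GS m n} {ζ : ℝ}

lemma P_sub (c : ℝ) (F G : E m → ℝ) : S.P (F - c • G) = S.P F - c • S.P G := by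
  funext z
  simp only [GS.P, GS.L, GS.D, Pi.sub_apply, Pi.smul_apply, smul_eq_mul, mul_add, ← mul_div_assoc,
    mul_sum]
  rw [← sub_eq_zero]
  have : ∑ k, S.c k z * (F (S.R k z) - c * G (S.R k z) - (F z - c * G z)) =
      ∑ k, S.c k z * (F (S.R k z) - F z) - ∑ k, c * (S.c k z * (G (S.R k z) - G z)) := by
    rw [← sum_sub_distrib]; exact sum_congr rfl fun k _ => by ring
  rw [this]; ring

lemma iter_sub (c : ℝ) (j : ℕ) : ∀ F G : E m → ℝ,
    S.P^[j] (F - c • G) = S.P^[j] F - c • S.P^[j] G := by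
  induction j with
  | zero => exact fun _ _ => rfl
  | succ j ih => intro F G; simp only [Function.iterate_succ_apply, P_sub, ih]

lemma Rz_sub (c : ℝ) (F G : E m → ℝ) : S.Rz ζ (F - c • G) = S.Rz ζ F - c • S.Rz ζ G := by
  funext z
  simp only [GS.Rz, iter_sub, Pi.sub_apply, Pi.smul_apply, smul_eq_mul, mul_sum, ← sum_sub_distrib]
  exact sum_congr rfl fun j _ => by ring

lemma Rz_sub' (F G : E m → ℝ) : S.Rz ζ (F - G) = S.Rz ζ F - S.Rz ζ G := by
  simpa only [one_smul] using Rz_sub (S := S) (ζ := ζ) 1 F G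

lemma En_comm (S : GS m n) (F G : E m → ℝ) : S.En F G = S.En G F := by
  simp only [GS.En, mul_comm (S.D _ F _)]

lemma c_le (k : Fin n) (z : E m) : 0 ≤ S.c k z ∧ S.c k z ≤ 1 := by
  have h1 := tanh_lt_one (S.h k z)
  have h2 := neg_one_lt_tanh (S.h k z)
  constructor <;> rw [GS.c] <;> linarith

variable (hB : BasStmt)
include hB

lemma iter_m2 (hn : 0 < n) (h : M2 F) (j : ℕ) : M2 (S.P^[j] F) ∧ sq (S.P^[j] F) ≤ sq F := by
  induction j with
  | zero => exact ⟨h, le_rfl⟩
  | succ j ih =>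
    rw [Function.iterate_succ_apply']
    exact ⟨(hB.m2_P _ _ S _ hn ih.1).1, (hB.m2_P _ _ S _ hn ih.1).2.trans ih.2⟩

lemma En_eq (h : M2 F) (h' : M2 G) : S.En F G = -ip F (S.L G) := hB.en_eq _ _ S F G h h'

/-- the Dirichlet form -/
def EB (S : GS m n) : V m →ₗ[ℝ] V m →ₗ[ℝ] ℝ :=
  mkB S.En (En_comm S)
    (fun F G H h h' k => by
      rw [En_eq hB (m2_add h h') k, En_eq hB h k, En_eq hB h' k, ip_add h h' (hB.m2_L _ _ S _ k)]
      ring)
    fun c F H h k => by rw [En_eq hB (m2_smul c h) k, En_eq hB h k, ip_smul]; ring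

lemma ps_E : Ps (EB hB S) := ⟨fun _ _ => En_comm S _ _, fun F => (hB.en_le _ _ S _ F.2).1⟩

/-- the form of the resolvent -/
def QB (S : GS m n) (ζ : ℝ) : V m →ₗ[ℝ] V m →ₗ[ℝ] ℝ := ζ • IB m + EB hB S

lemma QB_apply (F G : V m) : QB hB S ζ F G = ζ * ip F.1 G.1 + S.En F.1 G.1 := rfl

lemma ps_Q (hζ : 0 ≤ ζ) : Ps (QB hB S ζ) :=
  ⟨fun F G => by rw [QB_apply, QB_apply, Hm.ip_comm, En_comm], fun F =>
    add_nonneg (mul_nonneg hζ (Hm.ip_self_nonneg _)) ((ps_E hB).p F)⟩

/-- the remainder of the truncation -/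
def rem (S : GS m n) (ζ : ℝ) (F G : E m → ℝ) : ℝ := (n / (ζ + n)) ^ n ^ 2 * ip (S.P^[n ^ 2] F) G

/-- the resolvent equation in weak form -/
lemma weak (hn : 0 < n) (hζ : 0 < ζ) (h : M2 F) (h' : M2 G) :
    ζ * ip (S.Rz ζ F) G + S.En (S.Rz ζ F) G = ip F G - rem S ζ F G := by
  have hu := (hB.m2_Rz _ _ S ζ F hn hζ h).1
  rw [En_comm, En_eq hB h' hu, Hm.ip_comm G, ← ip_smul, ← sub_eq_add_neg,
    ← ip_sub (m2_smul _ hu) (hB.m2_L _ _ S _ hu) h', rem, ← ip_smul,
    ← ip_sub h (m2_smul _ (iter_m2 hB hn h _).1) h']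
  exact congrArg (ip · G) (funext fun z => hB.res _ _ S ζ F z hn hζ)

lemma abs_rem (hn : 0 < n) (hζ : 0 < ζ) (h : M2 F) (h' : M2 G) :
    |rem S ζ F G| ≤ (sq F + sq G) / (2 * ζ) / n := by
  have hn' : (0 : ℝ) < n := by exact_mod_cast hn
  have h1 : ((n : ℝ) / (ζ + n)) ^ n ^ 2 ≤ 1 / (ζ * n) := by
    have := one_add_mul_le_pow (a := ζ / n) (by have : 0 < ζ / n := by positivity
                                                linarith) (n ^ 2)
    rw [← inv_div, inv_pow, add_div, div_self hn'.ne', add_comm, one_div]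
    refine inv_anti₀ (by positivity) (le_trans ?_ this)
    push_cast
    rw [show (n : ℝ) ^ 2 * (ζ / n) = ζ * n by field_simp]
    linarith
  have h2 := abs_ip (iter_m2 hB (S := S) hn h (n ^ 2)).1 h'
  have h3 := (iter_m2 hB (S := S) hn h (n ^ 2)).2
  rw [rem, abs_mul, abs_of_nonneg (by positivity)]
  refine (mul_le_mul h1 (h2.trans (show _ ≤ (sq F + sq G) / 2 by linarith)) (abs_nonneg _)
    (by positivity)).trans_eq ?_
  field_simp

lemma cen_m2 (hn : 0 < n) (hζ : 0 < ζ) (h : M2 F) :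
    M2 (F - ζ • S.Rz ζ F) ∧ sq (F - ζ • S.Rz ζ F) ≤ 4 * sq F := by
  obtain ⟨h1, h2⟩ := hB.m2_Rz _ _ S ζ F hn hζ h
  refine ⟨m2_sub h (m2_smul _ h1), (sq_sub h (m2_smul _ h1)).trans ?_⟩
  rw [le_div_iff₀ (by positivity)] at h2
  rw [sq_smul]; linarith

/-- the pairing with a centred function -/
lemma ip_cen (hn : 0 < n) (hζ : 0 < ζ) (h : M2 F) (h' : M2 G) :
    ip (F - ζ • S.Rz ζ F) G = S.En F (S.Rz ζ G) + rem S ζ G F := by
  have := weak hB (S := S) hn hζ h' h
  have e : ip (S.Rz ζ F) G = ip F (S.Rz ζ G) := hB.sym_Rz _ _ S ζ F G hn h h'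
  rw [ip_sub h (m2_smul _ (hB.m2_Rz _ _ S ζ F hn hζ h).1) h', ip_smul, e, Hm.ip_comm F G,
    Hm.ip_comm F, En_comm]
  linarith

end Crest.Agent.T157.Lm.R30

end
end

-- ▼ part T157/LmRes_30
section

/-!
# Row 157, block B/S5 (helper30): energies and resolvents
-/

set_option autoImplicit false

noncomputable section

namespace Crest.Agent.T157.Lm

open MeasureTheory ProbabilityTheory Real Filter Topology Finset
open Crest.Agent.R238.Gap (E pd)
open Crest.Agent.R253.Meh74 (gam C1)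
open Crest.Agent.T157.Hm (Pl en ip C0 pr)
open Crest.Agent.T157.Rn (Tm)

namespace R30

variable {L m n : ℕ} {β ζ : ℝ} {ρ : Fin L → ℝ}

lemma x_eq (x : Empty → Fin n) : x = x0 n := Subsingleton.elim _ _
lemma av0 (a : (Empty → Fin n) → ℝ) : av a = a (x0 n) := by
  rw [av, Fintype.sum_unique, x_eq default]; simp
lemma av1 (a : (Unit → Fin n) → ℝ) : av a = (∑ k, a fun _ => k) / n := by
  rw [av, ← (Equiv.funUnique Unit (Fin n)).symm.sum_comp]; simp; rfl
lemma n2_0 (F : F0 L) (n : ℕ) : n2 F n = sq (F n (x0 n)) := av0 _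
lemma ipx_0 (F G : F0 L) (n : ℕ) : ipx F G n = ip (F n (x0 n)) (G n (x0 n)) := av0 _

lemma n2_dF (F : F0 L) (hn : 0 < n) :
    n2 (dF β ρ F) n = ∑ k, sq ((sk β ρ n).D k (F n (x0 n))) := by
  have hn' : (0 : ℝ) < n := by exact_mod_cast hn
  rw [n2, av1, div_eq_iff hn'.ne', sum_mul]
  refine sum_congr rfl fun k _ => (sq_smul (√n) _).trans ?_
  rw [sq_sqrt hn'.le, mul_comm]

lemma cv_near {a : ℕ → ℝ} (h : ∀ ε > (0 : ℝ), ∃ b, Cv b ∧ ∀ᶠ n in atTop, |a n - b n| ≤ ε) :
    Cv a := by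
  refine cauchySeq_tendsto_of_complete (Metric.cauchySeq_iff.2 fun ε hε => ?_)
  obtain ⟨b, ⟨l, hl⟩, hb⟩ := h (ε / 5) (by positivity)
  obtain ⟨N, hN⟩ := eventually_atTop.1 (hb.and (Metric.tendsto_nhds.1 hl (ε / 5) (by positivity)))
  refine ⟨N, fun i hi j hj => ?_⟩
  obtain ⟨a1, a2⟩ := hN i hi
  obtain ⟨a3, a4⟩ := hN j hj
  rw [Real.dist_eq, abs_lt] at *
  rw [abs_le] at a1 a3
  constructor <;> linarith [a1.1, a1.2, a2.1, a2.2, a3.1, a3.2, a4.1, a4.2]

lemma ev_div (c ε : ℝ) (hε : 0 < ε) : ∀ᶠ n : ℕ in atTop, c / n ≤ ε :=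
  (tendsto_const_div_atTop_nhds_zero_nat c).eventually (ge_mem_nhds hε)

/-- the local field is affine -/
lemma h_bd {S : GS m n} {B : ℝ} (h : S.Ok B) (k : Fin n) :
    (∀ z z', |S.h k z - S.h k z'| ≤ √B * ‖z - z'‖) ∧ sq (S.h k) ≤ 2 * B + 2 * B ^ 2 := by
  set a : E m := WithLp.toLp 2 fun e => if S.inc k e = true then S.α e else 0 with ha
  have e1 : ‖a‖ ^ 2 = ∑ e, if S.inc k e = true then S.α e ^ 2 else 0 := by
    rw [EuclideanSpace.real_norm_sq_eq]
    exact sum_congr rfl fun e _ => by simp only [ha]; split_ifs <;> simp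
  have e2 : S.h k = (fun z => innerSL ℝ a z) + fun _ => ‖a‖ ^ 2 := funext fun z => by
    rw [Pi.add_apply, e1, innerSL_apply_apply, PiLp.inner_apply, ← sum_add_distrib]
    exact sum_congr rfl fun e _ => by simp only [ha]; split_ifs <;> simp; ring
  have e3 : ‖a‖ ^ 2 ≤ B := e1 ▸ h.row k
  refine ⟨fun z z' => ?_, ?_⟩
  · rw [e2, Pi.add_apply, Pi.add_apply, add_sub_add_right_eq_sub, ← map_sub]
    exact (abs_real_inner_le_norm a _).trans
      (mul_le_mul_of_nonneg_right (le_sqrt_of_sq_le e3) (norm_nonneg _))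
  · have h1 : sq (fun z => innerSL ℝ a z) = ‖a‖ ^ 2 := by
      have := variance_dual_stdGaussian (innerSL ℝ a)
      rwa [variance_of_integral_eq_zero (innerSL ℝ a).continuous.aemeasurable
        (integral_strongDual_stdGaussian _), innerSL_apply_norm] at this
    have h2 := sq_add (F := fun z => innerSL ℝ a z) (G := fun _ => ‖a‖ ^ 2)
      ⟨(innerSL ℝ a).continuous.measurable, IsGaussian.memLp_dual _ _ 2 (by simp)⟩
      (m2_c0 (Hm.c0_const _))
    have h3 : sq (fun _ : E m => ‖a‖ ^ 2) = (‖a‖ ^ 2) ^ 2 := by simp [sq]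
    have h4 := pow_le_pow_left₀ (sq_nonneg _) e3 2
    rw [e2]; linarith

/-- the energy is bounded by the flip gradient -/
lemma en_dF {F : F0 L} (hn : 0 < n) (h : ∀ x, M2 (dF β ρ F n x)) :
    enx β ρ F F n ≤ n2 (dF β ρ F) n / 2 := by
  have hn' : (0 : ℝ) < √n := sqrt_pos.2 (by exact_mod_cast hn)
  rw [n2_dF F hn, enx, GS.En]
  refine div_le_div_of_nonneg_right (sum_le_sum fun k _ => ?_) two_pos.le
  have h1 : M2 ((sk β ρ n).D k (F n (x0 n))) := by
    have := m2_smul (√n)⁻¹ (h fun _ => k)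
    rwa [show (√n)⁻¹ • dF β ρ F n (fun _ => k) = (sk β ρ n).D k (F n (x0 n)) from
      funext fun z => inv_mul_cancel_left₀ hn'.ne' _] at this
  rw [sq_eq]
  exact integral_mono_of_nonneg
    (ae_of_all _ fun z => mul_nonneg (c_le k z).1 (mul_self_nonneg _)) (m2_int h1 h1)
    (ae_of_all _ fun z => mul_le_of_le_one_left (mul_self_nonneg _) (c_le k z).2)

lemma Adm.lin {F G : F0 L} (hF : Adm F) (hG : Adm G) (c : ℝ) : Adm (F - c • G) := by
  filter_upwards [hF, hG] with n h1 h2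
  exact ⟨fun x => m2_sub (h1.1 x) (m2_smul c (h2.1 x)), fun p x z => by
    simp only [Pi.sub_apply, Pi.smul_apply, h1.2 p x z, h2.2 p x z]⟩

lemma Adm.rz (hB : BasStmt) (hS : SkStmt) (hζ : 0 < ζ) {F : F0 L} (hF : Adm F) :
    Adm (op β ρ (fun S => S.Rz ζ) F) := by
  filter_upwards [hF, eventually_gt_atTop 0] with n h1 hn
  exact ⟨fun x => (hB.m2_Rz _ _ _ ζ _ hn hζ (h1.1 x)).1, (hS.eqv_P L β ρ n _ h1.2).2.1 ζ⟩


/-- the limit system has a solution -/
lemma solve {M : ℕ} {G : Fin M → Fin M → ℝ} (hζ : 0 < ζ)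
    (hG : ∀ a : Fin M → ℝ, 0 ≤ ∑ j, a j * ∑ i, a i * G i j) (b : Fin M → ℝ) :
    ∃ a : Fin M → ℝ, ∀ j, ζ * a j + ∑ i, a i * G i j = b j := by
  let T : (Fin M → ℝ) →ₗ[ℝ] Fin M → ℝ := ζ • LinearMap.id + (Matrix.of G).vecMulLinear
  have hT : ∀ a j, T a j = ζ * a j + ∑ i, a i * G i j := fun a j => rfl
  have hi : Function.Injective T := (injective_iff_map_eq_zero T).2 fun a ha => by
    have h1 : ζ * ∑ j, a j ^ 2 + ∑ j, a j * ∑ i, a i * G i j = 0 := by
      rw [mul_sum, ← sum_add_distrib]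
      exact sum_eq_zero fun j _ => by
        have := congrFun ha j
        rw [hT, Pi.zero_apply] at this
        linear_combination a j * this
    have h2 : 0 ≤ ∑ j, a j ^ 2 := sum_nonneg fun _ _ => sq_nonneg _
    have h3 : ∑ j, a j ^ 2 = 0 := by nlinarith [hG a]
    exact funext fun j => pow_eq_zero_iff two_ne_zero |>.1
      ((sum_eq_zero_iff_of_nonneg fun _ _ => sq_nonneg _).1 h3 j (mem_univ j))
  obtain ⟨a, ha⟩ := LinearMap.injective_iff_surjective.1 hi b
  exact ⟨a, fun j => by rw [← hT, ha]⟩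

end R30

open R30

theorem enGlue : EnGlue := by
  intro hB hC hH hS hR hL hN L β ρ q hq ⟨B, hb⟩
  obtain ⟨C, -, hC⟩ := hC (β ^ 2 + ∑ l, ρ l ^ 2)
  obtain ⟨D, hD⟩ := hR.deg L _ q hq
  obtain ⟨K, hK, hlow⟩ := hH.low D (β ^ 2 + ∑ l, ρ l ^ 2)
  have b1 : Bd (dF β ρ q) := by
    refine ⟨8 * K * D * B, ?_⟩
    filter_upwards [hD, hb, eventually_gt_atTop 0] with n h1 h2 hn
    have ok := hS.ok L β ρ n hn
    have a1 := (hC _ _ _ ok).1 _ (Hm.c1 (h1 (x0 n)))
    have a2 := (hH.bern D _ _ (h1 (x0 n))).2.1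
    have a3 : ∑ k, sq ((sk β ρ n).D k (q n (x0 n))) ≤
        K * (2 * (sk β ρ n).En (q n (x0 n)) (q n (x0 n))) := by
      rw [GS.En, mul_div_cancel₀ _ two_ne_zero, mul_sum]
      exact sum_le_sum fun k _ => by
        simpa only [pow_two] using hlow _ _ _ ok k _ (hH.flip D _ _ _ k _ (h1 (x0 n)))
    rw [n2_0] at h2
    have a4 := mul_le_mul_of_nonneg_left h2 (Nat.cast_nonneg (α := ℝ) D)
    rw [n2_dF q hn]
    nlinarith
  refine ⟨b1, fun F hF hW => ?_⟩
  have bh : Bd (L := L) (C := Unit) fun n x z => (sk β ρ n).h (x ()) z := by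
    refine ⟨2 * (β ^ 2 + ∑ l, ρ l ^ 2) + 2 * (β ^ 2 + ∑ l, ρ l ^ 2) ^ 2, ?_⟩
    filter_upwards [eventually_gt_atTop 0] with n hn
    rw [n2, av1, div_le_iff₀ (by exact_mod_cast hn)]
    refine (sum_le_sum fun k _ => (h_bd (hS.ok L β ρ n hn) k).2).trans_eq ?_
    rw [sum_const, card_univ, Fintype.card_fin, nsmul_eq_mul, mul_comm]
  have ct : Continuous Real.tanh := by
    rw [show Real.tanh = fun x => Real.sinh x / Real.cosh x from funext Real.tanh_eq_sinh_div_cosh]
    exact Real.continuous_sinh.div Real.continuous_cosh fun x => (Real.cosh_pos x).ne'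
  have cc : Cl (L := L) (C := Unit) fun n x z => (sk β ρ n).c (x ()) z :=
    hN.comp L 1 (fun _ n x z => (sk β ρ n).h (x ()) z) 1 (fun u => (1 - tanh (u 0)) / 2)
      (fun _ => hL.rp L _ _ (hR.h L β ρ) bh)
      (fun _ => hN.sub_of_lip L _ _ (hR.eqv L _ _ (hR.h L β ρ)) bh
        ((eventually_gt_atTop 0).mono fun n hn x => (h_bd (hS.ok L β ρ n hn) (x ())).1))
      ((continuous_const.sub (ct.comp (continuous_apply 0))).div_const 2)
      fun u => by
        have h1 := tanh_lt_one (u 0)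
        have h2 := neg_one_lt_tanh (u 0)
        rw [abs_le]; constructor <;> linarith [norm_nonneg u]
  obtain ⟨l, hl⟩ := hL.cv L _ _ _ hW (hN.mul L _ _ 1 cc (hL.rp L _ _ (hR.dF L β ρ q hq) b1)
    (Eventually.of_forall fun n x z => by rw [abs_of_nonneg (c_le _ z).1]; exact (c_le _ z).2))
  refine ⟨l / 2, (hl.div_const 2).congr' ?_⟩
  filter_upwards [eventually_gt_atTop 0] with n hn
  have hn' : (0 : ℝ) < n := by exact_mod_cast hn
  rw [ipx, av1, enx, GS.En, div_left_inj' two_ne_zero, div_eq_iff hn'.ne', sum_mul]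
  refine sum_congr rfl fun k _ => ?_
  rw [← integral_mul_const]
  refine integral_congr_ae (ae_of_all _ fun z => ?_)
  simp only [dF, Pi.mul_apply]
  linear_combination (sk β ρ n).c k z * (sk β ρ n).D k (F n (x0 n)) z *
    (sk β ρ n).D k (q n (x0 n)) z * mul_self_sqrt hn'.le

namespace R30

variable {L : ℕ} {β ζ : ℝ} {ρ : Fin L → ℝ}

/-- **the resolvent of a polynomial family** -/
theorem res1 (hB : BasStmt) (hH : HypStmt) (hT : RtStmt) (hS : SkStmt) (hR : RpStmt) (hO : OnStmt)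
    (hL : LinStmt) (hE : EnStmt) (hζ : 0 < ζ)
    (hC : ∀ n > 0, (∀ F, C1 F → (sk β ρ n).En F F ≤ 4 * en F) ∧ ∀ F, Tm 2 F →
      Tm 2 ((sk β ρ n).Rz ζ F) ∧ en ((sk β ρ n).Rz ζ F) ≤ en F ∧
        en2 ((sk β ρ n).Rz ζ F) ≤ en F + en2 F)
    (q : F0 L) (hq : RP Empty q) (bq : Bd q) (ε : ℝ) (hε : 0 < ε) :
    ∃ q', RP Empty q' ∧ Bd q' ∧ ∀ᶠ n in atTop, n2 (op β ρ (fun S => S.Rz ζ) q - q') n ≤ ε ∧
      enx β ρ (op β ρ (fun S => S.Rz ζ) q - q') (op β ρ (fun S => S.Rz ζ) q - q') n ≤ ε := by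
  obtain ⟨B, hb⟩ := id bq
  obtain ⟨D, hD⟩ := hR.deg L _ q hq
  set δ := min ε (ζ * ε) with hδ
  have δ0 : 0 < δ := lt_min hε (mul_pos hζ hε)
  obtain ⟨D', h0, hD'⟩ := ((eventually_gt_atTop 0).and
    (ev_div (ζ * (D * B) + 4 * (D * B + D ^ 2 * B)) (δ / 12) (by positivity))).exists
  obtain ⟨M, e, he, e1, eo⟩ := hO L Empty (D' + 1)
  have be : ∀ j, Bd (e j) := fun j => ⟨2, (e1 j).eventually (ge_mem_nhds one_lt_two)⟩
  choose G hG using fun i j => (hE L β ρ (e j) (he j) (be j)).2 (e i) (hR.eqv L _ _ (he i))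
    (hL.wk L _ _ (hL.rp L _ _ (hR.dF L β ρ _ (he i)) (hE L β ρ _ (he i) (be i)).1)).1
  choose b hb' using fun j => hL.cv L _ q (e j) (hL.wk L _ _ (hL.rp L _ _ hq bq)).1
    (hL.rp L _ _ (he j) (be j))
  have me : ∀ᶠ n in atTop, ∀ j, M2 (e j n (x0 n)) :=
    eventually_all.2 fun j => (hR.eqv L _ _ (he j)).mono fun n h => h.1 _
  obtain ⟨a, ha⟩ := solve (G := G) hζ (fun a => by
    refine ge_of_tendsto (tendsto_finsetSum _ fun j _ => (tendsto_finsetSum _ fun i _ =>
      (hG i j).const_mul (a i)).const_mul (a j)) (me.mono fun n hn => ?_)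
    have := (ps_E hB (S := sk β ρ n)).p (∑ j, a j • (⟨_, hn j⟩ : V _))
    simp only [map_sum, map_smul, LinearMap.sum_apply, LinearMap.smul_apply, smul_eq_mul] at this
    exact this) b
  have rq : RP Empty fun n x z => ∑ j, a j * e j n x z :=
    hR.fsum L _ _ _ _ fun j _ => hR.smul L _ (fun _ => a j) _ (hT.const _) (he j)
  -- the residuals
  set r : Fin M → ℕ → ℝ := fun j n => ζ * (a j * n2 (e j) n) + ∑ i, a i * enx β ρ (e i) (e j) n -
    (ipx q (e j) n - rem (sk β ρ n) ζ (q n (x0 n)) (e j n (x0 n))) with hr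
  have r0 : ∀ j, Tendsto (r j) atTop (𝓝 0) := fun j => by
    have t1 : Tendsto (fun n => rem (sk β ρ n) ζ (q n (x0 n)) (e j n (x0 n))) atTop (𝓝 0) := by
      refine squeeze_zero_norm' ?_ (tendsto_const_div_atTop_nhds_zero_nat ((B + 2) / (2 * ζ)))
      filter_upwards [hD, hb, me, (e1 j).eventually (ge_mem_nhds one_lt_two),
        eventually_gt_atTop 0] with n h1 h2 h3 h4 hn
      rw [n2_0] at h2 h4
      refine (abs_rem hB hn hζ (m2_pl (h1 _)) (h3 j)).trans ?_
      gcongr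
    have := ((((e1 j).const_mul (a j)).const_mul ζ).add (tendsto_finsetSum univ fun i _ =>
      (hG i j).const_mul (a i))).sub ((hb' j).sub t1)
    rwa [mul_one, ha, sub_zero, sub_self] at this
  have r1 : ∀ᶠ n in atTop, 8 / ζ * ∑ j, r j n ^ 2 ≤ δ / 2 := by
    have := (tendsto_finsetSum univ fun j _ => (r0 j).pow 2).const_mul (8 / ζ)
    simp only [ne_eq, OfNat.ofNat_ne_zero, not_false_eq_true, zero_pow, sum_const_zero,
      mul_zero] at this
    exact this.eventually (ge_mem_nhds (half_pos δ0))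
  have key : ∀ᶠ n in atTop, n2 (op β ρ (fun S => S.Rz ζ) q - fun n x z => ∑ j, a j * e j n x z) n ≤ ε ∧
      enx β ρ (op β ρ (fun S => S.Rz ζ) q - fun n x z => ∑ j, a j * e j n x z)
        (op β ρ (fun S => S.Rz ζ) q - fun n x z => ∑ j, a j * e j n x z) n ≤ ε := by
    filter_upwards [hD, hb, me, eo, r1, hR.eqv L _ _ hq, eventually_gt_atTop 0,
      eventually_all.2 fun j => (e1 j).eventually (le_mem_nhds one_half_lt_one)]
      with n h1 h2 h3 ⟨h4, h5⟩ h6 h7 hn h8
    obtain ⟨b1, b2, b3⟩ := hH.bern D _ _ (h1 (x0 n))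
    obtain ⟨c1, c2, c3⟩ := (hC n hn).2 _ b1
    obtain ⟨a', ha'⟩ := h5 (fun x => pr (D' + 1) ((sk β ρ n).Rz ζ (q n x))) (fun x => Hm.pr_mem _ _)
      (hS.eqv_pr L n _ _ _ ((hS.eqv_P L β ρ n _ h7.2).2.1 ζ) fun x => by
        rw [x_eq x]; exact Hm.c0_of c1.1)
    set u := (sk β ρ n).Rz ζ (q n (x0 n)) with hu
    have mu : M2 u := m2_c0 (Hm.c0_of c1.1)
    set ee : Fin M → V (Nv L n) := fun j => ⟨_, h3 j⟩ with hee
    have sum_eq : ∀ c : Fin M → ℝ, (∑ j, c j • ee j : V _).1 = fun z => ∑ j, c j * e j n (x0 n) z :=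
      fun c => by funext z; simp [hee]
    have g := gal (I := IB _) (ps_Q hB (S := sk β ρ n) hζ.le) hζ
      (fun x => le_add_of_nonneg_right ((ps_E hB).p x)) (e := ee)
      (fun i j hij => (ipx_0 _ _ n).symm.trans (h4 i j hij))
      (fun j => (h8 j).trans_eq ((n2_0 _ n).trans (sq_eq _))) ⟨u, mu⟩ a a'
    have g1 : ∀ j, QB hB (sk β ρ n) ζ (∑ i, a i • ee i - ⟨u, mu⟩) (ee j) = r j n := fun j => by
      have o1 : ∑ i, a i * ip (ee i).1 (ee j).1 = a j * n2 (e j) n := by
        rw [sum_eq_single j (fun i _ hij => mul_eq_zero_of_right _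
          ((ipx_0 _ _ n).symm.trans (h4 i j hij))) (by simp), n2_0, sq_eq]
      rw [map_sub, LinearMap.sub_apply, QB_apply hB ⟨u, mu⟩, weak hB hn hζ (h7.1 _) (h3 j),
        LinearMap.map_sum₂]
      simp only [map_smul, LinearMap.smul_apply, smul_eq_mul, QB_apply, mul_add, sum_add_distrib,
        hr, ipx_0, mul_left_comm _ ζ, ← mul_sum, o1]
      rfl
    obtain ⟨p1, p2, p3⟩ := pr_err c1 D'
    have p4 := (hC n hn).1 _ p1
    have g2 : QB hB (sk β ρ n) ζ (⟨u, mu⟩ - ∑ j, a' j • ee j) (⟨u, mu⟩ - ∑ j, a' j • ee j) ≤ δ / 12 := by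
      rw [QB_apply, Submodule.coe_sub, sum_eq, ← funext (ha' (x0 n)), ← sq_eq]
      refine le_trans ?_ hD'
      have D0 : (0 : ℝ) < D' := by exact_mod_cast h0
      rw [n2_0] at h2
      have q1 := mul_le_mul_of_nonneg_left h2 (Nat.cast_nonneg (α := ℝ) D)
      have q2 := mul_le_mul_of_nonneg_left h2 (sq_nonneg (D : ℝ))
      have q3 := mul_le_mul_of_nonneg_left (p2.trans (c2.trans (b2.trans q1))) hζ.le
      have q4 := mul_le_mul_of_nonneg_left p4 D0.le
      rw [le_div_iff₀ D0]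
      change (ζ * sq (u - pr (D' + 1) u) + (sk β ρ n).En (u - pr (D' + 1) u) (u - pr (D' + 1) u)) * D' ≤ _
      linarith
    simp only [g1] at g
    have g3 := g.trans (show _ ≤ δ by linarith)
    rw [QB_apply, Submodule.coe_sub, sum_eq, ← sq_eq] at g3
    have m3 : M2 (u - fun z => ∑ j, a j * e j n (x0 n) z) := sum_eq a ▸ m2_sub mu (∑ j, a j • ee j).2
    have s1 := mul_nonneg hζ.le (sq_nn (u - fun z => ∑ j, a j * e j n (x0 n) z))
    have s2 := (hB.en_le _ _ (sk β ρ n) _ m3).1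
    rw [n2_0]
    exact ⟨le_of_mul_le_mul_left ((le_add_of_nonneg_right s2).trans (g3.trans (min_le_right _ _))) hζ,
      (le_add_of_nonneg_left s1).trans (g3.trans (min_le_left _ _))⟩
  refine ⟨_, rq, ⟨2 * (B / ζ ^ 2) + 2 * ε, ?_⟩, key⟩
  filter_upwards [key, hb, hR.eqv L _ _ hq, hR.eqv L _ _ rq, eventually_gt_atTop 0]
    with n h1 h2 h3 h4 hn
  obtain ⟨k1, k2⟩ := hB.m2_Rz _ _ (sk β ρ n) ζ _ hn hζ (h3.1 (x0 n))
  have := sq_sub k1 (m2_sub k1 (h4.1 (x0 n)))
  rw [sub_sub_cancel] at this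
  rw [n2_0] at h1 h2 ⊢
  have k3 := k2.trans (div_le_div_of_nonneg_right h2 (sq_nonneg ζ))
  exact this.trans (add_le_add (by linarith) (mul_le_mul_of_nonneg_left h1.1 two_pos.le))

end R30

theorem resGlue : ResGlue := by
  intro hB hC hH hT hS hR hO hL hE L β ρ
  obtain ⟨C, C0, hC⟩ := hC (β ^ 2 + ∑ l, ρ l ^ 2)
  refine ⟨C, C0, fun ζ hz => ?_⟩
  have hζ : 0 < ζ := C0.trans_le hz
  have hC' := fun n hn => (hC _ _ _ (hS.ok L β ρ n hn)).imp_right fun h => h ζ hz
  have H1 := res1 hB hH hT hS hR hO hL hE hζ hC'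
  refine ⟨H1, fun F hF => ⟨Adm.rz hB hS hζ hF.1, fun ε hε => ?_⟩, fun F hF ⟨B, hb⟩ hT hW => ?_⟩
  · obtain ⟨q, q1, q2, q3⟩ := hF.2 (ε / 4 * ζ ^ 2) (by positivity)
    obtain ⟨q', r1, r2, r3⟩ := H1 q q1 q2 (ε / 4) (by positivity)
    refine ⟨q', r1, r2, ?_⟩
    filter_upwards [q3, r3, hF.1, hR.eqv L _ _ q1, hR.eqv L _ _ r1, eventually_gt_atTop 0]
      with n h1 h2 h3 h4 h5 hn
    obtain ⟨k1, k2⟩ := hB.m2_Rz _ _ (sk β ρ n) ζ _ hn hζ (m2_sub (h3.1 (x0 n)) (h4.1 (x0 n)))
    have := sq_add k1 (m2_sub (hB.m2_Rz _ _ (sk β ρ n) ζ _ hn hζ (h4.1 (x0 n))).1 (h5.1 (x0 n)))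
    rw [n2_0] at h1 h2 ⊢
    have k3 := k2.trans ((div_le_iff₀ (by positivity)).2 h1)
    rw [Rz_sub'] at this k3
    rw [sub_add_sub_cancel] at this
    exact this.trans (le_of_le_of_eq (add_le_add (mul_le_mul_of_nonneg_left k3 two_pos.le)
      (mul_le_mul_of_nonneg_left h2.1 two_pos.le)) (by ring))
  have ad : ∀ G : F0 L, Adm G → Adm (cen β ρ ζ G) := fun G h => Adm.lin h (Adm.rz hB hS hζ h) ζ
  obtain ⟨B', hb'⟩ := hW.2.1
  refine hL.ws L _ _ ⟨ad F hF, ⟨4 * B, ?_⟩, fun q q1 q2 => cv_near fun ε hε => ?_⟩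
    (hL.tclosed L _ _ (ad F hF) fun ε hε => ?_)
  · filter_upwards [hF, hb, eventually_gt_atTop 0] with n h1 h2 hn
    rw [n2_0] at h2 ⊢
    exact (cen_m2 hB hn hζ (h1.1 _)).2.trans (by linarith)
  · obtain ⟨B2, hb2⟩ := id q2
    obtain ⟨q', r1, r2, r3⟩ := H1 q q1 q2 ((ε / 2) ^ 2 / (|B'| + 1)) (by positivity)
    refine ⟨_, (hE L β ρ q' r1 r2).2 F hF hW, ?_⟩
    filter_upwards [hF, hb, hb', hb2, r3, hW.1, hR.eqv L _ _ q1, hR.eqv L _ _ r1,
      eventually_gt_atTop 0, ev_div ((B2 + B) / (2 * ζ)) (ε / 2) (half_pos hε)]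
      with n h1 h2 h3 h4 h5 h6 h7 h8 hn h9
    have mu := (hB.m2_Rz _ _ (sk β ρ n) ζ _ hn hζ (h7.1 (x0 n))).1
    have k1 := abs_rem hB (S := sk β ρ n) hn hζ (h7.1 (x0 n)) (h1.1 (x0 n))
    have k2 := hB.en_cs _ _ (sk β ρ n) _ _ (h1.1 (x0 n)) (m2_sub mu (h8.1 (x0 n)))
    have k3 := en_dF hn h6.1
    have k4 := map_sub (EB hB (sk β ρ n) ⟨_, h1.1 (x0 n)⟩) ⟨_, mu⟩ ⟨_, h8.1 (x0 n)⟩
    have k5 : |(sk β ρ n).En (F n (x0 n)) ((sk β ρ n).Rz ζ (q n (x0 n)) - q' n (x0 n))| ≤ ε / 2 := by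
      refine abs_le_of_sq_le_sq (k2.trans ((mul_le_mul (show _ ≤ |B'| + 1 from k3.trans (by
        linarith [le_abs_self B', abs_nonneg B'])) h5.2 (hB.en_le _ _ _ _
          (m2_sub mu (h8.1 (x0 n)))).1 (by positivity)).trans_eq ?_)) (by positivity)
      field_simp
    rw [n2_0] at h2 h4
    have k6 : (sq (q n (x0 n)) + sq (F n (x0 n))) / (2 * ζ) / n ≤ (B2 + B) / (2 * ζ) / n := by gcongr
    rw [ipx_0, show cen β ρ ζ F n (x0 n) = F n (x0 n) - ζ • (sk β ρ n).Rz ζ (F n (x0 n)) from rfl,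
      ip_cen hB hn hζ (h1.1 _) (h7.1 _), add_sub_right_comm]
    refine (abs_add_le _ _).trans ?_
    change (sk β ρ n).En _ (_ - _) = (sk β ρ n).En _ _ - enx β ρ F q' n at k4
    rw [← k4]
    linarith
  · obtain ⟨D, hD⟩ := hT (ε / 4) (by positivity)
    choose! w hw using eventually_atTop.1 hD |>.choose_spec
    have hw' := (eventually_ge_atTop _).mono hw
    have aw : Adm (L := L) (C := Empty) w := hw'.mono fun n h => ⟨fun x => m2_pl (h.1 x), h.2.1⟩
    refine ⟨cen β ρ ζ w, ad w aw, hL.ti_c1 L _ _ ((2 + 2 * ζ ^ 2) * (D * (2 * B + 2 * (ε / 4)))) ?_, ?_⟩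
    · filter_upwards [hw', ad w aw, hF, hb, eventually_gt_atTop 0] with n h1 h2 h3 h4 hn
      obtain ⟨b1, b2, -⟩ := hH.bern D _ _ (h1.1 (x0 n))
      obtain ⟨c1, c2, -⟩ := (hC' n hn).2 _ b1
      obtain ⟨d1, d2⟩ := en_sub b1.1 c1.1 ζ
      refine ⟨h2.2, fun x => by rw [x_eq x]; exact d1, ?_⟩
      have k1 := sq_sub (h3.1 (x0 n)) (m2_sub (h3.1 (x0 n)) (m2_pl (h1.1 (x0 n))))
      have k2 := h1.2.2
      rw [sub_sub_cancel] at k1
      rw [av0] at k2 ⊢
      rw [n2_0] at h4
      have k3 : en (w n (x0 n)) ≤ D * (2 * B + 2 * (ε / 4)) :=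
        b2.trans (mul_le_mul_of_nonneg_left (k1.trans (add_le_add (by linarith)
          (mul_le_mul_of_nonneg_left k2 two_pos.le))) (Nat.cast_nonneg _))
      have k4 := mul_le_mul_of_nonneg_left (c2.trans k3) (sq_nonneg ζ)
      exact d2.trans (by linarith)
    · filter_upwards [hw', hF, eventually_gt_atTop 0] with n h1 h3 hn
      have k1 := (cen_m2 hB (S := sk β ρ n) hn hζ (m2_sub (h3.1 (x0 n)) (m2_pl (h1.1 (x0 n))))).2
      have k2 := h1.2.2
      rw [av0] at k2
      rw [Rz_sub', smul_sub, sub_sub_sub_comm] at k1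
      rw [n2_0]
      exact k1.trans ((mul_le_mul_of_nonneg_left k2 (by norm_num)).trans_eq (by ring))

end Crest.Agent.T157.Lm

end
end

-- ▼ part T157/LmRp_99
section

/-!
# Row 157, block B/S5 (helper99): rational polynomial families, structural facts
-/

set_option autoImplicit false

noncomputable section

namespace Crest.Agent.T157.Lm

open MeasureTheory Real Filter Topology Finset
open Crest.Agent.R238.Gap (E)
open Crest.Agent.T157.Hm (Pl)

namespace Rp99

variable {L : ℕ}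

lemma co_pt {n : ℕ} (f : Ix L n → ℝ) (e : Ix L n) : co (pt f) e = f e := by simp [co, pt]

lemma co_act_l {n : ℕ} (p : Equiv.Perm (Fin n)) (z : E (Nv L n)) (a b : Fin n) :
    co (act p z) (.inl s(p a, p b)) = co z (.inl s(a, b)) := by simp [act, co_pt]

lemma co_act_r {n : ℕ} (p : Equiv.Perm (Fin n)) (z : E (Nv L n)) (l : Fin L) (a : Fin n) :
    co (act p z) (.inr (l, p a)) = co z (.inr (l, a)) := by simp [act, co_pt]

lemma cg {C : Type} {F G : Fam L C} (h : RP C F) (e : ∀ n x z, F n x z = G n x z) : RP C G :=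
  h.congr (Eventually.of_forall fun n => funext fun x => funext fun z => e n x z)

theorem reindex {C : Type} {F : Fam L C} (h : RP C F) : ∀ (C' : Type) (σ : C → C'),
    RP C' fun n x z => F n (x ∘ σ) z := by
  induction h with
  | edge a b => exact fun C' σ => RP.edge (σ a) (σ b)
  | site l a => exact fun C' σ => RP.site l (σ a)
  | eq a b => exact fun C' σ => RP.eq (σ a) (σ b)
  | const h => exact fun C' σ => RP.const h
  | add _ _ h1 h2 => exact fun C' σ => (h1 C' σ).add (h2 C' σ)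
  | mul _ _ h1 h2 => exact fun C' σ => (h1 C' σ).mul (h2 C' σ)
  | sum _ h =>
    refine fun C' σ => cg (h _ (Option.map σ)).sum fun n x z => sum_congr rfl fun i _ => ?_
    congr 1
    funext o
    cases o <;> rfl
  | congr _ e h => exact fun C' σ => (h C' σ).congr (e.mono fun n hn => by rw [hn])

theorem sumV : ∀ (v : ℕ) (C : Type) (F : Fam L (C ⊕ Fin v)), RP (C ⊕ Fin v) F →
    RP C fun n x z => ∑ φ : Fin v → Fin n, F n (Sum.elim x φ) z
  | 0, C, F, h => by
    refine cg (reindex h C (Sum.elim id Fin.elim0)) fun n x z => ?_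
    rw [Fintype.sum_unique]
    congr 1
    funext o
    rcases o with c | j
    · rfl
    · exact j.elim0
  | v + 1, C, F, h => by
    have h1 := sumV v (Option C) _ (reindex h (Option C ⊕ Fin v)
      (Sum.elim (fun c => .inl (some c)) (Fin.cases (.inl none) .inr)))
    refine cg h1.sum fun n x z => ?_
    rw [← (Fin.consEquiv fun _ : Fin (v + 1) => Fin n).sum_comp, Fintype.sum_prod_type]
    refine sum_congr rfl fun i _ => sum_congr rfl fun φ _ => ?_
    congr 1
    funext o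
    rcases o with c | j
    · rfl
    · refine Fin.cases ?_ (fun j => ?_) j <;> rfl

theorem deg {C : Type} {F : Fam L C} (h : RP C F) :
    ∃ D, ∀ᶠ n in atTop, ∀ x, F n x ∈ Pl _ D := by
  have hc : ∀ n (e : Ix L n), (fun z => co z e) ∈ Pl (Nv L n) 2 := fun n e => by
    simpa [co] using Hm.mulX_mem (ix L n e) (Hm.const_mem (m := Nv L n) 0 1)
  induction h with
  | edge a b => exact ⟨2, Eventually.of_forall fun n x => hc n _⟩
  | site l a => exact ⟨2, Eventually.of_forall fun n x => hc n _⟩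
  | eq a b => exact ⟨1, Eventually.of_forall fun n x => Hm.const_mem 0 _⟩
  | const h => exact ⟨1, Eventually.of_forall fun n x => Hm.const_mem 0 _⟩
  | add _ _ h1 h2 =>
    obtain ⟨D, h1⟩ := h1
    obtain ⟨D', h2⟩ := h2
    exact ⟨D + D', (h1.and h2).mono fun n h x => Hm.add_mem'
      (Hm.mono (Nat.le_add_right _ _) (h.1 x)) (Hm.mono (Nat.le_add_left _ _) (h.2 x))⟩
  | mul _ _ h1 h2 =>
    obtain ⟨D, h1⟩ := h1
    obtain ⟨D', h2⟩ := h2
    exact ⟨D + D', (h1.and h2).mono fun n h x => Hm.mul_mem (Hm.le_succ _ (h.1 x)) (h.2 x)⟩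
  | sum _ h =>
    obtain ⟨D, h⟩ := h
    exact ⟨D, h.mono fun n h x => Hm.sum_mem' _ fun i _ => h _⟩
  | congr _ e h =>
    obtain ⟨D, h⟩ := h
    exact ⟨D, (h.and e).mono fun n h x => h.2 ▸ h.1 x⟩

theorem eqv {C : Type} {F : Fam L C} (h : RP C F) : ∀ᶠ n in atTop, Eqv (F n) := by
  induction h with
  | edge a b => exact Eventually.of_forall fun n p x z => co_act_l p z _ _
  | site l a => exact Eventually.of_forall fun n p x z => co_act_r p z l _
  | eq a b => exact Eventually.of_forall fun n p x z => by simp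
  | const h => exact Eventually.of_forall fun n p x z => rfl
  | add _ _ h1 h2 => exact (h1.and h2).mono fun n h p x z => congrArg₂ _ (h.1 p x z) (h.2 p x z)
  | mul _ _ h1 h2 => exact (h1.and h2).mono fun n h p x z => congrArg₂ _ (h.1 p x z) (h.2 p x z)
  | sum _ h =>
    refine h.mono fun n h p x z => ?_
    beta_reduce
    rw [← Equiv.sum_comp p]
    refine sum_congr rfl fun i _ => Eq.trans ?_ (h p (fun o => o.elim i x) z)
    congr 1
    funext o
    cases o <;> rfl
  | congr _ e h => exact (h.and e).mono fun n h => h.2 ▸ h.1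

theorem adm {C : Type} {F : Fam L C} (h : RP C F) : Adm F := by
  obtain ⟨D, hD⟩ := deg h
  exact (hD.and (eqv h)).mono fun n h =>
    ⟨fun x => ⟨(Hm.c0 (h.1 x)).c.measurable, (Hm.c0 (h.1 x)).memLp⟩, h.2⟩

section rt
variable (hR : RtStmt)
include hR

lemma cst {C : Type} (c : ℝ) : RP (L := L) C fun _ _ _ => c := RP.const (hR.const c)

lemma bn (β : ℝ) {C : Type} : RP (L := L) C fun n _ _ => β / √n :=
  RP.const (hR.congr _ _ (hR.mul _ _ (hR.const β) (hR.inv _ hR.sqrt))
    (Eventually.of_forall fun _ => (div_eq_mul_inv _ _).symm))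

lemma sub {C : Type} {F G : Fam L C} (hF : RP C F) (hG : RP C G) :
    RP C fun n x z => F n x z - G n x z :=
  cg (hF.add ((cst hR (-1)).mul hG)) fun _ _ _ => by ring

theorem fsum {C ι : Type} (S : Finset ι) (F : ι → Fam L C) (h : ∀ i ∈ S, RP C (F i)) :
    RP C fun n x z => ∑ i ∈ S, F i n x z := by
  classical
  induction S using Finset.induction_on with
  | empty => exact cg (cst hR 0) fun _ _ _ => by simp
  | insert a S ha ih =>
    exact cg ((h a (mem_insert_self _ _)).add (ih fun i hi => h i (mem_insert_of_mem hi)))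
      fun _ _ _ => by rw [sum_insert ha]

theorem fprod {C ι : Type} (S : Finset ι) (F : ι → Fam L C) (h : ∀ i ∈ S, RP C (F i)) :
    RP C fun n x z => ∏ i ∈ S, F i n x z := by
  classical
  induction S using Finset.induction_on with
  | empty => exact cg (cst hR 1) fun _ _ _ => by simp
  | insert a S ha ih =>
    exact cg ((h a (mem_insert_self _ _)).mul (ih fun i hi => h i (mem_insert_of_mem hi)))
      fun _ _ _ => by rw [prod_insert ha]

theorem jm (β : ℝ) {C : Type} (a b : C) : RP (L := L) C fun _ x z => Jm β z (x a) (x b) :=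
  cg ((sub hR (cst hR 1) (RP.eq a b)).mul ((bn hR β).mul ((RP.edge a b).add (bn hR β))))
    fun n x z => by
      simp only [Jm, Matrix.of_apply]
      split_ifs <;> simp

theorem refl (hB : BasStmt) (β : ℝ) (ρ : Fin L → ℝ) {C : Type} {F : Fam L C} (h : RP C F) :
    ∀ a : C, RP C fun n x z => F n x ((sk β ρ n).R (x a) z) := by
  induction h with
  | edge b c =>
    intro a
    refine cg ((RP.edge b c).add ((sub hR ((RP.eq a b).add (RP.eq a c))
      ((RP.eq a b).mul (RP.eq a c))).mul (sub hR ((cst hR (-2)).mul (RP.edge b c))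
        ((cst hR 2).mul ((sub hR (cst hR 1) (RP.eq b c)).mul (bn hR β)))))) fun n x z => ?_
    simp only [co, hB.R_apply, sk, Equiv.symm_apply_apply, Sym2.mem_iff, Sym2.mk_isDiag_iff,
      decide_eq_true_eq]
    by_cases h1 : x a = x b <;> by_cases h2 : x a = x c <;> by_cases h3 : x b = x c <;>
      simp only [h1, h2, h3, if_true, if_false, or_true, or_false] <;> simp_all <;> ring
  | site l b =>
    intro a
    refine cg ((RP.site l b).add ((RP.eq b a).mul (sub hR ((cst hR (-2)).mul (RP.site l b))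
      (cst hR (2 * ρ l))))) fun n x z => ?_
    simp only [co, hB.R_apply, sk, Equiv.symm_apply_apply, decide_eq_true_eq]
    split_ifs <;> ring
  | eq b c => exact fun a => RP.eq b c
  | const h => exact fun a => RP.const h
  | add _ _ h1 h2 => exact fun a => (h1 a).add (h2 a)
  | mul _ _ h1 h2 => exact fun a => (h1 a).mul (h2 a)
  | sum _ h => exact fun a => (h (some a)).sum
  | congr _ e h => exact fun a => (h a).congr (e.mono fun n hn => by rw [hn])

end rt

end Rp99

open Rp99 in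
theorem rpGlue : RpGlue := fun hB hR hS =>
  { reindex := fun _ _ C' σ _ h => reindex h C' σ
    fsum := fun _ _ _ S F h => fsum hR S F h
    fprod := fun _ _ _ S F h => fprod hR S F h
    smul := fun _ _ _ _ hρ h => (RP.const hρ).mul h
    sub := fun _ _ _ _ hF hG => sub hR hF hG
    sumV := fun _ C v F h => sumV v C F h
    deg := fun _ _ _ h => deg h
    eqv := fun _ _ _ _ _ h => adm h
    refl := fun _ β ρ _ a _ h => refl hR hB β ρ h a
    dF := fun _ β ρ F h => by
      have h1 := reindex h Unit Empty.elim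
      refine cg ((RP.const hR.sqrt).mul (sub hR (refl hR hB β ρ h1 ()) h1)) fun n x z => ?_
      rw [show x ∘ Empty.elim = x0 n from funext fun e => e.elim]
      rfl
    Jm := fun _ β _ a b => jm hR β a b
    h := fun L β ρ => cg ((jm hR β (some ()) none).sum.add (fsum hR univ _ fun l _ =>
      (cst hR (ρ l)).mul ((RP.site l ()).add (cst hR (ρ l))))) fun n x z =>
        (hS.h_eq L β ρ n _ z).symm }

end Crest.Agent.T157.Lm

end
end

-- ▼ part T157/LmRt_66
section

/-!
# Row 157, block B/S5 (helper66): germs of rational functions of powers of `n` (`Lm.RtStmt`)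
-/

set_option autoImplicit false

noncomputable section

namespace Crest.Agent.T157.Lm

open Real Filter Topology Finset

namespace Rt66

variable {a b : ℕ → ℝ}

lemma ev_pos : ∀ᶠ n : ℕ in atTop, (0 : ℝ) < n := (eventually_gt_atTop 0).mono fun _ => Nat.cast_pos.2

lemma gp_congr (h : GP a) (e : ∀ᶠ n in atTop, a n = b n) : GP b := by
  obtain ⟨S, c, h⟩ := h
  exact ⟨S, c, (h.and e).mono fun _ h => h.2.symm.trans h.1⟩

lemma gp_mono (c s : ℝ) : GP fun n => c * (n : ℝ) ^ s :=
  ⟨{s}, fun _ => c, .of_forall fun _ => by rw [sum_singleton]⟩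

lemma gp_const (c : ℝ) : GP fun _ => c := by simpa using gp_mono c 0

lemma gp_add (h : GP a) (k : GP b) : GP fun n => a n + b n := by
  obtain ⟨S, c, h⟩ := h
  obtain ⟨S', c', k⟩ := k
  refine ⟨S ∪ S', fun s => (if s ∈ S then c s else 0) + if s ∈ S' then c' s else 0,
    (h.and k).mono fun n h => ?_⟩
  simp only [h.1, h.2, add_mul, ite_mul, zero_mul, sum_add_distrib, sum_ite_mem,
    union_inter_cancel_left, union_inter_cancel_right]

lemma gp_sum {ι : Type} (S : Finset ι) {a : ι → ℕ → ℝ} (h : ∀ i ∈ S, GP (a i)) :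
    GP fun n => ∑ i ∈ S, a i n := by
  induction S using Finset.cons_induction with
  | empty => simpa using gp_const 0
  | cons i S hi ih =>
    simpa only [sum_cons] using
      gp_add (h i (mem_cons_self _ _)) (ih fun j hj => h j (mem_cons_of_mem hj))

lemma gp_mul (h : GP a) (k : GP b) : GP fun n => a n * b n := by
  obtain ⟨S, c, h⟩ := h
  obtain ⟨S', c', k⟩ := k
  refine gp_congr (gp_sum S fun s _ => gp_sum S' fun s' _ => gp_mono (c s * c' s') (s + s'))
    ((h.and (k.and ev_pos)).mono fun n h => ?_)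
  simp only [h.1, h.2.1, sum_mul_sum, rpow_add h.2.2, mul_mul_mul_comm]

lemma tend_neg {s : ℝ} (h : s < 0) : Tendsto (fun n : ℕ => (n : ℝ) ^ s) atTop (𝓝 0) := by
  simpa [Function.comp_def] using
    (tendsto_rpow_neg_atTop (neg_pos.2 h)).comp tendsto_natCast_atTop_atTop

/-- the dichotomy -/
def Di (a : ℕ → ℝ) : Prop := (∀ᶠ n in atTop, a n = 0) ∨
  ∃ s κ : ℝ, κ ≠ 0 ∧ Tendsto (fun n : ℕ => a n / (n : ℝ) ^ s) atTop (𝓝 κ)

lemma gp_di (h : GP a) : Di a := by
  obtain ⟨S, c, h⟩ := h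
  have h' : ∀ᶠ n : ℕ in atTop, a n = ∑ s ∈ S with c s ≠ 0, c s * (n : ℝ) ^ s :=
    h.mono fun n h => h.trans (sum_filter_of_ne fun _ _ => left_ne_zero_of_mul).symm
  rcases (S.filter (c · ≠ 0)).eq_empty_or_nonempty with e | e
  · exact .inl (h'.mono fun n h => by rw [h, e, sum_empty])
  have m := max'_mem _ e
  refine .inr ⟨max' _ e, _, (mem_filter.1 m).2, ?_⟩
  have t := tendsto_finsetSum (S.filter (c · ≠ 0)) (x := atTop)
    (f := fun s (n : ℕ) => c s * (n : ℝ) ^ (s - max' _ e))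
    (a := fun s => if s = max' _ e then c s else 0) fun s hs => by
      split_ifs with h0
      · simp [h0]
      · simpa using (tend_neg (sub_neg.2 ((le_max' _ s hs).lt_of_ne h0))).const_mul (c s)
  rw [sum_ite_eq', if_pos m] at t
  refine t.congr' ((h'.and ev_pos).mono fun n h => ?_)
  simp only [h.1, sum_div, rpow_sub h.2, mul_div_assoc]

lemma ne_of {s κ : ℝ} (h : κ ≠ 0) (t : Tendsto (fun n : ℕ => a n / (n : ℝ) ^ s) atTop (𝓝 κ)) :
    ∀ᶠ n in atTop, a n ≠ 0 := (t.eventually_ne h).mono fun _ h e => h (by rw [e, zero_div])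

lemma of_gp (h : GP a) : Rt a := ⟨a, _, h, gp_const 1, .of_forall fun _ => by simp⟩

lemma congr (h : Rt a) (e : ∀ᶠ n in atTop, a n = b n) : Rt b := by
  obtain ⟨p, q, hp, hq, h⟩ := h
  exact ⟨p, q, hp, hq, (h.and e).mono fun _ h => ⟨h.1.1, h.2.symm.trans h.1.2⟩⟩

lemma add (h : Rt a) (k : Rt b) : Rt fun n => a n + b n := by
  obtain ⟨p, q, hp, hq, h⟩ := h
  obtain ⟨p', q', hp', hq', k⟩ := k
  exact ⟨_, _, gp_add (gp_mul hp hq') (gp_mul hq hp'), gp_mul hq hq', (h.and k).mono fun n h =>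
    ⟨mul_ne_zero h.1.1 h.2.1, by simp only [h.1.2, h.2.2, div_add_div _ _ h.1.1 h.2.1]⟩⟩

lemma mul (h : Rt a) (k : Rt b) : Rt fun n => a n * b n := by
  obtain ⟨p, q, hp, hq, h⟩ := h
  obtain ⟨p', q', hp', hq', k⟩ := k
  exact ⟨_, _, gp_mul hp hp', gp_mul hq hq', (h.and k).mono fun n h =>
    ⟨mul_ne_zero h.1.1 h.2.1, by simp only [h.1.2, h.2.2, div_mul_div_comm]⟩⟩

lemma inv (h : Rt a) : Rt fun n => (a n)⁻¹ := by
  obtain ⟨p, q, hp, hq, h⟩ := h
  rcases gp_di hp with e | ⟨s, κ, h0, t⟩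
  · exact congr (of_gp (gp_const 0)) ((h.and e).mono fun n h => by simp [h.1.2, h.2])
  · exact ⟨q, p, hq, hp, (h.and (ne_of h0 t)).mono fun n h => ⟨h.2, by simp only [h.1.2, inv_div]⟩⟩

lemma di (h : Rt a) : Di a := by
  obtain ⟨p, q, hp, hq, h⟩ := h
  rcases gp_di hp with e | ⟨s, κ, h0, t⟩
  · exact .inl ((h.and e).mono fun n h => by rw [h.1.2, h.2, zero_div])
  rcases gp_di hq with e | ⟨s', κ', h0', t'⟩
  · obtain ⟨n, h⟩ := (h.and e).exists
    exact absurd h.2 h.1.1
  refine .inr ⟨s - s', κ / κ', div_ne_zero h0 h0', (t.div t' h0').congr' ?_⟩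
  filter_upwards [h, ev_pos] with n h hn
  rw [Pi.div_apply, h.2, rpow_sub hn, div_div_div_comm]

lemma cv {B : ℝ} (h : Rt a) (hB : ∀ᶠ n in atTop, |a n| ≤ B) : Cv a := by
  rcases di h with e | ⟨s, κ, h0, t⟩
  · exact ⟨0, tendsto_const_nhds.congr' (e.mono fun _ => Eq.symm)⟩
  rcases lt_trichotomy s 0 with hs | rfl | hs
  · exact ⟨_, (t.mul (tend_neg hs)).congr' (ev_pos.mono fun n hn =>
      div_mul_cancel₀ _ (rpow_pos_of_pos hn s).ne')⟩
  · exact ⟨κ, by simpa using t⟩
  refine absurd (tendsto_nhds_unique t (squeeze_zero_norm' ?_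
    (by simpa using (tend_neg (neg_lt_zero.2 hs)).const_mul B))) h0
  filter_upwards [hB, ev_pos] with n h hn
  rw [norm_eq_abs, abs_div, abs_of_pos (rpow_pos_of_pos hn s), rpow_neg hn.le]
  exact div_le_div_of_nonneg_right h (rpow_pos_of_pos hn s).le

lemma gp_poly (p : Polynomial ℝ) (s : ℝ) : GP fun n => p.eval ((n : ℝ) ^ s) := by
  simpa only [Polynomial.eval_eq_sum_range, rpow_mul_natCast (Nat.cast_nonneg _)] using
    gp_sum (range (p.natDegree + 1)) fun k _ => gp_mono (p.coeff k) (s * k)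

end Rt66

open Rt66 in
/-- **task 948** -/
theorem rtStmt : RtStmt where
  const c := of_gp (gp_const c)
  rpow s := of_gp (by simpa using gp_mono 1 s)
  sqrt := of_gp (by simpa only [sqrt_eq_rpow, one_mul] using gp_mono 1 (1 / 2))
  poly p q := of_gp (by
    simpa only [rpow_one, rpow_neg (Nat.cast_nonneg _), ← sqrt_eq_rpow] using
      gp_mul (gp_poly p 1) (gp_poly q (-(1 / 2))))
  add _ _ := add
  mul _ _ := mul
  inv _ := inv
  sum _ S a h := by
    induction S using Finset.cons_induction with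
    | empty => simpa using of_gp (gp_const 0)
    | cons i S hi ih =>
      simpa only [sum_cons] using
        add (h i (mem_cons_self _ _)) (ih fun j hj => h j (mem_cons_of_mem hj))
  congr _ _ := congr
  dich _ := di
  cv _ _ := cv

end Crest.Agent.T157.Lm

end
end

-- ▼ part T157/LmSeam_10
section

/-!
# Row 157, block B/S5 (helper10): the seam between networks and the limit theory
-/

set_option autoImplicit false

noncomputable section

namespace Crest.Agent.T157.Lm

open MeasureTheory Real Filter Topology Matrix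
open Crest.ProbabilityR.SpinGlassDynamics (Pair disorderLaw gibbsWeight)
open Crest.Agent.R238.Gap (E)
open Crest.Agent.R253.Meh74 (gam)
open Crest.Agent.T157.E (Cube sv mean Jmat)
open Crest.Agent.T157.Tap (V Mx)
open Crest.Agent.T157.Eig (opn nrm)
open Crest.Agent.T157.Pl (one cmul)
open Crest.Agent.T157.Rn (fl)
open Crest.Agent.T157.Rec (grad)

namespace Seam10

variable {L n : ℕ} {β B : ℝ}

lemma Jm_symm (z : E (Nv L n)) : (Jm β z)ᵀ = Jm β z := by
  ext i j
  simp only [Jm, transpose_apply, of_apply, Sym2.eq_swap (a := j), eq_comm (a := j)]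

lemma Jm_lip (S : SkStmt) (z z' : E (Nv L n)) :
    √n * opn (Jm β z - Jm β z') ≤ 4 * |β| * ‖z - z'‖ := by
  have h0 := Eig.opn_nonneg (Jm β z)
  have h1 := Eig.opn_nonneg (Jm β z')
  have e : ∀ y : E (Nv L n), opn (Jm β y) ≤ opn (Jm β z) + opn (Jm β z') + 1 →
      Jt β (opn (Jm β z) + opn (Jm β z') + 1) y = Jm β y := fun y hy => by
    rw [Jt, max_eq_left ((div_le_one (by linarith)).2 hy), inv_one, one_smul]
  have h := (S.Jt_lip L β (opn (Jm β z) + opn (Jm β z') + 1) n z z' (by linarith)).2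
  rw [e z (by linarith), e z' (by linarith)] at h
  refine (mul_le_mul_of_nonneg_left h (sqrt_nonneg _)).trans ?_
  rw [← mul_assoc]
  refine mul_le_mul_of_nonneg_right ?_ (norm_nonneg _)
  rw [mul_div_assoc', mul_comm, mul_div_assoc]
  exact mul_le_of_le_one_right (by positivity) (div_self_le_one _)

lemma Jm_gz (S : SkStmt) (σ : Cube n) (z : E (Nv L n)) :
    Jm β ((sk β 0 n).gz σ z) = cj σ (Jm β z) := by
  ext i j
  rw [S.Jm_gz, cj, mul_diagonal, diagonal_mul]; ring

lemma Jm_act (S : SkStmt) (p : Equiv.Perm (Fin n)) (z : E (Nv L n)) :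
    Jm β (act p z) = (Jm β z).submatrix p.symm p.symm := by
  ext i j
  simpa using S.Jm_act L β n p z (p.symm i) (p.symm j)

lemma Jm_zof (g : Pair n → ℝ) : Jm β (zof L β g) = β • Jmat n g := by
  ext i j
  rw [Jm, of_apply, Matrix.smul_apply, smul_eq_mul]
  split_ifs with h
  · rw [h, E.Jmat_diag, mul_zero]
  · rw [Lim32.co_zof β g h, sub_add_cancel, Rn.O10.emb_mk, ← mul_assoc,
      div_mul_cancel₀ _ (Rn.O10.sqrt_ne i)]

lemma c0_lip {m : ℕ} {F : E m → ℝ} (hB : 0 ≤ B) (hF : ∀ z z', |F z - F z'| ≤ B * ‖z - z'‖) :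
    Hm.C0 F := by
  refine ⟨(LipschitzWith.of_dist_le_mul (K := ⟨B, hB⟩) fun x y => by
    rw [Real.dist_eq, dist_eq_norm]; exact hF x y).continuous, |F 0| + B, 1, fun x => ?_⟩
  have h1 := hF x 0
  have h2 := abs_sub_abs_le_abs_sub (F x) (F 0)
  have h3 := mul_nonneg (abs_nonneg (F 0)) (norm_nonneg x)
  rw [sub_zero] at h1
  nlinarith

lemma pr_const {m : ℕ} (F : E m → ℝ) (z : E m) : Hm.pr 1 F z = Hm.pr 1 F 0 := by
  obtain ⟨c, r, hr, e⟩ := Hm.mem_succ.1 (Hm.pr_mem 1 F)
  have : ∀ j, r j = 0 := fun j => Hm.mem_zero.1 (hr j)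
  rw [e]; simp [this]

section cov
variable {Φ : Mx n → Cube n → ℝ} (h : Cov Φ B)
include h

lemma B0 : 0 ≤ B := (Finset.sum_nonneg fun _ _ => mul_self_nonneg _).trans (h.grad 0 (one n) (by simp))

lemma cj_one {J : Mx n} (hJ : Jᵀ = J) (σ : Cube n) : Φ (cj σ J) (one n) = Φ J σ := by
  rw [← Pl.cmul_self σ, h.gauge J σ σ hJ]

lemma lip (S : SkStmt) (z z' : E (Nv L n)) :
    |Φ (Jm β z) (one n) - Φ (Jm β z') (one n)| ≤ B * (4 * |β|) * ‖z - z'‖ := by
  rw [mul_assoc]
  exact (h.lip _ _ _ (Jm_symm z) (Jm_symm z')).trans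
    (mul_le_mul_of_nonneg_left (Jm_lip S z z') (B0 h))

lemma D_eq (S : SkStmt) (c : ℝ) (k : Fin n) (z : E (Nv L n)) :
    (sk β 0 n).D k (fun z => Φ (Jm β z) (one n) - c) z = -2 * grad (Φ (Jm β z)) (one n) k := by
  rw [GS.D, GS.R, Jm_gz S, cj_one h (Jm_symm z), Rec.grad_eq, Pl.sv_one, Pi.one_apply]
  change _ = -2 * (1 * (_ - Φ _ (fl _ _)) / 2)
  ring

lemma grad_cj {J : Mx n} (hJ : Jᵀ = J) (s x : Cube n) :
    grad (Φ (cj s J)) (cmul s x) = sv s * grad (Φ J) x := by
  funext i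
  have e : Rec.fl (cmul s x) i = cmul s (Rec.fl x i) := by
    rw [Rec.fl, Rec.fl, Pl.cmul_update]
    congr 1
    unfold cmul; cases s i <;> cases x i <;> rfl
  rw [Pi.mul_apply, Rec.grad_eq, Rec.grad_eq, e, h.gauge J s x hJ, h.gauge J s _ hJ, Pl.sv_cmul,
    Pi.mul_apply]
  ring

end cov

lemma EN_le {ι : Type} [Fintype ι] (c d : ι → ℝ) {X : Z.Nt ι} {M : ℝ}
    (hM : ∀ n J a i, |X n J a i| ≤ M) (J : Mx n) (σ : V n) (i : Fin n) : |EN c d X n J σ i| ≤ M := by
  have : IsProbabilityMeasure (Z.RL c d σ) := Measure.isProbabilityMeasure_map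
    (show Continuous (Z.rows c d σ) by unfold Z.rows; fun_prop).measurable.aemeasurable
  simpa [EN] using norm_integral_le_of_norm_le_const (μ := Z.RL c d σ) (f := fun a => X n J a i) (C := M)
    (.of_forall fun a => hM n J a i)

/-- the planted family -/
def FF (β : ℝ) (Φ : Of) : F0 0 := fun n _ z =>
  Φ n (Jm β z) (one n) - Hm.pr 1 (fun z : E (Nv 0 n) => Φ n (Jm β z) (one n)) 0

/-- the error of the network -/
def HH {ι : Type} [Fintype ι] (Φ : Of) (c d : ι → ℝ) (X : Z.Nt ι) : Of := fun n J x =>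
  nrm (√n • grad (Φ n J) x - EN c d X n J (sv x)) ^ 2 / n

lemma D_FF {Φ : Of} (h : Cov (Φ n) B) (S : SkStmt) (k : Fin n) (z : E (Nv 0 n)) :
    (sk β 0 n).D k (FF β Φ n (x0 n)) z = -2 * grad (Φ n (Jm β z)) (one n) k := D_eq h S _ k z

lemma nrm2 (v : V n) : nrm v ^ 2 = ∑ i, v i ^ 2 := by
  rw [Eig.nrm_sq]; simp only [dotProduct, pow_two]

end Seam10

open Seam10 in
/-- **the seam** -/
theorem seamGlue : SeamGlue := by
  intro _ _ hy S li lim tr net lay β b0 b1 Φ B hC hN
  have hl : ∀ᶠ n in atTop, Eqv (FF β Φ n) ∧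
      ∀ x z z', |FF β Φ n x z - FF β Φ n x z'| ≤ B * (4 * |β|) * ‖z - z'‖ := by
    filter_upwards [hC] with n h
    refine ⟨fun p x z => ?_, fun x z z' => ?_⟩
    · simp only [FF, Jm_act S]
      exact congrArg (· - _) (h.perm _ p.symm (one n) (Jm_symm z))
    · simp only [FF, sub_sub_sub_cancel_right]
      exact lip h S z z'
  have hA : Adm (FF β Φ) := by
    filter_upwards [hC, hl] with n h h1
    refine ⟨fun x => ?_, h1.1⟩
    have := c0_lip (mul_nonneg (B0 h) (by positivity)) (h1.2 x)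
    exact ⟨this.c.measurable, this.memLp⟩
  have hD : ∀ᶠ n in atTop, ∀ z, ∑ k, (sk β 0 n).D k (FF β Φ n (x0 n)) z ^ 2 ≤ 4 * B := by
    filter_upwards [hC] with n h z
    have := h.grad _ (one n) (Jm_symm (β := β) z)
    simp only [D_FF h S, mul_pow, ← Finset.mul_sum]
    simp only [dotProduct, ← pow_two] at this
    linarith
  have hA' : Adm (dF β 0 (FF β Φ)) := by
    filter_upwards [hA, hD] with n h1 h2
    refine ⟨fun x => ?_, (S.eqv_P 0 β 0 n _ h1.2).2.2.2⟩
    have m : Measurable (dF β 0 (FF β Φ) n x) :=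
      (((h1.1 _).1.comp (Lim32.meas_gz _ _)).sub (h1.1 _).1).const_mul _
    refine ⟨m, MemLp.of_bound m.aestronglyMeasurable (√n * √(4 * B)) (.of_forall fun z => ?_)⟩
    rw [dF, norm_mul, Real.norm_of_nonneg (sqrt_nonneg _)]
    refine mul_le_mul_of_nonneg_left (Real.abs_le_sqrt ?_) (sqrt_nonneg _)
    exact (Finset.single_le_sum (f := fun k => (sk β 0 n).D k (FF β Φ n (x0 n)) z ^ 2)
      (fun _ _ => sq_nonneg _) (Finset.mem_univ _)).trans (h2 z)
  have hW : Wk (dF β 0 (FF β Φ)) := by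
    refine li.wclosed _ _ _ hA' fun ε hε => ?_
    obtain ⟨ι, _, c, d, X, hX, ⟨M, hM⟩, hw⟩ := hN (ε / 8) (by positivity)
    have hG := li.smul _ _ (fun _ => -2) _ ⟨_, tendsto_const_nhds⟩
      (lay.cl _ _ _ (net β b0 b1 ι c d X hX))
    refine ⟨_, (li.wk _ _ _ hG).1, ?_⟩
    have key : ∀ᶠ n in atTop, 0 < n ∧ ∃ u : Fin n → E (Nv 0 n) → ℝ, (∀ k, M2 (u k)) ∧
        (∀ z, HH Φ c d X n (Jm β z) (one n) = ∑ k, (4 * n : ℝ)⁻¹ * u k z ^ 2) ∧
        n2 (dF β 0 (FF β Φ) - fun n x z => -2 * EW (nf β c d X) n x (up _ z)) n =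
          (∑ k, sq (u k)) / n := by
      filter_upwards [hC, hA', hG.1, eventually_gt_atTop 0] with n h h1 h2 hn
      refine ⟨hn, fun k z => dF β 0 (FF β Φ) n (fun _ => k) z -
        -2 * EW (nf β c d X) n (fun _ => k) (up _ z), fun k =>
          ⟨(h1.1 _).1.sub (h2.1 _).1, (h1.1 _).2.sub (h2.1 _).2⟩, fun z => ?_, ?_⟩
      · simp only [HH, nrm2, dF, D_FF h S, lay.en β ι c d X hX, Pl.sv_one, Finset.sum_div]
        refine Finset.sum_congr rfl fun k _ => ?_
        simp only [Pi.sub_apply, Pi.smul_apply, smul_eq_mul]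
        ring
      · rw [n2, av, Fintype.card_unit, pow_one]
        exact congrArg (· / _) (Fintype.sum_equiv (Equiv.funUnique Unit (Fin n)) _ _ fun _ => rfl)
    have ht := tr β b0 b1 0 (HH Φ c d X) (2 * B + 2 * M ^ 2) (ε / 8) (ε / 8) (by positivity) (by
      filter_upwards [hC, key] with n h ⟨hn, u, h1, h2, _⟩
      have n0 : (0 : ℝ) < n := by exact_mod_cast hn
      refine ⟨?_, fun J s x hJ => ?_, fun J x hJ => ?_⟩
      · simp only [h2]
        exact Finset.measurable_sum _ fun k _ => ((h1 k).1.pow_const 2).const_mul _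
      · simp only [HH, nrm2, grad_cj h hJ, lay.gauge ι c d X hX, Pi.sub_apply, Pi.smul_apply,
          Pi.mul_apply, smul_eq_mul]
        refine congrArg (· / _) (Finset.sum_congr rfl fun i _ => ?_)
        have := Rec.sv_mul_self s i
        linear_combination (√n * grad (Φ n J) x i - EN c d X n J (sv x) i) ^ 2 * this
      · have a := h.grad J x hJ
        rw [HH, abs_of_nonneg (by positivity), div_le_iff₀ n0, nrm2]
        calc _ ≤ ∑ i, (2 * (n * (grad (Φ n J) x i * grad (Φ n J) x i)) + 2 * M ^ 2) := by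
              refine Finset.sum_le_sum fun i _ => ?_
              have b := abs_le.1 (EN_le c d hM J (sv x) i)
              have b' := sq_le_sq' b.1 b.2
              have e : (√n * grad (Φ n J) x i) ^ 2 = n * (grad (Φ n J) x i * grad (Φ n J) x i) := by
                rw [mul_pow, sq_sqrt n0.le, pow_two]
              simp only [Pi.sub_apply, Pi.smul_apply, smul_eq_mul]
              nlinarith [sq_nonneg (√n * grad (Φ n J) x i + EN c d X n J (sv x) i)]
          _ = 2 * (n * (grad (Φ n J) x ⬝ᵥ grad (Φ n J) x)) + 2 * M ^ 2 * n := by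
              simp only [Finset.sum_add_distrib, ← Finset.mul_sum, dotProduct, Finset.sum_const,
                Finset.card_univ, Fintype.card_fin, nsmul_eq_mul]
              ring
          _ ≤ _ := by nlinarith) (hw.mono (by
      filter_upwards [eventually_gt_atTop 0] with n hn g hg
      have n0 : (0 : ℝ) < n := by exact_mod_cast hn
      exact (SL.mean_div_const _ _ _).trans_le ((div_le_iff₀ n0).2 hg)))
    filter_upwards [key, ht] with n ⟨hn, u, h1, h2, h3⟩ h4
    have n0 : (0 : ℝ) < n := by exact_mod_cast hn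
    simp only [h2] at h4
    rw [integral_finsetSum _ fun k _ => (h1 k).2.integrable_sq.const_mul _] at h4
    simp only [integral_const_mul, ← Finset.mul_sum] at h4
    rw [h3, div_le_iff₀ n0]
    rw [inv_mul_le_iff₀ (by positivity)] at h4
    simp only [sq]
    linarith
  refine (lim 0 β (FF β Φ) (4 * B) (fun n x z z' e => ?_) hA ⟨(B * (4 * |β|)) ^ 2, ?_⟩
    (.inr ⟨li.ti_lip _ _ _ _ hl, hW⟩) hD).congr (Top.whp_of_eventually ?_)
  · have : Jm β z = Jm β z' := by
      ext i j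
      simp only [Jm, of_apply]
      split_ifs with h
      · rfl
      · rw [e i j h]
    simp only [FF, this]
  · filter_upwards [hC] with n h
    have := hy.lip _ _ _ (lip (L := 0) (β := β) h S) 1
    simp only [pr_const _ _, Nat.cast_one, one_mul] at this
    rw [n2, av, Fintype.sum_unique, Fintype.card_empty, pow_zero, div_one]
    exact this
  · filter_upwards [hC] with n h g
    refine ⟨Hm.pr 1 (fun z : E (Nv 0 n) => Φ n (Jm β z) (one n)) 0, fun x => ?_⟩
    rw [obs, GS.orb, FF, Jm_gz S, cj_one h (Jm_symm _), Jm_zof, Of.ob, sub_add_cancel]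


end Crest.Agent.T157.Lm

end
end

-- ▼ part T157/LmSk_62
section

/-!
# Row 157, block B/S5 (helper62): the concrete gauge system (`Lm.skStmt`)
-/

set_option autoImplicit false

noncomputable section

namespace Crest.Agent.T157.Lm

open MeasureTheory ProbabilityTheory Real Filter Topology Finset
open Crest.ProbabilityR.SpinGlassDynamics (Pair)
open Crest.Agent.R238.Gap (E)
open Crest.Agent.R253.Meh74 (gam)
open Crest.Agent.R339.Guerra (G mp_comp mp_int)
open Crest.Agent.T157.E (Cube sv hb hbPow hbCt Jmat)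
open Crest.Agent.T157.Chain22 (sg)
open Crest.Agent.T157.Hm (Pl)
open Crest.Agent.T157.Rn (fl)
open Crest.Agent.T157.Pl (one)
open Crest.Agent.T157.Eig

namespace Sk62

/-! ### relabelling of the cube -/

section cube
variable {n : ℕ} (p : Equiv.Perm (Fin n))

/-- relabelled configuration -/
def tau : Equiv.Perm (Cube n) := Equiv.arrowCongr p (Equiv.refl Bool)

lemma tau_apply (σ : Cube n) (k : Fin n) : tau p σ (p k) = σ k := by
  simp [tau]

lemma tau_update (σ : Cube n) (k : Fin n) (b : Bool) :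
    Function.update (tau p σ) (p k) b = tau p (Function.update σ k b) := by
  funext j
  obtain ⟨j, rfl⟩ := p.surjective j
  by_cases h : j = k
  · subst h; simp [tau_apply]
  · rw [Function.update_of_ne (p.injective.ne h), tau_apply, tau_apply, Function.update_of_ne h]

lemma tau_one : tau p (one n) = one n := rfl

lemma tau_fl (σ : Cube n) (k : Fin n) : fl (tau p σ) (p k) = tau p (fl σ k) := by
  rw [fl, tau_apply, tau_update, fl]

variable {p} {w w' : Cube n → ℝ}

lemma hb_tau (h : ∀ σ, w' (tau p σ) = w σ) (x y : Cube n) :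
    hb w' (tau p x) (tau p y) = hb w x y := by
  rw [hb, hb, ← Equiv.sum_comp p]
  refine congrArg _ (sum_congr rfl fun i _ => ?_)
  rw [tau_update, tau_update, h, h, h]
  refine if_congr ?_ rfl rfl
  rw [p.surjective.forall]
  simp only [tau_apply, p.injective.ne_iff]

lemma hbPow_tau (h : ∀ σ, w' (tau p σ) = w σ) :
    ∀ (k : ℕ) (x y : Cube n), hbPow w' k (tau p x) (tau p y) = hbPow w k x y
  | 0, x, y => by simp only [hbPow, (tau p).injective.eq_iff]
  | k + 1, x, y => by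
    rw [hbPow, hbPow, ← Equiv.sum_comp (tau p)]
    exact sum_congr rfl fun z _ => by rw [hbPow_tau h k, hb_tau h]

lemma sg_tau (h : ∀ σ, w' (tau p σ) = w σ) {f f' : Cube n → ℝ} (hf : ∀ σ, f' (tau p σ) = f σ)
    (t : ℝ) (x : Cube n) : sg w' t f' (tau p x) = sg w t f x := by
  rw [sg, sg, ← Equiv.sum_comp (tau p)]
  exact sum_congr rfl fun z _ => by simp only [hbCt, hbPow_tau h, hf]

end cube

/-! ### symmetries of a gauge system -/

/-- a symmetry -/
structure Sy {m n : ℕ} (S : GS m n) (p : Equiv.Perm (Fin n)) (q : Equiv.Perm (Fin m))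
    (A : E m → E m) : Prop where
  inc : ∀ k j, S.inc (p k) (q j) = S.inc k j
  α : ∀ j, S.α (q j) = S.α j
  A : ∀ z j, A z (q j) = z j

section sy
variable {m n : ℕ} {S : GS m n} {p : Equiv.Perm (Fin n)} {q : Equiv.Perm (Fin m)} {A : E m → E m}
  {F F' : E m → ℝ}

lemma Sy.chi (s : Sy S p q A) (σ : Cube n) (j : Fin m) : S.chi (tau p σ) (q j) = S.chi σ j := by
  rw [GS.chi, GS.chi, ← Equiv.prod_comp p]
  exact prod_congr rfl fun k _ => by rw [s.inc, sv, sv, tau_apply]

lemma Sy.gz (s : Sy S p q A) (σ : Cube n) (z : E m) : S.gz (tau p σ) (A z) = A (S.gz σ z) := by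
  ext j
  obtain ⟨j, rfl⟩ := q.surjective j
  rw [s.A]
  show S.chi _ _ * (_ + _) - _ = S.chi _ _ * (_ + _) - _
  rw [s.chi, s.α, s.A]

lemma Sy.w (s : Sy S p q A) (z : E m) (σ : Cube n) : S.w (A z) (tau p σ) = S.w z σ := by
  rw [GS.w, GS.w, ← Equiv.sum_comp q]
  simp only [s.chi, s.α, s.A]

lemma Sy.R (s : Sy S p q A) (k : Fin n) (z : E m) : S.R (p k) (A z) = A (S.R k z) := by
  rw [GS.R, GS.R, ← s.gz, ← tau_fl, tau_one]

lemma Sy.c (s : Sy S p q A) (k : Fin n) (z : E m) : S.c (p k) (A z) = S.c k z := by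
  rw [GS.c, GS.c, GS.h, GS.h, ← Equiv.sum_comp q]
  simp only [s.inc, s.α, s.A]

lemma Sy.D (s : Sy S p q A) (h : ∀ z, F' (A z) = F z) (k : Fin n) (z : E m) :
    S.D (p k) F' (A z) = S.D k F z := by rw [GS.D, GS.D, s.R, h, h]

lemma Sy.L (s : Sy S p q A) (h : ∀ z, F' (A z) = F z) (z : E m) : S.L F' (A z) = S.L F z := by
  rw [GS.L, GS.L, ← Equiv.sum_comp p]
  simp only [s.c, s.D h]

lemma Sy.P (s : Sy S p q A) : ∀ (j : ℕ) {F F' : E m → ℝ}, (∀ z, F' (A z) = F z) →
    ∀ z, S.P^[j] F' (A z) = S.P^[j] F z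
  | 0, _, _, h => h
  | j + 1, _, _, h => s.P j fun z => by rw [GS.P, GS.P, h, s.L h]

lemma Sy.Rz (s : Sy S p q A) (h : ∀ z, F' (A z) = F z) (ζ : ℝ) (z : E m) :
    S.Rz ζ F' (A z) = S.Rz ζ F z := by simp only [GS.Rz, s.P _ h]

lemma Sy.T (s : Sy S p q A) (h : ∀ z, F' (A z) = F z) (t : ℝ) (z : E m) :
    S.T t F' (A z) = S.T t F z := by
  rw [GS.T, GS.T, ← tau_one p]
  exact sg_tau (s.w z) (fun σ => by rw [GS.orb, GS.orb, s.gz, h]) t _

lemma pl_comp (h : ∀ z j, A z (q j) = z j) : ∀ {D : ℕ} {f : E m → ℝ}, f ∈ Pl m D →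
    (fun z => f (A z)) ∈ Pl m D
  | 0, _, hf => by rw [Hm.mem_zero.1 hf]; exact zero_mem _
  | _ + 1, _, ⟨c, r, hr, rfl⟩ => ⟨c, fun j z => r (q j) (A z), fun j => pl_comp h (hr _),
    funext fun z => by simp only [← Equiv.sum_comp q fun j => A z j * r j (A z), h]⟩

end sy

/-! ### Gaussian measure -/

lemma mp_to (m : ℕ) : MeasurePreserving (WithLp.toLp 2) (G (Fin m)) (gam m) :=
  ⟨WithLp.measurable_toLp _ _, map_pi_eq_stdGaussian⟩

lemma mp_of (m : ℕ) : MeasurePreserving WithLp.ofLp (gam m) (G (Fin m)) :=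
  MeasurePreserving.symm (MeasurableEquiv.toLp 2 _) (mp_to m)

/-! ### the SK system -/

variable {L n : ℕ} {β K : ℝ} {ρ : Fin L → ℝ}

lemma co_pt (f : Ix L n → ℝ) (e : Ix L n) : co (pt f) e = f e := by simp [co, pt]

/-- relabelled variables -/
def pe (L : ℕ) (p : Equiv.Perm (Fin n)) : Equiv.Perm (Ix L n) where
  toFun := Sum.map (Sym2.map p) (Prod.map id p)
  invFun := Sum.map (Sym2.map p.symm) (Prod.map id p.symm)
  left_inv := by rintro (e | e) <;> simp [Sym2.map_map, Prod.map]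
  right_inv := by rintro (e | e) <;> simp [Sym2.map_map, Prod.map]

/-- relabelled coordinates -/
def pf (L : ℕ) (p : Equiv.Perm (Fin n)) : Equiv.Perm (Fin (Nv L n)) :=
  ((ix L n).symm.trans (pe L p)).trans (ix L n)

lemma act_apply (p : Equiv.Perm (Fin n)) (z : E (Nv L n)) (j : Fin (Nv L n)) :
    act p z j = z ((pf L p).symm j) := rfl

lemma inc_inl (k : Fin n) (e : Sym2 (Fin n)) :
    (sk β ρ n).inc k (ix L n (.inl e)) = decide (k ∈ e) := by simp only [sk, Equiv.symm_apply_apply]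
lemma inc_inr (k : Fin n) (e : Fin L × Fin n) :
    (sk β ρ n).inc k (ix L n (.inr e)) = decide (e.2 = k) := by simp only [sk, Equiv.symm_apply_apply]
lemma al_inl (e : Sym2 (Fin n)) : (sk β ρ n).α (ix L n (.inl e)) = if e.IsDiag then 0 else β / √n := by
  simp only [sk, Equiv.symm_apply_apply]
lemma al_inr (e : Fin L × Fin n) : (sk β ρ n).α (ix L n (.inr e)) = ρ e.1 := by
  simp only [sk, Equiv.symm_apply_apply]

lemma pf_ix (p : Equiv.Perm (Fin n)) (e : Ix L n) : pf L p (ix L n e) = ix L n (pe L p e) := by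
  simp [pf]

lemma sy (p : Equiv.Perm (Fin n)) : Sy (sk β ρ n) p (pf L p) (act p) where
  inc k j := by
    obtain ⟨e | e, rfl⟩ := (ix L n).surjective j
    · rw [pf_ix]
      exact (inc_inl _ _).trans (Eq.trans (by simp) (inc_inl _ _).symm)
    · rw [pf_ix]
      exact (inc_inr _ _).trans (Eq.trans (by simp) (inc_inr _ _).symm)
  α j := by
    obtain ⟨e | e, rfl⟩ := (ix L n).surjective j
    · rw [pf_ix]
      refine (al_inl _).trans (Eq.trans ?_ (al_inl _).symm)
      induction e using Sym2.ind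
      simp
    · rw [pf_ix]
      exact (al_inr _).trans (al_inr e).symm
  A z j := by rw [act_apply, Equiv.symm_apply_apply]

lemma act_symm (p : Equiv.Perm (Fin n)) (z : E (Nv L n)) : act p.symm (act p z) = z := by
  ext j
  exact (sy (β := 0) (ρ := 0) p).A z j

lemma mp (p : Equiv.Perm (Fin n)) : MeasurePreserving (act p : E (Nv L n) → _) (gam _) (gam _) :=
  (mp_to _).comp ((mp_comp _ (pf L p).symm.injective).comp (mp_of _))

lemma mp_mix (L n : ℕ) : MeasurePreserving (fun p : E (Nv L n) × E (Nv L n) => mix p.1 p.2)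
    ((gam _).prod (gam _)) (gam _) := by
  let s : Fin (Nv L n) → Fin (Nv L n) ⊕ Fin (Nv L n) := fun j =>
    Sum.elim (fun _ => .inl j) (fun _ => .inr j) ((ix L n).symm j)
  have hs : Function.Injective s := Function.LeftInverse.injective (g := Sum.elim id id) fun j => by
    simp only [s]; cases (ix L n).symm j <;> rfl
  have h := (mp_to _).comp ((mp_comp s hs).comp ((measurePreserving_sumPiEquivProdPi_symm
    fun _ : Fin (Nv L n) ⊕ Fin (Nv L n) => gaussianReal 0 1).comp ((mp_of _).prod (mp_of _))))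
  convert h using 1
  funext p
  ext j
  obtain ⟨e | e, rfl⟩ := (ix L n).surjective j
  · refine (co_pt _ _).trans ?_
    simp [s, co, MeasurableEquiv.sumPiEquivProdPi]
  · refine (co_pt _ _).trans ?_
    simp [s, co, MeasurableEquiv.sumPiEquivProdPi]

lemma sum_row (k : Fin n) (f : Sym2 (Fin n) → ℝ) :
    ∑ e, (if k ∈ e then f e else 0) = ∑ j, f s(k, j) := by
  rw [← sum_filter]
  refine (sum_bij (fun j _ => s(k, j)) (fun j _ => by simp) (fun _ _ _ _ h => Sym2.congr_right.1 h)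
    (fun e he => ?_) fun _ _ => rfl).symm
  obtain ⟨j, rfl⟩ := Sym2.mem_iff_exists.1 (mem_filter.1 he).2
  exact ⟨j, mem_univ _, rfl⟩

lemma sum_inc (k : Fin n) (f : Fin (Nv L n) → ℝ) :
    ∑ j, (if (sk β ρ n).inc k j = true then f j else 0) =
      ∑ j, f (ix L n (.inl s(k, j))) + ∑ l, f (ix L n (.inr (l, k))) := by
  rw [← (ix L n).sum_comp, Fintype.sum_sum_type, Fintype.sum_prod_type]
  simp only [inc_inl, inc_inr, decide_eq_true_eq, sum_ite_eq', mem_univ, if_true]
  rw [sum_row k fun e => f (ix L n (.inl e))]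

lemma ok (hn : 0 < n) : (sk β ρ n).Ok (β ^ 2 + ∑ l, ρ l ^ 2) where
  pos := hn
  two j := by
    obtain ⟨e | e, rfl⟩ := (ix L n).surjective j
    · induction e using Sym2.ind with
      | _ a b =>
        refine (card_le_card (t := {a, b}) fun k hk => ?_).trans card_le_two
        simpa [inc_inl] using hk
    · refine (card_le_card (t := {e.2, e.2}) fun k hk => ?_).trans card_le_two
      simpa [inc_inr, eq_comm] using hk
  row k := by
    have n0 : (0 : ℝ) < n := by exact_mod_cast hn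
    rw [sum_inc k fun j => (sk β ρ n).α j ^ 2]
    simp only [al_inl, al_inr]
    refine add_le_add_left ((sum_le_sum (g := fun _ => β ^ 2 / n) fun j _ => ?_).trans_eq ?_) _
    · split_ifs
      · rw [zero_pow two_ne_zero]; positivity
      · rw [div_pow, sq_sqrt n0.le]
    · rw [sum_const, card_univ, Fintype.card_fin, nsmul_eq_mul, mul_div_cancel₀ _ n0.ne']

lemma h_eq (k : Fin n) (z : E (Nv L n)) : (sk β ρ n).h k z =
    ∑ j, Jm β z k j + ∑ l, ρ l * (co z (.inr (l, k)) + ρ l) := by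
  rw [GS.h, sum_inc k fun j => (sk β ρ n).α j * (z j + (sk β ρ n).α j)]
  simp only [al_inl, al_inr, Sym2.mk_isDiag_iff, Jm, Matrix.of_apply, co]
  refine congrArg (· + _) (sum_congr rfl fun j _ => ?_)
  split_ifs <;> simp

lemma Jm_act (p : Equiv.Perm (Fin n)) (z : E (Nv L n)) (i j : Fin n) :
    Jm β (act p z) (p i) (p j) = Jm β z i j := by
  simp [Jm, act, co_pt]

lemma Jm_gz (σ : Cube n) (z : E (Nv L n)) (i j : Fin n) :
    Jm β ((sk β ρ n).gz σ z) i j = sv σ i * sv σ j * Jm β z i j := by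
  simp only [Jm, Matrix.of_apply]
  split_ifs with h
  · rw [mul_zero]
  have e : (sk β ρ n).chi σ (ix L n (.inl s(i, j))) = sv σ i * sv σ j := by
    rw [GS.chi, ← prod_pair h, ← prod_filter]
    refine prod_congr ?_ fun _ _ => rfl
    ext k
    simp [inc_inl]
  show _ * ((sk β ρ n).chi σ _ * (z _ + _) - _ + _) = _
  rw [e, al_inl, if_neg (Sym2.mk_isDiag_iff.not.2 h), co]
  ring

lemma opn_act (p : Equiv.Perm (Fin n)) (z : E (Nv L n)) : opn (Jm β (act p z)) = opn (Jm β z) := by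
  have h : ∀ (p : Equiv.Perm (Fin n)) (z : E (Nv L n)), opn (Jm β z) ≤ opn (Jm β (act p z)) :=
    fun p z => le_of_eq_of_le (congrArg opn (Matrix.ext fun i j => (Jm_act p z i j).symm))
      (opn_submatrix_le (Jm β (act p z)) p.injective)
  refine le_antisymm ?_ (h p z)
  simpa only [act_symm] using h p.symm (act p z)

lemma opn_sign {A B : Matrix (Fin n) (Fin n) ℝ} {σ : Cube n}
    (h : ∀ i j, B i j = sv σ i * sv σ j * A i j) : opn B = opn A := by
  have s2 : ∀ i, sv σ i * sv σ i = 1 := fun i => E.spin_mul_self _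
  have d : opn (Matrix.diagonal (sv σ)) ≤ 1 := opn_diagonal_le zero_le_one fun i => by
    rw [← sq_le_one_iff_abs_le_one, _root_.sq, s2]
  have k : ∀ {A B : Matrix (Fin n) (Fin n) ℝ}, (∀ i j, B i j = sv σ i * sv σ j * A i j) →
      opn B ≤ opn A := fun {A B} h => by
    have e : B = Matrix.diagonal (sv σ) * A * Matrix.diagonal (sv σ) := by
      ext i j; rw [Matrix.mul_diagonal, Matrix.diagonal_mul, h]; ring
    have a1 := opn_mul_le (Matrix.diagonal (sv σ) * A) (Matrix.diagonal (sv σ))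
    have a2 := opn_mul_le (Matrix.diagonal (sv σ)) A
    rw [e]
    nlinarith [opn_nonneg A, opn_nonneg (Matrix.diagonal (sv σ) * A),
      opn_nonneg (Matrix.diagonal (sv σ))]
  refine le_antisymm (k h) (k fun i j => ?_)
  rw [h, ← mul_assoc, mul_mul_mul_comm, s2, s2, one_mul, one_mul]

/-- radial retraction -/
lemma retr (hK : 0 < K) (A B : Matrix (Fin n) (Fin n) ℝ) :
    opn ((max 1 (opn A / K))⁻¹ • A) ≤ K ∧
    opn ((max 1 (opn A / K))⁻¹ • A - (max 1 (opn B / K))⁻¹ • B) ≤ 2 * opn (A - B) := by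
  have k : ∀ A : Matrix (Fin n) (Fin n) ℝ, (max 1 (opn A / K))⁻¹ * opn A ≤ K := fun A => by
    rw [inv_mul_le_iff₀ (lt_max_of_lt_left one_pos), ← div_le_iff₀ hK]; exact le_max_right _ _
  set a := max 1 (opn A / K) with ha
  set b := max 1 (opn B / K) with hb
  have a1 : 1 ≤ a := le_max_left _ _
  have b1 : 1 ≤ b := le_max_left _ _
  have a0 : 0 < a⁻¹ := by positivity
  have b0 : 0 < b⁻¹ := by positivity
  have a2 : a⁻¹ ≤ 1 := inv_le_one_of_one_le₀ a1
  refine ⟨by rw [opn_smul, abs_of_pos a0]; exact k A, ?_⟩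
  have e : a⁻¹ • A - b⁻¹ • B = a⁻¹ • (A - B) + (a⁻¹ * (b - a) * b⁻¹) • B := by
    rw [show a⁻¹ * (b - a) * b⁻¹ = a⁻¹ - b⁻¹ by field_simp]; module
  have d : |b - a| ≤ opn (A - B) / K := by
    rw [hb, ha, max_comm, max_comm 1]
    refine (abs_max_sub_max_le_abs _ _ _).trans ?_
    rw [← sub_div, abs_div, abs_of_pos hK, abs_sub_comm]
    exact div_le_div_of_nonneg_right (abs_opn_sub_le _ _) hK.le
  have o := opn_nonneg (A - B)
  have t1 : a⁻¹ * opn (A - B) ≤ opn (A - B) := mul_le_of_le_one_left o a2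
  have t2 : a⁻¹ * |b - a| * (b⁻¹ * opn B) ≤ 1 * (opn (A - B) / K) * K :=
    mul_le_mul (mul_le_mul a2 d (abs_nonneg _) zero_le_one) (k B)
      (mul_nonneg b0.le (opn_nonneg _)) (by positivity)
  rw [one_mul, div_mul_cancel₀ _ hK.ne'] at t2
  rw [e]
  refine (opn_add_le _ _).trans ?_
  rw [opn_smul, opn_smul, abs_mul, abs_mul, abs_of_pos a0, abs_of_pos b0]
  linarith

/-- the index of a pair -/
def ip (L : ℕ) (p : Pair n) : Fin (Nv L n) := ix L n (.inl s(p.1.1, p.1.2))

lemma ip_inj : Function.Injective (ip L (n := n)) := fun p q h => by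
  have h1 := Sym2.eq_iff.1 (Sum.inl_injective ((ix L n).injective h))
  have hp := p.2
  have hq := q.2
  refine Subtype.ext (Prod.ext ?_ ?_) <;> rcases h1 with ⟨a, b⟩ | ⟨a, b⟩ <;>
    first | assumption | exact absurd (hp.trans (b ▸ a ▸ hq)) (lt_irrefl _)

lemma Jm_eq (z : E (Nv L n)) : Jm β z = β • Jmat n (fun p => z (ip L p)) +
    Matrix.of fun i j => if i = j then 0 else (β / √n) ^ 2 := by
  ext i j
  simp only [Jm, Matrix.of_apply, Matrix.add_apply, Matrix.smul_apply, smul_eq_mul]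
  rcases lt_trichotomy i j with h | h | h
  · rw [if_neg h.ne, if_neg h.ne, E.Jmat_apply_lt _ h, co, ip]; ring
  · rw [if_pos h, if_pos h, h, E.Jmat_diag]; ring
  · rw [if_neg h.ne', if_neg h.ne', E.Jmat_apply_gt _ h, co, ip, Sym2.eq_swap]; ring

lemma Jm_lip (z z' : E (Nv L n)) : opn (Jm β z - Jm β z') ≤ 2 * |β| / √n * ‖z - z'‖ := by
  rw [Jm_eq, Jm_eq, add_sub_add_right_eq_sub, ← smul_sub, Nrm.Jmat_sub, opn_smul]
  have a1 : Conc.en ((fun p => z (ip L p)) - fun p => z' (ip L p)) ≤ ‖z - z'‖ := by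
    rw [EuclideanSpace.norm_eq]
    refine sqrt_le_sqrt ?_
    simp only [Real.norm_eq_abs, sq_abs]
    exact (sum_image (s := univ) (g := ip L) (f := fun j => (z - z') j ^ 2) ip_inj.injOn).ge.trans
      (sum_le_sum_of_subset_of_nonneg (subset_univ _) fun _ _ _ => sq_nonneg _)
  have a2 : √(2 / n : ℝ) ≤ 2 / √n := by
    rw [sqrt_div zero_le_two]
    exact div_le_div_of_nonneg_right (sqrt_le_iff.2 ⟨zero_le_two, by norm_num⟩) (sqrt_nonneg _)
  refine (mul_le_mul_of_nonneg_left ((Nrm.opn_Jmat_le _).trans (mul_le_mul a2 a1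
    (Conc.en_nonneg _) (by positivity))) (abs_nonneg β)).trans_eq (by ring)

lemma cont_Jm : Continuous fun z : E (Nv L n) => Jm β z :=
  continuous_matrix fun i j => by
    simp only [Jm, Matrix.of_apply, co]
    split_ifs <;> fun_prop

lemma tail (β : ℝ) : ∃ K > (0 : ℝ), ∀ L, ∀ p : ℕ, Tendsto (fun n : ℕ => (n : ℝ) ^ p *
    (gam (Nv L n)).real {z | K < opn (Jm β z)}) atTop (𝓝 0) := by
  refine ⟨18 * |β| + β ^ 2 + 1, by positivity, fun L p => squeeze_zero (fun n => by positivity)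
    (fun n => mul_le_mul_of_nonneg_left ?_ (by positivity))
    ((tendsto_pow_mul_exp_neg_atTop_nhds_zero p).comp tendsto_natCast_atTop_atTop)⟩
  have m := (mp_comp _ (ip_inj (L := L) (n := n))).comp (mp_of _)
  refine le_trans ?_ (Nrm.opn_Jmat_18 (fun _ : Pair n => gaussianReal 0 1) fun _ => Nrm.subG_gauss)
  refine ENNReal.toReal_mono (measure_ne_top _ _) ((measure_mono fun z hz => ?_).trans
    (m.map_eq ▸ Measure.le_map_apply m.measurable.aemeasurable _))
  have a : opn (Matrix.of fun i j : Fin n => if i = j then 0 else (β / √n) ^ 2) ≤ β ^ 2 := by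
    refine (opn_le_sqrt_frob _).trans (sqrt_le_iff.2 ⟨sq_nonneg _, ?_⟩)
    refine (sum_le_sum (g := fun _ => ∑ _j : Fin n, (β ^ 2 / n) ^ 2) fun i _ =>
      sum_le_sum fun j _ => ?_).trans ?_
    · rw [Matrix.of_apply]
      split_ifs
      · rw [zero_pow two_ne_zero]; positivity
      · rw [div_pow β, sq_sqrt n.cast_nonneg]
    · simp only [sum_const, card_univ, Fintype.card_fin, nsmul_eq_mul]
      rcases eq_or_ne (n : ℝ) 0 with e | e
      · rw [e, zero_mul]; positivity
      · exact le_of_eq (by field_simp)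
  have b : 18 * |β| + β ^ 2 + 1 < opn (Jm β z) := hz
  rw [Jm_eq] at b
  have c := b.trans_le (opn_add_le _ _)
  rw [opn_smul] at c
  show 18 < opn (Jmat n fun p => z (ip L p))
  by_contra d
  nlinarith [mul_le_mul_of_nonneg_left (not_lt.1 d) (abs_nonneg β)]

lemma eqv_pr {C : Type} (F : (C → Fin n) → E (Nv L n) → ℝ) (D : ℕ)
    (h : ∀ (p : Equiv.Perm (Fin n)) x z, F (p ∘ x) (act p z) = F x z) (hc : ∀ x, Hm.C0 (F x))
    (p : Equiv.Perm (Fin n)) (x : C → Fin n) (z : E (Nv L n)) :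
    Hm.pr D (F (p ∘ x)) (act p z) = Hm.pr D (F x) z := by
  have A := fun p : Equiv.Perm (Fin n) => (sy (L := L) (β := 0) (ρ := 0) p).A
  refine (congrFun (Hm.pr_unique (hc x) (pl_comp (A p) (Hm.pr_mem D (F (p ∘ x))))
    fun r hr => ?_) z).symm
  have hr' := pl_comp (A p.symm) hr
  have e1 := mp_int (mp (L := L) p) ((Hm.c0 (Hm.pr_mem D (F (p ∘ x)))).mul
    (Hm.c0 hr')).c.aestronglyMeasurable
  have e2 := mp_int (mp (L := L) p) ((hc (p ∘ x)).mul (Hm.c0 hr')).c.aestronglyMeasurable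
  simp only [act_symm, h] at e1 e2
  exact e1.trans ((Hm.ip_pr (hc _) hr').trans e2.symm)

end Sk62

open Sk62 in
theorem skStmt : SkStmt where
  ok _ _ _ _ := ok
  co_pt _ _ := co_pt
  mp _ _ := mp
  mp_mix := mp_mix
  pl_act _ _ p _ _ := pl_comp (sy (β := 0) (ρ := 0) p).A
  R_act _ _ _ _ p := (sy p).R
  h_eq _ _ _ _ := h_eq
  eqv_P _ _ _ n F h := ⟨fun p x => (sy p).L (h p x), fun ζ p x => (sy p).Rz (h p x) ζ,
    fun t p x => (sy p).T (h p x) t, fun p x z => congrArg (_ * ·) ((sy p).D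
      (fun z => (congrArg (F · _) (Subsingleton.elim _ _)).trans (h p (x0 n) z)) (x ()) z)⟩
  eqv_pr _ _ _ _ _ F D h hc := eqv_pr F D h hc
  Jm_act _ _ _ := Jm_act
  Jm_gz _ _ _ _ := Jm_gz
  Jt_act _ _ _ _ p z i j := by simp only [Jt, Matrix.smul_apply, opn_act, Jm_act]
  Jt_gz _ _ _ _ _ σ z i j := by
    simp only [Jt, Matrix.smul_apply, opn_sign (Jm_gz σ z), Jm_gz, smul_eq_mul]; ring
  Jt_lip _ β _ _ z z' hK := ⟨(retr hK _ (Jm β z')).1, (retr hK _ _).2.trans
    ((mul_le_mul_of_nonneg_left (Jm_lip z z') zero_le_two).trans_eq (by ring))⟩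
  Jt_meas _ β K _ i j := ((continuous_const.max ((continuous_opn.comp cont_Jm).div_const K)).inv₀
    fun _ => (lt_max_of_lt_left one_pos).ne').mul (cont_Jm.matrix_elem i j)
  tail := tail


end Crest.Agent.T157.Lm

end
end

-- ▼ part T157/LmSpan_90
section

/-! Row 157, block B/S5 (helper90): equivariant polynomials of bounded degree (`Lm.SpanGlue`). -/

set_option autoImplicit false

noncomputable section

namespace Crest.Agent.T157.Lm

open Filter Finset
open Crest.Agent.R238.Gap (E)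
open Crest.Agent.T157.Hm (Pl)

namespace Sp90

variable {L n D : ℕ}

/-- a letter: nothing, an edge or a site variable -/
def lt : Option (Option (Fin L)) → Fin n → Fin n → E (Nv L n) → ℝ
  | none, _, _, _ => 1
  | some none, i, j, z => co z (.inl s(i, j))
  | some (some l), i, _, z => co z (.inr (l, i))

/-- monomials -/
def mo (μ : Fin D → Option (Option (Fin L)) × Fin n × Fin n) (z : E (Nv L n)) : ℝ :=
  ∏ r, lt (μ r).1 (μ r).2.1 (μ r).2.2 z

/-- monomials with listed endpoints -/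
def mv (l : Fin D → Option (Option (Fin L))) (φ : Fin (D + D) → Fin n) : E (Nv L n) → ℝ :=
  mo fun r => (l r, φ (Fin.castAdd D r), φ (Fin.natAdd D r))

theorem ex_lt (j : Fin (Nv L n)) : ∃ t : Option (Option (Fin L)) × Fin n × Fin n,
    ∀ z : E (Nv L n), z j = lt t.1 t.2.1 t.2.2 z := by
  obtain ⟨e, rfl⟩ := (ix L n).surjective j
  rcases e with e | ⟨l, i⟩
  · induction e using Sym2.ind with
    | h a b => exact ⟨(some none, a, b), fun _ => rfl⟩
  · exact ⟨(some (some l), i, i), fun _ => rfl⟩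

theorem span_mo (hn : 0 < n) : ∀ (D : ℕ) (f : E (Nv L n) → ℝ), f ∈ Pl (Nv L n) D →
    f ∈ Submodule.span ℝ (Set.range (mo (L := L) (n := n) (D := D)))
  | 0, f, h => by rw [Hm.mem_zero.1 h]; exact zero_mem _
  | D + 1, _, ⟨c, r, hr, rfl⟩ => by
    have e : (fun x : E (Nv L n) => c + ∑ j, x j * r j x) =
        c • mo (D := D + 1) (fun _ => (none, ⟨0, hn⟩, ⟨0, hn⟩)) + ∑ j, fun x => x j * r j x := by
      funext x
      simp [mo, lt, Finset.sum_apply]
    rw [e]
    refine add_mem (Submodule.smul_mem _ _ (Submodule.subset_span ⟨_, rfl⟩))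
      (sum_mem fun j _ => ?_)
    obtain ⟨t, ht⟩ := ex_lt j
    refine Submodule.span_induction (p := fun g _ => (fun x => x j * g x) ∈ Submodule.span ℝ
      (Set.range (mo (L := L) (n := n) (D := D + 1)))) ?_ ?_ ?_ ?_ (span_mo hn D _ (hr j))
    · rintro _ ⟨μ, rfl⟩
      refine Submodule.subset_span ⟨Fin.cons t μ, funext fun z => ?_⟩
      simp only [mo, Fin.prod_univ_succ, Fin.cons_zero, Fin.cons_succ, ht]
    · simp only [Pi.zero_apply, mul_zero]
      exact zero_mem _
    · intro g g' _ _ h h'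
      simp only [Pi.add_apply, mul_add]
      exact add_mem h h'
    · intro a g _ h
      simp only [Pi.smul_apply, smul_eq_mul, mul_left_comm _ a]
      exact Submodule.smul_mem _ a h

theorem ex_coef (hn : 0 < n) {f : E (Nv L n) → ℝ} (h : f ∈ Pl (Nv L n) D) :
    ∃ A : (Fin D → Option (Option (Fin L))) × (Fin (D + D) → Fin n) → ℝ,
      ∀ z, f z = ∑ l, ∑ φ, A (l, φ) * mv l φ z := by
  have : f ∈ Submodule.span ℝ (Set.range fun t : (Fin D → Option (Option (Fin L))) ×
      (Fin (D + D) → Fin n) => mv t.1 t.2) := by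
    refine Submodule.span_mono ?_ (span_mo hn D f h)
    rintro _ ⟨μ, rfl⟩
    exact ⟨(fun r => (μ r).1, Fin.append (fun r => (μ r).2.1) fun r => (μ r).2.2), by
      simp only [mv, Fin.append_left, Fin.append_right]⟩
  obtain ⟨A, rfl⟩ := (Submodule.mem_span_range_iff_exists_fun ℝ).1 this
  exact ⟨A, fun z => by simp only [Finset.sum_apply, Pi.smul_apply, smul_eq_mul,
    Fintype.sum_prod_type]⟩

theorem mv_act (hS : SkStmt) (p : Equiv.Perm (Fin n)) (l : Fin D → Option (Option (Fin L)))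
    (φ : Fin (D + D) → Fin n) (z : E (Nv L n)) : mv l (p ∘ φ) (act p z) = mv l φ z := by
  unfold mv mo
  refine prod_congr rfl fun r _ => ?_
  rcases h : l r with _ | _ | k <;> simp [h, lt, act, hS.co_pt]

/-- the pattern of coincidences -/
def pat {U : Type} (y : U → Fin n) : U × U → Bool := fun p => decide (y p.1 = y p.2)

theorem ex_perm {U : Type} {y y' : U → Fin n} (h : pat y = pat y') :
    ∃ q : Equiv.Perm (Fin n), q ∘ y = y' := by
  have e : ∀ u u', y u = y u' ↔ y' u = y' u' := fun u u' => decide_eq_decide.1 (congrFun h (u, u'))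
  obtain ⟨q, hq⟩ := Equiv.Perm.exists_extending_pair (α := Set.range y) (f := Subtype.val)
    (g := fun a => y' a.2.choose) Subtype.val_injective fun a b hab =>
      Subtype.ext (a.2.choose_spec.symm.trans (((e _ _).2 hab).trans b.2.choose_spec))
  exact ⟨q, funext fun u => (hq ⟨y u, u, rfl⟩).trans
    ((e _ _).1 (Exists.choose_spec (⟨u, rfl⟩ : y u ∈ Set.range y)))⟩

end Sp90

open Sp90

theorem spanGlue : SpanGlue := fun hR hS hP L C _ _ D => by
  classical
  refine ⟨(Fin D → Option (Option (Fin L))) × ((C ⊕ Fin (D + D)) × (C ⊕ Fin (D + D)) → Bool),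
    inferInstance, fun j n x z => ∑ φ : Fin (D + D) → Fin n,
      (if pat (Sum.elim x φ) = j.2 then 1 else 0) * mv j.1 φ z, fun j => ?_, fun n hn w hw he => ?_⟩
  · have h1 : ∀ u : (C ⊕ Fin (D + D)) × (C ⊕ Fin (D + D)), RP (L := L) (C ⊕ Fin (D + D))
        fun _ y _ => if pat y u = j.2 u then 1 else 0 := fun u => by
      cases j.2 u
      · refine (hP.sub L _ _ _ (.const (hR.const 1)) (.eq u.1 u.2)).congr
          (Eventually.of_forall fun n => funext fun y => funext fun z => ?_)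
        by_cases h : y u.1 = y u.2 <;> simp [pat, h]
      · simpa only [pat, decide_eq_true_eq] using RP.eq (L := L) u.1 u.2
    have h2 : ∀ r : Fin D, RP (L := L) (C ⊕ Fin (D + D)) fun _ y z =>
        lt (j.1 r) (y (.inr (Fin.castAdd D r))) (y (.inr (Fin.natAdd D r))) z := fun r => by
      rcases j.1 r with _ | _ | k
      exacts [.const (hR.const 1), .edge _ _, .site _ _]
    refine (hP.sumV L C (D + D) _ ((hP.fprod L _ _ univ _ fun u _ => h1 u).mul
      (hP.fprod L _ _ univ _ fun r _ => h2 r))).congr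
      (Eventually.of_forall fun n => funext fun x => funext fun z => sum_congr rfl fun φ _ => ?_)
    rw [Fintype.prod_boole]
    simp only [← funext_iff]
    rfl
  · choose A hA using fun x => ex_coef hn (hw x)
    let B : (Fin D → Option (Option (Fin L))) → (C ⊕ Fin (D + D) → Fin n) → ℝ := fun l y =>
      (∑ p : Equiv.Perm (Fin n), A (p ∘ y ∘ .inl) (l, p ∘ y ∘ .inr)) /
        Fintype.card (Equiv.Perm (Fin n))
    have hB : ∀ l y y', pat y = pat y' → B l y = B l y' := fun l y y' h => by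
      obtain ⟨q, rfl⟩ := ex_perm h
      exact congrArg (· / _) (Equiv.sum_comp (Equiv.mulRight q)
        fun p : Equiv.Perm (Fin n) => A (p ∘ y ∘ .inl) (l, p ∘ y ∘ .inr)).symm
    refine ⟨fun j => if h : ∃ y, pat y = j.2 then B j.1 h.choose else 0, fun x z => ?_⟩
    have c0 : (Fintype.card (Equiv.Perm (Fin n)) : ℝ) ≠ 0 := Nat.cast_ne_zero.2 Fintype.card_ne_zero
    have e1 : ∀ p : Equiv.Perm (Fin n), w x z = ∑ l, ∑ φ, A (p ∘ x) (l, p ∘ φ) * mv l φ z :=
      fun p => by
        rw [← he p x z, hA]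
        refine sum_congr rfl fun l _ => ?_
        rw [← Equiv.sum_comp (Equiv.arrowCongr (Equiv.refl _) p)]
        exact sum_congr rfl fun φ _ => congrArg _ (mv_act hS p l φ z)
    have e2 : w x z = ∑ l, ∑ φ, B l (Sum.elim x φ) * mv l φ z := by
      simp only [B, div_mul_eq_mul_div, ← sum_div, sum_mul]
      rw [eq_div_iff c0, mul_comm, ← nsmul_eq_mul, ← card_univ, ← sum_const,
        sum_congr rfl fun p _ => e1 p, sum_comm]
      exact sum_congr rfl fun l _ => sum_comm
    rw [e2, Fintype.sum_prod_type]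
    refine sum_congr rfl fun l _ => ?_
    simp only [mul_sum]
    rw [sum_comm]
    refine sum_congr rfl fun φ _ => ?_
    have hy : ∃ y : C ⊕ Fin (D + D) → Fin n, pat y = pat (Sum.elim x φ) := ⟨_, rfl⟩
    simp only [boole_mul, mul_ite, mul_zero, sum_ite_eq, mem_univ, if_true, dif_pos hy]
    rw [hB l _ _ hy.choose_spec]

end Crest.Agent.T157.Lm

end
private theorem rz_fe31673d2f : type_of% @_root_.Crest.Agent.T157.Lm.Sp90.lt.eq_1 := @_root_.Crest.Agent.T157.Lm.Sp90.lt.eq_1 -- L20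
end

-- ▼ part T157/LmTr_90
section

/-! Row 157, block B/S5 (helper90): from quenched to planted averages (`Lm.TrGlue`). -/

set_option autoImplicit false

noncomputable section

namespace Crest.Agent.T157.Lm

open MeasureTheory Real Filter Topology Matrix
open Crest.ProbabilityR.SpinGlassDynamics (Pair disorderLaw gibbsWeight)
open Crest.Agent.R238.Gap (E)
open Crest.Agent.R253.Meh74 (gam)
open Crest.Agent.T157.E (Cube sv mean Jmat)
open Crest.Agent.T157.Pl (one cmul LR tau th)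
open Lim32

namespace Tr90

variable {L n : ℕ}

theorem jm_cp (β : ℝ) (z : E (Nv L n)) : Jm β z = β • Jmat n (cp β z) := by
  ext i j
  rcases lt_trichotomy i j with h | rfl | h
  · simp only [Jm, of_apply, if_neg h.ne, Matrix.smul_apply, E.Jmat_apply_lt _ h, cp, ps, co, th,
      smul_eq_mul]
    ring
  · simp [Jm, E.Jmat_diag]
  · simp only [Jm, of_apply, if_neg h.ne', Matrix.smul_apply, E.Jmat_apply_gt _ h, cp, ps, co, th,
      smul_eq_mul, Sym2.eq_swap (a := i)]
    ring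

theorem symm (β : ℝ) (g : Pair n → ℝ) : (β • Jmat n g)ᵀ = β • Jmat n g := by
  rw [transpose_smul, E.Jmat_transpose]

end Tr90

open Tr90

theorem trGlue : TrGlue := fun _ _ hL β h0 h1 L H M ε δ hδ hH hW => by
  obtain ⟨C, hC⟩ := hL β h0 h1
  obtain ⟨N, N0, hN⟩ : ∃ N : ℝ, 0 < N ∧ M - ε ≤ N :=
    ⟨|M - ε| + 1, by positivity, by linarith [le_abs_self (M - ε)]⟩
  obtain ⟨η, η0, hη⟩ : ∃ η : ℝ, 0 < η ∧ N * (η * C) ≤ δ / 2 := by
    refine ⟨δ / (2 * N * (|C| + 1)), by positivity, ?_⟩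
    have e : N * (δ / (2 * N * (|C| + 1)) * (|C| + 1)) = δ / 2 := by field_simp
    rw [← e]
    gcongr
    linarith [le_abs_self C]
  filter_upwards [hH, hW.eventually (ge_mem_nhds (ENNReal.ofReal_pos.2
    (by positivity : 0 < δ / 2 * η / N)))] with n ⟨hm, hg, hb⟩ hA
  have mG : Measurable fun g : Pair n → ℝ => H n (β • Jmat n g) (one n) := by
    simpa only [Function.comp_def, jm_cp, cp_zof] using hm.comp (meas_zof (L := L) β)
  have iG : Integrable (fun g : Pair n → ℝ => H n (β • Jmat n g) (one n)) (Pl.pl false n β) :=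
    Integrable.of_bound mG.aestronglyMeasurable M (ae_of_all _ fun g => hb _ _ (symm β g))
  have gF : ∀ x ξ, H n (β • Jmat n (tau x * ξ)) x = H n (β • Jmat n ξ) (one n) := fun x ξ => by
    rw [← hg _ x (one n) (symm β ξ), Pl.cmul_one, Pl.Jmat_gauge, cj, Matrix.mul_smul,
      Matrix.smul_mul]
  have e := Pl.planted_inv false β (F := fun x g => H n (β • Jmat n g) x) gF iG
  have i1 := Pl.integrable_LR_mul_mean false β (F := fun x g => H n (β • Jmat n g) x)
    fun x => by simpa only [gF] using iG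
  rw [← (mp_cp (L := L) β).map_eq, integral_map (mp_cp β).measurable.aemeasurable
    mG.aestronglyMeasurable] at e
  simp only [jm_cp]
  rw [← e]
  set A := toMeasurable (disorderLaw n)
    {g | ¬ mean (gibbsWeight n β g) (H n (β • Jmat n g)) ≤ ε} with hAd
  have mA : MeasurableSet A := measurableSet_toMeasurable _ _
  have rA : (disorderLaw n).real A ≤ δ / 2 * η / N := by
    rw [hAd, Measure.real, measure_toMeasurable]
    exact ENNReal.toReal_le_of_le_ofReal (by positivity) hA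
  have j0 : Integrable (LR false n β) (disorderLaw n) := Pl.integrable_LR false β
  have j1 : Integrable (A.indicator fun _ => (1 : ℝ)) (disorderLaw n) :=
    (integrable_const 1).indicator mA
  have j2 : Integrable (fun g => η * LR false n β g ^ 2 + A.indicator (fun _ => (1 : ℝ)) g / η)
      (disorderLaw n) := ((hC n).1.const_mul η).add (j1.div_const η)
  refine (integral_mono (μ := disorderLaw n) i1 ((j0.const_mul ε).add (j2.const_mul N))
    fun g => ?_).trans ?_
  · have p := Pl.LR_pos false β g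
    have q : 0 ≤ N * (η * LR false n β g ^ 2) := by positivity
    simp only [Pi.add_apply]
    by_cases h : g ∈ A
    · have k : mean (gibbsWeight n β g) (fun x => H n (β • Jmat n g) x) ≤ M := by
        rw [← (Pl.wt_gibbs β g).mean_const M]
        exact (Pl.wt_gibbs β g).mean_mono fun x => (le_abs_self _).trans (hb _ x (symm β g))
      have y : LR false n β g ≤ η * LR false n β g ^ 2 + 1 / η := by
        have : LR false n β g * η * (1 / η) = LR false n β g := by field_simp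
        have h2 : η * (1 / η) = 1 := by field_simp
        nlinarith [mul_nonneg η0.le (sq_nonneg (LR false n β g - 1 / η)), one_div_pos.2 η0,
          mul_pos p η0]
      rw [Set.indicator_of_mem h]
      nlinarith [mul_le_mul_of_nonneg_left k p.le, mul_le_mul_of_nonneg_left y N0.le,
        mul_le_mul_of_nonneg_left hN p.le]
    · have k : mean (gibbsWeight n β g) (fun x => H n (β • Jmat n g) x) ≤ ε :=
        not_not.1 fun h' => h (subset_toMeasurable _ _ h')
      rw [Set.indicator_of_notMem h, zero_div, add_zero]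
      linarith [mul_le_mul_of_nonneg_left k p.le]
  · have l1 : ∫ g, LR false n β g ∂disorderLaw n = 1 := Pl.integral_LR false β
    simp only [Pi.add_apply]
    rw [integral_add (j0.const_mul ε) (j2.const_mul N), integral_const_mul, integral_const_mul, l1,
      integral_add ((hC n).1.const_mul η) (j1.div_const η), integral_const_mul, integral_div,
      integral_indicator_const _ mA, smul_eq_mul, mul_one, mul_one, mul_add]
    have a1 := mul_le_mul_of_nonneg_left (mul_le_mul_of_nonneg_left (hC n).2 η0.le) N0.le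
    have a2 : N * ((disorderLaw n).real A / η) ≤ δ / 2 := by
      rw [le_div_iff₀ N0] at rA
      rw [← mul_div_assoc, div_le_iff₀ η0]
      linarith
    linarith

end Crest.Agent.T157.Lm

end
end

-- ▼ part T157/LmAll_32
section

/-!
# Row 157, block B/S5 (helper32): the limit theory, assembled
-/

namespace Crest.Agent.T157.Lm

theorem comStmt : ComStmt := comGlue basStmt Rn.smStmt
theorem hypStmt : HypStmt := hypGlue basStmt Rn.smStmt
theorem rpStmt : RpStmt := rpGlue basStmt rtStmt skStmt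
theorem ratStmt : RatStmt := ratGlue rtStmt skStmt rpStmt
theorem spanStmt : SpanStmt := spanGlue rtStmt skStmt rpStmt
theorem onStmt : OnStmt := onGlue rtStmt rpStmt ratStmt spanStmt
theorem linStmt : LinStmt := linGlue hypStmt rtStmt skStmt rpStmt ratStmt onStmt
theorem nlStmt : NlStmt := nlGlue hypStmt rtStmt skStmt rpStmt linStmt
theorem enStmt : EnStmt := enGlue basStmt comStmt hypStmt skStmt rpStmt linStmt nlStmt
theorem resStmt : ResStmt :=
  resGlue basStmt comStmt hypStmt rtStmt skStmt rpStmt onStmt linStmt enStmt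
theorem fcStmt : FcStmt := fcGlue basStmt skStmt linStmt
theorem sgStmt : SgStmt := sgGlue basStmt skStmt linStmt resStmt fcStmt
theorem limStmt : LimStmt := limGlue basStmt skStmt linStmt sgStmt
theorem layStmt : LayStmt := layGlue Z.lipStmt rtStmt skStmt rpStmt linStmt ratStmt
theorem trStmt : TrStmt := trGlue basStmt skStmt lr2Stmt
theorem netStmt : NetStmt :=
  netGlue Z.lipStmt Z.hpStmt hypStmt rtStmt skStmt rpStmt linStmt nlStmt trStmt
/-- **the seam** -/
theorem seamStmt : SeamStmt :=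
  seamGlue Z.lipStmt basStmt hypStmt skStmt linStmt limStmt trStmt netStmt layStmt

end Crest.Agent.T157.Lm
end

-- ▼ part T157/ZfAll_5
section

/-!
# Row 157, part B, kernel route (helper5): the collective observables have limits, assembly
-/

set_option autoImplicit false

namespace Crest.Agent.T157.Zf

theorem trStmt : TrStmt := trGlue Z.smpStmt Z.thStmt avStmt gmStmt
theorem bp2Stmt : Bp2Stmt := bp2Glue trStmt
theorem exStmt : ExStmt := exGlue gsStmt keStmt
theorem chStmt : ChStmt := chGlue muStmt trStmt bp2Stmt keStmt scStmt exStmt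
theorem fOut : FOut := outGlue Lm.seamStmt scStmt trStmt chStmt finStmt

end Crest.Agent.T157.Zf
end

-- ▼ part T157/BEnd_1

/-!
# Row 157: the subcritical statement, unconditional (assembly, helper1; text of helper88)
-/

set_option autoImplicit false

namespace Crest.Agent.T157.TopZ

theorem r30_1 : Top.R30 :=
  r30_B S1.s1Out K.phiStmt Zf.fOut Kz.zSup (S1.SA.locF S1.bPart K.tcStmt K.tmStmt)

end Crest.Agent.T157.TopZ
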