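import Crest.Agent.T157.BrDef_50

-- ▼ part T157/BrHs_75
section

/-!
# Row 157, block B, S1: `Hs1Glue` and `TfStmt` (helper75)
-/

set_option autoImplicit false
set_option linter.unusedVariables false

noncomputable section

namespace Crest.Agent.T157.Br

open Real Matrix Function
open Crest.Agent.T157.E Crest.Agent.T157.SL Crest.Agent.T157.Ta
open Crest.Agent.T157.Rec (grad)
open Crest.Agent.T157.Eig (nrm opn)
open Crest.Agent.T157.S3 (hf tau Dg)
open Crest.Agent.T157.S3F (Free)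

namespace Hs75

variable {n : ℕ} {κ : Type} [Fintype κ]

theorem abs_sv (x : Cube n) (j : Fin n) : |sv x j| = 1 := by
  have h := Rec.sv_mul_self x j
  have h2 : |sv x j| * |sv x j| = 1 := by rw [abs_mul_abs_self, h]
  nlinarith [abs_nonneg (sv x j)]

omit [Fintype κ] in
theorem hG_fl (gk : κ → Fin n → ℝ) (x : Cube n) (j : Fin n) (k : κ) :
    hG gk (Rec.fl x j) k = hG gk x k - 2 * sv x j * gk k j := by
  have e : sv (Rec.fl x j) = sv x + Pi.single j (-2 * sv x j) := by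
    rw [← Rec.sv_fl_sub]; abel
  simp only [hG, e, dotProduct_add, dotProduct_single]; ring

/-- Lipschitz bound from the derivative -/
theorem lip {F F' : ℝ → ℝ} {M : ℝ} (hF : ∀ t, HasDerivAt F (F' t) t) (hM : ∀ t, |F' t| ≤ M)
    (a b : ℝ) : |F a - F b| ≤ M * |a - b| := by
  have := convex_univ.norm_image_sub_le_of_norm_hasDerivWithin_le (f := F) (f' := F') (C := M)
    (fun t _ => (hF t).hasDerivWithinAt) (fun t _ => hM t) (Set.mem_univ b) (Set.mem_univ a)
  simpa only [Real.norm_eq_abs] using this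

/-- first order Taylor bound from a Lipschitz derivative -/
theorem tay {F F' : ℝ → ℝ} {M : ℝ} (hM0 : 0 ≤ M) (hF : ∀ t, HasDerivAt F (F' t) t)
    (hM : ∀ t t', |F' t - F' t'| ≤ M * |t - t'|) (h d : ℝ) :
    |F h - F (h - d) - F' h * d| ≤ M * d ^ 2 := by
  have := (convex_closedBall h |d|).norm_image_sub_le_of_norm_hasDerivWithin_le
    (f := fun u => F u - F' h * u) (f' := fun u => F' u - F' h) (C := M * |d|)
    (x := h - d) (y := h)
    (fun t _ => by simpa using ((hF t).fun_sub ((hasDerivAt_id t).const_mul (F' h))).hasDerivWithinAt)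
    (fun t ht => by
      rw [Metric.mem_closedBall, Real.dist_eq] at ht
      exact (hM t h).trans (mul_le_mul_of_nonneg_left ht hM0))
    (by simp) (Metric.mem_closedBall_self (abs_nonneg d))
  simp only [Real.norm_eq_abs, sub_sub_cancel] at this
  calc _ = |F h - F' h * h - (F (h - d) - F' h * (h - d))| := by congr 1; ring
    _ ≤ M * |d| * |d| := this
    _ = M * d ^ 2 := by rw [mul_assoc, abs_mul_abs_self, sq]

theorem tf_const (C : Finset (Fin n)) (gk : κ → Fin n → ℝ) (c : κ → ℝ) {ρ : ℝ} (hc : c ⬝ᵥ c ≤ ρ ^ 2) :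
    Tf C gk (fun _ => c) (fun _ => 0) (fun k => |c k|) ρ where
  b0 _ _ := le_rfl
  b1 _ k := by simp
  g1 x k j _ := by rw [Rec.grad_const]; simp; positivity
  g2 x k j _ := by rw [Rec.grad_const]; simp; positivity
  sm := by simpa only [dotProduct, abs_mul_abs_self] using hc

theorem gt_const (J : Matrix (Fin n) (Fin n) ℝ) (y : Fin n → ℝ) (V : κ → Cube n → Fin n → ℝ)
    (c : κ → ℝ) (x : Cube n) (j : Fin n) : gt J y V (fun _ => c) x j = Vf V c x j := by
  simp [gt, Rec.grad_const]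

theorem young {χ g u r t k : ℝ} (hr0 : 0 ≤ r) (hr1 : r ≤ 1) (ht : 0 < t) (hk : χ ^ 2 / 2 ≤ k) :
    χ * u - r * (g * χ) ≤ (1 - r) * (|χ| * |u|) + t * (r * k) + 1 / t * (g - u) ^ 2 := by
  have h1 : χ * u ≤ |χ| * |u| := by rw [← abs_mul]; exact le_abs_self _
  have h2 : χ * (u - g) ≤ t * (χ ^ 2 / 2) + 1 / t * (g - u) ^ 2 := by
    have e : t * (χ ^ 2 / 2) + 1 / t * (g - u) ^ 2 - χ * (u - g) =
        (1 / t) * ((t * χ - (u - g)) ^ 2 / 2 + (g - u) ^ 2 / 2) := by field_simp; ring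
    have : 0 ≤ (1 / t) * ((t * χ - (u - g)) ^ 2 / 2 + (g - u) ^ 2 / 2) := by positivity
    linarith
  have h3 : 0 ≤ 1 / t * (g - u) ^ 2 := by positivity
  have h4 : t * (χ ^ 2 / 2) ≤ t * k := mul_le_mul_of_nonneg_left hk ht.le
  have h5 := mul_le_mul_of_nonneg_left h1 (sub_nonneg.2 hr1)
  have h6 := mul_le_mul_of_nonneg_left (h2.trans (add_le_add_left h4 _)) hr0
  have h7 := mul_le_mul_of_nonneg_right hr1 h3
  nlinarith

end Hs75

open Hs75

theorem tfStmt : TfStmt := by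
  intro n κ _ C gk F F' M ρ hoff hd hb hl hM
  have hM0 : ∀ k x, 0 ≤ M k := fun k x => (abs_nonneg _).trans (hb k x 0).1
  have e : ∀ x k, ∀ j ∈ C, grad (fun y => F k y (hG gk y k)) x j =
      sv x j * (F k x (hG gk x k) - F k x (hG gk x k - 2 * sv x j * gk k j)) / 2 := by
    intro x k j hj
    rw [Rec.grad_eq, hG_fl, show F k (Rec.fl x j) = F k x from hoff k j hj x _]
  refine ⟨fun x k => (hb k x _).1, fun x k => (hb k x _).2, fun x k j hj => ?_,
    fun x k j hj => ?_, hM⟩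
  · have h := lip (hd k x) (fun t => (hb k x t).2) (hG gk x k) (hG gk x k - 2 * sv x j * gk k j)
    rw [sub_sub_cancel, abs_mul, abs_mul, abs_sv, abs_two] at h
    rw [e x k j hj, abs_div, abs_mul, abs_sv, abs_two]
    linarith
  · have h := tay (hM0 k x) (hd k x) (hl k x) (hG gk x k) (2 * sv x j * gk k j)
    have hs := Rec.sv_mul_self x j
    have e2 : grad (fun y => F k y (hG gk y k)) x j - F' k x (hG gk x k) * gk k j =
        sv x j * (F k x (hG gk x k) - F k x (hG gk x k - 2 * sv x j * gk k j) -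
          F' k x (hG gk x k) * (2 * sv x j * gk k j)) / 2 := by
      rw [e x k j hj]
      linear_combination (F' k x (hG gk x k) * gk k j) * hs
    have e3 : (2 * sv x j * gk k j) ^ 2 = 4 * gk k j ^ 2 := by
      linear_combination (4 * gk k j ^ 2) * hs
    rw [e3] at h
    rw [e2, abs_div, abs_mul, abs_sv, abs_two]
    linarith

theorem hs1Glue : Hs1Glue := by
  rintro ⟨K, hK, ST⟩
  refine ⟨2 * K, by positivity, ?_⟩
  intro n κ _ J y C gk V φ A X xk gb c a Cq CV ε ρ ς B t r v w ψ ζ ψ' hS hC hP h hr hr0 hF hζ hψ hB hc ht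
  have hF' : Fld J y C v w (fun x => ψ x + J *ᵥ ζ x + ψ' x) := fun x hx j hj =>
    hF x (h.pos hx).2.ne' j hj
  have h1 := (ST n κ J y C gk V _ _ _ X xk gb _ Cq CV ε ρ ς B v w ψ ζ ψ' hS hC hP
    (tf_const C gk c hc) h hF' hζ hψ hB).2.2
  have h2 := (ST n κ J y C gk V _ _ _ X xk gb _ Cq CV ε ρ ς B w w ψ ζ ψ' hS hC hP
    (tf_const C gk c hc) (Pr.refl h.hw) hF hζ hψ hB).2.2
  have em : ∀ u : Cube n → ℝ, Wt u →
      mean u (fun x => c ⬝ᵥ (a • φ x + A x - gb) - ζ x ⬝ᵥ X *ᵥ c - xk ⬝ᵥ (0 : κ → ℝ)) =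
        a * mean u (fun x => c ⬝ᵥ φ x) + mean u (fun x => c ⬝ᵥ A x - ζ x ⬝ᵥ X *ᵥ c) - c ⬝ᵥ gb := by
    intro u hu
    rw [← hu.mean_const (c ⬝ᵥ gb), ← mean_const_mul, ← mean_add, ← mean_sub]
    congr 1; ext x
    simp only [dotProduct_sub, dotProduct_add, dotProduct_smul, smul_eq_mul, dotProduct_zero]; ring
  simp only [gt_const] at h1 h2
  rw [em v h.hv] at h1
  rw [em w h.hw] at h2
  have e0 : mean w (fun x => ∑ j, chi w w j x * Vf V c x j) = 0 := by
    simp only [chi, sub_self, zero_mul, Finset.sum_const_zero]; exact h.hw.mean_const 0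
  rw [e0, sub_zero] at h2
  have hI : Wt (ising J y) := .of_pos fun _ => exp_pos _
  have kv : 0 ≤ kl v (ising J y) :=
    Pr.kl_nonneg ⟨h.hv, hI, fun x e => absurd e (exp_pos _).ne'⟩
  have kw : 0 ≤ kl w (ising J y) :=
    Pr.kl_nonneg ⟨h.hw, hI, fun x e => absurd e (exp_pos _).ne'⟩
  have dn : ∀ z : Fin n → ℝ, 0 ≤ z ⬝ᵥ z := fun z => Finset.sum_nonneg fun i _ => mul_self_nonneg _
  have m1 := h.hv.mean_nonneg fun x => dn (ψ x)
  have m2 := h.hv.mean_nonneg fun x => dn (ζ x)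
  have m3 := h.hw.mean_nonneg fun x => dn (ψ x)
  have m4 := h.hw.mean_nonneg fun x => dn (ζ x)
  have hV : ∀ x j, j ∉ C → Vf V c x j = 0 := fun x j hj => by
    simp [Vf, Finset.sum_apply, hS.supp _ x j hj]
  have key : mean v (fun x => ∑ j, chi v w j x * Vf V c x j) -
      ∑ j, mean v (fun x => r j x * (grad (fun x => c ⬝ᵥ φ x) x j * chi v w j x)) ≤
      mean v (fun x => ∑ j ∈ C, (1 - r j x) * (|chi v w j x| * |Vf V c x j|)) + t * Ar r v w +
      1 / t * mean v (fun x => ∑ j ∈ C, (grad (fun y => c ⬝ᵥ φ y) x j - Vf V c x j) ^ 2) := by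
    simp only [Ar, As]
    rw [← mean_sum, ← mean_sum, ← mean_sub, ← mean_const_mul, ← mean_const_mul, ← mean_add,
      ← mean_add]
    refine mean_mono_supp h.hv fun x hx => ?_
    rw [← Finset.sum_sub_distrib, ← Finset.sum_subset (Finset.subset_univ C),
      ← Finset.sum_subset (Finset.subset_univ C) (f := fun j => r j x * kls v w j x),
      Finset.mul_sum, Finset.mul_sum, ← Finset.sum_add_distrib, ← Finset.sum_add_distrib]
    · exact Finset.sum_le_sum fun j _ => young (hr j x).1 (hr j x).2 ht (chi_sq_le h j hx)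
    · intro j _ hj; simp [hr0 j x hj]
    · intro j _ hj; simp [hr0 j x hj, hV x j hj]
  have hε := hP.e0
  have hKe : 0 ≤ K * ε := by positivity
  have hρ : 0 ≤ ρ ^ 2 := sq_nonneg ρ
  rw [mean_add, mean_add, dr]
  have h3 := (abs_le.1 h1).2
  have h4 := (abs_le.1 h2).1
  have h5 := mul_nonneg hKe (add_nonneg (add_nonneg (add_nonneg kv kw) (add_nonneg m1 m2))
    (add_nonneg m3 m4))
  nlinarith

end Crest.Agent.T157.Br
end
end

-- ▼ part T157/BrSt_91

/-!
# Row 157, block B, S1 (helper91): the Stein identity `STStmt`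
-/

set_option autoImplicit false

noncomputable section

namespace Crest.Agent.T157.Br

open Real Matrix Function
open Crest.Agent.T157.E Crest.Agent.T157.SL Crest.Agent.T157.Ta
open Crest.Agent.T157.Rec (grad)
open Crest.Agent.T157.Eig
open Crest.Agent.T157.S3 (hf tau Dg)

namespace St91

variable {n : ℕ} {κ : Type} [Fintype κ]

lemma hd_tanh (x : ℝ) : HasDerivAt tanh (1 - tanh x ^ 2) x := by
  have h := (hasDerivAt_sinh x).div (hasDerivAt_cosh x) (cosh_pos x).ne'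
  have e : sinh / cosh = tanh := funext fun y => (tanh_eq_sinh_div_cosh y).symm
  rw [e] at h
  refine h.congr_deriv ?_
  rw [tanh_eq_sinh_div_cosh]
  field_simp

lemma tanh_tay (h e : ℝ) : |tanh (h + e) - tanh h - (1 - tanh h ^ 2) * e| ≤ 2 * e ^ 2 ∧
    |tanh (h + e) - tanh h - (1 - tanh h ^ 2) * e| ≤ 2 * |e| := by
  refine ⟨?_, ?_⟩
  · have := Hs75.tay (M := 2) (by norm_num) hd_tanh (fun a b => by
      rw [show 1 - tanh a ^ 2 - (1 - tanh b ^ 2) = (tanh a - tanh b) * -(tanh a + tanh b) by ring,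
        abs_mul, abs_neg, mul_comm]
      exact mul_le_mul ((abs_add_le _ _).trans
        (by linarith [abs_tanh_lt_one a, abs_tanh_lt_one b])) (Ue.abs_tanh_sub_le a b)
        (abs_nonneg _) (by norm_num)) h (-e)
    rw [sub_neg_eq_add, neg_sq, ← abs_neg] at this
    convert this using 2
    ring
  · have h1 := Ue.abs_tanh_sub_le (h + e) h
    rw [add_sub_cancel_left] at h1
    have h2 : |(1 - tanh h ^ 2) * e| ≤ |e| := by
      rw [abs_mul, abs_of_nonneg (by linarith [tanh_sq_lt_one h])]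
      exact mul_le_of_le_one_left (abs_nonneg _) (by nlinarith [sq_nonneg (tanh h)])
    linarith [abs_sub (tanh (h + e) - tanh h) ((1 - tanh h ^ 2) * e)]

/-- the remainder against a field with a small excess -/
lemma rem_le {r e F ε : ℝ} (hε : 0 < ε) (h1 : |r| ≤ 2 * e ^ 2) (h2 : |r| ≤ 2 * |e|) :
    |r * F| ≤ 3 * ε * (e * e) + 1 / ε * max (|F| - ε) 0 ^ 2 := by
  obtain ⟨m, hm⟩ : ∃ m, m = max (|F| - ε) 0 := ⟨_, rfl⟩
  have m0 : 0 ≤ m := hm ▸ le_max_right _ _
  have m1 : |F| ≤ ε + m := by rw [hm]; linarith [le_max_left (|F| - ε) 0]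
  have k : 2 * |e| * m ≤ ε * (e * e) + 1 / ε * m ^ 2 := by
    have e1 : ε * (e * e) + 1 / ε * m ^ 2 - 2 * |e| * m = (ε * |e| - m) ^ 2 / ε := by
      rw [← abs_mul_abs_self e]; field_simp; ring
    have : 0 ≤ (ε * |e| - m) ^ 2 / ε := by positivity
    linarith
  rw [← hm, abs_mul]
  nlinarith [mul_le_mul_of_nonneg_left m1 (abs_nonneg r), mul_le_mul_of_nonneg_right h1 hε.le,
    mul_le_mul_of_nonneg_right h2 m0]

lemma Vf_neg (V : κ → Cube n → Fin n → ℝ) (f : κ → ℝ) (x : Cube n) : Vf V (-f) x = -Vf V f x := by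
  simp [Vf]

lemma Vf_ap (V : κ → Cube n → Fin n → ℝ) (f : κ → ℝ) (x : Cube n) (j : Fin n) :
    Vf V f x j = ∑ k, f k * V k x j := by
  simp [Vf, Finset.sum_apply]

lemma Bd.neg {ρ : ℝ} {f : Cube n → κ → ℝ} (h : Bd ρ f) : Bd ρ fun x => -f x := fun x => by
  simpa using h x

lemma bd_of {ρ : ℝ} {f : Cube n → κ → ℝ} {M : κ → ℝ} (h : ∀ x k, |f x k| ≤ M k)
    (hM : M ⬝ᵥ M ≤ ρ ^ 2) : Bd ρ f := fun x =>
  (Finset.sum_le_sum fun k _ => by
    rw [← abs_mul_abs_self]; exact mul_self_le_mul_self (abs_nonneg _) (h x k)).trans hM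

lemma abs_mean {v F : Cube n → ℝ} {G : Cube n → ℝ} {c : ℝ} (h1 : mean v F ≤ c) (h2 : mean v G ≤ c)
    (e : ∀ x, G x = -F x) : |mean v F| ≤ c := by
  rw [show G = fun x => -F x from funext e, mean_neg] at h2
  exact abs_le.2 ⟨by linarith, h1⟩

lemma abs_mean_le {v F G : Cube n → ℝ} (hv : Wt v) (h : ∀ x, |F x| ≤ G x) :
    |mean v F| ≤ mean v G :=
  abs_mean (hv.mean_mono fun x => (le_abs_self _).trans (h x))
    (hv.mean_mono fun x => (neg_le_abs _).trans (h x)) fun _ => rfl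

/-- the gradient part -/
def uu (V : κ → Cube n → Fin n → ℝ) (f : Cube n → κ → ℝ) (x : Cube n) : Fin n → ℝ :=
  fun j => ∑ k, grad (fun z => f z k) x j * V k x j

lemma off_hf {J : Matrix (Fin n) (Fin n) ℝ} (hJ : ∀ j, J j j = 0) (y : Fin n → ℝ) (j : Fin n) :
    OffAt j fun x => hf J y x j := fun x b => by
  simp only [hf, Pi.add_apply, mulVec, dotProduct]
  congr 1
  refine Finset.sum_congr rfl fun i _ => ?_
  by_cases h : i = j
  · rw [h, hJ, zero_mul, zero_mul]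
  · simp only [sv, update_of_ne h]

lemma off_gt {J : Matrix (Fin n) (Fin n) ℝ} (hJ : ∀ j, J j j = 0) (y : Fin n → ℝ)
    {V : κ → Cube n → Fin n → ℝ} (hV : ∀ k, S3F.Free (V k)) (f : Cube n → κ → ℝ) (j : Fin n) :
    OffAt j fun x => gt J y V f x j := by
  have e : ∀ x, gt J y V f x j = ∑ k, (f (update x j true) k + f (update x j false) k) / 2 *
      V k x j - tanh (hf J y x j) * ∑ k, grad (fun z => f z k) x j * V k x j := fun x => by
    rw [gt, Vf_ap, add_mul, ← sub_sub, Finset.mul_sum, ← Finset.sum_sub_distrib]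
    congr 1
    refine Finset.sum_congr rfl fun k _ => ?_
    have e : f x k = f (update x j (x j)) k := by rw [update_eq_self]
    rw [e, grad, incr, sv]
    cases x j <;> simp [Crest.ProbabilityR.SpinGlassDynamics.spin] <;> ring
  intro x b
  simp only [e, update_idem, hV _ x j b, Rec.grad_update, off_hf hJ y j x b]

variable {J : Matrix (Fin n) (Fin n) ℝ} {y : Fin n → ℝ} {C : Finset (Fin n)} {gk : κ → Fin n → ℝ}
  {V : κ → Cube n → Fin n → ℝ} {A f f' : Cube n → κ → ℝ} {X : Matrix (Fin n) κ ℝ}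
  {xk M : κ → ℝ} {Cq CV ε ρ ς : ℝ}

lemma nrm_V (hS : SF J y C gk V A X xk Cq CV ε ρ) (k : κ) (x : Cube n) : nrm (V k x) ≤ CV := by
  classical
  have := hS.bd (Pi.single k 1) x
  rw [nrm_single, mul_one] at this
  convert this using 2
  funext j
  simp [Vf_ap, Pi.single_apply]

lemma nrm_uu (hS : SF J y C gk V A X xk Cq CV ε ρ) (hP : Sps J gk CV ε ρ ς)
    (hT : Tf C gk f f' M ρ) (x : Cube n) : nrm (uu V f x) ≤ ε * ρ := by
  have h1 : ∀ j, uu V f x j * uu V f x j ≤ ς ^ 2 * ∑ k, (M k * V k x j) ^ 2 := fun j => by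
    by_cases hj : j ∈ C
    · have a1 : |uu V f x j| ≤ ∑ k, |gk k j| * |M k * V k x j| :=
        (Finset.abs_sum_le_sum_abs _ _).trans (Finset.sum_le_sum fun k _ => by
          rw [abs_mul, abs_mul, abs_of_nonneg ((abs_nonneg _).trans (hT.b0 x k)), ← mul_assoc,
            mul_comm _ (M k)]
          exact mul_le_mul_of_nonneg_right (hT.g1 x k j hj) (abs_nonneg _))
      have a2 := Finset.sum_mul_sq_le_sq_mul_sq Finset.univ (fun k => |gk k j|)
        fun k => |M k * V k x j|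
      simp only [sq_abs] at a2
      rw [← abs_mul_abs_self, ← sq]
      exact ((pow_le_pow_left₀ (abs_nonneg _) a1 2).trans a2).trans
        (mul_le_mul_of_nonneg_right (hP.col j) (Finset.sum_nonneg fun _ _ => sq_nonneg _))
    · simp [uu, hS.supp _ x j hj]
  have h2 : ∑ j, ∑ k, (M k * V k x j) ^ 2 ≤ CV ^ 2 * ρ ^ 2 := by
    rw [Finset.sum_comm]
    refine le_trans (Finset.sum_le_sum fun k _ => ?_) (show ∑ k, CV ^ 2 * (M k * M k) ≤ _ by
      rw [← Finset.mul_sum]; exact mul_le_mul_of_nonneg_left hT.sm (sq_nonneg _))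
    have := (nrm_le_iff (by linarith [hP.cv])).1 (nrm_V hS k x)
    simp only [mul_pow, ← Finset.mul_sum]
    simp only [dotProduct, ← sq] at this
    nlinarith [mul_le_mul_of_nonneg_left this (sq_nonneg (M k))]
  rw [nrm_le_iff (mul_nonneg hP.e0.le hP.r0)]
  refine (Finset.sum_le_sum fun j _ => h1 j).trans ?_
  rw [← Finset.mul_sum]
  have h3 : (CV * ς) ^ 2 ≤ ε ^ 2 :=
    pow_le_pow_left₀ (mul_nonneg (by linarith [hP.cv]) hP.s0) hP.sm 2
  nlinarith [mul_le_mul_of_nonneg_left h2 (sq_nonneg ς),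
    mul_le_mul_of_nonneg_right h3 (sq_nonneg ρ)]

lemma nrm_gt (hS : SF J y C gk V A X xk Cq CV ε ρ) (hP : Sps J gk CV ε ρ ς)
    (hT : Tf C gk f f' M ρ) (x : Cube n) :
    nrm (gt J y V f x - Vf V (f x) x) ≤ 2 * ε * ρ := by
  have h0 := mul_nonneg hP.e0.le hP.r0
  have h := (nrm_le_iff h0).1 (nrm_uu hS hP hT x)
  rw [nrm_le_iff (by linarith)]
  refine le_trans (Finset.sum_le_sum fun j _ => ?_) (show ∑ j, 4 * (uu V f x j * uu V f x j) ≤ _ by
    rw [← Finset.mul_sum]; unfold dotProduct at h; linarith)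
  have e : (gt J y V f x - Vf V (f x) x) j = -(sv x j + tanh (hf J y x j)) * uu V f x j := by
    simp only [gt, uu, Pi.sub_apply]; ring
  have a1 := abs_le.1 (Hs75.abs_sv x j).le
  have a2 := abs_lt.1 (abs_tanh_lt_one (hf J y x j))
  have a3 : (sv x j + tanh (hf J y x j)) ^ 2 ≤ 4 := by nlinarith
  rw [e]
  nlinarith [mul_le_mul_of_nonneg_right a3 (sq_nonneg (uu V f x j))]

lemma Du_le (hS : SF J y C gk V A X xk Cq CV ε ρ) (hP : Sps J gk CV ε ρ ς)
    (hT : Tf C gk f f' M ρ) (x : Cube n) :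
    |Dg J y x ⬝ᵥ uu V f x - ∑ k, f' x k * (gk k ⬝ᵥ (Dg J y x * V k x))| ≤ 6 * ε * ρ ^ 2 := by
  have e : Dg J y x ⬝ᵥ uu V f x - ∑ k, f' x k * (gk k ⬝ᵥ (Dg J y x * V k x)) =
      ∑ k, ∑ j, Dg J y x j * ((grad (fun z => f z k) x j - f' x k * gk k j) * V k x j) := by
    simp only [dotProduct, uu, Finset.mul_sum, Pi.mul_apply]
    rw [Finset.sum_comm, ← Finset.sum_sub_distrib]
    refine Finset.sum_congr rfl fun k _ => ?_
    rw [← Finset.sum_sub_distrib]
    exact Finset.sum_congr rfl fun j _ => by ring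
  have M0 : ∀ k, 0 ≤ M k := fun k => (abs_nonneg _).trans (hT.b0 x k)
  have h1 : ∀ k, |∑ j, Dg J y x j * ((grad (fun z => f z k) x j - f' x k * gk k j) * V k x j)| ≤
      3 * ε * (1 + M k * M k) := fun k => by
    have a1 : ∀ j, |Dg J y x j * ((grad (fun z => f z k) x j - f' x k * gk k j) * V k x j)| ≤
        2 * M k * ς * (|gk k j| * |V k x j|) := fun j => by
      have := M0 k
      have := hP.s0
      by_cases hj : j ∈ C
      · have b1 : |Dg J y x j| ≤ 1 := by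
          have := tanh_sq_lt_one (hf J y x j)
          rw [Dg, abs_of_nonneg (by linarith)]; nlinarith [sq_nonneg (tanh (hf J y x j))]
        have b2 : |gk k j| ≤ ς := abs_le_of_sq_le_sq' ((Finset.single_le_sum
          (f := fun k => gk k j ^ 2) (fun _ _ => sq_nonneg _) (Finset.mem_univ k)).trans
            (hP.col j)) hP.s0 |> abs_le.2
        have b3 : 2 * M k * gk k j ^ 2 ≤ 2 * M k * ς * |gk k j| := by
          rw [← sq_abs, sq, ← mul_assoc]; gcongr
        rw [abs_mul, abs_mul, ← mul_assoc (2 * M k * ς)]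
        refine (mul_le_of_le_one_left (by positivity) b1).trans ?_
        exact mul_le_mul_of_nonneg_right ((hT.g2 x k j hj).trans b3) (abs_nonneg _)
      · simp [hS.supp _ x j hj]
    have a2 : ∑ j, |gk k j| * |V k x j| ≤ 3 * CV := by
      refine (dot_le (fun j => |gk k j|) fun j => |V k x j|).trans ?_
      have e1 : ∀ g : Fin n → ℝ, nrm (fun j => |g j|) = nrm g := fun g => by
        simp [nrm, dotProduct]
      rw [e1, e1]
      exact mul_le_mul (hP.row k) (nrm_V hS k x) (nrm_nonneg _) (by norm_num)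
    refine (Finset.abs_sum_le_sum_abs _ _).trans ((Finset.sum_le_sum fun j _ => a1 j).trans ?_)
    rw [← Finset.mul_sum]
    have a3 := mul_le_mul_of_nonneg_left a2 (mul_nonneg (mul_nonneg zero_le_two (M0 k)) hP.s0)
    nlinarith [mul_le_mul_of_nonneg_left hP.sm (M0 k), mul_nonneg hP.e0.le (sq_nonneg (M k - 1))]
  rw [e]
  refine (Finset.abs_sum_le_sum_abs _ _).trans ((Finset.sum_le_sum fun k _ => h1 k).trans ?_)
  rw [← Finset.mul_sum, Finset.sum_add_distrib, Finset.sum_const, Finset.card_univ, nsmul_eq_mul]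
  have h2 := hT.sm
  unfold dotProduct at h2
  nlinarith [hP.card, hP.e0]

/-- the pointwise errors of the response -/
lemma resp_le (hS : SF J y C gk V A X xk Cq CV ε ρ) (hP : Sps J gk CV ε ρ ς)
    (hT : Tf C gk f f' M ρ) (x : Cube n) (ψ ζ ψ' : Fin n → ℝ) (hψ : CV * nrm ψ' ≤ ε * ρ) :
    |(fun j => tanh (hf J y x j + (ψ + J *ᵥ ζ + ψ') j) - tanh (hf J y x j)) ⬝ᵥ gt J y V f x -
      ψ ⬝ᵥ (Dg J y x * Vf V (f x) x) - ζ ⬝ᵥ J *ᵥ (Dg J y x * Vf V (f x) x)| ≤
      ε * (14 * ρ ^ 2 + 12 * (ψ ⬝ᵥ ψ) + 108 * (ζ ⬝ᵥ ζ)) + 1 / ε * exc ε (Vf V (f x) x) := by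
  classical
  obtain ⟨e, he⟩ : ∃ e, e = ψ + J *ᵥ ζ + ψ' := ⟨_, rfl⟩
  obtain ⟨F, hF⟩ : ∃ F, F = Vf V (f x) x := ⟨_, rfl⟩
  obtain ⟨c, hc⟩ : ∃ c : Fin n → ℝ, c = fun j => tanh (hf J y x j + e j) - tanh (hf J y x j) :=
    ⟨_, rfl⟩
  have e0 := hP.e0
  have r0 := hP.r0
  have k0 : nrm F ≤ CV * ρ := hF ▸ (hS.bd _ x).trans (mul_le_mul_of_nonneg_left
    ((nrm_le_iff r0).2 (bd_of hT.b0 hT.sm x)) (by linarith [hP.cv]))
  have k1 : |c ⬝ᵥ (gt J y V f x - F)| ≤ ε * (e ⬝ᵥ e + ρ ^ 2) := by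
    have a1 : nrm c ≤ nrm e := Real.sqrt_le_sqrt (Finset.sum_le_sum fun j _ => by
      have := Ue.abs_tanh_sub_le (hf J y x j + e j) (hf J y x j)
      rw [add_sub_cancel_left] at this
      rw [← abs_mul_abs_self, ← abs_mul_abs_self (e j), hc]
      exact mul_self_le_mul_self (abs_nonneg _) this)
    have a2 := mul_le_mul a1 (hF ▸ nrm_gt hS hP hT x) (nrm_nonneg _) (nrm_nonneg _)
    rw [← nrm_sq]
    nlinarith [abs_dot_le c (gt J y V f x - F), mul_nonneg e0.le (sq_nonneg (nrm e - ρ))]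
  have k2 : |(c - Dg J y x * e) ⬝ᵥ F| ≤ 3 * ε * (e ⬝ᵥ e) + 1 / ε * exc ε F := by
    refine (Finset.abs_sum_le_sum_abs _ _).trans ?_
    rw [dotProduct, exc, Finset.mul_sum, Finset.mul_sum, ← Finset.sum_add_distrib]
    exact Finset.sum_le_sum fun j _ => rem_le e0 (hc ▸ (tanh_tay _ _).1) (hc ▸ (tanh_tay _ _).2)
  have k3 : |ψ' ⬝ᵥ (Dg J y x * F)| ≤ ε * ρ ^ 2 := by
    have a1 : nrm (Dg J y x * F) ≤ nrm F := Real.sqrt_le_sqrt (Finset.sum_le_sum fun j _ => by
      have := tanh_sq_lt_one (hf J y x j)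
      have b : Dg J y x j ^ 2 ≤ 1 := by
        rw [Dg]; nlinarith [sq_nonneg (tanh (hf J y x j))]
      rw [Pi.mul_apply]
      nlinarith [mul_le_mul_of_nonneg_right b (sq_nonneg (F j))])
    nlinarith [abs_dot_le ψ' (Dg J y x * F), mul_le_mul_of_nonneg_left (a1.trans k0) (nrm_nonneg ψ'),
      mul_le_mul_of_nonneg_right hψ r0]
  have k4 : e ⬝ᵥ e ≤ 3 * (ψ ⬝ᵥ ψ) + 27 * (ζ ⬝ᵥ ζ) + 3 * ρ ^ 2 := by
    have a1 : nrm (J *ᵥ ζ) ≤ 3 * nrm ζ :=
      (nrm_mulVec_le J ζ).trans (mul_le_mul_of_nonneg_right hP.op (nrm_nonneg _))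
    have a2 : nrm ψ' ≤ ρ := by
      nlinarith [mul_le_mul_of_nonneg_right hP.cv (nrm_nonneg ψ'),
        mul_le_mul_of_nonneg_right hP.e1 r0]
    have a3 : nrm e ≤ nrm ψ + 3 * nrm ζ + ρ := by
      rw [he]; linarith [nrm_add_le (ψ + J *ᵥ ζ) ψ', nrm_add_le ψ (J *ᵥ ζ)]
    rw [← nrm_sq, ← nrm_sq, ← nrm_sq]
    nlinarith [pow_le_pow_left₀ (nrm_nonneg _) a3 2, sq_nonneg (nrm ψ - 3 * nrm ζ),
      sq_nonneg (nrm ψ - ρ), sq_nonneg (3 * nrm ζ - ρ)]
  have k5 : c ⬝ᵥ gt J y V f x - ψ ⬝ᵥ (Dg J y x * F) - ζ ⬝ᵥ J *ᵥ (Dg J y x * F) =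
      c ⬝ᵥ (gt J y V f x - F) + (c - Dg J y x * e) ⬝ᵥ F + ψ' ⬝ᵥ (Dg J y x * F) := by
    have a1 : (Dg J y x * e) ⬝ᵥ F = e ⬝ᵥ (Dg J y x * F) :=
      Finset.sum_congr rfl fun j _ => by simp only [Pi.mul_apply]; ring
    rw [dotProduct_sub, sub_dotProduct, a1, he, add_dotProduct, add_dotProduct,
      dotProduct_mulVec ζ, ← mulVec_transpose, hP.symm]
    ring
  rw [← he, ← hF, ← hc, k5]
  refine (abs_add_three _ _ _).trans ?_
  nlinarith [mul_le_mul_of_nonneg_left k4 e0.le]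

/-- the exact identity -/
lemma ident (hS : SF J y C gk V A X xk Cq CV ε ρ) (hJ : ∀ j, J j j = 0) {v w : Cube n → ℝ}
    (hv : Wt v) {e : Cube n → Fin n → ℝ} (hF : Fld J y C v w e) (f : Cube n → κ → ℝ) :
    mean v (fun x => ∑ j, chi v w j x * gt J y V f x j) =
      mean v fun x => Vf V (f x) x ⬝ᵥ tau J y x - Dg J y x ⬝ᵥ uu V f x -
        (fun j => tanh (hf J y x j + e x j) - tanh (hf J y x j)) ⬝ᵥ gt J y V f x := by
  simp only [dotProduct, ← Finset.sum_sub_distrib, mean_sum]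
  refine Finset.sum_congr rfl fun j _ => ?_
  have h1 := mean_cm hv (off_gt hJ y hS.free f j)
  have h2 : mean v (fun x => chi v w j x * gt J y V f x j) = mean v (fun x => gt J y V f x j *
      cm v j x) - mean v fun x => gt J y V f x j * cm w j x := by
    rw [← mean_sub]; congr 1; funext x; rw [chi]; ring
  rw [h2, h1, ← mean_sub]
  refine mean_congr_supp fun x hx => ?_
  by_cases hj : j ∈ C
  · rw [hF x hx j hj]
    simp only [gt, tau, Dg, uu]
    linear_combination (-∑ k, grad (fun z => f z k) x j * V k x j) * Rec.sv_mul_self x j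
  · simp [gt, uu, Vf_ap, hS.supp _ x j hj]

end St91

open St91 in
theorem stStmt : STStmt := by
  refine ⟨200, by norm_num, ?_⟩
  intro n κ _ J y C gk V A f f' X xk gb M Cq CV ε ρ ς B v w ψ ζ ψ' hS hC hP hT h hF hζ hψ hB
  refine ⟨fun x j hj => by simp [gt, Vf_ap, hS.supp _ x j hj], nrm_gt hS hP hT, ?_⟩
  have hv := h.hv
  have b := bd_of hT.b0 hT.sm
  have b' := bd_of hT.b1 hT.sm
  have H0 : 0 ≤ kl v (ising J y) :=
    Pr.kl_nonneg ⟨hv, .of_pos fun _ => exp_pos _, fun _ e => absurd e (exp_pos _).ne'⟩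
  have P0 : 0 ≤ mean v fun x => ψ x ⬝ᵥ ψ x := hv.mean_nonneg fun x => Eig.dot_self_nonneg _
  have Z0 : 0 ≤ mean v fun x => ζ x ⬝ᵥ ζ x := hv.mean_nonneg fun x => Eig.dot_self_nonneg _
  have e0 := hP.e0
  have t1 := abs_mean (hS.f1 v f hv b) (hS.f1 v _ hv (Bd.neg b)) fun x => by
    rw [Vf_neg, neg_dotProduct, neg_dotProduct]; ring
  have t2 := abs_mean (hS.f2 v f ζ hv b hζ) (hS.f2 v _ ζ hv (Bd.neg b) hζ) fun x => by
    rw [Vf_neg, mul_neg, mulVec_neg, mulVec_neg, dotProduct_neg, dotProduct_neg]; ring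
  have t3 := abs_mean (hS.f3 v f' hv b') (hS.f3 v _ hv (Bd.neg b')) fun x => by
    simp only [Pi.neg_apply, neg_mul, Finset.sum_neg_distrib]
  have t4 := abs_mean (hC v f hv b) (hC v _ hv (Bd.neg b)) fun x => by
    rw [Vf_neg, mul_neg, dotProduct_neg, neg_dotProduct]; ring
  have t5 := abs_mean_le hv (Du_le hS hP hT)
  have t6 := abs_mean_le hv fun x => resp_le hS hP hT x (ψ x) (ζ x) (ψ' x) (hψ x)
  have t7 : 1 / ε * mean v (fun x => exc ε (Vf V (f x) x)) ≤ ε * (ρ ^ 2 + kl v (ising J y)) := by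
    rw [one_div, inv_mul_le_iff₀ e0]
    linarith [hS.f4 v f hv b]
  rw [hv.mean_const] at t5
  simp only [mean_add, mean_const_mul, hv.mean_const] at t6
  have e3 : ∀ x, ∑ k, f' x k * (gk k ⬝ᵥ (Dg J y x * V k x) - xk k) =
      ∑ k, f' x k * (gk k ⬝ᵥ (Dg J y x * V k x)) - xk ⬝ᵥ f' x := fun x => by
    simp only [mul_sub, Finset.sum_sub_distrib, dotProduct, mul_comm (xk _)]
  rw [ident hS hP.diag hv hF f]
  simp only [e3, dotProduct_sub, mean_sub] at t1 t2 t3 t4 t5 t6 ⊢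
  have a1 := abs_le.1 t1
  have a2 := abs_le.1 t2
  have a3 := abs_le.1 t3
  have a4 := abs_le.1 t4
  have a5 := abs_le.1 t5
  have a6 := abs_le.1 t6
  have p1 := mul_nonneg e0.le H0
  have p2 := mul_nonneg e0.le P0
  have p3 := mul_nonneg e0.le Z0
  have p4 := mul_nonneg e0.le hB
  have p5 := mul_nonneg e0.le (sq_nonneg ρ)
  exact abs_le.2 ⟨by linarith [a1.2, a2.1, a3.1, a4.1, a5.1, a6.1],
    by linarith [a1.1, a2.2, a3.2, a4.2, a5.2, a6.2]⟩

end Crest.Agent.T157.Br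

end
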