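import Crest.Agent.T157.CascDef_65

/-!
# Row 157: cascades, the parametric calculus (helper65)

Everything is done jointly in `(t, h)`; the static statements are the case of constant levels.
-/

set_option autoImplicit false
set_option linter.unusedSectionVars false

noncomputable section

namespace Crest.Agent.T157.Casc

open MeasureTheory Real Filter Topology Set
open Crest.Agent.T157.E
open Crest.Agent.T157.SL (EG Pt Wt int_exp)
open Crest.Agent.R339.Guerra (dual dual_apply norm_dual_le)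

variable {Ω ι : Type*} [Fintype Ω] [DecidableEq Ω] [Fintype ι] [DecidableEq ι] {I : Set ℝ}

/-! ### integrating out a Gaussian block -/

/-- joining a state and a Gaussian vector -/
def jn (p : Pt Ω) (g : ι → ℝ) : Pt (Ω ⊕ ι) := (p.1, Sum.elim p.2 g)

theorem cont_jn : Continuous fun q : Pt Ω × (ι → ℝ) => jn q.1 q.2 := by
  refine continuous_fst.fst.prodMk (continuous_pi fun k => ?_)
  cases k <;> simp only [Sum.elim_inl, Sum.elim_inr] <;> fun_prop

theorem norm_jn (p : Pt Ω) (g : ι → ℝ) : ‖(jn p g).2‖ ≤ ‖p.2‖ + ‖g‖ := by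
  refine (pi_norm_le_iff_of_nonneg (by positivity)).2 fun k => ?_
  cases k with
  | inl x => exact (norm_le_pi_norm p.2 x).trans (le_add_of_nonneg_right (norm_nonneg _))
  | inr i => exact (norm_le_pi_norm g i).trans (le_add_of_nonneg_left (norm_nonneg _))

theorem eg_bd2 {H : Pt (Ω ⊕ ι) → ℝ} (h : EG I H) : ∃ C c : ℝ, 0 ≤ C ∧ 0 ≤ c ∧
    ∀ (p : Pt Ω) (g : ι → ℝ), p.1 ∈ I → |H (jn p g)| ≤ C * exp (c * ‖p.2‖) * exp (c * ‖g‖) := by
  obtain ⟨C, c, h1, h2, h3⟩ := h.bd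
  refine ⟨C, c, h1, h2, fun p g hp => (h3 (jn p g) hp).trans ?_⟩
  rw [mul_assoc, ← exp_add, ← mul_add]
  gcongr
  exact norm_jn p g

theorem eg_cont_g {H : Pt (Ω ⊕ ι) → ℝ} (h : EG I H) {p : Pt Ω} (hp : p.1 ∈ I) :
    Continuous fun g : ι → ℝ => H (jn p g) :=
  continuousOn_univ.1 (h.cont.comp (cont_jn.comp (Continuous.prodMk_right p)).continuousOn
    fun _ _ => ⟨hp, trivial⟩)

theorem eg_int_g {H : Pt (Ω ⊕ ι) → ℝ} (h : EG I H) {p : Pt Ω} (hp : p.1 ∈ I) :
    Integrable (fun g : ι → ℝ => H (jn p g)) (gv ι) := by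
  obtain ⟨C, c, -, -, h3⟩ := eg_bd2 h
  exact ((int_exp c).const_mul _).mono' (eg_cont_g h hp).aestronglyMeasurable
    (.of_forall fun g => h3 p g hp)

theorem eg_int {H : Pt (Ω ⊕ ι) → ℝ} (h : EG I H) :
    EG I fun p : Pt Ω => ∫ g, H (jn p g) ∂gv ι := by
  obtain ⟨C, c, h1, h2, h3⟩ := eg_bd2 h
  refine ⟨fun p hp => ?_, C * ∫ g : ι → ℝ, exp (c * ‖g‖) ∂gv ι, c,
    mul_nonneg h1 (integral_nonneg fun _ => (exp_pos _).le), h2, fun p hp => ?_⟩
  · have hn : ∀ᶠ q : Pt Ω in 𝓝[I ×ˢ univ] p, q.1 ∈ I ∧ ‖q.2‖ ≤ ‖p.2‖ + 1 := by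
      refine Eventually.and (eventually_mem_nhdsWithin.mono fun q hq => hq.1) ?_
      have : ContinuousAt (fun q : Pt Ω => ‖q.2‖) p := by fun_prop
      exact mem_nhdsWithin_of_mem_nhds (this.eventually (ge_mem_nhds (lt_add_one _)))
    refine continuousWithinAt_of_dominated
      (bound := fun g => C * exp (c * (‖p.2‖ + 1)) * exp (c * ‖g‖))
      (hn.mono fun q hq => (eg_cont_g h hq.1).aestronglyMeasurable)
      (hn.mono fun q hq => .of_forall fun g => (h3 q g hq.1).trans ?_) ((int_exp c).const_mul _)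
      (.of_forall fun g => ?_)
    · gcongr
      exact hq.2
    · exact (h.cont _ ⟨hp.1, trivial⟩).comp
        (cont_jn.comp (Continuous.prodMk_left g)).continuousWithinAt fun q hq => ⟨hq.1, trivial⟩
  · refine (abs_integral_le_integral_abs.trans (integral_mono (eg_int_g h hp).abs
      ((int_exp c).const_mul (C * exp (c * ‖p.2‖))) fun g => h3 p g hp)).trans ?_
    rw [integral_const_mul]
    exact le_of_eq (by ring)

/-- the differential with time part `a` and gradient `b` -/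
def D2 (a : ℝ) (b : Ω → ℝ) : Pt Ω →L[ℝ] ℝ :=
  a • ContinuousLinearMap.fst ℝ ℝ (Ω → ℝ) + (dual b).comp (ContinuousLinearMap.snd ℝ ℝ (Ω → ℝ))

@[simp] theorem D2_apply (a : ℝ) (b : Ω → ℝ) (v : Pt Ω) :
    D2 a b v = a * v.1 + ∑ x, b x * v.2 x := by simp [D2]

theorem norm_D2_le (a : ℝ) (b : Ω → ℝ) : ‖D2 a b‖ ≤ |a| + ∑ x, |b x| := by
  refine ContinuousLinearMap.opNorm_le_bound _ (by positivity) fun v => ?_
  rw [D2_apply, Real.norm_eq_abs, add_mul, Finset.sum_mul]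
  refine (abs_add_le _ _).trans (add_le_add ?_ ((Finset.abs_sum_le_sum_abs _ _).trans
    (Finset.sum_le_sum fun x _ => ?_))) <;> rw [abs_mul] <;> gcongr
  · exact norm_fst_le v
  · exact (norm_le_pi_norm v.2 x).trans (norm_snd_le v)

theorem cont_D2 : Continuous fun q : ℝ × (Ω → ℝ) => D2 q.1 q.2 := by
  unfold D2 dual
  fun_prop

theorem fd_int {H a : Pt (Ω ⊕ ι) → ℝ} {b : Ω → Pt (Ω ⊕ ι) → ℝ} (hI : IsOpen I) (hH : EG I H)
    (ha : EG I a) (hb : ∀ x, EG I (b x))
    (hd : ∀ (g : ι → ℝ) (p : Pt Ω), p.1 ∈ I →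
      HasFDerivAt (fun p => H (jn p g)) (D2 (a (jn p g)) fun x => b x (jn p g)) p)
    {p : Pt Ω} (hp : p.1 ∈ I) :
    HasFDerivAt (fun p : Pt Ω => ∫ g, H (jn p g) ∂gv ι)
      (D2 (∫ g, a (jn p g) ∂gv ι) fun x => ∫ g, b x (jn p g) ∂gv ι) p := by
  obtain ⟨C, c, h1, h2, h3⟩ := eg_bd2 (ha.abs.add (EG.sum Finset.univ fun x _ => (hb x).abs))
  have hs : {q : Pt Ω | q.1 ∈ I ∧ ‖q.2‖ ≤ ‖p.2‖ + 1} ∈ 𝓝 p := by
    have e1 : ∀ᶠ q : Pt Ω in 𝓝 p, q.1 ∈ I := continuous_fst.continuousAt.eventually (hI.mem_nhds hp)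
    have : ContinuousAt (fun q : Pt Ω => ‖q.2‖) p := by fun_prop
    exact e1.and (this.eventually (ge_mem_nhds (lt_add_one _)))
  have hc : Continuous fun g : ι → ℝ => D2 (a (jn p g)) fun x => b x (jn p g) :=
    cont_D2.comp ((eg_cont_g ha hp).prodMk (continuous_pi fun x => eg_cont_g (hb x) hp))
  have hbd : ∀ (q : Pt Ω) (g : ι → ℝ), q.1 ∈ I → ‖q.2‖ ≤ ‖p.2‖ + 1 →
      ‖D2 (a (jn q g)) fun x => b x (jn q g)‖ ≤ C * exp (c * (‖p.2‖ + 1)) * exp (c * ‖g‖) := by
    intro q g hq hq'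
    refine (norm_D2_le _ _).trans ((le_abs_self _).trans ((h3 q g hq).trans ?_))
    gcongr
  have key := hasFDerivAt_integral_of_dominated_of_fderiv_le (𝕜 := ℝ) (μ := gv ι)
    (F := fun q g => H (jn q g)) (F' := fun q g => D2 (a (jn q g)) fun x => b x (jn q g))
    (bound := fun g => C * exp (c * (‖p.2‖ + 1)) * exp (c * ‖g‖)) hs
    (mem_of_superset hs fun q hq => (eg_cont_g hH hq.1).aestronglyMeasurable) (eg_int_g hH hp)
    hc.aestronglyMeasurable (.of_forall fun g q hq => hbd q g hq.1 hq.2) ((int_exp c).const_mul _)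
    (.of_forall fun g q hq => hd g q hq.1)
  refine key.congr_fderiv ?_
  have hi : Integrable (fun g : ι → ℝ => D2 (a (jn p g)) fun x => b x (jn p g)) (gv ι) :=
    ((int_exp c).const_mul _).mono' hc.aestronglyMeasurable
      (.of_forall fun g => hbd p g hp (by linarith))
  refine ContinuousLinearMap.ext fun v => ?_
  rw [ContinuousLinearMap.integral_apply hi]
  simp only [D2_apply]
  rw [integral_add ((eg_int_g ha hp).mul_const _)
    (integrable_finsetSum _ fun x _ => (eg_int_g (hb x) hp).mul_const _), integral_mul_const,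
    integral_finsetSum _ fun x _ => (eg_int_g (hb x) hp).mul_const _]
  simp only [integral_mul_const]

/-! ### smooth functions of `(t, h)` -/

/-- `G` has time derivative `a` and gradient `b` -/
structure Sm (I : Set ℝ) (G a : Pt Ω → ℝ) (b : Ω → Pt Ω → ℝ) : Prop where
  eg : EG I G
  ega : EG I a
  egb : ∀ x, EG I (b x)
  fd : ∀ p : Pt Ω, p.1 ∈ I → HasFDerivAt G (D2 (a p) fun x => b x p) p

/-- linear growth -/
structure LG (I : Set ℝ) (F : Pt Ω → ℝ) : Prop where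
  cont : ContinuousOn F (I ×ˢ univ)
  bd : ∃ C c : ℝ, 0 ≤ C ∧ 0 ≤ c ∧ ∀ p : Pt Ω, p.1 ∈ I → |F p| ≤ C + c * ‖p.2‖

variable {G H F a a' : Pt Ω → ℝ} {b b' : Ω → Pt Ω → ℝ}

theorem LG.eg (h : LG I F) : EG I F := by
  obtain ⟨C, c, h1, h2, h3⟩ := h.bd
  refine ⟨h.cont, C + c, 1, by positivity, zero_le_one, fun p hp => (h3 p hp).trans ?_⟩
  have := add_one_le_exp ‖p.2‖
  have := norm_nonneg p.2
  rw [one_mul]
  nlinarith

theorem LG.exp (h : LG I F) (m : ℝ) : EG I fun p => exp (m * F p) := by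
  obtain ⟨C, c, h1, h2, h3⟩ := h.bd
  refine EG.exp (continuousOn_const.mul h.cont) (|m| * C) (|m| * c) fun p hp => ?_
  refine (le_abs_self _).trans ?_
  rw [abs_mul, mul_assoc, ← mul_add]
  gcongr
  exact h3 p hp

theorem Sm.congr (h : Sm I G a b) (ea : ∀ p : Pt Ω, p.1 ∈ I → a' p = a p)
    (eb : ∀ x, ∀ p : Pt Ω, p.1 ∈ I → b' x p = b x p) : Sm I G a' b' :=
  ⟨h.eg, h.ega.congr ea, fun x => (h.egb x).congr (eb x), fun p hp => by
    rw [ea p hp, show (fun x => b' x p) = fun x => b x p from funext fun x => eb x p hp]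
    exact h.fd p hp⟩


theorem Sm.const (c : ℝ) : Sm I (fun _ : Pt Ω => c) (fun _ => 0) fun _ _ => 0 :=
  ⟨.const c, .const 0, fun _ => .const 0, fun p _ =>
    (hasFDerivAt_const c p).congr_fderiv (by refine ContinuousLinearMap.ext fun v => ?_; simp)⟩

theorem Sm.coord (y : Ω) :
    Sm I (fun p : Pt Ω => p.2 y) (fun _ => 0) fun x _ => if x = y then 1 else 0 :=
  ⟨.coord y, .const 0, fun _ => .const _, fun p _ =>
    (((ContinuousLinearMap.proj y : (Ω → ℝ) →L[ℝ] ℝ).comp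
      (ContinuousLinearMap.snd ℝ ℝ (Ω → ℝ))).hasFDerivAt (x := p)).congr_fderiv
      (by refine ContinuousLinearMap.ext fun v => ?_; simp)⟩

theorem Sm.add (h : Sm I G a b) (h' : Sm I H a' b') :
    Sm I (fun p => G p + H p) (fun p => a p + a' p) fun x p => b x p + b' x p :=
  ⟨h.eg.add h'.eg, h.ega.add h'.ega, fun x => (h.egb x).add (h'.egb x), fun p hp =>
    ((h.fd p hp).add (h'.fd p hp)).congr_fderiv (by
      refine ContinuousLinearMap.ext fun v => ?_; simp [add_mul, Finset.sum_add_distrib]; ring)⟩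

theorem Sm.mul (h : Sm I G a b) (h' : Sm I H a' b') :
    Sm I (fun p => G p * H p) (fun p => a p * H p + G p * a' p)
      fun x p => b x p * H p + G p * b' x p :=
  ⟨h.eg.mul h'.eg, (h.ega.mul h'.eg).add (h.eg.mul h'.ega),
    fun x => ((h.egb x).mul h'.eg).add (h.eg.mul (h'.egb x)), fun p hp =>
    ((h.fd p hp).mul (h'.fd p hp)).congr_fderiv (by
      refine ContinuousLinearMap.ext fun v => ?_
      simp only [add_apply, smul_apply, D2_apply,
        smul_eq_mul, add_mul, Finset.sum_add_distrib, mul_add, Finset.mul_sum]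
      have e : ∀ x, H p * (b x p * v.2 x) = b x p * H p * v.2 x := fun x => by ring
      have e' : ∀ x, G p * (b' x p * v.2 x) = G p * b' x p * v.2 x := fun x => by ring
      simp only [e, e']
      ring)⟩

theorem Sm.comp (h : Sm I G a b) {φ φ' : ℝ → ℝ}
    (hφ : ∀ p : Pt Ω, p.1 ∈ I → HasDerivAt φ (φ' (G p)) (G p)) (e : EG I fun p => φ (G p))
    (e' : EG I fun p => φ' (G p)) :
    Sm I (fun p => φ (G p)) (fun p => φ' (G p) * a p) fun x p => φ' (G p) * b x p :=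
  ⟨e, e'.mul h.ega, fun x => e'.mul (h.egb x), fun p hp =>
    ((hφ p hp).comp_hasFDerivAt p (h.fd p hp)).congr_fderiv (by
      refine ContinuousLinearMap.ext fun v => ?_; simp [mul_add, Finset.mul_sum, mul_assoc])⟩

theorem Sm.const_mul (c : ℝ) (h : Sm I G a b) :
    Sm I (fun p => c * G p) (fun p => c * a p) fun x p => c * b x p :=
  ((Sm.const c).mul h).congr (fun _ _ => by simp) fun _ _ _ => by simp

theorem Sm.sum {κ : Type*} (s : Finset κ) {G a : κ → Pt Ω → ℝ} {b : κ → Ω → Pt Ω → ℝ}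
    (h : ∀ k ∈ s, Sm I (G k) (a k) (b k)) :
    Sm I (fun p => ∑ k ∈ s, G k p) (fun p => ∑ k ∈ s, a k p) fun x p => ∑ k ∈ s, b k x p := by
  classical
  induction s using Finset.induction_on with
  | empty => simpa using Sm.const 0
  | insert k s hk ih =>
    simpa [Finset.sum_insert hk] using (h k (by simp)).add (ih fun j hj => h j (by simp [hj]))

theorem Sm.exp (h : Sm I G a b) (e : EG I fun p => exp (G p)) :
    Sm I (fun p => exp (G p)) (fun p => exp (G p) * a p) fun x p => exp (G p) * b x p :=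
  h.comp (fun _ _ => Real.hasDerivAt_exp _) e e

theorem Sm.inv (h : Sm I G a b) (h0 : ∀ p : Pt Ω, p.1 ∈ I → G p ≠ 0) (e : EG I fun p => (G p)⁻¹) :
    Sm I (fun p => (G p)⁻¹) (fun p => -((G p)⁻¹ * (G p)⁻¹) * a p)
      fun x p => -((G p)⁻¹ * (G p)⁻¹) * b x p :=
  h.comp (φ := fun u => u⁻¹) (φ' := fun u => -(u⁻¹ * u⁻¹))
    (fun p hp => (hasDerivAt_inv (h0 p hp)).congr_deriv (by rw [sq, mul_inv])) e (e.mul e).neg

theorem Sm.log (h : Sm I G a b) (h0 : ∀ p : Pt Ω, p.1 ∈ I → G p ≠ 0) (e0 : EG I fun p => log (G p))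
    (e : EG I fun p => (G p)⁻¹) :
    Sm I (fun p => log (G p)) (fun p => (G p)⁻¹ * a p) fun x p => (G p)⁻¹ * b x p :=
  h.comp (φ := Real.log) (φ' := fun u => u⁻¹) (fun p hp => Real.hasDerivAt_log (h0 p hp)) e0 e

/-! ### the shift by a level -/

/-- the next state -/
def sh (l : TL Ω) (q : Pt (Ω ⊕ l.ι)) : Pt Ω :=
  (q.1, fun x => q.2 (.inl x) + ∑ i, l.A q.1 x i * q.2 (.inr i))

theorem sh_jn (l : TL Ω) (p : Pt Ω) (g : l.ι → ℝ) :
    sh l (jn p g) = (p.1, p.2 + (l.at p.1).fld g) := rfl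

/-- the derivative of the energy of a level -/
def dfl (l : TL Ω) (x : Ω) (q : Pt (Ω ⊕ l.ι)) : ℝ := ∑ i, l.A' q.1 x i * q.2 (.inr i)

variable {l : TL Ω}

theorem TL.OkC.sh_bd (hl : l.OkC I) : ∃ B : ℝ, 0 ≤ B ∧ ∀ (t : ℝ) (g : l.ι → ℝ), t ∈ I →
    ‖(l.at t).fld g‖ ≤ B * ‖g‖ := by
  obtain ⟨B, hB⟩ := hl.bd
  refine ⟨Fintype.card l.ι * |B|, by positivity, fun t g ht => ?_⟩
  refine (pi_norm_le_iff_of_nonneg (by positivity)).2 fun x => ?_
  refine (Finset.abs_sum_le_sum_abs _ _).trans ?_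
  rw [mul_assoc, ← nsmul_eq_mul, ← Finset.card_univ]
  refine Finset.sum_le_card_nsmul _ _ _ fun i _ => ?_
  rw [abs_mul]
  exact mul_le_mul ((hB t ht x i).trans (le_abs_self B)) (norm_le_pi_norm g i) (abs_nonneg _)
    (abs_nonneg _)

theorem TL.OkC.cont_sh (hl : l.OkC I) : ContinuousOn (sh l) (I ×ˢ univ) := by
  refine continuousOn_fst.prodMk (continuousOn_pi.2 fun x => ContinuousOn.add (by fun_prop)
    (continuousOn_finsetSum _ fun i _ => ContinuousOn.mul ?_ (by fun_prop)))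
  exact (hl.cont x i).comp continuousOn_fst fun _ hq => hq.1

theorem TL.OkC.norm_sh (hl : l.OkC I) : ∃ B : ℝ, 0 ≤ B ∧ ∀ q : Pt (Ω ⊕ l.ι), q.1 ∈ I →
    ‖(sh l q).2‖ ≤ B * ‖q.2‖ := by
  obtain ⟨B, h0, hB⟩ := hl.sh_bd
  refine ⟨1 + B, by positivity, fun q hq => ?_⟩
  have e : (sh l q).2 = (fun x => q.2 (.inl x)) + (l.at q.1).fld fun i => q.2 (.inr i) := rfl
  have h1 : ‖fun x => q.2 (.inl x)‖ ≤ ‖q.2‖ :=
    (pi_norm_le_iff_of_nonneg (norm_nonneg _)).2 fun x => norm_le_pi_norm q.2 _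
  have h2 : ‖fun i => q.2 (.inr i)‖ ≤ ‖q.2‖ :=
    (pi_norm_le_iff_of_nonneg (norm_nonneg _)).2 fun x => norm_le_pi_norm q.2 _
  rw [e, add_mul, one_mul]
  exact (norm_add_le _ _).trans (add_le_add h1 ((hB _ _ hq).trans (by gcongr)))

open Classical in
theorem TL.OkC.eg_sh (hl : l.OkC I) (h : EG I G) : EG I fun q => G (sh l q) := by
  obtain ⟨B, -, hB⟩ := hl.norm_sh
  exact h.comp hl.cont_sh (fun _ hq => hq) 0 B fun q hq => by simpa using hB q hq

open Classical in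
theorem TL.OkD.eg_dfl (hl : l.OkD I) (x : Ω) : EG I (dfl l x) := by
  obtain ⟨B, hB⟩ := hl.bd'
  exact EG.sum _ fun i _ => (EG.time (hl.cont' x i) B fun t ht => hB t ht x i).mul (.coord _)

theorem TL.OkD.fd_sh (hl : l.OkD I) (h : Sm I G a b) (g : l.ι → ℝ) (p : Pt Ω) (hp : p.1 ∈ I) :
    HasFDerivAt (fun p => G (sh l (jn p g)))
      (D2 (a (sh l (jn p g)) + ∑ x, b x (sh l (jn p g)) * dfl l x (jn p g))
        fun x => b x (sh l (jn p g))) p := by
  have h1 : ∀ x, HasFDerivAt (fun p : Pt Ω => p.2 x + ∑ i, l.A p.1 x i * g i)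
      (D2 (dfl l x (jn p g)) fun y => if y = x then 1 else 0) p := by
    intro x
    have e1 : HasDerivAt (fun t => ∑ i, l.A t x i * g i) (dfl l x (jn p g)) p.1 :=
      HasDerivAt.fun_sum fun i _ => (hl.der _ hp x i).mul_const _
    refine (((Sm.coord (I := I) x).fd p hp).add
      (e1.comp_hasFDerivAt p hasFDerivAt_fst)).congr_fderiv ?_
    refine ContinuousLinearMap.ext fun v => ?_
    simp [add_comm]
  have h2 : HasFDerivAt (fun p : Pt Ω => sh l (jn p g)) ((ContinuousLinearMap.fst ℝ ℝ (Ω → ℝ)).prod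
      (ContinuousLinearMap.pi fun x => D2 (dfl l x (jn p g)) fun y => if y = x then 1 else 0)) p :=
    hasFDerivAt_fst.prodMk (hasFDerivAt_pi.2 h1)
  refine ((h.fd (sh l (jn p g)) hp).comp p h2).congr_fderiv ?_
  refine ContinuousLinearMap.ext fun v => ?_
  simp [mul_add, add_mul, Finset.sum_add_distrib, Finset.sum_mul, mul_assoc, add_assoc]

/-- Gaussian average over a level -/
def iL (l : TL Ω) (H : Pt (Ω ⊕ l.ι) → ℝ) (p : Pt Ω) : ℝ := ∫ g, H (jn p g) ∂gv l.ι

open Classical in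
theorem Sm.iL (hI : IsOpen I) (hl : l.OkD I) (h : Sm I G a b) :
    Sm I (iL l fun q => G (sh l q))
      (iL l fun q => a (sh l q) + ∑ x, b x (sh l q) * dfl l x q) fun x => iL l fun q => b x (sh l q) :=
  have e1 := hl.toOkC.eg_sh h.eg
  have e3 := fun x => hl.toOkC.eg_sh (h.egb x)
  have e2 := (hl.toOkC.eg_sh h.ega).add (EG.sum Finset.univ fun x _ => (e3 x).mul (hl.eg_dfl x))
  ⟨eg_int e1, eg_int e2, fun x => eg_int (e3 x), fun _ hp =>
    fd_int hI e1 e2 e3 (fun g p hp => hl.fd_sh h g p hp) hp⟩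

/-! ### the tilted expectation and the step -/

/-- the normalisation -/
def zP (l : TL Ω) (F : Pt Ω → ℝ) : Pt Ω → ℝ := iL l fun q => exp (l.m * F (sh l q))

/-- tilted expectation of a function of the state and the Gaussian vector -/
def tG (l : TL Ω) (F : Pt Ω → ℝ) (H : Pt (Ω ⊕ l.ι) → ℝ) (p : Pt Ω) : ℝ :=
  iL l (fun q => exp (l.m * F (sh l q)) * H q) p / zP l F p

/-- parametric tilted expectation -/
def tP (l : TL Ω) (F Φ : Pt Ω → ℝ) : Pt Ω → ℝ := tG l F fun q => Φ (sh l q)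

/-- parametric step -/
def sP (l : TL Ω) (F : Pt Ω → ℝ) (p : Pt Ω) : ℝ := step (l.at p.1) (fun h => F (p.1, h)) p.2

theorem tP_eq (l : TL Ω) (F Φ : Pt Ω → ℝ) (p : Pt Ω) :
    tP l F Φ p = tE (l.at p.1) (fun h => F (p.1, h)) (fun h => Φ (p.1, h)) p.2 := rfl

theorem sP_eq (l : TL Ω) (F : Pt Ω → ℝ) (p : Pt Ω) :
    sP l F p = if l.m = 0 then iL l (fun q => F (sh l q)) p else l.m⁻¹ * log (zP l F p) := rfl

open Classical in
theorem LG.zP_pos (hl : l.OkC I) (hF : LG I F) {p : Pt Ω} (hp : p.1 ∈ I) : 0 < zP l F p :=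
  integral_exp_pos (eg_int_g (hl.eg_sh (hF.exp l.m)) hp)

open Classical in
theorem LG.eg_zP (hl : l.OkC I) (hF : LG I F) : EG I (zP l F) := eg_int (hl.eg_sh (hF.exp l.m))

theorem LG.sh_bd (hl : l.OkC I) (hF : LG I F) : ∃ C c B : ℝ, 0 ≤ C ∧ 0 ≤ c ∧
    ∀ (p : Pt Ω) (g : l.ι → ℝ), p.1 ∈ I → |F (sh l (jn p g))| ≤ C + c * ‖p.2‖ + B * ‖g‖ := by
  obtain ⟨C, c, h1, h2, h3⟩ := hF.bd
  obtain ⟨B, -, hB⟩ := hl.sh_bd
  refine ⟨C, c, c * B, h1, h2, fun p g hp => (h3 (sh l (jn p g)) hp).trans ?_⟩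
  rw [sh_jn, add_assoc, mul_assoc, ← mul_add]
  gcongr
  exact (norm_add_le _ _).trans (add_le_add le_rfl (hB _ _ hp))

open Classical in
theorem LG.log_zP (hl : l.OkC I) (hF : LG I F) : LG I fun p => log (zP l F p) := by
  obtain ⟨C, c, B, h1, h2, h3⟩ := hF.sh_bd hl
  set K1 := ∫ g : l.ι → ℝ, Real.exp (|l.m| * B * ‖g‖) ∂gv l.ι
  set K2 := ∫ g : l.ι → ℝ, Real.exp (-(|l.m| * B) * ‖g‖) ∂gv l.ι
  have k1 : 0 < K1 := integral_exp_pos (int_exp _)
  have k2 : 0 < K2 := integral_exp_pos (int_exp _)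
  refine ⟨(hF.eg_zP hl).cont.log fun p hp => (hF.zP_pos hl hp.1).ne',
    |l.m| * C + |log K1| + |log K2|, |l.m| * c, by positivity, by positivity, fun p hp => ?_⟩
  have hi := eg_int_g (hl.eg_sh (hF.exp l.m)) hp
  have hb : ∀ g, |l.m * F (sh l (jn p g))| ≤ |l.m| * (C + c * ‖p.2‖) + |l.m| * B * ‖g‖ := fun g => by
    rw [abs_mul, mul_assoc, ← mul_add]
    gcongr
    exact h3 p g hp
  have u1 : zP l F p ≤ Real.exp (|l.m| * (C + c * ‖p.2‖)) * K1 := by
    rw [← integral_const_mul]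
    refine integral_mono hi ((int_exp _).const_mul _) fun g => ?_
    simp only [← exp_add, exp_le_exp]
    exact (abs_le.1 (hb g)).2
  have u2 : Real.exp (-(|l.m| * (C + c * ‖p.2‖))) * K2 ≤ zP l F p := by
    rw [← integral_const_mul]
    refine integral_mono ((int_exp _).const_mul _) hi fun g => ?_
    simp only [← exp_add, exp_le_exp]
    linarith [(abs_le.1 (hb g)).1]
  have v1 := log_le_log (hF.zP_pos hl hp) u1
  have v2 := log_le_log (by positivity) u2
  rw [log_mul (exp_pos _).ne' k1.ne', log_exp] at v1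
  rw [log_mul (exp_pos _).ne' k2.ne', log_exp] at v2
  have := le_abs_self (log K1)
  have := neg_abs_le (log K2)
  have := abs_nonneg (log K1)
  have := abs_nonneg (log K2)
  rw [abs_le]
  constructor <;> nlinarith

theorem LG.eg_inv_zP (hl : l.OkC I) (hF : LG I F) : EG I fun p => (zP l F p)⁻¹ :=
  ((hF.log_zP hl).exp (-1)).congr fun p hp => by
    rw [neg_one_mul, exp_neg, exp_log (hF.zP_pos hl hp)]

open Classical in
theorem LG.eg_tG (hl : l.OkC I) (hF : LG I F) {H : Pt (Ω ⊕ l.ι) → ℝ} (hH : EG I H) :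
    EG I (tG l F H) :=
  (eg_int ((hl.eg_sh (hF.exp l.m)).mul hH)).mul (hF.eg_inv_zP hl)

open Classical in
theorem LG.eg_tP (hl : l.OkC I) (hF : LG I F) (hH : EG I H) : EG I (tP l F H) :=
  hF.eg_tG hl (hl.eg_sh hH)

open Classical in
theorem LG.sP (hl : l.OkC I) (hF : LG I F) : LG I (sP l F) := by
  by_cases hm : l.m = 0
  · obtain ⟨C, c, B, h1, h2, h3⟩ := hF.sh_bd hl
    have e : Casc.sP l F = iL l fun q => F (sh l q) := funext fun p => by rw [sP_eq, if_pos hm]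
    have hn : Integrable (fun g : l.ι → ℝ => ‖g‖) (gv l.ι) :=
      (int_exp 1).mono' (by fun_prop) (.of_forall fun g => by
        rw [norm_norm, one_mul]; linarith [add_one_le_exp ‖g‖])
    rw [e]
    refine ⟨(eg_int (hl.eg_sh hF.eg)).cont, C + |B * ∫ g : l.ι → ℝ, ‖g‖ ∂gv l.ι|, c, by positivity,
      h2, fun p hp => ?_⟩
    refine (abs_integral_le_integral_abs.trans (integral_mono (eg_int_g (hl.eg_sh hF.eg) hp).abs
      ((integrable_const (C + c * ‖p.2‖)).add (hn.const_mul B)) fun g => h3 p g hp)).trans ?_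
    simp only [Pi.add_apply]
    rw [integral_add (integrable_const _) (hn.const_mul B), integral_const_mul]
    simp only [integral_const, probReal_univ, one_smul]
    linarith [le_abs_self (B * ∫ g : l.ι → ℝ, ‖g‖ ∂gv l.ι)]
  · have e : Casc.sP l F = fun p => l.m⁻¹ * log (zP l F p) :=
      funext fun p => by rw [sP_eq, if_neg hm]
    obtain ⟨C, c, h1, h2, h3⟩ := (hF.log_zP hl).bd
    rw [e]
    refine ⟨continuousOn_const.mul (hF.log_zP hl).cont, |l.m⁻¹| * C, |l.m⁻¹| * c, by positivity,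
      by positivity, fun p hp => ?_⟩
    rw [abs_mul, mul_assoc, ← mul_add]
    gcongr
    exact h3 p hp

theorem iL_const_mul (l : TL Ω) (c : ℝ) (H : Pt (Ω ⊕ l.ι) → ℝ) (p : Pt Ω) :
    iL l (fun q => c * H q) p = c * iL l H p := integral_const_mul _ _

theorem Sm.zP (hI : IsOpen I) (hl : l.OkD I) (hF : LG I F) (h : Sm I F a b) :
    Sm I (zP l F) (fun p => l.m * Casc.iL l (fun q => Real.exp (l.m * F (sh l q)) *
        (a (sh l q) + ∑ x, b x (sh l q) * dfl l x q)) p)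
      fun x p => l.m * Casc.iL l (fun q => Real.exp (l.m * F (sh l q)) * b x (sh l q)) p :=
  (((h.const_mul l.m).exp (hF.exp l.m)).iL hI hl).congr
    (fun p _ => by
      rw [← iL_const_mul]
      congr 1
      ext q
      simp only [mul_add, Finset.mul_sum]
      congr 1
      · ring
      · exact Finset.sum_congr rfl fun x _ => by ring)
    fun x p _ => by
      rw [← iL_const_mul]
      congr 1
      ext q
      ring

theorem Sm.sP (hI : IsOpen I) (hl : l.OkD I) (hF : LG I F) (h : Sm I F a b) :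
    Sm I (sP l F) (tG l F fun q => a (sh l q) + ∑ x, b x (sh l q) * dfl l x q)
      fun x => tP l F (b x) := by
  by_cases hm : l.m = 0
  · have e : Casc.sP l F = Casc.iL l fun q => F (sh l q) := funext fun p => by rw [sP_eq, if_pos hm]
    rw [e]
    exact (h.iL hI hl).congr (fun p _ => by simp [tG, Casc.zP, Casc.iL, hm])
      fun x p _ => by simp [tP, tG, Casc.zP, Casc.iL, hm]
  · have e : Casc.sP l F = fun p => l.m⁻¹ * Real.log (Casc.zP l F p) :=
      funext fun p => by rw [sP_eq, if_neg hm]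
    rw [e]
    exact (((h.zP hI hl hF).log (fun p hp => (hF.zP_pos hl.toOkC hp).ne') (hF.log_zP hl.toOkC).eg
      (hF.eg_inv_zP hl.toOkC)).const_mul l.m⁻¹).congr
      (fun p _ => by rw [tG]; field_simp) fun x p _ => by rw [tP, tG]; field_simp

theorem Sm.tP (hI : IsOpen I) (hl : l.OkD I) (hF : LG I F) (h : Sm I F a b) (h' : Sm I H a' b') :
    ∃ α, Sm I (tP l F H) α fun x p => tP l F (fun p => b' x p + l.m * (H p * b x p)) p -
      l.m * (tP l F H p * tP l F (b x) p) := by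
  have e1 := (((h.const_mul l.m).exp (hF.exp l.m)).mul h').iL hI hl
  have e2 := (h.zP hI hl hF).inv (fun p hp => (hF.zP_pos hl.toOkC hp).ne') (hF.eg_inv_zP hl.toOkC)
  refine ⟨_, (e1.mul e2).congr (fun _ _ => rfl) fun x p hp => ?_⟩
  have hz := (hF.zP_pos hl.toOkC hp).ne'
  have e : Casc.iL l (fun q => Real.exp (l.m * F (sh l q)) *
      (b' x (sh l q) + l.m * (H (sh l q) * b x (sh l q)))) p = Casc.iL l (fun q =>
      Real.exp (l.m * F (sh l q)) * (l.m * b x (sh l q)) * H (sh l q) +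
        Real.exp (l.m * F (sh l q)) * b' x (sh l q)) p := by
    congr 1; ext q; ring
  simp only [Casc.tP, tG, e]
  field_simp
  ring

/-! ### the cascade as a function of `(t, h)` -/

/-- the value -/
def XP (w : Ω → ℝ) (L : List (TL Ω)) (p : Pt Ω) : ℝ := X w (atL L p.1) p.2

/-- the node law -/
def PP (w : Ω → ℝ) (L : List (TL Ω)) (x : Ω) (p : Pt Ω) : ℝ := P w (atL L p.1) p.2 x

/-- the Hessian -/
def HP (w : Ω → ℝ) (L : List (TL Ω)) (x y : Ω) (p : Pt Ω) : ℝ := Hs w (atL L p.1) p.2 x y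

/-- the time derivative, before integration by parts -/
def D0 (w : Ω → ℝ) : List (TL Ω) → Pt Ω → ℝ
  | [] => fun _ => 0
  | l :: L => tG l (XP w L) fun q => D0 w L (sh l q) + ∑ x, PP w L x (sh l q) * dfl l x q

variable {w : Ω → ℝ} {L : List (TL Ω)}



theorem HP_cons (w : Ω → ℝ) (l : TL Ω) (L : List (TL Ω)) (x y : Ω) :
    HP w (l :: L) x y = fun p => tP l (XP w L) (fun p => HP w L x y p +
      l.m * (PP w L x p * PP w L y p)) p - l.m * (PP w (l :: L) x p * PP w (l :: L) y p) := rfl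

theorem wt_exp (hw : Wt w) (h : Ω → ℝ) : Wt fun x => w x * exp (h x) :=
  hw.mul_pos fun _ => exp_pos _

theorem lg_nil (hw : Wt w) : LG I (XP w []) := by
  have hp : ∀ h : Ω → ℝ, 0 < ∑ x, w x * exp (h x) := fun h => (wt_exp hw h).pos
  refine ⟨ContinuousOn.log (by fun_prop) fun p _ => (hp p.2).ne', |log (∑ x, w x)|, 1, abs_nonneg _,
    zero_le_one, fun p _ => ?_⟩
  have u1 : ∑ x, w x * exp (p.2 x) ≤ (∑ x, w x) * exp ‖p.2‖ := by
    rw [Finset.sum_mul]
    exact Finset.sum_le_sum fun x _ => mul_le_mul_of_nonneg_left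
      (exp_le_exp.2 ((le_abs_self _).trans (norm_le_pi_norm p.2 x))) (hw.nn x)
  have u2 : (∑ x, w x) * exp (-‖p.2‖) ≤ ∑ x, w x * exp (p.2 x) := by
    rw [Finset.sum_mul]
    exact Finset.sum_le_sum fun x _ => mul_le_mul_of_nonneg_left
      (exp_le_exp.2 (neg_le_of_abs_le (norm_le_pi_norm p.2 x))) (hw.nn x)
  have v1 := log_le_log (hp _) u1
  have v2 := log_le_log (mul_pos hw.pos (exp_pos _)) u2
  rw [log_mul hw.pos.ne' (exp_pos _).ne', log_exp] at v1 v2
  have := le_abs_self (log (∑ x, w x))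
  have := neg_abs_le (log (∑ x, w x))
  change |log (∑ x, w x * exp (p.2 x))| ≤ _
  rw [abs_le]
  constructor <;> linarith

theorem sm_Z (w : Ω → ℝ) (x : Ω) : Sm I (fun p : Pt Ω => w x * exp (p.2 x)) (fun _ => 0)
    fun y p => if y = x then w x * exp (p.2 x) else 0 :=
  (((Sm.coord x).exp (EG.exp (by fun_prop) 0 1 fun p _ => by
    simpa using (le_abs_self _).trans (norm_le_pi_norm p.2 x))).const_mul (w x)).congr
    (fun _ _ => by simp) fun _ _ _ => by simp

theorem eg_invZ (hw : Wt w) : EG I fun p : Pt Ω => (∑ x, w x * exp (p.2 x))⁻¹ :=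
  ((lg_nil hw).exp (-1)).congr fun p _ => by
    rw [neg_one_mul, exp_neg]
    exact congrArg _ (exp_log (wt_exp hw p.2).pos).symm

theorem sm_sumZ (w : Ω → ℝ) : Sm I (fun p : Pt Ω => ∑ x, w x * exp (p.2 x)) (fun _ => 0)
    fun y p => w y * exp (p.2 y) :=
  (Sm.sum Finset.univ fun x _ => sm_Z w x).congr (fun _ _ => by simp) fun _ _ _ => by simp

theorem sm_X_nil (hw : Wt w) : Sm I (XP w []) (D0 w []) (PP w []) :=
  ((sm_sumZ w).log (fun p _ => (wt_exp hw p.2).pos.ne') (lg_nil hw).eg (eg_invZ hw)).congr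
    (fun _ _ => by simp [D0]) fun _ _ _ => by simp [PP, atL, P, prob, div_eq_inv_mul]

theorem sm_P_nil (hw : Wt w) (x : Ω) : ∃ α, Sm I (PP w [] x) α (HP w [] x) := by
  refine ⟨_, ((sm_Z w x).mul ((sm_sumZ w).inv (fun p _ => (wt_exp hw p.2).pos.ne')
    (eg_invZ hw))).congr (fun _ _ => rfl) fun y p _ => ?_⟩
  simp only [HP, atL, List.map_nil, Hs, P, prob, div_eq_mul_inv, eq_comm (a := y)]
  split_ifs <;> ring

theorem lg_XP (hw : Wt w) (hL : ∀ l ∈ L, l.OkC I) : LG I (XP w L) := by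
  induction L with
  | nil => exact lg_nil hw
  | cons l L ih => exact (ih fun k hk => hL k (by simp [hk])).sP (hL l (by simp))

theorem eg_PP (hw : Wt w) (hL : ∀ l ∈ L, l.OkC I) (x : Ω) : EG I (PP w L x) := by
  induction L with
  | nil => exact (sm_X_nil hw).egb x
  | cons l L ih =>
    have h := fun k hk => hL k (List.mem_cons_of_mem l hk)
    exact (lg_XP hw h).eg_tP (hL l (by simp)) (ih h)

theorem sm_XP (hI : IsOpen I) (hw : Wt w) (hL : ∀ l ∈ L, l.OkD I) :
    Sm I (XP w L) (D0 w L) (PP w L) := by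
  induction L with
  | nil => exact sm_X_nil hw
  | cons l L ih =>
    have h := fun k hk => hL k (List.mem_cons_of_mem l hk)
    exact (ih h).sP hI (hL l (by simp)) (lg_XP hw fun k hk => (h k hk).toOkC)

theorem sm_PP (hI : IsOpen I) (hw : Wt w) (hL : ∀ l ∈ L, l.OkD I) (x : Ω) :
    ∃ α, Sm I (PP w L x) α (HP w L x) := by
  induction L with
  | nil => exact sm_P_nil hw x
  | cons l L ih =>
    have h := fun k hk => hL k (List.mem_cons_of_mem l hk)
    obtain ⟨α, hα⟩ := ih h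
    exact (sm_XP hI hw h).tP hI (hL l (by simp)) (lg_XP hw fun k hk => (h k hk).toOkC) hα

end Crest.Agent.T157.Casc

end
private theorem rz_681e5ccbbf : type_of% @_root_.Crest.Agent.T157.Casc.D0.eq_def := @_root_.Crest.Agent.T157.Casc.D0.eq_def -- L509
private theorem rz_a0115bb777 : type_of% @_root_.Crest.Agent.T157.Casc.D0.eq_1 := @_root_.Crest.Agent.T157.Casc.D0.eq_1 -- L509
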