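import Crest.Agent.T157.SLB_23
import Crest.Agent.R339.Kahane

/-!
# Row 157: nested Gaussian recursions ("cascades") on a finite set — definitions (helper65)

A state is an energy vector `h : Ω → ℝ`.  A level `l` adds the Gaussian energy `l.fld g`
(`g` standard on `l.ι`) and averages with exponent `l.m` (`m = 0`: plain expectation).
The terminal functional is `log ∑ w e^h` (exponent `1`).
-/

set_option autoImplicit false
set_option linter.unusedSectionVars false

noncomputable section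

namespace Crest.Agent.T157.Casc

open MeasureTheory Real
open Crest.Agent.T157.E

/-- a level: Gaussian features `A` and an exponent `m` -/
structure Lv (Ω : Type*) where
  ι : Type
  [fin : Fintype ι]
  A : Ω → ι → ℝ
  m : ℝ

attribute [instance] Lv.fin

/-- a level depending on a parameter `t`, with the derivative `A'` of the features -/
structure TL (Ω : Type*) where
  ι : Type
  [fin : Fintype ι]
  A : ℝ → Ω → ι → ℝ
  A' : ℝ → Ω → ι → ℝ
  m : ℝ

attribute [instance] TL.fin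

variable {Ω : Type*}

/-- the Gaussian energy of a level -/
def Lv.fld (l : Lv Ω) (g : l.ι → ℝ) : Ω → ℝ := fun x => ∑ i, l.A x i * g i

/-- covariance kernel of a level -/
def Lv.cov (l : Lv Ω) (x y : Ω) : ℝ := ∑ i, l.A x i * l.A y i

/-- one step of the recursion -/
def step (l : Lv Ω) (F : (Ω → ℝ) → ℝ) (h : Ω → ℝ) : ℝ :=
  if l.m = 0 then ∫ g, F (h + l.fld g) ∂gv l.ι
  else l.m⁻¹ * log (∫ g, exp (l.m * F (h + l.fld g)) ∂gv l.ι)

/-- expectation of `Φ` at the next state under the tilt `exp (m F)` -/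
def tE (l : Lv Ω) (F Φ : (Ω → ℝ) → ℝ) (h : Ω → ℝ) : ℝ :=
  (∫ g, exp (l.m * F (h + l.fld g)) * Φ (h + l.fld g) ∂gv l.ι) /
    ∫ g, exp (l.m * F (h + l.fld g)) ∂gv l.ι

/-- exponent of level `j` (`1` for the terminal level) -/
def ex (L : List (Lv Ω)) (j : ℕ) : ℝ := match L[j]? with
  | some l => l.m
  | none => 1

/-- exponent before level `j` -/
def exP (L : List (Lv Ω)) (m0 : ℝ) : ℕ → ℝ
  | 0 => m0
  | j + 1 => ex L j

/-- nondecreasing exponents: `m0 ≤ m_1 ≤ … ≤ m_K ≤ 1` -/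
def Mono : ℝ → List (Lv Ω) → Prop
  | m0, [] => m0 ≤ 1
  | m0, l :: L => m0 ≤ l.m ∧ Mono l.m L

/-- the level at parameter `t` -/
abbrev TL.at (l : TL Ω) (t : ℝ) : Lv Ω := ⟨l.ι, l.A t, l.m⟩

/-- the list of levels at parameter `t` -/
def atL (L : List (TL Ω)) (t : ℝ) : List (Lv Ω) := L.map fun l => l.at t

/-- a constant level -/
def Lv.cst (l : Lv Ω) : TL Ω := ⟨l.ι, fun _ => l.A, fun _ _ _ => 0, l.m⟩

/-- `S + Sᵀ` is the derivative of the covariance kernel -/
def TL.S (l : TL Ω) (t : ℝ) (x y : Ω) : ℝ := ∑ i, l.A' t x i * l.A t y i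

/-- the sum of the kernels `S` of the first `j` levels -/
def Sacc (L : List (TL Ω)) (t : ℝ) (j : ℕ) (x y : Ω) : ℝ := ((L.take j).map fun l => l.S t x y).sum

/-- continuity (and boundedness) of a level on `I` -/
structure TL.OkC (l : TL Ω) (I : Set ℝ) : Prop where
  cont : ∀ x i, ContinuousOn (fun t => l.A t x i) I
  bd : ∃ B, ∀ t ∈ I, ∀ x i, |l.A t x i| ≤ B

/-- differentiability of a level on `I` -/
structure TL.OkD (l : TL Ω) (I : Set ℝ) : Prop extends l.OkC I where
  der : ∀ t ∈ I, ∀ x i, HasDerivAt (fun t => l.A t x i) (l.A' t x i) t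
  cont' : ∀ x i, ContinuousOn (fun t => l.A' t x i) I
  bd' : ∃ B, ∀ t ∈ I, ∀ x i, |l.A' t x i| ≤ B

variable [Fintype Ω]

/-- the value of the cascade -/
def X (w : Ω → ℝ) : List (Lv Ω) → (Ω → ℝ) → ℝ
  | [], h => log (∑ x, w x * exp (h x))
  | l :: L, h => step l (X w L) h

/-- the law of the configuration seen from the state `h` (the gradient of `X`) -/
def P (w : Ω → ℝ) : List (Lv Ω) → (Ω → ℝ) → Ω → ℝ
  | [], h, x => prob (fun y => w y * exp (h y)) x
  | l :: L, h, x => tE l (X w L) (fun h' => P w L h' x) h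

/-- expectation of a function of the state reached after `j` levels -/
def node (w : Ω → ℝ) : List (Lv Ω) → ℕ → ((Ω → ℝ) → ℝ) → (Ω → ℝ) → ℝ
  | _, 0, Φ, h => Φ h
  | [], _ + 1, Φ, h => Φ h
  | l :: L, j + 1, Φ, h => tE l (X w L) (node w L j Φ) h

/-- expectation of a kernel under `p ⊗ p` -/
def qf (p : Ω → ℝ) (K : Ω → Ω → ℝ) : ℝ := ∑ x, ∑ y, p x * p y * K x y

/-- two replicas sharing the first `j` levels -/
def pi2 (w : Ω → ℝ) (L : List (Lv Ω)) (j : ℕ) (K : Ω → Ω → ℝ) (h : Ω → ℝ) : ℝ :=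
  node w L j (fun h' => qf (P w (L.drop j) h') K) h

/-- `∑_j (m_j - m_{j-1}) pi2 j (K j)` (see `pair_eq_sum`) -/
def pair (w : Ω → ℝ) : List (Lv Ω) → ℝ → (ℕ → Ω → Ω → ℝ) → (Ω → ℝ) → ℝ
  | [], m0, K, h => (1 - m0) * qf (P w [] h) (K 0)
  | l :: L, m0, K, h => (l.m - m0) * qf (P w (l :: L) h) (K 0) +
      tE l (X w L) (pair w L l.m fun j => K (j + 1)) h

open Classical in
/-- the Hessian of `X` -/
def Hs (w : Ω → ℝ) : List (Lv Ω) → (Ω → ℝ) → Ω → Ω → ℝ
  | [], h, x, y => (if x = y then P w [] h x else 0) - P w [] h x * P w [] h y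
  | l :: L, h, x, y => tE l (X w L) (fun h' => Hs w L h' x y + l.m * (P w L h' x * P w L h' y)) h -
      l.m * (P w (l :: L) h x * P w (l :: L) h y)

/-- continuous functions of the state of exponential growth -/
structure Eg (Φ : (Ω → ℝ) → ℝ) : Prop where
  cont : Continuous Φ
  bd : ∃ C c : ℝ, 0 ≤ C ∧ 0 ≤ c ∧ ∀ h, |Φ h| ≤ C * exp (c * ‖h‖)

/-- `Φ` has gradient `Ψ` (everything of exponential growth) -/
structure Gr (Φ : (Ω → ℝ) → ℝ) (Ψ : Ω → (Ω → ℝ) → ℝ) : Prop where
  eg : Eg Φ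
  eg' : ∀ x, Eg (Ψ x)
  fd : ∀ h, HasFDerivAt Φ (Crest.Agent.R339.Guerra.dual fun x => Ψ x h) h

end Crest.Agent.T157.Casc

end
private theorem rz_d6d46f193a : type_of% @_root_.Crest.Agent.T157.Casc.Hs.eq_def := @_root_.Crest.Agent.T157.Casc.Hs.eq_def -- L133
private theorem rz_01df534115 : type_of% @_root_.Crest.Agent.T157.Casc.Hs.eq_1 := @_root_.Crest.Agent.T157.Casc.Hs.eq_1 -- L133
private theorem rz_c6382114fe : type_of% @_root_.Crest.Agent.T157.Casc.Mono.eq_def := @_root_.Crest.Agent.T157.Casc.Mono.eq_def -- L70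
private theorem rz_6390986531 : type_of% @_root_.Crest.Agent.T157.Casc.Mono.eq_1 := @_root_.Crest.Agent.T157.Casc.Mono.eq_1 -- L70
private theorem rz_d2ea3ef12b : type_of% @_root_.Crest.Agent.T157.Casc.P.eq_def := @_root_.Crest.Agent.T157.Casc.P.eq_def -- L108
private theorem rz_55b76d469e : type_of% @_root_.Crest.Agent.T157.Casc.P.eq_1 := @_root_.Crest.Agent.T157.Casc.P.eq_1 -- L108
private theorem rz_6e2255a6f0 : type_of% @_root_.Crest.Agent.T157.Casc.X.eq_def := @_root_.Crest.Agent.T157.Casc.X.eq_def -- L103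
private theorem rz_8d791e19d5 : type_of% @_root_.Crest.Agent.T157.Casc.X.eq_1 := @_root_.Crest.Agent.T157.Casc.X.eq_1 -- L103
private theorem rz_071d9cab92 : type_of% @_root_.Crest.Agent.T157.Casc.ex.eq_1 := @_root_.Crest.Agent.T157.Casc.ex.eq_1 -- L60
private theorem rz_4e6bc6362d : type_of% @_root_.Crest.Agent.T157.Casc.exP.eq_1 := @_root_.Crest.Agent.T157.Casc.exP.eq_1 -- L65
private theorem rz_e681abf0e4 : type_of% @_root_.Crest.Agent.T157.Casc.node.eq_def := @_root_.Crest.Agent.T157.Casc.node.eq_def -- L113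
private theorem rz_2ed53e75f4 : type_of% @_root_.Crest.Agent.T157.Casc.node.eq_1 := @_root_.Crest.Agent.T157.Casc.node.eq_1 -- L113
private theorem rz_9599d2f148 : type_of% @_root_.Crest.Agent.T157.Casc.pair.eq_def := @_root_.Crest.Agent.T157.Casc.pair.eq_def -- L126
private theorem rz_f1c89c57c8 : type_of% @_root_.Crest.Agent.T157.Casc.pair.eq_1 := @_root_.Crest.Agent.T157.Casc.pair.eq_1 -- L126
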