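import Crest.Agent.T157.RvDef_32

/-!
# Row 157, part B (helper32): warm start, deterministic part
-/

set_option autoImplicit false

noncomputable section

namespace Crest.Agent.T157.Rv

open Matrix Real Filter Set
open Crest.Agent.T157.E
open Crest.Agent.T157.Chain22 (sg IsP hbRC isP_hbCt isP_prob' prob_pos' sg_eq sg_add mean_sg)
open Crest.Agent.T157.Low (Hx)

variable {n : ℕ} {w : Cube n → ℝ}

/-! ### the semigroup -/


section sg
variable (hn : 0 < n) (hw : ∀ x, 0 < w x) {t : ℝ} (ht : 0 ≤ t)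
include hn hw ht

theorem sg_mono {f g : Cube n → ℝ} (h : ∀ x, f x ≤ g x) (x : Cube n) : sg w t f x ≤ sg w t g x :=
  (isP_hbCt hn hw ht x).mean_mono h

theorem sg_const (a : ℝ) (x : Cube n) : sg w t (fun _ => a) x = a :=
  (isP_hbCt hn hw ht x).mean_const a

theorem sg_le {f : Cube n → ℝ} {a : ℝ} (h : ∀ x, f x ≤ a) (x : Cube n) : sg w t f x ≤ a :=
  (sg_mono hn hw ht h x).trans (sg_const hn hw ht a x).le

theorem le_sg {f : Cube n → ℝ} {a : ℝ} (h : ∀ x, a ≤ f x) (x : Cube n) : a ≤ sg w t f x :=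
  (sg_const hn hw ht a x).ge.trans (sg_mono hn hw ht h x)

theorem sg_nn {f : Cube n → ℝ} (h : ∀ x, 0 ≤ f x) (x : Cube n) : 0 ≤ sg w t f x :=
  le_sg hn hw ht h x

theorem sg_pos {f : Cube n → ℝ} (h : ∀ x, 0 < f x) (x : Cube n) : 0 < sg w t f x :=
  Ent.mean_pos (isP_hbCt hn hw ht x) h

theorem ent_sg_self {f : Cube n → ℝ} (hf : ∀ x, 0 ≤ f x) : ent w (sg w t f) ≤ ent w f := by
  rw [sg_eq hn hw]
  exact (hbRC hn hw).ent_H_le_self hf (by positivity)

theorem Warm.sg {m : ℝ} {f : Cube n → ℝ} (h : Warm w m f) : Warm w m (sg w t f) :=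
  ⟨sg_pos hn hw ht h.1, (mean_sg hn hw t f).trans h.2.1, sg_le hn hw ht h.2.2⟩

end sg

theorem sg_add' (w : Cube n → ℝ) (t : ℝ) (f g : Cube n → ℝ) (x : Cube n) :
    sg w t (fun y => f y + g y) x = sg w t f x + sg w t g x := Ent.mean_add' f g

theorem sg_mul (w : Cube n → ℝ) (t a : ℝ) (f : Cube n → ℝ) (x : Cube n) :
    sg w t (fun y => a * f y) x = a * sg w t f x := Ent.mean_const_mul a f

theorem Warm.mono {m m' : ℝ} {f : Cube n → ℝ} (h : Warm w m f) (hm : m ≤ m') : Warm w m' f :=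
  ⟨h.1, h.2.1, fun x => (h.2.2 x).trans (exp_le_exp.2 hm)⟩

theorem Warm.ent_le (hw : ∀ x, 0 < w x) {m : ℝ} {f : Cube n → ℝ} (h : Warm w m f) :
    ent w f ≤ m := by
  have h1 : Chain22.mean (prob w) f = 1 := h.2.1
  have := Ent.ent_le_of_bdd (isP_prob' hw) (fun x => (h.1 x).le) (M := exp m)
    fun x _ => by rw [h1, mul_one]; exact h.2.2 x
  rwa [h1, log_exp, mul_one] at this

theorem ent_nn (hw : ∀ x, 0 < w x) {f : Cube n → ℝ} (hf : ∀ x, 0 ≤ f x) : 0 ≤ ent w f :=
  (isP_prob' hw).ent_nonneg hf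

theorem hasDerivAt_ent_sg (hn : 0 < n) (hw : ∀ x, 0 < w x) {f : Cube n → ℝ} {t : ℝ}
    (h : ∀ x, 0 < sg w t f x) : HasDerivAt (fun s => ent w (sg w s f)) (-II w (sg w t f)) t := by
  rw [sg_eq hn hw] at h
  have h1 := (Ent.hasDerivAt_ent_H (c := hbRC hn hw) h).comp t ((hasDerivAt_id t).const_mul (n : ℝ))
  simp only [sg_eq hn hw, II, Chain22.dir2_eq_D hn hw]
  exact h1.congr_deriv (by ring)

theorem II_nn (hn : 0 < n) (hw : ∀ x, 0 < w x) {f : Cube n → ℝ} (h : ∀ x, 0 < f x) : 0 ≤ II w f := by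
  rw [II, Chain22.dir2_eq_D hn hw]
  exact mul_nonneg (Nat.cast_nonneg n) (Ent.D_log_nonneg _ h)

/-- a time at which the entropy production is at most the entropy -/
theorem exists_II_le (hn : 0 < n) (hw : ∀ x, 0 < w x) {f : Cube n → ℝ} (h : ∀ x, 0 < f x) :
    ∃ u, 0 < u ∧ u < 1 ∧ II w (sg w u f) ≤ ent w f := by
  obtain ⟨u, hu, e⟩ := exists_hasDerivAt_eq_slope (fun s => ent w (sg w s f))
    (fun s => -II w (sg w s f)) (zero_lt_one (α := ℝ))
    (fun s hs => (hasDerivAt_ent_sg hn hw (sg_pos hn hw hs.1 h)).continuousAt.continuousWithinAt)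
    (fun s hs => hasDerivAt_ent_sg hn hw (sg_pos hn hw hs.1.le h))
  refine ⟨u, hu.1, hu.2, ?_⟩
  rw [Chain22.sg_zero hn hw] at e
  have := ent_nn hw (sg_nn hn hw zero_le_one fun x => (h x).le)
  simp only [sub_zero, div_one] at e
  linarith

/-! ### point starts -/

/-- the density of the point mass at `x` -/
def dl (w : Cube n → ℝ) (x y : Cube n) : ℝ := if y = x then 1 / prob w x else 0

theorem dl_nn (hw : ∀ x, 0 < w x) (x y : Cube n) : 0 ≤ dl w x y := by
  unfold dl; split_ifs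
  · exact (one_div_pos.2 (prob_pos' hw x)).le
  · exact le_rfl

theorem mean_dl_mul (hw : ∀ x, 0 < w x) (x : Cube n) (F : Cube n → ℝ) :
    mean w (fun y => dl w x y * F y) = F x := by
  have := (prob_pos' hw x).ne'
  simp only [mean, dl, ite_mul, zero_mul, mul_ite, mul_zero, Finset.sum_ite_eq', Finset.mem_univ,
    if_true]
  field_simp

theorem mean_dl (hw : ∀ x, 0 < w x) (x : Cube n) : mean w (dl w x) = 1 := by
  simpa using mean_dl_mul hw x fun _ => 1

theorem dl_le (hw : ∀ x, 0 < w x) {L : ℝ} (hL : ∀ x, log (1 / prob w x) ≤ L) (x y : Cube n) :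
    dl w x y ≤ exp L := by
  unfold dl; split_ifs
  · exact (log_le_iff_le_exp (one_div_pos.2 (prob_pos' hw x))).1 (hL x)
  · exact (exp_pos L).le

theorem sg_dl (hn : 0 < n) (hw : ∀ x, 0 < w x) (t : ℝ) (x y : Cube n) :
    sg w t (dl w x) y = hbCt w t x y / prob w y := by
  have h1 := (prob_pos' hw x).ne'
  have h2 := (prob_pos' hw y).ne'
  have := Chain22.hbCt_rev hn hw t x y
  simp only [sg, dl, mul_ite, mul_zero, Finset.sum_ite_eq', Finset.mem_univ, if_true]
  field_simp
  linarith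

theorem Hx_eq (hn : 0 < n) (hw : ∀ x, 0 < w x) {t : ℝ} (ht : 0 ≤ t) (x : Cube n) :
    Hx w t x = ent w (sg w t (dl w x)) := by
  rw [Hx, Ent.kl_eq_ent (isP_hbCt hn hw ht x) (Ent.AC.of_pos _ (prob_pos' hw))]
  congr 1
  funext y
  rw [sg_dl hn hw]

theorem ent_le_crude (hw : ∀ x, 0 < w x) {L : ℝ} (hL : ∀ x, log (1 / prob w x) ≤ L)
    {f : Cube n → ℝ} (hf : ∀ x, 0 ≤ f x) : ent w f ≤ L * mean w f := by
  have := Ent.ent_le_of_min (isP_prob' hw) hf (a := exp (-L)) (exp_pos _) fun x _ => by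
    have h1 := (log_le_iff_le_exp (one_div_pos.2 (prob_pos' hw x))).1 (hL x)
    rw [exp_neg, inv_le_comm₀ (exp_pos _) (prob_pos' hw x), ← one_div]
    exact h1
  rwa [one_div, ← exp_neg, neg_neg, log_exp] at this

/-! ### entropy of pieces -/

theorem ent_add_le (hw : ∀ x, 0 < w x) {f g : Cube n → ℝ} (hf : ∀ x, 0 ≤ f x) (hg : ∀ x, 0 ≤ g x) :
    ent w (fun x => f x + g x) ≤ ent w f + ent w g := by
  have := Ent.ent_mix_le (A := Bool) (ρ := fun _ => 1) (isP_prob' hw) (fun _ => zero_le_one)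
    (F := fun b => if b then f else g) fun b x => by cases b <;> simp [hf x, hg x]
  change Chain22.ent (prob w) _ ≤ Chain22.ent (prob w) _ + Chain22.ent (prob w) _
  simpa [Chain22.mean] using this

theorem ent_le_half (hw : ∀ x, 0 < w x) {g : Cube n → ℝ} (hg : ∀ x, 0 ≤ g x) {a : ℝ} (ha : 1 ≤ a)
    (h2 : mean w g + a = 2) : ent w g ≤ 2 * ent w (fun x => 1 / 2 * (g x + a)) + 3 := by
  have hP := isP_prob' hw
  have e0 : ent w (fun x => 1 / 2 * (g x + a)) = 1 / 2 * ent w (fun x => g x + a) :=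
    Chain22.ent_smul (1 / 2) fun x => g x + a
  have e1 : Chain22.mean (prob w) (fun x => g x + a) = 2 := by
    rw [Ent.mean_add', hP.mean_const]; exact h2
  have e2 : Chain22.mean (prob w) (fun x => g x * log (g x)) ≤
      Chain22.mean (prob w) fun x => (g x + a) * log (g x + a) := hP.mean_mono fun x => by
    have h0 : 0 ≤ log (g x + a) := log_nonneg (by linarith [hg x])
    have h1 : g x * log (g x) ≤ g x * log (g x + a) := by
      rcases (hg x).eq_or_lt with h | h
      · simp [← h]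
      · exact mul_le_mul_of_nonneg_left (log_le_log h (by linarith)) h.le
    nlinarith
  have m0 : 0 ≤ Chain22.mean (prob w) g := hP.mean_nonneg hg
  have e3 : -(Chain22.mean (prob w) g * log (Chain22.mean (prob w) g)) ≤ 1 := by
    have := Real.negMulLog_le_one_sub_self m0
    rw [negMulLog] at this
    linarith
  have e4 : log 2 ≤ 1 := by have := log_le_sub_one_of_pos (two_pos (α := ℝ)); linarith
  rw [e0]
  change Chain22.ent (prob w) g ≤ 2 * (1 / 2 * Chain22.ent (prob w) fun x => g x + a) + 3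
  rw [Ent.ent_eq, Ent.ent_eq, e1]
  linarith

/-- cut a density at the level `exp m` -/
theorem exists_warm (hn : 0 < n) (hw : ∀ x, 0 < w x) {L : ℝ} (hL : ∀ x, log (1 / prob w x) ≤ L)
    {f : Cube n → ℝ} (hf : ∀ x, 0 ≤ f x) (h1 : mean w f = 1) {m p : ℝ} (hm : 1 ≤ m)
    (hp : mean w (fun x => if f x ≤ exp m then 0 else f x) ≤ p) :
    ∃ f', Warm w m f' ∧ ∀ s, 0 ≤ s → ent w (sg w s f) ≤ 2 * ent w (sg w s f') + 3 + L * p := by
  have hP := isP_prob' hw
  set g : Cube n → ℝ := fun x => if f x ≤ exp m then f x else 0 with hg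
  set h : Cube n → ℝ := fun x => if f x ≤ exp m then 0 else f x with hh
  have g0 : ∀ x, 0 ≤ g x := fun x => by simp only [hg]; split_ifs; exacts [hf x, le_rfl]
  have h0 : ∀ x, 0 ≤ h x := fun x => by simp only [hh]; split_ifs; exacts [le_rfl, hf x]
  have e : f = fun x => g x + h x := funext fun x => by simp only [hg, hh]; split_ifs <;> simp
  have em : mean w g + mean w h = 1 := by rw [← h1, e]; exact (Ent.mean_add' g h).symm
  have mg : 0 ≤ mean w g := hP.mean_nonneg g0
  have mh : 0 ≤ mean w h := hP.mean_nonneg h0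
  have L0 : 0 ≤ L := (log_nonneg (one_le_one_div (prob_pos' hw default) (hP.le_one _))).trans
    (hL default)
  have m2 : 2 ≤ exp m := by have := add_one_le_exp m; linarith
  refine ⟨fun x => 1 / 2 * (g x + (1 + mean w h)), ⟨fun x => by linarith [g0 x], ?_, fun x => ?_⟩,
    fun s hs => ?_⟩
  · change Chain22.mean (prob w) _ = 1
    rw [Ent.mean_const_mul, Ent.mean_add', hP.mean_const]
    change 1 / 2 * (mean w g + (1 + mean w h)) = 1
    linarith
  · have : g x ≤ exp m := by simp only [hg]; split_ifs with h'; exacts [h', (exp_pos m).le]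
    linarith
  · have e1 : sg w s f = fun x => sg w s g x + sg w s h x := by
      rw [e]; exact funext (sg_add' w s g h)
    have e2 : (sg w s fun x => 1 / 2 * (g x + (1 + mean w h))) =
        fun x => 1 / 2 * (sg w s g x + (1 + mean w h)) := funext fun x => by
      rw [sg_mul, sg_add', sg_const hn hw hs]
    have a1 := ent_add_le hw (sg_nn hn hw hs g0) (sg_nn hn hw hs h0)
    have a2 := ent_le_half hw (sg_nn hn hw hs g0) (a := 1 + mean w h) (by linarith) (by
      change Chain22.mean (prob w) _ + _ = 2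
      rw [mean_sg hn hw]
      change mean w g + _ = 2
      linarith)
    have a3 := (ent_sg_self hn hw hs h0).trans (ent_le_crude hw hL h0)
    have a4 := mul_le_mul_of_nonneg_left hp L0
    rw [e1, e2]
    linarith

/-- the mass above a level from a Rényi norm -/
theorem tail_le (hw : ∀ x, 0 < w x) {f : Cube n → ℝ} {η R m : ℝ} (h0 : 0 < η)
    (hR : Ent.lp (prob w) (1 + η) f ≤ exp R) :
    mean w (fun x => if f x ≤ exp m then 0 else f x) ≤ exp ((1 + η) * R - η * m) := by
  have hP := isP_prob' hw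
  have e1 := Ent.lp_rpow hP (p := 1 + η) (by linarith) f
  have e2 : Ent.lp (prob w) (1 + η) f ^ (1 + η) ≤ exp ((1 + η) * R) := by
    rw [mul_comm, exp_mul]
    exact rpow_le_rpow (Ent.lp_nonneg hP _ _) hR (by linarith)
  calc _ ≤ Chain22.mean (prob w) fun x => exp (-(η * m)) * |f x| ^ (1 + η) :=
        hP.mean_mono fun x => by
          split_ifs with h
          · positivity
          · have h' : exp m < f x := not_le.1 h
            have hx : 0 < f x := (exp_pos m).trans h'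
            rw [abs_of_pos hx, rpow_add hx, rpow_one]
            have : exp (η * m) ≤ f x ^ η := by
              rw [mul_comm, exp_mul]; exact rpow_le_rpow (exp_pos m).le h'.le h0.le
            have h3 : 1 ≤ exp (-(η * m)) * f x ^ η := by
              rw [exp_neg, ← div_eq_inv_mul, one_le_div (exp_pos _)]; exact this
            nlinarith
    _ = exp (-(η * m)) * Ent.lp (prob w) (1 + η) f ^ (1 + η) := by rw [Ent.mean_const_mul, e1]
    _ ≤ exp (-(η * m)) * exp ((1 + η) * R) := by gcongr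
    _ = _ := by rw [← exp_add]; congr 1; ring

/-- **warm start**: after the time `t` every start is, up to a negligible remainder, a warm start -/
theorem warm_start (hn : 0 < n) (hw : ∀ x, 0 < w x) {K η L : ℝ} (h : Ent.AT w K 0) (hK : 0 < K)
    (h0 : 0 < η) (h1 : η ≤ 1) (hlf : ∀ i x, η * Ent.lf w i x ≤ 1)
    (hL : ∀ x, log (1 / prob w x) ≤ L) {t m : ℝ} (ht : 0 ≤ t) (hm : 1 ≤ m) (x : Cube n) :
    ∃ f', Warm w m f' ∧ ∀ s, 0 ≤ s → Hx w (s + t) x ≤
      2 * ent w (sg w s f') + 3 + L * exp (η * (2 * (L * exp (-(t / (12 * K)))) - m)) := by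
  have hP := isP_prob' hw
  have L0 : 0 ≤ L := (log_nonneg (one_le_one_div (prob_pos' hw x) (hP.le_one _))).trans (hL x)
  have e1 := h.renyi hn hw hK le_rfl h0 h1 hlf ht (dl_nn hw x) (mean_dl hw x).le L0 (dl_le hw hL x)
  have e2 := tail_le hw (m := m) h0 e1
  obtain ⟨f', hf', H⟩ := exists_warm hn hw hL (sg_nn hn hw ht (dl_nn hw x))
    ((mean_sg hn hw t _).trans (mean_dl hw x)) hm e2
  refine ⟨f', hf', fun s hs => ?_⟩
  rw [Hx_eq hn hw (by linarith), sg_add hn hw]
  refine (H s hs).trans (add_le_add le_rfl (mul_le_mul_of_nonneg_left (exp_le_exp.2 ?_) L0))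
  have : 0 ≤ η * (L * exp (-(t / (12 * K)))) := by positivity
  nlinarith

/-! ### the delay inequality -/



/-- decay of the entropy from one block -/
theorem ent_block (hn : 0 < n) (hw : ∀ x, 0 < w x) {m T ρ B : ℝ} (hT : 0 ≤ T) (h0 : 0 ≤ ρ)
    (h1 : ρ ≤ 1 / 2) (hB : 0 ≤ B) (h : ∀ f, Warm w m f → ent w (sg w T f) ≤ ρ * ent w f + B)
    {f : Cube n → ℝ} (hf : Warm w m f) (k : ℕ) :
    ent w (sg w (k * T) f) ≤ ρ ^ k * ent w f + 2 * B := by
  induction k with
  | zero => simp only [Nat.cast_zero, zero_mul, Chain22.sg_zero hn hw, pow_zero, one_mul]; linarith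
  | succ k ih =>
    have := h _ (hf.sg hn hw (t := k * T) (by positivity))
    rw [← sg_add hn hw] at this
    rw [show ((k + 1 : ℕ) : ℝ) * T = T + k * T by push_cast; ring, pow_succ]
    nlinarith [mul_le_mul_of_nonneg_left ih h0]

end Crest.Agent.T157.Rv

end
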