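import Mathlib
import Crest.Agent.T157.ClDef_85
import Crest.Agent.T157.LowC_85
import Crest.Agent.T157.WsA_32

-- ▼ part T157/ClA_85
section

/-!
# Row 157, part B (helper85): extrapolation over a distance `A w` from nodes of spread `w`
-/

set_option autoImplicit false

noncomputable section

namespace Crest.Agent.T157.Lag

open Finset Real

/-- coefficients of `∑_{k<d} C(A d,k) (q-1)^k` -/
def aq (A d j : ℕ) : ℝ :=
  ∑ k ∈ range d, ((A * d).choose k : ℝ) * ((k.choose j : ℝ) * (-1) ^ (k - j))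

variable {A d : ℕ}

theorem sum_aq (A d : ℕ) (q : ℝ) :
    ∑ j ∈ range d, aq A d j * q ^ j = ∑ k ∈ range d, ((A * d).choose k : ℝ) * (q - 1) ^ k := by
  simp only [aq, sum_mul]
  rw [sum_comm]
  refine sum_congr rfl fun k hk => ?_
  rw [sub_eq_add_neg, add_pow, mul_sum]
  symm
  refine (sum_subset (range_subset_range.2 (mem_range.1 hk)) fun j _ hj => ?_).trans
    (sum_congr rfl fun j _ => by ring)
  rw [Nat.choose_eq_zero_of_lt (n := k) (k := j) (by simpa using hj)]; simp

theorem le_mul_succ (hA : 1 ≤ A) (d : ℕ) : d ≤ A * d + 1 := by nlinarith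

theorem sum_abs_aq (hA : 1 ≤ A) (d : ℕ) : ∑ j ∈ range d, |aq A d j| ≤ 3 ^ (A * d) := by
  have h1 : ∀ j, |aq A d j| ≤ ∑ k ∈ range d, ((A * d).choose k : ℝ) * (k.choose j : ℝ) := fun j =>
    (abs_sum_le_sum_abs _ _).trans (le_of_eq (sum_congr rfl fun k _ => by
      simp [abs_mul, abs_pow]))
  refine (sum_le_sum fun j _ => h1 j).trans ?_
  rw [sum_comm]
  have h2 : ∀ k ∈ range d, ∑ j ∈ range d, ((A * d).choose k : ℝ) * (k.choose j : ℝ) =
      2 ^ k * 1 ^ (A * d - k) * ((A * d).choose k : ℝ) := fun k hk => by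
    rw [← mul_sum, ← sum_subset (range_subset_range.2 (mem_range.1 hk)) fun j _ hj => by
      rw [Nat.choose_eq_zero_of_lt (by simpa using hj)]; simp]
    have := Nat.sum_range_choose k
    rw [one_pow, mul_one, mul_comm]
    congr 1
    exact_mod_cast this
  rw [sum_congr rfl h2, show (3 : ℝ) = 2 + 1 by norm_num, add_pow]
  exact sum_le_sum_of_subset_of_nonneg (range_subset_range.2 (le_mul_succ hA d))
    fun _ _ _ => by positivity

theorem rem_aq (hA : 1 ≤ A) (d : ℕ) {q m : ℝ} (hm : 1 ≤ m) (hq : |q - 1| ≤ m) :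
    |q ^ (A * d) - ∑ j ∈ range d, aq A d j * q ^ j| ≤ (2 ^ A * (|q - 1| * m ^ A)) ^ d := by
  have e : q ^ (A * d) = ∑ k ∈ range (A * d + 1), ((A * d).choose k : ℝ) * (q - 1) ^ k := by
    conv_lhs => rw [show q = (q - 1) + 1 by ring, add_pow]
    exact sum_congr rfl fun k _ => by ring
  rw [sum_aq, e, ← sum_Ico_eq_sub _ (le_mul_succ hA d)]
  refine (abs_sum_le_sum_abs _ _).trans ?_
  have h1 : ∀ k ∈ Ico d (A * d + 1), |((A * d).choose k : ℝ) * (q - 1) ^ k| ≤
      ((A * d).choose k : ℝ) * (|q - 1| * m ^ A) ^ d := fun k hk => by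
    obtain ⟨h1, h2⟩ := mem_Ico.1 hk
    rw [abs_mul, abs_pow, Nat.abs_cast, mul_pow, ← pow_mul]
    refine mul_le_mul_of_nonneg_left ?_ (by positivity)
    rw [show k = d + (k - d) by omega, pow_add]
    refine mul_le_mul_of_nonneg_left ((pow_le_pow_left₀ (abs_nonneg _) hq _).trans
      (pow_le_pow_right₀ hm (by omega))) (by positivity)
  refine (sum_le_sum h1).trans ?_
  rw [← sum_mul, mul_pow (2 ^ A), ← pow_mul]
  refine mul_le_mul_of_nonneg_right ?_ (by positivity)
  have h2 : ∑ k ∈ range (A * d + 1), ((A * d).choose k : ℝ) = 2 ^ (A * d) := by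
    exact_mod_cast Nat.sum_range_choose (A * d)
  rw [← h2]
  exact sum_le_sum_of_subset_of_nonneg (fun k hk => mem_range.2 (mem_Ico.1 hk).2)
    fun _ _ _ => by positivity

theorem one_le_aq (A : ℕ) (hd : 0 < d) {q : ℝ} (hq : 1 ≤ q) :
    1 ≤ ∑ j ∈ range d, aq A d j * q ^ j := by
  rw [sum_aq]
  simpa using single_le_sum (f := fun k => ((A * d).choose k : ℝ) * (q - 1) ^ k)
    (fun k _ => by have := sub_nonneg.2 hq; positivity) (mem_range.2 hd)

/-- damping exponent -/
def Bq (A : ℕ) : ℕ := 2 ^ (A + 1)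

theorem lagA (hA : 1 ≤ A) (d : ℕ) {q : ℝ} (hq : 0 ≤ q) :
    q ^ (Bq A * d) * |q ^ (A * d) - ∑ j ∈ range d, aq A d j * q ^ j| ≤
      (1 / 2) ^ d * (1 + q ^ ((A + 2 * Bq A) * d)) := by
  have hB : ((Bq A : ℕ) : ℝ) = 2 * 2 ^ A := by rw [Bq]; push_cast; ring
  rcases le_total q 1 with h | h
  · have h0 : |q - 1| = 1 - q := by rw [abs_sub_comm, abs_of_nonneg (by linarith)]
    refine (mul_le_mul_of_nonneg_left (rem_aq hA d le_rfl (by rw [h0]; linarith))
      (by positivity)).trans ?_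
    rw [pow_mul, ← mul_pow, h0]
    have h1 : q ^ Bq A * (2 ^ A * ((1 - q) * 1 ^ A)) ≤ 1 / 2 := by
      have s : ∑ _i ∈ range (Bq A), q ^ Bq A ≤ ∑ i ∈ range (Bq A), q ^ i :=
        sum_le_sum fun i hi => pow_le_pow_of_le_one hq h (mem_range.1 hi).le
      have t := mul_le_mul_of_nonneg_right s (sub_nonneg.2 h)
      rw [geom_sum_mul_neg, sum_const, card_range, nsmul_eq_mul, hB] at t
      have v : 0 ≤ q ^ Bq A := by positivity
      rw [one_pow]
      linarith
    refine (pow_le_pow_left₀ (by have := sub_nonneg.2 h; positivity) h1 d).trans ?_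
    exact le_mul_of_one_le_right (by positivity) (le_add_of_nonneg_right (by positivity))
  · have h0 : |q - 1| = q - 1 := abs_of_nonneg (by linarith)
    refine (mul_le_mul_of_nonneg_left (rem_aq hA d h (by rw [h0]; linarith)) (by positivity)).trans ?_
    rw [pow_mul, ← mul_pow, h0]
    have h1 : q ^ Bq A * (2 ^ A * ((q - 1) * q ^ A)) ≤ 1 / 2 * q ^ (A + 2 * Bq A) := by
      have b := one_add_mul_le_pow (a := q - 1) (by linarith) (Bq A)
      rw [add_sub_cancel, hB] at b
      have := mul_le_mul_of_nonneg_left (show 2 * 2 ^ A * (q - 1) ≤ q ^ Bq A by linarith)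
        (show 0 ≤ q ^ Bq A * q ^ A by positivity)
      calc _ = 1 / 2 * (q ^ Bq A * q ^ A * (2 * 2 ^ A * (q - 1))) := by ring
        _ ≤ 1 / 2 * (q ^ Bq A * q ^ A * q ^ Bq A) := by linarith
        _ = _ := by ring
    refine (pow_le_pow_left₀ (by have := sub_nonneg.2 h; positivity) h1 d).trans ?_
    rw [mul_pow, ← pow_mul]
    exact mul_le_mul_of_nonneg_left (le_add_of_nonneg_left zero_le_one) (by positivity)

/-- the multiplier of one extrapolation step with node spread `w` -/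
def pm (A d : ℕ) (w y : ℝ) : ℝ := ∑ j ∈ range d, aq A d j * exp (-(j * (w / d) * y))

theorem pm_eq (A d : ℕ) (w y : ℝ) :
    pm A d w y = ∑ j ∈ range d, aq A d j * exp (-(w / d * y)) ^ j :=
  sum_congr rfl fun j _ => by rw [← exp_nat_mul]; congr 2; ring

theorem one_le_pm (A : ℕ) (hd : 0 < d) {w y : ℝ} (hw : 0 ≤ w) (hy : y ≤ 0) : 1 ≤ pm A d w y := by
  rw [pm_eq]
  exact one_le_aq A hd (one_le_exp (by
    have : 0 ≤ w / d := by positivity
    nlinarith))

theorem exp_le_ends {a b u : ℝ} (h1 : a ≤ u) (h2 : u ≤ b) (y : ℝ) :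
    exp (-(u * y)) ≤ exp (-(a * y)) + exp (-(b * y)) := by
  rcases le_total 0 y with h | h
  · exact (exp_le_exp.2 (by nlinarith)).trans (le_add_of_nonneg_right (exp_pos _).le)
  · exact (exp_le_exp.2 (by nlinarith)).trans (le_add_of_nonneg_left (exp_pos _).le)

/-- **(LAG A)**, every real rate `y` -/
theorem pm_err (hA : 1 ≤ A) (hd : 0 < d) {w u a b : ℝ} (hw : 0 ≤ w) (h1 : a + Bq A * w ≤ u)
    (h2 : u + (A + Bq A) * w ≤ b) (y : ℝ) :
    exp (-(u * y)) * |exp (-(A * w * y)) - pm A d w y| ≤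
      2 * (1 / 2) ^ d * (exp (-(a * y)) + exp (-(b * y))) := by
  have d0 : (d : ℝ) ≠ 0 := by positivity
  have e : ∀ k : ℕ, exp (-(w / d * y)) ^ (k * d) = exp (-(k * w * y)) := fun k => by
    rw [← exp_nat_mul]; congr 1; push_cast; field_simp
  have h := mul_le_mul_of_nonneg_left (lagA hA d (exp_pos (-(w / d * y))).le)
    (exp_pos (-((u - Bq A * w) * y))).le
  rw [e, e, e, ← pm_eq, ← mul_assoc, ← exp_add, mul_left_comm, mul_add, mul_one, ← exp_add] at h
  have p1 : 0 ≤ (Bq A : ℝ) * w := by positivity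
  have p2 : 0 ≤ (A : ℝ) * w := by positivity
  have a1 := exp_le_ends (a := a) (b := b) (u := u - Bq A * w) (by linarith) (by linarith) y
  have a2 := exp_le_ends (a := a) (b := b) (u := u + (A + Bq A) * w) (by linarith) h2 y
  rw [show -((u - Bq A * w) * y) + -(Bq A * w * y) = -(u * y) by ring,
    show -((u - Bq A * w) * y) + -(((A + 2 * Bq A : ℕ) : ℝ) * w * y) =
      -((u + (A + Bq A) * w) * y) by push_cast; ring] at h
  refine h.trans ?_
  rw [mul_comm 2, mul_assoc]
  exact mul_le_mul_of_nonneg_left (by linarith) (by positivity)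

/-- choice of the degree -/
theorem exists_deg (A : ℕ) {b : ℝ} (hb : 1 ≤ b) : ∃ d : ℕ, 0 < d ∧
    exp b * (1 / 2) ^ d ≤ exp (-b) ∧ exp b * 3 ^ (A * d) ≤ exp (b * (1 + 10 * A)) := by
  have h1 : 4 * b ≤ (⌈4 * b⌉₊ : ℝ) := Nat.le_ceil _
  have h2 : (⌈4 * b⌉₊ : ℝ) < 4 * b + 1 := Nat.ceil_lt_add_one (by linarith)
  refine ⟨⌈4 * b⌉₊, Nat.ceil_pos.2 (by linarith), ?_, ?_⟩
  · have e4 : (1 / 2 : ℝ) ≤ exp (-(1 / 2)) := by
      have := add_one_le_exp (-(1 / 2) : ℝ); linarith
    refine (mul_le_mul_of_nonneg_left (pow_le_pow_left₀ (by norm_num) e4 _) (exp_pos _).le).trans ?_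
    rw [← exp_nat_mul, ← exp_add]
    exact exp_le_exp.2 (by linarith)
  · have e3 : (3 : ℝ) ≤ exp 2 := by have := add_one_le_exp (2 : ℝ); linarith
    refine (mul_le_mul_of_nonneg_left (pow_le_pow_left₀ (by norm_num) e3 _) (exp_pos _).le).trans ?_
    rw [← exp_nat_mul, ← exp_add]
    refine exp_le_exp.2 ?_
    push_cast
    nlinarith [mul_le_mul_of_nonneg_left (show (⌈4 * b⌉₊ : ℝ) ≤ 5 * b by linarith)
      (A.cast_nonneg (α := ℝ))]

/-- the edge inequality for an exponential tilt -/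
theorem tilt_edge (y : ℝ) : 0 ≤ exp (-y) - 1 + y ∧ exp (-y) - 1 + y ≤ y ^ 2 * (1 + exp (-y)) ∧
    exp (-y) - 1 + y ≤ |y| * (1 + exp (-y)) := by
  have h1 := add_one_le_exp (-y)
  have h2 := add_one_le_exp y
  have h3 : exp y * exp (-y) = 1 := by rw [← exp_add, add_neg_cancel, exp_zero]
  have h4 := exp_pos (-y)
  have h5 : (y + 1) * exp (-y) ≤ 1 := (mul_le_mul_of_nonneg_right h2 h4.le).trans_eq h3
  refine ⟨by linarith, ?_, ?_⟩
  · rcases le_total 0 y with h | h
    · nlinarith [mul_nonneg h (sub_nonneg.2 h1), mul_nonneg (sq_nonneg y) h4.le]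
    · nlinarith [mul_nonneg (sub_nonneg.2 h5) (show 0 ≤ 1 - y by linarith), sq_nonneg y]
  · rcases abs_cases y with ⟨e, h⟩ | ⟨e, h⟩ <;> rw [e] <;> nlinarith

end Crest.Agent.T157.Lag

end
end

-- ▼ part T157/ClB_85

/-!
# Row 157, part B (helper85): edge calculus, transport inequality, exponential tilts
-/

set_option autoImplicit false

noncomputable section

namespace Crest.Agent.T157.Low

open Matrix Real Finset Filter Topology
open Crest.Agent.T157.E Crest.Agent.T157.Lag Crest.Agent.T157.Top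
open Crest.Agent.T157.Chain22 (sg hbRC ip sg_eq sg_add sg_zero isP_hbCt isP_prob' IsP ip_sg_symm
  hasDerivAt_sg)
open Crest.Agent.T157.Rec (sg_sum sg_const_mul sg_const sg_mono sg_add_fun sg_sub_fun GR grad fl
  sg_nonneg)
open Crest.Agent.T157.Rv (Warm II)

variable {n : ℕ} {w f F G Φ : Cube n → ℝ} {t K : ℝ}

/-! ### expectations over edges -/

/-- stationary edge expectation -/
def EE (w : Cube n → ℝ) (S : Cube n → Cube n → ℝ) : ℝ :=
  n / 2 * ∑ x, ∑ y, prob w x * hb w x y * S x y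

theorem EE_swap (hn : 0 < n) (hw : ∀ x, 0 < w x) (S : Cube n → Cube n → ℝ) :
    EE w S = EE w fun x y => S y x := by
  unfold EE
  rw [sum_comm]
  congr 1
  exact sum_congr rfl fun x _ => sum_congr rfl fun y _ =>
    congrArg (· * S y x) ((hbRC hn hw).rev y x)

theorem hb_nn (hn : 0 < n) (hw : ∀ x, 0 < w x) (x y : Cube n) : 0 ≤ hb w x y := (hbRC hn hw).nn x y

theorem EE_mono (hn : 0 < n) (hw : ∀ x, 0 < w x) {S T : Cube n → Cube n → ℝ}
    (h : ∀ x y, S x y ≤ T x y) : EE w S ≤ EE w T :=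
  mul_le_mul_of_nonneg_left (sum_le_sum fun x _ => sum_le_sum fun y _ => mul_le_mul_of_nonneg_left
    (h x y) (mul_nonneg (Chain22.prob_pos' hw x).le (hb_nn hn hw x y))) (by positivity)

theorem EE_add (w : Cube n → ℝ) (S T : Cube n → Cube n → ℝ) :
    EE w (fun x y => S x y + T x y) = EE w S + EE w T := by
  simp only [EE, mul_add, sum_add_distrib]

theorem EE_mul (w : Cube n → ℝ) (a : ℝ) (S : Cube n → Cube n → ℝ) :
    EE w (fun x y => a * S x y) = a * EE w S := by
  simp only [EE, mul_sum]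
  exact sum_congr rfl fun x _ => sum_congr rfl fun y _ => by ring

theorem dir2_EE (hn : 0 < n) (hw : ∀ x, 0 < w x) (F G : Cube n → ℝ) :
    dir2 w F G = EE w fun x y => (F x - F y) * (G x - G y) := by
  rw [Chain22.dir2_eq_D hn hw, Chain22.RC.D_eq, EE, ← mul_assoc, mul_one_div]; rfl

theorem dir2_comm' (w F G : Cube n → ℝ) : dir2 w F G = dir2 w G F := by
  simp only [dir2, mul_comm]

theorem mean_EE (w f : Cube n → ℝ) (S : Cube n → Cube n → ℝ) :
    mean w (fun x => f x * (n / 2 * ∑ y, hb w x y * S x y)) = EE w fun x y => f x * S x y := by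
  simp only [mean, EE, mul_sum]
  exact sum_congr rfl fun x _ => sum_congr rfl fun y _ => by ring

theorem mean_Gm (w f F G : Cube n → ℝ) : mean w (fun x => f x * Gm w F G x) =
    EE w fun x y => f x * ((F x - F y) * (G x - G y)) := mean_EE w f _

theorem Gm_mono (hn : 0 < n) (hw : ∀ x, 0 < w x) (h : ∀ x y, |F x - F y| ≤ |G x - G y|)
    (x : Cube n) : Gm w F F x ≤ Gm w G G x :=
  mul_le_mul_of_nonneg_left (sum_le_sum fun y _ => mul_le_mul_of_nonneg_left
    (by rw [← sq, ← sq]; exact sq_le_sq.2 (h x y)) (hb_nn hn hw x y)) (by positivity)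

theorem Gm_le_grad (hn : 0 < n) (hw : ∀ x, 0 < w x) (F : Cube n → ℝ) (x : Cube n) :
    Gm w F F x ≤ 2 * (grad F x ⬝ᵥ grad F x) := by
  have n0 : (0 : ℝ) < n := by exact_mod_cast hn
  have e : ∑ y, hb w x y * ((F x - F y) * (F x - F y)) = _ :=
    Chain22.hb_mulVec w (fun y => (F x - F y) * (F x - F y)) x
  rw [Gm, e, ← mul_assoc, show (n : ℝ) / 2 * (1 / n) = 1 / 2 by field_simp, dotProduct, mul_sum,
    mul_sum]
  refine sum_le_sum fun i _ => ?_
  have k : ∀ b, (F x - F (Function.update x i b)) * (F x - F (Function.update x i b)) ≤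
      4 * (grad F x i * grad F x i) := fun b => by
    have e : F x = F (Function.update x i (x i)) := by rw [Function.update_eq_self]
    rw [grad, SL.incr, e]
    cases x i <;> cases b <;>
      nlinarith [sq_nonneg (F (Function.update x i true) - F (Function.update x i false))]
  have : siteM w (fun y => (F x - F y) * (F x - F y)) i x ≤ 4 * (grad F x i * grad F x i) := by
    rw [siteM, div_le_iff₀ (Chain22.den_pos hw i x), mul_add]
    exact add_le_add (by rw [mul_comm]; exact mul_le_mul_of_nonneg_right (k true) (hw _).le)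
      (by rw [mul_comm]; exact mul_le_mul_of_nonneg_right (k false) (hw _).le)
  linarith

theorem Gm_polar (w F G : Cube n → ℝ) (x : Cube n) : 4 * Gm w F G x =
    Gm w (fun y => F y + G y) (fun y => F y + G y) x - Gm w (fun y => F y - G y) (fun y => F y - G y) x := by
  simp only [Gm, mul_sum, ← sum_sub_distrib]
  exact sum_congr rfl fun y _ => by ring

theorem dir2_polar (w F G : Cube n → ℝ) :
    4 * dir2 w F G = dir w (fun y => F y + G y) - dir w fun y => F y - G y := by
  simp only [dir2, dir, siteM, mul_sum, ← sum_sub_distrib]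
  exact sum_congr rfl fun i _ => sum_congr rfl fun y _ => by ring

theorem mean_mul_le (hw : ∀ x, 0 < w x) (h0 : ∀ x, 0 ≤ f x) (h1 : mean w f = 1) {D : ℝ}
    (h : ∀ x, F x ≤ D) : mean w (fun x => f x * F x) ≤ D := by
  refine ((isP_prob' hw).mean_mono fun x => mul_le_mul_of_nonneg_left (h x) (h0 x)).trans_eq ?_
  rw [Ent.mean_mul_const, show Chain22.mean (prob w) f = 1 from h1, one_mul]

/-! ### the transport inequality -/

theorem dir2_le_II (hn : 0 < n) (hw : ∀ x, 0 < w x) (hf : ∀ x, 0 < f x) {θ : ℝ} (hθ : 0 < θ)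
    (F : Cube n → ℝ) : dir2 w f F ≤ θ * II w f + 1 / (4 * θ) * mean w fun x => f x * Gm w F F x := by
  have e := EE_swap hn hw fun x y => f x * ((F x - F y) * (F x - F y))
  have h := EE_mono hn hw (S := fun x y => (f x - f y) * (F x - F y))
    (T := fun x y => θ * ((f x - f y) * (log (f x) - log (f y))) + (1 / (8 * θ) *
      (f x * ((F x - F y) * (F x - F y))) + 1 / (8 * θ) * (f y * ((F y - F x) * (F y - F x)))))
    fun x y => by
      have h1 := Ent.exp_half_sq_le (log (f x)) (log (f y))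
      rw [exp_half, exp_half, exp_log (hf x), exp_log (hf y)] at h1
      have h2 := mul_le_mul_of_nonneg_left h1 hθ.le
      have a := sq_sqrt (hf x).le
      have b := sq_sqrt (hf y).le
      generalize √(f x) = p at *
      generalize √(f y) = q at *
      have c : 1 / (8 * θ) = θ * (1 / (4 * θ)) ^ 2 * 2 := by field_simp; ring
      have c' : θ * (1 / (4 * θ)) = 1 / 4 := by field_simp
      rw [c, ← a, ← b] at *
      generalize 1 / (4 * θ) = r at *
      have h3 := mul_nonneg hθ.le (sq_nonneg (2 * (p - q) - r * (p + q) * (F x - F y)))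
      have h4 := mul_nonneg hθ.le (sq_nonneg (r * (p - q) * (F x - F y)))
      have h5 : θ * r * ((p - q) * (p + q) * (F x - F y)) = 1 / 4 * ((p - q) * (p + q) * (F x - F y)) := by
        rw [c']
      nlinarith
  rw [EE_add, EE_add, EE_mul, EE_mul, EE_mul, ← e, ← mean_Gm, ← dir2_EE hn hw, ← dir2_EE hn hw] at h
  refine h.trans (le_of_eq ?_)
  rw [II]; field_simp; ring

theorem hasDerivAt_mean_sg (hn : 0 < n) (hw : ∀ x, 0 < w x) (g F : Cube n → ℝ) (s : ℝ) :
    HasDerivAt (fun s => mean w fun x => g x * sg w s F x) (-dir2 w g (sg w s F)) s := by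
  rw [Chain22.dir2_eq_gen hw, neg_neg]
  exact Ent.hasDerivAt_mean (F := fun s x => g x * sg w s F x) fun x => (hasDerivAt_sg hn hw F x s).const_mul (g x)

theorem mean_sg_symm (hn : 0 < n) (hw : ∀ x, 0 < w x) (t : ℝ) (f g : Cube n → ℝ) :
    mean w (fun x => sg w t f x * g x) = mean w fun x => f x * sg w t g x :=
  (ip_sg_symm hn hw t f g).symm

/-- **T1 for warm laws** (Otto–Villani) -/
theorem t1 (hn : 0 < n) (hw : ∀ x, 0 < w x) (hK : 0 < K) (hT : Ent.AT w K 0) {m σ θ : ℝ}
    (hf : Warm w m f) (hθ : 0 < θ) (h : ∀ g, Warm w m g → mean w (fun x => g x * Gm w F F x) ≤ σ) :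
    mean w (fun x => f x * F x) ≤ mean w F + 2 * θ * ent w f + K * σ / (2 * θ) := by
  have hp := isP_prob' hw
  have σ0 : 0 ≤ σ := le_trans (hp.mean_nonneg fun x => mul_nonneg (hf.1 x).le (mul_nonneg
    (by positivity) (sum_nonneg fun y _ => mul_nonneg (hb_nn hn hw x y) (mul_self_nonneg _)))) (h f hf)
  have d : ∀ s, 0 ≤ s → HasDerivAt (fun s => mean w (fun x => F x * sg w s f x) -
      2 * θ * (exp (s / (2 * K)) * ent w (sg w s f)) - K * σ / (2 * θ) * exp (-(s / (2 * K))))
      (-dir2 w F (sg w s f) - 2 * θ * (exp (s / (2 * K)) * (1 / (2 * K)) * ent w (sg w s f) +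
        exp (s / (2 * K)) * -II w (sg w s f)) -
        K * σ / (2 * θ) * (exp (-(s / (2 * K))) * -(1 / (2 * K)))) s := fun s hs =>
    ((hasDerivAt_mean_sg hn hw F f s).sub ((((hasDerivAt_id' s).div_const (2 * K)).exp.mul
      (Rv.hasDerivAt_ent_sg hn hw (Rv.sg_pos hn hw hs hf.1))).const_mul _)).sub
      ((((hasDerivAt_id' s).div_const (2 * K)).neg.exp).const_mul _)
  have mono := monotoneOn_of_deriv_nonneg (convex_Ici 0)
    (fun s hs => (d s hs).continuousAt.continuousWithinAt)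
    (fun s hs => (d s (interior_subset hs)).differentiableAt.differentiableWithinAt) fun s hs => by
      have hs' : 0 ≤ s := interior_subset hs
      have hg := hf.sg hn hw hs'
      rw [(d s hs').deriv, dir2_comm']
      have a1 := dir2_le_II hn hw hg.1 (θ := θ * exp (s / (2 * K))) (by positivity) F
      have a2 := mul_le_mul_of_nonneg_left (h _ hg)
        (show 0 ≤ 1 / (4 * (θ * exp (s / (2 * K)))) by positivity)
      have a3 := hT.mlsi hw hK.le hg.1
      rw [zero_mul, add_zero] at a3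
      have a4 := mul_le_mul_of_nonneg_left a3 (show 0 ≤ θ * exp (s / (2 * K)) / K by positivity)
      rw [← mul_assoc, div_mul_cancel₀ _ hK.ne'] at a4
      have e1 : K * σ / (2 * θ) * (exp (-(s / (2 * K))) * -(1 / (2 * K))) =
          -(1 / (4 * (θ * exp (s / (2 * K)))) * σ) := by rw [exp_neg]; field_simp; ring
      have e2 : 2 * θ * (exp (s / (2 * K)) * (1 / (2 * K)) * ent w (sg w s f)) =
          θ * exp (s / (2 * K)) / K * ent w (sg w s f) := by field_simp
      rw [mul_add (2 * θ), e1, e2]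
      unfold II at a1 ⊢
      linarith
  refine le_of_forall_pos_le_add fun δ hδ => ?_
  have lim : Tendsto (fun s => exp (-(2 / K * s)) * var w f * var w F) atTop (𝓝 (0 * var w f * var w F)) :=
    ((tendsto_exp_neg_atTop_nhds_zero.comp (tendsto_id.const_mul_atTop (by positivity))).mul_const
      _).mul_const _
  rw [zero_mul, zero_mul] at lim
  obtain ⟨s, h1, hs⟩ := ((lim.eventually_le_const (pow_pos hδ 2)).and (eventually_ge_atTop 0)).exists
  have hg := hf.sg hn hw hs
  have b1 := mono Set.self_mem_Ici hs hs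
  have b2 := hp.ip_sq_le (fun x => sg w s f x - mean w (sg w s f)) fun x => F x - mean w F
  have e1 : ∀ g : Cube n → ℝ, ip (prob w) (fun x => g x - mean w g) (fun x => g x - mean w g) =
      var w g := fun g => by simp only [ip, var, sq]
  have e2 : ip (prob w) (fun x => sg w s f x - mean w (sg w s f)) (fun x => F x - mean w F) =
      mean w (fun x => F x * sg w s f x) - mean w F := by
    have := Chain22.ecov_eq hw (sg w s f) F
    rw [Chain22.ip_comm, ← Chain22.emean_eq, ← Chain22.emean_eq, hg.2.1, one_mul] at this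
    rw [hg.2.1]
    refine Eq.trans ?_ this
    simp only [ip, cov, hg.2.1]
  rw [e1, e1, e2] at b2
  have b3 := (b2.trans (mul_le_mul_of_nonneg_right (Chain22.var_sg_le hn hw hK
    (fun g => hT.poinc hw hK.le g) f hs) (hp.var_nonneg F))).trans h1
  have b4 := (le_abs_self _).trans (abs_le_of_sq_le_sq' b3 hδ.le |> abs_le.2)
  have b5 := Rv.ent_nn hw fun x => (hg.1 x).le
  simp only [zero_div, neg_zero, exp_zero, one_mul, mul_one, sg_zero hn hw] at b1
  have b6 : 0 ≤ 2 * θ * (exp (s / (2 * K)) * ent w (sg w s f)) := by positivity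
  have b7 : 0 ≤ K * σ / (2 * θ) * exp (-(s / (2 * K))) := by positivity
  simp only [mul_comm (f _)]
  linarith

/-! ### `L¹` deviations -/

/-- `E_ν |G - c|` -/
def Dv (w f G : Cube n → ℝ) (c : ℝ) : ℝ := mean w fun x => f x * |G x - c|

theorem Dv_shift (hn : 0 < n) (hw : ∀ x, 0 < w x) (h0 : ∀ x, 0 ≤ f x) (h1 : mean w f = 1)
    (ht : 0 ≤ t) {ν : ℝ} (hν : 0 ≤ ν)
    (h : ∀ x, sg w t (fun y => G y ^ 2) x - sg w t G x ^ 2 ≤ ν ^ 2) (c : ℝ) :
    Dv w (sg w t f) G c ≤ Dv w f (sg w t G) c + ν := by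
  have k : ∀ x, sg w t (fun y => |G y - c|) x ≤ |sg w t G x - c| + ν := fun x => by
    have a := sg_mono hn hw ht (fun y => abs_sub_le (G y) (sg w t G x) c) x
    have b := sg_sq_le hn hw ht (fun y => |G y - sg w t G x|) x
    have e : (fun y => |G y - sg w t G x| ^ 2) =
        fun y => G y ^ 2 + (-(2 * sg w t G x) * G y + sg w t G x ^ 2) := funext fun y => by
      rw [sq_abs]; ring
    rw [e] at b
    simp only [sg_add_fun, sg_const_mul, sg_const hn hw] at a b
    have := (abs_le_of_sq_le_sq' (show sg w t (fun y => |G y - sg w t G x|) x ^ 2 ≤ ν ^ 2 by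
      nlinarith [h x]) hν).2
    linarith
  rw [Dv, mean_sg_symm hn hw]
  refine ((isP_prob' hw).mean_mono fun x => mul_le_mul_of_nonneg_left (k x) (h0 x)).trans_eq ?_
  simp only [mul_add, Ent.mean_add', Ent.mean_mul_const]
  rw [show Chain22.mean (prob w) f = 1 from h1, one_mul]; rfl

/-! ### exponential tilts -/

theorem tilt_dir (hn : 0 < n) (hw : ∀ x, 0 < w x) {χ : Cube n → ℝ} {x z η k D : ℝ} (hx : 0 ≤ x)
    (hz : 0 < z) (hη : 0 ≤ η) (hk : 0 < k) (hf : ∀ y, f y = z * exp (x * Φ y)) (h1 : mean w f = 1)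
    (hχ : ∀ y, |χ y| ≤ 1) (g1 : ∀ y, Gm w χ χ y ≤ D) (g2 : ∀ y, Gm w F F y ≤ D)
    (g3 : ∀ y, Gm w Φ Φ y ≤ D) (hE : mean w (fun y => f y * Ex w Φ η y) ≤ k ^ 2)
    (hR : mean w (fun y => f y * |Gm w Φ F y - dir2 w Φ F|) ≤ 2 * k ^ 2) :
    dir2 w (fun y => f y * χ y) F - x * mean w (fun y => f y * χ y) * dir2 w Φ F ≤
      D + 2 * x * k ^ 2 + 2 * x ^ 2 * η * D + x * k * (1 + D) := by
  have hp := isP_prob' hw
  have f0 : ∀ y, 0 < f y := fun y => by rw [hf]; positivity
  set S : Cube n → Cube n → ℝ := fun a b => x ^ 2 * η / 2 * ((Φ a - Φ b) * (Φ a - Φ b)) +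
    ((x ^ 2 * η / 2 + x * k / 2) * ((F a - F b) * (F a - F b)) +
      x / (2 * k) * if η < |Φ a - Φ b| then (Φ a - Φ b) ^ 2 else 0) with hS
  have Ss : ∀ a b, S b a = S a b := fun a b => by
    simp only [hS, abs_sub_comm (Φ b), sub_sq_comm (Φ b)]; ring
  have h := EE_mono hn hw (S := fun a b => (f a * χ a - f b * χ b) * (F a - F b))
    (T := fun a b => x * (f a * χ a * ((Φ a - Φ b) * (F a - F b))) + (1 / 2 *
      (f b * ((χ b - χ a) * (χ b - χ a)) + f b * ((F b - F a) * (F b - F a))) +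
      (f a * S a b + f b * S b a))) fun a b => by
    obtain ⟨t0, t1, t2⟩ := tilt_edge (x * (Φ a - Φ b))
    have e : f b = f a * exp (-(x * (Φ a - Φ b))) := by
      rw [hf, hf, mul_assoc, ← exp_add]; congr 2; ring
    have p : 0 ≤ 1 + exp (-(x * (Φ a - Φ b))) := by positivity
    have q : (exp (-(x * (Φ a - Φ b))) - 1 + x * (Φ a - Φ b)) * |F a - F b| ≤
        S a b * (1 + exp (-(x * (Φ a - Φ b)))) := by
      have s1 := sq_abs (Φ a - Φ b)
      have s2 := sq_abs (F a - F b)
      have u0 := abs_nonneg (Φ a - Φ b)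
      have v0 := abs_nonneg (F a - F b)
      by_cases hc : η < |Φ a - Φ b|
      · refine (mul_le_mul_of_nonneg_right t2 v0).trans ?_
        rw [mul_right_comm]
        refine mul_le_mul_of_nonneg_right ?_ p
        simp only [hS, if_pos hc, abs_mul, abs_of_nonneg hx, ← sq, ← s1, ← s2]
        have c : x / (2 * k) * |Φ a - Φ b| ^ 2 + x * k / 2 * |F a - F b| ^ 2 -
            x * |Φ a - Φ b| * |F a - F b| = x / (2 * k) * (|Φ a - Φ b| - k * |F a - F b|) ^ 2 := by
          field_simp; ring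
        have c1 : 0 ≤ x / (2 * k) * (|Φ a - Φ b| - k * |F a - F b|) ^ 2 := by positivity
        have c2 : 0 ≤ x ^ 2 * η / 2 * |Φ a - Φ b| ^ 2 := by positivity
        have c3 : 0 ≤ x ^ 2 * η / 2 * |F a - F b| ^ 2 := by positivity
        linarith
      · refine (mul_le_mul_of_nonneg_right t1 v0).trans ?_
        rw [mul_right_comm]
        refine mul_le_mul_of_nonneg_right ?_ p
        simp only [hS, if_neg hc, mul_pow, ← sq, ← s1, ← s2]
        have c0 := mul_le_mul_of_nonneg_left (not_lt.1 hc)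
          (show 0 ≤ x ^ 2 * (|Φ a - Φ b| * |F a - F b|) by positivity)
        have c1 : 0 ≤ x ^ 2 * η * (|Φ a - Φ b| - |F a - F b|) ^ 2 := by positivity
        have c2 : 0 ≤ x * k / 2 * |F a - F b| ^ 2 := by positivity
        nlinarith
    have q1 := mul_le_mul_of_nonneg_left q (f0 a).le
    have q2 : -(χ a * (F a - F b)) ≤ |F a - F b| := by
      refine (neg_le_abs _).trans ?_
      rw [abs_mul]
      exact mul_le_of_le_one_left (abs_nonneg _) (hχ a)
    have q3 := mul_le_mul_of_nonneg_left q2 (mul_nonneg (f0 a).le t0)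
    have q4 := mul_nonneg (f0 b).le (sq_nonneg (χ a - χ b - (F a - F b)))
    rw [Ss a b]
    rw [e] at q4 ⊢
    nlinarith
  rw [EE_add, EE_add, EE_add, EE_mul, EE_mul, EE_add, ← dir2_EE hn hw (fun y => f y * χ y),
    ← EE_swap hn hw fun a b => f a * S a b,
    ← EE_swap hn hw fun a b => f a * ((χ a - χ b) * (χ a - χ b)),
    ← EE_swap hn hw fun a b => f a * ((F a - F b) * (F a - F b)), ← mean_Gm w f χ χ, ← mean_Gm w f F F,
    ← mean_Gm w (fun y => f y * χ y) Φ F] at h
  have e2 : EE w (fun a b => f a * S a b) = x ^ 2 * η / 2 * mean w (fun y => f y * Gm w Φ Φ y) +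
      ((x ^ 2 * η / 2 + x * k / 2) * mean w (fun y => f y * Gm w F F y) +
        x / (2 * k) * mean w fun y => f y * Ex w Φ η y) := by
    rw [mean_Gm, mean_Gm, ← EE_mul, ← EE_mul, show mean w (fun y => f y * Ex w Φ η y) = _ from
      mean_EE w f _, ← EE_mul, ← EE_add, ← EE_add]
    congr 1; funext a b; simp only [hS]; ring
  have f0' := fun y => (f0 y).le
  have a1 := mean_mul_le hw f0' h1 g1
  have a2 := mean_mul_le hw f0' h1 g2
  have a3 := mean_mul_le hw f0' h1 g3
  have a4 : mean w (fun y => f y * χ y * Gm w Φ F y) ≤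
      mean w (fun y => f y * χ y) * dir2 w Φ F + 2 * k ^ 2 := by
    refine le_trans ?_ (add_le_add le_rfl hR)
    rw [← SL.mean_mul_const, ← SL.mean_add]
    refine hp.mean_mono fun y => ?_
    have : χ y * (Gm w Φ F y - dir2 w Φ F) ≤ |Gm w Φ F y - dir2 w Φ F| := by
      refine (le_abs_self _).trans ?_
      rw [abs_mul]
      exact mul_le_of_le_one_left (abs_nonneg _) (hχ y)
    nlinarith [mul_le_mul_of_nonneg_left this (f0' y)]
  have a5 := mul_le_mul_of_nonneg_left hE (show 0 ≤ x / (2 * k) by positivity)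
  rw [show x / (2 * k) * k ^ 2 = x * k / 2 by field_simp] at a5
  rw [e2] at h
  nlinarith [mul_le_mul_of_nonneg_left a4 hx,
    mul_le_mul_of_nonneg_left a3 (show 0 ≤ x ^ 2 * η / 2 by positivity),
    mul_le_mul_of_nonneg_left a2 (show 0 ≤ x ^ 2 * η / 2 + x * k / 2 by positivity)]

/-- under the tilt, `(P_u - P_{u+1}) Φ` concentrates at its linear response -/
theorem tilt_dev (hn : 0 < n) (hw : ∀ x, 0 < w x) {x z η k D u : ℝ} (hx : 0 ≤ x)
    (hz : 0 < z) (hη : 0 ≤ η) (hk : 0 < k) (hf : ∀ y, f y = z * exp (x * Φ y)) (h1 : mean w f = 1)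
    (hG : ∀ y, G y = sg w u Φ y - sg w (u + 1) Φ y) (g1 : ∀ y, Gm w G G y ≤ D)
    (g2 : ∀ r, u ≤ r → r ≤ u + 1 → ∀ y, Gm w (sg w r Φ) (sg w r Φ) y ≤ D)
    (g3 : ∀ y, Gm w Φ Φ y ≤ D) (hE : mean w (fun y => f y * Ex w Φ η y) ≤ k ^ 2)
    (hR : ∀ r, u ≤ r → r ≤ u + 1 →
      mean w (fun y => f y * |Gm w Φ (sg w r Φ) y - dir2 w Φ (sg w r Φ)|) ≤ 2 * k ^ 2) :
    Dv w f G (x * ip (prob w) Φ G) ≤
      1 + (D + 2 * x * k ^ 2 + 2 * x ^ 2 * η * D + x * k * (1 + D)) := by
  have hp := isP_prob' hw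
  have f0 : ∀ y, 0 ≤ f y := fun y => by rw [hf]; positivity
  set Y := x * ip (prob w) Φ G with hY
  set χ : Cube n → ℝ := fun y => max (-1) (min 1 (G y - Y)) with hχ
  have c1 : ∀ y, |χ y| ≤ 1 := fun y =>
    abs_le.2 ⟨le_max_left _ _, max_le (by norm_num) (min_le_left _ _)⟩
  have c2 : ∀ a b, |χ a - χ b| ≤ |G a - G b| := fun a b => by
    refine (abs_max_sub_max_le_max _ _ _ _).trans ?_
    rw [sub_self, abs_zero]
    refine max_le (abs_nonneg _) ((abs_min_sub_min_le_max _ _ _ _).trans ?_)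
    rw [sub_self, abs_zero, sub_sub_sub_cancel_right]
    exact max_le (abs_nonneg _) le_rfl
  have c3 : ∀ y, |G y - Y| ≤ 1 + χ y * (G y - Y) := fun y => by
    simp only [hχ]
    generalize G y - Y = a
    rcases le_total 1 a with h | h
    · rw [min_eq_left h, max_eq_right (by norm_num), abs_of_nonneg (by linarith)]; linarith
    · rw [min_eq_right h]
      rcases le_total (-1) a with h' | h'
      · rw [max_eq_right h']
        nlinarith [abs_le.2 ⟨h', h⟩, mul_self_nonneg a]
      · rw [max_eq_left h', abs_of_nonpos (by linarith)]; linarith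
  have d : ∀ r, HasDerivAt (fun r => x * mean w (fun y => f y * χ y) *
      mean w (fun y => Φ y * sg w r Φ y) - mean w fun y => f y * χ y * sg w r Φ y)
      (x * mean w (fun y => f y * χ y) * -dir2 w Φ (sg w r Φ) -
        -dir2 w (fun y => f y * χ y) (sg w r Φ)) r := fun r =>
    ((hasDerivAt_mean_sg hn hw Φ Φ r).const_mul _).sub (hasDerivAt_mean_sg hn hw _ Φ r)
  have m := (convex_Icc u (u + 1)).image_sub_le_mul_sub_of_deriv_le
    (fun q _ => (d q).continuousAt.continuousWithinAt)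
    (fun q _ => (d q).differentiableAt.differentiableWithinAt)
    (C := D + 2 * x * k ^ 2 + 2 * x ^ 2 * η * D + x * k * (1 + D)) (fun r hr => by
      have hr' := interior_subset hr
      have := tilt_dir hn hw hx hz hη hk hf h1 c1 (fun y => (Gm_mono hn hw c2 y).trans (g1 y))
        (g2 r hr'.1 hr'.2) g3 hE (hR r hr'.1 hr'.2)
      rw [(d r).deriv]
      linarith)
    u (Set.left_mem_Icc.2 (by linarith)) (u + 1) (Set.right_mem_Icc.2 (by linarith)) (by linarith)
  have e1 : ip (prob w) Φ G =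
      mean w (fun y => Φ y * sg w u Φ y) - mean w fun y => Φ y * sg w (u + 1) Φ y := by
    rw [← SL.mean_sub]
    exact Ent.mean_congr fun y => by rw [hG, mul_sub]
  have e2 : mean w (fun y => f y * (1 + χ y * (G y - Y))) = 1 + (mean w (fun y => f y * χ y * sg w u Φ y) -
      mean w (fun y => f y * χ y * sg w (u + 1) Φ y) - mean w (fun y => f y * χ y) * Y) := by
    rw [← h1, ← SL.mean_mul_const, ← SL.mean_sub, ← SL.mean_sub, ← SL.mean_add, h1]
    exact Ent.mean_congr fun y => by rw [hG]; ring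
  refine (hp.mean_mono fun y => mul_le_mul_of_nonneg_left (c3 y) (f0 y)).trans (e2.trans_le ?_)
  rw [hY, e1]
  linarith

end Crest.Agent.T157.Low

end
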