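import Crest.Agent.T157.Top3_97

/-!
# Row 157, part A at criticality: the window statements (helper97, architect)

`w = ising W 0`, `W ∼ GOE n`; `y_r` is the localisation process driven by `w`.
Only covariance bounds at the point `y_r` occur (no balls of fields): the glue is the transport
lemma (`V' = C V`), not entropic stability.
-/

set_option autoImplicit false

noncomputable section

namespace Crest.Agent.T157.Crit

open MeasureTheory Filter Topology Set Matrix
open Crest.ProbabilityR.SpinGlassDynamics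
open Crest.Agent.T157.E Crest.Agent.T157.Tap Crest.Agent.T157.Top

variable {n : ℕ}

/-- covariance bound -/
def CovLe (w : Cube n → ℝ) (K : ℝ) : Prop := ∀ u : V n, u ⬝ᵥ covM w *ᵥ u ≤ K * (u ⬝ᵥ u)

/-- at time `r` the covariance of the posterior exceeds `K` with probability at most `p` -/
def CovAt (w : Cube n → ℝ) (r K p : ℝ) : Prop :=
  (SL.law sv w r).real {y | ¬ CovLe (tilt w y) K} ≤ p

/-- `n^{2/3}` -/
def N23 (n : ℕ) : ℝ := (n : ℝ) ^ (2 / 3 : ℝ)

/-- the time scale of the entropy level `H` -/
def sH (n : ℕ) (H : ℝ) : ℝ := (H / n) ^ (2 / 3 : ℝ)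








/-- spectral profile at level `H`: bounded functions on sets of mass at most `e^{-H}` -/
def SLev (w : Cube n → ℝ) (H lam : ℝ) : Prop :=
  ∀ g : Cube n → ℝ, (∀ x, 0 ≤ g x) →
    (∀ x, g x ^ 2 ≤ Real.exp (2 * H) * mean w fun y => g y ^ 2) →
    mean w (fun x => if 0 < g x then 1 else 0) ≤ Real.exp (-H) →
    lam * mean w (fun y => g y ^ 2) ≤ dir w g

/-- the level form of the critical inequality (input of part C) -/
def LevCrit : Prop := ∀ κ > (0 : ℝ), ∀ δ > (0 : ℝ), Whp disorderLaw fun n g =>
  ∀ H : ℝ, (n : ℝ) ^ κ ≤ H → H ≤ n →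
    SLev (gibbsWeight n 1 g) H ((n : ℝ) ^ (-δ) * sH n H * H)



end Crest.Agent.T157.Crit

end
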