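import Crest.Agent.T157.Q1Def_63
import Crest.Agent.T157.CritDef_97

/-!
# Row 157, part C (helper63): the descent from infinity for coins, statements

`DownStmt true a` follows from the two covariance windows `AStar true a κ T`, `WinC T` and the
leaves below.
-/

set_option autoImplicit false

noncomputable section

namespace Crest.Agent.T157.Cn

open MeasureTheory Set Matrix Real
open Crest.ProbabilityR.SpinGlassDynamics
open Crest.Agent.T157.E Crest.Agent.T157.Eig Crest.Agent.T157.Top Crest.Agent.T157.Tap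
open Crest.Agent.T157.Crit

variable {n : ℕ}

/-! ### the terminal time -/

/-- covariance bound for all interactions `(1 - t) J` and all fields near some `T σ` -/
def Froz (J : Mx n) (M T η : ℝ) : Prop := ∀ t ∈ Icc (0 : ℝ) 1, ∀ (σ : Cube n) (y : V n),
  nrm (y - T • sv σ) ≤ η * T * √n →
    ∀ u : V n, u ⬝ᵥ covM (ising ((1 - t) • J) y) *ᵥ u ≤ M * (u ⬝ᵥ u)

def FroC (T : ℝ) : Prop := ∃ η M : ℝ, 0 ≤ M ∧ 48 ≤ η * T ∧ 16 ≤ η ^ 2 * T ∧
  Whp (couplingLaw true) fun n g => Froz (Jmat n g) M T η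

def OpnC : Prop := Whp (couplingLaw true) fun n g => opn (Jmat n g) ≤ 3

def FrzC : Prop := ∃ ε > (0 : ℝ), Whp (couplingLaw true) fun n g => Frz (Jmat n g) ε

/-- conditional variances of the spins -/
def vS (J : Mx n) (y : V n) (σ : Cube n) : V n := fun i => 1 - tanh ((J *ᵥ sv σ + y) i) ^ 2

/-- Bochner: spectral gap when all spin configurations see few free sites -/
def BochStmt : Prop := ∃ ε > (0 : ℝ), ∃ n₀ : ℕ, ∀ n ≥ n₀, ∀ (J : Mx n) (y : V n), Jᵀ = J →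
  (∀ i, J i i = 0) → (∀ i j, J i j ^ 2 ≤ 1 / n) →
  (∀ σ, avg (vS J y σ) ≤ ε ∧ ∀ u : V n, (fun i => √(vS J y σ i) * u i) ⬝ᵥ J *ᵥ
    (fun i => √(vS J y σ i) * u i) ≤ 1 / 8 * (u ⬝ᵥ u)) → Poin (ising J y) 2

def FroGlue : Prop := BochStmt → FrzC → OpnC → ∃ T > (0 : ℝ), FroC T

/-! ### large fields, extensive levels -/

def FldC : Prop := ∀ γ > (0 : ℝ), Whp (couplingLaw true) fun n g => mean (gibbsWeight n 1 g)
  (fun x => exp ((n : ℝ) ^ γ * Ent.big (gibbsWeight n 1 g) ((n : ℝ) ^ (2 * γ)) x)) ≤ 2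

/-- approximate tensorisation with an additive defect -/
def DAT (w : Cube n → ℝ) (M H : ℝ) : Prop := ∀ f : Cube n → ℝ, (∀ x, 0 ≤ f x) →
  ent w f ≤ M * ∑ i, Ent.entS w f i + H * mean w f

def TopC : Prop := ∀ γ > (0 : ℝ), ∃ d > (0 : ℝ), Whp (couplingLaw true) fun n g =>
  DAT (gibbsWeight n 1 g) ((n : ℝ) ^ γ) ((n : ℝ) ^ (1 - d))

def TopGlue : Prop := Crit.LevCrit → Top.LpStmt → TopC

/-! ### the window at the levels `n^δ ≤ H ≤ n^{1-d}` -/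

def WinC (T : ℝ) : Prop := ∀ d > (0 : ℝ), ∀ c > (0 : ℝ), ∃ K : ℝ, ∀ δ > (0 : ℝ),
  ∃ t0 > (0 : ℝ), ∃ K' : ℝ, Whp (couplingLaw true) fun n g => ∀ H : ℝ, (n : ℝ) ^ δ ≤ H →
    H ≤ (n : ℝ) ^ (1 - d) → ∀ r : ℝ, r ≤ T →
    (c * sH n H ≤ r → r ≤ (n : ℝ) ^ δ * sH n H →
      CovAt (gibbsWeight n 1 g) r (K / r) (exp (-(3 * H)))) ∧
    ((n : ℝ) ^ δ * sH n H ≤ r → r ≤ t0 →
      CovAt (gibbsWeight n 1 g) r ((1 + δ) / r) (exp (-(3 * H)))) ∧
    (t0 ≤ r → CovAt (gibbsWeight n 1 g) r (K' / r) (exp (-(3 * H))))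

/-! ### glue -/

def TermGlue : Prop := ∀ κ T : ℝ, κ < 1 → 0 < T → FroC T → OpnC → Q1.TermStmt true κ T

def LevGlue : Prop := ∀ a κ T : ℝ, a < 2 / 3 → 0 < κ → 0 < T → WinC T → FroC T → OpnC → FldC →
  TopC → Q1.LdB true → Q1.LevCrit true a κ



end Crest.Agent.T157.Cn

end
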