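import Crest.Agent.T157.TrD_64

/-!
# Row 157, part C1 (helper64): the crude and the sharp form domination at fixed size
-/

set_option autoImplicit false
set_option linter.unusedSectionVars false

noncomputable section

namespace Crest.Agent.T157.Tr

open MeasureTheory ProbabilityTheory Filter Topology Set Real Matrix
open Crest.Agent.T157.SL Crest.Agent.T157.E Crest.Agent.T157.Pa Crest.Agent.T157.Eig

variable {Ω : Type*} [Fintype Ω] {ι : Type} [Fintype ι] [DecidableEq ι] {κ : Type*} [Fintype κ]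
variable {φ : Ω → ι → ℝ} {w : Ω → ℝ} {ε p : ℝ → ℝ} {g : κ → Ω → ℝ}
  {b s t s0 t0 t1 ρ e M C E z : ℝ}

/-- `E Var_s g` -/
def Ph (φ : Ω → ι → ℝ) (w : Ω → ℝ) (g : κ → Ω → ℝ) (s : ℝ) : ℝ :=
  ∑ a, ex φ w (fun q => var (pw φ w q) (g a)) s

/-- the terminal estimate (D*) in the range of `P` at time `t`, off an event of probability `o` -/
def DS (φ : Ω → ι → ℝ) (w : Ω → ℝ) (g : κ → Ω → ℝ) (P : Matrix ι ι ℝ) (t o E : ℝ) : Prop :=
  ∃ B : Set (ι → ℝ), MeasurableSet B ∧ (law φ w t).real B ≤ o ∧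
    ex φ w (fun q => Bᶜ.indicator (fun _ => (1 : ℝ)) q.2 *
      dd (mv Pᵀ (t • Vg φ w g q)) (mv Pᵀ (t • Vg φ w g q))) t ≤ E

/-- the constant of the crude bound -/
def Gam (C : ℝ) : ℝ := exp C * (2 * C ^ 2 + 1) + 1

theorem one_le_Gam (_hC : 0 ≤ C) : 1 ≤ Gam C := by
  unfold Gam
  have := exp_pos C
  nlinarith [sq_nonneg C]

theorem mg_var (hw : Wt w) (f : Ω → ℝ) (t : ℝ) : MG fun y => var (pw φ w (t, y)) f :=
  (eg_var (I := univ) hw f).mg trivial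

theorem Ph_nonneg (hw : Wt w) (s : ℝ) : 0 ≤ Ph φ w g s :=
  Finset.sum_nonneg fun _ _ => ex_nonneg hw fun _ => (hw.post φ _ _).var_nonneg _

theorem Ph_eq (hw : Wt w) (s : ℝ) :
    Ph φ w g s = ex φ w (fun q => ∑ a, var (pw φ w q) (g a)) s :=
  (ex_sum _ fun a _ => mg_var hw (g a) s).symm

theorem cont_psi (hw : Wt w) : Continuous (psi φ w g) :=
  continuousOn_univ.1 (eg_dd_Vg (I := univ) hw g).continuousOn_ex

theorem Ph_sub (hw : Wt w) (hs : 0 ≤ s) (hst : s ≤ t) :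
    Ph φ w g s = Ph φ w g t + ∫ r in s..t, psi φ w g r := by
  have e1 : ∀ r, psi φ w g r = ∑ a, ex φ w
      (fun q => covV (pw φ w q) (g a) φ ⬝ᵥ covV (pw φ w q) (g a) φ) r := fun r =>
    ex_sum _ fun a _ => (eg_covV_dot (I := univ) hw (g a) (g a)).mg trivial
  simp only [e1, Ph, var_eq_cov]
  rw [intervalIntegral.integral_finsetSum fun a _ => (continuousOn_univ.1
    (eg_covV_dot (φ := φ) (I := univ) hw (g a) (g a)).continuousOn_ex).intervalIntegrable _ _,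
    ← Finset.sum_add_distrib]
  exact Finset.sum_congr rfl fun a _ => ex_cov_sub hw (g a) (g a) hs hst

theorem ex_ind (hw : Wt w) {A : Set (ι → ℝ)} (hA : MeasurableSet A) (t : ℝ) :
    ex φ w (fun q => A.indicator (fun _ => (1 : ℝ)) q.2) t = (law φ w t).real A := by
  rw [ex_eq_integral hw (mg_ind hA)]
  exact integral_indicator_one hA


theorem psi_le_Ph (hw : Wt w) (ht : 0 < t) (ε0 : 0 ≤ ε t) (hb : ∀ x, ∑ a, g a x ^ 2 ≤ b ^ 2) :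
    t * psi φ w g t ≤ (1 + ε t) * Ph φ w g t + b ^ 2 * pb φ w ε 3 t := by
  have m1 : MG fun y => ∑ a, var (pw φ w (t, y)) (g a) := MG.sum _ fun a _ => mg_var hw (g a) t
  rw [Ph_eq hw, psi, pb, ← ex_const_mul, ← ex_const_mul, ← ex_const_mul,
    ← ex_add (m1.const_mul _) ((mg_pb hw ε 3 t).const_mul _)]
  refine ex_mono hw ((mg_dd_Vg hw g t).const_mul _)
    ((m1.const_mul _).add ((mg_pb hw ε 3 t).const_mul _)) fun y => ?_
  have b1 := dd_Vg_le' (φ := φ) (q := (t, y)) hw ht g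
  have b2 := dd_Vg_le (φ := φ) (q := (t, y)) hw ht hb
  have b3 : 0 ≤ ∑ a, var (pw φ w (t, y)) (g a) :=
    Finset.sum_nonneg fun a _ => (hw.post φ _ _).var_nonneg _
  have n0 := nx_nonneg (φ := φ) (w := w) (t, y)
  simp only at b1 b2 ⊢
  rcases ig_cases (φ := φ) (w := w) (ε := ε) (t, y) with j | j
  · rw [j.2]
    have := mul_le_mul_of_nonneg_right j.1 b3
    simp only at this
    linarith
  · rw [j.2]
    have h3 : nx φ w (t, y) ≤ (1 + nx φ w (t, y)) ^ 3 :=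
      (by linarith : _ ≤ 1 + nx φ w (t, y)).trans (le_self_pow₀ (by linarith) (by norm_num))
    have h4 := mul_le_mul_of_nonneg_right h3 (sq_nonneg b)
    have h5 := mul_nonneg (show 0 ≤ 1 + ε t by linarith) b3
    linarith

/-- the hypotheses of the crude bound -/
structure HC (φ : Ω → ι → ℝ) (w : Ω → ℝ) (ε p : ℝ → ℝ) (s0 t1 ρ C z : ℝ) : Prop where
  ha : HA φ w ε p s0 t1 ρ
  le : s0 ≤ t1
  C1 : 1 ≤ C
  tC : t1 ≤ C
  εC : ε t1 ≤ C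
  iC : ∫ u in s0..t1, ε u / u ≤ C
  ρz : ρ ≤ z

namespace HC

theorem z0 (h : HC φ w ε p s0 t1 ρ C z) : 0 ≤ z := h.ha.ρ0.trans h.ρz

theorem sqrt_le (hw : Wt w) (h : HC φ w ε p s0 t1 ρ C z) (hb0 : 0 ≤ b)
    (hb : ∀ x, ∑ a, g a x ^ 2 ≤ b ^ 2) (E0 : 0 ≤ E) (hE : Ph φ w g t1 ≤ C * E + (b * z) ^ 2)
    (hs : s ∈ Icc s0 t1) : √(s ^ 2 * psi φ w g s) ≤ Gam C * √(E + (b * z) ^ 2) := by
  have ht1 : 0 < t1 := h.ha.pos.trans_le h.le
  have m1 : t1 ∈ Icc s0 t1 := ⟨h.le, le_rfl⟩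
  have C1 := h.C1
  have bz0 := mul_nonneg hb0 h.z0
  have f1 := (h.ha.mono hs.1 hs.2 le_rfl).crude hw hs.2 hb0 hb
  have f2 := psi_le_Ph (φ := φ) (ε := ε) hw ht1 (h.ha.ε0 t1 m1) hb
  have f3 : t1 * pb φ w ε 3 t1 ≤ z ^ 2 :=
    ((mul_le_mul_of_nonneg_left (h.ha.le t1 m1) ht1.le).trans (h.ha.sup t1 m1)).trans
      (pow_le_pow_left₀ h.ha.ρ0 h.ρz 2)
  set S := √(E + (b * z) ^ 2)
  have S2 : S ^ 2 = E + (b * z) ^ 2 := sq_sqrt (by positivity)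
  have S0 : 0 ≤ S := sqrt_nonneg _
  have bS : b * z ≤ S := le_sqrt_of_sq_le (by linarith)
  have bρ : b * ρ ≤ S := (mul_le_mul_of_nonneg_left h.ρz hb0).trans bS
  have f4 : √(t1 ^ 2 * psi φ w g t1) ≤ 2 * C ^ 2 * S := by
    refine sqrt_le_iff.2 ⟨by positivity, ?_⟩
    have k1 : t1 * (1 + ε t1) ≤ C * (2 * C) :=
      mul_le_mul h.tC (by linarith [h.εC]) (by linarith [h.ha.ε0 t1 m1]) (by linarith)
    have k2 := mul_le_mul k1 hE (Ph_nonneg hw t1) (by positivity)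
    have k3 := mul_le_mul_of_nonneg_left f2 ht1.le
    have k4 := mul_le_mul_of_nonneg_left f3 (sq_nonneg b)
    have c2 : 1 ≤ C ^ 2 := one_le_pow₀ C1
    have c3 : C ^ 3 ≤ C ^ 4 := pow_le_pow_right₀ C1 (by norm_num)
    have c4 : C ^ 2 ≤ C ^ 4 := pow_le_pow_right₀ C1 (by norm_num)
    have k5 := mul_le_mul_of_nonneg_right c3 E0
    have k6 := mul_le_mul_of_nonneg_right c4 (sq_nonneg (b * z))
    have k7 := mul_le_mul_of_nonneg_right (c2.trans c4) (sq_nonneg (b * z))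
    have k8 : 0 ≤ C ^ 4 * E := by positivity
    have k9 : 0 ≤ C ^ 4 * (b * z) ^ 2 := by positivity
    rw [mul_pow, S2]
    nlinarith
  have f5 : exp (∫ u in s..t1, ε u / u) ≤ exp C :=
    exp_le_exp.2 ((h.ha.eps_le le_rfl hs.1 hs.2 le_rfl le_rfl).trans h.iC)
  have f6 := mul_le_mul f5 (add_le_add f4 bρ)
    (add_nonneg (sqrt_nonneg _) (mul_nonneg hb0 h.ha.ρ0)) (exp_pos C).le
  unfold Gam
  linarith

/-- crude bound on `s² E|v_s|²` -/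
theorem psi_le (hw : Wt w) (h : HC φ w ε p s0 t1 ρ C z) (hb0 : 0 ≤ b)
    (hb : ∀ x, ∑ a, g a x ^ 2 ≤ b ^ 2) (E0 : 0 ≤ E) (hE : Ph φ w g t1 ≤ C * E + (b * z) ^ 2)
    (hs : s ∈ Icc s0 t1) : s ^ 2 * psi φ w g s ≤ Gam C ^ 2 * (E + (b * z) ^ 2) := by
  have h1 := (sqrt_le_iff.1 (h.sqrt_le hw hb0 hb E0 hE hs)).2
  rwa [mul_pow, sq_sqrt (by positivity)] at h1

end HC

theorem int_psi_le (hw : Wt w) (hs : 0 < s) (hst : s ≤ t) {B : ℝ}
    (h : ∀ u ∈ Icc s t, u ^ 2 * psi φ w g u ≤ B) : s * ∫ u in s..t, psi φ w g u ≤ B := by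
  have B0 : 0 ≤ B := (mul_nonneg (sq_nonneg s) (psi_nonneg hw s)).trans (h s ⟨le_rfl, hst⟩)
  have c1 : ContinuousOn (fun u : ℝ => B * (u ^ 2)⁻¹) (Icc s t) :=
    continuousOn_const.mul ((continuousOn_id.pow 2).inv₀ fun u hu =>
      (pow_pos (hs.trans_le hu.1) 2).ne')
  have h1 : ∫ u in s..t, psi φ w g u ≤ ∫ u in s..t, B * (u ^ 2)⁻¹ :=
    intervalIntegral.integral_mono_on hst ((cont_psi hw).intervalIntegrable _ _)
      (c1.intervalIntegrable_of_Icc hst) fun u hu => by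
        rw [← div_eq_mul_inv, le_div_iff₀ (pow_pos (hs.trans_le hu.1) 2), mul_comm]
        exact h u hu
  have h2 : ∫ u in s..t, B * (u ^ 2)⁻¹ = -(B * t⁻¹) - -(B * s⁻¹) := by
    refine intervalIntegral.integral_eq_sub_of_hasDerivAt (f := fun u => -(B * u⁻¹))
      (fun u hu => ?_) (c1.intervalIntegrable_of_Icc hst)
    rw [uIcc_of_le hst] at hu
    have := ((hasDerivAt_inv (hs.trans_le hu.1).ne').const_mul B).neg
    exact this.congr_deriv (by ring)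
  have h3 : 0 ≤ B * t⁻¹ := mul_nonneg B0 (inv_pos.2 (hs.trans_le hst)).le
  calc s * ∫ u in s..t, psi φ w g u ≤ s * (B * s⁻¹) :=
        mul_le_mul_of_nonneg_left (by linarith) hs.le
    _ = B := by field_simp

/-- crude form domination -/
theorem HC.Ph_le (hw : Wt w) (h : HC φ w ε p s0 t1 ρ C z) (hb0 : 0 ≤ b)
    (hb : ∀ x, ∑ a, g a x ^ 2 ≤ b ^ 2) (E0 : 0 ≤ E) (hE : Ph φ w g t1 ≤ C * E + (b * z) ^ 2)
    (hs : s ∈ Icc s0 t1) : s * Ph φ w g s ≤ (Gam C ^ 2 + C ^ 2) * (E + (b * z) ^ 2) := by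
  have hs0 : 0 < s := h.ha.pos.trans_le hs.1
  have h1 := int_psi_le hw hs0 hs.2 fun u hu =>
    h.psi_le hw hb0 hb E0 hE ⟨hs.1.trans hu.1, hu.2⟩
  have h2 := mul_le_mul (hs.2.trans h.tC) hE (Ph_nonneg hw t1) (by linarith [h.C1])
  have h3 : C ≤ C ^ 2 := le_self_pow₀ h.C1 (by norm_num)
  have h4 := mul_le_mul_of_nonneg_right h3 (sq_nonneg (b * z))
  rw [Ph_sub hw hs0.le hs.2]
  nlinarith

/-- the sharp bound at one scale from (D*) -/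
theorem HA.sharp' (hw : Wt w) (h : HA φ w ε p s t ρ) (he : ∀ r ∈ Icc s t, ε r ≤ e)
    (hi : ∫ u in s..t, ε u / u ≤ e) (he4 : e ≤ 1 / 4) (hM : 1 < M) (hMs : M * s ≤ t)
    (hb0 : 0 ≤ b) (hb : ∀ x, ∑ a, g a x ^ 2 ≤ b ^ 2) {P : Matrix ι ι ℝ} (hP : opn (1 - P) ≤ 1)
    {θ o R Es : ℝ} (θ0 : 0 ≤ θ) (hH : ∀ r ∈ Icc s (M * s), (law φ w r).real (BH φ w P θ r) ≤ o)
    (hD : DS φ w g P t o Es) (hR : √(t ^ 2 * psi φ w g t) ≤ R)
    (hR' : √(s ^ 2 * psi φ w g s) ≤ R) (z0 : 0 ≤ z) (hz : ρ ≤ z) (hz' : s * o ≤ z ^ 2) :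
    s ^ 2 * psi φ w g s ≤ (1 + 4 * e) * Es +
      2 * (√(24 * e + 4 / log M) + √(4 * e ^ 2 + 2 / log M + 4 * θ ^ 2)) * R ^ 2 +
        32 * (b * z) * R + (b * z) ^ 2 := by
  obtain ⟨B, hB, hBo, hE⟩ := hD
  have m : ∀ a, MG fun y => Bᶜ.indicator (fun _ => (1 : ℝ)) y *
      ((Pᵀ *ᵥ t • vv φ w (g a) (t, y)) ⬝ᵥ (Pᵀ *ᵥ t • vv φ w (g a) (t, y))) := fun a => by
    have m1 : ∀ i, MG fun y => (Pᵀ *ᵥ t • vv φ w (g a) (t, y)) i := fun i =>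
      MG.sum _ fun j _ => ((mg_vv hw (g a) t j).const_mul t).const_mul _
    exact (mg_ind hB.compl).mul (MG.sum _ fun i _ => (m1 i).mul (m1 i))
  have := h.sharp hw he hi he4 hM hMs hb0 hb hP θ0 hH hB hBo m (fun a y => mul_nonneg
    (by rcases ind_cases Bᶜ y with j | j <;> simp [j.2]) (SL.dot_self_nonneg _)) zero_le_one
    (fun y hy a u => ?_) (E := Es) ?_ hR hR' z0 hz hz'
  · simpa only [one_mul] using this
  · rw [indicator_of_mem (show y ∈ Bᶜ from hy), one_mul, one_mul, dotProduct_comm (P *ᵥ u),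
      dotProduct_mulVec, ← mulVec_transpose, mul_comm]
    exact dot_sq_le _ _
  · refine le_of_eq_of_le ?_ hE
    exact (ex_sum (φ := φ) (v := w) (G := fun a q => Bᶜ.indicator (fun _ => (1 : ℝ)) q.2 *
      ((Pᵀ *ᵥ t • vv φ w (g a) q) ⬝ᵥ (Pᵀ *ᵥ t • vv φ w (g a) q))) _ fun a _ => m a).symm.trans
      (ex_congr fun y => by simp only [dd, Finset.mul_sum]; rfl)

/-- sharp form domination with explicit errors -/
theorem HC.sharp (hw : Wt w) (h : HC φ w ε p s0 t1 ρ C z) (ht01 : t0 ≤ t1)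
    (he : ∀ r ∈ Icc s0 t0, ε r ≤ e) (hi : ∫ u in s0..t0, ε u / u ≤ e) (he4 : e ≤ 1 / 4)
    (hM : 1 < M) (hb0 : 0 ≤ b) (hb : ∀ x, ∑ a, g a x ^ 2 ≤ b ^ 2) (E0 : 0 ≤ E)
    (hE : Ph φ w g t1 ≤ C * E + (b * z) ^ 2) {P : Matrix ι ι ℝ} (hP : opn (1 - P) ≤ 1)
    {θ o Es : ℝ} (θ0 : 0 ≤ θ)
    (hH : ∀ r ∈ Icc s0 (M * (M * s0)), (law φ w r).real (BH φ w P θ r) ≤ o)
    (ht : t ∈ Icc (M * (M * s0)) t0) (hD : DS φ w g P t o Es) (hz : M * s0 * o ≤ z ^ 2) :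
    s0 * Ph φ w g s0 ≤ (1 + 4 * e) * Es +
      (2 * (√(24 * e + 4 / log M) + √(4 * e ^ 2 + 2 / log M + 4 * θ ^ 2)) * Gam C ^ 2 +
        Gam C ^ 2 / M + s0 * C) * (E + (b * z) ^ 2) +
      32 * (b * z) * (Gam C * √(E + (b * z) ^ 2)) + (b * z) ^ 2 := by
  have hs := h.ha.pos
  have hM0 : 0 < M := by linarith
  have h1 : s0 ≤ M * s0 := by nlinarith
  have h2 : M * s0 ≤ M * (M * s0) := by nlinarith
  have h3 : M * s0 ≤ t1 := h2.trans (ht.1.trans (ht.2.trans ht01))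
  have o0 : 0 ≤ o := measureReal_nonneg.trans (hH s0 ⟨le_rfl, h1.trans h2⟩)
  have ht' : t ∈ Icc s0 t1 := ⟨h1.trans (h2.trans ht.1), ht.2.trans ht01⟩
  have f1 := int_psi_le hw hs h1 fun u hu => by
    have k1 : M * u ≤ M * (M * s0) := mul_le_mul_of_nonneg_left hu.2 hM0.le
    have k2 : u ≤ t := hu.2.trans (h2.trans ht.1)
    exact (h.ha.mono hu.1 k2 ht'.2).sharp' hw (fun r hr => he r ⟨hu.1.trans hr.1, hr.2.trans ht.2⟩)
      ((h.ha.eps_le le_rfl hu.1 k2 ht.2 ht01).trans hi) he4 hM (k1.trans ht.1) hb0 hb hP θ0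
      (fun r hr => hH r ⟨hu.1.trans hr.1, hr.2.trans k1⟩) hD (h.sqrt_le hw hb0 hb E0 hE ht')
      (h.sqrt_le hw hb0 hb E0 hE ⟨hu.1, hu.2.trans h3⟩) h.z0 h.ρz
      ((mul_le_mul_of_nonneg_right hu.2 o0).trans hz)
  have f2 := int_psi_le hw (mul_pos hM0 hs) h3 fun u hu =>
    h.psi_le hw hb0 hb E0 hE ⟨h1.trans hu.1, hu.2⟩
  have f3 : s0 * ∫ u in M * s0..t1, psi φ w g u ≤ Gam C ^ 2 / M * (E + (b * z) ^ 2) := by
    rw [div_mul_eq_mul_div, le_div_iff₀ hM0]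
    linarith
  have f4 : s0 * Ph φ w g t1 ≤ s0 * C * (E + (b * z) ^ 2) := by
    rw [mul_assoc]
    refine mul_le_mul_of_nonneg_left (hE.trans ?_) hs.le
    nlinarith [h.C1, sq_nonneg (b * z)]
  rw [mul_pow (Gam C), sq_sqrt (by positivity)] at f1
  rw [Ph_sub hw hs.le h1, Ph_sub hw (mul_pos hM0 hs).le h3]
  nlinarith

/-- choice of the parameters -/
theorem exists_par (hC : 1 ≤ C) {η : ℝ} (hη : 0 < η) : ∃ δ M : ℝ, 0 < δ ∧ δ ≤ 1 / 4 ∧ 1 < M ∧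
    ∀ e θ s : ℝ, 0 ≤ e → e ≤ δ → 0 ≤ θ → θ ≤ δ → s ≤ δ →
      2 * (√(24 * e + 4 / log M) + √(4 * e ^ 2 + 2 / log M + 4 * θ ^ 2)) * Gam C ^ 2 +
        Gam C ^ 2 / M + s * C ≤ η := by
  have G1 := one_le_Gam (C := C) (by linarith)
  set τ := η / (12 * Gam C ^ 2) with hτ
  have τ0 : 0 < τ := by positivity
  have m1 : 1 < exp (8 / τ ^ 2) := one_lt_exp_iff.2 (by positivity)
  have m2 : 0 < 3 * Gam C ^ 2 / η := by positivity
  refine ⟨min (min (1 / 4) (τ ^ 2 / 48)) (η / (3 * C)), exp (8 / τ ^ 2) + 3 * Gam C ^ 2 / η,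
    by positivity, (min_le_left _ _).trans (min_le_left _ _), by linarith,
    fun e θ s e0 he θ0 hθ hs => ?_⟩
  have a1 := he.trans ((min_le_left _ _).trans (min_le_left _ _))
  have a2 := he.trans ((min_le_left _ _).trans (min_le_right _ _))
  have a3 := hθ.trans ((min_le_left _ _).trans (min_le_left _ _))
  have a4 := hθ.trans ((min_le_left _ _).trans (min_le_right _ _))
  have a5 := hs.trans (min_le_right _ _)
  have l1 : 8 / τ ^ 2 ≤ log (exp (8 / τ ^ 2) + 3 * Gam C ^ 2 / η) :=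
    (le_log_iff_exp_le (by linarith)).2 (by linarith)
  set L := log (exp (8 / τ ^ 2) + 3 * Gam C ^ 2 / η)
  have L0 : 0 < L := lt_of_lt_of_le (by positivity) l1
  have l2 : 4 / L ≤ τ ^ 2 / 2 := by
    rw [div_le_iff₀ L0]
    rw [div_le_iff₀ (by positivity)] at l1
    linarith
  have l3 : 2 / L ≤ 4 / L := by gcongr; norm_num
  have s1 : √(24 * e + 4 / L) ≤ τ := sqrt_le_iff.2 ⟨τ0.le, by linarith⟩
  have s2 : √(4 * e ^ 2 + 2 / L + 4 * θ ^ 2) ≤ τ :=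
    sqrt_le_iff.2 ⟨τ0.le, by nlinarith [sq_nonneg τ]⟩
  have b1 : 2 * (√(24 * e + 4 / L) + √(4 * e ^ 2 + 2 / L + 4 * θ ^ 2)) * Gam C ^ 2 ≤ η / 3 := by
    calc _ ≤ 2 * (τ + τ) * Gam C ^ 2 := by gcongr
      _ = η / 3 := by rw [hτ]; field_simp; ring
  have b2 : Gam C ^ 2 / (exp (8 / τ ^ 2) + 3 * Gam C ^ 2 / η) ≤ η / 3 := by
    calc _ ≤ Gam C ^ 2 / (3 * Gam C ^ 2 / η) := by gcongr; linarith
      _ = η / 3 := by field_simp
  have b3 : s * C ≤ η / 3 := by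
    rw [le_div_iff₀ (by positivity)] at a5
    linarith
  linarith

/-- **(I1) at fixed size.** -/
theorem i1_core (hC : 1 ≤ C) {η : ℝ} (hη : 0 < η) : ∃ δ M C' : ℝ, 0 < δ ∧ 1 < M ∧ 0 < C' ∧
    ∀ {Ω : Type} [Fintype Ω] {ι : Type} [Fintype ι] [DecidableEq ι] (φ : Ω → ι → ℝ) (w : Ω → ℝ)
      (ε p : ℝ → ℝ) (s0 t0 t1 ρ z θ o : ℝ) (P : Matrix ι ι ℝ), Wt w → HC φ w ε p s0 t1 ρ C z →
      t0 ≤ t1 → s0 ≤ δ → (∀ r ∈ Icc s0 t0, ε r ≤ δ) → ∫ u in s0..t0, ε u / u ≤ δ →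
      opn (1 - P) ≤ 1 → 0 ≤ θ → θ ≤ δ →
      (∀ r ∈ Icc s0 (M * (M * s0)), (law φ w r).real (BH φ w P θ r) ≤ o) → M * s0 * o ≤ z ^ 2 →
      ∀ {κ : Type} [Fintype κ] (g : κ → Ω → ℝ) (b E Es t : ℝ), 0 ≤ b →
        (∀ x, ∑ a, g a x ^ 2 ≤ b ^ 2) → 0 ≤ E → Ph φ w g t1 ≤ C * E + (b * z) ^ 2 →
        t ∈ Icc (M * (M * s0)) t0 → DS φ w g P t o Es → 0 ≤ Es →
        s0 * Ph φ w g s0 ≤ (1 + η) * Es + η * E + C' * (b * z) ^ 2 := by
  obtain ⟨δ, M, δ0, δ4, hM, hpar⟩ := exists_par hC (half_pos hη)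
  have G1 := one_le_Gam (C := C) (by linarith)
  refine ⟨min δ (η / 4), M, η + 512 * Gam C ^ 2 / η + 1, by positivity, hM, by positivity, ?_⟩
  intro Ω _ ι _ _ φ w ε p s0 t0 t1 ρ z θ o P hw h ht01 hs he hi hP θ0 hθ hH hz κ _ g b E Es t hb0 hb
    E0 hE ht hD Es0
  have m0 : 0 < min δ (η / 4) := by positivity
  have f1 := h.sharp hw ht01 he hi ((min_le_left _ _).trans δ4) hM hb0 hb E0 hE hP θ0 hH ht hD hz
  have f2 := hpar _ θ s0 m0.le (min_le_left _ _) θ0 (hθ.trans (min_le_left _ _))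
    (hs.trans (min_le_left _ _))
  have f3 := mul_le_mul_of_nonneg_right f2 (show 0 ≤ E + (b * z) ^ 2 by positivity)
  have f4 := mul_le_mul_of_nonneg_right (min_le_right δ (η / 4)) Es0
  have S2 : √(E + (b * z) ^ 2) ^ 2 = E + (b * z) ^ 2 := sq_sqrt (by positivity)
  have f5 : 32 * (b * z) * (Gam C * √(E + (b * z) ^ 2)) ≤
      η / 2 * (E + (b * z) ^ 2) + 512 * Gam C ^ 2 / η * (b * z) ^ 2 := by
    generalize √(E + (b * z) ^ 2) = S at S2 ⊢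
    rw [← S2]
    have k1 : 0 ≤ η / 2 * (S - 32 * Gam C / η * (b * z)) ^ 2 := by positivity
    have k2 : η / 2 * (S - 32 * Gam C / η * (b * z)) ^ 2 = η / 2 * S ^ 2 +
      512 * Gam C ^ 2 / η * (b * z) ^ 2 - 32 * (b * z) * (Gam C * S) := by field_simp; ring
    linarith
  nlinarith

end Crest.Agent.T157.Tr

end
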