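import Crest.Agent.T157.RecD_77
import Crest.Agent.T157.TrC_64
import Crest.Agent.T157.TrD_64
import Crest.Agent.T157.TrE_64
import Crest.Agent.T157.TrDef_64
import Crest.Agent.T157.DaDef_82
import Crest.Agent.T157.GoeT_48
import Crest.Agent.T157.NrmG_84

-- ▼ part T157/RecE_77
section

/-!
# Row 157, part C2 (helper77): recovery by the semigroup (I2) and the link inequality, at fixed `n`
-/

set_option autoImplicit false
set_option linter.unusedSectionVars false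

noncomputable section

namespace Crest.Agent.T157.Rec

open MeasureTheory ProbabilityTheory Filter Topology Set Real Matrix Function
open Crest.Agent.T157.E Crest.Agent.T157.SL
open Crest.Agent.T157.Chain22 (sg)

variable {n : ℕ} {w : Cube n → ℝ} {s r T T' C α η : ℝ} {P : Matrix (Fin n) (Fin n) ℝ}

theorem mass_eq_mean {Ω : Type*} [Fintype Ω] (w : Ω → ℝ) (B : Set Ω) :
    mass w B = mean w (B.indicator fun _ => 1) := by
  classical
  rw [mass, mean, Finset.sum_filter]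
  refine Finset.sum_congr rfl fun x _ => ?_
  by_cases h : x ∈ B <;> simp [h]

/-- bounds for `T_s g`, `g` a bounded vector observable -/
theorem Tm_bounds {κ : Type*} [Fintype κ] (hW : Wt w) (hs : 0 ≤ s) {Q : Matrix (Fin n) (Fin n) ℝ}
    (hQ : ∀ a, (Q *ᵥ a) ⬝ᵥ (Q *ᵥ a) ≤ a ⬝ᵥ a) {θ : (Fin n → ℝ) → ℝ} (mθ : MG θ)
    (θ0 : ∀ y, 0 ≤ θ y) (hθ : ∀ y f, (Q *ᵥ covV (post sv w s y) f sv) ⬝ᵥ
      (Q *ᵥ covV (post sv w s y) f sv) ≤ θ y * var (post sv w s y) f)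
    (g : κ → Cube n → ℝ) {M : ℝ} (hg : ∀ x, ∑ k, g k x ^ 2 ≤ M) :
    (∀ x, ∑ k, grad (Tm w s (g k)) x ⬝ᵥ grad (Tm w s (g k)) x ≤ (exp (4 * s) - 1) / 4 * M) ∧
    (∀ x, ∑ k, ∑ i, grad (fun x => grad (Tm w s (g k)) x i) x ⬝ᵥ
      grad (fun x => grad (Tm w s (g k)) x i) x ≤ 2 * ((exp (4 * s) - 1) / 4) ^ 2 * M) ∧
    ∑ k, mean w (fun x => (Q *ᵥ grad (Tm w s (g k)) x) ⬝ᵥ (Q *ᵥ grad (Tm w s (g k)) x)) ≤
      2 * s ^ 2 * (M * slE sv w s fun _ => θ) + 2 * ((exp (4 * s) - 1) / 4 - s) * M := by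
  set v := (exp (4 * s) - 1) / 4 with hv
  have v0 : 0 ≤ v := vs_nonneg hs
  have v1 : 0 ≤ v - s := by have := add_one_le_exp (4 * s); rw [hv]; linarith
  have mp := fun k => mg_pm (φ := sv) hW s (g k)
  have q1 : ∀ y, ∑ k, mean (post sv w s y) (g k) ^ 2 ≤ M := fun y =>
    (Finset.sum_le_sum fun k _ => mean_sq_le (hW.post sv s y) (g k)).trans
      (by rw [← mean_sum]; exact (hW.post sv s y).mean_le hg)
  have q2 : ∀ x, ∑ k, Pm sv s (fun _ y => mean (post sv w s y) (g k) ^ 2) x ≤ M := fun x => by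
    rw [← Pm_sum _ fun k _ _ => mg_sq (mp k)]
    exact Pm_le (fun _ => .sum _ fun k _ => mg_sq (mp k)) q1
  have q3 : ∀ y, ∑ k, var (post sv w s y) (g k) ≤ M := fun y =>
    (Finset.sum_le_sum fun k _ => (hW.post sv s y).var_le_mean (g k) 0).trans
      (by rw [← mean_sum]; exact (hW.post sv s y).mean_le (by simpa only [sub_zero] using hg))
  refine ⟨fun x => (Finset.sum_le_sum fun k _ => grad_Pm_sq_le hs (mp k) 0 x).trans ?_,
    fun x => (Finset.sum_le_sum fun k _ => grad_grad_Pm_sq_le hs (mp k) x).trans ?_,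
    (Finset.sum_le_sum fun k _ => mean_proj_grad_Tm_le hW hs hQ mθ (g k) fun y => hθ y _).trans ?_⟩
  · simp only [sub_zero, ← Finset.mul_sum]
    exact mul_le_mul_of_nonneg_left (q2 x) v0
  · rw [← Finset.mul_sum]
    exact mul_le_mul_of_nonneg_left (q2 x) (by positivity)
  · rw [Finset.sum_add_distrib, ← Finset.mul_sum, ← Finset.mul_sum]
    refine add_le_add (mul_le_mul_of_nonneg_left ?_ (by positivity))
      (mul_le_mul_of_nonneg_left ?_ (by positivity))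
    · rw [← slE_sum _ fun k _ => .of_mg fun _ => mθ.mul (mg_pvar hW s _), ← slE_const_mul]
      refine slE_mono hW (.of_mg fun _ => .sum _ fun k _ => mθ.mul (mg_pvar hW s _))
        (.of_mg fun _ => mθ.const_mul _) fun _ y => ?_
      rw [← Finset.mul_sum, mul_comm M]
      exact mul_le_mul_of_nonneg_left (q3 y) (θ0 y)
    · simp only [slE_eq_Pm, ← mean_sum]
      exact hW.mean_le q2

/-- linearisation at the starting point -/
theorem GR.vs_le_lin (h : GR w C) (hn : 0 < n) (hw : ∀ x, 0 < w x) (hC : 0 ≤ C) (hT : 0 ≤ T)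
    (hη : 0 < η) (f : Cube n → ℝ) (x : Cube n) (a : Fin n → ℝ) :
    vs w T f x ≤ (1 + η) * (a ⬝ᵥ Am w T x *ᵥ a) + (1 + η⁻¹) * (4 * T * exp (2 * C * T)) *
      (2 * ∑ i, sg w (2 * T) (fun z => (grad f z i - grad f x i) ^ 2) x +
        2 * ((grad f x - a) ⬝ᵥ (grad f x - a))) := by
  have h1 := vs_add_le hn hw hT (fun z => a ⬝ᵥ sv z) (fun z => f z - a ⬝ᵥ sv z) hη x
  simp only [add_sub_cancel, ← Am_quad] at h1
  refine h1.trans (add_le_add le_rfl ?_)
  rw [mul_assoc (1 + η⁻¹)]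
  refine mul_le_mul_of_nonneg_left ((h.vs_le hn hw hC hT _ x).trans
    (mul_le_mul_of_nonneg_left ?_ (by positivity))) (by positivity)
  rw [← sg_sum, ← sg_const_mul, 
    ← sg_const hn hw (2 * T) (2 * ((grad f x - a) ⬝ᵥ (grad f x - a))) x, ← sg_add_fun]
  refine sg_mono hn hw (by positivity) (fun z => ?_) x
  have := dot_add_le one_pos (grad f z - grad f x) (grad f x - a)
  simp only [sub_add_sub_cancel, inv_one, one_add_one_eq_two] at this
  rw [grad_sub, grad_lin]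
  simpa only [dotProduct, sq, Pi.sub_apply] using this

/-- the energy of `P_{2T} f` -/
theorem GR.dir_sg_le_proj (h : GR w C) (hn : 0 < n) (hw : ∀ x, 0 < w x) (hC : 0 ≤ C) (hT : 0 ≤ T)
    (hη : 0 < η) (hα : 0 ≤ α) (hP : ∀ a, (P *ᵥ a) ⬝ᵥ (P *ᵥ a) ≤ a ⬝ᵥ a) {B : Set (Cube n)}
    (hA : ∀ x ∉ B, ∀ a, (P *ᵥ a) ⬝ᵥ Am w T x *ᵥ (P *ᵥ a) ≤ α * ((P *ᵥ a) ⬝ᵥ (P *ᵥ a)))
    (f : Cube n → ℝ) :
    2 * T * dir w (sg w (2 * T) f) ≤ (1 + η) * (α * mean w (fun x => grad f x ⬝ᵥ grad f x) +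
      4 * T * exp (2 * C * T) * mean w (fun x => grad f x ⬝ᵥ grad f x * B.indicator (fun _ => 1) x)) +
      (1 + η⁻¹) * (4 * T * exp (2 * C * T)) * (8 * T * mean w (fun x =>
        ∑ i, grad (fun x => grad f x i) x ⬝ᵥ grad (fun x => grad f x i) x) +
        2 * mean w fun x => ((1 - P) *ᵥ grad f x) ⬝ᵥ ((1 - P) *ᵥ grad f x)) := by
  have hW := Wt.of_pos hw
  refine (dir_sg_le_vs hn hw hT f).trans ((hW.mean_mono fun x =>
    h.vs_le_lin hn hw hC hT hη f x (P *ᵥ grad f x)).trans ?_)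
  simp only [mean_add, mean_const_mul, sub_mulVec, one_mulVec]
  refine add_le_add (mul_le_mul_of_nonneg_left ?_ (by positivity))
    (mul_le_mul_of_nonneg_left (add_le_add ?_ le_rfl) (by positivity))
  · rw [← mean_const_mul, ← mean_const_mul, ← mean_add]
    refine hW.mean_mono fun x => ?_
    have h1 := hP (grad f x)
    have h2 := dot_self_nonneg (grad f x)
    by_cases hx : x ∈ B
    · rw [indicator_of_mem hx, mul_one]
      refine (h.Am_le hn hw hC hT x _).trans (le_add_of_nonneg_of_le (by positivity)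
        (mul_le_mul_of_nonneg_left h1 (by positivity)))
    · rw [indicator_of_notMem hx, mul_zero, mul_zero, add_zero]
      exact (hA x hx _).trans (mul_le_mul_of_nonneg_left h1 hα)
  · rw [mean_sum, mean_sum, Finset.mul_sum, Finset.mul_sum]
    refine Finset.sum_le_sum fun i _ => ?_
    have h1 := mean_sg_sq_sub_le hn hw (2 * T) fun x => grad f x i
    have h2 := mul_le_mul_of_nonneg_left (dir_le_grad hw fun x => grad f x i) hT
    linarith

/-- **(I2) at fixed `n`**: `f = P_{2T} T_s g` -/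
theorem GR.recovery {κ : Type*} [Fintype κ] (h : GR w C) (hn : 0 < n) (hw : ∀ x, 0 < w x) (hC : 0 ≤ C)
    (hT : 0 ≤ T) (hs : 0 ≤ s) (hη : 0 < η) (hα : 0 ≤ α) (hP : ∀ a, (P *ᵥ a) ⬝ᵥ (P *ᵥ a) ≤ a ⬝ᵥ a)
    (hQ : ∀ a, ((1 - P) *ᵥ a) ⬝ᵥ ((1 - P) *ᵥ a) ≤ a ⬝ᵥ a) {B : Set (Cube n)}
    (hA : ∀ x ∉ B, ∀ a, (P *ᵥ a) ⬝ᵥ Am w T x *ᵥ (P *ᵥ a) ≤ α * ((P *ᵥ a) ⬝ᵥ (P *ᵥ a)))
    {θ : (Fin n → ℝ) → ℝ} (mθ : MG θ) (θ0 : ∀ y, 0 ≤ θ y)
    (hθ : ∀ y f, ((1 - P) *ᵥ covV (post sv w s y) f sv) ⬝ᵥ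
      ((1 - P) *ᵥ covV (post sv w s y) f sv) ≤ θ y * var (post sv w s y) f)
    (g : κ → Cube n → ℝ) {M : ℝ} (hg : ∀ x, ∑ k, g k x ^ 2 ≤ M) :
    2 * T * ∑ k, dir w (sg w (2 * T) (Tm w s (g k))) ≤
      (1 + η) * α * ((exp (4 * s) - 1) / 4) * ∑ k, (slE sv w s fun _ y => var (post sv w s y) (g k)) +
      4 * T * exp (2 * C * T) * M * ((1 + η) * ((exp (4 * s) - 1) / 4) * mass w B +
        (1 + η⁻¹) * (16 * T * ((exp (4 * s) - 1) / 4) ^ 2 + 4 * s ^ 2 * (slE sv w s fun _ => θ) +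
          4 * ((exp (4 * s) - 1) / 4 - s))) ∧
    ∑ k, mean w (fun x => (sg w (2 * T) (Tm w s (g k)) x - g k x) ^ 2) ≤
      (2 + 4 * T * ((exp (4 * s) - 1) / 4)) * ∑ k, slE sv w s fun _ y => var (post sv w s y) (g k) := by
  have hW := Wt.of_pos hw
  obtain ⟨b0, b2, b3⟩ := Tm_bounds hW hs hQ mθ θ0 hθ g hg
  have b1 := Finset.sum_le_sum fun k (_ : k ∈ Finset.univ) => mean_grad_Tm_le hW hs (g k)
  rw [← Finset.mul_sum] at b1
  set v := (exp (4 * s) - 1) / 4 with hv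
  constructor
  · have b2' : ∑ k, mean w (fun x => ∑ i, grad (fun x => grad (Tm w s (g k)) x i) x ⬝ᵥ
        grad (fun x => grad (Tm w s (g k)) x i) x) ≤ 2 * v ^ 2 * M := by
      rw [← mean_sum]; exact hW.mean_le b2
    have b4 : ∑ k, mean w (fun x => grad (Tm w s (g k)) x ⬝ᵥ grad (Tm w s (g k)) x *
        B.indicator (fun _ => 1) x) ≤ v * M * mass w B := by
      rw [← mean_sum, mass_eq_mean, ← mean_const_mul]
      refine hW.mean_mono fun x => ?_
      rw [← Finset.sum_mul]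
      exact mul_le_mul_of_nonneg_right (b0 x) (indicator_nonneg (fun _ _ => zero_le_one) x)
    rw [Finset.mul_sum]
    refine (Finset.sum_le_sum fun k _ => h.dir_sg_le_proj hn hw hC hT hη hα hP hA _).trans ?_
    simp only [Finset.sum_add_distrib, ← Finset.mul_sum]
    have c0 : 0 ≤ 4 * T * exp (2 * C * T) := by positivity
    have c1 := mul_le_mul_of_nonneg_left (add_le_add (mul_le_mul_of_nonneg_left b1 hα)
      (mul_le_mul_of_nonneg_left b4 c0)) (show 0 ≤ 1 + η by positivity)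
    have c2 := mul_le_mul_of_nonneg_left (add_le_add (mul_le_mul_of_nonneg_left b2'
      (show 0 ≤ 8 * T by positivity)) (mul_le_mul_of_nonneg_left b3 zero_le_two))
      (show 0 ≤ (1 + η⁻¹) * (4 * T * exp (2 * C * T)) by positivity)
    linarith
  · have c1 := mul_le_mul_of_nonneg_left b1 (show 0 ≤ 4 * T by positivity)
    have c2 := Finset.sum_le_sum fun k (_ : k ∈ Finset.univ) => mean_Tm_sub_sq_le hW hs (g k)
    have c3 : ∑ k, mean w (fun x => (sg w (2 * T) (Tm w s (g k)) x - g k x) ^ 2) ≤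
        2 * ∑ k, mean w (fun x => (Tm w s (g k) x - g k x) ^ 2) +
          4 * T * ∑ k, mean w (fun x => grad (Tm w s (g k)) x ⬝ᵥ grad (Tm w s (g k)) x) := by
      simp only [Finset.mul_sum, ← Finset.sum_add_distrib]
      refine Finset.sum_le_sum fun k _ => ?_
      have d1 := (mean_sg_sub_sq_le hn hw (t := 2 * T) (by positivity) (Tm w s (g k))).trans
        (mul_le_mul_of_nonneg_left (dir_le_grad hw _) (by positivity))
      have d2 := hW.mean_mono (f := fun x => (sg w (2 * T) (Tm w s (g k)) x - g k x) ^ 2)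
        (g := fun x => 2 * (Tm w s (g k) x - g k x) ^ 2 +
          2 * (sg w (2 * T) (Tm w s (g k)) x - Tm w s (g k) x) ^ 2) fun x => by
        nlinarith [sq_nonneg (sg w (2 * T) (Tm w s (g k)) x - 2 * Tm w s (g k) x + g k x)]
      rw [mean_add, mean_const_mul, mean_const_mul] at d2
      linarith
    linarith

/-- **(LINK) at fixed `n`** -/
theorem link (hn : 0 < n) (hw : ∀ x, 0 < w x) (hr : 0 ≤ r) (hT : 0 < T) (hT' : 0 < T') (hη : 0 < η)
    (u : Fin n → ℝ) :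
    mean w (fun x => u ⬝ᵥ Am w T' x *ᵥ u) / (2 * T') ≤
      (1 + η) ^ 2 * exp (4 * r) * ((slE sv w r fun x y => u ⬝ᵥ Am (post sv w r y) T x *ᵥ u) / (2 * T)) +
        (1 + η⁻¹) * ((1 + η) * (exp (4 * r) - 1) * (2 * T) + T / T') * (u ⬝ᵥ u) := by
  have hW := Wt.of_pos hw
  set l : Cube n → ℝ := fun x => u ⬝ᵥ sv x with hl
  have hp := post_pos hw sv r
  have m : ∀ x, MG fun y => sg (post sv w r y) (2 * T) l x := fun x =>
    mg_sg hn hw r (by positivity) (F := fun z _ => l z) (fun _ => .const _) x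
  have mv : ∀ x, MG fun y => vs (post sv w r y) T l x := fun x =>
    mg_vs hn hw r hT.le (F := fun z _ => l z) (fun _ => .const _) x
  set X := Pm sv r fun x y => sg (post sv w r y) (2 * T) l x with hX
  have h1 := shift_sv hw hr m l hη
  simp only [← dir_post_sv w _ r] at h1
  have h2 : (slE sv w r fun x y => (sg (post sv w r y) (2 * T) l x - l x) ^ 2) ≤ 2 * T * (u ⬝ᵥ u) := by
    have m2 := fun x => mg_sq ((m x).sub (.const (l x)))
    rw [bayes hW hr (.of_mg m2), ← hW.mean_const (2 * T * (u ⬝ᵥ u)), ← slE_fun (φ := sv) (s := r)]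
    exact slE_mono hW (.of_mg fun _ => mg_mean hW r m2) (.of_mg fun _ => .const _) fun _ y =>
      (mean_sg_sub_sq_le hn (hp y) (by positivity) l).trans
        (mul_le_mul_of_nonneg_left (dir_lin_le (hp y) u) (by positivity))
  have h3 : (slE sv w r fun _ y => dir (post sv w r y) fun x => sg (post sv w r y) (2 * T) l x) ≤
      (slE sv w r fun x y => u ⬝ᵥ Am (post sv w r y) T x *ᵥ u) / (2 * T) := by
    simp only [Am_quad]
    rw [le_div_iff₀ (by positivity), mul_comm, ← slE_const_mul, bayes hW hr (.of_mg mv)]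
    exact slE_mono hW (.of_mg fun _ => (mg_dir hw m).const_mul _) (.of_mg fun _ => mg_mean hW r mv)
      fun _ y => dir_sg_le_vs hn (hp y) hT.le l
  have h4 : mean w (fun x => u ⬝ᵥ Am w T' x *ᵥ u) / (2 * T') ≤ dir w (sg w T' l) := by
    simp only [Am_quad]
    rw [div_le_iff₀ (by positivity), mul_comm]
    exact vs_le_dir_sg hn hw hT'.le l
  have h5 := dir_add_le hw (sg w T' X) (sg w T' fun x => l x - X x) hη
  simp only [← sg_add_fun, add_sub_cancel] at h5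
  have h6 := dir_sg_le hn hw hT'.le X
  have h7 := dir_sg_le_sq hn hw hT' fun x => l x - X x
  simp only [sub_sq_comm (l _)] at h7
  have h8 : mean w (fun x => (X x - l x) ^ 2) / (2 * T') ≤ T / T' * (u ⬝ᵥ u) := by
    rw [div_le_iff₀ (by positivity)]
    exact ((mean_Pm_sub_sq_le hW m l).trans h2).trans_eq (by field_simp)
  have e1 := one_le_exp (show 0 ≤ 4 * r by positivity)
  have c1 := mul_le_mul_of_nonneg_left h3 (show 0 ≤ (1 + η) * exp (4 * r) by positivity)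
  have c2 := mul_le_mul_of_nonneg_left h2 (show 0 ≤ (1 + η⁻¹) * (exp (4 * r) - 1) from
    mul_nonneg (by positivity) (by linarith))
  have c3 := mul_le_mul_of_nonneg_left (h6.trans (h1.trans (add_le_add c1 c2)))
    (show 0 ≤ 1 + η by positivity)
  have c4 := mul_le_mul_of_nonneg_left (h7.trans h8) (show 0 ≤ 1 + η⁻¹ by positivity)
  refine h4.trans (h5.trans ?_)
  linarith

end Crest.Agent.T157.Rec

end
end

-- ▼ part T157/DsA_77
section

/-!
# Row 157, part C (helper77): the lower bound `D*`, one-field part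
-/

set_option autoImplicit false
set_option linter.unusedSectionVars false

noncomputable section

namespace Crest.Agent.T157.Rec

open MeasureTheory ProbabilityTheory Filter Topology Set Real Matrix Function
open Crest.Agent.T157.E Crest.Agent.T157.SL Crest.Agent.T157.Eig Crest.Agent.T157.Tr
open Crest.Agent.T157.Chain22 (sg)

variable {n : ℕ} {u w : Cube n → ℝ} {T α e γ η : ℝ} {P P' : Matrix (Fin n) (Fin n) ℝ}

/-- the averaged matrix `Ā_T = E_x A_T(x)` -/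
def Ab (u : Cube n → ℝ) (T : ℝ) : Matrix (Fin n) (Fin n) ℝ := fun i j => mean u fun x => Am u T x i j

theorem Ab_eq_sum (u : Cube n → ℝ) (T : ℝ) : Ab u T = ∑ x, prob u x • Am u T x := by
  ext i j; simp only [Ab, mean, Matrix.sum_apply, Matrix.smul_apply, smul_eq_mul]

theorem Ab_bil (u : Cube n → ℝ) (T : ℝ) (a c : Fin n → ℝ) :
    a ⬝ᵥ Ab u T *ᵥ c = mean u fun x => a ⬝ᵥ Am u T x *ᵥ c := by
  simp only [Ab_eq_sum, sum_mulVec, dotProduct_sum, smul_mulVec, dotProduct_smul, smul_eq_mul, mean]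

theorem Ab_transpose (u : Cube n → ℝ) (T : ℝ) : (Ab u T)ᵀ = Ab u T := by
  simp only [Ab_eq_sum, transpose_sum, transpose_smul, Am_transpose]

theorem Ab_nonneg (hn : 0 < n) (hu : ∀ x, 0 < u x) (hT : 0 ≤ T) (a : Fin n → ℝ) :
    0 ≤ a ⬝ᵥ Ab u T *ᵥ a := by
  rw [Ab_bil]
  exact (Wt.of_pos hu).mean_nonneg fun x => by rw [Am_quad]; exact vs_nn hn hu hT _ x

theorem Ab_le_dir (hn : 0 < n) (hu : ∀ x, 0 < u x) (hT : 0 ≤ T) (a : Fin n → ℝ) :
    a ⬝ᵥ Ab u T *ᵥ a ≤ 2 * T * dir u (sg u T fun x => a ⬝ᵥ sv x) := by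
  simp only [Ab_bil, Am_quad]; exact vs_le_dir_sg hn hu hT _

theorem Ab_le (hn : 0 < n) (hu : ∀ x, 0 < u x) (hT : 0 ≤ T) (a : Fin n → ℝ) :
    a ⬝ᵥ Ab u T *ᵥ a ≤ 2 * T * (a ⬝ᵥ a) :=
  (Ab_le_dir hn hu hT a).trans (mul_le_mul_of_nonneg_left
    ((dir_sg_le hn hu hT _).trans (dir_lin_le hu a)) (by positivity))

theorem mg_Ab {ι : Type*} [Fintype ι] [DecidableEq ι] {φ : Cube n → ι → ℝ} (hn : 0 < n)
    (hw : ∀ x, 0 < w x) (r : ℝ) (hT : 0 ≤ T) (i j : Fin n) : MG fun y => Ab (post φ w r y) T i j :=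
  mg_mean (Wt.of_pos hw) r fun x => mg_Am hn hw r hT x i j

/-- the energy dominates the quadratic form of `Ā` at any good linearisation -/
theorem Ab_le_dir_add (hn : 0 < n) (hu : ∀ x, 0 < u x) (hT : 0 < T) (hη : 0 < η) (g : Cube n → ℝ)
    (a : Fin n → ℝ) : a ⬝ᵥ Ab u T *ᵥ a ≤
      2 * T * (1 + η) * dir u g + (1 + η⁻¹) * var u fun x => g x - a ⬝ᵥ sv x := by
  set c := mean u fun x => g x - a ⬝ᵥ sv x with hc
  have h1 := dir_add_le hu (sg u T fun x => g x - c) (sg u T fun x => a ⬝ᵥ sv x - (g x - c)) hη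
  simp only [← sg_add_fun, add_sub_cancel] at h1
  have h2 := dir_sg_le hn hu hT.le fun x => g x - c
  have h3 := dir_sg_le_sq hn hu hT fun x => a ⬝ᵥ sv x - (g x - c)
  have e1 : dir u (fun x => g x - c) = dir u g := by
    refine Finset.sum_congr rfl fun i _ => Finset.sum_congr rfl fun x _ => ?_
    have := (add_pos (hu (update x i true)) (hu (update x i false))).ne'
    congr 2
    simp only [siteM]; field_simp; ring
  have e2 : mean u (fun x => (a ⬝ᵥ sv x - (g x - c)) ^ 2) = var u fun x => g x - a ⬝ᵥ sv x := by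
    rw [var, ← hc, mean]
    exact Finset.sum_congr rfl fun x _ => by ring
  rw [e1] at h2
  rw [e2, le_div_iff₀ (by positivity)] at h3
  have h4 := Ab_le_dir hn hu hT.le a
  have h5 := mul_le_mul_of_nonneg_left h1 (show 0 ≤ 2 * T by positivity)
  have h6 := mul_le_mul_of_nonneg_left h2 (show 0 ≤ 2 * T * (1 + η) by positivity)
  have h7 := mul_le_mul_of_nonneg_left h3 (show 0 ≤ 1 + η⁻¹ by positivity)
  change a ⬝ᵥ Ab u T *ᵥ a ≤ 2 * T * dir u fun z => sg u T (fun x => a ⬝ᵥ sv x) z at h4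
  linarith

/-- lower bound of a quadratic form which is close to a scalar between two projections -/
theorem quad_lower {A : Matrix (Fin n) (Fin n) ℝ} (hA : Aᵀ = A) {c : ℝ} (h0 : ∀ a, 0 ≤ a ⬝ᵥ A *ᵥ a)
    (h1 : ∀ a, a ⬝ᵥ A *ᵥ a ≤ c * (a ⬝ᵥ a)) (hP : Pᵀ = P) (hPP : P * P = P) (hP' : P'ᵀ = P')
    (hPP' : P' * P = P) (he : opn (P' * (A - α • 1) * P) ≤ e) (hc : 0 ≤ c) (hγ : 0 < γ)
    (x : Fin n → ℝ) : α * ((P *ᵥ x) ⬝ᵥ (P *ᵥ x)) ≤ x ⬝ᵥ A *ᵥ x + (3 * e + c * γ) * (x ⬝ᵥ x) +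
      c / γ * (((1 - P') *ᵥ x) ⬝ᵥ ((1 - P') *ᵥ x)) := by
  have key : ∀ a, |(P' *ᵥ a) ⬝ᵥ A *ᵥ (P *ᵥ x) - α * ((P' *ᵥ a) ⬝ᵥ (P *ᵥ x))| ≤ e * (nrm a * nrm x) :=
    fun a => by
      have := (abs_bil_le (P' * (A - α • 1) * P) a x).trans
        (mul_le_mul_of_nonneg_right he (mul_nonneg (nrm_nonneg a) (nrm_nonneg x)))
      rwa [← mulVec_mulVec, ← mulVec_mulVec, ← Tr.dot_symm hP', sub_mulVec, smul_mulVec, one_mulVec,
        dotProduct_sub, dotProduct_smul, smul_eq_mul] at this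
  have e0 : 0 ≤ e := (opn_nonneg _).trans he
  set z := P *ᵥ x with hz
  set q := (1 - P') *ᵥ x with hq
  have z1 : P' *ᵥ z = z := by rw [hz, mulVec_mulVec, hPP']
  have z2 : x ⬝ᵥ z = z ⬝ᵥ z := by rw [hz, Tr.dot_symm hP, mulVec_mulVec, hPP]
  have z3 : (P' *ᵥ x) ⬝ᵥ z = z ⬝ᵥ z := by rw [Tr.dot_symm hP', z1, z2]
  have z4 : z ⬝ᵥ z ≤ x ⬝ᵥ x := by
    have := SL.dot_self_nonneg (x - z)
    simp only [sub_dotProduct, dotProduct_sub, dotProduct_comm z x] at this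
    linarith
  have k1 := (abs_le.1 (key x)).1
  have k2 := (abs_le.1 (key z)).2
  rw [z3, nrm_mul_self] at k1
  rw [z1] at k2
  have k3 : e * (nrm z * nrm x) ≤ e * (x ⬝ᵥ x) := mul_le_mul_of_nonneg_left (by
    rw [← nrm_mul_self]
    exact mul_le_mul_of_nonneg_right (sqrt_le_sqrt z4) (nrm_nonneg x)) e0
  have s : ∀ a b, a ⬝ᵥ A *ᵥ b = b ⬝ᵥ A *ᵥ a := Eig.dot_symm hA
  have k4 := h0 (x - z)
  simp only [mulVec_sub, sub_dotProduct, dotProduct_sub, s z x] at k4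
  have k5 : x ⬝ᵥ A *ᵥ z = (P' *ᵥ x) ⬝ᵥ A *ᵥ z + q ⬝ᵥ A *ᵥ z := by
    rw [← add_dotProduct, hq, sub_mulVec, one_mulVec, add_sub_cancel]
  have k6 := h0 (γ • z + q)
  simp only [mulVec_add, mulVec_smul, add_dotProduct, dotProduct_add, smul_dotProduct,
    dotProduct_smul, smul_eq_mul, s z q] at k6
  have k7 : -(2 * (q ⬝ᵥ A *ᵥ z)) ≤ c * γ * (x ⬝ᵥ x) + c / γ * (q ⬝ᵥ q) := by
    have a1 := mul_le_mul_of_nonneg_left ((h1 z).trans (mul_le_mul_of_nonneg_left z4 hc))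
      (mul_pos hγ hγ).le
    have a2 := h1 q
    refine le_of_mul_le_mul_left ?_ hγ
    have : γ * (c / γ * (q ⬝ᵥ q)) = c * (q ⬝ᵥ q) := by field_simp
    nlinarith
  linarith

/-- the one-field inequality -/
theorem ds_one (hn : 0 < n) (hu : ∀ x, 0 < u x) (hT : 0 < T) (hη : 0 < η) (hγ : 0 < γ) (hP : Pᵀ = P)
    (hPP : P * P = P) (hP' : P'ᵀ = P') (hPP' : P' * P = P) (he : opn (P' * (Ab u T - α • 1) * P) ≤ e)
    {κ : Type*} [Fintype κ] (g : κ → Cube n → ℝ) (X : κ → Fin n → ℝ) :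
    α * dd (mv P X) (mv P X) ≤ 2 * T * (1 + η) * ∑ k, dir u (g k) +
      (1 + η⁻¹) * ∑ k, var u (fun x => g k x - X k ⬝ᵥ sv x) + (3 * e + 2 * T * γ) * dd X X +
        2 * T / γ * dd (mv (1 - P') X) (mv (1 - P') X) := by
  simp only [dd, mv, Finset.mul_sum, ← Finset.sum_add_distrib]
  refine Finset.sum_le_sum fun k _ => ?_
  have h1 := quad_lower (Ab_transpose u T) (Ab_nonneg hn hu hT.le) (Ab_le hn hu hT.le) hP hPP hP' hPP'
    he (by positivity) hγ (X k)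
  have h2 := Ab_le_dir_add hn hu hT hη (g k) (X k)
  linarith

/-- averaging the pointwise bound over the starting point -/
theorem opn_Ab_le (hu : Wt u) (T α : ℝ) (P P' : Matrix (Fin n) (Fin n) ℝ) :
    opn (P' * (Ab u T - α • 1) * P) ≤ mean u fun x => opn (P' * (Am u T x - α • 1) * P) := by
  have e : P' * (Ab u T - α • 1) * P = ∑ x, prob u x • (P' * (Am u T x - α • 1) * P) := by
    have : Ab u T - α • 1 = ∑ x, prob u x • (Am u T x - α • 1) := by
      simp only [Ab_eq_sum, smul_sub, Finset.sum_sub_distrib, ← Finset.sum_smul, hu.sum_prob, one_smul]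
    simp only [this, Matrix.mul_sum, Matrix.sum_mul, Matrix.mul_smul, Matrix.smul_mul]
  rw [e]
  refine (opn_sum_le _ _).trans_eq (Finset.sum_congr rfl fun x _ => ?_)
  rw [opn_smul, abs_of_nonneg (hu.prob_nonneg x)]

/-! ### the variance left by the linearisation at `r Cov_r (g, φ)` -/

section
variable {Ω : Type*} [Fintype Ω] {ι : Type} [Fintype ι] [DecidableEq ι] {κ : Type*} [Fintype κ]
  {φ : Ω → ι → ℝ} {w : Ω → ℝ} {ε : ℝ → ℝ} {g : κ → Ω → ℝ} {b r t β : ℝ}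

theorem var_sub_lin (w f : Ω → ℝ) (φ : Ω → ι → ℝ) (a : ι → ℝ) : var w (fun x => f x - a ⬝ᵥ φ x) =
    var w f - 2 * (a ⬝ᵥ covV w f φ) + a ⬝ᵥ covMat w φ *ᵥ a := by
  rw [var_eq_cov, cov_sub, cov_comm, cov_sub, cov_comm _ (fun x => f x - _), cov_sub, covV_dot,
    covMat_quad, var_eq_cov, cov_comm w f fun x => a ⬝ᵥ φ x]
  ring

theorem var_lin_pt (hw : Wt w) {q : Pt ι} (hq : 0 < q.1) (h0 : 0 ≤ ε q.1)
    (hb : ∀ x, ∑ a, g a x ^ 2 ≤ b ^ 2) :
    q.1 * ∑ k, var (pw φ w q) (fun x => g k x - (q.1 • Vg φ w g q) k ⬝ᵥ φ x) ≤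
      q.1 * ∑ k, var (pw φ w q) (g k) - (1 - ε q.1) * (q.1 ^ 2 * dd (Vg φ w g q) (Vg φ w g q)) +
        b ^ 2 * (q.1 * ((1 - ig φ w ε q) * (1 + nx φ w q) ^ 3)) := by
  have e : q.1 * ∑ k, var (pw φ w q) (fun x => g k x - (q.1 • Vg φ w g q) k ⬝ᵥ φ x) =
      q.1 * ∑ k, var (pw φ w q) (g k) - 2 * (q.1 ^ 2 * dd (Vg φ w g q) (Vg φ w g q)) +
        q.1 ^ 2 * dd (Vg φ w g q) (mv (Xp φ w q) (Vg φ w g q)) := by
    simp only [var_sub_lin]
    simp only [dd, mv, Finset.mul_sum, ← Finset.sum_sub_distrib, ← Finset.sum_add_distrib,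
      Xp, Pi.smul_apply, smul_dotProduct, mulVec_smul, smul_mulVec, dotProduct_smul, smul_eq_mul, Vg, vv]
    exact Finset.sum_congr rfl fun k _ => by ring
  have h1 : dd (Vg φ w g q) (mv (Xp φ w q) (Vg φ w g q)) ≤ nx φ w q * dd (Vg φ w g q) (Vg φ w g q) := by
    rw [dd, dd, Finset.mul_sum]
    exact Finset.sum_le_sum fun a _ => quad_X_le _
  have h2 := dd_Vg_le (φ := φ) hw hq hb
  have h3 := dd_self_nonneg (Vg φ w g q)
  have n0 := nx_nonneg (φ := φ) (w := w) q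
  have h4 := mul_le_mul_of_nonneg_left h1 (sq_nonneg q.1)
  rw [e]
  rcases ig_cases (φ := φ) (w := w) (ε := ε) q with h | h
  · have := mul_le_mul_of_nonneg_right h.1 (mul_nonneg (sq_nonneg q.1) h3)
    rw [h.2]; nlinarith
  · have a1 : nx φ w q * nx φ w q ≤ (1 + nx φ w q) ^ 3 := by nlinarith [mul_nonneg n0 (mul_nonneg n0 n0)]
    have a2 := mul_le_mul_of_nonneg_left h2 (mul_nonneg hq.le n0)
    have a3 := mul_le_mul_of_nonneg_left a1 (mul_nonneg (sq_nonneg b) hq.le)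
    have a4 := mul_nonneg (add_nonneg zero_le_one h0) (mul_nonneg (sq_nonneg q.1) h3)
    rw [h.2]; nlinarith

theorem mg_var_lin (hw : Wt w) (g : κ → Ω → ℝ) (r : ℝ) : MG fun y =>
    ∑ k, var (pw φ w (r, y)) fun x => g k x - (r • Vg φ w g (r, y)) k ⬝ᵥ φ x := by
  have m : ∀ k i, MG fun y => (r • Vg φ w g (r, y)) k i := fun k i => (mg_vv hw (g k) r i).const_mul r
  simp only [var_sub_lin]
  exact .sum _ fun k _ => ((mg_pvar hw r _).sub ((mg_dot (m k) fun i => mg_pcov hw r _ _).const_mul 2)).add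
    (mg_dot (m k) (fun i => mg_dot (U := fun y => covMat (pw φ w (r, y)) φ i)
      (fun j => mg_pcov hw r _ _) (m k)))

/-- `∑ₖ E Var_r gₖ` -/
def Vr (φ : Ω → ι → ℝ) (w : Ω → ℝ) (g : κ → Ω → ℝ) (r : ℝ) : ℝ :=
  ∑ k, ex φ w (fun q => var (pw φ w q) (g k)) r

theorem psi_eq_sum (hw : Wt w) (g : κ → Ω → ℝ) (r : ℝ) : psi φ w g r =
    ∑ k, ex φ w (fun p => covV (pw φ w p) (g k) φ ⬝ᵥ covV (pw φ w p) (g k) φ) r :=
  ex_sum _ fun k _ => (eg_covV_dot (I := univ) hw (g k) (g k)).mg (mem_univ r)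

theorem Vr_le (hw : Wt w) (hr : 0 < r) (hrt : r ≤ t) (hβ : ∀ s ∈ Icc r t, s ^ 2 * psi φ w g s ≤ β) :
    r * Vr φ w g r ≤ r * Vr φ w g t + β := by
  have c := fun k : κ => (eg_covV_dot (φ := φ) (I := Icc r t) hw (g k) (g k)).continuousOn_ex (φ := φ) (v := w)
  have β0 : 0 ≤ β := (mul_nonneg (sq_nonneg r) (psi_nonneg hw r)).trans (hβ r ⟨le_rfl, hrt⟩)
  have e : Vr φ w g r = Vr φ w g t + ∫ s in r..t, psi φ w g s := by
    simp only [Vr, var_eq_cov, ex_cov_sub hw _ _ hr.le hrt, Finset.sum_add_distrib, psi_eq_sum hw]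
    rw [intervalIntegral.integral_finset_sum fun k _ => (c k).intervalIntegrable_of_Icc hrt]
  have d : ∀ s ∈ uIcc r t, HasDerivAt (fun s => -β * s⁻¹) (β / s ^ 2) s := fun s hs => by
    rw [uIcc_of_le hrt] at hs
    exact ((hasDerivAt_inv (hr.trans_le hs.1).ne').const_mul (-β)).congr_deriv (by ring)
  have c2 : ContinuousOn (fun s => β / s ^ 2) (Icc r t) :=
    continuousOn_const.div (continuousOn_id.pow 2) fun s hs => (pow_pos (hr.trans_le hs.1) 2).ne'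
  have h1 : ∫ s in r..t, psi φ w g s ≤ ∫ s in r..t, β / s ^ 2 :=
    intervalIntegral.integral_mono_on hrt
      ((eg_dd_Vg (I := Icc r t) hw g).continuousOn_ex.intervalIntegrable_of_Icc hrt)
      (c2.intervalIntegrable_of_Icc hrt) fun s hs => by
        rw [le_div_iff₀ (pow_pos (hr.trans_le hs.1) 2), mul_comm]; exact hβ s hs
  rw [intervalIntegral.integral_eq_sub_of_hasDerivAt d (c2.intervalIntegrable_of_Icc hrt)] at h1
  have h2 := mul_le_mul_of_nonneg_left h1 hr.le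
  have h3 : r * (-β * t⁻¹ - -β * r⁻¹) = β - r * β * t⁻¹ := by field_simp; ring
  have h4 : 0 ≤ r * β * t⁻¹ := by have := hr.trans_le hrt; positivity
  rw [e, mul_add]
  linarith

theorem ex_var_lin_le (hw : Wt w) (hr : 0 < r) (hrt : r ≤ t) (h0 : 0 ≤ ε r)
    (hb : ∀ x, ∑ a, g a x ^ 2 ≤ b ^ 2) (hβ : ∀ s ∈ Icc r t, s ^ 2 * psi φ w g s ≤ β) :
    r * ex φ w (fun q => ∑ k, var (pw φ w q) fun x => g k x - (q.1 • Vg φ w g q) k ⬝ᵥ φ x) r ≤
      r * Vr φ w g t + β - (1 - ε r) * (r ^ 2 * psi φ w g r) + b ^ 2 * (r * pb φ w ε 3 r) := by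
  have m1 : MG fun y => ∑ k, var (pw φ w (r, y)) (g k) := .sum _ fun k _ => mg_pvar hw r _
  have m2 := mg_dd_Vg (φ := φ) hw g r
  have m3 := mg_pb (φ := φ) hw ε 3 r
  have h1 := ex_mono (φ := φ) (t := r) hw
    (G := fun q => r * ∑ k, var (pw φ w q) fun x => g k x - (q.1 • Vg φ w g q) k ⬝ᵥ φ x)
    (H := fun q => r * ∑ k, var (pw φ w q) (g k) - (1 - ε r) * (r ^ 2 * dd (Vg φ w g q) (Vg φ w g q)) +
      b ^ 2 * (r * ((1 - ig φ w ε q) * (1 + nx φ w q) ^ 3))) ((mg_var_lin hw g r).const_mul r)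
    (((m1.const_mul _).sub ((m2.const_mul _).const_mul _)).add ((m3.const_mul _).const_mul _))
    fun y => var_lin_pt (q := (r, y)) hw hr h0 hb
  rw [ex_const_mul, ex_add ((m1.const_mul _).sub ((m2.const_mul _).const_mul _))
    ((m3.const_mul _).const_mul _), ex_sub (m1.const_mul _) ((m2.const_mul _).const_mul _),
    ex_const_mul, ex_const_mul, ex_const_mul, ex_const_mul, ex_const_mul,
    ex_sum (G := fun k q => var (pw φ w q) (g k)) _ fun k _ => mg_pvar hw r _] at h1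
  have h2 := Vr_le hw hr hrt hβ
  change _ ≤ r * Vr φ w g r - (1 - ε r) * (r ^ 2 * psi φ w g r) + b ^ 2 * (r * pb φ w ε 3 r) at h1
  linarith

end

end Crest.Agent.T157.Rec

end
end

-- ▼ part T157/DsB_77
section

/-!
# Row 157, part C (helper77): the lower bound `D*` at fixed `n`
-/

set_option autoImplicit false
set_option linter.unusedSectionVars false

noncomputable section

namespace Crest.Agent.T157.Rec

open MeasureTheory ProbabilityTheory Filter Topology Set Real Matrix Function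
open Crest.Agent.T157.E Crest.Agent.T157.SL Crest.Agent.T157.Eig Crest.Agent.T157.Tr
open Crest.Agent.T157.Pa

section
variable {Ω : Type*} [Fintype Ω] {ι : Type} [Fintype ι] [DecidableEq ι] {κ : Type*} [Fintype κ]
  {φ : Ω → ι → ℝ} {w : Ω → ℝ} {ε p : ℝ → ℝ} {g : κ → Ω → ℝ} {b s r t ρ e M θ o Z Δ L : ℝ}
  {P : Matrix ι ι ℝ}

theorem dd_three (A B C : κ → ι → ℝ) :
    dd (A + B + C) (A + B + C) ≤ 3 * dd A A + 3 * dd B B + 3 * dd C C := by
  simp only [dd, dotProduct, Finset.mul_sum, ← Finset.sum_add_distrib, Pi.add_apply]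
  refine Finset.sum_le_sum fun a _ => Finset.sum_le_sum fun i _ => ?_
  nlinarith [sq_nonneg (A a i - B a i), sq_nonneg (A a i - C a i), sq_nonneg (B a i - C a i)]

theorem dd_mv_le_one (hP : opn P ≤ 1) (U : κ → ι → ℝ) : dd (mv P U) (mv P U) ≤ dd U U :=
  (dd_mv_le U P).trans (mul_le_of_le_one_left (dd_self_nonneg _) (pow_le_one₀ (opn_nonneg _) hP))

theorem mg_smul_Vg (hw : Wt w) (g : κ → Ω → ℝ) (r : ℝ) (k : κ) (i : ι) :
    MG fun y => (r • Vg φ w g (r, y)) k i := (mg_vv hw (g k) r i).const_mul r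

theorem mg_dd_mv (hw : Wt w) (g : κ → Ω → ℝ) (r : ℝ) (P : Matrix ι ι ℝ) :
    MG fun y => dd (mv P (r • Vg φ w g (r, y))) (mv P (r • Vg φ w g (r, y))) :=
  .sum _ fun k _ => mg_dot (mg_mulVec P (mg_smul_Vg hw g r k)) (mg_mulVec P (mg_smul_Vg hw g r k))

/-- over a block without drop, `r Cov_r (g, φ)` lives on the modes which are soft at the beginning
of the block -/
theorem soft_le (hw : Wt w) (h : HA φ w ε p s r ρ) (he : ∀ u ∈ Icc s r, ε u ≤ e)
    (hi : ∫ u in s..r, ε u / u ≤ e) (e0 : 0 < e) (he4 : e ≤ 1 / 4) (hM : 1 < M) (hMs : M * s ≤ r)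
    (hb0 : 0 ≤ b) (hb : ∀ x, ∑ a, g a x ^ 2 ≤ b ^ 2) (hP : opn (1 - P) ≤ 1)
    (hH : ∀ u ∈ Icc s (M * s), (law φ w u).real (BH φ w P θ u) ≤ o)
    (hZ : s ^ 2 * psi φ w g s ≤ Z) (hΔ : r ^ 2 * psi φ w g r ≤ s ^ 2 * psi φ w g s + Δ) (L0 : 0 ≤ L)
    {B : Set (ι → ℝ)} (hB : MeasurableSet B)
    (hL : ∀ y ∉ B, dd (r • Vg φ w g (r, y)) (r • Vg φ w g (r, y)) ≤ L) :
    ex φ w (fun q => Bᶜ.indicator (fun _ => (1 : ℝ)) q.2 *
      dd (mv (1 - P) (r • Vg φ w g q)) (mv (1 - P) (r • Vg φ w g q))) r ≤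
      3 * Δ + (93 * e + 12 * θ ^ 2 + 18 / log M) * Z + 34 * (b * ρ) ^ 2 / e + L * o := by
  obtain ⟨W⟩ := BM.nonempty ι
  have hs := h.pos
  have hsM : s < M * s := by nlinarith
  have hst : s ≤ r := hsM.le.trans hMs
  have ht0 : 0 < r := hs.trans_le hst
  have hLM : 0 < log M := log_pos hM
  have hQ := BM.nice_sl (W := W) (φ := φ) hw ht0.le
  have hH0 := tv_H0 (W := W) (φ := φ) (ε := ε) (g := g) hw hs.le
  have ρ0 := h.ρ0
  have hpt : ∀ u ∈ Icc s r, ∀ ω, dd (TW W φ w ε s (H0 W φ w ε g s) u ω)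
      (TW W φ w ε s (H0 W φ w ε g s) u ω) ≤ s * (4 * b ^ 2) := fun u hu ω => by
    have k1 := h.TW_le hw hH0 le_rfl hu.1 hu.2 ω
    rw [HA.TW_start] at k1
    have k2 := h.growth hi he4 le_rfl hu.1 hu.2
    have k3 := dd_H0_le (W := W) (φ := φ) (ε := ε) hw hs (h.ε0 s ⟨le_rfl, hst⟩) hb ω
    have k4 : s * (1 + ε s) * b ^ 2 ≤ s * 2 * b ^ 2 := by
      have := he s ⟨le_rfl, hst⟩
      gcongr; linarith
    refine k1.trans ((mul_le_mul (show _ ≤ (2 : ℝ) by linarith) (k3.trans k4) (dd_self_nonneg _)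
      zero_le_two).trans_eq (by ring))
  obtain ⟨u, hr, hq⟩ := h.pigeon hw hi he4 hM hMs hQ hH0
  have hr2 : u ≤ r := hr.2.trans hMs
  have hr0 : 0 < u := hs.trans_le hr.1
  have hU := h.tv_TW hw hH0 ⟨hr.1, hr2⟩
  have hW := h.tv_TW hw hH0 ⟨hst, le_rfl⟩
  have hV := (tv_Vg (W := W) (φ := φ) hw ht0.le g).smul (BM.Tm.const r)
  have f1 := h.align hw le_rfl hH0 hr.1 hr2 (by positivity) hpt
  have f2 := h.II_TW_le hw hQ hH0 le_rfl hr.1 hr2
  have f2' := h.II_TW_le hw hQ hH0 le_rfl hst le_rfl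
  have f3 := h.II_TW_le hw hQ hH0 hr.1 hr2 le_rfl
  have f4 := h.growth hi he4 le_rfl hr.1 hr2
  have f4' := h.growth hi he4 le_rfl hst le_rfl
  have f5 := h.growth hi he4 hr.1 hr2 le_rfl
  have f8 := h.cons_le hw hst le_rfl hH0 hb0 hb
  have f9 := psi_le_H0 (W := W) (φ := φ) (ε := ε) hw hs hst hb
  have f10 := II_H0_le (W := W) (φ := φ) (ε := ε) (g := g) hw hs.le hst
  have hYU := (hU.mono hr2).mv (tm_Y (φ := φ) (ε := ε) hw ht0.le)
  have hYu := hU.mv (tm_Y (φ := φ) (ε := ε) hw hr0.le)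
  have f15 := int_le3 (a := 2 * (1 + e)) (b := 2 * (1 + e)) (c := -4)
    ((((hW.sub (hU.mono hr2)).dd (hW.sub (hU.mono hr2))).int hQ).const_mul (1 + e))
    ((hW.dd hW).int hQ) ((hU.dd hU).int hQ) ((hW.dd hYU).int hQ) fun ω =>
      (al_dd (Yp_transpose (φ := φ) (w := w) (ε := ε) (r, W.B r ω)) (quad_Y_nonneg hw ht0.le)
        (fun u => (quad_Y_le (h.ε0 r ⟨hst, le_rfl⟩) u).trans (mul_le_mul_of_nonneg_right
          (by have := he r ⟨hst, le_rfl⟩; simp only; linarith) (SL.dot_self_nonneg u))) _ _).trans_eq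
        (by ring)
  rw [integral_const_mul] at f15
  rw [HA.TW_start] at f2 f2'
  rw [II_H0] at f8
  have er0 := h.ε0 u ⟨hr.1, hr2⟩
  have er1 := he u ⟨hr.1, hr2⟩
  have hps : s * pb φ w ε 3 s ≤ ρ ^ 2 :=
    (mul_le_mul_of_nonneg_left (h.le s ⟨le_rfl, hst⟩) hs.le).trans (h.sup s ⟨le_rfl, hst⟩)
  have G2 : exp (∫ u in s..r, ε u / u) ≤ 2 :=
    (exp_le_one_add (h.eps_nonneg le_rfl hst le_rfl) (by linarith)).trans (by linarith)
  have N0 := TV.nonneg (Q := W.Qsl φ w r) (TW W φ w ε s (H0 W φ w ε g s) u)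
  have A0 := TV.nonneg (Q := W.Qsl φ w r) (H0 W φ w ε g s)
  have hN := f2.trans (mul_le_mul_of_nonneg_right f4 A0)
  have hNr := f2'.trans (mul_le_mul_of_nonneg_right f4' A0)
  have hN2 := hN.trans (mul_le_mul_of_nonneg_right (show 1 + 4 * e ≤ 2 by linarith) A0)
  have hN' := f3.trans (mul_le_mul_of_nonneg_right f5 N0)
  have AL0 := div_nonneg A0 hLM.le
  have hD1 := arith1 (c := b ^ 2 * ρ ^ 2) e0.le er0 N0 AL0 (by positivity) hq
    (f1.trans (add_le_add le_rfl (show 2 * (4 * b ^ 2) * ρ ^ 2 ≤ 8 * (b ^ 2 * ρ ^ 2) by linarith)))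
    hN' hN2 f15
  have i1 := ((hV.sub hW).dd (hV.sub hW)).int hQ
  have i2 := ((hW.sub (hU.mono hr2)).dd (hW.sub (hU.mono hr2))).int hQ
  have i3 := (hU.dd hU).int hQ
  have i4 := (hU.dd hYu).int hQ
  have i5 := (W.tm_mg hr0.le (mg_ind (meas_BH (φ := φ) hw P θ u))).int hQ
  have m0 := (mg_ind hB.compl).mul (mg_dd_mv (φ := φ) hw g r (1 - P))
  have g1 := int_le3 (a := 3) (b := 3) (c := 1) ((W.tm_mg ht0.le m0).int hQ) i1 i2
    (((i3.const_mul (6 * (e ^ 2 + θ ^ 2 + (1 + ε u)))).sub (i4.const_mul 6)).add (i5.const_mul L))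
    fun ω => by
      set U := TW W φ w ε s (H0 W φ w ε g s) u ω with hUd
      set V := TW W φ w ε s (H0 W φ w ε g s) r ω with hVd
      set a := r • Vg φ w g (r, W.B r ω) with ha
      set Y := Yp φ w ε (u, W.B u ω) with hY
      have U0 := dd_self_nonneg U
      have c1 := dd_self_nonneg (a - V)
      have c2 := dd_self_nonneg (V - U)
      have c3 := dd_Y_le (φ := φ) (w := w) (ε := ε) (q := (u, W.B u ω)) er0 U
      have c4 := mul_nonneg (add_nonneg (sq_nonneg e) (sq_nonneg θ)) U0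
      simp only [← hY] at c3
      simp only [Pi.add_apply, Pi.sub_apply]
      rcases ind_cases (BH φ w P θ u) (W.B u ω) with k | k
      · rw [k.2]
        rcases ind_cases Bᶜ (W.B r ω) with j | j
        · have := (dd_mv_le_one hP a).trans (hL _ j.1)
          rw [j.2]; linarith
        · rw [j.2]; linarith
      · rw [k.2]
        have e1 : mv (1 - P) a = mv (1 - P) (a - V) + mv (1 - P) (V - U) + mv (1 - P) U := by
          rw [mv_sub, mv_sub]; abel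
        have e2 : mv (1 - P) U = mv (1 - P) (U - mv Y U) + mv (1 - P) (mv Y U) := by
          rw [mv_sub, sub_add_cancel]
        have b0 := dd_three (mv (1 - P) (a - V)) (mv (1 - P) (V - U)) (mv (1 - P) U)
        have b1 := dd_add_le (mv (1 - P) (U - mv Y U)) (mv (1 - P) (mv Y U))
        have b2 := dd_mv_le_one hP (U - mv Y U)
        have b3 := dd_sub_Y_le (φ := φ) (ε := ε) (q := (u, W.B u ω)) hw hr0 er0 U
        have b4 : dd (mv (1 - P) (mv Y U)) (mv (1 - P) (mv Y U)) ≤ θ ^ 2 * dd U U := by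
          rw [← mv_mul]
          refine (dd_mv_le _ _).trans (mul_le_mul_of_nonneg_right ?_ U0)
          have k1 : opn ((1 - P) * Xp φ w (u, W.B u ω)) ≤ θ := not_lt.1 k.1
          refine pow_le_pow_left₀ (opn_nonneg _) ?_ 2
          rw [hY, Yp, Matrix.mul_smul, opn_smul, abs_of_nonneg (ig_nonneg _)]
          exact (mul_le_of_le_one_left (opn_nonneg _) (ig_le_one _)).trans k1
        have b5 := dd_mv_le_one hP (a - V)
        have b6 := dd_mv_le_one hP (V - U)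
        have b7 := mul_le_mul_of_nonneg_right (pow_le_pow_left₀ er0 er1 2) U0
        have b8 := dd_self_nonneg (mv (1 - P) a)
        rw [← e1] at b0
        rw [← e2] at b1
        simp only [← hY] at b3
        rcases ind_cases Bᶜ (W.B r ω) with j | j <;> rw [j.2] <;> linarith
  have g2 : ∫ ω, dd (r • Vg φ w g (r, W.B r ω) - TW W φ w ε s (H0 W φ w ε g s) r ω)
      (r • Vg φ w g (r, W.B r ω) - TW W φ w ε s (H0 W φ w ε g s) r ω) ∂W.Qsl φ w r =
      r ^ 2 * psi φ w g r - 2 * II (W.Qsl φ w r) (TW W φ w ε s (H0 W φ w ε g s) r)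
        (fun ω => r • Vg φ w g (r, W.B r ω)) + II (W.Qsl φ w r) (TW W φ w ε s (H0 W φ w ε g s) r)
          (TW W φ w ε s (H0 W φ w ε g s) r) := by
    have j1 := integral_add (((hV.dd hV).int hQ).sub (((hW.dd hV).int hQ).const_mul 2))
      ((hW.dd hW).int hQ)
    simp only [Pi.sub_apply] at j1
    rw [← II_Vg (W := W) hw ⟨ht0.le, le_rfl⟩, II, II, II, ← integral_const_mul,
      ← integral_sub ((hV.dd hV).int hQ) (((hW.dd hV).int hQ).const_mul 2), ← j1]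
    congr 1; ext ω
    rw [dd_sub_left, dd_sub_right, dd_sub_right, dd_comm (r • _) (TW _ _ _ _ _ _ _ _)]
    ring
  have j2 := integral_add ((i3.const_mul (6 * (e ^ 2 + θ ^ 2 + (1 + ε u)))).sub (i4.const_mul 6))
    (i5.const_mul L)
  simp only [Pi.add_apply, Pi.sub_apply] at g1 j2
  rw [j2, integral_sub (i3.const_mul _) (i4.const_mul 6), integral_const_mul, integral_const_mul,
    integral_const_mul, int_ind hw ⟨hr0.le, hr2⟩ (meas_BH hw P θ u), g2,
    BM.int_sl hw ⟨ht0.le, le_rfl⟩ m0] at g1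
  refine g1.trans ?_
  have k1 := mul_le_mul_of_nonneg_left (hH u hr) L0
  set A := II (W.Qsl φ w r) (H0 W φ w ε g s) (H0 W φ w ε g s) with hA
  have hAZ : A ≤ Z := f10.trans hZ
  have k2 : 2 * (exp (∫ u in s..r, ε u / u) * √A * b * ρ) ≤ 2 * e * A + 2 * (b * ρ) ^ 2 / e := by
    have a1 : exp (∫ u in s..r, ε u / u) * √A * b * ρ ≤ 2 * (√A * (b * ρ)) := by
      rw [mul_assoc, mul_assoc, ← mul_assoc (√A)]
      rw [mul_assoc (√A)]
      exact mul_le_mul_of_nonneg_right G2 (by positivity)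
    have a2 : 2 * (√A * (b * ρ)) ≤ e * A + (b * ρ) ^ 2 / e := by
      have a3 := div_nonneg (sq_nonneg (e * √A - b * ρ)) e0.le
      have a4 : (e * √A - b * ρ) ^ 2 / e = e * √A ^ 2 + (b * ρ) ^ 2 / e - 2 * (√A * (b * ρ)) := by
        field_simp; ring
      rw [a4, sq_sqrt A0] at a3
      linarith
    rw [mul_div_assoc]
    linarith
  have k3 := mul_le_mul_of_nonneg_left hps (sq_nonneg b)
  have k4 := mul_le_mul_of_nonneg_left hN2 (add_nonneg (sq_nonneg e) (sq_nonneg θ))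
  have k5 : 111 * (b ^ 2 * ρ ^ 2) ≤ 28 * (b * ρ) ^ 2 / e := by
    rw [le_div_iff₀ e0, mul_pow]
    nlinarith [mul_nonneg (sq_nonneg b) (sq_nonneg ρ)]
  have k6 : (90 * e + 12 * (e ^ 2 + θ ^ 2)) * A + 18 * (A / log M) ≤
      (93 * e + 12 * θ ^ 2 + 18 / log M) * Z := by
    have a1 : (90 * e + 12 * (e ^ 2 + θ ^ 2)) * A + 18 * (A / log M) ≤
        (93 * e + 12 * θ ^ 2 + 18 / log M) * A := by
      have := mul_le_mul_of_nonneg_right (show 12 * e ^ 2 ≤ 3 * e by nlinarith) A0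
      rw [add_mul (93 * e + 12 * θ ^ 2), div_mul_eq_mul_div, mul_div_assoc]
      linarith
    exact a1.trans (mul_le_mul_of_nonneg_left hAZ (by positivity))
  have k7 : 34 * (b * ρ) ^ 2 / e = 28 * (b * ρ) ^ 2 / e + 3 * (2 * (b * ρ) ^ 2 / e) := by ring
  unfold II at *
  linarith

/-- almost monotonicity in squared form -/
theorem crude_sq (hw : Wt w) (h : HA φ w ε p s t ρ) (hst : s ≤ t) (hi : ∫ u in s..t, ε u / u ≤ e)
    (e0 : 0 < e) (he4 : e ≤ 1 / 4) (hb0 : 0 ≤ b) (hb : ∀ x, ∑ a, g a x ^ 2 ≤ b ^ 2) :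
    s ^ 2 * psi φ w g s ≤ (1 + 6 * e) * (t ^ 2 * psi φ w g t) + 12 * (b * ρ) ^ 2 / e := by
  have h1 := h.crude hw hst hb0 hb
  have h2 := h.growth hi he4 le_rfl hst le_rfl
  have G2 : exp (∫ u in s..t, ε u / u) ≤ 2 :=
    (exp_le_one_add (h.eps_nonneg le_rfl hst le_rfl) (by linarith)).trans (by linarith)
  rw [two_mul, exp_add] at h2
  set G := exp (∫ u in s..t, ε u / u)
  have G0 : 0 ≤ G := (exp_pos _).le
  have a0 : 0 ≤ t ^ 2 * psi φ w g t := mul_nonneg (sq_nonneg t) (psi_nonneg hw t)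
  have ρ0 := mul_nonneg hb0 h.ρ0
  have h3 := (sqrt_le_iff.1 h1).2
  have h4 := add_sq_le e0 (G * √(t ^ 2 * psi φ w g t)) ((G + 1) * (b * ρ))
  rw [mul_pow, sq_sqrt a0, mul_pow] at h4
  have h5 : (1 + e) * (G ^ 2 * (t ^ 2 * psi φ w g t)) ≤ (1 + 6 * e) * (t ^ 2 * psi φ w g t) := by
    rw [← mul_assoc]
    exact mul_le_mul_of_nonneg_right (by nlinarith) a0
  have h6 : (1 + e⁻¹) * ((G + 1) ^ 2 * (b * ρ) ^ 2) ≤ 12 * (b * ρ) ^ 2 / e := by
    rw [← mul_assoc, div_eq_mul_inv, mul_right_comm 12]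
    refine mul_le_mul_of_nonneg_right ?_ (sq_nonneg _)
    have a1 : 4 ≤ e⁻¹ := by rw [le_inv_comm₀ (by norm_num) e0]; linarith
    nlinarith [mul_le_mul_of_nonneg_left (show (G + 1) ^ 2 ≤ 9 by nlinarith)
      (show 0 ≤ 1 + e⁻¹ by positivity)]
  refine h3.trans ((le_of_eq (by ring)).trans (h4.trans (add_le_add h5 h6)))

theorem exists_block (a : ℕ → ℝ) {J : ℕ} (hJ : 0 < J) (h0 : 0 ≤ a 0) (hZ : a J ≤ Z) :
    ∃ j < J, a (j + 1) ≤ a j + Z / J := by
  by_contra hc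
  push Not at hc
  have hJ' : (0 : ℝ) < J := by exact_mod_cast hJ
  have h1 : ∑ j ∈ Finset.range J, Z / J < ∑ j ∈ Finset.range J, (a (j + 1) - a j) :=
    Finset.sum_lt_sum_of_nonempty ⟨0, Finset.mem_range.2 hJ⟩ fun j hj => by
      have := hc j (Finset.mem_range.1 hj); linarith
  rw [Finset.sum_range_sub, Finset.sum_const, Finset.card_range, nsmul_eq_mul,
    mul_div_cancel₀ _ hJ'.ne'] at h1
  linarith

theorem law_lt_le (hw : Wt w) {F : (ι → ℝ) → ℝ} (hF : MG F) (F0 : ∀ y, 0 ≤ F y) {c : ℝ} (hc : 0 < c) :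
    (law φ w r).real {y | c < F y} ≤ (slE φ w r fun _ => F) / c := by
  have := isProb_law (φ := φ) (s := r) hw
  rw [← integral_law hw hF.meas (.of_mg fun _ => hF), le_div_iff₀ hc, mul_comm]
  exact (mul_le_mul_of_nonneg_left (measureReal_mono (fun y (hy : c < F y) => hy.le)) hc.le).trans
    (mul_meas_ge_le_integral_of_nonneg (.of_forall F0) hF.int_law c)

end

variable {n : ℕ} {κ : Type*} [Fintype κ] {w : Cube n → ℝ} {ε p : ℝ → ℝ} {g : κ → Cube n → ℝ}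
  {b s r t ρ e M θ o Z Δ L T α e2 ζ η γ : ℝ} {P P' : Matrix (Fin n) (Fin n) ℝ}

theorem mg_opn {ι κ : Type*} [Fintype ι] [DecidableEq ι] [Fintype κ] [DecidableEq κ]
    {A : (ι → ℝ) → Matrix κ κ ℝ} (h : ∀ i j, MG fun y => A y i j) : MG fun y => opn (A y) := by
  refine (MG.sum Finset.univ fun i _ => MG.sum Finset.univ fun j _ => (h i j).abs).of_le
    (measurable_opn fun i j => (h i j).meas) fun y => ?_
  rw [abs_of_nonneg (opn_nonneg _)]
  refine (opn_le_sqrt_frob _).trans ((sqrt_le_iff.2 ⟨by positivity, ?_⟩).trans (le_abs_self _))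
  rw [← Finset.sum_product', ← Finset.sum_product']
  simpa only [sq_abs] using Finset.sum_sq_le_sq_sum_of_nonneg
    (f := fun q : κ × κ => |A y q.1 q.2|) fun _ _ => abs_nonneg _

theorem mg_sandwich {ι κ : Type*} [Fintype ι] [DecidableEq ι] [Fintype κ] [DecidableEq κ]
    {A : (ι → ℝ) → Matrix κ κ ℝ} (h : ∀ i j, MG fun y => A y i j) (P P' : Matrix κ κ ℝ) (α : ℝ) :
    MG fun y => opn (P' * (A y - α • 1) * P) :=
  mg_opn fun i j => MG.sum Finset.univ fun k _ => (MG.sum Finset.univ fun l _ =>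
    ((h l k).sub (.const ((α • (1 : Matrix κ κ ℝ)) l k))).const_mul (P' i l)).mul (.const (P k j))

/-- **`D*` on one block** -/
theorem ds_block (hn : 0 < n) (hw : ∀ x, 0 < w x) (h : HA sv w ε p s t ρ) (he : ∀ u ∈ Icc s t, ε u ≤ e)
    (hi : ∫ u in s..t, ε u / u ≤ e) (e0 : 0 < e) (he4 : e ≤ 1 / 4) (hM : 1 < M) (hMs : M * s ≤ r)
    (hrt : r ≤ t) (hb0 : 0 ≤ b) (hb : ∀ x, ∑ a, g a x ^ 2 ≤ b ^ 2) (hP : Pᵀ = P) (hPP : P * P = P)
    (hP' : P'ᵀ = P') (hPP' : P' * P = P) (hQ : opn (1 - P') ≤ 1)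
    (hH : ∀ u ∈ Icc s (M * s), (law sv w u).real (BH sv w P' θ u) ≤ o)
    (hZ : ∀ u ∈ Icc s t, u ^ 2 * psi sv w g u ≤ Z) (hV : t * Vr sv w g t ≤ Z)
    (hΔ : t ^ 2 * psi sv w g t ≤ s ^ 2 * psi sv w g s + Δ) (hT : 0 < T) (hη : 0 < η) (hγ : 0 < γ)
    (he2 : 0 < e2) (L0 : 0 < L)
    (hA : (slE sv w r fun x y => opn (P' * (Am (post sv w r y) T x - α • 1) * P)) ≤ ζ) :
    ∃ B : Set (Fin n → ℝ), MeasurableSet B ∧ (law sv w r).real B ≤ ζ / e2 + Z / L ∧
      α * ex sv w (fun q => Bᶜ.indicator (fun _ => (1 : ℝ)) q.2 *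
        dd (mv P (r • Vg sv w g q)) (mv P (r • Vg sv w g q))) r ≤
      2 * T * (1 + η) * ∑ k, dir w (g k) +
        (1 + η⁻¹) / r * (r / t * Z + Δ + 13 * e * Z + 25 * (b * ρ) ^ 2 / e) + (3 * e2 + 2 * T * γ) * Z +
        2 * T / γ * (3 * Δ + (111 * e + 12 * θ ^ 2 + 18 / log M) * Z + 70 * (b * ρ) ^ 2 / e + L * o) := by
  have hW := Wt.of_pos hw
  have hs := h.pos
  have hsr : s ≤ r := le_trans (by nlinarith) hMs
  have hr : 0 < r := hs.trans_le hsr
  have ht : 0 < t := hr.trans_le hrt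
  have hp := post_pos hw sv r
  have cr : ∀ u ∈ Icc s t, ∀ v ∈ Icc u t, u ^ 2 * psi sv w g u ≤
      v ^ 2 * psi sv w g v + (6 * e * Z + 12 * (b * ρ) ^ 2 / e) := fun u hu v hv => by
    have k1 := crude_sq hW (h.mono hu.1 hv.1 hv.2) hv.1
      ((h.eps_le le_rfl hu.1 hv.1 hv.2 le_rfl).trans hi) e0 he4 hb0 hb
    have k2 := mul_le_mul_of_nonneg_left (hZ v ⟨hu.1.trans hv.1, hv.2⟩) e0.le
    linarith
  set κ1 := 6 * e * Z + 12 * (b * ρ) ^ 2 / e with hκ
  have m1 := mg_sandwich (fun i j => mg_Ab (φ := sv) hn hw r hT.le i j) P P' α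
  have m2 := mg_dd_mv (φ := sv) hW g r 1
  have e1 : ∀ U : κ → Fin n → ℝ, mv 1 U = U := fun U => by ext; simp [mv]
  simp only [e1] at m2
  set B := {y | e2 < opn (P' * (Ab (post sv w r y) T - α • 1) * P)} ∪
    {y | L < dd (r • Vg sv w g (r, y)) (r • Vg sv w g (r, y))} with hB
  have mB : MeasurableSet B := (measurableSet_lt measurable_const m1.meas).union
    (measurableSet_lt measurable_const m2.meas)
  have e2' : (slE sv w r fun _ y => dd (r • Vg sv w g (r, y)) (r • Vg sv w g (r, y))) =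
      r ^ 2 * psi sv w g r := by
    simp only [dd_smul_left, dd_smul_right, ← mul_assoc, slE_const_mul, sq]; rfl
  refine ⟨B, mB, (measureReal_union_le _ _).trans (add_le_add
    ((law_lt_le hW m1 (fun _ => opn_nonneg _) he2).trans (div_le_div_of_nonneg_right ?_ he2.le))
    ((law_lt_le hW m2 (fun _ => dd_self_nonneg _) L0).trans (div_le_div_of_nonneg_right ?_ L0.le))), ?_⟩
  · have m3 := fun x => mg_sandwich (fun i j => mg_Am (φ := sv) hn hw r hT.le x i j) P P' α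
    refine le_trans ?_ hA
    rw [bayes hW hr.le (.of_mg m3)]
    exact slE_mono hW (.of_mg fun _ => m1) (.of_mg fun _ => mg_mean hW r m3) fun _ y =>
      opn_Ab_le (hW.post sv r y) T α P P'
  · exact e2'.trans_le (hZ r ⟨hsr, hrt⟩)
  have s1 := soft_le hW (h.mono le_rfl hsr hrt) (fun u hu => he u ⟨hu.1, hu.2.trans hrt⟩)
    ((h.eps_le le_rfl le_rfl hsr hrt le_rfl).trans hi) e0 he4 hM hMs hb0 hb hQ hH
    (hZ s ⟨le_rfl, hsr.trans hrt⟩) (Δ := Δ + κ1)
    (by have := cr r ⟨hsr, hrt⟩ t ⟨hrt, le_rfl⟩; linarith) L0.le mB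
    fun y hy => not_lt.1 fun k => hy (Or.inr k)
  have s2 := ex_var_lin_le (φ := sv) (ε := ε) (β := r ^ 2 * psi sv w g r + (Δ + 2 * κ1)) hW hr hrt
    (h.ε0 r ⟨hsr, hrt⟩) hb fun u hu => by
      have k1 := cr u ⟨hsr.trans hu.1, hu.2⟩ t ⟨hu.2, le_rfl⟩
      have k2 := cr s ⟨le_rfl, hsr.trans hrt⟩ r ⟨hsr, hrt⟩
      linarith
  have n1 := (mg_ind mB.compl).mul (mg_dd_mv (φ := sv) hW g r P)
  have n2 : MG fun y => ∑ k, dir (post sv w r y) (g k) :=
    .sum _ fun k _ => mg_dir (Ψ := fun x _ => g k x) hw fun _ => .const _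
  have n3 := mg_var_lin (φ := sv) hW g r
  have n4 := (mg_ind mB.compl).mul (mg_dd_mv (φ := sv) hW g r (1 - P'))
  have c0 : 0 ≤ 3 * e2 + 2 * T * γ := by positivity
  have s3 := slE_mono (φ := sv) (s := r) hW (.of_mg fun _ => n1.const_mul α)
    (.of_mg fun _ => (((n2.const_mul (2 * T * (1 + η))).add (n3.const_mul (1 + η⁻¹))).add
      (m2.const_mul (3 * e2 + 2 * T * γ))).add (n4.const_mul (2 * T / γ))) fun _ y => by
      rcases ind_cases Bᶜ y with j | j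
      · rw [j.2, one_mul, one_mul]
        exact ds_one hn (hp y) hT hη hγ hP hPP hP' hPP' (not_lt.1 fun k => j.1 (Or.inl k)) g _
      · rw [j.2, zero_mul, zero_mul, mul_zero, mul_zero, add_zero]
        have a1 := Finset.sum_nonneg fun k (_ : k ∈ Finset.univ) => Ent.dir_nonneg (hp y) (g k)
        have a2 := Finset.sum_nonneg fun k (_ : k ∈ Finset.univ) => (hW.post sv r y).var_nonneg
          fun x => g k x - (r • Vg sv w g (r, y)) k ⬝ᵥ sv x
        have a3 := dd_self_nonneg (r • Vg sv w g (r, y))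
        positivity
  rw [slE_add (.of_mg fun _ => ((n2.const_mul _).add (n3.const_mul _)).add (m2.const_mul _))
    (.of_mg fun _ => n4.const_mul _), slE_add (.of_mg fun _ => (n2.const_mul _).add (n3.const_mul _))
    (.of_mg fun _ => m2.const_mul _), slE_add (.of_mg fun _ => n2.const_mul _)
    (.of_mg fun _ => n3.const_mul _), slE_const_mul, slE_const_mul, slE_const_mul, slE_const_mul,
    slE_const_mul, e2', slE_sum _ fun k _ => .of_mg fun _ =>
      mg_dir (Ψ := fun x _ => g k x) hw fun _ => .const _] at s3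
  refine s3.trans (add_le_add (add_le_add (add_le_add (mul_le_mul_of_nonneg_left
    (Finset.sum_le_sum fun k _ => ex_dir_le hw hr.le (g k)) (by positivity)) ?_)
    (mul_le_mul_of_nonneg_left (hZ r ⟨hsr, hrt⟩) c0)) (mul_le_mul_of_nonneg_left (s1.trans ?_)
      (by positivity)))
  · rw [div_mul_eq_mul_div, mul_div_assoc]
    refine mul_le_mul_of_nonneg_left ?_ (by positivity)
    rw [le_div_iff₀ hr, mul_comm]
    refine s2.trans ?_
    have k1 : r * Vr sv w g t ≤ r / t * Z := by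
      rw [div_mul_eq_mul_div, mul_div_assoc]
      exact mul_le_mul_of_nonneg_left (by rwa [le_div_iff₀ ht, mul_comm]) hr.le
    have k2 := mul_le_mul (he r ⟨hsr, hrt⟩) (hZ r ⟨hsr, hrt⟩)
      (mul_nonneg (sq_nonneg r) (psi_nonneg hW r)) e0.le
    have k3 := mul_le_mul_of_nonneg_left ((mul_le_mul_of_nonneg_left (h.le r ⟨hsr, hrt⟩) hr.le).trans
      (h.sup r ⟨hsr, hrt⟩)) (sq_nonneg b)
    have k4 : b ^ 2 * ρ ^ 2 ≤ (b * ρ) ^ 2 / e := by
      rw [le_div_iff₀ e0, mul_pow]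
      nlinarith [mul_nonneg (sq_nonneg b) (sq_nonneg ρ)]
    have k5 : 25 * (b * ρ) ^ 2 / e = 2 * (12 * (b * ρ) ^ 2 / e) + (b * ρ) ^ 2 / e := by ring
    linarith
  · exact le_of_eq (by rw [hκ]; ring)

end Crest.Agent.T157.Rec

end
end

-- ▼ part T157/DsC_77
section

/-!
# Row 157, part C (helper77): `D*` at fixed size, in the form `Tr.DS`
-/

set_option autoImplicit false
set_option linter.unusedSectionVars false

noncomputable section

namespace Crest.Agent.T157.Rec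

open MeasureTheory ProbabilityTheory Filter Topology Set Real Matrix Function
open Crest.Agent.T157.E Crest.Agent.T157.SL Crest.Agent.T157.Eig Crest.Agent.T157.Tr

variable {n : ℕ}

/-- the mean distance of the matrix `A_T` of the posterior at time `r` from `α`, between the ranges
of `P'` and `P` -/
def dA (w : Cube n → ℝ) (P' P : Matrix (Fin n) (Fin n) ℝ) (r T α : ℝ) : ℝ :=
  slE sv w r fun x y => opn (P' * (Am (post sv w r y) T x - α • 1) * P)

/-- the input of one block: on `[s, M s]` the covariance lives in the range of `P'`, and there the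
matrix `A_T` at time `r` is a scalar `α ≥ 2 T k` -/
def Blk (w : Cube n → ℝ) (P : Matrix (Fin n) (Fin n) ℝ) (s r T k θ M o ζ : ℝ) : Prop :=
  ∃ (α : ℝ) (P' : Matrix (Fin n) (Fin n) ℝ), P'ᵀ = P' ∧ P' * P = P ∧ opn (1 - P') ≤ 1 ∧
    (∀ u ∈ Icc s (M * s), (law sv w u).real (BH sv w P' θ u) ≤ o) ∧ 2 * T * k ≤ α ∧
    dA w P' P r T α ≤ ζ

theorem opn_proj_le {ι : Type*} [Fintype ι] [DecidableEq ι] {P : Matrix ι ι ℝ} (h : Pᵀ = P)
    (hP : P * P = P) : opn P ≤ 1 := by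
  have := opn_transpose_mul_self P
  rw [h, hP] at this
  nlinarith [opn_nonneg P]

theorem ds_arith {G η k τ x γ E c Z T r t X D o' L α : ℝ} (hη : 0 < η) (hk : 0 < k) (hτ : 0 < τ)
    (hG : 0 < G) (hγ : γ = η * k / G / 4) (x0 : 0 < x) (x1 : x ≤ 1 / 4)
    (x2 : x * (15 * ((1 + η⁻¹) / (2 * τ)) + 137 / γ) ≤ 2 * γ) (E0 : 0 ≤ E) (c0 : 0 ≤ c)
    (hZ : Z = G * (E + c)) (hT : 0 < T) (hr : 0 < r) (hTr : τ ≤ T * r) (hrt : r / t ≤ x) (X0 : 0 ≤ X)
    (hD : D ≤ x * Z) (hL : L * o' ≤ 2 * x * Z) (hα : 2 * T * k ≤ α) {lM c' : ℝ} (hM : 18 / lM ≤ 18 * x)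
    (hc : c' ≤ c)
    (h : α * X ≤ 2 * T * (1 + η) * E + (1 + η⁻¹) / r * (r / t * Z + D + 13 * x * Z + 25 * c' / x) +
      (3 * (2 / 3 * γ * T) + 2 * T * γ) * Z +
      2 * T / γ * (3 * D + (111 * x + 12 * x ^ 2 + 18 / lM) * Z + 70 * c' / x + L * o')) :
    X ≤ (1 + η) / k * E + η * E + (η + (25 * ((1 + η⁻¹) / (2 * τ)) + 70 / γ) / (x * k)) * c := by
  have γ0 : 0 < γ := by rw [hγ]; positivity
  have Z0 : 0 ≤ Z := by rw [hZ]; positivity
  set A := (1 + η⁻¹) / (2 * τ) with hA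
  have A0 : 0 ≤ A := by positivity
  have a1 : (1 + η⁻¹) / r ≤ 2 * T * A := by
    rw [hA, div_le_iff₀ hr, mul_div_assoc', div_mul_eq_mul_div, le_div_iff₀ (by positivity)]
    nlinarith [mul_le_mul_of_nonneg_left hTr (show 0 ≤ 1 + η⁻¹ by positivity)]
  have a0 : c' / x ≤ c / x := div_le_div_of_nonneg_right hc x0.le
  have a2 : r / t * Z + D + 13 * x * Z + 25 * c' / x ≤ 15 * (x * Z) + 25 * (c / x) := by
    have := mul_le_mul_of_nonneg_right hrt Z0
    rw [mul_div_assoc]; linarith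
  have a3 : 3 * D + (111 * x + 12 * x ^ 2 + 18 / lM) * Z + 70 * c' / x + L * o' ≤
      137 * (x * Z) + 70 * (c / x) := by
    have := mul_le_mul_of_nonneg_right
      (show 111 * x + 12 * x ^ 2 + 18 / lM ≤ 132 * x by nlinarith) Z0
    rw [mul_div_assoc]; linarith
  have a4 := (mul_le_mul_of_nonneg_left a2 (show 0 ≤ (1 + η⁻¹) / r by positivity)).trans
    (mul_le_mul_of_nonneg_right a1 (by positivity))
  have a5 := mul_le_mul_of_nonneg_left a3 (show 0 ≤ 2 * T / γ by positivity)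
  have a6 := mul_le_mul_of_nonneg_right hα X0
  have a7 := mul_le_mul_of_nonneg_left (mul_le_mul_of_nonneg_right x2 Z0) hT.le
  have a8 : 4 * γ * Z = η * k * (E + c) := by rw [hγ, hZ]; field_simp
  have a9 : 2 * T * k * X ≤ 2 * T * k * ((1 + η) / k * E + η * E +
      (η + (25 * A + 70 / γ) / (x * k)) * c) := by
    have e1 : 2 * T * k * ((1 + η) / k * E + η * E + (η + (25 * A + 70 / γ) / (x * k)) * c) =
        2 * T * (1 + η) * E + 2 * T * (η * k * (E + c)) + 2 * T * A * (25 * (c / x)) +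
          2 * T / γ * (70 * (c / x)) := by field_simp; ring
    have e2 : T * (x * (15 * A + 137 / γ) * Z) * 2 =
        2 * T * A * (15 * (x * Z)) + 2 * T / γ * (137 * (x * Z)) := by ring
    rw [e1, ← a8]
    nlinarith
  exact le_of_mul_le_mul_left a9 (by positivity)

/-- **`D*` at fixed size** -/
theorem ds_core {C η k τ : ℝ} (hC : 1 ≤ C) (hη : 0 < η) (hk : 0 < k) (hτ : 0 < τ) :
    ∃ (J : ℕ) (δ M C' : ℝ), 0 < δ ∧ δ ≤ 1 ∧ 1 < M ∧ 0 < C' ∧
    ∀ {n : ℕ} (w : Cube n → ℝ) (ε p : ℝ → ℝ) (s0 t0 t1 ρ z o : ℝ) (P : Matrix (Fin n) (Fin n) ℝ)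
      (S T : ℕ → ℝ), 0 < n → (∀ x, 0 < w x) → HC sv w ε p s0 t1 ρ C z → t0 ≤ t1 →
      (∀ r ∈ Icc s0 t0, ε r ≤ δ) → ∫ u in s0..t0, ε u / u ≤ δ → Pᵀ = P → P * P = P → 0 < o →
      (∀ j ≤ J, S j ∈ Icc s0 t0) → (∀ j < J, M * S j ≤ δ * S (j + 1) ∧ τ ≤ T j * (δ * S (j + 1)) ∧
        Blk w P (S j) (δ * S (j + 1)) (T j) k δ M (δ * o) (δ * o * T j)) →
      ∀ {κ : Type} [Fintype κ] (g : κ → Cube n → ℝ) (b : ℝ), 0 ≤ b → (∀ x, ∑ a, g a x ^ 2 ≤ b ^ 2) →
        Ph sv w g t1 ≤ C * ∑ a, dir w (g a) + (b * z) ^ 2 →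
        ∃ j < J, DS sv w g P (δ * S (j + 1)) o
          ((1 + η) / k * ∑ a, dir w (g a) + η * ∑ a, dir w (g a) + C' * (b * z) ^ 2) := by
  set G := Gam C ^ 2 + C ^ 2 with hG
  have G0 : 0 < G := by positivity
  set γ := η * k / G / 4 with hγ
  have γ0 : 0 < γ := by positivity
  set x := min (min (1 / 4) (γ / 3)) (2 * γ / (15 * ((1 + η⁻¹) / (2 * τ)) + 137 / γ)) with hx
  have x0 : 0 < x := by positivity
  have x1 : x ≤ 1 / 4 := (min_le_left _ _).trans (min_le_left _ _)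
  have x3 : x ≤ γ / 3 := (min_le_left _ _).trans (min_le_right _ _)
  have x2 : x * (15 * ((1 + η⁻¹) / (2 * τ)) + 137 / γ) ≤ 2 * γ :=
    (le_div_iff₀ (by positivity)).1 (min_le_right _ _)
  have hM : 1 < exp x⁻¹ := one_lt_exp_iff.2 (by positivity)
  have hJ : x⁻¹ ≤ ⌈x⁻¹⌉₊ := Nat.le_ceil _
  have J0 : 0 < ⌈x⁻¹⌉₊ := Nat.ceil_pos.2 (by positivity)
  refine ⟨⌈x⁻¹⌉₊, x, exp x⁻¹, η + (25 * ((1 + η⁻¹) / (2 * τ)) + 70 / γ) / (x * k), x0, by linarith, hM,
    by positivity, ?_⟩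
  intro n w ε p s0 t0 t1 ρ z o P S T hn hw h ht he hi hP hPP o0 hS hB κ _ g b hb0 hb hE
  have hW := Wt.of_pos hw
  set E := ∑ a, dir w (g a) with hEd
  have E0 : 0 ≤ E := Finset.sum_nonneg fun a _ => Ent.dir_nonneg hw (g a)
  set Z := G * (E + (b * z) ^ 2) with hZd
  have hZ : ∀ u ∈ Icc s0 t1, u ^ 2 * psi sv w g u ≤ Z := fun u hu =>
    (h.psi_le hW hb0 hb E0 hE hu).trans
      (mul_le_mul_of_nonneg_right (le_add_of_nonneg_right (sq_nonneg C)) (by positivity))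
  have hS' : ∀ j ≤ ⌈x⁻¹⌉₊, S j ∈ Icc s0 t1 := fun j hj => ⟨(hS j hj).1, (hS j hj).2.trans ht⟩
  obtain ⟨j, hj, hΔ⟩ := exists_block (fun j => S j ^ 2 * psi sv w g (S j)) J0
    (mul_nonneg (sq_nonneg _) (psi_nonneg hW _)) (hZ _ (hS' _ le_rfl))
  obtain ⟨b1, b2, α, P', c1, c2, c3, c4, c5, c6⟩ := hB j hj
  have m1 := hS j hj.le
  have m2 := hS (j + 1) hj
  have s0p : 0 < S j := h.ha.pos.trans_le m1.1
  have t0p : 0 < S (j + 1) := h.ha.pos.trans_le m2.1
  have hr : 0 < x * S (j + 1) := by positivity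
  have hrt : x * S (j + 1) ≤ S (j + 1) := mul_le_of_le_one_left t0p.le (by linarith)
  have hsr : S j ≤ x * S (j + 1) := le_trans (le_mul_of_one_le_left s0p.le hM.le) b1
  have hT : 0 < T j := (mul_pos_iff_of_pos_right hr).1 (hτ.trans_le b2)
  refine ⟨j, hj, ?_⟩
  have mm := mg_dd_mv (φ := sv) hW g (x * S (j + 1)) P
  rcases (show 0 ≤ Z by positivity).eq_or_lt with Z0 | Z0
  · refine ⟨∅, .empty, by simpa using o0.le, ?_⟩
    have hP1 : opn P ≤ 1 := opn_proj_le hP hPP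
    have m3 := mg_dd_mv (φ := sv) hW g (x * S (j + 1)) 1
    have e1 : ∀ U : κ → Fin n → ℝ, mv 1 U = U := fun U => by ext; simp [mv]
    simp only [e1] at m3
    rw [hP]
    refine (ex_mono (H := fun q => dd ((x * S (j + 1)) • Vg sv w g q) ((x * S (j + 1)) • Vg sv w g q))
      hW ((mg_ind MeasurableSet.empty.compl).mul mm) m3 fun y => ?_).trans ?_
    · simpa only [compl_empty, indicator_univ, one_mul] using dd_mv_le_one hP1 _
    · simp only [dd_smul_left, dd_smul_right, ← mul_assoc, ex_const_mul, ← sq]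
      exact (hZ _ ⟨m1.1.trans hsr, hrt.trans (m2.2.trans ht)⟩).trans (Z0.ge.trans (by positivity))
  obtain ⟨B, hBm, hBo, hX⟩ := ds_block (e2 := 2 / 3 * γ * T j) (L := 2 * Z / o) (γ := γ) hn hw
    (h.ha.mono m1.1 (hsr.trans hrt) (m2.2.trans ht))
    (fun u hu => he u ⟨m1.1.trans hu.1, hu.2.trans m2.2⟩)
    ((h.ha.eps_le le_rfl m1.1 (hsr.trans hrt) m2.2 ht).trans hi) x0 x1 hM b1 hrt hb0 hb hP hPP c1 c2 c3
    c4 (fun u hu => hZ u ⟨m1.1.trans hu.1, hu.2.trans (m2.2.trans ht)⟩)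
    (h.Ph_le hW hb0 hb E0 hE (hS' _ hj)) hΔ hT hη γ0 (by positivity) (by positivity) c6
  refine ⟨B, hBm, hBo.trans ?_, ?_⟩
  · have e1 : Z / (2 * Z / o) = o / 2 := by field_simp
    have e2 : x * o * T j / (2 / 3 * γ * T j) ≤ o / 2 := by
      rw [div_le_iff₀ (by positivity)]
      nlinarith [mul_le_mul_of_nonneg_right x3 (mul_pos o0 hT).le]
    linarith
  · rw [hP]
    refine ds_arith hη hk hτ G0 hγ x0 x1 x2 E0 (sq_nonneg _) hZd hT hr b2
      (by rw [mul_div_assoc, div_self t0p.ne', mul_one])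
      (ex_nonneg hW fun y => mul_nonneg (by rcases ind_cases Bᶜ y with j | j <;> simp [j.2])
        (dd_self_nonneg _)) ?_ (le_of_eq (by field_simp)) c5 (by rw [log_exp, div_inv_eq_mul])
      (pow_le_pow_left₀ (mul_nonneg hb0 h.ha.ρ0) (mul_le_mul_of_nonneg_left h.ρz hb0) 2) hX
    rw [div_le_iff₀ (by exact_mod_cast J0), mul_right_comm]
    exact le_mul_of_one_le_left Z0.le (by rwa [← inv_le_iff_one_le_mul₀' x0])

end Crest.Agent.T157.Rec

end
end

-- ▼ part T157/DsD_77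

/-!
# Row 157, part C (helper77): consequences of (DA) at fixed size; asymptotic statements
-/

set_option autoImplicit false
set_option linter.unusedSectionVars false

noncomputable section

namespace Crest.Agent.T157.Rec

open MeasureTheory ProbabilityTheory Filter Topology Set Real Matrix Function
open Crest.ProbabilityR.SpinGlassDynamics
open Crest.Agent.T157.E Crest.Agent.T157.SL Crest.Agent.T157.Eig Crest.Agent.T157.Tr
open Crest.Agent.T157.Chain22 (sg)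
open Crest.Agent.T157.Da (DAev tm e0 badP DAStmt DLStmt GRStmt)
open Crest.Agent.T157.Soft (N23)
open Crest.Agent.T157.Top (Whp)

variable {n : ℕ}

/-- **(A'w)**: at small macroscopic times the covariance lives in a small spectral window -/
def AwStmt : Prop := ∀ η θ o : ℝ, 0 < η → 0 < θ → 0 < o → ∃ r0 : ℝ, 0 < r0 ∧ ∀ s : ℝ, 0 < s →
  Whp PM fun n p => ∀ u ∈ Icc s r0, (law sv (gibbsWeight n 1 p.1) u).real
    (BH sv (gibbsWeight n 1 p.1) (Pw (Wmat n p.1 p.2) η) θ u) ≤ o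

/-- **(I2)** with constant `k` -/
def I2Stmt (k : ℝ) : Prop := ∀ e ε : ℝ, 0 < e → 0 < ε → ∃ K₀ : ℝ, 0 < K₀ ∧ ∀ K, K₀ ≤ K →
  Off disorderLaw ε fun n g => ∀ (κ : Type) [Fintype κ] (f : κ → Cube n → ℝ) (B : ℝ),
    (∀ x, ∑ a, f a x ^ 2 ≤ B) → ∃ f' : κ → Cube n → ℝ,
      ∑ a, mean (gibbsWeight n 1 g) (fun x => (f' a x - f a x) ^ 2) ≤
        e * (B + k * K * Ph sv (gibbsWeight n 1 g) f (K / N23 n)) ∧
      N23 n * ∑ a, dir (gibbsWeight n 1 g) (f' a) ≤
        (1 + e) * (k * K * Ph sv (gibbsWeight n 1 g) f (K / N23 n)) + e * B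

/-- a soft unit vector -/
def Sf (W : Matrix (Fin n) (Fin n) ℝ) (u : Fin n → ℝ) : Prop := u ⬝ᵥ u = 1 ∧ nrm (tm W *ᵥ u) ≤ e0 n

/-- a soft direction with fluctuations of order `√N` -/
def TopStmt : Prop := ∀ ε : ℝ, 0 < ε → ∃ δ M : ℝ, 0 < δ ∧ Off PM ε fun n p => ∃ u,
  Sf (Wmat n p.1 p.2) u ∧ δ * N23 n ≤ mean (gibbsWeight n 1 p.1) (fun x => (u ⬝ᵥ sv x) ^ 2) ∧
    mean (gibbsWeight n 1 p.1) (fun x => (u ⬝ᵥ sv x) ^ 4) ≤ M * N23 n ^ 2

/-- failure probability of (DA) -/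
def bad (w : Cube n → ℝ) (W : Matrix (Fin n) (Fin n) ℝ) (T r ε η a : ℝ) : ℝ :=
  mean w fun σ => (gv (Fin n)).real
    {ξ | ¬ DAev W (Am (post sv w r (r • sv σ + √r • ξ)) T σ) ε η a}

/-- the standing assumptions -/
structure GE (w : Cube n → ℝ) (W : Matrix (Fin n) (Fin n) ℝ) (C : ℝ) : Prop where
  n0 : 0 < n
  pos : ∀ x, 0 < w x
  herm : W.IsHermitian
  C0 : 0 ≤ C
  gr : ∀ r y, GR (post sv w r y) C

/-- the bound of `A_T` -/
def DT (C T : ℝ) : ℝ := 4 * T * exp (2 * C * T)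

variable {w v : Cube n → ℝ} {W A : Matrix (Fin n) (Fin n) ℝ} {C T T' r ε ε' η η' a a' l : ℝ}
  {u : Fin n → ℝ}

theorem DT_nonneg (hT : 0 ≤ T) : 0 ≤ DT C T := by unfold DT; positivity

theorem hbCt_post (g : Pair n → ℝ) (d : Fin n → ℝ) (r : ℝ) (y : Fin n → ℝ) :
    hbCt (post sv (gibbsWeight n 1 g) r y) = hbCt (ising (Wmat n g d) y) := by
  have h1 := GoeT.prob_ising_Wmat 1 g d
  rw [one_smul] at h1
  have h2 : prob (post sv (gibbsWeight n 1 g) r y) = prob (ising (Wmat n g d) y) := by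
    rw [prob_post_sv, ← zero_add y, ← tilt_ising, zero_add]
    exact GoeT.prob_mul_congr (GoeT.sum_gibbs_ne 1 g) (GoeT.sum_ising_ne _ _) h1.symm _
  funext t
  rw [← GoeT.hbCt_prob (GoeT.sum_pos (post_pos (gibbsWeight_pos 1 g) sv r y)).ne', h2,
    GoeT.hbCt_prob (GoeT.sum_ising_ne _ _)]

theorem sg_congr (h : hbCt w = hbCt v) : sg w = sg v := by
  funext t f x; simp only [sg, h]

theorem Am_congr (h : hbCt w = hbCt v) : Am w = Am v := by
  funext T x
  have : Psv w T = Psv v T := by funext z i; simp only [Psv, sg_congr h]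
  rw [Am, Am, h, this]

theorem badP_eq (g : Pair n → ℝ) (d : Fin n → ℝ) (T r ε η a : ℝ) :
    badP (Wmat n g d) T r ε η a = bad (gibbsWeight n 1 g) (Wmat n g d) T r ε η a := by
  have h1 := GoeT.prob_ising_Wmat 1 g d
  rw [one_smul] at h1
  simp only [badP, bad, Am_congr (hbCt_post g d r _), GoeT.mean_congr_prob h1]

theorem whp_GE (h : GRStmt) : ∃ C, Whp PM fun n p => GE (gibbsWeight n 1 p.1) (Wmat n p.1 p.2) C := by
  obtain ⟨C, hC, h⟩ := h 3
  have h1 : Whp Tap.GOE fun _ W => opn W ≤ 3 := by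
    refine Top.whp_of_real_le (a := fun n => 2 * exp (-(n * 1 ^ 2 / 4))) ?_ (.of_forall fun n => ?_)
    · simpa using (tendsto_exp_neg_atTop_nhds_zero.comp ((tendsto_natCast_atTop_atTop (R := ℝ)
        ).atTop_div_const (r := 4) four_pos)).const_mul 2
    · refine le_trans (measureReal_mono (fun W hW => ?_) (measure_ne_top _ _))
        (Nrm.goe_opn_tail_n (n := n) zero_le_one)
      simp only [mem_ofPred_eq, not_le] at hW ⊢
      linarith
  refine ⟨C, (h1.comp (ν := PM) (T := fun n p => Wmat n p.1 p.2) fun n => Cond.mp_Wmat).mono ?_⟩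
  filter_upwards [eventually_gt_atTop 0] with n hn p hp
  refine ⟨hn, gibbsWeight_pos 1 _, Wmat_isHermitian _ _, hC, fun r y => ?_⟩
  have := h n _ y hn (Wmat_transpose p.1 p.2) hp
  simpa only [GR, sg_congr (hbCt_post p.1 p.2 r y)] using this

theorem whp_bad {a : ℕ → ℝ} {c δ : ℝ} (hc : 0 < c) (hδ : 0 < δ)
    (h : Whp Tap.GOE fun n W => badP W T r ε η (a n) ≤ exp (-(n : ℝ) ^ c)) :
    Whp PM fun n p => bad (gibbsWeight n 1 p.1) (Wmat n p.1 p.2) T r ε η (a n) ≤ δ := by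
  refine (h.comp (ν := PM) (T := fun n p => Wmat n p.1 p.2) fun n => Cond.mp_Wmat).mono ?_
  filter_upwards [(tendsto_exp_neg_atTop_nhds_zero.comp ((tendsto_rpow_atTop hc).comp
    tendsto_natCast_atTop_atTop)).eventually (ge_mem_nhds hδ)] with n hn p hp
  rw [← badP_eq]
  exact hp.trans hn

theorem int_le_of_bad {X : Type*} [MeasurableSpace X] {μ : Measure X} [IsProbabilityMeasure μ]
    {f : X → ℝ} (hf : Integrable f μ) (hm : Measurable f) {D : ℝ} (D0 : 0 ≤ D)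
    (hD : ∀ z, f z ≤ a + D) {B : Set X} (hB : ∀ z ∉ B, f z ≤ a) : ∫ z, f z ∂μ ≤ a + D * μ.real B := by
  have m : MeasurableSet {z | a < f z} := measurableSet_lt measurable_const hm
  have i := ((integrable_const (1 : ℝ) (μ := μ)).indicator m).const_mul D
  have h1 := integral_mono hf ((integrable_const a).add i) fun z => by
    by_cases hz : z ∈ {z | a < f z}
    · simpa [indicator_of_mem hz] using hD z
    · simpa [indicator_of_notMem hz] using hz
  simp only [Pi.add_apply] at h1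
  rw [integral_add (integrable_const a) i, integral_const_mul, integral_indicator_const _ m] at h1
  simp only [integral_const, probReal_univ, smul_eq_mul, one_mul, mul_one] at h1
  exact h1.trans (add_le_add le_rfl (mul_le_mul_of_nonneg_left (measureReal_mono fun z hz => by
    by_contra hc; exact not_le.2 hz (hB z hc)) D0))

theorem slE_le_bad (hw : Wt w) {F : Cube n → (Fin n → ℝ) → ℝ} (hF : ∀ x, MG (F x)) {c D : ℝ}
    (D0 : 0 ≤ D) (hD : ∀ x y, F x y ≤ c + D)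
    (hg : ∀ x y, DAev W (Am (post sv w r y) T x) ε η a → F x y ≤ c) :
    slE sv w r F ≤ c + D * bad w W T r ε η a := by
  rw [bad, ← mean_const_mul, ← hw.mean_const c, ← mean_add]
  exact hw.mean_mono fun x => int_le_of_bad ((hF x).affine _ _).int ((hF x).affine _ _).meas D0
    (fun _ => by simpa only [hw.mean_const] using hD x _)
    fun z hz => by simpa only [hw.mean_const] using hg x _ (not_not.1 hz)

theorem bad_nonneg (hw : Wt w) : 0 ≤ bad w W T r ε η a := hw.mean_nonneg fun _ => measureReal_nonneg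

theorem Sf.quad (hu : Sf W u) (he : e0 n ≤ η) (h : DAev W A ε η a) : |u ⬝ᵥ A *ᵥ u - a| ≤ ε := by
  have e : nrm u = 1 := by rw [nrm, hu.1, sqrt_one]
  simpa only [e, hu.1, mul_one] using h u u (by simpa only [e, mul_one] using hu.2)
    (by simpa only [e, mul_one] using hu.2.trans he)

namespace GE

theorem wt (h : GE w W C) : Wt w := .of_pos h.pos

theorem gr0 (h : GE w W C) : GR w C := by simpa only [post_zero] using h.gr 0 0

theorem quad (h : GE w W C) (hT : 0 ≤ T) (r : ℝ) (y : Fin n → ℝ) (x : Cube n) (u : Fin n → ℝ) :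
    0 ≤ u ⬝ᵥ Am (post sv w r y) T x *ᵥ u ∧ u ⬝ᵥ Am (post sv w r y) T x *ᵥ u ≤ DT C T * (u ⬝ᵥ u) :=
  ⟨(Am_quad _ T x u).ge.trans' (vs_nn h.n0 (post_pos h.pos sv r y) hT _ x),
    (h.gr r y).Am_le h.n0 (post_pos h.pos sv r y) h.C0 hT x u⟩

theorem mg_quad (h : GE w W C) (hT : 0 ≤ T) (r : ℝ) (x : Cube n) (u : Fin n → ℝ) :
    MG fun y => u ⬝ᵥ Am (post sv w r y) T x *ᵥ u :=
  mg_dot (fun _ => .const _) fun i => MG.sum Finset.univ fun j _ =>
    (mg_Am h.n0 h.pos r hT x i j).mul (.const (u j))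

/-- the scalar is bounded -/
theorem scalar (h : GE w W C) (hT : 0 ≤ T) (hu : Sf W u) (he : e0 n ≤ η)
    (hb : bad w W T r ε η a < 1) : -ε ≤ a ∧ a ≤ DT C T + ε := by
  by_contra hc
  have : ∀ x y, ¬ DAev W (Am (post sv w r y) T x) ε η a := fun x y hd => by
    have h1 := abs_le.1 (hu.quad he hd)
    have h2 := h.quad hT r y x u
    rw [hu.1, mul_one] at h2
    exact hc ⟨by linarith, by linarith⟩
  simp only [bad, this, not_false_eq_true, ofPred_true, probReal_univ, h.wt.mean_const] at hb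
  exact lt_irrefl _ hb

theorem quad_le (h : GE w W C) (hT : 0 ≤ T) (hu : Sf W u) (he : e0 n ≤ η)
    (hb : bad w W T r ε η a < 1) : (slE sv w r fun x y => u ⬝ᵥ Am (post sv w r y) T x *ᵥ u) ≤
      a + ε + DT C T * bad w W T r ε η a :=
  slE_le_bad h.wt (fun x => h.mg_quad hT r x u) (DT_nonneg hT) (fun x y => by
    have := (h.quad hT r y x u).2
    rw [hu.1, mul_one] at this
    linarith [(h.scalar hT hu he hb).1]) fun x y hd => by linarith [(abs_le.1 (hu.quad he hd)).2]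

theorem le_quad (h : GE w W C) (hT : 0 ≤ T) (hu : Sf W u) (he : e0 n ≤ η)
    (hb : bad w W T 0 ε η a < 1) :
    a - ε - DT C T * bad w W T 0 ε η a ≤ mean w fun x => u ⬝ᵥ Am w T x *ᵥ u := by
  have := slE_le_bad (r := 0) (c := ε - a) h.wt (fun x => (h.mg_quad hT 0 x u).neg) (DT_nonneg hT)
    (fun x y => by linarith [(h.scalar hT hu he hb).2, (h.quad hT 0 y x u).1])
    fun x y (hd : DAev W _ ε η a) => by linarith [(abs_le.1 (hu.quad he hd)).1]
  simp only [slE_zero, post_zero, mean_neg] at this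
  linarith

theorem bil (h : GE w W C) (l0 : 0 ≤ l) (hl : l ≤ e0 n) (η0 : 0 ≤ η') (hη : η' ≤ η)
    (hd : DAev W A ε η a) (x z : Fin n → ℝ) :
    |(Pw W η' *ᵥ x) ⬝ᵥ A *ᵥ (Pw W l *ᵥ z) - a * ((Pw W η' *ᵥ x) ⬝ᵥ (Pw W l *ᵥ z))| ≤
      ε * (nrm (Pw W η' *ᵥ x) * nrm (Pw W l *ᵥ z)) :=
  hd _ _ ((nrm_soft_le h.herm l0 z).trans (mul_le_mul_of_nonneg_right hl (nrm_nonneg _)))
    ((nrm_soft_le h.herm η0 x).trans (mul_le_mul_of_nonneg_right hη (nrm_nonneg _)))

theorem nrm_Pw_le (h : GE w W C) (η : ℝ) (x : Fin n → ℝ) : nrm (Pw W η *ᵥ x) ≤ nrm x :=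
  (nrm_mulVec_le _ _).trans (mul_le_of_le_one_left (nrm_nonneg _) (opn_Pw_le h.herm η))

theorem dA_le (h : GE w W C) (hT : 0 ≤ T) (hu : Sf W u) (l0 : 0 ≤ l) (hl : l ≤ e0 n) (he : e0 n ≤ η)
    (ε0 : 0 ≤ ε) (hb : bad w W T r ε η a < 1) :
    dA w (Pw W η) (Pw W l) r T a ≤ ε + 2 * DT C T * bad w W T r ε η a := by
  have D0 := DT_nonneg (C := C) hT
  refine slE_le_bad h.wt (fun x => mg_sandwich (mg_Am h.n0 h.pos r hT x) _ _ a) (by positivity)
    (fun x y => ?_) fun x y hd => opn_le_of_bil ε0 fun b c => ?_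
  · have h1 : opn (Am (post sv w r y) T x) ≤ DT C T :=
      opn_le_of_quad (herm_iff.2 (Am_transpose _ _ _)) D0 fun z => by
        rw [abs_of_nonneg (h.quad hT r y x z).1]; exact (h.quad hT r y x z).2
    have h2 : opn (a • (1 : Matrix (Fin n) (Fin n) ℝ)) ≤ DT C T + ε := by
      have := h.scalar hT hu he hb
      rw [opn_smul]
      exact (mul_le_of_le_one_right (abs_nonneg _) opn_one_le).trans
        (abs_le.2 ⟨by linarith, this.2⟩)
    refine (opn_mul_le _ _).trans ((mul_le_of_le_one_right (opn_nonneg _) (opn_Pw_le h.herm l)).trans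
      ((opn_mul_le _ _).trans ((mul_le_of_le_one_left (opn_nonneg _) (opn_Pw_le h.herm η)).trans
        ((opn_sub_le _ _).trans (by linarith)))))
  · have h1 := (abs_le.1 (h.bil l0 hl (l0.trans (hl.trans he)) le_rfl hd b c)).2
    rw [← mulVec_mulVec, ← mulVec_mulVec, dotProduct_mulVec, ← mulVec_transpose, Pw_transpose,
      sub_mulVec, dotProduct_sub, smul_mulVec, one_mulVec, dotProduct_smul, smul_eq_mul]
    exact h1.trans (mul_le_mul_of_nonneg_left (mul_le_mul (h.nrm_Pw_le _ _) (h.nrm_Pw_le _ _)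
      (nrm_nonneg _) (nrm_nonneg _)) ε0)

/-- the link between the scalars at field strength `r` and `0` -/
theorem link (h : GE w W C) (hr : 0 ≤ r) (hT : 0 < T) (hT' : 0 < T') {x : ℝ} (hx : 0 < x)
    (hu : Sf W u) (he : e0 n ≤ η) (he' : e0 n ≤ η') (hb : bad w W T r ε η a < 1)
    (hb' : bad w W T' 0 ε' η' a' < 1) :
    (a' - ε' - DT C T' * bad w W T' 0 ε' η' a') / (2 * T') ≤
      (1 + x) ^ 2 * exp (4 * r) * ((a + ε + DT C T * bad w W T r ε η a) / (2 * T)) +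
        (1 + x⁻¹) * ((1 + x) * (exp (4 * r) - 1) * (2 * T) + T / T') := by
  have h1 := Rec.link h.n0 h.pos hr hT hT' hx u
  rw [hu.1, mul_one] at h1
  exact (div_le_div_of_nonneg_right (h.le_quad hT'.le hu he' hb') (by positivity)).trans
    (h1.trans (add_le_add (mul_le_mul_of_nonneg_left (div_le_div_of_nonneg_right
      (h.quad_le hT.le hu he hb) (by positivity)) (by positivity)) le_rfl))

end GE

end Crest.Agent.T157.Rec

end
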