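import Crest.Agent.T157.StDef_87

/-!
# Row 157, the sphere side of the critical window: definitions and leaves (helper87)

Hatted units as in `StDef_87`.  `lawY K μ` is the law of the output `y = K x + √K z` of the Gaussian
channel, `pst K μ y` the posterior law.

* local limit theorem for `|x|²` under a Gaussian law (`CharStmt`, `LcltStmt`), hence sub-Gaussian
  bounds for a Gaussian conditioned on `|x|²` softly (`SoftStmt`) or exactly (`HardStmt`);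
* the saddle point of a typical output is not far below `K` (`DomStmt`, `LowStmt`, `GapStmt`);
* outputs for the spherical models: `SWinStmt`, `LargeStmt`;
* the cube is `χ²`-close to the sphere after the channel (`ChiStmt`), transfer (`TrfStmt`);
* output for the cube: `WinStmt`.
-/

set_option autoImplicit false

noncomputable section

namespace Crest.Agent.T157.Sp

open MeasureTheory ProbabilityTheory Matrix Filter Topology Finset Real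
open scoped ENNReal
open Crest.ProbabilityR.SpinGlassDynamics Crest.Agent.T157.E Crest.Agent.T157.St
open Crest.Agent.T157.Ed Crest.Agent.T157.Top

section abs
variable {ι : Type*} [Fintype ι]

/-- law of the output of the channel -/
def lawY (K : ℝ) (μ : Measure (ι → ℝ)) : Measure (ι → ℝ) :=
  (μ.prod (gv ι)).map fun p => K • p.1 + √K • p.2
/-- posterior law -/
def pst (K : ℝ) (μ : Measure (ι → ℝ)) (y : ι → ℝ) : Measure (ι → ℝ) :=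
  μ.tilted fun x => y ⬝ᵥ x - K / 2 * (x ⬝ᵥ x)
/-- `P` holds off a measurable set of outputs of probability at most `p` -/
def OffY (K : ℝ) (μ : Measure (ι → ℝ)) (p : ℝ) (P : (ι → ℝ) → Prop) : Prop :=
  ∃ A : Set (ι → ℝ), MeasurableSet A ∧ lawY K μ A ≤ ENNReal.ofReal p ∧ ∀ y ∉ A, P y
/-- covariance bound -/
def CovB (μ : Measure (ι → ℝ)) (a : ℝ) : Prop :=
  ∀ v : ι → ℝ, MemLp (fun x => v ⬝ᵥ x) 2 μ ∧ Var[fun x => v ⬝ᵥ x; μ] ≤ a * (v ⬝ᵥ v)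
/-- second and fourth moments around a centre -/
def Mom (μ : Measure (ι → ℝ)) (a : ℝ) : Prop := IsProbabilityMeasure μ ∧ ∃ m : ι → ℝ,
  ∀ v : ι → ℝ, Integrable (fun x => (v ⬝ᵥ (x - m)) ^ 4) μ ∧
    ∫ x, (v ⬝ᵥ (x - m)) ^ 2 ∂μ ≤ a * (v ⬝ᵥ v) ∧
    ∫ x, (v ⬝ᵥ (x - m)) ^ 4 ∂μ ≤ 100 * (a * (v ⬝ᵥ v)) ^ 2
/-- almost Gaussian exponential moments -/
def SubG (μ : Measure (ι → ℝ)) (m c : ι → ℝ) (δ : ℝ) : Prop :=
  ∀ v : ι → ℝ, ∑ k, c k * v k ^ 2 ≤ 1 → ∫⁻ x, ENNReal.ofReal (exp (v ⬝ᵥ (x - m))) ∂μ ≤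
    ENNReal.ofReal ((1 + δ) * exp ((∑ k, c k * v k ^ 2) / 2))
/-- mean of `|x|²` under `gs m c` -/
def qm (m c : ι → ℝ) : ℝ := ∑ k, (m k ^ 2 + c k)
/-- variance of `|x|²` under `gs m c` -/
def qv (m c : ι → ℝ) : ℝ := ∑ k, (2 * c k ^ 2 + 4 * c k * m k ^ 2)
/-- centred characteristic function of `|x|²` -/
def chf (m c : ι → ℝ) (θ : ℝ) : ℂ :=
  ∫ x, Complex.exp ((θ * (x ⬝ᵥ x - qm m c) : ℝ) * Complex.I) ∂gs m c
/-- a Gaussian law softly conditioned on `|x|² = s` -/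
def gw (m c : ι → ℝ) (κ s : ℝ) : Measure (ι → ℝ) :=
  (gs m c).tilted fun x => -(κ / 8) * (x ⬝ᵥ x - s) ^ 2

variable [DecidableEq ι]

/-- domination by a Gaussian off two coordinates (continuous observables) -/
def DomC (μ : Measure (ι → ℝ)) (c : ι → ℝ) (i j : ι) (B : ℝ) : Prop :=
  ∀ G : (ι → ℝ) → ℝ, Continuous G → (∀ x, 0 ≤ G x) → (∀ x, G x ≤ 1) →
    (∀ x a b, G (Function.update (Function.update x i a) j b) = G x) →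
    ∫ x, G x ∂μ ≤ B * ∫ x, G x ∂gs 0 c
/-- domination by a Gaussian off two coordinates (measurable observables) -/
def DomM (μ : Measure (ι → ℝ)) (c : ι → ℝ) (i j : ι) (B : ℝ) : Prop :=
  ∀ G : (ι → ℝ) → ℝ≥0∞, Measurable G →
    (∀ x a b, G (Function.update (Function.update x i a) j b) = G x) →
    ∫⁻ x, G x ∂μ ≤ ENNReal.ofReal B * ∫⁻ x, G x ∂gs 0 c

end abs

/-- the soft spherical model -/
def piD (n : ℕ) (η : ℕ → ℝ) (t κ : ℝ) : Measure (Fin n → ℝ) :=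
  (volume : Measure (Fin n → ℝ)).tilted fun x =>
    -(1 / 2) * ∑ k : Fin n, η k * x k ^ 2 - κ / 8 * (x ⬝ᵥ x - t) ^ 2

/-- end of the window (hatted time) -/
def Tw (n : ℕ) : ℝ := (n : ℝ) ^ (1 / 50 : ℝ)

/-! ### local limit theorem -/

def CharStmt : Prop := ∀ (ι : Type) [Fintype ι] (m c : ι → ℝ) (b θ : ℝ), 0 < b →
  (∀ k, 0 < c k) → (∀ k, c k ≤ b) →
    ‖chf m c θ‖ ≤ exp (-(θ ^ 2 * qv m c / (2 * (1 + (2 * θ * b) ^ 2)))) ∧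
    (4 * b ^ 2 ≤ ∑ k, c k ^ 2 → ‖chf m c θ‖ ≤ (1 + (2 * θ * b) ^ 2)⁻¹ *
      exp (-((qv m c / (8 * b ^ 2) - 1) * ((2 * θ * b) ^ 2 / (1 + (2 * θ * b) ^ 2))))) ∧
    (|2 * θ * b| ≤ 1 / 2 → exp (-(θ ^ 2 * qv m c / 2)) -
      ‖chf m c θ‖ * (|2 * θ * b| * (θ ^ 2 * qv m c)) ≤ (chf m c θ).re)

def LcltStmt : Prop := ∃ C : ℝ, 0 < C ∧ ∀ (ι : Type) [Fintype ι] (m c : ι → ℝ) (b κ : ℝ), 0 < b →
  0 < κ → (∀ k, 0 < c k) → (∀ k, c k ≤ b) → 4 * b ^ 2 ≤ ∑ k, c k ^ 2 →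
    (∀ s : ℝ, ∫ x, exp (-(κ / 8) * (x ⬝ᵥ x - s) ^ 2) ∂gs m c ≤
      (1 + C * b / √(qv m c)) / √(1 + κ * qv m c / 4)) ∧
    (1 - C * b / √(qv m c)) / √(1 + κ * qv m c / 4) ≤
      ∫ x, exp (-(κ / 8) * (x ⬝ᵥ x - qm m c) ^ 2) ∂gs m c

def SoftStmt : Prop := ∃ C : ℝ, 1 ≤ C ∧ ∀ (ι : Type) [Fintype ι] (m c : ι → ℝ) (b κ : ℝ), 0 < b →
  0 < κ → (∀ k, 0 < c k) → (∀ k, c k ≤ b) → C ^ 2 * b ^ 2 ≤ ∑ k, c k ^ 2 →
    SubG (gw m c κ (qm m c)) m c (C * b / √(∑ k, c k ^ 2))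

def HardStmt : Prop := ∃ C : ℝ, 1 ≤ C ∧ ∀ (ι : Type) [Fintype ι] [DecidableEq ι] (a y : ι → ℝ)
  (b t : ℝ), 0 < b → 0 < t → (∀ k, 0 < a k) → (∀ k, 1 / a k ≤ b) →
    C ^ 2 * b ^ 2 ≤ ∑ k, (1 / a k) ^ 2 → qm (fun k => y k / a k) (fun k => 1 / a k) = t →
    SubG ((sphR ι √t).tilted fun x => y ⬝ᵥ x - 1 / 2 * ∑ k, a k * x k ^ 2)
      (fun k => y k / a k) (fun k => 1 / a k) (C * b / √(∑ k, (1 / a k) ^ 2))

def MomStmt : Prop := ∀ (ι : Type) [Fintype ι] (μ : Measure (ι → ℝ)) (m c : ι → ℝ) (b δ : ℝ),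
  IsProbabilityMeasure μ → (∀ k, 0 < c k) → (∀ k, c k ≤ b) → 0 < δ → δ ≤ 1 → SubG μ m c δ →
    Mom μ ((1 + 5 * √δ) * b) ∧ CovB μ ((1 + 5 * √δ) * b) ∧
    ∀ v : ι → ℝ, ∫ x, (v ⬝ᵥ (x - m)) ^ 2 ∂μ ≤ (1 + 5 * √δ) * ∑ k, c k * v k ^ 2

/-! ### the saddle point -/

def DomStmt : Prop := ∀ L C : ℝ, 0 ≤ L → ∃ w₂ : ℝ, 2 * L + 1 ≤ w₂ ∧ ∀ w, w₂ ≤ w → ∃ B : ℝ,
  0 < B ∧ ∀ᶠ n in atTop, ∀ (η : ℕ → ℝ) (t : ℝ), 0 < t → Gd n η t L w C →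
    ∀ i j : Fin n, (i : ℕ) = 0 → (j : ℕ) = 1 → DomC (nuD n η t) (cw n η w) i j B ∧
      ∀ κ, 1 ≤ κ → IsProbabilityMeasure (piD n η t κ) ∧ DomM (piD n η t κ) (cw n η w) i j B ∧
        DomC (piD n η t κ) (cw n η w) i j B

def LowStmt : Prop := ∀ (ι : Type) [Fintype ι] [DecidableEq ι] (μ : Measure (ι → ℝ))
  (c d : ι → ℝ) (i j : ι) (B r l u : ℝ), IsProbabilityMeasure μ → (∀ k, 0 < c k) → (∀ k, 0 ≤ d k) →
    0 ≤ B → 0 ≤ r → 0 ≤ l → DomC μ c i j B →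
    lawY r μ {y | ∑ k, d k * y k ^ 2 ≤ u} ≤ ENNReal.ofReal (B * exp (l * u -
      l * ∑ k ∈ (univ.erase i).erase j, d k * (r ^ 2 * c k + r) +
      l ^ 2 * ∑ k, (d k * (r ^ 2 * c k + r)) ^ 2))

def GapStmt : Prop := ∀ L C w : ℝ, 0 ≤ L → 2 * L + 1 ≤ w → ∃ c D K : ℝ, 0 < c ∧ 0 < D ∧
  4 * L + 16 ≤ K ∧ ∀ᶠ n in atTop, ∀ η : ℕ → ℝ, Gd n η (sx n ^ 2) L w C →
    (∀ i j : Fin n, ∀ r e : ℝ, K ≤ r → 0 ≤ e → e ≤ 1 / 2 →
      sx n ^ 2 - ∑ k, cw n η ((1 - e) * r) k + c * e * min √r (sx n ^ 2) - D ≤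
        ∑ k ∈ (univ.erase i).erase j, cw n η ((1 - e) * r) k ^ 2 * (r ^ 2 * cw n η w k + r) ∧
      ∑ k, (cw n η ((1 - e) * r) k ^ 2 * (r ^ 2 * cw n η w k + r)) ^ 2 ≤ D) ∧
    ∀ v, K / 2 ≤ v → c * min (v * √v) n * (1 / (v - L)) ^ 2 ≤ ∑ k, cw n η v k ^ 2

/-! ### outputs for the spherical models -/

/-- **the posterior covariance of the spherical models** -/
def SWinStmt : Prop := ∀ L C : ℝ, 0 ≤ L → ∃ w₂ : ℝ, ∀ w, w₂ ≤ w → ∃ B K c : ℝ, 0 < B ∧ 1 ≤ K ∧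
  0 < c ∧ ∀ᶠ n in atTop, ∀ η : ℕ → ℝ, Gd n η (sx n ^ 2) L w C → ∀ r, K ≤ r →
    OffY r (nuD n η (sx n ^ 2)) (B * exp (-(c * min √r (sx n ^ 2))))
      (fun y => Mom (pst r (nuD n η (sx n ^ 2)) y)
        ((1 + B * max (r ^ (-(1 / 4) : ℝ)) (sx n)⁻¹) / r)) ∧
    ∀ κ, 1 ≤ κ → OffY r (piD n η (sx n ^ 2) κ) (B * exp (-(c * min √r (sx n ^ 2))))
      (fun y => Mom (pst r (piD n η (sx n ^ 2) κ) y)
        ((1 + B * max (r ^ (-(1 / 4) : ℝ)) (sx n)⁻¹) / r))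

/-- large times of the soft model: log-concavity -/
def LargeStmt : Prop := ∀ (n : ℕ) (η : ℕ → ℝ) (t κ r a : ℝ) (y : Fin n → ℝ), 0 < κ → 0 < a →
  (∀ k : Fin n, a + κ * t / 2 ≤ r + η k) →
    IsProbabilityMeasure (pst r (piD n η t κ) y) ∧ CovB (pst r (piD n η t κ) y) (1 / a)

/-! ### cube versus sphere -/





/-- **the covariance bound on the cube at the bottom of the window** (hatted units) -/
def WinStmt : Prop := ∀ ε : ℝ, 0 < ε → ∃ C K : ℝ, 0 < C ∧ 1 ≤ K ∧ ∀ᶠ n in atTop,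
  GOE n {W | ¬ ∀ r ∈ Set.Icc K (Tw n / 2), OffY r (muW n W) (C * r ^ (-12 : ℝ))
    fun y => CovB (pst r (muW n W) y) ((1 + C * r ^ (-(1 / 4) : ℝ)) / r)} ≤ ENNReal.ofReal ε

/-! ### glue statements -/

def LcltGlue : Prop := CharStmt → LcltStmt
def SoftGlue : Prop := LcltStmt → SoftStmt
def HardGlue : Prop := SoftStmt → HardStmt
def SWinGlue : Prop := SoftStmt → HardStmt → MomStmt → DomStmt → LowStmt → GapStmt → SWinStmt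

end Crest.Agent.T157.Sp

end
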