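import Crest.Agent.T157.SgD_90
import Crest.Agent.T157.SpDef_87
import Crest.Agent.T157.Q1Def_63
import Crest.Agent.T157.DsD_77
import Crest.Agent.T157.PathB_90

/-!
# Row 157, part C: the quench.  Definitions and leaves (helper72)

Text: `docs/T157_C.md`.  Hatted units as in `StDef_87`.

* static expressions `SE`, marked scalars `mk`, `sc`; `SclStmt IsoStmt ScMeas CvStmt UtStmt`;
* the semigroup comparison `I12Stmt SgStmt TsStmt`;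
* merging: `CylStmt TvStmt SoftStmt StatStmt DiscStmt KlStmt KernStmt OscStmt PiMg MgG`;
* the soft modes are small at small times: `KapStmt MassStmt KillStmt SpecStmt SwapStmt
  PStmt Q3Stmt`;
* `TopGlue` gives `Soft.ABFddStmt`.
-/

set_option autoImplicit false

noncomputable section

namespace Crest.Agent.T157.Cq

open MeasureTheory ProbabilityTheory Matrix Filter Topology Finset Real
open Crest.ProbabilityR.SpinGlassDynamics Crest.Agent.T157.E Crest.Agent.T157.Eig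
open Crest.Agent.T157.St Crest.Agent.T157.Ed
open Crest.Agent.T157.Tr (Off Om PM)
open Crest.Agent.T157.Sp (piD)
open Crest.Agent.T157.Soft (Pn unif ch IsCyl)
open Crest.Agent.T157.Q1 (Down DownStmt LdB)

/-! ### static expressions -/

section abs
variable {ι : Type*} [Fintype ι]

/-- smooth cutoff: `1` on `(-∞, 1]`, `0` on `[2, ∞)` -/
def cut (u : ℝ) : ℝ := smoothTransition (2 - u)
/-- Poissonised static chain -/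
def Qs (K c : ℝ) (μ : Measure (ι → ℝ)) (f : (ι → ℝ) → ℝ) (x : ι → ℝ) : ℝ :=
  ∑' j : ℕ, Chain22.poi c j * (Tk K μ)^[j] f x
/-- the bounded version of `b · Q b`, `b = T_{K'} x` -/
def psiS (μ : Measure (ι → ℝ)) (L K' K c : ℝ) (x : ι → ℝ) : ℝ :=
  Tk K' μ (fun a => Qs K c μ (Tk K' μ fun a' => L * sin (a ⬝ᵥ a' / L)) x) x
/-- Gaussian smoothing -/
def Sm (K : ℝ) (φ : (ι → ℝ) → ℝ) (x : ι → ℝ) : ℝ := ∫ z, φ (K • x + √K • z) ∂gv ι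
/-- marked mean -/
def mk (μ : Measure (ι → ℝ)) (M : Matrix ι ι ℝ) (l : ℝ) (f : (ι → ℝ) → ℝ) : ℝ :=
  ∫ x, cut (l * (x ⬝ᵥ M *ᵥ x)) * f x ∂μ
/-- measurable and bounded by one -/
def B1 (φ : (ι → ℝ) → ℝ) : Prop := Measurable φ ∧ ∀ x, |φ x| ≤ 1

end abs

/-- static expressions with one hole -/
inductive SE : Type
  | var : SE
  | psi (L K' K c : ℝ) : SE
  | const (a : ℝ) : SE
  | add (e e' : SE) : SE
  | mul (e e' : SE) : SE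
  | T (K : ℝ) (e : SE) : SE
  | Q (K c : ℝ) (e : SE) : SE

namespace SE

/-- admissible parameters -/
def Adm : SE → Prop
  | var => True
  | psi L K' K c => 1 ≤ L ∧ 0 < K' ∧ 0 < K ∧ 0 ≤ c
  | const _ => True
  | add e e' => e.Adm ∧ e'.Adm
  | mul e e' => e.Adm ∧ e'.Adm
  | T K e => 0 < K ∧ e.Adm
  | Q K c e => 0 < K ∧ 0 ≤ c ∧ e.Adm

/-- sup bound (if the hole is bounded by one) -/
def bd : SE → ℝ
  | var => 1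
  | psi L _ _ _ => L
  | const a => |a|
  | add e e' => e.bd + e'.bd
  | mul e e' => e.bd * e'.bd
  | T _ e => e.bd
  | Q _ _ e => e.bd

/-- size: bounds the depth and all parameters -/
def sz : SE → ℝ
  | var => 1
  | psi L K' K c => L + K' + K + c + 1
  | const a => |a| + 1
  | add e e' => e.sz + e'.sz + 1
  | mul e e' => e.sz + e'.sz + 1
  | T K e => K + e.sz + 1
  | Q K c e => K + c + e.sz + 1

/-- evaluation -/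
def ev {ι : Type*} [Fintype ι] (μ : Measure (ι → ℝ)) (v : (ι → ℝ) → ℝ) : SE → (ι → ℝ) → ℝ
  | var => v
  | psi L K' K c => psiS μ L K' K c
  | const a => fun _ => a
  | add e e' => fun x => e.ev μ v x + e'.ev μ v x
  | mul e e' => fun x => e.ev μ v x * e'.ev μ v x
  | T K e => Tk K μ (e.ev μ v)
  | Q K c e => Qs K c μ (e.ev μ v)

end SE

/-- couplings of either law and a Gaussian diagonal -/
abbrev PB (b : Bool) (n : ℕ) : Measure (Om n) := (couplingLaw b n).prod (gv (Fin n))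
/-- the matrix of a sample point -/
abbrev Wp {n : ℕ} (p : Om n) : Mat n := Wmat n p.1 p.2
/-- `l² (Ĥ² + l²)⁻¹`, `Ĥ = τ (2 - W)` -/
def fl (n : ℕ) (l : ℝ) (W : Mat n) : Mat n :=
  fnK (fun x => l ^ 2 / ((tau n * (2 - x)) ^ 2 + l ^ 2)) W
/-- the same for `l = 1` in the eigenbasis -/
def fd (n : ℕ) (η : ℕ → ℝ) : Mat n := diagonal fun k => 1 / (η k ^ 2 + 1)
/-- index set of the scalars -/
abbrev IS : Type := {l : ℝ // 0 ≤ l} × {e : SE // e.Adm}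
/-- the marked scalars of the cube model -/
def sc (n : ℕ) (p : Om n) (i : IS) : ℝ :=
  mk (muG n p.1) (fl n 1 (Wp p)) i.1.1 (i.2.1.ev (muG n p.1) 0)

/-- evaluations are measurable and bounded, for every probability law -/
def BdStmt : Prop := ∀ (ι : Type) [Fintype ι] (μ : Measure (ι → ℝ)), IsProbabilityMeasure μ →
  (∀ K φ, 0 < K → B1 φ → B1 (Sm K φ : (ι → ℝ) → ℝ)) ∧
  ∀ v, B1 v → ∀ e : SE, e.Adm → Measurable (e.ev μ v) ∧ ∀ x, |e.ev μ v x| ≤ e.bd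

/-- **continuity of the scalars in the kernel discrepancy** -/
def SclStmt : Prop := ∀ Z ε : ℝ, 0 < ε → ∃ θ : ℝ, 0 ≤ θ ∧ ∀ B : ℝ, ∃ δ : ℝ, 0 < δ ∧
  ∀ (ι : Type) [Fintype ι] (μ ν : Measure (ι → ℝ)), Cp μ → Cp ν → Xk θ μ μ ≤ B → Xk θ ν ν ≤ B →
    D2 θ μ ν ≤ δ → ∀ (M : Matrix ι ι ℝ) (l K₁ : ℝ) (φ : (ι → ℝ) → ℝ) (e : SE), M.PosSemidef →
      M.trace ≤ Z → 0 ≤ l → l ≤ Z → 0 < K₁ → K₁ ≤ Z → B1 φ → e.Adm → e.sz ≤ Z →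
      |mk μ M l (e.ev μ (Sm K₁ φ)) - mk ν M l (e.ev ν (Sm K₁ φ))| ≤ ε

/-- invariance under isometric embeddings -/
def IsoStmt : Prop := ∀ (ι κ : Type) [Fintype ι] [Fintype κ] [DecidableEq κ] (U : Matrix ι κ ℝ),
  Uᵀ * U = 1 → ∀ μ : Measure (κ → ℝ), Cp μ → ∀ v, B1 v → ∀ e : SE, e.Adm →
    ∀ x, e.ev (μ.map fun x => U *ᵥ x) v (U *ᵥ x) = e.ev μ (fun y => v (U *ᵥ y)) x

def ScMeas : Prop := ∀ (n : ℕ) (i : IS), Measurable fun p : Om n => sc n p i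

/-- **joint convergence of the scalars, Gaussian couplings** -/
def CvStmt : Prop := ∀ φ : (IS → ℝ) → ℝ, IsCyl φ → ∃ L : ℝ,
  Tendsto (fun n => ∫ p, φ (sc n p) ∂PB false n) atTop (𝓝 L)

/-- **universality of the scalars** -/
def UtStmt : Prop := ∀ φ : (IS → ℝ) → ℝ, IsCyl φ →
  Tendsto (fun n => ∫ p, φ (sc n p) ∂PB true n - ∫ p, φ (sc n p) ∂PB false n) atTop (𝓝 0)

/-! ### heat bath versus static chain -/

/-- both form inequalities (Gaussian couplings) -/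
def I12Stmt (k : ℝ) : Prop := ∀ e ε : ℝ, 0 < e → 0 < ε → ∃ K₀ : ℝ, 0 < K₀ ∧ ∀ K, K₀ ≤ K →
  Off disorderLaw ε fun n g => ∀ (hn : 0 < n) (hK : 0 ≤ K),
    Sg.I12 (ch hn g) (Sg.stRC (hat n) (gibbsWeight_pos 1 g) hK) (Soft.tau n 1) (k * K) e

/-- the heat flow of `f` is close to its static flow -/
def Sg1 (n : ℕ) (g : Pair n → ℝ) (K c r : ℝ) (f : (Fin n → ℝ) → ℝ) : ℝ :=
  mean (gibbsWeight n 1 g) fun x =>
    (Pn n g r (fun y => f (hat n y)) x - Qs K c (muG n g) f (hat n x)) ^ 2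

/-- **(SG)** for static observables -/
def SgStmt (b : Bool) (k : ℝ) : Prop := ∀ r₁ r₂ B K' δ ε : ℝ, 0 < r₁ → 0 < K' → 0 < δ → 0 < ε →
  ∃ K₀ : ℝ, 0 < K₀ ∧ ∀ K, K₀ ≤ K → ∀ S : List SE, (∀ e ∈ S, e.Adm ∧ e.bd ≤ B) →
    Off (couplingLaw b) ε fun n g => ∀ r ∈ Set.Icc r₁ r₂,
      (∀ e ∈ S, Sg1 n g K (k * K * r) r (e.ev (muG n g) 0) ≤ δ) ∧
      ∑ i, Sg1 n g K (k * K * r) r (Tk K' (muG n g) fun x => x i) ≤ δ

/-- one more step of a static chain changes a smoothed function little (Gaussian couplings) -/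
def TsStmt (k : ℝ) : Prop := ∀ r δ ε : ℝ, 0 < r → 0 < δ → 0 < ε → ∃ K₁ K₀ : ℝ, 0 < K₁ ∧ 0 < K₀ ∧
  ∀ K, K₀ ≤ K → Off disorderLaw ε fun n g => ∀ f, B1 f → ∀ c, k * K * r ≤ c →
    ∫ x, (Qs K c (muG n g) f x - Tk K₁ (muG n g) (Qs K c (muG n g) f) x) ^ 2 ∂muG n g ≤ δ

/-! ### merging -/

/-- reduction to cylinder functions -/
def CylStmt : Prop := ∀ K B ε : ℝ, 0 < K → 0 < ε → ∃ δ : ℝ, 0 < δ ∧
  ∀ (ι : Type) [Fintype ι] [DecidableEq ι] (μ : Measure (ι → ℝ)) (s : Finset ι), Cp μ →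
    Xk (8 * K) μ μ ≤ B → ∑ i ∈ sᶜ, ∑ j ∈ sᶜ, sm μ i j ^ 2 ≤ δ → ∀ ψ, B1 ψ →
    ∃ φ, B1 φ ∧ (∀ y, φ y = φ (keep s y)) ∧ ∫ x, |Tk K μ ψ x - Sm K φ x| ∂μ ≤ ε

/-- conditioning on a large set -/
def TvStmt : Prop := ∀ (ι : Type) [Fintype ι] (μ : Measure (ι → ℝ)) (A : Set (ι → ℝ)) (p K c : ℝ),
  IsProbabilityMeasure μ → MeasurableSet A → μ.real Aᶜ ≤ p → p ≤ 1 / 2 → 0 < K → 0 ≤ c →
  ∀ f, B1 f → ∫ x, |Qs K c μ f x - Qs K c (μ[|A]) f x| ∂(μ[|A]) ≤ 8 * c * p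

/-- good spectra, bounded above -/
def Gb (n : ℕ) (η : ℕ → ℝ) (L w C : ℝ) : Prop :=
  Gd n η (sx n ^ 2) L w C ∧ ∀ k, k < n → η k ≤ 10 * tau n

/-- the soft sphere -/
abbrev piS (n : ℕ) (η : ℕ → ℝ) : Measure (Fin n → ℝ) := piD n η (sx n ^ 2) ((n : ℝ) ^ 2)
/-- the soft sphere on a ball -/
def piB (n : ℕ) (η : ℕ → ℝ) : Measure (Fin n → ℝ) := (piS n η)[|{x | x ⬝ᵥ x ≤ 2 * sx n ^ 2}]
/-- the mark -/
def Xd (n : ℕ) (η : ℕ → ℝ) (x : Fin n → ℝ) : ℝ := x ⬝ᵥ fd n η *ᵥ x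
/-- the mass which relaxes within the time `ρ` -/
def Aq (n : ℕ) (η : ℕ → ℝ) (ρ : ℝ) (x : Fin n → ℝ) : ℝ := ∑ k : Fin n, x k ^ 2 / (ρ⁻¹ + |η k|)

/-- **(3a)** the soft sphere is close to the sphere -/
def SoftStmt : Prop := ∀ L C : ℝ, 0 ≤ L → ∃ w₂ : ℝ, ∀ w, w₂ ≤ w → ∀ θ ε : ℝ, 0 ≤ θ → 0 < ε →
  ∀ᶠ n in atTop, ∀ η, Gb n η L w C → Cp (piB n η) ∧ D2 θ (nuD n η (sx n ^ 2)) (piB n η) ≤ ε

/-- **(3f)** statics of the soft sphere -/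
def StatStmt : Prop := ∀ L C : ℝ, 0 ≤ L → ∃ w₂ : ℝ, ∀ w, w₂ ≤ w → ∃ D : ℝ,
  (∀ ρ : ℝ, 0 < ρ → ∃ c : ℝ, 0 < c ∧ ∀ H : ℝ, 1 ≤ H → ∀ᶠ n in atTop, ∀ η, Gb n η L w C →
    (piS n η).real {x | Aq n η ρ x < c * H ^ (-(1 / 3) : ℝ)} ≤ exp (-H)) ∧
  (∀ a : ℝ, 0 < a → a ≤ 1 → ∀ᶠ n in atTop, ∀ η, Gb n η L w C →
    exp (-(D * a ^ (-(3 / 2) : ℝ))) ≤ (piS n η).real {x | Xd n η x ≤ a}) ∧
  ∀ ε : ℝ, 0 < ε → ∀ᶠ n in atTop, ∀ η, Gb n η L w C → IsProbabilityMeasure (piS n η) ∧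
    (piS n η).real {x | x ⬝ᵥ x ≤ 2 * sx n ^ 2}ᶜ ≤ ε

/-- **(3b,c)** the static flows of the soft sphere do not depend on the channel -/
def DiscStmt : Prop := ∀ L C : ℝ, 0 ≤ L → ∃ w₂ : ℝ, ∀ w, w₂ ≤ w → ∀ r₁ r₂ δ : ℝ, 0 < r₁ → 0 < δ →
  ∃ K₀ : ℝ, 0 < K₀ ∧ ∀ K, K₀ ≤ K → ∀ᶠ n in atTop, ∀ η, Gb n η L w C → ∀ᶠ K' in atTop,
    ∀ K₁ φ, 0 < K₁ → B1 φ → ∀ r ∈ Set.Icc r₁ r₂,
      ∫ x, |Qs K (K * r) (piS n η) (Sm K₁ φ) x - Qs K' (K' * r) (piS n η) (Sm K₁ φ) x|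
        ∂piS n η ≤ δ

/-- drift part of the scheme -/
def Fs (n : ℕ) (η : ℕ → ℝ) (t κ h : ℝ) (x : Fin n → ℝ) : Fin n → ℝ :=
  fun k => √(1 - 2 * η k * h) * x k / √(1 + h * κ * (x ⬝ᵥ x - t))
/-- one step of the scheme -/
def Us (n : ℕ) (η : ℕ → ℝ) (t κ h : ℝ) (v : (Fin n → ℝ) → ℝ) (x : Fin n → ℝ) : ℝ :=
  ∫ ξ, v (Fs n η t κ h x + √(2 * h) • ξ) ∂gv (Fin n)

/-- **(3d)** for a fine channel the static chain is the scheme -/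
def KlStmt : Prop := ∀ (n : ℕ) (η : ℕ → ℝ) (t κ R ε : ℝ), 0 < t → 0 < κ → 0 < ε →
  ∀ᶠ K' : ℝ in atTop, ∀ j : ℕ, (j : ℝ) ≤ R * K' → ∀ v, B1 v →
    ∫ x, |(Tk K' (piD n η t κ))^[j] v x - (Us n η t κ K'⁻¹)^[j] v x| ∂piD n η t κ ≤ ε

/-- `∑_k (1 - 2 η_k h)^m` -/
def fm (n : ℕ) (η : ℕ → ℝ) (h : ℝ) (m : ℕ) : ℝ := ∑ k : Fin n, (1 - 2 * η k * h) ^ m
/-- the renewal sequence, times `κ` -/
def IsRho (n : ℕ) (η : ℕ → ℝ) (t κ h : ℝ) (ρ : ℕ → ℝ) : Prop := ρ 0 = κ ∧ ∀ j,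
  ρ (j + 1) = (1 - h * κ * t) * ρ j + 2 * h ^ 2 * κ * ∑ i ∈ range (j + 1), fm n η h (j - i) * ρ i
/-- response kernel of the mode `k` -/
def Kk (η : ℕ → ℝ) (h : ℝ) (ρ : ℕ → ℝ) (k m : ℕ) : ℝ :=
  h * ∑ i ∈ range (m + 1), ρ (m - i) * (1 - 2 * η k * h) ^ i
/-- weights -/
def Wt (η : ℕ → ℝ) (T : ℝ) (k : ℕ) : ℝ := T / (1 + T * max (η k) 0)

/-- **kernel estimates** -/
def KernStmt : Prop := ∀ L C w : ℝ, 0 ≤ L → 2 * L + 1 ≤ w → ∃ c D u₀ : ℝ, 0 < c ∧ 0 < u₀ ∧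
  ∀ u₁ : ℝ, 0 < u₁ → ∀ᶠ n in atTop, ∀ η, Gb n η L w C → ∀ᶠ h in 𝓝[>] (0 : ℝ),
    ∀ ρ, IsRho n η (sx n ^ 2) ((n : ℝ) ^ 2) h ρ →
    (∀ m : ℕ, m * h ≤ u₀ → 0 ≤ ρ m ∧ ρ m ≤ 2 * (n : ℝ) ^ 2 ∧
      h * ∑ i ∈ range (m + 1), ρ i ≤ D * (√(m * h) + (sx n ^ 2)⁻¹) ∧
      (0 < m → ρ m ≤ D * ((√(m * h))⁻¹ + (sx n ^ 2 * (m * h))⁻¹)) ∧
      (u₁ ≤ m * h → c * (√(m * h))⁻¹ ≤ ρ m ∧ ∀ l : ℕ, 2 * l ≤ m →
        |ρ m - ρ (m - l)| ≤ D * (l * h) * (m * h) ^ (-(3 / 2) : ℝ))) ∧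
    ∀ T, u₁ ≤ T → T ≤ u₀ → ∀ m : ℕ, m * h ≤ T →
      h * ∑ i ∈ range (m + 1), ∑ k : Fin n, Wt η T k * (1 - 2 * η k * h) ^ i ≤
        D * √((m + 1) * h) ∧ ∀ k, k < n →
      Kk η h ρ k m ^ 2 ≤ D * Wt η T k ∧
      (T / 2 ≤ m * h → c * Wt η T k / √T ≤ Kk η h ρ k m) ∧
      ∀ l : ℕ, (m + l) * h ≤ T → 0 < m →
        (Kk η h ρ k (m + l) - Kk η h ρ k m) ^ 2 ≤ D * min 1 ((l : ℝ) / m) * Wt η T k

/-- starting points which merge -/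
def Nice (n : ℕ) (η : ℕ → ℝ) (ρ δ a : ℝ) (x : Fin n → ℝ) : Prop :=
  Xd n η x ≤ δ * Aq n η ρ x ∧ a ≤ Aq n η ρ x ∧ x ⬝ᵥ x ≤ 2 * sx n ^ 2

/-- Lipschitz cylinder functions -/
def Cyl {n : ℕ} (m : ℕ) (Λ : ℝ) (v : (Fin n → ℝ) → ℝ) : Prop := B1 v ∧
  ∀ x y, |v x - v y| ≤ Λ * ∑ k ∈ univ.filter (fun k : Fin n => (k : ℕ) < m), |x k - y k|

/-- **(3e) oscillation lemma** -/
def OscStmt : Prop := ∀ L C w ε : ℝ, 0 ≤ L → 2 * L + 1 ≤ w → 0 < ε → ∃ τ₀ : ℝ, 0 < τ₀ ∧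
  ∀ τ, 0 < τ → τ ≤ τ₀ → ∀ (m : ℕ) (Λ : ℝ), ∃ ρ δ : ℝ, 0 < ρ ∧ 0 < δ ∧ ∀ a : ℝ, 0 < a →
    ∀ᶠ n in atTop, ∀ η, Gb n η L w C → ∀ᶠ h in 𝓝[>] (0 : ℝ), ∀ v, Cyl m Λ v →
      ∀ x y, Nice n η ρ δ a x → Nice n η ρ δ a y → ∀ j : ℕ, τ / 4 ≤ j * h → j * h ≤ 2 * τ →
        |(Us n η (sx n ^ 2) ((n : ℝ) ^ 2) h)^[j] v x -
          (Us n η (sx n ^ 2) ((n : ℝ) ^ 2) h)^[j] v y| ≤ ε

/-- **merging on the soft sphere** -/
def PiMg : Prop := ∀ L C : ℝ, 0 ≤ L → ∃ w₂ : ℝ, ∀ w, w₂ ≤ w → ∀ ε : ℝ, 0 < ε → ∃ τ₀ : ℝ, 0 < τ₀ ∧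
  ∀ τ, 0 < τ → τ ≤ τ₀ → ∀ (m : ℕ) (K₁ : ℝ), 0 < K₁ → ∃ l₁ m₁ c : ℝ, 0 < l₁ ∧ 0 < m₁ ∧ 0 < c ∧
    ∀ H : ℝ, 1 ≤ H → ∃ K₀ : ℝ, 0 < K₀ ∧ ∀ K, K₀ ≤ K → ∀ᶠ n in atTop, ∀ η, Gb n η L w C →
      m₁ ≤ (piB n η).real {x | l₁ * Xd n η x ≤ 1} ∧
      ∀ φ, B1 φ → (∀ y, φ y = φ (keep (univ.filter fun k : Fin n => (k : ℕ) < m) y)) →
        ∀ r ∈ Set.Icc (τ / 2) τ, ∃ z : ℝ, |z| ≤ 1 ∧
          (piB n η).real {x | l₁ * Xd n η x ≤ 2 ∧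
            ε < |Qs K (K * r) (piB n η) (Sm K₁ φ) x - z|} ≤ ε * m₁ ∧
          (piB n η).real {x | Xd n η x ≤ c * H ^ (-(1 / 3) : ℝ) ∧
            ε < |Qs K (K * r) (piB n η) (Sm K₁ φ) x - z|} ≤ exp (-H)

/-- **merging on the cube** (Gaussian couplings) -/
def MgG (k : ℝ) : Prop := ∀ η ε : ℝ, 0 < η → 0 < ε → ∃ τ₀ : ℝ, 0 < τ₀ ∧
  ∀ τ, 0 < τ → τ ≤ τ₀ → ∀ K₁ : ℝ, 0 < K₁ → ∃ l₁ m₁ c : ℝ, 0 < l₁ ∧ 0 < m₁ ∧ 0 < c ∧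
    ∀ H : ℝ, 1 ≤ H → ∃ K₀ : ℝ, 0 < K₀ ∧ ∀ K, K₀ ≤ K → Off PM ε fun n p =>
      m₁ ≤ mk (muG n p.1) (fl n 1 (Wp p)) l₁ 1 ∧ ∀ ψ, B1 ψ → ∀ r ∈ Set.Icc (τ / 2) τ,
        ∀ u, u = Qs K (k * K * r) (muG n p.1) (Tk K₁ (muG n p.1) ψ) →
          (muG n p.1).real {x | x ⬝ᵥ fl n 1 (Wp p) *ᵥ x ≤ c * H ^ (-(1 / 3) : ℝ) ∧
            η < |u x - mk (muG n p.1) (fl n 1 (Wp p)) l₁ u / mk (muG n p.1) (fl n 1 (Wp p)) l₁ 1|}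
            ≤ exp (-H)

/-! ### the soft modes at small times -/

variable {n : ℕ}

/-- the discrete heat-bath step -/
def Ph (w f : Cube n → ℝ) (x : Cube n) : ℝ := (n : ℝ)⁻¹ * ∑ l, siteM w f l x
/-- survival function of the chain killed at rate `V` -/
def kil (w V : Cube n → ℝ) (m : ℕ) : Cube n → ℝ :=
  (fun u x => exp (-(V x / (n * tau n))) * Ph w u x)^[m] 1
/-- number of steps -/
def Mst (n : ℕ) (ε : ℝ) : ℕ := ⌊2 * ε * (n * tau n)⌋₊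
/-- mean over the uniform law -/
def um (f : Cube n → ℝ) : ℝ := ∑ x, unif n x * f x
/-- killing probability -/
def kap (W : Mat n) (ε : ℝ) (V : Cube n → ℝ) : ℝ := 1 - um (kil (ising W 0) V (Mst n ε))
/-- mean occupation functional -/
def occ (W : Mat n) (ε : ℝ) (V : Cube n → ℝ) : ℝ :=
  (n * tau n)⁻¹ * ∑ i ∈ range (Mst n ε), um ((Ph (ising W 0))^[i] V)
/-- quadratic form in hatted units -/
def qf (M : Mat n) (x : Cube n) : ℝ := hat n x ⬝ᵥ M *ᵥ hat n x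
/-- squared linear form in hatted units -/
def sl (a : Fin n → ℝ) (x : Cube n) : ℝ := (a ⬝ᵥ hat n x) ^ 2

/-- **(k1)-(k3)** -/
def KapStmt : Prop := ∀ (n : ℕ) (W : Mat n) (ε : ℝ), 1 ≤ n → 0 < ε →
  (∀ V V' : Cube n → ℝ, (∀ x, 0 ≤ V x) → (∀ x, 0 ≤ V' x) →
    0 ≤ kap W ε V ∧ kap W ε V ≤ 1 ∧ kap W ε V ≤ occ W ε V ∧ kap W ε V ≤ kap W ε (V + V') ∧
    kap W ε (V + V') ≤ kap W ε V + kap W ε V') ∧
  (∀ (F : Mat n) (s : ℝ), 0 ≤ s →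
    ∫ ξ, kap W ε (fun x => s * sl (F *ᵥ ξ) x) ∂gv (Fin n) ≤ kap W ε (fun x => s * qf (F * Fᵀ) x) ∧
    ∀ z, 0 ≤ z → kap W ε (fun x => z * s * qf (F * Fᵀ) x) ≤
      4 * z + 2 * ∫ ξ, kap W ε (fun x => s * sl (F *ᵥ ξ) x) ∂gv (Fin n)) ∧
  ∀ (g : Pair n → ℝ) (d : Fin n → ℝ) (V : Cube n → ℝ) (T a : ℝ), W = Wmat n g d →
    (∀ x, 0 ≤ V x) → 0 < T → 0 < a → 4 ≤ ε * (n * tau n) → ∃ r ∈ Set.Icc (ε / 2) ε,
      um (Pn n g r (Ent.ind fun x => a < V x)) ≤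
        8 * kap W ε (fun x => V x / T) + 2 * T / (ε * a) + 16 / (ε * (n * tau n))

/-- measurability -/
def MsStmt : Prop := ∀ (n : ℕ) (ε l : ℝ), Measurable (fl n l) ∧
  Continuous fun q : Mat n × (Cube n → ℝ) => kap q.1 ε q.2

/-- **MASS** -/
def MassStmt : Prop := ∀ B : ℝ, ∃ D : ℝ, ∀ (n : ℕ) (W F : Mat n) (ν : Cube n → ℝ) (H : ℝ), 1 ≤ n →
  Mgf (muW n W) B → F.PosSemidef → (1 - F).PosSemidef → Chain22.IsP ν → 0 ≤ H →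
  ∑ x, ν x ^ 2 / prob (ising W 0) x ≤ exp H →
  ∑ x, ν x * qf F x ≤ D * (1 + H + F.trace) ^ (1 / 3 : ℝ)

/-- **CRUDE** -/
def CrStmt : Prop := ∀ B a β H₀ : ℝ, 1 / 3 < a → 0 < β → 0 < H₀ → ∃ D : ℝ, ∀ ε : ℝ, 0 < ε → ε ≤ 1 →
  ∀ᶠ n in atTop, ∀ (g : Pair n → ℝ) (d : Fin n → ℝ) (F : Mat n), Down n g a β H₀ →
    Mgf (muG n g) B → F.PosSemidef → (1 - F).PosSemidef →
    occ (Wmat n g d) ε (qf F) ≤ D * (ε ^ (1 - 1 / (3 * a)) + ε * (1 + F.trace) ^ (1 / 3 : ℝ))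

/-- **KILL-TV** -/
def KillStmt : Prop := ∃ D : ℝ, ∀ (n : ℕ) (ε θ : ℝ) (W W' : ℝ → Mat n) (V V' : Cube n → ℝ), 1 ≤ n →
  0 < ε → ε ≤ 1 → 0 ≤ θ → (∀ s i j, HasDerivAt (fun s => W s i j) (W' s i j) s) →
  (∀ s, (W s).IsHermitian) → (∀ x, 0 ≤ V x) → (∀ x, 0 ≤ V' x) →
  (∀ s ∈ Set.Icc 0 (π / 2), ∀ x,
    tau n * ∑ i, ((W' s *ᵥ sv x) i - W' s i i * sv x i) ^ 2 ≤ θ * (V x + 1)) →
  |kap (W (π / 2)) ε (V + V') - kap (W 0) ε (V + V')| ≤ D * √θ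

/-- spectral mass of the windows -/
def SpecStmt (b : Bool) : Prop := ∀ ε : ℝ, 0 < ε → ∃ c D : ℝ, 0 < c ∧ ∀ l₁ : ℝ,
  Off (PB b) ε fun n p => ∀ l ∈ Set.Icc 1 l₁,
    c * l ^ (3 / 2 : ℝ) ≤ (fl n l (Wp p) * fl n l (Wp p)).trace ∧
      (fl n l (Wp p)).trace ≤ D * l ^ (3 / 2 : ℝ)

/-- unit vector along the part of `b` orthogonal to `a` -/
def prp (a b : Fin n → ℝ) : Fin n → ℝ := Cond.unitv (b - ((a ⬝ᵥ b) / (a ⬝ᵥ a)) • a)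
/-- rotation by the angle `s` from `a` to `b` (orthonormal) -/
def rot (a b : Fin n → ℝ) (s : ℝ) : Mat n :=
  1 + (cos s - 1) • (vecMulVec a a + vecMulVec b b) + sin s • (vecMulVec b a - vecMulVec a b)
/-- the two sides of the swap -/
def swp (ε s : ℝ) (W : Mat n) (a b : Fin n → ℝ) : ℝ :=
  kap W ε (fun x => s * sl (Cond.unitv a) x) -
    kap (rot (Cond.unitv a) (prp a b) (π / 2) * W * (rot (Cond.unitv a) (prp a b) (π / 2))ᵀ) ε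
      fun x => s * sl (prp a b) x

/-- **SWAP** -/
def SwapStmt (b : Bool) : Prop := ∀ ε s l l' : ℝ, 0 < ε → ε ≤ 1 → 0 ≤ s → 1 ≤ l → 1 ≤ l' →
  ∀ ω : (Fin 3 → ℝ) → ℝ, ContDiff ℝ (⊤ : ℕ∞) ω → HasCompactSupport ω →
    tsupport ω ⊆ {q | 0 < q 0 ∧ q 2 ^ 2 < q 0 * q 1} →
    Tendsto (fun n => ∫ q : Om n × (Fin n → ℝ) × (Fin n → ℝ),
      ω ![(fl n l' (Wp q.1) *ᵥ q.2.1) ⬝ᵥ (fl n l' (Wp q.1) *ᵥ q.2.1),
          (fl n l (Wp q.1) *ᵥ q.2.2) ⬝ᵥ (fl n l (Wp q.1) *ᵥ q.2.2),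
          (fl n l' (Wp q.1) *ᵥ q.2.1) ⬝ᵥ (fl n l (Wp q.1) *ᵥ q.2.2)] *
        swp ε s (Wp q.1) (fl n l' (Wp q.1) *ᵥ q.2.1) (fl n l (Wp q.1) *ᵥ q.2.2)
      ∂(PB b n).prod ((gv (Fin n)).prod (gv (Fin n)))) atTop (𝓝 0)

/-- the windows below `ε^{-β}` carry the mass per mode of the window `ε^{-β}` -/
def PStmt (b : Bool) (a β : ℝ) : Prop := ∀ γ g z : ℝ, 0 ≤ γ → γ ≤ β → 0 < g → 0 < z →
  ∀ᶠ ε in 𝓝[>] (0 : ℝ), ∀ᶠ n in atTop,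
    ∫ p, kap (Wp p) ε (fun x => ε ^ (g - 1 + 1 / (3 * a) - 3 / 2 * (β - γ)) *
      qf (fl n (ε ^ (-γ)) (Wp p) * fl n (ε ^ (-γ)) (Wp p)) x) ∂PB b n ≤ z

/-- **(Q3)** -/
def Q3Stmt (b : Bool) (a : ℝ) : Prop := ∃ γ : ℝ, 1 / (3 * a) < γ ∧ ∀ η : ℝ, 0 < η →
  ∀ᶠ ε in 𝓝[>] (0 : ℝ), Off (PB b) η fun n p => ∃ r ∈ Set.Icc (ε / 2) ε,
    um (Pn n p.1 r (Ent.ind fun x => ε ^ γ < qf (fl n 1 (Wp p)) x)) ≤ η

/-! ### glue statements -/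

def SclGlue : Prop := BdStmt → SclStmt
def CvGlue : Prop := BdStmt → SclStmt → IsoStmt → ScMeas → CvStmt
def UtGlue : Prop := BdStmt → ScMeas → UtStmt
def I12Glue : Prop := ∀ k : ℝ, 0 < k → Tr.I1Stmt k → Rec.I2Stmt k → I12Stmt k
def SgGlue : Prop := ∀ k : ℝ, 0 < k → BdStmt → I12Stmt k → SgStmt false k
def SgCoin : Prop := ∀ k : ℝ, 0 < k → BdStmt → I12Stmt k → SgStmt true k
def TsGlue : Prop := ∀ k : ℝ, 0 < k → BdStmt → I12Stmt k → Tr.CrudeV disorderLaw → TsStmt k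
def SoftGlue : Prop := StatStmt → SoftStmt
def StatGlue : Prop := Sp.DomStmt → StatStmt
def DiscGlue : Prop := BdStmt → SclStmt → TvStmt → Sp.SWinStmt → Sp.LargeStmt → DiscStmt
def OscGlue : Prop := KernStmt → OscStmt
def PiGlue : Prop := BdStmt → TvStmt → StatStmt → DiscStmt → KlStmt → OscStmt → PiMg
def MgGlue : Prop := ∀ k a : ℝ, 0 < k → 0 < a → BdStmt → SclStmt → IsoStmt → CylStmt → SoftStmt →
  PiMg → I12Stmt k → DownStmt false a → MgG k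
def CrGlue : Prop := MassStmt → CrStmt
def P0Glue : Prop := ∀ (b : Bool) (a : ℝ), 1 / 3 < a → KapStmt → MsStmt → CrStmt → SpecStmt b →
  DownStmt b a → LdB b → PStmt b a 0
def RoundGlue : Prop := ∀ (b : Bool) (a β β' : ℝ), 1 / 3 < a → 0 ≤ β → β ≤ β' → β' ≤ 2 / (3 * a) →
  β' < (1 - 1 / (3 * a)) / 2 + 3 / 4 * β → KapStmt → MsStmt → CrStmt → KillStmt → SpecStmt b →
  SwapStmt b → DownStmt b a → LdB b → PStmt b a β → PStmt b a β'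
def Q3Glue : Prop := ∀ (b : Bool) (a β : ℝ), 1 / 3 < a → 4 / (9 * a) < β → β ≤ 2 / (3 * a) →
  KapStmt → MsStmt → CrStmt → SpecStmt b → DownStmt b a → LdB b → PStmt b a β → Q3Stmt b a
def TopGlue : Prop := ∀ k a : ℝ, 0 < k → 0 < a → BdStmt → ScMeas → CvStmt → UtStmt →
  (∀ b, SgStmt b k) → TsStmt k → MgG k → (∀ b, DownStmt b a) → (∀ b, LdB b) → (∀ b, Q3Stmt b a) →
  Soft.ABFddStmt

/-- the rounds reach an exponent above `4 / (9 a)` -/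
theorem q3_of {b : Bool} {a : ℝ} (ha : 5 / 9 < a) (h0 : P0Glue) (h1 : RoundGlue) (h2 : Q3Glue)
    (k : KapStmt) (m : MsStmt) (c : CrStmt) (kl : KillStmt) (sp : SpecStmt b) (sw : SwapStmt b)
    (d : DownStmt b a) (l : LdB b) : Q3Stmt b a := by
  have a0 : 0 < a := by linarith
  have a3 : 1 / 3 < a := by linarith
  set u : ℝ := 1 / (9 * a) with hu
  have u0 : 0 < u := by positivity
  have u5 : u < 1 / 5 := by rw [hu, div_lt_div_iff₀ (by positivity) (by norm_num)]; linarith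
  have e3 : 1 / (3 * a) = 3 * u := by rw [hu]; field_simp; norm_num
  have e4 : 4 / (9 * a) = 4 * u := by rw [hu]; field_simp
  have e6 : 2 / (3 * a) = 6 * u := by rw [hu]; field_simp; norm_num
  set s : ℝ := min u ((1 - 5 * u) / 8) with hs
  have s0 : 0 < s := lt_min u0 (by linarith)
  have s1 : s ≤ u := min_le_left _ _
  have s2 : s ≤ (1 - 5 * u) / 8 := min_le_right _ _
  have key : ∀ j : ℕ, PStmt b a (min (j * s) (4 * u + s)) := fun j => by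
    induction j with
    | zero =>
      have : min (((0 : ℕ) : ℝ) * s) (4 * u + s) = 0 := by
        rw [Nat.cast_zero, zero_mul]; exact min_eq_left (by linarith)
      rw [this]; exact h0 b a a3 k m c sp d l
    | succ j ih =>
      have j0 : (0 : ℝ) ≤ j * s := by positivity
      refine h1 b a _ _ a3 (le_min j0 (by linarith)) (min_le_min_right _ (by push_cast; linarith))
        ((min_le_right _ _).trans (by linarith)) ?_ k m c kl sp sw d l ih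
      rw [e3]
      push_cast
      rcases le_total (j * s) (4 * u + s) with h | h
      · rw [min_eq_left h]
        have := min_le_left ((j + 1 : ℝ) * s) (4 * u + s)
        linarith
      · rw [min_eq_right h]
        have := min_le_right ((j + 1 : ℝ) * s) (4 * u + s)
        linarith
  obtain ⟨j, hj⟩ := exists_nat_ge ((4 * u + s) / s)
  have := key j
  rw [min_eq_right ((div_le_iff₀ s0).1 hj)] at this
  exact h2 b a _ a3 (by linarith) (by linarith) k m c sp d l this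

end Crest.Agent.T157.Cq

end
private theorem rz_bea2c07918 : type_of% @_root_.Crest.Agent.T157.Cq.SE.bd.eq_def := @_root_.Crest.Agent.T157.Cq.SE.bd.eq_def -- L80
private theorem rz_07fc023ea8 : type_of% @_root_.Crest.Agent.T157.Cq.SE.bd.eq_1 := @_root_.Crest.Agent.T157.Cq.SE.bd.eq_1 -- L80
private theorem rz_c18a0ff66c : type_of% @_root_.Crest.Agent.T157.Cq.SE.ev.eq_def := @_root_.Crest.Agent.T157.Cq.SE.ev.eq_def -- L100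
private theorem rz_7d684ee977 : type_of% @_root_.Crest.Agent.T157.Cq.SE.ev.eq_1 := @_root_.Crest.Agent.T157.Cq.SE.ev.eq_1 -- L100
private theorem rz_bdcd814acc : type_of% @_root_.Crest.Agent.T157.Cq.SE.sz.eq_def := @_root_.Crest.Agent.T157.Cq.SE.sz.eq_def -- L90
private theorem rz_4798757de1 : type_of% @_root_.Crest.Agent.T157.Cq.SE.sz.eq_1 := @_root_.Crest.Agent.T157.Cq.SE.sz.eq_1 -- L90
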