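import Crest.Agent.T157.EdBase_88
import Crest.Agent.T157.ConcS_16
import Crest.Agent.T157.Weak_90
import Crest.Agent.T157.EdDetA_88

-- ▼ part T157/EdNd_66
section

/-!
# Row 157, part E: the top eigenvalue sticks out with positive probability (helper66)

`nondegGlue : NondegGlue`.  Test the tridiagonal form with a tent of width `2 ⌈s²⌉`; the diagonal
noise is Gaussian with standard deviation comparable to the norm, the off-diagonal noise is
independent of it and has bounded variance.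
-/

set_option autoImplicit false
set_option linter.unusedSectionVars false

noncomputable section

namespace Crest.Agent.T157.EdNd

open MeasureTheory ProbabilityTheory Matrix Filter Topology Finset
open Crest.Agent.T157.E Crest.Agent.T157.Eig Crest.Agent.T157.Cond Crest.Agent.T157.Ed

variable {n : ℕ}

/-! ### the two noises -/

/-- norm of the part of a row to the right of the diagonal -/
def chi (i : Fin n) (r : Fin n → ℝ) : ℝ := Real.sqrt (∑ j ∈ univ.filter (i < ·), r j ^ 2)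

lemma measurable_chi (i : Fin n) : Measurable (chi i) := by
  unfold chi; fun_prop

lemma indep_row (i : Fin n) : IndepFun (fun r : Fin n → ℝ => r i) (chi i) (gv (Fin n)) := by
  have h0 : iIndepFun (fun (j : Fin n) (r : Fin n → ℝ) => r j) (gv (Fin n)) :=
    iIndepFun_pi (X := fun _ (t : ℝ) => t) fun _ => aemeasurable_id'
  have h1 := h0.indepFun_finset {i} (univ.filter (i < ·)) (by simp) fun j => measurable_pi_apply j
  have m1 : Measurable fun a : ({i} : Finset (Fin n)) → ℝ => a ⟨i, mem_singleton_self i⟩ :=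
    measurable_pi_apply _
  have m2 : Measurable fun a : (univ.filter (i < ·) : Finset (Fin n)) → ℝ =>
      Real.sqrt (∑ j, a j ^ 2) := by fun_prop
  have h2 := h1.comp m1 m2
  have e : chi i = (fun a : (univ.filter (i < ·) : Finset (Fin n)) → ℝ =>
      Real.sqrt (∑ j, a j ^ 2)) ∘ fun (r : Fin n → ℝ) j => r j := by
    funext r
    simp only [chi, Function.comp]
    rw [Finset.sum_coe_sort (univ.filter (i < ·)) fun j => r j ^ 2]
  rw [e]
  exact h2

lemma map_diag : (gm n).map (fun g i => g i i) = gv (Fin n) := by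
  have h := Measure.pi_map_pi (μ := fun _ : Fin n => gv (Fin n))
    (f := fun i (r : Fin n → ℝ) => r i) (hμ := fun i => by
      rw [(measurePreserving_eval (fun _ : Fin n => gaussianReal 0 1) i).map_eq]; infer_instance)
    fun i => (measurable_pi_apply i).aemeasurable
  rw [h]
  congr 1
  funext i
  exact (measurePreserving_eval (fun _ : Fin n => gaussianReal 0 1) i).map_eq

lemma indep_diag :
    IndepFun (fun (g : Fin n → Fin n → ℝ) i => g i i) (fun g i => chi i (g i)) (gm n) := by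
  have m1 : Measurable fun (g : Fin n → Fin n → ℝ) i => g i i := by fun_prop
  have m2 : Measurable fun (g : Fin n → Fin n → ℝ) i => chi i (g i) :=
    measurable_pi_lambda _ fun i => (measurable_chi i).comp (measurable_pi_apply i)
  have : ∀ i : Fin n, IsProbabilityMeasure ((gv (Fin n)).map (chi i)) := fun i =>
    Measure.isProbabilityMeasure_map (measurable_chi i).aemeasurable
  have hrow : ∀ i : Fin n, MeasurePreserving (fun r : Fin n → ℝ => (r i, chi i r)) (gv (Fin n))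
      ((gaussianReal 0 1).prod ((gv (Fin n)).map (chi i))) := fun i => by
    refine ⟨(measurable_pi_apply i).prodMk (measurable_chi i), ?_⟩
    rw [(indepFun_iff_map_prod_eq_prod_map_map (measurable_pi_apply i).aemeasurable
      (measurable_chi i).aemeasurable).1 (indep_row i),
      (measurePreserving_eval (fun _ : Fin n => gaussianReal 0 1) i).map_eq]
  have h1 := (measurePreserving_arrowProdEquivProdArrow ℝ ℝ (Fin n) (fun _ => gaussianReal 0 1)
    fun i => (gv (Fin n)).map (chi i)).comp (measurePreserving_pi _ _ hrow)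
  rw [indepFun_iff_map_prod_eq_prod_map_map m1.aemeasurable m2.aemeasurable, map_diag,
    Measure.pi_map_pi fun i => (measurable_chi i).aemeasurable]
  exact h1.map_eq

lemma map_unit {e : Fin n → ℝ} (he : e ⬝ᵥ e = 1) :
    (gv (Fin n)).map (fun x => e ⬝ᵥ x) = gaussianReal 0 1 := by
  have hm : Measurable fun x : Fin n → ℝ => e ⬝ᵥ x := by fun_prop
  refine Measure.ext_of_charFun (funext fun t => ?_)
  have h1 := CF_gv (t • e)
  rw [charFun_gaussianReal, charFun_apply_real, integral_map hm.aemeasurable (by fun_prop)]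
  simp only [CF, smul_dotProduct, dotProduct_smul, he, smul_eq_mul] at h1
  convert h1 using 2
  · push_cast; rfl
  · push_cast; simp; ring

lemma integrable_sq (j : Fin n) : Integrable (fun r : Fin n → ℝ => r j ^ 2) (gv (Fin n)) :=
  (((memLp_id_gaussianReal (μ := 0) (v := 1) 2).comp_measurePreserving
    (measurePreserving_eval (fun _ : Fin n => gaussianReal 0 1) j))).integrable_sq

lemma integral_sq (j : Fin n) : ∫ r : Fin n → ℝ, r j ^ 2 ∂gv (Fin n) = 1 := by
  have h1 := (measurePreserving_eval (fun _ : Fin n => gaussianReal 0 1) j).map_eq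
  have h2 : ∫ t, t ^ 2 ∂gaussianReal 0 1 = 1 := by
    have h3 := variance_fun_id_gaussianReal (μ := 0) (v := 1)
    rw [variance_eq_integral aemeasurable_id'] at h3
    simpa using h3
  rw [← h2, ← h1, integral_map (measurable_pi_apply j).aemeasurable (by fun_prop)]

lemma chi_sq (i : Fin n) (r : Fin n → ℝ) : chi i r ^ 2 = ∑ j ∈ univ.filter (i < ·), r j ^ 2 :=
  Real.sq_sqrt (sum_nonneg fun _ _ => sq_nonneg _)

lemma memLp_chi (i : Fin n) : MemLp (chi i) 2 (gv (Fin n)) := by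
  rw [memLp_two_iff_integrable_sq (measurable_chi i).aestronglyMeasurable]
  simp only [chi_sq]
  exact integrable_finsetSum _ fun j _ => integrable_sq j

lemma rowB_succ (g : Fin n → Fin n → ℝ) (i : Fin n) : rowB n g (i + 1) = chi i (g i) :=
  ext_succ _ i

lemma bet_succ (i : Fin n) : bet n (i + 1) = ∫ r, chi i r ∂gv (Fin n) := by
  rw [bet, if_neg (by omega)]
  simp only [rowB_succ]
  have h1 := (measurePreserving_eval (fun _ : Fin n => gv (Fin n)) i).map_eq
  conv_rhs => rw [← h1]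
  rw [integral_map (measurable_pi_apply i).aemeasurable (measurable_chi i).aestronglyMeasurable]

lemma var_chi {s : ℝ} (h : Coef n s (bet n)) (i : Fin n) : Var[chi i; gv (Fin n)] ≤ 2 := by
  rw [variance_eq_sub (memLp_chi i), ← bet_succ]
  have h1 : ∫ r, (chi i ^ 2) r ∂gv (Fin n) = (n : ℝ) - 1 - i := by
    simp only [Pi.pow_apply, chi_sq]
    rw [integral_finsetSum _ fun j _ => integrable_sq j]
    simp only [integral_sq, sum_const, nsmul_eq_mul, mul_one]
    rw [Finset.filter_lt_eq_Ioi, Fin.card_Ioi]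
    have := i.2
    rw [Nat.cast_sub (by omega), Nat.cast_sub (by omega)]
    simp
  have h2 := h.lo (i + 1) (by omega)
  have h3 : (n : ℝ) - ((i + 1 : ℕ) : ℝ) - 2 ≤ Real.sqrt ((n : ℝ) - ((i + 1 : ℕ) : ℝ) - 2) ^ 2 := by
    rcases le_total 0 ((n : ℝ) - ((i + 1 : ℕ) : ℝ) - 2) with h0 | h0
    · rw [Real.sq_sqrt h0]
    · exact h0.trans (sq_nonneg _)
  have h4 := pow_le_pow_left₀ (Real.sqrt_nonneg _) h2 2
  rw [h1]
  push_cast at h3 h4 ⊢
  linarith

lemma cheb {s : ℝ} (h : Coef n s (bet n)) (c : Fin n → ℝ) {K : ℝ} (hK : 0 < K)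
    (hc : 4 * ∑ i, c i ^ 2 ≤ K ^ 2) :
    1 / 2 ≤ (gm n).real {g | |∑ i, c i * (chi i (g i) - bet n (i + 1))| < K} := by
  set X : (i : Fin n) → (Fin n → ℝ) → ℝ := fun i r => c i * (chi i r - bet n (i + 1)) with hX
  have hm : ∀ i, MemLp (X i) 2 (gv (Fin n)) := fun i =>
    ((memLp_chi i).sub (memLp_const _)).const_mul _
  have hm' : ∀ i, MemLp (fun g : Fin n → Fin n → ℝ => X i (g i)) 2 (gm n) := fun i =>
    (hm i).comp_measurePreserving (measurePreserving_eval (fun _ : Fin n => gv (Fin n)) i)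
  have hv := variance_sum_pi (μ := fun _ : Fin n => gv (Fin n)) hm
  have hS : (∑ i, fun g : Fin n → Fin n → ℝ => X i (g i)) = fun g => ∑ i, X i (g i) := by
    funext g; simp
  rw [hS] at hv
  have hL : MemLp (fun g : Fin n → Fin n → ℝ => ∑ i, X i (g i)) 2 (gm n) :=
    memLp_finsetSum _ fun i _ => hm' i
  have h0 : ∫ g, ∑ i, X i (g i) ∂gm n = 0 := by
    rw [integral_finsetSum _ fun i _ => (hm' i).integrable one_le_two]
    refine sum_eq_zero fun i _ => ?_
    have h1 := (measurePreserving_eval (fun _ : Fin n => gv (Fin n)) i).map_eq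
    have h2 : ∫ r, X i r ∂gv (Fin n) = 0 := by
      simp only [hX]
      rw [integral_const_mul, integral_sub ((memLp_chi i).integrable one_le_two)
        (integrable_const _), ← bet_succ]
      simp
    rw [← h2]
    conv_rhs => rw [← h1]
    rw [integral_map (measurable_pi_apply i).aemeasurable
      (((measurable_chi i).sub_const _).const_mul _).aestronglyMeasurable]
  have hvar : ∑ i, Var[X i; gv (Fin n)] ≤ 2 * ∑ i, c i ^ 2 := by
    rw [mul_sum]
    refine sum_le_sum fun i _ => ?_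
    have h1 : Var[X i; gv (Fin n)] = c i ^ 2 * Var[chi i; gv (Fin n)] := by
      simp only [hX]
      rw [variance_const_mul, variance_sub_const (measurable_chi i).aestronglyMeasurable]
    rw [h1]
    nlinarith [var_chi h i, sq_nonneg (c i)]
  have hch := meas_ge_le_variance_div_sq hL hK
  rw [h0, hv] at hch
  simp only [sub_zero] at hch
  have hms : MeasurableSet {g : Fin n → Fin n → ℝ | K ≤ |∑ i, X i (g i)|} := by
    refine measurableSet_le measurable_const (Measurable.abs (Finset.measurable_sum _ fun i _ => ?_))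
    exact (((measurable_chi i).comp (measurable_pi_apply i)).sub_const _).const_mul _
  have h2 : (gm n).real {g | K ≤ |∑ i, X i (g i)|} ≤ 1 / 2 := by
    refine ENNReal.toReal_le_of_le_ofReal (by norm_num) (hch.trans (ENNReal.ofReal_le_ofReal ?_))
    rw [div_le_iff₀ (by positivity)]
    linarith
  have h3 := probReal_compl_eq_one_sub (μ := gm n) hms
  have h4 : {g : Fin n → Fin n → ℝ | K ≤ |∑ i, X i (g i)|}ᶜ =
      {g | |∑ i, c i * (chi i (g i) - bet n (i + 1))| < K} := by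
    ext g; simp [hX]
  rw [h4] at h3
  linarith

/-- both events together -/
lemma prob_both {s : ℝ} (h : Coef n s (bet n)) {e : Fin n → ℝ} (he : e ⬝ᵥ e = 1)
    (c : Fin n → ℝ) {K : ℝ} (hK : 0 < K) (hc : 4 * ∑ i, c i ^ 2 ≤ K ^ 2) (y : ℝ) :
    (gaussianReal 0 1).real (Set.Ici y) / 2 ≤ (gm n).real {g | y ≤ e ⬝ᵥ (fun i => g i i) ∧
      |∑ i, c i * (chi i (g i) - bet n (i + 1))| < K} := by
  have m1 : Measurable fun (g : Fin n → Fin n → ℝ) i => g i i := by fun_prop
  have m3 : Measurable fun x : Fin n → ℝ => e ⬝ᵥ x := by fun_prop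
  have hS : MeasurableSet {x : Fin n → ℝ | y ≤ e ⬝ᵥ x} := measurableSet_le measurable_const m3
  have hT : MeasurableSet {t : Fin n → ℝ | |∑ i, c i * (t i - bet n (i + 1))| < K} :=
    measurableSet_lt (by fun_prop) measurable_const
  have h1 := (indep_diag (n := n)).measure_inter_preimage_eq_mul _ _ hS hT
  have h2 : gm n ((fun (g : Fin n → Fin n → ℝ) i => g i i) ⁻¹' {x | y ≤ e ⬝ᵥ x}) =
      gaussianReal 0 1 (Set.Ici y) := by
    rw [← Measure.map_apply m1 hS, map_diag, ← map_unit he, Measure.map_apply m3 measurableSet_Ici]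
    rfl
  have h3 := cheb h c hK hc
  have h4 : (gm n).real {g | y ≤ e ⬝ᵥ (fun i => g i i) ∧
      |∑ i, c i * (chi i (g i) - bet n (i + 1))| < K} = (gaussianReal 0 1).real (Set.Ici y) *
      (gm n).real {g | |∑ i, c i * (chi i (g i) - bet n (i + 1))| < K} := by
    rw [h2] at h1
    simp only [Measure.real, ← ENNReal.toReal_mul]
    exact congrArg ENNReal.toReal h1
  rw [h4]
  have h5 : 0 ≤ (gaussianReal 0 1).real (Set.Ici y) := measureReal_nonneg
  nlinarith

lemma gauss_pos (y : ℝ) : 0 < (gaussianReal 0 1).real (Set.Ici y) := by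
  refine ENNReal.toReal_pos (fun h => ?_) (measure_ne_top _ _)
  have := gaussianReal_absolutelyContinuous' 0 (v := 1) one_ne_zero h
  simp at this

/-! ### the tent -/

/-- tent of height `p` and width `2p` -/
def tent (p i : ℕ) : ℝ := max 0 (min (i : ℝ) (2 * p - i))

lemma tent_nonneg (p i : ℕ) : 0 ≤ tent p i := le_max_left _ _

lemma tent_le (p i : ℕ) : tent p i ≤ p := by
  refine max_le (Nat.cast_nonneg p) ?_
  rcases le_total (i : ℝ) p with h | h
  · exact (min_le_left _ _).trans h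
  · exact (min_le_right _ _).trans (by linarith)

lemma tent_zero (p : ℕ) : tent p 0 = 0 := by
  simp [tent]

lemma tent_of_le {p i : ℕ} (h : 2 * p ≤ i) : tent p i = 0 := by
  have h' : (2 * p : ℝ) ≤ i := by exact_mod_cast h
  exact max_eq_left ((min_le_right _ _).trans (by linarith))

lemma tent_eq {p i : ℕ} (h : i ≤ p) : tent p i = i := by
  have h' : (i : ℝ) ≤ p := by exact_mod_cast h
  rw [tent, min_eq_left (by linarith), max_eq_right (Nat.cast_nonneg i)]

lemma tent_step (p i : ℕ) : (tent p (i + 1) - tent p i) ^ 2 ≤ 1 := by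
  have h : |tent p (i + 1) - tent p i| ≤ 1 := by
    unfold tent
    push_cast
    rw [abs_le]
    constructor <;> simp only [max_def, min_def] <;> split_ifs <;> linarith
  rw [← sq_abs]
  exact pow_le_one₀ (abs_nonneg _) h

lemma sum_cut {p : ℕ} (hp : 2 * p ≤ n) (F : ℕ → ℝ) (hF : ∀ i, 2 * p ≤ i → F i = 0) :
    ∑ i ∈ range (n + 1), F i = ∑ i ∈ range (2 * p), F i :=
  (sum_subset (range_subset_range.2 (by omega)) fun i _ hi => hF i (by simpa using hi)).symm

lemma adm_tent {p : ℕ} (hp : 2 * p ≤ n) : Adm n (tent p) :=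
  ⟨tent_zero p, fun _ hi => tent_of_le (by omega)⟩

lemma cube_le (p : ℕ) : (p : ℝ) ^ 3 ≤ 3 * ∑ i ∈ range (p + 1), (i : ℝ) ^ 2 := by
  induction p with
  | zero => simp
  | succ p ih =>
    rw [sum_range_succ]
    push_cast
    have : (0 : ℝ) ≤ p := Nat.cast_nonneg p
    nlinarith

lemma nrm_tent {p : ℕ} (hp : 2 * p ≤ n) : (p : ℝ) ^ 3 ≤ 3 * nrm n (tent p) := by
  refine (cube_le p).trans (mul_le_mul_of_nonneg_left ?_ (by norm_num))
  have h1 : ∑ i ∈ range (p + 1), (i : ℝ) ^ 2 = ∑ i ∈ range (p + 1), tent p i ^ 2 :=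
    sum_congr rfl fun i hi => by rw [tent_eq (by simpa [Nat.lt_succ_iff] using hi)]
  rw [h1]
  exact sum_le_sum_of_subset_of_nonneg (range_subset_range.2 (by omega)) fun _ _ _ => sq_nonneg _

lemma kin_tent {p : ℕ} (hp : 2 * p ≤ n) {s : ℝ} (hs : s ^ 2 ≤ p) :
    kin n s (tent p) ≤ 6 * nrm n (tent p) := by
  have h1 : ∑ i ∈ range (n + 1), (tent p (i + 1) - tent p i) ^ 2 ≤ 2 * p := by
    rw [sum_cut hp _ fun i hi => by rw [tent_of_le hi, tent_of_le (by omega)]; simp]
    refine (sum_le_sum fun i _ => tent_step p i).trans ?_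
    simp
  have h2 : s ^ 4 ≤ (p : ℝ) ^ 2 := by
    have := pow_le_pow_left₀ (sq_nonneg s) hs 2
    linarith [show (s ^ 2) ^ 2 = s ^ 4 by ring]
  have h3 := nrm_tent hp
  have h4 : (0 : ℝ) ≤ p := Nat.cast_nonneg p
  have h5 : kin n s (tent p) ≤ (p : ℝ) ^ 2 * (2 * p) :=
    mul_le_mul h2 h1 (sum_nonneg fun _ _ => sq_nonneg _) (sq_nonneg _)
  nlinarith

lemma pot_tent {p : ℕ} {s : ℝ} (hs0 : 0 < s) (hs : (p : ℝ) ≤ 2 * s ^ 2) :
    pot n s (tent p) ≤ 4 * nrm n (tent p) := by
  rw [pot, nrm, mul_sum]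
  refine sum_le_sum fun i _ => ?_
  rcases le_total (2 * p) i with h | h
  · rw [tent_of_le h]; simp
  · have h' : (i : ℝ) ≤ 2 * p := by exact_mod_cast h
    refine mul_le_mul_of_nonneg_right ?_ (sq_nonneg _)
    rw [div_le_iff₀ (by positivity)]
    linarith

lemma cs_tent {p : ℕ} (hp : 2 * p ≤ n) :
    nrm n (tent p) ^ 2 ≤ 2 * p * ∑ i : Fin n, (tent p (i + 1) ^ 2) ^ 2 := by
  rw [← sum_range_succ_eq (fun i => (tent p i ^ 2) ^ 2) (by simp [tent_zero]), nrm,
    sum_cut hp _ fun i hi => by rw [tent_of_le hi]; simp,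
    sum_cut hp _ fun i hi => by rw [tent_of_le hi]; simp]
  have := sq_sum_le_card_mul_sum_sq (s := range (2 * p)) (f := fun i => tent p i ^ 2)
  simpa using this

lemma prod_tent (p : ℕ) :
    ∑ i : Fin n, (tent p (i + 1) * tent p (i + 1 + 1)) ^ 2 ≤ (p : ℝ) ^ 2 * nrm n (tent p) := by
  rw [nrm, sum_range_succ_eq _ (by simp [tent_zero]), mul_sum]
  refine sum_le_sum fun i _ => ?_
  rw [mul_pow, mul_comm]
  exact mul_le_mul_of_nonneg_right
    (pow_le_pow_left₀ (tent_nonneg _ _) (tent_le _ _) 2) (sq_nonneg _)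

lemma osc_zero (l j : ℕ) : osc 0 l j = 0 :=
  le_antisymm (osc_le fun r _ => by simp) (osc_nonneg _ _ _)

lemma kap_zero {s : ℝ} (hs0 : 0 < s) {p : ℕ} (hs : s ^ 2 ≤ p) : kap n s 0 0 p ≤ 1 := by
  refine ciSup_le fun j => ?_
  have hp : (0 : ℝ) < p := lt_of_lt_of_le (by positivity) hs
  have h1 : (s ^ 2 / p) ^ 2 ≤ 1 := pow_le_one₀ (by positivity) ((div_le_one hp).2 hs)
  have h2 : 0 ≤ ((j : ℕ) : ℝ) * p / (64 * s ^ 2) := by positivity
  simp only [osc_zero]
  norm_num
  linarith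

lemma Qf_split (s : ℝ) (β a x u : ℕ → ℝ) (hu : u 0 = 0) : Qf n s a (bx β x) u =
    Qf n s 0 (bx β 0) u - ∑ i : Fin n, s * u (i + 1) ^ 2 * a (i + 1) -
      ∑ i : Fin n, s * (u (i + 1) * u (i + 1 + 1)) * x (i + 1) := by
  rw [← sum_range_succ_eq (fun i => s * u i ^ 2 * a i) (by simp [hu]),
    ← sum_range_succ_eq (fun i => s * (u i * u (i + 1)) * x i) (by simp [hu])]
  simp only [Qf, bx, mul_sum, Pi.zero_apply]
  rw [sub_sub, sub_sub, ← sum_add_distrib, ← sum_add_distrib]
  congr 1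
  exact sum_congr rfl fun i _ => by ring

/-! ### the statement -/

theorem nondegGlue : NondegGlue := by
  intro hT hB hL x
  set y : ℝ := 2 * (71 + |x|) with hy
  refine ⟨(gaussianReal 0 1).real (Set.Ici y) / 2, by have := gauss_pos y; positivity, ?_⟩
  filter_upwards [tendsto_sx.eventually_ge_atTop 2, eventually_ge_atTop 8] with n hs2 hn
  set s := sx n with hs
  have hs0 : 0 < s := by linarith
  have hC := hB n (by omega)
  set p := ⌈s ^ 2⌉₊ with hp
  have hp1 : s ^ 2 ≤ p := Nat.le_ceil _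
  have hs4 : 4 ≤ s ^ 2 := by nlinarith
  have hp2 : (p : ℝ) ≤ 2 * s ^ 2 := by
    have := Nat.ceil_lt_add_one (sq_nonneg s)
    linarith
  have hp0 : (0 : ℝ) < p := by linarith
  have hpn : 2 * p ≤ n := by
    have h1 : (2 * p : ℝ) ≤ n := by
      rw [← hC.hn]
      have : s ^ 6 = s ^ 2 * (s ^ 2 * s ^ 2) := by ring
      nlinarith [mul_le_mul hs4 hs4 (by norm_num) (sq_nonneg s)]
    exact_mod_cast h1
  set u := tent p with hu
  set N := nrm n u with hN
  have hN3 : (p : ℝ) ^ 3 ≤ 3 * N := nrm_tent hpn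
  have hN0 : 0 < N := by have := pow_pos hp0 3; linarith
  -- the deterministic part
  have hQ0 : Qf n s 0 (bx (bet n) 0) u ≤ 61 * N := by
    have h1 := (hL n s (bet n) 0 0 p hn hC (by exact_mod_cast hp0) u (adm_tent hpn)).2
    have h2 := kin_tent hpn hp1
    have h3 := pot_tent (n := n) hs0 hp2
    have h4 := mul_le_mul_of_nonneg_right (kap_zero (n := n) hs0 hp1) hN0.le
    linarith
  -- the Gaussian direction
  set w : Fin n → ℝ := fun i => s * u (i + 1) ^ 2 * Real.sqrt 2 with hw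
  have hww : w ⬝ᵥ w = 2 * s ^ 2 * ∑ i : Fin n, (u (i + 1) ^ 2) ^ 2 := by
    simp only [dotProduct, hw, mul_sum]
    refine sum_congr rfl fun i _ => ?_
    have := Real.mul_self_sqrt (by norm_num : (0 : ℝ) ≤ 2)
    linear_combination (s ^ 2 * (u (i + 1) ^ 2) ^ 2) * this
  set σ := Real.sqrt (w ⬝ᵥ w) with hσ
  have hσ2 : σ ^ 2 = w ⬝ᵥ w := Real.sq_sqrt (dot_self_nonneg w)
  have hσN : N / 2 ≤ σ := by
    refine Real.le_sqrt_of_sq_le ?_
    have h1 : N ^ 2 ≤ _ := cs_tent hpn
    have h2 : 0 ≤ ∑ i : Fin n, (u (i + 1) ^ 2) ^ 2 := sum_nonneg fun _ _ => sq_nonneg _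
    have h3 := mul_le_mul_of_nonneg_right hp2 h2
    rw [hww]
    nlinarith [sq_nonneg N]
  have hσ0 : 0 < σ := by linarith
  have he : (σ⁻¹ • w) ⬝ᵥ (σ⁻¹ • w) = 1 := by
    rw [smul_dotProduct, dotProduct_smul, ← hσ2, smul_eq_mul, smul_eq_mul]
    field_simp
  set c : Fin n → ℝ := fun i => 2 * s * (u (i + 1) * u (i + 1 + 1)) with hc
  have hcc : 4 * ∑ i, c i ^ 2 ≤ (10 * N) ^ 2 := by
    have h1 : ∑ i, c i ^ 2 = 4 * s ^ 2 * ∑ i : Fin n, (u (i + 1) * u (i + 1 + 1)) ^ 2 := by
      rw [mul_sum]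
      exact sum_congr rfl fun i _ => by simp only [hc]; ring
    have h2 : ∑ i : Fin n, (u (i + 1) * u (i + 1 + 1)) ^ 2 ≤ (p : ℝ) ^ 2 * N := prod_tent p
    have h3 : s ^ 2 * ∑ i : Fin n, (u (i + 1) * u (i + 1 + 1)) ^ 2 ≤ p * ((p : ℝ) ^ 2 * N) :=
      mul_le_mul hp1 h2 (sum_nonneg fun _ _ => sq_nonneg _) hp0.le
    have h4 := mul_le_mul_of_nonneg_right hN3 hN0.le
    rw [h1]
    nlinarith [sq_nonneg N]
  refine (prob_both hC he c (by positivity) hcc y).trans ?_
  -- transfer to the tridiagonal model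
  have hA : MeasurableSet {l : ℕ → ℝ | tau n * (2 - l 0) ≤ -x} :=
    measurableSet_le (by fun_prop) measurable_const
  have hG : (GOE n).real {W | Lam n W 0 ≤ -x} =
      (gm n).real {g | tau n * (2 - lam (Tm n g) 0) ≤ -x} := by
    have h1 := congrArg (fun μ : Measure (ℕ → ℝ) => μ {l | tau n * (2 - l 0) ≤ -x}) (hT n)
    rw [Measure.map_apply measurable_lam hA,
      Measure.map_apply (f := fun g => (lam (Tm n g) : ℕ → ℝ))
        (measurable_lam.comp (measurable_Tm n)) hA] at h1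
    exact congrArg ENNReal.toReal h1
  rw [hG]
  refine measureReal_mono fun g hg => ?_
  obtain ⟨g1, g2⟩ := hg
  show tau n * (2 - lam (Tm n g) 0) ≤ -x
  rw [Lam_Tm g (by omega)]
  have h1 := quad_le_top (Hm_herm (n := n) s (rowA n g) (bx (bet n) (rowX n g))) (res n u)
  rw [quad_Hm, ← nrm_ext, ext_res (adm_tent hpn), Qf_split _ _ _ _ _ (tent_zero p)] at h1
  have h2 : ∑ i : Fin n, s * u (i + 1) ^ 2 * rowA n g (i + 1) = w ⬝ᵥ fun i => g i i := by
    simp only [dotProduct, hw, rowA, ext_succ]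
    exact sum_congr rfl fun i _ => by ring
  have h3 : ∑ i : Fin n, s * (u (i + 1) * u (i + 1 + 1)) * rowX n g (i + 1) =
      ∑ i, c i * (chi i (g i) - bet n (i + 1)) := by
    refine sum_congr rfl fun i _ => ?_
    rw [rowX, if_neg (by omega), rowB_succ]
    simp only [hc]; ring
  have h4 : σ * y ≤ w ⬝ᵥ fun i => g i i := by
    rw [smul_dotProduct, smul_eq_mul] at g1
    have := mul_le_mul_of_nonneg_left g1 hσ0.le
    rwa [mul_inv_cancel_left₀ hσ0.ne'] at this
  have h5 : N / 2 * y ≤ σ * y := mul_le_mul_of_nonneg_right hσN (by positivity)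
  have h6 := (abs_lt.1 g2).1
  have h7 := mul_le_mul_of_nonneg_right (le_abs_self x) hN0.le
  change -(Qf n s 0 (bx (bet n) 0) u - _ - _) ≤ _ * N at h1
  rw [h2, h3] at h1
  refine le_of_mul_le_mul_right ?_ hN0
  rw [hy] at h5
  nlinarith

end Crest.Agent.T157.EdNd

end
end

-- ▼ part T157/EdOsc_7
section

/-!
# Row 157, part E: edge limit — `BetStmt`, `OscStmt`, `KapGlue` (helper7)
-/

set_option autoImplicit false

noncomputable section

namespace Crest.Agent.T157.Ed.Osc7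

open MeasureTheory ProbabilityTheory Filter Topology Finset
open Crest.Agent.T157.E Crest.Agent.T157.Ed
open Crest.Agent.T157.Conc (ELip en ex ex_add ex_mono ex_zero ex_ne_top)
open scoped ENNReal

/-- resampling one coordinate of a finite product -/
theorem mp_upd {τ α : Type*} [Fintype τ] [DecidableEq τ] [MeasurableSpace α] (μ : Measure α)
    [IsProbabilityMeasure μ] (j : τ) :
    MeasurePreserving (fun p : (τ → α) × α => Function.update p.1 j p.2)
      ((Measure.pi fun _ : τ => μ).prod μ) (Measure.pi fun _ : τ => μ) := by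
  have hm : Measurable (fun p : (τ → α) × α => Function.update p.1 j p.2) := measurable_update'
  refine ⟨hm, (Measure.pi_eq fun s hs => ?_).symm⟩
  rw [Measure.map_apply hm (MeasurableSet.univ_pi hs)]
  have : (fun p : (τ → α) × α => Function.update p.1 j p.2) ⁻¹' (Set.univ.pi s) =
      (Set.univ.pi (Function.update s j Set.univ)) ×ˢ (s j) := by
    ext ⟨g, t⟩
    simp only [Set.mem_preimage, Set.mem_pi, Set.mem_univ, true_implies, Set.mem_prod]
    constructor
    · intro h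
      refine ⟨fun i => ?_, by simpa using h j⟩
      by_cases hi : i = j
      · subst hi; simp
      · simpa [Function.update_of_ne hi] using h i
    · rintro ⟨h1, h2⟩ i
      by_cases hi : i = j
      · subst hi; simpa using h2
      · simpa [Function.update_of_ne hi] using h1 i
  rw [this, Measure.prod_prod, Measure.pi_pi]
  rw [← Finset.mul_prod_erase Finset.univ (fun i => μ (s i)) (Finset.mem_univ j),
    ← Finset.mul_prod_erase Finset.univ (fun i => μ (Function.update s j Set.univ i))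
      (Finset.mem_univ j)]
  simp only [Function.update_self, measure_univ, one_mul]
  rw [mul_comm]
  congr 1
  refine Finset.prod_congr rfl fun i hi => ?_
  rw [Function.update_of_ne (Finset.ne_of_mem_erase hi)]

section maximal
variable {n : ℕ} {E : Type*} [MeasurableSpace E]

/-- partial sums of independent increments -/
def ps (φ : Fin n → E → ℝ) (a r : ℕ) (g : Fin n → E) : ℝ :=
  ∑ i ∈ range r, ext (fun k => φ k (g k)) (a + i)

lemma measurable_ps {φ : Fin n → E → ℝ} (hφ : ∀ i, Measurable (φ i)) (a r : ℕ) :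
    Measurable (ps φ a r) :=
  Finset.measurable_sum _ fun _ _ =>
    measurable_ext (fun k => (hφ k).comp (measurable_pi_apply k)) _

omit [MeasurableSpace E] in
lemma ps_succ (φ : Fin n → E → ℝ) (a r : ℕ) (g : Fin n → E) :
    ps φ a (r + 1) g = ext (fun k => φ k (g k)) a + ps φ (a + 1) r g := by
  rw [ps, sum_range_succ', add_zero, add_comm, ps]
  congr 1
  exact sum_congr rfl fun i _ => by rw [show a + (i + 1) = a + 1 + i by omega]

omit [MeasurableSpace E] in
lemma ps_update (φ : Fin n → E → ℝ) (k : Fin n) (r : ℕ) (g : Fin n → E) (x : E) :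
    ps φ (k + 1 + 1) r (Function.update g k x) = ps φ (k + 1 + 1) r g := by
  refine sum_congr rfl fun i _ => ?_
  unfold ext
  split_ifs with h
  · beta_reduce
    rw [Function.update_of_ne]
    intro e
    have := congrArg Fin.val e
    simp only at this
    omega
  · rfl

/-- **maximal inequality** for partial sums of independent increments -/
theorem maximal (μ : Measure E) [IsProbabilityMeasure μ] {φ : Fin n → E → ℝ}
    (hφ : ∀ i, Measurable (φ i)) {lam c : ℝ} (hl : 0 ≤ lam) (hc : 0 ≤ c)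
    (h : ∀ i, ∫⁻ x, ex (lam * φ i x) ∂μ ≤ ex c) (l : ℕ) : ∀ (a : ℕ) (t : ℝ),
    (Measure.pi fun _ : Fin n => μ) {g | ∃ r, r ≤ l ∧ t ≤ ps φ a r g} ≤ ex (l * c - lam * t) := by
  have triv : ∀ (l : ℕ) (t : ℝ) (S : Set (Fin n → E)), t ≤ 0 →
      (Measure.pi fun _ : Fin n => μ) S ≤ ex (l * c - lam * t) := fun l t S ht => by
    refine prob_le_one.trans (ex_zero ▸ ex_mono ?_)
    have := mul_nonneg (Nat.cast_nonneg (α := ℝ) l) hc
    nlinarith
  induction l with
  | zero =>
    intro a t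
    by_cases ht : t ≤ 0
    · exact triv 0 t _ ht
    · have : {g : Fin n → E | ∃ r, r ≤ 0 ∧ t ≤ ps φ a r g} = ∅ := by
        ext g
        simp only [Set.mem_ofPred_eq, Set.mem_empty_iff_false, iff_false, not_exists, not_and]
        intro r hr
        obtain rfl : r = 0 := by omega
        simpa [ps] using ht
      rw [this, measure_empty]; exact zero_le
  | succ l ih =>
    intro a t
    by_cases ht : t ≤ 0
    · exact triv _ t _ ht
    have hsub : {g : Fin n → E | ∃ r, r ≤ l + 1 ∧ t ≤ ps φ a r g} ⊆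
        {g | ∃ r, r ≤ l ∧ t - ext (fun k => φ k (g k)) a ≤ ps φ (a + 1) r g} := by
      rintro g ⟨r, hr, hg⟩
      rcases r with _ | r
      · exact absurd (by simpa [ps] using hg) ht
      · rw [ps_succ] at hg
        exact ⟨r, by omega, by linarith⟩
    refine (measure_mono hsub).trans ?_
    by_cases ha : 1 ≤ a ∧ a ≤ n
    · obtain ⟨k, rfl⟩ : ∃ k : Fin n, a = k + 1 := ⟨⟨a - 1, by omega⟩, by simp only; omega⟩
      simp only [ext_succ]
      have hm : MeasurableSet {g : Fin n → E | ∃ r, r ≤ l ∧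
          t - φ k (g k) ≤ ps φ (k + 1 + 1) r g} :=
        (Measurable.exists fun r => measurable_const.and (measurableSet_setOfPred.1
          (measurableSet_le (measurable_const.sub ((hφ k).comp (measurable_pi_apply k)))
            (measurable_ps hφ _ r)))).setOf
      rw [← (mp_upd μ k).measure_preimage hm.nullMeasurableSet,
        Measure.prod_apply_symm ((mp_upd μ k).measurable hm)]
      calc ∫⁻ x, (Measure.pi fun _ : Fin n => μ) ((fun g => (g, x)) ⁻¹'
              ((fun p : (Fin n → E) × E => Function.update p.1 k p.2) ⁻¹'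
                {g | ∃ r, r ≤ l ∧ t - φ k (g k) ≤ ps φ (k + 1 + 1) r g})) ∂μ
          ≤ ∫⁻ x, ex (l * c - lam * t) * ex (lam * φ k x) ∂μ := by
            refine lintegral_mono fun x => ?_
            have := ih (k + 1 + 1) (t - φ k x)
            rw [← ex_add, show l * c - lam * t + lam * φ k x = l * c - lam * (t - φ k x) by ring]
            refine le_trans (le_of_eq ?_) this
            congr 1
            ext g
            simp only [Set.mem_preimage, Set.mem_ofPred_eq, Function.update_self, ps_update]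
        _ ≤ ex (l * c - lam * t) * ex c := by
            rw [lintegral_const_mul' _ _ (ex_ne_top _)]
            exact mul_le_mul_right (h k) _
        _ = _ := by rw [← ex_add]; congr 1; push_cast; ring
    · have : ∀ g : Fin n → E, ext (fun k => φ k (g k)) a = 0 := fun g => dif_neg ha
      simp only [this, sub_zero]
      refine (ih (a + 1) t).trans (ex_mono ?_)
      push_cast; linarith

/-- two-sided form for sub-Gaussian increments -/
theorem osc_tail (μ : Measure E) [IsProbabilityMeasure μ] {φ : Fin n → E → ℝ}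
    (hφ : ∀ i, Measurable (φ i)) (h : ∀ i s, ∫⁻ x, ex (s * φ i x) ∂μ ≤ ex (2 * s ^ 2))
    (l j : ℕ) (t : ℝ) (hl : 1 ≤ l) (ht : 0 ≤ t) :
    (Measure.pi fun _ : Fin n => μ).real {g | t ≤ osc (ext fun k => φ k (g k)) l j} ≤
      2 * Real.exp (-t ^ 2 / (8 * l)) := by
  have hl' : (0 : ℝ) < l := by exact_mod_cast hl
  have h0 : 0 ≤ t / (4 * l) := by positivity
  have e : l * (2 * (t / (4 * l)) ^ 2) - t / (4 * l) * t = -t ^ 2 / (8 * l) := by
    field_simp; ring
  have h1 := maximal μ hφ h0 (by positivity) (fun i => h i _) l (j * l) t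
  have h2 := maximal μ (φ := fun i x => -φ i x) (fun i => (hφ i).neg) h0
    (c := 2 * (t / (4 * l)) ^ 2) (by positivity) (fun i => by
      have := h i (-(t / (4 * l)))
      simpa only [neg_mul, mul_neg, neg_sq] using this) l (j * l) t
  rw [e] at h1 h2
  have h3 := Conc.real_le_of_le_ex h1
  have h4 := Conc.real_le_of_le_ex h2
  have hsub : {g : Fin n → E | t ≤ osc (ext fun k => φ k (g k)) l j} ⊆
      {g | ∃ r, r ≤ l ∧ t ≤ ps φ (j * l) r g} ∪
        {g | ∃ r, r ≤ l ∧ t ≤ ps (fun i x => -φ i x) (j * l) r g} := by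
    intro g hg
    obtain ⟨r, hr, he⟩ := exists_osc_eq (ext fun k => φ k (g k)) l j
    rw [Set.mem_ofPred_eq, he] at hg
    rcases le_abs.1 hg with h5 | h5
    · exact Or.inl ⟨r, hr, h5⟩
    · refine Or.inr ⟨r, hr, h5.trans (le_of_eq ?_)⟩
      rw [ps, ← sum_neg_distrib]
      refine sum_congr rfl fun i _ => ?_
      unfold ext
      split_ifs <;> simp
  have h5 := (measureReal_mono hsub).trans
    (measureReal_union_le (μ := Measure.pi fun _ : Fin n => μ) _ _)
  linarith

end maximal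

/-! ### the rows -/

/-- the `χ` variable of a row -/
def chi {n : ℕ} (k : Fin n) (r : Fin n → ℝ) : ℝ := Real.sqrt (∑ j ∈ univ.filter (k < ·), r j ^ 2)

lemma chi_eq {n : ℕ} (k : Fin n) (r : Fin n → ℝ) :
    chi k r = en fun j => if k < j then r j else 0 := by
  rw [chi, en, sum_filter]
  congr 1
  exact sum_congr rfl fun j _ => by split_ifs <;> simp

lemma elip_chi {n : ℕ} (k : Fin n) : ELip 1 (chi k) := fun x y => by
  rw [chi_eq, chi_eq, one_mul]
  refine (Conc.abs_en_sub_le _ _).trans (Real.sqrt_le_sqrt (sum_le_sum fun j _ => ?_))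
  simp only [Pi.sub_apply]
  split_ifs
  · exact le_rfl
  · simpa using sq_nonneg _

lemma bet_succ {n : ℕ} (k : Fin n) : bet n (k + 1) = ∫ r, chi k r ∂gv (Fin n) := by
  rw [bet, if_neg (by omega)]
  have : ∀ g : Fin n → Fin n → ℝ, rowB n g (k + 1) = chi k (g k) := fun g => ext_succ _ k
  simp only [this]
  have hmp := measurePreserving_eval (fun _ : Fin n => gv (Fin n)) k
  rw [← hmp.map_eq, integral_map hmp.measurable.aemeasurable
    (elip_chi k).continuous.aestronglyMeasurable]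

lemma bet_of_lt {n i : ℕ} (h : n < i) : bet n i = 0 := by
  rw [bet, if_neg (by omega)]
  have : ∀ g : Fin n → Fin n → ℝ, rowB n g i = 0 := fun g => ext_of_lt _ h
  simp [this]

lemma rowX_eq (n : ℕ) (g : Fin n → Fin n → ℝ) :
    rowX n g = ext fun k => 2 * (chi k (g k) - ∫ r, chi k r ∂gv (Fin n)) := by
  funext i
  by_cases h0 : i = 0
  · rw [h0, rowX, if_pos rfl, ext_zero]
  by_cases h1 : n < i
  · rw [rowX, if_neg h0, ext_of_lt _ h1, bet_of_lt h1, rowB, ext_of_lt _ h1]; ring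
  obtain ⟨k, rfl⟩ : ∃ k : Fin n, i = k + 1 := ⟨⟨i - 1, by omega⟩, by simp only; omega⟩
  rw [rowX, if_neg h0, ext_succ, bet_succ, rowB, ext_succ]
  rfl

lemma lint_lip {n : ℕ} {L : ℝ} {F : (Fin n → ℝ) → ℝ} (h : ELip L F) (s : ℝ) :
    ∫⁻ x, ex (s * (F x - ∫ y, F y ∂gv (Fin n))) ∂gv (Fin n) ≤ ex (L ^ 2 * s ^ 2 / 2) :=
  Conc.lint_ex_le_of_integral ((h.sub_const _).integrable_exp s) (Conc.mgf_lip h s)

lemma integral_coord {n : ℕ} (k : Fin n) (F : ℝ → ℝ) (hF : Continuous F) :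
    ∫ r, F (r k) ∂gv (Fin n) = ∫ x, F x ∂gaussianReal 0 1 := by
  have hmp := measurePreserving_eval (fun _ : Fin n => gaussianReal 0 1) k
  rw [← hmp.map_eq, integral_map hmp.measurable.aemeasurable hF.aestronglyMeasurable]

theorem oscStmt : OscStmt := by
  intro n l j t hl ht
  constructor
  · refine osc_tail (gv (Fin n)) (φ := fun k r => Real.sqrt 2 * r k) (fun k => by fun_prop)
      (fun k s => ?_) l j t hl ht
    have hL : ELip 1 fun r : Fin n → ℝ => r k := fun x y => by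
      rw [one_mul]; exact Conc.abs_le_en (x - y) k
    have h1 := lint_lip hL (s * Real.sqrt 2)
    have h2 : ∫ y : Fin n → ℝ, y k ∂gv (Fin n) = 0 := by
      rw [integral_coord k (fun x => x) continuous_id, integral_id_gaussianReal]
    simp only [h2, sub_zero, mul_assoc] at h1
    refine h1.trans (ex_mono ?_)
    rw [mul_pow, Real.sq_sqrt (by norm_num)]
    nlinarith [sq_nonneg s]
  · simp only [rowX_eq]
    refine osc_tail (gv (Fin n))
      (φ := fun k r => 2 * (chi k r - ∫ r, chi k r ∂gv (Fin n)))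
      (fun k => ((elip_chi k).continuous.measurable.sub measurable_const).const_mul _)
      (fun k s => ?_) l j t hl ht
    have h1 := lint_lip (elip_chi k) (s * 2)
    simp only [mul_assoc] at h1
    exact h1.trans (ex_mono (le_of_eq (by ring)))

/-! ### the mean of a `χ` variable -/

lemma two_add_sq_le (x : ℝ) : 2 + x ^ 2 ≤ Real.exp x + Real.exp (-x) := by
  have h1 : |x / 2| ≤ |Real.sinh (x / 2)| := by
    rw [Real.abs_sinh]; exact Real.self_le_sinh_iff.2 (abs_nonneg _)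
  have h2 : (x / 2) ^ 2 ≤ Real.sinh (x / 2) ^ 2 := sq_le_sq.2 h1
  have h3 := Real.cosh_two_mul (x / 2)
  have h4 := Real.cosh_sq (x / 2)
  rw [show 2 * (x / 2) = x by ring, Real.cosh_eq] at h3
  nlinarith

lemma integral_chi_sq {n : ℕ} (k : Fin n) :
    Integrable (fun r => chi k r ^ 2) (gv (Fin n)) ∧
      ∫ r, chi k r ^ 2 ∂gv (Fin n) = (n : ℝ) - (k + 1) := by
  have e : (fun r => chi k r ^ 2) = fun r : Fin n → ℝ => ∑ j ∈ univ.filter (k < ·), r j ^ 2 :=
    funext fun r => Real.sq_sqrt (sum_nonneg fun _ _ => sq_nonneg _)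
  have hi : ∀ j : Fin n, Integrable (fun r : Fin n → ℝ => r j ^ 2) (gv (Fin n)) := fun j =>
    (measurePreserving_eval (fun _ : Fin n => gaussianReal 0 1) j).integrable_comp_of_integrable
      (g := fun x : ℝ => x ^ 2) (memLp_id_gaussianReal (μ := 0) (v := 1) 2).integrable_sq
  have h1 : ∫ x : ℝ, x ^ 2 ∂gaussianReal 0 1 = 1 := by
    have := variance_id_gaussianReal (μ := 0) (v := 1)
    rw [variance_eq_integral aemeasurable_id] at this
    simpa using this
  rw [e]
  refine ⟨integrable_finsetSum _ fun j _ => hi j, ?_⟩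
  rw [integral_finsetSum _ fun j _ => hi j]
  have h2 : ∀ j : Fin n, ∫ r : Fin n → ℝ, r j ^ 2 ∂gv (Fin n) = 1 := fun j => by
    rw [integral_coord j (fun x => x ^ 2) (by fun_prop), h1]
  simp only [h2, sum_const, nsmul_eq_mul, mul_one]
  have h3 : univ.filter (k < ·) = Finset.Ioi k := by ext j; simp
  rw [h3, Fin.card_Ioi]
  have := k.2
  rw [Nat.cast_sub (by omega), Nat.cast_sub (by omega)]
  push_cast; ring

lemma chi_mean {n : ℕ} (k : Fin n) :
    (n : ℝ) - (k + 1) - 2 ≤ (∫ r, chi k r ∂gv (Fin n)) ^ 2 ∧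
      (∫ r, chi k r ∂gv (Fin n)) ^ 2 ≤ (n : ℝ) - (k + 1) := by
  obtain ⟨h1, h2⟩ := integral_chi_sq k
  have h3 : Integrable (chi k) (gv (Fin n)) := (elip_chi k).integrable
  set m := ∫ r, chi k r ∂gv (Fin n) with hm
  have e : (fun r => (chi k r - m) ^ 2) = fun r => chi k r ^ 2 - 2 * m * chi k r + m ^ 2 :=
    funext fun r => by ring
  have h4 : Integrable (fun r => chi k r ^ 2 - 2 * m * chi k r) (gv (Fin n)) :=
    h1.sub (h3.const_mul _)
  have hV : ∫ r, (chi k r - m) ^ 2 ∂gv (Fin n) = (n : ℝ) - (k + 1) - m ^ 2 := by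
    rw [e, integral_add h4 (integrable_const _), integral_sub h1 (h3.const_mul _),
      integral_const_mul, h2, ← hm]
    simp only [integral_const, probReal_univ, smul_eq_mul, one_mul]
    ring
  have hVi : Integrable (fun r => (chi k r - m) ^ 2) (gv (Fin n)) := by
    rw [e]; exact h4.add (integrable_const _)
  have h5 : 0 ≤ ∫ r, (chi k r - m) ^ 2 ∂gv (Fin n) := integral_nonneg fun _ => sq_nonneg _
  have a1 := Conc.mgf_lip (elip_chi k) 1
  have a2 := Conc.mgf_lip (elip_chi k) (-1)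
  have b1 := ((elip_chi k).sub_const m).integrable_exp 1
  have b2 := ((elip_chi k).sub_const m).integrable_exp (-1)
  have h6 : ∫ r, (2 + (chi k r - m) ^ 2) ∂gv (Fin n) ≤
      ∫ r, (Real.exp (1 * (chi k r - m)) + Real.exp (-1 * (chi k r - m))) ∂gv (Fin n) :=
    integral_mono ((integrable_const _).add hVi) (b1.add b2) fun r => by
      simpa using two_add_sq_le (chi k r - m)
  rw [integral_add (integrable_const _) hVi, integral_add b1 b2] at h6
  simp only [integral_const, probReal_univ, smul_eq_mul, one_mul] at h6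
  have h7 : Real.exp (1 / 2) ≤ 2 := by
    have := Real.exp_one_lt_d9
    have h8 : Real.exp (1 / 2) ^ 2 = Real.exp 1 := by rw [← Real.exp_nat_mul]; norm_num
    nlinarith [Real.exp_pos (1 / 2)]
  rw [← hm] at a1 a2
  norm_num at a1 a2 h6 h7
  constructor <;> linarith

theorem betStmt : BetStmt := by
  intro n hn
  refine ⟨sx_pos hn, sx_pow_six n, by rw [bet, if_pos rfl, sqrt_eq], fun i hi => ?_,
    fun i hi => ?_⟩
  · by_cases h1 : n < i
    · rw [bet_of_lt h1, Real.sqrt_eq_zero'.2]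
      have : (n : ℝ) < i := by exact_mod_cast h1
      linarith
    obtain ⟨k, rfl⟩ : ∃ k : Fin n, i = k + 1 := ⟨⟨i - 1, by omega⟩, by simp only; omega⟩
    rw [bet_succ]
    refine Real.sqrt_le_iff.2 ⟨integral_nonneg fun _ => Real.sqrt_nonneg _, ?_⟩
    push_cast
    exact (chi_mean k).1
  · by_cases h1 : n < i
    · rw [bet_of_lt h1]; exact Real.sqrt_nonneg _
    obtain ⟨k, rfl⟩ : ∃ k : Fin n, i = k + 1 := ⟨⟨i - 1, by omega⟩, by simp only; omega⟩
    rw [bet_succ]
    refine Real.le_sqrt_of_sq_le ?_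
    push_cast
    exact (chi_mean k).2

/-! ### exponential moments of `kap` -/

/-- exponential moment from an exponential tail -/
lemma lint_ex_of_tail {Ω : Type*} [MeasurableSpace Ω] (μ : Measure Ω) [IsFiniteMeasure μ]
    {Z : Ω → ℝ} (hZ : Measurable Z) (h0 : ∀ ω, 0 ≤ Z ω)
    (h : ∀ k : ℕ, μ.real {ω | (k : ℝ) ≤ Z ω} ≤ 2 * Real.exp (-(2 * k))) :
    ∫⁻ ω, ex (Z ω) ∂μ ≤ ex 3 := by
  have hm : ∀ k : ℕ, MeasurableSet {ω | (k : ℝ) ≤ Z ω} := fun k =>
    measurableSet_le measurable_const hZ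
  have he : Real.exp (-1) ≤ 1 / 2 := by
    rw [Real.exp_neg, one_div]
    exact inv_anti₀ two_pos (by linarith [Real.add_one_le_exp 1])
  calc ∫⁻ ω, ex (Z ω) ∂μ
      ≤ ∫⁻ ω, ∑' k : ℕ, {ω | (k : ℝ) ≤ Z ω}.indicator (fun _ => ex (k + 1)) ω ∂μ := by
        refine lintegral_mono fun ω => le_trans ?_ (ENNReal.le_tsum ⌊Z ω⌋₊)
        rw [Set.indicator_of_mem (show ω ∈ {ω' | ((⌊Z ω⌋₊ : ℕ) : ℝ) ≤ Z ω'} from
          Nat.floor_le (h0 ω))]
        exact ex_mono (Nat.lt_floor_add_one _).le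
    _ = ∑' k : ℕ, ex (k + 1) * μ {ω | (k : ℝ) ≤ Z ω} := by
        rw [lintegral_tsum fun k => (measurable_const.indicator (hm k)).aemeasurable]
        exact tsum_congr fun k => by rw [lintegral_indicator_const (hm k)]
    _ ≤ ∑' k : ℕ, ENNReal.ofReal (2 * Real.exp 1 * (1 / 2) ^ k) := by
        refine ENNReal.tsum_le_tsum fun k => ?_
        rw [← ofReal_measureReal, ex, ← ENNReal.ofReal_mul (Real.exp_pos _).le]
        refine ENNReal.ofReal_le_ofReal
          ((mul_le_mul_of_nonneg_left (h k) (Real.exp_pos _).le).trans ?_)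
        have e : Real.exp (k + 1) * (2 * Real.exp (-(2 * k))) =
            2 * Real.exp 1 * Real.exp (-1) ^ k := by
          rw [← Real.exp_nat_mul, mul_left_comm, mul_assoc, ← Real.exp_add, ← Real.exp_add]
          congr 2; ring
        rw [e]
        exact mul_le_mul_of_nonneg_left (pow_le_pow_left₀ (Real.exp_pos _).le he k) (by positivity)
    _ ≤ ex 3 := by
        rw [← ENNReal.ofReal_tsum_of_nonneg (fun _ => by positivity)
          (summable_geometric_two.mul_left _), tsum_mul_left, tsum_geometric_two]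
        refine ENNReal.ofReal_le_ofReal ?_
        have e : Real.exp 3 = Real.exp 1 * (Real.exp 1 * Real.exp 1) := by
          rw [← Real.exp_add, ← Real.exp_add]; norm_num
        have h2 : 2 ≤ Real.exp 1 := by linarith [Real.add_one_le_exp 1]
        rw [e]; nlinarith [mul_le_mul h2 h2 two_pos.le (Real.exp_pos 1).le]

lemma lint_osc_sq {Ω : Type*} [MeasurableSpace Ω] (μ : Measure Ω) [IsFiniteMeasure μ]
    {X : Ω → ℝ} (hX : Measurable X) (h0 : ∀ ω, 0 ≤ X ω) {s lam : ℝ} {l : ℕ} (hs : 0 < s)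
    (hlam : 0 < lam) (hl : 1 ≤ l) (hle : 16 * lam * l ≤ s ^ 2)
    (h : ∀ t, 0 ≤ t → μ.real {ω | t ≤ X ω} ≤ 2 * Real.exp (-t ^ 2 / (8 * l))) :
    ∫⁻ ω, ex (lam * (X ω / s) ^ 2) ∂μ ≤ ex 3 := by
  have hl' : (0 : ℝ) < l := by exact_mod_cast hl
  refine lint_ex_of_tail μ (by fun_prop) (fun ω => by positivity) fun k => ?_
  have hk : (0 : ℝ) ≤ k * s ^ 2 / lam := by positivity
  have h1 := h (Real.sqrt (k * s ^ 2 / lam)) (Real.sqrt_nonneg _)
  rw [Real.sq_sqrt hk] at h1
  refine (measureReal_mono fun ω hω => ?_).trans (h1.trans ?_)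
  · refine Real.sqrt_le_iff.2 ⟨h0 ω, ?_⟩
    rw [Set.mem_ofPred_eq, div_pow, ← mul_div_assoc, le_div_iff₀ (by positivity)] at hω
    rw [div_le_iff₀ hlam]; linarith
  · refine mul_le_mul_of_nonneg_left (Real.exp_le_exp.2 ?_) two_pos.le
    rw [neg_div, neg_le_neg_iff, div_div, le_div_iff₀ (by positivity)]
    have := mul_le_mul_of_nonneg_left hle (Nat.cast_nonneg (α := ℝ) k)
    linarith

theorem kapGlue : KapGlue := by
  intro hO A0 hA0
  obtain ⟨A, hA, hAA⟩ : ∃ A : ℝ, 0 < A ∧ A0 ≤ A := ⟨A0 + 1, by linarith, by linarith⟩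
  set h : ℝ := 1 / (32 * (4800 * A)) with hh
  have hpos : 0 < h := by positivity
  set q : ℝ := Real.exp (-(A * h / 64)) with hq
  have hq0 : 0 ≤ q := (Real.exp_pos _).le
  have hq1 : q < 1 := Real.exp_lt_one_iff.2 (neg_lt_zero.2 (by positivity))
  refine ⟨h, Real.exp (A / h ^ 2 + 3) * (1 - q)⁻¹, hpos, ?_⟩
  have hev : ∀ᶠ n : ℕ in atTop, 1 ≤ h * sx n ^ 2 :=
    (((tendsto_pow_atTop two_ne_zero).comp tendsto_sx).const_mul_atTop hpos).eventually_ge_atTop 1
  filter_upwards [hev, eventually_ge_atTop 1] with n h1 hn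
  have hs := sx_pos hn
  set s := sx n
  set l := ⌈h * s ^ 2⌉₊ with hl
  have hl1 : h * s ^ 2 ≤ l := Nat.le_ceil _
  have hl2 : (l : ℝ) ≤ 2 * (h * s ^ 2) := by
    have := Nat.ceil_lt_add_one (a := h * s ^ 2) (by linarith)
    linarith
  have hl3 : 1 ≤ l := by exact_mod_cast h1.trans hl1
  have hl0 : (0 : ℝ) < l := by linarith
  have hle : 16 * (4800 * A) * l ≤ s ^ 2 := by
    have e : 16 * (4800 * A) * (2 * (h * s ^ 2)) = s ^ 2 := by rw [hh]; field_simp; ring
    rw [← e]; exact mul_le_mul_of_nonneg_left hl2 (by positivity)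
  have mA := fun j => measurable_osc (fun i => (continuous_rowA n i).measurable) l j
  have mX := fun j => measurable_osc (fun i => (continuous_rowX n i).measurable) l j
  have key : ∀ j : ℕ, ∫⁻ g, ex (2400 * A * (osc (rowA n g) l j / s) ^ 2 +
      2400 * A * (osc (rowX n g) l j / s) ^ 2) ∂gm n ≤ ex 3 := fun j => by
    have a1 := lint_osc_sq (gm n) (mA j) (fun g => osc_nonneg _ _ _) hs (by positivity) hl3 hle
      fun t ht => (hO n l j t hl3 ht).1
    have a2 := lint_osc_sq (gm n) (mX j) (fun g => osc_nonneg _ _ _) hs (by positivity) hl3 hle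
      fun t ht => (hO n l j t hl3 ht).2
    have := mA j
    refine Conc.lint_ex_add_le (Measurable.aemeasurable (by fun_prop)) ?_ ?_
    · simpa only [← mul_assoc, show (2 : ℝ) * 2400 = 4800 by norm_num] using a1
    · simpa only [← mul_assoc, show (2 : ℝ) * 2400 = 4800 by norm_num] using a2
  calc ∫⁻ g, ENNReal.ofReal (Real.exp (A0 * kap n s (rowA n g) (rowX n g) l)) ∂gm n
      ≤ ∫⁻ g, ∑ j : Fin (n + 1), ex (A / h ^ 2 - (j : ℕ) * (A * h / 64)) *
          ex (2400 * A * (osc (rowA n g) l j / s) ^ 2 +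
            2400 * A * (osc (rowX n g) l j / s) ^ 2) ∂gm n := by
        refine lintegral_mono fun g => ?_
        obtain ⟨j, hj⟩ := exists_eq_ciSup_of_finite (f := fun j : Fin (n + 1) =>
          2400 * ((osc (rowA n g) l j / s) ^ 2 + (osc (rowX n g) l j / s) ^ 2) + (s ^ 2 / l) ^ 2 -
            ((j : ℕ) : ℝ) * l / (64 * s ^ 2))
        refine le_trans ?_ (single_le_sum (f := fun j : Fin (n + 1) =>
          ex (A / h ^ 2 - (j : ℕ) * (A * h / 64)) *
          ex (2400 * A * (osc (rowA n g) l j / s) ^ 2 +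
            2400 * A * (osc (rowX n g) l j / s) ^ 2)) (fun _ _ => zero_le) (mem_univ j))
        rw [← ex_add]
        refine ex_mono ((mul_le_mul_of_nonneg_right hAA (kap_nonneg _ _ _ _ _)).trans ?_)
        rw [kap, ← hj]
        have b1 : (s ^ 2 / l) ^ 2 ≤ 1 / h ^ 2 := by
          rw [← one_pow 2, ← div_pow]
          refine pow_le_pow_left₀ (by positivity) ?_ 2
          rw [div_le_div_iff₀ hl0 hpos]; linarith
        have b2 : ((j : ℕ) : ℝ) * (h / 64) ≤ ((j : ℕ) : ℝ) * l / (64 * s ^ 2) := by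
          rw [mul_div_assoc]
          refine mul_le_mul_of_nonneg_left ?_ (Nat.cast_nonneg _)
          rw [div_le_div_iff₀ (by norm_num) (by positivity)]; linarith
        have b3 := mul_le_mul_of_nonneg_left b1 hA.le
        have b4 := mul_le_mul_of_nonneg_left b2 hA.le
        rw [mul_one_div] at b3
        linarith
    _ ≤ ∑ j : Fin (n + 1), ex (A / h ^ 2 - (j : ℕ) * (A * h / 64)) * ex 3 := by
        rw [lintegral_finsetSum _ fun j _ => by have := mA j; have := mX j; fun_prop]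
        refine sum_le_sum fun j _ => ?_
        rw [lintegral_const_mul' _ _ (ex_ne_top _)]
        exact mul_le_mul_right (key j) _
    _ = ENNReal.ofReal (Real.exp (A / h ^ 2 + 3) * ∑ j ∈ range (n + 1), q ^ j) := by
        rw [mul_sum, ENNReal.ofReal_sum_of_nonneg fun _ _ => by positivity, Finset.sum_range]
        refine sum_congr rfl fun j _ => ?_
        rw [← ex_add, ex, hq, ← Real.exp_nat_mul, ← Real.exp_add]
        congr 2; ring
    _ ≤ _ := by
        refine ENNReal.ofReal_le_ofReal (mul_le_mul_of_nonneg_left ?_ (Real.exp_pos _).le)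
        rw [← tsum_geometric_of_lt_one hq0 hq1]
        exact (summable_geometric_of_lt_one hq0 hq1).sum_le_tsum _ fun _ _ => by positivity

theorem kapStmt : KapStmt := kapGlue oscStmt

end Crest.Agent.T157.Ed.Osc7

end
end

-- ▼ part T157/EdTop_83
section

/-!
# Row 157, part E: the glue statements `EdgeTGlue`, `LimGlue`, `TopGlue` (helper83)
-/

set_option autoImplicit false

noncomputable section

namespace Crest.Agent.T157.Ed

open MeasureTheory ProbabilityTheory Matrix Filter Topology Finset BoundedContinuousFunction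
open Crest.ProbabilityR.SpinGlassDynamics Crest.Agent.T157.E Crest.Agent.T157.Eig
open Crest.Agent.T157.Cond Crest.Agent.T157.Soft

/-! ### rough rigidity of the GOE -/

lemma top_one_le_ceil {h : ℝ} (hh : 0 < h) {n : ℕ} (hn : 1 ≤ n) : 1 ≤ ⌈h * sx n ^ 2⌉₊ :=
  Nat.ceil_pos.2 (mul_pos hh (pow_pos (sx_pos hn) 2))

lemma top_kapL_le (hBet : BetStmt) (hLb : LbStmt) (hCnt : CntStmt) {n l : ℕ} (hn : 8 ≤ n)
    (hl : 1 ≤ l) (g : Fin n → Fin n → ℝ) :
    kapL n (lam (Tm n g)) ≤ kap n (sx n) (rowA n g) (rowX n g) l := by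
  have : Nonempty (Fin n) := ⟨⟨0, by omega⟩⟩
  have h1 : 1 ≤ n := by omega
  have h2 := hCnt n (sx n) _ _ _ (sx_pos h1) (sx_pow_six n)
    (hLb n (sx n) (bet n) (rowA n g) (rowX n g) l hn (hBet n h1) hl)
  refine ciSup_le fun k => ?_
  obtain ⟨h3, h4⟩ := h2 k k.2
  rw [← Lam_Tm g k.2] at h3 h4
  refine max_le (by linarith) ?_
  split_ifs with h5
  · linarith [h4 h5]
  · exact kap_nonneg _ _ _ _ _

theorem edgeTGlue : EdgeTGlue := by
  intro hTri hBet hLb hCnt hKap A hA
  obtain ⟨h, C, hh, hC⟩ := hKap A hA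
  refine ⟨C, ?_⟩
  filter_upwards [hC, eventually_ge_atTop 8] with n hn h8
  have hm : Measurable fun l : ℕ → ℝ => ENNReal.ofReal (Real.exp (A * kapL n l)) :=
    (((measurable_kapL n).const_mul A).exp).ennreal_ofReal
  have e : ∫⁻ W, ENNReal.ofReal (Real.exp (A * kapL n (lam W))) ∂GOE n =
      ∫⁻ g, ENNReal.ofReal (Real.exp (A * kapL n (lam (Tm n g)))) ∂gm n := by
    rw [← lintegral_map hm measurable_lam, hTri n]
    exact lintegral_map hm (measurable_lam.comp (measurable_Tm n))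
  rw [e]
  refine le_trans (lintegral_mono fun g => ?_) hn
  exact ENNReal.ofReal_le_ofReal (Real.exp_le_exp.2 (mul_le_mul_of_nonneg_left
    (top_kapL_le hBet hLb hCnt h8 (top_one_le_ceil hh (by omega)) g) hA))

/-! ### existence of the limit -/

/-- Markov's inequality for an exponential moment -/
lemma top_markov {Ω : ℕ → Type*} [∀ n, MeasurableSpace (Ω n)] (P : ∀ n, Measure (Ω n))
    (f : ∀ n, Ω n → ℝ) (hf : ∀ n, Measurable (f n)) {C : ℝ}
    (h : ∀ᶠ n in atTop, ∫⁻ ω, ENNReal.ofReal (Real.exp (1 * f n ω)) ∂P n ≤ ENNReal.ofReal C)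
    {ε : ℝ} (hε : 0 < ε) : ∃ t : ℝ, 0 ≤ t ∧ ∀ᶠ n in atTop,
      P n {ω | t < f n ω} ≤ ENNReal.ofReal ε := by
  refine ⟨|C| / ε, by positivity, h.mono fun n hn => ?_⟩
  set t := |C| / ε with ht
  have h0 : 0 < Real.exp t := Real.exp_pos t
  have h1 := meas_ge_le_lintegral_div (μ := P n)
    (f := fun ω => ENNReal.ofReal (Real.exp (1 * f n ω)))
    (((hf n).const_mul 1).exp.ennreal_ofReal).aemeasurable
    (ε := ENNReal.ofReal (Real.exp t)) (ENNReal.ofReal_pos.2 h0).ne' ENNReal.ofReal_ne_top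
  refine le_trans (measure_mono fun ω hω => ?_) (h1.trans ?_)
  · have hω' : t < f n ω := hω
    exact ENNReal.ofReal_le_ofReal (Real.exp_le_exp.2 (by linarith))
  · refine (ENNReal.div_le_div_right hn _).trans ?_
    rw [← ENNReal.ofReal_div_of_pos h0]
    refine ENNReal.ofReal_le_ofReal ?_
    rw [div_le_iff₀ h0]
    have h2 : t + 1 ≤ Real.exp t := Real.add_one_le_exp t
    have h3 : ε * t = |C| := by rw [ht]; field_simp
    nlinarith [le_abs_self C]

lemma top_map_LamV (hTri : TriStmt) (n K : ℕ) :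
    (GOE n).map (LamV n K) = (gm n).map fun g => LamV n K (Tm n g) := by
  have hG : Measurable fun (l : ℕ → ℝ) (k : Fin K) => tau n * (2 - l k) := by fun_prop
  have h := congrArg (Measure.map fun (l : ℕ → ℝ) (k : Fin K) => tau n * (2 - l k)) (hTri n)
  have hT : Measurable fun g => (lam (Tm n g) : ℕ → ℝ) := measurable_lam.comp (measurable_Tm n)
  rw [Measure.map_map hG measurable_lam, Measure.map_map hG hT] at h
  exact h

lemma top_norm_le {n K : ℕ} (hn : 8 * K ≤ n) (W : Mat n) {t : ℝ} (ht : 0 ≤ t)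
    (h : kapL n (lam W) ≤ t) : ‖LamV n K W‖ ≤ 60 * K + t := by
  refine (pi_norm_le_iff_of_nonneg (by positivity)).2 fun k => ?_
  have hk := k.2
  have h1 := (le_ciSup (f := fun k : Fin n =>
    max ((((k : ℕ) : ℝ) + 1) ^ (2 / 3 : ℝ) / 256 - tau n * (2 - lam W k))
    (if 8 * ((k : ℕ) + 1) ≤ n then tau n * (2 - lam W k) - 60 * (((k : ℕ) : ℝ) + 1) ^ (2 / 3 : ℝ)
      else 0)) (Finite.bddAbove_range _) ⟨k, by omega⟩).trans h
  rw [max_le_iff, if_pos (by simp only; omega)] at h1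
  obtain ⟨h2, h3⟩ := h1
  simp only at h2 h3
  have h4 : (0 : ℝ) ≤ (((k : ℕ) : ℝ) + 1) ^ (2 / 3 : ℝ) := by positivity
  have h5 : (((k : ℕ) : ℝ) + 1) ^ (2 / 3 : ℝ) ≤ K := by
    have h6 : (1 : ℝ) ≤ ((k : ℕ) : ℝ) + 1 := by linarith [(Nat.cast_nonneg k : (0 : ℝ) ≤ _)]
    refine (Real.rpow_le_self_of_one_le h6 (by norm_num)).trans ?_
    exact_mod_cast hk
  have h7 : (0 : ℝ) ≤ K := Nat.cast_nonneg K
  rw [Real.norm_eq_abs, LamV, Lam, abs_le]
  constructor <;> linarith

/-- asymptotic tightness of the rescaled edge eigenvalues -/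
lemma top_tight (hE : EdgeTStmt) (K : ℕ) {ε : ℝ} (hε : 0 < ε) : ∃ x0 : ℝ, 0 ≤ x0 ∧
    ∀ᶠ n in atTop, (GOE n).map (LamV n K) {y | x0 < ‖y‖} ≤ ENNReal.ofReal ε := by
  obtain ⟨C, hC⟩ := hE 1 zero_le_one
  obtain ⟨t, ht, h⟩ := top_markov (fun n => GOE n) (fun n W => kapL n (lam W))
    (fun n => (measurable_kapL n).comp measurable_lam) hC hε
  refine ⟨60 * K + t, by positivity, ?_⟩
  filter_upwards [h, eventually_ge_atTop (8 * K)] with n hn h8
  rw [Measure.map_apply (measurable_LamV n K) (measurableSet_lt measurable_const measurable_norm)]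
  refine le_trans (measure_mono fun W hW => ?_) hn
  by_contra hc
  exact absurd (top_norm_le h8 W ht (not_lt.1 hc)) (not_le.2 hW)

lemma Two.mono {n : ℕ} {s : ℝ} {a b : ℕ → ℝ} {κ κ' : ℝ} (h : Two n s a b κ) (hκ : κ ≤ κ') :
    Two n s a b κ' := fun u hu => by
  have h1 := mul_le_mul_of_nonneg_right hκ (nrm_nonneg n u)
  obtain ⟨h2, h3⟩ := h u hu
  constructor <;> linarith

/-- the reference eigenvalues depend continuously on the mesh, uniformly in the noise -/
lemma top_Phi_mesh (J : ℕ) {δ : ℝ} (hδ : 0 < δ) {ε : ℝ} (hε : 0 < ε) :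
    ∀ᶠ δ' in 𝓝 δ, ∀ (z : Fin J → ℝ) (k : ℕ), |Phi J δ' z k - Phi J δ z k| ≤ ε := by
  have hc : ∀ i j : Fin J, ContinuousAt (fun δ' : ℝ => Hc J δ' 0 i j) δ := by
    intro i j
    have h1 : ContinuousAt (fun δ' : ℝ => δ' ^ 2) δ := by fun_prop
    have h2 : δ ^ 2 ≠ 0 := by positivity
    unfold Hc tri
    split_ifs
    · exact (continuousAt_const.sub (continuousAt_const.div h1 h2)).sub (by fun_prop)
    · exact continuousAt_const.div h1 h2
    · exact continuousAt_const.div h1 h2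
    · exact continuousAt_const
  have h1 : Tendsto (fun δ' : ℝ => ∑ i, ∑ j, |Hc J δ 0 i j - Hc J δ' 0 i j|) (𝓝 δ)
      (𝓝 (∑ i, ∑ j, |Hc J δ 0 i j - Hc J δ 0 i j|)) :=
    tendsto_finsetSum _ fun i _ => tendsto_finsetSum _ fun j _ =>
      (tendsto_const_nhds.sub (hc i j)).abs
  simp only [sub_self, abs_zero, sum_const_zero] at h1
  filter_upwards [h1.eventually (ge_mem_nhds hε)] with δ' h2 z k
  have h3 := abs_lam_sub_le (Hc_herm J δ z) (Hc_herm J δ' z) k
  have h4 : ∀ i j, Hc J δ z i j - Hc J δ' z i j = Hc J δ 0 i j - Hc J δ' 0 i j := by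
    intro i j
    unfold Hc tri
    split_ifs <;> ring
  simp only [h4] at h3
  rw [Phi, Phi, neg_sub_neg]
  exact h3.trans h2

lemma top_tendsto_mesh {δ : ℝ} (hδ : 0 < δ) :
    Tendsto (fun n => (⌈δ * sx n ^ 2⌉₊ : ℝ) / sx n ^ 2) atTop (𝓝 δ) := by
  have h1 : Tendsto (fun n => sx n ^ 2) atTop atTop :=
    (tendsto_pow_atTop two_ne_zero).comp tendsto_sx
  have h2 := (tendsto_nat_ceil_mul_div_atTop (R := ℝ) hδ.le).comp h1
  exact h2

lemma top_choose_J (K : ℕ) {L δ0 ω ε : ℝ} (hL : 0 < L) (hδ0 : 0 < δ0) (hω : 0 < ω) (hε : 0 < ε) :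
    ∃ J : ℕ, K ≤ J ∧ 2 * (L / (J + 1)) ≤ δ0 ∧
      ((J : ℝ) + 1) * (4 * Real.exp (-(ω ^ 2 / (16 * (L / (J + 1)))))) ≤ ε := by
  have h0 : Tendsto (fun J : ℕ => (J : ℝ) + 1) atTop atTop :=
    tendsto_atTop_add_const_right _ 1 tendsto_natCast_atTop_atTop
  have h1 : Tendsto (fun J : ℕ => 2 * (L / ((J : ℝ) + 1))) atTop (𝓝 (2 * 0)) :=
    (tendsto_const_nhds.div_atTop h0).const_mul 2
  set c := ω ^ 2 / (16 * L) with hc
  have hc0 : 0 < c := by positivity
  have h2 := (((Real.tendsto_pow_mul_exp_neg_atTop_nhds_zero 1).comp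
    (h0.const_mul_atTop hc0)).const_mul (4 / c))
  rw [mul_zero] at h1 h2
  obtain ⟨J, h3, h4, h5⟩ := ((eventually_ge_atTop K).and
    ((h1.eventually (ge_mem_nhds hδ0)).and (h2.eventually (ge_mem_nhds hε)))).exists
  refine ⟨J, h3, h4, le_of_eq_of_le ?_ h5⟩
  have h6 : ω ^ 2 / (16 * (L / ((J : ℝ) + 1))) = c * ((J : ℝ) + 1) := by
    rw [hc]; field_simp
  simp only [Function.comp, pow_one, h6]
  field_simp

/-- the oscillations in the first `J + 1` windows are small with large probability -/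
lemma top_osc (hOsc : OscStmt) (n p J : ℕ) (hp : 1 ≤ p) {s ω δ ε : ℝ} (hs : 0 < s) (hω : 0 < ω)
    (hδ : 0 < δ) (hpδ : (p : ℝ) ≤ 2 * δ * s ^ 2)
    (hJ : ((J : ℝ) + 1) * (4 * Real.exp (-(ω ^ 2 / (16 * δ)))) ≤ ε) :
    gm n {g | ∃ j, j ≤ J ∧ (ω * s ≤ osc (rowA n g) p j ∨ ω * s ≤ osc (rowX n g) p j)} ≤
      ENNReal.ofReal ε := by
  set e := Real.exp (-(ω ^ 2 / (16 * δ))) with he
  have he0 : 0 ≤ e := (Real.exp_pos _).le
  have hp0 : (0 : ℝ) < p := by exact_mod_cast hp
  have h1 : Real.exp (-(ω * s) ^ 2 / (8 * p)) ≤ e := by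
    refine Real.exp_le_exp.2 ?_
    rw [neg_div, neg_le_neg_iff, div_le_div_iff₀ (by positivity) (by positivity)]
    have := mul_le_mul_of_nonneg_left hpδ (by positivity : 0 ≤ 8 * ω ^ 2)
    nlinarith
  have h2 : ∀ j, gm n ({g | ω * s ≤ osc (rowA n g) p j} ∪ {g | ω * s ≤ osc (rowX n g) p j}) ≤
      ENNReal.ofReal (4 * e) := by
    intro j
    obtain ⟨h3, h4⟩ := hOsc n p j (ω * s) hp (by positivity)
    rw [← ofReal_measureReal]
    refine ENNReal.ofReal_le_ofReal ((measureReal_union_le _ _).trans ?_)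
    linarith
  calc gm n {g | ∃ j, j ≤ J ∧ (ω * s ≤ osc (rowA n g) p j ∨ ω * s ≤ osc (rowX n g) p j)}
      ≤ gm n (⋃ j ∈ range (J + 1),
        ({g | ω * s ≤ osc (rowA n g) p j} ∪ {g | ω * s ≤ osc (rowX n g) p j})) := by
        refine measure_mono fun g ⟨j, hj, h⟩ => ?_
        exact Set.mem_biUnion (mem_coe.2 (mem_range.2 (by omega : j < J + 1))) h
    _ ≤ ∑ j ∈ range (J + 1), gm n
        ({g | ω * s ≤ osc (rowA n g) p j} ∪ {g | ω * s ≤ osc (rowX n g) p j}) :=
        measure_biUnion_finset_le _ _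
    _ ≤ ∑ _j ∈ range (J + 1), ENNReal.ofReal (4 * e) := sum_le_sum fun j _ => h2 j
    _ = ENNReal.ofReal (((J + 1 : ℕ) : ℝ) * (4 * e)) := by
        rw [sum_const, card_range, nsmul_eq_mul, ENNReal.ofReal_mul (Nat.cast_nonneg _),
          ENNReal.ofReal_natCast]
    _ ≤ ENNReal.ofReal ε := ENNReal.ofReal_le_ofReal (by push_cast; exact hJ)

/-- approximation of the edge eigenvalues by the truncated reference eigenvalues -/
lemma top_approx (hTri : TriStmt) (hBet : BetStmt) (hOsc : OscStmt) (hKap : KapStmt)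
    (hLb : LbStmt) (hDet : DetStmt) (hE : EdgeTStmt) (K : ℕ) {ε : ℝ} (hε : 0 < ε) :
    ∃ (J : ℕ) (δ x0 : ℝ), 0 < δ ∧ ∀ᶠ n in atTop, gm n {g | ∃ k : Fin K,
      ε < |LamV n K (Tm n g) k - min (Phi J δ
        (zblk (sx n) (rowA n g) (rowX n g) ⌈δ * sx n ^ 2⌉₊ J) k) x0|} ≤ ENNReal.ofReal ε := by
  have hε3 : 0 < ε / 3 := by positivity
  obtain ⟨x0, hx0, h1⟩ := top_tight hE K hε3
  obtain ⟨h, C, hh, hC⟩ := hKap 1 zero_le_one
  obtain ⟨κ, hκ, h2⟩ := top_markov (fun n => gm n)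
    (fun n g => kap n (sx n) (rowA n g) (rowX n g) ⌈h * sx n ^ 2⌉₊)
    (fun n => measurable_kap n _ _) hC hε3
  obtain ⟨L, δ0, ω, hL, hδ0, hω, n0, hD⟩ := hDet x0 κ (ε / 2) hx0 hκ (by positivity)
  obtain ⟨J, hKJ, hJ1, hJ2⟩ := top_choose_J K hL hδ0 hω hε3
  set δ := L / ((J : ℝ) + 1) with hδ
  have hδ' : 0 < δ := by positivity
  have hδJ : ((J : ℝ) + 1) * δ = L := by rw [hδ]; field_simp
  refine ⟨J, δ, x0, hδ', ?_⟩
  have h3 := (top_tendsto_mesh hδ').eventually (top_Phi_mesh J hδ' (half_pos hε))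
  have h4 := (top_tendsto_mesh hδ').eventually (ge_mem_nhds (by linarith : δ < 2 * δ))
  filter_upwards [h1, h2, h3, h4, eventually_ge_atTop n0, eventually_ge_atTop 8,
    eventually_ge_atTop K] with n h1 h2 h3 h4 hn0 h8 hK
  have hn1 : 1 ≤ n := by omega
  have hs := sx_pos hn1
  have hs2 : 0 < sx n ^ 2 := pow_pos hs 2
  set p := ⌈δ * sx n ^ 2⌉₊ with hp
  have hp1 : 1 ≤ p := top_one_le_ceil hδ' hn1
  have hp2 : (p : ℝ) ≤ 2 * δ * sx n ^ 2 := (div_le_iff₀ hs2).1 h4
  have hp3 : δ * sx n ^ 2 ≤ p := Nat.le_ceil _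
  have h5 := top_osc hOsc n p J hp1 hs hω hδ' hp2 hJ2
  have hX : Measurable fun g => LamV n K (Tm n g) := (measurable_LamV n K).comp (measurable_Tm n)
  rw [top_map_LamV hTri, Measure.map_apply hX
    (measurableSet_lt measurable_const measurable_norm)] at h1
  have h6 := (measure_union_le _ _).trans (add_le_add
    ((measure_union_le _ _).trans (add_le_add h1 h2)) h5)
  rw [← ENNReal.ofReal_add hε3.le hε3.le, ← ENNReal.ofReal_add (by positivity) hε3.le,
    show ε / 3 + ε / 3 + ε / 3 = ε by ring] at h6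
  refine le_trans (measure_mono fun g ⟨k, hk⟩ => ?_) h6
  by_contra hc
  simp only [Set.mem_union, Set.mem_preimage, Set.mem_ofPred_eq, not_or, not_lt, not_exists,
    not_and, not_le] at hc
  obtain ⟨⟨c1, c2⟩, c3⟩ := hc
  have hk2 := k.2
  have hJ0 : (0 : ℝ) < (J : ℝ) + 1 := by positivity
  have d1 := hD n hn0 (sx n) (bet n) (rowA n g) (rowX n g) p J (hBet n hn1) hp1
    (hp2.trans (mul_le_mul_of_nonneg_right hJ1 hs2.le))
    (by rw [← hδJ, mul_assoc]; exact mul_le_mul_of_nonneg_left hp3 hJ0.le)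
    (by
      have := mul_le_mul_of_nonneg_left hp2 hJ0.le
      rw [← hδJ]; linarith)
    ((hLb n (sx n) (bet n) (rowA n g) (rowX n g) _ h8 (hBet n hn1)
      (top_one_le_ceil hh hn1)).mono c2)
    (fun j hj => ⟨(c3 j hj).1.le, (c3 j hj).2.le⟩) k (by omega)
  rw [← Lam_Tm g (by omega : (k : ℕ) < n)] at d1
  have d2 : tau n * (2 - lam (Tm n g) k) ≤ x0 :=
    (le_abs_self _).trans ((norm_le_pi_norm (LamV n K (Tm n g)) k).trans c1)
  rw [min_eq_left d2] at d1
  have d3 := (abs_min_sub_min_le_max _ x0 _ x0).trans (max_le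
    (h3 (zblk (sx n) (rowA n g) (rowX n g) p J) k) (by simpa using (half_pos hε).le))
  have d4 := (abs_sub_le _ _ _).trans (add_le_add d1 d3)
  rw [add_halves] at d4
  exact absurd d4 (not_le.2 hk)

theorem limGlue : LimGlue := by
  intro hTri hBet hOsc hKap hLb hDet hClt hE K
  let μ : Unit → ℕ → ProbabilityMeasure (Fin K → ℝ) := fun _ n =>
    ⟨(GOE n).map (LamV n K), Measure.isProbabilityMeasure_map (measurable_LamV n K).aemeasurable⟩
  have hX : ∀ n, Measurable fun g => LamV n K (Tm n g) := fun n =>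
    (measurable_LamV n K).comp (measurable_Tm n)
  have ht : ∀ b, IsTightMeasureSet {(μ b n : Measure (Fin K → ℝ)) | n} := by
    intro b
    refine isTightMeasureSet_range_of_tendsto_limsup_measure_norm_gt
      (μ := fun n => (μ b n : Measure (Fin K → ℝ))) ?_
    refine ENNReal.tendsto_nhds_zero.2 fun ε hε => ?_
    obtain ⟨η, -, hη, hη'⟩ := ENNReal.lt_iff_exists_real_btwn.1 hε
    obtain ⟨x0, -, h⟩ := top_tight hE K (ENNReal.ofReal_pos.1 hη)
    filter_upwards [eventually_ge_atTop x0] with r hr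
    refine limsup_le_of_le (by isBoundedDefault) (h.mono fun n hn => ?_)
    exact (le_trans (measure_mono fun y hy => lt_of_le_of_lt hr hy) hn).trans hη'.le
  have happ : ∀ (s : Finset (Fin K)) (ε : ℝ), 0 < ε →
      ∃ Z : Unit → ∀ n, (Fin n → Fin n → ℝ) → Fin K → ℝ,
      (∀ b n i, Measurable fun g => Z b n g i) ∧
      (∀ b, ∀ᶠ n in atTop,
        gm n {g | ∃ i ∈ s, ε < |LamV n K (Tm n g) i - Z b n g i|} ≤ ENNReal.ofReal ε) ∧
      ∀ φ : (Fin K → ℝ) → ℝ, IsCyl φ →
        ∃ L, ∀ b, Tendsto (fun n => ∫ g, φ (Z b n g) ∂gm n) atTop (𝓝 L) := by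
    intro s ε hε
    obtain ⟨J, δ, x0, hδ, h⟩ := top_approx hTri hBet hOsc hKap hLb hDet hE K hε
    have hΨ : ∀ k : Fin K, Continuous fun z : Fin J → ℝ => min (Phi J δ z k) x0 := fun k =>
      (continuous_Phi J δ k).min continuous_const
    refine ⟨fun _ n g k => min (Phi J δ
      (zblk (sx n) (rowA n g) (rowX n g) ⌈δ * sx n ^ 2⌉₊ J) k) x0,
      fun _ n k => ((hΨ k).comp (continuous_zblk n _ _ J)).measurable,
      fun _ => h.mono fun n hn => le_trans (measure_mono ?_) hn, fun ψ hψ => ?_⟩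
    · rintro g ⟨k, -, hk⟩
      exact ⟨k, hk⟩
    obtain ⟨t, M, -, hb, -⟩ := id hψ
    obtain ⟨l, hl⟩ := hClt δ hδ J (BoundedContinuousFunction.ofNormedAddCommGroup
      (fun z => ψ fun k => min (Phi J δ z k) x0) (hψ.continuous.comp (continuous_pi hΨ)) M
      fun z => hb _)
    exact ⟨l, fun _ => hl⟩
  have hc : ∀ φ : (Fin K → ℝ) → ℝ, IsCyl φ →
      ∃ L, ∀ b, Tendsto (fun n => ∫ x, φ x ∂(μ b n : Measure (Fin K → ℝ))) atTop (𝓝 L) := by
    intro φ hφ
    obtain ⟨L, hL⟩ := cyl_conv_of_approx (B := Unit) (fun _ n => gm n)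
      (fun n g => LamV n K (Tm n g)) (fun n i => (measurable_pi_apply i).comp (hX n)) happ φ hφ
    refine ⟨L, fun b => (hL b).congr fun n => ?_⟩
    change _ = ∫ x, φ x ∂(GOE n).map (LamV n K)
    rw [top_map_LamV hTri, integral_map (hX n).aemeasurable hφ.continuous.aestronglyMeasurable]
  obtain ⟨Q, hQ⟩ := exists_weak_limit (fun y : Fin K → ℝ => y) (fun i => continuous_apply i)
    (fun _ _ h => h) μ ht hc
  refine ⟨Q, inferInstance, fun F => ?_⟩
  refine (ProbabilityMeasure.tendsto_iff_forall_integral_tendsto.1 (hQ ()) F).congr fun n => ?_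
  exact integral_map (measurable_LamV n K).aemeasurable F.continuous.aestronglyMeasurable

/-! ### universality of the limit -/

/-- vague convergence to a probability measure is weak convergence -/
lemma top_vague {K : ℕ} (μ : ℕ → Measure (Fin K → ℝ)) [∀ n, IsProbabilityMeasure (μ n)]
    (ν : Measure (Fin K → ℝ)) [IsProbabilityMeasure ν]
    (h : ∀ G : (Fin K → ℝ) → ℝ, Continuous G → HasCompactSupport G →
      Tendsto (fun n => ∫ y, G y ∂μ n) atTop (𝓝 (∫ y, G y ∂ν))) (F : (Fin K → ℝ) →ᵇ ℝ) :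
    Tendsto (fun n => ∫ y, F y ∂μ n) atTop (𝓝 (∫ y, F y ∂ν)) := by
  rw [Metric.tendsto_nhds]
  intro ε hε
  set η := ε / (4 * (‖F‖ + 1)) with hη
  have hη0 : 0 < η := by positivity
  obtain ⟨S, hS, hνS⟩ := (isTightMeasureSet_iff_exists_isCompact_measure_compl_le.1
    (isTightMeasureSet_singleton (μ := ν))) _ (ENNReal.ofReal_pos.2 hη0)
  obtain ⟨χ, hχ1, -, hχc, hχ⟩ := exists_continuous_one_zero_of_isCompact hS isClosed_empty
    (Set.disjoint_empty S)
  have hb : ∀ y, |χ y| ≤ 1 := fun y => abs_le.2 ⟨by linarith [(hχ y).1], (hχ y).2⟩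
  have hi : ∀ (ρ : Measure (Fin K → ℝ)) [IsProbabilityMeasure ρ], Integrable χ ρ :=
    fun ρ _ => Integrable.of_bound χ.continuous.aestronglyMeasurable 1 (ae_of_all _ hb)
  have key : ∀ (ρ : Measure (Fin K → ℝ)) [IsProbabilityMeasure ρ],
      |∫ y, F y ∂ρ - ∫ y, F y * χ y ∂ρ| ≤ ‖F‖ * (1 - ∫ y, χ y ∂ρ) := by
    intro ρ _
    have h1 : Integrable (fun y => F y * χ y) ρ :=
      (F.integrable ρ).mul_bdd χ.continuous.aestronglyMeasurable (ae_of_all _ hb)
    rw [← integral_sub (F.integrable ρ) h1]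
    refine abs_integral_le_integral_abs.trans ?_
    have h2 : ‖F‖ * (1 - ∫ y, χ y ∂ρ) = ∫ y, ‖F‖ * (1 - χ y) ∂ρ := by
      rw [integral_const_mul, integral_sub (integrable_const _) (hi ρ)]; simp
    rw [h2]
    refine integral_mono ((F.integrable ρ).sub h1).abs
      (((integrable_const _).sub (hi ρ)).const_mul _) fun y => ?_
    have h3 : 0 ≤ 1 - χ y := by linarith [(hχ y).2]
    simp only
    rw [← mul_one_sub, abs_mul, abs_of_nonneg h3]
    exact mul_le_mul_of_nonneg_right (F.norm_coe_le_norm y) h3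
  have h1 : 1 - ∫ y, χ y ∂ν ≤ η := by
    have h2 := abs_integral_sub_le ν (u := fun _ => (1 / 2 : ℝ)) (v := fun y => χ y - 1 / 2)
      aestronglyMeasurable_const (χ.continuous.sub continuous_const).aestronglyMeasurable
      (K := 1 / 2) (η := 0) (by norm_num) le_rfl hη0.le (fun _ => by norm_num)
      (fun y => abs_le.2 ⟨by linarith [(hχ y).1], by linarith [(hχ y).2]⟩)
      (hνS ν (Set.mem_singleton ν)) (fun y hy => by
        have : χ y = 1 := hχ1 (not_not.1 hy)
        rw [this]; norm_num)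
    rw [integral_sub (hi ν) (integrable_const _)] at h2
    simp only [integral_const, probReal_univ, smul_eq_mul, one_mul] at h2
    linarith [le_abs_self (1 / 2 - (∫ y, χ y ∂ν - 1 / 2))]
  have h2 := Metric.tendsto_nhds.1 (h χ χ.continuous hχc) η hη0
  have h3 := Metric.tendsto_nhds.1 (h (fun y => F y * χ y) (F.continuous.mul χ.continuous)
    hχc.mul_left) η hη0
  filter_upwards [h2, h3] with n h2 h3
  rw [Real.dist_eq, abs_lt] at h2 h3 ⊢
  have h4 := abs_le.1 ((key ν).trans (mul_le_mul_of_nonneg_left h1 (norm_nonneg F)))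
  have h5 := abs_le.1 ((key (μ n)).trans (mul_le_mul_of_nonneg_left
    (by linarith [h2.1] : 1 - ∫ y, χ y ∂μ n ≤ 2 * η) (norm_nonneg F)))
  have h6 : 4 * (‖F‖ * η) + 4 * η = ε := by rw [hη]; field_simp
  have h7 : 0 ≤ ‖F‖ * η := by positivity
  constructor <;> nlinarith [h3.1, h3.2, h4.1, h4.2, h5.1, h5.2]

theorem topGlue : TopGlue := by
  intro hLim hU hN K
  obtain ⟨ν, hν, hF⟩ := hLim K
  refine ⟨ν, hν, hF, fun b F => ?_, fun hK x => ?_⟩
  · have hX : ∀ n, Measurable fun g => LamV n K (Jmat n g) := fun n =>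
      (measurable_LamV n K).comp measurable_Jmat
    have := fun n => Measure.isProbabilityMeasure_map (μ := couplingLaw b n) (hX n).aemeasurable
    refine (top_vague (fun n => (couplingLaw b n).map fun g => LamV n K (Jmat n g)) ν
      (fun G hG hc => ?_) F).congr fun n =>
        integral_map (hX n).aemeasurable F.continuous.aestronglyMeasurable
    obtain ⟨M, hM⟩ := hc.exists_bound_of_continuous hG
    have h := (hU K G hG hc b).add (hF (BoundedContinuousFunction.ofNormedAddCommGroup G hG M hM))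
    rw [zero_add] at h
    refine h.congr fun n => ?_
    rw [integral_map (hX n).aemeasurable hG.aestronglyMeasurable]
    exact sub_add_cancel _ _
  · obtain ⟨c, hc, h⟩ := hN x
    let μ : ℕ → ProbabilityMeasure (Fin K → ℝ) := fun n =>
      ⟨(GOE n).map (LamV n K), Measure.isProbabilityMeasure_map (measurable_LamV n K).aemeasurable⟩
    have hμ : Tendsto μ atTop (𝓝 (⟨ν, hν⟩ : ProbabilityMeasure (Fin K → ℝ))) :=
      ProbabilityMeasure.tendsto_iff_forall_integral_tendsto.2 fun F => (hF F).congr fun n =>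
        (integral_map (measurable_LamV n K).aemeasurable F.continuous.aestronglyMeasurable).symm
    have hcl : IsClosed {y : Fin K → ℝ | y ⟨0, hK⟩ ≤ -x} :=
      isClosed_le (continuous_apply _) continuous_const
    refine lt_of_lt_of_le (ENNReal.ofReal_pos.2 hc) (le_trans ?_
      (ProbabilityMeasure.limsup_measure_closed_le_of_tendsto hμ hcl))
    refine le_limsup_of_frequently_le (h.mono fun n hn => ?_).frequently (by isBoundedDefault)
    change _ ≤ (GOE n).map (LamV n K) _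
    rw [Measure.map_apply (measurable_LamV n K) hcl.measurableSet]
    exact ENNReal.ofReal_le_of_le_toReal hn

end Crest.Agent.T157.Ed

end
end

-- ▼ part T157/EdLb_88

/-!
# Row 157, part E: edge limit — `LbStmt` (helper88)
-/

set_option autoImplicit false

noncomputable section

namespace Crest.Agent.T157.Ed.Lb88

open Finset Crest.Agent.T157.Ed

lemma win (η w : ℕ → ℝ) {l : ℕ} (hl : 1 ≤ l) {o : ℝ} (h : ∀ r, r ≤ l → |∑ i ∈ range r, η i| ≤ o) :
    |∑ r ∈ range l, η r * w r| ≤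
      o / l * ∑ r ∈ range l, |w r| + 3 * o * ∑ r ∈ range (l - 1), |w (r + 1) - w r| := by
  have hl0 : (0 : ℝ) < l := by exact_mod_cast hl
  have ho : 0 ≤ o := (abs_nonneg _).trans (h 0 (Nat.zero_le l))
  have h1 := abel η w l h
  have h2 : |w 0| ≤ (∑ r ∈ range l, |w r|) / l + ∑ r ∈ range (l - 1), |w (r + 1) - w r| := by
    have h3 : ∑ _r ∈ range l, |w 0| ≤
        ∑ r ∈ range l, (|w r| + ∑ r ∈ range (l - 1), |w (r + 1) - w r|) :=
      sum_le_sum fun r hr => by
        have := abs_sub_le_sum w (r := r) (l := l - 1) (by have := mem_range.1 hr; omega)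
        have := abs_sub_abs_le_abs_sub (w 0) (w r)
        rw [abs_sub_comm] at this
        linarith
    rw [sum_add_distrib, sum_const, sum_const, card_range, nsmul_eq_mul, nsmul_eq_mul] at h3
    rw [← sub_le_iff_le_add, le_div_iff₀ hl0]
    linarith
  have e : ∑ r ∈ range l, η r * w r =
      ∑ r ∈ range l, η r * (w r - w 0) + (∑ r ∈ range l, η r) * w 0 := by
    rw [sum_mul, ← sum_add_distrib]
    exact sum_congr rfl fun r _ => by ring
  rw [e]
  refine (abs_add_le _ _).trans ?_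
  rw [abs_mul (∑ r ∈ range l, η r)]
  have h4 := mul_le_mul (h l le_rfl) h2 (abs_nonneg _) ho
  have e2 : o / l * ∑ r ∈ range l, |w r| = o * ((∑ r ∈ range l, |w r|) / l) := by ring
  linarith

lemma amgm {s : ℝ} (hs : 0 < s) (o c x y : ℝ) :
    c * (s * o) * |x * y| ≤ s ^ 4 * x ^ 2 / 256 + 64 * c ^ 2 * (o / s) ^ 2 * y ^ 2 := by
  obtain ⟨t, rfl⟩ : ∃ t, o = s * t := ⟨o / s, by field_simp⟩
  rw [mul_div_cancel_left₀ _ hs.ne', abs_mul, ← sq_abs x, ← sq_abs y]
  nlinarith [sq_nonneg (s ^ 2 * |x| / 16 - 8 * c * t * |y|)]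

lemma sum_pred_le {F : ℕ → ℝ} (hF : ∀ i, 0 ≤ F i) (l : ℕ) :
    ∑ r ∈ range (l - 1), F r ≤ ∑ r ∈ range l, F r :=
  sum_le_sum_of_subset_of_nonneg (range_subset_range.2 (Nat.sub_le _ _)) fun _ _ _ => hF _

lemma sum_pred_succ_le {F : ℕ → ℝ} (hF : ∀ i, 0 ≤ F i) (l : ℕ) :
    ∑ r ∈ range (l - 1), F (r + 1) ≤ ∑ r ∈ range l, F r := by
  rcases l with _ | l
  · simp
  · rw [Nat.add_sub_cancel, sum_range_succ' F l]
    linarith [hF 0]

/-- the noise on one window -/
lemma noise_win {s : ℝ} (hs : 0 < s) (a x U : ℕ → ℝ) {l : ℕ} (hl : 1 ≤ l) {oa ox : ℝ}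
    (ha : ∀ r, r ≤ l → |∑ i ∈ range r, a i| ≤ oa) (hx : ∀ r, r ≤ l → |∑ i ∈ range r, x i| ≤ ox) :
    |s * ∑ r ∈ range l, (a r * U r ^ 2 + x r * (U r * U (r + 1)))| ≤
      s ^ 4 * (∑ r ∈ range l, (U (r + 1) - U r) ^ 2) / 64 +
      (2400 * ((oa / s) ^ 2 + (ox / s) ^ 2) + (s ^ 2 / l) ^ 2) * ∑ r ∈ range l, U r ^ 2 := by
  have hl0 : (1 : ℝ) ≤ l := by exact_mod_cast hl
  have hox : 0 ≤ ox := (abs_nonneg _).trans (hx 0 (Nat.zero_le l))
  have h1 := mul_le_mul_of_nonneg_left (win a (fun r => U r ^ 2) hl ha) hs.le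
  have h2 := mul_le_mul_of_nonneg_left (win x (fun r => U r * U (r + 1)) hl hx) hs.le
  simp only [abs_sq] at h1
  set K := ∑ r ∈ range l, (U (r + 1) - U r) ^ 2 with hK
  set N := ∑ r ∈ range l, U r ^ 2 with hN
  have hN0 : 0 ≤ N := sum_nonneg fun _ _ => sq_nonneg _
  have k1 : ∑ r ∈ range (l - 1), (U (r + 1) - U r) ^ 2 ≤ K := sum_pred_le (fun _ => sq_nonneg _) l
  have k2 : ∑ r ∈ range (l - 1), (U (r + 1 + 1) - U (r + 1)) ^ 2 ≤ K :=
    sum_pred_succ_le (F := fun r => (U (r + 1) - U r) ^ 2) (fun _ => sq_nonneg _) l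
  have k3 : ∑ r ∈ range (l - 1), U r ^ 2 ≤ N := sum_pred_le (fun _ => sq_nonneg _) l
  have k4 : ∑ r ∈ range (l - 1), U (r + 1) ^ 2 ≤ N :=
    sum_pred_succ_le (F := fun r => U r ^ 2) (fun _ => sq_nonneg _) l
  have hs4 : 0 ≤ s ^ 4 := by positivity
  have av : ∀ o : ℝ, s * (o / l) ≤ ((o / s) ^ 2 + (s ^ 2 / l) ^ 2) / 2 := fun o => by
    have : s * (o / l) = (o / s) * (s ^ 2 / l) := by field_simp
    rw [this]; nlinarith [sq_nonneg (o / s - s ^ 2 / l)]
  have b1 : s * (3 * oa * ∑ r ∈ range (l - 1), |U (r + 1) ^ 2 - U r ^ 2|) ≤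
      s ^ 4 * K / 256 + 2304 * (oa / s) ^ 2 * N := by
    have : ∀ r ∈ range (l - 1), s * (3 * oa * |U (r + 1) ^ 2 - U r ^ 2|) ≤
        s ^ 4 / 256 * (U (r + 1) - U r) ^ 2 + 1152 * (oa / s) ^ 2 * U r ^ 2 +
          1152 * (oa / s) ^ 2 * U (r + 1) ^ 2 := fun r _ => by
      have := amgm hs oa 3 (U (r + 1) - U r) (U (r + 1) + U r)
      rw [show (U (r + 1) - U r) * (U (r + 1) + U r) = U (r + 1) ^ 2 - U r ^ 2 by ring] at this
      nlinarith [mul_nonneg (sq_nonneg (oa / s)) (sq_nonneg (U (r + 1) - U r))]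
    have h3 := sum_le_sum this
    simp only [sum_add_distrib, ← mul_sum] at h3
    nlinarith [mul_le_mul_of_nonneg_left k1 hs4, mul_le_mul_of_nonneg_left k3 (sq_nonneg (oa / s)),
      mul_le_mul_of_nonneg_left k4 (sq_nonneg (oa / s))]
  have b2 : s * (3 * ox * ∑ r ∈ range (l - 1), |U (r + 1) * U (r + 1 + 1) - U r * U (r + 1)|) ≤
      2 * (s ^ 4 * K / 256) + 1152 * (ox / s) ^ 2 * N := by
    have : ∀ r ∈ range (l - 1), s * (3 * ox * |U (r + 1) * U (r + 1 + 1) - U r * U (r + 1)|) ≤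
        s ^ 4 / 256 * (U (r + 1 + 1) - U (r + 1)) ^ 2 + s ^ 4 / 256 * (U (r + 1) - U r) ^ 2 +
          1152 * (ox / s) ^ 2 * U (r + 1) ^ 2 := fun r _ => by
      have h3 := amgm hs ox 3 (U (r + 1 + 1) - U (r + 1)) (U (r + 1))
      have h4 := amgm hs ox 3 (U (r + 1) - U r) (U (r + 1))
      have h5 := abs_add_le ((U (r + 1 + 1) - U (r + 1)) * U (r + 1)) ((U (r + 1) - U r) * U (r + 1))
      rw [show (U (r + 1 + 1) - U (r + 1)) * U (r + 1) + (U (r + 1) - U r) * U (r + 1) =
        U (r + 1) * U (r + 1 + 1) - U r * U (r + 1) by ring] at h5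
      nlinarith [mul_le_mul_of_nonneg_left h5 (mul_nonneg hs.le hox)]
    have h3 := sum_le_sum this
    simp only [sum_add_distrib, ← mul_sum] at h3
    nlinarith [mul_le_mul_of_nonneg_left k1 hs4, mul_le_mul_of_nonneg_left k2 hs4,
      mul_le_mul_of_nonneg_left k4 (sq_nonneg (ox / s))]
  have b3 : s * (ox / l * ∑ r ∈ range l, |U r * U (r + 1)|) ≤
      s ^ 4 * K / 256 + (64 * (ox / s) ^ 2 + ((ox / s) ^ 2 + (s ^ 2 / l) ^ 2) / 2) * N := by
    have : ∀ r ∈ range l, s * (ox / l * |U r * U (r + 1)|) ≤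
        s ^ 4 / 256 * (U (r + 1) - U r) ^ 2 +
          (64 * (ox / s) ^ 2 + ((ox / s) ^ 2 + (s ^ 2 / l) ^ 2) / 2) * U r ^ 2 := fun r _ => by
      have h3 := amgm hs ox 1 (U (r + 1) - U r) (U r)
      have h4 := abs_add_le ((U (r + 1) - U r) * U r) (U r ^ 2)
      rw [show (U (r + 1) - U r) * U r + U r ^ 2 = U r * U (r + 1) by ring, abs_sq] at h4
      have h5 : ox / l ≤ ox := div_le_self hox hl0
      have h6 : 0 ≤ ox / l := by positivity
      have h7 := mul_le_mul_of_nonneg_left h4 (mul_nonneg hs.le h6)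
      have h8 := mul_le_mul_of_nonneg_right (av ox) (sq_nonneg (U r))
      have h9 := mul_le_mul_of_nonneg_right (mul_le_mul_of_nonneg_left h5 hs.le)
        (abs_nonneg ((U (r + 1) - U r) * U r))
      linarith
    have h3 := sum_le_sum this
    simp only [sum_add_distrib, ← mul_sum] at h3
    linarith
  have b4 := mul_le_mul_of_nonneg_right (av oa) hN0
  rw [abs_mul, abs_of_pos hs, sum_add_distrib]
  have h5 := mul_le_mul_of_nonneg_left (abs_add_le (∑ r ∈ range l, a r * U r ^ 2)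
    (∑ r ∈ range l, x r * (U r * U (r + 1)))) hs.le
  nlinarith [mul_nonneg (sq_nonneg (oa / s)) hN0, mul_nonneg (sq_nonneg (ox / s)) hN0]

variable {n : ℕ} {s : ℝ} {u : ℕ → ℝ}

lemma sum_win {F : ℕ → ℝ} {l : ℕ} (hl : 1 ≤ l) (h : ∀ i, n < i → F i = 0) :
    ∑ i ∈ range (n + 1), F i = ∑ j ∈ range (n + 1), ∑ r ∈ range l, F (j * l + r) := by
  rw [← sum_range_mul]
  refine sum_subset (range_subset_range.2 (Nat.le_mul_of_pos_right _ hl)) fun i _ hi => h i ?_
  simpa [Nat.lt_succ_iff] using hi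

lemma noise (hs : 0 < s) (hu : Adm n u) (a x : ℕ → ℝ) {l : ℕ} (hl : 1 ≤ l) :
    |s * ∑ i ∈ range (n + 1), (a i * u i ^ 2 + x i * (u i * u (i + 1)))| ≤
      (kin n s u + pot n s u) / 64 + kap n s a x l * nrm n u := by
  rw [kin, pot, nrm, sum_win hl fun i hi => by simp [hu.2 i hi],
    sum_win (F := fun i => (u (i + 1) - u i) ^ 2) hl
      fun i hi => by simp [hu.2 i hi, hu.2 (i + 1) (by omega)],
    sum_win (F := fun i => (i : ℝ) / s ^ 2 * u i ^ 2) hl fun i hi => by simp [hu.2 i hi],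
    sum_win (F := fun i => u i ^ 2) hl fun i hi => by simp [hu.2 i hi],
    mul_sum, mul_sum, mul_sum, ← sum_add_distrib, sum_div, ← sum_add_distrib]
  refine (abs_sum_le_sum_abs _ _).trans (sum_le_sum fun j hj => ?_)
  refine (noise_win hs (fun r => a (j * l + r)) (fun r => x (j * l + r)) (fun r => u (j * l + r)) hl
    (fun r hr => le_osc a l j hr) fun r hr => le_osc x l j hr).trans ?_
  have h1 := le_kap n s a x l (j := j) (by have := mem_range.1 hj; omega)
  have h2 : (j : ℝ) * l / s ^ 2 * ∑ r ∈ range l, u (j * l + r) ^ 2 ≤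
      ∑ r ∈ range l, ((j * l + r : ℕ) : ℝ) / s ^ 2 * u (j * l + r) ^ 2 := by
    rw [mul_sum]
    refine sum_le_sum fun r _ => mul_le_mul_of_nonneg_right ?_ (sq_nonneg _)
    push_cast
    gcongr
    linarith [Nat.cast_nonneg (α := ℝ) r]
  have h3 := mul_le_mul_of_nonneg_right h1
    (sum_nonneg fun r (_ : r ∈ range l) => sq_nonneg (u (j * l + r)))
  have e : (j : ℝ) * l / (64 * s ^ 2) = (j : ℝ) * l / s ^ 2 / 64 := by ring
  rw [e] at h3
  simp only [add_assoc]
  linarith

lemma gam {β : ℕ → ℝ} (hc : Coef n s β) (hn : 8 ≤ n) {i : ℕ} (hi : i ≤ n) :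
    0 ≤ β i ∧ (i : ℝ) / (2 * s ^ 2) ≤ s * (s ^ 3 - β i) ∧
      (s * (s ^ 3 - β i) ≤ 3 * (i / s ^ 2) ∧ s * (s ^ 3 - β i) ≤ 2 * ((i + 1) / s ^ 2)) ∧
      (2 * i ≤ n → s ^ 3 / 2 ≤ β i) := by
  have hs := hc.hs
  rcases Nat.eq_zero_or_pos i with h | h
  · subst h
    rw [hc.b0]
    refine ⟨by positivity, by simp, ⟨by simp, by simp; positivity⟩, fun _ => ?_⟩
    linarith [pow_pos hs 3]
  have hi1 : (1 : ℝ) ≤ i := by exact_mod_cast h
  have hin : (i : ℝ) ≤ s ^ 6 := by rw [hc.hn]; exact_mod_cast hi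
  have h1 := hc.lo i h
  have h2 := hc.hi i h
  have h6 : 0 < s ^ 6 := by positivity
  refine ⟨(Real.sqrt_nonneg _).trans h1, ?_, ?_, fun h3 => le_trans ?_ h1⟩
  · rw [← hc.hn] at h2
    have h3 := Det.sqrt_upper (y := i) hs (by linarith)
    have : (i : ℝ) / (2 * s ^ 2) = s * (i / (2 * s ^ 3)) := by field_simp
    rw [this]
    exact mul_le_mul_of_nonneg_left (by linarith) hs.le
  · have h3 : s ^ 3 - (i + 2) / s ^ 3 ≤ Real.sqrt ((n : ℝ) - i - 2) := by
      rcases le_total (s ^ 3 - (i + 2) / s ^ 3) 0 with h4 | h4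
      · exact h4.trans (Real.sqrt_nonneg _)
      · refine Real.le_sqrt_of_sq_le ?_
        have h5 : (0 : ℝ) ≤ (i + 2) / s ^ 3 := by positivity
        have h7 : s ^ 3 * ((i + 2) / s ^ 3) = i + 2 := by field_simp
        rw [← hc.hn]
        nlinarith [mul_nonneg h4 h5]
    have h4 : s * (s ^ 3 - β i) ≤ s * ((i + 2) / s ^ 3) :=
      mul_le_mul_of_nonneg_left (by linarith) hs.le
    have : s * (((i : ℝ) + 2) / s ^ 3) = (i + 2) / s ^ 2 := by field_simp
    rw [this] at h4
    constructor <;> refine h4.trans ?_ <;> rw [← mul_div_assoc] <;> gcongr <;> linarith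
  · refine Real.le_sqrt_of_sq_le ?_
    have h4 : (2 * i : ℝ) ≤ n := by exact_mod_cast h3
    have h5 : (8 : ℝ) ≤ n := by exact_mod_cast hn
    have h7 := hc.hn
    nlinarith

lemma det {β : ℕ → ℝ} (hc : Coef n s β) (hn : 8 ≤ n) (hu : Adm n u) :
    (kin n s u + pot n s u) / 32 ≤
      2 * s ^ 4 * nrm n u - s * ∑ i ∈ range (n + 1), 2 * β i * (u i * u (i + 1)) ∧
    2 * s ^ 4 * nrm n u - s * ∑ i ∈ range (n + 1), 2 * β i * (u i * u (i + 1)) ≤
      kin n s u + 5 * pot n s u := by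
  have hs := hc.hs
  have e1 := sum_sq_shift hu fun _ => 1
  have e2 := sum_sq_shift hu fun i => (i : ℝ) / s ^ 2
  simp only [one_mul] at e1
  have e3 : 2 * s ^ 4 * nrm n u - s * ∑ i ∈ range (n + 1), 2 * β i * (u i * u (i + 1)) =
      ∑ i ∈ range (n + 1), (s * β i * (u (i + 1) - u i) ^ 2 +
        s * (s ^ 3 - β i) * u i ^ 2 + s * (s ^ 3 - β i) * u (i + 1) ^ 2) := by
    have e4 : ∀ i : ℕ, s * β i * (u (i + 1) - u i) ^ 2 +
        s * (s ^ 3 - β i) * u i ^ 2 + s * (s ^ 3 - β i) * u (i + 1) ^ 2 =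
        s ^ 4 * u i ^ 2 + s ^ 4 * u (i + 1) ^ 2 - s * (2 * β i * (u i * u (i + 1))) :=
      fun i => by ring
    simp only [e4, sum_add_distrib, sum_sub_distrib, ← mul_sum, e1, nrm]
    ring
  rw [e3, kin, pot]
  constructor
  · have h1 : ∀ i ∈ range (n + 1), s ^ 4 / 32 * (u (i + 1) - u i) ^ 2 +
        3 / 8 * ((i : ℝ) / s ^ 2 * u i ^ 2) - 1 / 8 * (((i + 1 : ℕ) : ℝ) / s ^ 2 * u (i + 1) ^ 2) ≤
        s * β i * (u (i + 1) - u i) ^ 2 + s * (s ^ 3 - β i) * u i ^ 2 +
          s * (s ^ 3 - β i) * u (i + 1) ^ 2 := fun i hi => by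
      obtain ⟨g0, g1, -, g3⟩ := gam hc hn (i := i) (by have := mem_range.1 hi; omega)
      have g4 : (i : ℝ) / (2 * s ^ 2) = i / s ^ 2 / 2 := by ring
      have g5 : (0 : ℝ) ≤ i / s ^ 2 := by positivity
      have g6 : (i : ℝ) / s ^ 2 ≤ ((i + 1 : ℕ) : ℝ) / s ^ 2 := by gcongr; omega
      rw [g4] at g1
      have k1 := mul_le_mul_of_nonneg_right g1 (sq_nonneg (u i))
      have k2 := mul_nonneg (le_trans (by positivity) g1) (sq_nonneg (u (i + 1)))
      have k3 := mul_nonneg g5 (sq_nonneg (u i))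
      have k4 := mul_nonneg (g5.trans g6) (sq_nonneg (u (i + 1)))
      by_cases h : 2 * i ≤ n
      · have k5 := mul_le_mul_of_nonneg_right (mul_le_mul_of_nonneg_left (g3 h) hs.le)
          (sq_nonneg (u (i + 1) - u i))
        have k6 := mul_nonneg (by positivity : 0 ≤ s ^ 4) (sq_nonneg (u (i + 1) - u i))
        linarith
      · have k5 : s ^ 4 ≤ 2 * ((i : ℝ) / s ^ 2) := by
          rw [← mul_div_assoc, le_div_iff₀ (by positivity), ← pow_add, hc.hn]
          exact_mod_cast (not_le.1 h).le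
        have k6 := mul_nonneg (mul_nonneg hs.le g0) (sq_nonneg (u (i + 1) - u i))
        have k7 := mul_le_mul_of_nonneg_right k5 (sq_nonneg (u i))
        have k8 := mul_le_mul_of_nonneg_right (k5.trans (mul_le_mul_of_nonneg_left g6 zero_le_two))
          (sq_nonneg (u (i + 1)))
        have k9 := mul_nonneg (by positivity : 0 ≤ s ^ 4) (sq_nonneg (u (i + 1) + u i))
        nlinarith
    have h2 := sum_le_sum h1
    rw [sum_sub_distrib, sum_add_distrib, ← mul_sum, ← mul_sum, ← mul_sum, e2] at h2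
    have h3 := pot_nonneg n s u
    rw [pot] at h3
    linarith
  · have h1 : ∀ i ∈ range (n + 1), s * β i * (u (i + 1) - u i) ^ 2 + s * (s ^ 3 - β i) * u i ^ 2 +
          s * (s ^ 3 - β i) * u (i + 1) ^ 2 ≤ s ^ 4 * (u (i + 1) - u i) ^ 2 +
        3 * ((i : ℝ) / s ^ 2 * u i ^ 2) + 2 * (((i + 1 : ℕ) : ℝ) / s ^ 2 * u (i + 1) ^ 2) :=
      fun i hi => by
      obtain ⟨-, g1, ⟨g2, g3⟩, -⟩ := gam hc hn (i := i) (by have := mem_range.1 hi; omega)
      have g5 : (0 : ℝ) ≤ i / (2 * s ^ 2) := by positivity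
      have k1 := mul_le_mul_of_nonneg_right g2 (sq_nonneg (u i))
      have k2 := mul_nonneg (g5.trans g1) (sq_nonneg (u (i + 1) - u i))
      have g7 : s * (s ^ 3 - β i) ≤ 2 * (((i + 1 : ℕ) : ℝ) / s ^ 2) := by
        push_cast; exact g3
      have k3 := mul_le_mul_of_nonneg_right g7 (sq_nonneg (u (i + 1)))
      linarith
    have h2 := sum_le_sum h1
    rw [sum_add_distrib (f := fun i => s ^ 4 * (u (i + 1) - u i) ^ 2 +
      3 * ((i : ℝ) / s ^ 2 * u i ^ 2)), sum_add_distrib (f := fun i => s ^ 4 * (u (i + 1) - u i) ^ 2),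
      ← mul_sum, ← mul_sum, ← mul_sum, e2] at h2
    linarith

theorem lbStmt : LbStmt := by
  intro n s β a x l hn hc hl u hu
  have h1 := abs_le.1 (noise hc.hs hu a x hl)
  have h2 := det hc hn hu
  have e : ∑ i ∈ range (n + 1), (a i * u i ^ 2 + 2 * bx β x i * (u i * u (i + 1))) =
      ∑ i ∈ range (n + 1), (a i * u i ^ 2 + x i * (u i * u (i + 1))) +
        ∑ i ∈ range (n + 1), 2 * β i * (u i * u (i + 1)) := by
    rw [← sum_add_distrib]
    exact sum_congr rfl fun i _ => by rw [bx]; ring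
  rw [Qf, e]
  have := kin_nonneg n s u
  have := pot_nonneg n s u
  constructor <;> linarith [h1.1, h1.2, h2.1, h2.2]

end Crest.Agent.T157.Ed.Lb88

end
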