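import Crest.Agent.T157.EdBase_88
import Crest.Agent.T157.EdDetA_88
import Crest.Agent.T157.EdMba_36
import Crest.Agent.T157.EdTri_62

-- ▼ part T157/EdCnt_6
section

/-!
# Row 157, part E: eigenvalue bounds from the two-sided bound of the form (helper6)

Lower bound: Dirichlet constraints at the points `j p`; upper bound: disjoint tents.
-/

set_option autoImplicit false

noncomputable section

namespace Crest.Agent.T157.Ed

open Matrix Finset
open Crest.Agent.T157.Eig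

namespace Cnt

lemma sum_blocks (F : ℕ → ℝ) (q K : ℕ) :
    ∑ i ∈ range (K * q), F i = ∑ j ∈ range K, ∑ r ∈ range q, F (j * q + r) := by
  induction K with
  | zero => simp
  | succ K ih => rw [Nat.succ_mul, sum_range_add, ih, sum_range_succ]

/-- Poincaré inequality on a block starting at a zero -/
lemma block_le (w : ℕ → ℝ) (h0 : w 0 = 0) (p : ℕ) :
    ∑ r ∈ range p, w r ^ 2 ≤ (p : ℝ) ^ 2 * ∑ r ∈ range p, (w (r + 1) - w r) ^ 2 := by
  have h1 : ∀ r ∈ range p, w r ^ 2 ≤ p * ∑ r ∈ range p, (w (r + 1) - w r) ^ 2 := by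
    intro r hr
    have hr' : r ≤ p := (mem_range.1 hr).le
    have h2 : w r = ∑ i ∈ range r, (w (i + 1) - w i) := by rw [sum_range_sub, h0, sub_zero]
    have h3 := sq_sum_le_card_mul_sum_sq (s := range r) (f := fun i => w (i + 1) - w i)
    rw [← h2, card_range] at h3
    refine h3.trans (mul_le_mul (by exact_mod_cast hr') ?_ (sum_nonneg fun _ _ => sq_nonneg _)
      (Nat.cast_nonneg _))
    exact sum_le_sum_of_subset_of_nonneg (range_subset_range.2 hr') fun _ _ _ => sq_nonneg _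
  refine (sum_le_card_nsmul _ _ _ h1).trans (le_of_eq ?_)
  rw [card_range, nsmul_eq_mul]; ring

lemma blocks_le (u : ℕ → ℝ) (p K : ℕ) (h : ∀ j, j < K → u (j * p) = 0) :
    ∑ i ∈ range (K * p), u i ^ 2 ≤
      (p : ℝ) ^ 2 * ∑ i ∈ range (K * p), (u (i + 1) - u i) ^ 2 := by
  rw [sum_blocks, sum_blocks, mul_sum]
  exact sum_le_sum fun j hj => block_le (fun r => u (j * p + r)) (h j (mem_range.1 hj)) p

lemma sum_le_of_vanish {F : ℕ → ℝ} (h0 : ∀ i, 0 ≤ F i) {N : ℕ} (hN : ∀ i, N ≤ i → F i = 0)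
    (M : ℕ) : ∑ i ∈ range M, F i ≤ ∑ i ∈ range N, F i := by
  rcases le_total M N with h | h
  · exact sum_le_sum_of_subset_of_nonneg (range_subset_range.2 h) fun i _ _ => h0 i
  · exact (sum_subset (range_subset_range.2 h) fun i _ hi =>
      hN i (not_lt.1 fun h' => hi (mem_range.2 h'))).ge

/-- the lower bound of the energy under the Dirichlet constraints -/
lemma lower {n : ℕ} {s t : ℝ} (hs : 0 < s) (ht : 0 < t) {u : ℕ → ℝ} (hu : Adm n u) {p K : ℕ}
    (hK : t ^ 3 = K) (hp1 : s ^ 2 ≤ p * t) (hp2 : p * t ≤ 2 * s ^ 2)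
    (h : ∀ j, j < K → u (j * p) = 0) : t ^ 2 / 4 * nrm n u ≤ kin n s u + pot n s u := by
  have hs2 : 0 < s ^ 2 := by positivity
  set D := ∑ i ∈ range (n + 1), (u (i + 1) - u i) ^ 2 with hD
  have hD0 : 0 ≤ D := sum_nonneg fun _ _ => sq_nonneg _
  have h1 : ∑ i ∈ range (K * p), u i ^ 2 ≤ (p : ℝ) ^ 2 * D := by
    refine (blocks_le u p K h).trans (mul_le_mul_of_nonneg_left ?_ (sq_nonneg _))
    refine sum_le_of_vanish (fun _ => sq_nonneg _) (fun i hi => ?_) _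
    rw [hu.2 i (by omega), hu.2 (i + 1) (by omega)]; simp
  have h2 : ∑ i ∈ range (n + 1), (if i < K * p then u i ^ 2 else 0) ≤
      ∑ i ∈ range (K * p), u i ^ 2 := by
    refine (sum_le_of_vanish (F := fun i => if i < K * p then u i ^ 2 else 0) (N := K * p)
      (fun i => ?_) (fun i hi => if_neg (not_lt.2 hi)) _).trans
      (le_of_eq (sum_congr rfl fun i hi => if_pos (mem_range.1 hi)))
    split_ifs
    · exact sq_nonneg _
    · exact le_rfl
  have h3 : ∀ i : ℕ, t ^ 2 / 4 * u i ^ 2 ≤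
      t ^ 2 / 4 * (if i < K * p then u i ^ 2 else 0) + (i : ℝ) / s ^ 2 * u i ^ 2 := by
    intro i
    split_ifs with hi
    · exact le_add_of_nonneg_right (by positivity)
    · rw [mul_zero, zero_add]
      refine mul_le_mul_of_nonneg_right ?_ (sq_nonneg _)
      have h4 : (K : ℝ) * p ≤ i := by exact_mod_cast not_lt.1 hi
      rw [le_div_iff₀ hs2]
      have h5 : t ^ 2 * s ^ 2 ≤ t ^ 2 * (p * t) := mul_le_mul_of_nonneg_left hp1 (sq_nonneg _)
      have h6 : t ^ 2 * (p * t) = K * p := by rw [← hK]; ring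
      have h7 : 0 ≤ t ^ 2 * s ^ 2 := by positivity
      linarith
  have h4 : t ^ 2 / 4 * nrm n u ≤
      t ^ 2 / 4 * ∑ i ∈ range (n + 1), (if i < K * p then u i ^ 2 else 0) + pot n s u := by
    rw [nrm, pot, mul_sum, mul_sum, ← sum_add_distrib]
    exact sum_le_sum fun i _ => h3 i
  have h5 : t ^ 2 / 4 * ((p : ℝ) ^ 2 * D) ≤ kin n s u := by
    rw [kin, ← hD, ← mul_assoc]
    refine mul_le_mul_of_nonneg_right ?_ hD0
    have h6 : (p * t) ^ 2 ≤ (2 * s ^ 2) ^ 2 := pow_le_pow_left₀ (by positivity) hp2 2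
    nlinarith
  have h6 := mul_le_mul_of_nonneg_left (h2.trans h1) (by positivity : 0 ≤ t ^ 2 / 4)
  linarith

/-- the tent profile on a block of length `2 p` -/
def psi (p r : ℕ) : ℝ := min (r : ℝ) (2 * p - r)

/-- disjoint tents with heights `c j` -/
def tent (p : ℕ) (c : ℕ → ℝ) (i : ℕ) : ℝ := c (i / (2 * p)) * psi p (i % (2 * p))

lemma psi_zero (p : ℕ) : psi p 0 = 0 := by simp [psi]

lemma psi_end (p : ℕ) : psi p (2 * p) = 0 := by simp [psi]

lemma psi_of_le {p r : ℕ} (h : r ≤ p) : psi p r = r := by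
  have : (r : ℝ) ≤ p := by exact_mod_cast h
  exact min_eq_left (by linarith)

lemma psi_step (p r : ℕ) : (psi p (r + 1) - psi p r) ^ 2 ≤ 1 := by
  rw [sq_le_one_iff_abs_le_one, abs_le, psi, psi]
  push_cast
  rcases le_total ((r : ℝ) + 1) (2 * p - (r + 1)) with h | h <;>
    rcases le_total (r : ℝ) (2 * p - r) with h' | h' <;>
    simp only [min_eq_left h, min_eq_right h, min_eq_left h', min_eq_right h'] <;>
    constructor <;> linarith

lemma sum_sq_ge (p : ℕ) : (p : ℝ) ^ 3 / 3 ≤ ∑ r ∈ range (p + 1), (r : ℝ) ^ 2 := by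
  induction p with
  | zero => simp
  | succ p ih =>
    rw [sum_range_succ]
    push_cast
    have : (0 : ℝ) ≤ p := Nat.cast_nonneg p
    nlinarith

lemma sum_psi_ge {p : ℕ} (hp : 1 ≤ p) : (p : ℝ) ^ 3 / 3 ≤ ∑ r ∈ range (2 * p), psi p r ^ 2 := by
  refine (sum_sq_ge p).trans ?_
  calc ∑ r ∈ range (p + 1), (r : ℝ) ^ 2 = ∑ r ∈ range (p + 1), psi p r ^ 2 :=
        sum_congr rfl fun r hr => by rw [psi_of_le (Nat.lt_succ_iff.1 (mem_range.1 hr))]
    _ ≤ _ := sum_le_sum_of_subset_of_nonneg (range_subset_range.2 (by omega))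
        fun _ _ _ => sq_nonneg _

lemma tent_block {p : ℕ} (hp : 1 ≤ p) (c : ℕ → ℝ) (j : ℕ) {r : ℕ} (hr : r ≤ 2 * p) :
    tent p c (j * (2 * p) + r) = c j * psi p r := by
  have hq : 0 < 2 * p := by omega
  rcases hr.eq_or_lt with h | h
  · rw [h, tent, ← Nat.succ_mul, Nat.mul_mod_left, psi_zero, psi_end, mul_zero, mul_zero]
  · rw [tent, add_comm, Nat.add_mul_div_right _ _ hq, Nat.add_mul_mod_self_right,
      Nat.div_eq_of_lt h, Nat.mod_eq_of_lt h, zero_add]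

lemma tent_zero (p : ℕ) (c : ℕ → ℝ) : tent p c 0 = 0 := by simp [tent, psi_zero]

lemma tent_of_le {p K : ℕ} (hp : 1 ≤ p) {c : ℕ → ℝ} (hc : ∀ j, K ≤ j → c j = 0) {i : ℕ}
    (hi : K * (2 * p) ≤ i) : tent p c i = 0 := by
  rw [tent, hc _ ((Nat.le_div_iff_mul_le (by omega)).2 hi), zero_mul]

lemma tent_adm {n p K : ℕ} (hp : 1 ≤ p) (hn : K * (2 * p) ≤ n + 1) {c : ℕ → ℝ}
    (hc : ∀ j, K ≤ j → c j = 0) : Adm n (tent p c) :=
  ⟨tent_zero p c, fun _ hi => tent_of_le hp hc (by omega)⟩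

lemma tent_nrm {n p K : ℕ} (hp : 1 ≤ p) (hn : K * (2 * p) ≤ n + 1) (c : ℕ → ℝ) :
    (p : ℝ) ^ 3 / 3 * ∑ j ∈ range K, c j ^ 2 ≤ nrm n (tent p c) := by
  refine le_trans ?_ (sum_le_sum_of_subset_of_nonneg (range_subset_range.2 hn)
    fun _ _ _ => sq_nonneg _)
  rw [sum_blocks, mul_sum]
  refine sum_le_sum fun j _ => ?_
  rw [sum_congr rfl fun r hr => by rw [tent_block hp c j (mem_range.1 hr).le, mul_pow],
    ← mul_sum, mul_comm]
  exact mul_le_mul_of_nonneg_left (sum_psi_ge hp) (sq_nonneg _)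

lemma tent_kin (n : ℕ) {p K : ℕ} (hp : 1 ≤ p) {c : ℕ → ℝ} (hc : ∀ j, K ≤ j → c j = 0) :
    ∑ i ∈ range (n + 1), (tent p c (i + 1) - tent p c i) ^ 2 ≤
      2 * p * ∑ j ∈ range K, c j ^ 2 := by
  refine (sum_le_of_vanish (F := fun i => (tent p c (i + 1) - tent p c i) ^ 2) (N := K * (2 * p))
    (fun _ => sq_nonneg _) (fun i hi => ?_) _).trans ?_
  · rw [tent_of_le hp hc hi, tent_of_le hp hc (by omega)]; simp
  rw [sum_blocks, mul_sum]
  refine sum_le_sum fun j _ => ?_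
  have h1 : ∀ r ∈ range (2 * p),
      (tent p c (j * (2 * p) + r + 1) - tent p c (j * (2 * p) + r)) ^ 2 ≤ c j ^ 2 := by
    intro r hr
    rw [add_assoc, tent_block hp c j (mem_range.1 hr), tent_block hp c j (mem_range.1 hr).le,
      ← mul_sub, mul_pow]
    exact mul_le_of_le_one_right (sq_nonneg _) (psi_step p r)
  refine (sum_le_card_nsmul _ _ _ h1).trans (le_of_eq ?_)
  rw [card_range, nsmul_eq_mul]; push_cast; ring

/-- the upper bound of the energy of the tents -/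
lemma upper {n : ℕ} {s t : ℝ} (hs : 0 < s) (ht : 0 < t) {p K : ℕ} (hp : 1 ≤ p)
    (hK : t ^ 3 = K) (hp1 : s ^ 2 ≤ p * t) (hp2 : p * t ≤ 2 * s ^ 2) (hn : K * (2 * p) ≤ n + 1)
    {c : ℕ → ℝ} (hc : ∀ j, K ≤ j → c j = 0) :
    kin n s (tent p c) + pot n s (tent p c) ≤ 10 * t ^ 2 * nrm n (tent p c) := by
  have hs2 : 0 < s ^ 2 := by positivity
  have hp0 : (0 : ℝ) < p := by exact_mod_cast hp
  have hS : 0 ≤ ∑ j ∈ range K, c j ^ 2 := sum_nonneg fun _ _ => sq_nonneg _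
  have h1 : kin n s (tent p c) ≤ 6 * t ^ 2 * nrm n (tent p c) := by
    have h2 := mul_le_mul_of_nonneg_left (tent_kin n hp hc) (by positivity : 0 ≤ s ^ 4)
    have h3 := mul_le_mul_of_nonneg_left (tent_nrm hp hn c) (by positivity : 0 ≤ 6 * t ^ 2)
    have h4 : (s ^ 2) ^ 2 ≤ (p * t) ^ 2 := pow_le_pow_left₀ hs2.le hp1 2
    have h5 := mul_le_mul_of_nonneg_right h4
      (mul_nonneg (by positivity : (0 : ℝ) ≤ 2 * p) hS)
    rw [kin]
    nlinarith
  have h2 : pot n s (tent p c) ≤ 4 * t ^ 2 * nrm n (tent p c) := by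
    rw [pot, nrm, mul_sum]
    refine sum_le_sum fun i _ => ?_
    by_cases hi : i < K * (2 * p)
    · refine mul_le_mul_of_nonneg_right ?_ (sq_nonneg _)
      have h4 : (i : ℝ) ≤ K * (2 * p) := by exact_mod_cast hi.le
      rw [div_le_iff₀ hs2]
      have h5 : t ^ 2 * (p * t) ≤ t ^ 2 * (2 * s ^ 2) := mul_le_mul_of_nonneg_left hp2 (sq_nonneg _)
      have h6 : t ^ 2 * (p * t) = K * p := by rw [← hK]; ring
      linarith
    · rw [tent_of_le hp hc (not_lt.1 hi)]; simp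
  linarith

/-- the tents as a linear map -/
def tentL (n p K : ℕ) : (Fin K → ℝ) →ₗ[ℝ] (Fin n → ℝ) where
  toFun c := res n (tent p fun j => ext c (j + 1))
  map_add' c d := by
    funext i; simp only [res, tent, ext_add, Pi.add_apply]; ring
  map_smul' r c := by
    funext i; simp only [res, tent, ext_smul, Pi.smul_apply, smul_eq_mul, RingHom.id_apply]; ring

lemma scales {n k : ℕ} {s : ℝ} (hs : 0 < s) (hn : s ^ 6 = n) (hk : k < n) :
    ∃ (t : ℝ) (p : ℕ), 0 < t ∧ t ^ 3 = ((k + 1 : ℕ) : ℝ) ∧ ((k : ℝ) + 1) ^ (2 / 3 : ℝ) = t ^ 2 ∧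
      1 ≤ p ∧ s ^ 2 ≤ p * t ∧ p * t ≤ 2 * s ^ 2 := by
  have hK : (0 : ℝ) < (k : ℝ) + 1 := by positivity
  set t : ℝ := ((k : ℝ) + 1) ^ (1 / 3 : ℝ) with ht
  have ht0 : 0 < t := Real.rpow_pos_of_pos hK _
  have ht3 : t ^ 3 = (k : ℝ) + 1 := by
    rw [ht, ← Real.rpow_natCast, ← Real.rpow_mul hK.le]; norm_num
  have ht2 : ((k : ℝ) + 1) ^ (2 / 3 : ℝ) = t ^ 2 := by
    rw [ht, ← Real.rpow_natCast, ← Real.rpow_mul hK.le]; norm_num
  have hts : t ≤ s ^ 2 := by
    refine le_of_pow_le_pow_left₀ (by norm_num : 3 ≠ 0) (by positivity) ?_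
    have : (k : ℝ) + 1 ≤ n := by exact_mod_cast hk
    rw [ht3, ← pow_mul]; norm_num; linarith
  have hr : 1 ≤ s ^ 2 / t := (one_le_div ht0).2 hts
  have h1 := Nat.le_ceil (s ^ 2 / t)
  have h2 := Nat.ceil_lt_add_one (by linarith : 0 ≤ s ^ 2 / t)
  refine ⟨t, ⌈s ^ 2 / t⌉₊, ht0, by rw [ht3]; push_cast; ring, ht2, ?_, ?_, ?_⟩
  · exact Nat.ceil_pos.2 (by linarith)
  · exact (div_le_iff₀ ht0).1 h1
  · have h3 : (⌈s ^ 2 / t⌉₊ : ℝ) ≤ 2 * s ^ 2 / t := by rw [mul_div_assoc]; linarith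
    exact (le_div_iff₀ ht0).1 h3

end Cnt

open Cnt in
theorem cntStmt : CntStmt := by
  intro n s a b κ hs hn h2 k hk
  obtain ⟨t, p, ht, ht3, ht2, hp, hp1, hp2⟩ := scales hs hn hk
  rw [ht2]
  have hH := Hm_herm (n := n) s a b
  refine ⟨?_, fun h8 => ?_⟩
  · have h := lam_le_of_perp hH (k := k) (by simpa using hk) (range k)
      (fun j => res n fun i => if i = (j + 1) * p then 1 else 0) (by simp)
      (x := κ - t ^ 2 / 256) fun v hv => ?_
    · linarith
    have hz : ∀ j, j < k + 1 → ext v (j * p) = 0 := by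
      intro j hj
      rcases j with _ | j
      · rw [zero_mul, ext_zero]
      by_cases hjn : n < (j + 1) * p
      · exact ext_of_lt v hjn
      obtain ⟨m, hm⟩ : ∃ m, (j + 1) * p = m + 1 :=
        Nat.exists_eq_succ_of_ne_zero (Nat.mul_pos (Nat.succ_pos j) hp).ne'
      have h1 := hv j (mem_range.2 (by omega))
      have hmn : m < n := by omega
      rw [hm, ext_succ' v hmn, ← h1, dotProduct, sum_eq_single (⟨m, hmn⟩ : Fin n)]
      · simp [res, hm]
      · intro i _ hi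
        have : ¬ ((i : ℕ) + 1 = (j + 1) * p) := fun e => hi (Fin.ext (by simp only; omega))
        simp only [res, if_neg this, zero_mul]
      · simp
    have h3 := lower hs ht (adm_ext v) ht3 hp1 hp2 hz
    have h4 := (h2 _ (adm_ext v)).1
    rw [quad_Hm, ← nrm_ext]
    linarith
  · have hN : (k + 1) * (2 * p) ≤ n + 1 := by
      have h8' : 8 * ((k + 1 : ℕ) : ℝ) ≤ n := by exact_mod_cast h8
      have hts : 2 * t ≤ s ^ 2 := by
        refine le_of_pow_le_pow_left₀ (by norm_num : 3 ≠ 0) (by positivity) ?_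
        rw [mul_pow, ht3, ← pow_mul]; norm_num; push_cast at h8'; linarith
      have h3 : (2 * t) ^ 2 ≤ (s ^ 2) ^ 2 := pow_le_pow_left₀ (by positivity) hts 2
      have h4 : t ^ 2 * (p * t) ≤ t ^ 2 * (2 * s ^ 2) :=
        mul_le_mul_of_nonneg_left hp2 (sq_nonneg _)
      have h5 := mul_le_mul_of_nonneg_right h3 (sq_nonneg s)
      have h6 : ((k + 1 : ℕ) : ℝ) * (2 * p) ≤ n := by
        rw [← ht3, ← hn]; nlinarith
      have h7 : (k + 1) * (2 * p) ≤ n := by exact_mod_cast h6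
      omega
    have h := transfer (A := (0 : Matrix (Fin (k + 1)) (Fin (k + 1)) ℝ)) isHermitian_zero hH
      (tentL n p (k + 1)) (k := k) (by simp) (y := -(60 * t ^ 2 + κ)) fun c _ => ?_
    · linarith
    have hc : ∀ j, k + 1 ≤ j → ext c (j + 1) = 0 := fun j hj => ext_of_lt c (by omega)
    have hadm := tent_adm hp hN hc
    have he : ext (tentL n p (k + 1) c) = tent p fun j => ext c (j + 1) := ext_res hadm
    refine ⟨fun h0 => ?_, ?_⟩
    · have h3 := tent_nrm hp hN fun j => ext c (j + 1)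
      rw [← he, nrm_ext, h0, dotProduct_zero, Finset.sum_range] at h3
      simp only [ext_succ] at h3
      by_contra hne
      have h4 := dot_self_pos hne
      have hp0 : (0 : ℝ) < p := by exact_mod_cast hp
      have h5 : c ⬝ᵥ c = ∑ i, c i ^ 2 := by simp only [dotProduct, sq]
      rw [← h5] at h3
      have := mul_pos (by positivity : (0 : ℝ) < (p : ℝ) ^ 3 / 3) h4
      linarith
    · have h3 := upper hs ht hp ht3 hp1 hp2 hN hc
      have h4 := (h2 _ hadm).2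
      rw [quad_Hm, ← nrm_ext, he]
      linarith

end Crest.Agent.T157.Ed

end
end

-- ▼ part T157/EdDet_88
section

/-!
# Row 157, part E: edge limit — `DetStmt` (helper88)

IMS cut-off, sampling and linear interpolation.
-/

set_option autoImplicit false

noncomputable section

namespace Crest.Agent.T157.Ed.Det

open Finset Matrix Crest.Agent.T157.Ed Crest.Agent.T157.Eig

variable {n P p J : ℕ} {v : ℕ → ℝ} {s : ℝ}

/-! ### the cut-off -/

/-- angle of the partition of unity -/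
def ang (P i : ℕ) : ℝ := Real.pi / 2 * max 0 (min 1 (2 * (i : ℝ) / P - 1))

lemma ang_of_le {i : ℕ} (hP : 0 < P) (h : 2 * i ≤ P) : ang P i = 0 := by
  have h0 : (0 : ℝ) < P := by exact_mod_cast hP
  have h1 : (2 * i / P - 1 : ℝ) ≤ 0 := by
    rw [sub_nonpos, div_le_one h0]; exact_mod_cast h
  rw [ang, max_eq_left ((min_le_right _ _).trans h1), mul_zero]

lemma ang_of_ge {i : ℕ} (hP : 0 < P) (h : P ≤ i) : ang P i = Real.pi / 2 := by
  have h0 : (0 : ℝ) < P := by exact_mod_cast hP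
  have h1 : (1 : ℝ) ≤ 2 * i / P - 1 := by
    rw [le_sub_iff_add_le, le_div_iff₀ h0]
    have : (P : ℝ) ≤ i := by exact_mod_cast h
    linarith
  rw [ang, min_eq_left h1, max_eq_right zero_le_one, mul_one]

lemma abs_ang_sub (hP : 0 < P) (i : ℕ) : |ang P (i + 1) - ang P i| ≤ 4 / P := by
  have h0 : (0 : ℝ) < P := by exact_mod_cast hP
  rw [ang, ang, ← mul_sub, abs_mul, abs_of_pos (by positivity : 0 < Real.pi / 2)]
  have h1 : |max 0 (min 1 (2 * ((i + 1 : ℕ) : ℝ) / P - 1)) - max 0 (min 1 (2 * (i : ℝ) / P - 1))|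
      ≤ 2 / P := by
    rw [max_comm 0, max_comm 0]
    refine (abs_max_sub_max_le_abs _ _ _).trans ?_
    refine (abs_min_sub_min_le_max _ _ _ _).trans (max_le (by simp; positivity) (le_of_eq ?_))
    rw [show (2 * ((i + 1 : ℕ) : ℝ) / P - 1) - (2 * (i : ℝ) / P - 1) = 2 / P by
      push_cast; ring, abs_of_pos (by positivity)]
  have h2 : Real.pi / 2 ≤ 2 := by linarith [Real.pi_le_four]
  calc _ ≤ 2 * (2 / (P : ℝ)) := mul_le_mul h2 h1 (abs_nonneg _) (by norm_num)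
    _ = 4 / P := by ring

/-- inner part -/
def cut (P : ℕ) (v : ℕ → ℝ) : ℕ → ℝ := fun i => Real.cos (ang P i) * v i
/-- outer part -/
def out (P : ℕ) (v : ℕ → ℝ) : ℕ → ℝ := fun i => Real.sin (ang P i) * v i

lemma sup_cut (hP : 0 < P) (hv : Adm n v) : Sup P (cut P v) :=
  ⟨by simp [cut, hv.1], fun i hi => by simp [cut, ang_of_ge hP hi]⟩

lemma adm_out (hv : Adm n v) : Adm n (out P v) :=
  ⟨by simp [out, hv.1], fun i hi => by simp [out, hv.2 i hi]⟩

lemma nrm_cut_out : nrm n (cut P v) + nrm n (out P v) = nrm n v := by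
  simp only [nrm, ← sum_add_distrib, cut, out]
  refine sum_congr rfl fun i _ => ?_
  have := Real.cos_sq_add_sin_sq (ang P i)
  rw [mul_pow, mul_pow, ← add_mul, this, one_mul]

lemma ims (hP : 0 < P) (hv : Adm n v) (hs : 0 < s) {a b : ℕ → ℝ}
    (hb : ∀ i, i < P → |b i| ≤ 2 * s ^ 3) :
    Qf n s a b (cut P v) + Qf n s a b (out P v) ≤
      Qf n s a b v + 32 * s ^ 4 / P ^ 2 * nrm n v := by
  have h0 : (0 : ℝ) < P := by exact_mod_cast hP
  have e : Qf n s a b (cut P v) + Qf n s a b (out P v) = Qf n s a b v +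
      ∑ i ∈ range (n + 1), s * (2 * b i * (v i * v (i + 1)) *
        (1 - Real.cos (ang P (i + 1) - ang P i))) := by
    have e1 : ∑ i ∈ range (n + 1), (a i * cut P v i ^ 2 + 2 * b i * (cut P v i * cut P v (i + 1))) +
        ∑ i ∈ range (n + 1), (a i * out P v i ^ 2 + 2 * b i * (out P v i * out P v (i + 1))) =
        ∑ i ∈ range (n + 1), (a i * v i ^ 2 + 2 * b i * (v i * v (i + 1))) -
        ∑ i ∈ range (n + 1), 2 * b i * (v i * v (i + 1)) *
          (1 - Real.cos (ang P (i + 1) - ang P i)) := by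
      rw [← sum_add_distrib, ← sum_sub_distrib]
      refine sum_congr rfl fun i _ => ?_
      have := Real.cos_sq_add_sin_sq (ang P i)
      simp only [cut, out, Real.cos_sub]
      linear_combination (a i * v i ^ 2) * this
    have e2 := nrm_cut_out (n := n) (P := P) (v := v)
    rw [← mul_sum]
    simp only [Qf]
    linear_combination (2 * s ^ 4) * e2 - s * e1
  rw [e]
  have h1 : ∀ i ∈ range (n + 1), s * (2 * b i * (v i * v (i + 1)) *
      (1 - Real.cos (ang P (i + 1) - ang P i))) ≤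
      16 * s ^ 4 / P ^ 2 * v i ^ 2 + 16 * s ^ 4 / P ^ 2 * v (i + 1) ^ 2 := fun i _ => by
    by_cases hi : i < P
    · have h2 := Real.one_sub_sq_div_two_le_cos (x := ang P (i + 1) - ang P i)
      have h3 := Real.cos_le_one (ang P (i + 1) - ang P i)
      have h4 : (ang P (i + 1) - ang P i) ^ 2 ≤ (4 / P) ^ 2 := by
        rw [← sq_abs]; exact pow_le_pow_left₀ (abs_nonneg _) (abs_ang_sub hP i) 2
      have h5 : 2 * b i * (v i * v (i + 1)) ≤ 2 * s ^ 3 * (v i ^ 2 + v (i + 1) ^ 2) := by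
        have h6 := abs_le.1 (hb i hi)
        nlinarith [mul_nonneg (sub_nonneg.2 h6.2) (sq_nonneg (v i + v (i + 1))),
          mul_nonneg (neg_le_iff_add_nonneg.1 h6.1) (sq_nonneg (v i - v (i + 1)))]
      have h7 : 1 - Real.cos (ang P (i + 1) - ang P i) ≤ 8 / P ^ 2 := by
        have : (4 / (P : ℝ)) ^ 2 = 2 * (8 / P ^ 2) := by ring
        linarith
      have h8 : 2 * b i * (v i * v (i + 1)) * (1 - Real.cos (ang P (i + 1) - ang P i)) ≤
          2 * s ^ 3 * (v i ^ 2 + v (i + 1) ^ 2) * (8 / P ^ 2) :=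
        (mul_le_mul_of_nonneg_right h5 (by linarith)).trans
          (mul_le_mul_of_nonneg_left h7 (by positivity))
      refine (mul_le_mul_of_nonneg_left h8 hs.le).trans (le_of_eq ?_)
      ring
    · rw [ang_of_ge hP (not_lt.1 hi), ang_of_ge hP (by omega), sub_self, Real.cos_zero, sub_self,
        mul_zero, mul_zero]
      positivity
  have h9 := sum_le_sum h1
  rw [sum_add_distrib, sum_sq_shift hv fun _ => 16 * s ^ 4 / P ^ 2] at h9
  have : 32 * s ^ 4 / P ^ 2 * nrm n v = 2 * ∑ i ∈ range (n + 1), 16 * s ^ 4 / P ^ 2 * v i ^ 2 := by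
    rw [nrm, ← mul_sum]; ring
  linarith

lemma pot_out (hP : 0 < P) (hs : 0 < s) {L : ℝ} (hL : L * s ^ 2 ≤ P) :
    L / 2 * nrm n (out P v) ≤ pot n s (out P v) := by
  rw [nrm, pot, mul_sum]
  refine sum_le_sum fun i _ => ?_
  by_cases h : 2 * i ≤ P
  · simp [out, ang_of_le hP h]
  · refine mul_le_mul_of_nonneg_right ?_ (sq_nonneg _)
    rw [le_div_iff₀ (by positivity)]
    have : (P : ℝ) ≤ 2 * i := by exact_mod_cast (not_le.1 h).le
    linarith

/-! ### linear interpolation -/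

/-- linear interpolation from the mesh `p` -/
def itp (p : ℕ) (u : ℕ → ℝ) : ℕ → ℝ :=
  fun i => u (i / p) + ((i % p : ℕ) : ℝ) / p * (u (i / p + 1) - u (i / p))

lemma itp_apply (hp : 1 ≤ p) (u : ℕ → ℝ) (j : ℕ) {r : ℕ} (hr : r ≤ p) :
    itp p u (j * p + r) = u j + (r : ℝ) / p * (u (j + 1) - u j) := by
  have h0 : (p : ℝ) ≠ 0 := by positivity
  rcases hr.lt_or_eq with h | h
  · have e1 : (j * p + r) / p = j := by
      rw [mul_comm, Nat.mul_add_div (by omega), Nat.div_eq_of_lt h, add_zero]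
    have e2 : (j * p + r) % p = r := by
      rw [mul_comm, Nat.mul_add_mod, Nat.mod_eq_of_lt h]
    rw [itp, e1, e2]
  · have e1 : (j * p + r) / p = j + 1 := by
      rw [h, ← Nat.succ_mul, Nat.mul_div_cancel _ (by omega)]
    have e2 : (j * p + r) % p = 0 := by
      rw [h, ← Nat.succ_mul, Nat.mul_mod_left]
    rw [itp, e1, e2, h, div_self h0]
    simp

lemma itp_mul (hp : 1 ≤ p) (u : ℕ → ℝ) (j : ℕ) : itp p u (j * p) = u j := by
  simpa using itp_apply hp u j (Nat.zero_le p)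

lemma sup_itp (hp : 1 ≤ p) {u : ℕ → ℝ} (hu : Adm J u) : Sup ((J + 1) * p) (itp p u) := by
  refine ⟨by simp [itp, hu.1], fun i hi => ?_⟩
  have h : J + 1 ≤ i / p := (Nat.le_div_iff_mul_le (by omega)).2 hi
  rw [itp, hu.2 _ (by omega), hu.2 _ (by omega)]
  simp

lemma kin_itp (hp : 1 ≤ p) (hP : (J + 1) * p ≤ n + 1) (hs : 0 < s) {u : ℕ → ℝ} (hu : Adm J u) :
    kin n s (itp p u) =
      p * (1 / (p / s ^ 2) ^ 2 * ∑ j ∈ range (J + 1), (u (j + 1) - u j) ^ 2) := by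
  have h0 : (p : ℝ) ≠ 0 := by positivity
  rw [(sup_itp hp hu).kin_eq hP, sum_range_mul, mul_sum, mul_sum, mul_sum]
  refine sum_congr rfl fun j _ => ?_
  have : ∀ r ∈ range p, (itp p u (j * p + r + 1) - itp p u (j * p + r)) ^ 2 =
      ((u (j + 1) - u j) / p) ^ 2 := fun r hr => by
    have hr' := mem_range.1 hr
    rw [add_assoc, itp_apply hp u j (r := r + 1) hr', itp_apply hp u j hr'.le]
    push_cast; ring
  rw [sum_congr rfl this, sum_const, card_range, nsmul_eq_mul]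
  field_simp

/-! ### the two linear maps -/

/-- cut-off and sampling -/
def smpL (n P p J : ℕ) : (Fin n → ℝ) →ₗ[ℝ] (Fin J → ℝ) where
  toFun v := res J fun j => cut P (ext v) (j * p)
  map_add' v w := by funext j; simp [res, cut, ext_add, mul_add]
  map_smul' c v := by funext j; simp [res, cut, ext_smul]; ring

/-- interpolation -/
def itpL (n p J : ℕ) : (Fin J → ℝ) →ₗ[ℝ] (Fin n → ℝ) where
  toFun u := res n (itp p (ext u))
  map_add' v w := by funext j; simp [res, itp, ext_add]; ring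
  map_smul' c v := by funext j; simp [res, itp, ext_smul]; ring

lemma Sup.adm_smp (h : Sup ((J + 1) * p) v) : Adm J fun j => v (j * p) :=
  ⟨by simpa using h.1, fun j hj => h.2 _ (Nat.mul_le_mul_right p hj)⟩

lemma lam_le_kap {a b : ℕ → ℝ} {κ : ℝ} (h : Two n s a b κ) {k : ℕ} (hk : k < n) :
    lam (Hm n s a b) k ≤ κ := by
  refine lam_le (Hm_herm s a b) (by simpa using hk) (cod_top.mono (Nat.zero_le k)) fun w _ => ?_
  have h1 := (h _ (adm_ext w)).1
  rw [quad_Hm, ← nrm_ext]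
  linarith [kin_nonneg n s (ext w), pot_nonneg n s (ext w)]

lemma num1 {t T M e θ δ η η1 N Nc K Q R : ℝ} (hT : 1 ≤ T) (ht : |t| ≤ T) (hM : 0 ≤ M)
    (he1 : e ≤ 1) (hθ : θ * (M + 1) = e / 8) (hδ0 : 0 ≤ δ) (hδ : T * δ ≤ θ) (hη0 : 0 ≤ η)
    (hη : η ≤ θ) (hη1 : η1 ≤ e / 8) (hN : 0 ≤ N) (hK0 : 0 ≤ K) (hK : K ≤ M * N)
    (hc : |N - Nc| ≤ δ * (K + N)) (hQ : Q ≤ t * N + η1 * N) (hR : R ≤ Q + η * (K + N)) :
    N ≤ 2 * Nc ∧ R ≤ (t + e) * Nc := by
  have hE : K + N ≤ (M + 1) * N := by linarith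
  have hθ0 : 0 ≤ θ := hη0.trans hη
  have he0 : 0 ≤ e := by nlinarith
  have h1 : θ * (K + N) ≤ e / 8 * N := by
    rw [← hθ, mul_assoc]; exact mul_le_mul_of_nonneg_left hE hθ0
  have hE0 : 0 ≤ K + N := by linarith
  have h2 : T * (δ * (K + N)) ≤ e / 8 * N := by
    rw [← mul_assoc]; exact (mul_le_mul_of_nonneg_right hδ hE0).trans h1
  have h3 : δ * (K + N) ≤ e / 8 * N := by
    nlinarith [mul_nonneg hδ0 hE0]
  have h4 : η * (K + N) ≤ e / 8 * N := (mul_le_mul_of_nonneg_right hη hE0).trans h1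
  have h5 : t * (N - Nc) ≤ T * (δ * (K + N)) := by
    refine (le_abs_self _).trans ?_
    rw [abs_mul]
    exact mul_le_mul ht hc (abs_nonneg _) (by linarith)
  have h6 := (abs_le.1 hc).2
  have h7 : e * N ≤ 1 * N := mul_le_mul_of_nonneg_right he1 hN
  have h8 : N ≤ 2 * Nc := by linarith
  refine ⟨h8, ?_⟩
  have h9 : η1 * N ≤ e / 8 * N := mul_le_mul_of_nonneg_right hη1 hN
  have h10 : e * N ≤ e * (2 * Nc) := mul_le_mul_of_nonneg_left h8 he0
  nlinarith [mul_nonneg he0 hN]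

lemma num2 {t T κ e θ δ η N Nc K Q : ℝ} (hκ : 0 ≤ κ) (hT : 1 ≤ T) (ht : |t| ≤ T)
    (htκ : t + κ + 1 ≤ T) (he1 : e ≤ 1) (hθ : θ * (128 * T + 1) = e / 8) (hδ0 : 0 ≤ δ)
    (hδ : T * δ ≤ θ) (hη0 : 0 ≤ η) (hη : η ≤ θ) (hN : 0 ≤ N) (hK0 : 0 ≤ K)
    (hc : |N - Nc| ≤ δ * (K + N)) (hl : K / 64 - κ * N ≤ Q) (hQ : Q ≤ t * Nc + η * (K + N)) :
    Q ≤ (t + e) * N := by
  have hθ0 : 0 ≤ θ := hη0.trans hη
  have he0 : 0 ≤ e := by nlinarith
  have hE0 : 0 ≤ K + N := by linarith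
  have hθ1 : θ ≤ 1 / 256 := by nlinarith
  have h5 : t * (Nc - N) ≤ T * (δ * (K + N)) := by
    refine (le_abs_self _).trans ?_
    rw [abs_mul, abs_sub_comm]
    exact mul_le_mul ht hc (abs_nonneg _) (by linarith)
  have h2 : T * (δ * (K + N)) ≤ θ * (K + N) := by
    rw [← mul_assoc]; exact mul_le_mul_of_nonneg_right hδ hE0
  have h4 : η * (K + N) ≤ θ * (K + N) := mul_le_mul_of_nonneg_right hη hE0
  have h6 : Q ≤ t * N + 2 * (θ * (K + N)) := by linarith
  have h7 : θ * (K + N) ≤ 1 / 256 * (K + N) := mul_le_mul_of_nonneg_right hθ1 hE0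
  have h8 : (t + κ + 1) * N ≤ T * N := mul_le_mul_of_nonneg_right htκ hN
  have h9 : K + N ≤ (128 * T + 1) * N := by linarith
  have h10 : θ * (K + N) ≤ e / 8 * N := by
    rw [← hθ, mul_assoc]; exact mul_le_mul_of_nonneg_left h9 hθ0
  nlinarith [mul_nonneg he0 hN]

section core
variable {β a x : ℕ → ℝ} {κ x0 T e θ η L δ : ℝ} {k : ℕ} {z : Fin J → ℝ}

lemma fine_coarse (hs : 0 < s) (hp : 1 ≤ p) (hP : (J + 1) * p ≤ n + 1) (hkn : k < n)
    (hδ : δ = p / s ^ 2) (htwo : Two n s a (bx β x) κ) (hx : 0 ≤ x0) (hκ : 0 ≤ κ)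
    (hT : T = x0 + κ + 1) (he0 : 0 < e) (he1 : e ≤ 1 / 2) (hθe : θ * (128 * T + 1) = e / 8)
    (hTδ : T * δ ≤ θ) (hη0 : 0 ≤ η) (hηθ : η ≤ θ) (hL : 128 * (T + 1) ≤ L)
    (hL1 : L * s ^ 2 ≤ ((J : ℝ) + 1) * p) (hb : ∀ i, i < (J + 1) * p → |bx β x i| ≤ 2 * s ^ 3)
    (hI : 32 * s ^ 4 / (((J + 1) * p : ℕ) : ℝ) ^ 2 ≤ e / 8)
    (cmp : ∀ v, Sup ((J + 1) * p) v → |Qf n s a (bx β x) v - kin n s v -
      p * ∑ j ∈ range (J + 1), (j * δ - ext z j) * v (j * p) ^ 2| ≤ η * (kin n s v + nrm n v))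
    (htx : -lam (Hm n s a (bx β x)) k < x0) :
    Phi J δ z k ≤ -lam (Hm n s a (bx β x)) k + e := by
  have hlam := lam_le_kap htwo hkn
  have hp0 : (0 : ℝ) < p := by exact_mod_cast hp
  have hP0 : 0 < (J + 1) * p := by positivity
  have hδ0 : 0 ≤ δ := by rw [hδ]; positivity
  obtain ⟨t, ht⟩ : ∃ t, lam (Hm n s a (bx β x)) k = -t := ⟨_, (neg_neg _).symm⟩
  have key : -(t + e) ≤ lam (Hc J δ z) k := by
    refine transfer (Hm_herm s a (bx β x)) (Hc_herm J δ z) (smpL n ((J + 1) * p) p J)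
      (by simpa using hkn) fun w hw => ?_
    rw [quad_Hm, ← nrm_ext, ht] at hw
    rw [ht] at hlam htx
    have hv := adm_ext w
    obtain ⟨v, hvdef⟩ : ∃ v, v = cut ((J + 1) * p) (ext w) := ⟨_, rfl⟩
    have hsup : Sup ((J + 1) * p) v := hvdef ▸ sup_cut hP0 hv
    have h1 := ims hP0 hv hs (a := a) hb
    have h2 := nrm_cut_out (n := n) (P := (J + 1) * p) (v := ext w)
    have h3 := (htwo _ (adm_out (P := (J + 1) * p) hv)).1
    have h4 := pot_out (n := n) (v := ext w) hP0 hs (L := L) (by push_cast; exact hL1)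
    have h5 := kin_nonneg n s (out ((J + 1) * p) (ext w))
    have h6 := nrm_nonneg n (out ((J + 1) * p) (ext w))
    have h7 := nrm_nonneg n v
    have h8 := mul_le_mul_of_nonneg_right hI (nrm_nonneg n (ext w))
    rw [← hvdef] at h1 h2
    have h9 : (t + e / 8 + 1) * nrm n (out ((J + 1) * p) (ext w)) ≤
        (L / 128 - κ) * nrm n (out ((J + 1) * p) (ext w)) :=
      mul_le_mul_of_nonneg_right (by linarith) h6
    have hQ : Qf n s a (bx β x) v ≤ t * nrm n v + e / 8 * nrm n v -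
        nrm n (out ((J + 1) * p) (ext w)) := by
      rw [← h2] at hw h8 h1
      linarith
    have h10 := (htwo _ (hsup.adm hP)).1
    have h11 := pot_nonneg n s v
    have hK : kin n s v ≤ 128 * T * nrm n v := by
      have : (t + e / 8 + κ) * nrm n v ≤ 2 * T * nrm n v :=
        mul_le_mul_of_nonneg_right (by linarith) h7
      linarith
    have hext : ext (smpL n ((J + 1) * p) p J w) = fun j => v (j * p) := by
      rw [hvdef] at hsup ⊢
      exact ext_res hsup.adm_smp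
    have hR := hsup.cmp_kin hP hs hp
    have hc1 := (abs_le.1 (cmp v hsup)).1
    have hc2 := hsup.cmp_nrm hP hs
    rw [← hδ] at hR hc2
    obtain ⟨k1, k2⟩ := num1 (t := t) (T := T) (e := e) (η1 := e / 8) (Q := Qf n s a (bx β x) v)
      (R := p * (1 / δ ^ 2 * ∑ j ∈ range (J + 1), (v ((j + 1) * p) - v (j * p)) ^ 2) +
        p * ∑ j ∈ range (J + 1), (j * δ - ext z j) * v (j * p) ^ 2) (by linarith)
      (abs_le.2 ⟨by linarith, by linarith⟩) (by linarith) (by linarith) hθe hδ0 hTδ hη0 hηθ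
      le_rfl h7 (kin_nonneg n s v) hK hc2 (by linarith) (by linarith)
    constructor
    · intro h0
      have e1 : nrm J (fun j => v (j * p)) = 0 := by rw [← hext, nrm_ext, h0]; simp
      rw [e1] at k1
      have e2 : nrm n v = 0 := by linarith
      have e3 : nrm n (out ((J + 1) * p) (ext w)) = 0 := by
        have := kin_nonneg n s v
        rw [e2] at hQ h10
        linarith
      have e4 : w ⬝ᵥ w = 0 := by rw [← nrm_ext, ← h2, e2, e3, add_zero]
      exact dotProduct_self_eq_zero.1 e4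
    · rw [quad_Hc, ← nrm_ext, hext]
      refine le_of_mul_le_mul_left ?_ hp0
      linarith
  rw [Phi, ht]; linarith

lemma coarse_fine (hs : 0 < s) (hp : 1 ≤ p) (hP : (J + 1) * p ≤ n + 1) (hkn : k < n) (hk : k < J)
    (hδ : δ = p / s ^ 2) (htwo : Two n s a (bx β x) κ) (hx : 0 ≤ x0) (hκ : 0 ≤ κ)
    (hT : T = x0 + κ + 1) (he1 : e ≤ 1 / 2) (hθe : θ * (128 * T + 1) = e / 8)
    (hTδ : T * δ ≤ θ) (hη0 : 0 ≤ η) (hηθ : η ≤ θ)
    (cmp : ∀ v, Sup ((J + 1) * p) v → |Qf n s a (bx β x) v - kin n s v -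
      p * ∑ j ∈ range (J + 1), (j * δ - ext z j) * v (j * p) ^ 2| ≤ η * (kin n s v + nrm n v))
    (htx : Phi J δ z k < x0) : -lam (Hm n s a (bx β x)) k ≤ Phi J δ z k + e := by
  have hlam := lam_le_kap htwo hkn
  have hp0 : (0 : ℝ) < p := by exact_mod_cast hp
  have hδ0 : 0 ≤ δ := by rw [hδ]; positivity
  obtain ⟨t', ht'⟩ : ∃ t', t' = max (Phi J δ z k) (-κ - 1) := ⟨_, rfl⟩
  have h1 : t' ≤ x0 := ht' ▸ max_le htx.le (by linarith)
  have h2 : -κ - 1 ≤ t' := ht' ▸ le_max_right _ _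
  have h3 : Phi J δ z k ≤ t' := ht' ▸ le_max_left _ _
  have key : -(t' + e) ≤ lam (Hm n s a (bx β x)) k := by
    refine transfer (Hc_herm J δ z) (Hm_herm s a (bx β x)) (itpL n p J)
      (by simpa using hk) fun w hw => ?_
    rw [quad_Hc, ← nrm_ext] at hw
    have hu := adm_ext w
    have hsup := sup_itp hp hu
    have hext : ext (itpL n p J w) = itp p (ext w) := ext_res (hsup.adm hP)
    have hsm : (fun j => itp p (ext w) (j * p)) = ext w := funext fun j => itp_mul hp _ j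
    constructor
    · intro h0
      rw [h0] at hext
      rw [← res_ext w, ← hsm, ← hext]
      funext j
      simp [res, Ed.ext]
    · rw [quad_Hm, ← nrm_ext, hext]
      have c1 := (abs_le.1 (cmp _ hsup)).2
      have c2 := hsup.cmp_nrm hP hs
      have c3 := kin_itp hp hP hs hu
      have c4 := (htwo _ (hsup.adm hP)).1
      simp only [itp_mul hp] at c1
      rw [hsm] at c2
      rw [← hδ] at c2 c3
      have c5 : Phi J δ z k * nrm J (ext w) ≤ t' * nrm J (ext w) :=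
        mul_le_mul_of_nonneg_right h3 (nrm_nonneg _ _)
      rw [Phi] at c5
      have c6 : 1 / δ ^ 2 * ∑ j ∈ range (J + 1), (ext w (j + 1) - ext w j) ^ 2 +
          ∑ j ∈ range (J + 1), (j * δ - ext z j) * ext w j ^ 2 ≤ t' * nrm J (ext w) := by
        linarith
      have c7 := mul_le_mul_of_nonneg_left c6 hp0.le
      have := num2 (t := t') (T := T) (e := e) (Q := Qf n s a (bx β x) (itp p (ext w))) hκ
        (by linarith) (abs_le.2 ⟨by linarith, by linarith⟩) (by linarith) (by linarith) hθe hδ0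
        hTδ hη0 hηθ (nrm_nonneg _ _) (kin_nonneg n s _) c2
        (by linarith [pot_nonneg n s (itp p (ext w))]) (by linarith)
      linarith
  rcases max_cases (Phi J δ z k) (-κ - 1) with h | h
  · rw [ht', h.1] at key; linarith
  · rw [ht', h.1] at key; linarith

lemma abs_bx_le (hc : Coef n s β) (hp : 1 ≤ p) {ω : ℝ} (hω : ω ≤ 1)
    (ho : ∀ j, j ≤ J → osc a p j ≤ ω * s ∧ osc x p j ≤ ω * s) (i : ℕ) (hi : i < (J + 1) * p) :
    |bx β x i| ≤ 2 * s ^ 3 := by
  have hs := hc.hs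
  have hs1 := one_le_of_pow_six hs hc.hn
  have h1 : i / p ≤ J := Nat.lt_succ_iff.1 ((Nat.div_lt_iff_lt_mul (by omega)).2 hi)
  have h2 := abs_le_two_osc x p (i / p) (Nat.mod_lt i (by omega : 0 < p))
  rw [Nat.div_add_mod'] at h2
  have h3 := (ho _ h1).2
  have h4 : 0 ≤ β i ∧ β i ≤ s ^ 3 := by
    rcases Nat.eq_zero_or_pos i with h | h
    · rw [h, hc.b0]; exact ⟨by positivity, le_rfl⟩
    · refine ⟨(Real.sqrt_nonneg _).trans (hc.lo i h), (hc.hi i h).trans ?_⟩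
      rw [← sqrt_eq_of_pow_six hs hc.hn]
      exact Real.sqrt_le_sqrt (by linarith [Nat.cast_nonneg (α := ℝ) i])
  have h5 : s ≤ s ^ 3 := le_self_pow₀ hs1 (by norm_num)
  have h6 : ω * s ≤ 1 * s := mul_le_mul_of_nonneg_right hω hs.le
  rw [bx, abs_le] at *
  constructor <;> linarith [h2.1, h2.2, h4.1, h4.2]

end core

lemma exists_const {T e : ℝ} (hT1 : 1 ≤ T) (he0 : 0 < e) (he1 : e ≤ 1 / 2) :
    ∃ θ L : ℝ, 0 < θ ∧ θ ≤ 1 ∧ θ * (128 * T + 1) = e / 8 ∧ 128 * (T + 1) ≤ L ∧ 256 ≤ L ∧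
      256 ≤ e * L ^ 2 := by
  have hθe : e / (8 * (128 * T + 1)) * (128 * T + 1) = e / 8 := by field_simp
  have hθ0 : 0 < e / (8 * (128 * T + 1)) := by positivity
  have hLe : 0 < 256 / e := by positivity
  have h1 : e * (256 / e) = 256 := by field_simp
  refine ⟨_, 128 * (T + 1) + 256 / e, hθ0, by nlinarith, hθe, by linarith, by linarith, ?_⟩
  have h2 : 256 ≤ e * (128 * (T + 1) + 256 / e) := by nlinarith
  have h3 : 1 ≤ 128 * (T + 1) + 256 / e := by linarith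
  nlinarith

theorem detStmt : DetStmt := by
  intro x0 κ ε hx hκ hε
  obtain ⟨e, he0, he1, heε⟩ : ∃ e : ℝ, 0 < e ∧ e ≤ 1 / 2 ∧ e ≤ ε :=
    ⟨min ε (1 / 2), lt_min hε (by norm_num), min_le_right _ _, min_le_left _ _⟩
  obtain ⟨T, hT⟩ : ∃ T, T = x0 + κ + 1 := ⟨_, rfl⟩
  have hT1 : 1 ≤ T := by linarith
  obtain ⟨θ, L, hθ0, hθ1, hθe, hL, hL2, heL⟩ := exists_const hT1 he0 he1
  have hL0 : 0 < L := by linarith
  refine ⟨L, θ / (3 * (2 * L + 1) * T), θ / 21, hL0, by positivity, by positivity,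
    ⌈(3 * (L + 3 + 15 * L ^ 2) / θ) ^ 3⌉₊, ?_⟩
  intro n hn s β a x p J hc hp hpδ hL1 hL3 htwo ho k hk
  have hs := hc.hs
  have hs1 := one_le_of_pow_six hs hc.hn
  have hs2 : 1 ≤ s ^ 2 := one_le_pow₀ hs1
  have hp0 : (0 : ℝ) < p := by exact_mod_cast hp
  have hSs : 3 * (L + 3 + 15 * L ^ 2) / θ ≤ s ^ 2 := by
    refine le_of_pow_le_pow_left₀ (by norm_num : 3 ≠ 0) (by positivity) ?_
    rw [← pow_mul, hc.hn]
    exact Nat.ceil_le.1 hn
  have hS1 : 3 * (L + 3 + 15 * L ^ 2) ≤ s ^ 2 * θ := by rwa [div_le_iff₀ hθ0] at hSs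
  have h3L : 3 * L ≤ s ^ 2 := by
    have := mul_le_mul_of_nonneg_left hθ1 (sq_nonneg s)
    linarith [sq_nonneg L]
  have hn3 : 3 * L * s ^ 2 ≤ n := by
    rw [← hc.hn, show s ^ 6 = s ^ 2 * s ^ 2 * s ^ 2 by ring]
    refine mul_le_mul_of_nonneg_right (h3L.trans ?_) (sq_nonneg s)
    exact le_mul_of_one_le_right (sq_nonneg s) hs2
  have hPn : (J + 1) * p ≤ n := by
    have : (((J + 1) * p : ℕ) : ℝ) ≤ n := by
      push_cast; linarith [mul_nonneg hL0.le (sq_nonneg s)]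
    exact_mod_cast this
  have hP : (J + 1) * p ≤ n + 1 := by omega
  have hkn : k < n := by
    have : (J + 1) * 1 ≤ (J + 1) * p := Nat.mul_le_mul_left _ hp
    omega
  obtain ⟨δ, hδ⟩ : ∃ δ, δ = (p : ℝ) / s ^ 2 := ⟨_, rfl⟩
  have hδ0 : 0 < δ := by rw [hδ]; positivity
  have hδ1 : δ * (3 * (2 * L + 1) * T) ≤ θ := by
    rw [← le_div_iff₀ (by positivity), hδ, div_le_iff₀ (by positivity)]; exact hpδ
  have hTδ : T * δ ≤ θ := by
    have := mul_nonneg hL0.le (mul_pos hδ0 (by linarith : 0 < T)).le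
    have := mul_pos hδ0 (by linarith : 0 < T)
    linarith
  have hη0 : 0 ≤ (2 * L + 1) * δ + 7 * (θ / 21) + (L + 3 + 15 * L ^ 2) / s ^ 2 := by positivity
  have hηθ : (2 * L + 1) * δ + 7 * (θ / 21) + (L + 3 + 15 * L ^ 2) / s ^ 2 ≤ θ := by
    have h1 : (L + 3 + 15 * L ^ 2) / s ^ 2 ≤ θ / 3 := by
      rw [div_le_iff₀ (by positivity)]; linarith
    have h2 := mul_le_mul_of_nonneg_left hT1 (mul_pos hδ0 (by linarith : 0 < 2 * L + 1)).le
    linarith
  have cmp : ∀ v, Sup ((J + 1) * p) v → |Qf n s a (bx β x) v - kin n s v -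
      p * ∑ j ∈ range (J + 1), (j * δ - ext (zblk s a x p J) j) * v (j * p) ^ 2| ≤
      ((2 * L + 1) * δ + 7 * (θ / 21) + (L + 3 + 15 * L ^ 2) / s ^ 2) *
        (kin n s v + nrm n v) := fun v hv =>
    hδ ▸ hv.cmp hP hc hp (by linarith) hL3 hn3 (by positivity) ho
  have hI : 32 * s ^ 4 / (((J + 1) * p : ℕ) : ℝ) ^ 2 ≤ e / 8 := by
    rw [div_le_iff₀ (by positivity)]
    have h1 : (L * s ^ 2) ^ 2 ≤ (((J + 1) * p : ℕ) : ℝ) ^ 2 := by
      push_cast; gcongr
    have h2 := mul_le_mul_of_nonneg_left h1 he0.le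
    have h3 := mul_le_mul_of_nonneg_right heL (by positivity : 0 ≤ s ^ 4)
    linarith
  have hA := fine_coarse hs hp hP hkn hδ htwo hx hκ hT he0 he1 hθe hTδ hη0 hηθ hL hL1
    (abs_bx_le hc hp (by linarith) ho) hI cmp
  have hB := coarse_fine hs hp hP hkn hk hδ htwo hx hκ hT he1 hθe hTδ hη0 hηθ cmp
  rw [← hδ, abs_le]
  generalize -lam (Hm n s a (bx β x)) k = t at hA hB ⊢
  generalize Phi J δ (zblk s a x p J) k = f at hA hB ⊢
  constructor
  · rcases lt_or_ge t x0 with h | h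
    · have := hA h
      rw [min_eq_left h.le]
      linarith [min_le_left f x0]
    · rw [min_eq_right h]
      linarith [min_le_right f x0]
  · rcases lt_or_ge f x0 with h | h
    · have := hB h
      rw [min_eq_left h.le]
      linarith [min_le_left t x0]
    · rw [min_eq_right h]
      linarith [min_le_right t x0]

end Crest.Agent.T157.Ed.Det

end
end

-- ▼ part T157/EdMbb_22

/-!
# Row 157, edge limit: isotropy of the GOE (`MbbStmt`, helper22)

Rotate the unit vector to `σ / √n`, average over the signs `σ`, Khintchine's inequality.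
-/

set_option autoImplicit false

noncomputable section

namespace Crest.Agent.T157.Ed.Mbb22

open MeasureTheory ProbabilityTheory Matrix Finset
open Crest.ProbabilityR.SpinGlassDynamics
open Crest.Agent.T157.E Crest.Agent.T157.Eig Crest.Agent.T157.Cond

variable {n : ℕ}

lemma sum_exp_dot (u : Fin n → ℝ) :
    ∑ x : Cube n, Real.exp (u ⬝ᵥ sv x) ≤ 2 ^ n * Real.exp (u ⬝ᵥ u / 2) := by
  have e : ∑ x : Cube n, Real.exp (u ⬝ᵥ sv x) = ∏ i, ∑ b : Bool, Real.exp (u i * spin b) := by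
    rw [Finset.prod_univ_sum, Fintype.piFinset_univ]
    exact sum_congr rfl fun x _ => by rw [dotProduct, Real.exp_sum]; rfl
  rw [e, dotProduct, sum_div, Real.exp_sum]
  calc ∏ i, ∑ b : Bool, Real.exp (u i * spin b) ≤ ∏ i, 2 * Real.exp (u i * u i / 2) := by
        refine prod_le_prod (fun i _ => sum_nonneg fun b _ => (Real.exp_pos _).le) fun i _ => ?_
        have := Real.cosh_le_exp_half_sq (u i)
        rw [Real.cosh_eq, sq] at this
        simp only [Fintype.sum_bool, spin, if_true, Bool.false_eq_true, if_false, mul_one, mul_neg]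
        linarith
    _ = _ := by rw [prod_mul_distrib]; simp

/-- the Khintchine constant -/
def kc (q : ℕ) : ℝ := ((2 * q).factorial : ℝ) * 6

lemma one_le_kc (q : ℕ) : 1 ≤ kc q := by
  have : (1 : ℝ) ≤ (2 * q).factorial := by exact_mod_cast Nat.factorial_pos _
  unfold kc; linarith

lemma khin_unit (q : ℕ) {u : Fin n → ℝ} (hu : u ⬝ᵥ u ≤ 1) :
    ∑ x : Cube n, ((u ⬝ᵥ sv x) ^ 2) ^ q ≤ 2 ^ n * kc q := by
  have h1 : ∀ t : ℝ, (t ^ 2) ^ q ≤ (2 * q).factorial * (Real.exp t + Real.exp (-t)) := fun t => by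
    have := Real.pow_div_factorial_le_exp |t| (abs_nonneg t) (2 * q)
    rw [div_le_iff₀ (by positivity), pow_mul, sq_abs, mul_comm] at this
    refine this.trans (mul_le_mul_of_nonneg_left ?_ (by positivity))
    rcases abs_choice t with h | h <;> rw [h] <;> linarith [Real.exp_pos t, Real.exp_pos (-t)]
  refine (sum_le_sum fun x _ => h1 _).trans ?_
  rw [← mul_sum, sum_add_distrib]
  have h2 := sum_exp_dot u
  have h3 := sum_exp_dot (-u)
  simp only [neg_dotProduct, dotProduct_neg, neg_neg] at h3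
  have h4 : Real.exp (u ⬝ᵥ u / 2) ≤ 3 :=
    (Real.exp_le_exp.2 (by linarith)).trans (Real.exp_one_lt_d9.le.trans (by norm_num))
  have h5 : (2 : ℝ) ^ n * Real.exp (u ⬝ᵥ u / 2) ≤ 2 ^ n * 3 :=
    mul_le_mul_of_nonneg_left h4 (by positivity)
  rw [kc, mul_left_comm]
  exact mul_le_mul_of_nonneg_left (by linarith) (by positivity)

lemma khin (q : ℕ) (B : Mat n) :
    ∑ x : Cube n, ((B *ᵥ sv x) ⬝ᵥ (B *ᵥ sv x)) ^ q ≤
      2 ^ n * kc q * (∑ r, B r ⬝ᵥ B r) ^ q := by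
  set S := ∑ r, B r ⬝ᵥ B r with hS
  have hw : ∀ r, 0 ≤ B r ⬝ᵥ B r := fun r => dot_self_nonneg _
  have hk := one_le_kc q
  rcases eq_or_lt_of_le (sum_nonneg fun r (_ : r ∈ univ) => hw r) with h0 | h0
  · have hB : B = 0 := by
      ext r j
      have := (sum_eq_zero_iff_of_nonneg fun r _ => hw r).1 h0.symm r (mem_univ r)
      rw [dotProduct_self_eq_zero.1 this]; rfl
    rw [hS, ← h0, hB]
    simp only [zero_mulVec, dotProduct_zero, sum_const, card_univ, nsmul_eq_mul, Fintype.card_pi,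
      Fintype.card_bool, prod_const, Fintype.card_fin]
    push_cast
    refine mul_le_mul_of_nonneg_right ?_ (by positivity)
    exact le_mul_of_one_le_right (by positivity) hk
  rw [← hS] at h0
  set u : Fin n → Fin n → ℝ := fun r => (Real.sqrt (B r ⬝ᵥ B r))⁻¹ • B r with hu
  have hu1 : ∀ r, u r ⬝ᵥ u r ≤ 1 := fun r => by
    simp only [hu, smul_dotProduct, dotProduct_smul, smul_eq_mul]
    rw [← mul_assoc, ← mul_inv, Real.mul_self_sqrt (hw r)]
    exact inv_mul_le_one_of_le₀ le_rfl (hw r)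
  have hz : ∀ r (y : Fin n → ℝ), (B r ⬝ᵥ y) * (B r ⬝ᵥ y) = B r ⬝ᵥ B r * (u r ⬝ᵥ y) ^ 2 := by
    intro r y
    rcases eq_or_lt_of_le (hw r) with h | h
    · rw [dotProduct_self_eq_zero.1 h.symm]; simp
    · simp only [hu, smul_dotProduct, smul_eq_mul, mul_pow, inv_pow, Real.sq_sqrt (hw r)]
      field_simp
  have key : ∀ y : Fin n → ℝ, ((B *ᵥ y) ⬝ᵥ (B *ᵥ y)) ^ q ≤
      S ^ q * ∑ r, B r ⬝ᵥ B r / S * ((u r ⬝ᵥ y) ^ 2) ^ q := fun y => by
    have e : (B *ᵥ y) ⬝ᵥ (B *ᵥ y) = S * ∑ r, B r ⬝ᵥ B r / S * (u r ⬝ᵥ y) ^ 2 := by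
      rw [mul_sum, dotProduct]
      refine sum_congr rfl fun r _ => ?_
      change (B r ⬝ᵥ y) * (B r ⬝ᵥ y) = _
      rw [hz]; field_simp
    rw [e, mul_pow]
    refine mul_le_mul_of_nonneg_left (Real.pow_arith_mean_le_arith_mean_pow _ _ _
      (fun r _ => div_nonneg (hw r) h0.le) ?_ (fun r _ => sq_nonneg _) q) (by positivity)
    rw [← sum_div, ← hS, div_self h0.ne']
  refine (sum_le_sum fun x _ => key _).trans ?_
  rw [← mul_sum, sum_comm, mul_comm]
  refine mul_le_mul_of_nonneg_right ?_ (by positivity)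
  calc ∑ r, ∑ x : Cube n, B r ⬝ᵥ B r / S * ((u r ⬝ᵥ sv x) ^ 2) ^ q
      ≤ ∑ r, B r ⬝ᵥ B r / S * (2 ^ n * kc q) := sum_le_sum fun r _ => by
        rw [← mul_sum]
        exact mul_le_mul_of_nonneg_left (khin_unit q (hu1 r)) (div_nonneg (hw r) h0.le)
    _ = 2 ^ n * kc q := by rw [← sum_mul, ← sum_div, ← hS, div_self h0.ne', one_mul]

lemma khin_sym (q a : ℕ) {Y : Mat n} (hY : Yᵀ = Y) :
    ∑ x : Cube n, (sv x ⬝ᵥ (Y ^ (2 * a)) *ᵥ sv x) ^ q ≤
      2 ^ n * kc q * (Y ^ (2 * a)).trace ^ q := by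
  have hB : (Y ^ a)ᵀ = Y ^ a := by rw [transpose_pow, hY]
  have e1 : ∀ y : Fin n → ℝ, y ⬝ᵥ (Y ^ (2 * a)) *ᵥ y = (Y ^ a *ᵥ y) ⬝ᵥ (Y ^ a *ᵥ y) := fun y => by
    rw [two_mul, pow_add, ← mulVec_mulVec, dotProduct_mulVec, ← mulVec_transpose, hB]
  have e2 : (Y ^ (2 * a)).trace = ∑ r, (Y ^ a) r ⬝ᵥ (Y ^ a) r := by
    rw [two_mul, pow_add, trace]
    refine sum_congr rfl fun r _ => ?_
    rw [diag_apply, mul_apply, dotProduct]
    refine sum_congr rfl fun j _ => ?_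
    rw [← congrFun (congrFun hB j) r, transpose_apply]
  simp only [e1, e2]
  exact khin q _

lemma conj_pow {O : Mat n} (hO : O * Oᵀ = 1) (Y : Mat n) (k : ℕ) :
    (O * Y * Oᵀ) ^ k = O * Y ^ k * Oᵀ := by
  have hO' : Oᵀ * O = 1 := mul_eq_one_comm.1 hO
  induction k with
  | zero => simp [hO]
  | succ k ih =>
    rw [pow_succ, ih, pow_succ]
    calc O * Y ^ k * Oᵀ * (O * Y * Oᵀ) = O * Y ^ k * (Oᵀ * O) * Y * Oᵀ := by
          simp only [Matrix.mul_assoc]
      _ = _ := by rw [hO', Matrix.mul_one]; simp only [Matrix.mul_assoc]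

lemma Ym_conj {O : Mat n} (hO : O * Oᵀ = 1) (σ : ℝ) (W : Mat n) :
    Ym σ (O * W * Oᵀ) = O * Ym σ W * Oᵀ := by
  simp only [Ym, Matrix.mul_smul, Matrix.smul_mul, Matrix.mul_add, Matrix.add_mul, Matrix.mul_one,
    hO]

lemma continuous_quad (v : Fin n → ℝ) (k q : ℕ) :
    Continuous fun W : Mat n => (v ⬝ᵥ (Ym 1 W ^ k) *ᵥ v) ^ q :=
  (continuous_const.dotProduct (((continuous_Ym 1).pow k).matrix_mulVec continuous_const)).pow q

lemma continuous_tr (k q : ℕ) : Continuous fun W : Mat n => (Ym 1 W ^ k).trace ^ q :=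
  ((continuous_Ym 1).pow k).matrix_trace.pow q

lemma iso {v w : Fin n → ℝ} (h : v ⬝ᵥ v = w ⬝ᵥ w) (k q : ℕ) :
    ∫ W, (v ⬝ᵥ (Ym 1 W ^ k) *ᵥ v) ^ q ∂GOE n = ∫ W, (w ⬝ᵥ (Ym 1 W ^ k) *ᵥ w) ^ q ∂GOE n := by
  obtain ⟨O, hO, hw⟩ := Tri62.exists_orth v w h
  have hO' : Oᵀ * O = 1 := mul_eq_one_comm.1 hO
  have hv : Oᵀ *ᵥ v = w := by rw [← hw, mulVec_mulVec, hO', one_mulVec]
  have hc : Continuous fun W : Mat n => O * W * Oᵀ := by fun_prop
  conv_lhs => rw [GOE, ← goe_conj _ O hO]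
  rw [integral_map hc.measurable.aemeasurable (continuous_quad v k q).aestronglyMeasurable]
  refine integral_congr_ae (ae_of_all _ fun W => ?_)
  simp only [Ym_conj hO, conj_pow hO]
  rw [← mulVec_mulVec, ← mulVec_mulVec, hv, dotProduct_mulVec v O, ← mulVec_transpose, hv]

lemma integrable_GOE (k q : ℕ) :
    (∀ v : Fin n → ℝ, Integrable (fun W => (v ⬝ᵥ (Ym 1 W ^ k) *ᵥ v) ^ q) (GOE n)) ∧
      Integrable (fun W => (Ym 1 W ^ k).trace ^ q) (GOE n) := by
  have h := mbaStmt n (fun _ => gaussianReal 0 1) (fun _ => linkStmt.2.2.1) 1 (by simp) k q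
  have hm := (continuous_Wy n).measurable.aemeasurable (μ := gv (Ix n))
  rw [← linkStmt.1 n]
  exact ⟨fun v => (integrable_map_measure (continuous_quad v k q).aestronglyMeasurable hm).2
    (h.1 v).1, (integrable_map_measure (continuous_tr k q).aestronglyMeasurable hm).2 h.2.1⟩

end Mbb22

open Mbb22 MeasureTheory ProbabilityTheory Matrix Finset
open Crest.Agent.T157.E Crest.Agent.T157.Eig Crest.Agent.T157.Cond

theorem mbbStmt : MbbStmt := by
  intro q
  have hk := one_le_kc q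
  refine ⟨kc q, by linarith, fun n a v hv => ?_⟩
  rcases Nat.eq_zero_or_pos q with rfl | hq
  · simp
  have hn : (0 : ℝ) < n := by
    rcases Nat.eq_zero_or_pos n with rfl | hn
    · simp [dotProduct] at hv
    · exact_mod_cast hn
  obtain ⟨hi, ht⟩ := integrable_GOE (n := n) (2 * a) q
  have h1 : ∀ x : Cube n, ∫ W, (sv x ⬝ᵥ (Ym 1 W ^ (2 * a)) *ᵥ sv x) ^ q ∂GOE n =
      (n : ℝ) ^ q * ∫ W, (v ⬝ᵥ (Ym 1 W ^ (2 * a)) *ᵥ v) ^ q ∂GOE n := fun x => by
    rw [iso (v := sv x) (w := Real.sqrt n • v) (by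
      rw [sv_dot_self, smul_dotProduct, dotProduct_smul, hv, smul_eq_mul, smul_eq_mul, mul_one,
        Real.mul_self_sqrt hn.le]), ← integral_const_mul]
    refine integral_congr_ae (ae_of_all _ fun W => ?_)
    simp only [mulVec_smul, smul_dotProduct, dotProduct_smul, smul_eq_mul]
    rw [← mul_assoc, Real.mul_self_sqrt hn.le, mul_pow]
  have h2 : ∑ x : Cube n, ∫ W, (sv x ⬝ᵥ (Ym 1 W ^ (2 * a)) *ᵥ sv x) ^ q ∂GOE n ≤
      2 ^ n * kc q * ∫ W, (Ym 1 W ^ (2 * a)).trace ^ q ∂GOE n := by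
    rw [← integral_finsetSum _ fun x _ => hi _, ← integral_const_mul]
    refine integral_mono_ae (integrable_finsetSum _ fun x _ => hi _) (ht.const_mul _) ?_
    filter_upwards [goe_ae_herm n] with W hW
    exact khin_sym q a (herm_iff.1 (Ym_herm 1 hW))
  have h3 : 0 ≤ ∫ W, (Ym 1 W ^ (2 * a)).trace ^ q ∂GOE n := by
    refine integral_nonneg_of_ae ?_
    filter_upwards [goe_ae_herm n] with W hW
    refine pow_nonneg ?_ q
    have hB : (Ym 1 W ^ a)ᵀ = Ym 1 W ^ a := by rw [transpose_pow, herm_iff.1 (Ym_herm 1 hW)]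
    rw [two_mul, pow_add, trace]
    refine sum_nonneg fun r _ => ?_
    rw [diag_apply, mul_apply]
    refine sum_nonneg fun j _ => ?_
    rw [← congrFun (congrFun hB j) r, transpose_apply]
    exact mul_self_nonneg _
  simp only [h1, sum_const, card_univ, nsmul_eq_mul, Fintype.card_pi, Fintype.card_bool,
    prod_const, Fintype.card_fin] at h2
  push_cast at h2
  rw [mul_assoc] at h2
  have h4 := le_of_mul_le_mul_left h2 (by positivity)
  rw [div_pow, div_mul_eq_mul_div, le_div_iff₀ (by positivity), mul_comm]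
  exact h4.trans (mul_le_mul_of_nonneg_right (le_self_pow₀ hk hq.ne') h3)

end Crest.Agent.T157.Ed

end
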