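import Crest.Agent.T157.EdDef_88
import Crest.Agent.R146.Lind1_878
import Crest.Agent.T157.EigN_84

-- ▼ part T157/EdDer_58
section

/-!
# Row 157, edge limit: derivatives of a trace power along one entry (`Ed.derStmt`, helper58)
-/

set_option autoImplicit false

noncomputable section

namespace Crest.Agent.T157.Ed

open Matrix Finset Polynomial

namespace Der58

variable {n : ℕ}

/-- the matrix pencil `Y + X E` -/
def pen (Y E : Mat n) : Matrix (Fin n) (Fin n) ℝ[X] := fun c d => C (Y c d) + X * C (E c d)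

/-- coefficient matrices -/
def co (l : ℕ) (A : Matrix (Fin n) (Fin n) ℝ[X]) : Mat n := fun c d => (A c d).coeff l

/-- entrywise derivative -/
def dm (A : Matrix (Fin n) (Fin n) ℝ[X]) : Matrix (Fin n) (Fin n) ℝ[X] :=
  fun c d => derivative (A c d)

/-- constant matrices -/
def cm (E : Mat n) : Matrix (Fin n) (Fin n) ℝ[X] := fun c d => C (E c d)

theorem itd_eval (k : ℕ) (p : ℝ[X]) :
    iteratedDeriv k (fun t : ℝ => p.eval t) = fun t => (derivative^[k] p).eval t := by
  induction k generalizing p with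
  | zero => simp
  | succ k ih =>
    rw [iteratedDeriv_succ', Function.iterate_succ_apply, ← ih]
    congr 1
    funext x
    exact p.deriv

theorem itd_zero (k : ℕ) (p : ℝ[X]) :
    iteratedDeriv k (fun t : ℝ => p.eval t) 0 = (k.factorial : ℝ) * p.coeff k := by
  rw [itd_eval]
  show (derivative^[k] p).eval 0 = _
  rw [← coeff_zero_eq_eval_zero, coeff_iterate_derivative]
  simp [Nat.descFactorial_self]

theorem eval_trace_pow (Y E : Mat n) (M : ℕ) (t : ℝ) :
    ((Y + t • E) ^ M).trace = ((pen Y E ^ M).trace).eval t := by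
  have h1 : (evalRingHom t).mapMatrix (pen Y E) = Y + t • E := by
    ext c d
    simp [pen, RingHom.mapMatrix_apply]
    ring
  rw [← h1, ← map_pow]
  simp [Matrix.trace, RingHom.mapMatrix_apply, eval_finsetSum]

theorem co_zero_mul_pen (Y E : Mat n) (A : Matrix (Fin n) (Fin n) ℝ[X]) :
    co 0 (A * pen Y E) = co 0 A * Y := by
  ext c d
  simp [co, pen, Matrix.mul_apply, finsetSum_coeff, mul_add]

theorem co_succ_mul_pen (Y E : Mat n) (A : Matrix (Fin n) (Fin n) ℝ[X]) (l : ℕ) :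
    co (l + 1) (A * pen Y E) = co (l + 1) A * Y + co l A * E := by
  ext c d
  simp only [co, pen, Matrix.mul_apply, finsetSum_coeff, Matrix.add_apply, ← sum_add_distrib]
  refine sum_congr rfl fun x _ => ?_
  rw [mul_add, coeff_add, coeff_mul_C, ← mul_assoc, coeff_mul_C, coeff_mul_X]

theorem co_zero_pow (Y E : Mat n) (a : ℕ) : co 0 (pen Y E ^ a) = Y ^ a := by
  induction a with
  | zero =>
    ext c d
    by_cases h : c = d <;> simp [co, Matrix.one_apply, h]
  | succ a ih => rw [pow_succ, co_zero_mul_pen, ih, pow_succ]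

theorem co_succ_pow (Y E : Mat n) (l a : ℕ) :
    co (l + 1) (pen Y E ^ a) = ∑ b ∈ range a, co l (pen Y E ^ b) * E * Y ^ (a - 1 - b) := by
  induction a with
  | zero =>
    ext c d
    by_cases h : c = d <;> simp [co, Matrix.one_apply, h, coeff_one]
  | succ a ih =>
    rw [pow_succ, co_succ_mul_pen, ih, sum_range_succ, Finset.sum_mul]
    congr 1
    · refine sum_congr rfl fun b hb => ?_
      have hb' := mem_range.1 hb
      rw [show a + 1 - 1 - b = (a - 1 - b) + 1 by omega, pow_succ, Matrix.mul_assoc _ (Y ^ _) Y]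
    · simp

theorem dm_mul (A B : Matrix (Fin n) (Fin n) ℝ[X]) : dm (A * B) = dm A * B + A * dm B := by
  ext c d : 2
  simp [dm, Matrix.mul_apply, derivative_sum, sum_add_distrib]

theorem dm_pen (Y E : Mat n) : dm (pen Y E) = cm E := by
  ext c d : 2
  simp [dm, pen, cm]

theorem trace_dm_pow (Y E : Mat n) (a m : ℕ) :
    (dm (pen Y E ^ (a + 1)) * pen Y E ^ m).trace =
      ((a : ℝ[X]) + 1) * (cm E * pen Y E ^ (a + m)).trace := by
  induction a generalizing m with
  | zero => simp [dm_pen]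
  | succ a ih =>
    rw [pow_succ, dm_mul, dm_pen, Matrix.add_mul, trace_add, Matrix.mul_assoc, ← pow_succ', ih,
      Matrix.mul_assoc, trace_mul_comm (pen Y E ^ (a + 1)), Matrix.mul_assoc, ← pow_add,
      show a + (m + 1) = a + 1 + m by omega, show m + (a + 1) = a + 1 + m by omega]
    push_cast
    ring

theorem coeff_trace_pow (Y E : Mat n) (a l : ℕ) :
    ((pen Y E ^ (a + 1)).trace).coeff (l + 1) * ((l : ℝ) + 1) =
      ((a : ℝ) + 1) * (E * co l (pen Y E ^ a)).trace := by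
  have h1 : derivative ((pen Y E ^ (a + 1)).trace) = (dm (pen Y E ^ (a + 1))).trace := by
    simp [Matrix.trace, dm, derivative_sum]
  have h2 := trace_dm_pow Y E a 0
  rw [pow_zero, Matrix.mul_one, add_zero] at h2
  rw [← coeff_derivative, h1, h2]
  have h3 : ((a : ℝ[X]) + 1) = C ((a : ℝ) + 1) := by simp
  rw [h3, coeff_C_mul]
  congr 1
  simp [Matrix.trace, Matrix.mul_apply, cm, co, finsetSum_coeff]

/-- the decay profile -/
def w (b : ℕ) : ℝ := (1 + (b : ℝ)) ^ (-(5 / 4) : ℝ)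

theorem w_pos (b : ℕ) : 0 < w b := by unfold w; positivity

theorem w_le (a b : ℕ) (h : 1 + a ≤ 2 * (1 + b)) : w b ≤ 4 * w a := by
  have h' : (1 + (a : ℝ)) / 2 ≤ 1 + (b : ℝ) := by
    have : ((1 + a : ℕ) : ℝ) ≤ ((2 * (1 + b) : ℕ) : ℝ) := by exact_mod_cast h
    push_cast at this
    linarith
  have ha : (0 : ℝ) < 1 + (a : ℝ) := by positivity
  have h1 : w b ≤ ((1 + (a : ℝ)) / 2) ^ (-(5 / 4) : ℝ) :=
    Real.rpow_le_rpow_of_nonpos (by positivity) h' (by norm_num)
  have h2 : ((1 + (a : ℝ)) / 2) ^ (-(5 / 4) : ℝ) = w a * (2 : ℝ) ^ ((5 / 4) : ℝ) := by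
    rw [Real.div_rpow ha.le (by norm_num), Real.rpow_neg (by norm_num : (0 : ℝ) ≤ 2),
      div_inv_eq_mul]
    rfl
  have h3 : (2 : ℝ) ^ ((5 / 4) : ℝ) ≤ 4 := by
    calc (2 : ℝ) ^ ((5 / 4) : ℝ) ≤ (2 : ℝ) ^ ((2 : ℕ) : ℝ) :=
          Real.rpow_le_rpow_of_exponent_le (by norm_num) (by norm_num)
      _ = 4 := by rw [Real.rpow_natCast]; norm_num
  have := w_pos a
  nlinarith

theorem exists_sum_w : ∃ S : ℝ, 0 ≤ S ∧ ∀ a, ∑ b ∈ range a, w b ≤ S := by
  have h : Summable w := by
    have h0 : Summable fun b : ℕ => (b : ℝ) ^ (-(5 / 4) : ℝ) :=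
      Real.summable_nat_rpow.2 (by norm_num)
    have h1 := (summable_nat_add_iff 1).2 h0
    refine h1.congr fun b => ?_
    simp [w, add_comm]
  exact ⟨∑' b, w b, tsum_nonneg fun b => (w_pos b).le,
    fun a => h.sum_le_tsum _ fun b _ => (w_pos b).le⟩

theorem conv_le {S : ℝ} (hS : ∀ a, ∑ b ∈ range a, w b ≤ S) (a : ℕ) :
    ∑ b ∈ range a, w b * w (a - 1 - b) ≤ 8 * S * w a := by
  have h1 : ∀ b ∈ range a, w b * w (a - 1 - b) ≤ 4 * w a * (w b + w (a - 1 - b)) := by
    intro b hb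
    have hb' := mem_range.1 hb
    have p1 := w_pos b
    have p2 := w_pos (a - 1 - b)
    have p3 := w_pos a
    rcases le_total b (a - 1 - b) with h | h
    · have := w_le a (a - 1 - b) (by omega)
      nlinarith
    · have := w_le a b (by omega)
      nlinarith
  refine (sum_le_sum h1).trans ?_
  rw [← Finset.mul_sum, sum_add_distrib, sum_range_reflect]
  have := hS a
  have p3 := w_pos a
  nlinarith

theorem sum_pair_le (i j : Fin n) (f : Fin n → ℝ) (B : ℝ) (hB : 0 ≤ B)
    (h0 : ∀ c, c ≠ i → c ≠ j → f c = 0) (h : ∀ c, c = i ∨ c = j → |f c| ≤ B) :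
    |∑ c, f c| ≤ 2 * B := by
  have h1 : ∑ c, f c = ∑ c ∈ ({i, j} : Finset (Fin n)), f c := by
    refine (sum_subset (subset_univ _) fun c _ hc => ?_).symm
    simp only [mem_insert, mem_singleton, not_or] at hc
    exact h0 c hc.1 hc.2
  rw [h1]
  refine (abs_sum_le_sum_abs _ _).trans ?_
  refine (sum_le_card_nsmul _ _ B fun c hc => h c (by simpa using hc)).trans ?_
  have : (({i, j} : Finset (Fin n)).card : ℝ) ≤ 2 := by exact_mod_cast card_le_two
  rw [nsmul_eq_mul]
  nlinarith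

theorem sandwich_le (A B E : Mat n) (i j c d : Fin n) (e α β : ℝ) (he : 0 ≤ e) (hα : 0 ≤ α)
    (hβ : 0 ≤ β) (hE : ∀ c d, (c ≠ i ∧ c ≠ j) ∨ (d ≠ i ∧ d ≠ j) → E c d = 0)
    (hEe : ∀ c d, |E c d| ≤ e) (hA : ∀ x, x = i ∨ x = j → |A c x| ≤ α)
    (hB : ∀ x, x = i ∨ x = j → |B x d| ≤ β) : |(A * E * B) c d| ≤ 4 * e * α * β := by
  rw [Matrix.mul_apply]
  have h := sum_pair_le i j (fun x => (A * E) c x * B x d) (2 * (α * e) * β) (by positivity)
    (fun x h1 h2 => by simp [Matrix.mul_apply, hE _ x (Or.inr ⟨h1, h2⟩)]) fun x hx => by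
      rw [abs_mul]
      refine mul_le_mul ?_ (hB x hx) (abs_nonneg _) (by positivity)
      rw [Matrix.mul_apply]
      refine sum_pair_le i j _ _ (by positivity)
        (fun y h1 h2 => by simp [hE y x (Or.inl ⟨h1, h2⟩)]) fun y hy => ?_
      rw [abs_mul]
      exact mul_le_mul (hA y hy) (hEe y x) (abs_nonneg _) hα
  linarith

theorem pow_entry_le (Y : Mat n) (hY : Yᵀ = Y) (a b : ℕ) (c d : Fin n) :
    |(Y ^ (a + b)) c d| ≤ ((Y ^ (2 * a)) c c + (Y ^ (2 * b)) d d) / 2 := by
  have hs : ∀ (m : ℕ) (x y : Fin n), (Y ^ m) x y = (Y ^ m) y x := fun m x y => by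
    have : (Y ^ m)ᵀ = Y ^ m := by rw [transpose_pow, hY]
    conv_lhs => rw [← this]
    rfl
  rw [pow_add, two_mul, two_mul, pow_add, pow_add, Matrix.mul_apply, Matrix.mul_apply,
    Matrix.mul_apply, ← sum_add_distrib, Finset.sum_div]
  refine (abs_sum_le_sum_abs _ _).trans (sum_le_sum fun x _ => ?_)
  rw [hs a x c, hs b d x]
  rw [abs_le]
  constructor <;> nlinarith [sq_nonneg ((Y ^ a) c x - (Y ^ b) x d),
    sq_nonneg ((Y ^ a) c x + (Y ^ b) x d)]

end Der58

open Der58 in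
theorem derStmt : DerStmt := by
  obtain ⟨S, hS0, hS⟩ := exists_sum_w
  refine ⟨96 + 128 * S, by positivity, ?_⟩
  intro n Y E i j e Z M k hY hE hEe hM hk hk4 hZ
  have he : 0 ≤ e := (abs_nonneg _).trans (hEe i i)
  have hZ1 : 1 ≤ Z := by simpa using hZ 0 (Nat.zero_le _) i (Or.inl rfl)
  have hZ0 : 0 ≤ Z := by linarith
  have h0 : ∀ a, a ≤ M → ∀ c d, (c = i ∨ c = j) → (d = i ∨ d = j) →
      |(Y ^ a) c d| ≤ 4 * Z * w a := by
    intro a ha c d hc hd
    have h1 := pow_entry_le Y hY (a / 2) (a - a / 2) c d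
    rw [show a / 2 + (a - a / 2) = a by omega] at h1
    have h2 : (Y ^ (2 * (a / 2))) c c ≤ Z * w (a / 2) := hZ _ (by omega) c hc
    have h3 : (Y ^ (2 * (a - a / 2))) d d ≤ Z * w (a - a / 2) := hZ _ (by omega) d hd
    have h4 := w_le a (a / 2) (by omega)
    have h5 := w_le a (a - a / 2) (by omega)
    nlinarith
  have h1 : ∀ l a, a ≤ M → ∀ c d, (c = i ∨ c = j) → (d = i ∨ d = j) →
      |co l (pen Y E ^ a) c d| ≤ 4 * (128 * S * e * Z) ^ l * Z * w a := by
    intro l
    induction l with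
    | zero =>
      intro a ha c d hc hd
      rw [co_zero_pow]
      simpa using h0 a ha c d hc hd
    | succ l ih =>
      intro a ha c d hc hd
      rw [co_succ_pow, Matrix.sum_apply]
      refine (abs_sum_le_sum_abs _ _).trans ?_
      have h2 : ∀ b ∈ range a, |(co l (pen Y E ^ b) * E * Y ^ (a - 1 - b)) c d| ≤
          (64 * e * (128 * S * e * Z) ^ l * Z * Z) * (w b * w (a - 1 - b)) := by
        intro b hb
        have hb' := mem_range.1 hb
        have p1 := w_pos b
        have p2 := w_pos (a - 1 - b)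
        refine (sandwich_le _ _ E i j c d e _ _ he (by positivity) (by positivity) hE hEe
          (fun x hx => ih b (by omega) c x hc hx)
          (fun x hx => h0 (a - 1 - b) (by omega) x d hx hd)).trans (le_of_eq ?_)
        ring
      refine (sum_le_sum h2).trans ?_
      rw [← Finset.mul_sum]
      refine (mul_le_mul_of_nonneg_left (conv_le hS a) (by positivity)).trans (le_of_eq ?_)
      ring
  obtain ⟨l, rfl⟩ : ∃ l, k = l + 1 := ⟨k - 1, by omega⟩
  obtain ⟨a, rfl⟩ : ∃ a, M = a + 1 := ⟨M - 1, by omega⟩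
  have h2 : (fun t : ℝ => ((Y + t • E) ^ (a + 1)).trace) =
      fun t => ((pen Y E ^ (a + 1)).trace).eval t := funext fun t => eval_trace_pow Y E _ t
  have h3 : iteratedDeriv (l + 1) (fun t : ℝ => ((Y + t • E) ^ (a + 1)).trace) 0 =
      (l.factorial : ℝ) * (((a : ℝ) + 1) * (E * co l (pen Y E ^ a)).trace) := by
    rw [h2, itd_zero, ← coeff_trace_pow, Nat.factorial_succ]
    push_cast
    ring
  have pw := w_pos a
  have h4 : |(E * co l (pen Y E ^ a)).trace| ≤
      2 * (2 * (e * (4 * (128 * S * e * Z) ^ l * Z * w a))) := by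
    refine sum_pair_le i j _ _ (by positivity)
      (fun c h1 h2 => by simp [Matrix.mul_apply, hE c _ (Or.inl ⟨h1, h2⟩)]) fun c hc => ?_
    rw [Matrix.diag_apply, Matrix.mul_apply]
    refine sum_pair_le i j _ _ (by positivity)
      (fun d h1 h2 => by simp [hE c d (Or.inr ⟨h1, h2⟩)]) fun d hd => ?_
    rw [abs_mul]
    exact mul_le_mul (hEe c d) (h1 l a (by omega) d c hd hc) (abs_nonneg _) he
  have h5 : (l.factorial : ℝ) ≤ 6 := by
    have : l.factorial ≤ Nat.factorial 3 := Nat.factorial_le (by omega)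
    exact_mod_cast this
  have h6 : ((a : ℝ) + 1) * w a = ((a + 1 : ℕ) : ℝ) ^ (-(1 / 4) : ℝ) := by
    have ha : (0 : ℝ) < 1 + (a : ℝ) := by positivity
    unfold w
    push_cast
    rw [add_comm (a : ℝ) 1, show (-(1 / 4) : ℝ) = 1 + -(5 / 4) by norm_num, Real.rpow_add ha,
      Real.rpow_one]
  have h7 : (128 * S * e * Z) ^ l ≤ ((96 + 128 * S) * e * Z) ^ l :=
    pow_le_pow_left₀ (by positivity) (by nlinarith [mul_nonneg he hZ0]) l
  rw [h3, ← h6, abs_mul, abs_mul, abs_of_nonneg (by positivity : (0 : ℝ) ≤ (l.factorial : ℝ)),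
    abs_of_nonneg (by positivity : (0 : ℝ) ≤ (a : ℝ) + 1)]
  calc (l.factorial : ℝ) * (((a : ℝ) + 1) * |(E * co l (pen Y E ^ a)).trace|)
      ≤ 6 * (((a : ℝ) + 1) * (2 * (2 * (e * (4 * (128 * S * e * Z) ^ l * Z * w a))))) := by
        gcongr
    _ = (128 * S * e * Z) ^ l * (96 * e * Z) * (((a : ℝ) + 1) * w a) := by ring
    _ ≤ ((96 + 128 * S) * e * Z) ^ l * ((96 + 128 * S) * e * Z) * (((a : ℝ) + 1) * w a) := by
        gcongr
        linarith
    _ = _ := by ring

end Crest.Agent.T157.Ed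

end
end

-- ▼ part T157/EdLind_61
section

/-!
# Row 157, part E: Lindeberg replacement with an averaged remainder (helper61)
-/

set_option autoImplicit false
set_option linter.unusedSectionVars false

noncomputable section

namespace Crest.Agent.T157.EdLind

open MeasureTheory ProbabilityTheory Filter Topology Finset
open Crest.Agent.T157.Ed Crest.Agent.R146L878

lemma hasDerivAt_iter {f : ℝ → ℝ} (hf : ContDiff ℝ 4 f) {i : ℕ} (hi : i < 4) (x : ℝ) :
    HasDerivAt (iteratedDeriv i f) (iteratedDeriv (i + 1) f x) x := by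
  rw [iteratedDeriv_succ]
  exact (hf.differentiable_iteratedDeriv i (by exact_mod_cast hi) x).hasDerivAt

lemma hasDerivAt_tay {f : ℝ → ℝ} (hf : ContDiff ℝ 4 f) (h θ : ℝ) (m : ℕ) (hm : m < 4) :
    HasDerivAt (fun θ : ℝ => ∑ i ∈ range (m + 1),
        iteratedDeriv i f (θ * h) * (h - θ * h) ^ i / (i.factorial : ℝ))
      (iteratedDeriv (m + 1) f (θ * h) * h * (h - θ * h) ^ m / (m.factorial : ℝ)) θ := by
  have hl : HasDerivAt (fun θ : ℝ => θ * h) h θ := by simpa using (hasDerivAt_id θ).mul_const h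
  induction m with
  | zero =>
    have h1 := (hasDerivAt_iter hf (i := 0) (by norm_num) (θ * h)).comp θ hl
    simpa [Function.comp_def] using h1
  | succ m ih =>
    have h1 := (hasDerivAt_iter hf hm (θ * h)).comp θ hl
    have h2 : HasDerivAt (fun θ : ℝ => (h - θ * h) ^ (m + 1))
        (((m + 1 : ℕ) : ℝ) * (h - θ * h) ^ m * (-h)) θ := by
      simpa using (hl.const_sub h).fun_pow (m + 1)
    have h3 := (ih (by omega)).add ((h1.mul h2).div_const (((m + 1).factorial : ℕ) : ℝ))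
    have hf1 : ((m.factorial : ℕ) : ℝ) ≠ 0 := by exact_mod_cast m.factorial_ne_zero
    refine (h3.congr_deriv ?_).congr_of_eventuallyEq (Eventually.of_forall fun θ => ?_)
    · simp only [Function.comp_def, Nat.factorial_succ]
      push_cast
      field_simp
      ring
    · simp only [sum_range_succ _ (m + 1), Function.comp_def, Pi.add_apply, Pi.mul_apply]

/-- Taylor's formula with the remainder bounded by an average of the square of a majorant -/
lemma taylor_bound {f r : ℝ → ℝ} (hf : ContDiff ℝ 4 f) {k : ℕ} (hk1 : 1 ≤ k) (hk4 : k ≤ 4)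
    (hr : ∀ s, |iteratedDeriv k f s| ≤ r s) {ρ : ℝ} (hρ : 0 < ρ) (h : ℝ) :
    ‖f h - ∑ i ∈ range k, iteratedDeriv i f 0 / (i.factorial : ℝ) * h ^ i‖ₑ ≤
      ENNReal.ofReal (ρ / 2 * (1 + h ^ 8)) + ENNReal.ofReal (1 / (2 * ρ)) *
        ∫⁻ θ in Set.Ioc (0 : ℝ) 1, ENNReal.ofReal (r (θ * h) ^ 2) := by
  obtain ⟨m, rfl⟩ : ∃ m, k = m + 1 := ⟨k - 1, by omega⟩
  have hc : Continuous fun θ : ℝ =>
      iteratedDeriv (m + 1) f (θ * h) * h * (h - θ * h) ^ m / (m.factorial : ℝ) := by
    have := hf.continuous_iteratedDeriv (m + 1) (by exact_mod_cast hk4)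
    fun_prop
  have h1 := intervalIntegral.integral_eq_sub_of_hasDerivAt
    (fun θ _ => hasDerivAt_tay hf h θ m (by omega)) (hc.intervalIntegrable 0 1)
  have h2 : ∑ i ∈ range (m + 1), iteratedDeriv i f (1 * h) * (h - 1 * h) ^ i / (i.factorial : ℝ)
      = f h := by
    rw [sum_range_succ']
    simp
  have h3 : ∑ i ∈ range (m + 1), iteratedDeriv i f (0 * h) * (h - 0 * h) ^ i / (i.factorial : ℝ)
      = ∑ i ∈ range (m + 1), iteratedDeriv i f 0 / (i.factorial : ℝ) * h ^ i :=
    sum_congr rfl fun i _ => by simp only [zero_mul, sub_zero]; ring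
  rw [h2, h3, intervalIntegral.integral_of_le zero_le_one] at h1
  rw [← h1]
  refine (enorm_integral_le_lintegral_enorm _).trans ?_
  have h4 : ∀ θ ∈ Set.Ioc (0 : ℝ) 1,
      ‖iteratedDeriv (m + 1) f (θ * h) * h * (h - θ * h) ^ m / (m.factorial : ℝ)‖ₑ ≤
      ENNReal.ofReal (ρ / 2 * (1 + h ^ 8)) +
        ENNReal.ofReal (1 / (2 * ρ)) * ENNReal.ofReal (r (θ * h) ^ 2) := by
    intro θ hθ
    rw [← ENNReal.ofReal_mul (by positivity), ← ENNReal.ofReal_add (by positivity) (by positivity),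
      ← ofReal_norm, Real.norm_eq_abs]
    refine ENNReal.ofReal_le_ofReal ?_
    have e1 : |h - θ * h| ≤ |h| := by
      rw [show h - θ * h = (1 - θ) * h by ring, abs_mul]
      refine mul_le_of_le_one_left (abs_nonneg _) (abs_le.2 ⟨by linarith [hθ.2], by linarith [hθ.1]⟩)
    have e2 : (1 : ℝ) ≤ (m.factorial : ℝ) := by exact_mod_cast m.factorial_pos
    have e3 : |iteratedDeriv (m + 1) f (θ * h) * h * (h - θ * h) ^ m / (m.factorial : ℝ)| ≤
        r (θ * h) * |h| ^ (m + 1) := by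
      rw [abs_div, abs_mul, abs_mul, abs_pow, abs_of_pos (by linarith : (0 : ℝ) < m.factorial)]
      refine (div_le_self (by positivity) e2).trans ?_
      rw [pow_succ', ← mul_assoc]
      have := (abs_nonneg _).trans (hr (θ * h))
      gcongr
      exact hr _
    have e4 : (|h| ^ (m + 1)) ^ 2 ≤ 1 + h ^ 8 := by
      rw [← pow_mul, show h ^ 8 = |h| ^ 8 by rw [← abs_pow, abs_of_nonneg (by positivity)]]
      rcases le_total |h| 1 with h5 | h5
      · have := pow_le_one₀ (n := (m + 1) * 2) (abs_nonneg h) h5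
        have : 0 ≤ |h| ^ 8 := by positivity
        linarith
      · have := pow_le_pow_right₀ h5 (show (m + 1) * 2 ≤ 8 by omega)
        linarith
    refine e3.trans ?_
    have e5 : r (θ * h) * |h| ^ (m + 1) ≤
        ρ / 2 * (|h| ^ (m + 1)) ^ 2 + 1 / (2 * ρ) * r (θ * h) ^ 2 := by
      have : 0 ≤ 1 / (2 * ρ) * (ρ * |h| ^ (m + 1) - r (θ * h)) ^ 2 := by positivity
      have e6 : 1 / (2 * ρ) * (ρ * |h| ^ (m + 1) - r (θ * h)) ^ 2 =
          ρ / 2 * (|h| ^ (m + 1)) ^ 2 + 1 / (2 * ρ) * r (θ * h) ^ 2 - r (θ * h) * |h| ^ (m + 1) := by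
        field_simp
        ring
      linarith
    have e7 := mul_le_mul_of_nonneg_left e4 (by positivity : 0 ≤ ρ / 2)
    linarith
  refine (setLIntegral_mono' measurableSet_Ioc h4).trans (le_of_eq ?_)
  rw [lintegral_add_left measurable_const, lintegral_const_mul' _ _ ENNReal.ofReal_ne_top]
  simp

/-- the eighth Gaussian moment -/
def m8 : ℝ := ∫ t, t ^ 8 ∂gaussianReal 0 1

lemma m8_nonneg : 0 ≤ m8 := integral_nonneg fun t => by positivity

lemma dom_map {μ : Measure ℝ} (hμ : Dom μ) {θ : ℝ} (hθ : |θ| ≤ 1) :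
    Dom (μ.map fun t => θ * t) := by
  have hm : Measurable fun t : ℝ => θ * t := by fun_prop
  constructor
  · intro k
    rw [integrable_map_measure (by fun_prop) hm.aemeasurable]
    simpa [Function.comp_def, mul_pow] using (hμ.int k).const_mul (θ ^ k)
  · intro k
    rw [integral_map hm.aemeasurable (by fun_prop)]
    simp only [mul_pow, integral_const_mul, abs_mul, abs_pow]
    exact (mul_le_of_le_one_left (abs_nonneg _) (pow_le_one₀ (abs_nonneg _) hθ)).trans (hμ.le k)

/-- integrated Taylor bound -/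
lemma mean_bound {f r : ℝ → ℝ} (hf : ContDiff ℝ 4 f) {B : ℝ} (hB : ∀ t, |f t| ≤ B) {k : ℕ}
    (hk1 : 1 ≤ k) (hk4 : k ≤ 4) (hr : ∀ s, |iteratedDeriv k f s| ≤ r s) {ρ : ℝ} (hρ : 0 < ρ)
    (μ : Measure ℝ) [IsProbabilityMeasure μ] (hμ : Dom μ) :
    ‖∫ t, f t ∂μ - ∑ i ∈ range k, iteratedDeriv i f 0 / (i.factorial : ℝ) * ∫ t, t ^ i ∂μ‖ₑ ≤
      ENNReal.ofReal (ρ / 2 * (1 + m8)) + ENNReal.ofReal (1 / (2 * ρ)) *
        ∫⁻ h, (∫⁻ θ in Set.Ioc (0 : ℝ) 1, ENNReal.ofReal (r (θ * h) ^ 2)) ∂μ := by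
  have i1 : Integrable f μ :=
    Integrable.of_bound hf.continuous.aestronglyMeasurable B (Eventually.of_forall hB)
  have i2 : ∀ i ∈ range k,
      Integrable (fun h : ℝ => iteratedDeriv i f 0 / (i.factorial : ℝ) * h ^ i) μ :=
    fun i _ => (hμ.int i).const_mul _
  have e1 : ∑ i ∈ range k, iteratedDeriv i f 0 / (i.factorial : ℝ) * ∫ t, t ^ i ∂μ =
      ∫ h, ∑ i ∈ range k, iteratedDeriv i f 0 / (i.factorial : ℝ) * h ^ i ∂μ := by
    rw [integral_finsetSum _ i2]
    exact sum_congr rfl fun i _ => (integral_const_mul _ _).symm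
  rw [e1, ← integral_sub i1 (integrable_finsetSum _ i2)]
  refine (enorm_integral_le_lintegral_enorm _).trans ?_
  refine (lintegral_mono fun h => taylor_bound hf hk1 hk4 hr hρ h).trans ?_
  have i3 : Integrable (fun h : ℝ => ρ / 2 * (1 + h ^ 8)) μ :=
    ((integrable_const 1).add (hμ.int 8)).const_mul _
  rw [lintegral_add_left (by fun_prop), lintegral_const_mul' _ _ ENNReal.ofReal_ne_top,
    ← ofReal_integral_eq_lintegral_ofReal i3 (Eventually.of_forall fun h => by positivity)]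
  refine add_le_add (ENNReal.ofReal_le_ofReal ?_) le_rfl
  rw [integral_const_mul, integral_add (integrable_const 1) (hμ.int 8)]
  have := (le_abs_self _).trans (hμ.le 8)
  simp only [integral_const, probReal_univ, smul_eq_mul, mul_one]
  unfold m8
  gcongr

section step
variable {ι : Type} [Fintype ι] [DecidableEq ι]

lemma prob_update (ξ : ι → Measure ℝ) [∀ q, IsProbabilityMeasure (ξ q)] (p : ι) (μ : Measure ℝ)
    [IsProbabilityMeasure μ] (q : ι) : IsProbabilityMeasure (Function.update ξ p μ q) := by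
  by_cases h : q = p
  · subst h; simpa using ‹IsProbabilityMeasure μ›
  · simpa [Function.update_of_ne h] using (inferInstance : IsProbabilityMeasure (ξ q))

lemma dom_update {ξ : ι → Measure ℝ} (hξ : ∀ q, Dom (ξ q)) (p : ι) {μ : Measure ℝ} (hμ : Dom μ)
    (q : ι) : Dom (Function.update ξ p μ q) := by
  by_cases h : q = p
  · subst h; simpa using hμ
  · simpa [Function.update_of_ne h] using hξ q

lemma tonelli (ξ : ι → Measure ℝ) [∀ q, IsProbabilityMeasure (ξ q)] (hξ : ∀ q, Dom (ξ q)) (p : ι)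
    (μ : Measure ℝ) [IsProbabilityMeasure μ] (hμ : Dom μ) {φ : (ι → ℝ) → ENNReal}
    (hφ : Measurable φ) {c : ENNReal}
    (hc : ∀ (ξ : ι → Measure ℝ) [∀ q, IsProbabilityMeasure (ξ q)], (∀ q, Dom (ξ q)) →
      ∫⁻ y, φ y ∂Measure.pi ξ ≤ c) :
    ∫⁻ y, (∫⁻ h, (∫⁻ θ in Set.Ioc (0 : ℝ) 1, φ (Function.update y p (θ * h))) ∂μ)
      ∂Measure.pi ξ ≤ c := by
  have hm : Measurable fun z : ((ι → ℝ) × ℝ) × ℝ => φ (Function.update z.1.1 p (z.2 * z.1.2)) :=
    hφ.comp ((measurable_updateMap p).comp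
      (f := fun z : ((ι → ℝ) × ℝ) × ℝ => (z.1.1, z.2 * z.1.2)) (by fun_prop))
  rw [← lintegral_prod (fun z : (ι → ℝ) × ℝ =>
    ∫⁻ θ in Set.Ioc (0 : ℝ) 1, φ (Function.update z.1 p (θ * z.2)))
    hm.lintegral_prod_right'.aemeasurable]
  rw [lintegral_lintegral_swap (f := fun (z : (ι → ℝ) × ℝ) (θ : ℝ) =>
    φ (Function.update z.1 p (θ * z.2))) hm.aemeasurable]
  refine (setLIntegral_mono' (g := fun _ => c) measurableSet_Ioc fun θ hθ => ?_).trans (by simp)
  have hθ' : |θ| ≤ 1 := abs_le.2 ⟨by linarith [hθ.1], hθ.2⟩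
  have hmul : Measurable fun t : ℝ => θ * t := by fun_prop
  have : IsProbabilityMeasure (μ.map fun t => θ * t) :=
    Measure.isProbabilityMeasure_map hmul.aemeasurable
  have := prob_update ξ p (μ.map fun t => θ * t)
  refine le_trans (le_of_eq ?_) (hc _ (dom_update hξ p (dom_map hμ hθ')))
  have hu := measurable_updateMap (ι := ι) p
  have m1 : Measurable fun z : (ι → ℝ) × ℝ => φ (Function.update z.1 p z.2) := hφ.comp hu
  have m2 : Measurable fun z : (ι → ℝ) × ℝ => φ (Function.update z.1 p (θ * z.2)) :=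
    hφ.comp (hu.comp (f := fun z : (ι → ℝ) × ℝ => (z.1, θ * z.2)) (by fun_prop))
  rw [← map_update_prod, lintegral_map hφ hu, lintegral_prod _ m1.aemeasurable,
    lintegral_prod _ m2.aemeasurable]
  refine lintegral_congr fun y => ?_
  have m3 : Measurable fun t : ℝ => φ (Function.update y p t) := hφ.comp (measurable_update y)
  exact (lintegral_map m3 hmul).symm

/-- one replacement step -/
lemma step (ξ : ι → Measure ℝ) [∀ q, IsProbabilityMeasure (ξ q)] (hξ : ∀ q, Dom (ξ q)) (p : ι)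
    (μ ν : Measure ℝ) [IsProbabilityMeasure μ] [IsProbabilityMeasure ν] (hμ : Dom μ) (hν : Dom ν)
    {F : (ι → ℝ) → ℝ} {B : ℝ} {k : ℕ} {R : (ι → ℝ) → ℝ} {ρ : ℝ} (hF : Measurable F)
    (hB : ∀ y, |F y| ≤ B) (hk1 : 1 ≤ k) (hk4 : k ≤ 4)
    (hm : ∀ i, i < k → ∫ t, t ^ i ∂μ = ∫ t, t ^ i ∂ν)
    (hd : ∀ y, ContDiff ℝ 4 fun t => F (Function.update y p t)) (hR : Measurable R)
    (hr : ∀ y, |iteratedDeriv k (fun t => F (Function.update y p t)) (y p)| ≤ R y) (hρ : 0 < ρ)
    (hc : ∀ (ξ : ι → Measure ℝ) [∀ q, IsProbabilityMeasure (ξ q)], (∀ q, Dom (ξ q)) →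
      ∫⁻ y, ENNReal.ofReal (R y ^ 2) ∂Measure.pi ξ ≤ ENNReal.ofReal (ρ ^ 2)) :
    |∫ y, F y ∂Measure.pi (Function.update ξ p μ) - ∫ y, F y ∂Measure.pi (Function.update ξ p ν)|
      ≤ (2 + m8) * ρ := by
  have := prob_update ξ p μ
  have := prob_update ξ p ν
  obtain ⟨i1, j1⟩ := integral_update ξ p μ F hF
    (Integrable.of_bound hF.aestronglyMeasurable B (Eventually.of_forall hB))
  obtain ⟨i2, j2⟩ := integral_update ξ p ν F hF
    (Integrable.of_bound hF.aestronglyMeasurable B (Eventually.of_forall hB))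
  have hφ : Measurable fun y => ENNReal.ofReal (R y ^ 2) := by fun_prop
  have t1 := tonelli ξ hξ p μ hμ hφ hc
  have t2 := tonelli ξ hξ p ν hν hφ hc
  have hr' : ∀ y s, |iteratedDeriv k (fun t => F (Function.update y p t)) s| ≤
      R (Function.update y p s) := fun y s => by
    simpa using hr (Function.update y p s)
  have hmeas : Measurable fun y : ι → ℝ => ∫⁻ h, (∫⁻ θ in Set.Ioc (0 : ℝ) 1,
      ENNReal.ofReal (R (Function.update y p (θ * h)) ^ 2)) ∂μ := by
    have hm : Measurable fun z : ((ι → ℝ) × ℝ) × ℝ =>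
        ENNReal.ofReal (R (Function.update z.1.1 p (z.2 * z.1.2)) ^ 2) :=
      hφ.comp ((measurable_updateMap p).comp
        (f := fun z : ((ι → ℝ) × ℝ) × ℝ => (z.1.1, z.2 * z.1.2)) (by fun_prop))
    exact hm.lintegral_prod_right'.lintegral_prod_right'
  have hm8 := m8_nonneg
  rw [i1, i2, ← integral_sub j1 j2, ← Real.norm_eq_abs,
    ← ENNReal.ofReal_le_ofReal_iff (by positivity), ofReal_norm]
  refine (enorm_integral_le_lintegral_enorm _).trans ?_
  have hpt : ∀ y : ι → ℝ,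
      ‖∫ t, F (Function.update y p t) ∂μ - ∫ t, F (Function.update y p t) ∂ν‖ₑ ≤
      (ENNReal.ofReal (ρ / 2 * (1 + m8)) + ENNReal.ofReal (1 / (2 * ρ)) *
        ∫⁻ h, (∫⁻ θ in Set.Ioc (0 : ℝ) 1,
          ENNReal.ofReal (R (Function.update y p (θ * h)) ^ 2)) ∂μ) +
      (ENNReal.ofReal (ρ / 2 * (1 + m8)) + ENNReal.ofReal (1 / (2 * ρ)) *
        ∫⁻ h, (∫⁻ θ in Set.Ioc (0 : ℝ) 1,
          ENNReal.ofReal (R (Function.update y p (θ * h)) ^ 2)) ∂ν) := by
    intro y
    have b1 := mean_bound (hd y) (fun t => hB _) hk1 hk4 (hr' y) hρ μ hμ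
    have b2 := mean_bound (hd y) (fun t => hB _) hk1 hk4 (hr' y) hρ ν hν
    rw [sum_congr rfl fun i hi => by rw [hm i (mem_range.1 hi)]] at b1
    refine le_trans ?_ (add_le_add b1 b2)
    rw [← ofReal_norm, ← ofReal_norm, ← ofReal_norm,
      ← ENNReal.ofReal_add (norm_nonneg _) (norm_nonneg _)]
    exact ENNReal.ofReal_le_ofReal (norm_sub_le_norm_sub_add_norm_sub _ _ _ |>.trans
      (by rw [norm_sub_rev (∑ i ∈ range k, _)]))
  refine (lintegral_mono hpt).trans ?_
  have hmeas2 : Measurable fun y : ι → ℝ => ENNReal.ofReal (ρ / 2 * (1 + m8)) +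
      ENNReal.ofReal (1 / (2 * ρ)) * ∫⁻ h, (∫⁻ θ in Set.Ioc (0 : ℝ) 1,
      ENNReal.ofReal (R (Function.update y p (θ * h)) ^ 2)) ∂μ :=
    measurable_const.add (hmeas.const_mul _)
  rw [lintegral_add_left hmeas2,
    lintegral_add_left measurable_const, lintegral_add_left measurable_const,
    lintegral_const_mul' _ _ ENNReal.ofReal_ne_top, lintegral_const_mul' _ _ ENNReal.ofReal_ne_top]
  simp only [lintegral_const, measure_univ, mul_one]
  have e1 : ENNReal.ofReal (ρ / 2 * (1 + m8)) + ENNReal.ofReal (1 / (2 * ρ)) *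
      ENNReal.ofReal (ρ ^ 2) = ENNReal.ofReal ((2 + m8) * ρ / 2) := by
    rw [← ENNReal.ofReal_mul (by positivity), ← ENNReal.ofReal_add (by positivity) (by positivity)]
    congr 1
    field_simp
    ring
  calc _ ≤ (ENNReal.ofReal (ρ / 2 * (1 + m8)) + ENNReal.ofReal (1 / (2 * ρ)) *
        ENNReal.ofReal (ρ ^ 2)) + (ENNReal.ofReal (ρ / 2 * (1 + m8)) +
        ENNReal.ofReal (1 / (2 * ρ)) * ENNReal.ofReal (ρ ^ 2)) := by gcongr
    _ = ENNReal.ofReal ((2 + m8) * ρ) := by
      rw [e1, ← ENNReal.ofReal_add (by positivity) (by positivity), add_halves]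

end step

theorem lindStmt : LindStmt := by
  refine ⟨2 + m8, by linarith [m8_nonneg], ?_⟩
  intro ι _ _ μ ν _ _ hμ hν F B k R ρ hF hB hk hm hd hR hr hρ hc
  let H : Finset ι → ι → Measure ℝ := fun S i => if i ∈ S then μ i else ν i
  have hHp : ∀ S i, IsProbabilityMeasure (H S i) := by
    intro S i; simp only [H]; split_ifs <;> infer_instance
  have hHd : ∀ S i, Dom (H S i) := by
    intro S i; simp only [H]; split_ifs
    · exact hμ i
    · exact hν i
  have main : ∀ S : Finset ι, |∫ x, F x ∂(Measure.pi (H S)) - ∫ x, F x ∂(Measure.pi ν)|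
      ≤ (2 + m8) * ∑ i ∈ S, ρ i := by
    intro S
    induction S using Finset.induction_on with
    | empty =>
      have : H ∅ = ν := by funext i; simp [H]
      rw [this]; simp
    | insert i S hi ih =>
      have e1 : H (insert i S) = Function.update (H S) i (μ i) := by
        funext j
        by_cases hj : j = i
        · subst hj; simp [H]
        · simp [H, hj]
      have e2 : Function.update (H S) i (ν i) = H S := by
        funext j
        by_cases hj : j = i
        · subst hj; simp [H, hi]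
        · simp [Function.update_of_ne hj]
      have hs := step (H S) (hHd S) i (μ i) (ν i) (hμ i) (hν i) hF hB (hk i).1 (hk i).2 (hm i)
        (hd i) (hR i) (hr i) (hρ i) (hc i)
      rw [← e1, e2] at hs
      rw [Finset.sum_insert hi, mul_add]
      exact (abs_sub_le _ _ _).trans (add_le_add hs ih)
  have hfin := main Finset.univ
  have : H Finset.univ = μ := by funext i; simp [H]
  rwa [this] at hfin

end Crest.Agent.T157.EdLind

end
end

-- ▼ part T157/EdMbc_23

/-!
# Row 157, edge limit: the glue statements `MbcGlue`, `MbGlue`, `TailGlue` (helper23)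
-/

set_option autoImplicit false

noncomputable section

namespace Crest.Agent.T157.EdMbc

open MeasureTheory ProbabilityTheory Matrix Filter Topology Finset Real
open Crest.ProbabilityR.SpinGlassDynamics Crest.Agent.T157.E Crest.Agent.T157.Eig
open Crest.Agent.T157.Cond Crest.Agent.T157.Ed

variable {n : ℕ}

theorem one_le_tau (hn : 1 ≤ n) : 1 ≤ tau n := one_le_rpow (by exact_mod_cast hn) (by norm_num)

theorem tau_cube (n : ℕ) : tau n ^ 3 = (n : ℝ) ^ 2 := by
  rw [tau, ← rpow_natCast, ← rpow_mul (Nat.cast_nonneg n), ← rpow_natCast]; norm_num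

theorem tau_rpow (n : ℕ) : tau n ^ (-(3 / 2) : ℝ) = (n : ℝ)⁻¹ := by
  rw [tau, ← rpow_mul (Nat.cast_nonneg n), ← rpow_neg_one]; norm_num

theorem rho_pos (a : ℕ) : 0 < (1 + (a : ℝ)) ^ (-(3 / 2) : ℝ) := by positivity

theorem rho_sq (a : ℕ) : ((1 + (a : ℝ)) ^ (-(3 / 2) : ℝ)) ^ 2 = ((1 + (a : ℝ)) ^ 3)⁻¹ := by
  rw [← rpow_natCast, ← rpow_mul (by positivity), ← rpow_natCast, ← rpow_neg (by positivity)]
  norm_num

theorem measurable_lam_all (k : ℕ) : Measurable fun W : Mat n => lam W k := by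
  classical
  have e : (fun W : Mat n => lam W k) = fun W => if Wᵀ = W then lam ((1 / 2 : ℝ) • (W + Wᵀ)) k else 0 := by
    ext W
    split_ifs with h
    · rw [h, ← two_smul ℝ, smul_smul]; norm_num
    · rw [lam, dif_neg fun h' => h (herm_iff.1 h'.1)]
  rw [e]
  refine Measurable.ite measurableSet_symm (measurable_lam (fun i j => Measurable.t157_entry
    (by fun_prop) i j) (fun W => herm_smul (herm_iff.2 ?_) _) k) measurable_const
  rw [transpose_add, transpose_transpose, add_comm]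

theorem measurable_kapL : Measurable fun W : Mat n => kapL n (lam W) := by
  refine Measurable.iSup fun k => Measurable.max ?_ ?_
  · exact measurable_const.sub (measurable_const.mul (measurable_const.sub (measurable_lam_all _)))
  · split_ifs
    · exact (measurable_const.mul (measurable_const.sub (measurable_lam_all _))).sub measurable_const
    · exact measurable_const

theorem le_kapL (l : ℕ → ℝ) {k : ℕ} (hk : k < n) :
    ((k : ℝ) + 1) ^ (2 / 3 : ℝ) / 256 - tau n * (2 - l k) ≤ kapL n l :=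
  le_ciSup_of_le (Finite.bddAbove_range _) ⟨k, hk⟩ (le_max_left _ _)

theorem kapL_nonneg (hn : 1 ≤ n) (l : ℕ → ℝ) : 0 ≤ kapL n l :=
  le_ciSup_of_le (Finite.bddAbove_range _) ⟨n - 1, by omega⟩
    (le_max_of_le_right (by rw [if_neg (by simp only; omega)]))

theorem measurable_Ym_pow (σ : ℝ) (p : ℕ) : Measurable fun W : Mat n => Ym σ W ^ p := by
  induction p with
  | zero => simp
  | succ p ih => simp only [pow_succ]; exact ih.t157_mul (by unfold Ym; fun_prop)

theorem measurable_Wy : Measurable (Wy n) :=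
  measurable_Wmat.comp (f := fun y : Ix n → ℝ => (fun p => y (Sum.inl p), fun i => y (Sum.inr i)))
    (by fun_prop)

theorem Ym_neg (W : Mat n) : Ym (-1) W = Ym 1 (-W) := by simp [Ym]

theorem trace_Ym_pow {W : Mat n} (hW : W.IsHermitian) (p : ℕ) :
    (Ym 1 W ^ p).trace = ∑ k ∈ range n, ((2 + lam W k) / 4) ^ p := by
  have e : Ym 1 W = (1 / 4 : ℝ) • (W + (2 : ℝ) • (1 : Mat n)) := by rw [Ym, one_smul, add_comm]
  rw [e, trace_pow (herm_smul (herm_add_smul_one hW 2) _), Fintype.card_fin]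
  refine sum_congr rfl fun k hk => ?_
  rw [lam_smul (herm_add_smul_one hW 2) (by norm_num),
    lam_add_smul_one hW 2 (by simpa using hk)]
  ring

theorem term_le_trace {W : Mat n} (hW : W.IsHermitian) (a : ℕ) (s : Finset ℕ) (hs : s ⊆ range n) :
    ∑ k ∈ s, ((2 + lam W k) / 4) ^ (2 * a) ≤ (Ym 1 W ^ (2 * a)).trace := by
  rw [trace_Ym_pow hW]
  exact sum_le_sum_of_subset_of_nonneg hs fun k _ _ => (even_two_mul a).pow_nonneg _

theorem trace_nonneg {W : Mat n} (hW : W.IsHermitian) (a : ℕ) : 0 ≤ (Ym 1 W ^ (2 * a)).trace := by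
  simpa using term_le_trace hW a ∅ (empty_subset _)

/-! ### the deterministic bound -/

theorem sum_exp_le {c : ℝ} (hc : 0 < c) (n : ℕ) :
    ∑ k ∈ range n, exp (-(c * ((k : ℝ) + 1) ^ (2 / 3 : ℝ))) ≤ 2 * √(6 / c ^ 3) := by
  set B := √(6 / c ^ 3) with hB
  have B0 : 0 < B := by positivity
  have B2 : B ^ 2 = 6 / c ^ 3 := sq_sqrt (by positivity)
  have h : ∀ k : ℕ, exp (-(c * ((k : ℝ) + 1) ^ (2 / 3 : ℝ))) ≤
      2 * B ^ 2 * (1 / (B + k) - 1 / (B + ((k + 1 : ℕ) : ℝ))) := fun k => by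
    have h1 := sum_le_exp_of_nonneg (x := c * ((k : ℝ) + 1) ^ (2 / 3 : ℝ)) (by positivity) 4
    have h2 : (((k : ℝ) + 1) ^ (2 / 3 : ℝ)) ^ 3 = ((k : ℝ) + 1) ^ 2 := by
      rw [← rpow_natCast, ← rpow_mul (by positivity), ← rpow_natCast]; norm_num
    have h3 : 1 + ((k : ℝ) + 1) ^ 2 / B ^ 2 ≤ exp (c * ((k : ℝ) + 1) ^ (2 / 3 : ℝ)) := by
      refine le_trans ?_ h1
      simp only [sum_range_succ, sum_range_zero, Nat.factorial, mul_pow, h2, B2]
      have : 0 ≤ c * ((k : ℝ) + 1) ^ (2 / 3 : ℝ) := by positivity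
      have : 0 ≤ c ^ 2 * (((k : ℝ) + 1) ^ (2 / 3 : ℝ)) ^ 2 := by positivity
      rw [div_div_eq_mul_div]
      norm_num
      linarith
    rw [exp_neg]
    refine (inv_anti₀ (by positivity) h3).trans ?_
    have k0 : (0 : ℝ) ≤ k := k.cast_nonneg
    push_cast
    field_simp
    nlinarith [sq_nonneg (B - (k + 1))]
  refine (sum_le_sum fun k _ => h k).trans ?_
  rw [← mul_sum, sum_range_sub' fun k : ℕ => 1 / (B + k)]
  have : 0 ≤ 2 * B ^ 2 * (1 / (B + n)) := by positivity
  have e : 2 * B ^ 2 * (1 / (B + ((0 : ℕ) : ℝ))) = 2 * B := by simp; field_simp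
  linarith [mul_sub (2 * B ^ 2) (1 / (B + ((0 : ℕ) : ℝ))) (1 / (B + n))]

theorem sum_exp_le' (hn : 1 ≤ n) (a : ℕ) :
    ∑ k ∈ range n, exp (-(a / (512 * tau n) * ((k : ℝ) + 1) ^ (2 / 3 : ℝ))) ≤
      163840 * (n * (1 + (a : ℝ)) ^ (-(3 / 2) : ℝ)) := by
  have t0 := one_pos.trans_le (one_le_tau hn)
  have n0 : (0 : ℝ) < n := by exact_mod_cast hn
  rcases a.eq_zero_or_pos with rfl | ha
  · simp; linarith
  have a1 : (1 : ℝ) ≤ a := by exact_mod_cast ha
  refine (sum_exp_le (by positivity) n).trans (abs_le_of_sq_le_sq' ?_ (by positivity)).2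
  rw [mul_pow, sq_sqrt (by positivity), mul_pow, mul_pow, rho_sq, div_pow, mul_pow, tau_cube]
  have h : (1 + (a : ℝ)) ^ 3 ≤ (2 * a) ^ 3 := by gcongr; linarith
  field_simp
  nlinarith [pow_pos (one_pos.trans_le a1) 3]

theorem quarter_le (a : ℕ) : ((1 / 2 : ℝ)) ^ (2 * a) ≤ (1 + (a : ℝ)) ^ (-(3 / 2) : ℝ) := by
  have h : (1 + (a : ℝ)) ≤ 2 ^ a := by
    have := one_add_mul_le_pow (a := (1 : ℝ)) (by norm_num) a
    norm_num at this; exact this
  refine (abs_le_of_sq_le_sq' ?_ (rho_pos a).le).2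
  rw [rho_sq, one_div, inv_pow, inv_pow]
  refine inv_anti₀ (by positivity) ((pow_le_pow_left₀ (by positivity) h 3).trans ?_)
  rw [← pow_mul, ← pow_mul]
  exact pow_le_pow_right₀ (by norm_num) (by omega)

theorem trace_le {W : Mat n} (hW : W.IsHermitian) (hn : 1 ≤ n) {a : ℕ} {T : ℝ} (hT : 0 ≤ T)
    (ha : (a : ℝ) ≤ T * tau n) : (Ym 1 W ^ (2 * a)).trace ≤ 163840 * (n * (1 + (a : ℝ)) ^ (-(3 / 2) : ℝ)) *
      (exp (T * kapL n (lam W)) + exp (T * kapL n (lam (-W)))) := by
  have t0 := one_pos.trans_le (one_le_tau hn)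
  have k1 := kapL_nonneg hn (lam W)
  have k2 := kapL_nonneg hn (lam (-W))
  have a0 : (0 : ℝ) ≤ a := a.cast_nonneg
  have ha' : a / tau n ≤ T := (div_le_iff₀ t0).2 ha
  have h : ∀ k ∈ range n, ((2 + lam W k) / 4) ^ (2 * a) ≤
      exp (-(a / (512 * tau n) * ((k : ℝ) + 1) ^ (2 / 3 : ℝ))) * exp (T * kapL n (lam W)) +
        (1 + (a : ℝ)) ^ (-(3 / 2) : ℝ) * exp (T * kapL n (lam (-W))) := fun k hk => by
    rw [mem_range] at hk
    rcases le_total 0 ((2 + lam W k) / 4) with h0 | h0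
    · refine le_add_of_le_of_nonneg ?_ (by positivity)
      have h1 : (2 + lam W k) / 4 ≤ exp (-(2 - lam W k) / 4) := by
        linarith [add_one_le_exp (-(2 - lam W k) / 4)]
      refine (pow_le_pow_left₀ h0 h1 _).trans ?_
      rw [← exp_nat_mul, ← exp_add, exp_le_exp]
      have h2 := mul_le_mul_of_nonneg_left (le_kapL (lam W) hk) (div_nonneg a0 t0.le)
      have h3 := mul_le_mul_of_nonneg_right ha' k1
      have e1 : a / tau n * (((k : ℝ) + 1) ^ (2 / 3 : ℝ) / 256 - tau n * (2 - lam W k)) =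
          2 * (a / (512 * tau n) * ((k : ℝ) + 1) ^ (2 / 3 : ℝ)) - a * (2 - lam W k) := by
        field_simp; ring
      push_cast
      nlinarith [mul_nonneg hT k1]
    · refine le_add_of_nonneg_of_le (by positivity) ?_
      have h1 := le_kapL (n := n) (lam (-W)) (k := n - 1 - k) (by omega)
      rw [lam_neg hW (by simp; omega), Fintype.card_fin, show n - 1 - (n - 1 - k) = k by omega] at h1
      have h2 : -((2 + lam W k) / 4) ≤ 1 / 2 * exp (kapL n (lam (-W)) / (2 * tau n)) := by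
        have h3 : -(2 + lam W k) / 2 ≤ kapL n (lam (-W)) / (2 * tau n) := by
          rw [div_le_div_iff₀ two_pos (by positivity)]
          have : 0 ≤ (((n - 1 - k : ℕ) : ℝ) + 1) ^ (2 / 3 : ℝ) := by positivity
          nlinarith
        linarith [add_one_le_exp (kapL n (lam (-W)) / (2 * tau n))]
      rw [← (even_two_mul a).neg_pow]
      refine (pow_le_pow_left₀ (by linarith) h2 _).trans ?_
      rw [mul_pow, ← exp_nat_mul]
      refine mul_le_mul (quarter_le a) (exp_le_exp.2 ?_) (exp_pos _).le (rho_pos a).le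
      refine le_of_eq_of_le ?_ (mul_le_mul_of_nonneg_right ha' k2)
      push_cast
      field_simp
  rw [trace_Ym_pow hW]
  refine (sum_le_sum h).trans ?_
  rw [sum_add_distrib, ← sum_mul, sum_const, card_range, nsmul_eq_mul, mul_add, ← mul_assoc]
  refine add_le_add (mul_le_mul_of_nonneg_right (sum_exp_le' hn a) (exp_pos _).le)
    (mul_le_mul_of_nonneg_right ?_ (exp_pos _).le)
  nlinarith [mul_nonneg (n.cast_nonneg (α := ℝ)) (rho_pos a).le]

theorem mbcGlue : MbcGlue := fun hE q T => by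
  obtain ⟨C, hC⟩ := hE (q * |T|) (by positivity)
  refine ⟨2 * 163840 * max 1 (2 * C), by positivity, ?_⟩
  filter_upwards [hC, eventually_ge_atTop 1] with n hC hn a ha
  rcases q.eq_zero_or_pos with rfl | hq
  · simp
  set R : ℝ := 163840 * (n * (1 + (a : ℝ)) ^ (-(3 / 2) : ℝ)) with hR
  have R0 : 0 ≤ R := by have := rho_pos a; positivity
  have ha' : (a : ℝ) ≤ |T| * tau n :=
    ha.trans (mul_le_mul_of_nonneg_right (le_abs_self T) (zero_le_one.trans (one_le_tau hn)))
  have hm : Measurable fun W : Mat n => ENNReal.ofReal (exp (q * |T| * kapL n (lam W))) :=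
    (measurable_const.mul measurable_kapL).exp.ennreal_ofReal
  have hC' : ∫⁻ W, ENNReal.ofReal (exp (q * |T| * kapL n (lam (-W)))) ∂GOE n ≤ ENNReal.ofReal C := by
    rw [← lintegral_map hm measurable_neg, goe_neg]; exact hC
  have h1 : ∫⁻ W, ENNReal.ofReal ‖(Ym 1 W ^ (2 * a)).trace ^ q‖ ∂GOE n ≤
      ENNReal.ofReal ((2 * R) ^ q * max 1 (2 * C)) := by
    refine (lintegral_mono_ae (g := fun W => ENNReal.ofReal ((2 * R) ^ q) * (ENNReal.ofReal
      (exp (q * |T| * kapL n (lam W))) + ENNReal.ofReal (exp (q * |T| * kapL n (lam (-W))))))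
      ((goe_ae_symm _).mono fun W hW => ?_)).trans ?_
    · have hW := herm_iff.2 hW
      rw [← ENNReal.ofReal_add (exp_pos _).le (exp_pos _).le, ← ENNReal.ofReal_mul (by positivity)]
      refine ENNReal.ofReal_le_ofReal ?_
      rw [norm_of_nonneg (pow_nonneg (trace_nonneg hW a) q)]
      refine (pow_le_pow_left₀ (trace_nonneg hW a) (trace_le hW hn (abs_nonneg T) ha') q).trans ?_
      rw [← hR, mul_pow R, mul_comm 2 R, mul_pow R, mul_assoc (R ^ q)]
      refine mul_le_mul_of_nonneg_left ((add_pow_le (exp_pos _).le (exp_pos _).le q).trans ?_)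
        (pow_nonneg R0 q)
      rw [← exp_nat_mul, ← exp_nat_mul, ← mul_assoc, ← mul_assoc]
      exact mul_le_mul_of_nonneg_right (pow_le_pow_right₀ (by norm_num) (by omega)) (by positivity)
    · rw [lintegral_const_mul' _ _ ENNReal.ofReal_ne_top, lintegral_add_left hm,
        ENNReal.ofReal_mul (by positivity)]
      refine mul_le_mul_right ((add_le_add hC hC').trans ?_) _
      rw [← two_mul, ← ENNReal.ofReal_ofNat, ← ENNReal.ofReal_mul (by norm_num)]
      exact ENNReal.ofReal_le_ofReal (le_max_right _ _)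
  refine ((le_norm_self _).trans (norm_integral_le_lintegral_norm _)).trans
    ((ENNReal.toReal_le_of_le_ofReal (by positivity) h1).trans ?_)
  rw [show 2 * 163840 * max 1 (2 * C) * n * (1 + (a : ℝ)) ^ (-(3 / 2) : ℝ) = 2 * R * max 1 (2 * C) by
    rw [hR]; ring, mul_pow (2 * R)]
  exact mul_le_mul_of_nonneg_left (le_self_pow₀ (le_max_left _ _) hq.ne') (by positivity)

theorem mbGlue : MbGlue := fun hL hA hB hC q T => by
  obtain ⟨Cb, b0, hb⟩ := hB q
  obtain ⟨Cc, c0, hc⟩ := hC q T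
  refine ⟨(Cb + 1) * Cc, by positivity, ?_⟩
  filter_upwards [hc, eventually_ge_atTop 1] with n hc hn μ _ hμ σ hσ a ha
  have n0 : (0 : ℝ) < n := by exact_mod_cast hn
  have r0 := rho_pos a
  obtain ⟨h1, h2, h3⟩ := hA n μ hμ σ hσ (2 * a) q
  refine ⟨fun v hv => ⟨(h1 v).1, (h1 v).2.trans ?_⟩, h2, h3.trans ?_⟩
  · rw [← integral_map (f := fun W : Mat n => ((fun i => |v i|) ⬝ᵥ (Ym 1 W ^ (2 * a)) *ᵥ
      fun i => |v i|) ^ q) measurable_Wy.aemeasurable ((measurable_const.t157_dot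
      ((measurable_Ym_pow 1 _).t157_mulVec measurable_const)).pow_const q).aestronglyMeasurable, hL.1]
    refine (hb n a _ (by simpa only [dotProduct, abs_mul_abs_self] using hv)).trans
      ((mul_le_mul_of_nonneg_left (hc a ha) (by positivity)).trans ?_)
    rw [← mul_pow]
    refine pow_le_pow_left₀ (by positivity) ?_ q
    rw [show Cb / n * (Cc * n * (1 + (a : ℝ)) ^ (-(3 / 2) : ℝ)) = Cb * Cc * (1 + (a : ℝ)) ^ (-(3 / 2) : ℝ)
      by field_simp]
    gcongr
    linarith
  · rw [← integral_map (f := fun W : Mat n => (Ym 1 W ^ (2 * a)).trace ^ q) measurable_Wy.aemeasurable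
      ((measurable_Ym_pow 1 _).t157_trace.pow_const q).aestronglyMeasurable, hL.1]
    refine (hc a ha).trans (pow_le_pow_left₀ (by positivity) ?_ q)
    gcongr
    nlinarith

theorem transfer (hL : LinkStmt) (b : Bool) {F : Mat n → ℝ} (hF : Measurable F) {c : ℝ}
    (h : Integrable (fun y => F (Wy n y)) (Measure.pi (lawJ b n)) ∧
      ∫ y, F (Wy n y) ∂Measure.pi (lawJ b n) ≤ c) :
    Integrable (fun g => F (Jmat n g)) (couplingLaw b n) ∧ ∫ g, F (Jmat n g) ∂couplingLaw b n ≤ c := by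
  have h1 := (integrable_map_measure hF.aestronglyMeasurable measurable_Wy.aemeasurable).2 h.1
  rw [← integral_map measurable_Wy.aemeasurable hF.aestronglyMeasurable, hL.2.1] at h
  rw [hL.2.1] at h1
  exact ⟨(integrable_map_measure hF.aestronglyMeasurable measurable_Jmat.aemeasurable).1 h1,
    (integral_map measurable_Jmat.aemeasurable hF.aestronglyMeasurable).symm.trans_le h.2⟩

theorem cnt_le_trace {W : Mat n} (hW : W.IsHermitian) (hn : 1 ≤ n) {x : ℝ} (hx : 0 < x)
    (hx' : x ≤ tau n) : (cnt W (2 - x / tau n) : ℝ) ≤ 2 * (Ym 1 W ^ (2 * ⌊tau n / x⌋₊)).trace := by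
  have t0 := one_pos.trans_le (one_le_tau hn)
  have h1 : x / tau n ≤ 1 := (div_le_one t0).2 hx'
  have h2 : (⌊tau n / x⌋₊ : ℝ) * (x / tau n) ≤ 1 :=
    (mul_le_mul_of_nonneg_right (Nat.floor_le (by positivity)) (by positivity)).trans_eq (by field_simp)
  refine le_trans ?_ (mul_le_mul_of_nonneg_left (term_le_trace hW _
    ((range n).filter fun k => 2 - x / tau n ≤ lam W k) (filter_subset _ _)) two_pos.le)
  rw [cnt, Fintype.card_fin, card_eq_sum_ones, mul_sum]
  push_cast
  refine sum_le_sum fun k hk => ?_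
  have h3 := one_add_mul_le_pow (a := -(x / tau n) / 4) (by linarith) (2 * ⌊tau n / x⌋₊)
  have h4 := pow_le_pow_left₀ (a := 1 + -(x / tau n) / 4) (b := (2 + lam W k) / 4) (by linarith)
    (by linarith [(mem_filter.1 hk).2]) (2 * ⌊tau n / x⌋₊)
  push_cast at h3
  linarith

theorem exp_le_trace {W : Mat n} (hW : W.IsHermitian) (hn : 1 ≤ n) {A t : ℝ} {a : ℕ}
    (ha : 4 * A * tau n ≤ a) (ht : 0 ≤ t) (ht' : t ≤ tau n) (h : Lam n W 0 ≤ -t) :
    exp (A * t) ≤ (Ym 1 W ^ (2 * a)).trace := by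
  have t0 := one_pos.trans_le (one_le_tau hn)
  refine le_trans ?_ (term_le_trace hW a {0} (by simp; omega))
  rw [sum_singleton]
  set u := t / tau n / 4 with hu
  have u0 : 0 ≤ u := by positivity
  have u1 : u ≤ 1 := by have := (div_le_one t0).2 ht'; linarith
  have h1 : 1 + u ≤ (2 + lam W 0) / 4 := by
    have : t / tau n ≤ lam W 0 - 2 := by rw [div_le_iff₀ t0]; rw [Lam] at h; linarith
    linarith
  have h2 : exp (u / 2) ≤ 1 + u := by
    have h3 := add_one_le_exp (-(u / 2))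
    rw [Real.exp_neg, ← one_div, le_div_iff₀ (exp_pos _)] at h3
    nlinarith [exp_pos (u / 2), mul_nonneg u0 (sub_nonneg.2 u1)]
  refine le_trans ?_ (pow_le_pow_left₀ (exp_pos _).le (h2.trans h1) _)
  rw [← exp_nat_mul, exp_le_exp]
  have := mul_le_mul_of_nonneg_right ha u0
  have e : 4 * A * tau n * u = A * t := by rw [hu]; field_simp
  push_cast
  linarith

theorem tailGlue : TailGlue := fun hL hM => by
  refine ⟨fun q => ?_, fun A hA => ?_⟩
  · obtain ⟨C, c0, hC⟩ := hM q 1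
    refine ⟨2 * C, ?_⟩
    filter_upwards [hC, eventually_ge_atTop 1] with n hC hn b x hx hx'
    have t0 := one_pos.trans_le (one_le_tau hn)
    have n0 : (0 : ℝ) < n := by exact_mod_cast hn
    have x0 := one_pos.trans_le hx
    obtain ⟨h1, h2⟩ := transfer hL b ((measurable_Ym_pow 1 _).t157_trace.pow_const q)
      (hC (lawJ b n) (hL.2.2.2.1 b n) 1 (by simp) ⌊tau n / x⌋₊ ((Nat.floor_le (by positivity)).trans
        (by rw [one_mul]; exact div_le_self t0.le hx))).2
    refine (integral_mono_of_nonneg (.of_forall fun g => by positivity) (h1.const_mul (2 ^ q))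
      (.of_forall fun g => ?_)).trans ?_
    · simp only [← mul_pow]
      exact pow_le_pow_left₀ (Nat.cast_nonneg _) (cnt_le_trace (Jmat_isHermitian g) hn x0 hx') q
    rw [integral_const_mul]
    refine (mul_le_mul_of_nonneg_left h2 (by positivity)).trans ?_
    rw [← mul_pow]
    have := rho_pos ⌊tau n / x⌋₊
    refine pow_le_pow_left₀ (by positivity) ?_ q
    have h3 := rpow_le_rpow_of_nonpos (z := -(3 / 2)) (by positivity)
      ((Nat.lt_floor_add_one (tau n / x)).le.trans_eq (add_comm _ _)) (by norm_num)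
    rw [div_rpow t0.le x0.le, tau_rpow, rpow_neg x0.le, div_inv_eq_mul, le_inv_mul_iff₀ n0] at h3
    nlinarith [mul_le_mul_of_nonneg_left h3 c0]
  · obtain ⟨C, c0, hC⟩ := hM 1 (4 * A + 2)
    refine ⟨C, ?_⟩
    filter_upwards [hC, eventually_ge_atTop 1] with n hC hn b t ht ht'
    have t1 := one_le_tau hn
    have n0 : (0 : ℝ) < n := by exact_mod_cast hn
    set a := ⌈(4 * A + 1) * tau n⌉₊
    have a1 : (4 * A + 1) * tau n ≤ a := Nat.le_ceil _
    have a2 : (a : ℝ) ≤ (4 * A + 2) * tau n := by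
      linarith [Nat.ceil_lt_add_one (a := (4 * A + 1) * tau n) (by positivity)]
    have h3 : C * n * (1 + (a : ℝ)) ^ (-(3 / 2) : ℝ) ≤ C := by
      have h3 := rpow_le_rpow_of_nonpos (z := -(3 / 2)) (one_pos.trans_le t1)
        (show tau n ≤ 1 + a by nlinarith) (by norm_num)
      rw [tau_rpow, ← mul_one (n : ℝ)⁻¹, le_inv_mul_iff₀ n0] at h3
      nlinarith [mul_le_mul_of_nonneg_left h3 c0]
    have key : ∀ (σ : ℝ) (M : (Pair n → ℝ) → Mat n), |σ| ≤ 1 → (∀ g, (M g).IsHermitian) →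
        (∀ g, Ym σ (Jmat n g) = Ym 1 (M g)) →
        (couplingLaw b n).real {g | Lam n (M g) 0 ≤ -t} ≤ C * exp (-(A * t)) := fun σ M hσ hM e => by
      obtain ⟨h1, h2⟩ := transfer hL b ((measurable_Ym_pow σ _).t157_trace.pow_const 1)
        (hC (lawJ b n) (hL.2.2.2.1 b n) σ hσ a a2).2
      simp only [pow_one, e] at h1 h2
      have h4 := mul_meas_ge_le_integral_of_nonneg (.of_forall fun g => trace_nonneg (hM g) a) h1
        (exp (A * t))
      rw [exp_neg, ← div_eq_mul_inv, le_div_iff₀' (exp_pos _)]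
      exact (mul_le_mul_of_nonneg_left (measureReal_mono fun g hg =>
        exp_le_trace (hM g) hn (by nlinarith) ht ht' hg) (exp_pos _).le).trans (h4.trans (h2.trans h3))
    exact ⟨key 1 _ (by simp) Jmat_isHermitian fun _ => rfl,
      key (-1) _ (by simp) (fun g => (Jmat_isHermitian g).neg) fun _ => Ym_neg _⟩

end Crest.Agent.T157.EdMbc
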