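import Crest.Agent.T157.EdDef_88

-- ▼ part T157/EdSw_62
section

/-!
# Row 157, edge limit: Stone–Weierstrass in the power sums (helper62)
-/

set_option autoImplicit false

noncomputable section

namespace Crest.Agent.T157.Ed.Sw62

open Filter Topology Finset

/-- decreasing nonnegative sequences with sum at most `M` -/
def KM (M : ℝ) : Set (ℕ → ℝ) :=
  {x | Antitone x ∧ (∀ k, 0 ≤ x k) ∧ ∀ N, ∑ k ∈ range N, x k ≤ M}

theorem M_nonneg {M : ℝ} {x : ℕ → ℝ} (hx : x ∈ KM M) : 0 ≤ M := by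
  simpa using hx.2.2 0

theorem le_div {M : ℝ} {x : ℕ → ℝ} (hx : x ∈ KM M) (k : ℕ) : x k ≤ M / ((k : ℝ) + 1) := by
  rw [le_div_iff₀ (by positivity)]
  have h1 : ∑ _i ∈ range (k + 1), x k ≤ ∑ i ∈ range (k + 1), x i :=
    sum_le_sum fun i hi => hx.1 (by simpa [Nat.lt_succ_iff] using hi)
  have h2 := hx.2.2 (k + 1)
  simp only [sum_const, card_range, nsmul_eq_mul, Nat.cast_add, Nat.cast_one] at h1
  linarith

theorem le_M {M : ℝ} {x : ℕ → ℝ} (hx : x ∈ KM M) (k : ℕ) : x k ≤ M := by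
  have h := hx.2.2 1
  simp only [range_one, sum_singleton] at h
  exact (hx.1 (Nat.zero_le k)).trans h

theorem isClosed_KM (M : ℝ) : IsClosed (KM M) := by
  have : KM M = (⋂ a, ⋂ b, ⋂ (_ : a ≤ b), {x : ℕ → ℝ | x b ≤ x a}) ∩
      ((⋂ k, {x : ℕ → ℝ | 0 ≤ x k}) ∩ ⋂ N, {x : ℕ → ℝ | ∑ k ∈ range N, x k ≤ M}) := by
    ext x
    simp only [KM, Set.mem_ofPred_eq, Set.mem_inter_iff, Set.mem_iInter]
    exact ⟨fun h => ⟨fun a b hab => h.1 hab, h.2⟩, fun h => ⟨fun a b hab => h.1 a b hab, h.2⟩⟩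
  rw [this]
  refine IsClosed.inter ?_ (IsClosed.inter ?_ ?_)
  · exact isClosed_iInter fun a => isClosed_iInter fun b => isClosed_iInter fun _ =>
      isClosed_le (continuous_apply b) (continuous_apply a)
  · exact isClosed_iInter fun k => isClosed_le continuous_const (continuous_apply k)
  · exact isClosed_iInter fun N =>
      isClosed_le (continuous_finsetSum _ fun k _ => continuous_apply k) continuous_const

theorem isCompact_KM (M : ℝ) : IsCompact (KM M) := by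
  refine (isCompact_univ_pi fun _ : ℕ => (isCompact_Icc : IsCompact (Set.Icc (0 : ℝ) M))).of_isClosed_subset
    (isClosed_KM M) ?_
  intro x hx k _
  exact ⟨hx.2.1 k, le_M hx k⟩

instance (M : ℝ) : CompactSpace (KM M) := isCompact_iff_compactSpace.mp (isCompact_KM M)

/-- the power sums -/
def ps (j : ℕ) (x : ℕ → ℝ) : ℝ := ∑' k, x k ^ (j + 2)

theorem summable_bd (M : ℝ) (j : ℕ) : Summable fun k : ℕ => (|M| / ((k : ℝ) + 1)) ^ (j + 2) := by
  have h : Summable fun k : ℕ => 1 / (((k + 1 : ℕ) : ℝ)) ^ (j + 2) :=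
    (summable_nat_add_iff 1).2 (Real.summable_one_div_nat_pow.2 (by omega))
  refine (h.mul_left (|M| ^ (j + 2))).congr fun k => ?_
  rw [div_pow]
  push_cast
  ring

theorem norm_pow_le {M : ℝ} {x : ℕ → ℝ} (hx : x ∈ KM M) (j k : ℕ) :
    ‖x k ^ (j + 2)‖ ≤ (|M| / ((k : ℝ) + 1)) ^ (j + 2) := by
  rw [Real.norm_eq_abs, abs_of_nonneg (pow_nonneg (hx.2.1 k) _), abs_of_nonneg (M_nonneg hx)]
  exact pow_le_pow_left₀ (hx.2.1 k) (le_div hx k) _

theorem summable_pow {M : ℝ} {x : ℕ → ℝ} (hx : x ∈ KM M) (j : ℕ) :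
    Summable fun k => x k ^ (j + 2) :=
  Summable.of_norm_bounded (summable_bd M j) (norm_pow_le hx j)

theorem continuous_ps (M : ℝ) (j : ℕ) : Continuous fun x : KM M => ps j x :=
  continuous_tsum (fun k => ((continuous_apply k).comp continuous_subtype_val).pow _)
    (summable_bd M j) fun k x => norm_pow_le x.2 j k

theorem le_ps {M : ℝ} {x : ℕ → ℝ} (hx : x ∈ KM M) (j : ℕ) : x 0 ^ (j + 2) ≤ ps j x :=
  (summable_pow hx j).le_tsum 0 fun k _ => pow_nonneg (hx.2.1 k) _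

theorem ps_le {M : ℝ} {x : ℕ → ℝ} (hx : x ∈ KM M) (j : ℕ) : ps j x ≤ x 0 ^ (j + 1) * M := by
  refine (summable_pow hx j).tsum_le_of_sum_range_le fun N => ?_
  calc ∑ k ∈ range N, x k ^ (j + 2) ≤ ∑ k ∈ range N, x 0 ^ (j + 1) * x k := by
        refine sum_le_sum fun k _ => ?_
        rw [pow_succ]
        exact mul_le_mul_of_nonneg_right
          (pow_le_pow_left₀ (hx.2.1 k) (hx.1 (Nat.zero_le k)) _) (hx.2.1 k)
    _ = x 0 ^ (j + 1) * ∑ k ∈ range N, x k := by rw [mul_sum]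
    _ ≤ x 0 ^ (j + 1) * M := mul_le_mul_of_nonneg_left (hx.2.2 N) (pow_nonneg (hx.2.1 0) _)

theorem head_le {M : ℝ} {x y : ℕ → ℝ} (hx : x ∈ KM M) (hy : y ∈ KM M)
    (h : ∀ j, ps j x = ps j y) : x 0 ≤ y 0 := by
  by_contra hlt
  push Not at hlt
  have hx0 : 0 < x 0 := (hy.2.1 0).trans_lt hlt
  have hq : y 0 / x 0 < 1 := (div_lt_one hx0).2 hlt
  have hq0 : 0 ≤ y 0 / x 0 := div_nonneg (hy.2.1 0) hx0.le
  have ht : Tendsto (fun j : ℕ => (y 0 / x 0) ^ (j + 1) * M) atTop (𝓝 (0 * M)) :=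
    ((tendsto_pow_atTop_nhds_zero_of_lt_one hq0 hq).comp (tendsto_add_atTop_nat 1)).mul_const M
  rw [zero_mul] at ht
  have hle : ∀ j : ℕ, x 0 ≤ (y 0 / x 0) ^ (j + 1) * M := by
    intro j
    have h1 := le_ps hx j
    have h2 := ps_le hy j
    rw [h j] at h1
    rw [div_pow, div_mul_eq_mul_div, le_div_iff₀ (pow_pos hx0 _)]
    calc x 0 * x 0 ^ (j + 1) = x 0 ^ (j + 2) := by ring
      _ ≤ _ := h1.trans h2
  exact absurd (ge_of_tendsto' ht hle) (not_le.2 hx0)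

theorem shift_mem {M : ℝ} {x : ℕ → ℝ} (hx : x ∈ KM M) : (fun k => x (k + 1)) ∈ KM M := by
  refine ⟨fun a b hab => hx.1 (Nat.succ_le_succ hab), fun k => hx.2.1 _, fun N => ?_⟩
  have h := hx.2.2 (N + 1)
  rw [sum_range_succ'] at h
  have := hx.2.1 0
  linarith

theorem ps_shift {M : ℝ} {x : ℕ → ℝ} (hx : x ∈ KM M) (j : ℕ) :
    ps j x = x 0 ^ (j + 2) + ps j fun k => x (k + 1) :=
  (summable_pow hx j).tsum_eq_zero_add

theorem sep {M : ℝ} (k : ℕ) : ∀ {x y : ℕ → ℝ}, x ∈ KM M → y ∈ KM M →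
    (∀ j, ps j x = ps j y) → x k = y k := by
  induction k with
  | zero => exact fun hx hy h => le_antisymm (head_le hx hy h) (head_le hy hx fun j => (h j).symm)
  | succ k ih =>
    intro x y hx hy h
    have h0 : x 0 = y 0 := le_antisymm (head_le hx hy h) (head_le hy hx fun j => (h j).symm)
    refine ih (shift_mem hx) (shift_mem hy) fun j => ?_
    have h1 := h j
    rw [ps_shift hx, ps_shift hy, h0] at h1
    exact add_left_cancel h1

/-- smooth functions of the first `r` power sums -/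
def Rep (M : ℝ) (r : ℕ) (g : KM M → ℝ) : Prop :=
  ∃ P : (Fin r → ℝ) → ℝ, ContDiff ℝ 4 P ∧ ∀ x : KM M, g x = P fun j => ps j x

theorem Rep.mono {M : ℝ} {r r' : ℕ} {g : KM M → ℝ} (h : Rep M r g) (hr : r ≤ r') :
    Rep M r' g := by
  obtain ⟨P, hP, hg⟩ := h
  refine ⟨fun y => P fun j => y (Fin.castLE hr j), hP.comp ?_, fun x => hg x⟩
  exact contDiff_pi.2 fun j => contDiff_apply ℝ ℝ _

/-- the subalgebra of smooth functions of finitely many power sums -/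
def alg (M : ℝ) : Subalgebra ℝ C(KM M, ℝ) where
  carrier := {g | ∃ r, Rep M r g}
  mul_mem' := by
    rintro a b ⟨r, ha⟩ ⟨r', hb⟩
    obtain ⟨P, hP, h1⟩ := ha.mono (le_max_left r r')
    obtain ⟨Q, hQ, h2⟩ := hb.mono (le_max_right r r')
    exact ⟨max r r', fun y => P y * Q y, hP.mul hQ, fun x => by simp [h1 x, h2 x]⟩
  add_mem' := by
    rintro a b ⟨r, ha⟩ ⟨r', hb⟩
    obtain ⟨P, hP, h1⟩ := ha.mono (le_max_left r r')
    obtain ⟨Q, hQ, h2⟩ := hb.mono (le_max_right r r')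
    exact ⟨max r r', fun y => P y + Q y, hP.add hQ, fun x => by simp [h1 x, h2 x]⟩
  algebraMap_mem' := fun c => ⟨0, fun _ => c, contDiff_const, fun x => by simp⟩

theorem alg_sep (M : ℝ) : (alg M).SeparatesPoints := by
  intro x y hxy
  have : ∃ j, ps j x ≠ ps j y := by
    by_contra hne
    push Not at hne
    exact hxy (Subtype.ext (funext fun k => sep k x.2 y.2 hne))
  obtain ⟨j, hj⟩ := this
  refine ⟨fun z => ps j z, ⟨⟨fun z => ps j z, continuous_ps M j⟩, ?_, rfl⟩, hj⟩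
  exact ⟨j + 1, fun y => y (Fin.last j), contDiff_apply ℝ ℝ _, fun x => by simp⟩

theorem exists_psi (B : ℝ) (hB : 0 ≤ B) : ∃ ψ : ℝ → ℝ, ContDiff ℝ 4 ψ ∧ (∀ t, |ψ t| ≤ B + 2) ∧
    ∀ t, |t| ≤ B + 1 → ψ t = t := by
  let b : ContDiffBump (0 : ℝ) := ⟨B + 1, B + 2, by linarith, by linarith⟩
  refine ⟨fun t => t * b t, contDiff_id.mul b.contDiff, fun t => ?_, fun t ht => ?_⟩
  · rcases le_total (B + 2) |t| with h | h
    · have : b t = 0 := b.zero_of_le_dist (by simpa [Real.dist_eq] using h)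
      simp only [this, mul_zero, abs_zero]
      linarith
    · rw [abs_mul, abs_of_nonneg b.nonneg]
      calc |t| * b t ≤ |t| * 1 := mul_le_mul_of_nonneg_left b.le_one (abs_nonneg t)
        _ ≤ B + 2 := by linarith
  · have : b t = 1 := b.one_of_mem_closedBall (by simpa [Real.dist_eq] using ht)
    simp [this]

theorem exists_bound {r : ℕ} {G : (Fin r → ℝ) → ℝ} (hG : ContDiff ℝ 4 G)
    (hc : HasCompactSupport G) : ∃ C : ℝ, ∀ i, i ≤ 4 → ∀ y, ‖iteratedFDeriv ℝ i G y‖ ≤ C := by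
  have h : ∀ i : Fin 5, ∃ C : ℝ, ∀ y, ‖iteratedFDeriv ℝ i G y‖ ≤ C := fun i =>
    (hG.continuous_iteratedFDeriv (by exact_mod_cast Nat.lt_succ_iff.1 i.2)).bounded_above_of_compact_support
      (hc.iteratedFDeriv _)
  choose C hC using h
  refine ⟨∑ i, |C i|, fun i hi y => ?_⟩
  refine (hC ⟨i, by omega⟩ y).trans ((le_abs_self _).trans ?_)
  exact single_le_sum (f := fun i => |C i|) (fun i _ => abs_nonneg _) (mem_univ _)

theorem mem_of_fin {M : ℝ} {n : ℕ} {x : ℕ → ℝ} (h1 : Antitone x) (h2 : ∀ k, 0 ≤ x k)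
    (h3 : ∀ k, n ≤ k → x k = 0) (h4 : ∑ k ∈ range n, x k ≤ M) : x ∈ KM M := by
  refine ⟨h1, h2, fun N => le_trans ?_ h4⟩
  calc ∑ k ∈ range N, x k ≤ ∑ k ∈ range (max N n), x k :=
        sum_le_sum_of_subset_of_nonneg (range_subset_range.2 (le_max_left _ _)) fun k _ _ => h2 k
    _ = ∑ k ∈ range n, x k := by
        refine (sum_subset (range_subset_range.2 (le_max_right _ _)) fun k _ hk => h3 k ?_).symm
        simpa using hk

theorem ps_fin {n : ℕ} {x : ℕ → ℝ} (h3 : ∀ k, n ≤ k → x k = 0) (j : ℕ) :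
    ps j x = ∑ k ∈ range n, x k ^ (j + 2) := by
  refine tsum_eq_sum fun k hk => ?_
  rw [h3 k (by simpa using hk)]
  simp

end Crest.Agent.T157.Ed.Sw62

namespace Crest.Agent.T157.Ed

open Sw62 Finset

theorem swStmt : SwStmt := by
  intro K f B M ε hf hB hε
  have hB0 : 0 ≤ B := (abs_nonneg _).trans (hB 0)
  have hc : Continuous fun x : KM M => f fun k => (x : ℕ → ℝ) k :=
    hf.comp (continuous_pi fun k => (continuous_apply _).comp continuous_subtype_val)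
  obtain ⟨⟨g, r, P, hP, hg⟩, hgf⟩ :=
    ContinuousMap.exists_mem_subalgebra_near_continuous_of_separatesPoints (alg M) (alg_sep M)
      _ hc (min ε 1) (lt_min hε one_pos)
  obtain ⟨ψ, hψ, hψb, hψe⟩ := exists_psi B hB0
  have hcv : Continuous fun x : KM M => (fun j : Fin r => ps j x) :=
    continuous_pi fun j => continuous_ps M j
  obtain ⟨R, hR⟩ := (isCompact_range hcv).isBounded.subset_closedBall 0
  let χ : ContDiffBump (0 : Fin r → ℝ) :=
    ⟨|R| + 1, |R| + 2, by positivity, by linarith⟩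
  have hG : ContDiff ℝ 4 fun y => χ y * ψ (P y) := χ.contDiff.mul (hψ.comp hP)
  have hGc : HasCompactSupport fun y => χ y * ψ (P y) := χ.hasCompactSupport.mul_right
  obtain ⟨C, hC⟩ := exists_bound hG hGc
  refine ⟨r, fun y => χ y * ψ (P y), C, hG, hC, fun y => ?_, fun n x h1 h2 h3 h4 => ?_⟩
  · rw [abs_mul, abs_of_nonneg χ.nonneg]
    calc χ y * |ψ (P y)| ≤ 1 * |ψ (P y)| := mul_le_mul_of_nonneg_right χ.le_one (abs_nonneg _)
      _ ≤ B + 2 := by rw [one_mul]; exact hψb _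
  · have hx := mem_of_fin h1 h2 h3 h4
    have he : (fun j : Fin r => ∑ k ∈ range n, x k ^ ((j : ℕ) + 2)) = fun j : Fin r => ps j x :=
      funext fun j => (ps_fin h3 j).symm
    have h5 := hgf ⟨x, hx⟩
    have h6 := hg ⟨x, hx⟩
    simp only [Real.norm_eq_abs] at h5 h6
    rw [h6] at h5
    have h7 : χ (fun j : Fin r => ps j x) = 1 := by
      refine χ.one_of_mem_closedBall ?_
      refine Metric.closedBall_subset_closedBall ?_ (hR ⟨⟨x, hx⟩, rfl⟩)
      change R ≤ |R| + 1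
      linarith [le_abs_self R]
    have h8 : |P fun j : Fin r => ps j x| ≤ B + 1 := by
      have h9 := hB fun k => x k
      have h10 := (lt_min_iff.1 h5).2
      have := abs_sub_abs_le_abs_sub (P fun j : Fin r => ps j x) (f fun k => x k)
      linarith
    rw [he]
    change |f (fun k => x k) - χ (fun j : Fin r => ps j x) * ψ (P fun j : Fin r => ps j x)| ≤ ε
    rw [h7, one_mul, hψe _ h8, abs_sub_comm]
    exact (lt_min_iff.1 h5).1.le

end Crest.Agent.T157.Ed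

end
end

-- ▼ part T157/EdSwap_50

/-!
# Row 157, part E (helper50): `Ed.swapGlue`

Lindeberg replacement for smooth functions of the power sums `ptr`.
-/

set_option autoImplicit false

noncomputable section

namespace Crest.Agent.T157.Ed

open MeasureTheory ProbabilityTheory Matrix Filter Topology Finset
open Crest.ProbabilityR.SpinGlassDynamics Crest.Agent.T157.E Crest.Agent.T157.Eig
open Crest.Agent.T157.Cond

namespace Sw50

variable {n : ℕ}

lemma Wy_add_smul (y z : Ix n → ℝ) (s : ℝ) : Wy n (y + s • z) = Wy n y + s • Wy n z := by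
  ext i j
  simp only [Wy, Wmat, Jmat, Matrix.add_apply, Matrix.smul_apply, diagonal_apply, Pi.add_apply,
    Pi.smul_apply, smul_eq_mul]
  split_ifs <;> ring

lemma update_eq (y : Ix n → ℝ) (p : Ix n) (t : ℝ) :
    Function.update y p t = y + (t - y p) • (Pi.single p (1 : ℝ) : Ix n → ℝ) := by
  funext q
  by_cases h : q = p
  · subst h; simp
  · simp [Function.update_of_ne h, Pi.single_eq_of_ne h]

/-- the direction matrix of one entry -/
def Ed (p : Ix n) : Mat n := (1 / 4 : ℝ) • Wy n (Pi.single p (1 : ℝ))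

lemma Ym_update (y : Ix n → ℝ) (p : Ix n) (t : ℝ) :
    Ym 1 (Wy n (Function.update y p t)) = Ym 1 (Wy n y) + (t - y p) • Ed p := by
  rw [update_eq, Wy_add_smul]
  simp only [Ym, Ed, one_smul]
  module

/-- first index of an entry -/
def iA : Ix n → Fin n := Sum.elim (fun p => p.1.1) id
/-- second index of an entry -/
def iB : Ix n → Fin n := Sum.elim (fun p => p.1.2) id

lemma Ed_supp (p : Ix n) (c d : Fin n)
    (h : (c ≠ iA p ∧ c ≠ iB p) ∨ (d ≠ iA p ∧ d ≠ iB p)) : Ed p c d = 0 := by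
  have key : Wy n (Pi.single p (1 : ℝ)) c d = 0 := by
    simp only [Wy, Wmat, Jmat, Matrix.add_apply, diagonal_apply]
    have h1 : ∀ (h' : c < d), (Pi.single p (1 : ℝ) : Ix n → ℝ) (Sum.inl ⟨(c, d), h'⟩) = 0 := by
      intro h'
      apply Pi.single_eq_of_ne
      rintro rfl
      simp [iA, iB] at h
    have h2 : ∀ (h' : d < c), (Pi.single p (1 : ℝ) : Ix n → ℝ) (Sum.inl ⟨(d, c), h'⟩) = 0 := by
      intro h'
      apply Pi.single_eq_of_ne
      rintro rfl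
      simp [iA, iB] at h
    have h3 : c = d → (Pi.single p (1 : ℝ) : Ix n → ℝ) (Sum.inr c) = 0 := by
      rintro rfl
      apply Pi.single_eq_of_ne
      rintro rfl
      simp [iA, iB] at h
    split_ifs with a b e f g
    · rw [h1 a, h3 b]; simp
    · rw [h1 a]; simp
    · rw [h2 e, h3 f]; simp
    · rw [h2 e]; simp
    · rw [h3 g]; simp
    · simp
  simp [Ed, key]

lemma abs_single_le (p q : Ix n) : |(Pi.single p (1 : ℝ) : Ix n → ℝ) q| ≤ 1 := by
  by_cases h : q = p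
  · subst h; simp
  · simp [Pi.single_eq_of_ne h]

lemma Ed_le (p : Ix n) (c d : Fin n) : |Ed p c d| ≤ 1 / Real.sqrt n := by
  have hs : 0 ≤ 1 / Real.sqrt n := by positivity
  have h2 : Real.sqrt 2 ≤ 2 := by
    rw [Real.sqrt_le_iff]; norm_num
  have ha : ∀ q : Ix n, |(Pi.single p (1 : ℝ) : Ix n → ℝ) q / Real.sqrt n| ≤ 1 / Real.sqrt n := by
    intro q
    rw [abs_div, abs_of_nonneg (Real.sqrt_nonneg _)]
    exact div_le_div_of_nonneg_right (abs_single_le p q) (Real.sqrt_nonneg _)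
  have hb : ∀ q : Ix n, |Real.sqrt 2 * (Pi.single p (1 : ℝ) : Ix n → ℝ) q / Real.sqrt n| ≤
      2 * (1 / Real.sqrt n) := by
    intro q
    rw [mul_div_assoc, abs_mul, abs_of_nonneg (Real.sqrt_nonneg _)]
    exact mul_le_mul h2 (ha q) (abs_nonneg _) (by norm_num)
  have key : |Wy n (Pi.single p (1 : ℝ)) c d| ≤ 1 / Real.sqrt n + 2 * (1 / Real.sqrt n) := by
    simp only [Wy, Wmat, Jmat, Matrix.add_apply, diagonal_apply]
    refine (abs_add_le _ _).trans (add_le_add ?_ ?_)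
    · split_ifs
      · exact ha _
      · exact ha _
      · simpa using hs
    · split_ifs
      · exact hb _
      · simp
  simp only [Ed, Matrix.smul_apply, smul_eq_mul, abs_mul]
  rw [abs_of_pos (by norm_num : (0 : ℝ) < 1 / 4)]
  linarith

lemma Ym_symm (y : Ix n → ℝ) : (Ym 1 (Wy n y))ᵀ = Ym 1 (Wy n y) := by
  simp only [Ym, Wy, transpose_smul, transpose_add, transpose_one, Wmat_transpose]

lemma contDiff_pow_entry (Y E : Mat n) (M : ℕ) (c d : Fin n) :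
    ContDiff ℝ 4 fun t : ℝ => ((Y + t • E) ^ M) c d := by
  induction M generalizing c d with
  | zero => simp only [pow_zero]; exact contDiff_const
  | succ M ih =>
    simp only [pow_succ, Matrix.mul_apply]
    refine ContDiff.sum fun k _ => (ih c k).mul ?_
    simp only [Matrix.add_apply, Matrix.smul_apply, smul_eq_mul]
    fun_prop

lemma contDiff_trace (Y E : Mat n) (M : ℕ) :
    ContDiff ℝ 4 fun t : ℝ => ((Y + t • E) ^ M).trace := by
  simp only [Matrix.trace, Matrix.diag]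
  exact ContDiff.sum fun k _ => contDiff_pow_entry Y E M k k

lemma continuous_Wy : Continuous (Wy n) := by
  refine continuous_pi fun i => continuous_pi fun j => ?_
  simp only [Wy, Wmat, Jmat, Matrix.add_apply, diagonal_apply]
  split_ifs <;> fun_prop

lemma continuous_Jmat : Continuous (Jmat n) := by
  refine continuous_pi fun i => continuous_pi fun j => ?_
  simp only [Jmat]
  split_ifs <;> fun_prop

lemma continuous_Ym : Continuous (Ym 1 : Mat n → Mat n) := by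
  unfold Ym; fun_prop

lemma continuous_ptr (r : ℕ) : Continuous (ptr n r) := by
  refine continuous_pi fun j => ?_
  exact (continuous_Ym.pow _).matrix_trace

/-- chain rule bound -/
lemma comp_bound {r : ℕ} {G : (Fin r → ℝ) → ℝ} {C : ℝ} (hG : ContDiff ℝ 4 G)
    (hC : ∀ i, i ≤ 4 → ∀ y, ‖iteratedFDeriv ℝ i G y‖ ≤ C) (ψ : Fin r → ℝ → ℝ)
    (hψ : ∀ j, ContDiff ℝ 4 (ψ j)) {D : ℝ} (hD0 : 0 ≤ D)
    (hD : ∀ j i, 1 ≤ i → i ≤ 4 → |iteratedDeriv i (ψ j) 0| ≤ D ^ i) (k : ℕ) (hk : k ≤ 4) :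
    |iteratedDeriv k (fun s => G fun j => ψ j s) 0| ≤ 24 * C * D ^ k := by
  have hf : ContDiff ℝ 4 (fun s j => ψ j s) := contDiff_pi.2 hψ
  have hC0 : 0 ≤ C := (norm_nonneg _).trans (hC 0 (by norm_num) 0)
  have h := norm_iteratedFDeriv_comp_le (𝕜 := ℝ) hG hf (n := k) (by exact_mod_cast hk) 0
    (C := C) (D := D) (fun i hi => hC i (hi.trans hk) _) (fun i hi1 hi => by
      rw [norm_iteratedFDeriv_eq_norm_iteratedDeriv, pi_norm_le_iff_of_nonneg (by positivity)]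
      intro j
      have e := (ContinuousLinearMap.proj (R := ℝ) (φ := fun _ : Fin r => ℝ) j).iteratedFDeriv_comp_left
        (f := fun s j => ψ j s) (x := 0) hf.contDiffAt (i := i) (by exact_mod_cast hi.trans hk)
      have e2 : iteratedDeriv i (fun s j => ψ j s) 0 j = iteratedDeriv i (ψ j) 0 := by
        rw [iteratedDeriv_eq_iteratedFDeriv, iteratedDeriv_eq_iteratedFDeriv]
        have e3 : ψ j = (ContinuousLinearMap.proj (R := ℝ) (φ := fun _ : Fin r => ℝ) j) ∘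
          fun s j => ψ j s := rfl
        conv_rhs => rw [e3, e]
        rfl
      rw [e2, Real.norm_eq_abs]
      exact hD j i hi1 (hi.trans hk))
  rw [norm_iteratedFDeriv_eq_norm_iteratedDeriv, Real.norm_eq_abs] at h
  refine h.trans ?_
  have hfac : (k.factorial : ℝ) ≤ 24 := by
    have : k.factorial ≤ (4 : ℕ).factorial := Nat.factorial_le hk
    have h4 : (4 : ℕ).factorial = 24 := by decide
    exact_mod_cast h4 ▸ this
  gcongr

/-- the random constant of the derivative bound -/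
def Z8 (Mx : ℕ) (p : Ix n) (y : Ix n → ℝ) : ℝ :=
  1 + ∑ b ∈ range (Mx + 1),
    (((1 + (b : ℝ)) ^ (5 / 4 : ℝ) * (Ym 1 (Wy n y) ^ (2 * b)) (iA p) (iA p)) ^ 8 +
      ((1 + (b : ℝ)) ^ (5 / 4 : ℝ) * (Ym 1 (Wy n y) ^ (2 * b)) (iB p) (iB p)) ^ 8)

lemma one_le_Z8 (Mx : ℕ) (p : Ix n) (y : Ix n → ℝ) : 1 ≤ Z8 Mx p y := by
  unfold Z8
  have : 0 ≤ ∑ b ∈ range (Mx + 1),
    (((1 + (b : ℝ)) ^ (5 / 4 : ℝ) * (Ym 1 (Wy n y) ^ (2 * b)) (iA p) (iA p)) ^ 8 +
      ((1 + (b : ℝ)) ^ (5 / 4 : ℝ) * (Ym 1 (Wy n y) ^ (2 * b)) (iB p) (iB p)) ^ 8) :=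
    sum_nonneg fun b _ => by positivity
  linarith

lemma continuous_Z8 (Mx : ℕ) (p : Ix n) : Continuous (Z8 Mx p : (Ix n → ℝ) → ℝ) := by
  unfold Z8
  have h : ∀ (b : ℕ) (c : Fin n), Continuous fun y : Ix n → ℝ => (Ym 1 (Wy n y) ^ (2 * b)) c c :=
    fun b c => (continuous_apply c).comp ((continuous_apply c).comp
      ((continuous_Ym.comp continuous_Wy).pow _))
  refine continuous_const.add (continuous_finset_sum _ fun b _ => ?_)
  exact ((continuous_const.mul (h b _)).pow 8).add ((continuous_const.mul (h b _)).pow 8)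

/-- the eighth root -/
def Zr (Mx : ℕ) (p : Ix n) (y : Ix n → ℝ) : ℝ := Z8 Mx p y ^ (1 / 8 : ℝ)

lemma Zr_pow (Mx : ℕ) (p : Ix n) (y : Ix n → ℝ) : Zr Mx p y ^ 8 = Z8 Mx p y := by
  unfold Zr
  rw [← Real.rpow_natCast, ← Real.rpow_mul (by linarith [one_le_Z8 Mx p y])]
  norm_num

lemma one_le_Zr (Mx : ℕ) (p : Ix n) (y : Ix n → ℝ) : 1 ≤ Zr Mx p y :=
  Real.one_le_rpow (one_le_Z8 Mx p y) (by norm_num)

lemma Zr_pow_le (Mx : ℕ) (p : Ix n) (y : Ix n → ℝ) {k : ℕ} (hk : k ≤ 4) :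
    Zr Mx p y ^ k ≤ Real.sqrt (Z8 Mx p y) := by
  have h1 := one_le_Zr Mx p y
  refine (pow_le_pow_right₀ h1 hk).trans ?_
  apply Real.le_sqrt_of_sq_le
  rw [← pow_mul, Zr_pow]

lemma diag_le (Mx : ℕ) (p : Ix n) (y : Ix n → ℝ) {b : ℕ} (hb : b ≤ Mx) {c : Fin n}
    (hc : c = iA p ∨ c = iB p) :
    (Ym 1 (Wy n y) ^ (2 * b)) c c ≤ Zr Mx p y * (1 + (b : ℝ)) ^ (-(5 / 4) : ℝ) := by
  have hb0 : (0 : ℝ) < 1 + b := by positivity
  have hx : ((1 + (b : ℝ)) ^ (5 / 4 : ℝ) * (Ym 1 (Wy n y) ^ (2 * b)) c c) ^ 8 ≤ Zr Mx p y ^ 8 := by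
    rw [Zr_pow, Z8]
    have h1 := single_le_sum (f := fun b : ℕ =>
      (((1 + (b : ℝ)) ^ (5 / 4 : ℝ) * (Ym 1 (Wy n y) ^ (2 * b)) (iA p) (iA p)) ^ 8 +
      ((1 + (b : ℝ)) ^ (5 / 4 : ℝ) * (Ym 1 (Wy n y) ^ (2 * b)) (iB p) (iB p)) ^ 8))
      (s := range (Mx + 1)) (fun b _ => by positivity) (mem_range.2 (Nat.lt_succ_of_le hb))
    have hA : 0 ≤ ((1 + (b : ℝ)) ^ (5 / 4 : ℝ) * (Ym 1 (Wy n y) ^ (2 * b)) (iA p) (iA p)) ^ 8 := by
      positivity
    have hB : 0 ≤ ((1 + (b : ℝ)) ^ (5 / 4 : ℝ) * (Ym 1 (Wy n y) ^ (2 * b)) (iB p) (iB p)) ^ 8 := by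
      positivity
    rcases hc with rfl | rfl <;> linarith
  have hZ : 0 ≤ Zr Mx p y := by linarith [one_le_Zr Mx p y]
  have h2 : (1 + (b : ℝ)) ^ (5 / 4 : ℝ) * (Ym 1 (Wy n y) ^ (2 * b)) c c ≤ Zr Mx p y :=
    le_of_pow_le_pow_left₀ (by norm_num) hZ hx
  rw [Real.rpow_neg hb0.le, ← div_eq_mul_inv, le_div_iff₀ (Real.rpow_pos_of_pos hb0 _)]
  linarith

lemma sum_inv_sq_le (m : ℕ) : ∑ b ∈ range m, ((1 + (b : ℝ)) ^ 2)⁻¹ ≤ 2 - ((m : ℝ) + 1)⁻¹ * 2 := by
  induction m with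
  | zero => simp
  | succ m ih =>
    rw [sum_range_succ]
    have h0 : (0 : ℝ) ≤ m := Nat.cast_nonneg m
    have : ((1 + (m : ℝ)) ^ 2)⁻¹ ≤ ((m : ℝ) + 1)⁻¹ * 2 - (((m + 1 : ℕ) : ℝ) + 1)⁻¹ * 2 := by
      push_cast
      rw [← sub_nonneg]
      have e : ((m : ℝ) + 1)⁻¹ * 2 - ((m : ℝ) + 1 + 1)⁻¹ * 2 - ((1 + (m : ℝ)) ^ 2)⁻¹ =
          (m : ℝ) / (((m : ℝ) + 1) ^ 2 * ((m : ℝ) + 2)) := by
        field_simp; ring
      rw [e]; positivity
    linarith

lemma term_eq (b : ℕ) (Cm : ℝ) : ((1 + (b : ℝ)) ^ (5 / 4 : ℝ)) ^ 8 *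
    (Cm * (1 + (b : ℝ)) ^ (-(3 / 2) : ℝ)) ^ 8 = Cm ^ 8 * ((1 + (b : ℝ)) ^ 2)⁻¹ := by
  have hb0 : (0 : ℝ) < 1 + b := by positivity
  rw [mul_pow, ← Real.rpow_natCast, ← Real.rpow_natCast ((1 + (b : ℝ)) ^ (-(3 / 2) : ℝ)),
    ← Real.rpow_mul hb0.le, ← Real.rpow_mul hb0.le, mul_left_comm, ← Real.rpow_add hb0,
    ← Real.rpow_natCast (1 + (b : ℝ)) 2, ← Real.rpow_neg hb0.le]
  norm_num

lemma integral_Z8_le (Mx : ℕ) (p : Ix n) (ξ : Measure (Ix n → ℝ)) [IsProbabilityMeasure ξ]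
    (Cm : ℝ)
    (h : ∀ b ≤ Mx, ∀ c : Fin n,
      Integrable (fun y => ((Ym 1 (Wy n y) ^ (2 * b)) c c) ^ 8) ξ ∧
      ∫ y, ((Ym 1 (Wy n y) ^ (2 * b)) c c) ^ 8 ∂ξ ≤ (Cm * (1 + (b : ℝ)) ^ (-(3 / 2) : ℝ)) ^ 8) :
    Integrable (Z8 Mx p) ξ ∧ ∫ y, Z8 Mx p y ∂ξ ≤ 1 + 4 * Cm ^ 8 := by
  have hi : ∀ b ∈ range (Mx + 1), ∀ c : Fin n, Integrable (fun y =>
      ((1 + (b : ℝ)) ^ (5 / 4 : ℝ) * (Ym 1 (Wy n y) ^ (2 * b)) c c) ^ 8) ξ := by
    intro b hb c
    simp only [mul_pow]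
    exact (h b (Nat.lt_succ_iff.1 (mem_range.1 hb)) c).1.const_mul _
  have hle : ∀ b ∈ range (Mx + 1), ∀ c : Fin n, ∫ y,
      ((1 + (b : ℝ)) ^ (5 / 4 : ℝ) * (Ym 1 (Wy n y) ^ (2 * b)) c c) ^ 8 ∂ξ ≤
      Cm ^ 8 * ((1 + (b : ℝ)) ^ 2)⁻¹ := by
    intro b hb c
    simp only [mul_pow]
    rw [integral_const_mul, ← term_eq]
    exact mul_le_mul_of_nonneg_left (h b (Nat.lt_succ_iff.1 (mem_range.1 hb)) c).2 (by positivity)
  have hi2 : ∀ b ∈ range (Mx + 1), Integrable (fun y =>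
    (((1 + (b : ℝ)) ^ (5 / 4 : ℝ) * (Ym 1 (Wy n y) ^ (2 * b)) (iA p) (iA p)) ^ 8 +
      ((1 + (b : ℝ)) ^ (5 / 4 : ℝ) * (Ym 1 (Wy n y) ^ (2 * b)) (iB p) (iB p)) ^ 8)) ξ :=
    fun b hb => (hi b hb _).add (hi b hb _)
  have hs : Integrable (fun y => ∑ b ∈ range (Mx + 1),
    (((1 + (b : ℝ)) ^ (5 / 4 : ℝ) * (Ym 1 (Wy n y) ^ (2 * b)) (iA p) (iA p)) ^ 8 +
      ((1 + (b : ℝ)) ^ (5 / 4 : ℝ) * (Ym 1 (Wy n y) ^ (2 * b)) (iB p) (iB p)) ^ 8)) ξ :=
    integrable_finset_sum _ hi2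
  refine ⟨(integrable_const _).add hs, ?_⟩
  unfold Z8
  rw [integral_add (integrable_const _) hs, integral_finset_sum _ hi2]
  have h1 : ∑ b ∈ range (Mx + 1), ∫ y,
      (((1 + (b : ℝ)) ^ (5 / 4 : ℝ) * (Ym 1 (Wy n y) ^ (2 * b)) (iA p) (iA p)) ^ 8 +
      ((1 + (b : ℝ)) ^ (5 / 4 : ℝ) * (Ym 1 (Wy n y) ^ (2 * b)) (iB p) (iB p)) ^ 8) ∂ξ ≤
      ∑ b ∈ range (Mx + 1), 2 * Cm ^ 8 * ((1 + (b : ℝ)) ^ 2)⁻¹ := by
    refine sum_le_sum fun b hb => ?_
    rw [integral_add (hi b hb _) (hi b hb _)]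
    linarith [hle b hb (iA p), hle b hb (iB p)]
  rw [← mul_sum] at h1
  have h2 := sum_inv_sq_le (Mx + 1)
  have h3 : 0 ≤ ((((Mx + 1 : ℕ) : ℝ)) + 1)⁻¹ * 2 := by positivity
  have h4 : 0 ≤ Cm ^ 8 := by positivity
  have h5 : 2 * Cm ^ 8 * ∑ b ∈ range (Mx + 1), ((1 + (b : ℝ)) ^ 2)⁻¹ ≤ 2 * Cm ^ 8 * 2 :=
    mul_le_mul_of_nonneg_left (by linarith) (by positivity)
  simp only [integral_const, probReal_univ, smul_eq_mul, one_mul]
  linarith

/-- order of the matched moments -/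
def kk : Ix n → ℕ := Sum.elim (fun _ => 4) fun _ => 2

lemma card_pair_le : (Fintype.card (Pair n) : ℝ) ≤ (n : ℝ) ^ 2 := by
  have : Fintype.card (Pair n) ≤ Fintype.card (Fin n × Fin n) := Fintype.card_subtype_le _
  rw [Fintype.card_prod, Fintype.card_fin] at this
  rw [sq]; exact_mod_cast this

lemma sum_pow_kk (hn : 1 ≤ n) {w : ℝ} (hw0 : 0 ≤ w) (hw1 : w ≤ 1) :
    ∑ p : Ix n, (1 / Real.sqrt n * w) ^ kk p ≤ 2 * w := by
  have hn0 : (0 : ℝ) < n := by exact_mod_cast hn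
  have e2 : (1 / Real.sqrt n) ^ 2 = 1 / (n : ℝ) := by
    rw [div_pow, Real.sq_sqrt hn0.le, one_pow]
  have e4 : (1 / Real.sqrt n) ^ 4 = 1 / (n : ℝ) ^ 2 := by
    rw [show (4 : ℕ) = 2 * 2 from rfl, pow_mul, e2, div_pow, one_pow]
  rw [Fintype.sum_sum_type]
  simp only [kk, Sum.elim_inl, Sum.elim_inr, sum_const, card_univ, Fintype.card_fin, nsmul_eq_mul,
    mul_pow, e2, e4]
  have h4 : w ^ 4 ≤ w := pow_le_of_le_one hw0 hw1 (by norm_num)
  have h2 : w ^ 2 ≤ w := pow_le_of_le_one hw0 hw1 (by norm_num)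
  have a1 : (Fintype.card (Pair n) : ℝ) * (1 / (n : ℝ) ^ 2 * w ^ 4) ≤ w ^ 4 := by
    calc (Fintype.card (Pair n) : ℝ) * (1 / (n : ℝ) ^ 2 * w ^ 4)
        ≤ (n : ℝ) ^ 2 * (1 / (n : ℝ) ^ 2 * w ^ 4) :=
          mul_le_mul_of_nonneg_right card_pair_le (by positivity)
      _ = w ^ 4 := by field_simp
  have a2 : (n : ℝ) * (1 / (n : ℝ) * w ^ 2) = w ^ 2 := by field_simp
  linarith

lemma tendsto_tau : Tendsto tau atTop atTop :=
  (tendsto_rpow_atTop (by norm_num : (0 : ℝ) < 2 / 3)).comp tendsto_natCast_atTop_atTop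

/-- the small factor -/
def ww (n : ℕ) : ℝ := ((2 * ⌈tau n⌉₊ : ℕ) : ℝ) ^ (-(1 / 16) : ℝ)

lemma tendsto_ww : Tendsto ww atTop (𝓝 0) := by
  refine (tendsto_rpow_neg_atTop (by norm_num : (0 : ℝ) < 1 / 16)).comp ?_
  refine tendsto_atTop_mono (fun n => ?_) tendsto_tau
  have := Nat.le_ceil (tau n)
  have h0 : (0 : ℝ) ≤ (⌈tau n⌉₊ : ℝ) := Nat.cast_nonneg _
  push_cast; linarith

end Sw50

open Sw50 in
theorem swapGlue : SwapGlue := by
  intro hL hMb hDer hLind r G C hG hC b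
  obtain ⟨hL1, hL2, hL3, hL4, -, hL6⟩ := hL
  obtain ⟨Cm, hCm, hMb⟩ := hMb 8 (4 * (r + 1))
  obtain ⟨Cd, hCd, hDer⟩ := hDer
  obtain ⟨Cl, hCl, hLind⟩ := hLind
  have hC0 : 0 ≤ C := (norm_nonneg _).trans (hC 0 (by norm_num) 0)
  set K : ℝ := 24 * (C + 1) * (Cd + 1) ^ 4 with hK
  have hK0 : 0 < K := by positivity
  set S : ℝ := Real.sqrt (1 + 4 * Cm ^ 8) with hS
  have hS0 : 0 < S := Real.sqrt_pos.2 (by positivity)
  have hlim : Tendsto (fun n => Cl * (K * S * (2 * ww n))) atTop (𝓝 0) := by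
    have := ((tendsto_ww.const_mul 2).const_mul (K * S)).const_mul Cl
    simpa using this
  refine squeeze_zero_norm' ?_ hlim
  filter_upwards [hMb, tendsto_tau.eventually_ge_atTop 1, eventually_ge_atTop 1] with n hM hτ hn
  have hn0 : (0 : ℝ) < n := by exact_mod_cast hn
  set N : ℕ := 2 * ⌈tau n⌉₊ with hN
  have hN1 : 1 ≤ N := by
    have : 0 < ⌈tau n⌉₊ := Nat.ceil_pos.2 (by linarith)
    omega
  have hN1' : (1 : ℝ) ≤ N := by exact_mod_cast hN1
  have hN4 : (N : ℝ) ≤ 4 * tau n := by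
    have := (Nat.ceil_lt_add_one (by linarith : 0 ≤ tau n)).le
    rw [hN]; push_cast; linarith
  have hw0 : 0 < ww n := Real.rpow_pos_of_pos (by rw [← hN]; linarith) _
  have hw1 : ww n ≤ 1 := Real.rpow_le_one_of_one_le_of_nonpos (by rw [← hN]; exact hN1')
    (by norm_num)
  have hw4 : ww n ^ 4 = (N : ℝ) ^ (-(1 / 4) : ℝ) := by
    unfold ww
    rw [← hN, ← Real.rpow_natCast, ← Real.rpow_mul (by linarith)]
    norm_num
  set Mx : ℕ := (r + 1) * N with hMx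
  have hMxT : (Mx : ℝ) ≤ 4 * (r + 1) * tau n := by
    rw [hMx]; push_cast
    have : (0 : ℝ) ≤ r + 1 := by positivity
    nlinarith
  set e : ℝ := 1 / Real.sqrt n with he
  have he0 : 0 < e := by have := Real.sqrt_pos.2 hn0; positivity
  have hcG : Continuous fun W : Mat n => G (ptr n r W) := hG.continuous.comp (continuous_ptr r)
  have hcF : Continuous fun y : Ix n → ℝ => G (ptr n r (Wy n y)) := hcG.comp continuous_Wy
  have e1 : ∫ g, G (ptr n r (Jmat n g)) ∂couplingLaw b n =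
      ∫ y, G (ptr n r (Wy n y)) ∂Measure.pi (lawJ b n) := by
    rw [← integral_map (f := fun W : Mat n => G (ptr n r W))
        continuous_Jmat.measurable.aemeasurable hcG.aestronglyMeasurable, ← hL2,
      integral_map continuous_Wy.measurable.aemeasurable hcG.aestronglyMeasurable]
  have e2 : ∫ W, G (ptr n r W) ∂GOE n =
      ∫ y, G (ptr n r (Wy n y)) ∂Measure.pi fun _ : Ix n => gaussianReal 0 1 := by
    rw [← hL1, integral_map continuous_Wy.measurable.aemeasurable hcG.aestronglyMeasurable]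
  have hk : ∀ p : Ix n, 1 ≤ kk p ∧ kk p ≤ 4 := by
    rintro (p | p) <;> simp [kk]
  have hshift : ∀ (p : Ix n) (y : Ix n → ℝ),
      (fun t => G (ptr n r (Wy n (Function.update y p t)))) =
      fun t => (fun s : ℝ => G fun j : Fin r =>
        ((Ym 1 (Wy n y) + s • Ed p) ^ (((j : ℕ) + 2) * N)).trace) (t - y p) := by
    intro p y
    funext t
    show G _ = G _
    congr 1
    funext j
    simp only [ptr, Ym_update, hN]
  have hcd : ∀ (p : Ix n) (y : Ix n → ℝ), ContDiff ℝ 4 fun s : ℝ => G fun j : Fin r =>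
      ((Ym 1 (Wy n y) + s • Ed p) ^ (((j : ℕ) + 2) * N)).trace := fun p y =>
    hG.comp (contDiff_pi.2 fun j => contDiff_trace _ _ _)
  have main := hLind (Ix n) (lawJ b n) (fun _ => gaussianReal 0 1) (hL4 b n) (fun _ => hL3)
    (fun y => G (ptr n r (Wy n y))) C kk
    (fun p y => K * (e * ww n) ^ kk p * Real.sqrt (Z8 Mx p y))
    (fun p => K * S * (e * ww n) ^ kk p) hcF.measurable
    (fun y => by simpa using hC 0 (by norm_num) (ptr n r (Wy n y))) hk ?_ ?_ ?_ ?_ ?_ ?_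
  · rw [e1, e2, Real.norm_eq_abs]
    refine main.trans (mul_le_mul_of_nonneg_left ?_ hCl)
    rw [← mul_sum]
    exact mul_le_mul_of_nonneg_left (sum_pow_kk hn hw0.le hw1) (by positivity)
  · rintro (p | p) i hi
    · exact hL6 b i hi
    · simp only [kk, Sum.elim_inr] at hi
      simp only [lawJ, Sum.elim_inr, integral_dirac]
      interval_cases i
      · simp
      · simp [integral_id_gaussianReal]
  · intro p y
    rw [hshift]
    exact (hcd p y).comp (contDiff_id.sub contDiff_const)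
  · intro p
    exact (continuous_const.mul (continuous_Z8 Mx p).sqrt).measurable
  · intro p y
    have hsh := congrFun (iteratedDeriv_comp_sub_const (n := kk p) (f := fun s : ℝ => G fun j : Fin r =>
        ((Ym 1 (Wy n y) + s • Ed p) ^ (((j : ℕ) + 2) * N)).trace) (s := y p)) (y p)
    rw [sub_self] at hsh
    rw [hshift, hsh]
    have hZ1 := one_le_Zr Mx p y
    have hb := comp_bound hG hC (fun (j : Fin r) (s : ℝ) =>
        ((Ym 1 (Wy n y) + s • Ed p) ^ (((j : ℕ) + 2) * N)).trace)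
      (fun j => contDiff_trace _ _ _) (D := Cd * e * Zr Mx p y * ww n) (by positivity)
      (fun j i hi1 hi4 => by
        have hM1 : N ≤ ((j : ℕ) + 2) * N := Nat.le_mul_of_pos_left _ (by omega)
        have hM2 : ((j : ℕ) + 2) * N ≤ Mx := Nat.mul_le_mul_right _ (by omega)
        have h := hDer n (Ym 1 (Wy n y)) (Ed p) (iA p) (iB p) e (Zr Mx p y) (((j : ℕ) + 2) * N) i
          (Ym_symm y) (Ed_supp p) (Ed_le p) (hN1.trans hM1) hi1 hi4
          (fun b hb c hc => diag_le Mx p y (hb.trans hM2) hc)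
        refine h.trans ?_
        rw [mul_pow _ (ww n)]
        refine mul_le_mul_of_nonneg_left ?_ (by positivity)
        calc ((((j : ℕ) + 2) * N : ℕ) : ℝ) ^ (-(1 / 4) : ℝ) ≤ (N : ℝ) ^ (-(1 / 4) : ℝ) :=
              Real.rpow_le_rpow_of_nonpos (by linarith) (by exact_mod_cast hM1) (by norm_num)
          _ = ww n ^ 4 := hw4.symm
          _ ≤ ww n ^ i := pow_le_pow_of_le_one hw0.le hw1 hi4) (kk p) (hk p).2
    refine hb.trans ?_
    have h1 : Cd ^ kk p ≤ (Cd + 1) ^ 4 :=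
      (pow_le_pow_left₀ hCd (by linarith) _).trans (pow_le_pow_right₀ (by linarith) (hk p).2)
    have h2 := Zr_pow_le Mx p y (hk p).2
    calc 24 * C * (Cd * e * Zr Mx p y * ww n) ^ kk p
        = 24 * C * Cd ^ kk p * (e * ww n) ^ kk p * Zr Mx p y ^ kk p := by
          simp only [mul_pow]; ring
      _ ≤ 24 * (C + 1) * (Cd + 1) ^ 4 * (e * ww n) ^ kk p * Real.sqrt (Z8 Mx p y) := by
          gcongr
          linarith
  · intro p; positivity
  · intro p ξ _ hξ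
    obtain ⟨hi, hle⟩ := integral_Z8_le Mx p (Measure.pi ξ) Cm (fun a ha c => by
      have h := (hM ξ hξ 1 (by simp) a (le_trans (by exact_mod_cast ha) hMxT)).1
        (Pi.single c 1) (by simp)
      simpa [mulVec_single_one, single_one_dotProduct] using h)
    have hZ0 : ∀ y, 0 ≤ Z8 Mx p y := fun y => by linarith [one_le_Z8 Mx p y]
    have e3 : ∀ y, (K * (e * ww n) ^ kk p * Real.sqrt (Z8 Mx p y)) ^ 2 =
        (K * (e * ww n) ^ kk p) ^ 2 * Z8 Mx p y := fun y => by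
      rw [mul_pow, Real.sq_sqrt (hZ0 y)]
    simp only [e3]
    rw [← ofReal_integral_eq_lintegral_ofReal (hi.const_mul _)
      (Eventually.of_forall fun y => mul_nonneg (sq_nonneg _) (hZ0 y)), integral_const_mul]
    refine ENNReal.ofReal_le_ofReal ?_
    have e4 : (K * S * (e * ww n) ^ kk p) ^ 2 = (K * (e * ww n) ^ kk p) ^ 2 * (1 + 4 * Cm ^ 8) := by
      rw [← Real.sq_sqrt (by positivity : 0 ≤ 1 + 4 * Cm ^ 8), ← hS]; ring
    rw [e4]
    exact mul_le_mul_of_nonneg_left hle (sq_nonneg _)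

end Crest.Agent.T157.Ed

end
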