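import Crest.Agent.T157.EdDef_88
import Crest.Agent.T157.EigN_84
import Crest.Agent.T157.Weak_90

/-!
# Row 157, part E: universality of the edge from the universality of the power sums (helper25)

`univGlue : Ed.UnivGlue`.
-/

set_option autoImplicit false

noncomputable section

namespace Crest.Agent.T157.EdUniv

open MeasureTheory ProbabilityTheory Matrix Filter Topology Finset
open Crest.ProbabilityR.SpinGlassDynamics Crest.Agent.T157.E Crest.Agent.T157.Eig
open Crest.Agent.T157.Cond Crest.Agent.T157.Ed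

/-! ### one real variable -/

/-- clipping to `[-S, S]` -/
def clip (S t : ℝ) : ℝ := min (max t (-S)) S

/-- clipped `-2 log` -/
def hl (S x : ℝ) : ℝ := -2 * Real.log (max (min x (Real.exp (S / 2))) (Real.exp (-S / 2)))

/-- the `N`-th power of the positive part of `1 - L / (4 τ)` -/
def xp (τ : ℝ) (N : ℕ) (L : ℝ) : ℝ := max (1 - L / (4 * τ)) 0 ^ N

lemma continuous_hl (S : ℝ) : Continuous (hl S) := by
  unfold hl
  refine continuous_const.mul (Continuous.log (by fun_prop) fun x => ?_)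
  exact (lt_of_lt_of_le (Real.exp_pos _) (le_max_right _ _)).ne'

lemma hl_anti (S : ℝ) : Antitone (hl S) := by
  intro x y hxy
  unfold hl
  have h : Real.log (max (min x (Real.exp (S / 2))) (Real.exp (-S / 2))) ≤
      Real.log (max (min y (Real.exp (S / 2))) (Real.exp (-S / 2))) :=
    Real.log_le_log (lt_of_lt_of_le (Real.exp_pos _) (le_max_right _ _))
      (max_le_max (min_le_min hxy le_rfl) le_rfl)
  linarith

lemma hl_exp (S t : ℝ) : hl S (Real.exp (-t / 2)) = clip S t := by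
  unfold hl clip
  rw [← Real.exp_monotone.map_min, ← Real.exp_monotone.map_max, Real.log_exp]
  simp only [min_def, max_def]
  split_ifs <;> linarith

lemma hl_le (S x : ℝ) : hl S x ≤ S := by
  unfold hl
  have h : Real.log (Real.exp (-S / 2)) ≤
      Real.log (max (min x (Real.exp (S / 2))) (Real.exp (-S / 2))) :=
    Real.log_le_log (Real.exp_pos _) (le_max_right _ _)
  rw [Real.log_exp] at h
  linarith

lemma le_hl {S : ℝ} (hS : 0 ≤ S) (x : ℝ) : -S ≤ hl S x := by
  unfold hl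
  have h : Real.log (max (min x (Real.exp (S / 2))) (Real.exp (-S / 2))) ≤
      Real.log (Real.exp (S / 2)) :=
    Real.log_le_log (lt_of_lt_of_le (Real.exp_pos _) (le_max_right _ _))
      (max_le (min_le_right _ _) (Real.exp_le_exp.2 (by linarith)))
  rw [Real.log_exp] at h
  linarith

lemma abs_clip_sub_le (S s t : ℝ) : |clip S s - clip S t| ≤ |s - t| := by
  unfold clip
  exact (abs_min_sub_min_le_max _ _ _ _).trans
    (max_le (abs_max_sub_max_le_abs _ _ _) (by simp))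

lemma clip_of_mem {S t : ℝ} (h : |t| ≤ S) : clip S t = t := by
  rw [abs_le] at h
  unfold clip
  rw [max_eq_left h.1, min_eq_left h.2]


lemma xp_anti {τ : ℝ} (hτ : 0 < τ) (N : ℕ) : Antitone (xp τ N) := by
  intro L L' h
  unfold xp
  refine pow_le_pow_left₀ (le_max_right _ _) (max_le_max ?_ le_rfl) _
  have : L / (4 * τ) ≤ L' / (4 * τ) := by gcongr
  linarith

lemma hl_xp_mem {S τ : ℝ} {a : ℕ} (hS : 0 < S) (hτ1 : 1 ≤ τ) (hτ : S ≤ τ) (ha : τ ≤ a)
    (ha' : (a : ℝ) ≤ τ + 1) {L : ℝ} (hL : |L| ≤ S) :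
    |hl S (xp τ (2 * a) L) - L| ≤ (S + S ^ 2) / τ := by
  have hτ0 : 0 < τ := by linarith
  set u := L / (4 * τ) with hu
  have hua : |u| ≤ S / (4 * τ) := by
    rw [hu, abs_div, abs_of_pos (by positivity : 0 < 4 * τ)]
    gcongr
  have hu4 : |u| ≤ 1 / 4 := by
    refine hua.trans ?_
    rw [div_le_div_iff₀ (by positivity) (by norm_num)]
    linarith
  have hu' := abs_le.1 hu4
  have hpos : 0 < 1 - u := by linarith [hu'.2]
  have hx : xp τ (2 * a) L = Real.exp (-(-(4 * a) * Real.log (1 - u)) / 2) := by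
    unfold xp
    rw [← hu, max_eq_left hpos.le]
    conv_lhs => rw [← Real.exp_log hpos, ← Real.exp_nat_mul]
    congr 1
    push_cast
    ring
  rw [hx, hl_exp]
  have h1 : |u + Real.log (1 - u)| ≤ 4 / 3 * u ^ 2 := by
    have h := Real.abs_log_sub_add_sum_range_le (x := u) (by linarith) 1
    simp only [range_one, sum_singleton, zero_add, pow_one, Nat.cast_zero, div_one] at h
    refine h.trans ?_
    rw [div_le_iff₀ (by linarith)]
    have : |u| ^ (1 + 1) = u ^ 2 := sq_abs u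
    rw [this]
    nlinarith [sq_nonneg u]
  have h2 : |-(4 * a) * Real.log (1 - u) - L| ≤ (S + S ^ 2) / τ := by
    have e : -(4 * a) * Real.log (1 - u) - L =
        -(4 * a) * (u + Real.log (1 - u)) + (a - τ) / τ * L := by
      rw [hu]; field_simp; ring
    rw [e]
    refine (abs_add_le _ _).trans ?_
    have ha0 : (0 : ℝ) ≤ a := Nat.cast_nonneg a
    have h3 : |-(4 * a) * (u + Real.log (1 - u))| ≤ S ^ 2 / τ := by
      rw [abs_mul, abs_neg, abs_of_nonneg (by positivity : (0 : ℝ) ≤ 4 * a)]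
      have h4 : u ^ 2 ≤ (S / (4 * τ)) ^ 2 := by
        rw [← sq_abs]; exact pow_le_pow_left₀ (abs_nonneg _) hua 2
      calc 4 * a * |u + Real.log (1 - u)| ≤ 4 * (2 * τ) * (4 / 3 * (S / (4 * τ)) ^ 2) := by
            gcongr
            · linarith
            · exact h1.trans (by linarith)
        _ = 2 / 3 * (S ^ 2 / τ) := by field_simp
        _ ≤ S ^ 2 / τ := by
            have : 0 ≤ S ^ 2 / τ := by positivity
            linarith
    have h5 : |(a - τ) / τ * L| ≤ S / τ := by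
      rw [abs_mul, abs_div, abs_of_pos hτ0, abs_of_nonneg (by linarith : (0 : ℝ) ≤ a - τ)]
      calc (a - τ) / τ * |L| ≤ 1 / τ * S := by
            gcongr
            linarith
        _ = S / τ := by ring
    rw [add_div]
    linarith
  conv_lhs => rw [← clip_of_mem hL]
  have := abs_clip_sub_le S (-(4 * a) * Real.log (1 - u)) L
  rw [clip_of_mem hL] at this ⊢
  exact this.trans h2

lemma hl_xp {S τ : ℝ} {a : ℕ} (hS : 0 < S) (hτ1 : 1 ≤ τ) (hτ : S ≤ τ) (ha : τ ≤ a)
    (ha' : (a : ℝ) ≤ τ + 1) (L : ℝ) :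
    |hl S (xp τ (2 * a) L) - clip S L| ≤ (S + S ^ 2) / τ := by
  have hτ0 : 0 < τ := by linarith
  have hd : 0 ≤ (S + S ^ 2) / τ := by positivity
  have hm : Monotone fun L => hl S (xp τ (2 * a) L) := (hl_anti S).comp (xp_anti hτ0 _)
  rcases le_total L (-S) with h | h
  · have h1 := abs_le.1 (hl_xp_mem hS hτ1 hτ ha ha' (L := -S) (by rw [abs_neg, abs_of_pos hS]))
    have h2 := hm h
    have h3 := le_hl hS.le (xp τ (2 * a) L)
    have : clip S L = -S := by unfold clip; rw [max_eq_right h, min_eq_left (by linarith)]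
    rw [this, abs_le]
    dsimp only at h2
    constructor <;> linarith [h1.2]
  rcases le_total L S with h' | h'
  · have hL : |L| ≤ S := abs_le.2 ⟨h, h'⟩
    rw [clip_of_mem hL]
    exact hl_xp_mem hS hτ1 hτ ha ha' hL
  · have h1 := abs_le.1 (hl_xp_mem hS hτ1 hτ ha ha' (L := S) (by rw [abs_of_pos hS]))
    have h2 := hm h'
    have h3 := hl_le S (xp τ (2 * a) L)
    have : clip S L = S := by unfold clip; rw [max_eq_left h, min_eq_right h']
    rw [this, abs_le]
    dsimp only at h2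
    constructor <;> linarith [h1.1]

/-- a compactly supported function does not see the clipping -/
lemma exists_clip {K : ℕ} {F : (Fin K → ℝ) → ℝ} (hF : HasCompactSupport F) :
    ∃ S : ℝ, 0 < S ∧ ∀ v, F (fun k => clip S (v k)) = F v := by
  obtain ⟨R, hR0, hR⟩ := hF.exists_pos_le_norm
  refine ⟨R, hR0, fun v => ?_⟩
  by_cases h : ∀ k, |v k| ≤ R
  · congr 1
    funext k
    exact clip_of_mem (h k)
  · push Not at h
    obtain ⟨k, hk⟩ := h
    have h1 : R ≤ ‖v‖ := hk.le.trans (norm_le_pi_norm v k)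
    have h2 : R ≤ ‖fun k => clip R (v k)‖ := by
      refine le_trans ?_ (norm_le_pi_norm (fun k => clip R (v k)) k)
      rw [Real.norm_eq_abs]
      unfold clip
      rcases lt_abs.1 hk with h | h
      · rw [max_eq_left (by linarith), min_eq_right h.le, abs_of_pos hR0]
      · rw [max_eq_right (by linarith), min_eq_left (by linarith), abs_neg, abs_of_pos hR0]
    rw [hR _ h1, hR _ h2]

/-! ### traces -/

lemma trace_Ym_pow {n : ℕ} {W : Mat n} (hW : W.IsHermitian) (σ : ℝ) (p : ℕ) :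
    (Ym σ W ^ p).trace = ∑ k ∈ range n, ((2 + σ * lam W k) / 4) ^ p := by
  rw [trace_eq_sum_quad hW, Fintype.card_fin]
  refine sum_congr rfl fun k hk => ?_
  have h1 : Ym σ W *ᵥ vec W k = ((2 + σ * lam W k) / 4) • vec W k := by
    rw [Ym, smul_mulVec, add_mulVec, smul_mulVec, smul_mulVec, one_mulVec, mulVec_vec hW,
      smul_smul, ← add_smul, smul_smul]
    congr 1
    ring
  have h2 : ∀ q : ℕ, (Ym σ W ^ q) *ᵥ vec W k = ((2 + σ * lam W k) / 4) ^ q • vec W k := by
    intro q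
    induction q with
    | zero => simp
    | succ q ih => rw [pow_succ, ← mulVec_mulVec, h1, mulVec_smul, ih, smul_smul, pow_succ']
  rw [h2, dotProduct_smul, vec_dot_self hW (by simpa using hk), smul_eq_mul, mul_one]

lemma trace_Ym_nonneg {n : ℕ} {W : Mat n} (hW : W.IsHermitian) (σ : ℝ) (a : ℕ) :
    0 ≤ (Ym σ W ^ (2 * a)).trace := by
  rw [trace_Ym_pow hW]
  exact sum_nonneg fun k _ => (even_two_mul a).pow_nonneg _

/-- the point of the simplex attached to a matrix -/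
def xs (n : ℕ) (W : Mat n) (k : ℕ) : ℝ :=
  if k < n then max ((2 + lam W k) / 4) 0 ^ (2 * ⌈tau n⌉₊) else 0

lemma xs_nonneg (n : ℕ) (W : Mat n) (k : ℕ) : 0 ≤ xs n W k := by
  unfold xs
  split_ifs
  · exact pow_nonneg (le_max_right _ _) _
  · exact le_rfl

lemma xs_anti {n : ℕ} {W : Mat n} (hW : W.IsHermitian) : Antitone (xs n W) := by
  intro k l hkl
  by_cases hl : l < n
  · unfold xs
    rw [if_pos hl, if_pos (lt_of_le_of_lt hkl hl)]
    refine pow_le_pow_left₀ (le_max_right _ _) (max_le_max ?_ le_rfl) _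
    have := lam_anti hW hkl (by simpa using hl)
    linarith
  · have : xs n W l = 0 := by unfold xs; rw [if_neg hl]
    rw [this]
    exact xs_nonneg n W k

lemma xs_eq_xp {n : ℕ} (hτ : 0 < tau n) (W : Mat n) {k : ℕ} (hk : k < n) :
    xs n W k = xp (tau n) (2 * ⌈tau n⌉₊) (Lam n W k) := by
  unfold xs xp Lam
  rw [if_pos hk]
  congr 2
  field_simp
  ring

lemma sum_xs_le {n : ℕ} {W : Mat n} (hW : W.IsHermitian) :
    ∑ k ∈ range n, xs n W k ≤ (Ym 1 W ^ (2 * ⌈tau n⌉₊)).trace := by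
  rw [trace_Ym_pow hW]
  refine sum_le_sum fun k hk => ?_
  unfold xs
  rw [if_pos (mem_range.1 hk), one_mul, ← (even_two_mul ⌈tau n⌉₊).pow_abs ((2 + lam W k) / 4)]
  exact pow_le_pow_left₀ (le_max_right _ _) (max_le (le_abs_self _) (abs_nonneg _)) _

lemma sum_xs_pow {n : ℕ} {W : Mat n} (hW : W.IsHermitian) (ha : 1 ≤ ⌈tau n⌉₊)
    (h : (Ym (-1) W ^ (2 * ⌈tau n⌉₊)).trace < (5 / 4 : ℝ) ^ (2 * ⌈tau n⌉₊)) (j : ℕ) :
    |∑ k ∈ range n, xs n W k ^ (j + 2) - (Ym 1 W ^ ((j + 2) * (2 * ⌈tau n⌉₊))).trace| ≤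
      n * (1 / 4 : ℝ) ^ (2 * ⌈tau n⌉₊) := by
  set N := 2 * ⌈tau n⌉₊ with hN
  rw [trace_Ym_pow hW] at h ⊢
  rw [← sum_sub_distrib]
  refine (abs_sum_le_sum_abs _ _).trans ?_
  have key : ∀ k ∈ range n, |xs n W k ^ (j + 2) - ((2 + 1 * lam W k) / 4) ^ ((j + 2) * N)| ≤
      (1 / 4 : ℝ) ^ N := by
    intro k hk
    have h1 : ((2 + -1 * lam W k) / 4) ^ N < (5 / 4 : ℝ) ^ N :=
      lt_of_le_of_lt (single_le_sum (f := fun k => ((2 + -1 * lam W k) / 4) ^ N)
        (fun k _ => (even_two_mul _).pow_nonneg _) hk) h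
    have h2 : (2 + -1 * lam W k) / 4 < 5 / 4 := lt_of_pow_lt_pow_left₀ N (by norm_num) h1
    unfold xs
    rw [if_pos (mem_range.1 hk), one_mul, ← hN, ← pow_mul, mul_comm N]
    rcases le_total 0 ((2 + lam W k) / 4) with h3 | h3
    · rw [max_eq_left h3, sub_self, abs_zero]; positivity
    · rw [max_eq_right h3, zero_pow (by positivity), zero_sub, abs_neg, abs_pow]
      calc |(2 + lam W k) / 4| ^ ((j + 2) * N) ≤ (1 / 4 : ℝ) ^ ((j + 2) * N) := by
            refine pow_le_pow_left₀ (abs_nonneg _) ?_ _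
            rw [abs_of_nonpos h3]; linarith
        _ ≤ (1 / 4 : ℝ) ^ N :=
            pow_le_pow_of_le_one (by norm_num) (by norm_num) (by nlinarith)
  simpa using sum_le_card_nsmul _ _ _ key

/-! ### asymptotics -/

lemma tendsto_tau : Tendsto tau atTop atTop :=
  (tendsto_rpow_atTop (by norm_num)).comp tendsto_natCast_atTop_atTop

lemma tau_pow (n : ℕ) : tau n ^ (3 / 2 : ℝ) = n := by
  unfold tau
  rw [← Real.rpow_mul (Nat.cast_nonneg n)]
  norm_num

lemma tendsto_ceil : Tendsto (fun n => ⌈tau n⌉₊) atTop atTop :=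
  tendsto_nat_ceil_atTop.comp tendsto_tau

lemma tendsto_small : Tendsto (fun n : ℕ => n * (1 / 4 : ℝ) ^ (2 * ⌈tau n⌉₊)) atTop (𝓝 0) := by
  have h := (tendsto_pow_const_mul_const_pow_of_abs_lt_one 2
    (r := (1 / 16 : ℝ)) (by rw [abs_of_pos] <;> norm_num)).comp tendsto_ceil
  refine squeeze_zero' (Eventually.of_forall fun n => by positivity) ?_ h
  filter_upwards [tendsto_tau.eventually_ge_atTop 1] with n hn
  simp only [Function.comp]
  rw [pow_mul, show (1 / 4 : ℝ) ^ 2 = 1 / 16 by norm_num]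
  refine mul_le_mul_of_nonneg_right ?_ (by positivity)
  calc (n : ℝ) = tau n ^ (3 / 2 : ℝ) := (tau_pow n).symm
    _ ≤ tau n ^ (2 : ℝ) := Real.rpow_le_rpow_of_exponent_le hn (by norm_num)
    _ = tau n ^ 2 := Real.rpow_two _
    _ ≤ (⌈tau n⌉₊ : ℝ) ^ 2 := pow_le_pow_left₀ (by linarith) (Nat.le_ceil _) 2

lemma tendsto_big : Tendsto (fun n : ℕ => (5 / 4 : ℝ) ^ (2 * ⌈tau n⌉₊)) atTop atTop :=
  (tendsto_pow_atTop_atTop_of_one_lt (by norm_num)).comp
    (tendsto_atTop_mono (fun n => by omega) tendsto_ceil)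

/-! ### the deterministic approximation -/

lemma det_approx (hSw : SwStmt) {K : ℕ} {F : (Fin K → ℝ) → ℝ} (hF : Continuous F)
    (hc : HasCompactSupport F) {B : ℝ} (hB : ∀ x, |F x| ≤ B) (M : ℝ) {ε : ℝ} (hε : 0 < ε) :
    ∃ (r : ℕ) (G : (Fin r → ℝ) → ℝ) (C : ℝ), ContDiff ℝ 4 G ∧
      (∀ i, i ≤ 4 → ∀ y, ‖iteratedFDeriv ℝ i G y‖ ≤ C) ∧ (∀ y, |G y| ≤ B + 2) ∧
      ∀ᶠ n in atTop, ∀ W : Mat n, W.IsHermitian → (Ym 1 W ^ (2 * ⌈tau n⌉₊)).trace < M →
        (Ym (-1) W ^ (2 * ⌈tau n⌉₊)).trace < M → |F (LamV n K W) - G (ptr n r W)| ≤ ε := by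
  obtain ⟨S, hS, hclip⟩ := exists_clip hc
  obtain ⟨δ, hδ, hu⟩ := Metric.uniformContinuous_iff.1 (hc.uniformContinuous_of_continuous hF)
    (ε / 3) (by positivity)
  obtain ⟨r, G, C, hG, hC, hGB, hap⟩ := hSw K (fun x => F fun k => hl S (x k)) B M (ε / 3)
    (hF.comp (continuous_pi fun k => (continuous_hl S).comp (continuous_apply k)))
    (fun x => hB _) (by positivity)
  refine ⟨r, G, C, hG, hC, hGB, ?_⟩
  have hC0 : 0 ≤ C := (norm_nonneg _).trans (hC 0 (by norm_num) 0)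
  have hlip : ∀ u v, |G u - G v| ≤ C * ‖u - v‖ := fun u v => by
    rw [← Real.norm_eq_abs]
    refine convex_univ.norm_image_sub_le_of_norm_fderiv_le
      (fun x _ => (hG.differentiable (by norm_num)) x) (fun x _ => ?_) (Set.mem_univ v)
      (Set.mem_univ u)
    rw [← norm_iteratedFDeriv_one]
    exact hC 1 (by norm_num) x
  have e1 : ∀ᶠ n : ℕ in atTop, C * (n * (1 / 4 : ℝ) ^ (2 * ⌈tau n⌉₊)) ≤ ε / 3 := by
    have := tendsto_small.const_mul C
    rw [mul_zero] at this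
    exact this.eventually (ge_mem_nhds (by positivity))
  have e2 : ∀ᶠ n : ℕ in atTop, (S + S ^ 2) / tau n < δ :=
    (tendsto_tau.const_div_atTop _).eventually (gt_mem_nhds hδ)
  filter_upwards [e1, e2, tendsto_tau.eventually_ge_atTop 1, tendsto_tau.eventually_ge_atTop S,
    tendsto_big.eventually_ge_atTop M, eventually_ge_atTop K,
    tendsto_ceil.eventually_ge_atTop 1] with n h1 h2 h3 h4 h5 h6 h7 W hW hp hm
  have hτ : 0 < tau n := by linarith
  have a1 : |F (LamV n K W) - F fun k : Fin K => hl S (xs n W k)| ≤ ε / 3 := by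
    rw [← hclip (LamV n K W), ← Real.dist_eq]
    refine (hu ?_).le
    rw [dist_pi_lt_iff hδ]
    intro k
    rw [Real.dist_eq, abs_sub_comm, xs_eq_xp hτ W (lt_of_lt_of_le k.2 h6)]
    exact (hl_xp hS h3 h4 (Nat.le_ceil _) (Nat.ceil_lt_add_one hτ.le).le _).trans_lt h2
  have a2 := hap n (xs n W) (xs_anti hW) (xs_nonneg n W)
    (fun k hk => by unfold xs; rw [if_neg (not_lt.2 hk)]) ((sum_xs_le hW).trans hp.le)
  have a3 : |(G fun j => ∑ k ∈ range n, xs n W k ^ ((j : ℕ) + 2)) - G (ptr n r W)| ≤ ε / 3 := by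
    refine (hlip _ _).trans (le_trans ?_ h1)
    refine mul_le_mul_of_nonneg_left ?_ hC0
    refine (pi_norm_le_iff_of_nonneg (by positivity)).2 fun j => ?_
    exact sum_xs_pow hW h7 (hm.trans_le h5) j
  have t1 := abs_sub_le (F (LamV n K W)) (F fun k : Fin K => hl S (xs n W k)) (G (ptr n r W))
  have t2 := abs_sub_le (F fun k : Fin K => hl S (xs n W k))
    (G fun j => ∑ k ∈ range n, xs n W k ^ ((j : ℕ) + 2)) (G (ptr n r W))
  linarith

/-! ### measurability -/

lemma measurable_lam' {n : ℕ} (k : ℕ) : Measurable fun W : Mat n => lam W k := by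
  classical
  have h1 : Measurable fun W : Mat n => lam (symP W) k :=
    (continuous_lam continuous_symP symP_herm k).measurable
  have e : (fun W : Mat n => lam W k) = fun W => if Wᵀ = W then lam (symP W) k else 0 := by
    funext W
    split_ifs with h
    · rw [symP_of_herm (herm_iff.2 h)]
    · rw [lam, dif_neg fun hh => h (herm_iff.1 hh.1)]
  rw [e]
  exact Measurable.ite measurableSet_symm h1 measurable_const

lemma measurable_LamV (n K : ℕ) : Measurable (LamV n K) :=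
  measurable_pi_lambda _ fun k =>
    measurable_const.mul (measurable_const.sub (measurable_lam' k))

lemma continuous_trace_Ym (n : ℕ) (σ : ℝ) (p : ℕ) :
    Continuous fun W : Mat n => (Ym σ W ^ p).trace := by
  unfold Ym
  fun_prop

lemma continuous_ptr (n r : ℕ) : Continuous (ptr n r) :=
  continuous_pi fun _ => continuous_trace_Ym n 1 _

lemma measurable_Wy (n : ℕ) : Measurable (Wy n) :=
  measurable_Wmat.comp (f := fun y : Ix n → ℝ =>
    ((fun p => y (Sum.inl p), fun i => y (Sum.inr i)) : (Pair n → ℝ) × (Fin n → ℝ)))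
    (by fun_prop)

lemma Wy_herm (n : ℕ) (y : Ix n → ℝ) : (Wy n y).IsHermitian := Wmat_isHermitian _ _

/-! ### the probabilistic approximation -/

lemma trace_tail (hMb : MbStmt) : ∃ C : ℝ, 0 ≤ C ∧ ∀ᶠ n in atTop,
    ∀ (μ : Ix n → Measure ℝ) [∀ p, IsProbabilityMeasure (μ p)], (∀ p, Dom (μ p)) →
    ∀ σ : ℝ, |σ| ≤ 1 → ∀ M : ℝ, 0 < M →
      (Measure.pi μ).real {y | M ≤ (Ym σ (Wy n y) ^ (2 * ⌈tau n⌉₊)).trace} ≤ C / M := by
  obtain ⟨C, hC, h⟩ := hMb 1 2
  refine ⟨C, hC, ?_⟩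
  filter_upwards [h, tendsto_tau.eventually_ge_atTop 1, eventually_ge_atTop 1]
    with n hn hτ hn1 μ _ hμ σ hσ M hM
  have hτ0 : 0 < tau n := by linarith
  obtain ⟨-, hi, hb⟩ := hn μ hμ σ hσ ⌈tau n⌉₊
    (by linarith [Nat.ceil_lt_add_one hτ0.le])
  simp only [pow_one] at hi hb
  have h1 := mul_meas_ge_le_integral_of_nonneg
    (ae_of_all _ fun y => trace_Ym_nonneg (Wy_herm n y) σ ⌈tau n⌉₊) hi M
  rw [le_div_iff₀ hM, mul_comm]
  refine h1.trans (hb.trans ?_)
  have h2 : (1 + (⌈tau n⌉₊ : ℝ)) ^ (-(3 / 2) : ℝ) ≤ (n : ℝ)⁻¹ := by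
    rw [← tau_pow n, ← Real.rpow_neg hτ0.le]
    exact Real.rpow_le_rpow_of_nonpos hτ0 (by linarith [Nat.le_ceil (tau n)]) (by norm_num)
  have hn0 : (0 : ℝ) < n := by exact_mod_cast hn1
  calc C * n * (1 + (⌈tau n⌉₊ : ℝ)) ^ (-(3 / 2) : ℝ) ≤ C * n * (n : ℝ)⁻¹ := by gcongr
    _ = C := by field_simp

lemma prob_approx (hMb : MbStmt) (hSw : SwStmt) {K : ℕ} {F : (Fin K → ℝ) → ℝ} (hF : Continuous F)
    (hc : HasCompactSupport F) {ε : ℝ} (hε : 0 < ε) :
    ∃ (r : ℕ) (G : (Fin r → ℝ) → ℝ) (C : ℝ), ContDiff ℝ 4 G ∧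
      (∀ i, i ≤ 4 → ∀ y, ‖iteratedFDeriv ℝ i G y‖ ≤ C) ∧
      ∀ᶠ n in atTop, ∀ (μ : Ix n → Measure ℝ) [∀ p, IsProbabilityMeasure (μ p)],
        (∀ p, Dom (μ p)) →
        |∫ W, F (LamV n K W) ∂(Measure.pi μ).map (Wy n) -
          ∫ W, G (ptr n r W) ∂(Measure.pi μ).map (Wy n)| ≤ ε := by
  obtain ⟨B, hB⟩ := hc.exists_bound_of_continuous hF
  have hB0 : 0 ≤ B := (norm_nonneg _).trans (hB 0)
  obtain ⟨C0, hC0, htail⟩ := trace_tail hMb
  set M : ℝ := 8 * (B + 2) * (C0 + 1) / ε with hM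
  have hM0 : 0 < M := by positivity
  obtain ⟨r, G, C, hG, hC, hGB, hdet⟩ := det_approx hSw hF hc hB M (half_pos hε)
  refine ⟨r, G, C, hG, hC, ?_⟩
  filter_upwards [htail, hdet] with n h1 h2 μ _ hμ
  have m1 : Measurable fun W : Mat n => F (LamV n K W) := hF.measurable.comp (measurable_LamV n K)
  have m2 : Measurable fun W : Mat n => G (ptr n r W) :=
    (hG.continuous.comp (continuous_ptr n r)).measurable
  rw [integral_map (measurable_Wy n).aemeasurable m1.aestronglyMeasurable,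
    integral_map (measurable_Wy n).aemeasurable m2.aestronglyMeasurable]
  have hS : Measure.pi μ ({y | M ≤ (Ym 1 (Wy n y) ^ (2 * ⌈tau n⌉₊)).trace} ∪
      {y | M ≤ (Ym (-1) (Wy n y) ^ (2 * ⌈tau n⌉₊)).trace}) ≤ ENNReal.ofReal (C0 / M + C0 / M) := by
    rw [← ofReal_measureReal]
    exact ENNReal.ofReal_le_ofReal ((measureReal_union_le _ _).trans
      (add_le_add (h1 μ hμ 1 (by simp) M hM0) (h1 μ hμ (-1) (by simp) M hM0)))
  have key := Soft.abs_integral_sub_le (Measure.pi μ)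
    (m1.comp (measurable_Wy n)).aestronglyMeasurable
    (m2.comp (measurable_Wy n)).aestronglyMeasurable (K := B + 2) (η := ε / 2)
    (by positivity) (by positivity) (by positivity)
    (fun y => (hB _).trans (by linarith)) (fun y => hGB _) hS (fun y hy => by
      simp only [Set.mem_union, Set.mem_ofPred_eq, not_or, not_le] at hy
      exact h2 _ (Wy_herm n y) hy.1 hy.2)
  refine key.trans ?_
  have : 2 * (B + 2) * (C0 / M + C0 / M) = ε / 2 * (C0 / (C0 + 1)) := by
    rw [hM]; field_simp; ring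
  rw [this]
  have h3 : C0 / (C0 + 1) ≤ 1 := by rw [div_le_one (by positivity)]; linarith
  nlinarith

/-- **universality of the edge** from the universality of the power sums -/
theorem univGlue : UnivGlue := by
  intro hL hMb hSw hSwap K F hF hc b
  obtain ⟨l1, l2, l3, l4, -⟩ := hL
  rw [Metric.tendsto_nhds]
  intro ε hε
  obtain ⟨r, G, C, hG, hC, hap⟩ := prob_approx hMb hSw hF hc (ε := ε / 4) (by positivity)
  filter_upwards [hap, Metric.tendsto_nhds.1 (hSwap r G C hG hC b) (ε / 4) (by positivity)]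
    with n h1 h2
  have m1 : Measurable fun W : Mat n => F (LamV n K W) := hF.measurable.comp (measurable_LamV n K)
  have m2 : Measurable fun W : Mat n => G (ptr n r W) :=
    (hG.continuous.comp (continuous_ptr n r)).measurable
  have a1 := h1 (lawJ b n) (l4 b n)
  have a2 := h1 (fun _ => gaussianReal 0 1) fun _ => l3
  rw [l2 b n, integral_map measurable_Jmat.aemeasurable m1.aestronglyMeasurable,
    integral_map measurable_Jmat.aemeasurable m2.aestronglyMeasurable] at a1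
  rw [l1 n] at a2
  rw [Real.dist_eq, sub_zero] at h2 ⊢
  rw [abs_le] at a1 a2
  rw [abs_lt] at h2 ⊢
  constructor <;> linarith [a1.1, a1.2, a2.1, a2.2, h2.1, h2.2]

end Crest.Agent.T157.EdUniv

end
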