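import Crest.Agent.T157.EdClt_80
import Crest.Agent.T157.EdMbb_22_Mg
import Crest.Agent.T157.EdMbc_23_Mg
import Crest.Agent.T157.EdMba_36
import Crest.Agent.T157.EdLb_88_Mg
import Crest.Agent.T157.EdSwap_50_Mg
import Crest.Agent.T157.EdTri_62
import Crest.Agent.T157.EdUniv_25

-- ▼ part T157/EdAllA_88
section

/-!
# Row 157, part E: edge limit — assembly modulo `LbStmt` (helper88)
-/

set_option autoImplicit false

namespace Crest.Agent.T157.Ed.All

open Crest.Agent.T157.Ed

theorem edgeT_of (h : LbStmt) : EdgeTStmt :=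
  edgeTGlue triStmt Osc7.betStmt h cntStmt Osc7.kapStmt

theorem lim_of (h : LbStmt) : LimStmt :=
  limGlue triStmt Osc7.betStmt Osc7.oscStmt Osc7.kapStmt h Det.detStmt cltStmt (edgeT_of h)

theorem nondeg_of (h : LbStmt) : NondegStmt := EdNd.nondegGlue triStmt Osc7.betStmt h

theorem mb_of (h : LbStmt) : MbStmt :=
  EdMbc.mbGlue linkStmt mbaStmt mbbStmt (EdMbc.mbcGlue (edgeT_of h))

theorem tail_of (h : LbStmt) : TailStmt := EdMbc.tailGlue linkStmt (mb_of h)

theorem univ_of (h : LbStmt) : UnivStmt :=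
  EdUniv.univGlue linkStmt (mb_of h) swStmt (swapGlue linkStmt (mb_of h) derStmt EdLind.lindStmt)

theorem edge_of (h : LbStmt) : EdgeStmt := topGlue (lim_of h) (univ_of h) (nondeg_of h)

end Crest.Agent.T157.Ed.All
end

-- ▼ part T157/EdAll_88

/-!
# Row 157, part E: existence and universality of the edge limit, unconditional (helper88)
-/

set_option autoImplicit false

namespace Crest.Agent.T157.Ed.All

open Crest.Agent.T157.Ed

theorem edgeTStmt : EdgeTStmt := edgeT_of Lb88.lbStmt
theorem limStmt : LimStmt := lim_of Lb88.lbStmt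
theorem mbStmt : MbStmt := mb_of Lb88.lbStmt
theorem tailStmt : TailStmt := tail_of Lb88.lbStmt

end Crest.Agent.T157.Ed.All
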