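import Crest.Agent.T157.PathB_90
import Crest.Agent.T157.Quench_90
import Crest.Agent.T157.TopA_50

/-!
# Row 157, part C: sufficient conditions for the hypotheses of the soft top (helper90)

`Q1EStmt` (entropy from every start is tight at every positive rescaled time), `LD2Stmt` (exponential
moments of the rescaled overlap of two replicas are tight), `MixStmt` / `WPStmt` (weak mixing / weak
Poincaré inequality for bounded observables) give tightness, equicontinuity, decay and merging.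
Variational formula for `Rn`, Jensen lower bound for `An`.
-/

set_option autoImplicit false

noncomputable section

namespace Crest.Agent.T157.Soft

open MeasureTheory Filter Topology Set Matrix
open Crest.ProbabilityR.SpinGlassDynamics
open Crest.Agent.T157

variable {n : ℕ}

/-- time scale `n^{2/3}` -/
abbrev N23 (n : ℕ) : ℝ := (n : ℝ) ^ (2 / 3 : ℝ)

/-- rescaled spins `n^{-1/3} σᵢ` -/
def an (n : ℕ) (i : Fin n) (x : E.Cube n) : ℝ := ((n : ℝ) ^ (1 / 3 : ℝ))⁻¹ * spin (x i)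

/-- exponential moment of the rescaled overlap `n^{-2/3} σ·σ'` of two independent replicas -/
def Xth (n : ℕ) (g : Pair n → ℝ) (θ : ℝ) : ℝ :=
  ∑ x, ∑ y, gibbsProb n 1 g x * gibbsProb n 1 g y *
    Real.exp (θ * ((N23 n)⁻¹ * (E.sv x ⬝ᵥ E.sv y)))

/-- relative entropy at rescaled time `t` from the start `x` -/
def klRow (n : ℕ) (g : Pair n → ℝ) (t : ℝ) (x : E.Cube n) : ℝ :=
  Ent.kl (ctKernel n 1 g (t * N23 n) x) (gibbsProb n 1 g)

/-- the semigroup at rescaled time `t` -/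
def Pn (n : ℕ) (g : Pair n → ℝ) (t : ℝ) (u : E.Cube n → ℝ) (x : E.Cube n) : ℝ :=
  ∑ y, ctKernel n 1 g (t * N23 n) x y * u y

/-- the entropy from the worst start is tight at every positive rescaled time -/
def Q1EStmt : Prop := ∀ (b : Bool) (t ε : ℝ), 0 < t → 0 < ε → ∃ M : ℝ, ∀ᶠ n in atTop,
  couplingLaw b n {g | ∃ x, M < klRow n g t x} ≤ ENNReal.ofReal ε

/-- all exponential moments of the rescaled two-replica overlap are tight -/
def LD2Stmt : Prop := ∀ (b : Bool) (θ ε : ℝ), 0 < θ → 0 < ε → ∃ M : ℝ, ∀ᶠ n in atTop,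
  couplingLaw b n {g | M < Xth n g θ} ≤ ENNReal.ofReal ε

/-- weak mixing of bounded observables on the scale `n^{2/3}` (Gaussian couplings) -/
def MixStmt : Prop := ∀ η ε : ℝ, 0 < η → 0 < ε → ∃ s : ℝ, 0 < s ∧ ∀ᶠ n in atTop,
  disorderLaw n {g | ∃ u : E.Cube n → ℝ, (∀ x, |u x| ≤ 1) ∧ η < gibbsVar n 1 g (Pn n g s u)} ≤
    ENNReal.ofReal ε

/-- weak Poincaré inequality on the scale `n^{2/3}` (Gaussian couplings) -/
def WPStmt : Prop := ∀ η ε : ℝ, 0 < η → 0 < ε → ∃ β : ℝ, ∀ᶠ n in atTop,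
  disorderLaw n {g | ∃ u : E.Cube n → ℝ, (∀ x, |u x| ≤ 1) ∧
    β * (N23 n * dirichletForm n 1 g u) + η < gibbsVar n 1 g u} ≤ ENNReal.ofReal ε

/-- static non-degeneracy: some direction has variance of order `n^{2/3}` -/
def SoftLowStmt : Prop := ∀ ε : ℝ, 0 < ε → ∃ δ : ℝ, 0 < δ ∧ ∃ᶠ n in atTop,
  disorderLaw n {g | ∀ v : Fin n → ℝ, v ⬝ᵥ v = 1 →
    gibbsVar n 1 g (fun x => v ⬝ᵥ E.sv x) < δ * N23 n} ≤ ENNReal.ofReal ε

/-- static spread: the largest rescaled directional variance is unbounded in the limit -/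
def SoftHighStmt : Prop := ∀ M : ℝ, ∃ c : ℝ, 0 < c ∧ ∃ᶠ n in atTop, ENNReal.ofReal c ≤
  disorderLaw n {g | ∃ v : Fin n → ℝ, v ⬝ᵥ v = 1 ∧
    M * N23 n ≤ gibbsVar n 1 g fun x => v ⬝ᵥ E.sv x}

/-! ### dictionary -/

lemma N23_pos (hn : 0 < n) : 0 < N23 n := Real.rpow_pos_of_pos (by exact_mod_cast hn) _

lemma third_sq (hn : 0 < n) :
    ((n : ℝ) ^ (1 / 3 : ℝ))⁻¹ * ((n : ℝ) ^ (1 / 3 : ℝ))⁻¹ = (N23 n)⁻¹ := by
  have h : (0 : ℝ) < n := by exact_mod_cast hn
  rw [← mul_inv, ← Real.rpow_add h]; norm_num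

/-- chain time of the rescaled time `s` -/
abbrev tau (n : ℕ) (s : ℝ) : ℝ := n * (s * N23 n)

lemma tau_eq (s : ℝ) : tau n s = N23 n * n * s := by ring

lemma tau_pos (hn : 0 < n) {s : ℝ} (hs : 0 < s) : 0 < tau n s :=
  mul_pos (by exact_mod_cast hn) (mul_pos hs (N23_pos hn))

lemma tau_le (hn : 0 < n) {s t : ℝ} (h : s ≤ t) : tau n s ≤ tau n t :=
  mul_le_mul_of_nonneg_left (mul_le_mul_of_nonneg_right h (N23_pos hn).le) (Nat.cast_nonneg n)

lemma ctKernel_eq_H (hn : 0 < n) (g : Pair n → ℝ) (t : ℝ) :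
    ctKernel n 1 g (t * N23 n) = (ch hn g).H (tau n t) := by
  funext x y
  rw [E.ctKernel_eq, Bar.hbCt_eq hn (E.gibbsWeight_pos 1 g)]

lemma Pn_eq (hn : 0 < n) (g : Pair n → ℝ) (t : ℝ) (u : E.Cube n → ℝ) :
    Pn n g t u = (ch hn g).H (tau n t) *ᵥ u := by
  funext x; simp only [Pn, ctKernel_eq_H hn]; rfl

lemma dir_eq (hn : 0 < n) (g : Pair n → ℝ) (u : E.Cube n → ℝ) :
    dirichletForm n 1 g u = n * (ch hn g).D u u :=
  Chain22.dir_eq_D hn (E.gibbsWeight_pos 1 g) u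

lemma rr_an (hn : 0 < n) (x y : E.Cube n) : rr (an n) x y = (N23 n)⁻¹ * (E.sv x ⬝ᵥ E.sv y) := by
  rw [rr, dotProduct, Finset.mul_sum, ← third_sq hn]
  exact Finset.sum_congr rfl fun i _ => by simp only [an, E.sv]; ring

lemma an_eq (i : Fin n) : an n i = ((n : ℝ) ^ (1 / 3 : ℝ))⁻¹ • sp i := rfl

lemma An_eq_AA (hn : 0 < n) (g : Pair n → ℝ) (s : ℝ) :
    An n g s = AA (ch hn g) (an n) (tau n s) := by
  rw [An_eq_ip hn, AA, Finset.mul_sum]
  refine Finset.sum_congr rfl fun i _ => ?_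
  rw [an_eq, mulVec_smul, Chain22.ip_smul_left, Chain22.ip_smul_right,
    ← mul_assoc ((n : ℝ) ^ (1 / 3 : ℝ))⁻¹, third_sq hn]

/-- the uniform law on the cube -/
def unif (n : ℕ) : E.Cube n → ℝ := fun _ => (Fintype.card (Fin n → Bool) : ℝ)⁻¹

lemma isP_unif : Chain22.IsP (unif n) :=
  ⟨fun _ => by unfold unif; positivity, by simp [unif]⟩

lemma Bn_eq_BB (hn : 0 < n) (g : Pair n → ℝ) (s t : ℝ) :
    Bn n g s t = BB (ch hn g) (an n) (unif n) (tau n s) (tau n t) := by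
  rw [Bn, quenchCorr, ← mul_assoc, rpow_third hn, ctKernel_eq_H hn, ctKernel_eq_H hn]
  have key : ∀ F : Fin n → E.Cube n → E.Cube n → E.Cube n → ℝ,
      ∑ i, ∑ x, ∑ y, ∑ z, F i x y z = ∑ y, ∑ x, ∑ z, ∑ i, F i x y z := by
    intro F
    rw [Finset.sum_comm]
    conv_rhs => rw [Finset.sum_comm]
    refine Finset.sum_congr rfl fun x _ => ?_
    rw [Finset.sum_comm]
    refine Finset.sum_congr rfl fun y _ => ?_
    rw [Finset.sum_comm]
  rw [key, BB, Finset.mul_sum]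
  refine Finset.sum_congr rfl fun y _ => ?_
  rw [vecMul, dotProduct, Finset.sum_mul, Finset.mul_sum]
  refine Finset.sum_congr rfl fun x _ => ?_
  rw [Gt, Finset.mul_sum, Finset.mul_sum]
  refine Finset.sum_congr rfl fun z _ => ?_
  simp only [rr_an hn, dotProduct, Finset.mul_sum, unif, E.sv]
  exact Finset.sum_congr rfl fun i _ => by ring

lemma gibbsProb_neg (g : Pair n → ℝ) (x : E.Cube n) :
    gibbsProb n 1 g (Bar.neg x) = gibbsProb n 1 g x := by
  simp only [gibbsProb, Bar.gibbs_neg]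

lemma Xth_neg (g : Pair n → ℝ) (θ : ℝ) : Xth n g (-θ) = Xth n g θ := by
  refine Finset.sum_congr rfl fun x _ => ?_
  rw [← Equiv.sum_comp (Function.Involutive.toPerm Bar.neg Bar.neg_neg')]
  refine Finset.sum_congr rfl fun y _ => ?_
  simp only [Function.Involutive.coe_toPerm, gibbsProb_neg, Bar.sv_neg, dotProduct_neg, mul_neg,
    neg_mul, neg_neg]

lemma XX_le (hn : 0 < n) (g : Pair n → ℝ) (θ : ℝ) : XX (ch hn g) (an n) θ ≤ 2 * Xth n g θ := by
  rw [two_mul]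
  nth_rewrite 2 [← Xth_neg]
  simp only [XX, Xth, ← Finset.sum_add_distrib, ← mul_add, rr_an hn]
  refine Finset.sum_le_sum fun x _ => Finset.sum_le_sum fun y _ => ?_
  refine mul_le_mul_of_nonneg_left ?_ (mul_pos ((ch hn g).pos x) ((ch hn g).pos y)).le
  rcases abs_choice ((N23 n)⁻¹ * (E.sv x ⬝ᵥ E.sv y)) with h | h <;> rw [h]
  · exact le_add_of_nonneg_right (Real.exp_pos _).le
  · rw [mul_neg, neg_mul]; exact le_add_of_nonneg_left (Real.exp_pos _).le

lemma ec_of (hn : 0 < n) {g : Pair n → ℝ} {t M : ℝ} (h : ¬ ∃ x, M < klRow n g t x) :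
    EC (ch hn g) (tau n t) M := fun x => by
  have := not_lt.1 (not_exists.1 h x)
  rwa [klRow, ctKernel_eq_H hn] at this

lemma mean_odd (g : Pair n → ℝ) {f : E.Cube n → ℝ} (hf : ∀ x, f (Bar.neg x) = -f x) :
    Chain22.mean (gibbsProb n 1 g) f = 0 := by
  have : Chain22.mean (gibbsProb n 1 g) f = -Chain22.mean (gibbsProb n 1 g) f := by
    rw [Chain22.mean, ← Finset.sum_neg_distrib,
      ← Equiv.sum_comp (Function.Involutive.toPerm Bar.neg Bar.neg_neg')]
    refine Finset.sum_congr rfl fun x _ => ?_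
    simp only [Function.Involutive.coe_toPerm, gibbsProb_neg, hf, mul_neg]
  linarith

lemma mean_an (hn : 0 < n) (g : Pair n → ℝ) (i : Fin n) :
    Chain22.mean (ch hn g).π (an n i) = 0 :=
  mean_odd g fun x => by simp [an, Bar.neg, E.spin_not]

/-! ### variational formula and Jensen bound -/




/-- one direction bounds the autocorrelation from below -/
lemma ip_dir_le_AA {Ω ι : Type*} [Fintype Ω] [DecidableEq Ω] [Fintype ι] (c : Chain22.RC Ω)
    (a : ι → Ω → ℝ) {v : ι → ℝ} (hv : v ⬝ᵥ v = 1) (t : ℝ) :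
    Chain22.ip c.π (∑ i, v i • a i) (c.H t *ᵥ ∑ i, v i • a i) ≤ AA c a t := by
  simp only [AA, Chain22.RC.ip_H_spec]
  rw [Finset.sum_comm]
  refine Finset.sum_le_sum fun j _ => ?_
  rw [← Finset.mul_sum]
  refine mul_le_mul_of_nonneg_left ?_ (Real.exp_pos _).le
  simp only [Chain22.ip_sum_left, Chain22.ip_smul_left, ← sq]
  have := Finset.sum_mul_sq_le_sq_mul_sq Finset.univ v fun i => Chain22.ip c.π (a i) (c.φ j)
  have hv' : ∑ i, v i ^ 2 = 1 := by simpa only [dotProduct, sq] using hv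
  rwa [hv', one_mul] at this

theorem An_ge (hn : 0 < n) (g : Pair n → ℝ) {v : Fin n → ℝ} (hv : v ⬝ᵥ v = 1) {V s : ℝ}
    (hV : 0 < V) (hs : 0 ≤ s) (h : V * N23 n ≤ gibbsVar n 1 g fun x => v ⬝ᵥ E.sv x) :
    V * Real.exp (-(s / V)) ≤ An n g s := by
  have hN := N23_pos hn
  have hn' : (0 : ℝ) < n := by exact_mod_cast hn
  set l : E.Cube n → ℝ := fun x => v ⬝ᵥ E.sv x with hl
  have e : ∑ i, v i • an n i = ((n : ℝ) ^ (1 / 3 : ℝ))⁻¹ • l := by
    funext x
    simp only [Finset.sum_apply, Pi.smul_apply, smul_eq_mul, an, hl, dotProduct, E.sv,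
      Finset.mul_sum]
    exact Finset.sum_congr rfl fun i _ => by ring
  have h1 := ip_dir_le_AA (ch hn g) (an n) hv (tau n s)
  rw [e, mulVec_smul, Chain22.ip_smul_left, Chain22.ip_smul_right, ← mul_assoc, third_sq hn,
    ← An_eq_AA hn] at h1
  refine le_trans ?_ h1
  have h2 := (ch hn g).ip_H_self_ge l (tau n s)
  have h3 : V * N23 n ≤ Chain22.ip (ch hn g).π l l := by
    refine h.trans ?_
    have := (ch hn g).isP.var_eq l
    change Chain22.var (ch hn g).π l ≤ _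
    nlinarith [sq_nonneg (Chain22.mean (ch hn g).π l)]
  have h4 : n * (ch hn g).D l l ≤ 1 := by
    rw [← dir_eq hn]; exact (TopA.dir_lin_le (E.gibbsWeight_pos 1 g) v).trans hv.le
  have h5 : 0 < Chain22.ip (ch hn g).π l l := (mul_pos hV hN).trans_le h3
  have h6 : tau n s * ((ch hn g).D l l / Chain22.ip (ch hn g).π l l) ≤ s / V := by
    rw [← mul_div_assoc, div_le_div_iff₀ h5 hV]
    calc tau n s * (ch hn g).D l l * V = s * (n * (ch hn g).D l l * (V * N23 n)) := by ring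
      _ ≤ s * (1 * Chain22.ip (ch hn g).π l l) := by gcongr
      _ = _ := by ring
  rw [le_inv_mul_iff₀ hN]
  refine le_trans ?_ h2
  rw [← mul_assoc, mul_comm (N23 n)]
  exact mul_le_mul h3 (Real.exp_le_exp.2 (neg_le_neg h6)) (Real.exp_pos _).le h5.le

theorem nonzero_of_soft (h : SoftLowStmt) : NonzeroStmt := by
  intro ε hε
  obtain ⟨δ, hδ, h⟩ := h ε hε
  refine ⟨1, δ * Real.exp (-(1 / δ)), one_pos, by positivity,
    (h.and_eventually (eventually_gt_atTop 0)).mono fun n hn => le_trans (measure_mono ?_) hn.1⟩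
  intro g hg v hv
  by_contra hcon
  exact absurd (An_ge hn.2 g hv hδ zero_le_one (not_lt.1 hcon)) (not_le.2 hg)

theorem unbounded_of_soft (h : SoftHighStmt) : UnboundedStmt := by
  refine ⟨1, one_pos, fun M => ?_⟩
  obtain ⟨c, hc, h⟩ := h (|M| + 1)
  refine ⟨c, hc, (h.and_eventually (eventually_gt_atTop 0)).mono fun n hn =>
    hn.1.trans (measure_mono ?_)⟩
  rintro g ⟨v, hv, hg⟩
  have hM : 0 < |M| + 1 := by positivity
  refine le_trans ?_ (An_ge hn.2 g hv hM zero_le_one hg)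
  have h1 := Real.add_one_le_exp (-(1 / (|M| + 1)))
  have h2 : (|M| + 1) * (-(1 / (|M| + 1)) + 1) = |M| := by field_simp; ring
  have h3 := mul_le_mul_of_nonneg_left h1 hM.le
  linarith [le_abs_self M]

/-! ### tightness, equicontinuity, merging, decay -/

lemma measure_le_of_union {X : Type*} [MeasurableSpace X] {μ : Measure X} {S S₁ S₂ : Set X}
    {ε₁ ε₂ : ℝ} (h₁ : μ S₁ ≤ ENNReal.ofReal ε₁) (h₂ : μ S₂ ≤ ENNReal.ofReal ε₂) (hε₁ : 0 ≤ ε₁)
    (hε₂ : 0 ≤ ε₂) (h : ∀ x ∈ S, x ∉ S₁ → x ∈ S₂) : μ S ≤ ENNReal.ofReal (ε₁ + ε₂) := by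
  rw [ENNReal.ofReal_add hε₁ hε₂]
  refine le_trans (measure_mono fun x hx => ?_) ((measure_union_le S₁ S₂).trans (add_le_add h₁ h₂))
  by_cases h1 : x ∈ S₁
  exacts [Or.inl h1, Or.inr (h x hx h1)]

theorem mix_of_wp (h : WPStmt) : MixStmt := by
  intro η ε hη hε
  obtain ⟨β, hβ⟩ := h (η / 2) ε (by positivity) hε
  refine ⟨(|β| + 1) / η, by positivity, ?_⟩
  filter_upwards [hβ, eventually_gt_atTop 0] with n h1 hn
  refine le_trans (measure_mono ?_) h1
  rintro g ⟨u, hu, hg⟩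
  have ht := tau_pos hn (s := (|β| + 1) / η) (by positivity)
  refine ⟨Pn n g ((|β| + 1) / η) u, fun x => ?_, lt_of_le_of_lt ?_ hg⟩
  · rw [Pn_eq hn]; exact abs_H_le ht.le hu x
  rw [dir_eq hn, Pn_eq hn]
  have e1 := (ch hn g).D_H_le u ht
  have e2 := ip_self_le (ch hn g).isP hu
  have e3 := (ch hn g).D_nonneg ((ch hn g).H (tau n ((|β| + 1) / η)) *ᵥ u)
  set D := (ch hn g).D ((ch hn g).H (tau n ((|β| + 1) / η)) *ᵥ u)
    ((ch hn g).H (tau n ((|β| + 1) / η)) *ᵥ u)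
  rw [le_div_iff₀ (by positivity)] at e1
  have hN := N23_pos hn
  have e4 : (|β| + 1) * (N23 n * (n * D)) ≤ η / 2 := by
    have : D * (2 * tau n ((|β| + 1) / η)) = (|β| + 1) * (N23 n * (n * D)) / (η / 2) := by
      field_simp
    rw [this, div_le_iff₀ (by positivity)] at e1
    nlinarith
  have e5 : 0 ≤ N23 n * (n * D) := by positivity
  nlinarith [le_abs_self β]

/-- the good event: entropy bound at time `t`, overlap moments at `1` and at `θ` -/
lemma good_event (h1 : Q1EStmt) (h2 : LD2Stmt) (b : Bool) {t ε : ℝ} (ht : 0 < t) (hε : 0 < ε) :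
    ∃ C X : ℝ, 0 ≤ C ∧ 0 ≤ X ∧ ∀ θ : ℝ, 0 < θ → ∃ Y : ℝ, 0 ≤ Y ∧ ∀ᶠ n in atTop,
      ∃ hn : 0 < n, couplingLaw b n {g | ¬ (EC (ch hn g) (tau n t) C ∧
        XX (ch hn g) (an n) 1 ≤ X ∧ XX (ch hn g) (an n) θ ≤ Y)} ≤ ENNReal.ofReal ε := by
  obtain ⟨C, hC⟩ := h1 b t (ε / 3) ht (by positivity)
  obtain ⟨X, hX⟩ := h2 b 1 (ε / 3) one_pos (by positivity)
  refine ⟨|C|, 2 * |X|, abs_nonneg _, by positivity, fun θ hθ => ?_⟩
  obtain ⟨Y, hY⟩ := h2 b θ (ε / 3) hθ (by positivity)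
  refine ⟨2 * |Y|, by positivity, ?_⟩
  filter_upwards [hC, hX, hY, eventually_gt_atTop 0] with n e1 e2 e3 hn
  refine ⟨hn, ?_⟩
  have e4 := measure_le_of_union (S := {g | X < Xth n g 1} ∪ {g | Y < Xth n g θ}) e2 e3
    (by positivity) (by positivity) fun x hx h => hx.resolve_left h
  refine (measure_le_of_union e1 e4 (by positivity) (by positivity) fun g hg h => ?_).trans
    (le_of_eq (by congr 1; ring))
  by_contra hcon
  simp only [mem_union, mem_ofPred_eq, not_or, not_lt] at hcon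
  refine hg ⟨(ec_of hn h).le (le_abs_self C), (XX_le hn g 1).trans ?_, (XX_le hn g θ).trans ?_⟩
  · linarith [hcon.1, le_abs_self X]
  · linarith [hcon.2, le_abs_self Y]

theorem atight_of_q1 (h1 : Q1EStmt) (h2 : LD2Stmt) : ATightStmt := by
  intro b s ε hs hε
  obtain ⟨C, X, -, -, h⟩ := good_event h1 h2 b hs hε
  obtain ⟨Y, -, h⟩ := h 1 one_pos
  refine ⟨Real.exp C * X, h.mono ?_⟩
  rintro n ⟨hn, h⟩
  refine le_trans (measure_mono ?_) h
  intro g hg hcon
  have := (hcon.1.AA_le (a := an n) (tau_pos hn hs).le).trans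
    (mul_le_mul_of_nonneg_left hcon.2.1 (Real.exp_pos C).le)
  rw [← An_eq_AA hn] at this
  exact absurd this (not_le.2 hg)

theorem bsize_of_q1 (h1 : Q1EStmt) (h2 : LD2Stmt) : BSizeStmt := by
  intro b a a' ε ha hε
  obtain ⟨C, X, -, -, h⟩ := good_event h1 h2 b ha hε
  obtain ⟨Y, -, h⟩ := h 1 one_pos
  refine ⟨C + Real.exp C * X, h.mono ?_⟩
  rintro n ⟨hn, h⟩
  refine le_trans (measure_mono ?_) h
  rintro g ⟨s, hs, t, ht, hg⟩ hcon
  have := hcon.1.BB_size (a := an n) (tau_pos hn ha).le isP_unif (tau_le hn hs.1) (tau_le hn ht.1)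
  rw [← Bn_eq_BB hn] at this
  linarith [mul_le_mul_of_nonneg_left hcon.2.1 (Real.exp_pos C).le]

/-- choice of the truncation level -/
lemma exists_level (A : ℝ) {η : ℝ} (hη : 0 < η) : ∃ K : ℝ, 1 < K ∧ A / Real.log K ≤ η := by
  refine ⟨Real.exp (|A| / η + 1), Real.one_lt_exp_iff.2 (by positivity), ?_⟩
  rw [Real.log_exp, div_le_iff₀ (by positivity), mul_add, mul_div_cancel₀ _ hη.ne']
  linarith [le_abs_self A]

theorem bmod_of_q1 (h1 : Q1EStmt) (h2 : LD2Stmt) : BModStmt := by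
  intro b a a' η ε ha hη hε
  obtain ⟨C, X, hC, hX, h⟩ := good_event h1 h2 b (t := a / 4) (by positivity) hε
  set θ : ℝ := 8 * (C + 2) / η with hθ
  have hθ0 : 0 < θ := by positivity
  obtain ⟨Y, hY, h⟩ := h θ hθ0
  obtain ⟨K, hK, hK'⟩ := exists_level ((C + 1) * (1 + Real.exp C * Y)) one_pos
  set W : ℝ := (K ^ 2 + 2) * (1 + Real.exp C * X) with hW
  have hW0 : 0 < W := by positivity
  refine ⟨η * a / (8 * W), by positivity, h.mono ?_⟩
  rintro n ⟨hn, h⟩
  refine le_trans (measure_mono ?_) h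
  rintro g ⟨s, hs, t, ht, s', hs', t', ht', d1, d2, hg⟩ ⟨c1, c2, c3⟩
  have hN : 0 < N23 n * n := mul_pos (N23_pos hn) (by exact_mod_cast hn)
  have e0 : tau n (a / 4) = tau n (a / 2) / 2 := by ring
  have e1 : 2 * tau n (a / 2) = tau n a := by ring
  rw [e0] at c1
  have key := c1.BB_mod (a := an n) (tau_pos hn (by positivity)) isP_unif hK hθ0
    (s := tau n s) (t := tau n t) (s' := tau n s') (t' := tau n t') (e1 ▸ tau_le hn hs.1)
    (e1 ▸ tau_le hn hs'.1) (tau_le hn (by linarith [ht.1])) (tau_le hn (by linarith [ht'.1]))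
  rw [← Bn_eq_BB hn, ← Bn_eq_BB hn] at key
  have hl : 0 < Real.log K := Real.log_pos hK
  have p1 : ((C + 1) / Real.log K * (1 + Real.exp C * XX (ch hn g) (an n) θ) + (C + 1)) / θ ≤
      η / 8 := by
    have q1 : (C + 1) / Real.log K * (1 + Real.exp C * XX (ch hn g) (an n) θ) ≤ 1 := by
      refine le_trans ?_ hK'
      rw [div_mul_eq_mul_div]
      gcongr
    rw [div_le_iff₀ hθ0, hθ]
    have : η / 8 * (8 * (C + 2) / η) = C + 2 := by field_simp
    linarith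
  have p2 : (|tau n s - tau n s'| + |tau n t - tau n t'|) / tau n (a / 2) *
      ((K ^ 2 + 2) * (1 + Real.exp C * XX (ch hn g) (an n) 1)) ≤ η / 2 := by
    have q1 : (|tau n s - tau n s'| + |tau n t - tau n t'|) / tau n (a / 2) =
        (|s - s'| + |t - t'|) / (a / 2) := by
      simp only [tau_eq, ← mul_sub, abs_mul, abs_of_pos hN, ← mul_add]
      rw [mul_div_mul_left _ _ hN.ne']
    rw [q1]
    calc _ ≤ (η * a / (8 * W) + η * a / (8 * W)) / (a / 2) * W := by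
          rw [hW]
          gcongr
          exact mul_nonneg (by positivity) (add_nonneg zero_le_one
            (mul_nonneg (Real.exp_pos _).le (XX_nonneg 1)))
      _ = η / 2 := by field_simp; ring
  linarith

lemma mix_event {η ε : ℝ} {s : ℝ} (hn : 0 < n) (h : disorderLaw n {g | ∃ u : E.Cube n → ℝ,
    (∀ x, |u x| ≤ 1) ∧ η < gibbsVar n 1 g (Pn n g s u)} ≤ ENNReal.ofReal ε) :
    disorderLaw n {g | ¬ ∀ u : E.Cube n → ℝ, (∀ x, |u x| ≤ 1) →
      Chain22.var (ch hn g).π ((ch hn g).H (tau n s) *ᵥ u) ≤ η} ≤ ENNReal.ofReal ε := by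
  refine le_trans (measure_mono fun g hg => ?_) h
  simp only [not_forall, not_le, mem_ofPred_eq] at hg
  obtain ⟨u, hu, hg⟩ := hg
  exact ⟨u, hu, by rw [Pn_eq hn]; exact hg⟩

theorem merge_of_q1 (h1 : Q1EStmt) (h2 : LD2Stmt) (h3 : MixStmt) : MergeStmt := by
  intro a a' η ε ha hη hε
  obtain ⟨C, X, hC, hX, h⟩ := good_event h1 h2 false ha (half_pos hε)
  set θ : ℝ := 4 * (C + 2) / η with hθ
  have hθ0 : 0 < θ := by positivity
  obtain ⟨Y, hY, h⟩ := h θ hθ0
  set κ : ℝ := η / (8 * (1 + Real.exp C * X)) with hκ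
  have hκ0 : 0 < κ := by positivity
  obtain ⟨K, hK, hK'⟩ := exists_level ((C + 1) * (1 + Real.exp C * Y)) (lt_min one_pos hκ0)
  obtain ⟨s₁, hs₁, hmix⟩ := h3 (η * κ / (4 * K ^ 2)) (ε / 2) (by positivity) (half_pos hε)
  refine ⟨a + s₁, fun s hs _ => ((h.and hmix).mono ?_).frequently⟩
  rintro n ⟨⟨hn, e1⟩, e2⟩
  refine (measure_le_of_union e1 (mix_event hn e2) (half_pos hε).le (half_pos hε).le ?_).trans
    (le_of_eq (by rw [add_halves]))
  rintro g ⟨t, ht, hg⟩ hgood hmix'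
  obtain ⟨c1, c2, c3⟩ := not_not.1 hgood
  have key := c1.BB_merge (a := an n) (tau_pos hn ha).le isP_unif hK hθ0 hκ0 (tau_pos hn hs₁).le
    (s := tau n s) (t := tau n t) (le_trans (le_of_eq (by ring)) (tau_le hn hs)) (tau_le hn ht.1) hmix'
  rw [← Bn_eq_BB hn, ← An_eq_AA hn] at key
  have hl : 0 < Real.log K := Real.log_pos hK
  have hE : 0 ≤ Real.exp C * Y := by positivity
  have p1 : ((C + 1) / Real.log K * (1 + Real.exp C * XX (ch hn g) (an n) θ) + (C + 1)) / θ ≤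
      η / 4 := by
    have q1 : (C + 1) / Real.log K * (1 + Real.exp C * XX (ch hn g) (an n) θ) ≤ 1 := by
      refine le_trans ?_ (hK'.trans (min_le_left _ _))
      rw [div_mul_eq_mul_div]
      gcongr
    rw [div_le_iff₀ hθ0, hθ]
    have : η / 4 * (4 * (C + 2) / η) = C + 2 := by field_simp
    linarith
  have p2 : K ^ 2 * (η * κ / (4 * K ^ 2)) / κ = η / 4 := by field_simp
  have p3 : ((C + 1) / Real.log K + κ) * (Real.exp C * XX (ch hn g) (an n) 1) ≤ η / 4 := by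
    have q1 : (C + 1) / Real.log K ≤ κ := by
      refine le_trans ?_ (hK'.trans (min_le_right _ _))
      gcongr
      nlinarith
    calc _ ≤ (κ + κ) * (1 + Real.exp C * X) := by
          refine mul_le_mul (by linarith) ?_
            (mul_nonneg (Real.exp_pos _).le (XX_nonneg 1)) (by positivity)
          linarith [mul_le_mul_of_nonneg_left c2 (Real.exp_pos C).le]
      _ = η / 4 := by rw [hκ]; field_simp; ring
  linarith

theorem decay_of_q1 (h1 : Q1EStmt) (h2 : LD2Stmt) (h3 : MixStmt) : DecayStmt := by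
  intro η hη
  obtain ⟨C, X, hC, hX, h⟩ := good_event h1 h2 false one_pos (half_pos hη)
  set θ : ℝ := 4 * (C + 2) / η with hθ
  have hθ0 : 0 < θ := by positivity
  obtain ⟨Y, hY, h⟩ := h θ hθ0
  set κ : ℝ := η / (4 * (1 + X)) with hκ
  have hκ0 : 0 < κ := by positivity
  obtain ⟨K, hK, hK'⟩ := exists_level ((C + 1) * Y) one_pos
  obtain ⟨s₁, hs₁, hmix⟩ := h3 (η * κ / (4 * K ^ 2)) (η / 2) (by positivity) (half_pos hη)
  refine ⟨1 + s₁, by positivity, ((h.and hmix).mono ?_).frequently⟩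
  rintro n ⟨⟨hn, e1⟩, e2⟩
  refine (measure_le_of_union e1 (mix_event hn e2) (half_pos hη).le (half_pos hη).le ?_).trans
    (le_of_eq (by rw [add_halves]))
  rintro g hg hgood hmix'
  obtain ⟨c1, c2, c3⟩ := not_not.1 hgood
  have key := c1.AA_decay (a := an n) (tau_pos hn one_pos).le hK hθ0 hκ0 (tau_pos hn hs₁).le hmix'
    (mean_an hn g)
  have e0 : tau n 1 + tau n s₁ = tau n (1 + s₁) := by ring
  rw [e0, ← An_eq_AA hn] at key
  have hl : 0 < Real.log K := Real.log_pos hK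
  have p1 : ((C + 1) / Real.log K * XX (ch hn g) (an n) θ + (C + 1)) / θ ≤ η / 4 := by
    have q1 : (C + 1) / Real.log K * XX (ch hn g) (an n) θ ≤ 1 := by
      refine le_trans ?_ hK'
      rw [div_mul_eq_mul_div]
      gcongr
    rw [div_le_iff₀ hθ0, hθ]
    have : η / 4 * (4 * (C + 2) / η) = C + 2 := by field_simp
    linarith
  have p2 : K ^ 2 * (η * κ / (4 * K ^ 2)) / κ = η / 4 := by field_simp
  have p3 : κ * XX (ch hn g) (an n) 1 ≤ η / 4 := by
    calc _ ≤ κ * (1 + X) := by gcongr; linarith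
      _ = η / 4 := by rw [hκ]; field_simp
  have hg' : η < An n g (1 + s₁) := hg
  linarith


/-- **S0232 and S0233 from the joint finite-dimensional convergence and the a priori inputs.** -/
theorem r33_of_q1 (h0 : ABFddStmt) (h1 : Q1EStmt) (h2 : LD2Stmt) (h3 : MixStmt) : Top.R33 :=
  s0233_of_fdd h0 (atight_of_q1 h1 h2) (bsize_of_q1 h1 h2) (bmod_of_q1 h1 h2) (merge_of_q1 h1 h2 h3)

theorem r32_of_q1 (h0 : AFddStmt) (h1 : Q1EStmt) (h2 : LD2Stmt) (h3 : MixStmt) (h4 : SoftLowStmt)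
    (h5 : SoftHighStmt) : Top.R32 :=
  s0232_of_fdd h0 (atight_of_q1 h1 h2) (nonzero_of_soft h4) (decay_of_q1 h1 h2 h3)
    (spread_of_unbounded (atight_of_q1 h1 h2) (unbounded_of_soft h5))

theorem r32_of_fdd (h1 : AFddStmt) (h2 : ATightStmt) (h3 : NonzeroStmt) (h4 : DecayStmt)
    (h5 : SpreadStmt) : Top.R32 := s0232_of_fdd h1 h2 h3 h4 h5


end Crest.Agent.T157.Soft

end
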