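import Crest.Agent.T157.StA_87

/-!
# Row 157, part C4 (A), second file: the chain at the level of the outputs (helper87)

`Ay K h x = E h(K x + √K z)`, `Qy K K' μ h = pm K μ (Ay K' h)`, `Ch`; exponential moments of the
posterior mean; `L¹` comparison of the chains of two laws; `phiContStmt`.
-/

set_option autoImplicit false
set_option linter.unusedSectionVars false

noncomputable section

namespace Crest.Agent.T157.St.A87

open MeasureTheory ProbabilityTheory Matrix Filter Topology Finset Real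
open Crest.Agent.T157.E Crest.Agent.T157.Cond Crest.Agent.T157.SL Crest.Agent.T157.Rec

variable {ι : Type*} [Fintype ι] [DecidableEq ι] {μ ν : Measure (ι → ℝ)} {K K' : ℝ}
  {F G f g h h' : (ι → ℝ) → ℝ} {J : Type*} [Fintype J]

/-- bounded measurable -/
structure Bm (h : (ι → ℝ) → ℝ) : Prop where
  meas : Measurable h
  bd : ∃ C : ℝ, ∀ y, |h y| ≤ C

namespace Bm
lemma mg (a : Bm h) : MG h := a.bd.elim fun C hC => MG.of_bdd a.meas C hC
lemma bs (a : Bm h) : Bs μ h := a.bd.elim fun _ hC => Bs.of_bdd a.meas hC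
lemma const (c : ℝ) : Bm fun _ : ι → ℝ => c := ⟨measurable_const, |c|, fun _ => le_rfl⟩
lemma mul (a : Bm h) (b : Bm h') : Bm fun y => h y * h' y := by
  obtain ⟨C, h1⟩ := a.bd
  obtain ⟨C', h1'⟩ := b.bd
  refine ⟨a.meas.mul b.meas, C * C', fun y => ?_⟩
  rw [abs_mul]; exact mul_le_mul (h1 y) (h1' y) (abs_nonneg _) ((abs_nonneg _).trans (h1 y))
lemma add (a : Bm h) (b : Bm h') : Bm fun y => h y + h' y := by
  obtain ⟨C, h1⟩ := a.bd
  obtain ⟨C', h1'⟩ := b.bd
  exact ⟨a.meas.add b.meas, C + C', fun y => (abs_add_le _ _).trans (add_le_add (h1 y) (h1' y))⟩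
lemma const_mul (c : ℝ) (a : Bm h) : Bm fun y => c * h y := (const c).mul a
lemma sub (a : Bm h) (b : Bm h') : Bm fun y => h y - h' y := by
  simpa [sub_eq_add_neg] using a.add (b.const_mul (-1))
lemma sq (a : Bm h) : Bm fun y => h y ^ 2 := by simpa only [_root_.sq] using a.mul a
lemma sum {L : Type*} (s : Finset L) {h : L → (ι → ℝ) → ℝ} (a : ∀ j ∈ s, Bm (h j)) :
    Bm fun x => ∑ j ∈ s, h j x := by
  classical
  induction s using Finset.induction_on with
  | empty => simpa using const 0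
  | insert k s hk ih =>
    simpa [Finset.sum_insert hk] using (a k (by simp)).add (ih fun j hj => a j (by simp [hj]))
lemma indicator (a : Bm h) {A : Set (ι → ℝ)} (hA : MeasurableSet A) : Bm (A.indicator h) := by
  obtain ⟨C, h1⟩ := a.bd
  exact ⟨a.meas.indicator hA, C, fun y => le_trans
    (by simpa only [Real.norm_eq_abs] using norm_indicator_le_norm_self h y) (h1 y)⟩
lemma len {h : J → (ι → ℝ) → ℝ} (a : ∀ j, Bm (h j)) : Bm fun y => len fun j => h j y := by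
  obtain ⟨C, h1⟩ := (sum univ fun j _ => (a j).mul (a j)).bd
  refine ⟨Measurable.t157_len (measurable_pi_lambda _ fun j => (a j).meas), √C, fun y => ?_⟩
  rw [abs_of_nonneg (len_nonneg _)]
  exact Real.sqrt_le_sqrt ((le_abs_self _).trans (h1 y))
end Bm

lemma bm_pm (hμ : Cp μ) (hK : 0 ≤ K) (hf : Bs μ f) : Bm (pm K μ f) :=
  hf.bd.elim fun C hC => ⟨measurable_pm hμ hf.meas, C, abs_pm_le hμ hK hC.2⟩

lemma bm_mf (hμ : Cp μ) (hK : 0 ≤ K) (i : ι) : Bm fun y => mf K μ y i :=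
  bm_pm hμ hK (Bs.coord hμ i)

lemma abs_dot_le (u w : J → ℝ) : |u ⬝ᵥ w| ≤ len u * len w := by
  rw [len, len, ← Real.sqrt_mul (Cond.dot_self_nonneg u)]
  refine Real.abs_le_sqrt ?_
  simpa only [dotProduct, sq] using Finset.sum_mul_sq_le_sq_mul_sq univ u w





/-! ### posterior means -/

lemma pm_const (hμ : Cp μ) (hK : 0 ≤ K) (c : ℝ) (y : ι → ℝ) : pm K μ (fun _ => c) y = c := by
  rw [pm_eq, Un_const, mul_div_cancel_right₀ _ (Mf_pos hμ hK y).ne']

lemma pm_mono (hμ : Cp μ) (hK : 0 ≤ K) (hf : Bs μ f) (hg : Bs μ g) (e : ∀ᵐ x ∂μ, f x ≤ g x)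
    (y : ι → ℝ) : pm K μ f y ≤ pm K μ g y :=
  div_le_div_of_nonneg_right (Un_mono hμ hK hf hg e y) (Mf_pos hμ hK y).le

lemma pm_sub (hμ : Cp μ) (hK : 0 ≤ K) (hf : Bs μ f) (hg : Bs μ g) (y : ι → ℝ) :
    pm K μ (fun x => f x - g x) y = pm K μ f y - pm K μ g y := by
  simp only [pm_eq, Un_sub hμ hK hf hg, sub_div]

lemma pm_add (hμ : Cp μ) (hK : 0 ≤ K) (hf : Bs μ f) (hg : Bs μ g) (y : ι → ℝ) :
    pm K μ (fun x => f x + g x) y = pm K μ f y + pm K μ g y := by
  simp only [pm_eq, Un_add hμ hK hf hg, add_div]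

lemma pm_const_mul (c : ℝ) (y : ι → ℝ) : pm K μ (fun x => c * f x) y = c * pm K μ f y := by
  simp only [pm_eq, Un_const_mul, mul_div_assoc]

lemma pm_sum (hμ : Cp μ) (hK : 0 ≤ K) {L : Type*} (s : Finset L) {f : L → (ι → ℝ) → ℝ}
    (a : ∀ j ∈ s, Bs μ (f j)) (y : ι → ℝ) :
    pm K μ (fun x => ∑ j ∈ s, f j x) y = ∑ j ∈ s, pm K μ (f j) y := by
  simp only [pm_eq, Un_sum hμ hK s a, Finset.sum_div]


/-- Jensen for the exponential of a linear form -/
lemma exp_le_pm (hμ : Cp μ) (hK : 0 ≤ K) (u y : ι → ℝ) :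
    exp (u ⬝ᵥ mf K μ y) ≤ pm K μ (fun x => exp (u ⬝ᵥ x)) y := by
  set a := u ⬝ᵥ mf K μ y with ha
  have hl : Bs μ fun x => u ⬝ᵥ x := Bs.sum univ fun i _ => (Bs.coord hμ i).const_mul (u i)
  have e1 : pm K μ (fun x => u ⬝ᵥ x) y = a := by
    rw [ha, dotProduct]
    refine (pm_sum hμ hK univ (fun i _ => (Bs.coord hμ i).const_mul (u i)) y).trans ?_
    simp only [pm_const_mul, mf]
  have := pm_mono hμ hK (((hl.sub (.const a)).add (.const 1)).const_mul (exp a))
    (Bs.of_mg hμ (by simpa using mg_exp_dot 1 u) : Bs μ fun x => exp (u ⬝ᵥ x))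
    (.of_forall fun x => by
      have := mul_le_mul_of_nonneg_left (add_one_le_exp (u ⬝ᵥ x - a)) (exp_pos a).le
      rwa [← exp_add, add_sub_cancel] at this) y
  rw [pm_const_mul, pm_add hμ hK (hl.sub (.const a)) (.const 1), pm_sub hμ hK hl (.const a),
    pm_const hμ hK, pm_const hμ hK, e1] at this
  simpa using this

/-- squared length of the posterior mean -/
def Sq (K : ℝ) (μ : Measure (ι → ℝ)) (y : ι → ℝ) : ℝ := ∑ i, mf K μ y i ^ 2

lemma Sq_nonneg (y : ι → ℝ) : 0 ≤ Sq K μ y := Finset.sum_nonneg fun _ _ => sq_nonneg _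

lemma bm_Sq (hμ : Cp μ) (hK : 0 ≤ K) : Bm (Sq K μ) := Bm.sum _ fun i _ => (bm_mf hμ hK i).sq

lemma bm_exp_Sq (hμ : Cp μ) (hK : 0 ≤ K) (c : ℝ) : Bm fun y => exp (c * Sq K μ y) := by
  obtain ⟨C, hC⟩ := ((bm_Sq hμ hK).const_mul c).bd
  exact ⟨(measurable_const.mul (bm_Sq hμ hK).meas).exp, exp C, fun y => by
    rw [abs_of_pos (exp_pos _)]; exact exp_le_exp.2 ((le_abs_self _).trans (hC y))⟩

lemma sq_exp_le (hμ : Cp μ) (hK : 0 ≤ K) (hK' : 0 ≤ K') (y : ι → ℝ) :
    Mf K μ y ^ 2 * exp (K' * Sq K μ y) ≤ IK K' fun y' => Mf (K + K') μ (y + y') ^ 2 := by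
  have hs := add_nonneg hK hK'
  set m := mf K μ y with hm
  have e0 : m ⬝ᵥ m = Sq K μ y := by simp only [Sq, dotProduct, sq, hm]
  have h1 := IK_cs (K := K') (mg_shift (mg_Mf hμ hs) y) (mg_ew hK' m)
  have h2 : IK K' (fun y' => ew K' y' m ^ 2) = exp (K' * Sq K μ y) := by
    simp only [sq]; rw [IK_ew_ew hK', e0]
  have h3 : IK K' (fun y' => Mf (K + K') μ (y + y') * ew K' y' m) =
      Un K μ (fun x => exp ((K' • m) ⬝ᵥ x)) y := by
    rw [Mf_eq, swap hμ hs (.const 1) (mg_ew hK' m) y K', Un]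
    simp only [ew_add, mul_assoc, IK_const_mul, IK_ew_ew hK', one_mul, smul_dotProduct,
      smul_eq_mul, dotProduct_comm m]
    simp only [mul_comm]
  have h4 := exp_le_pm hμ hK (K' • m) y
  rw [← hm, smul_dotProduct, e0, smul_eq_mul] at h4
  rw [h2, h3, Un_eq hμ hK] at h1
  have h5 := Mf_pos hμ hK y
  have h6 := exp_pos (K' * Sq K μ y)
  have h7 : (Mf K μ y * exp (K' * Sq K μ y)) ^ 2 ≤
      (Mf K μ y * pm K μ (fun x => exp ((K' • m) ⬝ᵥ x)) y) ^ 2 := by gcongr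
  refine le_of_mul_le_mul_right ?_ h6
  nlinarith

/-- **exponential moment of the posterior mean** -/
theorem exp_mom (hμ : Cp μ) (hK : 0 ≤ K) (hK' : 0 ≤ K') :
    IK K (fun y => Mf K μ y * exp (K' / 2 * Sq K μ y)) ≤ Xk (K + K') μ μ := by
  have hs := add_nonneg hK hK'
  have m := mg_IK (mg_sq (mg_Mf hμ hs)) K'
  have h1 := IK_mono (K := K) ((mg_Mf hμ hK).mul (bm_exp_Sq hμ hK (K' / 2)).mg)
    (((MG.const 1).add m).const_mul (1 / 2)) fun y => by
      have h := sq_exp_le hμ hK hK' y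
      have e : exp (K' * Sq K μ y) = exp (K' / 2 * Sq K μ y) ^ 2 := by
        rw [← exp_nat_mul]; congr 1; push_cast; ring
      rw [e, ← mul_pow] at h
      nlinarith [sq_nonneg (Mf K μ y * exp (K' / 2 * Sq K μ y) - 1)]
  rw [IK_const_mul, IK_add (.const 1) m, IK_const, IK_IK hK hK' (mg_sq (mg_Mf hμ hs)),
    ← Xk_eq hμ hs] at h1
  linarith [one_le_Xk hμ hs]

lemma mom2 (hμ : Cp μ) (hK : 0 < K) {B : ℝ} (hB : Xk (K + K) μ μ ≤ B) :
    IK K (fun y => Mf K μ y * Sq K μ y) ≤ 2 * B / K := by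
  rw [le_div_iff₀ hK, mul_comm, ← IK_const_mul]
  refine le_trans ?_ (mul_le_mul_of_nonneg_left ((exp_mom hμ hK.le hK.le).trans hB) zero_le_two)
  rw [← IK_const_mul]
  refine IK_mono (((mg_Mf hμ hK.le).mul (bm_Sq hμ hK.le).mg).const_mul _)
    (((mg_Mf hμ hK.le).mul (bm_exp_Sq hμ hK.le _).mg).const_mul _) fun y => ?_
  nlinarith [add_one_le_exp (K / 2 * Sq K μ y), Mf_pos hμ hK.le y]

lemma mom4 (hμ : Cp μ) (hK : 0 < K) {B : ℝ} (hB : Xk (K + K) μ μ ≤ B) :
    IK K (fun y => Mf K μ y * Sq K μ y ^ 2) ≤ 8 * B / K ^ 2 := by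
  rw [le_div_iff₀ (by positivity), mul_comm, ← IK_const_mul]
  refine le_trans ?_ (mul_le_mul_of_nonneg_left ((exp_mom hμ hK.le hK.le).trans hB)
    (by norm_num : (0 : ℝ) ≤ 8))
  rw [← IK_const_mul]
  refine IK_mono (((mg_Mf hμ hK.le).mul (bm_Sq hμ hK.le).sq.mg).const_mul _)
    (((mg_Mf hμ hK.le).mul (bm_exp_Sq hμ hK.le _).mg).const_mul _) fun y => ?_
  have h0 : 0 ≤ K / 2 * Sq K μ y := mul_nonneg (half_pos hK).le (Sq_nonneg y)
  have := Real.quadratic_le_exp_of_nonneg h0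
  nlinarith [Mf_pos hμ hK.le y]

/-! ### the chain -/

/-- conditional expectation given the input -/
def Ay (K : ℝ) (h : (ι → ℝ) → ℝ) (x : ι → ℝ) : ℝ := ∫ z, h (K • x + √K • z) ∂gv ι

/-- transition operator between the outputs -/
def Qy (K K' : ℝ) (μ : Measure (ι → ℝ)) (h : (ι → ℝ) → ℝ) : (ι → ℝ) → ℝ := pm K μ (Ay K' h)

lemma Tk_eq : Tk K μ f = Ay K (pm K μ f) := rfl

lemma intA (a : MG h) (K : ℝ) (x : ι → ℝ) : Integrable (fun z => h (K • x + √K • z)) (gv ι) :=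
  (a.affine _ _).int

lemma measurable_Ay (a : Measurable h) : Measurable (Ay K h) :=
  (StronglyMeasurable.integral_prod_right (f := fun x z => h (K • x + √K • z))
    (a.comp (by fun_prop)).stronglyMeasurable).measurable

lemma abs_Ay_le {C : ℝ} (a : ∀ y, |h y| ≤ C) (x : ι → ℝ) : |Ay K h x| ≤ C := by
  simpa [Ay] using norm_integral_le_of_norm_le_const (μ := gv ι) (f := fun z => h (K • x + √K • z))
    (C := C) (.of_forall fun z => a _)

lemma bm_Ay (a : Bm h) : Bm (Ay K h) :=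
  a.bd.elim fun C hC => ⟨measurable_Ay a.meas, C, abs_Ay_le hC⟩





lemma Ay_const (c : ℝ) : Ay K (fun _ : ι → ℝ => c) = fun _ => c := by funext x; simp [Ay]










/-- the chain of transition operators -/
def Ch (μ : Measure (ι → ℝ)) : ℝ → List ℝ → ((ι → ℝ) → ℝ) → (ι → ℝ) → ℝ
  | _, [], h => h
  | K, K' :: Ks, h => Qy K K' μ (Ch μ K' Ks h)

/-- the last level -/
def lst : ℝ → List ℝ → ℝ
  | K, [] => K
  | _, K' :: Ks => lst K' Ks


variable {Ks : List ℝ}









/-! ### truncation -/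

/-- the set where both posterior means are bounded -/
def Ab (K b : ℝ) (μ ν : Measure (ι → ℝ)) : Set (ι → ℝ) := {y | Sq K μ y ≤ b ^ 2 ∧ Sq K ν y ≤ b ^ 2}


lemma measurableSet_Ab (hμ : Cp μ) (hν : Cp ν) (hK : 0 ≤ K) (b : ℝ) : MeasurableSet (Ab K b μ ν) :=
  (measurableSet_le (bm_Sq hμ hK).meas measurable_const).inter
    (measurableSet_le (bm_Sq hν hK).meas measurable_const)

/-- truncated posterior mean -/
def tr (K : ℝ) (A : Set (ι → ℝ)) (μ : Measure (ι → ℝ)) (i : ι) : (ι → ℝ) → ℝ :=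
  A.indicator fun y => mf K μ y i

lemma bm_tr (hμ : Cp μ) (hK : 0 ≤ K) {A : Set (ι → ℝ)} (hA : MeasurableSet A) (i : ι) :
    Bm (tr K A μ i) := (bm_mf hμ hK i).indicator hA



lemma tail_le (hμ : Cp μ) (hν : Cp ν) (hK : 0 < K) {B D a b : ℝ} (hB : Xk (K + K) μ μ ≤ B)
    (hB' : Xk (K + K) ν ν ≤ B) (hD : √(D2 K μ ν) ≤ D) (ha : 0 < a) (hb : 0 < b) :
    IK K (fun y => Mf K μ y * ∑ i, (mf K μ y i - tr K (Ab K b μ ν) μ i y) ^ 2) ≤
      a * (4 * B / K / b ^ 2 + D) + 8 * B / K ^ 2 / a := by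
  have m1 := (mg_Mf hμ hK.le).mul (bm_Sq hμ hK.le).mg
  have m2 := (mg_Mf hν hK.le).mul (bm_Sq hν hK.le).mg
  have m3 := ((mg_Mf hμ hK.le).sub (mg_Mf hν hK.le)).abs
  have m4 := (mg_Mf hμ hK.le).mul (bm_Sq hμ hK.le).sq.mg
  have := IK_mono (K := K) ((mg_Mf hμ hK.le).mul (Bm.sum univ fun i _ => ((bm_mf hμ hK.le i).sub
    (bm_tr hμ hK.le (measurableSet_Ab hμ hν hK.le b) i)).sq).mg)
    (((((m1.add m2).const_mul (1 / b ^ 2)).add m3).const_mul a).add (m4.const_mul (1 / a)))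
    fun y => by
      have p1 := Mf_pos hμ hK.le y
      have p2 := Mf_pos hν hK.le y
      have s1 := Sq_nonneg (K := K) (μ := μ) y
      have s2 := Sq_nonneg (K := K) (μ := ν) y
      by_cases hy : y ∈ Ab K b μ ν
      · simp only [tr, Set.indicator_of_mem hy, sub_self]
        simp only [ne_eq, OfNat.ofNat_ne_zero, not_false_eq_true, zero_pow, sum_const_zero, mul_zero]
        positivity
      · simp only [tr, Set.indicator_of_notMem hy, sub_zero]
        change Mf K μ y * Sq K μ y ≤ _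
        have h1 : Mf K μ y ≤ 1 / b ^ 2 * (Mf K μ y * Sq K μ y + Mf K ν y * Sq K ν y) +
            |Mf K μ y - Mf K ν y| := by
          rw [one_div_mul_eq_div]
          rcases not_and_or.1 hy with h | h
          · refine le_add_of_le_of_nonneg ?_ (abs_nonneg _)
            rw [le_div_iff₀ (by positivity)]
            nlinarith [not_le.1 h, mul_nonneg p2.le s2]
          · have : Mf K ν y ≤ (Mf K μ y * Sq K μ y + Mf K ν y * Sq K ν y) / b ^ 2 := by
              rw [le_div_iff₀ (by positivity)]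
              nlinarith [not_le.1 h, mul_nonneg p1.le s1]
            linarith [le_abs_self (Mf K μ y - Mf K ν y)]
        have h2 : Sq K μ y ≤ a + 1 / a * Sq K μ y ^ 2 := by
          rw [one_div_mul_eq_div, ← sub_le_iff_le_add', le_div_iff₀ ha]
          nlinarith [sq_nonneg (Sq K μ y - a)]
        nlinarith [mul_le_mul_of_nonneg_left h1 ha.le, mul_le_mul_of_nonneg_left h2 p1.le]
  rw [IK_add ((((m1.add m2).const_mul _).add m3).const_mul a) (m4.const_mul _), IK_const_mul,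
    IK_add ((m1.add m2).const_mul _) m3, IK_const_mul, IK_add m1 m2, IK_const_mul] at this
  have g1 := IK_abs_le_sqrt (K := K) ((mg_Mf hμ hK.le).sub (mg_Mf hν hK.le))
  rw [← D2_eq hμ hν hK.le] at g1
  refine this.trans (add_le_add (mul_le_mul_of_nonneg_left (add_le_add ?_ (g1.trans hD)) ha.le) ?_)
  · rw [one_div_mul_eq_div]
    gcongr
    have := add_le_add (mom2 hμ hK hB) (mom2 hν hK hB')
    exact this.trans_eq (by ring)
  · rw [one_div_mul_eq_div]
    gcongr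
    exact mom4 hμ hK hB



/-- the truncated chain functional -/
def Pt (μ : Measure (ι → ℝ)) (K : ℝ) (Ks : List ℝ) (A A' : Set (ι → ℝ)) : ℝ :=
  IK K fun y => Mf K μ y * ∑ i, tr K A μ i y * Ch μ K Ks (tr (lst K Ks) A' μ i) y



end Crest.Agent.T157.St.A87

namespace Crest.Agent.T157.St
open A87 Real


end Crest.Agent.T157.St

end
private theorem rz_67fba7c2a0 : type_of% @_root_.Crest.Agent.T157.St.A87.Ch.eq_def := @_root_.Crest.Agent.T157.St.A87.Ch.eq_def -- L369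
private theorem rz_a655293ad3 : type_of% @_root_.Crest.Agent.T157.St.A87.Ch.eq_1 := @_root_.Crest.Agent.T157.St.A87.Ch.eq_1 -- L369
private theorem rz_ba32c2b552 : type_of% @_root_.Crest.Agent.T157.St.A87.lst.eq_def := @_root_.Crest.Agent.T157.St.A87.lst.eq_def -- L374
private theorem rz_57c58dd370 : type_of% @_root_.Crest.Agent.T157.St.A87.lst.eq_1 := @_root_.Crest.Agent.T157.St.A87.lst.eq_1 -- L374
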