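import Crest.Agent.T157.StDef_87
import Crest.Agent.T157.EdTri_62

-- ▼ part T157/StClA_28
section

/-!
# Row 157, part C4 (D), file A (helper28): one-dimensional and Gaussian estimates
-/

set_option autoImplicit false

noncomputable section

namespace Crest.Agent.T157.St.Cl28

open MeasureTheory ProbabilityTheory Matrix Filter Topology Finset Real
open scoped ENNReal
open Crest.Agent.T157.E Crest.Agent.T157.Cond Crest.Agent.T157.Ed

lemma rp_eq {x : ℝ} (hx : 0 ≤ x) : x ^ (3 / 2 : ℝ) = x * √x := by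
  rw [show (3 / 2 : ℝ) = 1 + 1 / 2 by norm_num, Real.rpow_add' hx (by norm_num), Real.rpow_one,
    Real.sqrt_eq_rpow]

lemma rp_mono {x y : ℝ} (hx : 0 ≤ x) (h : x ≤ y) : x ^ (3 / 2 : ℝ) ≤ y ^ (3 / 2 : ℝ) :=
  Real.rpow_le_rpow hx h (by norm_num)

lemma rp_add {a b : ℝ} (ha : 0 ≤ a) (hb : 0 ≤ b) :
    (a + b) ^ (3 / 2 : ℝ) ≤ 2 * a ^ (3 / 2 : ℝ) + 2 * b ^ (3 / 2 : ℝ) := by
  rw [rp_eq ha, rp_eq hb, rp_eq (add_nonneg ha hb)]
  obtain ⟨p, hp, rfl⟩ : ∃ p, 0 ≤ p ∧ a = p ^ 2 := ⟨√a, sqrt_nonneg _, (sq_sqrt ha).symm⟩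
  obtain ⟨q, hq, rfl⟩ : ∃ q, 0 ≤ q ∧ b = q ^ 2 := ⟨√b, sqrt_nonneg _, (sq_sqrt hb).symm⟩
  rw [sqrt_sq hp, sqrt_sq hq]
  have h1 : √(p ^ 2 + q ^ 2) ≤ p + q := by
    rw [sqrt_le_left (by positivity)]; nlinarith [mul_nonneg hp hq]
  have h2 := mul_le_mul_of_nonneg_left h1 (by positivity : 0 ≤ p ^ 2 + q ^ 2)
  nlinarith [mul_nonneg (sq_nonneg (p - q)) (add_nonneg hp hq)]

lemma rp_sq {g : ℝ} (hg : 0 ≤ g) : (g ^ 2) ^ (3 / 2 : ℝ) = g ^ 3 := by
  rw [rp_eq (sq_nonneg g), sqrt_sq hg]; ring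

/-- a quantitative improvement of `cosh u ≤ exp (u² / 2)` away from the origin -/
lemma cosh_far {δ : ℝ} (hδ : 0 < δ) : ∃ κ : ℝ, 0 < κ ∧ κ ≤ 1 / 16 ∧ ∀ u : ℝ, δ ≤ |u| →
    cosh u ≤ exp ((1 - κ) * u ^ 2 / 2 - 8 * κ) := by
  set a := exp (-(δ ^ 2 / 4)) with ha
  have ha0 : 0 < a := exp_pos _
  have ha1 : a < 1 := by rw [ha, exp_lt_one_iff]; have := pow_pos hδ 2; linarith
  refine ⟨(1 - a) ^ 2 / 16, by have := pow_pos (sub_pos.2 ha1) 2; linarith, by nlinarith,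
    fun u hu => ?_⟩
  set κ := (1 - a) ^ 2 / 16 with hκ
  have hκ0 : 0 < κ := by have := pow_pos (sub_pos.2 ha1) 2; linarith
  have hκ1 : κ ≤ 1 / 16 := by nlinarith
  by_cases h4 : |u| ≤ 4
  · have hu2 : δ ^ 2 ≤ u ^ 2 := by rw [← sq_abs u]; exact pow_le_pow_left₀ hδ.le hu 2
    have hu4 : u ^ 2 ≤ 16 := by rw [← sq_abs u]; nlinarith [abs_nonneg u]
    set E := exp (u ^ 2 / 4) with hE
    set b := exp (-(u ^ 2 / 4)) with hb
    have hb0 : 0 < b := exp_pos _
    have hE0 : 0 < E := exp_pos _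
    have hba : b ≤ a := exp_le_exp.2 (by linarith)
    have hEb : E * b = 1 := by rw [hE, hb, ← exp_add]; simp
    have h1 : cosh (u / 2) ^ 2 ≤ E := by
      have := pow_le_pow_left₀ (cosh_pos _).le (cosh_le_exp_half_sq (u / 2)) 2
      rwa [← exp_nat_mul, show ((2 : ℕ) : ℝ) * ((u / 2) ^ 2 / 2) = u ^ 2 / 4 by push_cast; ring]
        at this
    have h2 : cosh u = 2 * cosh (u / 2) ^ 2 - 1 := by
      have h3 := cosh_two_mul (u / 2)
      have h5 := cosh_sq (u / 2)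
      rw [show 2 * (u / 2) = u by ring] at h3
      linarith
    have h3 : 2 * E - 1 = E ^ 2 * (1 - (1 - b) ^ 2) := by
      have : E ^ 2 * (1 - (1 - b) ^ 2) = 2 * E * (E * b) - (E * b) ^ 2 := by ring
      rw [this, hEb]; ring
    have h5 : 1 - (1 - b) ^ 2 ≤ exp (-(16 * κ)) := by
      have := add_one_le_exp (-(16 * κ))
      have h6 : (1 - a) ^ 2 ≤ (1 - b) ^ 2 := pow_le_pow_left₀ (by linarith) (by linarith) 2
      linarith
    calc cosh u ≤ E ^ 2 * (1 - (1 - b) ^ 2) := by linarith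
      _ ≤ E ^ 2 * exp (-(16 * κ)) := mul_le_mul_of_nonneg_left h5 (by positivity)
      _ = exp (u ^ 2 / 2 - 16 * κ) := by
        rw [hE, ← exp_nat_mul, ← exp_add]; congr 1; push_cast; ring
      _ ≤ _ := exp_le_exp.2 (by nlinarith)
  · rw [not_le] at h4
    have h1 : cosh u ≤ exp |u| := by
      rw [← cosh_abs, cosh_eq]
      have : exp (-|u|) ≤ exp |u| := exp_le_exp.2 (by linarith)
      linarith
    refine h1.trans (exp_le_exp.2 ?_)
    rw [← sq_abs u]
    nlinarith [mul_nonneg hκ0.le (sq_nonneg |u|)]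

/-- the slicing inequality -/
lemma near {L : ℝ → ℝ} {t δ c : ℝ} (ht : 0 < t) (hδ : 0 ≤ δ) (hδ1 : δ ≤ 1) (hc : 0 ≤ c)
    (hpos : ∀ v, 0 < L v) (hev : ∀ v, L (-v) = L v)
    (h1 : ∀ v, exp (v ^ 2 / (2 * t) - v ^ 4 / (4 * t ^ 5)) ≤ L v)
    (h2 : ∀ v s, 0 < v → 0 ≤ s → (v + s) * log (L v) ≤ v * log (L (v + s)))
    {J N : ℕ} (hJ : 1 ≤ J) (hN : δ * t < N) {v : ℝ} (hv : |v| ≤ δ * t ^ 2) :
    exp (v ^ 2 / (2 * t)) ≤ exp ((J : ℝ) ^ 4 / (4 * t)) * L v +
      ∑ j ∈ Ico J N, exp (-((c / 4 - 2 * δ) * (j : ℝ) ^ 3)) *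
        (L (v + c * (j : ℝ) ^ 2) + L (v - c * (j : ℝ) ^ 2)) := by
  have hterm : ∀ j ∈ Ico J N, 0 ≤ exp (-((c / 4 - 2 * δ) * (j : ℝ) ^ 3)) *
      (L (v + c * (j : ℝ) ^ 2) + L (v - c * (j : ℝ) ^ 2)) := fun j _ =>
    mul_nonneg (exp_pos _).le (add_nonneg (hpos _).le (hpos _).le)
  obtain ⟨r, hr0, hr⟩ : ∃ r, 0 ≤ r ∧ |v| = r * t := ⟨|v| / t, by positivity, by field_simp⟩
  have hv2 : v ^ 2 = r ^ 2 * t ^ 2 := by rw [← sq_abs, hr]; ring
  have hv4 : v ^ 4 / (4 * t ^ 5) = r ^ 4 / (4 * t) := by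
    rw [show v ^ 4 = (v ^ 2) ^ 2 by ring, hv2]; field_simp
  have hrδ : r ≤ δ * t := by
    rw [hr] at hv
    exact le_of_mul_le_mul_right (by nlinarith) ht
  have h0 : exp (v ^ 2 / (2 * t)) ≤ exp (r ^ 4 / (4 * t)) * L v := by
    have := mul_le_mul_of_nonneg_left (h1 v) (exp_pos (r ^ 4 / (4 * t))).le
    rwa [← exp_add, hv4, add_sub_cancel] at this
  by_cases hrJ : r ≤ J
  · refine h0.trans (le_add_of_le_of_nonneg ?_ (sum_nonneg hterm))
    refine mul_le_mul_of_nonneg_right (exp_le_exp.2 ?_) (hpos v).le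
    exact div_le_div_of_nonneg_right (pow_le_pow_left₀ hr0 hrJ 4) (by positivity)
  rw [not_le] at hrJ
  set j := ⌊r⌋₊ with hj
  have hjr : (j : ℝ) ≤ r := Nat.floor_le hr0
  have hrj : r < j + 1 := Nat.lt_floor_add_one r
  have hJj : J ≤ j := Nat.le_floor hrJ.le
  have hj1 : (1 : ℝ) ≤ j := by exact_mod_cast hJ.trans hJj
  have hjN : j < N := by exact_mod_cast (hjr.trans hrδ).trans_lt hN
  have hmem : j ∈ Ico J N := mem_Ico.2 ⟨hJj, hjN⟩
  refine h0.trans (le_add_of_nonneg_of_le (mul_nonneg (exp_pos _).le (hpos v).le)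
    (le_trans ?_ (single_le_sum hterm hmem)))
  have hrpos : 0 < r := by linarith
  have hw : 0 < |v| := by rw [hr]; positivity
  have hLv : L |v| = L v := by
    rcases abs_cases v with h | h
    · rw [h.1]
    · rw [h.1, hev]
  have hs : 0 ≤ c * (j : ℝ) ^ 2 := by positivity
  have hA : L (|v| + c * (j : ℝ) ^ 2) ≤ L (v + c * (j : ℝ) ^ 2) + L (v - c * (j : ℝ) ^ 2) := by
    rcases abs_cases v with h | h
    · rw [h.1]; linarith [hpos (v - c * (j : ℝ) ^ 2)]
    · rw [h.1, ← hev (v - _), show -(v - c * (j : ℝ) ^ 2) = -v + c * (j : ℝ) ^ 2 by ring]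
      linarith [hpos (v + c * (j : ℝ) ^ 2)]
  have hlog : r ^ 2 * t / 4 ≤ log (L v) := by
    have := (le_log_iff_exp_le (hpos v)).2 (h1 v)
    rw [hv4, hv2] at this
    have e1 : r ^ 2 * t ^ 2 / (2 * t) = r ^ 2 * t / 2 := by field_simp
    have hrt : r ≤ t := hrδ.trans (by nlinarith)
    have e2 : r ^ 4 / (4 * t) ≤ r ^ 2 * t / 4 := by
      rw [div_le_iff₀ (by positivity)]
      have : r ^ 2 ≤ t ^ 2 := pow_le_pow_left₀ hr0 hrt 2
      nlinarith [sq_nonneg r]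
    linarith
  have hgain : log (L v) + c * (j : ℝ) ^ 3 / 4 ≤ log (L (|v| + c * (j : ℝ) ^ 2)) := by
    have h3 := h2 |v| _ hw hs
    rw [hLv] at h3
    refine le_of_mul_le_mul_left ?_ hw
    have h4 : |v| * (c * (j : ℝ) ^ 3 / 4) ≤ c * (j : ℝ) ^ 2 * log (L v) := by
      refine le_trans ?_ (mul_le_mul_of_nonneg_left hlog hs)
      rw [hr]
      have := mul_le_mul_of_nonneg_left hjr (by positivity : 0 ≤ c * (j : ℝ) ^ 2 * r * t / 4)
      nlinarith
    nlinarith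
  have hB : L v ≤ exp (-(c * (j : ℝ) ^ 3 / 4)) * L (|v| + c * (j : ℝ) ^ 2) := by
    rw [← exp_log (hpos v), ← exp_log (hpos (|v| + _)), ← exp_add]
    exact exp_le_exp.2 (by linarith)
  have hloss : r ^ 4 / (4 * t) ≤ 2 * δ * (j : ℝ) ^ 3 := by
    rw [div_le_iff₀ (by positivity)]
    have h3 : r ^ 3 ≤ (2 * j) ^ 3 := pow_le_pow_left₀ hr0 (by linarith) 3
    have h4 : r ^ 4 ≤ δ * t * r ^ 3 := by
      have := mul_le_mul_of_nonneg_right hrδ (by positivity : 0 ≤ r ^ 3)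
      nlinarith
    have h5 := mul_le_mul_of_nonneg_left h3 (by positivity : 0 ≤ δ * t)
    nlinarith
  calc exp (r ^ 4 / (4 * t)) * L v
      ≤ exp (2 * δ * (j : ℝ) ^ 3) * (exp (-(c * (j : ℝ) ^ 3 / 4)) *
          (L (v + c * (j : ℝ) ^ 2) + L (v - c * (j : ℝ) ^ 2))) :=
        mul_le_mul (exp_le_exp.2 hloss)
          (hB.trans (mul_le_mul_of_nonneg_left hA (exp_pos _).le)) (hpos v).le (exp_pos _).le
    _ = _ := by rw [← mul_assoc, ← exp_add]; congr 2; ring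

/-! ### Gaussian integrals -/

lemma lint_exp_mul (a : ℝ) :
    ∫⁻ g, ENNReal.ofReal (exp (a * g)) ∂gaussianReal 0 1 = ENNReal.ofReal (exp (a ^ 2 / 2)) := by
  rw [← ofReal_integral_eq_lintegral_ofReal (integrable_exp_mul_gaussianReal a)
    (ae_of_all _ fun _ => (exp_pos _).le)]
  have := congrFun (mgf_fun_id_gaussianReal (μ := 0) (v := 1)) a
  simp only [mgf, zero_mul, zero_add, NNReal.coe_one, one_mul] at this
  rw [this]

lemma lint_exp_dot {ι : Type*} [Fintype ι] (u : ι → ℝ) :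
    ∫⁻ g, ENNReal.ofReal (exp (u ⬝ᵥ g)) ∂gv ι = ENNReal.ofReal (exp (u ⬝ᵥ u / 2)) := by
  have e : ∀ g : ι → ℝ, exp (u ⬝ᵥ g) = ∏ i, exp (u i * g i) := fun g => by
    rw [dotProduct, exp_sum]
  have hi : Integrable (fun g : ι → ℝ => ∏ i, exp (u i * g i)) (gv ι) :=
    Integrable.fintype_prod (f := fun i x => exp (u i * x)) fun i =>
      integrable_exp_mul_gaussianReal (u i)
  simp only [e]
  rw [← ofReal_integral_eq_lintegral_ofReal hi
    (ae_of_all _ fun _ => prod_nonneg fun _ _ => (exp_pos _).le),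
    integral_fintype_prod_eq_prod (f := fun i x => exp (u i * x))]
  congr 1
  rw [dotProduct, sum_div, exp_sum]
  refine prod_congr rfl fun i _ => ?_
  have := congrFun (mgf_fun_id_gaussianReal (μ := 0) (v := 1)) (u i)
  simp only [mgf, zero_mul, zero_add, NNReal.coe_one, one_mul] at this
  rw [this, sq]

lemma lint_exp_sq {l : ℝ} (hl : l < 1) :
    ∫⁻ g, ENNReal.ofReal (exp (l * g ^ 2 / 2)) ∂gaussianReal 0 1 ≠ ∞ := by
  rw [gaussianReal_of_var_ne_zero 0 one_ne_zero,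
    lintegral_withDensity_eq_lintegral_mul _ (measurable_gaussianPDF 0 1) (by fun_prop)]
  have hi := (integrable_exp_neg_mul_sq (b := (1 - l) / 2) (by linarith)).const_mul (√(2 * π))⁻¹
  refine ne_of_lt (lt_of_le_of_lt (le_of_eq ?_) hi.lintegral_lt_top)
  refine lintegral_congr fun g => ?_
  simp only [Pi.mul_apply, gaussianPDF]
  rw [← ENNReal.ofReal_mul (gaussianPDFReal_nonneg _ _ _)]
  congr 1
  simp only [gaussianPDFReal, NNReal.coe_one, mul_one, sub_zero]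
  rw [mul_assoc, ← exp_add]
  congr 2; ring

/-- moment generating function of two diagonal entries of the GOE -/
lemma lint_diag {n : ℕ} (hn : 1 ≤ n) {i j : Fin n} (hij : i ≠ j) (a b : ℝ) :
    ∫⁻ W, ENNReal.ofReal (exp (a * W i i + b * W j j)) ∂GOE n =
      ENNReal.ofReal (exp ((a ^ 2 + b ^ 2) / n)) := by
  have hn0 : (0 : ℝ) < n := by exact_mod_cast hn
  have hm : Measurable fun W : Mat n => ENNReal.ofReal (exp (a * W i i + b * W j j)) := by
    have h1 := (measurable_id (α := Mat n)).t157_entry i i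
    have h2 := (measurable_id (α := Mat n)).t157_entry j j
    exact ((h1.const_mul a).add (h2.const_mul b)).exp.ennreal_ofReal
  rw [GOE, goe, lintegral_map hm (measurable_symG _)]
  set k : ℝ := 1 / √n / √2 * 2 with hk
  have hk2 : k ^ 2 = 2 / n := by
    rw [hk, mul_pow, div_pow, div_pow, sq_sqrt hn0.le, sq_sqrt (by norm_num)]; field_simp
  have hne : (i, i) ≠ (j, j) := fun h => hij (congrArg Prod.fst h)
  have e : ∀ x : Fin n × Fin n → ℝ, a * symG (1 / √n) x i i + b * symG (1 / √n) x j j =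
      (Pi.single (i, i) (a * k) + Pi.single (j, j) (b * k) : Fin n × Fin n → ℝ) ⬝ᵥ x := fun x => by
    rw [add_dotProduct, single_dotProduct, single_dotProduct]
    simp only [symG, Matrix.of_apply, hk]; ring
  simp only [e]
  rw [lint_exp_dot, add_dotProduct, single_dotProduct, single_dotProduct]
  simp only [Pi.add_apply, Pi.single_eq_same, Pi.single_eq_of_ne hne, Pi.single_eq_of_ne hne.symm]
  congr 2
  have : (a * k * (a * k + 0) + b * k * (0 + b * k)) / 2 = (a ^ 2 + b ^ 2) * k ^ 2 / 2 := by ring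
  rw [this, hk2]; field_simp

/-- the far part of the second moment -/
lemma far_gauss {κ : ℝ} (hκ : 0 < κ) (hκ1 : κ ≤ 1) : ∃ C : ℝ, 0 ≤ C ∧ ∀ n : ℕ, 1 ≤ n →
    ∀ i j : Fin n, i ≠ j → ∀ θ : ℝ, |θ| ≤ κ →
    ∫⁻ W, ENNReal.ofReal (exp (n * (W i i + W j j) / 2)) *
      ENNReal.ofReal (exp (n * ((1 - κ) * ((W i i - W j j) / 2 + θ) ^ 2 / 2))) ∂GOE n ≤
      ENNReal.ofReal (exp (n / 2 + n * κ) * C) := by
  have hfin := lint_exp_sq (l := 1 - κ / 2) (by linarith)
  refine ⟨_, ENNReal.toReal_nonneg (a := ∫⁻ g, ENNReal.ofReal (exp ((1 - κ / 2) * g ^ 2 / 2))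
    ∂gaussianReal 0 1), fun n hn i j hij θ hθ => ?_⟩
  have hn0 : (0 : ℝ) < n := by exact_mod_cast hn
  set p := √(n * (1 - κ)) with hp
  have hp2 : p ^ 2 = n * (1 - κ) := sq_sqrt (by nlinarith)
  have h1 := (measurable_id (α := Mat n)).t157_entry i i
  have h2 := (measurable_id (α := Mat n)).t157_entry j j
  have e : ∀ W : Mat n, ENNReal.ofReal (exp (n * (W i i + W j j) / 2)) *
      ENNReal.ofReal (exp (n * ((1 - κ) * ((W i i - W j j) / 2 + θ) ^ 2 / 2))) =
      ∫⁻ g, ENNReal.ofReal (exp (p * θ * g)) * ENNReal.ofReal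
        (exp ((n / 2 + p * g / 2) * W i i + (n / 2 - p * g / 2) * W j j)) ∂gaussianReal 0 1 := by
    intro W
    have := lint_exp_mul (p * ((W i i - W j j) / 2 + θ))
    rw [mul_pow, hp2, show n * (1 - κ) * ((W i i - W j j) / 2 + θ) ^ 2 / 2 =
      n * ((1 - κ) * ((W i i - W j j) / 2 + θ) ^ 2 / 2) by ring] at this
    rw [← this, ← lintegral_const_mul _ (by fun_prop)]
    refine lintegral_congr fun g => ?_
    rw [← ENNReal.ofReal_mul (exp_pos _).le, ← ENNReal.ofReal_mul (exp_pos _).le, ← exp_add,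
      ← exp_add]
    congr 2; ring
  simp only [e]
  rw [lintegral_lintegral_swap]
  · rw [ENNReal.ofReal_mul (exp_pos _).le, ENNReal.ofReal_toReal hfin,
      ← lintegral_const_mul _ (by fun_prop)]
    refine lintegral_mono fun g => ?_
    have hm : Measurable fun W : Mat n => ENNReal.ofReal
        (exp ((n / 2 + p * g / 2) * W i i + (n / 2 - p * g / 2) * W j j)) :=
      ((h1.const_mul _).add (h2.const_mul _)).exp.ennreal_ofReal
    simp only
    rw [lintegral_const_mul _ hm, lint_diag hn hij, ← ENNReal.ofReal_mul (exp_pos _).le,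
      ← ENNReal.ofReal_mul (exp_pos _).le, ← exp_add, ← exp_add]
    refine ENNReal.ofReal_le_ofReal (exp_le_exp.2 ?_)
    have e1 : ((n / 2 + p * g / 2) ^ 2 + (n / 2 - p * g / 2) ^ 2) / n =
        n / 2 + (1 - κ) * g ^ 2 / 2 := by
      have : (n / 2 + p * g / 2) ^ 2 + (n / 2 - p * g / 2) ^ 2 = n ^ 2 / 2 + p ^ 2 * g ^ 2 / 2 := by
        ring
      rw [this, hp2]; field_simp
    rw [e1]
    have hθ2 : θ ^ 2 ≤ κ ^ 2 := by rw [← sq_abs θ]; exact pow_le_pow_left₀ (abs_nonneg _) hθ 2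
    have h3 : p * θ * g ≤ n * κ + κ * g ^ 2 / 4 := by
      refine le_of_mul_le_mul_left ?_ hκ
      have h4 : p ^ 2 * θ ^ 2 ≤ n * κ ^ 2 := by
        rw [hp2]
        have := mul_le_mul_of_nonneg_left hθ2 hn0.le
        nlinarith [mul_nonneg (mul_nonneg hn0.le hκ.le) (sq_nonneg θ)]
      nlinarith [sq_nonneg (p * θ - κ * g / 2)]
    linarith
  · have h3 : Measurable fun q : Mat n × ℝ => q.1 i i := h1.comp measurable_fst
    have h4 : Measurable fun q : Mat n × ℝ => q.1 j j := h2.comp measurable_fst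
    refine Measurable.aemeasurable ?_
    unfold Function.uncurry
    fun_prop

end Crest.Agent.T157.St.Cl28

end
end

-- ▼ part T157/StClB_28
section

/-!
# Row 157, part C4 (D), file B (helper28): the two-replica identities
-/

set_option autoImplicit false

noncomputable section

namespace Crest.Agent.T157.St.Cl28

open MeasureTheory ProbabilityTheory Matrix Filter Topology Finset Real
open scoped ENNReal
open Crest.ProbabilityR.SpinGlassDynamics
open Crest.Agent.T157.E Crest.Agent.T157.Cond Crest.Agent.T157.Ed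

variable {n : ℕ}

lemma int_dm {Ω ι : Type*} [Fintype Ω] [Fintype ι] {w : Ω → ℝ} (hw : ∀ x, 0 ≤ w x)
    (φ : Ω → ι → ℝ) (g : (ι → ℝ) → ℝ) : ∫ x, g x ∂dm w φ = ∑ x, prob w x * g (φ x) := by
  rw [dm, integral_finsetSum_measure fun x _ =>
    (integrable_dirac (by simp)).smul_measure ENNReal.ofReal_ne_top]
  refine sum_congr rfl fun x _ => ?_
  have : 0 ≤ prob w x := div_nonneg (hw x) (sum_nonneg fun y _ => hw y)
  rw [integral_smul_measure, integral_dirac, smul_eq_mul, ENNReal.toReal_ofReal this]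

/-- uniform law on the rescaled cube -/
def omc (n : ℕ) : Measure (Fin n → ℝ) := dm (fun _ : Cube n => (1 : ℝ)) (hat n)

/-- probability laws on the sphere -/
structure OnS (n : ℕ) (ω : Measure (Fin n → ℝ)) : Prop where
  prob : IsProbabilityMeasure ω
  nrm : ∀ᵐ x ∂ω, x ⬝ᵥ x = sx n ^ 2

lemma prob_one (x : Cube n) : prob (fun _ : Cube n => (1 : ℝ)) x = (2 ^ n)⁻¹ := by
  simp [prob]

lemma int_omc (g : (Fin n → ℝ) → ℝ) : ∫ x, g x ∂omc n = (2 ^ n)⁻¹ * ∑ x, g (hat n x) := by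
  rw [omc, int_dm (fun _ => zero_le_one), mul_sum]
  simp only [prob_one]

lemma spin_sq (b : Bool) : spin b * spin b = 1 := by cases b <;> simp [spin]

lemma hat_dot (hn : 1 ≤ n) (x y : Cube n) :
    hat n x ⬝ᵥ hat n y = (tau n)⁻¹ * (sv x ⬝ᵥ sv y) := by
  have := sx_pos hn
  rw [hat, hat, smul_dotProduct, dotProduct_smul, tau_eq, smul_eq_mul, smul_eq_mul]
  field_simp

lemma onS_omc (hn : 1 ≤ n) : OnS n (omc n) := by
  have hs := sx_pos hn
  constructor
  · constructor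
    simp only [omc, dm, Measure.coe_finsetSum, Finset.sum_apply, Measure.smul_apply, prob_one,
      measure_univ, smul_eq_mul, mul_one]
    rw [← ENNReal.ofReal_sum_of_nonneg fun _ _ => by positivity]
    simp
  · rw [ae_iff]
    simp only [omc, dm, Measure.coe_finsetSum, Finset.sum_apply, Measure.smul_apply, smul_eq_mul]
    refine sum_eq_zero fun x _ => ?_
    rw [Measure.dirac_apply, Set.indicator_of_notMem, mul_zero]
    simp only [Set.mem_ofPred_eq, not_not]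
    rw [hat_dot hn, tau_eq]
    have : sv x ⬝ᵥ sv x = sx n ^ 6 := by
      rw [sx_pow_six]; simp [dotProduct, sv, spin_sq]
    rw [this]; field_simp

lemma onS_oms (hS : SphStmt) (hn : 1 ≤ n) : OnS n (sphR (Fin n) (sx n)) := by
  have : Nonempty (Fin n) := ⟨⟨0, hn⟩⟩
  exact ⟨((hS (Fin n)).1 (sx n)).1, ((hS (Fin n)).1 (sx n)).2.1⟩

/-- `μ` is the tilt of `ω` by `f`, with normaliser `Z` -/
def Tilt (μ ω : Measure (Fin n → ℝ)) (f : (Fin n → ℝ) → ℝ) (Z : ℝ) : Prop :=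
  ∀ g : (Fin n → ℝ) → ℝ, ∫ x, g x ∂μ = ∫ x, exp (f x) / Z * g x ∂ω

lemma tilt_s (W : Mat n) : Tilt (nuW n W) (sphR (Fin n) (sx n)) (Hh n W) (Zs n W) := fun g => by
  rw [nuW, integral_tilted]; rfl

lemma Hh_hat (hn : 1 ≤ n) (W : Mat n) (x : Cube n) :
    exp (Hh n W (hat n x)) = ising W 0 x := by
  have := sx_pos hn
  rw [Hh, ising, hat, mulVec_smul, smul_dotProduct, dotProduct_smul, tau_eq, zero_dotProduct]
  congr 1
  simp only [smul_eq_mul]
  field_simp
  ring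

lemma tilt_c (hn : 1 ≤ n) (W : Mat n) : Tilt (muW n W) (omc n) (Hh n W) (Zc n W) := fun g => by
  rw [muW, int_dm (w := ising W 0) (fun _ => (exp_pos _).le), int_omc, mul_sum]
  refine sum_congr rfl fun x _ => ?_
  rw [Hh_hat hn, Zc, prob, Zw]
  field_simp

/-- unnormalised two-replica sum -/
def YY (θ : ℝ) (W : Mat n) (ω ω' : Measure (Fin n → ℝ)) : ℝ :=
  ∫ x, ∫ x', exp (Hh n W x + Hh n W x' + θ * (x ⬝ᵥ x')) ∂ω' ∂ω

lemma YY_eq {μ μ' ω ω' : Measure (Fin n → ℝ)} {W : Mat n} {Z Z' : ℝ} (h : Tilt μ ω (Hh n W) Z)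
    (h' : Tilt μ' ω' (Hh n W) Z') (hZ : Z ≠ 0) (hZ' : Z' ≠ 0) (θ : ℝ) :
    YY θ W ω ω' = Z * Z' * Xk θ μ μ' := by
  rw [Xk, h, ← integral_const_mul]
  refine integral_congr_ae (ae_of_all _ fun x => ?_)
  simp only
  rw [h', ← integral_const_mul, ← integral_const_mul]
  refine integral_congr_ae (ae_of_all _ fun x' => ?_)
  simp only [exp_add]
  field_simp

lemma mem_ball_of {x : Fin n → ℝ} {s : ℝ} (hs : 0 ≤ s) (h : x ⬝ᵥ x = s ^ 2) :
    x ∈ Metric.closedBall (0 : Fin n → ℝ) s := by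
  rw [mem_closedBall_zero_iff, pi_norm_le_iff_of_nonneg hs]
  intro i
  rw [Real.norm_eq_abs]
  refine abs_le_of_sq_le_sq' ?_ hs |> abs_le.2
  rw [← h, sq]
  exact single_le_sum (f := fun i => x i * x i) (fun j _ => mul_self_nonneg _) (mem_univ i)

lemma integrable_sph {ω : Measure (Fin n → ℝ)} [IsFiniteMeasure ω] {s : ℝ} (hs : 0 ≤ s)
    (h : ∀ᵐ x ∂ω, x ⬝ᵥ x = s ^ 2) {F : (Fin n → ℝ) → ℝ} (hF : Continuous F) :
    Integrable F ω := by
  have h1 := hF.continuousOn.integrableOn_compact (μ := ω) (isCompact_closedBall 0 s)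
  rwa [IntegrableOn, Measure.restrict_eq_self_of_ae_mem (h.mono fun x hx => mem_ball_of hs hx)]
    at h1

lemma OnS.ae_pair {ω ω' : Measure (Fin n → ℝ)} (h : OnS n ω) (h' : OnS n ω') :
    ∀ᵐ p ∂ω.prod ω', p.1 ⬝ᵥ p.1 = sx n ^ 2 ∧ p.2 ⬝ᵥ p.2 = sx n ^ 2 := by
  have := h.prob; have := h'.prob
  exact (Measure.quasiMeasurePreserving_fst.ae h.nrm).and
    (Measure.quasiMeasurePreserving_snd.ae h'.nrm)

lemma OnS.ofReal_pair {ω ω' : Measure (Fin n → ℝ)} (h : OnS n ω) (h' : OnS n ω')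
    {F : (Fin n → ℝ) × (Fin n → ℝ) → ℝ} (hF : Continuous F) :
    ENNReal.ofReal (∫ x, ∫ x', exp (F (x, x')) ∂ω' ∂ω) =
      ∫⁻ p, ENNReal.ofReal (exp (F p)) ∂ω.prod ω' := by
  have := h.prob; have := h'.prob
  have hi : Integrable (fun p => exp (F p)) (ω.prod ω') := by
    have h1 := hF.rexp.continuousOn.integrableOn_compact (μ := ω.prod ω')
      ((isCompact_closedBall 0 (sx n)).prod (isCompact_closedBall 0 (sx n)))
    rwa [IntegrableOn, Measure.restrict_eq_self_of_ae_mem ((h.ae_pair h').mono fun p hp =>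
      Set.mk_mem_prod (mem_ball_of (sx_nonneg n) hp.1) (mem_ball_of (sx_nonneg n) hp.2))] at h1
  rw [← ofReal_integral_eq_lintegral_ofReal hi (ae_of_all _ fun _ => (exp_pos _).le),
    integral_prod _ hi]

lemma meas_Hh {Ω : Type*} [MeasurableSpace Ω] {W : Ω → Mat n} {x : Ω → Fin n → ℝ}
    (hW : Measurable W) (hx : Measurable x) : Measurable fun q => Hh n (W q) (x q) := by
  unfold Hh; fun_prop

lemma cont_Hh (W : Mat n) : Continuous (Hh n W) := by
  unfold Hh; fun_prop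

/-- **the two-replica identity** -/
lemma swap (hR : RotStmt) {i j : Fin n} (hij : i ≠ j) {G : Mat n → ℝ≥0∞} (hG : Measurable G)
    (hinv : ∀ W O : Mat n, Oᵀ * O = 1 → G (O * W * Oᵀ) = G W) {ω ω' : Measure (Fin n → ℝ)}
    (h : OnS n ω) (h' : OnS n ω') (θ : ℝ) :
    ∫⁻ W, G W * ENNReal.ofReal (YY θ W ω ω') ∂GOE n =
      ∫⁻ W, G W * ENNReal.ofReal (exp (n * (W i i + W j j) / 2)) *
        ENNReal.ofReal (Xk (tau n * (W i i - W j j) / 2 + θ) ω ω') ∂GOE n := by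
  have := h.prob; have := h'.prob
  have hi := (measurable_id (α := Mat n)).t157_entry i i
  have hj := (measurable_id (α := Mat n)).t157_entry j j
  have hdot : Measurable fun p : (Fin n → ℝ) × (Fin n → ℝ) => p.1 ⬝ᵥ p.2 := by fun_prop
  have m1 : Measurable fun q : Mat n × ((Fin n → ℝ) × (Fin n → ℝ)) =>
      Hh n q.1 q.2.1 + Hh n q.1 q.2.2 :=
    (meas_Hh measurable_fst (by fun_prop)).add (meas_Hh measurable_fst (by fun_prop))
  have m2 : Measurable fun q : Mat n × ((Fin n → ℝ) × (Fin n → ℝ)) =>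
      n * (q.1 i i + q.1 j j) / 2 + tau n * (q.2.1 ⬝ᵥ q.2.2) * (q.1 i i - q.1 j j) / 2 := by
    have h3 : Measurable fun q : Mat n × ((Fin n → ℝ) × (Fin n → ℝ)) => q.1 i i :=
      hi.comp measurable_fst
    have h4 : Measurable fun q : Mat n × ((Fin n → ℝ) × (Fin n → ℝ)) => q.1 j j :=
      hj.comp measurable_fst
    have h5 : Measurable fun q : Mat n × ((Fin n → ℝ) × (Fin n → ℝ)) => q.2.1 ⬝ᵥ q.2.2 :=
      hdot.comp measurable_snd
    exact (((h3.add h4).const_mul _).div_const _).add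
      (((h5.const_mul _).mul (h3.sub h4)).div_const _)
  have key : ∀ {F : Mat n × ((Fin n → ℝ) × (Fin n → ℝ)) → ℝ}, Measurable F →
      ∫⁻ W, ∫⁻ p, ENNReal.ofReal (exp (θ * (p.1 ⬝ᵥ p.2))) *
        (G W * ENNReal.ofReal (exp (F (W, p)))) ∂ω.prod ω' ∂GOE n =
      ∫⁻ p, ENNReal.ofReal (exp (θ * (p.1 ⬝ᵥ p.2))) *
        ∫⁻ W, G W * ENNReal.ofReal (exp (F (W, p))) ∂GOE n ∂ω.prod ω' := by
    intro F hF
    rw [lintegral_lintegral_swap]
    · refine lintegral_congr fun p => lintegral_const_mul _ ?_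
      exact hG.mul (hF.comp (measurable_id.prodMk measurable_const)).exp.ennreal_ofReal
    · exact (((hdot.comp measurable_snd).const_mul θ).exp.ennreal_ofReal.mul
        ((hG.comp measurable_fst).mul hF.exp.ennreal_ofReal)).aemeasurable
  have e1 : ∀ W : Mat n, G W * ENNReal.ofReal (YY θ W ω ω') =
      ∫⁻ p, ENNReal.ofReal (exp (θ * (p.1 ⬝ᵥ p.2))) *
        (G W * ENNReal.ofReal (exp (Hh n W p.1 + Hh n W p.2))) ∂ω.prod ω' := by
    intro W
    have hc : Continuous fun p : (Fin n → ℝ) × (Fin n → ℝ) =>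
        Hh n W p.1 + Hh n W p.2 + θ * (p.1 ⬝ᵥ p.2) :=
      (((cont_Hh W).comp continuous_fst).add ((cont_Hh W).comp continuous_snd)).add (by fun_prop)
    rw [YY, h.ofReal_pair h' hc, ← lintegral_const_mul _ hc.measurable.exp.ennreal_ofReal]
    refine lintegral_congr fun p => ?_
    rw [exp_add _ (θ * _), ENNReal.ofReal_mul (exp_pos _).le]; ring
  have e2 : ∀ W : Mat n, G W * ENNReal.ofReal (exp (n * (W i i + W j j) / 2)) *
      ENNReal.ofReal (Xk (tau n * (W i i - W j j) / 2 + θ) ω ω') =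
      ∫⁻ p, ENNReal.ofReal (exp (θ * (p.1 ⬝ᵥ p.2))) * (G W * ENNReal.ofReal (exp
        (n * (W i i + W j j) / 2 + tau n * (p.1 ⬝ᵥ p.2) * (W i i - W j j) / 2))) ∂ω.prod ω' := by
    intro W
    have hc : Continuous fun p : (Fin n → ℝ) × (Fin n → ℝ) =>
        (tau n * (W i i - W j j) / 2 + θ) * (p.1 ⬝ᵥ p.2) := by fun_prop
    rw [Xk, h.ofReal_pair h' hc, ← lintegral_const_mul _ hc.measurable.exp.ennreal_ofReal]
    refine lintegral_congr fun p => ?_
    rw [mul_assoc, mul_left_comm (ENNReal.ofReal _) (G W), ← ENNReal.ofReal_mul (exp_pos _).le,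
      ← ENNReal.ofReal_mul (exp_pos _).le, ← exp_add, ← exp_add]
    congr 3; ring
  simp only [e1, e2]
  rw [key m1, key m2]
  refine lintegral_congr_ae ((h.ae_pair h').mono fun p hp => ?_)
  simp only
  rw [hR n i j hij G hG hinv p.1 p.2 hp.1 hp.2]

/-! ### the kernels -/

lemma Xk_cc (hn : 1 ≤ n) (v : ℝ) : Xk v (omc n) (omc n) = cosh (v / tau n) ^ n := by
  have e : ∀ x : Cube n, (2 ^ n : ℝ)⁻¹ * ∑ y : Cube n, exp (v * (hat n x ⬝ᵥ hat n y)) =
      cosh (v / tau n) ^ n := fun x => by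
    have e1 : ∑ y : Cube n, exp (v * (hat n x ⬝ᵥ hat n y)) =
        ∏ i, ∑ b : Bool, exp (v / tau n * (spin (x i) * spin b)) := by
      rw [Finset.prod_univ_sum, Fintype.piFinset_univ]
      refine sum_congr rfl fun y _ => ?_
      rw [hat_dot hn, ← exp_sum, ← mul_sum, ← mul_assoc, ← div_eq_mul_inv]; rfl
    have e2 : ∀ a : Bool, ∑ b : Bool, exp (v / tau n * (spin a * spin b)) =
        2 * cosh (v / tau n) := fun a => by
      rw [cosh_eq]; cases a <;> simp [spin] <;> ring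
    rw [e1]
    simp only [e2, prod_const, card_univ, Fintype.card_fin, mul_pow]
    field_simp
  rw [Xk, int_omc]
  simp only [int_omc, e, sum_const, card_univ, nsmul_eq_mul]
  simp

/-- moment generating function of the spherical overlap -/
def LL (n : ℕ) (i : Fin n) (v : ℝ) : ℝ :=
  ∫ y, exp (v * sx n ^ 2 * ((Pi.single i 1 : Fin n → ℝ) ⬝ᵥ y)) ∂sphR (Fin n) 1

lemma single_unit (i : Fin n) : (Pi.single i 1 : Fin n → ℝ) ⬝ᵥ Pi.single i 1 = 1 := by
  simp

lemma sph_dir (hS : SphStmt) (hn : 1 ≤ n) {e e' : Fin n → ℝ} (h : e ⬝ᵥ e = e' ⬝ᵥ e') (a : ℝ) :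
    ∫ y, exp (a * (e ⬝ᵥ y)) ∂sphR (Fin n) 1 = ∫ y, exp (a * (e' ⬝ᵥ y)) ∂sphR (Fin n) 1 := by
  have : Nonempty (Fin n) := ⟨⟨0, hn⟩⟩
  obtain ⟨O, hO, hw⟩ := Tri62.exists_orth e' e h.symm
  have h1 := ((hS (Fin n)).1 1).2.2.2 Oᵀ (by rwa [transpose_transpose])
  conv_lhs => rw [← h1]
  rw [integral_map (by fun_prop) (by fun_prop)]
  refine integral_congr_ae (ae_of_all _ fun y => ?_)
  simp only
  rw [dotProduct_mulVec, vecMul_transpose, hw]

lemma Xk_s (hS : SphStmt) (hn : 1 ≤ n) (i : Fin n) {ω : Measure (Fin n → ℝ)} (h : OnS n ω)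
    (v : ℝ) : Xk v ω (sphR (Fin n) (sx n)) = LL n i v := by
  have : Nonempty (Fin n) := ⟨⟨0, hn⟩⟩
  have := h.prob
  have : ∀ᵐ x ∂ω, ∫ x', exp (v * (x ⬝ᵥ x')) ∂sphR (Fin n) (sx n) = LL n i v := by
    filter_upwards [h.nrm] with x hx
    rw [← ((hS (Fin n)).1 (sx n)).2.2.1, integral_map (by fun_prop) (by fun_prop)]
    have h1 := sph_dir hS hn (e := x) (e' := sx n • Pi.single i 1) (by
      rw [hx, smul_dotProduct, dotProduct_smul, single_unit]; simp [sq]) (v * sx n)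
    simp only [dotProduct_smul, smul_eq_mul, ← mul_assoc]
    rw [h1, LL]
    simp only [smul_dotProduct, smul_eq_mul, ← mul_assoc, sq]
  rw [Xk, integral_congr_ae this]
  simp

lemma LL_neg (hS : SphStmt) (hn : 1 ≤ n) (i : Fin n) (v : ℝ) : LL n i (-v) = LL n i v := by
  have := sph_dir hS hn (e := -Pi.single i 1) (e' := Pi.single i 1) (by simp) (v * sx n ^ 2)
  rw [LL, LL, ← this]
  simp only [neg_dotProduct, mul_neg, neg_mul]

lemma LL_ge (hL : LamStmt) (hn : 1 ≤ n) (i : Fin n) (v : ℝ) :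
    exp (v ^ 2 / (2 * sx n ^ 2) - v ^ 4 / (4 * (sx n ^ 2) ^ 5)) ≤ LL n i v := by
  have hs := sx_pos hn
  have := hL n _ (single_unit i) (v * sx n ^ 2)
  refine le_trans (le_of_eq ?_) this
  rw [← sx_pow_six n]
  congr 1
  field_simp

lemma LL_pos (hL : LamStmt) (hn : 1 ≤ n) (i : Fin n) (v : ℝ) : 0 < LL n i v :=
  (exp_pos _).trans_le (LL_ge hL hn i v)

lemma measurable_LL (hS : SphStmt) (hn : 1 ≤ n) (i : Fin n) : Measurable (LL n i) := by
  have : Nonempty (Fin n) := ⟨⟨0, hn⟩⟩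
  have := ((hS (Fin n)).1 1).1
  refine (StronglyMeasurable.integral_prod_right (f := fun (v : ℝ) (y : Fin n → ℝ) =>
    exp (v * sx n ^ 2 * ((Pi.single i 1 : Fin n → ℝ) ⬝ᵥ y))) ?_).measurable
  refine Measurable.stronglyMeasurable ?_
  unfold Function.uncurry
  fun_prop

lemma LL_conv (hS : SphStmt) (hL : LamStmt) (hn : 1 ≤ n) (i : Fin n) (v s : ℝ) (hv : 0 < v)
    (hs : 0 ≤ s) : (v + s) * log (LL n i v) ≤ v * log (LL n i (v + s)) := by
  have : Nonempty (Fin n) := ⟨⟨0, hn⟩⟩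
  have := ((hS (Fin n)).1 1).1
  have hae := ((hS (Fin n)).1 1).2.1
  have hA := LL_pos hL hn i (v + s)
  set A := LL n i (v + s) with hAdef
  have hvs : 0 < v + s := by linarith
  set p := v / (v + s) with hp
  have hp0 : 0 ≤ p := by positivity
  have hp1 : p ≤ 1 := (div_le_one hvs).2 (by linarith)
  have hi : ∀ a : ℝ, Integrable (fun y : Fin n → ℝ =>
      exp (a * sx n ^ 2 * ((Pi.single i 1 : Fin n → ℝ) ⬝ᵥ y))) (sphR (Fin n) 1) := fun a =>
    integrable_sph zero_le_one hae (by fun_prop)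
  have h1 : LL n i v ≤ exp (p * log A) := by
    have h2 : ∀ X : ℝ, exp (v * X) ≤ exp (p * log A) * (p / A * exp ((v + s) * X) + (1 - p)) := by
      intro X
      have h3 := convexOn_exp.2 (Set.mem_univ ((v + s) * X - log A)) (Set.mem_univ 0) hp0
        (sub_nonneg.2 hp1) (by ring)
      simp only [smul_eq_mul, mul_zero, add_zero, exp_zero, mul_one] at h3
      rw [exp_sub _ (log A), exp_log hA] at h3
      have h4 : v * X = p * log A + p * ((v + s) * X - log A) := by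
        rw [hp]; field_simp; ring
      rw [h4, exp_add]
      refine mul_le_mul_of_nonneg_left (h3.trans (le_of_eq ?_)) (exp_pos _).le
      ring
    have h5 := integral_mono (hi v)
      ((((hi (v + s)).const_mul (p / A)).add (integrable_const (1 - p))).const_mul
        (exp (p * log A))) fun y => by
        have := h2 (sx n ^ 2 * ((Pi.single i 1 : Fin n → ℝ) ⬝ᵥ y))
        simpa only [mul_assoc, Pi.add_apply] using this
    refine h5.trans (le_of_eq ?_)
    simp only [Pi.add_apply]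
    rw [integral_const_mul, integral_add ((hi (v + s)).const_mul _) (integrable_const _),
      integral_const_mul, integral_const]
    change _ * (p / A * A + _) = _
    simp only [probReal_univ, smul_eq_mul, one_mul]
    rw [div_mul_cancel₀ _ hA.ne']
    simp
  have h6 := (log_le_iff_le_exp (LL_pos hL hn i v)).2 h1
  have h7 := mul_le_mul_of_nonneg_left h6 hvs.le
  rwa [hp, ← mul_assoc, mul_div_cancel₀ _ hvs.ne'] at h7

/-- invariance of the overlap moments under a common rotation -/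
lemma Xk_map {μ : Measure (Fin n → ℝ)} [SFinite μ] {O : Mat n} (hO : Oᵀ * O = 1) (θ : ℝ) :
    Xk θ (μ.map fun x => O *ᵥ x) (μ.map fun x => O *ᵥ x) = Xk θ μ μ := by
  have hm : StronglyMeasurable fun x : Fin n → ℝ =>
      ∫ x', exp (θ * (x ⬝ᵥ x')) ∂(μ.map fun x => O *ᵥ x) := by
    refine StronglyMeasurable.integral_prod_right (f := fun (x x' : Fin n → ℝ) =>
      exp (θ * (x ⬝ᵥ x'))) (Measurable.stronglyMeasurable ?_)
    unfold Function.uncurry
    fun_prop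
  rw [Xk, integral_map (by fun_prop) hm.aestronglyMeasurable, Xk]
  refine integral_congr_ae (ae_of_all _ fun x => ?_)
  simp only
  rw [integral_map (by fun_prop) (by fun_prop)]
  refine integral_congr_ae (ae_of_all _ fun y => ?_)
  simp only
  rw [dotProduct_mulVec, ← mulVec_transpose, mulVec_mulVec, hO, one_mulVec]

lemma Xk_neg {μ : Measure (Fin n → ℝ)} (h : μ.map (fun x => -x) = μ) (θ : ℝ) :
    Xk (-θ) μ μ = Xk θ μ μ := by
  refine integral_congr_ae (ae_of_all _ fun x => ?_)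
  simp only
  conv_rhs => rw [← h]
  rw [integral_map (by fun_prop) (by fun_prop)]
  simp only [dotProduct_neg, mul_neg, neg_mul]

lemma Xk_zero {μ ν : Measure (Fin n → ℝ)} (h : Cp μ) (h' : Cp ν) : Xk 0 μ ν = 1 := by
  have := h.prob; have := h'.prob
  simp [Xk]

lemma Xk_nonneg (θ : ℝ) (μ ν : Measure (Fin n → ℝ)) : 0 ≤ Xk θ μ ν :=
  integral_nonneg fun _ => integral_nonneg fun _ => (exp_pos _).le

/-- the trivial bound on the cube -/
lemma Xk_triv (hn : 1 ≤ n) (W : Mat n) {θ : ℝ} (hθ : 0 ≤ θ) :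
    Xk θ (muW n W) (muW n W) ≤ exp (θ * sx n ^ 2) := by
  have hw : ∀ x, 0 ≤ ising W 0 x := fun _ => (exp_pos _).le
  have hZ : 0 < ∑ x, ising W 0 x := sum_pos (fun _ _ => exp_pos _) univ_nonempty
  have hp : ∀ x, 0 ≤ prob (ising W 0) x := fun x => div_nonneg (hw x) hZ.le
  have h1 : ∑ x, prob (ising W 0) x = 1 := by
    simp only [prob]; rw [← sum_div, div_self hZ.ne']
  have hb : ∀ x y : Cube n, hat n x ⬝ᵥ hat n y ≤ sx n ^ 2 := fun x y => by
    have hs := sx_pos hn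
    have h2 : sv x ⬝ᵥ sv y ≤ sx n ^ 6 := by
      rw [sx_pow_six]
      refine (sum_le_card_nsmul univ _ 1 fun i _ => ?_).trans (by simp)
      simp only [sv]
      cases x i <;> cases y i <;> simp [spin]
    rw [hat_dot hn, tau_eq, inv_mul_le_iff₀ (by positivity)]
    linarith [show sx n ^ 4 * sx n ^ 2 = sx n ^ 6 by ring]
  rw [Xk, muW, int_dm hw]
  calc _ ≤ ∑ x, prob (ising W 0) x * exp (θ * sx n ^ 2) := by
        refine sum_le_sum fun x _ => mul_le_mul_of_nonneg_left ?_ (hp x)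
        rw [int_dm hw]
        calc _ ≤ ∑ y, prob (ising W 0) y * exp (θ * sx n ^ 2) :=
              sum_le_sum fun y _ => mul_le_mul_of_nonneg_left
                (exp_le_exp.2 (mul_le_mul_of_nonneg_left (hb x y) hθ)) (hp y)
          _ = _ := by rw [← sum_mul, h1, one_mul]
    _ = _ := by rw [← sum_mul, h1, one_mul]

end Crest.Agent.T157.St.Cl28

end
end

-- ▼ part T157/StCl_28

/-!
# Row 157, part C4 (D) (helper28): the cube and the sphere are close, `CloseGlue`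
-/

set_option autoImplicit false

noncomputable section

namespace Crest.Agent.T157.St.Cl28

open MeasureTheory ProbabilityTheory Matrix Filter Topology Finset Real
open scoped ENNReal
open Crest.Agent.T157.E Crest.Agent.T157.Cond Crest.Agent.T157.Ed Crest.Agent.T157.Top

variable {n : ℕ}

lemma integ {Ω : Type*} [MeasurableSpace Ω] (m : Measure Ω) {d : Ω → ℝ} (hd : Measurable d)
    {L : ℝ → ℝ} (hL : Measurable L) (hpos : ∀ v, 0 < L v) {K F : Ω → ℝ} (S : Finset ℕ)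
    {a s b : ℕ → ℝ} {e : ℝ} (he : 0 ≤ e) (ha : ∀ j, 0 ≤ a j) (hb : ∀ j, 0 ≤ b j)
    (h : ∀ ω, K ω ≤ e * L (d ω) + ∑ j ∈ S, a j * (L (d ω + s j) + L (d ω - s j)) + F ω)
    (h1 : ∀ j, ∫⁻ ω, ENNReal.ofReal (L (d ω + s j)) ∂m ≤ ENNReal.ofReal (b j))
    (h2 : ∀ j, ∫⁻ ω, ENNReal.ofReal (L (d ω - s j)) ∂m ≤ ENNReal.ofReal (b j)) :
    ∫⁻ ω, ENNReal.ofReal (K ω) ∂m ≤ ENNReal.ofReal e * ∫⁻ ω, ENNReal.ofReal (L (d ω)) ∂m +
      ENNReal.ofReal (∑ j ∈ S, a j * (2 * b j)) + ∫⁻ ω, ENNReal.ofReal (F ω) ∂m := by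
  have m0 : Measurable fun ω => ENNReal.ofReal (L (d ω)) := (hL.comp hd).ennreal_ofReal
  have m1 : ∀ j, Measurable fun ω => ENNReal.ofReal (L (d ω + s j)) := fun j =>
    (hL.comp (hd.add_const _)).ennreal_ofReal
  have m2 : ∀ j, Measurable fun ω => ENNReal.ofReal (L (d ω - s j)) := fun j =>
    (hL.comp (hd.sub_const _)).ennreal_ofReal
  have m3 : ∀ j, Measurable fun ω => ENNReal.ofReal (a j) *
      (ENNReal.ofReal (L (d ω + s j)) + ENNReal.ofReal (L (d ω - s j))) := fun j =>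
    ((m1 j).add (m2 j)).const_mul _
  have m4 : Measurable fun ω => ENNReal.ofReal e * ENNReal.ofReal (L (d ω)) +
      ∑ j ∈ S, ENNReal.ofReal (a j) *
      (ENNReal.ofReal (L (d ω + s j)) + ENNReal.ofReal (L (d ω - s j))) :=
    (m0.const_mul _).add (Finset.measurable_sum _ fun j _ => m3 j)
  have m5 : ∀ j, Measurable fun ω =>
      ENNReal.ofReal (L (d ω + s j)) + ENNReal.ofReal (L (d ω - s j)) := fun j => (m1 j).add (m2 j)
  calc _ ≤ ∫⁻ ω, ENNReal.ofReal e * ENNReal.ofReal (L (d ω)) + ∑ j ∈ S, ENNReal.ofReal (a j) *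
        (ENNReal.ofReal (L (d ω + s j)) + ENNReal.ofReal (L (d ω - s j))) +
        ENNReal.ofReal (F ω) ∂m := by
        refine lintegral_mono fun ω => (ENNReal.ofReal_le_ofReal (h ω)).trans ?_
        refine ENNReal.ofReal_add_le.trans (add_le_add (ENNReal.ofReal_add_le.trans
          (add_le_add (ENNReal.ofReal_mul he).le ?_)) le_rfl)
        rw [ENNReal.ofReal_sum_of_nonneg fun j _ =>
          mul_nonneg (ha j) (add_nonneg (hpos _).le (hpos _).le)]
        refine sum_le_sum fun j _ => ?_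
        rw [ENNReal.ofReal_mul (ha j), ENNReal.ofReal_add (hpos _).le (hpos _).le]
    _ ≤ _ := by
        rw [lintegral_add_left m4,
          lintegral_add_left (m0.const_mul _), lintegral_const_mul _ m0,
          lintegral_finsetSum _ fun j _ => m3 j, ENNReal.ofReal_sum_of_nonneg fun j _ =>
            mul_nonneg (ha j) (mul_nonneg zero_le_two (hb j))]
        refine add_le_add (add_le_add le_rfl (sum_le_sum fun j _ => ?_)) le_rfl
        rw [lintegral_const_mul _ (m5 j), lintegral_add_left (m1 j),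
          ENNReal.ofReal_mul (ha j), two_mul, ENNReal.ofReal_add (hb j) (hb j)]
        exact mul_le_mul_right (add_le_add (h1 j) (h2 j)) _

lemma markov {Ω : Type*} [MeasurableSpace Ω] (P : Measure Ω) {S : Set Ω} {f : Ω → ℝ}
    (hf : Measurable f) {a η : ℝ} (ha : 0 < a)
    (h : ∫⁻ W in S, ENNReal.ofReal (f W) ∂P ≤ ENNReal.ofReal η) :
    P {W | ¬ (W ∈ S → f W ≤ a)} ≤ ENNReal.ofReal (η / a) := by
  have h1 := meas_ge_le_lintegral_div (μ := P.restrict S) hf.ennreal_ofReal.aemeasurable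
    (ε := ENNReal.ofReal a) (ENNReal.ofReal_pos.2 ha).ne' ENNReal.ofReal_ne_top
  rw [Measure.restrict_apply (measurableSet_le measurable_const hf.ennreal_ofReal)] at h1
  rw [ENNReal.ofReal_div_of_pos ha]
  refine le_trans (measure_mono fun W hW => ?_) (h1.trans (ENNReal.div_le_div_right h _))
  have hW' : ¬ (W ∈ S → f W ≤ a) := hW
  rw [Classical.not_imp, not_le] at hW'
  exact ⟨ENNReal.ofReal_le_ofReal hW'.2.le, hW'.1⟩

/-- the good set -/
def GS (n : ℕ) (B κ : ℝ) : Set (Mat n) :=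
  {W | Mgf (nuW n W) B ∧ exp (n * (1 / 4 - κ)) ≤ Zs n W}

/-- the ratio of the partition functions -/
def rr (n : ℕ) (W : Mat n) : ℝ := Zc n W / Zs n W

lemma slice {F : ℝ × Mat n → ℝ} (hF : Continuous F) (θ : ℝ) : Continuous fun W => F (θ, W) :=
  hF.comp (continuous_const.prodMk continuous_id)

section lnk
variable (hK : LnkStmt) (hn : 1 ≤ n)
include hK hn

lemma cont_ss (θ : ℝ) : Continuous fun W : Mat n => Xk θ (nuW n W) (nuW n W) :=
  by have := slice (hK n hn).2.2.2.2.2.1 θ; exact this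
lemma cont_cc (θ : ℝ) : Continuous fun W : Mat n => Xk θ (muW n W) (muW n W) :=
  by have := slice (hK n hn).2.2.2.2.2.2.1 θ; exact this
lemma cont_cs (θ : ℝ) : Continuous fun W : Mat n => Xk θ (muW n W) (nuW n W) :=
  by have := slice (hK n hn).2.2.2.2.2.2.2.1 θ; exact this
lemma cont_Zs : Continuous (Zs n) := (hK n hn).2.2.2.2.2.2.2.2.1
lemma cont_Zc : Continuous (Zc n) := (hK n hn).2.2.2.2.2.2.2.2.2.1
lemma Zs_pos (W : Mat n) : 0 < Zs n W := ((hK n hn).2.2.2.2.2.2.2.2.2.2.1 W).1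
lemma Zc_pos (W : Mat n) : 0 < Zc n W := ((hK n hn).2.2.2.2.2.2.2.2.2.2.1 W).2
lemma cp_mu (W : Mat n) : Cp (muW n W) := ((hK n hn).1 W).1
lemma cp_nu (W : Mat n) : Cp (nuW n W) := ((hK n hn).1 W).2.1
lemma rr_pos (W : Mat n) : 0 < rr n W := div_pos (Zc_pos hK hn W) (Zs_pos hK hn W)
lemma meas_rr : Measurable (rr n) := (cont_Zc hK hn).measurable.div (cont_Zs hK hn).measurable

lemma meas_GS (B κ : ℝ) : MeasurableSet (GS n B κ) := by
  have h1 : IsClosed {W : Mat n | Mgf (nuW n W) B} := by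
    have : {W : Mat n | Mgf (nuW n W) B} =
        ⋂ θ : ℝ, {W | Xk θ (nuW n W) (nuW n W) ≤ B * exp (B * |θ| ^ (3 / 2 : ℝ))} := by
      ext W; simp [Mgf]
    rw [this]
    exact isClosed_iInter fun θ => isClosed_le (cont_ss hK hn θ) continuous_const
  exact (h1.inter (isClosed_le continuous_const (cont_Zs hK hn))).measurableSet

lemma GS_inv (B κ : ℝ) (W O : Mat n) (hO : Oᵀ * O = 1) : O * W * Oᵀ ∈ GS n B κ ↔ W ∈ GS n B κ := by
  obtain ⟨h1, h2⟩ := (hK n hn).2.2.2.2.1 W O hO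
  have := (cp_nu hK hn W).prob
  simp only [GS, Set.mem_ofPred_eq, Mgf, h1, h2, Xk_map hO]

end lnk

/-- **the second moment estimate** -/
lemma main (hS : SphStmt) (hK : LnkStmt) (hR : RotStmt) (hL : LamStmt) {B : ℝ} (hB : 1 ≤ B) :
    ∃ κ C : ℝ, 0 < κ ∧ κ ≤ 1 ∧ 0 ≤ C ∧ ∀ n : ℕ, 2 ≤ n → ∀ J : ℕ, 1 ≤ J → ∀ θ : ℝ, 0 ≤ θ →
      θ ≤ κ * tau n →
      ∫⁻ W in GS n B κ, ENNReal.ofReal (rr n W * Xk θ (muW n W) (nuW n W)) ∂GOE n =
        ∫⁻ W in GS n B κ, ENNReal.ofReal (Xk θ (nuW n W) (nuW n W)) ∂GOE n ∧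
      ∫⁻ W in GS n B κ, ENNReal.ofReal (Xk θ (nuW n W) (nuW n W)) ∂GOE n ≤
        ENNReal.ofReal (B * exp (2 * B * θ ^ (3 / 2 : ℝ))) ∧
      ∫⁻ W in GS n B κ, ENNReal.ofReal (rr n W ^ 2 * Xk θ (muW n W) (muW n W)) ∂GOE n ≤
        ∫⁻ W in GS n B κ, ENNReal.ofReal (Xk θ (nuW n W) (nuW n W)) ∂GOE n +
        ENNReal.ofReal ((exp ((J : ℝ) ^ 4 / (4 * sx n ^ 2)) - 1 + C / J) *
          (B * exp (2 * B * θ ^ (3 / 2 : ℝ))) + C * exp (-(n * κ))) := by
  set g : ℝ := 1 / (32 * B) with hg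
  have hg0 : 0 < g := by positivity
  have hg1 : g ≤ 1 := by rw [hg, div_le_one (by positivity)]; linarith
  have hgB : 2 * B * g = 1 / 16 := by rw [hg]; field_simp; norm_num
  set δ : ℝ := g ^ 2 / 32 with hδ
  have hδ0 : 0 < δ := by positivity
  have hδ1 : δ ≤ 1 := by nlinarith
  obtain ⟨κ, hκ0, hκ1, hκ⟩ := cosh_far hδ0
  obtain ⟨C, hC0, hC⟩ := far_gauss hκ0 (by linarith)
  refine ⟨κ, max C (32 / g ^ 2), hκ0, by linarith, le_max_of_le_left hC0,
    fun n hn2 J hJ θ hθ0 hθ => ?_⟩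
  have hn : 1 ≤ n := by omega
  have hn0 : (0 : ℝ) < n := by exact_mod_cast hn
  have hs := sx_pos hn
  have hτ := tau_pos hn
  set i : Fin n := ⟨0, by omega⟩ with hi
  set j : Fin n := ⟨1, by omega⟩ with hj
  have hij : i ≠ j := by simp [hi, hj]
  have mS := meas_GS hK hn B κ
  set G : Mat n → ℝ≥0∞ := (GS n B κ).indicator fun W => ENNReal.ofReal ((Zs n W ^ 2)⁻¹) with hG
  have mG : Measurable G :=
    (((cont_Zs hK hn).measurable.pow_const 2).inv.ennreal_ofReal).indicator mS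
  have hinv : ∀ W O : Mat n, Oᵀ * O = 1 → G (O * W * Oᵀ) = G W := fun W O hO => by
    classical
    simp only [hG, Set.indicator_apply, GS_inv hK hn B κ W O hO, ((hK n hn).2.2.2.2.1 W O hO).2]
  have hGy : ∀ y : Mat n → ℝ, ∫⁻ W, G W * ENNReal.ofReal (y W) ∂GOE n =
      ∫⁻ W in GS n B κ, ENNReal.ofReal ((Zs n W ^ 2)⁻¹ * y W) ∂GOE n := fun y => by
    rw [← lintegral_indicator mS]
    refine lintegral_congr fun W => ?_
    by_cases hW : W ∈ GS n B κ
    · simp only [hG, Set.indicator_of_mem hW]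
      rw [ENNReal.ofReal_mul (by positivity)]
    · simp only [hG, Set.indicator_of_notMem hW, zero_mul]
  have hii := (measurable_id (α := Mat n)).t157_entry i i
  have hjj := (measurable_id (α := Mat n)).t157_entry j j
  set wt : Mat n → ℝ≥0∞ := fun W => G W * ENNReal.ofReal (exp (n * (W i i + W j j) / 2)) with hwt
  have mw : Measurable wt :=
    mG.mul (((hii.add hjj).const_mul _).div_const _).exp.ennreal_ofReal
  set d : Mat n → ℝ := fun W => tau n * (W i i - W j j) / 2 with hd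
  have md : Measurable d := ((hii.sub hjj).const_mul _).div_const _
  have mL := measurable_LL hS hn i
  set m := (GOE n).withDensity wt with hm
  have hm' : ∀ f : Mat n → ℝ≥0∞, Measurable f → ∫⁻ W, f W ∂m = ∫⁻ W, wt W * f W ∂GOE n :=
    fun f hf => lintegral_withDensity_eq_lintegral_mul _ mw hf
  have mLd : ∀ s : ℝ, Measurable fun W => ENNReal.ofReal (LL n i (d W + s)) := fun s =>
    (mL.comp (md.add_const s)).ennreal_ofReal
  have oc := onS_omc hn
  have os := onS_oms hS hn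
  have hZs := fun W => (Zs_pos hK hn W).ne'
  have hZc := fun W => (Zc_pos hK hn W).ne'
  have ess : ∀ s : ℝ, ∫⁻ W, ENNReal.ofReal (LL n i (d W + s)) ∂m =
      ∫⁻ W in GS n B κ, ENNReal.ofReal (Xk s (nuW n W) (nuW n W)) ∂GOE n := fun s => by
    have := swap hR hij mG hinv os os s
    simp only [Xk_s hS hn i os] at this
    refine (hm' _ (mLd s)).trans (this.symm.trans ?_)
    rw [hGy]
    refine lintegral_congr fun W => ?_
    rw [YY_eq (tilt_s W) (tilt_s W) (hZs W) (hZs W)]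
    congr 1; have := hZs W; field_simp
  have ecs : ∫⁻ W, ENNReal.ofReal (LL n i (d W + θ)) ∂m =
      ∫⁻ W in GS n B κ, ENNReal.ofReal (rr n W * Xk θ (muW n W) (nuW n W)) ∂GOE n := by
    have := swap hR hij mG hinv oc os θ
    simp only [Xk_s hS hn i oc] at this
    refine (hm' _ (mLd θ)).trans (this.symm.trans ?_)
    rw [hGy]
    refine lintegral_congr fun W => ?_
    rw [YY_eq (tilt_c hn W) (tilt_s W) (hZc W) (hZs W), rr]
    congr 1; have := hZs W; field_simp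
  have ecc : ∫⁻ W, ENNReal.ofReal (cosh ((d W + θ) / tau n) ^ n) ∂m =
      ∫⁻ W in GS n B κ, ENNReal.ofReal (rr n W ^ 2 * Xk θ (muW n W) (muW n W)) ∂GOE n := by
    have := swap hR hij mG hinv oc oc θ
    simp only [Xk_cc hn] at this
    refine (hm' _ (by fun_prop)).trans (this.symm.trans ?_)
    rw [hGy]
    refine lintegral_congr fun W => ?_
    rw [YY_eq (tilt_c hn W) (tilt_c hn W) (hZc W) (hZc W), rr]
    congr 1; have := hZs W; field_simp
  have bss : ∀ s b : ℝ, |s| ^ (3 / 2 : ℝ) ≤ b →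
      ∫⁻ W in GS n B κ, ENNReal.ofReal (Xk s (nuW n W) (nuW n W)) ∂GOE n ≤
        ENNReal.ofReal (B * exp (B * b)) := fun s b hb => by
    refine (setLIntegral_mono' (g := fun _ => ENNReal.ofReal (B * exp (B * b))) mS
      fun W hW => ENNReal.ofReal_le_ofReal ((hW.1 s).trans ?_)).trans ?_
    · exact mul_le_mul_of_nonneg_left (exp_le_exp.2 (mul_le_mul_of_nonneg_left hb (by linarith)))
        (by linarith)
    · rw [setLIntegral_const]
      exact mul_le_of_le_one_right' prob_le_one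
  have hθp : 0 ≤ θ ^ (3 / 2 : ℝ) := rpow_nonneg hθ0 _
  set β := B * exp (2 * B * θ ^ (3 / 2 : ℝ)) with hβ
  have hβ0 : 0 ≤ β := by positivity
  have b0 : ∫⁻ W in GS n B κ, ENNReal.ofReal (Xk θ (nuW n W) (nuW n W)) ∂GOE n ≤
      ENNReal.ofReal β := by
    have := bss θ (2 * θ ^ (3 / 2 : ℝ)) (by rw [abs_of_nonneg hθ0]; linarith)
    rwa [show B * (2 * θ ^ (3 / 2 : ℝ)) = 2 * B * θ ^ (3 / 2 : ℝ) by ring] at this
  refine ⟨by rw [← ecs, ess], b0, ?_⟩
  have hb : ∀ (k : ℕ) (s : ℝ), |s| ≤ θ + g ^ 2 * (k : ℝ) ^ 2 →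
      |s| ^ (3 / 2 : ℝ) ≤ 2 * θ ^ (3 / 2 : ℝ) + 2 * (g * k) ^ 3 := fun k s h => by
    refine (rp_mono (abs_nonneg s) h).trans ((rp_add hθ0 (by positivity)).trans (le_of_eq ?_))
    rw [← mul_pow, rp_sq (by positivity)]
  set N := ⌊δ * sx n ^ 2⌋₊ + 1 with hN
  have key := integ m (d := fun W => d W + θ) (md.add_const θ) mL (LL_pos hL hn i)
    (K := fun W => cosh ((d W + θ) / tau n) ^ n)
    (F := fun W => exp (n * ((1 - κ) * ((W i i - W j j) / 2 + θ / tau n) ^ 2 / 2 - 8 * κ)))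
    (Ico J N) (a := fun k => exp (-((g ^ 2 / 4 - 2 * δ) * (k : ℝ) ^ 3)))
    (s := fun k => g ^ 2 * (k : ℝ) ^ 2)
    (b := fun k => B * exp (B * (2 * θ ^ (3 / 2 : ℝ) + 2 * (g * k) ^ 3)))
    (e := exp ((J : ℝ) ^ 4 / (4 * sx n ^ 2))) (exp_pos _).le (fun _ => (exp_pos _).le)
    (fun _ => by positivity) (fun W => ?_) (fun k => ?_) (fun k => ?_)
  rotate_left
  · have hu : (W i i - W j j) / 2 + θ / tau n = (d W + θ) / tau n := by
      simp only [hd]; field_simp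
    rw [hu]
    set v := d W + θ
    by_cases hv : |v| ≤ δ * (sx n ^ 2) ^ 2
    · have h1 := near (L := LL n i) (c := g ^ 2) (pow_pos hs 2) hδ0.le hδ1 (sq_nonneg g)
        (LL_pos hL hn i) (LL_neg hS hn i) (LL_ge hL hn i) (LL_conv hS hL hn i) hJ (N := N)
        (by rw [hN]; push_cast; exact Nat.lt_floor_add_one _) hv
      refine le_add_of_le_of_nonneg (le_trans ?_ h1) (exp_pos _).le
      refine (pow_le_pow_left₀ (cosh_pos _).le (cosh_le_exp_half_sq _) n).trans (le_of_eq ?_)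
      rw [← exp_nat_mul, tau_eq, ← sx_pow_six n]
      congr 1
      generalize sx n = x at hs
      field_simp
    · refine le_add_of_nonneg_of_le (add_nonneg (mul_nonneg (exp_pos _).le (LL_pos hL hn i _).le)
        (sum_nonneg fun k _ => mul_nonneg (exp_pos _).le
          (add_nonneg (LL_pos hL hn i _).le (LL_pos hL hn i _).le))) ?_
      rw [exp_nat_mul]
      refine pow_le_pow_left₀ (cosh_pos _).le (hκ _ ?_) n
      rw [abs_div, abs_of_pos hτ, le_div_iff₀ hτ, tau_eq]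
      rw [not_le] at hv
      linarith [show (sx n ^ 2) ^ 2 = sx n ^ 4 by ring]
  · simp only [add_assoc]
    rw [ess]
    exact bss _ _ (hb k _ (by rw [abs_of_nonneg (by positivity)]))
  · simp only [add_sub_assoc]
    rw [ess]
    refine bss _ _ (hb k _ ?_)
    have : 0 ≤ g ^ 2 * (k : ℝ) ^ 2 := by positivity
    rw [abs_le]; constructor <;> linarith
  rw [← ecc]
  refine key.trans ?_
  rw [ess]
  have hJ0 : (0 : ℝ) < J := by exact_mod_cast hJ
  have he1 : 0 ≤ exp ((J : ℝ) ^ 4 / (4 * sx n ^ 2)) - 1 := sub_nonneg.2 (one_le_exp (by positivity))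
  have hM0 : 0 ≤ max C (32 / g ^ 2) := le_max_of_le_left hC0
  -- the three pieces
  have p1 : ENNReal.ofReal (exp ((J : ℝ) ^ 4 / (4 * sx n ^ 2))) *
      ∫⁻ W in GS n B κ, ENNReal.ofReal (Xk θ (nuW n W) (nuW n W)) ∂GOE n ≤
      ∫⁻ W in GS n B κ, ENNReal.ofReal (Xk θ (nuW n W) (nuW n W)) ∂GOE n +
        ENNReal.ofReal ((exp ((J : ℝ) ^ 4 / (4 * sx n ^ 2)) - 1) * β) := by
    conv_lhs => rw [show exp ((J : ℝ) ^ 4 / (4 * sx n ^ 2)) =
      1 + (exp ((J : ℝ) ^ 4 / (4 * sx n ^ 2)) - 1) by ring]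
    rw [ENNReal.ofReal_add zero_le_one he1, ENNReal.ofReal_one, add_mul, one_mul,
      ENNReal.ofReal_mul he1]
    exact add_le_add le_rfl (mul_le_mul_right b0 _)
  have p2 : ∑ k ∈ Ico J N, exp (-((g ^ 2 / 4 - 2 * δ) * (k : ℝ) ^ 3)) *
      (2 * (B * exp (B * (2 * θ ^ (3 / 2 : ℝ) + 2 * (g * k) ^ 3)))) ≤
      max C (32 / g ^ 2) / J * β := by
    have h1 : ∀ k ∈ Ico J N, exp (-((g ^ 2 / 4 - 2 * δ) * (k : ℝ) ^ 3)) *
        (2 * (B * exp (B * (2 * θ ^ (3 / 2 : ℝ) + 2 * (g * k) ^ 3)))) ≤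
        16 / g ^ 2 * β * ((k : ℝ) ^ 2)⁻¹ := fun k hk => by
      have hk1 : (1 : ℝ) ≤ k := by exact_mod_cast hJ.trans (mem_Ico.1 hk).1
      have e1 : exp (-((g ^ 2 / 4 - 2 * δ) * (k : ℝ) ^ 3)) *
          (2 * (B * exp (B * (2 * θ ^ (3 / 2 : ℝ) + 2 * (g * k) ^ 3)))) =
          2 * β * exp (-(g ^ 2 * (k : ℝ) ^ 3 / 8)) := by
        have : B * (2 * θ ^ (3 / 2 : ℝ) + 2 * (g * k) ^ 3) =
            2 * B * θ ^ (3 / 2 : ℝ) + g ^ 2 * (k : ℝ) ^ 3 / 16 := by
          have : B * (2 * (g * k) ^ 3) = 2 * B * g * (g ^ 2 * (k : ℝ) ^ 3) := by ring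
          rw [mul_add, this, hgB]; ring
        rw [this, exp_add, hβ, show -(g ^ 2 * (k : ℝ) ^ 3 / 8) =
          -((g ^ 2 / 4 - 2 * δ) * (k : ℝ) ^ 3) + g ^ 2 * (k : ℝ) ^ 3 / 16 by rw [hδ]; ring, exp_add]
        ring
      have h2 : exp (-(g ^ 2 * (k : ℝ) ^ 3 / 8)) ≤ 8 / g ^ 2 * ((k : ℝ) ^ 2)⁻¹ := by
        have h3 : g ^ 2 * (k : ℝ) ^ 2 / 8 ≤ exp (g ^ 2 * (k : ℝ) ^ 3 / 8) := by
          have h4 := add_one_le_exp (g ^ 2 * (k : ℝ) ^ 3 / 8)
          have h5 : (k : ℝ) ^ 2 ≤ (k : ℝ) ^ 3 := pow_le_pow_right₀ hk1 (by norm_num)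
          have h6 := mul_le_mul_of_nonneg_left h5 (sq_nonneg g)
          linarith
        rw [Real.exp_neg]
        refine (inv_anti₀ (by positivity) h3).trans (le_of_eq ?_)
        field_simp
      rw [e1]
      refine (mul_le_mul_of_nonneg_left h2 (by positivity)).trans (le_of_eq ?_)
      ring
    refine (sum_le_sum h1).trans ?_
    rw [← mul_sum]
    have h2 := sum_Ioo_inv_sq_le (α := ℝ) (J - 1) N
    have h3 : Ioo (J - 1) N = Ico J N := by ext k; simp only [mem_Ioo, mem_Ico]; omega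
    rw [h3, Nat.cast_sub hJ, Nat.cast_one, sub_add_cancel] at h2
    calc _ ≤ 16 / g ^ 2 * β * (2 / J) := mul_le_mul_of_nonneg_left h2 (by positivity)
      _ = 32 / g ^ 2 / J * β := by ring
      _ ≤ _ := by gcongr; exact le_max_right _ _
  have p3 : ∫⁻ W, ENNReal.ofReal
      (exp (n * ((1 - κ) * ((W i i - W j j) / 2 + θ / tau n) ^ 2 / 2 - 8 * κ))) ∂m ≤
      ENNReal.ofReal (max C (32 / g ^ 2) * exp (-(n * κ))) := by
    have h1 := hC n hn i j hij (θ / tau n) (by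
      rw [abs_of_nonneg (by positivity), div_le_iff₀ hτ]; exact hθ)
    have h3 : Measurable fun W : Mat n => W i i := hii
    have h4 : Measurable fun W : Mat n => W j j := hjj
    rw [hm' _ (by fun_prop)]
    calc _ ≤ ∫⁻ W, ENNReal.ofReal (exp (-(n / 2) - 6 * (n * κ))) *
          (ENNReal.ofReal (exp (n * (W i i + W j j) / 2)) * ENNReal.ofReal
            (exp (n * ((1 - κ) * ((W i i - W j j) / 2 + θ / tau n) ^ 2 / 2)))) ∂GOE n := by
          refine lintegral_mono fun W => ?_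
          have h5 : G W ≤ ENNReal.ofReal (exp (-(n / 2) + 2 * (n * κ))) := by
            by_cases hW : W ∈ GS n B κ
            · simp only [hG, Set.indicator_of_mem hW]
              refine ENNReal.ofReal_le_ofReal ?_
              have h6 := pow_le_pow_left₀ (exp_pos _).le hW.2 2
              refine (inv_anti₀ (by positivity) h6).trans (le_of_eq ?_)
              rw [← exp_nat_mul, ← Real.exp_neg]; congr 1; push_cast; ring
            · simp only [hG, Set.indicator_of_notMem hW, zero_le]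
          simp only [hwt]
          refine (mul_le_mul_left (mul_le_mul_left h5 _) _).trans (le_of_eq ?_)
          simp only [← ENNReal.ofReal_mul (exp_pos _).le, ← exp_add]
          congr 2; ring
      _ ≤ ENNReal.ofReal (exp (-(n / 2) - 6 * (n * κ))) *
          ENNReal.ofReal (exp (n / 2 + n * κ) * C) := by
          rw [lintegral_const_mul _ (by fun_prop)]
          exact mul_le_mul_right h1 _
      _ ≤ _ := by
          rw [← ENNReal.ofReal_mul (exp_pos _).le, ← mul_assoc, ← exp_add, mul_comm]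
          refine ENNReal.ofReal_le_ofReal (mul_le_mul (le_max_left _ _) (exp_le_exp.2 ?_)
            (exp_pos _).le hM0)
          nlinarith [mul_pos hn0 hκ0]
  refine (add_le_add (add_le_add p1 (ENNReal.ofReal_le_ofReal p2)) p3).trans (le_of_eq ?_)
  rw [add_assoc, add_assoc, ← ENNReal.ofReal_add (by positivity) (by positivity),
    ← ENNReal.ofReal_add (by positivity) (by positivity)]
  congr 2; ring

/-- the quadratic form of the signed measure `r μ - ν` -/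
def QQ (n : ℕ) (θ : ℝ) (W : Mat n) : ℝ := rr n W ^ 2 * Xk θ (muW n W) (muW n W) -
  2 * (rr n W * Xk θ (muW n W) (nuW n W)) + Xk θ (nuW n W) (nuW n W)

lemma cross_le (hM : MmdStmt) {μ ν : Measure (Fin n → ℝ)} (h : Cp μ) (h' : Cp ν) {θ : ℝ}
    (hθ : 0 ≤ θ) : Xk θ μ ν ≤ √(Xk θ μ μ) * √(Xk θ ν ν) := by
  obtain ⟨h0, -, h1, -, -, -, h2, -⟩ := hM _ μ ν ν h h' h' θ θ hθ le_rfl
  obtain ⟨-, -, -, -, -, -, h3, -⟩ := hM _ ν μ ν h' h h' θ θ hθ le_rfl
  rw [← h1] at h3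
  have e1 := sq_sqrt (Xk_nonneg θ μ μ)
  have e2 := sq_sqrt (Xk_nonneg θ ν ν)
  have e3 := sq_sqrt h0
  have h4 : (√(Xk θ μ μ) - √(Xk θ ν ν)) ^ 2 ≤ √(D2 θ μ ν) ^ 2 :=
    sq_le_sq' (by linarith) (by linarith)
  rw [e3, D2] at h4
  nlinarith

section prob
variable (hM : MmdStmt) (hS : SphStmt) (hK : LnkStmt) (hR : RotStmt) (hL : LamStmt)

include hM hK in
lemma QQ_nonneg (hn : 1 ≤ n) {θ : ℝ} (hθ : 0 ≤ θ) (W : Mat n) : 0 ≤ QQ n θ W := by
  have h1 := cross_le hM (cp_mu hK hn W) (cp_nu hK hn W) hθ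
  have e1 := sq_sqrt (Xk_nonneg θ (muW n W) (muW n W))
  have e2 := sq_sqrt (Xk_nonneg θ (nuW n W) (nuW n W))
  have h2 := mul_le_mul_of_nonneg_left h1 (rr_pos hK hn W).le
  rw [QQ, ← e1, ← e2]
  nlinarith [sq_nonneg (rr n W * √(Xk θ (muW n W) (muW n W)) - √(Xk θ (nuW n W) (nuW n W)))]

include hM hK in
lemma D2_le (hn : 1 ≤ n) {θ η β : ℝ} (hθ : 0 ≤ θ) (W : Mat n) (hη : η ≤ 1 / 2)
    (hr : |rr n W - 1| ≤ η) (hQ : QQ n θ W ≤ η) (hβ : Xk θ (nuW n W) (nuW n W) ≤ β) :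
    D2 θ (muW n W) (nuW n W) ≤ 8 * η * (1 + β) := by
  have h1 := cross_le hM (cp_mu hK hn W) (cp_nu hK hn W) hθ
  have h0 := (hM _ _ _ _ (cp_mu hK hn W) (cp_nu hK hn W) (cp_nu hK hn W) θ θ hθ le_rfl).1
  have e1 := sq_sqrt (Xk_nonneg θ (muW n W) (muW n W))
  have e2 := sq_sqrt (Xk_nonneg θ (nuW n W) (nuW n W))
  rw [QQ] at hQ
  rw [D2] at h0 ⊢
  rw [← e1, ← e2] at hQ h0 ⊢
  rw [← e2] at hβ
  generalize √(Xk θ (muW n W) (muW n W)) = a at *
  generalize √(Xk θ (nuW n W) (nuW n W)) = b at *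
  generalize Xk θ (muW n W) (nuW n W) = c at *
  generalize rr n W = r at *
  have hη0 : 0 ≤ η := (abs_nonneg _).trans hr
  obtain ⟨hr1, hr2⟩ := abs_le.1 hr
  have h2 : r ^ 2 * (a ^ 2 - 2 * c + b ^ 2) ≤ 2 * η + 2 * ((r - 1) ^ 2 * b ^ 2) := by
    have h3 : 0 ≤ r * (2 - r) * (a * b - c) :=
      mul_nonneg (mul_nonneg (by linarith) (by linarith)) (by linarith)
    nlinarith [sq_nonneg (r * a - b * (2 - r))]
  have h3 : (r - 1) ^ 2 ≤ η := by nlinarith
  have h4 : (r - 1) ^ 2 * b ^ 2 ≤ η * β := mul_le_mul h3 hβ (sq_nonneg _) hη0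
  have h5 : 1 / 4 ≤ r ^ 2 := by nlinarith
  have h6 := mul_le_mul_of_nonneg_right h5 h0
  linarith

include hK in
lemma meas_QQ (hn : 1 ≤ n) (θ : ℝ) : Measurable (QQ n θ) :=
  ((((meas_rr hK hn).pow_const 2).mul (cont_cc hK hn θ).measurable).sub
    (((meas_rr hK hn).mul (cont_cs hK hn θ).measurable).const_mul 2)).add
    (cont_ss hK hn θ).measurable

include hM hS hK hR hL in
lemma QQ_whp_on {B : ℝ} (hB : 1 ≤ B) : ∃ κ : ℝ, 0 < κ ∧ ∀ θ a : ℝ, 0 ≤ θ → 0 < a →
    Whp GOE fun n W => W ∈ GS n B κ → QQ n θ W ≤ a := by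
  obtain ⟨κ, C, hκ0, -, hC0, H⟩ := main hS hK hR hL hB
  refine ⟨κ, hκ0, fun θ a hθ ha => whp_iff.2 fun ε hε => ?_⟩
  set β := B * exp (2 * B * θ ^ (3 / 2 : ℝ)) with hβ
  have hβ0 : 0 ≤ β := by positivity
  obtain ⟨J, hJ⟩ := exists_nat_gt (C * β / (ε * a))
  have hJ0 : (0 : ℝ) < J := lt_of_le_of_lt (by positivity) hJ
  have hJ1 : 1 ≤ J := by exact_mod_cast hJ0
  have t1 : Tendsto (fun n : ℕ => (J : ℝ) ^ 4 / (4 * sx n ^ 2)) atTop (𝓝 0) :=
    Tendsto.const_div_atTop (((tendsto_pow_atTop two_ne_zero).comp tendsto_sx).const_mul_atTop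
      (by norm_num)) _
  have t2 : Tendsto (fun n : ℕ => exp (-(n * κ))) atTop (𝓝 0) :=
    tendsto_exp_neg_atTop_nhds_zero.comp (tendsto_natCast_atTop_atTop.atTop_mul_const hκ0)
  have t3 := (((((continuous_exp.tendsto 0).comp t1).sub_const 1).add_const (C / J)).mul_const
    β).add (t2.const_mul C)
  have hlt : (exp 0 - 1 + C / J) * β + C * 0 < ε * a := by
    rw [div_lt_iff₀ (by positivity)] at hJ
    rw [exp_zero, sub_self, zero_add, mul_zero, add_zero, div_mul_eq_mul_div, div_lt_iff₀ hJ0]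
    linarith
  filter_upwards [t3.eventually (gt_mem_nhds hlt), eventually_ge_atTop 2,
    (tendsto_tau.const_mul_atTop hκ0).eventually_ge_atTop θ] with n h1 hn2 hθn
  have hn : 1 ≤ n := by omega
  obtain ⟨H1, H2, H3⟩ := H n hn2 J hJ1 θ hθ hθn
  have h2 := markov (GOE n) (S := GS n B κ) (meas_QQ hK hn θ) ha (η := ε * a) ?_
  · rwa [mul_div_cancel_right₀ _ ha.ne'] at h2
  set I := ∫⁻ W in GS n B κ, ENNReal.ofReal (Xk θ (nuW n W) (nuW n W)) ∂GOE n with hI
  have hfin : I + I ≠ ∞ :=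
    ENNReal.add_ne_top.2 ⟨ne_top_of_le_ne_top ENNReal.ofReal_ne_top H2,
      ne_top_of_le_ne_top ENNReal.ofReal_ne_top H2⟩
  have m1 : Measurable fun W => ENNReal.ofReal (rr n W * Xk θ (muW n W) (nuW n W)) :=
    ((meas_rr hK hn).mul (cont_cs hK hn θ).measurable).ennreal_ofReal
  have m2 : Measurable fun W => ENNReal.ofReal (Xk θ (nuW n W) (nuW n W)) :=
    (cont_ss hK hn θ).measurable.ennreal_ofReal
  have e : ∫⁻ W in GS n B κ, ENNReal.ofReal (QQ n θ W) ∂GOE n + (I + I) =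
      ∫⁻ W in GS n B κ, ENNReal.ofReal (rr n W ^ 2 * Xk θ (muW n W) (muW n W)) ∂GOE n + I := by
    conv_lhs => rw [← H1]
    rw [hI, ← lintegral_add_left m1, ← lintegral_add_left (meas_QQ hK hn θ).ennreal_ofReal,
      ← lintegral_add_right _ m2]
    refine lintegral_congr fun W => ?_
    have h3 : 0 ≤ rr n W * Xk θ (muW n W) (nuW n W) :=
      mul_nonneg (rr_pos hK hn W).le (Xk_nonneg _ _ _)
    rw [← ENNReal.ofReal_add h3 h3, ← ENNReal.ofReal_add (QQ_nonneg hM hK hn hθ W)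
      (add_nonneg h3 h3), ← ENNReal.ofReal_add (mul_nonneg (sq_nonneg _) (Xk_nonneg _ _ _))
      (Xk_nonneg _ _ _), QQ]
    congr 1; ring
  refine (ENNReal.add_le_add_iff_right hfin).1 (e.le.trans ((add_le_add H3 le_rfl).trans ?_))
  rw [add_right_comm, add_comm]
  exact add_le_add (ENNReal.ofReal_le_ofReal h1.le) le_rfl

include hK in
lemma good (hZ : ZsStmt) (hT : SphTightStmt) {ε : ℝ} (hε : 0 < ε) : ∃ B : ℝ, 1 ≤ B ∧
    ∀ κ : ℝ, 0 < κ → ∀ᶠ n in atTop, GOE n {W | ¬ W ∈ GS n B κ} ≤ ENNReal.ofReal ε := by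
  obtain ⟨B, hB⟩ := hT (ε / 2) (by positivity)
  refine ⟨max B 1, le_max_right _ _, fun κ hκ => ?_⟩
  filter_upwards [hB, whp_iff.1 (hZ κ hκ) (ε / 2) (by positivity), eventually_ge_atTop 1]
    with n h1 h2 hn
  calc _ ≤ GOE n ({W | ¬ Mgf (nuW n W) B} ∪ {W | ¬ exp (n * (1 / 4 - κ)) ≤ Zs n W}) := by
        refine measure_mono fun W hW => ?_
        by_contra hc
        simp only [Set.mem_union, Set.mem_ofPred_eq, not_or, not_not] at hc
        refine hW ⟨?_, hc.2⟩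
        have h3 := hc.1 0
        rw [Xk_zero (cp_nu hK hn W) (cp_nu hK hn W), abs_zero, zero_rpow (by norm_num), mul_zero,
          exp_zero, mul_one] at h3
        rw [max_eq_left h3]
        exact hc.1
    _ ≤ _ := measure_union_le _ _
    _ ≤ ENNReal.ofReal (ε / 2) + ENNReal.ofReal (ε / 2) := add_le_add h1 h2
    _ = ENNReal.ofReal ε := by
        rw [← ENNReal.ofReal_add (by positivity) (by positivity), add_halves]

include hM hS hK hR hL in
lemma QQ_whp (hZ : ZsStmt) (hT : SphTightStmt) {θ a : ℝ} (hθ : 0 ≤ θ) (ha : 0 < a) :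
    Whp GOE fun n W => QQ n θ W ≤ a := by
  refine whp_of_approx fun ε hε => ?_
  obtain ⟨B, hB, h1⟩ := good hK hZ hT hε
  obtain ⟨κ, hκ, h2⟩ := QQ_whp_on hM hS hK hR hL hB
  exact ⟨fun n W => W ∈ GS n B κ, h1 κ hκ, h2 θ a hθ ha⟩

include hM hS hK hR hL in
lemma rr_whp (hZ : ZsStmt) (hT : SphTightStmt) {ε : ℝ} (hε : 0 < ε) :
    Whp GOE fun n W => |rr n W - 1| ≤ ε := by
  refine (QQ_whp hM hS hK hR hL hZ hT le_rfl (pow_pos hε 2)).mono ?_
  filter_upwards [eventually_ge_atTop 1] with n hn W hW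
  rw [QQ, Xk_zero (cp_mu hK hn W) (cp_mu hK hn W), Xk_zero (cp_mu hK hn W) (cp_nu hK hn W),
    Xk_zero (cp_nu hK hn W) (cp_nu hK hn W)] at hW
  exact abs_le_of_sq_le_sq' (by linarith) hε.le |> abs_le.2

include hM hS hK hR hL in
lemma close (hZ : ZsStmt) (hT : SphTightStmt) : CloseStmt := by
  refine ⟨fun ε hε => rr_whp hM hS hK hR hL hZ hT hε, fun θ ε hθ hε => ?_⟩
  refine whp_of_approx fun ε' hε' => ?_
  obtain ⟨B, hB, h1⟩ := good hK hZ hT hε'
  refine ⟨fun n W => W ∈ GS n B 1, h1 1 one_pos, ?_⟩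
  set β := B * exp (B * |θ| ^ (3 / 2 : ℝ)) with hβ
  have hβ0 : 0 ≤ β := by positivity
  set η := min (1 / 2) (ε / (8 * (1 + β))) with hη
  have hη0 : 0 < η := by positivity
  refine ((rr_whp hM hS hK hR hL hZ hT hη0).and (QQ_whp hM hS hK hR hL hZ hT hθ hη0)).mono ?_
  filter_upwards [eventually_ge_atTop 1] with n hn W hW hG
  refine (D2_le hM hK hn hθ W (min_le_left _ _) hW.1 hW.2 (hG.1 θ)).trans ?_
  have := (le_div_iff₀ (by positivity)).1 (min_le_right (1 / 2) (ε / (8 * (1 + β))))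
  linarith

include hM hK in
/-- from integer parameters to all parameters -/
lemma mgf_of (hn : 1 ≤ n) (W : Mat n) {κ A D : ℝ} (hκ : 0 < κ) (hκn : 2 ≤ κ * tau n)
    (hA : 0 ≤ A) (hD : 0 ≤ D) (h : ∀ k : ℕ, k ≤ ⌊κ * tau n⌋₊ →
      Xk k (muW n W) (muW n W) ≤ A * 2 ^ k * exp (D * (k : ℝ) ^ (3 / 2 : ℝ))) :
    Mgf (muW n W) (max (max 1 (A * exp (2 * (D + 1)))) (max (2 * (D + 1)) √(2 / κ))) := by
  set B := max (max 1 (A * exp (2 * (D + 1)))) (max (2 * (D + 1)) √(2 / κ)) with hB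
  have b1 : 1 ≤ B := le_max_of_le_left (le_max_left _ _)
  have b2 : A * exp (2 * (D + 1)) ≤ B := le_max_of_le_left (le_max_right _ _)
  have b3 : 2 * (D + 1) ≤ B := le_max_of_le_right (le_max_left _ _)
  have b4 : √(2 / κ) ≤ B := le_max_of_le_right (le_max_right _ _)
  have key : ∀ θ : ℝ, 0 ≤ θ → Xk θ (muW n W) (muW n W) ≤ B * exp (B * θ ^ (3 / 2 : ℝ)) := by
    intro θ hθ
    have hθp : 0 ≤ θ ^ (3 / 2 : ℝ) := rpow_nonneg hθ _
    by_cases hk : ⌈θ⌉₊ ≤ ⌊κ * tau n⌋₊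
    · have h1 := (hM _ _ _ _ (cp_mu hK hn W) (cp_mu hK hn W) (cp_mu hK hn W) θ _ hθ
        (Nat.le_ceil θ)).2.2.2.2.1
      refine h1.trans ((h _ hk).trans ?_)
      have h2 := (Nat.ceil_lt_add_one hθ).le
      generalize ⌈θ⌉₊ = k at h2
      have hk0 : (0 : ℝ) ≤ k := Nat.cast_nonneg k
      have h3 : (k : ℝ) ≤ (k : ℝ) ^ (3 / 2 : ℝ) := by
        rcases Nat.eq_zero_or_pos k with h0 | h0
        · rw [h0, Nat.cast_zero]; positivity
        · exact self_le_rpow_of_one_le (by exact_mod_cast h0) (by norm_num)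
      have h4 : (2 : ℝ) ^ k ≤ exp ((k : ℝ) ^ (3 / 2 : ℝ)) := by
        refine le_trans ?_ (exp_le_exp.2 h3)
        rw [← mul_one (k : ℝ), exp_nat_mul]
        exact pow_le_pow_left₀ zero_le_two (by linarith [add_one_le_exp (1 : ℝ)]) k
      have h5 := (rp_mono hk0 h2).trans (rp_add hθ zero_le_one)
      rw [one_rpow] at h5
      calc _ ≤ A * exp ((k : ℝ) ^ (3 / 2 : ℝ)) * exp (D * (k : ℝ) ^ (3 / 2 : ℝ)) := by gcongr
        _ = A * exp ((D + 1) * (k : ℝ) ^ (3 / 2 : ℝ)) := by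
          rw [mul_assoc, ← exp_add]; congr 2; ring
        _ ≤ A * exp ((D + 1) * (2 * θ ^ (3 / 2 : ℝ) + 2 * 1)) := by gcongr
        _ = A * exp (2 * (D + 1)) * exp (2 * (D + 1) * θ ^ (3 / 2 : ℝ)) := by
          rw [mul_assoc, ← exp_add]; congr 2; ring
        _ ≤ _ := by gcongr
    · have h1 : ((⌊κ * tau n⌋₊ : ℕ) : ℝ) < θ := Nat.lt_ceil.1 (not_le.1 hk)
      have h2 := Nat.lt_floor_add_one (κ * tau n)
      have h3 : sx n ^ 2 ≤ √(2 / κ) * √θ := by
        rw [← sqrt_mul (by positivity)]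
        refine le_sqrt_of_sq_le ?_
        rw [← pow_mul, ← tau_eq, div_mul_eq_mul_div, le_div_iff₀ hκ]
        linarith
      refine (Xk_triv hn W hθ).trans (le_trans (exp_le_exp.2 ?_)
        (le_mul_of_one_le_left (exp_pos _).le b1))
      calc θ * sx n ^ 2 ≤ θ * (√(2 / κ) * √θ) := mul_le_mul_of_nonneg_left h3 hθ
        _ = √(2 / κ) * θ ^ (3 / 2 : ℝ) := by rw [rp_eq hθ]; ring
        _ ≤ _ := mul_le_mul_of_nonneg_right b4 hθp
  intro θ
  rcases abs_cases θ with h0 | h0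
  · rw [h0.1]; exact key θ h0.2
  · rw [h0.1, ← Xk_neg ((hK n hn).1 W).2.2.1]; exact key _ (by linarith)

include hM hS hK hR hL in
lemma ld (hZ : ZsStmt) (hT : SphTightStmt) : LdStmt := by
  intro ε hε
  obtain ⟨B, hB, h1⟩ := good hK hZ hT (ε := ε / 3) (by positivity)
  obtain ⟨κ, C, hκ0, -, hC0, H⟩ := main hS hK hR hL hB
  set A := (exp 1 + C) * B + C with hA
  have hA0 : 0 < A := by positivity
  set M := 2 * A / (ε / 3) with hM'
  have hM0 : 0 < M := by positivity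
  refine ⟨max (max 1 (4 * M * exp (2 * (2 * B + 1)))) (max (2 * (2 * B + 1)) √(2 / κ)), ?_⟩
  filter_upwards [h1 κ hκ0, whp_iff.1 (rr_whp hM hS hK hR hL hZ hT (ε := 1 / 2) (by norm_num))
    (ε / 3) (by positivity), eventually_ge_atTop 2,
    (tendsto_tau.const_mul_atTop hκ0).eventually_ge_atTop 2] with n h2 h3 hn2 hκn
  have hn : 1 ≤ n := by omega
  set N := ⌊κ * tau n⌋₊ with hN
  set c : ℕ → ℝ := fun k => (1 / 2) ^ k * exp (-(2 * B * (k : ℝ) ^ (3 / 2 : ℝ))) with hc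
  have hc0 : ∀ k, 0 ≤ c k := fun k => by positivity
  have hX : ∀ (k : ℕ) (W : Mat n), 0 ≤ rr n W ^ 2 * Xk k (muW n W) (muW n W) := fun k W =>
    mul_nonneg (sq_nonneg _) (Xk_nonneg _ _ _)
  have mX : ∀ k : ℕ, Measurable fun W : Mat n => rr n W ^ 2 * Xk k (muW n W) (muW n W) := fun k =>
    ((meas_rr hK hn).pow_const 2).mul (cont_cc hK hn k).measurable
  set f : Mat n → ℝ := fun W => ∑ k ∈ range (N + 1),
    c k * (rr n W ^ 2 * Xk k (muW n W) (muW n W)) with hf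
  have mf : Measurable f := Finset.measurable_sum _ fun k _ => (mX k).const_mul _
  have h4 := markov (GOE n) (S := GS n B κ) mf hM0 (η := 2 * A) ?_
  · have e : 2 * A / M = ε / 3 := by rw [hM']; field_simp
    rw [e] at h4
    calc _ ≤ GOE n ({W | ¬ W ∈ GS n B κ} ∪ {W | ¬ |rr n W - 1| ≤ 1 / 2} ∪
          {W | ¬ (W ∈ GS n B κ → f W ≤ M)}) := by
          refine measure_mono fun W hW => ?_
          by_contra hcon
          simp only [Set.mem_union, Set.mem_ofPred_eq, not_or, not_not] at hcon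
          obtain ⟨⟨g1, g2⟩, g3⟩ := hcon
          refine hW (mgf_of hM hK hn W hκ0 hκn (by positivity) (by linarith) fun k hk => ?_)
          have g4 : c k * (rr n W ^ 2 * Xk k (muW n W) (muW n W)) ≤ M :=
            (single_le_sum (f := fun k : ℕ => c k * (rr n W ^ 2 * Xk k (muW n W) (muW n W)))
              (fun k _ => mul_nonneg (hc0 k) (hX k W)) (mem_range.2 (by omega))).trans (g3 g1)
          have g5 : 1 / 4 ≤ rr n W ^ 2 := by nlinarith [(abs_le.1 g2).1]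
          have g6 := mul_le_mul_of_nonneg_left (mul_le_mul_of_nonneg_right g5
            (Xk_nonneg k (muW n W) (muW n W))) (hc0 k)
          have g7 : c k * (2 ^ k * exp (2 * B * (k : ℝ) ^ (3 / 2 : ℝ))) = 1 := by
            simp only [hc, Real.exp_neg, one_div, inv_pow]; field_simp
          have g8 := mul_le_mul_of_nonneg_right (g6.trans g4)
            (by positivity : (0 : ℝ) ≤ 2 ^ k * exp (2 * B * (k : ℝ) ^ (3 / 2 : ℝ)))
          rw [mul_right_comm, g7] at g8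
          linarith
      _ ≤ ENNReal.ofReal (ε / 3) + ENNReal.ofReal (ε / 3) + ENNReal.ofReal (ε / 3) :=
          (measure_union_le _ _).trans (add_le_add ((measure_union_le _ _).trans
            (add_le_add h2 h3)) h4)
      _ = ENNReal.ofReal ε := by
          rw [← ENNReal.ofReal_add (by positivity) (by positivity),
            ← ENNReal.ofReal_add (by positivity) (by positivity), add_thirds]
  have e : ∀ W, ENNReal.ofReal (f W) = ∑ k ∈ range (N + 1), ENNReal.ofReal (c k) *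
      ENNReal.ofReal (rr n W ^ 2 * Xk k (muW n W) (muW n W)) := fun W => by
    rw [hf, ENNReal.ofReal_sum_of_nonneg fun k _ => mul_nonneg (hc0 k) (hX k W)]
    exact sum_congr rfl fun k _ => ENNReal.ofReal_mul (hc0 k)
  simp only [e]
  rw [lintegral_finsetSum _ fun k _ => (mX k).ennreal_ofReal.const_mul _]
  calc _ ≤ ∑ k ∈ range (N + 1), ENNReal.ofReal ((1 / 2) ^ k * A) := by
        refine sum_le_sum fun k hk => ?_
        have hkN : (k : ℝ) ≤ κ * tau n :=
          le_trans (by exact_mod_cast Nat.lt_succ_iff.1 (mem_range.1 hk))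
            (Nat.floor_le (by linarith))
        obtain ⟨-, H2, H3⟩ := H n hn2 1 le_rfl k (Nat.cast_nonneg k) hkN
        rw [lintegral_const_mul _ (mX k).ennreal_ofReal]
        refine (mul_le_mul_right (H3.trans (add_le_add H2 le_rfl)) _).trans ?_
        have hs := one_le_pow₀ (n := 2) (one_le_sx hn)
        have g1 : 1 ≤ exp (((1 : ℕ) : ℝ) ^ 4 / (4 * sx n ^ 2)) := one_le_exp (by positivity)
        have g2 : exp (((1 : ℕ) : ℝ) ^ 4 / (4 * sx n ^ 2)) ≤ exp 1 := by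
          rw [exp_le_exp, div_le_one (by positivity)]; push_cast; linarith
        have g3 : exp (-(n * κ)) ≤ 1 := exp_le_one_iff.2 (neg_nonpos.2 (by positivity))
        have g4 : 1 ≤ exp (2 * B * (k : ℝ) ^ (3 / 2 : ℝ)) := one_le_exp (by positivity)
        have g5 : 0 ≤ exp (((1 : ℕ) : ℝ) ^ 4 / (4 * sx n ^ 2)) - 1 := by linarith
        rw [← ENNReal.ofReal_add (by positivity) (by positivity), ← ENNReal.ofReal_mul (hc0 k)]
        refine ENNReal.ofReal_le_ofReal ?_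
        have g6 : c k * (A * exp (2 * B * (k : ℝ) ^ (3 / 2 : ℝ))) = (1 / 2) ^ k * A := by
          simp only [hc, Real.exp_neg]; field_simp
        rw [← g6]
        refine mul_le_mul_of_nonneg_left ?_ (hc0 k)
        generalize exp (2 * B * (k : ℝ) ^ (3 / 2 : ℝ)) = E at g4 ⊢
        generalize exp (((1 : ℕ) : ℝ) ^ 4 / (4 * sx n ^ 2)) = y at g2 ⊢
        have g7 := mul_le_mul_of_nonneg_right g2 (by positivity : 0 ≤ B * E)
        have g8 := mul_le_mul_of_nonneg_left (g3.trans g4) hC0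
        rw [hA, Nat.cast_one, div_one]
        linarith
    _ ≤ _ := by
        rw [← ENNReal.ofReal_sum_of_nonneg fun k _ => by positivity, ← sum_mul]
        exact ENNReal.ofReal_le_ofReal
          (mul_le_mul_of_nonneg_right (sum_geometric_two_le _) hA0.le)

end prob

end Crest.Agent.T157.St.Cl28

namespace Crest.Agent.T157.St

/-- **the cube and the sphere are close; two-replica large deviations on the cube** -/
theorem closeGlue : CloseGlue := fun hM hS hK hR hL hZ hT =>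
  ⟨Cl28.close hM hS hK hR hL hZ hT, Cl28.ld hM hS hK hR hL hZ hT⟩

end Crest.Agent.T157.St

end
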