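import Crest.Agent.T157.StLnk_10

/-!
# Row 157, part C4: convergence in law of the chain functionals, cubic overlap moment (helper10)
-/

set_option autoImplicit false

noncomputable section

namespace Crest.Agent.T157.St

open MeasureTheory ProbabilityTheory Matrix Filter Topology Finset Real
open scoped ENNReal
open Crest.ProbabilityR.SpinGlassDynamics Crest.Agent.T157.E Crest.Agent.T157.Eig
open Crest.Agent.T157.Cond Crest.Agent.T157.Ed Crest.Agent.T157.Top
open Lnk10

namespace Conv10

/-- an outer-measure bound passes from the GOE to the couplings -/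
theorem disorder_le {n : ℕ} {A : Set (Pair n → ℝ)} {B : Set (Mat n)}
    (h : ∀ g ∈ A, ∀ d, Wmat n g d ∈ B) : disorderLaw n A ≤ GOE n B := by
  refine le_trans ?_ ((mp_Wmat (n := n)).measure_preimage_le B)
  calc disorderLaw n A = ((disorderLaw n).prod (gv (Fin n))) (A ×ˢ Set.univ) := by
        rw [Measure.prod_prod, measure_univ, mul_one]
    _ ≤ _ := measure_mono fun p hp => h p.1 hp.1 p.2




end Conv10

open Conv10



end Crest.Agent.T157.St

end
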