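import Crest.Agent.T157.StDef_87

-- ▼ part T157/StApx_22
section

/-!
# Row 157, part C4: `ApproxGlue` (helper22)
-/

set_option autoImplicit false

noncomputable section

namespace Crest.Agent.T157.St

open MeasureTheory ProbabilityTheory Matrix Filter Topology Finset Real
open scoped ENNReal
open Crest.Agent.T157.E Crest.Agent.T157.Eig
open Crest.Agent.T157.Cond Crest.Agent.T157.Ed Crest.Agent.T157.Top

namespace Apx22

/-- the matrix of `pad` -/
def padM (K n : ℕ) : Matrix (Fin n) (Fin K) ℝ := fun i j => if (i : ℕ) = j then 1 else 0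

lemma padM_mulVec (K n : ℕ) (a : Fin K → ℝ) : padM K n *ᵥ a = pad K n a := by
  funext i
  simp only [mulVec, dotProduct, padM, pad, ite_mul, one_mul, zero_mul]
  split_ifs with h
  · rw [sum_eq_single (⟨i, h⟩ : Fin K)]
    · simp
    · intro j _ hj
      rw [if_neg]
      intro e
      exact hj (Fin.ext e.symm)
    · simp
  · refine sum_eq_zero fun j _ => if_neg fun e => h ?_
    rw [e]; exact j.2

lemma padM_isom {K n : ℕ} (h : K ≤ n) : (padM K n)ᵀ * padM K n = 1 := by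
  ext j l
  simp only [mul_apply, transpose_apply, padM, one_apply, ite_mul, one_mul, zero_mul]
  rw [sum_eq_single (⟨j, lt_of_lt_of_le j.2 h⟩ : Fin n)]
  · simp [Fin.ext_iff]
  · intro i _ hi
    rw [if_neg]
    intro e
    exact hi (Fin.ext e)
  · simp


lemma continuous_ct {L : ℝ} (hL : 0 < L) (K : ℕ) : Continuous (ct L (K := K)) := by
  unfold ct
  refine continuous_const.add (continuous_finsetSum _ fun k _ => ?_)
  exact (continuous_apply k).div (by fun_prop) fun y => by positivity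


lemma Xk_le (hM : MmdStmt) {ι : Type} [Fintype ι] {μ ν : Measure (ι → ℝ)} (hμ : Cp μ) (hν : Cp ν)
    {θ B : ℝ} (hθ : 0 ≤ θ) (hB : Xk θ ν ν ≤ B) (hD : D2 θ μ ν ≤ 1) :
    Xk θ μ μ ≤ (√B + 1) ^ 2 := by
  obtain ⟨-, -, -, h1, -, -, h2, -⟩ := hM ι μ ν μ hμ hν hμ θ θ hθ le_rfl
  have h3 : √(Xk θ μ μ) ≤ √B + 1 :=
    h2.trans (add_le_add (sqrt_le_sqrt hB) (by rw [← sqrt_one]; exact sqrt_le_sqrt hD))
  rw [← sq_sqrt (zero_le_one.trans h1)]
  exact pow_le_pow_left₀ (sqrt_nonneg _) h3 2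

lemma le_sq_sqrt_add (B : ℝ) : B ≤ (√B + 1) ^ 2 := by
  rcases le_total B 0 with h | h
  · exact h.trans (sq_nonneg _)
  · nlinarith [sq_sqrt h, sqrt_nonneg B]

end Apx22

open Apx22


end Crest.Agent.T157.St

end
end

-- ▼ part T157/StFinA_85
section

/-!
# Row 157, part C4: `FinGlue`, part A (helper85): Gaussian splitting, smoothed densities
-/

set_option autoImplicit false

noncomputable section

namespace Crest.Agent.T157.St.Fin85

open MeasureTheory ProbabilityTheory Matrix Filter Topology Finset Real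
open scoped ENNReal
open Crest.Agent.T157.E

/-! ### scaling and splitting -/

/-- coordinatewise scaling -/
def sc {ι : Type*} (c z : ι → ℝ) : ι → ℝ := fun k => √(c k) * z k

lemma continuous_sc {ι : Type*} (c : ι → ℝ) : Continuous (sc c) :=
  continuous_pi fun k => continuous_const.mul (continuous_apply k)

lemma mp_sc {ι : Type*} [Fintype ι] {c : ι → ℝ} (hc : ∀ k, 0 ≤ c k) :
    MeasurePreserving (sc c) (gv ι) (gs 0 c) := by
  refine ⟨(continuous_sc c).measurable, ?_⟩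
  have h := Measure.pi_map_pi (μ := fun _ : ι => gaussianReal 0 1)
    (f := fun k x => √(c k) * x) (fun k => by fun_prop)
  refine h.trans ?_
  unfold gs
  congr 1
  funext k
  rw [gaussianReal_map_const_mul]
  congr 1
  · simp
  · ext
    simp [sq_sqrt (hc k), hc k]

lemma sc_dot {ι : Type*} [Fintype ι] {c : ι → ℝ} (hc : ∀ k, 0 ≤ c k) (z : ι → ℝ) :
    sc c z ⬝ᵥ sc c z = ∑ k, c k * z k ^ 2 := by
  refine sum_congr rfl fun k _ => ?_
  simp only [sc]
  have := mul_self_sqrt (hc k)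
  calc √(c k) * z k * (√(c k) * z k) = (√(c k) * √(c k)) * z k ^ 2 := by ring
    _ = _ := by rw [this]

/-- first block -/
def lft (a b : ℕ) (z : Fin (a + b) → ℝ) : Fin a → ℝ := fun i => z (Fin.castAdd b i)
/-- second block -/
def rgt (a b : ℕ) (z : Fin (a + b) → ℝ) : Fin b → ℝ := fun j => z (Fin.natAdd a j)

lemma mp_split (a b : ℕ) : MeasurePreserving (fun z => (lft a b z, rgt a b z))
    (gv (Fin (a + b))) ((gv (Fin a)).prod (gv (Fin b))) := by
  have h1 := (measurePreserving_piCongrLeft (α := fun _ : Fin (a + b) => ℝ)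
    (fun _ => gaussianReal 0 1) (finSumFinEquiv (m := a) (n := b))).symm
  have h2 := measurePreserving_sumPiEquivProdPi (X := fun _ : Fin a ⊕ Fin b => ℝ)
    (fun _ => gaussianReal 0 1)
  exact h2.comp h1

/-- weighted sum of squares of a block of modes -/
def S (c : ℕ → ℝ) (i m : ℕ) (z : Fin m → ℝ) : ℝ := ∑ k : Fin m, c (i + k) * z k ^ 2

lemma continuous_S (c : ℕ → ℝ) (i m : ℕ) : Continuous (S c i m) := by
  unfold S; fun_prop

lemma S_nonneg {c : ℕ → ℝ} (hc : ∀ k, 0 ≤ c k) (i m : ℕ) (z : Fin m → ℝ) : 0 ≤ S c i m z :=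
  sum_nonneg fun _ _ => mul_nonneg (hc _) (sq_nonneg _)

lemma S_split (c : ℕ → ℝ) (i a b : ℕ) (z : Fin (a + b) → ℝ) :
    S c i (a + b) z = S c i a (lft a b z) + S c (i + a) b (rgt a b z) := by
  unfold S
  rw [Fin.sum_univ_add]
  simp [lft, rgt, add_assoc]

lemma S_congr {c c' : ℕ → ℝ} {i m : ℕ} (h : ∀ k, k < m → c (i + k) = c' (i + k)) :
    S c i m = S c' i m := by
  funext z
  exact sum_congr rfl fun k _ => by rw [h k k.2]

/-! ### Lipschitz densities on the half line -/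

/-- bounded Lipschitz nonnegative function vanishing on the negative half line -/
structure Dn (P : ℝ → ℝ) (Λ : ℝ) : Prop where
  nn : ∀ s, 0 ≤ P s
  le : ∀ s, P s ≤ Λ
  lip : ∀ s s', |P s - P s'| ≤ Λ * |s - s'|
  zero : ∀ s, s ≤ 0 → P s = 0

lemma Dn.pos {P : ℝ → ℝ} {Λ : ℝ} (h : Dn P Λ) : 0 ≤ Λ := (h.nn 0).trans (h.le 0)

lemma Dn.cont {P : ℝ → ℝ} {Λ : ℝ} (h : Dn P Λ) : Continuous P := by
  refine (LipschitzWith.of_dist_le_mul (K := ⟨Λ, h.pos⟩) fun s s' => ?_).continuous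
  rw [Real.dist_eq, Real.dist_eq]
  exact h.lip s s'

lemma Dn.abs_le {P : ℝ → ℝ} {Λ : ℝ} (h : Dn P Λ) (s : ℝ) : |P s| ≤ Λ := by
  rw [abs_of_nonneg (h.nn s)]; exact h.le s

lemma int_bdd {α : Type*} [MeasurableSpace α] {μ : Measure α} [IsFiniteMeasure μ] {f : α → ℝ}
    (hf : Measurable f) {A : ℝ} (hA : ∀ x, |f x| ≤ A) : Integrable f μ :=
  Integrable.of_bound hf.aestronglyMeasurable A (ae_of_all _ hA)

lemma abs_int_le {α : Type*} [MeasurableSpace α] {μ : Measure α} [IsProbabilityMeasure μ]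
    {f : α → ℝ} {A : ℝ} (hA : ∀ x, |f x| ≤ A) : |∫ x, f x ∂μ| ≤ A := by
  simpa using norm_integral_le_of_norm_le_const (μ := μ) (f := f) (C := A) (ae_of_all _ hA)

/-- the density after adding a block of modes -/
def qf (P : ℝ → ℝ) (c : ℕ → ℝ) (i m : ℕ) (s : ℝ) : ℝ := ∫ z, P (s - S c i m z) ∂gv (Fin m)

lemma Dn.int {P : ℝ → ℝ} {Λ : ℝ} (h : Dn P Λ) (c : ℕ → ℝ) (i m : ℕ) (s : ℝ) :
    Integrable (fun z => P (s - S c i m z)) (gv (Fin m)) :=
  int_bdd (h.cont.comp (continuous_const.sub (continuous_S c i m))).measurable fun _ => h.abs_le _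

lemma Dn.qf {P : ℝ → ℝ} {Λ : ℝ} (h : Dn P Λ) {c : ℕ → ℝ} (hc : ∀ k, 0 ≤ c k) (i m : ℕ) :
    Dn (qf P c i m) Λ where
  nn _ := integral_nonneg fun _ => h.nn _
  le s := (le_abs_self _).trans (abs_int_le fun _ => h.abs_le _)
  lip s s' := by
    unfold Fin85.qf
    rw [← integral_sub (h.int c i m s) (h.int c i m s')]
    refine abs_int_le fun z => (h.lip _ _).trans (le_of_eq ?_)
    congr 2; ring
  zero s hs := by
    unfold Fin85.qf
    have : ∀ z, P (s - S c i m z) = 0 := fun z => h.zero _ (by linarith [S_nonneg hc i m z])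
    simp [this]

lemma qf_congr (P : ℝ → ℝ) {c c' : ℕ → ℝ} {i m : ℕ} (h : ∀ k, k < m → c (i + k) = c' (i + k)) :
    qf P c i m = qf P c' i m := by
  funext s
  unfold qf
  rw [S_congr h]

/-! ### fluctuations of the tail -/

lemma memLp_sq : MemLp (fun x : ℝ => x ^ 2) 2 (gaussianReal 0 1) := by
  have h := memLp_id_gaussianReal' (μ := 0) (v := 1) 4 (by simp)
  have h2 := h.norm_rpow_div 2
  have e : (4 : ℝ≥0∞) / 2 = 2 := by
    rw [show (4 : ℝ≥0∞) = 2 * 2 by norm_num, ENNReal.mul_div_cancel_right (by simp) (by simp)]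
  rw [e] at h2
  simpa using h2

lemma int_sq : ∫ x : ℝ, x ^ 2 ∂gaussianReal 0 1 = 1 := by
  have h := variance_fun_id_gaussianReal (μ := 0) (v := 1)
  rw [variance_eq_integral measurable_id'.aemeasurable] at h
  simpa using h

/-- variance of a squared Gaussian -/
def V0 : ℝ := Var[fun x : ℝ => x ^ 2; gaussianReal 0 1]

lemma V0_nonneg : 0 ≤ V0 := variance_nonneg _ _

lemma memLp_S (c : ℕ → ℝ) (i m : ℕ) : MemLp (S c i m) 2 (gv (Fin m)) := by
  unfold S
  exact memLp_finsetSum _ fun k _ =>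
    (memLp_sq.const_mul (c (i + k))).comp_measurePreserving
      (measurePreserving_eval (fun _ : Fin m => gaussianReal 0 1) k)

lemma int_S (c : ℕ → ℝ) (i m : ℕ) : ∫ z, S c i m z ∂gv (Fin m) = ∑ k : Fin m, c (i + k) := by
  unfold S
  rw [integral_finsetSum]
  · refine sum_congr rfl fun k _ => ?_
    rw [integral_const_mul]
    have h2 : ∫ z : Fin m → ℝ, z k ^ 2 ∂gv (Fin m) = ∫ x : ℝ, x ^ 2 ∂gaussianReal 0 1 := by
      have h3 := integral_map (μ := gv (Fin m)) (φ := Function.eval k)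
        (f := fun x : ℝ => x ^ 2) (measurable_pi_apply k).aemeasurable (by fun_prop)
      rw [(measurePreserving_eval (fun _ : Fin m => gaussianReal 0 1) k).map_eq] at h3
      exact h3.symm
    rw [h2, int_sq, mul_one]
  · intro k _
    exact ((memLp_sq.const_mul (c (i + k))).comp_measurePreserving
      (measurePreserving_eval (fun _ : Fin m => gaussianReal 0 1) k)).integrable one_le_two

lemma var_S (c : ℕ → ℝ) (i m : ℕ) :
    Var[S c i m; gv (Fin m)] = V0 * ∑ k : Fin m, c (i + k) ^ 2 := by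
  have h := variance_sum_pi (μ := fun _ : Fin m => gaussianReal 0 1)
    (X := fun k x => c (i + k) * x ^ 2) fun k => memLp_sq.const_mul _
  have e : S c i m = ∑ k : Fin m, fun ω : Fin m → ℝ => c (i + k) * ω k ^ 2 := by
    funext z; simp [S]
  rw [e, h, mul_sum]
  refine sum_congr rfl fun k _ => ?_
  rw [variance_const_mul, V0, mul_comm]

lemma dev_S (c : ℕ → ℝ) (i m : ℕ) {l : ℝ} (hl : 0 < l) :
    ∫ z, |S c i m z - ∑ k : Fin m, c (i + k)| ∂gv (Fin m) ≤
      (V0 * (∑ k : Fin m, c (i + k) ^ 2) / l + l) / 2 := by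
  have hm := memLp_S c i m
  rw [← var_S, ← int_S, variance_eq_integral hm.aemeasurable]
  set M := ∫ z, S c i m z ∂gv (Fin m)
  have h2 : Integrable (fun z => (S c i m z - M) ^ 2) (gv (Fin m)) :=
    (hm.sub (memLp_const M)).integrable_sq
  have h1 : Integrable (fun z => |S c i m z - M|) (gv (Fin m)) :=
    ((hm.integrable one_le_two).sub (integrable_const M)).abs
  calc ∫ z, |S c i m z - M| ∂gv (Fin m)
      ≤ ∫ z, ((S c i m z - M) ^ 2 / l + l) / 2 ∂gv (Fin m) := by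
        refine integral_mono h1 (((h2.div_const l).add (integrable_const l)).div_const 2)
          fun z => ?_
        have : 0 ≤ (|S c i m z - M| - l) ^ 2 / l := by positivity
        have e : (|S c i m z - M| - l) ^ 2 / l =
            (S c i m z - M) ^ 2 / l - 2 * |S c i m z - M| + l := by
          rw [← sq_abs (S c i m z - M)]; field_simp; ring
        simp only
        linarith
    _ = _ := by
        rw [integral_div, integral_add (h2.div_const l) (integrable_const l), integral_div]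
        simp

lemma Dn.qf_split {P : ℝ → ℝ} {Λ : ℝ} (h : Dn P Λ) (c : ℕ → ℝ) (i a b : ℕ) (s s' : ℝ) {l : ℝ}
    (hl : 0 < l) :
    |Fin85.qf P c i (a + b) s - Fin85.qf P c i a s'| ≤
      Λ * (|s - ∑ k : Fin b, c (i + a + k) - s'| +
        (V0 * (∑ k : Fin b, c (i + a + k) ^ 2) / l + l) / 2) := by
  set M := ∑ k : Fin b, c (i + a + k)
  have c1 : Continuous fun q : (Fin a → ℝ) × (Fin b → ℝ) =>
      P (s - (S c i a q.1 + S c (i + a) b q.2)) :=
    h.cont.comp (continuous_const.sub (((continuous_S c i a).comp continuous_fst).add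
      ((continuous_S c (i + a) b).comp continuous_snd)))
  have c2 : Continuous fun q : (Fin a → ℝ) × (Fin b → ℝ) => P (s' - S c i a q.1) :=
    h.cont.comp (continuous_const.sub ((continuous_S c i a).comp continuous_fst))
  have e1 : Fin85.qf P c i (a + b) s = ∫ q, P (s - (S c i a q.1 + S c (i + a) b q.2))
      ∂(gv (Fin a)).prod (gv (Fin b)) := by
    rw [← (mp_split a b).map_eq, integral_map (mp_split a b).measurable.aemeasurable
      c1.aestronglyMeasurable]
    simp only [Fin85.qf, S_split]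
  have e2 : Fin85.qf P c i a s' = ∫ q, P (s' - S c i a q.1) ∂(gv (Fin a)).prod (gv (Fin b)) := by
    rw [integral_fun_fst (fun z => P (s' - S c i a z))]
    simp [Fin85.qf]
  have i3 : Integrable (fun z => |S c (i + a) b z - M|) (gv (Fin b)) :=
    (((memLp_S c (i + a) b).integrable one_le_two).sub (integrable_const M)).abs
  have i4 : Integrable (fun q : (Fin a → ℝ) × (Fin b → ℝ) => |S c (i + a) b q.2 - M|)
      ((gv (Fin a)).prod (gv (Fin b))) := i3.comp_snd _
  have i1 := int_bdd (μ := (gv (Fin a)).prod (gv (Fin b))) c1.measurable fun _ => h.abs_le _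
  have i2 := int_bdd (μ := (gv (Fin a)).prod (gv (Fin b))) c2.measurable fun _ => h.abs_le _
  rw [e1, e2, ← integral_sub i1 i2]
  calc _ ≤ ∫ q : (Fin a → ℝ) × (Fin b → ℝ), Λ * (|s - M - s'| + |S c (i + a) b q.2 - M|)
        ∂(gv (Fin a)).prod (gv (Fin b)) := by
        refine (abs_integral_le_integral_abs).trans (integral_mono (i1.sub i2).abs
          (((integrable_const _).add i4).const_mul Λ) fun q => ?_)
        refine (h.lip _ _).trans (mul_le_mul_of_nonneg_left ?_ h.pos)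
        have : s - (S c i a q.1 + S c (i + a) b q.2) - (s' - S c i a q.1) =
            (s - M - s') - (S c (i + a) b q.2 - M) := by ring
        rw [this]
        exact abs_sub _ _
    _ = Λ * (|s - M - s'| + ∫ z, |S c (i + a) b z - M| ∂gv (Fin b)) := by
        rw [integral_const_mul, integral_add (integrable_const _) i4,
          integral_fun_snd (fun z => |S c (i + a) b z - M|)]
        simp
    _ ≤ _ := by
        have := dev_S c (i + a) b hl
        exact mul_le_mul_of_nonneg_left (by linarith) h.pos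

end Crest.Agent.T157.St.Fin85

end
end

-- ▼ part T157/StFinB_85
section

/-!
# Row 157, part C4: `FinGlue`, part B (helper85): shells, projected laws, the kernel
-/

set_option autoImplicit false

noncomputable section

namespace Crest.Agent.T157.St.Fin85

open MeasureTheory ProbabilityTheory Matrix Filter Topology Finset Real
open scoped ENNReal BoundedContinuousFunction
open Crest.Agent.T157.E

/-! ### thin intervals -/

/-- indicator of a thin interval -/
def ind (u ε s : ℝ) : ℝ := if u ≤ s ∧ s ≤ u + ε then 1 else 0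

lemma ind_abs (u ε s : ℝ) : |ind u ε s| ≤ 1 := by unfold ind; split_ifs <;> simp

lemma meas_ind {α : Type*} [MeasurableSpace α] {u s : α → ℝ} (hu : Measurable u)
    (hs : Measurable s) (ε : ℝ) : Measurable fun a => ind (u a) ε (s a) :=
  Measurable.ite ((measurableSet_le hu hs).inter (measurableSet_le hs (hu.add_const ε)))
    measurable_const measurable_const

lemma ind_shift (u ε s r : ℝ) : ind u ε (r + s) = ind (u - r) ε s := by
  unfold ind
  congr 1
  exact propext ⟨fun h => ⟨by linarith [h.1], by linarith [h.2]⟩,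
    fun h => ⟨by linarith [h.1], by linarith [h.2]⟩⟩

/-- `P` is the density of the block `S c i m` -/
def Iv (P : ℝ → ℝ) (Λ : ℝ) (c : ℕ → ℝ) (i m : ℕ) : Prop := ∀ u ε : ℝ, 0 ≤ ε →
  |∫ z, ind u ε (S c i m z) ∂gv (Fin m) - ε * P u| ≤ Λ * ε ^ 2

lemma iv_four {P : ℝ → ℝ} {Λ : ℝ} (h : Dn P Λ) {c : ℕ → ℝ} (hc : ∀ k, 0 ≤ c k) (i : ℕ)
    (hP : ∀ h : ℝ → ℝ≥0∞, Measurable h →
      ∫⁻ x, h (x ⬝ᵥ x) ∂gs 0 (fun k : Fin 4 => c (i + k)) = ∫⁻ s, h s * ENNReal.ofReal (P s)) :
    Iv P Λ c i 4 := by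
  intro u ε hε
  have hm : Measurable ((Set.Icc u (u + ε)).indicator (1 : ℝ → ℝ≥0∞)) :=
    measurable_one.indicator measurableSet_Icc
  have h1 := hP _ hm
  have hd : Measurable fun x : Fin 4 → ℝ => x ⬝ᵥ x := by unfold dotProduct; fun_prop
  have hm' : Measurable fun x : Fin 4 → ℝ =>
      (Set.Icc u (u + ε)).indicator (1 : ℝ → ℝ≥0∞) (x ⬝ᵥ x) := hm.comp hd
  rw [← (mp_sc (c := fun k : Fin 4 => c (i + k)) fun k => hc _).lintegral_comp hm'] at h1
  simp only [sc_dot (c := fun k : Fin 4 => c (i + k)) fun k => hc _] at h1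
  have hS : MeasurableSet {z | S c i 4 z ∈ Set.Icc u (u + ε)} :=
    (continuous_S c i 4).measurable measurableSet_Icc
  have e1 : ∫⁻ z, (Set.Icc u (u + ε)).indicator (1 : ℝ → ℝ≥0∞)
      (∑ k : Fin 4, c (i + k) * z k ^ 2) ∂gv (Fin 4) =
      gv (Fin 4) {z | S c i 4 z ∈ Set.Icc u (u + ε)} := by
    rw [← lintegral_indicator_one hS]
    rfl
  have iP : IntegrableOn P (Set.Icc u (u + ε)) := h.cont.integrableOn_Icc
  have e2 : ∫⁻ s, (Set.Icc u (u + ε)).indicator (1 : ℝ → ℝ≥0∞) s * ENNReal.ofReal (P s) =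
      ENNReal.ofReal (∫ s in Set.Icc u (u + ε), P s) := by
    rw [ofReal_integral_eq_lintegral_ofReal iP (ae_of_all _ h.nn),
      ← lintegral_indicator measurableSet_Icc]
    refine lintegral_congr fun s => ?_
    by_cases hs : s ∈ Set.Icc u (u + ε) <;> simp [hs]
  have e3 : ∫ z, ind u ε (S c i 4 z) ∂gv (Fin 4) = ∫ s in Set.Icc u (u + ε), P s := by
    have : (fun z => ind u ε (S c i 4 z)) =
        {z | S c i 4 z ∈ Set.Icc u (u + ε)}.indicator fun _ => (1 : ℝ) := by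
      funext z
      simp only [ind, Set.indicator, Set.mem_ofPred_eq, Set.mem_Icc]
    rw [this, integral_indicator hS, setIntegral_const, smul_eq_mul, mul_one, measureReal_def,
      ← e1, h1, e2, ENNReal.toReal_ofReal (integral_nonneg h.nn)]
  have e4 : ε * P u = ∫ _ in Set.Icc u (u + ε), P u := by
    rw [setIntegral_const, Real.volume_real_Icc_of_le (by linarith)]
    simp
  rw [e3, e4, ← integral_sub iP (continuous_const.integrableOn_Icc)]
  have := norm_setIntegral_le_of_norm_le_const (μ := volume) (s := Set.Icc u (u + ε))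
    (f := fun s => P s - P u) (C := Λ * ε) (by simp) fun s hs => by
      refine (h.lip s u).trans (mul_le_mul_of_nonneg_left ?_ h.pos)
      rw [abs_of_nonneg (by linarith [hs.1])]
      linarith [hs.2]
  rw [Real.volume_real_Icc_of_le (by linarith)] at this
  refine this.trans (le_of_eq (by ring))

lemma Iv.add {P : ℝ → ℝ} {Λ : ℝ} (h : Dn P Λ) {c : ℕ → ℝ} {i a : ℕ} (hI : Iv P Λ c i a) (b : ℕ) :
    Iv (qf P c (i + a) b) Λ c i (a + b) := by
  intro u ε hε
  have m1 : Measurable fun q : (Fin a → ℝ) × (Fin b → ℝ) =>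
      ind (u - S c (i + a) b q.2) ε (S c i a q.1) :=
    meas_ind (continuous_const.sub ((continuous_S c (i + a) b).comp continuous_snd)).measurable
      ((continuous_S c i a).comp continuous_fst).measurable ε
  have i1 := int_bdd (μ := (gv (Fin a)).prod (gv (Fin b))) m1 fun _ => ind_abs _ _ _
  have e1 : ∫ z, ind u ε (S c i (a + b) z) ∂gv (Fin (a + b)) =
      ∫ y, ∫ x, ind (u - S c (i + a) b y) ε (S c i a x) ∂gv (Fin a) ∂gv (Fin b) := by
    rw [← integral_prod_symm _ i1, ← (mp_split a b).map_eq,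
      integral_map (mp_split a b).measurable.aemeasurable m1.aestronglyMeasurable]
    refine integral_congr_ae (ae_of_all _ fun z => ?_)
    simp only [S_split]
    rw [add_comm (S c i a _), ind_shift]
  rw [e1, qf, ← integral_const_mul, ← integral_sub i1.integral_prod_right
    ((h.int c (i + a) b u).const_mul ε)]
  exact abs_int_le fun y => hI (u - S c (i + a) b y) ε hε

/-- the shell integral of a function of the first block -/
lemma shell_approx {q : ℝ → ℝ} {Λ : ℝ} (h : Dn q Λ) {c : ℕ → ℝ} (hc : ∀ k, 0 ≤ c k) {a b : ℕ}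
    (hI : Iv q Λ c a b) {F : (Fin a → ℝ) → ℝ} (hF : Continuous F) {A : ℝ} (hA : ∀ x, |F x| ≤ A)
    (t : ℝ) {ε : ℝ} (hε : 0 ≤ ε) :
    |∫ x in shell t ε, F (lft a b x) ∂gs 0 (fun k : Fin (a + b) => c k) -
      ε * ∫ x, F (sc (fun k : Fin a => c k) x) * q (t - S c 0 a x) ∂gv (Fin a)| ≤
      A * (Λ * ε ^ 2) := by
  set cA : Fin a → ℝ := fun k => c k
  have hA0 : 0 ≤ A := (abs_nonneg _).trans (hA 0)
  have cF : Continuous fun x => F (sc cA x) := hF.comp (continuous_sc cA)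
  have m0 : Measurable fun q : (Fin a → ℝ) × (Fin b → ℝ) =>
      ind (t - S c 0 a q.1) ε (S c a b q.2) :=
    meas_ind (continuous_const.sub ((continuous_S c 0 a).comp continuous_fst)).measurable
      ((continuous_S c a b).comp continuous_snd).measurable ε
  have m1 : Measurable fun q : (Fin a → ℝ) × (Fin b → ℝ) =>
      F (sc cA q.1) * ind (t - S c 0 a q.1) ε (S c a b q.2) :=
    (cF.comp continuous_fst).measurable.mul m0
  have i1 := int_bdd (μ := (gv (Fin a)).prod (gv (Fin b))) (A := A * 1) m1 fun q => by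
    rw [abs_mul]; exact mul_le_mul (hA _) (ind_abs _ _ _) (abs_nonneg _) hA0
  have hd : Continuous fun x : Fin (a + b) → ℝ => x ⬝ᵥ x := by unfold dotProduct; fun_prop
  have hsh : MeasurableSet (shell (ι := Fin (a + b)) t ε) :=
    (measurableSet_le measurable_const hd.measurable).inter
      (measurableSet_le hd.measurable measurable_const)
  have cl : Continuous (lft a b) := continuous_pi fun i => continuous_apply _
  have mp := mp_sc (c := fun k : Fin (a + b) => c k) fun k => hc _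
  have e1 : ∫ x in shell t ε, F (lft a b x) ∂gs 0 (fun k : Fin (a + b) => c k) =
      ∫ x, F (sc cA x) * ∫ y, ind (t - S c 0 a x) ε (S c a b y) ∂gv (Fin b) ∂gv (Fin a) := by
    have e : ∀ x, F (sc cA x) * ∫ y, ind (t - S c 0 a x) ε (S c a b y) ∂gv (Fin b) =
        ∫ y, F (sc cA x) * ind (t - S c 0 a x) ε (S c a b y) ∂gv (Fin b) := fun x =>
      (integral_const_mul _ _).symm
    simp only [e]
    have m3 : Measurable ((shell t ε).indicator fun x => F (lft a b x)) :=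
      (hF.comp cl).measurable.indicator hsh
    rw [← integral_prod _ i1, ← (mp_split a b).map_eq,
      integral_map (mp_split a b).measurable.aemeasurable m1.aestronglyMeasurable,
      ← integral_indicator hsh, ← mp.map_eq, integral_map mp.measurable.aemeasurable
        m3.aestronglyMeasurable]
    refine integral_congr_ae (ae_of_all _ fun z => ?_)
    have e2 : sc (fun k : Fin (a + b) => c k) z ⬝ᵥ sc (fun k : Fin (a + b) => c k) z =
        S c 0 a (lft a b z) + S c a b (rgt a b z) := by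
      rw [sc_dot (c := fun k : Fin (a + b) => c k) fun k => hc _]
      have := S_split c 0 a b z
      simpa [S] using this
    have e3 : lft a b (sc (fun k : Fin (a + b) => c k) z) = sc cA (lft a b z) := rfl
    simp only [Set.indicator, shell, Set.mem_ofPred_eq, e2, e3, ← ind_shift]
    unfold ind
    split_ifs <;> simp
  have i2 : Integrable (fun x => F (sc cA x) * q (t - S c 0 a x)) (gv (Fin a)) :=
    int_bdd (A := A * Λ) (cF.mul (h.cont.comp (continuous_const.sub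
      (continuous_S c 0 a)))).measurable fun x => by
        rw [abs_mul]; exact mul_le_mul (hA _) (h.abs_le _) (abs_nonneg _) hA0
  have i3 : Integrable (fun x => F (sc cA x) *
      ∫ y, ind (t - S c 0 a x) ε (S c a b y) ∂gv (Fin b)) (gv (Fin a)) := by
    refine i1.integral_prod_left.congr (ae_of_all _ fun x => ?_)
    exact integral_const_mul (F (sc cA x)) fun y => ind (t - S c 0 a x) ε (S c a b y)
  rw [e1, ← integral_const_mul, ← integral_sub i3 (i2.const_mul ε)]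
  refine abs_int_le fun x => ?_
  have := hI (t - S c 0 a x) ε hε
  calc _ = |F (sc cA x)| * |∫ y, ind (t - S c 0 a x) ε (S c a b y) ∂gv (Fin b) -
        ε * q (t - S c 0 a x)| := by rw [← abs_mul]; congr 1; ring
    _ ≤ _ := mul_le_mul (hA _) this (abs_nonneg _) hA0

lemma shell_tendsto {q : ℝ → ℝ} {Λ : ℝ} (h : Dn q Λ) {c : ℕ → ℝ} (hc : ∀ k, 0 ≤ c k) {a b : ℕ}
    (hI : Iv q Λ c a b) {F : (Fin a → ℝ) → ℝ} (hF : Continuous F) {A : ℝ} (hA : ∀ x, |F x| ≤ A)
    (t : ℝ) :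
    Tendsto (fun ε => (∫ x in shell t ε, F (lft a b x) ∂gs 0 (fun k : Fin (a + b) => c k)) / ε)
      (𝓝[>] 0) (𝓝 (∫ x, F (sc (fun k : Fin a => c k) x) * q (t - S c 0 a x) ∂gv (Fin a))) := by
  rw [tendsto_iff_norm_sub_tendsto_zero]
  have h0 : Tendsto (fun ε : ℝ => A * Λ * ε) (𝓝[>] 0) (𝓝 0) := by
    have : Tendsto (fun ε : ℝ => A * Λ * ε) (𝓝 0) (𝓝 (A * Λ * 0)) :=
      (continuous_const.mul continuous_id).tendsto 0
    rw [mul_zero] at this
    exact this.mono_left nhdsWithin_le_nhds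
  refine squeeze_zero' (Eventually.of_forall fun _ => norm_nonneg _) ?_ h0
  filter_upwards [self_mem_nhdsWithin] with ε hε
  have hε' : 0 < ε := hε
  have := shell_approx h hc hI hF hA t hε'.le
  rw [Real.norm_eq_abs, div_sub' hε'.ne', abs_div, abs_of_pos hε', div_le_iff₀ hε']
  refine this.trans (le_of_eq (by ring))

/-! ### laws with a density -/

/-- Gaussian law with covariance `c` and unnormalised density `f` -/
def mu0 {ι : Type*} [Fintype ι] (c : ι → ℝ) (f : (ι → ℝ) → ℝ) : Measure (ι → ℝ) :=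
  ((gv ι).withDensity fun a => ENNReal.ofReal (f a / ∫ x, f x ∂gv ι)).map (sc c)

section mu0
variable {ι : Type*} [Fintype ι]

lemma integral_mu0 (c : ι → ℝ) {f : (ι → ℝ) → ℝ} (hf : Continuous f) (h0 : ∀ a, 0 ≤ f a)
    {F : (ι → ℝ) → ℝ} (hF : Measurable F) :
    ∫ x, F x ∂mu0 c f = ∫ a, f a / (∫ x, f x ∂gv ι) * F (sc c a) ∂gv ι := by
  have hZ : 0 ≤ ∫ x, f x ∂gv ι := integral_nonneg h0
  unfold mu0
  rw [integral_map (continuous_sc c).measurable.aemeasurable hF.aestronglyMeasurable,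
    integral_withDensity_eq_integral_toReal_smul
      (hf.measurable.div_const _).ennreal_ofReal (ae_of_all _ fun _ => ENNReal.ofReal_lt_top)]
  refine integral_congr_ae (ae_of_all _ fun a => ?_)
  simp only [smul_eq_mul]
  rw [ENNReal.toReal_ofReal (div_nonneg (h0 a) hZ)]

lemma prob_mu0 (c : ι → ℝ) {f : (ι → ℝ) → ℝ} (h0 : ∀ a, 0 ≤ f a)
    (hZ : 0 < ∫ x, f x ∂gv ι) : IsProbabilityMeasure (mu0 c f) := by
  have hi : Integrable f (gv ι) := by
    by_contra hn
    rw [integral_undef hn] at hZ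
    exact lt_irrefl _ hZ
  have : IsProbabilityMeasure
      ((gv ι).withDensity fun a => ENNReal.ofReal (f a / ∫ x, f x ∂gv ι)) := by
    constructor
    rw [withDensity_apply _ MeasurableSet.univ, Measure.restrict_univ,
      ← ofReal_integral_eq_lintegral_ofReal (hi.div_const _)
        (ae_of_all _ fun a => div_nonneg (h0 a) hZ.le), integral_div, div_self hZ.ne']
    simp
  exact Measure.isProbabilityMeasure_map (continuous_sc c).measurable.aemeasurable

lemma cp_mu0 {c : ι → ℝ} {f : (ι → ℝ) → ℝ} (hf : Continuous f) (h0 : ∀ a, 0 ≤ f a)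
    (hZ : 0 < ∫ x, f x ∂gv ι) {r : ℝ} (hr : ∀ a, f a ≠ 0 → sc c a ⬝ᵥ sc c a ≤ r) :
    Cp (mu0 c f) := by
  refine ⟨prob_mu0 c h0 hZ, r, ?_⟩
  have hd : Continuous fun x : ι → ℝ => x ⬝ᵥ x := by unfold dotProduct; fun_prop
  unfold mu0
  rw [ae_map_iff (continuous_sc c).measurable.aemeasurable
    (measurableSet_le hd.measurable measurable_const),
    ae_withDensity_iff (hf.measurable.div_const _).ennreal_ofReal]
  refine ae_of_all _ fun a ha => hr a fun h => ha ?_
  simp [h]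

/-- the dominating function -/
def G (a : ι → ℝ) : ℝ := ∏ k, exp (a k ^ 2 / 4)

lemma G_pos (a : ι → ℝ) : 0 < G a := prod_pos fun _ _ => exp_pos _

lemma integrable_exp_sq : Integrable (fun x : ℝ => exp (x ^ 2 / 4)) (gaussianReal 0 1) := by
  rw [gaussianReal_of_var_ne_zero _ one_ne_zero,
    integrable_withDensity_iff (measurable_gaussianPDF _ _) (ae_of_all _ fun _ => gaussianPDF_lt_top)]
  refine ((integrable_exp_neg_mul_sq (b := 1 / 4) (by norm_num)).const_mul
    (√(2 * π * 1))⁻¹).congr (ae_of_all _ fun x => ?_)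
  simp only [toReal_gaussianPDF, gaussianPDFReal, NNReal.coe_one, sub_zero]
  rw [mul_left_comm, ← exp_add]
  congr 2
  ring

lemma integrable_G : Integrable (G (ι := ι)) (gv ι) :=
  Integrable.fintype_prod (f := fun _ x => exp (x ^ 2 / 4)) fun _ => integrable_exp_sq

lemma ker_le {c c' : ι → ℝ} {θ : ℝ} (hθ : 0 ≤ θ) (h0 : ∀ k, 0 ≤ c k) (h0' : ∀ k, 0 ≤ c' k)
    (h1 : ∀ k, θ * c k ≤ 1 / 2) (h1' : ∀ k, θ * c' k ≤ 1 / 2) (a a' : ι → ℝ) :
    exp (θ * (sc c a ⬝ᵥ sc c' a')) ≤ G a * G a' := by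
  unfold G
  rw [← exp_sum, ← exp_sum, ← exp_add, ← sum_add_distrib, exp_le_exp, dotProduct, mul_sum]
  refine sum_le_sum fun k _ => ?_
  have e1 : sc c a k ^ 2 = c k * a k ^ 2 := by simp only [sc]; rw [mul_pow, sq_sqrt (h0 k)]
  have e2 : sc c' a' k ^ 2 = c' k * a' k ^ 2 := by simp only [sc]; rw [mul_pow, sq_sqrt (h0' k)]
  have h2 : sc c a k * sc c' a' k ≤ (c k * a k ^ 2 + c' k * a' k ^ 2) / 2 := by
    rw [← e1, ← e2]; nlinarith [sq_nonneg (sc c a k - sc c' a' k)]
  have h3 := mul_le_mul_of_nonneg_left h2 hθ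
  have h4 := mul_le_mul_of_nonneg_right (h1 k) (sq_nonneg (a k))
  have h5 := mul_le_mul_of_nonneg_right (h1' k) (sq_nonneg (a' k))
  nlinarith

lemma continuous_ker (c c' : ι → ℝ) (θ : ℝ) :
    Continuous fun z : (ι → ℝ) × (ι → ℝ) => exp (θ * (sc c z.1 ⬝ᵥ sc c' z.2)) := by
  unfold dotProduct sc; fun_prop

lemma int_ker {c c' : ι → ℝ} {θ : ℝ} (hθ : 0 ≤ θ) (h0 : ∀ k, 0 ≤ c k) (h0' : ∀ k, 0 ≤ c' k)
    (h1 : ∀ k, θ * c k ≤ 1 / 2) (h1' : ∀ k, θ * c' k ≤ 1 / 2) {g g' : (ι → ℝ) → ℝ}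
    (hg : Continuous g) (hg' : Continuous g') {A A' : ℝ} (hA : ∀ a, |g a| ≤ A)
    (hA' : ∀ a, |g' a| ≤ A') :
    (∀ z : (ι → ℝ) × (ι → ℝ), |g z.1 * g' z.2 * exp (θ * (sc c z.1 ⬝ᵥ sc c' z.2))| ≤
      A * A' * (G z.1 * G z.2)) ∧
    Integrable (fun z : (ι → ℝ) × (ι → ℝ) => g z.1 * g' z.2 * exp (θ * (sc c z.1 ⬝ᵥ sc c' z.2)))
      ((gv ι).prod (gv ι)) := by
  have hA0 : 0 ≤ A := (abs_nonneg _).trans (hA 0)
  have hA0' : 0 ≤ A' := (abs_nonneg _).trans (hA' 0)
  have hb : ∀ z : (ι → ℝ) × (ι → ℝ), |g z.1 * g' z.2 * exp (θ * (sc c z.1 ⬝ᵥ sc c' z.2))| ≤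
      A * A' * (G z.1 * G z.2) := fun z => by
    rw [abs_mul, abs_mul, abs_of_pos (exp_pos _)]
    exact mul_le_mul (mul_le_mul (hA _) (hA' _) (abs_nonneg _) hA0)
      (ker_le hθ h0 h0' h1 h1' _ _) (exp_pos _).le (mul_nonneg hA0 hA0')
  exact ⟨hb, Integrable.mono' ((integrable_G.mul_prod integrable_G).const_mul (A * A'))
    (((hg.comp continuous_fst).mul (hg'.comp continuous_snd)).mul
      (continuous_ker c c' θ)).aestronglyMeasurable (ae_of_all _ hb)⟩

lemma Xk_mu0 {c c' : ι → ℝ} {θ : ℝ} (hθ : 0 ≤ θ) (h0 : ∀ k, 0 ≤ c k) (h0' : ∀ k, 0 ≤ c' k)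
    (h1 : ∀ k, θ * c k ≤ 1 / 2) (h1' : ∀ k, θ * c' k ≤ 1 / 2) {f f' : (ι → ℝ) → ℝ}
    (hf : Continuous f) (hf' : Continuous f') (n : ∀ a, 0 ≤ f a) (n' : ∀ a, 0 ≤ f' a)
    (hZ' : 0 < ∫ x, f' x ∂gv ι) {A A' : ℝ} (hA : ∀ a, f a ≤ A) (hA' : ∀ a, f' a ≤ A') :
    Xk θ (mu0 c f) (mu0 c' f') =
      ∫ z : (ι → ℝ) × (ι → ℝ), (f z.1 / ∫ x, f x ∂gv ι) * (f' z.2 / ∫ x, f' x ∂gv ι) *
        exp (θ * (sc c z.1 ⬝ᵥ sc c' z.2)) ∂(gv ι).prod (gv ι) := by
  have := prob_mu0 c' n' hZ'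
  have hZ : 0 ≤ ∫ x, f x ∂gv ι := integral_nonneg n
  have b1 : ∀ a, |f a / ∫ x, f x ∂gv ι| ≤ A / ∫ x, f x ∂gv ι := fun a => by
    rw [abs_of_nonneg (div_nonneg (n a) hZ)]; exact div_le_div_of_nonneg_right (hA a) hZ
  have b2 : ∀ a, |f' a / ∫ x, f' x ∂gv ι| ≤ A' / ∫ x, f' x ∂gv ι := fun a => by
    rw [abs_of_nonneg (div_nonneg (n' a) hZ'.le)]
    exact div_le_div_of_nonneg_right (hA' a) hZ'.le
  rw [integral_prod _ (int_ker hθ h0 h0' h1 h1' (hf.div_const _) (hf'.div_const _) b1 b2).2]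
  have ck : Continuous fun z : (ι → ℝ) × (ι → ℝ) => exp (θ * (z.1 ⬝ᵥ z.2)) := by
    unfold dotProduct; fun_prop
  unfold Xk
  rw [integral_mu0 c hf n (ck.stronglyMeasurable.integral_prod_right').measurable]
  refine integral_congr_ae (ae_of_all _ fun a => ?_)
  simp only
  have m : Measurable fun y : ι → ℝ => exp (θ * (sc c a ⬝ᵥ y)) :=
    (ck.comp (Continuous.prodMk_right (sc c a))).measurable
  rw [integral_mu0 c' hf' n' m, ← integral_const_mul]
  refine integral_congr_ae (ae_of_all _ fun a' => ?_)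
  simp only
  ring

lemma D2_mu0 {c : ι → ℝ} {θ : ℝ} (hθ : 0 ≤ θ) (h0 : ∀ k, 0 ≤ c k)
    (h1 : ∀ k, θ * c k ≤ 1 / 2) {f f' : (ι → ℝ) → ℝ}
    (hf : Continuous f) (hf' : Continuous f') (n : ∀ a, 0 ≤ f a) (n' : ∀ a, 0 ≤ f' a)
    {Λ d e : ℝ} (hA : ∀ a, f a ≤ Λ) (hA' : ∀ a, f' a ≤ Λ) (hd : 0 < d)
    (hZ : d ≤ ∫ x, f x ∂gv ι) (he : ∀ a, |f a - f' a| ≤ e) (hed : e ≤ d / 2) :
    D2 θ (mu0 c f) (mu0 c f') ≤ (e * (1 / d + 2 * Λ / d ^ 2) * ∫ a, G a ∂gv ι) ^ 2 := by
  have a1 : ∀ a, |f a| ≤ Λ := fun a => by rw [abs_of_nonneg (n a)]; exact hA a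
  have a2 : ∀ a, |f' a| ≤ Λ := fun a => by rw [abs_of_nonneg (n' a)]; exact hA' a
  have hΛ : 0 ≤ Λ := (n 0).trans (hA 0)
  have he0 : 0 ≤ e := (abs_nonneg _).trans (he 0)
  set Z := ∫ x, f x ∂gv ι with hZd
  set Z' := ∫ x, f' x ∂gv ι with hZd'
  have hZZ : |Z - Z'| ≤ e := by
    rw [hZd, hZd', ← integral_sub (int_bdd hf.measurable a1) (int_bdd hf'.measurable a2)]
    exact abs_int_le he
  have hZ' : d / 2 ≤ Z' := by linarith [(abs_le.1 hZZ).2]
  have pZ : 0 < Z := hd.trans_le hZ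
  have pZ' : 0 < Z' := lt_of_lt_of_le (by positivity) hZ'
  set g : (ι → ℝ) → ℝ := fun a => f a / Z
  set g' : (ι → ℝ) → ℝ := fun a => f' a / Z'
  have cg : Continuous g := hf.div_const _
  have cg' : Continuous g' := hf'.div_const _
  have b1 : ∀ a, |g a| ≤ Λ / Z := fun a => by
    simp only [g]; rw [abs_div, abs_of_pos pZ]; exact div_le_div_of_nonneg_right (a1 a) pZ.le
  have b2 : ∀ a, |g' a| ≤ Λ / Z' := fun a => by
    simp only [g']; rw [abs_div, abs_of_pos pZ']; exact div_le_div_of_nonneg_right (a2 a) pZ'.le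
  set s := e * (1 / d + 2 * Λ / d ^ 2)
  have b3 : ∀ a, |g a - g' a| ≤ s := fun a => by
    have e1 : g a - g' a = (f a - f' a) / Z + f' a * (Z' - Z) / (Z * Z') := by
      simp only [g, g']; field_simp; ring
    have t1 : |(f a - f' a) / Z| ≤ e * (1 / d) := by
      rw [abs_div, abs_of_pos pZ, mul_one_div]
      exact div_le_div₀ he0 (he a) hd hZ
    have t2 : |f' a * (Z' - Z) / (Z * Z')| ≤ e * (2 * Λ / d ^ 2) := by
      rw [abs_div, abs_mul, abs_of_pos (mul_pos pZ pZ'), abs_sub_comm]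
      calc _ ≤ Λ * e / (d * (d / 2)) :=
            div_le_div₀ (mul_nonneg hΛ he0) (mul_le_mul (a2 a) hZZ (abs_nonneg _) hΛ)
              (by positivity) (mul_le_mul hZ hZ' (by positivity) pZ.le)
        _ = _ := by field_simp
    rw [e1]
    refine (abs_add_le _ _).trans ((add_le_add t1 t2).trans (le_of_eq ?_))
    simp only [s]; ring
  set k : (ι → ℝ) × (ι → ℝ) → ℝ := fun z => exp (θ * (sc c z.1 ⬝ᵥ sc c z.2))
  have i11 := (int_ker hθ h0 h0 h1 h1 cg cg b1 b1).2
  have i12 := (int_ker hθ h0 h0 h1 h1 cg cg' b1 b2).2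
  have i21 := (int_ker hθ h0 h0 h1 h1 cg' cg b2 b1).2
  have i22 := (int_ker hθ h0 h0 h1 h1 cg' cg' b2 b2).2
  obtain ⟨bd, id⟩ := int_ker hθ h0 h0 h1 h1 (cg.sub cg') (cg.sub cg') b3 b3
  have sw : ∫ z : (ι → ℝ) × (ι → ℝ), g z.1 * g' z.2 * k z ∂(gv ι).prod (gv ι) =
      ∫ z : (ι → ℝ) × (ι → ℝ), g' z.1 * g z.2 * k z ∂(gv ι).prod (gv ι) := by
    rw [← integral_prod_swap]
    refine integral_congr_ae (ae_of_all _ fun z => ?_)
    simp only [k, Prod.fst_swap, Prod.snd_swap]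
    rw [dotProduct_comm]; ring
  have e : D2 θ (mu0 c f) (mu0 c f') = ∫ z : (ι → ℝ) × (ι → ℝ),
      (g z.1 - g' z.1) * (g z.2 - g' z.2) * k z ∂(gv ι).prod (gv ι) := by
    unfold D2
    rw [Xk_mu0 hθ h0 h0 h1 h1 hf hf n n pZ hA hA, Xk_mu0 hθ h0 h0 h1 h1 hf hf' n n' pZ' hA hA',
      Xk_mu0 hθ h0 h0 h1 h1 hf' hf' n' n' pZ' hA' hA']
    have e2 : ∀ z : (ι → ℝ) × (ι → ℝ), (g z.1 - g' z.1) * (g z.2 - g' z.2) * k z =
        (g z.1 * g z.2 * k z - g z.1 * g' z.2 * k z) -
          (g' z.1 * g z.2 * k z - g' z.1 * g' z.2 * k z) := fun z => by ring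
    simp only [e2]
    have j1 : Integrable (fun z : (ι → ℝ) × (ι → ℝ) =>
      g z.1 * g z.2 * k z - g z.1 * g' z.2 * k z) ((gv ι).prod (gv ι)) := i11.sub i12
    have j2 : Integrable (fun z : (ι → ℝ) × (ι → ℝ) =>
      g' z.1 * g z.2 * k z - g' z.1 * g' z.2 * k z) ((gv ι).prod (gv ι)) := i21.sub i22
    rw [integral_sub j1 j2, integral_sub i11 i12, integral_sub i21 i22, ← sw]
    ring
  rw [e]
  calc _ ≤ ∫ z : (ι → ℝ) × (ι → ℝ), s * s * (G z.1 * G z.2) ∂(gv ι).prod (gv ι) :=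
        integral_mono id ((integrable_G.mul_prod integrable_G).const_mul _)
          fun z => (le_abs_self _).trans (bd z)
    _ = _ := by rw [integral_const_mul, integral_prod_mul]; ring

end mu0

end Crest.Agent.T157.St.Fin85

end
end

-- ▼ part T157/StFin_85

/-!
# Row 157, part C4: `FinGlue` (helper85)
-/

set_option autoImplicit false

noncomputable section

namespace Crest.Agent.T157.St

open MeasureTheory ProbabilityTheory Matrix Filter Topology Finset Real
open scoped ENNReal BoundedContinuousFunction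
open Crest.Agent.T157.E

namespace Fin85

/-! ### the projection of the spherical law -/

lemma continuous_lft (a b : ℕ) : Continuous (lft a b) := continuous_pi fun _ => continuous_apply _

lemma proj_eq (hS : SphStmt) (hSh : ShellStmt) {q : ℝ → ℝ} {Λ : ℝ} (h : Dn q Λ) {c : ℕ → ℝ}
    (hc : ∀ k, 0 < c k) {a b : ℕ} (hn : 0 < a + b) (hI : Iv q Λ c a b) {η : ℕ → ℝ} {w t : ℝ}
    (ht : 0 < t) (hcη : ∀ k, k < a + b → c k = 1 / (w + η k))
    (hp : IsProbabilityMeasure (nuD (a + b) η t))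
    (hZ : 0 < ∫ x, q (t - S c 0 a x) ∂gv (Fin a)) :
    (nuD (a + b) η t).map (lft a b) =
      mu0 (fun k : Fin a => c k) fun x => q (t - S c 0 a x) := by
  have : Nonempty (Fin (a + b)) := ⟨⟨0, hn⟩⟩
  have cq : Continuous fun x => q (t - S c 0 a x) :=
    h.cont.comp (continuous_const.sub (continuous_S c 0 a))
  have := prob_mu0 (fun k : Fin a => c k) (fun x => h.nn (t - S c 0 a x)) hZ
  have := Measure.isProbabilityMeasure_map (μ := nuD (a + b) η t)
    (continuous_lft a b).measurable.aemeasurable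
  obtain ⟨κ, hκ, hsh⟩ := hSh (Fin (a + b)) t ht
  set H : (Fin (a + b) → ℝ) → ℝ := fun x => -(1 / 2) * ∑ k : Fin (a + b), η k * x k ^ 2 with hH
  set D := κ * (∏ k : Fin (a + b), (√(c k))⁻¹) * exp (-(w * t / 2)) with hD
  have key : ∀ (F : (Fin a → ℝ) → ℝ) (A : ℝ), Continuous F → (∀ x, |F x| ≤ A) →
      ∫ x, F (sc (fun k : Fin a => c k) x) * q (t - S c 0 a x) ∂gv (Fin a) =
        D * ∫ x, F (lft a b x) * exp (H x) ∂sphR (Fin (a + b)) √t := by
    intro F A hF hA
    have l1 := shell_tendsto h (fun k => (hc k).le) hI hF hA t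
    have l2 := hsh (fun k : Fin (a + b) => c k) (fun k => hc k) _ (hF.comp (continuous_lft a b))
    rw [tendsto_nhds_unique l1 l2, hD, mul_assoc _ (exp _)]
    congr 1
    rw [← integral_const_mul]
    refine integral_congr_ae ?_
    filter_upwards [((hS (Fin (a + b))).1 √t).2.1] with x hx
    rw [sq_sqrt ht.le] at hx
    have e : -(1 / 2) * ∑ k : Fin (a + b), x k ^ 2 / c k = -(w * t / 2) + H x := by
      have : ∑ k : Fin (a + b), x k ^ 2 / c k =
          w * (x ⬝ᵥ x) + ∑ k : Fin (a + b), η k * x k ^ 2 := by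
        rw [dotProduct, mul_sum, ← sum_add_distrib]
        refine sum_congr rfl fun k _ => ?_
        rw [hcη k k.2, one_div, div_inv_eq_mul]; ring
      rw [this, hx, hH]; ring
    simp only [Function.comp]
    rw [e, exp_add]; ring
  have k1 := key (fun _ => 1) 1 continuous_const (by simp)
  simp only [one_mul] at k1
  refine ext_of_forall_integral_eq_of_IsFiniteMeasure fun f => ?_
  have k2 := key f ‖f‖ f.continuous fun x => f.norm_coe_le_norm x
  rw [integral_map (continuous_lft a b).measurable.aemeasurable f.continuous.aestronglyMeasurable,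
    integral_mu0 _ cq (fun x => h.nn _) f.continuous.measurable]
  have e1 : ∫ x, f (lft a b x) ∂nuD (a + b) η t =
      (∫ x, f (lft a b x) * exp (H x) ∂sphR (Fin (a + b)) √t) /
        ∫ x, exp (H x) ∂sphR (Fin (a + b)) √t := by
    rw [nuD, integral_tilted, ← integral_div]
    refine integral_congr_ae (ae_of_all _ fun x => ?_)
    simp only [smul_eq_mul, hH]; ring
  have e2 : ∫ x, q (t - S c 0 a x) / (∫ x, q (t - S c 0 a x) ∂gv (Fin a)) *
      f (sc (fun k : Fin a => c k) x) ∂gv (Fin a) =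
      (∫ x, f (sc (fun k : Fin a => c k) x) * q (t - S c 0 a x) ∂gv (Fin a)) /
        ∫ x, q (t - S c 0 a x) ∂gv (Fin a) := by
    rw [← integral_div]
    refine integral_congr_ae (ae_of_all _ fun x => ?_)
    simp only; ring
  have hD0 : D ≠ 0 := fun h0 => by rw [k1, h0, zero_mul] at hZ; exact lt_irrefl _ hZ
  rw [e1, e2, k2, k1, mul_div_mul_left _ _ hD0]

lemma den_le {q : ℝ → ℝ} {Λ : ℝ} (h : Dn q Λ) {c : ℕ → ℝ} (hc : ∀ k, 0 ≤ c k) {a b : ℕ}
    (hI : Iv q Λ c a b) {t d : ℝ} (hd : ∀ ε, 0 < ε → ε ≤ 1 →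
      d * ε ≤ (gs 0 fun k : Fin (a + b) => c k).real (shell t ε)) :
    d ≤ ∫ x, q (t - S c 0 a x) ∂gv (Fin a) := by
  have l1 := shell_tendsto h hc hI (F := fun _ => 1) continuous_const (A := 1) (by simp) t
  simp only [one_mul] at l1
  refine ge_of_tendsto l1 ?_
  filter_upwards [Ioc_mem_nhdsGT (zero_lt_one' ℝ)] with ε hε
  rw [le_div_iff₀ hε.1, setIntegral_const, smul_eq_mul, mul_one]
  exact hd ε hε.1 hε.2

/-! ### the approximating family -/

/-- clamped variances -/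
def cy (w L U : ℝ) {K : ℕ} (y : Fin K → ℝ) (k : ℕ) : ℝ :=
  if h : k < K then 1 / (w + max (-L) (min (y ⟨k, h⟩) U)) else 1 / (w - L)

lemma cy_bd {w L U : ℝ} (hw : L < w) (hU : -L ≤ U) {K : ℕ} (y : Fin K → ℝ) (k : ℕ) :
    1 / (w + U) ≤ cy w L U y k ∧ cy w L U y k ≤ 1 / (w - L) := by
  have h0 : 0 < w - L := by linarith
  unfold cy
  split_ifs with h
  · have h1 : -L ≤ max (-L) (min (y ⟨k, h⟩) U) := le_max_left _ _
    have h2 : max (-L) (min (y ⟨k, h⟩) U) ≤ U := max_le hU (min_le_right _ _)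
    exact ⟨one_div_le_one_div_of_le (by linarith) (by linarith),
      one_div_le_one_div_of_le h0 (by linarith)⟩
  · exact ⟨one_div_le_one_div_of_le h0 (by linarith), le_rfl⟩

lemma continuous_cy {w L U : ℝ} (hw : L < w) (K k : ℕ) :
    Continuous fun y : Fin K → ℝ => cy w L U y k := by
  unfold cy
  split_ifs with h
  · refine continuous_const.div (by fun_prop) fun y => ne_of_gt ?_
    linarith [le_max_left (-L) (min (y ⟨k, h⟩) U)]
  · exact continuous_const

instance : Measure.IsOpenPosMeasure (gaussianReal 0 1) :=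
  (gaussianReal_absolutelyContinuous' 0 one_ne_zero).isOpenPosMeasure

/-- abstract family: everything that is needed about the approximating laws -/
lemma family {Y : Type} [TopologicalSpace Y] [FirstCountableTopology Y]
    {P : Y → ℝ → ℝ} {Λ θ : ℝ} (hθ : 0 ≤ θ) (hP : ∀ y, Dn (P y) Λ)
    (hPc : Continuous fun q : Y × ℝ => P q.1 q.2) (hPp : ∀ y s, 0 < s → 0 < P y s)
    {c : Y → ℕ → ℝ} (hc : ∀ k, Continuous fun y => c y k) (h0 : ∀ y k, 0 ≤ c y k)
    (h1 : ∀ y k, θ * c y k ≤ 1 / 2) {r : Y → ℝ} (hr : Continuous r) (hr0 : ∀ y, 0 < r y)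
    (a i m : ℕ) :
    (∀ y, Cp (mu0 (fun k : Fin a => c y k) fun x => qf (P y) (c y) i m (r y - S (c y) 0 a x))) ∧
    Continuous fun q : Y × Y =>
      Xk θ (mu0 (fun k : Fin a => c q.1 k) fun x => qf (P q.1) (c q.1) i m (r q.1 - S (c q.1) 0 a x))
        (mu0 (fun k : Fin a => c q.2 k) fun x =>
          qf (P q.2) (c q.2) i m (r q.2 - S (c q.2) 0 a x)) := by
  set f : Y → (Fin a → ℝ) → ℝ := fun y x => qf (P y) (c y) i m (r y - S (c y) 0 a x) with hf
  have hq : ∀ y, Dn (qf (P y) (c y) i m) Λ := fun y => (hP y).qf (h0 y) i m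
  have cS : ∀ j l, Continuous fun q : Y × (Fin l → ℝ) => S (c q.1) j l q.2 := fun j l =>
    continuous_finsetSum _ fun k _ => ((hc _).comp continuous_fst).mul (by fun_prop)
  have cf : Continuous fun q : Y × (Fin a → ℝ) => f q.1 q.2 := by
    refine continuous_of_dominated (bound := fun _ => Λ)
      (fun q => ((hP q.1).int _ _ _ _).aestronglyMeasurable)
      (fun q => ae_of_all _ fun z => (hP q.1).abs_le _) (integrable_const _)
      (ae_of_all _ fun z => ?_)
    exact hPc.comp (continuous_fst.prodMk (((hr.comp continuous_fst).sub (cS 0 a)).sub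
      ((cS i m).comp (continuous_fst.prodMk continuous_const))))
  have cfy : ∀ y, Continuous (f y) := fun y => cf.comp (Continuous.prodMk_right y)
  have fn : ∀ y x, 0 ≤ f y x := fun y x => (hq y).nn _
  have fa : ∀ y x, |f y x| ≤ Λ := fun y x => (hq y).abs_le _
  have hZ : ∀ y, 0 < ∫ x, f y x ∂gv (Fin a) := fun y => by
    refine integral_pos_of_integrable_nonneg_nonzero (x := 0) (cfy y)
      (int_bdd (cfy y).measurable (fa y)) (fn y) (ne_of_gt ?_)
    refine integral_pos_of_integrable_nonneg_nonzero (x := 0)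
      ((hP y).cont.comp (continuous_const.sub (continuous_S _ _ _))) ((hP y).int _ _ _ _)
      (fun z => (hP y).nn _) (ne_of_gt (hPp y _ ?_))
    simpa [S] using hr0 y
  have cZ : Continuous fun y => ∫ x, f y x ∂gv (Fin a) :=
    continuous_of_dominated (bound := fun _ => Λ) (fun y => (cfy y).aestronglyMeasurable)
      (fun y => ae_of_all _ (fa y)) (integrable_const _)
      (ae_of_all _ fun x => cf.comp (Continuous.prodMk_left x))
  refine ⟨fun y => cp_mu0 (cfy y) (fn y) (hZ y) (r := r y) fun x hx => ?_, ?_⟩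
  · rw [sc_dot (c := fun k : Fin a => c y k) fun k => h0 y k]
    by_contra hlt
    refine hx ((hq y).zero _ ?_)
    simp only [S, zero_add]
    linarith
  · have e : ∀ q : Y × Y, Xk θ (mu0 (fun k : Fin a => c q.1 k) (f q.1))
        (mu0 (fun k : Fin a => c q.2 k) (f q.2)) =
        (∫ z : (Fin a → ℝ) × (Fin a → ℝ), f q.1 z.1 * f q.2 z.2 *
          exp (θ * (sc (fun k : Fin a => c q.1 k) z.1 ⬝ᵥ sc (fun k : Fin a => c q.2 k) z.2))
          ∂(gv (Fin a)).prod (gv (Fin a))) /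
          ((∫ x, f q.1 x ∂gv (Fin a)) * ∫ x, f q.2 x ∂gv (Fin a)) := fun q => by
      rw [Xk_mu0 hθ (fun k => h0 _ _) (fun k => h0 _ _) (fun k => h1 _ _) (fun k => h1 _ _)
        (cfy q.1) (cfy q.2) (fn q.1) (fn q.2) (hZ q.2) (fun x => (hq q.1).le _)
        (fun x => (hq q.2).le _), ← integral_div]
      refine integral_congr_ae (ae_of_all _ fun z => ?_)
      simp only
      rw [div_mul_div_comm, div_mul_eq_mul_div]
    refine (Continuous.div ?_ ((cZ.comp continuous_fst).mul (cZ.comp continuous_snd))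
      fun q => (mul_pos (hZ q.1) (hZ q.2)).ne').congr fun q => (e q).symm
    have ik := fun q : Y × Y => int_ker (c := fun k : Fin a => c q.1 k)
      (c' := fun k : Fin a => c q.2 k) hθ (fun k => h0 _ _) (fun k => h0 _ _) (fun k => h1 _ _)
      (fun k => h1 _ _) (cfy q.1) (cfy q.2) (fa q.1) (fa q.2)
    refine continuous_of_dominated (bound := fun z => Λ * Λ * (G z.1 * G z.2))
      (fun q => (ik q).2.aestronglyMeasurable) (fun q => ae_of_all _ (ik q).1)
      ((integrable_G.mul_prod integrable_G).const_mul _) (ae_of_all _ fun z => ?_)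
    refine ((cf.comp (continuous_fst.prodMk continuous_const)).mul
      (cf.comp (continuous_snd.prodMk continuous_const))).mul (continuous_exp.comp
        (continuous_const.mul (continuous_finsetSum _ fun k _ => ?_)))
    exact ((((hc k).comp continuous_fst).sqrt).mul continuous_const).mul
      ((((hc k).comp continuous_snd).sqrt).mul continuous_const)

/-! ### tails -/

/-- the summable majorant -/
def uk (k : ℕ) : ℝ := (((k : ℝ) + 1) ^ (2 / 3 : ℝ))⁻¹


lemma tail {e : ℝ} (he : 0 < e) : ∀ᶠ K in atTop, ∀ n, ∑ k ∈ Ico K n, uk k ^ 2 ≤ e := by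
  have hs : Summable fun k : ℕ => uk k ^ 2 := by
    have h := (summable_nat_add_iff 1).2
      (Real.summable_nat_rpow_inv.2 (show (1 : ℝ) < 4 / 3 by norm_num))
    refine h.congr fun k => ?_
    unfold uk
    rw [inv_pow, ← rpow_natCast, ← rpow_mul (by positivity)]
    push_cast
    norm_num
  obtain ⟨s, hs⟩ := hs.vanishing (gt_mem_nhds he)
  obtain ⟨N, hN⟩ := s.exists_nat_subset_range
  filter_upwards [eventually_ge_atTop N] with K hK n
  refine (hs _ (disjoint_left.2 fun k hk hk' => ?_)).le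
  have := mem_range.1 (hN hk')
  have := (mem_Ico.1 hk).1
  omega

lemma gd_bd {n : ℕ} {η : ℕ → ℝ} {t L w C : ℝ} (h : Gd n η t L w C) (hw : L < w) {k : ℕ}
    (hk : k < n) : -L ≤ η k ∧ 0 < w + η k ∧ 1 / (w + η k) ≤ 256 * uk k := by
  have h1 := h.lo k hk
  have h2 : 0 < ((k : ℝ) + 1) ^ (2 / 3 : ℝ) := by positivity
  refine ⟨by linarith, by linarith, ?_⟩
  have h3 : ((k : ℝ) + 1) ^ (2 / 3 : ℝ) / 256 ≤ w + η k := by linarith
  refine (one_div_le_one_div_of_le (by positivity) h3).trans (le_of_eq ?_)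
  unfold uk; field_simp

lemma gd_hi {n : ℕ} {η : ℕ → ℝ} {t L w C : ℝ} (h : Gd n η t L w C) {k K : ℕ}
    (hk : k < K) (hK : 8 * K ≤ n) : η k ≤ 60 * K + L := by
  have h1 := h.hi k (by omega)
  have h2 : ((k : ℝ) + 1) ^ (2 / 3 : ℝ) ≤ ((k : ℝ) + 1) ^ (1 : ℝ) :=
    rpow_le_rpow_of_exponent_le (by linarith [Nat.cast_nonneg (α := ℝ) k]) (by norm_num)
  rw [rpow_one] at h2
  have h3 : (k : ℝ) + 1 ≤ K := by exact_mod_cast hk
  linarith

lemma sum_compl (n K : ℕ) (g : ℕ → ℝ) :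
    ∑ k ∈ (univ.filter fun k : Fin n => (k : ℕ) < K)ᶜ, g k = ∑ k ∈ Ico K n, g k := by
  rw [compl_filter, sum_filter,
    Fin.sum_univ_eq_sum_range (fun k => if ¬ k < K then g k else 0) n, ← sum_filter]
  congr 1
  ext k
  simp only [mem_filter, mem_range, mem_Ico, not_lt]
  exact and_comm

lemma keep_eq (a b : ℕ) (x : Fin (a + b) → ℝ) :
    keep (univ.filter fun k : Fin (a + b) => (k : ℕ) < a) x = Apx22.padM a (a + b) *ᵥ lft a b x := by
  rw [Apx22.padM_mulVec]
  funext k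
  simp only [keep, pad, mem_filter, mem_univ, true_and, lft]
  split_ifs with h
  · rfl
  · rfl

lemma D2_isom (hI : IsomStmt) {K n : ℕ} (h : K ≤ n) {μ ν : Measure (Fin K → ℝ)} (hμ : Cp μ)
    (hν : Cp ν) (θ : ℝ) :
    D2 θ (μ.map fun x => Apx22.padM K n *ᵥ x) (ν.map fun x => Apx22.padM K n *ᵥ x) = D2 θ μ ν := by
  unfold D2
  rw [(hI _ _ _ (Apx22.padM_isom h) μ μ hμ hμ).2.1, (hI _ _ _ (Apx22.padM_isom h) μ ν hμ hν).2.1,
    (hI _ _ _ (Apx22.padM_isom h) ν ν hν hν).2.1]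

end Fin85

open Fin85

theorem finGlue : FinGlue := by
  intro hM hI hPr hS hSh hF hD hMg hCo hLn L C θ hL hθ
  obtain ⟨w1, -, hD⟩ := hD L C 0 0 hL
  obtain ⟨w2, hMg⟩ := hMg L C hL
  obtain ⟨w3, -, hCo⟩ := hCo L C 0 0 hL
  refine ⟨max (max w1 w2) (max w3 (L + 2 * θ + 4)), fun w hw ε hε => ?_⟩
  obtain ⟨d, hd, hD⟩ := hD w ((le_max_left _ _).trans ((le_max_left _ _).trans hw))
  obtain ⟨B, hMg⟩ := hMg w ((le_max_right _ _).trans ((le_max_left _ _).trans hw))
  obtain ⟨B', d', hB', -, hCo⟩ := hCo w ((le_max_left _ _).trans ((le_max_right _ _).trans hw))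
  have hw4 : L + 2 * θ + 4 ≤ w := (le_max_right _ _).trans ((le_max_right _ _).trans hw)
  have hLw : L < w := by linarith
  obtain ⟨p, pc, p0, pp, pl, pd⟩ := hF
  have pn : ∀ c : Fin 4 → ℝ, (∀ k, 0 < c k) → ∀ s, 0 ≤ p c s := fun c hc s => by
    rcases le_or_gt s 0 with h | h
    · exact (p0 c s h).ge
    · exact (pp c s hc h).le
  have pD : ∀ a b : ℝ, 0 < a → ∃ Λ : ℝ, 0 ≤ Λ ∧ ∀ c : Fin 4 → ℝ, (∀ k, a ≤ c k ∧ c k ≤ b) →
      Dn (p c) Λ := fun a b ha => by
    obtain ⟨Λ, h0, h⟩ := pl a b ha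
    exact ⟨Λ, h0, fun c hc => ⟨pn c fun k => ha.trans_le (hc k).1, fun s => (h c hc s s).1,
      fun s s' => (h c hc s s').2, p0 c⟩⟩
  -- the first cut
  set X := √(B * exp (B * |2 * θ| ^ (3 / 2 : ℝ))) with hX
  have hX0 : 0 ≤ X := sqrt_nonneg _
  set A := 2 * θ * (256 * B') * X + 1 with hA
  have hA0 : 0 < A := by positivity
  obtain ⟨K₁, hK₁⟩ := (tail (e := (ε / 4 / A) ^ 2) (by positivity)).exists
  have hU1 : (0 : ℝ) ≤ 60 * ((K₁ + 4 : ℕ) : ℝ) := by positivity
  obtain ⟨Λ, hΛ, hΛD⟩ := pD (1 / (w + (60 * ((K₁ + 4 : ℕ) : ℝ) + L))) (1 / (w - L))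
    (one_div_pos.2 (by linarith))
  set M := (1 / d + 2 * Λ / d ^ 2) * ∫ a, G a ∂gv (Fin K₁) with hM'
  have hG0 : 0 ≤ ∫ a, G a ∂gv (Fin K₁) := integral_nonneg fun a => (G_pos a).le
  have hM0 : 0 ≤ M := by positivity
  set e := min (d / 2) (√ε / 2 / (M + 1)) with he
  have hsq : 0 < √ε := sqrt_pos.2 hε
  have he0 : 0 < e := lt_min (by positivity) (by positivity)
  set l := e / (2 * (Λ + 1)) with hl
  have hl0 : 0 < l := by positivity
  refine ⟨K₁, l, hl0, ?_⟩
  filter_upwards [eventually_ge_atTop (K₁ + 4),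
    tail (e := l ^ 2 / ((V0 + 1) * 256 ^ 2)) (by have := V0_nonneg; positivity)] with K hK hKt c hc
  obtain ⟨m, rfl⟩ := Nat.exists_eq_add_of_le hK
  set U : ℝ := 60 * ((K₁ + 4 + m : ℕ) : ℝ) + L with hU
  have hU0 : (0 : ℝ) ≤ 60 * ((K₁ + 4 + m : ℕ) : ℝ) := by positivity
  have hUL : -L ≤ U := by linarith
  have hwU : 0 < 1 / (w + U) := one_div_pos.2 (by linarith)
  obtain ⟨Λ', -, hΛ'⟩ := pD (1 / (w + U)) (1 / (w - L)) hwU
  have cpos : ∀ (y : Fin (K₁ + 4 + m) → ℝ) k, 0 < cy w L U y k := fun y k =>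
    hwU.trans_le (cy_bd hLw hUL y k).1
  have hθw : θ * (1 / (w - L)) ≤ 1 / 2 := by
    rw [mul_one_div, div_le_iff₀ (by linarith)]; linarith
  have cθ : ∀ (y : Fin (K₁ + 4 + m) → ℝ) k, θ * cy w L U y k ≤ 1 / 2 := fun y k =>
    (mul_le_mul_of_nonneg_left (cy_bd hLw hUL y k).2 hθ).trans hθw
  obtain ⟨f1, f2⟩ := family (Y := Fin (K₁ + 4 + m) → ℝ)
    (P := fun y => p fun k : Fin 4 => cy w L U y (K₁ + k)) (Λ := Λ') hθ
    (fun y => hΛ' _ fun k => cy_bd hLw hUL y _)
    (pc.comp_continuous ((continuous_pi fun k =>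
      (continuous_cy hLw _ _).comp continuous_fst).prodMk continuous_snd) fun q k => cpos _ _)
    (fun y s hs => pp _ s (fun k => cpos _ _) hs) (c := fun y => cy w L U y)
    (continuous_cy hLw _) (fun y k => (cpos y k).le) cθ (r := fun y => max (c y) 1)
    (hc.max continuous_const) (fun y => lt_max_of_lt_right one_pos) K₁ (K₁ + 4) m
  refine ⟨_, f1, f2, ?_⟩
  filter_upwards [hD, hMg, hCo, eventually_ge_atTop (8 * (K₁ + 4 + m))] with n hD hMg hCo hn
    η t ht hG hct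
  obtain ⟨m2, rfl⟩ : ∃ m2, n = K₁ + (4 + (m + m2)) := ⟨n - (K₁ + 4 + m), by omega⟩
  obtain ⟨-, l2, -⟩ := hLn (K₁ + (4 + (m + m2))) (by omega)
  obtain ⟨cpν, flip⟩ := l2 η t ht
  set cn : ℕ → ℝ := fun k => if k < K₁ + (4 + (m + m2)) then 1 / (w + η k) else 1 with hcn
  have cn_eq : ∀ k, k < K₁ + (4 + (m + m2)) → cn k = 1 / (w + η k) := fun k hk => if_pos hk
  have cn_pos : ∀ k, 0 < cn k := fun k => by
    simp only [hcn]
    split_ifs with hk
    · exact one_div_pos.2 (gd_bd hG hLw hk).2.1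
    · exact one_pos
  have cw_eq : cw (K₁ + (4 + (m + m2))) η w = fun k : Fin (K₁ + (4 + (m + m2))) => cn k :=
    funext fun k => (cn_eq k k.2).symm
  set y : Fin (K₁ + 4 + m) → ℝ := fun k => η k with hy
  have cy_eq : ∀ k, k < K₁ + 4 + m → cy w L U y k = cn k := fun k hk => by
    have hk' : k < K₁ + (4 + (m + m2)) := by omega
    rw [cn_eq k hk', cy, dif_pos hk]
    have h1 := (gd_bd hG hLw hk').1
    have h2 : η k ≤ U := gd_hi hG hk hn
    simp only [hy]
    rw [min_eq_left h2, max_eq_right h1]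
  -- the four modes
  set P := p fun k : Fin 4 => cn (K₁ + k) with hP
  have DP : Dn P Λ := hΛD _ fun k => by
    have hk : K₁ + k < K₁ + (4 + (m + m2)) := by have := k.2; omega
    have g := gd_bd hG hLw hk
    have g2 : η (K₁ + k) ≤ 60 * ((K₁ + 4 : ℕ) : ℝ) + L :=
      gd_hi hG (by have := k.2; omega) (by omega)
    rw [cn_eq _ hk]
    exact ⟨one_div_le_one_div_of_le g.2.1 (by linarith),
      one_div_le_one_div_of_le (by linarith) (by linarith [g.1])⟩
  have IP : Iv P Λ cn K₁ 4 := iv_four DP (fun k => (cn_pos k).le) K₁ (pd _ fun k => cn_pos _)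
  have Dq := DP.qf (fun k => (cn_pos k).le) (K₁ + 4) (m + m2)
  have Iq := IP.add DP (m + m2)
  have Dq' := DP.qf (fun k => (cn_pos k).le) (K₁ + 4) m
  have hZ := den_le Dq (fun k => (cn_pos k).le) Iq (t := t) (d := d) fun ε h1 h2 => by
    rw [← cw_eq]; exact (hD η t hG ε h1 h2).1
  have proj := proj_eq hS hSh Dq cn_pos (by omega) Iq ht cn_eq cpν.prob (hd.trans_le hZ)
  -- the approximating law in the same words
  have rho_eq : (mu0 (fun k : Fin K₁ => cy w L U y k) fun x =>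
      qf (p fun k : Fin 4 => cy w L U y (K₁ + k)) (cy w L U y) (K₁ + 4) m
        (max (c y) 1 - S (cy w L U y) 0 K₁ x)) =
      mu0 (fun k : Fin K₁ => cn k) fun x => qf P cn (K₁ + 4) m (max (c y) 1 - S cn 0 K₁ x) := by
    have e1 : (fun k : Fin K₁ => cy w L U y k) = fun k : Fin K₁ => cn k :=
      funext fun k => cy_eq _ (by have := k.2; omega)
    have e2 : (fun k : Fin 4 => cy w L U y (K₁ + k)) = fun k : Fin 4 => cn (K₁ + k) :=
      funext fun k => cy_eq _ (by have := k.2; omega)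
    rw [e1, e2, qf_congr _ (c' := cn) fun k hk => cy_eq _ (by omega),
      S_congr (c' := cn) fun k hk => cy_eq _ (by omega)]
  have cpρ := f1 y
  rw [rho_eq] at cpρ
  change D2 θ _ ((mu0 (fun k : Fin K₁ => cy w L U y k) fun x =>
      qf (p fun k : Fin 4 => cy w L U y (K₁ + k)) (cy w L U y) (K₁ + 4) m
        (max (c y) 1 - S (cy w L U y) 0 K₁ x)).map _) ≤ ε
  rw [rho_eq]
  -- the tail sums
  have s1 : ∀ g : ℝ → ℝ, ∑ k : Fin m2, g (cn (K₁ + 4 + m + k)) =
      ∑ k ∈ Ico (K₁ + 4 + m) (K₁ + (4 + (m + m2))), g (1 / (w + η k)) := fun g => by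
    rw [sum_Ico_eq_sum_range, show K₁ + (4 + (m + m2)) - (K₁ + 4 + m) = m2 by omega,
      ← Fin.sum_univ_eq_sum_range (fun k => g (1 / (w + η (K₁ + 4 + m + k)))) m2]
    exact sum_congr rfl fun k _ => by rw [cn_eq _ (by have := k.2; omega)]
  have s2 : ∑ k : Fin m2, cn (K₁ + 4 + m + k) ^ 2 ≤ l ^ 2 / (V0 + 1) := by
    rw [s1 fun x => x ^ 2]
    calc _ ≤ ∑ k ∈ Ico (K₁ + 4 + m) (K₁ + (4 + (m + m2))), 256 ^ 2 * uk k ^ 2 :=
          sum_le_sum fun k hk => by
            have g := gd_bd hG hLw (mem_Ico.1 hk).2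
            rw [← mul_pow]
            exact pow_le_pow_left₀ (one_div_pos.2 g.2.1).le g.2.2 2
      _ ≤ 256 ^ 2 * (l ^ 2 / ((V0 + 1) * 256 ^ 2)) := by
          rw [← mul_sum]; exact mul_le_mul_of_nonneg_left (hKt _) (by positivity)
      _ = _ := by have := V0_nonneg; field_simp
  have s3 : 1 ≤ t - ∑ k ∈ Ico (K₁ + 4 + m) (K₁ + (4 + (m + m2))), 1 / (w + η k) := by
    have h1 := hG.up
    have h2 : ∑ k ∈ Ico (K₁ + 4 + m) (K₁ + (4 + (m + m2))), 1 / (w + η k) ≤
        ∑ k ∈ range (K₁ + (4 + (m + m2))), 1 / (w + η k) :=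
      sum_le_sum_of_subset_of_nonneg (fun k hk => mem_range.2 (mem_Ico.1 hk).2)
        fun k hk _ => (one_div_pos.2 (gd_bd hG hLw (mem_range.1 hk)).2.1).le
    have h3 : 2 ≤ √w := le_sqrt_of_sq_le (by linarith)
    unfold Sr at h1
    linarith
  have s4 : |t - ∑ k ∈ Ico (K₁ + 4 + m) (K₁ + (4 + (m + m2))), 1 / (w + η k) - max (c y) 1| ≤ l := by
    refine le_trans ?_ hct
    rcases le_total (c y) 1 with h | h
    · rw [max_eq_right h, abs_of_nonneg (by linarith), abs_of_nonneg (by linarith)]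
      linarith
    · rw [max_eq_left h]
  have close : ∀ x, |qf P cn (K₁ + 4) (m + m2) (t - S cn 0 K₁ x) -
      qf P cn (K₁ + 4) m (max (c y) 1 - S cn 0 K₁ x)| ≤ e := fun x => by
    refine (DP.qf_split cn (K₁ + 4) m m2 _ _ hl0).trans ?_
    have a1 : |t - S cn 0 K₁ x - ∑ k : Fin m2, cn (K₁ + 4 + m + k) -
        (max (c y) 1 - S cn 0 K₁ x)| ≤ l := by
      rw [s1 fun x => x]
      refine le_trans (le_of_eq ?_) s4
      congr 1; ring
    have a2 : V0 * (∑ k : Fin m2, cn (K₁ + 4 + m + k) ^ 2) / l ≤ l := by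
      have hV := V0_nonneg
      rw [div_le_iff₀ hl0]
      calc _ ≤ (V0 + 1) * (l ^ 2 / (V0 + 1)) :=
            mul_le_mul (by linarith) s2 (sum_nonneg fun _ _ => sq_nonneg _) (by linarith)
        _ = _ := by field_simp
    calc _ ≤ (Λ + 1) * (2 * l) :=
          mul_le_mul (by linarith) (by linarith) (by have := V0_nonneg; positivity) (by linarith)
      _ = e := by rw [hl]; field_simp
  have cθn : ∀ k : Fin K₁, θ * cn k ≤ 1 / 2 := fun k => by
    rw [← cy_eq _ (by have := k.2; omega)]; exact cθ y k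
  have cq : ∀ {q : ℝ → ℝ}, Dn q Λ → ∀ r, Continuous fun x => q (r - S cn 0 K₁ x) :=
    fun h r => h.cont.comp (continuous_const.sub (continuous_S cn 0 K₁))
  have part2 := D2_mu0 (c := fun k : Fin K₁ => cn k) hθ (fun k => (cn_pos k).le) cθn
    (cq Dq t) (cq Dq' (max (c y) 1)) (fun _ => Dq.nn _) (fun _ => Dq'.nn _) (fun _ => Dq.le _)
    (fun _ => Dq'.le _) hd hZ close (min_le_left _ _)
  have cpA : Cp (mu0 (fun k : Fin K₁ => cn k) fun x =>
      qf P cn (K₁ + 4) (m + m2) (t - S cn 0 K₁ x)) := by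
    refine cp_mu0 (cq Dq t) (fun _ => Dq.nn _) (hd.trans_le hZ) (r := t) fun x hx => ?_
    rw [sc_dot (c := fun k : Fin K₁ => cn k) fun k => (cn_pos k).le]
    by_contra hlt
    refine hx (Dq.zero _ ?_)
    simp only [S, zero_add]
    linarith
  have hK₁n : K₁ ≤ K₁ + (4 + (m + m2)) := by omega
  have padc : Continuous fun x : Fin K₁ → ℝ => Apx22.padM K₁ (K₁ + (4 + (m + m2))) *ᵥ x :=
    continuous_const.matrix_mulVec continuous_id
  have pad_eq : pad K₁ (K₁ + (4 + (m + m2))) = fun x => Apx22.padM K₁ (K₁ + (4 + (m + m2))) *ᵥ x :=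
    funext fun x => (Apx22.padM_mulVec _ _ x).symm
  have keep_map : (nuD (K₁ + (4 + (m + m2))) η t).map
      (keep (univ.filter fun k : Fin (K₁ + (4 + (m + m2))) => (k : ℕ) < K₁)) =
      (mu0 (fun k : Fin K₁ => cn k) fun x => qf P cn (K₁ + 4) (m + m2) (t - S cn 0 K₁ x)).map
        fun x => Apx22.padM K₁ (K₁ + (4 + (m + m2))) *ᵥ x := by
    rw [← proj, Measure.map_map padc.measurable (continuous_lft _ _).measurable]
    congr 1
    funext x
    exact keep_eq _ _ x
  have part1 := hPr _ _ cpν flip (univ.filter fun k : Fin (K₁ + (4 + (m + m2))) => (k : ℕ) < K₁) θ hθ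
  rw [keep_map] at part1
  have q1 : √(∑ k ∈ (univ.filter fun k : Fin (K₁ + (4 + (m + m2))) => (k : ℕ) < K₁)ᶜ,
      (∫ x, x k ^ 2 ∂nuD (K₁ + (4 + (m + m2))) η t) ^ 2) ≤ 256 * B' * (ε / 4 / A) := by
    refine sqrt_le_iff.2 ⟨by positivity, ?_⟩
    calc _ ≤ ∑ k ∈ (univ.filter fun k : Fin (K₁ + (4 + (m + m2))) => (k : ℕ) < K₁)ᶜ,
          (256 * B') ^ 2 * uk k ^ 2 := sum_le_sum fun k _ => by
            have g := gd_bd hG hLw k.2
            rw [← mul_pow]
            refine pow_le_pow_left₀ (integral_nonneg fun _ => sq_nonneg _)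
              ((hCo η t ht hG k).1.trans ?_) 2
            rw [div_eq_mul_one_div]
            nlinarith [mul_le_mul_of_nonneg_left g.2.2 hB']
      _ ≤ (256 * B') ^ 2 * (ε / 4 / A) ^ 2 := by
          rw [sum_compl _ _ fun k => (256 * B') ^ 2 * uk k ^ 2, ← mul_sum]
          exact mul_le_mul_of_nonneg_left (hK₁ _) (by positivity)
      _ = _ := by ring
  have q2 : √(Xk (2 * θ) (nuD (K₁ + (4 + (m + m2))) η t) (nuD (K₁ + (4 + (m + m2))) η t)) ≤ X :=
    sqrt_le_sqrt (hMg η t ht hG _)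
  have part1' := part1.trans (mul_le_mul (mul_le_mul_of_nonneg_left q1 (by positivity)) q2
    (sqrt_nonneg _) (by positivity))
  have r1 : 2 * θ * (256 * B' * (ε / 4 / A)) * X ≤ (√ε / 2) ^ 2 := by
    rw [div_pow, sq_sqrt hε.le]
    calc _ = (A - 1) * (ε / 4 / A) := by rw [hA]; ring
      _ ≤ A * (ε / 4 / A) := mul_le_mul_of_nonneg_right (by linarith) (by positivity)
      _ = _ := by field_simp; norm_num
  have r2 : (e * (1 / d + 2 * Λ / d ^ 2) * ∫ a, G a ∂gv (Fin K₁)) ^ 2 ≤ (√ε / 2) ^ 2 := by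
    rw [mul_assoc, ← hM']
    refine pow_le_pow_left₀ (by positivity) ?_ 2
    calc e * M ≤ √ε / 2 / (M + 1) * (M + 1) :=
          mul_le_mul (min_le_right _ _) (by linarith) hM0 (by positivity)
      _ = _ := by field_simp
  rw [pad_eq]
  have cA' := (hI _ _ _ (Apx22.padM_isom hK₁n) _ _ cpA cpA).1
  have cρ' := (hI _ _ _ (Apx22.padM_isom hK₁n) _ _ cpρ cpρ).1
  have tri := (hM _ _ _ _ cpν cA' cρ' θ θ hθ le_rfl).2.2.2.2.2.1
  rw [D2_isom hI hK₁n cpA cpρ] at tri
  have t1 := sqrt_le_iff.2 ⟨(by positivity : 0 ≤ √ε / 2), part1'.trans r1⟩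
  have t2 := sqrt_le_iff.2 ⟨(by positivity : 0 ≤ √ε / 2), part2.trans r2⟩
  exact (sqrt_le_sqrt_iff hε.le).1 (by linarith)

end Crest.Agent.T157.St

end
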