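import Crest.Agent.T157.CondB_53

/-!
# Row 157, part E (helper53): Gaussian densities, the area formula and the Kac–Rice bound

* `phi v y`     : density of `N(0, v I)`; `gv_affine` : law of `c + M g`, `gv_scale` : of `c + √v g`;
* `mclm M`      : a matrix as a continuous linear map, with the basic derivative rules;
* `area_le`     : `∫_{Y(S)} φ ≤ ∫_S |det DY| φ∘Y` (no injectivity);
* `kacRice`     : first-moment bound for the existence of a solution of `Y θ x = c θ + √v g`.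
-/

set_option autoImplicit false
set_option linter.unusedSectionVars false

noncomputable section

namespace Crest.Agent.T157.Kr

open MeasureTheory ProbabilityTheory Matrix Real
open Crest.Agent.T157.E Crest.Agent.T157.Cond
open scoped ENNReal

variable {ι : Type*} [Fintype ι]

theorem pi_withDensity_ofReal {J : Type*} [Fintype J] {α : J → Type*} [∀ j, MeasurableSpace (α j)]
    (μ : ∀ j, Measure (α j)) [∀ j, SigmaFinite (μ j)] (f : ∀ j, α j → ℝ)
    (h0 : ∀ j x, 0 ≤ f j x) (hi : ∀ j, Integrable (f j) (μ j)) :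
    Measure.pi (fun j => (μ j).withDensity fun x => ENNReal.ofReal (f j x)) =
      (Measure.pi μ).withDensity fun y => ENNReal.ofReal (∏ j, f j (y j)) := by
  refine Measure.pi_eq fun s hs => ?_
  rw [withDensity_apply _ (MeasurableSet.univ_pi hs), ← lintegral_indicator
    (MeasurableSet.univ_pi hs)]
  have h1 : ∀ y : ∀ j, α j, (Set.pi Set.univ s).indicator
      (fun y => ENNReal.ofReal (∏ j, f j (y j))) y =
      ENNReal.ofReal (∏ j, (s j).indicator (f j) (y j)) := by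
    intro y
    by_cases hy : y ∈ Set.pi Set.univ s
    · rw [Set.indicator_of_mem hy]
      congr 1
      exact Finset.prod_congr rfl fun j _ => (Set.indicator_of_mem (hy j trivial) _).symm
    · rw [Set.indicator_of_notMem hy]
      simp only [Set.mem_pi, Set.mem_univ, forall_const, not_forall] at hy
      obtain ⟨j, hj⟩ := hy
      rw [Finset.prod_eq_zero (Finset.mem_univ j) (Set.indicator_of_notMem hj _),
        ENNReal.ofReal_zero]
  simp_rw [h1]
  have h2 : ∀ j x, 0 ≤ (s j).indicator (f j) x := fun j x =>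
    Set.indicator_nonneg (fun x _ => h0 j x) x
  rw [← ofReal_integral_eq_lintegral_ofReal
    (Integrable.fintype_prod_dep fun j => (hi j).indicator (hs j))
    (ae_of_all _ fun y => Finset.prod_nonneg fun j _ => h2 j _), integral_fintype_prod_eq_prod,
    ENNReal.ofReal_prod_of_nonneg fun j _ => integral_nonneg (h2 j)]
  refine Finset.prod_congr rfl fun j _ => ?_
  rw [withDensity_apply _ (hs j), integral_indicator (hs j),
    ofReal_integral_eq_lintegral_ofReal (hi j).integrableOn (ae_of_all _ (h0 j))]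

/-- density of the centred Gaussian law with covariance `v I` -/
def phi (v : ℝ) (y : ι → ℝ) : ℝ :=
  ((Real.sqrt (2 * π * v))⁻¹) ^ Fintype.card ι * Real.exp (-(y ⬝ᵥ y) / (2 * v))

lemma phi_nonneg (v : ℝ) (y : ι → ℝ) : 0 ≤ phi v y := by unfold phi; positivity

lemma phi_pos {v : ℝ} (hv : 0 < v) (y : ι → ℝ) : 0 < phi v y := by unfold phi; positivity

@[fun_prop] lemma _root_.Measurable.t157_phi {Ω : Type*} [MeasurableSpace Ω] {v : Ω → ℝ}
    {y : Ω → ι → ℝ} (hv : Measurable v) (hy : Measurable y) :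
    Measurable fun ω => phi (v ω) (y ω) := by
  unfold phi; fun_prop

/-- one-dimensional density -/
def phi1 (v x : ℝ) : ℝ := (Real.sqrt (2 * π * v))⁻¹ * Real.exp (-x ^ 2 / (2 * v))

lemma phi_eq_prod (v : ℝ) (y : ι → ℝ) : phi v y = ∏ i, phi1 v (y i) := by
  simp only [phi, phi1, Finset.prod_mul_distrib, Finset.prod_const, Finset.card_univ,
    ← Real.exp_sum]
  congr 2
  simp only [dotProduct, ← Finset.sum_div, Finset.sum_neg_distrib, sq]

theorem gv_eq_withDensity :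
    gv ι = (volume : Measure (ι → ℝ)).withDensity fun y => ENNReal.ofReal (phi 1 y) := by
  have h := pi_withDensity_ofReal (fun _ : ι => (volume : Measure ℝ))
    (fun _ => gaussianPDFReal 0 1) (fun _ x => gaussianPDFReal_nonneg _ _ x)
    (fun _ => integrable_gaussianPDFReal 0 1)
  have e : gaussianReal 0 1 = (volume : Measure ℝ).withDensity
      fun x => ENNReal.ofReal (gaussianPDFReal 0 1 x) :=
    gaussianReal_of_var_ne_zero 0 one_ne_zero
  rw [← e] at h
  rw [gv, h, volume_pi]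
  congr 1
  funext y
  rw [phi_eq_prod]
  congr 1
  refine Finset.prod_congr rfl fun i _ => ?_
  simp [gaussianPDFReal, phi1]

lemma lintegral_gv {G : (ι → ℝ) → ℝ≥0∞} (hG : Measurable G) :
    ∫⁻ g, G g ∂(gv ι) = ∫⁻ y, ENNReal.ofReal (phi 1 y) * G y := by
  rw [gv_eq_withDensity, lintegral_withDensity_eq_lintegral_mul _ (by fun_prop) hG]
  rfl

/-- linear change of variables in Lebesgue integrals -/
lemma lintegral_affine [DecidableEq ι] {M : Matrix ι ι ℝ} (hM : M.det ≠ 0) (c : ι → ℝ)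
    {G : (ι → ℝ) → ℝ≥0∞} (hG : Measurable G) :
    ∫⁻ y, G (c + M *ᵥ y) = ENNReal.ofReal |M.det⁻¹| * ∫⁻ y, G y := by
  have h := Real.map_matrix_volume_pi_eq_smul_volume_pi hM
  have hm : Measurable fun y : ι → ℝ => M *ᵥ y := by fun_prop
  have h2 : Measure.map (fun y : ι → ℝ => M *ᵥ y) volume =
      ENNReal.ofReal |M.det⁻¹| • volume := h
  rw [← lintegral_map (f := fun y => G (c + y)) (by fun_prop) hm, h2, lintegral_smul_measure,
    lintegral_add_left_eq_self G c, smul_eq_mul]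

/-- density of `c + M g` -/
theorem lintegral_gv_affine [DecidableEq ι] {M : Matrix ι ι ℝ} (hM : M.det ≠ 0) (c : ι → ℝ)
    {G : (ι → ℝ) → ℝ≥0∞} (hG : Measurable G) :
    ∫⁻ g, G (c + M *ᵥ g) ∂(gv ι) =
      ∫⁻ y, ENNReal.ofReal (|M.det⁻¹| * phi 1 (M⁻¹ *ᵥ (y - c))) * G y := by
  rw [lintegral_gv (by fun_prop)]
  have h := lintegral_affine hM c
    (G := fun y => ENNReal.ofReal (phi 1 (M⁻¹ *ᵥ (y - c))) * G y) (by fun_prop)
  have hu : IsUnit M.det := isUnit_iff_ne_zero.2 hM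
  simp only [add_sub_cancel_left, Matrix.mulVec_mulVec, Matrix.nonsing_inv_mul M hu,
    Matrix.one_mulVec] at h
  rw [h, ← lintegral_const_mul _ (by fun_prop)]
  refine lintegral_congr fun y => ?_
  rw [ENNReal.ofReal_mul (abs_nonneg _), mul_assoc]

lemma phi_scale {v : ℝ} (hv : 0 < v) (y : ι → ℝ) :
    ((Real.sqrt v)⁻¹) ^ Fintype.card ι * phi 1 ((Real.sqrt v)⁻¹ • y) = phi v y := by
  have h1 : Real.sqrt v ^ 2 = v := Real.sq_sqrt hv.le
  have h2 : Real.sqrt v ≠ 0 := (Real.sqrt_pos.2 hv).ne'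
  rw [phi, phi, ← mul_assoc, ← mul_pow, Real.sqrt_mul' (2 * π) hv.le, mul_one, mul_inv,
    mul_comm (Real.sqrt v)⁻¹, smul_dotProduct, dotProduct_smul, smul_eq_mul, smul_eq_mul]
  congr 2
  field_simp
  rw [h1]
  ring

/-- density of `c + √v g` -/
theorem lintegral_gv_scale {v : ℝ} (hv : 0 < v) (c : ι → ℝ) {G : (ι → ℝ) → ℝ≥0∞}
    (hG : Measurable G) : ∫⁻ g, G (c + Real.sqrt v • g) ∂(gv ι) =
      ∫⁻ y, ENNReal.ofReal (phi v (y - c)) * G y := by
  classical
  have h2 : 0 < Real.sqrt v := Real.sqrt_pos.2 hv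
  have hd : (Real.sqrt v • (1 : Matrix ι ι ℝ)).det = Real.sqrt v ^ Fintype.card ι := by
    rw [Matrix.det_smul, Matrix.det_one, mul_one]
  have hi : (Real.sqrt v • (1 : Matrix ι ι ℝ))⁻¹ = (Real.sqrt v)⁻¹ • (1 : Matrix ι ι ℝ) := by
    refine Matrix.inv_eq_left_inv ?_
    rw [Matrix.smul_mul, Matrix.mul_smul, smul_smul, inv_mul_cancel₀ h2.ne', Matrix.mul_one,
      one_smul]
  have h := lintegral_gv_affine (M := Real.sqrt v • (1 : Matrix ι ι ℝ))
    (by rw [hd]; positivity) c hG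
  simp only [Matrix.smul_mulVec, Matrix.one_mulVec, hi, hd] at h
  rw [h]
  refine lintegral_congr fun y => ?_
  rw [abs_of_pos (by positivity), ← inv_pow, phi_scale hv]

theorem gv_scale {v : ℝ} (hv : 0 < v) (c : ι → ℝ) :
    (gv ι).map (fun g => c + Real.sqrt v • g) =
      (volume : Measure (ι → ℝ)).withDensity fun y => ENNReal.ofReal (phi v (y - c)) := by
  ext S hS
  rw [← lintegral_indicator_one hS, ← lintegral_indicator_one hS,
    lintegral_map (measurable_one.indicator hS) (by fun_prop),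
    lintegral_gv_scale hv c (measurable_one.indicator hS),
    lintegral_withDensity_eq_lintegral_mul _ (by fun_prop) (measurable_one.indicator hS)]
  rfl


/-- probability that `c + √v g` falls in an arbitrary set -/
theorem gv_scale_le {v : ℝ} (hv : 0 < v) (c : ι → ℝ) (T : Set (ι → ℝ)) :
    gv ι {g | c + Real.sqrt v • g ∈ T} ≤ ∫⁻ y in T, ENNReal.ofReal (phi v (y - c)) := by
  rw [← withDensity_apply', ← gv_scale hv c]
  exact Measure.le_map_apply (by fun_prop) T

/-! ### matrices as derivatives -/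

section deriv
variable {κ τ : Type*} [Fintype κ] [Fintype τ] [DecidableEq κ]

/-- a matrix as a continuous linear map -/
def mclm (M : Matrix ι κ ℝ) : (κ → ℝ) →L[ℝ] (ι → ℝ) :=
  LinearMap.toContinuousLinearMap (Matrix.toLin' M)

@[simp] lemma mclm_apply (M : Matrix ι κ ℝ) (x : κ → ℝ) : mclm M x = M *ᵥ x := rfl

lemma det_mclm (M : Matrix κ κ ℝ) : (mclm M).det = M.det := LinearMap.det_toLin' M

/-- `Y` has Jacobian matrix `M` at `x` -/
def HasJac (Y : (κ → ℝ) → ι → ℝ) (M : Matrix ι κ ℝ) (x : κ → ℝ) : Prop :=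
  HasFDerivAt Y (mclm M) x

/-- a scalar function has gradient `u` at `x` -/
def HasGrad (f : (κ → ℝ) → ℝ) (u : κ → ℝ) (x : κ → ℝ) : Prop :=
  HasFDerivAt f (LinearMap.toContinuousLinearMap ((dotProductBilin ℝ ℝ) u)) x

variable {x : κ → ℝ}

lemma HasJac.congr {Y : (κ → ℝ) → ι → ℝ} {M N : Matrix ι κ ℝ} (h : HasJac Y M x) (e : M = N) :
    HasJac Y N x := e ▸ h

lemma HasGrad.congr {f : (κ → ℝ) → ℝ} {u w : κ → ℝ} (h : HasGrad f u x) (e : u = w) :
    HasGrad f w x := e ▸ h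


lemma hasJac_id : HasJac (fun y => y) (1 : Matrix κ κ ℝ) x :=
  (hasFDerivAt_id x).congr_fderiv (by ext y i; simp)

lemma HasJac.add {Y Z : (κ → ℝ) → ι → ℝ} {M N : Matrix ι κ ℝ} (hY : HasJac Y M x)
    (hZ : HasJac Z N x) : HasJac (fun y => Y y + Z y) (M + N) x :=
  (HasFDerivAt.add hY hZ).congr_fderiv (by ext y i; simp [Matrix.add_mulVec])

lemma HasJac.sub {Y Z : (κ → ℝ) → ι → ℝ} {M N : Matrix ι κ ℝ} (hY : HasJac Y M x)
    (hZ : HasJac Z N x) : HasJac (fun y => Y y - Z y) (M - N) x :=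
  (HasFDerivAt.sub hY hZ).congr_fderiv (by ext y i; simp [Matrix.sub_mulVec])

lemma HasJac.const_smul {Y : (κ → ℝ) → ι → ℝ} {M : Matrix ι κ ℝ} (hY : HasJac Y M x) (c : ℝ) :
    HasJac (fun y => c • Y y) (c • M) x :=
  (HasFDerivAt.const_smul hY c).congr_fderiv (by ext y i; simp [Matrix.smul_mulVec])

lemma HasJac.mulVec [DecidableEq ι] {Y : (κ → ℝ) → ι → ℝ} {M : Matrix ι κ ℝ} (hY : HasJac Y M x)
    (A : Matrix τ ι ℝ) : HasJac (fun y => A *ᵥ Y y) (A * M) x :=
  (HasFDerivAt.comp x (mclm A).hasFDerivAt hY).congr_fderiv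
    (by ext y i; simp [Matrix.mulVec_mulVec])

lemma HasJac.comp [DecidableEq ι] {Z : (ι → ℝ) → τ → ℝ} {Y : (κ → ℝ) → ι → ℝ} {N : Matrix τ ι ℝ}
    {M : Matrix ι κ ℝ} (hZ : HasJac Z N (Y x)) (hY : HasJac Y M x) :
    HasJac (fun y => Z (Y y)) (N * M) x :=
  (HasFDerivAt.comp x hZ hY).congr_fderiv (by ext y i; simp [Matrix.mulVec_mulVec])

/-- coordinatewise maps have a diagonal Jacobian -/
lemma hasJac_coord {f : κ → ℝ → ℝ} {d : κ → ℝ} (h : ∀ i, HasDerivAt (f i) (d i) (x i)) :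
    HasJac (fun y i => f i (y i)) (diagonal d) x := by
  unfold HasJac
  rw [hasFDerivAt_pi']
  intro i
  have h1 := (h i).comp_hasFDerivAt x
    (ContinuousLinearMap.proj i : (κ → ℝ) →L[ℝ] ℝ).hasFDerivAt
  refine h1.congr_fderiv ?_
  ext y
  simp [Matrix.mulVec_diagonal]

lemma HasJac.dot {Y Z : (κ → ℝ) → ι → ℝ} {M N : Matrix ι κ ℝ} (hY : HasJac Y M x)
    (hZ : HasJac Z N x) : HasGrad (fun y => Y y ⬝ᵥ Z y) (Mᵀ *ᵥ Z x + Nᵀ *ᵥ Y x) x := by
  unfold HasJac at hY hZ
  rw [hasFDerivAt_pi'] at hY hZ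
  have h := HasFDerivAt.fun_sum (u := Finset.univ) fun i _ => (hY i).mul (hZ i)
  refine HasFDerivAt.congr_fderiv h ?_
  ext y
  simp only [FunLike.coe_sum, Finset.sum_apply, _root_.add_apply,
    FunLike.coe_smul, Pi.smul_apply, ContinuousLinearMap.coe_comp, Function.comp,
    ContinuousLinearMap.proj_apply, mclm_apply, smul_eq_mul, Finset.sum_add_distrib,
    LinearMap.coe_toContinuousLinearMap', dotProductBilin_apply_apply, add_dotProduct,
    Matrix.mulVec_transpose, ← Matrix.dotProduct_mulVec]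
  rw [add_comm]
  rfl

lemma HasGrad.comp {f : (κ → ℝ) → ℝ} {u : κ → ℝ} (hf : HasGrad f u x) {g : ℝ → ℝ} {g' : ℝ}
    (hg : HasDerivAt g g' (f x)) : HasGrad (fun y => g (f y)) (g' • u) x :=
  (hg.comp_hasFDerivAt x hf).congr_fderiv (by ext y; simp)

lemma HasGrad.smul {f : (κ → ℝ) → ℝ} {u : κ → ℝ} (hf : HasGrad f u x) {Y : (κ → ℝ) → ι → ℝ}
    {M : Matrix ι κ ℝ} (hY : HasJac Y M x) :
    HasJac (fun y => f y • Y y) (f x • M + vecMulVec (Y x) u) x := by
  refine (HasFDerivAt.fun_smul hf hY).congr_fderiv ?_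
  ext y i
  have : (vecMulVec (Y x) u *ᵥ y) i = Y x i * u ⬝ᵥ y := by
    simp only [Matrix.mulVec, dotProduct, vecMulVec_apply, Finset.mul_sum, mul_assoc]
  simp [Matrix.add_mulVec, Matrix.smul_mulVec, mul_comm, this]

end deriv

/-! ### area formula and Kac–Rice bound -/

variable [DecidableEq ι]

/-- **area formula** (inequality, no injectivity needed) -/
theorem area_le {Y : (ι → ℝ) → ι → ℝ} {D : (ι → ℝ) → Matrix ι ι ℝ} {S : Set (ι → ℝ)}
    (hS : MeasurableSet S) (hYm : Measurable Y) (hY : ∀ x ∈ S, HasJac Y (D x) x)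
    {φ : (ι → ℝ) → ℝ≥0∞} (hφ : Measurable φ) :
    ∫⁻ y in Y '' S, φ y ≤ ∫⁻ x in S, ENNReal.ofReal |(D x).det| * φ (Y x) := by
  have hd : AEMeasurable (fun x => ENNReal.ofReal |(D x).det|) (volume.restrict S) := by
    have := aemeasurable_ofReal_abs_det_fderivWithin volume hS
      (fun x hx => (hY x hx).hasFDerivWithinAt)
    simpa only [det_mclm] using this
  have hle : volume.restrict (Y '' S) ≤
      ((volume.restrict S).withDensity fun x => ENNReal.ofReal |(D x).det|).map Y := by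
    refine Measure.le_iff.2 fun T hT => ?_
    rw [Measure.restrict_apply hT, Measure.map_apply hYm hT, withDensity_apply _ (hYm hT),
      Measure.restrict_restrict (hYm hT), ← Set.image_preimage_inter]
    have := addHaar_image_le_lintegral_abs_det_fderiv volume ((hYm hT).inter hS)
      (f := Y) (f' := fun x => mclm (D x)) (fun x hx => (hY x hx.2).hasFDerivWithinAt)
    simpa only [det_mclm] using this
  refine (lintegral_mono' hle le_rfl).trans_eq ?_
  rw [lintegral_map hφ hYm]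
  exact lintegral_withDensity_eq_lintegral_mul₀ hd (hφ.comp hYm).aemeasurable

/-- existence of a solution of `Y x = c + √v g` in `S` -/
theorem exists_sol_le {Y : (ι → ℝ) → ι → ℝ} {D : (ι → ℝ) → Matrix ι ι ℝ} {S : Set (ι → ℝ)}
    (hS : MeasurableSet S) (hYm : Measurable Y) (hY : ∀ x ∈ S, HasJac Y (D x) x) {v : ℝ}
    (hv : 0 < v) (c : ι → ℝ) :
    gv ι {g | ∃ x ∈ S, Y x = c + Real.sqrt v • g} ≤
      ∫⁻ x in S, ENNReal.ofReal (|(D x).det| * phi v (Y x - c)) := by
  refine (gv_scale_le hv c (Y '' S)).trans ((area_le hS hYm hY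
    (φ := fun y => ENNReal.ofReal (phi v (y - c))) (by fun_prop)).trans_eq ?_)
  exact lintegral_congr fun x => (ENNReal.ofReal_mul (abs_nonneg _)).symm

/-- **Kac–Rice first-moment bound.**  `θ ∼ μ`, `g` standard Gaussian independent of `θ`. -/
theorem kacRice {Θ : Type*} [MeasurableSpace Θ] (μ : Measure Θ) [SFinite μ]
    {Y : Θ → (ι → ℝ) → ι → ℝ} {D : Θ → (ι → ℝ) → Matrix ι ι ℝ} {c : Θ → ι → ℝ}
    {B : Set (Θ × (ι → ℝ))} (hB : MeasurableSet B)
    (hYm : Measurable fun p : Θ × (ι → ℝ) => Y p.1 p.2)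
    (hDm : Measurable fun p : Θ × (ι → ℝ) => (D p.1 p.2).det) (hc : Measurable c)
    (hY : ∀ p ∈ B, HasJac (Y p.1) (D p.1 p.2) p.2) {v : ℝ} (hv : 0 < v)
    {E : Set (Θ × (ι → ℝ))} (hE : MeasurableSet E)
    (hEB : ∀ q ∈ E, ∃ x, (q.1, x) ∈ B ∧ Y q.1 x = c q.1 + Real.sqrt v • q.2) :
    (μ.prod (gv ι)) E ≤ ∫⁻ x, ∫⁻ θ, B.indicator
      (fun p => ENNReal.ofReal (|(D p.1 p.2).det| * phi v (Y p.1 p.2 - c p.1))) (θ, x) ∂μ := by
  have hm : Measurable (B.indicator fun p : Θ × (ι → ℝ) =>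
      ENNReal.ofReal (|(D p.1 p.2).det| * phi v (Y p.1 p.2 - c p.1))) :=
    Measurable.indicator (by fun_prop) hB
  rw [← lintegral_lintegral_swap (f := fun θ x => B.indicator
    (fun p => ENNReal.ofReal (|(D p.1 p.2).det| * phi v (Y p.1 p.2 - c p.1))) (θ, x))
    hm.aemeasurable, Measure.prod_apply hE]
  refine lintegral_mono fun θ => ?_
  have hS : MeasurableSet (Prod.mk θ ⁻¹' B) := measurable_prodMk_left hB
  have h := exists_sol_le (Y := Y θ) (D := D θ) hS (hYm.comp measurable_prodMk_left)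
    (fun x hx => hY (θ, x) hx) hv (c θ)
  refine (measure_mono fun g hg => ?_).trans (h.trans_eq ?_)
  · obtain ⟨x, hx1, hx2⟩ := hEB (θ, g) hg
    exact ⟨x, hx1, hx2⟩
  · rw [← lintegral_indicator hS]
    rfl

/-- projections of closed sets along a `σ`-compact factor are measurable -/
theorem measurableSet_exists {Θ X : Type*} [TopologicalSpace Θ] [MeasurableSpace Θ]
    [OpensMeasurableSpace Θ] [TopologicalSpace X] [SigmaCompactSpace X] {C : Set (Θ × X)}
    (hC : IsClosed C) : MeasurableSet {θ | ∃ x, (θ, x) ∈ C} := by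
  have : {θ | ∃ x, (θ, x) ∈ C} = ⋃ k, {θ | ∃ x ∈ compactCovering X k, (θ, x) ∈ C} := by
    ext θ
    simp only [Set.mem_ofPred_eq, Set.mem_iUnion]
    constructor
    · rintro ⟨x, hx⟩
      obtain ⟨k, hk⟩ := exists_mem_compactCovering x
      exact ⟨k, x, hk, hx⟩
    · rintro ⟨k, x, -, hx⟩
      exact ⟨x, hx⟩
  rw [this]
  refine MeasurableSet.iUnion fun k => IsClosed.measurableSet ?_
  have : CompactSpace (compactCovering X k) :=
    isCompact_iff_compactSpace.1 (isCompact_compactCovering X k)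
  have h2 := isClosedMap_fst_of_compactSpace (X := Θ) (Y := compactCovering X k)
    ((fun p : Θ × compactCovering X k => (p.1, (p.2 : X))) ⁻¹' C) (hC.preimage (by fun_prop))
  convert h2 using 1
  ext θ
  simp only [Set.mem_ofPred_eq, Set.mem_image, Set.mem_preimage]
  constructor
  · rintro ⟨x, hx, hx'⟩
    exact ⟨(θ, ⟨x, hx⟩), hx', rfl⟩
  · rintro ⟨⟨θ', x⟩, hx, rfl⟩
    exact ⟨x, x.2, hx⟩

/-- Kac–Rice bound for a closed bad set and continuous data -/
theorem kacRice_closed {Θ : Type*} [TopologicalSpace Θ] [SecondCountableTopology Θ]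
    [MeasurableSpace Θ] [BorelSpace Θ] (μ : Measure Θ) [SFinite μ]
    {Y : Θ → (ι → ℝ) → ι → ℝ} {D : Θ → (ι → ℝ) → Matrix ι ι ℝ} {c : Θ → ι → ℝ}
    {B : Set (Θ × (ι → ℝ))} (hB : IsClosed B)
    (hYc : Continuous fun p : Θ × (ι → ℝ) => Y p.1 p.2)
    (hDm : Measurable fun p : Θ × (ι → ℝ) => (D p.1 p.2).det) (hc : Continuous c)
    (hY : ∀ p ∈ B, HasJac (Y p.1) (D p.1 p.2) p.2) {v : ℝ} (hv : 0 < v) :
    MeasurableSet {q : Θ × (ι → ℝ) | ∃ x, (q.1, x) ∈ B ∧ Y q.1 x = c q.1 + Real.sqrt v • q.2} ∧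
    (μ.prod (gv ι)) {q | ∃ x, (q.1, x) ∈ B ∧ Y q.1 x = c q.1 + Real.sqrt v • q.2} ≤
      ∫⁻ x, ∫⁻ θ, B.indicator
        (fun p => ENNReal.ofReal (|(D p.1 p.2).det| * phi v (Y p.1 p.2 - c p.1))) (θ, x) ∂μ := by
  have hE : MeasurableSet
      {q : Θ × (ι → ℝ) | ∃ x, (q.1, x) ∈ B ∧ Y q.1 x = c q.1 + Real.sqrt v • q.2} := by
    refine measurableSet_exists (C := {r : (Θ × (ι → ℝ)) × (ι → ℝ) |
      (r.1.1, r.2) ∈ B ∧ Y r.1.1 r.2 = c r.1.1 + Real.sqrt v • r.1.2}) (IsClosed.inter ?_ ?_)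
    · exact hB.preimage (by fun_prop)
    · exact isClosed_eq (hYc.comp (f := fun r : (Θ × (ι → ℝ)) × (ι → ℝ) => (r.1.1, r.2))
        (by fun_prop)) (by fun_prop)
  exact ⟨hE, kacRice μ hB.measurableSet hYc.measurable hDm hc.measurable hY hv hE fun q hq => hq⟩

end Crest.Agent.T157.Kr

end
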