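import Crest.Agent.T157.StDef_87
import Crest.Agent.T157.EdBase_88
import Crest.Agent.T157.KrA_53
import Crest.Agent.T157.EdTri_62
import Crest.Agent.T157.PlA_37
import Crest.Agent.T157.PlC_37

-- ▼ part T157/StGood_84
section

/-!
# Row 157, part C4: the good spectral event and the renormalised tail sum (helper84)

`goodGlue : GoodGlue`.
-/

set_option autoImplicit false

noncomputable section

namespace Crest.Agent.T157.St

open MeasureTheory ProbabilityTheory Matrix Filter Topology Finset Real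
open scoped ENNReal
open Crest.Agent.T157.Eig Crest.Agent.T157.Cond Crest.Agent.T157.Ed

namespace Good84

/-- the renormalised Stieltjes transform of a sequence -/
def SS (n : ℕ) (η : ℕ → ℝ) (t : ℝ) (ζ : ℂ) : ℂ := ∑ k ∈ range n, 1 / (ζ + (η k : ℝ)) - (t : ℂ)
/-- the defect of the self-consistent equation -/
def PP (n : ℕ) (η : ℕ → ℝ) (t : ℝ) (ζ : ℂ) : ℂ := SS n η t ζ ^ 2 - ζ * (1 + SS n η t ζ / (t : ℂ))

variable {n : ℕ} {η : ℕ → ℝ} {t : ℝ} {ζ : ℂ}

lemma re_SS : (SS n η t ζ).re =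
    ∑ k ∈ range n, (ζ.re + η k) / ((ζ.re + η k) ^ 2 + ζ.im ^ 2) - t := by
  simp only [SS, Complex.sub_re, Complex.re_sum, one_div, Complex.inv_re, Complex.normSq_apply,
    Complex.add_re, Complex.add_im, Complex.ofReal_re, Complex.ofReal_im, add_zero, sq]

lemma im_SS : (SS n η t ζ).im = -∑ k ∈ range n, ζ.im / ((ζ.re + η k) ^ 2 + ζ.im ^ 2) := by
  simp only [SS, Complex.sub_im, Complex.im_sum, one_div, Complex.inv_im, Complex.normSq_apply,
    Complex.add_re, Complex.add_im, Complex.ofReal_re, Complex.ofReal_im, add_zero, sq, sub_zero,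
    neg_div, sum_neg_distrib]

lemma im_SS_nonpos (h : 0 ≤ ζ.im) : (SS n η t ζ).im ≤ 0 := by
  rw [im_SS]
  exact neg_nonpos.2 (sum_nonneg fun k _ => by positivity)

lemma sq_sub_eq : SS n η t ζ ^ 2 - ζ = PP n η t ζ + ζ * SS n η t ζ / t := by rw [PP]; ring

lemma norm_sq_sub_le (ht : 0 < t) :
    ‖SS n η t ζ ^ 2 - ζ‖ ≤ ‖PP n η t ζ‖ + ‖ζ‖ * ‖SS n η t ζ‖ / t := by
  rw [sq_sub_eq]
  refine (norm_add_le _ _).trans (le_of_eq ?_)
  rw [norm_div, norm_mul, Complex.norm_real, Real.norm_eq_abs, abs_of_pos ht]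

lemma norm_SS_sq_le (ht : 0 < t) (hζ : ‖ζ‖ ≤ t ^ 2) :
    ‖SS n η t ζ‖ ^ 2 ≤ 2 * ‖PP n η t ζ‖ + 3 * ‖ζ‖ := by
  have h1 := norm_sq_sub_le (n := n) (η := η) (ζ := ζ) ht
  have h2 := norm_sub_norm_le (SS n η t ζ ^ 2) ζ
  rw [norm_pow] at h2
  have h3 : (‖ζ‖ / t) ^ 2 ≤ ‖ζ‖ := by
    rw [div_pow, div_le_iff₀ (by positivity), sq]
    exact mul_le_mul_of_nonneg_left hζ (norm_nonneg _)
  rw [mul_div_right_comm] at h1
  nlinarith [sq_nonneg (‖ζ‖ / t - ‖SS n η t ζ‖)]

lemma root_le (ht : 0 < t) (h : 0 ≤ ζ.im) {r : ℂ} (hr : r ^ 2 = ζ) :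
    r.im * ‖SS n η t ζ + r‖ ≤ ‖PP n η t ζ‖ + ‖ζ‖ * ‖SS n η t ζ‖ / t := by
  refine le_trans ?_ (norm_sq_sub_le ht)
  rw [show SS n η t ζ ^ 2 - ζ = (r - SS n η t ζ) * -(SS n η t ζ + r) by rw [← hr]; ring, norm_mul,
    norm_neg]
  refine mul_le_mul_of_nonneg_right (le_trans ?_ (Complex.im_le_norm _)) (norm_nonneg _)
  rw [Complex.sub_im]
  linarith [im_SS_nonpos (n := n) (η := η) (t := t) h]

lemma Sr_anti {v v' : ℝ} (h0 : ∀ k < n, 0 < v + η k) (h : v ≤ v') : Sr n η t v' ≤ Sr n η t v :=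
  sub_le_sub_right (sum_le_sum fun k hk =>
    one_div_le_one_div_of_le (h0 k (mem_range.1 hk)) (by linarith)) t

lemma re_le_Sr (h0 : ∀ k < n, 0 < ζ.re + η k) : (SS n η t ζ).re ≤ Sr n η t ζ.re := by
  rw [re_SS, Sr]
  refine sub_le_sub_right (sum_le_sum fun k hk => ?_) t
  have := h0 k (mem_range.1 hk)
  rw [div_le_div_iff₀ (by positivity) this]
  nlinarith [sq_nonneg ζ.im]

lemma Sr_le_re {a : ℝ} (ha : 0 < a) (hi : 0 ≤ ζ.im) (h0 : ∀ k < n, a ≤ ζ.re + η k) :
    Sr n η t ζ.re ≤ (SS n η t ζ).re + ζ.im / a * -(SS n η t ζ).im := by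
  rw [re_SS, im_SS, Sr, neg_neg, mul_sum, sub_add_eq_add_sub, ← sum_add_distrib]
  refine sub_le_sub_right (sum_le_sum fun k hk => ?_) t
  have h1 := h0 k (mem_range.1 hk)
  have h2 : 0 < ζ.re + η k := by linarith
  have h3 : ζ.im / (ζ.re + η k) ≤ ζ.im / a := div_le_div_of_nonneg_left hi ha h1
  refine le_trans (le_of_eq ?_) (add_le_add_right (mul_le_mul_of_nonneg_right h3 (by positivity)) _)
  field_simp

/-- the diagonal point `v (1 + i)` -/
def zd (v : ℝ) : ℂ := ⟨v, v⟩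
/-- the point used for the upper bound -/
def zu (w : ℝ) : ℂ := ⟨w, 369 / 800 * w⟩

lemma norm_mk_le {a b : ℝ} (ha : 0 ≤ a) (hb : 0 ≤ b) : ‖(⟨a, b⟩ : ℂ)‖ ≤ a + b := by
  simpa [abs_of_nonneg ha, abs_of_nonneg hb] using Complex.norm_le_abs_re_add_abs_im ⟨a, b⟩

lemma dn_det (ht : 0 < t) {w : ℝ} (hw : 1 ≤ w) (h0 : ∀ k < n, 0 < w + η k)
    (hP : ∀ j : ℕ, 2 * (2 ^ j * w) ≤ t ^ 2 → ‖PP n η t (zd (2 ^ j * w))‖ ≤ 2 ^ j * w) {v : ℝ}
    (hv : w ≤ v) : -(5 * √v) ≤ Sr n η t v := by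
  have hv0 : 0 < v := by linarith
  have hs := Real.sq_sqrt hv0.le
  have hs0 := Real.sqrt_nonneg v
  by_cases h4 : 4 * v ≤ t ^ 2
  · obtain ⟨j, hj1, hj2⟩ := exists_nat_pow_near (x := v / w) (y := 2)
      ((one_le_div (by linarith)).2 hv) one_lt_two
    rw [le_div_iff₀ (by linarith)] at hj1
    rw [div_lt_iff₀ (by linarith)] at hj2
    set u := 2 ^ (j + 1) * w with hu
    have hu2 : u ≤ 2 * v := by rw [hu, pow_succ]; linarith
    have h1 := hP (j + 1) (by linarith)
    have h2 : ‖zd u‖ ≤ u + u := norm_mk_le (by linarith) (by linarith)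
    have h3 := norm_SS_sq_le (n := n) (η := η) (ζ := zd u) ht (by linarith)
    have h5 : ‖SS n η t (zd u)‖ ≤ 4 * √v :=
      (pow_le_pow_iff_left₀ (norm_nonneg _) (by positivity) two_ne_zero).1 (by nlinarith)
    have h6 := re_le_Sr (n := n) (η := η) (t := t) (ζ := zd u) fun k hk => by
      have := h0 k hk
      change 0 < u + η k
      linarith
    have h7 := Sr_anti (n := n) (η := η) (t := t) (v := v) (v' := u)
      (fun k hk => by linarith [h0 k hk]) hj2.le
    have h8 := (abs_le.1 (Complex.abs_re_le_norm (SS n η t (zd u)))).1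
    change (SS n η t (zd u)).re ≤ Sr n η t u at h6
    linarith
  · have h1 : t ≤ 2 * √v :=
      (pow_le_pow_iff_left₀ ht.le (by positivity) two_ne_zero).1 (by nlinarith)
    have h2 : 0 ≤ ∑ k ∈ range n, 1 / (v + η k) :=
      sum_nonneg fun k hk => one_div_nonneg.2 (by linarith [h0 k (mem_range.1 hk)])
    rw [Sr]
    linarith

lemma up_det {w : ℝ} (hw : 1 ≤ w) (ht : 600 * w ≤ t) (h0 : ∀ k < n, w / 2 ≤ w + η k)
    (hP : ‖PP n η t (zu w)‖ ≤ w / 100) : Sr n η t w ≤ -(√w / 2) := by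
  have hs := Real.sq_sqrt (show 0 ≤ w by linarith)
  have hs1 : 1 ≤ √w := Real.one_le_sqrt.2 hw
  set s := √w
  have hsw : s ≤ w := by nlinarith
  have ht0 : 0 < t := by linarith
  have h2 : ‖zu w‖ ≤ w + 369 / 800 * w := norm_mk_le (by linarith) (by linarith)
  have h3 := norm_SS_sq_le (n := n) (η := η) (ζ := zu w) ht0 (by nlinarith)
  have h5 : ‖SS n η t (zu w)‖ ≤ 3 * s :=
    (pow_le_pow_iff_left₀ (norm_nonneg _) (by positivity) two_ne_zero).1 (by nlinarith)
  have hi : (zu w).im = 369 / 800 * w := rfl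
  have h6 := root_le (n := n) (η := η) (ζ := zu w) ht0 (by rw [hi]; linarith)
    (r := ⟨41 / 40 * s, 9 / 40 * s⟩) (by
      rw [sq]
      refine Complex.ext ?_ ?_ <;> simp only [Complex.mul_re, Complex.mul_im, zu] <;> nlinarith)
  have h7 : ‖zu w‖ * ‖SS n η t (zu w)‖ / t ≤ w / 100 := by
    rw [div_le_iff₀ ht0]
    have := mul_le_mul h2 h5 (norm_nonneg _) (by linarith)
    nlinarith
  set δ := ‖SS n η t (zu w) + ⟨41 / 40 * s, 9 / 40 * s⟩‖ with hδ
  have h8 : δ ≤ s / 10 := by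
    refine le_of_mul_le_mul_left (a := 9 / 40 * s) (h6.trans ?_) (by linarith)
    nlinarith
  have h9 := (abs_le.1 (Complex.abs_re_le_norm (SS n η t (zu w) + ⟨41 / 40 * s, 9 / 40 * s⟩))).2
  have h10 := (abs_le.1 (Complex.abs_im_le_norm (SS n η t (zu w) + ⟨41 / 40 * s, 9 / 40 * s⟩))).1
  rw [← hδ] at h9 h10
  simp only [Complex.add_re, Complex.add_im] at h9 h10
  have h11 := Sr_le_re (n := n) (η := η) (t := t) (ζ := zu w) (a := w / 2) (by linarith)
    (by rw [hi]; linarith) h0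
  rw [hi, show 369 / 800 * w / (w / 2) = 369 / 400 by field_simp; norm_num] at h11
  change Sr n η t w ≤ _ at h11
  linarith

lemma tail_term {w L x a : ℝ} (ha : 1 ≤ a) (hw : 2 * |w| ≤ a) (hx : a ≤ x) :
    |1 / (w + x) - x / (x ^ 2 + L ^ 2)| ≤ 2 * (L ^ 2 + |w|) * (a ^ 2)⁻¹ := by
  have h1 := abs_le.1 (show |w| ≤ x / 2 by linarith)
  have hx1 : 1 ≤ x := ha.trans hx
  have h2 : 0 < w + x := by linarith [h1.1]
  have h3 : 0 < x ^ 2 + L ^ 2 := by positivity
  rw [div_sub_div _ _ h2.ne' h3.ne', abs_div, abs_of_pos (mul_pos h2 h3), ← div_eq_mul_inv,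
    div_le_div_iff₀ (mul_pos h2 h3) (by positivity),
    show 1 * (x ^ 2 + L ^ 2) - (w + x) * x = L ^ 2 - w * x by ring]
  have h4 : |L ^ 2 - w * x| ≤ (L ^ 2 + |w|) * x := by
    refine (abs_sub _ _).trans ?_
    rw [abs_mul, abs_of_nonneg (sq_nonneg L), abs_of_pos (show 0 < x by linarith)]
    nlinarith [sq_nonneg L]
  have h5 : x * a ^ 2 ≤ 2 * ((w + x) * (x ^ 2 + L ^ 2)) := by
    have b1 : a ^ 2 ≤ x ^ 2 + L ^ 2 := by nlinarith [sq_nonneg L]
    have b2 : x ≤ 2 * (w + x) := by linarith [h1.1]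
    nlinarith [mul_le_mul b2 b1 (sq_nonneg a) (by linarith)]
  have h6 := mul_le_mul_of_nonneg_left h5 (show 0 ≤ L ^ 2 + |w| by positivity)
  nlinarith [mul_le_mul_of_nonneg_right h4 (sq_nonneg a)]

lemma le_sq_of {L t : ℝ} (hL : 1 ≤ L) (ht : 5 * L ^ 2 ≤ t) : 0 + L ≤ t ^ 2 := by
  have h1 : L ≤ t := by nlinarith
  nlinarith

lemma ren_det {L w : ℝ} {K : ℕ} (hL : 1 ≤ L) (ht : 5 * L ^ 2 ≤ t) (hK : K ≤ n)
    (hP : ‖PP n η t ⟨0, L⟩‖ ≤ 1) :
    |t - ∑ k ∈ Ico K n, 1 / (w + η k) - ct L (fun k : Fin K => η k)| ≤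
      2 / √(L / 2) + ∑ k ∈ Ico K n, |1 / (w + η k) - η k / (η k ^ 2 + L ^ 2)| := by
  have hs := Real.sq_sqrt (show 0 ≤ L / 2 by linarith)
  have hs0 : 0 < √(L / 2) := Real.sqrt_pos.2 (by linarith)
  set s := √(L / 2) with hs'
  have ht0 : 0 < t := by nlinarith
  have h2 : ‖(⟨0, L⟩ : ℂ)‖ ≤ 0 + L := norm_mk_le le_rfl (by linarith)
  have h3 := norm_SS_sq_le (n := n) (η := η) (ζ := ⟨0, L⟩) ht0 (h2.trans (le_sq_of hL ht))
  have h5 : ‖SS n η t ⟨0, L⟩‖ ≤ 5 * L :=
    (pow_le_pow_iff_left₀ (norm_nonneg _) (by positivity) two_ne_zero).1 (by nlinarith)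
  have h6 := root_le (n := n) (η := η) (ζ := ⟨0, L⟩) ht0 (show 0 ≤ L by linarith)
    (r := ⟨s, s⟩) (by
      rw [sq]
      refine Complex.ext ?_ ?_ <;> simp only [Complex.mul_re, Complex.mul_im] <;> nlinarith)
  have h7 : ‖(⟨0, L⟩ : ℂ)‖ * ‖SS n η t ⟨0, L⟩‖ / t ≤ 1 := by
    rw [div_le_one ht0]
    have := mul_le_mul h2 h5 (norm_nonneg _) (by linarith)
    nlinarith
  have h8 : ‖SS n η t ⟨0, L⟩ + ⟨s, s⟩‖ ≤ 2 / s := by
    rw [le_div_iff₀ hs0, mul_comm]
    exact h6.trans (by linarith)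
  have h9 := (Complex.abs_re_le_norm (SS n η t ⟨0, L⟩ + ⟨s, s⟩)).trans h8
  rw [Complex.add_re, re_SS] at h9
  simp only [zero_add] at h9
  have e : t - ∑ k ∈ Ico K n, 1 / (w + η k) - ct L (fun k : Fin K => η k) =
      -((∑ k ∈ range n, η k / (η k ^ 2 + L ^ 2) - t + s) +
        ∑ k ∈ Ico K n, (1 / (w + η k) - η k / (η k ^ 2 + L ^ 2))) := by
    rw [ct, ← hs', ← sum_range fun k => η k / (η k ^ 2 + L ^ 2), sum_sub_distrib,
      ← sum_range_add_sum_Ico _ hK]
    ring
  rw [e, abs_neg]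
  exact (abs_add_le _ _).trans (add_le_add h9 (abs_sum_le_sum_abs _ _))

/-! ### probability -/

lemma markovP (h : SteinStmt) : ∃ C : ℝ, 0 < C ∧ ∀ n : ℕ, 1 ≤ n → ∀ ζ : ℂ, 1 ≤ ζ.im →
    ‖ζ‖ ≤ tau n → ∀ a : ℝ, 0 < a →
      (GOE n).real {W | a < ‖PP n (Lam n W) (sx n ^ 2) ζ‖} ≤ C * ‖ζ‖ / (ζ.im ^ 2 * a ^ 2) := by
  obtain ⟨C, hC⟩ := h
  refine ⟨max C 1, lt_max_of_lt_right one_pos, fun n hn ζ hi hζ a ha => ?_⟩
  have hm : Measurable fun W : Mat n => SS n (Lam n W) (sx n ^ 2) ζ :=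
    (Finset.measurable_sum _ fun k _ => measurable_const.div (measurable_const.add
      (Complex.measurable_ofReal.comp (measurable_Lam n k)))).sub measurable_const
  have hb : ∀ W : Mat n, ‖SS n (Lam n W) (sx n ^ 2) ζ‖ ≤ n + ‖((sx n ^ 2 : ℝ) : ℂ)‖ := fun W => by
    refine (norm_sub_le _ _).trans (add_le_add_left ((norm_sum_le _ _).trans ?_) _)
    refine (sum_le_card_nsmul _ _ 1 fun k _ => ?_).trans (by simp)
    rw [norm_div, norm_one]
    refine div_le_one_of_le₀ (le_trans ?_ (Complex.im_le_norm _)) (norm_nonneg _)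
    simpa using hi
  have hm2 : Measurable fun W : Mat n => ‖PP n (Lam n W) (sx n ^ 2) ζ‖ ^ 2 :=
    ((hm.pow_const 2).sub (measurable_const.mul (measurable_const.add
      (hm.div_const _)))).norm.pow_const 2
  set B := (n : ℝ) + ‖((sx n ^ 2 : ℝ) : ℂ)‖
  have hint : Integrable (fun W : Mat n => ‖PP n (Lam n W) (sx n ^ 2) ζ‖ ^ 2) (GOE n) := by
    refine Integrable.of_bound hm2.aestronglyMeasurable
      ((B ^ 2 + ‖ζ‖ * (1 + B / ‖((sx n ^ 2 : ℝ) : ℂ)‖)) ^ 2) (ae_of_all _ fun W => ?_)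
    rw [Real.norm_eq_abs, abs_of_nonneg (sq_nonneg _)]
    refine pow_le_pow_left₀ (norm_nonneg _) ((norm_sub_le _ _).trans (add_le_add ?_ ?_)) 2
    · rw [norm_pow]; exact pow_le_pow_left₀ (norm_nonneg _) (hb W) 2
    · rw [norm_mul]
      refine mul_le_mul_of_nonneg_left ((norm_add_le _ _).trans ?_) (norm_nonneg _)
      rw [norm_one, norm_div]
      exact add_le_add_right (div_le_div_of_nonneg_right (hb W) (norm_nonneg _)) _
  have h1 := mul_meas_ge_le_integral_of_nonneg (ae_of_all _ fun W => sq_nonneg _) hint (a ^ 2)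
  have h2 : (GOE n).real {W | a < ‖PP n (Lam n W) (sx n ^ 2) ζ‖} ≤
      (GOE n).real {W | a ^ 2 ≤ ‖PP n (Lam n W) (sx n ^ 2) ζ‖ ^ 2} :=
    measureReal_mono (fun W hW => pow_le_pow_left₀ ha.le (le_of_lt hW) 2) (measure_ne_top _ _)
  rw [← div_div, le_div_iff₀ (by positivity), mul_comm]
  refine (mul_le_mul_of_nonneg_left h2 (sq_nonneg a)).trans (h1.trans ((hC n hn ζ hi hζ).trans ?_))
  exact div_le_div_of_nonneg_right (mul_le_mul_of_nonneg_right (le_max_left _ _) (norm_nonneg _))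
    (sq_nonneg _)

lemma kap_tail (h : EdgeTStmt) {ε : ℝ} (hε : 0 < ε) : ∃ L : ℝ, 0 ≤ L ∧ ∀ᶠ n in atTop,
    (GOE n).real {W | L < kapL n (lam W)} ≤ ε := by
  obtain ⟨C, hC⟩ := h 1 zero_le_one
  refine ⟨|C| / ε, by positivity, hC.mono fun n hn => ?_⟩
  have hm : Measurable fun W : Mat n => ENNReal.ofReal (exp (1 * kapL n (lam W))) :=
    (((measurable_kapL n).comp measurable_lam).const_mul 1).exp.ennreal_ofReal
  have h1 := (mul_meas_ge_le_lintegral₀ hm.aemeasurable (ENNReal.ofReal (exp (|C| / ε)))).trans hn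
  have h2 : GOE n {W | |C| / ε < kapL n (lam W)} ≤ GOE n {W | ENNReal.ofReal (exp (|C| / ε)) ≤
      ENNReal.ofReal (exp (1 * kapL n (lam W)))} := measure_mono fun W hW =>
    ENNReal.ofReal_le_ofReal (exp_le_exp.2 (by rw [one_mul]; exact le_of_lt hW))
  have h3 := ENNReal.toReal_mono ENNReal.ofReal_ne_top ((mul_le_mul_right h2 _).trans
    (h1.trans (ENNReal.ofReal_le_ofReal (le_abs_self C))))
  rw [ENNReal.toReal_mul, ENNReal.toReal_ofReal (exp_pos _).le,
    ENNReal.toReal_ofReal (abs_nonneg C)] at h3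
  have h4 := add_one_le_exp (|C| / ε)
  refine le_of_mul_le_mul_left (h3.trans ?_) (exp_pos _)
  have := mul_le_mul_of_nonneg_right h4 hε.le
  rw [add_mul, div_mul_cancel₀ _ hε.ne'] at this
  linarith

lemma lo_hi {W : Mat n} {L : ℝ} (h : kapL n (lam W) ≤ L) {k : ℕ} (hk : k < n) :
    ((k : ℝ) + 1) ^ (2 / 3 : ℝ) / 256 - L ≤ Lam n W k ∧
      (8 * (k + 1) ≤ n → Lam n W k ≤ 60 * ((k : ℝ) + 1) ^ (2 / 3 : ℝ) + L) := by
  have := (le_ciSup (f := fun k : Fin n => max ((((k : ℕ) : ℝ) + 1) ^ (2 / 3 : ℝ) / 256 -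
      tau n * (2 - lam W k)) (if 8 * ((k : ℕ) + 1) ≤ n then tau n * (2 - lam W k) -
        60 * (((k : ℕ) : ℝ) + 1) ^ (2 / 3 : ℝ) else 0)) (Finite.bddAbove_range _) ⟨k, hk⟩).trans h
  rw [max_le_iff] at this
  refine ⟨by rw [Lam]; linarith [this.1], fun h8 => ?_⟩
  have h2 := this.2
  rw [if_pos h8] at h2
  rw [Lam]
  linarith

lemma tau_eq_sq (n : ℕ) : tau n = (sx n ^ 2) ^ 2 := by rw [tau_eq]; ring

lemma tendsto_t : Tendsto (fun n => sx n ^ 2) atTop atTop :=
  (tendsto_pow_atTop two_ne_zero).comp tendsto_sx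

lemma ofReal_le {μ : Measure (Mat n)} [IsProbabilityMeasure μ] {s : Set (Mat n)} {ε : ℝ}
    (h : μ.real s ≤ ε) : μ s ≤ ENNReal.ofReal ε := by
  rw [← ofReal_measureReal (measure_ne_top _ _)]
  exact ENNReal.ofReal_le_ofReal h

theorem good (hS : SteinStmt) (hE : EdgeTStmt) : GoodStmt := by
  obtain ⟨C, hC0, hC⟩ := markovP hS
  refine ⟨5, by norm_num, fun ε hε => ?_⟩
  obtain ⟨L, hL0, hL⟩ := kap_tail hE (show 0 < ε / 3 by positivity)
  refine ⟨L, max (max 3 (2 * L)) (300000 * C / ε), hL0, fun w hw => ?_⟩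
  have hw3 : 3 ≤ w := ((le_max_left _ _).trans (le_max_left _ _)).trans hw
  have hwL : 2 * L ≤ w := ((le_max_right _ _).trans (le_max_left _ _)).trans hw
  have hwC : 300000 * C ≤ w * ε := (div_le_iff₀ hε).1 ((le_max_right _ _).trans hw)
  filter_upwards [hL, tendsto_t.eventually_ge_atTop (600 * w), eventually_ge_atTop 1]
    with n h1 ht hn
  refine ofReal_le ?_
  set t := sx n ^ 2 with htd
  have hτ : tau n = t ^ 2 := tau_eq_sq n
  set B : ℕ → Set (Mat n) := fun j => {W | 2 * (2 ^ j * w) ≤ t ^ 2 ∧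
    2 ^ j * w < ‖PP n (Lam n W) t (zd (2 ^ j * w))‖} with hB
  have h2 : (GOE n).real {W | w / 100 < ‖PP n (Lam n W) t (zu w)‖} ≤ ε / 3 := by
    have a1 : ‖zu w‖ ≤ w + 369 / 800 * w := norm_mk_le (by linarith) (by linarith)
    have hi : (zu w).im = 369 / 800 * w := rfl
    refine (hC n hn (zu w) (by rw [hi]; linarith) (by rw [hτ]; nlinarith) _ (by linarith)).trans ?_
    rw [hi, div_le_iff₀ (by positivity)]
    have a2 := mul_le_mul_of_nonneg_left a1 hC0.le
    have a3 : w * (w * ε) * 9 ≤ w * (w * ε) * w ^ 2 :=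
      mul_le_mul_of_nonneg_left (by nlinarith) (by positivity)
    nlinarith [mul_le_mul_of_nonneg_left hwC (show 0 ≤ w by linarith)]
  have h3 : ∀ j ∈ range n, (GOE n).real (B j) ≤ ε / 6 * (1 / 2) ^ j := fun j _ => by
    by_cases hj : 2 * (2 ^ j * w) ≤ t ^ 2
    · have a0 : (1 : ℝ) ≤ 2 ^ j := one_le_pow₀ one_le_two
      set u := 2 ^ j * w with hu
      have a1 : 3 ≤ u := by nlinarith
      have a2 : ‖zd u‖ ≤ u + u := norm_mk_le (by linarith) (by linarith)
      have hi : (zd u).im = u := rfl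
      refine (measureReal_mono (fun W hW => hW.2) (measure_ne_top _ _)).trans
        ((hC n hn (zd u) (by rw [hi]; linarith) (by rw [hτ]; linarith) u (by linarith)).trans ?_)
      rw [hi, one_div, inv_pow, ← div_eq_mul_inv, div_le_div_iff₀ (by positivity) (by positivity)]
      have a3 := mul_le_mul_of_nonneg_right (mul_le_mul_of_nonneg_left a2 hC0.le)
        (show (0 : ℝ) ≤ 2 ^ j by positivity)
      have a4 : 300000 * C * 2 ^ j ≤ u * ε := by
        have := mul_le_mul_of_nonneg_right hwC (show (0 : ℝ) ≤ 2 ^ j by positivity)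
        rw [hu]; linarith
      have a5 : u * (u * ε) * 1 ≤ u * (u * ε) * u ^ 2 :=
        mul_le_mul_of_nonneg_left (by nlinarith) (by positivity)
      have a6 := mul_le_mul_of_nonneg_left a4 (show 0 ≤ u by linarith)
      have a7 : 0 ≤ u * (C * 2 ^ j) := by positivity
      nlinarith
    · simp only [hB, hj, false_and, Set.ofPred_false, measureReal_empty]
      positivity
  have h4 : (GOE n).real (⋃ j ∈ range n, B j) ≤ ε / 3 := by
    refine (measureReal_biUnion_finset_le _ _).trans ((sum_le_sum h3).trans ?_)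
    rw [← mul_sum]
    nlinarith [sum_geometric_two_le n]
  have h5 : (GOE n).real {W | ¬ (W.IsHermitian ∧ Gd n (Lam n W) t L w 5)} ≤ (GOE n).real
      (({W | L < kapL n (lam W)} ∪ {W | w / 100 < ‖PP n (Lam n W) t (zu w)‖}) ∪
        ⋃ j ∈ range n, B j) := by
    refine ENNReal.toReal_mono (measure_ne_top _ _) (measure_mono_ae ?_)
    filter_upwards [goe_ae_herm n] with W hW hb
    by_contra hc
    change W ∉ ({W | L < kapL n (lam W)} ∪ {W | w / 100 < ‖PP n (Lam n W) t (zu w)‖}) ∪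
      ⋃ j ∈ range n, B j at hc
    simp only [Set.mem_union, Set.mem_ofPred_eq, not_or, not_lt, Set.mem_iUnion, not_exists, hB,
      not_and, mem_range] at hc
    obtain ⟨⟨c1, c2⟩, c3⟩ := hc
    have hlo : ∀ k < n, w / 2 ≤ w + Lam n W k := fun k hk => by
      have := (lo_hi c1 hk).1
      have : 0 ≤ ((k : ℝ) + 1) ^ (2 / 3 : ℝ) / 256 := by positivity
      linarith
    refine hb ⟨hW, fun k l hkl hl => ?_, fun k hk => (lo_hi c1 hk).1,
      fun k hk => (lo_hi c1 (by omega)).2 hk, up_det (by linarith) ht hlo c2, fun v hv =>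
      dn_det (by linarith) (by linarith) (fun k hk => by linarith [hlo k hk]) (fun j hj => ?_) hv⟩
    · exact mul_le_mul_of_nonneg_left
        (by linarith [lam_anti hW hkl (by simpa using hl)]) (tau_nonneg n)
    · refine c3 j ?_ hj
      have a1 : t ^ 2 ≤ n := by
        rw [← sx_pow_six, htd, ← pow_mul]
        exact pow_le_pow_right₀ (one_le_sx hn) (by norm_num)
      have a2 : (j : ℝ) < 2 ^ j := by exact_mod_cast Nat.lt_two_pow_self
      have a3 : (0 : ℝ) < 2 ^ j := by positivity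
      exact_mod_cast (show (j : ℝ) < n by nlinarith)
  have h6 := measureReal_union_le (μ := GOE n) ({W | L < kapL n (lam W)} ∪
    {W | w / 100 < ‖PP n (Lam n W) t (zu w)‖}) (⋃ j ∈ range n, B j)
  have h7 := measureReal_union_le (μ := GOE n) {W | L < kapL n (lam W)}
    {W | w / 100 < ‖PP n (Lam n W) t (zu w)‖}
  linarith

lemma tail_small {δ : ℝ} (hδ : 0 < δ) : ∀ᶠ K : ℕ in atTop, ∀ n : ℕ,
    ∑ k ∈ Ico K n, ((((k : ℝ) + 1) ^ (2 / 3 : ℝ) / 512) ^ 2)⁻¹ ≤ δ := by
  set f : ℕ → ℝ := fun k => ((((k : ℝ) + 1) ^ (2 / 3 : ℝ) / 512) ^ 2)⁻¹ with hf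
  have hs : Summable f := by
    have := ((summable_nat_add_iff 1).2
      (Real.summable_nat_rpow_inv.2 (show (1 : ℝ) < 4 / 3 by norm_num))).mul_left (512 ^ 2)
    refine this.congr fun k => ?_
    rw [hf]
    simp only
    rw [div_pow, ← Real.rpow_natCast (_ ^ _) 2, ← Real.rpow_mul (by positivity), inv_div,
      div_eq_mul_inv (512 ^ 2)]
    norm_num
  filter_upwards [hs.hasSum.tendsto_sum_nat.eventually_const_le
    (show ∑' k, f k - δ < ∑' k, f k by linarith)] with K hK n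
  rcases le_total K n with h | h
  · have := hs.sum_le_tsum (range n) fun k _ => by simp only [hf]; positivity
    rw [← sum_range_add_sum_Ico _ h] at this
    linarith
  · rw [Ico_eq_empty_of_le h, sum_empty]; exact hδ.le

theorem ren (hS : SteinStmt) (hE : EdgeTStmt) : RenStmt := by
  obtain ⟨C, hC0, hC⟩ := markovP hS
  intro w ε hε
  obtain ⟨L0, hL0, hL⟩ := kap_tail hE (half_pos hε)
  set L := max (max 1 (32 / ε ^ 2)) (2 * C / ε) with hLd
  have hL1 : 1 ≤ L := (le_max_left _ _).trans (le_max_left _ _)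
  have hL2 : 32 ≤ L * ε ^ 2 :=
    (div_le_iff₀ (by positivity)).1 ((le_max_right _ _).trans (le_max_left _ _))
  have hL3 : 2 * C ≤ L * ε := (div_le_iff₀ hε).1 (le_max_right _ _)
  refine ⟨L, by linarith, ?_⟩
  have hA : Tendsto (fun k : ℕ => ((k : ℝ) + 1) ^ (2 / 3 : ℝ) / 512) atTop atTop :=
    ((tendsto_rpow_atTop (by norm_num)).comp
      (tendsto_atTop_add_const_right _ 1 tendsto_natCast_atTop_atTop)).atTop_div_const (by norm_num)
  have hD : 0 < 2 * (L ^ 2 + |w|) := by positivity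
  filter_upwards [tail_small (δ := ε / 2 / (2 * (L ^ 2 + |w|))) (by positivity),
    eventually_forall_ge_atTop.2 (hA.eventually_ge_atTop (max (max 1 (2 * |w|)) L0))] with K hK1 hK2
  filter_upwards [hL, tendsto_t.eventually_ge_atTop (5 * L ^ 2), eventually_ge_atTop 1,
    eventually_ge_atTop K] with n h1 ht hn hKn
  refine ofReal_le ?_
  set t := sx n ^ 2 with htd
  have hτ : tau n = t ^ 2 := tau_eq_sq n
  have h2 : (GOE n).real {W | 1 < ‖PP n (Lam n W) t ⟨0, L⟩‖} ≤ ε / 2 := by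
    have a1 : ‖(⟨0, L⟩ : ℂ)‖ ≤ 0 + L := norm_mk_le le_rfl (by linarith)
    refine (hC n hn ⟨0, L⟩ hL1 (by rw [hτ]; exact a1.trans (le_sq_of hL1 ht)) 1 one_pos).trans ?_
    rw [div_le_iff₀ (by positivity)]
    have a2 := mul_le_mul_of_nonneg_left a1 hC0.le
    nlinarith [mul_le_mul_of_nonneg_left hL3 (show 0 ≤ L by linarith)]
  refine (measureReal_mono (s₂ := {W | L0 < kapL n (lam W)} ∪ {W | 1 < ‖PP n (Lam n W) t ⟨0, L⟩‖})
    (fun W hW => ?_) (measure_ne_top _ _)).trans ((measureReal_union_le _ _).trans (by linarith))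
  by_contra hc
  simp only [Set.mem_union, Set.mem_ofPred_eq, not_or, not_lt] at hc
  have h3 := ren_det (η := Lam n W) (w := w) hL1 ht hKn hc.2
  have h4 : 2 / √(L / 2) ≤ ε / 2 := by
    have hs0 : 0 < √(L / 2) := Real.sqrt_pos.2 (by linarith)
    have hs := Real.sq_sqrt (show 0 ≤ L / 2 by linarith)
    have : 4 ≤ √(L / 2) * ε :=
      (pow_le_pow_iff_left₀ (by norm_num) (by positivity) two_ne_zero).1 (by rw [mul_pow, hs]; linarith)
    rw [div_le_iff₀ hs0]
    linarith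
  have h5 : ∑ k ∈ Ico K n, |1 / (w + Lam n W k) - Lam n W k / (Lam n W k ^ 2 + L ^ 2)| ≤ ε / 2 := by
    refine (sum_le_sum (s := Ico K n) fun k hk => tail_term (w := w) (L := L) (x := Lam n W k)
      (a := ((k : ℝ) + 1) ^ (2 / 3 : ℝ) / 512) ?_ ?_ ?_).trans ?_
    · exact ((le_max_left _ _).trans (le_max_left _ _)).trans (hK2 k (mem_Ico.1 hk).1)
    · exact ((le_max_right _ _).trans (le_max_left _ _)).trans (hK2 k (mem_Ico.1 hk).1)
    · linarith [(lo_hi hc.1 (mem_Ico.1 hk).2).1, (le_max_right _ _).trans (hK2 k (mem_Ico.1 hk).1)]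
    · rw [← mul_sum, mul_comm, ← le_div_iff₀ hD]
      exact hK1 n
  exact absurd (h3.trans (add_le_add h4 h5)) (not_le.2 (by rw [add_halves]; exact hW))

end Good84

theorem goodGlue : GoodGlue := fun hS hE => ⟨Good84.good hS hE, Good84.ren hS hE⟩

end Crest.Agent.T157.St

end
end

-- ▼ part T157/StLam_43
section

/-!
# Row 157, part C4 (helper43): moments of one coordinate on the sphere, `LamGlue`
-/

set_option autoImplicit false
set_option linter.unusedSectionVars false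

noncomputable section

namespace Crest.Agent.T157.St

open MeasureTheory ProbabilityTheory Matrix Filter Topology Real Set
open scoped ENNReal Nat
open Crest.Agent.T157.E Crest.Agent.T157.Cond Crest.Agent.T157.Ed

namespace Lam43

/-- radial Gaussian integrals -/
def Ir (m : ℕ) : ℝ := ∫ r in Ioi (0 : ℝ), r ^ m * exp (-(1 / 2) * r ^ 2)

lemma Ir_eq (m : ℕ) :
    Ir m = (1 / 2 : ℝ) ^ (-((m : ℝ) + 1) / 2) * (1 / 2) * Gamma (((m : ℝ) + 1) / 2) := by
  have hm : (-1 : ℝ) < m := by have : (0 : ℝ) ≤ m := Nat.cast_nonneg m; linarith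
  rw [← integral_rpow_mul_exp_neg_mul_rpow two_pos hm one_half_pos]
  simp only [Ir, rpow_natCast, rpow_two]

lemma Ir_pos (m : ℕ) : 0 < Ir m := by
  rw [Ir_eq]
  have := Gamma_pos_of_pos (show 0 < ((m : ℝ) + 1) / 2 by positivity)
  positivity

lemma Ir_rec (m : ℕ) : Ir (m + 2) = (m + 1) * Ir m := by
  rw [Ir_eq, Ir_eq]
  push_cast
  rw [show ((m : ℝ) + 2 + 1) / 2 = (m + 1) / 2 + 1 by ring, Gamma_add_one (by positivity),
    show -((m : ℝ) + 2 + 1) / 2 = -(m + 1) / 2 - 1 by ring, rpow_sub_one (by norm_num)]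
  ring

lemma lint_Ir (m : ℕ) :
    ∫⁻ r in Ioi (0 : ℝ), ENNReal.ofReal (r ^ m * exp (-(1 / 2) * r ^ 2)) = ENNReal.ofReal (Ir m) := by
  have hm : (-1 : ℝ) < m := by have : (0 : ℝ) ≤ m := Nat.cast_nonneg m; linarith
  have hi := integrableOn_rpow_mul_exp_neg_mul_sq one_half_pos hm
  simp only [rpow_natCast] at hi
  rw [Ir, ofReal_integral_eq_lintegral_ofReal hi]
  filter_upwards [ae_restrict_mem measurableSet_Ioi] with r hr
  exact mul_nonneg (pow_nonneg (le_of_lt hr) _) (exp_pos _).le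

section
variable {ι : Type} [Fintype ι] [DecidableEq ι] [Nonempty ι]

/-- even moments of a coordinate on the unit sphere -/
def mo (i : ι) (j : ℕ) : ℝ := ∫ x, x i ^ (2 * j) ∂sphR ι 1

lemma sq_le (hS : SphStmt) (i : ι) : ∀ᵐ x ∂sphR ι 1, x i ^ 2 ≤ 1 := by
  filter_upwards [((hS ι).1 1).2.1] with x hx
  rw [one_pow] at hx
  rw [← hx, sq]
  exact Finset.single_le_sum (f := fun k => x k * x k) (fun k _ => mul_self_nonneg _)
    (Finset.mem_univ i)

lemma int_pow (hS : SphStmt) (i : ι) (j : ℕ) :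
    Integrable (fun x : ι → ℝ => x i ^ (2 * j)) (sphR ι 1) := by
  have := ((hS ι).1 1).1
  refine Integrable.of_bound (by fun_prop : Measurable _).aestronglyMeasurable 1 ?_
  filter_upwards [sq_le hS i] with x hx
  rw [pow_mul, Real.norm_of_nonneg (by positivity)]
  exact pow_le_one₀ (sq_nonneg _) hx

lemma mo_nonneg (i : ι) (j : ℕ) : 0 ≤ mo i j :=
  integral_nonneg fun x => by rw [pow_mul]; positivity

lemma polar (hS : SphStmt) : ∃ c : ℝ, 0 < c ∧ ∀ (i : ι) (j : ℕ),
    ∫⁻ t, ENNReal.ofReal (t ^ (2 * j)) ∂gaussianReal 0 1 =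
      ENNReal.ofReal (c * Ir (Fintype.card ι - 1 + 2 * j) * mo i j) := by
  obtain ⟨κ, hκ, hF⟩ := (hS ι).2
  set c0 : ℝ := ((√(2 * π * 1))⁻¹) ^ Fintype.card ι with hc0
  have c0p : 0 < c0 := by rw [hc0]; positivity
  refine ⟨κ * c0, by positivity, fun i j => ?_⟩
  have hm : Measurable fun t : ℝ => ENNReal.ofReal (t ^ (2 * j)) := by fun_prop
  rw [← (measurePreserving_eval (fun _ : ι => gaussianReal 0 1) i).lintegral_comp hm]
  erw [Kr.lintegral_gv (by fun_prop), hF _ (by fun_prop)]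
  have e1 : ∀ r ∈ Ioi (0 : ℝ), ENNReal.ofReal (κ * r ^ (Fintype.card ι - 1)) *
      ∫⁻ x, ENNReal.ofReal (Kr.phi 1 (r • x)) *
        ENNReal.ofReal (Function.eval i (r • x) ^ (2 * j)) ∂sphR ι 1 =
      ENNReal.ofReal (κ * c0 * mo i j) *
        ENNReal.ofReal (r ^ (Fintype.card ι - 1 + 2 * j) * exp (-(1 / 2) * r ^ 2)) := by
    intro r hr
    have hr' : 0 < r := hr
    have e2 : ∫⁻ x, ENNReal.ofReal (Kr.phi 1 (r • x)) *
        ENNReal.ofReal (Function.eval i (r • x) ^ (2 * j)) ∂sphR ι 1 =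
        ∫⁻ x, ENNReal.ofReal (c0 * exp (-(1 / 2) * r ^ 2) * r ^ (2 * j)) *
          ENNReal.ofReal (x i ^ (2 * j)) ∂sphR ι 1 := by
      refine lintegral_congr_ae ?_
      filter_upwards [((hS ι).1 1).2.1] with x hx
      rw [← ENNReal.ofReal_mul (Kr.phi_nonneg _ _), ← ENNReal.ofReal_mul (by positivity), Kr.phi,
        smul_dotProduct, dotProduct_smul, hx]
      simp only [Function.eval, Pi.smul_apply, smul_eq_mul, mul_pow]
      rw [show -(r * (r * 1 ^ 2)) / (2 * 1) = -(1 / 2) * r ^ 2 by ring]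
      congr 1
      ring
    have := mo_nonneg i j
    rw [e2, lintegral_const_mul _ (by fun_prop), ← ofReal_integral_eq_lintegral_ofReal
      (int_pow hS i j) (ae_of_all _ fun x => (even_two_mul j).pow_nonneg _),
      ← ENNReal.ofReal_mul (by positivity), ← ENNReal.ofReal_mul (by positivity),
      ← ENNReal.ofReal_mul (by positivity), mo]
    congr 1
    ring
  have := mo_nonneg i j
  rw [setLIntegral_congr_fun measurableSet_Ioi e1, lintegral_const_mul _ (by fun_prop), lint_Ir,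
    ← ENNReal.ofReal_mul (by positivity)]
  congr 1
  ring

/-- the moment recursion -/
lemma mo_rec (hS : SphStmt) (i : ι) (j : ℕ) :
    (Fintype.card ι + 2 * j) * mo i (j + 1) = (2 * j + 1) * mo i j := by
  obtain ⟨c, hc, h⟩ := polar (ι := ι) hS
  obtain ⟨c1, hc1, h1⟩ := polar (ι := Unit) hS
  have hu : ∀ j, mo () j = 1 := fun j => by
    have := ((hS Unit).1 1).1
    have e : ∀ᵐ x ∂sphR Unit 1, x () ^ (2 * j) = 1 := by
      filter_upwards [((hS Unit).1 1).2.1] with x hx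
      simp only [dotProduct, Finset.univ_unique, Finset.sum_singleton, one_pow] at hx
      rw [pow_mul, sq, hx, one_pow]
    rw [mo, integral_congr_ae e]
    simp
  have key : ∀ j, c * Ir (Fintype.card ι - 1 + 2 * j) * mo i j = c1 * Ir (2 * j) := fun j => by
    have e := (h i j).symm.trans (h1 () j)
    have p1 := mo_nonneg i j
    have p2 := Ir_pos (Fintype.card ι - 1 + 2 * j)
    have p3 := Ir_pos (2 * j)
    rw [hu, Fintype.card_unit, Nat.sub_self, zero_add, mul_one] at e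
    exact (ENNReal.ofReal_eq_ofReal_iff (by positivity) (by positivity)).1 e
  have k0 := key j
  have k1 := key (j + 1)
  rw [show Fintype.card ι - 1 + 2 * (j + 1) = Fintype.card ι - 1 + 2 * j + 2 by ring,
    show 2 * (j + 1) = 2 * j + 2 by ring, Ir_rec, Ir_rec] at k1
  have e : ((Fintype.card ι - 1 + 2 * j : ℕ) : ℝ) + 1 = Fintype.card ι + 2 * j := by
    have : 1 ≤ Fintype.card ι := Fintype.card_pos
    push_cast [Nat.cast_sub this]
    ring
  rw [e] at k1
  push_cast at k1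
  have p2 := Ir_pos (Fintype.card ι - 1 + 2 * j)
  refine mul_left_cancel₀ (mul_pos hc p2).ne' ?_
  linear_combination k1 - (2 * j + 1) * k0

lemma mo_ge (hS : SphStmt) (i : ι) (j : ℕ) :
    (1 / (2 * Fintype.card ι : ℝ)) ^ j / j ! * exp (-(j * (j - 1) / Fintype.card ι : ℝ)) ≤
      mo i j / (2 * j)! := by
  have hn : (0 : ℝ) < Fintype.card ι := Nat.cast_pos.2 Fintype.card_pos
  set n : ℝ := (Fintype.card ι : ℝ) with hn'
  induction j with
  | zero =>
    have := ((hS ι).1 1).1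
    simp [mo]
  | succ j ih =>
    have h := mo_rec hS i j
    have hj : (0 : ℝ) ≤ j := Nat.cast_nonneg j
    have f1 : (0 : ℝ) < j ! := Nat.cast_pos.2 (Nat.factorial_pos _)
    have f2 : (0 : ℝ) < (2 * j)! := Nat.cast_pos.2 (Nat.factorial_pos _)
    have e1 : mo i (j + 1) / (2 * (j + 1))! =
        mo i j / (2 * j)! * (1 / (2 * n) / (j + 1) * (1 + 2 * j / n)⁻¹) := by
      have : mo i (j + 1) = (2 * j + 1) * mo i j / (n + 2 * j) := by
        rw [eq_div_iff (by positivity), mul_comm]; exact h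
      rw [this, show 2 * (j + 1) = 2 * j + 1 + 1 by ring, Nat.factorial_succ, Nat.factorial_succ]
      push_cast
      field_simp
      ring
    have e2 : (1 / (2 * n)) ^ (j + 1) / (j + 1)! *
          exp (-(((j + 1 : ℕ) : ℝ) * (((j + 1 : ℕ) : ℝ) - 1) / n)) =
        (1 / (2 * n)) ^ j / j ! * exp (-(j * (j - 1) / n)) *
          (1 / (2 * n) / (j + 1) * exp (-(2 * j / n))) := by
      rw [Nat.factorial_succ]
      push_cast
      rw [show -(((j : ℝ) + 1) * (j + 1 - 1) / n) = -(j * (j - 1) / n) + -(2 * j / n) by ring,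
        exp_add, pow_succ]
      field_simp
    rw [e1, e2]
    refine mul_le_mul ih (mul_le_mul_of_nonneg_left ?_ (by positivity)) (by positivity)
      (div_nonneg (mo_nonneg i j) f2.le)
    rw [Real.exp_neg]
    exact inv_anti₀ (by positivity) (by linarith [add_one_le_exp (2 * j / n)])

lemma hasSum_exp (x : ℝ) : HasSum (fun j : ℕ => x ^ j / j !) (exp x) := by
  rw [Real.exp_eq_exp_ℝ]; exact NormedSpace.expSeries_div_hasSum_exp x

lemma hasSum_fall (x : ℝ) :
    HasSum (fun j : ℕ => x ^ j / j ! * (j * (j - 1))) (x ^ 2 * exp x) := by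
  rw [← hasSum_nat_add_iff' 2]
  simp only [Finset.sum_range_succ, Finset.sum_range_zero, Nat.cast_zero, zero_mul, mul_zero,
    Nat.cast_one, sub_self, add_zero, sub_zero]
  refine ((hasSum_exp x).mul_left (x ^ 2)).congr_fun fun j => ?_
  have f1 : (0 : ℝ) < j ! := Nat.cast_pos.2 (Nat.factorial_pos _)
  rw [Nat.factorial_succ, Nat.factorial_succ]
  push_cast
  field_simp
  ring

lemma int_exp (hS : SphStmt) (i : ι) (s : ℝ) :
    Integrable (fun x : ι → ℝ => exp (s * x i)) (sphR ι 1) := by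
  have := ((hS ι).1 1).1
  refine Integrable.of_bound (by fun_prop : Measurable _).aestronglyMeasurable (exp |s|) ?_
  filter_upwards [sq_le hS i] with x hx
  rw [Real.norm_of_nonneg (exp_pos _).le, exp_le_exp]
  refine (le_abs_self _).trans ?_
  rw [abs_mul]
  exact mul_le_of_le_one_right (abs_nonneg _) ((sq_le_one_iff_abs_le_one _).1 hx)

lemma coord (hS : SphStmt) (i : ι) (s : ℝ) :
    exp (s ^ 2 / (2 * Fintype.card ι) - s ^ 4 / (4 * (Fintype.card ι : ℝ) ^ 3)) ≤
      ∫ x, exp (s * x i) ∂sphR ι 1 := by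
  have hn : (0 : ℝ) < Fintype.card ι := Nat.cast_pos.2 Fintype.card_pos
  have hge := mo_ge hS i
  set n : ℝ := (Fintype.card ι : ℝ) with hn'
  set l := s ^ 2 / (2 * n) with hl
  set a := l ^ 2 / n with ha
  have l0 : 0 ≤ l := by positivity
  have hs := (((hasSum_exp l).mul_right (1 + a)).sub ((hasSum_fall l).div_const n)).mul_left
    (exp (-a))
  have e : exp (-a) * (exp l * (1 + a) - l ^ 2 * exp l / n) =
      exp (l - s ^ 4 / (4 * n ^ 3)) := by
    rw [show l - s ^ 4 / (4 * n ^ 3) = -a + l by rw [ha, hl]; field_simp; ring, exp_add, ha]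
    ring
  rw [e] at hs
  have hneg : ∫ x, exp (-s * x i) ∂sphR ι 1 = ∫ x, exp (s * x i) ∂sphR ι 1 := by
    conv_rhs => rw [← ((hS ι).1 1).2.2.2 (-1) (by simp)]
    rw [integral_map (by fun_prop : Measurable _).aemeasurable
      (by fun_prop : Measurable _).aestronglyMeasurable]
    simp [neg_mulVec]
  have hcosh : ∫ x, cosh (s * x i) ∂sphR ι 1 = ∫ x, exp (s * x i) ∂sphR ι 1 := by
    simp only [Real.cosh_eq, ← neg_mul]
    rw [integral_div, integral_add (int_exp hS i s) (int_exp hS i (-s)), hneg]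
    ring
  have icosh : Integrable (fun x : ι → ℝ => cosh (s * x i)) (sphR ι 1) := by
    simp only [Real.cosh_eq, ← neg_mul]
    exact ((int_exp hS i s).add (int_exp hS i (-s))).div_const 2
  rw [← hcosh]
  refine hasSum_le_of_sum_le hs fun F => ?_
  calc _ ≤ ∑ j ∈ F, s ^ (2 * j) * (mo i j / (2 * j)!) := Finset.sum_le_sum fun j _ => by
        refine le_trans ?_ (mul_le_mul_of_nonneg_left (hge j) (by rw [pow_mul]; positivity))
        have h1 : exp (-a) * (1 + a - j * (j - 1) / n) ≤ exp (-(j * (j - 1) / n)) := by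
          rw [show -((j : ℝ) * (j - 1) / n) = -a + (a - j * (j - 1) / n) by ring, exp_add]
          exact mul_le_mul_of_nonneg_left (by linarith [add_one_le_exp (a - j * (j - 1) / n)])
            (exp_pos _).le
        have h2 := mul_le_mul_of_nonneg_left h1 (show 0 ≤ l ^ j / (j ! : ℝ) by positivity)
        have h3 : l ^ j = s ^ (2 * j) * (1 / (2 * n)) ^ j := by
          rw [pow_mul, ← mul_pow, hl, mul_one_div]
        calc _ = l ^ j / j ! * (exp (-a) * (1 + a - j * (j - 1) / n)) := by ring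
          _ ≤ _ := h2
          _ = _ := by rw [h3]; ring
    _ = ∫ x, ∑ j ∈ F, (s * x i) ^ (2 * j) / (2 * j)! ∂sphR ι 1 := by
        simp only [mul_pow]
        rw [integral_finsetSum _ fun j _ => ((int_pow hS i j).const_mul _).div_const _]
        refine Finset.sum_congr rfl fun j _ => ?_
        rw [integral_div, integral_const_mul, mo, mul_div_assoc]
    _ ≤ _ := by
        refine integral_mono ?_ icosh fun x => sum_le_hasSum F (fun j _ => ?_)
          (Real.hasSum_cosh (s * x i))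
        · simp only [mul_pow]
          exact integrable_finsetSum _ fun j _ => ((int_pow hS i j).const_mul _).div_const _
        · rw [pow_mul]; positivity

end

end Lam43

theorem lamGlue : LamGlue := by
  intro hS n v hv s
  rcases Nat.eq_zero_or_pos n with rfl | hn
  · simp [dotProduct] at hv
  have : Nonempty (Fin n) := ⟨⟨0, hn⟩⟩
  set i : Fin n := ⟨0, hn⟩
  obtain ⟨O, hO, hOv⟩ := Tri62.exists_orth (Pi.single i 1) v (by simp [hv])
  have hO' : Oᵀ * O = 1 := mul_eq_one_comm.1 hO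
  have h := Lam43.coord hS i s
  rw [Fintype.card_fin, ← ((hS (Fin n)).1 1).2.2.2 O hO',
    integral_map (by fun_prop : Measurable _).aemeasurable
      (by fun_prop : Measurable _).aestronglyMeasurable] at h
  refine h.trans_eq (integral_congr_ae (ae_of_all _ fun x => ?_))
  have e : (O *ᵥ x) i = v ⬝ᵥ x := by
    rw [← single_one_dotProduct i (O *ᵥ x), ← hOv, dotProduct_mulVec, vecMul_mulVec, hO',
      vecMul_one]
  simp only [e]

end Crest.Agent.T157.St

end
end

-- ▼ part T157/StWp_6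
section

/-!
# Row 157, part C4: weak Poincaré inequality of the static chain (helper6)
-/

set_option autoImplicit false
set_option linter.unusedSectionVars false

noncomputable section

namespace Crest.Agent.T157.St

open MeasureTheory ProbabilityTheory Matrix Filter Topology Real Set
open Crest.Agent.T157.E

namespace Wp6

variable {ι : Type*} [Fintype ι] {μ : Measure (ι → ℝ)} {K : ℝ}

lemma cpt (r : ℝ) : IsCompact {x : ι → ℝ | x ⬝ᵥ x ≤ r} := by
  refine Metric.isCompact_of_isClosed_isBounded (isClosed_le (by fun_prop) continuous_const) ?_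
  refine (Metric.isBounded_closedBall (x := (0 : ι → ℝ)) (r := √r)).subset fun x hx => ?_
  rw [mem_closedBall_zero_iff, pi_norm_le_iff_of_nonneg (sqrt_nonneg r)]
  intro i
  refine abs_le_sqrt (le_trans ?_ hx)
  rw [sq]
  exact Finset.single_le_sum (f := fun i => x i * x i) (fun i _ => mul_self_nonneg _)
    (Finset.mem_univ i)

lemma int1 (hμ : Cp μ) {φ : (ι → ℝ) → ℝ} (hφ : Continuous φ) : Integrable φ μ := by
  have := hμ.prob
  obtain ⟨r, hr⟩ := hμ.bdd
  have h := (hφ.continuousOn (s := {x | x ⬝ᵥ x ≤ r})).integrableOn_compact (μ := μ) (cpt r)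
  have h2 : ∀ᵐ x ∂μ, x ∈ {x : ι → ℝ | x ⬝ᵥ x ≤ r} := hr
  rwa [IntegrableOn, Measure.restrict_eq_self_of_ae_mem h2] at h



@[fun_prop] lemma continuous_ew {X : Type*} [TopologicalSpace X] (K : ℝ) {y x : X → ι → ℝ}
    (hy : Continuous y) (hx : Continuous x) : Continuous fun p => ew K (y p) (x p) := by
  unfold ew; fun_prop







lemma int_ew_mu (hμ : Cp μ) (K : ℝ) (y : ι → ℝ) : Integrable (ew K y) μ :=
  int1 hμ (continuous_ew K continuous_const continuous_id)

lemma Mf_pos (hμ : Cp μ) (K : ℝ) (y : ι → ℝ) : 0 < Mf K μ y := by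
  have := hμ.prob
  exact integral_exp_pos (int_ew_mu hμ K y)





section f
variable {f : (ι → ℝ) → ℝ} {c : ℝ}







end f

/-- joint posterior density of two replicas -/
def kk (K : ℝ) (μ : Measure (ι → ℝ)) (p : (ι → ℝ) × (ι → ℝ)) (y : ι → ℝ) : ℝ :=
  ew K y p.1 * ew K y p.2 / Mf K μ y





/-- the exponential moment seen from a point -/
def HH (K : ℝ) (μ : Measure (ι → ℝ)) (x : ι → ℝ) : ℝ := ∫ u, exp (2 * K * (x ⬝ᵥ u)) ∂μ






/-- good pairs -/
def SS (K : ℝ) (μ : Measure (ι → ℝ)) (b r : ℝ) : Set ((ι → ℝ) × (ι → ℝ)) :=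
  {p | HH K μ p.1 ≤ b ∧ HH K μ p.2 ≤ b ∧ -r ≤ p.1 ⬝ᵥ p.2}


lemma tail (hμ : Cp μ) (hs : μ.map (fun x => -x) = μ) (hK : 0 ≤ K) (r : ℝ) (x : ι → ℝ) :
    exp (2 * K * r) * μ.real {u | x ⬝ᵥ u < -r} ≤ HH K μ x := by
  have := hμ.prob
  have hc : Continuous fun u : ι → ℝ => exp (2 * K * (x ⬝ᵥ u)) := by fun_prop
  have h1 : HH K μ x = ∫ u, exp (2 * K * (x ⬝ᵥ (-u))) ∂μ := by
    rw [HH, ← integral_map (φ := fun u : ι → ℝ => -u) (f := fun u => exp (2 * K * (x ⬝ᵥ u)))
      (by fun_prop) hc.aestronglyMeasurable, hs]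
  have h2 := mul_meas_ge_le_integral_of_nonneg (μ := μ) (f := fun u => exp (2 * K * (x ⬝ᵥ (-u))))
    (Eventually.of_forall fun _ => (exp_pos _).le) (int1 hμ (by fun_prop)) (exp (2 * K * r))
  rw [h1]
  refine le_trans (mul_le_mul_of_nonneg_left (measureReal_mono fun u hu => ?_) (exp_pos _).le) h2
  have h3 : x ⬝ᵥ u < -r := hu
  refine exp_le_exp.2 (mul_le_mul_of_nonneg_left ?_ (by positivity))
  rw [dotProduct_neg]; linarith

section main
variable {f : (ι → ℝ) → ℝ} {c b r : ℝ}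










end main

end Wp6


end Crest.Agent.T157.St

end
end

-- ▼ part T157/StZ_43

/-!
# Row 157, part C4 (helper43): lower bounds of the partition functions (`ZcStmt`, `ZsGlue`)
-/

set_option autoImplicit false

noncomputable section

namespace Crest.Agent.T157.St

open MeasureTheory ProbabilityTheory Matrix Filter Topology Real
open scoped ENNReal
open Crest.ProbabilityR.SpinGlassDynamics Crest.Agent.T157.E Crest.Agent.T157.Eig
open Crest.Agent.T157.Cond Crest.Agent.T157.Ed Crest.Agent.T157.Top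

namespace Z43

lemma continuous_Zc (n : ℕ) : Continuous (Zc n) := by
  unfold Zc Zw ising
  fun_prop

lemma whp_LR {a : ℝ} (ha : 0 < a) :
    Whp disorderLaw fun n g => -(a * n) ≤ log (Pl.LR false n 1 g) := by
  have h2n : Tendsto (fun n : ℕ => 2 * (n : ℝ)) atTop atTop :=
    tendsto_natCast_atTop_atTop.const_mul_atTop two_pos
  have t2 := (tendsto_pow_log_div_mul_add_atTop (a / 2) (-1) 2 (by positivity)).comp h2n
  have t0 := (tendsto_pow_log_div_mul_add_atTop (a / 2) (-1) 0 (by positivity)).comp h2n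
  have t := (t2.add t0).div_const 4
  simp only [add_zero, zero_div] at t
  refine whp_of_real_le t ?_
  filter_upwards [(tendsto_natCast_atTop_atTop.const_mul_atTop ha).eventually_gt_atTop 1]
    with n hn
  have i1 : Integrable (Pl.LR false n 1) (disorderLaw n) := Pl.integrable_LR false 1
  have i2 : Integrable (fun g => log (Pl.LR false n 1 g)) (disorderLaw n) := by
    simp only [Pl.log_LR]
    exact (Pl.integrable_log_Z 1).sub (integrable_const _)
  have h := mul_meas_ge_le_integral_of_nonneg (μ := disorderLaw n)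
    (f := fun g => Pl.LR false n 1 g - 1 - log (Pl.LR false n 1 g))
    (ae_of_all _ fun g => sub_nonneg.2 (log_le_sub_one_of_pos (Pl.LR_pos false 1 g)))
    ((i1.sub (integrable_const _)).sub i2) (a * n - 1)
  have e1 : ∫ g, Pl.LR false n 1 g ∂disorderLaw n = 1 := Pl.integral_LR false 1
  have e2 : -∫ g, log (Pl.LR false n 1 g) ∂disorderLaw n = Pl.DD false n 1 := rfl
  have i3 : Integrable (fun g => Pl.LR false n 1 g - 1) (disorderLaw n) :=
    i1.sub (integrable_const _)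
  rw [integral_sub i3 i2, integral_sub i1 (integrable_const _), e1] at h
  simp only [integral_const, probReal_univ, smul_eq_mul, one_mul, sub_self, zero_sub, e2] at h
  have h3 := h.trans (Pl.DD_false_le_crit n zero_le_one le_rfl)
  have h4 : (disorderLaw n).real {g | ¬ -(a * n) ≤ log (Pl.LR false n 1 g)} ≤
      (disorderLaw n).real
        {g | a * n - 1 ≤ Pl.LR false n 1 g - 1 - log (Pl.LR false n 1 g)} := by
    refine measureReal_mono fun g hg => ?_
    have := Pl.LR_pos false (n := n) 1 g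
    simp only [Set.mem_ofPred_eq, not_le] at hg ⊢
    linarith
  refine h4.trans ?_
  simp only [Function.comp_apply, pow_zero]
  rw [show a / 2 * (2 * (n : ℝ)) + -1 = a * n - 1 by ring, ← add_div, div_right_comm,
    le_div_iff₀ (by linarith)]
  linarith

lemma whp_diag {a : ℝ} (ha : 0 < a) :
    Whp (fun n => gv (Fin n)) fun n d => -(a * n) ≤ (∑ i, √2 * d i / √n) / 2 := by
  have t : Tendsto (fun n : ℕ => exp (1 / 4) * exp (-(a * n))) atTop (𝓝 0) := by
    simpa using (tendsto_exp_neg_atTop_nhds_zero.comp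
      (tendsto_natCast_atTop_atTop.const_mul_atTop ha)).const_mul (exp (1 / 4))
  refine whp_of_real_le t ?_
  filter_upwards [eventually_gt_atTop 0] with n hn
  have hn' : (0 : ℝ) < n := Nat.cast_pos.2 hn
  set v : Fin n → ℝ := fun _ => -(√2 / √n / 2) with hv
  have h := mul_meas_ge_le_integral_of_nonneg (μ := gv (Fin n)) (f := fun d => exp (d ⬝ᵥ v))
    (ae_of_all _ fun _ => (exp_pos _).le) (Pl.integrable_exp_dot false v) (exp (a * n))
  have e1 : ∫ d, exp (d ⬝ᵥ v) ∂gv (Fin n) = exp (1 / 4) := by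
    refine (Pl.integral_exp_dot false v).trans ?_
    rw [Pl.MM_false]
    congr 1
    simp only [hv, dotProduct, Finset.sum_const, Finset.card_univ, Fintype.card_fin, nsmul_eq_mul,
      ← sq, neg_sq, div_pow, sq_sqrt hn'.le, sq_sqrt (zero_le_two (α := ℝ))]
    field_simp
    norm_num
  rw [e1] at h
  have h4 : (gv (Fin n)).real {d | ¬ -(a * n) ≤ (∑ i, √2 * d i / √n) / 2} ≤
      (gv (Fin n)).real {d | exp (a * n) ≤ exp (d ⬝ᵥ v)} := by
    refine measureReal_mono fun d hd => ?_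
    have e : d ⬝ᵥ v = -((∑ i, √2 * d i / √n) / 2) := by
      rw [Finset.sum_div, ← Finset.sum_neg_distrib]
      exact Finset.sum_congr rfl fun i _ => by rw [hv]; ring
    simp only [Set.mem_ofPred_eq, not_le, exp_le_exp, e] at hd ⊢
    linarith
  refine h4.trans ?_
  rw [Real.exp_neg, ← div_eq_mul_inv, le_div_iff₀ (exp_pos _), mul_comm]
  exact h

lemma Zc_Wmat {n : ℕ} (hn : n ≠ 0) (g : Pair n → ℝ) (d : Fin n → ℝ) :
    Zc n (Wmat n g d) =
      exp (log (Pl.LR false n 1 g) + (∑ i, √2 * d i / √n) / 2 + (n - 1) / 4) := by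
  rw [exp_add, exp_add, exp_log (Pl.LR_pos false 1 g), Pl.LR, Pl.EZ_false hn, Zc, Wmat,
    Pl.ising_add_diagonal, gibbsWeight_eq_ising, one_smul]
  simp only [Zw, ← Finset.sum_mul, one_pow, one_mul]
  field_simp

lemma hat_dot {n : ℕ} (hn : 1 ≤ n) (σ : Cube n) : hat n σ ⬝ᵥ hat n σ = sx n ^ 2 := by
  have := sx_pos hn
  rw [hat, smul_dotProduct, dotProduct_smul, sv_dot_self, ← sx_pow_six n, smul_eq_mul, smul_eq_mul]
  field_simp

lemma Hh_hat {n : ℕ} (hn : 1 ≤ n) (W : Mat n) (σ : Cube n) :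
    exp (Hh n W (hat n σ)) = ising W 0 σ := by
  have := sx_pos hn
  rw [ising, Hh, hat, mulVec_smul, smul_dotProduct, dotProduct_smul, tau_eq, zero_dotProduct,
    add_zero, smul_eq_mul, smul_eq_mul]
  congr 1
  field_simp

lemma Hh_conj {n : ℕ} (W O : Mat n) (hO : Oᵀ * O = 1) (x : Fin n → ℝ) :
    Hh n (O * W * Oᵀ) (O *ᵥ x) = Hh n W x := by
  rw [Hh, Hh, mulVec_mulVec, Matrix.mul_assoc, hO, Matrix.mul_one, ← mulVec_mulVec,
    dotProduct_mulVec, vecMul_mulVec, hO, vecMul_one]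

/-- `E [e^{H(x)} / Zs] = 1` for every point of the sphere -/
lemma lint_ratio (hS : SphStmt) (hL : LnkStmt) {n : ℕ} (hn : 1 ≤ n) (x : Fin n → ℝ)
    (hx : x ⬝ᵥ x = sx n ^ 2) :
    ∫⁻ W, ENNReal.ofReal (exp (Hh n W x) / Zs n W) ∂GOE n = 1 := by
  have : Nonempty (Fin n) := ⟨⟨0, hn⟩⟩
  obtain ⟨⟨hP, hae, -, -⟩, -⟩ := And.intro ((hS (Fin n)).1 (sx n)) trivial
  obtain ⟨-, -, -, -, hinv, -, -, -, hc, -, hpos, -, -⟩ := hL n hn
  have hm : Measurable (Zs n) := hc.measurable
  have hF : Measurable fun q : Mat n × (Fin n → ℝ) =>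
      ENNReal.ofReal (exp (Hh n q.1 q.2) / Zs n q.1) := by
    have : Continuous fun q : Mat n × (Fin n → ℝ) => exp (Hh n q.1 q.2) := by
      unfold Hh; fun_prop
    exact (this.measurable.div (hm.comp measurable_fst)).ennreal_ofReal
  have h1 : ∀ y : Fin n → ℝ, y ⬝ᵥ y = sx n ^ 2 →
      ∫⁻ W, ENNReal.ofReal (exp (Hh n W y) / Zs n W) ∂GOE n =
        ∫⁻ W, ENNReal.ofReal (exp (Hh n W x) / Zs n W) ∂GOE n := by
    intro y hy
    obtain ⟨O, hO, hOx⟩ := Tri62.exists_orth y x (hy.trans hx.symm)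
    have hO' : Oᵀ * O = 1 := mul_eq_one_comm.1 hO
    have hG : GOE n = (GOE n).map fun W => O * W * Oᵀ := (goe_conj (1 / √n) O hO).symm
    conv_lhs => rw [hG]
    erw [lintegral_map (hF.comp (measurable_id.prodMk measurable_const)) (by fun_prop)]
    refine lintegral_congr fun W => ?_
    simp only [Function.comp_apply, id]
    rw [← hOx, Hh_conj W O hO', (hinv W O hO').2]
  have h2 : ∫⁻ y, ∫⁻ W, ENNReal.ofReal (exp (Hh n W y) / Zs n W) ∂GOE n ∂sphR (Fin n) (sx n) =
      ∫⁻ W, ENNReal.ofReal (exp (Hh n W x) / Zs n W) ∂GOE n := by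
    rw [lintegral_congr_ae (hae.mono fun y hy => h1 y hy), lintegral_const, measure_univ, mul_one]
  rw [← h2, ← lintegral_lintegral_swap hF.aemeasurable]
  refine (lintegral_congr fun W => ?_).trans (lintegral_one.trans measure_univ)
  have hi : Integrable (fun y => exp (Hh n W y)) (sphR (Fin n) (sx n)) :=
    Integrable.of_integral_ne_zero (hpos W).1.ne'
  rw [← ofReal_integral_eq_lintegral_ofReal (hi.div_const _)
    (ae_of_all _ fun y => div_nonneg (exp_pos _).le (hpos W).1.le), integral_div]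
  exact (congrArg _ (div_self (hpos W).1.ne')).trans ENNReal.ofReal_one

/-- `E [Zc / Zs] = 1` -/
lemma lint_Zc_Zs (hS : SphStmt) (hL : LnkStmt) {n : ℕ} (hn : 1 ≤ n) :
    ∫⁻ W, ENNReal.ofReal (Zc n W / Zs n W) ∂GOE n = 1 := by
  obtain ⟨-, -, -, -, -, -, -, -, hc, -, hpos, -, -⟩ := hL n hn
  have e : ∀ W, ENNReal.ofReal (Zc n W / Zs n W) = ENNReal.ofReal (1 / 2 ^ n) *
      ∑ σ : Cube n, ENNReal.ofReal (exp (Hh n W (hat n σ)) / Zs n W) := fun W => by
    rw [← ENNReal.ofReal_sum_of_nonneg fun σ _ => div_nonneg (exp_pos _).le (hpos W).1.le,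
      ← ENNReal.ofReal_mul (by positivity), ← Finset.sum_div, Zc, Zw]
    simp only [Hh_hat hn]
    congr 1
    ring
  have hm : ∀ σ : Cube n,
      Measurable fun W : Mat n => ENNReal.ofReal (exp (Hh n W (hat n σ)) / Zs n W) := fun σ => by
    have : Continuous fun W : Mat n => exp (Hh n W (hat n σ)) := by unfold Hh; fun_prop
    exact (this.measurable.div hc.measurable).ennreal_ofReal
  simp only [e]
  rw [lintegral_const_mul _ (Finset.measurable_sum _ fun σ _ => hm σ),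
    lintegral_finsetSum _ fun σ _ => hm σ]
  simp only [lint_ratio hS hL hn _ (hat_dot hn _), Finset.sum_const, Finset.card_univ,
    nsmul_eq_mul, mul_one]
  rw [← ENNReal.ofReal_natCast, Pl.card_cube, ← ENNReal.ofReal_mul (by positivity)]
  simp

end Z43

open Z43

theorem zcStmt : ZcStmt := by
  intro ε hε
  have h3 : 0 < ε / 3 := by positivity
  have h1 := (Whp.comp (ν := fun n => (disorderLaw n).prod (gv (Fin n))) (T := fun n p => p.1)
    (fun n => measurePreserving_fst) (whp_LR h3)).and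
    (Whp.comp (ν := fun n => (disorderLaw n).prod (gv (Fin n))) (T := fun n p => p.2)
      (fun n => measurePreserving_snd) (whp_diag h3))
  have h2 := h1.mono (Q := fun n p => exp (n * (1 / 4 - ε)) ≤ Zc n (Wmat n p.1 p.2)) (by
    filter_upwards [(tendsto_natCast_atTop_atTop.const_mul_atTop h3).eventually_gt_atTop 1,
      eventually_gt_atTop 0] with n hn hn0 p hp
    rw [Zc_Wmat hn0.ne', exp_le_exp]
    linarith [hp.1, hp.2])
  refine Tendsto.congr (fun n => ?_) h2
  have hm : MeasurableSet {W : Mat n | ¬ exp (n * (1 / 4 - ε)) ≤ Zc n W} :=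
    (measurableSet_le measurable_const (continuous_Zc n).measurable).compl
  rw [← (mp_Wmat (n := n)).measure_preimage hm.nullMeasurableSet]
  rfl

theorem zsGlue : ZsGlue := by
  intro hS hL hZ ε hε
  have h2 : 0 < ε / 2 := by positivity
  have h1 : Whp GOE fun n W => Zc n W / Zs n W < exp (ε / 2 * n) := by
    have t : Tendsto (fun n : ℕ => exp (-(ε / 2 * n))) atTop (𝓝 0) :=
      tendsto_exp_neg_atTop_nhds_zero.comp (tendsto_natCast_atTop_atTop.const_mul_atTop h2)
    refine whp_of_real_le t ?_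
    filter_upwards [eventually_ge_atTop 1] with n hn
    obtain ⟨-, -, -, -, -, -, -, -, hc, hc', -, -, -⟩ := hL n hn
    have h := meas_ge_le_lintegral_div (μ := GOE n)
      (f := fun W => ENNReal.ofReal (Zc n W / Zs n W))
      (hc'.measurable.div hc.measurable).ennreal_ofReal.aemeasurable
      (ε := ENNReal.ofReal (exp (ε / 2 * n))) (by simpa using exp_pos _) ENNReal.ofReal_ne_top
    rw [lint_Zc_Zs hS hL hn, one_div, ← ENNReal.ofReal_inv_of_pos (exp_pos _), ← Real.exp_neg] at h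
    refine ENNReal.toReal_le_of_le_ofReal (exp_pos _).le (le_trans (measure_mono fun W hW => ?_) h)
    exact ENNReal.ofReal_le_ofReal (not_lt.1 hW)
  refine ((hZ (ε / 2) h2).and h1).mono ?_
  filter_upwards [eventually_ge_atTop 1] with n hn W hW
  obtain ⟨-, -, -, -, -, -, -, -, -, -, hpos, -, -⟩ := hL n hn
  have h3 := hW.2
  rw [div_lt_iff₀ (hpos W).1] at h3
  have h4 := hW.1.trans h3.le
  rw [show (n : ℝ) * (1 / 4 - ε / 2) = ε / 2 * n + n * (1 / 4 - ε) by ring, exp_add] at h4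
  exact le_of_mul_le_mul_left h4 (exp_pos _)

end Crest.Agent.T157.St

end
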