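import Crest.Agent.T157.StDef_87
import Crest.Agent.T157.PathQ_90
import Crest.Agent.T157.PlA_37
import Crest.Agent.T157.EdBase_88
import Crest.Agent.T157.EigN_84
import Crest.Agent.T157.StZ_43_Mg
import Crest.Agent.T157.ConcHW_16
import Crest.Agent.T157.StB_87
import Crest.Agent.T157.EdAll_88
import Crest.Agent.T157.StFin_85
import Crest.Agent.T157.StConv_10
import Crest.Agent.T157.StDen_90
import Crest.Agent.T157.StIso_42
import Crest.Agent.T157.StMgf_32
import Crest.Agent.T157.StShell_38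
import Crest.Agent.T157.StCl_28
import Crest.Agent.T157.StStein_79

-- ▼ part T157/StUnb_49
section

/-!
Row 157, part C4 (helper49): non-degeneracy of the critical statics
(`jenStmt`, `nondGlue`, `unbGlue`).
-/

set_option autoImplicit false

noncomputable section

namespace Crest.Agent.T157.St

open MeasureTheory ProbabilityTheory Matrix Filter Topology Finset Real
open scoped ENNReal
open Crest.ProbabilityR.SpinGlassDynamics Crest.Agent.T157.E Crest.Agent.T157.Eig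
open Crest.Agent.T157.Cond Crest.Agent.T157.Ed Crest.Agent.T157.Top

namespace Unb49

section abs
variable {ι : Type*} [Fintype ι]

theorem integral_dm {Ω : Type*} [Fintype Ω] {w : Ω → ℝ} (hw : ∀ x, 0 ≤ w x) (φ : Ω → ι → ℝ)
    (f : (ι → ℝ) → ℝ) : ∫ y, f y ∂dm w φ = mean w fun x => f (φ x) := by
  rw [dm, integral_finsetSum_measure fun x _ =>
    (integrable_dirac (by simp)).smul_measure ENNReal.ofReal_ne_top, mean]
  refine sum_congr rfl fun x _ => ?_
  have h : 0 ≤ prob w x := div_nonneg (hw x) (sum_nonneg fun y _ => hw y)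
  rw [integral_smul_measure, integral_dirac, ENNReal.toReal_ofReal h, smul_eq_mul]

theorem integrable_cp {μ : Measure (ι → ℝ)} (h : Cp μ) {F : (ι → ℝ) → ℝ} (hF : Continuous F) :
    Integrable F μ := by
  obtain ⟨r, hr⟩ := h.bdd
  have := h.prob
  obtain ⟨C, hC⟩ := (isCompact_closedBall (0 : ι → ℝ) √r).exists_bound_of_continuousOn
    hF.continuousOn
  refine (integrable_const C).mono' hF.aestronglyMeasurable (hr.mono fun x hx => hC x ?_)
  rw [mem_closedBall_zero_iff, pi_norm_le_iff_of_nonneg (Real.sqrt_nonneg r)]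
  intro i
  refine Real.abs_le_sqrt (le_trans ?_ hx)
  rw [sq]
  exact single_le_sum (f := fun i => x i * x i) (fun i _ => mul_self_nonneg _) (mem_univ i)

theorem quad_sm {μ : Measure (ι → ℝ)} (h : Cp μ) (v : ι → ℝ) :
    v ⬝ᵥ sm μ *ᵥ v = ∫ x, (v ⬝ᵥ x) ^ 2 ∂μ := by
  have e : ∀ x : ι → ℝ, (v ⬝ᵥ x) ^ 2 = ∑ i, ∑ j, v i * (x i * x j * v j) := fun x => by
    rw [sq, dotProduct, sum_mul_sum]
    exact sum_congr rfl fun i _ => sum_congr rfl fun j _ => by ring
  simp only [e]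
  rw [integral_finsetSum _ fun i _ => integrable_cp h (by fun_prop)]
  simp only [dotProduct, mulVec, sm, mul_sum]
  refine sum_congr rfl fun i _ => ?_
  rw [integral_finsetSum _ fun j _ => integrable_cp h (by fun_prop)]
  refine sum_congr rfl fun j _ => ?_
  rw [integral_const_mul, integral_mul_const]

omit [Fintype ι] in
theorem sm_herm (μ : Measure (ι → ℝ)) : (sm μ).IsHermitian := by
  ext i j; simp [sm, mul_comm]

/-- closeness of the directional second moments -/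
theorem quad_close [DecidableEq ι] {A B : Matrix ι ι ℝ} {v : ι → ℝ} (hv : v ⬝ᵥ v = 1) {e : ℝ}
    (he : 0 ≤ e) (h : ∑ i, ∑ j, (A i j - B i j) ^ 2 ≤ e ^ 2) : v ⬝ᵥ B *ᵥ v - e ≤ v ⬝ᵥ A *ᵥ v := by
  have h1 := Eig.abs_quad_le (A - B) v
  have h2 := (opn_le_sqrt_frob (A - B)).trans (Real.sqrt_le_iff.2 ⟨he, h⟩)
  rw [hv, mul_one, sub_mulVec, dotProduct_sub] at h1
  linarith [(abs_le.1 h1).1]

/-- Cameron–Martin lower bound -/
theorem cm_lower (a : ι → ℝ) {S : Set (ι → ℝ)} (hS : MeasurableSet S)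
    (h : 3 / 4 ≤ (gv ι).real {g | g + a ∈ S}) : exp (-(a ⬝ᵥ a)) / 2 ≤ (gv ι).real S := by
  have h1 : (gv ι).real {g | g + a ∈ S} = ∫ g, S.indicator 1 g ∂Pl.tilted false a := by
    rw [integral_indicator_one hS, measureReal_def, measureReal_def, Pl.tilted_false_apply]
  have h2 := Pl.integral_exp_mul false a (S.indicator 1)
  have h3 := Pl.integral_exp_dot false ((2 : ℝ) • a)
  have i3 := Pl.integrable_exp_dot false ((2 : ℝ) • a)
  rw [Pl.MM_false, Pl.law_false] at h2 h3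
  rw [Pl.law_false] at i3
  obtain ⟨q, hq⟩ : ∃ q, q = exp (a ⬝ᵥ a / 2) := ⟨_, rfl⟩
  have q0 : 0 < q := hq ▸ exp_pos _
  have e1 : exp (((2 : ℝ) • a) ⬝ᵥ ((2 : ℝ) • a) / 2) = q ^ 4 := by
    rw [hq, ← Real.exp_nat_mul, smul_dotProduct, dotProduct_smul]; congr 1; simp; ring
  have e2 : exp (-(a ⬝ᵥ a)) = (q ^ 2)⁻¹ := by
    rw [hq, ← Real.exp_nat_mul, ← Real.exp_neg]; congr 1; simp; ring
  have iS : Integrable (S.indicator (1 : (ι → ℝ) → ℝ)) (gv ι) := (integrable_const 1).indicator hS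
  have h4 : ∫ g, exp (g ⬝ᵥ a) * S.indicator 1 g ∂gv ι ≤
      ∫ g, ((2 * q ^ 3)⁻¹ * exp (g ⬝ᵥ ((2 : ℝ) • a)) + q ^ 3 / 2 * S.indicator 1 g) ∂gv ι := by
    refine integral_mono_of_nonneg (Eventually.of_forall fun g => ?_)
      ((i3.const_mul _).add (iS.const_mul _)) (Eventually.of_forall fun g => ?_)
    · exact mul_nonneg (exp_pos _).le (Set.indicator_nonneg (fun _ _ => zero_le_one) _)
    · have e : exp (g ⬝ᵥ ((2 : ℝ) • a)) = exp (g ⬝ᵥ a) ^ 2 := by
        rw [← Real.exp_nat_mul, dotProduct_smul]; simp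
      simp only [e]
      by_cases hg : g ∈ S
      · simp only [Set.indicator_of_mem hg, Pi.one_apply, mul_one]
        have : (2 * q ^ 3)⁻¹ * exp (g ⬝ᵥ a) ^ 2 + q ^ 3 / 2 - exp (g ⬝ᵥ a) =
            (2 * q ^ 3)⁻¹ * (exp (g ⬝ᵥ a) - q ^ 3) ^ 2 := by field_simp; ring
        have h5 : 0 ≤ (2 * q ^ 3)⁻¹ * (exp (g ⬝ᵥ a) - q ^ 3) ^ 2 := by positivity
        linarith
      · simp only [Set.indicator_of_notMem hg, mul_zero, add_zero]; positivity
  rw [integral_add (i3.const_mul _) (iS.const_mul _), integral_const_mul, integral_const_mul, h3,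
    e1, h2, ← h1, ← hq, integral_indicator_one hS] at h4
  have e3 : (2 * q ^ 3)⁻¹ * q ^ 4 = q / 2 := by field_simp
  rw [e3] at h4
  rw [e2, div_le_iff₀ two_pos, inv_le_iff_one_le_mul₀ (by positivity)]
  have h6 := mul_le_mul_of_nonneg_left h q0.le
  have h7 : q * 1 ≤ q * (2 * q ^ 2 * (gv ι).real S) := by nlinarith
  have := le_of_mul_le_mul_left h7 q0
  linarith

/-- tilting by a square pushes its mean up -/
theorem tilt_ge {ν : Measure (ι → ℝ)} (h : Cp ν) {Q : (ι → ℝ) → ℝ} (hQ : Continuous Q)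
    (hQ0 : ∀ x, 0 ≤ Q x) {M δ l : ℝ} (hM : 0 ≤ M) (hδ : 0 < δ) (hl : M ≤ δ * l)
    (hb : δ ≤ ν.real {x | M + 1 ≤ Q x}) : M ≤ ∫ x, Q x ∂ν.tilted fun x => l * Q x := by
  have := h.prob
  have l0 : 0 ≤ l := by nlinarith
  have i1 : Integrable (fun x => exp (l * Q x)) ν := integrable_cp h (by fun_prop)
  have i2 : Integrable (fun x => exp (l * Q x) * Q x) ν := integrable_cp h (by fun_prop)
  have hZ : 0 < ∫ x, exp (l * Q x) ∂ν := integral_exp_pos i1
  have hS : MeasurableSet {x | M + 1 ≤ Q x} := (isClosed_le continuous_const hQ).measurableSet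
  have iS : Integrable (Set.indicator {x | M + 1 ≤ Q x} (1 : (ι → ℝ) → ℝ)) ν :=
    (integrable_const 1).indicator hS
  have key : ∫ x, (exp (l * (M + 1)) * Set.indicator {x | M + 1 ≤ Q x} 1 x - M * exp (l * M)) ∂ν ≤
      ∫ x, (exp (l * Q x) * Q x - M * exp (l * Q x)) ∂ν := by
    refine integral_mono ((iS.const_mul _).sub (integrable_const _)) (i2.sub (i1.const_mul _))
      fun x => ?_
    have p1 := exp_pos (l * Q x)
    have p2 := mul_nonneg hM (exp_pos (l * M)).le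
    by_cases hx : x ∈ {x | M + 1 ≤ Q x}
    · simp only [Set.indicator_of_mem hx, Pi.one_apply, mul_one]
      have hx' : M + 1 ≤ Q x := hx
      have := exp_le_exp.2 (mul_le_mul_of_nonneg_left hx' l0)
      nlinarith
    · simp only [Set.indicator_of_notMem hx, mul_zero, zero_sub]
      rcases le_total (Q x) M with h1 | h1
      · have := mul_le_mul_of_nonneg_left (exp_le_exp.2 (mul_le_mul_of_nonneg_left h1 l0)) hM
        nlinarith [hQ0 x]
      · nlinarith
  rw [integral_sub (iS.const_mul _) (integrable_const _), integral_sub i2 (i1.const_mul _),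
    integral_const_mul, integral_const_mul M fun x => exp (l * Q x), integral_indicator_one hS] at key
  simp only [integral_const, probReal_univ, smul_eq_mul, one_mul] at key
  have e : ∫ x, Q x ∂ν.tilted (fun x => l * Q x) =
      (∫ x, exp (l * Q x) * Q x ∂ν) / ∫ x, exp (l * Q x) ∂ν := by
    rw [integral_tilted, ← integral_div]
    exact integral_congr_ae (Eventually.of_forall fun x => by simp only [smul_eq_mul]; ring)
  rw [e, le_div_iff₀ hZ]
  have h1 : exp (l * (M + 1)) = exp (l * M) * exp l := by rw [← exp_add]; ring_nf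
  have h2 : M ≤ exp l * ν.real {x | M + 1 ≤ Q x} := by
    have := add_one_le_exp l
    nlinarith
  have h3 := mul_le_mul_of_nonneg_left h2 (exp_pos (l * M)).le
  rw [h1] at key
  nlinarith

/-- a flip-symmetric coordinate is visible in every direction overlapping it -/
theorem flip_ge [DecidableEq ι] {ν : Measure (ι → ℝ)} [IsFiniteMeasure ν] {k : ι}
    (hf : ν.map (fun x => Function.update x k (-x k)) = ν) (p : ι → ℝ) {κ m : ℝ} (hκ : 0 ≤ κ)
    (hm : 0 ≤ m) (hp : κ ≤ |p k|) :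
    ν.real {x | m ≤ |x k|} / 2 ≤ ν.real {x | κ * m ≤ |p ⬝ᵥ x|} := by
  have hS : MeasurableSet {x : ι → ℝ | κ * m ≤ |p ⬝ᵥ x|} :=
    (isClosed_le continuous_const (by unfold dotProduct; fun_prop)).measurableSet
  have hm' : Measurable fun x : ι → ℝ => Function.update x k (-x k) :=
    (continuous_id.update k (continuous_apply k).neg).measurable
  have e : ν.real ((fun x => Function.update x k (-x k)) ⁻¹' {x | κ * m ≤ |p ⬝ᵥ x|}) =
      ν.real {x | κ * m ≤ |p ⬝ᵥ x|} := by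
    rw [← map_measureReal_apply hm' hS, hf]
  have hsub : {x : ι → ℝ | m ≤ |x k|} ⊆ {x | κ * m ≤ |p ⬝ᵥ x|} ∪
      (fun x => Function.update x k (-x k)) ⁻¹' {x | κ * m ≤ |p ⬝ᵥ x|} := fun x hx => by
    have e1 : p ⬝ᵥ Function.update x k (-x k) = p ⬝ᵥ x - 2 * (p k * x k) := by
      have : Function.update x k (-x k) = x - Pi.single k (2 * x k) := by
        ext i; by_cases h : i = k
        · subst h; simp; ring
        · simp [h]
      rw [this, dotProduct_sub, dotProduct_single]; ring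
    have h1 : κ * m ≤ |p k * x k| := by
      rw [abs_mul]; exact mul_le_mul hp hx hm (hκ.trans hp)
    by_contra hc
    simp only [Set.mem_union, Set.mem_ofPred_eq, Set.mem_preimage, not_or, not_le, e1] at hc
    have h2 := abs_lt.1 hc.1
    have h3 := abs_lt.1 hc.2
    rcases abs_cases (p k * x k) with h | h <;> linarith [h.1]
  have := (measureReal_mono hsub).trans (measureReal_union_le (μ := ν) _ _)
  linarith

end abs

variable {n : ℕ}

theorem sx_four (n : ℕ) : (sx n ^ 2) ^ 2 = Soft.N23 n := by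
  rw [← pow_mul, ← tau_eq]; rfl

/-- transfer of an upper bound from the GOE to the couplings -/
theorem le_goe {P : (Pair n → ℝ) → Prop} {B : Set (Mat n)}
    (h : ∀ g d, Wmat n g d ∉ B → P g) : disorderLaw n {g | ¬ P g} ≤ GOE n B := by
  have e : disorderLaw n {g | ¬ P g} =
      ((disorderLaw n).prod (gv (Fin n))) ({g | ¬ P g} ×ˢ Set.univ) := by
    rw [Measure.prod_prod, measure_univ, mul_one]
  rw [e]
  refine le_trans (measure_mono fun z hz => ?_) (mp_Wmat.measure_preimage_le B)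
  by_contra hc
  exact hz.1 (h z.1 z.2 hc)

theorem mp_mix (hn : 1 ≤ n) :
    MeasurePreserving (fun p : Mat n × Mat n => mix n p.1 p.2) ((GOE n).prod (GOE n)) (GOE n) := by
  have t1 : 1 ≤ sx n ^ 2 := one_le_pow₀ (one_le_sx hn)
  have h0 : 0 ≤ (sx n ^ 2)⁻¹ := by positivity
  have h1 : 0 ≤ 1 - (sx n ^ 2)⁻¹ := sub_nonneg.2 (inv_le_one_of_one_le₀ t1)
  have m1 : ∀ c : ℝ, MeasurePreserving (fun W : Mat n => c • W) (GOE n)
      (goe (Fin n) (c * (1 / √n))) := fun c => ⟨by fun_prop, goe_smul _ c⟩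
  have m2 : MeasurePreserving (fun p : Mat n × Mat n => p.1 + p.2)
      ((goe (Fin n) (√(1 - (sx n ^ 2)⁻¹) * (1 / √n))).prod
        (goe (Fin n) (√((sx n ^ 2)⁻¹) * (1 / √n)))) (GOE n) :=
    ⟨by fun_prop, goe_add _ _ _ (by rw [mul_pow, mul_pow, Real.sq_sqrt h1, Real.sq_sqrt h0]; ring)⟩
  exact m2.comp ((m1 _).prod (m1 _))

/-- the rank-one shift tilts the spherical law -/
theorem nuW_shift (hS : SphStmt) (hn : 1 ≤ n) (A : Mat n) (x : Fin n × Fin n → ℝ) (u : Fin n → ℝ)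
    (l : ℝ) : nuW n (mix n A (symG (1 / √n) (x + fun p => √2 * l * (u p.1 * u p.2)))) =
      (nuW n (mix n A (symG (1 / √n) x))).tilted fun y => l * (u ⬝ᵥ y) ^ 2 := by
  have : Nonempty (Fin n) := ⟨⟨0, hn⟩⟩
  obtain ⟨h1, h2, -⟩ := (hS (Fin n)).1 (sx n)
  have cp : Cp (sphR (Fin n) (sx n)) := ⟨h1, _, h2.mono fun x hx => hx.le⟩
  rw [nuW, nuW, tilted_tilted (integrable_cp cp (by unfold Hh dotProduct mulVec; fun_prop))]
  congr 1
  ext y
  have s0 := (sx_pos hn).ne'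
  have e : mix n A (symG (1 / √n) (x + fun p => √2 * l * (u p.1 * u p.2))) =
      mix n A (symG (1 / √n) x) + (2 * l / tau n) • vecMulVec u u := by
    ext i j
    have h2 : (√2 : ℝ) ≠ 0 := by positivity
    simp only [mix, symG, Matrix.add_apply, Matrix.smul_apply, of_apply, Pi.add_apply,
      smul_eq_mul, vecMulVec_apply, sqrt_eq, tau_eq, Real.sqrt_inv, Real.sqrt_sq (sx_nonneg n)]
    field_simp
    ring
  have t0 := (tau_pos hn).ne'
  simp only [e, Hh, Pi.add_apply, add_mulVec, dotProduct_add, smul_mulVec, dotProduct_smul,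
    vmv_mulVec, smul_eq_mul, dotProduct_comm y u]
  field_simp

end Unb49

open Unb49

theorem jenStmt : JenStmt := by
  intro n g v s V hv hs hV h
  have hn : 0 < n := by
    rcases Nat.eq_zero_or_pos n with rfl | h
    · simp [dotProduct] at hv
    · exact h
  refine Soft.An_ge hn g hv hV hs ?_
  have hw : ∀ x, 0 ≤ gibbsWeight n 1 g x := fun x => (gibbsWeight_pos 1 g x).le
  have e1 : v ⬝ᵥ sm (muG n g) *ᵥ v =
      (Soft.N23 n)⁻¹ * mean (gibbsWeight n 1 g) fun x => (v ⬝ᵥ sv x) ^ 2 := by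
    simp only [dotProduct, mulVec, sm, muG, integral_dm hw, mean, mul_sum, sum_mul]
    simp only [← sx_four, hat, Pi.smul_apply, smul_eq_mul, sq (∑ _, _), sum_mul_sum]
    simp only [mul_sum]
    rw [sum_congr rfl fun i _ => sum_comm, sum_comm]
    refine sum_congr rfl fun x _ => sum_congr rfl fun i _ => sum_congr rfl fun j _ => ?_
    ring
  have e2 : gibbsMean n 1 g (fun x => v ⬝ᵥ sv x) = 0 :=
    Soft.mean_odd g (f := fun x => v ⬝ᵥ sv x) fun x => by
      simp [dotProduct, sv, Bar.neg, spin_not]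
  rw [gibbsVar, e2]
  rw [e1, le_inv_mul_iff₀ (Soft.N23_pos hn), mul_comm] at h
  simp only [sub_zero]
  exact h

theorem nondGlue : NondGlue := by
  intro hM hI hL hG hC hCl hJ hU
  -- a direction for the sphere is a direction for the cube
  have key : ∀ n : ℕ, 1 ≤ n → ∀ (g : Pair n → ℝ) (d v : Fin n → ℝ) (V e : ℝ), v ⬝ᵥ v = 1 → 0 < V →
      0 ≤ e → V + e ≤ v ⬝ᵥ sm (nuW n (Wmat n g d)) *ᵥ v →
      D2 1 (muW n (Wmat n g d)) (nuW n (Wmat n g d)) ≤ e ^ 2 / 4 →
      V * exp (-(1 / V)) ≤ Soft.An n g 1 := by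
    intro n hn g d v V e hv hV he h1 h2
    obtain ⟨c1, c2, -⟩ := (hL n hn).1 (Wmat n g d)
    have h3 := (hM (Fin n) _ _ _ c1 c2 c2 1 1 zero_le_one le_rfl).2.2.2.2.2.2.2
    have h4 := quad_close (A := sm (muW n (Wmat n g d))) (B := sm (nuW n (Wmat n g d))) hv he
      (by linarith)
    refine hJ n g v 1 V hv zero_le_one hV ?_
    rw [← (hL n hn).2.2.1 g d]
    linarith
  constructor
  · intro ε hε
    obtain ⟨C, -, hG⟩ := hG
    obtain ⟨L, w₁, hL0, hG⟩ := hG (ε / 2) (by positivity)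
    obtain ⟨w₂, -, hC⟩ := hC L C 1 1 hL0
    obtain ⟨B, δ, -, hδ, hC⟩ := hC (max w₁ w₂) (le_max_right _ _)
    refine ⟨1, δ / 2 * exp (-(1 / (δ / 2))), one_pos, by positivity, Eventually.frequently ?_⟩
    filter_upwards [hG _ (le_max_left w₁ w₂), hC, eventually_ge_atTop 1,
      whp_iff.1 (hCl.2 1 ((δ / 2) ^ 2 / 4) zero_le_one (by positivity)) (ε / 2) (by positivity)]
      with n h1 h2 hn h3
    have h4 := le_goe (P := fun g => δ / 2 * exp (-(1 / (δ / 2))) ≤ Soft.An n g 1)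
      (B := {W | ¬ (W.IsHermitian ∧ Gd n (Lam n W) (sx n ^ 2) L (max w₁ w₂) C)} ∪
        {W | ¬ D2 1 (muW n W) (nuW n W) ≤ (δ / 2) ^ 2 / 4}) fun g d hgd => by
      simp only [Set.mem_union, Set.mem_ofPred_eq, not_or, not_not] at hgd
      obtain ⟨⟨hW, hgood⟩, hD⟩ := hgd
      have t0 : 0 < sx n ^ 2 := pow_pos (sx_pos hn) 2
      obtain ⟨O, hO, -, hν⟩ := (hL n hn).2.2.2.1 _ hW
      have cD := ((hL n hn).2.1 (Lam n (Wmat n g d)) _ t0).1
      have hsm := (hI (Fin n) (Fin n) O hO _ _ cD cD).2.2.1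
      have hδ' := (h2 _ _ t0 hgood ⟨0, hn⟩).2 one_pos
      refine key n hn g d (O *ᵥ Pi.single ⟨0, hn⟩ 1) (δ / 2) (δ / 2) ?_ (by positivity)
        (by positivity) ?_ hD
      · rw [dot_isom hO]; simp
      · have := cD.prob
        rw [hν, hsm, mulVec_mulVec, Matrix.mul_assoc, hO, Matrix.mul_one, ← mulVec_mulVec,
          dot_isom hO, quad_sm cD, add_halves]
        refine hδ'.trans ?_
        have hS : MeasurableSet {x : Fin n → ℝ | 1 ≤ |x ⟨0, hn⟩|} :=
          (isClosed_le continuous_const (by fun_prop)).measurableSet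
        rw [← integral_indicator_one hS]
        refine integral_mono ((integrable_const 1).indicator hS)
          (integrable_cp cD (by unfold dotProduct; fun_prop)) fun x => ?_
        by_cases hx : x ∈ {x : Fin n → ℝ | 1 ≤ |x ⟨0, hn⟩|}
        · simp only [Set.indicator_of_mem hx, Pi.one_apply, single_one_dotProduct]
          exact (one_le_sq_iff_one_le_abs _).2 hx
        · simp only [Set.indicator_of_notMem hx]; positivity
    simp only [not_le] at h4
    refine h4.trans ((measure_union_le _ _).trans ?_)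
    simp only [not_le] at h3
    refine (add_le_add h1 h3).trans (le_of_eq ?_)
    rw [← ENNReal.ofReal_add (by positivity) (by positivity), add_halves]
  · refine ⟨1, one_pos, fun M => ?_⟩
    obtain ⟨c, hc, hU⟩ := hU (|M| + 1 + 1)
    refine ⟨c / 2, by positivity, Eventually.frequently ?_⟩
    filter_upwards [hU, eventually_ge_atTop 1,
      whp_iff.1 (hCl.2 1 (1 ^ 2 / 4) zero_le_one (by positivity)) (c / 2) (by positivity)]
      with n h1 hn h3
    have hS : MeasurableSet {W : Mat n | |M| + 1 + 1 ≤ lam (sm (nuW n W)) 0} :=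
      measurableSet_le measurable_const ((measurable_lam_apply 0).comp
        (hL n hn).2.2.2.2.2.2.2.2.2.2.2.1.measurable)
    have h4 := le_goe (P := fun g => M ≤ Soft.An n g 1)
      (B := {W | |M| + 1 + 1 ≤ lam (sm (nuW n W)) 0}ᶜ ∪
        {W | ¬ D2 1 (muW n W) (nuW n W) ≤ 1 ^ 2 / 4}) fun g d hgd => by
      simp only [Set.mem_union, Set.mem_ofPred_eq, Set.mem_compl_iff, not_or, not_not] at hgd
      have h0 : 0 < Fintype.card (Fin n) := by simpa using Nat.succ_le_iff.1 hn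
      have hM0 : 0 < |M| + 1 := by positivity
      refine le_trans ?_ (key n hn g d (vec (sm (nuW n (Wmat n g d))) 0) (|M| + 1) 1
        (vec_dot_self (sm_herm _) h0) hM0 zero_le_one
        (by rw [quad_vec (sm_herm _) h0]; exact hgd.1) hgd.2)
      have h1 := add_one_le_exp (-(1 / (|M| + 1)))
      have h2 : (|M| + 1) * (-(1 / (|M| + 1)) + 1) = |M| := by field_simp; ring
      have h3 := mul_le_mul_of_nonneg_left h1 hM0.le
      linarith [le_abs_self M]
    have r1 := ENNReal.toReal_mono (measure_ne_top _ _) h1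
    have r3 := ENNReal.toReal_mono ENNReal.ofReal_ne_top h3
    have r4 := ENNReal.toReal_mono (measure_ne_top _ _) h4
    rw [ENNReal.toReal_ofReal (by positivity), ← measureReal_def] at r1 r3
    rw [← measureReal_def, ← measureReal_def] at r4
    have r5 := r4.trans (measureReal_union_le _ _)
    rw [probReal_compl_eq_one_sub hS] at r5
    have r6 : (disorderLaw n).real Set.univ ≤ (disorderLaw n).real {g | M ≤ Soft.An n g 1} +
        (disorderLaw n).real {g | ¬ M ≤ Soft.An n g 1} :=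
      (measureReal_mono fun g _ => em _).trans (measureReal_union_le _ _)
    rw [probReal_univ] at r6
    exact ENNReal.ofReal_le_of_le_toReal (by rw [← measureReal_def]; linarith)

theorem unbGlue : UnbGlue := by
  intro hI hS hL hG hC hO M
  obtain ⟨K, κ, hκ, hO⟩ := hO (1 / 8) (by norm_num)
  obtain ⟨C, -, hG⟩ := hG
  obtain ⟨L, w₁, hL0, hG⟩ := hG (1 / 64) (by norm_num)
  obtain ⟨w₂, -, hC⟩ := hC L C ((|M| + 1) / κ) K hL0
  obtain ⟨B, δ, -, hδ, hC⟩ := hC (max w₁ w₂) (le_max_right _ _)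
  obtain ⟨l, hl⟩ : ∃ l, l = |M| / (δ / 2) := ⟨_, rfl⟩
  refine ⟨exp (-(2 * l ^ 2)) / 2 * (3 / 4), by positivity, ?_⟩
  filter_upwards [hG _ (le_max_left w₁ w₂), hC, hO, eventually_ge_atTop 1] with n h1 h2 h3 hn
  have h0 : 0 < Fintype.card (Fin n) := by simpa using Nat.succ_le_iff.1 hn
  have t0 : 0 < sx n ^ 2 := pow_pos (sx_pos hn) 2
  obtain ⟨S, hSd⟩ : ∃ S, S = {W : Mat n | M ≤ lam (sm (nuW n W)) 0} := ⟨_, rfl⟩
  have hSm : MeasurableSet S := hSd ▸ measurableSet_le measurable_const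
    ((measurable_lam_apply 0).comp (hL n hn).2.2.2.2.2.2.2.2.2.2.2.1.measurable)
  rw [← hSd]
  obtain ⟨Bd, hBd, hBm, hBe⟩ := exists_measurable_superset (GOE n)
    {W | ¬ (W.IsHermitian ∧ Gd n (Lam n W) (sx n ^ 2) L (max w₁ w₂) C)}
  have mp := mp_mix hn
  have mmix : ∀ A : Mat n, Measurable (mix n A) := fun A =>
    mp.measurable.comp measurable_prodMk_left
  -- the deterministic step
  have det : ∀ (A : Mat n) (x : Fin n × Fin n → ℝ), A.IsHermitian →
      mix n A (symG (1 / √n) x) ∉ Bd →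
      (∃ k, k < K ∧ κ ≤ |vec A 0 ⬝ᵥ vec (mix n A (symG (1 / √n) x)) k|) →
      mix n A (symG (1 / √n) (x + fun p => √2 * l * (vec A 0 p.1 * vec A 0 p.2))) ∈ S := by
    intro A x hA hx ⟨k, hk, hκk⟩
    obtain ⟨hW, hgood⟩ := not_not.1 fun h => hx (hBd h)
    rw [hSd, Set.mem_ofPred_eq]
    have cW := ((hL n hn).1 (mix n A (symG (1 / √n) x))).2.1
    have cW' := ((hL n hn).1 (mix n A (symG (1 / √n)
      (x + fun p => √2 * l * (vec A 0 p.1 * vec A 0 p.2))))).2.1
    refine le_trans ?_ (quad_le_of_unit (sm_herm _) (vec_dot_self hA h0))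
    rw [quad_sm cW', nuW_shift hS hn]
    refine (le_abs_self M).trans (tilt_ge cW (by unfold dotProduct; fun_prop) (fun _ => sq_nonneg _)
      (abs_nonneg M) (half_pos hδ) (le_of_eq (by rw [hl]; field_simp)) ?_)
    generalize mix n A (symG (1 / √n) x) = W at *
    have hkn : k < n := by
      by_contra hc
      rw [vec_of_le (k := k) (by simpa using hc)] at hκk
      simp at hκk; linarith
    obtain ⟨O, hO, hOv, hν⟩ := (hL n hn).2.2.2.1 _ hW
    obtain ⟨cD, hflip⟩ := (hL n hn).2.1 (Lam n W) _ t0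
    have := cD.prob
    have hδ' := (h2 _ _ t0 hgood ⟨k, hkn⟩).2 hk
    have h4 := flip_ge (hflip ⟨k, hkn⟩) (Oᵀ *ᵥ vec A 0) hκ.le
      (m := (|M| + 1) / κ) (by positivity) (by
        refine hκk.trans (le_of_eq ?_)
        simp only [mulVec, dotProduct, transpose_apply, hOv, mul_comm])
    have hm : MeasurableSet {y : Fin n → ℝ | |M| + 1 ≤ (vec A 0 ⬝ᵥ y) ^ 2} :=
      (isClosed_le continuous_const (by unfold dotProduct; fun_prop)).measurableSet
    rw [hν, map_measureReal_apply (by unfold mulVec dotProduct; fun_prop) hm]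
    refine (by linarith : δ / 2 ≤ _).trans (h4.trans (measureReal_mono fun y hy => ?_))
    simp only [Set.mem_ofPred_eq, Set.mem_preimage] at hy ⊢
    rw [mul_div_cancel₀ _ hκ.ne', mulVec_transpose, ← dotProduct_mulVec] at hy
    rw [← sq_abs]
    nlinarith [abs_nonneg M]
  -- one good matrix `A`
  have one : ∀ A : Mat n, A.IsHermitian →
      GOE n {G | ¬ ∃ k, k < K ∧ κ ≤ |vec A 0 ⬝ᵥ vec (mix n A G) k|} ≤ ENNReal.ofReal (1 / 8) →
      GOE n (mix n A ⁻¹' Bd) ≤ ENNReal.ofReal (1 / 8) →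
      ENNReal.ofReal (exp (-(2 * l ^ 2)) / 2) ≤ GOE n (mix n A ⁻¹' S) := by
    intro A hA g1 g2
    have ms := measurable_symG (ι := Fin n) (1 / √n)
    have f1 := (Measure.le_map_apply (μ := gv (Fin n × Fin n)) ms.aemeasurable _).trans g1
    have f2 := (Measure.le_map_apply (μ := gv (Fin n × Fin n)) ms.aemeasurable _).trans g2
    have r1 := ENNReal.toReal_mono ENNReal.ofReal_ne_top f1
    have r2 := ENNReal.toReal_mono ENNReal.ofReal_ne_top f2
    rw [ENNReal.toReal_ofReal (by norm_num), ← measureReal_def] at r1 r2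
    have hS' : MeasurableSet (symG (1 / √n) ⁻¹' (mix n A ⁻¹' S)) := ms (mmix A hSm)
    have h5 := cm_lower (fun p => √2 * l * (vec A 0 p.1 * vec A 0 p.2)) hS' (by
      have hsub : (Set.univ : Set (Fin n × Fin n → ℝ)) ⊆ _ ∪ (_ ∪ _) := fun x _ => by
        by_cases a1 : x ∈ symG (1 / √n) ⁻¹' (mix n A ⁻¹' Bd)
        · exact Or.inr (Or.inr a1)
        by_cases a2 : x ∈ symG (1 / √n) ⁻¹'
          {G | ¬ ∃ k, k < K ∧ κ ≤ |vec A 0 ⬝ᵥ vec (mix n A G) k|}
        · exact Or.inr (Or.inl a2)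
        exact Or.inl (show x ∈ {g | g + (fun p : Fin n × Fin n => √2 * l *
          (vec A 0 p.1 * vec A 0 p.2)) ∈ symG (1 / √n) ⁻¹' (mix n A ⁻¹' S)} from
          det A x hA a1 (not_not.1 a2))
      have := (measureReal_mono (μ := gv (Fin n × Fin n)) hsub).trans ((measureReal_union_le _ _).trans
        (add_le_add_right (measureReal_union_le _ _) _))
      rw [probReal_univ] at this
      linarith)
    have e : (fun p : Fin n × Fin n => √2 * l * (vec A 0 p.1 * vec A 0 p.2)) ⬝ᵥ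
        (fun p => √2 * l * (vec A 0 p.1 * vec A 0 p.2)) = 2 * l ^ 2 := by
      have h6 := vec_dot_self hA h0
      have h7 : √2 * √2 = 2 := Real.mul_self_sqrt (by norm_num)
      calc _ = (√2 * √2) * l ^ 2 * ((vec A 0 ⬝ᵥ vec A 0) * (vec A 0 ⬝ᵥ vec A 0)) := by
            simp only [dotProduct, Fintype.sum_prod_type, sum_mul_sum]
            simp only [mul_sum]
            exact sum_congr rfl fun i _ => sum_congr rfl fun j _ => by ring
        _ = _ := by rw [h6, h7]; ring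
    rw [e] at h5
    rw [GOE, goe, Measure.map_apply ms (mmix A hSm)]
    exact ENNReal.ofReal_le_of_le_toReal h5
  -- Fubini and Markov
  have fub : ∀ T : Set (Mat n), MeasurableSet T →
      Measurable (fun A => GOE n (mix n A ⁻¹' T)) ∧ ∫⁻ A, GOE n (mix n A ⁻¹' T) ∂GOE n = GOE n T :=
    fun T hT => ⟨measurable_measure_prodMk_left (mp.measurable hT), by
      rw [← mp.measure_preimage hT.nullMeasurableSet, Measure.prod_apply (mp.measurable hT)]; rfl⟩
  have mk := mul_meas_ge_le_lintegral₀ (μ := GOE n) (fub Bd hBm).1.aemeasurable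
    (ENNReal.ofReal (1 / 8))
  rw [(fub Bd hBm).2, hBe] at mk
  have mk' : (GOE n).real {A | ENNReal.ofReal (1 / 8) ≤ GOE n (mix n A ⁻¹' Bd)} ≤ 1 / 8 := by
    have := ENNReal.toReal_mono ENNReal.ofReal_ne_top (mk.trans h1)
    rw [ENNReal.toReal_mul, ENNReal.toReal_ofReal (by norm_num),
      ENNReal.toReal_ofReal (by norm_num), ← measureReal_def] at this
    linarith
  have r3 := ENNReal.toReal_mono ENNReal.ofReal_ne_top h3
  rw [ENNReal.toReal_ofReal (by norm_num), ← measureReal_def] at r3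
  have big : 3 / 4 ≤ (GOE n).real
      {A | ENNReal.ofReal (exp (-(2 * l ^ 2)) / 2) ≤ GOE n (mix n A ⁻¹' S)} := by
    have hsub : (Set.univ : Set (Mat n)) ⊆ _ ∪ (_ ∪ _) := fun A _ => by
      by_cases a1 : A ∈ {A | ENNReal.ofReal (1 / 8) ≤ GOE n (mix n A ⁻¹' Bd)}
      · exact Or.inr (Or.inr a1)
      by_cases a2 : A ∈ {A : Mat n | ¬ (A.IsHermitian ∧
        GOE n {G | ¬ ∃ k, k < K ∧ κ ≤ |vec A 0 ⬝ᵥ vec (mix n A G) k|} ≤ ENNReal.ofReal (1 / 8))}
      · exact Or.inr (Or.inl a2)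
      exact Or.inl (show A ∈ {A | ENNReal.ofReal (exp (-(2 * l ^ 2)) / 2) ≤
        GOE n (mix n A ⁻¹' S)} from one A (not_not.1 a2).1 (not_not.1 a2).2 (not_le.1 a1).le)
    have := (measureReal_mono (μ := GOE n) hsub).trans ((measureReal_union_le _ _).trans
      (add_le_add_right (measureReal_union_le _ _) _))
    rw [probReal_univ] at this
    linarith
  have mk2 := mul_meas_ge_le_lintegral₀ (μ := GOE n) (fub S hSm).1.aemeasurable
    (ENNReal.ofReal (exp (-(2 * l ^ 2)) / 2))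
  rw [(fub S hSm).2] at mk2
  rw [ENNReal.ofReal_mul (by positivity)]
  exact (mul_le_mul_right (ENNReal.ofReal_le_of_le_toReal big) _).trans mk2

end Crest.Agent.T157.St
end
end

-- ▼ part T157/StOvl_62
section

/-!
# Row 157, part C4: overlap of the top eigenvector with the edge modes of the mixture (helper62)

`ovlGlue : OvlGlue`.  Real spectral parameter, a test vector `u + y` with `y ⊥ u`.
-/

set_option autoImplicit false

noncomputable section

namespace Crest.Agent.T157.St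

open MeasureTheory ProbabilityTheory Matrix Filter Topology Finset Real
open scoped ENNReal
open Crest.Agent.T157.E Crest.Agent.T157.Eig Crest.Agent.T157.Cond Crest.Agent.T157.Ed

namespace Ovl62

variable {n : ℕ}

/-- the matrix `w + τ (2 - W)` -/
def Mm (n : ℕ) (w : ℝ) (W : Mat n) : Mat n := (w + 2 * tau n) • (1 : Mat n) - tau n • W
/-- its inverse -/
def Rm (n : ℕ) (w : ℝ) (W : Mat n) : Mat n := fnK (fun x => (w + tau n * (2 - x))⁻¹) W

lemma quad_Mm (w : ℝ) (W : Mat n) (x : Fin n → ℝ) :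
    x ⬝ᵥ Mm n w W *ᵥ x = (w + 2 * tau n) * (x ⬝ᵥ x) - tau n * (x ⬝ᵥ W *ᵥ x) := by
  rw [Mm, sub_mulVec, smul_mulVec, smul_mulVec, one_mulVec, dotProduct_sub, dotProduct_smul,
    dotProduct_smul, smul_eq_mul, smul_eq_mul]

lemma Mm_eq (w : ℝ) {W : Mat n} (hW : W.IsHermitian) :
    Mm n w W = fnK (fun x => w + tau n * (2 - x)) W := by
  have e : (fun x : ℝ => w + tau n * (2 - x)) = fun x => (w + 2 * tau n) - tau n * x := by
    funext x; ring
  rw [e, fnK_sub (fun _ => w + 2 * tau n) (fun x => tau n * x), fnK_const hW,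
    fnK_smul (tau n) (fun x => x), fnK_id_real hW, Mm]

lemma quad_sum (w : ℝ) {W : Mat n} (hW : W.IsHermitian) (x : Fin n → ℝ) :
    x ⬝ᵥ Mm n w W *ᵥ x = ∑ k ∈ range n, (w + Lam n W k) * (vec W k ⬝ᵥ x) ^ 2 := by
  rw [Mm_eq w hW, quad_fnK, Fintype.card_fin]
  exact sum_congr rfl fun k _ => by rw [Lam, sq]

lemma dot_sum {W : Mat n} (hW : W.IsHermitian) (u x : Fin n → ℝ) :
    u ⬝ᵥ x = ∑ k ∈ range n, (vec W k ⬝ᵥ u) * (vec W k ⬝ᵥ x) := by
  rw [dot_eq hW, Fintype.card_fin]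

lemma amgm {p x c m D : ℝ} (hc : 0 < c) (hm : c ≤ m) (hD : 0 < D) :
    p * x ≤ 1 / (2 * D) * (m * x ^ 2) + D / 2 * (p ^ 2 / c) := by
  have h1 : 1 / (2 * D) * (c * x ^ 2) + D / 2 * (p ^ 2 / c) - p * x =
      (c * x - D * p) ^ 2 / (2 * D * c) := by field_simp; ring
  have h2 : 0 ≤ (c * x - D * p) ^ 2 / (2 * D * c) := by positivity
  have h3 : 1 / (2 * D) * (c * x ^ 2) ≤ 1 / (2 * D) * (m * x ^ 2) :=
    mul_le_mul_of_nonneg_left (mul_le_mul_of_nonneg_right hm (sq_nonneg _)) (by positivity)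
  linarith

/-- a test vector of bounded energy forces an overlap -/
lemma ovl_of_test {w D : ℝ} {K : ℕ} {W : Mat n} (hW : W.IsHermitian) (hD : 0 < D)
    (h1 : ∀ k < n, 1 ≤ w + Lam n W k) (h2 : ∀ k < n, K ≤ k → 2 * D ≤ w + Lam n W k)
    {u x : Fin n → ℝ} (hu : u ⬝ᵥ u = 1) (hx : u ⬝ᵥ x = 1) (hQ : x ⬝ᵥ Mm n w W *ᵥ x ≤ D) :
    ∃ k, k < K ∧ 1 / (2 * D + K + 1) ≤ |u ⬝ᵥ vec W k| := by
  by_contra hc
  push Not at hc
  set κ : ℝ := 1 / (2 * D + K + 1) with hκ
  have hκ0 : 0 < κ := by positivity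
  have a1 : ∀ k ∈ range n, (vec W k ⬝ᵥ u) * (vec W k ⬝ᵥ x) ≤
      1 / (2 * D) * ((w + Lam n W k) * (vec W k ⬝ᵥ x) ^ 2) +
        (D / 2 * (if k < K then κ ^ 2 else 0) +
          1 / 4 * ((vec W k ⬝ᵥ u) * (vec W k ⬝ᵥ u))) := by
    intro k hk
    have hk' := mem_range.1 hk
    split_ifs with h
    · have b1 := amgm (p := vec W k ⬝ᵥ u) (x := vec W k ⬝ᵥ x) one_pos (h1 k hk') hD
      have b2 : (vec W k ⬝ᵥ u) ^ 2 / 1 ≤ κ ^ 2 := by
        rw [div_one, ← sq_abs, dotProduct_comm]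
        exact pow_le_pow_left₀ (abs_nonneg _) (hc k h).le 2
      have b3 := mul_le_mul_of_nonneg_left b2 (by positivity : 0 ≤ D / 2)
      linarith [mul_self_nonneg (vec W k ⬝ᵥ u)]
    · have b1 := amgm (p := vec W k ⬝ᵥ u) (x := vec W k ⬝ᵥ x) (by positivity : 0 < 2 * D)
        (h2 k hk' (not_lt.1 h)) hD
      have b2 : D / 2 * ((vec W k ⬝ᵥ u) ^ 2 / (2 * D)) =
          1 / 4 * ((vec W k ⬝ᵥ u) * (vec W k ⬝ᵥ u)) := by field_simp; ring
      linarith
  have a2 := sum_le_sum a1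
  rw [sum_add_distrib, sum_add_distrib, ← mul_sum, ← mul_sum, ← mul_sum, ← dot_sum hW,
    ← dot_sum hW, ← quad_sum w hW, hu, hx] at a2
  have a3 : ∑ k ∈ range n, (if k < K then κ ^ 2 else 0) ≤ K * κ ^ 2 := by
    rw [← sum_filter, sum_const, nsmul_eq_mul]
    refine mul_le_mul_of_nonneg_right ?_ (sq_nonneg _)
    have : ((range n).filter (· < K)).card ≤ (range K).card :=
      card_le_card fun k hk => mem_range.2 (mem_filter.1 hk).2
    rw [card_range] at this
    exact_mod_cast this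
  have a4 : 1 / (2 * D) * (x ⬝ᵥ Mm n w W *ᵥ x) ≤ 1 / 2 := by
    calc _ ≤ 1 / (2 * D) * D := mul_le_mul_of_nonneg_left hQ (by positivity)
      _ = 1 / 2 := by field_simp
  have hK : (0 : ℝ) ≤ K := Nat.cast_nonneg _
  have a5 : K * κ ≤ 1 := by
    rw [hκ, mul_one_div, div_le_one (by positivity)]; linarith
  have a6 : 2 * D * κ < 1 := by
    rw [hκ, mul_one_div, div_lt_one (by positivity)]; linarith
  have a7 : D / 2 * (K * κ ^ 2) ≤ D / 2 * κ := by
    refine mul_le_mul_of_nonneg_left ?_ (by positivity)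
    calc K * κ ^ 2 = K * κ * κ := by ring
      _ ≤ 1 * κ := mul_le_mul_of_nonneg_right a5 hκ0.le
      _ = κ := one_mul _
  have a8 := mul_le_mul_of_nonneg_left a3 (by positivity : 0 ≤ D / 2)
  linarith

/-- the optimal correction -/
lemma test {M R : Mat n} (hR : Rᵀ = R) (hMR : M * R = 1) (hM : ∀ v, v ⬝ᵥ v ≤ v ⬝ᵥ M *ᵥ v)
    {u : Fin n → ℝ} (hu : u ⬝ᵥ u = 1) :
    0 < u ⬝ᵥ R *ᵥ u ∧ R *ᵥ u ⬝ᵥ R *ᵥ u ≤ u ⬝ᵥ R *ᵥ u ∧ ∀ ξ, ∃ y, u ⬝ᵥ y = 0 ∧
      y ⬝ᵥ M *ᵥ y - 2 * (ξ ⬝ᵥ y) = (R *ᵥ u ⬝ᵥ ξ) ^ 2 / (u ⬝ᵥ R *ᵥ u) - ξ ⬝ᵥ R *ᵥ ξ := by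
  have h0 : ∀ v, M *ᵥ (R *ᵥ v) = v := fun v => by rw [mulVec_mulVec, hMR, one_mulVec]
  have h1 : R *ᵥ u ⬝ᵥ R *ᵥ u ≤ u ⬝ᵥ R *ᵥ u := by
    have := hM (R *ᵥ u)
    rwa [h0, dotProduct_comm _ u] at this
  have h2 : 0 < u ⬝ᵥ R *ᵥ u := by
    refine lt_of_lt_of_le (Eig.dot_self_pos fun h => ?_) h1
    have := h0 u
    rw [h, mulVec_zero] at this
    rw [← this] at hu
    simp at hu
  refine ⟨h2, h1, fun ξ => ?_⟩
  have h3 : u ⬝ᵥ R *ᵥ ξ = R *ᵥ u ⬝ᵥ ξ := Cond.dot_symm hR u ξ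
  set β := (R *ᵥ u ⬝ᵥ ξ) / (u ⬝ᵥ R *ᵥ u) with hβ
  have h4 : u ⬝ᵥ R *ᵥ (ξ - β • u) = 0 := by
    rw [mulVec_sub, mulVec_smul, dotProduct_sub, dotProduct_smul, h3, smul_eq_mul, hβ]
    field_simp
    ring
  refine ⟨R *ᵥ (ξ - β • u), h4, ?_⟩
  rw [h0, dotProduct_sub, dotProduct_smul, dotProduct_comm _ u, h4, dotProduct_comm _ ξ,
    mulVec_sub, mulVec_smul, dotProduct_sub, dotProduct_smul, dotProduct_comm ξ (R *ᵥ u), hβ]
  simp only [smul_eq_mul]
  ring

lemma Mm_mul_Rm {w : ℝ} {W : Mat n} (hW : W.IsHermitian) (h1 : ∀ k < n, 1 ≤ w + Lam n W k) :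
    Mm n w W * Rm n w W = 1 := by
  rw [Mm_eq w hW, Rm, fnK_mul hW, ← fnK_one hW]
  refine fnK_congr fun k hk => mul_inv_cancel₀ ?_
  have := h1 k (by simpa using hk)
  rw [Lam] at this
  linarith

lemma Rm_symm (w : ℝ) (W : Mat n) : (Rm n w W)ᵀ = Rm n w W := by
  ext i j; rw [transpose_apply, Rm]; exact fnK_symm _ W j i

lemma le_Mm {w : ℝ} {W : Mat n} (hW : W.IsHermitian) (h1 : ∀ k < n, 1 ≤ w + Lam n W k)
    (v : Fin n → ℝ) : v ⬝ᵥ v ≤ v ⬝ᵥ Mm n w W *ᵥ v := by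
  rw [quad_sum w hW, dot_sum hW]
  refine sum_le_sum fun k hk => ?_
  rw [← sq]
  exact le_mul_of_one_le_left (sq_nonneg _) (h1 k (mem_range.1 hk))

lemma trace_Rm (w t : ℝ) {W : Mat n} (hW : W.IsHermitian) :
    (Rm n w W).trace = Sr n (Lam n W) t w + t := by
  rw [Rm, trace_fnK hW, Fintype.card_fin, Sr, sub_add_cancel]
  exact sum_congr rfl fun k _ => by rw [one_div, Lam]

lemma fro_Rm {w t L C : ℝ} {W : Mat n} (hW : W.IsHermitian) (h1 : ∀ k < n, 1 ≤ w + Lam n W k)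
    (hG : Gd n (Lam n W) t L w C) : Conc.fro (Rm n w W) ≤ 2 * (C * √(w + 1)) := by
  have e1 : Conc.fro (Rm n w W) = (Rm n w W * Rm n w W).trace := by
    simp only [Conc.fro, trace, diag_apply, mul_apply]
    refine sum_congr rfl fun i _ => sum_congr rfl fun j _ => ?_
    rw [sq]; congr 1; exact fnK_symm _ _ _ _
  rw [e1, Rm, fnK_mul hW, trace_fnK hW, Fintype.card_fin]
  have e2 : ∑ k ∈ range n, (w + tau n * (2 - lam W k))⁻¹ * (w + tau n * (2 - lam W k))⁻¹ ≤
      2 * (Sr n (Lam n W) t w - Sr n (Lam n W) t (w + 1)) := by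
    rw [Sr, Sr, sub_sub_sub_cancel_right, ← sum_sub_distrib, mul_sum]
    refine sum_le_sum fun k hk => ?_
    have a := h1 k (mem_range.1 hk)
    change (w + Lam n W k)⁻¹ * (w + Lam n W k)⁻¹ ≤ _
    rw [show w + 1 + Lam n W k = (w + Lam n W k) + 1 by ring]
    generalize w + Lam n W k = m at a
    have : 2 * (1 / m - 1 / (m + 1)) - m⁻¹ * m⁻¹ = (m - 1) / (m ^ 2 * (m + 1)) := by
      field_simp; ring
    have h2 : 0 ≤ (m - 1) / (m ^ 2 * (m + 1)) := div_nonneg (by linarith) (by positivity)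
    linarith
  have e3 := hG.up
  have e4 := hG.dn (w + 1) (by linarith)
  linarith [Real.sqrt_nonneg w]

/-- the resampled GOE matrix -/
def Tm (s : ℝ) (u : Fin n → ℝ) (p : (Fin n → ℝ) × Mat n) : Mat n :=
  s • rk2 (noise 1 u p.1) (dirv 1 u) + nextR 1 u * p.2 * nextR 1 u

lemma measurable_Tm (s : ℝ) (u : Fin n → ℝ) : Measurable (Tm s u) := by
  unfold Tm; fun_prop

lemma law_Tm (s : ℝ) (u : Fin n → ℝ) :
    ((gv (Fin n)).prod (goe (Fin n) s)).map (Tm s u) = goe (Fin n) s := by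
  have h := goe_step0 (IsProj.one (ι := Fin n)) u s
  simp only [Matrix.one_mul, Matrix.mul_one, Measure.map_id'] at h
  exact h.symm

lemma quad_Tm (s : ℝ) {u y : Fin n → ℝ} (hu : u ⬝ᵥ u = 1) (hy : u ⬝ᵥ y = 0) (ξ : Fin n → ℝ)
    (G : Mat n) : (u + y) ⬝ᵥ Tm s u (ξ, G) *ᵥ (u + y) =
      s * (√2 * (u ⬝ᵥ ξ) + 2 * (ξ ⬝ᵥ y)) + y ⬝ᵥ G *ᵥ y := by
  have h1 : dirv 1 u = u := by
    rw [dirv, one_mulVec, unitv, len, hu, Real.sqrt_one, inv_one, one_smul]
  have h2 : nextR 1 u *ᵥ (u + y) = y := by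
    rw [nextR, h1, sub_mulVec, one_mulVec, vmv_mulVec, dotProduct_add, hu, hy]; simp
  have h3 : (nextR 1 u)ᵀ = nextR 1 u := nextR_symm IsProj.one u
  have h4 : (u + y) ⬝ᵥ (nextR 1 u * G * nextR 1 u) *ᵥ (u + y) = y ⬝ᵥ G *ᵥ y := by
    rw [← mulVec_mulVec, ← mulVec_mulVec, Cond.dot_symm h3, h2]
  have h5 : noise 1 u ξ = ξ + ((√2 - 1) * (u ⬝ᵥ ξ)) • u := by
    rw [noise_eq IsProj.one, h1, one_mulVec]
  have hy' : y ⬝ᵥ u = 0 := by rw [dotProduct_comm, hy]
  rw [Tm, add_mulVec, dotProduct_add, h4, h1, h5, rk2, smul_mulVec, dotProduct_smul, sub_mulVec,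
    add_mulVec, smul_mulVec, vmv_mulVec, vmv_mulVec, vmv_mulVec]
  simp only [dotProduct_add, add_dotProduct, dotProduct_sub, dotProduct_smul, smul_dotProduct,
    smul_eq_mul, hu, hy, hy', dotProduct_comm ξ u, dotProduct_comm y ξ]
  ring

lemma quad_mix (A G : Mat n) (x : Fin n → ℝ) : x ⬝ᵥ mix n A G *ᵥ x =
    √(1 - (sx n ^ 2)⁻¹) * (x ⬝ᵥ A *ᵥ x) + √((sx n ^ 2)⁻¹) * (x ⬝ᵥ G *ᵥ x) := by
  rw [mix, add_mulVec, smul_mulVec, smul_mulVec, dotProduct_add, dotProduct_smul,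
    dotProduct_smul, smul_eq_mul, smul_eq_mul]

lemma coef (hn : 1 ≤ n) : tau n * (√((sx n ^ 2)⁻¹) * (1 / √n)) = 1 := by
  have h := sx_pos hn
  rw [Real.sqrt_inv, Real.sqrt_sq h.le, sqrt_eq, tau_eq]
  field_simp

lemma shift_le (hn : 1 ≤ n) : 2 * tau n * (1 - √(1 - (sx n ^ 2)⁻¹)) ≤ sx n ^ 2 + 1 := by
  have h1 : 1 ≤ sx n ^ 2 := one_le_pow₀ (one_le_sx hn)
  rw [Good84.tau_eq_sq]
  generalize sx n ^ 2 = t at h1
  have h2 : t⁻¹ ≤ 1 := inv_le_one_of_one_le₀ h1
  have h3 : 0 ≤ t⁻¹ := by positivity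
  have h4 : 1 - t⁻¹ / 2 - t⁻¹ ^ 2 / 2 ≤ √(1 - t⁻¹) := by
    refine Real.le_sqrt_of_sq_le ?_
    generalize t⁻¹ = x at h2 h3
    have a1 : x ^ 3 ≤ x ^ 2 := pow_le_pow_of_le_one h3 h2 (by norm_num)
    have a2 : x ^ 4 ≤ x ^ 2 := pow_le_pow_of_le_one h3 h2 (by norm_num)
    nlinarith
  have h5 : 2 * t ^ 2 * (t⁻¹ / 2 + t⁻¹ ^ 2 / 2) = t + 1 := by field_simp
  rw [← h5]
  exact mul_le_mul_of_nonneg_left (by linarith) (by positivity)

/-- energy of the test vector -/
lemma energy (hn : 1 ≤ n) (w : ℝ) {A : Mat n} (hA : A.IsHermitian) {y : Fin n → ℝ}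
    (hy : vec A 0 ⬝ᵥ y = 0) {D : ℝ} (hD0 : 0 ≤ D) (hD : Lam n A 0 ≤ D) (ξ : Fin n → ℝ)
    (G : Mat n) :
    (vec A 0 + y) ⬝ᵥ Mm n w (mix n A (Tm (1 / √n) (vec A 0) (ξ, G))) *ᵥ (vec A 0 + y) ≤
      w + sx n ^ 2 + 1 + D - √2 * (vec A 0 ⬝ᵥ ξ) +
        (y ⬝ᵥ Mm n w (mix n A G) *ᵥ y - 2 * (ξ ⬝ᵥ y)) := by
  have hu : vec A 0 ⬝ᵥ vec A 0 = 1 := vec_dot_self hA (by simp; omega)
  have hy' : y ⬝ᵥ vec A 0 = 0 := by rw [dotProduct_comm, hy]
  have h1 : (vec A 0 + y) ⬝ᵥ A *ᵥ (vec A 0 + y) = lam A 0 + y ⬝ᵥ A *ᵥ y := by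
    rw [mulVec_add, add_dotProduct, dotProduct_add, dotProduct_add, vec_dot_mulVec hA 0 y,
      mulVec_vec hA, dotProduct_smul, dotProduct_smul, hu, hy, hy']
    simp
  have h2 : (vec A 0 + y) ⬝ᵥ (vec A 0 + y) = 1 + y ⬝ᵥ y := by
    rw [add_dotProduct, dotProduct_add, dotProduct_add, hu, hy, hy']; ring
  rw [quad_Mm, quad_Mm, quad_mix, quad_mix, quad_Tm _ hu hy, h1, h2]
  have h3 := coef hn
  have h4 := shift_le hn
  have h5 : √(1 - (sx n ^ 2)⁻¹) ≤ 1 := by
    have : 0 ≤ (sx n ^ 2)⁻¹ := by positivity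
    exact Real.sqrt_le_one.2 (by linarith)
  have h6 : √(1 - (sx n ^ 2)⁻¹) * Lam n A 0 ≤ D :=
    (mul_le_mul_of_nonneg_left hD (Real.sqrt_nonneg _)).trans (mul_le_of_le_one_left hD0 h5)
  rw [Lam] at h6
  generalize √(1 - (sx n ^ 2)⁻¹) = r at *
  generalize √((sx n ^ 2)⁻¹) = r' at *
  have h7 : tau n * (r' * (1 / √n * (√2 * (vec A 0 ⬝ᵥ ξ) + 2 * (ξ ⬝ᵥ y)))) =
      √2 * (vec A 0 ⬝ᵥ ξ) + 2 * (ξ ⬝ᵥ y) := by
    rw [← mul_assoc r', ← mul_assoc, h3, one_mul]
  linarith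

lemma gauss_sq : ∫ t : ℝ, t ^ 2 ∂gaussianReal 0 1 = 1 := by
  have h := variance_id_gaussianReal (μ := 0) (v := 1)
  rw [variance_eq_integral measurable_id.aemeasurable] at h
  simpa using h

/-- no test vector has small energy -/
def Bad (n : ℕ) (w D : ℝ) (A : Mat n) : Set (Mat n) :=
  {G | ∀ x, vec A 0 ⬝ᵥ x = 1 → D ≤ x ⬝ᵥ Mm n w (mix n A G) *ᵥ x}

lemma measurableSet_Bad (w D : ℝ) (A : Mat n) : MeasurableSet (Bad n w D A) := by
  refine IsClosed.measurableSet ?_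
  have e : Bad n w D A = ⋂ x, ⋂ _ : vec A 0 ⬝ᵥ x = 1,
      {G | D ≤ x ⬝ᵥ Mm n w (mix n A G) *ᵥ x} := by
    ext G; simp [Bad]
  rw [e]
  refine isClosed_iInter fun x => isClosed_iInter fun _ => isClosed_le continuous_const ?_
  simp only [quad_Mm, quad_mix]
  fun_prop

/-- the constant -/
def DD (w L C B : ℝ) : ℝ :=
  w + 62 + L + 2 * B + B ^ 2 + |C| * √w + B * √(2 * (|C| * √(w + 1)) + 1)

lemma sec_le (hn : 8 ≤ n) {w L C B : ℝ} (hL : 0 ≤ L) (hw : L + 1 ≤ w) (hB : 8 ≤ B) {A G : Mat n}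
    (hA : A.IsHermitian) (hAG : Gd n (Lam n A) (sx n ^ 2) L w C)
    (hW : (mix n A G).IsHermitian) (hG : Gd n (Lam n (mix n A G)) (sx n ^ 2) L w C) :
    (gv (Fin n)).real {ξ | Tm (1 / √n) (vec A 0) (ξ, G) ∈ Bad n w (DD w L C B) A} ≤
      6 * exp (-(B / 32)) := by
  have hu : vec A 0 ⬝ᵥ vec A 0 = 1 := vec_dot_self hA (by simp; omega)
  have h1 : ∀ k < n, 1 ≤ w + Lam n (mix n A G) k := fun k hk => by
    have a := hG.lo k hk
    have b : 0 ≤ ((k : ℝ) + 1) ^ (2 / 3 : ℝ) / 256 := by positivity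
    linarith
  obtain ⟨t1, t2, t3⟩ := test (Rm_symm w _) (Mm_mul_Rm hW h1) (le_Mm hW h1) hu
  have h2 : Lam n A 0 ≤ 60 + L := by simpa using hAG.hi 0 (by omega)
  have h3 := trace_Rm w (sx n ^ 2) hW
  have h4 := fro_Rm hW h1 hG
  have h5 := hG.dn w le_rfl
  have h6 : C * √w ≤ |C| * √w := mul_le_mul_of_nonneg_right (le_abs_self _) (Real.sqrt_nonneg _)
  have h7 : C * √(w + 1) ≤ |C| * √(w + 1) :=
    mul_le_mul_of_nonneg_right (le_abs_self _) (Real.sqrt_nonneg _)
  set R := Rm n w (mix n A G)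
  set u := vec A 0
  set ρ := u ⬝ᵥ R *ᵥ u
  set F := 2 * (|C| * √(w + 1)) + 1 with hF
  have hF0 : 0 < F := by positivity
  have hB0 : 0 ≤ B := by linarith
  have p1 := Conc.lin_tail (ι := Fin n) Conc.sg1_gauss u (c := 1)
    (by simpa [dotProduct, sq] using hu.le) hB0
  have p2 := Conc.lin_tail (ι := Fin n) Conc.sg1_gauss (R *ᵥ u) (c := ρ)
    (by simpa [dotProduct, sq] using t2) (u := B * √ρ) (by positivity)
  have p3 := Conc.hw_tail_fro (ι := Fin n) Conc.sg1_gauss (fun _ => gauss_sq) (A := R) hF0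
    (by linarith) hB
  have e2 : -(B * √ρ) ^ 2 / (2 * ρ) = -B ^ 2 / (2 * 1) := by
    rw [mul_pow, Real.sq_sqrt t1.le]; field_simp
  rw [e2] at p2
  have e3 : exp (-B ^ 2 / (2 * 1)) ≤ exp (-(B / 32)) := exp_le_exp.2 (by nlinarith)
  have hsub : {ξ | Tm (1 / √n) u (ξ, G) ∈ Bad n w (DD w L C B) A} ⊆
      ({x | B ≤ |u ⬝ᵥ x|} ∪ {x | B * √ρ ≤ |R *ᵥ u ⬝ᵥ x|}) ∪
        {x | B * √F ≤ |x ⬝ᵥ R *ᵥ x - R.trace|} := by
    intro ξ hξ
    by_contra hc
    simp only [Set.mem_union, Set.mem_ofPred_eq, not_or, not_le] at hc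
    obtain ⟨⟨c1, c2⟩, c3⟩ := hc
    obtain ⟨y, y1, y2⟩ := t3 ξ
    have a1 := hξ (u + y) (by rw [dotProduct_add, hu, y1, add_zero])
    have a2 := energy (by omega) w hA y1 (by linarith) h2 ξ G
    have a3 : (R *ᵥ u ⬝ᵥ ξ) ^ 2 / ρ ≤ B ^ 2 := by
      rw [div_le_iff₀ t1, ← sq_abs, ← Real.sq_sqrt t1.le, ← mul_pow]
      exact pow_le_pow_left₀ (abs_nonneg _) c2.le 2
    have a4 : √2 * -B ≤ √2 * (u ⬝ᵥ ξ) :=
      mul_le_mul_of_nonneg_left (abs_lt.1 c1).1.le (Real.sqrt_nonneg _)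
    have a5 : √2 * B ≤ 2 * B := mul_le_mul_of_nonneg_right
      (Real.sqrt_le_iff.2 ⟨by norm_num, by norm_num⟩) hB0
    have a6 := (abs_lt.1 c3).1
    rw [DD, ← hF] at a1
    linarith
  refine (measureReal_mono hsub).trans ((measureReal_union_le _ _).trans ?_)
  have := measureReal_union_le (μ := gv (Fin n)) {x | B ≤ |u ⬝ᵥ x|} {x | B * √ρ ≤ |R *ᵥ u ⬝ᵥ x|}
  linarith

lemma bad_le (hn : 8 ≤ n) {w L C B : ℝ} (hL : 0 ≤ L) (hw : L + 1 ≤ w) (hB : 8 ≤ B) {A : Mat n}
    (hA : A.IsHermitian) (hAG : Gd n (Lam n A) (sx n ^ 2) L w C) {N : Set (Mat n)}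
    (hN : MeasurableSet N) (hNG : ∀ G ∉ N, (mix n A G).IsHermitian ∧
      Gd n (Lam n (mix n A G)) (sx n ^ 2) L w C) :
    GOE n (Bad n w (DD w L C B) A) ≤ GOE n N + ENNReal.ofReal (6 * exp (-(B / 32))) := by
  have hm := measurableSet_Bad w (DD w L C B) A
  have hT := measurable_Tm (1 / √n) (vec A 0)
  conv_lhs => rw [GOE, ← law_Tm (1 / √n) (vec A 0), Measure.map_apply hT hm,
    Measure.prod_apply_symm (hT hm)]
  calc _ ≤ ∫⁻ G, (N.indicator 1 G + ENNReal.ofReal (6 * exp (-(B / 32)))) ∂GOE n := by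
        refine lintegral_mono fun G => ?_
        by_cases hG : G ∈ N
        · rw [Set.indicator_of_mem hG]
          exact prob_le_one.trans le_self_add
        · refine le_trans ?_ le_add_self
          rw [← ofReal_measureReal (measure_ne_top _ _)]
          exact ENNReal.ofReal_le_ofReal (sec_le hn hL hw hB hA hAG (hNG G hG).1 (hNG G hG).2)
    _ = _ := by
        rw [lintegral_add_right _ measurable_const, lintegral_indicator_one hN, lintegral_const,
          measure_univ, mul_one]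

lemma measurable_mix (n : ℕ) : Measurable fun p : Mat n × Mat n => mix n p.1 p.2 := by
  unfold mix; fun_prop

lemma law_mix (hn : 1 ≤ n) :
    ((GOE n).prod (GOE n)).map (fun p => mix n p.1 p.2) = GOE n := by
  refine map_eq_goe (measurable_mix n) fun M => ?_
  have h1 : 1 ≤ sx n ^ 2 := one_le_pow₀ (one_le_sx hn)
  have h2 : (sx n ^ 2)⁻¹ ≤ 1 := inv_le_one_of_one_le₀ h1
  have h3 : 0 ≤ (sx n ^ 2)⁻¹ := by positivity
  have e : ∀ p : Mat n × Mat n, pair M (mix n p.1 p.2) =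
      pair (√(1 - (sx n ^ 2)⁻¹) • M) p.1 + pair (√((sx n ^ 2)⁻¹) • M) p.2 := fun p => by
    rw [mix, pair_add, pair_smul, pair_smul, smul_pair, smul_pair]
  simp_rw [e]
  rw [CF_prod (GOE n) (GOE n) (fun W => pair (√(1 - (sx n ^ 2)⁻¹) • M) W)
    fun W => pair (√((sx n ^ 2)⁻¹) • M) W, CF_goe, CF_goe, ← Complex.exp_add, Vq_smul, Vq_smul,
    Real.sq_sqrt h3, Real.sq_sqrt (by linarith)]
  congr 1
  push_cast
  ring

lemma markov (hn : 1 ≤ n) {N : Set (Mat n)} (hN : MeasurableSet N) {e : ℝ} (he : 0 < e)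
    (h : GOE n N ≤ ENNReal.ofReal (e * e)) :
    GOE n {A | ENNReal.ofReal e ≤ GOE n {G | mix n A G ∈ N}} ≤ ENNReal.ofReal e := by
  have hm := measurable_mix n hN
  have h0 : ENNReal.ofReal e ≠ 0 := (ENNReal.ofReal_pos.2 he).ne'
  have h1 := mul_meas_ge_le_lintegral (μ := GOE n) (measurable_measure_prodMk_left (ν := GOE n) hm)
    (ENNReal.ofReal e)
  rw [← Measure.prod_apply hm, ← Measure.map_apply (measurable_mix n) hN, law_mix hn] at h1
  have h2 := h1.trans h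
  rw [ENNReal.ofReal_mul he.le] at h2
  exact (ENNReal.mul_le_mul_iff_right h0 ENNReal.ofReal_ne_top).1 h2

theorem ovl (hG : GoodStmt) : OvlStmt := by
  intro ε hε
  obtain ⟨C, -, hC⟩ := hG
  set e : ℝ := min (ε / 4) 1 with he
  have he0 : 0 < e := lt_min (by positivity) one_pos
  have he1 : e ≤ ε / 4 := min_le_left _ _
  have he2 : e * e ≤ e := mul_le_of_le_one_left he0.le (min_le_right _ _)
  obtain ⟨L, w₁, hL, hw⟩ := hC (e * e) (by positivity)
  set w := max w₁ (L + 1)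
  have hw1 : L + 1 ≤ w := le_max_right _ _
  set B : ℝ := 8 + 384 / ε with hB
  have hB8 : 8 ≤ B := by have : 0 < 384 / ε := by positivity
                         linarith
  have hBe : 6 * exp (-(B / 32)) ≤ ε / 2 := by
    have a1 : 12 / ε ≤ exp (B / 32) := by
      have := add_one_le_exp (B / 32)
      have b : B / 32 = 1 / 4 + 12 / ε := by rw [hB]; ring
      linarith
    rw [exp_neg, ← div_eq_mul_inv, div_le_iff₀ (exp_pos _)]
    have a2 := mul_le_mul_of_nonneg_left a1 (by positivity : 0 ≤ ε / 2)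
    have a3 : ε / 2 * (12 / ε) = 6 := by field_simp; norm_num
    linarith
  set D := DD w L C B
  have hD : 0 < D := by
    have : 0 < w := by linarith
    have : 0 < B := by linarith
    simp only [D, DD]; positivity
  obtain ⟨K, hK⟩ := eventually_atTop.1 (((tendsto_rpow_atTop (by norm_num : (0 : ℝ) < 2 / 3)).comp
    (tendsto_atTop_add_const_right _ 1 tendsto_natCast_atTop_atTop)).eventually_ge_atTop (512 * D))
  refine ⟨K, 1 / (2 * D + K + 1), by positivity, ?_⟩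
  filter_upwards [hw w (le_max_left _ _), eventually_ge_atTop 8] with n hn h8
  set N0 := {W : Mat n | ¬ (W.IsHermitian ∧ Gd n (Lam n W) (sx n ^ 2) L w C)}
  set N := toMeasurable (GOE n) N0
  have hN : MeasurableSet N := measurableSet_toMeasurable _ _
  have hN1 : GOE n N ≤ ENNReal.ofReal (e * e) := by rwa [measure_toMeasurable]
  have hN2 : ∀ W ∉ N, W.IsHermitian ∧ Gd n (Lam n W) (sx n ^ 2) L w C := fun W h => by
    by_contra h'
    exact h (subset_toMeasurable _ _ h')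
  have hM := markov (by omega) hN he0 hN1
  calc _ ≤ GOE n (N ∪ {A | ENNReal.ofReal e ≤ GOE n {G | mix n A G ∈ N}}) := by
        refine measure_mono fun A hA => ?_
        by_contra hc
        simp only [Set.mem_union, Set.mem_ofPred_eq, not_or, not_le] at hc
        obtain ⟨a1, a2⟩ := hN2 A hc.1
        refine hA ⟨a1, ?_⟩
        have hm : MeasurableSet {G | mix n A G ∈ N} :=
          (measurable_mix n).comp (measurable_prodMk_left (x := A)) hN
        have b1 := bad_le h8 hL hw1 hB8 a1 a2 hm fun G h => hN2 _ h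
        calc _ ≤ GOE n ({G | mix n A G ∈ N} ∪ Bad n w D A) := by
              refine measure_mono fun G hG => ?_
              by_contra hd
              simp only [Set.mem_union, Set.mem_ofPred_eq, not_or, Bad, not_forall, not_le] at hd
              obtain ⟨d1, x, d2, d3⟩ := hd
              obtain ⟨d4, d5⟩ := hN2 _ d1
              refine hG (ovl_of_test d4 hD (fun k hk => ?_) (fun k hk hk' => ?_)
                (vec_dot_self a1 (by simp; omega)) d2 d3.le)
              · have a := d5.lo k hk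
                have b : 0 ≤ ((k : ℝ) + 1) ^ (2 / 3 : ℝ) / 256 := by positivity
                linarith
              · have a := d5.lo k hk
                have b : 512 * D ≤ ((k : ℝ) + 1) ^ (2 / 3 : ℝ) := hK k hk'
                linarith
          _ ≤ ENNReal.ofReal e + (ENNReal.ofReal e + ENNReal.ofReal (6 * exp (-(B / 32)))) :=
              (measure_union_le _ _).trans (add_le_add hc.2.le (b1.trans (by gcongr; exact hc.2.le)))
          _ ≤ _ := by
              rw [← ENNReal.ofReal_add he0.le (by positivity),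
                ← ENNReal.ofReal_add he0.le (by positivity)]
              exact ENNReal.ofReal_le_ofReal (by linarith)
    _ ≤ ENNReal.ofReal (e * e) + ENNReal.ofReal e :=
        (measure_union_le _ _).trans (add_le_add hN1 hM)
    _ ≤ _ := by
        rw [← ENNReal.ofReal_add (by positivity) he0.le]
        exact ENNReal.ofReal_le_ofReal (by linarith)

end Ovl62

theorem ovlGlue : OvlGlue := fun hS hE => Ovl62.ovl (Good84.good hS hE)

end Crest.Agent.T157.St

end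
end

-- ▼ part T157/StAll_87

/-!
# Row 157, part C4: the statics at `β = 1`, unconditional (assembly, helper87)
-/

set_option autoImplicit false

noncomputable section

namespace Crest.Agent.T157.St.All

open MeasureTheory Filter Topology Matrix Real
open Crest.ProbabilityR.SpinGlassDynamics Crest.Agent.T157.E Crest.Agent.T157.Ed

theorem goodStmt : GoodStmt := (goodGlue steinStmt Ed.All.edgeTStmt).1
theorem renStmt : RenStmt := (goodGlue steinStmt Ed.All.edgeTStmt).2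
theorem lnkStmt : LnkStmt := lnkGlue sphStmt
theorem mgfStmt : MgfStmt := mgfGlue sphStmt shellStmt twoStmt denStmt
theorem coordStmt : CoordStmt := coordGlue sphStmt shellStmt twoStmt denStmt
theorem finStmt : FinStmt :=
  finGlue mmdStmt isomStmt projStmt sphStmt shellStmt fourStmt denStmt mgfStmt coordStmt lnkStmt
theorem lamStmt : LamStmt := lamGlue sphStmt
theorem zsStmt : ZsStmt := zsGlue sphStmt lnkStmt zcStmt
theorem sphTightStmt : SphTightStmt := sphTightGlue isomStmt lnkStmt goodStmt mgfStmt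
theorem closeStmt : CloseStmt :=
  (closeGlue mmdStmt sphStmt lnkStmt rotStmt lamStmt zsStmt sphTightStmt).1
theorem ldStmt : LdStmt := (closeGlue mmdStmt sphStmt lnkStmt rotStmt lamStmt zsStmt sphTightStmt).2
theorem ovlStmt : OvlStmt := ovlGlue steinStmt Ed.All.edgeTStmt
theorem unbStmt : UnbStmt := unbGlue isomStmt sphStmt lnkStmt goodStmt coordStmt ovlStmt
theorem nonzeroStmt : Soft.NonzeroStmt :=
  (nondGlue mmdStmt isomStmt lnkStmt goodStmt coordStmt closeStmt jenStmt unbStmt).1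
theorem unboundedStmt : Soft.UnboundedStmt :=
  (nondGlue mmdStmt isomStmt lnkStmt goodStmt coordStmt closeStmt jenStmt unbStmt).2

lemma hat_dot_hat (n : ℕ) (x y : Cube n) :
    hat n x ⬝ᵥ hat n y = (Soft.N23 n)⁻¹ * (sv x ⬝ᵥ sv y) := by
  rw [hat, hat, smul_dotProduct, dotProduct_smul, smul_eq_mul, smul_eq_mul, ← mul_assoc, ← mul_inv,
    ← pow_add]
  exact congrArg (fun t => t⁻¹ * (sv x ⬝ᵥ sv y)) (tau_eq n).symm

/-- dictionary with the soft top -/
lemma Xth_eq (n : ℕ) (g : Pair n → ℝ) (θ : ℝ) : Soft.Xth n g θ = Xk θ (muG n g) (muG n g) := by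
  simp only [Xk, Lnk10.integral_muG, mean, Soft.Xth, hat_dot_hat, Finset.mul_sum, mul_assoc,
    gibbsProb_eq]

/-- the stretched exponential bound for the couplings -/
theorem ldG (ε : ℝ) (hε : 0 < ε) : ∃ B : ℝ, ∀ᶠ n in atTop,
    disorderLaw n {g | ¬ Mgf (muG n g) B} ≤ ENNReal.ofReal ε := by
  obtain ⟨B, hB⟩ := ldStmt ε hε
  refine ⟨B, hB.mono fun n hn => le_trans (Conv10.disorder_le fun g hg d => ?_) hn⟩
  simpa only [Set.mem_ofPred_eq, Lnk10.muW_Wmat] using hg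

/-- the Gaussian half of `Soft.LD2Stmt` -/
theorem ld2_gauss (θ ε : ℝ) (hε : 0 < ε) : ∃ M : ℝ, ∀ᶠ n in atTop,
    couplingLaw false n {g | M < Soft.Xth n g θ} ≤ ENNReal.ofReal ε := by
  obtain ⟨B, hB⟩ := ldG ε hε
  refine ⟨B * exp (B * |θ| ^ (3 / 2 : ℝ)), hB.mono fun n hn => le_trans (measure_mono ?_) hn⟩
  intro g hg h
  rw [Set.mem_ofPred_eq, Xth_eq] at hg
  exact not_le.2 hg (h θ)

/-- `S0232` without static hypotheses -/
theorem r32_of (h0 : Soft.AFddStmt) (h1 : Soft.ATightStmt) (h2 : Soft.DecayStmt) : Top.R32 :=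
  Soft.r32_of_fdd h0 h1 nonzeroStmt h2 (Soft.spread_of_unbounded h1 unboundedStmt)

theorem r32_of_q1 (h0 : Soft.AFddStmt) (h1 : Soft.Q1EStmt) (h2 : Soft.LD2Stmt)
    (h3 : Soft.MixStmt) : Top.R32 :=
  r32_of h0 (Soft.atight_of_q1 h1 h2) (Soft.decay_of_q1 h1 h2 h3)

end Crest.Agent.T157.St.All

end
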