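import Crest.Agent.T157.GoeT_48
import Crest.Agent.T157.ChainMix_22

/-!
# Row 157: logarithmic Sobolev glue at high temperature (helper59)

`gDLsi : GDLsi`, `famOfAt : AtHi → SubGHi → DLsiFam`, `gLog : GLog`, `subGHi : CovStmt → SubGHi`,
`lsiHiLog : PoinHi → AtHi → CovStmt → LsiHiLog`.
-/

set_option autoImplicit false

noncomputable section

namespace Crest.Agent.T157.TopL

open MeasureTheory Filter Topology Matrix Finset
open Crest.ProbabilityR.SpinGlassDynamics
open Crest.Agent.T157.E Crest.Agent.T157.Top Crest.Agent.T157.Eig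

variable {n : ℕ}

/-- sub-Gaussian linear forms at high temperature -/
def SubGHi : Prop := ∀ β : ℝ, 0 ≤ β → β < 1 → ∃ K : ℝ,
  Whp disorderLaw fun n g => SubG (gibbsWeight n β g) K

/-! ### defective inequality from `(L')` -/



/-! ### exponential moment of the large local fields -/

/-- three-valued selector -/
def sel : Option Bool → ℝ
  | none => 0
  | some true => 1
  | some false => -1

/-- its weight -/
def selW (b : ℝ) : Option Bool → ℝ
  | none => 1
  | some _ => Real.exp (-b)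

lemma selW_nonneg (b : ℝ) (s : Option Bool) : 0 ≤ selW b s := by
  rcases s with _ | s
  · exact zero_le_one
  · exact (Real.exp_pos _).le

lemma sum_sel (b : ℝ) (F : ℝ → ℝ) :
    ∑ s : Option Bool, selW b s * F (sel s) = F 0 + Real.exp (-b) * (F 1 + F (-1)) := by
  rw [Fintype.sum_option, Fintype.sum_bool]
  simp only [sel, selW]
  ring

lemma site_le {θ γ L h : ℝ} (hγ : 0 ≤ γ) (hL : 0 ≤ L) (ι : ℝ)
    (hι : (L < 2 * |h| ∧ ι = 1) ∨ ι = 0) :
    Real.exp (θ * ((1 + 2 * |h|) * ι)) ≤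
      ∑ s : Option Bool, selW (γ * L ^ 2 / 2 - θ) s * Real.exp ((2 * θ + γ * L) * sel s * h) := by
  rw [sum_sel _ fun t => Real.exp ((2 * θ + γ * L) * t * h)]
  have p1 := Real.exp_pos ((2 * θ + γ * L) * 1 * h)
  have p2 := Real.exp_pos ((2 * θ + γ * L) * (-1) * h)
  have p3 := Real.exp_pos (-(γ * L ^ 2 / 2 - θ))
  rcases hι with ⟨h1, rfl⟩ | rfl
  · have h2 : Real.exp ((2 * θ + γ * L) * |h|) ≤
        Real.exp ((2 * θ + γ * L) * 1 * h) + Real.exp ((2 * θ + γ * L) * (-1) * h) := by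
      rcases abs_cases h with ⟨e, _⟩ | ⟨e, _⟩
      · rw [e, mul_one]; linarith
      · rw [e, show (2 * θ + γ * L) * -h = (2 * θ + γ * L) * (-1) * h by ring]; linarith
    have h3 : Real.exp (θ * ((1 + 2 * |h|) * 1)) ≤
        Real.exp (-(γ * L ^ 2 / 2 - θ)) * Real.exp ((2 * θ + γ * L) * |h|) := by
      rw [← Real.exp_add]
      refine Real.exp_le_exp.2 ?_
      nlinarith [mul_le_mul_of_nonneg_left h1.le (mul_nonneg hγ hL)]
    have h4 := mul_le_mul_of_nonneg_left h2 p3.le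
    have := Real.exp_pos ((2 * θ + γ * L) * 0 * h)
    linarith
  · simp only [mul_zero, zero_mul, Real.exp_zero]
    have : 0 ≤ Real.exp (-(γ * L ^ 2 / 2 - θ)) * (Real.exp ((2 * θ + γ * L) * 1 * h) +
      Real.exp ((2 * θ + γ * L) * (-1) * h)) := by positivity
    linarith

theorem mgf_big {A : Matrix (Fin n) (Fin n) ℝ} (hA : Aᵀ = A) (hd : ∀ i, A i i = 0) {M K θ L : ℝ}
    (hM : opn A ≤ M) (hM0 : 0 < M) (hK : 0 < K) (hθ : 0 ≤ θ) (hL : 0 ≤ L)
    (hm : mag (ising A 0) = 0) (hS : SubG (ising A 0) K) :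
    Real.log (mean (ising A 0) fun x => Real.exp (θ * Ent.big (ising A 0) L x)) ≤
      2 * n * Real.exp (θ + 4 * K * M ^ 2 * θ ^ 2 - L ^ 2 / (16 * K * M ^ 2)) := by
  have hw : ∀ x, 0 < ising A 0 x := Chain22.ising_pos' A 0
  have hP := Chain22.isP_prob' hw
  set γ : ℝ := 1 / (4 * K * M ^ 2) with hγ
  have γ0 : 0 < γ := by positivity
  set a : ℝ := 2 * θ + γ * L with ha
  set b : ℝ := γ * L ^ 2 / 2 - θ with hb
  have h1 : ∀ x : Cube n, Real.exp (θ * Ent.big (ising A 0) L x) ≤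
      ∑ s : Fin n → Option Bool, (∏ i, selW b (s i)) *
        Real.exp ((a • (A *ᵥ fun i => sel (s i))) ⬝ᵥ (sv x - mag (ising A 0))) := by
    intro x
    rw [Ent.big, mul_sum, Real.exp_sum]
    have e1 : ∀ i, Ent.lf (ising A 0) i x = 2 * |(A *ᵥ sv x) i| := fun i => by
      rw [Ent.lf_ising hA, hd]; simp
    refine (prod_le_prod (fun i _ => (Real.exp_pos _).le) (g := fun i =>
      ∑ s : Option Bool, selW b s * Real.exp (a * sel s * (A *ᵥ sv x) i)) fun i _ => ?_).trans
      (le_of_eq ?_)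
    · rw [e1]
      refine site_le γ0.le hL _ ?_
      by_cases h : L < Ent.lf (ising A 0) i x
      · left
        exact ⟨by rwa [e1] at h, Ent.ind_pos (p := fun y => L < Ent.lf (ising A 0) i y) h⟩
      · right
        exact Ent.ind_neg (p := fun y => L < Ent.lf (ising A 0) i y) h
    · rw [prod_univ_sum, Fintype.piFinset_univ]
      refine sum_congr rfl fun s _ => ?_
      rw [prod_mul_distrib, ← Real.exp_sum, hm, sub_zero, smul_dotProduct, dotProduct_comm,
        dot_symm (herm_iff.2 hA), smul_eq_mul, dotProduct, mul_sum]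
      congr 2
      exact sum_congr rfl fun i _ => by ring
  have h2 : ∀ s : Fin n → Option Bool, mean (ising A 0) (fun x =>
      Real.exp ((a • (A *ᵥ fun i => sel (s i))) ⬝ᵥ (sv x - mag (ising A 0)))) ≤
        ∏ i, Real.exp (K / 2 * (a * M) ^ 2 * sel (s i) ^ 2) := by
    intro s
    refine (hS _).trans ?_
    rw [← Real.exp_sum, ← mul_sum]
    refine Real.exp_le_exp.2 ?_
    have h3 := mulVec_dot_le A fun i => sel (s i)
    have h4 : ((fun i => sel (s i)) ⬝ᵥ fun i => sel (s i)) = ∑ i, sel (s i) ^ 2 := by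
      simp only [dotProduct, sq]
    have h5 : 0 ≤ ∑ i, sel (s i) ^ 2 := sum_nonneg fun i _ => sq_nonneg _
    have h6 : opn A ^ 2 ≤ M ^ 2 := pow_le_pow_left₀ (opn_nonneg A) hM 2
    rw [h4] at h3
    rw [smul_dotProduct, dotProduct_smul, smul_eq_mul, smul_eq_mul, mul_assoc (K / 2), mul_pow]
    refine mul_le_mul_of_nonneg_left ?_ (by positivity)
    have h7 := h3.trans (mul_le_mul_of_nonneg_right h6 h5)
    nlinarith [mul_le_mul_of_nonneg_left h7 (sq_nonneg a)]
  have h3 : mean (ising A 0) (fun x => Real.exp (θ * Ent.big (ising A 0) L x)) ≤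
      (1 + 2 * Real.exp (-b + K / 2 * (a * M) ^ 2)) ^ n := by
    refine (hP.mean_mono h1).trans ?_
    rw [Ent.mean_sum']
    refine (sum_le_sum (g := fun s : Fin n → Option Bool =>
      ∏ i, selW b (s i) * Real.exp (K / 2 * (a * M) ^ 2 * sel (s i) ^ 2)) fun s _ => ?_).trans
      (le_of_eq ?_)
    · rw [Ent.mean_const_mul, prod_mul_distrib]
      exact mul_le_mul_of_nonneg_left (h2 s) (prod_nonneg fun i _ => selW_nonneg _ _)
    · rw [← Fintype.piFinset_univ, ← prod_univ_sum (fun _ : Fin n => (univ : Finset (Option Bool)))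
        fun _ s => selW b s * Real.exp (K / 2 * (a * M) ^ 2 * sel s ^ 2),
        sum_sel b fun t => Real.exp (K / 2 * (a * M) ^ 2 * t ^ 2), prod_const, card_univ,
        Fintype.card_fin, Real.exp_add]
      congr 1
      simp only [ne_eq, OfNat.ofNat_ne_zero, not_false_eq_true, zero_pow, mul_zero, Real.exp_zero,
        one_pow, mul_one, even_two, Even.neg_pow]
      ring
  have h4 : -b + K / 2 * (a * M) ^ 2 ≤ θ + 4 * K * M ^ 2 * θ ^ 2 - L ^ 2 / (16 * K * M ^ 2) := by
    have e1 : L ^ 2 / (16 * K * M ^ 2) = γ * L ^ 2 / 4 := by rw [hγ]; field_simp; ring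
    have e2 : K * M ^ 2 * γ = 1 / 4 := by rw [hγ]; field_simp
    have e3 : a ^ 2 ≤ 2 * (4 * θ ^ 2 + γ ^ 2 * L ^ 2) := by
      rw [ha]; nlinarith [sq_nonneg (2 * θ - γ * L)]
    have e4 : K / 2 * (a * M) ^ 2 ≤ K * M ^ 2 * (4 * θ ^ 2 + γ ^ 2 * L ^ 2) := by
      have : 0 ≤ K * M ^ 2 := by positivity
      nlinarith [mul_le_mul_of_nonneg_left e3 this]
    have e5 : K * M ^ 2 * (γ ^ 2 * L ^ 2) = γ * L ^ 2 / 4 := by
      rw [show K * M ^ 2 * (γ ^ 2 * L ^ 2) = K * M ^ 2 * γ * (γ * L ^ 2) by ring, e2]; ring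
    rw [e1, hb]
    nlinarith
  have h5 : 0 < mean (ising A 0) fun x => Real.exp (θ * Ent.big (ising A 0) L x) :=
    sum_pos (fun x _ => mul_pos (Chain22.prob_pos' hw x) (Real.exp_pos _)) univ_nonempty
  rw [Real.log_le_iff_le_exp h5]
  refine h3.trans ?_
  rw [show 2 * (n : ℝ) * Real.exp (θ + 4 * K * M ^ 2 * θ ^ 2 - L ^ 2 / (16 * K * M ^ 2)) =
    n * (2 * Real.exp (θ + 4 * K * M ^ 2 * θ ^ 2 - L ^ 2 / (16 * K * M ^ 2))) by ring,
    Real.exp_nat_mul]
  refine pow_le_pow_left₀ (by positivity) ?_ n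
  have := Real.exp_le_exp.2 h4
  linarith [Real.add_one_le_exp
    (2 * Real.exp (θ + 4 * K * M ^ 2 * θ ^ 2 - L ^ 2 / (16 * K * M ^ 2)))]

/-- zero field: zero magnetisation -/
theorem mag_ising_zero (A : Matrix (Fin n) (Fin n) ℝ) : mag (ising A 0) = 0 := by
  funext i
  have inv : Function.Involutive fun (x : Cube n) (j : Fin n) => !x j := fun x => by simp
  have hs : ∀ x : Cube n, sv (fun j => !x j) = -sv x := fun x => by
    funext j; simp [sv, spin_not]
  have hw : ∀ x : Cube n, prob (ising A 0) (fun j => !x j) = prob (ising A 0) x := fun x => by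
    simp only [prob, ising, hs, mulVec_neg, dotProduct_neg, neg_dotProduct, neg_neg,
      zero_dotProduct, neg_zero]
  have h := Equiv.sum_comp inv.toPerm fun x => prob (ising A 0) x * sv x i
  simp only [Function.Involutive.coe_toPerm, hw, hs, Pi.neg_apply, mul_neg, sum_neg_distrib] at h
  show ∑ x, prob (ising A 0) x * sv x i = 0
  linarith

theorem SubG.mono {w : Cube n → ℝ} {K K' : ℝ} (h : SubG w K) (hK : K ≤ K') : SubG w K' :=
  fun u => (h u).trans (Real.exp_le_exp.2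
    (mul_le_mul_of_nonneg_right (by linarith) (dot_self_nonneg u)))

theorem DLsi.mono {w : Cube n → ℝ} (hw : ∀ x, 0 < w x) {K B K' B' : ℝ} (h : DLsi w K B)
    (hK : K ≤ K') (hB : B ≤ B') : DLsi w K' B' := fun f =>
  (h f).trans (add_le_add (mul_le_mul_of_nonneg_right hK (Ent.dir_nonneg hw f))
    (mul_le_mul_of_nonneg_right hB ((Chain22.isP_prob' hw).mean_nonneg fun _ => sq_nonneg _)))

theorem famOfAt (hA : AtHi) (hS : SubGHi) : DLsiFam := fun β hβ hβ1 => by
  obtain ⟨c, K, hc, h1⟩ := hA β hβ hβ1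
  obtain ⟨K2, h2⟩ := hS β hβ hβ1
  set K1 := max K 1 with hK1
  set K3 := max K2 1 with hK3
  have k1 : 1 ≤ K1 := le_max_right _ _
  have k3 : 1 ≤ K3 := le_max_right _ _
  set C := Real.exp (2 * K1 + 4 * K3 * 18 ^ 2 * (2 * K1) ^ 2) with hC
  have C0 : 0 < C := Real.exp_pos _
  refine ⟨1 / (16 * K3 * 18 ^ 2), 8 * K1 + 2 * C + 2, by positivity,
    ((h1.and h2).and Chain22.whp_opn').imp fun n g hg L hL => ?_⟩
  obtain ⟨⟨g1, g2⟩, g3⟩ := hg
  have hw := gibbsWeight_pos (n := n) β g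
  have g1' : Ent.AT (gibbsWeight n β g) K1 (Real.exp (-(c * n))) :=
    g1.mono hw (le_max_left _ _) le_rfl
  have g2' := SubG.mono g2 (le_max_left K2 1)
  have d1 : DLsi (gibbsWeight n β g) _ _ := fun f =>
    g1'.lsi_of_mgf hw (by linarith) (L := L) (by linarith) f
  refine DLsi.mono hw d1 (by nlinarith) ?_
  rw [gibbsWeight_eq_ising] at g2' ⊢
  have hop : opn (β • Jmat n g) ≤ 18 := by
    rw [opn_smul, abs_of_nonneg hβ]
    nlinarith [opn_nonneg (Jmat n g)]
  have m := mgf_big (A := β • Jmat n g) (by rw [transpose_smul, Jmat_transpose])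
    (fun i => by simp [Jmat_diag]) hop (by norm_num) (K := K3) (by linarith) (θ := 2 * K1)
    (by linarith) (L := L) (by linarith) (mag_ising_zero _) g2'
  rw [sub_eq_add_neg, Real.exp_add, ← hC] at m
  have e1 : Real.exp (-(c * n)) ≤ 1 := Real.exp_le_one_iff.2 (by
    have : 0 ≤ c * n := by positivity
    linarith)
  rw [show -(1 / (16 * K3 * 18 ^ 2) * L ^ 2) = -(L ^ 2 / (16 * K3 * 18 ^ 2)) by ring]
  have e2 : 0 ≤ (n : ℝ) * Real.exp (-(L ^ 2 / (16 * K3 * 18 ^ 2))) := by positivity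
  nlinarith [mul_nonneg e2 (show 0 ≤ 8 * K1 + 2 by linarith)]

theorem gLog : GLog := fun hP hF β hβ hβ1 => by
  obtain ⟨C, h1⟩ := hP β hβ hβ1
  obtain ⟨c, K, hc, h2⟩ := hF β hβ hβ1
  refine ⟨|K| / Real.sqrt c + (2 * |K| + 2) * |C|, (h1.and h2).mono ?_⟩
  have t1 : Tendsto (fun n : ℕ => Real.log n) atTop atTop :=
    Real.tendsto_log_atTop.comp tendsto_natCast_atTop_atTop
  filter_upwards [t1.eventually_ge_atTop (max c 1), eventually_ge_atTop 1] with n hl hn g hg f
  have hw := gibbsWeight_pos (n := n) β g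
  have hn0 : (0 : ℝ) < n := by exact_mod_cast hn
  have l1 : c ≤ Real.log n := (le_max_left _ _).trans hl
  have l2 : 1 ≤ Real.log n := (le_max_right _ _).trans hl
  have s1 : 1 ≤ Real.sqrt (Real.log n) := Real.one_le_sqrt.2 l2
  have sc : 0 < Real.sqrt c := Real.sqrt_pos.2 hc
  have hL : 1 ≤ Real.sqrt (Real.log n) / Real.sqrt c := by
    rw [le_div_iff₀ sc, one_mul]; exact Real.sqrt_le_sqrt l1
  have d := hg.2 _ hL
  have e : c * (Real.sqrt (Real.log n) / Real.sqrt c) ^ 2 = Real.log n := by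
    rw [div_pow, Real.sq_sqrt hc.le, Real.sq_sqrt (by linarith)]; field_simp
  rw [e, Real.exp_neg, Real.exp_log hn0, mul_assoc, mul_inv_cancel₀ hn0.ne', mul_one] at d
  have d2 := DLsi.mono hw d (K' := |K| * (Real.sqrt (Real.log n) / Real.sqrt c)) (B' := 2 * |K|)
    (mul_le_mul_of_nonneg_right (le_abs_self K) (by linarith)) (by linarith [le_abs_self K])
  have hd := Ent.dir_nonneg hw f
  have t := ((Ent.lsi_iff' hn hw _ _).2 d2).tight (by positivity) (C := |C| * n) (fun f => by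
    rw [mul_assoc, ← Chain22.dir_eq_D hn hw]
    exact (hg.1 f).trans (mul_le_mul_of_nonneg_right (le_abs_self C) (Ent.dir_nonneg hw f)))
  rw [show |K| * (Real.sqrt (Real.log n) / Real.sqrt c) * n + (2 * |K| + 2) * (|C| * n) =
    (|K| * (Real.sqrt (Real.log n) / Real.sqrt c) + (2 * |K| + 2) * |C|) * n by ring] at t
  have t2 := (Ent.lsi_iff' hn hw _ _).1 t f
  rw [zero_mul, add_zero] at t2
  refine t2.trans (mul_le_mul_of_nonneg_right ?_ hd)
  have : 0 ≤ (2 * |K| + 2) * |C| := by positivity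
  have e2 : |K| * (Real.sqrt (Real.log n) / Real.sqrt c) =
    |K| / Real.sqrt c * Real.sqrt (Real.log n) := by ring
  rw [e2]
  nlinarith


/-! ### sub-Gaussian linear forms from the covariance bound -/

theorem subG_of_covOK {w : Cube n → ℝ} (hw : ∀ x, 0 < w x) {K ρ : ℝ} (hρ : 0 < ρ)
    (h : Tap.CovOK w K (ρ * Real.sqrt n) 0) : SubG w (max K (4 / ρ)) := by
  intro u
  have hW : SL.Wt w := ⟨fun x => (hw x).le, GoeT.sum_pos hw⟩
  have hP := Chain22.isP_prob' hw
  have huu := dot_self_nonneg u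
  by_cases hu : nrm u ≤ ρ * Real.sqrt n
  · have h1 := SL.log_mgf_le hW (fun x => u ⬝ᵥ sv x) (β := K * (u ⬝ᵥ u)) fun r hr => by
      have := h (r • u) (by
        rw [nrm_smul, abs_of_pos hr.1]
        nlinarith [nrm_nonneg u, hr.1, hr.2]) u
      rw [covM, SL.covMat_quad, ← SL.var_eq_cov, zero_add] at this
      refine le_trans (le_of_eq ?_) this
      congr 1
      funext x
      rw [tilt, smul_dotProduct, smul_eq_mul]
    have h2 : 0 < mean w fun x => Real.exp (u ⬝ᵥ sv x) :=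
      sum_pos (fun x _ => mul_pos (Chain22.prob_pos' hw x) (Real.exp_pos _)) univ_nonempty
    rw [Real.log_le_iff_le_exp h2, ← SL.meanV_dot] at h1
    have e : mean w (fun x => Real.exp (u ⬝ᵥ (sv x - mag w))) =
        Real.exp (-(u ⬝ᵥ mag w)) * mean w fun x => Real.exp (u ⬝ᵥ sv x) := by
      rw [Chain22.emean_eq, Chain22.emean_eq, ← Ent.mean_const_mul]
      refine Ent.mean_congr fun x => ?_
      rw [← Real.exp_add, dotProduct_sub]; congr 1; ring
    rw [e]
    refine (mul_le_mul_of_nonneg_left h1 (Real.exp_pos _).le).trans ?_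
    rw [← Real.exp_add]
    refine Real.exp_le_exp.2 ?_
    have := mul_le_mul_of_nonneg_right (le_max_left K (4 / ρ)) huu
    rw [mag]
    linarith
  · have hu' := not_le.1 hu
    have hs : ∀ x : Cube n, nrm (sv x) = Real.sqrt n := fun x => by rw [nrm, sv_dot_self]
    have b1 : ∀ x : Cube n, |u ⬝ᵥ sv x| ≤ nrm u * Real.sqrt n := fun x => by
      rw [← hs x]; exact abs_dot_le _ _
    have b2 : -(nrm u * Real.sqrt n) ≤ u ⬝ᵥ mag w := by
      rw [mag, SL.meanV_dot, Chain22.emean_eq, ← hP.mean_const (-(nrm u * Real.sqrt n))]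
      exact hP.mean_mono fun x => (abs_le.1 (b1 x)).1
    rw [Chain22.emean_eq, ← hP.mean_const (Real.exp _)]
    refine hP.mean_mono fun x => Real.exp_le_exp.2 ?_
    have b3 : Real.sqrt n ≤ nrm u / ρ := by rw [le_div_iff₀ hρ]; linarith
    have b4 : nrm u * Real.sqrt n ≤ (u ⬝ᵥ u) / ρ := by
      rw [← nrm_mul_self, mul_div_assoc]
      exact mul_le_mul_of_nonneg_left b3 (nrm_nonneg u)
    have b5 := mul_le_mul_of_nonneg_right (le_max_right K (4 / ρ)) huu
    have b6 : 4 / ρ * (u ⬝ᵥ u) = 4 * ((u ⬝ᵥ u) / ρ) := by ring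
    rw [dotProduct_sub]
    linarith [(abs_le.1 (b1 x)).2]

theorem law_zero (w : Cube n → ℝ) (hw : ∀ x, 0 < w x) {A : Set (Fin n → ℝ)} (h : 0 ∈ A) :
    1 ≤ (SL.law sv w 0).real A := by
  have hW : SL.Wt w := ⟨fun x => (hw x).le, GoeT.sum_pos hw⟩
  have := SL.isProb_law (φ := sv) (s := 0) hW
  have h1 : SL.law sv w 0 ({0} : Set (Fin n → ℝ))ᶜ = 0 := by
    simp only [SL.law, Measure.coe_finsetSum, Finset.sum_apply, Measure.smul_apply]
    refine sum_eq_zero fun x _ => ?_
    rw [Measure.map_apply (by fun_prop) (measurableSet_singleton _).compl]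
    have : (fun z : Fin n → ℝ => (0 : ℝ) • sv x + √(0 : ℝ) • z) ⁻¹' ({0} : Set (Fin n → ℝ))ᶜ = ∅ := by
      ext z; simp
    rw [this, measure_empty, smul_zero]
  have h2 : (SL.law sv w 0).real ({0} : Set (Fin n → ℝ)) = 1 := by
    rw [Measure.real, (prob_compl_eq_zero_iff (measurableSet_singleton _)).1 h1]; rfl
  rw [← h2]
  exact measureReal_mono (Set.singleton_subset_iff.2 h)

theorem subG_one : SubG (fun _ : Cube n => (1 : ℝ)) 1 := by
  intro u
  have e : (fun _ : Cube n => (1 : ℝ)) = ising 0 0 := by funext x; simp [ising]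
  have hm : mag (fun _ : Cube n => (1 : ℝ)) = 0 := by rw [e]; exact mag_ising_zero 0
  rw [hm]
  simp only [mean, prob, sub_zero, sum_const, card_univ, nsmul_eq_mul, mul_one]
  rw [← mul_sum]
  have h1 : ∑ x : Cube n, Real.exp (u ⬝ᵥ sv x) = ∏ i, ∑ b : Bool, Real.exp (u i * spin b) := by
    rw [prod_univ_sum, Fintype.piFinset_univ]
    refine sum_congr rfl fun x _ => ?_
    rw [← Real.exp_sum]; rfl
  have h2 : ∀ i, ∑ b : Bool, Real.exp (u i * spin b) ≤ 2 * Real.exp (u i ^ 2 / 2) := fun i => by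
    have := Real.cosh_le_exp_half_sq (u i)
    rw [Real.cosh_eq] at this
    rw [Fintype.sum_bool]
    simp only [spin, if_true, Bool.false_eq_true, if_false, mul_one, mul_neg]
    linarith
  rw [h1, one_div, inv_mul_le_iff₀ (by positivity)]
  refine (prod_le_prod (fun i _ => sum_nonneg fun b _ => (Real.exp_pos _).le)
    fun i _ => h2 i).trans (le_of_eq ?_)
  rw [prod_mul_distrib, ← Real.exp_sum, prod_const, card_univ, Fintype.card_fin]
  congr 1
  · simp
  · congr 1
    rw [dotProduct, mul_sum]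
    exact sum_congr rfl fun i _ => by ring

theorem subGHi (hC : Tap.CovStmt) : SubGHi := fun β hβ hβ1 => by
  rcases eq_or_lt_of_le hβ with rfl | hβ0
  · refine ⟨1, whp_of_eventually (Eventually.of_forall fun n g => ?_)⟩
    have e : gibbsWeight n 0 g = fun _ => 1 := by
      rw [gibbsWeight_eq_ising]; funext x; simp [ising]
    rw [e]; exact subG_one
  obtain ⟨K, ρ, hρ, κ, hκ, h⟩ := hC β ⟨hβ0, hβ1.le⟩ 0 le_rfl (Or.inl hβ1) 0
  refine ⟨max K (4 / ρ), GoeT.transfer β (fun n w => SubG w (max K (4 / ρ)))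
    (fun n w hw => GoeT.subG_prob (GoeT.sum_pos hw).ne' _) (h.mono ?_)⟩
  filter_upwards [eventually_ge_atTop 1] with n hn W hW
  have hw := Chain22.ising_pos' (β • W) 0
  refine subG_of_covOK hw hρ ?_
  by_contra hc
  have h1 := law_zero _ hw (A := {y | ¬ Tap.CovOK (ising (β • W) 0) K (ρ * Real.sqrt n) y}) hc
  have h2 := hW 0 ⟨le_rfl, le_rfl⟩
  have hn0 : (0 : ℝ) < n := by exact_mod_cast hn
  have h3 : Real.exp (-κ * n) < 1 := Real.exp_lt_one_iff.2 (by nlinarith)
  linarith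

theorem dLsiFam (hA : AtHi) (hC : Tap.CovStmt) : DLsiFam := famOfAt hA (subGHi hC)

theorem lsiHiLog (hP : PoinHi) (hA : AtHi) (hC : Tap.CovStmt) : LsiHiLog :=
  gLog hP (dLsiFam hA hC)

end Crest.Agent.T157.TopL

end
private theorem rz_9e7755960d : type_of% @_root_.Crest.Agent.T157.TopL.sel.eq_1 := @_root_.Crest.Agent.T157.TopL.sel.eq_1 -- L67
private theorem rz_6a680d1829 : type_of% @_root_.Crest.Agent.T157.TopL.selW.eq_1 := @_root_.Crest.Agent.T157.TopL.selW.eq_1 -- L73
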