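import Crest.Agent.T157.Q1C_63
import Crest.Agent.T157.Glue_34
import Crest.Agent.T157.Q1G_63
import Crest.Agent.T157.CrC_63

-- ▼ part T157/CrA_63
section

/-!
# Row 157, part A (helper63): the entropy production at a fixed time of the localisation is bounded
by the Dirichlet form, without loss from large local fields
-/

set_option autoImplicit false
set_option linter.unusedSectionVars false

noncomputable section

namespace Crest.Agent.T157.Q1

open MeasureTheory Filter Topology Set Real Matrix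
open Crest.ProbabilityR.SpinGlassDynamics
open Crest.Agent.T157.SL Crest.Agent.T157.E Crest.Agent.T157.Tr Crest.Agent.T157.Glue
open Crest.Agent.T157.Eig (nrm opn nrm_sq nrm_nonneg nrm_add_le nrm_smul nrm_mulVec_le nrm_le_iff
  continuous_nrm)

section gen

variable {Ω : Type*} [Fintype Ω] {ι : Type} [Fintype ι] [DecidableEq ι] {φ : Ω → ι → ℝ}
  {u w f : Ω → ℝ} {s T : ℝ}

/-- the static functional -/
def Ns (φ : Ω → ι → ℝ) (u f : Ω → ℝ) (c : ℝ) : ℝ :=
  √(mean u f ^ 2 + c ^ 2 * (covV u f φ ⬝ᵥ covV u f φ))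

theorem Ns_le {P : ℝ} (h0 : 0 ≤ mean u f) (hP : 0 ≤ P)
    (h : covV u f φ ⬝ᵥ covV u f φ ≤ 2 * mean u f * P) (c : ℝ) : Ns φ u f c ≤ mean u f + c ^ 2 * P := by
  rw [Ns, sqrt_le_left (by positivity)]
  nlinarith [mul_le_mul_of_nonneg_left h (sq_nonneg c), sq_nonneg (c ^ 2 * P)]

/-- transport with bad events -/
theorem tp_gen (hw : Wt w) (hf : ∀ x, 0 ≤ f x) (h0 : 0 < mean w f) (hs : 0 ≤ s) (hst : s ≤ T)
    {k : ℝ → ℝ} (hk : ContinuousOn k (Icc s T)) (k0 : ∀ r ∈ Icc s T, 0 ≤ k r) {R E δ : ℝ}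
    (hR : 0 ≤ R) (hD : ∀ x x', (φ x - φ x') ⬝ᵥ (φ x - φ x') ≤ R ^ 2)
    (hE : exp (∫ r in s..T, k r) ≤ E) {A : ℝ → Set (ι → ℝ)} (hA : ∀ r, MeasurableSet (A r))
    (good : ∀ r ∈ Ioo s T, ∀ y ∉ A r, ∀ u, u ⬝ᵥ covMat (post φ w r y) φ *ᵥ u ≤ k r * (u ⬝ᵥ u))
    (δ0 : 0 ≤ δ) (bad : ∀ r ∈ Ioo s T, mean w (fun x => f x * px φ r (A r) x) ≤ δ) (c : ℝ) :
    ex φ w (Nf φ w f c) s ≤
      ex φ w (Nf φ w f (c * E)) T + (T - s) * (c ^ 2 * E ^ 2 * (R ^ 4 * δ)) := by
  have pr := prim hst hk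
  have cE : ∀ r ∈ Icc s T, (c * exp (∫ q in s..r, k q)) ^ 2 ≤ (c * E) ^ 2 := fun r hr => by
    rw [mul_pow, mul_pow]
    refine mul_le_mul_of_nonneg_left (pow_le_pow_left₀ (exp_pos _).le ((exp_le_exp.2
      (intervalIntegral.integral_mono_interval le_rfl hr.1 hr.2 ?_
        (hk.intervalIntegrable_of_Icc hst))).trans hE) 2) (sq_nonneg _)
    exact (ae_restrict_mem measurableSet_Ioc).mono fun q hq => k0 q (Ioc_subset_Icc_self hq)
  have mχ : ∀ r, MG fun y => (A r).indicator (fun _ => (1 : ℝ)) y := fun r =>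
    (MG.const 1).indicator (hA r)
  have := transport (φ := φ) hw hf h0 hs hst (c := fun r => c * exp (∫ q in s..r, k q)) (k := k)
    (ε := fun _ => c ^ 2 * E ^ 2 * (R ^ 4 * δ)) (χ := fun q => (A q.1).indicator (fun _ => 1) q.2)
    (continuousOn_const.mul pr.1.rexp) hk continuousOn_const
    (fun r hr => (((pr.2 r hr).exp).const_mul c).congr_deriv (by ring)) k0
    (fun _ _ => by positivity) mχ (fun q => indicator_nonneg (fun _ _ => zero_le_one) _)
    (fun q hq hχ => good q.1 hq q.2 fun h => by simp [h] at hχ) fun r hr => by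
      have hr' := Ioo_subset_Icc_self hr
      have q0 : ∀ y, 0 ≤ (A r).indicator (fun _ => (1 : ℝ)) y * (vv φ w f (r, y) ⬝ᵥ
          covMat (pw φ w (r, y)) φ *ᵥ vv φ w f (r, y) / mean (pw φ w (r, y)) f) := fun y =>
        mul_nonneg (indicator_nonneg (fun _ _ => zero_le_one) _)
        (div_nonneg ((hw.post φ r y).covMat_quad_nonneg φ _) ((hw.post φ r y).mean_nonneg hf))
      refine (mul_le_mul_of_nonneg_right (cE r hr') (ex_nonneg hw q0)).trans ?_
      rw [mul_pow]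
      refine mul_le_mul_of_nonneg_left (le_trans ?_ (mul_le_mul_of_nonneg_left (bad r hr)
        (by positivity))) (by positivity)
      rw [← slE_indicator_mean hw (hs.trans hr.1.le) (hA r), ← slE_const_mul]
      refine slE_mono hw (.of_mg fun _ => (mχ r).mul (((eg_dot (fun j => eg_vv hw f j) fun j =>
        eg_dot (fun l => eg_cov hw _ _) fun l => eg_vv hw f l).mul (eg_inv_mean (φ := φ)
          (Metric.isBounded_Icc r r) hw hf h0)).mg (left_mem_Icc.2 le_rfl)))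
        (.of_mg fun _ => (((eg_mean hw f).mg (mem_univ r)).indicator (hA r)).const_mul _)
        fun _ y => ?_
      by_cases hy : y ∈ A r
      · simp only [indicator_of_mem hy, one_mul, vv, pw]
        have hu := hw.post φ r y
        have u0 := hw.mean_post_pos hf h0 φ r y
        have b1 := covV_le_diam hu hR hD hf
        rw [div_le_iff₀ u0, covMat_quad, ← var_eq_cov]
        refine le_trans (hu.mean_le (dev_sq_le hu hD _)) ?_
        nlinarith [mul_le_mul_of_nonneg_left b1 (sq_nonneg R)]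
      · simp [hy]
  simp only [intervalIntegral.integral_same, exp_zero, mul_one, intervalIntegral.integral_const,
    smul_eq_mul] at this
  exact this.trans (add_le_add (ex_mono hw (mg_Nf hw _ T) (mg_Nf hw _ T) fun y =>
    Nf_mono (cE T (right_mem_Icc.2 hst)) _) le_rfl)

end gen

variable {n : ℕ} {u w g G : Cube n → ℝ} {J : Tap.Mx n}

theorem cov_site (hu : ∀ x, 0 < u x) (g : Cube n → ℝ) (i : Fin n) :
    mean u (fun x => g x ^ 2 * (spin (x i) - siteM u (fun y => spin (y i)) i x)) ^ 2 ≤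
      16 * mean u (fun x => g x ^ 2) * Ent.dirS u g i := by
  have hU := Wt.of_pos hu
  set h := siteM u g i with hh
  set t := siteM u (fun y => spin (y i)) i with ht
  have z : mean u (fun x => h x ^ 2 * (spin (x i) - t x)) = 0 := by
    rw [Chain22.emean_eq, ← Ent.mean_mean_cnd hu i (fun x y => h x ^ 2 * (spin (y i) - t x))
      fun x b y => by rw [hh, ht, Chain22.siteM_update, Chain22.siteM_update],
      ← hU.isP.mean_const 0]
    refine Ent.mean_congr fun x => ?_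
    rw [Ent.mean_const_mul, Ent.mean_sub', (Ent.isP_cnd hu i x).mean_const,
      Ent.mean_cnd u (fun y => spin (y i)), sub_self, mul_zero]
  have t2 : ∀ x, (spin (x i) - t x) ^ 2 ≤ 4 := fun x => by
    have h1 : |t x| ≤ 1 := by
      rw [ht, ← Ent.mean_cnd u (fun y => spin (y i)), abs_le]
      have hp := Ent.isP_cnd hu i x
      exact ⟨(hp.mean_const (-1)).symm.trans_le (hp.mean_mono fun b => (abs_le.1 (abs_spin _).le).1),
        (hp.mean_mono fun b => (abs_le.1 (abs_spin _).le).2).trans_eq (hp.mean_const 1)⟩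
    nlinarith [abs_le.1 h1, abs_le.1 (abs_spin (x i)).le]
  have hg : mean u (fun x => h x ^ 2) ≤ mean u fun x => g x ^ 2 := by
    have e1 : mean u (fun x => h x ^ 2) = mean u fun x => g x * h x := by
      simpa only [Chain22.ip, sq, mean] using Chain22.ip_siteM_siteM hu i g g
    have e2 := hU.mean_nonneg (f := fun x => g x ^ 2 - 2 * (g x * h x) + h x ^ 2) fun x => by
      nlinarith [sq_nonneg (g x - h x)]
    rw [mean_add, mean_sub, mean_const_mul] at e2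
    linarith
  have e : mean u (fun x => g x ^ 2 * (spin (x i) - t x)) =
      mean u fun x => (g x - h x) * ((g x + h x) * (spin (x i) - t x)) := by
    rw [← sub_zero (mean u fun x => g x ^ 2 * _), ← z, ← mean_sub]
    congr 1; ext x; ring
  have b : mean u (fun x => ((g x + h x) * (spin (x i) - t x)) ^ 2) ≤
      16 * mean u fun x => g x ^ 2 := by
    refine (hU.mean_mono (g := fun x => 8 * g x ^ 2 + 8 * h x ^ 2) fun x => ?_).trans ?_
    · rw [mul_pow]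
      nlinarith [mul_le_mul_of_nonneg_left (t2 x) (sq_nonneg (g x + h x)), sq_nonneg (g x - h x)]
    · rw [mean_add, mean_const_mul, mean_const_mul]; linarith
  rw [e, mul_comm _ (Ent.dirS u g i)]
  exact (mean_mul_sq_le hU _ _).trans (mul_le_mul_of_nonneg_left b (Ent.dirS_nonneg hu g i))

theorem prod_cov (hu : Ent.IsProd u) (g : Cube n → ℝ) :
    covV u (fun x => g x ^ 2) sv ⬝ᵥ covV u (fun x => g x ^ 2) sv ≤
      16 * mean u (fun x => g x ^ 2) * dir u g := by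
  have hU := Wt.of_pos hu.pos
  obtain ⟨p, -, -, e⟩ := hu.exists_ppi
  rw [Ent.dir_eq_sum, Finset.mul_sum]
  refine Finset.sum_le_sum fun i _ => le_of_eq_of_le ?_ (cov_site hu.pos g i)
  have e1 : siteM u (fun y => spin (y i)) i = fun _ => Chain22.mean (p i) spin := by
    funext x; rw [← Ent.mean_cnd, e]; simp only [Function.update_self]
  have e2 := Chain22.mean_siteM hu.pos i fun y => spin (y i)
  rw [e1, hU.isP.mean_const] at e2
  rw [e1, e2, ← sq, covV, hU.cov_eq']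
  rfl

/-- **removal of the interaction** -/
theorem hs_N (hJ : Jᵀ = J) (hJ3 : opn J ≤ 3) (hG : ∀ v, (∀ x, 0 < v x) → dir v g ≤ mean v G) {M : ℝ}
    (hM : 0 ≤ M) {y : Tap.V n} (hy : Fro J M (24 * √n) y)
    (h0 : 0 < mean (ising J y) fun x => g x ^ 2) (c : ℝ) :
    Ns sv (ising J y) (fun x => g x ^ 2) c ≤ mean (ising J y) (fun x => g x ^ 2) +
      c ^ 2 * (exp (8 * M) ^ 2 * (64 * mean (ising J y) G +
        1296 * n ^ 2 * exp (-(n / 2)) * mean (ising J y) fun x => g x ^ 2)) := by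
  have hJ4 : opn J ≤ 4 := by linarith
  obtain ⟨Q, hQ, hQQ⟩ := exists_root hJ hJ4
  have hw := wt_ising J y
  have hQn : ∀ u, nrm (Q *ᵥ u) ≤ 3 * nrm u := fun u => by
    rw [nrm_le_iff (by have := nrm_nonneg u; positivity), mul_pow, nrm_sq]
    nlinarith [Q_sq_le hQ hQQ hJ4 u, dot_self_nonneg u]
  have sn := sqrt_nonneg (n : ℝ)
  have f0 : ∀ x, 0 ≤ g x ^ 2 := fun _ => sq_nonneg _
  have cQ : ∀ v f : Cube n → ℝ, covV v f (fun σ => Q *ᵥ sv σ) = Q *ᵥ covV v f sv := fun v f => by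
    funext i
    simp only [covV, mulVec, dotProduct, cov_sum, cov_const_mul]
  have hA : MeasurableSet {z : Tap.V n | 24 * √n < nrm (Q *ᵥ z)} :=
    measurableSet_lt measurable_const (continuous_nrm.comp (by fun_prop)).measurable
  have h := tp_gen (φ := fun σ => Q *ᵥ sv σ) hw f0 h0 le_rfl zero_le_one (k := fun _ => 8 * M)
    continuousOn_const (fun _ _ => by positivity) (R := 6 * √n) (E := exp (8 * M)) (by positivity)
    (fun x x' => by
      rw [← mulVec_sub, mul_pow, sq_sqrt n.cast_nonneg]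
      nlinarith [Q_sq_le hQ hQQ hJ4 (sv x - sv x'), sv_diam x x', n.cast_nonneg (α := ℝ)])
    (by simp) (fun _ => hA) (fun r hr z hz u => by
      rw [GoeT.covMat_congr_prob (prob_post_hs hQ hQQ y _ r), covMat_Q hQ]
      refine (hy r (Ioo_subset_Icc_self hr) _ (by
        rw [add_sub_cancel_left]; exact not_lt.1 hz) _).trans ?_
      nlinarith [mul_le_mul_of_nonneg_left (Q_sq_le hQ hQQ hJ4 u) hM])
    (δ := exp (-(n / 2)) * mean (ising J y) fun x => g x ^ 2) (by positivity)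
    (fun r hr => mean_px_le_of hw (fun x => (px_le hA x fun z hz => ?_).trans (nrm_tail n)) f0) c
  · rw [show ex (fun σ => Q *ᵥ sv σ) (ising J y) (Nf _ (ising J y) (fun x => g x ^ 2) c) 0 = _ from
      ex_pw_zero hw fun u => Ns (fun σ => Q *ᵥ sv σ) u (fun x => g x ^ 2) c] at h
    have a1 : Ns sv (ising J y) (fun x => g x ^ 2) c ≤
        Ns (fun σ => Q *ᵥ sv σ) (ising J y) (fun x => g x ^ 2) c := by
      refine sqrt_le_sqrt (add_le_add le_rfl (mul_le_mul_of_nonneg_left ?_ (sq_nonneg c)))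
      rw [cQ, Q_sq hQ hQQ]
      set v := covV (ising J y) (fun x => g x ^ 2) sv
      nlinarith [(abs_le.1 (Eig.abs_quad_le J v)).1, mul_le_mul_of_nonneg_right hJ3
        (dot_self_nonneg v)]
    have m1 := (eg_mean (φ := fun σ => Q *ᵥ sv σ) hw fun x => g x ^ 2).mg (mem_univ 1)
    have m2 := ((eg_mean (φ := fun σ => Q *ᵥ sv σ) hw G).mg (mem_univ 1)).const_mul
      ((c * exp (8 * M)) ^ 2 * 64)
    have a2 := slE_mono (φ := fun σ => Q *ᵥ sv σ) (s := 1) hw (.of_mg fun _ => mg_Nf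
      (φ := fun σ => Q *ᵥ sv σ) (f := fun x => g x ^ 2) hw (c * exp (8 * M)) 1)
      (.of_mg fun _ => m1.add m2) fun _ z => by
        have e := prob_post_hs hQ hQQ y z 1
        rw [sub_self, zero_smul, ← diagonal_zero] at e
        have hp := Ent.isProd_ising (fun _ => 0) (y + Q *ᵥ z)
        have d := hG _ hp.pos
        have d0 := Ent.dir_nonneg hp.pos g
        have q0 := (Wt.of_pos hp.pos).mean_nonneg f0
        rw [mul_assoc]
        refine Ns_le ((hw.post _ 1 z).mean_nonneg f0) ?_ ?_ _ <;>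
          simp only [pw, GoeT.mean_congr_prob e, GoeT.covV_congr_prob e]
        · linarith
        · rw [cQ]
          refine (Q_sq_le hQ hQQ hJ4 _).trans ?_
          nlinarith [prod_cov hp g, mul_le_mul_of_nonneg_left d q0]
    rw [slE_add (.of_mg fun _ => m1) (.of_mg fun _ => m2), slE_const_mul] at a2
    simp only [pw] at a2
    rw [slE_mean hw zero_le_one, slE_mean hw zero_le_one] at a2
    change ex _ _ (Nf _ _ _ _) _ ≤ _ at a2
    rw [show (6 * √(n : ℝ)) ^ 4 = 1296 * (√(n : ℝ) ^ 2) ^ 2 by ring, sq_sqrt n.cast_nonneg] at h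
    nlinarith
  · simp only [mem_ofPred_eq, mulVec_add, mulVec_smul, mulVec_mulVec, hQQ, add_mulVec,
      smul_mulVec, one_mulVec] at hz ⊢
    have h3 := nrm_add_le (r • (J *ᵥ sv x + (4 : ℝ) • sv x)) (√r • Q *ᵥ z)
    have h4 := nrm_add_le (J *ᵥ sv x) ((4 : ℝ) • sv x)
    have h5 := (nrm_mulVec_le J (sv x)).trans (mul_le_mul_of_nonneg_right hJ3 (nrm_nonneg _))
    rw [nrm_smul, nrm_smul, abs_of_pos hr.1, abs_of_nonneg (sqrt_nonneg _)] at h3
    rw [nrm_smul, nrm_sv, abs_of_pos four_pos] at h4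
    rw [nrm_sv] at h5
    have h6 := mul_le_of_le_one_left (nrm_nonneg (J *ᵥ sv x + (4 : ℝ) • sv x)) hr.2.le
    have h7 := mul_le_of_le_one_left (nrm_nonneg (Q *ᵥ z)) (sqrt_le_one.2 hr.2.le)
    linarith [hQn z]

/-- the entropy production at time `t` is controlled by the Dirichlet form -/
def JT (w : Cube n → ℝ) (t P δ : ℝ) : Prop := ∀ (g : Cube n → ℝ) (M : ℝ), (∀ x, g x ^ 2 ≤ M) →
  0 < mean w (fun x => g x ^ 2) → ∀ c, ex sv w (Nf sv w (fun x => g x ^ 2) c) t ≤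
    mean w (fun x => g x ^ 2) + c ^ 2 * (P * dir w g + δ * M)

theorem JT.mono {t P δ δ' : ℝ} (h : JT w t P δ) (hδ : δ ≤ δ') : JT w t P δ' := fun g M hM h0 c =>
  (h g M hM h0 c).trans (by
    have := (sq_nonneg _).trans (hM fun _ => true)
    gcongr)

theorem jt_end (hJ : Jᵀ = J) (hJ3 : opn J ≤ 3) {M T η : ℝ} (hM : 0 ≤ M) (hT : 0 ≤ T)
    (h1 : 48 ≤ η * T) (h2 : 16 ≤ η ^ 2 * T)
    (fro : ∀ t ∈ Icc (0 : ℝ) 1, ∀ (σ : Cube n) (y : Tap.V n), nrm (y - T • sv σ) ≤ η * T * √n →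
      ∀ u : Tap.V n, u ⬝ᵥ covM (ising ((1 - t) • J) y) *ᵥ u ≤ M * (u ⬝ᵥ u)) :
    JT (ising J 0) T (exp (8 * M) ^ 2 * 64)
      ((exp (8 * M) ^ 2 * 1296 * n ^ 2 + 2 * n) * exp (-(n / 2))) := fun g L hL h0 c => by
  have hB : MeasurableSet {y : Tap.V n | ∀ σ : Cube n, η * T / 2 * √n < nrm (y - T • sv σ)} := by
    rw [ofPred_forall]
    exact .iInter fun σ => measurableSet_lt measurable_const
      (continuous_nrm.comp (by fun_prop)).measurable
  have sn := sqrt_nonneg (n : ℝ)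
  have hw := wt_ising J 0
  have hp : ∀ x, 0 < ising J 0 x := fun _ => exp_pos _
  have f0 : ∀ x, 0 ≤ g x ^ 2 := fun _ => sq_nonneg _
  set G := fun x => ∑ i, (g x - siteM (ising J 0) g i x) ^ 2 with hG
  have G0 : ∀ x, 0 ≤ G x := fun x => Finset.sum_nonneg fun _ _ => sq_nonneg _
  have m1 := (eg_mean (φ := sv) hw fun x => g x ^ 2).mg (mem_univ T)
  have m2 := (eg_mean (φ := sv) hw G).mg (mem_univ T)
  set a := exp (8 * M) ^ 2
  set b := 1296 * (n : ℝ) ^ 2 * exp (-(n / 2))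
  have h3 := mean_px_le_of hw (fun x => (px_le (φ := sv) (t := T) hB x fun z hz => ?_).trans
    (nrm_tail n)) f0
  · have := slE_mono (φ := sv) (s := T) hw (.of_mg fun _ => mg_Nf (φ := sv)
      (f := fun x => g x ^ 2) hw c T)
      (.of_mg fun _ => ((m1.const_mul (1 + c ^ 2 * (a * b))).add
        (m2.const_mul (c ^ 2 * (a * 64)))).add ((m1.indicator hB).const_mul (c ^ 2 * (2 * n))))
      fun _ y => ?_
    · rw [slE_add (.of_mg fun _ => (m1.const_mul _).add (m2.const_mul _))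
        (.of_mg fun _ => (m1.indicator hB).const_mul _), slE_add (.of_mg fun _ => m1.const_mul _)
        (.of_mg fun _ => m2.const_mul _), slE_const_mul, slE_const_mul, slE_const_mul] at this
      simp only [pw] at this
      rw [slE_indicator_mean hw hT hB, slE_mean hw hT, slE_mean hw hT,
        show mean (ising J 0) G = dir (ising J 0) g from mean_sum _ _ _] at this
      have h4 := hw.mean_le hL
      have h5 := h3.trans (mul_le_mul_of_nonneg_left h4 (exp_pos _).le)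
      refine this.trans ?_
      have h6 := mul_le_mul_of_nonneg_left h4 (show 0 ≤ c ^ 2 * (a * b) by positivity)
      have h7 := mul_le_mul_of_nonneg_left h5 (show 0 ≤ c ^ 2 * (2 * n : ℝ) by positivity)
      simp only [b] at h6 ⊢
      nlinarith
    have hu := hw.post sv T y
    have q0 := hu.mean_nonneg f0
    have q1 := hu.mean_nonneg G0
    by_cases hy : y ∈ {y : Tap.V n | ∀ σ : Cube n, η * T / 2 * √n < nrm (y - T • sv σ)}
    · have := covV_le_diam hu (R := 2 * √n) (by positivity) (fun x x' => by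
        rw [mul_pow, sq_sqrt n.cast_nonneg]; linarith [sv_diam x x']) f0
      rw [mul_pow, mul_pow, sq_sqrt n.cast_nonneg] at this
      refine (Ns_le (P := 2 * n * mean (post sv (ising J 0) T y) fun x => g x ^ 2) q0
        (by positivity) (by linarith) c).trans ?_
      simp only [indicator_of_mem hy, pw]
      have p1 : 0 ≤ c ^ 2 * (a * b) * mean (post sv (ising J 0) T y) fun x => g x ^ 2 := by
        positivity
      have p2 : 0 ≤ c ^ 2 * (a * 64) * mean (post sv (ising J 0) T y) G := by positivity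
      linarith
    · have u0 := hw.mean_post_pos f0 h0 sv T y
      obtain ⟨σ, hσ⟩ := not_forall.1 hy
      simp only [indicator_of_notMem hy, pw, Nf, vv, mean_post_sv, covV_post_sv, tilt_ising,
        zero_add] at u0 ⊢
      refine (hs_N (G := G) hJ hJ3 (fun v hv => ?_) hM (fun t ht h hh => fro t ht σ h ?_)
        u0 c).trans_eq (by ring)
      · rw [show mean v G = _ from mean_sum _ _ _]
        exact Finset.sum_le_sum fun i _ => Ent.dirS_le_siteM hv _ g i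
      · have := nrm_add_le (h - y) (y - T • sv σ)
        rw [sub_add_sub_cancel] at this
        nlinarith [not_lt.1 hσ, mul_le_mul_of_nonneg_right h1 sn]
  · have h4 := hz x
    rw [add_sub_cancel_left, nrm_smul, abs_of_nonneg (sqrt_nonneg _)] at h4
    have η0 : 0 < η := by
      by_contra h; nlinarith [mul_nonneg (neg_nonneg.2 (not_lt.1 h)) hT]
    have h5 : 4 ≤ η * √T := by
      refine le_of_sq_le_sq ?_ (by positivity)
      rw [mul_pow, sq_sqrt hT]; linarith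
    by_contra h6
    have h7 := mul_le_mul_of_nonneg_left (not_le.1 h6).le (sqrt_nonneg T)
    have h8 := mul_le_mul_of_nonneg_right h5 (mul_nonneg (sqrt_nonneg T) sn)
    have h9 : η * √T * (√T * √n) = η * T * √n := by
      rw [mul_assoc, ← mul_assoc (√T), mul_self_sqrt hT, mul_assoc]
    linarith

theorem mean_px_le_law (hw : Wt w) {f : Cube n → ℝ} {M r p : ℝ} (hM : ∀ x, f x ≤ M) (M0 : 0 ≤ M)
    {A : Set (Tap.V n)} (hA : MeasurableSet A) (h : (law sv w r).real A ≤ p) :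
    mean w (fun x => f x * px sv r A x) ≤ p * M := by
  rw [law_real hw hA] at h
  refine le_trans ?_ (mul_le_mul_of_nonneg_right h M0)
  rw [← mean_mul_const]
  exact hw.mean_mono fun x => (mul_le_mul_of_nonneg_right (hM x) (px_nonneg x)).trans_eq (mul_comm _ _)

theorem diam_sv (x x' : Cube n) : (sv x - sv x') ⬝ᵥ (sv x - sv x') ≤ (2 * √n) ^ 2 := by
  rw [mul_pow, sq_sqrt n.cast_nonneg]; linarith [sv_diam x x']

theorem JT.back (hw : ∀ x, 0 < w x) {t T P δ K ρ p : ℝ} (h : JT w T P δ) (ht : 0 ≤ t) (htT : t ≤ T)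
    (hK : 0 ≤ K) (hρ : 0 ≤ ρ) (hp : 0 ≤ p)
    (cov : ∀ r ∈ Ioo t T, (law sv w r).real {y | ¬ Tap.CovOK w K ρ y} ≤ p) :
    JT w t (exp ((T - t) * K) ^ 2 * P) (exp ((T - t) * K) ^ 2 * (δ + (T - t) * (16 * n ^ 2 * p))) :=
  fun g M hM h0 c => by
  have M0 := (sq_nonneg _).trans (hM fun _ => true)
  have a1 := tp_gen (φ := sv) (.of_pos hw) (fun x => sq_nonneg (g x)) h0 ht htT (k := fun _ => K)
    continuousOn_const (fun _ _ => hK) (by positivity) diam_sv (E := exp ((T - t) * K)) (by simp)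
    (fun _ => measurableSet_covOK hw K ρ) (fun r _ y hy u => by
      have := not_not.1 hy 0 (by simpa [nrm] using hρ) u
      rwa [covMat_post_sv, ← add_zero y]) (mul_nonneg hp M0)
    (fun r hr => mean_px_le_law (.of_pos hw) hM M0 (measurableSet_covOK hw K ρ) (cov r hr)) c
  rw [show (2 * √(n : ℝ)) ^ 4 = 16 * (√(n : ℝ) ^ 2) ^ 2 by ring, sq_sqrt n.cast_nonneg] at a1
  have a2 := h g M hM h0 (c * exp ((T - t) * K))
  nlinarith

theorem jt_prob (hw : ∑ y, w y ≠ 0) (t P δ : ℝ) : JT (prob w) t P δ ↔ JT w t P δ := by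
  simp only [JT, ex, Nf, vv, pw, GoeT.slE_prob hw, GoeT.mean_prob hw, GoeT.dir_prob hw,
    GoeT.mean_congr_prob (GoeT.prob_post_prob hw sv _ _),
    GoeT.covV_congr_prob (GoeT.prob_post_prob hw sv _ _)]

theorem ev_small2 (A : ℝ) {κ : ℝ} (hκ : 0 < κ) :
    ∀ᶠ n : ℕ in atTop, A * n ^ 2 * exp (-(κ * n)) ≤ exp (-(κ / 4 * n)) := by
  filter_upwards [ev_small A hκ, ev_small 1 (half_pos hκ)] with n h1 h2
  rw [show κ / 4 = κ / 2 / 2 by ring]
  nlinarith [mul_le_mul_of_nonneg_left h1 (n.cast_nonneg (α := ℝ))]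

/-- at every positive time, critical temperature -/
def JTStmt : Prop := ∀ t > (0 : ℝ), ∃ P ≥ (0 : ℝ), ∃ c > (0 : ℝ),
  Top.Whp disorderLaw fun n g => JT (gibbsWeight n 1 g) t P (exp (-(c * n)))

theorem jt_of (hU : Tap.UFStmt) (hF : Tap.FrzStmt) (hZ : Tap.FrozStmt) (hC : Tap.CovStmt) :
    JTStmt := fun t0 ht => by
  have hβ' : (1 : ℝ) ∈ Icc (0 : ℝ) 1 := ⟨zero_le_one, le_rfl⟩
  obtain ⟨K₀, hU⟩ := hU 1 hβ' (1 / 2) (by norm_num)
  obtain ⟨ε, hε, hF⟩ := hF
  obtain ⟨η, hη, T0, M, hZ⟩ := hZ ε hε K₀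
  obtain ⟨T, hT0, hT1, hT2, hT3⟩ : ∃ T, T0 ≤ T ∧ t0 ≤ T ∧ 48 ≤ η * T ∧ 16 ≤ η ^ 2 * T :=
    ⟨max (max T0 t0) (max (48 / η) (16 / η ^ 2)), by simp, by simp,
      (div_le_iff₀' hη).1 (by simp), (div_le_iff₀' (pow_pos hη 2)).1 (by simp)⟩
  obtain ⟨K, ρ, hρ, κ, hκ, hC⟩ := hC 1 ⟨one_pos, le_rfl⟩ t0 ht.le (.inr ht) T
  set a := exp ((T - t0) * max K 0) ^ 2
  set b := exp (8 * max M 0) ^ 2
  set k := min (1 / 2) κ
  have k0 : 0 < k := lt_min (by norm_num) hκ
  have T0' := sub_nonneg.2 hT1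
  refine ⟨a * (b * 64), by positivity, k / 4, by positivity, GoeT.transfer 1
    (fun n w => JT w t0 (a * (b * 64)) (exp (-(k / 4 * n))))
    (fun n w hw => jt_prob (GoeT.sum_pos hw).ne' _ _ _) ?_⟩
  refine ((((hU.and hF).and hC).and whp_opn).and whp_symm).mono ?_
  filter_upwards [eventually_ge_atTop 1, ev_small2 (a * (b * 1296 + 2 + (T - t0) * 16)) k0]
    with n hn hn' W ⟨⟨⟨⟨h1, h2⟩, h3⟩, h4⟩, h5⟩
  have hw : ∀ x, 0 < ising ((1 : ℝ) • W) 0 x := fun _ => exp_pos _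
  have e := jt_end (J := (1 : ℝ) • W) (by rw [transpose_smul, h5]) (by rwa [one_smul])
    (le_max_right M 0) (ht.le.trans hT1) hT2 hT3 fun t ht σ y hy u => by
      rw [smul_smul]
      exact ((hZ n W 1 hn h5 hβ' h4 h2 h1 T hT0 _ ⟨mul_nonneg (sub_nonneg.2 ht.2) hβ'.1,
        mul_le_of_le_one_left hβ'.1 (sub_le_self _ ht.1)⟩ σ y hy).2 u).trans
        (mul_le_mul_of_nonneg_right (le_max_left _ _) (dot_self_nonneg u))
  refine (e.back hw ht.le hT1 (le_max_right K 0) (ρ := ρ * √n) (by positivity) (exp_pos _).le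
    fun r hr => le_trans ?_ (h3 r (Ioo_subset_Icc_self hr))).mono (le_trans ?_ hn')
  · have := isProb_law (φ := sv) (s := r) (Wt.of_pos hw)
    exact measureReal_mono fun y hy h => hy fun v hv u => (h v hv u).trans
      (mul_le_mul_of_nonneg_right (le_max_left _ _) (dot_self_nonneg u))
  · have n1 : (1 : ℝ) ≤ n := by exact_mod_cast hn
    have e1 : exp (-(n / 2 : ℝ)) ≤ exp (-(k * n)) := exp_le_exp.2 (by
      linarith [mul_le_mul_of_nonneg_right (min_le_left (1 / 2) κ) (n.cast_nonneg (α := ℝ))])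
    have e2 : exp (-κ * n) ≤ exp (-(k * n)) := exp_le_exp.2 (by
      linarith [mul_le_mul_of_nonneg_right (min_le_right (1 / 2) κ) (n.cast_nonneg (α := ℝ))])
    have e3 : (n : ℝ) ≤ n ^ 2 := le_self_pow₀ n1 two_ne_zero
    calc _ ≤ a * ((b * 1296 * n ^ 2 + 2 * n ^ 2) * exp (-(k * n)) +
          (T - t0) * (16 * n ^ 2 * exp (-(k * n)))) := by gcongr
      _ = _ := by ring

end Crest.Agent.T157.Q1

end
end

-- ▼ part T157/CrD_63

/-!
# Row 157, part A (helper63): the high entropy levels from the covariance window `W2S`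
-/

set_option autoImplicit false

noncomputable section

namespace Crest.Agent.T157.Q1

open MeasureTheory Filter Topology Set Matrix Real
open Crest.ProbabilityR.SpinGlassDynamics
open Crest.Agent.T157 Crest.Agent.T157.E Crest.Agent.T157.SL Crest.Agent.T157.Soft

variable {n : ℕ} {w f : Cube n → ℝ}

theorem measurableSet_covLe (hw : Wt w) (K : ℝ) :
    MeasurableSet {y | ¬ Crit.CovLe (tilt w y) K} := by
  refine (IsClosed.measurableSet (s := {y | Crit.CovLe (tilt w y) K}) ?_).compl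
  simp only [Crit.CovLe, ofPred_forall, ← covMat_post_sv w 0, covMat_quad]
  exact isClosed_iInter fun u => isClosed_le
    ((eg_cov (φ := sv) (I := univ) hw _ _).cont_at (mem_univ 0)) continuous_const

/-- transport with a power law -/
theorem tp_pow (hw : Wt w) (hf : ∀ x, 0 ≤ f x) (h0 : 0 < mean w f) {M s T κ E p : ℝ}
    (hM : ∀ x, f x ≤ M) (hs : 0 < s) (hst : s ≤ T) (hκ : 0 ≤ κ) (hE : (T / s) ^ (κ - 1) ≤ E)
    (hp : 0 ≤ p) (h : ∀ r ∈ Ioo s T, Crit.CovAt w r (κ / r) p) :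
    Tp sv w f s T E (T ^ 3 * E ^ 2 * (16 * n ^ 2 * (p * M))) := fun c => by
  have T0 := hs.trans_le hst
  have M0 := (hf _).trans (hM fun _ => true)
  have := tp_gen (φ := sv) hw hf h0 hs.le hst (k := fun r => κ / r)
    (continuousOn_const.div continuousOn_id fun r hr => (hs.trans_le hr.1).ne')
    (fun r hr => div_nonneg hκ (hs.le.trans hr.1)) (by positivity) diam_sv (E := T / s * E) (by
      simp only [div_eq_mul_inv κ]
      rw [intervalIntegral.integral_const_mul, integral_inv_of_pos hs T0, mul_comm,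
        ← rpow_def_of_pos (by positivity), show κ = 1 + (κ - 1) by ring, rpow_add (by positivity),
        rpow_one]
      exact mul_le_mul_of_nonneg_left hE (by positivity))
    (fun r => measurableSet_covLe hw (κ / r)) (fun r _ y hy u => by
      rw [covMat_post_sv]; exact not_not.1 hy u) (mul_nonneg hp M0)
    (fun r hr => mean_px_le_law hw hM M0 (measurableSet_covLe hw _) (h r hr)) c
  rw [show (2 * √(n : ℝ)) ^ 4 = 16 * (√(n : ℝ) ^ 2) ^ 2 by ring, sq_sqrt n.cast_nonneg,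
    ← mul_assoc c] at this
  refine this.trans (add_le_add le_rfl ?_)
  calc _ ≤ T * (c ^ 2 * (T / s * E) ^ 2 * (16 * n ^ 2 * (p * M))) := by gcongr; linarith
    _ = _ := by ring

/-- transport through the two windows -/
theorem tp_two (hW : Wt w) (f0 : ∀ x, 0 ≤ f x) (h0 : 0 < mean w f) {t m T K κ E₁ E₂ M p r : ℝ}
    (hM : ∀ x, f x ≤ M) (t0 : 0 < t) (htT : t ≤ T) (htm : t ≤ m) (hK : 1 ≤ K) (hκ : 1 ≤ κ)
    (h1 : (m / t) ^ K ≤ E₁) (h2 : (T / t) ^ (κ - 1) ≤ E₂) (hp : 0 ≤ p)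
    (c1 : ∀ r, r ≤ T → t ≤ r → r ≤ m → Crit.CovAt w r (K / r) p)
    (c2 : ∀ r, r ≤ T → m ≤ r → Crit.CovAt w r (κ / r) p) (hr : r ∈ Ioo t T) :
    Tp sv w f r T (E₁ * E₂) (2 * (T ^ 3 * (E₁ * E₂) ^ 2 * (16 * n ^ 2 * (p * M)))) := by
  have T0 := t0.trans_le htT
  have M0 := (f0 _).trans (hM fun _ => true)
  have e1 : 1 ≤ E₁ := (one_le_rpow ((one_le_div t0).2 htm) (by linarith)).trans h1
  have e2 : 1 ≤ E₂ := (one_le_rpow ((one_le_div t0).2 htT) (by linarith)).trans h2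
  have w2 : ∀ r, t ≤ r → r ≤ T → (r < T → m ≤ r) → Tp sv w f r T E₂
      (T ^ 3 * E₂ ^ 2 * (16 * n ^ 2 * (p * M))) := fun r h3 h4 h5 =>
    tp_pow hW f0 h0 hM (t0.trans_le h3) h4 (by linarith) ((rpow_le_rpow
      (div_nonneg T0.le (t0.le.trans h3)) (div_le_div_of_nonneg_left T0.le t0 h3)
      (by linarith)).trans h2) hp fun q hq =>
      c2 q hq.2.le ((h5 (hq.1.trans hq.2)).trans hq.1.le)
  have r0 := t0.trans hr.1
  have q : 0 ≤ T ^ 3 * (16 * n ^ 2 * (p * M)) := by positivity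
  have s1 : E₂ ^ 2 ≤ (E₁ * E₂) ^ 2 := by gcongr; nlinarith
  have s2 : E₁ ^ 2 ≤ (E₁ * E₂) ^ 2 := by gcongr; nlinarith
  rcases le_total m r with h | h
  · exact (w2 r hr.1.le hr.2.le fun _ => h).mono hW s1 (by
      linarith [mul_le_mul_of_nonneg_left s1 q, mul_nonneg q (sq_nonneg (E₁ * E₂))])
  have hr' : r ≤ min m T := le_min h hr.2.le
  have w1 := tp_pow hW f0 h0 hM r0 hr' (κ := K) (E := E₁) (by linarith) (le_trans ((rpow_le_rpow
    (div_nonneg (r0.le.trans hr') r0.le) (div_le_div₀ (t0.le.trans htm) (min_le_left _ _) t0 hr.1.le)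
    (by linarith)).trans (rpow_le_rpow_of_exponent_le ((one_le_div t0).2 htm) (by linarith))) h1)
    hp fun u hu => c1 u (hu.2.le.trans (min_le_right _ _)) (hr.1.trans hu.1).le
      (hu.2.le.trans (min_le_left _ _))
  refine (w1.trans (w2 _ (hr.1.le.trans hr') (min_le_right _ _) fun h =>
    (min_lt_iff.1 h).elim (fun h => (min_eq_left h.le).ge) fun h => absurd h (lt_irrefl _))
    (r0.trans_le hr').ne').mono hW le_rfl ?_
  have : min m T ^ 3 ≤ T ^ 3 := pow_le_pow_left₀ (r0.le.trans hr') (min_le_right _ _) 3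
  calc _ ≤ T ^ 3 * (E₁ * E₂) ^ 2 * (16 * n ^ 2 * (p * M)) +
        E₁ ^ 2 * (T ^ 3 * E₂ ^ 2 * (16 * n ^ 2 * (p * M))) := by gcongr
    _ = _ := by ring

/-- the large local fields cost a fraction of the level -/
theorem big_le (hw : ∀ x, 0 < w x) (f0 : ∀ x, 0 ≤ f x) (f1 : mean w f = 1) {H A L θ : ℝ}
    (hM : ∀ x, f x ≤ exp (2 * H)) (A0 : 0 ≤ A)
    (hF : mean w (fun x => exp (θ * Ent.big w L x)) ≤ 2) (hθ : 24 * A < θ) (hH : 8 ≤ H) :
    A * Chain22.mean (prob w) (fun x => f x * Ent.big w L x) ≤ H / 8 := by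
  have hW := Wt.of_pos hw
  have θ0 : 0 < θ := by linarith
  have a6 := Ent.mean_mul_le_theta hW.isP f0 (Ent.big w L) θ0
  have a7 := Ent.ent_le_of_bdd hW.isP f0 (M := exp (2 * H)) fun x _ =>
    (hM x).trans_eq ((mul_one _).symm.trans (congrArg _ f1.symm))
  have a8 : log (mean w fun x => exp (θ * Ent.big w L x)) ≤ 1 :=
    (log_le_sub_one_of_pos (Ent.mean_exp_pos hW.isP _)).trans (by
      change mean w _ - 1 ≤ _; linarith)
  change _ ≤ (ent w _ + mean w _ * log (mean w _)) / θ at a6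
  change ent w _ ≤ _ * mean w _ at a7
  rw [f1, log_exp] at a7
  rw [f1, le_div_iff₀ θ0] at a6
  have b0 : 0 ≤ Chain22.mean (prob w) fun x => f x * Ent.big w L x :=
    hW.isP.mean_nonneg fun x => mul_nonneg (f0 x) (Ent.big_nonneg w L x)
  linarith [mul_le_mul_of_nonneg_left hθ.le b0]

/-- **one high level** -/
theorem sp_high (hw : ∀ x, 0 < w x) {t m T K κ E₁ E₂ H A L P θ δ lam : ℝ} (t0 : 0 < t)
    (htT : t ≤ T) (htm : t ≤ m) (hK : 1 ≤ K) (hκ : 1 ≤ κ) (h1 : (m / t) ^ K ≤ E₁)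
    (h2 : (T / t) ^ (κ - 1) ≤ E₂)
    (c1 : ∀ r, r ≤ T → t ≤ r → r ≤ m → Crit.CovAt w r (K / r) (exp (-(3 * H))))
    (c2 : ∀ r, r ≤ T → m ≤ r → Crit.CovAt w r (κ / r) (exp (-(3 * H))))
    (hX : XX sv w (65 * t) ≤ exp H) (hT : Glue.Tail w T A δ) (A0 : 0 ≤ A) (δ0 : 0 ≤ δ)
    (hJ : JT w T P (exp (-(3 * H)))) (P0 : 0 ≤ P) (L0 : 0 ≤ L)
    (hF : mean w (fun x => exp (θ * Ent.big w L x)) ≤ 2) (hθ : 24 * A < θ) (hH : 8 ≤ H)
    (hs : δ + 3 / 2 * ((E₁ * E₂) ^ 2 * (T ^ 2 + 32 * T ^ 3 * n ^ 2) * exp (-H)) / t ≤ 1)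
    (hl : lam * (A * (3 + L) + 3 / 2 * ((E₁ * E₂) ^ 2 * T ^ 2 * P) / t) ≤ H / 2) : SP w H lam :=
  SP.of_norm hw fun g g1 hM hent => by
  have hW := Wt.of_pos hw
  have T0 := t0.trans_le htT
  have f0 : ∀ x, 0 ≤ g x ^ 2 := fun x => sq_nonneg _
  have h0 : 0 < mean w fun x => g x ^ 2 := g1 ▸ one_pos
  have D0 := Ent.dir_nonneg hw g
  have e1 : 1 ≤ E₁ := (one_le_rpow ((one_le_div t0).2 htm) (by linarith)).trans h1
  have e2 : 1 ≤ E₂ := (one_le_rpow ((one_le_div t0).2 htT) (by linarith)).trans h2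
  have ee : exp (-(3 * H)) * exp (2 * H) = exp (-H) := by rw [← exp_add]; congr 1; ring
  have a1 := early_ent hW f0 g1 (by linarith) hM t0 hX
  have a2 := window hW f0 h0 (R₀ := 2 * √n + 1) (E := E₁ * E₂) (Q := 0) (L := log (T / t))
    (P := P * dir w g + exp (-H))
    (by positivity) (fun x x' => (diam_sv x x').trans (by gcongr; linarith)) t0 htT
    (by positivity) (by positivity) (by positivity) le_rfl
    (fun r hr => tp_two hW f0 h0 hM t0 htT htm hK hκ h1 h2 (exp_pos _).le c1 c2 hr)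
    (fun c _ => (hJ g _ hM h0 c).trans_eq (by rw [ee]; ring)) le_rfl
  have a3 := hT _ f0
  have a4 := mul_le_mul_of_nonneg_left (Ent.sum_entS_sq_le hw g L0) A0
  have a5 : var w (fun x => √(g x ^ 2)) ≤ 1 := (hW.var_le_mean _ 0).trans_eq (by
    simpa only [sub_zero, sq_sqrt (f0 _)] using g1)
  have a9 := big_le hw f0 g1 hM A0 hF hθ hH
  have a6 := mul_le_mul_of_nonneg_left a5 δ0
  rw [ee] at a2
  have key : H / 2 ≤ dir w g * (A * (3 + L) + 3 / 2 * ((E₁ * E₂) ^ 2 * T ^ 2 * P) / t) := by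
    simp only [div_eq_mul_inv _ t] at a2 hs ⊢
    linarith
  by_contra hc
  have p : 0 ≤ A * (3 + L) + 3 / 2 * ((E₁ * E₂) ^ 2 * T ^ 2 * P) / t := by positivity
  rcases p.eq_or_lt with p | p
  · rw [← p] at key; linarith
  · linarith [mul_lt_mul_of_pos_right (not_le.1 hc) p]

theorem xx_le (g : Pair n → ℝ) {B B' H : ℝ} (h : ∀ θ, 0 ≤ θ → Xth n g θ ≤
    B * exp (B * θ ^ (3 / 2 : ℝ))) (hB : B ≤ B') (B1 : 1 ≤ B') (hH : 2 * B' ≤ H) :
    XX sv (gibbsWeight n 1 g) (65 * ((65 * (2 * B'))⁻¹ * Crit.sH n H)) ≤ exp H := by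
  have H0 : 0 < H := by linarith
  rw [Crit.sH, div_rpow H0.le n.cast_nonneg, ← mul_div_assoc, ← mul_div_assoc,
    show (n : ℝ) ^ (2 / 3 : ℝ) = N23 n from rfl, XX_eq]
  refine (h _ (by positivity)).trans ?_
  have e1 : (65 * ((65 * (2 * B'))⁻¹ * H ^ (2 / 3 : ℝ))) ^ (3 / 2 : ℝ) ≤ (2 * B')⁻¹ * H := by
    rw [← mul_assoc, mul_rpow (by positivity) (by positivity), ← rpow_mul H0.le,
      show 65 * (65 * (2 * B'))⁻¹ = (2 * B')⁻¹ by field_simp,
      show (2 / 3 * (3 / 2) : ℝ) = 1 by norm_num, rpow_one]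
    exact mul_le_mul_of_nonneg_right (rpow_le_self_of_le_one (by positivity)
      (inv_le_one_of_one_le₀ (by linarith)) (by norm_num)) H0.le
  have e2 : B * (65 * ((65 * (2 * B'))⁻¹ * H ^ (2 / 3 : ℝ))) ^ (3 / 2 : ℝ) ≤ H / 2 :=
    (mul_le_mul hB e1 (by positivity) (by linarith)).trans (le_of_eq (by field_simp))
  refine le_trans (mul_le_mul (hB.trans (by linarith [add_one_le_exp (H / 2)])) (exp_le_exp.2 e2)
    (exp_pos _).le (exp_pos (H / 2)).le) ?_
  rw [← exp_add, add_halves]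

theorem covAt_mono (hw : Wt w) {r K K' p : ℝ} (h : Crit.CovAt w r K p) (hK : K ≤ K') :
    Crit.CovAt w r K' p := by
  have := isProb_law (φ := sv) (s := r) hw
  refine le_trans (measureReal_mono ?_) h
  exact fun y hy h => hy fun u => (h u).trans (mul_le_mul_of_nonneg_right hK (dot_self_nonneg u))

/-- the numerics of one high level -/
theorem sp_lev (hw : ∀ x, 0 < w x) {c T K δ d H A P θ e C : ℝ} (c0 : 0 < c) (c1 : c ≤ 1)
    (T0 : 0 < T) (hK : 1 ≤ K) (δ0 : 0 < δ) (hδ : 4 * (K + 1) * δ ≤ min d 1) (hn : 1 ≤ n)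
    (hH : 8 ≤ H) (hHn : H ≤ n) (hT : Crit.sH n H ≤ T / c)
    (hW : ∀ r : ℝ, r ≤ T → (c * Crit.sH n H ≤ r → r ≤ (n : ℝ) ^ δ * Crit.sH n H →
      Crit.CovAt w r (K / r) (exp (-(3 * H)))) ∧
      ((n : ℝ) ^ δ * Crit.sH n H ≤ r → Crit.CovAt w r ((1 + δ) / r) (exp (-(3 * H)))))
    (hX : XX sv w (65 * (c * Crit.sH n H)) ≤ exp H) (hTl : Glue.Tail w T A e) (A0 : 0 ≤ A)
    (e0 : 0 ≤ e) (e1 : e ≤ 1 / 2) (hJ : JT w T P (exp (-(3 * H)))) (P0 : 0 ≤ P)
    (hF : mean w (fun x => exp (θ * Ent.big w ((n : ℝ) ^ δ) x)) ≤ 2) (hθ : 24 * A < θ)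
    (hC : C = (c⁻¹ ^ K * (T / c) ^ δ) ^ 2)
    (v1 : 3 * C * (T ^ 2 + 32 * T ^ 3) / c * (n : ℝ) ^ 4 ≤ exp H)
    (v2 : (8 * A + 3 * C * T ^ 2 * P / c) * (n : ℝ) ^ (d / 2) ≤ (n : ℝ) ^ d) :
    SP w H ((n : ℝ) ^ (-d) * Crit.sH n H * H) := by
  have n1 : (1 : ℝ) ≤ n := by exact_mod_cast hn
  have n0 : (0 : ℝ) < n := by linarith
  have H0 : 0 < H := by linarith
  have C0 : 0 ≤ C := by rw [hC]; positivity
  have s1 : Crit.sH n H ≤ 1 := rpow_le_one (by positivity) ((div_le_one n0).2 hHn) (by norm_num)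
  have s2 : (n : ℝ)⁻¹ ≤ Crit.sH n H := le_trans (by rw [inv_eq_one_div]; gcongr; linarith)
    (self_le_rpow_of_le_one (by positivity) ((div_le_one n0).2 hHn) (by norm_num))
  generalize Crit.sH n H = s at *
  have s0 : 0 < s := lt_of_lt_of_le (by positivity) s2
  have s3 : s⁻¹ ≤ n := inv_le_of_inv_le₀ n0 s2
  have d1 : 1 ≤ (n : ℝ) ^ δ := one_le_rpow n1 δ0.le
  have hE : (c⁻¹ ^ K * (n : ℝ) ^ (δ * K) * ((T / c) ^ δ * (n : ℝ) ^ δ)) ^ 2 ≤
      C * (n : ℝ) ^ (min d 1 / 2) := by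
    rw [hC, mul_mul_mul_comm, mul_pow, ← rpow_add n0, ← rpow_natCast ((n : ℝ) ^ _),
      ← rpow_mul n0.le]
    exact mul_le_mul_of_nonneg_left (rpow_le_rpow_of_exponent_le n1 (by push_cast; linarith))
      (by positivity)
  have hE1 := hE.trans (mul_le_mul_of_nonneg_left ((rpow_le_rpow_of_exponent_le n1
    (show _ ≤ (1 : ℝ) by linarith [min_le_right d 1])).trans_eq (rpow_one _)) C0)
  have hE2 := hE.trans (mul_le_mul_of_nonneg_left (rpow_le_rpow_of_exponent_le n1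
    (show _ ≤ d / 2 by linarith [min_le_left d 1])) C0)
  have d2 : (n : ℝ) ^ δ ≤ (n : ℝ) ^ (d / 2) :=
    rpow_le_rpow_of_exponent_le n1 (by nlinarith [min_le_left d 1])
  refine sp_high hw (t := c * s) (m := (n : ℝ) ^ δ * s) (κ := 1 + δ)
    (E₁ := c⁻¹ ^ K * (n : ℝ) ^ (δ * K)) (E₂ := (T / c) ^ δ * (n : ℝ) ^ δ) (by positivity)
    ((le_div_iff₀' c0).1 hT) (by gcongr; linarith) hK (by linarith) (le_of_eq ?_) ?_
    (fun r h1 => (hW r h1).1) (fun r h1 h2 => (hW r h1).2 h2) hX hTl A0 e0 hJ P0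
    (by positivity) hF hθ hH ?_ ?_
  · rw [mul_div_mul_right _ _ s0.ne', div_eq_inv_mul, mul_rpow (by positivity) (by positivity),
      rpow_mul n0.le]
  · rw [add_sub_cancel_left, ← mul_rpow (by positivity) n0.le, ← div_div, div_eq_mul_inv _ s]
    gcongr
  · generalize (c⁻¹ ^ K * (n : ℝ) ^ (δ * K) * ((T / c) ^ δ * (n : ℝ) ^ δ)) ^ 2 = E at *
    have : 3 / 2 * (E * (T ^ 2 + 32 * T ^ 3 * n ^ 2) * exp (-H)) / (c * s) ≤ 1 / 2 := by
      calc _ = 3 / 2 * (E * (T ^ 2 * 1 + 32 * T ^ 3 * n ^ 2) * exp (-H)) / c * s⁻¹ := by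
            field_simp
        _ ≤ 3 / 2 * (C * n * (T ^ 2 * n ^ 2 + 32 * T ^ 3 * n ^ 2) * exp (-H)) / c * n := by
            gcongr; exact one_le_pow₀ n1
        _ = 3 * C * (T ^ 2 + 32 * T ^ 3) / c * (n : ℝ) ^ 4 * exp (-H) / 2 := by ring
        _ ≤ exp H * exp (-H) / 2 := by gcongr
        _ = _ := by rw [← exp_add, add_neg_cancel, exp_zero]
    linarith
  · generalize (c⁻¹ ^ K * (n : ℝ) ^ (δ * K) * ((T / c) ^ δ * (n : ℝ) ^ δ)) ^ 2 = E at *
    calc _ = (n : ℝ) ^ (-d) * H * (s * (A * (3 * 1 + (n : ℝ) ^ δ)) + 3 / 2 * (E * T ^ 2 * P) / c) := by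
          field_simp
      _ ≤ (n : ℝ) ^ (-d) * H * (1 * (A * (3 * (n : ℝ) ^ (d / 2) + (n : ℝ) ^ (d / 2))) +
          3 / 2 * (C * (n : ℝ) ^ (d / 2) * T ^ 2 * P) / c) := by gcongr; exact d1.trans d2
      _ = (n : ℝ) ^ (-d) * H * ((8 * A + 3 * C * T ^ 2 * P / c) * (n : ℝ) ^ (d / 2)) / 2 := by ring
      _ ≤ (n : ℝ) ^ (-d) * H * (n : ℝ) ^ d / 2 := by gcongr
      _ = _ := by rw [mul_right_comm, ← rpow_add n0, neg_add_cancel, rpow_zero, one_mul]

/-- `W2S` restricted to the levels `H ≤ e₀ n` (and `K / r` only below `n^δ s_H`) -/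
def W2R : Prop := ∀ c > (0 : ℝ), ∀ M : ℝ, ∃ K : ℝ, ∀ κ > (1 : ℝ), ∀ δ > (0 : ℝ),
  ∃ t0 > (0 : ℝ), ∃ e0 > (0 : ℝ), Top.Whp Tap.GOE fun n W => ∀ H : ℝ, (n : ℝ) ^ δ ≤ H →
    H ≤ e0 * n → ∀ r : ℝ, r ≤ t0 →
    (c * Crit.sH n H ≤ r → r ≤ (n : ℝ) ^ δ * Crit.sH n H →
      Crit.CovAt (ising W 0) r (K / r) (exp (-(M * H)))) ∧
    ((n : ℝ) ^ δ * Crit.sH n H ≤ r → Crit.CovAt (ising W 0) r (κ / r) (exp (-(M * H))))


/-- **the high levels from the sharp covariance window** -/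
theorem levCrit_of (h1 : W2R) (h2 : Top.LpStmt) (h3 : Glue.TailStmt) (h4 : JTStmt) :
    Crit.LevCrit := fun κ hκ d hd => Top.whp_of_approx fun ε hε => by
  obtain ⟨B, hB⟩ := ldB_gauss ε hε
  refine ⟨fun n g => ∀ θ, 0 ≤ θ → Xth n g θ ≤ B * exp (B * θ ^ (3 / 2 : ℝ)),
    hB.mono fun n hn => le_trans (measure_mono fun g hg => ?_) hn, ?_⟩
  · simpa only [mem_ofPred_eq, not_forall, not_le, exists_prop] using hg
  have B1 := le_max_right B 1
  set c := (65 * (2 * max B 1))⁻¹ with hc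
  have c0 : 0 < c := by positivity
  have c1 : c ≤ 1 := inv_le_one_of_one_le₀ (by linarith)
  obtain ⟨K, h1⟩ := h1 c c0 3
  have K1 := le_max_right K 1
  obtain ⟨δ, δ0, δ1, δ2⟩ : ∃ δ > 0, δ ≤ κ ∧ 4 * (max K 1 + 1) * δ ≤ min d 1 :=
    ⟨min κ (min d 1 / (4 * (max K 1 + 1))), by positivity, min_le_left _ _,
      (le_div_iff₀' (by positivity)).1 (min_le_right _ _)⟩
  obtain ⟨T, T0, z, z0, h1⟩ := h1 (1 + δ) (by linarith) δ δ0
  obtain ⟨A, A0, e, e0, h3⟩ := h3 1 ⟨one_pos, le_rfl⟩ T T0.le (.inr T0)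
  obtain ⟨P, P0, j, j0, h4⟩ := h4 T T0
  obtain ⟨k, k0, h2⟩ := h2 1 zero_le_one le_rfl (min (min (j / 3) z) ((T / c) ^ (3 / 2 : ℝ)))
    (by positivity)
  have h5 := GoeT.transfer 1 (fun n w => ∀ H : ℝ, (n : ℝ) ^ δ ≤ H → H ≤ z * n → ∀ r : ℝ, r ≤ T →
      (c * Crit.sH n H ≤ r → r ≤ (n : ℝ) ^ δ * Crit.sH n H →
        Crit.CovAt w r (K / r) (exp (-(3 * H)))) ∧
      ((n : ℝ) ^ δ * Crit.sH n H ≤ r → Crit.CovAt w r ((1 + δ) / r) (exp (-(3 * H)))))
    (fun n w hw => by simp only [Crit.CovAt, Crit.CovLe, GoeT.law_prob (GoeT.sum_pos hw).ne',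
      GoeT.covM_tilt_prob (GoeT.sum_pos hw).ne']) (by simpa only [one_smul] using h1)
  refine ((((h2.and h3).and h4).and h5).and (fld_whp (θ := 24 * A + 1) (by linarith) δ0)).mono ?_
  filter_upwards [eventually_ge_atTop 1, ev_pow hκ 8, ev_pow hκ (2 * max B 1), ev_pow hd k⁻¹,
    ev_exp hκ (3 * (c⁻¹ ^ max K 1 * (T / c) ^ δ) ^ 2 * (T ^ 2 + 32 * T ^ 3) / c),
    ev_pow (half_lt_self hd) (8 * A + 3 * (c⁻¹ ^ max K 1 * (T / c) ^ δ) ^ 2 * T ^ 2 * P / c),
    ((tendsto_exp_neg_atTop_nhds_zero.comp ((tendsto_natCast_atTop_atTop (R := ℝ)).const_mul_atTop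
      e0)).eventually (ge_mem_nhds (show (0 : ℝ) < 1 / 2 by norm_num)))]
    with n hn v1 v2 v3 v4 v5 v6 g ⟨⟨⟨⟨g2, g3⟩, g4⟩, g5⟩, g6⟩ g1 H hH hHn
  have n1 : (1 : ℝ) ≤ n := by exact_mod_cast hn
  have n0 : (0 : ℝ) < n := zero_lt_one.trans_le n1
  have hw := gibbsWeight_pos (n := n) 1 g
  rw [rpow_zero, mul_one] at v1 v2 v3
  have H0 : 0 < H := by linarith
  have s0 : 0 < Crit.sH n H := rpow_pos_of_pos (by positivity) _
  refine sp_iff.1 ?_
  rcases lt_or_ge (min (min (j / 3) z) ((T / c) ^ (3 / 2 : ℝ)) * n) H with h | h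
  · refine (sp_of_lp hw g2 h).mono (.of_pos hw) ?_
    have s1 : Crit.sH n H ≤ 1 := rpow_le_one (by positivity) ((div_le_one n0).2 hHn) (by norm_num)
    have : (n : ℝ) ^ (-d) ≤ k := by rw [rpow_neg n0.le]; exact inv_le_of_inv_le₀ k0 v3
    calc _ ≤ k * 1 * n := by gcongr
      _ = _ := by ring
  rw [← div_le_iff₀ n0, le_min_iff, le_min_iff] at h
  have g7 := g5 H ((rpow_le_rpow_of_exponent_le n1 δ1).trans hH) ((div_le_iff₀ n0).1 h.1.2)
  refine sp_lev hw c0 c1 T0 K1 δ0 δ2 hn (v1.trans hH) hHn ?_ (fun r hr => ⟨fun h h' => covAt_mono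
    (.of_pos hw) ((g7 r hr).1 h h') (div_le_div_of_nonneg_right (le_max_left _ _)
      (le_trans (by positivity) h)), (g7 r hr).2⟩) (xx_le g g1 (le_max_left _ _) B1 (v2.trans hH))
    g3 A0 (exp_pos _).le v6 (g4.mono (exp_le_exp.2 ?_)) P0 g6 (lt_add_one _) rfl
    (v4.trans (exp_le_exp.2 hH)) v5
  · refine (rpow_le_rpow (by positivity) h.2 (by norm_num)).trans_eq ?_
    rw [← rpow_mul (by positivity), show (3 / 2 * (2 / 3) : ℝ) = 1 by norm_num, rpow_one]
  · linarith [(div_le_iff₀ n0).1 h.1.1]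

end Crest.Agent.T157.Q1

end
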