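import Crest.Agent.T157.DaDef_82
import Crest.Agent.T157.ConcM_16
import Crest.Agent.T157.KrS_53
import Crest.Agent.T157.DaFd_82
import Crest.Agent.T157.TapPl_37

-- ▼ part T157/DaConc_85
section

/-!
# Row 157, part C (helper85): `Da.concGlue`, `Da.cenGlue`
-/

set_option autoImplicit false

noncomputable section

namespace Crest.Agent.T157.Da

open MeasureTheory ProbabilityTheory Matrix Filter Set Topology
open Crest.Agent.T157.E Crest.Agent.T157.Eig
open Crest.Agent.T157.Tap (V Mx GOE)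
open Crest.Agent.T157.Top (Whp whp_of_real_le)
open Crest.Agent.T157.Conc (fro en en_sq en_nonneg fro_nonneg ELipOn tail_lip_on)
open Crest.Agent.T157.Cond (symG measurable_symG)

namespace Cn85

variable {n : ℕ}

/-- Gaussian coordinates of the pair -/
def pr (n : ℕ) (x : (Fin n × Fin n) ⊕ Fin n → ℝ) : Mx n × V n :=
  (symG (1 / √(n : ℝ)) fun p => x (Sum.inl p), fun i => x (Sum.inr i))

lemma mp_pr (n : ℕ) : MeasurePreserving (pr n) (gv ((Fin n × Fin n) ⊕ Fin n)) (PP n) := by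
  have h2 := measurePreserving_sumPiEquivProdPi (X := fun _ : (Fin n × Fin n) ⊕ Fin n => ℝ)
    (fun _ => gaussianReal 0 1)
  have h3 : MeasurePreserving (symG (ι := Fin n) (1 / √(n : ℝ))) (gv (Fin n × Fin n)) (GOE n) :=
    ⟨measurable_symG _, rfl⟩
  exact (h3.prod (MeasurePreserving.id (gv (Fin n)))).comp h2

lemma en_split (x : (Fin n × Fin n) ⊕ Fin n → ℝ) :
    en x ^ 2 = en (fun p => x (Sum.inl p)) ^ 2 + (fun i => x (Sum.inr i)) ⬝ᵥ (fun i => x (Sum.inr i)) := by
  rw [en_sq, en_sq, Fintype.sum_sum_type]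
  simp only [dotProduct, sq]

lemma fro_pr (hn : 0 < n) (x y : (Fin n × Fin n) ⊕ Fin n → ℝ) :
    n * fro ((pr n x).1 - (pr n y).1) ≤ 2 * en (fun p => (x - y) (Sum.inl p)) ^ 2 := by
  have hnr : (0 : ℝ) < n := by exact_mod_cast hn
  have h := Kr.fro_symG_le (1 / √(n : ℝ)) (fun p : Fin n × Fin n => x (Sum.inl p))
    (fun p => y (Sum.inl p))
  have h2 := pow_le_pow_left₀ (Kr.fro_nonneg _) h 2
  rw [Kr.fro, Real.sq_sqrt (by positivity), mul_pow, mul_pow, Real.sq_sqrt (by norm_num), sq_abs,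
    div_pow, Real.sq_sqrt hnr.le] at h2
  have h3 := mul_le_mul_of_nonneg_left h2 hnr.le
  refine le_trans (le_of_eq rfl) (h3.trans (le_of_eq ?_))
  have e : ((fun p : Fin n × Fin n => x (Sum.inl p)) - fun p => y (Sum.inl p)) =
      fun p => (x - y) (Sum.inl p) := rfl
  rw [e]; field_simp

/-- the measurable good set -/
def Ks (n : ℕ) (η : ℝ) : Set (Mx n × V n) := {z | Ball z.1 ∧ (fE η z.1).trace ≤ 4 * Nb n η}

lemma meas_Ks (hF : FeApi) (n : ℕ) (η : ℝ) : MeasurableSet (Ks n η) := by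
  have h1 : MeasurableSet {z : Mx n × V n | z.1ᵀ = z.1} :=
    measurableSet_eq_fun measurable_fst.t157_transpose measurable_fst
  have h2 : MeasurableSet {z : Mx n × V n | opn z.1 ≤ 3} :=
    measurableSet_le (measurable_opn fun i j => measurable_fst.t157_entry i j) measurable_const
  have h3 : MeasurableSet {z : Mx n × V n | (fE η z.1).trace ≤ 4 * Nb n η} :=
    measurableSet_le ((hF.meas n η).comp measurable_fst).t157_trace measurable_const
  exact (h1.inter h2).inter h3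

lemma lip_F (hF : FeApi) (hn : 0 < n) {C η R : ℝ} (hC : 0 < C) (hη : 0 < η)
    (hR1 : 1 ≤ R) (hR : 1 ≤ η * √(n : ℝ) * R) {B : Mx n × V n → Mx n} (hB : LipJ C B) :
    ELipOn ((6 * C + 3 * √C) * √(Nb n η) * R) (fun x => (fE η (pr n x).1 * B (pr n x)).trace)
      (pr n ⁻¹' Ks n η) := by
  intro x hx y hy
  have hnr : (0 : ℝ) < n := by exact_mod_cast hn
  have hsn : 0 < √(n : ℝ) := Real.sqrt_pos.2 hnr
  have hN : 0 ≤ Nb n η := by unfold Nb; positivity
  set z := pr n y
  set z' := pr n x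
  have hz : Ball z.1 := hy.1
  have hz' : Ball z'.1 := hx.1
  have s4 : √(4 * Nb n η) = 2 * √(Nb n η) := by
    rw [Real.sqrt_mul (by norm_num), show (4 : ℝ) = 2 ^ 2 by norm_num, Real.sqrt_sq (by norm_num)]
  have t1 : √(fE η z.1).trace ≤ 2 * √(Nb n η) := s4 ▸ Real.sqrt_le_sqrt hy.2
  have t2 : √(fE η z'.1).trace ≤ 2 * √(Nb n η) := s4 ▸ Real.sqrt_le_sqrt hx.2
  have e : (fE η z'.1 * B z').trace - (fE η z.1 * B z).trace =
      ((fE η z'.1 - fE η z.1) * B z').trace + (fE η z.1 * (B z' - B z)).trace := by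
    simp only [Matrix.sub_mul, Matrix.mul_sub, trace_sub]; ring
  have a1 := hF.liptr hz.1 hz'.1 hη (B z')
  have a2 := hF.trcs hz.1 hη (B z' - B z)
  have b1 := fro_pr hn x y
  have b2 := en_split (x - y)
  set E := en (x - y) with hE
  have hE0 : 0 ≤ E := en_nonneg _
  have b3 : 0 ≤ (fun i => (x - y) (Sum.inr i)) ⬝ᵥ (fun i => (x - y) (Sum.inr i)) :=
    dot_self_nonneg _
  have b4 : (z'.2 - z.2) ⬝ᵥ (z'.2 - z.2) =
      (fun i => (x - y) (Sum.inr i)) ⬝ᵥ (fun i => (x - y) (Sum.inr i)) := rfl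
  have c1 : √(fro (z'.1 - z.1)) * √(n : ℝ) ≤ 3 / 2 * E := by
    rw [← Real.sqrt_mul (fro_nonneg _)]
    refine Real.sqrt_le_iff.2 ⟨by positivity, ?_⟩
    nlinarith [sq_nonneg E]
  have c2 : √(fro (B z' - B z)) ≤ 3 / 2 * √C * E := by
    refine Real.sqrt_le_iff.2 ⟨by positivity, (hB.lip z z' hz hz').trans ?_⟩
    rw [mul_pow, mul_pow, Real.sq_sqrt hC.le, b4]
    have c3 : n * opn (z'.1 - z.1) ^ 2 ≤ n * fro (z'.1 - z.1) :=
      mul_le_mul_of_nonneg_left (opn_sq_le_frob _) hnr.le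
    have c4 : n * opn (z'.1 - z.1) ^ 2 +
        (fun i => (x - y) (Sum.inr i)) ⬝ᵥ (fun i => (x - y) (Sum.inr i)) ≤ 9 / 4 * E ^ 2 := by
      nlinarith [sq_nonneg E]
    nlinarith
  have hs0 := Real.sqrt_nonneg (Nb n η)
  have d1 : √(fro (z'.1 - z.1)) * opn (B z') * (√(fE η z.1).trace + √(fE η z'.1).trace) / η ≤
      6 * C * √(Nb n η) * R * E := by
    rw [div_le_iff₀ hη]
    have d2 : √(fro (z'.1 - z.1)) ≤ 3 / 2 * E * (η * R) := by
      have d3 : √(fro (z'.1 - z.1)) * 1 ≤ √(fro (z'.1 - z.1)) * (η * √(n : ℝ) * R) :=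
        mul_le_mul_of_nonneg_left hR (Real.sqrt_nonneg _)
      have d4 := mul_le_mul_of_nonneg_right c1 (show 0 ≤ η * R by positivity)
      linarith
    calc _ ≤ (3 / 2 * E * (η * R)) * C * (4 * √(Nb n η)) :=
          mul_le_mul (mul_le_mul d2 (hB.bd z' hz') (opn_nonneg _) (by positivity)) (by linarith)
            (by positivity) (by positivity)
      _ = _ := by ring
  have d5 : √(fE η z.1).trace * √(fro (B z' - B z)) ≤ 3 * √C * √(Nb n η) * R * E := by
    calc _ ≤ (2 * √(Nb n η)) * (3 / 2 * √C * E) :=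
          mul_le_mul t1 c2 (Real.sqrt_nonneg _) (by positivity)
      _ = 3 * √C * √(Nb n η) * 1 * E := by ring
      _ ≤ _ := by gcongr
  change |(fE η z'.1 * B z').trace - (fE η z.1 * B z).trace| ≤ _
  rw [e]
  refine (abs_add_le _ _).trans ?_
  linarith

lemma e0_le_ep (hn : 0 < n) : e0 n ≤ ep n :=
  Real.rpow_le_rpow_of_exponent_le (by exact_mod_cast hn) (by norm_num)

lemma e0_le_one (hn : 0 < n) : e0 n ≤ 1 :=
  Real.rpow_le_one_of_one_le_of_nonpos (by exact_mod_cast hn) (by norm_num)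

lemma ball_of_spec (hn : 0 < n) {G : Mx n} (hG : Spec G) : Ball G :=
  ⟨hG.symm, by linarith [hG.top, e0_le_one hn]⟩

lemma ep_pos (hn : 0 < n) : 0 < ep n := Real.rpow_pos_of_pos (by exact_mod_cast hn) _

lemma Nb_ge (hn : 0 < n) {η : ℝ} (hη : ep n ≤ η) : (n : ℝ) ^ (11 / 50 : ℝ) ≤ Nb n η := by
  have hnr : (0 : ℝ) < n := by exact_mod_cast hn
  have h0 := ep_pos hn
  have e : (n : ℝ) ^ (11 / 50 : ℝ) = Nb n (ep n) := by
    unfold Nb ep
    rw [Real.sqrt_eq_rpow, ← Real.rpow_mul hnr.le, ← Real.rpow_add hnr]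
    nth_rewrite 2 [← Real.rpow_one (n : ℝ)]
    rw [← Real.rpow_add hnr]; norm_num
  have h1 : 0 ≤ η := h0.le.trans hη
  rw [e]; unfold Nb
  gcongr

lemma R_ge (hn : 0 < n) {η : ℝ} (hη : ep n ≤ η) : 1 ≤ η * √(n : ℝ) * (n : ℝ) ^ (1 / 50 : ℝ) := by
  have hnr : (0 : ℝ) < n := by exact_mod_cast hn
  have e : ep n * √(n : ℝ) * (n : ℝ) ^ (1 / 50 : ℝ) = 1 := by
    unfold ep
    rw [Real.sqrt_eq_rpow, ← Real.rpow_add hnr, ← Real.rpow_add hnr]; norm_num
  exact e.symm.trans_le (mul_le_mul_of_nonneg_right (mul_le_mul_of_nonneg_right hη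
    (Real.sqrt_nonneg _)) (Real.rpow_nonneg hnr.le _))

lemma tr_ge (hF : FeApi) {G : Mx n} (hG : Spec G) {η : ℝ} (hη : 0 < η) (h0 : e0 n ≤ η)
    (h1 : η ≤ 1) : Nb n η / 128 ≤ (fE η G * 1).trace := by
  have hH := herm_iff.2 hG.symm
  rw [hF.trace hG.symm hη]
  have h2 := hG.lo η ⟨h0, h1⟩
  have hc : cnt G (2 - η) ≤ n := by simpa using cnt_le_card G (2 - η)
  have hfl : ∀ l, 0 ≤ fl η l := fun l => by unfold fl; positivity
  have h3 : ∑ _k ∈ Finset.range (cnt G (2 - η)), (1 / 2 : ℝ) ≤ ∑ k ∈ Finset.range (cnt G (2 - η)),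
      fl η (lam G k) * (Eig.vec G k ⬝ᵥ (1 : Mx n) *ᵥ Eig.vec G k) := by
    refine Finset.sum_le_sum fun k hk => ?_
    have hk' := (lt_cnt_iff hH).1 (Finset.mem_range.1 hk)
    rw [one_mulVec, vec_dot_self hH hk'.1, mul_one, fl, le_div_iff₀ (by positivity)]
    have h4 := (lam_le_opn hH k).trans hG.top
    have h5 : (2 - lam G k) ^ 2 ≤ η ^ 2 := sq_le_sq' (by linarith) (by linarith [hk'.2])
    linarith
  rw [Finset.sum_const, Finset.card_range, nsmul_eq_mul] at h3
  refine le_trans (by linarith) (h3.trans (Finset.sum_le_sum_of_subset_of_nonneg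
    (Finset.range_subset_range.2 hc) fun k _ _ => mul_nonneg (hfl _) ?_))
  rw [one_mulVec]; exact dot_self_nonneg _

lemma abs_tr_le (hF : FeApi) {G A : Mx n} (hG : Gᵀ = G) {η C : ℝ} (hη : 0 < η) (hA : opn A ≤ C) :
    |(fE η G * A).trace| ≤ C * (fE η G).trace := by
  have hfl : ∀ l, 0 ≤ fl η l := fun l => by unfold fl; positivity
  have e := hF.trace hG hη 1
  rw [Matrix.mul_one] at e
  rw [hF.trace hG hη, e, Finset.mul_sum]
  refine (Finset.abs_sum_le_sum_abs _ _).trans (Finset.sum_le_sum fun k _ => ?_)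
  rw [abs_mul, abs_of_nonneg (hfl _), one_mulVec, mul_left_comm]
  exact mul_le_mul_of_nonneg_left ((abs_quad_le A _).trans
    (mul_le_mul_of_nonneg_right hA (dot_self_nonneg _))) (hfl _)

lemma vh_whp {P : ∀ n, Mx n × V n → Prop} (h : Vh PP P) : Whp PP P := by
  obtain ⟨c, hc, h⟩ := h
  have t1 : Tendsto (fun n : ℕ => ENNReal.ofReal (Real.exp (-(n : ℝ) ^ c))) atTop (𝓝 0) := by
    rw [← ENNReal.ofReal_zero]
    exact ENNReal.tendsto_ofReal (Real.tendsto_exp_neg_atTop_nhds_zero.comp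
      ((tendsto_rpow_atTop hc).comp tendsto_natCast_atTop_atTop))
  exact tendsto_of_tendsto_of_tendsto_of_le_of_le' tendsto_const_nhds t1
    (.of_forall fun _ => zero_le) h

lemma tail_zero {c : ℝ} (hc : 0 < c) :
    Tendsto (fun n : ℕ => 2 * Real.exp (-(c * (n : ℝ) ^ (9 / 50 : ℝ)))) atTop (𝓝 0) := by
  have h := (Real.tendsto_exp_neg_atTop_nhds_zero.comp (Tendsto.const_mul_atTop hc
    ((tendsto_rpow_atTop (by norm_num : (0 : ℝ) < 9 / 50)).comp
      tendsto_natCast_atTop_atTop))).const_mul 2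
  simpa using h

lemma ep_tendsto : Tendsto ep atTop (𝓝 0) :=
  (tendsto_rpow_neg_atTop (by norm_num : (0 : ℝ) < 13 / 25)).comp tendsto_natCast_atTop_atTop

end Cn85

open Cn85

theorem concGlue : ConcGlue := by
  intro hF C hC
  set K : ℝ := 6 * C + 3 * √C with hK
  have hK0 : 0 < K := by positivity
  refine ⟨1 / (2 * K ^ 2), by positivity, ?_⟩
  filter_upwards [eventually_gt_atTop 0] with n hn B hB η hη
  have hnr : (0 : ℝ) < n := by exact_mod_cast hn
  have hη0 : 0 < η := (ep_pos hn).trans_le hη.1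
  have hN : 0 < Nb n η := by unfold Nb; positivity
  set R : ℝ := (n : ℝ) ^ (1 / 50 : ℝ) with hR
  have hR1 : 1 ≤ R := Real.one_le_rpow (by exact_mod_cast hn) (by norm_num)
  obtain ⟨m, hm⟩ := tail_lip_on (by positivity) (lip_F hF hn hC hη0 hR1 (R_ge hn hη.1) hB)
  refine ⟨m / Nb n η, fun s hs => ?_⟩
  rw [div_mul_cancel₀ _ hN.ne']
  have hmF : Measurable fun z : Mx n × V n => (fE η z.1 * B z).trace :=
    (((hF.meas n η).comp measurable_fst).t157_mul hB.meas).t157_trace
  have hT : MeasurableSet (Ks n η ∩ {z | s * Nb n η ≤ |(fE η z.1 * B z).trace - m|}) :=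
    (meas_Ks hF n η).inter (measurableSet_le measurable_const (hmF.sub_const m).abs)
  calc _ ≤ (PP n).real (Ks n η ∩ {z | s * Nb n η ≤ |(fE η z.1 * B z).trace - m|}) :=
        measureReal_mono fun z hz => ⟨⟨ball_of_spec hn hz.1,
          hz.1.tr η ⟨(e0_le_ep hn).trans hη.1, hη.2⟩⟩, hz.2⟩
    _ = (gv ((Fin n × Fin n) ⊕ Fin n)).real
          (pr n ⁻¹' (Ks n η ∩ {z | s * Nb n η ≤ |(fE η z.1 * B z).trace - m|})) :=
        ((mp_pr n).measureReal_preimage hT.nullMeasurableSet).symm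
    _ ≤ _ := hm (s * Nb n η) (by positivity)
    _ ≤ _ := by
        refine mul_le_mul_of_nonneg_left (Real.exp_le_exp.2 ?_) zero_le_two
        rw [neg_div, neg_le_neg_iff, le_div_iff₀ (by positivity)]
        have e1 : (n : ℝ) ^ (9 / 50 : ℝ) * R ^ 2 = (n : ℝ) ^ (11 / 50 : ℝ) := by
          rw [hR, ← Real.rpow_natCast, ← Real.rpow_mul hnr.le, ← Real.rpow_add hnr]; norm_num
        have e2 : 1 / (2 * K ^ 2) * s ^ 2 * (n : ℝ) ^ (9 / 50 : ℝ) * (2 * (K * √(Nb n η) * R) ^ 2) =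
            s ^ 2 * Nb n η * ((n : ℝ) ^ (9 / 50 : ℝ) * R ^ 2) := by
          rw [mul_pow, mul_pow, Real.sq_sqrt hN.le]; field_simp
        rw [e2, e1, mul_pow, sq (Nb n η), ← mul_assoc]
        exact mul_le_mul_of_nonneg_left (Nb_ge hn hη.1) (by positivity)

theorem cenGlue : CenGlue := by
  intro hF hFD hL hS hCo T hT r hr η hη
  obtain ⟨C, hC, hFD⟩ := hFD T hT r hr
  obtain ⟨C', hC', hL⟩ := hL C hC η hη.1
  obtain ⟨c, hc, hCo⟩ := hCo C' hC'
  have key : ∀ᶠ n : ℕ in atTop, ∃ m : ℝ × ℝ, (∀ s ≥ (0 : ℝ),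
      (PP n).real {z | Spec z.1 ∧ s * Nb n η ≤ |(fE η z.1 * Aq T r z).trace - m.1 * Nb n η|} ≤
        2 * Real.exp (-(c * s ^ 2 * (n : ℝ) ^ (9 / 50 : ℝ)))) ∧ (∀ s ≥ (0 : ℝ),
      (PP n).real {z | Spec z.1 ∧ s * Nb n η ≤ |(fE η z.1 * 1).trace - m.2 * Nb n η|} ≤
        2 * Real.exp (-(c * s ^ 2 * (n : ℝ) ^ (9 / 50 : ℝ)))) := by
    filter_upwards [hCo, eventually_gt_atTop 0, ep_tendsto.eventually (ge_mem_nhds hη.1)]
      with n h hn he
    obtain ⟨S, hS⟩ := hFD n hn
    obtain ⟨l1, l2, -⟩ := hL n _ S hS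
    obtain ⟨m1, h1⟩ := h _ l1 η ⟨he, by linarith [hη.2]⟩
    obtain ⟨m2, h2⟩ := h _ l2 η ⟨he, by linarith [hη.2]⟩
    exact ⟨(m1, m2), h1, h2⟩
  obtain ⟨m, hm⟩ := key.choice
  refine ⟨fun n => (m n).1 / (m n).2, fun δ hδ => ?_⟩
  set D : ℝ := 256 * (4 * C + 1) with hD
  have hD0 : 0 < D := by positivity
  set s : ℝ := min (1 / 256) (δ / (1 + D)) with hs
  have hs0 : 0 < s := lt_min (by norm_num) (by positivity)
  have hs1 : s ≤ 1 / 256 := min_le_left _ _
  have hs2 : s * (1 + D) ≤ δ := (le_div_iff₀ (by positivity)).1 (min_le_right _ _)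
  have w1 : Whp PP fun n z => ¬ (Spec z.1 ∧
      s * Nb n η ≤ |(fE η z.1 * Aq T r z).trace - (m n).1 * Nb n η|) :=
    whp_of_real_le (tail_zero (c := c * s ^ 2) (by positivity))
      (hm.mono fun n h => by simpa only [not_not] using h.1 s hs0.le)
  have w2 : Whp PP fun n z => ¬ (Spec z.1 ∧
      s * Nb n η ≤ |(fE η z.1 * 1).trace - (m n).2 * Nb n η|) :=
    whp_of_real_le (tail_zero (c := c * s ^ 2) (by positivity))
      (hm.mono fun n h => by simpa only [not_not] using h.2 s hs0.le)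
  refine (((vh_whp hS).and w1).and w2).mono ?_
  filter_upwards [eventually_gt_atTop 0, ep_tendsto.eventually (ge_mem_nhds hη.1)] with n hn he
  rintro z ⟨⟨hz, h1⟩, h2⟩
  have h1' := not_le.1 fun h => h1 ⟨hz, h⟩
  have h2' := not_le.1 fun h => h2 ⟨hz, h⟩
  have hnr : (0 : ℝ) < n := by exact_mod_cast hn
  have hη0 := hη.1
  have hN : 0 < Nb n η := by unfold Nb; positivity
  have he0 := (e0_le_ep hn).trans he
  have hη1 : η ≤ 1 := by linarith [hη.2]
  obtain ⟨S, hS'⟩ := hFD n hn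
  have t1 := tr_ge hF hz hη0 he0 hη1
  have t2 := (abs_tr_le hF hz.symm hη0 (hS'.bd z (ball_of_spec hn hz))).trans
    (mul_le_mul_of_nonneg_left (hz.tr η ⟨he0, hη1⟩) hC.le)
  have m2 : 1 / 256 ≤ (m n).2 := by
    have := (abs_lt.1 h2').2
    refine le_of_mul_le_mul_right ?_ hN
    nlinarith [mul_le_mul_of_nonneg_right hs1 hN.le]
  have m1 : |(m n).1| ≤ 4 * C + 1 := by
    refine le_of_mul_le_mul_right ?_ hN
    have h3 : |(m n).1| * Nb n η = |(m n).1 * Nb n η| := by rw [abs_mul, abs_of_pos hN]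
    have h4 := abs_sub_abs_le_abs_sub ((m n).1 * Nb n η) (fE η z.1 * Aq T r z).trace
    rw [abs_sub_comm] at h4
    nlinarith [mul_le_mul_of_nonneg_right hs1 hN.le]
  have hm0 : 0 < (m n).2 := by linarith
  have ha : |(m n).1 / (m n).2| ≤ D := by
    rw [abs_div, abs_of_pos hm0, div_le_iff₀ hm0]
    nlinarith
  have e : dev η ((m n).1 / (m n).2) (Aq T r z) z.1 =
      ((fE η z.1 * Aq T r z).trace - (m n).1 * Nb n η) -
        (m n).1 / (m n).2 * ((fE η z.1 * 1).trace - (m n).2 * Nb n η) := by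
    simp only [dev, Matrix.mul_sub, Matrix.mul_smul, trace_sub, trace_smul, smul_eq_mul]
    field_simp
    ring
  rw [e]
  refine (abs_sub _ _).trans ?_
  rw [abs_mul]
  have h5 := mul_le_mul ha h2'.le (abs_nonneg _) hD0.le
  nlinarith [mul_le_mul_of_nonneg_right hs2 hN.le]

end Crest.Agent.T157.Da

end
end

-- ▼ part T157/DaDisc_82
section

/-!
# Row 157, part C (helper82): discretisation of the dynamics by the chain with frozen fields
-/

set_option autoImplicit false

noncomputable section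

namespace Crest.Agent.T157.Da

open Matrix Function Real Set
open Crest.Agent.T157.E Crest.Agent.T157.Eig
open Crest.Agent.T157.Tap (V Mx)
open Crest.Agent.T157.Rec hiding fl
open Crest.Agent.T157.Chain22 (sg sg_add sg_zero hasDerivAt_sg)
open Crest.Agent.T157.Conc (fro)
open Crest.Agent.T157.Pl (one)
open Gr Fd

namespace Disc

variable {n : ℕ} {W M : Mx n} {h C G : ℝ} {F : Cube n → ℝ}

theorem ex_par (hn : 0 < n) (W : Mx n) (h : ℝ) (K : ℕ) (x : Cube n) :
    Ex fun F => (par W h)^[K] F x := by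
  induction K generalizing x with
  | zero => exact ⟨fun _ _ => rfl, fun _ _ => rfl, fun _ => rfl⟩
  | succ K ih =>
    simp only [iterate_succ_apply']
    exact ⟨fun f g => by simp only [par, funext fun z => (ih z).add f g, sg_add_fun],
      fun c f => by simp only [par, funext fun z => (ih z).cmul c f, sg_const_mul],
      fun c => by simp only [par, funext fun z => (ih z).const c, sg_const hn (ising_pos _ _)]⟩

theorem mo_par (hn : 0 < n) (W : Mx n) (hh : 0 ≤ h) (K : ℕ) (x : Cube n) :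
    Mo fun F => (par W h)^[K] F x := by
  induction K generalizing x with
  | zero => exact fun _ _ e => e x
  | succ K ih =>
    simp only [iterate_succ_apply']
    exact fun f g e => sg_mono hn (ising_pos _ _) hh (fun z => ih z f g e) x

theorem sv_dot (x : Cube n) : sv x ⬝ᵥ sv x = n := by simp [dotProduct, sv_mul_self]

theorem disp_le (hn : 0 < n) (hW : Wᵀ = W) (y : V n) {s : ℝ} (hs : 0 ≤ s) (x : Cube n) :
    sg (ising W y) s (fun z => (sv x - sv z) ⬝ᵥ (sv x - sv z)) x ≤ 4 * n * s := by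
  have hw := ising_pos W y
  have e : (fun z => (sv x - sv z) ⬝ᵥ (sv x - sv z)) = fun z => (2 * n : ℝ) - 2 * (sv x ⬝ᵥ sv z) := by
    ext z; rw [sub_dotProduct, dotProduct_sub, dotProduct_sub, sv_dot, sv_dot, dotProduct_comm (sv z)]; ring
  have := le_of_deriv hs (fun u _ => ((hasDerivAt_id' u).const_mul (4 * n : ℝ)).sub
    (hasDerivAt_sg hn hw (fun z => (sv x - sv z) ⬝ᵥ (sv x - sv z)) x u)) fun u hu => by
      rw [gen_sg hn hw, mul_one, sub_nonneg]
      refine (ex_sg hn hw u x).le (mo_sg hn hw hu.1 x) fun z => ?_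
      rw [gen_ising hW, e, grad_sub, grad_const, grad_const_mul, grad_lin]
      refine (Finset.sum_le_card_nsmul _ _ 4 fun i _ => ?_).trans_eq (by simp [mul_comm])
      have h1 := abs_lt.1 (abs_tanh_lt_one (loc W y z i))
      simp only [tt, Pi.sub_apply, Pi.zero_apply, Pi.smul_apply, smul_eq_mul]
      rcases mul_self_eq_one_iff.1 (sv_mul_self x i) with a | a <;>
        rcases mul_self_eq_one_iff.1 (sv_mul_self z i) with b | b <;> rw [a, b] <;> linarith
  simp only [Pi.sub_apply, sg_zero hn hw, sub_self, dotProduct_zero] at this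
  linarith

/-- the data of the comparison -/
structure Ok (W : Mx n) (C h E : ℝ) : Prop where
  hn : 0 < n
  hW : Wᵀ = W
  hK : opn W ≤ 4
  hC : 0 ≤ C
  hh : 0 ≤ h
  hE : 0 ≤ E
  gr : GR (ising W 0) C
  gr0 : ∀ b, GR (ising (0 : Mx n) b) C
  le : exp (C * h) * (192 * n * h + 3 * ∑ i, W i i ^ 2) ≤ E ^ 2

variable {E : ℝ}

theorem Ok.step (o : Ok W C h E) (hG : 0 ≤ G) (hF : ∀ z, grad F z ⬝ᵥ grad F z ≤ G ^ 2) (x : Cube n) :
    |par W h F x - sg (ising W 0) h F x| ≤ h * E * G := by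
  have hw := ising_pos W 0
  have hh := o.hh
  have hE := o.hE
  have t := two_ising o.hn o.hW transpose_zero o.hC o.gr (o.gr0 (W *ᵥ sv x))
  refine abs_le_of_sq_le_sq ((t.duhamel hh hF x).trans ?_) (by positivity)
  have h1 : Iq (ising W 0) h (fun z => (tt 0 (W *ᵥ sv x) z - tt W 0 z) ⬝ᵥ
      (tt 0 (W *ᵥ sv x) z - tt W 0 z)) x ≤ h * (192 * n * h + 3 * ∑ i, W i i ^ 2) := by
    refine (intervalIntegral.integral_mono_on hh ((cont_sg o.hn hw _ x).intervalIntegrable _ _)
      (continuous_const (y := 192 * n * h + 3 * ∑ i, W i i ^ 2) |>.intervalIntegrable _ _)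
      fun s hs => ?_).trans_eq (by rw [intervalIntegral.integral_const, sub_zero, smul_eq_mul])
    refine (sg_mono o.hn hw hs.1 (g := fun z => 48 * ((sv x - sv z) ⬝ᵥ (sv x - sv z)) +
      3 * ∑ i, W i i ^ 2) (fun z => (tt_sub_le _ _ _ _ z).trans ?_) x).trans ?_
    · have e : (0 - W) *ᵥ sv z + (W *ᵥ sv x - 0) = W *ᵥ (sv x - sv z) := by
        rw [zero_sub, neg_mulVec, sub_zero, mulVec_sub]; abel
      have := (mulVec_dot_le W (sv x - sv z)).trans (mul_le_mul_of_nonneg_right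
        (pow_le_pow_left₀ (opn_nonneg W) o.hK 2) (dot_self_nonneg _))
      rw [e]
      simp only [zero_sub, Matrix.neg_apply, neg_sq]
      linarith
    · rw [sg_add_fun, sg_const_mul, sg_const o.hn hw]
      have := disp_le o.hn o.hW 0 hs.1 x
      have := mul_le_mul_of_nonneg_left hs.2 (Nat.cast_nonneg (α := ℝ) n)
      linarith
  refine (mul_le_mul_of_nonneg_right h1 (by positivity)).trans ?_
  have := mul_le_mul_of_nonneg_left o.le (show 0 ≤ h ^ 2 * G ^ 2 by positivity)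
  linarith

theorem Ok.iter (o : Ok W C h E) (hG : 0 ≤ G) (hF : ∀ z, grad F z ⬝ᵥ grad F z ≤ G ^ 2) (K : ℕ)
    (x : Cube n) :
    |(par W h)^[K] F x - sg (ising W 0) (K * h) F x| ≤ K * h * E * (exp (C * (K * h)) * G) := by
  have hw := ising_pos W 0
  have hh := o.hh
  have hE := o.hE
  have hC := o.hC
  induction K generalizing x with
  | zero => simp [sg_zero o.hn hw]
  | succ K ih =>
    have e1 : 1 ≤ exp (C * (K * h)) := one_le_exp (by positivity)
    have h1 := o.step (F := sg (ising W 0) (K * h) F) (G := exp (C * (K * h)) * G) (by positivity)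
      (fun z => (gr_le o.gr o.hn hw (by positivity) hF z).trans (by
        rw [mul_pow]; exact mul_le_mul_of_nonneg_right (by nlinarith) (sq_nonneg G))) x
    have h2 := (ex_par o.hn W h 1 x).abs_le (mo_par o.hn W hh 1 x) ih
    rw [(ex_par o.hn W h 1 x).sub, (ex_par o.hn W h 1 x).const] at h2
    have e2 : exp (C * (K * h)) * G ≤ exp (C * ((K + 1) * h)) * G := by gcongr; linarith
    rw [iterate_succ_apply', Nat.cast_succ, add_mul (K : ℝ), one_mul, add_comm (K * h) h,
      sg_add o.hn hw, add_comm h, ← add_one_mul]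
    refine (abs_sub_le _ _ _).trans ((add_le_add h2 h1).trans ?_)
    have := mul_le_mul_of_nonneg_left e2 (show 0 ≤ (K + 1) * h * E by positivity)
    linarith

theorem nrm_le_of_dot {a : V n} {c : ℝ} (hc : 0 ≤ c) (h : a ⬝ᵥ a ≤ c * nrm a) : nrm a ≤ c := by
  rw [← nrm_mul_self] at h
  rcases (nrm_nonneg a).eq_or_lt with e | e
  · rwa [← e]
  · exact le_of_mul_le_mul_right h e

theorem nrm_mv_le {E : (Cube n → ℝ) → ℝ} (h : Ex E) (hm : Mo E) : nrm (mv E sv) ≤ √n :=
  nrm_le_of_dot (sqrt_nonneg _) (by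
    rw [← h.dot]
    exact h.le hm fun z => (dot_le _ _).trans_eq (by rw [nrm, nrm, sv_dot, mul_comm]))

theorem Ok.quad (o : Ok W C h E) (M : Mx n) (K : ℕ) (z : Cube n) :
    |Yd W h K z ⬝ᵥ M *ᵥ Yd W h K z - Psv (ising W 0) (K * h) z ⬝ᵥ M *ᵥ Psv (ising W 0) (K * h) z| ≤
      2 * (opn M * √n * (K * h * E * exp (C * (K * h)))) := by
  have hw := ising_pos W 0
  have hh := o.hh
  have hE := o.hE
  set a := Yd W h K z
  set b := Psv (ising W 0) (K * h) z
  have ha : nrm a ≤ √n := nrm_mv_le (ex_par o.hn W h K z) (mo_par o.hn W hh K z)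
  have hb : nrm b ≤ √n := nrm_mv_le (ex_sg o.hn hw _ z) (mo_sg o.hn hw (by positivity) z)
  have hab : nrm (a - b) ≤ K * h * E * exp (C * (K * h)) := nrm_le_of_dot (by positivity) (by
    have := o.iter (F := fun x => (a - b) ⬝ᵥ sv x) (nrm_nonneg (a - b))
      (fun z => by rw [grad_lin, nrm_sq]) K z
    rw [(ex_par o.hn W h K z).dot, ← dot_Psv, ← dotProduct_sub, ← mul_assoc] at this
    exact (le_abs_self _).trans this)
  have e : a ⬝ᵥ M *ᵥ a - b ⬝ᵥ M *ᵥ b = (a - b) ⬝ᵥ M *ᵥ a + b ⬝ᵥ M *ᵥ (a - b) := by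
    rw [mulVec_sub, sub_dotProduct, dotProduct_sub]; ring
  have := opn_nonneg M
  have := nrm_nonneg (a - b)
  have := nrm_nonneg b
  rw [e, two_mul]
  refine (abs_add_le _ _).trans (add_le_add ((abs_bil_le _ _ _).trans ?_) ((abs_bil_le _ _ _).trans ?_))
  · rw [mul_comm (nrm _), mul_assoc]; gcongr
  · rw [mul_assoc]; gcongr

theorem fro_le (M : Mx n) : fro M ≤ n * opn M ^ 2 := by
  rw [← Conc.fro_transpose]
  exact (Finset.sum_le_card_nsmul _ _ _ fun i _ => row_sq_le M i).trans_eq (by simp)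

theorem grad_quad {Y : Cube n → V n} {B : ℝ} (hB : 1 ≤ B) (hY : Jb Y B) (hn : ∀ z, nrm (Y z) ≤ √n)
    (M : Mx n) (z : Cube n) : grad (fun z => Y z ⬝ᵥ M *ᵥ Y z) z ⬝ᵥ grad (fun z => Y z ⬝ᵥ M *ᵥ Y z) z ≤
      (4 * B * (opn M * √n)) ^ 2 := by
  set S : Mx n := (1 / 2 : ℝ) • (M + Mᵀ) with hS
  have e : ∀ u : V n, u ⬝ᵥ M *ᵥ u = (u - 0) ⬝ᵥ S *ᵥ (u - 0) := fun u => by
    rw [sub_zero, hS, smul_mulVec, add_mulVec, dotProduct_smul, dotProduct_add, mulVec_transpose,
      dotProduct_comm u (u ᵥ* M), ← dotProduct_mulVec, smul_eq_mul]; ring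
  have h1 : opn S ≤ opn M := by
    have := opn_add_le M Mᵀ
    rw [opn_transpose] at this
    rw [hS, opn_smul, abs_of_pos one_half_pos]; linarith
  have h2 := pow_le_pow_left₀ (opn_nonneg S) h1 2
  have h3 := (fro_le S).trans (mul_le_mul_of_nonneg_left h2 (Nat.cast_nonneg n))
  have h4 := (mulVec_dot_le S (Y z - 0)).trans (mul_le_mul h2 (b := opn M ^ 2) (d := n) (by
    rw [sub_zero, ← sq_sqrt (Nat.cast_nonneg n)]
    exact (nrm_le_iff (sqrt_nonneg _)).1 (hn z)) (dot_self_nonneg _) (sq_nonneg _))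
  simp only [e]
  refine (grad_quad_le (by linarith) hY (by rw [hS, transpose_smul, transpose_add,
    transpose_transpose, add_comm]) 0 z).trans ?_
  rw [mul_pow, mul_pow, mul_pow, sq_sqrt (Nat.cast_nonneg n)]
  have h5 : 0 ≤ opn M ^ 2 * n := by positivity
  nlinarith [mul_le_mul_of_nonneg_left h4 (show 0 ≤ B by linarith),
    mul_le_mul_of_nonneg_left h3 (sq_nonneg B), mul_nonneg h5 (mul_nonneg (show 0 ≤ B by linarith)
      (sub_nonneg.2 hB))]

end Disc

open Disc

theorem discStmt : DiscStmt := by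
  intro T hT
  obtain ⟨C, hC, hG⟩ := grStmt 4
  set b := exp (C * T) with hb
  have b1 : 1 ≤ b := one_le_exp (by positivity)
  refine ⟨10 * T * b ^ 3 * (√(192 * T) + 2) + 1, by positivity, fun n K W M hn hK hW hW4 => ?_⟩
  have K1 : (1 : ℝ) ≤ K := by exact_mod_cast hK
  have hw := ising_pos W 0
  have eK : K * (T / K) = T := by field_simp
  have eK2 : ((2 * K : ℕ) : ℝ) * (T / K) = 2 * T := by push_cast; rw [mul_assoc, eK]
  set d := ∑ i, W i i ^ 2
  have d0 : 0 ≤ d := by positivity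
  set R := √n / √K + √d with hR
  have o : Ok W C (T / K) (b * ((√(192 * T) + 2) * R)) := by
    refine ⟨hn, hW, hW4, hC, by positivity, by positivity, hG n W 0 hn hW hW4,
      fun y => hG n 0 y hn transpose_zero (by simp), ?_⟩
    rw [mul_pow]
    refine mul_le_mul ((exp_le_exp.2 (mul_le_mul_of_nonneg_left (div_le_self hT K1) hC)).trans
      (by nlinarith)) ?_ (by positivity) (by positivity)
    have h1 : (√n / √K) ^ 2 = n / K := by rw [div_pow, sq_sqrt (by positivity), sq_sqrt (by positivity)]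
    have h2 : n / K + d ≤ R ^ 2 := by
      rw [hR, add_sq, h1, sq_sqrt d0]
      have : 0 ≤ 2 * (√n / √K) * √d := by positivity
      linarith
    have h3 : 192 * T + 4 ≤ (√(192 * T) + 2) ^ 2 := by
      rw [add_sq, sq_sqrt (by positivity)]; linarith [sqrt_nonneg (192 * T)]
    rw [mul_pow]
    refine le_trans ?_ (mul_le_mul h3 h2 (by positivity) (by positivity))
    have : 192 * n * (T / K) = 192 * T * (n / K) := by ring
    have : 0 ≤ (n : ℝ) / K := by positivity
    nlinarith [mul_nonneg hT d0]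
  have e : (M * Am (ising W 0) T (one n)).trace =
      sg (ising W 0) T (fun z => Psv (ising W 0) T z ⬝ᵥ M *ᵥ Psv (ising W 0) T z) (one n) -
        Psv (ising W 0) (2 * T) (one n) ⬝ᵥ M *ᵥ Psv (ising W 0) (2 * T) (one n) := by
    have e1 : mv (fun g => sg (ising W 0) T g (one n)) (Psv (ising W 0) T) =
        Psv (ising W 0) (2 * T) (one n) := by
      ext i; rw [two_mul, Psv, sg_add hn hw]; rfl
    rw [← e1, ← Am_transpose]
    exact (Qm_Am hn hw hT _ M).symm
  have h1 := o.quad M (2 * K) (one n)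
  have h2 := (ex_par hn W (T / K) K (one n)).abs_le (mo_par hn W o.hh K (one n)) (o.quad M K)
  have h3 := o.iter (by have := opn_nonneg M; positivity) (grad_quad b1 (jb_Psv o.gr hn hw hT)
    (fun z => nrm_mv_le (ex_sg hn hw _ z) (mo_sg hn hw hT z)) M) K (one n)
  rw [(ex_par hn W _ K _).sub, (ex_par hn W _ K _).const] at h2
  rw [eK2, mul_left_comm C, two_mul (C * T), exp_add] at h1
  rw [eK] at h2 h3
  have eR : n / √K + √n * √d = √n * R := by
    rw [hR, mul_add, ← mul_div_assoc, mul_self_sqrt (Nat.cast_nonneg n)]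
  rw [e, br, br, iterate_zero, id, eR]
  set X := opn M * √n * ((√(192 * T) + 2) * R) * T with hX
  have X0 : 0 ≤ X := by have := opn_nonneg M; positivity
  have p : 0 ≤ opn M * (√n * R) := by have := opn_nonneg M; positivity
  have q : X * b ^ 2 ≤ X * b ^ 3 := mul_le_mul_of_nonneg_left (pow_le_pow_right₀ b1 (by norm_num)) X0
  rw [← hb] at h1 h2 h3
  replace h1 := abs_le.1 (h1.trans_eq (show _ = 4 * (X * b ^ 3) by rw [hX]; ring))
  replace h2 := abs_le.1 (h2.trans_eq (show _ = 2 * (X * b ^ 2) by rw [hX]; ring))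
  replace h3 := abs_le.1 (h3.trans_eq (show _ = 4 * (X * b ^ 3) by rw [hX]; ring))
  rw [show (10 * T * b ^ 3 * (√(192 * T) + 2) + 1) * opn M * (√n * R) =
    10 * (X * b ^ 3) + opn M * (√n * R) by rw [hX]; ring, abs_le]
  constructor <;> linarith

end Crest.Agent.T157.Da

end
end

-- ▼ part T157/DaHaar_44

/-!
# Row 157, part C (helper44): `Da.HaarStmt` and `Da.GaugeStmt`
-/

set_option autoImplicit false

noncomputable section

namespace Crest.Agent.T157.Da

open MeasureTheory ProbabilityTheory Matrix Filter Set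
open Crest.Agent.T157.E Crest.Agent.T157.Eig Crest.Agent.T157.Cond
open Crest.Agent.T157.Tap (V Mx GOE plW avg)
open Crest.Agent.T157.Rec (Am Psv)
open Crest.Agent.T157.Chain22 (sg)
open Crest.Agent.T157.Pl (one cmul gauge IsSign)
open Crest.Agent.R164.Haar (Mat RHaar)

namespace Haar44

variable {n : ℕ}

lemma Psv_gauge (z : Cube n) (w : Cube n → ℝ) (T : ℝ) (y : Cube n) (i : Fin n) :
    Psv (fun x => w (cmul z x)) T y i = sv z i * Psv w T (cmul z y) i := by
  simp only [Psv, sg, Pl.hbCt_gauge]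
  rw [Finset.mul_sum, ← Equiv.sum_comp (gauge z) fun y' =>
    sv z i * (hbCt w T (cmul z y) y' * sv y' i)]
  refine Finset.sum_congr rfl fun x _ => ?_
  simp only [Pl.gauge_apply, Pl.sv_cmul, Pi.mul_apply]
  have := TapPl.sign_mul_self (Pl.isSign_sv z) i
  linear_combination (-(hbCt w T (cmul z y) (cmul z x) * sv x i)) * this

lemma Am_gauge (z : Cube n) (w : Cube n → ℝ) (T : ℝ) (x : Cube n) :
    Am (fun x => w (cmul z x)) T x = TapPl.cj (sv z) (Am w T (cmul z x)) := by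
  ext i j
  have := Pl.cov_comp (gauge z) (hbCt w T (cmul z x)) (fun y => sv z i * Psv w T y i)
    fun y => sv z j * Psv w T y j
  rw [SL.cov_const_mul (hbCt w T (cmul z x)), SL.cov_comm (hbCt w T (cmul z x)),
    SL.cov_const_mul (hbCt w T (cmul z x)), SL.cov_comm (hbCt w T (cmul z x))] at this
  have e : hbCt (fun x => w (cmul z x)) T x = fun y => hbCt w T (cmul z x) (gauge z y) :=
    funext fun y => Pl.hbCt_gauge z w T x y
  rw [TapPl.cj_apply]
  simp only [Am, covMat, Psv_gauge]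
  rw [e]
  refine this.trans ?_
  ring

lemma tm_cj {σ : V n} (h : IsSign σ) (W : Mx n) : tm (TapPl.cj σ W) = TapPl.cj σ (tm W) := by
  rw [tm, tm, TapPl.cj_sub, TapPl.cj_smul, TapPl.cj_one h]

lemma cj_mulVec' {σ : V n} (h : IsSign σ) (M : Mx n) (u : V n) :
    TapPl.cj σ M *ᵥ u = σ * (M *ᵥ (σ * u)) := by
  rw [← TapPl.cj_mulVec h, h.mul_self]

lemma DAev_cj {σ : V n} (h : IsSign σ) {W A : Mx n} {ε η a : ℝ} (hd : DAev W A ε η a) :
    DAev (TapPl.cj σ W) (TapPl.cj σ A) ε η a := fun u x hu hx => by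
  rw [tm_cj h, cj_mulVec' h, TapPl.nrm_sign h] at hu hx
  have := hd (σ * u) (σ * x) (by rwa [TapPl.nrm_sign h]) (by rwa [TapPl.nrm_sign h])
  rw [TapPl.dot_sign h, TapPl.nrm_sign h, TapPl.nrm_sign h] at this
  rwa [cj_mulVec' h, ← TapPl.dot_sign h x, h.mul_self]

lemma meas_cj : Measurable fun p : (Mx n × V n) × Mat (Fin n) => (cj p.2 p.1.1, p.1.2) := by
  have h : Measurable fun p : (Mx n × V n) × Mat (Fin n) => (Matrix.of p.2 : Mx n) :=
    measurable_mat_iff.2 fun i j => by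
      simp only [Matrix.of_apply]; fun_prop
  exact ((h.t157_mul measurable_fst.fst).t157_mul h.t157_transpose).prodMk measurable_fst.snd

lemma mp_cjO {O : Mat (Fin n)} (hO : Matrix.of O ∈ Matrix.orthogonalGroup (Fin n) ℝ) :
    MeasurePreserving (fun z : Mx n × V n => (cj O z.1, z.2)) (PP n) (PP n) := by
  have h1 : MeasurePreserving (cj O) (GOE n) (GOE n) :=
    ⟨by unfold cj; fun_prop, goe_conj (1 / Real.sqrt n) (Matrix.of O)
      ((Matrix.mem_orthogonalGroup_iff _ _).1 hO)⟩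
  exact h1.prod (MeasurePreserving.id _)

lemma avg_eq (ν : Measure (Mat (Fin n))) [IsProbabilityMeasure ν] (hν : RHaar ν)
    {E : Set (Mx n × V n)} (hE : MeasurableSet E) :
    ∫⁻ z, ν {O | (cj O z.1, z.2) ∈ E} ∂PP n = PP n E := by
  have hS := hE.preimage (meas_cj (n := n))
  have h1 := Measure.prod_apply (μ := PP n) (ν := ν) hS
  have h2 := Measure.prod_apply_symm (μ := PP n) (ν := ν) hS
  refine (h1.symm.trans h2).trans ?_
  rw [lintegral_congr_ae (g := fun _ => PP n E), lintegral_const, measure_univ, mul_one]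
  filter_upwards [hν.mem] with O hO
  exact (mp_cjO hO).measure_preimage hE.nullMeasurableSet

lemma meas_sec (ν : Measure (Mat (Fin n))) [IsProbabilityMeasure ν]
    {E : Set (Mx n × V n)} (hE : MeasurableSet E) :
    Measurable fun z : Mx n × V n => ν {O | (cj O z.1, z.2) ∈ E} :=
  measurable_measure_prodMk_left (hE.preimage (meas_cj (n := n)))

lemma avg_real (ν : Measure (Mat (Fin n))) [IsProbabilityMeasure ν] (hν : RHaar ν)
    {E : Set (Mx n × V n)} (hE : MeasurableSet E) :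
    ∫ z, ν.real {O | (cj O z.1, z.2) ∈ E} ∂PP n = (PP n).real E := by
  simp only [Measure.real]
  rw [integral_toReal (meas_sec ν hE).aemeasurable (.of_forall fun _ => measure_lt_top _ _),
    avg_eq ν hν hE]

lemma int_sec (ν : Measure (Mat (Fin n))) [IsProbabilityMeasure ν]
    {E : Set (Mx n × V n)} (hE : MeasurableSet E) :
    Integrable (fun z : Mx n × V n => ν.real {O | (cj O z.1, z.2) ∈ E}) (PP n) :=
  (integrable_const 1).mono' (meas_sec ν hE).ennreal_toReal.aestronglyMeasurable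
    (.of_forall fun _ => by
      rw [Real.norm_of_nonneg measureReal_nonneg]; exact measureReal_le_one)

end Haar44

open Haar44

theorem haarStmt : HaarStmt := by
  intro n ν _ hν E E' Gd a b hE hE' ha hb h
  set N := toMeasurable (PP n) {z | ¬ Gd z} with hN
  have hNm : MeasurableSet N := measurableSet_toMeasurable _ _
  have e : (PP n).real {z | ¬ Gd z} = ∫ z, N.indicator (fun _ => (1 : ℝ)) z ∂PP n := by
    rw [integral_indicator_const _ hNm, smul_eq_mul, mul_one, Measure.real, Measure.real,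
      measure_toMeasurable]
  have i1 : Integrable (N.indicator fun _ => (1 : ℝ)) (PP n) := (integrable_const 1).indicator hNm
  have i2 : Integrable (fun z => N.indicator (fun _ => (1 : ℝ)) z + a) (PP n) :=
    i1.add (integrable_const a)
  have i3 := (int_sec ν hE').const_mul b
  have key := integral_mono (int_sec ν hE) (i2.add i3) fun z => by
    by_cases hz : z ∈ N
    · have h1 : ν.real {O | (cj O z.1, z.2) ∈ E} ≤ 1 := measureReal_le_one
      have h2 : 0 ≤ b * ν.real {O | (cj O z.1, z.2) ∈ E'} := mul_nonneg hb measureReal_nonneg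
      simp only [Pi.add_apply, indicator_of_mem hz]
      linarith
    · have := h z (by_contra fun hg => hz (subset_toMeasurable _ _ hg))
      simp only [Pi.add_apply, indicator_of_notMem hz]
      linarith
  rw [integral_add' i2 i3, integral_add i1 (integrable_const a), integral_const_mul,
    avg_real ν hν hE, avg_real ν hν hE', ← e, integral_const, probReal_univ, one_smul] at key
  exact key

theorem gaugeStmt : GaugeStmt := by
  intro n T r ε η a σ
  have hσ := Pl.isSign_sv σ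
  have mp := (TapPl.mp_cj hσ).prod (Pl.mp_sign_law false hσ)
  let e : Mx n × V n ≃ᵐ Mx n × V n := MeasurableEquiv.ofInvolutive
    (Prod.map (TapPl.cj (sv σ)) fun g => sv σ * g)
    (fun z => Prod.ext (TapPl.cj_cj hσ z.1) (hσ.mul_self z.2)) mp.measurable
  have mp' : MeasurePreserving e (PP n) (PP n) := mp
  rw [← mp'.measure_preimage_equiv]
  refine measure_mono fun z hz hd => hz ?_
  have h1 : plW 1 (e z).1 (sv σ) = TapPl.cj (sv σ) (plW 1 z.1 1) := by
    rw [← TapPl.plW_cj, mul_one]; rfl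
  have h2 : r • sv σ + √r • (e z).2 = sv σ * (r • (1 : V n) + √r • z.2) := by
    rw [mul_add, mul_smul_comm, mul_smul_comm, mul_one]; rfl
  rw [h1, h2]
  have h3 := Pl.ising_gauge σ (plW 1 z.1 1) (r • (1 : V n) + √r • z.2)
  rw [show ising (TapPl.cj (sv σ) (plW 1 z.1 1)) (sv σ * (r • (1 : V n) + √r • z.2)) = _ from h3,
    Am_gauge, Pl.cmul_self]
  exact DAev_cj hσ hd

end Crest.Agent.T157.Da

end
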