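import Crest.Agent.T157.DaDef_82
import Crest.Agent.T157.NrmS_84
import Crest.Agent.T157.ConcHW_16

-- ▼ part T157/DaRotA_46
section

/-!
# Row 157, part C (helper46): tools for rotations inside a spectral window

Householder reflections `hs d`, the matrix `Pm G m` of the first `m` eigenvectors, soft vectors,
a net bound for positive matrices and the averaging lemma `core` for the Haar law.
-/

set_option autoImplicit false

noncomputable section

namespace Crest.Agent.T157.Da.Rot46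

open MeasureTheory ProbabilityTheory Matrix Filter Set
open Crest.Agent.T157.E Crest.Agent.T157.Eig
open Crest.Agent.T157.Tap (V Mx)
open Crest.Agent.T157.Conc (fro)
open Crest.Agent.R164.Haar (Mat RHaar rmul)

variable {n m : ℕ}

/-! ### Householder reflections -/

/-- reflection in the hyperplane orthogonal to `d` (the identity if `d = 0`) -/
def hs (d : V n) : Mx n := 1 - (2 / (d ⬝ᵥ d)) • vecMulVec d d

lemma vv_mulVec (a b x : V n) : vecMulVec a b *ᵥ x = (b ⬝ᵥ x) • a := by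
  ext i
  simp only [mulVec, dotProduct, vecMulVec_apply, Pi.smul_apply, smul_eq_mul, Finset.sum_mul]
  exact Finset.sum_congr rfl fun j _ => by ring

lemma hs_symm (d : V n) : (hs d)ᵀ = hs d := by
  simp only [hs, transpose_sub, transpose_one, transpose_smul, transpose_vecMulVec]

lemma hs_mulVec (d x : V n) : hs d *ᵥ x = x - (2 / (d ⬝ᵥ d) * (d ⬝ᵥ x)) • d := by
  rw [hs, sub_mulVec, one_mulVec, smul_mulVec, vv_mulVec, smul_smul]

lemma hs_hs (d x : V n) : hs d *ᵥ (hs d *ᵥ x) = x := by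
  rw [hs_mulVec, hs_mulVec, dotProduct_sub, dotProduct_smul, smul_eq_mul, sub_sub, ← add_smul]
  by_cases h : d ⬝ᵥ d = 0
  · simp [h]
  · have : 2 / (d ⬝ᵥ d) * (d ⬝ᵥ x) +
        2 / (d ⬝ᵥ d) * (d ⬝ᵥ x - 2 / (d ⬝ᵥ d) * (d ⬝ᵥ x) * (d ⬝ᵥ d)) = 0 := by
      field_simp; ring
    rw [this, zero_smul, sub_zero]

lemma hs_mul_self (d : V n) : hs d * hs d = 1 := by
  refine Matrix.ext_of_mulVec_single fun i => ?_
  rw [← mulVec_mulVec, hs_hs, one_mulVec]

lemma hs_mem (d : V n) : hs d ∈ Matrix.orthogonalGroup (Fin n) ℝ := by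
  rw [Matrix.mem_orthogonalGroup_iff, hs_symm, hs_mul_self]

lemma hs_iso (d : V n) : (hs d)ᵀ * hs d = 1 := by rw [hs_symm, hs_mul_self]

lemma hs_swap {a w : V n} (h : a ⬝ᵥ a = w ⬝ᵥ w) : hs (a - w) *ᵥ a = w := by
  rw [hs_mulVec]
  by_cases h0 : (a - w) ⬝ᵥ (a - w) = 0
  · have : a - w = 0 := dotProduct_self_eq_zero.1 h0
    rw [this, smul_zero, sub_zero]
    exact sub_eq_zero.1 this
  · have e : (a - w) ⬝ᵥ (a - w) = 2 * ((a - w) ⬝ᵥ a) := by
      simp only [sub_dotProduct, dotProduct_sub, dotProduct_comm w a]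
      linarith
    have h1 : (a - w) ⬝ᵥ a ≠ 0 := fun h1 => h0 (by rw [e, h1, mul_zero])
    have : 2 / ((a - w) ⬝ᵥ (a - w)) * ((a - w) ⬝ᵥ a) = 1 := by
      rw [e]; field_simp
    rw [this, one_smul, sub_sub_cancel]

/-- the reflection in an almost null vector of `T` moves `T` only a little -/
lemma opn_hs_conj {T : Mx n} (hT : Tᵀ = T) {d : V n} {e : ℝ} (he : 0 ≤ e)
    (h : nrm (T *ᵥ d) ≤ e * nrm d) : opn (hs d * T * hs d - T) ≤ 4 * e := by
  have e1 : hs d * T * hs d - T = hs d * (T * hs d - hs d * T) := by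
    rw [Matrix.mul_sub, ← Matrix.mul_assoc, ← Matrix.mul_assoc, hs_mul_self, Matrix.one_mul]
  have e2 : T * hs d - hs d * T =
      (2 / (d ⬝ᵥ d)) • (vecMulVec d (T *ᵥ d) - vecMulVec (T *ᵥ d) d) := by
    have h1 : T * vecMulVec d d = vecMulVec (T *ᵥ d) d := mul_vecMulVec T d d
    have h2 : vecMulVec d d * T = vecMulVec d (T *ᵥ d) := by
      rw [vecMulVec_mul, ← mulVec_transpose, hT]
    rw [hs, Matrix.mul_sub, Matrix.sub_mul, Matrix.mul_one, Matrix.one_mul, Matrix.mul_smul,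
      Matrix.smul_mul, h1, h2, smul_sub]
    abel
  have h3 : opn (T * hs d - hs d * T) ≤ 4 * e := by
    rw [e2, opn_smul]
    have h4 := opn_sub_le (vecMulVec d (T *ᵥ d)) (vecMulVec (T *ᵥ d) d)
    have h5 := opn_vecMulVec_le d (T *ᵥ d)
    have h6 := opn_vecMulVec_le (T *ᵥ d) d
    have h7 : nrm d * nrm (T *ᵥ d) ≤ e * (d ⬝ᵥ d) := by
      rw [← nrm_mul_self]
      nlinarith [mul_le_mul_of_nonneg_left h (nrm_nonneg d)]
    have h8 : opn (vecMulVec d (T *ᵥ d) - vecMulVec (T *ᵥ d) d) ≤ 2 * (e * (d ⬝ᵥ d)) := by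
      nlinarith
    rcases (dot_self_nonneg d).eq_or_lt with h0 | h0
    · rw [← h0]; simp; positivity
    · rw [abs_of_pos (by positivity)]
      calc 2 / (d ⬝ᵥ d) * opn (vecMulVec d (T *ᵥ d) - vecMulVec (T *ᵥ d) d)
          ≤ 2 / (d ⬝ᵥ d) * (2 * (e * (d ⬝ᵥ d))) := by gcongr
        _ = 4 * e := by field_simp; ring
  rw [e1]
  refine (opn_mul_le _ _).trans ?_
  have := opn_isom_le (hs_iso d)
  nlinarith [opn_nonneg (T * hs d - hs d * T), opn_nonneg (hs d)]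

/-- the trace over a subspace containing `d` does not see the reflection -/
lemma trace_hs {P : Matrix (Fin n) (Fin m) ℝ} {d : V n} (hd : P *ᵥ (Pᵀ *ᵥ d) = d) (X : Mx n) :
    (Pᵀ * (hs d * X * hs d) * P).trace = (Pᵀ * X * P).trace := by
  have h0 : (P * Pᵀ) *ᵥ d = d := by rw [← mulVec_mulVec, hd]
  have h1 : hs d * (P * Pᵀ) = (P * Pᵀ) * hs d := by
    have h2 : (P * Pᵀ) * vecMulVec d d = vecMulVec d d := by rw [mul_vecMulVec, h0]
    have h3 : vecMulVec d d * (P * Pᵀ) = vecMulVec d d := by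
      rw [vecMulVec_mul, ← mulVec_transpose, transpose_mul, transpose_transpose, h0]
    rw [hs, Matrix.mul_sub, Matrix.sub_mul, Matrix.mul_one, Matrix.one_mul, Matrix.mul_smul,
      Matrix.smul_mul, h2, h3]
  rw [trace_mul_comm, trace_mul_comm (Pᵀ * X), ← Matrix.mul_assoc, ← Matrix.mul_assoc P,
    ← Matrix.mul_assoc, ← Matrix.mul_assoc, trace_mul_comm, ← Matrix.mul_assoc,
    ← Matrix.mul_assoc, h1, Matrix.mul_assoc (P * Pᵀ), hs_mul_self, Matrix.mul_one]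

/-! ### the first eigenvectors -/

/-- the first `m` eigenvectors as columns -/
def Pm (G : Mx n) (m : ℕ) : Matrix (Fin n) (Fin m) ℝ := Matrix.of fun i k => vec G k i

/-- `x` lies in the span of the first `m` eigenvectors -/
def Soft (G : Mx n) (m : ℕ) (x : V n) : Prop := ∀ k, m ≤ k → vec G k ⬝ᵥ x = 0

variable {G : Mx n}

lemma PmT_mulVec (x : V n) (k : Fin m) : ((Pm G m)ᵀ *ᵥ x) k = vec G k ⬝ᵥ x := rfl

lemma Pm_iso (hG : G.IsHermitian) (hm : m ≤ n) : (Pm G m)ᵀ * Pm G m = 1 := by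
  ext k l
  have h := vec_dot hG (k := k) (l := l) (by simp; omega) (by simp; omega)
  rw [Matrix.one_apply]
  simp only [Fin.ext_iff]
  rw [← h]
  rfl

lemma Pm_mulVec (z : Fin m → ℝ) : Pm G m *ᵥ z = ∑ k : Fin m, z k • vec G k := by
  ext i
  simp only [mulVec, dotProduct, Pm, of_apply, Finset.sum_apply, Pi.smul_apply, smul_eq_mul]
  exact Finset.sum_congr rfl fun k _ => mul_comm _ _

lemma soft_Pm (hG : G.IsHermitian) {l : ℕ} (hml : m ≤ l) (z : Fin m → ℝ) :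
    Soft G l (Pm G m *ᵥ z) := fun k hk => by
  rw [Pm_mulVec, dotProduct_sum]
  refine Finset.sum_eq_zero fun j _ => ?_
  rw [dotProduct_smul, vec_dot_ne hG (by omega), smul_zero]

lemma Soft.sub {x y : V n} (hx : Soft G m x) (hy : Soft G m y) : Soft G m (x - y) :=
  fun k hk => by rw [dotProduct_sub, hx k hk, hy k hk, sub_zero]

lemma vec_dot_Pm (hG : G.IsHermitian) (hm : m ≤ n) (z : Fin m → ℝ) (k : Fin m) :
    vec G k ⬝ᵥ (Pm G m *ᵥ z) = z k := by
  rw [← PmT_mulVec, mulVec_mulVec, Pm_iso hG hm, one_mulVec]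

lemma Pm_proj (hG : G.IsHermitian) (hm : m ≤ n) {x : V n} (hx : Soft G m x) :
    Pm G m *ᵥ ((Pm G m)ᵀ *ᵥ x) = x := by
  have h : (Pm G m *ᵥ ((Pm G m)ᵀ *ᵥ x) - x) ⬝ᵥ (Pm G m *ᵥ ((Pm G m)ᵀ *ᵥ x) - x) = 0 := by
    rw [dot_eq hG]
    refine Finset.sum_eq_zero fun k _ => ?_
    rcases lt_or_ge k m with hk | hk
    · have := vec_dot_Pm hG hm ((Pm G m)ᵀ *ᵥ x) ⟨k, hk⟩
      rw [dotProduct_sub, this, PmT_mulVec, sub_self, mul_zero]
    · rw [((soft_Pm hG le_rfl _).sub hx) k hk, mul_zero]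
  exact sub_eq_zero.1 (dotProduct_self_eq_zero.1 h)

lemma vec_dot_tm (hG : G.IsHermitian) (k : ℕ) (x : V n) :
    vec G k ⬝ᵥ tm G *ᵥ x = (2 - lam G k) * (vec G k ⬝ᵥ x) := by
  rw [tm, sub_mulVec, smul_mulVec, one_mulVec, dotProduct_sub, dotProduct_smul,
    vec_dot_mulVec hG, smul_eq_mul, sub_mul]

lemma soft_nrm (hG : G.IsHermitian) {x : V n} (hx : Soft G m x) {e : ℝ} (he : 0 ≤ e)
    (h : ∀ k < m, |2 - lam G k| ≤ e) : nrm (tm G *ᵥ x) ≤ e * nrm x := by
  rw [nrm_le_iff (mul_nonneg he (nrm_nonneg x)), mul_pow, nrm_sq, dot_eq hG, dot_eq hG x x,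
    Finset.mul_sum]
  refine Finset.sum_le_sum fun k _ => ?_
  rw [vec_dot_tm hG]
  rcases lt_or_ge k m with hk | hk
  · have h1 : (2 - lam G k) ^ 2 ≤ e ^ 2 := by
      rw [← sq_abs]; exact pow_le_pow_left₀ (abs_nonneg _) (h k hk) 2
    nlinarith [mul_le_mul_of_nonneg_right h1 (mul_self_nonneg (vec G k ⬝ᵥ x))]
  · rw [hx k hk]; simp

lemma trace_Pm (X : Mx n) :
    ((Pm G m)ᵀ * X * Pm G m).trace = ∑ k ∈ Finset.range m, vec G k ⬝ᵥ X *ᵥ vec G k := by
  rw [← Fin.sum_univ_eq_sum_range (fun k => vec G k ⬝ᵥ X *ᵥ vec G k), Matrix.mul_assoc]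
  rfl

lemma opn_compress {P : Matrix (Fin n) (Fin m) ℝ} (hP : Pᵀ * P = 1) (X : Mx n) :
    opn (Pᵀ * X * P) ≤ opn X := by
  have h1 := opn_isom_le hP
  have h2 : opn Pᵀ ≤ 1 := by rwa [opn_transpose]
  have h3 := opn_mul_le (Pᵀ * X) P
  have h4 := opn_mul_le Pᵀ X
  have h5 := opn_nonneg X
  have h6 := opn_nonneg (Pᵀ * X)
  have h7 := opn_nonneg P
  have h8 := opn_nonneg Pᵀ
  nlinarith

lemma abs_trace_le (X : Matrix (Fin m) (Fin m) ℝ) : |X.trace| ≤ m * opn X := by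
  refine (Finset.abs_sum_le_sum_abs _ _).trans ?_
  refine (Finset.sum_le_sum fun i _ => abs_entry_le X i i).trans (le_of_eq ?_)
  simp

lemma fro_le_opn (X : Matrix (Fin m) (Fin m) ℝ) : fro X ≤ m * opn X ^ 2 := by
  rw [← Conc.fro_transpose, fro]
  have h : ∀ i, ∑ j, Xᵀ i j ^ 2 ≤ opn X ^ 2 := fun i => by
    have := mulVec_dot_le X (Pi.single i 1)
    simp only [mulVec_single_one, single_dotProduct, Pi.single_eq_same, mul_one] at this
    refine le_trans (le_of_eq ?_) this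
    simp only [dotProduct, sq]
    rfl
  refine (Finset.sum_le_sum fun i _ => h i).trans (le_of_eq ?_)
  simp

/-! ### positive matrices -/

section psd
variable {ι : Type*} [Fintype ι] [DecidableEq ι] {M : Matrix ι ι ℝ}

omit [DecidableEq ι] in
lemma psd_nonneg (hM : M.PosSemidef) (x : ι → ℝ) : 0 ≤ x ⬝ᵥ M *ᵥ x := by
  simpa using hM.dotProduct_mulVec_nonneg x

omit [DecidableEq ι] in
lemma psd_add (hM : M.PosSemidef) (a b : ι → ℝ) :
    (a + b) ⬝ᵥ M *ᵥ (a + b) ≤ 2 * (a ⬝ᵥ M *ᵥ a) + 2 * (b ⬝ᵥ M *ᵥ b) := by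
  have h := psd_nonneg hM (a - b)
  simp only [mulVec_add, mulVec_sub, add_dotProduct, dotProduct_add, sub_dotProduct,
    dotProduct_sub] at h ⊢
  linarith

lemma opn_le_of_psd (hM : M.PosSemidef) {c : ℝ} (hc : 0 ≤ c)
    (h : ∀ v, v ⬝ᵥ M *ᵥ v ≤ c * (v ⬝ᵥ v)) : opn M ≤ c :=
  opn_le_of_quad hM.isHermitian hc fun v => by rw [abs_of_nonneg (psd_nonneg hM v)]; exact h v

/-- the norm of a positive matrix from the quadratic form on a half-net -/
lemma opn_le_net (hM : M.PosSemidef) {N : Finset (ι → ℝ)}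
    (hN : ∀ v, nrm v ≤ 1 → ∃ c ∈ N, nrm (v - c) ≤ 1 / 2) {s : ℝ} (hs : 0 ≤ s)
    (h : ∀ c ∈ N, c ⬝ᵥ M *ᵥ c ≤ s) : opn M ≤ 4 * s := by
  have h0 := opn_nonneg M
  suffices opn M ≤ 2 * s + opn M / 2 by linarith
  refine opn_le_of_lam hM.isHermitian (by linarith) fun k hk => ?_
  have hv := vec_dot_self hM.isHermitian hk
  obtain ⟨c, hc, hvc⟩ := hN (vec M k) (by rw [nrm, hv, Real.sqrt_one])
  have h1 := psd_add hM c (vec M k - c)
  rw [add_sub_cancel] at h1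
  have h2 := (le_abs_self _).trans (abs_quad_le M (vec M k - c))
  have h3 : (vec M k - c) ⬝ᵥ (vec M k - c) ≤ (1 / 2) ^ 2 := (nrm_le_iff (by norm_num)).1 hvc
  rw [← quad_vec hM.isHermitian hk, abs_of_nonneg (psd_nonneg hM _)]
  nlinarith [h c hc, mul_le_mul_of_nonneg_left h3 h0]

omit [DecidableEq ι] in
lemma psd_compress {κ : Type*} [Fintype κ] (hM : M.PosSemidef) (P : Matrix ι κ ℝ) :
    (Pᵀ * M * P).PosSemidef := by
  simpa only [conjTranspose_eq_transpose_of_trivial] using hM.conjTranspose_mul_mul_same P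

end psd

/-! ### averaging over an independent choice of the rotation -/

lemma core {Z : Type*} [MeasurableSpace Z] {ν : Measure (Mat (Fin n))} [IsProbabilityMeasure ν]
    (hν : RHaar ν) (μ : Measure Z) [IsProbabilityMeasure μ] {E : Set (Mat (Fin n))}
    (hE : MeasurableSet E) {F : Set (Mat (Fin n) × Z)} (hF : MeasurableSet F) {p : ℝ} (hp : 0 ≤ p)
    (h1 : ∀ᵐ z ∂μ, ∃ Q ∈ Matrix.orthogonalGroup (Fin n) ℝ, ∀ O : Mat (Fin n),
      Matrix.of O ∈ Matrix.orthogonalGroup (Fin n) ℝ → rmul Q O ∈ E → (O, z) ∈ F)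
    (h2 : ∀ O : Mat (Fin n), Matrix.of O ∈ Matrix.orthogonalGroup (Fin n) ℝ →
      μ.real {z | (O, z) ∈ F} ≤ p) : ν.real E ≤ p := by
  refine ENNReal.toReal_le_of_le_ofReal hp ?_
  calc ν E = ∫⁻ _, ν E ∂μ := by simp
    _ ≤ ∫⁻ z, ν ((fun O => (O, z)) ⁻¹' F) ∂μ := by
        refine lintegral_mono_ae ?_
        filter_upwards [h1] with z hz
        obtain ⟨Q, hQ, hz⟩ := hz
        conv_lhs => rw [← hν.inv Q hQ]
        rw [Measure.map_apply (R164.Haar.continuous_rmul Q).measurable hE]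
        refine measure_mono_ae ?_
        filter_upwards [hν.mem] with O hO hOE
        exact hz O hO hOE
    _ = ν.prod μ F := (Measure.prod_apply_symm hF).symm
    _ = ∫⁻ O, μ (Prod.mk O ⁻¹' F) ∂ν := Measure.prod_apply hF
    _ ≤ ∫⁻ _, ENNReal.ofReal p ∂ν := by
        refine lintegral_mono_ae ?_
        filter_upwards [hν.mem] with O hO
        exact (ENNReal.le_ofReal_iff_toReal_le (measure_ne_top _ _) hp).2 (h2 O hO)
    _ = ENNReal.ofReal p := by simp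

end Crest.Agent.T157.Da.Rot46

end
end

-- ▼ part T157/DaRot_46

/-!
# Row 157, part C (helper46): `Da.rotGlue`

Random reflections inside the microscopic window turn a small window trace into a small
window norm.
-/

set_option autoImplicit false

noncomputable section

namespace Crest.Agent.T157.Da

open MeasureTheory ProbabilityTheory Matrix Filter Set
open Crest.Agent.T157.E Crest.Agent.T157.Eig
open Crest.Agent.T157.Tap (V Mx)
open Crest.Agent.T157.Conc (fro)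
open Crest.Agent.R164.Haar (Mat RHaar rmul)

namespace Rot46

variable {n m : ℕ} {G : Mx n}

/-! ### conjugation -/

lemma orth1 {O : Mx n} (hO : O ∈ Matrix.orthogonalGroup (Fin n) ℝ) : Oᵀ * O = 1 :=
  (Matrix.mem_orthogonalGroup_iff' _ _).1 hO

lemma orth2 {O : Mx n} (hO : O ∈ Matrix.orthogonalGroup (Fin n) ℝ) : O * Oᵀ = 1 :=
  (Matrix.mem_orthogonalGroup_iff _ _).1 hO

lemma opn_conj {O : Mx n} (hO : O ∈ Matrix.orthogonalGroup (Fin n) ℝ) (X : Mx n) :
    opn (O * X * Oᵀ) ≤ opn X := by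
  have := opn_compress (P := Oᵀ) (by rw [transpose_transpose, orth2 hO]) X
  rwa [transpose_transpose] at this

lemma ball_cj (hG : Ball G) {O : Mat (Fin n)}
    (hO : Matrix.of O ∈ Matrix.orthogonalGroup (Fin n) ℝ) : Ball (cj O G) :=
  ⟨by rw [cj, transpose_mul, transpose_mul, transpose_transpose, hG.1, Matrix.mul_assoc],
    (opn_conj hO G).trans hG.2⟩

lemma measurable_of : Measurable fun O : Mat (Fin n) => (Matrix.of O : Mx n) := measurable_id

lemma measurable_cj (G : Mx n) : Measurable fun O : Mat (Fin n) => cj O G :=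
  (measurable_of.t157_mul measurable_const).t157_mul measurable_of.t157_transpose

/-- the matrix `B` seen in the rotated frame -/
def MO (B : Mx n × V n → Mx n) (G : Mx n) (ξ : V n) (O : Mat (Fin n)) : Mx n :=
  (Matrix.of O)ᵀ * B (cj O G, ξ) * Matrix.of O

variable {B : Mx n × V n → Mx n} {C : ℝ} {ξ : V n}

lemma measurable_MO (hB : Measurable B) (G : Mx n) (ξ : V n) : Measurable (MO B G ξ) :=
  (measurable_of.t157_transpose.t157_mul
    (hB.comp ((measurable_cj G).prodMk measurable_const))).t157_mul measurable_of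

lemma MO_psd (hL : LipJ C B) (hG : Ball G) {O : Mat (Fin n)}
    (hO : Matrix.of O ∈ Matrix.orthogonalGroup (Fin n) ℝ) : (MO B G ξ O).PosSemidef :=
  psd_compress (hL.psd (cj O G, ξ) (ball_cj hG hO)) _

lemma MO_opn (hL : LipJ C B) (hG : Ball G) {O : Mat (Fin n)}
    (hO : Matrix.of O ∈ Matrix.orthogonalGroup (Fin n) ℝ) : opn (MO B G ξ O) ≤ C :=
  (opn_compress (orth1 hO) _).trans (hL.bd (cj O G, ξ) (ball_cj hG hO))

/-! ### reduction to windows -/

lemma fl_nonneg (η l : ℝ) : 0 ≤ fl η l := by unfold fl; positivity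

lemma half_le_fl {η l : ℝ} (hη : 0 < η) (h : |2 - l| ≤ η) : 1 / 2 ≤ fl η l := by
  have h1 : (2 - l) ^ 2 ≤ η ^ 2 := by
    rw [← sq_abs]; exact pow_le_pow_left₀ (abs_nonneg _) h 2
  rw [fl, le_div_iff₀ (by positivity)]
  linarith

lemma fl_le {η η' l : ℝ} (hη : 0 < η') (h : l < 2 - η') : fl η l ≤ (η / η') ^ 2 := by
  have h1 : η' ^ 2 ≤ (2 - l) ^ 2 := pow_le_pow_left₀ hη.le (by linarith) 2
  rw [fl, div_pow]
  exact div_le_div_of_nonneg_left (sq_nonneg _) (by positivity) (by nlinarith [sq_nonneg η])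

lemma vec_dot_fE (hF : FeApi) (hG : Gᵀ = G) {η : ℝ} (hη : 0 < η) (k : ℕ) (u : V n) :
    vec G k ⬝ᵥ fE η G *ᵥ u = fl η (lam G k) * (vec G k ⬝ᵥ u) := by
  rw [dot_symm (hF.psd hG hη).isHermitian, hF.eig hG hη, dotProduct_smul, smul_eq_mul,
    dotProduct_comm]

lemma opn_fMf (hF : FeApi) (hG : Gᵀ = G) {η : ℝ} (hη : 0 < η) {M : Mx n} (hM : M.PosSemidef)
    (hm : m ≤ n) {r : ℝ} (hr : ∀ k, m ≤ k → k < n → fl η (lam G k) ≤ r) :
    opn (fE η G * M * fE η G) ≤ 2 * opn ((Pm G m)ᵀ * M * Pm G m) + 2 * (opn M * r ^ 2) := by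
  have hH : G.IsHermitian := herm_iff.2 hG
  have hf : (fE η G)ᵀ = fE η G := herm_iff.1 (hF.psd hG hη).isHermitian
  have h0 := opn_nonneg ((Pm G m)ᵀ * M * Pm G m)
  have h0' := opn_nonneg M
  have hp : (fE η G * M * fE η G).PosSemidef := by
    have := psd_compress hM (fE η G)
    rwa [hf] at this
  refine opn_le_of_psd hp (by positivity) fun u => ?_
  have e1 : u ⬝ᵥ (fE η G * M * fE η G) *ᵥ u = (fE η G *ᵥ u) ⬝ᵥ M *ᵥ (fE η G *ᵥ u) := by
    rw [← quad_compress, hf]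
  set y := fE η G *ᵥ u with hy
  set c := (Pm G m)ᵀ *ᵥ y with hc
  have h1 := psd_add hM (Pm G m *ᵥ c) (y - Pm G m *ᵥ c)
  rw [add_sub_cancel, ← quad_compress (Pm G m)] at h1
  have h2 := (le_abs_self _).trans (abs_quad_le ((Pm G m)ᵀ * M * Pm G m) c)
  have h3 := (le_abs_self _).trans (abs_quad_le M (y - Pm G m *ᵥ c))
  have h4 : c ⬝ᵥ c ≤ u ⬝ᵥ u := by
    have a1 := mulVec_dot_le (Pm G m)ᵀ y
    have a2 := mulVec_dot_le (fE η G) u
    have a3 : opn (Pm G m)ᵀ ≤ 1 := by rw [opn_transpose]; exact opn_isom_le (Pm_iso hH hm)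
    have a4 := hF.le_one hG hη
    have a5 : opn (Pm G m)ᵀ ^ 2 ≤ 1 := pow_le_one₀ (opn_nonneg _) a3
    have a6 : opn (fE η G) ^ 2 ≤ 1 := pow_le_one₀ (opn_nonneg _) a4
    nlinarith [mul_le_mul_of_nonneg_right a5 (dot_self_nonneg y),
      mul_le_mul_of_nonneg_right a6 (dot_self_nonneg u)]
  have h5 : (y - Pm G m *ᵥ c) ⬝ᵥ (y - Pm G m *ᵥ c) ≤ r ^ 2 * (u ⬝ᵥ u) := by
    rw [dot_eq hH, dot_eq hH u u, Finset.mul_sum]
    refine Finset.sum_le_sum fun k hk => ?_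
    rcases lt_or_ge k m with hk' | hk'
    · have := vec_dot_Pm hH hm c ⟨k, hk'⟩
      rw [dotProduct_sub, this, hc, PmT_mulVec, sub_self, mul_zero]
      exact mul_nonneg (sq_nonneg _) (mul_self_nonneg _)
    · rw [dotProduct_sub, soft_Pm hH le_rfl c k hk', sub_zero, hy, vec_dot_fE hF hG hη]
      have a1 := hr k hk' (by simpa using hk)
      have a2 : fl η (lam G k) ^ 2 ≤ r ^ 2 := pow_le_pow_left₀ (fl_nonneg _ _) a1 2
      nlinarith [mul_le_mul_of_nonneg_right a2 (mul_self_nonneg (vec G k ⬝ᵥ u))]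
  rw [e1]
  nlinarith [mul_le_mul_of_nonneg_left h4 h0, mul_le_mul_of_nonneg_left h5 h0']

lemma trace_le (hF : FeApi) (hG : Gᵀ = G) {η : ℝ} (hη : 0 < η) {M : Mx n} (hM : M.PosSemidef)
    (hm : m ≤ n) (hw : ∀ k < m, |2 - lam G k| ≤ η) :
    ((Pm G m)ᵀ * M * Pm G m).trace ≤ 2 * (fE η G * M).trace := by
  rw [trace_Pm, hF.trace hG hη, Finset.mul_sum]
  refine le_trans (Finset.sum_le_sum fun k hk => ?_)
    (Finset.sum_le_sum_of_subset_of_nonneg (Finset.range_mono hm) fun k _ _ =>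
      mul_nonneg two_pos.le (mul_nonneg (fl_nonneg _ _) (psd_nonneg hM _)))
  nlinarith [mul_le_mul_of_nonneg_right (half_le_fl hη (hw k (Finset.mem_range.1 hk)))
    (psd_nonneg hM (vec G k))]

/-! ### one direction -/

lemma ae_sq : ∀ᵐ z : Fin m → ℝ ∂(Measure.pi fun _ : Fin m => entryLaw true),
    z ⬝ᵥ z = (m : ℝ) := by
  have h : ∀ᵐ x ∂entryLaw true, x * x = 1 := by
    change ∀ᵐ x ∂coin, x * x = 1
    rw [ae_add_measure_iff]
    exact ⟨Measure.ae_smul_measure (by simp) _, Measure.ae_smul_measure (by simp) _⟩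
  have h2 : ∀ᵐ z ∂(Measure.pi fun _ : Fin m => entryLaw true), ∀ i, z i * z i = 1 :=
    ae_all_iff.2 fun i =>
      (measurePreserving_eval (fun _ : Fin m => entryLaw true) i).quasiMeasurePreserving.ae h
  filter_upwards [h2] with z hz
  simp [dotProduct, hz]

/-- a reflection inside the window changes `B` only a little -/
lemma opn_move (hL : LipJ C B) (hC : 0 < C) (hG : Ball G) {e δ : ℝ} (he : 0 ≤ e) (hδ : 0 ≤ δ)
    (hw : ∀ k < m, |2 - lam G k| ≤ e) (hsm : C * (n * (4 * e) ^ 2) ≤ δ ^ 2) {d : V n}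
    (hd : Soft G m d) {O : Mat (Fin n)} (hO : Matrix.of O ∈ Matrix.orthogonalGroup (Fin n) ℝ) :
    opn (B (cj (rmul (hs d) O) G, ξ) - B (cj O G, ξ)) ≤ δ := by
  have hH : G.IsHermitian := herm_iff.2 hG.1
  have hO' : Matrix.of (rmul (hs d) O) ∈ Matrix.orthogonalGroup (Fin n) ℝ :=
    mul_mem hO (hs_mem d)
  have h1 := hL.lip (cj O G, ξ) (cj (rmul (hs d) O) G, ξ) (ball_cj hG hO) (ball_cj hG hO')
  have hT : (tm G)ᵀ = tm G := by
    rw [tm, transpose_sub, transpose_smul, transpose_one, hG.1]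
  have h2 := opn_hs_conj hT he (soft_nrm hH hd he hw)
  have e1 : cj (rmul (hs d) O) G - cj O G =
      Matrix.of O * (-(hs d * tm G * hs d - tm G)) * (Matrix.of O)ᵀ := by
    have a1 : (Matrix.of (rmul (hs d) O) : Mx n) = Matrix.of O * hs d := rfl
    have a2 : -(hs d * tm G * hs d - tm G) = hs d * G * hs d - G := by
      rw [tm, Matrix.mul_sub, Matrix.sub_mul, Matrix.mul_smul, Matrix.mul_one, Matrix.smul_mul,
        hs_mul_self]
      abel
    rw [a2, cj, cj, a1, transpose_mul, hs_symm, Matrix.mul_sub, Matrix.sub_mul]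
    simp only [Matrix.mul_assoc]
  have h3 : opn (cj (rmul (hs d) O) G - cj O G) ≤ 4 * e := by
    rw [e1]
    exact (opn_conj hO _).trans (by rw [opn_neg]; exact h2)
  simp only [sub_self, dotProduct_zero, add_zero] at h1
  have h4 : opn (cj (rmul (hs d) O) G - cj O G) ^ 2 ≤ (4 * e) ^ 2 :=
    pow_le_pow_left₀ (opn_nonneg _) h3 2
  have h5 := opn_sq_le_frob (B (cj (rmul (hs d) O) G, ξ) - B (cj O G, ξ))
  refine (pow_le_pow_iff_left₀ (opn_nonneg _) hδ two_ne_zero).1 (h5.trans (h1.trans ?_))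
  refine le_trans ?_ hsm
  gcongr

lemma rot_one {ν : Measure (Mat (Fin n))} [IsProbabilityMeasure ν] (hν : RHaar ν)
    (hL : LipJ C B) (hC : 0 < C) (hG : Ball G) (hm : m ≤ n) (hm0 : 0 < m) {e t : ℝ} (he : 0 ≤ e)
    (ht : 0 < t) (hw : ∀ k < m, |2 - lam G k| ≤ e) (hsm : C * (n * (4 * e) ^ 2) ≤ (t / 2) ^ 2)
    {a : V n} (ha : Soft G m a) (ha1 : a ⬝ᵥ a ≤ 1) :
    ν.real {O | 130 * t < a ⬝ᵥ MO B G ξ O *ᵥ a ∧
      ((Pm G m)ᵀ * MO B G ξ O * Pm G m).trace ≤ 128 * t * m} ≤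
      2 * Real.exp (-(min (t ^ 2 / (256 * C ^ 2)) (t / (32 * C)) * m)) := by
  have hH : G.IsHermitian := herm_iff.2 hG.1
  have hmR : (0 : ℝ) < m := by exact_mod_cast hm0
  have hM := measurable_MO hL.meas G ξ
  set P := Pm G m with hP
  have hPi : Pᵀ * P = 1 := Pm_iso hH hm
  have hΦ : Measurable fun O => Pᵀ * MO B G ξ O * P :=
    (measurable_const.t157_mul hM).t157_mul measurable_const
  refine core hν (Measure.pi fun _ : Fin m => entryLaw true)
    (F := {p | t * m ≤ |p.2 ⬝ᵥ (Pᵀ * MO B G ξ p.1 * P) *ᵥ p.2 - (Pᵀ * MO B G ξ p.1 * P).trace|})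
    ?_ ?_ (by positivity) ?_ ?_
  · exact (measurableSet_lt measurable_const
      (measurable_const.t157_dot (hM.t157_mulVec measurable_const))).inter
      (measurableSet_le hΦ.t157_trace measurable_const)
  · exact measurableSet_le measurable_const
      ((measurable_snd.t157_dot ((hΦ.comp measurable_fst).t157_mulVec measurable_snd)).sub
        (hΦ.comp measurable_fst).t157_trace).abs
  · filter_upwards [ae_sq] with z hz
    set s : ℝ := √(a ⬝ᵥ a / m) with hs_def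
    have hs2 : s * s = a ⬝ᵥ a / m :=
      Real.mul_self_sqrt (div_nonneg (dot_self_nonneg a) hmR.le)
    set w : V n := P *ᵥ (s • z) with hw_def
    have hww : w ⬝ᵥ w = a ⬝ᵥ a := by
      rw [hw_def, dot_isom hPi, smul_dotProduct, dotProduct_smul, hz, smul_eq_mul, smul_eq_mul,
        ← mul_assoc, hs2, div_mul_cancel₀ _ hmR.ne']
    have hd : Soft G m (a - w) := ha.sub (soft_Pm hH le_rfl _)
    refine ⟨hs (a - w), hs_mem _, fun O hO hE => ?_⟩
    have h1 := opn_move (ξ := ξ) hL hC hG he (by positivity : 0 ≤ t / 2) hw hsm hd hO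
    set X' : Mx n := (Matrix.of O)ᵀ * B (cj (rmul (hs (a - w)) O) G, ξ) * Matrix.of O with hX'
    have e1 : MO B G ξ (rmul (hs (a - w)) O) = hs (a - w) * X' * hs (a - w) := by
      have a1 : (Matrix.of (rmul (hs (a - w)) O) : Mx n) = Matrix.of O * hs (a - w) := rfl
      rw [MO, a1, transpose_mul, hs_symm, hX']
      simp only [Matrix.mul_assoc]
    have h2 : opn (X' - MO B G ξ O) ≤ t / 2 := by
      rw [hX', MO, ← Matrix.sub_mul, ← Matrix.mul_sub]
      exact (opn_compress (orth1 hO) _).trans h1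
    obtain ⟨hE1, hE2⟩ := hE
    rw [e1, trace_hs (Pm_proj hH hm hd)] at hE2
    have e2 : a ⬝ᵥ (hs (a - w) * X' * hs (a - w)) *ᵥ a = w ⬝ᵥ X' *ᵥ w := by
      have := quad_compress (A := X') (hs (a - w)) a a
      rwa [hs_symm, hs_swap hww.symm] at this
    rw [e1, e2] at hE1
    have h3 : w ⬝ᵥ X' *ᵥ w - w ⬝ᵥ MO B G ξ O *ᵥ w ≤ t / 2 := by
      have := (le_abs_self _).trans (abs_quad_le (X' - MO B G ξ O) w)
      rw [sub_mulVec, dotProduct_sub, hww] at this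
      nlinarith [opn_nonneg (X' - MO B G ξ O), dot_self_nonneg a]
    have h4 : w ⬝ᵥ MO B G ξ O *ᵥ w = a ⬝ᵥ a / m * (z ⬝ᵥ (Pᵀ * MO B G ξ O * P) *ᵥ z) := by
      rw [hw_def, ← quad_compress, mulVec_smul, smul_dotProduct, dotProduct_smul, smul_eq_mul,
        smul_eq_mul, ← mul_assoc, hs2]
    have h5 := psd_nonneg (psd_compress (MO_psd (ξ := ξ) hL hG hO) P) z
    have h6 : (Pᵀ * MO B G ξ O * P).trace - (Pᵀ * X' * P).trace ≤ m * (t / 2) := by
      have a1 := (neg_le_abs _).trans (abs_trace_le (Pᵀ * (X' - MO B G ξ O) * P))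
      have a2 := (opn_compress hPi (X' - MO B G ξ O)).trans h2
      rw [Matrix.mul_sub, Matrix.sub_mul, trace_sub] at a1
      rw [Matrix.mul_sub, Matrix.sub_mul] at a2
      nlinarith
    have h7 : w ⬝ᵥ MO B G ξ O *ᵥ w * m ≤ z ⬝ᵥ (Pᵀ * MO B G ξ O * P) *ᵥ z := by
      rw [h4, mul_right_comm, div_mul_cancel₀ _ hmR.ne']
      nlinarith
    refine le_trans ?_ (le_abs_self _)
    nlinarith [mul_le_mul_of_nonneg_right (hE1.le.trans (sub_le_iff_le_add'.1 h3)) hmR.le]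
  · intro O hO
    have h1 : opn (Pᵀ * MO B G ξ O * P) ≤ C := (opn_compress hPi _).trans (MO_opn hL hG hO)
    have h2 : fro (Pᵀ * MO B G ξ O * P) ≤ m * C ^ 2 :=
      (fro_le_opn _).trans (by gcongr; exact opn_nonneg _)
    refine (Conc.hw_tail (Conc.sg1_entry true) (fun _ => Conc.sq_entry true) hC
      ((Conc.opB_l2 _).mono h1) (by positivity) h2 (u := t * m) (by positivity)).trans
      (le_of_eq ?_)
    rw [min_mul_of_nonneg _ _ hmR.le]
    congr 4 <;> field_simp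

/-! ### fixed dimension -/

lemma rot_fix (hF : FeApi) {ν : Measure (Mat (Fin n))} [IsProbabilityMeasure ν] (hν : RHaar ν)
    (hL : LipJ C B) (hC : 0 < C) (hS : Spec G) {η1 η2 η3 t : ℝ} (ht : 0 < t) (h0 : 0 < e0 n)
    (h1 : 0 < η1) (h02 : e0 n ≤ η2) (h23 : η2 ≤ η3) (h31 : η3 ≤ 1) (hn : 0 < n)
    (hs1 : C * (n * (4 * η3) ^ 2) ≤ (t / 2) ^ 2) (hs2 : C * ((η1 / η2) ^ 2) ^ 2 ≤ t) :
    ν.real {O | 1042 * t < opn (fE η1 (cj O G) * B (cj O G, ξ) * fE η1 (cj O G)) ∧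
      (fE η3 (cj O G) * B (cj O G, ξ)).trace ≤ t * Nb n η3} ≤
      5 ^ cnt G (2 - η2) *
        (2 * Real.exp (-(min (t ^ 2 / (256 * C ^ 2)) (t / (32 * C)) * cnt G (2 - η3)))) := by
  have hH : G.IsHermitian := herm_iff.2 hS.symm
  have hG : Ball G := ⟨hS.symm, hS.top.trans (by linarith)⟩
  have h2 : 0 < η2 := h0.trans_le h02
  have h3 : 0 < η3 := h2.trans_le h23
  set m := cnt G (2 - η3) with hm_def
  set l := cnt G (2 - η2) with hl_def
  have hm : m ≤ n := by simpa using cnt_le_card G (2 - η3)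
  have hlm : l ≤ m := cnt_anti G (by linarith)
  have hlo : Nb n η3 / 64 ≤ m := hS.lo η3 ⟨h02.trans h23, h31⟩
  have hNb : 0 < Nb n η3 := by
    have : (0 : ℝ) < n := by exact_mod_cast hn
    unfold Nb; positivity
  have hm0 : 0 < m := by
    have : (0 : ℝ) < m := lt_of_lt_of_le (by positivity) hlo
    exact_mod_cast this
  have hw : ∀ k < m, |2 - lam G k| ≤ η3 := fun k hk => by
    have a1 := ((lt_cnt_iff hH).1 hk).2
    have a2 := (lam_le_opn hH k).trans hS.top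
    rw [abs_le]; constructor <;> linarith
  obtain ⟨N, hN1, hN2, hN3⟩ := Nrm.exists_half_net (Fin l)
  have hsub : {O | 1042 * t < opn (fE η1 (cj O G) * B (cj O G, ξ) * fE η1 (cj O G)) ∧
      (fE η3 (cj O G) * B (cj O G, ξ)).trace ≤ t * Nb n η3} ≤ᵐ[ν]
      (⋃ c ∈ N, {O | 130 * t < (Pm G l *ᵥ c) ⬝ᵥ MO B G ξ O *ᵥ (Pm G l *ᵥ c) ∧
        ((Pm G m)ᵀ * MO B G ξ O * Pm G m).trace ≤ 128 * t * m} : Set (Mat (Fin n))) := by
    filter_upwards [hν.mem] with O hO hE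
    obtain ⟨hE1, hE2⟩ := hE
    have hp := MO_psd (ξ := ξ) hL hG hO
    have hb := MO_opn (ξ := ξ) hL hG hO
    have e1 : fE η1 (cj O G) * B (cj O G, ξ) * fE η1 (cj O G) =
        Matrix.of O * (fE η1 G * MO B G ξ O * fE η1 G) * (Matrix.of O)ᵀ := by
      rw [hF.conj G η1 hO, MO]
      simp only [cj, Matrix.mul_assoc]
    have e2 : (fE η3 (cj O G) * B (cj O G, ξ)).trace = (fE η3 G * MO B G ξ O).trace := by
      rw [hF.conj G η3 hO, MO, ← Matrix.mul_assoc, trace_mul_comm (fE η3 G * _)]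
      simp only [cj, Matrix.mul_assoc]
    have a1 := trace_le hF hS.symm h3 hp hm hw
    have a2 : ((Pm G m)ᵀ * MO B G ξ O * Pm G m).trace ≤ 128 * t * m := by
      rw [e2] at hE2
      nlinarith
    by_contra hcon
    have a3 : ∀ c ∈ N, c ⬝ᵥ ((Pm G l)ᵀ * MO B G ξ O * Pm G l) *ᵥ c ≤ 130 * t := fun c hc => by
      rw [quad_compress]
      by_contra h
      exact hcon (mem_biUnion (Finset.mem_coe.2 hc) ⟨not_le.1 h, a2⟩)
    have a4 := opn_le_net (psd_compress hp (Pm G l)) hN3 (by positivity) a3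
    have a5 := opn_fMf hF hS.symm h1 hp (hlm.trans hm) (r := (η1 / η2) ^ 2) fun k hk hkn =>
      fl_le h2 ((cnt_le_iff hH (by simpa using hkn)).1 hk)
    have a6 := opn_conj hO (fE η1 G * MO B G ξ O * fE η1 G)
    rw [e1] at hE1
    nlinarith [mul_le_mul_of_nonneg_right hb (sq_nonneg ((η1 / η2) ^ 2))]
  refine (ENNReal.toReal_mono (measure_ne_top _ _) (measure_mono_ae hsub)).trans ?_
  refine (measureReal_biUnion_finset_le _ _).trans ?_
  refine (Finset.sum_le_card_nsmul _ _ _ fun c hc => rot_one hν hL hC hG hm hm0 h3.le ht hw hs1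
    (soft_Pm hH hlm c) ?_).trans ?_
  · rw [dot_isom (Pm_iso hH (hlm.trans hm)), ← nrm_sq]
    exact pow_le_one₀ (nrm_nonneg c) (hN2 c hc)
  · rw [nsmul_eq_mul]
    gcongr
    rw [Fintype.card_fin] at hN1
    exact_mod_cast hN1

lemma Nb_rpow (hn : 0 < n) (a : ℝ) :
    Nb n ((n : ℝ) ^ (-a)) = (n : ℝ) ^ (1 - 3 / 2 * a) := by
  have h : (0 : ℝ) < n := by exact_mod_cast hn
  rw [Nb, Real.sqrt_eq_rpow, ← Real.rpow_mul h.le, ← Real.rpow_add h]
  conv_lhs => rw [← Real.rpow_one (n : ℝ), ← Real.rpow_mul h.le, ← Real.rpow_add h]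
  congr 1; ring

lemma ev_le (K : ℝ) {a : ℝ} (ha : 0 < a) : ∀ᶠ n : ℕ in atTop, K ≤ (n : ℝ) ^ a :=
  ((tendsto_rpow_atTop ha).comp tendsto_natCast_atTop_atTop).eventually_ge_atTop K

end Rot46

open Rot46 in
/-- **random reflections inside the microscopic window** -/
theorem rotGlue : RotGlue := by
  intro hF
  refine ⟨1042, by norm_num, fun C hC t ht => ?_⟩
  set c : ℝ := min (t ^ 2 / (256 * C ^ 2)) (t / (32 * C)) with hc_def
  have hc : 0 < c := lt_min (by positivity) (by positivity)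
  filter_upwards [eventually_ge_atTop 1, ev_le (64 * C / t ^ 2) (a := 1 / 25) (by norm_num),
    ev_le (C / t) (a := 2 / 25) (by norm_num), ev_le (384 / c) (a := 1 / 50) (by norm_num)]
    with n hn k1 k2 k3 ν hν1 hν B hL G ξ hS
  have hn0 : (0 : ℝ) < n := by exact_mod_cast hn
  have hn1 : (1 : ℝ) ≤ n := by exact_mod_cast hn
  have h02 : e0 n ≤ (n : ℝ) ^ (-(11 / 20 : ℝ)) :=
    Real.rpow_le_rpow_of_exponent_le hn1 (by norm_num)
  have h23 : (n : ℝ) ^ (-(11 / 20 : ℝ)) ≤ ep n :=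
    Real.rpow_le_rpow_of_exponent_le hn1 (by norm_num)
  have h31 : ep n ≤ 1 := Real.rpow_le_one_of_one_le_of_nonpos hn1 (by norm_num)
  have hs1 : C * (n * (4 * ep n) ^ 2) ≤ (t / 2) ^ 2 := by
    have e : (n : ℝ) * ep n ^ 2 * (n : ℝ) ^ (1 / 25 : ℝ) = 1 := by
      rw [ep, ← Real.rpow_natCast, ← Real.rpow_mul hn0.le]
      conv_lhs => rw [← Real.rpow_one (n : ℝ), ← Real.rpow_mul hn0.le, ← Real.rpow_mul hn0.le,
        ← Real.rpow_add hn0, ← Real.rpow_add hn0]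
      norm_num
    have h1 : (0 : ℝ) ≤ n * ep n ^ 2 := by positivity
    have h2 := mul_le_mul_of_nonneg_left k1 h1
    rw [e, ← mul_div_assoc, div_le_one (by positivity)] at h2
    nlinarith
  have hs2 : C * ((es n / (n : ℝ) ^ (-(11 / 20 : ℝ))) ^ 2) ^ 2 ≤ t := by
    have e : ((es n / (n : ℝ) ^ (-(11 / 20 : ℝ))) ^ 2) ^ 2 * (n : ℝ) ^ (2 / 25 : ℝ) = 1 := by
      rw [es, ← Real.rpow_sub hn0, ← pow_mul, ← Real.rpow_natCast, ← Real.rpow_mul hn0.le,
        ← Real.rpow_add hn0]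
      norm_num
    have h1 : (0 : ℝ) ≤ ((es n / (n : ℝ) ^ (-(11 / 20 : ℝ))) ^ 2) ^ 2 := by positivity
    have h2 := mul_le_mul_of_nonneg_left k2 h1
    rw [e, ← mul_div_assoc, div_le_one ht] at h2
    linarith
  refine (rot_fix (ξ := ξ) hF hν hL hC hS ht (Real.rpow_pos_of_pos hn0 _)
    (Real.rpow_pos_of_pos hn0 _ : 0 < es n) h02 h23 h31 hn hs1 hs2).trans ?_
  have hlo := hS.lo (ep n) ⟨h02.trans h23, h31⟩
  have hhi := hS.hi _ ⟨h02, h23.trans h31⟩
  rw [Nb_rpow hn] at hhi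
  rw [ep, Nb_rpow hn, ← ep] at hlo
  set x : ℝ := (n : ℝ) ^ (1 / 5 : ℝ) with hx
  have x1 : 1 ≤ x := Real.one_le_rpow hn1 (by norm_num)
  have x2 : (n : ℝ) ^ (1 - 3 / 2 * (11 / 20) : ℝ) ≤ x :=
    Real.rpow_le_rpow_of_exponent_le hn1 (by norm_num)
  have x3 : (n : ℝ) ^ (1 - 3 / 2 * (13 / 25) : ℝ) = x * (n : ℝ) ^ (1 / 50 : ℝ) := by
    rw [hx, ← Real.rpow_add hn0]; norm_num
  have x4 : 6 * x ≤ c * cnt G (2 - ep n) := by
    rw [div_le_iff₀ hc] at k3
    rw [x3] at hlo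
    nlinarith [mul_le_mul_of_nonneg_left hlo hc.le,
      mul_le_mul_of_nonneg_left k3 (zero_le_one.trans x1)]
  have y1 : (5 : ℝ) ≤ Real.exp 2 := by
    have := Real.add_one_le_exp (1 : ℝ)
    have h2 := Real.exp_one_gt_d9
    rw [show (2 : ℝ) = 1 + 1 by norm_num, Real.exp_add]
    nlinarith
  have y2 : (2 : ℝ) ≤ Real.exp 1 := by linarith [Real.add_one_le_exp (1 : ℝ)]
  calc (5 : ℝ) ^ cnt G (2 - (n : ℝ) ^ (-(11 / 20 : ℝ))) *
        (2 * Real.exp (-(c * cnt G (2 - ep n))))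
      ≤ Real.exp 2 ^ cnt G (2 - (n : ℝ) ^ (-(11 / 20 : ℝ))) *
        (Real.exp 1 * Real.exp (-(c * cnt G (2 - ep n)))) := by gcongr
    _ ≤ Real.exp (-x) := by
        rw [← Real.exp_nat_mul, ← Real.exp_add, ← Real.exp_add]
        exact Real.exp_le_exp.2 (by linarith)

end Crest.Agent.T157.Da

end
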