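import Crest.Agent.T157.LlDef_91
import Crest.Agent.T157.NrmS_84
import Crest.Agent.T157.CondA_53

/-!
# Row 157, part E: local law, transfer to `Jmat` / `Wmat` / `goe` (helper18)

* `instApi : InstApi`;
* `VhpM.coupling` (`couplingLaw b n`, `Jmat`), `VhpM.disorder`, `VhpM.wmat` (`Wmat`, any entry law
  times a Gaussian diagonal), `VhpM.goe` (`Cond.goe (Fin n) (1/√n)`).
-/

set_option autoImplicit false

noncomputable section

namespace Crest.Agent.T157.Ll

open MeasureTheory ProbabilityTheory Matrix Filter Function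
open Crest.ProbabilityR.SpinGlassDynamics Crest.Agent.T157.E Crest.Agent.T157.Eig

variable {n : ℕ}

lemma law_gauss : Law (gaussianReal 0 1) where
  prob := inferInstance
  mean := by simp [integral_id_gaussianReal]
  var := by
    have h := variance_id_gaussianReal (μ := 0) (v := 1)
    rw [variance_eq_integral measurable_id.aemeasurable] at h
    simpa [integral_id_gaussianReal] using h
  sg := Nrm.subG_gauss

lemma integral_coin (f : ℝ → ℝ) :
    ∫ x, f x ∂coin = (f 1 + f (-1)) / 2 := by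
  have h1 : ∀ a : ℝ, Integrable f ((1 / 2 : ENNReal) • Measure.dirac a) := fun a =>
    (integrable_dirac (by simp)).smul_measure (by simp)
  rw [integral_add_measure (h1 1) (h1 (-1)), integral_smul_measure, integral_smul_measure,
    integral_dirac, integral_dirac]
  simp
  ring

lemma law_coin : Law coin where
  prob := inferInstanceAs (IsProbabilityMeasure (entryLaw true))
  mean := by rw [integral_coin (fun x => x)]; simp
  var := by rw [integral_coin (fun x => x ^ 2)]; norm_num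
  sg := Nrm.subG_coin

lemma law_entryLaw (b : Bool) : Law (entryLaw b) := by
  cases b
  · exact law_gauss
  · exact law_coin

lemma sum_pair_cov (F : Fin n → Fin n → ℝ) :
    ∑ p : Pair n, (F p.1.1 p.1.2 + F p.1.2 p.1.1) = ∑ k, ∑ l, F k l - ∑ k, F k k := by
  have h := sum_sum_eq_two_mul_pair (fun k l => if k = l then 0 else F k l + F l k)
    (fun k l => by
      by_cases hkl : k = l
      · simp [hkl]
      · simp [hkl, Ne.symm hkl, add_comm]) (fun k => by simp)
  have h1 : ∑ p : Pair n, (if p.1.1 = p.1.2 then 0 else F p.1.1 p.1.2 + F p.1.2 p.1.1) =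
      ∑ p : Pair n, (F p.1.1 p.1.2 + F p.1.2 p.1.1) :=
    Finset.sum_congr rfl fun p _ => if_neg (ne_of_lt p.2)
  have h2 : ∀ k : Fin n, ∑ l, (if k = l then 0 else F k l + F l k) =
      ∑ l, (F k l + F l k) - 2 * F k k := by
    intro k
    have : ∀ l, (if k = l then 0 else F k l + F l k) =
        (F k l + F l k) - (if k = l then F k l + F l k else 0) := by
      intro l; split_ifs <;> simp
    simp only [this, Finset.sum_sub_distrib, Finset.sum_ite_eq, Finset.mem_univ, if_true]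
    ring
  simp only [h2] at h
  rw [h1, Finset.sum_sub_distrib, ← Finset.mul_sum] at h
  simp only [Finset.sum_add_distrib] at h ⊢
  rw [Finset.sum_comm (f := fun k l => F l k)] at h
  linarith

lemma inv_sqrt_sq (n : ℕ) : (1 / √(n : ℝ)) ^ 2 = 1 / (n : ℝ) := by
  rw [div_pow, Real.sq_sqrt (Nat.cast_nonneg n), one_pow]

/-- the ensemble of `Jmat` -/
def ensJ (n : ℕ) (ν : Pair n → Measure ℝ) (hν : ∀ p, Law (ν p)) : Ens n where
  ι := Pair n
  i := fun p => p.1.1
  j := fun p => p.1.2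
  c := fun _ => 1 / √(n : ℝ)
  d := fun _ => -1
  ν := ν
  law := hν
  card := by
    calc Fintype.card (Pair n) ≤ Fintype.card (Fin n × Fin n) := Fintype.card_subtype_le _
      _ = n ^ 2 := by simp [sq]
  c_sq := fun _ => (inv_sqrt_sq n).le
  d_le := fun _ => by simp
  cov := fun F => by
    rw [← Finset.mul_sum, sum_pair_cov, inv_sqrt_sq]
    simp only [neg_mul, one_mul, Finset.sum_neg_distrib]
    ring

lemma sum_pair_Dl (g : Pair n → ℝ) :
    ∑ p : Pair n, (g p * (1 / √(n : ℝ))) • Dl p.1.1 p.1.2 = Jmat n g := by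
  have key : ∀ k l : Fin n, k < l →
      (∑ p : Pair n, (g p * (1 / √(n : ℝ))) • Dl p.1.1 p.1.2) k l = Jmat n g k l := by
    intro k l h
    rw [Jmat_apply_lt g h, Matrix.sum_apply, Finset.sum_eq_single ⟨(k, l), h⟩]
    · simp [Dl, ne_of_gt h, div_eq_mul_inv]
    · rintro ⟨⟨a, b⟩, hab⟩ _ hne
      have h1 : ¬ (a = k ∧ b = l) := by
        rintro ⟨rfl, rfl⟩; exact hne rfl
      have h2 : ¬ (b = k ∧ a = l) := by
        rintro ⟨rfl, rfl⟩; exact lt_asymm h hab
      simp [Dl, h1, h2]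
    · simp
  have hs : ∀ k l : Fin n, (∑ p : Pair n, (g p * (1 / √(n : ℝ))) • Dl p.1.1 p.1.2) k l =
      (∑ p : Pair n, (g p * (1 / √(n : ℝ))) • Dl p.1.1 p.1.2) l k := by
    intro k l
    simp only [Matrix.sum_apply, Matrix.smul_apply, Dl, Matrix.add_apply, Matrix.single_apply]
    refine Finset.sum_congr rfl fun p _ => ?_
    rw [add_comm]
    simp only [and_comm]
  ext k l
  rcases lt_trichotomy k l with h | h | h
  · exact key k l h
  · subst h
    rw [Jmat_diag, Matrix.sum_apply]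
    refine Finset.sum_eq_zero fun p _ => ?_
    have h1 : ¬ (p.1.1 = k ∧ p.1.2 = k) := by
      rintro ⟨h1, h2⟩; exact (ne_of_lt p.2) (h1.trans h2.symm)
    have h2 : ¬ (p.1.2 = k ∧ p.1.1 = k) := fun h => h1 ⟨h.2, h.1⟩
    simp [Dl, h1, h2]
  · rw [hs, key l k h, Jmat_symm]

lemma ensJ_H (ν : Pair n → Measure ℝ) (hν : ∀ p, Law (ν p)) (g : Pair n → ℝ) :
    (ensJ n ν hν).H g = Jmat n g := sum_pair_Dl g

/-- the ensemble of `Jmat` plus an independent diagonal -/
def ensW (n : ℕ) (ν : Pair n → Measure ℝ) (ν' : Fin n → Measure ℝ) (σ : Fin n → ℝ)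
    (hν : ∀ p, Law (ν p)) (hν' : ∀ k, Law (ν' k)) (hσ : ∀ k, |σ k| ≤ 2) : Ens n where
  ι := Pair n ⊕ Fin n
  i := Sum.elim (fun p => p.1.1) id
  j := Sum.elim (fun p => p.1.2) id
  c := Sum.elim (fun _ => 1 / √(n : ℝ)) fun k => σ k / 2 * (1 / √(n : ℝ))
  d := fun k => σ k ^ 2 / 2 - 1
  ν := Sum.elim ν ν'
  law := by
    rintro (p | k)
    · exact hν p
    · exact hν' k
  card := by
    have : Fintype.card (Pair n ⊕ Fin n) ≤ Fintype.card (Fin n × Fin n) := by
      refine Fintype.card_le_of_injective (Sum.elim (fun p => p.1) fun k => (k, k)) ?_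
      rintro (p | k) (q | l) h
      · exact congrArg _ (Subtype.ext h)
      · exfalso
        have h' : p.1 = (l, l) := h
        have := p.2
        rw [h'] at this
        exact lt_irrefl _ this
      · exfalso
        have h' : (k, k) = q.1 := h
        have := q.2
        rw [← h'] at this
        exact lt_irrefl _ this
      · have h' : (k, k) = (l, l) := h
        rw [(Prod.mk.inj h').1]
    simpa [sq] using this
  c_sq := by
    rintro (p | k)
    · exact (inv_sqrt_sq n).le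
    · have h1 : (σ k / 2) ^ 2 ≤ 1 := by
        have := abs_le.1 (hσ k)
        nlinarith
      have h2 : (0 : ℝ) ≤ 1 / (n : ℝ) := by positivity
      simp only [Sum.elim_inr]
      rw [mul_pow, inv_sqrt_sq]
      nlinarith
  d_le := fun k => by
    have := abs_le.1 (hσ k)
    rw [abs_le]
    constructor <;> nlinarith [sq_nonneg (σ k)]
  cov := fun F => by
    rw [Fintype.sum_sum_type]
    simp only [Sum.elim_inl, Sum.elim_inr, id, mul_pow, inv_sqrt_sq]
    rw [← Finset.mul_sum, sum_pair_cov]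
    have : ∑ k, (σ k / 2) ^ 2 * (1 / (n : ℝ)) * (F k k + F k k) =
        1 / (n : ℝ) * (∑ k, (σ k ^ 2 / 2 - 1) * F k k + ∑ k, F k k) := by
      rw [← Finset.sum_add_distrib, Finset.mul_sum]
      refine Finset.sum_congr rfl fun k _ => ?_
      ring
    rw [this]
    ring

lemma ensW_H (ν : Pair n → Measure ℝ) (ν' : Fin n → Measure ℝ) (σ : Fin n → ℝ)
    (hν : ∀ p, Law (ν p)) (hν' : ∀ k, Law (ν' k)) (hσ : ∀ k, |σ k| ≤ 2)
    (x : Pair n ⊕ Fin n → ℝ) :
    (ensW n ν ν' σ hν hν' hσ).H x =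
      Jmat n (fun p => x (.inl p)) + diagonal fun k => σ k * x (.inr k) / √(n : ℝ) := by
  have h : (ensW n ν ν' σ hν hν' hσ).H x =
      ∑ p : Pair n, (x (.inl p) * (1 / √(n : ℝ))) • Dl p.1.1 p.1.2 +
        ∑ k : Fin n, (x (.inr k) * (σ k / 2 * (1 / √(n : ℝ)))) • Dl k k :=
    Fintype.sum_sum_type (f := fun a : Pair n ⊕ Fin n =>
      (x a * (ensW n ν ν' σ hν hν' hσ).c a) •
        Dl ((ensW n ν ν' σ hν hν' hσ).i a) ((ensW n ν ν' σ hν hν' hσ).j a))
  rw [h, sum_pair_Dl]
  congr 1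
  ext k l
  rw [Matrix.sum_apply]
  by_cases hkl : k = l
  · subst hkl
    rw [Finset.sum_eq_single k]
    · simp [Dl]; ring
    · intro m _ hm
      simp [Dl, hm]
    · simp
  · rw [diagonal_apply_ne _ hkl]
    refine Finset.sum_eq_zero fun m _ => ?_
    have h1 : ¬ (m = k ∧ m = l) := by
      rintro ⟨rfl, rfl⟩; exact hkl rfl
    simp [Dl, h1]

/-- **L14** -/
theorem instApi : InstApi where
  law := law_entryLaw
  toJ := by
    intro Θ P h
    obtain ⟨c, hc, h⟩ := h
    refine ⟨c, hc, h.mono fun n hn ν hν θ => ?_⟩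
    have := hn (ensJ n ν hν) θ
    simp only [ensJ_H] at this
    exact this
  toW := by
    intro Θ P h
    obtain ⟨c, hc, h⟩ := h
    refine ⟨c, hc, h.mono fun n hn ν ν' σ hν hν' hσ θ => ?_⟩
    have h1 := hn (ensW n ν ν' σ hν hν' hσ) θ
    have : ∀ a : Pair n ⊕ Fin n, IsProbabilityMeasure (Sum.elim ν ν' a) := fun a =>
      ((ensW n ν ν' σ hν hν' hσ).law a).prob
    have h2 := (measurePreserving_sumPiEquivProdPi (X := fun _ : Pair n ⊕ Fin n => ℝ)
      (Sum.elim ν ν')).measure_preimage_equiv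
      {y | ¬ P n θ (Jmat n y.1 + diagonal fun k => σ k * y.2 k / √(n : ℝ))}
    refine le_trans (le_of_eq h2.symm) (le_trans (le_of_eq ?_) h1)
    congr 1
    ext x
    exact Iff.of_eq (congrArg (fun A => ¬ P n θ A) (ensW_H ν ν' σ hν hν' hσ x).symm)

section corollaries
variable {Θ : ℕ → Type} {P : ∀ n, Θ n → Matrix (Fin n) (Fin n) ℝ → Prop}



/-- `Wmat` with either entry law and a Gaussian diagonal -/
theorem VhpM.wmat (h : VhpM P) : ∃ c : ℝ, 0 < c ∧ ∀ᶠ n : ℕ in atTop, ∀ (b : Bool) (θ : Θ n),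
    ((couplingLaw b n).prod (gv (Fin n))) {y | ¬ P n θ (Wmat n y.1 y.2)} ≤
      ENNReal.ofReal (Real.exp (-(n : ℝ) ^ c)) := by
  obtain ⟨c, hc, h⟩ := instApi.toW h
  refine ⟨c, hc, h.mono fun n hn b θ => ?_⟩
  rw [couplingLaw_eq]
  refine hn _ _ (fun _ => √2) (fun _ => law_entryLaw b) (fun _ => law_gauss) (fun _ => ?_) θ
  rw [abs_of_nonneg (Real.sqrt_nonneg _), Real.sqrt_le_left (by norm_num)]
  norm_num

/-- the couplings and the diagonal read off a matrix -/
def unW (n : ℕ) (W : Matrix (Fin n) (Fin n) ℝ) : (Pair n → ℝ) × (Fin n → ℝ) :=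
  (fun p => W p.1.1 p.1.2 * √(n : ℝ), fun k => W k k * √(n : ℝ) / √2)

lemma measurable_unW : Measurable (unW n) := by
  unfold unW
  refine Measurable.prodMk (measurable_pi_lambda _ fun p => ?_) (measurable_pi_lambda _ fun k => ?_)
  · exact ((measurable_pi_apply _).comp (measurable_pi_apply _)).mul_const _
  · exact (((measurable_pi_apply _).comp (measurable_pi_apply _)).mul_const _).div_const _

lemma unW_Wmat (hn : 1 ≤ n) (y : (Pair n → ℝ) × (Fin n → ℝ)) : unW n (Wmat n y.1 y.2) = y := by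
  have h0 : √(n : ℝ) ≠ 0 := (Real.sqrt_pos.2 (by exact_mod_cast hn)).ne'
  have h2 : √(2 : ℝ) ≠ 0 := (Real.sqrt_pos.2 (by norm_num)).ne'
  refine Prod.ext (funext fun p => ?_) (funext fun k => ?_)
  · simp only [unW, Wmat, Matrix.add_apply, Jmat_apply_lt y.1 p.2,
      diagonal_apply_ne _ (ne_of_lt p.2)]
    field_simp
    simp
  · simp only [unW, Wmat, Matrix.add_apply, Jmat_diag, diagonal_apply_eq]
    field_simp
    simp

lemma Wmat_unW (hn : 1 ≤ n) {W : Matrix (Fin n) (Fin n) ℝ} (hW : Wᵀ = W) :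
    Wmat n (unW n W).1 (unW n W).2 = W := by
  have h0 : √(n : ℝ) ≠ 0 := (Real.sqrt_pos.2 (by exact_mod_cast hn)).ne'
  have h2 : √(2 : ℝ) ≠ 0 := (Real.sqrt_pos.2 (by norm_num)).ne'
  ext k l
  rcases lt_trichotomy k l with h | h | h
  · simp only [unW, Wmat, Matrix.add_apply, Jmat_apply_lt _ h, diagonal_apply_ne _ (ne_of_lt h)]
    field_simp
    simp
  · subst h
    simp only [unW, Wmat, Matrix.add_apply, Jmat_diag, diagonal_apply_eq]
    field_simp
    simp
  · have : W l k = W k l := congrFun (congrFun hW k) l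
    simp only [unW, Wmat, Matrix.add_apply, Jmat_apply_gt _ h, diagonal_apply_ne _ (ne_of_gt h),
      this]
    field_simp
    simp

/-- an arbitrary (not necessarily measurable) set under the GOE law -/
lemma goe_apply_le (hn : 1 ≤ n) (S : Set (Matrix (Fin n) (Fin n) ℝ)) :
    Cond.goe (Fin n) (1 / √(n : ℝ)) S ≤
      ((disorderLaw n).prod (gv (Fin n))) {y | Wmat n y.1 y.2 ∈ S} := by
  set μ := (disorderLaw n).prod (gv (Fin n)) with hμ
  set T := toMeasurable μ {y | Wmat n y.1 y.2 ∈ S} with hT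
  have hTm : MeasurableSet T := measurableSet_toMeasurable _ _
  have h1 : Cond.goe (Fin n) (1 / √(n : ℝ)) S ≤ Cond.goe (Fin n) (1 / √(n : ℝ)) (unW n ⁻¹' T) := by
    refine measure_mono_ae ?_
    filter_upwards [Cond.goe_ae_symm (ι := Fin n) (1 / √(n : ℝ))] with W hW hS
    refine subset_toMeasurable μ _ ?_
    show Wmat n (unW n W).1 (unW n W).2 ∈ S
    rw [Wmat_unW hn hW]
    exact hS
  refine h1.trans (le_of_eq ?_)
  rw [← Cond.goe_Wmat, Measure.map_apply Cond.measurable_Wmat (measurable_unW hTm)]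
  have h2 : (fun p : (Pair n → ℝ) × (Fin n → ℝ) => Wmat n p.1 p.2) ⁻¹' (unW n ⁻¹' T) = T := by
    ext y
    simp only [Set.mem_preimage, unW_Wmat hn]
  rw [h2]
  exact measure_toMeasurable _

/-- the GOE law -/
theorem VhpM.goe (h : VhpM P) : ∃ c : ℝ, 0 < c ∧ ∀ᶠ n : ℕ in atTop, ∀ θ : Θ n,
    Cond.goe (Fin n) (1 / √(n : ℝ)) {W | ¬ P n θ W} ≤ ENNReal.ofReal (Real.exp (-(n : ℝ) ^ c)) := by
  obtain ⟨c, hc, h⟩ := h.wmat
  refine ⟨c, hc, ?_⟩
  filter_upwards [h, eventually_ge_atTop 1] with n hn h1 θ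
  refine (goe_apply_le h1 _).trans ?_
  have := hn false θ
  rw [couplingLaw_eq] at this
  exact this

end corollaries

end Crest.Agent.T157.Ll

end
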