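import Crest.Agent.T157.LlDef_91

-- ▼ part T157/LlMsc_14
section

/-!
# Row 157, local law: the semicircle API `MscApi` and the self-improving inequality `PhiStmt`
(helper14)
-/

set_option autoImplicit false

noncomputable section

namespace Crest.Agent.T157.Ll

open Filter Topology

namespace Msc14

theorem eq0 (z : ℂ) : msc z ^ 2 + z * msc z + 1 = 0 := by
  have h : ((z ^ 2 - 4) ^ (2⁻¹ : ℂ)) ^ 2 = z ^ 2 - 4 := Complex.cpow_ofNat_inv_pow _ 2
  unfold msc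
  split_ifs
  · linear_combination (1 / 4 : ℂ) * h
  · linear_combination (1 / 4 : ℂ) * h

theorem mul_eq (z : ℂ) : msc z * (-z - msc z) = 1 := by
  linear_combination (-1 : ℂ) * eq0 z

theorem ne0 (z : ℂ) : msc z ≠ 0 := by
  intro h
  have := mul_eq z
  rw [h] at this
  simp at this

theorem inv_eq (z : ℂ) : (msc z)⁻¹ = -z - msc z :=
  inv_eq_of_mul_eq_one_right (mul_eq z)

/-- two numbers with product `1`: relation of imaginary parts -/
theorem im_of_mul {a b : ℂ} (h : a * b = 1) : Complex.normSq a * b.im = -a.im := by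
  have hr := congrArg Complex.re h
  have hi := congrArg Complex.im h
  simp only [Complex.mul_re, Complex.mul_im, Complex.one_re, Complex.one_im] at hr hi
  rw [Complex.normSq_apply]
  linear_combination a.re * hi - a.im * hr

theorem im_pos {z : ℂ} (hz : 0 < z.im) : 0 < (msc z).im := by
  have h : ((z ^ 2 - 4) ^ (2⁻¹ : ℂ)) ^ 2 = z ^ 2 - 4 := Complex.cpow_ofNat_inv_pow _ 2
  unfold msc
  split_ifs with h1
  · exact h1
  · set w := (z ^ 2 - 4) ^ (2⁻¹ : ℂ) with hw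
    have hm : ((-z - w) / 2) * ((-z + w) / 2) = 1 := by linear_combination (-1 / 4 : ℂ) * h
    have h2 := im_of_mul hm
    have hs : ((-z - w) / 2).im + ((-z + w) / 2).im = -z.im := by
      have : (-z - w) / 2 + (-z + w) / 2 = -z := by ring
      rw [← Complex.add_im, this, Complex.neg_im]
    have hn := Complex.normSq_nonneg ((-z - w) / 2)
    push Not at h1
    by_contra h3
    push Not at h3
    have h4 : Complex.normSq ((-z - w) / 2) * ((-z + w) / 2).im ≤ 0 := mul_nonpos_of_nonneg_of_nonpos hn h1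
    have h5 : ((-z - w) / 2).im = 0 := by linarith
    have h6 : ((-z + w) / 2).im < 0 := by linarith
    have h7 : Complex.normSq ((-z - w) / 2) = 0 := by
      rw [h5, neg_zero] at h2
      rcases mul_eq_zero.1 h2 with h | h
      · exact h
      · exact absurd h h6.ne
    rw [Complex.normSq_eq_zero] at h7
    rw [h7] at hm
    simp at hm

theorem factor (z m : ℂ) : 1 + z * m + m ^ 2 = (m - msc z) * (m - (msc z)⁻¹) := by
  rw [inv_eq]
  linear_combination eq0 z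

theorem normSq {z : ℂ} : ‖msc z‖ ^ 2 * ((msc z).im + z.im) = (msc z).im := by
  have h := im_of_mul (mul_eq z)
  rw [Complex.normSq_eq_norm_sq] at h
  simp only [Complex.sub_im, Complex.neg_im] at h
  linear_combination (-1 : ℝ) * h

theorem inv_im_neg {z : ℂ} (hz : 0 < z.im) : ((msc z)⁻¹).im < 0 := by
  rw [inv_eq]
  have := im_pos hz
  simp only [Complex.sub_im, Complex.neg_im]
  linarith

theorem uniq {z m : ℂ} (hz : 0 < z.im) (hm : 0 ≤ m.im) (h : m ^ 2 + z * m + 1 = 0) : m = msc z := by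
  have h1 : (m - msc z) * (m - (msc z)⁻¹) = 0 := by rw [← factor]; linear_combination h
  rcases mul_eq_zero.1 h1 with h2 | h2
  · exact sub_eq_zero.1 h2
  · have h3 := inv_im_neg hz
    rw [← sub_eq_zero.1 h2] at h3
    linarith

theorem al_eq (z : ℂ) : al z = ‖msc z - (msc z)⁻¹‖ := by
  unfold al
  rw [inv_eq]
  congr 1
  ring

theorem s_sq (z : ℂ) : (z + 2 * msc z) ^ 2 = z ^ 2 - 4 := by
  linear_combination (4 : ℂ) * eq0 z

theorem al_sq (z : ℂ) : al z ^ 2 = ‖z - 2‖ * ‖z + 2‖ := by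
  unfold al
  rw [← norm_pow, s_sq, ← norm_mul]
  congr 1
  ring

theorem al_nonneg (z : ℂ) : 0 ≤ al z := norm_nonneg _

theorem norm_sq_le {z : ℂ} (hz : 0 < z.im) : ‖msc z‖ ^ 2 ≤ 1 := by
  have h := normSq (z := z)
  have hp := im_pos hz
  by_contra h1
  push Not at h1
  nlinarith

theorem norm_le {z : ℂ} (hz : 0 < z.im) : ‖msc z‖ ≤ 1 := by
  have := norm_sq_le hz
  nlinarith [norm_nonneg (msc z)]

theorem im_le_one {z : ℂ} (hz : 0 < z.im) : (msc z).im ≤ 1 :=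
  (Complex.im_le_norm _).trans (norm_le hz)

theorem one_le_mul {z : ℂ} (hz : 0 < z.im) : 1 ≤ ‖msc z‖ * (‖z‖ + 1) := by
  have h := congrArg norm (mul_eq z)
  rw [norm_mul, norm_one] at h
  have h2 : ‖-z - msc z‖ ≤ ‖z‖ + 1 := by
    refine (norm_sub_le _ _).trans ?_
    rw [norm_neg]
    linarith [norm_le hz]
  calc (1 : ℝ) = ‖msc z‖ * ‖-z - msc z‖ := h.symm
    _ ≤ _ := mul_le_mul_of_nonneg_left h2 (norm_nonneg _)

theorem le_norm {z : ℂ} (hz : 0 < z.im) : 1 / (‖z‖ + 1) ≤ ‖msc z‖ := by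
  rw [div_le_iff₀ (by positivity)]
  exact one_le_mul hz

theorem s_im (z : ℂ) : (z + 2 * msc z).im = 2 * (msc z).im + z.im := by
  simp only [Complex.add_im, Complex.mul_im, Complex.re_ofNat, Complex.im_ofNat]
  ring

theorem im_le_al (z : ℂ) : 2 * (msc z).im + z.im ≤ al z := by
  rw [← s_im]
  exact Complex.im_le_norm _

theorem le_im {z : ℂ} (hz : 0 < z.im) : z.im / (‖z‖ + 1) ^ 2 ≤ (msc z).im := by
  have h := normSq (z := z)
  have hp := im_pos hz
  have h1 := one_le_mul hz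
  have h2 : 1 ≤ ‖msc z‖ ^ 2 * (‖z‖ + 1) ^ 2 := by
    rw [← mul_pow]; exact one_le_pow₀ h1
  rw [div_le_iff₀ (by positivity)]
  have h3 : ‖msc z‖ ^ 2 * z.im ≤ (msc z).im := by nlinarith [sq_nonneg ‖msc z‖]
  calc z.im = z.im * 1 := (mul_one _).symm
    _ ≤ z.im * (‖msc z‖ ^ 2 * (‖z‖ + 1) ^ 2) := mul_le_mul_of_nonneg_left h2 hz.le
    _ = (‖msc z‖ ^ 2 * z.im) * (‖z‖ + 1) ^ 2 := by ring
    _ ≤ _ := mul_le_mul_of_nonneg_right h3 (by positivity)

theorem le_al_im {z : ℂ} (hz : 0 < z.im) : z.im / (‖z‖ + 1) ≤ al z * (msc z).im := by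
  have h := normSq (z := z)
  have hp := im_pos hz
  have h0 : 0 < ‖msc z‖ := norm_pos_iff.2 (ne0 z)
  have h1 : 1 - ‖msc z‖ ^ 2 ≤ al z * ‖msc z‖ := by
    have h2 : al z * ‖msc z‖ = ‖1 - msc z ^ 2‖ := by
      unfold al
      rw [← norm_mul, ← norm_neg]
      congr 1
      linear_combination (-1 : ℂ) * eq0 z
    rw [h2, ← norm_pow]
    have := norm_sub_norm_le (1 : ℂ) (msc z ^ 2)
    rwa [norm_one] at this
  have h3 : ‖msc z‖ * z.im ≤ al z * (msc z).im := by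
    refine le_of_mul_le_mul_left ?_ h0
    have := mul_le_mul_of_nonneg_right h1 hp.le
    nlinarith
  refine le_trans ?_ h3
  have h4 := mul_le_mul_of_nonneg_right (le_norm hz) hz.le
  rwa [one_div, ← div_eq_inv_mul] at h4

theorem s_re_im (z : ℂ) : (z + 2 * msc z).re ^ 2 - (z + 2 * msc z).im ^ 2 = z.re ^ 2 - z.im ^ 2 - 4 ∧
    (z + 2 * msc z).re * (z + 2 * msc z).im = z.re * z.im := by
  have h := s_sq z
  generalize z + 2 * msc z = s at h ⊢
  have hr := congrArg Complex.re h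
  have hi := congrArg Complex.im h
  simp only [sq, Complex.mul_re, Complex.mul_im, Complex.sub_re, Complex.sub_im, Complex.re_ofNat,
    Complex.im_ofNat] at hr hi
  constructor
  · linear_combination hr
  · linear_combination (1 / 2 : ℝ) * hi

theorem al_sq' (z : ℂ) : al z ^ 2 = (z + 2 * msc z).re ^ 2 + (z + 2 * msc z).im ^ 2 := by
  unfold al
  rw [← Complex.normSq_eq_norm_sq, Complex.normSq_apply]
  ring

theorem inside {z : ℂ} (hz : 0 < z.im) (hE : |z.re| ≤ 2) :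
    al z ≤ 2 * (2 * (msc z).im + z.im) := by
  obtain ⟨h1, -⟩ := s_re_im z
  have h2 := al_sq' z
  have hp := im_pos hz
  rw [s_im] at h1 h2
  have h3 : z.re ^ 2 ≤ 4 := by
    have := sq_abs z.re
    nlinarith [abs_nonneg z.re]
  refine abs_le_of_sq_le_sq' ?_ (by positivity) |>.2
  nlinarith [sq_nonneg z.im, sq_nonneg (2 * (msc z).im + z.im)]

theorem outside {z : ℂ} (hz : 0 < z.im) (hE : 2 ≤ |z.re|) :
    al z * (msc z).im ≤ |z.re| * z.im := by
  obtain ⟨h1, h1'⟩ := s_re_im z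
  have h2 := al_sq' z
  have hp := im_pos hz
  rw [s_im] at h1 h1' h2
  set a := (z + 2 * msc z).re
  set μ := (msc z).im
  set η := z.im
  have h3 : 4 ≤ z.re ^ 2 := by
    have := sq_abs z.re
    nlinarith [abs_nonneg z.re]
  refine abs_le_of_sq_le_sq' ?_ (by positivity) |>.2
  have h4 : (|z.re| * η) ^ 2 = a ^ 2 * (2 * μ + η) ^ 2 := by
    rw [mul_pow, sq_abs, ← mul_pow, ← h1', mul_pow]
  rw [h4, mul_pow, h2]
  have h5 : 4 * μ ^ 2 ≤ a ^ 2 := by nlinarith [mul_pos hp hz]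
  have h6 : 4 * μ ^ 2 ≤ (2 * μ + η) ^ 2 := by nlinarith [mul_pos hp hz]
  have h7 := mul_le_mul_of_nonneg_left h6 (sq_nonneg a)
  have h8 := mul_le_mul_of_nonneg_left h5 (sq_nonneg (2 * μ + η))
  nlinarith [mul_nonneg (sq_nonneg a) (sq_nonneg (2 * μ + η))]

theorem lip0 {z z' : ℂ} (hz : 0 < z.im) (hz' : 0 < z'.im) :
    ‖msc z - msc z'‖ * z.im ≤ 2 * (1 + z.im) * ‖z - z'‖ := by
  have hid : (msc z - msc z') * (1 - msc z * msc z') = (z - z') * (msc z * msc z') := by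
    linear_combination (-msc z') * eq0 z + msc z * eq0 z'
  have hn := congrArg norm hid
  rw [norm_mul, norm_mul, norm_mul] at hn
  have h1 := norm_le hz
  have h1' := norm_le hz'
  have h0 := norm_nonneg (msc z)
  have h0' := norm_nonneg (msc z')
  have h2 : 1 - ‖msc z‖ ≤ ‖1 - msc z * msc z'‖ := by
    have := norm_sub_norm_le (1 : ℂ) (msc z * msc z')
    rw [norm_one, norm_mul] at this
    nlinarith
  have h3 : ‖msc z‖ ^ 2 * (1 + z.im) ≤ 1 := by
    have h := normSq (z := z)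
    have h4 := im_le_one hz
    have h5 := norm_sq_le hz
    nlinarith
  have h4 : z.im ≤ 2 * (1 + z.im) * (1 - ‖msc z‖) := by
    nlinarith [mul_nonneg (show 0 ≤ 1 + z.im by positivity) (sq_nonneg (1 - ‖msc z‖))]
  have h5 : ‖msc z - msc z'‖ * (1 - ‖msc z‖) ≤ ‖z - z'‖ := by
    calc ‖msc z - msc z'‖ * (1 - ‖msc z‖) ≤ ‖msc z - msc z'‖ * ‖1 - msc z * msc z'‖ :=
          mul_le_mul_of_nonneg_left h2 (norm_nonneg _)
      _ = ‖z - z'‖ * (‖msc z‖ * ‖msc z'‖) := hn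
      _ ≤ ‖z - z'‖ * 1 := mul_le_mul_of_nonneg_left (by nlinarith) (norm_nonneg _)
      _ = _ := mul_one _
  calc ‖msc z - msc z'‖ * z.im ≤ ‖msc z - msc z'‖ * (2 * (1 + z.im) * (1 - ‖msc z‖)) :=
        mul_le_mul_of_nonneg_left h4 (norm_nonneg _)
    _ = 2 * (1 + z.im) * (‖msc z - msc z'‖ * (1 - ‖msc z‖)) := by ring
    _ ≤ _ := mul_le_mul_of_nonneg_left h5 (by positivity)

theorem lip {z z' : ℂ} (hz : 0 < z.im) (hz' : 0 < z'.im) (h1 : z.im ≤ 1) :
    ‖msc z - msc z'‖ ≤ 4 * ‖z - z'‖ / z.im := by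
  rw [le_div_iff₀ hz]
  have := lip0 hz hz'
  nlinarith [norm_nonneg (z - z')]

theorem lip' {z z' : ℂ} (hz : 0 < z.im) (hz' : 0 < z'.im) (h1 : 1 ≤ z.im) :
    ‖msc z - msc z'‖ ≤ 4 * ‖z - z'‖ := by
  have := lip0 hz hz'
  refine le_of_mul_le_mul_right ?_ hz
  nlinarith [norm_nonneg (z - z')]

theorem al_mono {z z' : ℂ} (hz : 0 < z.im) (hre : z.re = z'.re) (him : z.im ≤ z'.im) :
    al z ≤ al z' := by
  have key : ∀ c : ℂ, c.im = 0 → ‖z + c‖ ≤ ‖z' + c‖ := by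
    intro c hc
    refine abs_le_of_sq_le_sq' ?_ (norm_nonneg _) |>.2
    rw [← Complex.normSq_eq_norm_sq, ← Complex.normSq_eq_norm_sq, Complex.normSq_apply,
      Complex.normSq_apply]
    simp only [Complex.add_re, Complex.add_im, hc, add_zero, hre]
    nlinarith
  refine abs_le_of_sq_le_sq' ?_ (al_nonneg _) |>.2
  rw [al_sq, al_sq, sub_eq_add_neg, sub_eq_add_neg]
  exact mul_le_mul (key _ (by simp)) (key _ (by simp)) (norm_nonneg _) (norm_nonneg _)

theorem dist {z m : ℂ} (hz : 0 < z.im) : ∃ δ : ℝ, 0 ≤ δ ∧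
    (δ = ‖m - msc z‖ ∨ δ = ‖m - (msc z)⁻¹‖) ∧ δ ≤ ‖m - msc z‖ ∧ δ ≤ ‖m - (msc z)⁻¹‖ ∧
    δ ^ 2 ≤ ‖1 + z * m + m ^ 2‖ ∧ al z * δ ≤ 2 * ‖1 + z * m + m ^ 2‖ ∧
    m.im ≤ (msc z).im + δ ∧ ‖z + 2 * m‖ ≤ al z + 2 * δ := by
  rw [factor, norm_mul]
  have ha : al z ≤ ‖m - msc z‖ + ‖m - (msc z)⁻¹‖ := by
    rw [al_eq]
    have : msc z - (msc z)⁻¹ = (m - (msc z)⁻¹) - (m - msc z) := by ring
    rw [this, add_comm]
    exact norm_sub_le _ _
  have h1 := norm_nonneg (m - msc z)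
  have h2 := norm_nonneg (m - (msc z)⁻¹)
  have hp := im_pos hz
  rcases le_total ‖m - msc z‖ ‖m - (msc z)⁻¹‖ with h | h
  · refine ⟨_, h1, Or.inl rfl, le_rfl, h, by nlinarith, by nlinarith, ?_, ?_⟩
    · have := Complex.im_le_norm (m - msc z)
      rw [Complex.sub_im] at this
      linarith
    · have : z + 2 * m = (z + 2 * msc z) + 2 * (m - msc z) := by ring
      rw [this]
      refine (norm_add_le _ _).trans ?_
      rw [norm_mul, Complex.norm_ofNat]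
      exact le_rfl
  · refine ⟨_, h2, Or.inr rfl, h, le_rfl, by nlinarith, by nlinarith, ?_, ?_⟩
    · have := Complex.im_le_norm (m - (msc z)⁻¹)
      rw [Complex.sub_im] at this
      linarith [inv_im_neg hz]
    · have : z + 2 * m = -(z + 2 * msc z) + 2 * (m - (msc z)⁻¹) := by rw [inv_eq]; ring
      rw [this]
      refine (norm_add_le _ _).trans ?_
      rw [norm_mul, Complex.norm_ofNat, norm_neg]
      exact le_rfl

theorem ev_im {z : ℂ} (hz : 0 < z.im) : ∀ᶠ w in 𝓝 z, 0 < w.im :=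
  Complex.continuous_im.continuousAt.eventually (lt_mem_nhds hz)

theorem contAt {z : ℂ} (hz : 0 < z.im) : ContinuousAt msc z := by
  rw [ContinuousAt, tendsto_iff_norm_sub_tendsto_zero]
  have h1 : Tendsto (fun w : ℂ => 2 * (1 + z.im) * ‖z - w‖ / z.im) (𝓝 z)
      (𝓝 (2 * (1 + z.im) * ‖z - z‖ / z.im)) := by
    refine ContinuousAt.tendsto (f := fun w : ℂ => 2 * (1 + z.im) * ‖z - w‖ / z.im) ?_
    fun_prop
  rw [sub_self, norm_zero, mul_zero, zero_div] at h1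
  refine squeeze_zero' (Eventually.of_forall fun _ => norm_nonneg _) ?_ h1
  filter_upwards [ev_im hz] with w hw
  rw [norm_sub_rev, le_div_iff₀ hz]
  exact lip0 hz hw

theorem deriv {z : ℂ} (hz : 0 < z.im) : HasDerivAt msc (-msc z / (z + 2 * msc z)) z := by
  rw [hasDerivAt_iff_tendsto_slope]
  have hne : ∀ w : ℂ, 0 < w.im → w + msc w + msc z ≠ 0 := by
    intro w hw h
    have := congrArg Complex.im h
    simp only [Complex.add_im, Complex.zero_im] at this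
    linarith [im_pos hw, im_pos hz]
  have h1 : Tendsto (fun w : ℂ => -msc z / (w + msc w + msc z)) (𝓝 z)
      (𝓝 (-msc z / (z + msc z + msc z))) :=
    tendsto_const_nhds.div ((tendsto_id.add (contAt hz).tendsto).add tendsto_const_nhds) (hne z hz)
  have h2 : z + msc z + msc z = z + 2 * msc z := by ring
  rw [h2] at h1
  refine (h1.mono_left nhdsWithin_le_nhds).congr' ?_
  filter_upwards [nhdsWithin_le_nhds (ev_im hz), self_mem_nhdsWithin] with w hw hwz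
  have hwz' : w - z ≠ 0 := sub_ne_zero.2 hwz
  rw [slope_def_field, div_eq_div_iff (hne w hw) hwz']
  linear_combination eq0 z - eq0 w

theorem near (K ε : ℝ) (hε : 0 < ε) : ∀ᶠ n : ℕ in atTop, ∀ z z' : ℂ, Dom K ε n z → Dom K ε n z' →
    ‖z - z'‖ ≤ 1 / (n : ℝ) ^ 10 → qq n z' ≤ 2 * qq n z ∧ Phi n z' ≤ 8 * Phi n z ∧
      Psi n z' ≤ 2 * Psi n z ∧ ‖msc z - msc z'‖ ≤ 1 / (n : ℝ) ^ 8 ∧
      1 / (n : ℝ) ^ 2 ≤ qq n z ∧ qq n z ≤ (n : ℝ) ^ (-ε) ∧ 1 / (n : ℝ) ^ 2 ≤ Phi n z ∧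
      1 / (n : ℝ) ≤ Psi n z := by
  filter_upwards [tendsto_natCast_atTop_atTop.eventually_ge_atTop ((2 * |K| + 1) ^ 2 + 4 : ℝ)]
    with n hn z z' hD hD' hzz
  set N : ℝ := (n : ℝ) with hN
  have hK0 := abs_nonneg K
  have hN4 : 4 ≤ N := by nlinarith [sq_nonneg (2 * |K| + 1)]
  have hN0 : 0 < N := by linarith
  have hN1 : 1 ≤ N := by linarith
  have hlow : ∀ w : ℂ, Dom K ε n w → 1 / N ≤ w.im := by
    intro w hw
    refine le_trans ?_ hw.2.1
    rw [one_div, ← Real.rpow_neg_one]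
    exact Real.rpow_le_rpow_of_exponent_le hN1 (by linarith)
  have hl := hlow z hD
  have hl' := hlow z' hD'
  have hiN : 0 < 1 / N := by positivity
  have hz : 0 < z.im := hiN.trans_le hl
  have hz' : 0 < z'.im := hiN.trans_le hl'
  have hzK : ‖z‖ + 1 ≤ 2 * |K| + 1 := by
    have := Complex.norm_le_abs_re_add_abs_im z
    rw [abs_of_pos hz] at this
    linarith [hD.1, hD.2.2, le_abs_self K]
  have hzn : (‖z‖ + 1) ^ 2 ≤ N := by
    have := pow_le_pow_left₀ (by positivity) hzK 2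
    linarith
  have hzn1 : ‖z‖ + 1 ≤ N := by nlinarith [norm_nonneg z]
  have hηN : z.im ≤ N := by linarith [Complex.im_le_norm z]
  have hpow : ∀ a b : ℕ, a ≤ b → 1 / N ^ b ≤ 1 / N ^ a := fun a b hab =>
    one_div_le_one_div_of_le (by positivity) (pow_le_pow_right₀ hN1 hab)
  have hpow4 : ∀ a : ℕ, 4 * (1 / N ^ (a + 1)) ≤ 1 / N ^ a := by
    intro a
    rw [mul_one_div, div_le_div_iff₀ (by positivity) (by positivity), pow_succ]
    nlinarith [pow_pos hN0 a]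
  -- Lipschitz
  have hm : ‖msc z - msc z'‖ ≤ 1 / N ^ 8 := by
    rcases le_total z.im 1 with h | h
    · refine (lip hz hz' h).trans ?_
      rw [div_le_iff₀ hz]
      calc 4 * ‖z - z'‖ ≤ 4 * (1 / N ^ (9 + 1)) := by linarith
        _ ≤ 1 / N ^ 9 := hpow4 9
        _ = 1 / N ^ 8 * (1 / N) := by field_simp
        _ ≤ _ := mul_le_mul_of_nonneg_left hl (by positivity)
    · refine (lip' hz hz' h).trans ?_
      calc 4 * ‖z - z'‖ ≤ 4 * (1 / N ^ (9 + 1)) := by linarith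
        _ ≤ 1 / N ^ 9 := hpow4 9
        _ ≤ _ := hpow 8 9 (by norm_num)
  have hq0 : 0 < qq n z := by unfold qq; positivity
  have hq0' : 0 < qq n z' := by unfold qq; positivity
  have hq : qq n z' ≤ 2 * qq n z := by
    have h1 : z.im ≤ 2 * z'.im := by
      have h2 := Complex.im_le_norm (z - z')
      rw [Complex.sub_im] at h2
      have h3 := hpow 1 10 (by norm_num)
      rw [pow_one] at h3
      linarith
    unfold qq
    rw [mul_one_div, div_le_div_iff₀ (by positivity) (by positivity)]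
    nlinarith
  have hμ := im_pos hz
  have hμ' := im_pos hz'
  have hμ2 : (msc z').im ≤ 2 * (msc z).im := by
    have h1 := Complex.im_le_norm (msc z' - msc z)
    rw [Complex.sub_im, norm_sub_rev] at h1
    have h2 : 1 / N ^ 2 ≤ (msc z).im := by
      refine le_trans ?_ (le_im hz)
      calc 1 / N ^ 2 = (1 / N) / N := by field_simp
        _ ≤ z.im / N := by gcongr
        _ ≤ _ := by gcongr
    linarith [hpow 2 8 (by norm_num)]
  have hal2 : al z' ≤ 2 * al z := by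
    have h1 : al z' ≤ al z + ‖z - z'‖ + 2 * ‖msc z - msc z'‖ := by
      unfold al
      have : z' + 2 * msc z' = (z + 2 * msc z) - (z - z') - 2 * (msc z - msc z') := by ring
      rw [this]
      refine (norm_sub_le _ _).trans ?_
      rw [norm_mul, Complex.norm_ofNat]
      linarith [norm_sub_le (z + 2 * msc z) (z - z')]
    have h2 := im_le_al z
    have h3 := hpow4 1
    have h4 := hpow (1 + 1) 8 (by norm_num)
    have h5 := hpow (1 + 1) 10 (by norm_num)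
    rw [pow_one] at h3
    have h6 : 0 < 1 / N ^ (1 + 1) := by positivity
    linarith
  have hsq : ∀ a b : ℝ, a ≤ 4 * b → √a ≤ 2 * √b := by
    intro a b hab
    have : (2 : ℝ) * √b = √(4 * b) := by
      rw [Real.sqrt_mul (by norm_num), show (4 : ℝ) = 2 ^ 2 by norm_num,
        Real.sqrt_sq (by norm_num)]
    rw [this]
    exact Real.sqrt_le_sqrt hab
  refine ⟨hq, ?_, ?_, hm, ?_, ?_, ?_, ?_⟩
  · have h1 : √(al z' * (msc z').im) ≤ 2 * √(al z * (msc z).im) := by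
      refine hsq _ _ ?_
      have := mul_le_mul hal2 hμ2 hμ'.le (by linarith [al_nonneg z])
      linarith
    unfold Phi
    have h2 := mul_le_mul hq h1 (Real.sqrt_nonneg _) (by positivity)
    have h3 := pow_le_pow_left₀ hq0'.le hq 2
    have h4 := mul_nonneg hq0.le (Real.sqrt_nonneg (al z * (msc z).im))
    nlinarith [sq_nonneg (qq n z)]
  · have h1 : √(qq n z' * (msc z').im) ≤ 2 * √(qq n z * (msc z).im) := by
      refine hsq _ _ ?_
      have := mul_le_mul hq hμ2 hμ'.le (by positivity)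
      linarith
    unfold Psi
    linarith
  · unfold qq
    refine one_div_le_one_div_of_le (by positivity) ?_
    nlinarith
  · unfold qq
    rw [div_le_iff₀ (by positivity)]
    have h1 : N ^ (-ε) * (N * N ^ (-1 + ε)) = 1 := by
      rw [Real.rpow_add hN0, Real.rpow_neg_one, Real.rpow_neg hN0.le]
      have : 0 < N ^ ε := by positivity
      field_simp
    rw [← h1]
    have := hD.2.1
    gcongr
  · have h1 : z.im / N ≤ √(al z * (msc z).im) := by
      refine Real.le_sqrt_of_sq_le (le_trans ?_ (le_al_im hz))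
      rw [div_pow, div_le_div_iff₀ (by positivity) (by positivity)]
      have := mul_le_mul hηN hzn1 (by positivity) hN0.le
      nlinarith
    unfold Phi
    have h2 : 1 / N ^ 2 = qq n z * (z.im / N) := by
      unfold qq
      rw [← hN]
      field_simp
    have h3 := mul_le_mul_of_nonneg_left h1 hq0.le
    nlinarith [sq_nonneg (qq n z)]
  · have h1 : 1 / N ≤ √(qq n z * (msc z).im) := by
      refine Real.le_sqrt_of_sq_le ?_
      have h2 : (1 / N) ^ 2 = qq n z * (z.im / N) := by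
        unfold qq
        rw [← hN]
        field_simp
      rw [h2]
      refine mul_le_mul_of_nonneg_left (le_trans ?_ (le_im hz)) hq0.le
      gcongr
    unfold Psi
    linarith

/-- the real inequality behind `PhiStmt` -/
theorem phi_real {K a μ δ q ν η s i P Φ : ℝ} (hK : 0 ≤ K) (ha : 0 ≤ a) (hμ : 0 ≤ μ) (hδ : 0 ≤ δ)
    (hq : 0 ≤ q) (hq1 : q ≤ 1) (hη : 0 ≤ η) (hηK : η ≤ K) (hν : ν = q * η) (haK : a ≤ K + 2)
    (hμa : 2 * μ ≤ a) (hηa : η ≤ (K + 1) * (a * μ)) (hs : s ≤ a + 2 * δ)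
    (hi0 : 0 ≤ i) (hi : i ≤ μ + δ) (hP : 0 ≤ P) (hδ2 : δ ^ 2 ≤ P) (haδ : a * δ ≤ 2 * P)
    (hΦ1 : q ^ 2 ≤ Φ) (hΦ2 : q ^ 2 * (a * μ) + q ^ 4 ≤ Φ ^ 2) :
    (s + q) * q * (q * i + ν) + (q * i) ^ 2 + q * ν ≤ 10 * (K + 2) ^ 2 * (Φ ^ 2 + Φ * P) := by
  have hq2 : 0 ≤ q ^ 2 := sq_nonneg q
  have hΦ0 : 0 ≤ Φ := hq2.trans hΦ1
  have hν0 : 0 ≤ ν := by rw [hν]; positivity
  have haμ : 0 ≤ a * μ := mul_nonneg ha hμ
  have e1 : q ^ 2 * (a * μ) ≤ Φ ^ 2 := by linarith [pow_nonneg hq 4]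
  have e1' : q ^ 4 ≤ Φ ^ 2 := by linarith [mul_nonneg hq2 haμ]
  have e2 : q ^ 2 * (a * δ) ≤ 2 * (Φ * P) := by
    have := mul_le_mul hΦ1 haδ (mul_nonneg ha hδ) hΦ0
    linarith
  have e3 : q ^ 2 * δ ^ 2 ≤ Φ * P := mul_le_mul hΦ1 hδ2 (sq_nonneg δ) hΦ0
  have e4 : q ^ 2 * (2 * μ * δ) ≤ q ^ 2 * (a * δ) :=
    mul_le_mul_of_nonneg_left (mul_le_mul_of_nonneg_right hμa hδ) hq2
  have e5 : q ^ 2 * (2 * μ * μ) ≤ q ^ 2 * (a * μ) :=
    mul_le_mul_of_nonneg_left (mul_le_mul_of_nonneg_right hμa hμ) hq2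
  have e6 : q * ν ≤ (K + 1) * Φ ^ 2 := by
    calc q * ν = q ^ 2 * η := by rw [hν]; ring
      _ ≤ q ^ 2 * ((K + 1) * (a * μ)) := mul_le_mul_of_nonneg_left hηa hq2
      _ = (K + 1) * (q ^ 2 * (a * μ)) := by ring
      _ ≤ _ := mul_le_mul_of_nonneg_left e1 (by positivity)
  have hqν : 0 ≤ q * ν := mul_nonneg hq hν0
  have e7 : ν ^ 2 ≤ K * ((K + 1) * Φ ^ 2) := by
    calc ν ^ 2 = η * (q * ν) := by rw [hν]; ring
      _ ≤ _ := mul_le_mul hηK e6 hqν hK
  have e8 : a * (q * ν) ≤ (K + 2) * ((K + 1) * Φ ^ 2) := mul_le_mul haK e6 hqν (by positivity)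
  have e9 : q * (q * ν) ≤ (K + 1) * Φ ^ 2 := by
    have := mul_le_mul_of_nonneg_right hq1 hqν
    linarith
  have e10 : 2 * δ * (q * ν) ≤ q ^ 2 * δ ^ 2 + ν ^ 2 := by linarith [sq_nonneg (q * δ - ν)]
  have e11 : 2 * (q ^ 3 * μ) ≤ q ^ 4 + q ^ 2 * μ ^ 2 := by linarith [sq_nonneg (q ^ 2 - q * μ)]
  have e12 : 2 * (q ^ 3 * δ) ≤ q ^ 4 + q ^ 2 * δ ^ 2 := by linarith [sq_nonneg (q ^ 2 - q * δ)]
  have f1 : (s + q) * q * (q * i + ν) ≤ (a + 2 * δ + q) * q * (q * (μ + δ) + ν) := by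
    have h1 : (s + q) * q ≤ (a + 2 * δ + q) * q := mul_le_mul_of_nonneg_right (by linarith) hq
    have h2 : q * i + ν ≤ q * (μ + δ) + ν := by linarith [mul_le_mul_of_nonneg_left hi hq]
    exact mul_le_mul h1 h2 (by positivity) (by positivity)
  have f2 : (q * i) ^ 2 ≤ 2 * (q ^ 2 * μ ^ 2) + 2 * (q ^ 2 * δ ^ 2) := by
    have h1 : i ^ 2 ≤ (μ + δ) ^ 2 := pow_le_pow_left₀ hi0 hi 2
    have h2 : i ^ 2 ≤ 2 * μ ^ 2 + 2 * δ ^ 2 := by linarith [sq_nonneg (μ - δ)]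
    have := mul_le_mul_of_nonneg_left h2 hq2
    linarith
  have f3 : (a + 2 * δ + q) * q * (q * (μ + δ) + ν) = q ^ 2 * (a * μ) + q ^ 2 * (a * δ) +
      q ^ 2 * (2 * μ * δ) + 2 * (q ^ 2 * δ ^ 2) + q ^ 3 * μ + q ^ 3 * δ + a * (q * ν) +
      2 * δ * (q * ν) + q * (q * ν) := by ring
  have e5' : 2 * (q ^ 2 * μ ^ 2) ≤ Φ ^ 2 := by linarith
  have g1 : 0 ≤ Φ ^ 2 := sq_nonneg Φ
  have g2 : 0 ≤ Φ * P := mul_nonneg hΦ0 hP
  have g3 := mul_nonneg hK g1
  have g4 := mul_nonneg hK g2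
  have g5 := mul_nonneg hK g3
  have g6 := mul_nonneg hK g4
  linarith

end Msc14

open Msc14 in
theorem mscApi : MscApi where
  eq := eq0
  im_pos := im_pos
  uniq := uniq
  factor := factor
  inv_eq := inv_eq
  al_eq := al_eq
  al_sq := al_sq
  normSq := fun _ => normSq
  norm_le := norm_le
  le_norm := le_norm
  im_le_al := fun _ => im_le_al _
  le_im := le_im
  le_al_im := le_al_im
  inside := inside
  outside := fun hz hE _ => outside hz hE
  lip := lip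
  lip' := lip'
  al_mono := al_mono
  dist := fun hz _ => Msc14.dist hz
  deriv := Msc14.deriv
  near := near

open Msc14 in
theorem phiStmt : PhiStmt := by
  intro K
  refine ⟨10 * (|K| + 2) ^ 2, by nlinarith [abs_nonneg K], ?_⟩
  intro n z m hn hl hK hm
  have hN : (1 : ℝ) ≤ n := by exact_mod_cast hn
  have hN0 : (0 : ℝ) < n := by linarith
  have hz : 0 < z.im := lt_of_lt_of_le (by positivity) hl
  have hK' : ‖z‖ ≤ |K| := hK.trans (le_abs_self K)
  obtain ⟨δ, hδ, -, -, -, hδ2, haδ, hi, hs⟩ := Msc14.dist (m := m) hz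
  have hq0 : 0 < qq n z := by unfold qq; positivity
  have hq1 : qq n z ≤ 1 := by
    unfold qq
    rw [div_le_iff₀ hN0] at hl
    rw [div_le_iff₀ (by positivity)]
    linarith
  have hν : 1 / (n : ℝ) = qq n z * z.im := by
    unfold qq
    field_simp
  have hμ := im_pos hz
  have hprod : 0 ≤ al z * (msc z).im := mul_nonneg (al_nonneg z) hμ.le
  have haK : al z ≤ |K| + 2 := by
    unfold al
    refine (norm_add_le _ _).trans ?_
    rw [norm_mul, Complex.norm_ofNat]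
    linarith [norm_le hz]
  have hηa : z.im ≤ (|K| + 1) * (al z * (msc z).im) := by
    have h1 := le_al_im hz
    rw [div_le_iff₀ (by positivity)] at h1
    nlinarith
  have hsq := Real.sqrt_nonneg (al z * (msc z).im)
  have hΦ1 : qq n z ^ 2 ≤ Phi n z := by
    unfold Phi
    nlinarith [mul_nonneg hq0.le hsq]
  have hΦ2 : qq n z ^ 2 * (al z * (msc z).im) + qq n z ^ 4 ≤ Phi n z ^ 2 := by
    unfold Phi
    have h1 := Real.sq_sqrt hprod
    have h2 := mul_nonneg (mul_nonneg hq0.le hsq) (sq_nonneg (qq n z))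
    nlinarith
  have key := phi_real (abs_nonneg K) (al_nonneg z) hμ.le hδ hq0.le hq1 hz.le
    ((Complex.im_le_norm z).trans hK') hν haK (by linarith [im_le_al z]) hηa hs hm hi
    (norm_nonneg _) hδ2 haδ hΦ1 hΦ2
  unfold phi1
  rw [Real.sq_sqrt (by positivity), div_eq_mul_one_div (qq n z)]
  exact key

end Crest.Agent.T157.Ll
end
end

-- ▼ part T157/LlVhp_15
section

/-!
# Row 157, part E: the calculus of `Vhp` (helper15)

`Ll.vhpApi : MomStmt → VhpApi`.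
-/

set_option autoImplicit false

noncomputable section

namespace Crest.Agent.T157.Ll

open MeasureTheory ProbabilityTheory Matrix Filter Function

namespace Vh15

theorem ev_rpow {a b : ℝ} (hab : a < b) (C : ℝ) :
    ∀ᶠ n : ℕ in atTop, C * (n : ℝ) ^ a ≤ (n : ℝ) ^ b := by
  have h1 : Tendsto (fun n : ℕ => (n : ℝ) ^ (b - a)) atTop atTop :=
    (tendsto_rpow_atTop (sub_pos.2 hab)).comp tendsto_natCast_atTop_atTop
  filter_upwards [h1.eventually_ge_atTop C, eventually_gt_atTop 0] with n hn hn0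
  have hn' : (0 : ℝ) < n := by exact_mod_cast hn0
  have : (n : ℝ) ^ b = (n : ℝ) ^ (b - a) * (n : ℝ) ^ a := by
    rw [← Real.rpow_add hn']; congr 1; ring
  rw [this]
  exact mul_le_mul_of_nonneg_right hn (Real.rpow_nonneg hn'.le _)

theorem ev_poly {c : ℝ} (hc : 0 < c) (C : ℝ) (k : ℕ) :
    ∀ᶠ n : ℕ in atTop, C * (n : ℝ) ^ k ≤ Real.exp ((n : ℝ) ^ c) := by
  filter_upwards [ev_rpow (half_lt_self hc) (((k : ℝ) + 1) / (c / 2)),
    tendsto_natCast_atTop_atTop.eventually_ge_atTop C, eventually_gt_atTop 0] with n hn hC hn0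
  have hn' : (0 : ℝ) < n := by exact_mod_cast hn0
  have hlog := Real.log_le_rpow_div hn'.le (half_pos hc)
  have h1 : ((k : ℝ) + 1) * Real.log n ≤ (n : ℝ) ^ c := by
    refine le_trans ?_ hn
    rw [div_mul_eq_mul_div, mul_div_assoc]
    exact mul_le_mul_of_nonneg_left hlog (by positivity)
  calc C * (n : ℝ) ^ k ≤ n * (n : ℝ) ^ k := by gcongr
    _ = Real.exp (((k : ℝ) + 1) * Real.log n) := by
        rw [show ((k : ℝ) + 1) = ((k + 1 : ℕ) : ℝ) by push_cast; ring, Real.exp_nat_mul,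
          Real.exp_log hn']; ring
    _ ≤ _ := Real.exp_le_exp.2 h1

theorem ev_main {c : ℝ} (hc : 0 < c) (C : ℝ) (k : ℕ) :
    ∀ᶠ n : ℕ in atTop, C * (n : ℝ) ^ k * Real.exp (-(n : ℝ) ^ c) ≤ Real.exp (-(n : ℝ) ^ (c / 2)) := by
  filter_upwards [ev_poly (half_pos hc) C k, ev_rpow (half_lt_self hc) 2] with n h1 h2
  calc C * (n : ℝ) ^ k * Real.exp (-(n : ℝ) ^ c)
      ≤ Real.exp ((n : ℝ) ^ (c / 2)) * Real.exp (-(n : ℝ) ^ c) := by gcongr
    _ = Real.exp ((n : ℝ) ^ (c / 2) + -(n : ℝ) ^ c) := by rw [Real.exp_add]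
    _ ≤ _ := Real.exp_le_exp.2 (by linarith)

variable {Θ : ℕ → Type}

/-- a polynomial loss is harmless -/
theorem of_bound {P : ∀ n (E : Ens n), Θ n → (E.ι → ℝ) → Prop} {c : ℝ} (hc : 0 < c) (C : ℝ) (k : ℕ)
    (h : ∀ᶠ n : ℕ in atTop, ∀ (E : Ens n) (θ : Θ n),
      E.μ {x | ¬ P n E θ x} ≤ ENNReal.ofReal (C * (n : ℝ) ^ k * Real.exp (-(n : ℝ) ^ c))) :
    Vhp P := by
  refine ⟨c / 2, half_pos hc, ?_⟩
  filter_upwards [h, ev_main hc C k] with n h1 h2 E θ
  exact (h1 E θ).trans (ENNReal.ofReal_le_ofReal h2)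

theorem exp_mono {n : ℕ} (hn : 1 ≤ n) {c c' : ℝ} (h : c ≤ c') :
    Real.exp (-(n : ℝ) ^ c') ≤ Real.exp (-(n : ℝ) ^ c) := by
  have : (1 : ℝ) ≤ n := by exact_mod_cast hn
  exact Real.exp_le_exp.2 (neg_le_neg (Real.rpow_le_rpow_of_exponent_le this h))

theorem of_all {P : ∀ n (E : Ens n), Θ n → (E.ι → ℝ) → Prop}
    (h : ∀ᶠ n : ℕ in atTop, ∀ E θ x, P n E θ x) : Vhp P := by
  refine ⟨1, one_pos, ?_⟩
  filter_upwards [h] with n hn E θ
  have : {x | ¬ P n E θ x} = ∅ := by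
    ext x; simp [hn E θ x]
  rw [this]; simp

theorem mono {P Q : ∀ n (E : Ens n), Θ n → (E.ι → ℝ) → Prop} (hP : Vhp P)
    (h : ∀ᶠ n : ℕ in atTop, ∀ E θ x, P n E θ x → Q n E θ x) : Vhp Q := by
  obtain ⟨c, hc, hP⟩ := hP
  refine ⟨c, hc, ?_⟩
  filter_upwards [h, hP] with n hn hP E θ
  have hs : {x | ¬ Q n E θ x} ⊆ {x | ¬ P n E θ x} := fun x hx hp => hx (hn E θ x hp)
  exact (measure_mono hs).trans (hP E θ)

theorem and {P Q : ∀ n (E : Ens n), Θ n → (E.ι → ℝ) → Prop} (hP : Vhp P) (hQ : Vhp Q) :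
    Vhp fun n E θ x => P n E θ x ∧ Q n E θ x := by
  obtain ⟨c, hc, hP⟩ := hP
  obtain ⟨c', hc', hQ⟩ := hQ
  refine of_bound (lt_min hc hc') 2 0 ?_
  filter_upwards [hP, hQ, eventually_ge_atTop 1] with n hP hQ hn E θ
  have hs : {x | ¬ (P n E θ x ∧ Q n E θ x)} ⊆ {x | ¬ P n E θ x} ∪ {x | ¬ Q n E θ x} := by
    intro x hx
    exact not_and_or.1 hx
  have e1 := exp_mono hn (min_le_left c c')
  have e2 := exp_mono hn (min_le_right c c')
  calc _ ≤ E.μ {x | ¬ P n E θ x} + E.μ {x | ¬ Q n E θ x} :=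
        (measure_mono hs).trans (measure_union_le _ _)
    _ ≤ ENNReal.ofReal (Real.exp (-(n : ℝ) ^ c)) + ENNReal.ofReal (Real.exp (-(n : ℝ) ^ c')) :=
        add_le_add (hP E θ) (hQ E θ)
    _ = ENNReal.ofReal (Real.exp (-(n : ℝ) ^ c) + Real.exp (-(n : ℝ) ^ c')) :=
        (ENNReal.ofReal_add (Real.exp_pos _).le (Real.exp_pos _).le).symm
    _ ≤ _ := ENNReal.ofReal_le_ofReal (by rw [pow_zero]; linarith)

theorem comp {Θ' : ℕ → Type} {P : ∀ n (E : Ens n), Θ n → (E.ι → ℝ) → Prop} (g : ∀ n, Θ' n → Θ n)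
    (hP : Vhp P) : Vhp (Θ := Θ') fun n E θ x => P n E (g n θ) x := by
  obtain ⟨c, hc, hP⟩ := hP
  exact ⟨c, hc, hP.mono fun n hn E θ => hn E (g n θ)⟩

theorem union_le {α T : Type} [MeasurableSpace α] [Fintype T] (μ : Measure α) (s : T → Set α)
    {δ M : ℝ} (hδ : 0 ≤ δ) (hM : (Fintype.card T : ℝ) ≤ M) (h : ∀ τ, μ (s τ) ≤ ENNReal.ofReal δ) :
    μ (⋃ τ, s τ) ≤ ENNReal.ofReal (M * δ) := by
  calc μ (⋃ τ, s τ) ≤ ∑ τ, μ (s τ) := measure_iUnion_fintype_le μ s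
    _ ≤ ∑ _τ : T, ENNReal.ofReal δ := Finset.sum_le_sum fun τ _ => h τ
    _ = ENNReal.ofReal (Fintype.card T * δ) := by
        rw [Finset.sum_const, Finset.card_univ, nsmul_eq_mul, ENNReal.ofReal_mul (by positivity),
          ENNReal.ofReal_natCast]
    _ ≤ _ := ENNReal.ofReal_le_ofReal (by gcongr)

theorem all {T : ℕ → Type} [∀ n, Fintype (T n)] (k : ℕ)
    {P : ∀ n (E : Ens n), Θ n × T n → (E.ι → ℝ) → Prop}
    (hT : ∀ᶠ n : ℕ in atTop, Fintype.card (T n) ≤ n ^ k)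
    (hP : Vhp (Θ := fun n => Θ n × T n) P) :
    Vhp (Θ := Θ) fun n E θ x => ∀ τ, P n E (θ, τ) x := by
  obtain ⟨c, hc, hP⟩ := hP
  refine of_bound hc 1 k ?_
  filter_upwards [hP, hT] with n hP hT E θ
  have hs : {x | ¬ ∀ τ, P n E (θ, τ) x} = ⋃ τ, {x | ¬ P n E (θ, τ) x} := by
    ext x; simp
  rw [hs, one_mul]
  exact union_le _ _ (Real.exp_pos _).le (by exact_mod_cast hT) fun τ => hP E (θ, τ)

/-- enumeration of the test vectors -/
def pick {n : ℕ} (u v : Fin n → ℝ) : Option (Option (Fin n)) → Fin n → ℝ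
  | none => u
  | some none => v
  | some (some k) => ee k

theorem exists_pick {n : ℕ} {u v a : Fin n → ℝ} (h : InS u v a) : ∃ s, a = pick u v s := by
  rcases h with h | h | ⟨k, h⟩
  · exact ⟨none, h⟩
  · exact ⟨some none, h⟩
  · exact ⟨some (some k), h⟩

theorem allS (u v : ∀ n, Θ n → Fin n → ℝ)
    {P : ∀ n (E : Ens n), Θ n × (Fin n → ℝ) × (Fin n → ℝ) → (E.ι → ℝ) → Prop}
    (hP : Vhp (Θ := fun n => Θ n × (Fin n → ℝ) × (Fin n → ℝ)) P) :
    Vhp (Θ := Θ) fun n E θ x => ∀ a b, InS (u n θ) (v n θ) a → InS (u n θ) (v n θ) b →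
      P n E (θ, a, b) x := by
  have h1 := comp (Θ' := fun n => Θ n × (Option (Option (Fin n)) × Option (Option (Fin n))))
    (fun n θ => (θ.1, pick (u n θ.1) (v n θ.1) θ.2.1, pick (u n θ.1) (v n θ.1) θ.2.2)) hP
  have h2 := all (T := fun n => Option (Option (Fin n)) × Option (Option (Fin n))) 4 ?_ h1
  · refine mono h2 (Eventually.of_forall fun n E θ x hx a b ha hb => ?_)
    obtain ⟨s, rfl⟩ := exists_pick ha
    obtain ⟨t, rfl⟩ := exists_pick hb
    exact hx (s, t)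
  · filter_upwards [eventually_ge_atTop 2] with n hn
    simp only [Fintype.card_prod, Fintype.card_option, Fintype.card_fin]
    have : n + 1 + 1 ≤ n ^ 2 := by nlinarith
    calc (n + 1 + 1) * (n + 1 + 1) ≤ n ^ 2 * n ^ 2 := Nat.mul_le_mul this this
      _ = n ^ 4 := by ring

theorem abs_sub_le_of_floor {a b h : ℝ} (ha : 0 ≤ a) (hb : 0 ≤ b) (hh : 0 < h)
    (e : ⌊a * h⌋₊ = ⌊b * h⌋₊) : |a - b| ≤ 1 / h := by
  have h1 := Nat.floor_le (mul_nonneg ha hh.le)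
  have h2 := Nat.floor_le (mul_nonneg hb hh.le)
  have h3 := Nat.lt_floor_add_one (a * h)
  have h4 := Nat.lt_floor_add_one (b * h)
  rw [e] at h1 h3
  rw [le_div_iff₀ hh, ← abs_of_pos hh, ← abs_mul, abs_le]
  constructor <;> nlinarith

open Classical in
/-- a point of the domain in the cell `τ` -/
def pt (K ε : ℝ) (k n : ℕ) (τ : ℕ × ℕ) : ℂ :=
  if h : ∃ z : ℂ, Dom K ε n z ∧ ⌊(z.re + K) * (2 * (n : ℝ) ^ k)⌋₊ = τ.1 ∧
    ⌊z.im * (2 * (n : ℝ) ^ k)⌋₊ = τ.2 then h.choose else 0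

theorem pt_spec {K ε : ℝ} {k n : ℕ} (hn : 1 ≤ n) {z : ℂ} (hz : Dom K ε n z) :
    Dom K ε n (pt K ε k n (⌊(z.re + K) * (2 * (n : ℝ) ^ k)⌋₊, ⌊z.im * (2 * (n : ℝ) ^ k)⌋₊)) ∧
      ‖z - pt K ε k n (⌊(z.re + K) * (2 * (n : ℝ) ^ k)⌋₊, ⌊z.im * (2 * (n : ℝ) ^ k)⌋₊)‖ ≤
        1 / (n : ℝ) ^ k := by
  have hex : ∃ w : ℂ, Dom K ε n w ∧ ⌊(w.re + K) * (2 * (n : ℝ) ^ k)⌋₊ =
      (⌊(z.re + K) * (2 * (n : ℝ) ^ k)⌋₊, ⌊z.im * (2 * (n : ℝ) ^ k)⌋₊).1 ∧
      ⌊w.im * (2 * (n : ℝ) ^ k)⌋₊ =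
      (⌊(z.re + K) * (2 * (n : ℝ) ^ k)⌋₊, ⌊z.im * (2 * (n : ℝ) ^ k)⌋₊).2 := ⟨z, hz, rfl, rfl⟩
  unfold pt
  rw [dif_pos hex]
  obtain ⟨hw, e1, e2⟩ := hex.choose_spec
  set w := hex.choose
  refine ⟨hw, ?_⟩
  have hn' : (0 : ℝ) < n := by exact_mod_cast hn
  have hh : (0 : ℝ) < 2 * (n : ℝ) ^ k := by positivity
  have p0 : (0 : ℝ) ≤ (n : ℝ) ^ (-1 + ε) := Real.rpow_nonneg hn'.le _
  have a1 := abs_sub_le_of_floor (by linarith [(abs_le.1 hz.1).1]) (by linarith [(abs_le.1 hw.1).1])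
    hh e1.symm
  have a2 := abs_sub_le_of_floor (p0.trans hz.2.1) (p0.trans hw.2.1) hh e2.symm
  have a3 := Complex.norm_le_abs_re_add_abs_im (z - w)
  rw [Complex.sub_re, Complex.sub_im] at a3
  rw [show z.re + K - (w.re + K) = z.re - w.re by ring] at a1
  have : 1 / (2 * (n : ℝ) ^ k) + 1 / (2 * (n : ℝ) ^ k) = 1 / (n : ℝ) ^ k := by
    field_simp; ring
  linarith

theorem grid (K ε : ℝ) (k : ℕ) {R : ∀ n (E : Ens n), Θ n → ℂ → (E.ι → ℝ) → Prop}
    (hR : Vhp (Θ := fun n => Θ n × ℂ) fun n E θ x => Dom K ε n θ.2 → R n E θ.1 θ.2 x) :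
    Vhp (Θ := Θ) fun n E θ x => ∀ z, Dom K ε n z →
      ∃ z', Dom K ε n z' ∧ ‖z - z'‖ ≤ 1 / (n : ℝ) ^ k ∧ R n E θ z' x := by
  have h1 := comp (Θ' := fun n => Θ n × (Fin (n ^ (k + 1)) × Fin (n ^ (k + 1))))
    (fun n θ => (θ.1, pt K ε k n (θ.2.1, θ.2.2))) hR
  have h2 := all (T := fun n => Fin (n ^ (k + 1)) × Fin (n ^ (k + 1))) (2 * (k + 1))
    (Eventually.of_forall fun n => by
      simp only [Fintype.card_prod, Fintype.card_fin]; exact le_of_eq (by ring)) h1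
  refine mono h2 ?_
  filter_upwards [eventually_ge_atTop 1,
    tendsto_natCast_atTop_atTop.eventually_gt_atTop (4 * K)] with n hn hK E θ x hx z hz
  have hn' : (0 : ℝ) < n := by exact_mod_cast hn
  have hp : (0 : ℝ) < (n : ℝ) ^ k := by positivity
  have p0 : (0 : ℝ) ≤ (n : ℝ) ^ (-1 + ε) := Real.rpow_nonneg hn'.le _
  have hre := abs_le.1 hz.1
  have hK0 : 0 ≤ K := (abs_nonneg _).trans hz.1
  have b1 : ⌊(z.re + K) * (2 * (n : ℝ) ^ k)⌋₊ < n ^ (k + 1) := by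
    rw [Nat.floor_lt (mul_nonneg (by linarith) (by positivity))]
    push_cast
    rw [pow_succ]
    nlinarith
  have b2 : ⌊z.im * (2 * (n : ℝ) ^ k)⌋₊ < n ^ (k + 1) := by
    rw [Nat.floor_lt (mul_nonneg (p0.trans hz.2.1) (by positivity))]
    push_cast
    rw [pow_succ]
    nlinarith [hz.2.2]
  obtain ⟨d1, d2⟩ := pt_spec (k := k) hn hz
  exact ⟨_, d1, d2, hx (⟨_, b1⟩, ⟨_, b2⟩) d1⟩

theorem tail {ν : Measure ℝ} (h : Law ν) {t : ℝ} (ht : 0 ≤ t) :
    ν {y | ¬ |y| ≤ t} ≤ ENNReal.ofReal (2 * Real.exp (-t ^ 2 / 2)) := by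
  have := h.prob
  have h1 := h.sg.measure_ge_le ht
  have h2 := h.sg.neg.measure_ge_le ht
  simp only [NNReal.coe_one, mul_one, Pi.neg_apply] at h1 h2
  have hs : {y : ℝ | ¬ |y| ≤ t} ⊆ {y | t ≤ y} ∪ {y | t ≤ -y} := by
    intro y hy
    rcases lt_abs.1 (not_le.1 hy) with h | h
    · exact Or.inl h.le
    · exact Or.inr h.le
  rw [← ENNReal.ofReal_toReal (measure_ne_top ν _)]
  refine ENNReal.ofReal_le_ofReal ?_
  have := (measureReal_mono hs).trans (measureReal_union_le (μ := ν) _ _)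
  change ν.real _ ≤ _
  linarith

theorem ent (ε : ℝ) (hε : 0 < ε) :
    Vhp (Θ := Θ) fun n E _ x => ∀ a : E.ι, |x a| ≤ (n : ℝ) ^ ε := by
  refine of_bound hε 2 2 ?_
  filter_upwards [ev_rpow hε 2, eventually_ge_atTop 1] with n h2 hn E θ
  have hn' : (0 : ℝ) < n := by exact_mod_cast hn
  rw [Real.rpow_zero, mul_one] at h2
  have hs : {x : E.ι → ℝ | ¬ ∀ a : E.ι, |x a| ≤ (n : ℝ) ^ ε} =
      ⋃ a, Function.eval a ⁻¹' {y | ¬ |y| ≤ (n : ℝ) ^ ε} := by
    ext x; simp [Function.eval]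
  rw [hs, show 2 * (n : ℝ) ^ 2 * Real.exp (-(n : ℝ) ^ ε) =
    (n : ℝ) ^ 2 * (2 * Real.exp (-(n : ℝ) ^ ε)) by ring]
  refine union_le _ _ (by positivity) (by exact_mod_cast E.card) fun a => ?_
  have hm : MeasurableSet {y : ℝ | ¬ |y| ≤ (n : ℝ) ^ ε} :=
    (measurableSet_le continuous_abs.measurable measurable_const).compl
  unfold Ens.μ
  rw [(measurePreserving_eval E.ν a).measure_preimage hm.nullMeasurableSet]
  refine (tail (E.law a) (by positivity)).trans (ENNReal.ofReal_le_ofReal ?_)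
  gcongr
  nlinarith

/-- the numerical heart of `mom` -/
theorem mom_num {c ε : ℝ} (hc : 0 < c) (hε : 0 < ε) (k : ℕ) :
    ∀ᶠ n : ℕ in atTop, ∀ (φ0 : ℝ) (N : ℕ), 1 / (n : ℝ) ^ k ≤ φ0 → N ≤ n ^ 2 →
      ∃ p : ℕ, 2 ≤ p ∧ ((512 * p ^ 2 * φ0) ^ (2 * p) + 10 ^ 5 * (N + 1) * p ^ 2 *
        ((n : ℝ) ^ k) ^ (2 * p) * (Real.exp (-(n : ℝ) ^ c) + √(Real.exp (-(n : ℝ) ^ c)))) /
        ((n : ℝ) ^ ε * φ0) ^ (2 * p) ≤
        (1 + 4 * 10 ^ 5) * (n : ℝ) ^ 2 * Real.exp (-(n : ℝ) ^ (min (c / 2) (ε / 4))) := by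
  set c' := min (c / 2) (ε / 4) with hc'
  have c0 : 0 < c' := lt_min (half_pos hc) (by positivity)
  have c1 : c' ≤ c / 2 := min_le_left _ _
  have c2 : c' ≤ ε / 4 := min_le_right _ _
  filter_upwards [ev_rpow (show 2 * c' < ε by linarith) (512 * 9 * 3),
    ev_rpow (show c / 2 + c / 4 < c by linarith) (2 * (12 * k / (c / 4) + 7)),
    eventually_ge_atTop 1] with n h1 h2 hn φ0 N hφ hN
  have hn1 : (1 : ℝ) ≤ n := by exact_mod_cast hn
  have hn' : (0 : ℝ) < n := by linarith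
  have hk : (0 : ℝ) < (n : ℝ) ^ k := by positivity
  have hφ0 : 0 < φ0 := lt_of_lt_of_le (by positivity) hφ
  set y := (n : ℝ) ^ c' with hy
  have y1 : 1 ≤ y := Real.one_le_rpow hn1 c0.le
  refine ⟨max 2 ⌈y⌉₊, le_max_left _ _, ?_⟩
  set p := max 2 ⌈y⌉₊ with hp
  have p1 : y ≤ p := (Nat.le_ceil y).trans (by exact_mod_cast le_max_right _ _)
  have p2 : (p : ℝ) ≤ 3 * y := by
    rw [hp, Nat.cast_max]
    refine max_le (by push_cast; linarith) ?_
    have := Nat.ceil_lt_add_one (zero_le_one.trans y1)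
    linarith
  have p0 : (0 : ℝ) ≤ p := by positivity
  have hne : 1 ≤ (n : ℝ) ^ ε := Real.one_le_rpow hn1 hε.le
  have hl : 0 < (n : ℝ) ^ ε * φ0 := by positivity
  rw [add_div]
  -- first term
  have t1 : (512 * p ^ 2 * φ0) ^ (2 * p) / ((n : ℝ) ^ ε * φ0) ^ (2 * p) ≤ Real.exp (-y) := by
    rw [← div_pow]
    have y2 : (n : ℝ) ^ (2 * c') = y ^ 2 := by
      rw [hy, mul_comm, Real.rpow_mul hn'.le, Real.rpow_two]
    rw [y2] at h1
    have e3 : Real.exp 1 ≤ 3 := Real.exp_one_lt_d9.le.trans (by norm_num)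
    have q : 512 * p ^ 2 * φ0 / ((n : ℝ) ^ ε * φ0) ≤ Real.exp (-1) := by
      rw [mul_div_mul_right _ _ hφ0.ne', div_le_iff₀ (by positivity), Real.exp_neg,
        ← div_eq_inv_mul, le_div_iff₀ (Real.exp_pos 1)]
      have : (p : ℝ) ^ 2 ≤ (3 * y) ^ 2 := by gcongr
      calc 512 * (p : ℝ) ^ 2 * Real.exp 1 ≤ 512 * (3 * y) ^ 2 * 3 := by gcongr
        _ = 512 * 9 * 3 * y ^ 2 := by ring
        _ ≤ _ := h1
    calc _ ≤ Real.exp (-1) ^ (2 * p) := by gcongr
      _ = Real.exp (((2 * p : ℕ) : ℝ) * (-1)) := (Real.exp_nat_mul _ _).symm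
      _ ≤ _ := Real.exp_le_exp.2 (by push_cast; linarith)
  -- second term
  have sq : √(Real.exp (-(n : ℝ) ^ c)) = Real.exp (-(n : ℝ) ^ c / 2) := by
    rw [Real.sqrt_eq_iff_mul_self_eq (Real.exp_pos _).le (Real.exp_pos _).le, ← Real.exp_add]
    congr 1; ring
  have nc : 0 ≤ (n : ℝ) ^ c := Real.rpow_nonneg hn'.le _
  have d1 : Real.exp (-(n : ℝ) ^ c) ≤ Real.exp (-(n : ℝ) ^ c / 2) :=
    Real.exp_le_exp.2 (by linarith)
  have hN' : (N : ℝ) + 1 ≤ 2 * (n : ℝ) ^ 2 := by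
    have : (N : ℝ) ≤ (n : ℝ) ^ 2 := by exact_mod_cast hN
    nlinarith
  have l1 : 1 / ((n : ℝ) ^ ε * φ0) ≤ (n : ℝ) ^ k := by
    rw [div_le_iff₀ hl]
    rw [div_le_iff₀ hk] at hφ
    nlinarith [mul_le_mul_of_nonneg_right hne (mul_pos hφ0 hk).le]
  have pe : (p : ℝ) ^ 2 ≤ Real.exp (6 * y) := by
    have : (p : ℝ) ≤ Real.exp (3 * y) := p2.trans (by linarith [Real.add_one_le_exp (3 * y)])
    calc (p : ℝ) ^ 2 ≤ Real.exp (3 * y) ^ 2 := by gcongr
      _ = _ := by rw [← Real.exp_nat_mul]; congr 1; push_cast; ring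
  have lg := Real.log_le_rpow_div hn'.le (show 0 < c / 4 by positivity)
  have lg0 := Real.log_nonneg hn1
  have yc : y ≤ (n : ℝ) ^ (c / 2) := Real.rpow_le_rpow_of_exponent_le hn1 c1
  have n4 : 1 ≤ (n : ℝ) ^ (c / 4) := Real.one_le_rpow hn1 (by positivity)
  rw [Real.rpow_add hn'] at h2
  have be : (((n : ℝ) ^ k) ^ (2 * p)) * ((n : ℝ) ^ k) ^ (2 * p) =
      Real.exp (4 * k * p * Real.log n) := by
    rw [← pow_add, ← pow_mul, show (4 : ℝ) * k * p = ((k * (2 * p + 2 * p) : ℕ) : ℝ) by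
      push_cast; ring, Real.exp_nat_mul, Real.exp_log hn']
  have key : 6 * y + 4 * k * p * Real.log n + -(n : ℝ) ^ c / 2 ≤ -y := by
    have a1 : 4 * k * p * Real.log n ≤
        12 * k / (c / 4) * ((n : ℝ) ^ (c / 2) * (n : ℝ) ^ (c / 4)) := by
      calc 4 * k * p * Real.log n ≤ 4 * k * (3 * (n : ℝ) ^ (c / 2)) * ((n : ℝ) ^ (c / 4) / (c / 4)) := by
            gcongr; linarith
        _ = _ := by ring
    have a2 : y ≤ (n : ℝ) ^ (c / 2) * (n : ℝ) ^ (c / 4) :=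
      yc.trans (le_mul_of_one_le_right (by positivity) n4)
    nlinarith
  have t2 : 10 ^ 5 * (N + 1) * p ^ 2 * ((n : ℝ) ^ k) ^ (2 * p) *
      (Real.exp (-(n : ℝ) ^ c) + √(Real.exp (-(n : ℝ) ^ c))) / ((n : ℝ) ^ ε * φ0) ^ (2 * p) ≤
      4 * 10 ^ 5 * (n : ℝ) ^ 2 * Real.exp (-y) := by
    rw [sq, div_eq_mul_one_div, ← _root_.one_div_pow]
    calc _ ≤ 10 ^ 5 * (2 * (n : ℝ) ^ 2) * Real.exp (6 * y) * ((n : ℝ) ^ k) ^ (2 * p) *
          (Real.exp (-(n : ℝ) ^ c / 2) + Real.exp (-(n : ℝ) ^ c / 2)) * ((n : ℝ) ^ k) ^ (2 * p) := by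
          gcongr
      _ = 4 * 10 ^ 5 * (n : ℝ) ^ 2 * (Real.exp (6 * y) *
          ((((n : ℝ) ^ k) ^ (2 * p)) * ((n : ℝ) ^ k) ^ (2 * p)) * Real.exp (-(n : ℝ) ^ c / 2)) := by
          ring
      _ = 4 * 10 ^ 5 * (n : ℝ) ^ 2 *
          Real.exp (6 * y + 4 * k * p * Real.log n + -(n : ℝ) ^ c / 2) := by
          rw [be, Real.exp_add, Real.exp_add]
      _ ≤ _ := by gcongr
  have n2 : Real.exp (-y) ≤ (n : ℝ) ^ 2 * Real.exp (-y) :=
    le_mul_of_one_le_left (Real.exp_pos _).le (one_le_pow₀ hn1)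
  linarith

theorem mom (h : MomStmt) (X : ∀ n (E : Ens n), Θ n → (E.ι → ℝ) → ℂ) (φ0 : ∀ n, Θ n → ℝ)
    (A : ∀ n, Θ n → Prop) {Gd : ∀ n (E : Ens n), Θ n → (E.ι → ℝ) → Prop} (k : ℕ) (hG : Vhp Gd)
    (hD : ∀ᶠ n : ℕ in atTop, ∀ (E : Ens n) (θ : Θ n), A n θ → 1 / (n : ℝ) ^ k ≤ φ0 n θ ∧
      ∃ D : MData E.ι, D.X = X n E θ ∧ D.Ok ((n : ℝ) ^ k) ∧ ∀ x, Gd n E θ x → D.Cond (φ0 n θ) x)
    (ε : ℝ) (hε : 0 < ε) :
    Vhp (Θ := Θ) fun n E θ x => A n θ → ‖X n E θ x‖ ≤ (n : ℝ) ^ ε * φ0 n θ := by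
  obtain ⟨c, hc, hG⟩ := hG
  refine of_bound (lt_min (half_pos hc) (show 0 < ε / 4 by positivity)) (1 + 4 * 10 ^ 5) 2 ?_
  filter_upwards [hG, hD, mom_num hc hε k, eventually_ge_atTop 1] with n hG hD hnum hn E θ
  have hn1 : (1 : ℝ) ≤ n := by exact_mod_cast hn
  by_cases hA : A n θ
  · obtain ⟨hφ, D, hX, hOk, hC⟩ := hD E θ hA
    obtain ⟨p, hp, hb⟩ := hnum (φ0 n θ) (Fintype.card E.ι) hφ E.card
    have hφ0 : 0 < φ0 n θ := lt_of_lt_of_le (by positivity) hφ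
    have hs : {x | ¬ D.Cond (φ0 n θ) x} ⊆ {x | ¬ Gd n E θ x} := fun x hx hg => hx (hC x hg)
    have := h E.ι E.ν E.law D ((n : ℝ) ^ k) (φ0 n θ) (Real.exp (-(n : ℝ) ^ c))
      ((n : ℝ) ^ ε * φ0 n θ) p hOk (one_le_pow₀ hn1) hφ0 (Real.exp_pos _) (by positivity) hp
      ((measure_mono hs).trans (hG E θ))
    refine le_trans (measure_mono ?_) (this.trans (ENNReal.ofReal_le_ofReal hb))
    intro x hx
    rw [hX]
    exact not_le.1 fun h' => hx fun _ => h'
  · have : {x | ¬ (A n θ → ‖X n E θ x‖ ≤ (n : ℝ) ^ ε * φ0 n θ)} = ∅ := by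
      ext x; simp [hA]
    rw [this]; simp

end Vh15

/-- **L4** -/
theorem vhpApi (h : MomStmt) : VhpApi where
  of_all := Vh15.of_all
  mono := Vh15.mono
  and := Vh15.and
  comp := Vh15.comp
  all := Vh15.all
  allS := Vh15.allS
  grid := Vh15.grid
  ent := Vh15.ent
  mom := Vh15.mom h

end Crest.Agent.T157.Ll
end
end

-- ▼ part T157/LlP_23
section

/-!
# Row 157, local law: deterministic bounds for `P = 1 + z m + m²` (helper23)
-/

set_option autoImplicit false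

noncomputable section

namespace Crest.Agent.T157.LlP

open MeasureTheory Matrix Function Finset
open Crest.Agent.T157.Ll

variable {n : ℕ}

/-- resolvent entries -/
def G (A : Matrix (Fin n) (Fin n) ℝ) (z : ℂ) (k l : Fin n) : ℂ := gb A z (ee k) (ee l)

/-- entries of the squared resolvent -/
def S (A : Matrix (Fin n) (Fin n) ℝ) (z : ℂ) (k l : Fin n) : ℂ := ∑ m, G A z k m * G A z m l

/-- first derivative of `m` -/
def dm (A : Matrix (Fin n) (Fin n) ℝ) (z : ℂ) (c : ℝ) (i j : Fin n) : ℂ := -(2 * c) * (S A z i j / n)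

/-- second derivative of `m` -/
def d2m (A : Matrix (Fin n) (Fin n) ℝ) (z : ℂ) (c : ℝ) (i j : Fin n) : ℂ := 2 * c ^ 2 *
  (G A z i i * (S A z j j / n) + 2 * G A z i j * (S A z i j / n) + G A z j j * (S A z i i / n))

/-- the data of the moment lemma -/
def pD (E : Ens n) (z : ℂ) : MData E.ι where
  X x := PP (E.H x) z
  r x := st (E.H x) z ^ 2
  f a x := 2 * E.c a / n * G (E.H x) z (E.i a) (E.j a)
  f1 a x := -(2 * E.c a ^ 2 / n) * (G (E.H x) z (E.i a) (E.i a) * G (E.H x) z (E.j a) (E.j a) +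
    G (E.H x) z (E.i a) (E.j a) ^ 2)
  f2 a x := 4 * E.c a ^ 3 / n * (G (E.H x) z (E.i a) (E.j a) * (3 * (G (E.H x) z (E.i a) (E.i a) *
    G (E.H x) z (E.j a) (E.j a)) + G (E.H x) z (E.i a) (E.j a) ^ 2))
  X1 a x := (z + 2 * st (E.H x) z) * dm (E.H x) z (E.c a) (E.i a) (E.j a)
  X2 a x := (z + 2 * st (E.H x) z) * d2m (E.H x) z (E.c a) (E.i a) (E.j a) +
    2 * dm (E.H x) z (E.c a) (E.i a) (E.j a) ^ 2

section det
variable (R : ResApi) {A : Matrix (Fin n) (Fin n) ℝ} {z : ℂ}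
include R

theorem G_symm (hA : A.IsHermitian) (z : ℂ) (k l : Fin n) : G A z k l = G A z l k := R.symm hA _ _ _

theorem st_eq (A : Matrix (Fin n) (Fin n) ℝ) (z : ℂ) : st A z = (∑ k, G A z k k) / n := R.st_eq A z

theorem ward_le (hA : A.IsHermitian) (hz : 0 < z.im) {l : Fin n} {B : ℝ} (h : ‖G A z l l‖ ≤ B) :
    ∑ k, ‖G A z k l‖ ^ 2 ≤ B / z.im :=
  (R.ward hA hz (ee l)).trans_le (div_le_div_of_nonneg_right
    (((le_abs_self _).trans (Complex.abs_im_le_norm _)).trans h) hz.le)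

omit R in
theorem sum_mul_le {u v : Fin n → ℝ} {B : ℝ} (hu : ∑ k, u k ^ 2 ≤ B) (hv : ∑ k, v k ^ 2 ≤ B) :
    ∑ k, u k * v k ≤ B := by
  have : ∑ k, 2 * (u k * v k) ≤ ∑ k, (u k ^ 2 + v k ^ 2) :=
    sum_le_sum fun k _ => by nlinarith [sq_nonneg (u k - v k)]
  rw [← mul_sum, sum_add_distrib] at this
  linarith

theorem S_le (hA : A.IsHermitian) (hz : 0 < z.im) {k l : Fin n} {B : ℝ} (hk : ‖G A z k k‖ ≤ B)
    (hl : ‖G A z l l‖ ≤ B) : ‖S A z k l / n‖ ≤ B * qq n z := by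
  rw [norm_div, Complex.norm_natCast, qq, mul_one_div, mul_comm, ← div_div]
  refine div_le_div_of_nonneg_right ((norm_sum_le _ _).trans ?_) n.cast_nonneg
  simp only [norm_mul, G_symm R hA z k]
  exact sum_mul_le (ward_le R hA hz hk) (ward_le R hA hz hl)

theorem st_le {B : ℝ} (hn : 1 ≤ n) (h : ∀ k, ‖G A z k k‖ ≤ B) : ‖st A z‖ ≤ B := by
  rw [st_eq R, norm_div, Complex.norm_natCast, div_le_iff₀ (by exact_mod_cast hn)]
  exact (norm_sum_le _ _).trans ((sum_le_card_nsmul _ _ B fun k _ => h k).trans_eq (by simp [mul_comm]))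

theorem ward_sum (hA : A.IsHermitian) (hz : 0 < z.im) (hn : 1 ≤ n) :
    (∑ k, ∑ l, ‖G A z k l‖ ^ 2) / (n : ℝ) ^ 2 = qq n z * (st A z).im := by
  have n0 : (n : ℝ) ≠ 0 := by positivity
  rw [sum_comm, st_eq R, Complex.div_natCast_im, Complex.im_sum, qq]
  simp only [G, R.ward hA hz, ← sum_div]
  field_simp

section line
variable {τ Γ : ℝ} {i j : Fin n} (hA : A.IsHermitian) (hA' : (A + τ • Dl i j).IsHermitian)
  (hz : 0 < z.im) (hG : ∀ k l, ‖G A z k l‖ ≤ Γ) (hτ : |τ| * Γ ≤ 1 / 8)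
include hA hz hG

theorem diff_le (k l : Fin n) : ‖G (A + τ • Dl i j) z k l - G A z k l‖ ≤
    |τ| * Γ * (‖G (A + τ • Dl i j) z k i‖ + ‖G (A + τ • Dl i j) z k j‖) := by
  rw [G, R.pert hA hz, G, sub_sub_cancel_left, norm_neg, norm_mul, Complex.norm_real,
    Real.norm_eq_abs, mul_assoc, mul_add, mul_comm Γ, mul_comm Γ]
  refine mul_le_mul_of_nonneg_left ((norm_add_le _ _).trans ?_) (abs_nonneg _)
  rw [norm_mul, norm_mul]
  exact add_le_add (mul_le_mul_of_nonneg_left (hG _ _) (norm_nonneg _))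
    (mul_le_mul_of_nonneg_left (hG _ _) (norm_nonneg _))

include hτ

theorem N_le (k : Fin n) : ‖G (A + τ • Dl i j) z k i‖ + ‖G (A + τ • Dl i j) z k j‖ ≤ 3 * Γ := by
  have h1 := (norm_le_norm_add_norm_sub' _ _).trans (add_le_add (hG k i) (diff_le R hA hz hG k i
    (τ := τ) (i := i) (j := j)))
  have h2 := (norm_le_norm_add_norm_sub' _ _).trans (add_le_add (hG k j) (diff_le R hA hz hG k j
    (τ := τ) (i := i) (j := j)))
  have h3 := mul_le_mul_of_nonneg_right hτ (add_nonneg (norm_nonneg (G (A + τ • Dl i j) z k i))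
    (norm_nonneg (G (A + τ • Dl i j) z k j)))
  linarith [(norm_nonneg _).trans (hG k k)]

theorem Gi_le (k : Fin n) : ‖G (A + τ • Dl i j) z k i‖ ≤ 3 * Γ :=
  (le_add_of_nonneg_right (norm_nonneg _)).trans (N_le R hA hz hG hτ k)

theorem Gj_le (k : Fin n) : ‖G (A + τ • Dl i j) z k j‖ ≤ 3 * Γ :=
  (le_add_of_nonneg_left (norm_nonneg _)).trans (N_le R hA hz hG hτ k)

theorem Gij_le : ‖G (A + τ • Dl i j) z i j‖ ≤ ‖G A z i j‖ + |τ| * Γ * (3 * Γ) :=
  (norm_le_norm_add_norm_sub' _ _).trans (add_le_add le_rfl ((diff_le R hA hz hG i j).trans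
    (mul_le_mul_of_nonneg_left (N_le R hA hz hG hτ i)
      (mul_nonneg (abs_nonneg _) ((norm_nonneg _).trans (hG i j))))))

include hA'

theorem Sij_le : ‖S (A + τ • Dl i j) z i j / n‖ ≤ ‖S A z i j / n‖ + |τ| * Γ * (12 * Γ * qq n z) := by
  have Γ0 := (norm_nonneg _).trans (hG i j)
  refine (norm_le_norm_add_norm_sub' _ _).trans (add_le_add le_rfl ?_)
  rw [← sub_div, norm_div, Complex.norm_natCast, qq, mul_one_div, mul_comm (n : ℝ), ← div_div,
    ← mul_div_assoc _ _ (n : ℝ), S, S, ← sum_sub_distrib]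
  refine div_le_div_of_nonneg_right ((norm_sum_le _ _).trans ?_) n.cast_nonneg
  have w1 := ward_le R hA' hz (Gi_le R hA hz hG hτ i)
  have w2 := ward_le R hA' hz (Gj_le R hA hz hG hτ j)
  have w3 := ward_le R hA hz (l := i) (B := 3 * Γ) ((hG i i).trans (by linarith))
  refine (sum_le_sum (g := fun m => |τ| * Γ * (‖G (A + τ • Dl i j) z m i‖ * ‖G (A + τ • Dl i j) z m j‖ +
    ‖G (A + τ • Dl i j) z m j‖ * ‖G (A + τ • Dl i j) z m j‖ + (‖G (A + τ • Dl i j) z m i‖ * ‖G A z m i‖ +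
      ‖G (A + τ • Dl i j) z m j‖ * ‖G A z m i‖))) fun m _ => ?_).trans ?_
  · rw [G_symm R hA' z i m, G_symm R hA z i m, show ∀ a b c d : ℂ, a * b - c * d =
      (a - c) * b + (b - d) * c from fun a b c d => by ring]
    refine (norm_add_le _ _).trans ?_
    rw [norm_mul, norm_mul]
    exact (add_le_add (mul_le_mul_of_nonneg_right (diff_le R hA hz hG m i) (norm_nonneg _))
      (mul_le_mul_of_nonneg_right (diff_le R hA hz hG m j) (norm_nonneg _))).trans_eq (by ring)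
  · rw [← mul_sum, sum_add_distrib, sum_add_distrib, sum_add_distrib]
    refine mul_le_mul_of_nonneg_left ?_ (mul_nonneg (abs_nonneg _) Γ0)
    refine (add_le_add (add_le_add (sum_mul_le w1 w2) (sum_mul_le w2 w2))
      (add_le_add (sum_mul_le w1 w3) (sum_mul_le w2 w3))).trans_eq (by ring)

theorem st_diff : ‖st (A + τ • Dl i j) z - st A z‖ ≤ |τ| * (6 * Γ * qq n z) := by
  have Γ0 := (norm_nonneg _).trans (hG i j)
  rw [st_eq R, st_eq R, ← sub_div, norm_div, Complex.norm_natCast, qq, mul_one_div, mul_comm (n : ℝ),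
    ← div_div, ← mul_div_assoc _ _ (n : ℝ), ← sum_sub_distrib]
  refine div_le_div_of_nonneg_right ((norm_sum_le _ _).trans ?_) n.cast_nonneg
  have w1 := ward_le R hA' hz (Gi_le R hA hz hG hτ i)
  have w2 := ward_le R hA' hz (Gj_le R hA hz hG hτ j)
  have w3 := fun l => ward_le R hA hz (l := l) (B := 3 * Γ) ((hG l l).trans (by linarith))
  refine (sum_le_sum (g := fun m => |τ| * (‖G (A + τ • Dl i j) z m i‖ * ‖G A z m j‖ +
      ‖G (A + τ • Dl i j) z m j‖ * ‖G A z m i‖)) fun m _ => ?_).trans ?_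
  · rw [G_symm R hA z m j, G_symm R hA z m i, G, R.pert hA hz, G, sub_sub_cancel_left, norm_neg,
      norm_mul, Complex.norm_real, Real.norm_eq_abs]
    refine mul_le_mul_of_nonneg_left ((norm_add_le _ _).trans_eq ?_) (abs_nonneg _)
    rw [norm_mul, norm_mul]; rfl
  · rw [← mul_sum, sum_add_distrib]
    exact mul_le_mul_of_nonneg_left ((add_le_add (sum_mul_le w1 (w3 j))
      (sum_mul_le w2 (w3 i))).trans_eq (by ring)) (abs_nonneg _)

end line

/-! ### derivatives -/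

variable (E : Ens n) (x : E.ι → ℝ) (a : E.ι) (hz : 0 < z.im) (t : ℝ)
include hz

theorem dG (k l : Fin n) : HasDerivAt (fun s => G (E.H (update x a s)) z k l)
    (-(E.c a : ℂ) * (G (E.H (update x a t)) z k (E.i a) * G (E.H (update x a t)) z (E.j a) l +
      G (E.H (update x a t)) z k (E.j a) * G (E.H (update x a t)) z (E.i a) l)) t :=
  R.deriv E x a hz _ _ t

theorem dst : HasDerivAt (fun s => st (E.H (update x a s)) z)
    (dm (E.H (update x a t)) z (E.c a) (E.i a) (E.j a)) t := by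
  simp only [st_eq R]
  refine ((HasDerivAt.fun_sum fun k _ => dG R E x a hz t k k).div_const _).congr_deriv ?_
  rw [dm, S, ← mul_div_assoc, mul_sum]
  refine congrArg (· / _) (sum_congr rfl fun k _ => ?_)
  rw [G_symm R (R.herm E _) z k (E.i a), G_symm R (R.herm E _) z (E.j a) k]
  ring

theorem ddm : HasDerivAt (fun s => dm (E.H (update x a s)) z (E.c a) (E.i a) (E.j a))
    (d2m (E.H (update x a t)) z (E.c a) (E.i a) (E.j a)) t := by
  refine (((HasDerivAt.fun_sum fun k _ => (dG R E x a hz t (E.i a) k).mul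
    (dG R E x a hz t k (E.j a))).div_const _).const_mul _).congr_deriv ?_
  simp only [d2m, S, ← mul_div_assoc, ← add_div, mul_sum, ← sum_add_distrib]
  refine congrArg (· / _) (sum_congr rfl fun k _ => ?_)
  ring

omit hz in
theorem measG (z : ℂ) (k l : Fin n) : Measurable fun x => G (E.H x) z k l := R.meas E z _ _

theorem eq_X (hn : 1 ≤ n) : (pD E z).X x = ∑ a, (x a : ℂ) * (pD E z).f a x + (pD E z).r x := by
  have n0 : (n : ℂ) ≠ 0 := by exact_mod_cast (by omega : n ≠ 0)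
  have h := sum_congr rfl fun k (_ : k ∈ univ) => R.expand E x hz (ee k) (ee k)
  rw [sum_comm, sum_add_distrib, ← mul_sum] at h
  have e : ∀ a, ∑ k, (x a : ℂ) * ((E.c a : ℂ) * (ee k (E.i a) * gb (E.H x) z (ee (E.j a)) (ee k) +
      ee k (E.j a) * gb (E.H x) z (ee (E.i a)) (ee k))) = n * (x a * (pD E z).f a x) := fun a => by
    have := G_symm R (R.herm E x) z (E.j a) (E.i a)
    simp only [G] at this
    simp only [← mul_sum, sum_add_distrib, ee, Pi.single_apply, apply_ite ((↑) : ℝ → ℂ), ite_mul,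
      Complex.ofReal_one, Complex.ofReal_zero, one_mul, zero_mul, sum_ite_eq, mem_univ, if_true, pD, G]
    simp only [ee] at this
    rw [this]
    field_simp
    ring
  simp only [e, ← mul_sum] at h
  simp only [ee, single_dotProduct, Pi.single_eq_same, mul_one, Complex.ofReal_one, sum_const,
    card_univ, Fintype.card_fin, nsmul_eq_mul] at h
  refine congrArg (· + _) (mul_left_cancel₀ n0 ?_)
  rw [← h, R.st_eq]
  simp only [ee]
  field_simp

theorem first_order (hn : 1 ≤ n) :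
    ‖(pD E z).r x + ∑ a, (pD E z).f1 a x‖ ≤ 3 * (qq n z * (st (E.H x) z).im) := by
  have n0 : (n : ℂ) ≠ 0 := by exact_mod_cast (by omega : n ≠ 0)
  have h := R.covC E fun k l => G (E.H x) z k k * G (E.H x) z l l + G (E.H x) z k l ^ 2
  have e : (pD E z).r x + ∑ a, (pD E z).f1 a x = -(∑ k, ∑ l, G (E.H x) z k l ^ 2 +
      2 * ∑ k, E.d k * G (E.H x) z k k ^ 2) / n ^ 2 := by
    have e1 : ∑ a, (pD E z).f1 a x = -(∑ a, (E.c a : ℂ) ^ 2 * (G (E.H x) z (E.i a) (E.i a) *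
        G (E.H x) z (E.j a) (E.j a) + G (E.H x) z (E.i a) (E.j a) ^ 2 + (G (E.H x) z (E.j a) (E.j a) *
        G (E.H x) z (E.i a) (E.i a) + G (E.H x) z (E.j a) (E.i a) ^ 2))) / n := by
      rw [← sum_neg_distrib, sum_div]
      refine sum_congr rfl fun a _ => ?_
      rw [G_symm R (R.herm E x) z (E.j a) (E.i a), pD]
      ring
    rw [e1, h]
    simp only [pD, st_eq R, sum_add_distrib, ← mul_sum, ← sum_mul, ← sq, ← two_mul]
    simp only [mul_left_comm _ (2 : ℂ), ← mul_sum]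
    field_simp
    ring
  rw [e, ← ward_sum R (R.herm E x) hz hn, norm_div, norm_neg, norm_pow, Complex.norm_natCast,
    ← mul_div_assoc]
  refine div_le_div_of_nonneg_right ((norm_add_le _ _).trans ?_) (by positivity)
  have h1 : ‖∑ k, ∑ l, G (E.H x) z k l ^ 2‖ ≤ ∑ k, ∑ l, ‖G (E.H x) z k l‖ ^ 2 :=
    (norm_sum_le _ _).trans (sum_le_sum fun k _ => (norm_sum_le _ _).trans_eq (by simp))
  have h2 : ‖∑ k, E.d k * G (E.H x) z k k ^ 2‖ ≤ ∑ k, ∑ l, ‖G (E.H x) z k l‖ ^ 2 :=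
    (norm_sum_le _ _).trans (sum_le_sum fun k _ => by
      rw [norm_mul, norm_pow, Complex.norm_real]
      exact (mul_le_of_le_one_left (by positivity) (E.d_le k)).trans
        (single_le_sum (f := fun l => ‖G (E.H x) z k l‖ ^ 2) (fun _ _ => by positivity) (mem_univ k)))
  rw [norm_mul, Complex.norm_two]
  linarith

end det

/-! ### norms of the data in terms of entry bounds -/

section norms
variable (E : Ens n) (z : ℂ) (a : E.ι) (x : E.ι → ℝ) {B g s ζ : ℝ}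

theorem nf (h : ‖G (E.H x) z (E.i a) (E.j a)‖ ≤ g) : ‖(pD E z).f a x‖ ≤ |E.c a| / n * (2 * g) := by
  simp only [pD, norm_mul, norm_div, Complex.norm_natCast, Complex.norm_real, Complex.norm_two,
    Real.norm_eq_abs]
  exact (mul_le_mul_of_nonneg_left h (by positivity)).trans_eq (by ring)

theorem nf1 (h1 : ‖G (E.H x) z (E.i a) (E.i a)‖ ≤ B) (h2 : ‖G (E.H x) z (E.j a) (E.j a)‖ ≤ B)
    (h3 : ‖G (E.H x) z (E.i a) (E.j a)‖ ≤ B) : ‖(pD E z).f1 a x‖ ≤ |E.c a| ^ 2 / n * (4 * B ^ 2) := by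
  have B0 := (norm_nonneg _).trans h1
  simp only [pD, norm_mul, norm_div, Complex.norm_natCast, Complex.norm_real, Complex.norm_two,
    Real.norm_eq_abs, norm_neg, norm_pow]
  refine (mul_le_mul_of_nonneg_left ((norm_add_le _ _).trans (?_ : _ ≤ B * B + B ^ 2))
    (by positivity)).trans_eq (by ring)
  rw [norm_mul, norm_pow]
  gcongr

theorem nf2 (h1 : ‖G (E.H x) z (E.i a) (E.i a)‖ ≤ B) (h2 : ‖G (E.H x) z (E.j a) (E.j a)‖ ≤ B)
    (h3 : ‖G (E.H x) z (E.i a) (E.j a)‖ ≤ B) (h : ‖G (E.H x) z (E.i a) (E.j a)‖ ≤ g) :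
    ‖(pD E z).f2 a x‖ ≤ |E.c a| ^ 3 / n * (16 * B ^ 2 * g) := by
  have B0 := (norm_nonneg _).trans h1
  have g0 := (norm_nonneg _).trans h
  simp only [pD, norm_mul, norm_div, Complex.norm_natCast, Complex.norm_real, Complex.norm_ofNat,
    Real.norm_eq_abs, norm_pow]
  refine (mul_le_mul_of_nonneg_left (mul_le_mul h ((norm_add_le _ _).trans
    (?_ : _ ≤ 3 * (B * B) + B ^ 2)) (norm_nonneg _) g0) (by positivity)).trans_eq (by ring)
  rw [norm_mul, norm_mul, norm_pow, Complex.norm_ofNat]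
  gcongr

theorem ndm (h : ‖S (E.H x) z (E.i a) (E.j a) / n‖ ≤ s) :
    ‖dm (E.H x) z (E.c a) (E.i a) (E.j a)‖ ≤ |E.c a| * (2 * s) := by
  simp only [dm, norm_mul, Complex.norm_real, Complex.norm_two, Real.norm_eq_abs, norm_neg]
  exact (mul_le_mul_of_nonneg_left h (by positivity)).trans_eq (by ring)

theorem nX1 (hζ : ‖z + 2 * st (E.H x) z‖ ≤ ζ) (h : ‖S (E.H x) z (E.i a) (E.j a) / n‖ ≤ s) :
    ‖(pD E z).X1 a x‖ ≤ |E.c a| * (2 * ζ * s) := by
  simp only [pD, norm_mul]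
  exact (mul_le_mul hζ (ndm E z a x h) (norm_nonneg _) ((norm_nonneg _).trans hζ)).trans_eq (by ring)

theorem nX2 (hζ : ‖z + 2 * st (E.H x) z‖ ≤ ζ) (h1 : ‖G (E.H x) z (E.i a) (E.i a)‖ ≤ B)
    (h2 : ‖G (E.H x) z (E.j a) (E.j a)‖ ≤ B) (h3 : ‖G (E.H x) z (E.i a) (E.j a)‖ ≤ B)
    (s1 : ‖S (E.H x) z (E.i a) (E.i a) / n‖ ≤ s) (s2 : ‖S (E.H x) z (E.j a) (E.j a) / n‖ ≤ s)
    (s3 : ‖S (E.H x) z (E.i a) (E.j a) / n‖ ≤ s) :
    ‖(pD E z).X2 a x‖ ≤ |E.c a| ^ 2 * (8 * ζ * B * s + 8 * s ^ 2) := by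
  have B0 := (norm_nonneg _).trans h1
  have s0 := (norm_nonneg _).trans s1
  have ζ0 := (norm_nonneg _).trans hζ
  have h4 : ‖d2m (E.H x) z (E.c a) (E.i a) (E.j a)‖ ≤ 2 * |E.c a| ^ 2 * (B * s + 2 * B * s + B * s) := by
    simp only [d2m, norm_mul, Complex.norm_real, Complex.norm_two, Real.norm_eq_abs, norm_pow]
    refine mul_le_mul_of_nonneg_left (norm_add₃_le.trans ?_) (by positivity)
    simp only [norm_mul, Complex.norm_two]
    gcongr
  refine (norm_add_le _ _).trans ?_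
  rw [norm_mul, norm_mul, norm_pow, Complex.norm_two]
  refine (add_le_add (mul_le_mul hζ h4 (norm_nonneg _) ζ0) (mul_le_mul_of_nonneg_left
    (pow_le_pow_left₀ (norm_nonneg _) (ndm E z a x s3) 2) two_pos.le)).trans_eq (by ring)

theorem abs_c_le : |E.c a| ≤ √(1 / n) := Real.abs_le_sqrt (E.c_sq a)

end norms

theorem ok (R : ResApi) (E : Ens n) {z : ℂ} (hn : 1 ≤ n) (h1 : 1 / (n : ℝ) ≤ z.im) (h2 : ‖z‖ ≤ n) :
    (pD E z).Ok (4752 * (n : ℝ) ^ 7) := by
  have n1 : (1 : ℝ) ≤ n := by exact_mod_cast hn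
  have hz : 0 < z.im := lt_of_lt_of_le (by positivity) h1
  have hG : ∀ x k l, ‖G (E.H x) z k l‖ ≤ n := fun x k l =>
    (R.bound (R.herm E x) hz _ _ (by simp [ee]) (by simp [ee])).trans
      ((one_div_le hz (by positivity)).2 h1)
  have q1 : qq n z ≤ 1 := by
    rw [qq, div_le_one (by positivity)]; rwa [div_le_iff₀' (by positivity)] at h1
  have hS : ∀ x k l, ‖S (E.H x) z k l / n‖ ≤ n := fun x k l =>
    (S_le R (R.herm E x) hz (hG x k k) (hG x l l)).trans (mul_le_of_le_one_right (by positivity) q1)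
  have hm := fun x => st_le R hn fun k => hG x k k
  have hζ : ∀ x, ‖z + 2 * st (E.H x) z‖ ≤ 3 * n := fun x => (norm_add_le _ _).trans (by
    rw [norm_mul, Complex.norm_two]; linarith [hm x])
  have hc : ∀ a, |E.c a| ≤ 1 := fun a => (abs_c_le E a).trans
    (Real.sqrt_le_one.2 ((div_le_one (by positivity)).2 n1))
  have hc' : ∀ a (k : ℕ), |E.c a| ^ k / n ≤ 1 := fun a k =>
    (div_le_one (by positivity)).2 ((pow_le_one₀ (abs_nonneg _) (hc a)).trans n1)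
  have p : ∀ k ≤ 7, (n : ℝ) ^ k ≤ n ^ 7 := fun k hk => pow_le_pow_right₀ n1 hk
  have mG := measG R E z
  have ms : Measurable fun x => st (E.H x) z := by simp only [st_eq R]; fun_prop
  have sy := fun x => G_symm R (R.herm E x) z
  refine ⟨fun x => eq_X R E x hz hn, by simp only [pD, PP]; fun_prop, by simp only [pD]; fun_prop,
    fun a => by simp only [pD]; fun_prop, fun a => by simp only [pD]; fun_prop,
    fun a => by simp only [pD, dm, S]; fun_prop, fun a x t => ?_, fun a x t => ?_, fun a x t => ?_,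
    fun a x t => ?_, fun x => ?_, fun x => ?_, fun a x => ?_, fun a x => ?_, fun a x => ?_,
    fun a x => ?_, fun a x => ?_⟩
  · exact ((dG R E x a hz t _ _).const_mul _).congr_deriv (by simp only [pD]; ring)
  · refine ((((dG R E x a hz t _ _).mul (dG R E x a hz t _ _)).add
      ((dG R E x a hz t _ _).pow 2)).const_mul _).congr_deriv ?_
    simp only [pD, sy _ (E.j a) (E.i a)]
    push_cast
    ring
  · refine ((((dst R E x a hz t).const_mul z).const_add 1).add ((dst R E x a hz t).pow 2)).congr_deriv ?_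
    simp only [pD]
    push_cast
    ring
  · exact ((((dst R E x a hz t).const_mul 2).const_add z).mul (ddm R E x a hz t)).congr_deriv
      (by simp only [pD]; ring)
  · refine norm_add₃_le.trans ?_
    rw [norm_mul, norm_pow, norm_one]
    nlinarith [mul_le_mul h2 (hm x) (norm_nonneg _) n.cast_nonneg, p 2 (by norm_num),
      pow_le_pow_left₀ (norm_nonneg _) (hm x) 2]
  · simp only [pD, norm_pow]
    nlinarith [p 2 (by norm_num), pow_le_pow_left₀ (norm_nonneg _) (hm x) 2]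
  · refine (nf E z a x (hG x _ _)).trans ((mul_le_of_le_one_left (by positivity)
      (by simpa using hc' a 1)).trans ?_)
    nlinarith [p 1 (by norm_num)]
  · refine (nf1 E z a x (hG x _ _) (hG x _ _) (hG x _ _)).trans ((mul_le_of_le_one_left
      (by positivity) (hc' a 2)).trans ?_)
    nlinarith [p 2 (by norm_num)]
  · refine (nf2 E z a x (hG x _ _) (hG x _ _) (hG x _ _) (hG x _ _)).trans ((mul_le_of_le_one_left
      (by positivity) (hc' a 3)).trans ?_)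
    nlinarith [p 3 (by norm_num)]
  · refine (nX1 E z a x (hζ x) (hS x _ _)).trans ((mul_le_of_le_one_left (by positivity) (hc a)).trans ?_)
    nlinarith [p 2 (by norm_num)]
  · refine (nX2 E z a x (hζ x) (hG x _ _) (hG x _ _) (hG x _ _) (hS x _ _) (hS x _ _) (hS x _ _)).trans
      ((mul_le_of_le_one_left (by positivity) (pow_le_one₀ (abs_nonneg _) (hc a))).trans ?_)
    nlinarith [p 2 (by norm_num), p 3 (by norm_num)]

/-! ### the pointwise conditions -/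

/-- the normalised double sum -/
def av (F : Fin n → Fin n → ℝ) : ℝ := (∑ k, ∑ l, F k l) / (n : ℝ) ^ 2

theorem av_nonneg {F : Fin n → Fin n → ℝ} (h : ∀ k l, 0 ≤ F k l) : 0 ≤ av F :=
  div_nonneg (sum_nonneg fun k _ => sum_nonneg fun l _ => h k l) (sq_nonneg _)

theorem av_mono {F F' : Fin n → Fin n → ℝ} (h : ∀ k l, F k l ≤ F' k l) : av F ≤ av F' :=
  div_le_div_of_nonneg_right (sum_le_sum fun k _ => sum_le_sum fun l _ => h k l) (sq_nonneg _)

theorem av_const_mul (c : ℝ) (F : Fin n → Fin n → ℝ) : av (fun k l => c * F k l) = c * av F := by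
  simp only [av, ← mul_sum, mul_div_assoc]

theorem av_add_const (hn : 1 ≤ n) (c : ℝ) (F : Fin n → Fin n → ℝ) :
    av (fun k l => F k l + c) = av F + c := by
  have : (n : ℝ) ≠ 0 := by positivity
  simp only [av, sum_add_distrib, sum_const, card_univ, Fintype.card_fin, nsmul_eq_mul]
  field_simp

theorem av_mul_sq (F F' : Fin n → Fin n → ℝ) :
    av (fun k l => F k l * F' k l) ^ 2 ≤ av (fun k l => F k l ^ 2) * av fun k l => F' k l ^ 2 := by
  simp only [av, ← Fintype.sum_prod_type', div_pow, div_mul_div_comm, ← sq]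
  exact div_le_div_of_nonneg_right (sum_mul_sq_le_sq_mul_sq _ _ _) (sq_nonneg _)

theorem av_sq (hn : 1 ≤ n) (F : Fin n → Fin n → ℝ) : av F ^ 2 ≤ av fun k l => F k l ^ 2 := by
  have h := av_add_const hn 1 fun _ _ => 0
  have := av_mul_sq F fun _ _ => 1
  simp only [zero_add, mul_one, one_pow] at h this
  rwa [h, show av (fun _ _ : Fin n => (0 : ℝ)) = 0 by simp [av], zero_add, mul_one] at this

theorem av_add_sq (hn : 1 ≤ n) (c : ℝ) (F : Fin n → Fin n → ℝ) :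
    av (fun k l => (F k l + c) ^ 2) ≤ 2 * (av (fun k l => F k l ^ 2) + c ^ 2) := by
  rw [← av_add_const hn, ← av_const_mul]
  exact av_mono fun k l => by nlinarith [sq_nonneg (F k l - c)]

theorem sum2 (R : ResApi) (E : Ens n) {F : Fin n → Fin n → ℝ} (h : ∀ k l, 0 ≤ F k l) :
    ∑ a, |E.c a| ^ 2 / n * F (E.i a) (E.j a) ≤ 2 * av F := by
  simp only [sq_abs, div_mul_eq_mul_div, ← sum_div]
  rw [av, sq (n : ℝ), ← div_div, ← mul_div_assoc, ← mul_div_assoc]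
  refine div_le_div_of_nonneg_right (le_trans (sum_le_sum fun a _ => ?_) (R.cov_le E F h)) n.cast_nonneg
  exact mul_le_mul_of_nonneg_left (le_add_of_nonneg_right (h _ _)) (sq_nonneg _)

theorem sum3 (R : ResApi) (E : Ens n) {F : Fin n → Fin n → ℝ} (h : ∀ k l, 0 ≤ F k l) {x : E.ι → ℝ}
    {W : ℝ} (hW : 1 ≤ W) (hx : ∀ a, |x a| ≤ W) :
    ∑ a, wt (x a) * (|E.c a| ^ 3 / n * F (E.i a) (E.j a)) ≤ 4 * W ^ 3 * (√(1 / n) * av F) := by
  refine (sum_le_sum (g := fun a => 2 * W ^ 3 * √(1 / n) * (|E.c a| ^ 2 / n * F (E.i a) (E.j a)))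
    fun a _ => ?_).trans ?_
  · have h1 : wt (x a) ≤ 2 * W ^ 3 := by
      have := pow_le_pow_left₀ (abs_nonneg _) (hx a) 3
      have := le_self_pow₀ hW three_ne_zero
      rw [wt]; linarith [hx a]
    have := h (E.i a) (E.j a)
    rw [mul_assoc (2 * W ^ 3), pow_succ' _ 2, mul_div_assoc, mul_assoc |E.c a|]
    gcongr
    exact abs_c_le E a
  · rw [← mul_sum]
    exact (mul_le_mul_of_nonneg_left (sum2 R E h) (by positivity)).trans_eq (by ring)

set_option maxHeartbeats 400000 in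
theorem cond1 (R : ResApi) (E : Ens n) {z : ℂ} (hn : 1 ≤ n) (h1 : 1 / (n : ℝ) ≤ z.im) (x : E.ι → ℝ)
    {W Γ : ℝ} (hW : 1 ≤ W) (hΓ : 1 ≤ Γ) (hzΓ : ‖z‖ ≤ Γ) (hx : ∀ a, |x a| ≤ W)
    (hWΓ : 8 * W * Γ ≤ √(n : ℝ)) (hG : ∀ k l, ‖G (E.H x) z k l‖ ≤ Γ) :
    (pD E z).Cond1 (4752 * (W * Γ) ^ 7 * phi1 n z (st (E.H x) z)) x := by
  have n1 : (1 : ℝ) ≤ n := by exact_mod_cast hn
  have hz : 0 < z.im := lt_of_lt_of_le (by positivity) h1
  have hA := R.herm E x
  obtain ⟨φ, hφ⟩ : ∃ φ, φ = phi1 n z (st (E.H x) z) := ⟨_, rfl⟩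
  obtain ⟨q, hq⟩ : ∃ q, q = qq n z := ⟨_, rfl⟩
  obtain ⟨ν, hν⟩ : ∃ ν, ν = √(1 / n : ℝ) := ⟨_, rfl⟩
  obtain ⟨ζ, hζ⟩ : ∃ ζ, ζ = ‖z + 2 * st (E.H x) z‖ + q := ⟨_, rfl⟩
  obtain ⟨t2, ht2⟩ : ∃ t, t = q * (st (E.H x) z).im := ⟨_, rfl⟩
  obtain ⟨P, hP⟩ : ∃ P, P = W * Γ := ⟨_, rfl⟩
  rw [← hφ, ← hP]
  have q0 : 0 < q := by rw [hq, qq]; positivity
  have q1 : q ≤ 1 := by
    rw [hq, qq, div_le_one (by positivity)]; rwa [div_le_iff₀' (by positivity)] at h1
  have ν0 : 0 < ν := by rw [hν]; positivity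
  have ν2 : ν ^ 2 = 1 / n := hν ▸ Real.sq_sqrt (by positivity)
  have ν1 : ν ≤ 1 := hν ▸ Real.sqrt_le_one.2 ((div_le_one (by positivity)).2 n1)
  have hm := st_le R hn fun k => hG k k
  have ζq : q ≤ ζ := hζ ▸ le_add_of_nonneg_left (norm_nonneg _)
  have ζ0 := q0.le.trans ζq
  have ζ4 : ζ ≤ 4 * Γ := by
    have := norm_add_le z (2 * st (E.H x) z)
    rw [norm_mul, Complex.norm_two] at this
    linarith
  have g2 : av (fun k l => ‖G (E.H x) z k l‖ ^ 2) = t2 := by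
    rw [ht2, hq]; exact ward_sum R hA hz hn
  have t0 : 0 ≤ t2 := g2 ▸ av_nonneg fun _ _ => sq_nonneg _
  have θ2 : t2 + ν ^ 2 ≤ 2 * (q * Γ) := by
    have h2 : t2 ≤ q * Γ := ht2 ▸ mul_le_mul_of_nonneg_left
      (((le_abs_self _).trans (Complex.abs_im_le_norm _)).trans hm) q0.le
    have h3 : ν ^ 2 = q * z.im := by rw [ν2, hq, qq]; field_simp
    have h4 := mul_le_mul_of_nonneg_left
      (((le_abs_self _).trans (Complex.abs_im_le_norm z)).trans hzΓ) q0.le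
    linarith
  have φ0 : 0 ≤ φ := hφ ▸ Real.sqrt_nonneg _
  have φ2 : φ ^ 2 = ζ * q * (t2 + ν ^ 2) + t2 ^ 2 + q * ν ^ 2 := by
    rw [ν2, mul_one_div, hφ, phi1, ← hq, ← hζ, ← ht2]; exact Real.sq_sqrt (by positivity)
  have φA : ζ * q * (t2 + ν ^ 2) ≤ φ ^ 2 := by
    linarith [mul_nonneg q0.le (sq_nonneg ν), sq_nonneg t2]
  have φκ : q * ν ^ 2 ≤ φ ^ 2 := by
    linarith [show 0 ≤ ζ * q * (t2 + ν ^ 2) by positivity, sq_nonneg t2]
  have φt : t2 ≤ φ := (abs_le_of_sq_le_sq' (by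
    rw [φ2]; linarith [show 0 ≤ ζ * q * (t2 + ν ^ 2) by positivity, mul_nonneg q0.le (sq_nonneg ν)]) φ0).2
  have φν : ν * q ≤ φ := (abs_le_of_sq_le_sq' (by
    linarith [mul_le_mul_of_nonneg_left q1 (mul_nonneg q0.le (sq_nonneg ν))]) φ0).2
  have P1 : 1 ≤ P := hP ▸ one_le_mul_of_one_le_of_one_le hW hΓ
  have ΓP : Γ ≤ P := hP ▸ le_mul_of_one_le_left (by linarith) hW
  have WP : W ^ 3 * Γ ^ 2 ≤ P ^ 3 := by
    rw [hP, mul_pow]; exact mul_le_mul_of_nonneg_left (pow_le_pow_right₀ hΓ (by norm_num)) (by positivity)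
  have WP1 : W ^ 3 * Γ ≤ P ^ 3 :=
    (mul_le_mul_of_nonneg_left (le_self_pow₀ hΓ two_ne_zero) (by positivity)).trans WP
  obtain ⟨g, hg⟩ : ∃ g : Fin n → Fin n → ℝ, ∀ k l, g k l = ‖G (E.H x) z k l‖ + ν := ⟨_, fun _ _ => rfl⟩
  obtain ⟨h, hh⟩ : ∃ h : Fin n → Fin n → ℝ, ∀ k l, h k l = ‖S (E.H x) z k l / n‖ + q * ν :=
    ⟨_, fun _ _ => rfl⟩
  have g0 : ∀ k l, 0 ≤ g k l := fun k l => by rw [hg]; positivity
  have h0 : ∀ k l, 0 ≤ h k l := fun k l => by rw [hh]; positivity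
  have hg2 : av (fun k l => g k l ^ 2) ≤ 2 * (t2 + ν ^ 2) := by
    simp only [hg, ← g2]; exact av_add_sq hn ν _
  have hh2 : av (fun k l => h k l ^ 2) ≤ 2 * (q ^ 2 * (t2 + ν ^ 2)) := by
    simp only [hh]
    refine (av_add_sq hn _ _).trans ?_
    rw [mul_add (q ^ 2), mul_pow]
    gcongr
    simp only [av, norm_div, div_pow, ← sum_div, Complex.norm_natCast]
    refine (div_le_div_of_nonneg_right (div_le_div_of_nonneg_right (R.ward2 hA hz) (sq_nonneg _))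
      (sq_nonneg _)).trans_eq ?_
    rw [ht2, hq, qq]
    field_simp
  have hle : ∀ k l, h k l ≤ 2 * Γ * q := fun k l => by
    have := hq ▸ S_le R hA hz (hG k k) (hG l l)
    simp only [hh]
    linarith [mul_le_mul_of_nonneg_left (ν1.trans hΓ) q0.le]
  have mgh : ζ * av (fun k l => g k l * h k l) ≤ 2 * φ ^ 2 := by
    have : av (fun k l => g k l * h k l) ≤ 2 * (q * (t2 + ν ^ 2)) := (abs_le_of_sq_le_sq'
      ((av_mul_sq g h).trans ((mul_le_mul hg2 hh2 (av_nonneg fun _ _ => sq_nonneg _)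
        (by positivity)).trans_eq (by ring))) (by positivity)).2
    linarith [mul_le_mul_of_nonneg_left this ζ0]
  have mg : ν * av g ≤ 2 * Γ * φ := by
    refine (abs_le_of_sq_le_sq' ?_ (by positivity)).2
    have := mul_le_mul_of_nonneg_left (((av_sq hn g).trans hg2).trans
      (mul_le_mul_of_nonneg_left θ2 two_pos.le)) (sq_nonneg ν)
    linarith [mul_le_mul φκ (le_self_pow₀ hΓ two_ne_zero) (by linarith) (sq_nonneg φ)]
  have key : ∀ y : ℝ, y ^ 2 ≤ 2 * (q ^ 2 * (t2 + ν ^ 2)) → ζ * (ν * y) ≤ 3 * Γ * φ ^ 2 := fun y hy => by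
    refine (abs_le_of_sq_le_sq' ?_ (by positivity)).2
    have h2 := mul_le_mul_of_nonneg_left hy (show 0 ≤ ζ ^ 2 * ν ^ 2 by positivity)
    have h3 := mul_le_mul (mul_le_mul φA φκ (by positivity) (sq_nonneg _))
      (ζ4.trans (mul_le_mul_of_nonneg_left (le_self_pow₀ hΓ two_ne_zero) (by norm_num))) ζ0
      (by positivity)
    linarith [show 0 ≤ Γ ^ 2 * φ ^ 4 by positivity]
  have mh := key (av h) ((av_sq hn h).trans hh2)
  have mg' := key (q * av g) (by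
    rw [mul_pow]
    exact (mul_le_mul_of_nonneg_left ((av_sq hn g).trans hg2) (sq_nonneg q)).trans_eq (by ring))
  obtain ⟨L, hL⟩ : ∃ L, L = 432 * P ^ 4 := ⟨_, rfl⟩
  have L00 : 0 ≤ L := by rw [hL]; positivity
  have L0 : 1 ≤ P ^ 4 := one_le_pow₀ P1
  have L1 : P * Γ ≤ P ^ 4 := by
    linarith [mul_le_mul_of_nonneg_left ΓP (zero_le_one.trans P1),
      pow_le_pow_right₀ P1 (show 2 ≤ 4 by norm_num)]
  have L2 : Γ ^ 2 ≤ P ^ 4 := (pow_le_pow_left₀ (by linarith) ΓP 2).trans (pow_le_pow_right₀ P1 (by norm_num))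
  have L3 : Γ ^ 2 * (P * Γ) ≤ P ^ 4 := by
    linarith [mul_le_mul_of_nonneg_left (pow_le_pow_left₀ (by linarith) ΓP 3) (zero_le_one.trans P1)]
  have eφ : 4752 * P ^ 7 * φ = 11 * P ^ 3 * (L * φ) := by rw [hL]; ring
  have P3 : 1 ≤ P ^ 3 := one_le_pow₀ P1
  have Lφ : 432 * P ^ 2 * φ ≤ L * φ := by rw [hL]; gcongr; norm_num
  have Lφ0 : 0 ≤ L * φ := by positivity
  have line : ∀ a, ∀ t ∈ Set.uIcc 0 (x a),
      ‖(pD E z).f a (update x a t)‖ ≤ |E.c a| / n * (L * g (E.i a) (E.j a)) ∧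
      ‖(pD E z).f1 a (update x a t)‖ ≤ |E.c a| ^ 2 / n * L ∧
      ‖(pD E z).f2 a (update x a t)‖ ≤ |E.c a| ^ 3 / n * (L * g (E.i a) (E.j a)) ∧
      ‖(pD E z).X1 a (update x a t)‖ ≤ |E.c a| * (L * ζ * h (E.i a) (E.j a)) ∧
      ‖(pD E z).X2 a (update x a t)‖ ≤ |E.c a| ^ 2 * (L * ζ * q) ∧
      ‖(pD E z).X (update x a t) - (pD E z).X x‖ ≤ 4752 * P ^ 7 * φ := fun a t ht => by
    have hA' := R.herm E (update x a t)
    have e := R.upd E x a t
    have τ1 : |(t - x a) * E.c a| * Γ ≤ P * ν := by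
      rw [abs_mul, hP, mul_right_comm W, hν]
      have := (Set.abs_sub_right_of_mem_uIcc ht).trans_eq (congrArg _ (sub_zero _))
      rw [abs_sub_comm] at this
      gcongr
      exacts [this.trans (hx a), abs_c_le E a]
    have τ2 : P * ν ≤ 1 / 8 := by
      rw [hν, Real.sqrt_div' _ n.cast_nonneg, Real.sqrt_one, mul_one_div, div_le_iff₀ (by positivity)]
      linarith
    have hτ := τ1.trans τ2
    have b1 := e ▸ Gi_le R hA hz hG hτ (i := E.i a) (j := E.j a) (E.i a)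
    have b2 := e ▸ Gj_le R hA hz hG hτ (i := E.i a) (j := E.j a) (E.j a)
    have b3 := e ▸ Gj_le R hA hz hG hτ (i := E.i a) (j := E.j a) (E.i a)
    have PΓ : 1 ≤ P * Γ := one_le_mul_of_one_le_of_one_le P1 hΓ
    have b4 : ‖G (E.H (update x a t)) z (E.i a) (E.j a)‖ ≤ 3 * (P * Γ) * g (E.i a) (E.j a) := by
      have := e ▸ Gij_le R hA hz hG hτ (i := E.i a) (j := E.j a)
      simp only [hg]
      linarith [mul_le_mul_of_nonneg_right τ1 (show 0 ≤ 3 * Γ by positivity),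
        mul_le_mul_of_nonneg_right PΓ (norm_nonneg (G (E.H x) z (E.i a) (E.j a))),
        norm_nonneg (G (E.H x) z (E.i a) (E.j a))]
    have b5 : ‖S (E.H (update x a t)) z (E.i a) (E.j a) / n‖ ≤ 12 * (P * Γ) * h (E.i a) (E.j a) := by
      have := hq ▸ e ▸ Sij_le R hA (e ▸ hA') hz hG hτ (i := E.i a) (j := E.j a)
      simp only [hh]
      linarith [mul_le_mul_of_nonneg_right τ1 (show 0 ≤ 12 * Γ * q by positivity),
        mul_le_mul_of_nonneg_right PΓ (norm_nonneg (S (E.H x) z (E.i a) (E.j a) / n)),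
        norm_nonneg (S (E.H x) z (E.i a) (E.j a) / n)]
    have b6 : ‖st (E.H (update x a t)) z - st (E.H x) z‖ ≤ 6 * (P * ν) * q := by
      have := hq ▸ e ▸ st_diff R hA (e ▸ hA') hz hG hτ (i := E.i a) (j := E.j a)
      linarith [mul_le_mul_of_nonneg_right τ1 (show 0 ≤ 6 * q by positivity)]
    have b7 : ‖st (E.H (update x a t)) z - st (E.H x) z‖ ≤ q := by
      linarith [mul_le_mul_of_nonneg_right τ2 q0.le]
    have b8 : ‖z + 2 * st (E.H (update x a t)) z‖ ≤ 2 * ζ := by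
      have := norm_add_le (z + 2 * st (E.H x) z) (2 * (st (E.H (update x a t)) z - st (E.H x) z))
      rw [norm_mul, Complex.norm_two, show z + 2 * st (E.H x) z + 2 * (st (E.H (update x a t)) z -
        st (E.H x) z) = z + 2 * st (E.H (update x a t)) z by ring] at this
      linarith [norm_nonneg (z + 2 * st (E.H x) z)]
    have g1 := g0 (E.i a) (E.j a)
    have h1 := h0 (E.i a) (E.j a)
    subst hL
    refine ⟨(nf E z a _ b4).trans (mul_le_mul_of_nonneg_left ?_ (by positivity)),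
      (nf1 E z a _ b1 b2 b3).trans (mul_le_mul_of_nonneg_left ?_ (by positivity)),
      (nf2 E z a _ b1 b2 b3 b4).trans (mul_le_mul_of_nonneg_left ?_ (by positivity)),
      (nX1 E z a _ b8 b5).trans (mul_le_mul_of_nonneg_left ?_ (by positivity)),
      (nX2 E z a _ b8 b1 b2 b3 (hq ▸ S_le R hA' hz b1 b1) (hq ▸ S_le R hA' hz b2 b2)
        (hq ▸ S_le R hA' hz b1 b2)).trans (mul_le_mul_of_nonneg_left ?_ (by positivity)), ?_⟩
    · linarith [mul_le_mul_of_nonneg_right L1 g1, mul_nonneg (zero_le_one.trans L0) g1]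
    · linarith
    · linarith [mul_le_mul_of_nonneg_right L3 g1]
    · linarith [mul_le_mul_of_nonneg_right L1 (mul_nonneg ζ0 h1),
        mul_nonneg (zero_le_one.trans L0) (mul_nonneg ζ0 h1)]
    · linarith [mul_le_mul_of_nonneg_right L2 (mul_nonneg ζ0 q0.le),
        mul_nonneg (zero_le_one.trans L0) (mul_nonneg ζ0 q0.le),
        mul_le_mul_of_nonneg_left ζq (show 0 ≤ Γ ^ 2 * q by positivity)]
    · have e2 : (pD E z).X (update x a t) - (pD E z).X x = (st (E.H (update x a t)) z - st (E.H x) z) *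
          (z + 2 * st (E.H x) z + (st (E.H (update x a t)) z - st (E.H x) z)) := by
        simp only [pD, PP]; ring
      rw [e2, norm_mul, eφ]
      refine (mul_le_mul b6 (((norm_add_le _ _).trans (add_le_add le_rfl b7)).trans (hζ.ge.trans <| ζ4.trans
        (mul_le_mul_of_nonneg_left ΓP (by norm_num)))) (norm_nonneg _) (by positivity)).trans ?_
      linarith [mul_le_mul_of_nonneg_left φν (sq_nonneg P), mul_le_mul_of_nonneg_right P3 Lφ0,
        mul_nonneg (sq_nonneg P) φ0]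
  refine ⟨_, _, _, _, _, line, ?_, ?_, ?_⟩
  · have h2 := first_order R E x hz hn
    rw [← hq, ← ht2] at h2
    have h3 := sum3 R E (F := fun k l => L * g k l) (fun k l => by have := g0 k l; positivity) hW hx
    rw [av_const_mul, ← hν] at h3
    rw [eφ]
    linarith [mul_le_mul_of_nonneg_left mg (show 0 ≤ W ^ 3 * L by positivity),
      mul_le_mul_of_nonneg_right WP1 Lφ0, mul_le_mul_of_nonneg_right P3 Lφ0,
      mul_le_mul_of_nonneg_right (one_le_pow₀ (n := 2) P1) φ0]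
  · have h2 : ∑ a, ‖(pD E z).f a x‖ * ‖(pD E z).X1 a x‖ ≤ 4 * (L * φ) ^ 2 := by
      have h3 := sum2 R E (F := fun k l => L ^ 2 * ζ * (g k l * h k l)) fun k l => by
        have := g0 k l; have := h0 k l; positivity
      rw [av_const_mul] at h3
      refine (sum_le_sum fun a _ => ?_).trans (h3.trans (by
        linarith [mul_le_mul_of_nonneg_left mgh (sq_nonneg L)]))
      have := line a (x a) Set.right_mem_uIcc
      rw [update_eq_self] at this
      exact (mul_le_mul this.1 this.2.2.2.1 (norm_nonneg _)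
        ((norm_nonneg _).trans this.1)).trans_eq (by ring)
    have h3 := (norm_sum_le univ fun a => (pD E z).f a x * (pD E z).X1 a x).trans
      ((sum_congr rfl fun a _ => norm_mul _ _).trans_le h2)
    have h4 := (norm_sum_le univ fun a => (pD E z).f a x * (starRingEnd ℂ) ((pD E z).X1 a x)).trans
      ((sum_congr rfl fun a _ => by rw [norm_mul, Complex.norm_conj]).trans_le h2)
    have h5 := sum3 R E (F := fun k l => L ^ 2 * ζ * h k l) (fun k l => by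
      have := h0 k l; positivity) hW hx
    have h6 := sum3 R E (F := fun k l => L ^ 2 * ζ * q * g k l) (fun k l => by
      have := g0 k l; positivity) hW hx
    rw [av_const_mul, ← hν] at h5 h6
    have h7 := add_le_add h5 h6
    rw [← sum_add_distrib] at h7
    refine (add_le_add (add_le_add h3 h4) ((sum_congr rfl fun a _ => by ring).trans_le h7)).trans ?_
    rw [eφ]
    have h8 := mul_le_mul_of_nonneg_right (WP1.trans (le_self_pow₀ P3 two_ne_zero)) (sq_nonneg (L * φ))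
    linarith [mul_le_mul_of_nonneg_left (add_le_add mh mg') (show 0 ≤ W ^ 3 * L ^ 2 by positivity),
      mul_le_mul_of_nonneg_right (one_le_pow₀ (n := 2) P3) (sq_nonneg (L * φ)), sq_nonneg (L * φ)]
  · have h5 := sum3 R E (F := fun k l => L ^ 3 * ζ ^ 2 * (2 * Γ * q) * (g k l * h k l)) (fun k l => by
      have := g0 k l; have := h0 k l; positivity) hW hx
    rw [av_const_mul, ← hν] at h5
    refine (sum_le_sum fun a _ => ?_).trans (h5.trans ?_)
    · have := g0 (E.i a) (E.j a)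
      have := h0 (E.i a) (E.j a)
      refine mul_le_mul_of_nonneg_left (le_of_eq_of_le (b := |E.c a| ^ 3 / n * (L ^ 3 * ζ ^ 2 *
        h (E.i a) (E.j a) * (g (E.i a) (E.j a) * h (E.i a) (E.j a)))) (by ring) ?_) (by rw [wt]; positivity)
      gcongr
      exact hle _ _
    · have h6 := mul_le_mul (mul_le_mul mgh φν (by positivity) (by positivity)) ζ4 ζ0 (by positivity)
      have h7 := mul_le_mul_of_nonneg_right (WP.trans (le_self_pow₀ P3 three_ne_zero))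
        (pow_nonneg Lφ0 3)
      rw [eφ]
      linarith [mul_le_mul_of_nonneg_left h6 (show 0 ≤ W ^ 3 * L ^ 3 * Γ by positivity),
        mul_nonneg (pow_nonneg (zero_le_one.trans P3) 3) (pow_nonneg Lφ0 3)]

theorem pDet (R : ResApi) : PDetStmt :=
  ⟨4752, 7, by norm_num, fun _ E z hn h1 h2 => ⟨pD E z, rfl, ok R E hn h1 h2,
    fun x _ _ hW hΓ hz hx hWΓ hG => cond1 R E hn h1 x hW hΓ hz hx hWΓ hG⟩⟩

end Crest.Agent.T157.LlP
end
end

-- ▼ part T157/LlAvg_79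
section

/-!
# Row 157, part E: local law, the self-consistent equation and the averaged law (helper79)

* `pStmt : ResApi → MscApi → VhpApi → PDetStmt → PhiStmt → AprStmt → PStmt`;
* `avg : ResApi → MscApi → VhpApi → PStmt → AvgStmt`.
-/

set_option autoImplicit false

noncomputable section

namespace Crest.Agent.T157.Ll

open MeasureTheory ProbabilityTheory Matrix Filter Function
open Crest.ProbabilityR.SpinGlassDynamics Crest.Agent.T157.E Crest.Agent.T157.Eig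

namespace A79

lemma ok_mono {ι : Type} [Fintype ι] [DecidableEq ι] {D : MData ι} {B B' : ℝ} (h : D.Ok B)
    (hB : B ≤ B') : D.Ok B' :=
  { h with
    bX := fun x => (h.bX x).trans hB
    br := fun x => (h.br x).trans hB
    bf := fun a x => (h.bf a x).trans hB
    bf1 := fun a x => (h.bf1 a x).trans hB
    bf2 := fun a x => (h.bf2 a x).trans hB
    bX1 := fun a x => (h.bX1 a x).trans hB
    bX2 := fun a x => (h.bX2 a x).trans hB }

lemma ev_const_le (C e : ℝ) (he : 0 < e) : ∀ᶠ n : ℕ in atTop, C ≤ (n : ℝ) ^ e :=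
  ((tendsto_rpow_atTop he).comp tendsto_natCast_atTop_atTop).eventually_ge_atTop C

lemma ev_const_le_nat (C : ℝ) : ∀ᶠ n : ℕ in atTop, C ≤ (n : ℝ) :=
  tendsto_natCast_atTop_atTop.eventually_ge_atTop C

variable {n : ℕ}

lemma ee_dot (k : Fin n) : ee k ⬝ᵥ ee k ≤ 1 := by
  simp [ee]

lemma norm_st_le (R : ResApi) {A : Matrix (Fin n) (Fin n) ℝ} (hA : A.IsHermitian) {z : ℂ}
    (hz : 0 < z.im) : ‖st A z‖ ≤ 1 / z.im := by
  rw [R.st_eq, norm_div, Complex.norm_natCast]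
  rcases Nat.eq_zero_or_pos n with rfl | hn
  · simp; positivity
  have hn' : (0 : ℝ) < n := by exact_mod_cast hn
  rw [div_le_iff₀ hn']
  calc ‖∑ k, gb A z (ee k) (ee k)‖ ≤ ∑ k, ‖gb A z (ee k) (ee k)‖ := norm_sum_le _ _
    _ ≤ ∑ _k : Fin n, 1 / z.im :=
        Finset.sum_le_sum fun k _ => R.bound hA hz _ _ (ee_dot k) (ee_dot k)
    _ = 1 / z.im * n := by simp [mul_comm]

lemma st_im_nonneg (R : ResApi) {A : Matrix (Fin n) (Fin n) ℝ} (hA : A.IsHermitian) {z : ℂ}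
    (hz : 0 < z.im) : 0 ≤ (st A z).im := by
  rw [R.st_eq, Complex.div_natCast_im, Complex.im_sum]
  exact div_nonneg (Finset.sum_nonneg fun k _ => R.im_nonneg hA hz _) (Nat.cast_nonneg n)

lemma dom_im {K ε : ℝ} {z : ℂ} (hD : Dom K ε n z) (hn : 1 ≤ n) (hε : 0 < ε) :
    1 / (n : ℝ) ≤ z.im := by
  have hn' : (1 : ℝ) ≤ n := by exact_mod_cast hn
  refine le_trans ?_ hD.2.1
  rw [one_div, ← Real.rpow_neg_one]
  exact Real.rpow_le_rpow_of_exponent_le hn' (by linarith)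

lemma dom_pos {K ε : ℝ} {z : ℂ} (hD : Dom K ε n z) (hn : 1 ≤ n) (hε : 0 < ε) : 0 < z.im := by
  have hn' : (0 : ℝ) < n := by exact_mod_cast hn
  exact lt_of_lt_of_le (by positivity) (dom_im hD hn hε)

lemma dom_norm {K ε : ℝ} {z : ℂ} (hD : Dom K ε n z) : ‖z‖ ≤ 2 * |K| := by
  have h0 : (0 : ℝ) ≤ z.im := le_trans (Real.rpow_nonneg (Nat.cast_nonneg n) _) hD.2.1
  have h1 := Complex.norm_le_abs_re_add_abs_im z
  rw [abs_of_nonneg h0] at h1
  have h2 := le_abs_self K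
  linarith [hD.1, hD.2.2]

/-- the bound on `P` at a fixed spectral parameter -/
lemma pFixed (R : ResApi) (M : MscApi) (V : VhpApi) (hP : PDetStmt) (hF : PhiStmt) (hA : AprStmt)
    (K ε e : ℝ) (hε : 0 < ε) (he : 0 < e) :
    Vhp (Θ := fun _ => Unit × ℂ) fun n E θ x =>
      Dom K ε n θ.2 → ‖PP (E.H x) θ.2‖ ≤ (n : ℝ) ^ e * Phi n θ.2 := by
  obtain ⟨C, k, hC, hP⟩ := hP
  obtain ⟨C1, hC1, hF⟩ := hF (2 * |K|)
  obtain ⟨C2, hC2, hA⟩ := hA K ε hε
  set Γ : ℝ := C2 + 2 * |K| with hΓ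
  have hK0 : 0 ≤ |K| := abs_nonneg K
  have hΓ1 : 1 ≤ Γ := by linarith
  set δ : ℝ := min (1 / 4) (e / (4 * (k + 1))) with hδ
  have hδ0 : 0 < δ := lt_min (by norm_num) (by positivity)
  have hδ1 : δ ≤ 1 / 4 := min_le_left _ _
  have hδ2 : δ * (2 * k) ≤ e / 2 := by
    have h : δ ≤ e / (4 * (k + 1)) := min_le_right _ _
    rw [le_div_iff₀ (by positivity)] at h
    nlinarith
  have hG1 := V.comp (Θ' := fun _ => Unit × ℂ)
    (fun n _ => (((0 : Fin n → ℝ), (0 : Fin n → ℝ)) : (Fin n → ℝ) × (Fin n → ℝ))) hA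
  have hG := V.and hG1 (V.ent (Θ := fun _ => Unit × ℂ) δ hδ0)
  have hm := V.mom (Θ := fun _ => Unit × ℂ) (fun n E θ x => PP (E.H x) θ.2)
    (fun n θ => C ^ 2 * ((n : ℝ) ^ δ * Γ) ^ (2 * k) * C1 * Phi n θ.2)
    (fun n θ => Dom K ε n θ.2) (k + 2) hG ?_ (e / 4) (by positivity)
  · refine V.mono hm ?_
    filter_upwards [ev_const_le (C ^ 2 * Γ ^ (2 * k) * C1) (e / 4) (by positivity),
      eventually_ge_atTop 1, M.near K ε hε] with n h1 hn hnear E θ x h hD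
    have hn' : (1 : ℝ) ≤ n := by exact_mod_cast hn
    have hn0 : (0 : ℝ) < n := by linarith
    have hΦ : 0 ≤ Phi n θ.2 :=
      le_trans (by positivity) (hnear θ.2 θ.2 hD hD (by simp)).2.2.2.2.2.2.1
    refine (h hD).trans ?_
    rw [← mul_assoc]
    refine mul_le_mul_of_nonneg_right ?_ hΦ
    have h2 : ((n : ℝ) ^ δ) ^ (2 * k) ≤ (n : ℝ) ^ (e / 2) := by
      rw [← Real.rpow_natCast, ← Real.rpow_mul hn0.le]
      refine Real.rpow_le_rpow_of_exponent_le hn' ?_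
      push_cast; exact hδ2
    have h3 : (n : ℝ) ^ e = (n : ℝ) ^ (e / 4) * ((n : ℝ) ^ (e / 4) * (n : ℝ) ^ (e / 2)) := by
      rw [← Real.rpow_add hn0, ← Real.rpow_add hn0]; congr 1; ring
    rw [h3]
    refine mul_le_mul_of_nonneg_left ?_ (by positivity)
    calc C ^ 2 * ((n : ℝ) ^ δ * Γ) ^ (2 * k) * C1
        = (C ^ 2 * Γ ^ (2 * k) * C1) * ((n : ℝ) ^ δ) ^ (2 * k) := by rw [mul_pow]; ring
      _ ≤ (n : ℝ) ^ (e / 4) * (n : ℝ) ^ (e / 2) :=
          mul_le_mul h1 h2 (by positivity) (by positivity)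
  · filter_upwards [ev_const_le (8 * Γ) (1 / 4) (by norm_num), ev_const_le_nat C,
      ev_const_le_nat (2 * |K|), eventually_ge_atTop 1, M.near K ε hε]
      with n h1 h2 h3 hn hnear E θ hD
    have hn' : (1 : ℝ) ≤ n := by exact_mod_cast hn
    have hn0 : (0 : ℝ) < n := by linarith
    have hW : (1 : ℝ) ≤ (n : ℝ) ^ δ := Real.one_le_rpow hn' hδ0.le
    have hWΓ : (1 : ℝ) ≤ (n : ℝ) ^ δ * Γ := one_le_mul_of_one_le_of_one_le hW hΓ1
    have hL : (1 : ℝ) ≤ C ^ 2 * ((n : ℝ) ^ δ * Γ) ^ (2 * k) * C1 :=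
      one_le_mul_of_one_le_of_one_le
        (one_le_mul_of_one_le_of_one_le (one_le_pow₀ hC) (one_le_pow₀ hWΓ)) hC1
    have hΦ := (hnear θ.2 θ.2 hD hD (by simp)).2.2.2.2.2.2.1
    have hΦ0 : 0 ≤ Phi n θ.2 := le_trans (by positivity) hΦ
    have him := dom_im hD hn hε
    have hpos := dom_pos hD hn hε
    have hnorm := dom_norm hD
    refine ⟨?_, ?_⟩
    · calc 1 / (n : ℝ) ^ (k + 2) ≤ 1 / (n : ℝ) ^ 2 :=
            one_div_le_one_div_of_le (by positivity) (pow_le_pow_right₀ hn' (by omega))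
        _ ≤ Phi n θ.2 := hΦ
        _ ≤ _ := le_mul_of_one_le_left hΦ0 hL
    obtain ⟨D, hX, hOk, hD1⟩ := hP n E θ.2 hn him (hnorm.trans h3)
    refine ⟨D, hX, ok_mono hOk ?_, ?_⟩
    · calc C * (n : ℝ) ^ k ≤ n * (n : ℝ) ^ k := by gcongr
        _ = (n : ℝ) ^ (k + 1) := by ring
        _ ≤ _ := pow_le_pow_right₀ hn' (by omega)
    rintro x ⟨hx1, hx2⟩
    have hBd : Bd (E.H x) θ.2 C2 0 0 := hx1 (by simp) (by simp) θ.2 hD
    have h8 : 8 * (n : ℝ) ^ δ * Γ ≤ √(n : ℝ) := by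
      have h4 : (n : ℝ) ^ δ ≤ (n : ℝ) ^ (1 / 4 : ℝ) := Real.rpow_le_rpow_of_exponent_le hn' hδ1
      have h5 : √(n : ℝ) = (n : ℝ) ^ (1 / 4 : ℝ) * (n : ℝ) ^ (1 / 4 : ℝ) := by
        rw [← Real.rpow_add hn0, Real.sqrt_eq_rpow]; norm_num
      rw [h5]
      calc 8 * (n : ℝ) ^ δ * Γ = (8 * Γ) * (n : ℝ) ^ δ := by ring
        _ ≤ _ := mul_le_mul h1 h4 (by positivity) (by positivity)
    have hc := hD1 x ((n : ℝ) ^ δ) Γ hW hΓ1 (by linarith) hx2 h8 fun a b =>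
      (hBd _ _ (Or.inr (Or.inr ⟨a, rfl⟩)) (Or.inr (Or.inr ⟨b, rfl⟩))).trans (by linarith)
    have hφ := hF n θ.2 (st (E.H x) θ.2) hn him hnorm (st_im_nonneg R (R.herm E x) hpos)
    have hφ0 : 0 ≤ phi1 n θ.2 (st (E.H x) θ.2) := Real.sqrt_nonneg _
    refine ⟨_, by positivity, ?_, hc⟩
    rw [hX]
    change _ ≤ _ + _ * ‖1 + θ.2 * st (E.H x) θ.2 + st (E.H x) θ.2 ^ 2‖
    set p := ‖1 + θ.2 * st (E.H x) θ.2 + st (E.H x) θ.2 ^ 2‖ with hp
    have hp0 : 0 ≤ p := norm_nonneg _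
    set L := C ^ 2 * ((n : ℝ) ^ δ * Γ) ^ (2 * k) * C1 with hLdef
    set Φ := Phi n θ.2
    have hT : 0 ≤ C ^ 2 * ((n : ℝ) ^ δ * Γ) ^ (2 * k) := by positivity
    calc (C * ((n : ℝ) ^ δ * Γ) ^ k * phi1 n θ.2 (st (E.H x) θ.2)) ^ 2
        = C ^ 2 * ((n : ℝ) ^ δ * Γ) ^ (2 * k) * phi1 n θ.2 (st (E.H x) θ.2) ^ 2 := by ring
      _ ≤ C ^ 2 * ((n : ℝ) ^ δ * Γ) ^ (2 * k) * (C1 * (Φ ^ 2 + Φ * p)) :=
          mul_le_mul_of_nonneg_left hφ hT
      _ = L * Φ ^ 2 + L * Φ * p := by rw [hLdef]; ring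
      _ ≤ (L * Φ) ^ 2 + L * Φ * p := by
          have : L * Φ ^ 2 ≤ (L * Φ) ^ 2 := by
            rw [mul_pow]
            exact mul_le_mul_of_nonneg_right (by nlinarith) (sq_nonneg _)
          linarith

/-- `P` is Lipschitz in the spectral parameter -/
lemma pp_lip (R : ResApi) {A : Matrix (Fin n) (Fin n) ℝ} (hA : A.IsHermitian) {z z' : ℂ}
    (hn : 2 ≤ n) (hz : 1 / (n : ℝ) ≤ z.im) (hz' : 1 / (n : ℝ) ≤ z'.im) (hK : ‖z'‖ ≤ n)
    (hd : ‖z - z'‖ ≤ 1 / (n : ℝ) ^ 10) : ‖PP A z - PP A z'‖ ≤ 1 / (n : ℝ) ^ 2 := by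
  have hn' : (2 : ℝ) ≤ n := by exact_mod_cast hn
  have hn0 : (0 : ℝ) < n := by linarith
  have h0 : 0 < z.im := lt_of_lt_of_le (by positivity) hz
  have h0' : 0 < z'.im := lt_of_lt_of_le (by positivity) hz'
  have i1 : 1 / z.im ≤ n := by rw [div_le_iff₀ h0]; rw [div_le_iff₀ hn0] at hz; linarith
  have i2 : 1 / z'.im ≤ n := by rw [div_le_iff₀ h0']; rw [div_le_iff₀ hn0] at hz'; linarith
  have m1 : ‖st A z‖ ≤ n := (norm_st_le R hA h0).trans i1
  have m2 : ‖st A z'‖ ≤ n := (norm_st_le R hA h0').trans i2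
  have m3 : ‖st A z - st A z'‖ ≤ 1 / (n : ℝ) ^ 8 := by
    refine (R.lipst hA h0 h0').trans ?_
    calc ‖z - z'‖ / (z.im * z'.im) = ‖z - z'‖ * (1 / z.im) * (1 / z'.im) := by field_simp
      _ ≤ 1 / (n : ℝ) ^ 10 * n * n := by gcongr
      _ = 1 / (n : ℝ) ^ 8 := by field_simp
  have e : PP A z - PP A z' =
      (z - z') * st A z + (st A z - st A z') * (z' + st A z + st A z') := by
    unfold PP; ring
  rw [e]
  have m4 : ‖z' + st A z + st A z'‖ ≤ 3 * n := by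
    have := norm_add₃_le (a := z') (b := st A z) (c := st A z')
    linarith
  calc ‖(z - z') * st A z + (st A z - st A z') * (z' + st A z + st A z')‖
      ≤ ‖z - z'‖ * ‖st A z‖ + ‖st A z - st A z'‖ * ‖z' + st A z + st A z'‖ := by
        refine (norm_add_le _ _).trans ?_
        rw [norm_mul, norm_mul]
    _ ≤ 1 / (n : ℝ) ^ 10 * n + 1 / (n : ℝ) ^ 8 * (3 * n) := by gcongr
    _ = (1 / (n : ℝ) ^ 7 + 3 / (n : ℝ) ^ 5) * (1 / (n : ℝ) ^ 2) := by field_simp
    _ ≤ 1 * (1 / (n : ℝ) ^ 2) := by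
        gcongr
        have a1 : (2 : ℝ) ^ 7 ≤ (n : ℝ) ^ 7 := by gcongr
        have a2 : (2 : ℝ) ^ 5 ≤ (n : ℝ) ^ 5 := by gcongr
        have a3 : 1 / (n : ℝ) ^ 7 ≤ 1 / 2 ^ 7 := one_div_le_one_div_of_le (by norm_num) a1
        have a4 : 3 / (n : ℝ) ^ 5 ≤ 3 / 2 ^ 5 :=
          div_le_div_of_nonneg_left (by norm_num) (by norm_num) a2
        norm_num at a3 a4 ⊢
        linarith
    _ = _ := one_mul _

end A79

open A79

/-- **L9a** -/
theorem pStmt (R : ResApi) (M : MscApi) (V : VhpApi) (hP : PDetStmt) (hF : PhiStmt)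
    (hA : AprStmt) : PStmt := by
  intro K ε ε' hε hε'
  have h1 := pFixed R M V hP hF hA K ε (ε' / 2) hε (by positivity)
  have h2 := V.grid (Θ := fun _ => Unit) K ε 10
    (R := fun n E _ z x => ‖PP (E.H x) z‖ ≤ (n : ℝ) ^ (ε' / 2) * Phi n z) h1
  refine V.mono h2 ?_
  filter_upwards [ev_const_le 9 (ε' / 2) (by positivity), ev_const_le_nat (2 * |K|),
    eventually_ge_atTop 2, M.near K ε hε] with n h9 hK hn hnear E θ x h z hD
  obtain ⟨z', hD', hd, hb⟩ := h z hD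
  have hn1 : 1 ≤ n := by omega
  have hn0 : (0 : ℝ) < n := by exact_mod_cast hn1
  obtain ⟨-, hΦ8, -, -, -, -, hΦ, -⟩ := hnear z z' hD hD' hd
  have hl := pp_lip R (R.herm E x) hn (dom_im hD hn1 hε) (dom_im hD' hn1 hε)
    ((dom_norm hD').trans hK) hd
  have hΦ0 : 0 ≤ Phi n z := le_trans (by positivity) hΦ
  have e : (n : ℝ) ^ ε' = (n : ℝ) ^ (ε' / 2) * (n : ℝ) ^ (ε' / 2) := by
    rw [← Real.rpow_add hn0]; congr 1; ring
  have t := norm_le_norm_add_norm_sub' (PP (E.H x) z) (PP (E.H x) z')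
  set a := (n : ℝ) ^ (ε' / 2)
  have hb2 : a * Phi n z' ≤ a * (8 * Phi n z) := mul_le_mul_of_nonneg_left hΦ8 (by linarith)
  rw [e]
  have : a * (8 * Phi n z) + Phi n z ≤ a * a * Phi n z := by
    have : 8 * a + 1 ≤ a * a := by nlinarith
    nlinarith
  linarith

namespace A79

variable {n : ℕ}

/-- `δ ≤ 4 Λ q` -/
lemma delta_le (M : MscApi) {z : ℂ} (hz : 0 < z.im) (hn : 1 ≤ n) {La p δ : ℝ} (hLa : 1 ≤ La)
    (hp : p ≤ La * Phi n z) (hδ0 : 0 ≤ δ) (h1 : δ ^ 2 ≤ p) (h2 : al z * δ ≤ 2 * p) :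
    δ ≤ 4 * La * qq n z := by
  have hn0 : (0 : ℝ) < n := by exact_mod_cast hn
  have hq : 0 < qq n z := by unfold qq; positivity
  have hal : 0 ≤ al z := norm_nonneg _
  have him := M.im_le_al hz
  have hm := M.im_pos hz
  have hs : √(al z * (msc z).im) ≤ al z := by
    rw [Real.sqrt_le_left hal]
    nlinarith
  have hΦ : Phi n z ≤ qq n z * al z + qq n z ^ 2 := by
    unfold Phi
    have := mul_le_mul_of_nonneg_left hs hq.le
    linarith
  set q := qq n z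
  set a := al z
  have hp2 : p ≤ La * (q * a + q ^ 2) := hp.trans (mul_le_mul_of_nonneg_left hΦ (by linarith))
  rcases le_total q a with h | h
  · have ha : 0 < a := lt_of_lt_of_le hq h
    have h3 : q ^ 2 ≤ q * a := by nlinarith
    have h4 : La * (q * a + q ^ 2) ≤ La * (2 * (q * a)) :=
      mul_le_mul_of_nonneg_left (by linarith) (by linarith)
    have h5 : a * δ ≤ a * (4 * La * q) := by nlinarith
    exact le_of_mul_le_mul_left h5 ha
  · have h3 : q * a ≤ q ^ 2 := by nlinarith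
    have h4 : La * (q * a + q ^ 2) ≤ La * (2 * q ^ 2) :=
      mul_le_mul_of_nonneg_left (by linarith) (by linarith)
    have h5 : δ ^ 2 ≤ (4 * La * q) ^ 2 := by
      have : La * (2 * q ^ 2) ≤ (4 * La * q) ^ 2 := by
        have h6 : La * 2 ≤ 16 * La ^ 2 := by nlinarith
        have h7 : 0 ≤ q ^ 2 := sq_nonneg q
        nlinarith
      linarith
    exact (pow_le_pow_iff_left₀ hδ0 (by positivity) two_ne_zero).1 h5

lemma cont_st (R : ResApi) {A : Matrix (Fin n) (Fin n) ℝ} (hA : A.IsHermitian) {z : ℂ}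
    (hz : 0 < z.im) : ContinuousAt (st A) z := by
  have hev : ∀ᶠ w in nhds z, 0 < Complex.im w :=
    Complex.continuous_im.continuousAt.eventually (lt_mem_nhds hz)
  have h1 : ContinuousAt (fun w : ℂ => (∑ k ∈ Finset.range n, ((lam A k : ℂ) - w)⁻¹) / n) z := by
    refine ContinuousAt.div_const ?_ _
    refine tendsto_finsetSum _ fun k _ => ?_
    refine ContinuousAt.inv₀ (f := fun w : ℂ => (lam A k : ℂ) - w) (by fun_prop) fun h => ?_
    have := congrArg Complex.im h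
    simp at this
    linarith
  refine h1.congr ?_
  filter_upwards [hev] with w hw
  exact (R.spec_st hA hw.ne').symm

/-- the deterministic part of the averaged law -/
lemma avg_det (R : ResApi) (M : MscApi) {A : Matrix (Fin n) (Fin n) ℝ} (hA : A.IsHermitian)
    {K ε La : ℝ} (hK : 1 ≤ K) (hε : 0 < ε) (hn : 1 ≤ n) (hLa : 1 ≤ La) (hLn : 4 * La < n)
    (h : ∀ z, Dom K ε n z → ‖PP A z‖ ≤ La * Phi n z) {z : ℂ} (hD : Dom K ε n z) :
    ‖st A z - msc z‖ ≤ 14 * La * qq n z ∧ al z * ‖st A z - msc z‖ ≤ 102 * La ^ 2 * Phi n z := by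
  have hn0 : (0 : ℝ) < n := by exact_mod_cast hn
  have key : ∀ w, Dom K ε n w → ∃ δ : ℝ, 0 ≤ δ ∧
      (δ = ‖st A w - msc w‖ ∨ δ = ‖st A w - (msc w)⁻¹‖) ∧ δ ≤ 4 * La * qq n w ∧
      al w * δ ≤ 2 * (La * Phi n w) := by
    intro w hw
    have hw0 := dom_pos hw hn hε
    obtain ⟨δ, h0, h1, -, -, h4, h5, -⟩ := M.dist hw0 (st_im_nonneg R hA hw0)
    have hp : ‖1 + w * st A w + st A w ^ 2‖ ≤ La * Phi n w := h w hw
    exact ⟨δ, h0, h1, delta_le M hw0 hn hLa hp h0 h4 h5, by linarith⟩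
  have tri : ∀ w : ℂ, al w ≤ ‖st A w - msc w‖ + ‖st A w - (msc w)⁻¹‖ := by
    intro w
    rw [M.al_eq]
    have := norm_sub_le (st A w - (msc w)⁻¹) (st A w - msc w)
    have e : st A w - (msc w)⁻¹ - (st A w - msc w) = msc w - (msc w)⁻¹ := by ring
    rw [e] at this
    linarith
  have tri2 : ‖st A z - msc z‖ ≤ ‖st A z - (msc z)⁻¹‖ + al z := by
    rw [M.al_eq]
    have := norm_sub_le (st A z - (msc z)⁻¹) (msc z - (msc z)⁻¹)
    have e : st A z - (msc z)⁻¹ - (msc z - (msc z)⁻¹) = st A z - msc z := by ring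
    rwa [e] at this
  have hz0 := dom_pos hD hn hε
  have hq : 0 < qq n z := by unfold qq; positivity
  have hal : 0 ≤ al z := norm_nonneg _
  have hΦq : qq n z ^ 2 ≤ Phi n z := by
    unfold Phi
    have : 0 ≤ qq n z * √(al z * (msc z).im) := by positivity
    linarith
  have hΦ0 : 0 ≤ Phi n z := le_trans (sq_nonneg _) hΦq
  have hLL : La ≤ La ^ 2 := by nlinarith
  have hLΦ : La * Phi n z ≤ La ^ 2 * Phi n z := mul_le_mul_of_nonneg_right hLL hΦ0
  have hLΦ0 : 0 ≤ La ^ 2 * Phi n z := by positivity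
  have hLq : 0 < La * qq n z := by positivity
  obtain ⟨δ, h0, h1, h2, h3⟩ := key z hD
  rcases le_or_gt (al z) (10 * La * qq n z) with hs | hs
  · have hm : ‖st A z - msc z‖ ≤ δ + al z := by
      rcases h1 with h1 | h1
      · linarith
      · linarith
    refine ⟨by linarith, ?_⟩
    have a1 : al z * ‖st A z - msc z‖ ≤ al z * (δ + al z) := mul_le_mul_of_nonneg_left hm hal
    have a2 : al z ^ 2 ≤ (10 * La * qq n z) ^ 2 := by gcongr
    have a3 : La ^ 2 * qq n z ^ 2 ≤ La ^ 2 * Phi n z := by gcongr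
    nlinarith
  · -- continuity argument along the vertical line
    set w : ℝ → ℂ := fun t => ⟨z.re, t⟩ with hw
    have hwD : ∀ t ∈ Set.Icc z.im K, Dom K ε n (w t) := fun t ht =>
      ⟨hD.1, hD.2.1.trans ht.1, ht.2⟩
    set g : ℝ → ℝ := fun t => ‖st A (w t) - msc (w t)‖ - al (w t) / 2 with hg
    have hwc : Continuous w := by
      have : w = fun t : ℝ => (z.re : ℂ) + (t : ℂ) * Complex.I := by
        funext t; apply Complex.ext <;> simp [hw]
      rw [this]; fun_prop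
    have hgc : ContinuousOn g (Set.Icc z.im K) := by
      intro t ht
      have ht0 : 0 < (w t).im := lt_of_lt_of_le hz0 ht.1
      have c1 : ContinuousAt (fun t => st A (w t)) t :=
        ContinuousAt.comp (cont_st R hA ht0) hwc.continuousAt
      have c2 : ContinuousAt (fun t => msc (w t)) t :=
        ContinuousAt.comp (M.deriv ht0).continuousAt hwc.continuousAt
      have c3 : ContinuousAt (fun t => al (w t)) t :=
        (hwc.continuousAt.add (continuousAt_const.mul c2)).norm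
      exact ((c1.sub c2).norm.sub (c3.div_const 2)).continuousWithinAt
    have dich : ∀ t ∈ Set.Icc z.im K, ∀ d : ℝ, d ≤ 4 * La * qq n (w t) →
        (d = ‖st A (w t) - msc (w t)‖ → g t < 0) ∧
        (d = ‖st A (w t) - (msc (w t))⁻¹‖ → 0 < g t) := by
      intro t ht d hd
      have b1 : qq n (w t) ≤ qq n z := by
        unfold qq
        exact one_div_le_one_div_of_le (by positivity)
          (mul_le_mul_of_nonneg_left ht.1 hn0.le)
      have b2 : al z ≤ al (w t) := M.al_mono hz0 rfl ht.1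
      have b3 : La * qq n (w t) ≤ La * qq n z := mul_le_mul_of_nonneg_left b1 (by linarith)
      have b4 := tri (w t)
      constructor
      · intro e
        simp only [hg]
        linarith
      · intro e
        simp only [hg]
        linarith
    have hKm : K ∈ Set.Icc z.im K := ⟨hD.2.2, le_rfl⟩
    have gK : g K < 0 := by
      obtain ⟨d, -, d1, d2, -⟩ := key (w K) (hwD K hKm)
      rcases d1 with d1 | d1
      · exact (dich K hKm d d2).1 d1
      · exfalso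
        have hK0 : 0 < (w K).im := lt_of_lt_of_le one_pos hK
        have i1 := Complex.im_le_norm (st A (w K) - (msc (w K))⁻¹)
        rw [M.inv_eq] at i1 d1
        have i2 := st_im_nonneg R hA hK0
        have i3 := M.im_pos hK0
        have i4 : (w K).im = K := rfl
        simp only [Complex.sub_im, Complex.neg_im] at i1
        have i5 : qq n (w K) ≤ 1 / n := by
          unfold qq
          refine one_div_le_one_div_of_le hn0 ?_
          rw [i4]; nlinarith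
        have i6 : 4 * La * qq n (w K) ≤ 4 * La * (1 / n) :=
          mul_le_mul_of_nonneg_left i5 (by linarith)
        have i7 : 4 * La * (1 / (n : ℝ)) < 1 := by
          rw [mul_one_div, div_lt_one hn0]; exact hLn
        linarith
    have hzm : z.im ∈ Set.Icc z.im K := ⟨le_rfl, hD.2.2⟩
    have hwz : w z.im = z := rfl
    have hδ : δ = ‖st A z - msc z‖ := by
      rcases h1 with h1 | h1
      · exact h1
      · exfalso
        have g0 : 0 < g z.im := (dich z.im hzm δ h2).2 h1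
        obtain ⟨t, ht, ht0⟩ := intermediate_value_Icc' hD.2.2 hgc ⟨gK.le, g0.le⟩
        obtain ⟨d, -, d1, d2, -⟩ := key (w t) (hwD t ht)
        rcases d1 with d1 | d1
        · exact absurd ht0 ((dich t ht d d2).1 d1).ne
        · exact absurd ht0 ((dich t ht d d2).2 d1).ne'
    rw [← hδ]
    exact ⟨by linarith, by linarith⟩

end A79

/-- **L9b** -/
theorem avg (R : ResApi) (M : MscApi) (V : VhpApi) (h : PStmt) : AvgStmt := by
  intro K ε ε' hε hε'
  set e : ℝ := min ε' 1 / 4 with he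
  have he0 : 0 < e := div_pos (lt_min hε' one_pos) (by norm_num)
  have he1 : 4 * e ≤ ε' := by have := min_le_left ε' 1; linarith
  have he2 : 4 * e ≤ 1 := by have := min_le_right ε' 1; linarith
  refine V.mono (h (max K 1) ε e hε he0) ?_
  filter_upwards [ev_const_le 14 e he0, eventually_ge_atTop 1] with n h14 hn E θ x hx z hD
  have hn' : (1 : ℝ) ≤ n := by exact_mod_cast hn
  have hn0 : (0 : ℝ) < n := by linarith
  have hD' : Dom (max K 1) ε n z :=
    ⟨hD.1.trans (le_max_left _ _), hD.2.1, hD.2.2.trans (le_max_left _ _)⟩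
  have e4 : ((n : ℝ) ^ e) ^ 4 = (n : ℝ) ^ (4 * e) := by
    rw [← Real.rpow_natCast, ← Real.rpow_mul hn0.le]; congr 1; push_cast; ring
  have p1 : ((n : ℝ) ^ e) ^ 4 ≤ (n : ℝ) ^ ε' := by
    rw [e4]; exact Real.rpow_le_rpow_of_exponent_le hn' he1
  have p2 : ((n : ℝ) ^ e) ^ 4 ≤ n := by
    rw [e4]
    calc (n : ℝ) ^ (4 * e) ≤ (n : ℝ) ^ (1 : ℝ) := Real.rpow_le_rpow_of_exponent_le hn' he2
      _ = n := Real.rpow_one _
  set a := (n : ℝ) ^ e
  have q1 : 196 ≤ a ^ 2 := by nlinarith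
  have q2 : 196 * a ^ 2 ≤ a ^ 4 := by nlinarith
  have q3 : 14 * a ≤ a ^ 2 := by nlinarith
  obtain ⟨r1, r2⟩ := avg_det R M (R.herm E x) (le_max_right K 1) hε hn (by linarith : 1 ≤ a)
    (by nlinarith) hx hD'
  have hz0 := dom_pos hD hn hε
  have hq : 0 < qq n z := by unfold qq; positivity
  have hΦ : 0 ≤ Phi n z := by unfold Phi; positivity
  constructor
  · refine r1.trans (mul_le_mul_of_nonneg_right ?_ hq.le)
    nlinarith
  · refine r2.trans (mul_le_mul_of_nonneg_right ?_ hΦ)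
    nlinarith

end Crest.Agent.T157.Ll
end
end

-- ▼ part T157/LlIso_32

/-!
# Row 157, part E: isotropic local law and delocalisation (helper32)

`iso : IsoStmt` (bootstrap in the exponent `τ` of the error `n^τ q`) and `del : DelStmt`.
-/

set_option autoImplicit false

noncomputable section

namespace Crest.Agent.T157.Ll

open MeasureTheory ProbabilityTheory Matrix Filter Function
open Crest.ProbabilityR.SpinGlassDynamics Crest.Agent.T157.E Crest.Agent.T157.Eig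

namespace Iso32

lemma ev_le (C δ : ℝ) (hδ : 0 < δ) : ∀ᶠ n : ℕ in atTop, C ≤ (n : ℝ) ^ δ :=
  ((tendsto_rpow_atTop hδ).comp tendsto_natCast_atTop_atTop).eventually_ge_atTop C

lemma ev_le' (C : ℝ) : ∀ᶠ n : ℕ in atTop, C ≤ (n : ℝ) :=
  tendsto_natCast_atTop_atTop.eventually_ge_atTop C

lemma ok_mono {ι : Type} [Fintype ι] [DecidableEq ι] {D : MData ι} {B B' : ℝ} (h : D.Ok B)
    (hB : B ≤ B') : D.Ok B' :=
  { h with
    bX := fun x => (h.bX x).trans hB
    br := fun x => (h.br x).trans hB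
    bf := fun a x => (h.bf a x).trans hB
    bf1 := fun a x => (h.bf1 a x).trans hB
    bf2 := fun a x => (h.bf2 a x).trans hB
    bX1 := fun a x => (h.bX1 a x).trans hB
    bX2 := fun a x => (h.bX2 a x).trans hB }

variable {n : ℕ}

lemma ee_dot (k : Fin n) : ee k ⬝ᵥ ee k = (1 : ℝ) := by simp [ee]

lemma dot_ee (w : Fin n → ℝ) (k : Fin n) : w ⬝ᵥ ee k = w k := by simp [ee]

lemma inS_le {u v a : Fin n → ℝ} (hu : u ⬝ᵥ u ≤ 1) (hv : v ⬝ᵥ v ≤ 1) (ha : InS u v a) :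
    a ⬝ᵥ a ≤ 1 := by
  rcases ha with rfl | rfl | ⟨k, rfl⟩
  · exact hu
  · exact hv
  · exact (ee_dot k).le

lemma inS_trans {u v a b c : Fin n → ℝ} (ha : InS u v a) (hb : InS u v b) (hc : InS a b c) :
    InS u v c := by
  rcases hc with rfl | rfl | hc
  · exact ha
  · exact hb
  · exact Or.inr (Or.inr hc)

lemma abs_dot_le_one {a b : Fin n → ℝ} (ha : a ⬝ᵥ a ≤ 1) (hb : b ⬝ᵥ b ≤ 1) : |a ⬝ᵥ b| ≤ 1 := by
  have h := dot_sq_le a b
  have h0 := dot_self_nonneg a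
  have h1 := dot_self_nonneg b
  exact abs_le_one_iff_mul_self_le_one.2 (by nlinarith)

lemma dom_pos {K ε : ℝ} {z : ℂ} (hn : (1 : ℝ) ≤ n) (h : Dom K ε n z) : 0 < z.im :=
  (Real.rpow_pos_of_pos (by linarith) _).trans_le h.2.1

lemma dom_inv {K ε : ℝ} {z : ℂ} (hε : 0 < ε) (hn : (1 : ℝ) ≤ n) (h : Dom K ε n z) :
    1 / (n : ℝ) ≤ z.im := by
  refine le_trans ?_ h.2.1
  rw [one_div, ← Real.rpow_neg_one]
  exact Real.rpow_le_rpow_of_exponent_le hn (by linarith)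

lemma dom_norm {K ε : ℝ} {z : ℂ} (hn : (1 : ℝ) ≤ n) (h : Dom K ε n z) : ‖z‖ ≤ 2 * K := by
  have h1 := Complex.norm_le_abs_re_add_abs_im z
  have h2 := dom_pos hn h
  rw [abs_of_pos h2] at h1
  linarith [h.1, h.2.2]

lemma qq_pos {K ε : ℝ} {z : ℂ} (hn : (1 : ℝ) ≤ n) (h : Dom K ε n z) : 0 < qq n z := by
  have := dom_pos hn h
  unfold qq; positivity

lemma qq_le {K ε : ℝ} {z : ℂ} (hn : (1 : ℝ) ≤ n) (h : Dom K ε n z) :
    qq n z * (n : ℝ) ^ ε ≤ 1 := by
  have h0 := dom_pos hn h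
  have hn0 : (0 : ℝ) < n := by linarith
  have h1 : (n : ℝ) ^ ε ≤ n * z.im := by
    have h2 : (n : ℝ) ^ ε = n * (n : ℝ) ^ (-1 + ε) := by
      rw [Real.rpow_add hn0, Real.rpow_neg_one, ← mul_assoc, mul_inv_cancel₀ hn0.ne', one_mul]
    rw [h2]; exact mul_le_mul_of_nonneg_left h.2.1 hn0.le
  unfold qq
  rw [one_div, inv_mul_le_iff₀ (by positivity), mul_one]; exact h1

/-- the error parameter with exponent `τ` -/
def ph (τ : ℝ) (n : ℕ) (z : ℂ) : ℝ := √(qq n z * (msc z).im) + (n : ℝ) ^ τ * qq n z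

/-- the isotropic law at one `z` with error `n^δ ph τ` -/
def Ev (K ε τ δ : ℝ) (n : ℕ) (u v : Fin n → ℝ) (z : ℂ) (A : Matrix (Fin n) (Fin n) ℝ) : Prop :=
  u ⬝ᵥ u ≤ 1 → v ⬝ᵥ v ≤ 1 → Dom K ε n z → ∀ a b, InS u v a → InS u v b →
    ‖gb A z a b - msc z * ((a ⬝ᵥ b : ℝ) : ℂ)‖ ≤ (n : ℝ) ^ δ * ph τ n z

/-- the bootstrap statement -/
def I (K ε τ : ℝ) : Prop :=
  ∀ δ : ℝ, 0 < δ → Vhp (Θ := fun n => ((Fin n → ℝ) × (Fin n → ℝ)) × ℂ)
    fun n E θ x => Ev K ε τ δ n θ.1.1 θ.1.2 θ.2 (E.H x)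

lemma I_one (M : MscApi) (V : VhpApi) (hA : AprStmt) {K ε : ℝ} (hK : 1 ≤ K) (hε : 0 < ε) :
    I K ε 1 := by
  intro δ hδ
  obtain ⟨C, hC, hV⟩ := hA K ε hε
  refine V.mono (V.comp (Θ' := fun n => ((Fin n → ℝ) × (Fin n → ℝ)) × ℂ) (fun _ θ => θ.1) hV) ?_
  filter_upwards [ev_le ((C + 1) * K) δ hδ, ev_le' 1] with n h1 hn E θ x hx hu hv hz a b ha hb
  have hz0 := dom_pos hn hz
  have hG := hx hu hv θ.2 hz a b ha hb
  have hab := abs_dot_le_one (inS_le hu hv ha) (inS_le hu hv hb)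
  have h2 : ‖msc θ.2 * ((a ⬝ᵥ b : ℝ) : ℂ)‖ ≤ 1 := by
    rw [norm_mul, Complex.norm_real, Real.norm_eq_abs]
    exact mul_le_one₀ (M.norm_le hz0) (abs_nonneg _) hab
  have h3 : 1 / K ≤ ph 1 n θ.2 := by
    have : (n : ℝ) ^ (1 : ℝ) * qq n θ.2 = 1 / θ.2.im := by
      rw [Real.rpow_one, qq]; field_simp
    have h4 : 1 / K ≤ 1 / θ.2.im := one_div_le_one_div_of_le hz0 hz.2.2
    unfold ph; rw [this]; linarith [Real.sqrt_nonneg (qq n θ.2 * (msc θ.2).im)]
  calc _ ≤ C + 1 := (norm_sub_le _ _).trans (add_le_add hG h2)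
    _ = (C + 1) * K * (1 / K) := by field_simp
    _ ≤ _ := mul_le_mul h1 h3 (by positivity) (by positivity)

/-- the algebraic identity behind the isotropic law -/
lemma err_le (M : MscApi) (A : Matrix (Fin n) (Fin n) ℝ) {z : ℂ} (hz : 0 < z.im)
    (a b : Fin n → ℝ) : ‖gb A z a b - msc z * ((a ⬝ᵥ b : ℝ) : ℂ)‖ ≤
      ‖QQ A z a b‖ + ‖st A z - msc z‖ * ‖gb A z a b‖ := by
  have h : gb A z a b - msc z * ((a ⬝ᵥ b : ℝ) : ℂ) =
      -msc z * (QQ A z a b - (st A z - msc z) * gb A z a b) := by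
    have := M.eq z
    unfold QQ
    linear_combination (gb A z a b) * this
  rw [h, norm_mul, norm_neg]
  refine (mul_le_of_le_one_left (norm_nonneg _) (M.norm_le hz)).trans ?_
  rw [← norm_mul]; exact norm_sub_le _ _

lemma step (M : MscApi) (V : VhpApi) (hQ : QDetStmt) (hA : AprStmt) (hAv : AvgStmt)
    {K ε τ : ℝ} (hK : 1 ≤ K) (hε : 0 < ε) (hτ : 0 ≤ τ) (hI : I K ε τ) : I K ε (τ / 2) := by
  intro δ' hδ'
  obtain ⟨CQ, k, hCQ, hQ⟩ := hQ
  obtain ⟨C, hC, hV⟩ := hA K ε hε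
  obtain ⟨δ, hδ, hδ4, hδk⟩ : ∃ δ : ℝ, 0 < δ ∧ δ ≤ 1 / 4 ∧ δ * (k + 3) ≤ δ' := by
    refine ⟨min (1 / 4) (δ' / (k + 3)), by positivity, min_le_left _ _, ?_⟩
    rw [← le_div_iff₀ (by positivity)]; exact min_le_right _ _
  set Γ : ℝ := C + 2 * K with hΓ
  let Θ : ℕ → Type := fun n => ((Fin n → ℝ) × (Fin n → ℝ)) × ℂ
  let Θ' : ℕ → Type := fun n => Θ n × (Fin n → ℝ) × (Fin n → ℝ)
  let ψ : ℕ → ℂ → ℝ := fun n z => min 1 ((n : ℝ) ^ δ * ph (τ / 2) n z)
  have hGd := V.and (V.ent (Θ := Θ') δ hδ) (V.and (V.comp (Θ' := Θ') (fun _ θ => θ.1.1) hV)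
    (V.comp (Θ' := Θ') (fun _ θ => θ.1) (hI δ hδ)))
  have hmom := V.mom (Θ := Θ') (fun n E θ x => QQ (E.H x) θ.1.2 θ.2.1 θ.2.2)
    (fun n θ => CQ * ((n : ℝ) ^ δ * Γ) ^ k * ψ n θ.1.2)
    (fun n θ => θ.1.1.1 ⬝ᵥ θ.1.1.1 ≤ 1 ∧ θ.1.1.2 ⬝ᵥ θ.1.1.2 ≤ 1 ∧ Dom K ε n θ.1.2 ∧
      InS θ.1.1.1 θ.1.1.2 θ.2.1 ∧ InS θ.1.1.1 θ.1.1.2 θ.2.2) (k + 1) hGd ?_ δ hδ
  · have hall := V.allS (Θ := Θ) (fun _ θ => θ.1.1) (fun _ θ => θ.1.2) hmom
    refine V.mono (V.and hall (V.and (V.comp (Θ' := Θ) (fun _ θ => θ.1) hV)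
      (V.comp (Θ' := Θ) (fun _ _ => ()) (hAv K ε δ hε hδ)))) ?_
    filter_upwards [ev_le (CQ * Γ ^ k + C) δ hδ, ev_le' 1] with n h1 hn E θ x hx hu hv hz a b ha hb
    obtain ⟨hq, hb', hav⟩ := hx
    have hz0 := dom_pos hn hz
    have hq0 := qq_pos hn hz
    have hq1 := hq a b ha hb ⟨hu, hv, hz, ha, hb⟩
    have hG := hb' hu hv θ.2 hz a b ha hb
    have hm := (hav θ.2 hz).1
    set W : ℝ := (n : ℝ) ^ δ with hW
    have hW1 : 1 ≤ W := Real.one_le_rpow hn hδ.le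
    have hqp : qq n θ.2 ≤ ph (τ / 2) n θ.2 := by
      have := Real.one_le_rpow hn (by linarith : 0 ≤ τ / 2)
      unfold ph
      nlinarith [Real.sqrt_nonneg (qq n θ.2 * (msc θ.2).im)]
    have hp0 : 0 ≤ ph (τ / 2) n θ.2 := hq0.le.trans hqp
    have hΓ0 : 0 ≤ Γ := by positivity
    have hWk : W ^ (k + 3) ≤ (n : ℝ) ^ δ' := by
      rw [hW, ← Real.rpow_natCast, ← Real.rpow_mul (by linarith)]
      exact Real.rpow_le_rpow_of_exponent_le hn (by push_cast; exact hδk)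
    have h2 : ‖QQ (E.H x) θ.2 a b‖ ≤ CQ * Γ ^ k * (W ^ (k + 2) * ph (τ / 2) n θ.2) := by
      refine hq1.trans ?_
      calc W * (CQ * (W * Γ) ^ k * ψ n θ.2) ≤ W * (CQ * (W * Γ) ^ k * (W * ph (τ / 2) n θ.2)) := by
            gcongr; exact min_le_right _ _
        _ = _ := by ring
    have h3 : ‖st (E.H x) θ.2 - msc θ.2‖ * ‖gb (E.H x) θ.2 a b‖ ≤
        C * (W ^ (k + 2) * ph (τ / 2) n θ.2) := by
      rw [mul_comm]
      refine mul_le_mul hG (hm.trans ?_) (norm_nonneg _) (by linarith)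
      refine mul_le_mul ?_ hqp hq0.le (by positivity)
      exact le_self_pow₀ hW1 (by omega)
    calc _ ≤ _ := err_le M (E.H x) hz0 a b
      _ ≤ (CQ * Γ ^ k + C) * (W ^ (k + 2) * ph (τ / 2) n θ.2) := by linarith
      _ ≤ W * (W ^ (k + 2) * ph (τ / 2) n θ.2) := by gcongr
      _ = W ^ (k + 3) * ph (τ / 2) n θ.2 := by ring
      _ ≤ _ := by gcongr
  · filter_upwards [ev_le (2 * K + 1) δ hδ, ev_le' 1, ev_le' (2 * K), ev_le' CQ, ev_le C ε hε,
      ev_le (8 * Γ) (1 / 4) (by norm_num)] with n h1 hn hnK hnC hCε h8 E θ hθ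
    obtain ⟨hu, hv, hz, ha, hb⟩ := hθ
    have hn0 : (0 : ℝ) < n := by linarith
    have hz0 := dom_pos hn hz
    have hq0 := qq_pos hn hz
    have hzn := dom_norm hn hz
    set W : ℝ := (n : ℝ) ^ δ with hW
    have hW1 : 1 ≤ W := Real.one_le_rpow hn hδ.le
    have hΓ1 : 1 ≤ Γ := by linarith
    have him := M.im_pos hz0
    set s : ℝ := √(qq n θ.1.2 * (msc θ.1.2).im) with hs
    have hs0 : 0 ≤ s := Real.sqrt_nonneg _
    have hs2 : s ^ 2 = qq n θ.1.2 * (msc θ.1.2).im := Real.sq_sqrt (by positivity)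
    set T : ℝ := (n : ℝ) ^ (τ / 2) with hT
    have hT1 : 1 ≤ T := Real.one_le_rpow hn (by linarith)
    have hTT : (n : ℝ) ^ τ = T ^ 2 := by
      rw [hT, ← Real.rpow_natCast, ← Real.rpow_mul hn0.le]; congr 1; push_cast; ring
    have hph : ph (τ / 2) n θ.1.2 = s + T * qq n θ.1.2 := rfl
    have hp0 : 0 ≤ W * ph (τ / 2) n θ.1.2 := by rw [hph]; positivity
    have hψ0 : 0 ≤ ψ n θ.1.2 := le_min zero_le_one hp0
    have hψ1 : ψ n θ.1.2 ≤ 1 := min_le_left _ _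
    have hsq : ∀ y : ℝ, y ≤ 1 → y ≤ (W * ph (τ / 2) n θ.1.2) ^ 2 → y ≤ ψ n θ.1.2 ^ 2 := by
      intro y h1 h2
      rcases min_cases 1 (W * ph (τ / 2) n θ.1.2) with h | h
      · show y ≤ (min 1 _) ^ 2
        rw [h.1]; linarith
      · show y ≤ (min 1 _) ^ 2
        rw [h.1]; exact h2
    have hψn : 1 / (n : ℝ) ≤ ψ n θ.1.2 ^ 2 := by
      refine hsq _ ((div_le_one hn0).2 hn) ?_
      have h2 := M.le_im hz0
      have h3 : 1 / (n : ℝ) ≤ (‖θ.1.2‖ + 1) ^ 2 * s ^ 2 := by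
        rw [hs2]
        calc 1 / (n : ℝ) = (‖θ.1.2‖ + 1) ^ 2 * (qq n θ.1.2 * (θ.1.2.im / (‖θ.1.2‖ + 1) ^ 2)) := by
              unfold qq; field_simp
          _ ≤ _ := by gcongr
      refine h3.trans ?_
      rw [mul_pow, hph]
      refine mul_le_mul (pow_le_pow_left₀ (by positivity) (by linarith) 2)
        (pow_le_pow_left₀ hs0 (le_add_of_nonneg_right (by positivity)) 2) (by positivity)
        (by positivity)
    have hφ1 : 1 ≤ CQ * (W * Γ) ^ k :=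
      one_le_mul_of_one_le_of_one_le hCQ (one_le_pow₀ (one_le_mul_of_one_le_of_one_le hW1 hΓ1))
    refine ⟨?_, ?_⟩
    · have h2 : 1 / (n : ℝ) ≤ ψ n θ.1.2 := hψn.trans (by nlinarith)
      calc 1 / (n : ℝ) ^ (k + 1) ≤ 1 / (n : ℝ) :=
            one_div_le_one_div_of_le hn0 (le_self_pow₀ hn (by omega))
        _ ≤ ψ n θ.1.2 := h2
        _ ≤ _ := le_mul_of_one_le_left hψ0 hφ1
    · obtain ⟨D, hDX, hDO, hD⟩ := hQ n E θ.1.2 θ.2.1 θ.2.2 (by exact_mod_cast hn)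
        (dom_inv hε hn hz) (hzn.trans hnK) (inS_le hu hv ha) (inS_le hu hv hb)
      refine ⟨D, hDX, ok_mono hDO ?_, fun x hx => ?_⟩
      · rw [pow_succ']; gcongr
      obtain ⟨hent, hbd, hev⟩ := hx
      have hbd' := hbd hu hv θ.1.2 hz
      refine ⟨_, by positivity, le_add_of_nonneg_right (by positivity),
        hD x W Γ (ψ n θ.1.2) hW1 hΓ1 (by linarith) hent ?_ ?_ hψ0 hψ1 hψn ?_⟩
      · have h2 : W ≤ (n : ℝ) ^ (1 / 4 : ℝ) := Real.rpow_le_rpow_of_exponent_le hn hδ4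
        have h3 : √(n : ℝ) = (n : ℝ) ^ (1 / 4 : ℝ) * (n : ℝ) ^ (1 / 4 : ℝ) := by
          rw [Real.sqrt_eq_rpow, ← Real.rpow_add hn0]; norm_num
        rw [h3, mul_right_comm]
        exact mul_le_mul h8 h2 (by linarith) (by positivity)
      · intro c d hc hd
        exact (hbd' c d (inS_trans ha hb hc) (inS_trans ha hb hd)).trans (by linarith)
      · intro c hc
        have hc' := inS_trans ha hb hc
        have hcc := inS_le hu hv hc'
        refine hsq _ ?_ ?_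
        · have h2 : (gb (E.H x) θ.1.2 c c).im ≤ (n : ℝ) ^ ε :=
            ((Complex.im_le_norm _).trans (hbd' c c hc' hc')).trans hCε
          exact (mul_le_mul_of_nonneg_left h2 hq0.le).trans (qq_le hn hz)
        · have h2 := (Complex.im_le_norm _).trans (hev hu hv hz c c hc' hc')
          have h3 : ph τ n θ.1.2 = s + T ^ 2 * qq n θ.1.2 := by rw [← hTT]; rfl
          rw [h3, Complex.sub_im, Complex.mul_im, Complex.ofReal_re, Complex.ofReal_im, mul_zero,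
            zero_add, ← hW] at h2
          have h4 : (gb (E.H x) θ.1.2 c c).im ≤ (msc θ.1.2).im + W * (s + T ^ 2 * qq n θ.1.2) := by
            nlinarith
          set q := qq n θ.1.2
          have h5 : q * (gb (E.H x) θ.1.2 c c).im ≤ s ^ 2 + W * (s * q + (T * q) ^ 2) := by
            rw [hs2]; nlinarith [mul_le_mul_of_nonneg_left h4 hq0.le]
          have h6 : s * q ≤ s * (T * q) := by gcongr; nlinarith
          have h7 : s ^ 2 + W * (s * q + (T * q) ^ 2) ≤ W * (s + T * q) ^ 2 := by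
            have : 0 ≤ s * (T * q) := by positivity
            nlinarith [sq_nonneg s]
          rw [hph, mul_pow]
          refine (h5.trans h7).trans ?_
          gcongr; nlinarith

lemma I_pow (M : MscApi) (V : VhpApi) (hQ : QDetStmt) (hA : AprStmt) (hAv : AvgStmt)
    {K ε : ℝ} (hK : 1 ≤ K) (hε : 0 < ε) (j : ℕ) : I K ε ((1 / 2) ^ j) := by
  induction j with
  | zero => simpa using I_one M V hA hK hε
  | succ j ih =>
    have := step M V hQ hA hAv hK hε (by positivity) ih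
    rwa [pow_succ, mul_one_div]

end Iso32

open Iso32

/-- **L10, isotropic local law** -/
theorem iso (R : ResApi) (M : MscApi) (V : VhpApi) (hQ : QDetStmt) (hA : AprStmt)
    (hAv : AvgStmt) : IsoStmt := by
  intro K0 ε ε' hε hε'
  set K := max K0 1 with hKd
  have hK : 1 ≤ K := le_max_right _ _
  obtain ⟨j, hj⟩ := exists_pow_lt_of_lt_one (show 0 < ε' / 4 by positivity)
    (show (1 / 2 : ℝ) < 1 by norm_num)
  have h1 := I_pow M V hQ hA hAv hK hε j (ε' / 4) (by positivity)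
  have h2 := V.grid (Θ := fun n => (Fin n → ℝ) × (Fin n → ℝ)) K ε 10
    (R := fun n E θ z x => Ev K ε ((1 / 2) ^ j) (ε' / 4) n θ.1 θ.2 z (E.H x))
    (V.mono h1 (Eventually.of_forall fun n E θ x h _ => h))
  refine V.mono h2 ?_
  filter_upwards [M.near K ε hε, ev_le' 1, ev_le 4 (ε' / 2) (by positivity)]
    with n hnear hn h4 E θ x hx hu hv z hz0 a b ha hb
  have hz : Dom K ε n z := ⟨hz0.1.trans (le_max_left _ _), hz0.2.1, hz0.2.2.trans (le_max_left _ _)⟩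
  obtain ⟨z', hz', hzz, hev⟩ := hx z hz
  obtain ⟨-, -, hPsi, hm, -, -, -, hP1⟩ := hnear z z' hz hz' hzz
  have hn0 : (0 : ℝ) < n := by linarith
  have ha1 := inS_le hu hv ha
  have hb1 := inS_le hu hv hb
  have he := hev hu hv hz' a b ha hb
  have hl := R.lipz (R.herm E x) (dom_pos hn hz) (dom_pos hn hz') a b ha1 hb1
  have hab := abs_dot_le_one ha1 hb1
  set L : ℝ := (n : ℝ) ^ (ε' / 2) with hL
  have hLL : (n : ℝ) ^ ε' = L * L := by rw [hL, ← Real.rpow_add hn0]; congr 1; ring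
  have hn8 : 1 / (n : ℝ) ^ 8 ≤ Psi n z :=
    (one_div_le_one_div_of_le hn0 (le_self_pow₀ hn (by omega))).trans hP1
  have hP0 : 0 ≤ Psi n z := le_trans (by positivity) hP1
  have h5 : ‖z - z'‖ / (z.im * z'.im) ≤ 1 / (n : ℝ) ^ 8 := by
    have i1 := dom_inv hε hn hz
    have i2 := dom_inv hε hn hz'
    have i3 := (dom_pos hn hz).le
    calc _ ≤ (1 / (n : ℝ) ^ 10) / (1 / (n : ℝ) * (1 / (n : ℝ))) := by
          gcongr
      _ = _ := by field_simp
  have h6 : (n : ℝ) ^ (ε' / 4) * ph ((1 / 2) ^ j) n z' ≤ L * (2 * Psi n z) := by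
    have hT1 : 1 ≤ (n : ℝ) ^ (ε' / 4) := Real.one_le_rpow hn (by positivity)
    have hT : (n : ℝ) ^ ((1 / 2 : ℝ) ^ j) ≤ (n : ℝ) ^ (ε' / 4) :=
      Real.rpow_le_rpow_of_exponent_le hn hj.le
    have hq0 := qq_pos hn hz'
    have h7 : ph ((1 / 2) ^ j) n z' ≤ (n : ℝ) ^ (ε' / 4) * Psi n z' := by
      unfold ph Psi
      have := Real.sqrt_nonneg (qq n z' * (msc z').im)
      nlinarith
    have h8 : L = (n : ℝ) ^ (ε' / 4) * (n : ℝ) ^ (ε' / 4) := by
      rw [hL, ← Real.rpow_add hn0]; congr 1; ring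
    rw [h8, mul_assoc]
    gcongr
    exact h7.trans (by gcongr)
  have h9 : ‖(msc z' - msc z) * ((a ⬝ᵥ b : ℝ) : ℂ)‖ ≤ 1 / (n : ℝ) ^ 8 := by
    rw [norm_mul, Complex.norm_real, Real.norm_eq_abs, norm_sub_rev]
    exact (mul_le_of_le_one_right (norm_nonneg _) hab).trans hm
  calc _ = ‖(gb (E.H x) z a b - gb (E.H x) z' a b) + (gb (E.H x) z' a b - msc z' * ((a ⬝ᵥ b : ℝ) : ℂ))
        + (msc z' - msc z) * ((a ⬝ᵥ b : ℝ) : ℂ)‖ := by congr 1; ring
    _ ≤ Psi n z + L * (2 * Psi n z) + Psi n z :=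
        norm_add₃_le.trans (add_le_add_three ((hl.trans h5).trans hn8) (he.trans h6) (h9.trans hn8))
    _ ≤ _ := by rw [hLL]; nlinarith [mul_nonneg (by linarith : 0 ≤ L - 4) hP0,
        mul_nonneg (mul_nonneg (by linarith : 0 ≤ L) (by linarith : 0 ≤ L - 4)) hP0]

/-- **L13, isotropic delocalisation** -/
theorem del (R : ResApi) (V : VhpApi) (hA : AprStmt) (hN : NormStmt) : DelStmt := by
  intro ε hε
  obtain ⟨K0, hK0⟩ := hN
  set e : ℝ := min ε 1 / 2 with he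
  have he0 : 0 < e := by positivity
  have he1 : e ≤ 1 / 2 := by have := min_le_right ε 1; linarith
  have he2 : 2 * e ≤ ε := by have := min_le_left ε 1; linarith
  obtain ⟨C, hC, hV⟩ := hA (max K0 1) e he0
  refine V.mono (V.and (V.comp (Θ' := fun n => Fin n → ℝ) (fun _ v => (v, v)) hV)
    (V.comp (Θ' := fun n => Fin n → ℝ) (fun _ _ => ()) hK0)) ?_
  filter_upwards [ev_le' 1, ev_le C e he0] with n hn hCe E v x hx hv w l hw hw1
  obtain ⟨hb, ho⟩ := hx
  have hn0 : (0 : ℝ) < n := by linarith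
  have key : ∀ a, InS v v a → (w ⬝ᵥ a) ^ 2 ≤ (n : ℝ) ^ (-1 + ε) := by
    intro a ha
    by_cases h0 : w = 0
    · rw [h0, zero_dotProduct, zero_pow two_ne_zero]; positivity
    have hl : |l| ≤ opn (E.H x) := by
      have h1 := nrm_mulVec_le (E.H x) w
      rw [hw, nrm_smul] at h1
      exact le_of_mul_le_mul_right h1 (nrm_pos h0)
    set η : ℝ := (n : ℝ) ^ (-1 + e) with hη
    have hη0 : 0 < η := Real.rpow_pos_of_pos hn0 _
    have hη1 : η ≤ 1 := Real.rpow_le_one_of_one_le_of_nonpos hn (by linarith)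
    have hz : Dom (max K0 1) e n ⟨l, η⟩ :=
      ⟨(hl.trans ho).trans (le_max_left _ _), le_rfl, hη1.trans (le_max_right _ _)⟩
    have h2 := R.eigv (R.herm E x) (z := ⟨l, η⟩) hη0 w a l hw hw1
    have h3 : ‖(l : ℂ) - ⟨l, η⟩‖ ^ 2 = η ^ 2 := by
      rw [Complex.sq_norm, Complex.normSq_apply]; simp [sq]
    have h4 := (Complex.im_le_norm _).trans (hb hv hv _ hz a a ha ha)
    rw [h3] at h2
    calc _ ≤ _ := h2
      _ = η * (gb (E.H x) ⟨l, η⟩ a a).im := by field_simp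
      _ ≤ η * (n : ℝ) ^ e := by gcongr; exact h4.trans hCe
      _ = (n : ℝ) ^ (-1 + 2 * e) := by rw [hη, ← Real.rpow_add hn0]; congr 1; ring
      _ ≤ _ := Real.rpow_le_rpow_of_exponent_le hn (by linarith)
  refine ⟨key v (Or.inl rfl), fun k => ?_⟩
  rw [← dot_ee w k]
  exact key _ (Or.inr (Or.inr ⟨k, rfl⟩))

end Crest.Agent.T157.Ll
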