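import Crest.Agent.T157.LlMomA_91
import Crest.Agent.R146.Lind1_878
import Crest.Agent.T157.LlDef_91
import Crest.Agent.T157.NrmS_84
import Crest.Agent.T157.LlRes_91
import Crest.Agent.T157.LlIso_32_Mg
import Crest.Agent.T157.LlApr_75
import Crest.Agent.T157.LlInst_18
import Mathlib

-- ▼ part T157/LlMom_91
section

/-!
# Row 157, part E: local law — the moment lemma (helper91)
-/

set_option autoImplicit false

noncomputable section

namespace Crest.Agent.T157.Ll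

open Finset Function MeasureTheory ProbabilityTheory

namespace Law
variable {ν : Measure ℝ}

lemma pow6_le (x : ℝ) : x ^ 6 ≤ 720 * (Real.exp (1 * x) + Real.exp (-1 * x)) := by
  have h := Real.pow_div_factorial_le_exp |x| (abs_nonneg x) 6
  have h2 : |x| ^ 6 = x ^ 6 := by rw [show 6 = 2 * 3 from rfl, pow_mul, pow_mul, sq_abs]
  have h3 : Real.exp |x| ≤ Real.exp (1 * x) + Real.exp (-1 * x) := by
    rcases abs_cases x with h | h
    · rw [h.1, one_mul]; linarith [Real.exp_pos (-1 * x)]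
    · rw [h.1, neg_one_mul]; linarith [Real.exp_pos (1 * x)]
  rw [h2, show ((Nat.factorial 6 : ℕ) : ℝ) = 720 by norm_num [Nat.factorial],
    div_le_iff₀ (by norm_num)] at h
  linarith

lemma int6 (h : Law ν) : Integrable (fun x : ℝ => x ^ 6) ν := by
  refine Integrable.mono' (((h.sg.integrable_exp_mul 1).add (h.sg.integrable_exp_mul (-1))).const_mul 720)
    (by fun_prop) (ae_of_all _ fun x => ?_)
  rw [Real.norm_eq_abs, abs_of_nonneg (by positivity)]
  exact pow6_le x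

lemma mom6 (h : Law ν) : ∫ x, x ^ 6 ∂ν ≤ 4000 := by
  have i1 := h.sg.integrable_exp_mul 1
  have i2 := h.sg.integrable_exp_mul (-1)
  have h1 := h.sg.mgf_le 1
  have h2 := h.sg.mgf_le (-1)
  have e : Real.exp (1 / 2) ≤ 2.72 :=
    (Real.exp_le_exp.2 (by norm_num : (1 / 2 : ℝ) ≤ 1)).trans (by linarith [Real.exp_one_lt_d9])
  simp only [mgf, NNReal.coe_one, one_pow, mul_one, even_two, Even.neg_pow] at h1 h2
  calc _ ≤ ∫ x, 720 * (Real.exp (1 * x) + Real.exp (-1 * x)) ∂ν :=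
        integral_mono h.int6 ((i1.add i2).const_mul 720) pow6_le
    _ = 720 * (∫ x, Real.exp (1 * x) ∂ν + ∫ x, Real.exp (-1 * x) ∂ν) := by
        rw [integral_const_mul, integral_add i1 i2]
    _ ≤ _ := by linarith

lemma int_of_le (h : Law ν) {f : ℝ → ℝ} (hf : Measurable f) (hb : ∀ x, |f x| ≤ 3 + x ^ 6) :
    Integrable f ν := by
  have := h.prob
  exact Integrable.mono' ((integrable_const 3).add h.int6) hf.aestronglyMeasurable (ae_of_all _ hb)

lemma sq_le (x : ℝ) : x ^ 2 ≤ 1 + x ^ 6 := by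
  have := sq_nonneg x
  rcases le_total (x ^ 2) 1 with h | h
  · have : 0 ≤ x ^ 6 := by positivity
    linarith
  · have : x ^ 2 ≤ (x ^ 2) ^ 3 := le_self_pow₀ h (by norm_num)
    nlinarith

lemma int1 (h : Law ν) : Integrable (fun x : ℝ => x) ν :=
  h.int_of_le measurable_id fun x => by
    have := sq_le x
    have h2 := sq_nonneg (|x| - 1)
    have h3 := sq_abs x
    have h4 := abs_nonneg x
    nlinarith

lemma int2 (h : Law ν) : Integrable (fun x : ℝ => x ^ 2) ν :=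
  h.int_of_le (by fun_prop) fun x => by
    rw [abs_of_nonneg (sq_nonneg x)]; linarith [sq_le x]

lemma wt_sq_le (x : ℝ) : wt x ^ 2 ≤ x ^ 6 / 2 + 2 * x ^ 2 := by
  have h2 : |x| ^ 6 = x ^ 6 := by rw [show 6 = 2 * 3 from rfl, pow_mul, pow_mul, sq_abs]
  have h4 := sq_abs x
  unfold wt
  nlinarith [sq_nonneg (|x| ^ 3 / 2 - |x|)]

end Law

namespace Mom

variable {ι : Type} [Fintype ι] [DecidableEq ι]

lemma meas_upd (a : ι) : Measurable fun x : ι → ℝ => update x a (0 : ℝ) :=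
  (R146L878.measurable_updateMap a).comp (measurable_id.prodMk measurable_const)

/-- independence of `x a` and `update x a 0` -/
lemma indep_mul (ν : ι → Measure ℝ) [∀ a, IsProbabilityMeasure (ν a)] (a : ι) {φ : ℝ → ℝ}
    (hφ : Measurable φ) {h : (ι → ℝ) → ℂ} (hh : Measurable h) :
    ∫ x, (φ (x a) : ℂ) * h (update x a 0) ∂Measure.pi ν =
      ((∫ t, φ t ∂ν a : ℝ) : ℂ) * ∫ x, h (update x a 0) ∂Measure.pi ν := by
  have hm := R146L878.map_update_prod ν a (ν a)
  rw [update_eq_self] at hm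
  have hF : Measurable fun x : ι → ℝ => (φ (x a) : ℂ) * h (update x a 0) :=
    (Complex.measurable_ofReal.comp (hφ.comp (measurable_pi_apply a))).mul (hh.comp (meas_upd a))
  conv_lhs => rw [← hm, integral_map (R146L878.measurable_updateMap a).aemeasurable
    hF.aestronglyMeasurable]
  simp only [update_self, update_idem]
  have := integral_prod_mul (μ := Measure.pi ν) (ν := ν a) (fun x => h (update x a 0))
    fun t => (φ t : ℂ)
  simp only [mul_comm (h _)] at this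
  rw [this, integral_complex_ofReal, mul_comm]

lemma int_mul (ν : ι → Measure ℝ) [∀ a, IsProbabilityMeasure (ν a)] (a : ι) {φ : ℝ → ℝ}
    (hi : Integrable φ (ν a)) {h : (ι → ℝ) → ℂ} (hh : Measurable h) {C : ℝ}
    (hb : ∀ x, ‖h x‖ ≤ C) :
    Integrable (fun x : ι → ℝ => (φ (x a) : ℂ) * h (update x a 0)) (Measure.pi ν) := by
  have h1 : Integrable (fun x : ι → ℝ => (φ (x a) : ℂ)) (Measure.pi ν) :=
    ((measurePreserving_eval ν a).integrable_comp_of_integrable hi).ofReal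
  exact h1.mul_bdd (c := C) (hh.comp (meas_upd a)).aestronglyMeasurable (ae_of_all _ fun x => hb _)

lemma JJ_int {ν : ι → Measure ℝ} (hν : ∀ a, Law (ν a)) {D : MData ι} {B : ℝ} (hD : D.Ok B) (k : ℕ)
    (a : ι) : Integrable (JJ D k a) (Measure.pi ν) ∧ ∫ x, JJ D k a x ∂Measure.pi ν = 0 := by
  have := fun a => (hν a).prob
  have cX : Measurable fun x => (starRingEnd ℂ) (D.X x) := Complex.continuous_conj.measurable.comp hD.mX
  have cX1 : Measurable fun x => (starRingEnd ℂ) (D.X1 a x) :=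
    Complex.continuous_conj.measurable.comp (hD.mX1 a)
  have m0 : Measurable fun x => R0 k (D.X x) := (hD.mX.pow_const _).mul (cX.pow_const _)
  have m1 : Measurable fun x => R1 k (D.X x) (D.X1 a x) :=
    ((((hD.mX.pow_const _).mul (cX.pow_const _)).const_mul _).mul (hD.mX1 a)).add
      ((((hD.mX.pow_const _).mul (cX.pow_const _)).const_mul _).mul cX1)
  have mF : Measurable fun x => D.f a x * R0 k (D.X x) := (hD.mf a).mul m0
  have mG : Measurable fun x => D.f1 a x * R0 k (D.X x) + D.f a x * R1 k (D.X x) (D.X1 a x) :=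
    ((hD.mf1 a).mul m0).add ((hD.mf a).mul m1)
  have hB : 0 ≤ B := (norm_nonneg _).trans (hD.bX 0)
  have bF : ∀ x, ‖D.f a x * R0 k (D.X x)‖ ≤ B * B ^ (2 * k + 3) := fun x => by
    rw [norm_mul]; exact mul_le_mul (hD.bf a x) (norm_R0 k (hD.bX x)) (norm_nonneg _) hB
  have bG : ∀ x, ‖D.f1 a x * R0 k (D.X x) + D.f a x * R1 k (D.X x) (D.X1 a x)‖ ≤
      B * B ^ (2 * k + 3) + B * (2 * (k + 2) * B * B ^ (2 * k + 2)) := fun x => by
    refine (norm_add_le _ _).trans (add_le_add ?_ ?_)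
    · rw [norm_mul]; exact mul_le_mul (hD.bf1 a x) (norm_R0 k (hD.bX x)) (norm_nonneg _) hB
    · rw [norm_mul]
      exact mul_le_mul (hD.bf a x) (norm_R1 k (hD.bX x) (hD.bX1 a x)) (norm_nonneg _) hB
  have i2 : Integrable (fun t : ℝ => t ^ 2 - 1) (ν a) := (hν a).int2.sub (integrable_const 1)
  have j1 := int_mul ν a (φ := fun t => t) (hν a).int1 mF bF
  have j2 := int_mul ν a (φ := fun t => t ^ 2 - 1) i2 mG bG
  refine ⟨j1.add j2, ?_⟩
  have e1 := indep_mul ν a (φ := fun t => t) measurable_id mF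
  have e2 := indep_mul ν a (φ := fun t => t ^ 2 - 1) (by fun_prop) mG
  rw [(hν a).mean] at e1
  rw [integral_sub (hν a).int2 (integrable_const 1), (hν a).var] at e2
  simp only [integral_const, probReal_univ, smul_eq_mul, mul_one, sub_self, Complex.ofReal_zero,
    zero_mul] at e1 e2
  unfold JJ
  rw [integral_add j1 j2, e1, e2, add_zero]

/-- the moment bound -/
lemma moment_le {ν : ι → Measure ℝ} (hν : ∀ a, Law (ν a)) {D : MData ι} {B φ0 δ : ℝ} (k : ℕ)
    (hD : D.Ok B) (h0 : 0 < φ0) (hδ : 0 < δ)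
    (hbad : Measure.pi ν {x | ¬ D.Cond φ0 x} ≤ ENNReal.ofReal δ) :
    Integrable (fun x => ‖D.X x‖ ^ (2 * (k + 2))) (Measure.pi ν) ∧
    ∫ x, ‖D.X x‖ ^ (2 * (k + 2)) ∂Measure.pi ν ≤ (512 * (k + 2) ^ 2 * φ0) ^ (2 * (k + 2)) +
      10 ^ 5 * (Fintype.card ι + 1) * (k + 2) ^ 2 * B ^ (2 * (k + 2)) * (δ + √δ) := by
  have := fun a => (hν a).prob
  set μ := Measure.pi ν with hμ
  have hB : 0 ≤ B := (norm_nonneg _).trans (hD.bX 0)
  have iX : Integrable (fun x => ‖D.X x‖ ^ (2 * (k + 2))) μ :=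
    Integrable.of_bound (hD.mX.norm.pow_const _).aestronglyMeasurable (B ^ (2 * (k + 2)))
      (ae_of_all _ fun x => by
        rw [Real.norm_eq_abs, abs_of_nonneg (by positivity)]
        exact pow_le_pow_left₀ (norm_nonneg _) (hD.bX x) _)
  refine ⟨iX, ?_⟩
  set S := toMeasurable μ {x | ¬ D.Cond φ0 x} with hS
  have mS : MeasurableSet S := measurableSet_toMeasurable _ _
  have hSδ : μ.real S ≤ δ := by
    rw [hS, Measure.real, measure_toMeasurable]
    exact ENNReal.toReal_le_of_le_ofReal hδ.le hbad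
  set N : ℝ := (Fintype.card ι : ℝ) with hN
  have hN0 : 0 ≤ N := Nat.cast_nonneg _
  set C0 : ℝ := (512 * (k + 2) ^ 2 * φ0) ^ (2 * (k + 2)) with hC0
  set C1 : ℝ := 9 * (k + 2) ^ 2 * B ^ (2 * (k + 2)) with hC1
  have hC00 : 0 ≤ C0 := by positivity
  have hC10 : 0 ≤ C1 := by positivity
  have hs : 0 < √δ := Real.sqrt_pos.2 hδ
  have hss : √δ * √δ = δ := Real.mul_self_sqrt hδ.le
  set g : (ι → ℝ) → ℝ := fun x => ∑ a, (x a ^ 6 / 2 + 2 * x a ^ 2) with hg
  have ia : ∀ a, Integrable (fun x : ι → ℝ => x a ^ 6 / 2 + 2 * x a ^ 2) μ := fun a =>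
    (measurePreserving_eval ν a).integrable_comp_of_integrable
      (((hν a).int6.div_const 2).add ((hν a).int2.const_mul 2))
  have ig : Integrable g μ := integrable_finsetSum _ fun a _ => ia a
  have eg : ∫ x, g x ∂μ ≤ N * 2002 := by
    rw [hg, integral_finsetSum _ fun a _ => ia a]
    refine (sum_le_sum (g := fun _ => (2002 : ℝ)) fun a _ => ?_).trans_eq
      (by rw [sum_const, card_univ, nsmul_eq_mul])
    have h1 : ∫ x, (x a ^ 6 / 2 + 2 * x a ^ 2) ∂μ = ∫ t, (t ^ 6 / 2 + 2 * t ^ 2) ∂ν a := by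
      rw [← (measurePreserving_eval ν a).map_eq, integral_map (measurable_pi_apply a).aemeasurable
        (by fun_prop)]
    rw [h1, integral_add ((hν a).int6.div_const 2) ((hν a).int2.const_mul 2), integral_div,
      integral_const_mul, (hν a).var]
    linarith [(hν a).mom6]
  have i1 : Integrable (S.indicator fun _ => (1 : ℝ)) μ := (integrable_const 1).indicator mS
  have hpt : ∀ x, ‖((‖D.X x‖ ^ (2 * (k + 2)) : ℝ) : ℂ) - ∑ a, JJ D k a x‖ ≤
      ‖D.X x‖ ^ (2 * (k + 2)) / 2 + C0 / 2 +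
        C1 * (((N + 1) + N / (2 * √δ)) * S.indicator (fun _ => (1 : ℝ)) x + √δ / 2 * g x) := by
    intro x
    have g0 : 0 ≤ g x := sum_nonneg fun a _ => by positivity
    by_cases hx : x ∈ S
    · rw [Set.indicator_of_mem hx, mul_one]
      have h1 : ∑ a, wt (x a) ≤ N / (2 * √δ) + √δ / 2 * g x := by
        rw [hg, mul_sum, show N / (2 * √δ) = ∑ _a : ι, 1 / (2 * √δ) by
          rw [sum_const, card_univ, nsmul_eq_mul, mul_one_div], ← sum_add_distrib]
        refine sum_le_sum fun a _ => ?_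
        have h2 := Law.wt_sq_le (x a)
        have h3 : wt (x a) ≤ 1 / (2 * √δ) + √δ / 2 * wt (x a) ^ 2 := by
          have : 1 / (2 * √δ) + √δ / 2 * wt (x a) ^ 2 - wt (x a) =
              (1 - √δ * wt (x a)) ^ 2 / (2 * √δ) := by field_simp; ring
          have h4 : 0 ≤ (1 - √δ * wt (x a)) ^ 2 / (2 * √δ) := by positivity
          linarith
        have := mul_le_mul_of_nonneg_left h2 (by positivity : 0 ≤ √δ / 2)
        linarith
      have h2 := bad_le hD k x
      have h3 : 0 ≤ ‖D.X x‖ ^ (2 * (k + 2)) := by positivity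
      have h4 := mul_le_mul_of_nonneg_left h1 hC10
      rw [← hC1, ← hN] at h2
      nlinarith
    · rw [Set.indicator_of_notMem hx, mul_zero, zero_add]
      have hc : D.Cond φ0 x := by
        by_contra hc
        exact hx (subset_toMeasurable _ _ hc)
      have h2 := good_le hD k h0 hc
      have : 0 ≤ C1 * (√δ / 2 * g x) := by positivity
      linarith
  have iJ : Integrable (fun x => ∑ a, JJ D k a x) μ :=
    integrable_finsetSum _ fun a _ => (JJ_int hν hD k a).1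
  have eI : ∫ x, (((‖D.X x‖ ^ (2 * (k + 2)) : ℝ) : ℂ) - ∑ a, JJ D k a x) ∂μ =
      ((∫ x, ‖D.X x‖ ^ (2 * (k + 2)) ∂μ : ℝ) : ℂ) := by
    have iX' : Integrable (fun x => ((‖D.X x‖ ^ (2 * (k + 2)) : ℝ) : ℂ)) μ := iX.ofReal
    rw [integral_sub iX' iJ, integral_finsetSum _ fun a _ => (JJ_int hν hD k a).1,
      sum_eq_zero fun a _ => (JJ_int hν hD k a).2, sub_zero, integral_complex_ofReal]
  have iA : Integrable (fun x => ‖D.X x‖ ^ (2 * (k + 2)) / 2 + C0 / 2) μ :=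
    (iX.div_const 2).add (integrable_const _)
  have iB1 := i1.const_mul ((N + 1) + N / (2 * √δ))
  have iB2 := ig.const_mul (√δ / 2)
  have iB : Integrable (fun x => C1 * (((N + 1) + N / (2 * √δ)) * S.indicator (fun _ => (1 : ℝ)) x +
      √δ / 2 * g x)) μ := (iB1.add iB2).const_mul C1
  have iAB : Integrable (fun x => ‖D.X x‖ ^ (2 * (k + 2)) / 2 + C0 / 2 +
      C1 * (((N + 1) + N / (2 * √δ)) * S.indicator (fun _ => (1 : ℝ)) x + √δ / 2 * g x)) μ := iA.add iB
  have key := norm_integral_le_of_norm_le iAB (ae_of_all _ hpt)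
  rw [eI, Complex.norm_real, Real.norm_eq_abs] at key
  have e2 : ∫ x, (‖D.X x‖ ^ (2 * (k + 2)) / 2 + C0 / 2 +
      C1 * (((N + 1) + N / (2 * √δ)) * S.indicator (fun _ => (1 : ℝ)) x + √δ / 2 * g x)) ∂μ =
      (∫ x, ‖D.X x‖ ^ (2 * (k + 2)) ∂μ) / 2 + C0 / 2 +
      C1 * (((N + 1) + N / (2 * √δ)) * μ.real S + √δ / 2 * ∫ x, g x ∂μ) := by
    rw [integral_add iA iB, integral_add (iX.div_const 2) (integrable_const _),
      integral_const_mul, integral_add iB1 iB2, integral_const_mul, integral_const_mul, integral_div,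
      integral_indicator_const _ mS]
    simp
  rw [e2] at key
  have h5 : ((N + 1) + N / (2 * √δ)) * μ.real S ≤ (N + 1) * δ + N / 2 * √δ := by
    refine (mul_le_mul_of_nonneg_left hSδ (by positivity)).trans_eq ?_
    rw [add_mul]
    congr 1
    field_simp
    nlinarith
  have h6 : √δ / 2 * ∫ x, g x ∂μ ≤ √δ / 2 * (N * 2002) := mul_le_mul_of_nonneg_left eg (by positivity)
  have h7 : ((N + 1) + N / (2 * √δ)) * μ.real S + √δ / 2 * ∫ x, g x ∂μ ≤ 1002 * ((N + 1) * (δ + √δ)) := by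
    nlinarith [mul_nonneg hN0 hs.le, mul_nonneg hN0 hδ.le]
  have h8 := mul_le_mul_of_nonneg_left h7 hC10
  have h9 := le_abs_self (∫ x, ‖D.X x‖ ^ (2 * (k + 2)) ∂μ)
  have h10 : 0 ≤ ((k : ℝ) + 2) ^ 2 * B ^ (2 * (k + 2)) * ((N + 1) * (δ + √δ)) := by positivity
  rw [hC1] at h8
  nlinarith

end Mom

/-- **the recursive moment lemma** -/
theorem momStmt : MomStmt := by
  intro ι _ _ ν hν D B φ0 δ l p hD _ h0 hδ hl hp hbad
  have := fun a => (hν a).prob
  obtain ⟨k, rfl⟩ : ∃ k, p = k + 2 := ⟨p - 2, by omega⟩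
  obtain ⟨iX, hm⟩ := Mom.moment_le hν k hD h0 hδ hbad
  have hl2 : 0 < l ^ (2 * (k + 2)) := by positivity
  have h1 := mul_meas_ge_le_integral_of_nonneg (ae_of_all _ fun x => by positivity) iX (l ^ (2 * (k + 2)))
  have h2 : {x | l < ‖D.X x‖} ⊆ {x | l ^ (2 * (k + 2)) ≤ ‖D.X x‖ ^ (2 * (k + 2))} :=
    fun x hx => pow_le_pow_left₀ hl.le (le_of_lt hx) _
  refine (measure_mono h2).trans ?_
  rw [← ofReal_measureReal]
  refine ENNReal.ofReal_le_ofReal ?_
  rw [le_div_iff₀' hl2]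
  push_cast
  exact h1.trans hm

end Crest.Agent.T157.Ll
end
end

-- ▼ part T157/LlEdge_84
section

/-!
# Row 157, part E: crude norm bound and absence of outliers for Wigner ensembles (helper84)

* `Ens.opn_tail`, `norm : NormStmt`;
* `edge_det` (deterministic), `edge : EdgeStmt`.
-/

set_option autoImplicit false

noncomputable section

namespace Crest.Agent.T157.Ll

open MeasureTheory ProbabilityTheory Matrix Filter Finset
open Crest.Agent.T157.Eig Crest.Agent.T157.Nrm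

variable {n : ℕ}

lemma bil_Dl (i j : Fin n) (u v : Fin n → ℝ) : u ⬝ᵥ Dl i j *ᵥ v = u i * v j + u j * v i := by
  simp [Dl, add_mulVec, single_mulVec, dotProduct, Function.update_apply, mul_add, sum_add_distrib]

lemma Ens.bil (E : Ens n) (x : E.ι → ℝ) (u v : Fin n → ℝ) :
    u ⬝ᵥ E.H x *ᵥ v = ∑ a, E.c a * (u (E.i a) * v (E.j a) + u (E.j a) * v (E.i a)) * x a := by
  rw [Ens.H, sum_mulVec, dotProduct_sum]
  refine sum_congr rfl fun a _ => ?_
  rw [smul_mulVec, dotProduct_smul, bil_Dl, smul_eq_mul]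
  ring

lemma Ens.cov_le' (E : Ens n) (F : Fin n → Fin n → ℝ) (hF : ∀ k l, 0 ≤ F k l) :
    ∑ a, E.c a ^ 2 * (F (E.i a) (E.j a) + F (E.j a) (E.i a)) ≤ 2 * (∑ k, ∑ l, F k l) / n := by
  rw [Ens.cov E F]
  refine div_le_div_of_nonneg_right ?_ (Nat.cast_nonneg n)
  have : ∑ k, E.d k * F k k ≤ ∑ k, ∑ l, F k l := by
    refine sum_le_sum fun k _ => ?_
    have h1 := single_le_sum (f := F k) (fun l _ => hF k l) (mem_univ k)
    have h2 := mul_le_mul_of_nonneg_right (abs_le.1 (E.d_le k)).2 (hF k k)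
    linarith
  linarith

lemma Ens.proxy (E : Ens n) {u v : Fin n → ℝ} (hu : u ⬝ᵥ u ≤ 1) (hv : v ⬝ᵥ v ≤ 1) :
    ∑ a, (E.c a * (u (E.i a) * v (E.j a) + u (E.j a) * v (E.i a))) ^ 2 ≤ 4 / n := by
  have h := E.cov_le' (fun k l => u k * u k * (v l * v l)) fun k l =>
    mul_nonneg (mul_self_nonneg _) (mul_self_nonneg _)
  have e : ∑ k, ∑ l, u k * u k * (v l * v l) = (u ⬝ᵥ u) * (v ⬝ᵥ v) := by
    rw [dotProduct, dotProduct, sum_mul_sum]
  rw [e] at h
  have h1 : (u ⬝ᵥ u) * (v ⬝ᵥ v) ≤ 1 := mul_le_one₀ hu (dot_self_nonneg v) hv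
  calc _ ≤ ∑ a, 2 * (E.c a ^ 2 * (u (E.i a) * u (E.i a) * (v (E.j a) * v (E.j a)) +
        u (E.j a) * u (E.j a) * (v (E.i a) * v (E.i a)))) := by
        refine sum_le_sum fun a _ => ?_
        rw [mul_pow]
        nlinarith [mul_nonneg (sq_nonneg (E.c a))
          (sq_nonneg (u (E.i a) * v (E.j a) - u (E.j a) * v (E.i a)))]
    _ ≤ 2 * (2 * ((u ⬝ᵥ u) * (v ⬝ᵥ v)) / n) := by rw [← mul_sum]; linarith
    _ ≤ 4 / n := by
        rw [← mul_div_assoc]
        exact div_le_div_of_nonneg_right (by linarith) (Nat.cast_nonneg n)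

theorem Ens.opn_tail (E : Ens n) {K : ℝ} (hK : 0 ≤ K) :
    E.μ.real {x | K < opn (E.H x)} ≤ Real.exp (-(n * (K ^ 2 / 128 - 4))) := by
  rcases Nat.eq_zero_or_pos n with rfl | hn
  · simp
  have hn' : (0 : ℝ) < n := Nat.cast_pos.2 hn
  obtain ⟨N, hNc, hN1, hN⟩ := exists_half_net (Fin n)
  have hsub : {x | K < opn (E.H x)} ⊆
      ⋃ q ∈ N ×ˢ N, {x : E.ι → ℝ | K / 4 ≤ q.1 ⬝ᵥ E.H x *ᵥ q.2} := by
    intro g hg
    by_contra hc
    simp only [Set.mem_iUnion, not_exists, Set.mem_ofPred_eq, not_le, mem_product] at hc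
    have := opn_le_of_net hN hN (A := E.H g) (M := K / 4) fun c hc' d hd =>
      (hc (c, d) ⟨hc', hd⟩).le
    have hg' : K < opn (E.H g) := hg
    linarith
  have h1 : ∀ q ∈ N ×ˢ N, E.μ.real {x : E.ι → ℝ | K / 4 ≤ q.1 ⬝ᵥ E.H x *ᵥ q.2} ≤
      Real.exp (-(n * (K ^ 2 / 128))) := by
    intro q hq
    rw [mem_product] at hq
    have a1 := (nrm_le_iff zero_le_one).1 (hN1 _ hq.1)
    have a2 := (nrm_le_iff zero_le_one).1 (hN1 _ hq.2)
    rw [one_pow] at a1 a2
    have := (subG_dot E.ν (fun a => (E.law a).sg)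
      (fun a => E.c a * (q.1 (E.i a) * q.2 (E.j a) + q.1 (E.j a) * q.2 (E.i a)))
      (c := NNReal.mk (4 / n) (by positivity)) (E.proxy a1 a2)).measure_ge_le
      (ε := K / 4) (by positivity)
    simp only [E.bil]
    refine this.trans (le_of_eq ?_)
    rw [NNReal.coe_mk]
    congr 1
    field_simp
    ring
  refine (measureReal_mono hsub (measure_ne_top _ _)).trans
    ((measureReal_biUnion_finset_le _ _).trans ((sum_le_sum h1).trans ?_))
  rw [sum_const, card_product, nsmul_eq_mul]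
  have h5 : ((N.card * N.card : ℕ) : ℝ) ≤ Real.exp (n * 4) := by
    have h6 : (N.card : ℝ) ≤ 5 ^ n := by simpa using (Nat.cast_le (α := ℝ)).2 hNc
    have h7 : (5 : ℝ) ≤ Real.exp 2 := by
      have := Real.quadratic_le_exp_of_nonneg (x := 2) (by norm_num)
      linarith
    have h8 : (5 : ℝ) ^ n ≤ Real.exp (n * 2) := by
      rw [Real.exp_nat_mul]; exact pow_le_pow_left₀ (by norm_num) h7 n
    rw [show (n : ℝ) * 4 = n * 2 + n * 2 by ring, Real.exp_add]
    push_cast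
    exact mul_le_mul (h6.trans h8) (h6.trans h8) (Nat.cast_nonneg _) (Real.exp_pos _).le
  refine (mul_le_mul_of_nonneg_right h5 (Real.exp_pos _).le).trans (le_of_eq ?_)
  rw [← Real.exp_add]
  congr 1
  ring

/-- the crude norm bound, with the explicit constant `26` -/
theorem norm26 : VhpM (Θ := fun _ => Unit) fun _ _ A => opn A ≤ 26 := by
  refine ⟨1, one_pos, Eventually.of_forall fun n E _ => ?_⟩
  have h := E.opn_tail (K := 26) (by norm_num)
  simp only [not_le]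
  rw [← ofReal_measureReal (measure_ne_top _ _)]
  refine ENNReal.ofReal_le_ofReal (h.trans (Real.exp_le_exp.2 ?_))
  rw [Real.rpow_one]
  nlinarith [Nat.cast_nonneg (α := ℝ) n]

theorem normStmt : NormStmt := ⟨26, norm26⟩

theorem norm (_R : ResApi) : NormStmt := normStmt

/-- an eigenvalue at distance `0` from `Re z` forces `Im m ≥ 1 / (n η)` -/
lemma qq_le_im (R : ResApi) {A : Matrix (Fin n) (Fin n) ℝ} (hA : A.IsHermitian) {k : ℕ}
    (hk : k < n) {z : ℂ} (hz : 0 < z.im) (hl : z.re = lam A k) : qq n z ≤ (st A z).im := by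
  rw [R.spec_st hA hz.ne', ← Complex.ofReal_natCast, Complex.div_ofReal_im, Complex.im_sum, qq,
    mul_comm, ← div_div]
  refine div_le_div_of_nonneg_right ?_ (Nat.cast_nonneg n)
  refine le_trans (le_of_eq ?_) (single_le_sum
    (f := fun k => (((lam A k : ℝ) : ℂ) - z)⁻¹.im) (fun j _ => ?_) (mem_range.2 hk))
  · simp only [Complex.inv_im, Complex.normSq_apply, Complex.sub_re, Complex.sub_im,
      Complex.ofReal_re, Complex.ofReal_im, hl]
    field_simp
    ring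
  · simp only [Complex.inv_im, Complex.sub_im, Complex.ofReal_im]
    exact div_nonneg (by linarith) (Complex.normSq_nonneg _)

/-- the deterministic part of the edge bound -/
lemma edge_det (R : ResApi) (M : MscApi) {A : Matrix (Fin n) (Fin n) ℝ} (hA : A.IsHermitian)
    {K q t : ℝ} (hK : 1 ≤ K) (hq : 0 < q) (hq1 : q ≤ 1) (hnq : n * q ^ 3 = 1) (ht : 2 * K + 1 < t)
    (hN : opn A ≤ K)
    (hP : ∀ z : ℂ, |z.re| ≤ K → z.im = q ^ 2 → ‖PP A z‖ ≤ t * Phi n z) :
    opn A ≤ 2 + q ^ 2 * t ^ 4 := by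
  have ht0 : 0 < t := by linarith
  refine opn_le_of_lam hA (by positivity) fun k hk => ?_
  rw [Fintype.card_fin] at hk
  by_contra hc
  rw [not_le] at hc
  set l := lam A k with hl
  have hlK : |l| ≤ K := (abs_lam_le hA k).trans hN
  set z : ℂ := ⟨l, q ^ 2⟩ with hz
  have hre : z.re = l := rfl
  have him : z.im = q ^ 2 := rfl
  have hz0 : 0 < z.im := by rw [him]; positivity
  have hqq : qq n z = q := by
    rw [qq, him, div_eq_iff (by
      intro h
      have : (n : ℝ) * q ^ 3 = n * q ^ 2 * q := by ring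
      rw [this, h, zero_mul] at hnq
      exact zero_ne_one hnq)]
    linarith
  have h1 := qq_le_im R hA hk hz0 hre
  rw [hqq] at h1
  obtain ⟨δ, -, -, -, -, -, h2, h3, -⟩ := M.dist hz0 (m := st A z) (hq.le.trans h1)
  have h4 := hP z hlK rfl
  have hκ : 0 < q ^ 2 * t ^ 4 := by positivity
  have h5 := M.outside hz0 (by rw [hre]; linarith) (by rw [him]; nlinarith)
  rw [hre, him] at h5
  have h6 : al z * (msc z).im ≤ (K * q) ^ 2 := by
    refine h5.trans ?_
    rw [mul_pow]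
    exact mul_le_mul_of_nonneg_right (by nlinarith) (sq_nonneg q)
  have h7 : Phi n z ≤ (K + 1) * q ^ 2 := by
    rw [Phi, hqq]
    have := Real.sqrt_le_iff.2 ⟨(by positivity : 0 ≤ K * q), h6⟩
    nlinarith
  have ha0 : 0 ≤ al z := norm_nonneg _
  have h8 : al z * q ≤ q * (q * (K + 2 * t * (K + 1))) := by
    have b1 := mul_le_mul_of_nonneg_left (h1.trans h3) ha0
    have b2 := mul_le_mul_of_nonneg_left h7 ht0.le
    have b3 := mul_le_mul_of_nonneg_right hlK (sq_nonneg q)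
    rw [PP] at h4
    nlinarith
  have h9 : al z ≤ q * (K + 2 * t * (K + 1)) := by
    rw [mul_comm] at h8
    exact le_of_mul_le_mul_left h8 hq
  have h10 : (2 * q * t ^ 2) ^ 2 ≤ al z ^ 2 := by
    rw [M.al_sq]
    have b1 : |l - 2| ≤ ‖z - 2‖ := by simpa [hre] using Complex.abs_re_le_norm (z - 2)
    have b2 : |l + 2| ≤ ‖z + 2‖ := by simpa [hre] using Complex.abs_re_le_norm (z + 2)
    refine le_trans ?_ (mul_le_mul b1 b2 (abs_nonneg _) (norm_nonneg _))
    rw [← abs_mul]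
    refine le_trans ?_ (le_abs_self _)
    have b3 : (2 + q ^ 2 * t ^ 4) ^ 2 ≤ l ^ 2 := by
      rw [← sq_abs l]
      exact pow_le_pow_left₀ (by positivity) hc.le 2
    nlinarith
  have h11 : 2 * q * t ^ 2 ≤ al z := (pow_le_pow_iff_left₀ (by positivity) ha0 two_ne_zero).1 h10
  have h12 : 2 * t ^ 2 ≤ K + 2 * t * (K + 1) := by
    refine le_of_mul_le_mul_left ?_ hq
    linarith
  nlinarith

theorem edge (R : ResApi) (M : MscApi) (V : VhpApi) (hP : PStmt) (hN : NormStmt) : EdgeStmt := by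
  intro ε hε
  obtain ⟨K0, hN⟩ := hN
  have h := V.and hN (hP (max K0 1) (1 / 3) (ε / 4) (by norm_num) (by positivity))
  refine V.mono h ?_
  have h1 : ∀ᶠ n : ℕ in atTop, 2 * max K0 1 + 1 < (n : ℝ) ^ (ε / 4) :=
    ((tendsto_rpow_atTop (by positivity)).comp tendsto_natCast_atTop_atTop).eventually_gt_atTop _
  filter_upwards [h1, eventually_ge_atTop 1] with n hn hn1 E _ x hx
  have hn1' : (1 : ℝ) ≤ n := Nat.one_le_cast.2 hn1
  have hn0 : (0 : ℝ) < n := by linarith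
  have e1 : ((n : ℝ) ^ (-(1 / 3) : ℝ)) ^ 2 = (n : ℝ) ^ (-1 + 1 / 3 : ℝ) := by
    rw [← Real.rpow_natCast, ← Real.rpow_mul hn0.le]; norm_num
  have hq1 : (n : ℝ) ^ (-(1 / 3) : ℝ) ≤ 1 := Real.rpow_le_one_of_one_le_of_nonpos hn1' (by norm_num)
  have hq0 : 0 < (n : ℝ) ^ (-(1 / 3) : ℝ) := Real.rpow_pos_of_pos hn0 _
  have := edge_det R M (R.herm E x) (K := max K0 1) (q := (n : ℝ) ^ (-(1 / 3) : ℝ))
    (t := (n : ℝ) ^ (ε / 4)) (le_max_right _ _) hq0 hq1
    (by
      rw [← Real.rpow_natCast _ 3, ← Real.rpow_mul hn0.le,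
        show -(1 / 3 : ℝ) * ((3 : ℕ) : ℝ) = -1 by norm_num, Real.rpow_neg_one, mul_inv_cancel₀ hn0.ne'])
    hn (hx.1.trans (le_max_left _ _))
    fun z hz hz' => hx.2 z ⟨hz, by rw [hz', e1], by
      rw [hz']
      exact (pow_le_one₀ hq0.le hq1).trans (le_max_right _ _)⟩
  refine this.trans (le_of_eq ?_)
  rw [e1, ← Real.rpow_natCast _ 4, ← Real.rpow_mul hn0.le, ← Real.rpow_add hn0]
  congr 2
  push_cast
  ring

end Crest.Agent.T157.Ll

end
end

-- ▼ part T157/LlCnt_59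
section

/-!
# Row 157, part E: eigenvalue counting from the averaged local law (`CntStmt`) (helper59)

`F z = (1/n) ∑ log (z - λ_k)`, `L z = msc z ^ 2 / 2 - log (- msc z)`, `F' = - st`, `L' = - msc`.
-/

set_option autoImplicit false

noncomputable section

namespace Crest.Agent.T157.Ll

open MeasureTheory Matrix Filter Function Topology
open Crest.Agent.T157.E Crest.Agent.T157.Eig

namespace Cnt59

/-- the point `E + i η` -/
def pt (E η : ℝ) : ℂ := ⟨E, η⟩

@[simp] lemma pt_re (E η : ℝ) : (pt E η).re = E := rfl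
@[simp] lemma pt_im (E η : ℝ) : (pt E η).im = η := rfl

lemma pt_eq (E η : ℝ) : pt E η = (E : ℂ) + (η : ℂ) * Complex.I := by
  apply Complex.ext <;> simp

lemma norm_pt_sub_le (E η E' η' : ℝ) : ‖pt E η - pt E' η'‖ ≤ |E - E'| + |η - η'| := by
  have := Complex.norm_le_abs_re_add_abs_im (pt E η - pt E' η')
  simpa using this

/-- variation along a vertical segment when the derivative is `O(1/η)` -/
lemma vert {D D' : ℂ → ℂ} (hD : ∀ z : ℂ, 0 < z.im → HasDerivAt D (D' z) z) {E a b c : ℝ}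
    (ha : 0 < a) (hab : a ≤ b) (h : ∀ η : ℝ, a ≤ η → η ≤ b → ‖D' (pt E η)‖ ≤ c / η) :
    ‖D (pt E b) - D (pt E a)‖ ≤ c * (Real.log b - Real.log a) := by
  have hb : 0 < b := ha.trans_le hab
  have hl : Real.log a ≤ Real.log b := Real.log_le_log ha hab
  have hd : ∀ s : ℝ, HasDerivAt (fun s : ℝ => D (pt E (Real.exp s)))
      (D' (pt E (Real.exp s)) * ((Real.exp s : ℂ) * Complex.I)) s := by
    intro s
    have h1 : HasDerivAt (fun s : ℝ => pt E (Real.exp s)) ((Real.exp s : ℂ) * Complex.I) s := by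
      simp only [pt_eq]
      exact (((Real.hasDerivAt_exp s).ofReal_comp).mul_const Complex.I).const_add _
    have h2 := hD (pt E (Real.exp s)) (by simpa using Real.exp_pos s)
    exact h2.comp_of_eq s h1 rfl
  have key := Convex.norm_image_sub_le_of_norm_hasDerivWithin_le
    (f := fun s : ℝ => D (pt E (Real.exp s)))
    (f' := fun s => D' (pt E (Real.exp s)) * ((Real.exp s : ℂ) * Complex.I)) (C := c)
    (s := Set.Icc (Real.log a) (Real.log b)) (x := Real.log a) (y := Real.log b)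
    (fun s _ => (hd s).hasDerivWithinAt) (fun s hs => by
      have e1 : a ≤ Real.exp s := by
        rw [← Real.exp_log ha]; exact Real.exp_le_exp.2 hs.1
      have e2 : Real.exp s ≤ b := by
        rw [← Real.exp_log hb]; exact Real.exp_le_exp.2 hs.2
      have := h _ e1 e2
      rw [norm_mul, norm_mul, Complex.norm_I, mul_one, Complex.norm_real, Real.norm_eq_abs,
        abs_of_pos (Real.exp_pos s)]
      rwa [le_div_iff₀ (Real.exp_pos s)] at this)
    (convex_Icc _ _) (Set.left_mem_Icc.2 hl) (Set.right_mem_Icc.2 hl)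
  simp only [Real.exp_log ha, Real.exp_log hb] at key
  rwa [Real.norm_eq_abs, abs_of_nonneg (sub_nonneg.2 hl)] at key

/-- variation along a horizontal segment -/
lemma horiz {D D' : ℂ → ℂ} (hD : ∀ z : ℂ, 0 < z.im → HasDerivAt D (D' z) z) {E E' K η c : ℝ}
    (hη : 0 < η) (hE : |E| ≤ K) (hE' : |E'| ≤ K) (h : ∀ x : ℝ, |x| ≤ K → ‖D' (pt x η)‖ ≤ c) :
    ‖D (pt E' η) - D (pt E η)‖ ≤ c * |E' - E| := by
  have hd : ∀ s : ℝ, HasDerivAt (fun s : ℝ => D (pt s η)) (D' (pt s η) * 1) s := by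
    intro s
    have h1 : HasDerivAt (fun s : ℝ => pt s η) (1 : ℂ) s := by
      simp only [pt_eq]
      simpa using ((hasDerivAt_id s).ofReal_comp).add_const ((η : ℂ) * Complex.I)
    have h2 := hD (pt s η) (by simpa using hη)
    exact h2.comp_of_eq s h1 rfl
  have key := Convex.norm_image_sub_le_of_norm_hasDerivWithin_le
    (f := fun s : ℝ => D (pt s η)) (f' := fun s => D' (pt s η) * 1) (C := c)
    (s := Set.Icc (-K) K) (x := E) (y := E')
    (fun s _ => (hd s).hasDerivWithinAt) (fun s hs => by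
      rw [mul_one]; exact h s (abs_le.2 hs))
    (convex_Icc _ _) (abs_le.1 hE) (abs_le.1 hE')
  rwa [Real.norm_eq_abs] at key

/-- the logarithmic potential of the semicircle law -/
def LL (z : ℂ) : ℂ := msc z ^ 2 / 2 - Complex.log (-msc z)

lemma LL_deriv (M : MscApi) {z : ℂ} (hz : 0 < z.im) : HasDerivAt LL (-msc z) z := by
  have hi := M.im_pos hz
  have hal : z + 2 * msc z ≠ 0 := by
    intro h
    have := M.im_le_al hz
    rw [al, h, norm_zero] at this
    linarith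
  have hs : -msc z ∈ Complex.slitPlane := by
    right; simpa using hi.ne'
  have h1 := M.deriv hz
  have h2 := ((h1.pow 2).div_const 2).sub (h1.neg.clog hs)
  refine HasDerivAt.congr_deriv (f := LL) h2 ?_
  have hw : -msc z / (z + 2 * msc z) * (z + 2 * msc z) = -msc z := div_mul_cancel₀ _ hal
  simp only [Pi.neg_apply]
  generalize -msc z / (z + 2 * msc z) = w at hw ⊢
  rw [neg_div_neg_eq, div_eq_mul_inv w, M.inv_eq]
  push_cast
  linear_combination hw

lemma LL_lip (M : MscApi) {z w : ℂ} (hz : 0 < z.im) (hw : 0 < w.im) : ‖LL z - LL w‖ ≤ ‖z - w‖ := by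
  have key := Convex.norm_image_sub_le_of_norm_hasDerivWithin_le (f := LL)
    (f' := fun z => -msc z) (C := 1) (s := {z : ℂ | 0 < z.im}) (x := w) (y := z)
    (fun y hy => (LL_deriv M hy).hasDerivWithinAt) (fun y hy => by
      rw [norm_neg]; exact M.norm_le hy) (convex_halfSpace_im_gt 0) hw hz
  simpa using key

lemma LL_val (M : MscApi) {ρ t : ℝ} (h0 : 0 < ρ) (h1 : ρ < 1) (ht0 : 0 < t) (ht1 : t < Real.pi) :
    (LL (pt ((ρ + ρ⁻¹) * Real.cos t) ((ρ⁻¹ - ρ) * Real.sin t))).im =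
      t - ρ ^ 2 * (Real.sin t * Real.cos t) := by
  have hs : 0 < Real.sin t := Real.sin_pos_of_pos_of_lt_pi ht0 ht1
  have hr : 0 < ρ⁻¹ - ρ := by
    have : 1 < ρ⁻¹ := one_lt_inv₀ h0 |>.2 h1
    linarith
  have hsc := Real.sin_sq_add_cos_sq t
  have hinv : ρ * ρ⁻¹ = 1 := mul_inv_cancel₀ h0.ne'
  have hm : pt (-(ρ * Real.cos t)) (ρ * Real.sin t) =
      msc (pt ((ρ + ρ⁻¹) * Real.cos t) ((ρ⁻¹ - ρ) * Real.sin t)) := by
    refine M.uniq (by simpa using mul_pos hr hs) (by simpa using (mul_pos h0 hs).le) ?_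
    apply Complex.ext
    · simp only [sq, Complex.add_re, Complex.mul_re, pt_re, pt_im, Complex.one_re, Complex.zero_re]
      linear_combination (-(Real.sin t ^ 2 + Real.cos t ^ 2)) * hinv - hsc
    · simp only [sq, Complex.add_im, Complex.mul_im, pt_re, pt_im, Complex.one_im, Complex.zero_im]
      ring
  have ha : Complex.arg (-pt (-(ρ * Real.cos t)) (ρ * Real.sin t)) = -t := by
    have := Complex.arg_mul_cos_add_sin_mul_I h0 (θ := -t) ⟨by linarith, by linarith⟩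
    rw [← this]
    congr 1
    apply Complex.ext
    · simp [← Complex.ofReal_cos, ← Complex.ofReal_sin]
    · simp [← Complex.ofReal_cos, ← Complex.ofReal_sin]
  rw [LL, ← hm, Complex.sub_im, Complex.log_im, ha, Complex.div_ofNat_im]
  simp only [sq, Complex.mul_im, pt_re, pt_im]
  ring

/-- boundary values of `Im L` -/
lemma LL_bdry (M : MscApi) {ρ t : ℝ} (h0 : 0 < ρ) (h1 : ρ ≤ 1) (ht : t ∈ Set.Icc (0 : ℝ) Real.pi)
    {z : ℂ} (hz : 0 < z.im) :
    |(LL z).im - (t - ρ ^ 2 * (Real.sin t * Real.cos t))| ≤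
      |z.re - (ρ + ρ⁻¹) * Real.cos t| + |z.im - (ρ⁻¹ - ρ) * Real.sin t| := by
  have hin : ∀ r s : ℝ, 0 < r → r < 1 → 0 < s → s < Real.pi →
      |(LL z).im - (s - r ^ 2 * (Real.sin s * Real.cos s))| ≤
        |z.re - (r + r⁻¹) * Real.cos s| + |z.im - (r⁻¹ - r) * Real.sin s| := by
    intro r s r0 r1 s0 s1
    have hs : 0 < Real.sin s := Real.sin_pos_of_pos_of_lt_pi s0 s1
    have hr : 0 < r⁻¹ - r := by
      have : 1 < r⁻¹ := one_lt_inv₀ r0 |>.2 r1
      linarith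
    rw [← LL_val M r0 r1 s0 s1, ← Complex.sub_im]
    refine (Complex.abs_im_le_norm _).trans ((LL_lip M hz (by simpa using mul_pos hr hs)).trans ?_)
    exact norm_pt_sub_le z.re z.im _ _
  set r : ℝ → ℝ := fun s => ρ * (1 - s) with hr
  set u : ℝ → ℝ := fun s => t * (1 - s) + Real.pi / 2 * s with hu
  have hr0 : r 0 = ρ := by simp [hr]
  have hu0 : u 0 = t := by simp [hu]
  have cr : ContinuousAt r 0 := by rw [hr]; fun_prop
  have cu : ContinuousAt u 0 := by rw [hu]; fun_prop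
  have hne : r 0 ≠ 0 := by rw [hr0]; exact h0.ne'
  have c1 : ContinuousAt (fun s => |(LL z).im - (u s - r s ^ 2 * (Real.sin (u s) * Real.cos (u s)))|)
      0 := by fun_prop
  have c2 : ContinuousAt (fun s => |z.re - (r s + (r s)⁻¹) * Real.cos (u s)| +
      |z.im - ((r s)⁻¹ - r s) * Real.sin (u s)|) 0 := by fun_prop (disch := exact hne)
  have := le_of_tendsto_of_tendsto (b := 𝓝[>] (0 : ℝ)) (c1.tendsto.mono_left nhdsWithin_le_nhds)
    (c2.tendsto.mono_left nhdsWithin_le_nhds) (by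
      filter_upwards [Ioo_mem_nhdsGT (show (0 : ℝ) < 1 by norm_num)] with s hs
      have hp := Real.pi_pos
      obtain ⟨s0, s1⟩ := hs
      obtain ⟨t0, t1⟩ := ht
      refine hin _ _ ?_ ?_ ?_ ?_
      · exact mul_pos h0 (by linarith)
      · simp only [hr]; nlinarith
      · simp only [hu]; nlinarith [mul_nonneg t0 (show 0 ≤ 1 - s by linarith), mul_pos hp s0]
      · simp only [hu]
        nlinarith [mul_nonneg (sub_nonneg.2 t1) (show 0 ≤ 1 - s by linarith), mul_pos hp s0])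
  simpa only [hr0, hu0] using this

lemma arcsin_le {s : ℝ} (h0 : 0 ≤ s) : Real.arcsin s ≤ 2 * s := by
  by_cases h1 : s ≤ 1
  · have a0 : 0 ≤ Real.arcsin s := Real.arcsin_nonneg.2 h0
    have := Real.mul_le_sin a0 (Real.arcsin_le_pi_div_two s)
    rw [Real.sin_arcsin (by linarith) h1] at this
    have hp := Real.pi_pos
    have h4 := Real.pi_le_four
    rw [div_mul_eq_mul_div, div_le_iff₀ hp] at this
    nlinarith
  · have := Real.arcsin_le_pi_div_two s
    have h4 := Real.pi_le_four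
    linarith

lemma arg_le {w : ℂ} (hw : 0 ≤ w.im) {d : ℝ} (hd : 0 < d) (h : d ≤ w.re) :
    Complex.arg w ≤ 2 * (w.im / d) := by
  rw [Complex.arg_of_re_nonneg (by linarith)]
  have hn : d ≤ ‖w‖ := h.trans (Complex.re_le_norm w)
  refine (arcsin_le (div_nonneg hw (norm_nonneg _))).trans ?_
  gcongr

lemma le_arg {w : ℂ} (hw : 0 ≤ w.im) {d : ℝ} (hd : 0 < d) (h : w.re ≤ -d) :
    Real.pi - 2 * (w.im / d) ≤ Complex.arg w := by
  rw [Complex.arg_of_re_neg_of_im_nonneg (by linarith) hw]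
  have hn : d ≤ ‖w‖ := by
    have := Complex.abs_re_le_norm w
    have := neg_abs_le w.re
    linarith
  have h1 := arcsin_le (div_nonneg hw (norm_nonneg w))
  have h2 : w.im / ‖w‖ ≤ w.im / d := by gcongr
  rw [Complex.neg_im, neg_div, Real.arcsin_neg]
  linarith

variable {n : ℕ}

/-- the empirical logarithmic potential -/
def FF (A : Matrix (Fin n) (Fin n) ℝ) (z : ℂ) : ℂ :=
  (∑ k ∈ Finset.range n, Complex.log (z - (lam A k : ℂ))) / n

lemma FF_deriv (R : ResApi) {A : Matrix (Fin n) (Fin n) ℝ} (hA : A.IsHermitian) {z : ℂ}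
    (hz : 0 < z.im) : HasDerivAt (FF A) (-st A z) z := by
  have h1 : ∀ k ∈ Finset.range n, HasDerivAt (fun z : ℂ => Complex.log (z - (lam A k : ℂ)))
      (1 / (z - (lam A k : ℂ))) z := by
    intro k _
    refine ((hasDerivAt_id z).sub_const _).clog ?_
    right; simpa using hz.ne'
  have h2 := (HasDerivAt.fun_sum h1).div_const (n : ℂ)
  refine HasDerivAt.congr_deriv (f := FF A) h2 (Eq.symm ?_)
  rw [R.spec_st hA hz.ne', ← neg_div, ← Finset.sum_neg_distrib]
  congr 1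
  refine Finset.sum_congr rfl fun k _ => ?_
  rw [one_div, ← inv_neg, neg_sub]

lemma FF_im (A : Matrix (Fin n) (Fin n) ℝ) (hn : 1 ≤ n) (z : ℂ) :
    n * (FF A z).im = ∑ k ∈ Finset.range n, Complex.arg (z - (lam A k : ℂ)) := by
  have hn0 : (n : ℝ) ≠ 0 := by positivity
  rw [FF, Complex.div_natCast_im, Complex.im_sum]
  simp only [Complex.log_im]
  field_simp

lemma cnt_sum (A : Matrix (Fin n) (Fin n) ℝ) (x : ℝ) :
    (cnt A x : ℝ) = ∑ k ∈ Finset.range n, if x ≤ lam A k then (1 : ℝ) else 0 := by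
  rw [cnt, Fintype.card_fin, Finset.card_filter]
  push_cast
  rfl

lemma cnt_le_FF (A : Matrix (Fin n) (Fin n) ℝ) (hn : 1 ≤ n) (x : ℝ) {d η : ℝ} (hd : 0 < d)
    (hη : 0 ≤ η) :
    Real.pi * cnt A x ≤ n * (FF A (pt (x - d) η)).im + n * (2 * (η / d)) := by
  rw [FF_im A hn, cnt_sum, Finset.mul_sum]
  have : (n : ℝ) * (2 * (η / d)) = ∑ _k ∈ Finset.range n, 2 * (η / d) := by simp
  rw [this, ← Finset.sum_add_distrib]
  refine Finset.sum_le_sum fun k _ => ?_
  have him : (pt (x - d) η - (lam A k : ℂ)).im = η := by simp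
  have hq : 0 ≤ η / d := div_nonneg hη hd.le
  split_ifs with h
  · have := le_arg (w := pt (x - d) η - (lam A k : ℂ)) (by rw [him]; exact hη) hd
      (by simp; linarith)
    rw [him] at this
    linarith
  · have := Complex.arg_nonneg_iff.2 (show 0 ≤ (pt (x - d) η - (lam A k : ℂ)).im by
      rw [him]; exact hη)
    linarith

lemma FF_le_cnt (A : Matrix (Fin n) (Fin n) ℝ) (hn : 1 ≤ n) (x : ℝ) {d η : ℝ} (hd : 0 < d)
    (hη : 0 ≤ η) :
    n * (FF A (pt (x + d) η)).im ≤ Real.pi * cnt A x + n * (2 * (η / d)) := by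
  rw [FF_im A hn, cnt_sum, Finset.mul_sum]
  have : (n : ℝ) * (2 * (η / d)) = ∑ _k ∈ Finset.range n, 2 * (η / d) := by simp
  rw [this, ← Finset.sum_add_distrib]
  refine Finset.sum_le_sum fun k _ => ?_
  have him : (pt (x + d) η - (lam A k : ℂ)).im = η := by simp
  have hq : 0 ≤ η / d := div_nonneg hη hd.le
  split_ifs with h
  · have := Complex.arg_le_pi (pt (x + d) η - (lam A k : ℂ))
    linarith
  · have := arg_le (w := pt (x + d) η - (lam A k : ℂ)) (by rw [him]; exact hη) hd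
      (by simp; linarith)
    rw [him] at this
    linarith

lemma FF_far (A : Matrix (Fin n) (Fin n) ℝ) (hA : A.IsHermitian) (hn : 1 ≤ n) (h3 : opn A ≤ 3)
    {η : ℝ} (hη : 0 ≤ η) : |(FF A (pt (17 / 4) η)).im| ≤ 2 * η := by
  have hn0 : (0 : ℝ) < n := by positivity
  have h0 : 0 ≤ n * (FF A (pt (17 / 4) η)).im := by
    rw [FF_im A hn]
    exact Finset.sum_nonneg fun k _ => Complex.arg_nonneg_iff.2 (by simpa using hη)
  have hc : cnt A (13 / 4) = 0 := by
    rw [cnt, Finset.card_eq_zero, Finset.filter_eq_empty_iff]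
    intro k _
    have := lam_le_opn hA k
    push Not
    linarith
  have h1 := FF_le_cnt A hn (13 / 4) (d := 1) one_pos hη
  rw [hc, show (13 / 4 : ℝ) + 1 = 17 / 4 by norm_num] at h1
  have h2 : 0 ≤ (FF A (pt (17 / 4) η)).im := le_of_mul_le_mul_left (by simpa using h0) hn0
  rw [abs_of_nonneg h2]
  refine le_of_mul_le_mul_left ?_ hn0
  simpa using h1

/-- the smoothed counting function against the semicircle -/
lemma FF_close (R : ResApi) (M : MscApi) {A : Matrix (Fin n) (Fin n) ℝ} (hA : A.IsHermitian)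
    (hn : 1 ≤ n) {η η0 c C ℓ : ℝ} (h0 : 0 < η0) (h01 : η0 ≤ η) (hη1 : η ≤ 1) (hc : 0 ≤ c)
    (hC : 0 ≤ C) (hℓ : -Real.log η0 ≤ ℓ)
    (h1 : ∀ z : ℂ, |z.re| ≤ 5 → η ≤ z.im → z.im ≤ 5 → ‖st A z - msc z‖ ≤ c / z.im)
    (h2 : ∀ z : ℂ, |z.re| ≤ 5 → 0 < z.im → z.im ≤ η → ‖st A z‖ ≤ C / z.im)
    (h3 : opn A ≤ 3) {t : ℝ} (ht : t ∈ Set.Icc (0 : ℝ) Real.pi) {E d : ℝ} (hd : d ≤ 1)
    (hE : |E - 2 * Real.cos t| ≤ d) :
    |(FF A (pt E η0)).im - (t - Real.sin t * Real.cos t)| ≤ C * ℓ + c * (2 * ℓ + 10) + 4 * η + d := by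
  have hη : 0 < η := h0.trans_le h01
  have hE3 : |E| ≤ 3 := by
    have a1 := Real.cos_le_one t
    have a2 := Real.neg_one_le_cos t
    have := abs_le.1 hE
    rw [abs_le]; constructor <;> linarith
  have hE5 : |E| ≤ 5 := by linarith
  have h17 : |(17 / 4 : ℝ)| ≤ 5 := by rw [abs_le]; constructor <;> norm_num
  have l1 : Real.log η0 ≤ Real.log η := Real.log_le_log h0 h01
  have l2 : Real.log η ≤ 0 := Real.log_nonpos hη.le hη1
  have hD : ∀ z : ℂ, 0 < z.im → HasDerivAt (fun z => FF A z - LL z) (-(st A z - msc z)) z := by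
    intro z hz
    refine HasDerivAt.congr_deriv (f := fun z => FF A z - LL z)
      ((FF_deriv R hA hz).sub (LL_deriv M hz)) ?_
    ring
  have a1 := vert (D := FF A) (D' := fun z => -st A z) (fun z hz => FF_deriv R hA hz) (E := E)
    (c := C) h0 h01 (fun y y0 y1 => by
      rw [norm_neg]; exact h2 _ hE5 (h0.trans_le y0) y1)
  have a2 := vert hD (E := E) (c := c) hη hη1 (fun y y0 y1 => by
      rw [norm_neg]; exact h1 _ hE5 y0 (by simp; linarith))
  have a3 := vert hD (E := 17 / 4) (c := c) hη hη1 (fun y y0 y1 => by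
      rw [norm_neg]; exact h1 _ h17 y0 (by simp; linarith))
  have a4 := horiz hD (E := E) (E' := 17 / 4) (K := 5) (η := 1) (c := c) one_pos hE5 h17
    (fun x hx => by
      rw [norm_neg]
      simpa using h1 (pt x 1) hx hη1 (by simp))
  have a5 := FF_far A hA hn h3 hη.le
  have a6 := LL_bdry M (ρ := 1 / 4) (t := 0) (by norm_num) (by norm_num)
    ⟨le_rfl, Real.pi_pos.le⟩ (z := pt (17 / 4) η) hη
  have a7 := LL_bdry M (ρ := 1) (t := t) one_pos le_rfl ht (z := pt E η) hη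
  simp only [pt_re, pt_im, Real.sin_zero, Real.cos_zero, inv_one, sub_self, zero_mul, mul_zero,
    sub_zero, one_pow, one_mul, mul_one, abs_of_pos hη] at a6 a7
  rw [show (17 / 4 : ℝ) - (1 / 4 + (1 / 4)⁻¹) = 0 by norm_num, abs_zero, zero_add] at a6
  rw [show (1 : ℝ) + 1 = 2 by norm_num] at a7
  rw [Real.log_one] at a2 a3
  have b1 := (Complex.abs_im_le_norm _).trans a1
  have b2 := (Complex.abs_im_le_norm _).trans a2
  have b3 := (Complex.abs_im_le_norm _).trans a3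
  have b4 := (Complex.abs_im_le_norm _).trans a4
  simp only [Complex.sub_im] at b1 b2 b3 b4
  have e1 : C * (Real.log η - Real.log η0) ≤ C * ℓ := by gcongr; linarith
  have e2 : c * (0 - Real.log η) ≤ c * ℓ := by gcongr; linarith
  have e4 : c * |17 / 4 - E| ≤ c * 10 := by
    gcongr
    have := abs_le.1 hE3
    rw [abs_le]; constructor <;> linarith
  have f1 := abs_le.1 b1
  have f2 := abs_le.1 b2
  have f3 := abs_le.1 b3
  have f4 := abs_le.1 b4
  have f5 := abs_le.1 a5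
  have f6 := abs_le.1 a6
  have f7 := abs_le.1 a7
  rw [abs_le]
  constructor <;> linarith [f1.1, f1.2, f2.1, f2.2, f3.1, f3.2, f4.1, f4.2, f5.1, f5.2, f6.1, f6.2,
    f7.1, f7.2]

/-- deterministic counting estimate -/
lemma det (R : ResApi) (M : MscApi) {A : Matrix (Fin n) (Fin n) ℝ} (hA : A.IsHermitian)
    (hn : 1 ≤ n) {η c C : ℝ} (h01 : 1 / (n : ℝ) ^ 2 ≤ η) (hη1 : η ≤ 1) (hc : 0 ≤ c) (hC : 0 ≤ C)
    (h1 : ∀ z : ℂ, |z.re| ≤ 5 → η ≤ z.im → z.im ≤ 5 → ‖st A z - msc z‖ ≤ c / z.im)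
    (h2 : ∀ z : ℂ, |z.re| ≤ 5 → 0 < z.im → z.im ≤ η → ‖st A z‖ ≤ C / z.im)
    (h3 : opn A ≤ 3) {t : ℝ} (ht : t ∈ Set.Icc (0 : ℝ) Real.pi) :
    |(cnt A (2 * Real.cos t) : ℝ) - n * (t - Real.sin t * Real.cos t) / Real.pi| ≤
      n * C * (2 * Real.log n) + n * c * (4 * Real.log n + 10) + 4 * (n * η) + 3 := by
  have hn0 : (0 : ℝ) < n := by positivity
  have hn1 : (1 : ℝ) ≤ n := by exact_mod_cast hn
  have h0 : 0 < 1 / (n : ℝ) ^ 2 := by positivity
  have hd0 : 0 < 1 / (n : ℝ) := by positivity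
  have hd1 : 1 / (n : ℝ) ≤ 1 := by rw [div_le_one hn0]; exact hn1
  have hℓ : -Real.log (1 / (n : ℝ) ^ 2) ≤ 2 * Real.log n := by
    rw [one_div, Real.log_inv, Real.log_pow]; simp
  have hl0 : 0 ≤ Real.log n := Real.log_nonneg hn1
  have a1 := FF_close R M hA hn h0 h01 hη1 hc hC hℓ h1 h2 h3 ht hd1
    (E := 2 * Real.cos t - 1 / n) (by simp)
  have a2 := FF_close R M hA hn h0 h01 hη1 hc hC hℓ h1 h2 h3 ht hd1
    (E := 2 * Real.cos t + 1 / n) (by simp)
  have b1 := cnt_le_FF A hn (2 * Real.cos t) hd0 h0.le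
  have b2 := FF_le_cnt A hn (2 * Real.cos t) hd0 h0.le
  have e : (n : ℝ) * (2 * (1 / (n : ℝ) ^ 2 / (1 / n))) = 2 := by field_simp
  rw [e] at b1 b2
  set err := C * (2 * Real.log n) + c * (2 * (2 * Real.log n) + 10) + 4 * η + 1 / n with herr
  have e2 : n * C * (2 * Real.log n) + n * c * (4 * Real.log n + 10) + 4 * (n * η) + 3 =
      n * err + 2 := by rw [herr]; field_simp; ring
  rw [e2]
  have hη : 0 < η := h0.trans_le h01
  have herr0 : 0 ≤ n * err + 2 := by rw [herr]; positivity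
  have c1 := mul_le_mul_of_nonneg_left (abs_le.1 a1).2 hn0.le
  have c2 := mul_le_mul_of_nonneg_left (abs_le.1 a2).1 hn0.le
  have hp := Real.pi_pos
  have h3' := Real.pi_gt_three
  have e3 : (cnt A (2 * Real.cos t) : ℝ) - n * (t - Real.sin t * Real.cos t) / Real.pi =
      (Real.pi * cnt A (2 * Real.cos t) - n * (t - Real.sin t * Real.cos t)) / Real.pi := by
    field_simp
  rw [e3, abs_div, abs_of_pos hp, div_le_iff₀ hp]
  have : |Real.pi * cnt A (2 * Real.cos t) - n * (t - Real.sin t * Real.cos t)| ≤ n * err + 2 := by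
    rw [abs_le]; constructor <;> nlinarith
  nlinarith

lemma ev_log (K δ : ℝ) (hδ : 0 < δ) :
    ∀ᶠ n : ℕ in atTop, K * (Real.log n + 1) ≤ (n : ℝ) ^ δ := by
  have h1 : Tendsto (fun n : ℕ => (n : ℝ) ^ (δ / 2)) atTop atTop :=
    (tendsto_rpow_atTop (half_pos hδ)).comp tendsto_natCast_atTop_atTop
  filter_upwards [h1.eventually_ge_atTop (|K| * (2 / δ + 1)), eventually_ge_atTop 1] with n h hn
  have hn1 : (1 : ℝ) ≤ n := by exact_mod_cast hn
  have hn0 : (0 : ℝ) < n := by linarith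
  have hl := Real.log_le_rpow_div hn0.le (half_pos hδ)
  have hl0 : 0 ≤ Real.log n := Real.log_nonneg hn1
  have hp : 1 ≤ (n : ℝ) ^ (δ / 2) := Real.one_le_rpow hn1 (half_pos hδ).le
  have e : (n : ℝ) ^ δ = (n : ℝ) ^ (δ / 2) * (n : ℝ) ^ (δ / 2) := by
    rw [← Real.rpow_add hn0]; congr 1; ring
  have h2 : Real.log n + 1 ≤ (2 / δ + 1) * (n : ℝ) ^ (δ / 2) := by
    have : (n : ℝ) ^ (δ / 2) / (δ / 2) = 2 / δ * (n : ℝ) ^ (δ / 2) := by field_simp
    rw [this] at hl
    nlinarith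
  calc K * (Real.log n + 1) ≤ |K| * (Real.log n + 1) := by gcongr; exact le_abs_self K
    _ ≤ |K| * ((2 / δ + 1) * (n : ℝ) ^ (δ / 2)) := by gcongr
    _ = (|K| * (2 / δ + 1)) * (n : ℝ) ^ (δ / 2) := by ring
    _ ≤ (n : ℝ) ^ (δ / 2) * (n : ℝ) ^ (δ / 2) := by gcongr
    _ = _ := e.symm

end Cnt59

open Cnt59 in
/-- **L12, eigenvalue counting** -/
theorem cnt_stmt (R : ResApi) (M : MscApi) (V : VhpApi) (hA : AprStmt) (hAv : AvgStmt)
    (hE : EdgeStmt) : CntStmt := by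
  intro ε hε
  set e : ℝ := min (ε / 2) (1 / 2) with he
  have e0 : 0 < e := lt_min (half_pos hε) (by norm_num)
  have e1 : e ≤ ε / 2 := min_le_left _ _
  have e2 : e ≤ 1 / 2 := min_le_right _ _
  obtain ⟨C, hC1, hC⟩ := hA 5 e e0
  have v1 := V.comp (Θ' := fun _ => Unit) (fun n _ => ((0 : Fin n → ℝ), (0 : Fin n → ℝ))) hC
  have v2 := hAv 5 e e e0 e0
  have v3 := hE (1 / 3) (by norm_num)
  refine V.mono (V.and v1 (V.and v2 v3)) ?_
  filter_upwards [ev_log (4 * C + 17) (ε / 2) (half_pos hε), eventually_ge_atTop 1]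
    with n hlog hn E θ x hx t ht
  obtain ⟨x1, x2, x3⟩ := hx
  have hH := R.herm E x
  have hn1 : (1 : ℝ) ≤ n := by exact_mod_cast hn
  have hn0 : (0 : ℝ) < n := by linarith
  set η : ℝ := (n : ℝ) ^ (-1 + e) with hη
  have η0 : 0 < η := Real.rpow_pos_of_pos hn0 _
  have η1 : η ≤ 1 := Real.rpow_le_one_of_one_le_of_nonpos hn1 (by linarith)
  have hnη : n * η = (n : ℝ) ^ e := by
    rw [hη, Real.rpow_add hn0, Real.rpow_neg_one]; field_simp
  have p1 : 1 ≤ (n : ℝ) ^ e := Real.one_le_rpow hn1 e0.le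
  have η2 : 1 / (n : ℝ) ^ 2 ≤ η := by
    rw [div_le_iff₀ (by positivity)]
    nlinarith
  have h3 : opn (E.H x) ≤ 3 := by
    have : (n : ℝ) ^ (-(2 / 3 : ℝ) + 1 / 3) ≤ 1 :=
      Real.rpow_le_one_of_one_le_of_nonpos hn1 (by norm_num)
    have x3' : opn (E.H x) ≤ 2 + (n : ℝ) ^ (-(2 / 3 : ℝ) + 1 / 3) := x3
    linarith
  have key := det R M hH hn (η := η) (c := (n : ℝ) ^ e / n) (C := 2 * η * C) η2 η1
    (by positivity) (by positivity)
    (fun z z1 z2 z3 => by
      have := (x2 z ⟨z1, z2, z3⟩).1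
      rw [qq] at this
      refine this.trans (le_of_eq ?_)
      have : 0 < z.im := η0.trans_le z2
      field_simp)
    (fun z z1 z2 z3 => by
      have b := x1 (by simp) (by simp) (pt z.re η) ⟨z1, le_rfl, by simp; linarith⟩
      have b2 := R.bd_down hH (z := z) (z' := pt z.re η) z2 rfl z3 b
      rw [R.st_eq, norm_div, Complex.norm_natCast, div_le_iff₀ hn0]
      refine (norm_sum_le _ _).trans ?_
      refine (Finset.sum_le_sum fun k _ => b2 _ _ (Or.inr (Or.inr ⟨k, rfl⟩))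
        (Or.inr (Or.inr ⟨k, rfl⟩))).trans (le_of_eq ?_)
      simp only [Finset.sum_const, Finset.card_univ, Fintype.card_fin, nsmul_eq_mul, pt_im]
      field_simp)
    h3 ht
  refine key.trans ?_
  have hl0 : 0 ≤ Real.log n := Real.log_nonneg hn1
  have q1 : (n : ℝ) * (2 * η * C) = 2 * C * (n : ℝ) ^ e := by rw [← hnη]; ring
  have q2 : (n : ℝ) * ((n : ℝ) ^ e / n) = (n : ℝ) ^ e := by field_simp
  rw [q1, q2, hnη]
  have q3 : (n : ℝ) ^ e ≤ (n : ℝ) ^ (ε / 2) := Real.rpow_le_rpow_of_exponent_le hn1 e1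
  have q4 : (n : ℝ) ^ ε = (n : ℝ) ^ (ε / 2) * (n : ℝ) ^ (ε / 2) := by
    rw [← Real.rpow_add hn0]; congr 1; ring
  have C0 : 0 ≤ C := by linarith
  calc 2 * C * (n : ℝ) ^ e * (2 * Real.log n) + (n : ℝ) ^ e * (4 * Real.log n + 10) +
        4 * (n : ℝ) ^ e + 3 ≤ (n : ℝ) ^ e * ((4 * C + 17) * (Real.log n + 1)) := by
        have : 0 ≤ (n : ℝ) ^ e * Real.log n := by positivity
        have : 0 ≤ (n : ℝ) ^ e * C := by positivity
        nlinarith
    _ ≤ (n : ℝ) ^ (ε / 2) * (n : ℝ) ^ (ε / 2) := by gcongr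
    _ = _ := q4.symm

end Crest.Agent.T157.Ll
end
end

-- ▼ part T157/LlTopQ_91
section

/-!
# Row 157, part E: local law — assembly from `QDetStmt` (helper91)
-/

set_option autoImplicit false

namespace Crest.Agent.T157.Ll

theorem vhp : VhpApi := vhpApi momStmt

theorem all_of_qDet (hQ : QDetStmt) :
    AprStmt ∧ PStmt ∧ AvgStmt ∧ IsoStmt ∧ EdgeStmt ∧ CntStmt ∧ DelStmt :=
  have hA := apr resApi vhp hQ
  have hP := pStmt resApi mscApi vhp (LlP.pDet resApi) phiStmt hA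
  have hAv := avg resApi mscApi vhp hP
  have hE := edge resApi mscApi vhp hP normStmt
  ⟨hA, hP, hAv, iso resApi mscApi vhp hQ hA hAv, hE, cnt_stmt resApi mscApi vhp hA hAv hE,
    del resApi vhp hA normStmt⟩

end Crest.Agent.T157.Ll
end

-- ▼ part T157/LlQA_47
section

/-!
# Row 157, local law: `QDetStmt`, part A — the data and its a priori bounds (helper47)
-/

set_option autoImplicit false

noncomputable section

namespace Crest.Agent.T157.Ll.Q47

open MeasureTheory Matrix Function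

variable {n : ℕ}

/-- first derivative of `g p q` along `c • Dl i j` -/
def dG (g : (Fin n → ℝ) → (Fin n → ℝ) → ℂ) (c : ℝ) (i j : Fin n) (p q : Fin n → ℝ) : ℂ :=
  -(c : ℂ) * (g p (ee i) * g (ee j) q + g p (ee j) * g (ee i) q)

/-- second derivative -/
def ddG (g : (Fin n → ℝ) → (Fin n → ℝ) → ℂ) (c : ℝ) (i j : Fin n) (p q : Fin n → ℝ) : ℂ :=
  -(c : ℂ) * ((dG g c i j p (ee i) * g (ee j) q + g p (ee i) * dG g c i j (ee j) q) +
    (dG g c i j p (ee j) * g (ee i) q + g p (ee j) * dG g c i j (ee i) q))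

/-- normalised trace -/
def tr (g : (Fin n → ℝ) → (Fin n → ℝ) → ℂ) : ℂ := (∑ k, g (ee k) (ee k)) / n

/-- `c (u_i g_jv + u_j g_iv)` -/
def ff (g : (Fin n → ℝ) → (Fin n → ℝ) → ℂ) (c : ℝ) (i j : Fin n) (u v : Fin n → ℝ) : ℂ :=
  (c : ℂ) * (u i * g (ee j) v + u j * g (ee i) v)

def X1 (g : (Fin n → ℝ) → (Fin n → ℝ) → ℂ) (c : ℝ) (i j : Fin n) (z : ℂ) (u v : Fin n → ℝ) : ℂ :=
  tr (dG g c i j) * g u v + (z + tr g) * dG g c i j u v

def X2 (g : (Fin n → ℝ) → (Fin n → ℝ) → ℂ) (c : ℝ) (i j : Fin n) (z : ℂ) (u v : Fin n → ℝ) : ℂ :=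
  (tr (ddG g c i j) * g u v + tr (dG g c i j) * dG g c i j u v) +
    (tr (dG g c i j) * dG g c i j u v + (z + tr g) * ddG g c i j u v)

/-- `|g_pi| + |g_pj|` -/
def NN (g : (Fin n → ℝ) → (Fin n → ℝ) → ℂ) (i j : Fin n) (p : Fin n → ℝ) : ℝ :=
  ‖g p (ee i)‖ + ‖g p (ee j)‖

lemma NN_nonneg (g : (Fin n → ℝ) → (Fin n → ℝ) → ℂ) (i j : Fin n) (p : Fin n → ℝ) :
    0 ≤ NN g i j p := add_nonneg (norm_nonneg _) (norm_nonneg _)

section bounds
variable {g : (Fin n → ℝ) → (Fin n → ℝ) → ℂ} (hs : ∀ p q, g p q = g q p)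
  (c : ℝ) (i j : Fin n)
include hs

lemma dG_le_cross (p q : Fin n → ℝ) :
    ‖dG g c i j p q‖ ≤ |c| * (‖g p (ee i)‖ * ‖g q (ee j)‖ + ‖g p (ee j)‖ * ‖g q (ee i)‖) := by
  unfold dG
  rw [norm_mul, norm_neg, Complex.norm_real, Real.norm_eq_abs, hs (ee j) q, hs (ee i) q]
  refine mul_le_mul_of_nonneg_left ?_ (abs_nonneg _)
  refine (norm_add_le _ _).trans ?_
  rw [norm_mul, norm_mul]

lemma dG_le (p q : Fin n → ℝ) : ‖dG g c i j p q‖ ≤ |c| * (NN g i j p * NN g i j q) := by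
  refine (dG_le_cross hs c i j p q).trans (mul_le_mul_of_nonneg_left ?_ (abs_nonneg _))
  unfold NN
  have h1 := norm_nonneg (g p (ee i))
  have h2 := norm_nonneg (g p (ee j))
  have h3 := norm_nonneg (g q (ee i))
  have h4 := norm_nonneg (g q (ee j))
  nlinarith [mul_nonneg h1 h3, mul_nonneg h2 h4]

lemma ddG_le {Λ : ℝ} (hi : NN g i j (ee i) ≤ Λ) (hj : NN g i j (ee j) ≤ Λ) (p q : Fin n → ℝ) :
    ‖ddG g c i j p q‖ ≤ 2 * c ^ 2 * Λ * (NN g i j p * NN g i j q) := by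
  have hp := NN_nonneg g i j p
  have hq := NN_nonneg g i j q
  have hc := abs_nonneg c
  have e1 : ‖dG g c i j p (ee i)‖ ≤ |c| * (NN g i j p * Λ) :=
    (dG_le hs c i j p _).trans (by gcongr)
  have e2 : ‖dG g c i j p (ee j)‖ ≤ |c| * (NN g i j p * Λ) :=
    (dG_le hs c i j p _).trans (by gcongr)
  have e3 : ‖dG g c i j (ee i) q‖ ≤ |c| * (Λ * NN g i j q) :=
    (dG_le hs c i j _ q).trans (by gcongr)
  have e4 : ‖dG g c i j (ee j) q‖ ≤ |c| * (Λ * NN g i j q) :=
    (dG_le hs c i j _ q).trans (by gcongr)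
  unfold ddG
  rw [norm_mul, norm_neg, Complex.norm_real, Real.norm_eq_abs, hs (ee j) q, hs (ee i) q]
  have h : ‖(dG g c i j p (ee i) * g q (ee j) + g p (ee i) * dG g c i j (ee j) q) +
      (dG g c i j p (ee j) * g q (ee i) + g p (ee j) * dG g c i j (ee i) q)‖ ≤
      (|c| * (NN g i j p * Λ) * ‖g q (ee j)‖ + ‖g p (ee i)‖ * (|c| * (Λ * NN g i j q))) +
      (|c| * (NN g i j p * Λ) * ‖g q (ee i)‖ + ‖g p (ee j)‖ * (|c| * (Λ * NN g i j q))) := by
    refine (norm_add_le _ _).trans (add_le_add ?_ ?_) <;>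
    · refine (norm_add_le _ _).trans ?_
      rw [norm_mul, norm_mul]
      gcongr
  refine (mul_le_mul_of_nonneg_left h hc).trans (le_of_eq ?_)
  rw [← sq_abs c]
  have e5 : NN g i j p = ‖g p (ee i)‖ + ‖g p (ee j)‖ := rfl
  have e6 : NN g i j q = ‖g q (ee i)‖ + ‖g q (ee j)‖ := rfl
  rw [e5, e6]; ring

end bounds

lemma tr_le {g : (Fin n → ℝ) → (Fin n → ℝ) → ℂ} {b : Fin n → ℝ} (h : ∀ k, ‖g (ee k) (ee k)‖ ≤ b k) :
    ‖tr g‖ ≤ (∑ k, b k) / n := by
  unfold tr
  rw [norm_div, Complex.norm_natCast]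
  exact div_le_div_of_nonneg_right ((norm_sum_le _ _).trans (Finset.sum_le_sum fun k _ => h k))
    (Nat.cast_nonneg _)

lemma tr_le_const (hn : 1 ≤ n) {g : (Fin n → ℝ) → (Fin n → ℝ) → ℂ} {b : ℝ}
    (h : ∀ k, ‖g (ee k) (ee k)‖ ≤ b) : ‖tr g‖ ≤ b := by
  have := tr_le (b := fun _ => b) h
  have hn' : (0 : ℝ) < n := by exact_mod_cast hn
  simp only [Finset.sum_const, Finset.card_univ, Fintype.card_fin, nsmul_eq_mul] at this
  rwa [mul_div_cancel_left₀ _ hn'.ne'] at this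

lemma ff_le (g : (Fin n → ℝ) → (Fin n → ℝ) → ℂ) (c : ℝ) (i j : Fin n) (u v : Fin n → ℝ) :
    ‖ff g c i j u v‖ ≤ |c| * (|u i| * ‖g (ee j) v‖ + |u j| * ‖g (ee i) v‖) := by
  unfold ff
  rw [norm_mul, Complex.norm_real, Real.norm_eq_abs]
  refine mul_le_mul_of_nonneg_left ((norm_add_le _ _).trans ?_) (abs_nonneg _)
  rw [norm_mul, norm_mul, Complex.norm_real, Complex.norm_real, Real.norm_eq_abs, Real.norm_eq_abs]

lemma ee_dot (k : Fin n) : ee k ⬝ᵥ ee k ≤ 1 := by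
  simp [ee]

lemma sum_sq_le {u : Fin n → ℝ} (hu : u ⬝ᵥ u ≤ 1) : ∑ k, |u k| ^ 2 ≤ 1 := by
  simpa [dotProduct, sq_abs, sq] using hu

lemma abs_le_one' {u : Fin n → ℝ} (hu : u ⬝ᵥ u ≤ 1) (k : Fin n) : |u k| ≤ 1 := by
  have h := (Finset.single_le_sum (f := fun k => |u k| ^ 2) (fun k _ => sq_nonneg _)
    (Finset.mem_univ k)).trans (sum_sq_le hu)
  exact (sq_le_one_iff₀ (abs_nonneg _)).1 h

lemma dot_le_one {u v : Fin n → ℝ} (hu : u ⬝ᵥ u ≤ 1) (hv : v ⬝ᵥ v ≤ 1) : |u ⬝ᵥ v| ≤ 1 := by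
  have h1 : 0 ≤ ∑ k, (u k - v k) ^ 2 := Finset.sum_nonneg fun k _ => sq_nonneg _
  have h2 : 0 ≤ ∑ k, (u k + v k) ^ 2 := Finset.sum_nonneg fun k _ => sq_nonneg _
  have e1 : ∑ k, (u k - v k) ^ 2 = u ⬝ᵥ u + v ⬝ᵥ v - 2 * u ⬝ᵥ v := by
    simp only [dotProduct, Finset.mul_sum, ← Finset.sum_add_distrib, ← Finset.sum_sub_distrib]
    exact Finset.sum_congr rfl fun k _ => by ring
  have e2 : ∑ k, (u k + v k) ^ 2 = u ⬝ᵥ u + v ⬝ᵥ v + 2 * u ⬝ᵥ v := by
    simp only [dotProduct, Finset.mul_sum, ← Finset.sum_add_distrib]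
    exact Finset.sum_congr rfl fun k _ => by ring
  rw [abs_le]; constructor <;> linarith

/-- the data for `Q_{uv}` -/
def dat (E : Ens n) (z : ℂ) (u v : Fin n → ℝ) : MData E.ι where
  X x := QQ (E.H x) z u v
  r x := tr (gb (E.H x) z) * gb (E.H x) z u v
  f a x := ff (gb (E.H x) z) (E.c a) (E.i a) (E.j a) u v
  f1 a x := ff (dG (gb (E.H x) z) (E.c a) (E.i a) (E.j a)) (E.c a) (E.i a) (E.j a) u v
  f2 a x := ff (ddG (gb (E.H x) z) (E.c a) (E.i a) (E.j a)) (E.c a) (E.i a) (E.j a) u v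
  X1 a x := X1 (gb (E.H x) z) (E.c a) (E.i a) (E.j a) z u v
  X2 a x := X2 (gb (E.H x) z) (E.c a) (E.i a) (E.j a) z u v

lemma QQ_eq (R : ResApi) (A : Matrix (Fin n) (Fin n) ℝ) (z : ℂ) (u v : Fin n → ℝ) :
    QQ A z u v = ((u ⬝ᵥ v : ℝ) : ℂ) + (z + tr (gb A z)) * gb A z u v := by
  unfold QQ tr; rw [R.st_eq]

section deriv
variable {g : ℝ → (Fin n → ℝ) → (Fin n → ℝ) → ℂ} {g' : (Fin n → ℝ) → (Fin n → ℝ) → ℂ} {t : ℝ}

lemma hd_tr (h : ∀ p q, HasDerivAt (fun s => g s p q) (g' p q) t) :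
    HasDerivAt (fun s => tr (g s)) (tr g') t := by
  unfold tr
  exact (HasDerivAt.fun_sum fun k _ => h (ee k) (ee k)).div_const _

lemma hd_ff (h : ∀ p q, HasDerivAt (fun s => g s p q) (g' p q) t) (c : ℝ) (i j : Fin n)
    (u v : Fin n → ℝ) : HasDerivAt (fun s => ff (g s) c i j u v) (ff g' c i j u v) t := by
  unfold ff
  exact (((h _ _).const_mul _).add ((h _ _).const_mul _)).const_mul _

lemma hd_dG {c : ℝ} {i j : Fin n} (h : ∀ p q, HasDerivAt (fun s => g s p q) (dG (g t) c i j p q) t)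
    (p q : Fin n → ℝ) : HasDerivAt (fun s => dG (g s) c i j p q) (ddG (g t) c i j p q) t := by
  unfold ddG
  exact (((h _ _).mul (h _ _)).add ((h _ _).mul (h _ _))).const_mul _

end deriv

section meas
variable {α : Type} [MeasurableSpace α] {g : α → (Fin n → ℝ) → (Fin n → ℝ) → ℂ}

lemma ms_tr (h : ∀ p q, Measurable fun s => g s p q) : Measurable fun s => tr (g s) := by
  unfold tr
  exact (Finset.measurable_fun_sum _ fun k _ => h (ee k) (ee k)).div_const _

lemma ms_ff (h : ∀ p q, Measurable fun s => g s p q) (c : ℝ) (i j : Fin n)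
    (u v : Fin n → ℝ) : Measurable fun s => ff (g s) c i j u v := by
  unfold ff
  exact (((h _ _).const_mul _).add ((h _ _).const_mul _)).const_mul _

lemma ms_dG (h : ∀ p q, Measurable fun s => g s p q) (c : ℝ) (i j : Fin n)
    (p q : Fin n → ℝ) : Measurable fun s => dG (g s) c i j p q := by
  unfold dG
  exact (((h _ _).mul (h _ _)).add ((h _ _).mul (h _ _))).const_mul _

end meas

lemma c_le_one (E : Ens n) (hn : 1 ≤ n) (a : E.ι) : |E.c a| ≤ 1 := by
  have hn' : (1 : ℝ) ≤ n := by exact_mod_cast hn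
  have h := E.c_sq a
  have : (1 : ℝ) / n ≤ 1 := (div_le_one (by linarith)).2 hn'
  rw [← sq_abs] at h
  exact (sq_le_one_iff₀ (abs_nonneg _)).1 (h.trans this)

theorem dat_ok (R : ResApi) (E : Ens n) {z : ℂ} {u v : Fin n → ℝ} (hn : 1 ≤ n)
    (hz : 1 / (n : ℝ) ≤ z.im) (hzn : ‖z‖ ≤ n) (hu : u ⬝ᵥ u ≤ 1) (hv : v ⬝ᵥ v ≤ 1) :
    (dat E z u v).Ok (4000 * (n : ℝ) ^ 7) := by
  have hn' : (1 : ℝ) ≤ n := by exact_mod_cast hn
  have hz0 : 0 < z.im := lt_of_lt_of_le (by positivity) hz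
  have hd : ∀ a x t p q, HasDerivAt (fun s => gb (E.H (update x a s)) z p q)
      (dG (gb (E.H (update x a t)) z) (E.c a) (E.i a) (E.j a) p q) t :=
    fun a x t p q => R.deriv E x a hz0 p q t
  have hm : ∀ p q, Measurable fun x => gb (E.H x) z p q := fun p q => R.meas E z p q
  have hs : ∀ x p q, gb (E.H x) z p q = gb (E.H x) z q p := fun x p q => R.symm (R.herm E x) z p q
  have hb : ∀ x p q, p ⬝ᵥ p ≤ 1 → q ⬝ᵥ q ≤ 1 → ‖gb (E.H x) z p q‖ ≤ n := by
    intro x p q hp hq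
    refine (R.bound (R.herm E x) hz0 p q hp hq).trans ?_
    rw [div_le_iff₀ hz0]
    rw [div_le_iff₀ (by linarith)] at hz
    linarith
  have hN : ∀ x i j p, p ⬝ᵥ p ≤ 1 → NN (gb (E.H x) z) i j p ≤ 2 * n := by
    intro x i j p hp
    have h1 := hb x p _ hp (ee_dot i)
    have h2 := hb x p _ hp (ee_dot j)
    unfold NN; linarith
  have hc := c_le_one E hn
  have h1 : ∀ x a p q, p ⬝ᵥ p ≤ 1 → q ⬝ᵥ q ≤ 1 →
      ‖dG (gb (E.H x) z) (E.c a) (E.i a) (E.j a) p q‖ ≤ 4 * (n : ℝ) ^ 2 := by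
    intro x a p q hp hq
    refine (dG_le (hs x) _ _ _ p q).trans ?_
    have := NN_nonneg (gb (E.H x) z) (E.i a) (E.j a) q
    have e1 := hN x (E.i a) (E.j a) p hp
    have e2 := hN x (E.i a) (E.j a) q hq
    have e3 := mul_le_mul e1 e2 this (by positivity)
    have e4 := mul_le_mul (hc a) e3 (mul_nonneg (NN_nonneg _ _ _ _) this) zero_le_one
    exact e4.trans (le_of_eq (by ring))
  have h2 : ∀ x a p q, p ⬝ᵥ p ≤ 1 → q ⬝ᵥ q ≤ 1 →
      ‖ddG (gb (E.H x) z) (E.c a) (E.i a) (E.j a) p q‖ ≤ 16 * (n : ℝ) ^ 3 := by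
    intro x a p q hp hq
    refine (ddG_le (hs x) _ _ _ (hN _ _ _ _ (ee_dot _)) (hN _ _ _ _ (ee_dot _)) p q).trans ?_
    have := NN_nonneg (gb (E.H x) z) (E.i a) (E.j a) q
    have hc2 : E.c a ^ 2 ≤ 1 := by rw [← sq_abs]; exact (sq_le_one_iff₀ (abs_nonneg _)).2 (hc a)
    have e1 := hN x (E.i a) (E.j a) p hp
    have e2 := hN x (E.i a) (E.j a) q hq
    have e3 := mul_le_mul e1 e2 this (by positivity)
    have e0 : 2 * E.c a ^ 2 * (2 * (n : ℝ)) ≤ 2 * 1 * (2 * n) := by gcongr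
    have e4 := mul_le_mul e0 e3 (mul_nonneg (NN_nonneg _ _ _ _) this) (by positivity)
    exact e4.trans (le_of_eq (by ring))
  have hff : ∀ (g : (Fin n → ℝ) → (Fin n → ℝ) → ℂ) (b : ℝ) (a : E.ι), (∀ k, ‖g (ee k) v‖ ≤ b) →
      ‖ff g (E.c a) (E.i a) (E.j a) u v‖ ≤ 2 * b := by
    intro g b a h
    refine (ff_le _ _ _ _ _ _).trans ?_
    calc _ ≤ 1 * (1 * b + 1 * b) := by
          gcongr
          exacts [hc a, abs_le_one' hu _, h _, abs_le_one' hu _, h _]
      _ = _ := by ring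
  have ht0 : ∀ x, ‖tr (gb (E.H x) z)‖ ≤ n := fun x =>
    tr_le_const hn fun k => hb x _ _ (ee_dot k) (ee_dot k)
  have ht1 : ∀ x a, ‖tr (dG (gb (E.H x) z) (E.c a) (E.i a) (E.j a))‖ ≤ 4 * (n : ℝ) ^ 2 :=
    fun x a => tr_le_const hn fun k => h1 x a _ _ (ee_dot k) (ee_dot k)
  have ht2 : ∀ x a, ‖tr (ddG (gb (E.H x) z) (E.c a) (E.i a) (E.j a))‖ ≤ 16 * (n : ℝ) ^ 3 :=
    fun x a => tr_le_const hn fun k => h2 x a _ _ (ee_dot k) (ee_dot k)
  have hzt : ∀ x, ‖z + tr (gb (E.H x) z)‖ ≤ 2 * n := fun x =>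
    (norm_add_le _ _).trans (by linarith [ht0 x])
  have p0 : (1 : ℝ) ≤ (n : ℝ) ^ 7 := one_le_pow₀ hn'
  have p1 : (n : ℝ) ≤ (n : ℝ) ^ 7 := by simpa using pow_le_pow_right₀ hn' (show 1 ≤ 7 by norm_num)
  have p2 : (n : ℝ) ^ 2 ≤ (n : ℝ) ^ 7 := pow_le_pow_right₀ hn' (by norm_num)
  have p3 : (n : ℝ) ^ 3 ≤ (n : ℝ) ^ 7 := pow_le_pow_right₀ hn' (by norm_num)
  have p4 : (n : ℝ) ^ 4 ≤ (n : ℝ) ^ 7 := pow_le_pow_right₀ hn' (by norm_num)
  refine ⟨fun x => ?_, ?_, ?_, fun a => ?_, fun a => ?_, fun a => ?_, fun a x t => ?_,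
    fun a x t => ?_, fun a x t => ?_, fun a x t => ?_, fun x => ?_, fun x => ?_, fun a x => ?_,
    fun a x => ?_, fun a x => ?_, fun a x => ?_, fun a x => ?_⟩
  · show QQ (E.H x) z u v = ∑ a, (x a : ℂ) * ff (gb (E.H x) z) (E.c a) (E.i a) (E.j a) u v +
      tr (gb (E.H x) z) * gb (E.H x) z u v
    rw [QQ_eq R]
    unfold ff
    rw [← R.expand E x hz0 u v]; ring
  · show Measurable fun x => QQ (E.H x) z u v
    simp only [QQ_eq R]
    exact (((ms_tr hm).const_add _).mul (hm _ _)).const_add _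
  · exact (ms_tr hm).mul (hm _ _)
  · exact ms_ff hm _ _ _ _ _
  · exact ms_ff (ms_dG hm _ _ _) _ _ _ _ _
  · exact ((ms_tr (ms_dG hm _ _ _)).mul (hm _ _)).add
      (((ms_tr hm).const_add _).mul (ms_dG hm _ _ _ _ _))
  · exact hd_ff (hd a x t) _ _ _ _ _
  · exact hd_ff (hd_dG (g := fun s => gb (E.H (update x a s)) z) (hd a x t)) _ _ _ _ _
  · show HasDerivAt (fun s => QQ (E.H (update x a s)) z u v) _ t
    simp only [QQ_eq R]
    exact (((hd_tr (hd a x t)).const_add z).mul (hd a x t u v)).const_add _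
  · exact ((hd_tr (hd_dG (g := fun s => gb (E.H (update x a s)) z) (hd a x t))).mul
      (hd a x t u v)).add (((hd_tr (hd a x t)).const_add z).mul
        (hd_dG (g := fun s => gb (E.H (update x a s)) z) (hd a x t) u v))
  · show ‖QQ (E.H x) z u v‖ ≤ _
    rw [QQ_eq R]
    refine (norm_add_le _ _).trans ?_
    rw [Complex.norm_real, Real.norm_eq_abs, norm_mul]
    have := mul_le_mul (hzt x) (hb x u v hu hv) (norm_nonneg _) (by positivity)
    nlinarith [dot_le_one hu hv]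
  · show ‖tr (gb (E.H x) z) * gb (E.H x) z u v‖ ≤ _
    rw [norm_mul]
    have := mul_le_mul (ht0 x) (hb x u v hu hv) (norm_nonneg _) (by positivity)
    nlinarith
  · exact (hff _ _ a fun k => hb x _ _ (ee_dot k) hv).trans (by linarith)
  · exact (hff _ _ a fun k => h1 x a _ _ (ee_dot k) hv).trans (by linarith)
  · exact (hff _ _ a fun k => h2 x a _ _ (ee_dot k) hv).trans (by linarith)
  · show ‖X1 (gb (E.H x) z) (E.c a) (E.i a) (E.j a) z u v‖ ≤ _
    unfold X1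
    refine (norm_add_le _ _).trans ?_
    rw [norm_mul, norm_mul]
    have e1 := mul_le_mul (ht1 x a) (hb x u v hu hv) (norm_nonneg _) (by positivity)
    have e2 := mul_le_mul (hzt x) (h1 x a u v hu hv) (norm_nonneg _) (by positivity)
    nlinarith
  · show ‖X2 (gb (E.H x) z) (E.c a) (E.i a) (E.j a) z u v‖ ≤ _
    unfold X2
    refine (norm_add_le _ _).trans ((add_le_add (norm_add_le _ _) (norm_add_le _ _)).trans ?_)
    rw [norm_mul, norm_mul, norm_mul]
    have e1 := mul_le_mul (ht2 x a) (hb x u v hu hv) (norm_nonneg _) (by positivity)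
    have e2 := mul_le_mul (hzt x) (h2 x a u v hu hv) (norm_nonneg _) (by positivity)
    have e3 := mul_le_mul (ht1 x a) (h1 x a u v hu hv) (norm_nonneg _) (by positivity)
    nlinarith

end Crest.Agent.T157.Ll.Q47
end
end

-- ▼ part T157/LlQB_47
section

/-!
# Row 157, local law: `QDetStmt`, part B — bounds along a coordinate line (helper47)
-/

set_option autoImplicit false

noncomputable section

namespace Crest.Agent.T157.Ll.Q47

open MeasureTheory Matrix Function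

variable {n : ℕ}

/-- `|g_ku| + |g_kv| + ψ` -/
def yy (g : (Fin n → ℝ) → (Fin n → ℝ) → ℂ) (u v : Fin n → ℝ) (ψ : ℝ) (k : Fin n) : ℝ :=
  ‖g (ee k) u‖ + ‖g (ee k) v‖ + ψ

/-- the hypotheses at the base point -/
structure Base (g : (Fin n → ℝ) → (Fin n → ℝ) → ℂ) (z : ℂ) (u v : Fin n → ℝ) (Γ V ψ : ℝ) : Prop where
  hn : 1 ≤ n
  s : ∀ p q, g p q = g q p
  one : 1 ≤ Γ
  le : Γ ≤ V
  z : ‖z‖ ≤ Γ
  b : ∀ p q, InS u v p → InS u v q → ‖g p q‖ ≤ Γ
  ψ0 : 0 ≤ ψ
  ψ1 : ψ ≤ 1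
  w : ∀ p, InS u v p → ∑ k, ‖g (ee k) p‖ ^ 2 ≤ n * ψ ^ 2

lemma inS_u (u v : Fin n → ℝ) : InS u v u := Or.inl rfl
lemma inS_v (u v : Fin n → ℝ) : InS u v v := Or.inr (Or.inl rfl)
lemma inS_e (u v : Fin n → ℝ) (k : Fin n) : InS u v (ee k) := Or.inr (Or.inr ⟨k, rfl⟩)

lemma tr_sub (g g' : (Fin n → ℝ) → (Fin n → ℝ) → ℂ) :
    tr g' - tr g = tr fun p q => g' p q - g p q := by
  unfold tr; rw [Finset.sum_sub_distrib, sub_div]

section line
variable {g g' : (Fin n → ℝ) → (Fin n → ℝ) → ℂ} {z : ℂ} {u v : Fin n → ℝ} {Γ V ψ τ : ℝ}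
  {i j : Fin n}

lemma Base.N_le (B : Base g z u v Γ V ψ) (i j : Fin n) {p : Fin n → ℝ} (hp : InS u v p) :
    NN g i j p ≤ 2 * Γ := by
  have h1 := B.b p _ hp (inS_e u v i)
  have h2 := B.b p _ hp (inS_e u v j)
  unfold NN; linarith

lemma Base.sumN (B : Base g z u v Γ V ψ) (i j : Fin n) :
    ∑ k, NN g i j (ee k) ^ 2 ≤ 4 * (n * ψ ^ 2) := by
  have h1 := B.w _ (inS_e u v i)
  have h2 := B.w _ (inS_e u v j)
  calc ∑ k, NN g i j (ee k) ^ 2 ≤ ∑ k, (2 * ‖g (ee k) (ee i)‖ ^ 2 + 2 * ‖g (ee k) (ee j)‖ ^ 2) :=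
        Finset.sum_le_sum fun k _ => by
          unfold NN; nlinarith [sq_nonneg (‖g (ee k) (ee i)‖ - ‖g (ee k) (ee j)‖)]
    _ = 2 * ∑ k, ‖g (ee k) (ee i)‖ ^ 2 + 2 * ∑ k, ‖g (ee k) (ee j)‖ ^ 2 := by
        rw [Finset.sum_add_distrib, Finset.mul_sum, Finset.mul_sum]
    _ ≤ _ := by linarith

lemma Base.y_ge (B : Base g z u v Γ V ψ) (k : Fin n) : ψ ≤ yy g u v ψ k := by
  unfold yy; linarith [norm_nonneg (g (ee k) u), norm_nonneg (g (ee k) v)]

lemma Base.y0 (B : Base g z u v Γ V ψ) (k : Fin n) : 0 ≤ yy g u v ψ k := B.ψ0.trans (B.y_ge k)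

lemma Base.y_le (B : Base g z u v Γ V ψ) (k : Fin n) : yy g u v ψ k ≤ 3 * Γ := by
  have h1 := B.b _ _ (inS_e u v k) (inS_u u v)
  have h2 := B.b _ _ (inS_e u v k) (inS_v u v)
  unfold yy; linarith [B.ψ1, B.one]

lemma Base.tr_le (B : Base g z u v Γ V ψ) : ‖tr g‖ ≤ Γ :=
  tr_le_const B.hn fun k => B.b _ _ (inS_e u v k) (inS_e u v k)

/-- the perturbed point -/
structure Pert (g g' : (Fin n → ℝ) → (Fin n → ℝ) → ℂ) (Γ V ψ τ : ℝ) (i j : Fin n) : Prop where
  s : ∀ p q, g' p q = g' q p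
  e : ∀ p q, g' p q = g p q - τ * (g' p (ee i) * g (ee j) q + g' p (ee j) * g (ee i) q)
  t1 : |τ| * Γ ≤ 1 / 8
  t2 : |τ| * Γ ≤ V * ψ

lemma Pert.diff (P : Pert g g' Γ V ψ τ i j) (p q : Fin n → ℝ) :
    ‖g' p q - g p q‖ ≤ |τ| * (‖g' p (ee i)‖ * ‖g (ee j) q‖ + ‖g' p (ee j)‖ * ‖g (ee i) q‖) := by
  rw [P.e p q, sub_sub_cancel_left, norm_neg, norm_mul, Complex.norm_real, Real.norm_eq_abs]
  refine mul_le_mul_of_nonneg_left ((norm_add_le _ _).trans ?_) (abs_nonneg _)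
  rw [norm_mul, norm_mul]

lemma Pert.diffS (B : Base g z u v Γ V ψ) (P : Pert g g' Γ V ψ τ i j) (p : Fin n → ℝ)
    {q : Fin n → ℝ} (hq : InS u v q) : ‖g' p q - g p q‖ ≤ |τ| * Γ * NN g' i j p := by
  refine (P.diff p q).trans ?_
  have h1 := B.b _ _ (inS_e u v i) hq
  have h2 := B.b _ _ (inS_e u v j) hq
  calc _ ≤ |τ| * (‖g' p (ee i)‖ * Γ + ‖g' p (ee j)‖ * Γ) := by gcongr
    _ = _ := by unfold NN; ring

lemma Pert.N_le (B : Base g z u v Γ V ψ) (P : Pert g g' Γ V ψ τ i j) (p : Fin n → ℝ) :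
    NN g' i j p ≤ 2 * NN g i j p := by
  have h1 := P.diffS B p (inS_e u v i)
  have h2 := P.diffS B p (inS_e u v j)
  have h3 := norm_le_insert' (g' p (ee i)) (g p (ee i))
  have h4 := norm_le_insert' (g' p (ee j)) (g p (ee j))
  have h0 := NN_nonneg g' i j p
  have h5 := mul_le_mul_of_nonneg_right P.t1 h0
  have h6 := NN_nonneg g i j p
  have e1 : NN g' i j p = ‖g' p (ee i)‖ + ‖g' p (ee j)‖ := rfl
  have e2 : NN g i j p = ‖g p (ee i)‖ + ‖g p (ee j)‖ := rfl
  linarith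

lemma Pert.NS (B : Base g z u v Γ V ψ) (P : Pert g g' Γ V ψ τ i j) {p : Fin n → ℝ}
    (hp : InS u v p) : NN g' i j p ≤ 4 * Γ := by
  linarith [P.N_le B p, B.N_le i j hp]

lemma Pert.b (B : Base g z u v Γ V ψ) (P : Pert g g' Γ V ψ τ i j) {p q : Fin n → ℝ}
    (hp : InS u v p) (hq : InS u v q) : ‖g' p q‖ ≤ 2 * Γ := by
  have h1 := P.diffS B p hq
  have h3 := norm_le_insert' (g' p q) (g p q)
  have h4 := B.b p q hp hq
  have h5 := mul_le_mul P.t1 (P.NS B hp) (NN_nonneg _ _ _ _) (by norm_num)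
  linarith [B.one]

lemma Pert.y (B : Base g z u v Γ V ψ) (P : Pert g g' Γ V ψ τ i j) {p : Fin n → ℝ}
    (hp : p = u ∨ p = v) (l : Fin n) : ‖g' p (ee l)‖ ≤ 4 * V ^ 2 * yy g u v ψ l := by
  have hS : InS u v p := by rcases hp with h | h; exacts [Or.inl h, Or.inr (Or.inl h)]
  have h1 := P.diffS B p (inS_e u v l)
  have h3 := norm_le_insert' (g' p (ee l)) (g p (ee l))
  have hV : 1 ≤ V := B.one.trans B.le
  have h5 := mul_le_mul P.t2 ((P.NS B hS).trans (show 4 * Γ ≤ 4 * V by linarith [B.le]))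
    (NN_nonneg _ _ _ _) (mul_nonneg (by linarith) B.ψ0)
  have h6 : ‖g p (ee l)‖ ≤ ‖g (ee l) u‖ + ‖g (ee l) v‖ := by
    rw [B.s p]
    rcases hp with h | h <;> rw [h] <;> linarith [norm_nonneg (g (ee l) u), norm_nonneg (g (ee l) v)]
  have h7 : 1 ≤ 4 * V ^ 2 := by nlinarith
  have h8 := mul_le_mul_of_nonneg_right h7
    (add_nonneg (norm_nonneg (g (ee l) u)) (norm_nonneg (g (ee l) v)))
  unfold yy; nlinarith

lemma Pert.Ny (B : Base g z u v Γ V ψ) (P : Pert g g' Γ V ψ τ i j) {p : Fin n → ℝ}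
    (hp : p = u ∨ p = v) : NN g' i j p ≤ 4 * V ^ 2 * (yy g u v ψ i + yy g u v ψ j) := by
  have h1 := P.y B hp i
  have h2 := P.y B hp j
  unfold NN; linarith

lemma Pert.sumN (B : Base g z u v Γ V ψ) (P : Pert g g' Γ V ψ τ i j) :
    (∑ k, NN g' i j (ee k) * NN g' i j (ee k)) / n ≤ 16 * ψ ^ 2 := by
  have hn : (0 : ℝ) < n := by exact_mod_cast B.hn
  rw [div_le_iff₀ hn]
  calc _ ≤ ∑ k, 4 * NN g i j (ee k) ^ 2 := Finset.sum_le_sum fun k _ => by
        have h := P.N_le B (ee k)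
        have h0 := NN_nonneg g' i j (ee k)
        nlinarith
    _ = 4 * ∑ k, NN g i j (ee k) ^ 2 := by rw [Finset.mul_sum]
    _ ≤ _ := by linarith [B.sumN i j]

lemma Pert.tr1 (B : Base g z u v Γ V ψ) (P : Pert g g' Γ V ψ τ i j) (c : ℝ) :
    ‖tr (dG g' c i j)‖ ≤ |c| * (16 * ψ ^ 2) := by
  refine (tr_le fun k => dG_le P.s c i j _ _).trans ?_
  rw [← Finset.mul_sum, mul_div_assoc]
  exact mul_le_mul_of_nonneg_left (P.sumN B) (abs_nonneg _)

lemma Pert.dd (B : Base g z u v Γ V ψ) (P : Pert g g' Γ V ψ τ i j) (c : ℝ) (p q : Fin n → ℝ) :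
    ‖ddG g' c i j p q‖ ≤ 2 * c ^ 2 * (4 * Γ) * (NN g' i j p * NN g' i j q) :=
  ddG_le P.s c i j (P.NS B (inS_e u v i)) (P.NS B (inS_e u v j)) p q

lemma Pert.tr2 (B : Base g z u v Γ V ψ) (P : Pert g g' Γ V ψ τ i j) (c : ℝ) :
    ‖tr (ddG g' c i j)‖ ≤ 2 * c ^ 2 * (4 * Γ) * (16 * ψ ^ 2) := by
  refine (tr_le fun k => P.dd B c _ _).trans ?_
  rw [← Finset.mul_sum, mul_div_assoc]
  exact mul_le_mul_of_nonneg_left (P.sumN B) (by have := B.one; positivity)

lemma Pert.ztr (B : Base g z u v Γ V ψ) (P : Pert g g' Γ V ψ τ i j) : ‖z + tr g'‖ ≤ 3 * Γ := by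
  have h := tr_le_const B.hn fun k => P.b B (inS_e u v k) (inS_e u v k)
  linarith [norm_add_le z (tr g'), B.z]

lemma Pert.f0 (B : Base g z u v Γ V ψ) (P : Pert g g' Γ V ψ τ i j) (c : ℝ) :
    ‖ff g' c i j u v‖ ≤ |c| * (4 * V ^ 2) * (|u i| * yy g u v ψ j + |u j| * yy g u v ψ i) := by
  refine (ff_le _ _ _ _ _ _).trans ?_
  rw [P.s (ee j), P.s (ee i)]
  have h1 := P.y B (Or.inr rfl) i
  have h2 := P.y B (Or.inr rfl) j
  calc _ ≤ |c| * (|u i| * (4 * V ^ 2 * yy g u v ψ j) + |u j| * (4 * V ^ 2 * yy g u v ψ i)) := by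
        gcongr
    _ = _ := by ring

lemma ff_le' {g : (Fin n → ℝ) → (Fin n → ℝ) → ℂ} (c : ℝ) (i j : Fin n) (u v : Fin n → ℝ) {b : ℝ}
    (h : ∀ l, ‖g (ee l) v‖ ≤ b) : ‖ff g c i j u v‖ ≤ |c| * ((|u i| + |u j|) * b) := by
  refine (ff_le _ _ _ _ _ _).trans ?_
  have h1 := h i
  have h2 := h j
  calc _ ≤ |c| * (|u i| * b + |u j| * b) := by gcongr
    _ = _ := by ring

lemma Pert.f1 (B : Base g z u v Γ V ψ) (P : Pert g g' Γ V ψ τ i j) (c : ℝ) :
    ‖ff (dG g' c i j) c i j u v‖ ≤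
      c ^ 2 * (16 * V ^ 3) * ((|u i| + |u j|) * (yy g u v ψ i + yy g u v ψ j)) := by
  have hV : 0 ≤ V := by linarith [B.one, B.le]
  have h : ∀ l, ‖dG g' c i j (ee l) v‖ ≤
      |c| * (4 * V * (4 * V ^ 2 * (yy g u v ψ i + yy g u v ψ j))) := fun l => by
    refine (dG_le P.s c i j _ _).trans (mul_le_mul_of_nonneg_left ?_ (abs_nonneg _))
    exact mul_le_mul ((P.NS B (inS_e u v l)).trans (by linarith [B.le])) (P.Ny B (Or.inr rfl))
      (NN_nonneg _ _ _ _) (by positivity)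
  refine (ff_le' c i j u v h).trans (le_of_eq ?_)
  rw [← sq_abs c]; ring

lemma Pert.f2 (B : Base g z u v Γ V ψ) (P : Pert g g' Γ V ψ τ i j) (c : ℝ) :
    ‖ff (ddG g' c i j) c i j u v‖ ≤
      |c| * c ^ 2 * (128 * V ^ 4) * ((|u i| + |u j|) * (yy g u v ψ i + yy g u v ψ j)) := by
  have hV : 0 ≤ V := by linarith [B.one, B.le]
  have hΓ : 0 ≤ Γ := by linarith [B.one]
  have h : ∀ l, ‖ddG g' c i j (ee l) v‖ ≤
      2 * c ^ 2 * (4 * V) * (4 * V * (4 * V ^ 2 * (yy g u v ψ i + yy g u v ψ j))) := fun l => by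
    refine (P.dd B c _ _).trans (mul_le_mul ?_ ?_
      (mul_nonneg (NN_nonneg _ _ _ _) (NN_nonneg _ _ _ _)) (by positivity))
    · have := B.le; gcongr
    · exact mul_le_mul ((P.NS B (inS_e u v l)).trans (by linarith [B.le])) (P.Ny B (Or.inr rfl))
        (NN_nonneg _ _ _ _) (by positivity)
  refine (ff_le' c i j u v h).trans (le_of_eq ?_)
  ring

lemma Pert.x1 (B : Base g z u v Γ V ψ) (P : Pert g g' Γ V ψ τ i j) (c : ℝ) :
    ‖X1 g' c i j z u v‖ ≤ |c| * (128 * V ^ 5) * (yy g u v ψ i * yy g u v ψ j) := by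
  have hV : 1 ≤ V := B.one.trans B.le
  have hΓ : 0 ≤ Γ := by linarith [B.one]
  have yi := B.y0 i
  have yj := B.y0 j
  have hc := abs_nonneg c
  have h1 : ‖dG g' c i j u v‖ ≤ |c| * (32 * V ^ 4 * (yy g u v ψ i * yy g u v ψ j)) := by
    refine (dG_le_cross P.s c i j u v).trans (mul_le_mul_of_nonneg_left ?_ hc)
    have a1 := P.y B (Or.inl rfl) i
    have a2 := P.y B (Or.inl rfl) j
    have a3 := P.y B (Or.inr rfl) i
    have a4 := P.y B (Or.inr rfl) j
    calc _ ≤ (4 * V ^ 2 * yy g u v ψ i) * (4 * V ^ 2 * yy g u v ψ j) +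
          (4 * V ^ 2 * yy g u v ψ j) * (4 * V ^ 2 * yy g u v ψ i) := by gcongr
      _ = _ := by ring
  have h2 : ψ ^ 2 ≤ yy g u v ψ i * yy g u v ψ j := by
    rw [sq]; exact mul_le_mul (B.y_ge i) (B.y_ge j) B.ψ0 yi
  have h3 := (P.tr1 B c).trans (mul_le_mul_of_nonneg_left
    (mul_le_mul_of_nonneg_left h2 (by norm_num : (0 : ℝ) ≤ 16)) hc)
  have h4 := (P.b B (inS_u u v) (inS_v u v)).trans (show 2 * Γ ≤ 2 * V ^ 5 by
    have : V ≤ V ^ 5 := by simpa using pow_le_pow_right₀ hV (show 1 ≤ 5 by norm_num)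
    linarith [B.le])
  have h5 := (P.ztr B).trans (show 3 * Γ ≤ 3 * V by linarith [B.le])
  unfold X1
  refine (norm_add_le _ _).trans ?_
  rw [norm_mul, norm_mul]
  have e1 := mul_le_mul h3 h4 (norm_nonneg _) (by positivity)
  have e2 := mul_le_mul h5 h1 (norm_nonneg _) (by positivity)
  refine (add_le_add e1 e2).trans (le_of_eq ?_)
  ring

lemma Pert.x2 (B : Base g z u v Γ V ψ) (P : Pert g g' Γ V ψ τ i j) (c : ℝ) :
    ‖X2 g' c i j z u v‖ ≤ c ^ 2 * (1152 * V ^ 6) * (yy g u v ψ i + yy g u v ψ j) ^ 2 := by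
  have hV : 1 ≤ V := B.one.trans B.le
  have hΓ : 0 ≤ Γ := by linarith [B.one]
  have yi := B.y0 i
  have yj := B.y0 j
  have hc := abs_nonneg c
  set Y := yy g u v ψ i + yy g u v ψ j with hY
  have hY0 : 0 ≤ Y := add_nonneg yi yj
  have hN : NN g' i j u * NN g' i j v ≤ (4 * V ^ 2 * Y) * (4 * V ^ 2 * Y) :=
    mul_le_mul (P.Ny B (Or.inl rfl)) (P.Ny B (Or.inr rfl)) (NN_nonneg _ _ _ _) (by positivity)
  have h1 : ‖dG g' c i j u v‖ ≤ |c| * ((4 * V ^ 2 * Y) * (4 * V ^ 2 * Y)) :=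
    (dG_le P.s c i j u v).trans (mul_le_mul_of_nonneg_left hN hc)
  have h2 : ‖ddG g' c i j u v‖ ≤ 2 * c ^ 2 * (4 * V) * ((4 * V ^ 2 * Y) * (4 * V ^ 2 * Y)) := by
    refine (P.dd B c u v).trans (mul_le_mul ?_ hN
      (mul_nonneg (NN_nonneg _ _ _ _) (NN_nonneg _ _ _ _)) (by positivity))
    have := B.le; gcongr
  have hψY : ψ ^ 2 ≤ Y ^ 2 := pow_le_pow_left₀ B.ψ0 (by linarith [B.y_ge i]) 2
  have hψV : ψ ^ 2 ≤ V ^ 2 := pow_le_pow_left₀ B.ψ0 (B.ψ1.trans hV) 2
  have h3 : ‖tr (dG g' c i j)‖ ≤ |c| * (16 * V ^ 2) := (P.tr1 B c).trans (by gcongr)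
  have h4 : ‖tr (ddG g' c i j)‖ ≤ 2 * c ^ 2 * (4 * V) * (16 * Y ^ 2) :=
    (P.tr2 B c).trans (by have := B.le; gcongr)
  have h5 := (P.b B (inS_u u v) (inS_v u v)).trans (show 2 * Γ ≤ 2 * V ^ 5 by
    have : V ≤ V ^ 5 := by simpa using pow_le_pow_right₀ hV (show 1 ≤ 5 by norm_num)
    linarith [B.le])
  have h6 := (P.ztr B).trans (show 3 * Γ ≤ 3 * V by linarith [B.le])
  unfold X2
  refine (norm_add_le _ _).trans ((add_le_add (norm_add_le _ _) (norm_add_le _ _)).trans ?_)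
  rw [norm_mul, norm_mul, norm_mul]
  have e1 := mul_le_mul h4 h5 (norm_nonneg _) (by positivity)
  have e2 := mul_le_mul h3 h1 (norm_nonneg _) (by positivity)
  have e3 := mul_le_mul h6 h2 (norm_nonneg _) (by positivity)
  refine (add_le_add (add_le_add e1 e2) (add_le_add e2 e3)).trans (le_of_eq ?_)
  rw [← sq_abs c]; ring

lemma Pert.x0 (B : Base g z u v Γ V ψ) (P : Pert g g' Γ V ψ τ i j) :
    ‖(z + tr g') * g' u v - (z + tr g) * g u v‖ ≤ 32 * V ^ 3 * ψ := by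
  have hV : 1 ≤ V := B.one.trans B.le
  have hΓ : 0 ≤ Γ := by linarith [B.one]
  have hn : (0 : ℝ) < n := by exact_mod_cast B.hn
  have ψ0 := B.ψ0
  have h1 : ‖tr g' - tr g‖ ≤ |τ| * (8 * ψ ^ 2) := by
    rw [tr_sub]
    refine (tr_le (b := fun k => |τ| * (2 * NN g i j (ee k) ^ 2)) fun k => ?_).trans ?_
    · refine (P.diff _ _).trans (mul_le_mul_of_nonneg_left ?_ (abs_nonneg _))
      rw [B.s (ee j), B.s (ee i)]
      have a := P.N_le B (ee k)
      have a1 := norm_nonneg (g' (ee k) (ee i))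
      have a2 := norm_nonneg (g' (ee k) (ee j))
      have a3 := norm_nonneg (g (ee k) (ee i))
      have a4 := norm_nonneg (g (ee k) (ee j))
      have a5 := mul_le_mul_of_nonneg_right a (add_nonneg a3 a4)
      unfold NN at a5 ⊢
      nlinarith [mul_nonneg a1 a3, mul_nonneg a2 a4]
    · rw [← Finset.mul_sum, ← Finset.mul_sum, mul_div_assoc]
      refine mul_le_mul_of_nonneg_left ?_ (abs_nonneg _)
      rw [div_le_iff₀ hn]
      linarith [B.sumN i j]
  have h2 : ‖g' u v - g u v‖ ≤ V * ψ * (4 * V) :=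
    (P.diffS B u (inS_v u v)).trans (mul_le_mul P.t2
      ((P.NS B (inS_u u v)).trans (by linarith [B.le])) (NN_nonneg _ _ _ _) (by positivity))
  have h3 := P.b B (inS_u u v) (inS_v u v)
  have h4 : ‖z + tr g‖ ≤ 2 * V := by linarith [norm_add_le z (tr g), B.z, B.tr_le, B.le]
  have e : (z + tr g') * g' u v - (z + tr g) * g u v =
      (tr g' - tr g) * g' u v + (z + tr g) * (g' u v - g u v) := by ring
  rw [e]
  refine (norm_add_le _ _).trans ?_
  rw [norm_mul, norm_mul]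
  have e1 := mul_le_mul h1 h3 (norm_nonneg _) (by positivity)
  have e2 := mul_le_mul h4 h2 (norm_nonneg _) (by positivity)
  have e3 : |τ| * (8 * ψ ^ 2) * (2 * Γ) ≤ 16 * V ^ 3 * ψ := by
    have a1 : ψ ^ 2 ≤ V ^ 2 := pow_le_pow_left₀ B.ψ0 (B.ψ1.trans hV) 2
    calc _ = 16 * (|τ| * Γ) * ψ ^ 2 := by ring
      _ ≤ 16 * (V * ψ) * V ^ 2 := by have := P.t2; gcongr
      _ = _ := by ring
  have e4 : 0 ≤ V ^ 3 * ψ := by positivity
  nlinarith

end line

end Crest.Agent.T157.Ll.Q47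
end
end

-- ▼ part T157/LlQC_47
section

/-!
# Row 157, local law: `QDetStmt`, part C — the signed first order sums (helper47)
-/

set_option autoImplicit false

noncomputable section

namespace Crest.Agent.T157.Ll.Q47

open MeasureTheory Matrix Function

variable {n : ℕ}

lemma cs_sum (a b : Fin n → ℂ) :
    ‖∑ l, a l * b l‖ ≤ (∑ l, ‖a l‖ ^ 2 + ∑ l, ‖b l‖ ^ 2) / 2 := by
  refine (norm_sum_le _ _).trans ?_
  rw [← Finset.sum_add_distrib, Finset.sum_div]
  refine Finset.sum_le_sum fun l _ => ?_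
  rw [norm_mul]; nlinarith [sq_nonneg (‖a l‖ - ‖b l‖)]

/-- linearity in the first slot -/
def Lin (g : (Fin n → ℝ) → (Fin n → ℝ) → ℂ) : Prop := ∀ p q, g p q = ∑ k, (p k : ℂ) * g (ee k) q

/-- operator norm `≤ n` -/
def Op (g : (Fin n → ℝ) → (Fin n → ℝ) → ℂ) : Prop :=
  ∀ w : Fin n → ℝ, w ⬝ᵥ w ≤ 1 → ∑ l, ‖g w (ee l)‖ ^ 2 ≤ (n : ℝ) ^ 2

lemma Op.real {g : (Fin n → ℝ) → (Fin n → ℝ) → ℂ} (hl : Lin g) (ho : Op g) (w : Fin n → ℝ) :
    ∑ l, ‖g w (ee l)‖ ^ 2 ≤ (n : ℝ) ^ 2 * ∑ k, w k ^ 2 := by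
  set S := ∑ k, w k ^ 2 with hS
  have hS0 : 0 ≤ S := Finset.sum_nonneg fun k _ => sq_nonneg _
  rcases hS0.eq_or_lt with h0 | h0
  · have hw : ∀ k, w k = 0 := fun k => by
      have := (Finset.sum_eq_zero_iff_of_nonneg (fun k _ => sq_nonneg (w k))).1 h0.symm k
        (Finset.mem_univ k)
      exact pow_eq_zero_iff (two_ne_zero) |>.1 this
    have : ∀ l, g w (ee l) = 0 := fun l => by rw [hl]; simp [hw]
    simp [this, ← h0]
  · have hs : 0 < √S := Real.sqrt_pos.2 h0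
    have hs2 : √S ^ 2 = S := Real.sq_sqrt hS0
    have h1 := ho (fun k => w k / √S) (by
      simp only [dotProduct]
      have : ∀ k, w k / √S * (w k / √S) = w k ^ 2 / S := fun k => by
        rw [div_mul_div_comm, ← sq, ← sq, hs2]
      simp only [this]
      rw [← Finset.sum_div, div_self h0.ne'])
    have h2 : ∀ l, g w (ee l) = (√S : ℝ) * g (fun k => w k / √S) (ee l) := fun l => by
      rw [hl w, hl (fun k => w k / √S), Finset.mul_sum]
      refine Finset.sum_congr rfl fun k _ => ?_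
      have : ((√S : ℝ) : ℂ) ≠ 0 := by exact_mod_cast hs.ne'
      push_cast; field_simp
    simp only [h2, norm_mul, mul_pow, Complex.norm_real, Real.norm_eq_abs, sq_abs, hs2]
    rw [← Finset.mul_sum, mul_comm]
    exact mul_le_mul_of_nonneg_right h1 hS0

lemma Op.cplx {g : (Fin n → ℝ) → (Fin n → ℝ) → ℂ} (hl : Lin g) (ho : Op g) (A : Fin n → ℂ) :
    ∑ l, ‖∑ p, A p * g (ee p) (ee l)‖ ^ 2 ≤ 2 * (n : ℝ) ^ 2 * ∑ p, ‖A p‖ ^ 2 := by
  have h1 := ho.real hl fun p => (A p).re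
  have h2 := ho.real hl fun p => (A p).im
  have e : ∀ l, ∑ p, A p * g (ee p) (ee l) =
      g (fun p => (A p).re) (ee l) + Complex.I * g (fun p => (A p).im) (ee l) := fun l => by
    rw [hl (fun p => (A p).re), hl (fun p => (A p).im), Finset.mul_sum, ← Finset.sum_add_distrib]
    refine Finset.sum_congr rfl fun p _ => ?_
    conv_lhs => rw [← Complex.re_add_im (A p)]
    ring
  have e2 : ∑ p, ‖A p‖ ^ 2 = ∑ p, (A p).re ^ 2 + ∑ p, (A p).im ^ 2 := by
    rw [← Finset.sum_add_distrib]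
    exact Finset.sum_congr rfl fun p _ => by rw [Complex.sq_norm, Complex.normSq_apply]; ring
  calc _ ≤ ∑ l, (2 * ‖g (fun p => (A p).re) (ee l)‖ ^ 2 + 2 * ‖g (fun p => (A p).im) (ee l)‖ ^ 2) := by
        refine Finset.sum_le_sum fun l _ => ?_
        rw [e]
        have a := norm_add_le (g (fun p => (A p).re) (ee l))
          (Complex.I * g (fun p => (A p).im) (ee l))
        rw [norm_mul, Complex.norm_I, one_mul] at a
        have b := pow_le_pow_left₀ (norm_nonneg _) a 2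
        nlinarith [sq_nonneg (‖g (fun p => (A p).re) (ee l)‖ - ‖g (fun p => (A p).im) (ee l)‖)]
    _ ≤ _ := by
        rw [Finset.sum_add_distrib, ← Finset.mul_sum, ← Finset.mul_sum, e2]; linarith

lemma cov_norm (R : ResApi) (E : Ens n) (hn : 1 ≤ n) (F : Fin n → Fin n → ℂ) (T : E.ι → ℂ) (r : ℂ)
    (hT : ∀ a, T a = -((E.c a : ℂ) ^ 2 * (F (E.i a) (E.j a) + F (E.j a) (E.i a)))) {M1 M2 : ℝ}
    (h1 : ‖∑ k, ∑ l, F k l - n * r‖ ≤ n * M1) (h2 : ∑ k, ‖F k k‖ ≤ n * M2) :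
    ‖r + ∑ a, T a‖ ≤ M1 + M2 := by
  have hn' : (0 : ℝ) < n := by exact_mod_cast hn
  have hnc : (n : ℂ) ≠ 0 := by exact_mod_cast hn'.ne'
  simp only [hT, Finset.sum_neg_distrib, R.covC E F]
  have e : r + -((∑ k, ∑ l, F k l + ∑ k, (E.d k : ℂ) * F k k) / n) =
      -(((∑ k, ∑ l, F k l - n * r) + ∑ k, (E.d k : ℂ) * F k k) / n) := by
    field_simp; ring
  rw [e, norm_neg, norm_div, Complex.norm_natCast, div_le_iff₀ hn']
  have h3 : ‖∑ k, (E.d k : ℂ) * F k k‖ ≤ ∑ k, ‖F k k‖ :=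
    (norm_sum_le _ _).trans (Finset.sum_le_sum fun k _ => by
      rw [norm_mul, Complex.norm_real, Real.norm_eq_abs]
      exact mul_le_of_le_one_left (norm_nonneg _) (E.d_le k))
  linarith [norm_add_le (∑ k, ∑ l, F k l - n * r) (∑ k, (E.d k : ℂ) * F k k)]

section signed
variable {g h : (Fin n → ℝ) → (Fin n → ℝ) → ℂ} {z : ℂ} {u v : Fin n → ℝ} {Γ V ψ : ℝ}

lemma Base.sum_norm (B : Base g z u v Γ V ψ) {p : Fin n → ℝ} (hp : InS u v p) :
    ∑ k, ‖g (ee k) p‖ ≤ n * ψ := by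
  have h1 := Finset.sum_mul_sq_le_sq_mul_sq Finset.univ (fun _ : Fin n => (1 : ℝ))
    fun k => ‖g (ee k) p‖
  simp only [one_mul, one_pow, Finset.sum_const, Finset.card_univ, Fintype.card_fin, nsmul_eq_mul,
    mul_one] at h1
  have h2 := mul_le_mul_of_nonneg_left (B.w p hp) (Nat.cast_nonneg (α := ℝ) n)
  refine (pow_le_pow_iff_left₀ (Finset.sum_nonneg fun k _ => norm_nonneg _)
    (mul_nonneg (Nat.cast_nonneg _) B.ψ0) two_ne_zero).1 ?_
  calc _ ≤ _ := h1
    _ ≤ _ := h2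
    _ = _ := by ring

theorem S1 (R : ResApi) (E : Ens n) (B : Base g z u v Γ V ψ) (hl : Lin g) (hu : u ⬝ᵥ u ≤ 1) :
    ‖tr g * g u v + ∑ a, ff (dG g (E.c a) (E.i a) (E.j a)) (E.c a) (E.i a) (E.j a) u v‖ ≤
      ψ + 2 * Γ * ψ := by
  have hn' : (0 : ℝ) < n := by exact_mod_cast B.hn
  have hnc : (n : ℂ) ≠ 0 := by exact_mod_cast hn'.ne'
  refine cov_norm R E B.hn (fun k l => u k * (g (ee l) (ee k) * g (ee l) v +
    g (ee l) (ee l) * g (ee k) v)) _ _ (fun a => by unfold ff dG; ring) ?_ ?_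
  · have e : ∑ k, ∑ l, (u k : ℂ) * (g (ee l) (ee k) * g (ee l) v + g (ee l) (ee l) * g (ee k) v) -
        n * (tr g * g u v) = ∑ l, g (ee l) u * g (ee l) v := by
      have e1 : (n : ℂ) * (tr g * g u v) = ∑ k, ∑ l, (u k : ℂ) * (g (ee l) (ee l) * g (ee k) v) := by
        unfold tr
        rw [hl u v, ← mul_assoc, mul_div_cancel₀ _ hnc, mul_comm, Finset.sum_mul_sum]
        exact Finset.sum_congr rfl fun k _ => Finset.sum_congr rfl fun l _ => by ring
      rw [e1, ← Finset.sum_sub_distrib]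
      simp only [← Finset.sum_sub_distrib]
      rw [Finset.sum_comm]
      refine Finset.sum_congr rfl fun l _ => ?_
      rw [B.s (ee l) u, hl u (ee l), Finset.sum_mul]
      exact Finset.sum_congr rfl fun k _ => by rw [B.s (ee l) (ee k)]; ring
    rw [e]
    refine (cs_sum _ _).trans ?_
    have h1 := B.w _ (inS_u u v)
    have h2 := B.w _ (inS_v u v)
    have h3 : ψ ^ 2 ≤ ψ := by nlinarith [B.ψ0, B.ψ1]
    nlinarith
  · calc _ ≤ ∑ k, 2 * Γ * ‖g (ee k) v‖ := Finset.sum_le_sum fun k _ => by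
          rw [← two_mul, norm_mul, norm_mul, norm_mul, Complex.norm_real, Real.norm_eq_abs,
            Complex.norm_two]
          have a1 := abs_le_one' hu k
          have a2 := B.b _ _ (inS_e u v k) (inS_e u v k)
          calc _ ≤ 1 * (2 * (Γ * ‖g (ee k) v‖)) := by gcongr
            _ = _ := by ring
      _ ≤ _ := by
          rw [← Finset.mul_sum]
          have := mul_le_mul_of_nonneg_left (B.sum_norm (inS_v u v))
            (show 0 ≤ 2 * Γ by linarith [B.one])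
          linarith

theorem T1 (R : ResApi) (E : Ens n) (B : Base g z u v Γ V ψ) (B' : Base h z u v Γ V ψ) (hl : Lin h)
    (hu : u ⬝ᵥ u ≤ 1) :
    ‖∑ a, ff g (E.c a) (E.i a) (E.j a) u v * dG h (E.c a) (E.i a) (E.j a) u v‖ ≤
      2 * Γ * ψ ^ 2 + 2 * Γ * ψ ^ 2 := by
  have hΓ : 0 ≤ Γ := by linarith [B.one]
  rw [← zero_add (∑ a, _)]
  refine cov_norm R E B.hn (fun k l => u k * g (ee l) v * (h u (ee k) * h (ee l) v +
    h u (ee l) * h (ee k) v)) _ _ (fun a => by unfold ff dG; ring) ?_ ?_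
  · have e : ∑ k, ∑ l, (u k : ℂ) * g (ee l) v * (h u (ee k) * h (ee l) v + h u (ee l) * h (ee k) v) -
        n * 0 = h u u * ∑ l, g (ee l) v * h (ee l) v + h u v * ∑ l, g (ee l) v * h (ee l) u := by
      rw [hl u u, hl u v, Finset.sum_mul_sum, Finset.sum_mul_sum, mul_zero, sub_zero,
        ← Finset.sum_add_distrib]
      refine Finset.sum_congr rfl fun k _ => ?_
      rw [← Finset.sum_add_distrib]
      refine Finset.sum_congr rfl fun l _ => ?_
      rw [B'.s u (ee k), B'.s u (ee l)]; ring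
    rw [e]
    refine (norm_add_le _ _).trans ?_
    rw [norm_mul, norm_mul]
    have h1 := B.w _ (inS_v u v)
    have h2 := B'.w _ (inS_v u v)
    have h3 := B'.w _ (inS_u u v)
    have a1 : ‖∑ l, g (ee l) v * h (ee l) v‖ ≤ n * ψ ^ 2 := (cs_sum _ _).trans (by linarith)
    have a2 : ‖∑ l, g (ee l) v * h (ee l) u‖ ≤ n * ψ ^ 2 := (cs_sum _ _).trans (by linarith)
    have e1 := mul_le_mul (B'.b _ _ (inS_u u v) (inS_u u v)) a1 (norm_nonneg _) hΓ
    have e2 := mul_le_mul (B'.b _ _ (inS_u u v) (inS_v u v)) a2 (norm_nonneg _) hΓ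
    linarith
  · calc _ ≤ ∑ k, Γ * (‖g (ee k) v‖ ^ 2 + ‖h (ee k) v‖ ^ 2) := Finset.sum_le_sum fun k _ => by
          rw [← two_mul, norm_mul, norm_mul, norm_mul, norm_mul, Complex.norm_real,
            Real.norm_eq_abs, Complex.norm_two]
          have a1 := abs_le_one' hu k
          have a2 := B'.b _ _ (inS_u u v) (inS_e u v k)
          calc _ ≤ 1 * ‖g (ee k) v‖ * (2 * (Γ * ‖h (ee k) v‖)) := by gcongr
            _ = Γ * (2 * ‖g (ee k) v‖ * ‖h (ee k) v‖) := by ring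
            _ ≤ _ := mul_le_mul_of_nonneg_left
                (by nlinarith [sq_nonneg (‖g (ee k) v‖ - ‖h (ee k) v‖)]) hΓ
      _ ≤ _ := by
          rw [← Finset.mul_sum, Finset.sum_add_distrib]
          have := mul_le_mul_of_nonneg_left (add_le_add (B.w _ (inS_v u v)) (B'.w _ (inS_v u v))) hΓ
          linarith

theorem T2 (R : ResApi) (E : Ens n) (B : Base g z u v Γ V ψ) (B' : Base h z u v Γ V ψ) (hl : Lin h)
    (ho : Op h) (hu : u ⬝ᵥ u ≤ 1) :
    ‖∑ a, ff g (E.c a) (E.i a) (E.j a) u v * tr (dG h (E.c a) (E.i a) (E.j a))‖ ≤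
      3 * ψ ^ 2 + 2 * Γ * ψ ^ 2 := by
  have hΓ : 0 ≤ Γ := by linarith [B.one]
  have hn' : (0 : ℝ) < n := by exact_mod_cast B.hn
  have hnc : (n : ℂ) ≠ 0 := by exact_mod_cast hn'.ne'
  have et : ∀ (c : ℝ) (i j : Fin n), tr (dG h c i j) =
      -(c : ℂ) * (2 * ((∑ p, h (ee p) (ee i) * h (ee p) (ee j)) / n)) := by
    intro c i j
    unfold tr dG
    rw [← Finset.mul_sum, mul_div_assoc, ← mul_div_assoc 2, Finset.mul_sum]
    congr 2
    exact Finset.sum_congr rfl fun p _ => by rw [B'.s (ee j), B'.s (ee i)]; ring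
  rw [← zero_add (∑ a, _)]
  refine cov_norm R E B.hn (fun k l => u k * g (ee l) v *
    (2 * ((∑ p, h (ee p) (ee k) * h (ee p) (ee l)) / n))) _ _ (fun a => ?_) ?_ ?_
  · have : ∑ p, h (ee p) (ee (E.j a)) * h (ee p) (ee (E.i a)) =
        ∑ p, h (ee p) (ee (E.i a)) * h (ee p) (ee (E.j a)) :=
      Finset.sum_congr rfl fun p _ => mul_comm _ _
    rw [et, this]; unfold ff; ring
  · have e : ∑ k, ∑ l, (u k : ℂ) * g (ee l) v *
        (2 * ((∑ p, h (ee p) (ee k) * h (ee p) (ee l)) / n)) - n * 0 =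
        2 * ∑ l, g (ee l) v * ((∑ p, h u (ee p) * h (ee p) (ee l)) / n) := by
      rw [mul_zero, sub_zero, Finset.sum_comm, Finset.mul_sum]
      refine Finset.sum_congr rfl fun l _ => ?_
      have : ∑ p, h u (ee p) * h (ee p) (ee l) =
          ∑ k, (u k : ℂ) * ∑ p, h (ee p) (ee k) * h (ee p) (ee l) := by
        simp only [Finset.mul_sum]
        rw [Finset.sum_comm]
        refine Finset.sum_congr rfl fun p _ => ?_
        rw [hl u (ee p), Finset.sum_mul]
        exact Finset.sum_congr rfl fun k _ => by rw [B'.s (ee k) (ee p)]; ring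
      rw [this, Finset.sum_div, Finset.mul_sum, Finset.mul_sum]
      exact Finset.sum_congr rfl fun k _ => by ring
    rw [e, norm_mul, Complex.norm_two]
    have h1 := B.w _ (inS_v u v)
    have h2 : ∑ l, ‖(∑ p, h u (ee p) * h (ee p) (ee l)) / n‖ ^ 2 ≤ 2 * (n * ψ ^ 2) := by
      simp only [norm_div, div_pow, Complex.norm_natCast]
      rw [← Finset.sum_div, div_le_iff₀ (by positivity)]
      refine (ho.cplx hl _).trans ?_
      have h3 := B'.w _ (inS_u u v)
      simp only [B'.s u]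
      have := mul_le_mul_of_nonneg_left h3 (show 0 ≤ 2 * (n : ℝ) ^ 2 by positivity)
      linarith
    linarith [cs_sum (fun l => g (ee l) v) fun l => (∑ p, h u (ee p) * h (ee p) (ee l)) / n]
  · calc _ ≤ ∑ _k : Fin n, 2 * Γ * ψ ^ 2 := Finset.sum_le_sum fun k _ => by
          rw [norm_mul, norm_mul, norm_mul, Complex.norm_real, Real.norm_eq_abs, Complex.norm_two,
            norm_div, Complex.norm_natCast]
          have a1 := abs_le_one' hu k
          have a2 := B.b _ _ (inS_e u v k) (inS_v u v)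
          have a3 : ‖∑ p, h (ee p) (ee k) * h (ee p) (ee k)‖ / n ≤ ψ ^ 2 := by
            rw [div_le_iff₀ hn']
            linarith [cs_sum (fun p => h (ee p) (ee k)) fun p => h (ee p) (ee k),
              B'.w _ (inS_e u v k)]
          calc _ ≤ 1 * Γ * (2 * ψ ^ 2) := by gcongr
            _ = _ := by ring
      _ = _ := by simp

theorem S2 (R : ResApi) (E : Ens n) (B : Base g z u v Γ V ψ) (hl : Lin g) (ho : Op g)
    (hu : u ⬝ᵥ u ≤ 1) (σ : ℂ →+* ℂ) (hσn : ∀ w, ‖σ w‖ = ‖w‖) (hσr : ∀ t : ℝ, σ t = t) :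
    ‖∑ a, ff g (E.c a) (E.i a) (E.j a) u v * σ (X1 g (E.c a) (E.i a) (E.j a) z u v)‖ ≤
      13 * V ^ 2 * ψ ^ 2 := by
  have hΓ : 0 ≤ Γ := by linarith [B.one]
  have B' : Base (fun p q => σ (g p q)) z u v Γ V ψ :=
    ⟨B.hn, fun p q => by rw [B.s], B.one, B.le, B.z, fun p q hp hq => by
      rw [hσn]; exact B.b p q hp hq, B.ψ0, B.ψ1, fun p hp => by
      simp only [hσn]; exact B.w p hp⟩
  have hl' : Lin fun p q => σ (g p q) := fun p q => by
    show σ (g p q) = _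
    rw [hl p q, map_sum]; simp only [map_mul, hσr]
  have ho' : Op fun p q => σ (g p q) := fun w hw => by simp only [hσn]; exact ho w hw
  have e1 : ∀ c i j p q, σ (dG g c i j p q) = dG (fun p q => σ (g p q)) c i j p q := by
    intro c i j p q; unfold dG; simp only [map_mul, map_neg, map_add, hσr]
  have e2 : ∀ c i j, σ (tr (dG g c i j)) = tr (dG (fun p q => σ (g p q)) c i j) := by
    intro c i j; unfold tr; rw [map_div₀, map_sum, map_natCast]; simp only [e1]
  have e : ∑ a, ff g (E.c a) (E.i a) (E.j a) u v * σ (X1 g (E.c a) (E.i a) (E.j a) z u v) =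
      σ (g u v) * ∑ a, ff g (E.c a) (E.i a) (E.j a) u v *
        tr (dG (fun p q => σ (g p q)) (E.c a) (E.i a) (E.j a)) +
      σ (z + tr g) * ∑ a, ff g (E.c a) (E.i a) (E.j a) u v *
        dG (fun p q => σ (g p q)) (E.c a) (E.i a) (E.j a) u v := by
    rw [Finset.mul_sum, Finset.mul_sum, ← Finset.sum_add_distrib]
    refine Finset.sum_congr rfl fun a _ => ?_
    unfold X1
    rw [map_add, map_mul, map_mul, e1, e2]; ring
  rw [e]
  refine (norm_add_le _ _).trans ?_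
  rw [norm_mul, norm_mul, hσn, hσn]
  have h4 : ‖z + tr g‖ ≤ 2 * Γ := by linarith [norm_add_le z (tr g), B.z, B.tr_le]
  have a1 := mul_le_mul (B.b _ _ (inS_u u v) (inS_v u v)) (T2 R E B B' hl' ho' hu) (norm_nonneg _) hΓ
  have a2 := mul_le_mul h4 (T1 R E B B' hl' hu) (norm_nonneg _) (by positivity)
  have b1 : Γ ≤ Γ ^ 2 := by nlinarith [B.one]
  have b2 : Γ ^ 2 ≤ V ^ 2 := pow_le_pow_left₀ hΓ B.le 2
  have b3 := mul_le_mul_of_nonneg_right b1 (sq_nonneg ψ)
  have b4 := mul_le_mul_of_nonneg_right b2 (sq_nonneg ψ)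
  nlinarith

end signed

end Crest.Agent.T157.Ll.Q47
end
end

-- ▼ part T157/LlQ_47
section

/-!
# Row 157, local law: `qDet : ResApi → QDetStmt` (helper47)
-/

set_option autoImplicit false

noncomputable section

namespace Crest.Agent.T157.Ll

namespace Q47

open MeasureTheory Matrix Function

variable {n : ℕ}

lemma sum3 (R : ResApi) (E : Ens n) (hn : 1 ≤ n) (F : Fin n → Fin n → ℝ) (hF : ∀ k l, 0 ≤ F k l)
    {M : ℝ} (hM : ∑ k, ∑ l, F k l ≤ M * (√(n : ℝ) * n)) :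
    ∑ a, |E.c a| * (E.c a ^ 2 * (F (E.i a) (E.j a) + F (E.j a) (E.i a))) ≤ 2 * M := by
  have hn' : (0 : ℝ) < n := by exact_mod_cast hn
  have hr : 0 < √(n : ℝ) := Real.sqrt_pos.2 hn'
  have hc : ∀ a, |E.c a| ≤ 1 / √(n : ℝ) := fun a => by
    refine (pow_le_pow_iff_left₀ (abs_nonneg _) (by positivity) two_ne_zero).1 ?_
    rw [sq_abs, div_pow, one_pow, Real.sq_sqrt hn'.le]; exact E.c_sq a
  calc _ ≤ ∑ a, 1 / √(n : ℝ) * (E.c a ^ 2 * (F (E.i a) (E.j a) + F (E.j a) (E.i a))) :=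
        Finset.sum_le_sum fun a _ => mul_le_mul_of_nonneg_right (hc a)
          (mul_nonneg (sq_nonneg _) (add_nonneg (hF _ _) (hF _ _)))
    _ ≤ 1 / √(n : ℝ) * (2 * (M * (√(n : ℝ) * n)) / n) := by
        rw [← Finset.mul_sum]
        refine mul_le_mul_of_nonneg_left ((R.cov_le E F hF).trans ?_) (by positivity)
        gcongr
    _ = 2 * M := by field_simp

lemma cs_real (f g : Fin n → ℝ) {A B : ℝ} (hA : 0 ≤ A) (hB : 0 ≤ B) (hf : ∑ k, f k ^ 2 ≤ A ^ 2)
    (hg : ∑ k, g k ^ 2 ≤ B ^ 2) : ∑ k, f k * g k ≤ A * B := by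
  have h1 := Finset.sum_mul_sq_le_sq_mul_sq Finset.univ f g
  have h2 := mul_le_mul hf hg (Finset.sum_nonneg fun k _ => sq_nonneg _) (sq_nonneg _)
  refine le_trans (le_abs_self _) ((pow_le_pow_iff_left₀ (abs_nonneg _) (mul_nonneg hA hB)
    two_ne_zero).1 ?_)
  rw [sq_abs, mul_pow]; exact h1.trans h2

/-- the one-index sums -/
structure Sums (al y : Fin n → ℝ) (r V ψ : ℝ) : Prop where
  a1 : ∑ k, al k ≤ r
  y1 : ∑ k, y k ≤ 3 * (n * ψ)
  y2 : ∑ k, y k ^ 2 ≤ 9 * (n * ψ ^ 2)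
  y3 : ∑ k, y k ^ 3 ≤ 27 * V * (n * ψ ^ 2)
  ay : ∑ k, al k * y k ≤ 3 * (r * ψ)
  ay2 : ∑ k, al k * y k ^ 2 ≤ 9 * V * (r * ψ)

lemma Base.sums {g : (Fin n → ℝ) → (Fin n → ℝ) → ℂ} {z : ℂ} {u v : Fin n → ℝ} {Γ V ψ : ℝ}
    (B : Base g z u v Γ V ψ) (hu : u ⬝ᵥ u ≤ 1) :
    Sums (fun k => |u k|) (yy g u v ψ) √(n : ℝ) V ψ := by
  have hn0 : (0 : ℝ) ≤ n := Nat.cast_nonneg _
  have hr : √(n : ℝ) ^ 2 = n := Real.sq_sqrt hn0
  have hr0 : 0 ≤ √(n : ℝ) := Real.sqrt_nonneg _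
  have ψ0 := B.ψ0
  have hV : 0 ≤ V := by linarith [B.one, B.le]
  have y2 : ∑ k, yy g u v ψ k ^ 2 ≤ 9 * (n * ψ ^ 2) := by
    calc _ ≤ ∑ k, (3 * ‖g (ee k) u‖ ^ 2 + 3 * ‖g (ee k) v‖ ^ 2 + 3 * ψ ^ 2) :=
          Finset.sum_le_sum fun k _ => by
            unfold yy
            nlinarith [sq_nonneg (‖g (ee k) u‖ - ‖g (ee k) v‖), sq_nonneg (‖g (ee k) u‖ - ψ),
              sq_nonneg (‖g (ee k) v‖ - ψ)]
      _ ≤ _ := by
          rw [Finset.sum_add_distrib, Finset.sum_add_distrib, ← Finset.mul_sum, ← Finset.mul_sum]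
          simp only [Finset.sum_const, Finset.card_univ, Fintype.card_fin, nsmul_eq_mul]
          linarith [B.w _ (inS_u u v), B.w _ (inS_v u v)]
  have y2' : ∑ k, yy g u v ψ k ^ 2 ≤ (3 * (√(n : ℝ) * ψ)) ^ 2 := by
    rw [mul_pow, mul_pow, hr]; linarith
  have o2 : ∑ _k : Fin n, (1 : ℝ) ^ 2 ≤ √(n : ℝ) ^ 2 := by rw [hr]; simp
  have a2 : ∑ k, |u k| ^ 2 ≤ 1 ^ 2 := by rw [one_pow]; exact sum_sq_le hu
  have ay : ∑ k, |u k| * yy g u v ψ k ≤ 3 * (√(n : ℝ) * ψ) := by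
    simpa using cs_real _ _ zero_le_one (by positivity) a2 y2'
  have yV : ∀ k, yy g u v ψ k ≤ 3 * V := fun k => (B.y_le k).trans (by linarith [B.le])
  refine ⟨?_, ?_, y2, ?_, ay, ?_⟩
  · simpa using cs_real _ _ zero_le_one hr0 a2 o2
  · have := cs_real _ _ hr0 (by positivity) o2 y2'
    simp only [one_mul] at this
    refine this.trans (le_of_eq ?_)
    calc _ = 3 * (√(n : ℝ) ^ 2 * ψ) := by ring
      _ = _ := by rw [hr]
  · calc _ ≤ ∑ k, 3 * V * yy g u v ψ k ^ 2 := Finset.sum_le_sum fun k _ => by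
          have := mul_le_mul_of_nonneg_right (yV k) (sq_nonneg (yy g u v ψ k))
          calc _ = yy g u v ψ k * yy g u v ψ k ^ 2 := by ring
            _ ≤ _ := this
      _ ≤ _ := by
          rw [← Finset.mul_sum]
          have := mul_le_mul_of_nonneg_left y2 (show 0 ≤ 3 * V by positivity)
          linarith
  · calc _ ≤ ∑ k, 3 * V * (|u k| * yy g u v ψ k) := Finset.sum_le_sum fun k _ => by
          have := mul_le_mul_of_nonneg_right (yV k) (mul_nonneg (abs_nonneg (u k)) (B.y0 k))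
          calc _ = yy g u v ψ k * (|u k| * yy g u v ψ k) := by ring
            _ ≤ _ := this
      _ ≤ _ := by
          rw [← Finset.mul_sum]
          have := mul_le_mul_of_nonneg_left ay (show 0 ≤ 3 * V by positivity)
          linarith

lemma dbl (f g f' g' : Fin n → ℝ) :
    ∑ k, ∑ l, (f k * g l + f' k * g' l) = (∑ k, f k) * (∑ l, g l) + (∑ k, f' k) * ∑ l, g' l := by
  rw [Finset.sum_mul_sum, Finset.sum_mul_sum, ← Finset.sum_add_distrib]
  exact Finset.sum_congr rfl fun k _ => Finset.sum_add_distrib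

section abs
variable (R : ResApi) (E : Ens n) (hn : 1 ≤ n) {al y : Fin n → ℝ} {V ψ : ℝ}
  (S : Sums al y √(n : ℝ) V ψ) (ha : ∀ k, 0 ≤ al k) (hy : ∀ k, 0 ≤ y k) (hV : 1 ≤ V) (ψ0 : 0 ≤ ψ)
include R hn S ha hy hV ψ0

omit hV in
lemma A1 : ∑ a, |E.c a| * E.c a ^ 2 * ((al (E.i a) + al (E.j a)) * (y (E.i a) + y (E.j a))) ≤
    12 * ψ := by
  have h := sum3 R E hn (fun k l => al k * y k * 1 + al k * y l)
    (fun k l => by have := ha k; have := hy k; have := hy l; positivity) (M := 6 * ψ) (by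
      rw [dbl]
      simp only [Finset.sum_const, Finset.card_univ, Fintype.card_fin, nsmul_eq_mul, mul_one]
      have e1 := mul_le_mul_of_nonneg_right S.ay (Nat.cast_nonneg (α := ℝ) n)
      have e2 := mul_le_mul S.a1 S.y1 (Finset.sum_nonneg fun k _ => hy k) (Real.sqrt_nonneg _)
      linarith)
  refine le_trans (le_of_eq (Finset.sum_congr rfl fun a _ => ?_)) (h.trans (le_of_eq (by ring)))
  ring

lemma A2 (ψ1 : ψ ≤ 1) : ∑ a, |E.c a| * E.c a ^ 2 *
    ((al (E.i a) + al (E.j a)) * (y (E.i a) + y (E.j a)) * (y (E.i a) * y (E.j a))) ≤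
    108 * V * ψ ^ 2 := by
  have h := sum3 R E hn (fun k l => al k * y k ^ 2 * y l + al k * y k * y l ^ 2)
    (fun k l => by have := ha k; have := hy k; have := hy l; positivity) (M := 54 * V * ψ ^ 2) (by
      rw [dbl]
      have e1 := mul_le_mul S.ay2 S.y1 (Finset.sum_nonneg fun k _ => hy k) (by positivity)
      have y2 : ∑ k, y k ^ 2 ≤ 9 * V * (n * ψ) := by
        have h1 : ψ ^ 2 ≤ V * ψ := by rw [sq]; exact mul_le_mul_of_nonneg_right (ψ1.trans hV) ψ0
        have h2 := mul_le_mul_of_nonneg_left h1 (Nat.cast_nonneg (α := ℝ) n)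
        linarith [S.y2]
      have e2 := mul_le_mul S.ay y2 (Finset.sum_nonneg fun k _ => sq_nonneg _) (by positivity)
      linarith)
  refine le_trans (le_of_eq (Finset.sum_congr rfl fun a _ => ?_)) (h.trans (le_of_eq (by ring)))
  ring

lemma A3 : ∑ a, |E.c a| * E.c a ^ 2 *
    ((al (E.i a) * y (E.j a) + al (E.j a) * y (E.i a)) * (y (E.i a) + y (E.j a)) ^ 2) ≤
    216 * V * ψ ^ 2 := by
  have h := sum3 R E hn (fun k l => 2 * (al k * y k ^ 2) * y l + 2 * al k * y l ^ 3)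
    (fun k l => by have := ha k; have := hy k; have := hy l; positivity) (M := 108 * V * ψ ^ 2) (by
      rw [dbl, ← Finset.mul_sum, ← Finset.mul_sum]
      have e1 := mul_le_mul S.ay2 S.y1 (Finset.sum_nonneg fun k _ => hy k) (by positivity)
      have e2 := mul_le_mul S.a1 S.y3 (Finset.sum_nonneg fun k _ => pow_nonneg (hy k) 3)
        (Real.sqrt_nonneg _)
      linarith)
  refine le_trans (Finset.sum_le_sum fun a _ => ?_) (h.trans (le_of_eq (by ring)))
  rw [mul_assoc]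
  refine mul_le_mul_of_nonneg_left (mul_le_mul_of_nonneg_left ?_ (sq_nonneg _)) (abs_nonneg _)
  have h0 : 0 ≤ al (E.i a) * y (E.j a) + al (E.j a) * y (E.i a) :=
    add_nonneg (mul_nonneg (ha _) (hy _)) (mul_nonneg (ha _) (hy _))
  nlinarith [mul_nonneg h0 (sq_nonneg (y (E.i a) - y (E.j a)))]

lemma A4 : ∑ a, |E.c a| * E.c a ^ 2 *
    ((al (E.i a) * y (E.j a) + al (E.j a) * y (E.i a)) * (y (E.i a) * y (E.j a)) ^ 2) ≤
    486 * V ^ 2 * ψ ^ 3 := by
  have h := sum3 R E hn (fun k l => al k * y k ^ 2 * y l ^ 3)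
    (fun k l => by have := ha k; have := hy k; have := hy l; positivity)
    (M := 243 * V ^ 2 * ψ ^ 3) (by
      rw [← Finset.sum_mul_sum]
      have e1 := mul_le_mul S.ay2 S.y3 (Finset.sum_nonneg fun k _ => pow_nonneg (hy k) 3)
        (by positivity)
      linarith)
  refine le_trans (le_of_eq (Finset.sum_congr rfl fun a _ => ?_)) (h.trans (le_of_eq (by ring)))
  ring

end abs

lemma wt_le {t V : ℝ} (hV : 1 ≤ V) (h : |t| ≤ V) : wt t ≤ 2 * V ^ 3 := by
  unfold wt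
  have h1 : |t| ^ 3 ≤ V ^ 3 := pow_le_pow_left₀ (abs_nonneg _) h 3
  have h2 : V ≤ V ^ 3 := by simpa using pow_le_pow_right₀ hV (show 1 ≤ 3 by norm_num)
  linarith

lemma wsum {ι : Type} [Fintype ι] {x : ι → ℝ} {V : ℝ} (hV : 1 ≤ V) (h : ∀ a, |x a| ≤ V)
    {b : ι → ℝ} (hb : ∀ a, 0 ≤ b a) {M : ℝ} (hM : ∑ a, b a ≤ M) :
    ∑ a, wt (x a) * b a ≤ 2 * V ^ 3 * M := by
  calc _ ≤ ∑ a, 2 * V ^ 3 * b a :=
        Finset.sum_le_sum fun a _ => mul_le_mul_of_nonneg_right (wt_le hV (h a)) (hb a)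
    _ ≤ _ := by
        rw [← Finset.mul_sum]; exact mul_le_mul_of_nonneg_left hM (by positivity)

end Q47

open Q47 Matrix Function in
theorem qDet (R : ResApi) : QDetStmt := by
  refine ⟨4000, 7, by norm_num, fun n E z u v hn hz hzn hu hv =>
    ⟨dat E z u v, rfl, dat_ok R E hn hz hzn hu hv, ?_⟩⟩
  intro x W Γ ψ hW hΓ hzΓ hx hWΓ hBd ψ0 ψ1 hψ hIm
  have hn' : (0 : ℝ) < n := by exact_mod_cast hn
  have hz0 : 0 < z.im := lt_of_lt_of_le (by positivity) hz
  have hη : 1 ≤ n * z.im := by rw [div_le_iff₀ hn'] at hz; linarith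
  set V := W * Γ with hVdef
  have hΓV : Γ ≤ V := by nlinarith
  have hWV : W ≤ V := by nlinarith
  have hV : 1 ≤ V := hΓ.trans hΓV
  have hH := R.herm E x
  set g := gb (E.H x) z with hg
  have B : Base g z u v Γ V ψ := by
    refine ⟨hn, R.symm hH z, hΓ, hΓV, hzΓ, hBd, ψ0, ψ1, fun p hp => ?_⟩
    rw [R.ward hH hz0 p, div_le_iff₀ hz0]
    have := hIm p hp
    unfold qq at this
    rw [one_div_mul_eq_div, div_le_iff₀ (by positivity)] at this
    linarith
  have hl : Lin g := R.lin (E.H x) z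
  have ho : Op g := fun w hw => by
    simp only [B.s w]
    rw [R.ward hH hz0 w]
    have h1 := ((le_abs_self _).trans (Complex.abs_im_le_norm _)).trans (R.bound hH hz0 w w hw hw)
    have h2 : 1 / z.im ≤ n := by rw [div_le_iff₀ hz0]; linarith
    calc _ ≤ (1 / z.im) / z.im := by gcongr
      _ = (1 / z.im) ^ 2 := by ring
      _ ≤ _ := by gcongr
  have hr : 0 < √(n : ℝ) := Real.sqrt_pos.2 hn'
  have hr2 : √(n : ℝ) ^ 2 = n := Real.sq_sqrt hn'.le
  have hc : ∀ a, |E.c a| * √(n : ℝ) ≤ 1 := fun a => by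
    refine (sq_le_one_iff₀ (by positivity)).1 ?_
    have := E.c_sq a
    rw [le_div_iff₀ hn'] at this
    rwa [mul_pow, sq_abs, hr2]
  have hcψ : ∀ a, |E.c a| ≤ ψ := fun a =>
    (pow_le_pow_iff_left₀ (abs_nonneg _) ψ0 two_ne_zero).1 (by
      rw [sq_abs]; exact (E.c_sq a).trans hψ)
  have P : ∀ a, ∀ t ∈ Set.uIcc 0 (x a),
      Pert g (gb (E.H (update x a t)) z) Γ V ψ ((t - x a) * E.c a) (E.i a) (E.j a) := by
    intro a t ht
    have h1 : |t - x a| ≤ W := by
      refine le_trans ?_ (hx a)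
      have := Set.abs_sub_right_of_mem_uIcc ht
      rwa [sub_zero, abs_sub_comm] at this
    have h2 : |(t - x a) * E.c a| * Γ ≤ V * |E.c a| := by
      rw [abs_mul]
      calc _ ≤ W * |E.c a| * Γ := by gcongr
        _ = _ := by rw [hVdef]; ring
    refine ⟨R.symm (R.herm E _) z, fun p q => ?_, h2.trans ?_, h2.trans (by gcongr; exact hcψ a)⟩
    · rw [R.upd E x a t]; exact R.pert hH hz0 _ _ _ p q
    · have h3 : V ≤ √(n : ℝ) / 8 := by rw [hVdef]; linarith
      calc _ ≤ √(n : ℝ) / 8 * |E.c a| := by gcongr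
        _ ≤ _ := by linarith [hc a]
  have S := B.sums hu
  have ha : ∀ k, 0 ≤ |u k| := fun k => abs_nonneg _
  have hy := B.y0
  have hxV : ∀ a, |x a| ≤ V := fun a => (hx a).trans hWV
  have pw : ∀ k l : ℕ, k ≤ l → V ^ k ≤ V ^ l := fun k l h => pow_le_pow_right₀ hV h
  refine ⟨fun a => |E.c a| * (4 * V ^ 2) *
      (|u (E.i a)| * yy g u v ψ (E.j a) + |u (E.j a)| * yy g u v ψ (E.i a)),
    fun a => E.c a ^ 2 * (16 * V ^ 3) *
      ((|u (E.i a)| + |u (E.j a)|) * (yy g u v ψ (E.i a) + yy g u v ψ (E.j a))),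
    fun a => |E.c a| * E.c a ^ 2 * (128 * V ^ 4) *
      ((|u (E.i a)| + |u (E.j a)|) * (yy g u v ψ (E.i a) + yy g u v ψ (E.j a))),
    fun a => |E.c a| * (128 * V ^ 5) * (yy g u v ψ (E.i a) * yy g u v ψ (E.j a)),
    fun a => E.c a ^ 2 * (1152 * V ^ 6) * (yy g u v ψ (E.i a) + yy g u v ψ (E.j a)) ^ 2,
    fun a t ht => ⟨(P a t ht).f0 B _, (P a t ht).f1 B _, (P a t ht).f2 B _, (P a t ht).x1 B _,
      (P a t ht).x2 B _, ?_⟩, ?_, ?_, ?_⟩
  · show ‖QQ (E.H (update x a t)) z u v - QQ (E.H x) z u v‖ ≤ _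
    rw [QQ_eq R, QQ_eq R, add_sub_add_left_eq_sub]
    refine ((P a t ht).x0 B).trans ?_
    have := mul_le_mul_of_nonneg_right (pw 3 7 (by norm_num)) ψ0
    have := mul_nonneg (pow_nonneg (zero_le_one.trans hV) 7) ψ0
    linarith
  · have h1 := S1 R E B hl hu
    have h2 := wsum hV hxV (b := fun a => |E.c a| * E.c a ^ 2 * (128 * V ^ 4) *
      ((|u (E.i a)| + |u (E.j a)|) * (yy g u v ψ (E.i a) + yy g u v ψ (E.j a))))
      (fun a => by have := hy (E.i a); have := hy (E.j a); positivity)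
      (M := 128 * V ^ 4 * (12 * ψ)) (by
        refine le_trans (le_of_eq ?_) (mul_le_mul_of_nonneg_left (A1 R E hn S ha hy ψ0)
          (show 0 ≤ 128 * V ^ 4 by positivity))
        rw [Finset.mul_sum]; exact Finset.sum_congr rfl fun a _ => by ring)
    refine (add_le_add h1 h2).trans ?_
    have e1 : ψ ≤ V ^ 7 * ψ := by simpa using mul_le_mul_of_nonneg_right (pw 0 7 (by norm_num)) ψ0
    have e2 : Γ * ψ ≤ V ^ 7 * ψ := mul_le_mul_of_nonneg_right
      (hΓV.trans (by simpa using pw 1 7 (by norm_num))) ψ0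
    nlinarith
  · have h1 := S2 R E B hl ho hu (RingHom.id ℂ) (fun _ => rfl) (fun _ => rfl)
    have h1' := S2 R E B hl ho hu (starRingEnd ℂ) (fun w => Complex.norm_conj w)
      (fun t => Complex.conj_ofReal t)
    have h2 := wsum hV hxV (b := fun a => E.c a ^ 2 * (16 * V ^ 3) *
      ((|u (E.i a)| + |u (E.j a)|) * (yy g u v ψ (E.i a) + yy g u v ψ (E.j a))) *
      (|E.c a| * (128 * V ^ 5) * (yy g u v ψ (E.i a) * yy g u v ψ (E.j a))) +
      |E.c a| * (4 * V ^ 2) *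
      (|u (E.i a)| * yy g u v ψ (E.j a) + |u (E.j a)| * yy g u v ψ (E.i a)) *
      (E.c a ^ 2 * (1152 * V ^ 6) * (yy g u v ψ (E.i a) + yy g u v ψ (E.j a)) ^ 2))
      (fun a => by have := hy (E.i a); have := hy (E.j a); positivity)
      (M := 2048 * V ^ 8 * (108 * V * ψ ^ 2) + 4608 * V ^ 8 * (216 * V * ψ ^ 2)) (by
        refine le_trans (le_of_eq ?_) (add_le_add
          (mul_le_mul_of_nonneg_left (A2 R E hn S ha hy hV ψ0 ψ1) (show 0 ≤ 2048 * V ^ 8 by positivity))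
          (mul_le_mul_of_nonneg_left (A3 R E hn S ha hy hV ψ0) (show 0 ≤ 4608 * V ^ 8 by positivity)))
        rw [Finset.mul_sum, Finset.mul_sum, ← Finset.sum_add_distrib]
        exact Finset.sum_congr rfl fun a _ => by ring)
    refine (add_le_add (add_le_add h1 h1') h2).trans ?_
    have e1 := mul_le_mul_of_nonneg_right (pw 2 14 (by norm_num)) (sq_nonneg ψ)
    have e2 := mul_le_mul_of_nonneg_right (pw 12 14 (by norm_num)) (sq_nonneg ψ)
    have e3 : 0 ≤ V ^ 14 * ψ ^ 2 := by positivity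
    calc _ = 26 * (V ^ 2 * ψ ^ 2) + 2433024 * (V ^ 12 * ψ ^ 2) := by ring
      _ ≤ 16000000 * (V ^ 14 * ψ ^ 2) := by linarith
      _ = _ := by ring
  · have h2 := wsum hV hxV (b := fun a => |E.c a| * (4 * V ^ 2) *
      (|u (E.i a)| * yy g u v ψ (E.j a) + |u (E.j a)| * yy g u v ψ (E.i a)) *
      (|E.c a| * (128 * V ^ 5) * (yy g u v ψ (E.i a) * yy g u v ψ (E.j a))) ^ 2)
      (fun a => by have := hy (E.i a); have := hy (E.j a); positivity)
      (M := 65536 * V ^ 12 * (486 * V ^ 2 * ψ ^ 3)) (by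
        refine le_trans (le_of_eq ?_) (mul_le_mul_of_nonneg_left (A4 R E hn S ha hy hV ψ0)
          (show 0 ≤ 65536 * V ^ 12 by positivity))
        rw [Finset.mul_sum]
        exact Finset.sum_congr rfl fun a _ => by rw [← sq_abs (E.c a)]; ring)
    refine h2.trans ?_
    have e2 := mul_le_mul_of_nonneg_right (pw 17 21 (by norm_num)) (pow_nonneg ψ0 3)
    have e3 : 0 ≤ V ^ 21 * ψ ^ 3 := by positivity
    calc _ = 63700992 * (V ^ 17 * ψ ^ 3) := by ring
      _ ≤ 64000000000 * (V ^ 21 * ψ ^ 3) := by linarith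
      _ = _ := by ring

end Crest.Agent.T157.Ll
end
end

-- ▼ part T157/Sc_84
section

/-!
# Row 157, part E: the semicircle law on the real line (helper84)

* `scF t = (t - sin t cos t) / π` (mass of `[2 cos t, 2]`), `scN x` (mass of `[x, ∞)`),
  quantiles `scT`, classical locations `gam n k`;
* edge bounds `scN_edge_le`, `le_scN_edge`, inverse estimate `cube_le`;
* integrals `scI f`, integration by parts `scI_eq`, explicit values `scI_res`, `scI_res2`, `scI_log`.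
-/

set_option autoImplicit false

noncomputable section

namespace Crest.Agent.T157.Sc

open Real Set MeasureTheory intervalIntegral

lemma le_of_deriv {f f' : ℝ → ℝ} (h : ∀ x, HasDerivAt f (f' x) x) {a b : ℝ} (hab : a ≤ b)
    (h0 : ∀ x ∈ Icc a b, 0 ≤ f' x) : f a ≤ f b := by
  rcases hab.eq_or_lt with rfl | hlt
  · exact le_rfl
  obtain ⟨c, hc, e⟩ := exists_hasDerivAt_eq_slope f f' hlt
    (fun x _ => (h x).continuousAt.continuousWithinAt) fun x _ => h x
  have := h0 c (Ioo_subset_Icc_self hc)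
  rw [e, le_div_iff₀ (sub_pos.2 hlt)] at this
  linarith

/-- semicircle mass of `[2 cos t, 2]` -/
def scF (t : ℝ) : ℝ := (t - sin t * cos t) / π

lemma hasDerivAt_scF (t : ℝ) : HasDerivAt scF (2 * sin t ^ 2 / π) t := by
  have := ((hasDerivAt_id t).sub ((hasDerivAt_sin t).mul (hasDerivAt_cos t))).div_const π
  refine this.congr_deriv ?_
  congr 1
  nlinarith [sin_sq_add_cos_sq t]

lemma continuous_scF : Continuous scF := by unfold scF; fun_prop

lemma scF_mono : Monotone scF := fun _ _ hab =>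
  le_of_deriv hasDerivAt_scF hab fun _ _ => by have := pi_pos; positivity

@[simp] lemma scF_zero : scF 0 = 0 := by simp [scF]
@[simp] lemma scF_pi : scF π = 1 := by simp [scF, pi_ne_zero]


lemma scF_le_cube {t : ℝ} (ht : 0 ≤ t) : scF t ≤ 2 * t ^ 3 / (3 * π) := by
  have h := sin_ge_sub_cube (x := 2 * t) (by linarith)
  rw [sin_two_mul] at h
  rw [scF, div_le_div_iff₀ pi_pos (by have := pi_pos; positivity)]
  have := mul_le_mul_of_nonneg_right h pi_pos.le
  nlinarith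

lemma sub_sin_ge {x : ℝ} (h0 : 0 ≤ x) (h1 : x ≤ π) : 2 / (3 * π ^ 2) * x ^ 3 ≤ x - sin x := by
  have := le_of_deriv (f := fun x => x - sin x - 2 / (3 * π ^ 2) * x ^ 3)
    (f' := fun x => 1 - cos x - 2 / π ^ 2 * x ^ 2) (fun x => by
      have := ((hasDerivAt_id x).sub (hasDerivAt_sin x)).sub
        ((hasDerivAt_pow 3 x).const_mul (2 / (3 * π ^ 2)))
      refine this.congr_deriv ?_
      field_simp
      norm_num
      ring) h0 fun y hy => by
        have := cos_le_one_sub_mul_cos_sq (x := y) (by rw [abs_of_nonneg hy.1]; linarith [hy.2])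
        linarith
  simp only [sin_zero, sub_zero, ne_eq, OfNat.ofNat_ne_zero, not_false_eq_true, zero_pow,
    mul_zero] at this
  linarith

lemma cube_le_scF {t : ℝ} (h0 : 0 ≤ t) (h1 : t ≤ π) : t ^ 3 / π ^ 3 ≤ scF t := by
  have hp := pi_pos
  rw [scF, div_le_div_iff₀ (by positivity) hp]
  suffices t ^ 3 ≤ (t - sin t * cos t) * π ^ 2 by nlinarith
  rcases le_total t (π / 2) with h | h
  · have := sub_sin_ge (x := 2 * t) (by linarith) (by linarith)
    rw [sin_two_mul, div_mul_eq_mul_div, div_le_iff₀ (by positivity)] at this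
    nlinarith [pow_nonneg h0 3]
  · have a1 := sin_nonneg_of_nonneg_of_le_pi h0 h1
    have a2 := cos_nonpos_of_pi_div_two_le_of_le h (by linarith)
    have a3 : t ^ 2 ≤ π ^ 2 := pow_le_pow_left₀ h0 h1 2
    nlinarith [mul_nonneg a1 (neg_nonneg.2 a2), mul_le_mul_of_nonneg_left a3 h0,
      mul_nonneg (mul_nonneg a1 (neg_nonneg.2 a2)) (sq_nonneg π)]





/-- semicircle mass of `[x, ∞)` -/
def scN (x : ℝ) : ℝ := scF (arccos (x / 2))

lemma continuous_scN : Continuous scN :=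
  continuous_scF.comp (continuous_arccos.comp (continuous_id.div_const 2))


lemma scN_of_two_le {x : ℝ} (h : 2 ≤ x) : scN x = 0 := by
  rw [scN, arccos_of_one_le (by linarith), scF_zero]

lemma scN_of_le {x : ℝ} (h : x ≤ -2) : scN x = 1 := by
  rw [scN, arccos_of_le_neg_one (by linarith), scF_pi]

lemma scN_le_one (x : ℝ) : scN x ≤ 1 := scF_pi ▸ scF_mono (arccos_le_pi _)


lemma scN_cos {t : ℝ} (ht : t ∈ Icc 0 π) : scN (2 * cos t) = scF t := by
  rw [scN, mul_div_cancel_left₀ _ two_ne_zero, arccos_cos ht.1 ht.2]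

lemma two_cos_arccos {x : ℝ} (hx : |x| ≤ 2) : 2 * cos (arccos (x / 2)) = x := by
  rw [cos_arccos (by linarith [(abs_le.1 hx).1]) (by linarith [(abs_le.1 hx).2])]; ring

/-- `scN (2 - x) ≤ x^{3/2}` -/
lemma scN_edge_le {x : ℝ} (hx : 0 ≤ x) : scN (2 - x) ≤ x * √x := by
  have hp := pi_pos
  rcases le_total x 4 with h4 | h4
  · set t := arccos ((2 - x) / 2) with ht
    have h0 : 0 ≤ t := arccos_nonneg _
    have h1 : t ≤ π := arccos_le_pi _
    have e : 2 * cos t = 2 - x := two_cos_arccos (abs_le.2 ⟨by linarith, by linarith⟩)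
    have a1 := cos_le_one_sub_mul_cos_sq (x := t) (by rwa [abs_of_nonneg h0])
    have a2 : (2 * t / π) ^ 2 ≤ x := by
      rw [show (2 * t / π) ^ 2 = 2 * (2 / π ^ 2 * t ^ 2) by field_simp]; linarith
    have a3 : 2 * t / π ≤ √x := le_sqrt_of_sq_le a2
    have a4 := mul_le_mul a2 a3 (by positivity) hx
    refine (scF_le_cube h0).trans (le_trans ?_ a4)
    rw [show (2 * t / π) ^ 2 * (2 * t / π) = 8 * t ^ 3 / π ^ 3 by field_simp; ring,
      div_le_div_iff₀ (by positivity) (by positivity)]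
    have a2 : π ^ 2 ≤ 12 := by nlinarith [pi_lt_d2]
    nlinarith [mul_le_mul_of_nonneg_left a2 (mul_nonneg (pow_nonneg h0 3) hp.le)]
  · have : 1 ≤ √x := one_le_sqrt.2 (by linarith)
    nlinarith [scN_le_one (2 - x)]

/-- `x^{3/2} / 32 ≤ scN (2 - x)` on `[0, 4]` -/
lemma le_scN_edge {x : ℝ} (hx : 0 ≤ x) (h4 : x ≤ 4) : x * √x / 32 ≤ scN (2 - x) := by
  have hp := pi_pos
  set t := arccos ((2 - x) / 2) with ht
  have h0 : 0 ≤ t := arccos_nonneg _
  have h1 : t ≤ π := arccos_le_pi _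
  have e : 2 * cos t = 2 - x := two_cos_arccos (abs_le.2 ⟨by linarith, by linarith⟩)
  have a2 : x ≤ t ^ 2 := by linarith [one_sub_sq_div_two_le_cos (x := t)]
  have a3 : √x ≤ t := sqrt_le_iff.2 ⟨h0, a2⟩
  have a4 := mul_le_mul a2 a3 (sqrt_nonneg x) (sq_nonneg t)
  refine le_trans ?_ (cube_le_scF h0 h1)
  have a5 : π ^ 3 ≤ 32 := by
    have := pow_le_pow_left₀ hp.le pi_lt_d2.le 3
    linarith [show (3.15 : ℝ) ^ 3 ≤ 32 by norm_num]
  exact div_le_div₀ (by positivity) (by linarith) (by positivity) a5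







/-! ### integrals against the semicircle law -/

/-- `∫ f dsc` -/
def scI (f : ℝ → ℝ) : ℝ := ∫ t in (0 : ℝ)..π, f (2 * cos t) * (2 * sin t ^ 2 / π)

lemma two_cos_mem (t : ℝ) : 2 * cos t ∈ Icc (-2 : ℝ) 2 :=
  ⟨by linarith [neg_one_le_cos t], by linarith [cos_le_one t]⟩

lemma scI_congr {f g : ℝ → ℝ} (h : ∀ x ∈ Icc (-2 : ℝ) 2, f x = g x) : scI f = scI g := by
  simp only [scI, h _ (two_cos_mem _)]

lemma continuous_integrand {f : ℝ → ℝ} (hf : ContinuousOn f (Icc (-2) 2)) :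
    Continuous fun t => f (2 * cos t) * (2 * sin t ^ 2 / π) :=
  (hf.comp_continuous (by fun_prop) two_cos_mem).mul (by fun_prop)

lemma scI_const (c : ℝ) : scI (fun _ => c) = c := by
  rw [scI, intervalIntegral.integral_const_mul, integral_eq_sub_of_hasDerivAt
    (fun t _ => hasDerivAt_scF t) (Continuous.intervalIntegrable (by fun_prop) _ _)]
  simp

lemma scI_add {f g : ℝ → ℝ} (hf : ContinuousOn f (Icc (-2) 2)) (hg : ContinuousOn g (Icc (-2) 2)) :
    scI (fun x => f x + g x) = scI f + scI g := by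
  simp only [scI, add_mul]
  exact integral_add ((continuous_integrand hf).intervalIntegrable _ _)
    ((continuous_integrand hg).intervalIntegrable _ _)

lemma scI_const_mul (c : ℝ) (f : ℝ → ℝ) : scI (fun x => c * f x) = c * scI f := by
  simp only [scI, mul_assoc, intervalIntegral.integral_const_mul]


/-- integration by parts -/
theorem scI_eq {f f' : ℝ → ℝ} {a b : ℝ} (ha : a ≤ -2) (hb : 2 ≤ b)
    (hf : ∀ x ∈ Icc a b, HasDerivAt f (f' x) x) (hc : ContinuousOn f' (Icc a b)) :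
    scI f = f a + ∫ x in a..b, f' x * scN x := by
  have hsub : Icc (-2 : ℝ) 2 ⊆ Icc a b := Icc_subset_Icc ha hb
  have hfc : ContinuousOn f (Icc a b) := fun x hx => (hf x hx).continuousAt.continuousWithinAt
  have hg : ContinuousOn (fun x => f' x * scN x) (Icc a b) := hc.mul continuous_scN.continuousOn
  have hi : ∀ {u v : ℝ}, u ≤ v → a ≤ u → v ≤ b →
      IntervalIntegrable (fun x => f' x * scN x) volume u v := fun huv hu hv =>
    (hg.mono (by rw [uIcc_of_le huv]; exact Icc_subset_Icc hu hv)).intervalIntegrable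
  have c1 : Continuous fun t => f' (2 * cos t) :=
    hc.comp_continuous (by fun_prop) fun t => hsub (two_cos_mem t)
  have h1 : ∫ t in (0 : ℝ)..π, (f' (2 * cos t) * (2 * -sin t) * scF t +
      f (2 * cos t) * (2 * sin t ^ 2 / π)) = f (2 * cos π) * scF π - f (2 * cos 0) * scF 0 :=
    integral_eq_sub_of_hasDerivAt (f := fun t => f (2 * cos t) * scF t)
      (fun t _ => ((hf _ (hsub (two_cos_mem t))).comp t ((hasDerivAt_cos t).const_mul 2)).mul
        (hasDerivAt_scF t))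
      (Continuous.intervalIntegrable (((c1.mul (by fun_prop)).mul continuous_scF).add
        (continuous_integrand (hfc.mono hsub))) _ _)
  have c2 : Continuous fun t => f' (2 * cos t) * (2 * -sin t) * scF t :=
    (c1.mul (by fun_prop)).mul continuous_scF
  rw [integral_add (c2.intervalIntegrable _ _)
    ((continuous_integrand (hfc.mono hsub)).intervalIntegrable _ _)] at h1
  have h2 := integral_comp_mul_deriv' (a := 0) (b := π) (f := fun t => 2 * cos t)
    (f' := fun t => 2 * -sin t) (g := fun x => f' x * scN x)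
    (fun t _ => (hasDerivAt_cos t).const_mul 2) (by fun_prop)
    (hg.mono (by rintro _ ⟨t, -, rfl⟩; exact hsub (two_cos_mem t)))
  have h3 : ∫ t in (0 : ℝ)..π, f' (2 * cos t) * (2 * -sin t) * scF t =
      ∫ t in (0 : ℝ)..π, ((fun x => f' x * scN x) ∘ fun t => 2 * cos t) t * (2 * -sin t) := by
    refine integral_congr fun t ht => ?_
    rw [uIcc_of_le pi_pos.le] at ht
    simp only [Function.comp, scN_cos ht]
    ring
  rw [h3, h2] at h1
  simp only [cos_zero, cos_pi, mul_one, mul_neg, scF_pi, scF_zero, mul_zero, sub_zero] at h1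
  rw [integral_symm] at h1
  have h4 : ∫ x in a..(-2), f' x * scN x = f (-2) - f a := by
    rw [← integral_eq_sub_of_hasDerivAt (f := f) (f' := f') (fun x hx => hf x (by
        rw [uIcc_of_le ha] at hx; exact ⟨hx.1, by linarith [hx.2]⟩))
      (hc.mono (by rw [uIcc_of_le ha]; exact Icc_subset_Icc le_rfl (by linarith))).intervalIntegrable]
    refine integral_congr fun x hx => ?_
    rw [uIcc_of_le ha] at hx
    simp only [scN_of_le hx.2, mul_one]
  have h5 : ∫ x in (2 : ℝ)..b, f' x * scN x = 0 := by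
    rw [← intervalIntegral.integral_zero (a := 2) (b := b) (μ := volume)]
    refine integral_congr fun x hx => ?_
    rw [uIcc_of_le hb] at hx
    simp only [scN_of_two_le hx.1, mul_zero]
  rw [← integral_add_adjacent_intervals (hi ha le_rfl (by linarith))
    (hi (by linarith) ha le_rfl), ← integral_add_adjacent_intervals (b := 2)
    (hi (by norm_num) ha hb) (hi hb (by linarith) le_rfl), h4, h5, scI]
  linarith

/-! ### explicit integrals, `z = ρ + 1/ρ` -/

lemma den_pos {ρ x : ℝ} (h : |ρ| < 1) (hx : x ∈ Icc (-2 : ℝ) 2) : 0 < 1 - ρ * x + ρ ^ 2 := by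
  have h1 : |ρ * x| ≤ |ρ| * 2 := by
    rw [abs_mul]; exact mul_le_mul_of_nonneg_left (abs_le.2 hx) (abs_nonneg ρ)
  nlinarith [le_abs_self (ρ * x), sq_abs ρ, sq_pos_of_pos (sub_pos.2 h)]

lemma integral_poisson {ρ : ℝ} (h : |ρ| < 1) :
    ∫ t in (0 : ℝ)..π, (1 - ρ ^ 2) / (1 - ρ * (2 * cos t) + ρ ^ 2) = π := by
  have h1 : ∀ t, 0 < 1 - ρ * cos t := fun t => by
    have : |ρ * cos t| ≤ |ρ| * 1 := by
      rw [abs_mul]; exact mul_le_mul_of_nonneg_left (abs_cos_le_one t) (abs_nonneg ρ)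
    linarith [le_abs_self (ρ * cos t)]
  have c1 : Continuous fun t => (1 - ρ ^ 2) / (1 - ρ * (2 * cos t) + ρ ^ 2) :=
    continuous_const.div (by fun_prop) fun t => (den_pos h (two_cos_mem t)).ne'
  rw [integral_eq_sub_of_hasDerivAt (f := fun t => t + 2 * arctan (ρ * sin t / (1 - ρ * cos t)))
    (fun t _ => ?_) (c1.intervalIntegrable _ _)]
  · simp
  have := (hasDerivAt_id t).add ((((hasDerivAt_sin t).const_mul ρ).div
    (((hasDerivAt_cos t).const_mul ρ).const_sub 1) (h1 t).ne').arctan.const_mul 2)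
  refine this.congr_deriv ?_
  have h2 := (h1 t).ne'
  have h3 := (den_pos h (two_cos_mem t)).ne'
  have h4 : 1 + (ρ * sin t / (1 - ρ * cos t)) ^ 2 =
      (1 - ρ * (2 * cos t) + ρ ^ 2) / (1 - ρ * cos t) ^ 2 := by
    field_simp
    nlinarith [sin_sq_add_cos_sq t]
  simp only [Pi.div_apply]
  have h5 : ρ * cos t * (1 - ρ * cos t) - ρ * sin t * -(ρ * -sin t) =
      (1 - ρ ^ 2 - (1 - ρ * (2 * cos t) + ρ ^ 2)) / 2 := by
    have := sin_sq_add_cos_sq t
    linear_combination (-ρ ^ 2) * this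
  rw [h4, h5]
  generalize 1 - ρ * (2 * cos t) + ρ ^ 2 = D at h3 ⊢
  field_simp
  ring

/-- `∫ dsc(x) / (1 - ρ x + ρ²) = 1` -/
theorem scI_gen {ρ : ℝ} (h : |ρ| < 1) : scI (fun x => 1 / (1 - ρ * x + ρ ^ 2)) = 1 := by
  by_cases h0 : ρ = 0
  · simpa [h0] using scI_const 1
  have hp := pi_pos
  have h1 : 0 < 1 - ρ ^ 2 := by nlinarith [abs_nonneg ρ, sq_abs ρ]
  have e : ∀ t, 1 / (1 - ρ * (2 * cos t) + ρ ^ 2) * (2 * sin t ^ 2 / π) =
      (1 / (ρ * π) * cos t + (1 + ρ ^ 2) / (2 * ρ ^ 2 * π)) - (1 - ρ ^ 2) / (2 * ρ ^ 2 * π) *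
        ((1 - ρ ^ 2) / (1 - ρ * (2 * cos t) + ρ ^ 2)) := fun t => by
    have h3 := (den_pos h (two_cos_mem t)).ne'
    have := sin_sq_add_cos_sq t
    have key : sin t ^ 2 = ((2 * ρ * cos t + 1 + ρ ^ 2) * (1 - ρ * (2 * cos t) + ρ ^ 2) -
        (1 - ρ ^ 2) ^ 2) / (4 * ρ ^ 2) := by
      field_simp
      linear_combination (4 * ρ ^ 2) * this
    rw [key]
    generalize 1 - ρ * (2 * cos t) + ρ ^ 2 = D at h3 ⊢
    field_simp
    ring
  have c1 : Continuous fun t => (1 - ρ ^ 2) / (1 - ρ * (2 * cos t) + ρ ^ 2) :=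
    continuous_const.div (by fun_prop) fun t => (den_pos h (two_cos_mem t)).ne'
  simp only [scI, e]
  rw [integral_sub (Continuous.intervalIntegrable (by fun_prop) _ _)
    ((c1.const_mul _).intervalIntegrable _ _), intervalIntegral.integral_const_mul,
    integral_poisson h, integral_add (Continuous.intervalIntegrable (by fun_prop) _ _)
    (Continuous.intervalIntegrable (by fun_prop) _ _), intervalIntegral.integral_const_mul,
    integral_cos]
  simp only [sin_pi, sin_zero, intervalIntegral.integral_const, smul_eq_mul]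
  field_simp
  ring


/-- `∫ log (1 - ρ x + ρ²) dsc(x) = ρ² / 2` -/
theorem scI_logD {ρ : ℝ} (h0 : 0 ≤ ρ) (h : ρ < 1) :
    scI (fun x => log (1 - ρ * x + ρ ^ 2)) = ρ ^ 2 / 2 := by
  have hr : ∀ r : ℝ, |max 0 (min r ρ)| < 1 := fun r => by
    rw [abs_of_nonneg (le_max_left _ _)]
    exact max_lt one_pos ((min_le_right _ _).trans_lt h)
  set c : ℝ → ℝ := fun r => max 0 (min r ρ) with hc
  have hcc : Continuous c := by simp only [hc]; fun_prop
  have hce : ∀ r ∈ uIcc 0 ρ, c r = r := fun r hr => by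
    rw [uIcc_of_le h0] at hr
    simp only [hc, min_eq_left hr.2, max_eq_right hr.1]
  set G : ℝ → ℝ → ℝ := fun t r => (2 * c r - 2 * cos t) / (1 - c r * (2 * cos t) + c r ^ 2) *
    (2 * sin t ^ 2 / π) with hG
  have hGc : Continuous (Function.uncurry G) := by
    refine Continuous.mul (Continuous.div (by fun_prop) (by fun_prop) fun p => ?_) (by fun_prop)
    exact (den_pos (hr p.2) (two_cos_mem p.1)).ne'
  have e1 : ∀ t, log (1 - ρ * (2 * cos t) + ρ ^ 2) * (2 * sin t ^ 2 / π) =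
      ∫ r in (0 : ℝ)..ρ, G t r := fun t => by
    have c4 : Continuous fun r => G t r := hGc.comp (Continuous.prodMk_right t)
    rw [integral_eq_sub_of_hasDerivAt
      (f := fun r => log (1 - r * (2 * cos t) + r ^ 2) * (2 * sin t ^ 2 / π)) (fun r hr' => ?_)
      (c4.intervalIntegrable _ _)]
    · simp
    have h3 := (den_pos (hr r) (two_cos_mem t)).ne'
    have h4 := hce r hr'
    simp only [hc] at h4
    rw [h4] at h3
    have := (((((hasDerivAt_id r).mul_const (2 * cos t)).const_sub 1).add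
      (hasDerivAt_pow 2 r)).log h3).mul_const (2 * sin t ^ 2 / π)
    refine this.congr_deriv ?_
    simp only [hG, hce r hr', id, Pi.add_apply]
    congr 2
    norm_num
    ring
  have e2 : ∀ r ∈ uIcc 0 ρ, ∫ t in (0 : ℝ)..π, G t r = r := fun r hr' => by
    have h5 := hr r
    have h4 := hce r hr'
    simp only [hc] at h4
    rw [h4] at h5
    simp only [hG, hce r hr']
    change scI (fun x => (2 * r - x) / (1 - r * x + r ^ 2)) = r
    by_cases hr0 : r = 0
    · subst hr0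
      have : ∀ t, HasDerivAt (fun t => -(4 / (3 * π)) * sin t ^ 3)
          ((2 * 0 - 2 * cos t) / (1 - 0 * (2 * cos t) + 0 ^ 2) * (2 * sin t ^ 2 / π)) t := fun t => by
        refine (((hasDerivAt_sin t).pow 3).const_mul _).congr_deriv ?_
        have := pi_pos
        field_simp
        norm_num
        ring
      rw [scI, integral_eq_sub_of_hasDerivAt (fun t _ => this t)
        (Continuous.intervalIntegrable (by fun_prop (disch := simp)) _ _)]
      simp
    have c4 : ContinuousOn (fun x => -((1 - r ^ 2) / r) * (1 / (1 - r * x + r ^ 2))) (Icc (-2) 2) :=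
      continuousOn_const.mul (continuousOn_const.div (by fun_prop) fun x hx => (den_pos h5 hx).ne')
    rw [scI_congr (g := fun x => 1 / r + -((1 - r ^ 2) / r) * (1 / (1 - r * x + r ^ 2)))
      (fun x hx => by
        have := (den_pos h5 hx).ne'
        have key : x = (1 + r ^ 2 - (1 - r * x + r ^ 2)) / r := by field_simp; ring
        generalize 1 - r * x + r ^ 2 = D at this key ⊢
        rw [key]
        field_simp
        ring),
      scI_add continuousOn_const c4, scI_const, scI_const_mul, scI_gen h5]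
    field_simp
    ring
  simp only [scI, e1]
  rw [intervalIntegral.integral_of_le pi_pos.le]
  simp only [intervalIntegral.integral_of_le h0]
  rw [integral_integral_swap, ← intervalIntegral.integral_of_le h0]
  · simp only [← intervalIntegral.integral_of_le pi_pos.le]
    rw [integral_congr e2, integral_id]
    ring
  · rw [Measure.prod_restrict, ← Measure.volume_eq_prod]
    exact (hGc.continuousOn.integrableOn_compact (isCompact_Icc.prod isCompact_Icc)).mono_set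
      (Set.prod_mono Ioc_subset_Icc_self Ioc_subset_Icc_self)

lemma sub_eq_den {ρ : ℝ} (h0 : 0 < ρ) (x : ℝ) : ρ + 1 / ρ - x = (1 - ρ * x + ρ ^ 2) / ρ := by
  field_simp; ring

/-- Stieltjes transform on the real axis -/
theorem scI_res {ρ : ℝ} (h0 : 0 < ρ) (h : ρ < 1) : scI (fun x => 1 / (ρ + 1 / ρ - x)) = ρ := by
  have h' : |ρ| < 1 := by rwa [abs_of_pos h0]
  rw [scI_congr (g := fun x => ρ * (1 / (1 - ρ * x + ρ ^ 2))) (fun x _ => by
    rw [sub_eq_den h0]; field_simp), scI_const_mul, scI_gen h', mul_one]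


theorem scI_log {ρ : ℝ} (h0 : 0 < ρ) (h : ρ < 1) :
    scI (fun x => log (ρ + 1 / ρ - x)) = ρ ^ 2 / 2 - log ρ := by
  have h' : |ρ| < 1 := by rwa [abs_of_pos h0]
  rw [scI_congr (g := fun x => log (1 - ρ * x + ρ ^ 2) + -log ρ) (fun x hx => by
      rw [sub_eq_den h0, log_div (den_pos h' hx).ne' h0.ne']; ring),
    scI_add (ContinuousOn.log (by fun_prop) fun x hx => (den_pos h' hx).ne') continuousOn_const,
    scI_logD h0.le h, scI_const]
  ring

/-- the root `ρ ∈ (0, 1)` of `ρ + 1/ρ = z` -/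
def rt (z : ℝ) : ℝ := (z - √(z ^ 2 - 4)) / 2

lemma rt_spec {z : ℝ} (hz : 2 < z) : 0 < rt z ∧ rt z < 1 ∧ rt z + 1 / rt z = z := by
  have h4 : 0 ≤ z ^ 2 - 4 := by nlinarith
  have hs := sq_sqrt h4
  have h1 : √(z ^ 2 - 4) < z := (sqrt_lt' (by linarith)).2 (by linarith)
  have h2 : z - 2 < √(z ^ 2 - 4) := lt_sqrt_of_sq_lt (by nlinarith)
  have h0 : 0 < rt z := by rw [rt]; linarith
  refine ⟨h0, by rw [rt]; linarith, ?_⟩
  field_simp
  rw [rt]
  nlinarith

end Crest.Agent.T157.Sc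

end
end

-- ▼ part T157/LlRig_84
section

/-!
# Row 157, part E: rigidity and linear eigenvalue statistics from the counting estimate (helper84)

* `CntA A M`: the counting function is within `M` of the semicircle law on the whole line;
* deterministic consequences: locations, edge counting, `CntA.rig`, linear statistics
  `CntA.sum_le`, `CntA.res`, `CntA.res2`, `CntA.log`;
* `Good ε n A`, `good : VhpM (Good ε)`, `RigStmt`, `rig`.
-/

set_option autoImplicit false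

noncomputable section

namespace Crest.Agent.T157.Ll.Rig

open Real Set MeasureTheory Filter Topology
open Crest.Agent.T157.Eig Crest.Agent.T157.Sc

variable {n : ℕ} {A : Matrix (Fin n) (Fin n) ℝ} {M : ℝ}

/-- the counting function is within `M` of the semicircle law -/
def CntA (A : Matrix (Fin n) (Fin n) ℝ) (M : ℝ) : Prop := ∀ x, |(cnt A x : ℝ) - n * scN x| ≤ M

lemma cntA_of (h : ∀ t ∈ Icc (0 : ℝ) π,
    |(cnt A (2 * cos t) : ℝ) - n * (t - sin t * cos t) / π| ≤ M) : CntA A M := by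
  have h0 : ∀ x, |x| ≤ 2 → |(cnt A x : ℝ) - n * scN x| ≤ M := fun x hx => by
    have := h _ ⟨arccos_nonneg (x / 2), arccos_le_pi _⟩
    rwa [two_cos_arccos hx, mul_div_assoc] at this
  intro x
  rcases le_total x (-2) with h1 | h1
  · have a1 := h0 (-2) (by simp)
    have a2 : (cnt A (-2) : ℝ) ≤ cnt A x := Nat.cast_le.2 (cnt_anti A h1)
    have a3 : (cnt A x : ℝ) ≤ n := by exact_mod_cast (cnt_le_card A x).trans (Fintype.card_fin n).le
    rw [scN_of_le le_rfl, abs_le] at a1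
    rw [scN_of_le h1, abs_le]
    constructor <;> linarith [a1.1, a1.2, (abs_nonneg _).trans (h0 0 (by simp))]
  rcases le_total 2 x with h2 | h2
  · have a1 := h0 2 (by simp)
    have a2 : (cnt A x : ℝ) ≤ cnt A 2 := Nat.cast_le.2 (cnt_anti A h2)
    rw [scN_of_two_le le_rfl, abs_le] at a1
    rw [scN_of_two_le h2, abs_le]
    constructor <;> linarith [a1.1, a1.2, (abs_nonneg _).trans (h0 0 (by simp)),
      Nat.cast_nonneg (α := ℝ) (cnt A x)]
  · exact h0 x (abs_le.2 ⟨h1, h2⟩)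

namespace CntA

lemma nonneg (h : CntA A M) : 0 ≤ M := (abs_nonneg _).trans (h 0)

lemma mono (h : CntA A M) {M' : ℝ} (hM : M ≤ M') : CntA A M' := fun x => (h x).trans hM



lemma edge_cnt_le (h : CntA A M) {x : ℝ} (hx : 0 ≤ x) : cnt A (2 - x) ≤ n * (x * √x) + M := by
  have := mul_le_mul_of_nonneg_left (scN_edge_le hx) (Nat.cast_nonneg (α := ℝ) n)
  linarith [(abs_le.1 (h (2 - x))).2]

lemma le_edge_cnt (h : CntA A M) {x : ℝ} (hx : 0 ≤ x) (h4 : x ≤ 4) :
    n * (x * √x / 32) - M ≤ cnt A (2 - x) := by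
  have := mul_le_mul_of_nonneg_left (le_scN_edge hx h4) (Nat.cast_nonneg (α := ℝ) n)
  linarith [(abs_le.1 (h (2 - x))).1]




/-- **linear statistics** -/
theorem sum_le (h : CntA A M) {f f' : ℝ → ℝ} {a b : ℝ} (ha : a ≤ -2) (hb : 2 ≤ b)
    (hs : ∀ k < n, lam A k ∈ Icc a b) (hf : ∀ x ∈ Icc a b, HasDerivAt f (f' x) x)
    (hc : ContinuousOn f' (Icc a b)) :
    |∑ k ∈ Finset.range n, f (lam A k) - n * scI f| ≤ M * ∫ x in a..b, |f' x| := by
  have hab : a ≤ b := by linarith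
  have hi : IntervalIntegrable f' volume a b := (hc.mono (uIcc_of_le hab).le).intervalIntegrable
  have hi1 : ∀ k ∈ Finset.range n,
      IntervalIntegrable (indicator {x | x ≤ lam A k} f') volume a b := fun k _ =>
    ⟨hi.1.indicator measurableSet_Iic, hi.2.indicator measurableSet_Iic⟩
  have e1 : ∀ k ∈ Finset.range n,
      f (lam A k) = f a + ∫ x in a..b, indicator {x | x ≤ lam A k} f' x := fun k hk => by
    have hk' := hs k (Finset.mem_range.1 hk)
    rw [intervalIntegral.integral_indicator hk', intervalIntegral.integral_eq_sub_of_hasDerivAt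
      (fun x hx => hf x (by rw [uIcc_of_le hk'.1] at hx; exact ⟨hx.1, hx.2.trans hk'.2⟩))
      (hc.mono (by rw [uIcc_of_le hk'.1]; exact Icc_subset_Icc le_rfl hk'.2)).intervalIntegrable]
    ring
  have e2 : ∀ x, ∑ k ∈ Finset.range n, indicator {x | x ≤ lam A k} f' x = f' x * cnt A x := by
    intro x
    rw [cnt_eq_sum, Fintype.card_fin, Finset.mul_sum]
    refine Finset.sum_congr rfl fun k _ => ?_
    simp [indicator]
  have hi2 : IntervalIntegrable (fun x => f' x * cnt A x) volume a b := by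
    have := IntervalIntegrable.sum _ hi1
    refine this.congr fun x _ => ?_
    rw [Finset.sum_apply, e2]
  have hi3 : IntervalIntegrable (fun x => n * (f' x * scN x)) volume a b :=
    (hi.mul_continuousOn continuous_scN.continuousOn).const_mul _
  rw [Finset.sum_congr rfl e1, Finset.sum_add_distrib, ← intervalIntegral.integral_finsetSum hi1,
    scI_eq ha hb hf hc]
  simp only [e2, Finset.sum_const, Finset.card_range, nsmul_eq_mul]
  rw [mul_add, add_sub_add_left_eq_sub, ← intervalIntegral.integral_const_mul,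
    ← intervalIntegral.integral_sub hi2 hi3, ← intervalIntegral.integral_const_mul,
    ← Real.norm_eq_abs]
  refine intervalIntegral.norm_integral_le_of_norm_le hab (ae_of_all _ fun x _ => ?_)
    (hi.abs.const_mul _)
  rw [Real.norm_eq_abs, show f' x * cnt A x - n * (f' x * scN x) =
    (cnt A x - n * scN x) * f' x by ring, abs_mul]
  exact mul_le_mul_of_nonneg_right (h x) (abs_nonneg _)

theorem sum_mono (h : CntA A M) {f f' : ℝ → ℝ} {a b : ℝ} (ha : a ≤ -2) (hb : 2 ≤ b)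
    (hs : ∀ k < n, lam A k ∈ Icc a b) (hf : ∀ x ∈ Icc a b, HasDerivAt f (f' x) x)
    (hc : ContinuousOn f' (Icc a b)) (h0 : ∀ x ∈ Icc a b, 0 ≤ f' x) :
    |∑ k ∈ Finset.range n, f (lam A k) - n * scI f| ≤ M * (f b - f a) := by
  have hab : a ≤ b := by linarith
  refine (h.sum_le ha hb hs hf hc).trans (le_of_eq ?_)
  rw [← intervalIntegral.integral_eq_sub_of_hasDerivAt (fun x hx => hf x (uIcc_of_le hab ▸ hx))
    (hc.mono (uIcc_of_le hab).le).intervalIntegrable]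
  congr 1
  exact intervalIntegral.integral_congr fun x hx => abs_of_nonneg (h0 x (uIcc_of_le hab ▸ hx))

lemma spec_mem (hA : A.IsHermitian) {b : ℝ} (hE : opn A ≤ b) (k : ℕ) : lam A k ∈ Icc (-b) b :=
  abs_le.1 ((abs_lam_le hA k).trans hE)

/-- Stieltjes transform on the real axis outside the spectrum -/
theorem res (hA : A.IsHermitian) (h : CntA A M) {b z : ℝ} (hb : 2 ≤ b) (hE : opn A ≤ b)
    (hz : b < z) : |∑ k ∈ Finset.range n, 1 / (z - lam A k) - n * rt z| ≤ M / (z - b) := by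
  obtain ⟨r0, r1, r2⟩ := rt_spec (z := z) (by linarith)
  have hne : ∀ x ∈ Icc (-b) b, z - x ≠ 0 := fun x hx => by linarith [hx.2, sub_pos.2 hz]
  have := h.sum_mono (f := fun x => 1 / (z - x)) (f' := fun x => 1 / (z - x) ^ 2) (a := -b) (b := b)
    (by linarith) hb (fun k _ => spec_mem hA hE k) (fun x hx => by
      refine ((hasDerivAt_const x (1 : ℝ)).div ((hasDerivAt_id x).const_sub z) (hne x hx)).congr_deriv ?_
      simp)
    (continuousOn_const.div (by fun_prop) fun x hx => pow_ne_zero 2 (hne x hx))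
    fun x _ => by positivity
  have e := scI_res r0 r1
  rw [r2] at e
  rw [e] at this
  refine this.trans ?_
  have : 0 ≤ M * (1 / (z - -b)) := mul_nonneg h.nonneg (one_div_nonneg.2 (by linarith))
  rw [mul_sub, mul_one_div]
  linarith


/-- logarithm of the characteristic polynomial outside the spectrum -/
theorem log (hA : A.IsHermitian) (h : CntA A M) {b z : ℝ} (hb : 2 ≤ b) (hE : opn A ≤ b)
    (hz : b < z) : |∑ k ∈ Finset.range n, Real.log (z - lam A k) -
      n * (rt z ^ 2 / 2 - Real.log (rt z))| ≤ M * (Real.log (z + b) - Real.log (z - b)) := by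
  obtain ⟨r0, r1, r2⟩ := rt_spec (z := z) (by linarith)
  have hpos : ∀ x ∈ Icc (-b) b, 0 < z - x := fun x hx => by linarith [hx.2]
  have := h.sum_mono (f := fun x => -1 * Real.log (z - x)) (f' := fun x => 1 / (z - x)) (a := -b)
    (b := b) (by linarith) hb (fun k _ => spec_mem hA hE k) (fun x hx => by
      refine ((((hasDerivAt_id x).const_sub z).log (hpos x hx).ne').const_mul (-1)).congr_deriv ?_
      simp only [id]
      ring)
    (continuousOn_const.div (by fun_prop) fun x hx => (hpos x hx).ne')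
    fun x hx => by have := hpos x hx; positivity
  have e := scI_log r0 r1
  rw [r2] at e
  rw [scI_const_mul, e, ← Finset.mul_sum, ← abs_neg, sub_neg_eq_add] at this
  convert this using 2 <;> ring

end CntA

/-- the good event: symmetric, no outliers, counting function close to the semicircle law -/
def Good (ε : ℝ) (n : ℕ) (A : Matrix (Fin n) (Fin n) ℝ) : Prop :=
  A.IsHermitian ∧ opn A ≤ 2 + (n : ℝ) ^ (-(2 / 3 : ℝ) + ε) ∧ CntA A ((n : ℝ) ^ ε)

theorem good (R : ResApi) (V : VhpApi) (hE : EdgeStmt) (hC : CntStmt) {ε : ℝ} (hε : 0 < ε) :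
    VhpM (Θ := fun _ => Unit) fun n _ A => Good ε n A :=
  V.mono (V.and (hE ε hε) (hC ε hε)) (Eventually.of_forall fun _ E _ x hx =>
    ⟨R.herm E x, hx.1, cntA_of hx.2⟩)




end Crest.Agent.T157.Ll.Rig

end
namespace Crest.Agent.T157.Ll.Rig.Good
end Crest.Agent.T157.Ll.Rig.Good
end

-- ▼ part T157/LlAll_91

/-!
# Row 157, part E: THE LOCAL LAW, unconditional (helper91)

All statements of `LlDef_91`; use `VhpM.coupling / .disorder / .wmat / .goe`, `instApi.toJ / toW`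
to pass to `Jmat`, `Wmat`, `goe`.
-/

set_option autoImplicit false

namespace Crest.Agent.T157.Ll.All

theorem qDetStmt : QDetStmt := qDet resApi
theorem avgStmt : AvgStmt := (all_of_qDet qDetStmt).2.2.1
theorem isoStmt : IsoStmt := (all_of_qDet qDetStmt).2.2.2.1
theorem edgeStmt : EdgeStmt := (all_of_qDet qDetStmt).2.2.2.2.1
theorem cntStmt : CntStmt := (all_of_qDet qDetStmt).2.2.2.2.2.1
theorem delStmt : DelStmt := (all_of_qDet qDetStmt).2.2.2.2.2.2
theorem good {ε : ℝ} (hε : 0 < ε) : VhpM (Θ := fun _ => Unit) fun n _ A => Rig.Good ε n A :=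
  Rig.good resApi vhp edgeStmt cntStmt hε

end Crest.Agent.T157.Ll.All
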