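import Crest.Agent.T157.StDef_87
import Crest.Agent.T157.RecA_77

/-!
# Row 157, part C4 (A), first file: the Gaussian channel over a compactly supported law (helper87)

`IK K F = ∫ F dN(0, K)`, `Un K μ f y = ∫ f(x) ew K y x dμ`; Bayes formula, the product identity,
two-level identities, `mmdStmt`.
-/

set_option autoImplicit false
set_option linter.unusedSectionVars false

noncomputable section

namespace Crest.Agent.T157.St.A87

open MeasureTheory ProbabilityTheory Matrix Filter Topology Finset Real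
open Crest.Agent.T157.E Crest.Agent.T157.Cond Crest.Agent.T157.SL Crest.Agent.T157.Rec

variable {ι : Type*} [Fintype ι] [DecidableEq ι] {μ ν ρ : Measure (ι → ℝ)} {K K' : ℝ}
  {F G f g : (ι → ℝ) → ℝ}

/-- integral against `N(0, K I)` -/
def IK (K : ℝ) (F : (ι → ℝ) → ℝ) : ℝ := ∫ z, F (√K • z) ∂gv ι

/-- unnormalised posterior mean -/
def Un (K : ℝ) (μ : Measure (ι → ℝ)) (f : (ι → ℝ) → ℝ) (y : ι → ℝ) : ℝ := ∫ x, f x * ew K y x ∂μ

/-- measurable and bounded on the support -/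
structure Bs (μ : Measure (ι → ℝ)) (f : (ι → ℝ) → ℝ) : Prop where
  meas : Measurable f
  bd : ∃ C : ℝ, 0 ≤ C ∧ ∀ᵐ x ∂μ, |f x| ≤ C

lemma mg_smul (h : MG F) (c : ℝ) : MG fun z => F (c • z) := by simpa using h.affine 0 c

lemma mg_shift (h : MG F) (y : ι → ℝ) : MG fun z => F (y + z) := by simpa using h.affine y 1

lemma intK (h : MG F) (K : ℝ) : Integrable (fun z => F (√K • z)) (gv ι) := (mg_smul h _).int


lemma IK_const (c : ℝ) : IK K (fun _ : ι → ℝ => c) = c := by simp [IK]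
lemma IK_add (h : MG F) (h' : MG G) : IK K (fun y => F y + G y) = IK K F + IK K G :=
  integral_add (intK h K) (intK h' K)
lemma IK_sub (h : MG F) (h' : MG G) : IK K (fun y => F y - G y) = IK K F - IK K G :=
  integral_sub (intK h K) (intK h' K)
lemma IK_const_mul (c : ℝ) (F : (ι → ℝ) → ℝ) : IK K (fun y => c * F y) = c * IK K F :=
  integral_const_mul _ _
lemma IK_mul_const (c : ℝ) (F : (ι → ℝ) → ℝ) : IK K (fun y => F y * c) = IK K F * c :=
  integral_mul_const _ _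
lemma IK_sum {J : Type*} (s : Finset J) {F : J → (ι → ℝ) → ℝ} (h : ∀ j ∈ s, MG (F j)) :
    IK K (fun y => ∑ j ∈ s, F j y) = ∑ j ∈ s, IK K (F j) :=
  integral_finsetSum _ fun j hj => intK (h j hj) K
lemma IK_mono (h : MG F) (h' : MG G) (e : ∀ y, F y ≤ G y) : IK K F ≤ IK K G :=
  integral_mono (intK h K) (intK h' K) fun _ => e _
lemma IK_nonneg (e : ∀ y, 0 ≤ F y) : 0 ≤ IK K F := integral_nonneg fun _ => e _
lemma IK_congr (e : ∀ y, F y = G y) : IK K F = IK K G := by rw [funext e]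
lemma abs_IK_le (h' : MG G) (e : ∀ y, |F y| ≤ G y) : |IK K F| ≤ IK K G :=
  norm_integral_le_of_norm_le (f := fun z => F (√K • z)) (intK h' K) (.of_forall fun _ => e _)
lemma IK_zero (F : (ι → ℝ) → ℝ) : IK 0 F = F 0 := by simp [IK]
lemma IK_cs (h : MG F) (h' : MG G) :
    IK K (fun y => F y * G y) ^ 2 ≤ IK K (fun y => F y ^ 2) * IK K fun y => G y ^ 2 :=
  int_mul_sq_le (mg_smul h _) (mg_smul h' _)
lemma IK_sq_le (h : MG F) : IK K F ^ 2 ≤ IK K fun y => F y ^ 2 := int_sq_le (mg_smul h _)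
lemma IK_abs_le_sqrt (h : MG F) : IK K (fun y => |F y|) ≤ √(IK K fun y => F y ^ 2) := by
  refine Real.le_sqrt_of_sq_le ((IK_sq_le h.abs).trans_eq ?_)
  simp only [sq_abs]

lemma mg_IK (h : MG F) (K : ℝ) : MG fun y => IK K fun y' => F (y + y') := by
  simpa [IK] using h.conv 0 √K

/-- convolution of the two noise levels -/
lemma IK_IK (hK : 0 ≤ K) (hK' : 0 ≤ K') (h : MG F) :
    IK K (fun y => IK K' fun y' => F (y + y')) = IK (K + K') F := by
  have e := map_add_smul (ι := ι) hK hK'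
  have hm : Measurable fun p : (ι → ℝ) × (ι → ℝ) => √K • p.1 + √K' • p.2 := by fun_prop
  have hi : Integrable F (((Gs ι).prod (Gs ι)).map fun p => √K • p.1 + √K' • p.2) := by
    rw [e, integrable_map_measure h.meas.aestronglyMeasurable (by fun_prop)]
    exact intK h _
  have h1 := integral_map (μ := (Gs ι).prod (Gs ι)) hm.aemeasurable hi.aestronglyMeasurable
  rw [e, integral_map (by fun_prop) h.meas.aestronglyMeasurable] at h1
  exact (h1.trans (integral_prod _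
    ((integrable_map_measure h.meas.aestronglyMeasurable hm.aemeasurable).1 hi))).symm

lemma ew_pos (K : ℝ) (y x : ι → ℝ) : 0 < ew K y x := exp_pos _

@[fun_prop] lemma continuous_ew (K : ℝ) : Continuous fun p : (ι → ℝ) × (ι → ℝ) => ew K p.1 p.2 := by
  unfold ew dotProduct; fun_prop

lemma measurable_ew {α : Type*} [MeasurableSpace α] (K : ℝ) {u v : α → ι → ℝ} (hu : Measurable u)
    (hv : Measurable v) : Measurable fun a => ew K (u a) (v a) :=
  (continuous_ew K).measurable.comp (hu.prodMk hv)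

lemma ew_eq (hK : 0 ≤ K) (z x : ι → ℝ) : ew K (√K • z) x = eh (√K • x) z := by
  rw [ew, eh, smul_dotProduct, dotProduct_smul, smul_dotProduct, dotProduct_smul]
  simp only [smul_eq_mul]
  rw [← mul_assoc, mul_self_sqrt hK]
  congr 1; ring

lemma ew_add (y y' x : ι → ℝ) : ew (K + K') (y + y') x = ew K y x * ew K' y' x := by
  rw [ew, ew, ew, ← exp_add, add_dotProduct]; congr 1; ring

lemma ew_zero (x : ι → ℝ) : ew 0 0 x = 1 := by simp [ew]

lemma ew_le (hK : 0 ≤ K) {r : ℝ} {x : ι → ℝ} (hx : x ⬝ᵥ x ≤ r) (y : ι → ℝ) :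
    ew K y x ≤ exp (Fintype.card ι * √r * ‖y‖) := by
  rw [ew, exp_le_exp]
  have h0 := Cond.dot_self_nonneg x
  refine (sub_le_self _ (by positivity)).trans ?_
  have : ∀ i, y i * x i ≤ √r * ‖y‖ := fun i => by
    have h1 : |x i| ≤ √r := Real.abs_le_sqrt (by
      refine le_trans ?_ hx
      rw [sq]
      exact Finset.single_le_sum (f := fun j => x j * x j) (fun j _ => mul_self_nonneg _)
        (mem_univ i))
    calc y i * x i ≤ |y i| * |x i| := by rw [← abs_mul]; exact le_abs_self _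
      _ ≤ ‖y‖ * √r := mul_le_mul (norm_le_pi_norm y i) h1 (abs_nonneg _) (norm_nonneg _)
      _ = _ := mul_comm _ _
  calc y ⬝ᵥ x ≤ ∑ _i : ι, √r * ‖y‖ := Finset.sum_le_sum fun i _ => this i
    _ = _ := by simp [mul_assoc]

lemma mg_ew (hK : 0 ≤ K) (x : ι → ℝ) : MG fun y => ew K y x :=
  ⟨measurable_ew K measurable_id measurable_const, 1, Fintype.card ι * √(x ⬝ᵥ x), zero_le_one,
    by positivity, fun y => by rw [abs_of_pos (ew_pos _ _ _), one_mul]; exact ew_le hK le_rfl y⟩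

/-- Cameron–Martin -/
lemma cmK (hK : 0 ≤ K) (x : ι → ℝ) (F : (ι → ℝ) → ℝ) :
    IK K (fun y => F y * ew K y x) = ∫ z, F (K • x + √K • z) ∂gv ι := by
  have := int_shift (√K • x) fun z => F (√K • z)
  simp only [smul_add, smul_smul, mul_self_sqrt hK] at this
  rw [this, IK]
  simp only [ew_eq hK]

lemma IK_ew (hK : 0 ≤ K) (x : ι → ℝ) : IK K (fun y => ew K y x) = 1 := by
  simpa using cmK hK x fun _ => 1

lemma IK_ew_ew (hK : 0 ≤ K) (x x' : ι → ℝ) :
    IK K (fun y => ew K y x * ew K y x') = exp (K * (x ⬝ᵥ x')) := by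
  simp only [IK, ew_eq hK, int_eh_mul, smul_dotProduct, dotProduct_smul, smul_eq_mul]
  rw [← mul_assoc, mul_self_sqrt hK]

lemma IK_coord_ew (hK : 0 ≤ K) (x : ι → ℝ) (i : ι) :
    IK K (fun y => y i * ew K y x) = K * x i := by
  simp only [IK, ew_eq hK, Pi.smul_apply, smul_eq_mul, mul_assoc, integral_const_mul,
    int_coord_eh]
  rw [← mul_assoc, mul_self_sqrt hK]

/-- Bessel inequality for the coordinates -/
lemma IK_bessel (hK : 0 ≤ K) (h : MG F) :
    ∑ i, IK K (fun y => y i * F y) ^ 2 ≤ K * IK K fun y => F y ^ 2 := by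
  have e : ∀ k l : ι, ∫ z, √K * z k * (√K * z l) ∂Gs ι = K * if k = l then 1 else 0 := fun k l => by
    rw [← int_coord_mul, ← integral_const_mul]
    congr 1; ext z
    rw [mul_mul_mul_comm, mul_self_sqrt hK]
  have := bessel_orth (ψ := fun (i : ι) (z : ι → ℝ) => √K * z i) (Γ := K)
    (fun i => (mg_coord i).const_mul _) hK
    (fun k => by rw [e]; simp) (fun k l hkl => by rw [e]; simp [hkl])
    (mg_smul h √K)
  simpa only [IK, Pi.smul_apply, smul_eq_mul, mul_comm (F _)] using this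

/-! ### bounded observables -/

namespace Bs

lemma of_bdd (hm : Measurable f) {C : ℝ} (h : ∀ x, |f x| ≤ C) : Bs μ f :=
  ⟨hm, |C|, abs_nonneg _, .of_forall fun x => (h x).trans (le_abs_self _)⟩

lemma const (c : ℝ) : Bs μ fun _ => c := of_bdd measurable_const fun _ => le_rfl

lemma mul (h : Bs μ f) (h' : Bs μ g) : Bs μ fun x => f x * g x := by
  obtain ⟨C, h0, h1⟩ := h.bd
  obtain ⟨C', h0', h1'⟩ := h'.bd
  refine ⟨h.meas.mul h'.meas, C * C', by positivity, ?_⟩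
  filter_upwards [h1, h1'] with x a b
  rw [abs_mul]; exact mul_le_mul a b (abs_nonneg _) h0

lemma add (h : Bs μ f) (h' : Bs μ g) : Bs μ fun x => f x + g x := by
  obtain ⟨C, h0, h1⟩ := h.bd
  obtain ⟨C', h0', h1'⟩ := h'.bd
  refine ⟨h.meas.add h'.meas, C + C', by positivity, ?_⟩
  filter_upwards [h1, h1'] with x a b
  exact (abs_add_le _ _).trans (add_le_add a b)

lemma const_mul (c : ℝ) (h : Bs μ f) : Bs μ fun x => c * f x := (const c).mul h

lemma sub (h : Bs μ f) (h' : Bs μ g) : Bs μ fun x => f x - g x := by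
  simpa [sub_eq_add_neg] using h.add (h'.const_mul (-1))

lemma sum {J : Type*} (s : Finset J) {f : J → (ι → ℝ) → ℝ} (h : ∀ j ∈ s, Bs μ (f j)) :
    Bs μ fun x => ∑ j ∈ s, f j x := by
  classical
  induction s using Finset.induction_on with
  | empty => simpa using const 0
  | insert k s hk ih =>
    simpa [Finset.sum_insert hk] using (h k (by simp)).add (ih fun j hj => h j (by simp [hj]))

lemma int (hμ : Cp μ) (h : Bs μ f) : Integrable f μ := by
  have := hμ.prob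
  obtain ⟨C, -, h1⟩ := h.bd
  exact Integrable.of_bound h.meas.aestronglyMeasurable C h1

/-- exponential growth is boundedness on a compact support -/
lemma of_mg (hμ : Cp μ) (h : MG f) : Bs μ f := by
  obtain ⟨r, hr⟩ := hμ.bdd
  obtain ⟨C, c, h0, h1, h2⟩ := h.bd
  refine ⟨h.meas, C * exp (c * √r), by positivity, ?_⟩
  filter_upwards [hr] with x hx
  refine (h2 x).trans ?_
  gcongr
  refine (pi_norm_le_iff_of_nonneg (sqrt_nonneg _)).2 fun i => Real.abs_le_sqrt (le_trans ?_ hx)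
  rw [sq]
  exact Finset.single_le_sum (f := fun j => x j * x j) (fun j _ => mul_self_nonneg _) (mem_univ i)

lemma coord (hμ : Cp μ) (i : ι) : Bs μ fun x => x i := of_mg hμ (mg_coord i)

lemma ew (hμ : Cp μ) (hK : 0 ≤ K) (y : ι → ℝ) : Bs μ (ew K y) := by
  obtain ⟨r, hr⟩ := hμ.bdd
  refine ⟨measurable_ew K measurable_const measurable_id, exp (Fintype.card ι * √r * ‖y‖),
    (exp_pos _).le, ?_⟩
  filter_upwards [hr] with x hx
  rw [abs_of_pos (ew_pos _ _ _)]; exact ew_le hK hx y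

end Bs

lemma mg_exp_dot (θ : ℝ) (x : ι → ℝ) : MG fun x' => exp (θ * (x ⬝ᵥ x')) := by
  have := mg_ew (K := 0) le_rfl (θ • x)
  simpa [St.ew, dotProduct_comm x] using this

/-- joint integrability over the law and the noise -/
lemma int_prod (hμ : Cp μ) (hK : 0 ≤ K) (hf : Bs μ f) (hF : MG F) (u : ι → ℝ) (c : ℝ) :
    Integrable (fun p : (ι → ℝ) × (ι → ℝ) => f p.1 * ew K (u + c • p.2) p.1 * F p.2)
      (μ.prod (gv ι)) := by
  have := hμ.prob
  obtain ⟨r, hr⟩ := hμ.bdd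
  obtain ⟨C, h0, h1⟩ := hf.bd
  have hb : MG fun z : ι → ℝ => exp (Fintype.card ι * √r * ‖z‖) :=
    ⟨by fun_prop, 1, Fintype.card ι * √r, zero_le_one, by positivity, fun z => by
      rw [abs_of_pos (exp_pos _), one_mul]⟩
  have hi := (((hb.affine u c).mul hF.abs).const_mul C).int
  refine (hi.comp_snd μ).mono' (((hf.meas.comp measurable_fst).mul (measurable_ew K (by fun_prop)
    measurable_fst)).mul (hF.meas.comp measurable_snd)).aestronglyMeasurable ?_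
  filter_upwards [Measure.quasiMeasurePreserving_fst.ae hr,
    Measure.quasiMeasurePreserving_fst.ae h1] with p a b
  rw [Real.norm_eq_abs, abs_mul, abs_mul, abs_of_pos (ew_pos _ _ _), mul_assoc]
  exact mul_le_mul b (mul_le_mul_of_nonneg_right (ew_le hK a _) (abs_nonneg _))
    (mul_nonneg (ew_pos _ _ _).le (abs_nonneg _)) h0

lemma measurable_Un (hμ : Cp μ) (hf : Measurable f) : Measurable (Un K μ f) := by
  have := hμ.prob
  exact (StronglyMeasurable.integral_prod_right (f := fun y x => f x * ew K y x)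
    ((hf.comp measurable_snd).mul (measurable_ew K measurable_fst measurable_snd)).stronglyMeasurable
    ).measurable

lemma Mf_eq (K : ℝ) (μ : Measure (ι → ℝ)) : Mf K μ = Un K μ fun _ => 1 := by
  funext y; simp [Mf, Un]

lemma pm_eq (y : ι → ℝ) : pm K μ f y = Un K μ f y / Mf K μ y := rfl

lemma Mf_pos (hμ : Cp μ) (hK : 0 ≤ K) (y : ι → ℝ) : 0 < Mf K μ y := by
  have := hμ.prob
  exact integral_exp_pos ((Bs.ew hμ hK y).int hμ)

lemma Un_eq (hμ : Cp μ) (hK : 0 ≤ K) (y : ι → ℝ) : Un K μ f y = Mf K μ y * pm K μ f y := by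
  rw [pm_eq, mul_div_cancel₀ _ (Mf_pos hμ hK y).ne']

lemma Un_mono (hμ : Cp μ) (hK : 0 ≤ K) (hf : Bs μ f) (hg : Bs μ g) (h : ∀ᵐ x ∂μ, f x ≤ g x)
    (y : ι → ℝ) : Un K μ f y ≤ Un K μ g y :=
  integral_mono_ae ((hf.mul (Bs.ew hμ hK y)).int hμ) ((hg.mul (Bs.ew hμ hK y)).int hμ)
    (h.mono fun _ hx => mul_le_mul_of_nonneg_right hx (ew_pos _ _ _).le)

lemma Un_const_mul (c : ℝ) (y : ι → ℝ) : Un K μ (fun x => c * f x) y = c * Un K μ f y := by
  simp only [Un, mul_assoc, integral_const_mul]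

lemma Un_const (c : ℝ) (y : ι → ℝ) : Un K μ (fun _ => c) y = c * Mf K μ y := by
  simp only [Un, Mf, integral_const_mul]

lemma Un_add (hμ : Cp μ) (hK : 0 ≤ K) (hf : Bs μ f) (hg : Bs μ g) (y : ι → ℝ) :
    Un K μ (fun x => f x + g x) y = Un K μ f y + Un K μ g y := by
  simp only [Un, add_mul]
  exact integral_add ((hf.mul (Bs.ew hμ hK y)).int hμ) ((hg.mul (Bs.ew hμ hK y)).int hμ)

lemma Un_sub (hμ : Cp μ) (hK : 0 ≤ K) (hf : Bs μ f) (hg : Bs μ g) (y : ι → ℝ) :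
    Un K μ (fun x => f x - g x) y = Un K μ f y - Un K μ g y := by
  simp only [Un, sub_mul]
  exact integral_sub ((hf.mul (Bs.ew hμ hK y)).int hμ) ((hg.mul (Bs.ew hμ hK y)).int hμ)

lemma Un_sum (hμ : Cp μ) (hK : 0 ≤ K) {J : Type*} (s : Finset J) {f : J → (ι → ℝ) → ℝ}
    (h : ∀ j ∈ s, Bs μ (f j)) (y : ι → ℝ) :
    Un K μ (fun x => ∑ j ∈ s, f j x) y = ∑ j ∈ s, Un K μ (f j) y := by
  simp only [Un, Finset.sum_mul]
  exact integral_finsetSum _ fun j hj => ((h j hj).mul (Bs.ew hμ hK y)).int hμ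

lemma abs_Un_le (hμ : Cp μ) (hK : 0 ≤ K) {C : ℝ} (h : ∀ᵐ x ∂μ, |f x| ≤ C) (y : ι → ℝ) :
    |Un K μ f y| ≤ C * Mf K μ y := by
  rw [Mf, ← integral_const_mul]
  refine norm_integral_le_of_norm_le (f := fun x => f x * ew K y x)
    (((Bs.ew hμ hK y).int hμ).const_mul C) (h.mono fun x hx => ?_)
  rw [Real.norm_eq_abs, abs_mul, abs_of_pos (ew_pos _ _ _)]
  exact mul_le_mul_of_nonneg_right hx (ew_pos _ _ _).le

lemma abs_pm_le (hμ : Cp μ) (hK : 0 ≤ K) {C : ℝ} (h : ∀ᵐ x ∂μ, |f x| ≤ C) (y : ι → ℝ) :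
    |pm K μ f y| ≤ C := by
  rw [pm_eq, abs_div, abs_of_pos (Mf_pos hμ hK y), div_le_iff₀ (Mf_pos hμ hK y)]
  exact abs_Un_le hμ hK h y

lemma measurable_Mf (hμ : Cp μ) : Measurable (Mf K μ) := by
  rw [Mf_eq]; exact measurable_Un hμ measurable_const

lemma mg_Mf (hμ : Cp μ) (hK : 0 ≤ K) : MG (Mf K μ) := by
  have := hμ.prob
  obtain ⟨r, hr⟩ := hμ.bdd
  refine ⟨measurable_Mf hμ, 1, Fintype.card ι * √r, zero_le_one, by positivity, fun y => ?_⟩
  rw [one_mul, abs_of_pos (Mf_pos hμ hK y)]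
  simpa [Mf] using integral_mono_ae ((Bs.ew hμ hK y).int hμ) (integrable_const _)
    (hr.mono fun x hx => ew_le hK hx y)

lemma mg_Un (hμ : Cp μ) (hK : 0 ≤ K) (hf : Bs μ f) : MG (Un K μ f) := by
  obtain ⟨C, h0, h1⟩ := hf.bd
  refine ((mg_Mf hμ hK).const_mul C).of_le (measurable_Un hμ hf.meas) fun y => ?_
  exact (abs_Un_le hμ hK h1 y).trans (le_abs_self _)

lemma measurable_pm (hμ : Cp μ) (hf : Measurable f) : Measurable (pm K μ f) :=
  (measurable_Un hμ hf).div (measurable_Mf hμ)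

lemma mg_pm (hμ : Cp μ) (hK : 0 ≤ K) (hf : Bs μ f) : MG (pm K μ f) := by
  obtain ⟨C, -, h1⟩ := hf.bd
  exact MG.of_bdd (measurable_pm hμ hf.meas) C (abs_pm_le hμ hK h1)

/-- Fubini over the law and the noise -/
lemma swap (hμ : Cp μ) (hK : 0 ≤ K) (hf : Bs μ f) (hF : MG F) (y : ι → ℝ) (K' : ℝ) :
    IK K' (fun y' => Un K μ f (y + y') * F y') =
      ∫ x, f x * IK K' (fun y' => ew K (y + y') x * F y') ∂μ := by
  have := hμ.prob
  have := integral_integral_swap (f := fun x z => f x * ew K (y + √K' • z) x * F (√K' • z))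
    (int_prod hμ hK hf (mg_smul hF √K') y √K')
  simp only [IK, Un, ← integral_mul_const, ← integral_const_mul, ← mul_assoc]
  exact this.symm

/-- **Bayes formula** -/
theorem bayes (hμ : Cp μ) (hK : 0 ≤ K) (hf : Bs μ f) (hF : MG F) :
    ∫ x, f x * ∫ z, F (K • x + √K • z) ∂gv ι ∂μ = IK K fun y => Un K μ f y * F y := by
  have := swap hμ hK hf hF 0 K
  simp only [zero_add] at this
  rw [this]
  simp only [← cmK hK, mul_comm (F _)]

/-- two noise levels -/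
lemma IK_Un_add (hμ : Cp μ) (hK : 0 ≤ K) (hK' : 0 ≤ K') (hf : Bs μ f) (y : ι → ℝ) :
    IK K' (fun y' => Un (K + K') μ f (y + y')) = Un K μ f y := by
  have := swap hμ (add_nonneg hK hK') hf (.const 1) y K'
  simp only [mul_one, ew_add, IK_const_mul, IK_ew hK'] at this
  exact this

lemma IK_coord_Un_add (hμ : Cp μ) (hK : 0 ≤ K) (hK' : 0 ≤ K') (hf : Bs μ f) (y : ι → ℝ) (i : ι) :
    IK K' (fun y' => y' i * Un (K + K') μ f (y + y')) = K' * Un K μ (fun x => x i * f x) y := by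
  have := swap hμ (add_nonneg hK hK') hf (mg_coord i) y K'
  simp only [ew_add, mul_assoc, IK_const_mul, mul_comm (St.ew K' _ _), IK_coord_ew hK'] at this
  simp only [mul_comm _ (Un (K + K') μ f _)]
  rw [this, Un, ← integral_const_mul]
  congr 1; ext x; ring

lemma Un_zero (f : (ι → ℝ) → ℝ) : Un 0 μ f 0 = ∫ x, f x ∂μ := by simp [Un, ew_zero]

lemma IK_Un (hμ : Cp μ) (hK : 0 ≤ K) (hf : Bs μ f) : IK K (Un K μ f) = ∫ x, f x ∂μ := by
  simpa [Un_zero] using IK_Un_add hμ le_rfl hK hf 0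

lemma IK_Mf (hμ : Cp μ) (hK : 0 ≤ K) : IK K (Mf K μ) = 1 := by
  have := hμ.prob
  rw [Mf_eq, IK_Un hμ hK (.const 1)]; simp

lemma IK_Un_ew (hμ : Cp μ) (hK : 0 ≤ K) (hf : Bs μ f) (u : ι → ℝ) :
    IK K (fun y => Un K μ f y * ew K y u) = ∫ x, f x * exp (K * (x ⬝ᵥ u)) ∂μ := by
  have := swap hμ hK hf (mg_ew hK u) 0 K
  simpa only [zero_add, IK_ew_ew hK] using this

/-- **the product identity** -/
theorem IK_Un_Un (hμ : Cp μ) (hν : Cp ν) (hK : 0 ≤ K) (hf : Bs μ f) (hg : Bs ν g) :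
    IK K (fun y => Un K μ f y * Un K ν g y) =
      ∫ x, f x * ∫ x', g x' * exp (K * (x ⬝ᵥ x')) ∂ν ∂μ := by
  have := swap hμ hK hf (mg_Un hν hK hg) 0 K
  simp only [zero_add, mul_comm (St.ew K _ _), IK_Un_ew hν hK hg] at this
  simpa only [dotProduct_comm] using this

theorem IK_Mf_Mf (hμ : Cp μ) (hν : Cp ν) (hK : 0 ≤ K) :
    IK K (fun y => Mf K μ y * Mf K ν y) = Xk K μ ν := by
  simpa [Mf_eq, Xk] using IK_Un_Un hμ hν hK (.const 1) (.const 1)

lemma Xk_comm (hμ : Cp μ) (hν : Cp ν) (hK : 0 ≤ K) : Xk K μ ν = Xk K ν μ := by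
  rw [← IK_Mf_Mf hμ hν hK, ← IK_Mf_Mf hν hμ hK]; simp only [mul_comm]

lemma Xk_eq (hμ : Cp μ) (hK : 0 ≤ K) : Xk K μ μ = IK K fun y => Mf K μ y ^ 2 := by
  rw [← IK_Mf_Mf hμ hμ hK]; simp only [sq]

lemma D2_eq (hμ : Cp μ) (hν : Cp ν) (hK : 0 ≤ K) :
    D2 K μ ν = IK K fun y => (Mf K μ y - Mf K ν y) ^ 2 := by
  have a := mg_Mf hμ hK
  have b := mg_Mf hν hK
  rw [D2, ← IK_Mf_Mf hμ hμ hK, ← IK_Mf_Mf hμ hν hK, ← IK_Mf_Mf hν hν hK, ← IK_const_mul,
    ← IK_sub (a.mul a) ((a.mul b).const_mul 2), ← IK_add ((a.mul a).sub ((a.mul b).const_mul 2))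
    (b.mul b)]
  exact IK_congr fun y => by ring

lemma D2_nonneg (hμ : Cp μ) (hν : Cp ν) (hK : 0 ≤ K) : 0 ≤ D2 K μ ν := by
  rw [D2_eq hμ hν hK]; exact IK_nonneg fun _ => sq_nonneg _

/-- smoothing decreases the `L²` norm -/
lemma IK_sq_mono (hK : 0 ≤ K) (hK' : 0 ≤ K') (hF : MG F) (hG : MG G)
    (e : ∀ y, G y = IK K' fun y' => F (y + y')) :
    IK K (fun y => G y ^ 2) ≤ IK (K + K') fun y => F y ^ 2 := by
  rw [← IK_IK hK hK' (mg_sq hF)]
  exact IK_mono (mg_sq hG) (mg_IK (mg_sq hF) K') fun y => by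
    rw [e]; exact IK_sq_le (mg_shift hF y)

lemma IK_Mf_add (hμ : Cp μ) (hK : 0 ≤ K) (hK' : 0 ≤ K') (y : ι → ℝ) :
    IK K' (fun y' => Mf (K + K') μ (y + y')) = Mf K μ y := by
  rw [Mf_eq, Mf_eq]; exact IK_Un_add hμ hK hK' (.const 1) y

lemma D2_mono (hμ : Cp μ) (hν : Cp ν) (hK : 0 ≤ K) (h : K ≤ K') : D2 K μ ν ≤ D2 K' μ ν := by
  obtain ⟨d, hd, rfl⟩ : ∃ d, 0 ≤ d ∧ K' = K + d := ⟨K' - K, by linarith, by ring⟩
  have hs := add_nonneg hK hd
  rw [D2_eq hμ hν hK, D2_eq hμ hν hs]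
  refine IK_sq_mono hK hd ((mg_Mf hμ hs).sub (mg_Mf hν hs)) ((mg_Mf hμ hK).sub (mg_Mf hν hK))
    fun y => ?_
  rw [IK_sub (mg_shift (mg_Mf hμ hs) y) (mg_shift (mg_Mf hν hs) y), IK_Mf_add hμ hK hd,
    IK_Mf_add hν hK hd]

lemma Xk_mono (hμ : Cp μ) (hK : 0 ≤ K) (h : K ≤ K') : Xk K μ μ ≤ Xk K' μ μ := by
  obtain ⟨d, hd, rfl⟩ : ∃ d, 0 ≤ d ∧ K' = K + d := ⟨K' - K, by linarith, by ring⟩
  have hs := add_nonneg hK hd
  rw [Xk_eq hμ hK, Xk_eq hμ hs]
  exact IK_sq_mono hK hd (mg_Mf hμ hs) (mg_Mf hμ hK) fun y => (IK_Mf_add hμ hK hd y).symm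

lemma one_le_Xk (hμ : Cp μ) (hK : 0 ≤ K) : 1 ≤ Xk K μ μ := by
  simpa [Xk_eq hμ hK, IK_Mf hμ hK] using IK_sq_le (K := K) (mg_Mf hμ hK)

/-- Minkowski -/
lemma IK_mink (hF : MG F) (hG : MG G) :
    √(IK K fun y => (F y + G y) ^ 2) ≤ √(IK K fun y => F y ^ 2) + √(IK K fun y => G y ^ 2) := by
  have h1 : 0 ≤ IK K fun y => F y ^ 2 := IK_nonneg fun _ => sq_nonneg _
  have h2 : 0 ≤ IK K fun y => G y ^ 2 := IK_nonneg fun _ => sq_nonneg _
  have h3 := Real.abs_le_sqrt (IK_cs (K := K) hF hG)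
  rw [Real.sqrt_mul h1] at h3
  have h4 : IK K (fun y => (F y + G y) ^ 2) = IK K (fun y => F y ^ 2) +
      2 * IK K (fun y => F y * G y) + IK K fun y => G y ^ 2 := by
    rw [← IK_const_mul, ← IK_add (mg_sq hF) ((hF.mul hG).const_mul 2),
      ← IK_add ((mg_sq hF).add ((hF.mul hG).const_mul 2)) (mg_sq hG)]
    exact IK_congr fun y => by ring
  refine Real.sqrt_le_iff.2 ⟨by positivity, ?_⟩
  rw [h4, add_sq, sq_sqrt h1, sq_sqrt h2]
  linarith [le_abs_self (IK K fun y => F y * G y)]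

/-- the unnormalised mean vectors are close -/
lemma grad_le (hμ : Cp μ) (hν : Cp ν) (hK : 0 ≤ K) (hK' : 0 ≤ K') (hf : Bs μ f) (hg : Bs ν g) :
    K' ^ 2 * IK K (fun y => ∑ i, (Un K μ (fun x => x i * f x) y - Un K ν (fun x => x i * g x) y) ^ 2)
      ≤ K' * IK (K + K') fun y => (Un (K + K') μ f y - Un (K + K') ν g y) ^ 2 := by
  have hs := add_nonneg hK hK'
  have m := (mg_Un hμ hs hf).sub (mg_Un hν hs hg)
  rw [← IK_IK hK hK' (mg_sq m), ← IK_const_mul, ← IK_const_mul]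
  refine IK_mono ((MG.sum _ fun i _ => mg_sq ((mg_Un hμ hK ((Bs.coord hμ i).mul hf)).sub
    (mg_Un hν hK ((Bs.coord hν i).mul hg)))).const_mul _) ((mg_IK (mg_sq m) K').const_mul _)
    fun y => le_trans (le_of_eq ?_) (IK_bessel hK' (mg_shift m y))
  rw [Finset.mul_sum]
  refine Finset.sum_congr rfl fun i _ => ?_
  simp only [mul_sub]
  rw [IK_sub ((mg_coord i).mul (mg_shift (mg_Un hμ hs hf) y))
    ((mg_coord i).mul (mg_shift (mg_Un hν hs hg) y)), IK_coord_Un_add hμ hK hK' hf,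
    IK_coord_Un_add hν hK hK' hg]
  ring

lemma grad_le_D2 (hμ : Cp μ) (hν : Cp ν) (hK : 0 ≤ K) (hK' : 0 < K') :
    K' * IK K (fun y => ∑ i, (Un K μ (fun x => x i) y - Un K ν (fun x => x i) y) ^ 2)
      ≤ D2 (K + K') μ ν := by
  have := grad_le hμ hν hK hK'.le (.const 1) (.const 1)
  rw [D2_eq hμ hν (add_nonneg hK hK'.le), Mf_eq, Mf_eq]
  simp only [mul_one] at this
  rw [sq, mul_assoc] at this
  exact le_of_mul_le_mul_left this hK'

lemma sm_le (hμ : Cp μ) (hν : Cp ν) (hK : 0 < K) :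
    K ^ 2 * ∑ i, ∑ j, (sm μ i j - sm ν i j) ^ 2 ≤ D2 (K + K) μ ν := by
  refine le_trans ?_ (grad_le_D2 hμ hν hK.le hK)
  rw [IK_sum _ fun i _ => mg_sq ((mg_Un hμ hK.le (Bs.coord hμ i)).sub
    (mg_Un hν hK.le (Bs.coord hν i))), Finset.mul_sum, Finset.mul_sum]
  refine Finset.sum_le_sum fun i _ => ?_
  have := grad_le hμ hν le_rfl hK.le (Bs.coord hμ i) (Bs.coord hν i)
  simp only [IK_zero, Un_zero, zero_add] at this
  simpa only [sm, mul_comm] using this

end Crest.Agent.T157.St.A87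

namespace Crest.Agent.T157.St
open A87 Crest.Agent.T157.SL

theorem mmdStmt : MmdStmt := by
  intro ι _ μ ν ρ hμ hν hρ θ θ' h0 h1
  classical
  have a := mg_Mf hμ h0
  have b := mg_Mf hν h0
  have c := mg_Mf hρ h0
  refine ⟨D2_nonneg hμ hν h0, D2_mono hμ hν h0 h1, ?_, one_le_Xk hμ h0, Xk_mono hμ h0 h1, ?_, ?_, ?_⟩
  · rw [D2, D2, Xk_comm hμ hν h0]; ring
  · rw [D2_eq hμ hρ h0, D2_eq hμ hν h0, D2_eq hν hρ h0]
    simpa using IK_mink (K := θ) (a.sub b) (b.sub c)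
  · rw [Xk_eq hμ h0, Xk_eq hν h0, D2_eq hμ hν h0]
    simpa using IK_mink (K := θ) b (a.sub b)
  · rcases h0.eq_or_lt with h | h
    · rw [← h]; simpa using D2_nonneg hμ hν le_rfl
    · have := sm_le hμ hν (half_pos h)
      rw [add_halves] at this
      linarith

end Crest.Agent.T157.St

end
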