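import Crest.Agent.T157.StSph_38

/-!
# Row 157, part C4: thin shells and the four-mode density (helper38)

`shellStmt : ShellStmt`, `fourStmt : FourStmt`, `shellGlue : ShellGlue`.
Reusable: `Sph38.den`, `Sph38.gs_eq`, `Sph38.lintegral_gs`, `Sph38.integral_gs`,
`Sph38.integral_shell`.
-/

set_option autoImplicit false

noncomputable section

namespace Crest.Agent.T157.St

open MeasureTheory ProbabilityTheory Matrix Filter Topology Finset Real
open scoped ENNReal
open Crest.Agent.T157.E Crest.Agent.T157.Cond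

namespace Sph38

variable {ι : Type*} [Fintype ι]

/-- density of the centred Gaussian law with independent coordinates -/
def den (c x : ι → ℝ) : ℝ :=
  (√(2 * π))⁻¹ ^ Fintype.card ι * (∏ k, (√(c k))⁻¹) * exp (-(1 / 2) * ∑ k, x k ^ 2 / c k)

lemma den_nonneg (c x : ι → ℝ) : 0 ≤ den c x := by
  unfold den
  have : 0 ≤ ∏ k, (√(c k))⁻¹ := Finset.prod_nonneg fun k _ => by positivity
  positivity

lemma continuous_den (c : ι → ℝ) : Continuous (den c) := by
  unfold den; fun_prop

instance (m c : ι → ℝ) : IsProbabilityMeasure (gs m c) := by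
  unfold gs; infer_instance

theorem gs_eq' (m : ι → ℝ) {c : ι → ℝ} (hc : ∀ k, 0 < c k) :
    gs m c = (volume : Measure (ι → ℝ)).withDensity fun x => ENNReal.ofReal (den c (x - m)) := by
  have h := Kr.pi_withDensity_ofReal (fun _ : ι => (volume : Measure ℝ))
    (fun k => gaussianPDFReal (m k) (c k).toNNReal) (fun _ x => gaussianPDFReal_nonneg _ _ x)
    (fun _ => integrable_gaussianPDFReal _ _)
  have e : ∀ k, gaussianReal (m k) (c k).toNNReal = (volume : Measure ℝ).withDensity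
      fun x => ENNReal.ofReal (gaussianPDFReal (m k) (c k).toNNReal x) := fun k =>
    gaussianReal_of_var_ne_zero _ (by simpa using hc k)
  rw [gs]
  simp_rw [e]
  rw [h, volume_pi]
  congr 1
  funext y
  congr 1
  have e2 : ∀ k, gaussianPDFReal (m k) (c k).toNNReal (y k) =
      (√(2 * π))⁻¹ * (√(c k))⁻¹ * exp (-(1 / 2) * ((y - m) k ^ 2 / c k)) := fun k => by
    rw [gaussianPDFReal, Real.coe_toNNReal _ (hc k).le, Real.sqrt_mul (by positivity), mul_inv]
    congr 2
    rw [Pi.sub_apply]; ring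
  simp_rw [e2]
  rw [den, Finset.prod_mul_distrib, Finset.prod_mul_distrib, Finset.prod_const, Finset.card_univ,
    ← Real.exp_sum, Finset.mul_sum]

theorem gs_eq {c : ι → ℝ} (hc : ∀ k, 0 < c k) :
    gs 0 c = (volume : Measure (ι → ℝ)).withDensity fun x => ENNReal.ofReal (den c x) := by
  simpa using gs_eq' 0 hc

lemma lintegral_gs {c : ι → ℝ} (hc : ∀ k, 0 < c k) {G : (ι → ℝ) → ℝ≥0∞} (hG : Measurable G) :
    ∫⁻ x, G x ∂gs 0 c = ∫⁻ x, ENNReal.ofReal (den c x) * G x := by
  rw [gs_eq hc, lintegral_withDensity_eq_lintegral_mul _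
    (continuous_den c).measurable.ennreal_ofReal hG]
  rfl

lemma integral_gs {c : ι → ℝ} (hc : ∀ k, 0 < c k) (F : (ι → ℝ) → ℝ) :
    ∫ x, F x ∂gs 0 c = ∫ x, den c x * F x := by
  rw [gs_eq hc, integral_withDensity_eq_integral_toReal_smul
    (continuous_den c).measurable.ennreal_ofReal (ae_of_all _ fun _ => ENNReal.ofReal_lt_top)]
  refine integral_congr_ae (ae_of_all _ fun x => ?_)
  simp only
  rw [ENNReal.toReal_ofReal (den_nonneg c x), smul_eq_mul]

lemma isClosed_shell (s ε : ℝ) : IsClosed (shell s ε : Set (ι → ℝ)) :=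
  (isClosed_le continuous_const continuous_dot).inter (isClosed_le continuous_dot continuous_const)

lemma measurableSet_shell (s ε : ℝ) : MeasurableSet (shell s ε : Set (ι → ℝ)) :=
  (isClosed_shell s ε).measurableSet

lemma isCompact_shell (s ε : ℝ) : IsCompact (shell s ε : Set (ι → ℝ)) :=
  (isCompact_ball (s + ε)).of_isClosed_subset (isClosed_shell s ε) fun _ h => h.2

/-- Lebesgue integral of a continuous function over a shell -/
theorem integral_shell [Nonempty ι] {G : (ι → ℝ) → ℝ} (hG : Continuous G) {t ε : ℝ} (ht : 0 < t)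
    (hε : 0 ≤ ε) : ∫ x in shell t ε, G x = ∫ r in √t..√(t + ε),
      kap ι * r ^ (Fintype.card ι - 1) * ∫ x, G (r • x) ∂sphR ι 1 := by
  have hi : Integrable ((shell t ε).indicator G) :=
    (integrable_indicator_iff (measurableSet_shell t ε)).2
      (hG.continuousOn.integrableOn_compact (isCompact_shell t ε))
  have hle : √t ≤ √(t + ε) := Real.sqrt_le_sqrt (by linarith)
  have hsub : Set.Icc √t √(t + ε) ⊆ Set.Ioi 0 := fun r hr =>
    lt_of_lt_of_le (Real.sqrt_pos.2 ht) hr.1
  rw [← integral_indicator (measurableSet_shell t ε), integral_polar hi,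
    intervalIntegral.integral_of_le hle, ← integral_Icc_eq_integral_Ioc,
    ← Set.inter_eq_self_of_subset_right hsub, ← setIntegral_indicator measurableSet_Icc]
  refine setIntegral_congr_fun measurableSet_Ioi fun r hr => ?_
  have hr' : (0 : ℝ) < r := hr
  have hiff : r ∈ Set.Icc √t √(t + ε) ↔ t ≤ r ^ 2 ∧ r ^ 2 ≤ t + ε := by
    rw [Set.mem_Icc, Real.sqrt_le_left hr'.le, Real.le_sqrt hr'.le (by linarith)]
  by_cases h : r ∈ Set.Icc √t √(t + ε)
  · rw [Set.indicator_of_mem h]
    congr 1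
    refine integral_congr_ae ?_
    filter_upwards [sphR_ae (ι := ι) 1] with x hx
    refine Set.indicator_of_mem ?_ _
    have : (r • x) ⬝ᵥ (r • x) = r ^ 2 := by rw [dot_smul, hx]; ring
    simp only [shell, Set.mem_ofPred_eq, this]
    exact hiff.1 h
  · rw [Set.indicator_of_notMem h]
    refine mul_eq_zero_of_right _ (integral_eq_zero_of_ae ?_)
    filter_upwards [sphR_ae (ι := ι) 1] with x hx
    refine Set.indicator_of_notMem ?_ _
    have : (r • x) ⬝ᵥ (r • x) = r ^ 2 := by rw [dot_smul, hx]; ring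
    simp only [shell, Set.mem_ofPred_eq, this]
    exact fun h' => h (hiff.2 h')

theorem tendsto_shell [Nonempty ι] {G : (ι → ℝ) → ℝ} (hG : Continuous G) {t : ℝ} (ht : 0 < t) :
    Tendsto (fun ε => (∫ x in shell t ε, G x) / ε) (𝓝[>] 0)
      (𝓝 (kap ι * √t ^ (Fintype.card ι - 1) / (2 * √t) * ∫ x, G x ∂sphR ι √t)) := by
  set g : ℝ → ℝ := fun r => kap ι * r ^ (Fintype.card ι - 1) * ∫ x, G (r • x) ∂sphR ι 1 with hg
  have hc : Continuous g := by
    have : Continuous fun r : ℝ => ∫ x, G (r • x) ∂sphR ι 1 :=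
      continuous_sphR 1 (F := fun (r : ℝ) x => G (r • x)) (hG.comp (by fun_prop))
    fun_prop
  have h1 : HasDerivAt (fun ε : ℝ => √(t + ε)) (1 / (2 * √(t + 0))) 0 :=
    ((hasDerivAt_id (0 : ℝ)).const_add t).sqrt (by simpa using ht.ne')
  have h2 : HasDerivAt (fun u => ∫ r in √t..u, g r) (g √(t + 0)) √(t + 0) :=
    (hc.integral_hasStrictDerivAt _ _).hasDerivAt
  have h3 := (h2.comp (0 : ℝ) h1).tendsto_slope_zero_right
  have e : g √(t + 0) * (1 / (2 * √(t + 0))) =
      kap ι * √t ^ (Fintype.card ι - 1) / (2 * √t) * ∫ x, G x ∂sphR ι √t := by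
    rw [add_zero, integral_sphR √t hG.measurable, hg]
    ring
  rw [e] at h3
  refine h3.congr' ?_
  filter_upwards [self_mem_nhdsWithin] with ε hε
  rw [integral_shell hG ht (le_of_lt hε)]
  simp [Function.comp, hg, div_eq_inv_mul]

/-! ### four modes -/

/-- spherical Laplace transform -/
def PP (a : ι → ℝ) (s : ℝ) : ℝ := ∫ x, s * exp (-(1 / 2 * ∑ k, x k ^ 2 * a k) * s) ∂sphR ι 1

lemma continuous_PP [Nonempty ι] : Continuous fun q : (ι → ℝ) × ℝ => PP q.1 q.2 :=
  continuous_sphR 1 (F := fun (q : (ι → ℝ) × ℝ) x =>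
    q.2 * exp (-(1 / 2 * ∑ k, x k ^ 2 * q.1 k) * q.2)) (by unfold Function.uncurry; fun_prop)

lemma lip_one {q u v : ℝ} (hq : 0 ≤ q) (hu : 0 ≤ u) (hv : 0 ≤ v) :
    |u * exp (-q * u) - v * exp (-q * v)| ≤ |u - v| := by
  have h := Convex.norm_image_sub_le_of_norm_hasDerivWithin_le (𝕜 := ℝ)
    (f := fun y : ℝ => y * exp (-q * y)) (f' := fun y => (1 - q * y) * exp (-q * y)) (C := 1)
    (s := Set.Ici 0) (x := v) (y := u) (fun y _ => by
      have h1 : HasDerivAt (fun y : ℝ => y * exp (-q * y))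
          (1 * exp (-q * y) + y * (exp (-q * y) * (-q * 1))) y :=
        (hasDerivAt_id y).mul ((hasDerivAt_id y).const_mul (-q)).exp
      refine (h1.congr_deriv ?_).hasDerivWithinAt
      ring) (fun y hy => by
      have hy' : 0 ≤ q * y := mul_nonneg hq hy
      have h1 : |1 - q * y| ≤ exp (q * y) := by
        have := Real.add_one_le_exp (q * y)
        rw [abs_le]; constructor <;> linarith
      rw [Real.norm_eq_abs, abs_mul, abs_of_pos (exp_pos _)]
      calc |1 - q * y| * exp (-q * y) ≤ exp (q * y) * exp (-q * y) := by gcongr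
        _ = 1 := by rw [← Real.exp_add]; simp) (convex_Ici 0) hv hu
  simpa using h

lemma PP_lip [Nonempty ι] {a : ι → ℝ} (ha : ∀ k, 0 ≤ a k) {u v : ℝ} (hu : 0 ≤ u) (hv : 0 ≤ v) :
    |PP a u - PP a v| ≤ |u - v| := by
  unfold PP
  rw [← integral_sub (integrable_sphR 1 (by fun_prop)) (integrable_sphR 1 (by fun_prop))]
  have h := norm_integral_le_of_norm_le_const (μ := sphR ι 1) (C := |u - v|)
    (f := fun x => u * exp (-(1 / 2 * ∑ k, x k ^ 2 * a k) * u) -
      v * exp (-(1 / 2 * ∑ k, x k ^ 2 * a k) * v)) (ae_of_all _ fun x => by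
      refine lip_one ?_ hu hv
      have : 0 ≤ ∑ k, x k ^ 2 * a k := Finset.sum_nonneg fun k _ => mul_nonneg (sq_nonneg _) (ha k)
      positivity)
  simpa using h

lemma PP_le [Nonempty ι] {a : ι → ℝ} {b : ℝ} (hb : 0 < b) (ha : ∀ k, b⁻¹ ≤ a k) {u : ℝ}
    (hu : 0 ≤ u) : PP a u ≤ 2 * b := by
  unfold PP
  have h := integral_mono_ae (μ := sphR ι 1)
    (f := fun x => u * exp (-(1 / 2 * ∑ k, x k ^ 2 * a k) * u)) (g := fun _ => 2 * b)
    (integrable_sphR 1 (by fun_prop)) (integrable_const _) (by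
      filter_upwards [sphR_ae (ι := ι) 1] with x hx
      have h1 : b⁻¹ ≤ ∑ k, x k ^ 2 * a k := by
        calc b⁻¹ = ∑ k, x k ^ 2 * b⁻¹ := by
              rw [← Finset.sum_mul]
              have : ∑ k, x k ^ 2 = 1 := by simpa [dotProduct, sq] using hx
              rw [this, one_mul]
          _ ≤ _ := Finset.sum_le_sum fun k _ => by gcongr; exact ha k
      set q := 1 / 2 * ∑ k, x k ^ 2 * a k with hq
      have h2 : 1 ≤ 2 * b * q := by
        have := mul_le_mul_of_nonneg_left h1 hb.le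
        rw [mul_inv_cancel₀ hb.ne'] at this
        rw [hq]; linarith
      have h3 : q * u ≤ exp (q * u) := by linarith [Real.add_one_le_exp (q * u)]
      have h4 : u ≤ 2 * b * exp (q * u) := by nlinarith
      calc u * exp (-q * u) ≤ 2 * b * exp (q * u) * exp (-q * u) := by gcongr
        _ = 2 * b := by rw [mul_assoc, ← Real.exp_add]; simp)
  simpa using h

lemma PP_pos [Nonempty ι] (a : ι → ℝ) {u : ℝ} (hu : 0 < u) : 0 < PP a u := by
  unfold PP
  rw [integral_const_mul]
  exact mul_pos hu (integral_exp_pos (integrable_sphR 1 (by fun_prop)))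

/-- density of `|x|²` for four Gaussian modes -/
def p4 (c : Fin 4 → ℝ) (s : ℝ) : ℝ :=
  kap (Fin 4) / 2 * (√(2 * π))⁻¹ ^ 4 * (∏ k, (√(c k))⁻¹) * PP (fun k => (c k)⁻¹) (max s 0)

lemma lintegral_p4 {c : Fin 4 → ℝ} (hc : ∀ k, 0 < c k) {h : ℝ → ℝ≥0∞} (hh : Measurable h) :
    ∫⁻ x, h (x ⬝ᵥ x) ∂gs 0 c = ∫⁻ s, h s * ENNReal.ofReal (p4 c s) := by
  have hk := kap_pos (ι := Fin 4)
  have hm : Measurable fun x : Fin 4 → ℝ => h (x ⬝ᵥ x) := hh.comp continuous_dot.measurable
  have hd := (continuous_den c).measurable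
  have himg : (fun r : ℝ => r ^ 2) '' Set.Ioi 0 = Set.Ioi 0 := by
    ext s
    constructor
    · rintro ⟨r, hr, rfl⟩
      exact pow_pos (show (0 : ℝ) < r from hr) 2
    · intro hs
      exact ⟨√s, Real.sqrt_pos.2 hs, Real.sq_sqrt (le_of_lt hs)⟩
  have h1 := lintegral_image_eq_lintegral_abs_deriv_mul (s := Set.Ioi (0 : ℝ))
    (f := fun r : ℝ => r ^ 2) (f' := fun r => 2 * r) measurableSet_Ioi
    (fun r _ => by simpa using (hasDerivAt_pow 2 r).hasDerivWithinAt)
    (fun x hx y hy hxy => (pow_left_inj₀ (le_of_lt hx) (le_of_lt hy) two_ne_zero).1 hxy)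
    (fun s => h s * ENNReal.ofReal (p4 c s))
  rw [himg] at h1
  have h2 : ∫⁻ s, h s * ENNReal.ofReal (p4 c s) =
      ∫⁻ s in Set.Ioi 0, h s * ENNReal.ofReal (p4 c s) := by
    rw [← lintegral_indicator measurableSet_Ioi]
    refine lintegral_congr fun s => ?_
    by_cases hs : s ∈ Set.Ioi (0 : ℝ)
    · rw [Set.indicator_of_mem hs]
    · rw [Set.indicator_of_notMem hs, p4, max_eq_right (not_lt.1 hs)]
      simp [PP]
  rw [h2, h1, lintegral_gs hc hm, lintegral_polar (by fun_prop)]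
  refine setLIntegral_congr_fun measurableSet_Ioi fun r hr => ?_
  have hr' : (0 : ℝ) < r := hr
  have h3 : ∫⁻ x, ENNReal.ofReal (den c (r • x)) * h ((r • x) ⬝ᵥ (r • x)) ∂sphR (Fin 4) 1 =
      ENNReal.ofReal (∫ x, den c (r • x) ∂sphR (Fin 4) 1) * h (r ^ 2) := by
    have hcd : Continuous fun x : Fin 4 → ℝ => den c (r • x) :=
      (continuous_den c).comp (by fun_prop)
    rw [ofReal_integral_eq_lintegral_ofReal (integrable_sphR 1 hcd)
      (ae_of_all _ fun x => den_nonneg _ _), ← lintegral_mul_const _ (by fun_prop)]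
    refine lintegral_congr_ae ?_
    filter_upwards [sphR_ae (ι := Fin 4) 1] with x hx
    rw [dot_smul, hx, one_pow, mul_one]
  rw [h3, ← mul_assoc, mul_comm (h (r ^ 2)), ← mul_assoc, ← ENNReal.ofReal_mul (by positivity),
    ← ENNReal.ofReal_mul (abs_nonneg _)]
  congr 2
  have h4 : ∀ x : Fin 4 → ℝ, -(1 / 2) * ∑ k, (r • x) k ^ 2 / c k =
      -(1 / 2 * ∑ k, x k ^ 2 * (c k)⁻¹) * r ^ 2 := fun x => by
    rw [neg_mul, neg_mul, mul_assoc, Finset.sum_mul]
    congr 2
    refine Finset.sum_congr rfl fun k _ => ?_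
    rw [Pi.smul_apply, smul_eq_mul]; ring
  rw [p4, max_eq_left (sq_nonneg r), PP, abs_of_pos (by positivity)]
  simp_rw [den, h4]
  rw [integral_const_mul, integral_const_mul, Fintype.card_fin]
  ring

end Sph38

open Sph38

theorem shellStmt : ShellStmt := fun ι _ _ _ t ht => by
  have hk := kap_pos (ι := ι)
  have hs := Real.sqrt_pos.2 ht
  refine ⟨kap ι * √t ^ (Fintype.card ι - 1) / (2 * √t) * (√(2 * π))⁻¹ ^ Fintype.card ι,
    by positivity, fun c hc F hF => ?_⟩
  have h := tendsto_shell (G := fun x => den c x * F x) ((continuous_den c).mul hF) ht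
  have e : ∀ ε, ∫ x in shell t ε, F x ∂gs 0 c = ∫ x in shell t ε, den c x * F x := fun ε => by
    rw [← integral_indicator (measurableSet_shell t ε),
      ← integral_indicator (measurableSet_shell t ε), integral_gs hc]
    refine integral_congr_ae (ae_of_all _ fun x => ?_)
    simp only
    rw [Set.indicator_mul_right]
  simp_rw [e]
  convert h using 2
  have e2 : ∀ x, den c x * F x = ((√(2 * π))⁻¹ ^ Fintype.card ι * ∏ k, (√(c k))⁻¹) *
      (F x * exp (-(1 / 2) * ∑ k, x k ^ 2 / c k)) := fun x => by rw [den]; ring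
  simp_rw [e2]
  rw [integral_const_mul]
  ring

theorem fourStmt : FourStmt := by
  have hk := kap_pos (ι := Fin 4)
  refine ⟨p4, ?_, fun c s hs => ?_, fun c s hc hs => ?_, fun a b ha => ?_,
    fun c hc h hh => lintegral_p4 hc hh⟩
  · unfold p4
    refine (continuousOn_const.mul (continuousOn_finsetProd _ fun k _ => ?_)).mul ?_
    · refine ContinuousOn.inv₀ (by fun_prop) fun q hq => (Real.sqrt_pos.2 (hq k)).ne'
    · refine continuous_PP.comp_continuousOn (f := fun q : (Fin 4 → ℝ) × ℝ =>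
        (fun k => (q.1 k)⁻¹, max q.2 0)) (ContinuousOn.prodMk ?_ (by fun_prop))
      exact continuousOn_pi.2 fun k => ContinuousOn.inv₀ (by fun_prop) fun q hq => (hq k).ne'
  · rw [p4, max_eq_right hs]; simp [PP]
  · have h1 : 0 < ∏ k, (√(c k))⁻¹ :=
      Finset.prod_pos fun k _ => inv_pos.2 (Real.sqrt_pos.2 (hc k))
    have h2 := PP_pos (fun k => (c k)⁻¹) hs
    rw [p4, max_eq_left hs.le]
    positivity
  · refine ⟨kap (Fin 4) / 2 * (√(2 * π))⁻¹ ^ 4 * (√a)⁻¹ ^ 4 * (1 + 2 * |b|), by positivity,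
      fun c hc s s' => ?_⟩
    have hc0 : ∀ k, 0 < c k := fun k => ha.trans_le (hc k).1
    have hb : 0 < b := (hc0 0).trans_le (hc 0).2
    have h0 : 0 ≤ ∏ k, (√(c k))⁻¹ := Finset.prod_nonneg fun k _ => by positivity
    have h1 : ∏ k, (√(c k))⁻¹ ≤ (√a)⁻¹ ^ 4 := by
      calc ∏ k, (√(c k))⁻¹ ≤ ∏ _k : Fin 4, (√a)⁻¹ :=
            Finset.prod_le_prod (fun k _ => by positivity) fun k _ =>
              inv_anti₀ (Real.sqrt_pos.2 ha) (Real.sqrt_le_sqrt (hc k).1)
        _ = _ := by simp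
    have h2 : PP (fun k => (c k)⁻¹) (max s 0) ≤ 1 + 2 * |b| := by
      have := PP_le (a := fun k => (c k)⁻¹) hb (fun k => inv_anti₀ (hc0 k) (hc k).2)
        (le_max_right s 0)
      rw [abs_of_pos hb]; linarith
    have h3 : |PP (fun k => (c k)⁻¹) (max s 0) - PP (fun k => (c k)⁻¹) (max s' 0)| ≤
        (1 + 2 * |b|) * |s - s'| := by
      have h4 := PP_lip (a := fun k => (c k)⁻¹) (fun k => (inv_pos.2 (hc0 k)).le)
        (le_max_right s 0) (le_max_right s' 0)
      have h5 := abs_max_sub_max_le_abs s s' 0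
      nlinarith [abs_nonneg (s - s'), abs_nonneg b]
    have h6 : 0 ≤ PP (fun k => (c k)⁻¹) (max s 0) :=
      integral_nonneg fun x => mul_nonneg (le_max_right s 0) (exp_pos _).le
    constructor
    · rw [p4]; gcongr
    · rw [p4, p4, ← mul_sub, abs_mul, abs_of_nonneg (by positivity), mul_assoc _ (1 + 2 * |b|)]
      gcongr


end Crest.Agent.T157.St

end
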