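import Crest.Agent.T157.Q1G_63
import Crest.Agent.T157.WpDef_93
import Crest.Agent.T157.StA_87
import Crest.Agent.T157.RecB_77
import Crest.Agent.T157.StLnk_10
import Crest.Agent.T157.StConv_10
import Crest.Agent.T157.StSph_38
import Crest.Agent.T157.EdBase_88
import Crest.Agent.T157.StMgf_32
import Crest.Agent.T157.StShell_38
import Crest.Agent.T157.StTwo_90
import Crest.Agent.T157.StDen_90
import Crest.Agent.T157.StFin_85
import Crest.Agent.T157.StAll_87
import Crest.Agent.T157.TrF_64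
import Crest.Agent.T157.Soft_45
import Crest.Agent.T157.LlAll_91
import Crest.Agent.T157.PlD_37
import Crest.Agent.T157.TopA_50
import Crest.Agent.T157.CrD_63
import Crest.Agent.T157.LpAll_17
import Crest.Agent.T157.ChainMix_22
import Crest.Agent.T157.DsD_77

-- ▼ part T157/CrB_63
section

/-!
# Row 157, part A (helper63): the critical log-Sobolev inequality from the dyadic levels and the
weak Poincaré inequality
-/

set_option autoImplicit false

noncomputable section

namespace Crest.Agent.T157.Q1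

open MeasureTheory Filter Topology Set Matrix Real
open Crest.ProbabilityR.SpinGlassDynamics
open Crest.Agent.T157 Crest.Agent.T157.E Crest.Agent.T157.SL Crest.Agent.T157.Soft

variable {n : ℕ} {w : Cube n → ℝ}

theorem lev_of (hn : 0 < n) (hw : ∀ x, 0 < w x) {H b K : ℝ}
    (h : ∀ g : Cube n → ℝ, (∀ x, 0 ≤ g x) → (∀ x, g x ^ 2 ≤ exp H * mean w fun x => g x ^ 2) →
      mean w (Ent.ind fun x => 0 < g x) ≤ b → H * mean w (fun x => g x ^ 2) ≤ K * dir w g) :
    Ent.Lev (Chain22.hbRC hn hw) (exp (-H)) b (K * n) 0 := fun g g0 g1 g2 => by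
  have := Ent.lev_triv (c := Chain22.hbRC hn hw) (exp_pos (-H)) b g g0 g1 g2
  rw [one_div, log_inv, log_exp, neg_neg, zero_mul, zero_add] at this
  rw [zero_mul, add_zero, mul_assoc, ← Chain22.dir_eq_D]
  exact this.trans (h g g0 (fun x => by
    have := g1 x
    rwa [exp_neg, inv_mul_le_iff₀ (exp_pos H)] at this) g2)

/-- deterministic form -/
theorem lsi_of_sp (hn : 0 < n) (hw : ∀ x, 0 < w x) {K B : ℝ} {j₀ J : ℕ} (hK : 0 < K) (hB : 0 ≤ B)
    (h0 : ∀ x, log (1 / prob w x) < 2 ^ J) (h : ∀ j, j₀ ≤ j → SP w (2 ^ j) (2 ^ j / K))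
    (hP : ∀ u : Cube n → ℝ, (∀ x, |u x| ≤ 1) → var w u ≤ B * dir w u + exp (-2 ^ j₀) / 4) :
    Top.Lsi w (10 * (J + 1) * (2 * K + 2 ^ j₀ * 4 * B)) := fun f => by
  have hW := Wt.of_pos hw
  have := Ent.LSI.of_levels (c := Chain22.hbRC hn hw) (J := J + 1)
    (a := fun j => if j ≤ J then exp (-2 ^ (j₀ + (J - j))) else 1 / 2)
    (K := (2 * K + 2 ^ j₀ * 4 * B) * n) (by positivity) (fun x => ?_) (fun j _ => ?_)
    (if_neg (by omega)) (fun j hj => ?_) f
  · rw [zero_mul, add_zero, ← mul_assoc, mul_assoc _ (n : ℝ), ← Chain22.dir_eq_D] at this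
    push_cast at this
    exact this
  · have := h0 x
    rw [one_div, log_inv, neg_lt, lt_log_iff_exp_lt (GoeT.prob_pos hw x)] at this
    rw [if_pos J.zero_le]
    exact lt_of_le_of_lt (exp_le_exp.2 (neg_le_neg (pow_le_pow_right₀ one_le_two (by omega)))) this
  · split_ifs
    · refine ⟨(exp_pos _).le, (exp_le_exp.2 (neg_le_neg (one_le_pow₀ one_le_two))).trans ?_⟩
      rw [exp_neg, one_div]
      exact inv_anti₀ two_pos (by linarith [add_one_le_exp (1 : ℝ)])
    · norm_num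
  rw [if_pos (by omega)]
  refine lev_of hn hw fun g g0 g1 g2 => ?_
  have D0 := Ent.dir_nonneg hw g
  split_ifs at g2 with hJ
  · have e : j₀ + (J - j) = j₀ + (J - (j + 1)) + 1 := by omega
    rw [e, pow_succ'] at g1 ⊢
    have := h _ (Nat.le_add_right _ _) g g0 g1 g2
    rw [div_mul_eq_mul_div, div_le_iff₀ hK] at this
    have p : 0 ≤ 2 ^ j₀ * 4 * B * dir w g := by positivity
    linarith
  · rw [show j₀ + (J - j) = j₀ by omega] at g1 ⊢
    set m := mean w fun x => g x ^ 2 with hm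
    rcases (hW.mean_nonneg (f := fun x => g x ^ 2) fun x => sq_nonneg _).eq_or_lt with e | e
    · rw [hm, ← e, mul_zero]; positivity
    have q0 : 0 < exp (2 ^ j₀) * m := by positivity
    have e1 : (√(exp (2 ^ j₀) * m))⁻¹ ^ 2 = (exp (2 ^ j₀) * m)⁻¹ := by rw [inv_pow, sq_sqrt q0.le]
    have a1 := hP (fun x => (√(exp (2 ^ j₀) * m))⁻¹ * g x) fun x => by
      rw [← sq_le_one_iff_abs_le_one, mul_pow, e1, inv_mul_le_iff₀ q0, mul_one]; exact g1 x
    have a2 := Ent.var_ge_of_supp hW.isP (fun x => (√(exp (2 ^ j₀) * m))⁻¹ * g x)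
      (p := fun x => 0 < g x) (fun x hx => lt_of_le_of_ne (g0 x) fun h => hx (by simp [← h])) g2
    change _ * mean w _ ≤ var w _ at a2
    simp only [mul_pow, e1, mean_const_mul, ← hm] at a2
    have a3 := mul_le_mul_of_nonneg_left (a2.trans a1) q0.le
    rw [dir_mul, e1, mul_add, mul_left_comm _ (1 - 1 / 2 : ℝ), mul_left_comm _ B,
      mul_inv_cancel_left₀ q0.ne', mul_inv_cancel_left₀ q0.ne', exp_neg,
      show exp (2 ^ j₀) * m * ((exp (2 ^ j₀))⁻¹ / 4) = m / 4 by field_simp] at a3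
    have p : 0 ≤ 2 * K * dir w g := by positivity
    nlinarith [mul_le_mul_of_nonneg_left (show m ≤ 4 * (B * dir w g) by linarith)
      (show (0 : ℝ) ≤ 2 ^ j₀ by positivity)]

theorem ev_log (C : ℝ) {δ : ℝ} (hδ : 0 < δ) :
    ∀ᶠ n : ℕ in atTop, ((Nat.log 2 (19 * n) + 1 : ℕ) + 1 : ℝ) * C ≤ (n : ℝ) ^ δ := by
  have l : Tendsto (fun n : ℕ => (n : ℝ) ^ (δ / 2)) atTop atTop :=
    (tendsto_rpow_atTop (half_pos hδ)).comp tendsto_natCast_atTop_atTop
  filter_upwards [l.eventually_ge_atTop ((2 + 19 ^ (δ / 2) / (δ / 2 * log 2)) * |C|),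
    eventually_ge_atTop 1] with n h hn
  have n1 : (1 : ℝ) ≤ n := by exact_mod_cast hn
  have u1 := one_le_rpow n1 (half_pos hδ).le
  have l2 := log_pos one_lt_two
  set k := Nat.log 2 (19 * n)
  have h1 : ((2 : ℝ) ^ k) ≤ 19 * n := by exact_mod_cast Nat.pow_log_le_self 2 (by omega : 19 * n ≠ 0)
  have h2 : (k : ℝ) ≤ 19 ^ (δ / 2) / (δ / 2 * log 2) * (n : ℝ) ^ (δ / 2) := by
    rw [div_mul_eq_mul_div, le_div_iff₀ (by positivity), ← mul_rpow (by norm_num) (by linarith)]
    refine le_trans ?_ (rpow_le_rpow (by positivity) h1 (half_pos hδ).le)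
    rw [rpow_def_of_pos (by positivity), log_pow]
    linarith [add_one_le_exp (k * log 2 * (δ / 2))]
  rw [show (n : ℝ) ^ δ = (n : ℝ) ^ (δ / 2) * (n : ℝ) ^ (δ / 2) by
    rw [← rpow_add (by linarith), add_halves]]
  push_cast
  calc _ ≤ ((k : ℝ) + 1 + 1) * |C| := mul_le_mul_of_nonneg_left (le_abs_self C) (by positivity)
    _ ≤ (2 + 19 ^ (δ / 2) / (δ / 2 * log 2)) * (n : ℝ) ^ (δ / 2) * |C| := by gcongr; linarith
    _ = (2 + 19 ^ (δ / 2) / (δ / 2 * log 2)) * |C| * (n : ℝ) ^ (δ / 2) := by ring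
    _ ≤ _ := by gcongr

/-- **the critical log-Sobolev inequality** -/
theorem lsiCrit_of {a : ℝ} (ha : 0 ≤ a) (h1 : SPStmt false a) (h2 : WPStmt) : Top.LsiCrit :=
  fun δ hδ => Top.whp_iff.2 fun ε hε => by
  obtain ⟨β, j₀, hβ, h1⟩ := h1 (ε / 3) (by positivity)
  obtain ⟨B, h2⟩ := h2 (exp (-2 ^ j₀) / 4) (ε / 3) (by positivity) (by positivity)
  filter_upwards [h1, h2, Top.whp_iff.1 Chain22.whp_opn' (ε / 3) (by positivity),
    ev_log (10 * (2 * β + 2 ^ j₀ * 4 * |B|)) hδ, eventually_ge_atTop 1] with n e1 e2 e3 e4 hn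
  have t0 : 0 ≤ ε / 3 := by positivity
  refine le_trans (measure_mono fun g hg => ?_) ((un (un e1 e2 t0 t0) e3 (by positivity) t0).trans_eq
    (by congr 1; ring))
  by_contra hc
  simp only [mem_union, mem_ofPred_eq, not_or, not_exists, not_and, not_not, not_lt] at hc
  obtain ⟨⟨c1, c2⟩, c3⟩ := hc
  have hw := gibbsWeight_pos (n := n) 1 g
  have N0 := N23_pos hn
  have := lsi_of_sp hn hw (K := β * N23 n) (B := |B| * N23 n) (J := Nat.log 2 (19 * n) + 1)
    (by positivity) (by positivity) (fun x => (Chain22.log_inv_prob_gibbs_le c3 x).trans_lt (by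
      have : ((19 * n : ℕ) : ℝ) < (2 ^ (Nat.log 2 (19 * n) + 1) : ℕ) := by
        exact_mod_cast Nat.lt_pow_succ_log_self one_lt_two _
      push_cast at this
      rw [abs_one]; linarith))
    (fun j hj => (c1 j hj).mono (.of_pos hw) (div_le_div_of_nonneg_right
      (self_le_rpow_of_one_le (one_le_pow₀ one_le_two) (by linarith)) (by positivity)))
    fun u hu => by
      have := c2 u hu
      rw [dirichletForm_eq, gibbsVar_eq] at this
      nlinarith [mul_le_mul_of_nonneg_right (le_abs_self B) (mul_nonneg N0.le (Ent.dir_nonneg hw u))]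
  refine hg fun f => (this f).trans (mul_le_mul_of_nonneg_right ?_ (Ent.dir_nonneg hw f))
  rw [rpow_add (by exact_mod_cast hn)]
  exact le_of_eq_of_le (by ring) (mul_le_mul_of_nonneg_left e4 N0.le)

end Crest.Agent.T157.Q1

end
end

-- ▼ part T157/WpA_93
section

/-!
# Row 157, part C: smoothing through the Gaussian channel (helper93)

`SS K G x = E G(K x + √K z)`; transfer of `∫ SS K G` and `∫ (SS K G)²` between two laws at the cost
`√D2`; the smoothed posterior mean is a `C¹` observable; `smooth_wp` transfers a weak Poincaré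
inequality from a compactly supported law to a finite weight.
-/

set_option autoImplicit false
set_option linter.unusedSectionVars false

noncomputable section

namespace Crest.Agent.T157.Wp

open MeasureTheory ProbabilityTheory Matrix Filter Topology Finset Real
open Crest.Agent.T157.E Crest.Agent.T157.St Crest.Agent.T157.St.A87 Crest.Agent.T157.SL
open Crest.Agent.T157.Rec

variable {ι : Type*} [Fintype ι] [DecidableEq ι] {μ ν : Measure (ι → ℝ)} {K : ℝ}
  {G : (ι → ℝ) → ℝ}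

/-- smoothing through the channel -/
def SS (K : ℝ) (G : (ι → ℝ) → ℝ) (x : ι → ℝ) : ℝ := ∫ z, G (K • x + √K • z) ∂gv ι

lemma SS_eq (K : ℝ) (G : (ι → ℝ) → ℝ) (x : ι → ℝ) : SS K G x = IK K fun y => G (K • x + y) := rfl

lemma mg_SS (h : MG G) (K : ℝ) : MG (SS K G) := mg_smul (mg_IK h K) K

lemma abs_SS_le {B : ℝ} (hB : ∀ y, |G y| ≤ B) (K : ℝ) (x : ι → ℝ) : |SS K G x| ≤ B := by
  have := abs_IK_le (K := K) (F := fun y => G (K • x + y)) (MG.const B) fun y => hB _
  rwa [IK_const] at this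

lemma int_SS (hμ : Cp μ) (hK : 0 ≤ K) (h : MG G) :
    ∫ x, SS K G x ∂μ = IK K fun y => Mf K μ y * G y := by
  have := bayes hμ hK (Bs.const 1) h
  simpa only [Mf_eq, SS, one_mul] using this

lemma IK_abs_D (hμ : Cp μ) (hν : Cp ν) (hK : 0 ≤ K) :
    IK K (fun y => |Mf K ν y - Mf K μ y|) ≤ √(D2 K μ ν) := by
  rw [D2_eq hμ hν hK]
  simpa only [abs_sub_comm (Mf K ν _)] using IK_abs_le_sqrt ((mg_Mf hμ hK).sub (mg_Mf hν hK))

/-- transfer of a smoothed bounded observable -/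
lemma transfer (hμ : Cp μ) (hν : Cp ν) (hK : 0 ≤ K) (h : MG G) {B : ℝ} (hB : ∀ y, |G y| ≤ B) :
    ∫ x, SS K G x ∂ν ≤ ∫ x, SS K G x ∂μ + B * √(D2 K μ ν) := by
  have B0 : 0 ≤ B := (abs_nonneg _).trans (hB 0)
  have a := mg_Mf hμ hK
  have b := mg_Mf hν hK
  rw [int_SS hμ hK h, int_SS hν hK h, ← sub_le_iff_le_add', ← IK_sub (b.mul h) (a.mul h)]
  refine le_trans (IK_mono ((b.mul h).sub (a.mul h)) ((b.sub a).abs.const_mul B) fun y => ?_) ?_
  · rw [← sub_mul, mul_comm B]
    exact (le_abs_self _).trans ((abs_mul _ _).trans_le (by gcongr; exact hB y))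
  · rw [IK_const_mul]
    exact mul_le_mul_of_nonneg_left (IK_abs_D hμ hν hK) B0

lemma Un_SS (hμ : Cp μ) (hK : 0 ≤ K) (h : MG G) (y : ι → ℝ) :
    Un K μ (SS K G) y = IK K fun y' => Mf (K + K) μ (y + y') * G y' := by
  have := swap hμ (add_nonneg hK hK) (Bs.const 1) h y K
  rw [Mf_eq, this, Un]
  refine integral_congr_ae (.of_forall fun x => ?_)
  simp only [one_mul, ew_add, mul_assoc, IK_const_mul]
  rw [mul_comm, SS, ← cmK hK]
  simp only [mul_comm (G _)]

/-- transfer of the square of a smoothed bounded observable -/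
lemma transfer_sq (hμ : Cp μ) (hν : Cp ν) (hK : 0 ≤ K) (h : MG G) {B : ℝ} (hB : ∀ y, |G y| ≤ B) :
    ∫ x, SS K G x ^ 2 ∂ν ≤ ∫ x, SS K G x ^ 2 ∂μ + B ^ 2 * √(D2 (K + K) μ ν) := by
  have B0 : 0 ≤ B := (abs_nonneg _).trans (hB 0)
  have h2 := add_nonneg hK hK
  have e : ∀ {ρ : Measure (ι → ℝ)}, Cp ρ →
      ∫ x, SS K G x ^ 2 ∂ρ = IK K fun y => Un K ρ (SS K G) y * G y := fun hρ => by
    rw [← bayes hρ hK (Bs.of_mg hρ (mg_SS h K)) h]
    simp only [sq, SS]
  have a := mg_Un hμ hK (Bs.of_mg hμ (mg_SS h K))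
  have b := mg_Un hν hK (Bs.of_mg hν (mg_SS h K))
  have c := ((mg_Mf hν h2).sub (mg_Mf hμ h2)).abs
  rw [e hμ, e hν, ← sub_le_iff_le_add', ← IK_sub (b.mul h) (a.mul h)]
  refine le_trans (IK_mono ((b.mul h).sub (a.mul h)) ((mg_IK c K).const_mul (B ^ 2))
    fun y => ?_) ?_
  · have a' := (mg_shift (mg_Mf hμ h2) y).mul h
    have b' := (mg_shift (mg_Mf hν h2) y).mul h
    have h1 : |Un K ν (SS K G) y - Un K μ (SS K G) y| ≤
        B * IK K fun y' => |Mf (K + K) ν (y + y') - Mf (K + K) μ (y + y')| := by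
      rw [Un_SS hμ hK h, Un_SS hν hK h, ← IK_sub b' a', ← IK_const_mul]
      refine abs_IK_le ((mg_shift c y).const_mul B) fun y' => ?_
      rw [← sub_mul, abs_mul, mul_comm B]
      gcongr; exact hB y'
    rw [← sub_mul]
    refine (le_abs_self _).trans ((abs_mul _ _).trans_le ?_)
    rw [sq, mul_assoc, mul_comm B]
    exact mul_le_mul h1 (hB y) (abs_nonneg _) ((abs_nonneg _).trans h1)
  · rw [IK_const_mul, IK_IK hK hK c]
    exact mul_le_mul_of_nonneg_left (IK_abs_D hμ hν h2) (sq_nonneg B)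

/-- the second stage of the channel -/
def PP (K : ℝ) (G : (ι → ℝ) → ℝ) (w : ι → ℝ) : ℝ := IK (K / 2) fun y => G ((1 / 2 : ℝ) • w + y)

lemma mg_PP (h : MG G) (K : ℝ) : MG (PP K G) := mg_smul (mg_IK h (K / 2)) (1 / 2)

lemma SS_PP (hK : 0 ≤ K) (h : MG G) (x : ι → ℝ) : SS (K + K) (PP K G) x = SS K G x := by
  have h2 : 0 ≤ K / 2 := by positivity
  have e : (1 / 2 : ℝ) * √(K + K) = √(K / 2) := by
    rw [show K / 2 = (1 / 2) ^ 2 * (K + K) by ring, sqrt_mul (by positivity), sqrt_sq (by norm_num)]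
  have := IK_IK h2 h2 (mg_shift h (K • x))
  rw [add_halves] at this
  rw [SS_eq K, ← this, SS, IK]
  refine integral_congr_ae (.of_forall fun z => ?_)
  simp only [PP, smul_add, smul_smul, e, add_assoc]
  rw [show (1 / 2 : ℝ) * (K + K) = K by ring]

/-! ### the smoothed posterior mean -/

/-- a vector as a linear form -/
def dual (v : ι → ℝ) : (ι → ℝ) →L[ℝ] ℝ := ∑ k, v k • ContinuousLinearMap.proj k

lemma dual_apply (v x : ι → ℝ) : dual v x = v ⬝ᵥ x := by simp [dual, dotProduct]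

lemma norm_dual_le {v : ι → ℝ} {M : ℝ} (h : ∀ k, |v k| ≤ M) (hM : 0 ≤ M) :
    ‖dual v‖ ≤ Fintype.card ι * M := by
  refine ContinuousLinearMap.opNorm_le_bound _ (by positivity) fun x => ?_
  rw [dual_apply, dotProduct, Real.norm_eq_abs]
  refine (abs_sum_le_sum_abs _ _).trans ?_
  calc ∑ k, |v k * x k| ≤ ∑ _k : ι, M * ‖x‖ := sum_le_sum fun k _ => by
        rw [abs_mul]; exact mul_le_mul (h k) (norm_le_pi_norm x k) (abs_nonneg _) hM
    _ = _ := by simp [mul_assoc]

lemma continuous_dual : Continuous (dual (ι := ι)) := by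
  unfold dual; fun_prop

variable {Ω : Type*} [Fintype Ω] {φ : Ω → ι → ℝ} {w u : Ω → ℝ}

lemma cont_cv (hw : Wt w) (φ : Ω → ι → ℝ) (s : ℝ) (u : Ω → ℝ) :
    Continuous fun y => covV (post φ w s y) u φ :=
  continuous_pi fun k => by
    have := (eg_cov (φ := φ) (I := Set.univ) hw u fun x => φ x k).cont
    rw [Set.univ_prod_univ, continuousOn_univ] at this
    exact this.comp (f := fun y : ι → ℝ => (s, y)) (by fun_prop)

lemma abs_cv_le (hw : Wt w) (hu : ∀ x, |u x| ≤ 1) (φ : Ω → ι → ℝ) (k : ι) :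
    |covV w u φ k| ≤ 2 * ∑ x, ∑ l, |φ x l| := by
  have h : ∀ x, |φ x k| ≤ ∑ x, ∑ l, |φ x l| := fun x =>
    (single_le_sum (f := fun l => |φ x l|) (fun _ _ => abs_nonneg _) (mem_univ k)).trans
      (single_le_sum (f := fun x => ∑ l, |φ x l|) (fun _ _ => by positivity) (mem_univ x))
  rw [covV, hw.cov_eq']
  refine hw.abs_mean_le fun x => ?_
  have h1 := hw.abs_mean_le h
  rw [abs_mul]
  refine (mul_le_of_le_one_left (abs_nonneg _) (hu x)).trans ((abs_sub _ _).trans ?_)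
  linarith [h x]

lemma hasFDerivAt_pm (hw : Wt w) (φ : Ω → ι → ℝ) (s : ℝ) (u : Ω → ℝ) (y : ι → ℝ) :
    HasFDerivAt (fun y => mean (post φ w s y) u) (dual (covV (post φ w s y) u φ)) y := by
  have hd : DifferentiableAt ℝ (fun y => mean (post φ w s y) u) y := by
    have h0 := (hw.post φ s y).pos.ne'
    simp only [mean, prob, post, dotProduct] at h0 ⊢
    fun_prop (disch := assumption)
  refine hd.hasFDerivAt.congr_fderiv ?_
  ext1 v
  have l : HasDerivAt (fun r : ℝ => y + r • v) v 0 := by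
    simpa using ((hasDerivAt_id (0 : ℝ)).smul_const v).const_add y
  have h1 := hd.hasFDerivAt.comp_hasDerivAt_of_eq 0 l (by simp)
  have h2 := df_mean (φ := φ) (I := Set.univ) hw u (fun r => (s, y + r • v)) (0, v) 0
    ((hasDerivAt_const _ s).prodMk l) (Set.mem_univ _)
  rw [h1.unique h2, dual_apply]
  simp [dotProduct]

/-- the gradient of the smoothed posterior mean -/
def VV (φ : Ω → ι → ℝ) (w u : Ω → ℝ) (K : ℝ) (x : ι → ℝ) : ι → ℝ :=
  fun k => K * SS K (fun y => covV (post φ w K y) u φ k) x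

lemma hg_SS (hw : Wt w) (hu : ∀ x, |u x| ≤ 1) (φ : Ω → ι → ℝ) (K : ℝ) :
    HG (SS K fun y => mean (post φ w K y) u) (VV φ w u K) := by
  set M := 2 * ∑ x, ∑ l, |φ x l|
  have M0 : 0 ≤ M := by positivity
  have hM : ∀ y k, |covV (post φ w K y) u φ k| ≤ M := fun y k => abs_cv_le (hw.post φ K y) hu φ k
  have cc := cont_cv hw φ K u
  have key : ∀ x, HasFDerivAt (SS K fun y => mean (post φ w K y) u) (dual (VV φ w u K x)) x := by
    intro x
    have hi : Integrable (fun z => K • dual (covV (post φ w K (K • x + √K • z)) u φ)) (gv ι) :=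
      Integrable.of_bound (((continuous_dual.comp (cc.comp (by fun_prop))).const_smul
        K).aestronglyMeasurable) (|K| * (Fintype.card ι * M)) (.of_forall fun z => by
          rw [norm_smul, Real.norm_eq_abs]
          exact mul_le_mul_of_nonneg_left (norm_dual_le (hM _) M0) (abs_nonneg K))
    have h := hasFDerivAt_integral_of_dominated_of_fderiv_le (μ := gv ι) (𝕜 := ℝ) (x₀ := x)
      (F := fun x z => mean (post φ w K (K • x + √K • z)) u)
      (F' := fun x z => K • dual (covV (post φ w K (K • x + √K • z)) u φ))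
      (bound := fun _ => |K| * (Fintype.card ι * M)) univ_mem
      (.of_forall fun x => ((mg_pm hw K u).affine (K • x) √K).meas.aestronglyMeasurable)
      ((mg_pm hw K u).affine (K • x) √K).int hi.aestronglyMeasurable
      (.of_forall fun z x _ => by
        rw [norm_smul, Real.norm_eq_abs]
        exact mul_le_mul_of_nonneg_left (norm_dual_le (hM _) M0) (abs_nonneg K))
      (integrable_const _)
      (.of_forall fun z x _ => by
        have l : HasFDerivAt (fun x : ι → ℝ => K • x + √K • z)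
            (K • ContinuousLinearMap.id ℝ (ι → ℝ)) x :=
          ((hasFDerivAt_id x).const_smul K).add_const _
        refine ((hasFDerivAt_pm hw φ K u _).comp x l).congr_fderiv ?_
        ext1 v; simp)
    refine h.congr_fderiv ?_
    ext1 v
    rw [ContinuousLinearMap.integral_apply hi, dual_apply, dotProduct]
    simp only [_root_.smul_apply, dual_apply, smul_eq_mul, dotProduct, mul_sum, VV, SS]
    rw [integral_finsetSum]
    · exact sum_congr rfl fun k _ => by
        rw [← integral_const_mul, ← integral_mul_const]; simp only [mul_assoc]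
    · exact fun k _ => ((((mg_pcov hw K u _).affine (K • x) √K).int.mul_const (v k)).const_mul K)
  refine ⟨abs_SS_le (fun y => (hw.post φ K y).abs_mean_le hu) K,
    continuous_iff_continuousAt.2 fun x => (key x).continuousAt,
    continuous_pi fun k => continuous_const.mul ?_, fun x x' θ hx => ?_⟩
  · refine continuous_of_dominated (bound := fun _ => M)
      (fun x => ((mg_pcov hw K u _).affine (K • x) √K).meas.aestronglyMeasurable)
      (fun x => .of_forall fun z => hM _ k) (integrable_const _) (.of_forall fun z => ?_)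
    exact (continuous_apply k).comp (cc.comp (by fun_prop))
  · have := (key (x θ)).comp_hasDerivAt θ hx
    rwa [dual_apply] at this

lemma sum_PP_le (hw : Wt w) (hu : ∀ x, |u x| ≤ 1) (φ : Ω → ι → ℝ) (hK : 0 < K) (y : ι → ℝ) :
    ∑ k, PP K (fun y => covV (post φ w K y) u φ k) y ^ 2 ≤ 2 / K := by
  have h2 : 0 < K / 2 := by positivity
  have m := mg_shift (mg_pm (φ := φ) hw K u) ((1 / 2 : ℝ) • y)
  have hb := IK_bessel h2.le m
  have e : ∀ k, IK (K / 2) (fun y' => y' k * mean (post φ w K ((1 / 2 : ℝ) • y + y')) u) =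
      K / 2 * PP K (fun y => covV (post φ w K y) u φ k) y := fun k => by
    simp only [IK, PP, Pi.smul_apply, smul_eq_mul, mul_assoc, integral_const_mul]
    rw [stein_post hw, ← mul_assoc, mul_self_sqrt h2.le]
  have h1 : IK (K / 2) (fun y' => mean (post φ w K ((1 / 2 : ℝ) • y + y')) u ^ 2) ≤ 1 := by
    exact (IK_mono (mg_sq m) (.const 1) fun y' =>
      (sq_le_one_iff_abs_le_one _).2 ((hw.post φ K _).abs_mean_le hu)).trans_eq (IK_const 1)
  simp only [e, mul_pow, ← mul_sum] at hb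
  rw [le_div_iff₀ hK]
  nlinarith [mul_le_mul_of_nonneg_left h1 h2.le]

lemma int_VV_le [Nonempty Ω] (hw : ∀ x, 0 < w x) (hu : ∀ x, |u x| ≤ 1) (φ : Ω → ι → ℝ)
    (hK : 0 < K) (hν : Cp ν) :
    ∫ x, VV φ w u K x ⬝ᵥ VV φ w u K x ∂ν ≤
      K ^ 2 * (slE φ w K fun _ y => covV (post φ w K y) u φ ⬝ᵥ covV (post φ w K y) u φ) +
        2 * K * √(D2 (K + K) (dm w φ) ν) := by
  have hW := Wt.of_pos hw
  have hμ := Lnk10.cp_dm hw φ
  have h2 := add_nonneg hK.le hK.le
  have mc : ∀ k, MG fun y => covV (post φ w K y) u φ k := fun k => mg_pcov hW K u _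
  have mP : ∀ k, MG (PP K fun y => covV (post φ w K y) u φ k) := fun k => mg_PP (mc k) K
  set Q : (ι → ℝ) → ℝ := fun y => ∑ k, PP K (fun y => covV (post φ w K y) u φ k) y ^ 2 with hQ
  have mQ : MG Q := .sum _ fun k _ => mg_sq (mP k)
  have mN : MG fun y => covV (post φ w K y) u φ ⬝ᵥ covV (post φ w K y) u φ :=
    .sum _ fun k _ => (mc k).mul (mc k)
  have h1 : ∀ x, VV φ w u K x ⬝ᵥ VV φ w u K x ≤ K ^ 2 * SS (K + K) Q x := fun x => by
    rw [SS_eq, hQ, IK_sum _ fun k _ => mg_shift (mg_sq (mP k)) _, mul_sum]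
    refine sum_le_sum fun k _ => ?_
    rw [VV, ← sq, mul_pow, ← SS_PP hK.le (mc k), SS_eq]
    exact mul_le_mul_of_nonneg_left (IK_sq_le (mg_shift (mP k) _)) (sq_nonneg K)
  have h3 : ∀ y, Q y ≤ PP K (fun y => covV (post φ w K y) u φ ⬝ᵥ covV (post φ w K y) u φ) y :=
    fun y => by
    simp only [hQ, PP, dotProduct, ← sq]
    rw [IK_sum _ fun k _ => mg_shift (mg_sq (mc k)) _]
    exact sum_le_sum fun k _ => IK_sq_le (mg_shift (mc k) _)
  have h4 := transfer hμ hν h2 mQ (B := 2 / K) fun y => by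
    rw [abs_of_nonneg (sum_nonneg fun k _ => sq_nonneg _)]; exact sum_PP_le hW hu φ hK y
  have h5 : ∫ x, SS (K + K) Q x ∂dm w φ ≤
      slE φ w K fun _ y => covV (post φ w K y) u φ ⬝ᵥ covV (post φ w K y) u φ := by
    rw [Lnk10.integral_dm hW.nn]
    refine hW.mean_mono fun x => ?_
    refine le_trans ?_ (SS_PP hK.le mN (φ x)).le
    exact IK_mono (mg_shift mQ _) (mg_shift (mg_PP mN K) _) fun y => h3 _
  have mV : MG fun x => VV φ w u K x ⬝ᵥ VV φ w u K x :=
    .sum _ fun k _ => ((mg_SS (mc k) K).const_mul K).mul ((mg_SS (mc k) K).const_mul K)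
  refine (integral_mono ((Bs.of_mg hν mV).int hν)
    ((Bs.of_mg hν ((mg_SS mQ _).const_mul (K ^ 2))).int hν) h1).trans ?_
  rw [integral_const_mul]
  have e : 2 * K = K ^ 2 * (2 / K) := by field_simp
  rw [e, mul_assoc, ← mul_add]
  exact mul_le_mul_of_nonneg_left (by linarith) (sq_nonneg K)

/-- **transfer of a weak Poincaré inequality through the channel** -/
theorem smooth_wp [Nonempty Ω] (hw : ∀ x, 0 < w x) (hu : ∀ x, |u x| ≤ 1) (φ : Ω → ι → ℝ)
    (hK : 0 < K) (hν : Cp ν) {β κ : ℝ} (hβ : 0 ≤ β)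
    (h : ∀ F V, HG F V → ∃ m : ℝ, |m| ≤ 1 ∧
      ∫ x, (F x - m) ^ 2 ∂ν ≤ β * ∫ x, V x ⬝ᵥ V x ∂ν + κ) :
    var w u ≤ 2 * (slE φ w K fun _ y => var (post φ w K y) u) +
      2 * β * (K ^ 2 * slE φ w K fun _ y => covV (post φ w K y) u φ ⬝ᵥ covV (post φ w K y) u φ) +
        2 * κ + (8 + 4 * β * K) * √(D2 (K + K) (dm w φ) ν) := by
  have hW := Wt.of_pos hw
  have hμ := Lnk10.cp_dm hw φ
  have h2 := add_nonneg hK.le hK.le
  obtain ⟨m, hm, H⟩ := h _ _ (hg_SS hW hu φ K)
  have mp := mg_pm (φ := φ) hW K u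
  set F := SS K fun y => mean (post φ w K y) u with hF
  have e1 : ∀ x, F x - m = SS K (fun y => mean (post φ w K y) u - m) x := fun x => by
    rw [SS_eq, IK_sub (mg_shift mp _) (.const m), IK_const]; rfl
  have h1 := transfer_sq hν hμ hK.le (mp.sub (.const m)) (B := 2) fun y =>
    (abs_sub _ _).trans (by linarith [(hW.post φ K y).abs_mean_le hu])
  simp only [← e1] at h1
  rw [Lnk10.integral_dm hW.nn, show D2 (K + K) ν (dm w φ) = D2 (K + K) (dm w φ) ν by
    rw [D2, D2, Xk_comm hν hμ h2]; ring] at h1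
  have h3 := int_VV_le hw hu φ hK hν
  have h4 : (mean w fun x => (u x - F (φ x)) ^ 2) ≤ slE φ w K fun _ y => var (post φ w K y) u := by
    rw [← slE_var hW hK.le]
    refine hW.mean_mono fun x => ?_
    have := IK_sq_le (K := K) (mg_shift (mp.sub (.const (u x))) (K • φ x))
    rw [IK_sub (mg_shift mp _) (.const _), IK_const] at this
    rw [sub_sq_comm]
    exact this
  have h5 : var w u ≤ mean w fun x => (u x - m) ^ 2 := by
    have a : (mean w fun x => (u x - m) ^ 2) = var w u + (mean w u - m) ^ 2 := by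
      have b : ∀ x, (u x - m) ^ 2 = (u x - mean w u) ^ 2 + (2 * (mean w u - m) * u x +
          ((mean w u - m) ^ 2 - 2 * (mean w u - m) * mean w u)) := fun x => by ring
      simp only [b]
      rw [mean_add, mean_add, mean_const_mul, hW.mean_const]
      simp only [mean, var]; ring
    nlinarith [sq_nonneg (mean w u - m)]
  have h6 : (mean w fun x => (u x - m) ^ 2) ≤
      2 * (mean w fun x => (u x - F (φ x)) ^ 2) + 2 * mean w fun x => (F (φ x) - m) ^ 2 := by
    rw [← mean_const_mul, ← mean_const_mul, ← mean_add]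
    exact hW.mean_mono fun x => by nlinarith [sq_nonneg (u x - F (φ x) - (F (φ x) - m))]
  nlinarith [mul_le_mul_of_nonneg_left h3 hβ]

end Crest.Agent.T157.Wp

end
end

-- ▼ part T157/WpB_93
section

/-!
# Row 157, part C: `wpGlue : WPGlue` (helper93)
-/

set_option autoImplicit false
set_option linter.unusedSectionVars false

noncomputable section

namespace Crest.Agent.T157.Wp

open MeasureTheory ProbabilityTheory Matrix Filter Topology Finset Real
open Crest.ProbabilityR.SpinGlassDynamics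
open Crest.Agent.T157.E Crest.Agent.T157.St Crest.Agent.T157.SL Crest.Agent.T157.Ed
open Crest.Agent.T157.Top Crest.Agent.T157.Cond Crest.Agent.T157.Eig

section gen
variable {ι : Type*} [Fintype ι] [DecidableEq ι] {Ω : Type*} [Fintype Ω]

lemma post_smul (φ : Ω → ι → ℝ) (w : Ω → ℝ) {a K : ℝ} (ha : 0 ≤ a) (hK : 0 ≤ K) (x : Ω)
    (z : ι → ℝ) : post (fun x => a • φ x) w K (K • a • φ x + √K • z) =
      post φ w (K * a ^ 2) ((K * a ^ 2) • φ x + √(K * a ^ 2) • z) := by
  funext x'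
  rw [sqrt_mul hK, sqrt_sq ha]
  simp only [post, add_dotProduct, smul_dotProduct, dotProduct_smul, smul_eq_mul]
  congr 2; ring

lemma slE_var_smul (φ : Ω → ι → ℝ) (w u : Ω → ℝ) {a K : ℝ} (ha : 0 ≤ a) (hK : 0 ≤ K) :
    (slE (fun x => a • φ x) w K fun _ y => var (post (fun x => a • φ x) w K y) u) =
      slE φ w (K * a ^ 2) fun _ y => var (post φ w (K * a ^ 2) y) u := by
  simp only [slE, post_smul φ w ha hK]

lemma slE_cov_smul (φ : Ω → ι → ℝ) (w u : Ω → ℝ) {a K : ℝ} (ha : 0 ≤ a) (hK : 0 ≤ K) :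
    (slE (fun x => a • φ x) w K fun _ y => covV (post (fun x => a • φ x) w K y) u (fun x => a • φ x) ⬝ᵥ
        covV (post (fun x => a • φ x) w K y) u fun x => a • φ x) =
      a ^ 2 * slE φ w (K * a ^ 2) fun _ y =>
        covV (post φ w (K * a ^ 2) y) u φ ⬝ᵥ covV (post φ w (K * a ^ 2) y) u φ := by
  have e : ∀ v : Ω → ℝ, covV v u (fun x => a • φ x) = a • covV v u φ := fun v => by
    funext k; simp only [covV, Pi.smul_apply, smul_eq_mul, cov_const_mul]
  simp only [slE, post_smul φ w ha hK, e, smul_dotProduct, dotProduct_smul, smul_eq_mul,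
    integral_const_mul, mul_sum]
  exact sum_congr rfl fun x _ => by ring

lemma HG.orth {F : (ι → ℝ) → ℝ} {V : (ι → ℝ) → ι → ℝ} (h : HG F V) (O : Matrix ι ι ℝ) :
    HG (fun x => F (O *ᵥ x)) fun x => Oᵀ *ᵥ V (O *ᵥ x) := by
  have c : ∀ A : Matrix ι ι ℝ, Continuous fun x : ι → ℝ => A *ᵥ x := fun A => by fun_prop
  refine ⟨fun x => h.bdd _, h.cF.comp (c O), (c Oᵀ).comp (h.cV.comp (c O)), fun x x' θ hx => ?_⟩
  have h1 : HasDerivAt (fun s => O *ᵥ x s) (O *ᵥ x') θ :=
    hasDerivAt_pi.2 fun i => HasDerivAt.fun_sum fun j _ => (hasDerivAt_pi.1 hx j).const_mul (O i j)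
  have h2 := h.der _ _ θ h1
  rwa [dotProduct_mulVec, ← mulVec_transpose] at h2

end gen

theorem wpGlue : WPGlue := by
  intro hG hCl hS hC η ε hη hε
  have hL := lnkGlue sphStmt
  obtain ⟨C, -, hG⟩ := hG
  obtain ⟨L, w₁, hL0, hG⟩ := hG (ε / 4) (by positivity)
  obtain ⟨w₀, w, β, h0, h1, hβ, hS⟩ := hS L C w₁ (η / 8) hL0 (by positivity)
  obtain ⟨C₁, K, hK, hC⟩ := hC (η / (8 * (1 + β))) (ε / 4) (by positivity) (by positivity)
  set D := η / (4 * (8 + 4 * β * K)) with hD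
  have D0 : 0 < D := by positivity
  refine ⟨2 * (1 + β) * C₁, ?_⟩
  filter_upwards [hG _ h0, hG _ h1, hS, hC, eventually_ge_atTop 1,
    whp_iff.1 (hCl.2 (K + K) (D ^ 2) (by positivity) (by positivity)) (ε / 4) (by positivity)]
    with n g0 g1 hS hC hn hD2
  have split : ∀ A B : Set (Pair n → ℝ), disorderLaw n A ≤ disorderLaw n B + disorderLaw n (A \ B) :=
    fun A B => (measure_mono (Set.subset_sdiff_union A B)).trans ((measure_union_le _ _).trans_eq (add_comm _ _))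
  refine (split _ _).trans (((add_le_add hC ((Conv10.disorder_le
      (B := ({W | ¬ (W.IsHermitian ∧ Gd n (Lam n W) (sx n ^ 2) L w₀ C)} ∪
        {W | ¬ (W.IsHermitian ∧ Gd n (Lam n W) (sx n ^ 2) L w C)}) ∪
        {W | ¬ D2 (K + K) (muW n W) (nuW n W) ≤ D ^ 2}) ?_).trans
      ((measure_union_le _ _).trans (add_le_add ((measure_union_le _ _).trans
        (add_le_add g0 g1)) hD2)))).trans (le_of_eq ?_)))
  · rintro g ⟨⟨u, hu, hbad⟩, hc⟩ d
    by_contra hB
    simp only [Set.mem_union, Set.mem_ofPred_eq, not_or, not_not] at hB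
    obtain ⟨⟨⟨hW, G0⟩, -, G1⟩, hB⟩ := hB
    have hc' := not_lt.1 fun h => hc ⟨u, hu, h⟩
    have t0 : 0 < sx n ^ 2 := pow_pos (sx_pos hn) 2
    obtain ⟨O, hO, -, hν⟩ := (hL n hn).2.2.2.1 _ hW
    have cν := ((hL n hn).1 (Wmat n g d)).2.1
    have hO' : O * Oᵀ = 1 := mul_eq_one_comm.1 hO
    have mO : Measurable fun x : Fin n → ℝ => O *ᵥ x := by fun_prop
    have key := smooth_wp (gibbsWeight_pos 1 g) hu (hat n) hK cν hβ (κ := η / 8) fun F V h => by
      obtain ⟨m, hm, H⟩ := hS _ _ t0 G0 G1 _ _ (h.orth O)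
      refine ⟨m, hm, ?_⟩
      have cV : Continuous fun x => V x ⬝ᵥ V x := h.cV.dotProduct h.cV
      have cF : Continuous fun x => (F x - m) ^ 2 := (h.cF.sub continuous_const).pow 2
      rw [hν, integral_map mO.aemeasurable cF.aestronglyMeasurable,
        integral_map mO.aemeasurable cV.aestronglyMeasurable]
      refine H.trans_eq ?_
      simp only [Sph38.dot_orth (O := Oᵀ) (by rwa [transpose_transpose])]
    have a0 : 0 ≤ (sx n ^ 2)⁻¹ := by positivity
    have e1 : ((sx n ^ 2)⁻¹) ^ 2 = (Soft.N23 n)⁻¹ := by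
      rw [inv_pow, ← pow_mul, ← tau_eq]; rfl
    have e2 : hat n = fun x => (sx n ^ 2)⁻¹ • sv x := rfl
    have e3 : √(D2 (K + K) (dm (gibbsWeight n 1 g) (hat n)) (nuW n (Wmat n g d))) ≤ D := by
      rw [(hL n hn).2.2.1 g d] at hB
      exact sqrt_le_iff.2 ⟨D0.le, hB⟩
    have e4 : (8 + 4 * β * K) * D = η / 4 := by rw [hD]; field_simp
    have e5 : 2 * (1 + β) * (η / (8 * (1 + β))) = η / 4 := by field_simp; ring
    have k2 := mul_le_mul_of_nonneg_left e3 (show 0 ≤ 8 + 4 * β * K by positivity)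
    conv_rhs at key => rw [e2, slE_var_smul _ _ _ a0 hK.le, slE_cov_smul _ _ _ a0 hK.le, e1,
      ← div_eq_mul_inv, ← mul_assoc (K ^ 2), ← div_eq_mul_inv]
    have hW := Wt.of_pos (gibbsWeight_pos (n := n) 1 g)
    have v0 : 0 ≤ eV n g (K / Soft.N23 n) u :=
      hW.mean_nonneg fun x => integral_nonneg fun z => (hW.post _ _ _).var_nonneg u
    have c0 : 0 ≤ K ^ 2 / Soft.N23 n * eC n g (K / Soft.N23 n) u :=
      mul_nonneg (by positivity)
        (hW.mean_nonneg fun x => integral_nonneg fun z => SL.dot_self_nonneg _)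
    have k3 := mul_le_mul_of_nonneg_left hc' (show 0 ≤ 2 * (1 + β) by positivity)
    rw [gibbsVar_eq] at hbad
    simp only [eV, eC] at k3 v0 c0
    rw [← e2] at key
    nlinarith [mul_nonneg hβ v0]
  · rw [← ENNReal.ofReal_add (by positivity) (by positivity),
      ← ENNReal.ofReal_add (by positivity) (by positivity),
      ← ENNReal.ofReal_add (by positivity) (by positivity)]
    congr 1; ring

end Crest.Agent.T157.Wp

end
end

-- ▼ part T157/WpChart_44
section

/-!
# Row 157, part C (helper44): one-coordinate charts of the sphere, `Wp.chartStmt`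
-/

set_option autoImplicit false

noncomputable section

namespace Crest.Agent.T157.Wp

open MeasureTheory ProbabilityTheory Matrix Filter Topology Finset Real
open scoped ENNReal
open Crest.Agent.T157.E Crest.Agent.T157.St

namespace Ch44

variable {ι : Type} [Fintype ι] [DecidableEq ι]

theorem mp_upd (μ : ι → Measure ℝ) [∀ k, IsProbabilityMeasure (μ k)] (j : ι) :
    MeasurePreserving (fun p : (ι → ℝ) × ℝ => Function.update p.1 j p.2)
      ((Measure.pi μ).prod (μ j)) (Measure.pi μ) := by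
  have hm : Measurable (fun p : (ι → ℝ) × ℝ => Function.update p.1 j p.2) := measurable_update'
  refine ⟨hm, (Measure.pi_eq fun s hs => ?_).symm⟩
  rw [Measure.map_apply hm (MeasurableSet.univ_pi hs)]
  have : (fun p : (ι → ℝ) × ℝ => Function.update p.1 j p.2) ⁻¹' (Set.univ.pi s) =
      (Set.univ.pi (Function.update s j Set.univ)) ×ˢ (s j) := by
    ext ⟨g, t⟩
    simp only [Set.mem_preimage, Set.mem_pi, Set.mem_univ, true_implies, Set.mem_prod]
    constructor
    · intro h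
      refine ⟨fun i => ?_, by simpa using h j⟩
      by_cases hi : i = j
      · subst hi; simp
      · simpa [Function.update_of_ne hi] using h i
    · rintro ⟨h1, h2⟩ i
      by_cases hi : i = j
      · subst hi; simpa using h2
      · simpa [Function.update_of_ne hi] using h1 i
  rw [this, Measure.prod_prod, Measure.pi_pi]
  rw [← Finset.mul_prod_erase Finset.univ (fun i => μ i (s i)) (Finset.mem_univ j),
    ← Finset.mul_prod_erase Finset.univ (fun i => μ i (Function.update s j Set.univ i))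
      (Finset.mem_univ j), Function.update_self, measure_univ, one_mul, mul_comm]
  congr 1
  exact Finset.prod_congr rfl fun i hi => by rw [Function.update_of_ne (ne_of_mem_erase hi)]

theorem pdf_bd (v : NNReal) (s : ℝ) : gaussianPDFReal 0 v s ≤ (√(2 * π * v))⁻¹ := by
  unfold gaussianPDFReal
  refine mul_le_of_le_one_right (by positivity) (exp_le_one_iff.2 ?_)
  exact div_nonpos_of_nonpos_of_nonneg (neg_nonpos.2 (sq_nonneg _)) (by positivity)

theorem one_lim {ψ : ℝ → ℝ} (hψ : Continuous ψ) {a : ℝ} (ha : 0 < a) (h0 : ∀ s ≤ a, ψ s = 0)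
    (q : ℝ) : Tendsto (fun ε => (∫ s in √q..√(q + ε), ψ s) / ε) (𝓝[>] 0)
      (𝓝 (ψ √q / (2 * √q))) := by
  rcases le_or_gt q 0 with hq | hq
  · rw [sqrt_eq_zero'.2 hq, mul_zero, div_zero]
    refine tendsto_const_nhds.congr' ?_
    filter_upwards [Ioo_mem_nhdsGT (by positivity : 0 < a ^ 2)] with ε hε
    have h1 : √(q + ε) ≤ a := sqrt_le_iff.2 ⟨ha.le, by linarith [hε.2]⟩
    rw [intervalIntegral.integral_congr (g := fun _ => 0) fun s hs => h0 s ?_]
    · simp
    · rw [Set.uIcc_of_le (sqrt_nonneg _)] at hs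
      exact hs.2.trans h1
  · have h1 : HasDerivAt (fun ε : ℝ => √(q + ε)) (1 / (2 * √(q + 0))) 0 :=
      ((hasDerivAt_id' (0 : ℝ)).const_add q).sqrt (by linarith)
    have h2 : HasDerivAt (fun v => ∫ s in √q..v, ψ s) (ψ √(q + 0)) √(q + 0) :=
      (hψ.integral_hasStrictDerivAt _ _).hasDerivAt
    have h3 := (h2.comp 0 h1).tendsto_slope_zero_right
    simp only [add_zero, zero_add, Function.comp, intervalIntegral.integral_same, sub_zero,
      smul_eq_mul] at h3
    rw [mul_one_div] at h3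
    exact h3.congr fun ε => by rw [div_eq_inv_mul]

theorem one_bd {ψ : ℝ → ℝ} {a M : ℝ} (ha : 0 < a) (hM : 0 ≤ M) (h0 : ∀ s ≤ a, ψ s = 0)
    (hb : ∀ s, |ψ s| ≤ M) (q : ℝ) {ε : ℝ} (hε : 0 < ε) :
    |(∫ s in √q..√(q + ε), ψ s) / ε| ≤ M / a := by
  have hle : √q ≤ √(q + ε) := sqrt_le_sqrt (by linarith)
  rcases le_or_gt √(q + ε) a with h | h
  · rw [intervalIntegral.integral_congr (g := fun _ => 0) fun s hs => h0 s ?_]
    · simp only [intervalIntegral.integral_zero, zero_div, abs_zero]; positivity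
    · rw [Set.uIcc_of_le hle] at hs
      exact hs.2.trans h
  · have h1 := intervalIntegral.norm_integral_le_of_norm_le_const (a := √q) (b := √(q + ε))
      (f := ψ) (C := M) fun s _ => hb s
    rw [Real.norm_eq_abs, abs_of_nonneg (sub_nonneg.2 hle)] at h1
    have h2 : √(q + ε) ^ 2 = q + ε := sq_sqrt (sqrt_pos.1 (ha.trans h)).le
    have h3 : q ≤ √q ^ 2 := by rw [sq_sqrt']; exact le_max_left _ _
    have h4 : (√(q + ε) - √q) * a ≤ ε := by
      nlinarith [mul_le_mul_of_nonneg_left (h.le.trans (le_add_of_nonneg_right (sqrt_nonneg q)))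
        (sub_nonneg.2 hle)]
    rw [abs_div, abs_of_pos hε, div_le_div_iff₀ hε ha]
    nlinarith [mul_le_mul_of_nonneg_right h1 ha.le, mul_le_mul_of_nonneg_left h4 hM]

theorem inner_eq {F : (ι → ℝ) → ℝ} {i : ι} {a : ℝ} (ha : 0 < a) (h0 : ∀ x, x i ≤ a → F x = 0)
    {v : NNReal} (hv : v ≠ 0) (t : ℝ) {ε : ℝ} (hε : 0 < ε) (b : ι → ℝ) :
    ∫ s, (shell t ε).indicator F (Function.update b i s) ∂gaussianReal 0 v =
      ∫ s in √(qq t i b)..√(qq t i b + ε), gaussianPDFReal 0 v s * F (Function.update b i s) := by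
  rw [integral_gaussianReal_eq_integral_smul hv,
    intervalIntegral.integral_of_le (sqrt_le_sqrt (by linarith)), ← integral_Icc_eq_integral_Ioc,
    ← integral_indicator measurableSet_Icc]
  refine integral_congr_ae (.of_forall fun s => ?_)
  rcases le_or_gt s a with h | h
  · have h1 : F (Function.update b i s) = 0 := h0 _ (by simpa using h)
    simp [Set.indicator, h1]
  · have hs : 0 < s := ha.trans h
    have e : Function.update b i s ∈ (shell t ε : Set (ι → ℝ)) ↔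
        s ∈ Set.Icc √(qq t i b) √(qq t i b + ε) := by
      rw [Set.mem_Icc, sqrt_le_left hs.le, le_sqrt' hs]
      simp only [shell, Set.mem_ofPred_eq, Two90.dot_update, qq]
      constructor <;> rintro ⟨h1, h2⟩ <;> constructor <;> linarith
    by_cases hp : s ∈ Set.Icc √(qq t i b) √(qq t i b + ε)
    · simp only [Set.indicator_of_mem (e.2 hp), Set.indicator_of_mem hp, smul_eq_mul]
    · simp only [Set.indicator_of_notMem (fun h' => hp (e.1 h')), Set.indicator_of_notMem hp,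
        smul_zero]

/-- the density in the chart -/
def rho (v : NNReal) (t : ℝ) (i : ι) (b : ι → ℝ) : ℝ :=
  gaussianPDFReal 0 v √(qq t i b) / (2 * √(qq t i b))

theorem lim {c : ι → ℝ} (hc : ∀ k, 0 < c k) {F : (ι → ℝ) → ℝ} (hF : Continuous F) {M : ℝ}
    (hM : ∀ x, |F x| ≤ M) {i : ι} {a : ℝ} (ha : 0 < a) (h0 : ∀ x, x i ≤ a → F x = 0) (t : ℝ) :
    Tendsto (fun ε => (∫ x in shell t ε, F x ∂gs 0 c) / ε) (𝓝[>] 0)
      (𝓝 (∫ b, rho (c i).toNNReal t i b * F (lift t i b) ∂gs 0 c)) := by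
  have hv : (c i).toNNReal ≠ 0 := by simpa using hc i
  have hM0 : 0 ≤ M := (abs_nonneg _).trans (hM 0)
  have mp := mp_upd (fun k => gaussianReal ((0 : ι → ℝ) k) (c k).toNNReal) i
  have hI : ∀ ε, Integrable (fun p : (ι → ℝ) × ℝ => (shell t ε).indicator F
      (Function.update p.1 i p.2)) ((gs 0 c).prod (gaussianReal 0 (c i).toNNReal)) := fun ε =>
    mp.integrable_comp_of_integrable (g := (shell t ε).indicator F)
      ((Integrable.of_bound hF.aestronglyMeasurable M (.of_forall hM)).indicator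
        (Two90.ms_shell t ε))
  have e1 : ∀ ε, ∫ x in shell t ε, F x ∂gs 0 c = ∫ b, ∫ s, (shell t ε).indicator F
      (Function.update b i s) ∂gaussianReal 0 (c i).toNNReal ∂gs 0 c := fun ε => by
    rw [← integral_prod _ (hI ε), ← integral_indicator (Two90.ms_shell t ε)]
    have := integral_map (μ := (gs 0 c).prod (gaussianReal 0 (c i).toNNReal))
      mp.measurable.aemeasurable (f := (shell t ε).indicator F)
      (hF.measurable.indicator (Two90.ms_shell t ε)).aestronglyMeasurable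
    rw [← this]
    exact congrArg (fun μ => ∫ x, (shell t ε).indicator F x ∂μ) mp.map_eq.symm
  simp only [e1, ← integral_div (μ := gs 0 c)]
  have hψ : ∀ b : ι → ℝ, Continuous fun s =>
      gaussianPDFReal 0 (c i).toNNReal s * F (Function.update b i s) := fun b => by
    refine Continuous.mul ?_ (hF.comp (continuous_const.update i continuous_id))
    unfold gaussianPDFReal; fun_prop
  have hz : ∀ b : ι → ℝ, ∀ s ≤ a,
      gaussianPDFReal 0 (c i).toNNReal s * F (Function.update b i s) = 0 := fun b s hs => by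
    rw [h0 _ (by simpa using hs), mul_zero]
  refine tendsto_integral_filter_of_dominated_convergence
    (fun _ => (√(2 * π * (c i).toNNReal))⁻¹ * M / a) (.of_forall fun ε => ?_) ?_
    (integrable_const _) (.of_forall fun b => ?_)
  · exact ((hI ε).integral_prod_left.div_const ε).aestronglyMeasurable
  · filter_upwards [self_mem_nhdsWithin] with ε hε
    refine .of_forall fun b => ?_
    rw [inner_eq ha h0 hv t hε]
    refine one_bd ha (by positivity) (hz b) (fun s => ?_) _ hε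
    rw [abs_mul, abs_of_nonneg (gaussianPDFReal_nonneg _ _ _)]
    exact mul_le_mul (pdf_bd _ _) (hM _) (abs_nonneg _) (by positivity)
  · have h1 := one_lim (hψ b) ha (hz b) (qq t i b)
    rw [mul_div_right_comm] at h1
    refine h1.congr' ?_
    filter_upwards [self_mem_nhdsWithin] with ε hε
    rw [inner_eq ha h0 hv t hε]

/-- the cut-off -/
def chi (r s : ℝ) : ℝ := min 1 (max 0 (2 * s / r - 1))

theorem chi_cont (r : ℝ) : Continuous (chi r) := by unfold chi; fun_prop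
theorem chi_nonneg (r s : ℝ) : 0 ≤ chi r s := le_min zero_le_one (le_max_left _ _)
theorem chi_le (r s : ℝ) : chi r s ≤ 1 := min_le_left _ _
theorem chi_zero {r s : ℝ} (hr : 0 < r) (h : s ≤ r / 2) : chi r s = 0 := by
  have : 2 * s / r ≤ 1 := by rw [div_le_one hr]; linarith
  rw [chi, max_eq_left (by linarith), min_eq_right zero_le_one]
theorem chi_one {r s : ℝ} (hr : 0 < r) (h : r ≤ s) : chi r s = 1 := by
  have : 2 ≤ 2 * s / r := by rw [le_div_iff₀ hr]; linarith
  exact min_eq_left (le_max_of_le_right (by linarith))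

theorem cont_qq (t : ℝ) (i : ι) : Continuous (qq t i : (ι → ℝ) → ℝ) := by
  unfold qq dotProduct; fun_prop

theorem cont_lift (t : ℝ) (i : ι) : Continuous (lift t i : (ι → ℝ) → ι → ℝ) :=
  continuous_id.update i (cont_qq t i).sqrt

theorem meas_rho (v : NNReal) (t : ℝ) (i : ι) : Measurable (rho v t i) :=
  ((measurable_gaussianPDFReal 0 v).comp (cont_qq t i).sqrt.measurable).div
    ((cont_qq t i).sqrt.measurable.const_mul 2)

theorem rho_nonneg (v : NNReal) (t : ℝ) (i : ι) (b : ι → ℝ) : 0 ≤ rho v t i b :=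
  div_nonneg (gaussianPDFReal_nonneg _ _ _) (by positivity)

theorem chart {c : ι → ℝ} (hc : ∀ k, 0 < c k) {ν : Measure (ι → ℝ)} [IsFiniteMeasure ν] {t Z : ℝ}
    (hZ : 0 < Z) (h : ∀ F : (ι → ℝ) → ℝ, Continuous F →
      Tendsto (fun ε => (∫ x in shell t ε, F x ∂gs 0 c) / ε) (𝓝[>] 0) (𝓝 (Z * ∫ x, F x ∂ν)))
    (i : ι) {r : ℝ} (hr : 0 < r) {Φ : (ι → ℝ) → ℝ≥0∞} (hΦ : Measurable Φ) :
    ENNReal.ofReal Z * ∫⁻ x in {x | r ≤ x i}, Φ x ∂ν =
      ∫⁻ b in {b | r ≤ √(qq t i b)}, Φ (lift t i b) * ENNReal.ofReal (rho (c i).toNNReal t i b)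
        ∂gs 0 c := by
  have hli : ∀ b : ι → ℝ, lift t i b i = √(qq t i b) := fun b => Function.update_self _ _ _
  have m1 : Measurable fun x : ι → ℝ => ENNReal.ofReal (Z * chi r (x i)) :=
    (((chi_cont r).comp (continuous_apply i)).measurable.const_mul Z).ennreal_ofReal
  have m2 : Measurable fun b : ι → ℝ =>
      ENNReal.ofReal (rho (c i).toNNReal t i b * chi r √(qq t i b)) :=
    ((meas_rho _ t i).mul ((chi_cont r).comp (cont_qq t i).sqrt).measurable).ennreal_ofReal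
  have ml := (cont_lift t i).measurable
  have : IsFiniteMeasure (ν.withDensity fun x => ENNReal.ofReal (Z * chi r (x i))) :=
    isFiniteMeasure_withDensity_ofReal (HasFiniteIntegral.of_bounded (C := Z) (.of_forall fun x => by
      rw [Real.norm_eq_abs, abs_of_nonneg (mul_nonneg hZ.le (chi_nonneg _ _))]
      exact mul_le_of_le_one_right hZ.le (chi_le _ _)))
  have : IsFiniteMeasure ((gs 0 c).withDensity fun b =>
      ENNReal.ofReal (rho (c i).toNNReal t i b * chi r √(qq t i b))) :=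
    isFiniteMeasure_withDensity_ofReal (HasFiniteIntegral.of_bounded
      (C := (√(2 * π * (c i).toNNReal))⁻¹ / r) (.of_forall fun b => by
      rw [Real.norm_eq_abs, abs_of_nonneg (mul_nonneg (rho_nonneg _ _ _ _) (chi_nonneg _ _))]
      rcases le_or_gt √(qq t i b) (r / 2) with h1 | h1
      · rw [chi_zero hr h1, mul_zero]; positivity
      · exact (mul_le_of_le_one_right (rho_nonneg _ _ _ _) (chi_le _ _)).trans
          (div_le_div₀ (by positivity) (pdf_bd _ _) hr (by linarith))))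
  have key : (ν.withDensity fun x => ENNReal.ofReal (Z * chi r (x i))) =
      ((gs 0 c).withDensity fun b =>
        ENNReal.ofReal (rho (c i).toNNReal t i b * chi r √(qq t i b))).map (lift t i) := by
    refine ext_of_forall_integral_eq_of_IsFiniteMeasure fun f => ?_
    rw [integral_map ml.aemeasurable f.continuous.aestronglyMeasurable,
      integral_withDensity_eq_integral_toReal_smul m1 (.of_forall fun _ => ENNReal.ofReal_lt_top),
      integral_withDensity_eq_integral_toReal_smul m2 (.of_forall fun _ => ENNReal.ofReal_lt_top)]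
    have hF : Continuous fun x : ι → ℝ => chi r (x i) * f x :=
      ((chi_cont r).comp (continuous_apply i)).mul f.continuous
    have h1 := tendsto_nhds_unique (h _ hF) (lim hc hF (M := ‖f‖) (fun x => by
      rw [abs_mul, abs_of_nonneg (chi_nonneg _ _)]
      exact (mul_le_of_le_one_left (abs_nonneg _) (chi_le _ _)).trans (f.norm_coe_le_norm x))
      (i := i) (half_pos hr) (fun x hx => by rw [chi_zero hr hx, zero_mul]) t)
    simp only [ENNReal.toReal_ofReal (mul_nonneg hZ.le (chi_nonneg _ _)),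
      ENNReal.toReal_ofReal (mul_nonneg (rho_nonneg _ _ _ _) (chi_nonneg _ _)), smul_eq_mul,
      mul_assoc]
    rw [integral_const_mul, h1]
    simp only [hli]
  have hA : MeasurableSet {x : ι → ℝ | r ≤ x i} :=
    measurableSet_le measurable_const (measurable_pi_apply i)
  have hB : MeasurableSet {b : ι → ℝ | r ≤ √(qq t i b)} :=
    measurableSet_le measurable_const (cont_qq t i).sqrt.measurable
  have h2 := congrArg (fun μ => ∫⁻ x, {x : ι → ℝ | r ≤ x i}.indicator Φ x ∂μ) key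
  rw [lintegral_map (hΦ.indicator hA) ml, lintegral_withDensity_eq_lintegral_mul _ m1
    (hΦ.indicator hA), lintegral_withDensity_eq_lintegral_mul _ m2
    (f := _) (g := fun b => {x : ι → ℝ | r ≤ x i}.indicator Φ (lift t i b))
    ((hΦ.indicator hA).comp ml)] at h2
  rw [← lintegral_const_mul _ hΦ, ← lintegral_indicator hA, ← lintegral_indicator hB]
  refine Eq.trans (lintegral_congr fun x => ?_) (h2.trans (lintegral_congr fun b => ?_))
  · by_cases hx : r ≤ x i
    · simp [Set.indicator, hx, chi_one hr hx]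
    · simp [Set.indicator, hx]
  · by_cases hb : r ≤ √(qq t i b)
    · simp [Set.indicator, hli, hb, chi_one hr hb, mul_comm]
    · simp [Set.indicator, hli, hb]

end Ch44

theorem chartStmt : ChartStmt := by
  intro ι _ _ _ a w t ht ha
  obtain ⟨κ, hκ, H⟩ := Mgf32.exists_sh (ι := ι) shellStmt ht
  have hae : ∀ᵐ x ∂sphR ι √t, x ⬝ᵥ x = t := by
    simpa only [sq_sqrt ht.le] using Sph38.sphR_ae (ι := ι) √t
  have hJ : 0 < Mgf32.J (sphR ι √t) (fun k => w + a k) fun _ => 1 := by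
    unfold Mgf32.J
    simp only [one_mul]
    exact integral_exp_pos (Mgf32.intg hae (by fun_prop))
  have hP : 0 < ∏ k, √(w + a k) := Finset.prod_pos fun k _ => sqrt_pos.2 (ha k)
  have h2 : ∀ F : (ι → ℝ) → ℝ, Continuous F →
      Tendsto (fun ε => (∫ x in shell t ε, F x ∂gs 0 fun k => 1 / (w + a k)) / ε) (𝓝[>] 0)
        (𝓝 (κ * (∏ k, √(w + a k)) * Mgf32.J (sphR ι √t) (fun k => w + a k) (fun _ => 1) *
          ∫ x, F x ∂nuA a t)) := fun F hF => by
    have := H _ ha F hF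
    rw [nuA, Mgf32.tilt_eq hae a w, mul_assoc (κ * _), mul_div_cancel₀ _ hJ.ne']
    exact this
  refine ⟨_, by positivity, h2, fun i r hr Φ hΦ => ?_⟩
  have : IsFiniteMeasure (nuA a t) := by unfold nuA; infer_instance
  exact Ch44.chart (fun k => one_div_pos.2 (ha k)) (by positivity) h2 i hr hΦ

end Crest.Agent.T157.Wp

end
end

-- ▼ part T157/WpLoc_46
section

/-!
Row 157, part C (helper46): `Wp.LocStmt`, the local Poincaré inequality in a chart, by rotation.
-/

set_option autoImplicit false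

noncomputable section

namespace Crest.Agent.T157.Wp

open MeasureTheory ProbabilityTheory Matrix Finset Real
open scoped ENNReal NNReal
open Crest.Agent.T157.St

namespace Loc46

variable {ι : Type} [Fintype ι]

instance (m c : ι → ℝ) : IsProbabilityMeasure (gs m c) := by unfold gs; infer_instance

/-- rotation of a pair -/
def rot (θ : ℝ) (p : (ι → ℝ) × (ι → ℝ)) : (ι → ℝ) × (ι → ℝ) :=
  (cos θ • p.1 + sin θ • p.2, -sin θ • p.1 + cos θ • p.2)

theorem mp_rot1 (v : ℝ≥0) (θ : ℝ) : MeasurePreserving (ContinuousLinearMap.rotation θ)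
    ((gaussianReal 0 v).prod (gaussianReal 0 v)) ((gaussianReal 0 v).prod (gaussianReal 0 v)) :=
  ⟨by fun_prop, IsGaussian.map_rotation_eq_self (by simp) θ⟩

theorem mp_rot (c : ι → ℝ) (θ : ℝ) :
    MeasurePreserving (rot θ) ((gs 0 c).prod (gs 0 c)) ((gs 0 c).prod (gs 0 c)) := by
  have e := measurePreserving_arrowProdEquivProdArrow ℝ ℝ ι
    (fun k => gaussianReal 0 (c k).toNNReal) fun k => gaussianReal 0 (c k).toNNReal
  exact (e.comp (measurePreserving_pi _ _ fun k => mp_rot1 (c k).toNNReal θ)).comp e.symm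

theorem lint_sq {c : ι → ℝ} (hc : ∀ k, 0 < c k) (l : ι → ℝ) :
    ∫⁻ b, ENNReal.ofReal ((l ⬝ᵥ b) ^ 2) ∂gs 0 c = ENNReal.ofReal (∑ k, c k * l k ^ 2) := by
  have h1 : ∀ k, MemLp (fun x : ℝ => l k * x) 2 (gaussianReal 0 (c k).toNNReal) := fun k =>
    (memLp_id_gaussianReal 2).const_mul _
  have h2 := variance_sum_pi h1
  have h3 : ∀ k, MemLp (fun b : ι → ℝ => l k * b k) 2 (gs 0 c) := fun k =>
    (h1 k).comp_measurePreserving (measurePreserving_eval
      (fun k => gaussianReal 0 (c k).toNNReal) k)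
  have h4 : MemLp (fun b : ι → ℝ => l ⬝ᵥ b) 2 (gs 0 c) := memLp_finsetSum _ fun k _ => h3 k
  have h5 : ∫ b, l ⬝ᵥ b ∂gs 0 c = 0 := by
    simp only [dotProduct]
    rw [integral_finsetSum _ fun k _ => (h3 k).integrable one_le_two]
    refine sum_eq_zero fun k _ => ?_
    rw [integral_const_mul]
    have := integral_comp_eval (μ := fun k => gaussianReal 0 (c k).toNNReal) (i := k)
      (f := fun x : ℝ => x) (by fun_prop)
    rw [integral_id_gaussianReal] at this
    exact mul_eq_zero_of_right _ this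
  rw [← ofReal_integral_eq_lintegral_ofReal h4.integrable_sq (.of_forall fun _ => sq_nonneg _),
    ← variance_of_integral_eq_zero h4.aestronglyMeasurable.aemeasurable h5]
  congr 1
  refine Eq.trans ?_ (h2.trans (sum_congr rfl fun k _ => ?_))
  · congr 1
    funext b
    simp [dotProduct]
  · rw [variance_const_mul, variance_fun_id_gaussianReal, Real.coe_toNNReal _ (hc k).le, mul_comm]

theorem sq_ftc {φ φ' : ℝ → ℝ} (hd : ∀ θ, HasDerivAt φ (φ' θ) θ) (hc : Continuous φ') {L : ℝ}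
    (hL : 0 < L) : ENNReal.ofReal ((φ 0 - φ L) ^ 2) ≤
      ENNReal.ofReal L * ∫⁻ θ in Set.Ioc 0 L, ENNReal.ofReal (φ' θ ^ 2) := by
  have h1 := intervalIntegral.integral_eq_sub_of_hasDerivAt (a := 0) (b := L)
    (fun θ _ => hd θ) (hc.intervalIntegrable _ _)
  have i2 : IntervalIntegrable (fun θ => φ' θ ^ 2) volume 0 L :=
    (hc.pow 2).intervalIntegrable _ _
  set A := φ L - φ 0 with hA
  have h2 : 0 ≤ ∫ θ in (0 : ℝ)..L, (φ' θ ^ 2 - 2 * (A / L) * φ' θ + (A / L) ^ 2) :=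
    intervalIntegral.integral_nonneg hL.le fun θ _ => by nlinarith [sq_nonneg (φ' θ - A / L)]
  rw [intervalIntegral.integral_add (i2.sub ((hc.intervalIntegrable _ _).const_mul _))
    intervalIntegrable_const, intervalIntegral.integral_sub i2
    ((hc.intervalIntegrable _ _).const_mul _), intervalIntegral.integral_const_mul, h1,
    intervalIntegral.integral_const, smul_eq_mul, sub_zero] at h2
  rw [← ofReal_integral_eq_lintegral_ofReal i2.1 (.of_forall fun _ => sq_nonneg _),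
    ← intervalIntegral.integral_of_le hL.le, ← ENNReal.ofReal_mul hL.le]
  refine ENNReal.ofReal_le_ofReal ?_
  have h3 := mul_nonneg hL.le h2
  have h4 : L * ((∫ θ in (0 : ℝ)..L, φ' θ ^ 2) - 2 * (A / L) * A + L * (A / L) ^ 2) =
      L * (∫ θ in (0 : ℝ)..L, φ' θ ^ 2) - A ^ 2 := by field_simp; ring
  rw [h4] at h3
  rw [show (φ 0 - φ L) ^ 2 = A ^ 2 by rw [hA]; ring]
  linarith

variable [DecidableEq ι]

theorem qq_eq (t : ℝ) (i : ι) (b : ι → ℝ) : qq t i b = t - ∑ k ∈ univ.erase i, b k ^ 2 := by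
  rw [qq, dotProduct, ← add_sum_erase _ _ (mem_univ i)]
  simp only [sq]
  ring

/-- the scalar product off the coordinate `i` -/
def DD (i : ι) (b b' : ι → ℝ) : ℝ := Function.update b i 0 ⬝ᵥ b'

theorem dot_upd (i : ι) (b b' : ι → ℝ) (x : ℝ) :
    b' ⬝ᵥ Function.update b i x = b' i * x + ∑ k ∈ univ.erase i, b' k * b k := by
  rw [dotProduct, ← add_sum_erase _ _ (mem_univ i), Function.update_self]
  congr 1
  exact sum_congr rfl fun k hk => by rw [Function.update_of_ne (ne_of_mem_erase hk)]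

theorem DD_eq (i : ι) (b b' : ι → ℝ) : DD i b b' = ∑ k ∈ univ.erase i, b k * b' k := by
  rw [DD, dotProduct_comm, dot_upd, mul_zero, zero_add]
  simp only [mul_comm]

theorem sum_upd (c : ι → ℝ) (i : ι) (b : ι → ℝ) :
    ∑ k, c k * Function.update b i 0 k ^ 2 = UU c i b := by
  rw [UU, ← add_sum_erase _ _ (mem_univ i), Function.update_self]
  simp only [ne_eq, OfNat.ofNat_ne_zero, not_false_eq_true, zero_pow, mul_zero, zero_add]
  exact sum_congr rfl fun k hk => by rw [Function.update_of_ne (ne_of_mem_erase hk)]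

omit [DecidableEq ι] in
theorem cont_qq (t : ℝ) (i : ι) : Continuous (qq t i : (ι → ℝ) → ℝ) := by
  unfold qq dotProduct; fun_prop

theorem cont_lift (t : ℝ) (i : ι) : Continuous (lift t i : (ι → ℝ) → ι → ℝ) :=
  continuous_id.update i (cont_qq t i).sqrt

theorem meas_GG (c : ι → ℝ) (t : ℝ) (i : ι) (r R ρ : ℝ) : MeasurableSet (GG c t i r R ρ) := by
  have h1 := cont_qq t i
  have h2 : Continuous (UU c i : (ι → ℝ) → ℝ) := by unfold UU; fun_prop
  exact ((isClosed_le continuous_const h1).inter ((isClosed_le h1 continuous_const).inter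
    (isClosed_le h2 continuous_const))).measurableSet

/-- pairs joined by an arc inside the larger good region -/
def EE (c : ι → ℝ) (t : ℝ) (i : ι) (r R ρ : ℝ) : Set ((ι → ℝ) × (ι → ℝ)) :=
  {p | p.1 ∈ GG c t i r R ρ ∧ p.2 ∈ GG c t i r R ρ ∧ |DD i p.1 p.2| ≤ r / 2}

theorem meas_EE (c : ι → ℝ) (t : ℝ) (i : ι) (r R ρ : ℝ) : MeasurableSet (EE c t i r R ρ) := by
  have h : Continuous fun p : (ι → ℝ) × (ι → ℝ) => |DD i p.1 p.2| := by
    simp only [DD_eq]; fun_prop
  exact (measurable_fst (meas_GG c t i r R ρ)).inter ((measurable_snd (meas_GG c t i r R ρ)).inter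
    (isClosed_le h continuous_const).measurableSet)

variable {c : ι → ℝ} {t r R ρ : ℝ} {i : ι} {F : (ι → ℝ) → ℝ} {V : (ι → ℝ) → ι → ℝ}

theorem rot_mem (hc : ∀ k, 0 < c k) {p : (ι → ℝ) × (ι → ℝ)} (hp : p ∈ EE c t i r R ρ) (θ : ℝ) :
    (rot θ p).1 ∈ GG c t i (r / 2) (R + r / 2) (2 * ρ) := by
  obtain ⟨⟨a1, a2, a3⟩, ⟨b1, b2, b3⟩, d⟩ := hp
  have cs := cos_sq_add_sin_sq θ
  have e : qq t i (rot θ p).1 = cos θ ^ 2 * qq t i p.1 + sin θ ^ 2 * qq t i p.2 -
      2 * sin θ * cos θ * DD i p.1 p.2 := by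
    have : ∀ k, (rot θ p).1 k ^ 2 = cos θ ^ 2 * p.1 k ^ 2 + sin θ ^ 2 * p.2 k ^ 2 +
        2 * sin θ * cos θ * (p.1 k * p.2 k) := fun k => by
      simp only [rot, Pi.add_apply, Pi.smul_apply, smul_eq_mul]; ring
    simp only [qq_eq, DD_eq, this, sum_add_distrib, ← mul_sum]
    linear_combination (-t) * cs
  have h1 : |2 * sin θ * cos θ * DD i p.1 p.2| ≤ r / 2 := by
    rw [abs_mul, ← sin_two_mul]
    exact (mul_le_of_le_one_left (abs_nonneg _) (abs_sin_le_one _)).trans d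
  obtain ⟨h2, h3⟩ := abs_le.1 h1
  have c0 := sq_nonneg (cos θ)
  have s0 := sq_nonneg (sin θ)
  refine ⟨?_, ?_, ?_⟩
  · rw [e]; nlinarith [mul_le_mul_of_nonneg_left a1 c0, mul_le_mul_of_nonneg_left b1 s0]
  · rw [e]; nlinarith [mul_le_mul_of_nonneg_left a2 c0, mul_le_mul_of_nonneg_left b2 s0]
  · refine le_trans ?_ (by linarith : UU c i p.1 + UU c i p.2 ≤ 2 * ρ)
    simp only [UU, ← sum_add_distrib, ← mul_add]
    refine sum_le_sum fun k _ => mul_le_mul_of_nonneg_left ?_ (hc k).le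
    simp only [rot, Pi.add_apply, Pi.smul_apply, smul_eq_mul]
    nlinarith [sq_nonneg (sin θ * p.1 k - cos θ * p.2 k)]

/-- the gradient in the chart -/
def LL (V : (ι → ℝ) → ι → ℝ) (t : ℝ) (i : ι) (b : ι → ℝ) : ι → ℝ :=
  Function.update (fun k => V (lift t i b) k - b k * (V (lift t i b) i / √(qq t i b))) i 0

theorem LL_dot (b b' : ι → ℝ) : LL V t i b ⬝ᵥ b' = ∑ k ∈ univ.erase i,
    (V (lift t i b) k - b k * (V (lift t i b) i / √(qq t i b))) * b' k := DD_eq i _ b'

theorem der_path (h : HG F V) (p : (ι → ℝ) × (ι → ℝ)) (θ : ℝ) (hq : 0 < qq t i (rot θ p).1) :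
    HasDerivAt (fun s => F (lift t i (rot s p).1)) (LL V t i (rot θ p).1 ⬝ᵥ (rot θ p).2) θ := by
  have d1 : ∀ k, HasDerivAt (fun s => (rot s p).1 k) ((rot θ p).2 k) θ := fun k =>
    ((hasDerivAt_cos θ).mul_const (p.1 k)).add ((hasDerivAt_sin θ).mul_const (p.2 k))
  have d2 : HasDerivAt (fun s => qq t i (rot s p).1)
      (-∑ k ∈ univ.erase i, 2 * (rot θ p).1 k * (rot θ p).2 k) θ := by
    simp only [qq_eq]
    refine HasDerivAt.const_sub t (HasDerivAt.fun_sum fun k _ => ?_)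
    simpa using (d1 k).fun_pow 2
  have d3 : HasDerivAt (fun s => lift t i (rot s p).1) (Function.update (rot θ p).2 i
      ((-∑ k ∈ univ.erase i, 2 * (rot θ p).1 k * (rot θ p).2 k) / (2 * √(qq t i (rot θ p).1)))) θ := by
    refine hasDerivAt_pi.2 fun k => ?_
    by_cases hk : k = i
    · subst hk
      simp only [lift, Function.update_self]
      exact d2.sqrt hq.ne'
    · simp only [lift, Function.update_of_ne hk]
      exact d1 k
  refine (h.der _ _ θ d3).congr_deriv ?_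
  rw [dot_upd, LL_dot]
  simp only [sub_mul, sum_sub_distrib, mul_right_comm _ (_ / _), ← sum_mul]
  simp only [mul_assoc, ← mul_sum]
  have := (sqrt_pos.2 hq).ne'
  field_simp
  ring

/-- the squared speed, on the larger good region -/
def KK (V : (ι → ℝ) → ι → ℝ) (c : ι → ℝ) (t : ℝ) (i : ι) (r R ρ : ℝ)
    (p : (ι → ℝ) × (ι → ℝ)) : ℝ≥0∞ :=
  (GG c t i (r / 2) (R + r / 2) (2 * ρ)).indicator (fun _ => 1) p.1 *
    ENNReal.ofReal ((LL V t i p.1 ⬝ᵥ p.2) ^ 2)

theorem meas_KK (h : HG F V) : Measurable (KK V c t i r R ρ) := by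
  have h1 : ∀ k, Measurable fun b : ι → ℝ => V (lift t i b) k := fun k =>
    ((continuous_apply k).comp (h.cV.comp (cont_lift t i))).measurable
  have h2 := (cont_qq t i).measurable
  refine ((measurable_const.indicator (meas_GG _ _ _ _ _ _)).comp measurable_fst).mul ?_
  simp only [LL_dot]
  refine ENNReal.measurable_ofReal.comp (Measurable.pow_const (Finset.measurable_sum _
    fun k _ => ?_) 2)
  exact (((h1 k).sub ((measurable_pi_apply k).mul ((h1 i).div h2.sqrt))).comp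
    measurable_fst).mul ((measurable_pi_apply k).comp measurable_snd)

theorem path_le (hc : ∀ k, 0 < c k) (hr : 0 < r) (h : HG F V) {p : (ι → ℝ) × (ι → ℝ)}
    (hp : p ∈ EE c t i r R ρ) : ENNReal.ofReal ((F (lift t i p.1) - F (lift t i p.2)) ^ 2) ≤
      ENNReal.ofReal (π / 2) * ∫⁻ θ in Set.Ioc 0 (π / 2), KK V c t i r R ρ (rot θ p) := by
  have hq : ∀ θ, 0 < qq t i (rot θ p).1 := fun θ => (half_pos hr).trans_le (rot_mem hc hp θ).1
  have c0 : Continuous fun θ => rot θ p := by unfold rot; fun_prop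
  have c1 : ∀ k, Continuous fun θ => V (lift t i (rot θ p).1) k := fun k =>
    (continuous_apply k).comp (h.cV.comp ((cont_lift t i).comp c0.fst))
  have c2 : Continuous fun θ => LL V t i (rot θ p).1 ⬝ᵥ (rot θ p).2 := by
    simp only [LL_dot]
    refine continuous_finsetSum _ fun k _ => ((c1 k).sub (((continuous_apply k).comp c0.fst).mul
      ((c1 i).div ((cont_qq t i).comp c0.fst).sqrt fun θ => (sqrt_pos.2 (hq θ)).ne'))).mul
      ((continuous_apply k).comp c0.snd)
  have h1 := sq_ftc (fun θ => der_path h p θ (hq θ)) c2 (half_pos pi_pos)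
  have e0 : (rot 0 p).1 = p.1 := by simp [rot]
  have e1 : (rot (π / 2) p).1 = p.2 := by simp [rot]
  simp only [e0, e1] at h1
  simpa only [KK, Set.indicator_of_mem (rot_mem hc hp _), one_mul] using h1

theorem lint_KK (hc : ∀ k, 0 < c k) (hc1 : ∀ k, c k ≤ 1) (hr : 0 < r) (hρ : 0 ≤ ρ) (h : HG F V) :
    ∫⁻ p, KK V c t i r R ρ p ∂(gs 0 c).prod (gs 0 c) ≤ ENNReal.ofReal (2 * (1 + 4 * ρ / r)) *
      ∫⁻ b in GG c t i (r / 2) (R + r / 2) (2 * ρ),
        ENNReal.ofReal (V (lift t i b) ⬝ᵥ V (lift t i b)) ∂gs 0 c := by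
  rw [lintegral_prod _ (meas_KK h).aemeasurable,
    ← lintegral_const_mul' _ _ ENNReal.ofReal_ne_top, ← lintegral_indicator (meas_GG _ _ _ _ _ _)]
  refine lintegral_mono fun b => ?_
  by_cases hb : b ∈ GG c t i (r / 2) (R + r / 2) (2 * ρ)
  · simp only [KK, Set.indicator_of_mem hb, one_mul]
    rw [lint_sq hc, ← ENNReal.ofReal_mul (by positivity), LL, sum_upd]
    refine ENNReal.ofReal_le_ofReal ?_
    have hq : 0 < qq t i b := (half_pos hr).trans_le hb.1
    set v := V (lift t i b) with hv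
    have h1 : UU c i (fun k => v k - b k * (v i / √(qq t i b))) ≤
        2 * ∑ k ∈ univ.erase i, v k * v k + 2 * (v i / √(qq t i b)) ^ 2 * UU c i b := by
      simp only [UU, mul_sum, ← sum_add_distrib]
      refine sum_le_sum fun k _ => ?_
      have a1 := mul_le_mul_of_nonneg_right (hc1 k) (sq_nonneg (v k))
      have a2 := mul_nonneg (hc k).le (sq_nonneg (v k + b k * (v i / √(qq t i b))))
      nlinarith
    have h2 : (v i / √(qq t i b)) ^ 2 * UU c i b ≤ v i * v i * (4 * ρ / r) := by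
      rw [div_pow, sq_sqrt hq.le, div_mul_eq_mul_div, mul_div_assoc, sq]
      refine mul_le_mul_of_nonneg_left ?_ (mul_self_nonneg _)
      rw [div_le_div_iff₀ hq hr]
      have a1 := mul_le_mul_of_nonneg_right hb.2.2 hr.le
      have a2 := mul_le_mul_of_nonneg_left hb.1 hρ
      linarith
    have h3 : v ⬝ᵥ v = v i * v i + ∑ k ∈ univ.erase i, v k * v k := by
      rw [dotProduct, ← add_sum_erase _ _ (mem_univ i)]
    have h4 : 0 ≤ ∑ k ∈ univ.erase i, v k * v k := sum_nonneg fun _ _ => mul_self_nonneg _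
    have h5 : 0 ≤ 4 * ρ / r := by positivity
    rw [h3]
    nlinarith [mul_self_nonneg (v i), mul_nonneg h5 h4]
  · simp [KK, Set.indicator_of_notMem hb]

/-- the squared increment on `EE` -/
def HH (F : (ι → ℝ) → ℝ) (c : ι → ℝ) (t : ℝ) (i : ι) (r R ρ : ℝ) :
    (ι → ℝ) × (ι → ℝ) → ℝ≥0∞ :=
  (EE c t i r R ρ).indicator fun p => ENNReal.ofReal ((F (lift t i p.1) - F (lift t i p.2)) ^ 2)

theorem meas_HH (h : HG F V) : Measurable (HH F c t i r R ρ) := by
  have h1 := h.cF.comp (cont_lift t i)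
  exact (ENNReal.measurable_ofReal.comp (((h1.comp continuous_fst).sub
    (h1.comp continuous_snd)).pow 2).measurable).indicator (meas_EE _ _ _ _ _ _)

theorem lint_HH (hc : ∀ k, 0 < c k) (hr : 0 < r) (h : HG F V) :
    ∫⁻ p, HH F c t i r R ρ p ∂(gs 0 c).prod (gs 0 c) ≤
      ENNReal.ofReal 4 * ∫⁻ p, KK V c t i r R ρ p ∂(gs 0 c).prod (gs 0 c) := by
  have c0 : Continuous fun x : ((ι → ℝ) × (ι → ℝ)) × ℝ => rot x.2 x.1 := by unfold rot; fun_prop
  calc _ ≤ ∫⁻ p, ENNReal.ofReal (π / 2) * ∫⁻ θ in Set.Ioc 0 (π / 2), KK V c t i r R ρ (rot θ p)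
        ∂volume ∂(gs 0 c).prod (gs 0 c) := lintegral_mono fun p => by
        by_cases hp : p ∈ EE c t i r R ρ
        · rw [HH, Set.indicator_of_mem hp]; exact path_le hc hr h hp
        · rw [HH, Set.indicator_of_notMem hp]; exact zero_le
    _ = ENNReal.ofReal (π / 2) * (ENNReal.ofReal (π / 2) *
          ∫⁻ p, KK V c t i r R ρ p ∂(gs 0 c).prod (gs 0 c)) := by
        rw [lintegral_const_mul' _ _ ENNReal.ofReal_ne_top, lintegral_lintegral_swap
          (f := fun p θ => KK V c t i r R ρ (rot θ p))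
          ((meas_KK h).comp c0.measurable).aemeasurable]
        simp only [(mp_rot c _).lintegral_comp (meas_KK h)]
        rw [setLIntegral_const, Real.volume_Ioc, sub_zero, mul_comm (∫⁻ p, _ ∂_)]
    _ ≤ _ := by
        rw [← mul_assoc, ← ENNReal.ofReal_mul (by positivity)]
        gcongr
        nlinarith [pi_le_four, pi_pos]

theorem cheb (hc : ∀ k, 0 < c k) (hr : 0 < r) (h32 : 32 * ρ ≤ r ^ 2) {b : ι → ℝ}
    (hb : b ∈ GG c t i r R ρ) : gs 0 c {b' | r / 2 < |DD i b b'|} ≤ ENNReal.ofReal (1 / 8) := by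
  have hm : Measurable fun b' : ι → ℝ => ENNReal.ofReal ((Function.update b i 0 ⬝ᵥ b') ^ 2) := by
    unfold dotProduct; fun_prop
  have h1 := meas_ge_le_lintegral_div (μ := gs 0 c) hm.aemeasurable
    (ε := ENNReal.ofReal ((r / 2) ^ 2)) (by simpa using hr.ne') ENNReal.ofReal_ne_top
  rw [lint_sq hc, sum_upd, ← ENNReal.ofReal_div_of_pos (by positivity)] at h1
  refine (measure_mono fun b' hb' => ?_).trans (h1.trans (ENNReal.ofReal_le_ofReal ?_))
  · refine ENNReal.ofReal_le_ofReal ?_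
    rw [← sq_abs (_ ⬝ᵥ _)]
    exact pow_le_pow_left₀ (by positivity) (le_of_lt hb') 2
  · rw [div_le_iff₀ (by positivity)]
    linarith [hb.2.2]

theorem two_step (hc : ∀ k, 0 < c k) (hr : 0 < r) (h32 : 32 * ρ ≤ r ^ 2)
    (hG : gs 0 c (GG c t i r R ρ)ᶜ ≤ ENNReal.ofReal (1 / 4)) (h : HG F V) {b b'' : ι → ℝ}
    (hb : b ∈ GG c t i r R ρ) (hb'' : b'' ∈ GG c t i r R ρ) :
    ENNReal.ofReal ((F (lift t i b) - F (lift t i b'')) ^ 2) ≤
      4 * (∫⁻ b', HH F c t i r R ρ (b, b') ∂gs 0 c + ∫⁻ b', HH F c t i r R ρ (b'', b') ∂gs 0 c) := by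
  set A : Set (ι → ℝ) := {b' | (b, b') ∈ EE c t i r R ρ ∧ (b'', b') ∈ EE c t i r R ρ} with hA
  have h1 : gs 0 c Aᶜ ≤ 2⁻¹ := by
    have hs : Aᶜ ⊆ (GG c t i r R ρ)ᶜ ∪ ({b' | r / 2 < |DD i b b'|} ∪ {b' | r / 2 < |DD i b'' b'|}) := by
      intro b' hb'
      by_contra hn
      simp only [Set.mem_union, Set.mem_compl_iff, Set.mem_ofPred_eq, not_or, not_not,
        not_lt] at hn
      exact hb' ⟨⟨hb, hn.1, hn.2.1⟩, hb'', hn.1, hn.2.2⟩
    refine (measure_mono hs).trans ((measure_union_le _ _).trans ((add_le_add hG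
      ((measure_union_le _ _).trans (add_le_add (cheb hc hr h32 hb) (cheb hc hr h32 hb'')))).trans
      (le_of_eq ?_)))
    rw [← ENNReal.ofReal_add (by norm_num) (by norm_num), ← ENNReal.ofReal_add (by norm_num)
      (by norm_num), show (1 / 4 + (1 / 8 + 1 / 8) : ℝ) = 2⁻¹ by norm_num,
      ENNReal.ofReal_inv_of_pos two_pos, ENNReal.ofReal_ofNat]
  have h2 : 2⁻¹ ≤ gs 0 c A := by
    have := (measure_univ_le_add_compl (μ := gs 0 c) A).trans (add_le_add le_rfl h1)
    rw [measure_univ, ← ENNReal.inv_two_add_inv_two] at this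
    exact (ENNReal.add_le_add_iff_right (by simp)).1 this
  have m1 : ∀ x, Measurable fun b' => HH F c t i r R ρ (x, b') := fun x =>
    (meas_HH h).comp measurable_prodMk_left
  have h3 : ENNReal.ofReal ((F (lift t i b) - F (lift t i b'')) ^ 2) * gs 0 c A ≤
      2 * (∫⁻ b', HH F c t i r R ρ (b, b') ∂gs 0 c + ∫⁻ b', HH F c t i r R ρ (b'', b') ∂gs 0 c) := by
    rw [← setLIntegral_const, ← lintegral_add_left (m1 b), ← lintegral_const_mul' _ _ (by simp)]
    refine (setLIntegral_mono (((m1 b).add (m1 b'')).const_mul 2) fun b' hb' => ?_).trans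
      (setLIntegral_le_lintegral _ _)
    rw [Pi.add_apply, HH, Set.indicator_of_mem hb'.1, Set.indicator_of_mem hb'.2,
      ← ENNReal.ofReal_add (sq_nonneg _) (sq_nonneg _), ← ENNReal.ofReal_ofNat,
      ← ENNReal.ofReal_mul (by norm_num)]
    refine ENNReal.ofReal_le_ofReal ?_
    nlinarith [sq_nonneg (F (lift t i b) + F (lift t i b'') - 2 * F (lift t i b'))]
  calc _ = 2 * (ENNReal.ofReal ((F (lift t i b) - F (lift t i b'')) ^ 2) * 2⁻¹) := by
        rw [mul_left_comm, ENNReal.mul_inv_cancel (by simp) (by simp), mul_one]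
    _ ≤ 2 * (2 * _) := mul_le_mul_right ((mul_le_mul_right h2 _).trans h3) _
    _ = _ := by rw [← mul_assoc]; norm_num

end Loc46

open Loc46 in
theorem locStmt : LocStmt := by
  intro ι _ _ c t i r R ρ hc hc1 hr hρ h32 hG F V h
  have hm : Measurable fun b => ∫⁻ b', HH F c t i r R ρ (b, b') ∂gs 0 c :=
    (meas_HH h).lintegral_prod_right'
  have h0 : gs 0 c (GG c t i r R ρ) ≠ 0 := by
    intro h0
    have := (measure_univ_le_add_compl (μ := gs 0 c) (GG c t i r R ρ)).trans (add_le_add h0.le hG)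
    rw [measure_univ, zero_add, ← ENNReal.ofReal_one,
      ENNReal.ofReal_le_ofReal_iff (by norm_num)] at this
    norm_num at this
  obtain ⟨b'', hb'', h1⟩ := exists_le_setLAverage h0 (measure_ne_top _ _) hm.aemeasurable
  rw [setLAverage_eq, ENNReal.le_div_iff_mul_le (Or.inl h0) (Or.inl (measure_ne_top _ _))] at h1
  refine ⟨F (lift t i b''), h.bdd _, ?_⟩
  have h2 : ∫⁻ b in GG c t i r R ρ, ∫⁻ b', HH F c t i r R ρ (b, b') ∂gs 0 c ∂gs 0 c ≤
      ∫⁻ p, HH F c t i r R ρ p ∂(gs 0 c).prod (gs 0 c) := by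
    rw [lintegral_prod _ (meas_HH h).aemeasurable]
    exact setLIntegral_le_lintegral _ _
  have h3 := h2.trans ((lint_HH hc hr h).trans (mul_le_mul_right (lint_KK hc hc1 hr hρ h) _))
  refine (setLIntegral_mono' (meas_GG _ _ _ _ _ _) fun b hb =>
    two_step hc hr h32 hG h hb hb'').trans ?_
  rw [lintegral_const_mul _ (hm.add_const _), lintegral_add_right _ measurable_const,
    setLIntegral_const]
  refine (mul_le_mul_right (add_le_add h3 (h1.trans h3)) _).trans (le_of_eq ?_)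
  rw [← two_mul, ← mul_assoc, ← mul_assoc, ← mul_assoc, ← ENNReal.ofReal_ofNat 4,
    ← ENNReal.ofReal_ofNat 2, ← ENNReal.ofReal_mul (by norm_num), ← ENNReal.ofReal_mul (by norm_num),
    ← ENNReal.ofReal_mul (by norm_num)]
  congr 2
  ring

end Crest.Agent.T157.Wp

end
end

-- ▼ part T157/WpMass_84
section

/-!
# Row 157, part C: the charts carry the mass (`Wp.MassStmt`) (helper84)
-/

set_option autoImplicit false

noncomputable section

namespace Crest.Agent.T157.Wp

open MeasureTheory ProbabilityTheory Matrix Filter Topology Finset Real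
open scoped ENNReal
open Crest.Agent.T157.St Crest.Agent.T157.St.Mgf32

namespace Mass84

/-- the dominating sequence -/
def bb (k : ℕ) : ℝ := 256 / ((k : ℝ) + 1) ^ (2 / 3 : ℝ)

lemma bb_pos (k : ℕ) : 0 < bb k := by unfold bb; positivity

lemma summ_bb : Summable fun k => bb k ^ 2 := Den90.summ

lemma summ_min {v : ℝ} (hv : 0 ≤ v) : Summable fun k => min v (bb k) * bb k :=
  summ_bb.of_nonneg_of_le (fun k => mul_nonneg (le_min hv (bb_pos k).le) (bb_pos k).le)
    fun k => by rw [sq]; exact mul_le_mul_of_nonneg_right (min_le_right _ _) (bb_pos k).le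

lemma exists_v {σ : ℝ} (hσ : 0 < σ) : ∃ v : ℝ, 0 < v ∧ ∑' k, min v (bb k) * bb k ≤ σ := by
  have h : Tendsto (fun v : ℝ => ∑' k, min v (bb k) * bb k) (𝓝[>] 0) (𝓝 (∑' _ : ℕ, (0 : ℝ))) := by
    refine tendsto_tsum_of_dominated_convergence (bound := fun k => bb k ^ 2) summ_bb
      (fun k => ?_) ?_
    · have hc : Continuous fun v : ℝ => min v (bb k) * bb k := by fun_prop
      have := hc.tendsto 0
      rw [min_eq_left (bb_pos k).le, zero_mul] at this
      exact this.mono_left nhdsWithin_le_nhds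
    · filter_upwards [self_mem_nhdsWithin] with v hv k
      have hv' : (0 : ℝ) < v := hv
      rw [Real.norm_of_nonneg (mul_nonneg (le_min hv'.le (bb_pos k).le) (bb_pos k).le), sq]
      exact mul_le_mul_of_nonneg_right (min_le_right _ _) (bb_pos k).le
  rw [tsum_zero] at h
  obtain ⟨v, h1, h2⟩ := ((h.eventually (ge_mem_nhds hσ)).and self_mem_nhdsWithin).exists
  exact ⟨v, h2, h1⟩

lemma markov {α : Type*} [MeasurableSpace α] {μ : Measure α} [IsFiniteMeasure μ] {f : α → ℝ}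
    (h0 : ∀ x, 0 ≤ f x) (hi : Integrable f μ) {a b : ℝ} (ha : 0 < a) (hb : ∫ x, f x ∂μ ≤ a * b) :
    μ {x | a ≤ f x} ≤ ENNReal.ofReal b := by
  have h := (mul_meas_ge_le_integral_of_nonneg (.of_forall h0) hi a).trans hb
  have h2 : μ.real {x | a ≤ f x} ≤ b := le_of_mul_le_mul_left h ha
  rw [← ofReal_measureReal]
  exact ENNReal.ofReal_le_ofReal h2

/-- the continuous cutoff -/
def cut (s u : ℝ) : ℝ := min 1 (max 0 (2 - |u| / s))

lemma cut_nonneg (s u : ℝ) : 0 ≤ cut s u := le_min zero_le_one (le_max_left _ _)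

lemma cont_cut (s : ℝ) : Continuous (cut s) := by unfold cut; fun_prop

lemma cut_one {s u : ℝ} (hs : 0 < s) (h : u ^ 2 < s ^ 2) : 1 ≤ cut s u := by
  have h1 : |u| ≤ s := abs_le_of_sq_le_sq' h.le hs.le |> fun h => abs_le.2 h
  have h2 : |u| / s ≤ 1 := (div_le_one hs).2 h1
  exact le_min le_rfl (le_max_of_le_right (by linarith))

lemma lint_cut {s a : ℝ} (hs : 0 < s) (ha : 1 ≤ a) :
    ∫⁻ u, ENNReal.ofReal (cut s u) ∂gaussianReal 0 (1 / a).toNNReal ≤
      ENNReal.ofReal (4 * s * a) := by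
  have ha0 : 0 < a := by linarith
  have hv : (1 / a).toNNReal ≠ 0 := by simp [ha0]
  calc _ ≤ ∫⁻ u, (Set.Icc (-(2 * s)) (2 * s)).indicator 1 u ∂gaussianReal 0 (1 / a).toNNReal := by
        refine lintegral_mono fun u => ?_
        by_cases hu : u ∈ Set.Icc (-(2 * s)) (2 * s)
        · rw [Set.indicator_of_mem hu]
          exact ENNReal.ofReal_le_one.2 (min_le_left _ _)
        · rw [Set.indicator_of_notMem hu]
          have h1 : 2 * s ≤ |u| := by
            by_contra h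
            exact hu (abs_le.1 (not_le.1 h).le)
          have h2 : 2 ≤ |u| / s := (le_div_iff₀ hs).2 h1
          have : cut s u = 0 := by
            unfold cut
            rw [max_eq_left (by linarith), min_eq_right zero_le_one]
          simp [this]
    _ = ∫⁻ u in Set.Icc (-(2 * s)) (2 * s), gaussianPDF 0 (1 / a).toNNReal u := by
        rw [lintegral_indicator_one measurableSet_Icc, gaussianReal_apply _ hv]
    _ ≤ ∫⁻ _ in Set.Icc (-(2 * s)) (2 * s), ENNReal.ofReal a := by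
        refine lintegral_mono fun u => ENNReal.ofReal_le_ofReal ?_
        unfold gaussianPDFReal
        rw [Real.coe_toNNReal _ (by positivity)]
        have h1 : exp (-(u - 0) ^ 2 / (2 * (1 / a))) ≤ 1 :=
          exp_le_one_iff.2 (div_nonpos_of_nonpos_of_nonneg (neg_nonpos.2 (sq_nonneg _))
            (by positivity))
        have h2 : (√(2 * π * (1 / a)))⁻¹ ≤ a := by
          refine (inv_le_comm₀ (by positivity) ha0).2 (le_sqrt_of_sq_le ?_)
          have h3 : a⁻¹ ≤ 1 := inv_le_one_of_one_le₀ ha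
          have h4 : 0 < a⁻¹ := inv_pos.2 ha0
          rw [one_div]
          nlinarith [pi_gt_three]
        calc _ ≤ (√(2 * π * (1 / a)))⁻¹ * 1 := by gcongr
          _ ≤ a := by rw [mul_one]; exact h2
    _ = _ := by
        rw [setLIntegral_const, Real.volume_Icc, ← ENNReal.ofReal_mul ha0.le]
        congr 1; ring

lemma up_cut {ι : Type} [Fintype ι] [DecidableEq ι] {S : Measure (ι → ℝ)} {t κ : ℝ}
    (h : Sh S t κ) {a : ι → ℝ} (ha : ∀ k, 0 < a k)
    {i j k : ι} (hij : i ≠ j) (hi : k ≠ i) (hj : k ≠ j) (hk : 1 ≤ a k) {s : ℝ} (hs : 0 < s) :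
    κ * (∏ k, √(a k)) * J S a (fun x => cut s (x k)) ≤ √(a i * a j) / 2 * (4 * s * a k) := by
  have hc1 : Continuous fun x : ι → ℝ => cut s (x k) := (cont_cut s).comp (continuous_apply k)
  refine h.up ha hc1 fun ε hε => ?_
  have hc : ∀ k, 0 < 1 / a k := fun k => one_div_pos.2 (ha k)
  have h1 := (twoStmt ι 0 (fun k => 1 / a k) hc i j hij (fun x => ENNReal.ofReal (cut s (x k)))
    (ENNReal.measurable_ofReal.comp hc1.measurable)
    (fun x u v => by simp [Function.update_of_ne hi, Function.update_of_ne hj]) t ε hε.le).1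
  have h2 : ∫⁻ x, ENNReal.ofReal (cut s (x k)) ∂gs 0 (fun k => 1 / a k) ≤
      ENNReal.ofReal (4 * s * a k) := by
    have h3 := (measurePreserving_eval (fun l : ι =>
      gaussianReal ((0 : ι → ℝ) l) (1 / a l).toNNReal) k).lintegral_comp
      (f := fun u : ℝ => ENNReal.ofReal (cut s u))
      (ENNReal.measurable_ofReal.comp (cont_cut s).measurable)
    exact h3.trans_le (lint_cut hs hk)
  have h4 := h1.trans (mul_le_mul_right h2 _)
  rw [two_c (ha i) (ha j), ← ENNReal.ofReal_mul (by positivity)] at h4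
  rw [integral_eq_lintegral_of_nonneg_ae (.of_forall fun x => cut_nonneg _ _)
    hc1.aestronglyMeasurable]
  have := ha k
  refine (ENNReal.toReal_le_of_le_ofReal (by positivity) h4).trans_eq (by ring)

lemma qq_eq {ι : Type*} [Fintype ι] [DecidableEq ι] (t : ℝ) (i : ι) (b : ι → ℝ) :
    qq t i b = t - ∑ l ∈ univ.erase i, b l ^ 2 := by
  unfold qq
  rw [dotProduct, ← add_sum_erase _ _ (mem_univ i)]
  simp only [sq]; ring

lemma UU_nonneg {ι : Type*} [Fintype ι] [DecidableEq ι] {c : ι → ℝ} (hc : ∀ k, 0 < c k) (i : ι)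
    (b : ι → ℝ) : 0 ≤ UU c i b := sum_nonneg fun k _ => mul_nonneg (hc k).le (sq_nonneg _)

lemma int_UU {ι : Type*} [Fintype ι] [DecidableEq ι] {c : ι → ℝ} (hc : ∀ k, 0 < c k) (i : ι)
    {μ : Measure (ι → ℝ)} (hi : ∀ k, Integrable (fun x : ι → ℝ => x k ^ 2) μ) {m : ι → ℝ}
    (hm : ∀ k, ∫ x, x k ^ 2 ∂μ ≤ m k) :
    Integrable (UU c i) μ ∧ ∫ x, UU c i x ∂μ ≤ ∑ k, c k * m k := by
  have h0 : ∀ k, 0 ≤ m k := fun k => (integral_nonneg fun x => sq_nonneg _).trans (hm k)
  refine ⟨integrable_finsetSum _ fun k _ => (hi k).const_mul _, ?_⟩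
  unfold UU
  rw [integral_finsetSum _ fun k _ => (hi k).const_mul _]
  refine le_trans (sum_le_sum fun k _ => ?_) (sum_le_sum_of_subset_of_nonneg (subset_univ _)
    fun k _ _ => mul_nonneg (hc k).le (h0 k))
  rw [integral_const_mul]
  exact mul_le_mul_of_nonneg_left (hm k) (hc k).le

end Mass84

open Mass84

theorem massStmt : MassStmt := by
  intro L C w₁ κ hL hκ
  obtain ⟨w₂, hw₂, HD⟩ := denStmt L C 0 0 hL
  obtain ⟨w₃, -, HC⟩ := coordGlue sphStmt shellStmt twoStmt denStmt L C 0 0 hL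
  set w₀ := max w₁ (max w₂ w₃) with hw₀
  have a1 : w₁ ≤ w₀ := le_max_left _ _
  have a2 : w₂ ≤ w₀ := (le_max_left _ _).trans (le_max_right _ _)
  have a3 : w₃ ≤ w₀ := (le_max_right _ _).trans (le_max_right _ _)
  obtain ⟨δ, hδ, HD⟩ := HD w₀ a2
  obtain ⟨B, δ', hB, -, HC⟩ := HC w₀ a3
  have a4 : 2 * L + 1 ≤ w₀ := hw₂.trans a2
  set M := w₀ + (180 + L) with hM
  have hM0 : 0 < M := by linarith
  set s := min 1 (κ * δ / (6 * M ^ 2)) with hs
  have s0 : 0 < s := lt_min one_pos (by positivity)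
  have s1 : s ≤ 1 := min_le_left _ _
  have s2 : s * (6 * M ^ 2) ≤ κ * δ := (le_div_iff₀ (by positivity)).1 (min_le_right _ _)
  set ρ := (s ^ 2) ^ 2 / 32 with hρ
  have ρ0 : 0 < ρ := by positivity
  have k0 := Den90.k4_nonneg
  set σ := min (κ * ρ / (3 * (B + 1))) (min (ρ / 8) (1 / (8 * (Den90.k4 + 1)))) with hσ
  have σ0 : 0 < σ := lt_min (by positivity) (lt_min (by positivity) (by positivity))
  have σ1 : σ * (3 * (B + 1)) ≤ κ * ρ := (le_div_iff₀ (by positivity)).1 (min_le_left _ _)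
  have σ2 : σ ≤ ρ / 8 := (min_le_right _ _).trans (min_le_left _ _)
  have σ3 : σ * (8 * (Den90.k4 + 1)) ≤ 1 :=
    (le_div_iff₀ (by positivity)).1 ((min_le_right _ _).trans (min_le_right _ _))
  obtain ⟨v, v0, hv⟩ := exists_v σ0
  set w := w₀ + 16 + 1 / v with hw
  have v1 : 0 < 1 / v := by positivity
  have hsw : 4 ≤ √w := le_sqrt_of_sq_le (by linarith)
  have hCw : 0 ≤ |C| * √w := by positivity
  have hBκ : 0 ≤ 3 * B / κ := by positivity
  set R := |C| * √w + 2 + 3 * B / κ with hR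
  have ss : s ^ 2 ≤ 1 := by nlinarith
  refine ⟨w₀, w, s ^ 2, R, ρ, a1, by linarith, by positivity, by linarith, ρ0.le,
    by rw [hρ]; linarith, ?_⟩
  filter_upwards [HD, HC, eventually_ge_atTop 24] with n HD HC hn η t ht G0 G i hi
  have : Nonempty (Fin n) := ⟨⟨0, by omega⟩⟩
  have hp : ∀ l : Fin n, 0 < ((l : ℝ) + 1) ^ (2 / 3 : ℝ) / 256 := fun l => by positivity
  have hlo : ∀ l : Fin n, ((l : ℝ) + 1) ^ (2 / 3 : ℝ) / 256 + 1 ≤ w₀ + η l := fun l => by
    have := G.lo l l.2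
    linarith
  have ha : ∀ l : Fin n, 0 < w₀ + η l := fun l => by linarith [hlo l, hp l]
  have hc : ∀ l, 0 < cw n η w l := fun l => one_div_pos.2 (by linarith [ha l])
  have hb0 : ∀ l : Fin n, 1 / (w₀ + η l) ≤ bb l := fun l => by
    unfold bb
    rw [← one_div_div (((l : ℝ) + 1) ^ (2 / 3 : ℝ)) 256]
    exact one_div_le_one_div_of_le (hp l) (by linarith [hlo l])
  have hb1 : ∀ l : Fin n, cw n η w l ≤ bb l := fun l =>
    (one_div_le_one_div_of_le (ha l) (by linarith)).trans (hb0 l)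
  have hb2 : ∀ l : Fin n, cw n η w l ≤ min v (bb l) := fun l => le_min (by
    have := one_div_le_one_div_of_le v1 (show 1 / v ≤ w + η l by linarith [ha l])
    rwa [one_div_one_div] at this) (hb1 l)
  have hsum : ∑ l : Fin n, cw n η w l * bb l ≤ σ := by
    calc _ ≤ ∑ l : Fin n, min v (bb l) * bb l :=
          sum_le_sum fun l _ => mul_le_mul_of_nonneg_right (hb2 l) (bb_pos l).le
      _ = ∑ k ∈ range n, min v (bb k) * bb k :=
          Fin.sum_univ_eq_sum_range (fun k : ℕ => min v (bb k) * bb k) n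
      _ ≤ _ := ((summ_min v0.le).sum_le_tsum _ fun k _ =>
          mul_nonneg (le_min v0.le (bb_pos k).le) (bb_pos k).le).trans hv
  constructor
  · obtain ⟨κ', hκ', sh⟩ := exists_sh (ι := Fin n) shellStmt ht
    obtain ⟨hpr, hae, -⟩ := (sphStmt (Fin n)).1 √t
    rw [sq_sqrt ht.le] at hae
    have hae' : ∀ᵐ x ∂nuD n η t, x ⬝ᵥ x = t := (tilted_absolutelyContinuous _ _).ae_le hae
    have : IsFiniteMeasure (nuD n η t) := by unfold nuD; infer_instance
    obtain ⟨j, k, hjk, hj, hk, hj2, hk2⟩ := exists_two hn i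
    have hs' : √((w₀ + η j) * (w₀ + η k)) ≤ M :=
      sqrt_mul_le (ha k).le (by linarith [eta_le G hn hj2]) (by linarith [eta_le G hn hk2])
    have hP : 0 < κ' * ∏ k : Fin n, √(w₀ + η k) :=
      mul_pos hκ' (prod_pos fun k _ => sqrt_pos.2 (ha k))
    have hden : δ ≤ κ' * (∏ k : Fin n, √(w₀ + η k)) * J (sphR (Fin n) √t) (fun k => w₀ + η k)
        fun _ => 1 := low_set sh ha continuous_const (fun _ => zero_le_one) (fun _ => le_rfl)
      MeasurableSet.univ (fun _ _ => rfl) fun ε h1 h2 => by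
        rw [Set.inter_univ]; exact (HD η t G0 ε h1 h2).1
    have hc1 : Continuous fun x : Fin n → ℝ => cut s (x i) :=
      (cont_cut s).comp (continuous_apply i)
    have e1 : ∫ x, cut s (x i) ∂nuD n η t ≤ 1 * (κ / 3) := by
      rw [nuD, tilt_eq hae (fun k => η k) w₀]
      have hi0 := ha i
      have hiM : w₀ + η i ≤ M := by linarith [eta_le G hn (show (i : ℕ) ≤ 2 by omega)]
      refine (ratio_le hP hδ (by positivity)
        (up_cut sh ha hjk hj hk (by linarith [hlo i, hp i]) s0) hden).trans ?_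
      calc _ ≤ M / 2 * (4 * s * M) / δ := by gcongr
        _ ≤ _ := by rw [div_le_iff₀ hδ]; nlinarith
    have m1 := markov (fun x : Fin n → ℝ => cut_nonneg s (x i)) (intg hae' hc1) one_pos e1
    have hi2 : ∀ k, Integrable (fun x : Fin n → ℝ => x k ^ 2) (nuD n η t) :=
      fun k => intg hae' (by fun_prop)
    have e2 : ∫ x, x i ^ 2 ∂nuD n η t ≤ R * (κ / 3) := by
      refine (HC η t ht G0 i).1.trans ((div_le_self hB (by linarith [hlo i, hp i])).trans ?_)
      have : 3 * B / κ * (κ / 3) = B := by field_simp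
      nlinarith
    have m2 := markov (fun x : Fin n → ℝ => sq_nonneg (x i)) (hi2 i) (by linarith) e2
    obtain ⟨u1, u2⟩ := int_UU hc i hi2 (m := fun k => B * bb k) fun k =>
      (HC η t ht G0 k).1.trans (by
        rw [div_eq_mul_one_div]; exact mul_le_mul_of_nonneg_left (hb0 k) hB)
    have e3 : ∫ x, UU (cw n η w) i x ∂nuD n η t ≤ ρ * (κ / 3) := by
      refine u2.trans ?_
      have : ∑ k : Fin n, cw n η w k * (B * bb k) = B * ∑ k : Fin n, cw n η w k * bb k := by
        rw [mul_sum]; exact sum_congr rfl fun k _ => by ring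
      rw [this]
      nlinarith [mul_le_mul_of_nonneg_left hsum hB]
    have m3 := markov (UU_nonneg hc i) u1 ρ0 e3
    have hsub : (GG (cw n η w) t i (s ^ 2) R ρ)ᶜ ≤ᵐ[nuD n η t]
        (({x | 1 ≤ cut s (x i)} ∪ {x | R ≤ x i ^ 2} ∪ {x | ρ ≤ UU (cw n η w) i x} :
          Set (Fin n → ℝ))) := by
      filter_upwards [hae'] with x hx hG
      have hq : qq t i x = x i ^ 2 := by unfold qq; rw [hx]; ring
      by_contra hn'
      have hn2 : ¬ (1 ≤ cut s (x i) ∨ R ≤ x i ^ 2) ∧ ¬ ρ ≤ UU (cw n η w) i x := not_or.1 hn'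
      refine hG ⟨?_, ?_, (not_le.1 hn2.2).le⟩
      · rw [hq]; by_contra h
        exact hn2.1 (Or.inl (cut_one s0 (not_le.1 h)))
      · rw [hq]; by_contra h
        exact hn2.1 (Or.inr (not_le.1 h).le)
    refine (measure_mono_ae hsub).trans ((measure_union_le _ _).trans ((add_le_add
      ((measure_union_le _ _).trans (add_le_add m1 m2)) m3).trans (le_of_eq ?_)))
    rw [← ENNReal.ofReal_add (by positivity) (by positivity),
      ← ENNReal.ofReal_add (by positivity) (by positivity)]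
    congr 1; ring
  · have hmp : ∀ l, MeasurePreserving (fun x : Fin n → ℝ => x l) (gs 0 (cw n η w))
        (gaussianReal ((0 : Fin n → ℝ) l) (cw n η w l).toNNReal) :=
      fun l => measurePreserving_eval _ l
    have hi2 : ∀ k, Integrable (fun x : Fin n → ℝ => x k ^ 2) (gs 0 (cw n η w)) := fun k =>
      ((Den90.memLp_sq _).comp_measurePreserving (hmp k)).integrable (by simp)
    obtain ⟨u1, u2⟩ := int_UU hc i hi2 (m := fun k => bb k) fun k => by
      have := (hmp k).hasLaw.integral_comp (f := fun x : ℝ => x ^ 2) (by fun_prop)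
      simp only [Function.comp_def] at this
      rw [this, Pi.zero_apply, Den90.int_sq, Real.coe_toNNReal _ (hc k).le]
      exact hb1 k
    have m3 := markov (UU_nonneg hc i) u1 ρ0 (b := 1 / 8) (u2.trans (hsum.trans (by linarith)))
    have m4 := Den90.cheb (cw n η w) hc (univ.erase i) one_pos
    have hsq : ∑ l, cw n η w l ^ 2 ≤ σ := le_trans (sum_le_sum fun l _ => by
      rw [sq]; exact mul_le_mul_of_nonneg_left (hb1 l) (hc l).le) hsum
    have m5 : Den90.k4 * (∑ l, cw n η w l ^ 2) / 1 ^ 2 ≤ 1 / 8 := by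
      have := mul_le_mul_of_nonneg_left hsq k0
      nlinarith
    have hS : ∑ l, cw n η w l = ∑ k ∈ range n, 1 / (w + η k) :=
      Fin.sum_univ_eq_sum_range (fun k => 1 / (w + η k)) n
    have hS' : ∑ l ∈ univ.erase i, cw n η w l = ∑ k ∈ range n, 1 / (w + η k) - cw n η w i := by
      rw [← hS, ← add_sum_erase _ _ (mem_univ i)]; ring
    have hup := G.up
    have hdn := G.dn w le_rfl
    unfold Sr at hup hdn
    have hC : C * √w ≤ |C| * √w := mul_le_mul_of_nonneg_right (le_abs_self C) (sqrt_nonneg _)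
    have hci : cw n η w i ≤ 1 :=
      (div_le_one (by linarith [ha i])).2 (by linarith [hlo i, hp i])
    have hsub : (GG (cw n η w) t i (s ^ 2) R ρ)ᶜ ⊆
        {x | 1 ≤ |∑ l ∈ univ.erase i, x l ^ 2 - ∑ l ∈ univ.erase i, cw n η w l|} ∪
          {x | ρ ≤ UU (cw n η w) i x} := by
      intro x hG
      by_contra hn'
      have hn2 : ¬ 1 ≤ |∑ l ∈ univ.erase i, x l ^ 2 - ∑ l ∈ univ.erase i, cw n η w l| ∧
        ¬ ρ ≤ UU (cw n η w) i x := not_or.1 hn'
      obtain ⟨b1, b2⟩ := abs_lt.1 (not_le.1 hn2.1)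
      have := hc i
      refine hG ⟨?_, ?_, (not_le.1 hn2.2).le⟩ <;> rw [qq_eq] <;> linarith
    refine (measure_mono hsub).trans ((measure_union_le _ _).trans ((add_le_add
      (m4.trans (ENNReal.ofReal_le_ofReal m5)) m3).trans (le_of_eq ?_)))
    rw [← ENNReal.ofReal_add (by positivity) (by positivity)]
    congr 1; ring

end Crest.Agent.T157.Wp

end
end

-- ▼ part T157/WpSph_85
section

/-!
# Row 157, part C: `SphWPGlue` (helper85): three charts give the weak Poincaré inequality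
-/

set_option autoImplicit false

noncomputable section

namespace Crest.Agent.T157.Wp

open MeasureTheory ProbabilityTheory Matrix Filter Topology Finset Real
open scoped ENNReal
open Crest.Agent.T157.E Crest.Agent.T157.St

namespace Sph85

/-! ### patching -/

section patch
variable {α : Type*} [MeasurableSpace α] {ν : Measure α} [IsProbabilityMeasure ν] {F : α → ℝ}

lemma sq_le_four {a m : ℝ} (ha : |a| ≤ 1) (hm : |m| ≤ 1) : (a - m) ^ 2 ≤ 4 := by
  have h1 := abs_le.1 ha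
  have h2 := abs_le.1 hm
  nlinarith

lemma int_sq (hF : Measurable F) (hb : ∀ x, |F x| ≤ 1) {m : ℝ} (hm : |m| ≤ 1) :
    Integrable (fun x => (F x - m) ^ 2) ν :=
  Fin85.int_bdd ((hF.sub_const m).pow_const 2) (A := 4) fun x => by
    rw [abs_of_nonneg (sq_nonneg _)]; exact sq_le_four (hb x) hm

lemma mean_close (hF : Measurable F) (hb : ∀ x, |F x| ≤ 1) {m m' X : ℝ} (hm : |m| ≤ 1)
    (hm' : |m'| ≤ 1) {A A' : Set α} (h8 : 1 / 8 ≤ ν.real (A ∩ A'))
    (h1 : ∫ x in A, (F x - m) ^ 2 ∂ν ≤ X) (h2 : ∫ x in A', (F x - m') ^ 2 ∂ν ≤ X) :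
    (m - m') ^ 2 ≤ 32 * X := by
  have i1 := int_sq (ν := ν) hF hb hm
  have i2 := int_sq (ν := ν) hF hb hm'
  have a1 : ∫ x in A ∩ A', (F x - m) ^ 2 ∂ν ≤ X :=
    (setIntegral_mono_set i1.integrableOn (ae_of_all _ fun _ => sq_nonneg _)
      Set.inter_subset_left.eventuallyLE).trans h1
  have a2 : ∫ x in A ∩ A', (F x - m') ^ 2 ∂ν ≤ X :=
    (setIntegral_mono_set i2.integrableOn (ae_of_all _ fun _ => sq_nonneg _)
      Set.inter_subset_right.eventuallyLE).trans h2
  have a3 : ∫ _ in A ∩ A', (m - m') ^ 2 ∂ν ≤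
      ∫ x in A ∩ A', (2 * (F x - m) ^ 2 + 2 * (F x - m') ^ 2) ∂ν :=
    integral_mono (integrable_const _)
      ((i1.const_mul 2).add (i2.const_mul 2)).integrableOn fun x => by
        simp only
        nlinarith [sq_nonneg (2 * F x - m - m')]
  rw [setIntegral_const, smul_eq_mul, integral_add (i1.const_mul 2).integrableOn
    (i2.const_mul 2).integrableOn, integral_const_mul, integral_const_mul] at a3
  nlinarith [sq_nonneg (m - m')]

lemma patch (hF : Measurable F) (hb : ∀ x, |F x| ≤ 1) {m m' m₁ X κ : ℝ} (hm : |m| ≤ 1)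
    (hm' : |m'| ≤ 1) (hm₁ : |m₁| ≤ 1) {A A' A₁ N : Set α} (mA : MeasurableSet A)
    (mA' : MeasurableSet A') (mN : MeasurableSet N) (cov : ∀ᵐ x ∂ν, x ∈ A ∨ x ∈ A' ∨ x ∈ N)
    (hN : ν.real N ≤ κ) (h8 : 1 / 8 ≤ ν.real (A ∩ A₁)) (h8' : 1 / 8 ≤ ν.real (A' ∩ A₁))
    (h1 : ∫ x in A, (F x - m) ^ 2 ∂ν ≤ X) (h2 : ∫ x in A', (F x - m') ^ 2 ∂ν ≤ X)
    (h3 : ∫ x in A₁, (F x - m₁) ^ 2 ∂ν ≤ X) :
    ∫ x, (F x - m) ^ 2 ∂ν ≤ 259 * X + 4 * κ := by
  have i1 := int_sq (ν := ν) hF hb hm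
  have i2 := int_sq (ν := ν) hF hb hm'
  have c1 := mean_close hF hb hm hm₁ h8 h1 h3
  have c2 := mean_close hF hb hm' hm₁ h8' h2 h3
  have c3 : (m - m') ^ 2 ≤ 128 * X := by nlinarith [sq_nonneg (m + m' - 2 * m₁)]
  have j1 : Integrable (A.indicator fun x => (F x - m) ^ 2) ν := i1.indicator mA
  have j2 : Integrable (A'.indicator fun x => (F x - m') ^ 2) ν := i2.indicator mA'
  have j3 : Integrable (N.indicator fun _ => (4 : ℝ)) ν := (integrable_const _).indicator mN
  have j4 : Integrable (fun x => A.indicator (fun x => (F x - m) ^ 2) x +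
      2 * A'.indicator (fun x => (F x - m') ^ 2) x) ν := j1.add (j2.const_mul 2)
  have j5 : Integrable (fun x => A.indicator (fun x => (F x - m) ^ 2) x +
      2 * A'.indicator (fun x => (F x - m') ^ 2) x + N.indicator (fun _ => (4 : ℝ)) x) ν :=
    j4.add j3
  calc _ ≤ ∫ x, (A.indicator (fun x => (F x - m) ^ 2) x +
        2 * A'.indicator (fun x => (F x - m') ^ 2) x + N.indicator (fun _ => (4 : ℝ)) x +
        2 * (m - m') ^ 2) ∂ν := by
        refine integral_mono_ae i1 (j5.add (integrable_const _)) ?_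
        filter_upwards [cov] with x hx
        have n1 : 0 ≤ A.indicator (fun x => (F x - m) ^ 2) x :=
          Set.indicator_nonneg (fun _ _ => sq_nonneg _) _
        have n2 : 0 ≤ A'.indicator (fun x => (F x - m') ^ 2) x :=
          Set.indicator_nonneg (fun _ _ => sq_nonneg _) _
        have n3 : 0 ≤ N.indicator (fun _ => (4 : ℝ)) x :=
          Set.indicator_nonneg (fun _ _ => by norm_num) _
        have n4 := sq_nonneg (m - m')
        rcases hx with h | h | h
        · rw [Set.indicator_of_mem h]; linarith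
        · rw [Set.indicator_of_mem h]; nlinarith [sq_nonneg (F x - 2 * m' + m)]
        · rw [Set.indicator_of_mem h (fun _ => (4 : ℝ))]; linarith [sq_le_four (hb x) hm]
    _ ≤ _ := by
        rw [integral_add j5 (integrable_const _), integral_add j4 j3,
          integral_add j1 (j2.const_mul 2), integral_const_mul, integral_indicator mA,
          integral_indicator mA', integral_indicator mN, setIntegral_const, integral_const]
        simp only [smul_eq_mul, probReal_univ, one_mul]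
        linarith

end patch

/-! ### flips -/

section flip
variable {ι : Type*} [Fintype ι] [DecidableEq ι]

/-- sign change of one coordinate -/
def fl (i : ι) (x : ι → ℝ) : ι → ℝ := Function.update x i (-x i)

omit [Fintype ι] in
lemma fl_sq (i : ι) (x : ι → ℝ) (k : ι) : fl i x k ^ 2 = x k ^ 2 := by
  by_cases h : k = i
  · subst h; simp [fl]
  · simp [fl, h]

omit [Fintype ι] in
lemma continuous_fl (i : ι) : Continuous (fl i) :=
  continuous_id.update i (continuous_apply i).neg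

lemma fl_dot (i : ι) (x y : ι → ℝ) : x ⬝ᵥ fl i y = fl i x ⬝ᵥ y := by
  refine sum_congr rfl fun k _ => ?_
  by_cases h : k = i
  · subst h; simp [fl]
  · simp [fl, h]

lemma fl_self (i : ι) (x : ι → ℝ) : fl i x ⬝ᵥ fl i x = x ⬝ᵥ x :=
  sum_congr rfl fun k _ => by rw [← sq, ← sq, fl_sq]

lemma GG_fl (c : ι → ℝ) (t : ℝ) (i j : ι) (r R ρ : ℝ) (x : ι → ℝ) :
    fl j x ∈ GG c t i r R ρ ↔ x ∈ GG c t i r R ρ := by
  simp only [GG, qq, UU, Set.mem_ofPred_eq, fl_self, fl_sq]

lemma HG_fl {F : (ι → ℝ) → ℝ} {V : (ι → ℝ) → ι → ℝ} (h : HG F V) (i : ι) :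
    HG (fun x => F (fl i x)) fun x => fl i (V (fl i x)) where
  bdd _ := h.bdd _
  cF := h.cF.comp (continuous_fl i)
  cV := (continuous_fl i).comp (h.cV.comp (continuous_fl i))
  der x x' θ hx := by
    rw [← fl_dot]
    refine h.der (fun s => fl i (x s)) (fl i x') θ (hasDerivAt_pi.2 fun k => ?_)
    have hk := hasDerivAt_pi.1 hx k
    by_cases e : k = i
    · subst e; simpa [fl] using hk.fun_neg
    · simpa [fl, e] using hk

lemma qq_lift (t : ℝ) (i : ι) (b : ι → ℝ) : qq t i (lift t i b) = qq t i b := by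
  have h : lift t i b ⬝ᵥ lift t i b - lift t i b i ^ 2 = b ⬝ᵥ b - b i ^ 2 := by
    unfold dotProduct
    rw [← add_sum_erase _ _ (mem_univ i), ← add_sum_erase _ (fun k => b k * b k) (mem_univ i),
      sum_congr rfl (g := fun k => b k * b k) fun k hk => by
        rw [lift, Function.update_of_ne (ne_of_mem_erase hk)]]
    ring
  rw [qq, h, qq]

lemma GG_lift (c : ι → ℝ) (t : ℝ) (i : ι) (r R ρ : ℝ) (b : ι → ℝ) :
    lift t i b ∈ GG c t i r R ρ ↔ b ∈ GG c t i r R ρ := by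
  have : UU c i (lift t i b) = UU c i b :=
    sum_congr rfl fun k hk => by rw [lift, Function.update_of_ne (ne_of_mem_erase hk)]
  simp only [GG, Set.mem_ofPred_eq, qq_lift, this]

omit [DecidableEq ι] in
lemma continuous_qq (t : ℝ) (i : ι) : Continuous (qq t i) := by
  unfold qq dotProduct; fun_prop


lemma ms_GG (c : ι → ℝ) (t : ℝ) (i : ι) (r R ρ : ℝ) : MeasurableSet (GG c t i r R ρ) := by
  have h1 := (continuous_qq t i).measurable
  have h2 : Measurable (UU c i) := by unfold UU; fun_prop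
  exact (measurableSet_le measurable_const h1).inter
    ((measurableSet_le h1 measurable_const).inter (measurableSet_le h2 measurable_const))

lemma half {ν : Measure (ι → ℝ)} [IsProbabilityMeasure ν] {i : ι} (hν : ν.map (fl i) = ν)
    {S : Set (ι → ℝ)} (mS : MeasurableSet S) (hS : ∀ x, fl i x ∈ S ↔ x ∈ S)
    (h0 : ∀ᵐ x ∂ν, x ∈ S → x i ≠ 0) :
    ν.real S / 2 ≤ ν.real (S ∩ {x | 0 < x i}) ∧ ν.real S / 2 ≤ ν.real (S ∩ {x | x i < 0}) := by
  have mP : MeasurableSet (S ∩ {x | 0 < x i}) :=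
    mS.inter (measurableSet_lt measurable_const (measurable_pi_apply i))
  have e : ν.real (S ∩ {x | x i < 0}) = ν.real (S ∩ {x | 0 < x i}) := by
    conv_rhs => rw [← hν, map_measureReal_apply (continuous_fl i).measurable mP]
    congr 1
    ext x
    simp only [Set.mem_inter_iff, Set.mem_ofPred_eq, Set.mem_preimage, hS]
    simp [fl]
  have h : ν.real S ≤ ν.real (S ∩ {x | 0 < x i}) + ν.real (S ∩ {x | x i < 0}) := by
    refine le_trans ?_ (measureReal_union_le _ _)
    refine ENNReal.toReal_mono (measure_ne_top _ _) (measure_mono_ae ?_)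
    filter_upwards [h0] with x hx hs
    rcases lt_or_gt_of_ne (hx hs) with h | h
    · exact Or.inr ⟨hs, h⟩
    · exact Or.inl ⟨hs, h⟩
  constructor <;> linarith

end flip

/-! ### one chart -/

lemma pdf_le {c c0 : ℝ} (h0 : 0 < c0) (h : c0 ≤ c) (x : ℝ) :
    gaussianPDFReal 0 c.toNNReal x ≤ (√(2 * π * c0))⁻¹ := by
  rw [gaussianPDFReal, Real.coe_toNNReal _ (h0.le.trans h)]
  have h1 : (√(2 * π * c))⁻¹ ≤ (√(2 * π * c0))⁻¹ :=
    inv_anti₀ (by positivity) (sqrt_le_sqrt (by gcongr))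
  have hc : 0 < c := h0.trans_le h
  have h2 : exp (-(x - 0) ^ 2 / (2 * c)) ≤ 1 :=
    exp_le_one_iff.2 (div_nonpos_of_nonpos_of_nonneg (neg_nonpos.2 (sq_nonneg _)) (by positivity))
  calc _ ≤ (√(2 * π * c0))⁻¹ * 1 := mul_le_mul h1 h2 (exp_pos _).le (by positivity)
    _ = _ := mul_one _

lemma le_pdf {c c0 q R : ℝ} (h0 : 0 < c0) (h : c0 ≤ c) (h1 : c ≤ 1) (hq : 0 ≤ q) (hR : q ≤ R) :
    (√(2 * π))⁻¹ * exp (-R / (2 * c0)) ≤ gaussianPDFReal 0 c.toNNReal √q := by
  rw [gaussianPDFReal, Real.coe_toNNReal _ (h0.le.trans h), sub_zero, sq_sqrt hq]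
  have hc : 0 < c := h0.trans_le h
  refine mul_le_mul (inv_anti₀ (by positivity) (sqrt_le_sqrt ?_)) (exp_le_exp.2 ?_)
    (exp_pos _).le (by positivity)
  · exact mul_le_of_le_one_right (by positivity) h1
  · rw [neg_div, neg_div, neg_le_neg_iff]
    exact div_le_div₀ (hq.trans hR) hR (by positivity) (by linarith)

/-- the constant of one chart -/
def b0 (c0 r R ρ d Zm : ℝ) : ℝ :=
  (√(2 * π * c0))⁻¹ / (2 * √r) * (64 * (1 + 4 * ρ / r)) * Zm /
    (d * ((√(2 * π))⁻¹ * exp (-(R + r / 2) / (2 * c0)) / (2 * √(R + r / 2))))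

lemma chart {ι : Type} [Fintype ι] [DecidableEq ι] (hL : LocStmt) {ν : Measure (ι → ℝ)}
    (hν : Cp ν) {c : ι → ℝ} {t r R ρ c0 d Z Zm : ℝ} {i : ι} (hs : ∀ᵐ x ∂ν, x ⬝ᵥ x = t)
    (h0 : 0 < c0) (hc : ∀ k, 0 < c k) (hc1 : ∀ k, c k ≤ 1) (hi : c0 ≤ c i) (hr : 0 < r)
    (hR : r ≤ R) (hρ : 0 ≤ ρ) (h32 : 32 * ρ ≤ r ^ 2) (hd : 0 < d) (hZ : d ≤ Z) (hZm : Z ≤ Zm)
    (hγ : gs 0 c (GG c t i r R ρ)ᶜ ≤ ENNReal.ofReal (1 / 4))
    (hch : ∀ r : ℝ, 0 < r → ∀ Φ : (ι → ℝ) → ℝ≥0∞, Measurable Φ →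
      ENNReal.ofReal Z * ∫⁻ x in {x | r ≤ x i}, Φ x ∂ν =
        ∫⁻ b in {b | r ≤ √(qq t i b)}, Φ (lift t i b) * ENNReal.ofReal
          (gaussianPDFReal 0 (c i).toNNReal √(qq t i b) / (2 * √(qq t i b))) ∂gs 0 c)
    {F : (ι → ℝ) → ℝ} {V : (ι → ℝ) → ι → ℝ} (h : HG F V) : ∃ m : ℝ, |m| ≤ 1 ∧
      ∫ x in GG c t i r R ρ ∩ {x | 0 < x i}, (F x - m) ^ 2 ∂ν ≤
        b0 c0 r R ρ d Zm * ∫ x, V x ⬝ᵥ V x ∂ν := by
  have := hν.prob
  obtain ⟨m, hm, hloc⟩ := hL ι c t i r R ρ hc hc1 hr hρ h32 hγ F V h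
  refine ⟨m, hm, ?_⟩
  set c1 := (√(2 * π * c0))⁻¹ / (2 * √r) with hc1'
  set c2 := (√(2 * π))⁻¹ * exp (-(R + r / 2) / (2 * c0)) / (2 * √(R + r / 2)) with hc2'
  set K := 64 * (1 + 4 * ρ / r) with hK
  have hRr : 0 < R + r / 2 := by linarith
  have p1 : 0 ≤ c1 := by positivity
  have p2 : 0 < c2 := by positivity
  have pK : 0 ≤ K := by positivity
  have pZ : 0 ≤ Zm := by linarith
  have mG := ms_GG c t i r R ρ
  have mG' := ms_GG c t i (r / 2) (R + r / 2) (2 * ρ)
  have mP : MeasurableSet (GG c t i r R ρ ∩ {x | 0 < x i}) :=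
    mG.inter (measurableSet_lt measurable_const (measurable_pi_apply i))
  have mΦ : Measurable fun x => ENNReal.ofReal ((F x - m) ^ 2) :=
    ((h.cF.measurable.sub_const m).pow_const 2).ennreal_ofReal
  have cVV : Continuous fun x => V x ⬝ᵥ V x := by
    have := h.cV; unfold dotProduct; fun_prop
  have nVV : ∀ x, 0 ≤ V x ⬝ᵥ V x := fun x => sum_nonneg fun k _ => mul_self_nonneg _
  have mS : ∀ u : ℝ, MeasurableSet {x : ι → ℝ | u ≤ x i} := fun u =>
    measurableSet_le measurable_const (measurable_pi_apply i)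
  have mS' : ∀ u : ℝ, MeasurableSet {b : ι → ℝ | u ≤ √(qq t i b)} := fun u =>
    measurableSet_le measurable_const (continuous_qq t i).sqrt.measurable
  -- upper step
  have u1 : ∫⁻ x in GG c t i r R ρ ∩ {x | 0 < x i}, ENNReal.ofReal ((F x - m) ^ 2) ∂ν ≤
      ∫⁻ x in {x | √r ≤ x i},
        (GG c t i r R ρ).indicator (fun x => ENNReal.ofReal ((F x - m) ^ 2)) x ∂ν := by
    rw [← lintegral_indicator mP, ← lintegral_indicator (mS _)]
    refine lintegral_mono_ae ?_
    filter_upwards [hs] with x hx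
    by_cases hA : x ∈ GG c t i r R ρ ∩ {x | 0 < x i}
    · have h1 : r ≤ x i ^ 2 := by
        have := hA.1.1
        rw [qq, hx] at this
        linarith
      have h2 : x ∈ {x : ι → ℝ | √r ≤ x i} := sqrt_le_iff.2 ⟨le_of_lt hA.2, h1⟩
      rw [Set.indicator_of_mem hA, Set.indicator_of_mem h2, Set.indicator_of_mem hA.1]
    · rw [Set.indicator_of_notMem hA]; exact zero_le
  have u2 : ENNReal.ofReal Z * ∫⁻ x in {x | √r ≤ x i},
        (GG c t i r R ρ).indicator (fun x => ENNReal.ofReal ((F x - m) ^ 2)) x ∂ν ≤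
      ENNReal.ofReal c1 *
        ∫⁻ b in GG c t i r R ρ, ENNReal.ofReal ((F (lift t i b) - m) ^ 2) ∂gs 0 c := by
    rw [hch _ (sqrt_pos.2 hr) _ (mΦ.indicator mG), ← lintegral_indicator (mS' _),
      ← lintegral_indicator mG, ← lintegral_const_mul' _ _ ENNReal.ofReal_ne_top]
    refine lintegral_mono fun b => ?_
    by_cases hb : b ∈ {b : ι → ℝ | √r ≤ √(qq t i b)}
    · rw [Set.indicator_of_mem hb]
      by_cases hG : b ∈ GG c t i r R ρ
      · rw [Set.indicator_of_mem hG, Set.indicator_of_mem ((GG_lift c t i r R ρ b).2 hG), mul_comm]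
        refine mul_le_mul_left (ENNReal.ofReal_le_ofReal ?_) _
        exact div_le_div₀ (by positivity) (pdf_le h0 hi _) (by positivity)
          (mul_le_mul_of_nonneg_left hb zero_le_two)
      · rw [Set.indicator_of_notMem (fun h' => hG ((GG_lift c t i r R ρ b).1 h')), zero_mul]
        exact zero_le
    · rw [Set.indicator_of_notMem hb]; exact zero_le
  -- lower step
  have d1 : ENNReal.ofReal c2 * ∫⁻ b in GG c t i (r / 2) (R + r / 2) (2 * ρ),
        ENNReal.ofReal (V (lift t i b) ⬝ᵥ V (lift t i b)) ∂gs 0 c ≤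
      ENNReal.ofReal Z * ∫⁻ x in {x | √(r / 2) ≤ x i}, ENNReal.ofReal (V x ⬝ᵥ V x) ∂ν := by
    rw [hch _ (sqrt_pos.2 (by linarith)) _ cVV.measurable.ennreal_ofReal,
      ← lintegral_indicator (mS' _), ← lintegral_indicator mG',
      ← lintegral_const_mul' _ _ ENNReal.ofReal_ne_top]
    refine lintegral_mono fun b => ?_
    by_cases hG : b ∈ GG c t i (r / 2) (R + r / 2) (2 * ρ)
    · have hb : b ∈ {b : ι → ℝ | √(r / 2) ≤ √(qq t i b)} := sqrt_le_sqrt hG.1
      have hq : 0 < qq t i b := lt_of_lt_of_le (by linarith) hG.1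
      rw [Set.indicator_of_mem hG, Set.indicator_of_mem hb, mul_comm]
      refine mul_le_mul_right (ENNReal.ofReal_le_ofReal ?_) _
      exact div_le_div₀ (gaussianPDFReal_nonneg _ _ _) (le_pdf h0 hi (hc1 i) hq.le hG.2.1)
        (by positivity) (mul_le_mul_of_nonneg_left (sqrt_le_sqrt hG.2.1) zero_le_two)
    · rw [Set.indicator_of_notMem hG, mul_zero]; exact zero_le
  have e1 : ∫⁻ x in GG c t i r R ρ ∩ {x | 0 < x i}, ENNReal.ofReal ((F x - m) ^ 2) ∂ν =
      ENNReal.ofReal (∫ x in GG c t i r R ρ ∩ {x | 0 < x i}, (F x - m) ^ 2 ∂ν) :=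
    (ofReal_integral_eq_lintegral_ofReal (int_sq h.cF.measurable h.bdd hm).integrableOn
      (ae_of_all _ fun _ => sq_nonneg _)).symm
  have e2 : ∫⁻ x, ENNReal.ofReal (V x ⬝ᵥ V x) ∂ν = ENNReal.ofReal (∫ x, V x ⬝ᵥ V x ∂ν) :=
    (ofReal_integral_eq_lintegral_ofReal (Lnk10.integrable_cp hν cVV) (ae_of_all _ nVV)).symm
  set I := ∫ x in GG c t i r R ρ ∩ {x | 0 < x i}, (F x - m) ^ 2 ∂ν
  set W := ∫ x, V x ⬝ᵥ V x ∂ν
  have pW : 0 ≤ W := integral_nonneg nVV
  set J := ∫⁻ b in GG c t i (r / 2) (R + r / 2) (2 * ρ),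
    ENNReal.ofReal (V (lift t i b) ⬝ᵥ V (lift t i b)) ∂gs 0 c
  have f1 : ENNReal.ofReal d * ENNReal.ofReal I ≤ ENNReal.ofReal c1 * (ENNReal.ofReal K * J) := by
    rw [← e1]
    exact (mul_le_mul' (ENNReal.ofReal_le_ofReal hZ) u1).trans
      (u2.trans (mul_le_mul_right hloc _))
  have f2 : ENNReal.ofReal c2 * J ≤ ENNReal.ofReal Zm * ENNReal.ofReal W := by
    rw [← e2]
    exact d1.trans (mul_le_mul' (ENNReal.ofReal_le_ofReal hZm) (setLIntegral_le_lintegral _ _))
  have f3 : ENNReal.ofReal (c2 * (d * I)) ≤ ENNReal.ofReal (c1 * (K * (Zm * W))) := by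
    rw [ENNReal.ofReal_mul p2.le, ENNReal.ofReal_mul hd.le, ENNReal.ofReal_mul p1,
      ENNReal.ofReal_mul pK, ENNReal.ofReal_mul pZ]
    calc _ ≤ ENNReal.ofReal c2 * (ENNReal.ofReal c1 * (ENNReal.ofReal K * J)) :=
          mul_le_mul_right f1 _
      _ = ENNReal.ofReal c1 * (ENNReal.ofReal K * (ENNReal.ofReal c2 * J)) := by ring
      _ ≤ _ := mul_le_mul_right (mul_le_mul_right f2 _) _
  rw [ENNReal.ofReal_le_ofReal_iff (by positivity)] at f3
  rw [b0, ← hc1', ← hc2', ← hK, div_mul_eq_mul_div, le_div_iff₀ (by positivity)]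
  linarith

end Sph85

open Sph85

theorem sphWPGlue : SphWPGlue := by
  intro hC hL hM L C w₁ κ hL0 hκ
  obtain ⟨w₂, hw₂, hD⟩ := denStmt L C 0 0 hL0
  set κ' := min (κ / 4) (1 / 4) with hκ'
  have hκ0 : 0 < κ' := lt_min (by positivity) (by norm_num)
  obtain ⟨w₀, w, r, R, ρ, hw₀, hw, hr, hR, hρ, h32, hM⟩ := hM L C (max w₁ w₂) κ' hL0 hκ0
  have hw2 : w₂ ≤ w := (le_max_right _ _).trans hw
  obtain ⟨d, hd, hD⟩ := hD w hw2
  have hLw : L < w := by linarith
  set c0 := 1 / (w + (60 * ((2 : ℕ) : ℝ) + L)) with hc0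
  have pc0 : 0 < c0 := one_div_pos.2 (by push_cast; linarith)
  have hRr : 0 < R + r / 2 := by linarith
  have pb : 0 ≤ b0 c0 r R ρ d (1 / (2 * c0)) := by unfold b0; positivity
  refine ⟨w₀, w, 259 * b0 c0 r R ρ d (1 / (2 * c0)), (le_max_left _ _).trans hw₀,
    (le_max_left _ _).trans hw, by positivity, ?_⟩
  filter_upwards [hM, hD, eventually_ge_atTop 16] with n hM hD hn η t ht hG0 hG F V hF
  set i0 : Fin n := ⟨0, by omega⟩
  set i1 : Fin n := ⟨1, by omega⟩
  have hne : i0 ≠ i1 := fun h => by simpa [i0, i1] using congrArg Fin.val h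
  have : Nonempty (Fin n) := ⟨i0⟩
  obtain ⟨cp, flip⟩ := (lnkGlue sphStmt n (by omega)).2.1 η t ht
  have := cp.prob
  have pos : ∀ k : Fin n, 0 < w + η k := fun k => (Fin85.gd_bd hG hLw k.2).2.1
  have hc : ∀ k, 0 < cw n η w k := fun k => one_div_pos.2 (pos k)
  have hc1 : ∀ k, cw n η w k ≤ 1 := fun k => by
    have := (Fin85.gd_bd hG hLw k.2).1
    rw [cw, div_le_one (pos k)]; linarith
  have hci : ∀ i : Fin n, (i : ℕ) ≤ 1 → c0 ≤ cw n η w i := fun i hi =>
    one_div_le_one_div_of_le (pos i) (by linarith [Fin85.gd_hi hG (K := 2) (k := i) (by omega) hn])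
  obtain ⟨Z, -, hZ1, hZ2⟩ := hC (Fin n) (fun k => η k) w t ht pos
  have lim := hZ1 (fun _ => 1) continuous_const
  rw [← nuD_eq] at lim hZ2
  simp only [integral_const, probReal_univ, smul_eq_mul, mul_one, measureReal_restrict_apply,
    MeasurableSet.univ, Set.univ_inter] at lim
  have hZd : d ≤ Z := by
    refine ge_of_tendsto lim ?_
    filter_upwards [Ioc_mem_nhdsGT (zero_lt_one' ℝ)] with ε hε
    rw [le_div_iff₀ hε.1]
    exact (hD η t hG ε hε.1 hε.2).1
  have hZm : Z ≤ 1 / (2 * c0) := by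
    refine le_of_tendsto lim ?_
    filter_upwards [self_mem_nhdsWithin] with ε hε
    have hε' : 0 < ε := hε
    have h := (twoStmt (Fin n) 0 (cw n η w) hc i0 i1 hne (fun _ => 1) measurable_const
      (fun _ _ _ => rfl) t ε hε'.le).1
    simp only [lintegral_const, measure_univ, mul_one, one_mul, MeasurableSet.univ,
      Measure.restrict_apply, Set.univ_inter] at h
    have h2 := ENNReal.toReal_le_of_le_ofReal (by positivity) h
    have h3 : c0 ≤ √(cw n η w i0 * cw n η w i1) :=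
      le_sqrt_of_sq_le (by
        rw [sq]; exact mul_le_mul (hci i0 (by simp [i0])) (hci i1 le_rfl) pc0.le (hc i0).le)
    rw [div_le_iff₀ hε']
    refine le_trans h2 ?_
    rw [one_div, inv_mul_eq_div]
    exact div_le_div_of_nonneg_left hε'.le (by positivity) (by linarith)
  have hs : ∀ᵐ x ∂nuD n η t, x ⬝ᵥ x = t := by
    have h := ((sphStmt (Fin n)).1 √t).2.1
    rw [sq_sqrt ht.le] at h
    exact (tilted_absolutelyContinuous _ _).ae_le h
  obtain ⟨M0, N0⟩ := hM η t ht hG0 hG i0 (by simp [i0])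
  obtain ⟨M1, N1⟩ := hM η t ht hG0 hG i1 le_rfl
  obtain ⟨m, hm, h1⟩ := chart hL cp hs pc0 hc hc1 (hci i0 (by simp [i0])) hr hR hρ h32 hd hZd hZm
    N0 (hZ2 i0) hF
  obtain ⟨m', hm', h2⟩ := chart hL cp hs pc0 hc hc1 (hci i0 (by simp [i0])) hr hR hρ h32 hd hZd hZm
    N0 (hZ2 i0) (HG_fl hF i0)
  obtain ⟨m₁, hm₁, h3⟩ := chart hL cp hs pc0 hc hc1 (hci i1 le_rfl) hr hR hρ h32 hd hZd hZm
    N1 (hZ2 i1) hF
  refine ⟨m, hm, ?_⟩
  set G0 := GG (cw n η w) t i0 r R ρ
  set G1 := GG (cw n η w) t i1 r R ρ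
  have mG0 : MeasurableSet G0 := ms_GG _ _ _ _ _ _
  have mG1 : MeasurableSet G1 := ms_GG _ _ _ _ _ _
  have mp : ∀ i : Fin n, MeasurableSet {x : Fin n → ℝ | 0 < x i} := fun i =>
    measurableSet_lt measurable_const (measurable_pi_apply i)
  have mn : ∀ i : Fin n, MeasurableSet {x : Fin n → ℝ | x i < 0} := fun i =>
    measurableSet_lt (measurable_pi_apply i) measurable_const
  have fl0 : (nuD n η t).map (fl i0) = nuD n η t := flip i0
  have fl1 : (nuD n η t).map (fl i1) = nuD n η t := flip i1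
  have cVV : Continuous fun x => V x ⬝ᵥ V x := by
    have := hF.cV; unfold dotProduct; fun_prop
  have e1 : ∫ x, fl i0 (V (fl i0 x)) ⬝ᵥ fl i0 (V (fl i0 x)) ∂nuD n η t =
      ∫ x, V x ⬝ᵥ V x ∂nuD n η t := by
    conv_rhs => rw [← fl0, integral_map (continuous_fl i0).measurable.aemeasurable
      cVV.aestronglyMeasurable]
    simp only [fl_self]
  have e2 : ∫ x in G0 ∩ {x | 0 < x i0}, (F (fl i0 x) - m') ^ 2 ∂nuD n η t =
      ∫ x in G0 ∩ {x | x i0 < 0}, (F x - m') ^ 2 ∂nuD n η t := by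
    have cF : Continuous fun x => (F x - m') ^ 2 := (hF.cF.sub continuous_const).pow 2
    conv_rhs => rw [← fl0, setIntegral_map (mG0.inter (mn i0)) cF.aestronglyMeasurable
      (continuous_fl i0).measurable.aemeasurable]
    congr 2
    ext x
    simp only [Set.mem_inter_iff, Set.mem_ofPred_eq, Set.mem_preimage, G0, GG_fl]
    simp [fl]
  rw [e1, e2] at h2
  have nz : ∀ i : Fin n, ∀ᵐ x ∂nuD n η t, x ∈ GG (cw n η w) t i r R ρ → x i ≠ 0 := fun i => by
    filter_upwards [hs] with x hx hG h0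
    have := hG.1
    rw [qq, hx, h0] at this
    linarith
  have r0 : (nuD n η t).real G0ᶜ ≤ κ' := ENNReal.toReal_le_of_le_ofReal hκ0.le M0
  have r1 : (nuD n η t).real G1ᶜ ≤ κ' := ENNReal.toReal_le_of_le_ofReal hκ0.le M1
  have hB : 1 / 2 ≤ (nuD n η t).real (G0 ∩ G1) := by
    have a1 := measureReal_add_measureReal_compl (μ := nuD n η t) (mG0.inter mG1)
    have a2 : (nuD n η t).real (G0 ∩ G1)ᶜ ≤ (nuD n η t).real G0ᶜ + (nuD n η t).real G1ᶜ := by
      rw [Set.compl_inter]; exact measureReal_union_le _ _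
    have a3 : κ' ≤ 1 / 4 := min_le_right _ _
    rw [probReal_univ] at a1
    linarith
  have q1 := (half fl1 (mG0.inter mG1) (fun x => by simp only [Set.mem_inter_iff, G0, G1, GG_fl])
    ((nz i1).mono fun x hx h => hx h.2)).1
  obtain ⟨q2, q3⟩ := half fl0 ((mG0.inter mG1).inter (mp i1)) (fun x => by
    simp only [Set.mem_inter_iff, G0, G1, GG_fl, Set.mem_ofPred_eq]
    rw [fl, Function.update_of_ne hne.symm]) ((nz i0).mono fun x hx h => hx h.1.1)
  have s1 : G0 ∩ {x | 0 < x i0} ∩ (G1 ∩ {x | 0 < x i1}) =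
      G0 ∩ G1 ∩ {x | 0 < x i1} ∩ {x | 0 < x i0} := by
    ext x; simp only [Set.mem_inter_iff]; tauto
  have s2 : G0 ∩ {x | x i0 < 0} ∩ (G1 ∩ {x | 0 < x i1}) =
      G0 ∩ G1 ∩ {x | 0 < x i1} ∩ {x | x i0 < 0} := by
    ext x; simp only [Set.mem_inter_iff]; tauto
  have key := patch hF.cF.measurable hF.bdd hm hm' hm₁ (mG0.inter (mp i0)) (mG0.inter (mn i0))
    mG0.compl (by
      filter_upwards [nz i0] with x hx
      by_cases hG : x ∈ G0
      · rcases lt_or_gt_of_ne (hx hG) with h | h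
        · exact Or.inr (Or.inl ⟨hG, h⟩)
        · exact Or.inl ⟨hG, h⟩
      · exact Or.inr (Or.inr hG)) r0 (by rw [s1]; linarith) (by rw [s2]; linarith) h1 h2 h3
  have a4 : κ' ≤ κ / 4 := min_le_left _ _
  linarith

end Crest.Agent.T157.Wp

end
end

-- ▼ part T157/WpAll_93
section

/-!
# Row 157, part C: the weak Poincaré inequality, assembled (helper93)
-/

set_option autoImplicit false

namespace Crest.Agent.T157.Wp

open Crest.ProbabilityR.SpinGlassDynamics

/-- weak Poincaré inequality of the spherical model -/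
theorem sphWPStmt : SphWPStmt := sphWPGlue chartStmt locStmt massStmt

theorem wp_of_crude (h : CrudeStmt) : Soft.WPStmt :=
  wpGlue St.All.goodStmt St.All.closeStmt sphWPStmt h

theorem wp_of (hA : Tr.AStmt disorderLaw) (hT : Glue.TailStmt) : Soft.WPStmt :=
  wp_of_crude (Tr.crudeStmt_of hA hT)

theorem mix_of (hA : Tr.AStmt disorderLaw) (hT : Glue.TailStmt) : Soft.MixStmt :=
  Soft.mix_of_wp (wp_of hA hT)

end Crest.Agent.T157.Wp
end

-- ▼ part T157/SoftAll_45
section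

/-!
# Row 157, part A: the slow observable at criticality, unconditionally (helper45)
-/

set_option autoImplicit false

namespace Crest.Agent.T157.Soft45

theorem lrTail : LRTail := fun _ hc => Pl.tendsto_LR_lt_rpow false zero_le_one le_rfl hc

theorem softCritAll : Top.SoftCrit := softCrit Ll.mscApi Ll.All.isoStmt Ll.instApi lrTail

theorem slowCrit : Top.SlowCrit := TopA.gSlow softCritAll

end Crest.Agent.T157.Soft45
end

-- ▼ part T157/CrAll_63
section

/-!
# Row 157, part A (helper63): `R29` and the descent from infinity from the covariance windows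
-/

set_option autoImplicit false

namespace Crest.Agent.T157.Q1

open Crest.ProbabilityR.SpinGlassDynamics

theorem tailStmt : Glue.TailStmt :=
  Glue.tail_of (Glue.sspStmt_of_top LpAll.topLp) Tap.ufStmt TapFrz.frzStmt LpAll.frozStmt
    LpAll.covStmt

theorem jtStmt : JTStmt := jt_of Tap.ufStmt TapFrz.frzStmt LpAll.frozStmt LpAll.covStmt

/-- the high levels need only the sharp window -/
theorem levCrit (h : W2R) : Crit.LevCrit := levCrit_of h LpAll.topLp tailStmt jtStmt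

variable {a κ T : ℝ}

theorem spStmt (ha : 0 < a) (ha' : a < 2 / 3) (hκ : 0 < κ) (hκ' : κ ≤ 1 / 30) (hT : 0 < T)
    (h1 : AStar false a κ T) (h2 : W2R) : SPStmt false a :=
  spStmt_of ha ha'.le hκ hκ' hT h1 (termStmt_gauss tailStmt LpAll.covStmt (by linarith) hT)
    ldB_gauss (levCrit_gauss (levCrit h2) LpAll.topLp ha' hκ)

/-- **descent from infinity**, Gaussian couplings -/
theorem downStmt (ha : 0 < a) (ha' : a < 2 / 3) (hκ : 0 < κ) (hκ' : κ ≤ 1 / 30) (hT : 0 < T)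
    (h1 : AStar false a κ T) (h2 : W2R) : DownStmt false a :=
  downStmt_of ha (spStmt ha ha' hκ hκ' hT h1 h2)

theorem lsiCrit (ha : 0 < a) (ha' : a < 2 / 3) (hκ : 0 < κ) (hκ' : κ ≤ 1 / 30) (hT : 0 < T)
    (h1 : AStar false a κ T) (h2 : W2R) (h3 : Tr.AStmt disorderLaw) : Top.LsiCrit :=
  lsiCrit_of ha.le (spStmt ha ha' hκ hκ' hT h1 h2) (Wp.wp_of h3 tailStmt)

/-- **S0229 from the three covariance windows** (`w2r_of : Crit.W2SStmt → W2R`) -/
theorem r29 (ha : 0 < a) (ha' : a < 2 / 3) (hκ : 0 < κ) (hκ' : κ ≤ 1 / 30) (hT : 0 < T)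
    (h1 : AStar false a κ T) (h2 : W2R) (h3 : Tr.AStmt disorderLaw) : Top.R29 :=
  Chain22.g29 (lsiCrit ha ha' hκ hκ' hT h1 h2 h3) Soft45.slowCrit

end Crest.Agent.T157.Q1
end

-- ▼ part T157/DsE_77
section

/-!
# Row 157, part C (helper77): the constant `k` and its positivity
-/

set_option autoImplicit false
set_option linter.unusedSectionVars false

noncomputable section

namespace Crest.Agent.T157.Rec

open MeasureTheory ProbabilityTheory Filter Topology Set Real Matrix Function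
open Crest.ProbabilityR.SpinGlassDynamics
open Crest.Agent.T157.E Crest.Agent.T157.SL Crest.Agent.T157.Eig Crest.Agent.T157.Tr
open Crest.Agent.T157.Chain22 (sg)
open Crest.Agent.T157.Da (DAev tm e0 badP DAStmt DLStmt GRStmt)
open Crest.Agent.T157.Soft (N23)
open Crest.Agent.T157.Top (Whp)

variable {n : ℕ}

/-- (DL) at time `T` with scalar `α` -/
def DLat (T α : ℝ) : Prop := ∀ ε : ℝ, 0 < ε → ∃ η : ℝ, 0 < η ∧ ∀ δ : ℝ, 0 < δ →
  Whp PM fun n p => bad (gibbsWeight n 1 p.1) (Wmat n p.1 p.2) T 0 ε η α ≤ δ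

/-- `k = inf α(T) / 2T` -/
def IsK (k : ℝ) : Prop := 0 < k ∧ ∃ α : ℝ → ℝ, (∀ T, 0 < T → DLat T (α T) ∧ 2 * T * k ≤ α T) ∧
  ∀ e, 0 < e → ∃ T, 0 < T ∧ α T ≤ 2 * T * (k + e)

theorem off_exists {X : ℕ → Type*} [∀ n, MeasurableSpace (X n)] {μ : ∀ n, Measure (X n)}
    [∀ n, IsProbabilityMeasure (μ n)] {P : ∀ n, X n → Prop} {ε : ℝ} (h : Off μ ε P) (hε : ε < 1) :
    ∀ᶠ n in atTop, ∃ x, P n x :=
  Eventually.mono h fun n hn => by
    by_contra hc
    push Not at hc
    simp only [hc, not_false_eq_true, ofPred_true, measure_univ] at hn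
    exact not_lt.2 hn (ENNReal.ofReal_lt_one.2 hε)

theorem ev_e0 {η : ℝ} (hη : 0 < η) : ∀ᶠ n : ℕ in atTop, e0 n ≤ η :=
  ((tendsto_rpow_neg_atTop (by norm_num : (0 : ℝ) < 13 / 20)).comp
    tendsto_natCast_atTop_atTop).eventually (ge_mem_nhds hη)

theorem tendsto_N23 : Tendsto N23 atTop atTop :=
  (tendsto_rpow_atTop (by norm_num : (0 : ℝ) < 2 / 3)).comp tendsto_natCast_atTop_atTop

theorem ev_div (L : ℝ) {η : ℝ} (hη : 0 < η) : ∀ᶠ n : ℕ in atTop, L / N23 n ≤ η :=
  (tendsto_N23.const_div_atTop L).eventually (ge_mem_nhds hη)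

theorem ev_win (L : ℝ) : ∀ᶠ n : ℕ in atTop, L / N23 n ≤ e0 n := by
  filter_upwards [((tendsto_rpow_atTop (by norm_num : (0 : ℝ) < 1 / 60)).comp
    tendsto_natCast_atTop_atTop).eventually_ge_atTop L, eventually_gt_atTop 0] with n h hn
  have n0 : (0 : ℝ) < n := by exact_mod_cast hn
  rw [div_le_iff₀ (Soft.N23_pos hn), e0, N23, ← rpow_add n0]
  norm_num at h ⊢
  exact h

theorem TopStmt.soft (h : TopStmt) : Whp PM fun n p => ∃ u, Sf (Wmat n p.1 p.2) u :=
  whp_of_off fun ε hε => by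
    obtain ⟨δ, M, -, h⟩ := h ε hε
    exact h.imp fun n p ⟨u, hu, _⟩ => ⟨u, hu⟩

/-- truncation at level one -/
def cl (t : ℝ) : ℝ := max (-1) (min 1 t)

theorem abs_cl_le (t : ℝ) : |cl t| ≤ 1 :=
  abs_le.2 ⟨le_max_left _ _, max_le (by norm_num) (min_le_left _ _)⟩

theorem cl_sub_sq (s t : ℝ) : (cl s - cl t) ^ 2 ≤ (s - t) ^ 2 := by
  rw [sq_le_sq, cl, cl, max_comm, max_comm (-1)]
  refine (abs_max_sub_max_le_abs _ _ _).trans ?_
  simpa using abs_min_sub_min_le_max (1 : ℝ) s 1 t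

theorem cl_neg (t : ℝ) : cl (-t) = -cl t := by
  simp only [cl, max_def, min_def]
  split_ifs <;> linarith

theorem le_cl_sq (t : ℝ) : t ^ 2 - t ^ 4 ≤ cl t ^ 2 := by
  simp only [cl, max_def, min_def]
  split_ifs <;> nlinarith [sq_nonneg (t ^ 2), sq_nonneg (t ^ 2 - 1)]

theorem dir_cl_le {w : Cube n → ℝ} (hn : 0 < n) (hw : ∀ x, 0 < w x) (c : ℝ) (f : Cube n → ℝ) :
    dir w (fun x => cl (c * f x)) ≤ c ^ 2 * dir w f := by
  rw [Chain22.dir_eq_D hn hw, Chain22.dir_eq_D hn hw, Chain22.RC.D_eq, Chain22.RC.D_eq,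
    mul_left_comm (c ^ 2), mul_left_comm (c ^ 2), Finset.mul_sum _ _ (c ^ 2)]
  refine mul_le_mul_of_nonneg_left (mul_le_mul_of_nonneg_left (Finset.sum_le_sum fun x _ => ?_)
    (by norm_num)) (Nat.cast_nonneg n)
  rw [Finset.mul_sum]
  refine Finset.sum_le_sum fun y _ => ?_
  rw [mul_left_comm (c ^ 2)]
  refine mul_le_mul_of_nonneg_left ?_
    (mul_nonneg ((Chain22.hbRC hn hw).pos x).le ((Chain22.hbRC hn hw).nn x y))
  nlinarith [cl_sub_sq (c * f x) (c * f y)]

/-- a weak Poincaré inequality bounds the energy of `P_t l` below -/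
theorem wp_lower {w : Cube n → ℝ} (hn : 0 < n) (hw : ∀ x, 0 < w x) {N q β η t : ℝ} (hN : 0 < N)
    (hq : 0 < q) (β0 : 0 ≤ β) (ht : 0 ≤ t) {u : Fin n → ℝ} (hu : u ⬝ᵥ u = 1)
    (hodd : ∀ f : Cube n → ℝ, (∀ x, f (Bar.neg x) = -f x) → mean w f = 0)
    (hW : ∀ f : Cube n → ℝ, (∀ x, |f x| ≤ 1) → var w f ≤ β * (N * dir w f) + η) :
    mean w (fun x => (u ⬝ᵥ sv x) ^ 2) / N - mean w (fun x => (u ⬝ᵥ sv x) ^ 4) / (q * N ^ 2) ≤
      2 * β * dir w (sg w t fun x => u ⬝ᵥ sv x) + 2 * q * η + 2 * (t / N) := by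
  have hw' := Wt.of_pos hw
  set c := (√(q * N))⁻¹ with hc
  have c2 : c ^ 2 = (q * N)⁻¹ := by rw [hc, inv_pow, sq_sqrt (by positivity)]
  have c4 : c ^ 4 = (q * N)⁻¹ ^ 2 := by rw [← c2]; ring
  set l : Cube n → ℝ := fun x => u ⬝ᵥ sv x with hl
  have h1 : mean w (fun x => cl (c * l x)) = 0 := hodd _ fun x => by
    simp only [hl, Bar.sv_neg, dotProduct_neg, mul_neg, cl_neg]
  have h2 : c ^ 2 * mean w (fun x => l x ^ 2) - c ^ 4 * mean w (fun x => l x ^ 4) ≤
      var w fun x => cl (c * l x) := by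
    rw [var_eq_cov, cov_eq_mean, h1, ← mean_const_mul, ← mean_const_mul, ← mean_sub]
    exact hw'.mean_mono fun x => by nlinarith [le_cl_sq (c * l x)]
  have h3 := var_add_le hw' (fun x => cl (c * sg w t l x))
    (fun x => cl (c * l x) - cl (c * sg w t l x)) one_pos
  simp only [add_sub_cancel] at h3
  have h4 := (hW _ fun x => abs_cl_le (c * sg w t l x)).trans (add_le_add (mul_le_mul_of_nonneg_left
    (mul_le_mul_of_nonneg_left (dir_cl_le hn hw c _) hN.le) β0) le_rfl)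
  have h5 : var w (fun x => cl (c * l x) - cl (c * sg w t l x)) ≤ c ^ 2 * t := by
    refine (hw'.var_le_mean _ 0).trans ((hw'.mean_mono (g := fun x => c ^ 2 * (sg w t l x - l x) ^ 2)
      fun x => by nlinarith [cl_sub_sq (c * l x) (c * sg w t l x)]).trans ?_)
    rw [mean_const_mul]
    refine mul_le_mul_of_nonneg_left ((mean_sg_sub_sq_le hn hw ht l).trans ?_) (sq_nonneg c)
    exact mul_le_of_le_one_right ht ((dir_lin_le hw u).trans_eq hu)
  have h6 : c ^ 2 * mean w (fun x => l x ^ 2) - c ^ 4 * mean w (fun x => l x ^ 4) ≤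
      2 * (β * (N * (c ^ 2 * dir w (sg w t l))) + η) + 2 * (c ^ 2 * t) := by
    norm_num at h3
    linarith
  rw [c2, c4] at h6
  generalize mean w (fun x => l x ^ 2) = A at h6 ⊢
  generalize mean w (fun x => l x ^ 4) = B at h6 ⊢
  refine le_of_mul_le_mul_left (le_of_eq_of_le ?_ (h6.trans_eq ?_)) (inv_pos.2 hq) <;> field_simp

theorem kpos (hG : GRStmt) (hT : TopStmt) (hW : Soft.WPStmt) :
    ∃ c : ℝ, 0 < c ∧ ∀ T α : ℝ, 0 < T → DLat T α → 2 * T * c ≤ α := by
  obtain ⟨C, hG⟩ := whp_GE hG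
  obtain ⟨δ, M, δ0, hT⟩ := hT (1 / 4) (by norm_num)
  set q := 2 * (|M| + 1) / δ with hq
  have q0 : 0 < q := by positivity
  obtain ⟨β, hW⟩ := hW (δ / (16 * q)) (1 / 4) (by positivity) (by norm_num)
  have β0 : 0 < |β| + 1 := by positivity
  refine ⟨δ / (16 * (|β| + 1)), by positivity, fun T α T0 hD => ?_⟩
  set ε := δ * T / (16 * (|β| + 1)) with hε
  have ε0 : 0 < ε := by positivity
  have D0 := DT_nonneg (C := C) T0.le
  obtain ⟨η, η0, hD⟩ := hD ε ε0
  have hW' : Off disorderLaw (1 / 4) fun n g => ∀ f : Cube n → ℝ, (∀ x, |f x| ≤ 1) →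
      var (gibbsWeight n 1 g) f ≤ β * (N23 n * dir (gibbsWeight n 1 g) f) + δ / (16 * q) :=
    Eventually.mono hW fun n hn => le_trans (measure_mono fun g hg => by
      simpa only [mem_ofPred_eq, not_forall, not_le, exists_prop, dirichletForm_eq, gibbsVar_eq]
        using hg) hn
  have h1 := (hT.and (hW'.fst (ν := fun n => gv (Fin n))) (by norm_num) (by norm_num)).and
    (off_of_whp (hG.and (hD (min (1 / 2) (ε / (DT C T + 1))) (by positivity)))
      (show (0 : ℝ) < 1 / 4 by norm_num)) (by norm_num) (by norm_num)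
  obtain ⟨n, ⟨⟨p, ⟨⟨u, hu, a1, a2⟩, a3⟩, a4, a5⟩, a6⟩, a7⟩ := (((off_exists h1 (by norm_num)).and
    (ev_e0 η0)).and (ev_div (2 * T) (show 0 < δ / 16 by positivity))).exists
  have N0 := Soft.N23_pos a4.n0
  have b1 := wp_lower a4.n0 a4.pos N0 q0 β0.le (t := 2 * T) (by positivity) hu.1
    (fun f hf => Soft.mean_odd p.1 hf) fun f hf => (a3 f hf).trans (add_le_add
      (mul_le_mul_of_nonneg_right ((le_abs_self β).trans (le_add_of_nonneg_right zero_le_one))
        (mul_nonneg N0.le (Ent.dir_nonneg a4.pos f))) le_rfl)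
  have b2 := dir_sg_le_vs a4.n0 a4.pos T0.le fun x => u ⬝ᵥ sv x
  have b3 := a4.quad_le T0.le hu a6 ((a5.trans (min_le_left _ _)).trans_lt (by norm_num))
  simp only [slE_zero, post_zero, Am_quad] at b3
  have b4 : DT C T * bad (gibbsWeight n 1 p.1) (Wmat n p.1 p.2) T 0 ε η α ≤ ε := by
    have := (le_div_iff₀ (by positivity)).1 (a5.trans (min_le_right _ _))
    nlinarith [bad_nonneg (W := Wmat n p.1 p.2) (T := T) (r := 0) (ε := ε) (η := η) (a := α) a4.wt]
  have b5 := (le_div_iff₀ N0).2 a1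
  have b6 : mean (gibbsWeight n 1 p.1) (fun x => (u ⬝ᵥ sv x) ^ 4) / (q * N23 n ^ 2) ≤ δ / 2 := by
    rw [div_le_iff₀ (by positivity), hq]
    refine a2.trans (le_of_le_of_eq (mul_le_mul_of_nonneg_right ((le_abs_self M).trans
      (le_add_of_nonneg_right zero_le_one)) (sq_nonneg _)) (by field_simp))
  have b7 : 2 * q * (δ / (16 * q)) = δ / 8 := by field_simp; norm_num
  have b8 : δ / 4 ≤ 2 * (|β| + 1) *
      dir (gibbsWeight n 1 p.1) (sg (gibbsWeight n 1 p.1) (2 * T) fun x => u ⬝ᵥ sv x) := by linarith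
  have b9 := mul_le_mul_of_nonneg_left (b2.trans b3) β0.le
  have e1 : (|β| + 1) * ε = δ * T / 16 := by rw [hε]; field_simp
  have b10 := mul_le_mul_of_nonneg_left b4 β0.le
  have b11 := mul_le_mul_of_nonneg_left b8 T0.le
  rw [mul_div_assoc', div_le_iff₀ (by positivity)]
  nlinarith

theorem exists_isK (hL : DLStmt) (hG : GRStmt) (hT : TopStmt) (hW : Soft.WPStmt) : ∃ k, IsK k := by
  obtain ⟨c, c0, hc⟩ := kpos hG hT hW
  have h1 : ∀ T : ℝ, ∃ α : ℝ, 0 < T → DLat T α := fun T => by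
    by_cases h : 0 < T
    · obtain ⟨α, hα⟩ := hL T h.le
      refine ⟨α, fun _ ε hε => ?_⟩
      obtain ⟨η, η0, c', c'0, h'⟩ := hα ε hε
      exact ⟨η, η0, fun δ hδ => whp_bad (a := fun _ => α) c'0 hδ h'⟩
    · exact ⟨0, fun h' => absurd h' h⟩
  choose α hα using h1
  have hb : ∀ T : Ioi (0 : ℝ), c ≤ α T / (2 * T) := fun T =>
    (le_div_iff₀' (by have : (0 : ℝ) < T := T.2; positivity)).2 (hc _ _ T.2 (hα _ T.2))
  refine ⟨⨅ T : Ioi (0 : ℝ), α T / (2 * T), c0.trans_le (le_ciInf hb), α, fun T T0 => ⟨hα T T0,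
    (le_div_iff₀' (by positivity)).1 (ciInf_le ⟨c, forall_mem_range.2 hb⟩ (⟨T, T0⟩ : Ioi (0 : ℝ)))⟩,
    fun e he => ?_⟩
  obtain ⟨T, hT⟩ := exists_lt_of_ciInf_lt (lt_add_of_pos_right (⨅ T : Ioi (0 : ℝ), α T / (2 * T)) he)
  exact ⟨T, T.2, (div_le_iff₀' (by have : (0 : ℝ) < T := T.2; positivity)).1 hT.le⟩

end Crest.Agent.T157.Rec

end
end

-- ▼ part T157/DsF_77
section

/-!
# Row 157, part C (helper77): `Tr.DStar k` and `I2Stmt k`
-/

set_option autoImplicit false
set_option linter.unusedSectionVars false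

noncomputable section

namespace Crest.Agent.T157.Rec

open MeasureTheory ProbabilityTheory Filter Topology Set Real Matrix Function
open Crest.ProbabilityR.SpinGlassDynamics
open Crest.Agent.T157.E Crest.Agent.T157.SL Crest.Agent.T157.Eig Crest.Agent.T157.Tr
open Crest.Agent.T157.Chain22 (sg)
open Crest.Agent.T157.Da (DAev tm e0 badP DAStmt DLStmt GRStmt)
open Crest.Agent.T157.Soft (N23)
open Crest.Agent.T157.Top (Whp)

variable {n : ℕ} {k : ℝ}

theorem mul_le_of_le_div {D b e : ℝ} (D0 : 0 ≤ D) (b0 : 0 ≤ b) (h : b ≤ e / (D + 1)) : D * b ≤ e := by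
  have := (le_div_iff₀ (by positivity)).1 h
  linarith

/-- the blocks exist with high probability -/
theorem whp_blk (hA : DAStmt) (hG : GRStmt) (hw : AwStmt) (hT : TopStmt) (hk : IsK k) {k1 : ℝ}
    (k0 : 0 < k1) (hk1 : k1 < k) : ∃ τ r0 : ℝ, 0 < τ ∧ 0 < r0 ∧ ∀ r θ M o ζ L : ℝ, 0 < r → r ≤ r0 →
      0 < θ → 0 < M → 0 < o → 0 < ζ → 0 < L → ∃ s1 : ℝ, 0 < s1 ∧ ∀ s, 0 < s → s ≤ s1 →
        Whp PM fun n p => Blk (gibbsWeight n 1 p.1) (Pw (Wmat n p.1 p.2) (L / N23 n)) s r (τ / r) k1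
          θ M o ζ := by
  obtain ⟨C, hG⟩ := whp_GE hG
  obtain ⟨-, α, hα, -⟩ := hk
  have c1 : ContinuousAt (fun x : ℝ => (1 + x) ^ 2 * exp (4 * x) * k1) 0 := by fun_prop
  obtain ⟨x, ⟨hx, x1⟩, x0⟩ := ((((c1.eventually (gt_mem_nhds (by simpa using hk1))).and
    (ge_mem_nhds (show (0 : ℝ) < 1 / 4 by norm_num))).filter_mono
      (nhdsWithin_le_nhds (s := Ioi (0 : ℝ)))).and self_mem_nhdsWithin).exists
  replace x0 : 0 < x := x0
  set ρ := (1 + x) ^ 2 * exp (4 * x) with hρ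
  have ρ0 : 0 < ρ := by positivity
  set γ := k - ρ * k1 with hγ
  have γ0 : 0 < γ := sub_pos.2 hx
  set τ := γ / (64 * ((1 + x⁻¹) * (1 + x))) with hτ
  have τ0 : 0 < τ := by positivity
  refine ⟨τ, x, τ0, x0, fun r θ M o ζ L r0 hr θ0 M0 o0 ζ0 L0 => ?_⟩
  set T := τ / r with hTd
  have T0 : 0 < T := by positivity
  set T' := T * (1 + x⁻¹) * 4 / γ with hT'
  have T'0 : 0 < T' := by positivity
  set ε := min (ζ / 2) (γ * T / (4 * ρ)) with hε
  have ε0 : 0 < ε := by positivity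
  have D0 := DT_nonneg (C := C) T0.le
  have D0' := DT_nonneg (C := C) T'0.le
  obtain ⟨η, η0, a, c, c0, h1⟩ := hA T T0.le r r0.le ε ε0
  obtain ⟨η', η'0, h2⟩ := (hα T' T'0).1 (γ * T' / 4) (by positivity)
  obtain ⟨r1, r10, h3⟩ := hw η θ o η0 θ0 o0
  refine ⟨r1 / M, by positivity, fun s s0 hs => ((((hG.and hT.soft).and (whp_bad c0
    (show 0 < min (1 / 2) (ε / (2 * DT C T + 1)) by positivity) h1)).and
    (h2 (min (1 / 2) (γ * T' / 4 / (DT C T' + 1))) (by positivity))).and (h3 s s0)).mono ?_⟩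
  filter_upwards [ev_e0 η0, ev_e0 η'0, ev_win L] with n e1 e2 e3 p ⟨⟨⟨⟨g, u, hu⟩, b1⟩, b2⟩, b3⟩
  have l0 : 0 ≤ L / N23 n := (div_pos L0 (Soft.N23_pos g.n0)).le
  have b1' := (b1.trans (min_le_left _ _)).trans_lt (show (1 / 2 : ℝ) < 1 by norm_num)
  have b2' := (b2.trans (min_le_left _ _)).trans_lt (show (1 / 2 : ℝ) < 1 by norm_num)
  have n1 := bad_nonneg (W := Wmat n p.1 p.2) (T := T) (r := r) (ε := ε) (η := η) (a := a n) g.wt
  have d1 := mul_le_of_le_div (by positivity) n1 (b1.trans (min_le_right _ _))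
  have d2 := mul_le_of_le_div D0' (bad_nonneg g.wt) (b2.trans (min_le_right _ _))
  refine ⟨a n, Pw (Wmat n p.1 p.2) η, Pw_transpose _ _, Pw_mul g.herm (e3.trans e1),
    opn_one_sub_Pw_le g.herm _, fun v hv => b3 v ⟨hv.1, hv.2.trans ((le_div_iff₀' M0).1 hs)⟩, ?_,
    (g.dA_le T0.le hu l0 e3 e1 ε0.le b1').trans (by linarith [min_le_left (ζ / 2) (γ * T / (4 * ρ))])⟩
  have f1 := g.link r0.le T0 T'0 x0 hu e1 e2 b1' b2'
  have f2 : k - γ / 4 ≤ (α T' - γ * T' / 4 - DT C T' *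
      bad (gibbsWeight n 1 p.1) (Wmat n p.1 p.2) T' 0 (γ * T' / 4) η' (α T')) / (2 * T') := by
    rw [le_div_iff₀ (by positivity)]
    linarith [(hα T' T'0).2]
  have f3 : (1 + x⁻¹) * ((1 + x) * (exp (4 * r) - 1) * (2 * T) + T / T') ≤ γ / 2 := by
    have a1 : exp (4 * r) - 1 ≤ 8 * r := by
      have := (le_abs_self _).trans (abs_exp_sub_one_le (x := 4 * r) (abs_le.2 ⟨by linarith, by linarith⟩))
      rw [abs_of_pos (by positivity)] at this
      linarith
    have a2 : (1 + x⁻¹) * ((1 + x) * (8 * r) * (2 * T) + T / T') = γ / 2 := by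
      rw [hT', hTd, hτ]; field_simp; norm_num
    rw [← a2]
    gcongr
  set A := (a n + ε + DT C T * bad (gibbsWeight n 1 p.1) (Wmat n p.1 p.2) T r ε η (a n)) / (2 * T)
    with hA'
  have f4 : ρ * k1 + γ / 4 ≤ (1 + x) ^ 2 * exp (4 * r) * A := by linarith
  have A0 : 0 < A := (mul_pos_iff_of_pos_left (by positivity)).1 (lt_of_lt_of_le (by positivity) f4)
  have f5 : (1 + x) ^ 2 * exp (4 * r) * A ≤ ρ * A := by rw [hρ]; gcongr
  have f6 : ρ * (2 * ε) ≤ γ / 4 * (2 * T) := by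
    have := (le_div_iff₀ (by positivity)).1 (min_le_right (ζ / 2) (γ * T / (4 * ρ)))
    linarith
  have f7 : A * (2 * T) ≤ a n + 2 * ε := by
    rw [hA', div_mul_cancel₀ _ (by positivity)]
    nlinarith [mul_nonneg D0 n1]
  have f8 := mul_le_mul_of_nonneg_right (f4.trans f5) (show 0 ≤ 2 * T by positivity)
  have f9 := mul_le_mul_of_nonneg_left f7 ρ0.le
  exact le_of_mul_le_mul_left (by linarith) ρ0

theorem exists_seq {t δ : ℝ} (ht : 0 < t) (hδ : 0 < δ) (hδ1 : δ ≤ 1) {Q : ℝ → ℝ → Prop}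
    (h : ∀ u, 0 < u → u ≤ t → ∃ s1, 0 < s1 ∧ ∀ s, 0 < s → s ≤ s1 → Q s u) :
    ∃ U : ℕ → ℝ, U 0 = t ∧ Antitone U ∧ ∀ i, 0 < U i ∧ U (i + 1) ≤ δ * U i ∧ Q (U (i + 1)) (U i) := by
  choose! f f0 hf using h
  let U : ℕ → ℝ := fun i => Nat.rec t (fun _ u => min (f u) (δ * u)) i
  have h1 : ∀ i, 0 < U i ∧ U i ≤ t := fun i => by
    induction i with
    | zero => exact ⟨ht, le_rfl⟩
    | succ i ih => exact ⟨lt_min (f0 _ ih.1 ih.2) (mul_pos hδ ih.1), (min_le_right _ _).trans
        ((mul_le_of_le_one_left ih.1.le hδ1).trans ih.2)⟩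
  exact ⟨U, rfl, antitone_nat_of_succ_le fun i => (min_le_right _ _).trans
    (mul_le_of_le_one_left (h1 i).1.le hδ1), fun i => ⟨(h1 i).1, min_le_right _ _,
      hf _ (h1 i).1 (h1 i).2 _ (h1 (i + 1)).1 (min_le_left _ _)⟩⟩

/-- **(D\*)** -/
theorem dstar (hA : DAStmt) (hG : GRStmt) (hw : AwStmt) (hT : TopStmt) (hP : APStmt disorderLaw)
    (hk : IsK k) : DStar k := by
  intro t0 e o L ε t00 e0' o0 L0 ε0
  have k0 := hk.1
  set η := min 1 (e / (3 + k)) with hη
  have η0 : 0 < η := by positivity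
  have η1 : η ≤ 1 := min_le_left _ _
  have η2 : η * (3 + k) ≤ e := (le_div_iff₀ (by positivity)).1 (min_le_right _ _)
  have k1 : 0 < k / (1 + η) := by positivity
  obtain ⟨τ, r0, τ0, r00, hB⟩ := whp_blk hA hG hw hT hk k1 (div_lt_self k0 (by linarith))
  obtain ⟨t1, C, t10, C1, hP⟩ := hP (ε / 2) (by positivity)
  obtain ⟨J, δ, M, C', δ0, δ1, M1, C'0, hc⟩ := ds_core C1 η0 k1 τ0
  have M0 : 0 < M := by linarith
  obtain ⟨t0', K, t0'0, K0, hP⟩ := hP (min δ (e / (k * C'))) (by positivity)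
  obtain ⟨U, U0, Ua, hU⟩ := exists_seq (t := min (min t0 t0') r0) (δ := δ / M) (by positivity)
    (by positivity) ((div_le_one M0).2 (by linarith)) (Q := fun s u => Whp PM fun n p =>
      Blk (gibbsWeight n 1 p.1) (Pw (Wmat n p.1 p.2) (L / N23 n)) s (δ * u) (τ / (δ * u)) (k / (1 + η))
        δ M (δ * o) (δ * o * (τ / (δ * u)))) fun u u0 hu => hB (δ * u) δ M (δ * o) _ L (by positivity)
      ((mul_le_of_le_one_left u0.le δ1).trans (hu.trans (min_le_right _ _))) δ0 M0 (by positivity)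
      (by positivity) L0
  have hU0 : ∀ i, U i ≤ min t0 t0' := fun i => (Ua (Nat.zero_le i)).trans (U0.le.trans (min_le_left _ _))
  have UJ := (hU J).1
  refine ⟨δ * U J, by positivity, (((hP.fst (ν := fun n => gv (Fin n))).and (off_of_whp
    (Whp.finset (Finset.range J) fun i _ => (hU i).2.2) (half_pos ε0)) (by positivity)
    (by positivity)).le (add_halves ε).le).mono ?_⟩
  filter_upwards [eventually_gt_atTop 0, ev_div K UJ] with n hn hK p ⟨⟨⟨ε', p', ρ, h1, h2, h3, h4⟩, h5⟩, h6⟩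
    κ _ f b b0 hb
  have N0 := Soft.N23_pos hn
  have e1 : (b * √(min δ (e / (k * C')) / N23 n)) ^ 2 = min δ (e / (k * C')) / N23 n * b ^ 2 := by
    rw [mul_pow, sq_sqrt (by positivity), mul_comm]
  obtain ⟨j, hj, B, hB1, hB2, hB3⟩ := hc (gibbsWeight n 1 p.1) ε' p' _ t0' t1 ρ _ o _ (fun j => U (J - j))
    (fun j => τ / (δ * U (J - (j + 1)))) hn (gibbsWeight_pos 1 _) h1 h2
    (fun r hr => (h3 r hr).trans (min_le_left _ _)) (h4.trans (min_le_left _ _)) (Pw_transpose _ _)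
    (Pw_mul_self (Wmat_isHermitian p.1 p.2) (L / N23 n)) o0
    (fun j _ => ⟨hK.trans (Ua (Nat.sub_le J j)), (hU0 _).trans (min_le_right _ _)⟩)
    (fun j hj => by
      have e2 : J - j = J - (j + 1) + 1 := by omega
      have u0 := (hU (J - (j + 1))).1
      simp only [e2]
      refine ⟨?_, (div_mul_cancel₀ _ (by positivity)).ge, h6 _ (Finset.mem_range.2 (by omega))⟩
      have := (hU (J - (j + 1))).2.1
      rwa [div_mul_eq_mul_div, le_div_iff₀' M0] at this)
    f b b0 hb (by rw [e1]; exact h5 κ f b hb)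
  refine ⟨_, ⟨mul_le_mul_of_nonneg_left (Ua (Nat.sub_le J (j + 1))) δ0.le,
    (mul_le_of_le_one_left (hU _).1.le δ1).trans ((hU0 _).trans (min_le_left _ _))⟩, B, hB1, hB2,
    hB3.trans ?_⟩
  have E0 : 0 ≤ ∑ a, dir (gibbsWeight n 1 p.1) (f a) :=
    Finset.sum_nonneg fun a _ => Ent.dir_nonneg (gibbsWeight_pos 1 _) (f a)
  generalize ∑ a, dir (gibbsWeight n 1 p.1) (f a) = E at E0
  have a1 : ((1 + η) ^ 2 + η * k) * E ≤ (1 + e) * E := mul_le_mul_of_nonneg_right (by nlinarith) E0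
  have a2 : k * C' * min δ (e / (k * C')) ≤ e := (le_div_iff₀' (by positivity)).1 (min_le_right _ _)
  have a3 := mul_le_mul_of_nonneg_right a2 (show 0 ≤ b ^ 2 / N23 n by positivity)
  rw [e1, le_div_iff₀ k0, mul_div_assoc e]
  refine le_of_eq_of_le ?_ (add_le_add a1 a3)
  field_simp

/-- **(I2)** -/
theorem i2 (hG : GRStmt) (hH : HStmt) (hk : IsK k) : I2Stmt k := by
  intro e ε e0' ε0
  obtain ⟨C, hG⟩ := whp_GE hG
  obtain ⟨k0, α, hα, hα'⟩ := hk
  refine ⟨3 / (e * k), by positivity, fun K hK => ?_⟩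
  have K0 : 0 < K := lt_of_lt_of_le (by positivity) hK
  set η := min 1 (e / 3) with hη
  have η0 : 0 < η := by positivity
  have η1 : η ≤ 1 := min_le_left _ _
  have η2 : (1 + η) ^ 2 ≤ 1 + e := by nlinarith [min_le_right 1 (e / 3)]
  set e1 := e / (4 * (1 + e) * K) with he1
  have e10 : 0 < e1 := by positivity
  obtain ⟨T, T0, hT⟩ := hα' e1 e10
  have α0 : 0 < α T := lt_of_lt_of_le (by positivity) (hα T T0).2
  obtain ⟨η', η'0, h1⟩ := (hα T T0).1 (2 * T * e1) (by positivity)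
  set x := e / (2 * (2 * exp (2 * C * T) * K * (4 + (1 + η⁻¹) * (64 * T + 20)))) with hx
  have x0 : 0 < x := by positivity
  obtain ⟨L, L0, h2⟩ := hH K x (ε / 2) x0 (by positivity)
  refine Off.of_fst (ν := fun n => gv (Fin n)) (((h2.and (off_of_whp (hG.and (h1 x x0)) (half_pos ε0))
    (by positivity) (by positivity)).le (add_halves ε).le).mono ?_)
  filter_upwards [ev_e0 η'0, ev_win L, ev_div K (show 0 < min (min x (η / 4)) (1 / (8 * T)) by positivity)]
    with n a1 a2 a3 p ⟨b1, g, b2⟩ κ _ f B hB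
  have N0 := Soft.N23_pos g.n0
  set w := gibbsWeight n 1 p.1 with hw
  set W := Wmat n p.1 p.2 with hW
  set s := K / N23 n with hs
  have s0 : 0 < s := by positivity
  have s1 : s ≤ x := a3.trans ((min_le_left _ _).trans (min_le_left _ _))
  have s2 : s ≤ η / 4 := a3.trans ((min_le_left _ _).trans (min_le_right _ _))
  have s3 : s * (8 * T) ≤ 1 := (le_div_iff₀ (by positivity)).1 (a3.trans (min_le_right _ _))
  have l0 : 0 ≤ L / N23 n := by positivity
  have hQ := opn_one_sub_Pw_le g.herm (L / N23 n)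
  have hQt : (1 - Pw W (L / N23 n))ᵀ = 1 - Pw W (L / N23 n) := by
    rw [transpose_sub, transpose_one, Pw_transpose]
  have m1 : MG fun y => s⁻¹ * opn ((1 - Pw W (L / N23 n)) * Xp sv w (s, y)) :=
    (mg_opn fun i j => MG.sum Finset.univ fun l _ =>
      ((mg_pcov g.wt s (fun x => sv x l) fun x => sv x j).const_mul s).const_mul _).const_mul _
  obtain ⟨r1, r2⟩ := g.gr0.recovery (P := Pw W (L / N23 n)) (α := α T + 2 * T * e1)
    (B := {x | ¬ DAev W (Am w T x) (2 * T * e1) η' (α T)}) g.n0 g.pos g.C0 T0.le s0.le η0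
    (by positivity) (fun a => (mulVec_dot_le _ a).trans (mul_le_of_le_one_left (SL.dot_self_nonneg a)
      (pow_le_one₀ (opn_nonneg _) (opn_Pw_le g.herm _))))
    (fun a => (mulVec_dot_le _ a).trans (mul_le_of_le_one_left (SL.dot_self_nonneg a)
      (pow_le_one₀ (opn_nonneg _) hQ)))
    (fun y hy a => by
      have := (abs_le.1 (g.bil l0 a2 l0 (a2.trans a1) (not_not.1 hy) a a)).2
      rw [nrm_mul_self] at this
      linarith)
    m1 (fun y => mul_nonneg (inv_pos.2 s0).le (opn_nonneg _))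
    (fun y h => covV_proj_le (g.wt.post sv s y) _ sv (mul_nonneg (inv_pos.2 s0).le (opn_nonneg _))
      (fun a => by
        have c1 := (le_abs_self _).trans (abs_bil_le ((1 - Pw W (L / N23 n)) * Xp sv w (s, y)) a
          ((1 - Pw W (L / N23 n)) *ᵥ a))
        have c2 := mul_le_mul_of_nonneg_left (mul_le_mul_of_nonneg_left ((nrm_mulVec_le _ a).trans
          (mul_le_of_le_one_left (nrm_nonneg a) hQ)) (nrm_nonneg a))
          (opn_nonneg ((1 - Pw W (L / N23 n)) * Xp sv w (s, y)))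
        rw [← mulVec_mulVec, dotProduct_mulVec, ← mulVec_transpose, hQt, Xp, smul_mulVec,
          dotProduct_smul, smul_eq_mul] at c1
        rw [hQt, mul_assoc, le_inv_mul_iff₀ s0, ← nrm_mul_self]
        exact c1.trans c2) h) f hB
  have B0 : 0 ≤ B := (Finset.sum_nonneg fun _ _ => sq_nonneg _).trans (hB fun _ => true)
  have P0 : 0 ≤ Ph sv w f s := Ph_nonneg g.wt s
  have P1 : Ph sv w f s ≤ B := by
    rw [Ph_eq g.wt, ← g.wt.mean_const B, ← slE_fun (φ := sv) (s := s)]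
    exact slE_mono g.wt (.of_mg fun _ => .sum _ fun a _ => mg_var g.wt (f a) s)
      (.of_mg fun _ => .const _) fun _ y => (sum_var_le (b := √B) (g.wt.post sv s y)
        (by simpa only [sq_sqrt B0] using hB)).trans_eq (sq_sqrt B0)
  have v1 := abs_le.1 (abs_exp_sub_one_sub_id_le (x := 4 * s) (abs_le.2 ⟨by linarith, by linarith⟩))
  have v0 := vs_nonneg s0.le
  set v := (exp (4 * s) - 1) / 4 with hv
  have v2 : v - s ≤ 4 * s * s := by rw [hv]; linarith [v1.2]
  have v3 : v ≤ (1 + η) * s := by nlinarith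
  have v4 : v ≤ 2 * s := by nlinarith
  change _ ≤ _ * Ph sv w f s + _ at r1
  change _ ≤ _ * Ph sv w f s at r2
  refine ⟨_, r2.trans ?_, ?_⟩
  · have c1 : 3 ≤ K * (e * k) := (div_le_iff₀ (by positivity)).1 hK
    have c2 : 2 + 4 * T * v ≤ e * (k * K) := by nlinarith
    nlinarith [mul_le_mul_of_nonneg_right c2 P0, mul_nonneg e0'.le B0]
  have c1 : mass w {x | ¬ DAev W (Am w T x) (2 * T * e1) η' (α T)} ≤ x := by
    refine le_of_eq_of_le ?_ b2
    rw [mass_eq_mean, bad]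
    congr 1; ext σ
    simp only [zero_smul, sqrt_zero, add_zero, post_zero]
    by_cases h : DAev W (Am w T σ) (2 * T * e1) η' (α T) <;> simp [h]
  have c2 : s * (slE sv w s fun _ y => s⁻¹ * opn ((1 - Pw W (L / N23 n)) * Xp sv w (s, y))) ≤ x := by
    rw [slE_const_mul, mul_inv_cancel_left₀ s0.ne']
    exact b1 s ⟨s0.le, le_rfl⟩
  have c0 : 0 ≤ mass w {x | ¬ DAev W (Am w T x) (2 * T * e1) η' (α T)} := by
    rw [mass_eq_mean]; exact g.wt.mean_nonneg fun _ => indicator_nonneg (fun _ _ => zero_le_one) _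
  generalize mass w {x | ¬ DAev W (Am w T x) (2 * T * e1) η' (α T)} = m at r1 c1 c0
  generalize (slE sv w s fun _ y => s⁻¹ * opn ((1 - Pw W (L / N23 n)) * Xp sv w (s, y))) = θ at r1 c2
  generalize ∑ a, dir w (sg w (2 * T) (Tm w s (f a))) = D at r1 ⊢
  generalize Ph sv w f s = Φ at r1 P0 P1 ⊢
  have d1 : (1 + η) * v * m ≤ 4 * (s * x) := by
    calc (1 + η) * v * m ≤ 2 * (2 * s) * x := by gcongr; linarith
      _ = _ := by ring
  have d2 : 16 * T * v ^ 2 + 4 * s ^ 2 * θ + 4 * (v - s) ≤ (64 * T + 20) * (s * x) := by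
    have a4 := mul_le_mul_of_nonneg_left s1 s0.le
    have a5 : v ^ 2 ≤ 4 * (s * x) := by nlinarith
    nlinarith [mul_le_mul_of_nonneg_left c2 s0.le, mul_le_mul_of_nonneg_left a5 T0.le]
  have d3 : 4 * T * exp (2 * C * T) * B * ((1 + η) * v * m + (1 + η⁻¹) * (16 * T * v ^ 2 +
      4 * s ^ 2 * θ + 4 * (v - s))) ≤ 2 * T * (s / K * (e / 2 * B)) := by
    calc _ ≤ 4 * T * exp (2 * C * T) * B * (4 * (s * x) + (1 + η⁻¹) * ((64 * T + 20) * (s * x))) := by
          gcongr
      _ = _ := by rw [hx]; field_simp; norm_num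
  have d4 : (1 + η) * (α T + 2 * T * e1) * v * Φ ≤
      2 * T * (s / K * ((1 + e) * (k * K * Φ) + e / 2 * B)) := by
    calc _ ≤ (1 + η) * (2 * T * (k + e1) + 2 * T * e1) * ((1 + η) * s) * Φ := by gcongr
      _ = 2 * T * (s * ((1 + η) ^ 2 * ((k + 2 * e1) * Φ))) := by ring
      _ ≤ 2 * T * (s * ((1 + e) * (k * Φ + 2 * e1 * B))) := by
          gcongr
          nlinarith [mul_le_mul_of_nonneg_left P1 e10.le]
      _ = _ := by rw [he1]; field_simp; ring
  have d5 : D ≤ s / K * ((1 + e) * (k * K * Φ) + e * B) :=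
    le_of_mul_le_mul_left (by linarith) (show 0 < 2 * T by positivity)
  refine (mul_le_mul_of_nonneg_left d5 N0.le).trans_eq ?_
  rw [hs]; field_simp

/-- **the constant `k` with (D\*) and (I2)** -/
theorem i12 (hA : DAStmt) (hL : DLStmt) (hG : GRStmt) (hP : APStmt disorderLaw) (hH : HStmt)
    (hw : AwStmt) (hT : TopStmt) (hW : Soft.WPStmt) : ∃ k, 0 < k ∧ DStar k ∧ I2Stmt k := by
  obtain ⟨k, hk⟩ := exists_isK hL hG hT hW
  exact ⟨k, hk.1, dstar hA hG hw hT hP hk, i2 hG hH hk⟩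

end Crest.Agent.T157.Rec

end
end

-- ▼ part T157/DsG_77

/-!
# Row 157, part C (helper77): the soft direction, unconditional
-/

set_option autoImplicit false

noncomputable section

namespace Crest.Agent.T157.Rec

open MeasureTheory ProbabilityTheory Filter Topology Set Real Matrix Function
open Crest.ProbabilityR.SpinGlassDynamics
open Crest.Agent.T157.E Crest.Agent.T157.SL Crest.Agent.T157.Eig Crest.Agent.T157.Tr
open Crest.Agent.T157.Da (tm e0 DAStmt DLStmt GRStmt)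
open Crest.Agent.T157.Soft (N23)
open Crest.Agent.T157.St Crest.Agent.T157.St.Unb49 Crest.Agent.T157.St.All Crest.Agent.T157.Ed

theorem exp_lin_le {ι : Type} [Fintype ι] {μ : Measure (ι → ℝ)} (h : Cp μ) {u : ι → ℝ}
    (hu : u ⬝ᵥ u = 1) : 2 * ∫ x, exp (u ⬝ᵥ x) ∂μ ≤ Xk 1 μ μ + exp 1 := by
  have c : Cp (Measure.dirac u) := ⟨inferInstance, 1, by simp [hu]⟩
  have := (mmdStmt ι _ _ _ h c c 1 1 zero_le_one le_rfl).1
  simp only [D2, Xk, integral_dirac, one_mul, hu, dotProduct_comm _ u] at this ⊢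
  linarith

theorem four_le {ι : Type} [Fintype ι] {μ : Measure (ι → ℝ)} (h : Cp μ) {u : ι → ℝ}
    (hu : u ⬝ᵥ u = 1) : ∫ x, (u ⬝ᵥ x) ^ 4 ∂μ ≤ 24 * (Xk 1 μ μ + exp 1) := by
  have h1 := exp_lin_le h hu
  have h2 := exp_lin_le h (u := -u) (by simpa using hu)
  have i1 : Integrable (fun x => exp (u ⬝ᵥ x)) μ := integrable_cp h (by unfold dotProduct; fun_prop)
  have i2 : Integrable (fun x => exp (-u ⬝ᵥ x)) μ := integrable_cp h (by unfold dotProduct; fun_prop)
  have h3 : ∫ x, (u ⬝ᵥ x) ^ 4 ∂μ ≤ ∫ x, 24 * (exp (u ⬝ᵥ x) + exp (-u ⬝ᵥ x)) ∂μ := by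
    refine integral_mono (integrable_cp h (by unfold dotProduct; fun_prop)) ((i1.add i2).const_mul _)
      fun x => ?_
    have := Real.pow_div_factorial_le_exp _ (abs_nonneg (u ⬝ᵥ x)) 4
    rw [show (4 : ℕ) = 2 * 2 from rfl, pow_mul, sq_abs, ← pow_mul] at this
    norm_num [Nat.factorial] at this ⊢
    rcases abs_cases (u ⬝ᵥ x) with k | k <;> rw [k.1] at this <;>
      linarith [exp_pos (u ⬝ᵥ x), exp_pos (-(u ⬝ᵥ x))]
  rw [integral_const_mul, integral_add i1 i2] at h3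
  linarith

theorem topStmt : TopStmt := by
  intro ε hε
  obtain ⟨C, -, hG⟩ := goodStmt
  obtain ⟨L, w₁, hL0, hG⟩ := hG (ε / 3) (by positivity)
  obtain ⟨w₂, -, hC⟩ := coordStmt L C 1 1 hL0
  obtain ⟨B, δ, -, hδ, hC⟩ := hC (max w₁ w₂) (le_max_right _ _)
  obtain ⟨B', hB⟩ := ldStmt (ε / 3) (by positivity)
  have h1 := Off.and (Off.and (μ := GOE) (P := fun n W => W.IsHermitian ∧
    Gd n (Lam n W) (sx n ^ 2) L (max w₁ w₂) C) (hG _ (le_max_left w₁ w₂))
    (off_of_whp (closeStmt.2 1 ((δ / 2) ^ 2 / 4) zero_le_one (by positivity))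
      (show 0 < ε / 3 by positivity)) (by positivity) (by positivity))
    (Q := fun n W => Mgf (muW n W) B') hB (by positivity) (by positivity)
  refine ⟨δ / 2, 24 * (B' * exp (B' * |(1 : ℝ)| ^ (3 / 2 : ℝ)) + exp 1), by positivity,
    ((Off.goe h1).le (by linarith)).mono ?_⟩
  filter_upwards [hC, eventually_ge_atTop 8, ev_win (60 + L)] with n h2 hn h3 p ⟨⟨⟨hW, hg⟩, hD⟩, hM⟩
  have n1 : 1 ≤ n := by omega
  have N0 := Soft.N23_pos (n := n) n1
  have h0 : 0 < Fintype.card (Fin n) := by simpa using Nat.succ_le_iff.1 n1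
  have t0 : 0 < sx n ^ 2 := pow_pos (sx_pos n1) 2
  have hu := vec_dot_self hW h0
  obtain ⟨c1, c2, -⟩ := (lnkStmt n n1).1 (Wmat n p.1 p.2)
  have e1 : ∀ j : ℕ, ∫ x, (vec (Wmat n p.1 p.2) 0 ⬝ᵥ x) ^ (2 * j) ∂muW n (Wmat n p.1 p.2) =
      mean (gibbsWeight n 1 p.1) (fun x => (vec (Wmat n p.1 p.2) 0 ⬝ᵥ sv x) ^ (2 * j)) / N23 n ^ j :=
    fun j => by
      rw [(lnkStmt n n1).2.2.1, muG, integral_dm fun x => (gibbsWeight_pos 1 _ x).le, div_eq_inv_mul,
        ← mean_const_mul]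
      simp only [hat, dotProduct_smul, smul_eq_mul, mul_pow, ← sx_four, inv_pow, pow_mul]
  refine ⟨vec (Wmat n p.1 p.2) 0, ⟨hu, le_trans ?_ h3⟩, ?_, ?_⟩
  · have a1 := hg.lo 0 n1
    have a2 := hg.hi 0 (by omega)
    rw [tm, sub_mulVec, smul_mulVec, one_mulVec, mulVec_vec hW, ← sub_smul, nrm_smul, Eig.nrm, hu, sqrt_one,
      mul_one, le_div_iff₀ N0, ← abs_of_pos N0, ← abs_mul, mul_comm]
    norm_num [Lam] at a1 a2
    exact abs_le.2 ⟨by change _ ≤ tau n * _; linarith, a2⟩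
  · obtain ⟨O, hO, hv, hν⟩ := (lnkStmt n n1).2.2.2.1 _ hW
    have cD := ((lnkStmt n n1).2.1 (Lam n (Wmat n p.1 p.2)) _ t0).1
    have hsm := (isomStmt (Fin n) (Fin n) O hO _ _ cD cD).2.2.1
    have e2 : vec (Wmat n p.1 p.2) 0 = O *ᵥ Pi.single ⟨0, n1⟩ 1 := by ext i; simp [hv]
    have a1 := (mmdStmt (Fin n) _ _ _ c1 c2 c2 1 1 zero_le_one le_rfl).2.2.2.2.2.2.2
    have a2 := quad_close (A := sm (muW n (Wmat n p.1 p.2))) (B := sm (nuW n (Wmat n p.1 p.2))) hu
      (half_pos hδ).le (by linarith)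
    have a3 : δ ≤ vec (Wmat n p.1 p.2) 0 ⬝ᵥ sm (nuW n (Wmat n p.1 p.2)) *ᵥ vec (Wmat n p.1 p.2) 0 := by
      have := cD.prob
      rw [e2, hν, hsm, mulVec_mulVec, Matrix.mul_assoc, hO, Matrix.mul_one, ← mulVec_mulVec,
        dot_isom hO, quad_sm cD]
      refine ((h2 _ _ t0 hg ⟨0, n1⟩).2 one_pos).trans ?_
      have hS : MeasurableSet {x : Fin n → ℝ | 1 ≤ |x ⟨0, n1⟩|} :=
        (isClosed_le continuous_const (by fun_prop)).measurableSet
      rw [← integral_indicator_one hS]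
      refine integral_mono ((integrable_const 1).indicator hS)
        (integrable_cp cD (by unfold dotProduct; fun_prop)) fun x => ?_
      by_cases hx : x ∈ {x : Fin n → ℝ | 1 ≤ |x ⟨0, n1⟩|}
      · simp only [Set.indicator_of_mem hx, Pi.one_apply, single_one_dotProduct]
        exact (one_le_sq_iff_one_le_abs _).2 hx
      · simp only [Set.indicator_of_notMem hx]; positivity
    have a4 := e1 1
    rw [mul_one, pow_one, ← quad_sm c1] at a4
    rw [← le_div_iff₀ N0, ← a4]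
    linarith
  · have a1 := (four_le c1 hu).trans (mul_le_mul_of_nonneg_left (add_le_add (hM 1) le_rfl) (by norm_num))
    rwa [e1 2, div_le_iff₀ (by positivity)] at a1

/-- **the constant `k` with (D\*) and (I2)** -/
theorem i12' (hA : DAStmt) (hL : DLStmt) (hG : GRStmt) (hP : APStmt disorderLaw) (hH : HStmt)
    (hw : AwStmt) (hW : Soft.WPStmt) : ∃ k, 0 < k ∧ DStar k ∧ I2Stmt k :=
  i12 hA hL hG hP hH hw topStmt hW

end Crest.Agent.T157.Rec

end
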