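import Crest.Agent.T157.SpDef_87
import Crest.Agent.T157.StA_87

/-!
# Row 157 (helper85): `Sp.trfStmt`
-/

set_option autoImplicit false
set_option linter.unusedSectionVars false

noncomputable section

namespace Crest.Agent.T157.Sp

open MeasureTheory ProbabilityTheory Matrix Filter Topology Finset Real
open scoped ENNReal
open Crest.Agent.T157.E Crest.Agent.T157.St Crest.Agent.T157.St.A87 Crest.Agent.T157.SL
open Crest.Agent.T157.Rec

namespace Trf85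

variable {ι : Type*} [Fintype ι] [DecidableEq ι] {μ ν : Measure (ι → ℝ)} {K s : ℝ}


/-- density of `1 + χ²` -/
def R (K : ℝ) (μ ν : Measure (ι → ℝ)) (y : ι → ℝ) : ℝ := Mf K μ y ^ 2 / Mf K ν y








lemma out_eq (hμ : Cp μ) (hK : 0 ≤ K) {F : (ι → ℝ) → ℝ} (hF : MG F) :
    IK K (fun y => Mf K μ y * F y) = ∫ x, ∫ z, F (K • x + √K • z) ∂gv ι ∂μ := by
  have := bayes hμ hK (.const 1) hF
  simp only [one_mul] at this
  rw [this, Mf_eq]

/-- probability of a set of outputs -/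
def PY (K : ℝ) (μ : Measure (ι → ℝ)) (A : Set (ι → ℝ)) : ℝ :=
  IK K fun y => Mf K μ y * A.indicator (fun _ => (1 : ℝ)) y

lemma mg_ind {A : Set (ι → ℝ)} (hA : MeasurableSet A) : MG (A.indicator fun _ => (1 : ℝ)) :=
  (MG.const 1).indicator hA

lemma lawY_eq (hμ : Cp μ) (hK : 0 ≤ K) {A : Set (ι → ℝ)} (hA : MeasurableSet A) :
    lawY K μ A = ENNReal.ofReal (PY K μ A) := by
  have := hμ.prob
  have hm : Measurable fun p : (ι → ℝ) × (ι → ℝ) => K • p.1 + √K • p.2 := by fun_prop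
  have hp : IsProbabilityMeasure (lawY K μ) := Measure.isProbabilityMeasure_map hm.aemeasurable
  have hi : Integrable (fun p : (ι → ℝ) × (ι → ℝ) =>
      A.indicator (fun _ => (1 : ℝ)) (K • p.1 + √K • p.2)) (μ.prod (gv ι)) :=
    Integrable.of_bound ((mg_ind hA).meas.comp hm).aestronglyMeasurable 1 (.of_forall fun p => by
      by_cases h : K • p.1 + √K • p.2 ∈ A <;> simp [h])
  rw [PY, out_eq hμ hK (mg_ind hA), ← integral_prod _ hi, ← ofReal_measureReal (μ := lawY K μ),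
    ← integral_indicator_one hA, lawY]
  congr 1
  exact integral_map hm.aemeasurable (mg_ind hA).meas.aestronglyMeasurable

lemma int_pst (s : ℝ) (μ : Measure (ι → ℝ)) (y : ι → ℝ) (f : (ι → ℝ) → ℝ) :
    ∫ x, f x ∂pst s μ y = (∫ x, f x * ew s y x ∂μ) / Mf s μ y := by
  rw [pst, integral_tilted, ← integral_div]
  refine integral_congr_ae (.of_forall fun x => ?_)
  simp only [smul_eq_mul, ew, Mf]; ring

lemma cp_pst (hμ : Cp μ) (hs : 0 ≤ s) (y : ι → ℝ) : Cp (pst s μ y) := by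
  have := hμ.prob
  obtain ⟨r, hr⟩ := hμ.bdd
  exact ⟨isProbabilityMeasure_tilted ((Bs.ew hμ hs y).int hμ), r,
    (tilted_absolutelyContinuous _ _).ae_le hr⟩

lemma Mf_pst (y y' : ι → ℝ) : Mf K (pst s μ y) y' = Mf (s + K) μ (y + y') / Mf s μ y := by
  rw [Mf, int_pst]
  congr 1
  refine integral_congr_ae (.of_forall fun x => ?_)
  simp only [ew_add, mul_comm]




lemma mg_dot (v : ι → ℝ) : MG fun z : ι → ℝ => v ⬝ᵥ z :=
  MG.sum univ fun i _ => (mg_coord i).const_mul (v i)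

lemma int_dot (v : ι → ℝ) : ∫ z, v ⬝ᵥ z ∂gv ι = 0 := by
  simp only [dotProduct]
  rw [integral_finsetSum _ fun i _ => ((mg_coord i).const_mul (v i)).int]
  simp [integral_const_mul, int_coord]

lemma int_dot_sq (v : ι → ℝ) : ∫ z, (v ⬝ᵥ z) ^ 2 ∂gv ι = v ⬝ᵥ v := by
  have := int_sum_sq (ψ := fun k (z : ι → ℝ) => z k) (fun k => mg_coord k) v
  simpa [int_coord_mul, dotProduct] using this

lemma mg_pow4 {F : (ι → ℝ) → ℝ} (h : MG F) : MG fun z => F z ^ 4 := by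
  have := mg_sq (mg_sq h)
  simpa only [← pow_mul] using this

lemma int_dot_four (v : ι → ℝ) : ∫ z, (v ⬝ᵥ z) ^ 4 ∂gv ι ≤ 100 * (v ⬝ᵥ v) ^ 2 := by
  by_cases hv : v = 0
  · simp [hv]
  have h0 : 0 < v ⬝ᵥ v := Eig.dot_self_pos hv
  set c := √(v ⬝ᵥ v) with hc
  have hc0 : 0 < c := sqrt_pos.2 h0
  have hc2 : c ^ 2 = v ⬝ᵥ v := sq_sqrt h0.le
  set h : ι → ℝ := c⁻¹ • v with hh
  have h1 : h ⬝ᵥ h = 1 := by
    rw [hh, smul_dotProduct, dotProduct_smul, smul_eq_mul, smul_eq_mul, ← hc2]; field_simp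
  have h2 : ∀ z, (v ⬝ᵥ z) ^ 4 ≤ c ^ 4 * 48 * (eh h z + eh (-h) z) := fun z => by
    have e : v ⬝ᵥ z = c * (z ⬝ᵥ h) := by
      rw [hh, dotProduct_smul, smul_eq_mul, dotProduct_comm]; field_simp
    have e2 : exp (1 / 2 : ℝ) ≤ 2 := by
      have := exp_one_lt_three
      have h3 : exp (1 / 2 : ℝ) * exp (1 / 2) = exp 1 := by rw [← exp_add]; norm_num
      nlinarith [exp_pos (1 / 2 : ℝ)]
    have e3 : exp (z ⬝ᵥ h) = eh h z * exp (1 / 2) := by rw [eh, h1, ← exp_add]; congr 1; ring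
    have e4 : exp (-(z ⬝ᵥ h)) = eh (-h) z * exp (1 / 2) := by
      rw [eh, neg_dotProduct, dotProduct_neg, dotProduct_neg, h1, ← exp_add]; congr 1; ring
    have e5 := pow_div_factorial_le_exp _ (abs_nonneg (z ⬝ᵥ h)) 4
    have e6 : exp |z ⬝ᵥ h| ≤ exp (z ⬝ᵥ h) + exp (-(z ⬝ᵥ h)) := by
      rcases abs_cases (z ⬝ᵥ h) with a | a <;> rw [a.1] <;> linarith [exp_pos (z ⬝ᵥ h),
        exp_pos (-(z ⬝ᵥ h))]
    have e7 : |z ⬝ᵥ h| ^ 4 = (z ⬝ᵥ h) ^ 4 := by rw [← abs_pow]; exact abs_of_nonneg (by positivity)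
    have p1 : 0 < eh h z := exp_pos _
    have p2 : 0 < eh (-h) z := exp_pos _
    rw [e7] at e5
    norm_num [Nat.factorial] at e5
    rw [e, mul_pow, mul_assoc]
    refine mul_le_mul_of_nonneg_left ?_ (by positivity)
    nlinarith
  have h3 := integral_mono (mg_pow4 (mg_dot v)).int
    (((mg_eh h).add (mg_eh (-h))).const_mul (c ^ 4 * 48)).int h2
  rw [integral_const_mul, integral_add (mg_eh h).int (mg_eh (-h)).int, int_eh, int_eh] at h3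
  rw [← hc2]
  refine h3.trans ?_
  nlinarith [pow_pos hc0 4]

lemma lin_eq (_hK : 0 ≤ K) (v m x z : ι → ℝ) :
    v ⬝ᵥ (K • x + √K • z) - K * (v ⬝ᵥ m) = K * (v ⬝ᵥ (x - m)) + √K * (v ⬝ᵥ z) := by
  simp only [dotProduct_add, dotProduct_sub, dotProduct_smul, smul_eq_mul]; ring

lemma mg_f (K : ℝ) (v m : ι → ℝ) : MG fun y : ι → ℝ => v ⬝ᵥ y - K * (v ⬝ᵥ m) :=
  (mg_dot v).sub (.const _)

lemma mg_u (v m : ι → ℝ) : MG fun x : ι → ℝ => v ⬝ᵥ (x - m) := by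
  simpa only [dotProduct_sub] using (mg_dot v).sub (.const (v ⬝ᵥ m))

lemma out2 (hμ : Cp μ) (hK : 0 ≤ K) (v m : ι → ℝ) :
    IK K (fun y => Mf K μ y * (v ⬝ᵥ y - K * (v ⬝ᵥ m)) ^ 2) =
      K ^ 2 * ∫ x, (v ⬝ᵥ (x - m)) ^ 2 ∂μ + K * (v ⬝ᵥ v) := by
  have := hμ.prob
  rw [out_eq hμ hK (mg_sq (mg_f K v m))]
  have e : ∀ x, ∫ z, (v ⬝ᵥ (K • x + √K • z) - K * (v ⬝ᵥ m)) ^ 2 ∂gv ι =
      K ^ 2 * (v ⬝ᵥ (x - m)) ^ 2 + K * (v ⬝ᵥ v) := fun x => by
    have e1 : ∀ z, (v ⬝ᵥ (K • x + √K • z) - K * (v ⬝ᵥ m)) ^ 2 = (K ^ 2 * (v ⬝ᵥ (x - m)) ^ 2 +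
        (2 * K * (v ⬝ᵥ (x - m)) * √K) * (v ⬝ᵥ z)) + K * (v ⬝ᵥ z) ^ 2 := fun z => by
      rw [lin_eq hK]
      have := sq_sqrt hK
      linear_combination (v ⬝ᵥ z) ^ 2 * this
    simp only [e1]
    rw [integral_add ((MG.const _).add ((mg_dot v).const_mul _)).int
      ((mg_sq (mg_dot v)).const_mul K).int, integral_add (integrable_const _)
      ((mg_dot v).const_mul _).int, integral_const, integral_const_mul, integral_const_mul, int_dot,
      int_dot_sq]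
    simp
  simp only [e]
  rw [integral_add (((Bs.of_mg hμ (mg_sq (mg_u v m))).int hμ).const_mul _) (integrable_const _),
    integral_const_mul]
  simp

lemma out4 (hμ : Cp μ) (hK : 0 ≤ K) (v m : ι → ℝ) :
    IK K (fun y => Mf K μ y * (v ⬝ᵥ y - K * (v ⬝ᵥ m)) ^ 4) ≤
      8 * K ^ 4 * ∫ x, (v ⬝ᵥ (x - m)) ^ 4 ∂μ + 800 * K ^ 2 * (v ⬝ᵥ v) ^ 2 := by
  have := hμ.prob
  rw [out_eq hμ hK (mg_pow4 (mg_f K v m))]
  have e : ∀ x, ∫ z, (v ⬝ᵥ (K • x + √K • z) - K * (v ⬝ᵥ m)) ^ 4 ∂gv ι ≤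
      8 * K ^ 4 * (v ⬝ᵥ (x - m)) ^ 4 + 800 * K ^ 2 * (v ⬝ᵥ v) ^ 2 := fun x => by
    have e1 : ∀ z, (v ⬝ᵥ (K • x + √K • z) - K * (v ⬝ᵥ m)) ^ 4 ≤
        8 * K ^ 4 * (v ⬝ᵥ (x - m)) ^ 4 + 8 * K ^ 2 * (v ⬝ᵥ z) ^ 4 := fun z => by
      rw [lin_eq hK]
      have h1 : (√K * (v ⬝ᵥ z)) ^ 4 = K ^ 2 * (v ⬝ᵥ z) ^ 4 := by
        rw [mul_pow, show (√K) ^ 4 = ((√K) ^ 2) ^ 2 by ring, sq_sqrt hK]
      have h2 : ∀ a b : ℝ, (a + b) ^ 4 ≤ 8 * a ^ 4 + 8 * b ^ 4 := fun a b => by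
        nlinarith [sq_nonneg (a - b), sq_nonneg (a + b), sq_nonneg (a ^ 2 - b ^ 2),
          mul_nonneg (sq_nonneg (a - b)) (sq_nonneg (a + b)), sq_nonneg (a ^ 2 + b ^ 2),
          mul_nonneg (sq_nonneg (a - b)) (add_nonneg (sq_nonneg a) (sq_nonneg b))]
      refine (h2 _ _).trans (le_of_eq ?_)
      rw [h1]; ring
    have i1 := ((MG.const (8 * K ^ 4 * (v ⬝ᵥ (x - m)) ^ 4)).add
      ((mg_pow4 (mg_dot v)).const_mul (8 * K ^ 2))).int
    refine (integral_mono ((mg_pow4 (mg_f K v m)).affine (K • x) √K).int i1 e1).trans ?_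
    rw [integral_add (integrable_const _) ((mg_pow4 (mg_dot v)).const_mul (8 * K ^ 2)).int,
      integral_const, integral_const_mul]
    have := mul_le_mul_of_nonneg_left (int_dot_four v) (show 0 ≤ 8 * K ^ 2 by positivity)
    simp only [probReal_univ, smul_eq_mul, one_mul]
    linarith
  have i2 := (((Bs.of_mg hμ (mg_pow4 (mg_u v m))).int hμ).const_mul (8 * K ^ 4)).add
    (integrable_const (800 * K ^ 2 * (v ⬝ᵥ v) ^ 2))
  refine (integral_mono_of_nonneg (.of_forall fun x => integral_nonneg fun z => by positivity) i2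
    (.of_forall e)).trans (le_of_eq ?_)
  simp only [Pi.add_apply]
  rw [integral_add (((Bs.of_mg hμ (mg_pow4 (mg_u v m))).int hμ).const_mul _) (integrable_const _),
    integral_const_mul]
  simp


end Trf85

open Trf85


end Crest.Agent.T157.Sp

end
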