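import Crest.Agent.T157.SpDef_87
import Crest.Agent.T157.StShell_38
import Crest.Agent.T157.ConcHW_16
import Crest.Agent.T157.StIso_42
import Crest.Agent.T157.StA_87
import Crest.Agent.Lib.PrekopaLeindler
import Crest.Agent.T157.StCl_28
import Crest.Agent.T157.StAll_87
import Crest.Agent.T157.SpWinA_34
import Crest.Agent.T157.SpDom_15
import Crest.Agent.T157.SpLow_15
import Crest.Agent.T157.SpGap_15
import Crest.Agent.T157.SpTrf_85

-- ▼ part T157/SpChar_15
section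

/-!
# Row 157: the characteristic function of `|x|²` under a Gaussian law (`Sp.CharStmt`) (helper15)
-/

set_option autoImplicit false

noncomputable section

namespace Crest.Agent.T157.Sp

open MeasureTheory ProbabilityTheory Finset Real Crest.Agent.T157.St

namespace Char15

/-- the exponent of one coordinate -/
def zz (m c θ : ℝ) : ℂ :=
  -(1 / 2) * Complex.log (1 + -((2 * θ * c : ℝ) : ℂ) * Complex.I) - (θ * c : ℝ) * Complex.I -
    (2 * θ ^ 2 * c * m ^ 2 : ℝ) / (1 + -((2 * θ * c : ℝ) : ℂ) * Complex.I)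

theorem one_d (m θ : ℝ) {c : ℝ} (hc : 0 < c) :
    ∫ x, Complex.exp ((θ * (x * x - (m ^ 2 + c)) : ℝ) * Complex.I) ∂gaussianReal m c.toNNReal =
      Complex.exp (zz m c θ) := by
  set w : ℂ := 1 + -((2 * θ * c : ℝ) : ℂ) * Complex.I with hw
  have hre : w.re = 1 := by simp [hw]
  have hw0 : w ≠ 0 := fun h => by simp [h] at hre
  have hc0 : (c : ℂ) ≠ 0 := by exact_mod_cast hc.ne'
  have h2 : 0 < 2 * π * c := by positivity
  rw [integral_gaussianReal_eq_integral_smul (by simpa using hc)]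
  have e : ∀ x : ℝ, gaussianPDFReal m c.toNNReal x •
      Complex.exp ((θ * (x * x - (m ^ 2 + c)) : ℝ) * Complex.I) = ((√(2 * π * c))⁻¹ : ℝ) *
        Complex.exp (-(w / (2 * c)) * x ^ 2 + m / c * x +
          (-m ^ 2 / (2 * c) - (θ * (m ^ 2 + c) : ℝ) * Complex.I)) := fun x => by
    rw [gaussianPDFReal, Real.coe_toNNReal _ hc.le, Complex.real_smul, Complex.ofReal_mul,
      Complex.ofReal_exp, mul_assoc, ← Complex.exp_add, hw]
    congr 2
    push_cast
    field_simp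
    ring
  simp_rw [e]
  have hb : (-(w / (2 * c))).re < 0 := by
    have : (2 * c : ℂ) = (2 * c : ℝ) := by push_cast; rfl
    rw [Complex.neg_re, this, Complex.div_ofReal_re, hre]
    exact neg_lt_zero.2 (by positivity)
  have e2 : (π : ℂ) / - -(w / (2 * c)) = (2 * π * c : ℝ) * w⁻¹ := by push_cast; field_simp
  have e3 : ((√(2 * π * c))⁻¹ : ℝ) = Complex.exp (-(Real.log (2 * π * c) * (1 / 2))) := by
    rw [Real.sqrt_eq_rpow, Real.rpow_def_of_pos h2, ← Real.exp_neg, Complex.ofReal_exp]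
    push_cast; rfl
  rw [integral_const_mul, integral_cexp_quadratic hb, e2, Complex.cpow_def_of_ne_zero
    (mul_ne_zero (by exact_mod_cast h2.ne') (inv_ne_zero hw0)),
    Complex.log_ofReal_mul h2 (inv_ne_zero hw0), Complex.log_inv _ (fun h => by
      have := (Complex.arg_eq_pi_iff.1 h).1; linarith), e3, ← Complex.exp_add, ← Complex.exp_add, zz,
    ← hw]
  congr 1
  have : (θ : ℂ) * Complex.I * (2 * c) = 1 - w := by rw [hw]; push_cast; ring
  have hI := Complex.I_mul_I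
  clear_value w
  push_cast
  field_simp
  linear_combination (-(8 * m ^ 2 * c * θ * Complex.I) - 4 * m ^ 2) * this +
    16 * m ^ 2 * c ^ 2 * θ ^ 2 * hI

theorem div_w (r a : ℝ) : (r : ℂ) / (1 + -(a : ℂ) * Complex.I) =
    (r / (1 + a ^ 2) : ℝ) + (r * a / (1 + a ^ 2) : ℝ) * Complex.I := by
  have h1 : (1 + -(a : ℂ) * Complex.I) ≠ 0 := fun h => by simpa using congrArg Complex.re h
  have h2 : (1 + (a : ℂ) ^ 2) ≠ 0 := by exact_mod_cast (by positivity : (1 + a ^ 2 : ℝ) ≠ 0)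
  rw [div_eq_iff h1]
  push_cast
  field_simp
  linear_combination (r * a ^ 2) * Complex.I_mul_I

theorem zz_re (m c θ : ℝ) : (zz m c θ).re =
    -(1 / 4) * log (1 + (2 * θ * c) ^ 2) - 2 * θ ^ 2 * c * m ^ 2 / (1 + (2 * θ * c) ^ 2) := by
  have e : (-(1 / 2) : ℂ) = (-(1 / 2) : ℝ) := by push_cast; rfl
  have e2 : ∀ a : ℝ, log ‖1 + -(a : ℂ) * Complex.I‖ = log (1 + a ^ 2) / 2 := fun a => by
    rw [Complex.norm_eq_sqrt_sq_add_sq, Real.log_sqrt (by positivity)]
    simp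
  rw [zz, div_w, e]
  simp only [Complex.sub_re, Complex.add_re, Complex.re_ofReal_mul, Complex.ofReal_re, Complex.I_re,
    Complex.log_re, e2]
  ring

theorem zz_im (m θ : ℝ) {c x : ℝ} (hc : 0 < c) (h : |2 * θ * c| ≤ x) (hx : x ≤ 1 / 2) :
    |(zz m c θ).im| ≤ x * (θ ^ 2 * (2 * c ^ 2 + 4 * c * m ^ 2)) := by
  have e : (-(1 / 2) : ℂ) = (-(1 / 2) : ℝ) := by push_cast; rfl
  set a := 2 * θ * c with ha
  have hn : ‖-(a : ℂ) * Complex.I‖ = |a| := by simp
  have h0 := abs_nonneg a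
  have h1 := (Complex.abs_im_le_norm _).trans
    (Complex.norm_log_sub_logTaylor_le 2 (z := -(a : ℂ) * Complex.I) (by rw [hn]; linarith))
  have h2 : (Complex.logTaylor (2 + 1) (-(a : ℂ) * Complex.I)).im = -a := by
    simp [Complex.logTaylor, Finset.sum_range_succ, pow_succ]
  have h3 : (1 - |a|)⁻¹ ≤ 2 := by rw [inv_le_comm₀ (by linarith) two_pos]; linarith
  rw [Complex.sub_im, h2, hn] at h1
  have h4 : |(Complex.log (1 + -(a : ℂ) * Complex.I)).im + a| ≤ x * a ^ 2 := by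
    have h5 : 0 ≤ x * a ^ 2 := mul_nonneg (h0.trans h) (sq_nonneg a)
    have : |a| ^ (2 + 1) * (1 - |a|)⁻¹ ≤ x * a ^ 2 * 2 := by
      rw [pow_succ', sq_abs]
      exact mul_le_mul (mul_le_mul_of_nonneg_right h (sq_nonneg a)) h3 (inv_nonneg.2 (by linarith)) h5
    push_cast at h1
    rw [sub_neg_eq_add] at h1
    linarith
  have h5 : |2 * θ ^ 2 * c * m ^ 2 * a / (1 + a ^ 2)| ≤ 2 * θ ^ 2 * c * m ^ 2 * x := by
    rw [abs_div, abs_mul, abs_of_nonneg (by positivity), abs_of_nonneg (a := 1 + a ^ 2) (by positivity)]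
    refine (div_le_self (by positivity) (by nlinarith [sq_nonneg a])).trans ?_
    gcongr
  have h6 : (zz m c θ).im = -(1 / 2) * ((Complex.log (1 + -(a : ℂ) * Complex.I)).im + a) -
      2 * θ ^ 2 * c * m ^ 2 * a / (1 + a ^ 2) := by
    rw [zz, div_w, e, ← ha]
    simp only [Complex.sub_im, Complex.add_im, Complex.im_ofReal_mul, Complex.ofReal_im, Complex.I_im]
    rw [ha]; ring
  have h7 : 0 ≤ θ ^ 2 * c * m ^ 2 * x := mul_nonneg (by positivity) (h0.trans h)
  have h8 : x * a ^ 2 = 4 * (x * (θ ^ 2 * c ^ 2)) := by rw [ha]; ring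
  rw [h6, abs_le]
  constructor <;> nlinarith [abs_le.1 h4, abs_le.1 h5]

theorem chf_eq {ι : Type} [Fintype ι] (m : ι → ℝ) {c : ι → ℝ} (hc : ∀ k, 0 < c k) (θ : ℝ) :
    chf m c θ = Complex.exp (∑ k, zz (m k) (c k) θ) := by
  rw [Complex.exp_sum, ← Finset.prod_congr rfl fun k _ => one_d (m k) θ (hc k),
    ← integral_fintype_prod_eq_prod]
  refine integral_congr_ae (ae_of_all _ fun x => ?_)
  simp only [← Complex.exp_sum, ← Finset.sum_mul, ← Complex.ofReal_sum, ← Finset.mul_sum,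
    Finset.sum_sub_distrib, qm, dotProduct]

theorem log_ge {u : ℝ} (hu : 0 ≤ u) : u / (1 + u) ≤ log (1 + u) := by
  have := one_sub_inv_le_log_of_pos (x := 1 + u) (by linarith)
  rwa [show 1 - (1 + u)⁻¹ = u / (1 + u) by field_simp; ring] at this

end Char15

open Char15 in
theorem charStmt : CharStmt := by
  intro ι _ m c b θ hb hc hcb
  set X := (2 * θ * b) ^ 2 with hX
  have hX0 : 0 ≤ X := sq_nonneg _
  have hab : ∀ k, |2 * θ * c k| ≤ |2 * θ * b| := fun k => by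
    rw [abs_mul _ b, abs_mul _ (c k), abs_of_pos hb, abs_of_pos (hc k)]; gcongr; exact hcb k
  have ha : ∀ k, (2 * θ * c k) ^ 2 ≤ X := fun k => sq_le_sq.2 (hab k)
  have hm : ∀ k, 2 * θ ^ 2 * c k * m k ^ 2 / (1 + X) ≤
      2 * θ ^ 2 * c k * m k ^ 2 / (1 + (2 * θ * c k) ^ 2) := fun k => by
    have := hc k
    gcongr
    exact ha k
  have hn : ‖chf m c θ‖ = exp (∑ k, (zz (m k) (c k) θ).re) := by
    rw [chf_eq m hc, Complex.norm_exp, Complex.re_sum]
  refine ⟨?_, fun h4 => ?_, fun hx => ?_⟩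
  · rw [hn, exp_le_exp, qv, Finset.mul_sum, Finset.sum_div, ← Finset.sum_neg_distrib]
    refine Finset.sum_le_sum fun k _ => ?_
    have h1 := log_ge (sq_nonneg (2 * θ * c k))
    have h2 : (2 * θ * c k) ^ 2 / (1 + X) ≤ (2 * θ * c k) ^ 2 / (1 + (2 * θ * c k) ^ 2) := by
      gcongr; exact ha k
    have h3 : θ ^ 2 * (2 * c k ^ 2 + 4 * c k * m k ^ 2) / (2 * (1 + X)) =
        (2 * θ * c k) ^ 2 / (1 + X) / 4 + 2 * θ ^ 2 * c k * m k ^ 2 / (1 + X) := by field_simp; ring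
    rw [zz_re, h3]
    linarith [hm k]
  · have h1 : ∑ k, (zz (m k) (c k) θ).re ≤ ∑ k, (-(c k ^ 2 / (4 * b ^ 2)) * log (1 + X) -
        c k * m k ^ 2 / (2 * b ^ 2) * (X / (1 + X))) := Finset.sum_le_sum fun k _ => by
      have e1 : c k ^ 2 / b ^ 2 ≤ 1 := by
        rw [div_le_one (by positivity)]; have := hc k; gcongr; exact hcb k
      have e2 := log_le_log (by positivity)
        (rpow_one_add_le_one_add_mul_self (s := X) (by linarith) (by positivity) e1)
      have e3 : c k ^ 2 / b ^ 2 * X = (2 * θ * c k) ^ 2 := by rw [hX]; field_simp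
      have e4 : c k * m k ^ 2 / (2 * b ^ 2) * (X / (1 + X)) = 2 * θ ^ 2 * c k * m k ^ 2 / (1 + X) := by
        rw [← mul_div_assoc]; congr 1; rw [hX]; field_simp
      have e5 : c k ^ 2 / (4 * b ^ 2) = c k ^ 2 / b ^ 2 / 4 := by field_simp
      rw [log_rpow (by positivity), e3] at e2
      rw [zz_re, e4, e5]
      linarith [hm k]
    have h2 : qv m c / (8 * b ^ 2) = (∑ k, c k ^ 2) / (4 * b ^ 2) +
        ∑ k, c k * m k ^ 2 / (2 * b ^ 2) := by
      rw [qv, Finset.sum_div, Finset.sum_div, ← Finset.sum_add_distrib]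
      exact Finset.sum_congr rfl fun k _ => by field_simp; ring
    have h3 : 1 ≤ (∑ k, c k ^ 2) / (4 * b ^ 2) := (one_le_div (by positivity)).2 h4
    rw [Finset.sum_sub_distrib, ← Finset.sum_mul, ← Finset.sum_mul, Finset.sum_neg_distrib,
      ← Finset.sum_div] at h1
    rw [hn, ← exp_log (x := (1 + X)⁻¹) (by positivity), ← exp_add, exp_le_exp, log_inv, h2]
    nlinarith [mul_nonneg (sub_nonneg.2 h3) (sub_nonneg.2 (log_ge hX0))]
  · have h1 : exp (-(θ ^ 2 * qv m c / 2)) ≤ ‖chf m c θ‖ := by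
      rw [hn, exp_le_exp, qv, Finset.mul_sum, Finset.sum_div, ← Finset.sum_neg_distrib]
      refine Finset.sum_le_sum fun k _ => ?_
      have := hc k
      have e1 := log_le_sub_one_of_pos (x := 1 + (2 * θ * c k) ^ 2) (by positivity)
      have e2 : 2 * θ ^ 2 * c k * m k ^ 2 / (1 + (2 * θ * c k) ^ 2) ≤ 2 * θ ^ 2 * c k * m k ^ 2 :=
        div_le_self (by positivity) (by nlinarith [sq_nonneg (2 * θ * c k)])
      rw [zz_re]
      nlinarith
    have h2 : |(∑ k, zz (m k) (c k) θ).im| ≤ |2 * θ * b| * (θ ^ 2 * qv m c) := by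
      rw [Complex.im_sum, qv, Finset.mul_sum, Finset.mul_sum]
      exact (Finset.abs_sum_le_sum_abs _ _).trans
        (Finset.sum_le_sum fun k _ => zz_im _ _ (hc k) (hab k) hx)
    have h3 : (chf m c θ).re = ‖chf m c θ‖ * cos (∑ k, zz (m k) (c k) θ).im := by
      rw [chf_eq m hc, Complex.exp_re, Complex.norm_exp]
    have h4 := abs_cos_sub_cos_le (∑ k, zz (m k) (c k) θ).im 0
    rw [cos_zero, sub_zero] at h4
    rw [h3]
    nlinarith [mul_le_mul_of_nonneg_left ((neg_le_neg (h4.trans h2)).trans (neg_abs_le _))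
      (norm_nonneg (chf m c θ))]

end Crest.Agent.T157.Sp

end
end

-- ▼ part T157/SpLclt_46
section

/-!
# Row 157, sphere side (helper46): `Sp.lcltGlue`, the local limit theorem for `|x|²`
-/

set_option autoImplicit false

noncomputable section

namespace Crest.Agent.T157.Sp

open MeasureTheory ProbabilityTheory Matrix Filter Topology Finset Real
open Crest.Agent.T157.E Crest.Agent.T157.St

namespace Lclt46

/-- the centred Gaussian law of variance `v` -/
abbrev rho (v : ℝ) : Measure ℝ := gaussianReal 0 v.toNNReal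

variable {v : ℝ}

lemma int_rho (hv : 0 < v) (f : ℝ → ℝ) :
    ∫ θ, f θ ∂rho v = ∫ θ, (√(2 * π * v))⁻¹ * exp (-θ ^ 2 / (2 * v)) * f θ := by
  rw [integral_gaussianReal_eq_integral_smul (by simpa using hv)]
  simp only [gaussianPDFReal, Real.coe_toNNReal _ hv.le, sub_zero, smul_eq_mul]

lemma int_G (hv : 0 < v) {a : ℝ} (ha : 0 ≤ a) :
    ∫ θ, exp (-(θ ^ 2 * a / 2)) ∂rho v = (√(1 + v * a))⁻¹ := by
  rw [int_rho hv]
  have e : ∀ θ : ℝ, (√(2 * π * v))⁻¹ * exp (-θ ^ 2 / (2 * v)) * exp (-(θ ^ 2 * a / 2)) =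
      (√(2 * π * v))⁻¹ * exp (-((1 + v * a) / (2 * v)) * θ ^ 2) := fun θ => by
    rw [mul_assoc, ← exp_add]
    congr 2
    field_simp
    ring
  simp only [e]
  have h1 : 0 < 1 + v * a := by positivity
  rw [integral_const_mul, integral_gaussian,
    show π / ((1 + v * a) / (2 * v)) = 2 * π * v / (1 + v * a) by field_simp,
    sqrt_div (by positivity), div_eq_mul_inv, ← mul_assoc,
    inv_mul_cancel₀ (sqrt_pos.2 (by positivity)).ne', one_mul]

lemma integrable_bd {f : ℝ → ℝ} (hf : Continuous f) (h0 : ∀ θ, 0 ≤ f θ) (h1 : ∀ θ, f θ ≤ 1) :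
    Integrable f (rho v) :=
  Integrable.of_bound hf.aestronglyMeasurable 1 (ae_of_all _ fun θ => by
    rw [Real.norm_eq_abs, abs_of_nonneg (h0 θ)]; exact h1 θ)

lemma integrable_G {a : ℝ} (ha : 0 ≤ a) : Integrable (fun θ => exp (-(θ ^ 2 * a / 2))) (rho v) :=
  integrable_bd (by fun_prop) (fun _ => (exp_pos _).le) fun θ =>
    exp_le_one_iff.2 (neg_nonpos.2 (by positivity))

lemma continuous_K (b : ℝ) : Continuous fun θ : ℝ => (1 + (2 * θ * b) ^ 2)⁻¹ :=
  Continuous.inv₀ (by fun_prop) fun θ => by positivity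

lemma K_le_one (b θ : ℝ) : (1 + (2 * θ * b) ^ 2)⁻¹ ≤ 1 :=
  inv_le_one_of_one_le₀ (by nlinarith [sq_nonneg (2 * θ * b)])

lemma integrable_K (b : ℝ) : Integrable (fun θ : ℝ => (1 + (2 * θ * b) ^ 2)⁻¹) (rho v) :=
  integrable_bd (continuous_K b) (fun θ => by positivity) (K_le_one b)

lemma G_div_le (hv : 0 < v) {V a : ℝ} (hV : 0 ≤ V) (ha : 1 ≤ a) :
    (√(1 + v * (V / a)))⁻¹ ≤ a * (√(1 + v * V))⁻¹ := by
  have ha0 : 0 < a := by linarith
  have h1 : 0 < √(1 + v * (V / a)) := sqrt_pos.2 (by positivity)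
  have h2 : 0 < √(1 + v * V) := sqrt_pos.2 (by positivity)
  rw [← div_eq_mul_inv, inv_eq_one_div, div_le_div_iff₀ h1 h2, one_mul]
  refine sqrt_le_iff.2 ⟨by positivity, ?_⟩
  rw [mul_pow, sq_sqrt (by positivity)]
  have e : a ^ 2 * (1 + v * (V / a)) = a ^ 2 + a * (v * V) := by field_simp
  rw [e]
  nlinarith [mul_nonneg hv.le hV]

lemma int_K (hv : 0 < v) {b L : ℝ} (hb : 0 < b) (hL : 1 ≤ L) :
    ∫ θ, (1 + (2 * θ * b) ^ 2)⁻¹ ∂rho v ≤ 2 * L * (√(1 + v * (L * b) ^ 2))⁻¹ := by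
  set J := ∫ θ, (1 + (2 * θ * b) ^ 2)⁻¹ ∂rho v with hJ
  have J0 : 0 ≤ J := integral_nonneg fun θ => by positivity
  have J1 : J ≤ 1 := by
    have := integral_mono (integrable_K (v := v) b) (integrable_const 1) (K_le_one b)
    simpa using this
  have hs : 0 < √v := sqrt_pos.2 hv
  have J2 : J * (√v * b) ≤ 1 := by
    have i0 : Integrable fun θ : ℝ => (1 + (2 * b * θ) ^ 2)⁻¹ :=
      integrable_inv_one_add_sq.comp_mul_left' (R := 2 * b) (by positivity)
    have h1 : J ≤ ∫ θ : ℝ, (√(2 * π * v))⁻¹ * (1 + (2 * b * θ) ^ 2)⁻¹ := by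
      rw [hJ, int_rho hv]
      refine integral_mono_of_nonneg (ae_of_all _ fun θ => by positivity) (i0.const_mul _)
        (ae_of_all _ fun θ => ?_)
      have : exp (-θ ^ 2 / (2 * v)) ≤ 1 :=
        exp_le_one_iff.2 (div_nonpos_of_nonpos_of_nonneg (neg_nonpos.2 (sq_nonneg θ))
          (by positivity))
      simp only [mul_right_comm 2 θ b]
      exact mul_le_mul_of_nonneg_right (mul_le_of_le_one_right (by positivity) this)
        (by positivity)
    rw [integral_const_mul, Measure.integral_comp_mul_left (fun y => (1 + y ^ 2)⁻¹),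
      integral_univ_inv_one_add_sq, abs_of_pos (by positivity), smul_eq_mul] at h1
    have h2 : 2 * √v ≤ √(2 * π * v) := by
      refine le_sqrt_of_sq_le ?_
      rw [mul_pow, sq_sqrt hv.le]
      nlinarith [pi_gt_three]
    have h3 : (√(2 * π * v))⁻¹ * ((2 * b)⁻¹ * π) ≤ (2 * √v)⁻¹ * ((2 * b)⁻¹ * 4) := by
      gcongr
      exact pi_le_four
    have h4 := mul_le_mul_of_nonneg_right (h1.trans h3) (by positivity : 0 ≤ √v * b)
    refine h4.trans (le_of_eq ?_)
    field_simp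
    norm_num
  have h5 : √(1 + v * (L * b) ^ 2) ≤ 1 + L * (√v * b) := by
    refine sqrt_le_iff.2 ⟨by positivity, ?_⟩
    have : (L * (√v * b)) ^ 2 = v * (L * b) ^ 2 := by
      rw [mul_pow, mul_pow, sq_sqrt hv.le]; ring
    nlinarith [(by positivity : 0 ≤ L * (√v * b))]
  rw [← div_eq_mul_inv, le_div_iff₀ (sqrt_pos.2 (by positivity))]
  nlinarith [mul_le_mul_of_nonneg_left h5 J0, mul_le_mul_of_nonneg_left J2 (by linarith : 0 ≤ L)]

/-- the tail factor -/
lemma tail_le {L x : ℝ} (hL : 8 ≤ L ^ 2) (hL0 : 0 < L) (hx : 1 / L ≤ x) :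
    exp (-((L ^ 2 / 8 - 1) * (x / (1 + x)))) ≤ 384 / L ^ 2 := by
  have hx0 : 0 < x := lt_of_lt_of_le (by positivity) hx
  have h1 : 1 / (L + 1) ≤ x / (1 + x) := by
    rw [div_le_iff₀ hL0] at hx
    rw [div_le_div_iff₀ (by positivity) (by positivity)]
    nlinarith
  have h2 : L / 8 - 1 ≤ (L ^ 2 / 8 - 1) * (1 / (L + 1)) := by
    rw [mul_one_div, le_div_iff₀ (by positivity)]
    nlinarith
  have h3 := mul_le_mul_of_nonneg_left h1 (by linarith : 0 ≤ L ^ 2 / 8 - 1)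
  refine (exp_le_exp.2 (by linarith : _ ≤ 1 - L / 8)).trans ?_
  have h4 := quadratic_le_exp_of_nonneg (by positivity : 0 ≤ L / 8)
  rw [exp_sub, div_le_div_iff₀ (exp_pos _) (by positivity)]
  nlinarith [exp_one_lt_three, sq_nonneg L]

section pt
variable {φ : ℂ} {L b θ : ℝ}

lemma pt_up (hL : 8 ≤ L ^ 2) (hL0 : 0 < L)
    (ha : ‖φ‖ ≤ exp (-(θ ^ 2 * (L * b) ^ 2 / (2 * (1 + (2 * θ * b) ^ 2)))))
    (hb : ‖φ‖ ≤ (1 + (2 * θ * b) ^ 2)⁻¹ *
      exp (-((L ^ 2 / 8 - 1) * ((2 * θ * b) ^ 2 / (1 + (2 * θ * b) ^ 2))))) :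
    ‖φ‖ ≤ exp (-(θ ^ 2 * ((L * b) ^ 2 / (1 + 1 / L)) / 2)) +
      384 / L ^ 2 * (1 + (2 * θ * b) ^ 2)⁻¹ := by
  rcases le_total ((2 * θ * b) ^ 2) (1 / L) with h | h
  · refine le_add_of_le_of_nonneg (ha.trans (exp_le_exp.2 (neg_le_neg ?_))) (by positivity)
    rw [← mul_div_assoc, div_div, mul_comm (1 + 1 / L) 2]
    gcongr
  · refine le_add_of_nonneg_of_le (exp_pos _).le (hb.trans ?_)
    rw [mul_comm]
    exact mul_le_mul_of_nonneg_right (tail_le hL hL0 h) (by positivity)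

lemma pt_lo (hL : 4 ≤ L)
    (ha : ‖φ‖ ≤ exp (-(θ ^ 2 * (L * b) ^ 2 / (2 * (1 + (2 * θ * b) ^ 2)))))
    (hb : ‖φ‖ ≤ (1 + (2 * θ * b) ^ 2)⁻¹ *
      exp (-((L ^ 2 / 8 - 1) * ((2 * θ * b) ^ 2 / (1 + (2 * θ * b) ^ 2)))))
    (hc : |2 * θ * b| ≤ 1 / 2 → exp (-(θ ^ 2 * (L * b) ^ 2 / 2)) -
      ‖φ‖ * (|2 * θ * b| * (θ ^ 2 * (L * b) ^ 2)) ≤ φ.re) :
    exp (-(θ ^ 2 * (L * b) ^ 2 / 2)) - 90 / L * exp (-(θ ^ 2 * ((L * b) ^ 2 / 2) / 2)) -
      384 / L ^ 2 * (1 + (2 * θ * b) ^ 2)⁻¹ ≤ φ.re := by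
  have hL0 : 0 < L := by linarith
  have e0 : θ ^ 2 * ((L * b) ^ 2 / 2) / 2 = θ ^ 2 * (L * b) ^ 2 / 4 := by ring
  rw [e0]
  have e1 : ((2 * θ * b) * L) ^ 2 = 4 * (θ ^ 2 * (L * b) ^ 2) := by ring
  have hy : 0 ≤ θ ^ 2 * (L * b) ^ 2 := by positivity
  generalize θ ^ 2 * (L * b) ^ 2 = y at *
  generalize 2 * θ * b = x at *
  rcases le_total (x ^ 2) (1 / L) with h | h
  · have h4 : x ^ 2 ≤ (1 / 2) ^ 2 :=
      h.trans ((one_div_le_one_div_of_le (by norm_num) hL).trans (by norm_num))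
    have h5 := hc (abs_le_of_sq_le_sq h4 (by norm_num))
    have h6 : ‖φ‖ ≤ exp (-(y / 4)) * exp (-(3 / 20 * y)) := by
      rw [← exp_add]
      refine ha.trans (exp_le_exp.2 ?_)
      have : 2 / 5 * y ≤ y / (2 * (1 + x ^ 2)) := by
        rw [le_div_iff₀ (by positivity)]
        nlinarith
      linarith
    have h7 : |x| * L ≤ 1 + y := by
      have : (|x| * L) ^ 2 = 4 * y := by rw [mul_pow, sq_abs, ← mul_pow, e1]
      nlinarith [sq_nonneg (|x| * L - 2)]
    have h8 : exp (-(3 / 20 * y)) * (|x| * y) ≤ 90 / L := by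
      have a1 := quadratic_le_exp_of_nonneg (by positivity : 0 ≤ 3 / 20 * y)
      rw [exp_neg, inv_mul_le_iff₀ (exp_pos _), ← mul_div_assoc, le_div_iff₀ hL0]
      nlinarith [mul_le_mul_of_nonneg_right h7 hy]
    have h9 := mul_le_mul_of_nonneg_right h6 (by positivity : 0 ≤ |x| * y)
    have h10 := mul_le_mul_of_nonneg_left h8 (exp_pos (-(y / 4))).le
    have h11 : 0 ≤ 384 / L ^ 2 * (1 + x ^ 2)⁻¹ := by positivity
    linarith
  · have h5 : ‖φ‖ ≤ 384 / L ^ 2 * (1 + x ^ 2)⁻¹ := by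
      refine hb.trans ?_
      rw [mul_comm]
      exact mul_le_mul_of_nonneg_right (tail_le (by nlinarith) hL0 h) (by positivity)
    have h6 := (abs_le.1 (Complex.abs_re_le_norm φ)).1
    have h7 : L ≤ 4 * y := by
      rw [div_le_iff₀ hL0] at h
      nlinarith [mul_le_mul_of_nonneg_right h hL0.le]
    have h8 : exp (-(y / 4)) ≤ 90 / L := by
      rw [exp_neg, inv_eq_one_div, div_le_div_iff₀ (exp_pos _) hL0]
      nlinarith [add_one_le_exp (y / 4)]
    have h9 : exp (-(y / 2)) = exp (-(y / 4)) * exp (-(y / 4)) := by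
      rw [← exp_add]; congr 1; ring
    nlinarith [mul_le_mul_of_nonneg_right h8 (exp_pos (-(y / 4))).le]

end pt

variable {ι : Type} [Fintype ι]

instance instProbGs46 (m c : ι → ℝ) : IsProbabilityMeasure (gs m c) := by
  unfold gs; infer_instance

lemma integrable_joint (m c : ι → ℝ) (v s : ℝ) : Integrable (Function.uncurry
    fun (x : ι → ℝ) (θ : ℝ) => Complex.exp ((θ * (x ⬝ᵥ x - s) : ℝ) * Complex.I))
      ((gs m c).prod (rho v)) := by
  refine Integrable.of_bound (Continuous.aestronglyMeasurable ?_) 1 (ae_of_all _ fun p => ?_)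
  · unfold Function.uncurry dotProduct
    fun_prop
  · exact (Complex.norm_exp_ofReal_mul_I _).le

lemma integrable_chf (m c : ι → ℝ) (v : ℝ) : Integrable (chf m c) (rho v) :=
  (integrable_joint m c v (qm m c)).integral_prod_right

lemma fourier (m c : ι → ℝ) {κ : ℝ} (hκ : 0 < κ) (s : ℝ) :
    ((∫ x, exp (-(κ / 8) * (x ⬝ᵥ x - s) ^ 2) ∂gs m c : ℝ) : ℂ) =
      ∫ θ, chf m c θ * Complex.exp ((θ * (qm m c - s) : ℝ) * Complex.I) ∂rho (κ / 4) := by
  have h1 : ∀ u : ℝ, ((exp (-(κ / 8) * u ^ 2) : ℝ) : ℂ) =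
      ∫ θ, Complex.exp ((θ * u : ℝ) * Complex.I) ∂rho (κ / 4) := fun u => by
    have h := charFun_gaussianReal (μ := 0) (v := (κ / 4).toNNReal) u
    rw [charFun_apply_real, Real.coe_toNNReal _ (by positivity)] at h
    simp only [Complex.ofReal_mul, mul_comm _ (u : ℂ)]
    rw [h, Complex.ofReal_exp]
    congr 1
    push_cast
    ring
  rw [← integral_complex_ofReal]
  simp only [h1]
  rw [integral_integral_swap (integrable_joint m c _ s)]
  refine integral_congr_ae (ae_of_all _ fun θ => ?_)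
  simp only [chf]
  rw [← integral_mul_const]
  refine integral_congr_ae (ae_of_all _ fun x => ?_)
  simp only
  rw [← Complex.exp_add]
  congr 1
  push_cast
  ring

end Lclt46

open Lclt46 in
/-- **local limit theorem** -/
theorem lcltGlue : LcltGlue := by
  intro hC
  refine ⟨1000, by norm_num, fun ι _ m c b κ hb hκ hc hcb hs => ?_⟩
  have hV : 8 * b ^ 2 ≤ qv m c := by
    have : ∑ k, 2 * c k ^ 2 ≤ qv m c := sum_le_sum fun k _ =>
      le_add_of_nonneg_right (by have := hc k; positivity)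
    rw [← mul_sum] at this
    linarith
  have hV0 : 0 < qv m c := lt_of_lt_of_le (by positivity) hV
  set L : ℝ := √(qv m c) / b with hLd
  have hL0 : 0 < L := div_pos (sqrt_pos.2 hV0) hb
  have eV : qv m c = (L * b) ^ 2 := by
    rw [hLd, div_mul_cancel₀ _ hb.ne', sq_sqrt hV0.le]
  have hL : 8 ≤ L ^ 2 := by
    rw [eV, mul_pow] at hV
    exact le_of_mul_le_mul_right hV (by positivity)
  have hL1 : 1 ≤ L := by nlinarith
  have e1 : 1000 * b / √(qv m c) = 1000 / L := by rw [hLd]; field_simp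
  have e2 : qv m c / (8 * b ^ 2) = L ^ 2 / 8 := by rw [eV]; field_simp
  have hv : 0 < κ / 4 := by positivity
  have e3 : κ * qv m c / 4 = κ / 4 * (L * b) ^ 2 := by rw [eV]; ring
  rw [e1, e3]
  simp only [div_eq_mul_inv _ (√_)]
  set G := (√(1 + κ / 4 * (L * b) ^ 2))⁻¹ with hG
  have hG0 : 0 ≤ G := by positivity
  have hch := fun θ => hC ι m c b θ hb hc hcb
  simp only [e2] at hch
  simp only [eV] at hch
  have hK : 384 / L ^ 2 * ∫ θ, (1 + (2 * θ * b) ^ 2)⁻¹ ∂rho (κ / 4) ≤ 768 / L * G :=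
    (mul_le_mul_of_nonneg_left (int_K hv hb hL1) (by positivity)).trans
      (le_of_eq (by rw [← hG]; field_simp; ring))
  have hi : ∀ a : ℝ, a / L * G = a * (1 / L * G) := fun a => by ring
  have hi0 : 0 ≤ 1 / L * G := by positivity
  refine ⟨fun s => ?_, ?_⟩
  · have h1 := congrArg norm (fourier m c hκ s)
    rw [Complex.norm_real, Real.norm_eq_abs] at h1
    refine (le_abs_self _).trans (h1.le.trans ((norm_integral_le_integral_norm _).trans ?_))
    simp only [norm_mul, Complex.norm_exp_ofReal_mul_I, mul_one]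
    have i1 := integrable_G (v := κ / 4) (a := (L * b) ^ 2 / (1 + 1 / L)) (by positivity)
    have i2 := (integrable_K (v := κ / 4) b).const_mul (384 / L ^ 2)
    refine (integral_mono (integrable_chf m c _).norm (i1.add i2) fun θ =>
      pt_up hL hL0 (hch θ).1 ((hch θ).2.1 hs)).trans ?_
    simp only [Pi.add_apply]
    rw [integral_add i1 i2, integral_const_mul, int_G hv (by positivity)]
    have h2 := G_div_le hv (sq_nonneg (L * b)) (a := 1 + 1 / L)
      (le_add_of_nonneg_right (by positivity))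
    rw [← hG, add_mul] at h2
    rw [hi] at hK
    rw [add_mul, hi]
    linarith
  · rcases le_total L 4 with h4 | h4
    · refine le_trans (mul_nonpos_of_nonpos_of_nonneg ?_ hG0)
        (integral_nonneg fun x => (exp_pos _).le)
      rw [sub_nonpos, le_div_iff₀ hL0]
      linarith
    have h1 := congrArg Complex.re (fourier m c hκ (qm m c))
    simp only [sub_self, mul_zero, Complex.ofReal_zero, zero_mul, Complex.exp_zero, mul_one,
      Complex.ofReal_re] at h1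
    have h2 := integral_re (integrable_chf m c (κ / 4))
    simp only [RCLike.re_to_complex] at h2
    rw [h1, ← h2]
    have i0 := integrable_G (v := κ / 4) (sq_nonneg (L * b))
    have i1 := (integrable_G (v := κ / 4) (a := (L * b) ^ 2 / 2) (by positivity)).const_mul (90 / L)
    have i2 := (integrable_K (v := κ / 4) b).const_mul (384 / L ^ 2)
    refine le_trans ?_ (integral_mono ((i0.sub i1).sub i2) (integrable_chf m c _).re fun θ =>
      pt_lo h4 (hch θ).1 ((hch θ).2.1 hs) (hch θ).2.2)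
    simp only [Pi.sub_apply]
    have i3 : Integrable (fun θ => exp (-(θ ^ 2 * (L * b) ^ 2 / 2)) -
        90 / L * exp (-(θ ^ 2 * ((L * b) ^ 2 / 2) / 2))) (rho (κ / 4)) := i0.sub i1
    rw [integral_sub i3 i2, integral_sub i0 i1, integral_const_mul, integral_const_mul,
      int_G hv (by positivity), int_G hv (by positivity), ← hG]
    have h3 := mul_le_mul_of_nonneg_left (G_div_le hv (sq_nonneg (L * b)) (a := 2) (by norm_num))
      (by positivity : 0 ≤ 90 / L)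
    rw [← hG, mul_left_comm, hi] at h3
    rw [hi] at hK
    rw [sub_mul, hi]
    linarith

end Crest.Agent.T157.Sp

end
end

-- ▼ part T157/SpSoft_46
section

/-!
# Row 157, sphere side (helper46): `Sp.softGlue`, `Sp.momStmt`
-/

set_option autoImplicit false

noncomputable section

namespace Crest.Agent.T157.Sp

open MeasureTheory ProbabilityTheory Matrix Filter Topology Finset Real
open scoped ENNReal
open Crest.Agent.T157.E Crest.Agent.T157.St Crest.Agent.T157.St.Sph38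

namespace Soft46

variable {ι : Type} [Fintype ι]

lemma den_shift {c : ι → ℝ} (hc : ∀ k, 0 < c k) (v y : ι → ℝ) :
    den c y * exp (v ⬝ᵥ y) =
      exp ((∑ k, c k * v k ^ 2) / 2) * den c (y - fun k => c k * v k) := by
  rw [den, den, mul_left_comm, mul_assoc, ← exp_add, ← exp_add]
  congr 2
  rw [dotProduct, mul_sum, mul_sum, sum_div, ← sum_add_distrib, ← sum_add_distrib]
  refine sum_congr rfl fun k _ => ?_
  have := (hc k).ne'
  simp only [Pi.sub_apply]
  field_simp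
  ring

/-- Cameron-Martin -/
lemma lint_cm (m : ι → ℝ) {c : ι → ℝ} (hc : ∀ k, 0 < c k) (v : ι → ℝ) {g : (ι → ℝ) → ℝ≥0∞}
    (hg : Measurable g) :
    ∫⁻ x, g x * ENNReal.ofReal (exp (v ⬝ᵥ (x - m))) ∂gs m c =
      ENNReal.ofReal (exp ((∑ k, c k * v k ^ 2) / 2)) *
        ∫⁻ x, g x ∂gs (m + fun k => c k * v k) c := by
  have hd : ∀ m' : ι → ℝ, Measurable fun x => ENNReal.ofReal (den c (x - m')) := fun m' =>
    ((continuous_den c).comp (continuous_id.sub continuous_const)).measurable.ennreal_ofReal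
  have he : Measurable fun x : ι → ℝ => ENNReal.ofReal (exp (v ⬝ᵥ (x - m))) :=
    (Continuous.measurable (by unfold dotProduct; fun_prop)).ennreal_ofReal
  have hge : Measurable fun x : ι → ℝ => g x * ENNReal.ofReal (exp (v ⬝ᵥ (x - m))) := hg.mul he
  rw [gs_eq' m hc, gs_eq' _ hc, lintegral_withDensity_eq_lintegral_mul _ (hd _) hge,
    lintegral_withDensity_eq_lintegral_mul _ (hd _) hg,
    ← lintegral_const_mul' _ _ ENNReal.ofReal_ne_top]
  refine lintegral_congr fun x => ?_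
  simp only [Pi.mul_apply]
  rw [mul_left_comm, ← ENNReal.ofReal_mul (den_nonneg _ _), den_shift hc, sub_sub,
    ENNReal.ofReal_mul (exp_pos _).le, mul_left_comm, mul_comm (g x)]

lemma sq_le_qv (m : ι → ℝ) {c : ι → ℝ} (hc : ∀ k, 0 < c k) : 2 * ∑ k, c k ^ 2 ≤ qv m c := by
  rw [mul_sum]
  exact sum_le_sum fun k _ => le_add_of_nonneg_right (by have := hc k; positivity)

lemma qv_le (m v : ι → ℝ) {c : ι → ℝ} {b t : ℝ} (hc : ∀ k, 0 < c k) (hcb : ∀ k, c k ≤ b)
    (ht : 0 < t) : qv m c ≤ (1 + t) * qv (m + fun k => c k * v k) c +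
      4 * (1 + 1 / t) * b ^ 2 * ∑ k, c k * v k ^ 2 := by
  rw [qv, qv, mul_sum, mul_sum, ← sum_add_distrib]
  refine sum_le_sum fun k _ => ?_
  simp only [Pi.add_apply]
  have h0 := hc k
  have h1 : m k ^ 2 ≤ (1 + t) * (m k + c k * v k) ^ 2 + (1 + 1 / t) * (c k * v k) ^ 2 := by
    have e : (1 + t) * (m k + c k * v k) ^ 2 + (1 + 1 / t) * (c k * v k) ^ 2 - m k ^ 2 =
        (t * (m k + c k * v k) + c k * v k) ^ 2 / t := by field_simp; ring
    have : 0 ≤ (t * (m k + c k * v k) + c k * v k) ^ 2 / t := by positivity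
    linarith
  have h2 : (c k * v k) ^ 2 ≤ b ^ 2 * v k ^ 2 := by
    rw [mul_pow]
    exact mul_le_mul_of_nonneg_right (pow_le_pow_left₀ h0.le (hcb k) 2) (sq_nonneg _)
  have h3 := mul_le_mul_of_nonneg_left h2 (by positivity : 0 ≤ 1 + 1 / t)
  nlinarith [mul_le_mul_of_nonneg_left (h1.trans (add_le_add le_rfl h3)) h0.le,
    mul_pos ht (pow_pos h0 2)]

lemma ratio {C ε A A' I Z x x' : ℝ} (hC : 0 < C) (hε : 0 < ε) (hε1 : (3 * C + 8) * ε ≤ 1)
    (hA : 0 < A) (hA' : 0 < A') (hAA : A ≤ (1 + 5 * ε) * A') (hx : x ≤ C * ε) (hx' : x' ≤ C * ε)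
    (hI : I ≤ (1 + x') / A') (hZ : (1 - x) / A ≤ Z) : I / Z ≤ 1 + (3 * C + 8) * ε := by
  have h0 : 0 < C * ε := by positivity
  have h1 : C * ε ≤ 1 / 3 := by nlinarith
  have hZ1 : (1 - C * ε) / A ≤ Z := le_trans (by gcongr) hZ
  have hZ0 : 0 < Z := lt_of_lt_of_le (div_pos (by linarith) hA) hZ1
  have hI1 : I ≤ (1 + C * ε) / A' := hI.trans (by gcongr)
  rw [div_le_iff₀ hZ0]
  refine hI1.trans (le_trans ?_ (mul_le_mul_of_nonneg_left hZ1 (by positivity)))
  rw [← mul_div_assoc, div_le_div_iff₀ hA' hA]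
  have h2 : (1 + C * ε) * (1 + 5 * ε) ≤ (1 + (3 * C + 8) * ε) * (1 - C * ε) := by
    nlinarith [mul_le_mul_of_nonneg_right hε1 h0.le, mul_le_mul_of_nonneg_right h1 hε.le]
  nlinarith [mul_le_mul_of_nonneg_left hAA (by positivity : 0 ≤ 1 + C * ε),
    mul_le_mul_of_nonneg_right h2 hA'.le]

section mom
variable {μ : Measure (ι → ℝ)} {m c : ι → ℝ} {δ : ℝ}

lemma exp_mom (h : SubG μ m c δ) (hδ : 0 < δ) (v : ι → ℝ) {t : ℝ}
    (ht : t ^ 2 * ∑ k, c k * v k ^ 2 ≤ 1) :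
    Integrable (fun x => exp (t * (v ⬝ᵥ (x - m)))) μ ∧ ∫ x, exp (t * (v ⬝ᵥ (x - m))) ∂μ ≤
      (1 + δ) * exp (t ^ 2 * (∑ k, c k * v k ^ 2) / 2) := by
  have e : ∑ k, c k * (t • v) k ^ 2 = t ^ 2 * ∑ k, c k * v k ^ 2 := by
    rw [mul_sum]
    exact sum_congr rfl fun k _ => by simp only [Pi.smul_apply, smul_eq_mul]; ring
  have h1 := h (t • v) (e ▸ ht)
  simp only [e, smul_dotProduct, smul_eq_mul] at h1
  have hm : Continuous fun x : ι → ℝ => exp (t * (v ⬝ᵥ (x - m))) := by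
    unfold dotProduct; fun_prop
  have hi : Integrable (fun x => exp (t * (v ⬝ᵥ (x - m)))) μ :=
    (lintegral_ofReal_ne_top_iff_integrable hm.aestronglyMeasurable
      (ae_of_all _ fun x => (exp_pos _).le)).1 (ne_top_of_le_ne_top ENNReal.ofReal_ne_top h1)
  refine ⟨hi, ?_⟩
  rw [← ofReal_integral_eq_lintegral_ofReal hi (ae_of_all _ fun x => (exp_pos _).le)] at h1
  exact (ENNReal.ofReal_le_ofReal_iff (by positivity)).1 h1

lemma poly_mom [IsProbabilityMeasure μ] (h : SubG μ m c δ) (hδ : 0 < δ) (v : ι → ℝ) {t : ℝ}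
    (ht0 : t ≠ 0) (ht : t ^ 2 * ∑ k, c k * v k ^ 2 ≤ 1) :
    Integrable (fun x => (v ⬝ᵥ (x - m)) ^ 2) μ ∧ Integrable (fun x => (v ⬝ᵥ (x - m)) ^ 4) μ ∧
      1 + t ^ 2 / 2 * ∫ x, (v ⬝ᵥ (x - m)) ^ 2 ∂μ + t ^ 4 / 24 * ∫ x, (v ⬝ᵥ (x - m)) ^ 4 ∂μ ≤
        (1 + δ) * exp (t ^ 2 * (∑ k, c k * v k ^ 2) / 2) := by
  obtain ⟨i1, h1⟩ := exp_mom h hδ v ht
  obtain ⟨i2, h2⟩ := exp_mom h hδ v (t := -t) (by rwa [neg_sq])
  rw [neg_sq] at h2
  have hu : Continuous fun x : ι → ℝ => v ⬝ᵥ (x - m) := by unfold dotProduct; fun_prop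
  have i3 : Integrable (fun x => (exp (t * (v ⬝ᵥ (x - m))) + exp (-t * (v ⬝ᵥ (x - m)))) / 2) μ :=
    (i1.add i2).div_const 2
  have hp : ∀ x, 1 + t ^ 2 / 2 * (v ⬝ᵥ (x - m)) ^ 2 + t ^ 4 / 24 * (v ⬝ᵥ (x - m)) ^ 4 ≤
      (exp (t * (v ⬝ᵥ (x - m))) + exp (-t * (v ⬝ᵥ (x - m)))) / 2 := fun x => by
    have := Conc.poly_le_cosh (t * (v ⬝ᵥ (x - m)))
    rw [neg_mul]
    linarith
  have t2 : 0 < t ^ 2 / 2 := by positivity
  have t4 : 0 < t ^ 4 / 24 := by positivity
  have j2 : Integrable (fun x => t ^ 2 / 2 * (v ⬝ᵥ (x - m)) ^ 2) μ :=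
    i3.mono' (Continuous.aestronglyMeasurable (by fun_prop)) (ae_of_all _ fun x => by
      rw [Real.norm_eq_abs, abs_of_nonneg (by positivity)]
      have : 0 ≤ t ^ 4 / 24 * (v ⬝ᵥ (x - m)) ^ 4 := by positivity
      linarith [hp x])
  have j4 : Integrable (fun x => t ^ 4 / 24 * (v ⬝ᵥ (x - m)) ^ 4) μ :=
    i3.mono' (Continuous.aestronglyMeasurable (by fun_prop)) (ae_of_all _ fun x => by
      rw [Real.norm_eq_abs, abs_of_nonneg (by positivity)]
      have : 0 ≤ t ^ 2 / 2 * (v ⬝ᵥ (x - m)) ^ 2 := by positivity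
      linarith [hp x])
  refine ⟨(integrable_const_mul_iff (IsUnit.mk0 _ t2.ne') _).1 j2,
    (integrable_const_mul_iff (IsUnit.mk0 _ t4.ne') _).1 j4, ?_⟩
  have j1 : Integrable (fun x => 1 + t ^ 2 / 2 * (v ⬝ᵥ (x - m)) ^ 2) μ := (integrable_const _).add j2
  have h3 := integral_mono (j1.add j4) i3 hp
  simp only [Pi.add_apply] at h3
  rw [integral_add j1 j4, integral_add (integrable_const _) j2, integral_const_mul,
    integral_const_mul, integral_div, integral_add i1 i2] at h3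
  simp only [integral_const, probReal_univ, smul_eq_mul, mul_one] at h3
  linarith

lemma mom [IsProbabilityMeasure μ] (h : SubG μ m c δ) (hc : ∀ k, 0 < c k) (hδ : 0 < δ)
    (hδ1 : δ ≤ 1) (v : ι → ℝ) :
    Integrable (fun x => (v ⬝ᵥ (x - m)) ^ 2) μ ∧ Integrable (fun x => (v ⬝ᵥ (x - m)) ^ 4) μ ∧
      ∫ x, (v ⬝ᵥ (x - m)) ^ 2 ∂μ ≤ (1 + 5 * √δ) * ∑ k, c k * v k ^ 2 ∧
      ∫ x, (v ⬝ᵥ (x - m)) ^ 4 ∂μ ≤ 100 * (∑ k, c k * v k ^ 2) ^ 2 := by
  have h0 : ∀ k ∈ univ, 0 ≤ c k * v k ^ 2 := fun k _ => mul_nonneg (hc k).le (sq_nonneg _)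
  rcases (sum_nonneg h0).eq_or_lt with hρ | hρ
  · have : v = 0 := funext fun k => by
      have := (sum_eq_zero_iff_of_nonneg h0).1 hρ.symm k (mem_univ k)
      simpa [(hc k).ne'] using this
    simp [this]
  set ρ := ∑ k, c k * v k ^ 2 with hρd
  set s := √δ with hs
  have hs0 : 0 < s := sqrt_pos.2 hδ
  have hs1 : s ≤ 1 := sqrt_le_one.2 hδ1
  have hss : s ^ 2 = δ := sq_sqrt hδ.le
  have key : ∀ r : ℝ, 0 < r → r ≤ 1 →
      Integrable (fun x => (v ⬝ᵥ (x - m)) ^ 2) μ ∧ Integrable (fun x => (v ⬝ᵥ (x - m)) ^ 4) μ ∧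
      1 + r / ρ / 2 * ∫ x, (v ⬝ᵥ (x - m)) ^ 2 ∂μ +
        (r / ρ) ^ 2 / 24 * ∫ x, (v ⬝ᵥ (x - m)) ^ 4 ∂μ ≤ (1 + δ) * (1 + r / 2 + (r / 2) ^ 2) := by
    intro r hr hr1
    have e1 : √(r / ρ) ^ 2 = r / ρ := sq_sqrt (by positivity)
    have e2 : √(r / ρ) ^ 4 = (r / ρ) ^ 2 := by rw [← e1, ← pow_mul, e1]
    have e3 : r / ρ * ρ = r := div_mul_cancel₀ _ hρ.ne'
    have := poly_mom h hδ v (t := √(r / ρ)) (sqrt_pos.2 (by positivity)).ne'
      (by rw [e1, ← hρd, e3]; exact hr1)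
    rw [e1, e2, ← hρd, e3] at this
    refine ⟨this.1, this.2.1, this.2.2.trans (mul_le_mul_of_nonneg_left ?_ (by positivity))⟩
    have := (abs_le.1 (abs_exp_sub_one_sub_id_le (x := r / 2)
      (by rw [abs_of_pos (by positivity)]; linarith))).2
    linarith
  obtain ⟨i2, i4, k1⟩ := key 1 one_pos le_rfl
  obtain ⟨-, -, k2⟩ := key s hs0 hs1
  have p2 : 0 ≤ ∫ x, (v ⬝ᵥ (x - m)) ^ 2 ∂μ := integral_nonneg fun x => by positivity
  have p4 : 0 ≤ ∫ x, (v ⬝ᵥ (x - m)) ^ 4 ∂μ := integral_nonneg fun x => by positivity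
  refine ⟨i2, i4, ?_, ?_⟩
  · have a1 : 0 ≤ (s / ρ) ^ 2 / 24 * ∫ x, (v ⬝ᵥ (x - m)) ^ 4 ∂μ := by positivity
    have a2 : (1 + δ) * (1 + s / 2 + (s / 2) ^ 2) ≤ 1 + s / 2 * (1 + 5 * s) := by
      rw [← hss]
      nlinarith [mul_le_mul_of_nonneg_left hs1 (sq_nonneg s),
        mul_le_mul_of_nonneg_left (pow_le_one₀ hs0.le hs1 : s ^ 2 ≤ 1) (sq_nonneg s)]
    have a3 : s / ρ / 2 * ∫ x, (v ⬝ᵥ (x - m)) ^ 2 ∂μ ≤ s / ρ / 2 * ((1 + 5 * s) * ρ) := by
      have : s / ρ / 2 * ((1 + 5 * s) * ρ) = s / 2 * (1 + 5 * s) := by field_simp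
      linarith
    exact le_of_mul_le_mul_left a3 (by positivity)
  · have a1 : 0 ≤ 1 / ρ / 2 * ∫ x, (v ⬝ᵥ (x - m)) ^ 2 ∂μ := by positivity
    have a3 : (1 / ρ) ^ 2 / 24 * ∫ x, (v ⬝ᵥ (x - m)) ^ 4 ∂μ ≤ (1 / ρ) ^ 2 / 24 * (100 * ρ ^ 2) := by
      have : (1 / ρ) ^ 2 / 24 * (100 * ρ ^ 2) = 100 / 24 := by field_simp
      linarith
    exact le_of_mul_le_mul_left a3 (by positivity)

end mom

end Soft46

open Soft46

/-- **the softly conditioned Gaussian is almost Gaussian** -/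
theorem softGlue : SoftGlue := by
  rintro ⟨C, hC, h⟩
  refine ⟨3 * C + 8, by linarith, fun ι _ m c b κ hb hκ hc hcb hs v hv => ?_⟩
  set S := √(∑ k, c k ^ 2) with hS
  have hS2 : S ^ 2 = ∑ k, c k ^ 2 := sq_sqrt (sum_nonneg fun k _ => sq_nonneg _)
  have h1 : (3 * C + 8) * b ≤ S := le_sqrt_of_sq_le (by rw [mul_pow]; exact hs)
  have hS0 : 0 < S := lt_of_lt_of_le (by positivity) h1
  set ε := b / S with hε
  have hε0 : 0 < ε := by positivity
  have hε1 : (3 * C + 8) * ε ≤ 1 := by rw [hε, ← mul_div_assoc, div_le_one hS0]; exact h1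
  have h4 : 4 * b ^ 2 ≤ ∑ k, c k ^ 2 :=
    le_trans (mul_le_mul_of_nonneg_right (by nlinarith) (sq_nonneg b)) hs
  set m' : ι → ℝ := m + fun k => c k * v k with hm'
  have hx : ∀ m'' : ι → ℝ, C * b / √(qv m'' c) ≤ C * ε := fun m'' => by
    have : S ≤ √(qv m'' c) := sqrt_le_sqrt (by nlinarith [sq_le_qv m'' hc])
    rw [hε, mul_div_assoc]
    gcongr
  have hV' := sq_le_qv m' hc
  have hV := sq_le_qv m hc
  have hp : 0 < S ^ 2 := by positivity
  have hVV : qv m c ≤ (1 + 5 * ε) * qv m' c := by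
    have a1 := qv_le m v hc hcb hε0
    have a2 : 4 * (1 + 1 / ε) * b ^ 2 = 4 * (ε + 1) * ε * S ^ 2 := by
      rw [hε]; field_simp
    have a3 : ε ≤ 1 := by nlinarith
    have a4 : 4 * (1 + 1 / ε) * b ^ 2 * ∑ k, c k * v k ^ 2 ≤ 4 * (1 + 1 / ε) * b ^ 2 :=
      mul_le_of_le_one_right (by positivity) hv
    have a5 : 4 * (ε + 1) * ε * S ^ 2 ≤ 4 * ε * qv m' c := by
      nlinarith [mul_le_mul_of_nonneg_left a3 (mul_pos hε0 hp).le,
        mul_le_mul_of_nonneg_left (hS2 ▸ hV' : 2 * S ^ 2 ≤ qv m' c) hε0.le]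
    linarith
  have hq : 0 ≤ κ * qv m' c / 4 := by
    have : 0 ≤ qv m' c := by linarith
    positivity
  have hq' : 0 ≤ κ * qv m c / 4 := by
    have : 0 ≤ qv m c := by linarith
    positivity
  have hAA : √(1 + κ * qv m c / 4) ≤ (1 + 5 * ε) * √(1 + κ * qv m' c / 4) := by
    refine sqrt_le_iff.2 ⟨by positivity, ?_⟩
    rw [mul_pow, sq_sqrt (by positivity)]
    have a1 := mul_le_mul_of_nonneg_left hVV hκ.le
    have a2 : 1 + 5 * ε ≤ (1 + 5 * ε) ^ 2 := by nlinarith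
    nlinarith [mul_le_mul_of_nonneg_right a2 (by positivity : 0 ≤ 1 + κ * qv m' c / 4)]
  have hR := ratio hC hε0 hε1 (sqrt_pos.2 (by positivity)) (sqrt_pos.2 (by positivity)) hAA (hx m)
    (hx m') ((h ι m' c b κ hb hκ hc hcb h4).1 (qm m c)) (h ι m c b κ hb hκ hc hcb h4).2
  have hf : Continuous fun x : ι → ℝ => exp (-(κ / 8) * (x ⬝ᵥ x - qm m c) ^ 2) := by
    unfold dotProduct; fun_prop
  have hi : Integrable (fun x : ι → ℝ => exp (-(κ / 8) * (x ⬝ᵥ x - qm m c) ^ 2)) (gs m' c) :=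
    Integrable.of_bound hf.aestronglyMeasurable 1 (ae_of_all _ fun x => by
      rw [Real.norm_eq_abs, abs_of_pos (exp_pos _), exp_le_one_iff, neg_mul, neg_nonpos]
      positivity)
  have hZ : 0 ≤ ∫ x, exp (-(κ / 8) * (x ⬝ᵥ x - qm m c) ^ 2) ∂gs m c :=
    integral_nonneg fun x => (exp_pos _).le
  rw [gw, lintegral_tilted, lint_cm m hc v (hf.measurable.div_const _).ennreal_ofReal,
    ← ofReal_integral_eq_lintegral_ofReal (hi.div_const _)
      (ae_of_all _ fun x => div_nonneg (exp_pos _).le hZ), integral_div,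
    ← ENNReal.ofReal_mul (exp_pos _).le, mul_comm, mul_div_assoc]
  exact ENNReal.ofReal_le_ofReal (mul_le_mul_of_nonneg_right hR (exp_pos _).le)

/-- **moments from almost Gaussian exponential moments** -/
theorem momStmt : MomStmt := by
  intro ι _ μ m c b δ hμ hc hcb hδ hδ1 h
  have hs : 0 ≤ √δ := sqrt_nonneg δ
  have hρ : ∀ v : ι → ℝ, ∑ k, c k * v k ^ 2 ≤ b * (v ⬝ᵥ v) := fun v => by
    rw [dotProduct, mul_sum]
    exact sum_le_sum fun k _ => by
      rw [sq]; exact mul_le_mul_of_nonneg_right (hcb k) (mul_self_nonneg _)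
  have hρ0 : ∀ v : ι → ℝ, 0 ≤ ∑ k, c k * v k ^ 2 := fun v =>
    sum_nonneg fun k _ => mul_nonneg (hc k).le (sq_nonneg _)
  have h2 : ∀ v : ι → ℝ, ∫ x, (v ⬝ᵥ (x - m)) ^ 2 ∂μ ≤ (1 + 5 * √δ) * b * (v ⬝ᵥ v) := fun v => by
    rw [mul_assoc]
    exact (mom h hc hδ hδ1 v).2.2.1.trans (mul_le_mul_of_nonneg_left (hρ v) (by positivity))
  refine ⟨⟨hμ, m, fun v => ⟨(mom h hc hδ hδ1 v).2.1, h2 v, (mom h hc hδ hδ1 v).2.2.2.trans ?_⟩⟩,
    fun v => ?_, fun v => (mom h hc hδ hδ1 v).2.2.1⟩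
  · refine mul_le_mul_of_nonneg_left (pow_le_pow_left₀ (hρ0 v) ((hρ v).trans ?_) 2) (by norm_num)
    rw [mul_assoc]
    exact le_mul_of_one_le_left ((hρ0 v).trans (hρ v)) (by linarith)
  · have hu : Continuous fun x : ι → ℝ => v ⬝ᵥ (x - m) := by unfold dotProduct; fun_prop
    have h3 : MemLp (fun x => v ⬝ᵥ (x - m)) 2 μ :=
      (memLp_two_iff_integrable_sq hu.aestronglyMeasurable).2 (mom h hc hδ hδ1 v).1
    have e : (fun x => v ⬝ᵥ x) = fun x => v ⬝ᵥ (x - m) + v ⬝ᵥ m := funext fun x => by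
      rw [dotProduct_sub, sub_add_cancel]
    rw [e]
    refine ⟨h3.add (memLp_const _), ?_⟩
    rw [variance_add_const hu.aestronglyMeasurable]
    exact (variance_le_expectation_sq hu.aestronglyMeasurable).trans (h2 v)

end Crest.Agent.T157.Sp

end
end

-- ▼ part T157/SpHard_85
section

/-!
# Row 157, sphere side: from soft to hard conditioning (helper85)

`Sp.hardGlue : HardGlue`.  The soft bound holds for every stiffness `κ`; as `κ → ∞` the weight
`exp (-(κ/8) (|x|² - t)²)` concentrates on the sphere (`peak`).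
-/

set_option autoImplicit false

noncomputable section

namespace Crest.Agent.T157.Sp

open MeasureTheory ProbabilityTheory Matrix Filter Topology Finset Real
open scoped ENNReal
open Crest.Agent.T157.E Crest.Agent.T157.St Crest.Agent.T157.St.Sph38

namespace Hard85

variable {ι : Type*} [Fintype ι]

/-- one-dimensional peak lemma -/
lemma peak1 {g : ℝ → ℝ} (hg : Continuous g) {t B : ℝ} (ht : 0 < t)
    (h : ∀ η, 0 < η → η < t → ∀ κ, 0 < κ →
      ∫ r in √(t - η)..√(t + η), exp (-(κ / 8) * (r ^ 2 - t) ^ 2) * g r ≤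
        B * exp (-(κ / 8) * η ^ 2)) : g √t ≤ 0 := by
  by_contra hc
  have hc : 0 < g √t := not_le.1 hc
  have hcs : ContinuousAt (fun s => g √s) t := (hg.comp continuous_sqrt).continuousAt
  obtain ⟨e, he, H⟩ := Metric.continuousAt_iff.1 hcs (g √t / 2) (by positivity)
  set γ := g √t / 2 with hγ
  have hγ0 : 0 < γ := by positivity
  set η := min (e / 2) (t / 2) with hη
  have h0 : 0 < η := by positivity
  have h1 : η ≤ e / 2 := min_le_left _ _
  have h2 : η ≤ t / 2 := min_le_right _ _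
  have hlow : ∀ r ∈ Set.Icc √(t - η) √(t + η), γ ≤ g r := fun r hr => by
    have hr0 : 0 ≤ r := (sqrt_nonneg _).trans hr.1
    have a1 : t - η ≤ r ^ 2 := (sqrt_le_left hr0).1 hr.1
    have a2 : r ^ 2 ≤ t + η := (le_sqrt hr0 (by linarith)).1 hr.2
    have a3 := H (x := r ^ 2) (by rw [Real.dist_eq, abs_lt]; constructor <;> linarith)
    rw [sqrt_sq hr0, Real.dist_eq, abs_lt] at a3
    linarith [a3.1]
  have b1 : √(t - η) ≤ √t := sqrt_le_sqrt (by linarith)
  have b2 : √t < √(t + η / 2) := sqrt_lt_sqrt ht.le (by linarith)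
  have b3 : √(t + η / 2) ≤ √(t + η) := sqrt_le_sqrt (by linarith)
  set l := √(t + η / 2) - √t with hl
  have hl0 : 0 < l := by linarith
  have key : ∀ κ, 0 < κ → l * (exp (-(κ / 8) * (η / 2) ^ 2) * γ) ≤ B * exp (-(κ / 8) * η ^ 2) :=
    fun κ hκ => by
    refine le_trans ?_ (h η h0 (by linarith) κ hκ)
    have hw : Continuous fun r : ℝ => exp (-(κ / 8) * (r ^ 2 - t) ^ 2) * g r := by fun_prop
    refine le_trans ?_ (intervalIntegral.integral_mono_interval b1 b2.le b3 ?_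
      (hw.intervalIntegrable _ _))
    · have e1 : l * (exp (-(κ / 8) * (η / 2) ^ 2) * γ) =
          ∫ _ in √t..√(t + η / 2), exp (-(κ / 8) * (η / 2) ^ 2) * γ := by
        rw [intervalIntegral.integral_const, smul_eq_mul]
      rw [e1]
      refine intervalIntegral.integral_mono_on b2.le (continuous_const.intervalIntegrable _ _)
        (hw.intervalIntegrable _ _) fun r hr => ?_
      have hr0 : 0 ≤ r := (sqrt_nonneg _).trans hr.1
      have a1 : t ≤ r ^ 2 := (sqrt_le_left hr0).1 hr.1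
      have a2 : r ^ 2 ≤ t + η / 2 := (le_sqrt hr0 (by linarith)).1 hr.2
      refine mul_le_mul (exp_le_exp.2 ?_) (hlow r ⟨b1.trans hr.1, hr.2.trans b3⟩) hγ0.le
        (exp_pos _).le
      have : (r ^ 2 - t) ^ 2 ≤ (η / 2) ^ 2 := pow_le_pow_left₀ (by linarith) (by linarith) 2
      nlinarith
    · filter_upwards [ae_restrict_mem measurableSet_Ioc] with r hr
      exact mul_nonneg (exp_pos _).le (hγ0.le.trans (hlow r ⟨hr.1.le, hr.2⟩))
  have hq : 0 < l * γ := mul_pos hl0 hγ0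
  set κ := (|B| / (l * γ) + 1) * 32 / (3 * η ^ 2) with hκ
  have hκ0 : 0 < κ := by positivity
  have k1 := key κ hκ0
  have k2 : exp (-(κ / 8) * (η / 2) ^ 2) =
      exp (-(κ / 8) * η ^ 2) * exp (|B| / (l * γ) + 1) := by
    rw [← exp_add]
    congr 1
    rw [hκ]; field_simp; ring
  have k3 : |B| / (l * γ) + 1 + 1 ≤ exp (|B| / (l * γ) + 1) := add_one_le_exp _
  have k4 : l * γ * exp (|B| / (l * γ) + 1) ≤ B := by
    refine le_of_mul_le_mul_right ?_ (exp_pos (-(κ / 8) * η ^ 2))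
    rw [k2] at k1
    linarith
  have k5 : l * γ * (|B| / (l * γ) + 1 + 1) = |B| + 2 * (l * γ) := by field_simp; ring
  have k6 := mul_le_mul_of_nonneg_left k3 hq.le
  linarith [le_abs_self B]

/-- peak lemma on the sphere -/
lemma peak [Nonempty ι] {G : (ι → ℝ) → ℝ} (hG : Continuous G) {t B : ℝ} (ht : 0 < t)
    (h : ∀ η, 0 < η → η < t → ∀ κ, 0 < κ →
      ∫ x in shell (t - η) (2 * η), exp (-(κ / 8) * (x ⬝ᵥ x - t) ^ 2) * G x ≤
        B * exp (-(κ / 8) * η ^ 2)) : ∫ x, G x ∂sphR ι √t ≤ 0 := by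
  set g : ℝ → ℝ := fun r => kap ι * r ^ (Fintype.card ι - 1) * ∫ x, G (r • x) ∂sphR ι 1 with hg
  have hc : Continuous g := by
    have : Continuous fun r : ℝ => ∫ x, G (r • x) ∂sphR ι 1 :=
      continuous_sphR 1 (F := fun (r : ℝ) x => G (r • x)) (hG.comp (by fun_prop))
    fun_prop
  have h1 := peak1 hc (B := B) ht fun η h0 h1 κ hκ => by
    refine le_trans (le_of_eq ?_) (h η h0 h1 κ hκ)
    have hd := continuous_dot (ι := ι)
    rw [integral_shell (by fun_prop) (by linarith) (by linarith),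
      show t - η + 2 * η = t + η by ring]
    refine intervalIntegral.integral_congr fun r _ => ?_
    simp only [hg]
    rw [mul_left_comm, ← integral_const_mul]
    congr 1
    refine integral_congr_ae ?_
    filter_upwards [sphR_ae (ι := ι) 1] with x hx
    rw [dot_smul, hx, one_pow, mul_one]
  rw [integral_sphR √t hG.measurable]
  have hk : 0 < kap ι * √t ^ (Fintype.card ι - 1) := by
    have := kap_pos (ι := ι)
    have := sqrt_pos.2 ht
    positivity
  exact nonpos_of_mul_nonpos_right h1 hk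

/-- the soft bound, restricted to a shell -/
lemma shell_bd (μ : Measure (ι → ℝ)) [IsProbabilityMeasure μ] {F : (ι → ℝ) → ℝ}
    (hF : Continuous F) (h0 : ∀ x, 0 ≤ F x) {B t κ η : ℝ} (hB : 0 ≤ B) (hκ : 0 < κ) (hη : 0 < η)
    (h : ∫⁻ x, ENNReal.ofReal (F x) ∂μ.tilted (fun x => -(κ / 8) * (x ⬝ᵥ x - t) ^ 2) ≤
      ENNReal.ofReal B) :
    ∫ x in shell (t - η) (2 * η), exp (-(κ / 8) * (x ⬝ᵥ x - t) ^ 2) * (F x - B) ∂μ ≤
      B * exp (-(κ / 8) * η ^ 2) := by
  have hd := continuous_dot (ι := ι)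
  set w : (ι → ℝ) → ℝ := fun x => exp (-(κ / 8) * (x ⬝ᵥ x - t) ^ 2) with hw
  have hwc : Continuous w := by fun_prop
  have hwi : Integrable w μ := by
    refine Integrable.of_bound hwc.aestronglyMeasurable 1 (ae_of_all _ fun x => ?_)
    rw [Real.norm_eq_abs, abs_of_pos (exp_pos _), exp_le_one_iff]
    nlinarith [sq_nonneg (x ⬝ᵥ x - t)]
  have hZ : 0 < ∫ x, w x ∂μ := integral_exp_pos hwi
  set Z := ∫ x, w x ∂μ with hZd
  set S : Set (ι → ℝ) := shell (t - η) (2 * η) with hS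
  have hSm : MeasurableSet S := measurableSet_shell _ _
  have hSc : IsCompact S := isCompact_shell _ _
  have hi : ∀ {H : (ι → ℝ) → ℝ}, Continuous H → IntegrableOn H S μ := fun hH =>
    hH.continuousOn.integrableOn_compact hSc
  rw [lintegral_tilted] at h
  have h1 : ∫ x in S, w x / Z * F x ∂μ ≤ B := by
    refine (ENNReal.ofReal_le_ofReal_iff hB).1 (le_trans ?_ h)
    rw [ofReal_integral_eq_lintegral_ofReal (hi (by fun_prop))
      (ae_of_all _ fun x => mul_nonneg (div_nonneg (exp_pos _).le hZ.le) (h0 x))]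
    refine (setLIntegral_le_lintegral _ _).trans (le_of_eq (lintegral_congr fun x => ?_))
    exact ENNReal.ofReal_mul (div_nonneg (exp_pos _).le hZ.le)
  have h2 : ∫ x in S, w x / Z * F x ∂μ = (∫ x in S, w x * F x ∂μ) / Z := by
    rw [← integral_div]
    exact integral_congr_ae (ae_of_all _ fun x => by ring)
  rw [h2, div_le_iff₀ hZ] at h1
  have h3 : ∫ x in Sᶜ, w x ∂μ ≤ exp (-(κ / 8) * η ^ 2) := by
    have a1 : ∫ x in Sᶜ, w x ∂μ ≤ ∫ _ in Sᶜ, exp (-(κ / 8) * η ^ 2) ∂μ := by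
      refine setIntegral_mono_on hwi.integrableOn (integrable_const _).integrableOn hSm.compl
        fun x hx => exp_le_exp.2 ?_
      have : η ^ 2 ≤ (x ⬝ᵥ x - t) ^ 2 := by
        by_cases hx1 : t - η ≤ x ⬝ᵥ x
        · have hx2 : ¬ x ⬝ᵥ x ≤ t - η + 2 * η := fun h' => hx ⟨hx1, h'⟩
          exact pow_le_pow_left₀ hη.le (by linarith) 2
        · nlinarith
      nlinarith
    refine a1.trans ?_
    rw [setIntegral_const, smul_eq_mul]
    exact mul_le_of_le_one_left (exp_pos _).le measureReal_le_one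
  have h4 := integral_add_compl hSm hwi
  have h5 : ∫ x in S, w x * (F x - B) ∂μ = ∫ x in S, w x * F x ∂μ - B * ∫ x in S, w x ∂μ := by
    rw [← integral_const_mul, ← integral_sub (hi (by fun_prop)) (hi (by fun_prop))]
    exact integral_congr_ae (ae_of_all _ fun x => by ring)
  have h6 := mul_le_mul_of_nonneg_left h3 hB
  have h7 : B * Z = B * ∫ x in S, w x ∂μ + B * ∫ x in Sᶜ, w x ∂μ := by rw [← mul_add, h4]
  show ∫ x in S, w x * (F x - B) ∂μ ≤ _
  linarith

lemma setIntegral_gs (m : ι → ℝ) {c : ι → ℝ} (hc : ∀ k, 0 < c k) (F : (ι → ℝ) → ℝ)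
    {S : Set (ι → ℝ)} (hS : MeasurableSet S) :
    ∫ x in S, F x ∂gs m c = ∫ x in S, den c (x - m) * F x := by
  have hm : Measurable fun x : ι → ℝ => ENNReal.ofReal (den c (x - m)) :=
    ((continuous_den c).comp (by fun_prop)).measurable.ennreal_ofReal
  rw [gs_eq' m hc, setIntegral_withDensity_eq_setIntegral_toReal_smul hm
    (ae_of_all _ fun _ => ENNReal.ofReal_lt_top) _ hS]
  refine integral_congr_ae (ae_of_all _ fun x => ?_)
  simp only
  rw [ENNReal.toReal_ofReal (den_nonneg c _), smul_eq_mul]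

lemma den_eq {a : ι → ℝ} (ha : ∀ k, 0 < a k) (y : ι → ℝ) : ∃ K : ℝ, 0 < K ∧ ∀ x : ι → ℝ,
    den (fun k => 1 / a k) (x - fun k => y k / a k) =
      K * exp (y ⬝ᵥ x - 1 / 2 * ∑ k, a k * x k ^ 2) := by
  refine ⟨(√(2 * π))⁻¹ ^ Fintype.card ι * (∏ k, (√(1 / a k))⁻¹) *
    exp (-(1 / 2) * ∑ k, y k ^ 2 / a k), ?_, fun x => ?_⟩
  · have : 0 < ∏ k, (√(1 / a k))⁻¹ := Finset.prod_pos fun k _ => by have := ha k; positivity
    positivity
  · rw [den, mul_assoc _ (exp _) (exp _), ← exp_add]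
    congr 2
    rw [dotProduct, mul_sum, mul_sum, mul_sum, ← sum_sub_distrib, ← sum_add_distrib]
    refine sum_congr rfl fun k _ => ?_
    have := (ha k).ne'
    simp only [Pi.sub_apply]
    field_simp
    ring

/-- soft conditioning for every stiffness gives hard conditioning -/
theorem hard_of [Nonempty ι] {a : ι → ℝ} (ha : ∀ k, 0 < a k) (y : ι → ℝ) {t B : ℝ} (ht : 0 < t)
    (hB : 0 ≤ B) {F : (ι → ℝ) → ℝ} (hF : Continuous F) (h0 : ∀ x, 0 ≤ F x)
    (h : ∀ κ, 0 < κ → ∫⁻ x, ENNReal.ofReal (F x) ∂gw (fun k => y k / a k) (fun k => 1 / a k) κ t ≤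
      ENNReal.ofReal B) :
    ∫⁻ x, ENNReal.ofReal (F x) ∂((sphR ι √t).tilted
      fun x => y ⬝ᵥ x - 1 / 2 * ∑ k, a k * x k ^ 2) ≤ ENNReal.ofReal B := by
  obtain ⟨K, hK, hden⟩ := den_eq ha y
  set w : (ι → ℝ) → ℝ := fun x => exp (y ⬝ᵥ x - 1 / 2 * ∑ k, a k * x k ^ 2) with hw
  have hwc : Continuous w := by unfold w dotProduct; fun_prop
  have h1 := peak (G := fun x => K * (w x * (F x - B))) (B := B) (by fun_prop) ht
    fun η h1 h2 κ hκ => by
      refine le_trans (le_of_eq ?_) (shell_bd _ hF h0 hB hκ h1 (h κ hκ))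
      rw [setIntegral_gs _ (fun k => one_div_pos.2 (ha k)) _ (measurableSet_shell _ _)]
      refine integral_congr_ae (ae_of_all _ fun x => ?_)
      simp only
      rw [hden x]
      ring
  rw [integral_const_mul] at h1
  have h2 := nonpos_of_mul_nonpos_right h1 hK
  have hwi : Integrable w (sphR ι √t) := integrable_sphR _ hwc
  have hZ : 0 < ∫ x, w x ∂sphR ι √t := integral_exp_pos hwi
  set Z := ∫ x, w x ∂sphR ι √t with hZd
  have h3 : ∫ x, w x * (F x - B) ∂sphR ι √t = ∫ x, w x * F x ∂sphR ι √t - B * Z := by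
    rw [← integral_const_mul, ← integral_sub (integrable_sphR _ (by fun_prop))
      (integrable_sphR _ (by fun_prop))]
    exact integral_congr_ae (ae_of_all _ fun x => by ring)
  have h4 : ∫ x, w x / Z * F x ∂sphR ι √t = (∫ x, w x * F x ∂sphR ι √t) / Z := by
    rw [← integral_div]
    exact integral_congr_ae (ae_of_all _ fun x => by ring)
  have h5 : ∫ x, w x / Z * F x ∂sphR ι √t ≤ B := by
    rw [h4, div_le_iff₀ hZ]; linarith
  rw [lintegral_tilted]
  refine le_trans (le_of_eq ?_) (ENNReal.ofReal_le_ofReal h5)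
  rw [ofReal_integral_eq_lintegral_ofReal (integrable_sphR _ (by fun_prop))
    (ae_of_all _ fun x => mul_nonneg (div_nonneg (exp_pos _).le hZ.le) (h0 x))]
  exact lintegral_congr fun x => (ENNReal.ofReal_mul (div_nonneg (exp_pos _).le hZ.le)).symm

end Hard85

theorem hardGlue : HardGlue := by
  rintro ⟨C, hC, H⟩
  refine ⟨C, hC, fun ι _ _ a y b t hb ht ha hab hs hq v hv => ?_⟩
  have : Nonempty ι := by
    by_contra hn
    rw [not_nonempty_iff] at hn
    rw [Finset.univ_eq_empty, sum_empty] at hs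
    have : 0 < C ^ 2 * b ^ 2 := by positivity
    linarith
  refine Hard85.hard_of ha y ht (by positivity) (by unfold dotProduct; fun_prop)
    (fun x => (exp_pos _).le) fun κ hκ => ?_
  rw [← hq]
  exact H ι _ _ b κ hb hκ (fun k => one_div_pos.2 (ha k)) hab hs v hv

end Crest.Agent.T157.Sp

end
end

-- ▼ part T157/SpLarge_13
section

/-!
# Row 157, sphere side of the window: `LargeStmt`, `PlStmt`, `RotYStmt` (helper13)
-/

set_option autoImplicit false

noncomputable section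

namespace Crest.Agent.T157.Sp

open MeasureTheory ProbabilityTheory Matrix Filter Topology Finset Real
open scoped ENNReal
open Crest.ProbabilityR.SpinGlassDynamics Crest.Agent.T157.E Crest.Agent.T157.St
open Crest.Agent.T157.Cond Crest.Agent.T157.Ed Crest.Agent.T157.Top

namespace Large13

lemma two_add_sq_le (u : ℝ) : 2 + u ^ 2 ≤ exp u + exp (-u) := by
  have h1 : |u / 2| ≤ |sinh (u / 2)| := by
    rw [abs_sinh]; exact self_le_sinh_iff.2 (abs_nonneg _)
  have h2 := sq_le_sq.2 h1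
  have h3 := cosh_two_mul (u / 2)
  have h4 := cosh_sq (u / 2)
  rw [show 2 * (u / 2) = u by ring, cosh_eq] at h3
  nlinarith

lemma var_le {Ω : Type*} [MeasurableSpace Ω] {μ : Measure Ω} [IsProbabilityMeasure μ] {X : Ω → ℝ}
    {s : ℝ} (hi : ∀ l : ℝ, Integrable (fun x => exp (l * X x)) μ)
    (h : ∀ l : ℝ, (∫ x, exp (l * X x) ∂μ) * ∫ x, exp (-l * X x) ∂μ ≤ exp (l ^ 2 * s)) :
    MemLp X 2 μ ∧ Var[X; μ] ≤ s := by
  have hm : MemLp X 2 μ := by
    have : integrableExpSet X μ = Set.univ := Set.eq_univ_of_forall hi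
    exact memLp_of_mem_interior_integrableExpSet (by simp [this]) 2
  refine ⟨hm, ?_⟩
  have i1 : Integrable X μ := hm.integrable one_le_two
  have i2 : Integrable (fun x => X x ^ 2) μ := hm.integrable_sq
  have i0 : Integrable (fun _ : Ω => (1 : ℝ)) μ := integrable_const _
  have key : ∀ l : ℝ, 1 + l ^ 2 * Var[X; μ] ≤ exp (l ^ 2 * s) := fun l => by
    have j0 := (i0.mul_prod i0).const_mul 2
    have j1 : Integrable (fun p : Ω × Ω => X p.1 ^ 2 * 1 + 1 * X p.2 ^ 2) (μ.prod μ) :=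
      (i2.mul_prod i0).add (i0.mul_prod i2)
    have j2 := (i1.mul_prod i1).const_mul 2
    have j3 : Integrable (fun p : Ω × Ω =>
        l ^ 2 * (X p.1 ^ 2 * 1 + 1 * X p.2 ^ 2 - 2 * (X p.1 * X p.2))) (μ.prod μ) :=
      (j1.sub j2).const_mul _
    have a := integral_mono (μ := μ.prod μ)
      (f := fun p => 2 * (1 * 1) + l ^ 2 * (X p.1 ^ 2 * 1 + 1 * X p.2 ^ 2 - 2 * (X p.1 * X p.2)))
      (g := fun p => exp (l * X p.1) * exp (-l * X p.2) + exp (-l * X p.1) * exp (l * X p.2))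
      (j0.add j3) (((hi l).mul_prod (hi (-l))).add ((hi (-l)).mul_prod (hi l))) fun p => by
        have := two_add_sq_le (l * X p.1 + -l * X p.2)
        rw [show -(l * X p.1 + -l * X p.2) = -l * X p.1 + l * X p.2 by ring, exp_add,
          exp_add] at this
        refine le_trans (le_of_eq ?_) this
        ring
    rw [integral_add ((hi l).mul_prod (hi (-l))) ((hi (-l)).mul_prod (hi l)),
      integral_add j0 j3, integral_const_mul 2, integral_const_mul (l ^ 2), integral_sub j1 j2,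
      integral_add (i2.mul_prod i0) (i0.mul_prod i2), integral_const_mul 2,
      integral_prod_mul (fun x => exp (l * X x)) fun x => exp (-l * X x),
      integral_prod_mul (fun x => exp (-l * X x)) fun x => exp (l * X x),
      integral_prod_mul (fun x => X x ^ 2) fun _ => (1 : ℝ),
      integral_prod_mul (fun _ => (1 : ℝ)) fun x => X x ^ 2,
      integral_prod_mul (fun _ => (1 : ℝ)) fun _ => (1 : ℝ), integral_prod_mul X X] at a
    simp only [integral_const, probReal_univ, one_smul] at a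
    rw [variance_eq_sub hm]
    have e : μ[X ^ 2] = ∫ x, X x ^ 2 ∂μ := rfl
    rw [e]
    nlinarith [h l]
  have d : HasDerivAt (fun e : ℝ => exp (e * s)) s 0 := by
    simpa using ((hasDerivAt_id (0 : ℝ)).mul_const s).exp
  refine ge_of_tendsto d.tendsto_slope_zero_right (eventually_nhdsWithin_of_forall fun e he => ?_)
  have he : 0 < e := he
  have := key √e
  rw [sq_sqrt he.le] at this
  simp only [zero_add, zero_mul, exp_zero, smul_eq_mul]
  rw [← div_eq_inv_mul, le_div_iff₀ he]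
  linarith

variable {n : ℕ}

lemma int_gauss {a : ℝ} (ha : 0 < a) (w : Fin n → ℝ) (C : ℝ) {f : (Fin n → ℝ) → ℝ}
    (hf : Measurable f) (h : ∀ x, f x ≤ C + (w ⬝ᵥ x - a / 2 * (x ⬝ᵥ x))) :
    Integrable fun x => exp (f x) := by
  have h1 : Integrable fun x : Fin n → ℝ => ∏ k, exp (w k ^ 2 / a) * exp (-(a / 4) * x k ^ 2) :=
    Integrable.fintype_prod (f := fun k (z : ℝ) => exp (w k ^ 2 / a) * exp (-(a / 4) * z ^ 2))
      fun k => (integrable_exp_neg_mul_sq (by positivity)).const_mul _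
  refine (h1.const_mul (exp C)).mono' hf.exp.aestronglyMeasurable (.of_forall fun x => ?_)
  simp only [← exp_add, ← exp_sum, norm_eq_abs, abs_exp, exp_le_exp]
  refine (h x).trans (add_le_add_right ?_ C)
  rw [dotProduct, dotProduct, mul_sum, ← sum_sub_distrib]
  refine sum_le_sum fun k _ => ?_
  have : w k * x k ≤ w k ^ 2 / a + a / 4 * x k ^ 2 := by
    rw [div_add' _ _ _ ha.ne', le_div_iff₀ ha]
    nlinarith [sq_nonneg (w k - a / 2 * x k)]
  nlinarith

/-- strongly log-concave laws have small covariance -/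
lemma cov_le {a : ℝ} (ha : 0 < a) {W : (Fin n → ℝ) → ℝ} (hW : Measurable W) (w : Fin n → ℝ) (C : ℝ)
    (hb : ∀ x, W x ≤ C + (w ⬝ᵥ x - a / 2 * (x ⬝ᵥ x)))
    (hc : ∀ x x', (W x + W x') / 2 + a / 8 * ((x - x') ⬝ᵥ (x - x')) ≤
      W ((1 / 2 : ℝ) • x + (1 / 2 : ℝ) • x')) :
    IsProbabilityMeasure (volume.tilted W) ∧ CovB (volume.tilted W) (1 / a) := by
  have i0 := int_gauss ha w C hW hb
  have hp := isProbabilityMeasure_tilted i0
  refine ⟨hp, fun v => ?_⟩
  have mv : Measurable fun x : Fin n → ℝ => v ⬝ᵥ x := by unfold dotProduct; fun_prop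
  have i1 : ∀ l : ℝ, Integrable fun x => exp (W x + l * (v ⬝ᵥ x)) := fun l =>
    int_gauss ha (w + l • v) C (hW.add (mv.const_mul l)) fun x => by
      rw [add_dotProduct, smul_dotProduct, smul_eq_mul]; linarith [hb x]
  have hZ : 0 < ∫ x, exp (W x) := integral_exp_pos i0
  refine var_le (fun l => (integrable_tilted_iff i0 _).2 (by simpa [exp_add] using i1 l)) fun l => ?_
  have e : ∀ l : ℝ, ∫ x, exp (l * (v ⬝ᵥ x)) ∂volume.tilted W =
      (∫ x, exp (W x + l * (v ⬝ᵥ x))) / ∫ x, exp (W x) := fun l => by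
    rw [integral_tilted, ← integral_div]
    refine integral_congr_ae (.of_forall fun x => ?_)
    simp only [exp_add, smul_eq_mul]; ring
  set s := l ^ 2 * (1 / a * (v ⬝ᵥ v)) with hs
  have hPL := Lib.PrekopaLeindler.PL_pi n (1 / 2) (by norm_num) (by norm_num)
    (fun x => ENNReal.ofReal (exp (W x + l * (v ⬝ᵥ x))))
    (fun x => ENNReal.ofReal (exp (W x + -l * (v ⬝ᵥ x))))
    (fun x => ENNReal.ofReal (exp (W x) * exp (s / 2)))
    (hW.add (mv.const_mul _)).exp.ennreal_ofReal (hW.add (mv.const_mul _)).exp.ennreal_ofReal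
    (hW.exp.mul_const _).ennreal_ofReal fun x x' => by
      rw [show (1 : ℝ) - 1 / 2 = 1 / 2 by norm_num,
        ENNReal.ofReal_rpow_of_nonneg (exp_pos _).le (by norm_num),
        ENNReal.ofReal_rpow_of_nonneg (exp_pos _).le (by norm_num),
        ← ENNReal.ofReal_mul (by positivity), ← exp_mul, ← exp_mul, ← exp_add, ← exp_add]
      refine ENNReal.ofReal_le_ofReal (exp_le_exp.2 ?_)
      have k : l / 2 * (v ⬝ᵥ (x - x')) ≤ s / 2 + a / 8 * ((x - x') ⬝ᵥ (x - x')) := by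
        simp only [hs, dotProduct, mul_sum, sum_div, ← sum_add_distrib]
        refine sum_le_sum fun k _ => ?_
        have : l ^ 2 * (1 / a * (v k * v k)) / 2 = (l * v k) ^ 2 / 2 / a := by field_simp
        rw [this, div_add' _ _ _ ha.ne', le_div_iff₀ ha]
        nlinarith [sq_nonneg (2 * l * v k - a * (x - x') k)]
      rw [dotProduct_sub] at k
      linarith [hc x x']
  rw [← ofReal_integral_eq_lintegral_ofReal (i1 l) (ae_of_all _ fun _ => (exp_pos _).le),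
    ← ofReal_integral_eq_lintegral_ofReal (i1 (-l)) (ae_of_all _ fun _ => (exp_pos _).le),
    ← ofReal_integral_eq_lintegral_ofReal (i0.mul_const _) (ae_of_all _ fun _ => by positivity),
    integral_mul_const] at hPL
  rw [e, e]
  have z1 := integral_exp_pos (i1 l)
  have z2 := integral_exp_pos (i1 (-l))
  rw [show (1 : ℝ) - 1 / 2 = 1 / 2 by norm_num, ENNReal.ofReal_rpow_of_nonneg z1.le (by norm_num),
    ENNReal.ofReal_rpow_of_nonneg z2.le (by norm_num), ← ENNReal.ofReal_mul (by positivity),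
    ENNReal.ofReal_le_ofReal_iff (by positivity), ← mul_rpow z1.le z2.le, ← sqrt_eq_rpow] at hPL
  have h1 := pow_le_pow_left₀ (sqrt_nonneg _) hPL 2
  rw [sq_sqrt (by positivity), mul_pow, ← exp_nat_mul] at h1
  rw [div_mul_div_comm, div_le_iff₀ (by positivity)]
  refine h1.trans (le_of_eq ?_)
  rw [show ((2 : ℕ) : ℝ) * (s / 2) = s by push_cast; ring]; ring


instance gK_prob (ι : Type*) [Fintype ι] (T : ℝ) : IsProbabilityMeasure (gK ι T) :=
  Measure.isProbabilityMeasure_map (by fun_prop)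

end Large13

open Large13

theorem largeStmt : LargeStmt := by
  intro n η t κ r a y hκ ha h
  have mq : Measurable fun x : Fin n → ℝ => x ⬝ᵥ x := by unfold dotProduct; fun_prop
  have my : Measurable fun x : Fin n → ℝ => y ⬝ᵥ x := by unfold dotProduct; fun_prop
  have mU : Measurable fun x : Fin n → ℝ =>
      -(1 / 2) * ∑ k : Fin n, η k * x k ^ 2 - κ / 8 * (x ⬝ᵥ x - t) ^ 2 := by fun_prop
  have q0 : ∀ x : Fin n → ℝ, 0 ≤ x ⬝ᵥ x := fun x => sum_nonneg fun k _ => mul_self_nonneg _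
  have lo : ∀ x : Fin n → ℝ, (a + κ * t / 2 - r) * (x ⬝ᵥ x) ≤ ∑ k : Fin n, η k * x k ^ 2 := fun x => by
    rw [dotProduct, mul_sum]
    exact sum_le_sum fun k _ => by nlinarith [h k, mul_self_nonneg (x k)]
  have iU := int_gauss (a := 1) one_pos 0
    ((1 + r - a - κ * t / 2) / 2 * t + (1 + r - a - κ * t / 2) ^ 2 / 2 / κ) mU fun x => by
      have : (1 + r - a - κ * t / 2) / 2 * (x ⬝ᵥ x - t) - κ / 8 * (x ⬝ᵥ x - t) ^ 2 ≤
          (1 + r - a - κ * t / 2) ^ 2 / 2 / κ := by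
        rw [le_div_iff₀ hκ]
        nlinarith [sq_nonneg (2 * (1 + r - a - κ * t / 2) - κ * (x ⬝ᵥ x - t))]
      rw [zero_dotProduct]
      nlinarith [lo x]
  rw [pst, piD, tilted_tilted iU]
  refine cov_le ha (mU.add (my.sub (mq.const_mul _))) y 0 (fun x => ?_) fun x x' => ?_
  · simp only [Pi.add_apply]
    nlinarith [lo x, mul_nonneg hκ.le (sq_nonneg (x ⬝ᵥ x)), mul_nonneg hκ.le (sq_nonneg t)]
  · set z := (1 / 2 : ℝ) • x + (1 / 2 : ℝ) • x' with hz
    simp only [Pi.add_apply _ _ z, Pi.add_apply _ _ x, Pi.add_apply _ _ x']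
    have e1 : z ⬝ᵥ z = (x ⬝ᵥ x + x' ⬝ᵥ x') / 2 - (x - x') ⬝ᵥ (x - x') / 4 := by
      simp only [hz, add_dotProduct, dotProduct_add, sub_dotProduct, dotProduct_sub,
        smul_dotProduct, dotProduct_smul, smul_eq_mul]
      ring
    have e2 : y ⬝ᵥ z = (y ⬝ᵥ x + y ⬝ᵥ x') / 2 := by
      simp only [hz, dotProduct_add, dotProduct_smul, smul_eq_mul]; ring
    have e3 : ∑ k : Fin n, η k * z k ^ 2 = (∑ k : Fin n, η k * x k ^ 2 +
        ∑ k : Fin n, η k * x' k ^ 2) / 2 - (∑ k : Fin n, η k * (x - x') k ^ 2) / 4 := by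
      simp only [← sum_add_distrib, sum_div, ← sum_sub_distrib]
      refine sum_congr rfl fun k _ => ?_
      simp only [hz, Pi.add_apply, Pi.smul_apply, Pi.sub_apply, smul_eq_mul]; ring
    have e4 : (z ⬝ᵥ z) ^ 2 ≤ ((x ⬝ᵥ x) ^ 2 + (x' ⬝ᵥ x') ^ 2) / 2 := by
      have : z ⬝ᵥ z ≤ (x ⬝ᵥ x + x' ⬝ᵥ x') / 2 := by linarith [q0 (x - x')]
      nlinarith [q0 z, sq_nonneg (x ⬝ᵥ x - x' ⬝ᵥ x')]
    have e5 := mul_le_mul_of_nonneg_left e4 hκ.le
    have e6 := lo (x - x')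
    have e7 : κ * t * (z ⬝ᵥ z) = κ * t * ((x ⬝ᵥ x + x' ⬝ᵥ x') / 2 - (x - x') ⬝ᵥ (x - x') / 4) := by
      rw [e1]
    have e8 : r * (z ⬝ᵥ z) = r * ((x ⬝ᵥ x + x' ⬝ᵥ x') / 2 - (x - x') ⬝ᵥ (x - x') / 4) := by
      rw [e1]
    rw [e2, e3]
    nlinarith



end Crest.Agent.T157.Sp

end
end

-- ▼ part T157/SpSW_89
section

/-!
# Row 157, the sphere side of the window: the posterior covariance of the spherical models (helper89)

`Sp.sWinGlue : SWinGlue`.  Off a bad set of outputs the saddle point `v` is at least `(1 - e) r`;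
the posterior law is then a Gaussian law conditioned (softly or exactly) on `|x|²` at its mean.
-/

set_option autoImplicit false

noncomputable section

namespace Crest.Agent.T157.Sp

open MeasureTheory ProbabilityTheory Matrix Filter Topology Finset Real
open scoped ENNReal
open Crest.Agent.T157.E Crest.Agent.T157.St Crest.Agent.T157.St.Sph38 Crest.Agent.T157.Ed

namespace SW89

lemma tilt_const {α : Type*} [MeasurableSpace α] (μ : Measure α) (f : α → ℝ) (c : ℝ) :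
    (μ.tilted fun x => f x + c) = μ.tilted f := by
  simp only [Measure.tilted, exp_add, integral_mul_const]
  congr 1
  funext x
  rw [mul_div_mul_right _ _ (exp_pos c).ne']

/-- a probability density proportional to `exp g` -/
lemma eq_tilted {α : Type*} [MeasurableSpace α] (μ : Measure α) {g : α → ℝ} (hg : Measurable g)
    {A : ℝ} (hA : 0 < A)
    (h : IsProbabilityMeasure (μ.withDensity fun x => ENNReal.ofReal (A * exp (g x)))) :
    Integrable (fun x => exp (g x)) μ ∧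
      (μ.withDensity fun x => ENNReal.ofReal (A * exp (g x))) = μ.tilted g := by
  have h1 : ∫⁻ x, ENNReal.ofReal (A * exp (g x)) ∂μ = 1 := by
    have := h.measure_univ
    rwa [withDensity_apply _ MeasurableSet.univ, Measure.restrict_univ] at this
  have hn : 0 ≤ᵐ[μ] fun x => A * exp (g x) := ae_of_all _ fun x => by
    show 0 ≤ A * exp (g x)
    positivity
  have hm : AEStronglyMeasurable (fun x => A * exp (g x)) μ :=
    (hg.exp.const_mul A).aestronglyMeasurable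
  have hi : Integrable (fun x => A * exp (g x)) μ :=
    ⟨hm, (hasFiniteIntegral_iff_ofReal hn).2 (by rw [h1]; simp)⟩
  have h2 : A * ∫ x, exp (g x) ∂μ = 1 := by
    rw [← integral_const_mul, integral_eq_lintegral_of_nonneg_ae hn hm, h1]; simp
  refine ⟨(integrable_const_mul_iff (isUnit_iff_ne_zero.2 hA.ne') _).1 hi, ?_⟩
  unfold Measure.tilted
  congr 1
  funext x
  rw [eq_one_div_of_mul_eq_one_right h2]
  congr 1
  field_simp

variable {ι : Type} [Fintype ι]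

lemma sum_sq (x : ι → ℝ) : ∑ k, x k ^ 2 = x ⬝ᵥ x := by simp [dotProduct, sq]

lemma gs_tilt {a : ι → ℝ} (ha : ∀ k, 0 < a k) (y : ι → ℝ) :
    Integrable (fun x : ι → ℝ => exp (y ⬝ᵥ x - 1 / 2 * ∑ k, a k * x k ^ 2)) volume ∧
    gs (fun k => y k / a k) (fun k => 1 / a k) =
      (volume : Measure (ι → ℝ)).tilted fun x => y ⬝ᵥ x - 1 / 2 * ∑ k, a k * x k ^ 2 := by
  have hc : ∀ k, 0 < 1 / a k := fun k => one_div_pos.2 (ha k)
  have e : ∀ x : ι → ℝ, den (fun k => 1 / a k) (x - fun k => y k / a k) =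
      ((√(2 * π))⁻¹ ^ Fintype.card ι * (∏ k, (√(1 / a k))⁻¹) *
        exp (-(1 / 2) * ∑ k, y k ^ 2 / a k)) * exp (y ⬝ᵥ x - 1 / 2 * ∑ k, a k * x k ^ 2) := by
    intro x
    unfold den
    rw [mul_assoc _ (exp _) (exp _), ← exp_add]
    congr 2
    simp only [dotProduct, Finset.mul_sum, ← Finset.sum_sub_distrib, ← Finset.sum_add_distrib,
      Pi.sub_apply]
    refine Finset.sum_congr rfl fun k _ => ?_
    have := (ha k).ne'
    field_simp
    ring
  have h := gs_eq' (fun k => y k / a k) hc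
  simp only [e] at h
  have hP : 0 < ∏ k, (√(1 / a k))⁻¹ := Finset.prod_pos fun k _ => inv_pos.2 (sqrt_pos.2 (hc k))
  have hA : 0 < (√(2 * π))⁻¹ ^ Fintype.card ι * (∏ k, (√(1 / a k))⁻¹) *
      exp (-(1 / 2) * ∑ k, y k ^ 2 / a k) := by positivity
  have hg : Continuous fun x : ι → ℝ => y ⬝ᵥ x - 1 / 2 * ∑ k, a k * x k ^ 2 := by fun_prop
  obtain ⟨h1, h2⟩ := eq_tilted volume hg.measurable hA (h ▸ inferInstance)
  exact ⟨h1, h.trans h2⟩

/-- the posterior law of the soft model -/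
lemma pst_piD {n : ℕ} {η : ℕ → ℝ} {t κ v : ℝ} (r : ℝ) (hκ : κ ≠ 0)
    (hP : IsProbabilityMeasure (piD n η t κ)) (ha : ∀ k : Fin n, 0 < v + η k) (y : Fin n → ℝ) :
    pst r (piD n η t κ) y =
      gw (fun k => y k / (v + η k)) (fun k : Fin n => 1 / (v + η k)) κ (t + 2 / κ * (v - r)) := by
  obtain ⟨h1, h2⟩ := gs_tilt ha y
  have hi : Integrable (fun x : Fin n → ℝ =>
      exp (-(1 / 2) * ∑ k : Fin n, η k * x k ^ 2 - κ / 8 * (x ⬝ᵥ x - t) ^ 2)) volume := by
    by_contra h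
    have := hP.measure_univ
    rw [piD, tilted_of_not_integrable h] at this
    simp at this
  rw [pst, piD, gw, h2, tilted_tilted hi, tilted_tilted h1,
    ← tilt_const _ _ (κ / 8 * (t ^ 2 - (t + 2 / κ * (v - r)) ^ 2))]
  congr 1
  funext x
  simp only [Pi.add_apply, add_mul, Finset.sum_add_distrib, ← Finset.mul_sum, sum_sq]
  field_simp
  ring

/-- the posterior law of the spherical model -/
lemma pst_nuD {n : ℕ} [Nonempty (Fin n)] (η : ℕ → ℝ) {t : ℝ} (ht : 0 ≤ t) (r v : ℝ)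
    (y : Fin n → ℝ) : pst r (nuD n η t) y = (sphR (Fin n) √t).tilted fun x =>
      y ⬝ᵥ x - 1 / 2 * ∑ k : Fin n, (v + η k) * x k ^ 2 := by
  rw [pst, nuD, tilted_tilted (integrable_sphR _ (by fun_prop)),
    ← tilt_const _ _ ((r - v) / 2 * t)]
  refine tilted_congr ?_
  filter_upwards [sphR_ae (ι := Fin n) √t] with x hx
  rw [sq_sqrt ht] at hx
  simp only [Pi.add_apply, add_mul, Finset.sum_add_distrib, ← Finset.mul_sum, sum_sq, hx]
  ring

lemma prob_gw (m c : ι → ℝ) {κ : ℝ} (hκ : 0 ≤ κ) (s : ℝ) : IsProbabilityMeasure (gw m c κ s) := by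
  refine isProbabilityMeasure_tilted (Integrable.of_bound
    (Continuous.aestronglyMeasurable (by fun_prop)) 1 (ae_of_all _ fun x => ?_))
  rw [norm_of_nonneg (exp_pos _).le, exp_le_one_iff]
  have : 0 ≤ κ / 8 * (x ⬝ᵥ x - s) ^ 2 := by positivity
  linarith

/-- the saddle point -/
lemma saddle {η y : ι → ℝ} {L t r w α : ℝ} (hη : ∀ k, -L ≤ η k) (hw : L < w) (hwr : w ≤ r)
    (ht : 0 < t) (hα : 0 ≤ α)
    (h : t < qm (fun k => y k / (w + η k)) (fun k => 1 / (w + η k))) :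
    ∃ v, w ≤ v ∧ qm (fun k => y k / (v + η k)) (fun k => 1 / (v + η k)) = t + α * (v - r) := by
  obtain ⟨S, hS⟩ : ∃ S, S = ∑ k, (y k ^ 2 + 1) := ⟨_, rfl⟩
  have hS0 : 0 ≤ S := hS ▸ Finset.sum_nonneg fun k _ => by positivity
  obtain ⟨M, hM⟩ : ∃ M, M = 1 + S / t := ⟨_, rfl⟩
  have hM1 : 1 ≤ M := by
    have : 0 ≤ S / t := by positivity
    linarith
  have hc : ContinuousOn (fun v => qm (fun k => y k / (v + η k)) (fun k => 1 / (v + η k)) -
      α * (v - r)) (Set.Icc w (r + M)) := by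
    unfold qm
    refine ContinuousOn.sub (continuousOn_finsetSum _ fun k _ => ?_) (by fun_prop)
    have hk : ∀ v ∈ Set.Icc w (r + M), v + η k ≠ 0 := fun v hv => by
      have := hv.1; have := hη k; linarith
    exact ((continuousOn_const.div (by fun_prop) hk).pow 2).add
      (continuousOn_const.div (by fun_prop) hk)
  have h1 : qm (fun k => y k / (r + M + η k)) (fun k => 1 / (r + M + η k)) ≤ t := by
    have h2 : qm (fun k => y k / (r + M + η k)) (fun k => 1 / (r + M + η k)) ≤ S / M := by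
      rw [hS, Finset.sum_div]
      refine Finset.sum_le_sum fun k _ => ?_
      have hk : M ≤ r + M + η k := by have := hη k; linarith
      have hk2 : M ≤ (r + M + η k) ^ 2 := by nlinarith
      rw [add_div, div_pow]
      exact add_le_add (div_le_div_of_nonneg_left (sq_nonneg _) (by linarith) hk2)
        (div_le_div_of_nonneg_left zero_le_one (by linarith) hk)
    refine h2.trans ((div_le_iff₀ (by linarith)).2 ?_)
    rw [hM, mul_add, mul_div_cancel₀ _ ht.ne']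
    linarith
  obtain ⟨v, hv, e⟩ := intermediate_value_Icc' (by linarith : w ≤ r + M) hc
    (show t ∈ Set.Icc _ _ from ⟨by
      have : 0 ≤ α * (r + M - r) := mul_nonneg hα (by linarith)
      show _ - _ ≤ t
      linarith, by
      have : 0 ≤ α * (r - w) := mul_nonneg hα (by linarith)
      show t ≤ _ - _
      linarith⟩)
  refine ⟨v, hv.1, ?_⟩
  have e' : _ - _ = t := e
  linarith

lemma mom_mono {μ : Measure (ι → ℝ)} {a a' : ℝ} (h : Mom μ a) (ha : 0 ≤ a) (h' : a ≤ a') :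
    Mom μ a' := by
  obtain ⟨hp, m, hm⟩ := h
  refine ⟨hp, m, fun v => ?_⟩
  have hv : 0 ≤ v ⬝ᵥ v := by rw [← sum_sq]; positivity
  have h1 : a * (v ⬝ᵥ v) ≤ a' * (v ⬝ᵥ v) := mul_le_mul_of_nonneg_right h' hv
  exact ⟨(hm v).1, (hm v).2.1.trans h1, (hm v).2.2.trans (mul_le_mul_of_nonneg_left
    (pow_le_pow_left₀ (mul_nonneg ha hv) h1 2) (by norm_num))⟩

/-- the exponent of the bad set -/
lemma expo {c D e m u S₁ S₂ : ℝ} (hc : 0 < c) (hD : 0 < D) (he : 0 < e) (hm0 : 0 ≤ m)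
    (hem : 1 ≤ e ^ 2 * m) (hm : (2 * D / c) ^ 2 ≤ m) (h1 : u + c * e * m - D ≤ S₁) (h2 : S₂ ≤ D) :
    ∃ l, 0 ≤ l ∧ l * u - l * S₁ + l ^ 2 * S₂ ≤ -(c ^ 2 / (16 * D) * m) := by
  have h3 : m ≤ (e * m) ^ 2 := by nlinarith
  have h4 : 2 * D / c ≤ e * m :=
    (pow_le_pow_iff_left₀ (by positivity) (by positivity) two_ne_zero).1 (hm.trans h3)
  rw [div_le_iff₀ hc] at h4
  obtain ⟨g, hg⟩ : ∃ g, g = c * e * m - D := ⟨_, rfl⟩
  have h5 : c * (e * m) / 2 ≤ g := by linarith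
  have h6 : 0 ≤ c * (e * m) / 2 := by positivity
  have h7 : (c * (e * m) / 2) ^ 2 ≤ g ^ 2 := pow_le_pow_left₀ h6 h5 2
  have h8 : c ^ 2 * m ≤ c ^ 2 * (e * m) ^ 2 := mul_le_mul_of_nonneg_left h3 (by positivity)
  have hl : 0 ≤ g / (2 * D) := div_nonneg (h6.trans h5) (by positivity)
  refine ⟨g / (2 * D), hl, ?_⟩
  have h9 : g / (2 * D) * (u + g) ≤ g / (2 * D) * S₁ :=
    mul_le_mul_of_nonneg_left (by linarith) hl
  have h10 : (g / (2 * D)) ^ 2 * S₂ ≤ (g / (2 * D)) ^ 2 * D :=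
    mul_le_mul_of_nonneg_left h2 (by positivity)
  have h11 : -(g / (2 * D) * g) + (g / (2 * D)) ^ 2 * D = -(g ^ 2 / (4 * D)) := by
    field_simp
    ring
  have h12 : c ^ 2 / (16 * D) * m ≤ g ^ 2 / (4 * D) := by
    rw [div_mul_eq_mul_div, div_le_div_iff₀ (by positivity) (by positivity)]
    nlinarith
  linarith

/-- the constants of the covariance bound -/
lemma num {C c S X e r z B₁ B : ℝ} (hC : 1 ≤ C) (hc : 0 < c) (he : 0 < e) (he4 : e ≤ 1 / 4)
    (hr : 0 < r) (hz : (1 - 2 * e) * r ≤ z) (hS : c * X * (1 / z) ^ 2 ≤ S) (hX : C ^ 2 / c ≤ X)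
    (hXe : 1 ≤ X * e ^ 4) (hB₁ : C ^ 2 / c + 1 ≤ B₁) (hB : 10 * B₁ + 4 ≤ B) :
    0 < 1 / z ∧ C ^ 2 * (1 / z) ^ 2 ≤ S ∧ 0 < C * (1 / z) / √S ∧ C * (1 / z) / √S ≤ 1 ∧
      (1 + 5 * √(C * (1 / z) / √S)) * (1 / z) ≤ (1 + B * e) / r := by
  have h2e : 0 < (1 - 2 * e) * r := mul_pos (by linarith) hr
  have hz0 : 0 < z := h2e.trans_le hz
  have hb : 0 < 1 / z := one_div_pos.2 hz0
  have hCc : 0 < C ^ 2 / c := by positivity
  have hX' : C ^ 2 ≤ c * X := by rw [div_le_iff₀ hc] at hX; linarith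
  have h1 : C ^ 2 * (1 / z) ^ 2 ≤ S := (mul_le_mul_of_nonneg_right hX' (by positivity)).trans hS
  have hS0 : 0 < S := lt_of_lt_of_le (by positivity) h1
  have hsq : (C * (1 / z) / √S) ^ 2 = C ^ 2 * (1 / z) ^ 2 / S := by
    rw [div_pow, sq_sqrt hS0.le, mul_pow]
  have hδ : 0 < C * (1 / z) / √S := by positivity
  generalize C * (1 / z) / √S = δ at hsq hδ ⊢
  have hB1 : 1 ≤ B₁ := by linarith
  have h3 : δ ^ 2 ≤ ((B₁ * e) ^ 2) ^ 2 := by
    have h4 : δ ^ 2 ≤ C ^ 2 / c * e ^ 4 := by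
      rw [hsq, div_le_iff₀ hS0]
      have h5 : C ^ 2 / c * e ^ 4 * (c * X * (1 / z) ^ 2) ≤ C ^ 2 / c * e ^ 4 * S :=
        mul_le_mul_of_nonneg_left hS (by positivity)
      have h6 : C ^ 2 / c * e ^ 4 * (c * X * (1 / z) ^ 2) =
          C ^ 2 * (1 / z) ^ 2 * (X * e ^ 4) := by field_simp
      have h7 : C ^ 2 * (1 / z) ^ 2 * 1 ≤ C ^ 2 * (1 / z) ^ 2 * (X * e ^ 4) :=
        mul_le_mul_of_nonneg_left hXe (by positivity)
      linarith
    have h8 : B₁ ≤ B₁ ^ 4 := le_self_pow₀ hB1 (by norm_num)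
    have h9 : C ^ 2 / c * e ^ 4 ≤ B₁ ^ 4 * e ^ 4 :=
      mul_le_mul_of_nonneg_right (by linarith) (by positivity)
    calc δ ^ 2 ≤ B₁ ^ 4 * e ^ 4 := h4.trans h9
      _ = _ := by ring
  have h10 : √δ ≤ B₁ * e := sqrt_le_iff.2 ⟨by positivity,
    (pow_le_pow_iff_left₀ hδ.le (by positivity) two_ne_zero).1 h3⟩
  refine ⟨hb, h1, hδ, ?_, ?_⟩
  · refine (pow_le_one_iff_of_nonneg hδ.le two_ne_zero).1 ?_
    rw [hsq]
    exact div_le_one_of_le₀ h1 hS0.le
  · have h11 : 1 + 5 * √δ ≤ (1 + B * e) * (1 - 2 * e) := by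
      have h12 : B * e * e ≤ B * e * (1 / 4) :=
        mul_le_mul_of_nonneg_left he4 (mul_nonneg (by linarith) he.le)
      have h13 : (10 * B₁ + 4) * e ≤ B * e := mul_le_mul_of_nonneg_right hB he.le
      nlinarith
    have h14 : 0 ≤ 1 + B * e := by
      have : 0 ≤ B * e := mul_nonneg (by linarith) he.le
      linarith
    rw [mul_one_div, div_le_div_iff₀ hz0 hr]
    calc (1 + 5 * √δ) * r ≤ (1 + B * e) * (1 - 2 * e) * r := mul_le_mul_of_nonneg_right h11 hr.le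
      _ = (1 + B * e) * ((1 - 2 * e) * r) := by ring
      _ ≤ _ := mul_le_mul_of_nonneg_left hz h14

lemma sx_cube (n : ℕ) : (sx n ^ 2) ^ 3 = n := by
  rw [← pow_mul, sx, ← rpow_natCast, ← rpow_mul (Nat.cast_nonneg n)]
  norm_num

/-- the small parameter -/
lemma efacts {r x : ℝ} (hr : 0 < r) (hs : 16 ≤ √r) (hx : 0 ≤ x) (hx2 : 16 ≤ x ^ 2) :
    0 < max (r ^ (-(1 / 4) : ℝ)) x⁻¹ ∧ max (r ^ (-(1 / 4) : ℝ)) x⁻¹ ≤ 1 / 4 ∧
      1 ≤ max (r ^ (-(1 / 4) : ℝ)) x⁻¹ ^ 2 * min √r (x ^ 2) := by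
  have h0 : 0 < r ^ (-(1 / 4) : ℝ) := rpow_pos_of_pos hr _
  have h1 : (r ^ (-(1 / 4) : ℝ)) ^ 2 * √r = 1 := by
    rw [sqrt_eq_rpow, ← rpow_natCast, ← rpow_mul hr.le, ← rpow_add hr]
    norm_num
  generalize r ^ (-(1 / 4) : ℝ) = ρ at h0 h1 ⊢
  have hx4 : 4 ≤ x := by nlinarith
  have hx0 : 0 < x := by linarith
  have hi : 0 < x⁻¹ := inv_pos.2 hx0
  refine ⟨lt_max_of_lt_left h0, max_le ?_ ?_, ?_⟩
  · by_contra h
    push Not at h
    have h2 : (1 / 4) ^ 2 < ρ ^ 2 := pow_lt_pow_left₀ h (by norm_num) two_ne_zero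
    nlinarith
  · rw [one_div]
    exact inv_anti₀ (by norm_num) hx4
  · rcases le_total √r (x ^ 2) with h | h
    · rw [min_eq_left h, ← h1]
      exact mul_le_mul_of_nonneg_right (pow_le_pow_left₀ h0.le (le_max_left _ _) 2)
        (sqrt_nonneg _)
    · rw [min_eq_right h]
      have h2 : (1 : ℝ) = x⁻¹ ^ 2 * x ^ 2 := by field_simp
      rw [h2]
      exact mul_le_mul_of_nonneg_right (pow_le_pow_left₀ hi.le (le_max_right _ _) 2)
        (sq_nonneg _)

end SW89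

open SW89

set_option maxHeartbeats 800000 in
/-- **the posterior covariance of the spherical models** -/
theorem sWinGlue : SWinGlue := by
  rintro ⟨C₁, hC₁, hS⟩ ⟨C₂, hC₂, hH⟩ hM hD hLow hG L C hL
  obtain ⟨w₂, hw₂, hD⟩ := hD L C hL
  refine ⟨w₂, fun w hw => ?_⟩
  obtain ⟨B₀, hB₀, hD⟩ := hD w hw
  obtain ⟨c, D, K, hc, hD0, hK, hG⟩ := hG L C w hL (hw₂.trans hw)
  obtain ⟨B₁, hB₁⟩ : ∃ B₁, B₁ = C₁ ^ 2 / c + C₂ ^ 2 / c + 1 := ⟨_, rfl⟩
  obtain ⟨Q, hQ⟩ : ∃ Q, Q = K + (2 * D / c) ^ 2 + B₁ := ⟨_, rfl⟩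
  have p1 : 0 < C₁ ^ 2 / c := by positivity
  have p2 : 0 < C₂ ^ 2 / c := by positivity
  have p3 : 0 ≤ (2 * D / c) ^ 2 := sq_nonneg _
  have hQ16 : 16 ≤ Q := by linarith
  refine ⟨B₀ + 10 * B₁ + 4, Q ^ 2, c ^ 2 / (16 * D), by linarith, one_le_pow₀ (by linarith),
    by positivity, ?_⟩
  filter_upwards [hD, hG, tendsto_natCast_atTop_atTop.eventually_ge_atTop (Q ^ 3),
    eventually_ge_atTop 2] with n hD hG hnQ hn2 η hη r hr
  have hx0 : 0 ≤ sx n := rpow_nonneg (Nat.cast_nonneg n) _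
  have htQ : Q ≤ sx n ^ 2 :=
    (pow_le_pow_iff_left₀ (by linarith) (sq_nonneg _) three_ne_zero).1 (by rwa [sx_cube])
  have ht0 : 0 < sx n ^ 2 := by linarith
  have hr0 : 0 < r := lt_of_lt_of_le (by positivity) hr
  have hsQ : Q ≤ √r := le_sqrt_of_sq_le hr
  have hrQ : Q ≤ r := (le_self_pow₀ (by linarith) two_ne_zero).trans hr
  obtain ⟨he0, he4, hem⟩ := efacts hr0 (hQ16.trans hsQ) hx0 (hQ16.trans htQ)
  generalize max (r ^ (-(1 / 4) : ℝ)) (sx n)⁻¹ = e at he0 he4 hem ⊢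
  have hmQ : Q ≤ min √r (sx n ^ 2) := le_min hsQ htQ
  have hms : min √r (sx n ^ 2) ≤ √r := min_le_left _ _
  have hmt : min √r (sx n ^ 2) ≤ sx n ^ 2 := min_le_right _ _
  obtain ⟨hG1, hG2⟩ := hG η hη
  have hG1 := hG1 ⟨0, by omega⟩ ⟨1, by omega⟩ r e (by linarith) he0.le (by linarith)
  obtain ⟨hD1, hD2⟩ := hD η _ ht0 hη ⟨0, by omega⟩ ⟨1, by omega⟩ rfl rfl
  generalize min √r (sx n ^ 2) = m at hem hmQ hms hmt hG1 ⊢
  have hm0 : 0 ≤ m := by linarith
  have hcube := sx_cube n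
  generalize sx n ^ 2 = t at *
  have hlo : ∀ k : Fin n, -L ≤ η k := fun k => by
    have h1 := hη.lo k k.2
    have h2 : 0 ≤ (((k : ℕ) : ℝ) + 1) ^ (2 / 3 : ℝ) / 256 := by positivity
    linarith
  have hrr : √r ^ 2 = r := sq_sqrt hr0.le
  have her : e * r ≤ 1 / 4 * r := mul_le_mul_of_nonneg_right he4 hr0.le
  have her0 : 0 ≤ e * r := by positivity
  have hLe : L ≤ e * r := by
    have h1 : e ^ 2 * m ≤ e ^ 2 * √r := mul_le_mul_of_nonneg_left hms (sq_nonneg _)
    have h2 : e ^ 2 * √r ≤ e * √r :=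
      mul_le_mul_of_nonneg_right (pow_le_of_le_one he0.le (by linarith) two_ne_zero)
        (sqrt_nonneg _)
    have h3 : 1 * √r ≤ e * √r * √r := mul_le_mul_of_nonneg_right (by linarith) (sqrt_nonneg _)
    have h4 : e * √r * √r = e * r := by rw [mul_assoc, mul_self_sqrt hr0.le]
    linarith
  -- the bad set
  have hoff : ∀ (μ : Measure (Fin n → ℝ)) (P : (Fin n → ℝ) → Prop), IsProbabilityMeasure μ →
      DomC μ (cw n η w) ⟨0, by omega⟩ ⟨1, by omega⟩ B₀ →
      (∀ y : Fin n → ℝ, t < qm (fun k => y k / ((1 - e) * r + η k))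
        (fun k : Fin n => 1 / ((1 - e) * r + η k)) → P y) →
      OffY r μ ((B₀ + 10 * B₁ + 4) * exp (-(c ^ 2 / (16 * D) * m))) P := by
    intro μ P hμ hd hP
    obtain ⟨l, hl, hl'⟩ := expo hc hD0 he0 hm0 hem (by linarith) hG1.1 hG1.2
    refine ⟨{y | ∑ k, cw n η ((1 - e) * r) k ^ 2 * y k ^ 2 ≤ t - ∑ k, cw n η ((1 - e) * r) k},
      measurableSet_le (by fun_prop) measurable_const, ?_, fun y hy => hP y ?_⟩
    · refine (hLow _ μ _ (fun k => cw n η ((1 - e) * r) k ^ 2) _ _ B₀ r l _ hμ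
        (fun k => one_div_pos.2 (by have := hlo k; linarith)) (fun k => sq_nonneg _) hB₀.le hr0.le
        hl hd).trans (ENNReal.ofReal_le_ofReal ?_)
      exact mul_le_mul (by linarith) (exp_le_exp.2 hl') (exp_pos _).le (by linarith)
    · have hy' : t - ∑ k, cw n η ((1 - e) * r) k < ∑ k, cw n η ((1 - e) * r) k ^ 2 * y k ^ 2 :=
        not_le.1 hy
      have e1 : qm (fun k => y k / ((1 - e) * r + η k))
          (fun k : Fin n => 1 / ((1 - e) * r + η k)) =
          ∑ k, cw n η ((1 - e) * r) k ^ 2 * y k ^ 2 + ∑ k, cw n η ((1 - e) * r) k := by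
        rw [qm, ← Finset.sum_add_distrib]
        refine Finset.sum_congr rfl fun k _ => ?_
        simp only [cw]
        ring
      linarith
  -- the covariance at the saddle point
  have hfin : ∀ (v C' : ℝ) (μ : Measure (Fin n → ℝ)) (y : Fin n → ℝ), (1 - e) * r ≤ v → 1 ≤ C' →
      C' ^ 2 / c + 1 ≤ B₁ → IsProbabilityMeasure μ →
      (0 < 1 / (v - L) → (∀ k : Fin n, 0 < v + η k) →
        (∀ k : Fin n, 1 / (v + η k) ≤ 1 / (v - L)) →
        C' ^ 2 * (1 / (v - L)) ^ 2 ≤ ∑ k : Fin n, (1 / (v + η k)) ^ 2 →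
        SubG μ (fun k => y k / (v + η k)) (fun k => 1 / (v + η k))
          (C' * (1 / (v - L)) / √(∑ k : Fin n, (1 / (v + η k)) ^ 2))) →
      Mom μ ((1 + (B₀ + 10 * B₁ + 4) * e) / r) := by
    intro v C' μ y hv hC' hB hμ hsub
    have hv1 : r / 2 ≤ v := by linarith
    have hsv : 2 ≤ √v := le_sqrt_of_sq_le (by linarith)
    have hX1 : r ≤ v * √v := by
      have := mul_le_mul_of_nonneg_left hsv (by linarith : 0 ≤ v)
      linarith
    have hm2 : m ^ 2 ≤ min (v * √v) n := by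
      refine le_min ((pow_le_pow_left₀ hm0 hms 2).trans (hrr.le.trans hX1)) ?_
      rw [← hcube]
      exact (pow_le_pow_left₀ hm0 hmt 2).trans (pow_le_pow_right₀ (by linarith) (by norm_num))
    have hm1 : m ≤ m ^ 2 := le_self_pow₀ (by linarith) two_ne_zero
    have hXe : 1 ≤ min (v * √v) n * e ^ 4 := by
      have h1 : 1 ≤ (e ^ 2 * m) ^ 2 := one_le_pow₀ hem
      have h2 : m ^ 2 * e ^ 4 ≤ min (v * √v) n * e ^ 4 :=
        mul_le_mul_of_nonneg_right hm2 (by positivity)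
      linarith [show (e ^ 2 * m) ^ 2 = m ^ 2 * e ^ 4 by ring]
    obtain ⟨a1, a2, a3, a4, a5⟩ := num (z := v - L) (B := B₀ + 10 * B₁ + 4) hC' hc he0 he4 hr0
      (by linarith) (hG2 v (by linarith)) (by linarith) hXe hB (by linarith)
    have hz : 0 < v - L := one_div_pos.1 a1
    have b1 : ∀ k : Fin n, 0 < v + η k := fun k => by have := hlo k; linarith
    have b2 : ∀ k : Fin n, 1 / (v + η k) ≤ 1 / (v - L) := fun k =>
      one_div_le_one_div_of_le hz (by have := hlo k; linarith)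
    exact mom_mono (hM _ μ _ _ _ _ hμ (fun k => one_div_pos.2 (b1 k)) b2 a3 a4
      (hsub a1 b1 b2 a2)).1 (by positivity) a5
  have hLw : L < (1 - e) * r := by linarith
  have hwr : (1 - e) * r ≤ r := by linarith
  have : Nonempty (Fin n) := ⟨⟨0, by omega⟩⟩
  refine ⟨hoff _ _ (isProbabilityMeasure_tilted (integrable_sphR _ (by fun_prop))) hD1
    fun y hy => ?_, fun κ hκ => hoff _ _ (hD2 κ hκ).1 (hD2 κ hκ).2.2 fun y hy => ?_⟩
  · obtain ⟨v, hv, hq⟩ := saddle hlo hLw hwr ht0 le_rfl hy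
    rw [pst_nuD η ht0.le r v]
    exact hfin v C₂ _ y hv hC₂ (by linarith)
      (isProbabilityMeasure_tilted (integrable_sphR _ (by fun_prop))) fun a1 b1 b2 a2 =>
      hH _ (fun k : Fin n => v + η k) y _ t a1 ht0 b1 b2 a2 (by rw [hq]; ring)
  · have hκ0 : 0 < κ := by linarith
    obtain ⟨v, hv, hq⟩ := saddle (α := 2 / κ) hlo hLw hwr ht0 (by positivity) hy
    have b1 : ∀ k : Fin n, 0 < v + η k := fun k => by have := hlo k; linarith
    rw [pst_piD r hκ0.ne' (hD2 κ hκ).1 b1, ← hq]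
    exact hfin v C₁ _ y hv hC₁ (by linarith) (prob_gw _ _ hκ0.le _) fun a1 b1 b2 a2 =>
      hS _ _ _ _ κ a1 hκ0 (fun k => one_div_pos.2 (b1 k)) b2 a2

end Crest.Agent.T157.Sp

end
end

-- ▼ part T157/SpChiA_87
section

/-!
# Row 157, cube versus sphere after the channel, file A (helper87): two-replica identities
-/

set_option autoImplicit false

noncomputable section

namespace Crest.Agent.T157.Sp.Ch87

open MeasureTheory ProbabilityTheory Matrix Filter Topology Finset Real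
open scoped ENNReal
open Crest.Agent.T157.E Crest.Agent.T157.Cond Crest.Agent.T157.Ed Crest.Agent.T157.St
open Crest.Agent.T157.St.Cl28

variable {n : ℕ}

instance {ι : Type*} [Fintype ι] (T : ℝ) : IsProbabilityMeasure (gK ι T) :=
  Measure.isProbabilityMeasure_map (by fun_prop)

/-- matrix and field -/
abbrev PY (n : ℕ) : Type := Mat n × (Fin n → ℝ)
/-- two replicas -/
abbrev PX (n : ℕ) : Type := (Fin n → ℝ) × (Fin n → ℝ)

/-- exponent of two replicas -/
def Ex (n : ℕ) (p : PY n) (q : PX n) : ℝ := Hh n p.1 q.1 + Hh n p.1 q.2 + p.2 ⬝ᵥ (q.1 + q.2)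
/-- exponent after the rotation -/
def Ey (n : ℕ) (i j : Fin n) (p : PY n) (R : ℝ) : ℝ := n * (p.1 i i + p.1 j j) / 2 +
  tau n * R * (p.1 i i - p.1 j j) / 2 + p.2 i * √(2 * sx n ^ 2 + 2 * R)
/-- partition function with a field -/
def Zy (n : ℕ) (ω : Measure (Fin n → ℝ)) (p : PY n) : ℝ :=
  ∫ x, exp (Hh n p.1 x + p.2 ⬝ᵥ x) ∂ω
def YR (n : ℕ) (i j : Fin n) (ω : Measure (Fin n → ℝ)) (F : ℝ → ℝ≥0∞) (p : PY n) : ℝ≥0∞ :=
  ∫⁻ q, F (q.1 ⬝ᵥ q.2) * ENNReal.ofReal (exp (Ey n i j p (q.1 ⬝ᵥ q.2))) ∂ω.prod ω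




















/-- the weight -/
def G1 (n : ℕ) (T : ℝ) (p : PY n) : ℝ≥0∞ := ENNReal.ofReal
  (exp (-(T * sx n ^ 2 / 2)) / (Zs n p.1 * Zy n (sphR (Fin n) (sx n)) p))

section lnk
variable (hS : SphStmt) (hK : LnkStmt) (hn : 1 ≤ n)
include hS hK hn








end lnk

end Crest.Agent.T157.Sp.Ch87

end
end

-- ▼ part T157/SpChiB_87
section

/-!
# Row 157, cube versus sphere after the channel, file B (helper87): the pieces
-/

set_option autoImplicit false

noncomputable section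

namespace Crest.Agent.T157.Sp.Ch87

open MeasureTheory ProbabilityTheory Matrix Filter Topology Finset Real
open scoped ENNReal
open Crest.Agent.T157.E Crest.Agent.T157.Cond Crest.Agent.T157.Ed Crest.Agent.T157.St
open Crest.Agent.T157.St.Cl28

variable {n : ℕ}




/-- the rescaled field -/
def bb (n : ℕ) (i : Fin n) (p : PY n) : ℝ := p.2 i * √(2 * sx n ^ 2)
/-- the weight on the good set -/
def GG (n : ℕ) (B κ T : ℝ) : PY n → ℝ≥0∞ := {p : PY n | p.1 ∈ GS n B κ}.indicator (G1 n T)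
/-- the weight without field -/
def G0 (n : ℕ) (B κ : ℝ) : Mat n → ℝ≥0∞ :=
  (GS n B κ).indicator fun W => ENNReal.ofReal ((Zs n W ^ 2)⁻¹)
/-- the effective overlap parameter -/
def vv (n : ℕ) (i j : Fin n) (p : PY n) : ℝ :=
  tau n * (p.1 i i - p.1 j j) / 2 + bb n i p / (2 * sx n ^ 2)
/-- typical fields -/
def AA (n : ℕ) (i : Fin n) (T : ℝ) : Set (PY n) :=
  {p | 0 ≤ bb n i p ∧ bb n i p ≤ 6 * (sx n ^ 2 * T)}





section lnk
variable (hS : SphStmt) (hK : LnkStmt) (hn : 1 ≤ n) {i j : Fin n} {B κ T : ℝ}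
include hS hK hn













end lnk

end Crest.Agent.T157.Sp.Ch87

end
end

-- ▼ part T157/SpChi_87
section

/-!
# Row 157 (helper87): the cube is `χ²`-close to the sphere after the channel, `ChiGlue`
-/

set_option autoImplicit false

noncomputable section

namespace Crest.Agent.T157.Sp.Ch87

open MeasureTheory ProbabilityTheory Matrix Filter Topology Finset Real
open scoped ENNReal
open Crest.Agent.T157.E Crest.Agent.T157.Cond Crest.Agent.T157.Ed Crest.Agent.T157.St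
open Crest.Agent.T157.St.Cl28 Crest.Agent.T157.Top

variable {n : ℕ}


lemma sum_le {g B S A : ℝ} (hg : 0 < g) (hB : 0 ≤ B) (hgB : 54 * B * g = 1) (hS : 0 ≤ S)
    (hA1 : 1 ≤ A) (hA : g ^ 2 * A = 16 * (27 * B + 1)) {J : ℕ} (hJ : 1 ≤ J) (hAJ : A * S ≤ J)
    (N : ℕ) : ∑ k ∈ Ico J N, exp (-((g ^ 2 / 4 - 2 * (g ^ 2 / 32)) * (k : ℝ) ^ 3)) *
      (2 * (1 * (2 * (B * exp (B * (2 * (3 / 2 * g * k) ^ 3 + 2 * (3 * S) ^ 3) / 2))))) ≤
      128 * B / g ^ 2 * exp (-S ^ 3) := by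
  have hJ1 : (1 : ℝ) ≤ J := by exact_mod_cast hJ
  have h1 : ∀ k ∈ Ico J N, exp (-((g ^ 2 / 4 - 2 * (g ^ 2 / 32)) * (k : ℝ) ^ 3)) *
      (2 * (1 * (2 * (B * exp (B * (2 * (3 / 2 * g * k) ^ 3 + 2 * (3 * S) ^ 3) / 2))))) ≤
      64 * B / g ^ 2 * exp (-S ^ 3) * ((k : ℝ) ^ 2)⁻¹ := fun k hk => by
    have hJk : (J : ℝ) ≤ k := by exact_mod_cast (mem_Ico.1 hk).1
    have hk1 : (1 : ℝ) ≤ k := hJ1.trans hJk
    have h2 : (A * S) ^ 3 ≤ (k : ℝ) ^ 3 := pow_le_pow_left₀ (by positivity) (hAJ.trans hJk) 3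
    have h3 : A * S ^ 3 ≤ (A * S) ^ 3 := by
      rw [mul_pow]
      exact mul_le_mul_of_nonneg_right (le_self_pow₀ hA1 (by norm_num)) (by positivity)
    have h4 := mul_le_mul_of_nonneg_left (h3.trans h2) (sq_nonneg g)
    rw [← mul_assoc, hA] at h4
    have h5 : exp (-(g ^ 2 * (k : ℝ) ^ 3 / 16)) ≤ 16 / g ^ 2 * ((k : ℝ) ^ 2)⁻¹ := by
      have h6 : g ^ 2 * (k : ℝ) ^ 2 / 16 ≤ exp (g ^ 2 * (k : ℝ) ^ 3 / 16) := by
        have h7 := add_one_le_exp (g ^ 2 * (k : ℝ) ^ 3 / 16)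
        have h8 : (k : ℝ) ^ 2 ≤ (k : ℝ) ^ 3 := pow_le_pow_right₀ hk1 (by norm_num)
        have h9 := mul_le_mul_of_nonneg_left h8 (sq_nonneg g)
        linarith
      rw [Real.exp_neg]
      refine (inv_anti₀ (by positivity) h6).trans (le_of_eq ?_)
      field_simp
    have e : B * (2 * (3 / 2 * g * k) ^ 3 + 2 * (3 * S) ^ 3) / 2 =
        g ^ 2 * (k : ℝ) ^ 3 / 16 + 27 * B * S ^ 3 := by
      have : B * (2 * (3 / 2 * g * k) ^ 3 + 2 * (3 * S) ^ 3) / 2 =
        54 * B * g * (g ^ 2 * (k : ℝ) ^ 3 / 16) + 27 * B * S ^ 3 := by ring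
      rw [this, hgB, one_mul]
    calc _ = 4 * B * exp (-((g ^ 2 / 4 - 2 * (g ^ 2 / 32)) * (k : ℝ) ^ 3) +
          (g ^ 2 * (k : ℝ) ^ 3 / 16 + 27 * B * S ^ 3)) := by rw [e, exp_add (-_)]; ring
      _ ≤ 4 * B * exp (-S ^ 3 + -(g ^ 2 * (k : ℝ) ^ 3 / 16)) :=
          mul_le_mul_of_nonneg_left (exp_le_exp.2 (by linarith)) (by positivity)
      _ ≤ 4 * B * (exp (-S ^ 3) * (16 / g ^ 2 * ((k : ℝ) ^ 2)⁻¹)) := by rw [exp_add]; gcongr
      _ = _ := by ring
  refine (sum_le_sum h1).trans ?_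
  rw [← mul_sum]
  have h2 := sum_Ioo_inv_sq_le (α := ℝ) (J - 1) N
  have h3 : Ioo (J - 1) N = Ico J N := by ext k; simp only [mem_Ioo, mem_Ico]; omega
  rw [h3, Nat.cast_sub hJ, Nat.cast_one, sub_add_cancel] at h2
  calc _ ≤ 64 * B / g ^ 2 * exp (-S ^ 3) * 2 :=
        mul_le_mul_of_nonneg_left (h2.trans (div_le_self zero_le_two hJ1)) (by positivity)
    _ = _ := by ring






end Crest.Agent.T157.Sp.Ch87

namespace Crest.Agent.T157.Sp

open Filter Crest.Agent.T157.St Crest.Agent.T157.St.Cl28 Crest.Agent.T157.Top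


end Crest.Agent.T157.Sp

end
end

-- ▼ part T157/SpAll_87

/-!
# Row 157: the sphere side of the critical window, unconditional (assembly, helper87)
-/

set_option autoImplicit false

namespace Crest.Agent.T157.Sp.All

theorem lcltStmt : LcltStmt := lcltGlue charStmt
theorem softStmt : SoftStmt := softGlue lcltStmt
theorem hardStmt : HardStmt := hardGlue softStmt
/-- **the posterior covariance of the spherical models** -/
theorem sWinStmt : SWinStmt := sWinGlue softStmt hardStmt momStmt domStmt lowStmt gapStmt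

end Crest.Agent.T157.Sp.All
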