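import Crest.Agent.T157.UnF_81

-- ▼ part T157/UnG_81
section

/-!
# Row 157, part C: universality through a complex entry, G (helper81)

Sequence level: the pointwise class `Pc` and the mean-square class `Lc`.
-/

set_option autoImplicit false
set_option linter.unusedSectionVars false

noncomputable section

namespace Crest.Agent.T157.Un

open MeasureTheory Metric Finset Matrix Filter Topology
open Crest.ProbabilityR.SpinGlassDynamics Crest.Agent.T157.E Crest.Agent.T157.SL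
open Crest.Agent.T157.Sg (sq2 ipV nv)
open Crest.Agent.T157.Soft (N23)

/-- families of functions of the spins -/
abbrev SF : Type := ∀ n : ℕ, (Pair n → ℝ) → Cube n → ℝ

/-- families of vector functions of the spins -/
abbrev VF (ι : ℕ → Type) : Type := ∀ n : ℕ, (Pair n → ℝ) → ι n → Cube n → ℝ

/-- all moments are dominated by normalisers -/
structure Mo (β : SF) : Prop where
  nn : ∀ n g x, 0 ≤ β n g x
  ex : ∀ k : ℕ, ∃ S, Nz S ∧ ∀ᶠ n : ℕ in atTop, ∀ g, mean (gw n g) (fun x => β n g x ^ k) ≤ S n g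

/-- admissible channels -/
def Chn {κ : ℕ → Type} [∀ n, Fintype (κ n)] (φ : ∀ n, Cube n → κ n → ℝ) (s : ℕ → ℝ) : Prop :=
  (∀ n, 0 ≤ s n) ∧ ∃ K : ℝ, ∀ᶠ n : ℕ in atTop, ∀ x y, s n * (φ n x ⬝ᵥ φ n y) ≤ K * |Rh n x y|

lemma chn_hat {K : ℝ} (hK : 0 ≤ K) : Chn St.hat fun _ => K :=
  ⟨fun _ => hK, K, .of_forall fun n x y => by
    rw [St.All.hat_dot_hat]; exact mul_le_mul_of_nonneg_left (le_abs_self _) hK⟩



variable {β β' : SF} {κ : ℕ → Type} [∀ n, Fintype (κ n)] [∀ n, DecidableEq (κ n)]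
  {φ : ∀ n, Cube n → κ n → ℝ} {s : ℕ → ℝ}

namespace Mo

lemma mono (h : Mo β) (h0 : ∀ n g x, 0 ≤ β' n g x) (e : ∀ᶠ n : ℕ in atTop, ∀ g x, β' n g x ≤ β n g x) :
    Mo β' := ⟨h0, fun k => (h.ex k).imp fun _ hS => ⟨hS.1, by
  filter_upwards [hS.2, e] with n a b g
  exact ((gwt g).mean_mono fun x => pow_le_pow_left₀ (h0 n g x) (b g x) k).trans (a g)⟩⟩

lemma const {c : ℝ} (hc : 0 ≤ c) : Mo fun _ _ _ => c :=
  ⟨fun _ _ _ => hc, fun k => ⟨_, .const (pow_nonneg hc k), .of_forall fun _ g =>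
    ((gwt g).mean_const _).le⟩⟩

lemma add (h : Mo β) (h' : Mo β') : Mo fun n g x => β n g x + β' n g x :=
  ⟨fun n g x => add_nonneg (h.nn n g x) (h'.nn n g x), fun k => by
    obtain ⟨S, h1, h2⟩ := h.ex k
    obtain ⟨S', h1', h2'⟩ := h'.ex k
    refine ⟨_, (h1.add h1').const_mul (a := 2 ^ (k - 1)) (by positivity), ?_⟩
    filter_upwards [h2, h2'] with n a b g
    have := (gwt g).mean_mono fun x => add_pow_le (h.nn n g x) (h'.nn n g x) k
    rw [mean_const_mul, mean_add] at this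
    exact this.trans (mul_le_mul_of_nonneg_left (add_le_add (a g) (b g)) (by positivity))⟩

lemma mul (h : Mo β) (h' : Mo β') : Mo fun n g x => β n g x * β' n g x :=
  ⟨fun n g x => mul_nonneg (h.nn n g x) (h'.nn n g x), fun k => by
    obtain ⟨S, h1, h2⟩ := h.ex (k * 2)
    obtain ⟨S', h1', h2'⟩ := h'.ex (k * 2)
    refine ⟨_, h1.add h1', ?_⟩
    filter_upwards [h2, h2'] with n a b g
    have := (gwt g).mean_mono (f := fun x => (β n g x * β' n g x) ^ k)
      (g := fun x => β n g x ^ (k * 2) + β' n g x ^ (k * 2)) fun x => by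
      rw [mul_pow, pow_mul, pow_mul]
      nlinarith [sq_nonneg (β n g x ^ k - β' n g x ^ k), sq_nonneg (β n g x ^ k),
        sq_nonneg (β' n g x ^ k)]
    rw [mean_add] at this
    exact this.trans (add_le_add (a g) (b g))⟩

lemma const_mul (h : Mo β) {c : ℝ} (hc : 0 ≤ c) : Mo fun n g x => c * β n g x := (const hc).mul h

lemma sq (h : Mo β) : Mo fun n g x => β n g x ^ 2 := by simpa only [_root_.sq] using h.mul h

lemma T (h : Mo β) (hs : ∀ n, 0 ≤ s n) : Mo fun n g => k0 (φ n) (s n) (gw n g) *ᵥ β n g :=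
  ⟨fun n g => k0_nonneg (gw_pos g) (h.nn n g), fun k => (h.ex k).imp fun _ hS => ⟨hS.1,
    hS.2.mono fun n a g => ((gwt g).mean_mono fun x => k0_pow_le (gw_pos g) (h.nn n g) k x).trans
      ((mean_k0 (gw_pos g) (hs n) _).trans_le (a g))⟩⟩

lemma E (hc : Chn φ s) {F : ∀ n, Cube n → Cube n → ℝ} (h0 : ∀ n x y, 0 ≤ F n x y) {C θ : ℝ}
    (hF : ∀ᶠ n : ℕ in atTop, ∀ x y, F n x y ≤ C * Real.exp (θ * |Rh n x y|)) :
    Mo fun n g => E2 (φ n) (s n) (gw n g) (F n) :=
  ⟨fun n g => E2_nonneg (gw_pos g) (h0 n), fun k => by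
    obtain ⟨hs, K, hK⟩ := hc
    refine ⟨_, (Nz.const zero_le_one).add ((nz_XA (k * 2 * θ + K)).const_mul (a := (C ^ k) ^ 2)
      (sq_nonneg _)), ?_⟩
    filter_upwards [hK, hF] with n a b g
    refine ((gwt g).mean_mono fun x => E2_pow_le (gw_pos g) (h0 n) k x).trans
      ((mean_E2_le (gw_pos g) (hs n) _).trans (add_le_add_right ?_ _))
    rw [XA, ← m2_const_mul]
    refine m2_mono (gw_pos g) fun x y => ?_
    calc _ ≤ ((C * Real.exp (θ * |Rh n x y|)) ^ k) ^ 2 * Real.exp (K * |Rh n x y|) :=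
          mul_le_mul (pow_le_pow_left₀ (pow_nonneg (h0 n x y) k)
            (pow_le_pow_left₀ (h0 n x y) (b x y) k) 2) (Real.exp_le_exp.2 (a x y))
            (Real.exp_pos _).le (sq_nonneg _)
      _ = _ := by
          rw [mul_pow, mul_pow, ← Real.exp_nat_mul, ← Real.exp_nat_mul, mul_assoc, ← Real.exp_add]
          congr 2; push_cast; ring⟩

lemma R4 (hc : Chn φ s) : Mo fun n g => E2 (φ n) (s n) (gw n g) fun y y' => Rh n y y' ^ 4 :=
  E hc (fun _ _ _ => by positivity) (.of_forall fun _ _ _ => R4_exp _)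

end Mo

variable {ι : ℕ → Type} [∀ n, Fintype (ι n)] {u u' : VF ι}

/-- the static kernel acting on a family -/
def TS (φ : ∀ n, Cube n → κ n → ℝ) (s : ℕ → ℝ) (u : VF ι) : VF ι :=
  fun n g i => k0 (φ n) (s n) (gw n g) *ᵥ u n g i

/-- the resolvent of the dynamics acting on a family -/
def RS (τ : ℕ → ℝ) (u : VF ι) : VF ι :=
  fun n g => if hn : 0 < n then Sg.RV (Soft.ch hn g) (n * τ n) (u n g) else 0

/-- pointwise inner product -/
def dt (u u' : VF ι) : VF fun _ => Unit := fun n g _ x => ∑ i, u n g i x * u' n g i x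

/-- inner product in `L²` of the Gibbs law -/
def ipS (u u' : VF ι) : Fam := fun n g => ipV (prob (gw n g)) (u n g) (u' n g)

/-- measurable in the couplings -/
def Ms (u : VF ι) : Prop := ∀ n i x, Measurable fun g => u n g i x

lemma Ms.T (h : Ms u) : Ms (TS φ s u) := fun n i x =>
  measurable_sum _ fun y _ => (meas_k0 _ _ x y).mul (h n i y)

lemma Ms.res (h : Ms u) {τ : ℕ → ℝ} (hτ : ∀ n, 0 ≤ τ n) : Ms (RS τ u) := fun n i x => by
  by_cases hn : 0 < n
  · simpa only [RS, dif_pos hn] using meas_RV hn (hτ n) (h n) i x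
  · simp only [RS, dif_neg hn]; exact measurable_const

lemma Ms.ip (h : Ms u) (h' : Ms u') (n : ℕ) : Measurable (ipS u u' n) :=
  measurable_sum _ fun i _ => measurable_sum _ fun x _ => (meas_prob x).mul ((h n i x).mul (h' n i x))

/-- pointwise class -/
structure Pc (u : VF ι) : Prop where
  meas : Ms u
  ex : ∃ r β, 0 < r ∧ r ≤ 1 / 4 ∧ Mo β ∧ ∀ᶠ n : ℕ in atTop, PcF r (u n) (β n)

/-- mean-square class -/
structure Lc (u : VF ι) : Prop where
  meas : Ms u
  ex : ∃ r S G, 0 < r ∧ r ≤ 1 / 4 ∧ Nz S ∧ Nl G ∧ ∀ᶠ n : ℕ in atTop, LcF r (u n) (S n) (G n)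

namespace Pc

lemma const {a : ∀ n, ι n → Cube n → ℝ} {B : ℝ} (h : ∀ᶠ n : ℕ in atTop, ∀ x, sq2 (a n) x ≤ B) :
    Pc fun n _ => a n :=
  ⟨fun _ _ _ => measurable_const, 1 / 4, _, by norm_num, le_rfl, (Mo.const (abs_nonneg B)).mono
    (β' := fun n _ => sq2 (a n)) (fun _ _ => Sg.sq2_nonneg _)
    (h.mono fun _ b _ x => (b x).trans (le_abs_self B)), .of_forall fun n => PcF.const _ _⟩

lemma zero : Pc (0 : VF ι) := const (a := 0) (B := 0) (.of_forall fun _ _ => by simp [sq2])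

lemma one : Pc (ι := fun _ => Unit) fun _ _ _ _ => 1 :=
  const (a := fun _ _ _ => 1) (B := 1) (.of_forall fun _ _ => by simp [sq2])

lemma add (h : Pc u) (h' : Pc u') : Pc (u + u') := by
  obtain ⟨r, β, h1, h2, h3, h4⟩ := h.ex
  obtain ⟨r', β', h1', -, h3', h4'⟩ := h'.ex
  refine ⟨fun n i x => (h.meas n i x).add (h'.meas n i x), min r r', _, lt_min h1 h1',
    (min_le_left _ _).trans h2, (h3.const_mul zero_le_two).add (h3'.const_mul zero_le_two), ?_⟩
  filter_upwards [h4, h4'] with n a b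
  exact (a.mono (min_le_left _ _) fun _ _ => le_rfl).add (b.mono (min_le_right _ _) fun _ _ => le_rfl)

lemma smul (h : Pc u) (c : ℝ) : Pc (c • u) := by
  obtain ⟨r, β, h1, h2, h3, h4⟩ := h.ex
  exact ⟨fun n i x => (h.meas n i x).const_mul c, r, _, h1, h2, h3.const_mul (sq_nonneg c),
    h4.mono fun n a => a.smul c⟩

lemma sub (h : Pc u) (h' : Pc u') : Pc (u - u') := by
  simpa only [sub_eq_add_neg, neg_smul, one_smul] using h.add (h'.smul (-1))

lemma sum {J : Type*} (t : Finset J) {v : J → VF ι} (h : ∀ j ∈ t, Pc (v j)) : Pc (∑ j ∈ t, v j) :=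
  sum_induction _ _ (fun _ _ => add) zero h

lemma dot (h : Pc u) (h' : Pc u') : Pc (dt u u') := by
  obtain ⟨r, β, h1, h2, h3, h4⟩ := h.ex
  obtain ⟨r', β', h1', -, h3', h4'⟩ := h'.ex
  refine ⟨fun n _ x => measurable_sum _ fun i _ => (h.meas n i x).mul (h'.meas n i x), min r r', _,
    lt_min h1 h1', (min_le_left _ _).trans h2, (h3.mul h3').const_mul (c := 4) (by norm_num), ?_⟩
  filter_upwards [h4, h4'] with n a b
  exact (a.mono (min_le_left _ _) fun _ _ => le_rfl).dot (b.mono (min_le_right _ _) fun _ _ => le_rfl)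

lemma T (h : Pc u) (hc : Chn φ s) : Pc (TS φ s u) := by
  obtain ⟨r, β, h1, h2, h3, h4⟩ := h.ex
  refine ⟨h.meas.T, r, _, h1, h2, (((h3.T (φ := φ) hc.1).const_mul (c := 18) (by norm_num)).add
    ((h3.sq.T (φ := φ) hc.1).const_mul (c := 4) (by norm_num))).add
      ((Mo.R4 hc).const_mul (c := 4) (by norm_num)), ?_⟩
  filter_upwards [h4, eventually_gt_atTop 0] with n a hn
  exact a.T hn h1 h2 (hc.1 n)

/-- the smoothed spin vector -/
lemma Ta (hc : Chn φ s) {a : ∀ n, ι n → Cube n → ℝ}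
    (ha : ∀ᶠ n : ℕ in atTop, ∀ x y, |∑ i, a n i x * a n i y| ≤ |Rh n x y|) :
    Pc (TS φ s fun n _ => a n) := by
  refine ⟨Ms.T fun _ _ _ => measurable_const, 1 / 4, _, by norm_num, le_rfl,
    (((Mo.E hc (F := fun n x y => |Rh n x y|) (fun _ _ _ => abs_nonneg _) (C := 1) (θ := 1)
      (.of_forall fun n x y => ?_)).const_mul (c := 9) (by norm_num)).add
    ((Mo.E hc (F := fun n x y => |Rh n x y| ^ 2) (fun _ _ _ => sq_nonneg _) (C := 2) (θ := 1)
      (.of_forall fun n x y => ?_)).const_mul zero_le_two)).add ((Mo.R4 hc).const_mul zero_le_two), ?_⟩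
  · simp only [one_mul]; linarith [Real.add_one_le_exp |Rh n x y|]
  · have := Real.pow_div_factorial_le_exp |Rh n x y| (abs_nonneg _) 2
    norm_num [Nat.factorial] at this ⊢
    linarith
  filter_upwards [ha, eventually_gt_atTop 0] with n b hn
  exact PcF.Ta hn (a n) b


lemma That (hc : Chn φ s) : Pc (TS φ s fun n _ => Sg.ft (St.hat n)) :=
  Ta hc (.of_forall fun n x y => (congrArg abs (St.All.hat_dot_hat n x y)).le)

lemma mo (h : Pc u) : Mo fun n g => sq2 (u n g) := by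
  obtain ⟨r, β, -, -, h3, h4⟩ := h.ex
  exact h3.mono (fun _ _ => Sg.sq2_nonneg _) (h4.mono fun _ a g => (a g).1)

lemma lc (h : Pc u) : Lc u := by
  obtain ⟨r, β, h1, h2, h3, h4⟩ := h.ex
  obtain ⟨S, a1, a2⟩ := h3.ex 1
  obtain ⟨S', b1, b2⟩ := h3.ex 2
  refine ⟨h.meas, r, _, _, h1, h2, a1.add b1, (a1.add b1).tt.inv, ?_⟩
  filter_upwards [h4, a2, b2, eventually_gt_atTop 0] with n a b c hn
  exact a.lc hn (fun g => by simpa using (b g).trans (le_add_of_nonneg_right (b1.nn n g)))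
    fun g => (c g).trans (le_add_of_nonneg_left (a1.nn n g))

end Pc

namespace Lc

lemma add (h : Lc u) (h' : Lc u') : Lc (u + u') := by
  obtain ⟨r, S, G, h1, h2, h3, h4, h5⟩ := h.ex
  obtain ⟨r', S', G', h1', -, h3', h4', h5'⟩ := h'.ex
  refine ⟨fun n i x => (h.meas n i x).add (h'.meas n i x), min r r', _, _, lt_min h1 h1',
    (min_le_left _ _).trans h2, (h3.const_mul (a := 8) (by norm_num)).add
      (h3'.const_mul (a := 8) (by norm_num)),
    (h4.const_mul zero_le_two).add (h4'.const_mul zero_le_two), ?_⟩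
  filter_upwards [h5, h5'] with n a b
  exact (a.mono (min_le_left _ _)).add (b.mono (min_le_right _ _))

lemma smul (h : Lc u) (c : ℝ) : Lc (c • u) := by
  obtain ⟨r, S, G, h1, h2, h3, h4, h5⟩ := h.ex
  exact ⟨fun n i x => (h.meas n i x).const_mul c, r, _, _, h1, h2,
    h3.const_mul (a := c ^ 2 + c ^ 4) (by positivity), h4.const_mul (sq_nonneg c),
    h5.mono fun n a => a.smul c⟩

lemma sub (h : Lc u) (h' : Lc u') : Lc (u - u') := by
  simpa only [sub_eq_add_neg, neg_smul, one_smul] using h.add (h'.smul (-1))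

lemma T (h : Lc u) (hc : Chn φ s) : Lc (TS φ s u) := by
  obtain ⟨r, S, G, h1, h2, h3, h4, h5⟩ := h.ex
  obtain ⟨Y, a1, a2⟩ := (Mo.R4 hc).ex 1
  refine ⟨h.meas.T, r, _, _, h1, h2, h3.const_mul (a := 9) (by norm_num),
    (h4.const_mul (a := 18) (by norm_num)).add ((h3.tt.const_mul (a := 4) (by norm_num)).add
      (a1.tt.const_mul (a := 4) (by norm_num))).inv, ?_⟩
  filter_upwards [h5, a2, eventually_gt_atTop 0] with n a b hn
  exact a.T hn h1 h2 (hc.1 n) fun g => by simpa using b g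

lemma res (h : Lc u) {τ : ℕ → ℝ} (hτ : ∀ n, 0 ≤ τ n)
    (ht : Tendsto (fun n : ℕ => τ n / n) atTop (𝓝 0)) : Lc (RS τ u) := by
  obtain ⟨r, S, G, h1, h2, h3, h4, h5⟩ := h.ex
  refine ⟨h.meas.res hτ, r, _, _, h1, h2, h3.const_mul (a := 9) (by norm_num),
    (h4.const_mul (a := 18) (by norm_num)).add ((h3.tt.const_mul (a := 288) (by norm_num)).small
      (fun n => div_nonneg (hτ n) (Nat.cast_nonneg n)) ht), ?_⟩
  filter_upwards [h5, eventually_gt_atTop 0] with n a hn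
  have e : RS τ u n = fun g => Sg.RV (Soft.ch hn g) (n * τ n) (u n g) := by
    funext g; simp only [RS, dif_pos hn]
  rw [e]; exact a.res hn h1 h2 (hτ n)

theorem ip (h : Lc u) (h' : Lc u') : Au (ipS u u') := by
  obtain ⟨r, S, G, h1, h2, h3, h4, h5⟩ := h.ex
  obtain ⟨r', S', G', h1', -, h3', h4', h5'⟩ := h'.ex
  have t := h3.tt.add h3'.tt
  refine ⟨h.meas.ip h'.meas, min r r', _, _, lt_min h1 h1', (h3.add h3').const_mul zero_le_two,
    (((h3'.tt.mul_nl h4).const_mul (a := 27) (by norm_num)).add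
      ((h3.tt.mul_nl h4').const_mul (a := 27) (by norm_num))).add
      (((t.mul t).const_mul (a := 6) (by norm_num)).add
        ((tt_XA 1).const_mul (a := 6 * 24) (by norm_num))).inv, ?_⟩
  filter_upwards [h5, h5', eventually_gt_atTop 0] with n a b hn
  refine ((a.mono (min_le_left _ _)).ip hn (lt_min h1 h1') ((min_le_left _ _).trans h2)
    (b.mono (min_le_right _ _))).mono le_rfl (fun _ => le_rfl) fun g => ?_
  have := R4_le n g
  exact add_le_add_right (mul_le_mul_of_nonneg_left (by linarith) (by positivity)) _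

lemma tight (h : Lc u) (b : Bool) : Tight b fun n g => nv (prob (gw n g)) (u n g) := by
  obtain ⟨r, S, G, -, -, h3, -, h5⟩ := h.ex
  refine (((Tt.const zero_le_one).add h3.tt).coin b).mono (h5.mono fun n a g => ?_)
  have h1 := Sg.nv_sq (Chain22.isP_prob' (gw_pos g)) (u n g)
  rw [Sg.ipV_self_eq] at h1
  have h2 : nv (prob (gw n g)) (u n g) ^ 2 ≤ S n g := h1.trans_le (a g).1
  nlinarith [sq_nonneg (nv (prob (gw n g)) (u n g) - 1), h3.nn n g]

end Lc

end Crest.Agent.T157.Un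

end
end

-- ▼ part T157/UnH_81
section

/-!
# Row 157, part C: universality through a complex entry, H (helper81)

Closures under approximation in probability (both laws): scalars `Ap`, mean-square `La`, all moments
`Pa`; the two semigroups; universality of the stationary autocorrelation.
-/

set_option autoImplicit false
set_option linter.unusedSectionVars false

noncomputable section

namespace Crest.Agent.T157.Un

open MeasureTheory Metric Finset Matrix Filter Topology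
open Crest.ProbabilityR.SpinGlassDynamics Crest.Agent.T157.E Crest.Agent.T157.SL
open Crest.Agent.T157.Sg (sq2 ipV nv)
open Crest.Agent.T157.Soft (N23)

/-- at most `η` outside an event of probability `ε`, for both laws -/
def Sm (X : Fam) (η ε : ℝ) : Prop := ∀ b, ∀ᶠ n : ℕ in atTop,
  couplingLaw b n {g | η < X n g} ≤ ENNReal.ofReal ε

variable {X X' Y : Fam} {η η' ε : ℝ}

lemma Sm.imp (h : Sm X η ε) (e : ∀ᶠ n : ℕ in atTop, ∀ g, X n g ≤ η → X' n g ≤ η') : Sm X' η' ε :=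
  fun b => by
    filter_upwards [h b, e] with n a1 a2
    exact (measure_mono fun g (hg : _ < _) => lt_of_not_ge fun h => hg.not_ge (a2 g h)).trans a1

lemma Sm.two (hε : 0 < ε) {a a' : ℝ} (h : Sm X a (ε / 2)) (h' : Sm X' a' (ε / 2))
    (e : ∀ᶠ n : ℕ in atTop, ∀ g, X n g ≤ a → X' n g ≤ a' → Y n g ≤ η) : Sm Y η ε := fun b => by
  filter_upwards [h b, h' b, e] with n a1 a2 a3
  refine meas_two hε a1 a2 fun g hg => ?_
  by_contra hh
  simp only [Set.mem_union, Set.mem_ofPred_eq, not_or, not_lt] at hh hg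
  exact hg.not_ge (a3 g hh.1 hh.2)

lemma Sm.of_le (e : ∀ᶠ n : ℕ in atTop, ∀ g, X n g ≤ η) : Sm X η ε := fun _ =>
  e.mono fun _ a => by simp [fun g => (a g).not_gt]

lemma sm_of_tight (h : ∀ b, Tight b X) (hε : 0 < ε) : ∃ M, 0 < M ∧ Sm X M ε := by
  choose M hM using fun b => h b ε hε
  refine ⟨|M true| + |M false| + 1, by positivity, fun b => (hM b).mono fun n a =>
    le_trans (measure_mono fun g hg => lt_of_le_of_lt (a := M b) ?_ hg) a⟩
  cases b <;> linarith [le_abs_self (M true), le_abs_self (M false), abs_nonneg (M true),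
    abs_nonneg (M false)]

lemma tight_of_sm (h : ∀ ε, 0 < ε → ∃ M, Sm X M ε) (b : Bool) : Tight b X := fun ε hε =>
  (h ε hε).imp fun _ a => a b

/-- limits in probability of holomorphic functionals -/
def Ap (X : Fam) : Prop := ∀ η ε : ℝ, 0 < η → 0 < ε →
  ∃ Y, Au Y ∧ Sm (fun n g => |X n g - Y n g|) η ε

lemma Au.ap (h : Au X) : Ap X := fun _ _ hη _ =>
  ⟨X, h, .of_le (.of_forall fun _ _ => by simpa using hη.le)⟩

namespace Ap

lemma approx (h : ∀ η ε : ℝ, 0 < η → 0 < ε → ∃ Y, Ap Y ∧ Sm (fun n g => |X n g - Y n g|) η ε) :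
    Ap X := fun η ε hη hε => by
  obtain ⟨Y, h1, h2⟩ := h _ _ (half_pos hη) (half_pos hε)
  obtain ⟨Z, h3, h4⟩ := h1 _ _ (half_pos hη) (half_pos hε)
  exact ⟨Z, h3, h2.two hε h4 (.of_forall fun n g a b => (abs_sub_le _ _ _).trans (by linarith))⟩

lemma congr (h : Ap X) (e : ∀ᶠ n : ℕ in atTop, ∀ g, X' n g = X n g) : Ap X' :=
  approx fun _ _ hη _ => ⟨X, h, .of_le (e.mono fun _ a g => by simpa [a g] using hη.le)⟩

lemma tight (h : Ap X) : ∀ b, Tight b fun n g => |X n g| := tight_of_sm fun ε hε => by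
  obtain ⟨Y, h1, h2⟩ := h 1 _ one_pos (half_pos hε)
  obtain ⟨M, -, h3⟩ := sm_of_tight h1.tight (half_pos hε)
  exact ⟨1 + M, h2.two hε h3 (.of_forall fun n g a b => by
    linarith [abs_sub_abs_le_abs_sub (X n g) (Y n g)])⟩

lemma add (h : Ap X) (h' : Ap X') : Ap fun n g => X n g + X' n g := fun η ε hη hε => by
  obtain ⟨Y, h1, h2⟩ := h _ _ (half_pos hη) (half_pos hε)
  obtain ⟨Z, h3, h4⟩ := h' _ _ (half_pos hη) (half_pos hε)
  refine ⟨_, h1.add h3, h2.two hε h4 (.of_forall fun n g a b => ?_)⟩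
  rw [add_sub_add_comm]
  exact (abs_add_le _ _).trans (by linarith)

lemma mul (h : Ap X) (h' : Ap X') : Ap fun n g => X n g * X' n g := fun η ε hη hε => by
  have e4 := half_pos (half_pos hε)
  obtain ⟨M, M0, a1⟩ := sm_of_tight h'.tight e4
  obtain ⟨Y, h1, h2⟩ := h (η / 2 / M) _ (by positivity) e4
  obtain ⟨M', M0', a2⟩ := sm_of_tight h1.tight e4
  obtain ⟨Z, h3, h4⟩ := h' (η / 2 / M') _ (by positivity) e4
  refine ⟨_, h1.mul h3, Sm.two (X := fun n g => |X n g - Y n g| * |X' n g|)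
    (X' := fun n g => |Y n g| * |X' n g - Z n g|) (a := η / 2) (a' := η / 2) hε
    (h2.two (half_pos hε) a1 (.of_forall fun n g a b => ?_))
    (a2.two (half_pos hε) h4 (.of_forall fun n g a b => ?_)) (.of_forall fun n g a b => ?_)⟩
  · exact (mul_le_mul a b (abs_nonneg _) (by positivity)).trans_eq (by field_simp)
  · exact (mul_le_mul a b (abs_nonneg _) (by positivity)).trans_eq (by field_simp)
  · rw [show X n g * X' n g - Y n g * Z n g = (X n g - Y n g) * X' n g + Y n g * (X' n g - Z n g) by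
      ring]
    refine (abs_add_le _ _).trans ?_
    rw [abs_mul, abs_mul]; linarith

lemma const (a : ℝ) : Ap fun _ _ => a := (Au.const a).ap

lemma sub (h : Ap X) (h' : Ap X') : Ap fun n g => X n g - X' n g := by
  simpa [sub_eq_add_neg] using h.add ((const (-1)).mul h')

/-- **universality of cylinder functionals** -/
theorem cyl {I : Type*} {X : ∀ n, (Pair n → ℝ) → I → ℝ} (h : ∀ i, Ap fun n g => X n g i)
    (hm : ∀ n i, Measurable fun g => X n g i) (φ : (I → ℝ) → ℝ) (hφ : Soft.IsCyl φ) :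
    Tendsto (fun n => ∫ g, φ (X n g) ∂couplingLaw true n - ∫ g, φ (X n g) ∂couplingLaw false n)
      atTop (𝓝 0) := by
  have mφ := hφ.measurable
  obtain ⟨s, K, h0, h1, h2⟩ := id hφ
  rw [Metric.tendsto_nhds]
  intro ε hε
  set ρ := ε / (10 * (K + 1) * (s.card + 1)) with hρ
  have ρ0 : 0 < ρ := by positivity
  choose Y hY hS using fun i => h i ρ ρ ρ0 ρ0
  have key : ∀ b, ∀ᶠ n : ℕ in atTop, |∫ g, φ (X n g) ∂couplingLaw b n -
      ∫ g, φ (fun i => Y i n g) ∂couplingLaw b n| ≤ 3 * ε / 10 := fun b => by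
    filter_upwards [(eventually_all_finset s).2 fun i _ => hS i b] with n a
    have a1 : couplingLaw b n (⋃ i ∈ s, {g | ρ < |X n g i - Y i n g|}) ≤
        ENNReal.ofReal (s.card * ρ) := by
      refine (measure_biUnion_finset_le _ _).trans ((sum_le_card_nsmul _ _ _ a).trans_eq ?_)
      rw [ENNReal.ofReal_mul (Nat.cast_nonneg _), ENNReal.ofReal_natCast, nsmul_eq_mul]
    refine (Soft.abs_integral_sub_le _ (mφ.comp (measurable_pi_lambda _ (hm n))).aestronglyMeasurable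
      (mφ.comp (measurable_pi_lambda _ fun i => (hY i).meas n)).aestronglyMeasurable
      (η := K * (s.card * ρ)) h0 (by positivity) (by positivity) (fun _ => h1 _) (fun _ => h1 _) a1
      fun g hg => (h2 _ _).trans ?_).trans ?_
    · simp only [Set.mem_iUnion, Set.mem_ofPred_eq, not_exists, not_lt] at hg
      exact mul_le_mul_of_nonneg_left ((sum_le_card_nsmul _ _ _ hg).trans_eq (nsmul_eq_mul _ _)) h0
    · have b1 : K * (s.card * ρ) ≤ (K + 1) * ((s.card + 1) * ρ) := by gcongr <;> linarith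
      have b2 : (K + 1) * ((s.card + 1) * ρ) = ε / 10 := by rw [hρ]; field_simp
      linarith
  filter_upwards [key true, key false, Metric.tendsto_nhds.1
    (Au.cyl (Y := fun n g i => Y i n g) hY φ hφ) (ε / 10) (by positivity)] with n b0 b1 b3
  rw [abs_le] at b0 b1
  rw [Real.dist_eq, sub_zero, abs_lt] at b3 ⊢
  constructor <;> linarith [b0.1, b0.2, b1.1, b1.2, b3.1, b3.2]


/-- **transfer of a tail bound** -/
theorem tr (h : Ap X) {δ δ' : ℝ} (hδ : δ < δ') (hε : 0 < ε)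
    (h0 : ∀ᶠ n : ℕ in atTop, disorderLaw n {g | δ < X n g} ≤ ENNReal.ofReal (ε / 4)) :
    Sm X δ' ε := fun b => by
  cases b
  · exact h0.mono fun n a => ((measure_mono fun g (hg : _ < _) => hδ.trans hg).trans a).trans
      (ENNReal.ofReal_le_ofReal (by linarith))
  set γ := (δ' - δ) / 3 with hγ
  have γ0 : 0 < γ := by rw [hγ]; linarith
  obtain ⟨Y, h1, h2⟩ := h γ (ε / 8) γ0 (by positivity)
  let ψ : ℝ → ℝ := fun y => max 0 (min 1 ((y - (δ + γ)) / γ))
  have ψ0 : ∀ y, 0 ≤ ψ y := fun y => le_max_left _ _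
  have ψ1 : ∀ y, |ψ y| ≤ 1 := fun y => by
    rw [abs_of_nonneg (ψ0 y)]; exact max_le zero_le_one (min_le_left _ _)
  have hc : Soft.IsCyl fun x : Unit → ℝ => ψ (x ()) := by
    refine ⟨univ, 1 + 1 / γ, by positivity, fun x => (ψ1 _).trans (le_add_of_nonneg_right
      (by positivity)), fun x y => ?_⟩
    have b1 := abs_max_sub_max_le_max 0 (min 1 ((x () - (δ + γ)) / γ)) 0
      (min 1 ((y () - (δ + γ)) / γ))
    have b2 := abs_min_sub_min_le_max 1 ((x () - (δ + γ)) / γ) 1 ((y () - (δ + γ)) / γ)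
    rw [sub_self, abs_zero] at b1 b2
    replace b1 := b1.trans_eq (max_eq_right (abs_nonneg _))
    replace b2 := b2.trans_eq (max_eq_right (abs_nonneg _))
    rw [← sub_div, sub_sub_sub_cancel_right, abs_div, abs_of_pos γ0] at b2
    simp only [univ_unique, sum_singleton]
    calc _ ≤ 1 / γ * |x () - y ()| := (b1.trans b2).trans_eq (by ring)
      _ ≤ _ := by gcongr; linarith
  have mψ : ∀ n, Measurable fun g => ψ (Y n g) := fun n =>
    hc.measurable.comp (measurable_pi_lambda _ fun _ => h1.meas n)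
  filter_upwards [h0, h2 true, h2 false, Metric.tendsto_nhds.1
    (Au.cyl (Y := fun n g _ => Y n g) (fun _ => h1) _ hc) (ε / 8) (by positivity)]
    with n a0 a1 a2 a3
  rw [Real.dist_eq, sub_zero, abs_lt] at a3
  have b1 : couplingLaw false n ({g | δ < X n g} ∪ {g | γ < |X n g - Y n g|}) ≤
      ENNReal.ofReal (ε / 4 + ε / 8) := by
    rw [ENNReal.ofReal_add (by positivity) (by positivity)]
    exact (measure_union_le _ _).trans (add_le_add a0 a2)
  have b2 := int_le_of_meas (mψ n) (fun _ => ψ1 _) le_rfl (by positivity) b1 (fun g hg => by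
    simp only [Set.mem_union, Set.mem_ofPred_eq, not_or, not_lt, abs_le] at hg
    rw [abs_of_nonneg (ψ0 _)]
    exact max_le le_rfl ((min_le_right _ _).trans (div_nonpos_of_nonpos_of_nonneg
      (by linarith [hg.1, hg.2.1]) γ0.le))) zero_le_one
  have b3 : couplingLaw true n {g | δ + 2 * γ ≤ Y n g} ≤ ENNReal.ofReal (7 * ε / 8) :=
    meas_le_of_int (a := 1) (int_bdd (mψ n) fun _ => ψ1 _) (fun _ => ψ0 _) one_pos (fun g hg =>
      le_max_of_le_right (le_min le_rfl ((one_le_div γ0).2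
        (by linarith [show δ + 2 * γ ≤ Y n g from hg])))) (by linarith [a3.2])
  refine le_trans (measure_mono (t := {g | δ + 2 * γ ≤ Y n g} ∪ {g | γ < |X n g - Y n g|})
    fun g hg => ?_) ((measure_union_le _ _).trans ((add_le_add b3 a1).trans_eq ?_))
  · by_contra hh
    simp only [Set.mem_union, Set.mem_ofPred_eq, not_or, not_lt, not_le, abs_le] at hh hg
    linarith [hh.1, hh.2.2]
  · rw [← ENNReal.ofReal_add (by positivity) (by positivity)]; congr 1; ring

end Ap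

variable {ι : ℕ → Type} [∀ n, Fintype (ι n)] {u u' : VF ι}
  {κ : ℕ → Type} [∀ n, Fintype (κ n)] [∀ n, DecidableEq (κ n)]
  {φ : ∀ n, Cube n → κ n → ℝ} {s : ℕ → ℝ}

/-- norm in `L²` of the Gibbs law -/
def nS (u : VF ι) : Fam := fun n g => nv (prob (gw n g)) (u n g)

/-- the dynamics at rescaled time `t` -/
def HS (t : ℝ) (u : VF ι) : VF ι := fun n g i => Soft.Pn n g t (u n g i)

/-- the static chain -/
abbrev stc (hc : Chn φ s) (n : ℕ) (g : Pair n → ℝ) : Chain22.RC (Cube n) :=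
  Sg.stRC (φ n) (gw_pos g) (hc.1 n)

/-- the Poissonised static chain -/
def QS (hc : Chn φ s) (t : ℝ) (u : VF ι) : VF ι := fun n g => Sg.HV (stc hc n g) t (u n g)

lemma isP {n : ℕ} (g : Pair n → ℝ) : Chain22.IsP (prob (gw n g)) := Chain22.isP_prob' (gw_pos g)

lemma HS_eq {n : ℕ} (hn : 0 < n) (t : ℝ) (g : Pair n → ℝ) :
    HS t u n g = Sg.HV (Soft.ch hn g) (Soft.tau n t) (u n g) :=
  funext fun _ => Soft.Pn_eq hn g t _

lemma RS_iter {n : ℕ} (hn : 0 < n) (τ : ℕ → ℝ) (g : Pair n → ℝ) (j : ℕ) :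
    (RS τ)^[j] u n g = (Sg.RV (Soft.ch hn g) (n * τ n))^[j] (u n g) := by
  induction j with
  | zero => rfl
  | succ j ih => rw [Function.iterate_succ_apply', Function.iterate_succ_apply', RS, dif_pos hn, ih]

lemma TS_iter (hc : Chn φ s) (n : ℕ) (g : Pair n → ℝ) (j : ℕ) (i : ι n) :
    (TS φ s)^[j] u n g i = ((stc hc n g).P ^ j) *ᵥ u n g i := by
  induction j with
  | zero => simp
  | succ j ih => rw [Function.iterate_succ_apply', TS, ih, pow_succ', ← mulVec_mulVec]; rfl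

lemma ipS_self (n : ℕ) (g : Pair n → ℝ) : ipS u u n g = nS u n g ^ 2 := (Sg.nv_sq (isP g) _).symm

/-- limits in mean square -/
def La (u : VF ι) : Prop := ∀ η ε : ℝ, 0 < η → 0 < ε → ∃ v, Lc v ∧ Sm (nS (u - v)) η ε

lemma Lc.la (h : Lc u) : La u := fun _ _ hη _ =>
  ⟨u, h, .of_le (.of_forall fun _ _ => by simpa [nS, nv, ipV, Chain22.ip] using hη.le)⟩

namespace La

lemma approx (h : ∀ η ε : ℝ, 0 < η → 0 < ε → ∃ v, La v ∧ Sm (nS (u - v)) η ε) : La u :=
  fun η ε hη hε => by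
  obtain ⟨v, h1, h2⟩ := h _ _ (half_pos hη) (half_pos hε)
  obtain ⟨w, h3, h4⟩ := h1 _ _ (half_pos hη) (half_pos hε)
  exact ⟨w, h3, h2.two hε h4 (.of_forall fun n g a b =>
    (Sg.nv_tri (isP g) (u n g) (v n g) (w n g)).trans ((add_le_add a b).trans_eq (add_halves η)))⟩

lemma congr (h : La u) (e : ∀ᶠ n : ℕ in atTop, ∀ g, u' n g = u n g) : La u' :=
  approx fun _ _ hη _ => ⟨u, h, .of_le (e.mono fun _ a g => by
    simpa [nS, nv, ipV, Chain22.ip, a g] using hη.le)⟩

lemma tight (h : La u) : ∀ b, Tight b (nS u) := tight_of_sm fun ε hε => by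
  obtain ⟨v, h1, h2⟩ := h 1 _ one_pos (half_pos hε)
  obtain ⟨M, -, h3⟩ := sm_of_tight h1.tight (half_pos hε)
  refine ⟨1 + M, h2.two hε h3 (.of_forall fun n g a b => ?_)⟩
  have := Sg.nv_add_le (isP g) (u n g - v n g) (v n g)
  rw [sub_add_cancel] at this
  exact this.trans (add_le_add a b)

lemma add (h : La u) (h' : La u') : La (u + u') := fun η ε hη hε => by
  obtain ⟨v, h1, h2⟩ := h _ _ (half_pos hη) (half_pos hε)
  obtain ⟨w, h3, h4⟩ := h' _ _ (half_pos hη) (half_pos hε)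
  refine ⟨_, h1.add h3, h2.two hε h4 (.of_forall fun n g a b => ?_)⟩
  rw [add_sub_add_comm]
  exact (Sg.nv_add_le (isP g) _ _).trans ((add_le_add a b).trans_eq (add_halves η))

lemma nS_smul (c : ℝ) (n : ℕ) (g : Pair n → ℝ) : nS (c • u) n g = |c| * nS u n g := by
  rw [nS, nS, nv, nv, ← Real.sqrt_sq_eq_abs, ← Real.sqrt_mul (sq_nonneg c)]
  congr 1
  simp only [ipV, Chain22.ip, mul_sum, Pi.smul_apply, smul_eq_mul]
  exact sum_congr rfl fun _ _ => sum_congr rfl fun _ _ => by ring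

lemma smul (h : La u) (c : ℝ) : La (c • u) := fun η ε hη hε => by
  obtain ⟨v, h1, h2⟩ := h (η / (|c| + 1)) _ (by positivity) hε
  refine ⟨_, h1.smul c, h2.imp (.of_forall fun n g a => ?_)⟩
  rw [← smul_sub, nS_smul]
  calc _ ≤ (|c| + 1) * (η / (|c| + 1)) := by
        gcongr
        exacts [Sg.nv_nonneg _, by linarith]
    _ = η := by field_simp

lemma sub (h : La u) (h' : La u') : La (u - u') := by
  simpa only [sub_eq_add_neg, neg_smul, one_smul] using h.add (h'.smul (-1))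

lemma map (h : La u) {A : VF ι → VF ι} (h1 : ∀ v, Lc v → La (A v))
    (h2 : ∀ v, ∀ᶠ n : ℕ in atTop, ∀ g, nS (A u - A v) n g ≤ nS (u - v) n g) : La (A u) :=
  approx fun η ε hη hε => by
    obtain ⟨v, a1, a2⟩ := h η ε hη hε
    exact ⟨_, h1 v a1, a2.imp ((h2 v).mono fun n b g c => (b g).trans c)⟩

lemma T (h : La u) (hc : Chn φ s) : La (TS φ s u) :=
  h.map (fun _ a => (a.T hc).la) fun v => .of_forall fun n g => by
    have e : (TS φ s u - TS φ s v) n g = fun i => (stc hc n g).P *ᵥ (u - v) n g i := by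
      funext i; simp only [Pi.sub_apply, mulVec_sub]; rfl
    rw [nS, e, nS, nv, nv, Sg.ipV_self_eq, Sg.ipV_self_eq]
    exact Real.sqrt_le_sqrt (((isP g).mean_mono (Sg.sq2_P_le (stc hc n g) _)).trans_eq
      ((stc hc n g).mean_P _))

lemma res (h : La u) {τ : ℕ → ℝ} (hτ : ∀ n, 0 ≤ τ n)
    (ht : Tendsto (fun n : ℕ => τ n / n) atTop (𝓝 0)) : La (RS τ u) :=
  h.map (fun _ a => (a.res hτ ht).la) fun v => (eventually_gt_atTop 0).mono fun n hn g => by
    have := Sg.nv_RV_le (Soft.ch hn g) (mul_nonneg (Nat.cast_nonneg n) (hτ n)) (u n g - v n g)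
    rw [Sg.RV_sub] at this
    simp only [nS, Pi.sub_apply, RS, dif_pos hn]
    exact this

lemma H (h : La u) {t : ℝ} (ht : 0 ≤ t) : La (HS t u) := approx fun η ε hη hε => by
  obtain ⟨M, M0, a1⟩ := sm_of_tight h.tight hε
  obtain ⟨m, hm⟩ := exists_nat_gt (2 * M / η)
  have m0 : (0 : ℝ) < m := lt_of_le_of_lt (by positivity) hm
  have hτ : ∀ n, 0 ≤ t * N23 n / (2 * m) := fun n => by positivity
  have hl : Tendsto (fun n : ℕ => t * N23 n / (2 * m) / n) atTop (𝓝 0) := by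
    have := ((tendsto_rpow_neg_atTop (y := 1 / 3) (by norm_num)).comp
      tendsto_natCast_atTop_atTop).const_mul (t / (2 * m))
    rw [mul_zero] at this
    refine this.congr' ((eventually_gt_atTop 0).mono fun n hn => ?_)
    have hn' : (0 : ℝ) < n := by exact_mod_cast hn
    simp only [Function.comp]
    rw [show (-(1 / 3) : ℝ) = 2 / 3 - 1 by norm_num, Real.rpow_sub_one hn'.ne']; ring
  refine ⟨(RS fun n => t * N23 n / (2 * m))^[2 * m] u, Function.Iterate.rec La h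
    (fun _ a => a.res hτ hl) _, a1.imp ((eventually_gt_atTop 0).mono fun n hn g a => ?_)⟩
  have b1 := Sg.nv_HV_sub_iter (Soft.ch hn g) (mul_nonneg (Nat.cast_nonneg n) (hτ n)) (u n g)
    (m := m) (by exact_mod_cast m0)
  rw [show 2 * m * (n * (t * N23 n / (2 * m))) = Soft.tau n t by field_simp] at b1
  rw [nS, Pi.sub_apply, Pi.sub_apply, HS_eq hn, RS_iter hn]
  refine b1.trans ((mul_le_mul_of_nonneg_left a (by positivity)).trans ?_)
  rw [div_lt_iff₀ hη] at hm
  rw [div_mul_eq_mul_div, div_le_iff₀ m0]; linarith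

theorem ip (h : La u) (h' : La u') : Ap (ipS u u') := fun η ε hη hε => by
  have e4 := half_pos (half_pos hε)
  obtain ⟨M, M0, a1⟩ := sm_of_tight h'.tight e4
  obtain ⟨v, h1, h2⟩ := h (η / 2 / M) _ (by positivity) e4
  obtain ⟨M', M0', a2⟩ := sm_of_tight h1.la.tight e4
  obtain ⟨w, h3, h4⟩ := h' (η / 2 / M') _ (by positivity) e4
  refine ⟨_, h1.ip h3, Sm.two (X := fun n g => nS (u - v) n g * nS u' n g)
    (X' := fun n g => nS v n g * nS (u' - w) n g) (a := η / 2) (a' := η / 2) hε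
    (h2.two (half_pos hε) a1 (.of_forall fun n g a b => ?_))
    (a2.two (half_pos hε) h4 (.of_forall fun n g a b => ?_)) (.of_forall fun n g a b => ?_)⟩
  · exact (mul_le_mul a b (Sg.nv_nonneg _) (by positivity)).trans_eq (by field_simp)
  · exact (mul_le_mul a b (Sg.nv_nonneg _) (by positivity)).trans_eq (by field_simp)
  · have : ipS u u' n g - ipS v w n g = ipS (u - v) u' n g + ipS v (u' - w) n g := by
      simp only [ipS, Pi.sub_apply, Sg.ipV_sub_left, Sg.ipV_sub_right]; ring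
    rw [this]
    exact (abs_add_le _ _).trans ((add_le_add ((Sg.abs_ipV_le (isP g) _ _).trans a)
      ((Sg.abs_ipV_le (isP g) _ _).trans b)).trans_eq (add_halves η))

/-- **transfer of a small norm** -/
theorem tr (h : La u) {δ δ' : ℝ} (h0 : 0 ≤ δ) (hδ : δ < δ') (hε : 0 < ε)
    (h1 : ∀ᶠ n : ℕ in atTop, disorderLaw n {g | δ < nS u n g} ≤ ENNReal.ofReal (ε / 4)) :
    Sm (nS u) δ' ε :=
  ((h.ip h).tr (pow_lt_pow_left₀ hδ h0 two_ne_zero) hε (h1.mono fun n a =>
    (measure_mono fun g (hg : _ < _) => lt_of_pow_lt_pow_left₀ 2 (Sg.nv_nonneg _)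
      (hg.trans_eq (ipS_self n g))).trans a)).imp (.of_forall fun n g a =>
    (abs_le_of_sq_le_sq' ((ipS_self n g).ge.trans a) (h0.trans hδ.le)).2)

end La

end Crest.Agent.T157.Un

end
end

-- ▼ part T157/UnI_81

/-!
# Row 157, part C: universality through a complex entry, I (helper81)

The Poissonised static chain, the class `Pa` (all moments, closed under products), and the
universality of the stationary autocorrelation.
-/

set_option autoImplicit false
set_option linter.unusedSectionVars false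

noncomputable section

namespace Crest.Agent.T157.Un

open MeasureTheory Metric Finset Matrix Filter Topology
open Crest.ProbabilityR.SpinGlassDynamics Crest.Agent.T157.E Crest.Agent.T157.SL
open Crest.Agent.T157.Sg (sq2 ipV nv)
open Crest.Agent.T157.Soft (N23)
open Crest.Agent.T157.Chain22 (RC poi poi_nonneg hasSum_poi)

section fin
variable {Ω ι : Type*} [Fintype Ω] [DecidableEq Ω] [Fintype ι]

lemma mean_P_pow (d : RC Ω) {f h : Ω → ℝ} (hf : ∀ x, 0 ≤ f x) (h0 : ∀ x, 0 ≤ h x) {ρ : ℝ}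
    (hρ : 0 ≤ ρ) (e : ∀ x, h x ≤ ρ * (d.P *ᵥ f) x) (k : ℕ) :
    Chain22.mean d.π (fun x => h x ^ k) ≤ ρ ^ k * Chain22.mean d.π fun x => f x ^ k := by
  rw [← d.mean_P fun x => f x ^ k, ← Ent.mean_const_mul]
  refine d.isP.mean_mono fun x => (pow_le_pow_left₀ (h0 x) (e x) k).trans ?_
  rw [mul_pow]
  exact mul_le_mul_of_nonneg_left (Real.pow_arith_mean_le_arith_mean_pow univ (d.P x) f
    (fun y _ => d.nn x y) (d.row x) (fun y _ => hf y) k) (pow_nonneg hρ k)

lemma poi_tail {t : ℝ} (ht : 0 ≤ t) (J : ℕ) : 0 ≤ 1 - ∑ j ∈ range J, poi t j :=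
  sub_nonneg.2 (sum_le_hasSum _ (fun j _ => poi_nonneg ht j) (hasSum_poi t))

lemma poi_trunc (d : RC Ω) {t : ℝ} (ht : 0 ≤ t) (J : ℕ) (a : ι → Ω → ℝ) (k : ℕ) :
    Chain22.mean d.π (fun x => sq2 (Sg.HV d t a -
      fun i => ∑ j ∈ range J, poi t j • ((d.P ^ j) *ᵥ a i)) x ^ k) ≤
      (1 - ∑ j ∈ range J, poi t j) ^ k * Chain22.mean d.π fun x => sq2 a x ^ k := by
  refine mean_P_pow (d.heat t ht) (Sg.sq2_nonneg a) (Sg.sq2_nonneg _) (poi_tail ht J) (fun x => ?_) k
  set D : Ω → ℝ := fun y => d.H t x y - ∑ j ∈ range J, poi t j * (d.P ^ j) x y with hD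
  have p : ∀ j y, 0 ≤ poi t j * (d.P ^ j) x y := fun j y =>
    mul_nonneg (poi_nonneg ht j) (d.pow_nn j x y)
  have D0 : ∀ y, 0 ≤ D y := fun y => sub_nonneg.2 (sum_le_hasSum _ (fun j _ => p j y) (d.hasSum_H t x y))
  have D1 : ∀ y, D y ≤ d.H t x y := fun y => sub_le_self _ (sum_nonneg fun j _ => p j y)
  have D2 : ∑ y, D y = 1 - ∑ j ∈ range J, poi t j := by
    simp only [hD, sum_sub_distrib, d.H_row]
    rw [sum_comm]
    simp only [← mul_sum, d.pow_row, mul_one]
  have e : ∀ i, (Sg.HV d t a - fun i => ∑ j ∈ range J, poi t j • ((d.P ^ j) *ᵥ a i)) i x =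
      ∑ y, D y * a i y := fun i => by
    simp only [hD, Sg.HV, Pi.sub_apply, Finset.sum_apply, Pi.smul_apply, smul_eq_mul, mulVec, dotProduct,
      sub_mul, sum_sub_distrib, sum_mul, mul_sum, mul_assoc]
    rw [sum_comm]
  simp only [sq2, e]
  refine (sum_le_sum fun i _ => sum_sq_le_sum_mul_sum_of_sq_le_mul univ (f := D)
    (g := fun y => D y * a i y ^ 2) (fun y _ => D0 y) (fun y _ => mul_nonneg (D0 y) (sq_nonneg _))
    fun y _ => le_of_eq (by ring)).trans ?_
  rw [← mul_sum, D2, sum_comm]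
  refine mul_le_mul_of_nonneg_left (sum_le_sum fun y _ => ?_) (poi_tail ht J)
  rw [← mul_sum]
  exact mul_le_mul_of_nonneg_right (D1 y) (Sg.sq2_nonneg a y)

lemma exists_poi_tail (t : ℝ) {η : ℝ} (hη : 0 < η) : ∃ J, 1 - ∑ j ∈ range J, poi t j ≤ η := by
  obtain ⟨J, hJ⟩ := ((hasSum_poi t).tendsto_sum_nat.eventually
    (lt_mem_nhds (show 1 - η < 1 by linarith))).exists
  exact ⟨J, by linarith⟩

end fin

variable {ι : ℕ → Type} [∀ n, Fintype (ι n)] {u u' : VF ι}
  {κ : ℕ → Type} [∀ n, Fintype (κ n)] [∀ n, DecidableEq (κ n)]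
  {φ : ∀ n, Cube n → κ n → ℝ} {s : ℕ → ℝ}

/-- moments of the squared norm -/
def mq (k : ℕ) (u : VF ι) : Fam := fun n g => mean (gw n g) fun x => sq2 (u n g) x ^ k

lemma mq_nonneg (k n : ℕ) (g : Pair n → ℝ) : 0 ≤ mq k u n g :=
  (gwt g).mean_nonneg fun x => pow_nonneg (Sg.sq2_nonneg _ x) k

lemma mq_one (n : ℕ) (g : Pair n → ℝ) : mq 1 u n g = nS u n g ^ 2 := by
  rw [nS, Sg.nv_sq (isP g), Sg.ipV_self_eq]; simp only [mq, pow_one]; rfl

lemma mq_add (k n : ℕ) (g : Pair n → ℝ) : mq k (u + u') n g ≤ 4 ^ k * (mq k u n g + mq k u' n g) := by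
  rw [mq, mq, mq, ← mean_add, ← mean_const_mul]
  refine (gwt g).mean_mono fun x => ?_
  have p := Sg.sq2_nonneg (u n g) x
  have p' := Sg.sq2_nonneg (u' n g) x
  calc _ ≤ (2 * (sq2 (u n g) x + sq2 (u' n g) x)) ^ k :=
        pow_le_pow_left₀ (Sg.sq2_nonneg _ x) ((sq2_add_le _ _ x).trans_eq (by ring)) k
    _ ≤ 2 ^ k * (2 ^ k * (sq2 (u n g) x ^ k + sq2 (u' n g) x ^ k)) := by
        rw [mul_pow]
        gcongr
        refine (add_pow_le p p' k).trans ?_
        gcongr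
        exacts [one_le_two, Nat.sub_le _ _]
    _ = _ := by rw [← mul_assoc, ← mul_pow]; norm_num

lemma mq_smul (c : ℝ) (k n : ℕ) (g : Pair n → ℝ) : mq k (c • u) n g = (c ^ 2) ^ k * mq k u n g := by
  rw [mq, mq, ← mean_const_mul]
  simp only [sq2, Pi.smul_apply, smul_eq_mul, mul_pow, ← mul_sum]

lemma mq_dt (k n : ℕ) (g : Pair n → ℝ) {l : ℝ} (hl : 0 < l) :
    mq k (dt u u') n g ≤ l⁻¹ * mq (k * 2) u n g + l * mq (k * 2) u' n g := by
  rw [mq, mq, mq, ← mean_const_mul, ← mean_const_mul, ← mean_add]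
  refine (gwt g).mean_mono fun x => ?_
  have h1 : sq2 (dt u u' n g) x ≤ sq2 (u n g) x * sq2 (u' n g) x := by
    simpa [sq2, dt] using sum_mul_sq_le_sq_mul_sq univ (fun i => u n g i x) fun i => u' n g i x
  refine (pow_le_pow_left₀ (Sg.sq2_nonneg _ x) h1 k).trans ?_
  rw [mul_pow, pow_mul, pow_mul]
  set a := sq2 (u n g) x ^ k
  set b := sq2 (u' n g) x ^ k
  have : l⁻¹ * a ^ 2 + l * b ^ 2 - a * b = l⁻¹ * ((a - l * b / 2) ^ 2 + 3 / 4 * (l * b) ^ 2) := by
    field_simp; ring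
  have : 0 ≤ l⁻¹ * ((a - l * b / 2) ^ 2 + 3 / 4 * (l * b) ^ 2) := by positivity
  linarith

lemma mq_P (d : ∀ n, (Pair n → ℝ) → RC (Cube n)) (hd : ∀ n g, (d n g).π = prob (gw n g)) (k n : ℕ)
    (g : Pair n → ℝ) : mq k (fun n g i => (d n g).P *ᵥ u n g i) n g ≤ mq k u n g := by
  have := mean_P_pow (d n g) (Sg.sq2_nonneg (u n g)) (Sg.sq2_nonneg _) zero_le_one
    (fun x => by rw [one_mul]; exact Sg.sq2_P_le _ _ x) k
  rw [one_pow, one_mul, hd] at this
  exact this

/-- truncated Poisson sum -/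
def QJ (φ : ∀ n, Cube n → κ n → ℝ) (s : ℕ → ℝ) (t : ℝ) (J : ℕ) (u : VF ι) : VF ι :=
  ∑ j ∈ range J, poi t j • (TS φ s)^[j] u

lemma mq_QJ (hc : Chn φ s) {t : ℝ} (ht : 0 ≤ t) (J k n : ℕ) (g : Pair n → ℝ) :
    mq k (QS hc t u - QJ φ s t J u) n g ≤ (1 - ∑ j ∈ range J, poi t j) ^ k * mq k u n g := by
  have e : QJ φ s t J u n g = fun i => ∑ j ∈ range J, poi t j • (((stc hc n g).P ^ j) *ᵥ u n g i) := by
    funext i; simp only [QJ, Finset.sum_apply, Pi.smul_apply, TS_iter hc]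
  have := poi_trunc (stc hc n g) ht J (u n g) k
  rw [← e] at this
  exact this

lemma La.zero : La (0 : VF ι) := Pc.zero.lc.la

lemma La.Q (h : La u) (hc : Chn φ s) {t : ℝ} (ht : 0 ≤ t) : La (QS hc t u) :=
  La.approx fun η ε hη hε => by
  obtain ⟨M, M0, a1⟩ := sm_of_tight h.tight hε
  obtain ⟨J, hJ⟩ := exists_poi_tail t (η := (η / M) ^ 2) (by positivity)
  refine ⟨QJ φ s t J u, sum_induction _ _ (fun _ _ => La.add) La.zero fun j _ =>
    (Function.Iterate.rec La h (fun _ a => a.T hc) j).smul _, a1.imp (.of_forall fun n g a => ?_)⟩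
  have b1 := mq_QJ (u := u) hc ht J 1 n g
  rw [mq_one, mq_one, pow_one] at b1
  refine (abs_le_of_sq_le_sq' (b1.trans ?_) hη.le).2
  calc _ ≤ (η / M) ^ 2 * M ^ 2 := by
        gcongr
        exact Sg.nv_nonneg _
    _ = _ := by field_simp

/-- limits in all moments -/
def Pa (u : VF ι) : Prop := ∀ (k : ℕ) (η ε : ℝ), 0 < k → 0 < η → 0 < ε →
  ∃ v, Pc v ∧ Sm (mq k (u - v)) η ε

lemma mq_zero {k : ℕ} (hk : 0 < k) (n : ℕ) (g : Pair n → ℝ) : mq k (0 : VF ι) n g = 0 := by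
  simp [mq, sq2, mean, hk.ne']

lemma Pc.pa (h : Pc u) : Pa u := fun _ _ _ hk hη _ =>
  ⟨u, h, .of_le (.of_forall fun _ _ => by rw [sub_self, mq_zero hk]; exact hη.le)⟩

lemma Pc.tight (h : Pc u) (k : ℕ) (b : Bool) : Tight b (mq k u) := by
  obtain ⟨S, h1, h2⟩ := h.mo.ex k
  exact (h1.tt.coin b).mono h2

namespace Pa

lemma two {k : ℕ} {η ε : ℝ} (hε : 0 < ε) (h : Sm (mq k u) (η / 2 / 4 ^ k) (ε / 2))
    (h' : Sm (mq k u') (η / 2 / 4 ^ k) (ε / 2)) : Sm (mq k (u + u')) η ε :=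
  h.two hε h' (.of_forall fun n g a b => (mq_add k n g).trans
    ((mul_le_mul_of_nonneg_left (add_le_add a b) (by positivity)).trans_eq (by field_simp; ring)))

lemma approx (h : ∀ (k : ℕ) (η ε : ℝ), 0 < k → 0 < η → 0 < ε → ∃ v, Pa v ∧ Sm (mq k (u - v)) η ε) :
    Pa u := fun k η ε hk hη hε => by
  obtain ⟨v, h1, h2⟩ := h k (η / 2 / 4 ^ k) _ hk (by positivity) (half_pos hε)
  obtain ⟨w, h3, h4⟩ := h1 k (η / 2 / 4 ^ k) _ hk (by positivity) (half_pos hε)
  exact ⟨w, h3, by simpa only [sub_add_sub_cancel] using two hε h2 h4⟩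

lemma tight (h : Pa u) {k : ℕ} (hk : 0 < k) : ∀ b, Tight b (mq k u) := tight_of_sm fun ε hε => by
  obtain ⟨v, h1, h2⟩ := h k 1 _ hk one_pos (half_pos hε)
  obtain ⟨M, -, h3⟩ := sm_of_tight (h1.tight k) (half_pos hε)
  refine ⟨4 ^ k * (1 + M), h2.two hε h3 (.of_forall fun n g a b => ?_)⟩
  have := mq_add (u := u - v) (u' := v) k n g
  rw [sub_add_cancel] at this
  exact this.trans (mul_le_mul_of_nonneg_left (add_le_add a b) (by positivity))

lemma la (h : Pa u) : La u := fun η ε hη hε => by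
  obtain ⟨v, h1, h2⟩ := h 1 (η ^ 2) ε one_pos (by positivity) hε
  exact ⟨v, h1.lc, h2.imp (.of_forall fun n g a =>
    (abs_le_of_sq_le_sq' ((mq_one n g).ge.trans a) hη.le).2)⟩

lemma add (h : Pa u) (h' : Pa u') : Pa (u + u') := fun k η ε hk hη hε => by
  obtain ⟨v, h1, h2⟩ := h k (η / 2 / 4 ^ k) _ hk (by positivity) (half_pos hε)
  obtain ⟨w, h3, h4⟩ := h' k (η / 2 / 4 ^ k) _ hk (by positivity) (half_pos hε)
  exact ⟨_, h1.add h3, by rw [add_sub_add_comm]; exact two hε h2 h4⟩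

lemma smul (h : Pa u) (c : ℝ) : Pa (c • u) := fun k η ε hk hη hε => by
  obtain ⟨v, h1, h2⟩ := h k (η / ((c ^ 2) ^ k + 1)) _ hk (by positivity) hε
  refine ⟨_, h1.smul c, h2.imp (.of_forall fun n g a => ?_)⟩
  rw [← smul_sub, mq_smul]
  calc _ ≤ ((c ^ 2) ^ k + 1) * (η / ((c ^ 2) ^ k + 1)) := by
        gcongr
        exacts [mq_nonneg k n g, by linarith]
    _ = η := by field_simp

lemma sub (h : Pa u) (h' : Pa u') : Pa (u - u') := by
  simpa only [sub_eq_add_neg, neg_smul, one_smul] using h.add (h'.smul (-1))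

lemma T (h : Pa u) (hc : Chn φ s) : Pa (TS φ s u) := fun k η ε hk hη hε => by
  obtain ⟨v, h1, h2⟩ := h k η ε hk hη hε
  refine ⟨_, h1.T hc, h2.imp (.of_forall fun n g a => le_trans (le_of_eq ?_)
    ((mq_P (stc hc) (fun _ _ => rfl) k n g).trans a))⟩
  congr 1
  funext n g i; simp only [Pi.sub_apply, mulVec_sub]; rfl

lemma Q (h : Pa u) (hc : Chn φ s) {t : ℝ} (ht : 0 ≤ t) : Pa (QS hc t u) :=
  approx fun k η ε hk hη hε => by
  obtain ⟨M, M0, a1⟩ := sm_of_tight (h.tight hk) hε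
  obtain ⟨J, hJ⟩ := exists_poi_tail t (η := min 1 (η / M)) (by positivity)
  refine ⟨QJ φ s t J u, sum_induction _ _ (fun _ _ => Pa.add) Pc.zero.pa fun j _ =>
    (Function.Iterate.rec Pa h (fun _ a => a.T hc) j).smul _, a1.imp (.of_forall fun n g a => ?_)⟩
  refine (mq_QJ hc ht J k n g).trans ?_
  calc _ ≤ η / M * M := mul_le_mul ((pow_le_of_le_one (poi_tail ht J) (hJ.trans (min_le_left _ _))
        hk.ne').trans (hJ.trans (min_le_right _ _))) a (mq_nonneg k n g) (by positivity)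
    _ = _ := by field_simp

lemma dot (h : Pa u) (h' : Pa u') : Pa (dt u u') := fun k η ε hk hη hε => by
  have e4 := half_pos (half_pos hε)
  have k2 : 0 < k * 2 := by positivity
  set ρ := η / 2 / 4 ^ k / 2 with hρ
  have ρ0 : 0 < ρ := by positivity
  obtain ⟨M, M0, a1⟩ := sm_of_tight (h'.tight k2) e4
  obtain ⟨v, h1, h2⟩ := h _ (ρ / M * ρ) _ k2 (by positivity) e4
  obtain ⟨M', M0', a2⟩ := sm_of_tight (h1.tight (k * 2)) e4
  obtain ⟨w, h3, h4⟩ := h' _ (ρ / M' * ρ) _ k2 (by positivity) e4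
  have e : dt u u' - dt v w = dt (u - v) u' + dt (u' - w) v := by
    funext n g _ x
    simp only [dt, Pi.sub_apply, Pi.add_apply, ← sum_sub_distrib, ← sum_add_distrib]
    exact sum_congr rfl fun _ _ => by ring
  have key : ∀ {a b : VF ι} {M : ℝ}, 0 < M → Sm (mq (k * 2) a) (ρ / M * ρ) (ε / 2 / 2) →
      Sm (mq (k * 2) b) M (ε / 2 / 2) → Sm (mq k (dt a b)) (η / 2 / 4 ^ k) (ε / 2) :=
    fun {a b M} M0 c1 c2 => c1.two (half_pos hε) c2 (.of_forall fun n g d1 d2 => by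
      have l0 : 0 < ρ / M := by positivity
      calc _ ≤ (ρ / M)⁻¹ * (ρ / M * ρ) + ρ / M * M := (mq_dt k n g l0).trans (by gcongr)
        _ = ρ + ρ := by field_simp
        _ = _ := add_halves _)
  exact ⟨_, h1.dot h3, by rw [e]; exact two hε (key M0 h2 a1) (key M0' h4 a2)⟩



end Pa




end Crest.Agent.T157.Un

end
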