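import Crest.Agent.T157.DaLip_44
import Crest.Agent.T157.LlAll_91
import Crest.Agent.T157.Soft_45
import Crest.Agent.T157.DaDef_82
import Crest.Agent.T157.PlE_37
import Crest.Agent.T157.DaFdA_82
import Crest.Agent.T157.DaGfom_30
import Crest.Agent.T157.DaMean_46
import Crest.Agent.T157.DaRot_46
import Crest.Agent.T157.DaHaar_44_Mg
import Crest.Agent.T157.CqDef_72
import Crest.Agent.T157.CnDef_63
import Crest.Agent.T157.DsG_77_Mg
import Crest.Agent.T157.DaGr_82
import Crest.Agent.T157.TrG_64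
import Crest.Agent.T157.SpAll_87
import Crest.Agent.T157.UnI_81
import Crest.Agent.T157.Cut0_10
import Crest.Agent.T157.LowDef_85
import Crest.Agent.T157.CrC_63
import Crest.Agent.T157.NrmS_84
import Crest.Agent.T157.EdAll_88
import Crest.Agent.T157.CrD_63

-- ▼ part T157/DaRmt_44
section

/-!
# Row 157, part C (helper44): `Da.rmtGlue`
-/

set_option autoImplicit false

noncomputable section

namespace Crest.Agent.T157.Da

open MeasureTheory Matrix Finset Filter Topology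
open Crest.Agent.T157.E Crest.Agent.T157.Eig
open Crest.Agent.T157.Tap (V Mx plW GOE)
open Crest.Agent.T157.Top (Whp)
open Crest.Agent.T157.Ll (gb st msc VhpM Dom mscApi resApi vhp)
open Crest.Agent.T157.Soft45 (zp)

theorem Vh.whp {X : ℕ → Type*} [∀ n, MeasurableSpace (X n)] {μ : ∀ n, Measure (X n)}
    {P : ∀ n, X n → Prop} (h : Vh μ P) : Whp μ P := by
  obtain ⟨c, hc, h⟩ := h
  have t1 : Tendsto (fun n : ℕ => ENNReal.ofReal (Real.exp (-(n : ℝ) ^ c))) atTop (𝓝 0) := by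
    rw [← ENNReal.ofReal_zero]
    exact ENNReal.tendsto_ofReal (Real.tendsto_exp_neg_atTop_nhds_zero.comp
      ((tendsto_rpow_atTop hc).comp tendsto_natCast_atTop_atTop))
  exact tendsto_of_tendsto_of_tendsto_of_le_of_le' tendsto_const_nhds t1
    (.of_forall fun _ => zero_le) h

namespace Rmt44

variable {n : ℕ} {M : Mx n} {η : ℝ}

theorem vh_of {Θ : ℕ → Type} {P : ∀ n, Θ n → Mx n → Prop} (h : VhpM P) (θ : ∀ n, Θ n) :
    Vh PP fun n z => P n (θ n) z.1 := by
  obtain ⟨c, hc, h⟩ := h.goe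
  refine ⟨c, hc, h.mono fun n hn => le_trans (le_of_eq ?_) (hn (θ n))⟩
  have e : {z : Mx n × V n | ¬ P n (θ n) z.1} = {W | ¬ P n (θ n) W} ×ˢ Set.univ := by
    ext z; simp
  rw [e, Measure.prod_prod, measure_univ, mul_one]

theorem vand {Θ : ℕ → Type} {P Q : ∀ n, Θ n → Mx n → Prop} (h : VhpM P) (h' : VhpM Q) :
    VhpM fun n θ A => P n θ A ∧ Q n θ A := vhp.and h h'

theorem quad_im (F : FeApi) (hM : Mᵀ = M) (hη : 0 < η) (u : V n) :
    u ⬝ᵥ fE η M *ᵥ u = η * (gb M (zp η) u u).im := by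
  have h := Ll.gb_im (herm_iff.2 hM) (z := zp η) hη u
  rw [div_eq_iff (show (zp η).im ≠ 0 from hη.ne')] at h
  rw [F.quad hM hη, h, sum_mul, mul_sum]
  refine sum_congr rfl fun k _ => ?_
  rw [norm_inv, inv_pow, Complex.sq_norm, Complex.normSq_apply]
  simp only [zp, fl, Complex.sub_re, Complex.sub_im, Complex.ofReal_re, Complex.ofReal_im]
  rw [show (lam M k - 2) * (lam M k - 2) + (0 - η) * (0 - η) = (2 - lam M k) ^ 2 + η ^ 2 by ring]
  ring

theorem trace_im (F : FeApi) (hn : 0 < n) (hM : Mᵀ = M) (hη : 0 < η) :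
    (fE η M).trace = n * (η * (st M (zp η)).im) := by
  have hn' : (n : ℝ) ≠ 0 := by exact_mod_cast hn.ne'
  have e : (fE η M).trace = ∑ k, Ll.ee k ⬝ᵥ fE η M *ᵥ Ll.ee k := by
    simp [trace, Ll.ee]
  rw [e, resApi.st_eq, ← Complex.ofReal_natCast, Complex.div_ofReal_im, Complex.im_sum]
  simp only [quad_im F hM hη, ← mul_sum]
  field_simp

theorem num : ∀ᶠ n : ℕ in atTop, 0 < n ∧ ∀ η, e0 n ≤ η → 0 < η ∧
    576 * (n : ℝ) ^ (1 / 60 : ℝ) ≤ Nb n η ∧ (η ≤ 1 → Dom 2 (1 / 3) n (zp η)) := by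
  filter_upwards [eventually_gt_atTop 0,
    Lip44.ev_small (c := 1 / 120) (κ := 1 / 576) (by norm_num) (by norm_num)] with n hn h1
  have hn' : (0 : ℝ) < n := by exact_mod_cast hn
  have hn1 : (1 : ℝ) ≤ n := by exact_mod_cast hn
  have z0 : 0 < e0 n := Real.rpow_pos_of_pos hn' _
  refine ⟨hn, fun η hη => ⟨z0.trans_le hη, ?_, fun h => ⟨by simp [zp], ?_, by simp only [zp]; linarith⟩⟩⟩
  · have h2 : Nb n (e0 n) ≤ Nb n η := by unfold Nb; gcongr; exact z0.le.trans hη
    have h3 : (n : ℝ) ^ (1 / 60 : ℝ) = (n : ℝ) ^ (-(1 / 120 : ℝ)) * Nb n (e0 n) := by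
      rw [Nb, e0, Real.sqrt_eq_rpow, ← Real.rpow_mul hn'.le, ← Real.rpow_add hn']
      nth_rewrite 3 [← Real.rpow_one n]
      rw [← Real.rpow_add hn', ← Real.rpow_add hn']
      norm_num
    have h4 : 0 ≤ Nb n (e0 n) := by unfold Nb; positivity
    rw [h3]
    linarith [mul_le_mul_of_nonneg_right h1 h4]
  · exact le_trans (Real.rpow_le_rpow_of_exponent_le hn1 (by norm_num)) hη

theorem msc_le (hη : 0 < η) : (msc (zp η)).im ≤ 2 * √η := by
  rcases le_total η (1 / 4) with h | h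
  · exact Soft45.msc_im_le mscApi hη hη.le h (by rw [Soft45.norm_zp_sub η hη.le]; linarith)
  · have h1 := (Complex.im_le_norm _).trans (mscApi.norm_le (z := zp η) hη)
    have h2 : 1 / 2 ≤ √η := Real.le_sqrt_of_sq_le (by linarith)
    linarith

theorem im_close {a b : ℂ} {r : ℝ} (h : ‖a - b‖ ≤ r) : |a.im - b.im| ≤ r := by
  rw [← Complex.sub_im]; exact (Complex.abs_im_le_norm _).trans h

end Rmt44

open Rmt44

theorem rmtGlue : RmtGlue := by
  intro F
  have hG := Ll.All.good (ε := 1 / 60) (by norm_num)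
  have hA := Ll.All.avgStmt 2 (1 / 3) (1 / 60) (by norm_num) (by norm_num)
  have hGA := vand hG hA
  refine ⟨(vh_of hGA fun _ => ()).mono ?_, ?_, fun η hη => ⟨η * (msc (zp η)).im,
    mul_pos hη.1 (mscApi.im_pos hη.1), fun δ hδ => ((vh_of hGA fun _ => ()).mono ?_).whp⟩⟩
  · filter_upwards [num] with n ⟨hn, h⟩ z ⟨⟨g1, g2, g3⟩, a⟩
    have hn' : (0 : ℝ) < n := by exact_mod_cast hn
    have hp : 0 ≤ (n : ℝ) ^ (1 / 60 : ℝ) := by positivity
    refine ⟨herm_iff.1 g1, g2.trans_eq (by rw [e0]; norm_num), fun η hη => ?_, fun η hη => ?_,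
      fun η hη => ?_⟩ <;> obtain ⟨h0, h1, h2⟩ := h η hη.1
    · have := g3.le_edge_cnt h0.le (by linarith [hη.2])
      unfold Nb at *; linarith
    · have := g3.edge_cnt_le h0.le
      unfold Nb at *; linarith
    · have h3 := (abs_le.1 (im_close (a _ (h2 hη.2)).1)).2
      have h4 := mul_le_mul_of_nonneg_left h3 (mul_pos hn' h0).le
      have h5 : n * η * ((n : ℝ) ^ (1 / 60 : ℝ) * Ll.qq n (zp η)) = (n : ℝ) ^ (1 / 60 : ℝ) := by
        simp only [Ll.qq, zp]; field_simp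
      have h6 := mul_le_mul_of_nonneg_left (msc_le h0) (mul_pos hn' h0).le
      rw [trace_im F hn (herm_iff.1 g1) h0]
      unfold Nb at *; linarith
  · have hI := Ll.All.isoStmt 2 (1 / 3) (1 / 120) (by norm_num) (by norm_num)
    have hG' : VhpM (Θ := fun n => V n × V n) fun n _ A => Ll.Rig.Good (1 / 60) n A :=
      vhp.comp (fun _ _ => ()) hG
    have hGI := vand hG' hI
    refine (vh_of hGI fun n => ((√n)⁻¹ • (1 : V n), (√n)⁻¹ • (1 : V n))).mono ?_
    filter_upwards [num] with n ⟨hn, h⟩ z ⟨⟨g1, _, _⟩, a⟩ η hη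
    obtain ⟨h0, h1, h2⟩ := h η hη.1
    have hn' : (0 : ℝ) < n := by exact_mod_cast hn
    have hs : 0 < √η := Real.sqrt_pos.2 h0
    have hss : √η * √η = η := Real.mul_self_sqrt h0.le
    obtain ⟨u, hu⟩ : ∃ u : V n, u = (√n)⁻¹ • (1 : V n) := ⟨_, rfl⟩
    have hi : (√(n : ℝ))⁻¹ * (√(n : ℝ))⁻¹ = (n : ℝ)⁻¹ := by
      rw [← mul_inv, Real.mul_self_sqrt hn'.le]
    have hq : ∀ B : Mx n, (1 : V n) ⬝ᵥ B *ᵥ (1 : V n) = n * (u ⬝ᵥ B *ᵥ u) := fun B => by
      rw [hu, mulVec_smul, smul_dotProduct, dotProduct_smul, smul_eq_mul, smul_eq_mul,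
        ← mul_assoc (√(n : ℝ))⁻¹, hi, ← mul_assoc, mul_inv_cancel₀ hn'.ne', one_mul]
    have hu1 : u ⬝ᵥ u = 1 := by
      have := hq 1
      rw [one_mulVec, one_mulVec] at this
      refine mul_left_cancel₀ hn'.ne' (this.symm.trans ?_)
      simp [dotProduct]
    rw [← hu] at a
    have a1 := a hu1.le hu1.le _ (h2 (by linarith [hη.2])) u u (Or.inl rfl) (Or.inl rfl)
    rw [hu1, Complex.ofReal_one, mul_one] at a1
    have hp1 : 1 ≤ (n : ℝ) ^ (1 / 60 : ℝ) := Real.one_le_rpow (by exact_mod_cast hn) (by norm_num)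
    have q1 : 1 / (n * η) ≤ √η := by
      rw [div_le_iff₀ (by positivity)]; unfold Nb at h1; linarith
    have a2 := Soft45.Psi_le (n := n) (z := zp η) h0 (q := 1 / (n * η)) rfl (by positivity) q1
      (msc_le h0)
    have a3 : (n : ℝ) ^ (1 / 120 : ℝ) * (3 * √(1 / (n * η) * √η)) ≤ √η / 8 := by
      refine abs_le_of_sq_le_sq' ?_ (by positivity) |>.2
      rw [mul_pow, mul_pow, Real.sq_sqrt (by positivity), ← Real.rpow_natCast,
        ← Real.rpow_mul hn'.le, div_pow, Real.sq_sqrt h0.le]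
      norm_num
      have h3 := mul_le_mul_of_nonneg_right h1 (by positivity : 0 ≤ η⁻¹ * (n : ℝ)⁻¹ * √η)
      have h4 : Nb n η * (η⁻¹ * (n : ℝ)⁻¹ * √η) = η := by
        unfold Nb; field_simp; rw [Real.sq_sqrt h0.le]
      linarith
    have a4 := abs_le.1 (im_close (a1.trans ((mul_le_mul_of_nonneg_left a2 (by positivity)).trans a3)))
    have a5 := Soft45.le_msc_im mscApi h0 hη.2
    have a6 := msc_le h0
    have hG1 := herm_iff.1 g1
    constructor
    · rw [hq, quad_im F hG1 h0, Nb]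
      have := mul_le_mul_of_nonneg_left (by linarith : (gb z.1 (zp η) u u).im ≤ 4 * √η)
        (mul_pos hn' h0).le
      linarith
    · have e : plW 1 z.1 1 = z.1 + vecMulVec u u - (0 : ℝ) • (1 : Mx n) := by
        rw [zero_smul, sub_zero, plW, hu, vecMulVec_smul, smul_vecMulVec, smul_smul, hi, one_div]
      have b1 := Soft45.gb_rank_one g1 u 0 (z := zp η) h0.ne'
      rw [← e, Complex.ofReal_zero, add_zero] at b1
      have i0 : √η / 8 ≤ (gb z.1 (zp η) u u).im := by linarith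
      have i1 : 0 < (gb z.1 (zp η) u u).im := lt_of_lt_of_le (by positivity) i0
      have b2 := Soft45.im_of_rank_one b1 i1
      have b3 : (gb z.1 (zp η) u u).im ≤ ‖1 + gb z.1 (zp η) u u‖ := by
        simpa using Complex.im_le_norm (1 + gb z.1 (zp η) u u)
      have b4 : (gb (plW 1 z.1 1) (zp η) u u).im ≤ 8 / √η := by
        rw [b2]
        calc _ ≤ (gb z.1 (zp η) u u).im / (gb z.1 (zp η) u u).im ^ 2 := by gcongr
          _ = 1 / (gb z.1 (zp η) u u).im := by field_simp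
          _ ≤ 1 / (√η / 8) := by gcongr
          _ = _ := by field_simp
      rw [hq, quad_im F (Lip44.plW_symm hG1) h0]
      calc _ ≤ n * (η * (8 / √η)) := by gcongr
        _ = _ := by field_simp; rw [Real.sq_sqrt h0.le]
  · filter_upwards [num, Lip44.ev_small (c := 13 / 20) (by norm_num) hη.1,
      Lip44.ev_small (c := 59 / 60) (by norm_num) hδ] with n ⟨hn, h⟩ e1 e2 z ⟨⟨g1, _, _⟩, a⟩
    obtain ⟨h0, h1, h2⟩ := h η e1
    have hn' : (0 : ℝ) < n := by exact_mod_cast hn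
    have h3 := mul_le_mul_of_nonneg_left (im_close (a _ (h2 (by linarith [hη.2]))).1)
      (mul_pos hn' h0).le
    have h5 : n * η * ((n : ℝ) ^ (1 / 60 : ℝ) * Ll.qq n (zp η)) = (n : ℝ) ^ (-(59 / 60 : ℝ)) * n := by
      rw [← Real.rpow_add_one hn'.ne']
      simp only [Ll.qq, zp]; field_simp; norm_num
    rw [trace_im F hn (herm_iff.1 g1) h0, show n * (η * (st z.1 (zp η)).im) -
      η * (msc (zp η)).im * n = n * η * ((st z.1 (zp η)).im - (msc (zp η)).im) by ring, abs_mul,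
      abs_of_pos (mul_pos hn' h0)]
    exact h3.trans (h5.le.trans (mul_le_mul_of_nonneg_right e2 hn'.le))

theorem specStmt : SpecStmt := (rmtGlue feApi).1
theorem isoStmt : IsoStmt := (rmtGlue feApi).2.1
theorem trStmt : TrStmt := (rmtGlue feApi).2.2

end Crest.Agent.T157.Da

end
end

-- ▼ part T157/DaPlant_44
section

/-!
# Row 157, part C (helper44): `Da.PlantC`
-/

set_option autoImplicit false

noncomputable section

namespace Crest.Agent.T157.Da

open MeasureTheory ProbabilityTheory Matrix Filter Set Topology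
open Crest.Agent.T157.E Crest.Agent.T157.Eig Crest.Agent.T157.Cond
open Crest.Agent.T157.Tap (V Mx GOE plW avg)

namespace Plant44

variable {n : ℕ}

lemma plW_neg (W : Mx n) (σ : V n) : plW 1 (plW (-1) W σ) σ = W := by
  rw [plW, plW, neg_div, neg_smul, neg_add_cancel_right]

lemma plW_neg' (W : Mx n) (σ : V n) : plW (-1) (plW 1 W σ) σ = W := by
  rw [plW, plW, neg_div, neg_smul, add_neg_cancel_right]

/-- quantitative transfer for arbitrary sets -/
theorem transfer_set (A : Cube n → Set (Mx n × V n)) {δ ε η : ℝ} (hε : 0 < ε) (hη : 0 < η)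
    (h : ∀ σ : Cube n, (PP n).real {z | (plW 1 z.1 (sv σ), z.2) ∈ A σ} ≤ δ) :
    (GOE n).real {W | ε ≤ mean (ising W 0) fun σ => (gv (Fin n)).real {ξ | (W, ξ) ∈ A σ}} ≤
      (GOE n).real {W | Pl.LRW n 1 W < η} + δ / (ε * η) := by
  set N : Cube n → Set (Mx n × V n) := fun σ =>
    toMeasurable (PP n) {z | (plW 1 z.1 (sv σ), z.2) ∈ A σ} with hN
  have hNm : ∀ σ, MeasurableSet (N σ) := fun σ => measurableSet_toMeasurable _ _
  set F : Cube n → Mx n → ℝ := fun σ W =>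
    (gv (Fin n)).real {ξ | (plW (-1) W (sv σ), ξ) ∈ N σ} with hF
  have hG : ∀ σ, Measurable fun W : Mx n => gv (Fin n) {ξ | (W, ξ) ∈ N σ} := fun σ =>
    measurable_measure_prodMk_left (hNm σ)
  have hm : ∀ σ, Measurable (F σ) := fun σ =>
    (hG σ).ennreal_toReal.comp (f := fun W => plW (-1) W (sv σ)) (by unfold plW; fun_prop)
  have e : ∀ σ (W : Mx n), F σ (W + ((1 : ℝ) / n) • vecMulVec (sv σ) (sv σ)) =
      (gv (Fin n)).real {ξ | (W, ξ) ∈ N σ} := fun σ W => by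
    have := plW_neg' W (sv σ)
    simp only [hF]
    rw [show plW (-1) (W + ((1 : ℝ) / n) • vecMulVec (sv σ) (sv σ)) (sv σ) = W from this]
  have key := Pl.transferW_mean 1 hm (fun _ _ => measureReal_nonneg) (fun σ => by
    simp only [e]
    exact (integrable_const 1).mono' (hG σ).ennreal_toReal.aestronglyMeasurable
      (.of_forall fun W => by
        rw [Real.norm_of_nonneg measureReal_nonneg]; exact measureReal_le_one)) hε hη
  simp only [e, one_smul] at key
  refine le_trans (measureReal_mono (s₂ := {W | ε ≤ mean (ising W 0) fun σ => F σ W})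
    fun W hW => ?_) (key.trans
    (add_le_add le_rfl (div_le_div_of_nonneg_right ?_ (mul_pos hε hη).le)))
  · refine le_trans (show ε ≤ _ from hW) ?_
    refine Finset.sum_le_sum fun σ _ => mul_le_mul_of_nonneg_left
      (measureReal_mono fun ξ hξ => subset_toMeasurable _ _ ?_)
      (div_nonneg (Real.exp_pos _).le (Pl.wt_ising W 0).pos.le)
    simpa only [mem_ofPred_eq, plW_neg] using hξ
  · rw [div_le_iff₀ (by positivity), ← Pl.card_cube, mul_comm, ← nsmul_eq_mul,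
      ← Finset.card_univ, ← Finset.sum_const]
    refine Finset.sum_le_sum fun σ _ => le_of_eq_of_le ?_ (h σ)
    rw [Measure.real, ← measure_toMeasurable, Measure.prod_apply (hNm σ), ← integral_toReal
      (measurable_measure_prodMk_left (hNm σ)).aemeasurable (.of_forall fun _ => measure_lt_top _ _)]
    rfl

end Plant44

theorem plantC : PlantC := by
  intro A c hc h
  refine ⟨c / 2, half_pos hc, ?_⟩
  have h1 := Pl.tendsto_LRW_lt_rpow (β := 1) zero_le_one le_rfl (a := 1 / 4) (c := c)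
    (by norm_num) hc
  have t1 : ∀ s > (0 : ℝ), Tendsto (fun n : ℕ => (n : ℝ) ^ s) atTop atTop := fun s hs =>
    (tendsto_rpow_atTop hs).comp tendsto_natCast_atTop_atTop
  have h2 : Tendsto (fun n : ℕ => Real.exp (-(1 / 2) * (n : ℝ) ^ c)) atTop (𝓝 0) :=
    Real.tendsto_exp_atBot.comp ((t1 c hc).const_mul_atTop_of_neg (by norm_num))
  refine Top.whp_of_real_le ((h1.add h2).trans_eq (by simp)) ?_
  filter_upwards [h, (t1 _ (half_pos hc)).eventually_ge_atTop 4] with n hn h4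
  have e : (n : ℝ) ^ c = (n : ℝ) ^ (c / 2) * (n : ℝ) ^ (c / 2) := by
    rw [← Real.rpow_add' (Nat.cast_nonneg n) (by linarith), add_halves]
  refine le_trans (measureReal_mono fun W hW => ?_)
    ((Plant44.transfer_set (A n) (Real.exp_pos (-(1 / 4 * (n : ℝ) ^ c)))
      (Real.exp_pos (-(1 / 4 * (n : ℝ) ^ c))) (δ := Real.exp (-(n : ℝ) ^ c))
      fun σ => ENNReal.toReal_le_of_le_ofReal (Real.exp_pos _).le (hn σ)).trans_eq ?_)
  · refine le_trans ?_ (not_le.1 hW).le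
    exact Real.exp_le_exp.2 (by rw [e]; nlinarith)
  · rw [← Real.exp_add, ← Real.exp_sub]
    congr 2
    ring

end Crest.Agent.T157.Da

end
end

-- ▼ part T157/DaRep_82
section

/-!
# Row 157, part C (helper82): the product chain driven by independent uniform variables
-/

set_option autoImplicit false

noncomputable section

namespace Crest.Agent.T157.Da

open MeasureTheory Matrix Function Real Set
open Crest.ProbabilityR.SpinGlassDynamics (spin)
open Crest.Agent.T157.E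
open Crest.Agent.T157.Tap (V Mx)
open Crest.Agent.T157.Rec hiding fl
open Crest.Agent.T157.Chain22 (sg sg_zero hasDerivAt_sg)
open Gr

namespace Rep82

instance : IsProbabilityMeasure unif := ⟨by simp [unif]⟩

theorem int_lt {p : ℝ} (h0 : 0 ≤ p) (h1 : p ≤ 1) : ∫ u, (if u < p then 1 else 0 : ℝ) ∂unif = p := by
  have e : Iio p ∩ Ioc 0 1 = Ioo 0 p := by
    ext u; exact ⟨fun h => ⟨h.2.1, h.1⟩, fun h => ⟨h.2, h.1, h.2.le.trans h1⟩⟩
  have := integral_indicator_one (μ := unif) (measurableSet_Iio (a := p))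
  rw [unif, measureReal_restrict_apply measurableSet_Iio, e, volume_real_Ioo_of_le h0, sub_zero] at this
  exact this

theorem integrable_lt (p : ℝ) : Integrable (fun u : ℝ => (if u < p then 1 else 0 : ℝ)) unif :=
  (integrable_const (1 : ℝ)).indicator (measurableSet_Iio (a := p))

/-- one-site kernel -/
def kk (d t : ℝ) (a c : Bool) : ℝ := (1 + spin c * ((1 - d) * spin a + d * t)) / 2

theorem site {d t : ℝ} (h0 : 0 ≤ d) (ht : t ≤ 1) (a c : Bool) (u : ℝ) :
    (if (if u < d * (1 + t) / 2 then true else if u < d then false else a) = c then 1 else 0 : ℝ) =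
      spin c * (if u < d * (1 + t) / 2 then 1 else 0) +
        (-(spin c * (1 + spin a)) / 2 * (if u < d then 1 else 0) + (1 + spin c * spin a) / 2) := by
  have : d * (1 + t) / 2 ≤ d := by nlinarith
  by_cases h1 : u < d * (1 + t) / 2
  · have h2 := h1.trans_le this
    cases a <;> cases c <;> simp [h1, h2, spin]
  · by_cases h2 : u < d <;> cases a <;> cases c <;> simp [h1, h2, spin]

variable {n : ℕ}

theorem int_upd {d : ℝ} (h0 : 0 ≤ d) (h1 : d ≤ 1) (b : V n) (F : Cube n → ℝ) (x : Cube n) :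
    ∫ u, F (upd d x b u) ∂(Measure.pi fun _ : Fin n => unif) =
      ∑ z, F z * ∏ i, kk d (tanh (b i)) (x i) (z i) := by
  have e : ∀ u, F (upd d x b u) = ∑ z, F z * ∏ i, (if upd d x b u i = z i then 1 else 0 : ℝ) := fun u => by
    simp only [Finset.prod_boole, Finset.mem_univ, forall_const, ← funext_iff, mul_ite, mul_one,
      mul_zero, Finset.sum_ite_eq, if_true]
  have ht := fun i => abs_lt.1 (abs_tanh_lt_one (b i))
  have hi : ∀ p q α β γ : ℝ, Integrable (fun u : ℝ => α * (if u < p then 1 else 0) +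
      (β * (if u < q then 1 else 0) + γ)) unif := fun p q α β γ =>
    ((integrable_lt p).const_mul α).add (((integrable_lt q).const_mul β).add (integrable_const γ))
  have e2 : ∀ (u : V n) (z : Cube n) i, (if upd d x b u i = z i then 1 else 0 : ℝ) = _ :=
    fun u z i => site h0 (ht i).2.le (x i) (z i) (u i)
  simp only [e, e2]
  rw [integral_finsetSum _ fun z _ => (Integrable.fintype_prod fun i => hi _ _ _ _ _).const_mul _]
  refine Finset.sum_congr rfl fun z _ => ?_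
  rw [integral_const_mul, integral_fintype_prod_eq_prod (fun i (u : ℝ) =>
    spin (z i) * (if u < d * (1 + tanh (b i)) / 2 then 1 else 0) +
      (-(spin (z i) * (1 + spin (x i))) / 2 * (if u < d then 1 else 0) +
        (1 + spin (z i) * spin (x i)) / 2))]
  congr 1
  refine Finset.prod_congr rfl fun i _ => ?_
  have hj : ∀ q β γ : ℝ, Integrable (fun u : ℝ => β * (if u < q then 1 else 0) + γ) unif :=
    fun q β γ => ((integrable_lt q).const_mul β).add (integrable_const γ)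
  rw [integral_add ((integrable_lt _).const_mul _) (hj _ _ _), integral_add ((integrable_lt _).const_mul _) (integrable_const _),
    integral_const_mul, integral_const_mul, int_lt h0 h1,
    int_lt (by nlinarith [(ht i).1]) (by nlinarith [(ht i).2]), integral_const, probReal_univ, kk]
  simp only [smul_eq_mul]; ring

theorem grad_prod (g : Fin n → Bool → ℝ) (x : Cube n) (j : Fin n) : grad (fun x => ∏ i, g i (x i)) x j =
    (∏ i ∈ Finset.univ.erase j, g i (x i)) * ((g j true - g j false) / 2) := by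
  have e : ∀ c, ∏ i, g i (update x j c i) = g j c * ∏ i ∈ Finset.univ.erase j, g i (x i) := fun c => by
    rw [← Finset.mul_prod_erase _ _ (Finset.mem_univ j), update_self]
    congr 1
    exact Finset.prod_congr rfl fun i hi => by rw [update_of_ne (Finset.ne_of_mem_erase hi)]
  rw [grad, SL.incr, e, e]; ring

theorem deriv_K (b : V n) (F : Cube n → ℝ) (x : Cube n) (s : ℝ) :
    HasDerivAt (fun s => ∑ z, F z * ∏ i, kk (1 - exp (-s)) (tanh (b i)) (x i) (z i))
      (gen (ising 0 b) (fun x => ∑ z, F z * ∏ i, kk (1 - exp (-s)) (tanh (b i)) (x i) (z i)) x) s := by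
  have d : ∀ (z : Cube n) i, HasDerivAt (fun s => kk (1 - exp (-s)) (tanh (b i)) (x i) (z i))
      (spin (z i) * (exp (-s) * (tanh (b i) - spin (x i))) / 2) s := fun z i => by
    have h := (hasDerivAt_neg s).exp.const_sub 1
    exact ((((h.const_sub 1).mul_const (spin (x i))).add (h.mul_const (tanh (b i)))).const_mul
      (spin (z i)) |>.const_add 1 |>.div_const 2).congr_deriv (by ring)
  refine (HasDerivAt.fun_sum fun z _ => (HasDerivAt.fun_finsetProd (u := Finset.univ)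
    fun i _ => d z i).const_mul (F z)).congr_deriv ?_
  rw [gen_ising transpose_zero]
  simp only [grad_sum, grad_const_mul, Pi.smul_apply, smul_eq_mul, Finset.mul_sum]
  rw [Finset.sum_comm]
  refine Finset.sum_congr rfl fun i _ => Finset.sum_congr rfl fun z _ => ?_
  have e : kk (1 - exp (-s)) (tanh (b i)) true (z i) - kk (1 - exp (-s)) (tanh (b i)) false (z i) =
      spin (z i) * exp (-s) := by
    rw [kk, kk, show spin true = 1 from rfl, show spin false = -1 from rfl]; ring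
  rw [grad_prod fun i a => kk (1 - exp (-s)) (tanh (b i)) a (z i), e]
  simp only [tt, loc, sv, zero_mulVec, Pi.zero_apply, Matrix.zero_apply, zero_mul, sub_zero, zero_add]
  ring

end Rep82

open Rep82 in
theorem repStmt : RepStmt := by
  intro n h b F x hn hh
  have hw := ising_pos (0 : Mx n) b
  rw [int_upd (sub_nonneg.2 (exp_le_one_iff.2 (neg_nonpos.2 hh))) (sub_le_self _ (exp_pos _).le)]
  set K : ℝ → Cube n → ℝ := fun s x => ∑ z, F z * ∏ i, kk (1 - exp (-s)) (tanh (b i)) (x i) (z i)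
  have d : ∀ u, HasDerivAt (fun u => sg (ising 0 b) u (K (h - u)) x) 0 u := fun u => by
    refine (hasDerivAt_sg_fam hn hw (F := fun u => K (h - u)) (fun z =>
      (deriv_K b F z (h - u)).comp u ((hasDerivAt_id' u).const_sub h)) x).congr_deriv ?_
    rw [← sg_const hn hw u 0 x]
    congr 1; ext z; simp [K]
  have := is_const_of_deriv_eq_zero (fun u => (d u).differentiableAt) (fun u => (d u).deriv) h 0
  have e : K 0 = F := by
    ext y
    have : ∀ a c, ∀ t : ℝ, kk (1 - exp (-0)) t a c = if a = c then 1 else 0 := fun a c t => by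
      cases a <;> cases c <;> simp [kk, spin]
    simp only [K, this, Finset.prod_boole, Finset.mem_univ, forall_const, ← funext_iff, mul_ite,
      mul_one, mul_zero, Finset.sum_ite_eq, if_true]
  rwa [sub_self, sub_zero, sg_zero hn hw, e] at this

end Crest.Agent.T157.Da

end
end

-- ▼ part T157/DaSE_30
section

/-!
# Row 157, part C (helper30): state evolution of the parallel chain, `seGlue : SEGlue`
-/

set_option autoImplicit false

noncomputable section

namespace Crest.Agent.T157.Da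

namespace Se

open MeasureTheory ProbabilityTheory Matrix Filter Set Topology
open Crest.ProbabilityR.SpinGlassDynamics
open Crest.Agent.T157.E Crest.Agent.T157.Eig
open Crest.Agent.T157.Tap (V Mx GOE plW avg)
open Crest.Agent.T157.Top (Whp whp_of_real_le whp_of_eventually)
open Crest.Agent.T157.Chain22 (sg)
open Crest.Agent.T157.Pl (one)
open Crest.Agent.T157.Da.Gf (pw pj)

/-- Markov inequality on slices -/
theorem whp_slice {X Y : ℕ → Type*} [∀ n, MeasurableSpace (X n)] [∀ n, MeasurableSpace (Y n)]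
    {μ : ∀ n, Measure (X n)} {ν : ∀ n, Measure (Y n)} [∀ n, IsProbabilityMeasure (μ n)]
    [∀ n, IsProbabilityMeasure (ν n)] {P : ∀ n, X n × Y n → Prop}
    (hm : ∀ n, MeasurableSet {z | ¬ P n z}) (h : Whp (fun n => (μ n).prod (ν n)) P) {ε : ℝ}
    (hε : 0 < ε) : Whp ν fun n y => (μ n).real {x | ¬ P n (x, y)} ≤ ε := by
  have h0 : ENNReal.ofReal ε ≠ 0 := by simpa using hε
  have h1 : Tendsto (fun n => (μ n).prod (ν n) {z | ¬ P n z} / ENNReal.ofReal ε) atTop (𝓝 0) := by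
    simpa using ENNReal.Tendsto.div_const h (Or.inr h0)
  refine tendsto_of_tendsto_of_tendsto_of_le_of_le tendsto_const_nhds h1 (fun _ => zero_le)
    fun n => ?_
  simp only
  rw [Measure.prod_apply_symm (hm n)]
  refine le_trans (measure_mono fun y hy => ?_) (meas_ge_le_lintegral_div
    (measurable_measure_prodMk_right (hm n)).aemeasurable h0 ENNReal.ofReal_ne_top)
  simp only [mem_ofPred_eq, not_le] at hy ⊢
  exact ENNReal.ofReal_le_of_le_toReal hy.le

theorem abs_integral_sub_le {X : Type*} [MeasurableSpace X] {μ : Measure X}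
    [IsProbabilityMeasure μ] {f : X → ℝ} (hf : Integrable f μ) (hm : Measurable f) {c δ M : ℝ}
    (hδ : 0 ≤ δ) (hM : ∀ x, |f x - c| ≤ M) :
    |∫ x, f x ∂μ - c| ≤ δ + M * μ.real {x | ¬ |f x - c| ≤ δ} := by
  have hs : MeasurableSet {x | ¬ |f x - c| ≤ δ} :=
    (measurableSet_le (hm.sub_const c).abs measurable_const).compl
  have e : ∫ x, f x ∂μ - c = ∫ x, (f x - c) ∂μ := by
    rw [integral_sub hf (integrable_const c)]; simp
  have hi := (integrable_const (μ := μ) M).indicator hs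
  have h := norm_integral_le_of_norm_le (μ := μ) (f := fun x => f x - c)
    ((integrable_const δ).add hi) (.of_forall fun x => by
      by_cases hx : |f x - c| ≤ δ
      · simp [hx]
      · rw [Pi.add_apply, indicator_of_mem (by exact hx)]
        exact (hM x).trans (le_add_of_nonneg_left hδ))
  simp only [Pi.add_apply] at h
  rw [integral_add (integrable_const δ) hi, integral_indicator_const _ hs] at h
  rw [e]
  simpa [mul_comm] using h

variable {n : ℕ}

lemma par_sum (W : Mx n) (h : ℝ) (K : ℕ) (c : V n) (F : Fin n → Cube n → ℝ) (z : Cube n) :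
    (par W h)^[K] (fun x => ∑ j, c j * F j x) z = ∑ j, c j * (par W h)^[K] (F j) z := by
  induction K generalizing F with
  | zero => rfl
  | succ K ih =>
    simp only [Function.iterate_succ_apply]
    rw [← ih]
    refine congrArg (fun g => (par W h)^[K] g z) (funext fun x => ?_)
    simp only [par, sg, Finset.mul_sum]
    rw [Finset.sum_comm]
    exact Finset.sum_congr rfl fun _ _ => Finset.sum_congr rfl fun _ _ => by ring

lemma par_dot (W : Mx n) (h : ℝ) (K : ℕ) (c : V n) (z : Cube n) :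
    (par W h)^[K] (fun x => c ⬝ᵥ sv x) z = c ⬝ᵥ Yd W h K z :=
  par_sum W h K c (fun j x => sv x j) z

lemma sv_upd (d : ℝ) (x : Cube n) (b u : V n) (i : Fin n) :
    sv (upd d x b u) i = ph d (sv x i) (b i) (u i) := by
  unfold sv upd ph
  split_ifs <;> simp [spin]

lemma measurable_upd {X : Type*} [MeasurableSpace X] (d : ℝ) {x : X → Cube n} {b u : X → V n}
    (hx : Measurable x) (hb : Measurable b) (hu : Measurable u) :
    Measurable fun z => upd d (x z) (b z) (u z) := by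
  refine measurable_pi_lambda _ fun i => ?_
  have ht := Tap.SE.measurable_tanh.comp ((measurable_pi_apply i).comp hb)
  have hu' := (measurable_pi_apply i).comp hu
  exact Measurable.ite (measurableSet_lt hu' (((ht.const_add 1).const_mul d).div_const 2))
    measurable_const (Measurable.ite (measurableSet_lt hu' measurable_const) measurable_const
      ((measurable_pi_apply i).comp hx))

lemma plW_mulVec (G : Mx n) (x : V n) : plW 1 G 1 *ᵥ x = G *ᵥ x + avg x • (1 : V n) := by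
  rw [plW, Matrix.add_mulVec, Matrix.smul_mulVec, Cond.vmv_mulVec, smul_smul, avg]
  congr 2
  simp [dotProduct, div_eq_inv_mul]

lemma integrable_fin {X : Type*} [MeasurableSpace X] {μ : Measure X} [IsFiniteMeasure μ]
    {x y : X → Cube n} (hx : Measurable x) (hy : Measurable y) (Φ : Cube n → Cube n → ℝ) :
    Integrable (fun z => Φ (x z) (y z)) μ :=
  (Integrable.of_finite (μ := μ.map fun z => (x z, y z))
    (f := fun p : Cube n × Cube n => Φ p.1 p.2)).comp_measurable (hx.prodMk hy)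

variable {Good : ∀ (D : Type) [MeasurableSpace D], Measure D → Set (RV D) → Prop}

/-- two chains driven by site variables, with joint law `L` for a fixed matrix -/
def St (Good : ∀ (D : Type) [MeasurableSpace D], Measure D → Set (RV D) → Prop)
    (L : ∀ n, Mx n → (Cube n → Cube n → ℝ) → ℝ) : Prop :=
  ∃ (D : Type) (_ : MeasurableSpace D) (μ : Measure D) (l : Set (RV D))
    (X Y : ∀ n, Sp D n → Cube n), Good D μ l ∧ (fun _ _ => 1) ∈ l ∧ (fun n z => sv (X n z)) ∈ l ∧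
      (fun n z => sv (Y n z)) ∈ l ∧ (∀ n, Measurable (X n)) ∧ (∀ n, Measurable (Y n)) ∧
      ∀ n > 0, ∀ G Φ, ∫ ω, Φ (X n (ω, G)) (Y n (ω, G)) ∂pw μ n = L n G Φ

variable {L : ∀ n, Mx n → (Cube n → Cube n → ℝ) → ℝ}

theorem St.init (hG : Gfom Good) : St Good fun n _ Φ => Φ (one n) (one n) := by
  have e : (fun n (_ : Sp Unit n) => sv (one n)) = fun _ _ => 1 := by
    funext n z i; simp [sv, Pl.one, spin]
  exact ⟨Unit, _, _, _, fun n _ => one n, fun n _ => one n, hG.init, rfl, e, e,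
    fun _ => measurable_const, fun _ => measurable_const, fun n _ G Φ => by simp⟩

theorem St.swap (h : St Good L) : St Good fun n G Φ => L n G fun x y => Φ y x := by
  obtain ⟨D, _, μ, l, X, Y, h1, h2, h3, h4, h5, h6, h7⟩ := h
  exact ⟨D, _, μ, l, Y, X, h1, h2, h4, h3, h6, h5, fun n hn G Φ => h7 n hn G fun x y => Φ y x⟩

theorem St.dup (h : St Good L) : St Good fun n G Φ => L n G fun x _ => Φ x x := by
  obtain ⟨D, _, μ, l, X, Y, h1, h2, h3, _, h5, _, h7⟩ := h
  exact ⟨D, _, μ, l, X, X, h1, h2, h3, h3, h5, h5, fun n hn G Φ => h7 n hn G fun x _ => Φ x x⟩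

theorem St.step (hG : Gfom Good) (hR : RepStmt) {h : ℝ} (h0 : 0 ≤ h) (hs : St Good L) :
    St Good fun n G Φ => L n G fun x y => par (plW 1 G 1) h (fun x' => Φ x' y) x := by
  obtain ⟨D, _, μ, l, X, Y, h1, h2, h3, h4, h5, h6, h7⟩ := hs
  have := hG.prob h1
  have g1 := hG.mul h1 _ h3
  have g2 := hG.lin g1 _ (mem_insert _ _) _ (mem_insert_of_mem _ h3) _ (mem_insert_of_mem _ h2)
  have mb := hG.meas g2 _ (mem_insert _ _)
  have g3 := hG.noise g2 _ (mem_insert_of_mem _ (mem_insert_of_mem _ h3)) _ (mem_insert _ _)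
    (1 - Real.exp (-h))
  have mp := Gf.measurable_pj (measurable_fst : Measurable (Prod.fst : D × ℝ → D))
  let X' : ∀ n, Sp (D × ℝ) n → Cube n := fun n z => upd (1 - Real.exp (-h)) (X n (pj Prod.fst n z))
    (z.2 *ᵥ sv (X n (pj Prod.fst n z)) + avg (sv (X n (pj Prod.fst n z))) • 1) fun i => (z.1 i).2
  have mX' : ∀ n, Measurable (X' n) := fun n =>
    measurable_upd _ ((h5 n).comp (mp n)) ((mb n).comp (mp n)) (by fun_prop)
  have mY' : ∀ n, Measurable fun z : Sp (D × ℝ) n => Y n (pj Prod.fst n z) := fun n =>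
    (h6 n).comp (mp n)
  refine ⟨D × ℝ, _, _, _, X', fun n z => Y n (pj Prod.fst n z), g3,
    mem_insert_of_mem _ ⟨_, mem_insert_of_mem _ (mem_insert_of_mem _ h2), rfl⟩,
    Or.inl (funext fun n => funext fun z => funext fun i => sv_upd _ _ _ _ i),
    mem_insert_of_mem _ ⟨_, mem_insert_of_mem _ (mem_insert_of_mem _ h4), rfl⟩, mX', mY',
    fun n hn G Φ => ?_⟩
  have hz := (measurePreserving_arrowProdEquivProdArrow D ℝ (Fin n) (fun _ => μ)
    fun _ => unif).symm
  have m1 : Measurable fun p : (Fin n → D) × (Fin n → ℝ) =>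
      (((MeasurableEquiv.arrowProdEquivProdArrow D ℝ (Fin n)).symm p, G) : Sp (D × ℝ) n) :=
    hz.measurable.prodMk measurable_const
  beta_reduce
  rw [← h7 n hn, ← hz.integral_comp' (g := fun ω => Φ (X' n (ω, G)) (Y n (pj Prod.fst n (ω, G))))]
  refine (integral_prod _ (integrable_fin ((mX' n).comp m1) ((mY' n).comp m1) Φ)).trans
    (integral_congr_ae (.of_forall fun ω => ?_))
  simp only [par]
  rw [hR n h _ _ _ hn h0, plW_mulVec]
  rfl

theorem St.steps (hG : Gfom Good) (hR : RepStmt) {h : ℝ} (h0 : 0 ≤ h) (hs : St Good L) (K : ℕ) :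
    St Good fun n G Φ => L n G fun x y => (par (plW 1 G 1) h)^[K] (fun x' => Φ x' y) x := by
  induction K with
  | zero => exact hs
  | succ K ih => exact ih.step hG hR h0

theorem pow_mul (hG : Gfom Good) {D : Type} [MeasurableSpace D] {μ : Measure D} {l : Set (RV D)}
    (h : Good D μ l) {y : RV D} (hy : y ∈ l) (p : ℕ) :
    ∃ l', l ⊆ l' ∧ Good D μ l' ∧ (fun n z => z.2 ^ p *ᵥ y n z) ∈ l' := by
  induction p with
  | zero => exact ⟨l, subset_rfl, h, by simpa using hy⟩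
  | succ p ih =>
    obtain ⟨l', h1, h2, h3⟩ := ih
    refine ⟨_, h1.trans (subset_insert _ _), hG.mul h2 _ h3, Or.inl ?_⟩
    funext n z
    rw [pow_succ', Matrix.mulVec_mulVec]

theorem St.lim (hG : Gfom Good) (hs : St Good L) (p : ℕ) : ∃ α : ℝ, ∀ δ > (0 : ℝ),
    Whp GOE fun n G => |L n G (fun x y => sv x ⬝ᵥ G ^ p *ᵥ sv y) - α * n| ≤ δ * n := by
  obtain ⟨D, _, μ, l, X, Y, h1, _, h3, h4, h5, h6, h7⟩ := hs
  have := hG.prob h1
  obtain ⟨l', k1, k2, k3⟩ := pow_mul hG h1 h4 p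
  obtain ⟨α, hα⟩ := hG.ip k2 _ (k1 h3) _ k3
  have mf : ∀ n, Measurable fun z : Sp D n => sv (X n z) ⬝ᵥ z.2 ^ p *ᵥ sv (Y n z) := fun n =>
    (hG.meas k2 _ (k1 h3) n).t157_dot (hG.meas k2 _ k3 n)
  refine ⟨α, fun δ hδ => ?_⟩
  have hM : (0 : ℝ) < 3 ^ p + |α| := by positivity
  have h8 := whp_slice (μ := pw μ) (ν := GOE) (fun n => (measurableSet_le
    ((mf n).sub_const _).abs measurable_const).compl) (hα (δ / 2) (half_pos hδ))
    (div_pos (half_pos hδ) hM)
  refine (h8.and Gf.whp_opn).mono ?_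
  filter_upwards [eventually_gt_atTop 0] with n hn G hz
  have hn' : (0 : ℝ) < n := Nat.cast_pos.2 hn
  have m1 : Measurable fun ω : Fin n → D => ((ω, G) : Sp D n) := measurable_prodMk_right
  rw [← h7 n hn]
  refine (abs_integral_sub_le (δ := δ / 2 * n) (M := (3 ^ p + |α|) * n)
    (integrable_fin ((h5 n).comp m1) ((h6 n).comp m1) fun x y => sv x ⬝ᵥ G ^ p *ᵥ sv y)
    ((mf n).comp m1) (by positivity) fun ω => ?_).trans ?_
  · have e : ∀ x y : Cube n, nrm (sv x) * nrm (sv y) = n := fun x y => by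
      rw [nrm, nrm, sv_dot_self, sv_dot_self, Real.mul_self_sqrt hn'.le]
    have b1 := abs_bil_le (G ^ p) (sv (X n (ω, G))) (sv (Y n (ω, G)))
    rw [e] at b1
    have b2 : opn (G ^ p) ≤ 3 ^ p :=
      (opn_pow_le G p).trans (pow_le_pow_left₀ (opn_nonneg G) hz.2 p)
    refine (abs_sub _ _).trans ?_
    rw [abs_mul, Nat.abs_cast, add_mul]
    exact add_le_add_left (b1.trans (mul_le_mul_of_nonneg_right b2 hn'.le)) _
  · have b3 := mul_le_mul_of_nonneg_left hz.1 (mul_pos hM hn').le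
    have e : (3 ^ p + |α|) * n * (δ / 2 / (3 ^ p + |α|)) = δ / 2 * n := by field_simp
    rw [e] at b3
    refine (add_le_add_right b3 _).trans (le_of_eq (by ring))

end Se

open Se in
theorem seGlue : SEGlue := by
  rintro ⟨Good, hG⟩ hR h h0 K0 K1 p
  obtain ⟨α, hα⟩ := (((((St.init hG).steps hG hR h0 K0).dup.steps hG hR h0 K1).swap.steps hG hR h0
    K1).swap).lim hG p
  refine ⟨α, fun δ hδ => (hα δ hδ).imp fun n G hz => ?_⟩
  refine le_of_eq_of_le ?_ hz
  refine congrArg (fun g => |(par (Tap.plW 1 G 1) h)^[K0] g (Pl.one n) - α * n|)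
    (funext fun z => ?_)
  simp only [Matrix.dotProduct_mulVec, par_dot]
  simp only [← Matrix.dotProduct_mulVec, dotProduct_comm (E.sv _), par_dot]
  rw [dotProduct_comm]

end Crest.Agent.T157.Da
end
end

-- ▼ part T157/DaSef_46
section

/-!
# Row 157, part C (helper46): `Da.sefGlue`, `Da.pdlGlue`
-/

set_option autoImplicit false

noncomputable section

namespace Crest.Agent.T157.Da

open MeasureTheory ProbabilityTheory Matrix Filter Set Topology
open Crest.Agent.T157.E Crest.Agent.T157.Eig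
open Crest.Agent.T157.Tap (V Mx GOE plW)
open Crest.Agent.T157.Top (Whp)
open Crest.Agent.T157.Rec (Am)
open Crest.Agent.T157.Pl (one)
open Rot46 Mean46

namespace Sef46

lemma exists_lim {a : ℝ → ℝ} (h : ∀ e > (0 : ℝ), ∀ e' > (0 : ℝ), |a e - a e'| ≤ e + e') :
    ∃ α : ℝ, ∀ e > (0 : ℝ), |a e - α| ≤ e := by
  have hb : ∀ e' > (0 : ℝ), a e' + e' ∈ upperBounds ((fun e => a e - e) '' Ioi 0) := by
    rintro e' he' _ ⟨e, he, rfl⟩
    have := (abs_le.1 (h e he e' he')).2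
    simp only
    linarith
  refine ⟨sSup ((fun e => a e - e) '' Ioi 0), fun e he => ?_⟩
  have h0 : a e - e ∈ (fun e => a e - e) '' Ioi 0 := ⟨e, he, rfl⟩
  have h1 := csSup_le ⟨_, h0⟩ (hb e he)
  have h2 := le_csSup ⟨_, hb e he⟩ h0
  rw [abs_le]; constructor <;> linarith

section conv
variable {Ω : ℕ → Type*} [∀ n, MeasurableSpace (Ω n)] {μ : ∀ n, Measure (Ω n)}
  {P : ∀ n, Ω n → Prop}

lemma vh_whp (h : Vh μ P) : Whp μ P := by
  obtain ⟨c, hc, h⟩ := h
  have t1 : Tendsto (fun n : ℕ => ENNReal.ofReal (Real.exp (-(n : ℝ) ^ c))) atTop (𝓝 0) := by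
    rw [← ENNReal.ofReal_zero]
    exact ENNReal.tendsto_ofReal (Real.tendsto_exp_neg_atTop_nhds_zero.comp
      ((tendsto_rpow_atTop hc).comp tendsto_natCast_atTop_atTop))
  exact tendsto_of_tendsto_of_tendsto_of_le_of_le' tendsto_const_nhds t1
    (.of_forall fun _ => zero_le) h

lemma whp_exists [∀ n, IsProbabilityMeasure (μ n)] (h : Whp μ P) :
    ∀ᶠ n : ℕ in atTop, ∃ z, P n z := by
  filter_upwards [h.eventually (gt_mem_nhds zero_lt_one)] with n hn
  by_contra hc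
  have : {z | ¬ P n z} = univ := eq_univ_of_forall fun z hz => hc ⟨z, hz⟩
  rw [this, measure_univ] at hn
  exact lt_irrefl _ hn

/-- `X n / n` converges in probability -/
def Conv (μ : ∀ n, Measure (Ω n)) (X : ∀ n, Ω n → ℝ) : Prop :=
  ∃ α : ℝ, ∀ δ > (0 : ℝ), Whp μ fun n z => |X n z - α * n| ≤ δ * n

variable {X Y : ∀ n, Ω n → ℝ}

lemma Conv.add (hX : Conv μ X) (hY : Conv μ Y) : Conv μ fun n z => X n z + Y n z := by
  obtain ⟨a, ha⟩ := hX
  obtain ⟨b, hb⟩ := hY
  refine ⟨a + b, fun δ hδ => ((ha _ (half_pos hδ)).and (hb _ (half_pos hδ))).imp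
    fun n z hz => ?_⟩
  have h1 := abs_le.1 hz.1
  have h2 := abs_le.1 hz.2
  rw [abs_le]; constructor <;> linarith

lemma Conv.const_mul (hX : Conv μ X) (c : ℝ) : Conv μ fun n z => c * X n z := by
  obtain ⟨a, ha⟩ := hX
  have hc : 0 < |c| + 1 := by positivity
  refine ⟨c * a, fun δ hδ => (ha _ (div_pos hδ hc)).imp fun n z hz => ?_⟩
  rw [mul_assoc, ← mul_sub, abs_mul]
  calc |c| * |X n z - a * n| ≤ (|c| + 1) * (δ / (|c| + 1) * n) :=
        mul_le_mul (by linarith) hz (abs_nonneg _) hc.le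
    _ = δ * n := by field_simp

lemma conv_zero : Conv μ fun _ _ => 0 :=
  ⟨0, fun δ hδ => Top.whp_of_eventually (.of_forall fun n _ => by simp; positivity)⟩

lemma Conv.sum {ι : Type*} (s : Finset ι) {Z : ι → ∀ n, Ω n → ℝ} (h : ∀ i ∈ s, Conv μ (Z i)) :
    Conv μ fun n z => ∑ i ∈ s, Z i n z := by
  classical
  induction s using Finset.induction_on with
  | empty => simpa using conv_zero
  | insert a s ha ih =>
    simp only [Finset.sum_insert ha]
    exact (h a (Finset.mem_insert_self _ _)).add (ih fun i hi => h i (Finset.mem_insert_of_mem hi))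

lemma Conv.of_approx [∀ n, IsProbabilityMeasure (μ n)]
    (h : ∀ e > (0 : ℝ), ∃ Y, Conv μ Y ∧ Whp μ fun n z => |X n z - Y n z| ≤ e * n) : Conv μ X := by
  have h1 : ∀ e : ℝ, ∃ a : ℝ, 0 < e → Whp μ fun n z => |X n z - a * n| ≤ e * n := fun e => by
    by_cases he : 0 < e
    · obtain ⟨Y, ⟨a, ha⟩, hY⟩ := h _ (half_pos he)
      refine ⟨a, fun _ => ((ha _ (half_pos he)).and hY).imp fun n z hz => ?_⟩
      have h1 := abs_le.1 hz.1
      have h2 := abs_le.1 hz.2
      rw [abs_le]; constructor <;> linarith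
    · exact ⟨0, fun h => absurd h he⟩
  choose a ha using h1
  obtain ⟨α, hα⟩ := exists_lim (a := a) fun e he e' he' => by
    obtain ⟨n, ⟨z, hz⟩, hn⟩ :=
      ((whp_exists ((ha e he).and (ha e' he'))).and (eventually_gt_atTop 0)).exists
    have hn' : (0 : ℝ) < n := by exact_mod_cast hn
    have h1 := abs_le.1 hz.1
    have h2 := abs_le.1 hz.2
    rw [abs_le]
    constructor <;> refine le_of_mul_le_mul_right ?_ hn' <;> linarith
  refine ⟨α, fun δ hδ => (ha _ (half_pos hδ)).imp fun n z hz => ?_⟩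
  have h1 := abs_le.1 hz
  have h2 := abs_le.1 (hα _ (half_pos hδ))
  have hn : (0 : ℝ) ≤ n := Nat.cast_nonneg n
  have h3 := mul_le_mul_of_nonneg_right h2.1 hn
  have h4 := mul_le_mul_of_nonneg_right h2.2 hn
  rw [abs_le]; constructor <;> linarith

end conv

variable {n : ℕ}

lemma whp_fst {P : ∀ n, Mx n → Prop} (h : Whp GOE P) : Whp PP fun n z => P n z.1 :=
  h.comp fun _ => measurePreserving_fst

lemma whp_diag : Whp GOE fun _ G => ∑ i, G i i ^ 2 ≤ 4 := by
  have ha : Tendsto (fun n : ℕ => 2 * Real.exp (-((n : ℝ) / 8))) atTop (𝓝 0) := by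
    have := (Real.tendsto_exp_neg_atTop_nhds_zero.comp
      ((tendsto_natCast_atTop_atTop (R := ℝ)).atTop_div_const (r := 8) (by norm_num))).const_mul 2
    simpa [Function.comp_def] using this
  refine Top.whp_of_real_le ha ?_
  filter_upwards [eventually_gt_atTop 0] with n hn
  have hn' : (0 : ℝ) < n := by exact_mod_cast hn
  have hm : MeasurableSet {G : Mx n | ¬ ∑ i, G i i ^ 2 ≤ 4} :=
    (measurableSet_le (Finset.measurable_sum _ fun i _ =>
      (measurable_id.t157_entry i i).pow_const 2) measurable_const).compl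
  have h1 := Conc.chi_tail (ι := Fin n) Conc.sg1_gauss (fun _ => Conc.sq_entry false) hn'
    (by simp) hn'.le
  rw [show (n : ℝ) ^ 2 / (8 * n) = n / 8 by field_simp, min_self, Fintype.card_fin] at h1
  refine le_trans ?_ h1
  rw [← (Cond.mp_Wmat (n := n)).measureReal_preimage hm.nullMeasurableSet]
  refine ENNReal.toReal_mono (measure_ne_top _ _) (le_trans (measure_mono ?_)
    ((measurePreserving_snd (μ := Crest.ProbabilityR.SpinGlassDynamics.disorderLaw n)
      (ν := gv (Fin n))).measure_preimage_le _))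
  intro p hp
  simp only [mem_preimage, mem_ofPred_eq, not_le] at hp ⊢
  have e : ∑ i, Wmat n p.1 p.2 i i ^ 2 = 2 / n * ∑ i, p.2 i ^ 2 := by
    rw [Finset.mul_sum]
    refine Finset.sum_congr rfl fun i _ => ?_
    simp only [Wmat, Matrix.add_apply, Jmat_diag, diagonal_apply_eq, zero_add, div_pow, mul_pow,
      Real.sq_sqrt hn'.le, Real.sq_sqrt two_pos.le]
    ring
  rw [e, div_mul_eq_mul_div, lt_div_iff₀ hn'] at hp
  exact le_trans (by linarith) (le_abs_self _)

lemma plW_symm {G : Mx n} (hG : Gᵀ = G) : (plW 1 G 1)ᵀ = plW 1 G 1 := by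
  rw [plW, transpose_add, transpose_smul, transpose_vecMulVec, hG]

lemma plW_opn (hn : 0 < n) (G : Mx n) : opn (plW 1 G 1) ≤ opn G + 1 := by
  have hn' : (0 : ℝ) < n := by exact_mod_cast hn
  refine (opn_add_le _ _).trans (add_le_add le_rfl ?_)
  have h := opn_vecMulVec_le (1 : V n) (1 : V n)
  rw [nrm_mul_self] at h
  have e : (1 : V n) ⬝ᵥ (1 : V n) = n := by simp [dotProduct]
  rw [e] at h
  rw [opn_smul, abs_of_pos (by positivity), one_div, inv_mul_le_iff₀ hn', mul_one]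
  exact h

lemma plW_diag (hn : 0 < n) {G : Mx n} (hG : ∑ i, G i i ^ 2 ≤ 4) :
    ∑ i, plW 1 G 1 i i ^ 2 ≤ 16 := by
  have hn1 : (1 : ℝ) ≤ n := by exact_mod_cast hn
  have h1 : ∀ i, plW 1 G 1 i i ^ 2 ≤ 2 * G i i ^ 2 + 2 / n := fun i => by
    have e : plW 1 G 1 i i = G i i + 1 / n := by simp [plW]
    have a1 : (1 : ℝ) / n ≤ 1 := (div_le_one (by positivity)).2 hn1
    have a2 : (0 : ℝ) ≤ 1 / n := by positivity
    have a3 : (2 : ℝ) / n = 2 * (1 / n) := by ring
    rw [e, a3]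
    nlinarith [sq_nonneg (G i i - 1 / n)]
  refine (Finset.sum_le_sum fun i _ => h1 i).trans ?_
  rw [Finset.sum_add_distrib, ← Finset.mul_sum, Finset.sum_const, Finset.card_univ,
    Fintype.card_fin, nsmul_eq_mul, mul_div_cancel₀ _ (by positivity)]
  linarith

lemma Aq_zero (T : ℝ) (z : Mx n × V n) : Aq T 0 z = Am (ising (plW 1 z.1 1) 0) T (one n) := by
  simp [Aq]

lemma spec_ball {G : Mx n} (hn : 0 < n) (hS : Spec G) : Ball G := by
  have hn1 : (1 : ℝ) ≤ n := by exact_mod_cast hn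
  have : e0 n ≤ 1 := Real.rpow_le_one_of_one_le_of_nonpos hn1 (by norm_num)
  exact ⟨hS.symm, hS.top.trans (by linarith)⟩

lemma whp_ball (hS : SpecStmt) : Whp PP fun _ z => Ball z.1 :=
  (vh_whp hS).mono ((eventually_gt_atTop 0).mono fun _ hn _ h => spec_ball hn h)

/-- moments of the matrix against `A_T` converge -/
lemma conv_pow (hS : SpecStmt) (hD : DiscStmt) (hE : SEStmt) {T : ℝ} (hT : 0 ≤ T) (p : ℕ) :
    Conv PP fun _ z => (z.1 ^ p * Aq T 0 z).trace := by
  obtain ⟨C, hC, hD⟩ := hD T hT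
  refine Conv.of_approx fun e he => ?_
  set L : ℝ := 2 * (C * 3 ^ p) / e with hL
  have hL0 : 0 < L := by positivity
  obtain ⟨K, hK⟩ := exists_nat_gt (L ^ 2)
  have hK0 : (0 : ℝ) < K := lt_of_le_of_lt (sq_nonneg _) hK
  have hTK : 0 ≤ T / K := by positivity
  have c1 : ∀ K0 K1, Conv PP fun _ z => br (plW 1 z.1 1) (z.1 ^ p) (T / K) K0 K1 :=
    fun K0 K1 => (hE _ hTK K0 K1 p).imp fun α hα δ hδ => whp_fst (hα δ hδ)
  refine ⟨_, (c1 K K).add ((c1 0 (2 * K)).const_mul (-1)), ?_⟩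
  refine ((whp_ball hS).and (whp_fst whp_diag)).mono ?_
  filter_upwards [eventually_gt_atTop 0,
    tendsto_natCast_atTop_atTop.eventually_ge_atTop ((4 * L) ^ 2)] with n hn hnL z hz
  have hn' : (0 : ℝ) < n := by exact_mod_cast hn
  have h1 := hD n K (plW 1 z.1 1) (z.1 ^ p) hn (by exact_mod_cast hK0) (plW_symm hz.1.1)
    ((plW_opn hn _).trans (by linarith [hz.1.2]))
  rw [Aq_zero, neg_one_mul, ← sub_eq_add_neg]
  refine h1.trans ?_
  have a1 : opn (z.1 ^ p) ≤ 3 ^ p :=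
    (opn_pow_le _ _).trans (pow_le_pow_left₀ (opn_nonneg _) hz.1.2 p)
  have a2 : (n : ℝ) / √K ≤ n / L :=
    div_le_div_of_nonneg_left hn'.le hL0 (Real.le_sqrt_of_sq_le hK.le)
  have a3 : √(∑ i, plW 1 z.1 1 i i ^ 2) ≤ 4 :=
    Real.sqrt_le_iff.2 ⟨by norm_num, (plW_diag hn hz.2).trans (by norm_num)⟩
  have a4 : √(n : ℝ) * 4 ≤ n / L := by
    have b1 : 4 * L ≤ √(n : ℝ) := Real.le_sqrt_of_sq_le hnL
    rw [le_div_iff₀ hL0]
    nlinarith [Real.mul_self_sqrt hn'.le, Real.sqrt_nonneg (n : ℝ)]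
  have a5 : (n : ℝ) / √K + √n * √(∑ i, plW 1 z.1 1 i i ^ 2) ≤ n / L + n / L :=
    add_le_add a2 ((mul_le_mul_of_nonneg_left a3 (Real.sqrt_nonneg _)).trans a4)
  calc C * opn (z.1 ^ p) * (n / √K + √n * √(∑ i, plW 1 z.1 1 i i ^ 2))
      ≤ C * 3 ^ p * (n / L + n / L) := by gcongr
    _ ≤ e * n := by
        rw [hL]; field_simp; linarith

lemma trace_pow_mul {G : Mx n} (hG : Gᵀ = G) (p : ℕ) (A : Mx n) :
    (G ^ p * A).trace = ∑ k ∈ Finset.range n, lam G k ^ p * (vec G k ⬝ᵥ A *ᵥ vec G k) := by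
  have hH : G.IsHermitian := herm_iff.2 hG
  rw [trace_mul_comm, trace_eq_sum_quad hH, Fintype.card_fin]
  refine Finset.sum_congr rfl fun k _ => ?_
  rw [← mulVec_mulVec, pow_mulVec_vec hH, mulVec_smul, dotProduct_smul, smul_eq_mul]

lemma conv_fE (hF : FeApi) (hA : FDStmt) (hS : SpecStmt) (hD : DiscStmt) (hE : SEStmt) {T η : ℝ}
    (hT : 0 ≤ T) (hη : 0 < η) : Conv PP fun _ z => (fE η z.1 * Aq T 0 z).trace := by
  obtain ⟨C, hC, hA⟩ := hA T hT 0 le_rfl
  refine Conv.of_approx fun e he => ?_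
  have hc : Continuous (fl η) := by
    unfold fl
    exact continuous_const.div (by fun_prop) fun l => by positivity
  obtain ⟨P, hP⟩ := exists_polynomial_near_of_continuousOn (-3) 3 (fl η) hc.continuousOn (e / C)
    (by positivity)
  refine ⟨_, Conv.sum (Finset.range (P.natDegree + 1))
    fun p _ => (conv_pow hS hD hE hT p).const_mul (P.coeff p), ?_⟩
  refine (whp_ball hS).mono ((eventually_gt_atTop 0).mono fun n hn z hz => ?_)
  obtain ⟨S, hS⟩ := hA n hn
  have hH : z.1.IsHermitian := herm_iff.2 hz.1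
  have e1 : ∑ p ∈ Finset.range (P.natDegree + 1), P.coeff p * (z.1 ^ p * Aq T 0 z).trace =
      ∑ k ∈ Finset.range n, P.eval (lam z.1 k) * (vec z.1 k ⬝ᵥ Aq T 0 z *ᵥ vec z.1 k) := by
    simp only [trace_pow_mul hz.1, Finset.mul_sum, Polynomial.eval_eq_sum_range, Finset.sum_mul]
    rw [Finset.sum_comm]
    exact Finset.sum_congr rfl fun k _ => Finset.sum_congr rfl fun p _ => by ring
  rw [e1, hF.trace hz.1 hη, ← Finset.sum_sub_distrib]
  refine (Finset.abs_sum_le_sum_abs _ _).trans ?_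
  refine (Finset.sum_le_card_nsmul _ _ e fun k hk => ?_).trans (by simp [mul_comm])
  rw [← sub_mul, abs_mul, abs_sub_comm]
  have a1 := hP (lam z.1 k) (abs_le.1 ((abs_lam_le hH k).trans hz.2))
  have a2 := abs_diag_le hH (hS.bd z hz) (Finset.mem_range.1 hk)
  calc _ ≤ e / C * C := mul_le_mul a1.le a2 (abs_nonneg _) (by positivity)
    _ = e := by field_simp

/-- a very soft vector orthogonal to the planted direction -/
lemma exists_soft {G : Mx n} (hS : Spec G) (he : 0 ≤ e0 n) (h2 : 2 ≤ cnt G (2 - e0 n)) :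
    ∃ u : V n, u ≠ 0 ∧ nrm (tm (plW 1 G 1) *ᵥ u) ≤ e0 n * nrm u := by
  have hH : G.IsHermitian := herm_iff.2 hS.symm
  have hn : 2 ≤ Fintype.card (Fin n) := h2.trans (cnt_le_card _ _)
  have key : ∀ u : V n, Soft G 2 u → (1 : V n) ⬝ᵥ u = 0 →
      nrm (tm (plW 1 G 1) *ᵥ u) ≤ e0 n * nrm u := fun u hu h1 => by
    have e : tm (plW 1 G 1) *ᵥ u = tm G *ᵥ u := by
      rw [tm, tm, sub_mulVec, sub_mulVec, plW, add_mulVec, smul_mulVec (1 / (n : ℝ)), vv_mulVec, h1,
        zero_smul, smul_zero, add_zero]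
    rw [e]
    refine soft_nrm hH hu he fun k hk => ?_
    have a1 := ((lt_cnt_iff hH).1 (hk.trans_le h2)).2
    have a2 := (lam_le_opn hH k).trans hS.top
    rw [abs_le]; constructor <;> linarith
  by_cases h0 : (1 : V n) ⬝ᵥ vec G 0 = 0
  · refine ⟨vec G 0, fun h => ?_, key _ (fun k hk => vec_dot_ne hH (by omega)) h0⟩
    have := vec_dot_self hH (k := 0) (by omega)
    rw [h] at this
    simp at this
  · refine ⟨((1 : V n) ⬝ᵥ vec G 1) • vec G 0 - ((1 : V n) ⬝ᵥ vec G 0) • vec G 1, fun h => h0 ?_,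
      key _ (fun k hk => ?_) ?_⟩
    · have := congrArg (fun u => vec G 1 ⬝ᵥ u) h
      simp only [dotProduct_sub, dotProduct_smul, vec_dot_ne hH one_ne_zero,
        vec_dot_self hH (k := 1) (by omega), smul_eq_mul, dotProduct_zero] at this
      linarith
    · rw [dotProduct_sub, dotProduct_smul, dotProduct_smul, vec_dot_ne hH (by omega),
        vec_dot_ne hH (by omega), smul_zero, smul_zero, sub_zero]
    · rw [dotProduct_sub, dotProduct_smul, dotProduct_smul, smul_eq_mul, smul_eq_mul]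
      ring

end Sef46

open Sef46

/-- **the centre converges** -/
theorem sefGlue : SEFGlue := by
  intro hF hA hS hTr hD hE T hT η0 h0
  obtain ⟨α, hα⟩ := conv_fE hF hA hS hD hE hT h0.1
  obtain ⟨β, hβ, hb⟩ := hTr η0 h0
  refine ⟨α / β, fun δ hδ => ?_⟩
  have hη := h0.1
  set d : ℝ := δ * (η0 * √η0) / (|α / β| + 1) with hd
  have hd0 : 0 < d := by
    have := Real.sqrt_pos.2 hη
    positivity
  refine ((hα d hd0).and (hb d hd0)).imp fun n z hz => ?_
  have e : dev η0 (α / β) (Aq T 0 z) z.1 = ((fE η0 z.1 * Aq T 0 z).trace - α * n) -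
      α / β * ((fE η0 z.1).trace - β * n) := by
    rw [dev, Matrix.mul_sub, trace_sub, Matrix.mul_smul, Matrix.mul_one, trace_smul, smul_eq_mul]
    field_simp
    ring
  rw [e]
  refine (abs_sub _ _).trans ?_
  rw [abs_mul]
  calc _ ≤ d * n + |α / β| * (d * n) :=
        add_le_add hz.1 (mul_le_mul_of_nonneg_left hz.2 (abs_nonneg _))
    _ = δ * Nb n η0 := by
        rw [hd, Nb]; field_simp; ring

/-- **(DL) in the planted model** -/
theorem pdlGlue : PDLGlue := by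
  intro hS hP hE T hT
  have h1 : ∀ ε : ℝ, ∃ a : ℝ, 0 < ε → ∃ η > (0 : ℝ),
      Vh PP fun _ z => DAev (plW 1 z.1 1) (Aq T 0 z) ε η a := fun ε => by
    by_cases hε : 0 < ε
    · obtain ⟨δ, hδ, ηb, hb, h⟩ := hP T hT 0 le_rfl ε hε
      obtain ⟨η, hη, h⟩ := h ηb ⟨hb.1, le_rfl⟩
      obtain ⟨a, ha⟩ := hE T hT ηb hb
      exact ⟨a, fun _ => ⟨η, hη, h (fun _ => a) (ha δ hδ)⟩⟩
    · exact ⟨0, fun h => absurd h hε⟩
  choose a ha using h1
  obtain ⟨α, hα⟩ := exists_lim (a := a) fun e he e' he' => by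
    obtain ⟨η, hη, h⟩ := ha e he
    obtain ⟨η', hη', h'⟩ := ha e' he'
    obtain ⟨n, ⟨z, hz, hz1, hz2⟩, hn, k1, k2, k3⟩ :=
      ((whp_exists ((vh_whp hS).and ((vh_whp h).and (vh_whp h')))).and
        ((eventually_ge_atTop 1).and ((Mean46.ev_small (a := 13 / 20) (by norm_num) hη).and
          ((Mean46.ev_small (a := 13 / 20) (by norm_num) hη').and
            (Rot46.ev_le 128 (a := 1 - 3 / 2 * (13 / 20)) (by norm_num)))))).exists
    have hn1 : (1 : ℝ) ≤ n := by exact_mod_cast hn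
    have he0 : 0 ≤ e0 n := Real.rpow_nonneg (by positivity) _
    have hlo := hz.lo (e0 n) ⟨le_rfl, Real.rpow_le_one_of_one_le_of_nonpos hn1 (by norm_num)⟩
    rw [e0, Rot46.Nb_rpow hn, ← e0] at hlo
    obtain ⟨u, hu0, hu⟩ := exists_soft hz he0 (by
      have : (2 : ℝ) ≤ cnt z.1 (2 - e0 n) := by linarith
      exact_mod_cast this)
    have a1 := hz1 u u hu (hu.trans (mul_le_mul_of_nonneg_right k1 (nrm_nonneg u)))
    have a2 := hz2 u u hu (hu.trans (mul_le_mul_of_nonneg_right k2 (nrm_nonneg u)))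
    rw [nrm_mul_self, abs_le] at a1 a2
    rw [abs_le]
    constructor <;> refine le_of_mul_le_mul_right ?_ (dot_self_pos hu0) <;> linarith
  refine ⟨α, fun ε hε => ?_⟩
  obtain ⟨η, hη, h⟩ := ha _ (half_pos hε)
  refine ⟨η, hη, h.mono (.of_forall fun n z hz u x hu hx => ?_)⟩
  have a1 := hz u x hu hx
  have a2 := mul_le_mul (hα _ (half_pos hε)) (abs_dot_le x u) (abs_nonneg _) (half_pos hε).le
  rw [← abs_mul] at a2
  have e : x ⬝ᵥ Aq T 0 z *ᵥ u - α * (x ⬝ᵥ u) =
      (x ⬝ᵥ Aq T 0 z *ᵥ u - a (ε / 2) * (x ⬝ᵥ u)) + (a (ε / 2) - α) * (x ⬝ᵥ u) := by ring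
  rw [e]
  refine (abs_add_le _ _).trans ?_
  linarith

end Crest.Agent.T157.Da

end
end

-- ▼ part T157/DaVh_82
section

/-!
# Row 157, part C (helper82): calculus of `Vh`, small consequences of `Spec` and `FD`
-/

set_option autoImplicit false

noncomputable section

namespace Crest.Agent.T157.Da

open MeasureTheory Matrix Filter Set Real
open Crest.Agent.T157.E Crest.Agent.T157.Eig
open Crest.Agent.T157.Tap (V Mx)
open Crest.Agent.T157.Top (Whp)

theorem ev_exp (K : ℝ) {a c : ℝ} (ha : 0 < a) (hc : 0 < c) :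
    ∀ᶠ n : ℕ in atTop, K * exp (-(a * (n : ℝ) ^ c)) ≤ exp (-(n : ℝ) ^ (c / 2)) := by
  filter_upwards [Rot46.ev_le (2 / a) (half_pos hc), Rot46.ev_le K (half_pos hc)] with n h1 h2
  have e : (n : ℝ) ^ c = (n : ℝ) ^ (c / 2) * (n : ℝ) ^ (c / 2) := by
    rw [← rpow_add_of_nonneg (Nat.cast_nonneg n) (half_pos hc).le (half_pos hc).le, add_halves]
  set x := (n : ℝ) ^ (c / 2)
  have x0 : 0 ≤ x := le_trans (by positivity) h1
  rw [div_le_iff₀ ha] at h1
  refine (mul_le_mul_of_nonneg_right (h2.trans ((le_add_of_nonneg_right zero_le_one).trans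
    (add_one_le_exp x))) (exp_pos _).le).trans ?_
  rw [← exp_add, e]
  exact exp_le_exp.2 (by nlinarith)

theorem exp_le_of {n : ℕ} (hn : 0 < n) {a b c d : ℝ} (ha : 0 ≤ a) (hab : a ≤ b) (hcd : c ≤ d) :
    exp (-(b * (n : ℝ) ^ d)) ≤ exp (-(a * (n : ℝ) ^ c)) :=
  exp_le_exp.2 (neg_le_neg (mul_le_mul hab (rpow_le_rpow_of_exponent_le (by exact_mod_cast hn) hcd)
    (by positivity) (ha.trans hab)))

section vh
variable {X : ℕ → Type*} [∀ n, MeasurableSpace (X n)] {μ : ∀ n, Measure (X n)}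
  [∀ n, IsProbabilityMeasure (μ n)] {P Q : ∀ n, X n → Prop}

theorem vh_of_le (K : ℝ) {a c : ℝ} (ha : 0 < a) (hc : 0 < c)
    (h : ∀ᶠ n : ℕ in atTop, (μ n).real {z | ¬ P n z} ≤ K * exp (-(a * (n : ℝ) ^ c))) : Vh μ P := by
  refine ⟨c / 2, half_pos hc, ?_⟩
  filter_upwards [h, ev_exp K ha hc] with n h1 h2
  rw [← ofReal_measureReal]
  exact ENNReal.ofReal_le_ofReal (h1.trans h2)

theorem Vh.real (h : Vh μ P) :
    ∃ c > (0 : ℝ), ∀ᶠ n : ℕ in atTop, (μ n).real {z | ¬ P n z} ≤ exp (-(1 * (n : ℝ) ^ c)) := by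
  obtain ⟨c, hc, h⟩ := h
  exact ⟨c, hc, h.mono fun n hn => by
    rw [one_mul]; exact ENNReal.toReal_le_of_le_ofReal (exp_pos _).le hn⟩

theorem Vh.and (h : Vh μ P) (h' : Vh μ Q) : Vh μ fun n z => P n z ∧ Q n z := by
  obtain ⟨c, hc, h⟩ := h.real
  obtain ⟨d, hd, h'⟩ := h'.real
  refine vh_of_le 2 one_pos (lt_min hc hd) ?_
  filter_upwards [h, h', eventually_gt_atTop 0] with n h1 h2 hn
  refine (measureReal_mono (s₂ := {z | ¬ P n z} ∪ {z | ¬ Q n z}) (fun z hz => not_and_or.1 hz)).trans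
    ((measureReal_union_le _ _).trans ?_)
  linarith [exp_le_of hn zero_le_one le_rfl (min_le_left c d),
    exp_le_of hn zero_le_one le_rfl (min_le_right c d)]

theorem whp_exists (h : Whp μ P) : ∀ᶠ n : ℕ in atTop, ∃ z, P n z := by
  filter_upwards [h.real.eventually (gt_mem_nhds one_pos)] with n hn
  by_contra e
  rw [show {z | ¬ P n z} = univ from eq_univ_of_forall fun z hz => e ⟨z, hz⟩] at hn
  simp at hn

end vh

theorem exists_of_lt {X : Type*} [MeasurableSpace X] {μ : Measure X} [IsProbabilityMeasure μ]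
    {A B D : Set X} (h : μ.real A + μ.real B + μ.real D < 1) : ∃ z, z ∉ A ∧ z ∉ B ∧ z ∉ D := by
  by_contra e
  have : univ ⊆ A ∪ B ∪ D := fun z _ => by
    by_contra h'
    simp only [mem_union, not_or] at h'
    exact e ⟨z, h'.1.1, h'.1.2, h'.2⟩
  have h1 := (measureReal_mono (μ := μ) this).trans ((measureReal_union_le _ _).trans
    (add_le_add (measureReal_union_le _ _) le_rfl))
  rw [probReal_univ] at h1
  linarith

variable {n : ℕ} {G A : Mx n} {η a C δ : ℝ}

theorem e0_pos (hn : 0 < n) : 0 < e0 n := rpow_pos_of_pos (by exact_mod_cast hn) _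

theorem e0_le_ep (hn : 0 < n) : e0 n ≤ ep n :=
  rpow_le_rpow_of_exponent_le (by exact_mod_cast hn) (by norm_num)

theorem ep_le_one (hn : 0 < n) : ep n ≤ 1 :=
  rpow_le_one_of_one_le_of_nonpos (by exact_mod_cast hn) (by norm_num)

theorem ev_ep (hη : 0 < η) : ∀ᶠ n : ℕ in atTop, ep n ≤ η :=
  ((tendsto_rpow_neg_atTop (by norm_num)).comp tendsto_natCast_atTop_atTop).eventually
    (ge_mem_nhds hη)

theorem Nb_pos (hn : 0 < n) (hη : 0 < η) : 0 < Nb n η := by unfold Nb; positivity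

theorem Spec.ball (h : Spec G) (hn : 0 < n) : Ball G :=
  ⟨h.symm, h.top.trans (by linarith [(e0_le_ep hn).trans (ep_le_one hn)])⟩

theorem Spec.window (h : Spec G) (hη : e0 n ≤ η) {k : ℕ} (hk : k < cnt G (2 - η)) :
    k < n ∧ |2 - lam G k| ≤ η := by
  have h1 := (lt_cnt_iff (herm_iff.2 h.symm)).1 hk
  have h2 := (lam_le_opn (herm_iff.2 h.symm) k).trans h.top
  exact ⟨by simpa using h1.1, abs_le.2 ⟨by linarith, by linarith [h1.2]⟩⟩

theorem Spec.tr_lo (F : FeApi) (h : Spec G) (hn : 0 < n) (hη : η ∈ Icc (e0 n) 1) :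
    Nb n η / 128 ≤ (fE η G).trace := by
  have hm : cnt G (2 - η) ≤ n := by simpa using cnt_le_card G (2 - η)
  have := Rot46.trace_le F h.symm ((e0_pos hn).trans_le hη.1) PosSemidef.one hm
    fun k hk => (h.window hη.1 hk).2
  rw [Matrix.mul_one, Matrix.mul_one, Rot46.Pm_iso (herm_iff.2 h.symm) hm, trace_one,
    Fintype.card_fin] at this
  linarith [h.lo η hη]

theorem abs_trace_le (F : FeApi) (hG : Gᵀ = G) (hη : 0 < η) (hA : opn A ≤ C) :
    |(fE η G * A).trace| ≤ C * (fE η G).trace := by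
  conv_rhs => rw [← Matrix.mul_one (fE η G)]
  rw [F.trace hG hη, F.trace hG hη, Finset.mul_sum]
  refine (Finset.abs_sum_le_sum_abs _ _).trans (Finset.sum_le_sum fun k _ => ?_)
  rw [abs_mul, abs_of_nonneg (Rot46.fl_nonneg _ _), mul_left_comm, one_mulVec]
  exact mul_le_mul_of_nonneg_left ((abs_quad_le _ _).trans
    (mul_le_mul_of_nonneg_right hA (dot_self_nonneg _))) (Rot46.fl_nonneg _ _)

theorem dev_eq (η a : ℝ) (A G : Mx n) : dev η a A G = (fE η G * A).trace - a * (fE η G).trace := by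
  rw [dev, Matrix.mul_sub, trace_sub, Matrix.mul_smul, Matrix.mul_one, trace_smul, smul_eq_mul]

theorem Spec.abs_le (F : FeApi) (h : Spec G) (hn : 0 < n) (hη : η ∈ Icc (e0 n) 1) (hA : opn A ≤ C)
    (hδ : 0 ≤ δ) (hd : |dev η a A G| ≤ δ * Nb n η) : |a| ≤ C + 128 * δ := by
  have h0 := (e0_pos hn).trans_le hη.1
  have h1 := h.tr_lo F hn hη
  have h2 := abs_trace_le F h.symm h0 hA
  have h3 : 0 < (fE η G).trace := lt_of_lt_of_le (by linarith [Nb_pos hn h0]) h1
  have h4 := abs_sub (fE η G * A).trace (dev η a A G)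
  rw [dev_eq, sub_sub_cancel, abs_mul, abs_of_pos h3, ← dev_eq] at h4
  refine le_of_mul_le_mul_right ?_ h3
  nlinarith

theorem cost_nonneg {S : Mx n} (hS : S.PosSemidef) {z z' : Mx n × V n} (h : z.1ᵀ = z.1)
    (h' : z'.1ᵀ = z'.1) : 0 ≤ cost S z z' := by
  refine add_nonneg ?_ (dot_self_nonneg _)
  have := (hS.mul_mul_conjTranspose_same (z'.1 - z.1)).trace_nonneg
  rwa [conjTranspose_eq_transpose_of_trivial, transpose_sub, h, h'] at this

theorem FD.mono {C C' : ℝ} {A S : Mx n × V n → Mx n} (h : FD C A S) (hC : C ≤ C') : FD C' A S :=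
  ⟨h.mA, h.mS, h.psdA, h.psdS, fun z hz => (h.bd z hz).trans hC,
    fun z hz => (h.tr z hz).trans (mul_le_mul_of_nonneg_right hC (Nat.cast_nonneg n)),
    fun z z' hz hz' => (h.lipA z z' hz hz').trans
      (mul_le_mul_of_nonneg_right hC (cost_nonneg (h.psdS z hz) hz.1 hz'.1)),
    fun z z' u hz hz' => (h.lipS z z' u hz hz').trans (add_le_add le_rfl (mul_le_mul_of_nonneg_right
      (mul_le_mul_of_nonneg_right hC (dot_self_nonneg u)) (cost_nonneg (h.psdS z hz) hz.1 hz'.1)))⟩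

theorem FD.symm {C : ℝ} {A S : Mx n × V n → Mx n} (h : FD C A S) {z : Mx n × V n} (hz : Ball z.1) :
    (A z)ᵀ = A z := herm_iff.1 (h.psdA z hz).1

end Crest.Agent.T157.Da

end
end

-- ▼ part T157/DaPda_82
section

/-!
# Row 157, part C (helper82): (DA) in the planted model from its leaves
-/

set_option autoImplicit false

noncomputable section

namespace Crest.Agent.T157.Da

open MeasureTheory Matrix Filter Set Real Topology
open Crest.Agent.T157.E Crest.Agent.T157.Eig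
open Crest.Agent.T157.Tap (V Mx)
open Crest.Agent.T157.Top (Whp)

theorem pdaGlue : PDAGlue := by
  intro F hFD hL hS hI hH hSw hM hR hC hD T hT r hr ε hε
  obtain ⟨C0, hC0, hFD⟩ := hFD T hT r hr
  have C1 : 0 < C0 + 1 := by positivity
  obtain ⟨t, ht, hD⟩ := hD _ C1 ε hε
  obtain ⟨c0, hc0, hR⟩ := hR
  set s := t / c0 / 3 with hs
  have s0 : 0 < s := by positivity
  obtain ⟨ε1, hε1, δ, hδ, C', hC', hM⟩ := hM _ C1 s s0 (1 / 8) (by norm_num)
  obtain ⟨η, hη, hSw⟩ := hSw _ C1 ε1 hε1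
  obtain ⟨ηb, hηb, hM⟩ := hM η hη
  refine ⟨min δ (1 / 128), by positivity, min ηb (1 / 4), ⟨by positivity, min_le_right _ _⟩,
    fun η0 h0 => ?_⟩
  obtain ⟨η1, hη1, hD⟩ := hD η0 h0.1
  obtain ⟨CL, hCL, hL⟩ := hL _ C1 η0 h0.1
  obtain ⟨c, hc, hC⟩ := hC CL hCL
  refine ⟨η1, hη1, fun a ha => ?_⟩
  have hA : ∀ᶠ n : ℕ in atTop, 0 < n ∧ |a n| ≤ C0 + 1 := by
    filter_upwards [whp_exists (hS.whp.and ha), eventually_gt_atTop 0, ev_ep h0.1] with n ⟨z, h1, h2⟩ hn h3
    obtain ⟨S, hF⟩ := hFD n hn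
    have := h1.abs_le F hn ⟨(e0_le_ep hn).trans h3, h0.2.trans ((min_le_right _ _).trans (by norm_num))⟩
      (hF.bd z (h1.ball hn)) (by positivity) h2
    exact ⟨hn, by linarith [min_le_right δ (1 / 128)]⟩
  have key : Vh PP fun n z => Spec z.1 →
      opn (fE (es n) z.1 * Bm η0 (a n) (Aq T r z) z.1 * fE (es n) z.1) ≤ t := by
    obtain ⟨cS, hcS, hS'⟩ := hS.real
    have t1 := ha.real.const_mul C'
    rw [mul_zero] at t1
    have t2 : Tendsto (fun n : ℕ => exp (-(c * s ^ 2 * (n : ℝ) ^ (9 / 50 : ℝ)))) atTop (𝓝 0) :=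
      tendsto_exp_neg_atTop_nhds_zero.comp (((tendsto_rpow_atTop (by norm_num)).comp
        tendsto_natCast_atTop_atTop).const_mul_atTop (by positivity))
    refine vh_of_le 4 (a := min 1 (c * s ^ 2)) (c := min cS (9 / 50)) (by positivity) (by positivity) ?_
    filter_upwards [hA, hS', hSw, hM η0 ⟨h0.1, h0.2.trans (min_le_left _ _)⟩, hR CL hCL (3 * s) (by positivity),
      hC, hS.whp.real.eventually (gt_mem_nhds (show (0 : ℝ) < 1 / 8 by norm_num)),
      t1.eventually (gt_mem_nhds (show (0 : ℝ) < 1 / 8 by norm_num)),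
      t2.eventually (gt_mem_nhds (show (0 : ℝ) < 1 / 8 by norm_num))]
      with n ⟨hn, han⟩ hS' hSw hM hR hC p1 p2 p3
    obtain ⟨S, hF⟩ := hFD n hn
    replace hF := hF.mono (le_add_of_nonneg_right zero_le_one)
    obtain ⟨ν, hν, hν'⟩ := R164.Haar.exists_haar n
    have hB := (hL n _ S hF).2.2 _ han
    obtain ⟨m, hm⟩ := hC _ hB (ep n) ⟨le_rfl, ep_le_one hn⟩
    replace hm := hm s s0.le
    have mf : ∀ η, Measurable fun z : Mx n × V n => fE η z.1 := fun η => (F.meas n η).comp measurable_fst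
    have mτ := ((mf (ep n)).t157_mul hB.meas).t157_trace
    have N0 := Nb_pos hn ((e0_pos hn).trans_le (e0_le_ep hn))
    have h1 := hH n ν hν hν' {z | s * Nb n (ep n) < (fE (ep n) z.1 * Bm η0 (a n) (Aq T r z) z.1).trace}
      {z | δ * Nb n η0 < |dev η0 (a n) (Aq T r z) z.1|} (fun z => Spec z.1) (1 / 8) C'
      (measurableSet_lt measurable_const mτ) (measurableSet_lt measurable_const
        ((mf η0).t157_mul (hF.mA.t157_sub measurable_const)).t157_trace.abs) (by norm_num) hC'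
      fun z hz => hM ν hν hν' (fun M => Aq T r (M, z.2)) (hF.mA.comp measurable_prodMk_right)
        (fun M h => ⟨hF.symm (z := (M, z.2)) h, hF.bd (M, z.2) h⟩) z.1 _ hz han
        (hSw ν hν hν' _ S hF z.1 z.2 hz)
    have h2 := hH n ν hν hν' {z | c0 * (3 * s) <
        opn (fE (es n) z.1 * Bm η0 (a n) (Aq T r z) z.1 * fE (es n) z.1) ∧
        (fE (ep n) z.1 * Bm η0 (a n) (Aq T r z) z.1).trace ≤ 3 * s * Nb n (ep n)} ∅
      (fun z => Spec z.1) _ 0 ((measurableSet_lt measurable_const (continuous_opn.measurable.comp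
        (((mf _).t157_mul hB.meas).t157_mul (mf _)))).inter (measurableSet_le mτ measurable_const))
      MeasurableSet.empty (exp_pos _).le le_rfl
      fun z hz => (hR ν hν hν' _ hB z.1 z.2 hz).trans (by rw [zero_mul, add_zero])
    have h3 : (PP n).real {z | δ * Nb n η0 < |dev η0 (a n) (Aq T r z) z.1|} ≤
        (PP n).real {z | ¬ |dev η0 (a n) (Aq T r z) z.1| ≤ min δ (1 / 128) * Nb n η0} :=
      measureReal_mono fun z hz => not_le.2 ((mul_le_mul_of_nonneg_right (min_le_left _ _)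
        (Nb_pos hn h0.1).le).trans_lt hz)
    obtain ⟨z, z1, z2, z3⟩ := exists_of_lt ((add_le_add (add_le_add h1 hm) p1.le).trans_lt
      (by linarith [mul_le_mul_of_nonneg_left h3 hC']))
    simp only [mem_setOf_eq, not_lt, not_not, not_and, not_le] at z1 z2 z3
    have hm2 := (abs_lt.1 (z2 z3)).1
    refine (measureReal_mono fun z hz => ?_).trans ((measureReal_union_le _ _).trans
      ((add_le_add h2 hm).trans ?_))
    · simp only [mem_setOf_eq, Classical.not_imp, not_le] at hz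
      rcases le_or_gt (fE (ep n) z.1 * Bm η0 (a n) (Aq T r z) z.1).trace (3 * s * Nb n (ep n)) with e | e
      · exact Or.inl ⟨lt_of_eq_of_lt (by rw [hs]; field_simp) hz.2, e⟩
      · exact Or.inr ⟨hz.1, le_trans (by linarith) (le_abs_self _)⟩
    · have q0 : 0 ≤ min 1 (c * s ^ 2) := by positivity
      have q1 := exp_le_of hn q0 (min_le_left _ _) (min_le_left cS (9 / 50))
      have q2 := exp_le_of hn q0 (min_le_left _ _)
        ((min_le_right cS (9 / 50)).trans (show (9 / 50 : ℝ) ≤ 1 / 5 by norm_num))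
      have q3 := exp_le_of hn q0 (min_le_right _ _) (min_le_right cS (9 / 50))
      rw [one_mul] at q2
      linarith
  refine ((hS.and hI).and key).mono ?_
  filter_upwards [hA, hD] with n ⟨hn, han⟩ hD z ⟨⟨z1, z2⟩, z3⟩
  obtain ⟨S, hF⟩ := hFD n hn
  exact hD _ _ _ (z1.ball hn) z2 (hF.symm (z1.ball hn)) ((hF.bd z (z1.ball hn)).trans (by linarith))
    han (z3 z1)

end Crest.Agent.T157.Da

end
end

-- ▼ part T157/DaSwA_85
section

/-!
# Row 157, part C (helper85): rank-two reflections, algebra for `Da.SwapStmt`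
-/

set_option autoImplicit false

noncomputable section

namespace Crest.Agent.T157.Da.Sw85

open MeasureTheory Matrix Filter Set
open Crest.Agent.T157.E Crest.Agent.T157.Eig
open Crest.Agent.T157.Tap (V Mx)
open Crest.Agent.T157.Conc (fro)
open Crest.Agent.R164.Haar (Mat RHaar rmul)

variable {n : ℕ}

lemma vmv (u v w : V n) : vecMulVec u v *ᵥ w = (v ⬝ᵥ w) • u := by
  rw [vecMulVec_mulVec]; ext i; simp [mul_comm]

/-- reflection inside the plane spanned by `a`, `b` -/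
def rq (a b : V n) (c s : ℝ) : Mx n :=
  1 + (c - 1) • vecMulVec a a + s • (vecMulVec a b + vecMulVec b a) - (c + 1) • vecMulVec b b

lemma rq_mulVec (a b : V n) (c s : ℝ) (x : V n) : rq a b c s *ᵥ x =
    x + ((c - 1) * (a ⬝ᵥ x) + s * (b ⬝ᵥ x)) • a + (s * (a ⬝ᵥ x) - (c + 1) * (b ⬝ᵥ x)) • b := by
  simp only [rq, sub_mulVec, add_mulVec, smul_mulVec, one_mulVec, vmv]
  ext i; simp only [Pi.add_apply, Pi.sub_apply, Pi.smul_apply, smul_eq_mul]; ring

lemma rq_symm (a b : V n) (c s : ℝ) : (rq a b c s)ᵀ = rq a b c s := by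
  simp only [rq, transpose_sub, transpose_add, transpose_smul, transpose_one, transpose_vecMulVec]
  rw [add_comm (vecMulVec b a)]

/-- an orthonormal pair -/
structure ON (a b : V n) : Prop where
  aa : a ⬝ᵥ a = 1
  bb : b ⬝ᵥ b = 1
  ab : a ⬝ᵥ b = 0

lemma ON.ba {a b : V n} (h : ON a b) : b ⬝ᵥ a = 0 := by rw [dotProduct_comm]; exact h.ab

lemma rq_a {a b : V n} (h : ON a b) (c s : ℝ) : rq a b c s *ᵥ a = c • a + s • b := by
  rw [rq_mulVec, h.aa, h.ba]; ext i; simp only [Pi.add_apply, Pi.smul_apply, smul_eq_mul]; ring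

lemma rq_b {a b : V n} (h : ON a b) (c s : ℝ) : rq a b c s *ᵥ b = s • a - c • b := by
  rw [rq_mulVec, h.bb, h.ab]; ext i
  simp only [Pi.add_apply, Pi.sub_apply, Pi.smul_apply, smul_eq_mul]; ring

lemma rq_perp {a b w : V n} (c s : ℝ) (ha : a ⬝ᵥ w = 0) (hb : b ⬝ᵥ w = 0) :
    rq a b c s *ᵥ w = w := by
  rw [rq_mulVec, ha, hb]; simp

lemma rq_mem {a b : V n} (h : ON a b) {c s : ℝ} (hcs : c ^ 2 + s ^ 2 = 1) :
    rq a b c s ∈ Matrix.orthogonalGroup (Fin n) ℝ := by
  rw [Matrix.mem_orthogonalGroup_iff, rq_symm, Matrix.ext_iff_mulVec]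
  intro x
  rw [← mulVec_mulVec, one_mulVec, rq_mulVec a b c s x]
  simp only [mulVec_add, mulVec_smul, rq_a h, rq_b h, rq_mulVec a b c s x]
  ext i
  simp only [Pi.add_apply, Pi.sub_apply, Pi.smul_apply, smul_eq_mul]
  linear_combination ((a ⬝ᵥ x) * a i + (b ⬝ᵥ x) * b i) * hcs

/-- conjugating by the reflection changes `G` by a rank two matrix -/
lemma rq_conj {G : Mx n} (hG : Gᵀ = G) {a b : V n} (h : ON a b) {l m c s : ℝ}
    (hcs : c ^ 2 + s ^ 2 = 1) (ha : G *ᵥ a = l • a) (hb : G *ᵥ b = m • b) :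
    rq a b c s * G * (rq a b c s)ᵀ - G =
      vecMulVec (((l - m) * s) • (c • b - s • a)) a +
        vecMulVec (((l - m) * s) • (c • a + s • b)) b := by
  have hH : G.IsHermitian := herm_iff.2 hG
  rw [rq_symm, Matrix.ext_iff_mulVec]
  intro x
  have h1 : a ⬝ᵥ G *ᵥ x = l * (a ⬝ᵥ x) := by
    rw [dot_symm hH, ha, dotProduct_smul, smul_eq_mul, dotProduct_comm]
  have h2 : b ⬝ᵥ G *ᵥ x = m * (b ⬝ᵥ x) := by
    rw [dot_symm hH, hb, dotProduct_smul, smul_eq_mul, dotProduct_comm]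
  rw [sub_mulVec, ← mulVec_mulVec, ← mulVec_mulVec, rq_mulVec a b c s x]
  simp only [mulVec_add, mulVec_smul, ha, hb, rq_a h, rq_b h, rq_mulVec a b c s (G *ᵥ x), h1, h2,
    add_mulVec, vmv]
  ext i
  simp only [Pi.add_apply, Pi.sub_apply, Pi.smul_apply, smul_eq_mul]
  linear_combination (l * (a ⬝ᵥ x) * a i + m * (b ⬝ᵥ x) * b i) * hcs

lemma of_rmul (Q : Mx n) (O : Mat (Fin n)) : Matrix.of (rmul Q O) = Matrix.of O * Q := rfl

lemma cj_rmul (Q G : Mx n) (O : Mat (Fin n)) : cj (rmul Q O) G = cj O (Q * G * Qᵀ) := by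
  simp only [cj, of_rmul, transpose_mul, Matrix.mul_assoc]

lemma cj_sub (O : Mat (Fin n)) (G G' : Mx n) : cj O G' - cj O G = cj O (G' - G) := by
  simp only [cj, Matrix.mul_sub, Matrix.sub_mul]

lemma cj_vmv (O : Mat (Fin n)) (x a y b : V n) : cj O (vecMulVec x a + vecMulVec y b) =
    vecMulVec (Matrix.of O *ᵥ x) (Matrix.of O *ᵥ a) +
      vecMulVec (Matrix.of O *ᵥ y) (Matrix.of O *ᵥ b) := by
  simp only [cj, Matrix.mul_add, Matrix.add_mul, mul_vecMulVec, vecMulVec_mul, vecMul_transpose]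

lemma tr_vmv (S : Mx n) (a x y b : V n) :
    (vecMulVec a x * S * vecMulVec y b).trace = (x ⬝ᵥ S *ᵥ y) * (a ⬝ᵥ b) := by
  rw [vecMulVec_mul, vecMulVec_mul_vecMulVec, trace_vecMulVec, dotProduct_smul, smul_eq_mul,
    dotProduct_mulVec]

lemma rmul_mem {Q : Mx n} (hQ : Q ∈ Matrix.orthogonalGroup (Fin n) ℝ) {O : Mat (Fin n)}
    (hO : Matrix.of O ∈ Matrix.orthogonalGroup (Fin n) ℝ) :
    Matrix.of (rmul Q O) ∈ Matrix.orthogonalGroup (Fin n) ℝ := by
  rw [of_rmul]; exact mul_mem hO hQ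

lemma orth_dot {O : Mx n} (hO : O ∈ Matrix.orthogonalGroup (Fin n) ℝ) (u v : V n) :
    (O *ᵥ u) ⬝ᵥ (O *ᵥ v) = u ⬝ᵥ v :=
  dot_isom ((Matrix.mem_orthogonalGroup_iff' _ _).1 hO) u v

/-- the exact cost of the reflection -/
lemma cost_eq {G : Mx n} (hG : Gᵀ = G) {a b : V n} (h : ON a b) {l m c s : ℝ}
    (hcs : c ^ 2 + s ^ 2 = 1) (ha : G *ᵥ a = l • a) (hb : G *ᵥ b = m • b) {O : Mat (Fin n)}
    (hO : Matrix.of O ∈ Matrix.orthogonalGroup (Fin n) ℝ) (S : Mx n) :
    ((cj (rmul (rq a b c s) O) G - cj O G) * S * (cj (rmul (rq a b c s) O) G - cj O G)).trace =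
      ((l - m) * s) ^ 2 * ((Matrix.of O *ᵥ a) ⬝ᵥ S *ᵥ (Matrix.of O *ᵥ a) +
        (Matrix.of O *ᵥ b) ⬝ᵥ S *ᵥ (Matrix.of O *ᵥ b)) := by
  have e : cj (rmul (rq a b c s) O) G - cj O G = _ :=
    (by rw [cj_rmul, cj_sub, rq_conj hG h hcs ha hb, cj_vmv])
  have es : (cj (rmul (rq a b c s) O) G - cj O G)ᵀ = cj (rmul (rq a b c s) O) G - cj O G := by
    simp only [cj, transpose_sub, transpose_mul, transpose_transpose, hG, Matrix.mul_assoc]
  nth_rewrite 1 [← es]
  rw [e]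
  have haa := (orth_dot hO a a).trans h.aa
  have hbb := (orth_dot hO b b).trans h.bb
  have hab := (orth_dot hO a b).trans h.ab
  have hba := (orth_dot hO b a).trans h.ba
  simp only [transpose_add, transpose_vecMulVec, Matrix.add_mul, Matrix.mul_add, trace_add, tr_vmv,
    haa, hbb, hab, hba]
  simp only [mulVec_add, mulVec_sub, mulVec_smul, add_dotProduct, sub_dotProduct, smul_dotProduct,
    dotProduct_add, dotProduct_sub, dotProduct_smul, smul_eq_mul]
  linear_combination ((l - m) * s) ^ 2 * ((Matrix.of O *ᵥ a) ⬝ᵥ S *ᵥ (Matrix.of O *ᵥ a) +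
        (Matrix.of O *ᵥ b) ⬝ᵥ S *ᵥ (Matrix.of O *ᵥ b)) * hcs

lemma ball_cj {G : Mx n} (hG : Ball G) {O : Mat (Fin n)}
    (hO : Matrix.of O ∈ Matrix.orthogonalGroup (Fin n) ℝ) : Ball (cj O G) := by
  refine ⟨?_, ?_⟩
  · simp only [cj, transpose_mul, transpose_transpose, hG.1, Matrix.mul_assoc]
  · have h1 : opn (Matrix.of O) ≤ 1 := opn_isom_le ((Matrix.mem_orthogonalGroup_iff' _ _).1 hO)
    have h2 : opn (Matrix.of O)ᵀ ≤ 1 := by rw [opn_transpose]; exact h1
    have h3 := opn_mul_le (Matrix.of O * G) (Matrix.of O)ᵀ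
    have h4 := opn_mul_le (Matrix.of O) G
    have h5 := opn_nonneg G
    have h6 := opn_nonneg (Matrix.of O * G)
    have h7 := hG.2
    have h8 := opn_nonneg (Matrix.of O)
    unfold cj
    nlinarith

/-- Bessel's inequality in the rotated eigenbasis -/
lemma bessel {G : Mx n} (hG : G.IsHermitian) {O : Mx n}
    (hO : O ∈ Matrix.orthogonalGroup (Fin n) ℝ) (x : V n) {J : Finset ℕ}
    (hJ : ∀ k ∈ J, k < n) : ∑ k ∈ J, ((O *ᵥ vec G k) ⬝ᵥ x) ^ 2 ≤ x ⬝ᵥ x := by
  have h1 : ∀ k, (O *ᵥ vec G k) ⬝ᵥ x = vec G k ⬝ᵥ (Oᵀ *ᵥ x) := fun k => by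
    rw [dotProduct_mulVec, vecMul_transpose]
  have h2 : x ⬝ᵥ x = (Oᵀ *ᵥ x) ⬝ᵥ (Oᵀ *ᵥ x) :=
    (orth_dot (Crest.Agent.R164.Haar.transpose_mem hO) x x).symm
  rw [h2, dot_eq hG]
  simp only [h1, sq]
  refine Finset.sum_le_sum_of_subset_of_nonneg (fun k hk => ?_) fun k _ _ => mul_self_nonneg _
  simpa using hJ k hk

lemma sum_diag_le {G : Mx n} (hG : G.IsHermitian) {O : Mx n}
    (hO : O ∈ Matrix.orthogonalGroup (Fin n) ℝ) {S : Mx n} (hS : S.PosSemidef) {J : Finset ℕ}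
    (hJ : ∀ k ∈ J, k < n) :
    ∑ k ∈ J, (O *ᵥ vec G k) ⬝ᵥ S *ᵥ (O *ᵥ vec G k) ≤ S.trace := by
  have h1 : S.trace = (Oᵀ * S * O).trace := by
    rw [trace_mul_cycle, (Matrix.mem_orthogonalGroup_iff _ _).1 hO, Matrix.one_mul]
  have h2 : ∀ k, vec G k ⬝ᵥ (Oᵀ * S * O) *ᵥ vec G k =
      (O *ᵥ vec G k) ⬝ᵥ S *ᵥ (O *ᵥ vec G k) := fun k => by
    rw [← mulVec_mulVec, ← mulVec_mulVec, dotProduct_mulVec, vecMul_transpose]
  rw [h1, trace_eq_sum_quad hG]
  simp only [h2]
  refine Finset.sum_le_sum_of_subset_of_nonneg (fun k hk => ?_) fun k _ _ => ?_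
  · simpa using hJ k hk
  · simpa using hS.dotProduct_mulVec_nonneg (O *ᵥ vec G k)

lemma meas_cj (G : Mx n) : Measurable fun O : Mat (Fin n) => cj O G := by
  refine measurable_pi_iff.2 fun i => measurable_pi_iff.2 fun j => ?_
  simp only [cj, Matrix.mul_apply, transpose_apply, of_apply]
  fun_prop

lemma meas_Phi {B : Mx n → Mx n} (hB : Measurable B) (G : Mx n) (k l : ℕ) :
    Measurable fun O : Mat (Fin n) => Phi B G O k l := by
  have h : ∀ i j, Measurable fun O : Mat (Fin n) => B (cj O G) i j := fun i j =>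
    (hB.comp (meas_cj G)).t157_entry i j
  have h' : ∀ (v : V n) (i : Fin n), Measurable fun O : Mat (Fin n) => (Matrix.of O *ᵥ v) i :=
    fun v i => by
      simp only [dotProduct, mulVec, of_apply]
      fun_prop
  have e : (fun O : Mat (Fin n) => Phi B G O k l) = fun O => ∑ i, (Matrix.of O *ᵥ Eig.vec G k) i *
      ∑ j, B (cj O G) i j * (Matrix.of O *ᵥ Eig.vec G l) j := rfl
  rw [e]
  exact Finset.measurable_sum _ fun i _ => (h' _ i).mul
    (Finset.measurable_sum _ fun j _ => (h i j).mul (h' _ j))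

end Crest.Agent.T157.Da.Sw85

end
end

-- ▼ part T157/DaSwB_85
section

/-!
# Row 157, part C (helper85): pointwise swap inequalities for `Da.SwapStmt`
-/

set_option autoImplicit false

noncomputable section

namespace Crest.Agent.T157.Da.Sw85

open MeasureTheory Matrix Filter Set
open Crest.Agent.T157.E Crest.Agent.T157.Eig
open Crest.Agent.T157.Tap (V Mx)
open Crest.Agent.T157.Conc (fro)
open Crest.Agent.R164.Haar (Mat RHaar rmul)

variable {n : ℕ}

/-- the finite-difference structure at a frozen field -/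
structure FD0 (C : ℝ) (A S : Mx n → Mx n) : Prop where
  mA : Measurable A
  mS : Measurable S
  psdA : ∀ M, Ball M → (A M).PosSemidef
  psdS : ∀ M, Ball M → (S M).PosSemidef
  bd : ∀ M, Ball M → opn (A M) ≤ C
  tr : ∀ M, Ball M → (S M).trace ≤ C * n
  lipA : ∀ M M', Ball M → Ball M' →
    fro (A M' - A M) ≤ C * ((M' - M) * S M * (M' - M)).trace
  lipS : ∀ M M' (u : V n), Ball M → Ball M' →
    u ⬝ᵥ S M' *ᵥ u ≤ 2 * (u ⬝ᵥ S M *ᵥ u) + C * (u ⬝ᵥ u) * ((M' - M) * S M * (M' - M)).trace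

lemma fd0_of {C : ℝ} {A S : Mx n × V n → Mx n} (h : FD C A S) (ξ : V n) :
    FD0 C (fun M => A (M, ξ)) (fun M => S (M, ξ)) where
  mA := h.mA.comp (measurable_id.prodMk measurable_const)
  mS := h.mS.comp (measurable_id.prodMk measurable_const)
  psdA M hM := h.psdA (M, ξ) hM
  psdS M hM := h.psdS (M, ξ) hM
  bd M hM := h.bd (M, ξ) hM
  tr M hM := h.tr (M, ξ) hM
  lipA M M' hM hM' := by simpa [cost] using h.lipA (M, ξ) (M', ξ) hM hM'
  lipS M M' u hM hM' := by simpa [cost] using h.lipS (M, ξ) (M', ξ) u hM hM'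

lemma on_vec {G : Mx n} (hG : Gᵀ = G) {k l : ℕ} (hk : k < n) (hl : l < n) (hkl : k ≠ l) :
    ON (Eig.vec G k) (Eig.vec G l) :=
  ⟨vec_dot_self (herm_iff.2 hG) (by simpa using hk), vec_dot_self (herm_iff.2 hG) (by simpa using hl),
    vec_dot_ne (herm_iff.2 hG) hkl⟩

/-- the reflection between two eigenvectors -/
def Q (G : Mx n) (k l : ℕ) (c s : ℝ) : Mx n := rq (Eig.vec G k) (Eig.vec G l) c s

section pt
variable {C : ℝ} {A S : Mx n → Mx n} {G : Mx n} {O : Mat (Fin n)} {k l : ℕ} {c s d : ℝ}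

lemma Q_mem (hG : Gᵀ = G) (hk : k < n) (hl : l < n) (hkl : k ≠ l) (hcs : c ^ 2 + s ^ 2 = 1) :
    Q G k l c s ∈ Matrix.orthogonalGroup (Fin n) ℝ := rq_mem (on_vec hG hk hl hkl) hcs

lemma unit_vec (hG : Gᵀ = G) (hO : Matrix.of O ∈ Matrix.orthogonalGroup (Fin n) ℝ) (hk : k < n) :
    (Matrix.of O *ᵥ Eig.vec G k) ⬝ᵥ (Matrix.of O *ᵥ Eig.vec G k) = 1 :=
  (orth_dot hO _ _).trans (vec_dot_self (herm_iff.2 hG) (by simpa using hk))

lemma phiS_nonneg (h : FD0 C A S) (hG : Ball G)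
    (hO : Matrix.of O ∈ Matrix.orthogonalGroup (Fin n) ℝ) (k : ℕ) : 0 ≤ Phi S G O k k := by
  simpa [Phi] using (h.psdS _ (ball_cj hG hO)).dotProduct_mulVec_nonneg (Matrix.of O *ᵥ Eig.vec G k)

lemma sum_phiS_le (h : FD0 C A S) (hG : Ball G)
    (hO : Matrix.of O ∈ Matrix.orthogonalGroup (Fin n) ℝ) {J : Finset ℕ} (hJ : ∀ k ∈ J, k < n) :
    ∑ k ∈ J, Phi S G O k k ≤ C * n :=
  (sum_diag_le (herm_iff.2 hG.1) hO (h.psdS _ (ball_cj hG hO)) hJ).trans (h.tr _ (ball_cj hG hO))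

lemma abs_phiA_le (h : FD0 C A S) (hG : Ball G)
    (hO : Matrix.of O ∈ Matrix.orthogonalGroup (Fin n) ℝ) (hk : k < n) (hl : l < n) :
    |Phi A G O k l| ≤ C := by
  have h1 := abs_bil_le (A (cj O G)) (Matrix.of O *ᵥ Eig.vec G k) (Matrix.of O *ᵥ Eig.vec G l)
  rw [nrm, nrm, unit_vec hG.1 hO hk, unit_vec hG.1 hO hl, Real.sqrt_one, mul_one, mul_one] at h1
  exact h1.trans (h.bd _ (ball_cj hG hO))

lemma row_le (h : FD0 C A S) (hG : Ball G)
    (hO : Matrix.of O ∈ Matrix.orthogonalGroup (Fin n) ℝ) (hl : l < n) {J : Finset ℕ}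
    (hJ : ∀ k ∈ J, k < n) : ∑ k ∈ J, Phi A G O l k ^ 2 ≤ C ^ 2 := by
  have hB := ball_cj hG hO
  have hs : (A (cj O G)).IsHermitian := (h.psdA _ hB).1
  have h1 : ∀ k, Phi A G O l k =
      (Matrix.of O *ᵥ Eig.vec G k) ⬝ᵥ (A (cj O G) *ᵥ (Matrix.of O *ᵥ Eig.vec G l)) := fun k => by
    rw [Phi, dot_symm hs]
  simp only [h1]
  refine (bessel (herm_iff.2 hG.1) hO _ hJ).trans ((mulVec_dot_le _ _).trans ?_)
  rw [unit_vec hG.1 hO hl, mul_one]
  exact pow_le_pow_left₀ (opn_nonneg _) (h.bd _ hB) 2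

lemma cost_le (h : FD0 C A S) (hG : Ball G)
    (hO : Matrix.of O ∈ Matrix.orthogonalGroup (Fin n) ℝ) (hk : k < n) (hl : l < n) (hkl : k ≠ l)
    (hcs : c ^ 2 + s ^ 2 = 1) (hd : |lam G k - lam G l| ≤ d) :
    ((cj (rmul (Q G k l c s) O) G - cj O G) * S (cj O G) *
        (cj (rmul (Q G k l c s) O) G - cj O G)).trace ≤ d ^ 2 * (Phi S G O k k + Phi S G O l l) := by
  have hH := herm_iff.2 hG.1
  rw [Q, cost_eq hG.1 (on_vec hG.1 hk hl hkl) hcs (mulVec_vec hH k) (mulVec_vec hH l) hO]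
  have h1 := phiS_nonneg h hG hO k
  have h2 := phiS_nonneg h hG hO l
  refine mul_le_mul_of_nonneg_right ?_ (add_nonneg h1 h2)
  have h3 : (lam G k - lam G l) ^ 2 ≤ d ^ 2 := by
    rw [← sq_abs]; exact pow_le_pow_left₀ (abs_nonneg _) hd 2
  have h4 : s ^ 2 ≤ 1 := by nlinarith [sq_nonneg c]
  rw [mul_pow]
  nlinarith [sq_nonneg (lam G k - lam G l), sq_nonneg s]

lemma Q_vec (G : Mx n) (O : Mat (Fin n)) (k l : ℕ) (c s : ℝ) (x : V n) :
    Matrix.of (rmul (Q G k l c s) O) *ᵥ x = Matrix.of O *ᵥ (Q G k l c s *ᵥ x) := by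
  rw [of_rmul, mulVec_mulVec]

/-- (a) swapping two directions in `S` -/
lemma ptA (hC : 0 ≤ C) (h : FD0 C A S) (hG : Ball G)
    (hO : Matrix.of O ∈ Matrix.orthogonalGroup (Fin n) ℝ) (hk : k < n) (hl : l < n) (hkl : k ≠ l)
    (hd : |lam G k - lam G l| ≤ d) :
    Phi S G (rmul (Q G k l 0 1) O) k k ≤
      2 * Phi S G O l l + C * (d ^ 2 * (Phi S G O k k + Phi S G O l l)) := by
  have hcs : (0 : ℝ) ^ 2 + 1 ^ 2 = 1 := by norm_num
  have hO' := rmul_mem (Q_mem hG.1 hk hl hkl hcs) hO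
  have e : Matrix.of (rmul (Q G k l 0 1) O) *ᵥ Eig.vec G k = Matrix.of O *ᵥ Eig.vec G l := by
    rw [Q_vec, Q, rq_a (on_vec hG.1 hk hl hkl)]; simp
  have h1 := h.lipS _ _ (Matrix.of O *ᵥ Eig.vec G l) (ball_cj hG hO) (ball_cj hG hO')
  rw [unit_vec hG.1 hO hl, mul_one] at h1
  have h2 := mul_le_mul_of_nonneg_left (cost_le h hG hO hk hl hkl hcs hd) hC
  rw [Phi, e]
  exact h1.trans (add_le_add_right h2 _)

lemma fro_bound (D : Mx n) {w : V n} (hw : w ⬝ᵥ w ≤ 1) : (D *ᵥ w) ⬝ᵥ (D *ᵥ w) ≤ fro D := by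
  refine (mulVec_dot_le D w).trans ?_
  have h1 := opn_sq_le_frob D
  have h2 := sq_nonneg (opn D)
  unfold fro
  nlinarith

/-- (b) swapping a column index -/
lemma ptB (hC : 0 ≤ C) (h : FD0 C A S) (hG : Ball G)
    (hO : Matrix.of O ∈ Matrix.orthogonalGroup (Fin n) ℝ) (hk : k < n) (hl : l < n) (hkl : k ≠ l)
    (hd : |lam G k - lam G l| ≤ d) {I : Finset ℕ} (hI : ∀ i ∈ I, i < n ∧ i ≠ k ∧ i ≠ l) :
    ∑ i ∈ I, Phi A G (rmul (Q G k l 0 1) O) i k ^ 2 ≤
      2 * ∑ i ∈ I, Phi A G O i l ^ 2 + 2 * (C * (d ^ 2 * (Phi S G O k k + Phi S G O l l))) := by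
  have hH := herm_iff.2 hG.1
  have hcs : (0 : ℝ) ^ 2 + 1 ^ 2 = 1 := by norm_num
  have hO' := rmul_mem (Q_mem hG.1 hk hl hkl hcs) hO
  have e : Matrix.of (rmul (Q G k l 0 1) O) *ᵥ Eig.vec G k = Matrix.of O *ᵥ Eig.vec G l := by
    rw [Q_vec, Q, rq_a (on_vec hG.1 hk hl hkl)]; simp
  have e' : ∀ i ∈ I, Matrix.of (rmul (Q G k l 0 1) O) *ᵥ Eig.vec G i =
      Matrix.of O *ᵥ Eig.vec G i := fun i hi => by
    rw [Q_vec, Q, rq_perp _ _ (vec_dot_ne hH (hI i hi).2.1.symm) (vec_dot_ne hH (hI i hi).2.2.symm)]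
  set D := A (cj (rmul (Q G k l 0 1) O) G) - A (cj O G) with hD
  have h1 : ∀ i ∈ I, Phi A G (rmul (Q G k l 0 1) O) i k ^ 2 ≤ 2 * Phi A G O i l ^ 2 +
      2 * ((Matrix.of O *ᵥ Eig.vec G i) ⬝ᵥ (D *ᵥ (Matrix.of O *ᵥ Eig.vec G l))) ^ 2 := by
    intro i hi
    have e2 : Phi A G (rmul (Q G k l 0 1) O) i k = Phi A G O i l +
        (Matrix.of O *ᵥ Eig.vec G i) ⬝ᵥ (D *ᵥ (Matrix.of O *ᵥ Eig.vec G l)) := by
      rw [Phi, e, e' i hi, Phi, hD, sub_mulVec, dotProduct_sub]; ring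
    rw [e2]
    nlinarith [sq_nonneg (Phi A G O i l -
      (Matrix.of O *ᵥ Eig.vec G i) ⬝ᵥ (D *ᵥ (Matrix.of O *ᵥ Eig.vec G l)))]
  refine (Finset.sum_le_sum h1).trans ?_
  rw [Finset.sum_add_distrib, ← Finset.mul_sum, ← Finset.mul_sum]
  have h2 := bessel hH hO (D *ᵥ (Matrix.of O *ᵥ Eig.vec G l)) fun i hi => (hI i hi).1
  have h3 := fro_bound D (unit_vec hG.1 hO hl).le
  have h4 := h.lipA _ _ (ball_cj hG hO) (ball_cj hG hO')
  have h5 := mul_le_mul_of_nonneg_left (cost_le h hG hO hk hl hkl hcs hd) hC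
  linarith

/-- (c) a rotation by `π/4` turns diagonal differences into off-diagonal entries -/
lemma ptC (hC : 0 ≤ C) (h : FD0 C A S) (hG : Ball G)
    (hO : Matrix.of O ∈ Matrix.orthogonalGroup (Fin n) ℝ) (hk : k < n) (hl : l < n) (hkl : k ≠ l)
    (hd : |lam G k - lam G l| ≤ d) (hc : c ^ 2 + c ^ 2 = 1) :
    (Phi A G O k k - Phi A G O l l) ^ 2 ≤ 8 * Phi A G (rmul (Q G k l c c) O) k l ^ 2 +
      8 * (C * (d ^ 2 * (Phi S G O k k + Phi S G O l l))) := by
  have hO' := rmul_mem (Q_mem hG.1 hk hl hkl hc) hO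
  have hon := on_vec hG.1 hk hl hkl
  set x := Matrix.of (rmul (Q G k l c c) O) *ᵥ Eig.vec G k with hx
  set y := Matrix.of (rmul (Q G k l c c) O) *ᵥ Eig.vec G l with hy
  have ex : x = c • (Matrix.of O *ᵥ Eig.vec G k) + c • (Matrix.of O *ᵥ Eig.vec G l) := by
    rw [hx, Q_vec, Q, rq_a hon, mulVec_add, mulVec_smul, mulVec_smul]
  have ey : y = c • (Matrix.of O *ᵥ Eig.vec G k) - c • (Matrix.of O *ᵥ Eig.vec G l) := by
    rw [hy, Q_vec, Q, rq_b hon, mulVec_sub, mulVec_smul, mulVec_smul]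
  set D := A (cj (rmul (Q G k l c c) O) G) - A (cj O G) with hD
  have hs : (A (cj O G)).IsHermitian := (h.psdA _ (ball_cj hG hO)).1
  have e1 : x ⬝ᵥ A (cj O G) *ᵥ y = (Phi A G O k k - Phi A G O l l) / 2 := by
    have hsy := dot_symm hs (Matrix.of O *ᵥ Eig.vec G k) (Matrix.of O *ᵥ Eig.vec G l)
    rw [ex, ey]
    simp only [Phi, mulVec_sub, mulVec_smul, add_dotProduct, smul_dotProduct, dotProduct_sub,
      dotProduct_smul, smul_eq_mul, hsy]
    linear_combination ((Matrix.of O *ᵥ Eig.vec G k) ⬝ᵥ A (cj O G) *ᵥ (Matrix.of O *ᵥ Eig.vec G k) -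
      (Matrix.of O *ᵥ Eig.vec G l) ⬝ᵥ A (cj O G) *ᵥ (Matrix.of O *ᵥ Eig.vec G l)) / 2 * hc
  have e2 : Phi A G (rmul (Q G k l c c) O) k l =
      (Phi A G O k k - Phi A G O l l) / 2 + x ⬝ᵥ (D *ᵥ y) := by
    rw [← e1, hD, sub_mulVec, dotProduct_sub, Phi]; ring
  have h2 : (x ⬝ᵥ (D *ᵥ y)) ^ 2 ≤ fro D := by
    refine (dot_sq_le _ _).trans ?_
    rw [hx, unit_vec hG.1 hO' hk, one_mul]
    exact fro_bound D (unit_vec hG.1 hO' hl).le
  have h4 := h.lipA _ _ (ball_cj hG hO) (ball_cj hG hO')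
  have h5 := mul_le_mul_of_nonneg_left (cost_le h hG hO hk hl hkl hc hd) hC
  rw [e2]
  nlinarith [sq_nonneg ((Phi A G O k k - Phi A G O l l) / 2 + 2 * (x ⬝ᵥ (D *ᵥ y)))]

end pt

end Crest.Agent.T157.Da.Sw85

end
end

-- ▼ part T157/DaSwap_85
section

/-!
# Row 157, part C (helper85): `Da.swapStmt`
-/

set_option autoImplicit false

noncomputable section

namespace Crest.Agent.T157.Da

open MeasureTheory Matrix Filter Set
open Crest.Agent.T157.E Crest.Agent.T157.Eig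
open Crest.Agent.T157.Tap (V Mx)
open Crest.Agent.T157.Conc (fro)
open Crest.Agent.R164.Haar (Mat RHaar rmul)

namespace Sw85

variable {n : ℕ} {ν : Measure (Mat (Fin n))} [IsProbabilityMeasure ν]
  {C : ℝ} {A S : Mx n → Mx n} {G : Mx n} {k l : ℕ} {d : ℝ}

lemma intg (hν : RHaar ν) {f : Mat (Fin n) → ℝ} (hf : Measurable f) (K : ℝ)
    (hK : ∀ O : Mat (Fin n), Matrix.of O ∈ Matrix.orthogonalGroup (Fin n) ℝ → |f O| ≤ K) :
    Integrable f ν :=
  Integrable.of_bound hf.aestronglyMeasurable K (hν.mem.mono fun O hO => hK O hO)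

lemma intS (hν : RHaar ν) (h : FD0 C A S) (hG : Ball G) (hk : k < n) :
    Integrable (fun O => Phi S G O k k) ν :=
  intg hν (meas_Phi h.mS G k k) (C * n) fun O hO => by
    rw [abs_of_nonneg (phiS_nonneg h hG hO k)]
    simpa using sum_phiS_le h hG hO (J := {k}) (by simpa using hk)

lemma intA2 (hν : RHaar ν) (h : FD0 C A S) (hG : Ball G) (hk : k < n) (hl : l < n) :
    Integrable (fun O => Phi A G O k l ^ 2) ν :=
  intg hν ((meas_Phi h.mA G k l).pow_const 2) (C ^ 2) fun O hO => by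
    rw [abs_pow]; exact pow_le_pow_left₀ (abs_nonneg _) (abs_phiA_le h hG hO hk hl) 2

lemma intD (hν : RHaar ν) (h : FD0 C A S) (hG : Ball G) (hk : k < n) (hl : l < n) :
    Integrable (fun O => (Phi A G O k k - Phi A G O l l) ^ 2) ν :=
  intg hν (((meas_Phi h.mA G k k).sub (meas_Phi h.mA G l l)).pow_const 2) ((C + C) ^ 2)
    fun O hO => by
      rw [abs_pow]
      exact pow_le_pow_left₀ (abs_nonneg _) ((abs_sub _ _).trans
        (add_le_add (abs_phiA_le h hG hO hk hk) (abs_phiA_le h hG hO hl hl))) 2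

/-- transport of a pointwise inequality -/
lemma transp (hν : RHaar ν) {Q : Mx n} (hQ : Q ∈ Matrix.orthogonalGroup (Fin n) ℝ)
    {f g : Mat (Fin n) → ℝ} (hf : Integrable f ν) (hg : Integrable g ν)
    (h : ∀ O : Mat (Fin n), Matrix.of O ∈ Matrix.orthogonalGroup (Fin n) ℝ → f (rmul Q O) ≤ g O) :
    ∫ O, f O ∂ν ≤ ∫ O, g O ∂ν := by
  rw [← hν.integral_rmul hQ f hf.aestronglyMeasurable]
  refine integral_mono_ae ?_ hg (hν.mem.mono fun O hO => h O hO)
  have h1 : Integrable f (ν.map (rmul Q)) := by rw [hν.inv Q hQ]; exact hf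
  exact (integrable_map_measure h1.aestronglyMeasurable
    (Crest.Agent.R164.Haar.continuous_rmul Q).measurable.aemeasurable).1 h1

/-- mean of the diagonal entries of `S` -/
def aS (ν : Measure (Mat (Fin n))) (S : Mx n → Mx n) (G : Mx n) (k : ℕ) : ℝ :=
  ∫ O, Phi S G O k k ∂ν

lemma aS_nonneg (hν : RHaar ν) (h : FD0 C A S) (hG : Ball G) (k : ℕ) : 0 ≤ aS ν S G k :=
  integral_nonneg_of_ae (hν.mem.mono fun _ hO => phiS_nonneg h hG hO k)

lemma intCost (hν : RHaar ν) (h : FD0 C A S) (hG : Ball G) (hk : k < n) (hl : l < n) (d : ℝ) :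
    Integrable (fun O => C * (d ^ 2 * (Phi S G O k k + Phi S G O l l))) ν :=
  (((intS hν h hG hk).add (intS hν h hG hl)).const_mul _).const_mul _

lemma int_cost (hν : RHaar ν) (h : FD0 C A S) (hG : Ball G) (hk : k < n) (hl : l < n) (d : ℝ) :
    ∫ O, C * (d ^ 2 * (Phi S G O k k + Phi S G O l l)) ∂ν =
      C * (d ^ 2 * (aS ν S G k + aS ν S G l)) := by
  rw [integral_const_mul, integral_const_mul, integral_add (intS hν h hG hk) (intS hν h hG hl)]
  rfl

lemma exA (hν : RHaar ν) (hC : 0 ≤ C) (h : FD0 C A S) (hG : Ball G) (hk : k < n) (hl : l < n)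
    (hd : |lam G k - lam G l| ≤ d) (hCd : C * d ^ 2 ≤ 1 / 2) : aS ν S G k ≤ 5 * aS ν S G l := by
  have h0 := aS_nonneg hν h hG k
  have h0' := aS_nonneg hν h hG l
  by_cases hkl : k = l
  · subst hkl; linarith
  have h1 := transp hν (Q_mem (c := 0) (s := 1) hG.1 hk hl hkl (by norm_num)) (intS hν h hG hk)
    (((intS hν h hG hl).const_mul 2).add (intCost hν h hG hk hl d))
    fun O hO => ptA hC h hG hO hk hl hkl hd
  simp only [Pi.add_apply] at h1
  rw [integral_add ((intS hν h hG hl).const_mul 2) (intCost hν h hG hk hl d), integral_const_mul,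
    int_cost hν h hG hk hl] at h1
  change aS ν S G k ≤ 2 * aS ν S G l + _ at h1
  nlinarith [mul_le_mul_of_nonneg_right hCd (add_nonneg h0 h0')]

lemma exA' (hν : RHaar ν) (hC : 0 ≤ C) (h : FD0 C A S) (hG : Ball G) {N : ℕ} (hN : N ≤ n)
    (hk : k < N) (hd : ∀ l < N, |lam G k - lam G l| ≤ d) (hCd : C * d ^ 2 ≤ 1 / 2) :
    N * aS ν S G k ≤ 5 * (C * n) := by
  have h1 : ∑ l ∈ Finset.range N, aS ν S G k ≤ ∑ l ∈ Finset.range N, 5 * aS ν S G l :=
    Finset.sum_le_sum fun l hl => exA hν hC h hG (hk.trans_le hN)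
      ((Finset.mem_range.1 hl).trans_le hN) (hd l (Finset.mem_range.1 hl)) hCd
  rw [Finset.sum_const, Finset.card_range, nsmul_eq_mul, ← Finset.mul_sum] at h1
  have hi : ∀ l ∈ Finset.range N, Integrable (fun O => Phi S G O l l) ν := fun l hl =>
    intS hν h hG ((Finset.mem_range.1 hl).trans_le hN)
  have h2 : ∑ l ∈ Finset.range N, aS ν S G l ≤ C * n := by
    unfold aS
    rw [← integral_finsetSum _ hi]
    refine (integral_mono_ae (integrable_finsetSum _ hi) (integrable_const (C * n))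
      (hν.mem.mono fun O hO => sum_phiS_le h hG hO fun l hl =>
        (Finset.mem_range.1 hl).trans_le hN)).trans ?_
    simp
  linarith

lemma exB (hν : RHaar ν) (hC : 0 ≤ C) (h : FD0 C A S) (hG : Ball G) (hk : k < n) (hl : l < n)
    (hkl : k ≠ l) (hd : |lam G k - lam G l| ≤ d) {I : Finset ℕ}
    (hI : ∀ i ∈ I, i < n ∧ i ≠ k ∧ i ≠ l) :
    ∫ O, ∑ i ∈ I, Phi A G O i k ^ 2 ∂ν ≤ 2 * ∫ O, ∑ i ∈ I, Phi A G O i l ^ 2 ∂ν +
      2 * (C * (d ^ 2 * (aS ν S G k + aS ν S G l))) := by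
  have i1 : Integrable (fun O => ∑ i ∈ I, Phi A G O i k ^ 2) ν :=
    integrable_finsetSum _ fun i hi => intA2 hν h hG (hI i hi).1 hk
  have i2 : Integrable (fun O => ∑ i ∈ I, Phi A G O i l ^ 2) ν :=
    integrable_finsetSum _ fun i hi => intA2 hν h hG (hI i hi).1 hl
  have h1 := transp hν (Q_mem (c := 0) (s := 1) hG.1 hk hl hkl (by norm_num)) i1
    ((i2.const_mul 2).add ((intCost hν h hG hk hl d).const_mul 2))
    fun O hO => ptB hC h hG hO hk hl hkl hd hI
  simp only [Pi.add_apply] at h1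
  rwa [integral_add (i2.const_mul 2) ((intCost hν h hG hk hl d).const_mul 2), integral_const_mul,
    integral_const_mul, int_cost hν h hG hk hl] at h1

lemma exB' (hν : RHaar ν) (hC : 0 ≤ C) (h : FD0 C A S) (hG : Ball G) (hk : k < n)
    {I J : Finset ℕ} {B : ℝ} (hI : ∀ i ∈ I, i < n ∧ i ≠ k ∧ i ∉ J) (hB : aS ν S G k ≤ B)
    (hJ : ∀ l ∈ J, l < n ∧ k ≠ l ∧ |lam G k - lam G l| ≤ d ∧ aS ν S G l ≤ B) :
    J.card * ∫ O, ∑ i ∈ I, Phi A G O i k ^ 2 ∂ν ≤
      2 * (I.card * C ^ 2) + J.card * (4 * (C * (d ^ 2 * B))) := by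
  have h1 : ∑ _l ∈ J, ∫ O, ∑ i ∈ I, Phi A G O i k ^ 2 ∂ν ≤
      ∑ l ∈ J, (2 * ∫ O, ∑ i ∈ I, Phi A G O i l ^ 2 ∂ν + 4 * (C * (d ^ 2 * B))) :=
    Finset.sum_le_sum fun l hl => by
      have h2 := exB hν hC h hG hk (hJ l hl).1 (hJ l hl).2.1 (hJ l hl).2.2.1 (I := I)
        fun i hi => ⟨(hI i hi).1, (hI i hi).2.1, fun e => (hI i hi).2.2 (e ▸ hl)⟩
      have h3 : C * (d ^ 2 * (aS ν S G k + aS ν S G l)) ≤ C * (d ^ 2 * (B + B)) :=
        mul_le_mul_of_nonneg_left (mul_le_mul_of_nonneg_left (add_le_add hB (hJ l hl).2.2.2)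
          (sq_nonneg d)) hC
      linarith
  rw [Finset.sum_const, nsmul_eq_mul, Finset.sum_add_distrib, Finset.sum_const, nsmul_eq_mul,
    ← Finset.mul_sum] at h1
  have hi : ∀ l ∈ J, Integrable (fun O => ∑ i ∈ I, Phi A G O i l ^ 2) ν := fun l hl =>
    integrable_finsetSum _ fun i hi => intA2 hν h hG (hI i hi).1 (hJ l hl).1
  have h2 : ∑ l ∈ J, ∫ O, ∑ i ∈ I, Phi A G O i l ^ 2 ∂ν ≤ I.card * C ^ 2 := by
    rw [← integral_finsetSum _ hi]
    refine (integral_mono_ae (integrable_finsetSum _ hi) (integrable_const (I.card * C ^ 2))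
      (hν.mem.mono fun O hO => ?_)).trans (by simp)
    change ∑ l ∈ J, ∑ i ∈ I, Phi A G O i l ^ 2 ≤ I.card * C ^ 2
    rw [Finset.sum_comm, ← nsmul_eq_mul, ← Finset.sum_const]
    exact Finset.sum_le_sum fun i hi => row_le h hG hO (hI i hi).1 fun l hl => (hJ l hl).1
  linarith

lemma exC (hν : RHaar ν) (hC : 0 ≤ C) (h : FD0 C A S) (hG : Ball G) (hk : k < n) (hl : l < n)
    (hkl : k ≠ l) (hd : |lam G k - lam G l| ≤ d) :
    ∫ O, (Phi A G O k k - Phi A G O l l) ^ 2 ∂ν ≤ 8 * ∫ O, Phi A G O k l ^ 2 ∂ν +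
      8 * (C * (d ^ 2 * (aS ν S G k + aS ν S G l))) := by
  have hc : (√(1 / 2) : ℝ) ^ 2 + √(1 / 2) ^ 2 = 1 := by
    rw [Real.sq_sqrt (by norm_num)]; norm_num
  have hQ := Q_mem hG.1 hk hl hkl hc
  have i1 := intD hν h hG hk hl
  have i2 := intA2 hν h hG hk hl
  have i3 := intCost hν h hG hk hl d
  have h1 := transp hν hQ (f := fun O => -(8 * Phi A G O k l ^ 2)) (g := fun O =>
    8 * (C * (d ^ 2 * (Phi S G O k k + Phi S G O l l))) - (Phi A G O k k - Phi A G O l l) ^ 2)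
    (i2.const_mul 8).neg ((i3.const_mul 8).sub i1)
    fun O hO => by linarith [ptC hC h hG hO hk hl hkl hd hc]
  rw [integral_sub (i3.const_mul 8) i1, integral_neg, integral_const_mul, integral_const_mul,
    int_cost hν h hG hk hl] at h1
  linarith

lemma win (hG : Spec G) {η : ℝ} (hη : e0 n ≤ η) (hk : k < cnt G (2 - η))
    (hl : l < cnt G (2 - η)) : |lam G k - lam G l| ≤ 2 * η := by
  have hH := herm_iff.2 hG.symm
  have h1 := ((lt_cnt_iff hH).1 hk).2
  have h2 := ((lt_cnt_iff hH).1 hl).2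
  have h3 := (lam_le_opn hH k).trans hG.top
  have h4 := (lam_le_opn hH l).trans hG.top
  rw [abs_le]; constructor <;> linarith

lemma cnt_le (G : Mx n) (x : ℝ) : cnt G x ≤ n := by simpa using cnt_le_card G x

lemma e0_tendsto : Tendsto e0 atTop (nhds 0) :=
  (tendsto_rpow_neg_atTop (by norm_num : (0 : ℝ) < 13 / 20)).comp tendsto_natCast_atTop_atTop

/-- the core estimate at three nested scales -/
lemma core (hν : RHaar ν) (hC : 0 < C) (h : FD0 C A S) (hG : Spec G) (hn : 0 < n)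
    {ε ηc η2 t B : ℝ} (hε : 0 < ε) (hc1 : ηc ≤ 1) (h2c : η2 ≤ ηc) (h20 : 0 < η2) (ht0 : 0 < t)
    (ht1 : t ≤ 1 / 8) (he : e0 n ≤ t ^ 2 * η2) (hCc : C * (2 * ηc) ^ 2 ≤ 1 / 2)
    (hB : 320 * C ≤ B * (ηc * √ηc)) (hB2 : 16 * (C * (η2 ^ 2 * B)) ≤ ε / 32)
    (ht2 : 512 * C ^ 2 * t ≤ ε / 32) : SwapOut ν A G (t ^ 2 * η2) ε := by
  have ht3 : t ^ 2 ≤ 1 := by nlinarith
  have h12 : t ^ 2 * η2 ≤ η2 := by nlinarith
  have he2 : e0 n ≤ η2 := he.trans h12
  have hec : e0 n ≤ ηc := he2.trans h2c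
  have hc0 : 0 < ηc := h20.trans_le h2c
  have hGB : Ball G := ⟨hG.symm, by linarith [hG.top]⟩
  have hnr : (0 : ℝ) < n := by exact_mod_cast hn
  have m12 : cnt G (2 - t ^ 2 * η2) ≤ cnt G (2 - η2) := cnt_anti G (by linarith)
  have m2c : cnt G (2 - η2) ≤ cnt G (2 - ηc) := cnt_anti G (by linarith)
  -- bound on the means of `S`
  have hS : ∀ k < cnt G (2 - η2), aS ν S G k ≤ B := fun k hk => by
    have h1 := exA' hν hC.le h hGB (cnt_le G (2 - ηc)) (hk.trans_le m2c)
      (fun l hl => win hG hec (hk.trans_le m2c) hl) hCc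
    have h2 := hG.lo ηc ⟨hec, hc1⟩
    have h3 := aS_nonneg hν h hGB k
    have h4 : 0 < ηc * √ηc := mul_pos hc0 (Real.sqrt_pos.2 hc0)
    unfold Nb at h2
    have h5 : n * (ηc * √ηc) / 64 * aS ν S G k ≤ 5 * (C * n) :=
      (mul_le_mul_of_nonneg_right h2 h3).trans h1
    have h6 : n * ((ηc * √ηc) * aS ν S G k) ≤ n * ((ηc * √ηc) * B) := by nlinarith
    exact le_of_mul_le_mul_left (le_of_mul_le_mul_left h6 hnr) h4
  have hB0 : 0 ≤ B := by
    have h4 : 0 < ηc * √ηc := mul_pos hc0 (Real.sqrt_pos.2 hc0)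
    by_contra hb
    nlinarith [not_le.1 hb]
  -- sizes
  have hNb : Nb n (t ^ 2 * η2) = t ^ 3 * Nb n η2 := by
    unfold Nb
    rw [Real.sqrt_mul (sq_nonneg t), Real.sqrt_sq ht0.le]; ring
  have hN0 : 0 < Nb n η2 := mul_pos hnr (mul_pos h20 (Real.sqrt_pos.2 h20))
  have s1 := hG.hi (t ^ 2 * η2) ⟨he, h12.trans (h2c.trans hc1)⟩
  have s2 := hG.lo η2 ⟨he2, h2c.trans hc1⟩
  rw [hNb] at s1
  have ht4 : t ^ 3 ≤ 1 / 512 := by
    have := pow_le_pow_left₀ ht0.le ht1 3
    norm_num at this ⊢; exact this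
  have ht5 : t ^ 3 ≤ t := by nlinarith
  -- first claim, with the better constant
  have first : ∀ k < cnt G (2 - t ^ 2 * η2),
      ∫ O, ∑ l ∈ (Finset.range (cnt G (2 - t ^ 2 * η2))).erase k, Phi A G O l k ^ 2 ∂ν ≤ ε / 16 := by
    intro k hk
    have hkn : k < n := hk.trans_le (cnt_le G _)
    have h1 := exB' hν hC.le h hGB hkn (d := 2 * η2) (B := B)
      (I := (Finset.range (cnt G (2 - t ^ 2 * η2))).erase k)
      (J := Finset.Ico (cnt G (2 - t ^ 2 * η2)) (cnt G (2 - η2)))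
      (fun i hi => by
        rw [Finset.mem_erase, Finset.mem_range] at hi
        refine ⟨hi.2.trans_le (cnt_le G _), hi.1, fun hj => ?_⟩
        exact absurd (Finset.mem_Ico.1 hj).1 (not_le.2 hi.2))
      (hS k (hk.trans_le m12))
      (fun l hl => by
        rw [Finset.mem_Ico] at hl
        exact ⟨hl.2.trans_le (cnt_le G _), (hk.trans_le hl.1).ne,
          win hG he2 (hk.trans_le m12) hl.2, hS l hl.2⟩)
    rw [Nat.card_Ico, Nat.cast_sub m12] at h1
    have h2 : ((((Finset.range (cnt G (2 - t ^ 2 * η2))).erase k).card : ℕ) : ℝ) ≤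
        cnt G (2 - t ^ 2 * η2) := by
      exact_mod_cast Finset.card_erase_le.trans (Finset.card_range _).le
    set J : ℝ := (cnt G (2 - η2) : ℝ) - cnt G (2 - t ^ 2 * η2) with hJ
    have hJ1 : Nb n η2 / 128 ≤ J := by nlinarith
    have hJ0 : 0 < J := lt_of_lt_of_le (by positivity) hJ1
    have h3 : 2 * (((((Finset.range (cnt G (2 - t ^ 2 * η2))).erase k).card : ℕ) : ℝ) * C ^ 2) ≤
        J * (ε / 32) := by
      have h4 : 2 * (((((Finset.range (cnt G (2 - t ^ 2 * η2))).erase k).card : ℕ) : ℝ) * C ^ 2) ≤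
          2 * ((2 * (t * Nb n η2)) * C ^ 2) := by
        refine mul_le_mul_of_nonneg_left (mul_le_mul_of_nonneg_right ?_ (sq_nonneg C)) zero_le_two
        nlinarith
      have h5 : Nb n η2 / 128 * (512 * C ^ 2 * t) ≤ J * (ε / 32) :=
        mul_le_mul hJ1 ht2 (by positivity) hJ0.le
      linarith
    have h4 : J * (4 * (C * ((2 * η2) ^ 2 * B))) ≤ J * (ε / 32) :=
      mul_le_mul_of_nonneg_left (by linarith) hJ0.le
    refine le_of_mul_le_mul_left ?_ hJ0
    linarith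
  intro k hk
  refine ⟨(first k hk).trans (by linarith), fun l hl => ?_⟩
  by_cases hkl : k = l
  · subst hkl; simpa using hε.le
  have hkn : k < n := hk.trans_le (cnt_le G _)
  have hln : l < n := hl.trans_le (cnt_le G _)
  have h1 := exC hν hC.le h hGB hkn hln hkl (win hG he2 (hk.trans_le m12) (hl.trans_le m12))
  have h2 : ∫ O, Phi A G O k l ^ 2 ∂ν ≤ ε / 16 := by
    refine le_trans (integral_mono (intA2 hν h hGB hkn hln) (integrable_finsetSum _ fun i hi =>
      intA2 hν h hGB ((Finset.mem_range.1 (Finset.mem_erase.1 hi).2).trans_le (cnt_le G _)) hln)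
      fun O => ?_) (first l hl)
    exact Finset.single_le_sum (f := fun i => Phi A G O i l ^ 2) (fun i _ => sq_nonneg _)
      (Finset.mem_erase.2 ⟨hkl, Finset.mem_range.2 hk⟩)
  have h3 : C * ((2 * η2) ^ 2 * (aS ν S G k + aS ν S G l)) ≤ C * ((2 * η2) ^ 2 * (B + B)) :=
    mul_le_mul_of_nonneg_left (mul_le_mul_of_nonneg_left
      (add_le_add (hS k (hk.trans_le m12)) (hS l (hl.trans_le m12))) (sq_nonneg _)) hC.le
  linarith

end Sw85

theorem swapStmt : SwapStmt := by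
  intro C hC ε hε
  set ηc : ℝ := 1 / (1 + 8 * C) with hηc
  have hc0 : 0 < ηc := by positivity
  have hc1 : ηc ≤ 1 := by rw [hηc, div_le_one (by positivity)]; linarith
  have hc2 : ηc * (1 + 8 * C) = 1 := by rw [hηc]; field_simp
  have hCc : C * (2 * ηc) ^ 2 ≤ 1 / 2 := by nlinarith [mul_pos hC hc0]
  have hs : 0 < ηc * √ηc := mul_pos hc0 (Real.sqrt_pos.2 hc0)
  set B : ℝ := 320 * C / (ηc * √ηc) with hB
  have hB0 : 0 < B := by positivity
  have hB1 : 320 * C ≤ B * (ηc * √ηc) := by rw [hB, div_mul_cancel₀ _ hs.ne']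
  set η2 : ℝ := min ηc (ε / (512 * (C * B))) with hη2
  have h20 : 0 < η2 := lt_min hc0 (by positivity)
  have h2c : η2 ≤ ηc := min_le_left _ _
  have h2e : η2 * (512 * (C * B)) ≤ ε := (le_div_iff₀ (by positivity)).1 (min_le_right _ _)
  have hB2 : 16 * (C * (η2 ^ 2 * B)) ≤ ε / 32 := by
    have h1 : η2 ^ 2 ≤ η2 := by nlinarith
    have h2 := mul_le_mul_of_nonneg_right h1 (mul_pos hC hB0).le
    nlinarith
  set t : ℝ := min (1 / 8) (ε / (16384 * C ^ 2)) with ht
  have ht0 : 0 < t := lt_min (by norm_num) (by positivity)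
  have ht1 : t ≤ 1 / 8 := min_le_left _ _
  have hte : t * (16384 * C ^ 2) ≤ ε := (le_div_iff₀ (by positivity)).1 (min_le_right _ _)
  have hη : 0 < t ^ 2 * η2 := by positivity
  refine ⟨t ^ 2 * η2, ⟨hη, by nlinarith [sq_nonneg t]⟩, ?_⟩
  filter_upwards [Sw85.e0_tendsto.eventually (ge_mem_nhds hη), eventually_gt_atTop 0]
    with n he hn ν hp hν A S hF G ξ hG
  exact Sw85.core hν hC (Sw85.fd0_of hF ξ) hG hn hε hc1 h2c h20 ht0 ht1 he hCc hB1 hB2 (by linarith)

end Crest.Agent.T157.Da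

end
end

-- ▼ part T157/DaTop_82
section

/-!
# Row 157, part C (helper82): (DA) and (DL), unconditional
-/

set_option autoImplicit false

namespace Crest.Agent.T157.Da

theorem pda : PDA := pdaGlue feApi fdStmt lipStmt specStmt isoStmt haarStmt swapStmt
  (meanGlue feApi) (rotGlue feApi) (concGlue feApi) detStmt

theorem daStmt : DAStmt :=
  da_of pda (cenGlue feApi fdStmt lipStmt specStmt (concGlue feApi)) plantC gaugeStmt

theorem seStmt : SEStmt := seGlue gfomStmt repStmt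

theorem dlStmt : DLStmt :=
  dl_of (pdlGlue specStmt pda (sefGlue feApi fdStmt specStmt trStmt discStmt seStmt)) plantC gaugeStmt

end Crest.Agent.T157.Da
end

-- ▼ part T157/TopZ_88
section

/-!
# Row 157: the four open statements from the outputs of the blocks (helper88)

* `AOut a κ T` : block A2, the Gaussian covariance windows;
* `KOut a κ` : the covariance windows for coins;
* `CnL`, `CqL` : the leaves of `CnDef_63` and `CqDef_72`;
* block B : `Top.CutoffStmt`.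
-/

set_option autoImplicit false

namespace Crest.Agent.T157.TopZ

open Crest.ProbabilityR.SpinGlassDynamics

/-- **block A2** -/
structure AOut (a κ T : ℝ) : Prop where
  star : Q1.AStar false a κ T
  w2 : Q1.W2R
  sharp : Tr.AStmt disorderLaw
  aw : Rec.AwStmt

/-- **the coin windows** -/
def KOut (a κ : ℝ) : Prop := ∀ T, 0 < T → Cn.FroC T → Q1.AStar true a κ T ∧ Cn.WinC T

/-- the leaves of `CnDef_63` -/
structure CnL : Prop where
  boch : Cn.BochStmt
  fro : Cn.FroGlue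
  frz : Cn.FrzC
  opn : Cn.OpnC
  fld : Cn.FldC
  top : Cn.TopGlue
  term : Cn.TermGlue
  lev : Cn.LevGlue

/-- the leaves of `CqDef_72` -/
structure CqL : Prop where
  bd : Cq.BdStmt
  iso : Cq.IsoStmt
  scm : Cq.ScMeas
  ms : Cq.MsStmt
  scl : Cq.SclGlue
  cv : Cq.CvGlue
  ut : Cq.UtGlue
  i12 : Cq.I12Glue
  sg : Cq.SgGlue
  sgc : Cq.SgCoin
  ts : Cq.TsGlue
  cyl : Cq.CylStmt
  tv : Cq.TvStmt
  soft : Cq.SoftGlue
  stat : Cq.StatGlue
  disc : Cq.DiscGlue
  kl : Cq.KlStmt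
  kern : Cq.KernStmt
  osc : Cq.OscGlue
  pi : Cq.PiGlue
  mg : Cq.MgGlue
  kap : Cq.KapStmt
  mass : Cq.MassStmt
  cr : Cq.CrGlue
  kill : Cq.KillStmt
  spec : ∀ b, Cq.SpecStmt b
  swap : ∀ b, Cq.SwapStmt b
  p0 : Cq.P0Glue
  round : Cq.RoundGlue
  q3 : Cq.Q3Glue
  top : Cq.TopGlue

variable {a κ T : ℝ}

/-- **S0229** -/
theorem r29 (ha : 0 < a) (ha' : a < 2 / 3) (hκ : 0 < κ) (hκ' : κ ≤ 1 / 30) (hT : 0 < T)
    (A : AOut a κ T) : Top.R29 :=
  Q1.r29 ha ha' hκ hκ' hT A.star A.w2 A.sharp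


theorem down (ha : 0 < a) (ha' : a < 2 / 3) (hκ : 0 < κ) (hκ' : κ ≤ 1 / 30) (hT : 0 < T)
    (A : AOut a κ T) (K : KOut a κ) (N : CnL) : ∀ b, Q1.DownStmt b a
  | false => Q1.downStmt ha ha' hκ hκ' hT A.star A.w2
  | true => by
    obtain ⟨T', hT', hF⟩ := N.fro N.boch N.frz N.opn
    obtain ⟨h1, h2⟩ := K T' hT' hF
    exact Q1.downStmt_of ha (Q1.spStmt_of ha ha'.le hκ hκ' hT' h1
      (N.term κ T' (by linarith) hT' hF N.opn) (Un.ldB true)
      (N.lev a κ T' ha' hκ hT' h2 hF N.opn N.fld (N.top (Q1.levCrit A.w2) LpAll.topLp)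
        (Un.ldB true)))

theorem abfdd (ha : 5 / 9 < a) (hA : Tr.AStmt disorderLaw) (hw : Rec.AwStmt)
    (hD : ∀ b, Q1.DownStmt b a) (Q : CqL) : Soft.ABFddStmt := by
  have a0 : 0 < a := by linarith
  have ap := Tr.ap_of hA (Tr.p1Stmt_of_tail Q1.tailStmt)
  obtain ⟨k, hk, ds, i2⟩ := Rec.i12' Da.daStmt Da.dlStmt Da.grStmt ap Tr.hStmt hw
    (Wp.wp_of hA Q1.tailStmt)
  have i12 := Q.i12 k hk (Tr.i1_of' ap hk ds) i2
  have scl := Q.scl Q.bd
  have stat := Q.stat Sp.domStmt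
  exact Q.top k a hk a0 Q.bd Q.scm (Q.cv Q.bd scl Q.iso Q.scm) (Q.ut Q.bd Q.scm)
    (fun b => match b with
      | false => Q.sg k hk Q.bd i12
      | true => Q.sgc k hk Q.bd i12)
    (Q.ts k hk Q.bd i12 (Tr.crudeV_of ap))
    (Q.mg k a hk a0 Q.bd scl Q.iso Q.cyl (Q.soft stat)
      (Q.pi Q.bd Q.tv stat (Q.disc Q.bd scl Q.tv Sp.All.sWinStmt Sp.largeStmt) Q.kl (Q.osc Q.kern))
      i12 (hD false))
    hD Un.ldB fun b => Cq.q3_of ha Q.p0 Q.round Q.q3 Q.kap Q.ms (Q.cr Q.mass) Q.kill (Q.spec b)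
      (Q.swap b) (hD b) (Un.ldB b)

/-- **S0233** -/
theorem r33 (ha : 5 / 9 < a) (ha' : a < 2 / 3) (hκ : 0 < κ) (hκ' : κ ≤ 1 / 30) (hT : 0 < T)
    (A : AOut a κ T) (K : KOut a κ) (N : CnL) (Q : CqL) : Top.R33 :=
  have a0 : 0 < a := by linarith
  have hD := down a0 ha' hκ hκ' hT A K N
  Soft.r33_of_q1 (abfdd ha A.sharp A.aw hD Q) (Q1.q1e_of_down a0 hD) (Q1.ld2_of Un.ldB)
    (Wp.mix_of A.sharp Q1.tailStmt)

/-- **S0232** (no leaf of `CqDef_72` is needed for the coins, but the Gaussian convergence is) -/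
theorem r32 (ha : 5 / 9 < a) (ha' : a < 2 / 3) (hκ : 0 < κ) (hκ' : κ ≤ 1 / 30) (hT : 0 < T)
    (A : AOut a κ T) (K : KOut a κ) (N : CnL) (Q : CqL) : Top.R32 :=
  have a0 : 0 < a := by linarith
  have hD := down a0 ha' hκ hκ' hT A K N
  St.All.r32_of_q1 (Soft.afdd_of_abfdd (abfdd ha A.sharp A.aw hD Q)) (Q1.q1e_of_down a0 hD)
    (Q1.ld2_of Un.ldB) (Wp.mix_of A.sharp Q1.tailStmt)

end Crest.Agent.T157.TopZ
end

-- ▼ part T157/CnFld_90
section

/-!
# Row 157, part C (helper90): large local fields for coin couplings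
-/

set_option autoImplicit false

noncomputable section

namespace Crest.Agent.T157.Cn

open MeasureTheory Filter Topology Set Real Matrix
open Crest.ProbabilityR.SpinGlassDynamics
open Crest.Agent.T157.SL Crest.Agent.T157.E Crest.Agent.T157.Pl Crest.Agent.T157.Q1

variable {n : ℕ}

namespace Fld90

theorem sinh_le_mul {x : ℝ} (hx : 0 ≤ x) : sinh x ≤ x * cosh x := by
  have h0 : exp (-x) * exp x = 1 := by rw [← exp_add]; simp
  have h1 : (1 - x) * exp (2 * x) ≤ 1 + x := by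
    rcases lt_or_ge x 1 with h | h
    · have := exp_le_two_add_div_two_sub (x := 2 * x) (by linarith) (by linarith)
      rw [le_div_iff₀ (by linarith)] at this
      linarith
    · nlinarith [exp_pos (2 * x)]
  have h2 : exp (2 * x) = exp x * exp x := by rw [← exp_add]; ring_nf
  rw [sinh_eq, cosh_eq]
  rw [h2] at h1
  have h3 := mul_le_mul_of_nonneg_left h1 (exp_pos (-x)).le
  have h4 : exp (-x) * ((1 - x) * (exp x * exp x)) = (1 - x) * exp x := by
    calc _ = (1 - x) * exp x * (exp (-x) * exp x) := by ring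
      _ = _ := by rw [h0, mul_one]
  rw [h4] at h3
  nlinarith

theorem abs_sinh_le (x : ℝ) : |sinh x| ≤ |x| * cosh x := by
  rw [abs_sinh, ← cosh_abs]; exact sinh_le_mul (abs_nonneg x)

theorem cosh_add_le (a v : ℝ) : cosh (a + v) ≤ cosh a * exp (v ^ 2 / 2 + |a| * |v|) := by
  have h1 : sinh a * sinh v ≤ (|a| * cosh a) * (|v| * cosh v) :=
    (le_abs_self _).trans (by
      rw [abs_mul]
      exact mul_le_mul (abs_sinh_le a) (abs_sinh_le v) (abs_nonneg _)
        (mul_nonneg (abs_nonneg _) (cosh_pos _).le))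
  have h2 : cosh v * (|a| * |v| + 1) ≤ exp (v ^ 2 / 2) * exp (|a| * |v|) :=
    mul_le_mul (cosh_le_exp_half_sq v) (add_one_le_exp _) (by positivity) (exp_pos _).le
  rw [cosh_add, exp_add]
  nlinarith [mul_le_mul_of_nonneg_left h2 (cosh_pos a).le]

theorem int_tilt {ι : Type*} [Fintype ι] (a v : ι → ℝ) :
    Integrable (fun g => exp (g ⬝ᵥ v)) (tilted true a) ∧
      ∫ g, exp (g ⬝ᵥ v) ∂tilted true a ≤ exp (v ⬝ᵥ v / 2 + ∑ p, |a p| * |v p|) := by
  have e : (fun g : ι → ℝ => exp (g ⬝ᵥ a) * exp (g ⬝ᵥ v)) = fun g => exp (g ⬝ᵥ (a + v)) := by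
    funext g; rw [← exp_add, dotProduct_add]
  refine ⟨(integrable_exp_mul true a _).1 (by rw [e]; exact integrable_exp_dot true _), ?_⟩
  have h := integral_exp_mul true a fun g => exp (g ⬝ᵥ v)
  rw [e, integral_exp_dot] at h
  refine le_of_mul_le_mul_left ?_ (MM_pos true a)
  rw [← h, dotProduct, Finset.sum_div, ← Finset.sum_add_distrib, exp_sum, MM, MM,
    ← Finset.prod_mul_distrib]
  refine Finset.prod_le_prod (fun _ _ => (M_pos _ _).le) fun i _ => ?_
  rw [M_true, M_true, ← sq]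
  exact cosh_add_le _ _

theorem int_PP {q a : ℝ} (hn : 0 < n) (hq : 0 ≤ q) (ha : 0 ≤ a) (x : Cube n) :
    Integrable (fun g => PP q a (Jmat n g *ᵥ sv x)) (tilted true (th n 1 • tau x)) ∧
      ∫ g, PP q a (Jmat n g *ᵥ sv x) ∂tilted true (th n 1 • tau x) ≤
        exp (n * (2 * q * exp (a + a ^ 2))) := by
  have n0 : (0 : ℝ) < n := by exact_mod_cast hn
  have s0 : 0 < √(n : ℝ) := sqrt_pos.2 n0
  set e : (Fin n → Option Bool) → Fin n → ℝ := fun s i => (s i).elim 0 spin with he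
  set v : (Fin n → Option Bool) → Pair n → ℝ := fun s p =>
    a * ((e s p.1.1 * sv x p.1.2 + e s p.1.2 * sv x p.1.1) / √n) with hv
  have e1 : ∀ g, PP q a (Jmat n g *ᵥ sv x) = ∑ s : Fin n → Option Bool,
      (∏ i, (s i).elim 1 fun _ => q) * exp (g ⬝ᵥ v s) := fun g => by
    have := prod_exp q (fun i t => t * (a * (Jmat n g *ᵥ sv x) i)) fun _ => zero_mul _
    simp only [one_mul, neg_mul] at this
    rw [PP, this]
    refine Finset.sum_congr rfl fun s _ => ?_
    congr 2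
    have : g ⬝ᵥ v s = a * (e s ⬝ᵥ Jmat n g *ᵥ sv x) := by
      rw [Nrm.bil_Jmat, Finset.mul_sum]
      exact Finset.sum_congr rfl fun p _ => by simp only [hv]; ring
    rw [this, dotProduct, Finset.mul_sum]
    exact Finset.sum_congr rfl fun i _ => by simp only [he]; ring
  have i1 : ∀ s : Fin n → Option Bool, Integrable (fun g => (∏ i, (s i).elim 1 fun _ => q) *
      exp (g ⬝ᵥ v s)) (tilted true (th n 1 • tau x)) := fun s =>
    (int_tilt _ (v s)).1.const_mul _
  simp only [e1]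
  refine ⟨integrable_finsetSum _ fun s _ => i1 s, ?_⟩
  rw [integral_finsetSum _ fun s _ => i1 s]
  have e2 := prod_exp (n := n) q (fun _ t => (a + a ^ 2) * (t * t)) fun _ => by simp
  simp only [mul_one, mul_neg, neg_neg, Finset.prod_const, Finset.card_univ,
    Fintype.card_fin] at e2
  refine le_trans (Finset.sum_le_sum fun s _ => ?_) (e2.ge.trans ?_)
  · rw [integral_const_mul]
    refine mul_le_mul_of_nonneg_left ?_ (Finset.prod_nonneg fun i _ => by
      cases s i <;> simp [hq])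
    refine (int_tilt _ (v s)).2.trans ?_
    rw [← Finset.mul_sum]
    refine exp_le_exp.2 ?_
    have ee : ∀ i, |e s i| = e s i * e s i := fun i => by
      simp only [he]
      rcases s i with _ | _ | _ <;> simp [spin]
    have b1 : ∑ p, |(th n 1 • tau x) p| * |v s p| ≤ a * (e s ⬝ᵥ e s) := by
      have h1 : ∀ p : Pair n, |(th n 1 • tau x) p| * |v s p| ≤
          a / n * (|e s p.1.1| + |e s p.1.2|) := fun p => by
        have t1 : |(th n 1 • tau x) p| = 1 / √n := by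
          rw [Pi.smul_apply, smul_eq_mul, abs_mul, tau, abs_mul, abs_spin, abs_spin, th,
            abs_of_nonneg (by positivity)]
          ring
        have t2 : |e s p.1.1 * sv x p.1.2 + e s p.1.2 * sv x p.1.1| ≤
            |e s p.1.1| + |e s p.1.2| := (abs_add_le _ _).trans (by
          simp only [abs_mul, sv, abs_spin, mul_one, le_refl])
        have t3 : |v s p| ≤ a * ((|e s p.1.1| + |e s p.1.2|) / √n) := by
          simp only [hv]
          rw [abs_mul, abs_of_nonneg ha, abs_div, abs_of_pos s0]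
          exact mul_le_mul_of_nonneg_left (div_le_div_of_nonneg_right t2 s0.le) ha
        rw [t1]
        refine (mul_le_mul_of_nonneg_left t3 (by positivity)).trans_eq ?_
        have := mul_self_sqrt n0.le
        field_simp
        rw [sq, this]; ring
      refine (Finset.sum_le_sum fun p _ => h1 p).trans ?_
      have h2 := Nrm.sum_pair_le (fun i j => |e s i| + |e s j|) (fun i j => add_comm _ _)
        (fun i => by positivity)
      simp only [Finset.sum_add_distrib, Finset.sum_const, Finset.card_univ, Fintype.card_fin,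
        nsmul_eq_mul, ← Finset.mul_sum] at h2
      rw [← Finset.mul_sum, Finset.sum_add_distrib, div_mul_eq_mul_div, mul_div_assoc]
      refine mul_le_mul_of_nonneg_left ((div_le_iff₀ n0).2 ?_) ha
      have h3 : e s ⬝ᵥ e s = ∑ i, |e s i| := Finset.sum_congr rfl fun i _ => (ee i).symm
      rw [h3]; linarith
    have b2 : v s ⬝ᵥ v s ≤ 2 * a ^ 2 * (e s ⬝ᵥ e s) := by
      have := Nrm.sum_pair_sq_le (e s) (sv x)
      rw [sv_dot_self] at this
      simp only [hv, dotProduct, ← sq, mul_pow, div_pow, sq_sqrt n0.le, ← Finset.mul_sum,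
        ← Finset.sum_div] at this ⊢
      rw [mul_comm 2, mul_assoc]
      exact mul_le_mul_of_nonneg_left ((div_le_iff₀ n0).2 (by linarith)) (sq_nonneg a)
    change _ ≤ _ * (e s ⬝ᵥ e s)
    linarith
  · rw [exp_nat_mul]
    exact pow_le_pow_left₀ (by positivity) (by linarith [add_one_le_exp (2 * q * exp (a + a ^ 2))]) n

end Fld90

/-- **large local fields**, coins -/
theorem fldC : FldC := by
  intro γ hγ
  have l := Chain22.tendsto_exp_neg_rpow_mul hγ 4
  refine Top.whp_of_real_le (by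
    simpa using (tendsto_LR_lt_rpow true zero_le_one le_rfl hγ).add l) ?_
  filter_upwards [l.eventually (ge_mem_nhds one_pos), eventually_gt_atTop 0,
    ((tendsto_rpow_atTop hγ).comp tendsto_natCast_atTop_atTop).eventually_ge_atTop 30]
    with n h1 hn hθ
  simp only [Function.comp] at hθ
  have n0 : (0 : ℝ) < n := by exact_mod_cast hn
  have eL : (n : ℝ) ^ (2 * γ) = (n : ℝ) ^ γ * (n : ℝ) ^ γ := by
    rw [← rpow_add n0]; ring_nf
  rw [eL]
  set θ := (n : ℝ) ^ γ
  set q := exp (-(6 * θ * (θ * θ) / 4))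
  have I := fun x : Cube n => Fld90.int_PP hn (exp_pos (-(6 * θ * (θ * θ) / 4))).le (a := 6 * θ)
    (by linarith) x
  have := transfer_mean (n := n) true 1 (F := fun x g => PP q (6 * θ) (Jmat n g *ᵥ sv x) - 1)
    (fun x g => sub_nonneg.2 (one_le_PP (exp_pos _).le _ _)) (fun x => by
      rw [← integrable_plant true 1 x fun g => PP q (6 * θ) (Jmat n g *ᵥ sv x) - 1]
      exact (I x).1.sub (integrable_const _)) one_pos (exp_pos (-θ))
  refine le_trans (measureReal_mono fun g hg => ?_) (this.trans (add_le_add le_rfl ?_))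
  · have hw := wt_gibbs (n := n) 1 g
    simp only [mem_ofPred_eq, not_le] at hg ⊢
    rw [mean_sub, hw.mean_const]
    linarith [hw.mean_mono (exp_big_le (by linarith : 0 ≤ θ) (by nlinarith : 2 ≤ θ * θ) g)]
  set z := n * (2 * q * exp (6 * θ + (6 * θ) ^ 2))
  have z0 : 0 ≤ z := by positivity
  have z1 : 2 * z ≤ exp (-(θ / 2)) * (n * 4) * exp (-θ) := by
    have : q * exp (6 * θ + (6 * θ) ^ 2) ≤ exp (-(θ / 2)) * exp (-θ) := by
      rw [← exp_add, ← exp_add]
      refine exp_le_exp.2 ?_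
      have : 30 * (θ * θ) ≤ θ * (θ * θ) := mul_le_mul_of_nonneg_right hθ (by positivity)
      nlinarith
    nlinarith [mul_le_mul_of_nonneg_left this (show (0 : ℝ) ≤ n * 4 by positivity)]
  have z2 : z ≤ 1 := by
    nlinarith [mul_le_mul h1 (exp_le_one_iff.2 (show -θ ≤ 0 by linarith)) (exp_pos _).le zero_le_one]
  rw [one_mul, div_le_iff₀ (exp_pos _), div_le_iff₀ (by positivity), ← card_cube]
  refine (Finset.sum_le_card_nsmul _ _ _ fun x _ => ?_).trans_eq (by
    rw [nsmul_eq_mul, Finset.card_univ, mul_comm])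
  rw [← integral_plant true 1 x fun g => PP q (6 * θ) (Jmat n g *ᵥ sv x) - 1,
    integral_sub (I x).1 (integrable_const _)]
  simp only [integral_const, probReal_univ, smul_eq_mul, mul_one]
  have := abs_exp_sub_one_le (x := z) (by rwa [abs_of_nonneg z0])
  rw [abs_of_nonneg z0] at this
  have h2 := (I x).2
  linarith [le_abs_self (exp z - 1)]

end Crest.Agent.T157.Cn

end
end

-- ▼ part T157/CnFrz_49
section

/-!
# Row 157, part C (helper49): `OpnC` and `FrzC`

* `opn_three b`: `‖J‖ ≤ 3` with high probability (from the tail of the edge), both laws;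
* `whp_sub b`: all principal blocks of at most `κ n` sites have norm at most `1/16`;
* `frz b`: `Frz (Jmat n g) ε` with high probability, both laws.
-/

set_option autoImplicit false

noncomputable section

namespace Crest.Agent.T157.Cn

open MeasureTheory ProbabilityTheory Matrix Real Filter Topology Finset
open Crest.ProbabilityR.SpinGlassDynamics
open Crest.Agent.T157.E Crest.Agent.T157.Eig Crest.Agent.T157.Top Crest.Agent.T157.Tap

namespace Frz49

variable {n : ℕ}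

theorem opn_three (b : Bool) : Whp (couplingLaw b) fun n g => opn (Jmat n g) ≤ 3 := by
  obtain ⟨C, hC⟩ := Ed.All.tailStmt.2 1 zero_le_one
  have ht : Tendsto Ed.tau atTop atTop :=
    (tendsto_rpow_atTop (by norm_num)).comp tendsto_natCast_atTop_atTop
  refine whp_of_real_le (a := fun n => 2 * C * exp (-(Ed.tau n))) ?_ ?_
  · simpa using (tendsto_exp_neg_atTop_nhds_zero.comp ht).const_mul (2 * C)
  filter_upwards [hC, ht.eventually_gt_atTop 0] with n hn h0
  obtain ⟨h1, h2⟩ := hn b (Ed.tau n) h0.le le_rfl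
  have hs : {g | ¬ opn (Jmat n g) ≤ 3} ⊆ {g | Ed.Lam n (Jmat n g) 0 ≤ -Ed.tau n} ∪
      {g | Ed.Lam n (-Jmat n g) 0 ≤ -Ed.tau n} := by
    intro g hg
    have hg' : 3 < opn (Jmat n g) := not_le.1 hg
    rw [opn_eq_max (Jmat_isHermitian g), lt_max_iff] at hg'
    rcases hg' with h | h
    · left
      show Ed.tau n * (2 - lam (Jmat n g) 0) ≤ -Ed.tau n
      nlinarith
    · right
      show Ed.tau n * (2 - lam (-Jmat n g) 0) ≤ -Ed.tau n
      nlinarith
  refine (measureReal_mono hs (measure_ne_top _ _)).trans ((measureReal_union_le _ _).trans ?_)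
  rw [one_mul] at h1 h2
  linarith

/-- the principal block on `S` -/
def blk (J : Mx n) (S : Finset (Fin n)) : Matrix S S ℝ := J.submatrix Subtype.val Subtype.val

lemma bil_blk (J : Mx n) (S : Finset (Fin n)) (c e : S → ℝ) :
    c ⬝ᵥ blk J S *ᵥ e = (emb Subtype.val *ᵥ c) ⬝ᵥ J *ᵥ (emb Subtype.val *ᵥ e) := by
  rw [blk, ← emb_compress, ← mulVec_mulVec, ← mulVec_mulVec, dotProduct_mulVec, vecMul_transpose]

lemma emb_dot (S : Finset (Fin n)) (c : S → ℝ) :
    (emb (Subtype.val : S → Fin n) *ᵥ c) ⬝ᵥ (emb Subtype.val *ᵥ c) = c ⬝ᵥ c :=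
  dot_isom (emb_isom Subtype.val_injective) c c

lemma blk_tail (b : Bool) (hn : 0 < n) (S : Finset (Fin n)) :
    (couplingLaw b n).real {g | 1 / 16 < opn (blk (Jmat n g) S)} ≤
      25 ^ S.card * exp (-(n / 16384)) := by
  have hn' : (0 : ℝ) < n := Nat.cast_pos.2 hn
  rw [couplingLaw_eq]
  obtain ⟨N, hNc, hN1, hN⟩ := Nrm.exists_half_net S
  have hsub : {g | 1 / 16 < opn (blk (Jmat n g) S)} ⊆
      ⋃ q ∈ N ×ˢ N, {g : Pair n → ℝ | 1 / 64 ≤
        (emb Subtype.val *ᵥ q.1) ⬝ᵥ Jmat n g *ᵥ (emb Subtype.val *ᵥ q.2)} := by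
    intro g hg
    by_contra hc
    simp only [Set.mem_iUnion, not_exists, Set.mem_ofPred_eq, not_le, mem_product] at hc
    have := Nrm.opn_le_of_net hN hN (A := blk (Jmat n g) S) (M := 1 / 64) fun c hc' d hd => by
      rw [bil_blk]; exact (hc (c, d) ⟨hc', hd⟩).le
    have hg' : 1 / 16 < opn (blk (Jmat n g) S) := hg
    linarith
  have h1 : ∀ q ∈ N ×ˢ N, (Measure.pi fun _ : Pair n => entryLaw b).real
      {g : Pair n → ℝ | 1 / 64 ≤ (emb Subtype.val *ᵥ q.1) ⬝ᵥ Jmat n g *ᵥ (emb Subtype.val *ᵥ q.2)} ≤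
      exp (-(n / 16384)) := by
    intro q hq
    rw [mem_product] at hq
    have a1 := (nrm_le_iff zero_le_one).1 (hN1 _ hq.1)
    have a2 := (nrm_le_iff zero_le_one).1 (hN1 _ hq.2)
    have := (Nrm.subG_bil_Jmat (fun _ : Pair n => entryLaw b) (fun _ => Nrm.subG_entryLaw b)
      (u := emb Subtype.val *ᵥ q.1) (v := emb Subtype.val *ᵥ q.2)
      (c := NNReal.mk (2 / n) (by positivity)) (by
      rw [NNReal.coe_mk, emb_dot, emb_dot]
      refine div_le_div_of_nonneg_right ?_ hn'.le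
      nlinarith [dot_self_nonneg q.1, dot_self_nonneg q.2])).measure_ge_le
      (ε := 1 / 64) (by positivity)
    refine this.trans (le_of_eq ?_)
    rw [NNReal.coe_mk]
    congr 1
    field_simp
    ring
  refine (measureReal_mono hsub (measure_ne_top _ _)).trans
    ((measureReal_biUnion_finset_le _ _).trans ((sum_le_sum h1).trans ?_))
  rw [sum_const, card_product, nsmul_eq_mul]
  refine mul_le_mul_of_nonneg_right ?_ (exp_pos _).le
  have h6 : (N.card : ℝ) ≤ 5 ^ S.card := by simpa using (Nat.cast_le (α := ℝ)).2 hNc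
  push_cast
  rw [show (25 : ℝ) = 5 * 5 by norm_num, mul_pow]
  exact mul_le_mul h6 h6 (Nat.cast_nonneg _) (by positivity)

/-- weighted count of the small sets -/
lemma count_le (L k : ℝ) (hL : 0 ≤ L) :
    ∑ S ∈ (univ : Finset (Finset (Fin n))).filter (fun S => (S.card : ℝ) ≤ k), (25 : ℝ) ^ S.card ≤
      exp (L * k + n * (25 * exp (-L))) := by
  have h1 : ∑ S ∈ (univ : Finset (Finset (Fin n))).filter (fun S => (S.card : ℝ) ≤ k),
      (25 : ℝ) ^ S.card ≤ ∑ S : Finset (Fin n), exp (L * k) * (25 * exp (-L)) ^ S.card := by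
    refine (sum_le_sum fun S hS => ?_).trans
      (sum_le_sum_of_subset_of_nonneg (filter_subset _ _) fun S _ _ => by positivity)
    have hk := (mem_filter.1 hS).2
    rw [mul_pow, ← exp_nat_mul, mul_left_comm, ← exp_add]
    refine le_mul_of_one_le_right (by positivity) (one_le_exp ?_)
    nlinarith
  refine h1.trans ?_
  rw [← mul_sum, exp_add]
  refine mul_le_mul_of_nonneg_left ?_ (exp_pos _).le
  have h2 := Finset.sum_pow_mul_eq_add_pow (25 * exp (-L)) (1 : ℝ) (univ : Finset (Fin n))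
  simp only [one_pow, mul_one, powerset_univ, card_univ, Fintype.card_fin] at h2
  rw [h2, exp_nat_mul]
  exact pow_le_pow_left₀ (by positivity) (add_one_le_exp _) n

theorem whp_sub (b : Bool) : ∃ κ > (0 : ℝ), Whp (couplingLaw b) fun n g =>
    ∀ S : Finset (Fin n), (S.card : ℝ) ≤ κ * n → opn (blk (Jmat n g) S) ≤ 1 / 16 := by
  set L : ℝ := log (100 * 16384) with hL
  have hL0 : 0 < L := log_pos (by norm_num)
  have hE : exp (-L) = 1 / (100 * 16384) := by
    rw [exp_neg, hL, exp_log (by norm_num), one_div]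
  refine ⟨1 / (4 * 16384 * L), by positivity, ?_⟩
  refine whp_of_real_le (a := fun n : ℕ => exp (-(n / 32768 : ℝ))) ?_ ?_
  · exact tendsto_exp_neg_atTop_nhds_zero.comp
      (tendsto_natCast_atTop_atTop.atTop_div_const (by norm_num))
  filter_upwards [eventually_gt_atTop 0] with n hn
  set k : ℝ := 1 / (4 * 16384 * L) * n with hk
  have hs : {g | ¬ ∀ S : Finset (Fin n), (S.card : ℝ) ≤ k → opn (blk (Jmat n g) S) ≤ 1 / 16} ⊆
      ⋃ S ∈ (univ : Finset (Finset (Fin n))).filter (fun S => (S.card : ℝ) ≤ k),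
        {g | 1 / 16 < opn (blk (Jmat n g) S)} := by
    intro g hg
    simp only [Set.mem_ofPred_eq, not_forall, not_le] at hg
    obtain ⟨S, h1, h2⟩ := hg
    exact Set.mem_biUnion (mem_filter.2 ⟨mem_univ S, h1⟩) h2
  refine (measureReal_mono hs (measure_ne_top _ _)).trans
    ((measureReal_biUnion_finset_le _ _).trans ((sum_le_sum fun S _ => blk_tail b hn S).trans ?_))
  rw [← sum_mul]
  refine (mul_le_mul_of_nonneg_right (count_le L k hL0.le) (exp_pos _).le).trans ?_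
  rw [← exp_add, hE]
  refine exp_le_exp.2 (le_of_eq ?_)
  rw [hk]
  field_simp
  ring

/-- deterministic part -/
lemma frz_of {J : Mx n} (hJ : J.IsHermitian) (h18 : opn J ≤ 18) {κ : ℝ} (hn : 0 < n)
    (hS : ∀ S : Finset (Fin n), (S.card : ℝ) ≤ κ * n → opn (blk J S) ≤ 1 / 16) :
    Frz J (κ / 360000) := by
  intro d hd hav
  have hn' : (0 : ℝ) < n := Nat.cast_pos.2 hn
  set S : Finset (Fin n) := univ.filter fun i => 1 / 600 < d i with hSd
  have hc : (S.card : ℝ) ≤ κ * n := by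
    have h1 : (S.card : ℝ) * (1 / 360000) ≤ ∑ i, d i ^ 2 := by
      calc (S.card : ℝ) * (1 / 360000) = ∑ _i ∈ S, (1 / 360000 : ℝ) := by
            rw [sum_const, nsmul_eq_mul]
        _ ≤ ∑ i ∈ S, d i ^ 2 := sum_le_sum fun i hi => by
            have := (mem_filter.1 hi).2
            nlinarith
        _ ≤ _ := sum_le_sum_of_subset_of_nonneg (subset_univ _) fun i _ _ => sq_nonneg _
    rw [avg, div_le_iff₀ hn'] at hav
    linarith
  have hA : (diagonal d * J * diagonal d).IsHermitian := by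
    have := isHermitian_conjTranspose_mul_mul (diagonal d) hJ
    simpa using this
  refine opn_le_of_quad hA (by norm_num) fun v => ?_
  have e0 : v ⬝ᵥ (diagonal d * J * diagonal d) *ᵥ v = (d * v) ⬝ᵥ J *ᵥ (d * v) := by
    have e : ∀ w : V n, diagonal d *ᵥ w = d * w := fun w => by ext i; simp [mulVec_diagonal]
    rw [← mulVec_mulVec, ← mulVec_mulVec, e, e]
    simp only [dotProduct, Pi.mul_apply]
    exact sum_congr rfl fun i _ => by ring
  set x : V n := d * v with hx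
  set y : S → ℝ := fun i => x i with hy
  set a : V n := emb (Subtype.val : S → Fin n) *ᵥ y with ha
  have haa : ∀ i, a i = if i ∈ S then x i else 0 := fun i => by
    simp only [ha, mulVec, dotProduct, emb, of_apply, ite_mul, one_mul, zero_mul]
    split_ifs with h
    · rw [sum_eq_single ⟨i, h⟩ (fun j _ hj => if_neg fun e => hj (Subtype.ext e.symm))
        (fun h' => absurd (mem_univ _) h'), if_pos rfl]
    · exact sum_eq_zero fun j _ => if_neg fun e : i = j => h (by rw [e]; exact j.2)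
  have hv := nrm_nonneg v
  have hxi : ∀ i, x i * x i ≤ v i * v i := fun i => by
    have h1 := (hd i).1
    have h2 := (hd i).2
    have h3 : d i * d i ≤ 1 := by nlinarith
    have : x i * x i = d i * d i * (v i * v i) := by simp only [hx, Pi.mul_apply]; ring
    rw [this]
    exact mul_le_of_le_one_left (mul_self_nonneg _) h3
  have nx : nrm x ≤ nrm v := by
    rw [nrm_le_iff hv, nrm_sq]
    exact sum_le_sum fun i _ => hxi i
  have da : a ⬝ᵥ a ≤ v ⬝ᵥ v := sum_le_sum fun i _ => by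
    rw [haa]
    split_ifs
    · exact hxi i
    · rw [mul_zero]; exact mul_self_nonneg _
  have na : nrm a ≤ nrm v := by rwa [nrm_le_iff hv, nrm_sq]
  have nb : nrm (x - a) ≤ 1 / 600 * nrm v := by
    rw [nrm_le_iff (by positivity), mul_pow, nrm_sq, dotProduct, dotProduct, mul_sum]
    refine sum_le_sum fun i _ => ?_
    rw [Pi.sub_apply, haa]
    split_ifs with h
    · rw [sub_self, mul_zero]; exact mul_nonneg (by positivity) (mul_self_nonneg _)
    · have h1 : d i ≤ 1 / 600 := by simpa [hSd] using h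
      have h2 := (hd i).1
      have : (x i - 0) * (x i - 0) = d i * d i * (v i * v i) := by
        simp only [hx, Pi.mul_apply]; ring
      rw [this]
      exact mul_le_mul_of_nonneg_right (by nlinarith) (mul_self_nonneg _)
  have e1 : x ⬝ᵥ J *ᵥ x = a ⬝ᵥ J *ᵥ a + a ⬝ᵥ J *ᵥ (x - a) + (x - a) ⬝ᵥ J *ᵥ x := by
    rw [mulVec_sub, dotProduct_sub, sub_dotProduct]; ring
  have b1 : |a ⬝ᵥ J *ᵥ a| ≤ 1 / 16 * (v ⬝ᵥ v) := by
    rw [ha, ← bil_blk]
    refine (abs_quad_le _ _).trans ?_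
    rw [← emb_dot S y]
    exact mul_le_mul (hS S hc) da (dot_self_nonneg _) (by norm_num)
  have o0 := opn_nonneg J
  have b2 : |a ⬝ᵥ J *ᵥ (x - a)| ≤ 18 * (nrm v * (1 / 600 * nrm v)) :=
    (abs_bil_le J a (x - a)).trans (mul_le_mul h18 (mul_le_mul na nb (nrm_nonneg _) hv)
      (mul_nonneg (nrm_nonneg _) (nrm_nonneg _)) (by norm_num))
  have b3 : |(x - a) ⬝ᵥ J *ᵥ x| ≤ 18 * (1 / 600 * nrm v * nrm v) :=
    (abs_bil_le J (x - a) x).trans (mul_le_mul h18 (mul_le_mul nb nx (nrm_nonneg _) (by positivity))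
      (mul_nonneg (nrm_nonneg _) (nrm_nonneg _)) (by norm_num))
  rw [e0, e1]
  have t := (abs_add_le _ ((x - a) ⬝ᵥ J *ᵥ x)).trans
    (add_le_add ((abs_add_le _ _).trans (add_le_add b1 b2)) b3)
  have := nrm_mul_self v
  have := dot_self_nonneg v
  nlinarith

theorem frz (b : Bool) : ∃ ε > (0 : ℝ), Whp (couplingLaw b) fun n g => Frz (Jmat n g) ε := by
  obtain ⟨κ, hκ, h⟩ := whp_sub b
  refine ⟨κ / 360000, by positivity, ((opn_three b).and h).mono ?_⟩
  filter_upwards [eventually_gt_atTop 0] with n hn g hg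
  exact frz_of (Jmat_isHermitian g) (by linarith [hg.1]) hn hg.2

end Frz49

theorem opnC : OpnC := Frz49.opn_three true

theorem frzC : FrzC := Frz49.frz true

end Crest.Agent.T157.Cn

end
end

-- ▼ part T157/CnLev_56

/-!
# Row 157, part C (helper56): the terminal time and the high levels for coins
-/

set_option autoImplicit false

noncomputable section

namespace Crest.Agent.T157.Cn

open MeasureTheory Filter Topology Set Matrix Real
open Crest.ProbabilityR.SpinGlassDynamics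
open Crest.Agent.T157 Crest.Agent.T157.E Crest.Agent.T157.SL Crest.Agent.T157.Soft
open Crest.Agent.T157.Q1
open Crest.Agent.T157.Eig (nrm opn nrm_add_le nrm_smul)

variable {n : ℕ} {w f : Cube n → ℝ}

/-- at the terminal time the covariance is bounded off a small event -/
theorem cov_end {J : Tap.Mx n} {M T η : ℝ} (hT : 0 ≤ T) (h2 : 16 ≤ η ^ 2 * T) (η0 : 0 < η)
    (fro : Froz J M T η) :
    (law sv (ising J 0) T).real {y | ¬ Tap.CovOK (ising J 0) M (η * T / 2 * √n) y} ≤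
      exp (-(n / 2)) := by
  have hp : ∀ x, 0 < ising J 0 x := fun _ => exp_pos _
  have hA := Glue.measurableSet_covOK hp M (η * T / 2 * √n)
  rw [law_real (.of_pos hp) hA]
  refine (Wt.of_pos hp).mean_le fun x => (Glue.px_le hA x fun z hz => ?_).trans (Glue.nrm_tail n)
  by_contra h6
  refine hz fun v hv u => ?_
  have sn := sqrt_nonneg (n : ℝ)
  have h5 : 4 ≤ η * √T := by
    refine le_of_sq_le_sq ?_ (by positivity)
    rw [mul_pow, sq_sqrt hT]; linarith
  have h7 := mul_le_mul_of_nonneg_left (not_le.1 h6).le (sqrt_nonneg T)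
  have h8 := mul_le_mul_of_nonneg_right h5 (mul_nonneg (sqrt_nonneg T) sn)
  have h9 : η * √T * (√T * √n) = η * T * √n := by
    rw [mul_assoc, ← mul_assoc (√T), mul_self_sqrt hT, mul_assoc]
  have := fro 0 ⟨le_rfl, zero_le_one⟩ x (T • sv x + √T • z + v) (by
    have h3 := nrm_add_le (√T • z) v
    rw [nrm_smul, abs_of_nonneg (sqrt_nonneg _)] at h3
    rw [show T • sv x + √T • z + v - T • sv x = √T • z + v by abel]
    linarith) u
  rwa [sub_zero, one_smul, ← zero_add (T • sv x + √T • z + v), ← tilt_ising] at this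

theorem termGlue : TermGlue := fun κ T hκ hT hF hO ε hε => by
  obtain ⟨η, M, M0, h1, h2, hF⟩ := hF
  have η0 : 0 < η := by by_contra h; nlinarith [mul_nonneg (neg_nonneg.2 (not_lt.1 h)) hT.le]
  refine ⟨max (3 * exp (6 * M + 2)) (max (max M (4 / (η * T / 2))) 0),
    Top.whp_iff.1 ((hF.and hO).mono ?_) ε hε⟩
  filter_upwards [Glue.ev_small (3 * exp (6 * M + 2) * 96) one_half_pos,
    ev_exp_pow 1 hκ (half_pos one_half_pos), ev_exp_pow 1 hκ one_half_pos] with n e1 e2 e3 g hg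
  rw [gibbsWeight_eq_ising, one_smul]
  refine term_of (fun _ => exp_pos _) (Glue.tail_end (Jmat_transpose g) hg.2 M0 hT.le h1 h2 hg.1)
    (exp_pos _).le (by positivity) ?_ (by positivity) ((cov_end hT.le h2 η0 hg.1).trans ?_)
  · rw [show (n : ℝ) / 2 = 1 / 2 * n by ring]; linarith
  · rw [show (n : ℝ) / 2 = 1 / 2 * n by ring]; linarith

/-- transport through three windows -/
theorem tp_three (hW : Wt w) (f0 : ∀ x, 0 ≤ f x) (h0 : 0 < mean w f)
    {t m S T K κ K' E₁ E₂ E₃ M p r : ℝ} (hM : ∀ x, f x ≤ M) (t0 : 0 < t) (htS : t ≤ S) (hST : S ≤ T)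
    (htm : t ≤ m) (hK : 1 ≤ K) (hκ : 1 ≤ κ) (hK' : 1 ≤ K') (h1 : (m / t) ^ K ≤ E₁)
    (h2 : (S / t) ^ (κ - 1) ≤ E₂) (h3 : (T / S) ^ (K' - 1) ≤ E₃) (hp : 0 ≤ p)
    (c1 : ∀ r, r ≤ S → t ≤ r → r ≤ m → Crit.CovAt w r (K / r) p)
    (c2 : ∀ r, r ≤ S → m ≤ r → Crit.CovAt w r (κ / r) p)
    (c3 : ∀ r ∈ Ioo S T, Crit.CovAt w r (K' / r) p) (hr : r ∈ Ioo t T) :
    Tp sv w f r T (E₁ * E₂ * E₃) (3 * (T ^ 3 * (E₁ * E₂ * E₃) ^ 2 * (16 * n ^ 2 * (p * M)))) := by
  have S0 := t0.trans_le htS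
  have T0 := S0.trans_le hST
  have M0 := (f0 _).trans (hM fun _ => true)
  have e1 : 1 ≤ E₁ := (one_le_rpow ((one_le_div t0).2 htm) (by linarith)).trans h1
  have e2 : 1 ≤ E₂ := (one_le_rpow ((one_le_div t0).2 htS) (by linarith)).trans h2
  have e3 : 1 ≤ E₃ := (one_le_rpow ((one_le_div S0).2 hST) (by linarith)).trans h3
  have e12 : 1 ≤ E₁ * E₂ := one_le_mul_of_one_le_of_one_le e1 e2
  have w3 : ∀ r, S ≤ r → r ≤ T → Tp sv w f r T E₃ (T ^ 3 * E₃ ^ 2 * (16 * n ^ 2 * (p * M))) :=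
    fun r h4 h5 => tp_pow hW f0 h0 hM (S0.trans_le h4) h5 (by linarith) ((rpow_le_rpow
      (div_nonneg T0.le (S0.le.trans h4)) (div_le_div_of_nonneg_left T0.le S0 h4)
      (by linarith)).trans h3) hp fun q hq => c3 q ⟨h4.trans_lt hq.1, hq.2⟩
  have q : 0 ≤ T ^ 3 * (16 * n ^ 2 * (p * M)) := by positivity
  have s1 : E₃ ^ 2 ≤ (E₁ * E₂ * E₃) ^ 2 := by gcongr; nlinarith
  have s2 : (E₁ * E₂) ^ 2 ≤ (E₁ * E₂ * E₃) ^ 2 :=
    pow_le_pow_left₀ (by positivity) (le_mul_of_one_le_right (by positivity) e3) 2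
  rcases le_or_gt S r with h | h
  · exact (w3 r h hr.2.le).mono hW s1 (by
      linarith [mul_le_mul_of_nonneg_left s1 q, mul_nonneg q (sq_nonneg (E₁ * E₂ * E₃))])
  refine ((tp_two hW f0 h0 hM t0 htS htm hK hκ h1 h2 hp c1 c2 ⟨hr.1, h⟩).trans (w3 S le_rfl hST)
    S0.ne').mono hW le_rfl ?_
  calc _ ≤ 2 * (T ^ 3 * (E₁ * E₂ * E₃) ^ 2 * (16 * n ^ 2 * (p * M))) +
        (E₁ * E₂) ^ 2 * (T ^ 3 * E₃ ^ 2 * (16 * n ^ 2 * (p * M))) := by gcongr
    _ = _ := by ring

/-- **one high level**, from a transport estimate -/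
theorem sp_tp (hw : ∀ x, 0 < w x) {t T E H A L P θ δ lam : ℝ} (t0 : 0 < t) (htT : t ≤ T)
    (E0 : 0 ≤ E) (hTp : ∀ f : Cube n → ℝ, (∀ x, 0 ≤ f x) → 0 < mean w f →
      (∀ x, f x ≤ exp (2 * H)) → ∀ r ∈ Ioo t T, Tp sv w f r T E
        (3 * (T ^ 3 * E ^ 2 * (16 * n ^ 2 * (exp (-(3 * H)) * exp (2 * H))))))
    (hX : XX sv w (65 * t) ≤ exp H) (hT : Glue.Tail w T A δ) (A0 : 0 ≤ A) (δ0 : 0 ≤ δ)
    (hJ : JT w T P (exp (-(3 * H)))) (P0 : 0 ≤ P) (L0 : 0 ≤ L)
    (hF : mean w (fun x => exp (θ * Ent.big w L x)) ≤ 2) (hθ : 24 * A < θ) (hH : 8 ≤ H)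
    (hs : δ + 3 / 2 * (E ^ 2 * (T ^ 2 + 48 * T ^ 3 * n ^ 2) * exp (-H)) / t ≤ 1)
    (hl : lam * (A * (3 + L) + 3 / 2 * (E ^ 2 * T ^ 2 * P) / t) ≤ H / 2) : SP w H lam :=
  SP.of_norm hw fun g g1 hM hent => by
  have hW := Wt.of_pos hw
  have T0 := t0.trans_le htT
  have f0 : ∀ x, 0 ≤ g x ^ 2 := fun x => sq_nonneg _
  have h0 : 0 < mean w fun x => g x ^ 2 := g1 ▸ one_pos
  have D0 := Ent.dir_nonneg hw g
  have ee : exp (-(3 * H)) * exp (2 * H) = exp (-H) := by rw [← exp_add]; congr 1; ring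
  have a1 := early_ent hW f0 g1 (by linarith) hM t0 hX
  have a2 := window hW f0 h0 (R₀ := 2 * √n + 1) (E := E) (Q := 0) (L := log (T / t))
    (P := P * dir w g + exp (-H))
    (by positivity) (fun x x' => (diam_sv x x').trans (by gcongr; linarith)) t0 htT
    E0 (by positivity) (by positivity) le_rfl (hTp _ f0 h0 hM)
    (fun c _ => (hJ g _ hM h0 c).trans_eq (by rw [ee]; ring)) le_rfl
  have a3 := hT _ f0
  have a4 := mul_le_mul_of_nonneg_left (Ent.sum_entS_sq_le hw g L0) A0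
  have a5 : var w (fun x => √(g x ^ 2)) ≤ 1 := (hW.var_le_mean _ 0).trans_eq (by
    simpa only [sub_zero, sq_sqrt (f0 _)] using g1)
  have a9 := big_le hw f0 g1 hM A0 hF hθ hH
  have a6 := mul_le_mul_of_nonneg_left a5 δ0
  rw [ee] at a2
  have key : H / 2 ≤ dir w g * (A * (3 + L) + 3 / 2 * (E ^ 2 * T ^ 2 * P) / t) := by
    simp only [div_eq_mul_inv _ t] at a2 hs ⊢
    linarith
  by_contra hc
  have p : 0 ≤ A * (3 + L) + 3 / 2 * (E ^ 2 * T ^ 2 * P) / t := by positivity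
  rcases p.eq_or_lt with p | p
  · rw [← p] at key; linarith
  · linarith [mul_lt_mul_of_pos_right (not_le.1 hc) p]

/-- the numerics of one high level -/
theorem sp_lev3 (hw : ∀ x, 0 < w x) {c S T K K' δ d H A P θ e C : ℝ} (c0 : 0 < c) (c1 : c ≤ 1)
    (S0 : 0 < S) (hST : S ≤ T) (hK : 1 ≤ K) (hK' : 1 ≤ K') (δ0 : 0 < δ)
    (hδ : 4 * (K + 1) * δ ≤ min d 1) (hn : 1 ≤ n) (hH : 8 ≤ H) (hHn : H ≤ n)
    (hT : Crit.sH n H ≤ S / c)
    (w1 : ∀ r : ℝ, r ≤ S → c * Crit.sH n H ≤ r → r ≤ (n : ℝ) ^ δ * Crit.sH n H →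
      Crit.CovAt w r (K / r) (exp (-(3 * H))))
    (w2 : ∀ r : ℝ, r ≤ S → (n : ℝ) ^ δ * Crit.sH n H ≤ r →
      Crit.CovAt w r ((1 + δ) / r) (exp (-(3 * H))))
    (w3 : ∀ r ∈ Ioo S T, Crit.CovAt w r (K' / r) (exp (-(3 * H))))
    (hX : XX sv w (65 * (c * Crit.sH n H)) ≤ exp H) (hTl : Glue.Tail w T A e) (A0 : 0 ≤ A)
    (e0 : 0 ≤ e) (e1 : e ≤ 1 / 2) (hJ : JT w T P (exp (-(3 * H)))) (P0 : 0 ≤ P)
    (hF : mean w (fun x => exp (θ * Ent.big w ((n : ℝ) ^ δ) x)) ≤ 2) (hθ : 24 * A < θ)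
    (hC : C = (c⁻¹ ^ K * (S / c) ^ δ * (T / S) ^ (K' - 1)) ^ 2)
    (v1 : 3 * C * (T ^ 2 + 48 * T ^ 3) / c * (n : ℝ) ^ 4 ≤ exp H)
    (v2 : (8 * A + 3 * C * T ^ 2 * P / c) * (n : ℝ) ^ (d / 2) ≤ (n : ℝ) ^ d) :
    SP w H ((n : ℝ) ^ (-d) * Crit.sH n H * H) := by
  have n1 : (1 : ℝ) ≤ n := by exact_mod_cast hn
  have n0 : (0 : ℝ) < n := by linarith
  have H0 : 0 < H := by linarith
  have T0 := S0.trans_le hST
  have C0 : 0 ≤ C := by rw [hC]; positivity
  have s1 : Crit.sH n H ≤ 1 := rpow_le_one (by positivity) ((div_le_one n0).2 hHn) (by norm_num)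
  have s2 : (n : ℝ)⁻¹ ≤ Crit.sH n H := le_trans (by rw [inv_eq_one_div]; gcongr; linarith)
    (self_le_rpow_of_le_one (by positivity) ((div_le_one n0).2 hHn) (by norm_num))
  generalize Crit.sH n H = s at *
  have s0 : 0 < s := lt_of_lt_of_le (by positivity) s2
  have s3 : s⁻¹ ≤ n := inv_le_of_inv_le₀ n0 s2
  have d1 : 1 ≤ (n : ℝ) ^ δ := one_le_rpow n1 δ0.le
  have hE : (c⁻¹ ^ K * (n : ℝ) ^ (δ * K) * ((S / c) ^ δ * (n : ℝ) ^ δ) * (T / S) ^ (K' - 1)) ^ 2 ≤
      C * (n : ℝ) ^ (min d 1 / 2) := by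
    rw [hC, mul_mul_mul_comm, mul_right_comm, mul_pow, ← rpow_add n0, ← rpow_natCast ((n : ℝ) ^ _),
      ← rpow_mul n0.le]
    exact mul_le_mul_of_nonneg_left (rpow_le_rpow_of_exponent_le n1 (by push_cast; linarith))
      (by positivity)
  have hE1 := hE.trans (mul_le_mul_of_nonneg_left ((rpow_le_rpow_of_exponent_le n1
    (show _ ≤ (1 : ℝ) by linarith [min_le_right d 1])).trans_eq (rpow_one _)) C0)
  have hE2 := hE.trans (mul_le_mul_of_nonneg_left (rpow_le_rpow_of_exponent_le n1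
    (show _ ≤ d / 2 by linarith [min_le_left d 1])) C0)
  have d2 : (n : ℝ) ^ δ ≤ (n : ℝ) ^ (d / 2) :=
    rpow_le_rpow_of_exponent_le n1 (by nlinarith [min_le_left d 1])
  have htS : c * s ≤ S := (le_div_iff₀' c0).1 hT
  refine sp_tp hw (t := c * s)
    (E := c⁻¹ ^ K * (n : ℝ) ^ (δ * K) * ((S / c) ^ δ * (n : ℝ) ^ δ) * (T / S) ^ (K' - 1))
    (by positivity) (htS.trans hST) (by positivity) (fun f f0 h0 hM r hr => tp_three (.of_pos hw)
      f0 h0 hM (t := c * s) (m := (n : ℝ) ^ δ * s) (κ := 1 + δ) (by positivity) htS hST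
      (by gcongr; linarith) hK (by linarith) hK' (le_of_eq ?_) ?_ le_rfl (exp_pos _).le w1 w2 w3 hr)
    hX hTl A0 e0 hJ P0 (by positivity) hF hθ hH ?_ ?_
  · rw [mul_div_mul_right _ _ s0.ne', div_eq_inv_mul, mul_rpow (by positivity) (by positivity),
      rpow_mul n0.le]
  · rw [add_sub_cancel_left, ← mul_rpow (by positivity) n0.le, ← div_div, div_eq_mul_inv _ s]
    gcongr
  · generalize (c⁻¹ ^ K * (n : ℝ) ^ (δ * K) * ((S / c) ^ δ * (n : ℝ) ^ δ) *
      (T / S) ^ (K' - 1)) ^ 2 = E at *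
    have : 3 / 2 * (E * (T ^ 2 + 48 * T ^ 3 * n ^ 2) * exp (-H)) / (c * s) ≤ 1 / 2 := by
      calc _ = 3 / 2 * (E * (T ^ 2 * 1 + 48 * T ^ 3 * n ^ 2) * exp (-H)) / c * s⁻¹ := by
            field_simp
        _ ≤ 3 / 2 * (C * n * (T ^ 2 * n ^ 2 + 48 * T ^ 3 * n ^ 2) * exp (-H)) / c * n := by
            gcongr; exact one_le_pow₀ n1
        _ = 3 * C * (T ^ 2 + 48 * T ^ 3) / c * (n : ℝ) ^ 4 * exp (-H) / 2 := by ring
        _ ≤ exp H * exp (-H) / 2 := by gcongr
        _ = _ := by rw [← exp_add, add_neg_cancel, exp_zero]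
    linarith
  · generalize (c⁻¹ ^ K * (n : ℝ) ^ (δ * K) * ((S / c) ^ δ * (n : ℝ) ^ δ) *
      (T / S) ^ (K' - 1)) ^ 2 = E at *
    calc _ = (n : ℝ) ^ (-d) * H * (s * (A * (3 * 1 + (n : ℝ) ^ δ)) + 3 / 2 * (E * T ^ 2 * P) / c) := by
          field_simp
      _ ≤ (n : ℝ) ^ (-d) * H * (1 * (A * (3 * (n : ℝ) ^ (d / 2) + (n : ℝ) ^ (d / 2))) +
          3 / 2 * (C * (n : ℝ) ^ (d / 2) * T ^ 2 * P) / c) := by gcongr; exact d1.trans d2
      _ = (n : ℝ) ^ (-d) * H * ((8 * A + 3 * C * T ^ 2 * P / c) * (n : ℝ) ^ (d / 2)) / 2 := by ring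
      _ ≤ (n : ℝ) ^ (-d) * H * (n : ℝ) ^ d / 2 := by gcongr
      _ = _ := by rw [mul_right_comm, ← rpow_add n0, neg_add_cancel, rpow_zero, one_mul]

/-- the top levels from tensorisation with a defect -/
theorem sp_dat (hw : ∀ x, 0 < w x) {A D H L θ lam : ℝ} (h : DAT w A D) (A0 : 0 < A) (L0 : 0 ≤ L)
    (hF : mean w (fun x => exp (θ * Ent.big w L x)) ≤ 2) (hθ : 24 * A < θ) (hH : 8 ≤ H)
    (hD : 8 * D ≤ H) (hl : lam * (A * (3 + L)) ≤ H / 2) : SP w H lam :=
  SP.of_norm hw fun g g1 hM hent => by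
  have f0 : ∀ x, 0 ≤ g x ^ 2 := fun x => sq_nonneg _
  have a3 := h _ f0
  have a4 := mul_le_mul_of_nonneg_left (Ent.sum_entS_sq_le hw g L0) A0.le
  have a9 := big_le hw f0 g1 hM A0.le hF hθ hH
  rw [g1] at a3
  by_contra hc
  have p : 0 < A * (3 + L) := by positivity
  linarith [mul_lt_mul_of_pos_right (not_le.1 hc) p]

theorem levGlue : LevGlue := fun a κ T ha hκ T0 hW hF hO hFl hTo hL =>
  Top.whp_of_approx fun ε hε => by
  obtain ⟨B, hB⟩ := hL ε hε
  refine ⟨fun n g => ∀ θ, 0 ≤ θ → Xth n g θ ≤ B * exp (B * θ ^ (3 / 2 : ℝ)),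
    hB.mono fun n hn => le_trans (measure_mono fun g hg => ?_) hn, ?_⟩
  · simpa only [mem_ofPred_eq, not_forall, not_le, exists_prop] using hg
  have B1 := le_max_right B 1
  set c := (65 * (2 * max B 1))⁻¹ with hc
  have c0 : 0 < c := by positivity
  have c1 : c ≤ 1 := inv_le_one_of_one_le₀ (by linarith)
  have a0 : 0 < 2 / 3 - a := sub_pos.2 ha
  set d := κ * (2 / 3 - a) with hd
  have d0 : 0 < d := mul_pos hκ a0
  obtain ⟨η, M, M0, h1, h2, hF⟩ := hF
  obtain ⟨z, z0, hTo⟩ := hTo (d / 10) (by positivity)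
  obtain ⟨K, hW⟩ := hW (z / 2) (by positivity) c c0
  have K1 := le_max_right K 1
  obtain ⟨δ, δ0, δ1, δ2⟩ : ∃ δ > 0, δ ≤ κ ∧ 4 * (max K 1 + 1) * δ ≤ min d 1 :=
    ⟨min κ (min d 1 / (4 * (max K 1 + 1))), by positivity, min_le_left _ _,
      (le_div_iff₀' (by positivity)).1 (min_le_right _ _)⟩
  obtain ⟨t0, t00, K', hW⟩ := hW δ δ0
  have S0 : 0 < min t0 T := lt_min t00 T0
  set S := min t0 T with hS
  set C := (c⁻¹ ^ max K 1 * (S / c) ^ δ * (T / S) ^ (max K' 1 - 1)) ^ 2 with hC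
  refine ((((((hW.and hF).and hO).and (hFl (δ / 2) (half_pos δ0))).and
    (hFl (d / 5) (by positivity))).and hTo).and (Chain22.whp_opn true)).mono ?_
  filter_upwards [eventually_ge_atTop 1, ev_pow hκ 8, ev_pow hκ (2 * max B 1),
    ev_exp hκ (3 * C * (T ^ 2 + 48 * T ^ 3) / c),
    ev_pow (half_lt_self d0) (8 * exp (6 * M + 2) + 3 * C * T ^ 2 * (exp (8 * M) ^ 2 * 64) / c),
    Glue.ev_small (exp (6 * M + 2) * 96) one_half_pos,
    ((tendsto_exp_neg_atTop_nhds_zero.comp ((tendsto_natCast_atTop_atTop (R := ℝ)).const_mul_atTop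
      (half_pos one_half_pos))).eventually (ge_mem_nhds one_half_pos)),
    ev_small2 (exp (8 * M) ^ 2 * 1296 + 2) one_half_pos,
    ev_pow (show 1 - z / 2 < 1 by linarith) 24, ev_pow (half_pos δ0) (24 * exp (6 * M + 2) + 1),
    ev_pow (show 1 - z / 2 < 1 by linarith) ((S / c) ^ (3 / 2 : ℝ))⁻¹,
    ev_pow (show d / 10 < d / 5 by linarith) 25, ev_pow (show 1 - z < 1 - z / 2 by linarith) 8,
    ev_pow (half_lt_self d0) 152]
    with n hn v1 v2 v4 v5 v6 v7 v8 v9 v10 v11 v12 v13 v14 g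
      ⟨⟨⟨⟨⟨⟨g1, g2⟩, g3⟩, g4⟩, g5⟩, g6⟩, g7⟩ g0 j hH
  have n1 : (1 : ℝ) ≤ n := by exact_mod_cast hn
  have n0 : (0 : ℝ) < n := zero_lt_one.trans_le n1
  have hw := gibbsWeight_pos (n := n) 1 g
  rw [rpow_zero, mul_one] at v1 v2 v10
  rw [rpow_one] at v9 v11
  set H : ℝ := 2 ^ j
  have H0 : 0 < H := by positivity
  have s0 : 0 < Crit.sH n H := rpow_pos_of_pos (by positivity) _
  rcases lt_or_ge (19 * (n : ℝ)) H with h' | h'
  · exact sp_of_min hw (Chain22.log_inv_prob_gibbs_le g7) (by rw [abs_one]; linarith) _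
  refine SP.mono (lam := (n : ℝ) ^ (-d) * Crit.sH n H * H) ?_ (.of_pos hw) ?_
  swap
  · have e1 : H ^ (1 + a) / N23 n = H ^ (-(2 / 3 - a)) * (H / n) ^ (2 / 3 : ℝ) * H := by
      rw [div_rpow H0.le n0.le, N23, show 1 + a = -(2 / 3 - a) + 2 / 3 + 1 by ring, rpow_add H0,
        rpow_add H0, rpow_one]
      ring
    rw [e1, Crit.sH, hd, ← mul_neg, rpow_mul n0.le]
    gcongr ?_ * _ * _
    exact rpow_le_rpow_of_nonpos (by positivity) hH (by linarith)
  rcases le_total H ((n : ℝ) ^ (1 - z / 2)) with h | h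
  · have g8 := g1 H ((rpow_le_rpow_of_exponent_le n1 δ1).trans hH) h
    have hST : S ≤ T := min_le_right _ _
    have e := gibbsWeight_eq_ising (n := n) 1 g
    rw [one_smul] at e
    have p0 : (0 : ℝ) < (n : ℝ) ^ (1 - z / 2) := by positivity
    have hTl := Glue.tail_end (Jmat_transpose g) g3 M0 T0.le h1 h2 g2
    have hJ := (jt_end (Jmat_transpose g) g3 M0 T0.le h1 h2 g2).mono (δ' := exp (-(3 * H))) (by
      refine le_trans ?_ (v8.trans (exp_le_exp.2 (by linarith)))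
      have e3 : (n : ℝ) ≤ n ^ 2 := le_self_pow₀ n1 two_ne_zero
      rw [show (n : ℝ) / 2 = 1 / 2 * n by ring]
      exact mul_le_mul_of_nonneg_right (by linarith) (exp_pos _).le)
    rw [← e] at hTl hJ
    refine sp_lev3 hw (K := max K 1) (K' := max K' 1) (θ := (n : ℝ) ^ (δ / 2)) c0 c1 S0 hST K1
      (le_max_right _ _) δ0 δ2 hn (v1.trans hH) (by linarith) ?_
      (fun r hr h h' => covAt_mono (.of_pos hw) ((g8 r (hr.trans hST)).1 h h')
        (div_le_div_of_nonneg_right (le_max_left _ _) (le_trans (by positivity) h)))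
      (fun r hr h => (g8 r (hr.trans hST)).2.1 h (hr.trans (min_le_left _ _)))
      (fun r hr => covAt_mono (.of_pos hw) ((g8 r hr.2.le).2.2 ((min_lt_iff.1 hr.1).elim le_of_lt
        fun h => absurd hr.2 h.not_gt))
        (div_le_div_of_nonneg_right (le_max_left _ _) (S0.le.trans hr.1.le)))
      (xx_le g g0 (le_max_left _ _) B1 (v2.trans hH))
      hTl (exp_pos _).le (by positivity) ?_ hJ (by positivity) ?_ (by linarith) hC (v4.trans (exp_le_exp.2 hH)) v5
    · have q0 : 0 < (S / c) ^ (3 / 2 : ℝ) := by positivity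
      refine (rpow_le_rpow (by positivity) (show H / n ≤ (S / c) ^ (3 / 2 : ℝ) from ?_)
        (by norm_num)).trans_eq ?_
      · rw [div_le_iff₀ n0]
        exact h.trans ((inv_mul_le_iff₀ q0).1 v11)
      · rw [← rpow_mul (by positivity), show (3 / 2 * (2 / 3) : ℝ) = 1 by norm_num, rpow_one]
    · rw [show (n : ℝ) / 2 = 1 / 2 * n by ring]
      simp only [Function.comp] at v7
      linarith
    · rwa [show 2 * (δ / 2) = δ by ring] at g4
  · have p1 : (1 : ℝ) ≤ (n : ℝ) ^ (2 * (d / 5)) := one_le_rpow n1 (by positivity)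
    have p2 : (0 : ℝ) < (n : ℝ) ^ (d / 10) := by positivity
    refine sp_dat hw g6 p2 (by positivity) g5 (by linarith) (v1.trans hH) (v13.trans h) ?_
    have b2 : Crit.sH n H ≤ 19 := (rpow_le_rpow (by positivity) ((div_le_iff₀ n0).2 h')
      (by norm_num)).trans (rpow_le_self_of_one_le (by norm_num) (by norm_num))
    have e2 : (n : ℝ) ^ (d / 10) * (n : ℝ) ^ (2 * (d / 5)) = (n : ℝ) ^ (d / 2) := by
      rw [← rpow_add n0]; congr 1; ring
    calc _ ≤ (n : ℝ) ^ (-d) * 19 * H * ((n : ℝ) ^ (d / 10) *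
          (3 * (n : ℝ) ^ (2 * (d / 5)) + (n : ℝ) ^ (2 * (d / 5)))) := by gcongr; linarith
      _ = (n : ℝ) ^ (-d) * H * (152 * ((n : ℝ) ^ (d / 10) * (n : ℝ) ^ (2 * (d / 5)))) / 2 := by ring
      _ ≤ (n : ℝ) ^ (-d) * H * (n : ℝ) ^ d / 2 := by rw [e2]; gcongr
      _ = _ := by rw [mul_right_comm, ← rpow_add n0, neg_add_cancel, rpow_zero, one_mul]

end Crest.Agent.T157.Cn

end
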