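import Crest.Agent.T157.UnA_81
import Crest.Agent.T157.ChainHB_22

/-!
# Row 157, part C: universality through a complex entry, C (helper81)

Complex weights `w e^{z χ}` on a finite set, the tilt formula, the averaged covariance bound and the
complex resolvent of the heat-bath chain.
-/

set_option autoImplicit false
set_option linter.unusedSectionVars false

noncomputable section

namespace Crest.Agent.T157.Un

open Metric Finset Matrix
open scoped ComplexConjugate
open Crest.ProbabilityR.SpinGlassDynamics Crest.Agent.T157.E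

section fin
variable {Ω : Type*} [Fintype Ω] [Nonempty Ω] {w χ : Ω → ℝ} {z : ℂ}

/-- complex weight -/
def cw (w χ : Ω → ℝ) (z : ℂ) (x : Ω) : ℂ := w x * Complex.exp (z * χ x)
/-- real tilt -/
def rw (w χ : Ω → ℝ) (t : ℝ) (x : Ω) : ℝ := w x * Real.exp (t * χ x)
/-- normalised complex weight -/
def pc (v : Ω → ℂ) (x : Ω) : ℂ := v x / ∑ y, v y
/-- squared norm of a complex function -/
def nsq (w : Ω → ℝ) (f : Ω → ℂ) : ℝ := ∑ x, prob w x * ‖f x‖ ^ 2

/-- signs -/
def Sgn (χ : Ω → ℝ) : Prop := ∀ x, χ x = 1 ∨ χ x = -1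

lemma cw_real (t : ℝ) (x : Ω) : cw w χ t x = rw w χ t x := by simp [cw, rw]

lemma cw_zero (x : Ω) : cw w χ 0 x = w x := by simp [cw]

lemma rw_pos (hw : ∀ x, 0 < w x) (t : ℝ) (x : Ω) : 0 < rw w χ t x := mul_pos (hw x) (Real.exp_pos _)


lemma prob_nn (hw : ∀ x, 0 < w x) (x : Ω) : 0 ≤ prob w x := (Chain22.prob_pos' hw x).le

lemma sum_prob (hw : ∀ x, 0 < w x) : ∑ x, prob w x = 1 := (Chain22.isP_prob' hw).sum1

lemma nsq_nonneg (hw : ∀ x, 0 < w x) (f : Ω → ℂ) : 0 ≤ nsq w f :=
  sum_nonneg fun x _ => mul_nonneg (prob_nn hw x) (sq_nonneg _)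

lemma Sgn.abs (h : Sgn χ) (x : Ω) : |χ x| = 1 := by rcases h x with e | e <;> simp [e]

lemma exp_sub_one (h : Sgn χ) (hz : z ∈ ball (0 : ℂ) (1 / 4)) (x : Ω) :
    ‖Complex.exp (z * χ x) - 1‖ ≤ 1 / 2 := by
  have h1 : ‖z * χ x‖ = ‖z‖ := by rw [norm_mul, Complex.norm_real, Real.norm_eq_abs, h.abs, mul_one]
  have h2 := mem_ball_zero_iff.1 hz
  linarith [Complex.norm_exp_sub_one_le (x := z * χ x) (by linarith)]

lemma re_ge_half {a : ℂ} (h : ‖a - 1‖ ≤ 1 / 2) : 1 / 2 ≤ a.re := by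
  have := (abs_le.1 ((Complex.abs_re_le_norm _).trans h)).1
  simp only [Complex.sub_re, Complex.one_re] at this
  linarith

lemma norm_le_three_half {a : ℂ} (h : ‖a - 1‖ ≤ 1 / 2) : ‖a‖ ≤ 3 / 2 := by
  have := norm_sub_norm_le a 1
  rw [norm_one] at this
  linarith

lemma re_cw (hw : ∀ x, 0 < w x) (h : Sgn χ) (hz : z ∈ ball (0 : ℂ) (1 / 4)) (x : Ω) :
    w x / 2 ≤ (cw w χ z x).re := by
  rw [cw, Complex.re_ofReal_mul]
  nlinarith [re_ge_half (exp_sub_one h hz x), hw x]

lemma norm_cw (hw : ∀ x, 0 < w x) (h : Sgn χ) (hz : z ∈ ball (0 : ℂ) (1 / 4)) (x : Ω) :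
    ‖cw w χ z x‖ ≤ 3 / 2 * w x := by
  rw [cw, norm_mul, Complex.norm_real, Real.norm_of_nonneg (hw x).le]
  nlinarith [norm_le_three_half (exp_sub_one h hz x), hw x]

lemma norm_sum_cw (hw : ∀ x, 0 < w x) (h : Sgn χ) (hz : z ∈ ball (0 : ℂ) (1 / 4)) :
    (∑ x, w x) / 2 ≤ ‖∑ x, cw w χ z x‖ := by
  refine le_trans ?_ (Complex.re_le_norm _)
  rw [Complex.re_sum, sum_div]
  exact sum_le_sum fun x _ => re_cw hw h hz x

lemma sum_cw_ne (hw : ∀ x, 0 < w x) (h : Sgn χ) (hz : z ∈ ball (0 : ℂ) (1 / 4)) :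
    ∑ x, cw w χ z x ≠ 0 :=
  norm_pos_iff.1 (lt_of_lt_of_le (half_pos (Chain22.sum_w_pos hw)) (norm_sum_cw hw h hz))

lemma norm_pc (hw : ∀ x, 0 < w x) (h : Sgn χ) (hz : z ∈ ball (0 : ℂ) (1 / 4)) (x : Ω) :
    ‖pc (cw w χ z) x‖ ≤ 3 * prob w x := by
  have := Chain22.sum_w_pos hw
  have := hw x
  rw [pc, norm_div, prob]
  calc _ ≤ 3 / 2 * w x / ((∑ x, w x) / 2) := by
        gcongr
        exacts [norm_cw hw h hz x, norm_sum_cw hw h hz]
    _ = _ := by field_simp

lemma diff_cw (x : Ω) : Differentiable ℂ fun z => cw w χ z x := by unfold cw; fun_prop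

lemma ex_cw (r : ℝ) (x : Ω) : Ex r (fun t => rw w χ t x) fun z => cw w χ z x :=
  ⟨(diff_cw x).differentiableOn, fun t _ => cw_real t x⟩

lemma ex_pc (hw : ∀ x, 0 < w x) (h : Sgn χ) (x : Ω) :
    Ex (1 / 4) (fun t => prob (rw w χ t) x) fun z => pc (cw w χ z) x :=
  (ex_cw _ x).div (Ex.sum _ fun y _ => ex_cw _ y) fun _ hz => sum_cw_ne hw h hz

lemma pc_zero (x : Ω) : pc (cw w χ 0) x = prob w x := by simp [pc, cw_zero, prob]

/-- Jensen for a dominated complex kernel -/
lemma norm_sum_sq_le {p : Ω → ℝ} {k : Ω → ℂ} {c : ℝ} (hp : ∀ x, 0 ≤ p x) (h1 : ∑ x, p x = 1)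
    (hk : ∀ x, ‖k x‖ ≤ c * p x) (f : Ω → ℂ) :
    ‖∑ x, k x * f x‖ ^ 2 ≤ c ^ 2 * ∑ x, p x * ‖f x‖ ^ 2 := by
  have h2 : ‖∑ x, k x * f x‖ ≤ c * ∑ x, p x * ‖f x‖ := by
    rw [mul_sum]
    refine (norm_sum_le _ _).trans (sum_le_sum fun x _ => ?_)
    rw [norm_mul, ← mul_assoc]
    exact mul_le_mul_of_nonneg_right (hk x) (norm_nonneg _)
  have h3 := (⟨hp, h1⟩ : Chain22.IsP p).mean_sq_le fun x => ‖f x‖
  simp only [Chain22.mean, Chain22.ip, ← sq] at h3
  calc _ ≤ (c * ∑ x, p x * ‖f x‖) ^ 2 := by gcongr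
    _ ≤ _ := by rw [mul_pow]; gcongr

/-- **tilt formula** -/
lemma tilt_le (hw : ∀ x, 0 < w x) (h : Sgn χ) (hz : z ∈ ball (0 : ℂ) (1 / 4)) (f : Ω → ℝ) :
    ‖∑ x, pc (cw w χ z) x * f x - mean w f‖ ≤
      |mean w fun x => χ x * f x| + |mean w χ| * |mean w f| := by
  have hS := Chain22.sum_w_pos hw
  set c := (Complex.exp z + Complex.exp (-z)) / 2
  set B := (Complex.exp z - Complex.exp (-z)) / 2
  have e1 : ∀ x, cw w χ z x = w x * (c + B * χ x) := fun x => by
    rcases h x with e | e <;> simp only [cw, e, c, B] <;> push_cast <;> ring_nf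
  have hB : ‖B‖ ≤ 1 / 2 := by
    have a1 := exp_sub_one (χ := fun _ : Unit => 1) (fun _ => .inl rfl) hz ()
    have a2 := exp_sub_one (χ := fun _ : Unit => -1) (fun _ => .inr rfl) hz ()
    simp only [Complex.ofReal_one, mul_one, Complex.ofReal_neg, mul_neg] at a1 a2
    have : B = ((Complex.exp z - 1) - (Complex.exp (-z) - 1)) / 2 := by simp only [B]; ring
    rw [this, norm_div, Complex.norm_two]
    linarith [norm_sub_le (Complex.exp z - 1) (Complex.exp (-z) - 1)]
  have hm : ∀ g : Ω → ℝ, ∑ x, (w x : ℂ) * g x = (∑ x, w x : ℝ) * (mean w g : ℝ) := fun g => by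
    rw [← Complex.ofReal_mul, mean, mul_sum]
    push_cast
    refine sum_congr rfl fun x _ => ?_
    rw [← Complex.ofReal_mul, ← Complex.ofReal_mul, ← Complex.ofReal_sum, ← Complex.ofReal_mul, prob]
    congr 1; field_simp
  have e2 : ∑ x, cw w χ z x = (∑ x, w x : ℝ) * (c + B * (mean w χ : ℝ)) := by
    simp only [e1, mul_add, sum_add_distrib, mul_left_comm _ B, ← mul_sum, ← sum_mul, hm χ]
    push_cast; ring
  have e3 : ∑ x, cw w χ z x * f x =
      (∑ x, w x : ℝ) * (c * (mean w f : ℝ) + B * (mean w fun x => χ x * f x : ℝ)) := by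
    have : ∀ x, cw w χ z x * f x = c * (w x * f x) + B * (w x * (χ x * f x : ℝ)) := fun x => by
      rw [e1]; push_cast; ring
    simp only [this, sum_add_distrib, ← mul_sum, hm f, hm fun x => χ x * f x]
    ring
  have hD : 1 / 2 ≤ ‖c + B * (mean w χ : ℝ)‖ := by
    have := norm_sum_cw hw h hz
    rw [e2, norm_mul, Complex.norm_real, Real.norm_of_nonneg hS.le] at this
    nlinarith
  have hD' : c + B * (mean w χ : ℝ) ≠ 0 := norm_pos_iff.1 (by linarith)
  have hS' : ((∑ x, w x : ℝ) : ℂ) ≠ 0 := by exact_mod_cast hS.ne'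
  have e4 : ∑ x, pc (cw w χ z) x * f x - mean w f =
      B * ((mean w fun x => χ x * f x : ℝ) - (mean w χ * mean w f : ℝ)) /
        (c + B * (mean w χ : ℝ)) := by
    simp only [pc, div_mul_eq_mul_div, ← sum_div]
    rw [e2, e3, mul_div_mul_left _ _ hS']; push_cast; field_simp; ring
  rw [e4, norm_div, norm_mul, ← Complex.ofReal_sub, Complex.norm_real, Real.norm_eq_abs,
    div_le_iff₀ (by linarith)]
  have h5 := abs_sub (mean w fun x => χ x * f x) (mean w χ * mean w f)
  rw [abs_mul] at h5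
  have h6 : 0 ≤ |mean w fun x => χ x * f x| + |mean w χ| * |mean w f| := by positivity
  nlinarith [abs_nonneg ((mean w fun x => χ x * f x) - mean w χ * mean w f), norm_nonneg B]

end fin

/-! ### the cube -/

variable {n : ℕ}

/-- the product of the two spins of a pair -/
def chi (e : Pair n) (x : Cube n) : ℝ := spin (x e.1.1) * spin (x e.1.2)

lemma sgn_chi (e : Pair n) : Sgn (chi e) := fun x => by
  unfold chi; cases x e.1.1 <;> cases x e.1.2 <;> simp [spin]

lemma gibbs_sh (hn : 0 < n) (g : Pair n → ℝ) (e : Pair n) (t : ℝ) :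
    gibbsWeight n 1 (sh √(n : ℝ) g e t) = rw (gibbsWeight n 1 g) (chi e) t := by
  funext x
  have hs : √(n : ℝ) ≠ 0 := (Real.sqrt_pos.2 (by exact_mod_cast hn)).ne'
  rw [rw, gibbsWeight, gibbsWeight, ← Real.exp_add]
  congr 1
  have : ∀ p : Pair n, 1 * sh √(n : ℝ) g e t p / √(n : ℝ) * spin (x p.1.1) * spin (x p.1.2) =
      1 * g p / √(n : ℝ) * spin (x p.1.1) * spin (x p.1.2) + if p = e then t * chi e x else 0 := by
    intro p
    rcases eq_or_ne p e with rfl | hp
    · simp only [sh, Function.update_self, if_true, chi]; field_simp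
    · simp [sh, hp]
  simp only [this, sum_add_distrib, sum_ite_eq', mem_univ, if_true]

lemma sum_pair_le (F : Fin n → Fin n → ℝ) (hF : ∀ i j, 0 ≤ F i j) :
    ∑ e : Pair n, F e.1.1 e.1.2 ≤ ∑ i, ∑ j, F i j := by
  rw [← Fintype.sum_prod_type', ← sum_subtype (univ.filter fun p : Fin n × Fin n => p.1 < p.2)
    (by simp) fun p => F p.1 p.2]
  exact sum_le_sum_of_subset_of_nonneg (filter_subset _ _) fun p _ _ => hF _ _

/-- **averaged covariance bound** -/
lemma sum_cov_le {ι : Type*} [Fintype ι] (w : Cube n → ℝ) (u : ι → Cube n → ℝ) :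
    ∑ e : Pair n, ∑ i, (mean w fun x => chi e x * u i x) ^ 2 ≤
      ∑ x, ∑ y, prob w x * prob w y * ((∑ i, u i x * u i y) * (sv x ⬝ᵥ sv y) ^ 2) := by
  refine (sum_pair_le (fun a b => ∑ i, (mean w fun x => spin (x a) * spin (x b) * u i x) ^ 2)
    fun _ _ => by positivity).trans (le_of_eq ?_)
  simp only [mean, sq, dotProduct, sv, mul_sum, sum_mul]
  have key : ∀ F : Fin n → Fin n → ι → Cube n → Cube n → ℝ,
      ∑ a, ∑ b, ∑ i, ∑ x, ∑ y, F a b i x y = ∑ x, ∑ y, ∑ a, ∑ b, ∑ i, F a b i x y := fun F => by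
    simp only [← Fintype.sum_prod_type']
    exact Fintype.sum_equiv
      ⟨fun p => (p.2.2.2.1, p.2.2.2.2, p.1, p.2.1, p.2.2.1), fun p => (p.2.2.1, p.2.2.2.1, p.2.2.2.2,
        p.1, p.2.1), fun _ => rfl, fun _ => rfl⟩ _ _ fun _ => rfl
  rw [key]
  refine sum_congr rfl fun x _ => sum_congr rfl fun y _ => sum_congr rfl fun a _ =>
    sum_congr rfl fun b _ => sum_congr rfl fun i _ => by ring

/-- complex conditional mean -/
def sMc (v f : Cube n → ℂ) (l : Fin n) (x : Cube n) : ℂ :=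
  (v (Function.update x l true) * f (Function.update x l true) +
      v (Function.update x l false) * f (Function.update x l false)) /
    (v (Function.update x l true) + v (Function.update x l false))

/-- the operator `α - N L` for a complex weight -/
def opL (α N : ℝ) (v : Cube n → ℂ) : (Cube n → ℂ) →ₗ[ℂ] Cube n → ℂ where
  toFun f x := α * f x - N * ∑ l, (sMc v f l x - f x)
  map_add' f f' := by
    funext x
    simp only [sMc, Pi.add_apply, mul_add, add_div, sum_sub_distrib, sum_add_distrib]; ring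
  map_smul' c f := by
    funext x
    simp only [sMc, Pi.smul_apply, smul_eq_mul, RingHom.id_apply, mul_sub, mul_sum]
    congr 1
    · ring
    · exact sum_congr rfl fun l _ => by ring

lemma opL_apply (α N : ℝ) (v f : Cube n → ℂ) (x : Cube n) :
    opL α N v f x = α * f x - N * ∑ l, (sMc v f l x - f x) := rfl

lemma opL_real (α N : ℝ) (w f : Cube n → ℝ) (x : Cube n) :
    opL α N (fun y => (w y : ℂ)) (fun y => (f y : ℂ)) x = (α * f x - N * gen w f x : ℝ) := by
  simp [opL_apply, sMc, gen, siteM]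

lemma add_ne {a b : ℂ} (ha : 0 < a.re) (hb : 0 < b.re) : a + b ≠ 0 := fun h => by
  have := congrArg Complex.re h
  simp only [Complex.add_re, Complex.zero_re] at this
  linarith

lemma re_inv_pos {a : ℂ} (ha : 0 < a.re) : 0 < a⁻¹.re := by
  rw [Complex.inv_re]
  exact div_pos ha (Complex.normSq_pos.2 fun h => by simp [h] at ha)

lemma re_site_nonneg {v : Cube n → ℂ} (hv : ∀ x, 0 < (v x).re) (f : Cube n → ℂ) (l : Fin n) :
    0 ≤ ∑ x, (v x * conj (f x) * (f x - sMc v f l x)).re := by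
  have h := sum_update l fun x => (v x * conj (f x) * (f x - sMc v f l x)).re
  refine nonneg_of_mul_nonneg_right (a := 2) (h ▸ sum_nonneg fun x _ => ?_) two_pos
  simp only [sMc, Function.update_idem]
  set a := v (Function.update x l true)
  set b := v (Function.update x l false)
  set p := f (Function.update x l true)
  set q := f (Function.update x l false)
  have ha : 0 < a.re := hv _
  have hb : 0 < b.re := hv _
  have a0 : a ≠ 0 := fun h => by simp [h] at ha
  have b0 : b ≠ 0 := fun h => by simp [h] at hb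
  have hab := add_ne ha hb
  have hba : b + a ≠ 0 := by rwa [add_comm]
  have e : a * conj p * (p - (a * p + b * q) / (a + b)) + b * conj q * (q - (a * p + b * q) / (a + b)) =
      (a⁻¹ + b⁻¹)⁻¹ * (conj (p - q) * (p - q)) := by
    rw [map_sub]; field_simp; ring
  rw [← Complex.add_re, e, Complex.conj_mul', ← Complex.ofReal_pow, Complex.re_mul_ofReal]
  refine mul_nonneg (re_inv_pos ?_).le (sq_nonneg _)
  rw [Complex.add_re]
  exact add_pos (re_inv_pos ha) (re_inv_pos hb)

/-- **coercivity** -/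
lemma coercive {w : Cube n → ℝ} {v : Cube n → ℂ} (hw : ∀ x, 0 < w x) (h1 : ∀ x, w x / 2 ≤ (v x).re)
    (h2 : ∀ x, ‖v x‖ ≤ 3 / 2 * w x) {α N : ℝ} (hα : 0 < α) (hN : 0 ≤ N) (f : Cube n → ℂ) :
    nsq w f ≤ 9 / α ^ 2 * nsq w (opL α N v f) := by
  have hv : ∀ x, 0 < (v x).re := fun x => (half_pos (hw x)).trans_le (h1 x)
  have e1 : ∑ x, (v x * conj (f x) * opL α N v f x).re = α * ∑ x, (v x).re * ‖f x‖ ^ 2 +
      N * ∑ l, ∑ x, (v x * conj (f x) * (f x - sMc v f l x)).re := by
    rw [sum_comm, mul_sum, mul_sum, ← sum_add_distrib]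
    refine sum_congr rfl fun x _ => ?_
    have : v x * conj (f x) * opL α N v f x = α * (v x * ((‖f x‖ ^ 2 : ℝ) : ℂ)) +
        N * ∑ l, v x * conj (f x) * (f x - sMc v f l x) := by
      rw [opL_apply, Complex.ofReal_pow, ← Complex.conj_mul', ← mul_sum, ← neg_neg (∑ l, (f x - _)),
        ← sum_neg_distrib]
      simp only [neg_sub]; ring
    rw [this, Complex.add_re, Complex.re_ofReal_mul, Complex.re_ofReal_mul, Complex.re_mul_ofReal,
      Complex.re_sum]
  have h3 : α / 2 * ∑ x, w x * ‖f x‖ ^ 2 ≤ ∑ x, (v x * conj (f x) * opL α N v f x).re := by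
    rw [e1]
    have := mul_nonneg hN (sum_nonneg fun l (_ : l ∈ univ) => re_site_nonneg hv f l)
    have : α / 2 * ∑ x, w x * ‖f x‖ ^ 2 ≤ α * ∑ x, (v x).re * ‖f x‖ ^ 2 := by
      rw [mul_sum, mul_sum]
      exact sum_le_sum fun x _ => by
        nlinarith [mul_le_mul_of_nonneg_right (h1 x) (sq_nonneg ‖f x‖)]
    linarith
  have h4 : ∑ x, (v x * conj (f x) * opL α N v f x).re ≤
      α / 4 * ∑ x, w x * ‖f x‖ ^ 2 + 9 / (4 * α) * ∑ x, w x * ‖opL α N v f x‖ ^ 2 := by
    rw [mul_sum, mul_sum, ← sum_add_distrib]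
    refine sum_le_sum fun x _ => (Complex.re_le_norm _).trans ?_
    rw [norm_mul, norm_mul, Complex.norm_conj]
    have h5 : 3 / 2 * (‖f x‖ * ‖opL α N v f x‖) ≤
        α / 4 * ‖f x‖ ^ 2 + 9 / (4 * α) * ‖opL α N v f x‖ ^ 2 := by
      have : 0 ≤ (α * ‖f x‖ - 3 * ‖opL α N v f x‖) ^ 2 / (4 * α) := by positivity
      have e : (α * ‖f x‖ - 3 * ‖opL α N v f x‖) ^ 2 / (4 * α) = α / 4 * ‖f x‖ ^ 2 +
        9 / (4 * α) * ‖opL α N v f x‖ ^ 2 - 3 / 2 * (‖f x‖ * ‖opL α N v f x‖) := by field_simp; ring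
      linarith
    calc _ ≤ 3 / 2 * w x * ‖f x‖ * ‖opL α N v f x‖ := by gcongr; exact h2 x
      _ = w x * (3 / 2 * (‖f x‖ * ‖opL α N v f x‖)) := by ring
      _ ≤ w x * (α / 4 * ‖f x‖ ^ 2 + 9 / (4 * α) * ‖opL α N v f x‖ ^ 2) :=
          mul_le_mul_of_nonneg_left h5 (hw x).le
      _ = _ := by ring
  have hS := Chain22.sum_w_pos hw
  simp only [nsq, prob, div_mul_eq_mul_div, ← sum_div]
  rw [div_le_iff₀ hS]
  calc _ = 4 / α * (α / 4 * ∑ x, w x * ‖f x‖ ^ 2) := by field_simp
    _ ≤ 4 / α * (9 / (4 * α) * ∑ x, w x * ‖opL α N v f x‖ ^ 2) :=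
        mul_le_mul_of_nonneg_left (by linarith) (by positivity)
    _ = _ := by field_simp

/-- the complex resolvent -/
def resC (α N : ℝ) (v h : Cube n → ℂ) : Cube n → ℂ := (LinearMap.toMatrix' (opL α N v))⁻¹ *ᵥ h

section res
variable {w : Cube n → ℝ} {v : Cube n → ℂ} (hw : ∀ x, 0 < w x) (h1 : ∀ x, w x / 2 ≤ (v x).re)
  (h2 : ∀ x, ‖v x‖ ≤ 3 / 2 * w x) {α N : ℝ} (hα : 0 < α) (hN : 0 ≤ N)
include hw h1 h2 hα hN

lemma det_ne : (LinearMap.toMatrix' (opL α N v)).det ≠ 0 := fun h => by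
  obtain ⟨f, hf, h0⟩ := exists_mulVec_eq_zero_iff.2 h
  rw [LinearMap.toMatrix'_mulVec] at h0
  have h3 := coercive hw h1 h2 hα hN f
  rw [h0] at h3
  have h4 : nsq w f = 0 := le_antisymm (by simpa [nsq] using h3) (nsq_nonneg hw f)
  refine hf (funext fun x => ?_)
  have := (sum_eq_zero_iff_of_nonneg fun x _ => mul_nonneg (prob_nn hw x) (sq_nonneg ‖f x‖)).1 h4 x
    (mem_univ x)
  simpa [(Chain22.prob_pos' hw x).ne'] using this

lemma opL_resC (h : Cube n → ℂ) : opL α N v (resC α N v h) = h := by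
  rw [← LinearMap.toMatrix'_mulVec, resC, mulVec_mulVec,
    mul_nonsing_inv _ (det_ne hw h1 h2 hα hN).isUnit, one_mulVec]

lemma resC_opL (f : Cube n → ℂ) : resC α N v (opL α N v f) = f := by
  rw [← LinearMap.toMatrix'_mulVec, resC, mulVec_mulVec,
    nonsing_inv_mul _ (det_ne hw h1 h2 hα hN).isUnit, one_mulVec]

end res

lemma resC_eq (α N : ℝ) (v h : Cube n → ℂ) (x : Cube n) : resC α N v h x =
    ∑ y, ((LinearMap.toMatrix' (opL α N v)).det⁻¹ *
      ((LinearMap.toMatrix' (opL α N v)).updateRow y (Pi.single x 1)).det) * h y := by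
  simp only [resC, Matrix.inv_def, mulVec, dotProduct, Matrix.smul_apply, smul_eq_mul, adjugate_apply,
    Ring.inverse_eq_inv']

lemma diffOn_det {m : Type*} [Fintype m] [DecidableEq m] {A : ℂ → Matrix m m ℂ} {s : Set ℂ}
    (h : ∀ i j, DifferentiableOn ℂ (fun z => A z i j) s) :
    DifferentiableOn ℂ (fun z => (A z).det) s := by
  simp only [det_apply']
  exact DifferentiableOn.fun_sum fun σ _ =>
    (DifferentiableOn.fun_finsetProd fun i _ => h _ _).const_mul _

lemma meas_det {m X : Type*} [Fintype m] [DecidableEq m] [MeasurableSpace X] {A : X → Matrix m m ℂ}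
    (h : ∀ i j, Measurable fun z => A z i j) : Measurable fun z => (A z).det := by
  simp only [det_apply']
  exact measurable_sum _ fun σ _ => (Finset.measurable_prod _ fun i _ => h _ _).const_mul _

lemma diffOn_resC {α N : ℝ} {v h : ℂ → Cube n → ℂ} {s : Set ℂ}
    (hv : ∀ x, DifferentiableOn ℂ (fun z => v z x) s) (hp : ∀ z ∈ s, ∀ x, 0 < (v z x).re)
    (hd : ∀ z ∈ s, (LinearMap.toMatrix' (opL α N (v z))).det ≠ 0)
    (hh : ∀ x, DifferentiableOn ℂ (fun z => h z x) s) (x : Cube n) :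
    DifferentiableOn ℂ (fun z => resC α N (v z) (h z) x) s := by
  have hA : ∀ i j, DifferentiableOn ℂ (fun z => LinearMap.toMatrix' (opL α N (v z)) i j) s := by
    intro i j
    simp only [LinearMap.toMatrix'_apply, opL_apply, sMc]
    refine (differentiableOn_const _).sub (DifferentiableOn.const_mul
      (DifferentiableOn.fun_sum fun l _ => DifferentiableOn.sub_const ?_ _) _)
    exact (((hv _).mul_const _).add ((hv _).mul_const _)).div ((hv _).add (hv _))
      fun z hz => add_ne (hp z hz _) (hp z hz _)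
  simp only [resC_eq]
  refine DifferentiableOn.fun_sum fun y _ => (((diffOn_det hA).inv hd).mul
    (diffOn_det fun i j => ?_)).mul (hh y)
  simp only [updateRow_apply]
  split_ifs
  exacts [differentiableOn_const _, hA i j]

lemma meas_resC {X : Type*} [MeasurableSpace X] {α N : ℝ} {v h : X → Cube n → ℂ}
    (hv : ∀ x, Measurable fun z => v z x) (hh : ∀ x, Measurable fun z => h z x) (x : Cube n) :
    Measurable fun z => resC α N (v z) (h z) x := by
  have hA : ∀ i j, Measurable fun z => LinearMap.toMatrix' (opL α N (v z)) i j := by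
    intro i j
    simp only [LinearMap.toMatrix'_apply, opL_apply, sMc]
    refine measurable_const.sub (Measurable.const_mul
      (measurable_sum _ fun l _ => Measurable.sub_const ?_ _) _)
    exact (((hv _).mul_const _).add ((hv _).mul_const _)).div ((hv _).add (hv _))
  simp only [resC_eq]
  refine measurable_sum _ fun y _ => (((meas_det hA).inv).mul (meas_det fun i j => ?_)).mul (hh y)
  simp only [updateRow_apply]
  split_ifs
  exacts [measurable_const, hA i j]

/-- the perturbation of a conditional mean is controlled by the local energy -/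
lemma sMc_sub {w : Cube n → ℝ} (hw : ∀ x, 0 < w x) (e : Pair n) {z : ℂ}
    (hz : z ∈ ball (0 : ℂ) (1 / 4)) (f : Cube n → ℝ) (l : Fin n) (x : Cube n) :
    ‖sMc (cw w (chi e) z) (fun y => f y) l x - siteM w f l x‖ ≤
      if l = e.1.1 ∨ l = e.1.2 then 2 * |f x - siteM w f l x| else 0 := by
  have r1 := exp_sub_one (sgn_chi e) hz (Function.update x l true)
  have r2 := exp_sub_one (sgn_chi e) hz (Function.update x l false)
  have s1 := re_cw hw (sgn_chi e) hz (Function.update x l true)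
  have s2 := re_cw hw (sgn_chi e) hz (Function.update x l false)
  have ha := hw (Function.update x l true)
  have hb := hw (Function.update x l false)
  have hx : f x - siteM w f l x = w (Function.update x l false) * (f (Function.update x l true) -
      f (Function.update x l false)) / (w (Function.update x l true) + w (Function.update x l false)) ∨
      f x - siteM w f l x = -(w (Function.update x l true) * (f (Function.update x l true) -
      f (Function.update x l false)) /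
        (w (Function.update x l true) + w (Function.update x l false))) := by
    cases h : x l
    · have : f x = f (Function.update x l false) := by rw [← h]; simp
      right; rw [this, siteM]; field_simp; ring
    · have : f x = f (Function.update x l true) := by rw [← h]; simp
      left; rw [this, siteM]; field_simp; ring
  have hc : ¬ (l = e.1.1 ∨ l = e.1.2) →
      chi e (Function.update x l true) = chi e (Function.update x l false) := fun h => by
    rw [not_or] at h
    simp [chi, Function.update_of_ne (Ne.symm h.1), Function.update_of_ne (Ne.symm h.2)]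
  simp only [sMc, siteM, cw] at *
  set a := w (Function.update x l true)
  set b := w (Function.update x l false)
  set p := f (Function.update x l true)
  set q := f (Function.update x l false)
  set ρ := Complex.exp (z * chi e (Function.update x l true))
  set σ := Complex.exp (z * chi e (Function.update x l false))
  have hD : (a + b) / 2 ≤ ‖a * ρ + b * σ‖ := by
    refine le_trans ?_ (Complex.re_le_norm _)
    rw [Complex.add_re]; linarith
  have hD' : a * ρ + b * σ ≠ 0 := norm_pos_iff.1 (lt_of_lt_of_le (by positivity) hD)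
  have hab : (a : ℂ) + b ≠ 0 := by exact_mod_cast (add_pos ha hb).ne'
  have e1 : (a * ρ * p + b * σ * q) / (a * ρ + b * σ) - ((a * p + b * q) / (a + b) : ℝ) =
      ((a * b * (p - q) / (a + b) : ℝ) : ℂ) * (ρ - σ) / (a * ρ + b * σ) := by
    push_cast; field_simp; ring
  rw [e1]
  split_ifs with h
  · have h3 : ‖ρ - σ‖ ≤ 1 := by
      rw [show ρ - σ = (ρ - 1) - (σ - 1) by ring]; linarith [norm_sub_le (ρ - 1) (σ - 1)]
    rw [norm_div, norm_mul, Complex.norm_real, Real.norm_eq_abs]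
    calc _ ≤ |a * b * (p - q) / (a + b)| * 1 / ((a + b) / 2) := by gcongr
      _ = 2 * (a * b * |p - q| / ((a + b) * (a + b))) := by
          rw [abs_div, abs_mul, abs_of_pos (mul_pos ha hb), abs_of_pos (add_pos ha hb)]; field_simp
      _ ≤ _ := by
          rcases hx with h | h <;> rw [h] <;> simp only [abs_neg, abs_div, abs_mul, abs_of_pos ha,
            abs_of_pos hb, abs_of_pos (add_pos ha hb)] <;> gcongr 2 * ?_ <;>
            rw [div_le_div_iff₀ (by positivity) (by positivity)] <;>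
            nlinarith [mul_nonneg (mul_nonneg (mul_pos ha ha).le (abs_nonneg (p - q))) (add_pos ha hb).le,
              mul_nonneg (mul_nonneg (mul_pos hb hb).le (abs_nonneg (p - q))) (add_pos ha hb).le]
  · have : ρ = σ := by simp only [ρ, σ, hc h]
    simp [this]

/-- local energy at a site -/
def enS (w f : Cube n → ℝ) (l : Fin n) : ℝ := ∑ x, prob w x * (f x - siteM w f l x) ^ 2

lemma nsq_opL_sub {w : Cube n → ℝ} (hw : ∀ x, 0 < w x) (e : Pair n) {z : ℂ}
    (hz : z ∈ ball (0 : ℂ) (1 / 4)) (α N : ℝ) (f : Cube n → ℝ) :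
    nsq w (opL α N (cw w (chi e) z) (fun y => f y) - opL α N (fun y => w y) fun y => f y) ≤
      8 * N ^ 2 * (enS w f e.1.1 + enS w f e.1.2) := by
  simp only [nsq, enS, ← sum_add_distrib, mul_sum]
  refine sum_le_sum fun x _ => ?_
  have h1 : ‖(opL α N (cw w (chi e) z) (fun y => f y) - opL α N (fun y => w y) fun y => f y) x‖ ≤
      |N| * (2 * |f x - siteM w f e.1.1 x| + 2 * |f x - siteM w f e.1.2 x|) := by
    have e1 : (opL α N (cw w (chi e) z) (fun y => f y) - opL α N (fun y => w y) fun y => f y) x =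
        -(N * ∑ l, (sMc (cw w (chi e) z) (fun y => f y) l x - siteM w f l x)) := by
      rw [Pi.sub_apply, opL_real, opL_apply, gen]
      push_cast
      simp only [sum_sub_distrib]; ring
    rw [e1, norm_neg, norm_mul, Complex.norm_real, Real.norm_eq_abs]
    gcongr
    refine (norm_sum_le _ _).trans ((sum_le_sum fun l _ => sMc_sub hw e hz f l x).trans ?_)
    rw [← sum_filter]
    have : univ.filter (fun l => l = e.1.1 ∨ l = e.1.2) = {e.1.1, e.1.2} := by ext; simp
    rw [this, sum_pair e.2.ne]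
  have h2 := pow_le_pow_left₀ (norm_nonneg _) h1 2
  rw [mul_pow, sq_abs] at h2
  have h3 : (2 * |f x - siteM w f e.1.1 x| + 2 * |f x - siteM w f e.1.2 x|) ^ 2 ≤
      8 * ((f x - siteM w f e.1.1 x) ^ 2 + (f x - siteM w f e.1.2 x) ^ 2) := by
    rw [← sq_abs (f x - siteM w f e.1.1 x), ← sq_abs (f x - siteM w f e.1.2 x)]
    nlinarith [sq_nonneg (|f x - siteM w f e.1.1 x| - |f x - siteM w f e.1.2 x|)]
  calc _ ≤ prob w x * (N ^ 2 * (8 * ((f x - siteM w f e.1.1 x) ^ 2 +
        (f x - siteM w f e.1.2 x) ^ 2))) :=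
        mul_le_mul_of_nonneg_left (h2.trans (by gcongr)) (prob_nn hw x)
    _ = _ := by ring

lemma sum_enS_le {w : Cube n → ℝ} (hw : ∀ x, 0 < w x) (f : Cube n → ℝ) :
    ∑ e : Pair n, (enS w f e.1.1 + enS w f e.1.2) ≤ 2 * n * dir w f := by
  have h0 : ∀ l, 0 ≤ enS w f l := fun l =>
    sum_nonneg fun x _ => mul_nonneg (prob_nn hw x) (sq_nonneg _)
  refine (sum_pair_le (fun i j => enS w f i + enS w f j) fun i j => add_nonneg (h0 i) (h0 j)).trans
    (le_of_eq ?_)
  simp only [sum_add_distrib, sum_const, card_univ, Fintype.card_fin, nsmul_eq_mul, ← mul_sum]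
  change _ = 2 * n * ∑ l, enS w f l
  ring

lemma nsq_add_le {Ω : Type*} [Fintype Ω] [Nonempty Ω] {w : Ω → ℝ} (hw : ∀ x, 0 < w x)
    (f g : Ω → ℂ) : nsq w (f + g) ≤ 2 * nsq w f + 2 * nsq w g := by
  simp only [nsq, mul_sum, ← sum_add_distrib]
  refine sum_le_sum fun x _ => ?_
  have h1 := pow_le_pow_left₀ (norm_nonneg _) (norm_add_le (f x) (g x)) 2
  have h2 : ‖f x + g x‖ ^ 2 ≤ 2 * ‖f x‖ ^ 2 + 2 * ‖g x‖ ^ 2 := by
    nlinarith [sq_nonneg (‖f x‖ - ‖g x‖)]
  rw [Pi.add_apply]
  nlinarith [mul_le_mul_of_nonneg_left h2 (prob_nn hw x)]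

lemma nsq_neg {Ω : Type*} [Fintype Ω] (w : Ω → ℝ) (f : Ω → ℂ) : nsq w (-f) = nsq w f := by
  simp [nsq]

/-- **the resolvent under a complex change of one coupling** -/
theorem res_ext {w : Cube n → ℝ} (hw : ∀ x, 0 < w x) (e : Pair n) {α N r : ℝ} (hα : 0 < α)
    (hN : 0 ≤ N) (hr : 0 < r) (hr' : r ≤ 1 / 4) {h φ : ℝ → Cube n → ℝ} {H : ℂ → Cube n → ℂ}
    (hH : ∀ x, Ex r (fun t => h t x) fun z => H z x)
    (hφ : ∀ t x, α * φ t x - N * gen (rw w (chi e) t) (φ t) x = h t x) :
    ∃ Φ : ℂ → Cube n → ℂ, (∀ x, Ex r (fun t => φ t x) fun z => Φ z x) ∧ ∀ z ∈ ball (0 : ℂ) r,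
      nsq w (Φ z) ≤ 9 / α ^ 2 * nsq w (H z) ∧ nsq w (Φ z - Φ 0) ≤ 9 / α ^ 2 *
        (2 * nsq w (H z - H 0) + 16 * N ^ 2 * (enS w (φ 0) e.1.1 + enS w (φ 0) e.1.2)) := by
  have sub : ∀ {z}, z ∈ ball (0 : ℂ) r → z ∈ ball (0 : ℂ) (1 / 4) := fun hz => ball_subset_ball hr' hz
  have a1 := fun z (hz : z ∈ ball (0 : ℂ) r) => re_cw hw (sgn_chi e) (sub hz)
  have a2 := fun z (hz : z ∈ ball (0 : ℂ) r) => norm_cw hw (sgn_chi e) (sub hz)
  have real : ∀ t : ℝ, |t| < r → resC α N (cw w (chi e) t) (H t) = fun x => (φ t x : ℂ) := by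
    intro t ht
    have hz := mem_ball_real ht
    rw [← resC_opL hw (a1 _ hz) (a2 _ hz) hα hN fun x => (φ t x : ℂ)]
    congr 1
    funext x
    rw [(hH x).eq t ht, ← hφ t x, ← opL_real]
    simp only [funext (cw_real (w := w) (χ := chi e) t)]
  refine ⟨fun z => resC α N (cw w (chi e) z) (H z), fun x => ⟨diffOn_resC
    (fun x => (diff_cw x).differentiableOn) (fun z hz x => (half_pos (hw x)).trans_le (a1 z hz x))
    (fun z hz => det_ne hw (a1 z hz) (a2 z hz) hα hN) (fun x => (hH x).diff) x,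
    fun t ht => congrFun (real t ht) x⟩, fun z hz => ⟨?_, ?_⟩⟩
  · have := coercive hw (a1 z hz) (a2 z hz) hα hN (resC α N (cw w (chi e) z) (H z))
    rwa [opL_resC hw (a1 z hz) (a2 z hz) hα hN] at this
  · have r0 := real 0 (by simpa using hr)
    rw [Complex.ofReal_zero] at r0
    have z0 : (0 : ℂ) ∈ ball (0 : ℂ) r := mem_ball_self hr
    refine (coercive hw (a1 z hz) (a2 z hz) hα hN _).trans ?_
    gcongr
    have e0 : H 0 = opL α N (fun y => w y) fun y => φ 0 y := by
      rw [← opL_resC hw (a1 0 z0) (a2 0 z0) hα hN (H 0), r0]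
      simp only [funext (cw_zero (w := w) (χ := chi e))]
    beta_reduce
    rw [map_sub, opL_resC hw (a1 z hz) (a2 z hz) hα hN, r0,
      show H z - opL α N (cw w (chi e) z) (fun y => φ 0 y) = (H z - H 0) +
        -(opL α N (cw w (chi e) z) (fun y => φ 0 y) - opL α N (fun y => w y) fun y => φ 0 y) by
        rw [← e0]; abel]
    refine (nsq_add_le hw _ _).trans ?_
    rw [nsq_neg]
    linarith [nsq_opL_sub hw e (sub hz) α N (φ 0)]

end Crest.Agent.T157.Un

end
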