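import Crest.Agent.T157.CnDef_63
import Crest.Agent.T157.ChainPoi_22
import Crest.Agent.T157.EntE_34
import Crest.Agent.T157.UnB_81
import Crest.Agent.T157.UnC_81
import Crest.Agent.T157.PlB_37

-- ▼ part T157/CnTopA_63
section

/-!
# Row 157, part C (helper63): words of single-site updates, tensorisation from a kernel bound
-/

set_option autoImplicit false

noncomputable section

namespace Crest.Agent.T157.Cn

open Finset Matrix Real
open Crest.Agent.T157.E Crest.Agent.T157.SL Crest.Agent.T157.Chain22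

variable {n : ℕ} {w : Cube n → ℝ}

theorem sum_word {α β : Type*} [Fintype α] [AddCommMonoid β] (m : ℕ) (F : List α → β) :
    ∑ ω : Fin (m + 1) → α, F (List.ofFn ω) = ∑ l, ∑ ω : Fin m → α, F (l :: List.ofFn ω) := by
  rw [← Fintype.sum_prod_type', ← (Fin.consEquiv fun _ => α).sum_comp]
  exact sum_congr rfl fun p _ => by simp [Fin.consEquiv, List.ofFn_succ]

theorem sum_two_pow (i : Fin n) (m : ℕ) :
    ∑ ω : Fin m → Fin n, (2 : ℝ) ^ (List.ofFn ω).count i = (n + 1) ^ m := by
  induction m with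
  | zero => simp
  | succ m ih =>
    rw [sum_word m fun ω => (2 : ℝ) ^ ω.count i, pow_succ']
    simp only [List.count_cons, pow_add, ← sum_mul, ih, ← mul_sum]
    rw [mul_comm, sum_congr rfl fun l _ => show (2 : ℝ) ^ (if l == i then 1 else 0) =
      1 + if l = i then 1 else 0 by by_cases h : l = i <;> simp [h]; norm_num]
    simp [sum_add_distrib]

/-- product of the single-site kernels along a word -/
def KW (w : Cube n → ℝ) (ω : List (Fin n)) : Matrix (Cube n) (Cube n) ℝ := (ω.map (sk w)).prod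

theorem KW_cons (l : Fin n) (ω : List (Fin n)) : KW w (l :: ω) = sk w l * KW w ω := by simp [KW]

theorem KW_nn (hw : ∀ x, 0 < w x) (ω : List (Fin n)) : ∀ x y, 0 ≤ KW w ω x y := by
  induction ω with
  | nil => intro x y; simp only [KW, List.map_nil, List.prod_nil, one_apply]; split_ifs <;> norm_num
  | cons l ω ih =>
    intro x y; rw [KW_cons, mul_apply]
    exact sum_nonneg fun z _ => mul_nonneg ((siteRC hw l).nn x z) (ih z y)

theorem sum_KW (hn : 0 < n) (hw : ∀ x, 0 < w x) (m : ℕ) :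
    ∑ ω : Fin m → Fin n, KW w (List.ofFn ω) = (n : ℝ) ^ m • (hbRC hn hw).P ^ m := by
  have n0 : (n : ℝ) ≠ 0 := by exact_mod_cast hn.ne'
  have e : ∑ l, sk w l = (n : ℝ) • (hbRC hn hw).P := by
    ext x y
    rw [Matrix.smul_apply, hbRC_P, hb_eq, smul_eq_mul, ← mul_assoc, mul_one_div_cancel n0, one_mul,
      Matrix.sum_apply]
  induction m with
  | zero => simp [KW]
  | succ m ih =>
    rw [sum_word m (KW w)]
    simp only [KW_cons, ← Finset.mul_sum, ih, ← Finset.sum_mul, e]
    rw [smul_mul_smul_comm, ← pow_succ', ← pow_succ']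

/-- words in which no site occurs more than `M` times -/
def cut (n m M : ℕ) : Finset (Fin m → Fin n) := univ.filter fun ω => ∀ i, (List.ofFn ω).count i ≤ M

/-- the cut kernel -/
def KC (w : Cube n → ℝ) (m M : ℕ) : Matrix (Cube n) (Cube n) ℝ :=
  ∑ ω ∈ cut n m M, KW w (List.ofFn ω)

theorem KC_le (hn : 0 < n) (hw : ∀ x, 0 < w x) (m M : ℕ) (x y : Cube n) :
    KC w m M x y ≤ (n : ℝ) ^ m * ((hbRC hn hw).P ^ m) x y := by
  have := congrFun (congrFun (sum_KW hn hw m) x) y
  rw [Matrix.smul_apply, smul_eq_mul] at this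
  rw [← this, KC, Matrix.sum_apply, Matrix.sum_apply]
  exact sum_le_sum_of_subset_of_nonneg (subset_univ _) fun ω _ _ => KW_nn hw _ x y

theorem card_cut (hn : 0 < n) {k M : ℕ} (h : n * exp k ≤ 2 ^ M) :
    (n : ℝ) ^ (n * k) ≤ 2 * (cut n (n * k) M).card := by
  have n0 : (0 : ℝ) < n := by exact_mod_cast hn
  have a1 : ∀ ω : Fin (n * k) → Fin n, (1 : ℝ) ≤ (if ∀ i, (List.ofFn ω).count i ≤ M then 1 else 0) +
      (∑ i, (2 : ℝ) ^ (List.ofFn ω).count i) / 2 ^ (M + 1) := fun ω => by
    split_ifs with h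
    · exact le_add_of_nonneg_right (by positivity)
    · obtain ⟨i, hi⟩ := not_forall.1 h
      rw [zero_add, one_le_div (by positivity)]
      exact (pow_le_pow_right₀ one_le_two (not_le.1 hi)).trans
        (single_le_sum (f := fun i => (2 : ℝ) ^ (List.ofFn ω).count i) (fun _ _ => by positivity)
          (mem_univ i))
  have a2 := sum_le_sum fun ω (_ : ω ∈ univ) => a1 ω
  rw [sum_add_distrib, ← sum_div, sum_comm, sum_boole] at a2
  simp only [sum_two_pow, sum_const, card_univ, Fintype.card_fun, Fintype.card_fin, nsmul_eq_mul,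
    mul_one, Nat.cast_pow] at a2
  have a3 : ((n : ℝ) + 1) ^ (n * k) ≤ (n : ℝ) ^ (n * k) * exp k := by
    have : (n : ℝ) + 1 ≤ n * exp (1 / n) := by
      have := mul_le_mul_of_nonneg_left (add_one_le_exp (1 / (n : ℝ))) n0.le
      rwa [mul_add, mul_one_div_cancel n0.ne', mul_one, add_comm] at this
    refine (pow_le_pow_left₀ (by positivity) this _).trans_eq ?_
    rw [mul_pow, ← exp_nat_mul]
    congr 2; push_cast; field_simp
  have a4 : n * ((n : ℝ) + 1) ^ (n * k) / 2 ^ (M + 1) ≤ (n : ℝ) ^ (n * k) / 2 := by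
    rw [div_le_div_iff₀ (by positivity) two_pos, pow_succ]
    nlinarith [mul_le_mul_of_nonneg_left a3 n0.le,
      mul_le_mul_of_nonneg_left h (show 0 ≤ (n : ℝ) ^ (n * k) by positivity)]
  rw [cut]
  linarith

theorem site_log (hw : ∀ x, 0 < w x) {f h : Cube n → ℝ} (hf : ∀ x, 0 ≤ f x) (hh : ∀ x, 0 < h x)
    (l : Fin n) : E.mean w (fun x => f x * log (h x)) ≤
      Ent.entS w f l + E.mean w fun x => f x * log (siteM w h l x) := by
  rw [emean_eq, emean_eq, ← mean_siteM hw l, Ent.entS,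
    ← Ent.mean_mean_cnd hw l (fun x y => f y * log (siteM w h l x)) fun x b y => by
      rw [siteM_update], ← Chain22.mean_add]
  refine (isP_prob' hw).mean_mono fun x => ?_
  have := (Ent.isP_cnd hw l x).mean_mul_le_ent (fun b => hf (Function.update x l b))
    fun b => log (h (Function.update x l b))
  simp only [exp_log (hh _)] at this
  rw [Ent.mean_cnd w h, ← Ent.mean_mul_const] at this
  rw [← Ent.mean_cnd]
  exact this

theorem word_log (hw : ∀ x, 0 < w x) {f h : Cube n → ℝ} (hf : ∀ x, 0 ≤ f x) (hh : ∀ x, 0 < h x)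
    (ω : List (Fin n)) : (∀ x, 0 < (KW w ω *ᵥ h) x) ∧ E.mean w (fun x => f x * log (h x)) ≤
      ∑ i, ω.count i * Ent.entS w f i + E.mean w fun x => f x * log ((KW w ω *ᵥ h) x) := by
  induction ω with
  | nil => simpa [KW] using hh
  | cons l ω ih =>
    rw [KW_cons, ← mulVec_mulVec, sk_mulVec]
    refine ⟨fun x => div_pos (add_pos (mul_pos (hw _) (ih.1 _)) (mul_pos (hw _) (ih.1 _)))
      (den_pos hw l x), ?_⟩
    have := site_log hw hf ih.1 l
    simp only [List.count_cons, Nat.cast_add, add_mul, sum_add_distrib, beq_iff_eq, Nat.cast_ite,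
      Nat.cast_one, Nat.cast_zero, ite_mul, one_mul, zero_mul, sum_ite_eq, mem_univ, if_true]
    linarith [ih.2]

/-- **tensorisation from a bound of the cut kernel** -/
theorem dat_of (hn : 0 < n) (hw : ∀ x, 0 < w x) {m M : ℕ} {H : ℝ}
    (hc : (n : ℝ) ^ m ≤ 2 * (cut n m M).card)
    (hK : ∀ x y, KC w m M x y ≤ (n : ℝ) ^ m * exp H * prob w y) : DAT w M (H + 2) := fun f hf => by
  have hW := Wt.of_pos hw
  have n0 : (0 : ℝ) < n := by exact_mod_cast hn
  have S0 := fun i => Ent.entS_nonneg hw hf i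
  rcases (hW.mean_nonneg hf).eq_or_lt with h0 | h0
  · rw [← h0, mul_zero, add_zero, eent_eq, Ent.ent_eq_zero_of_mean hW.isP hf h0.symm]
    exact mul_nonneg M.cast_nonneg (sum_nonneg fun i _ => S0 i)
  set c := E.mean w f with hc'
  have hh : ∀ x, 0 < f x + c := fun x => add_pos_of_nonneg_of_pos (hf x) h0
  set b := 4 * exp H * c with hb
  have b0 : 0 < b := by positivity
  have C0 : (0 : ℝ) < (cut n m M).card := by linarith [pow_pos n0 m]
  have a1 : ∀ ω ∈ cut n m M, E.mean w (fun x => f x * log (f x + c)) ≤ M * ∑ i, Ent.entS w f i +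
      E.mean w fun x => f x * ((KW w (List.ofFn ω) *ᵥ fun x => f x + c) x / b - 1 + log b) :=
    fun ω hω => by
    have := word_log hw hf hh (List.ofFn ω)
    refine this.2.trans (add_le_add ?_ (hW.mean_mono fun x => mul_le_mul_of_nonneg_left ?_ (hf x)))
    · rw [mul_sum]
      exact sum_le_sum fun i _ => mul_le_mul_of_nonneg_right
        (Nat.cast_le.2 ((mem_filter.1 hω).2 i)) (S0 i)
    · linarith [log_le_sub_one_of_pos (div_pos (this.1 x) b0), log_div (this.1 x).ne' b0.ne']
  have a2 := sum_le_sum a1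
  have a3 : ∑ ω ∈ cut n m M, E.mean w (fun x => f x *
      ((KW w (List.ofFn ω) *ᵥ fun x => f x + c) x / b - 1 + log b)) ≤
      (cut n m M).card * (c * log b) := by
    have e0 : (cut n m M).card * (c * log b) = ∑ x, (cut n m M).card * (prob w x * f x * log b) := by
      rw [← mul_sum, ← sum_mul]; rfl
    simp only [E.mean]
    rw [sum_comm, e0]
    refine sum_le_sum fun x _ => ?_
    have : ∑ ω ∈ cut n m M, (KW w (List.ofFn ω) *ᵥ fun x => f x + c) x ≤ (cut n m M).card * b := by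
      have e : ∑ y, prob w y * (f y + c) = 2 * c := by
        simp only [mul_add, sum_add_distrib, ← sum_mul, hW.isP.sum1]
        change c + _ = _; ring
      calc _ = ∑ y, KC w m M x y * (f y + c) := by
            simp only [KC, mulVec, dotProduct, Matrix.sum_apply, sum_mul]; exact sum_comm
        _ ≤ ∑ y, (n : ℝ) ^ m * exp H * prob w y * (f y + c) :=
            sum_le_sum fun y _ => mul_le_mul_of_nonneg_right (hK x y) (hh y).le
        _ = (n : ℝ) ^ m * exp H * (2 * c) := by simp only [mul_assoc, ← mul_sum, e]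
        _ ≤ _ := by rw [hb]; nlinarith [mul_pos (exp_pos H) h0]
    rw [← mul_sum, ← mul_sum, sum_add_distrib, sum_sub_distrib, ← sum_div]
    simp only [sum_const, nsmul_eq_mul, mul_one]
    have := (div_le_iff₀ b0).2 this
    nlinarith [mul_nonneg (hW.isP.nn x) (hf x)]
  rw [sum_add_distrib, sum_const, sum_const, nsmul_eq_mul, nsmul_eq_mul] at a2
  have a4 : E.mean w (fun x => f x * log (f x + c)) ≤ M * ∑ i, Ent.entS w f i + c * log b :=
    le_of_mul_le_mul_left (by linarith) C0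
  have a5 : E.mean w (fun x => f x * log (f x)) ≤ E.mean w fun x => f x * log (f x + c) :=
    hW.mean_mono fun x => (hf x).eq_or_lt.elim (fun h => by simp [← h]) fun h =>
      mul_le_mul_of_nonneg_left (log_le_log h (by linarith)) h.le
  have a6 : log 4 ≤ 2 := by
    rw [show (4 : ℝ) = 2 ^ 2 by norm_num, log_pow]
    push_cast
    linarith [log_two_lt_d9]
  rw [hb, log_mul (by positivity) h0.ne', log_mul (by norm_num) (exp_pos H).ne', log_exp] at a4
  change E.mean w (fun x => f x * log (f x)) - c * log c ≤ _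
  nlinarith

/-- discrete time from continuous time -/
theorem pow_le_heat {Ω : Type*} [Fintype Ω] [DecidableEq Ω] (c : RC Ω) {m : ℕ} (hm : 1 ≤ m)
    (x y : Ω) : (c.P ^ m) x y ≤ exp 1 * √m * c.H m x y := by
  have h1 := le_hasSum (c.hasSum_H m x y) m fun k _ =>
    mul_nonneg (poi_nonneg m.cast_nonneg k) (c.pow_nn k x y)
  have h2 : 1 ≤ exp 1 * √m * poi m m := by
    rw [poi, ← mul_div_assoc, one_le_div (by positivity), exp_neg, mul_left_comm, ← div_eq_inv_mul,
      le_div_iff₀ (exp_pos _)]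
    exact factorial_le_stirling hm
  nlinarith [c.pow_nn m x y, mul_le_mul_of_nonneg_left h1 (show 0 ≤ exp 1 * √m by positivity)]

end Crest.Agent.T157.Cn

end
end

-- ▼ part T157/CnTopB_63

/-!
# Row 157, part C (helper63): the cut kernel under a complex change of one coupling
-/

set_option autoImplicit false

noncomputable section

namespace Crest.Agent.T157.Cn

open Finset Matrix Real Metric MeasureTheory
open Crest.ProbabilityR.SpinGlassDynamics
open Crest.Agent.T157.E Crest.Agent.T157.Chain22 Crest.Agent.T157.Un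

/-- holomorphic extension with a relative oscillation at most `e^ρ - 1` -/
def Ap (r ρ : ℝ) (q : ℝ → ℝ) : Prop := 0 ≤ q 0 ∧
  ∃ F, Ex r q F ∧ ∀ z ∈ ball (0 : ℂ) r, ‖F z - q 0‖ ≤ (exp ρ - 1) * q 0

namespace Ap
variable {r ρ ρ' : ℝ} {q q' : ℝ → ℝ}

theorem const (r : ℝ) {a : ℝ} (ha : 0 ≤ a) : Ap r 0 fun _ => a :=
  ⟨ha, _, Ex.const r a, fun _ _ => by simp⟩

theorem mono (h : Ap r ρ q) (e : ρ ≤ ρ') : Ap r ρ' q :=
  ⟨h.1, h.2.imp fun _ hF => ⟨hF.1, fun z hz => (hF.2 z hz).trans (by have := h.1; gcongr)⟩⟩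

theorem mul (h : Ap r ρ q) (h' : Ap r ρ' q') (e : 0 ≤ ρ) : Ap r (ρ + ρ') fun t => q t * q' t := by
  obtain ⟨h0, F, h1, h2⟩ := h
  obtain ⟨h0', F', h1', h2'⟩ := h'
  refine ⟨mul_nonneg h0 h0', _, h1.mul h1', fun z hz => ?_⟩
  have a : ‖F' z‖ ≤ exp ρ' * q' 0 := by
    have := norm_le_norm_add_norm_sub' (F' z) (q' 0)
    rw [Complex.norm_real, norm_of_nonneg h0'] at this
    linarith [h2' z hz]
  have e1 : 0 ≤ exp ρ - 1 := sub_nonneg.2 (one_le_exp e)
  rw [show F z * F' z - ((q 0 * q' 0 : ℝ) : ℂ) = (F z - q 0) * F' z + q 0 * (F' z - q' 0) by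
    push_cast; ring]
  refine (norm_add_le _ _).trans ?_
  rw [norm_mul, norm_mul, Complex.norm_real, norm_of_nonneg h0, exp_add]
  linarith [mul_le_mul (h2 z hz) a (norm_nonneg _) (mul_nonneg e1 h0),
    mul_le_mul_of_nonneg_left (h2' z hz) h0]

theorem sum {κ : Type*} (s : Finset κ) {q : κ → ℝ → ℝ} (h : ∀ k, k ∈ s → Ap r ρ (q k)) :
    Ap r ρ fun t => ∑ k ∈ s, q k t := by
  classical
  choose! F h1 h2 using fun k hk => (h k hk).2
  refine ⟨sum_nonneg fun k hk => (h k hk).1, _, Ex.sum s h1, fun z hz => ?_⟩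
  rw [Complex.ofReal_sum, ← sum_sub_distrib, mul_sum]
  exact norm_sum_le_of_le _ fun k hk => h2 k hk z hz

theorem add (h : Ap r ρ q) (h' : Ap r ρ q') : Ap r ρ fun t => q t + q' t := by
  simpa using sum (univ : Finset Bool) (q := fun b => if b then q else q') fun b _ => by
    cases b <;> simpa

theorem pow (h : Ap r ρ q) (e : 0 ≤ ρ) (k : ℕ) : Ap r (k * ρ) fun t => q t ^ k := by
  induction k with
  | zero => simpa using const r zero_le_one
  | succ k ih => simpa only [pow_succ, Nat.cast_succ, add_mul, one_mul] using ih.mul h (by positivity)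

theorem inv (h : Ap r ρ q) (h0 : 0 < q 0) (e : 0 ≤ ρ) (e' : exp ρ ≤ 3 / 2) :
    Ap r (2 * ρ) fun t => (q t)⁻¹ := by
  obtain ⟨-, F, h1, h2⟩ := h
  have e1 := one_le_exp e
  have a : ∀ z ∈ ball (0 : ℂ) r, (2 - exp ρ) * q 0 ≤ ‖F z‖ := fun z hz => by
    have := norm_le_norm_add_norm_sub (F z) (q 0)
    rw [Complex.norm_real, norm_of_nonneg h0.le] at this
    linarith [h2 z hz]
  have p : 0 < (2 - exp ρ) * q 0 := mul_pos (by linarith) h0
  have b : ∀ z ∈ ball (0 : ℂ) r, F z ≠ 0 := fun z hz => norm_pos_iff.1 (p.trans_le (a z hz))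
  refine ⟨inv_nonneg.2 h0.le, _, ((Ex.const r 1).div h1 b).congr fun t _ => (one_div _).symm,
    fun z hz => ?_⟩
  have q0 : (q 0 : ℂ) ≠ 0 := by exact_mod_cast h0.ne'
  rw [show ((1 : ℝ) : ℂ) / F z - (((q 0)⁻¹ : ℝ) : ℂ) = -(F z - q 0) / F z * (q 0 : ℂ)⁻¹ by
    have := b z hz; push_cast; field_simp; ring, norm_mul, norm_inv, Complex.norm_real,
    norm_of_nonneg h0.le, norm_div, norm_neg]
  refine mul_le_mul_of_nonneg_right ((div_le_div₀ (by nlinarith) (h2 z hz) p (a z hz)).trans ?_)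
    (inv_nonneg.2 h0.le)
  rw [mul_div_mul_right _ _ h0.ne', div_le_iff₀ (by linarith), two_mul, exp_add]
  nlinarith [mul_nonneg (sub_nonneg.2 e1) (mul_nonneg (sub_nonneg.2 e') (exp_pos ρ).le),
    mul_nonneg (sub_nonneg.2 e1) (sub_nonneg.2 e')]

theorem rpow (h : Ap r ρ q) (h0 : ∀ t, 0 < q t) (e' : exp ρ ≤ 3 / 2) {θ : ℝ} (t0 : 0 ≤ θ)
    (t1 : θ ≤ 1) : Ap r (2 * θ) fun t => exp (θ * log (q t)) := by
  obtain ⟨-, F, h1, h2⟩ := h
  have q0 : (q 0 : ℂ) ≠ 0 := by exact_mod_cast (h0 0).ne'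
  have a : ∀ z ∈ ball (0 : ℂ) r, ‖F z / q 0 - 1‖ ≤ 1 / 2 := fun z hz => by
    rw [div_sub_one q0, norm_div, Complex.norm_real, norm_of_nonneg (h0 0).le, div_le_iff₀ (h0 0)]
    nlinarith [h2 z hz, h0 0]
  refine ⟨(exp_pos _).le, fun z => exp (θ * log (q 0)) * Complex.exp (θ * Complex.log (F z / q 0)),
    ⟨((((h1.diff.div_const _).clog fun z hz => ?_).const_mul
      _).cexp).const_mul _, fun t ht => ?_⟩, fun z hz => ?_⟩
  · simpa using Complex.mem_slitPlane_of_norm_lt_one ((a z hz).trans_lt (by norm_num))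
  · rw [h1.eq t ht, ← Complex.ofReal_div, ← Complex.ofReal_log (div_pos (h0 t) (h0 0)).le,
      ← Complex.ofReal_mul, ← Complex.ofReal_exp, ← Complex.ofReal_mul, ← exp_add,
      log_div (h0 t).ne' (h0 0).ne']
    congr 2; ring
  · have l := Complex.norm_log_one_add_half_le_self (a z hz)
    rw [add_sub_cancel] at l
    have l2 : ‖θ * Complex.log (F z / q 0)‖ ≤ θ := by
      rw [norm_mul, Complex.norm_real, norm_of_nonneg t0]
      exact mul_le_of_le_one_right t0 (by linarith [a z hz])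
    rw [← mul_sub_one, norm_mul, Complex.norm_real, norm_of_nonneg (exp_pos _).le, mul_comm]
    exact mul_le_mul_of_nonneg_right ((Complex.norm_exp_sub_one_le (l2.trans t1)).trans
      (by linarith [add_one_le_exp (2 * θ)])) (exp_pos _).le

end Ap

variable {n : ℕ} {w : Cube n → ℝ} {r : ℝ}

theorem exp_le_32 {a : ℝ} (h : a ≤ 1 / 4) : exp a ≤ 3 / 2 := by
  refine (exp_le_exp.2 h).trans ?_
  have := abs_exp_sub_one_le (x := 1 / 4) (by norm_num)
  rw [abs_of_pos (show (0 : ℝ) < 1 / 4 by norm_num)] at this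
  linarith [le_abs_self (exp (1 / 4) - 1)]

theorem ap_rw (hw : ∀ x, 0 < w x) (hr : r ≤ 1 / 8) (e : Pair n) (x : Cube n) :
    Ap r (2 * r) fun t => rw w (chi e) t x := by
  refine ⟨(rw_pos hw 0 x).le, _, ex_cw r x, fun z hz => ?_⟩
  have : ‖z * chi e x‖ ≤ r := by
    rw [norm_mul, Complex.norm_real, Real.norm_eq_abs, (sgn_chi e).abs, mul_one]
    exact (mem_ball_zero_iff.1 hz).le
  simp only [cw, rw, zero_mul, exp_zero, mul_one]
  rw [← mul_sub_one, norm_mul, Complex.norm_real, norm_of_nonneg (hw x).le, mul_comm]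
  exact mul_le_mul_of_nonneg_right ((Complex.norm_exp_sub_one_le (by linarith)).trans
    (by linarith [add_one_le_exp (2 * r)])) (hw x).le

theorem ap_sk (hw : ∀ x, 0 < w x) (r0 : 0 ≤ r) (hr : r ≤ 1 / 8) (e : Pair n) (l : Fin n)
    (x y : Cube n) : Ap r (6 * r * ((if l == e.1.1 then 1 else 0) + if l == e.1.2 then 1 else 0 : ℕ))
      fun t => sk (rw w (chi e) t) l x y := by
  unfold sk
  by_cases h : ∀ j : Fin n, j ≠ l → y j = x j
  swap
  · simp only [if_neg h]; exact (Ap.const r le_rfl).mono (by positivity)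
  simp only [if_pos h]
  by_cases h' : l = e.1.1 ∨ l = e.1.2
  · simp only [div_eq_mul_inv]
    refine ((ap_rw hw hr e y).mul (((ap_rw hw hr e _).add (ap_rw hw hr e _)).inv
      (den_pos (rw_pos hw 0) l x) (by positivity) (exp_le_32 (by linarith))) (by positivity)).mono ?_
    have : (1 : ℝ) ≤ ((if l == e.1.1 then 1 else 0) + if l == e.1.2 then 1 else 0 : ℕ) := by
      rcases h' with h' | h' <;> simp [h'] <;> positivity
    nlinarith
  · rw [not_or] at h'
    have c1 : chi e y = chi e x := by rw [chi, chi, h _ (Ne.symm h'.1), h _ (Ne.symm h'.2)]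
    have c2 : ∀ b, chi e (Function.update x l b) = chi e x := fun b => by
      rw [chi, chi, Function.update_of_ne (Ne.symm h'.1), Function.update_of_ne (Ne.symm h'.2)]
    simp only [rw, c1, c2, ← add_mul, mul_div_mul_right _ _ (exp_pos _).ne']
    exact (Ap.const r (div_pos (hw y) (den_pos hw l x)).le).mono (by positivity)

theorem ap_KW (hw : ∀ x, 0 < w x) (r0 : 0 ≤ r) (hr : r ≤ 1 / 8) (e : Pair n) (ω : List (Fin n)) :
    ∀ x y, Ap r (6 * r * (ω.count e.1.1 + ω.count e.1.2 : ℕ))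
      fun t => KW (rw w (chi e) t) ω x y := by
  induction ω with
  | nil => intro x y; exact (Ap.const r (KW_nn hw [] x y)).mono (by positivity)
  | cons l ω ih =>
    intro x y
    simp only [KW_cons, mul_apply]
    refine Ap.sum _ fun z _ => ((ap_sk hw r0 hr e l x z).mul (ih z y) (by positivity)).mono
      (le_of_eq ?_)
    simp only [List.count_cons]; push_cast; ring

/-- soft maximum of the density of the cut kernel -/
def SS (w : Cube n → ℝ) (m M q : ℕ) : ℝ :=
  1 + ∑ x, ∑ y, (((n : ℝ) ^ m)⁻¹ * (KC w m M x y * (prob w y)⁻¹)) ^ q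

theorem KC_nn (hw : ∀ x, 0 < w x) (m M : ℕ) (x y : Cube n) : 0 ≤ KC w m M x y := by
  rw [KC, Matrix.sum_apply]; exact sum_nonneg fun ω _ => KW_nn hw _ x y

theorem SS_pos (hw : ∀ x, 0 < w x) (m M q : ℕ) : 0 < SS w m M q :=
  add_pos_of_pos_of_nonneg one_pos (sum_nonneg fun x _ => sum_nonneg fun y _ => pow_nonneg
    (mul_nonneg (by positivity) (mul_nonneg (KC_nn hw m M x y) (inv_pos.2 (prob_pos' hw y)).le)) _)

theorem ap_SS (hw : ∀ x, 0 < w x) (r0 : 0 ≤ r) (hr : r ≤ 1 / 8) (e : Pair n) (m M q : ℕ) :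
    Ap r (q * ((12 * M + 6) * r)) fun t => SS (rw w (chi e) t) m M q := by
  refine ((Ap.const r zero_le_one).mono (by positivity)).add (Ap.sum _ fun x _ => Ap.sum _
    fun y _ => Ap.pow ?_ (by positivity) q)
  simp only [KC, Matrix.sum_apply, prob, inv_div]
  simp only [div_eq_mul_inv]
  refine ((Ap.const r (by positivity)).mul ((Ap.sum (ρ := 12 * M * r) _ fun ω hω =>
    (ap_KW hw r0 hr e _ x y).mono ?_).mul ((Ap.sum _ fun z _ => ap_rw hw hr e z).mul
    ((ap_rw hw hr e y).inv (rw_pos hw 0 y) (by positivity) (exp_le_32 (by linarith)))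
    (by positivity)) (by positivity)) le_rfl).mono (le_of_eq ?_)
  swap
  · ring
  have h := (mem_filter.1 hω).2
  have : (((List.ofFn ω).count e.1.1 + (List.ofFn ω).count e.1.2 : ℕ) : ℝ) ≤ M + M := by
    exact_mod_cast add_le_add (h _) (h _)
  nlinarith

theorem meas_SS (m M q : ℕ) : Measurable fun g => SS (gibbsWeight n 1 g) m M q := by
  have h := fun x => (Pl.continuous_gibbsWeight (n := n) 1 x).measurable
  have k : ∀ (ω : List (Fin n)) x y, Measurable fun g => KW (gibbsWeight n 1 g) ω x y := fun ω => by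
    induction ω with
    | nil => exact fun x y => measurable_const
    | cons l ω ih =>
      intro x y
      simp only [KW_cons, mul_apply]
      refine Finset.measurable_sum _ fun z _ => Measurable.mul ?_ (ih z y)
      unfold sk
      split_ifs
      exacts [(h _).div ((h _).add (h _)), measurable_const]
  simp only [SS, KC, Matrix.sum_apply]
  exact (Finset.measurable_sum _ fun x _ => Finset.measurable_sum _ fun y _ =>
    (((Finset.measurable_sum _ fun ω _ => k _ x y).mul
      (Pl.continuous_prob 1 y).measurable.inv).const_mul _).pow_const _).const_add _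

/-- **transfer of the soft maximum** -/
theorem SS_transfer (hn : 0 < n) {m M q : ℕ} {θ B ε δ : ℝ} (r0 : 0 < r) (hr : r ≤ 1 / 8)
    (hq : q * ((12 * M + 6) * r) ≤ 1 / 4) (t0 : 0 < θ) (t1 : θ ≤ 1 / 8) (hε : 0 ≤ ε)
    (hG : couplingLaw false n {g | B - δ < log (SS (gibbsWeight n 1 g) m M q)} ≤ ENNReal.ofReal ε) :
    couplingLaw true n {g | B < log (SS (gibbsWeight n 1 g) m M q)} ≤ ENNReal.ofReal
      (2 * (exp (-(θ * δ)) + 2 * ε + (64 * (1 + 10 * m8 ^ 2) / r ^ 4 * (8 * θ) +
        1024 * m8 / (n ^ 2 * r ^ 8)))) := by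
  set Y : (Pair n → ℝ) → ℝ := fun g => exp (-(θ * B)) * exp (θ * log (SS (gibbsWeight n 1 g) m M q))
  have Y0 : ∀ g, 0 < Y g := fun g => by positivity
  have mQ : Measurable fun g => 1 - (1 + Y g)⁻¹ :=
    (((((meas_SS m M q).log.const_mul _).exp.const_mul _).const_add _).inv).const_sub _
  have q0 : ∀ g, 0 ≤ 1 - (1 + Y g)⁻¹ := fun g =>
    sub_nonneg.2 (inv_le_one_of_one_le₀ (by linarith [Y0 g]))
  have q1 : ∀ g, |1 - (1 + Y g)⁻¹| ≤ 1 := fun g => by
    rw [abs_of_nonneg (q0 g)]; exact sub_le_self _ (by have := Y0 g; positivity)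
  have a1 := univ_le (ι := Pair n) (G := fun _ => (8 * θ) ^ 2) (η := 8 * θ) r0
    (sqrt_pos.2 (Nat.cast_pos.2 hn)) (by positivity) (card_pair n) mQ q1 (fun g => ⟨fun _ => 8 * θ, by
      rw [sum_const, card_univ, nsmul_eq_mul]
      exact mul_le_mul_of_nonneg_right (card_pair n) (by positivity), fun e => ?_⟩)
    fun σ => ⟨integrable_const _, by simp⟩
  · rw [hyb_const, hyb_const, sqrt_pow4, mul_one] at a1
    have a2 := int_le_of_meas mQ q1 (exp_pos (-(θ * δ))).le hε hG (fun g hg => ?_) zero_le_one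
    · refine meas_le_of_int (int_bdd mQ q1) q0 (a := 1 / 2) (by norm_num) (fun g hg => ?_) (by
        linarith [le_abs_self (∫ g, 1 - (1 + Y g)⁻¹ ∂couplingLaw true n -
          ∫ g, 1 - (1 + Y g)⁻¹ ∂couplingLaw false n)])
      have : 1 ≤ Y g := by
        simp only [Y, ← exp_add]
        exact one_le_exp (by nlinarith [show B < _ from hg])
      linarith [inv_anti₀ two_pos (show 2 ≤ 1 + Y g by linarith)]
    · have : Y g ≤ exp (-(θ * δ)) := by
        simp only [Y, ← exp_add]
        exact exp_le_exp.2 (by nlinarith [show _ ≤ B - δ from not_lt.1 hg])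
      rw [abs_of_nonneg (q0 g)]
      refine le_trans ?_ this
      have := Y0 g
      rw [sub_le_iff_le_add, ← sub_le_iff_le_add', ← one_div, le_div_iff₀ (by positivity)]
      nlinarith
  have hw := gibbsWeight_pos (n := n) 1 g
  obtain ⟨h0, F, h1, h2⟩ := (((Ap.const r zero_le_one).mono (by positivity)).add
    ((Ap.const r (exp_pos (-(θ * B))).le).mul ((ap_SS hw r0.le hr e m M q).rpow
      (fun t => SS_pos (rw_pos hw t) m M q) (exp_le_32 hq) t0.le (by linarith)) le_rfl)).inv
      (by positivity) (by positivity) (exp_le_32 (by linarith))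
  refine ⟨fun z => (1 : ℝ) - F z, by simpa only [Y, gibbs_sh hn] using (Ex.const r 1).sub h1,
    fun z hz => ?_⟩
  rw [sub_sub_sub_cancel_left, norm_sub_rev, h1.zero r0]
  refine (h2 z hz).trans ((mul_le_of_le_one_right (sub_nonneg.2 (one_le_exp (by positivity)))
    (inv_le_one_of_one_le₀ (le_add_of_nonneg_right (by positivity)))).trans ?_)
  have := abs_exp_sub_one_le (x := 2 * (0 + 2 * θ)) (by rw [abs_of_pos (by positivity)]; linarith)
  rw [abs_of_pos (show 0 < 2 * (0 + 2 * θ) by positivity)] at this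
  linarith [le_abs_self (exp (2 * (0 + 2 * θ)) - 1)]

end Crest.Agent.T157.Cn

end
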