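import Crest.Agent.T157.CpDef_72
import Crest.Agent.T157.QeA_24
import Crest.Agent.T157.NrmG_84
import Crest.Agent.T157.LlInst_18
import Crest.Agent.R164.HaarCpl
import Crest.Agent.R166.Gauss_286

-- ▼ part T157/CpPenA_72
section

/-!
# Row 157, coin windows: the penalty, deterministic part (helper72)
-/

set_option autoImplicit false

noncomputable section

namespace Crest.Agent.T157.Cp.Pen72

open Matrix Set Finset
open Crest.Agent.T157.Cw
open Crest.Agent.T157.Qe (V Mx Le zz ell)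
open Crest.Agent.T157.Dq (Dg)

variable {n : ℕ}

lemma zz_sub {g : ℝ} (hg : 0 < g) : zz g - 2 = (1 - g) ^ 2 / g := by rw [zz]; field_simp; ring

lemma zz_ge {g w : ℝ} (hg : 0 < g) (hw : 0 ≤ w) (h : g ≤ 1 - w) : w ^ 2 ≤ zz g - 2 := by
  rw [zz_sub hg, le_div_iff₀ hg]
  nlinarith [mul_nonneg hw hw, mul_nonneg (mul_nonneg hw hw) hw]

lemma trace_Rz {W : Mx n} {a : V n} {z : ℝ} (h : Dg W a) (hz : ∀ i, a i < z) :
    (Rz z W).trace = Tz a z := by
  obtain ⟨O, hO, rfl⟩ := h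
  have hO' : Oᵀ * O = 1 := mul_eq_one_comm.1 hO
  have e : z • (1 : Mx n) - O * diagonal a * Oᵀ = O * diagonal (fun i => z - a i) * Oᵀ := by
    rw [← diagonal_sub, mul_sub, sub_mul, ← smul_one_eq_diagonal, mul_smul_comm, mul_one,
      smul_mul_assoc, hO]
  have : Rz z (O * diagonal a * Oᵀ) = O * diagonal (fun i => (z - a i)⁻¹) * Oᵀ := by
    rw [Rz, e]
    refine inv_eq_right_inv ?_
    simp only [mul_assoc]
    rw [← mul_assoc Oᵀ, hO', one_mul, ← mul_assoc (Matrix.diagonal _), diagonal_mul_diagonal]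
    simp only [fun i => mul_inv_cancel₀ (sub_pos.2 (hz i)).ne', diagonal_one, one_mul, hO]
  rw [this, trace_mul_cycle, hO', one_mul, trace_diagonal, Tz]

set_option maxHeartbeats 1000000 in
/-- consequences of the grid bounds -/
lemma grid9 (hG : GridStmt) {a : V n} {ε τ : ℝ} (e0 : 0 < ε) (e1 : ε ≤ 1 / 2) (t0 : 0 < τ)
    (t1 : τ ≤ 1) (ha : ∀ i, a i ≤ 2 + (ε * τ / 2) ^ 2 / 2)
    (hQ : ∀ j : ℕ, j * (ε ^ 2 * τ / 10 ^ 5) ∈ Icc (1 / 128 : ℝ) (1 - ε * τ / 2) →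
      Tz a (zz (j * (ε ^ 2 * τ / 10 ^ 5))) ≤ 4 * n →
      |Ph a (zz (j * (ε ^ 2 * τ / 10 ^ 5))) - n * ell (j * (ε ^ 2 * τ / 10 ^ 5))| ≤
        ε ^ 6 * n * τ ^ 3 / 10 ^ 6)
    {g σ : ℝ} (hg : g ∈ Ico (1 / 64 : ℝ) 1) (s0 : 0 < σ) (hσ : zz g - 2 = σ ^ 4)
    (hs : 2 * ε ^ 2 * τ ^ 2 ≤ σ ^ 4) :
    |Tz a (zz g) - n * g| ≤ ε ^ 2 * n * τ ∧
    |Ph a (zz g) - n * ell g| ≤ ε ^ 2 * n * (τ ^ 3 / 2 + τ ^ 2 * σ ^ 2 / 2) ∧
    ∑ i, ((zz g - a i) ^ 2)⁻¹ ≤ 9 * n / σ ^ 2 ∧ ∀ i, σ ^ 4 / 2 ≤ zz g - a i := by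
  have n0 : (0 : ℝ) ≤ n := Nat.cast_nonneg n
  have g0 : 0 < g := by linarith [hg.1]
  have et : ε * τ ≤ 1 / 2 := by nlinarith
  have et0 : 0 < ε * τ := by positivity
  have hg2 : g ≤ 1 - 2 * (ε * τ / 2) := by
    rcases le_total g (1 / 2) with h | h
    · linarith
    · have h1 : (ε * τ) ^ 2 ≤ (1 - g) ^ 2 := by
        have := zz_sub g0
        rw [hσ, eq_div_iff g0.ne'] at this
        nlinarith [sq_nonneg (ε * τ)]
      have := abs_le_of_sq_le_sq' h1 (by linarith [hg.2])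
      linarith [this.2]
  have eD : 2 * (ε ^ 6 * n * τ ^ 3 / 10 ^ 6) / (ε ^ 2 * τ / 10 ^ 5 * (ε * τ / 2)) =
      2 / 5 * ε * (ε ^ 2 * n * τ) := by field_simp; ring
  have X0 : 0 ≤ ε ^ 2 * n * τ := by positivity
  obtain ⟨h1, h2, h3⟩ := hG n a (ε * τ / 2) (ε ^ 2 * τ / 10 ^ 5) (ε ^ 6 * n * τ ^ 3 / 10 ^ 6)
    (by positivity) (by nlinarith) (by linarith) (by positivity) (by
      have : ε ^ 3 * τ ≤ 1 := mul_le_one₀ (pow_le_one₀ e0.le (by linarith)) t0.le t1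
      have := mul_le_mul_of_nonneg_left this (by positivity : 0 ≤ ε ^ 3 * n * τ ^ 2)
      have : 0 ≤ ε ^ 3 * n * τ ^ 2 := by positivity
      nlinarith) ha hQ g ⟨hg.1, hg2⟩
  have sq : √(σ ^ 4) = σ ^ 2 := by
    rw [show σ ^ 4 = (σ ^ 2) ^ 2 by ring, Real.sqrt_sq (by positivity)]
  rw [eD] at h1 h2 h3
  rw [hσ, sq] at h2 h3
  have X1 : ε * (ε ^ 2 * n * τ) ≤ 1 / 2 * (ε ^ 2 * n * τ) := mul_le_mul_of_nonneg_right e1 X0
  have es : ε * τ ≤ σ ^ 2 := (abs_le_of_sq_le_sq' (by nlinarith [sq_nonneg (ε * τ)])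
    (by positivity)).2
  refine ⟨h1.trans (by nlinarith), h2.trans ?_, h3.trans ?_, fun i => by
    nlinarith [ha i, sq_nonneg (ε * τ)]⟩
  · have a1 : ε ^ 6 * n * τ ^ 3 ≤ ε ^ 2 * n * τ ^ 3 := by
      have : ε ^ 6 ≤ ε ^ 2 := pow_le_pow_of_le_one e0.le (by linarith) (by norm_num)
      gcongr
    have a2 : 3 * n * (ε ^ 2 * τ / 10 ^ 5) + 2 / 5 * ε * (ε ^ 2 * n * τ) ≤ ε ^ 2 * n * τ := by
      nlinarith
    have a3 : 24576 * (ε ^ 2 * τ / 10 ^ 5) * σ ^ 2 ≤ τ * σ ^ 2 / 2 := by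
      have : ε ^ 2 ≤ 1 := pow_le_one₀ e0.le (by linarith)
      have := mul_le_mul_of_nonneg_right this (by positivity : 0 ≤ τ * σ ^ 2)
      have : 0 ≤ τ * σ ^ 2 := by positivity
      nlinarith
    have a4 := mul_le_mul a3 a2 (by positivity) (by positivity)
    have : 0 ≤ ε ^ 2 * n * τ ^ 3 := by positivity
    nlinarith
  · rw [div_le_div_iff₀ (by positivity) (by positivity)]
    have a1 : ε ^ 2 * n * τ ≤ n * σ ^ 2 := by
      have : ε * (ε * τ) ≤ 1 * σ ^ 2 := mul_le_mul (by linarith) es et0.le zero_le_one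
      nlinarith
    have a2 : n * σ ^ 2 + 8 * (2 * n * (ε ^ 2 * τ / 10 ^ 5) + 2 / 5 * ε * (ε ^ 2 * n * τ)) ≤
        9 * (n * σ ^ 2) := by nlinarith
    have := mul_le_mul_of_nonneg_right a2 (sq_nonneg σ)
    nlinarith

/-- comparison of two close matrices -/
lemma near (hH : HwStmt) {W W' : Mx n} {a a' : V n} (h : Dg W a) (h' : Dg W' a') {z σ R : ℝ}
    (s0 : 0 < σ) (n0 : 0 < n) (hf : fr (W - W') ≤ 16 * R / n)
    (h1 : ∑ i, ((z - a i) ^ 2)⁻¹ ≤ 9 * n / σ ^ 2) (h2 : ∀ i, σ ^ 4 / 2 ≤ z - a i)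
    (h1' : ∑ i, ((z - a' i) ^ 2)⁻¹ ≤ 9 * n / σ ^ 2) (h2' : ∀ i, σ ^ 4 / 2 ≤ z - a' i) :
    (Tz a z - Tz a' z) ^ 2 ≤ 576 * R / σ ^ 10 ∧ (Ph a z - Ph a' z) ^ 2 ≤ 576 * R / σ ^ 2 := by
  have N0 : (0 : ℝ) < n := by exact_mod_cast n0
  have f0 : 0 ≤ fr (W - W') := by unfold fr; positivity
  have p : ∀ i, 0 < z - a i := fun i => lt_of_lt_of_le (by positivity) (h2 i)
  have p' : ∀ i, 0 < z - a' i := fun i => lt_of_lt_of_le (by positivity) (h2' i)
  have four : ∀ b : V n, ∑ i, ((z - b i) ^ 2)⁻¹ ≤ 9 * n / σ ^ 2 → (∀ i, σ ^ 4 / 2 ≤ z - b i) →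
      ∑ i, (((z - b i) ^ 2)⁻¹ / 2) ^ 2 ≤ 9 * n / σ ^ 10 := fun b b1 b2 => by
    have : ∀ i, (((z - b i) ^ 2)⁻¹ / 2) ^ 2 ≤ (σ ^ 8)⁻¹ * ((z - b i) ^ 2)⁻¹ := fun i => by
      have c1 : ((z - b i) ^ 2)⁻¹ ≤ ((σ ^ 4 / 2) ^ 2)⁻¹ :=
        inv_anti₀ (by positivity) (pow_le_pow_left₀ (by positivity) (b2 i) 2)
      have c2 : ((σ ^ 4 / 2) ^ 2)⁻¹ = 4 * (σ ^ 8)⁻¹ := by field_simp; ring
      have c3 : 0 ≤ ((z - b i) ^ 2)⁻¹ := by positivity
      rw [c2] at c1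
      nlinarith
    refine (sum_le_sum fun i _ => this i).trans ?_
    rw [← mul_sum]
    exact (mul_le_mul_of_nonneg_left b1 (by positivity)).trans (le_of_eq (by field_simp))
  constructor
  · refine (hH n W W' a a' (fun i => ((z - a i) ^ 2)⁻¹ / 2) (fun i => ((z - a' i) ^ 2)⁻¹ / 2)
      (fun x => (z - x)⁻¹) h h' fun k l => ?_).trans ?_
    · have e : (z - a k)⁻¹ - (z - a' l)⁻¹ = (z - a k)⁻¹ * (z - a' l)⁻¹ * (a k - a' l) := by
        have := (p k).ne'; have := (p' l).ne'; field_simp; ring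
      rw [e, abs_mul, abs_of_pos (mul_pos (inv_pos.2 (p k)) (inv_pos.2 (p' l))), ← inv_pow, ← inv_pow]
      exact mul_le_mul_of_nonneg_right (by nlinarith [sq_nonneg ((z - a k)⁻¹ - (z - a' l)⁻¹)])
        (abs_nonneg _)
    · refine (mul_le_mul (mul_le_mul_of_nonneg_left (add_le_add (four a h1 h2) (four a' h1' h2'))
        zero_le_two) hf f0 (by positivity)).trans (le_of_eq (by field_simp; ring))
  · refine (hH n W W' a a' (fun i => (z - a i)⁻¹) (fun i => (z - a' i)⁻¹)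
      (fun x => Real.log (z - x)) h h' fun k l => ?_).trans ?_
    · have one : ∀ x y : ℝ, 0 < x → 0 < y → Real.log x - Real.log y ≤ (x⁻¹ + y⁻¹) * |x - y| :=
        fun x y hx hy => by
          rw [← Real.log_div hx.ne' hy.ne']
          refine (Real.log_le_sub_one_of_pos (by positivity)).trans ?_
          rw [div_sub_one hy.ne', div_eq_inv_mul]
          exact (mul_le_mul_of_nonneg_left (le_abs_self _) (by positivity)).trans
            (mul_le_mul_of_nonneg_right (by simp; positivity) (abs_nonneg _))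
      have c1 := one _ _ (p k) (p' l)
      have c2 := one _ _ (p' l) (p k)
      rw [show z - a k - (z - a' l) = -(a k - a' l) by ring, abs_neg] at c1
      rw [show z - a' l - (z - a k) = a k - a' l by ring, add_comm] at c2
      exact abs_le.2 ⟨by linarith, c1⟩
    · simp only [inv_pow]
      refine (mul_le_mul (mul_le_mul_of_nonneg_left (add_le_add h1 h1') zero_le_two) hf f0
        (by positivity)).trans (le_of_eq (by field_simp; ring))

/-- the numerical conditions: `e = ε²`, `t = τ²` -/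
structure Num (n : ℕ) (ζ κ ε τ H : ℝ) : Prop where
  n1 : 2 ≤ n
  z0 : 0 ≤ ζ
  e0 : 0 < ε
  e1 : ε ≤ 1 / 2
  t0 : 0 < τ
  t1 : τ ≤ 1
  H0 : 0 ≤ H
  r : 128 * (n : ℝ) ^ (ζ - 2 / 3) ≤ ε ^ 2 * τ ^ 2
  D : 12 * 10 ^ 6 * (n : ℝ) ^ (2 * ζ) ≤ ε ^ 6 * n * τ ^ 3
  h3 : 2304 * (H + 3) ≤ 2 * ε ^ 6 * n * τ ^ 2
  m3 : (4 * (n : ℝ) ^ ζ) ^ 4 ≤ ε ^ 10 * n ^ 2 * τ ^ 2
  h2 : 2304 * (H + 3) ≤ ((n : ℝ) ^ κ) ^ 2 * n * (ε * τ) ^ 3
  m2 : (4 * (n : ℝ) ^ ζ) ^ 2 ≤ n * (ε * τ) ^ 2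
  m1 : 2 * (n : ℝ) ^ (2 * ζ) ≤ √n * τ
  k0 : 0 ≤ κ

set_option maxHeartbeats 1600000 in
/-- the spectral event from the grid bounds and a typical neighbour -/
lemma ww (hG : GridStmt) (hH : HwStmt) {ζ κ ε τ H : ℝ} (N : Num n ζ κ ε τ H) {W W' : Mx n} {a : V n}
    (h : Dg W a) (h3 : ∀ i, -3 ≤ a i) (ha : ∀ i, a i ≤ 2 + (ε * τ / 2) ^ 2 / 2)
    (hQ : ∀ j : ℕ, j * (ε ^ 2 * τ / 10 ^ 5) ∈ Icc (1 / 128 : ℝ) (1 - ε * τ / 2) →
      Tz a (zz (j * (ε ^ 2 * τ / 10 ^ 5))) ≤ 4 * n →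
      |Ph a (zz (j * (ε ^ 2 * τ / 10 ^ 5))) - n * ell (j * (ε ^ 2 * τ / 10 ^ 5))| ≤
        ε ^ 6 * n * τ ^ 3 / 10 ^ 6)
    (hF : Fine ζ W') (hf : fr (W - W') ≤ 16 * (H + 3) / n) : WW (τ ^ 2) (ε ^ 2) κ W := by
  obtain ⟨a', h', b1, b2⟩ := hF
  have e0 := N.e0; have t0 := N.t0; have H0 := N.H0
  have n0 : (0 : ℝ) < n := by exact_mod_cast (by linarith [N.n1] : 0 < n)
  have n1 : (1 : ℝ) ≤ n := by exact_mod_cast (by linarith [N.n1] : 1 ≤ n)
  have r0 : 0 ≤ (n : ℝ) ^ (ζ - 2 / 3) := by positivity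
  have hr := N.r
  have P1 : 1 ≤ (n : ℝ) ^ κ := Real.one_le_rpow n1 N.k0
  refine ⟨a, h, fun i => ⟨h3 i, (ha i).trans (by nlinarith [sq_nonneg (ε * τ)])⟩, fun g hg hs => ?_⟩
  have et : 0 < ε ^ 2 * τ ^ 2 := by positivity
  have sp : 0 < zz g - 2 := by linarith
  obtain ⟨σ, s0, hσ⟩ : ∃ σ : ℝ, 0 < σ ∧ zz g - 2 = σ ^ 4 :=
    ⟨√√(zz g - 2), by positivity, by
      rw [show (4 : ℕ) = 2 * 2 from rfl, pow_mul, Real.sq_sqrt (Real.sqrt_nonneg _),
        Real.sq_sqrt sp.le]⟩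
  obtain ⟨c1, c2, c3, c4⟩ := grid9 hG e0 N.e1 t0 N.t1 ha hQ hg s0 hσ (hσ ▸ hs)
  obtain ⟨-, -, d3, d4⟩ := grid9 hG (a := a') e0 N.e1 t0 N.t1
    (fun i => (abs_le.1 (b1 i)).2.trans (by nlinarith)) (fun j hj _ => by
      have w0 : 0 < ε * τ / 2 := by positivity
      have := zz_ge (by linarith [hj.1]) w0.le hj.2
      refine (b2 _ ⟨hj.1, by linarith [hj.2]⟩ (by nlinarith)).2.1.trans ?_
      have := N.D
      have : 0 ≤ (n : ℝ) ^ (2 * ζ) := by positivity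
      linarith) hg s0 hσ (hσ ▸ hs)
  obtain ⟨f1, f2⟩ := near hH h h' s0 (by linarith [N.n1]) hf c3 c4 d3 d4
  obtain ⟨g1, g2, -⟩ := b2 g ⟨by linarith [hg.1], hg.2⟩ (by linarith)
  rw [hσ] at g1 hs ⊢
  change |Tz a (zz g) - _| ≤ _ ∧ |Ph a (zz g) - _| ≤ _
  have es : ε * τ ≤ σ ^ 2 := (abs_le_of_sq_le_sq' (by nlinarith) (by positivity)).2
  have tri : ∀ x y c B : ℝ, |x - y| ≤ B / 2 → |y - c| ≤ B / 2 → |x - c| ≤ B := fun x y c B u v =>
    (abs_sub_le x y c).trans (by linarith)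
  have ab : ∀ x A B : ℝ, x ^ 2 ≤ A → A ≤ B ^ 2 → 0 ≤ B → |x| ≤ B := fun x A B u v w =>
    abs_le.2 (abs_le_of_sq_le_sq' (u.trans v) w)
  have sn : √(n : ℝ) ^ 2 = n := Real.sq_sqrt n0.le
  have sn0 : 0 < √(n : ℝ) := Real.sqrt_pos.2 n0
  set m := max (σ ^ 4) (τ ^ 2) with hm
  have m1 : τ ≤ √m := Real.le_sqrt_of_sq_le (le_max_right _ _)
  have m2 : σ ^ 2 ≤ √m := Real.le_sqrt_of_sq_le (le_trans (le_of_eq (by ring)) (le_max_left _ _))
  have M0 : 0 ≤ (n : ℝ) ^ ζ := by positivity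
  refine ⟨le_min (c1.trans (by gcongr)) (le_min ?_ ?_), le_min (c2.trans ?_) ?_⟩
  · rw [Real.sqrt_div n0.le, show σ ^ 4 = (σ ^ 2) ^ 2 by ring, Real.sqrt_sq (by positivity)]
    refine tri _ (Tz a' (zz g)) _ _ (ab _ _ _ f1 ?_ (by positivity)) (g1.trans ?_)
    · rw [div_pow, mul_pow, div_pow, sn, div_le_iff₀ (by positivity)]
      have := pow_le_pow_left₀ (by positivity) es 3
      have := mul_le_mul_of_nonneg_left this (by positivity : 0 ≤ ((n : ℝ) ^ κ) ^ 2 * n)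
      refine le_trans ?_ (le_of_eq (?_ : ((n : ℝ) ^ κ) ^ 2 * n * (σ ^ 2) ^ 3 / 4 = _))
      · linarith [N.h2]
      · field_simp; ring
    · have a1 : 4 * (n : ℝ) ^ ζ ≤ √n * (ε * τ) :=
        (abs_le_of_sq_le_sq' (by rw [mul_pow √(n : ℝ), sn]; exact N.m2) (by positivity)).2
      have a2 : √n * (ε * τ) ≤ (n : ℝ) ^ κ * (√n * σ ^ 2) :=
        (mul_le_mul_of_nonneg_left es sn0.le).trans (le_mul_of_one_le_left (by positivity) P1)
      rw [div_le_iff₀ (by positivity)]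
      refine le_trans (by linarith : _ ≤ (n : ℝ) ^ κ * (√n * σ ^ 2) / 2) (le_of_eq ?_)
      field_simp
  · have e34 : (σ ^ 4) ^ (3 / 4 : ℝ) = σ ^ 3 := by
      rw [← Real.rpow_natCast, ← Real.rpow_mul s0.le, ← Real.rpow_natCast]; norm_num
    rw [e34]
    refine tri _ (Tz a' (zz g)) _ _ (ab _ _ _ f1 ?_ (by positivity)) (g1.trans ?_)
    · rw [div_pow, div_pow, mul_pow, sn, div_le_iff₀ (by positivity)]
      have := mul_le_mul_of_nonneg_left hs (by positivity : 0 ≤ ε ^ 4 * n)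
      refine le_trans ?_ (le_of_eq (?_ : ε ^ 4 * n * σ ^ 4 / 4 = _))
      · linarith [N.h3]
      · field_simp; ring
    · have a1 : 4 * (n : ℝ) ^ ζ ≤ ε ^ 2 * √n * σ := by
        refine le_of_pow_le_pow_left₀ (by norm_num : 4 ≠ 0) (by positivity) (N.m3.trans ?_)
        have := mul_le_mul_of_nonneg_left hs (by positivity : 0 ≤ ε ^ 8 * n ^ 2)
        rw [mul_pow, mul_pow, show √(n : ℝ) ^ 4 = (√(n : ℝ) ^ 2) ^ 2 by ring, sn]
        have : 0 ≤ ε ^ 10 * n ^ 2 * τ ^ 2 := by positivity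
        nlinarith
      rw [div_le_iff₀ (by positivity)]
      refine le_trans (by linarith : _ ≤ ε ^ 2 * √n * σ / 2) (le_of_eq ?_)
      field_simp
  · have m0 : 0 ≤ m := le_max_of_le_right (sq_nonneg τ)
    have e32 : m ^ (3 / 2 : ℝ) = √m ^ 3 := by
      rw [Real.sqrt_eq_rpow, ← Real.rpow_natCast, ← Real.rpow_mul m0]; norm_num
    rw [e32]
    have a1 : τ ^ 3 ≤ √m ^ 3 := pow_le_pow_left₀ t0.le m1 3
    have a2 : τ ^ 2 * σ ^ 2 ≤ √m ^ 2 * √m :=
      mul_le_mul (pow_le_pow_left₀ t0.le m1 2) m2 (by positivity) (by positivity)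
    exact mul_le_mul_of_nonneg_left (by nlinarith) (by positivity)
  · rw [Real.sqrt_mul n0.le, Real.sqrt_sq t0.le]
    refine tri _ (Ph a' (zz g)) _ _ (ab _ _ _ f2 ?_ (by positivity)) (g2.trans ?_)
    · rw [div_pow, mul_pow, mul_pow, sn, div_le_iff₀ (by positivity)]
      have a1 : (ε * τ) ^ 3 ≤ τ ^ 2 * σ ^ 2 := by
        have : (ε * τ) ^ 2 ≤ τ ^ 2 := by
          rw [mul_pow]
          exact mul_le_of_le_one_left (by positivity) (pow_le_one₀ e0.le (by linarith [N.e1]))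
        exact le_trans (le_of_eq (by ring)) (mul_le_mul this es (by positivity) (by positivity))
      have := mul_le_mul_of_nonneg_left a1 (by positivity : 0 ≤ ((n : ℝ) ^ κ) ^ 2 * n)
      nlinarith [N.h2]
    · have := le_mul_of_one_le_left (by positivity : 0 ≤ √n * τ) P1
      linarith [N.m1]

end Crest.Agent.T157.Cp.Pen72

end
end

-- ▼ part T157/CpPenB_72
section

/-!
# Row 157, coin windows: the penalty function (helper72)
-/

set_option autoImplicit false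

noncomputable section

namespace Crest.Agent.T157.Cp.Pen72

open MeasureTheory Matrix Set Finset
open scoped ENNReal
open Crest.ProbabilityR.SpinGlassDynamics
open Crest.Agent.T157.E Crest.Agent.T157.Cw
open Crest.Agent.T157.Qe (V Mx Le zz ell GOE)
open Crest.Agent.T157.Conc (ex)
open Crest.Agent.T157.Dq (Dg)

variable {n : ℕ}

/-- radius of the box -/
def rh (n : ℕ) (ζ : ℝ) : ℝ := √(2 * (32 * (n : ℝ) ^ ζ) * Real.log (4 * n))
/-- tolerance -/
def D0 (n : ℕ) (ε τ : ℝ) : ℝ := ε ^ 6 * n * τ ^ 3 / (6 * 10 ^ 6)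
/-- the grid -/
def JJ (n : ℕ) (ε τ : ℝ) : Finset ℕ := by
  classical exact (range n).filter fun j : ℕ =>
    j * (ε ^ 2 * τ / 10 ^ 5) ∈ Icc (1 / 128 : ℝ) (1 - ε * τ / 2)
/-- the terms of the penalty -/
def uu (n : ℕ) (ζ ε τ H : ℝ) : Option (ℕ × Bool) → Mx n → ℝ
  | none, W => Jx (2 * rh n ζ) (zz (1 - ε * τ / 8) • (1 : Mx n) - W) +
      (-1) * Jx (rh n ζ) (zz (1 - ε * τ / 8) • (1 : Mx n) - W)
  | some p, W => (1 + H / D0 n ε τ) * (if p.2 then 1 else -1) *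
      Jx (rh n ζ) (zz (p.1 * (ε ^ 2 * τ / 10 ^ 5)) • (1 : Mx n) - W) +
      (1 + H / D0 n ε τ) * ((if p.2 then 1 else -1) *
        (n * ell (p.1 * (ε ^ 2 * τ / 10 ^ 5)) / 2) - D0 n ε τ)
/-- the penalty -/
def YY (n : ℕ) (ζ ε τ H : ℝ) (W : Mx n) : ℝ :=
  (-1) * Real.log (1 + ∑ i ∈ insertNone (JJ n ε τ ×ˢ Finset.univ), Real.exp (uu n ζ ε τ H i W))

variable {C ζ κ ε τ H : ℝ}

lemma Num.N1 (N : Num n ζ κ ε τ H) : (1 : ℝ) ≤ n := by exact_mod_cast (by linarith [N.n1] : 1 ≤ n)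

lemma Num.lg (N : Num n ζ κ ε τ H) : 0 < Real.log (4 * n) := Real.log_pos (by linarith [N.N1])

lemma Num.rh0 (N : Num n ζ κ ε τ H) : 0 < rh n ζ := by
  have := N.lg; have := N.N1
  unfold rh; positivity

lemma Num.rh2 (N : Num n ζ κ ε τ H) : 2 * (32 * (n : ℝ) ^ ζ) * Real.log (4 * n) = rh n ζ ^ 2 := by
  have := N.lg
  rw [rh, Real.sq_sqrt (by positivity)]

lemma Num.D1' (N : Num n ζ κ ε τ H) : 2 * (n : ℝ) ^ (2 * ζ) ≤ D0 n ε τ := by
  rw [D0, le_div_iff₀ (by positivity)]; linarith [N.D]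

lemma Num.D2 (N : Num n ζ κ ε τ H) : 2 ≤ D0 n ε τ := by
  linarith [Real.one_le_rpow N.N1 (by linarith [N.z0] : 0 ≤ 2 * ζ), N.D1']

lemma Num.D1 (N : Num n ζ κ ε τ H) : (n : ℝ) ^ (2 * ζ) ≤ D0 n ε τ := by
  linarith [N.D2, N.D1']

lemma meas_YY (hB : BoxStmt C) : Measurable (YY n ζ ε τ H) := by
  refine ((Finset.measurable_sum _ fun i _ => Measurable.exp ?_).const_add _).log.const_mul _
  cases i with
  | none => exact (hB.meas _ _ _).add ((hB.meas _ _ _).const_mul _)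
  | some p => exact ((hB.meas _ _ _).const_mul _).add_const _

lemma YY_le (W : Mx n) : YY n ζ ε τ H W ≤ 0 := by
  have := Real.log_nonneg (le_add_of_nonneg_right (a := (1 : ℝ))
    (sum_nonneg (s := insertNone (JJ n ε τ ×ˢ Finset.univ)) fun i _ => (Real.exp_pos (uu n ζ ε τ H i W)).le))
  unfold YY; linarith

lemma lt_YY (hL : LtStmt C) (hB : BoxStmt C) (N : Num n ζ κ ε τ H) (dd : V n) :
    LT (C * (2056 * (1 + H / D0 n ε τ) ^ 4 * C * rh n ζ ^ 8))
      fun g => YY n ζ ε τ H (Wmat n g dd) := by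
  have C0 : 0 ≤ C := by linarith [hL.one]
  have r0 := N.rh0
  have q1 : 1 ≤ 1 + H / D0 n ε τ := le_add_of_nonneg_right (div_nonneg N.H0 (by linarith [N.D2]))
  have q4 : 1 ≤ (1 + H / D0 n ε τ) ^ 4 := one_le_pow₀ q1
  have X0 : 0 ≤ C * rh n ζ ^ 8 := by positivity
  refine hL.mono _ _ _ _ (le_of_eq (by simp)) (hL.smul _ _ (-1) _ (hL.lse _ _
    (insertNone (JJ n ε τ ×ˢ Finset.univ)) (2056 * (1 + H / D0 n ε τ) ^ 4 * C * rh n ζ ^ 8)
    (fun i g => uu n ζ ε τ H i (Wmat n g dd)) (by positivity) fun i _ => ?_))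
  cases i with
  | none =>
    refine hL.mono _ _ _ _ ?_ (hL.add _ _ _ _ _ (hB.lt n _ _ dd (by positivity))
      (hL.smul _ _ (-1) _ (hB.lt n _ _ dd r0)))
    simp only [abs_neg, abs_one, max_self, one_pow, one_mul]
    nlinarith [mul_le_mul_of_nonneg_right q4 X0]
  | some p =>
    refine hL.mono _ _ _ _ ?_ (hL.add _ _ _ _ _ (hL.smul _ _ _ _ (hB.lt n _ _ dd r0))
      (hL.const _ _))
    have : max |(1 + H / D0 n ε τ) * if p.2 then 1 else -1| 1 = 1 + H / D0 n ε τ := by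
      have : |(1 + H / D0 n ε τ) * if p.2 then 1 else -1| = 1 + H / D0 n ε τ := by
        rw [abs_mul, abs_of_nonneg (by linarith)]; split_ifs <;> simp
      rw [this, max_eq_left q1]
    rw [this]
    nlinarith [mul_nonneg (by positivity : 0 ≤ (1 + H / D0 n ε τ) ^ 4) X0]

lemma fineJ (hB : BoxStmt C) (N : Num n ζ κ ε τ H) {W : Mx n} (hF : Fine ζ W) {g : ℝ}
    (g0 : 1 / 128 ≤ g) (g1 : g ≤ 1 - ε * τ / 8) : ∃ P : ℝ, |P - n * ell g| ≤ D0 n ε τ ∧
      (∀ ρ, 0 < ρ → Jx ρ (zz g • (1 : Mx n) - W) ≤ -P / 2) ∧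
      -P / 2 - Real.log 2 ≤ Jx (rh n ζ) (zz g • (1 : Mx n) - W) := by
  obtain ⟨a, h, b1, b2⟩ := hF
  have N1 := N.N1
  have et : 0 < ε * τ := mul_pos N.e0 N.t0
  have s1 := zz_ge (by linarith) (by positivity) g1
  have r0 : 0 < (n : ℝ) ^ (ζ - 2 / 3) := by positivity
  have s2 : 2 * (n : ℝ) ^ (ζ - 2 / 3) ≤ zz g - 2 := by nlinarith [N.r]
  obtain ⟨c1, c2, c3⟩ := b2 g ⟨g0, by linarith⟩ s2
  have lt : ∀ i, a i < zz g := fun i => by linarith [(abs_le.1 (b1 i)).2]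
  refine ⟨_, c2.trans N.D1, fun ρ hρ => hB.up n ρ _ W a hρ h lt,
    hB.lo n _ _ (32 * (n : ℝ) ^ ζ) W a (by linarith [N.n1]) N.rh0 (by positivity) h lt
      (fun i => (c3 i).trans ?_) N.rh2.le⟩
  have a1 : 2 * (n : ℝ) ^ ζ / (zz g - 2) ≤ n := by
    rw [div_le_iff₀ (by linarith)]
    have : (n : ℝ) ^ ζ ≤ n * (n : ℝ) ^ (ζ - 2 / 3) := by
      rw [mul_comm, ← Real.rpow_add_one (by linarith)]
      exact Real.rpow_le_rpow_of_exponent_le N1 (by linarith)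
    nlinarith
  have a2 : Tz a (zz g) ≤ 2 * n := by nlinarith [(abs_le.1 c1).2]
  refine (mul_le_mul_of_nonneg_left a2 (by positivity)).trans ?_
  rw [mul_left_comm, ← Real.rpow_add_one (by linarith), sub_add_cancel]
  have : 0 ≤ (n : ℝ) ^ ζ := by positivity
  linarith

lemma mem_JJ {j : ℕ} : j ∈ JJ n ε τ ↔
    j < n ∧ j * (ε ^ 2 * τ / 10 ^ 5) ∈ Icc (1 / 128 : ℝ) (1 - ε * τ / 2) := by
  simp only [JJ, mem_filter, Finset.mem_range]

lemma fine_YY (hB : BoxStmt C) (N : Num n ζ κ ε τ H) {W : Mx n} (hF : Fine ζ W) :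
    -(3 * Real.log n) ≤ YY n ζ ε τ H W := by
  have et : 0 < ε * τ := mul_pos N.e0 N.t0
  have et1 : ε * τ ≤ 1 / 2 := by nlinarith [N.e0, N.e1, N.t0, N.t1]
  have n2 : (2 : ℝ) ≤ n := by exact_mod_cast N.n1
  have l2 : Real.log 2 ≤ 1 := by linarith [Real.log_two_lt_d9]
  have h1 : Real.exp (uu n ζ ε τ H none W) ≤ 2 := by
    obtain ⟨P, -, p1, p2⟩ := fineJ hB N hF (g := 1 - ε * τ / 8) (by linarith) le_rfl
    have := p1 (2 * rh n ζ) (by linarith [N.rh0])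
    rw [← Real.exp_log two_pos]
    exact Real.exp_le_exp.2 (by simp only [uu]; linarith)
  have h2 : ∀ p ∈ JJ n ε τ ×ˢ (Finset.univ : Finset Bool), Real.exp (uu n ζ ε τ H (some p) W) ≤ 1 :=
    fun p hp => by
      have hj := (mem_JJ.1 (mem_product.1 hp).1).2
      obtain ⟨P, p0, p1, p2⟩ := fineJ hB N hF hj.1 (by linarith [hj.2])
      have p3 := p1 _ N.rh0
      have q1 : 0 ≤ 1 + H / D0 n ε τ := by have := div_nonneg N.H0 (by linarith [N.D2] : 0 ≤ D0 n ε τ); linarith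
      rw [Real.exp_le_one_iff]
      simp only [uu]
      rw [mul_assoc, ← mul_add]
      refine mul_nonpos_of_nonneg_of_nonpos q1 ?_
      have := abs_le.1 p0
      have d2 := N.D2
      split_ifs <;> linarith
  have h3 := sum_le_card_nsmul _ _ _ h2
  have h4 : ((JJ n ε τ ×ˢ (Finset.univ : Finset Bool)).card : ℝ) ≤ n * 2 := by
    rw [card_product, card_univ, Fintype.card_bool]
    push_cast
    gcongr
    exact (card_filter_le _ _).trans (card_range n).le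
  rw [nsmul_eq_mul, mul_one] at h3
  have h5 : Real.log (1 + ∑ i ∈ insertNone (JJ n ε τ ×ˢ Finset.univ), Real.exp (uu n ζ ε τ H i W)) ≤
      Real.log ((n : ℝ) ^ 3) := by
    refine Real.log_le_log (by positivity) ?_
    rw [sum_insertNone]
    nlinarith [mul_le_mul n2 n2 zero_le_two (by linarith)]
  rw [Real.log_pow] at h5
  unfold YY; push_cast at h5; linarith

/-- the penalty forces the spectral event off five small sets -/
lemma force (hB : BoxStmt C) (hG : GridStmt) (hH : HwStmt) (N : Num n ζ κ ε τ H)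
    (hg : 10 ^ 5 < n * (ε ^ 2 * τ)) {W W' : Mx n} (hW : Wᵀ = W) (h3 : Eig.opn W < 2 + 1)
    (h1 : W ∉ E1 (rh n ζ) (zz (1 - ε * τ / 8)) ((ε * τ / 2) ^ 2 / 4) (H + 1))
    (h2 : ∀ j ∈ JJ n ε τ, W ∉ E3 (zz (j * (ε ^ 2 * τ / 10 ^ 5))) ((ε * τ / 2) ^ 2 / 2))
    (hF : Fine ζ W') (hf : fr (W - W') ≤ 16 * (H + 3) / n) (hY : -H ≤ YY n ζ ε τ H W) :
    WW (τ ^ 2) (ε ^ 2) κ W := by
  have et : 0 < ε * τ := mul_pos N.e0 N.t0
  have et1 : ε * τ ≤ 1 / 2 := by nlinarith [N.e0, N.e1, N.t0, N.t1]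
  have hu : ∀ i ∈ insertNone (JJ n ε τ ×ˢ Finset.univ), uu n ζ ε τ H i W ≤ H := fun i hi => by
    have a1 := single_le_sum (f := fun i => Real.exp (uu n ζ ε τ H i W))
      (fun i _ => (Real.exp_pos _).le) hi
    have a2 := Real.log_le_log (Real.exp_pos _) (a1.trans (le_add_of_nonneg_left zero_le_one))
    rw [Real.log_exp] at a2
    unfold YY at hY; linarith
  obtain ⟨a, h⟩ := Qe.dg_symm hW
  have x0 : ∀ x : V n, 0 ≤ x ⬝ᵥ x := fun x => sum_nonneg fun i _ => mul_self_nonneg _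
  have q : ∀ x : V n, |x ⬝ᵥ W *ᵥ x| ≤ 3 * (x ⬝ᵥ x) := fun x =>
    (Eig.abs_quad_le W x).trans (mul_le_mul_of_nonneg_right (by linarith) (x0 x))
  have L1 : Le ((-3 : ℝ) • (1 : Mx n)) W := fun x => by
    rw [Qe.qf_smul, Qe.qf_one]; linarith [(abs_le.1 (q x)).1]
  have L2 : Le W ((3 : ℝ) • (1 : Mx n)) := fun x => by
    rw [Qe.qf_smul, Qe.qf_one]; linarith [(abs_le.1 (q x)).2]
  have L3 : Le W ((zz (1 - ε * τ / 8) + (ε * τ / 2) ^ 2 / 4) • (1 : Mx n)) := by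
    by_contra hc
    refine h1 ⟨hW, L1, L2, hc, fun u hu' => ?_⟩
    have a1 := hB.sh n _ (zz (1 - ε * τ / 8) • (1 : Mx n) - W) u N.rh0 (by simp [hW]) hu'
    have a2 := hu none (by simp)
    simp only [uu] at a2
    rw [Qe.qf_sub] at a1 ⊢
    linarith
  have ha : ∀ i, a i ≤ 2 + (ε * τ / 2) ^ 2 / 2 := fun i => by
    have a1 := Qe.le_dg h L3 i
    have a2 : zz (1 - ε * τ / 8) - 2 ≤ (ε * τ / 2) ^ 2 / 4 := by
      rw [zz_sub (by linarith), div_le_iff₀ (by linarith)]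
      nlinarith [mul_pos et et]
    linarith
  refine ww hG hH N h (Qe.ge_dg h L1) ha (fun j hj hT => ?_) hF hf
  have d0 : 0 < ε ^ 2 * τ := by have := N.e0; have := N.t0; positivity
  have jn : j < n := by
    have : (j : ℝ) * (ε ^ 2 * τ) < n * (ε ^ 2 * τ) := by linarith [hj.2]
    exact_mod_cast lt_of_mul_lt_mul_right this d0.le
  have hJ := mem_JJ.2 ⟨jn, hj⟩
  have s1 := zz_ge (by linarith [hj.1]) (by positivity) hj.2
  have lt : ∀ i, a i < zz (j * (ε ^ 2 * τ / 10 ^ 5)) := fun i => by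
    nlinarith [ha i, mul_pos et et]
  have dg : ∀ i, Rz (zz (j * (ε ^ 2 * τ / 10 ^ 5))) W i i ≤ 32 * (n : ℝ) ^ ζ := fun i => by
    have := Real.one_le_rpow N.N1 N.z0
    by_contra hc
    exact h2 j hJ ⟨hW, Qe.dg_le h fun i => by linarith [ha i], by rwa [trace_Rz h lt],
      i, by linarith⟩
  have p1 := hB.up n _ _ W a N.rh0 h lt
  have p2 := hB.lo n _ _ _ W a (by linarith [N.n1]) N.rh0 (by have := N.N1; positivity) h lt dg
    N.rh2.le
  have u1 := hu (some (j, true)) (by simp [hJ])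
  have u2 := hu (some (j, false)) (by simp [hJ])
  simp only [uu, if_true, Bool.false_eq_true, if_false] at u1 u2
  have d2 := N.D2
  have key : ∀ x : ℝ, (1 + H / D0 n ε τ) * x ≤ H → x ≤ D0 n ε τ := fun x hx => by
    by_contra hc
    have a1 : 0 ≤ H / D0 n ε τ := div_nonneg N.H0 (by linarith)
    have a2 : H / D0 n ε τ * D0 n ε τ = H := div_mul_cancel₀ _ (by linarith)
    nlinarith
  rw [mul_assoc, ← mul_add] at u1 u2
  have v1 := key _ u1
  have v2 := key _ u2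
  have e6 : ε ^ 6 * n * τ ^ 3 / 10 ^ 6 = 6 * D0 n ε τ := by rw [D0]; ring
  rw [e6, abs_le]
  constructor <;> linarith [Real.log_two_lt_d9]

lemma ex_add_le {a b c : ℝ} {x y : ℝ≥0∞} (hx : x ≤ ENNReal.ofReal (a * Real.exp c))
    (hy : y ≤ ENNReal.ofReal (b * Real.exp c)) (ha : 0 ≤ a) (hb : 0 ≤ b) :
    x + y ≤ ENNReal.ofReal ((a + b) * Real.exp c) := by
  rw [add_mul, ENNReal.ofReal_add (by positivity) (by positivity)]
  exact add_le_add hx hy

/-- the Gaussian side -/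
lemma prob (hB : BoxStmt C) (hT : TopStmt) (hD : DiagStmt) (hN : NearStmt) (hG : GridStmt)
    (hH : HwStmt) (N : Num n ζ κ ε τ H) (hg : 10 ^ 5 < n * (ε ^ 2 * τ))
    (hl : 16 * Real.log n ≤ ε ^ 2 * τ ^ 2 * n) (hF : GOE n {W | Fine ζ W}ᶜ ≤ 2⁻¹) :
    GOE n {W | ¬ WW (τ ^ 2) (ε ^ 2) κ W ∧ -H ≤ YY n ζ ε τ H W} ≤ ex (-H) := by
  have e0 := N.e0; have t0 := N.t0; have H0 := N.H0; have N1 := N.N1
  have et : 0 < ε * τ := mul_pos N.e0 N.t0
  have et1 : ε * τ ≤ 1 / 2 := by nlinarith [N.e1, N.t1]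
  have n1 : 1 ≤ n := by linarith [N.n1]
  obtain ⟨X, hX⟩ : ∃ X, X = ε ^ 2 * τ ^ 2 * n := ⟨_, rfl⟩
  have X1 : X ≤ n / 4 := by
    have : (ε * τ) ^ 2 ≤ (1 / 2) ^ 2 := pow_le_pow_left₀ et.le et1 2
    rw [hX]; nlinarith
  have X2 : 18432 * (H + 3) ≤ X := by
    have a1 : ε ^ 4 ≤ (1 / 2) ^ 4 := pow_le_pow_left₀ e0.le N.e1 4
    have a2 := mul_le_mul_of_nonneg_right a1 (by positivity : 0 ≤ ε ^ 2 * τ ^ 2 * n)
    rw [hX]; nlinarith [N.h3]
  have sub : {W : Mx n | ¬ WW (τ ^ 2) (ε ^ 2) κ W ∧ -H ≤ YY n ζ ε τ H W} ⊆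
      {W | ¬ Wᵀ = W} ∪ ({W | 2 + 1 ≤ Eig.opn W} ∪
      E1 (rh n ζ) (zz (1 - ε * τ / 8)) ((ε * τ / 2) ^ 2 / 4) (H + 1) ∪
      (⋃ j ∈ JJ n ε τ, E3 (zz (j * (ε ^ 2 * τ / 10 ^ 5))) ((ε * τ / 2) ^ 2 / 2)) ∪
      {W | ∀ W' ∈ {W | Fine ζ W}, 16 * (H + 3) / n ≤ fr (W - W')}) := fun W hW => by
    by_contra hc
    simp only [Set.mem_union, Set.mem_iUnion, Set.mem_ofPred_eq, not_or, not_not, not_le,
      not_exists, not_forall] at hc
    obtain ⟨c0, ⟨⟨c1, c2⟩, c3⟩, W', c4, c5⟩ := hc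
    exact hW.1 (force hB hG hH N hg c0 c1 c2 c3 c4 c5.le hW.2)
  have up : ∀ {y : ℝ}, y ≤ -(H + 3) → ex y ≤ ENNReal.ofReal (1 * Real.exp (-(H + 3))) :=
    fun hy => by rw [one_mul]; exact Conc.ex_mono hy
  have p0 : GOE n {W | ¬ Wᵀ = W} = 0 := ae_iff.1 (Cond.goe_ae_symm _)
  have p1 : GOE n {W | 2 + 1 ≤ Eig.opn W} ≤ ENNReal.ofReal (2 * Real.exp (-(H + 3))) := by
    rw [← ofReal_measureReal (measure_ne_top _ _)]
    refine ENNReal.ofReal_le_ofReal ((Nrm.goe_opn_tail_n zero_le_one).trans ?_)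
    gcongr; linarith
  have p2 := (hT n (rh n ζ) (zz (1 - ε * τ / 8)) ((ε * τ / 2) ^ 2 / 4) (H + 1) n1 N.rh0
    (by positivity) (by nlinarith) (by linarith) (by
      rw [← N.rh2]
      have a1 := Real.one_le_rpow N1 N.z0
      have a2 : Real.log n ≤ Real.log (4 * n) := Real.log_le_log (by linarith) (by linarith)
      have a3 := Real.log_nonneg N1
      have a4 : Real.log n * 1 ≤ Real.log (4 * n) * (n : ℝ) ^ ζ :=
        mul_le_mul a2 a1 zero_le_one (a3.trans a2)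
      have a5 := mul_le_mul a4 (by linarith : 32 * (H + 1) ≤ X) (by positivity)
        (mul_nonneg (a3.trans a2) (by positivity))
      rw [hX] at a5
      nlinarith)).trans (ex_add_le (up (by linarith)) (up (by rw [hX] at X2; nlinarith))
        zero_le_one zero_le_one)
  have p3 : GOE n (⋃ j ∈ JJ n ε τ, E3 (zz (j * (ε ^ 2 * τ / 10 ^ 5))) ((ε * τ / 2) ^ 2 / 2)) ≤
      ENNReal.ofReal (1 * Real.exp (-(H + 3))) := by
    refine (measure_biUnion_finset_le _ _).trans ((sum_le_card_nsmul _ _ _ fun j _ =>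
      hD n _ _ (by positivity) (by nlinarith)).trans ?_)
    have c : ((JJ n ε τ).card : ℝ≥0∞) ≤ n := by
      exact_mod_cast (card_filter_le _ _).trans (card_range n).le
    have en : (n : ℝ≥0∞) = ex (Real.log n) := by
      rw [ex, Real.exp_log (by linarith), ENNReal.ofReal_natCast]
    rw [nsmul_eq_mul]
    refine (mul_le_mul_left c _).trans ?_
    rw [en, ← Conc.ex_add, ← Conc.ex_add]
    refine up ?_
    rw [hX] at X2; nlinarith
  have p4 := (hN n _ (H + 3) n1 (by linarith) hF).trans (up le_rfl)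
  refine (measure_mono sub).trans ((measure_union_le _ _).trans ?_)
  rw [p0, zero_add]
  refine ((measure_union_le _ _).trans (ex_add_le ((measure_union_le _ _).trans (ex_add_le
    ((measure_union_le _ _).trans (ex_add_le p1 p2 (by norm_num) (by norm_num))) p3 (by norm_num)
    (by norm_num))) p4 (by norm_num) (by norm_num))).trans (ENNReal.ofReal_le_ofReal ?_)
  rw [show -H = 3 + -(H + 3) by ring, Real.exp_add]
  refine mul_le_mul_of_nonneg_right ?_ (Real.exp_pos _).le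
  have := Real.quadratic_le_exp_of_nonneg (by norm_num : (0 : ℝ) ≤ 3)
  linarith

end Crest.Agent.T157.Cp.Pen72

end
private theorem rz_2477207446 : type_of% @_root_.Crest.Agent.T157.Cp.Pen72.uu.eq_1 := @_root_.Crest.Agent.T157.Cp.Pen72.uu.eq_1 -- L33
end

-- ▼ part T157/CpPen_72
section

/-!
# Row 157, coin windows: `Cp.PenGlue` (helper72)
-/

set_option autoImplicit false

noncomputable section

namespace Crest.Agent.T157.Cp

open MeasureTheory Matrix Filter Topology Pen72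
open Crest.Agent.T157.Cw
open Crest.Agent.T157.Qe (V Mx GOE)

namespace Pen72

set_option maxHeartbeats 1600000 in
lemma num_of {n : ℕ} {C ζ κ η ε τ H u M : ℝ} (n1 : 2 ≤ n) (z0 : 0 ≤ ζ) (k0 : 0 ≤ κ) (_C0 : 0 ≤ C)
    (e0 : 0 < ε) (e1 : ε ≤ 1 / 2) (t0 : 0 < τ) (t1 : τ ≤ 1) (H0 : 0 ≤ H) (u0 : 0 < u)
    (hu : u ^ 3 = n) (hM : (n : ℝ) ^ ζ = M) (hr : (n : ℝ) ^ (ζ - 2 / 3) = M / u ^ 2)
    (M1 : 10 ^ 4 ≤ M) (MC : 2056 * C ^ 2 ≤ M) (Ml : Real.log (4 * n) ≤ M)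
    (hκ : M ^ 2 ≤ (n : ℝ) ^ κ) (hη : M ^ 37 ≤ (n : ℝ) ^ η) (he : 1 ≤ ε ^ 2 * M)
    (ht : M ^ 5 ≤ u * τ) (h1 : H ≤ 1 / 2304 * (ε ^ 2) ^ 3 * n * τ ^ 2) (h2 : H ≤ M * (n * τ ^ 3)) :
    Num n ζ κ ε τ H ∧ 10 ^ 5 < n * (ε ^ 2 * τ) ∧ 16 * Real.log n ≤ ε ^ 2 * τ ^ 2 * n ∧
      C * (2056 * (1 + H / D0 n ε τ) ^ 4 * C * rh n ζ ^ 8) ≤ (n : ℝ) ^ η := by
  have N2 : (2 : ℝ) ≤ n := by exact_mod_cast n1
  have M0 : 0 < M := by linarith
  have M1' : 1 ≤ M := by linarith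
  have h2z : (n : ℝ) ^ (2 * ζ) = M ^ 2 := by
    rw [mul_comm, Real.rpow_mul (by linarith), hM, Real.rpow_two]
  obtain ⟨y, hy⟩ : ∃ y, y = u * τ := ⟨_, rfl⟩
  rw [← hy] at ht
  have pw : ∀ a b : ℕ, a ≤ b → M ^ a ≤ M ^ b := fun a b h => pow_le_pow_right₀ M1' h
  have big : ∀ (c : ℝ) (a b : ℕ), c ≤ 10 ^ 8 → a + 2 ≤ b → c * M ^ a ≤ M ^ b := fun c a b hc h => by
    refine le_trans ?_ (pw _ _ h)
    rw [pow_add, mul_comm]
    exact mul_le_mul_of_nonneg_left (by nlinarith) (by positivity)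
  have y1 : 1 ≤ y := (one_le_pow₀ M1').trans ht
  have A : M ^ 4 ≤ ε ^ 2 * y := by
    refine le_of_mul_le_mul_right ?_ M0
    linarith [mul_le_mul_of_nonneg_right he (by linarith : 0 ≤ y)]
  have n3 : n * τ ^ 3 = y ^ 3 := by rw [hy, ← hu]; ring
  have n2 : y ^ 3 ≤ n * τ ^ 2 := by
    rw [← n3]; gcongr ?_ * ?_; exact pow_le_pow_of_le_one t0.le t1 (by norm_num)
  have n1' : n * τ ^ 2 ≤ n * τ := by
    gcongr ?_ * ?_; nlinarith
  have A3 : M ^ 12 ≤ ε ^ 6 * y ^ 3 :=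
    le_trans (le_of_eq (by ring)) ((pow_le_pow_left₀ (by positivity) A 3).trans (le_of_eq (by ring)))
  have A1 : M ^ 4 ≤ ε ^ 2 * y ^ 2 := A.trans (by gcongr; nlinarith)
  have A2 : M ^ 4 ≤ ε ^ 2 * y ^ 3 := A.trans (by gcongr; exact le_self_pow₀ y1 (by norm_num))
  have B2 : M ^ 4 ≤ ε ^ 2 * (n * τ ^ 2) := A2.trans (by gcongr)
  have N : Num n ζ κ ε τ H := by
    refine ⟨n1, z0, e0, e1, t0, t1, H0, ?_, ?_, ?_, ?_, ?_, ?_, ?_, k0⟩
    · rw [hr, ← mul_div_assoc, div_le_iff₀ (by positivity)]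
      have := big 128 1 4 (by norm_num) (by norm_num)
      rw [hy] at A1
      linarith
    · rw [h2z, mul_assoc (ε ^ 6), n3]
      exact (big _ 2 12 (by norm_num) (by norm_num)).trans A3
    · have a1 := big 6912 0 12 (by norm_num) (by norm_num)
      have a2 := mul_le_mul_of_nonneg_left n2 (by positivity : 0 ≤ ε ^ 6)
      linarith
    · have a1 := big 256 4 20 (by norm_num) (by norm_num)
      have a2 := pow_le_pow_left₀ (by positivity) A 5
      have a3 : y ^ 5 ≤ n ^ 2 * τ ^ 2 := by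
        have b1 : y ^ 5 ≤ y ^ 3 * y ^ 3 := by rw [← pow_add]; exact pow_le_pow_right₀ y1 (by norm_num)
        have b2 : y ^ 3 ≤ n * τ := n2.trans n1'
        linarith [mul_le_mul b2 b2 (by positivity) (by positivity)]
      have a4 := mul_le_mul_of_nonneg_left a3 (by positivity : 0 ≤ ε ^ 10)
      rw [hM]
      linarith
    · have a1 : M ^ 2 ≤ ((n : ℝ) ^ κ) ^ 2 * ε ^ 3 := by
        have b1 := pow_le_pow_left₀ (by positivity) hκ 2
        have b2 : ε ^ 4 ≤ ε ^ 3 := pow_le_pow_of_le_one e0.le (by linarith) (by norm_num)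
        have b3 := mul_le_mul b1 b2 (by positivity) (by positivity)
        have b4 := mul_le_mul_of_nonneg_left (one_le_pow₀ (n := 2) he) (by positivity : 0 ≤ M ^ 2)
        linarith
      have a2 := mul_le_mul_of_nonneg_right a1 (by positivity : 0 ≤ y ^ 3)
      have a3 : 3 ≤ M * y ^ 3 := by nlinarith [one_le_pow₀ (n := 3) y1]
      have a4 := mul_le_mul_of_nonneg_right M1 (by positivity : 0 ≤ M * y ^ 3)
      rw [n3] at h2
      rw [mul_pow ε, show ((n : ℝ) ^ κ) ^ 2 * n * (ε ^ 3 * τ ^ 3) =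
        ((n : ℝ) ^ κ) ^ 2 * ε ^ 3 * (n * τ ^ 3) by ring, n3]
      linarith
    · have := big 16 2 4 (by norm_num) (by norm_num)
      rw [hM]; linarith
    · have a1 : u ≤ √n := Real.le_sqrt_of_sq_le (by
        have : 1 ≤ u := by nlinarith
        rw [← hu]; exact pow_le_pow_right₀ this (by norm_num))
      have := big 2 2 5 (by norm_num) (by norm_num)
      rw [h2z]
      linarith [mul_le_mul_of_nonneg_right a1 t0.le]
  refine ⟨N, ?_, ?_, ?_⟩
  · have a1 := big (10 ^ 6) 0 4 (by norm_num) (by norm_num)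
    linarith [mul_le_mul_of_nonneg_left n1' (sq_nonneg ε)]
  · have a1 := big 16 1 4 (by norm_num) (by norm_num)
    have a2 : Real.log n ≤ Real.log (4 * n) := Real.log_le_log (by linarith) (by linarith)
    linarith
  · have d2 := N.D2
    have q0 : 0 ≤ H / D0 n ε τ := div_nonneg H0 (by linarith)
    have a1 : H / D0 n ε τ ≤ 6 * 10 ^ 6 * M ^ 4 := by
      rw [div_le_iff₀ (by linarith), D0]
      have b1 := mul_le_mul_of_nonneg_left (one_le_pow₀ (n := 3) he)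
        (by positivity : 0 ≤ M * (n * τ ^ 3))
      linarith
    have a2 : 1 + H / D0 n ε τ ≤ M ^ 6 := by
      have := big (6 * 10 ^ 6 + 1) 4 6 (by norm_num) (by norm_num)
      linarith [one_le_pow₀ (n := 4) M1']
    have a3 : rh n ζ ^ 2 ≤ M ^ 3 := by
      rw [← N.rh2, hM]
      linarith [mul_le_mul_of_nonneg_left Ml M0.le, mul_le_mul_of_nonneg_right M1 (sq_nonneg M),
        sq_nonneg M]
    have a4 := pow_le_pow_left₀ (by positivity) a2 4
    have a5 := pow_le_pow_left₀ (by positivity) a3 4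
    have a6 := mul_le_mul MC (mul_le_mul a4 a5 (by positivity) (by positivity)) (by positivity) M0.le
    refine le_trans (le_of_eq (by ring)) (a6.trans (le_trans (le_of_eq (by ring)) hη))

end Pen72

theorem penGlue : PenGlue := by
  intro C hL hB hT hD hN hH hG hF κ κ0 d d0 η η0
  obtain ⟨ζ, z0, z1, z2, z3⟩ : ∃ ζ : ℝ, 0 < ζ ∧ ζ ≤ κ / 2 ∧ ζ ≤ d / 10 ∧ ζ ≤ η / 37 :=
    ⟨min (κ / 2) (min (d / 10) (η / 37)), by positivity, min_le_left _ _,
      (min_le_right _ _).trans (min_le_left _ _), (min_le_right _ _).trans (min_le_right _ _)⟩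
  refine ⟨ζ, z0, 1 / 2304, by norm_num, ?_⟩
  obtain ⟨c, c0, hc⟩ := Ll.VhpM.goe (hF ζ z0)
  have tn : ∀ {a : ℝ}, 0 < a → Tendsto (fun n : ℕ => (n : ℝ) ^ a) atTop atTop := fun ha =>
    (tendsto_rpow_atTop ha).comp tendsto_natCast_atTop_atTop
  have z2' : 0 < ζ / 2 := by positivity
  filter_upwards [hc, eventually_ge_atTop 4, (tn z0).eventually_ge_atTop (10 ^ 4),
    (tn z0).eventually_ge_atTop (2056 * C ^ 2), (tn z2').eventually_ge_atTop (4 / ζ)]
    with n hn n4 M1 MC Ml t e H ht t1 he e1 H0 h1 h2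
  have N4 : (4 : ℝ) ≤ n := by exact_mod_cast n4
  have N0 : (0 : ℝ) < n := by linarith
  have N1 : (1 : ℝ) ≤ n := by linarith
  have t0 : 0 < t := lt_of_lt_of_le (by positivity) ht
  have e0 : 0 < e := lt_of_lt_of_le (by positivity) he
  obtain ⟨τ, τ0, rfl⟩ : ∃ τ : ℝ, 0 < τ ∧ t = τ ^ 2 := ⟨√t, by positivity, (Real.sq_sqrt t0.le).symm⟩
  obtain ⟨ε, ε0, rfl⟩ : ∃ ε : ℝ, 0 < ε ∧ e = ε ^ 2 := ⟨√e, by positivity, (Real.sq_sqrt e0.le).symm⟩
  have pw : ∀ (k : ℕ) (a : ℝ), ((n : ℝ) ^ a) ^ k = (n : ℝ) ^ (a * k) := fun k a => by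
    rw [Real.rpow_mul N0.le, Real.rpow_natCast]
  have mono : ∀ {a b : ℝ}, a ≤ b → (n : ℝ) ^ a ≤ (n : ℝ) ^ b := fun h =>
    Real.rpow_le_rpow_of_exponent_le N1 h
  have u2 : ((n : ℝ) ^ (1 / 3 : ℝ)) ^ 2 = (n : ℝ) ^ (2 / 3 : ℝ) := by rw [pw]; norm_num
  obtain ⟨N, g1, g2, g3⟩ := num_of (C := C) (κ := κ) (η := η) (ε := ε) (τ := τ) (H := H)
    (u := (n : ℝ) ^ (1 / 3 : ℝ)) (by linarith : 2 ≤ n) z0.le κ0.le (by linarith [hL.one]) ε0
    (abs_le_of_sq_le_sq' (by linarith) (by norm_num)).2 τ0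
    (abs_le_of_sq_le_sq' (by linarith) zero_le_one).2 H0 (by positivity) (by rw [pw]; norm_num) rfl
    (by rw [u2, Real.rpow_sub N0]) M1 MC (by
      have a1 : Real.log (4 * n) ≤ 2 * Real.log n := by
        rw [Real.log_mul (by norm_num) N0.ne']
        linarith [Real.log_le_log (by norm_num) N4]
      have a2 := Real.log_le_rpow_div N0.le z2'
      have a3 : (n : ℝ) ^ ζ = (n : ℝ) ^ (ζ / 2) * (n : ℝ) ^ (ζ / 2) := by
        rw [← Real.rpow_add N0, add_halves]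
      have a4 := mul_le_mul_of_nonneg_left Ml (by positivity : 0 ≤ (n : ℝ) ^ (ζ / 2))
      have a5 : (n : ℝ) ^ (ζ / 2) * (4 / ζ) = 2 * ((n : ℝ) ^ (ζ / 2) / (ζ / 2)) := by
        field_simp; ring
      linarith)
    (by rw [pw]; exact mono (by push_cast; linarith)) (by rw [pw]; exact mono (by push_cast; linarith))
    (by
      have := mul_le_mul_of_nonneg_right he (by positivity : 0 ≤ (n : ℝ) ^ ζ)
      rwa [← Real.rpow_add N0, neg_add_cancel, Real.rpow_zero] at this)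
    (by
      refine (abs_le_of_sq_le_sq' ?_ (by positivity)).2
      rw [div_le_iff₀ (by positivity)] at ht
      rw [mul_pow, u2, ← pow_mul, pw, mul_comm _ (τ ^ 2)]
      exact (mono (by push_cast; linarith)).trans ht) h1
    (by
      have : (τ ^ 2) ^ (3 / 2 : ℝ) = τ ^ 3 := by
        rw [← Real.rpow_natCast, ← Real.rpow_mul τ0.le, ← Real.rpow_natCast]; norm_num
      rwa [this] at h2)
  refine ⟨YY n ζ ε τ H, meas_YY hB, YY_le, fun dd => hL.mono _ _ _ _ g3 (lt_YY hL hB N dd),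
    fun W hW => fine_YY hB N hW, prob hB hT hD hN hG hH N g1 g2 ((hn ()).trans ?_)⟩
  rw [← ENNReal.ofReal_ofNat, ← ENNReal.ofReal_inv_of_pos two_pos]
  refine ENNReal.ofReal_le_ofReal ?_
  rw [Real.exp_neg]
  refine inv_anti₀ two_pos ?_
  linarith [Real.add_one_le_exp ((n : ℝ) ^ c), Real.one_le_rpow N1 c0.le]

end Crest.Agent.T157.Cp

end
end

-- ▼ part T157/CpBox_62
section

/-!
# Row 157, part C (helper62): Gaussian integrals over boxes (`Cp.boxGlue`)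
-/

set_option autoImplicit false

noncomputable section

namespace Crest.Agent.T157.Cp

open MeasureTheory ProbabilityTheory Matrix Set Filter
open scoped ENNReal
open Crest.ProbabilityR.SpinGlassDynamics
open Crest.Agent.T157.E Crest.Agent.T157.Cw
open Crest.Agent.T157.Qe
open Crest.Agent.T157.Conc (ex ex_add ex_mono ex_le_iff ex_ne_top)
open Crest.Agent.T157.Dq (Dg)

namespace Box62

variable {n : ℕ}

lemma box_eq (ρ : ℝ) : (box ρ : Set (V n)) = Icc (fun _ => -ρ) fun _ => ρ := by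
  ext x
  simp only [box, mem_ofPred_eq, mem_Icc, Pi.le_def, abs_le, forall_and]

lemma mbox (ρ : ℝ) : MeasurableSet (box ρ : Set (V n)) := by
  rw [box_eq]; exact measurableSet_Icc

/-- the integral over the box -/
def Bx (ρ : ℝ) (N : Mx n) : ℝ≥0∞ := ∫⁻ x in box ρ, ex ((x ⬝ᵥ x - x ⬝ᵥ N *ᵥ x) / 2) ∂Conc.gv (Fin n)

lemma int_box (ρ : ℝ) (N : Mx n) :
    IntegrableOn (fun x : V n => Real.exp ((x ⬝ᵥ x - x ⬝ᵥ N *ᵥ x) / 2)) (box ρ) (Conc.gv (Fin n)) := by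
  rw [box_eq]
  refine ContinuousOn.integrableOn_compact isCompact_Icc (Continuous.continuousOn ?_)
  have h1 : Continuous fun x : V n => x ⬝ᵥ x := continuous_id.dotProduct continuous_id
  have h2 : Continuous fun x : V n => x ⬝ᵥ N *ᵥ x :=
    continuous_id.dotProduct (continuous_const.matrix_mulVec continuous_id)
  exact Real.continuous_exp.comp ((h1.sub h2).div_const 2)

lemma bx_eq (ρ : ℝ) (N : Mx n) : Bx ρ N = ENNReal.ofReal
    (∫ x in box ρ, Real.exp ((x ⬝ᵥ x - x ⬝ᵥ N *ᵥ x) / 2) ∂Conc.gv (Fin n)) :=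
  (ofReal_integral_eq_lintegral_ofReal (int_box ρ N)
    (Eventually.of_forall fun _ => (Real.exp_pos _).le)).symm

/-- the box integral against Lebesgue measure -/
lemma bx_vol (ρ : ℝ) (N : Mx n) : Bx ρ N = ENNReal.ofReal (Kr.phi 1 (0 : V n)) *
    ∫⁻ x, (box ρ).indicator (fun x : V n => ex (-(x ⬝ᵥ N *ᵥ x) / 2)) x := by
  have m : ∀ {f : V n → ℝ≥0∞}, Measurable f → Measurable ((box ρ).indicator f) :=
    fun hf => hf.indicator (mbox ρ)
  rw [Bx, ← lintegral_indicator (mbox ρ), Kr.lintegral_gv (m (by fun_prop)),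
    ← lintegral_const_mul _ (m (by fun_prop))]
  refine lintegral_congr fun y => ?_
  by_cases hy : y ∈ box ρ
  · rw [indicator_of_mem hy, indicator_of_mem hy, ex, ex,
      ← ENNReal.ofReal_mul (Kr.phi_nonneg _ _), ← ENNReal.ofReal_mul (Kr.phi_nonneg _ _)]
    congr 1
    simp only [Kr.phi, mul_assoc, ← Real.exp_add]
    congr 2
    simp only [dotProduct_zero]
    ring
  · rw [indicator_of_notMem hy, indicator_of_notMem hy, mul_zero, mul_zero]

lemma bx_pos {ρ : ℝ} (hρ : 0 < ρ) (N : Mx n) : 0 < Bx ρ N := by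
  rw [bx_vol, lintegral_indicator (mbox ρ)]
  refine ENNReal.mul_pos (ENNReal.ofReal_pos.2 (Kr.phi_pos one_pos _)).ne' (ne_of_gt ?_)
  rw [setLIntegral_pos_iff (by fun_prop)]
  have : Function.support (fun x : V n => ex (-(x ⬝ᵥ N *ᵥ x) / 2)) = univ :=
    eq_univ_of_forall fun x => (ENNReal.ofReal_pos.2 (Real.exp_pos _)).ne'
  rw [this, univ_inter, box_eq, Real.volume_Icc_pi]
  refine pos_iff_ne_zero.2 (Finset.prod_ne_zero_iff.2 fun i _ => ?_)
  exact (ENNReal.ofReal_pos.2 (by linarith)).ne'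

lemma ex_jx {ρ : ℝ} (hρ : 0 < ρ) (N : Mx n) : ex (Jx ρ N) = Bx ρ N := by
  have h := bx_pos hρ N
  rw [bx_eq] at h ⊢
  rw [ex, Jx, Real.exp_log (ENNReal.ofReal_pos.1 h)]

lemma meas (ρ z : ℝ) : Measurable fun W : Mx n => Jx ρ (z • (1 : Mx n) - W) := by
  refine Real.measurable_log.comp (StronglyMeasurable.integral_prod_right
    (f := fun (W : Mx n) (x : V n) => Real.exp ((x ⬝ᵥ x - x ⬝ᵥ (z • (1 : Mx n) - W) *ᵥ x) / 2))
    (Measurable.stronglyMeasurable ?_)).measurable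
  simp only [qf_sub, qf_smul, qf_one]
  show Measurable fun p : Mx n × V n =>
    Real.exp ((p.2 ⬝ᵥ p.2 - (z * (p.2 ⬝ᵥ p.2) - p.2 ⬝ᵥ p.1 *ᵥ p.2)) / 2)
  fun_prop

lemma lt {C : ℝ} (h : LtStmt C) (ρ z : ℝ) (dd : V n) (hρ : 0 < ρ) :
    LT (C * ρ ^ 8) fun g => Jx ρ (z • (1 : Mx n) - Wmat n g dd) := by
  set N0 : Mx n := z • (1 : Mx n) - diagonal fun i => √2 * dd i / √n with hN0
  set ν : Measure (V n) := ((Conc.gv (Fin n)).restrict (box ρ)).withDensity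
    fun x => ex ((x ⬝ᵥ x - x ⬝ᵥ N0 *ᵥ x) / 2) with hν
  have hu : ν univ = Bx ρ N0 := by
    rw [hν, withDensity_apply _ MeasurableSet.univ, Measure.restrict_univ, Bx]
  have : IsFiniteMeasure ν := ⟨by rw [hu, bx_eq]; exact ENNReal.ofReal_lt_top⟩
  have h0 : ν ≠ 0 := fun e => by
    have := bx_pos hρ N0
    rw [← hu, e] at this
    exact lt_irrefl _ this
  have hb : ∀ᵐ x ∂ν, ∑ e : Pair n, (x e.1.1 * x e.1.2 / √n) ^ 4 ≤ ρ ^ 8 := by
    rw [hν]
    refine (withDensity_absolutelyContinuous _ _).ae_le ?_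
    filter_upwards [ae_restrict_mem (mbox ρ)] with x hx
    have a : ∀ e : Pair n, (x e.1.1 * x e.1.2 / √n) ^ 4 ≤ ρ ^ 8 / √n ^ 4 := fun e => by
      rw [div_pow]
      refine div_le_div_of_nonneg_right ?_ (by positivity)
      have : |x e.1.1 * x e.1.2| ≤ ρ ^ 2 := by
        rw [abs_mul, sq]; exact mul_le_mul (hx _) (hx _) (abs_nonneg _) hρ.le
      calc _ = |x e.1.1 * x e.1.2| ^ 4 := (Even.pow_abs (by decide) _).symm
        _ ≤ (ρ ^ 2) ^ 4 := pow_le_pow_left₀ (abs_nonneg _) this 4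
        _ = _ := by ring
    refine (Finset.sum_le_sum fun e _ => a e).trans ?_
    rw [Finset.sum_const, Finset.card_univ, nsmul_eq_mul]
    have cp : (Fintype.card (Pair n) : ℝ) ≤ √(n : ℝ) ^ 4 := by
      have : Fintype.card (Pair n) ≤ Fintype.card (Fin n × Fin n) := Fintype.card_subtype_le _
      rw [Fintype.card_prod, Fintype.card_fin] at this
      rw [show 4 = 2 * 2 from rfl, pow_mul, Real.sq_sqrt (Nat.cast_nonneg n), sq]
      exact_mod_cast this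
    refine (mul_le_mul_of_nonneg_right cp (by positivity)).trans ?_
    rcases eq_or_ne (√(n : ℝ) ^ 4) 0 with e | e
    · rw [e, zero_mul]; positivity
    · rw [mul_div_cancel₀ _ e]
  have := h.det (Pair n) (V n) ν (fun e x => x e.1.1 * x e.1.2 / √n) (ρ ^ 8) h0
    (fun e => by fun_prop) hb
  convert this using 2 with g
  rw [Jx, hν, integral_withDensity_eq_integral_toReal_smul (by fun_prop)
    (Eventually.of_forall fun x => (ex_ne_top _).lt_top)]
  congr 1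
  refine integral_congr_ae (Eventually.of_forall fun x => ?_)
  have e : z • (1 : Mx n) - Wmat n g dd = N0 - Jmat n g := by rw [hN0, Wmat]; abel
  simp only [ex, ENNReal.toReal_ofReal (Real.exp_pos _).le, smul_eq_mul, ← Real.exp_add]
  rw [e, qf_sub, dot_Jmat]
  congr 1
  have : ∑ p : Pair n, g p / √n * x p.1.1 * x p.1.2 =
      ∑ p : Pair n, g p * (x p.1.1 * x p.1.2 / √n) := Finset.sum_congr rfl fun p _ => by ring
  rw [this]
  ring

lemma dg_res {W : Mx n} {a : V n} (h : Dg W a) (z : ℝ) :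
    Dg (z • (1 : Mx n) - W) fun i => z - a i := by
  have := dg_affine h (-1) z
  rw [show (-1 : ℝ) • W + z • (1 : Mx n) = z • (1 : Mx n) - W by rw [neg_one_smul]; abel] at this
  convert this using 2
  ring

lemma gi_res {W : Mx n} {a : V n} {z : ℝ} (h : Dg W a) (hz : ∀ i, a i < z) :
    Gi (z • (1 : Mx n) - W) = ex (-Ph a z / 2) :=
  gi_dg (dg_res h z) fun i => sub_pos.2 (hz i)

lemma up {ρ z : ℝ} {W : Mx n} {a : V n} (hρ : 0 < ρ) (h : Dg W a) (hz : ∀ i, a i < z) :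
    Jx ρ (z • (1 : Mx n) - W) ≤ -Ph a z / 2 := by
  rw [← ex_le_iff, ex_jx hρ, ← gi_res h hz]
  exact setLIntegral_le_lintegral _ _

lemma sh {ρ : ℝ} {N : Mx n} {u : V n} (hρ : 0 < ρ) (hN : Nᵀ = N) (hu : u ∈ box ρ) :
    Jx ρ N - u ⬝ᵥ N *ᵥ u / 2 ≤ Jx (2 * ρ) N := by
  rw [← ex_le_iff, sub_eq_add_neg, ex_add, ex_jx hρ, ex_jx (by positivity), bx_vol, bx_vol,
    mul_assoc]
  refine mul_le_mul_right ?_ _
  set F : V n → ℝ≥0∞ := (box (2 * ρ)).indicator fun x : V n => ex (-(x ⬝ᵥ N *ᵥ x) / 2) with hF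
  have mF : Measurable F := Measurable.indicator (by fun_prop) (mbox _)
  have mG : Measurable ((box ρ).indicator fun x : V n => ex (-(x ⬝ᵥ N *ᵥ x) / 2)) :=
    Measurable.indicator (by fun_prop) (mbox _)
  have e1 : ∫⁻ x, F (u + x) = ∫⁻ x, F x := lintegral_add_left_eq_self F u
  have e2 : ∫⁻ x, F (u + -x) = ∫⁻ x, F x := by
    rw [lintegral_neg_eq_self (fun x => F (u + x)), e1]
  refine (ENNReal.mul_le_mul_iff_right (a := 2) two_ne_zero ENNReal.ofNat_ne_top).1 ?_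
  rw [two_mul (∫⁻ x, F x)]
  nth_rewrite 1 [← e1]
  nth_rewrite 1 [← e2]
  rw [← lintegral_add_left (by fun_prop), ← lintegral_mul_const _ mG,
    ← lintegral_const_mul _ (mG.mul_const _)]
  refine lintegral_mono fun x => ?_
  by_cases hx : x ∈ box ρ
  · have a1 : u + x ∈ box (2 * ρ) := fun i => by
      have := abs_add_le (u i) (x i); have := hu i; have := hx i
      rw [Pi.add_apply]; linarith
    have a2 : u + -x ∈ box (2 * ρ) := fun i => by
      have := abs_add_le (u i) (-x i); have := hu i; have := hx i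
      rw [abs_neg] at *
      rw [Pi.add_apply, Pi.neg_apply]; linarith
    simp only [hF]
    rw [indicator_of_mem hx, indicator_of_mem a1, indicator_of_mem a2, ← ex_add, qf_add_add hN,
      qf_add_add hN, mulVec_neg, dotProduct_neg, dotProduct_neg, neg_dotProduct, neg_neg, ex, ex,
      ex, ← ENNReal.ofReal_add (Real.exp_pos _).le (Real.exp_pos _).le, ← ENNReal.ofReal_ofNat 2,
      ← ENNReal.ofReal_mul zero_le_two]
    refine ENNReal.ofReal_le_ofReal ?_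
    set A := -(x ⬝ᵥ N *ᵥ x) / 2 + -(u ⬝ᵥ N *ᵥ u / 2) with hA
    set t := u ⬝ᵥ N *ᵥ x
    rw [show -(u ⬝ᵥ N *ᵥ u + 2 * t + x ⬝ᵥ N *ᵥ x) / 2 = A + -t by rw [hA]; ring,
      show -(u ⬝ᵥ N *ᵥ u + 2 * -t + x ⬝ᵥ N *ᵥ x) / 2 = A + t by rw [hA]; ring,
      Real.exp_add A, Real.exp_add A]
    nlinarith [Real.add_one_le_exp t, Real.add_one_le_exp (-t), Real.exp_pos A]
  · simp only [indicator_of_notMem hx, zero_mul, mul_zero, zero_le]

/-- moment generating function -/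
lemma mgf {N : Mx n} (hN : Nᵀ = N) (hd : N.det ≠ 0) (v : V n) (b : ℝ) :
    ∫⁻ x, ex ((x ⬝ᵥ x - x ⬝ᵥ N *ᵥ x) / 2 + (v ⬝ᵥ x - b)) ∂Conc.gv (Fin n) =
      ex (v ⬝ᵥ N⁻¹ *ᵥ v / 2 - b) * Gi N := by
  have hu : IsUnit N.det := isUnit_iff_ne_zero.2 hd
  set t := N⁻¹ *ᵥ v with ht
  have e : N *ᵥ t = v := by rw [ht, mulVec_mulVec, mul_nonsing_inv _ hu, one_mulVec]
  have h := gi_affine (f := fun x => x ⬝ᵥ N *ᵥ x) (by fun_prop) (L := (1 : Mx n)) (by simp) (-t)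
  simp only [one_mulVec, det_one, inv_one, abs_one, ENNReal.ofReal_one, one_mul] at h
  rw [Gi, ← h, ← lintegral_const_mul _ (by fun_prop)]
  refine lintegral_congr fun x => ?_
  rw [← ex_add, qf_add_add hN, qf_comm hN (-t) x, mulVec_neg, e, dotProduct_neg, dotProduct_neg,
    neg_dotProduct, dotProduct_comm x v, dotProduct_comm t v]
  congr 1
  ring

lemma lo {ρ z K : ℝ} {W : Mx n} {a : V n} (hn : 1 ≤ n) (hρ : 0 < ρ) (hK : 0 < K) (h : Dg W a)
    (hz : ∀ i, a i < z) (hR : ∀ i, Rz z W i i ≤ K) (hl : 2 * K * Real.log (4 * n) ≤ ρ ^ 2) :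
    -Ph a z / 2 - Real.log 2 ≤ Jx ρ (z • (1 : Mx n) - W) := by
  set N := z • (1 : Mx n) - W with hNd
  set A := -Ph a z / 2 with hA
  have hG : Gi N = ex A := gi_res h hz
  obtain ⟨O, hO, hN'⟩ : Dg N fun i => z - a i := dg_res h z
  have hN : Nᵀ = N := by
    rw [hN', transpose_mul, transpose_mul, transpose_transpose, diagonal_transpose,
      Matrix.mul_assoc]
  have hd : N.det ≠ 0 := by
    have e := congrArg det hO
    rw [det_mul, det_one] at e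
    rw [hN', det_mul, det_mul, mul_right_comm, e, one_mul, det_diagonal]
    exact Finset.prod_ne_zero_iff.2 fun i _ => (sub_pos.2 (hz i)).ne'
  set θ := ρ / K with hθ
  have hθ0 : 0 < θ := by positivity
  set T : Fin n → ℝ → V n → ℝ≥0∞ := fun i s x =>
    ex ((x ⬝ᵥ x - x ⬝ᵥ N *ᵥ x) / 2 + ((s • Pi.single i (1 : ℝ) : V n) ⬝ᵥ x - θ * ρ)) with hT
  have mT : ∀ i s, Measurable (T i s) := fun i s => by simp only [hT]; fun_prop
  have n0 : (0 : ℝ) < n := by exact_mod_cast hn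
  have iT : ∀ i s, s ^ 2 = θ ^ 2 → ∫⁻ x, T i s x ∂Conc.gv (Fin n) ≤
      ENNReal.ofReal (Real.exp A / (4 * n)) := fun i s hs => by
    simp only [hT]
    rw [mgf hN hd, hG, ← ex_add, div_eq_mul_inv (Real.exp A),
      ← Real.exp_log (show 0 < (4 * (n : ℝ))⁻¹ by positivity), ← Real.exp_add, Real.log_inv]
    refine ex_mono ?_
    have e : (s • Pi.single i (1 : ℝ) : V n) ⬝ᵥ N⁻¹ *ᵥ (s • Pi.single i (1 : ℝ)) =
        θ ^ 2 * Rz z W i i := by
      rw [mulVec_smul, smul_dotProduct, dotProduct_smul, single_one_dotProduct, mulVec_single_one,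
        smul_eq_mul, smul_eq_mul, ← mul_assoc, ← sq, hs]
      rfl
    have e2 : θ ^ 2 * K / 2 - θ * ρ = -(ρ ^ 2 / (2 * K)) := by rw [hθ]; field_simp; ring
    have e3 : Real.log (4 * n) ≤ ρ ^ 2 / (2 * K) := by
      rw [le_div_iff₀ (by positivity)]; linarith
    have e4 := mul_le_mul_of_nonneg_left (hR i) (sq_nonneg θ)
    rw [e]
    linarith
  have key : Gi N ≤ Bx ρ N + ∑ i, (∫⁻ x, T i θ x ∂Conc.gv (Fin n) + ∫⁻ x, T i (-θ) x ∂Conc.gv (Fin n)) := by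
    simp only [← lintegral_add_left (mT _ _)]
    rw [← lintegral_finsetSum (f := fun i x => T i θ x + T i (-θ) x) _
      fun i _ => (mT _ _).add (mT _ _), Bx,
      ← lintegral_indicator (mbox ρ),
      ← lintegral_add_left (Measurable.indicator (by fun_prop) (mbox ρ))]
    refine lintegral_mono fun x => ?_
    by_cases hx : x ∈ box ρ
    · simp only [indicator_of_mem hx]; exact le_self_add
    · obtain ⟨i, hi⟩ := not_forall.1 hx
      refine le_add_left (le_trans ?_ (Finset.single_le_sum (f := fun i => T i θ x + T i (-θ) x)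
        (fun _ _ => zero_le) (Finset.mem_univ i)))
      have e : ∀ s : ℝ, (s • Pi.single i (1 : ℝ) : V n) ⬝ᵥ x = s * x i := fun s => by
        rw [smul_dotProduct, single_one_dotProduct, smul_eq_mul]
      rcases lt_abs.1 (not_le.1 hi) with c | c
      · refine le_add_right (ex_mono ?_)
        rw [e]; nlinarith
      · refine le_add_left (ex_mono ?_)
        rw [e]; nlinarith
  have k2 : ex A ≤ ENNReal.ofReal (Real.exp (Jx ρ N) + Real.exp A / 2) := by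
    rw [← hG, ENNReal.ofReal_add (Real.exp_pos _).le (by positivity)]
    refine key.trans (add_le_add (ex_jx hρ N).ge ?_)
    refine (Finset.sum_le_sum fun i _ => add_le_add (iT i θ rfl) (iT i (-θ) (neg_sq θ))).trans ?_
    rw [← ENNReal.ofReal_add (by positivity) (by positivity),
      ← ENNReal.ofReal_sum_of_nonneg fun _ _ => by positivity]
    refine ENNReal.ofReal_le_ofReal (le_of_eq ?_)
    rw [Finset.sum_const, Finset.card_univ, Fintype.card_fin, nsmul_eq_mul]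
    field_simp
    ring
  rw [ex, ENNReal.ofReal_le_ofReal_iff (by positivity)] at k2
  rw [← Real.exp_le_exp, Real.exp_sub, Real.exp_log two_pos]
  linarith

end Box62

theorem boxGlue : BoxGlue := fun _ h =>
  { meas := fun _ ρ z => Box62.meas ρ z
    lt := fun _ ρ z dd hρ => Box62.lt h ρ z dd hρ
    up := fun _ _ _ _ _ hρ h hz => Box62.up hρ h hz
    lo := fun _ _ _ _ _ _ hn hρ hK h hz hR hl => Box62.lo hn hρ hK h hz hR hl
    sh := fun _ _ _ _ hρ hN hu => Box62.sh hρ hN hu }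

end Crest.Agent.T157.Cp

end
end

-- ▼ part T157/CpRot_10

/-!
# Row 157, part C (helper10): averaging over the orthogonal group, `Cp.rotStmt`
-/

set_option autoImplicit false

noncomputable section

namespace Crest.Agent.T157.Cp

open MeasureTheory ProbabilityTheory Matrix Set Filter
open scoped ENNReal
open Crest.Agent.T157.Cond
open Crest.Agent.T157.Qe (V Mx GOE)
open Crest.Agent.R164.Haar

namespace Rot10

variable {n : ℕ} {ν : Measure (Mat (Fin n))} [IsProbabilityMeasure ν]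

/-- averaging an invariant law over the group -/
lemma avg {X : Type*} [MeasurableSpace X] (hν : RHaar ν) (μ : Measure X) [SFinite μ]
    {T : Mat (Fin n) → X → X} (hT : Measurable fun p : X × Mat (Fin n) => T p.2 p.1)
    (h : ∀ O : Mat (Fin n), of O * (of O)ᵀ = 1 → μ.map (T O) = μ) {E : Set X}
    (hE : MeasurableSet E) : ∫⁻ z, ν {O | T O z ∈ E} ∂μ = μ E := by
  have hS := hE.preimage hT
  refine ((Measure.prod_apply (μ := μ) (ν := ν) hS).symm.trans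
    (Measure.prod_apply_symm hS)).trans ?_
  rw [lintegral_congr_ae (g := fun _ => μ E), lintegral_const, measure_univ, mul_one]
  filter_upwards [hν.mem] with O hO
  conv_rhs => rw [← h O ((mem_orthogonalGroup_iff _ _).1 hO)]
  exact (Measure.map_apply (hT.comp (measurable_prodMk_right (y := O))) hE).symm

lemma meas_of : Measurable fun O : Mat (Fin n) => (of O : Mx n) :=
  measurable_mat_iff.2 fun i j => by simp only [of_apply]; fun_prop

lemma meas_mv (v : V n) {A : Set (V n)} (hA : MeasurableSet A) :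
    MeasurableSet {O : Mat (Fin n) | of O *ᵥ v ∈ A} := by
  have := meas_of (n := n)
  exact hA.preimage (f := fun O : Mat (Fin n) => of O *ᵥ v) (by fun_prop)

/-- a rotated unit vector is a Gaussian direction -/
lemma sphere (hν : RHaar ν) {v : V n} (hv : v ⬝ᵥ v = 1) {A : Set (V n)} (hA : MeasurableSet A)
    (hc : ∀ c : ℝ, 0 < c → ∀ x, c • x ∈ A ↔ x ∈ A) :
    ν {O | of O *ᵥ v ∈ A} = Conc.gv (Fin n) A := by
  cases n with
  | zero => simp at hv
  | succ N =>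
    have key : ∀ u : V (N + 1), ∑ i, u i ^ 2 = 1 →
        ν {O | of O *ᵥ u ∈ A} = ν {O | of O *ᵥ Pi.single (Fin.last N) 1 ∈ A} := fun u hu => by
      conv_rhs => rw [← hν.inv _ (Hh_mem hu)]
      rw [Measure.map_apply (continuous_rmul _).measurable (meas_mv _ hA)]
      congr 1
      ext O
      change _ ↔ (of O * Hh u) *ᵥ _ ∈ A
      rw [← mulVec_mulVec, show Hh u *ᵥ Pi.single (Fin.last N) 1 = u from
        funext fun i => by rw [mulVec_single_one]; exact Hh_last hu i]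
      rfl
    have := meas_of (n := N + 1)
    rw [← avg hν (Conc.gv _) (T := fun O x => of O *ᵥ x) (by fun_prop)
      (fun O hO => R166.Gauss286.gv_map_mulVec _ hO) hA,
      lintegral_congr_ae (g := fun _ => ν {O | of O *ᵥ v ∈ A}), lintegral_const, measure_univ,
      mul_one]
    filter_upwards [gam_nrm_ne_zero (N := N)] with x hx
    rw [key v (by simpa only [dotProduct, sq] using hv), ← key _ (sum_un hx)]
    congr 1
    ext O
    have h0 : 0 < nrm x := lt_of_le_of_ne (Real.sqrt_nonneg _) hx.symm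
    have e : x = nrm x • un x := funext fun i => by
      rw [Pi.smul_apply, un, smul_eq_mul, mul_div_cancel₀ _ hx]
    change of O *ᵥ x ∈ A ↔ of O *ᵥ un x ∈ A
    rw [← hc _ h0 (of O *ᵥ un x), ← mulVec_smul, ← e]

end Rot10

open Rot10

theorem rotStmt : RotStmt := by
  intro n E δ hE h
  obtain ⟨ν, _, hν⟩ := exists_haar n
  have := meas_of (n := n)
  rw [← avg hν (GOE n) (T := fun O W => of O * W * (of O)ᵀ) (by fun_prop)
    (fun O hO => goe_conj _ _ hO) hE]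
  refine (lintegral_mono_ae (g := fun _ => δ) ?_).trans (by simp)
  filter_upwards [goe_ae_symm (1 / √n)] with W hW
  obtain ⟨v, A, hv, hA, hc, hδ, h1 | h1⟩ := h W hW
  · refine (measure_mono_ae ?_).trans ((sphere hν hv hA hc).trans_le hδ)
    filter_upwards [hν.mem] with O hO using h1 _ ((mem_orthogonalGroup_iff _ _).1 hO)
  · refine le_trans ?_ ((sphere hν hv hA hc).trans_le hδ)
    conv_rhs => rw [← hν.map_tr]
    rw [Measure.map_apply continuous_tr.measurable (meas_mv v hA)]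
    refine measure_mono_ae ?_
    filter_upwards [hν.mem] with O hO using h1 _ ((mem_orthogonalGroup_iff _ _).1 hO)

end Crest.Agent.T157.Cp

end
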