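import Crest.Agent.T157.CqDef_72
import Crest.Agent.T157.StIso_42
import Crest.Agent.T157.StLnk_10

/-!
# Row 157, part C: bounds, isometries and measurability of the static expressions (helper43)

`bdStmt : BdStmt`, `isoStmt : IsoStmt`, `scMeas : ScMeas`, `msStmt : MsStmt`.
-/

set_option autoImplicit false
set_option linter.unusedSectionVars false

noncomputable section

namespace Crest.Agent.T157.Cq

open MeasureTheory ProbabilityTheory Matrix Filter Topology Finset Real
open Crest.ProbabilityR.SpinGlassDynamics Crest.Agent.T157.E Crest.Agent.T157.Eig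
open Crest.Agent.T157.St Crest.Agent.T157.Ed Crest.Agent.T157.Cond
open Crest.Agent.T157.Tr (Om)

namespace Bd43

/-! ### sup bounds, any law -/

section bounds
variable {ι : Type*} [Fintype ι] {μ : Measure (ι → ℝ)} {f : (ι → ℝ) → ℝ} {C : ℝ}

theorem nn (h : ∀ x, |f x| ≤ C) : 0 ≤ C := (abs_nonneg _).trans (h 0)

theorem abs_pm_le (K : ℝ) (h : ∀ x, |f x| ≤ C) (y : ι → ℝ) : |pm K μ f y| ≤ C := by
  have hM : 0 ≤ Mf K μ y := integral_nonneg fun x => (exp_pos _).le
  by_cases hi : Integrable (ew K y) μ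
  · rw [pm, abs_div, abs_of_nonneg hM]
    refine div_le_of_le_mul₀ hM (nn h) ?_
    rw [Mf, ← integral_const_mul, ← Real.norm_eq_abs]
    refine norm_integral_le_of_norm_le (hi.const_mul C) (ae_of_all _ fun x => ?_)
    have : 0 < ew K y x := exp_pos _
    rw [Real.norm_eq_abs, abs_mul, abs_of_pos this]
    exact mul_le_mul_of_nonneg_right (h x) this.le
  · have : Mf K μ y = 0 := integral_undef hi
    rw [pm, this, div_zero, abs_zero]
    exact nn h

theorem abs_Sm_le (K : ℝ) (h : ∀ x, |f x| ≤ C) (x : ι → ℝ) : |Sm K f x| ≤ C := by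
  have := norm_integral_le_of_norm_le_const (μ := gv ι) (C := C)
    (f := fun z => f (K • x + √K • z)) (ae_of_all _ fun z => h _)
  simpa [Sm] using this

theorem abs_Tk_le (K : ℝ) (h : ∀ x, |f x| ≤ C) (x : ι → ℝ) : |Tk K μ f x| ≤ C :=
  abs_Sm_le K (abs_pm_le (μ := μ) K h) x

theorem abs_iter_le (K : ℝ) (h : ∀ x, |f x| ≤ C) (j : ℕ) (x : ι → ℝ) :
    |(Tk K μ)^[j] f x| ≤ C := by
  induction j generalizing x with
  | zero => exact h x
  | succ j ih => rw [Function.iterate_succ_apply']; exact abs_Tk_le K ih x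

theorem term_le (K : ℝ) {c : ℝ} (hc : 0 ≤ c) (h : ∀ x, |f x| ≤ C) (x : ι → ℝ) (j : ℕ) :
    ‖Chain22.poi c j * (Tk K μ)^[j] f x‖ ≤ Chain22.poi c j * C := by
  rw [Real.norm_eq_abs, abs_mul, abs_of_nonneg (Chain22.poi_nonneg hc j)]
  exact mul_le_mul_of_nonneg_left (abs_iter_le K h j x) (Chain22.poi_nonneg hc j)

theorem summable_Qs (K : ℝ) {c : ℝ} (hc : 0 ≤ c) (h : ∀ x, |f x| ≤ C) (x : ι → ℝ) :
    Summable fun j => Chain22.poi c j * (Tk K μ)^[j] f x :=
  Summable.of_norm_bounded ((Chain22.hasSum_poi c).mul_right C).summable (term_le K hc h x)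

theorem abs_Qs_le (K : ℝ) {c : ℝ} (hc : 0 ≤ c) (h : ∀ x, |f x| ≤ C) (x : ι → ℝ) :
    |Qs K c μ f x| ≤ C := by
  have := tsum_of_norm_bounded ((Chain22.hasSum_poi c).mul_right C) (term_le (μ := μ) K hc h x)
  simpa [Qs] using this

theorem abs_sin_le {L : ℝ} (hL : 0 ≤ L) (u : ℝ) : |L * sin u| ≤ L := by
  rw [abs_mul, abs_of_nonneg hL]
  exact mul_le_of_le_one_right hL (abs_sin_le_one u)

theorem abs_psiS_le {L : ℝ} (hL : 0 ≤ L) (K' K : ℝ) {c : ℝ} (hc : 0 ≤ c) (x : ι → ℝ) :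
    |psiS μ L K' K c x| ≤ L :=
  abs_Tk_le K' (fun _ => abs_Qs_le K hc (abs_Tk_le K' fun _ => abs_sin_le hL _) x) x

theorem abs_ev_le {v : (ι → ℝ) → ℝ} (hv : ∀ x, |v x| ≤ 1) (e : SE) (he : e.Adm) (x : ι → ℝ) :
    |e.ev μ v x| ≤ e.bd := by
  induction e generalizing x with
  | var => exact hv x
  | psi L K' K c => exact abs_psiS_le (zero_le_one.trans he.1) K' K he.2.2.2 x
  | const a => exact le_rfl
  | add e e' ih ih' => exact (abs_add_le _ _).trans (add_le_add (ih he.1 x) (ih' he.2 x))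
  | mul e e' ih ih' =>
    show |e.ev μ v x * e'.ev μ v x| ≤ e.bd * e'.bd
    rw [abs_mul]
    exact mul_le_mul (ih he.1 x) (ih' he.2 x) (abs_nonneg _) (nn (ih he.1))
  | T K e ih => exact abs_Tk_le K (ih he.2) x
  | Q K c e ih => exact abs_Qs_le K he.2.1 (ih he.2.2) x

end bounds

/-! ### measurability with parameters -/

theorem meas_tsum {α : Type*} [MeasurableSpace α] {f : ℕ → α → ℝ} (h : ∀ j, Measurable (f j))
    (hs : ∀ a, Summable fun j => f j a) : Measurable fun a => ∑' j, f j a :=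
  measurable_of_tendsto_metrizable (f := fun m a => ∑ j ∈ range m, f j a)
    (fun _ => Finset.measurable_sum _ fun j _ => h j)
    (tendsto_pi_nhds.2 fun a => (hs a).hasSum.tendsto_sum_nat)

section par
variable {ι : Type} [Fintype ι] {α : Type} [MeasurableSpace α]

/-- measurable families of laws -/
def Fam (μ : α → Measure (ι → ℝ)) : Prop :=
  ∀ (β : Type) [MeasurableSpace β] (pr : β → α), Measurable pr → ∀ F : β → (ι → ℝ) → ℝ,
    (Measurable fun q : β × (ι → ℝ) => F q.1 q.2) → Measurable fun b => ∫ x, F b x ∂μ (pr b)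

theorem fam_const (μ : Measure (ι → ℝ)) [SFinite μ] : Fam fun _ : α => μ :=
  fun _ _ _ _ _ hF => (hF.stronglyMeasurable.integral_prod_right' (ν := μ)).measurable

theorem Fam.comp {μ : α → Measure (ι → ℝ)} (h : Fam μ) {β : Type} [MeasurableSpace β]
    {pr : β → α} (hpr : Measurable pr) : Fam fun b => μ (pr b) :=
  fun γ _ pr' hpr' F hF => h γ (fun c => pr (pr' c)) (hpr.comp hpr') F hF

theorem fam_dm {Ω : Type*} [Fintype Ω] {w : α → Ω → ℝ} (hw : ∀ a x, 0 ≤ w a x)
    (hm : ∀ x, Measurable fun a => w a x) (φ : Ω → ι → ℝ) : Fam fun a => dm (w a) φ := by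
  intro β _ pr hpr F hF
  simp only [Lnk10.integral_dm (hw _), mean, prob]
  exact Finset.measurable_sum _ fun x _ =>
    (((hm x).comp hpr).div (Finset.measurable_sum _ fun y _ => (hm y).comp hpr)).mul
      (hF.comp (measurable_id.prodMk measurable_const))

variable {μ : α → Measure (ι → ℝ)} {f : α → (ι → ℝ) → ℝ}

/-- jointly measurable -/
abbrev JM (f : α → (ι → ℝ) → ℝ) : Prop := Measurable fun q : α × (ι → ℝ) => f q.1 q.2

theorem Fam.int (h : Fam μ) (hf : JM f) : Measurable fun a => ∫ x, f a x ∂μ a :=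
  h α id measurable_id f hf

theorem jm_Sm (K : ℝ) (hf : JM f) : JM fun a => Sm K (f a) := by
  have h1 : Measurable fun p : (α × (ι → ℝ)) × (ι → ℝ) => f p.1.1 (K • p.1.2 + √K • p.2) :=
    hf.comp (f := fun p : (α × (ι → ℝ)) × (ι → ℝ) => (p.1.1, K • p.1.2 + √K • p.2)) (by fun_prop)
  exact (h1.stronglyMeasurable.integral_prod_right' (ν := gv ι)).measurable

theorem jm_pm (h : Fam μ) (K : ℝ) (hf : JM f) : JM fun a => pm K (μ a) (f a) := by
  have h1 : Measurable fun p : (α × (ι → ℝ)) × (ι → ℝ) => ew K p.1.2 p.2 := by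
    unfold ew; fun_prop
  have h2 : Measurable fun p : (α × (ι → ℝ)) × (ι → ℝ) => f p.1.1 p.2 * ew K p.1.2 p.2 :=
    (hf.comp (f := fun p : (α × (ι → ℝ)) × (ι → ℝ) => (p.1.1, p.2)) (by fun_prop)).mul h1
  exact (h _ Prod.fst measurable_fst (fun p x => f p.1 x * ew K p.2 x) h2).div
    (h _ Prod.fst measurable_fst (fun p x => ew K p.2 x) h1)

theorem jm_Tk (h : Fam μ) (K : ℝ) (hf : JM f) : JM fun a => Tk K (μ a) (f a) :=
  jm_Sm K (jm_pm h K hf)

theorem jm_iter (h : Fam μ) (K : ℝ) (hf : JM f) (j : ℕ) : JM fun a => (Tk K (μ a))^[j] (f a) := by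
  induction j with
  | zero => exact hf
  | succ j ih => simp only [Function.iterate_succ_apply']; exact jm_Tk h K ih

theorem jm_Qs (h : Fam μ) (K : ℝ) {c C : ℝ} (hc : 0 ≤ c) (hf : JM f) (hb : ∀ a x, |f a x| ≤ C) :
    JM fun a => Qs K c (μ a) (f a) :=
  meas_tsum (f := fun j (q : α × (ι → ℝ)) => Chain22.poi c j * (Tk K (μ q.1))^[j] (f q.1) q.2)
    (fun j => (jm_iter h K hf j).const_mul _) fun q => summable_Qs K hc (hb q.1) q.2

/-- the inner function of `psiS` -/
theorem jm_in (h : Fam μ) {L : ℝ} (hL : 0 ≤ L) (K' K : ℝ) {c : ℝ} (hc : 0 ≤ c) :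
    JM fun (p : α × (ι → ℝ)) => Qs K c (μ p.1) (Tk K' (μ p.1) fun a' => L * sin (p.2 ⬝ᵥ a' / L)) :=
  jm_Qs (h.comp measurable_fst) K hc (C := L)
    (jm_Tk (h.comp measurable_fst) K'
      (f := fun (p : α × (ι → ℝ)) a' => L * sin (p.2 ⬝ᵥ a' / L)) (by unfold JM; fun_prop))
    fun _ => abs_Tk_le K' fun _ => abs_sin_le hL _

theorem jm_psiS (h : Fam μ) {L : ℝ} (hL : 0 ≤ L) (K' K : ℝ) {c : ℝ} (hc : 0 ≤ c) :
    JM fun a => psiS (μ a) L K' K c := by
  have h1 : JM fun (p : α × (ι → ℝ)) (a : ι → ℝ) =>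
      Qs K c (μ p.1) (Tk K' (μ p.1) fun a' => L * sin (a ⬝ᵥ a' / L)) p.2 :=
    (jm_in h hL K' K hc).comp
      (f := fun q : (α × (ι → ℝ)) × (ι → ℝ) => ((q.1.1, q.2), q.1.2)) (by fun_prop)
  exact (jm_Tk (h.comp measurable_fst) K' h1).comp
    (f := fun q : α × (ι → ℝ) => (q, q.2)) (by fun_prop)

theorem jm_ev (h : Fam μ) {v : α → (ι → ℝ) → ℝ} (hv : JM v) (hb : ∀ a x, |v a x| ≤ 1) (e : SE)
    (he : e.Adm) : JM fun a => e.ev (μ a) (v a) := by
  induction e with
  | var => exact hv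
  | psi L K' K c => exact jm_psiS h (zero_le_one.trans he.1) K' K he.2.2.2
  | const a => exact measurable_const
  | add e e' ih ih' => exact (ih he.1).add (ih' he.2)
  | mul e e' ih ih' => exact (ih he.1).mul (ih' he.2)
  | T K e ih => exact jm_Tk h K (ih he.2)
  | Q K c e ih => exact jm_Qs h K he.2.1 (ih he.2.2) fun a => abs_ev_le (hb a) e he.2.2

theorem JM.at (hf : JM f) (a : α) : Measurable (f a) :=
  hf.comp (measurable_const.prodMk measurable_id)

theorem jm_const {g : (ι → ℝ) → ℝ} (hg : Measurable g) : JM fun _ : α => g :=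
  hg.comp measurable_snd

theorem meas_cut : Measurable cut := by
  have : Continuous cut := smoothTransition.continuous.comp (by fun_prop)
  exact this.measurable

theorem meas_mk (h : Fam μ) {M : α → Matrix ι ι ℝ} (hM : Measurable M) (l : ℝ) (hf : JM f) :
    Measurable fun a => mk (μ a) (M a) l (f a) :=
  h.int (f := fun a x => cut (l * (x ⬝ᵥ M a *ᵥ x)) * f a x)
    ((meas_cut.comp (by fun_prop)).mul hf)

end par

section one
variable {ι : Type} [Fintype ι] {μ : Measure (ι → ℝ)} [SFinite μ] {f : (ι → ℝ) → ℝ}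

theorem meas_Sm (K : ℝ) (hf : Measurable f) : Measurable (Sm K f) :=
  (jm_Sm (α := Unit) K (jm_const hf)).at ()

theorem meas_iter (K : ℝ) (hf : Measurable f) (j : ℕ) : Measurable ((Tk K μ)^[j] f) :=
  (jm_iter (α := Unit) (fam_const μ) K (jm_const hf) j).at ()


theorem meas_ev (hf : B1 f) (e : SE) (he : e.Adm) : Measurable (e.ev μ f) :=
  (jm_ev (α := Unit) (fam_const μ) (jm_const hf.1) (fun _ => hf.2) e he).at ()

end one

/-! ### isometries -/

section isom
variable {ι κ : Type} [Fintype ι] [Fintype κ] [DecidableEq κ] {U : Matrix ι κ ℝ}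
  {μ : Measure (κ → ℝ)} [SFinite μ] {f : (ι → ℝ) → ℝ}

theorem iter_map (hU : Uᵀ * U = 1) (K : ℝ) (hf : Measurable f) (j : ℕ) (x : κ → ℝ) :
    (Tk K (μ.map fun x => U *ᵥ x))^[j] f (U *ᵥ x) = (Tk K μ)^[j] (fun x => f (U *ᵥ x)) x := by
  induction j generalizing x with
  | zero => rfl
  | succ j ih =>
    rw [Function.iterate_succ_apply', Function.iterate_succ_apply',
      Iso42.Tk_map hU μ K (meas_iter K hf j), funext ih]

theorem Qs_map (hU : Uᵀ * U = 1) (K c : ℝ) (hf : Measurable f) (x : κ → ℝ) :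
    Qs K c (μ.map fun x => U *ᵥ x) f (U *ᵥ x) = Qs K c μ (fun x => f (U *ᵥ x)) x := by
  simp only [Qs, iter_map hU K hf]

theorem psiS_map (hU : Uᵀ * U = 1) {L : ℝ} (hL : 0 ≤ L) (K' K : ℝ) {c : ℝ} (hc : 0 ≤ c)
    (x : κ → ℝ) : psiS (μ.map fun x => U *ᵥ x) L K' K c (U *ᵥ x) = psiS μ L K' K c x := by
  have h1 : Measurable fun a : ι → ℝ => Qs K c (μ.map fun x => U *ᵥ x)
      (Tk K' (μ.map fun x => U *ᵥ x) fun a' => L * sin (a ⬝ᵥ a' / L)) (U *ᵥ x) :=
    (jm_in (α := Unit) (fam_const _) hL K' K hc).comp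
      (f := fun a : ι → ℝ => (((), a), U *ᵥ x)) (by fun_prop)
  rw [psiS, psiS, Iso42.Tk_map hU μ K' h1]
  congr 1
  funext a
  have h2 : Measurable fun a' : ι → ℝ => L * sin ((U *ᵥ a) ⬝ᵥ a' / L) := by fun_prop
  rw [Qs_map hU K c (Iso42.measurable_Tk K' h2)]
  congr 1
  funext y
  rw [Iso42.Tk_map hU μ K' h2]
  simp only [Iso42.dot_UU hU]

theorem ev_map (hU : Uᵀ * U = 1) (hf : B1 f) (e : SE) (he : e.Adm) (x : κ → ℝ) :
    e.ev (μ.map fun x => U *ᵥ x) f (U *ᵥ x) = e.ev μ (fun y => f (U *ᵥ y)) x := by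
  induction e generalizing x with
  | var => rfl
  | psi L K' K c => exact psiS_map hU (zero_le_one.trans he.1) K' K he.2.2.2 x
  | const a => rfl
  | add e e' ih ih' => exact congrArg₂ (· + ·) (ih he.1 x) (ih' he.2 x)
  | mul e e' ih ih' => exact congrArg₂ (· * ·) (ih he.1 x) (ih' he.2 x)
  | T K e ih =>
    exact (Iso42.Tk_map hU μ K (meas_ev hf e he.2) x).trans (by rw [funext (ih he.2)]; rfl)
  | Q K c e ih =>
    exact (Qs_map hU K c (meas_ev hf e he.2.2) x).trans (by rw [funext (ih he.2.2)]; rfl)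

end isom

/-! ### the spectral window and the killed chain -/

variable {n : ℕ}

theorem tau_sq_pos {l : ℝ} (hl : l ≠ 0) (u : ℝ) : u ^ 2 + l ^ 2 ≠ 0 := by positivity

/-- the window is a resolvent -/
theorem fl_eq (l : ℝ) {W : Mat n} (hW : W.IsHermitian) :
    fl n l W = l ^ 2 • ((tau n • ((2 : ℝ) • (1 : Mat n) - W)) * (tau n • ((2 : ℝ) • (1 : Mat n) - W)) +
      l ^ 2 • (1 : Mat n))⁻¹ := by
  rcases eq_or_ne l 0 with rfl | hl
  · ext i j
    simp [fl, fnK_apply]
  have e1 : tau n • ((2 : ℝ) • (1 : Mat n) - W) = fnK (fun x => tau n * (2 - x)) W := by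
    rw [fnK_smul, fnK_sub, fnK_const hW, fnK_id_real hW]
  rw [e1, fnK_mul hW, ← fnK_const hW, ← fnK_add, fnK_inv hW fun k _ => by
    rw [← sq]; exact tau_sq_pos hl _, ← fnK_smul, fl]
  congr 1
  funext x
  rw [← sq, div_eq_mul_inv]

theorem fl_of_not (l : ℝ) {W : Mat n} (hW : ¬ W.IsHermitian) : fl n l W = 0 := by
  have hv : ∀ k, Eig.vec W k = 0 := fun k => dif_neg fun h => hW h.1
  ext i j
  simp [fl, fnK_apply, hv]

theorem meas_inv : Measurable fun A : Mat n => A⁻¹ := by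
  simp only [Matrix.inv_def, Ring.inverse_eq_inv']
  exact (continuous_id.matrix_det.measurable.inv).t157_smul continuous_id.matrix_adjugate.measurable

theorem meas_fl (l : ℝ) : Measurable (fl n l) := by
  classical
  have hs : MeasurableSet {W : Mat n | W.IsHermitian} := by
    simp only [herm_iff]
    exact (isClosed_eq continuous_id.matrix_transpose continuous_id).measurableSet
  have e : fl n l = fun W => if W.IsHermitian then
      l ^ 2 • ((tau n • ((2 : ℝ) • (1 : Mat n) - W)) * (tau n • ((2 : ℝ) • (1 : Mat n) - W)) +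
        l ^ 2 • (1 : Mat n))⁻¹ else 0 := by
    funext W
    split_ifs with h
    · exact fl_eq l h
    · exact fl_of_not l h
  rw [e]
  exact Measurable.ite hs (measurable_const.t157_smul (meas_inv.comp (by fun_prop)))
    measurable_const

theorem cont_Ph {X : Type*} [TopologicalSpace X] {w u : X → Cube n → ℝ} (hp : ∀ a x, 0 < w a x)
    (hw : ∀ x, Continuous fun a => w a x) (hu : ∀ x, Continuous fun a => u a x) (x : Cube n) :
    Continuous fun a => Ph (w a) (u a) x :=
  continuous_const.mul (continuous_finsetSum _ fun _ _ =>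
    (((hw _).mul (hu _)).add ((hw _).mul (hu _))).div ((hw _).add (hw _))
      fun a => (add_pos (hp a _) (hp a _)).ne')

theorem cont_kil {X : Type*} [TopologicalSpace X] {w V : X → Cube n → ℝ} (hp : ∀ a x, 0 < w a x)
    (hw : ∀ x, Continuous fun a => w a x) (hV : ∀ x, Continuous fun a => V a x) (m : ℕ)
    (x : Cube n) : Continuous fun a => kil (w a) (V a) m x := by
  induction m generalizing x with
  | zero => exact continuous_const
  | succ m ih =>
    simp only [kil, Function.iterate_succ_apply']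
    exact (continuous_exp.comp ((hV x).div_const _).neg).mul (cont_Ph hp hw ih x)

theorem cont_kap (ε : ℝ) : Continuous fun q : Mat n × (Cube n → ℝ) => kap q.1 ε q.2 :=
  continuous_const.sub (continuous_finsetSum _ fun x _ => continuous_const.mul
    (cont_kil (w := fun q : Mat n × (Cube n → ℝ) => ising q.1 0) (V := fun q => q.2)
      (fun _ _ => exp_pos _) (fun y => by unfold ising; fun_prop) (fun y => by fun_prop) _ x))

theorem fam_muG : Fam (muG n) :=
  fam_dm (fun g x => (gibbsWeight_pos 1 g x).le) (fun x => by unfold gibbsWeight; fun_prop) _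


theorem b1_zero {ι : Type*} [Fintype ι] : B1 (0 : (ι → ℝ) → ℝ) :=
  ⟨measurable_const, fun _ => by simp⟩

end Bd43

open Bd43

theorem bdStmt : BdStmt := fun _ _ _ _ =>
  ⟨fun K _ _ h => ⟨meas_Sm K h.1, abs_Sm_le K h.2⟩,
    fun _ hv e he => ⟨meas_ev hv e he, abs_ev_le hv.2 e he⟩⟩

theorem isoStmt : IsoStmt := fun _ _ _ _ _ _ hU _ hμ _ hv e he x =>
  have := hμ.prob
  ev_map hU hv e he x

theorem msStmt : MsStmt := fun _ ε l => ⟨meas_fl l, cont_kap ε⟩

theorem scMeas : ScMeas := fun n i =>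
  meas_mk (fam_muG.comp measurable_fst) ((meas_fl 1).comp measurable_Wmat) i.1.1
    (jm_ev (fam_muG.comp measurable_fst) (v := fun _ : Om n => 0) (jm_const measurable_const)
      (fun _ => b1_zero.2) i.2.1 i.2.2)

end Crest.Agent.T157.Cq

end
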