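import Crest.Agent.T157.CqDef_72

/-!
# Row 157, part C: finite-chain lemmas for `TopGlue` (helper72)
-/

set_option autoImplicit false

noncomputable section

namespace Crest.Agent.T157.Cq.Top72

open MeasureTheory Matrix Finset Real
open Crest.Agent.T157.E (prob post slE)
open Crest.Agent.T157.Chain22 Crest.Agent.T157.Soft Crest.Agent.T157.Sg
open Crest.Agent.T157.St (dm Tk ew Mf)
open Crest.Agent.T157.St.A87

section st
variable {Ω ι : Type*} [Fintype Ω] [Nonempty Ω] [DecidableEq Ω] [Fintype ι] [DecidableEq ι]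
  {φ : Ω → ι → ℝ} {w : Ω → ℝ} {K : ℝ} (hw : ∀ x, 0 < w x) (hK : 0 ≤ K)

lemma iter_dm (f : (ι → ℝ) → ℝ) (j : ℕ) :
    (fun x => (Tk K (dm w φ))^[j] f (φ x)) = (stRC φ hw hK).P ^ j *ᵥ fun x => f (φ x) := by
  induction j with
  | zero => simp
  | succ j ih =>
    funext x
    rw [Function.iterate_succ_apply', Tk_dm hw hK, ih, pow_succ', ← mulVec_mulVec]

lemma Qs_dm (c : ℝ) (f : (ι → ℝ) → ℝ) (x : Ω) :
    Qs K c (dm w φ) f (φ x) = ((stRC φ hw hK).H c *ᵥ fun x => f (φ x)) x := by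
  rw [← ((stRC φ hw hK).hasSum_H_mulVec c _ x).tsum_eq, Qs]
  exact tsum_congr fun j => by rw [← iter_dm hw hK]





end st

section core
variable {Ω : Type*} [Fintype Ω] [DecidableEq Ω] {c : RC Ω} {pp ρ ν f g : Ω → ℝ} {E : ℝ}

omit [DecidableEq Ω] in
lemma dom_le (h : ∀ y, ρ y ≤ E * pp y) (hf : ∀ y, 0 ≤ f y) : mean ρ f ≤ E * mean pp f := by
  rw [mean, mean, mul_sum]
  exact sum_le_sum fun y _ => by nlinarith [mul_le_mul_of_nonneg_right (h y) (hf y)]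

omit [DecidableEq Ω] in
lemma dom_abs (hρ : IsP ρ) (h : ∀ y, ρ y ≤ E * pp y) (f g : Ω → ℝ) :
    |mean ρ f - mean ρ g| ≤ E * mean pp fun y => |f y - g y| := by
  refine le_trans ?_ (dom_le h fun y => abs_nonneg _)
  rw [mean, mean, ← sum_sub_distrib]
  refine (abs_sum_le_sum_abs _ _).trans (sum_le_sum fun y _ => ?_)
  rw [← mul_sub, abs_mul, abs_of_nonneg (hρ.nn y)]

omit [DecidableEq Ω] in
lemma l1_le (hpp : IsP pp) {δ : ℝ} (hδ : 0 ≤ δ) (h : mean pp (fun y => (f y - g y) ^ 2) ≤ δ ^ 2) :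
    mean pp (fun y => |f y - g y|) ≤ δ := by
  refine abs_le_of_sq_le_sq' ((hpp.mean_sq_le _).trans (le_trans (le_of_eq ?_) h)) hδ |>.2
  simp only [ip, mean, abs_mul_abs_self, sq]

omit [DecidableEq Ω] in
lemma dom_sq (hρ : IsP ρ) (hpp : IsP pp) (hE : 0 ≤ E) (h : ∀ y, ρ y ≤ E * pp y) {δ : ℝ} (hδ : 0 ≤ δ)
    (h2 : mean pp (fun y => (f y - g y) ^ 2) ≤ δ ^ 2) : |mean ρ f - mean ρ g| ≤ E * δ :=
  (dom_abs hρ h f g).trans (mul_le_mul_of_nonneg_left (l1_le hpp hδ h2) hE)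

/-- shifting the time -/
lemma shift (hν : IsP ν) {b s r : ℝ} (hb : 0 < b) (hs : 2 * b ≤ s) (hr : 0 ≤ r) (hE : 1 ≤ E)
    (h : ∀ y, (ν ᵥ* c.H b) y ≤ E * c.π y) (hf : ∀ y, |f y| ≤ 1) :
    |mean (ν ᵥ* c.H s) f - mean (ν ᵥ* c.H (s + r)) f| ≤ r / b * (2 * E ^ 2) := by
  have e : ∀ t, mean (ν ᵥ* c.H (b + t)) f = ip c.π (dens c ν b) (c.H t *ᵥ f) := fun t => by
    rw [c.H_add, ← vecMul_vecMul, mean_vecMul, ← pi_mul_dens (c := c) ν b]
    simp only [mean, ip, mul_assoc]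
  have h1 := ip_H_lip (c := c) (dens c ν b) f hb (s := s - b) (t := s - b + r) (by linarith)
    (by linarith)
  rw [← e, ← e, show b + (s - b) = s by ring, show b + (s - b + r) = s + r by ring,
    show s - b - (s - b + r) = -r by ring, abs_neg, abs_of_nonneg hr] at h1
  refine h1.trans (mul_le_mul_of_nonneg_left ?_ (by positivity))
  have a1 := (ip_H_le_self (c := c) f (t := b / 2) (by positivity)).trans (ip_self_le c.isP hf)
  have a2 := (ip_H_le_self (c := c) (dens c ν b) (t := b / 2) (by positivity)).trans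
    (ip_self_le c.isP (K := E) fun y => by
      rw [abs_of_nonneg (dens_nonneg hν hb.le y), Soft.dens, div_le_iff₀ (c.pos y)]; exact h y)
  nlinarith

open Classical in
/-- **the deterministic core of the merging argument** -/
theorem core (hν : IsP ν) {b s τ r E₀ E₁ E₂ δ₁ δ₂ δ₃ η z q m : ℝ} {e f v u : Ω → ℝ} {A : Ω → Prop}
    (hb : 0 < b) (hs : 2 * b ≤ s) (hτ : 0 ≤ τ) (hr : 0 ≤ r) (hE₀ : 1 ≤ E₀)
    (hE₁ : 0 ≤ E₁) (hE₂ : 0 ≤ E₂) (hδ₁ : 0 ≤ δ₁) (hδ₂ : 0 ≤ δ₂) (hδ₃ : 0 ≤ δ₃) (hη : 0 ≤ η)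
    (h0 : ∀ y, (ν ᵥ* c.H b) y ≤ E₀ * c.π y) (h1 : ∀ y, (ν ᵥ* c.H (r + τ)) y ≤ E₁ * c.π y)
    (h2 : ∀ y, (ν ᵥ* c.H r) y ≤ E₂ * c.π y) (he : ∀ y, |e y| ≤ 1) (hu : ∀ y, |u y| ≤ 1)
    (hz : |z| ≤ 1)
    (a1 : mean c.π (fun y => ((c.H (s - τ) *ᵥ e) y - f y) ^ 2) ≤ δ₁ ^ 2)
    (a2 : mean c.π (fun y => (f y - v y) ^ 2) ≤ δ₂ ^ 2)
    (a3 : mean c.π (fun y => ((c.H τ *ᵥ v) y - u y) ^ 2) ≤ δ₃ ^ 2)
    (hq : mean (ν ᵥ* c.H r) (Ent.ind A) ≤ q)
    (hm : mean c.π (Ent.ind fun y => ¬ A y ∧ η < |u y - z|) ≤ m) :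
    |mean (ν ᵥ* c.H s) e - z| ≤
      r / b * (2 * E₀ ^ 2) + E₁ * δ₁ + E₁ * δ₂ + E₂ * δ₃ + (η + 2 * q + 2 * (E₂ * m)) := by
  have p1 := isP_vecMul (c := c) hν (add_nonneg hr hτ)
  have p2 := isP_vecMul (c := c) hν hr
  have k0 := shift hν hb hs hr hE₀ h0 he
  have k1 := dom_sq p1 c.isP hE₁ h1 hδ₁ a1
  have k2 := dom_sq p1 c.isP hE₁ h1 hδ₂ a2
  have k3 := dom_sq p2 c.isP hE₂ h2 hδ₃ a3
  rw [← mean_vecMul, vecMul_vecMul, ← c.H_add, show r + τ + (s - τ) = s + r by ring] at k1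
  rw [← mean_vecMul, vecMul_vecMul, ← c.H_add] at k3
  have k4 : |mean (ν ᵥ* c.H r) u - z| ≤ η + 2 * q + 2 * (E₂ * m) := by
    have i0 : ∀ (P : Ω → Prop) y, 0 ≤ Ent.ind P y := fun P y => by unfold Ent.ind; split_ifs <;> simp
    have b1 := (dom_le h2 (i0 fun y => ¬ A y ∧ η < |u y - z|)).trans
      (mul_le_mul_of_nonneg_left hm hE₂)
    have b2 := dom_abs p2 (E := 1) (pp := ν ᵥ* c.H r) (fun y => by rw [one_mul]) u fun _ => z
    rw [p2.mean_const, one_mul] at b2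
    have b3 := p2.mean_mono (f := fun y => |u y - z|) (g := (fun _ => η) + (2 : ℝ) • Ent.ind A +
      (2 : ℝ) • Ent.ind fun y => ¬ A y ∧ η < |u y - z|) fun y => by
        have := abs_sub (u y) z
        have := hu y
        simp only [Pi.add_apply, Pi.smul_apply, smul_eq_mul, Ent.ind]
        split_ifs with h h' h'
        · linarith
        · linarith
        · linarith
        · push Not at h'; linarith [h' h]
    rw [mean_add, mean_add, mean_smul, mean_smul, p2.mean_const] at b3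
    linarith
  rw [abs_le] at *
  constructor <;> linarith [k0.1, k0.2, k1.1, k1.2, k2.1, k2.2, k3.1, k3.2, k4.1, k4.2]

end core

end Crest.Agent.T157.Cq.Top72

end
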