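import Mathlib

/-!
# Row 157, part E: ordered eigenvalues of a real symmetric matrix (helper84)

`lam A k` (`k = 0, 1, …, card ι - 1`, decreasing) and an orthonormal eigenbasis `vec A k`, as total
functions of the matrix; spectral expansions in `dotProduct` words; Courant–Fischer; Weyl;
rank perturbations; Cauchy interlacing; the counting function `cnt A x = #{k | x ≤ lam A k}`.
-/

set_option autoImplicit false
set_option linter.unusedSectionVars false

noncomputable section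

namespace Crest.Agent.T157.Eig

open Matrix Finset Module

variable {ι κ : Type*} [Fintype ι] [DecidableEq ι] [Fintype κ] [DecidableEq κ]

/-- the enumeration of the index type used by Mathlib's spectral theorem -/
def eqv (ι : Type*) [Fintype ι] : Fin (Fintype.card ι) ≃ ι :=
  Fintype.equivOfCardEq (Fintype.card_fin _)

open Classical in
/-- the `k`-th largest eigenvalue (`k = 0` is the top one); `0` if `A` is not symmetric or
`card ι ≤ k` -/
def lam (A : Matrix ι ι ℝ) (k : ℕ) : ℝ :=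
  if h : A.IsHermitian ∧ k < Fintype.card ι then h.1.eigenvalues₀ ⟨k, h.2⟩ else 0

open Classical in
/-- a unit eigenvector for `lam A k` (orthonormal basis) -/
def vec (A : Matrix ι ι ℝ) (k : ℕ) : ι → ℝ :=
  if h : A.IsHermitian ∧ k < Fintype.card ι then
    ⇑(h.1.eigenvectorBasis (eqv ι ⟨k, h.2⟩)) else 0

/-- number of eigenvalues `≥ x` -/
def cnt (A : Matrix ι ι ℝ) (x : ℝ) : ℕ :=
  ((range (Fintype.card ι)).filter fun k => x ≤ lam A k).card

variable {A B : Matrix ι ι ℝ}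

lemma herm_iff : A.IsHermitian ↔ Aᵀ = A := by
  rw [IsHermitian, conjTranspose_eq_transpose_of_trivial]

lemma herm_apply (hA : A.IsHermitian) (i j : ι) : A i j = A j i := by
  have := congrFun (congrFun (herm_iff.1 hA) j) i
  simpa using this

/-- symmetry of the bilinear form -/
lemma dot_symm (hA : A.IsHermitian) (u v : ι → ℝ) : u ⬝ᵥ A *ᵥ v = v ⬝ᵥ A *ᵥ u := by
  rw [dotProduct_mulVec, ← mulVec_transpose, herm_iff.1 hA, dotProduct_comm]

lemma lam_fin (hA : A.IsHermitian) (k : Fin (Fintype.card ι)) :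
    lam A k = hA.eigenvalues (eqv ι k) := by
  rw [lam, dif_pos ⟨hA, k.2⟩, IsHermitian.eigenvalues]
  simp [eqv]

lemma vec_fin (hA : A.IsHermitian) (k : Fin (Fintype.card ι)) :
    vec A k = ⇑(hA.eigenvectorBasis (eqv ι k)) := by
  rw [vec, dif_pos ⟨hA, k.2⟩]

lemma lam_of_le {k : ℕ} (hk : Fintype.card ι ≤ k) : lam A k = 0 := by
  rw [lam, dif_neg]; rintro ⟨_, h⟩; omega

lemma vec_of_le {k : ℕ} (hk : Fintype.card ι ≤ k) : vec A k = 0 := by
  rw [vec, dif_neg]; rintro ⟨_, h⟩; omega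

/-- sums over the ordered spectrum are sums over Mathlib's spectrum -/
lemma sum_range_eq {M : Type*} [AddCommMonoid M] (hA : A.IsHermitian) (F : ℝ → (ι → ℝ) → M) :
    ∑ k ∈ range (Fintype.card ι), F (lam A k) (vec A k) =
      ∑ i, F (hA.eigenvalues i) ⇑(hA.eigenvectorBasis i) := by
  rw [← Fin.sum_univ_eq_sum_range (fun k => F (lam A k) (vec A k)),
    ← (eqv ι).sum_comp (fun i => F (hA.eigenvalues i) ⇑(hA.eigenvectorBasis i))]
  refine sum_congr rfl fun k _ => ?_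
  rw [lam_fin hA, vec_fin hA]

lemma lam_anti (hA : A.IsHermitian) {k l : ℕ} (hkl : k ≤ l) (hl : l < Fintype.card ι) :
    lam A l ≤ lam A k := by
  rw [lam, lam, dif_pos ⟨hA, hl⟩, dif_pos ⟨hA, lt_of_le_of_lt hkl hl⟩]
  exact hA.eigenvalues₀_antitone (show (⟨k, _⟩ : Fin _) ≤ ⟨l, _⟩ from hkl)

lemma mulVec_vec (hA : A.IsHermitian) (k : ℕ) : A *ᵥ vec A k = lam A k • vec A k := by
  by_cases hk : k < Fintype.card ι
  · rw [lam_fin hA ⟨k, hk⟩, vec_fin hA ⟨k, hk⟩]; exact hA.mulVec_eigenvectorBasis _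
  · rw [vec_of_le (not_lt.1 hk)]; simp

lemma vec_dot (hA : A.IsHermitian) {k l : ℕ} (hk : k < Fintype.card ι) (hl : l < Fintype.card ι) :
    vec A k ⬝ᵥ vec A l = if k = l then 1 else 0 := by
  rw [vec_fin hA ⟨k, hk⟩, vec_fin hA ⟨l, hl⟩]
  have h := orthonormal_iff_ite.1 hA.eigenvectorBasis.orthonormal (eqv ι ⟨l, hl⟩) (eqv ι ⟨k, hk⟩)
  rw [EuclideanSpace.inner_eq_star_dotProduct] at h
  simp only [star_trivial, EmbeddingLike.apply_eq_iff_eq, Fin.mk.injEq] at h
  rw [h]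
  simp only [eq_comm]

lemma vec_dot_self (hA : A.IsHermitian) {k : ℕ} (hk : k < Fintype.card ι) :
    vec A k ⬝ᵥ vec A k = 1 := by rw [vec_dot hA hk hk, if_pos rfl]

lemma vec_dot_ne (hA : A.IsHermitian) {k l : ℕ} (h : k ≠ l) : vec A k ⬝ᵥ vec A l = 0 := by
  by_cases hk : k < Fintype.card ι
  · by_cases hl : l < Fintype.card ι
    · rw [vec_dot hA hk hl, if_neg h]
    · rw [vec_of_le (not_lt.1 hl)]; simp
  · rw [vec_of_le (not_lt.1 hk)]; simp

/-- completeness of the eigenbasis -/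
lemma sum_vec_mul (hA : A.IsHermitian) (i j : ι) :
    ∑ k ∈ range (Fintype.card ι), vec A k i * vec A k j = if i = j then 1 else 0 := by
  rw [sum_range_eq hA (fun _ v => v i * v j)]
  have h := (mem_unitaryGroup_iff.1 hA.eigenvectorUnitary.2)
  have h2 := congrFun (congrFun h i) j
  rw [mul_apply, one_apply] at h2
  rw [← h2]
  refine sum_congr rfl fun k _ => ?_
  simp [star_apply]

lemma expand (hA : A.IsHermitian) (v : ι → ℝ) :
    v = ∑ k ∈ range (Fintype.card ι), (vec A k ⬝ᵥ v) • vec A k := by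
  funext i
  rw [Finset.sum_apply]
  simp only [Pi.smul_apply, smul_eq_mul, dotProduct, sum_mul]
  rw [sum_comm]
  have : ∀ j, ∑ k ∈ range (Fintype.card ι), vec A k j * v j * vec A k i =
      v j * if j = i then 1 else 0 := by
    intro j
    rw [← sum_vec_mul hA j i, mul_sum]
    exact sum_congr rfl fun k _ => by ring
  simp [this]

/-- Parseval -/
lemma dot_eq (hA : A.IsHermitian) (u v : ι → ℝ) :
    u ⬝ᵥ v = ∑ k ∈ range (Fintype.card ι), (vec A k ⬝ᵥ u) * (vec A k ⬝ᵥ v) := by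
  conv_lhs => rw [expand hA u]
  rw [sum_dotProduct]
  exact sum_congr rfl fun k _ => by rw [smul_dotProduct, smul_eq_mul]

lemma vec_dot_mulVec (hA : A.IsHermitian) (k : ℕ) (v : ι → ℝ) :
    vec A k ⬝ᵥ A *ᵥ v = lam A k * (vec A k ⬝ᵥ v) := by
  rw [dot_symm hA, mulVec_vec hA, dotProduct_smul, smul_eq_mul, dotProduct_comm]

lemma quad_eq (hA : A.IsHermitian) (u v : ι → ℝ) :
    u ⬝ᵥ A *ᵥ v = ∑ k ∈ range (Fintype.card ι), lam A k * ((vec A k ⬝ᵥ u) * (vec A k ⬝ᵥ v)) := by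
  rw [dot_eq hA]
  exact sum_congr rfl fun k _ => by rw [vec_dot_mulVec hA]; ring


/-- spectral decomposition of the entries -/
lemma entry_eq (hA : A.IsHermitian) (i j : ι) :
    A i j = ∑ k ∈ range (Fintype.card ι), lam A k * (vec A k i * vec A k j) := by
  have := quad_eq hA (Pi.single i 1) (Pi.single j 1)
  simpa using this

lemma sum_vec_sq (hA : A.IsHermitian) {k : ℕ} (hk : k < Fintype.card ι) :
    ∑ i, vec A k i * vec A k i = 1 := vec_dot_self hA hk

lemma trace_eq (hA : A.IsHermitian) : A.trace = ∑ k ∈ range (Fintype.card ι), lam A k := by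
  rw [sum_range_eq hA (fun x _ => x), hA.trace_eq_sum_eigenvalues]
  simp

lemma pow_mulVec_vec (hA : A.IsHermitian) (p k : ℕ) :
    (A ^ p) *ᵥ vec A k = lam A k ^ p • vec A k := by
  induction p with
  | zero => simp
  | succ p ih => rw [pow_succ, ← mulVec_mulVec, mulVec_vec hA, mulVec_smul, ih, smul_smul, pow_succ']

/-- the trace in the eigenbasis of `A` -/
lemma trace_eq_sum_quad (hA : A.IsHermitian) (M : Matrix ι ι ℝ) :
    M.trace = ∑ k ∈ range (Fintype.card ι), vec A k ⬝ᵥ M *ᵥ vec A k := by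
  simp only [dotProduct, mulVec, mul_sum]
  rw [sum_comm]
  simp only [trace, diag_apply]
  refine sum_congr rfl fun i _ => ?_
  rw [sum_comm]
  have : ∀ j, ∑ k ∈ range (Fintype.card ι), vec A k i * (M i j * vec A k j) =
      M i j * if i = j then 1 else 0 := by
    intro j
    rw [← sum_vec_mul hA i j, mul_sum]
    exact sum_congr rfl fun k _ => by ring
  simp [this]

lemma trace_pow (hA : A.IsHermitian) (p : ℕ) :
    (A ^ p).trace = ∑ k ∈ range (Fintype.card ι), lam A k ^ p := by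
  rw [trace_eq_sum_quad hA]
  refine sum_congr rfl fun k hk => ?_
  rw [pow_mulVec_vec hA, dotProduct_smul, vec_dot_self hA (mem_range.1 hk), smul_eq_mul, mul_one]

/-- Frobenius norm -/
lemma sum_lam_sq (hA : A.IsHermitian) :
    ∑ k ∈ range (Fintype.card ι), lam A k ^ 2 = ∑ i, ∑ j, A i j ^ 2 := by
  rw [← trace_pow hA, sq]
  simp only [trace, diag_apply, mul_apply]
  refine sum_congr rfl fun i _ => sum_congr rfl fun j _ => ?_
  rw [herm_apply hA j i, sq]

/-! ### Courant–Fischer -/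

lemma dot_self_nonneg (v : ι → ℝ) : 0 ≤ v ⬝ᵥ v := sum_nonneg fun i _ => mul_self_nonneg (v i)

lemma dot_self_pos {v : ι → ℝ} (hv : v ≠ 0) : 0 < v ⬝ᵥ v :=
  lt_of_le_of_ne (dot_self_nonneg v) fun h => hv (dotProduct_self_eq_zero.1 h.symm)

/-- on the orthogonal complement of the first `k` eigenvectors the form is `≤ lam A k` -/
lemma quad_le_of_perp (hA : A.IsHermitian) {k : ℕ} {v : ι → ℝ}
    (hv : ∀ j < k, vec A j ⬝ᵥ v = 0) : v ⬝ᵥ A *ᵥ v ≤ lam A k * (v ⬝ᵥ v) := by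
  rw [quad_eq hA, dot_eq hA v v, mul_sum]
  refine sum_le_sum fun j hj => ?_
  rcases lt_or_ge j k with h | h
  · simp [hv j h]
  · exact mul_le_mul_of_nonneg_right (lam_anti hA h (mem_range.1 hj)) (mul_self_nonneg _)

/-- on the span of the first `k + 1` eigenvectors the form is `≥ lam A k` -/
lemma le_quad_of_perp (hA : A.IsHermitian) {k : ℕ} (hk : k < Fintype.card ι) {v : ι → ℝ}
    (hv : ∀ j, k < j → vec A j ⬝ᵥ v = 0) : lam A k * (v ⬝ᵥ v) ≤ v ⬝ᵥ A *ᵥ v := by
  rw [quad_eq hA, dot_eq hA v v, mul_sum]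
  refine sum_le_sum fun j _ => ?_
  rcases lt_or_ge k j with h | h
  · simp [hv j h]
  · exact mul_le_mul_of_nonneg_right (lam_anti hA h hk) (mul_self_nonneg _)

lemma quad_le_top (hA : A.IsHermitian) (v : ι → ℝ) : v ⬝ᵥ A *ᵥ v ≤ lam A 0 * (v ⬝ᵥ v) :=
  quad_le_of_perp hA fun j hj => absurd hj (Nat.not_lt_zero j)


lemma quad_vec (hA : A.IsHermitian) {k : ℕ} (hk : k < Fintype.card ι) :
    vec A k ⬝ᵥ A *ᵥ vec A k = lam A k := by
  rw [vec_dot_mulVec hA, vec_dot_self hA hk, mul_one]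

/-- `W` has codimension at most `k` -/
def Cod (W : Submodule ℝ (ι → ℝ)) (k : ℕ) : Prop := Fintype.card ι ≤ finrank ℝ W + k

lemma Cod.mono {W : Submodule ℝ (ι → ℝ)} {k l : ℕ} (h : Cod W k) (hkl : k ≤ l) : Cod W l := by
  unfold Cod at *; omega

lemma Cod.inf {V W : Submodule ℝ (ι → ℝ)} {k l : ℕ} (hV : Cod V k) (hW : Cod W l) :
    Cod (V ⊓ W) (k + l) := by
  unfold Cod at *
  have h1 := Submodule.finrank_sup_add_finrank_inf_eq V W
  have h2 : finrank ℝ ↥(V ⊔ W) ≤ Fintype.card ι := by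
    simpa using Submodule.finrank_le (V ⊔ W)
  omega

lemma Cod.exists_ne_zero {W : Submodule ℝ (ι → ℝ)} {k : ℕ} (h : Cod W k)
    (hk : k < Fintype.card ι) : ∃ v ∈ W, v ≠ 0 := by
  refine Submodule.exists_mem_ne_zero_of_ne_bot fun hW => ?_
  unfold Cod at h
  rw [hW, finrank_bot] at h
  omega

lemma cod_top : Cod (⊤ : Submodule ℝ (ι → ℝ)) 0 := by simp [Cod]

lemma cod_ker {M : Type*} [AddCommGroup M] [Module ℝ M] (f : (ι → ℝ) →ₗ[ℝ] M) :
    Cod (LinearMap.ker f) (finrank ℝ (LinearMap.range f)) := by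
  have := f.finrank_range_add_finrank_ker
  unfold Cod
  simp only [finrank_fintype_fun_eq_card] at this
  omega

lemma cod_ker_rank {μ : Type*} [Fintype μ] (M : Matrix μ ι ℝ) :
    Cod (LinearMap.ker M.mulVecLin) M.rank := cod_ker _

/-- the vectors orthogonal to a finite family -/
def perp {σ : Type*} (s : Finset σ) (u : σ → ι → ℝ) : Submodule ℝ (ι → ℝ) where
  carrier := {v | ∀ j ∈ s, u j ⬝ᵥ v = 0}
  add_mem' := fun ha hb j hj => by rw [dotProduct_add, ha j hj, hb j hj, add_zero]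
  zero_mem' := fun j _ => by simp
  smul_mem' := fun c v hv j hj => by rw [dotProduct_smul, hv j hj, smul_zero]

lemma mem_perp {σ : Type*} {s : Finset σ} {u : σ → ι → ℝ} {v : ι → ℝ} :
    v ∈ perp s u ↔ ∀ j ∈ s, u j ⬝ᵥ v = 0 := Iff.rfl

lemma cod_perp {σ : Type*} (s : Finset σ) (u : σ → ι → ℝ) : Cod (perp s u) s.card := by
  classical
  let M : Matrix s ι ℝ := Matrix.of fun j i => u j i
  have h := cod_ker_rank M
  have he : LinearMap.ker M.mulVecLin = perp s u := by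
    ext v
    rw [LinearMap.mem_ker, mem_perp, mulVecLin_apply]
    constructor
    · intro h j hj; exact congrFun h ⟨j, hj⟩
    · intro h; funext j; exact h j j.2
  rw [he] at h
  refine h.mono ?_
  simpa using M.rank_le_card_height

/-- the span of the eigenvectors `k, k+1, …` -/
def low (A : Matrix ι ι ℝ) (k : ℕ) : Submodule ℝ (ι → ℝ) := perp (range k) (vec A)
/-- the span of the eigenvectors `0, …, k` -/
def high (A : Matrix ι ι ℝ) (k : ℕ) : Submodule ℝ (ι → ℝ) :=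
  perp (Ioo k (Fintype.card ι)) (vec A)

lemma cod_low (A : Matrix ι ι ℝ) (k : ℕ) : Cod (low A k) k := by
  simpa [low] using cod_perp (range k) (vec A)

lemma cod_high (A : Matrix ι ι ℝ) (k : ℕ) : Cod (high A k) (Fintype.card ι - k - 1) := by
  simpa [high] using cod_perp (Ioo k (Fintype.card ι)) (vec A)

lemma quad_le_of_low (hA : A.IsHermitian) {k : ℕ} {v : ι → ℝ} (hv : v ∈ low A k) :
    v ⬝ᵥ A *ᵥ v ≤ lam A k * (v ⬝ᵥ v) :=
  quad_le_of_perp hA fun j hj => hv j (mem_range.2 hj)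

lemma le_quad_of_high (hA : A.IsHermitian) {k : ℕ} (hk : k < Fintype.card ι) {v : ι → ℝ}
    (hv : v ∈ high A k) : lam A k * (v ⬝ᵥ v) ≤ v ⬝ᵥ A *ᵥ v := by
  refine le_quad_of_perp hA hk fun j hj => ?_
  by_cases h : j < Fintype.card ι
  · exact hv j (mem_Ioo.2 ⟨hj, h⟩)
  · rw [vec_of_le (not_lt.1 h)]; simp

/-- **Courant–Fischer**, upper bound -/
theorem lam_le (hA : A.IsHermitian) {k : ℕ} (hk : k < Fintype.card ι) {W : Submodule ℝ (ι → ℝ)}
    (hW : Cod W k) {x : ℝ} (h : ∀ v ∈ W, v ⬝ᵥ A *ᵥ v ≤ x * (v ⬝ᵥ v)) : lam A k ≤ x := by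
  obtain ⟨v, hv, hv0⟩ := (hW.inf (cod_high A k)).exists_ne_zero (by omega)
  exact le_of_mul_le_mul_right ((le_quad_of_high hA hk hv.2).trans (h v hv.1)) (dot_self_pos hv0)

/-- **Courant–Fischer**, lower bound -/
theorem le_lam (hA : A.IsHermitian) {k : ℕ} {V : Submodule ℝ (ι → ℝ)}
    (hV : k < finrank ℝ V) {x : ℝ} (h : ∀ v ∈ V, x * (v ⬝ᵥ v) ≤ v ⬝ᵥ A *ᵥ v) : x ≤ lam A k := by
  have h2 : finrank ℝ V ≤ Fintype.card ι := by simpa using Submodule.finrank_le V
  have hc : Cod V (Fintype.card ι - k - 1) := by unfold Cod; omega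
  obtain ⟨v, hv, hv0⟩ := (hc.inf (cod_low A k)).exists_ne_zero (by omega)
  exact le_of_mul_le_mul_right ((h v hv.1).trans (quad_le_of_low hA hv.2)) (dot_self_pos hv0)

theorem le_lam_of_cod (hA : A.IsHermitian) {k : ℕ} (hk : k < Fintype.card ι)
    {V : Submodule ℝ (ι → ℝ)} (hV : Cod V (Fintype.card ι - k - 1)) {x : ℝ}
    (h : ∀ v ∈ V, x * (v ⬝ᵥ v) ≤ v ⬝ᵥ A *ᵥ v) : x ≤ lam A k :=
  le_lam hA (by unfold Cod at hV; omega) h

/-- upper bound from a family of at most `k` test vectors -/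
theorem lam_le_of_perp (hA : A.IsHermitian) {k : ℕ} (hk : k < Fintype.card ι) {σ : Type*}
    (s : Finset σ) (u : σ → ι → ℝ) (hs : s.card ≤ k) {x : ℝ}
    (h : ∀ v : ι → ℝ, (∀ j ∈ s, u j ⬝ᵥ v = 0) → v ⬝ᵥ A *ᵥ v ≤ x * (v ⬝ᵥ v)) : lam A k ≤ x :=
  lam_le hA hk ((cod_perp s u).mono hs) h


theorem lam_zero_le_of_unit (hA : A.IsHermitian) (h0 : 0 < Fintype.card ι) {x : ℝ}
    (h : ∀ v : ι → ℝ, v ⬝ᵥ v = 1 → v ⬝ᵥ A *ᵥ v ≤ x) : lam A 0 ≤ x := by
  rw [← quad_vec hA h0]; exact h _ (vec_dot_self hA h0)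

theorem quad_le_of_unit (hA : A.IsHermitian) {v : ι → ℝ} (hv : v ⬝ᵥ v = 1) :
    v ⬝ᵥ A *ᵥ v ≤ lam A 0 := by simpa [hv] using quad_le_top hA v

/-! ### Weyl inequalities and perturbations -/

/-- comparison on a subspace of codimension `r` -/
theorem lam_le_of_cod (hA : A.IsHermitian) (hB : B.IsHermitian) {W : Submodule ℝ (ι → ℝ)}
    {r k : ℕ} (hW : Cod W r) (hk : k + r < Fintype.card ι) {c : ℝ}
    (h : ∀ v ∈ W, v ⬝ᵥ A *ᵥ v ≤ v ⬝ᵥ B *ᵥ v + c * (v ⬝ᵥ v)) : lam A (k + r) ≤ lam B k + c := by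
  refine lam_le hA hk ((cod_low B k).inf hW) fun v hv => ?_
  have := quad_le_of_low hB hv.1
  have := h v hv.2
  linarith [add_mul (lam B k) c (v ⬝ᵥ v)]

theorem lam_le_add (hA : A.IsHermitian) (hB : B.IsHermitian) {k : ℕ} (hk : k < Fintype.card ι)
    {c : ℝ} (h : ∀ v : ι → ℝ, v ⬝ᵥ A *ᵥ v ≤ v ⬝ᵥ B *ᵥ v + c * (v ⬝ᵥ v)) :
    lam A k ≤ lam B k + c :=
  lam_le_of_cod (r := 0) hA hB cod_top hk fun v _ => h v

/-- monotonicity in the Loewner order -/
theorem lam_mono (hA : A.IsHermitian) (hB : B.IsHermitian)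
    (h : ∀ v : ι → ℝ, v ⬝ᵥ A *ᵥ v ≤ v ⬝ᵥ B *ᵥ v) (k : ℕ) : lam A k ≤ lam B k := by
  by_cases hk : k < Fintype.card ι
  · simpa using lam_le_add hA hB hk (c := 0) (by simpa using h)
  · rw [lam_of_le (not_lt.1 hk), lam_of_le (not_lt.1 hk)]




lemma herm_smul (hA : A.IsHermitian) (c : ℝ) : (c • A).IsHermitian := by
  rw [herm_iff] at *; rw [transpose_smul, hA]

lemma herm_add_smul_one (hA : A.IsHermitian) (c : ℝ) : (A + c • (1 : Matrix ι ι ℝ)).IsHermitian :=
  hA.add (herm_smul isHermitian_one c)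

theorem lam_add_smul_one (hA : A.IsHermitian) (c : ℝ) {k : ℕ} (hk : k < Fintype.card ι) :
    lam (A + c • (1 : Matrix ι ι ℝ)) k = lam A k + c := by
  have e : ∀ v : ι → ℝ, v ⬝ᵥ (A + c • (1 : Matrix ι ι ℝ)) *ᵥ v = v ⬝ᵥ A *ᵥ v + c * (v ⬝ᵥ v) := by
    intro v; rw [add_mulVec, dotProduct_add, smul_mulVec, one_mulVec, dotProduct_smul, smul_eq_mul]
  refine le_antisymm (lam_le_add (herm_add_smul_one hA c) hA hk fun v => (e v).le) ?_
  have := lam_le_add hA (herm_add_smul_one hA c) hk (c := -c) fun v => by rw [e v]; linarith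
  linarith

theorem lam_smul (hA : A.IsHermitian) {c : ℝ} (hc : 0 ≤ c) (k : ℕ) :
    lam (c • A) k = c * lam A k := by
  by_cases hk : k < Fintype.card ι
  swap
  · rw [lam_of_le (not_lt.1 hk), lam_of_le (not_lt.1 hk), mul_zero]
  have e : ∀ v : ι → ℝ, v ⬝ᵥ (c • A) *ᵥ v = c * (v ⬝ᵥ A *ᵥ v) := by
    intro v; rw [smul_mulVec, dotProduct_smul, smul_eq_mul]
  refine le_antisymm (lam_le (herm_smul hA c) hk (cod_low A k) fun v hv => ?_)
    (le_lam_of_cod (herm_smul hA c) hk (cod_high A k) fun v hv => ?_)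
  · rw [e, mul_assoc]; exact mul_le_mul_of_nonneg_left (quad_le_of_low hA hv) hc
  · rw [e, mul_assoc]; exact mul_le_mul_of_nonneg_left (le_quad_of_high hA hk hv) hc

theorem lam_neg (hA : A.IsHermitian) {k : ℕ} (hk : k < Fintype.card ι) :
    lam (-A) k = -lam A (Fintype.card ι - 1 - k) := by
  have e : ∀ v : ι → ℝ, v ⬝ᵥ (-A) *ᵥ v = -(v ⬝ᵥ A *ᵥ v) := by
    intro v; rw [neg_mulVec, dotProduct_neg]
  have hk' : Fintype.card ι - 1 - k < Fintype.card ι := by omega
  refine le_antisymm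
    (lam_le hA.neg hk ((cod_high A (Fintype.card ι - 1 - k)).mono (by omega)) fun v hv => ?_)
    (le_lam_of_cod hA.neg hk ((cod_low A (Fintype.card ι - 1 - k)).mono (by omega)) fun v hv => ?_)
  · rw [e]; linarith [le_quad_of_high hA hk' hv]
  · rw [e]; linarith [quad_le_of_low hA hv]


/-! ### compressions and Cauchy interlacing -/

lemma herm_compress (hA : A.IsHermitian) (Q : Matrix ι κ ℝ) : (Qᵀ * A * Q).IsHermitian := by
  rw [herm_iff] at *
  rw [transpose_mul, transpose_mul, transpose_transpose, hA, Matrix.mul_assoc]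

lemma quad_compress (Q : Matrix ι κ ℝ) (u v : κ → ℝ) :
    u ⬝ᵥ (Qᵀ * A * Q) *ᵥ v = (Q *ᵥ u) ⬝ᵥ A *ᵥ (Q *ᵥ v) := by
  rw [← mulVec_mulVec, ← mulVec_mulVec, dotProduct_mulVec, vecMul_transpose]

lemma dot_isom {Q : Matrix ι κ ℝ} (hQ : Qᵀ * Q = 1) (u v : κ → ℝ) :
    (Q *ᵥ u) ⬝ᵥ (Q *ᵥ v) = u ⬝ᵥ v := by
  have := quad_compress (A := (1 : Matrix ι ι ℝ)) Q u v
  rw [Matrix.mul_one, hQ, one_mulVec, one_mulVec] at this
  exact this.symm

lemma finrank_map_isom {Q : Matrix ι κ ℝ} (hQ : Qᵀ * Q = 1) (V : Submodule ℝ (κ → ℝ)) :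
    finrank ℝ (V.map Q.mulVecLin) = finrank ℝ V := by
  have hi : Function.Injective Q.mulVecLin := by
    intro u v h
    have := congrArg (Qᵀ *ᵥ ·) h
    simpa [mulVec_mulVec, hQ] using this
  exact (Submodule.equivMapOfInjective _ hi V).finrank_eq.symm

lemma card_le_of_isom {Q : Matrix ι κ ℝ} (hQ : Qᵀ * Q = 1) : Fintype.card κ ≤ Fintype.card ι := by
  have h1 := finrank_map_isom hQ ⊤
  have h2 := Submodule.finrank_le ((⊤ : Submodule ℝ (κ → ℝ)).map Q.mulVecLin)
  simp only [finrank_top, finrank_fintype_fun_eq_card] at h1 h2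
  omega

/-- **Cauchy interlacing**, upper half -/
theorem lam_compress_le (hA : A.IsHermitian) {Q : Matrix ι κ ℝ} (hQ : Qᵀ * Q = 1) {k : ℕ}
    (hk : k < Fintype.card κ) : lam (Qᵀ * A * Q) k ≤ lam A k := by
  refine le_lam hA (V := (high (Qᵀ * A * Q) k).map Q.mulVecLin) ?_ ?_
  · rw [finrank_map_isom hQ]
    have := cod_high (Qᵀ * A * Q) k
    unfold Cod at this; omega
  · rintro _ ⟨u, hu, rfl⟩
    rw [mulVecLin_apply, dot_isom hQ, ← quad_compress]
    exact le_quad_of_high (herm_compress hA Q) hk hu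

/-- **Cauchy interlacing**, lower half -/
theorem le_lam_compress (hA : A.IsHermitian) {Q : Matrix ι κ ℝ} (hQ : Qᵀ * Q = 1) {k : ℕ}
    (hk : k < Fintype.card κ) :
    lam A (k + (Fintype.card ι - Fintype.card κ)) ≤ lam (Qᵀ * A * Q) k := by
  have hc := card_le_of_isom hQ
  refine lam_le hA (by omega) (W := (low (Qᵀ * A * Q) k).map Q.mulVecLin) ?_ ?_
  · have := cod_low (Qᵀ * A * Q) k
    unfold Cod at this ⊢
    rw [finrank_map_isom hQ]; omega
  · rintro _ ⟨u, hu, rfl⟩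
    rw [mulVecLin_apply, dot_isom hQ, ← quad_compress]
    exact quad_le_of_low (herm_compress hA Q) hu

/-- orthogonal invariance (also across index types of the same size) -/
theorem lam_conj (hA : A.IsHermitian) {Q : Matrix ι κ ℝ} (hQ : Qᵀ * Q = 1)
    (hc : Fintype.card κ = Fintype.card ι) (k : ℕ) : lam (Qᵀ * A * Q) k = lam A k := by
  by_cases hk : k < Fintype.card κ
  · refine le_antisymm (lam_compress_le hA hQ hk) ?_
    simpa [hc] using le_lam_compress hA hQ hk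
  · rw [lam_of_le (not_lt.1 hk), lam_of_le (hc ▸ not_lt.1 hk)]

/-- the coordinate embedding of an injection -/
def emb (e : κ → ι) : Matrix ι κ ℝ := Matrix.of fun i a => if i = e a then 1 else 0

lemma emb_compress (e : κ → ι) (A : Matrix ι ι ℝ) : (emb e)ᵀ * A * emb e = A.submatrix e e := by
  ext a b
  simp [emb, mul_apply]

lemma emb_isom {e : κ → ι} (he : Function.Injective e) : (emb e)ᵀ * emb e = 1 := by
  have := emb_compress e (1 : Matrix ι ι ℝ)
  rw [Matrix.mul_one] at this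
  rw [this, submatrix_one e he]




/-! ### the counting function -/

lemma cnt_le_card (A : Matrix ι ι ℝ) (x : ℝ) : cnt A x ≤ Fintype.card ι := by
  simpa [cnt] using card_filter_le (range (Fintype.card ι)) fun k => x ≤ lam A k

theorem lt_cnt_iff (hA : A.IsHermitian) {x : ℝ} {k : ℕ} :
    k < cnt A x ↔ k < Fintype.card ι ∧ x ≤ lam A k := by
  constructor
  · intro h
    have hk := lt_of_lt_of_le h (cnt_le_card A x)
    refine ⟨hk, by_contra fun hx => ?_⟩
    have : ((range (Fintype.card ι)).filter fun k => x ≤ lam A k) ⊆ range k := by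
      intro j hj
      rw [mem_filter, mem_range] at hj
      exact mem_range.2 (by_contra fun hjk => hx (hj.2.trans (lam_anti hA (not_lt.1 hjk) hj.1)))
    have := card_le_card this
    rw [card_range] at this
    exact absurd h (not_lt.2 this)
  · rintro ⟨hk, hx⟩
    have : range (k + 1) ⊆ (range (Fintype.card ι)).filter fun k => x ≤ lam A k := by
      intro j hj
      have := mem_range.1 hj
      exact mem_filter.2 ⟨mem_range.2 (by omega), hx.trans (lam_anti hA (by omega) hk)⟩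
    have := card_le_card this
    rw [card_range] at this
    exact this

theorem cnt_le_iff (hA : A.IsHermitian) {x : ℝ} {k : ℕ} (hk : k < Fintype.card ι) :
    cnt A x ≤ k ↔ lam A k < x := by
  rw [← not_lt, lt_cnt_iff hA]; simp [hk]


lemma cnt_eq_sum (A : Matrix ι ι ℝ) (x : ℝ) :
    (cnt A x : ℝ) = ∑ k ∈ range (Fintype.card ι), if x ≤ lam A k then 1 else 0 := by
  simp [cnt]

lemma cnt_anti (A : Matrix ι ι ℝ) {x y : ℝ} (h : x ≤ y) : cnt A y ≤ cnt A x :=
  card_le_card fun k hk => by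
    rw [mem_filter] at *; exact ⟨hk.1, h.trans hk.2⟩






end Crest.Agent.T157.Eig

end
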