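import Crest.Agent.T157.CnDef_63
import Crest.Agent.T157.CnTopB_63
import Crest.Agent.T157.Q1G_63
import Crest.Agent.T157.CqDef_72
import Crest.Agent.T157.StAll_87
import Mathlib.Analysis.Convex.PartitionOfUnity
import Crest.Agent.T157.StB_87
import Crest.Agent.T157.ChainPoi_22
import Crest.Agent.T157.StIso_42
import Crest.Agent.T157.UnI_81
import Crest.Agent.T157.CqTopA_72
import Crest.Agent.T157.StA_87
import Crest.Agent.T157.KrA_53
import Crest.Agent.T157.ChainSp_22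
import Crest.Agent.T157.Eig_84
import Crest.Agent.T157.ChainHB_22
import Crest.Agent.T157.StLnk_10
import Crest.Agent.T157.GoeT_48

-- ▼ part T157/CnFro_22
section

/-!
# Row 157, part C (helper22): the frozen regime for coins
-/

set_option autoImplicit false

noncomputable section

namespace Crest.Agent.T157.Cn

open MeasureTheory Set Matrix Real Filter
open Crest.ProbabilityR.SpinGlassDynamics
open Crest.Agent.T157.E Crest.Agent.T157.Eig Crest.Agent.T157.Top Crest.Agent.T157.Tap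

variable {n : ℕ}

namespace Fro22

theorem whp_sq : Whp (couplingLaw true) fun n g => ∀ i j, Jmat n g i j ^ 2 ≤ 1 / n := by
  have h : ∀ᵐ x ∂entryLaw true, x ^ 2 = 1 := by
    change ∀ᵐ x ∂coin, x ^ 2 = 1
    rw [ae_add_measure_iff]
    exact ⟨Measure.ae_smul_measure (by simp) _, Measure.ae_smul_measure (by simp) _⟩
  have h0 : ∀ n, couplingLaw true n {g | ¬ ∀ i j, Jmat n g i j ^ 2 ≤ 1 / n} = 0 := fun n => by
    have h2 : ∀ᵐ g ∂(Measure.pi fun _ : Pair n => entryLaw true), ∀ p, g p ^ 2 = 1 :=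
      ae_all_iff.2 fun p =>
        (measurePreserving_eval (fun _ : Pair n => entryLaw true) p).quasiMeasurePreserving.ae h
    rw [couplingLaw_eq, ← ae_iff]
    filter_upwards [h2] with g hg i j
    unfold Jmat
    split_ifs
    · rw [div_pow, hg, sq_sqrt (Nat.cast_nonneg n)]
    · rw [div_pow, hg, sq_sqrt (Nat.cast_nonneg n)]
    · simp
  simp only [Whp, h0]
  exact tendsto_const_nhds

theorem v_mul_le (x : ℝ) : (1 - tanh x ^ 2) * x ^ 2 ≤ 1 := by
  have hc := cosh_pos x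
  have h1 : x ^ 2 ≤ sinh x ^ 2 := by
    rw [sq_le_sq, abs_sinh]
    exact self_le_sinh_iff.2 (abs_nonneg x)
  have h2 : 1 - tanh x ^ 2 = 1 / cosh x ^ 2 := by
    rw [tanh_eq_sinh_div_cosh]; field_simp; rw [cosh_sq]; ring
  rw [h2, div_mul_eq_mul_div, one_mul, div_le_one (by positivity), cosh_sq]
  linarith

theorem v_nonneg (x : ℝ) : 0 ≤ 1 - tanh x ^ 2 := by
  have := abs_tanh_lt_one x
  rw [sub_nonneg, sq_le_one_iff_abs_le_one]; exact this.le

theorem v_le {T s a h : ℝ} (hs : s ^ 2 = 1) :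
    (1 - tanh (h + (T * s + a)) ^ 2) * T ^ 2 ≤ 2 + 4 * a ^ 2 + 4 * h ^ 2 := by
  set x := h + (T * s + a) with hx
  have h1 := v_mul_le x
  have h2 := v_nonneg x
  have h3 : 1 - tanh x ^ 2 ≤ 1 := by nlinarith [sq_nonneg (tanh x)]
  have h4 : T ^ 2 ≤ 2 * x ^ 2 + (4 * a ^ 2 + 4 * h ^ 2) := by
    have : T ^ 2 = (x - (a + h)) ^ 2 := by rw [hx]; linear_combination -T ^ 2 * hs
    nlinarith [sq_nonneg (x + (a + h)), sq_nonneg (a - h)]
  nlinarith [mul_le_mul_of_nonneg_left h4 h2,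
    mul_le_mul_of_nonneg_right h3 (by positivity : 0 ≤ 4 * a ^ 2 + 4 * h ^ 2)]

theorem avg_le (hn : 0 < n) {J : Mx n} (hJ : opn J ≤ 3) {T η : ℝ} (hT : 0 < T) (hη : 0 ≤ η)
    {σ : Cube n} {y : V n} (hy : nrm (y - T • sv σ) ≤ η * T * √n) (x : Cube n) :
    avg (vS J y x) ≤ 38 / T ^ 2 + 4 * η ^ 2 := by
  have hn' : (0 : ℝ) < n := by exact_mod_cast hn
  set a := y - T • sv σ with ha
  set h := J *ᵥ sv x with hh
  have h1 : a ⬝ᵥ a ≤ (η * T) ^ 2 * n := by
    have := (nrm_le_iff (by positivity)).1 hy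
    rwa [mul_pow, sq_sqrt hn'.le] at this
  have h2 : h ⬝ᵥ h ≤ 9 * n := by
    have h3 : nrm h ≤ 3 * √n := (nrm_mulVec_le _ _).trans (by
      rw [nrm, sv_dot_self]; exact mul_le_mul_of_nonneg_right hJ (sqrt_nonneg _))
    have := (nrm_le_iff (by positivity)).1 h3
    rwa [mul_pow, sq_sqrt hn'.le, show (3 : ℝ) ^ 2 = 9 by norm_num] at this
  have h4 : ∀ i, vS J y x i * T ^ 2 ≤ 2 + 4 * (a i * a i) + 4 * (h i * h i) := fun i => by
    have := v_le (T := T) (a := a i) (h := h i) (spin_sq (σ i))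
    have e : (J *ᵥ sv x + y) i = h i + (T * spin (σ i) + a i) := by simp [ha, hh, sv]
    rw [vS, e]; nlinarith
  have h5 := Finset.sum_le_sum fun i (_ : i ∈ Finset.univ) => h4 i
  rw [← Finset.sum_mul, Finset.sum_add_distrib, Finset.sum_add_distrib, ← Finset.mul_sum,
    ← Finset.mul_sum] at h5
  simp only [Finset.sum_const, Finset.card_univ, Fintype.card_fin, nsmul_eq_mul] at h5
  change _ ≤ _ + 4 * (a ⬝ᵥ a) + 4 * (h ⬝ᵥ h) at h5
  rw [avg, div_le_iff₀ hn', ← mul_le_mul_iff_left₀ (pow_pos hT 2)]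
  have e : (38 / T ^ 2 + 4 * η ^ 2) * n * T ^ 2 = 38 * n + 4 * ((η * T) ^ 2 * n) := by
    field_simp
  rw [e]; linarith

theorem quad_le {W : Mx n} {ε : ℝ} (hF : Frz W ε) {t : ℝ} (ht : t ∈ Icc (0 : ℝ) 1) {v : V n}
    (h0 : ∀ i, 0 ≤ v i) (h1 : ∀ i, v i ≤ 1) (hv : avg v ≤ ε) (u : V n) :
    (fun i => √(v i) * u i) ⬝ᵥ ((1 - t) • W) *ᵥ (fun i => √(v i) * u i) ≤ 1 / 8 * (u ⬝ᵥ u) := by
  have h2 := hF (fun i => √(v i)) (fun i => ⟨sqrt_nonneg _, sqrt_le_one.2 (h1 i)⟩)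
    (by simpa only [sq_sqrt (h0 _)] using hv)
  have h3 := ((le_abs_self _).trans (abs_quad_le _ u)).trans
    (mul_le_mul_of_nonneg_right h2 (dot_self_nonneg u))
  have e : u ⬝ᵥ (diagonal (fun i => √(v i)) * W * diagonal fun i => √(v i)) *ᵥ u =
      (fun i => √(v i) * u i) ⬝ᵥ W *ᵥ fun i => √(v i) * u i := by
    rw [← mulVec_mulVec, ← mulVec_mulVec, dotProduct_mulVec u]
    congr 1
    · ext i; rw [vecMul_diagonal, mul_comm]
    · congr 1; ext i; rw [mulVec_diagonal]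
  rw [e] at h3
  rw [smul_mulVec, dotProduct_smul, smul_eq_mul]
  have h4 := dot_self_nonneg u
  nlinarith [ht.1, ht.2, mul_le_mul_of_nonneg_left h3 (sub_nonneg.2 ht.2)]

end Fro22

open Fro22

theorem froGlue : FroGlue := by
  rintro ⟨ε₁, hε₁, n₀, hB⟩ ⟨ε₂, hε₂, hF⟩ hO
  obtain ⟨η, hη, hη1, hη2⟩ : ∃ η : ℝ, 0 < η ∧ η ≤ 1 ∧ 8 * η ≤ min ε₁ ε₂ :=
    ⟨min 1 (min ε₁ ε₂ / 8), by positivity, min_le_left _ _, by
      linarith [min_le_right 1 (min ε₁ ε₂ / 8)]⟩
  have hT : 0 < 48 / η ^ 2 := by positivity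
  have hTη : η ^ 2 * (48 / η ^ 2) = 48 := by field_simp
  set T := 48 / η ^ 2
  have hη3 : η ^ 2 ≤ η := by nlinarith
  have h48 : 48 ≤ η * T := by nlinarith
  have hav : 38 / T ^ 2 + 4 * η ^ 2 ≤ min ε₁ ε₂ := by
    have : 38 / T ^ 2 ≤ η ^ 2 := by
      rw [div_le_iff₀ (by positivity)]; nlinarith
    linarith
  refine ⟨T, hT, η, 2, by norm_num, h48, by linarith, ((hF.and hO).and whp_sq).mono ?_⟩
  filter_upwards [eventually_ge_atTop n₀, eventually_gt_atTop 0] with n hn hn0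
  rintro g ⟨⟨hF, hO⟩, hs⟩ t ht σ y hy u
  have ht1 : |1 - t| ≤ 1 := abs_le.2 ⟨by linarith [ht.2], by linarith [ht.1]⟩
  have hO' : opn ((1 - t) • Jmat n g) ≤ 3 := by
    rw [opn_smul]; exact (mul_le_of_le_one_left (opn_nonneg _) ht1).trans hO
  have hP := hB n hn ((1 - t) • Jmat n g) y (by rw [transpose_smul, Jmat_transpose])
    (fun i => by simp [Jmat_diag]) (fun i j => by
      rw [Matrix.smul_apply, smul_eq_mul, mul_pow]
      exact (mul_le_of_le_one_left (sq_nonneg _) ((sq_le_one_iff_abs_le_one _).2 ht1)).trans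
        (hs i j)) fun x => by
      have h := (avg_le hn0 hO' hT hη.le hy x).trans hav
      exact ⟨h.trans (min_le_left _ _), quad_le hF ht (fun i => v_nonneg _)
        (fun i => sub_le_self _ (sq_nonneg _)) (h.trans (min_le_right _ _))⟩
  rw [covM, SL.covMat_quad, ← SL.var_eq_cov]
  exact (hP _).trans (mul_le_mul_of_nonneg_left (TopA.dir_lin_le (fun x => exp_pos _) u) zero_le_two)

end Crest.Agent.T157.Cn

end
end

-- ▼ part T157/CnTop_63
section

/-!
# Row 157, part C (helper63): the extensive levels for coins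
-/

set_option autoImplicit false

noncomputable section

namespace Crest.Agent.T157.Cn

open Finset Matrix Real MeasureTheory Filter Topology
open Crest.ProbabilityR.SpinGlassDynamics
open Crest.Agent.T157.E Crest.Agent.T157.SL Crest.Agent.T157.Chain22 Crest.Agent.T157.Un
open Crest.Agent.T157.Q1 Crest.Agent.T157.Soft

variable {n : ℕ} {w : Cube n → ℝ}

theorem DAT.mono {M H M' H' : ℝ} (h : DAT w M H) (hw : ∀ x, 0 < w x) (hM : M ≤ M') (hH : H ≤ H') :
    DAT w M' H' := fun f hf => (h f hf).trans (add_le_add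
  (mul_le_mul_of_nonneg_right hM (sum_nonneg fun i _ => Ent.entS_nonneg hw hf i))
  (mul_le_mul_of_nonneg_right hH ((Wt.of_pos hw).mean_nonneg hf)))

theorem log_SS_le (hn : 2 ≤ n) (hw : ∀ x, 0 < w x) {m M q : ℕ} {L : ℝ} (hL : 2 * n ≤ q * L)
    (h : ∀ x y, KC w m M x y ≤ (n : ℝ) ^ m * exp L * prob w y) : log (SS w m M q) ≤ 2 * (q * L) := by
  have n2 : (2 : ℝ) ≤ n := by exact_mod_cast hn
  have a : ∀ x y, (((n : ℝ) ^ m)⁻¹ * (KC w m M x y * (prob w y)⁻¹)) ^ q ≤ exp (q * L) :=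
    fun x y => by
    have := prob_pos' hw y
    have := KC_nn hw m M x y
    rw [exp_nat_mul]
    refine pow_le_pow_left₀ (by positivity) ?_ q
    rw [← div_eq_inv_mul, ← div_eq_mul_inv, div_div, div_le_iff₀ (by positivity)]
    linarith [h x y]
  have b : (2 : ℝ) ^ n * 2 ^ n * 2 ≤ exp (2 * n) := by
    have : (2 : ℝ) ≤ exp (7 / 10) := by
      rw [← log_le_iff_le_exp two_pos]; linarith [log_two_lt_d9]
    calc _ ≤ exp (7 / 10) ^ n * exp (7 / 10) ^ n * exp (7 / 10) := by gcongr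
      _ ≤ _ := by
        rw [← exp_nat_mul, ← exp_add, ← exp_add]; exact exp_le_exp.2 (by linarith)
  rw [log_le_iff_le_exp (SS_pos hw m M q), two_mul, exp_add, SS]
  have c := sum_le_card_nsmul univ _ _ fun x _ => sum_le_card_nsmul univ _ _ fun y _ => a x y
  simp only [card_univ, Fintype.card_fun, Fintype.card_bool, Fintype.card_fin, nsmul_eq_mul,
    Nat.cast_pow, Nat.cast_ofNat] at c
  have e1 : 1 ≤ exp (q * L) := one_le_exp (by linarith)
  have e2 : (1 : ℝ) ≤ 2 ^ n * 2 ^ n := one_le_mul_of_one_le_of_one_le (one_le_pow₀ one_le_two)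
    (one_le_pow₀ one_le_two)
  nlinarith [mul_le_mul_of_nonneg_right (b.trans (exp_le_exp.2 hL)) (exp_pos (q * L)).le,
    mul_le_mul e2 e1 zero_le_one (by positivity)]

theorem KC_le_of_SS (hn : 0 < n) (hw : ∀ x, 0 < w x) {m M q : ℕ} {L : ℝ} (hq : q ≠ 0)
    (h : log (SS w m M q) ≤ q * L) (x y : Cube n) :
    KC w m M x y ≤ (n : ℝ) ^ m * exp L * prob w y := by
  have p := fun y => prob_pos' hw y
  have k := KC_nn hw m M
  have t : ∀ x y, 0 ≤ (((n : ℝ) ^ m)⁻¹ * (KC w m M x y * (prob w y)⁻¹)) ^ q := fun x y => by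
    have := p y; have := k x y; positivity
  rw [log_le_iff_le_exp (SS_pos hw m M q), exp_nat_mul] at h
  have a := le_of_pow_le_pow_left₀ hq (exp_pos L).le (((single_le_sum (fun y _ => t x y)
    (mem_univ y)).trans ((single_le_sum (fun x _ => sum_nonneg fun y _ => t x y) (mem_univ x)).trans
    (le_add_of_nonneg_left zero_le_one))).trans h)
  have := p y
  rw [← div_eq_inv_mul, ← div_eq_mul_inv, div_div, div_le_iff₀ (by positivity)] at a
  linarith

theorem KC_le_of_ct (n0 : 0 < n) (g : Pair n → ℝ) {k M : ℕ} {H : ℝ} (k0 : 0 < k)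
    (k1 : (k : ℝ) ≤ 2 * n) (hH : 6 * (n : ℝ) ^ 4 ≤ exp H)
    (D : ∀ x y, ctKernel n 1 g k x y ≤ exp H * gibbsProb n 1 g y) (x y : Cube n) :
    KC (gibbsWeight n 1 g) (n * k) M x y ≤
      (n : ℝ) ^ (n * k) * exp (2 * H) * prob (gibbsWeight n 1 g) y := by
  have n1 : (1 : ℝ) ≤ n := by exact_mod_cast n0
  have n4 : (n : ℝ) ≤ (n : ℝ) ^ 4 := le_self_pow₀ n1 (by norm_num)
  have e1 : exp 1 * √((n * k : ℕ) : ℝ) ≤ exp H := by
    have s : √((n * k : ℕ) : ℝ) ≤ 2 * n := sqrt_le_iff.2 ⟨by positivity, by push_cast; nlinarith⟩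
    nlinarith [exp_one_lt_three, sqrt_nonneg ((n * k : ℕ) : ℝ)]
  have e2 := D x y
  rw [E.ctKernel_eq, hbCt_eq n0 (gibbsWeight_pos 1 g), ← Nat.cast_mul] at e2
  rw [mul_assoc, two_mul, exp_add, mul_assoc]
  exact (KC_le n0 (gibbsWeight_pos 1 g) _ M x y).trans (mul_le_mul_of_nonneg_left
    ((pow_le_heat _ (Nat.mul_pos n0 k0) x y).trans (mul_le_mul e1 e2
    (RC.H_nn _ (Nat.cast_nonneg _) x y) (exp_pos _).le)) (by positivity))

theorem ev_neg {a ε : ℝ} (ha : 0 < a) (hε : 0 < ε) (C : ℝ) :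
    ∀ᶠ n : ℕ in atTop, C * (n : ℝ) ^ (-a) ≤ ε :=
  (((tendsto_rpow_neg_atTop ha).comp tendsto_natCast_atTop_atTop).const_mul C).eventually
    (ge_mem_nhds (by simpa using hε))

theorem topGlue : TopGlue := fun h1 h2 γ' hγ => by
  obtain ⟨γ, γ0, γ1, γ2⟩ : ∃ γ > 0, γ ≤ γ' ∧ γ ≤ 1 / 100 :=
    ⟨min γ' (1 / 100), by positivity, min_le_left _ _, min_le_right _ _⟩
  refine ⟨γ / 16, by positivity, Top.whp_iff.2 fun ε hε => ?_⟩
  set a := 2 / 3 - γ / 8 with ha
  have a0 : 0 < a := by linarith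
  filter_upwards [Top.whp_iff.1 (levCrit_gauss h1 h2 (a := a) (by linarith) one_half_pos) (ε / 8)
    (by positivity), eventually_ge_atTop 2, ev_pow (half_lt_self γ0) 7, ev_exp (half_pos γ0) 1,
    ev_exp one_half_pos 6, ev_pow (show 1 / 2 < 1 - γ / 8 by linarith) 8,
    ev_pow (show (1 - γ / 8) * -a + 2 / 3 < γ / 2 by nlinarith) (4 * 4 ^ a / (1 - 2 ^ (-a)) * 1),
    ev_pow (show 1 - γ / 8 < 1 - γ / 16 by linarith) 8, ev_neg (show 0 < 7 / 8 * γ by linarith)
      (show (0 : ℝ) < 1 / 4 by norm_num) 36,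
    ev_neg (show 0 < 2 * γ by linarith) (show (0 : ℝ) < 1 / 8 by norm_num) 1,
    ev_neg one_half_pos (show (0 : ℝ) < min (1 / 8) (ε / 8) by positivity) 1,
    ev_neg (show 0 < 1 / 2 - 8 * γ by linarith) (show 0 < ε / 16 by positivity)
      (64 * (1 + 10 * m8 ^ 2) * 8),
    ev_neg (show 0 < 2 - 16 * γ by linarith) (show 0 < ε / 16 by positivity) (1024 * m8)]
    with n hG hn v1 v2 v3 v4 v5 v6 v7 v8 v9 v10 v11
  have n0 : 0 < n := by omega
  have n1 : (1 : ℝ) ≤ n := by exact_mod_cast n0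
  have nR : (0 : ℝ) < n := by exact_mod_cast n0
  have o : ∀ {s : ℝ}, 0 ≤ s → (1 : ℝ) ≤ (n : ℝ) ^ s := fun h => one_le_rpow n1 h
  have o1 := o (half_pos γ0).le
  have o2 := o (show 0 ≤ γ / 8 by positivity)
  have o3 := o (show 0 ≤ 1 - γ / 8 by linarith)
  have o4 := o one_half_pos.le
  rw [one_mul] at v2 v8 v9
  set k := ⌈(n : ℝ) ^ (γ / 2)⌉₊
  set M := ⌊(n : ℝ) ^ γ⌋₊
  set q := ⌈(n : ℝ) ^ (γ / 8)⌉₊
  set H := (n : ℝ) ^ (1 - γ / 8) with hH
  have k1 : (n : ℝ) ^ (γ / 2) ≤ k := Nat.le_ceil _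
  have k2 : (k : ℝ) < (n : ℝ) ^ (γ / 2) + 1 := Nat.ceil_lt_add_one (by positivity)
  have q1 : (n : ℝ) ^ (γ / 8) ≤ q := Nat.le_ceil _
  have q2 : (q : ℝ) < (n : ℝ) ^ (γ / 8) + 1 := Nat.ceil_lt_add_one (by positivity)
  have M1 : (M : ℝ) ≤ (n : ℝ) ^ γ := Nat.floor_le (by positivity)
  have M2 : (n : ℝ) ^ γ < M + 1 := Nat.lt_floor_add_one _
  have qL : 2 * n ≤ q * (2 * H) := by
    have : (n : ℝ) ^ (γ / 8) * H = n := by rw [hH, ← rpow_add nR, add_sub_cancel, rpow_one]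
    nlinarith
  have n4 : (n : ℝ) ≤ (n : ℝ) ^ 4 := le_self_pow₀ n1 (by norm_num)
  have hc : n * exp k ≤ 2 ^ M := by
    have : exp (1 / 2) ≤ 2 := by rw [← le_log_iff_exp_le two_pos]; linarith [log_two_gt_d9]
    refine (mul_le_mul_of_nonneg_right (n4.trans v2) (exp_pos _).le).trans
      (le_trans ?_ (pow_le_pow_left₀ (exp_pos _).le this M))
    rw [← exp_add, ← exp_nat_mul]
    exact exp_le_exp.2 (by linarith)
  have T := SS_transfer n0 (m := n * k) (M := M) (q := q) (B := q * (3 * (2 * H)))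
    (δ := q * (2 * H)) (ε := ε / 8) (rpow_pos_of_pos nR (-(2 * γ))) v8 (le_trans ?_ v7)
    (rpow_pos_of_pos nR (-(1 / 2))) (v9.trans (min_le_left _ _)) (by positivity)
    (le_trans (measure_mono fun g hg => ?_) hG)
  · refine (measure_mono fun g hg => ?_).trans (T.trans (ENNReal.ofReal_le_ofReal ?_))
    · have hw := gibbsWeight_pos (n := n) 1 g
      refine not_le.1 fun hs => hg ((dat_of n0 hw (card_cut n0 hc) (KC_le_of_SS n0 hw ?_ hs)).mono hw
        (M1.trans (rpow_le_rpow_of_exponent_le n1 γ1)) (by linarith))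
      exact Nat.cast_ne_zero.1 (show (0 : ℝ) < q by linarith).ne'
    have e1 : exp (-((n : ℝ) ^ (-(1 / 2) : ℝ) * (q * (2 * H)))) ≤ (n : ℝ) ^ (-(1 / 2) : ℝ) := by
      have : (n : ℝ) ^ (-(1 / 2) : ℝ) * n = (n : ℝ) ^ (1 / 2 : ℝ) := by
        rw [← rpow_add_one nR.ne']; norm_num
      rw [exp_neg, rpow_neg nR.le (1 / 2)]
      refine inv_anti₀ (by positivity) (le_trans ?_ (le_trans (le_add_of_nonneg_right zero_le_one)
        (add_one_le_exp _)))
      rw [← rpow_neg nR.le]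
      nlinarith [mul_le_mul_of_nonneg_left qL (rpow_pos_of_pos nR (-(1 / 2))).le]
    have e2 : 64 * (1 + 10 * m8 ^ 2) / ((n : ℝ) ^ (-(2 * γ))) ^ 4 * (8 * (n : ℝ) ^ (-(1 / 2) : ℝ)) =
        64 * (1 + 10 * m8 ^ 2) * 8 * (n : ℝ) ^ (-(1 / 2 - 8 * γ)) := by
      rw [← rpow_natCast ((n : ℝ) ^ _), ← rpow_mul nR.le, show -(1 / 2 - 8 * γ) = -(1 / 2) - -(2 * γ) * (4 : ℕ) by
        push_cast; ring, rpow_sub nR]
      ring
    have e3 : 1024 * m8 / (n ^ 2 * ((n : ℝ) ^ (-(2 * γ))) ^ 8) =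
        1024 * m8 * (n : ℝ) ^ (-(2 - 16 * γ)) := by
      rw [← rpow_natCast, ← rpow_natCast, ← rpow_mul nR.le, ← rpow_add nR, div_eq_mul_inv,
        ← rpow_neg nR.le]
      congr 2; push_cast; ring
    rw [e2, e3]
    linarith [min_le_right (1 / 8) (ε / 8)]
  · have o5 := o γ0.le
    calc _ ≤ 2 * (n : ℝ) ^ (γ / 8) * ((12 * (n : ℝ) ^ γ + 6 * (n : ℝ) ^ γ) * (n : ℝ) ^ (-(2 * γ))) := by
          gcongr <;> linarith
      _ = _ := by
          rw [show -(7 / 8 * γ) = γ / 8 + (γ + -(2 * γ)) by ring, rpow_add nR, rpow_add nR]; ring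
  have hw := gibbsWeight_pos (n := n) 1 g
  intro hs
  refine not_le.2 (Set.mem_ofPred_eq ▸ hg :) ?_
  obtain ⟨j, j1, j2⟩ := exists_nat_pow_near o4 one_lt_two
  have D := down_of_sp n0 g a0 one_pos (j₀ := j + 1) (fun i hi => by
    simpa only [one_mul] using hs i (j2.le.trans (pow_le_pow_right₀ one_le_two hi))) H (k / N23 n)
    (by rw [pow_add, pow_add]; linarith) (by
      rw [le_div_iff₀ (N23_pos n0), hH, ← rpow_mul nR.le, mul_assoc, N23, ← rpow_add nR]
      exact v5.trans k1)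
  rw [div_mul_cancel₀ _ (N23_pos n0).ne'] at D
  exact (log_SS_le hn hw qL (KC_le_of_ct n0 g (Nat.cast_pos.1 (show (0 : ℝ) < k by linarith)) (by
    linarith [(rpow_le_rpow_of_exponent_le n1 (show γ / 2 ≤ 1 by linarith)).trans_eq (rpow_one _)])
    (v3.trans (exp_le_exp.2 (by linarith))) D)).trans_eq (by ring)

end Crest.Agent.T157.Cn

end
end

-- ▼ part T157/CqCv_41
section

/-!
# Row 157, part C: joint convergence of the marked scalars, `CvGlue` (helper41)
-/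

set_option autoImplicit false

noncomputable section

namespace Crest.Agent.T157.Cq

open MeasureTheory ProbabilityTheory Matrix Filter Topology Finset Real
open Crest.ProbabilityR.SpinGlassDynamics Crest.Agent.T157.E Crest.Agent.T157.Eig
open Crest.Agent.T157.St Crest.Agent.T157.Ed Crest.Agent.T157.Cond Crest.Agent.T157.Top
open Crest.Agent.T157.Tr (Off Om PM)
open Crest.Agent.T157.St.Apx22

namespace Cv41

/-- the marked scalar of a law -/
def ms {ι : Type*} [Fintype ι] (i : IS) (μ : Measure (ι → ℝ)) (M : Matrix ι ι ℝ) : ℝ :=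
  mk μ M i.1.1 (i.2.1.ev μ 0)

lemma b1_zero {ι : Type*} [Fintype ι] : B1 (0 : (ι → ℝ) → ℝ) :=
  ⟨measurable_const, fun _ => by simp⟩

lemma sm_zero {ι : Type*} [Fintype ι] : Sm 1 (0 : (ι → ℝ) → ℝ) = 0 := by
  funext x; simp [Sm]

lemma ms_map (hI : IsoStmt) (i : IS) {ι κ : Type} [Fintype ι] [Fintype κ] [DecidableEq κ]
    {U : Matrix ι κ ℝ} (hU : Uᵀ * U = 1) {μ : Measure (κ → ℝ)} (hμ : Cp μ) {M : Matrix ι ι ℝ}
    {D : Matrix κ κ ℝ} (h : M * U = U * D) : ms i (μ.map fun x => U *ᵥ x) M = ms i μ D := by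
  rw [ms, ms, mk, mk, (Iso42.emb hU).integral_map]
  refine integral_congr_ae (.of_forall fun x => ?_)
  simp only
  rw [hI ι κ U hU μ hμ 0 b1_zero _ i.2.2 x, mulVec_mulVec, h, ← mulVec_mulVec, Iso42.dot_UU hU]
  rfl

/-- continuity in the discrepancy -/
lemma ms_close (hS : SclStmt) (i : IS) (Z₀ ε : ℝ) (hε : 0 < ε) : ∃ θ : ℝ, 0 ≤ θ ∧ ∀ B : ℝ,
    ∃ δ : ℝ, 0 < δ ∧ ∀ (ι : Type) [Fintype ι] (μ ν : Measure (ι → ℝ)), Cp μ → Cp ν →
      Xk θ μ μ ≤ B → Xk θ ν ν ≤ B → D2 θ μ ν ≤ δ → ∀ M : Matrix ι ι ℝ, M.PosSemidef →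
      M.trace ≤ Z₀ → |ms i μ M - ms i ν M| ≤ ε := by
  obtain ⟨θ, h0, h⟩ := hS (max (max Z₀ i.1.1) (max 1 i.2.1.sz)) ε hε
  refine ⟨θ, h0, fun B => ?_⟩
  obtain ⟨δ, hδ, h⟩ := h B
  refine ⟨δ, hδ, fun ι _ μ ν hμ hν h1 h2 h3 M hM hZ => ?_⟩
  have := h ι μ ν hμ hν h1 h2 h3 M i.1.1 1 0 i.2.1 hM
    (hZ.trans ((le_max_left _ _).trans (le_max_left _ _))) i.1.2
    ((le_max_right _ _).trans (le_max_left _ _)) one_pos
    ((le_max_left _ _).trans (le_max_right _ _)) b1_zero i.2.2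
    ((le_max_right _ _).trans (le_max_right _ _))
  rwa [sm_zero] at this

/-- continuity in the mark -/
lemma continuous_ms (hB : BdStmt) (i : IS) {ι : Type} [Fintype ι] {μ : Measure (ι → ℝ)}
    (hμ : Cp μ) : Continuous (ms i μ) := by
  have := hμ.prob
  obtain ⟨hm, hb⟩ := (hB ι μ this).2 0 b1_zero _ i.2.2
  have hc : Continuous cut := smoothTransition.continuous.comp (by fun_prop)
  refine continuous_of_dominated (bound := fun _ => i.2.1.bd) (fun M => ?_)
    (fun M => .of_forall fun x => ?_) (integrable_const _) (.of_forall fun x => ?_)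
  · exact ((hc.measurable.comp (by fun_prop)).mul hm).aestronglyMeasurable
  · rw [Real.norm_eq_abs, abs_mul, cut, abs_of_nonneg (smoothTransition.nonneg _)]
    exact (mul_le_of_le_one_left (abs_nonneg _) (smoothTransition.le_one _)).trans (hb x)
  · exact (hc.comp (by fun_prop)).mul continuous_const

lemma trace_le (L : ℝ) : ∃ Z : ℝ, ∀ (n : ℕ) (η : ℕ → ℝ) (t w C : ℝ), Gd n η t L w C →
    ∀ m, m ≤ n → ∑ k ∈ range m, 1 / (η k ^ 2 + 1) ≤ Z := by
  have hs : Summable fun k : ℕ => 2 * (1 + L ^ 2) * 256 ^ 2 * (((k + 1 : ℕ) : ℝ) ^ (4 / 3 : ℝ))⁻¹ :=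
    ((summable_nat_add_iff 1).2 (Real.summable_nat_rpow_inv.2 (by norm_num))).mul_left _
  refine ⟨_, fun n η t w C h m hm => le_trans (sum_le_sum fun k hk => ?_)
    (hs.sum_le_tsum (range m) fun k _ => by positivity)⟩
  have h1 := h.lo k ((mem_range.1 hk).trans_le hm)
  have h0 : (0 : ℝ) < (k : ℝ) + 1 := by positivity
  have e : (((k + 1 : ℕ) : ℝ)) ^ (4 / 3 : ℝ) = (((k : ℝ) + 1) ^ (2 / 3 : ℝ)) ^ 2 := by
    rw [← rpow_natCast, ← rpow_mul h0.le]; push_cast; norm_num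
  set u := ((k : ℝ) + 1) ^ (2 / 3 : ℝ) with hu
  have u0 : 0 < u := rpow_pos_of_pos h0 _
  rw [e, ← div_eq_mul_inv, div_le_div_iff₀ (by positivity) (by positivity)]
  have h2 : u ^ 2 ≤ (256 * (η k + L)) ^ 2 := pow_le_pow_left₀ u0.le (by linarith) 2
  nlinarith [sq_nonneg (η k - L), sq_nonneg (η k * L)]

/-- the mark of the finite model -/
def md {K₁ K : ℕ} (h : K₁ ≤ K) (y : Fin K → ℝ) : Matrix (Fin K₁) (Fin K₁) ℝ :=
  diagonal fun k => 1 / (y (Fin.castLE h k) ^ 2 + 1)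

lemma continuous_md {K₁ K : ℕ} (h : K₁ ≤ K) : Continuous (md h) :=
  (continuous_pi fun k => continuous_const.div (by fun_prop) fun y => by positivity).matrix_diagonal

lemma md_psd {K₁ K : ℕ} (h : K₁ ≤ K) (y : Fin K → ℝ) : (md h y).PosSemidef :=
  PosSemidef.diagonal fun k => by positivity

lemma fd_psd (n : ℕ) (η : ℕ → ℝ) : (fd n η).PosSemidef :=
  PosSemidef.diagonal fun k => by positivity

lemma fl_psd (n : ℕ) (W : Mat n) : (fl n 1 W).PosSemidef := by
  refine .of_dotProduct_mulVec_nonneg (fnK_herm _ _) fun x => ?_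
  rw [star_trivial, fl, quad_fnK]
  exact sum_nonneg fun k _ => mul_nonneg (by positivity) (mul_self_nonneg _)

lemma fl_mul {n : ℕ} {W O : Mat n} (hW : W.IsHermitian) (hO : ∀ i k, O i k = vec W k i) :
    fl n 1 W * O = O * fd n (Lam n W) := by
  ext i k
  have := congrFun (fnK_mulVec_vec hW (fun x => 1 ^ 2 / ((tau n * (2 - x)) ^ 2 + 1 ^ 2)) k) i
  rw [fd, mul_diagonal, mul_comm, hO, mul_apply]
  simp only [hO]
  refine this.trans ?_
  simp only [Pi.smul_apply, smul_eq_mul, Lam, one_pow]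

lemma fd_mul {K₁ K n : ℕ} (h : K₁ ≤ K) (η : ℕ → ℝ) :
    fd n η * padM K₁ n = padM K₁ n * md h fun k => η k := by
  ext i k
  rw [fd, md, mul_diagonal, diagonal_mul, padM]
  split_ifs with e
  · rw [e]; simp
  · simp

/-- a continuous version of the scalar of the finite model -/
lemma exists_cont (hB : BdStmt) (i : IS) {Z ε θ : ℝ} (hε : 0 < ε)
    (hS : ∀ B : ℝ, ∃ δ : ℝ, 0 < δ ∧ ∀ (ι : Type) [Fintype ι] (μ ν : Measure (ι → ℝ)), Cp μ → Cp ν →
      Xk θ μ μ ≤ B → Xk θ ν ν ≤ B → D2 θ μ ν ≤ δ → ∀ M : Matrix ι ι ℝ, M.PosSemidef →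
      M.trace ≤ Z → |ms i μ M - ms i ν M| ≤ ε)
    {K₁ K : ℕ} (h : K₁ ≤ K) {ρ : (Fin K → ℝ) → Measure (Fin K₁ → ℝ)} (hρ : ∀ y, Cp (ρ y))
    (hc : Continuous fun q : (Fin K → ℝ) × (Fin K → ℝ) => Xk θ (ρ q.1) (ρ q.2)) :
    ∃ Ψ : (Fin K → ℝ) → ℝ, Continuous Ψ ∧
      ∀ y, (md h y).trace ≤ Z → |ms i (ρ y) (md h y) - Ψ y| ≤ 2 * ε := by
  refine (exists_continuous_forall_mem_convex_of_local_const
    (t := fun y : Fin K → ℝ => {c : ℝ | (md h y).trace ≤ Z → |ms i (ρ y) (md h y) - c| ≤ 2 * ε})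
    (fun y => ?_) fun y0 => ?_).elim fun g hg => ⟨g, g.continuous, hg⟩
  · by_cases hy : (md h y).trace ≤ Z
    · convert convex_closedBall (ms i (ρ y) (md h y)) (2 * ε) using 1
      ext c
      simp only [hy, Set.mem_ofPred_eq, forall_const, Metric.mem_closedBall, Real.dist_eq,
        abs_sub_comm c]
    · rw [Set.eq_univ_of_forall (s := {c : ℝ | _ → _}) fun c h => absurd h hy]
      exact convex_univ
  · refine ⟨ms i (ρ y0) (md h y0), ?_⟩
    obtain ⟨δ, hδ, hS⟩ := hS (Xk θ (ρ y0) (ρ y0) + 1)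
    have c1 : Continuous fun y => Xk θ (ρ y) (ρ y) := hc.comp (continuous_id.prodMk continuous_id)
    have c2 : Continuous fun y => Xk θ (ρ y) (ρ y0) :=
      hc.comp (continuous_id.prodMk continuous_const)
    have c3 : Continuous fun y => D2 θ (ρ y) (ρ y0) :=
      (c1.sub (continuous_const.mul c2)).add continuous_const
    have e1 := (c1.tendsto y0).eventually (gt_mem_nhds (lt_add_one _))
    have e2 := (c3.tendsto y0).eventually
      (gt_mem_nhds (show D2 θ (ρ y0) (ρ y0) < δ by unfold D2; linarith))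
    have e3 := Metric.tendsto_nhds.1
      (((continuous_ms hB i (hρ y0)).comp (continuous_md h)).tendsto y0) ε hε
    filter_upwards [e1, e2, e3] with y h1 h2 h3 hy
    have h4 := hS _ _ _ (hρ y) (hρ y0) h1.le (by linarith) h2.le _ (md_psd h y) hy
    rw [Real.dist_eq, Function.comp_apply, Function.comp_apply] at h3
    rw [abs_le] at h4 ⊢
    rw [abs_lt] at h3
    constructor <;> linarith [h3.1, h3.2, h4.1, h4.2]

/-- the scalars are close to continuous functions of the edge eigenvalues -/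
theorem approx (hB : BdStmt) (hS : SclStmt) (hI : IsoStmt) (i : IS) (ε : ℝ) (hε : 0 < ε) :
    ∃ (K : ℕ) (Ψ : (Fin K → ℝ) → ℝ), Continuous Ψ ∧ ∀ᶠ n in atTop,
      GOE n {W | ε < |ms i (muW n W) (fl n 1 W) - Ψ (LamV n K W)|} ≤ ENNReal.ofReal ε := by
  have hM := mmdStmt
  obtain ⟨C, -, hG⟩ := All.goodStmt
  obtain ⟨L, w₁, hL, hG⟩ := hG (ε / 4) (by positivity)
  obtain ⟨Z, hZ⟩ := trace_le L
  obtain ⟨θ, hθ0, hS⟩ := ms_close hS i Z (ε / 4) (by positivity)
  obtain ⟨w₂, hMg⟩ := All.mgfStmt L C hL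
  obtain ⟨w₃, hF⟩ := All.finStmt L C θ hL hθ0
  set w := max w₁ (max w₂ w₃) with hw
  obtain ⟨B, hMg⟩ := hMg w ((le_max_left _ _).trans (le_max_right _ _))
  set B' := B * exp (B * |θ| ^ (3 / 2 : ℝ)) with hB'
  obtain ⟨δ, hδ, hPc⟩ := hS ((√B' + 1) ^ 2)
  obtain ⟨K₁, δ', hδ', hF⟩ := hF w ((le_max_right _ _).trans (le_max_right _ _)) (min δ 1)
    (lt_min hδ one_pos)
  obtain ⟨L', hL', hR⟩ := All.renStmt w (min δ' (ε / 4)) (lt_min hδ' (by positivity))
  obtain ⟨K, ⟨hFK, hRK⟩, hK⟩ := ((hF.and hR).and (eventually_ge_atTop K₁)).exists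
  obtain ⟨ρ, hρ, hρc, hFn⟩ := hFK (ct L') (continuous_ct hL' K)
  obtain ⟨Ψ, hΨ, hΨ'⟩ := exists_cont hB i (by positivity) hS hK hρ hρc
  refine ⟨K, Ψ, hΨ, ?_⟩
  filter_upwards [hG w (le_max_left _ _), hMg, hFn, hRK,
    whp_iff.1 (All.closeStmt.2 θ (min δ 1) hθ0 (lt_min hδ one_pos)) (ε / 4) (by positivity),
    eventually_ge_atTop 1, eventually_ge_atTop K₁] with n h1 h2 h3 h4 h5 hn hn1
  obtain ⟨l1, l2, -, l4, -⟩ := All.lnkStmt n hn
  have ht : 0 < sx n ^ 2 := pow_pos (rpow_pos_of_pos (by exact_mod_cast hn) _) 2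
  have sub : {W : Mat n | ε < |ms i (muW n W) (fl n 1 W) - Ψ (LamV n K W)|} ⊆
      ({W | ¬ (W.IsHermitian ∧ Gd n (Lam n W) (sx n ^ 2) L w C)} ∪
        {W | min δ' (ε / 4) <
          |sx n ^ 2 - ∑ k ∈ Ico K n, 1 / (w + Lam n W k) - ct L' (LamV n K W)|}) ∪
        {W | ¬ D2 θ (muW n W) (nuW n W) ≤ min δ 1} := by
    intro W hW
    by_contra hn'
    simp only [Set.mem_union, Set.mem_ofPred_eq, not_or, not_not, not_lt] at hn'
    obtain ⟨⟨⟨hh, hg⟩, hr⟩, hd⟩ := hn'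
    obtain ⟨O, hO, hOv, hO'⟩ := l4 W hh
    have cD := (l2 (Lam n W) _ ht).1
    obtain ⟨-, i2, -, -⟩ := isomStmt _ _ O hO _ _ cD cD
    have hX : Xk θ (nuD n (Lam n W) (sx n ^ 2)) (nuD n (Lam n W) (sx n ^ 2)) ≤ B' :=
      h2 _ _ ht hg θ
    have hXW : Xk θ (nuW n W) (nuW n W) ≤ B' := by rw [hO', i2]; exact hX
    have t1 : (fl n 1 W).trace ≤ Z := by
      rw [fl, trace_fnK hh, Fintype.card_fin]
      simpa only [one_pow, Lam] using hZ n _ _ _ _ hg n le_rfl
    have t2 : (fd n (Lam n W)).trace ≤ Z := by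
      rw [fd, trace_diagonal, Fin.sum_univ_eq_sum_range (fun k => 1 / (Lam n W k ^ 2 + 1))]
      exact hZ n _ _ _ _ hg n le_rfl
    have t3 : (md hK (LamV n K W)).trace ≤ Z := by
      rw [md, trace_diagonal]
      exact (Fin.sum_univ_eq_sum_range (fun k => 1 / (Lam n W k ^ 2 + 1)) K₁).trans_le
        (hZ n _ _ _ _ hg K₁ hn1)
    have a1 := hPc _ _ _ (l1 W).1 (l1 W).2.1
      (Xk_le hM (l1 W).1 (l1 W).2.1 hθ0 hXW (hd.trans (min_le_right _ _)))
      (hXW.trans (le_sq_sqrt_add _)) (hd.trans (min_le_left _ _)) _ (fl_psd n W) t1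
    have hD := h3 _ _ ht hg (hr.trans (min_le_left _ _))
    have j1 := Iso42.cp_map (padM_isom hn1) (hρ (LamV n K W))
    have j4 := ms_map hI i (padM_isom hn1) (hρ (LamV n K W)) (fd_mul hK (Lam n W))
    have e : (fun x => padM K₁ n *ᵥ x) = pad K₁ n := funext (padM_mulVec K₁ n)
    rw [e] at j1 j4
    have hD' : D2 θ ((ρ (LamV n K W)).map (pad K₁ n)) (nuD n (Lam n W) (sx n ^ 2)) ≤ min δ 1 := by
      rw [(hM _ _ _ _ j1 cD cD θ θ hθ0 le_rfl).2.2.1]; exact hD
    have a2 := hPc _ _ _ j1 cD (Xk_le hM j1 cD hθ0 hX (hD'.trans (min_le_right _ _)))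
      (hX.trans (le_sq_sqrt_add _)) (hD'.trans (min_le_left _ _)) _ (fd_psd n _) t2
    rw [j4] at a2
    rw [hO', ms_map hI i hO cD (fl_mul hh hOv)] at a1
    have a3 := hΨ' _ t3
    have hW' : ε < |ms i (muW n W) (fl n 1 W) - Ψ (LamV n K W)| := hW
    change |ms i (ρ (LamV n K W)) (md hK (LamV n K W)) - _| ≤ _ at a2
    rw [abs_le] at a1 a2 a3
    rcases lt_abs.1 hW' with h | h <;> linarith [a1.1, a1.2, a2.1, a2.2, a3.1, a3.2]
  calc GOE n {W | ε < |ms i (muW n W) (fl n 1 W) - Ψ (LamV n K W)|} ≤ _ := measure_mono sub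
    _ ≤ ENNReal.ofReal (ε / 4) + ENNReal.ofReal (ε / 4) + ENNReal.ofReal (ε / 4) :=
        (measure_union_le _ _).trans (add_le_add ((measure_union_le _ _).trans
          (add_le_add h1 (h4.trans (ENNReal.ofReal_le_ofReal (min_le_right _ _))))) h5)
    _ ≤ ENNReal.ofReal ε := by
        rw [← ENNReal.ofReal_add (by positivity) (by positivity),
          ← ENNReal.ofReal_add (by positivity) (by positivity)]
        exact ENNReal.ofReal_le_ofReal (by linarith)

end Cv41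

open Cv41

theorem cvGlue : CvGlue := by
  intro hB hS hI hm φ hφ
  classical
  suffices h : ∃ L, ∀ _ : Unit, Tendsto (fun n => ∫ p, φ (sc n p) ∂PB false n) atTop (𝓝 L) from
    h.imp fun L hL => hL ()
  refine Soft.cyl_conv_of_approx (B := Unit) (fun _ n => PB false n) sc hm (fun s ε hε => ?_) φ hφ
  have hε' : 0 < ε / (s.card + 1) := by positivity
  choose K Ψ hΨ hP using fun i : IS => approx hB hS hI i _ hε'
  have mp : ∀ n, MeasurePreserving (fun p : Om n => Wp p) (PB false n) (GOE n) := fun n => mp_Wmat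
  refine ⟨fun _ n p i => if i ∈ s then Ψ i (LamV n (K i) (Wp p)) else 0, fun _ n i => ?_,
    fun _ => ?_, fun ψ hψ => ?_⟩
  · by_cases hi : i ∈ s
    · simp only [if_pos hi]
      exact (hΨ i).measurable.comp ((measurable_LamV n _).comp (mp n).measurable)
    · simp only [if_neg hi]; exact measurable_const
  · filter_upwards [(eventually_all_finset s).2 fun i _ => hP i] with n hn
    have hle : ε / (s.card + 1) ≤ ε :=
      div_le_self hε.le (by linarith [Nat.cast_nonneg (α := ℝ) s.card])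
    calc _ ≤ PB false n ((fun p : Om n => Wp p) ⁻¹' ⋃ i ∈ s, {W | ε / (s.card + 1) <
            |ms i (muW n W) (fl n 1 W) - Ψ i (LamV n (K i) W)|}) := by
          refine measure_mono ?_
          rintro p ⟨i, hi, hW⟩
          rw [if_pos hi, sc, ← Lnk10.muW_Wmat p.1 p.2] at hW
          exact Set.mem_biUnion hi (hle.trans_lt hW)
      _ ≤ ∑ i ∈ s, ENNReal.ofReal (ε / (s.card + 1)) :=
          ((mp n).measure_preimage_le _).trans
            ((measure_biUnion_finset_le _ _).trans (sum_le_sum hn))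
      _ ≤ ENNReal.ofReal ε := by
          rw [← ENNReal.ofReal_sum_of_nonneg fun _ _ => hε'.le]
          refine ENNReal.ofReal_le_ofReal ?_
          rw [sum_const, nsmul_eq_mul, mul_div_assoc', div_le_iff₀ (by positivity)]
          nlinarith
  · obtain ⟨ν, _, hν⟩ := Ed.All.limStmt (s.sup K)
    let G : (Fin (s.sup K) → ℝ) → IS → ℝ := fun y i =>
      if hi : i ∈ s then Ψ i fun k => y (Fin.castLE (le_sup hi) k) else 0
    have hG : Continuous G := continuous_pi fun i => by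
      by_cases hi : i ∈ s
      · simp only [G, dif_pos hi]; exact (hΨ i).comp (by fun_prop)
      · simp only [G, dif_neg hi]; exact continuous_const
    obtain ⟨_, C, -, hC, -⟩ := id hψ
    let F := BoundedContinuousFunction.ofNormedAddCommGroup (fun y => ψ (G y))
      (hψ.continuous.comp hG) C fun y => hC _
    refine ⟨_, fun _ => (hν F).congr fun n => ?_⟩
    rw [← (mp n).map_eq, integral_map (f := fun W => F (LamV n (s.sup K) W))
      (mp n).measurable.aemeasurable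
      (F.continuous.measurable.comp (measurable_LamV n _)).aestronglyMeasurable]
    refine integral_congr_ae (Eventually.of_forall fun p => ?_)
    change ψ (G (LamV n (s.sup K) (Wp p))) = ψ _
    refine congrArg ψ (funext fun i => ?_)
    by_cases hi : i ∈ s
    · simp only [G, dif_pos hi, if_pos hi]; rfl
    · simp only [G, dif_neg hi, if_neg hi]

end Crest.Agent.T157.Cq

end
end

-- ▼ part T157/CqTv_37
section

/-!
# Row 157, part C: the static chain of a conditioned law (`TvStmt`)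

The lemmas of the namespace `Tv37` hold for every probability law (no compact support).
-/

set_option autoImplicit false
set_option linter.unusedSectionVars false

noncomputable section

namespace Crest.Agent.T157.Cq

open MeasureTheory ProbabilityTheory Matrix Filter Topology Finset Real
open Crest.Agent.T157.E Crest.Agent.T157.St Crest.Agent.T157.St.A87 Crest.Agent.T157.SL

namespace Tv37

variable {ι : Type*} [Fintype ι] [DecidableEq ι] {μ : Measure (ι → ℝ)} {K : ℝ}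
  {f g h h' k F : (ι → ℝ) → ℝ} {A : Set (ι → ℝ)}

lemma ew_le' (hK : 0 < K) (y x : ι → ℝ) : ew K y x ≤ exp (y ⬝ᵥ y / (2 * K)) := by
  refine exp_le_exp.mpr ?_
  have h : 0 ≤ (y - K • x) ⬝ᵥ (y - K • x) := Finset.sum_nonneg fun i _ => mul_self_nonneg _
  simp only [sub_dotProduct, dotProduct_sub, smul_dotProduct, dotProduct_smul, smul_eq_mul,
    dotProduct_comm x y] at h
  rw [le_div_iff₀ (by positivity)]
  nlinarith

lemma bm_int [IsFiniteMeasure μ] (hf : Bm f) : Integrable f μ := by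
  obtain ⟨C, h⟩ := hf.bd
  exact Integrable.of_bound hf.meas.aestronglyMeasurable C (.of_forall h)

lemma bm_abs (hf : Bm f) : Bm fun x => |f x| :=
  ⟨hf.meas.abs, hf.bd.imp fun _ h x => by simpa using h x⟩

lemma bm_ew (hK : 0 < K) (y : ι → ℝ) : Bm (ew K y) :=
  ⟨measurable_ew K measurable_const measurable_id, _, fun x => by
    rw [abs_of_pos (ew_pos _ _ _)]
    exact ew_le' hK y x⟩

lemma _root_.Crest.Agent.T157.Cq.B1.bm (hf : B1 f) : Bm f := ⟨hf.1, 1, hf.2⟩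

lemma Mf_pos' [IsProbabilityMeasure μ] (hK : 0 < K) (y : ι → ℝ) : 0 < Mf K μ y :=
  integral_exp_pos (bm_int (bm_ew hK y))

lemma abs_Un_le' [IsFiniteMeasure μ] (hK : 0 < K) (hg : Bm g) (e : ∀ x, |f x| ≤ g x) (y : ι → ℝ) :
    |Un K μ f y| ≤ Un K μ g y := by
  refine norm_integral_le_of_norm_le (f := fun x => f x * ew K y x) (bm_int (hg.mul (bm_ew hK y)))
    (.of_forall fun x => ?_)
  rw [Real.norm_eq_abs, abs_mul, abs_of_pos (ew_pos _ _ _)]
  exact mul_le_mul_of_nonneg_right (e x) (ew_pos _ _ _).le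

lemma abs_pm_le' [IsProbabilityMeasure μ] (hK : 0 < K) (hg : Bm g) (e : ∀ x, |f x| ≤ g x)
    (y : ι → ℝ) : |pm K μ f y| ≤ pm K μ g y := by
  rw [pm_eq, pm_eq, abs_div, abs_of_pos (Mf_pos' hK y)]
  exact div_le_div_of_nonneg_right (abs_Un_le' hK hg e y) (Mf_pos' hK y).le

lemma pm_const' [IsProbabilityMeasure μ] (hK : 0 < K) (c : ℝ) (y : ι → ℝ) :
    pm K μ (fun _ => c) y = c := by
  rw [pm_eq, Un_const, mul_div_cancel_right₀ _ (Mf_pos' hK y).ne']

lemma pm_sub' [IsFiniteMeasure μ] (hK : 0 < K) (hf : Bm f) (hg : Bm g) (y : ι → ℝ) :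
    pm K μ (fun x => f x - g x) y = pm K μ f y - pm K μ g y := by
  simp only [pm, sub_mul]
  rw [integral_sub (bm_int (hf.mul (bm_ew hK y))) (bm_int (hg.mul (bm_ew hK y))), sub_div]

lemma measurable_Un' [SFinite μ] (hf : Measurable f) : Measurable (Un K μ f) :=
  (StronglyMeasurable.integral_prod_right (f := fun y x => f x * ew K y x)
    ((hf.comp measurable_snd).mul (measurable_ew K measurable_fst measurable_snd)).stronglyMeasurable
    ).measurable

lemma measurable_pm' [SFinite μ] (hf : Measurable f) : Measurable (pm K μ f) :=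
  (measurable_Un' hf).div (by rw [Mf_eq]; exact measurable_Un' measurable_const)

lemma bm_pm' [IsProbabilityMeasure μ] (hK : 0 < K) (hf : Bm f) : Bm (pm K μ f) :=
  ⟨measurable_pm' hf.meas, hf.bd.imp fun C h y =>
    (abs_pm_le' hK (Bm.const C) h y).trans_eq (pm_const' hK C y)⟩

lemma bm_Tk' [IsProbabilityMeasure μ] (hK : 0 < K) (hf : Bm f) : Bm (Tk K μ f) :=
  bm_Ay (bm_pm' hK hf)

lemma b1_Tk [IsProbabilityMeasure μ] (hK : 0 < K) (hf : B1 f) : B1 (Tk K μ f) :=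
  ⟨(bm_Tk' hK hf.bm).meas, abs_Ay_le fun y =>
    (abs_pm_le' hK (Bm.const 1) hf.2 y).trans_eq (pm_const' hK 1 y)⟩

lemma b1_iter [IsProbabilityMeasure μ] (hK : 0 < K) (hf : B1 f) (j : ℕ) : B1 ((Tk K μ)^[j] f) := by
  induction j with
  | zero => exact hf
  | succ j ih => rw [Function.iterate_succ_apply']; exact b1_Tk hK ih

lemma int_joint [IsFiniteMeasure μ] (hK : 0 ≤ K) :
    Integrable (fun p : (ι → ℝ) × (ι → ℝ) => ew K (√K • p.2) p.1) (μ.prod (gv ι)) := by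
  refine (integrable_prod_iff (measurable_ew K (by fun_prop) measurable_fst).aestronglyMeasurable).mpr
    ⟨.of_forall fun x => intK (mg_ew hK x) K, ?_⟩
  refine (integrable_const 1).congr (.of_forall fun x => ?_)
  simp only [Real.norm_eq_abs, abs_of_pos (ew_pos _ _ _)]
  exact (IK_ew hK x).symm

theorem bayes' [IsFiniteMeasure μ] (hK : 0 ≤ K) (hf : Bm f) (hF : Bm F) :
    ∫ x, f x * Ay K F x ∂μ = IK K fun y => Un K μ f y * F y := by
  have e : ∀ x, f x * Ay K F x = ∫ z, f x * ew K (√K • z) x * F (√K • z) ∂gv ι := fun x => by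
    rw [Ay, ← cmK hK, IK, ← integral_const_mul]
    congr 1
    funext z
    ring
  simp only [e, IK, Un, ← integral_mul_const]
  refine integral_integral_swap ?_
  obtain ⟨C, hC⟩ := hf.bd
  obtain ⟨C', hC'⟩ := hF.bd
  refine ((int_joint hK).const_mul (C * C')).mono' (((hf.meas.comp measurable_fst).mul
    (measurable_ew K (by fun_prop) measurable_fst)).mul
    (hF.meas.comp (by fun_prop))).aestronglyMeasurable (.of_forall fun p => ?_)
  simp only [Function.uncurry, Real.norm_eq_abs, abs_mul, abs_of_pos (ew_pos _ _ _)]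
  rw [mul_right_comm]
  exact mul_le_mul_of_nonneg_right (mul_le_mul (hC _) (hC' _) (abs_nonneg _)
    ((abs_nonneg _).trans (hC p.1))) (ew_pos _ _ _).le

/-- stationarity -/
theorem stat [IsProbabilityMeasure μ] (hK : 0 < K) (hf : Bm f) :
    ∫ x, Tk K μ f x ∂μ = ∫ x, f x ∂μ := by
  have h1 := bayes' (μ := μ) hK.le (Bm.const 1) (bm_pm' (μ := μ) hK hf)
  have h2 := bayes' (μ := μ) hK.le hf (Bm.const 1)
  simp only [Ay_const, mul_one, one_mul] at h1 h2
  rw [Tk_eq, h1, h2]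
  refine IK_congr fun y => ?_
  rw [← Mf_eq, pm_eq, mul_div_cancel₀ _ (Mf_pos' hK y).ne']

lemma abs_Ay_sub_le (a : Bm h) (b : Bm h') (c : Bm k) (e : ∀ y, |h y - h' y| ≤ k y) (x : ι → ℝ) :
    |Ay K h x - Ay K h' x| ≤ Ay K k x := by
  rw [Ay, Ay, ← integral_sub (intA a.mg K x) (intA b.mg K x)]
  exact norm_integral_le_of_norm_le (f := fun z => h (K • x + √K • z) - h' (K • x + √K • z))
    (intA c.mg K x) (.of_forall fun z => e _)

/-- contraction -/
theorem contr [IsProbabilityMeasure μ] (hK : 0 < K) (hf : Bm f) (hg : Bm g) :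
    ∫ x, |Tk K μ f x - Tk K μ g x| ∂μ ≤ ∫ x, |f x - g x| ∂μ := by
  have a := bm_abs (hf.sub hg)
  rw [← stat hK a]
  refine integral_mono_of_nonneg (.of_forall fun x => abs_nonneg _) (bm_int (bm_Tk' hK a))
    (.of_forall fun x => abs_Ay_sub_le (bm_pm' hK hf) (bm_pm' hK hg) (bm_pm' hK a) (fun y => ?_) x)
  rw [← pm_sub' hK hf hg]
  exact abs_pm_le' hK a (fun _ => le_rfl) y

lemma integral_cond (μ : Measure (ι → ℝ)) (A : Set (ι → ℝ)) (f : (ι → ℝ) → ℝ) :
    ∫ x, f x ∂μ[|A] = (μ.real A)⁻¹ * ∫ x in A, f x ∂μ := by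
  rw [ProbabilityTheory.cond, integral_smul_measure, ENNReal.toReal_inv, smul_eq_mul, Measure.real]

lemma Un_split [IsFiniteMeasure μ] (hK : 0 < K) (hA : MeasurableSet A) (hq : 0 < μ.real A)
    (hg : Bm g) (y : ι → ℝ) :
    Un K μ g y = μ.real A * Un K (μ[|A]) g y + Un K μ (Aᶜ.indicator g) y := by
  simp only [Un, ← Set.indicator_mul_left]
  rw [integral_cond, mul_inv_cancel_left₀ hq.ne', integral_indicator hA.compl,
    integral_add_compl hA (bm_int (hg.mul (bm_ew hK y)))]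

lemma alg {q N M b β : ℝ} (hq : 0 < q) (hM : 0 < M) (hN : |N| ≤ M) (hb : |b| ≤ β) :
    |(q * N + b) / (q * M + β) - N / M| ≤ 2 * (β / (q * M + β)) := by
  have h0 : 0 ≤ β := (abs_nonneg _).trans hb
  have h1 : 0 < q * M + β := by positivity
  have h2 : (q * N + b) / (q * M + β) - N / M = (b - β * (N / M)) / (q * M + β) := by
    field_simp
    ring
  have h3 : |N / M| ≤ 1 := by rwa [abs_div, abs_of_pos hM, div_le_one hM]
  rw [h2, abs_div, abs_of_pos h1, ← mul_div_assoc 2]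
  refine div_le_div_of_nonneg_right ((abs_sub _ _).trans ?_) h1.le
  rw [abs_mul, abs_of_nonneg h0]
  nlinarith

lemma prob_cond (hq : 0 < μ.real A) [IsFiniteMeasure μ] : IsProbabilityMeasure (μ[|A]) :=
  cond_isProbabilityMeasure fun h => by simp [Measure.real, h] at hq

lemma half_le [IsProbabilityMeasure μ] (hA : MeasurableSet A) {p : ℝ} (hp : μ.real Aᶜ ≤ p)
    (hp' : p ≤ 1 / 2) : 1 / 2 ≤ μ.real A := by
  have := probReal_add_probReal_compl (μ := μ) hA
  linarith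

/-- one step -/
theorem step [IsProbabilityMeasure μ] (hK : 0 < K) (hA : MeasurableSet A) {p : ℝ}
    (hp : μ.real Aᶜ ≤ p) (hp' : p ≤ 1 / 2) (hg : B1 g) :
    ∫ x, |Tk K μ g x - Tk K (μ[|A]) g x| ∂μ[|A] ≤ 4 * p := by
  have h2 := half_le hA hp hp'
  have hq : 0 < μ.real A := by linarith
  have := prob_cond hq
  have a : Bm (Aᶜ.indicator fun _ : ι → ℝ => (1 : ℝ)) := (Bm.const 1).indicator hA.compl
  have b := bm_pm' (μ := μ) hK a
  have e : ∀ x, |Tk K μ g x - Tk K (μ[|A]) g x| ≤ 2 * Tk K μ (Aᶜ.indicator fun _ => 1) x := by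
    intro x
    refine (abs_Ay_sub_le (bm_pm' hK hg.bm) (bm_pm' hK hg.bm) (b.const_mul 2)
      (fun y => ?_) x).trans_eq (integral_const_mul _ _)
    rw [pm_eq, pm_eq, pm_eq, Mf_eq K μ, Un_split hK hA hq hg.bm, Un_split hK hA hq (Bm.const 1),
      ← Mf_eq]
    refine alg hq (Mf_pos' hK y) ?_ (abs_Un_le' hK a (fun x => ?_) y)
    · rw [Mf_eq]
      exact abs_Un_le' hK (Bm.const 1) hg.2 y
    · by_cases hx : x ∈ Aᶜ <;> simp [hx, hg.2 x]
  have c := (bm_Tk' (μ := μ) hK a).const_mul 2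
  refine (integral_mono_of_nonneg (.of_forall fun x => abs_nonneg _) (bm_int c)
    (.of_forall e)).trans ?_
  have h3 := setIntegral_le_integral (s := A) (bm_int (μ := μ) c)
    (.of_forall fun x => (abs_nonneg _).trans (e x))
  rw [integral_const_mul, integral_const_mul, stat hK a, integral_indicator hA.compl] at h3
  simp only [integral_const, MeasurableSet.univ, measureReal_restrict_apply, Set.univ_inter,
    smul_eq_mul, mul_one] at h3
  rw [integral_cond, integral_const_mul, inv_mul_le_iff₀ hq]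
  have h4 : 0 ≤ p := measureReal_nonneg.trans hp
  nlinarith

theorem steps [IsProbabilityMeasure μ] (hK : 0 < K) (hA : MeasurableSet A) {p : ℝ}
    (hp : μ.real Aᶜ ≤ p) (hp' : p ≤ 1 / 2) (hf : B1 f) (j : ℕ) :
    ∫ x, |(Tk K μ)^[j] f x - (Tk K (μ[|A]))^[j] f x| ∂μ[|A] ≤ 4 * p * j := by
  have h2 := half_le hA hp hp'
  have := prob_cond (μ := μ) (A := A) (by linarith)
  induction j with
  | zero => simp
  | succ j ih =>
    have a := b1_iter (μ := μ) hK hf j
    have b := b1_iter (μ := μ[|A]) hK hf j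
    have i1 := bm_int (μ := μ[|A]) (bm_abs ((bm_Tk' (μ := μ) hK a.bm).sub
      (bm_Tk' (μ := μ[|A]) hK a.bm)))
    have i2 := bm_int (μ := μ[|A]) (bm_abs ((bm_Tk' (μ := μ[|A]) hK a.bm).sub
      (bm_Tk' (μ := μ[|A]) hK b.bm)))
    simp only [Function.iterate_succ_apply']
    refine (integral_mono_of_nonneg (.of_forall fun x => abs_nonneg _) (i1.add i2)
      (.of_forall fun x => abs_sub_le _ _ _)).trans ?_
    have h3 := step hK hA hp hp' a
    have h4 := contr (μ := μ[|A]) hK a.bm b.bm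
    simp only [Pi.add_apply]
    rw [integral_add i1 i2]
    push_cast
    linarith

omit [DecidableEq ι] in
/-- Poisson mixtures -/
theorem poi_le {ν : Measure (ι → ℝ)} [IsFiniteMeasure ν] {c : ℝ} (hc : 0 ≤ c)
    {u v : ℕ → (ι → ℝ) → ℝ} (hu : ∀ j, B1 (u j)) (hv : ∀ j, B1 (v j)) {a : ℕ → ℝ} {s : ℝ}
    (ha : ∀ j, ∫ x, |u j x - v j x| ∂ν ≤ a j) (hs : HasSum (fun j => Chain22.poi c j * a j) s) :
    ∫ x, |∑' j, Chain22.poi c j * u j x - ∑' j, Chain22.poi c j * v j x| ∂ν ≤ s := by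
  have p0 := Chain22.poi_nonneg hc
  have sm : ∀ {w : ℕ → ℝ} {C : ℝ}, (∀ j, |w j| ≤ C) → Summable fun j => Chain22.poi c j * w j :=
    fun {w C} hw => ((Chain22.hasSum_poi c).summable.mul_right C).of_norm_bounded fun j => by
      rw [Real.norm_eq_abs, abs_mul, abs_of_nonneg (p0 j)]
      exact mul_le_mul_of_nonneg_left (hw j) (p0 j)
  have d2 : ∀ j x, |(|u j x - v j x|)| ≤ 2 := fun j x => by
    rw [abs_abs]
    linarith [abs_sub (u j x) (v j x), (hu j).2 x, (hv j).2 x]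
  have ms : ∀ j, Measurable fun x => Chain22.poi c j * |u j x - v j x| :=
    fun j => ((hu j).1.sub (hv j).1).abs.const_mul _
  have bd : ∀ j x, ‖Chain22.poi c j * |u j x - v j x|‖ ≤ Chain22.poi c j * 2 := fun j x => by
    rw [Real.norm_eq_abs, abs_mul, abs_of_nonneg (p0 j)]
    exact mul_le_mul_of_nonneg_left (d2 j x) (p0 j)
  have s2 := (Chain22.hasSum_poi c).mul_right 2
  have h1 := hasSum_integral_of_dominated_convergence (μ := ν) (fun j _ => Chain22.poi c j * 2)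
    (fun j => (ms j).aestronglyMeasurable) (fun j => .of_forall (bd j))
    (.of_forall fun _ => s2.summable) (integrable_const _)
    (.of_forall fun x => (sm fun j => d2 j x).hasSum)
  have h2 : Integrable (fun x => ∑' j, Chain22.poi c j * |u j x - v j x|) ν :=
    Integrable.of_bound (aestronglyMeasurable_of_tendsto_ae atTop
      (fun n => (Finset.measurable_sum (range n) fun j _ => ms j).aestronglyMeasurable)
      (.of_forall fun x => (sm fun j => d2 j x).hasSum.tendsto_sum_nat)) (1 * 2)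
      (.of_forall fun x => tsum_of_norm_bounded s2 fun j => bd j x)
  refine (integral_mono_of_nonneg (.of_forall fun x => abs_nonneg _) h2
    (.of_forall fun x => ?_)).trans (hasSum_le (fun j => ?_) h1 hs)
  · simp only
    rw [← (sm fun j => (hu j).2 x).tsum_sub (sm fun j => (hv j).2 x)]
    refine tsum_of_norm_bounded (f := fun j => Chain22.poi c j * u j x - Chain22.poi c j * v j x)
      (sm fun j => d2 j x).hasSum fun j => ?_
    rw [← mul_sub, Real.norm_eq_abs, abs_mul, abs_of_nonneg (p0 j)]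
  · rw [integral_const_mul]
    exact mul_le_mul_of_nonneg_left (ha j) (p0 j)

end Tv37

open Tv37 in
/-- **leaf TV** -/
theorem tvStmt : TvStmt := by
  intro ι _ μ A p K c hμ hA hp hp' hK hc f hf
  classical
  have h2 := half_le hA hp hp'
  have := prob_cond (μ := μ) (A := A) (by linarith)
  have h4 : 0 ≤ p := measureReal_nonneg.trans hp
  have hs : HasSum (fun j : ℕ => Chain22.poi c j * (4 * p * j)) (4 * p * c) := by
    simpa only [mul_left_comm (4 * p)] using (Chain22.hasSum_poi_id c).mul_left (4 * p)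
  refine (poi_le hc (b1_iter hK hf) (b1_iter hK hf) (steps hK hA hp hp' hf) hs).trans ?_
  nlinarith [mul_nonneg hc h4]

end Crest.Agent.T157.Cq
end
end

-- ▼ part T157/CqCyl_37
section

/-!
# Row 157, part C: reduction to cylinder functions (`CylStmt`)
-/

set_option autoImplicit false
set_option linter.unusedSectionVars false

noncomputable section

namespace Crest.Agent.T157.Cq

open MeasureTheory ProbabilityTheory Matrix Filter Topology Finset Real
open Crest.Agent.T157.E Crest.Agent.T157.St Crest.Agent.T157.St.A87 Crest.Agent.T157.SL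
open Crest.Agent.T157.St.Iso42 (Good good_coord good_ov measurable_keep dot_keep keep_dot_keep
  dot_split exp_sub_le cs Xs D2_keep)

namespace Cyl37

open Tv37

variable {ι : Type*} [Fintype ι] [DecidableEq ι] {μ : Measure (ι → ℝ)} {K : ℝ}
  {f g : (ι → ℝ) → ℝ}

/-- the unnormalised posterior mean which sees the coordinates in `s` only -/
def Nk (K : ℝ) (μ : Measure (ι → ℝ)) (s : Finset ι) (f : (ι → ℝ) → ℝ) (y : ι → ℝ) : ℝ :=
  ∫ a, f a * ew K y (keep s a) ∂μ

lemma keep_univ (x : ι → ℝ) : keep univ x = x := by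
  funext k
  simp [keep]


lemma keep_le (s : Finset ι) (x : ι → ℝ) : keep s x ⬝ᵥ keep s x ≤ x ⬝ᵥ x := by
  rw [keep_dot_keep, dot_split s x x]
  exact le_add_of_nonneg_right (sum_nonneg fun k _ => mul_self_nonneg _)

lemma Nk_univ (f : (ι → ℝ) → ℝ) : Nk K μ univ f = Un K μ f := by
  funext y
  simp only [Nk, Un, keep_univ]

lemma Nk_keep (s : Finset ι) (y : ι → ℝ) : Nk K μ s f (keep s y) = Nk K μ s f y := by
  simp only [Nk, ew, keep_dot_keep]
  simp only [dot_keep]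

lemma bm_ewk (hK : 0 < K) (s : Finset ι) (y : ι → ℝ) : Bm fun a => ew K y (keep s a) :=
  ⟨(bm_ew hK y).meas.comp (measurable_keep s), (bm_ew hK y).bd.imp fun _ h _ => h _⟩

lemma abs_Nk_le [IsFiniteMeasure μ] (hK : 0 < K) (s : Finset ι) (hf : B1 f) (y : ι → ℝ) :
    |Nk K μ s f y| ≤ Nk K μ s (fun _ => 1) y := by
  refine norm_integral_le_of_norm_le (f := fun a => f a * ew K y (keep s a))
    (bm_int ((Bm.const 1).mul (bm_ewk hK s y))) (.of_forall fun x => ?_)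
  rw [Real.norm_eq_abs, abs_mul, abs_of_pos (ew_pos _ _ _)]
  exact mul_le_mul_of_nonneg_right (hf.2 x) (ew_pos _ _ _).le

lemma measurable_Nk [SFinite μ] (s : Finset ι) (hf : Measurable f) : Measurable (Nk K μ s f) :=
  (StronglyMeasurable.integral_prod_right (f := fun y x => f x * ew K y (keep s x))
    ((hf.comp measurable_snd).mul (measurable_ew K measurable_fst
      ((measurable_keep s).comp measurable_snd))).stronglyMeasurable).measurable

omit [DecidableEq ι] in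
lemma mg_nrm (r : ℝ) : MG fun z : ι → ℝ => exp (Fintype.card ι * √r * ‖z‖) :=
  ⟨by fun_prop, 1, Fintype.card ι * √r, zero_le_one, by positivity, fun z => by
    rw [abs_of_pos (exp_pos _), one_mul]⟩

lemma term_le (hK : 0 ≤ K) (s : Finset ι) (hf : B1 f) {r : ℝ} {a : ι → ℝ} (ha : a ⬝ᵥ a ≤ r)
    (y : ι → ℝ) : |f a * ew K y (keep s a)| ≤ exp (Fintype.card ι * √r * ‖y‖) := by
  rw [abs_mul, abs_of_pos (ew_pos _ _ _)]
  exact (mul_le_of_le_one_left (ew_pos _ _ _).le (hf.2 a)).trans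
    (ew_le hK ((keep_le s a).trans ha) y)

lemma mg_Nk (hμ : Cp μ) (hK : 0 ≤ K) (s : Finset ι) (hf : B1 f) : MG (Nk K μ s f) := by
  have := hμ.prob
  obtain ⟨r, hr⟩ := hμ.bdd
  refine (mg_nrm r).of_le (measurable_Nk s hf.1) fun y => ?_
  rw [abs_of_pos (exp_pos _)]
  exact (norm_integral_le_of_norm_le (f := fun a => f a * ew K y (keep s a)) (integrable_const _)
    (hr.mono fun a ha => term_le hK s hf ha y)).trans_eq (by simp)

theorem IK_Nk_Nk (hμ : Cp μ) (hK : 0 ≤ K) (s t : Finset ι) (hf : B1 f) (hg : B1 g) :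
    IK K (fun y => Nk K μ s f y * Nk K μ t g y) =
      ∫ p, f p.1 * g p.2 * exp (K * (keep s p.1 ⬝ᵥ keep t p.2)) ∂μ.prod μ := by
  have := hμ.prob
  obtain ⟨r, hr⟩ := hμ.bdd
  have e : ∀ p : (ι → ℝ) × (ι → ℝ), f p.1 * g p.2 * exp (K * (keep s p.1 ⬝ᵥ keep t p.2)) =
      ∫ z, f p.1 * ew K (√K • z) (keep s p.1) * (g p.2 * ew K (√K • z) (keep t p.2)) ∂gv ι :=
    fun p => by
      rw [← IK_ew_ew hK, IK, ← integral_const_mul]
      congr 1
      funext z
      ring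
  simp only [e, IK, Nk, ← integral_prod_mul]
  refine integral_integral_swap ?_
  have m1 : Measurable fun q : (ι → ℝ) × (ι → ℝ) × (ι → ℝ) => q.2.1 := by fun_prop
  have m2 : Measurable fun q : (ι → ℝ) × (ι → ℝ) × (ι → ℝ) => q.2.2 := by fun_prop
  refine ((intK ((mg_nrm r).mul (mg_nrm r)) K).comp_fst (μ.prod μ)).mono'
    (((hf.1.comp m1).mul (measurable_ew K (by fun_prop) ((measurable_keep s).comp m1))).mul
      ((hg.1.comp m2).mul (measurable_ew K (by fun_prop)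
        ((measurable_keep t).comp m2)))).aestronglyMeasurable ?_
  filter_upwards [(Measure.quasiMeasurePreserving_fst.comp Measure.quasiMeasurePreserving_snd).ae hr,
    (Measure.quasiMeasurePreserving_snd.comp Measure.quasiMeasurePreserving_snd).ae hr] with q a b
  simp only [Function.uncurry, Real.norm_eq_abs]
  rw [abs_mul]
  exact mul_le_mul (term_le hK s hf a _) (term_le hK t hg b _) (abs_nonneg _) (exp_pos _).le

lemma ov_sq (h : Cp μ) (s : Finset ι) :
    ∫ p, |∑ k ∈ s, p.1 k * p.2 k| * |∑ k ∈ s, p.1 k * p.2 k| ∂μ.prod μ =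
      ∑ i ∈ s, ∑ j ∈ s, sm μ i j ^ 2 := by
  have := h.prob
  have e : ∀ p : (ι → ℝ) × (ι → ℝ), |∑ k ∈ s, p.1 k * p.2 k| * |∑ k ∈ s, p.1 k * p.2 k| =
      ∑ k ∈ s, ∑ l ∈ s, p.1 k * p.1 l * (p.2 k * p.2 l) := fun p => by
    rw [abs_mul_abs_self, sum_mul_sum]
    exact sum_congr rfl fun k _ => sum_congr rfl fun l _ => by ring
  have hi : ∀ k l, Integrable (fun p : (ι → ℝ) × (ι → ℝ) => p.1 k * p.1 l * (p.2 k * p.2 l))
      (μ.prod μ) := fun k l =>
    ((((good_coord h k).mul (good_coord h l)).fst μ).mul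
      (((good_coord h k).mul (good_coord h l)).snd μ)).integrable
  simp only [e]
  rw [integral_finsetSum _ fun k _ => integrable_finsetSum _ fun l _ => hi k l]
  refine sum_congr rfl fun k _ => ?_
  rw [integral_finsetSum _ fun l _ => hi k l]
  refine sum_congr rfl fun l _ => ?_
  rw [integral_prod_mul (fun x : ι → ℝ => x k * x l) (fun x : ι → ℝ => x k * x l), sq]
  rfl

/-- the `L²` estimate for a nonnegative weight -/
theorem l2 (hμ : Cp μ) (hK : 0 ≤ K) (s : Finset ι) (hf : B1 f) (h0 : ∀ a, 0 ≤ f a) :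
    IK K (fun y => (Un K μ f y - Nk K μ s f y) ^ 2) ≤
      K * (√(∑ i ∈ sᶜ, ∑ j ∈ sᶜ, sm μ i j ^ 2) * √(Xk (2 * K) μ μ)) := by
  have := hμ.prob
  have a := mg_Nk hμ hK univ hf
  have b := mg_Nk hμ hK s hf
  have gf : Good μ f := ⟨hf.1, 1, zero_le_one, .of_forall hf.2⟩
  have gw := (gf.fst μ).mul (gf.snd μ)
  have ga := ((Good.const K).mul (good_ov hμ univ)).exp
  have gb := ((Good.const K).mul (good_ov hμ s)).exp
  have gq := (good_ov hμ sᶜ).abs
  have hc := cs gq ga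
  rw [ov_sq hμ] at hc
  have e2 : ∫ p, exp (K * ∑ k, p.1 k * p.2 k) * exp (K * ∑ k, p.1 k * p.2 k) ∂μ.prod μ =
      Xk (2 * K) μ μ := by
    rw [(D2_keep hμ (2 * K) s).2, Xs]
    congr 1
    funext p
    rw [← exp_add]
    congr 1
    ring
  rw [e2] at hc
  refine le_trans ?_ (mul_le_mul_of_nonneg_left hc hK)
  have e1 : IK K (fun y => (Un K μ f y - Nk K μ s f y) ^ 2) =
      IK K (fun y => Nk K μ univ f y * Nk K μ univ f y) -
        2 * IK K (fun y => Nk K μ univ f y * Nk K μ s f y) +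
        IK K (fun y => Nk K μ s f y * Nk K μ s f y) := by
    rw [← IK_const_mul, ← IK_sub (a.mul a) ((a.mul b).const_mul 2),
      ← IK_add ((a.mul a).sub ((a.mul b).const_mul 2)) (b.mul b), Nk_univ]
    exact IK_congr fun y => by ring
  rw [e1, IK_Nk_Nk hμ hK _ _ hf hf, IK_Nk_Nk hμ hK _ _ hf hf, IK_Nk_Nk hμ hK _ _ hf hf,
    ← integral_const_mul K]
  simp only [keep_dot_keep]
  simp only [keep_univ, dot_keep]
  have h1 := integral_sub (gw.mul ga).integrable (gw.mul gb).integrable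
  refine le_trans (le_of_eq (Eq.trans (by ring) h1.symm)) (integral_mono
    ((gw.mul ga).integrable.sub (gw.mul gb).integrable)
    ((gq.mul ga).integrable.const_mul K) fun p => ?_)
  have h2 := exp_sub_le (K * ∑ k, p.1 k * p.2 k) (K * ∑ k ∈ s, p.1 k * p.2 k)
  rw [← mul_sub, ← sum_add_sum_compl s, add_sub_cancel_left, sum_add_sum_compl, abs_mul,
    abs_of_nonneg hK, mul_assoc] at h2
  have h3 : f p.1 * f p.2 ≤ 1 :=
    mul_le_one₀ (le_of_abs_le (hf.2 _)) (h0 _) (le_of_abs_le (hf.2 _))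
  simp only [Pi.sub_apply]
  rw [← mul_sub]
  exact (mul_le_mul_of_nonneg_left h2 (mul_nonneg (h0 _) (h0 _))).trans
    (mul_le_of_le_one_left (by positivity) h3)

lemma Nk_half [IsFiniteMeasure μ] (hK : 0 < K) (s : Finset ι) (hf : B1 f) (y : ι → ℝ) :
    Nk K μ s f y = 2 * Nk K μ s (fun a => (1 + f a) / 2) y - Nk K μ s (fun _ => 1) y := by
  have i1 := bm_int (μ := μ) ((Bm.const 1).mul (bm_ewk hK s y))
  have i2 := bm_int (μ := μ) (hf.bm.mul (bm_ewk hK s y))
  rw [eq_sub_iff_add_eq, Nk, Nk, Nk, ← integral_add i2 i1, ← integral_const_mul]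
  congr 1
  funext a
  ring

theorem main (hμ : Cp μ) (hK : 0 < K) (s : Finset ι) (hf : B1 f) :
    ∃ φ, B1 φ ∧ (∀ y, φ y = φ (keep s y)) ∧ ∫ x, |Tk K μ f x - Sm K φ x| ∂μ ≤
      4 * √(K * (√(∑ i ∈ sᶜ, ∑ j ∈ sᶜ, sm μ i j ^ 2) * √(Xk (2 * K) μ μ))) := by
  have := hμ.prob
  have o : B1 fun _ : ι → ℝ => (1 : ℝ) := ⟨measurable_const, fun _ => by simp⟩
  have u0 : ∀ a, 0 ≤ (1 + f a) / 2 := fun a => by linarith [(abs_le.mp (hf.2 a)).1]
  have u : B1 fun a => (1 + f a) / 2 := ⟨(hf.1.const_add 1).div_const 2, fun a => by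
    rw [abs_of_nonneg (u0 a)]
    linarith [(abs_le.mp (hf.2 a)).2]⟩
  have hφ : B1 fun y => Nk K μ s f y / Nk K μ s (fun _ => 1) y :=
    ⟨(measurable_Nk s hf.1).div (measurable_Nk s measurable_const), fun y => by
      rw [abs_div]
      exact div_le_one_of_le₀ ((abs_Nk_le hK s hf y).trans (le_abs_self _)) (abs_nonneg _)⟩
  refine ⟨_, hφ, fun y => by simp only [Nk_keep], ?_⟩
  have c := bm_abs ((bm_pm' (μ := μ) hK hf.bm).sub hφ.bm)
  refine (integral_mono_of_nonneg (.of_forall fun x => abs_nonneg _) (bm_int (bm_Ay (K := K) c))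
    (.of_forall fun x => abs_Ay_sub_le (bm_pm' hK hf.bm) hφ.bm c (fun _ => le_rfl) x)).trans ?_
  have h1 := bayes' (μ := μ) hK.le o.bm c
  simp only [one_mul] at h1
  have mU := (mg_Un hμ hK.le u.bm.bs).sub (mg_Nk hμ hK.le s u)
  have mM := (mg_Un hμ hK.le o.bm.bs).sub (mg_Nk hμ hK.le s o)
  have k1 := (IK_abs_le_sqrt (K := K) mU).trans (sqrt_le_sqrt (l2 hμ hK.le s u u0))
  have k2 := (IK_abs_le_sqrt (K := K) mM).trans (sqrt_le_sqrt (l2 hμ hK.le s o fun _ => zero_le_one))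
  have k3 := IK_add (K := K) (mU.abs.const_mul 2) (mM.abs.const_mul 2)
  rw [IK_const_mul, IK_const_mul] at k3
  rw [h1]
  refine (IK_mono ((mg_Un hμ hK.le o.bm.bs).mul c.mg)
    ((mU.abs.const_mul 2).add (mM.abs.const_mul 2)) fun y => ?_).trans (by linarith)
  have p1 := Mf_pos' (μ := μ) hK y
  have p2 := Nk_half (μ := μ) hK univ hf y
  have p3 := Nk_half (μ := μ) hK s hf y
  have p4 := hφ.2 y
  rw [Nk_univ, Nk_univ, Nk_univ] at p2
  rw [pm_eq, Mf_eq] at *
  have p5 : 0 < Nk K μ s (fun _ => 1) y := by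
    simp only [Nk, one_mul]
    exact integral_exp_pos (bm_int (bm_ewk hK s y))
  set M := Un K μ (fun _ => 1) y
  set M0 := Nk K μ s (fun _ => 1) y
  set t := Nk K μ s f y / M0 with ht
  have e : M * (Un K μ f y / M - t) = 2 * (Un K μ (fun a => (1 + f a) / 2) y -
      Nk K μ s (fun a => (1 + f a) / 2) y) - (1 + t) * (M - M0) := by
    have : t * M0 = Nk K μ s f y := div_mul_cancel₀ _ p5.ne'
    rw [mul_sub, mul_div_cancel₀ _ p1.ne']
    linear_combination p2 - p3 - this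
  rw [← abs_of_pos p1, ← abs_mul, abs_of_pos p1, e]
  refine (abs_sub _ _).trans ?_
  rw [abs_mul, abs_mul, abs_two]
  have : |1 + t| ≤ 2 := (abs_add_le _ _).trans (by rw [abs_one]; linarith)
  gcongr

end Cyl37

/-- **leaf CYL** -/
theorem cylStmt : CylStmt := by
  intro K B ε hK hε
  have h1 : 0 < K * (√B + 1) := by positivity
  refine ⟨((ε / 4) ^ 2 / (K * (√B + 1))) ^ 2, by positivity, fun ι _ _ μ s hμ hB hδ ψ hψ => ?_⟩
  obtain ⟨φ, a, b, c⟩ := Cyl37.main hμ hK s hψ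
  refine ⟨φ, a, b, c.trans ?_⟩
  have h2 := sqrt_le_sqrt ((Xk_mono hμ (K := 2 * K) (by positivity) (by linarith)).trans hB)
  have h3 := (sqrt_le_left (by positivity)).mpr hδ
  rw [← le_div_iff₀' four_pos, sqrt_le_left (by positivity)]
  calc _ ≤ K * ((ε / 4) ^ 2 / (K * (√B + 1)) * (√B + 1)) := by gcongr; linarith
    _ = _ := by field_simp

end Crest.Agent.T157.Cq
end
end

-- ▼ part T157/CqEv_79
section

/-!
# Row 157, part C: static expressions are in the universal classes (helper79)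

`ev_pa : e.Adm → Pa (EV e)`, transfer of finitely many tail bounds `tr_fin`, time grids `grid`.
-/

set_option autoImplicit false
set_option linter.unusedSectionVars false

noncomputable section

namespace Crest.Agent.T157.Cq.Ev79

open MeasureTheory Metric Finset Matrix Filter Topology
open Crest.ProbabilityR.SpinGlassDynamics Crest.Agent.T157.E Crest.Agent.T157.SL
open Crest.Agent.T157.Sg (sq2 ipV nv)
open Crest.Agent.T157.Soft (N23)
open Crest.Agent.T157.St (hat muG Tk)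
open Crest.Agent.T157.Chain22 (RC poi poi_nonneg hasSum_poi)
open Crest.Agent.T157.Tr (Off)
open Crest.Agent.T157.Un

section fixed
variable {n : ℕ} {ι : Type*} [Fintype ι]
  {κ : Type*} [Fintype κ] [DecidableEq κ] {φ : Cube n → κ → ℝ} {s r : ℝ}

/-- the frozen index is averaged by the static kernel started at the same point -/
lemma pcF_diag (hn : 0 < n) (hr : 0 < r) (hr' : r ≤ 1 / 4)
    {u : Cube n → (Pair n → ℝ) → ι → Cube n → ℝ} {β : (Pair n → ℝ) → Cube n → ℝ}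
    (h : ∀ a, PcF r (u a) β) :
    PcF r (fun g i x => ∑ a, k0 φ s (gw n g) x a * u a g i x) fun g x => 18 * β g x +
      4 * β g x ^ 2 + 4 * E2 φ s (gw n g) (fun y y' => Rh n y y' ^ 4) x := fun g => by
  have hw := gw_pos g
  have p := fun x => (h x).nn g x
  have q3 := E2_nonneg (φ := φ) (s := s) hw (F := fun y y' => Rh n y y' ^ 4)
    fun _ _ => by positivity
  have kc1 : ∀ (b : ℝ) (x : Cube n), (k0 φ s (gw n g) *ᵥ fun _ => b) x = b := fun b x => by
    simp only [mulVec, dotProduct, ← sum_mul, k0_row hw, one_mul]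
  have h0 := fun a => (h a g).1
  choose K hK hU using fun a => (h a g).2
  choose U h1 h2 using hU
  have ex : ∀ e x, ExV r (fun g i a => u a g i x) g e fun z i a => U a e z i x :=
    fun e x i a => h1 a e i x
  refine ⟨fun x => ?_, fun e x => 18 * (k0 φ s (gw n g) *ᵥ fun a => K a e x) x +
    2 * cv φ s (gw n g) (chi e) (fun i a => u a g i x) x, fun x => ?_, fun e =>
    ⟨fun z i x => ∑ a, kc φ s (gw n g) (chi e) z x a * U a e z i x,
      fun i x => exV_T (φ := φ) (s := s) hn hr' (ex e x) i x, fun z hz x => ⟨?_, ?_⟩⟩⟩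
  · have a1 : sq2 (fun i x => ∑ a, k0 φ s (gw n g) x a * u a g i x) x ≤
        (k0 φ s (gw n g) *ᵥ fun a => sq2 (u a g) x) x := by
      simp only [sq2, mulVec, dotProduct, mul_sum]
      rw [sum_comm]
      exact sum_le_sum fun i _ => Real.pow_arith_mean_le_arith_mean_pow_of_even univ _ _
        (fun a _ => k0_nn hw x a) (k0_row hw x) even_two
    have a2 := k0_mono (φ := φ) (s := s) hw (fun a => h0 a x) x
    rw [kc1] at a2
    nlinarith [p x, q3 x, sq_nonneg (β g x)]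
  · have a1 := sum_cv_le' (φ := φ) (s := s) hn hw (fun i a => u a g i x) (γ := fun _ _ => β g x)
      (fun y y' => (abs_dot_le (fun i a => u a g i x) y y').trans (by
        have b1 : sq2 (fun i a => u a g i x) y ≤ β g x := h0 y x
        have b2 : sq2 (fun i a => u a g i x) y' ≤ β g x := h0 y' x
        linarith)) x
    rw [E2_left hw (fun _ => β g x ^ 2), kc1] at a1
    have a3 : ∑ e, (k0 φ s (gw n g) *ᵥ fun a => K a e x) x ≤ N23 n ^ 2 * β g x := by
      have := k0_mono (φ := φ) (s := s) hw (fun a => hK a x) x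
      rw [kc1] at this
      simp only [mulVec, dotProduct, mul_sum] at this ⊢
      rwa [sum_comm]
    simp only [sum_add_distrib, ← mul_sum]
    linarith
  · have := (kc_jensen (φ := φ) (s := s) hw (sgn_chi e) (ball_subset_ball hr' hz) x
      fun i a => U a e z i x).trans (mul_le_mul_of_nonneg_left
        (k0_mono hw (fun a => (h2 a e z hz x).1) x) (by norm_num))
    rw [kc1] at this
    unfold sqc
    nlinarith [p x, q3 x, sq_nonneg (β g x)]
  · have a1 := sqc_T_sub (φ := φ) (s := s) hr hr' (ex e x) hz x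
    have a2 := k0_mono (φ := φ) (s := s) hw
      (f := sqc ((fun i a => U a e z i x) - fun i a => U a e 0 i x)) (fun a => (h2 a e z hz x).2) x
    exact a1.trans (by linarith)

end fixed

section chain
variable {Ω ι : Type*} [Fintype Ω] [DecidableEq Ω] [Fintype ι]

omit [DecidableEq Ω] in
lemma abs_avg {p f : Ω → ℝ} {L : ℝ} (h0 : ∀ y, 0 ≤ p y) (h1 : ∑ y, p y = 1) (hf : ∀ y, |f y| ≤ L) :
    |∑ y, p y * f y| ≤ L := by
  refine (abs_sum_le_sum_abs _ _).trans ((sum_le_sum fun y _ => ?_).trans_eq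
    (by rw [← sum_mul, h1, one_mul]))
  rw [abs_mul, abs_of_nonneg (h0 y)]
  exact mul_le_mul_of_nonneg_left (hf y) (h0 y)

lemma poi_sup (d : RC Ω) {t : ℝ} (ht : 0 ≤ t) (J : ℕ) {f : Ω → ℝ} {L : ℝ} (hf : ∀ x, |f x| ≤ L)
    (x : Ω) : |(d.H t *ᵥ f) x - ∑ j ∈ range J, poi t j * ((d.P ^ j) *ᵥ f) x| ≤
      L * (1 - ∑ j ∈ range J, poi t j) := by
  have b : ∀ j, |((d.P ^ j) *ᵥ f) x| ≤ L := fun j => abs_avg (d.pow_nn j x) (d.pow_row j x) hf
  have h1 := sum_le_hasSum (range J) (fun j _ => sub_nonneg.2 (mul_le_mul_of_nonneg_left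
    (abs_le.1 (b j)).2 (poi_nonneg ht j)))
    (((hasSum_poi t).mul_right L).sub (d.hasSum_H_mulVec t f x))
  have h2 := sum_le_hasSum (range J) (fun j _ => sub_nonneg.2 (mul_le_mul_of_nonneg_left
    (abs_le.1 (b j)).1 (poi_nonneg ht j)))
    ((d.hasSum_H_mulVec t f x).sub ((hasSum_poi t).mul_right (-L)))
  rw [sum_sub_distrib, ← sum_mul] at h1 h2
  rw [abs_le]
  constructor <;> linarith

lemma abs_exp_time {t t' t₀ x : ℝ} (h0 : 0 < t₀) (ht : t₀ ≤ t) (ht' : t₀ ≤ t') (hx : 0 ≤ x) :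
    |Real.exp (-(t * x)) - Real.exp (-(t' * x))| ≤ |t - t'| / t₀ := by
  have key : ∀ t t' : ℝ, t₀ ≤ t → t ≤ t' →
      |Real.exp (-(t * x)) - Real.exp (-(t' * x))| ≤ (t' - t) / t₀ := fun t t' a b => by
    have e : Real.exp (-(t' * x)) = Real.exp (-(t * x)) * Real.exp (-((t' - t) * x)) := by
      rw [← Real.exp_add]; congr 1; ring
    have d0 : 0 ≤ (t' - t) * x := mul_nonneg (sub_nonneg.2 b) hx
    have c1 := Real.add_one_le_exp (-((t' - t) * x))
    have c2 : Real.exp (-((t' - t) * x)) ≤ 1 := Real.exp_le_one_iff.2 (by linarith)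
    have c3 : Real.exp (-(t * x)) * (t * x) ≤ 1 := by
      rw [Real.exp_neg, inv_mul_le_iff₀ (Real.exp_pos _)]
      linarith [Real.add_one_le_exp (t * x)]
    have p := Real.exp_pos (-(t * x))
    set A := Real.exp (-(t * x))
    have c4 : A * (t₀ * x) ≤ 1 := le_trans (by gcongr) c3
    rw [e, abs_of_nonneg (by nlinarith), le_div_iff₀ h0]
    calc (A - A * Real.exp (-((t' - t) * x))) * t₀ ≤ A * ((t' - t) * x) * t₀ := by
          gcongr; nlinarith
      _ = (t' - t) * (A * (t₀ * x)) := by ring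
      _ ≤ _ := mul_le_of_le_one_right (sub_nonneg.2 b) c4
  rcases le_total t t' with h | h
  · rw [abs_sub_comm t, abs_of_nonneg (sub_nonneg.2 h)]; exact key t t' ht h
  · rw [abs_sub_comm, abs_of_nonneg (sub_nonneg.2 h)]; exact key t' t ht' h

/-- continuity of the semigroup in time, uniformly in the chain and in the time scale -/
lemma nv_HV_time (c : RC Ω) {σ t t' t₀ : ℝ} (hσ : 0 ≤ σ) (h0 : 0 < t₀) (ht : t₀ ≤ t) (ht' : t₀ ≤ t')
    (h : ι → Ω → ℝ) :
    nv c.π (Sg.HV c (σ * t) h - Sg.HV c (σ * t') h) ≤ |t - t'| / t₀ * nv c.π h := by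
  refine Sg.nv_le_of_sq (mul_nonneg (by positivity) (Sg.nv_nonneg _)) ?_
  rw [mul_pow, Sg.nv_sq c.isP, ipV, ipV, mul_sum]
  refine sum_le_sum fun i _ => ?_
  rw [c.parseval, c.parseval (h i), mul_sum]
  refine sum_le_sum fun k _ => ?_
  have h1 := abs_exp_time h0 ht ht' (mul_nonneg hσ (sub_nonneg.2 (c.ev_le_one k)))
  rw [Pi.sub_apply, Chain22.ip_sub_left, Sg.HV, Sg.HV, c.ip_H_φ, c.ip_H_φ, ← sub_mul,
    mul_mul_mul_comm, ← sq, mul_comm σ t, mul_comm σ t', mul_assoc t, mul_assoc t']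
  exact mul_le_mul_of_nonneg_right (sq_le_sq' (abs_le.1 h1).1 (abs_le.1 h1).2) (mul_self_nonneg _)

end chain

/-! ### a frozen configuration -/

/-- pointwise class, uniformly in a frozen configuration -/
structure Pf (u : ∀ n, Cube n → (Pair n → ℝ) → Unit → Cube n → ℝ) : Prop where
  meas : ∀ n a i x, Measurable fun g => u n a g i x
  ex : ∃ β, Mo β ∧ ∀ᶠ n : ℕ in atTop, ∀ a, PcF (1 / 4) (u n a) (β n)

namespace Pf
variable {u u' : ∀ n, Cube n → (Pair n → ℝ) → Unit → Cube n → ℝ} {K : ℝ}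

lemma const {f : ∀ n, Cube n → Unit → Cube n → ℝ} {B : ℝ} (hB : 0 ≤ B)
    (h : ∀ n a x, sq2 (f n a) x ≤ B) : Pf fun n a _ => f n a :=
  ⟨fun _ _ _ _ => measurable_const, _, .const hB, .of_forall fun n a =>
    (PcF.const _ (f n a)).mono le_rfl fun _ x => h n a x⟩

lemma add (h : Pf u) (h' : Pf u') : Pf fun n a g => u n a g + u' n a g := by
  obtain ⟨β, a, b⟩ := h.ex
  obtain ⟨β', a', b'⟩ := h'.ex
  refine ⟨fun n a i x => (h.meas n a i x).add (h'.meas n a i x), _,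
    (a.const_mul zero_le_two).add (a'.const_mul zero_le_two), ?_⟩
  filter_upwards [b, b'] with n c c' d
  exact (c d).add (c' d)

lemma smul (h : Pf u) (c : ℝ) : Pf fun n a g => c • u n a g := by
  obtain ⟨β, a, b⟩ := h.ex
  exact ⟨fun n a i x => (h.meas n a i x).const_mul c, _, a.const_mul (sq_nonneg c),
    b.mono fun n hn d => (hn d).smul c⟩

lemma T (h : Pf u) (hK : 0 ≤ K) : Pf fun n a g i => k0 (hat n) K (gw n g) *ᵥ u n a g i := by
  obtain ⟨β, a, b⟩ := h.ex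
  have hc := chn_hat hK
  refine ⟨fun n a i x => measurable_sum _ fun y _ => (meas_k0 _ K x y).mul (h.meas n a i y), _,
    (((a.T (φ := hat) hc.1).const_mul (c := 18) (by norm_num)).add
      ((a.sq.T (φ := hat) hc.1).const_mul (c := 4) (by norm_num))).add
      ((Mo.R4 hc).const_mul (c := 4) (by norm_num)), ?_⟩
  filter_upwards [b, eventually_gt_atTop 0] with n c hn d
  exact (c d).T hn (by norm_num) le_rfl hK

lemma Tpow (h : Pf u) (hK : 0 ≤ K) (j : ℕ) :
    Pf fun n a g i => (k0 (hat n) K (gw n g) ^ j) *ᵥ u n a g i := by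
  induction j with
  | zero => simpa using h
  | succ j ih => simpa only [pow_succ', ← mulVec_mulVec] using ih.T hK

lemma sum {κ : Type*} (t : Finset κ) {u : κ → ∀ n, Cube n → (Pair n → ℝ) → Unit → Cube n → ℝ}
    (h : ∀ k ∈ t, Pf (u k)) : Pf fun n a g => ∑ k ∈ t, u k n a g := by
  classical
  induction t using Finset.induction_on with
  | empty => simpa using const (f := 0) le_rfl fun _ _ _ => by simp [sq2]
  | insert k t hk ih =>
    simpa [sum_insert hk] using (h k (mem_insert_self _ _)).add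
      (ih fun j hj => h j (mem_insert_of_mem hj))

lemma diag (h : Pf u) (hK : 0 ≤ K) :
    Pc (ι := fun _ => Unit) fun n g i x => ∑ a, k0 (hat n) K (gw n g) x a * u n a g i x := by
  obtain ⟨β, a, b⟩ := h.ex
  refine ⟨fun n i x => measurable_sum _ fun y _ => (meas_k0 _ K x y).mul (h.meas n y i x), 1 / 4, _,
    by norm_num, le_rfl, ((a.const_mul (c := 18) (by norm_num)).add
      (a.sq.const_mul (c := 4) (by norm_num))).add
      ((Mo.R4 (chn_hat hK)).const_mul (c := 4) (by norm_num)), ?_⟩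
  filter_upwards [b, eventually_gt_atTop 0] with n c hn
  exact pcF_diag hn (by norm_num) le_rfl c

end Pf

lemma pa_of_sup {u : VF fun _ => Unit}
    (h : ∀ η : ℝ, 0 < η → ∃ v, Pc v ∧ ∀ n g x, |u n g () x - v n g () x| ≤ η) : Pa u :=
  fun k η ε hk hη _ => by
    obtain ⟨v, h1, h2⟩ := h (min 1 η) (by positivity)
    refine ⟨v, h1, .of_le (.of_forall fun n g => ((gwt g).mean_mono (g := fun _ => η)
      fun x => ?_).trans_eq ((gwt g).mean_const _))⟩
    have a : sq2 ((u - v) n g) x ≤ min 1 η := by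
      have e : sq2 ((u - v) n g) x = |u n g () x - v n g () x| ^ 2 := by simp [sq2]
      rw [e]
      exact (pow_le_of_le_one (abs_nonneg _) ((h2 n g x).trans (min_le_left _ _))
        two_ne_zero).trans (h2 n g x)
    exact (pow_le_of_le_one (Sg.sq2_nonneg _ x) (a.trans (min_le_left _ _)) hk.ne').trans
      (a.trans (min_le_right _ _))

/-- a static expression on the cube -/
def EV (e : SE) : VF fun _ => Unit := fun n g _ x => e.ev (muG n g) 0 (hat n x)

lemma psi_sup {L K' K c : ℝ} (hL : 1 ≤ L) (hK' : 0 ≤ K') (hK : 0 ≤ K) (hc : 0 ≤ c) {η : ℝ}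
    (hη : 0 < η) : ∃ v, Pc v ∧ ∀ n g x, |EV (.psi L K' K c) n g () x - v n g () x| ≤ η := by
  have L0 : 0 < L := by linarith
  obtain ⟨J, hJ⟩ := exists_poi_tail c (η := η / L) (by positivity)
  have b : ∀ y : ℝ, |L * Real.sin y| ≤ L := fun y => by
    rw [abs_mul, abs_of_pos L0]; exact mul_le_of_le_one_right L0.le (Real.abs_sin_le_one y)
  have h0 : Pf fun n a _ _ x => L * Real.sin (hat n a ⬝ᵥ hat n x / L) :=
    Pf.const (B := L ^ 2) (sq_nonneg _) fun n a x => by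
      simpa [sq2] using sq_le_sq' (abs_le.1 (b _)).1 (abs_le.1 (b _)).2
  refine ⟨_, (Pf.sum (range J) fun j _ => ((h0.T hK').Tpow hK j).smul (poi c j)).diag hK',
    fun n g x => ?_⟩
  have hw := gw_pos g
  simp only [EV, SE.ev, psiS, muG, Sg.Tk_dm hw hK', Top72.Qs_dm hw hK, Finset.sum_apply,
    Pi.smul_apply, smul_eq_mul]
  rw [mulVec, dotProduct, ← sum_sub_distrib]
  refine (abs_avg (p := k0 (hat n) K' (gw n g) x) (L := η) (k0_nn hw x) (k0_row hw x)
    fun a => (poi_sup (Sg.stRC (hat n) hw hK) hc J (fun y => abs_avg (k0_nn (φ := hat n) (s := K') hw y)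
      (k0_row hw y) fun a' => b (hat n a ⬝ᵥ hat n a' / L)) x).trans ?_).trans_eq' ?_
  · exact (mul_le_mul_of_nonneg_left hJ L0.le).trans_eq (by field_simp)
  · simp only [mul_sub]; rfl

/-- **admissible static expressions are in the class `Pa`** -/
theorem ev_pa : ∀ e : SE, e.Adm → Pa (EV e)
  | .var, _ => Pc.zero.pa
  | .psi _ _ _ _, h => pa_of_sup fun _ hη => psi_sup h.1 h.2.1.le h.2.2.1.le h.2.2.2 hη
  | .const a, _ => (Pc.const (a := fun _ _ _ => a) (B := a ^ 2)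
      (.of_forall fun _ _ => by simp [sq2])).pa
  | .add e e', h => (ev_pa e h.1).add (ev_pa e' h.2)
  | .mul e e', h => by
    have := (ev_pa e h.1).dot (ev_pa e' h.2)
    rwa [show dt (EV e) (EV e') = EV (.mul e e') by funext n g _ x; simp [dt, EV, SE.ev]] at this
  | .T K e, h => by
    have := (ev_pa e h.2).T (chn_hat h.1.le)
    rwa [show TS hat (fun _ => K) (EV e) = EV (.T K e) from funext fun n => funext fun g =>
      funext fun _ => funext fun x => (Sg.Tk_dm (gw_pos g) h.1.le _ x).symm] at this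
  | .Q K c e, h => by
    have := (ev_pa e h.2.2).Q (chn_hat h.1.le) h.2.1
    rwa [show QS (chn_hat h.1.le) c (EV e) = EV (.Q K c e) from funext fun n => funext fun g =>
      funext fun _ => funext fun x => (Top72.Qs_dm (gw_pos g) h.1.le c _ x).symm] at this

/-- the smoothed spin vector -/
def TH (K : ℝ) : VF Fin := fun n g i x => Tk K (muG n g) (fun y => y i) (hat n x)

theorem th_pc {K : ℝ} (hK : 0 ≤ K) : Pc (TH K) := by
  have := Pc.That (chn_hat hK)
  rwa [show (TS hat (fun _ => K) fun n _ => Sg.ft (hat n)) = TH K from funext fun n =>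
    funext fun g => funext fun i => funext fun x =>
      (Sg.Tk_dm (gw_pos g) hK (fun y => y i) x).symm] at this

/-! ### finitely many tail bounds -/

lemma ap_pow {X : Fam} (h : Ap X) (p : ℕ) : Ap fun n g => X n g ^ p := by
  induction p with
  | zero => simpa using Ap.const 1
  | succ p ih => simpa only [pow_succ] using ih.mul h

lemma ap_sum {I : Type*} (t : Finset I) {X : I → Fam} (h : ∀ i ∈ t, Ap (X i)) :
    Ap fun n g => ∑ i ∈ t, X i n g := by
  classical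
  induction t using Finset.induction_on with
  | empty => simpa using Ap.const 0
  | insert k t hk ih =>
    simpa only [sum_insert hk] using (h k (mem_insert_self _ _)).add
      (ih fun j hj => h j (mem_insert_of_mem hj))

lemma tight_sum {I : Type*} (t : Finset I) {X : I → Fam} {b : Bool} (h : ∀ i ∈ t, Tight b (X i)) :
    Tight b fun n g => ∑ i ∈ t, X i n g := by
  classical
  induction t using Finset.induction_on with
  | empty => simpa using Tight.const 0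
  | insert k t hk ih =>
    simpa only [sum_insert hk] using (h k (mem_insert_self _ _)).add
      (ih fun j hj => h j (mem_insert_of_mem hj))

/-- **joint transfer**: the loss in probability does not depend on the size of the family -/
theorem tr_fin {I : Type*} (t : Finset I) {X : I → Fam} (h : ∀ i ∈ t, Ap (X i))
    (h0 : ∀ i n g, 0 ≤ X i n g) {δ δ' ε : ℝ} (δ0 : 0 ≤ δ) (hδ : δ < δ') (hε : 0 < ε)
    (hG : Off disorderLaw (ε / 4) fun n g => ∀ i ∈ t, X i n g ≤ δ) (b : Bool) :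
    Off (couplingLaw b) ε fun n g => ∀ i ∈ t, X i n g ≤ δ' := by
  have d0 : 0 < δ' := δ0.trans_lt hδ
  have c1 : (1 : ℝ) ≤ t.card + 1 := le_add_of_nonneg_left (Nat.cast_nonneg _)
  obtain ⟨p, hp⟩ := exists_pow_lt_of_lt_one (x := 1 / 2 / (t.card + 1 : ℝ)) (y := δ'⁻¹ * δ)
    (by positivity) (by rwa [inv_mul_lt_iff₀ d0, mul_one])
  rw [lt_div_iff₀ (by positivity)] at hp
  have p0 : p ≠ 0 := by rintro rfl; rw [pow_zero] at hp; linarith
  have := (ap_sum t fun i hi => ap_pow ((Ap.const δ'⁻¹).mul (h i hi)) p).tr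
    (δ := 1 / 2) (δ' := 1) (by norm_num) hε (Eventually.mono hG fun n a => by
      refine le_trans (measure_mono fun g hg => ?_) a
      intro hh
      refine (show _ < _ from hg).not_ge
        ((sum_le_card_nsmul _ _ ((δ'⁻¹ * δ) ^ p) fun i hi => ?_).trans ?_)
      · exact pow_le_pow_left₀ (mul_nonneg (by positivity) (h0 i n g))
          (mul_le_mul_of_nonneg_left (hh i hi) (by positivity)) p
      · rw [nsmul_eq_mul]
        nlinarith [pow_nonneg (show 0 ≤ δ'⁻¹ * δ by positivity) p]) b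
  refine Eventually.mono this fun n a => le_trans (measure_mono fun g hg => ?_) a
  by_contra hh
  refine hg fun i hi => ?_
  have q : ∀ j, 0 ≤ δ'⁻¹ * X j n g := fun j => mul_nonneg (by positivity) (h0 j n g)
  have a1 := (single_le_sum (fun j _ => pow_nonneg (q j) p) hi).trans (not_lt.1 hh)
  rwa [pow_le_one_iff_of_nonneg (q i) p0, inv_mul_le_iff₀ d0, mul_one] at a1

/-- **transfer uniformly over an interval of times** -/
theorem grid {I : Type*} [Fintype I] {D : I → ℝ → Fam} {M : Fam} {r₁ r₂ δ ε : ℝ} (hδ : 0 < δ)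
    (hε : 0 < ε) (hD : ∀ i, ∀ r ∈ Set.Icc r₁ r₂, Ap fun n g => D i r n g ^ 2)
    (D0 : ∀ i r n g, 0 ≤ D i r n g) (hM : ∀ b, Tight b M)
    (hc : ∀ᶠ n : ℕ in atTop, ∀ g i, ∀ r ∈ Set.Icc r₁ r₂, ∀ r' ∈ Set.Icc r₁ r₂,
      D i r n g ≤ D i r' n g + |r - r'| * M n g)
    (hG : Off disorderLaw (ε / 8) fun n g => ∀ r ∈ Set.Icc r₁ r₂, ∀ i, D i r n g ^ 2 ≤ δ / 9)
    (b : Bool) : Off (couplingLaw b) ε fun n g => ∀ r ∈ Set.Icc r₁ r₂, ∀ i, D i r n g ^ 2 ≤ δ := by
  obtain ⟨B, B0, hB⟩ := sm_of_tight hM (half_pos hε)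
  have s0 : 0 < √δ := Real.sqrt_pos.2 hδ
  obtain ⟨t, t1, t2, t3⟩ := finite_cover_balls_of_compact (isCompact_Icc (a := r₁) (b := r₂))
    (e := √δ / 2 / B) (by positivity)
  have m : ∀ q : ℝ × I, q ∈ t2.toFinset ×ˢ univ → q.1 ∈ Set.Icc r₁ r₂ := fun q hq =>
    t1 (t2.mem_toFinset.1 (mem_product.1 hq).1)
  have := tr_fin (t2.toFinset ×ˢ univ) (X := fun q n g => D q.2 q.1 n g ^ 2)
    (fun q hq => hD _ _ (m q hq)) (fun _ _ _ => sq_nonneg _) (δ := δ / 9) (δ' := δ / 4)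
    (by positivity) (by linarith) (half_pos hε) ((hG.le (by linarith)).imp
      fun n g a q hq => a _ (m q hq) _) b
  filter_upwards [this, hB b, hc] with n a1 a2 a3
  refine meas_two hε a1 a2 fun g hg => ?_
  by_contra hh
  simp only [Set.mem_union, Set.mem_ofPred_eq, not_or, not_lt, not_not] at hh
  refine hg fun r hr i => ?_
  obtain ⟨r', c1, c2⟩ := Set.mem_iUnion₂.1 (t3 hr)
  rw [mem_ball, Real.dist_eq] at c2
  have c3 : D i r' n g ≤ √δ / 2 := (abs_le_of_sq_le_sq' ((hh.1 (r', i) (mem_product.2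
    ⟨t2.mem_toFinset.2 c1, mem_univ _⟩)).trans_eq (by rw [div_pow, Real.sq_sqrt hδ.le]; norm_num))
    (by positivity)).2
  have c4 : |r - r'| * M n g ≤ √δ / 2 := (mul_le_mul_of_nonneg_left hh.2 (abs_nonneg _)).trans
    ((mul_le_mul_of_nonneg_right c2.le B0.le).trans_eq (by field_simp))
  exact (pow_le_pow_left₀ (D0 i r n g) ((a3 g i r hr r' (t1 c1)).trans ((add_le_add c3 c4).trans_eq
    (add_halves _))) 2).trans_eq (Real.sq_sqrt hδ.le)

end Crest.Agent.T157.Cq.Ev79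

end
end

-- ▼ part T157/CqSgc_79
section

/-!
# Row 157, part C: the semigroup comparison for coin couplings (helper79)
-/

set_option autoImplicit false

noncomputable section

namespace Crest.Agent.T157.Cq.Ev79

open MeasureTheory Finset Matrix Filter Topology
open Crest.ProbabilityR.SpinGlassDynamics Crest.Agent.T157.E
open Crest.Agent.T157.Sg (sq2 ipV nv)
open Crest.Agent.T157.St (hat muG Tk)
open Crest.Agent.T157.Tr (Off)
open Crest.Agent.T157.Un

variable {ι : ℕ → Type} [∀ n, Fintype (ι n)] {u : VF ι} {K σ : ℝ}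

/-- distance between the heat flow and the static flow -/
def DD (hK : 0 ≤ K) (σ : ℝ) (u : VF ι) (r : ℝ) : Fam := nS (HS r u - QS (chn_hat hK) (σ * r) u)

lemma DD_ap (hK : 0 ≤ K) (hσ : 0 ≤ σ) (h : La u) {r : ℝ} (hr : 0 ≤ r) :
    Ap fun n g => DD hK σ u r n g ^ 2 := by
  have a := (h.H hr).sub (h.Q (chn_hat hK) (mul_nonneg hσ hr))
  exact (a.ip a).congr (.of_forall fun n g => (ipS_self n g).symm)

lemma DD_time (hK : 0 ≤ K) (hσ : 0 ≤ σ) (u : VF ι) {n : ℕ} (hn : 0 < n) (g : Pair n → ℝ)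
    {r r' r₁ : ℝ} (h0 : 0 < r₁) (hr : r₁ ≤ r) (hr' : r₁ ≤ r') :
    DD hK σ u r n g ≤ DD hK σ u r' n g + |r - r'| * (2 / r₁ * nS u n g) := by
  have a1 : nv (prob (gw n g)) (HS r u n g - HS r' u n g) ≤ |r - r'| / r₁ * nS u n g := by
    rw [HS_eq hn, HS_eq hn, Soft.tau_eq, Soft.tau_eq]
    exact nv_HV_time (Soft.ch hn g) (by positivity) h0 hr hr' _
  have a2 : nv (prob (gw n g)) (QS (chn_hat hK) (σ * r') u n g - QS (chn_hat hK) (σ * r) u n g) ≤
      |r' - r| / r₁ * nS u n g := nv_HV_time (stc (chn_hat hK) n g) hσ h0 hr' hr _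
  have a3 := Sg.nv_tri (isP g) (HS r u n g) (HS r' u n g) (QS (chn_hat hK) (σ * r) u n g)
  have a4 := Sg.nv_tri (isP g) (HS r' u n g) (QS (chn_hat hK) (σ * r') u n g)
    (QS (chn_hat hK) (σ * r) u n g)
  rw [abs_sub_comm] at a2
  have e : |r - r'| * (2 / r₁ * nS u n g) = |r - r'| / r₁ * nS u n g + |r - r'| / r₁ * nS u n g := by
    ring
  simp only [DD, nS, Pi.sub_apply] at *
  linarith

lemma sg1_sum (hK : 0 ≤ K) (σ r : ℝ) (f : ∀ n, (Pair n → ℝ) → ι n → (Fin n → ℝ) → ℝ) (n : ℕ)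
    (g : Pair n → ℝ) : ∑ i, Sg1 n g K (σ * r) r (f n g i) =
      DD hK σ (fun n g i x => f n g i (hat n x)) r n g ^ 2 := by
  rw [DD, nS, Sg.nv_sq (isP g), ipV]
  refine sum_congr rfl fun i _ => ?_
  simp only [Sg1, muG, Top72.Qs_dm (gw_pos g) hK, sq]
  rfl

lemma sg1_ev (hK : 0 ≤ K) (σ r : ℝ) (e : SE) (n : ℕ) (g : Pair n → ℝ) :
    Sg1 n g K (σ * r) r (e.ev (muG n g) 0) = DD hK σ (EV e) r n g ^ 2 := by
  have := sg1_sum (ι := fun _ => Unit) hK σ r (fun n g _ => e.ev (muG n g) 0) n g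
  rwa [Fintype.sum_unique] at this

/-- **(SG) passes from Gaussian couplings to coins** -/
theorem sg_coin {k : ℝ} (hk : 0 < k) (h : SgStmt false k) (b : Bool) : SgStmt b k :=
  fun r₁ r₂ B K' δ ε hr hK' hδ hε => by
  classical
  obtain ⟨K₀, K0, hK₀⟩ := h r₁ r₂ B K' (δ / 9) (ε / 8) hr hK' (by positivity) (by positivity)
  refine ⟨K₀, K0, fun K hK S hS => ?_⟩
  have k0 : 0 ≤ K := K0.le.trans hK
  have s0 : 0 ≤ k * K := by positivity
  have l1 : La (TH K') := (th_pc hK'.le).lc.la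
  have l2 : ∀ e : {e // e ∈ S}, La (EV e.1) := fun e => (ev_pa _ (hS _ e.2).1).la
  have e1 : ∀ r n g, ∑ i, Sg1 n g K (k * K * r) r (Tk K' (muG n g) fun x => x i) =
      DD k0 (k * K) (TH K') r n g ^ 2 := fun r n g =>
    sg1_sum (ι := Fin) k0 _ r (fun n g i => Tk K' (muG n g) fun x => x i) n g
  have c0 : 0 ≤ 2 / r₁ := by positivity
  have n0 : ∀ n g, 0 ≤ ∑ e : {e // e ∈ S}, nS (EV e.1) n g := fun n g =>
    sum_nonneg fun _ _ => Sg.nv_nonneg _
  refine (grid (I := Option {e // e ∈ S}) (r₁ := r₁) (r₂ := r₂)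
    (D := fun o r => o.elim (DD k0 (k * K) (TH K') r) fun e => DD k0 (k * K) (EV e.1) r)
    (M := fun n g => 2 / r₁ * (nS (TH K') n g + ∑ e : {e // e ∈ S}, nS (EV e.1) n g)) hδ hε
    ?_ ?_ (fun b => (Tight.const _).mul ((l1.tight b).add (tight_sum _ fun e _ => (l2 e).tight b))
      (fun _ _ => c0) fun n g => add_nonneg (Sg.nv_nonneg _) (n0 n g)) ?_
    ((hK₀ K hK S hS).imp fun n g a r hr' o => ?_) b).imp fun n g a r hr' => ⟨fun e he => ?_, ?_⟩
  · rintro (_ | e) r hr'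
    exacts [DD_ap k0 s0 l1 (hr.le.trans hr'.1), DD_ap k0 s0 (l2 e) (hr.le.trans hr'.1)]
  · rintro (_ | e) r n g <;> exact Sg.nv_nonneg _
  · filter_upwards [eventually_gt_atTop 0] with n hn g o r h1 r' h2
    rcases o with _ | e
    · refine (DD_time k0 s0 _ hn g hr h1.1 h2.1).trans (add_le_add le_rfl ?_)
      exact mul_le_mul_of_nonneg_left (mul_le_mul_of_nonneg_left (le_add_of_nonneg_right (n0 n g)) c0)
        (abs_nonneg _)
    · refine (DD_time k0 s0 _ hn g hr h1.1 h2.1).trans (add_le_add le_rfl ?_)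
      refine mul_le_mul_of_nonneg_left (mul_le_mul_of_nonneg_left (le_add_of_nonneg_of_le
        (Sg.nv_nonneg _) ?_) c0) (abs_nonneg _)
      exact single_le_sum (f := fun e : {e // e ∈ S} => nS (EV e.1) n g)
        (fun _ _ => Sg.nv_nonneg _) (mem_univ e)
  · rcases o with _ | e
    · exact (e1 r n g).ge.trans (a r hr').2
    · exact (sg1_ev k0 _ r e.1 n g).ge.trans ((a r hr').1 e.1 e.2)
  · exact (sg1_ev k0 _ r e n g).trans_le (a r hr' (some ⟨e, he⟩))
  · exact (e1 r n g).trans_le (a r hr' none)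

end Crest.Agent.T157.Cq.Ev79

namespace Crest.Agent.T157.Cq

theorem sgCoin_of (h : SgGlue) : SgCoin := fun k hk hB hI => Ev79.sg_coin hk (h k hk hB hI) true

end Crest.Agent.T157.Cq

end
end

-- ▼ part T157/KlA_17
section

/-!
# Row 157, part C (3d), first file (helper17): one step of the entropy chain

`gibbs`: the Gibbs variational inequality with a quadratic bound of the relative entropy;
`exch`: exchangeability of the static chain; `step`: the one-step inequality; `chain`.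
-/

set_option autoImplicit false
set_option linter.unusedSectionVars false

noncomputable section

namespace Crest.Agent.T157.Cq.Kl17

open MeasureTheory ProbabilityTheory Matrix Filter Topology Finset Real
open scoped ENNReal
open Crest.Agent.T157.E Crest.Agent.T157.St Crest.Agent.T157.St.A87 Crest.Agent.T157.Kr
open Crest.Agent.T157.SL (MG)

section abs
variable {Ω : Type*} [MeasurableSpace Ω]

lemma ofReal_int_le (μ : Measure Ω) (f : Ω → ℝ) :
    ENNReal.ofReal (∫ x, f x ∂μ) ≤ ∫⁻ x, ENNReal.ofReal (f x) ∂μ := by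
  by_cases h : Integrable f μ
  · have h1 := ofReal_integral_eq_lintegral_ofReal h.pos_part (.of_forall fun x => le_max_right _ _)
    simp only [ENNReal.ofReal_max, ENNReal.ofReal_zero, zero_le, sup_of_le_left] at h1
    rw [← h1]
    exact ENNReal.ofReal_le_ofReal (integral_mono h h.pos_part fun x => le_max_left _ _)
  · simp [integral_undef h]

lemma pt_ineq (ψ l : ℝ) : exp (-ψ - l) * (-ψ - l) ≤
    2 * (1 - exp (-ψ - l)) * l + (1 + exp (-ψ - l)) * ψ ^ 2 + exp (-ψ - l) - 1 := by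
  set g := -ψ - l with hg
  set p := exp g with hp
  have p0 : 0 < p := exp_pos _
  have h1 : g + 1 ≤ p := add_one_le_exp g
  have h2 : p - 1 ≤ p * g := by
    have := mul_le_mul_of_nonneg_left (add_one_le_exp (-g)) p0.le
    rw [hp, ← exp_add, add_neg_cancel, exp_zero] at this
    linarith
  have key : (1 - p) ^ 2 ≤ (p - 1) * g * (1 + p) := by
    rcases le_total 1 p with h | h
    · have g0 : 0 ≤ g := by nlinarith
      nlinarith [mul_nonneg (sub_nonneg.2 h) (by nlinarith : 0 ≤ (1 + p) * g - (p - 1))]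
    · have g0 : g ≤ 0 := by linarith
      nlinarith [mul_nonneg (sub_nonneg.2 h) (by nlinarith : 0 ≤ -g * (1 + p) - (1 - p))]
  have h3 : 2 * ((1 - p) * ψ) ≤ (p - 1) * g + (1 + p) * ψ ^ 2 := by
    refine le_of_mul_le_mul_left ?_ (by positivity : 0 < 1 + p)
    nlinarith [sq_nonneg ((1 - p) - (1 + p) * ψ)]
  have e : (p - 1) * g = (1 - p) * ψ + (1 - p) * l := by rw [hg]; ring
  nlinarith

lemma int_bdd {Q : Measure Ω} [IsFiniteMeasure Q] {f : Ω → ℝ} (m : Measurable f) {B : ℝ}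
    (h : ∀ ω, |f ω| ≤ B) : Integrable f Q :=
  .of_bound m.aestronglyMeasurable B (.of_forall h)

/-- Gibbs variational inequality with a quadratic bound of the entropy -/
lemma gibbs {Q : Measure Ω} [IsProbabilityMeasure Q] {ψ L f G : Ω → ℝ} {b c B : ℝ}
    (mψ : Measurable ψ) (mL : Measurable L) (mf : Measurable f) (iG : Integrable G Q)
    (hc : ∀ ω, -c ≤ ψ ω) (hL : ∀ ω, |L ω| ≤ B) (hf : ∀ ω, |f ω| ≤ B)
    (hG : ∀ ω, ψ ω ^ 2 ≤ G ω + b) :
    (∫ ω, f ω * exp (-ψ ω) ∂Q) / (∫ ω, exp (-ψ ω) ∂Q) - log (∫ ω, exp (L ω) ∂Q) ≤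
      (∫ ω, (max (f ω - L ω) 0 + G ω) * exp (-ψ ω) ∂Q) / (∫ ω, exp (-ψ ω) ∂Q) +
        (∫ ω, G ω ∂Q + 2 * b) := by
  have be : ∀ ω, |exp (-ψ ω)| ≤ exp c := fun ω => by
    rw [abs_of_pos (exp_pos _), exp_le_exp]; linarith [hc ω]
  have me : Measurable fun ω => exp (-ψ ω) := by fun_prop
  have ie : Integrable (fun ω => exp (-ψ ω)) Q := int_bdd me be
  have iL : Integrable (fun ω => exp (L ω)) Q := int_bdd (by fun_prop) (B := exp B) fun ω => by
    rw [abs_of_pos (exp_pos _), exp_le_exp]; exact (le_abs_self _).trans (hL ω)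
  set Z := ∫ ω, exp (-ψ ω) ∂Q with hZ
  set c₀ := ∫ ω, exp (L ω) ∂Q with hc₀
  have Z0 : 0 < Z := integral_exp_pos ie
  have c0 : 0 < c₀ := integral_exp_pos iL
  have i1 : Integrable (fun ω => f ω * exp (-ψ ω)) Q :=
    (int_bdd mf hf).mul_bdd me.aestronglyMeasurable (.of_forall be)
  have i2 : Integrable (fun ω => (max (f ω - L ω) 0 + G ω) * exp (-ψ ω)) Q :=
    (((int_bdd mf hf).sub (int_bdd mL hL)).pos_part.add iG).mul_bdd me.aestronglyMeasurable
      (.of_forall be)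
  have key : ∀ ω, f ω * exp (-ψ ω) / Z - log c₀ / Z * exp (-ψ ω) ≤
      (max (f ω - L ω) 0 + G ω) * exp (-ψ ω) / Z + (G ω + (exp (L ω) / c₀ +
        ((b - 2 * log Z) / Z * exp (-ψ ω) + (b + 2 * log Z - 1)))) := fun ω => by
    have h1 := pt_ineq (ψ ω) (log Z)
    have e : exp (-ψ ω - log Z) = exp (-ψ ω) / Z := by rw [exp_sub, exp_log Z0]
    have h2 := mul_le_mul_of_nonneg_left
      (add_one_le_exp (L ω - log c₀ - (-ψ ω - log Z))) (exp_pos (-ψ ω - log Z)).le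
    rw [← exp_add, add_sub_cancel, exp_sub (L ω), exp_log c0] at h2
    rw [e] at h1 h2
    have p0 : 0 < exp (-ψ ω) / Z := by positivity
    have h3 := mul_le_mul_of_nonneg_left (hG ω) (by positivity : 0 ≤ 1 + exp (-ψ ω) / Z)
    have h4 := mul_le_mul_of_nonneg_left (le_max_left (f ω - L ω) 0) p0.le
    simp only [mul_div_assoc, div_mul_eq_mul_div, mul_div_assoc]
    set p := exp (-ψ ω) / Z
    nlinarith
  have h := integral_mono ((i1.div_const Z).sub (ie.const_mul _)) ((i2.div_const Z).add (iG.add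
    ((iL.div_const c₀).add ((ie.const_mul _).add (integrable_const _))))) key
  rw [integral_sub' (i1.div_const Z) (ie.const_mul _), integral_add' (i2.div_const Z) (iG.add
    ((iL.div_const c₀).add ((ie.const_mul _).add (integrable_const _)))), integral_add' iG
    ((iL.div_const c₀).add ((ie.const_mul _).add (integrable_const _))), integral_add'
    (iL.div_const c₀) ((ie.const_mul _).add (integrable_const _)), integral_add'
    (ie.const_mul _) (integrable_const _)] at h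
  simp only [integral_div, integral_const_mul, integral_const, probReal_univ, one_smul, ← hZ,
    ← hc₀, div_mul_cancel₀ _ Z0.ne', div_self c0.ne'] at h
  linarith

end abs

variable {ι : Type*} [Fintype ι] [DecidableEq ι] {μ : Measure (ι → ℝ)} {K : ℝ}

lemma q0 (x : ι → ℝ) : 0 ≤ x ⬝ᵥ x := Cond.dot_self_nonneg x

lemma ew_bd (hK : 0 < K) (y x : ι → ℝ) : |ew K y x| ≤ exp (y ⬝ᵥ y / (2 * K)) := by
  rw [abs_of_pos (ew_pos _ _ _), ew, exp_le_exp, le_div_iff₀ (by positivity)]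
  have := q0 (y - K • x)
  simp only [sub_dotProduct, dotProduct_sub, smul_dotProduct, dotProduct_smul, smul_eq_mul,
    dotProduct_comm x y] at this
  nlinarith

lemma m_ew (K : ℝ) (y : ι → ℝ) : Measurable (ew K y) := measurable_ew K measurable_const measurable_id

lemma int_ew [IsProbabilityMeasure μ] (hK : 0 < K) (y : ι → ℝ) : Integrable (ew K y) μ :=
  int_bdd (m_ew K y) (ew_bd hK y)

lemma Mf_pos' [IsProbabilityMeasure μ] (hK : 0 < K) (y : ι → ℝ) : 0 < Mf K μ y :=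
  integral_exp_pos (int_ew hK y)

lemma m_pm [IsProbabilityMeasure μ] (K : ℝ) {G : (ι → ℝ) → (ι → ℝ) → ℝ}
    (hG : Measurable fun p : (ι → ℝ) × (ι → ℝ) => G p.1 p.2) :
    Measurable fun y => pm K μ (G y) y := by
  have h1 : Measurable fun p : (ι → ℝ) × (ι → ℝ) => ew K p.1 p.2 := (continuous_ew K).measurable
  exact ((hG.mul h1).stronglyMeasurable.integral_prod_right' (ν := μ)).measurable.div
    (h1.stronglyMeasurable.integral_prod_right' (ν := μ)).measurable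

lemma abs_pm [IsProbabilityMeasure μ] (hK : 0 < K) {f : (ι → ℝ) → ℝ} {B : ℝ} (h : ∀ x, |f x| ≤ B)
    (y : ι → ℝ) : |pm K μ f y| ≤ B := by
  rw [pm, abs_div, abs_of_pos (Mf_pos' hK y), div_le_iff₀ (Mf_pos' hK y), Mf, ← integral_const_mul]
  refine norm_integral_le_of_norm_le (f := fun x => f x * ew K y x) ((int_ew hK y).const_mul B)
    (.of_forall fun x => ?_)
  rw [Real.norm_eq_abs, abs_mul, abs_of_pos (ew_pos _ _ _)]
  exact mul_le_mul_of_nonneg_right (h x) (ew_pos _ _ _).le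

lemma phi_ew (hK : 0 < K) (y x : ι → ℝ) : phi K (y - K • x) = phi K y * ew K y x := by
  rw [phi, phi, ew, mul_assoc (_ ^ _), ← exp_add]
  congr 2
  simp only [sub_dotProduct, dotProduct_sub, smul_dotProduct, dotProduct_smul, smul_eq_mul,
    dotProduct_comm x y]
  field_simp
  ring

lemma lint_joint [IsProbabilityMeasure μ] (hK : 0 < K) {H : (ι → ℝ) × (ι → ℝ) → ℝ≥0∞}
    (hH : Measurable H) :
    ∫⁻ x, ∫⁻ z, H (K • x + √K • z, x) ∂gv ι ∂μ =
      ∫⁻ y, ENNReal.ofReal (phi K y) * ∫⁻ x, ENNReal.ofReal (ew K y x) * H (y, x) ∂μ := by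
  have h2 : ∀ x, ∫⁻ z, H (K • x + √K • z, x) ∂gv ι =
      ∫⁻ y, ENNReal.ofReal (phi K y) * (ENNReal.ofReal (ew K y x) * H (y, x)) := fun x => by
    rw [lintegral_gv_scale hK (K • x) (G := fun y => H (y, x)) (by fun_prop)]
    simp only [phi_ew hK, ENNReal.ofReal_mul (phi_nonneg _ _), mul_assoc]
  simp only [h2]
  have h4 : Measurable fun p : (ι → ℝ) × (ι → ℝ) => ENNReal.ofReal (phi K p.2) := by fun_prop
  have h5 : Measurable fun p : (ι → ℝ) × (ι → ℝ) => ENNReal.ofReal (ew K p.2 p.1) :=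
    (measurable_ew K measurable_snd measurable_fst).ennreal_ofReal
  have h6 : Measurable fun p : (ι → ℝ) × (ι → ℝ) => H (p.2, p.1) := by fun_prop
  rw [lintegral_lintegral_swap (f := fun x y => ENNReal.ofReal (phi K y) *
    (ENNReal.ofReal (ew K y x) * H (y, x))) (h4.mul (h5.mul h6)).aemeasurable]
  refine lintegral_congr fun y => lintegral_const_mul _ ((m_ew K y).ennreal_ofReal.mul ?_)
  fun_prop

/-- exchangeability -/
lemma exch [IsProbabilityMeasure μ] (hK : 0 < K) {G : (ι → ℝ) → (ι → ℝ) → ℝ}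
    (hG : Measurable fun p : (ι → ℝ) × (ι → ℝ) => G p.1 p.2) :
    ∫⁻ x, ∫⁻ z, ENNReal.ofReal (pm K μ (G (K • x + √K • z)) (K • x + √K • z)) ∂gv ι ∂μ ≤
      ∫⁻ x, ∫⁻ z, ENNReal.ofReal (G (K • x + √K • z) x) ∂gv ι ∂μ := by
  have h1 := lint_joint (μ := μ) hK ((m_pm (μ := μ) K hG).comp measurable_fst).ennreal_ofReal
  have h2 := lint_joint (μ := μ) hK hG.ennreal_ofReal
  simp only [Function.comp_apply] at h1 h2
  rw [h1, h2]
  refine lintegral_mono fun y => mul_le_mul_right ?_ _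
  rw [lintegral_mul_const _ (m_ew K y).ennreal_ofReal, ← ofReal_integral_eq_lintegral_ofReal
    (int_ew hK y) (.of_forall fun x => (ew_pos _ _ _).le),
    ← ENNReal.ofReal_mul (integral_nonneg fun x => (ew_pos _ _ _).le), pm, ← Mf,
    mul_div_cancel₀ _ (Mf_pos' hK y).ne']
  refine (ofReal_int_le _ _).trans_eq (lintegral_congr fun x => ?_)
  rw [mul_comm, ENNReal.ofReal_mul (ew_pos _ _ _).le]

lemma int_scale {v : ℝ} (hv : 0 < v) (c : ι → ℝ) {G : (ι → ℝ) → ℝ} (hG : Measurable G) :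
    ∫ g, G (c + √v • g) ∂gv ι = ∫ y, phi v (y - c) * G y := by
  rw [← integral_map (φ := fun g => c + √v • g) (by fun_prop) hG.aestronglyMeasurable,
    gv_scale hv, integral_withDensity_eq_integral_toReal_smul (by fun_prop)
      (.of_forall fun _ => ENNReal.ofReal_lt_top)]
  simp only [ENNReal.toReal_ofReal (phi_nonneg _ _), smul_eq_mul]

variable {W : (ι → ℝ) → ℝ} {F : (ι → ℝ) → ι → ℝ}

/-- the posterior is a tilt of the Gaussian step -/
lemma rep (hK : 0 < K) (mW : Measurable W) (iW : Integrable (fun x => exp (W x)) volume)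
    (y δ : ι → ℝ) : ∃ c : ℝ, 0 < c ∧ ∀ f : (ι → ℝ) → ℝ, Measurable f →
      ∫ z, f (y + δ + √K⁻¹ • z) * exp (-(W y - W (y + δ + √K⁻¹ • z) +
        K * (δ ⬝ᵥ (y + δ + √K⁻¹ • z - y)))) ∂gv ι =
      c * ∫ x, f x * ew K (K • y) x ∂(volume.tilted W) := by
  have Z0 := integral_exp_pos iW
  refine ⟨phi K⁻¹ (y + δ) * exp (K * (δ ⬝ᵥ y) - W y) * ∫ x, exp (W x),
    by have := phi_pos (inv_pos.2 hK) (y + δ); positivity, fun f hf => ?_⟩
  rw [int_scale (inv_pos.2 hK) (y + δ)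
    (G := fun x => f x * exp (-(W y - W x + K * (δ ⬝ᵥ (x - y))))) (by fun_prop),
    integral_tilted, ← integral_const_mul]
  refine integral_congr_ae (.of_forall fun x => ?_)
  have e : exp (-((x - (y + δ)) ⬝ᵥ (x - (y + δ))) / (2 * K⁻¹)) *
      exp (-(W y - W x + K * (δ ⬝ᵥ (x - y)))) = exp (-((y + δ) ⬝ᵥ (y + δ)) / (2 * K⁻¹)) *
      exp (K * (δ ⬝ᵥ y) - W y) * exp (W x) * ew K (K • y) x := by
    rw [ew, ← exp_add, ← exp_add, ← exp_add, ← exp_add]
    congr 1
    simp only [sub_dotProduct, dotProduct_sub, add_dotProduct, dotProduct_add, smul_dotProduct,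
      smul_eq_mul, dotProduct_comm x y, dotProduct_comm x δ, dotProduct_comm y δ]
    field_simp
    ring
  simp only [phi, smul_eq_mul]
  linear_combination (exp := 1) (√(2 * π * K⁻¹))⁻¹ ^ Fintype.card ι * f x * e -
    (√(2 * π * K⁻¹))⁻¹ ^ Fintype.card ι * f x * exp (-((y + δ) ⬝ᵥ (y + δ)) / (2 * K⁻¹)) *
      exp (K * (δ ⬝ᵥ y) - W y) * exp (W x) * ew K (K • y) x * mul_inv_cancel₀ Z0.ne'

/-- one step of the scheme -/
def Uk (K : ℝ) (F : (ι → ℝ) → ι → ℝ) (v : (ι → ℝ) → ℝ) (x : ι → ℝ) : ℝ :=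
  ∫ ξ, v (F x + √(2 * K⁻¹) • ξ) ∂gv ι

/-- hypotheses of the one-step inequality -/
structure Hyp (K : ℝ) (W : (ι → ℝ) → ℝ) (F : (ι → ℝ) → ι → ℝ) (G b : (ι → ℝ) → (ι → ℝ) → ℝ)
    (R : (ι → ℝ) × (ι → ℝ) → ℝ) : Prop where
  K0 : 0 < K
  mW : Measurable W
  iW : Integrable (fun x => exp (W x)) volume
  mF : Measurable F
  hW : ∃ C, ∀ x, W x ≤ C - x ⬝ᵥ x
  mG : Measurable fun p : (ι → ℝ) × (ι → ℝ) => G p.1 p.2
  G0 : ∀ y x, 0 ≤ G y x
  gG : ∀ y, MG (G y)
  sq : ∀ x y x', (W y - W x' + K * ((F x - x) ⬝ᵥ (x' - y))) ^ 2 ≤ G y x' + b x y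
  mR : Measurable R
  R0 : ∀ p, 0 ≤ R p
  H1 : ∀ x z, G (x + √K⁻¹ • z) x ≤ R (x, z)
  H2 : ∀ x z, ∫ z', G (x + √K⁻¹ • z) (x + √K⁻¹ • z + (F x - x) + √K⁻¹ • z') ∂gv ι +
    2 * b x (x + √K⁻¹ • z) ≤ R (x, z)

variable {G b : (ι → ℝ) → (ι → ℝ) → ℝ} {R : (ι → ℝ) × (ι → ℝ) → ℝ} {f L : (ι → ℝ) → ℝ} {B : ℝ}

lemma Hyp.prob (h : Hyp K W F G b R) : IsProbabilityMeasure (volume.tilted W) :=
  isProbabilityMeasure_tilted h.iW

lemma Hyp.pt (h : Hyp K W F G b R) (mf : Measurable f) (mL : Measurable L) (hf : ∀ x, |f x| ≤ B)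
    (hL : ∀ x, |L x| ≤ B) (x y : ι → ℝ) :
    pm K (volume.tilted W) f (K • y) - log (∫ z, exp (L (y + (F x - x) + √K⁻¹ • z)) ∂gv ι) ≤
      pm K (volume.tilted W) (fun x' => max (f x' - L x') 0 + G y x') (K • y) +
        (∫ z, G y (y + (F x - x) + √K⁻¹ • z) ∂gv ι + 2 * b x y) := by
  obtain ⟨c, c0, hc⟩ := rep h.K0 h.mW h.iW y (F x - x)
  obtain ⟨C, hC⟩ := h.hW
  have mW := h.mW
  have := gibbs (Q := gv ι) (ψ := fun z => W y - W (y + (F x - x) + √K⁻¹ • z) +
      K * ((F x - x) ⬝ᵥ (y + (F x - x) + √K⁻¹ • z - y)))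
    (L := fun z => L (y + (F x - x) + √K⁻¹ • z)) (f := fun z => f (y + (F x - x) + √K⁻¹ • z))
    (G := fun z => G y (y + (F x - x) + √K⁻¹ • z)) (b := b x y)
    (c := C - W y + K * ((F x - x) ⬝ᵥ y) + K ^ 2 / 4 * ((F x - x) ⬝ᵥ (F x - x))) (B := B)
    (by fun_prop) (by fun_prop) (by fun_prop) ((h.gG y).affine _ _).int (fun z => by
      generalize y + (F x - x) + √K⁻¹ • z = u
      generalize F x - x = δ
      have h1 := q0 (u + (K / 2) • δ)
      simp only [dotProduct_sub, add_dotProduct, dotProduct_add, smul_dotProduct, dotProduct_smul,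
        smul_eq_mul, dotProduct_comm u δ] at h1 ⊢
      nlinarith [hC u])
    (fun _ => hL _) (fun _ => hf _) fun _ => h.sq _ _ _
  have h1 := hc (fun _ => 1) measurable_const
  simp only [one_mul] at h1
  rw [hc f mf, hc (fun x' => max (f x' - L x') 0 + G y x')
    (((mf.sub mL).max measurable_const).add (h.gG y).meas), h1, mul_div_mul_left _ _ c0.ne',
    mul_div_mul_left _ _ c0.ne'] at this
  exact this

lemma sm_eq (hK : 0 < K) (x z : ι → ℝ) : K • (x + √K⁻¹ • z) = K • x + √K • z := by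
  rw [smul_add, smul_smul, sqrt_inv, ← div_eq_mul_inv, div_sqrt]

/-- the one-step inequality -/
lemma Hyp.step (h : Hyp K W F G b R) (mf : Measurable f) (mL : Measurable L) (hf : ∀ x, |f x| ≤ B)
    (hL : ∀ x, |L x| ≤ B) :
    ∫⁻ x, ENNReal.ofReal (Tk K (volume.tilted W) f x - log (Uk K F (fun u => exp (L u)) x))
      ∂(volume.tilted W) ≤ ∫⁻ x, ENNReal.ofReal (f x - L x) ∂(volume.tilted W) +
        2 * ∫⁻ x, ∫⁻ z, ENNReal.ofReal (R (x, z)) ∂gv ι ∂(volume.tilted W) := by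
  have := h.prob
  have hK := h.K0
  set μ : Measure (ι → ℝ) := volume.tilted W with hμ
  have mG := h.mG
  have mR := h.mR
  let G' : (ι → ℝ) → (ι → ℝ) → ℝ := fun Y x' => max (f x' - L x') 0 + G (K⁻¹ • Y) x'
  have mG' : Measurable fun p : (ι → ℝ) × (ι → ℝ) => G' p.1 p.2 :=
    (((mf.sub mL).max measurable_const).comp measurable_snd).add
      (mG.comp (f := fun p : (ι → ℝ) × (ι → ℝ) => (K⁻¹ • p.1, p.2)) (by fun_prop))
  have eY : ∀ x z : ι → ℝ, K⁻¹ • (K • x + √K • z) = x + √K⁻¹ • z := fun x z => by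
    rw [← sm_eq hK, smul_smul, inv_mul_cancel₀ hK.ne', one_smul]
  have mI : Measurable fun x => ∫⁻ z, ENNReal.ofReal (R (x, z)) ∂gv ι :=
    mR.ennreal_ofReal.lintegral_prod_right'
  have h1 : ∀ x, ENNReal.ofReal (Tk K μ f x - log (Uk K F (fun u => exp (L u)) x)) ≤
      ∫⁻ z, ENNReal.ofReal (pm K μ (G' (K • x + √K • z)) (K • x + √K • z)) ∂gv ι +
        ∫⁻ z, ENNReal.ofReal (R (x, z)) ∂gv ι := fun x => by
    have mΦ : MG fun u => exp (L (F x + u)) := .of_bdd (by fun_prop) (exp B) fun u => by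
      rw [abs_of_pos (exp_pos _), exp_le_exp]; exact (le_abs_self _).trans (hL _)
    have e1 := IK_IK (inv_pos.2 hK).le (inv_pos.2 hK).le mΦ
    have i1 := intK (mg_IK mΦ K⁻¹) K⁻¹
    have c0 : 0 < Uk K F (fun u => exp (L u)) x := integral_exp_pos (intK mΦ (2 * K⁻¹))
    have c1 : ∀ z : ι → ℝ, 0 < ∫ z', exp (L (F x + (√K⁻¹ • z + √K⁻¹ • z'))) ∂gv ι := fun z =>
      integral_exp_pos (mΦ.affine _ _).int
    simp only [IK, ← two_mul] at e1 i1
    have i2 : Integrable (fun z => pm K μ f (K • x + √K • z)) (gv ι) :=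
      int_bdd ((m_pm K (G := fun _ => f) (mf.comp measurable_snd)).comp (by fun_prop))
        fun z => abs_pm hK hf _
    set c := Uk K F (fun u => exp (L u)) x with hc
    have e2 : Tk K μ f x - log c = ∫ z, (pm K μ f (K • x + √K • z) -
        ((∫ z', exp (L (F x + (√K⁻¹ • z + √K⁻¹ • z'))) ∂gv ι) / c + (log c - 1))) ∂gv ι := by
      rw [integral_sub i2 (by exact (i1.div_const c).add (integrable_const _)),
        integral_add (i1.div_const c) (integrable_const _), integral_div, e1]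
      have : (∫ z, exp (L (F x + √(2 * K⁻¹) • z)) ∂gv ι) / c = 1 := div_self c0.ne'
      rw [this]
      simp [Tk]
    rw [e2, ← lintegral_add_right _ (by fun_prop)]
    refine (ofReal_int_le _ _).trans (lintegral_mono fun z => ?_)
    refine le_trans (ENNReal.ofReal_le_ofReal ?_) ENNReal.ofReal_add_le
    have h2 := h.pt mf mL hf hL x (x + √K⁻¹ • z)
    have e3 : ∀ z', x + √K⁻¹ • z + (F x - x) + √K⁻¹ • z' = F x + (√K⁻¹ • z + √K⁻¹ • z') :=
      fun z' => by abel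
    have h3 := h.H2 x z
    have h4 := log_le_sub_one_of_pos (div_pos (c1 z) c0)
    rw [log_div (c1 z).ne' c0.ne'] at h4
    simp only [e3, sm_eq hK] at h2 h3
    simp only [G', eY]
    linarith
  refine (lintegral_mono h1).trans ?_
  rw [lintegral_add_right _ mI, two_mul, ← add_assoc]
  refine add_le_add_left ((exch hK mG').trans ?_) _
  rw [← lintegral_add_right _ mI]
  refine lintegral_mono fun x => ?_
  calc _ ≤ ∫⁻ z, ENNReal.ofReal (f x - L x) + ENNReal.ofReal (R (x, z)) ∂gv ι :=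
        lintegral_mono fun z => ENNReal.ofReal_add_le.trans (add_le_add (by simp)
          (ENNReal.ofReal_le_ofReal (by rw [eY]; exact h.H1 x z)))
    _ = _ := by rw [lintegral_add_left measurable_const]; simp

lemma Uk_bd (mF : Measurable F) (mf : Measurable f) {a c : ℝ} (h : ∀ x, f x ∈ Set.Icc a c) :
    Measurable (Uk K F f) ∧ ∀ x, Uk K F f x ∈ Set.Icc a c := by
  have m : Measurable fun p : (ι → ℝ) × (ι → ℝ) => f (F p.1 + √(2 * K⁻¹) • p.2) := by fun_prop
  refine ⟨(m.stronglyMeasurable.integral_prod_right' (ν := gv ι)).measurable, fun x => ?_⟩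
  have i : Integrable (fun ξ => f (F x + √(2 * K⁻¹) • ξ)) (gv ι) :=
    int_bdd (by fun_prop) fun ξ => abs_le_max_abs_abs (h _).1 (h _).2
  exact ⟨le_trans (by simp) (integral_mono (integrable_const a) i fun ξ => (h _).1),
    le_trans (integral_mono i (integrable_const c) fun ξ => (h _).2) (by simp)⟩

lemma Uk_iter (mF : Measurable F) (mf : Measurable f) {a c : ℝ} (h : ∀ x, f x ∈ Set.Icc a c) (j : ℕ) :
    Measurable ((Uk K F)^[j] f) ∧ ∀ x, (Uk K F)^[j] f x ∈ Set.Icc a c := by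
  induction j with
  | zero => exact ⟨mf, h⟩
  | succ j ih => rw [Function.iterate_succ_apply']; exact Uk_bd mF ih.1 ih.2

lemma Tk_iter [IsProbabilityMeasure μ] (hK : 0 < K) (mf : Measurable f) (h : ∀ x, |f x| ≤ B) (j : ℕ) :
    Measurable ((Tk K μ)^[j] f) ∧ ∀ x, |(Tk K μ)^[j] f x| ≤ B := by
  induction j with
  | zero => exact ⟨mf, h⟩
  | succ j ih =>
    rw [Function.iterate_succ_apply']
    have m : Measurable fun p : (ι → ℝ) × (ι → ℝ) => pm K μ ((Tk K μ)^[j] f) (K • p.1 + √K • p.2) :=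
      (m_pm K (G := fun _ => (Tk K μ)^[j] f) (ih.1.comp measurable_snd)).comp (by fun_prop)
    refine ⟨(m.stronglyMeasurable.integral_prod_right' (ν := gv ι)).measurable, fun x => ?_⟩
    exact (norm_integral_le_of_norm_le_const (μ := gv ι)
      (f := fun z => pm K μ ((Tk K μ)^[j] f) (K • x + √K • z))
      (.of_forall fun z => abs_pm hK ih.2 _)).trans (by simp)

lemma Hyp.half (h : Hyp K W F G b R) (mf : Measurable f) (hf : ∀ x, |f x| ≤ 1) {l : ℝ} (hl : |l| ≤ 1)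
    (j : ℕ) : ∫⁻ x, ENNReal.ofReal (l * ((Tk K (volume.tilted W))^[j] f x - (Uk K F)^[j] f x) - l ^ 2)
      ∂(volume.tilted W) ≤ j * (2 * ∫⁻ x, ∫⁻ z, ENNReal.ofReal (R (x, z)) ∂gv ι ∂(volume.tilted W)) := by
  have := h.prob
  have hT := Tk_iter (μ := volume.tilted W) h.K0 mf hf
  have hU := Uk_iter (K := K) h.mF mf fun x => abs_le.1 (hf x)
  have b1 : ∀ a : ℝ, |a| ≤ 1 → |l * a| ≤ 1 := fun a ha => by
    rw [abs_mul]; exact mul_le_one₀ hl (abs_nonneg _) ha
  have hE := Uk_iter (K := K) (f := fun x => exp (l * f x)) (a := exp (-1)) (c := exp 1) h.mF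
    (by fun_prop) fun x => ⟨exp_le_exp.2 (abs_le.1 (b1 _ (hf x))).1,
      exp_le_exp.2 (abs_le.1 (b1 _ (hf x))).2⟩
  have E0 : ∀ j x, 0 < (Uk K F)^[j] (fun x => exp (l * f x)) x := fun j x =>
    (exp_pos _).trans_le ((hE j).2 x).1
  have h1 : ∀ j x, (Uk K F)^[j] (fun x => exp (l * f x)) x ≤ 1 + l ^ 2 + l * (Uk K F)^[j] f x := by
    intro j
    induction j with
    | zero =>
      intro x
      have := (abs_le.1 (abs_exp_sub_one_sub_id_le (b1 _ (hf x)))).2
      have h2 : f x ^ 2 ≤ 1 := by rw [← sq_abs]; exact pow_le_one₀ (abs_nonneg _) (hf x)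
      simp only [Function.iterate_zero, id]
      nlinarith [mul_le_mul_of_nonneg_left h2 (sq_nonneg l)]
    | succ j ih =>
      intro x
      have m := (hU j).1
      have mF := h.mF
      have i : Integrable (fun ξ => (Uk K F)^[j] f (F x + √(2 * K⁻¹) • ξ)) (gv ι) :=
        int_bdd (by fun_prop) fun ξ => abs_le.2 ((hU j).2 _)
      rw [Function.iterate_succ_apply', Function.iterate_succ_apply', Uk, Uk]
      refine (integral_mono_of_nonneg (.of_forall fun ξ => (E0 j _).le)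
        ((integrable_const (1 + l ^ 2)).add (i.const_mul l)) (.of_forall fun ξ => ih _)).trans_eq ?_
      rw [integral_add' (integrable_const _) (i.const_mul l), integral_const_mul]
      simp
  have h2 : ∀ j : ℕ, ∫⁻ x, ENNReal.ofReal (l * (Tk K (volume.tilted W))^[j] f x -
      log ((Uk K F)^[j] (fun x => exp (l * f x)) x)) ∂(volume.tilted W) ≤
      j * (2 * ∫⁻ x, ∫⁻ z, ENNReal.ofReal (R (x, z)) ∂gv ι ∂(volume.tilted W)) := by
    intro j
    induction j with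
    | zero => simp
    | succ j ih =>
      have := h.step (B := 1) ((hT j).1.const_mul l) (hE j).1.log (fun x => b1 _ ((hT j).2 x))
        fun x => abs_le.2 ⟨(le_log_iff_exp_le (E0 j x)).2 ((hE j).2 x).1,
          (log_le_iff_le_exp (E0 j x)).2 ((hE j).2 x).2⟩
      simp only [exp_log (E0 _ _)] at this
      have e : ∀ (g : (ι → ℝ) → ℝ) x, Tk K (volume.tilted W) (fun x => l * g x) x =
          l * Tk K (volume.tilted W) g x := fun g x => by
        simp only [Tk, pm, mul_assoc, integral_const_mul, mul_div_assoc]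
      simp only [Function.iterate_succ_apply', e] at this ⊢
      refine this.trans ((add_le_add_left ih _).trans_eq ?_)
      push_cast
      ring
  refine le_trans (lintegral_mono fun x => ENNReal.ofReal_le_ofReal ?_) (h2 j)
  linarith [log_le_sub_one_of_pos (E0 j x), h1 j x]

/-- the entropy chain -/
theorem Hyp.chain (h : Hyp K W F G b R) (mf : Measurable f) (hf : ∀ x, |f x| ≤ 1) {l k : ℝ}
    (l0 : 0 < l) (l1 : l ≤ 1) (k0 : 0 ≤ k)
    (hk : ∫⁻ x, ∫⁻ z, ENNReal.ofReal (R (x, z)) ∂gv ι ∂(volume.tilted W) ≤ ENNReal.ofReal k) (j : ℕ) :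
    l * ∫ x, |(Tk K (volume.tilted W))^[j] f x - (Uk K F)^[j] f x| ∂(volume.tilted W) ≤
      4 * (j * k) + l ^ 2 := by
  have := h.prob
  have m : Measurable fun x => (Tk K (volume.tilted W))^[j] f x - (Uk K F)^[j] f x :=
    (Tk_iter (μ := volume.tilted W) h.K0 mf hf j).1.sub
    (Uk_iter (K := K) h.mF mf (fun x => abs_le.1 (hf x)) j).1
  have h1 := (h.half mf hf (l := l) (by rwa [abs_of_pos l0]) j).trans
    (mul_le_mul_right (mul_le_mul_right hk _) _)
  have h2 := (h.half mf hf (l := -l) (by rwa [abs_neg, abs_of_pos l0]) j).trans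
    (mul_le_mul_right (mul_le_mul_right hk _) _)
  rw [← integral_const_mul, ← ENNReal.ofReal_le_ofReal_iff (by positivity)]
  refine (ofReal_int_le _ _).trans ((lintegral_mono (g := fun x => ENNReal.ofReal (l *
    ((Tk K (volume.tilted W))^[j] f x - (Uk K F)^[j] f x) - l ^ 2) + ENNReal.ofReal (-l *
    ((Tk K (volume.tilted W))^[j] f x - (Uk K F)^[j] f x) - (-l) ^ 2) + ENNReal.ofReal (l ^ 2))
    fun x => ?_).trans ?_)
  · dsimp only
    generalize (Tk K (volume.tilted W))^[j] f x - (Uk K F)^[j] f x = a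
    rcases le_total 0 a with ha | ha
    · rw [add_right_comm, abs_of_nonneg ha]
      exact le_trans (le_trans (ENNReal.ofReal_le_ofReal (by linarith)) ENNReal.ofReal_add_le)
        le_self_add
    · rw [add_assoc, abs_of_nonpos ha]
      exact le_trans (le_trans (ENNReal.ofReal_le_ofReal (by linarith)) ENNReal.ofReal_add_le)
        le_add_self
  · rw [lintegral_add_right _ measurable_const,
      lintegral_add_left ((m.const_mul l).sub_const _).ennreal_ofReal]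
    refine (add_le_add (add_le_add h1 h2) le_rfl).trans_eq ?_
    rw [ENNReal.ofReal_add (by positivity) (by positivity), ENNReal.ofReal_mul (by norm_num),
      ENNReal.ofReal_mul (by positivity), ENNReal.ofReal_natCast]
    simp only [lintegral_const, measure_univ, mul_one, ENNReal.ofReal_ofNat]
    ring

end Crest.Agent.T157.Cq.Kl17

end
end

-- ▼ part T157/CqKl_17
section

/-!
# Row 157, part C (3d) (helper17): `klStmt`, for a fine channel the static chain is the scheme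
-/

set_option autoImplicit false
set_option linter.unusedSectionVars false

noncomputable section

namespace Crest.Agent.T157.Cq

open MeasureTheory ProbabilityTheory Matrix Filter Topology Finset Real
open Crest.Agent.T157.E Crest.Agent.T157.St Crest.Agent.T157.Kr
open Crest.Agent.T157.SL (MG int_exp)

namespace Kl17

variable {ι : Type*} [Fintype ι] [DecidableEq ι]

/-- state and two noises -/
abbrev Pt (ι : Type*) := (ι → ℝ) × (ι → ℝ) × (ι → ℝ)

/-- of order `K^{-a/2}` with exponential growth -/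
def Tm (a : ℕ) (f : ℝ → Pt ι → ℝ) : Prop := ∃ C c : ℝ, 0 ≤ C ∧ 0 ≤ c ∧
  ∀ᶠ K : ℝ in atTop, ∀ w, |f K w| ≤ C * √K⁻¹ ^ a * exp (c * ‖w‖)

namespace Tm

variable {a b : ℕ} {f g : ℝ → Pt ι → ℝ}

lemma const (c : ℝ) : Tm 0 fun _ (_ : Pt ι) => c :=
  ⟨|c|, 0, abs_nonneg _, le_rfl, .of_forall fun _ _ => by simp⟩

lemma sg : Tm 1 fun K (_ : Pt ι) => √K⁻¹ :=
  ⟨1, 0, zero_le_one, le_rfl, .of_forall fun _ _ => by simp [abs_of_nonneg]⟩

lemma of_norm (h : ∀ K w, |f K w| ≤ ‖w‖) : Tm 0 f :=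
  ⟨1, 1, zero_le_one, zero_le_one, .of_forall fun K w => by
    have := add_one_le_exp ‖w‖
    have := h K w
    simp only [pow_zero, one_mul]
    linarith⟩

lemma of_le (h : Tm a g) (e : ∀ᶠ K : ℝ in atTop, ∀ w, |f K w| ≤ g K w) : Tm a f := by
  obtain ⟨C, c, h1, h2, h3⟩ := h
  exact ⟨C, c, h1, h2, (h3.and e).mono fun K h w => (h.2 w).trans ((le_abs_self _).trans (h.1 w))⟩

lemma congr (h : Tm a g) (e : ∀ K, 0 < K → ∀ w, f K w = g K w) : Tm a f := by
  obtain ⟨C, c, h1, h2, h3⟩ := h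
  exact ⟨C, c, h1, h2, (h3.and (eventually_gt_atTop 0)).mono fun K h w => by
    rw [e K h.2]; exact h.1 w⟩

lemma mono (h : Tm b f) (e : a ≤ b) : Tm a f := by
  obtain ⟨C, c, h1, h2, h3⟩ := h
  refine ⟨C, c, h1, h2, (h3.and (eventually_ge_atTop 1)).mono fun K h w => (h.1 w).trans ?_⟩
  have := pow_le_pow_of_le_one (sqrt_nonneg K⁻¹) (sqrt_le_one.2 (inv_le_one_of_one_le₀ h.2)) e
  gcongr

lemma mul (h : Tm a f) (h' : Tm b g) : Tm (a + b) fun K w => f K w * g K w := by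
  obtain ⟨C, c, h1, h2, h3⟩ := h
  obtain ⟨C', c', h1', h2', h3'⟩ := h'
  refine ⟨C * C', c + c', by positivity, by positivity, (h3.and h3').mono fun K h w => ?_⟩
  rw [abs_mul, add_mul, exp_add, pow_add]
  exact (mul_le_mul (h.1 w) (h.2 w) (abs_nonneg _) (by positivity)).trans_eq (by ring)

lemma add (h : Tm a f) (h' : Tm a g) : Tm a fun K w => f K w + g K w := by
  obtain ⟨C, c, h1, h2, h3⟩ := h
  obtain ⟨C', c', h1', h2', h3'⟩ := h'
  refine ⟨C + C', c + c', by positivity, by positivity, (h3.and h3').mono fun K h w => ?_⟩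
  rw [add_mul C, add_mul (C * _)]
  refine (abs_add_le _ _).trans (add_le_add ((h.1 w).trans ?_) ((h.2 w).trans ?_)) <;>
  gcongr <;> linarith

lemma cmul (c : ℝ) (h : Tm a f) : Tm a fun K w => c * f K w := ((const c).mul h).mono (by omega)

lemma mul0 (h : Tm 0 f) (h' : Tm a g) : Tm a fun K w => f K w * g K w := (h.mul h').mono (by omega)

lemma sub (h : Tm a f) (h' : Tm a g) : Tm a fun K w => f K w - g K w :=
  (h.add (h'.cmul (-1))).congr fun _ _ _ => by ring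

lemma sq (h : Tm a f) : Tm (2 * a) fun K w => f K w ^ 2 :=
  ((h.mul h).mono (by omega)).congr fun _ _ _ => by ring

lemma sum {κ : Type*} (S : Finset κ) {f : κ → ℝ → Pt ι → ℝ} (h : ∀ k, Tm a (f k)) :
    Tm a fun K w => ∑ k ∈ S, f k K w := by
  classical
  induction S using Finset.induction_on with
  | empty => exact ⟨0, 0, le_rfl, le_rfl, .of_forall fun _ _ => by simp⟩
  | insert k s hk ih => simpa [Finset.sum_insert hk] using (h k).add ih

lemma dot {u v : ℝ → Pt ι → ι → ℝ} (h : ∀ k, Tm a fun K w => u K w k)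
    (h' : ∀ k, Tm b fun K w => v K w k) : Tm (a + b) fun K w => u K w ⬝ᵥ v K w :=
  sum _ fun k => (h k).mul (h' k)

lemma c1 (k : ι) : Tm 0 fun _ (w : Pt ι) => w.1 k :=
  of_norm fun _ w => (norm_le_pi_norm w.1 k).trans (norm_fst_le w)
lemma c2 (k : ι) : Tm 0 fun _ (w : Pt ι) => w.2.1 k :=
  of_norm fun _ w => (norm_le_pi_norm w.2.1 k).trans ((norm_fst_le _).trans (norm_snd_le w))
lemma c3 (k : ι) : Tm 0 fun _ (w : Pt ι) => w.2.2 k :=
  of_norm fun _ w => (norm_le_pi_norm w.2.2 k).trans ((norm_snd_le _).trans (norm_snd_le w))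

lemma mg {g : (ι → ℝ) → ℝ} (h : Tm 0 fun _ (w : Pt ι) => g w.1) (m : Measurable g) : MG g := by
  obtain ⟨C, c, h1, h2, h3⟩ := h
  obtain ⟨K, hK⟩ := h3.exists
  exact ⟨m, C, c, h1, h2, fun y => by simpa [Prod.norm_def] using hK (y, 0, 0)⟩

end Tm

variable (e : ι → ℝ) (t κ : ℝ)

/-- log-density -/
def Wf (x : ι → ℝ) : ℝ := -(1 / 2) * ∑ k, e k * x k ^ 2 - κ / 8 * (x ⬝ᵥ x - t) ^ 2
/-- gradient of the potential -/
def gr (y : ι → ℝ) : ι → ℝ := fun k => e k * y k + κ / 2 * ((y ⬝ᵥ y - t) * y k)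
/-- Taylor remainder -/
def Ad (y d : ι → ℝ) : ℝ := 1 / 2 * ∑ k, e k * d k ^ 2 +
  κ / 8 * (2 * ((y ⬝ᵥ y - t) * (d ⬝ᵥ d)) + (2 * (y ⬝ᵥ d) + d ⬝ᵥ d) ^ 2)
def Gf (y x : ι → ℝ) : ℝ := 2 * Ad e t κ y (x - y) ^ 2 + ((x - y) ⬝ᵥ (x - y)) ^ 2
def Ff (h : ℝ) (x : ι → ℝ) : ι → ℝ :=
  fun k => √(1 - 2 * e k * h) * x k / √(1 + h * κ * (x ⬝ᵥ x - t))
def Bv (K : ℝ) (x y : ι → ℝ) : ι → ℝ := gr e t κ y + K • (Ff e t κ K⁻¹ x - x)
def ph (K : ℝ) (x : ι → ℝ) (k : ι) : ℝ := K * (√(1 - 2 * e k * K⁻¹) /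
  √(1 + K⁻¹ * κ * (x ⬝ᵥ x - t)) - 1 + 2 * e k * K⁻¹ / 2 + K⁻¹ * κ * (x ⬝ᵥ x - t) / 2)

lemma taylor (y d : ι → ℝ) : Wf e t κ y - Wf e t κ (y + d) = gr e t κ y ⬝ᵥ d + Ad e t κ y d := by
  have h1 : ∑ k, e k * (y + d) k ^ 2 =
      ∑ k, e k * y k ^ 2 + 2 * ∑ k, e k * y k * d k + ∑ k, e k * d k ^ 2 := by
    simp only [mul_sum, ← sum_add_distrib, Pi.add_apply]
    exact sum_congr rfl fun k _ => by ring
  have h2 : gr e t κ y ⬝ᵥ d = ∑ k, e k * y k * d k + κ / 2 * ((y ⬝ᵥ y - t) * (y ⬝ᵥ d)) := by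
    rw [dotProduct, dotProduct.eq_1 y d]
    simp only [mul_sum, ← sum_add_distrib, gr]
    exact sum_congr rfl fun k _ => by ring
  simp only [Wf, Ad, h1, h2, add_dotProduct, dotProduct_add, dotProduct_comm d y]
  ring

lemma sq_le (K : ℝ) (x y x' : ι → ℝ) :
    (Wf e t κ y - Wf e t κ x' + K * ((Ff e t κ K⁻¹ x - x) ⬝ᵥ (x' - y))) ^ 2 ≤
      Gf e t κ y x' + (Bv e t κ K x y ⬝ᵥ Bv e t κ K x y) ^ 2 := by
  have h1 := taylor e t κ y (x' - y)
  rw [add_sub_cancel] at h1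
  have h2 : Bv e t κ K x y ⬝ᵥ (x' - y) =
      gr e t κ y ⬝ᵥ (x' - y) + K * ((Ff e t κ K⁻¹ x - x) ⬝ᵥ (x' - y)) := by
    rw [Bv, add_dotProduct, smul_dotProduct, smul_eq_mul]
  have h3 : (Bv e t κ K x y ⬝ᵥ (x' - y)) ^ 2 ≤
      (Bv e t κ K x y ⬝ᵥ Bv e t κ K x y) * ((x' - y) ⬝ᵥ (x' - y)) := by
    simpa only [dotProduct, sq] using sum_mul_sq_le_sq_mul_sq univ (Bv e t κ K x y) (x' - y)
  rw [h1, add_right_comm, ← h2, Gf]
  nlinarith [sq_nonneg (Bv e t κ K x y ⬝ᵥ (x' - y) - Ad e t κ y (x' - y)),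
    sq_nonneg (Bv e t κ K x y ⬝ᵥ Bv e t κ K x y - (x' - y) ⬝ᵥ (x' - y))]

lemma tm_G {a : ℕ} {y x : ℝ → Pt ι → ι → ℝ} (hy : ∀ k, Tm 0 fun K w => y K w k)
    (hd : ∀ k, Tm a fun K w => (x K w - y K w) k) : Tm (4 * a) fun K w => Gf e t κ (y K w) (x K w) := by
  have h1 := (Tm.dot hd hd).mono (by omega : 2 * a ≤ _)
  have h2 := (((Tm.sum univ fun k => ((hd k).sq.cmul (e k))).cmul (1 / 2)).add
    ((((((Tm.dot hy hy).sub (.const t)).mul0 h1).cmul 2).add
      ((((Tm.dot hy hd).mono (by omega : a ≤ _)).cmul 2).add (h1.mono (by omega))).sq).cmul (κ / 8)))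
  exact ((h2.sq.cmul 2).add h1.sq).mono (by omega)

lemma sqrt_ineq {a b : ℝ} (ha : a ≤ 1) (hb : -(3 / 4) ≤ b) :
    |√(1 - a) / √(1 + b) - 1 + a / 2 + b / 2| ≤ 5 * (a ^ 2 + b ^ 2) := by
  have h1 := sq_sqrt (by linarith : 0 ≤ 1 - a)
  have h2 := sq_sqrt (by linarith : 0 ≤ 1 + b)
  have u0 := sqrt_nonneg (1 - a)
  have v0 : 1 / 2 ≤ √(1 + b) := le_sqrt_of_sq_le (by linarith)
  set u := √(1 - a)
  set v := √(1 + b)
  have ea : a = 1 - u ^ 2 := by linarith
  have eb : b = v ^ 2 - 1 := by linarith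
  have v1 : 0 < v := by linarith
  have e : u / v - 1 + a / 2 + b / 2 = ((v - 1) - (u - 1)) * ((v - 1) * (1 / 2 + v⁻¹) + (u - 1) / 2) := by
    rw [ea, eb]; field_simp; ring
  have r0 : 0 < v⁻¹ := by positivity
  have r1 : v⁻¹ ≤ 2 := by rw [inv_le_comm₀ v1 two_pos]; linarith
  have b1 : (u - 1) ^ 2 ≤ a ^ 2 := by
    rw [ea, show (1 - u ^ 2) ^ 2 = (u - 1) ^ 2 * (1 + u) ^ 2 by ring]
    exact le_mul_of_one_le_right (sq_nonneg _) (by nlinarith)
  have b2 : (v - 1) ^ 2 ≤ b ^ 2 := by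
    rw [eb, show (v ^ 2 - 1) ^ 2 = (v - 1) ^ 2 * (1 + v) ^ 2 by ring]
    exact le_mul_of_one_le_right (sq_nonneg _) (by nlinarith)
  rw [e, abs_mul]
  have b3 : |(v - 1) * (1 / 2 + v⁻¹) + (u - 1) / 2| ≤ 5 / 2 * (|v - 1| + |u - 1|) := by
    refine (abs_add_le _ _).trans ?_
    rw [abs_mul, abs_div, abs_of_pos (by positivity : 0 < 1 / 2 + v⁻¹), abs_two]
    nlinarith [abs_nonneg (v - 1), abs_nonneg (u - 1)]
  refine (mul_le_mul (abs_sub _ _) b3 (abs_nonneg _) (by positivity)).trans ?_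
  nlinarith [sq_abs (v - 1), sq_abs (u - 1), sq_nonneg (|v - 1| - |u - 1|)]

variable {κ}

lemma tm_q : Tm 0 fun _ (w : Pt ι) => w.1 ⬝ᵥ w.1 - t := (Tm.dot Tm.c1 Tm.c1).sub (.const t)

lemma tm_ph (hκ : 0 < κ) (k : ι) : Tm 2 fun K (w : Pt ι) => ph e t κ K w.1 k := by
  refine (((Tm.const ((2 * e k) ^ 2)).add ((tm_q t).cmul κ).sq).cmul 5).mul0
    (Tm.sg (ι := ι)).sq |>.of_le ?_
  filter_upwards [eventually_gt_atTop 0, eventually_ge_atTop (2 * e k),
    eventually_ge_atTop (2 * (κ * t))] with K K0 h1 h2 w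
  have i0 := inv_pos.2 K0
  have i1 := mul_inv_cancel₀ K0.ne'
  have := sqrt_ineq (a := 2 * e k * K⁻¹) (b := K⁻¹ * κ * (w.1 ⬝ᵥ w.1 - t))
    (by nlinarith) (by nlinarith [mul_nonneg (mul_pos i0 hκ).le (q0 w.1)])
  rw [ph, abs_mul, abs_of_pos K0, sq_sqrt i0.le]
  refine (mul_le_mul_of_nonneg_left this K0.le).trans_eq ?_
  field_simp

lemma Ff_eq {K : ℝ} (hK : 0 < K) (x : ι → ℝ) (k : ι) : K * (Ff e t κ K⁻¹ x k - x k) =
    (ph e t κ K x k - e k - κ / 2 * (x ⬝ᵥ x - t)) * x k := by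
  rw [Ff, ph, mul_div_right_comm]
  generalize √(1 - 2 * e k * K⁻¹) / √(1 + K⁻¹ * κ * (x ⬝ᵥ x - t)) = r
  field_simp
  ring

lemma tm_all (hκ : 0 < κ) : Tm 4 fun K (w : Pt ι) => Gf e t κ (w.1 + √K⁻¹ • w.2.1) w.1 +
    (Gf e t κ (w.1 + √K⁻¹ • w.2.1) (w.1 + √K⁻¹ • w.2.1 + (Ff e t κ K⁻¹ w.1 - w.1) + √K⁻¹ • w.2.2) +
      2 * (Bv e t κ K w.1 (w.1 + √K⁻¹ • w.2.1) ⬝ᵥ Bv e t κ K w.1 (w.1 + √K⁻¹ • w.2.1)) ^ 2) := by
  have hz : ∀ k, Tm 1 fun K (w : Pt ι) => (√K⁻¹ • w.2.1) k := fun k => Tm.sg.mul (.c2 k)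
  have hy : ∀ k, Tm 0 fun K (w : Pt ι) => (w.1 + √K⁻¹ • w.2.1) k := fun k =>
    (Tm.c1 k).add ((hz k).mono zero_le_one)
  have hδ : ∀ k, Tm 2 fun K (w : Pt ι) => Ff e t κ K⁻¹ w.1 k - w.1 k := fun k =>
    ((((((tm_ph e t hκ k).mono (Nat.zero_le _)).sub (.const (e k))).sub
      ((tm_q t).cmul (κ / 2))).mul0 (.c1 k)).mul0 Tm.sg.sq).congr fun K K0 w => by
      rw [← Ff_eq e t K0, sq_sqrt (inv_pos.2 K0).le]
      field_simp
  have hB : ∀ k, Tm 1 fun K (w : Pt ι) => Bv e t κ K w.1 (w.1 + √K⁻¹ • w.2.1) k := fun k =>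
    ((((hz k).cmul (e k)).add (((((Tm.dot hy hy).sub (.const t)).mul0 (hz k)).add
      ((Tm.c1 k).mul0 (((Tm.dot Tm.c1 hz).cmul 2).add ((Tm.dot hz hz).mono one_le_two)))).cmul
      (κ / 2))).add ((Tm.c1 k).mul0 ((tm_ph e t hκ k).mono one_le_two))).congr fun K K0 w => by
      generalize √K⁻¹ • w.2.1 = d
      simp only [Bv, gr, Pi.add_apply, Pi.smul_apply, Pi.sub_apply, smul_eq_mul, Ff_eq e t K0,
        add_dotProduct, dotProduct_add, dotProduct_comm d w.1]
      ring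
  refine (tm_G e t κ (a := 1) hy fun k => ((hz k).cmul (-1)).congr fun K _ w => by simp).add
    ((tm_G e t κ (a := 1) hy fun k => (((hδ k).mono one_le_two).add
      (Tm.sg.mul (.c3 k))).congr fun K _ w => ?_).add ((Tm.dot hB hB).sq.cmul 2))
  simp only [Pi.add_apply, Pi.sub_apply, Pi.smul_apply, smul_eq_mul]
  ring

lemma Wf_le (hκ : 0 < κ) : ∃ C, ∀ x, Wf e t κ x ≤ C - x ⬝ᵥ x := by
  refine ⟨(1 + ∑ k, |e k|) * t + 2 * (1 + ∑ k, |e k|) ^ 2 / κ, fun x => ?_⟩
  have h1 : -∑ k, e k * x k ^ 2 ≤ (∑ k, |e k|) * (x ⬝ᵥ x) := by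
    rw [← sum_neg_distrib, dotProduct, mul_sum]
    refine sum_le_sum fun k _ => ?_
    have := single_le_sum (f := fun k => |e k|) (fun k _ => abs_nonneg _) (mem_univ k)
    nlinarith [neg_abs_le (e k), mul_self_nonneg (x k)]
  have h0 : 0 ≤ ∑ k, |e k| := by positivity
  have h2 : (1 + ∑ k, |e k|) * (x ⬝ᵥ x - t) - κ / 8 * (x ⬝ᵥ x - t) ^ 2 ≤
      2 * (1 + ∑ k, |e k|) ^ 2 / κ := by
    rw [le_div_iff₀ hκ]
    nlinarith [sq_nonneg (4 * (1 + ∑ k, |e k|) - κ * (x ⬝ᵥ x - t))]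
  rw [Wf]
  nlinarith [mul_nonneg h0 (q0 x)]

lemma int_W (hκ : 0 < κ) (c : ℝ) :
    Integrable (fun x => exp (Wf e t κ x) * exp (c * ‖x‖)) (volume : Measure (ι → ℝ)) := by
  obtain ⟨C, hC⟩ := Wf_le e t hκ
  have h := int_exp (ι := ι) c
  rw [show SL.Gs ι = gv ι from rfl, gv_eq_withDensity, integrable_withDensity_iff (by fun_prop)
    (.of_forall fun _ => ENNReal.ofReal_lt_top)] at h
  refine (h.const_mul (exp C / phi 1 (0 : ι → ℝ))).mono' (Measurable.aestronglyMeasurable (by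
    unfold Wf; fun_prop)) (.of_forall fun x => ?_)
  have e1 : exp C / phi 1 (0 : ι → ℝ) * (exp (c * ‖x‖) * phi 1 x) =
      exp (C + -(x ⬝ᵥ x) / (2 * 1)) * exp (c * ‖x‖) := by
    simp only [phi, exp_add, dotProduct_zero, neg_zero, zero_div, exp_zero]
    field_simp
  rw [ENNReal.toReal_ofReal (phi_nonneg _ _), e1, Real.norm_of_nonneg (by positivity)]
  gcongr
  linarith [hC x, q0 x]

theorem main (hκ : 0 < κ) : ∃ C : ℝ, 0 ≤ C ∧ ∀ᶠ K : ℝ in atTop, ∀ f : (ι → ℝ) → ℝ, Measurable f →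
    (∀ x, |f x| ≤ 1) → ∀ l : ℝ, 0 < l → l ≤ 1 → ∀ j : ℕ,
      l * ∫ x, |(Tk K (volume.tilted (Wf e t κ)))^[j] f x - (Uk K (Ff e t κ K⁻¹))^[j] f x|
        ∂(volume.tilted (Wf e t κ)) ≤ 4 * (j * (C * K⁻¹ ^ 2)) + l ^ 2 := by
  obtain ⟨C, c, C0, c0, h⟩ := tm_all e t hκ
  have iW : Integrable (fun x => exp (Wf e t κ x)) (volume : Measure (ι → ℝ)) := by
    simpa using int_W e t hκ 0
  have i1 : Integrable (fun z => exp (c * ‖z‖)) (gv ι) := int_exp c
  have i2 : Integrable (fun z => exp (c * ‖z‖)) (volume.tilted (Wf e t κ)) :=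
    (integrable_tilted_iff iW _).2 (int_W e t hκ c)
  set I := ∫ z, exp (c * ‖z‖) ∂gv ι with hI
  set J := ∫ z, exp (c * ‖z‖) ∂(volume.tilted (Wf e t κ)) with hJ
  have I0 : 0 ≤ I := by positivity
  have J0 : 0 ≤ J := by positivity
  refine ⟨C * I * I * J, by positivity, ?_⟩
  filter_upwards [h, eventually_gt_atTop 0] with K hK K0 f mf hf l l0 l1 j
  have mG : Measurable fun p : (ι → ℝ) × (ι → ℝ) => Gf e t κ p.1 p.2 := by unfold Gf Ad; fun_prop
  have gG : ∀ y, MG (Gf e t κ y) := fun y => Tm.mg (tm_G e t κ (a := 0) (fun k => .const (y k))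
    fun k => (Tm.c1 k).sub (.const (y k))) (by unfold Gf Ad; fun_prop)
  have G0 : ∀ y x, 0 ≤ Gf e t κ y x := fun y x => by unfold Gf; positivity
  have key : ∀ x z, Gf e t κ (x + √K⁻¹ • z) x + (∫ z', Gf e t κ (x + √K⁻¹ • z)
      (x + √K⁻¹ • z + (Ff e t κ K⁻¹ x - x) + √K⁻¹ • z') ∂gv ι +
      2 * (Bv e t κ K x (x + √K⁻¹ • z) ⬝ᵥ Bv e t κ K x (x + √K⁻¹ • z)) ^ 2) ≤
      C * K⁻¹ ^ 2 * I * exp (c * ‖x‖) * exp (c * ‖z‖) := fun x z => by
    have i3 : Integrable _ (gv ι) := ((gG (x + √K⁻¹ • z)).affine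
      (x + √K⁻¹ • z + (Ff e t κ K⁻¹ x - x)) √K⁻¹).int
    have h5 : ∀ z' : ι → ℝ, C * √K⁻¹ ^ 4 * exp (c * ‖(x, z, z')‖) ≤
        C * K⁻¹ ^ 2 * exp (c * ‖x‖) * exp (c * ‖z‖) * exp (c * ‖z'‖) := fun z' => by
      have e4 : √K⁻¹ ^ 4 = K⁻¹ ^ 2 := by
        rw [show 4 = 2 * 2 from rfl, pow_mul, sq_sqrt (inv_pos.2 K0).le]
      rw [e4, mul_assoc _ (exp _), mul_assoc _ (exp _), ← exp_add, ← exp_add, ← mul_add, ← mul_add]
      gcongr
      have := norm_nonneg x
      have := norm_nonneg z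
      have := norm_nonneg z'
      simp only [Prod.norm_def, max_le_iff]
      exact ⟨by linarith, by linarith, by linarith⟩
    have := integral_mono ((integrable_const (Gf e t κ (x + √K⁻¹ • z) x)).add (i3.add
      (integrable_const (2 * (Bv e t κ K x (x + √K⁻¹ • z) ⬝ᵥ Bv e t κ K x (x + √K⁻¹ • z)) ^ 2))))
      (i1.const_mul (C * K⁻¹ ^ 2 * exp (c * ‖x‖) * exp (c * ‖z‖))) fun z' =>
        ((le_abs_self _).trans (hK (x, z, z'))).trans (h5 z')
    rw [integral_add' (integrable_const _) (i3.add (integrable_const _)),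
      integral_add' i3 (integrable_const _)] at this
    simp only [integral_const, probReal_univ, one_smul] at this
    exact this.trans_eq (by rw [integral_const_mul]; ring)
  have H : Hyp K (Wf e t κ) (Ff e t κ K⁻¹) (Gf e t κ)
      (fun x y => (Bv e t κ K x y ⬝ᵥ Bv e t κ K x y) ^ 2)
      fun p => C * K⁻¹ ^ 2 * I * exp (c * ‖p.1‖) * exp (c * ‖p.2‖) :=
    ⟨K0, by unfold Wf; fun_prop, iW, by unfold Ff; fun_prop, Wf_le e t hκ, mG, G0, gG,
      sq_le e t κ K, by fun_prop, fun p => by positivity,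
      fun x z => le_trans (le_add_of_nonneg_right (add_nonneg
        (integral_nonneg fun _ => G0 _ _) (by positivity))) (key x z),
      fun x z => le_trans (le_add_of_nonneg_left (G0 _ _)) (key x z)⟩
  refine H.chain mf hf l0 l1 (by positivity) (le_of_eq ?_) j
  have e1 : ∀ x : ι → ℝ, ∫⁻ z, ENNReal.ofReal (C * K⁻¹ ^ 2 * I * exp (c * ‖x‖) * exp (c * ‖z‖)) ∂gv ι
      = ENNReal.ofReal (C * K⁻¹ ^ 2 * I * I * exp (c * ‖x‖)) := fun x => by
    rw [← ofReal_integral_eq_lintegral_ofReal (i1.const_mul _) (.of_forall fun z => by positivity),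
      integral_const_mul, mul_right_comm]
  simp only [e1]
  rw [← ofReal_integral_eq_lintegral_ofReal (i2.const_mul _) (.of_forall fun z => by positivity),
    integral_const_mul]
  congr 1
  ring

end Kl17

open Kl17 in
theorem klStmt : KlStmt := by
  intro n η t κ R ε _ hκ hε
  obtain ⟨C, C0, h⟩ := main (fun k : Fin n => η k) t hκ
  have l0 : 0 < min 1 (ε / 2) := by positivity
  filter_upwards [h, eventually_gt_atTop 0,
    eventually_ge_atTop (4 * (R * C) / (min 1 (ε / 2) * (ε / 2)))] with K hK K0 h1 j hj v hv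
  refine le_of_mul_le_mul_left ((hK v hv.1 hv.2 _ l0 (min_le_left _ _) j).trans ?_) l0
  rw [div_le_iff₀ (by positivity)] at h1
  have h2 : 4 * (j * (C * K⁻¹ ^ 2)) ≤ min 1 (ε / 2) * (ε / 2) := by
    refine le_of_mul_le_mul_left (le_trans ?_ h1) K0
    calc K * (4 * (j * (C * K⁻¹ ^ 2))) = 4 * (j * (C * K⁻¹)) := by field_simp
      _ ≤ 4 * (R * K * (C * K⁻¹)) := by gcongr
      _ = _ := by field_simp
  nlinarith [min_le_right 1 (ε / 2)]

end Crest.Agent.T157.Cq

end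
end

-- ▼ part T157/CqMassA_67
section

/-!
# Row 157, part C (helper67): finite lemmas for MASS and CRUDE
-/

set_option autoImplicit false

noncomputable section

namespace Crest.Agent.T157.Cq.M67

open MeasureTheory ProbabilityTheory Matrix Finset Real
open Crest.Agent.T157.Chain22 Crest.Agent.T157.Eig

section fin
variable {Ω ι κ : Type*} [Fintype Ω] [Fintype ι] [Fintype κ] {p : Ω → ℝ}

/-- Jensen for the exponential -/
theorem jen (hp : IsP p) (f : Ω → ℝ) : exp (∑ x, p x * f x) ≤ ∑ x, p x * exp (f x) := by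
  set m := ∑ x, p x * f x with hm
  have h1 : ∀ x, exp m * (p x * (1 - m) + p x * f x) ≤ p x * exp (f x) := fun x => by
    have h := add_one_le_exp (f x - m)
    have e : exp (f x) = exp m * exp (f x - m) := by rw [← exp_add]; congr 1; ring
    have h2 := mul_le_mul_of_nonneg_left h (mul_nonneg (hp.nn x) (exp_pos m).le)
    rw [e]; nlinarith
  refine le_trans (le_of_eq ?_) (sum_le_sum fun x _ => h1 x)
  rw [← mul_sum, sum_add_distrib, ← sum_mul, hp.sum1, ← hm]; ring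

/-- two-replica exponential moment -/
def XX (p : Ω → ℝ) (φ : Ω → ι → ℝ) (θ : ℝ) : ℝ :=
  ∑ x, p x * ∑ y, p y * exp (θ * (φ x ⬝ᵥ φ y))

/-- linear forms -/
theorem lin (hp : IsP p) (φ : Ω → ι → ℝ) {θ G : ℝ} (hθ : 0 < θ) (hG : XX p φ θ ≤ exp (2 * G))
    (u : ι → ℝ) : ∑ x, p x * exp (u ⬝ᵥ φ x) ≤ exp (G + u ⬝ᵥ u / (2 * θ)) := by
  set Z := ∑ x, p x * exp (u ⬝ᵥ φ x) with hZ
  have Z0 : 0 < Z := (exp_pos _).trans_le (jen hp _)
  set q : Ω → ℝ := fun x => p x * exp (u ⬝ᵥ φ x) / Z with hq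
  have qP : IsP q := ⟨fun x => div_nonneg (mul_nonneg (hp.nn x) (exp_pos _).le) Z0.le, by
    simp only [hq]; rw [← sum_div, ← hZ, div_self Z0.ne']⟩
  set m : ι → ℝ := ∑ x, q x • φ x with hm
  have dm : ∀ a : ι → ℝ, ∑ x, q x * (a ⬝ᵥ φ x) = a ⬝ᵥ m := fun a => by
    rw [hm, dotProduct_sum]
    exact sum_congr rfl fun x _ => by rw [dotProduct_smul, smul_eq_mul]
  have h1 : ∀ x, Z * exp ((θ • φ x - u) ⬝ᵥ m) ≤ ∑ y, p y * exp (θ * (φ x ⬝ᵥ φ y)) := fun x => by
    rw [← dm]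
    refine (mul_le_mul_of_nonneg_left (jen qP _) Z0.le).trans (le_of_eq ?_)
    rw [mul_sum]
    refine sum_congr rfl fun y _ => ?_
    simp only [hq, sub_dotProduct, smul_dotProduct, smul_eq_mul, exp_sub]
    field_simp
  have h2 : Z * (Z * exp ((θ • m - u) ⬝ᵥ m - u ⬝ᵥ m)) ≤ XX p φ θ := by
    refine le_trans ?_ (sum_le_sum fun x _ => mul_le_mul_of_nonneg_left (h1 x) (hp.nn x))
    have e : (θ • m - u) ⬝ᵥ m - u ⬝ᵥ m = ∑ x, q x * ((θ • m - u) ⬝ᵥ φ x - u ⬝ᵥ m) := by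
      simp only [mul_sub, sum_sub_distrib, dm, ← sum_mul, qP.sum1, one_mul]
    rw [e]
    refine (mul_le_mul_of_nonneg_left (mul_le_mul_of_nonneg_left (jen qP _) Z0.le) Z0.le).trans
      (le_of_eq ?_)
    rw [mul_sum, mul_sum]
    refine sum_congr rfl fun x _ => ?_
    simp only [hq, sub_dotProduct, smul_dotProduct, smul_eq_mul, exp_sub, dotProduct_comm m (φ x)]
    field_simp
  have h3 : -(u ⬝ᵥ u / θ) ≤ (θ • m - u) ⬝ᵥ m - u ⬝ᵥ m := by
    have h := sum_nonneg fun i (_ : i ∈ univ) => mul_self_nonneg ((θ • m - u) i)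
    change 0 ≤ (θ • m - u) ⬝ᵥ (θ • m - u) at h
    simp only [sub_dotProduct, dotProduct_sub, smul_dotProduct, dotProduct_smul, smul_eq_mul,
      dotProduct_comm m u] at h ⊢
    rw [neg_le, ← sub_nonneg, ← mul_nonneg_iff_of_pos_left hθ]
    refine h.trans (le_of_eq ?_)
    field_simp; ring
  have h4 : Z * (Z * exp (-(u ⬝ᵥ u / θ))) ≤ exp (2 * G) :=
    le_trans (by gcongr) (h2.trans hG)
  refine (pow_le_pow_iff_left₀ Z0.le (exp_pos _).le two_ne_zero).1 ?_
  have h5 := mul_le_mul_of_nonneg_right h4 (exp_pos (u ⬝ᵥ u / θ)).le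
  rw [mul_assoc, mul_assoc, ← exp_add, neg_add_cancel, exp_zero, mul_one, ← exp_add] at h5
  rw [sq, sq, ← exp_add]
  refine h5.trans (le_of_eq ?_)
  congr 1; field_simp; ring

theorem int_sq {a : ℝ} (h0 : 0 ≤ a) (ha : a ≤ 1 / 2) :
    Integrable (fun h : ℝ => exp (a * h ^ 2 / 2)) (gaussianReal 0 1) ∧
      ∫ h, exp (a * h ^ 2 / 2) ∂gaussianReal 0 1 ≤ exp a := by
  have hb : 0 < (1 - a) / 2 := by linarith
  have e : ∀ h : ℝ, gaussianPDFReal 0 1 h * exp (a * h ^ 2 / 2) =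
      (√(2 * π))⁻¹ * exp (-((1 - a) / 2) * h ^ 2) := fun h => by
    simp only [gaussianPDFReal, NNReal.coe_one, mul_one, sub_zero, mul_assoc, ← exp_add]
    congr 2; ring
  constructor
  · rw [gaussianReal_of_var_ne_zero _ one_ne_zero, integrable_withDensity_iff_integrable_smul'
      (by fun_prop) (by simp [gaussianPDF])]
    simp only [toReal_gaussianPDF, smul_eq_mul, e]
    exact (integrable_exp_neg_mul_sq hb).const_mul _
  · rw [integral_gaussianReal_eq_integral_smul one_ne_zero]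
    simp only [smul_eq_mul, e]
    have h2 : 0 < √(2 * π) := by positivity
    rw [integral_const_mul, integral_gaussian, show π / ((1 - a) / 2) = 2 * π * (1 - a)⁻¹ by
      field_simp, sqrt_mul (show 0 ≤ 2 * π by positivity) (1 - a)⁻¹, ← mul_assoc, inv_mul_cancel₀ h2.ne', one_mul,
      sqrt_le_left (exp_pos _).le, sq, ← exp_add, inv_le_iff_one_le_mul₀ (by linarith)]
    have h3 := add_one_le_exp (a + a)
    nlinarith [mul_le_mul_of_nonneg_right h3 (show 0 ≤ 1 - a by linarith)]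

theorem int_lin (a : κ → ℝ) :
    Integrable (fun ξ : κ → ℝ => exp (∑ k, a k * ξ k)) (Measure.pi fun _ => gaussianReal 0 1) ∧
      ∫ ξ : κ → ℝ, exp (∑ k, a k * ξ k) ∂(Measure.pi fun _ => gaussianReal 0 1) =
        exp (∑ k, a k ^ 2 / 2) := by
  simp only [exp_sum]
  refine ⟨Integrable.fintype_prod (f := fun k x => exp (a k * x)) fun k =>
    integrable_exp_mul_gaussianReal _, ?_⟩
  rw [integral_fintype_prod_eq_prod (fun k x => exp (a k * x))]
  refine prod_congr rfl fun k _ => ?_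
  have := congrFun (mgf_fun_id_gaussianReal (μ := 0) (v := 1)) (a k)
  simpa [mgf] using this

theorem int_quad {a : κ → ℝ} (h0 : ∀ k, 0 ≤ a k) (ha : ∀ k, a k ≤ 1 / 2) :
    Integrable (fun ξ : κ → ℝ => exp (∑ k, a k * ξ k ^ 2 / 2))
      (Measure.pi fun _ => gaussianReal 0 1) ∧
      ∫ ξ : κ → ℝ, exp (∑ k, a k * ξ k ^ 2 / 2) ∂(Measure.pi fun _ => gaussianReal 0 1) ≤
        exp (∑ k, a k) := by
  simp only [exp_sum]
  refine ⟨Integrable.fintype_prod (f := fun k x => exp (a k * x ^ 2 / 2)) fun k =>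
    (int_sq (h0 k) (ha k)).1, ?_⟩
  rw [integral_fintype_prod_eq_prod (fun k x => exp (a k * x ^ 2 / 2))]
  exact prod_le_prod (fun k _ => integral_nonneg fun x => (exp_pos _).le) fun k _ =>
    (int_sq (h0 k) (ha k)).2

/-- quadratic forms, diagonal words -/
theorem quad [DecidableEq κ] (hp : IsP p) (φ : Ω → ι → ℝ) {θ G : ℝ} (hθ : 0 < θ)
    (hG : XX p φ θ ≤ exp (2 * G)) (v : κ → ι → ℝ)
    (hv : ∀ k l, v k ⬝ᵥ v l = if k = l then 1 else 0) {d : κ → ℝ} (h0 : ∀ k, 0 ≤ d k)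
    (h1 : ∀ k, d k ≤ 1) :
    ∑ x, p x * exp (θ / 4 * ∑ k, d k * (v k ⬝ᵥ φ x) ^ 2) ≤ exp (G + (∑ k, d k) / 2) := by
  set s : κ → ℝ := fun k => √(θ * d k / 2) with hs
  have s2 : ∀ k, s k ^ 2 = θ * d k / 2 := fun k => sq_sqrt (by have := h0 k; positivity)
  have e1 : ∀ x, exp (θ / 4 * ∑ k, d k * (v k ⬝ᵥ φ x) ^ 2) =
      ∫ ξ : κ → ℝ, exp (∑ k, (s k * (v k ⬝ᵥ φ x)) * ξ k)
        ∂(Measure.pi fun _ => gaussianReal 0 1) := fun x => by
    rw [(int_lin _).2, mul_sum]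
    congr 1
    exact sum_congr rfl fun k _ => by rw [mul_pow, s2]; ring
  have q := int_quad (a := fun k => d k / 2) (fun k => by have := h0 k; positivity)
    fun k => by have := h1 k; linarith
  simp only [e1, ← integral_const_mul]
  rw [← integral_finsetSum _ fun x _ => (int_lin _).1.const_mul _, exp_add, sum_div]
  refine le_trans ?_ (mul_le_mul_of_nonneg_left q.2 (exp_pos G).le)
  rw [← integral_const_mul]
  refine integral_mono (integrable_finsetSum _ fun x _ => (int_lin _).1.const_mul _)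
    (q.1.const_mul _) fun ξ => ?_
  have h := lin hp φ hθ hG (∑ k, (s k * ξ k) • v k)
  have e2 : ∀ x, (∑ k, (s k * ξ k) • v k) ⬝ᵥ φ x = ∑ k, (s k * (v k ⬝ᵥ φ x)) * ξ k := fun x => by
    rw [sum_dotProduct]
    exact sum_congr rfl fun k _ => by rw [smul_dotProduct, smul_eq_mul]; ring
  have e3 : (∑ k, (s k * ξ k) • v k) ⬝ᵥ (∑ k, (s k * ξ k) • v k) / (2 * θ) =
      ∑ k, d k / 2 * ξ k ^ 2 / 2 := by
    rw [sum_dotProduct, sum_div]
    refine sum_congr rfl fun k _ => ?_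
    simp only [dotProduct_sum, smul_dotProduct, dotProduct_smul, smul_eq_mul, hv, mul_ite, mul_one,
      mul_zero, sum_ite_eq, mem_univ, if_true]
    rw [show s k * ξ k * (s k * ξ k) = s k ^ 2 * ξ k ^ 2 by ring, s2]
    field_simp
  simp only [e2, e3, exp_add] at h
  exact h

/-- quadratic forms -/
theorem quadF [DecidableEq ι] (hp : IsP p) (φ : Ω → ι → ℝ) {θ G : ℝ} (hθ : 0 < θ)
    (hG : XX p φ θ ≤ exp (2 * G)) {F : Matrix ι ι ℝ} (h0 : F.PosSemidef)
    (h1 : (1 - F).PosSemidef) :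
    ∑ x, p x * exp (θ / 4 * (φ x ⬝ᵥ F *ᵥ φ x)) ≤ exp (G + F.trace / 2) := by
  have hF := h0.1
  have h := quad (κ := Fin (Fintype.card ι)) hp φ hθ hG (fun k => vec F k)
    (fun k l => by rw [vec_dot hF k.2 l.2]; simp only [Fin.val_inj]) (d := fun k => lam F k)
    (fun k => by
      rw [← quad_vec hF k.2]
      simpa using h0.dotProduct_mulVec_nonneg (vec F k))
    (fun k => by
      have := h1.dotProduct_mulVec_nonneg (vec F k)
      rw [star_trivial, sub_mulVec, one_mulVec, dotProduct_sub, quad_vec hF k.2,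
        vec_dot_self hF k.2] at this
      linarith)
  rw [trace_eq hF, sum_range]
  refine le_trans (le_of_eq (sum_congr rfl fun x _ => ?_)) h
  rw [quad_eq hF, sum_range]
  simp only [sq]

/-- change of measure -/
theorem chg (hp : IsP p) (hp0 : ∀ x, 0 < p x) {ν : Ω → ℝ} (hν : IsP ν) {H G : ℝ}
    (hH : ∑ x, ν x ^ 2 / p x ≤ exp H) (f : Ω → ℝ) (hG : ∑ x, p x * exp (f x) ≤ exp G) :
    ∑ x, ν x * f x ≤ H + G := by
  have h1 := jen hν fun x => f x / 2
  have h2 := hp.ip_sq_le (fun x => ν x / p x) fun x => exp (f x / 2)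
  have e1 : ip p (fun x => ν x / p x) (fun x => exp (f x / 2)) = ∑ x, ν x * exp (f x / 2) :=
    sum_congr rfl fun x _ => by have := hp0 x; field_simp
  have e2 : ip p (fun x => ν x / p x) (fun x => ν x / p x) = ∑ x, ν x ^ 2 / p x :=
    sum_congr rfl fun x _ => by have := hp0 x; field_simp
  have e3 : ip p (fun x => exp (f x / 2)) (fun x => exp (f x / 2)) = ∑ x, p x * exp (f x) :=
    sum_congr rfl fun x _ => by rw [← exp_add, add_halves]
  rw [e1, e2, e3] at h2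
  have h3 := (pow_le_pow_left₀ (exp_pos _).le h1 2).trans (h2.trans (mul_le_mul hH hG
    (sum_nonneg fun x _ => mul_nonneg (hp.nn x) (exp_pos _).le) (exp_pos _).le))
  rw [sq, ← exp_add, ← exp_add, exp_le_exp, ← sum_add_distrib] at h3
  refine le_trans (le_of_eq (sum_congr rfl fun x _ => ?_)) h3
  ring

/-- **MASS**, abstract form -/
theorem mass [DecidableEq ι] (hp : IsP p) (hp0 : ∀ x, 0 < p x) (φ : Ω → ι → ℝ) {B : ℝ}
    (hB : ∀ θ : ℝ, XX p φ θ ≤ B * exp (B * |θ| ^ (3 / 2 : ℝ))) {F : Matrix ι ι ℝ}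
    (h0 : F.PosSemidef) (h1 : (1 - F).PosSemidef) {ν : Ω → ℝ} (hν : IsP ν) {H : ℝ} (H0 : 0 ≤ H)
    (hH : ∑ x, ν x ^ 2 / p x ≤ exp H) :
    ∑ x, ν x * (φ x ⬝ᵥ F *ᵥ φ x) ≤ 4 * (1 + |B|) * (1 + H + F.trace) ^ (1 / 3 : ℝ) := by
  have t0 : 0 ≤ F.trace := h0.trace_nonneg
  set S := 1 + H + F.trace with hS
  have S1 : 1 ≤ S := by linarith
  have S0 : 0 < S := by linarith
  set θ := S ^ (2 / 3 : ℝ) with hθ
  have θ0 : 0 < θ := rpow_pos_of_pos S0 _
  have e1 : |θ| ^ (3 / 2 : ℝ) = S := by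
    rw [abs_of_pos θ0, hθ, ← rpow_mul S0.le]; norm_num
  have e2 : S = θ * S ^ (1 / 3 : ℝ) := by
    rw [hθ, ← rpow_add S0]; norm_num
  have B0 := abs_nonneg B
  have B1 := le_abs_self B
  have hG : XX p φ θ ≤ exp (2 * (|B| * S)) := by
    refine (hB θ).trans ?_
    rw [e1, two_mul, exp_add]
    refine mul_le_mul ?_ (exp_le_exp.2 (by nlinarith)) (exp_pos _).le (exp_pos _).le
    have := add_one_le_exp (|B| * S)
    nlinarith
  have h := chg hp hp0 hν hH _ (quadF hp φ θ0 hG h0 h1)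
  have e3 : ∑ x, ν x * (θ / 4 * (φ x ⬝ᵥ F *ᵥ φ x)) = θ / 4 * ∑ x, ν x * (φ x ⬝ᵥ F *ᵥ φ x) := by
    rw [mul_sum]; exact sum_congr rfl fun x _ => by ring
  rw [e3] at h
  refine le_of_mul_le_mul_left (h.trans ?_) (show 0 < θ / 4 by positivity)
  have : θ / 4 * (4 * (1 + |B|) * S ^ (1 / 3 : ℝ)) = (1 + |B|) * (θ * S ^ (1 / 3 : ℝ)) := by ring
  rw [this, ← e2]
  nlinarith

/-- the `χ²` norm of the discrete flow is bounded by the continuous kernel -/
theorem chi [DecidableEq Ω] (c : RC Ω) (hc : c.PSD) {μ : Ω → ℝ} (hμ : IsP μ) (i : ℕ) {E : ℝ}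
    (h : ∀ x y, c.H (2 * i) x y ≤ E * c.π y) : ∑ y, (μ ᵥ* c.P ^ i) y ^ 2 / c.π y ≤ E := by
  set ρ : Ω → ℝ := fun x => μ x / c.π x with hρ
  have hm : ∀ x, c.π x * ρ x = μ x := fun x => by have := c.pos x; simp only [hρ]; field_simp
  have ρ0 : ∀ x, 0 ≤ ρ x := fun x => div_nonneg (hμ.nn x) (c.pos x).le
  have e1 : ∀ y, (μ ᵥ* c.P ^ i) y = c.π y * ((c.P ^ i) *ᵥ ρ) y := fun y => by
    simp only [vecMul, mulVec, dotProduct, mul_sum]
    refine sum_congr rfl fun x _ => ?_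
    rw [← hm, ← mul_assoc, ← c.pow_rev]; ring
  have e2 : ∑ y, (μ ᵥ* c.P ^ i) y ^ 2 / c.π y = ip c.π ρ ((c.P ^ (2 * i)) *ᵥ ρ) := by
    have := (c.pow i).ip_P_symm ρ ((c.P ^ i) *ᵥ ρ)
    rw [RC.pow_π, RC.pow_P, mulVec_mulVec, ← pow_add, ← two_mul] at this
    rw [this]
    refine sum_congr rfl fun y _ => ?_
    have := c.pos y
    rw [e1]; field_simp
  have h1 : ip c.π ρ ((c.P ^ (2 * i)) *ᵥ ρ) ≤ ip c.π ρ (c.H (2 * i) *ᵥ ρ) := by
    rw [c.ip_pow_spec, c.ip_H_spec]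
    refine sum_le_sum fun j _ => mul_le_mul_of_nonneg_right ?_ (mul_self_nonneg _)
    have h2 := add_one_le_exp (-(1 - c.ev j))
    refine (pow_le_pow_left₀ (hc.ev_nonneg j) (show c.ev j ≤ _ by linarith) _).trans
      (le_of_eq ?_)
    rw [← exp_nat_mul]; congr 1; push_cast; ring
  have h3 : ∀ x, (c.H (2 * i) *ᵥ ρ) x ≤ E := fun x => by
    refine (sum_le_sum fun y _ => mul_le_mul_of_nonneg_right (h x y) (ρ0 y)).trans (le_of_eq ?_)
    simp only [mul_assoc, hm, ← mul_sum, hμ.sum1, mul_one]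
  rw [e2]
  refine h1.trans ?_
  have e3 : ip c.π ρ (c.H (2 * i) *ᵥ ρ) = mean μ (c.H (2 * i) *ᵥ ρ) :=
    sum_congr rfl fun x _ => by rw [← mul_assoc, hm]
  rw [e3, ← hμ.mean_const E]
  exact hμ.mean_mono h3

end fin

theorem sum_pow_le {γ : ℝ} (h0 : 0 ≤ γ) (h1 : γ < 1) (M : ℕ) :
    ∑ i ∈ range M, ((i : ℝ) + 1) ^ (-γ) ≤ (M : ℝ) ^ (1 - γ) / (1 - γ) := by
  have g : 0 < 1 - γ := by linarith
  rw [le_div_iff₀ g]
  induction M with
  | zero => simp [zero_rpow g.ne']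
  | succ M ih =>
    rw [sum_range_succ, add_mul]
    have M1 : (0 : ℝ) < M + 1 := by positivity
    have h := rpow_one_add_le_one_add_mul_self (s := -((M : ℝ) + 1)⁻¹)
      (by rw [neg_le_neg_iff]; exact inv_le_one_of_one_le₀ (by linarith [Nat.cast_nonneg (α := ℝ) M]))
      g.le (show 1 - γ ≤ 1 by linarith)
    have e : (M : ℝ) = (M + 1) * (1 + -((M : ℝ) + 1)⁻¹) := by field_simp; ring
    have e0 : 0 ≤ 1 + -((M : ℝ) + 1)⁻¹ := by
      have : ((M : ℝ) + 1)⁻¹ ≤ 1 := inv_le_one_of_one_le₀ (by linarith [Nat.cast_nonneg (α := ℝ) M])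
      linarith
    have e2 : (M : ℝ) ^ (1 - γ) = ((M : ℝ) + 1) ^ (1 - γ) * (1 + -((M : ℝ) + 1)⁻¹) ^ (1 - γ) := by
      rw [← mul_rpow M1.le e0, ← e]
    have e3 : ((M : ℝ) + 1) ^ (-γ) = ((M : ℝ) + 1) ^ (1 - γ) * ((M : ℝ) + 1)⁻¹ := by
      rw [← rpow_neg_one, ← rpow_add M1]; congr 1; ring
    have h4 := mul_le_mul_of_nonneg_left h (rpow_nonneg M1.le (1 - γ))
    push_cast
    rw [e3]
    nlinarith

end Crest.Agent.T157.Cq.M67

end
end

-- ▼ part T157/CqMass_67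

/-!
# Row 157, part C (helper67): `MassStmt` and `CrGlue`
-/

set_option autoImplicit false

noncomputable section

namespace Crest.Agent.T157.Cq

open MeasureTheory ProbabilityTheory Matrix Filter Topology Finset Real
open Crest.ProbabilityR.SpinGlassDynamics Crest.Agent.T157.E Crest.Agent.T157.Eig
open Crest.Agent.T157.St Crest.Agent.T157.Ed
open Crest.Agent.T157.Soft (Pn unif ch IsCyl)
open Crest.Agent.T157.Q1 (Down DownStmt LdB)

/-- **MASS** -/
theorem massStmt : MassStmt := fun B => ⟨4 * (1 + |B|), fun n W F ν H _ hB h0 h1 hν H0 hH => by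
  have hw := Lnk10.ising_pos W
  refine M67.mass (Chain22.isP_prob' hw) (Chain22.prob_pos' hw) (hat n) (fun θ => ?_) h0 h1 hν H0 hH
  have := hB θ
  simp only [Xk, Lnk10.integral_muW] at this
  exact this⟩

namespace M67

variable {n : ℕ}

theorem Ph_iter (hn : 0 < n) {w : Cube n → ℝ} (hw : ∀ x, 0 < w x) (i : ℕ) (V : Cube n → ℝ) :
    (Ph w)^[i] V = ((Chain22.hbRC hn hw).P ^ i) *ᵥ V := by
  induction i with
  | zero => simp
  | succ i ih =>
    rw [Function.iterate_succ_apply', ih, pow_succ', ← mulVec_mulVec, Chain22.hbRC_mulVec]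
    funext x
    simp only [Ph, one_div, Pi.smul_apply, Finset.sum_apply, smul_eq_mul]

theorem um_mulVec (K : Matrix (Cube n) (Cube n) ℝ) (V : Cube n → ℝ) :
    um (K *ᵥ V) = ∑ y, (unif n ᵥ* K) y * V y :=
  dotProduct_mulVec (unif n) K V

theorem isP_flow {Ω : Type*} [Fintype Ω] (c : Chain22.RC Ω) {μ : Ω → ℝ} (hμ : Chain22.IsP μ) :
    Chain22.IsP (μ ᵥ* c.P) :=
  ⟨fun y => sum_nonneg fun x _ => mul_nonneg (hμ.nn x) (c.nn x y), by
    simp only [vecMul, dotProduct]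
    rw [sum_comm]
    simp only [← mul_sum, c.row, mul_one, hμ.sum1]⟩

theorem prob_W (g : Pair n → ℝ) (d : Fin n → ℝ) :
    prob (ising (Wmat n g d) 0) = prob (gibbsWeight n 1 g) := by
  have h1 := GoeT.prob_ising_Wmat 1 g d
  rwa [one_smul] at h1

theorem Ph_W (g : Pair n → ℝ) (d : Fin n → ℝ) :
    Ph (ising (Wmat n g d) 0) = Ph (gibbsWeight n 1 g) := by
  funext f x
  rw [Ph, Ph, ← GoeT.siteM_prob (GoeT.sum_ising_ne _ _), prob_W,
    GoeT.siteM_prob (GoeT.sum_gibbs_ne 1 g)]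

theorem qf_le (hn : 0 < n) {F : Mat n} (h1 : (1 - F).PosSemidef) (x : Cube n) : qf F x ≤ n := by
  have := h1.dotProduct_mulVec_nonneg (hat n x)
  rw [star_trivial, sub_mulVec, one_mulVec, dotProduct_sub] at this
  have s1 : 1 ≤ sx n := one_le_rpow (by exact_mod_cast hn) (by norm_num)
  have s2 : (sx n ^ 2)⁻¹ ≤ 1 := inv_le_one_of_one_le₀ (one_le_pow₀ s1)
  have s0 : 0 ≤ (sx n ^ 2)⁻¹ := by positivity
  have e : hat n x ⬝ᵥ hat n x = (sx n ^ 2)⁻¹ * ((sx n ^ 2)⁻¹ * n) := by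
    rw [hat, smul_dotProduct, dotProduct_smul, sv_dot_self, smul_eq_mul, smul_eq_mul]
  have n0 : (0 : ℝ) ≤ n := Nat.cast_nonneg n
  have : hat n x ⬝ᵥ hat n x ≤ n := by
    rw [e]; exact (mul_le_of_le_one_left (by positivity) s2).trans (mul_le_of_le_one_left n0 s2)
  unfold qf
  linarith

/-- one term of the occupation functional -/
theorem term (hn : 0 < n) {D a β H₀ : ℝ} (ha : 0 < a) (hβ : 0 < β) (hH : 0 < H₀)
    {g : Pair n → ℝ} (hD : Down n g a β H₀) {V : Cube n → ℝ} {T : ℝ} (T0 : 0 ≤ T)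
    (hm : ∀ (ν : Cube n → ℝ) (H : ℝ), Chain22.IsP ν → 0 ≤ H →
      ∑ x, ν x ^ 2 / prob (gibbsWeight n 1 g) x ≤ exp H →
        ∑ x, ν x * V x ≤ D * (1 + H + T) ^ (1 / 3 : ℝ)) (i : ℕ) :
    um ((Ph (gibbsWeight n 1 g))^[i + 1] V) ≤ |D| * ((1 + H₀) * (1 + T) ^ (1 / 3 : ℝ) +
      (β * (n * tau n)) ^ (1 / (3 * a)) * ((i : ℝ) + 1) ^ (-(1 / (3 * a)))) := by
  have hw := gibbsWeight_pos 1 g
  have n0 : (0 : ℝ) < n := by exact_mod_cast hn
  have t0 : 0 < tau n := rpow_pos_of_pos n0 _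
  set c := Chain22.hbRC hn hw with hc
  set t : ℝ := 2 * ((i + 1 : ℕ) : ℝ) / (n * tau n) with ht
  have tp : 0 < t := by positivity
  set s : ℝ := (β / t) ^ (1 / a) with hs
  have sp : 0 < s := by positivity
  have k1 : β * (H₀ + s) ^ (-a) ≤ t := by
    have h1 : (H₀ + s) ^ (-a) ≤ s ^ (-a) :=
      rpow_le_rpow_of_nonpos sp (by linarith) (by linarith)
    have h2 : s ^ (-a) = t / β := by
      rw [hs, ← rpow_mul (by positivity), show 1 / a * -a = -1 by field_simp, rpow_neg_one, inv_div]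
    refine (mul_le_mul_of_nonneg_left h1 hβ.le).trans (le_of_eq ?_)
    rw [h2]; field_simp
  have k2 : ∀ x y, c.H (2 * ((i + 1 : ℕ) : ℝ)) x y ≤ exp (H₀ + s) * c.π y := fun x y => by
    have h := hD (H₀ + s) t (by linarith) k1 x y
    rw [ctKernel_eq, Chain22.hbCt_eq hn hw] at h
    have e : n * (t * Soft.N23 n) = 2 * ((i + 1 : ℕ) : ℝ) := by
      change n * (t * tau n) = _
      rw [ht]; field_simp
    rwa [e] at h
  have k3 := hm _ (H₀ + s) (isP_flow (c.pow (i + 1)) Soft.isP_unif) (by positivity)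
    (chi c (Chain22.hbRC_psd hn hw) Soft.isP_unif (i + 1) k2)
  rw [Ph_iter hn hw, um_mulVec]
  refine k3.trans ((mul_le_mul_of_nonneg_right (le_abs_self D) (by positivity)).trans
    (mul_le_mul_of_nonneg_left ?_ (abs_nonneg D)))
  have k4 := rpow_add_le_add_rpow (a := 1 + H₀ + T) (b := s) (p := 1 / 3) (by positivity) sp.le
    (by norm_num) (by norm_num)
  rw [show 1 + (H₀ + s) + T = 1 + H₀ + T + s by ring]
  refine k4.trans (add_le_add ?_ ?_)
  · have h1 : (1 + H₀ + T) ^ (1 / 3 : ℝ) ≤ ((1 + H₀) * (1 + T)) ^ (1 / 3 : ℝ) :=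
      rpow_le_rpow (by positivity) (by nlinarith) (by norm_num)
    rw [mul_rpow (by positivity) (by positivity)] at h1
    refine h1.trans (mul_le_mul_of_nonneg_right ?_ (by positivity))
    exact rpow_le_self_of_one_le (by linarith) (by norm_num)
  · rw [hs, ← rpow_mul (by positivity), show 1 / a * (1 / 3) = 1 / (3 * a) by field_simp,
      rpow_neg (by positivity), ← inv_rpow (by positivity),
      ← mul_rpow (by positivity) (by positivity)]
    refine rpow_le_rpow (by positivity) ?_ (by positivity)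
    rw [ht]
    push_cast
    have : β / (2 * ((i : ℝ) + 1) / (n * tau n)) = β * (n * tau n) * ((i : ℝ) + 1)⁻¹ / 2 := by
      field_simp
    rw [this]
    exact half_le_self (by positivity)

end M67

/-- **CRUDE** -/
theorem crGlue : CrGlue := fun hM B a β H₀ ha hβ hH => by
  obtain ⟨D, hD⟩ := hM B
  have a0 : 0 < a := by linarith
  set γ : ℝ := 1 / (3 * a) with hγ
  have γ0 : 0 < γ := by positivity
  have γ1 : γ < 1 := by rw [hγ, div_lt_one (by positivity)]; linarith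
  have g0 : 0 < 1 - γ := by linarith
  refine ⟨1 + 2 * |D| * (1 + H₀) + 2 * |D| * β ^ γ / (1 - γ), fun ε ε0 ε1 => ?_⟩
  have hτ : Tendsto tau atTop atTop :=
    (tendsto_rpow_atTop (by norm_num)).comp tendsto_natCast_atTop_atTop
  filter_upwards [eventually_gt_atTop 0, hτ.eventually_ge_atTop (ε ^ (1 - γ))⁻¹] with n hn hτ g d F
    hDn hB h0 h1
  have n0 : (0 : ℝ) < n := by exact_mod_cast hn
  have t0 : 0 < tau n := rpow_pos_of_pos n0 _
  have T0 : 0 ≤ F.trace := h0.trace_nonneg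
  have e0 : 0 < ε ^ (1 - γ) := rpow_pos_of_pos ε0 _
  have D0 := abs_nonneg D
  set N : ℝ := n * tau n with hN
  have N0 : 0 < N := by positivity
  set A : ℝ := (1 + F.trace) ^ (1 / 3 : ℝ) with hA
  have A0 : 0 ≤ A := by positivity
  have k := M67.term hn a0 hβ hH hDn T0 (V := qf F) (D := D) fun ν H hν H0 h =>
    hD n (Wmat n g d) F ν H hn (by rwa [Lnk10.muW_Wmat]) h0 h1 hν H0 (by rwa [M67.prob_W])
  have k0 : um (qf F) ≤ n := by
    have := Soft.isP_unif.mean_mono (M67.qf_le hn h1)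
    rwa [Soft.isP_unif.mean_const] at this
  have M1 : (Mst n ε : ℝ) ≤ 2 * ε * N := Nat.floor_le (by positivity)
  set M := Mst n ε with hM'
  have s1 : ∑ i ∈ range M, um ((Ph (gibbsWeight n 1 g))^[i] (qf F)) ≤
      n + ∑ i ∈ range M, |D| * ((1 + H₀) * A + (β * N) ^ γ * ((i : ℝ) + 1) ^ (-γ)) := by
    rcases M with _ | m
    · simp
    · rw [sum_range_succ', sum_range_succ, add_comm]
      refine add_le_add k0 ((sum_le_sum fun i _ => k i).trans (le_add_of_nonneg_right ?_))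
      positivity
  have s2 : ∑ i ∈ range M, |D| * ((1 + H₀) * A + (β * N) ^ γ * ((i : ℝ) + 1) ^ (-γ)) ≤
      |D| * (2 * ε * N * ((1 + H₀) * A) + β ^ γ * (2 * ε ^ (1 - γ) * N) / (1 - γ)) := by
    rw [← mul_sum, sum_add_distrib, sum_const, card_range, nsmul_eq_mul, ← mul_sum]
    refine mul_le_mul_of_nonneg_left (add_le_add (by gcongr) ?_) D0
    refine (mul_le_mul_of_nonneg_left (M67.sum_pow_le γ0.le γ1 M) (by positivity)).trans ?_
    rw [← mul_div_assoc]
    refine div_le_div_of_nonneg_right ?_ g0.le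
    have h2 : (M : ℝ) ^ (1 - γ) ≤ (2 * ε * N) ^ (1 - γ) :=
      rpow_le_rpow (Nat.cast_nonneg M) M1 g0.le
    have h3 : (2 : ℝ) ^ (1 - γ) ≤ 2 := rpow_le_self_of_one_le one_le_two (by linarith)
    have h4 : N ^ γ * N ^ (1 - γ) = N := by rw [← rpow_add N0]; simp
    rw [mul_rpow (by positivity) N0.le, mul_rpow (by positivity) ε0.le] at h2
    rw [mul_rpow hβ.le N0.le, mul_assoc]
    refine mul_le_mul_of_nonneg_left ?_ (by positivity)
    calc N ^ γ * (M : ℝ) ^ (1 - γ) ≤ N ^ γ * (2 * ε ^ (1 - γ) * N ^ (1 - γ)) :=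
          mul_le_mul_of_nonneg_left (h2.trans (by gcongr)) (by positivity)
      _ = 2 * ε ^ (1 - γ) * (N ^ γ * N ^ (1 - γ)) := by ring
      _ = _ := by rw [h4]
  have s3 : (n : ℝ) ≤ N * ε ^ (1 - γ) := by
    rw [hN, mul_assoc]
    refine le_mul_of_one_le_right n0.le ?_
    rwa [inv_le_iff_one_le_mul₀' e0, mul_comm] at hτ
  rw [occ, M67.Ph_W, ← hN, ← hM', inv_mul_le_iff₀ N0]
  refine s1.trans ((add_le_add s3 s2).trans ?_)
  have b0 : 0 ≤ 2 * |D| * β ^ γ / (1 - γ) := by positivity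
  have b1 : 0 ≤ 2 * |D| * (1 + H₀) := by positivity
  have e : N * ε ^ (1 - γ) + |D| * (2 * ε * N * ((1 + H₀) * A) +
      β ^ γ * (2 * ε ^ (1 - γ) * N) / (1 - γ)) = N * ((1 + 2 * |D| * β ^ γ / (1 - γ)) *
        ε ^ (1 - γ) + 2 * |D| * (1 + H₀) * (ε * A)) := by field_simp; ring
  rw [e]
  refine mul_le_mul_of_nonneg_left ?_ N0.le
  have : 0 ≤ ε * A := by positivity
  nlinarith [mul_nonneg b1 e0.le, mul_nonneg b0 this]


end Crest.Agent.T157.Cq

end
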