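import Crest.Agent.T157.CqDef_72
import Crest.Agent.T157.StFin_85

-- ▼ part T157/CqMgA_4
section

/-!
# Row 157, part C: tools for `MgGlue` (helper4)
-/

set_option autoImplicit false

noncomputable section

namespace Crest.Agent.T157.Cq.Mg4

open MeasureTheory ProbabilityTheory Matrix Filter Topology Finset Real
open Crest.ProbabilityR.SpinGlassDynamics Crest.Agent.T157.E Crest.Agent.T157.Eig
open Crest.Agent.T157.St Crest.Agent.T157.Ed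
open Crest.Agent.T157.Soft (Pn ch)
open Crest.Agent.T157.Q1 (Down)

lemma cut_nonneg (u : ℝ) : 0 ≤ cut u := smoothTransition.nonneg _
lemma cut_le_one (u : ℝ) : cut u ≤ 1 := smoothTransition.le_one _
lemma cut_one {u : ℝ} (h : u ≤ 1) : cut u = 1 := smoothTransition.one_of_one_le (by linarith)
lemma cut_zero {u : ℝ} (h : 2 ≤ u) : cut u = 0 := smoothTransition.zero_of_nonpos (by linarith)
lemma continuous_cut : Continuous cut :=
  smoothTransition.continuous.comp (continuous_const.sub continuous_id)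

/-- powers of an expression -/
def pw (e : SE) : ℕ → SE
  | 0 => .const 1
  | j + 1 => .mul e (pw e j)

lemma pw_adm {e : SE} (h : e.Adm) : ∀ j, (pw e j).Adm
  | 0 => trivial
  | j + 1 => ⟨h, pw_adm h j⟩

lemma pw_sz (e : SE) : ∀ j : ℕ, (pw e j).sz = 2 + j * (e.sz + 1)
  | 0 => by simp [pw, SE.sz]; norm_num
  | j + 1 => by simp only [pw, SE.sz, pw_sz e j]; push_cast; ring

section mk
variable {ι : Type*} [Fintype ι]

lemma pw_ev (μ : Measure (ι → ℝ)) (v : (ι → ℝ) → ℝ) (e : SE) :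
    ∀ j : ℕ, (pw e j).ev μ v = fun x => e.ev μ v x ^ j
  | 0 => by funext x; simp [pw, SE.ev]
  | j + 1 => by funext x; simp only [pw, SE.ev, pw_ev μ v e j]; ring

lemma continuous_quad (M : Matrix ι ι ℝ) : Continuous fun x : ι → ℝ => x ⬝ᵥ M *ᵥ x := by
  unfold dotProduct mulVec dotProduct
  fun_prop

lemma measurable_mark (M : Matrix ι ι ℝ) (l : ℝ) :
    Measurable fun x : ι → ℝ => cut (l * (x ⬝ᵥ M *ᵥ x)) :=
  (continuous_cut.comp (continuous_const.mul (continuous_quad M))).measurable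

variable {ν : Measure (ι → ℝ)} [IsProbabilityMeasure ν]

lemma int_mark (M : Matrix ι ι ℝ) (l : ℝ) :
    Integrable (fun x : ι → ℝ => cut (l * (x ⬝ᵥ M *ᵥ x))) ν :=
  Fin85.int_bdd (measurable_mark M l) (A := 1) fun x => by
    rw [abs_of_nonneg (cut_nonneg _)]; exact cut_le_one _

omit [IsProbabilityMeasure ν] in
lemma mk_one (M : Matrix ι ι ℝ) (l : ℝ) : mk ν M l 1 = ∫ x, cut (l * (x ⬝ᵥ M *ᵥ x)) ∂ν := by
  simp [mk]

lemma mk_one_le (M : Matrix ι ι ℝ) (l : ℝ) : mk ν M l 1 ≤ 1 := by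
  rw [mk_one]
  exact (le_abs_self _).trans (Fin85.abs_int_le fun x => by
    rw [abs_of_nonneg (cut_nonneg _)]; exact cut_le_one _)

lemma real_le_mk (M : Matrix ι ι ℝ) (l : ℝ) :
    ν.real {x | l * (x ⬝ᵥ M *ᵥ x) ≤ 1} ≤ mk ν M l 1 := by
  have hS : MeasurableSet {x : ι → ℝ | l * (x ⬝ᵥ M *ᵥ x) ≤ 1} :=
    measurableSet_le (continuous_const.mul (continuous_quad M)).measurable measurable_const
  rw [mk_one, ← integral_indicator_one hS]
  refine integral_mono ((integrable_const _).indicator hS) (int_mark M l) fun x => ?_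
  by_cases h : x ∈ {x : ι → ℝ | l * (x ⬝ᵥ M *ᵥ x) ≤ 1}
  · rw [Set.indicator_of_mem h]; exact (cut_one h).ge
  · rw [Set.indicator_of_notMem h]; exact cut_nonneg _

lemma abs_mk_le (M : Matrix ι ι ℝ) (l : ℝ) {G : (ι → ℝ) → ℝ} {S : Set (ι → ℝ)}
    (hS : MeasurableSet S) {a b : ℝ} (ha : 0 ≤ a) (hb : ∀ x, |G x| ≤ b)
    (h : ∀ x, x ∉ S → l * (x ⬝ᵥ M *ᵥ x) < 2 → |G x| ≤ a) :
    |mk ν M l G| ≤ a * mk ν M l 1 + b * ν.real S := by
  have i1 : Integrable (S.indicator (1 : (ι → ℝ) → ℝ)) ν := (integrable_const _).indicator hS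
  rw [mk_one, ← integral_indicator_one hS, ← integral_const_mul, ← integral_const_mul,
    ← integral_add ((int_mark M l).const_mul a) (i1.const_mul b), mk, ← Real.norm_eq_abs]
  refine norm_integral_le_of_norm_le (((int_mark M l).const_mul a).add (i1.const_mul b))
    (.of_forall fun x => ?_)
  have c0 := cut_nonneg (l * (x ⬝ᵥ M *ᵥ x))
  have c1 := cut_le_one (l * (x ⬝ᵥ M *ᵥ x))
  rw [Real.norm_eq_abs, abs_mul, abs_of_nonneg c0]
  by_cases hx : x ∈ S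
  · rw [Set.indicator_of_mem hx, Pi.one_apply]
    nlinarith [hb x, abs_nonneg (G x), mul_nonneg ha c0]
  · rw [Set.indicator_of_notMem hx, mul_zero, add_zero]
    rcases lt_or_ge (l * (x ⬝ᵥ M *ᵥ x)) 2 with h2 | h2
    · rw [mul_comm]; exact mul_le_mul_of_nonneg_right (h x hx h2) c0
    · simp [cut_zero h2]

/-- the reference mean on the soft sphere -/
lemma pi_ref (M : Matrix ι ι ℝ) {F : (ι → ℝ) → ℝ} (hF : B1 F) {z l ε m : ℝ} (hz : |z| ≤ 1)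
    (hε : 0 < ε) (h1 : m ≤ ν.real {x | l * (x ⬝ᵥ M *ᵥ x) ≤ 1})
    (h2 : ν.real {x | l * (x ⬝ᵥ M *ᵥ x) ≤ 2 ∧ ε < |F x - z|} ≤ ε * m) :
    m ≤ mk ν M l 1 ∧ |mk ν M l fun x => F x + -z| ≤ 3 * ε * mk ν M l 1 := by
  have hm := h1.trans (real_le_mk M l)
  refine ⟨hm, ?_⟩
  have hS : MeasurableSet {x : ι → ℝ | l * (x ⬝ᵥ M *ᵥ x) ≤ 2 ∧ ε < |F x - z|} :=
    (measurableSet_le (continuous_const.mul (continuous_quad M)).measurable measurable_const).inter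
      (measurableSet_lt measurable_const (hF.1.sub_const z).abs)
  have := abs_mk_le (ν := ν) M l (G := fun x => F x + -z) hS (b := 2) hε.le
    (fun x => (abs_add_le _ _).trans (by rw [abs_neg]; linarith [hF.2 x]))
    fun x hx hl => not_lt.1 fun hc => hx ⟨hl.le, by rwa [sub_eq_add_neg]⟩
  nlinarith [mul_le_mul_of_nonneg_left hm hε.le]

/-- the high moment on the soft sphere -/
lemma pi_mom (M : Matrix ι ι ℝ) {F : (ι → ℝ) → ℝ} (hF : B1 F) {z a ε q : ℝ} (hz : |z| ≤ 1)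
    (hε : 0 < ε) (ha : 0 < a) (j : ℕ)
    (h2 : ν.real {x | x ⬝ᵥ M *ᵥ x ≤ a ∧ ε < |F x - z|} ≤ q) :
    mk ν M (2 / a) (fun x => (F x + -z) ^ j) ≤ ε ^ j + 2 ^ j * q := by
  have hS : MeasurableSet {x : ι → ℝ | x ⬝ᵥ M *ᵥ x ≤ a ∧ ε < |F x - z|} :=
    (measurableSet_le (continuous_quad M).measurable measurable_const).inter
      (measurableSet_lt measurable_const (hF.1.sub_const z).abs)
  have := abs_mk_le (ν := ν) M (2 / a) (G := fun x => (F x + -z) ^ j) hS (b := 2 ^ j)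
    (a := ε ^ j) (by positivity)
    (fun x => by
      rw [abs_pow]
      exact pow_le_pow_left₀ (abs_nonneg _)
        ((abs_add_le _ _).trans (by rw [abs_neg]; linarith [hF.2 x])) j)
    fun x hx hl => by
      rw [abs_pow]
      refine pow_le_pow_left₀ (abs_nonneg _) (not_lt.1 fun hc => hx ⟨?_, by rwa [sub_eq_add_neg]⟩) j
      rw [div_mul_eq_mul_div, div_lt_iff₀ ha] at hl
      linarith
  have e1 := mul_le_mul_of_nonneg_left (mk_one_le (ν := ν) M (2 / a)) (show 0 ≤ ε ^ j by positivity)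
  have e2 := mul_le_mul_of_nonneg_left h2 (show (0 : ℝ) ≤ 2 ^ j by positivity)
  linarith [le_abs_self (mk ν M (2 / a) fun x => (F x + -z) ^ j)]

end mk

section fin
open Crest.Agent.T157.Chain22 (IsP RC)
variable {Ω : Type*} [Fintype Ω]

lemma real_dm {ι : Type*} [Fintype ι] {w : Ω → ℝ} (hw : ∀ x, 0 ≤ w x) (φ : Ω → ι → ℝ)
    (S : Set (ι → ℝ)) : (dm w φ).real S = ∑ x, prob w x * Ent.ind (fun x => φ x ∈ S) x := by
  rw [Measure.real, dm, Measure.coe_finsetSum, Finset.sum_apply, ENNReal.toReal_sum fun x _ => by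
    rw [Measure.smul_apply, smul_eq_mul]
    exact ENNReal.mul_ne_top ENNReal.ofReal_ne_top (measure_ne_top _ _)]
  refine sum_congr rfl fun x _ => ?_
  rw [Measure.smul_apply, smul_eq_mul, ENNReal.toReal_mul,
    ENNReal.toReal_ofReal (Lnk10.prob_nonneg hw x), Measure.dirac_apply]
  by_cases h : φ x ∈ S <;> simp [Ent.ind, h]

/-- the final estimate on a finite space -/
lemma core {q : Ω → ℝ} (hq : IsP q) {χ κ U V D : Ω → ℝ} {S : Ω → Prop} {ε δ z m R : ℝ} {p : ℕ}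
    (hε : 0 < ε) (hm : 0 < m) (hχ0 : ∀ x, 0 ≤ χ x) (hχ1 : ∀ x, χ x ≤ 1) (hκ : ∀ x, 0 ≤ κ x)
    (hκS : ∀ x, S x → κ x = 1) (hm₁ : m ≤ ∑ x, q x * χ x) (hD : ∀ x, |U x - V x - D x| ≤ ε)
    (δ0 : 0 ≤ δ) (hδ : ∑ x, q x * D x ^ 2 ≤ δ ^ 2) (hδm : δ ≤ ε * m)
    (h1 : |∑ x, q x * (χ x * (V x - z))| ≤ 4 * ε * ∑ x, q x * χ x)
    (h2 : ∑ x, q x * (κ x * (V x - z) ^ (2 * p)) ≤ R) :
    ∑ x, q x * Ent.ind (fun x => S x ∧
      10 * ε < |U x - (∑ y, q y * (χ y * U y)) / ∑ y, q y * χ y|) x ≤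
      R / (2 * ε) ^ (2 * p) + δ ^ 2 / ε ^ 2 := by
  set M := ∑ y, q y * χ y with hM
  have M0 : 0 < M := hm.trans_le hm₁
  have a1 : |∑ x, q x * (χ x * (U x - V x - D x))| ≤ ε * M := by
    rw [hM, mul_sum]
    refine (abs_sum_le_sum_abs _ _).trans (sum_le_sum fun x _ => ?_)
    rw [abs_mul, abs_mul, abs_of_nonneg (hq.nn x), abs_of_nonneg (hχ0 x)]
    nlinarith [mul_le_mul_of_nonneg_left (hD x) (mul_nonneg (hq.nn x) (hχ0 x))]
  have a2 : |∑ x, q x * (χ x * D x)| ≤ δ := by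
    refine abs_le_of_sq_le_sq' ?_ δ0 |> abs_le.2
    refine (hq.mean_sq_le fun x => χ x * D x).trans (le_trans (sum_le_sum fun x _ => ?_) hδ)
    refine mul_le_mul_of_nonneg_left ?_ (hq.nn x)
    nlinarith [mul_le_mul_of_nonneg_right (show χ x * χ x ≤ 1 by nlinarith [hχ0 x, hχ1 x])
      (sq_nonneg (D x))]
  have a3 : |(∑ y, q y * (χ y * U y)) / M - z| ≤ 6 * ε := by
    have e : (∑ y, q y * (χ y * U y)) / M - z = (∑ x, q x * (χ x * (V x - z)) +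
        ∑ x, q x * (χ x * (U x - V x - D x)) + ∑ x, q x * (χ x * D x)) / M := by
      rw [eq_div_iff M0.ne', sub_mul, div_mul_cancel₀ _ M0.ne', hM, mul_sum, ← sum_sub_distrib,
        ← sum_add_distrib, ← sum_add_distrib]
      exact sum_congr rfl fun x _ => by ring
    rw [e, abs_div, abs_of_pos M0, div_le_iff₀ M0]
    refine (abs_add_three _ _ _).trans ?_
    nlinarith [mul_le_mul_of_nonneg_left hm₁ hε.le]
  have P0 : 0 < (2 * ε) ^ (2 * p) := by positivity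
  calc _ ≤ ∑ x, (q x * (κ x * (V x - z) ^ (2 * p)) / (2 * ε) ^ (2 * p) +
        q x * D x ^ 2 / ε ^ 2) := sum_le_sum fun x _ => by
        rw [mul_div_assoc (q x), mul_div_assoc (q x), ← mul_add]
        refine mul_le_mul_of_nonneg_left ?_ (hq.nn x)
        have n1 : 0 ≤ κ x * (V x - z) ^ (2 * p) / (2 * ε) ^ (2 * p) :=
          div_nonneg (mul_nonneg (hκ x) (by rw [pow_mul]; positivity)) P0.le
        have n2 : 0 ≤ D x ^ 2 / ε ^ 2 := by positivity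
        unfold Ent.ind
        split_ifs with h
        · rcases le_or_gt ε |D x| with h3 | h3
          · have : 1 ≤ D x ^ 2 / ε ^ 2 := by
              rw [le_div_iff₀ (by positivity), one_mul, ← sq_abs (D x)]
              exact pow_le_pow_left₀ hε.le h3 2
            linarith
          · have h4 : 2 * ε ≤ |V x - z| := by
              have b1 := abs_sub_le (U x) z ((∑ y, q y * (χ y * U y)) / M)
              have b2 : |U x - z| ≤ |U x - V x - D x| + |D x| + |V x - z| := by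
                refine le_trans (le_of_eq ?_) (abs_add_three _ _ _)
                congr 1; ring
              rw [abs_sub_comm z] at b1
              linarith [h.2, hD x]
            have : 1 ≤ κ x * (V x - z) ^ (2 * p) / (2 * ε) ^ (2 * p) := by
              rw [le_div_iff₀ P0, one_mul, hκS x h.1, one_mul, pow_mul (V x - z), ← sq_abs,
                ← pow_mul]
              exact pow_le_pow_left₀ (by positivity) h4 _
            linarith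
        · linarith
    _ ≤ _ := by
        rw [sum_add_distrib, ← sum_div, ← sum_div]
        gcongr

variable {ι : Type*} [Nonempty Ω] [DecidableEq Ω] [Fintype ι] [DecidableEq ι]
  {φ : Ω → ι → ℝ} {w : Ω → ℝ} {s : ℝ}

/-- the Poissonised static chain is the heat flow of `stRC` -/
lemma Qs_dm (hw : ∀ x, 0 < w x) (hs : 0 ≤ s) (c : ℝ) (f : (ι → ℝ) → ℝ) (x : Ω) :
    Qs s c (dm w φ) f (φ x) = ((Sg.stRC φ hw hs).H c *ᵥ fun x => f (φ x)) x := by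
  have key : ∀ (j : ℕ) (x : Ω), (Tk s (dm w φ))^[j] f (φ x) =
      ((Sg.stRC φ hw hs).P ^ j *ᵥ fun x => f (φ x)) x := fun j => by
    induction j with
    | zero => intro x; simp
    | succ j ih =>
      intro x
      rw [Function.iterate_succ_apply', Sg.Tk_dm hw hs, pow_succ', ← mulVec_mulVec]
      congr 2
      exact funext ih
  rw [← ((Sg.stRC φ hw hs).hasSum_H_mulVec c _ x).tsum_eq, Qs]
  exact tsum_congr fun j => by rw [key]

end fin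

variable {n : ℕ}

/-- a pointwise bound of the kernel -/
lemma abs_Pn_le {g : Pair n → ℝ} (hn : 0 < n) {a β H₀ H t : ℝ} (h : Down n g a β H₀) (hH : H₀ ≤ H)
    (ht : β * H ^ (-a) ≤ t) (t0 : 0 ≤ t) (u : Cube n → ℝ) (x : Cube n) :
    |((ch hn g).H (Soft.tau n t) *ᵥ u) x| ≤
      exp H * ∑ y, prob (gibbsWeight n 1 g) y * |u y| := by
  rw [mul_sum]
  refine (abs_sum_le_sum_abs _ _).trans (sum_le_sum fun y _ => ?_)
  have h0 : 0 ≤ (ch hn g).H (Soft.tau n t) x y := (ch hn g).H_nn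
    (mul_nonneg (Nat.cast_nonneg n) (mul_nonneg t0 (Soft.N23_pos hn).le)) x y
  rw [abs_mul, abs_of_nonneg h0, ← mul_assoc, ← Soft.ctKernel_eq_H hn]
  exact mul_le_mul_of_nonneg_right (h H t hH ht x y) (abs_nonneg _)

lemma fd_psd (η : ℕ → ℝ) : (fd n η).PosSemidef :=
  PosSemidef.diagonal fun k => by positivity

lemma trace_fd {L w C : ℝ} (hw : L < w) : ∃ Z : ℝ, ∀ (n : ℕ) (η : ℕ → ℝ) (t : ℝ),
    Gd n η t L w C → (fd n η).trace ≤ Z := by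
  obtain ⟨K, hK⟩ := (Fin85.tail one_pos).exists
  refine ⟨K + 2 * (1 + w ^ 2) * 256 ^ 2, fun n η t h => ?_⟩
  rw [fd, trace_diagonal, ← sum_add_sum_compl (univ.filter fun k : Fin n => (k : ℕ) < K)]
  refine add_le_add ?_ ?_
  · refine (sum_le_card_nsmul _ _ 1 fun k _ => ?_).trans ?_
    · rw [div_le_one (by positivity)]; nlinarith [sq_nonneg (η k)]
    · rw [nsmul_eq_mul, mul_one, Nat.cast_le]
      refine le_trans (card_le_card_of_injOn (t := range K) (fun k => (k : ℕ)) (fun k hk => ?_)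
        fun a _ b _ e => Fin.ext e) (card_range K).le
      simpa using hk
  · rw [Fin85.sum_compl n K fun k => 1 / (η k ^ 2 + 1)]
    refine le_trans (sum_le_sum (g := fun k => 2 * (1 + w ^ 2) * 256 ^ 2 * Fin85.uk k ^ 2)
      fun k hk => ?_) ?_
    · obtain ⟨-, g1, g2⟩ := Fin85.gd_bd h hw (mem_Ico.1 hk).2
      have g3 : (1 / (w + η k)) ^ 2 ≤ (256 * Fin85.uk k) ^ 2 :=
        pow_le_pow_left₀ (by positivity) g2 2
      have g4 : 1 / (η k ^ 2 + 1) ≤ 2 * (1 + w ^ 2) * (1 / (w + η k)) ^ 2 := by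
        rw [div_pow, one_pow, mul_one_div, div_le_div_iff₀ (by positivity) (by positivity)]
        nlinarith [sq_nonneg (w - η k), sq_nonneg (w * η k)]
      nlinarith [mul_le_mul_of_nonneg_left g3 (show 0 ≤ 2 * (1 + w ^ 2) by positivity)]
    · rw [← mul_sum]
      exact (mul_le_mul_of_nonneg_left (hK n) (by positivity)).trans_eq (mul_one _)

/-- the mark in the eigenbasis -/
lemma quad_fl {W O : Mat n} (hO : ∀ i k, O i k = vec W k i) (x : Fin n → ℝ) :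
    x ⬝ᵥ fl n 1 W *ᵥ x = (Oᵀ *ᵥ x) ⬝ᵥ fd n (Lam n W) *ᵥ (Oᵀ *ᵥ x) := by
  have e : fl n 1 W = O * fd n (Lam n W) * Oᵀ := by
    ext i j
    rw [fl, fnK_apply, Fintype.card_fin, sum_range, mul_apply]
    refine sum_congr rfl fun k _ => ?_
    rw [fd, mul_diagonal, transpose_apply, hO, hO, Lam]
    simp only [RCLike.ofReal_real_eq_id, id]
    ring
  rw [e, ← mulVec_mulVec, ← mulVec_mulVec, dotProduct_mulVec, ← mulVec_transpose]

lemma whp_Lam : Top.Whp GOE fun n W => W.IsHermitian → ∀ k, Lam n W k ≤ 10 * tau n := by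
  have h1 : Top.Whp GOE fun _ W => opn W ≤ 3 := by
    refine Top.whp_of_real_le (a := fun n => 2 * exp (-(n * 1 ^ 2 / 4))) ?_ (.of_forall fun n => ?_)
    · simpa using (tendsto_exp_neg_atTop_nhds_zero.comp ((tendsto_natCast_atTop_atTop (R := ℝ)
        ).atTop_div_const (r := 4) four_pos)).const_mul 2
    · refine le_trans (measureReal_mono (fun W hW => ?_) (measure_ne_top _ _))
        (Nrm.goe_opn_tail_n (n := n) zero_le_one)
      simp only [Set.mem_ofPred_eq, not_le] at hW ⊢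
      linarith
  refine h1.imp fun n W hW hh k => ?_
  have := (abs_le.1 ((abs_lam_le hh k).trans hW)).1
  unfold Lam
  nlinarith [tau_nonneg n]

/-- flip symmetry kills the off-diagonal second moments -/
lemma sm_offdiag {μ : Measure (Fin n → ℝ)}
    (h : ∀ k, μ.map (fun x => Function.update x k (-x k)) = μ) {i j : Fin n} (hij : i ≠ j) :
    sm μ i j = 0 := by
  have m : Measurable fun x : Fin n → ℝ => Function.update x i (-x i) :=
    measurable_update'.comp (measurable_id.prodMk (measurable_pi_apply i).neg)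
  have e : sm μ i j = -sm μ i j := by
    unfold sm
    conv_lhs => rw [← h i]
    rw [integral_map m.aemeasurable (by fun_prop), ← integral_neg]
    congr 1
    funext x
    rw [Function.update_self, Function.update_of_ne hij.symm]
    ring
  linarith

/-- small tail of the second moments -/
lemma sm_tail {L w C B δ : ℝ} (hw : L < w) (hB : 0 ≤ B) (hδ : 0 < δ) : ∃ m : ℕ,
    ∀ (n : ℕ) (η : ℕ → ℝ) (t : ℝ) (μ ν : Measure (Fin n → ℝ)), Gd n η t L w C →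
    (∀ k, ν.map (fun x => Function.update x k (-x k)) = ν) →
    (∀ k : Fin n, ∫ x, x k ^ 2 ∂ν ≤ B / (w + η k)) →
    ∑ i, ∑ j, (sm μ i j - sm ν i j) ^ 2 ≤ δ / 4 →
    ∑ i ∈ (univ.filter fun k : Fin n => (k : ℕ) < m)ᶜ,
      ∑ j ∈ (univ.filter fun k : Fin n => (k : ℕ) < m)ᶜ, sm μ i j ^ 2 ≤ δ := by
  obtain ⟨m, hm⟩ := (Fin85.tail (e := δ / 4 / ((256 * B) ^ 2 + 1)) (by positivity)).exists
  refine ⟨m, fun n η t μ ν h hf hc hd => ?_⟩
  set s := (univ.filter fun k : Fin n => (k : ℕ) < m)ᶜ with hs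
  have a1 : ∑ i ∈ s, ∑ j ∈ s, (sm μ i j - sm ν i j) ^ 2 ≤ δ / 4 :=
    le_trans ((sum_le_sum fun i _ => sum_le_sum_of_subset_of_nonneg (subset_univ _)
      fun _ _ _ => sq_nonneg _).trans (sum_le_sum_of_subset_of_nonneg (subset_univ _)
        fun _ _ _ => by positivity)) hd
  have a2 : ∑ i ∈ s, ∑ j ∈ s, sm ν i j ^ 2 ≤ δ / 4 := by
    have b1 : ∀ i ∈ s, ∑ j ∈ s, sm ν i j ^ 2 ≤ (256 * B) ^ 2 * Fin85.uk i ^ 2 := fun i hi => by
      rw [sum_eq_single_of_mem i hi fun j _ hj => by rw [sm_offdiag hf hj.symm]; ring]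
      obtain ⟨-, g1, g2⟩ := Fin85.gd_bd h hw i.2
      have e : sm ν i i = ∫ x, x i ^ 2 ∂ν := by simp only [sm, sq]
      rw [e, ← mul_pow]
      refine pow_le_pow_left₀ (integral_nonneg fun x => sq_nonneg _) ((hc i).trans ?_) 2
      rw [div_eq_mul_one_div]
      nlinarith [mul_le_mul_of_nonneg_left g2 hB]
    refine (sum_le_sum b1).trans ?_
    rw [← mul_sum, hs, Fin85.sum_compl n m fun k => Fin85.uk k ^ 2]
    have b2 := hm n
    rw [le_div_iff₀ (by positivity)] at b2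
    nlinarith [show 0 ≤ ∑ k ∈ Ico m n, Fin85.uk k ^ 2 by positivity]
  calc _ ≤ ∑ i ∈ s, ∑ j ∈ s, (2 * (sm μ i j - sm ν i j) ^ 2 + 2 * sm ν i j ^ 2) :=
        sum_le_sum fun i _ => sum_le_sum fun j _ => by
          nlinarith [sq_nonneg (sm μ i j - 2 * sm ν i j)]
    _ ≤ δ := by
        simp only [sum_add_distrib, ← mul_sum]
        linarith

end Crest.Agent.T157.Cq.Mg4

end
private theorem rz_d7f4887723 : type_of% @_root_.Crest.Agent.T157.Cq.Mg4.pw.eq_def := @_root_.Crest.Agent.T157.Cq.Mg4.pw.eq_def -- L28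
private theorem rz_6931163449 : type_of% @_root_.Crest.Agent.T157.Cq.Mg4.pw.eq_1 := @_root_.Crest.Agent.T157.Cq.Mg4.pw.eq_1 -- L28
end

-- ▼ part T157/CqMgB_4

/-!
# Row 157, part C: `MgGlue` from the static statements (helper4)
-/

set_option autoImplicit false

noncomputable section

namespace Crest.Agent.T157.Cq.Mg4

open MeasureTheory ProbabilityTheory Matrix Filter Topology Finset Real
open Crest.ProbabilityR.SpinGlassDynamics Crest.Agent.T157.E Crest.Agent.T157.Eig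
open Crest.Agent.T157.St Crest.Agent.T157.Ed
open Crest.Agent.T157.Tr (Off Om PM)
open Crest.Agent.T157.Soft (Pn ch)
open Crest.Agent.T157.Q1 (Down)

/-- transfer of the merging estimates -/
lemma static (hB : BdStmt) {ι : Type} [Fintype ι] {μ ν : Measure (ι → ℝ)}
    [hν : IsProbabilityMeasure ν] (M : Matrix ι ι ℝ) {v : (ι → ℝ) → ℝ} (hv : B1 v)
    {Z K c z l a ε ε' m q : ℝ} {j : ℕ} (hK : 0 < K) (hc : 0 ≤ c) (hz : |z| ≤ 1) (hε : 0 < ε)
    (hε1 : ε ≤ 1 / 2) (ha : 0 < a) (hl : 0 ≤ l) (hlZ : l ≤ Z) (haZ : 2 / a ≤ Z)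
    (hZ : 2 + (j + 1) * (K + c + 6) ≤ Z) (hm : 0 < m) (hε' : ε' ≤ ε * m / 8)
    (hT : ∀ (l : ℝ) (e : SE), 0 ≤ l → l ≤ Z → e.Adm → e.sz ≤ Z →
      |mk μ M l (e.ev μ v) - mk ν M l (e.ev ν v)| ≤ ε')
    (h1 : m ≤ ν.real {x | l * (x ⬝ᵥ M *ᵥ x) ≤ 1})
    (h2 : ν.real {x | l * (x ⬝ᵥ M *ᵥ x) ≤ 2 ∧ ε < |Qs K c ν v x - z|} ≤ ε * m)
    (h3 : ν.real {x | x ⬝ᵥ M *ᵥ x ≤ a ∧ ε < |Qs K c ν v x - z|} ≤ q) :
    |mk μ M l fun x => Qs K c μ v x + -z| ≤ 4 * ε * mk μ M l 1 ∧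
      mk μ M (2 / a) (fun x => (Qs K c μ v x + -z) ^ j) ≤ ε ^ j + 2 ^ j * q + ε' := by
  have hF : B1 (Qs K c ν v) := (hB ι ν hν).2 v hv (.Q K c .var) ⟨hK, hc, trivial⟩
  set e : SE := .add (.Q K c .var) (.const (-z)) with he
  have e1 : e.Adm := ⟨⟨hK, hc, trivial⟩, trivial⟩
  have e2 : e.sz ≤ K + c + 5 := by simp only [he, SE.sz, abs_neg]; linarith
  have j0 : (0 : ℝ) ≤ j := Nat.cast_nonneg j
  have p0 : 0 ≤ j * (K + c + 6) := by positivity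
  have t1 : |mk μ M l 1 - mk ν M l 1| ≤ ε' :=
    hT l (.const 1) hl hlZ trivial (by simp only [SE.sz, abs_one]; linarith)
  have t2 : |mk μ M l (fun x => Qs K c μ v x + -z) - mk ν M l fun x => Qs K c ν v x + -z| ≤ ε' :=
    hT l e hl hlZ e1 (by linarith)
  have t3 := hT (2 / a) (pw e j) (by positivity) haZ (pw_adm e1 j) (by
    rw [pw_sz]; nlinarith [mul_le_mul_of_nonneg_left e2 j0])
  rw [pw_ev, pw_ev] at t3
  obtain ⟨p1, p2⟩ := pi_ref M hF hz hε h1 h2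
  have p3 := pi_mom M hF hz hε ha j h3
  refine ⟨?_, (sub_le_iff_le_add'.1 (abs_le.1 t3).2).trans (add_le_add p3 le_rfl)⟩
  have b1 := abs_sub_abs_le_abs_sub (mk μ M l fun x => Qs K c μ v x + -z)
    (mk ν M l fun x => Qs K c ν v x + -z)
  have b2 := (abs_le.1 t1).1
  have b3 : ε * m ≤ 1 / 2 * m := mul_le_mul_of_nonneg_right hε1 hm.le
  have b4 : ε * m ≤ ε * (2 * mk μ M l 1) := mul_le_mul_of_nonneg_left (by linarith) hε.le
  have b5 : ε * mk ν M l 1 ≤ ε * (mk μ M l 1 + ε') := mul_le_mul_of_nonneg_left (by linarith) hε.le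
  have b6 : ε * ε' ≤ 1 / 2 * ε' := mul_le_mul_of_nonneg_right hε1 ((abs_nonneg _).trans t1)
  have b7 : 0 < ε * m := by positivity
  linarith

variable {n : ℕ}

lemma mk_muG {W O : Mat n} (hv : ∀ i k, O i k = vec W k i) (g : Pair n → ℝ) (l : ℝ)
    (f : (Fin n → ℝ) → ℝ) : mk (muG n g) (fl n 1 W) l f = ∑ x, prob (gibbsWeight n 1 g) x *
      (cut (l * Xd n (Lam n W) (Oᵀ *ᵥ hat n x)) * f (hat n x)) := by
  rw [mk, Lnk10.integral_muG]
  simp only [quad_fl hv]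
  rfl

lemma integral_rot (O : Mat n) (g : Pair n → ℝ) (F : (Fin n → ℝ) → ℝ) :
    ∫ x, F x ∂(muG n g).map (fun x => Oᵀ *ᵥ x) =
      ∑ x, prob (gibbsWeight n 1 g) x * F (Oᵀ *ᵥ hat n x) := by
  rw [muG, Lnk10.map_dm _ _ (Lnk10.measurable_mulVec Oᵀ),
    Lnk10.integral_dm fun x => (gibbsWeight_pos 1 g x).le]
  rfl

lemma mk_rot {W O : Mat n} (hv : ∀ i k, O i k = vec W k i) (g : Pair n → ℝ) (l : ℝ) :
    mk (muG n g) (fl n 1 W) l 1 = mk ((muG n g).map fun x => Oᵀ *ᵥ x) (fd n (Lam n W)) l 1 := by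
  rw [mk_muG hv, mk, integral_rot]
  rfl

/-- the estimate on the cube -/
lemma det (hB : BdStmt) (hI : IsoStmt) (hn : 0 < n) {g : Pair n → ℝ} {W O : Mat n}
    (hO : Oᵀ * O = 1) (hv : ∀ i k, O i k = vec W k i) {μ : Measure (Fin n → ℝ)}
    (hμ : μ = (muG n g).map fun x => Oᵀ *ᵥ x) {ψ v : (Fin n → ℝ) → ℝ} (hψ : B1 ψ) (hv1 : B1 v)
    {K K₁ c t e E ε δ m l a z R : ℝ} {p : ℕ} (hK : 0 < K) (hK₁ : 0 < K₁) (hc : 0 ≤ c) (hε : 0 < ε)
    (hm : 0 < m) (ha : 0 < a) (δ0 : 0 ≤ δ) (hδ : δ ≤ ε * m) (E0 : 0 ≤ E) (hE : E * e ≤ ε)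
    (hL1 : ∫ x, |Tk K₁ μ (fun y => ψ (O *ᵥ y)) x - v x| ∂μ ≤ e)
    (hP : ∀ u x, |((ch hn g).H t *ᵥ u) x| ≤ E * ∑ y, prob (gibbsWeight n 1 g) y * |u y|)
    (hS : ∀ h : Unit → Cube n → ℝ, Sg.Sup h 4 → Sg.nv (ch hn g).π (Sg.HV (ch hn g) t h -
      Sg.HV (Sg.stRC (hat n) (gibbsWeight_pos 1 g) hK.le) c h) ≤ δ)
    (h0 : m ≤ mk μ (fd n (Lam n W)) l 1)
    (h1 : |mk μ (fd n (Lam n W)) l fun x => Qs K c μ v x + -z| ≤
      4 * ε * mk μ (fd n (Lam n W)) l 1)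
    (h2 : mk μ (fd n (Lam n W)) (2 / a) (fun x => (Qs K c μ v x + -z) ^ (2 * p)) ≤ R)
    {u : (Fin n → ℝ) → ℝ} (hu : u = Qs K c (muG n g) (Tk K₁ (muG n g) ψ)) :
    (muG n g).real {x | x ⬝ᵥ fl n 1 W *ᵥ x ≤ a / 2 ∧
      10 * ε < |u x - mk (muG n g) (fl n 1 W) l u / mk (muG n g) (fl n 1 W) l 1|} ≤
      R / (2 * ε) ^ (2 * p) + δ ^ 2 / ε ^ 2 := by
  have hw := gibbsWeight_pos (n := n) 1 g
  have cG : Cp (muG n g) := Lnk10.cp_dm hw _
  have hO' : O * Oᵀ = 1 := mul_eq_one_comm.1 hO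
  have hO'' : Oᵀᵀ * Oᵀ = 1 := by rwa [transpose_transpose]
  have hψ' : B1 fun y => ψ (O *ᵥ y) := ⟨hψ.1.comp (Lnk10.measurable_mulVec O), fun _ => hψ.2 _⟩
  have i1 : ∀ x, Tk K₁ μ (fun y => ψ (O *ᵥ y)) (Oᵀ *ᵥ x) = Tk K₁ (muG n g) ψ x := fun x => by
    have := hI _ _ Oᵀ hO'' _ cG _ hψ' (.T K₁ .var) ⟨hK₁, trivial⟩ x
    simpa only [SE.ev, mulVec_mulVec, hO', one_mulVec, ← hμ] using this
  set d := Sg.stRC (hat n) hw hK.le with hd
  set V : Cube n → ℝ := fun x => Tk K₁ (muG n g) ψ (hat n x) with hV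
  set V₀ : Cube n → ℝ := fun x => v (Oᵀ *ᵥ hat n x) with hV₀
  have i2 : ∀ x, Qs K c μ v (Oᵀ *ᵥ hat n x) = (d.H c *ᵥ V₀) x := fun x => by
    have := hI _ _ Oᵀ hO'' _ cG _ hv1 (.Q K c .var) ⟨hK, hc, trivial⟩ (hat n x)
    simp only [SE.ev, ← hμ] at this
    rw [this]
    exact Qs_dm hw hK.le c _ x
  have i3 : ∀ x, u (hat n x) = (d.H c *ᵥ V) x := fun x => by
    rw [hu]; exact Qs_dm hw hK.le c _ x
  have b1 : ∀ x, |V x| ≤ 1 := fun x =>
    ((hB _ _ cG.prob).2 ψ hψ (.T K₁ .var) ⟨hK₁, trivial⟩).2 (hat n x)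
  have b2 : ∑ y, prob (gibbsWeight n 1 g) y * |(V - V₀) y| ≤ e := by
    rw [hμ, integral_rot, ← hμ] at hL1
    simp only [i1] at hL1
    exact hL1
  have b3 := hS (fun _ => V - V₀) fun x => by
    have : |(V - V₀) x| ≤ 2 := (abs_sub _ _).trans (by linarith [b1 x, hv1.2 (Oᵀ *ᵥ hat n x)])
    simp only [univ_unique, sum_const, card_singleton, one_smul]
    nlinarith [abs_nonneg ((V - V₀) x), sq_abs ((V - V₀) x)]
  have b4 := pow_le_pow_left₀ (Sg.nv_nonneg _) b3 2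
  rw [Sg.nv_sq (ch hn g).isP, Sg.ipV_self_eq] at b4
  rw [hμ, mk, integral_rot] at h0 h2
  rw [hμ, mk, mk, integral_rot, integral_rot] at h1
  simp only [← hμ, i2, Pi.one_apply, mul_one, ← sub_eq_add_neg] at h0 h1 h2
  rw [mk_muG hv, mk_muG hv, muG, real_dm fun x => (hw x).le]
  simp only [Set.mem_ofPred_eq, Pi.one_apply, mul_one, i3, quad_fl hv]
  refine core (ch hn g).isP (D := fun x => (d.H c *ᵥ (V - V₀)) x - ((ch hn g).H t *ᵥ (V - V₀)) x)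
    hε hm (fun _ => cut_nonneg _) (fun _ => cut_le_one _) (fun _ => cut_nonneg _)
    (fun x hx => cut_one ?_) h0 (fun x => ?_) δ0 (le_trans (le_of_eq ?_) b4) hδ h1 h2
  · rw [div_mul_eq_mul_div, div_le_one ha]; linarith
  · rw [mulVec_sub (d.H c), Pi.sub_apply, sub_sub_cancel]
    exact (hP _ x).trans ((mul_le_mul_of_nonneg_left b2 E0).trans hE)
  · refine sum_congr rfl fun x _ => ?_
    simp only [univ_unique, sum_const, card_singleton, one_smul, Pi.sub_apply, Sg.HV]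
    ring

lemma numer {ε H ε' δ : ℝ} (hε : 0 < ε) (hε1 : ε ≤ 1 / 2) (hH : 1 ≤ H) {p : ℕ}
    (hp : p = ⌈H⌉₊ + 1) (h1 : ε' ≤ (2 * ε) ^ (2 * p) * exp (-H) / 4) (δ0 : 0 ≤ δ)
    (h2 : δ ≤ ε * exp (-H) / 2) :
    (ε ^ (2 * p) + 2 ^ (2 * p) * exp (-((3 - 6 * log ε) * H)) + ε') / (2 * ε) ^ (2 * p) +
      δ ^ 2 / ε ^ 2 ≤ exp (-H) := by
  have P0 : 0 < (2 * ε) ^ (2 * p) := by positivity
  have x0 := exp_pos (-H)
  have x1 : exp (-H) ≤ 1 := exp_le_one_iff.2 (by linarith)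
  have a1 : 4 ≤ 2 ^ (2 * p) * exp (-H) := by
    have : exp H ≤ 4 ^ ⌈H⌉₊ := by
      refine (exp_le_exp.2 (Nat.le_ceil H)).trans ?_
      rw [← exp_one_pow]
      exact pow_le_pow_left₀ (exp_pos 1).le (by linarith [exp_one_lt_d9]) _
    rw [exp_neg, ← div_eq_mul_inv, le_div_iff₀ (exp_pos H), pow_mul, hp, pow_succ _ ⌈H⌉₊]
    norm_num
    linarith
  have a2 : 4 * exp (-((3 - 6 * log ε) * H)) ≤ ε ^ (2 * p) * exp (-H) := by
    have l0 : log ε ≤ 0 := log_nonpos hε.le (by linarith)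
    have p1 : (p : ℝ) ≤ 3 * H := by
      rw [hp]; push_cast; linarith [(Nat.ceil_lt_add_one (show 0 ≤ H by linarith)).le]
    have f : (4 : ℝ) ≤ exp (2 * H) := by
      rw [two_mul, exp_add]
      nlinarith [add_one_le_exp H]
    rw [← exp_log (show 0 < ε ^ (2 * p) by positivity), log_pow, ← exp_add]
    refine (mul_le_mul_of_nonneg_right f (exp_pos _).le).trans ?_
    rw [← exp_add, exp_le_exp]
    push_cast
    nlinarith [mul_le_mul_of_nonpos_right p1 l0]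
  have a3 : δ ^ 2 / ε ^ 2 ≤ exp (-H) / 4 := by
    rw [div_le_iff₀ (by positivity)]
    nlinarith [pow_le_pow_left₀ δ0 h2 2, mul_le_mul_of_nonneg_left x1
      (show 0 ≤ ε ^ 2 * exp (-H) by positivity)]
  have a4 : (ε ^ (2 * p) + 2 ^ (2 * p) * exp (-((3 - 6 * log ε) * H)) + ε') / (2 * ε) ^ (2 * p) ≤
      3 / 4 * exp (-H) := by
    rw [div_le_iff₀ P0]
    rw [mul_pow] at h1 ⊢
    nlinarith [mul_le_mul_of_nonneg_left a1 (show 0 ≤ ε ^ (2 * p) by positivity),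
      mul_le_mul_of_nonneg_left a2 (show (0 : ℝ) ≤ 2 ^ (2 * p) by positivity)]
  linarith

/-- the rotated cube law is close to the sphere in the eigenbasis -/
lemma D2_rot (hIs : IsomStmt) {μ ν : Measure (Fin n → ℝ)} (hμ : Cp μ) (hν : Cp ν) {O : Mat n}
    (hO : Oᵀ * O = 1) (θ : ℝ) : Cp (μ.map fun x => Oᵀ *ᵥ x) ∧
    D2 θ (μ.map fun x => Oᵀ *ᵥ x) ν = D2 θ μ (ν.map fun x => O *ᵥ x) := by
  have hO'' : Oᵀᵀ * Oᵀ = 1 := by rw [transpose_transpose]; exact mul_eq_one_comm.1 hO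
  have c1 := (hIs _ _ O hO ν ν hν hν).1
  have e : (ν.map fun x => O *ᵥ x).map (fun x => Oᵀ *ᵥ x) = ν := by
    rw [Measure.map_map (Lnk10.measurable_mulVec _) (Lnk10.measurable_mulVec _)]
    simp only [Function.comp_def, mulVec_mulVec, hO, one_mulVec, Measure.map_id']
  refine ⟨(hIs _ _ Oᵀ hO'' μ μ hμ hμ).1, ?_⟩
  conv_lhs => rw [← e]
  unfold D2
  rw [(hIs _ _ Oᵀ hO'' μ μ hμ hμ).2.1, (hIs _ _ Oᵀ hO'' μ _ hμ c1).2.1,
    (hIs _ _ Oᵀ hO'' _ _ c1 c1).2.1]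

theorem mg_of (hG : GoodStmt) (hMg : MgfStmt) (hCo : CoordStmt) (hCl : CloseStmt) (hLn : LnkStmt)
    (hIs : IsomStmt) (hM : MmdStmt) : MgGlue := by
  intro k a hk ha hB hScl hI hCy hSo hPi hI12 hDn η ε hη hε
  obtain ⟨ε₁, e0, e1, e2⟩ : ∃ ε₁ : ℝ, 0 < ε₁ ∧ ε₁ ≤ 1 / 2 ∧ 10 * ε₁ ≤ η :=
    ⟨min (1 / 2) (η / 10), by positivity, min_le_left _ _, by linarith [min_le_right (1 / 2) (η / 10)]⟩
  have ε5 : 0 < ε / 5 := by positivity
  obtain ⟨C, -, hG⟩ := hG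
  obtain ⟨L, w₁, hL, hG⟩ := hG (ε / 5) ε5
  obtain ⟨w₂, hSo⟩ := hSo L C hL
  obtain ⟨w₃, hPi⟩ := hPi L C hL
  obtain ⟨w₄, hMg⟩ := hMg L C hL
  obtain ⟨w₅, hw₅, hCo⟩ := hCo L C 0 0 hL
  obtain ⟨w, u1, u2, u3, u4, u5⟩ : ∃ w, w₁ ≤ w ∧ w₂ ≤ w ∧ w₃ ≤ w ∧ w₄ ≤ w ∧ w₅ ≤ w :=
    ((eventually_ge_atTop w₁).and ((eventually_ge_atTop w₂).and ((eventually_ge_atTop w₃).and
      ((eventually_ge_atTop w₄).and (eventually_ge_atTop w₅))))).exists
  have hLw : L < w := by linarith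
  obtain ⟨B, hMg⟩ := hMg w u4
  obtain ⟨Bc, δ₀, hBc, -, hCo⟩ := hCo w u5
  obtain ⟨β, H₀, -, -, hDn⟩ := hDn (ε / 5) ε5
  obtain ⟨τ₀, hτ₀, hPi⟩ := hPi w u3 ε₁ e0
  obtain ⟨Z₀, hZ₀⟩ := trace_fd (C := C) hLw
  refine ⟨τ₀ / k, by positivity, fun τ hτ hτ' K₁ hK₁ => ?_⟩
  obtain ⟨H₁, hH₁, hH₁'⟩ : ∃ H₁, H₀ ≤ H₁ ∧ β * H₁ ^ (-a) ≤ τ / 2 := by
    have := ((tendsto_rpow_neg_atTop ha).const_mul β).eventually
      (ge_mem_nhds (show β * 0 < τ / 2 by linarith))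
    exact ((eventually_ge_atTop H₀).and this).exists
  set Bt : ℝ → ℝ := fun θ => (√(B * exp (B * |θ| ^ (3 / 2 : ℝ))) + 1) ^ 2 with hBt
  obtain ⟨δc, hδc, hCy⟩ := hCy K₁ (Bt (8 * K₁)) (exp (-H₁) * ε₁) hK₁ (by positivity)
  obtain ⟨m, hm⟩ := sm_tail (C := C) hLw hBc hδc
  obtain ⟨l₁, m₁, c, hl₁, hm₁, hc, hPi⟩ := hPi (k * τ) (by positivity)
    (by rwa [le_div_iff₀' hk] at hτ') m K₁ hK₁
  have hA : 1 ≤ 3 - 6 * log ε₁ := by linarith [log_nonpos e0.le (show ε₁ ≤ 1 by linarith)]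
  set A := 3 - 6 * log ε₁ with hA'
  have A0 : 0 < A := by linarith
  refine ⟨l₁, m₁ / 2, c * A ^ (-(1 / 3) : ℝ) / 2, hl₁, by positivity, by positivity,
    fun H hH => ?_⟩
  have H0 : 0 < H := by linarith
  obtain ⟨K₀, hK₀, hPi⟩ := hPi (A * H) (by nlinarith)
  obtain ⟨p, hp⟩ : ∃ p, p = ⌈H⌉₊ + 1 := ⟨_, rfl⟩
  obtain ⟨δ, d0, d1, d2⟩ : ∃ δ : ℝ, 0 < δ ∧ δ ≤ ε₁ * (m₁ / 2) ∧ δ ≤ ε₁ * exp (-H) / 2 :=
    ⟨min _ _, by positivity, min_le_left _ _, min_le_right _ _⟩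
  obtain ⟨e, he, hs2⟩ := Sg.s2.{0, 0} (t₁ := τ / 2) (t₂ := τ) (δ := δ / 2) (by positivity)
    (by positivity)
  obtain ⟨K₀', -, hI12⟩ := hI12 e (ε / 5) he ε5
  refine ⟨max K₀ K₀', lt_max_of_lt_left hK₀, fun K hK => ?_⟩
  have K0 : 0 < K := hK₀.trans_le ((le_max_left _ _).trans hK)
  set b := c * (A * H) ^ (-(1 / 3) : ℝ) with hb
  have b0 : 0 < b := by positivity
  have hb' : c * A ^ (-(1 / 3) : ℝ) / 2 * H ^ (-(1 / 3) : ℝ) = b / 2 := by
    rw [hb, mul_rpow A0.le H0.le]; ring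
  obtain ⟨Z, z1, z2, z3, z4, z5⟩ : ∃ Z, Z₀ ≤ Z ∧ l₁ ≤ Z ∧ 2 / b ≤ Z ∧ K₁ ≤ Z ∧
      2 + (((2 * p : ℕ) : ℝ) + 1) * (K + k * K * τ + 6) ≤ Z :=
    ((eventually_ge_atTop _).and ((eventually_ge_atTop _).and ((eventually_ge_atTop _).and
      ((eventually_ge_atTop _).and (eventually_ge_atTop _))))).exists
  obtain ⟨ε', f0, f1, f2⟩ : ∃ ε' : ℝ, 0 < ε' ∧ ε' ≤ ε₁ * m₁ / 8 ∧
      ε' ≤ (2 * ε₁) ^ (2 * p) * exp (-H) / 4 :=
    ⟨min _ _, by positivity, min_le_left _ _, min_le_right _ _⟩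
  obtain ⟨θ, hθ, hScl⟩ := hScl Z ε' f0
  obtain ⟨δs, hδs, hScl⟩ := hScl (Bt θ)
  obtain ⟨ρ, r0, r1, r2, r3⟩ : ∃ ρ : ℝ, 0 < ρ ∧ ρ ≤ 1 ∧ ρ ≤ δs / 4 ∧ ρ ≤ δc / 16 :=
    ⟨min 1 (min _ _), by positivity, min_le_left _ _, (min_le_right _ _).trans (min_le_left _ _),
      (min_le_right _ _).trans (min_le_right _ _)⟩
  have E1 : Off GOE (ε / 5) fun n W => W.IsHermitian ∧ Gd n (Lam n W) (sx n ^ 2) L w C := hG w u1
  have E2 := Tr.off_of_whp whp_Lam ε5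
  have E3 := Tr.off_of_whp (hCl.2 (θ + 8 * K₁ + 1) ρ (by positivity) r0) ε5
  have E4 : Off disorderLaw (ε / 5) fun n g => Down n g a β H₀ := hDn
  have E5 := hI12 K ((le_max_right _ _).trans hK)
  have E := ((E1.and E2 ε5.le ε5.le).and E3 (by positivity) ε5.le).goe.and
    (E4.and E5 ε5.le ε5.le).fst (by positivity) (by positivity)
  refine (E.le (le_of_eq (by ring))).mono ?_
  filter_upwards [hMg, hCo, hPi K ((le_max_left _ _).trans hK), hSo w u2 θ ρ hθ r0,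
    eventually_ge_atTop 1] with n hMg hCo hPi hSo hn q hq
  obtain ⟨⟨⟨⟨hh, hg⟩, hlam⟩, hd⟩, hdn, hi⟩ := hq
  obtain ⟨l1, l2, l3, l4, -⟩ := hLn n hn
  have n0 : 0 < n := hn
  have ht : 0 < sx n ^ 2 := pow_pos (sx_pos hn) 2
  have gb : Gb n (Lam n (Wp q)) L w C := ⟨hg, fun j _ => hlam hh j⟩
  obtain ⟨O, hO, hv, hO'⟩ := l4 (Wp q) hh
  obtain ⟨cD, fD⟩ := l2 (Lam n (Wp q)) _ ht
  obtain ⟨cP, dP⟩ := hSo _ gb
  obtain ⟨p1, p2⟩ := hPi _ gb
  have cG : Cp (muG n q.1) := l3 q.1 q.2 ▸ (l1 _).1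
  obtain ⟨μ, hμ⟩ : ∃ μ, μ = (muG n q.1).map fun x => Oᵀ *ᵥ x := ⟨_, rfl⟩
  obtain ⟨cμ, dμ⟩ := D2_rot hIs cG cD hO (θ + 8 * K₁ + 1)
  rw [← hO', ← hμ] at dμ
  rw [← hμ] at cμ
  rw [l3, ← dμ] at hd
  have dm : ∀ θ', 0 ≤ θ' → θ' ≤ θ + 8 * K₁ + 1 →
      D2 θ' μ (nuD n (Lam n (Wp q)) (sx n ^ 2)) ≤ ρ := fun θ' h0 h1 =>
    (hM _ _ _ _ cμ cD cD _ _ h0 h1).2.1.trans hd
  have x1 : Xk θ μ μ ≤ Bt θ :=
    Apx22.Xk_le hM cμ cD hθ (hMg _ _ ht hg θ) ((dm θ hθ (by linarith)).trans r1)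
  have x2 : Xk (8 * K₁) μ μ ≤ Bt (8 * K₁) := Apx22.Xk_le hM cμ cD (by positivity)
    (hMg _ _ ht hg _) ((dm _ (by positivity) (by linarith)).trans r1)
  have x3 : Xk θ (piB n (Lam n (Wp q))) (piB n (Lam n (Wp q))) ≤ Bt θ :=
    Apx22.Xk_le hM cP cD hθ (hMg _ _ ht hg θ) (by
      rw [(hM _ _ _ _ cP cD cD θ θ hθ le_rfl).2.2.1]; exact dP.trans r1)
  have x4 : D2 θ μ (piB n (Lam n (Wp q))) ≤ δs := by
    have t1 := (hM _ _ _ _ cμ cD cP θ θ hθ le_rfl).2.2.2.2.2.1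
    have t2 := (hM _ _ _ _ cμ cP cP θ θ hθ le_rfl).1
    have t3 := sqrt_le_sqrt (dm θ hθ (by linarith))
    have t4 := sqrt_le_sqrt dP
    have t5 := pow_le_pow_left₀ (sqrt_nonneg _) (t1.trans (add_le_add t3 t4)) 2
    rw [sq_sqrt t2] at t5
    nlinarith [sq_sqrt r0.le]
  have x5 := hm n _ _ μ _ hg fD (fun j => (hCo _ _ ht hg j).1) (by
    have t1 := (hM _ _ _ _ cμ cD cD 1 1 zero_le_one le_rfl).2.2.2.2.2.2.2
    have t2 := dm 1 zero_le_one (by linarith)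
    linarith)
  have hT := fun (φ : (Fin n → ℝ) → ℝ) (hφ : B1 φ) (l : ℝ) (e : SE) h0 h1 h2 h3 =>
    hScl _ μ _ cμ cP x1 x3 x4 (fd n (Lam n (Wp q))) l K₁ φ e (fd_psd _)
      ((hZ₀ _ _ _ hg).trans z1) h0 h1 hK₁ z4 hφ h2 h3
  have := cP.prob
  have y0 : m₁ / 2 ≤ mk μ (fd n (Lam n (Wp q))) l₁ 1 := by
    have t1 : |mk μ (fd n (Lam n (Wp q))) l₁ 1 -
        mk (piB n (Lam n (Wp q))) (fd n (Lam n (Wp q))) l₁ 1| ≤ ε' :=
      hT (fun _ => 0) ⟨measurable_const, by simp⟩ l₁ (.const 1) hl₁.le z2 trivial (by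
        have : 0 ≤ ((2 * p : ℕ) : ℝ) * (K + k * K * τ + 6) := by positivity
        have : 0 ≤ k * K * τ := by positivity
        simp only [SE.sz, abs_one]; linarith)
    have t2 := p1.trans (real_le_mk (fd n (Lam n (Wp q))) l₁)
    nlinarith [(abs_le.1 t1).1, mul_le_mul_of_nonneg_right e1 hm₁.le]
  refine ⟨by rw [mk_rot hv, ← hμ]; exact y0, fun ψ hψ r hr u hu => ?_⟩
  have r0 : 0 < r := lt_of_lt_of_le (by positivity) hr.1
  obtain ⟨φ, hφ, hφk, hφ1⟩ := hCy _ μ _ cμ x2 x5 (fun y => ψ (O *ᵥ y))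
    ⟨hψ.1.comp (Lnk10.measurable_mulVec O), fun _ => hψ.2 _⟩
  obtain ⟨z, hz, q1, q2⟩ := p2 φ hφ hφk (k * r)
    ⟨by nlinarith [mul_le_mul_of_nonneg_left hr.1 hk.le], mul_le_mul_of_nonneg_left hr.2 hk.le⟩
  rw [show K * (k * r) = k * K * r by ring] at q1 q2
  have hv1 : B1 (Sm K₁ φ) := (hB _ μ cμ.prob).1 K₁ φ hK₁ hφ
  have c0 : 0 ≤ k * K * r := by positivity
  obtain ⟨s1, s2⟩ := static hB (μ := μ) (fd n (Lam n (Wp q))) hv1 (j := 2 * p) K0 c0 hz e0 e1 b0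
    hl₁.le z2 z3 (le_trans (by gcongr; exact hr.2) z5) hm₁ f1 (hT φ hφ) p1 q1 q2
  have key := det hB hI n0 hO hv hμ hψ hv1 (t := Soft.tau n r) (E := exp H₁) K0 hK₁ c0 e0
    (by positivity) b0 d0.le d1 (exp_pos _).le
    (by rw [← mul_assoc, ← exp_add, add_neg_cancel, exp_zero, one_mul]) hφ1
    (abs_Pn_le n0 hdn hH₁ (hH₁'.trans hr.1) r0.le) (fun h hh => by
      have := hs2 _ Unit (ch n0 q.1) (Sg.stRC (hat n) (gibbsWeight_pos 1 q.1) K0.le) rfl _ _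
        (Soft.tau_pos n0 one_pos).le (by positivity) (hi n0 K0.le Unit).1 (hi n0 K0.le Unit).2 r
        hr.1 hr.2 h 4 hh
      rw [show Soft.tau n 1 * r = Soft.tau n r by simp only [Soft.tau]; ring,
        show √(4 : ℝ) = 2 by rw [show (4 : ℝ) = 2 ^ 2 by norm_num, sqrt_sq zero_le_two]] at this
      linarith) y0 s1 s2 hu
  have := cG.prob
  refine le_trans (measureReal_mono (fun x hx => ?_) (measure_ne_top _ _))
    (key.trans (numer e0 e1 hH hp f2 d0.le d2))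
  exact ⟨hb' ▸ hx.1, e2.trans_lt hx.2⟩

end Crest.Agent.T157.Cq.Mg4

end
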