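import Crest.Agent.T157.EntB_34
import Crest.Agent.T157.ChainSp_22

-- ▼ part T157/EntC_34
section

/-!
Row 157, part E (helper34): finite entropy toolbox III, reversible chains.
Stroock–Varopoulos, log-Sobolev ⇒ modified log-Sobolev ⇒ entropy decay, Gross' hypercontractivity
(with a defect), Rényi decay, Herbst's argument for chains.
-/

set_option autoImplicit false
set_option linter.unusedSectionVars false

namespace Crest.Agent.T157.Ent

open Finset Matrix Chain22 Filter Topology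

/-- Cauchy–Schwarz for primitives. -/
theorem cs_prim {A B C α β : ℝ → ℝ} (hA : ∀ u, HasDerivAt A (α u ^ 2) u)
    (hB : ∀ u, HasDerivAt B (α u * β u) u) (hC : ∀ u, HasDerivAt C (β u ^ 2) u) (u v : ℝ) :
    (B u - B v) ^ 2 ≤ (A u - A v) * (C u - C v) := by
  have key : ∀ u v, v ≤ u → (B u - B v) ^ 2 ≤ (A u - A v) * (C u - C v) := by
    intro u v huv
    have h : ∀ l : ℝ, 0 ≤ (C u - C v) * (l * l) + (-2 * (B u - B v)) * l + (A u - A v) := by
      intro l
      have d : ∀ w, HasDerivAt (fun w => A w - 2 * l * B w + l ^ 2 * C w) ((α w - l * β w) ^ 2) w :=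
        fun w => (((hA w).fun_sub ((hB w).const_mul (2 * l))).fun_add
          ((hC w).const_mul (l ^ 2))).congr_deriv (by ring)
      have m := monotone_of_deriv_nonneg (fun w => (d w).differentiableAt)
        (fun w => by rw [(d w).deriv]; exact sq_nonneg _) huv
      simp only at m
      nlinarith
    have := discrim_le_zero h
    unfold discrim at this
    nlinarith
  rcases le_total v u with h | h
  · exact key u v h
  · have := key v u h
    nlinarith

theorem exp_half_sq_le (u v : ℝ) :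
    4 * (Real.exp (u / 2) - Real.exp (v / 2)) ^ 2 ≤ (Real.exp u - Real.exp v) * (u - v) := by
  have := cs_prim (A := Real.exp) (B := fun u => 2 * Real.exp (u / 2)) (C := fun u => u)
    (α := fun u => Real.exp (u / 2)) (β := fun _ => 1)
    (fun w => (Real.hasDerivAt_exp w).congr_deriv (by rw [sq, ← Real.exp_add]; ring_nf))
    (fun w => ((((hasDerivAt_id w).div_const 2).exp).const_mul 2).congr_deriv (by simp; ring))
    (fun w => (hasDerivAt_id w).congr_deriv (by simp)) u v
  nlinarith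

theorem exp_q_sq_le {q : ℝ} (hq : 1 < q) (u v : ℝ) :
    4 * (q - 1) * (Real.exp (q / 2 * u) - Real.exp (q / 2 * v)) ^ 2 ≤
      q ^ 2 * ((Real.exp ((q - 1) * u) - Real.exp ((q - 1) * v)) * (Real.exp u - Real.exp v)) := by
  have h1 : 0 < q - 1 := by linarith
  have h0 : 0 < q := by linarith
  have := cs_prim (A := fun u => Real.exp ((q - 1) * u) / (q - 1))
    (B := fun u => Real.exp (q / 2 * u) / (q / 2)) (C := Real.exp)
    (α := fun u => Real.exp ((q - 1) / 2 * u)) (β := fun u => Real.exp (u / 2))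
    (fun w => ((((hasDerivAt_id w).const_mul (q - 1)).exp).div_const (q - 1)).congr_deriv (by
      rw [sq, ← Real.exp_add]; simp only [id, mul_one]; field_simp; ring_nf))
    (fun w => ((((hasDerivAt_id w).const_mul (q / 2)).exp).div_const (q / 2)).congr_deriv (by
      rw [← Real.exp_add]; simp only [id, mul_one]; field_simp; ring_nf))
    (fun w => (Real.hasDerivAt_exp w).congr_deriv (by rw [sq, ← Real.exp_add]; ring_nf)) u v
  rw [← sub_div, ← sub_div, div_pow, div_mul_eq_mul_div _ (q - 1), div_le_div_iff₀ (by positivity) h1] at this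
  nlinarith

theorem exp_sub_mul_le (a b : ℝ) :
    (Real.exp a - Real.exp b) * (a - b) ≤
      Real.exp a * max (a - b) 0 ^ 2 + Real.exp b * max (b - a) 0 ^ 2 := by
  have key : ∀ a b : ℝ, b ≤ a → (Real.exp a - Real.exp b) * (a - b) ≤ Real.exp a * (a - b) ^ 2 := by
    intro a b h
    have h1 := Real.add_one_le_exp (b - a)
    have h2 : Real.exp b = Real.exp a * Real.exp (b - a) := by rw [← Real.exp_add]; ring_nf
    have h3 := mul_le_mul_of_nonneg_left h1 (Real.exp_pos a).le
    have h4 : Real.exp a - Real.exp b ≤ Real.exp a * (a - b) := by nlinarith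
    nlinarith [mul_le_mul_of_nonneg_right h4 (sub_nonneg.2 h)]
  rcases le_total b a with h | h
  · rw [max_eq_left (sub_nonneg.2 h), max_eq_right (sub_nonpos.2 h)]
    nlinarith [key a b h]
  · rw [max_eq_left (sub_nonneg.2 h), max_eq_right (sub_nonpos.2 h)]
    nlinarith [key b a h]

variable {Ω : Type*} [Fintype Ω] (c : RC Ω)

theorem D_le_D {f g u v : Ω → ℝ} {a b : ℝ}
    (h : ∀ x y, a * ((f x - f y) * (g x - g y)) ≤ b * ((u x - u y) * (v x - v y))) :
    a * c.D f g ≤ b * c.D u v := by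
  rw [c.D_eq, c.D_eq, mul_left_comm a, mul_left_comm b, mul_sum (a := a), mul_sum (a := b)]
  refine mul_le_mul_of_nonneg_left (sum_le_sum fun x _ => ?_) (by norm_num)
  rw [mul_sum, mul_sum]
  refine sum_le_sum fun y _ => ?_
  rw [mul_left_comm a, mul_left_comm b]
  exact mul_le_mul_of_nonneg_left (h x y) (mul_nonneg (c.pos x).le (c.nn x y))

/-- `4 D(√f, √f) ≤ D(f, log f)`. -/
theorem D_sqrt_le {f : Ω → ℝ} (hf : ∀ x, 0 < f x) :
    4 * c.D (fun x => Real.sqrt (f x)) (fun x => Real.sqrt (f x)) ≤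
      c.D f fun x => Real.log (f x) := by
  have := D_le_D c (a := 4) (b := 1) (f := fun x => Real.sqrt (f x)) (g := fun x => Real.sqrt (f x))
    (u := f) (v := fun x => Real.log (f x)) fun x y => by
      have h := exp_half_sq_le (Real.log (f x)) (Real.log (f y))
      rw [Real.exp_half, Real.exp_half, Real.exp_log (hf x), Real.exp_log (hf y)] at h
      nlinarith
  linarith

theorem D_log_nonneg {f : Ω → ℝ} (hf : ∀ x, 0 < f x) : 0 ≤ c.D f fun x => Real.log (f x) :=
  le_trans (mul_nonneg (by norm_num) (c.D_nonneg _)) (D_sqrt_le c hf)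

/-- Stroock–Varopoulos. -/
theorem stroock_varopoulos {f : Ω → ℝ} (hf : ∀ x, 0 < f x) {q : ℝ} (hq : 1 < q) :
    4 * (q - 1) * c.D (fun x => f x ^ (q / 2)) (fun x => f x ^ (q / 2)) ≤
      q ^ 2 * c.D (fun x => f x ^ (q - 1)) f :=
  D_le_D c fun x y => by
    have h := exp_q_sq_le hq (Real.log (f x)) (Real.log (f y))
    rw [Real.exp_log (hf x), Real.exp_log (hf y)] at h
    simp only [Real.rpow_def_of_pos (hf _), mul_comm (Real.log _)]
    nlinarith

/-- log-Sobolev inequality with constant `K` and defect `B` -/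
def LSI (K B : ℝ) : Prop :=
  ∀ f : Ω → ℝ, ent c.π (fun x => f x ^ 2) ≤ K * c.D f f + B * mean c.π fun x => f x ^ 2

/-- modified log-Sobolev inequality with constant `K` and defect `B` -/
def MLSI (K B : ℝ) : Prop :=
  ∀ f : Ω → ℝ, (∀ x, 0 < f x) → ent c.π f ≤ K * c.D f (fun x => Real.log (f x)) + B * mean c.π f

variable {c}

theorem LSI.sqrt {K B : ℝ} (h : LSI c K B) {f : Ω → ℝ} (hf : ∀ x, 0 ≤ f x) :
    ent c.π f ≤ K * c.D (fun x => Real.sqrt (f x)) (fun x => Real.sqrt (f x)) + B * mean c.π f := by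
  simpa only [Real.sq_sqrt (hf _)] using h fun x => Real.sqrt (f x)



theorem LSI.mlsi {K B : ℝ} (h : LSI c K B) (hK : 0 ≤ K) : MLSI c (K / 4) B := fun f hf => by
  have h1 := h.sqrt fun x => (hf x).le
  have h2 := mul_le_mul_of_nonneg_left (D_sqrt_le c hf) hK
  linarith

theorem LSI.mono {K B K' B' : ℝ} (h : LSI c K B) (hK : K ≤ K') (hB : B ≤ B') : LSI c K' B' :=
  fun f => (h f).trans (add_le_add (mul_le_mul_of_nonneg_right hK (c.D_nonneg f))
    (mul_le_mul_of_nonneg_right hB (c.isP.mean_nonneg fun _ => sq_nonneg _)))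

/-- defective + Poincaré ⇒ tight -/
theorem LSI.tight {K B C : ℝ} (h : LSI c K B) (hB : 0 ≤ B) (hP : ∀ f, var c.π f ≤ C * c.D f f) :
    LSI c (K + (B + 2) * C) 0 := fun f => by
  rw [zero_mul, add_zero]
  exact tight_lsi c.isP (fun f => c.D f f) (fun f a => c.D_add_const f (-a)) hB h hP f

/-! ### Herbst for chains -/

variable (c) in
/-- one-sided carré du champ -/
noncomputable def gam (F : Ω → ℝ) (x : Ω) : ℝ := ∑ y, c.P x y * max (F x - F y) 0 ^ 2

theorem D_exp_le (F : Ω → ℝ) {t : ℝ} (ht : 0 ≤ t) :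
    c.D (fun x => Real.exp (t * F x)) (fun x => t * F x) ≤
      t ^ 2 * mean c.π fun x => Real.exp (t * F x) * gam c F x := by
  have e : ∀ x y, max (t * F x - t * F y) 0 = t * max (F x - F y) 0 := fun x y => by
    rw [mul_max_of_nonneg _ _ ht, mul_zero, mul_sub]
  have e1 : t ^ 2 * (mean c.π fun x => Real.exp (t * F x) * gam c F x) =
      ∑ x, ∑ y, c.π x * c.P x y * (Real.exp (t * F x) * max (t * F x - t * F y) 0 ^ 2) := by
    simp only [mean, gam, mul_sum, e]
    exact sum_congr rfl fun x _ => sum_congr rfl fun y _ => by ring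
  have e2 : ∑ x, ∑ y, c.π x * c.P x y * (Real.exp (t * F y) * max (t * F y - t * F x) 0 ^ 2) =
      ∑ x, ∑ y, c.π x * c.P x y * (Real.exp (t * F x) * max (t * F x - t * F y) 0 ^ 2) := by
    rw [sum_comm]
    exact sum_congr rfl fun x _ => sum_congr rfl fun y _ => by rw [c.rev]
  have h : ∑ x, ∑ y, c.π x * c.P x y * ((Real.exp (t * F x) - Real.exp (t * F y)) *
      (t * F x - t * F y)) ≤ ∑ x, ∑ y, (c.π x * c.P x y *
        (Real.exp (t * F x) * max (t * F x - t * F y) 0 ^ 2) + c.π x * c.P x y *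
        (Real.exp (t * F y) * max (t * F y - t * F x) 0 ^ 2)) :=
    sum_le_sum fun x _ => sum_le_sum fun y _ => by
      rw [← mul_add]
      exact mul_le_mul_of_nonneg_left (exp_sub_mul_le _ _) (mul_nonneg (c.pos x).le (c.nn x y))
  simp only [sum_add_distrib] at h
  rw [c.D_eq, e1]
  linarith

theorem MLSI.ent_exp_le {K B : ℝ} (h : MLSI c K B) (hK : 0 ≤ K) {F : Ω → ℝ} {γ : ℝ}
    (hγ : ∀ x, gam c F x ≤ γ) {t : ℝ} (ht : 0 ≤ t) :
    ent c.π (fun x => Real.exp (t * F x)) ≤
      (K * γ * t ^ 2 + B) * mean c.π fun x => Real.exp (t * F x) := by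
  have h1 := h (fun x => Real.exp (t * F x)) fun x => Real.exp_pos _
  simp only [Real.log_exp] at h1
  have h2 := D_exp_le (c := c) F ht
  have h3 : (mean c.π fun x => Real.exp (t * F x) * gam c F x) ≤
      (mean c.π fun x => Real.exp (t * F x)) * γ := by
    rw [← mean_mul_const]
    exact c.isP.mean_mono fun x => mul_le_mul_of_nonneg_left (hγ x) (Real.exp_pos _).le
  have h4 := mul_le_mul_of_nonneg_left (h2.trans (mul_le_mul_of_nonneg_left h3 (sq_nonneg t))) hK
  nlinarith

/-- Herbst: modified log-Sobolev ⇒ sub-Gaussian moment generating function. -/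
theorem MLSI.lmgf_le {K : ℝ} (h : MLSI c K 0) (hK : 0 ≤ K) {F : Ω → ℝ} {γ : ℝ}
    (hγ : ∀ x, gam c F x ≤ γ) {t : ℝ} (ht : 0 ≤ t) :
    lmgf c.π F t ≤ t * mean c.π F + K * γ * t ^ 2 :=
  herbst c.isP F ht fun u hu _ => by simpa using h.ent_exp_le hK hγ hu.le

theorem MLSI.tail {K : ℝ} (h : MLSI c K 0) (hK : 0 < K) {F : Ω → ℝ} {γ : ℝ} (hγ0 : 0 < γ)
    (hγ : ∀ x, gam c F x ≤ γ) {r : ℝ} (hr : 0 ≤ r) :
    mean c.π (ind fun x => mean c.π F + r ≤ F x) ≤ Real.exp (-(r ^ 2 / (4 * (K * γ)))) :=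
  tail_of_lmgf c.isP F (by positivity) hr (h.lmgf_le hK.le hγ (by positivity))

/-! ### The semigroup -/

variable [DecidableEq Ω]

theorem H_pos {t : ℝ} (ht : 0 ≤ t) {f : Ω → ℝ} (hf : ∀ x, 0 < f x) (x : Ω) : 0 < (c.H t *ᵥ f) x :=
  mean_pos ((c.heat t ht).isP_row x) hf

theorem H_nonneg {t : ℝ} (ht : 0 ≤ t) {f : Ω → ℝ} (hf : ∀ x, 0 ≤ f x) (x : Ω) :
    0 ≤ (c.H t *ᵥ f) x := (c.heat t ht).P_nonneg hf x

theorem H_add_const (t : ℝ) (f : Ω → ℝ) (a : ℝ) (x : Ω) :
    (c.H t *ᵥ fun y => f y + a) x = (c.H t *ᵥ f) x + a := by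
  have := congrFun (mulVec_add (c.H t) f fun _ => a) x
  rw [c.H_const] at this
  exact this

theorem mean_mul_gen (g u : Ω → ℝ) :
    mean c.π (fun x => g x * ((c.P *ᵥ u) x - u x)) = -c.D g u := by
  rw [RC.D, ip_eq_mean, ← neg_one_mul, ← mean_const_mul]
  exact mean_congr fun x => by simp only [Pi.sub_apply]; ring

/-- de Bruijn's identity -/
theorem hasDerivAt_ent_H {f : Ω → ℝ} {t : ℝ} (hu : ∀ x, 0 < (c.H t *ᵥ f) x) :
    HasDerivAt (fun s => ent c.π (c.H s *ᵥ f))
      (-c.D (c.H t *ᵥ f) fun x => Real.log ((c.H t *ᵥ f) x)) t := by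
  simp only [ent_eq, c.mean_H]
  refine ((hasDerivAt_mean (π := c.π) fun x => (c.hasDerivAt_H_mulVec f x t).fun_mul
    ((c.hasDerivAt_H_mulVec f x t).log (hu x).ne')).sub_const _).congr_deriv ?_
  rw [c.D_comm, ← mean_mul_gen]
  have h0 : mean c.π (fun x => (c.P *ᵥ (c.H t *ᵥ f)) x - (c.H t *ᵥ f) x) = 0 := by
    rw [mean_sub', c.mean_P, sub_self]
  rw [← add_zero (mean c.π fun x => Real.log _ * _), ← h0, ← mean_add']
  refine mean_congr fun x => ?_
  field_simp [(hu x).ne']

theorem continuous_ent_H (f : Ω → ℝ) : Continuous fun s => ent c.π (c.H s *ᵥ f) :=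
  continuous_ent_comp c.π fun x => c.continuous_H_mulVec f x

/-- modified log-Sobolev ⇒ exponential decay of the entropy -/
theorem MLSI.ent_H_le {K B : ℝ} (h : MLSI c K B) (hK : 0 < K) (hB : 0 ≤ B) {f : Ω → ℝ}
    (hf : ∀ x, 0 ≤ f x) {t : ℝ} (ht : 0 ≤ t) :
    ent c.π (c.H t *ᵥ f) ≤ Real.exp (-(t / K)) * ent c.π f + B * mean c.π f := by
  have key : ∀ f : Ω → ℝ, (∀ x, 0 < f x) →
      ent c.π (c.H t *ᵥ f) ≤ Real.exp (-(t / K)) * ent c.π f + B * mean c.π f := by
    intro f hf
    have hd : ∀ s, 0 ≤ s → HasDerivAt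
        (fun s => Real.exp (s / K) * (ent c.π (c.H s *ᵥ f) - B * mean c.π f))
        (Real.exp (s / K) * (1 / K) * (ent c.π (c.H s *ᵥ f) - B * mean c.π f) +
          Real.exp (s / K) * -c.D (c.H s *ᵥ f) fun x => Real.log ((c.H s *ᵥ f) x)) s :=
      fun s hs => (((hasDerivAt_id s).div_const K).exp).fun_mul
        ((hasDerivAt_ent_H (H_pos hs hf)).sub_const _)
    have ha : AntitoneOn (fun s => Real.exp (s / K) * (ent c.π (c.H s *ᵥ f) - B * mean c.π f))
        (Set.Ici 0) := antitoneOn_of_deriv_nonpos (convex_Ici 0)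
      (fun s hs => (hd s hs).continuousAt.continuousWithinAt)
      (fun s hs => (hd s (interior_subset hs)).differentiableAt.differentiableWithinAt)
      fun s hs => by
        have hs0 : 0 ≤ s := interior_subset hs
        rw [(hd s hs0).deriv, mul_assoc, ← mul_add]
        refine mul_nonpos_of_nonneg_of_nonpos (Real.exp_pos _).le ?_
        have h1 := h _ (H_pos (c := c) hs0 hf)
        rw [c.mean_H] at h1
        rw [one_div, inv_mul_eq_div, add_neg_le_iff_le_add, zero_add, div_le_iff₀ hK]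
        linarith
    have h1 := ha (le_refl (0 : ℝ)) ht ht
    simp only [zero_div, Real.exp_zero, one_mul, c.H_zero, one_mulVec] at h1
    have h2 := mul_le_mul_of_nonneg_left h1 (Real.exp_pos (-(t / K))).le
    rw [← mul_assoc, ← Real.exp_add, neg_add_cancel, Real.exp_zero, one_mul] at h2
    have h3 : 0 ≤ Real.exp (-(t / K)) * (B * mean c.π f) :=
      mul_nonneg (Real.exp_pos _).le (mul_nonneg hB (mean_pos c.isP hf).le)
    linarith
  have c1 : Continuous fun δ : ℝ => ent c.π fun x => (c.H t *ᵥ f) x + δ :=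
    continuous_ent_comp c.π fun x => by fun_prop
  have c2 : Continuous fun δ : ℝ => Real.exp (-(t / K)) * ent c.π (fun x => f x + δ) +
      B * (mean c.π f + δ) :=
    (continuous_const.mul (continuous_ent_comp c.π fun x => by fun_prop)).add (by fun_prop)
  have t1 := (c1.tendsto 0).mono_left (nhdsWithin_le_nhds (s := Set.Ioi 0))
  have t2 := (c2.tendsto 0).mono_left (nhdsWithin_le_nhds (s := Set.Ioi 0))
  simp only [add_zero] at t1 t2
  refine le_of_tendsto_of_tendsto t1 t2 (eventually_nhdsWithin_of_forall fun δ hδ => ?_)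
  have := key (fun x => f x + δ) fun x => add_pos_of_nonneg_of_pos (hf x) hδ
  rw [mean_add', c.isP.mean_const] at this
  have e : (c.H t *ᵥ fun x => f x + δ) = fun x => (c.H t *ᵥ f) x + δ :=
    funext fun x => H_add_const t f δ x
  rw [e] at this
  exact this

/-- there is a time with small entropy production -/
theorem exists_time {f : Ω → ℝ} (hf : ∀ x, 0 < f x) {s t : ℝ} (hs : 0 ≤ s) (hst : s < t) :
    ∃ u, s < u ∧ u < t ∧ (t - s) * c.D (c.H u *ᵥ f) (fun x => Real.log ((c.H u *ᵥ f) x)) =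
      ent c.π (c.H s *ᵥ f) - ent c.π (c.H t *ᵥ f) := by
  obtain ⟨u, hu, e⟩ := exists_hasDerivAt_eq_slope (fun s => ent c.π (c.H s *ᵥ f))
    (fun u => -c.D (c.H u *ᵥ f) fun x => Real.log ((c.H u *ᵥ f) x)) hst
    (continuous_ent_H f).continuousOn fun u hu => hasDerivAt_ent_H (H_pos (hs.trans hu.1.le) hf)
  refine ⟨u, hu.1, hu.2, ?_⟩
  rw [eq_div_iff (sub_pos.2 hst).ne'] at e
  linarith

/-! ### Gross' theorem -/

theorem gross_aux {K B κ p : ℝ} (h : LSI c K B) (hκ : 0 ≤ κ) (hκK : κ * K ≤ 4) (hp : 1 < p)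
    {f : Ω → ℝ} (hf : ∀ x, 0 < f x) {t : ℝ} (ht : 0 ≤ t) :
    Real.log (mean c.π fun x => (c.H t *ᵥ f) x ^ (1 + (p - 1) * Real.exp (κ * t))) /
        (1 + (p - 1) * Real.exp (κ * t)) + B / (1 + (p - 1) * Real.exp (κ * t)) ≤
      Real.log (mean c.π fun x => f x ^ p) / p + B / p := by
  set q : ℝ → ℝ := fun s => 1 + (p - 1) * Real.exp (κ * s) with hq
  have hq1 : ∀ s, 1 < q s := fun s => by
    have : 0 < (p - 1) * Real.exp (κ * s) := mul_pos (by linarith) (Real.exp_pos _)
    simp only [hq]; linarith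
  have dq : ∀ s, HasDerivAt q (κ * (q s - 1)) s := fun s =>
    (((((hasDerivAt_id s).const_mul κ).exp).const_mul (p - 1)).const_add 1).congr_deriv (by
      simp only [hq, id]; ring)
  set u : ℝ → Ω → ℝ := fun s => c.H s *ᵥ f with hu
  set Z : ℝ → ℝ := fun s => mean c.π fun x => u s x ^ q s with hZ
  have hZ0 : ∀ s, 0 ≤ s → 0 < Z s := fun s hs =>
    mean_pos c.isP fun x => Real.rpow_pos_of_pos (H_pos hs hf x) _
  have dZ : ∀ s, 0 ≤ s → HasDerivAt Z (κ * (q s - 1) / q s *
      (ent c.π (fun x => u s x ^ q s) + Z s * Real.log (Z s)) -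
      q s * c.D (fun x => u s x ^ (q s - 1)) (u s)) s := fun s hs => by
    refine (hasDerivAt_mean (π := c.π) fun x => (c.hasDerivAt_H_mulVec f x s).rpow (dq s)
      (H_pos hs hf x)).congr_deriv ?_
    rw [ent_eq, sub_add_cancel, ← mean_const_mul, sub_eq_add_neg (mean _ _), ← mul_neg,
      ← mean_mul_gen, ← mean_const_mul, ← mean_add']
    refine mean_congr fun x => ?_
    rw [Real.log_rpow (H_pos hs hf x)]
    have := (lt_trans zero_lt_one (hq1 s)).ne'
    simp only [hu]
    field_simp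
    ring
  have hd : ∀ s, 0 ≤ s → HasDerivAt (fun s => Real.log (Z s) / q s + B / q s)
      ((κ * (q s - 1) * (ent c.π (fun x => u s x ^ q s) - B * Z s) -
        q s ^ 2 * c.D (fun x => u s x ^ (q s - 1)) (u s)) / (q s ^ 2 * Z s)) s := fun s hs => by
    have h0 := (lt_trans zero_lt_one (hq1 s)).ne'
    refine (((((dZ s hs).log (hZ0 s hs).ne').fun_div (dq s) h0)).fun_add
      ((hasDerivAt_const s B).fun_div (dq s) h0)).congr_deriv ?_
    have := (hZ0 s hs).ne'
    field_simp
    ring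
  have ha : AntitoneOn (fun s => Real.log (Z s) / q s + B / q s) (Set.Ici 0) :=
    antitoneOn_of_deriv_nonpos (convex_Ici 0)
      (fun s hs => (hd s hs).continuousAt.continuousWithinAt)
      (fun s hs => (hd s (interior_subset hs)).differentiableAt.differentiableWithinAt)
      fun s hs => by
        have hs0 : 0 ≤ s := interior_subset hs
        rw [(hd s hs0).deriv]
        refine div_nonpos_of_nonpos_of_nonneg ?_ (mul_nonneg (sq_nonneg _) (hZ0 s hs0).le)
        have h1 := h fun x => u s x ^ (q s / 2)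
        have e : (fun x => (u s x ^ (q s / 2)) ^ 2) = fun x => u s x ^ q s := funext fun x => by
          rw [← Real.rpow_natCast, ← Real.rpow_mul (H_pos hs0 hf x).le]
          congr 1; push_cast; ring
        rw [e] at h1
        have h2 := stroock_varopoulos c (H_pos (c := c) hs0 hf) (hq1 s)
        have h3 := c.D_nonneg fun x => u s x ^ (q s / 2)
        have h4 : 0 ≤ q s - 1 := by linarith [hq1 s]
        have h5 := mul_le_mul_of_nonneg_left (sub_le_iff_le_add.2 h1) (mul_nonneg hκ h4)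
        have h6 := mul_le_mul_of_nonneg_right hκK (mul_nonneg h4 h3)
        simp only [hZ, hu] at h2 h5 h6 ⊢
        nlinarith
  have h1 := ha (le_refl (0 : ℝ)) ht ht
  simp only [hZ, hu, hq, mul_zero, Real.exp_zero, mul_one, c.H_zero, one_mulVec, add_sub_cancel]
    at h1
  exact h1

/-- the `L^p(π)` norm -/
noncomputable def lp (π : Ω → ℝ) (p : ℝ) (f : Ω → ℝ) : ℝ := mean π (fun x => |f x| ^ p) ^ (1 / p)

theorem lp_of_nonneg {π : Ω → ℝ} (p : ℝ) {f : Ω → ℝ} (hf : ∀ x, 0 ≤ f x) :
    lp π p f = mean π (fun x => f x ^ p) ^ (1 / p) := by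
  simp only [lp, abs_of_nonneg (hf _)]

theorem lp_nonneg {π : Ω → ℝ} (h : IsP π) (p : ℝ) (f : Ω → ℝ) : 0 ≤ lp π p f :=
  Real.rpow_nonneg (h.mean_nonneg fun _ => Real.rpow_nonneg (abs_nonneg _) _) _

theorem lp_mono {π : Ω → ℝ} (h : IsP π) {p : ℝ} (hp : 0 ≤ p) {f g : Ω → ℝ}
    (hfg : ∀ x, |f x| ≤ |g x|) : lp π p f ≤ lp π p g :=
  Real.rpow_le_rpow (h.mean_nonneg fun _ => Real.rpow_nonneg (abs_nonneg _) _)
    (h.mean_mono fun x => Real.rpow_le_rpow (abs_nonneg _) (hfg x) hp) (by positivity)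

theorem lp_rpow {π : Ω → ℝ} (h : IsP π) {p : ℝ} (hp : 0 < p) (f : Ω → ℝ) :
    lp π p f ^ p = mean π fun x => |f x| ^ p := by
  rw [lp, ← Real.rpow_mul (h.mean_nonneg fun _ => Real.rpow_nonneg (abs_nonneg _) _),
    one_div_mul_cancel hp.ne', Real.rpow_one]

theorem abs_H_le {t : ℝ} (ht : 0 ≤ t) (f : Ω → ℝ) (x : Ω) :
    |(c.H t *ᵥ f) x| ≤ (c.H t *ᵥ fun y => |f y|) x := by
  refine (abs_sum_le_sum_abs _ _).trans (le_of_eq (sum_congr rfl fun y _ => ?_))
  rw [abs_mul, abs_of_nonneg (c.H_nn ht x y)]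

/-- **Gross' theorem** with a defect. -/
theorem LSI.hyper {K B p q : ℝ} (h : LSI c K B) (hK : 0 < K) (hp : 1 < p) (hpq : p ≤ q) {t : ℝ}
    (ht : 0 ≤ t) (hq : q - 1 ≤ (p - 1) * Real.exp (4 * t / K)) (f : Ω → ℝ) :
    lp c.π q (c.H t *ᵥ f) ≤ Real.exp (B * (1 / p - 1 / q)) * lp c.π p f := by
  have hp1 : 0 < p - 1 := by linarith
  obtain ⟨κ, hκ, hκK, hκq⟩ : ∃ κ : ℝ, 0 ≤ κ ∧ κ * K ≤ 4 ∧ 1 + (p - 1) * Real.exp (κ * t) = q := by
    rcases eq_or_lt_of_le ht with h0 | h0
    · refine ⟨0, le_rfl, by norm_num, ?_⟩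
      rw [← h0] at hq
      simp at hq ⊢
      linarith
    · have h1 : 1 ≤ (q - 1) / (p - 1) := by rw [le_div_iff₀ hp1]; linarith
      refine ⟨Real.log ((q - 1) / (p - 1)) / t, div_nonneg (Real.log_nonneg h1) h0.le, ?_, ?_⟩
      · have : Real.log ((q - 1) / (p - 1)) ≤ 4 * t / K := by
          rw [Real.log_le_iff_le_exp (by linarith), div_le_iff₀ hp1]; linarith
        rw [le_div_iff₀ hK] at this
        rw [div_mul_eq_mul_div, div_le_iff₀ h0]; exact this
      · rw [div_mul_cancel₀ _ h0.ne', Real.exp_log (by linarith)]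
        field_simp; ring
  have key : ∀ g : Ω → ℝ, (∀ x, 0 < g x) → mean c.π (fun x => (c.H t *ᵥ g) x ^ q) ^ (1 / q) ≤
      Real.exp (B * (1 / p - 1 / q)) * mean c.π (fun x => g x ^ p) ^ (1 / p) := by
    intro g hg
    have h1 := gross_aux h hκ hκK hp hg ht
    rw [hκq] at h1
    rw [Real.rpow_def_of_pos (mean_pos c.isP fun x => Real.rpow_pos_of_pos (H_pos ht hg x) _),
      Real.rpow_def_of_pos (mean_pos c.isP fun x => Real.rpow_pos_of_pos (hg x) _), ← Real.exp_add]
    refine Real.exp_le_exp.2 ?_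
    simp only [div_eq_mul_inv, one_mul] at h1 ⊢
    linarith
  have c2 : Continuous fun δ : ℝ => Real.exp (B * (1 / p - 1 / q)) *
      mean c.π (fun x => (|f x| + δ) ^ p) ^ (1 / p) := by
    refine continuous_const.mul (Continuous.rpow_const ?_ fun _ => Or.inr (by positivity))
    exact continuous_finsetSum _ fun x _ => continuous_const.mul
      (Continuous.rpow_const (by fun_prop) fun _ => Or.inr (by linarith))
  have t2 := (c2.tendsto 0).mono_left (nhdsWithin_le_nhds (s := Set.Ioi 0))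
  simp only [add_zero] at t2
  refine ge_of_tendsto t2 (eventually_nhdsWithin_of_forall fun δ hδ => ?_)
  have hg : ∀ x, 0 < |f x| + δ := fun x => add_pos_of_nonneg_of_pos (abs_nonneg _) hδ
  refine le_trans ?_ (key _ hg)
  rw [← lp_of_nonneg q fun x => (H_pos ht hg x).le]
  refine lp_mono c.isP (by linarith) fun x => ?_
  rw [abs_of_pos (H_pos ht hg x), H_add_const]
  linarith [abs_H_le (c := c) ht f x, show 0 < δ from hδ]

theorem lp_le_of_bdd {π : Ω → ℝ} (h : IsP π) {f : Ω → ℝ} (hf : ∀ x, 0 ≤ f x) (h1 : mean π f ≤ 1)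
    {L p : ℝ} (hL : ∀ x, f x ≤ Real.exp L) (hp : 1 ≤ p) : lp π p f ≤ Real.exp (L * (1 - 1 / p)) := by
  rw [lp_of_nonneg p hf]
  have : mean π (fun x => f x ^ p) ≤ Real.exp (L * (p - 1)) := by
    calc mean π (fun x => f x ^ p) ≤ mean π fun x => f x * Real.exp (L * (p - 1)) :=
          h.mean_mono fun x => by
            have e : f x ^ p = f x * f x ^ (p - 1) := by
              rw [← Real.rpow_one_add' (hf x) (by linarith)]; congr 1; ring
            rw [e, Real.exp_mul]
            exact mul_le_mul_of_nonneg_left (Real.rpow_le_rpow (hf x) (hL x) (by linarith)) (hf x)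
      _ ≤ _ := by
          rw [mean_mul_const]; exact mul_le_of_le_one_left (Real.exp_pos _).le h1
  refine (Real.rpow_le_rpow (h.mean_nonneg fun x => Real.rpow_nonneg (hf x) _) this
    (by positivity)).trans (le_of_eq ?_)
  rw [← Real.exp_mul]
  congr 1
  field_simp

/-- Rényi decay for a bounded density. -/
theorem LSI.renyi {K B q : ℝ} (h : LSI c K B) (hK : 0 < K) (hB : 0 ≤ B) (hq : 1 < q) {t : ℝ}
    (ht : 0 ≤ t) {f : Ω → ℝ} (hf : ∀ x, 0 ≤ f x) (h1 : mean c.π f ≤ 1) {L : ℝ} (hL0 : 0 ≤ L)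
    (hL : ∀ x, f x ≤ Real.exp L) :
    lp c.π q (c.H t *ᵥ f) ≤ Real.exp (B + L * (q - 1) * Real.exp (-(4 * t / K))) := by
  set e := Real.exp (-(4 * t / K)) with he
  have he0 : 0 < e := Real.exp_pos _
  have he1 : e ≤ 1 := Real.exp_le_one_iff.2 (neg_nonpos.2 (by positivity))
  have hq1 : 0 < q - 1 := by linarith
  have hp : 1 < 1 + (q - 1) * e := by linarith [mul_pos hq1 he0]
  have h2 := h.hyper hK hp (q := q) (by nlinarith) ht (le_of_eq (by
    rw [add_sub_cancel_left, mul_assoc, he, ← Real.exp_add]; simp)) f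
  refine h2.trans ((mul_le_mul_of_nonneg_left (lp_le_of_bdd c.isP hf h1 hL hp.le)
    (Real.exp_pos _).le).trans ?_)
  rw [← Real.exp_add]
  refine Real.exp_le_exp.2 (add_le_add ?_ ?_)
  · refine mul_le_of_le_one_right hB ?_
    have : 1 / (1 + (q - 1) * e) ≤ 1 := by rw [div_le_one (by linarith)]; linarith
    have : 0 < 1 / q := by positivity
    linarith
  · rw [mul_assoc]
    refine mul_le_mul_of_nonneg_left ?_ hL0
    have h3 : 0 < (q - 1) * e := mul_pos hq1 he0
    rw [sub_le_iff_le_add, ← sub_le_iff_le_add', le_div_iff₀ (by linarith)]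
    nlinarith




end Crest.Agent.T157.Ent
end

-- ▼ part T157/EntD_34

/-!
Row 157, part E (helper34): finite entropy toolbox IV.
Second-order comparison of entropy and variance, (modified) log-Sobolev ⇒ Poincaré, entropy of
functions with small support, reduction of the log-Sobolev inequality to entropy levels
(truncation at quantiles).
-/

set_option autoImplicit false
set_option linter.unusedSectionVars false

namespace Crest.Agent.T157.Ent

open Finset Matrix Chain22 Filter Topology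

/-! ### Entropy versus variance -/

theorem log_taylor_mono :
    MonotoneOn (fun r : ℝ => Real.log r - (r - 1) + (r - 1) ^ 2 / 2) (Set.Ioi 0) := by
  have hd : ∀ r : ℝ, 0 < r → HasDerivAt (fun r : ℝ => Real.log r - (r - 1) + (r - 1) ^ 2 / 2)
      ((r - 1) ^ 2 / r) r := fun r hr => by
    refine (((Real.hasDerivAt_log hr.ne').sub ((hasDerivAt_id r).sub_const 1)).add
      ((((hasDerivAt_id r).sub_const 1).pow 2).div_const 2)).congr_deriv ?_
    simp only [id]; field_simp; ring
  refine monotoneOn_of_deriv_nonneg (convex_Ioi 0)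
    (fun r hr => (hd r hr).continuousAt.continuousWithinAt)
    (fun r hr => (hd r (interior_subset hr)).differentiableAt.differentiableWithinAt) fun r hr => ?_
  have hr' : 0 < r := interior_subset hr
  rw [(hd r hr').deriv]; positivity

theorem brg_eq {u a : ℝ} (hu : 0 < u) (ha : 0 < a) : brg u a = u * Real.log (u / a) - u + a := by
  rw [Real.log_div hu.ne' ha.ne']; unfold brg; ring

theorem brg_le_sq {u a m : ℝ} (hm : 0 < m) (hu : m ≤ u) (ha : m ≤ a) :
    2 * m * brg u a ≤ (u - a) ^ 2 := by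
  have hu0 : 0 < u := hm.trans_le hu
  have ha0 : 0 < a := hm.trans_le ha
  have hb := brg_nonneg hu0.le ha0
  rcases le_total a u with h | h
  · have h1 : Real.log (u / a) ≤ Real.sinh (Real.log (u / a)) :=
      Real.self_le_sinh_iff.2 (Real.log_nonneg ((one_le_div ha0).2 h))
    rw [Real.sinh_log (by positivity)] at h1
    have h2 : 2 * a * brg u a ≤ (u - a) ^ 2 := by
      rw [brg_eq hu0 ha0]
      have h3 := mul_le_mul_of_nonneg_left h1 (by positivity : 0 ≤ 2 * a * u)
      have h4 : 2 * a * u * ((u / a - (u / a)⁻¹) / 2) = u ^ 2 - a ^ 2 := by field_simp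
      nlinarith
    nlinarith
  · have h1 := log_taylor_mono (Set.mem_Ioi.2 one_pos) (Set.mem_Ioi.2 (div_pos ha0 hu0))
      ((one_le_div hu0).2 h)
    simp only [Real.log_one, sub_self] at h1
    have h2 : 2 * u * brg u a ≤ (u - a) ^ 2 := by
      rw [brg_eq hu0 ha0, ← inv_div, Real.log_inv]
      have h3 := mul_le_mul_of_nonneg_left h1 (by positivity : 0 ≤ 2 * u ^ 2)
      have h4 : 2 * u ^ 2 * (Real.log (a / u) - (a / u - 1) + (a / u - 1) ^ 2 / 2) =
          2 * u ^ 2 * Real.log (a / u) - 2 * u * (a - u) + (a - u) ^ 2 := by field_simp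
      nlinarith
    nlinarith

theorem sq_le_brg {u a M : ℝ} (hu0 : 0 ≤ u) (ha0 : 0 < a) (hu : u ≤ M) (ha : a ≤ M) :
    (u - a) ^ 2 ≤ 2 * M * brg u a := by
  have hb := brg_nonneg hu0 ha0
  rcases eq_or_lt_of_le hu0 with h0 | hu0
  · subst h0; simp only [brg, zero_mul, sub_self, zero_add]; nlinarith
  rcases le_total u a with h | h
  · have h1 : Real.sinh (Real.log (u / a)) ≤ Real.log (u / a) :=
      Real.sinh_le_self_iff.2 (Real.log_nonpos (by positivity) ((div_le_one ha0).2 h))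
    rw [Real.sinh_log (by positivity)] at h1
    have h2 : (u - a) ^ 2 ≤ 2 * a * brg u a := by
      rw [brg_eq hu0 ha0]
      have h3 := mul_le_mul_of_nonneg_left h1 (by positivity : 0 ≤ 2 * a * u)
      have h4 : 2 * a * u * ((u / a - (u / a)⁻¹) / 2) = u ^ 2 - a ^ 2 := by field_simp
      nlinarith
    nlinarith
  · have h1 := log_taylor_mono (Set.mem_Ioi.2 (div_pos ha0 hu0)) (Set.mem_Ioi.2 one_pos)
      ((div_le_one hu0).2 h)
    simp only [Real.log_one, sub_self] at h1
    have h2 : (u - a) ^ 2 ≤ 2 * u * brg u a := by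
      rw [brg_eq hu0 ha0, ← inv_div, Real.log_inv]
      have h3 := mul_le_mul_of_nonneg_left h1 (by positivity : 0 ≤ 2 * u ^ 2)
      have h4 : 2 * u ^ 2 * (Real.log (a / u) - (a / u - 1) + (a / u - 1) ^ 2 / 2) =
          2 * u ^ 2 * Real.log (a / u) - 2 * u * (a - u) + (a - u) ^ 2 := by field_simp
      nlinarith
    nlinarith

variable {Ω : Type*} [Fintype Ω] {π : Ω → ℝ}

/-- `Ent f ≤ Var f / (2 min f)` -/
theorem ent_le_var_of_ge (h : IsP π) {f : Ω → ℝ} {m : ℝ} (hm : 0 < m) (hf : ∀ x, m ≤ f x) :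
    2 * m * ent π f ≤ var π f := by
  have h1 : m ≤ mean π f := by simpa [h.mean_const] using h.mean_mono (f := fun _ => m) hf
  rw [ent_eq_brg h, ← mean_const_mul]
  exact h.mean_mono fun x => brg_le_sq hm (hf x) h1

/-- `Var f / (2 max f) ≤ Ent f` -/
theorem var_le_ent_of_le (h : IsP π) {f : Ω → ℝ} {M : ℝ} (h0 : ∀ x, 0 ≤ f x) (hf : ∀ x, f x ≤ M) :
    var π f ≤ 2 * M * ent π f := by
  rcases eq_or_lt_of_le (h.mean_nonneg h0) with e | e
  · have hz := h.eq_zero_of_mean h0 e.symm
    rw [ent_eq_zero_of_mean h h0 e.symm, mul_zero, var, ← e]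
    refine le_of_eq (sum_eq_zero fun x _ => ?_)
    rw [sub_zero, sq, ← mul_assoc, hz x, zero_mul]
  have h1 : mean π f ≤ M := by simpa [h.mean_const] using h.mean_mono (g := fun _ => M) hf
  rw [ent_eq_brg h, ← mean_const_mul]
  exact h.mean_mono fun x => sq_le_brg (h0 x) e (hf x) h1

theorem le_of_lin {V W M : ℝ}
    (h : ∀ ε : ℝ, 0 < ε → ε * M < 1 → (1 - ε * M) * V ≤ (1 + ε * M) * W) : V ≤ W := by
  have t0 : Tendsto (fun ε : ℝ => ε * M) (𝓝[>] 0) (𝓝 0) := by
    have : Continuous fun ε : ℝ => ε * M := by fun_prop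
    simpa using (this.tendsto 0).mono_left (nhdsWithin_le_nhds (s := Set.Ioi 0))
  have t1 : Tendsto (fun ε : ℝ => (1 - ε * M) * V) (𝓝[>] 0) (𝓝 V) := by
    simpa using (t0.const_sub 1).mul_const V
  have t2 : Tendsto (fun ε : ℝ => (1 + ε * M) * W) (𝓝[>] 0) (𝓝 W) := by
    simpa using (t0.const_add 1).mul_const W
  refine le_of_tendsto_of_tendsto t1 t2 ?_
  filter_upwards [self_mem_nhdsWithin, t0.eventually (gt_mem_nhds one_pos)] with ε h1 h2
  exact h ε h1 h2

theorem exists_abs_le (g : Ω → ℝ) : ∃ M : ℝ, ∀ x, |g x| ≤ M :=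
  ⟨∑ x, |g x|, fun x => single_le_sum (f := fun x => |g x|) (fun _ _ => abs_nonneg _) (mem_univ x)⟩

theorem var_lin (h : IsP π) (g : Ω → ℝ) (ε : ℝ) :
    var π (fun x => 1 + ε * g x) = ε ^ 2 * var π g := by
  rw [← var_smul, ← h.var_add_const (ε • g) 1]
  congr 1; funext x; simp [add_comm]

/-- linearisation: an entropy bound that is quadratic near constants gives a variance bound -/
theorem var_le_of_ent_le (h : IsP π) (g : Ω → ℝ) {W M : ℝ} (hM : ∀ x, |g x| ≤ M)
    (hW : ∀ ε : ℝ, 0 < ε → ε * M < 1 →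
      2 * (1 - ε * M) * ent π (fun x => 1 + ε * g x) ≤ ε ^ 2 * W) : var π g ≤ W := by
  refine le_of_lin (M := M) fun ε hε hεM => ?_
  have b : ∀ x, |ε * g x| ≤ ε * M := fun x => by
    rw [abs_mul, abs_of_pos hε]; exact mul_le_mul_of_nonneg_left (hM x) hε.le
  have h1 := var_le_ent_of_le h (f := fun x => 1 + ε * g x) (M := 1 + ε * M)
    (fun x => by linarith [(abs_le.1 (b x)).1]) fun x => by linarith [(abs_le.1 (b x)).2]
  rw [var_lin h] at h1
  have h2 := hW ε hε hεM
  have hM0 : 0 ≤ ε * M := by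
    obtain ⟨x⟩ : Nonempty Ω := by
      by_contra hn
      have := h.sum1
      rw [not_nonempty_iff] at hn
      simp at this
    exact (abs_nonneg _).trans (b x)
  refine le_of_mul_le_mul_left ?_ (by positivity : 0 < ε ^ 2)
  nlinarith [mul_le_mul_of_nonneg_left h1 (by linarith : 0 ≤ 1 - ε * M),
    mul_le_mul_of_nonneg_left h2 (by linarith : 0 ≤ 1 + ε * M)]

theorem sub_mul_log_le {a b m : ℝ} (hm : 0 < m) (ha : m ≤ a) (hb : m ≤ b) :
    m * ((a - b) * (Real.log a - Real.log b)) ≤ (a - b) * (a - b) := by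
  have key : ∀ a b : ℝ, m ≤ b → b ≤ a →
      m * ((a - b) * (Real.log a - Real.log b)) ≤ (a - b) * (a - b) := by
    intro a b hb h
    have hb0 : 0 < b := hm.trans_le hb
    have h1 := Real.log_le_sub_one_of_pos (div_pos (hb0.trans_le h) hb0)
    have h0 := Real.log_le_log hb0 h
    rw [Real.log_div (hb0.trans_le h).ne' hb0.ne'] at h1
    have h2 := mul_le_mul_of_nonneg_left h1 hb0.le
    have h3 : b * (a / b - 1) = a - b := by field_simp
    have h4 : m * (Real.log a - Real.log b) ≤ a - b := by nlinarith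
    nlinarith [mul_le_mul_of_nonneg_left h4 (sub_nonneg.2 h)]
  rcases le_total b a with h | h
  · exact key a b hb h
  · have := key b a ha h; nlinarith

section chain
variable {c : RC Ω}

theorem D_lin (g : Ω → ℝ) (ε : ℝ) :
    c.D (fun x => 1 + ε * g x) (fun x => 1 + ε * g x) = ε ^ 2 * c.D g g := by
  rw [← c.D_smul, ← c.D_add_const (ε • g) 1]
  congr 1 <;> funext x <;> simp [add_comm]

/-- modified log-Sobolev ⇒ Poincaré -/
theorem MLSI.poincare {K : ℝ} (h : MLSI c K 0) (hK : 0 ≤ K) (g : Ω → ℝ) :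
    var c.π g ≤ 2 * K * c.D g g := by
  obtain ⟨M, hM⟩ := exists_abs_le g
  refine var_le_of_ent_le c.isP g hM fun ε hε hεM => ?_
  have b : ∀ x, 1 - ε * M ≤ 1 + ε * g x := fun x => by
    nlinarith [(abs_le.1 (hM x)).1]
  have h1 := h (fun x => 1 + ε * g x) fun x => by linarith [b x]
  have h2 := D_le_D c (a := 1 - ε * M) (b := 1) (f := fun x => 1 + ε * g x)
    (g := fun x => Real.log (1 + ε * g x)) (u := fun x => 1 + ε * g x) (v := fun x => 1 + ε * g x)
    fun x y => by rw [one_mul]; exact sub_mul_log_le (by linarith) (b x) (b y)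
  rw [D_lin] at h2
  nlinarith [mul_le_mul_of_nonneg_left h1 (by linarith : 0 ≤ 1 - ε * M),
    mul_le_mul_of_nonneg_left h2 hK]

/-- log-Sobolev ⇒ Poincaré -/
theorem LSI.poincare {K : ℝ} (h : LSI c K 0) (hK : 0 ≤ K) (g : Ω → ℝ) :
    var c.π g ≤ K / 2 * c.D g g := by
  have := (h.mlsi hK).poincare (by positivity) g
  linarith

end chain

/-! ### Small support -/

theorem ind_mono {p q : Ω → Prop} (h : ∀ x, p x → q x) (x : Ω) : ind p x ≤ ind q x := by
  by_cases hp : p x
  · rw [ind_pos hp, ind_pos (h x hp)]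
  · rw [ind_neg hp]; exact ind_nonneg _ _

theorem mean_ind_not (h : IsP π) (p : Ω → Prop) :
    mean π (ind fun x => ¬ p x) = 1 - mean π (ind p) := by
  rw [← h.mean_const 1, ← mean_sub']
  refine mean_congr fun x => ?_
  by_cases hp : p x
  · rw [ind_pos hp, ind_neg (p := fun x => ¬ p x) (not_not.2 hp), sub_self]
  · rw [ind_neg hp, ind_pos (p := fun x => ¬ p x) hp, sub_zero]

/-- a function with small support has a large entropy -/
theorem ent_ge_of_supp (h : IsP π) {f : Ω → ℝ} (hf : ∀ x, 0 ≤ f x) {p : Ω → Prop}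
    (hp : ∀ x, f x ≠ 0 → p x) {b : ℝ} (hb : mean π (ind p) ≤ b) :
    Real.log (1 / b) * mean π f ≤ ent π f := by
  rcases eq_or_lt_of_le (h.mean_nonneg hf) with e | e
  · rw [← e, mul_zero]; exact h.ent_nonneg hf
  have h1 := mean_mul_log_le h hf (ind_nonneg p) fun x hx => by
    rw [ind_pos (hp x (right_ne_zero_of_mul hx))]; exact one_ne_zero
  have h2 : mean π (fun x => f x * Real.log (ind p x)) = 0 := by
    rw [← h.mean_const 0]
    refine mean_congr fun x => ?_
    by_cases hx : p x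
    · rw [ind_pos hx, Real.log_one, mul_zero]
    · rw [ind_neg hx, Real.log_zero, mul_zero]
  have h3 : 0 < mean π (ind p) := by
    rcases eq_or_lt_of_le (h.mean_nonneg (ind_nonneg p)) with e' | e'
    · have hz := h.eq_zero_of_mean (ind_nonneg p) e'.symm
      refine absurd (sum_eq_zero fun x _ => ?_ : mean π f = 0) e.ne'
      by_cases hx : f x = 0
      · rw [hx, mul_zero]
      · have := hz x
        rw [ind_pos (hp x hx), mul_one] at this
        rw [this, zero_mul]
    · exact e'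
  have h4 := mul_le_mul_of_nonneg_left (Real.log_le_log h3 hb) e.le
  rw [one_div, Real.log_inv]
  linarith

/-- a function with small support has a large variance -/
theorem var_ge_of_supp (h : IsP π) (f : Ω → ℝ) {p : Ω → Prop} (hp : ∀ x, f x ≠ 0 → p x) {b : ℝ}
    (hb : mean π (ind p) ≤ b) : (1 - b) * mean π (fun x => f x ^ 2) ≤ var π f := by
  have h1 := event_sq_le h f p
  have h2 : mean π (fun x => f x * ind p x) = mean π f := mean_congr fun x => by
    by_cases hx : f x = 0
    · rw [hx, zero_mul]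
    · rw [ind_pos (hp x hx), mul_one]
  have h3 : ip π f f = mean π fun x => f x ^ 2 := mean_congr fun x => (sq _).symm
  rw [h.var_eq, h3]
  rw [h2, h3] at h1
  nlinarith [mul_le_mul_of_nonneg_left hb (h.mean_nonneg fun x => sq_nonneg (f x))]

theorem exists_quantile (h : IsP π) (f : Ω → ℝ) {a : ℝ} (h0 : 0 ≤ a) (h1 : a ≤ 1) :
    ∃ x₀, mean π (ind fun x => f x₀ < f x) ≤ a ∧ a ≤ mean π (ind fun x => f x₀ ≤ f x) := by
  classical
  have hne : Nonempty Ω := by
    by_contra hn
    have := h.sum1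
    rw [not_nonempty_iff] at hn
    simp at this
  obtain ⟨xm, -, hxm⟩ := exists_max_image univ f univ_nonempty
  set S := univ.filter fun y => mean π (ind fun x => f y < f x) ≤ a with hS
  have hm : xm ∈ S := by
    rw [hS, mem_filter]
    refine ⟨mem_univ _, le_trans (le_of_eq ?_) h0⟩
    rw [← h.mean_const 0]
    exact mean_congr fun x => ind_neg (not_lt.2 (hxm x (mem_univ x)))
  obtain ⟨x₀, hx₀, hmin⟩ := exists_min_image S f ⟨xm, hm⟩
  refine ⟨x₀, (mem_filter.1 hx₀).2, ?_⟩
  by_contra hc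
  rw [not_le] at hc
  set T := univ.filter fun y => f y < f x₀ with hT
  rcases T.eq_empty_or_nonempty with e | e
  · have : mean π (ind fun x => f x₀ ≤ f x) = 1 := by
      rw [← h.mean_const 1]
      refine mean_congr fun x => ind_pos (not_lt.1 fun hx => ?_)
      have : x ∈ T := mem_filter.2 ⟨mem_univ _, hx⟩
      rw [e] at this; exact notMem_empty _ this
    linarith
  · obtain ⟨x₁, hx₁, hmax⟩ := exists_max_image T f e
    have : x₁ ∈ S := by
      rw [hS, mem_filter]
      refine ⟨mem_univ _, le_trans (h.mean_mono (ind_mono fun x hx => ?_)) hc.le⟩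
      exact not_lt.1 fun hx' => not_lt.2 (hmax x (mem_filter.2 ⟨mem_univ _, hx'⟩)) hx
    exact not_lt.2 (hmin x₁ this) (mem_filter.1 hx₁).2

/-- the entropy is an expectation against a nonnegative weight with small exponential moment -/
theorem exists_weight (h : IsP π) {F : Ω → ℝ} (hF : ∀ x, 0 ≤ F x) :
    ∃ ψ : Ω → ℝ, (∀ x, 0 ≤ ψ x) ∧ ent π F ≤ mean π (fun x => F x * ψ x) ∧
      mean π (fun x => Real.exp (ψ x)) ≤ 2 ∧ mean π ψ ≤ 1 := by
  rcases eq_or_lt_of_le (h.mean_nonneg hF) with e | e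
  · refine ⟨fun _ => 0, fun _ => le_rfl, ?_, ?_, ?_⟩
    · rw [ent_eq_zero_of_mean h hF e.symm]; simp [h.mean_const]
    · simp [h.mean_const]
    · simp [h.mean_const]
  set V := mean π F with hV
  have hd : mean π (fun x => F x / V) = 1 := by
    simp only [div_eq_mul_inv]; rw [mean_mul_const, mul_inv_cancel₀ e.ne']
  have hexp : ∀ x, Real.exp (max (Real.log (F x / V)) 0) ≤ 1 + F x / V := fun x => by
    have : 0 ≤ F x / V := div_nonneg (hF x) e.le
    rcases le_total (Real.log (F x / V)) 0 with h1 | h1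
    · rw [max_eq_right h1, Real.exp_zero]; linarith
    · rw [max_eq_left h1]
      rcases eq_or_lt_of_le this with h2 | h2
      · rw [← h2]; simp
      · rw [Real.exp_log h2]; linarith
  refine ⟨fun x => max (Real.log (F x / V)) 0, fun x => le_max_right _ _, ?_, ?_, ?_⟩
  · rw [ent_eq, ← mean_mul_const, ← mean_sub']
    refine h.mean_mono fun x => ?_
    rcases eq_or_lt_of_le (hF x) with h2 | h2
    · rw [← h2]; simp
    · rw [← mul_sub, ← Real.log_div h2.ne' e.ne']
      exact mul_le_mul_of_nonneg_left (le_max_left _ _) h2.le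
  · refine (h.mean_mono hexp).trans (le_of_eq ?_)
    rw [mean_add', h.mean_const, hd]; norm_num
  · rw [← hd]
    exact h.mean_mono fun x => by linarith [hexp x, Real.add_one_le_exp (max (Real.log (F x / V)) 0)]

/-! ### Reduction to entropy levels -/

section levels
variable (c : RC Ω)

/-- log-Sobolev inequality for functions `g ≥ 0` whose square has density `≤ 1 / a` and support of
mass `≤ b` -/
def Lev (a b K B : ℝ) : Prop :=
  ∀ g : Ω → ℝ, (∀ x, 0 ≤ g x) → (∀ x, a * g x ^ 2 ≤ mean c.π fun x => g x ^ 2) →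
    mean c.π (ind fun x => 0 < g x) ≤ b →
    ent c.π (fun x => g x ^ 2) ≤ K * c.D g g + B * mean c.π fun x => g x ^ 2

variable {c}

theorem Lev.mono {a b K B a' b' K' B' : ℝ} (h : Lev c a b K B) (ha : a ≤ a') (hb : b' ≤ b)
    (hK : K ≤ K') (hB : B ≤ B') : Lev c a' b' K' B' := fun g hg h1 h2 =>
  (h g hg (fun x => (mul_le_mul_of_nonneg_right ha (sq_nonneg _)).trans (h1 x)) (h2.trans hb)).trans
    (add_le_add (mul_le_mul_of_nonneg_right hK (c.D_nonneg g))
      (mul_le_mul_of_nonneg_right hB (c.isP.mean_nonneg fun _ => sq_nonneg _)))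

theorem LSI.lev {K B : ℝ} (h : LSI c K B) (a b : ℝ) : Lev c a b K B := fun g _ _ _ => h g

theorem supp_sq {g : Ω → ℝ} (hg : ∀ x, 0 ≤ g x) (x : Ω) (hx : g x ^ 2 ≠ 0) : 0 < g x :=
  lt_of_le_of_ne (hg x) fun h => hx (by rw [← h]; ring)

/-- a defect below the entropy of the level is absorbed -/
theorem Lev.absorb {a b K B θ : ℝ} (h : Lev c a b K B) (hθ0 : 0 ≤ θ) (hθ : θ < 1)
    (hB : B ≤ θ * Real.log (1 / b)) : Lev c a b (K / (1 - θ)) 0 := fun g hg h1 h2 => by
  have e1 := h g hg h1 h2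
  have e2 := ent_ge_of_supp c.isP (fun x => sq_nonneg (g x)) (supp_sq hg) h2
  have e3 := mul_le_mul_of_nonneg_right hB (c.isP.mean_nonneg fun x => sq_nonneg (g x))
  rw [zero_mul, add_zero, div_mul_eq_mul_div, le_div_iff₀ (by linarith)]
  nlinarith [mul_le_mul_of_nonneg_left e2 hθ0]

/-- the trivial bound -/
theorem lev_triv {a : ℝ} (ha : 0 < a) (b : ℝ) : Lev c a b 0 (Real.log (1 / a)) := fun g _ h1 _ => by
  rw [zero_mul, zero_add]
  refine ent_le_of_bdd c.isP (fun x => sq_nonneg _) fun x _ => ?_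
  rw [one_div, ← div_eq_inv_mul, le_div_iff₀ ha, mul_comm]; exact h1 x


theorem D_split {f g u : Ω → ℝ} (h : ∀ x y, (g x - g y) ^ 2 + (u x - u y) ^ 2 ≤ (f x - f y) ^ 2) :
    c.D g g + c.D u u ≤ c.D f f := by
  rw [c.D_eq, c.D_eq, c.D_eq, ← mul_add, ← sum_add_distrib]
  refine mul_le_mul_of_nonneg_left (sum_le_sum fun x _ => ?_) (by norm_num)
  rw [← sum_add_distrib]
  refine sum_le_sum fun y _ => ?_
  rw [← mul_add]
  exact mul_le_mul_of_nonneg_left (by nlinarith [h x y]) (mul_nonneg (c.pos x).le (c.nn x y))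

theorem min_max_sq (a b τ : ℝ) :
    (min a τ - min b τ) ^ 2 + (max (a - τ) 0 - max (b - τ) 0) ^ 2 ≤ (a - b) ^ 2 := by
  rcases le_total a τ with h1 | h1 <;> rcases le_total b τ with h2 | h2
  · rw [min_eq_left h1, min_eq_left h2, max_eq_right (by linarith), max_eq_right (by linarith)]
    nlinarith
  · rw [min_eq_left h1, min_eq_right h2, max_eq_right (by linarith), max_eq_left (by linarith)]
    nlinarith
  · rw [min_eq_right h1, min_eq_left h2, max_eq_left (by linarith), max_eq_right (by linarith)]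
    nlinarith
  · rw [min_eq_right h1, min_eq_right h2, max_eq_left (by linarith), max_eq_left (by linarith)]
    nlinarith

theorem levels_aux {a : ℕ → ℝ} {K : ℝ} (hK : 0 ≤ K) {ψ : Ω → ℝ} (hψ : ∀ x, 0 ≤ ψ x)
    (h0 : ∀ x, a 0 < c.π x) (J : ℕ) (ha : ∀ j < J, 0 ≤ a j ∧ a j ≤ 1)
    (hL : ∀ j < J, ∀ g : Ω → ℝ, (∀ x, 0 ≤ g x) →
      (∀ x, a j * g x ^ 2 ≤ mean c.π fun x => g x ^ 2) →
      mean c.π (ind fun x => 0 < g x) ≤ a (j + 1) →
      mean c.π (fun x => g x ^ 2 * ψ x) ≤ K * c.D g g) :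
    ∀ f : Ω → ℝ, (∀ x, 0 ≤ f x) → mean c.π (ind fun x => 0 < f x) ≤ a J →
      mean c.π (fun x => f x ^ 2 * ψ x) ≤ J * K * c.D f f := by
  induction J with
  | zero =>
    intro f hf hs
    have hz : ∀ x, f x = 0 := fun x => by
      by_contra hx
      have h1 : c.π x * ind (fun x => 0 < f x) x ≤ mean c.π (ind fun x => 0 < f x) :=
        single_le_sum (f := fun y => c.π y * ind (fun x => 0 < f x) y)
          (fun y _ => mul_nonneg (c.pos y).le (ind_nonneg _ _)) (mem_univ x)
      rw [ind_pos (p := fun x => 0 < f x) (lt_of_le_of_ne (hf x) (Ne.symm hx)), mul_one] at h1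
      linarith [h0 x]
    simp [hz, c.isP.mean_const]
  | succ J ih =>
    intro f hf hs
    obtain ⟨x₀, q1, q2⟩ := exists_quantile c.isP f (ha J (by omega)).1 (ha J (by omega)).2
    set τ := f x₀ with hτ
    have hτ0 : 0 ≤ τ := hf x₀
    set g : Ω → ℝ := fun x => min (f x) τ with hg
    set u : Ω → ℝ := fun x => max (f x - τ) 0 with hu
    have g0 : ∀ x, 0 ≤ g x := fun x => le_min (hf x) hτ0
    have e1 := hL J (by omega) g g0 (fun x => by
        have b1 : g x ^ 2 ≤ τ ^ 2 := pow_le_pow_left₀ (g0 x) (min_le_right _ _) 2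
        have b2 : τ ^ 2 * mean c.π (ind fun x => τ ≤ f x) ≤ mean c.π fun x => g x ^ 2 := by
          rw [← mean_const_mul]
          refine c.isP.mean_mono fun y => ?_
          by_cases hy : τ ≤ f y
          · rw [ind_pos (p := fun x => τ ≤ f x) hy, mul_one, hg]; simp only [min_eq_right hy, le_refl]
          · rw [ind_neg (p := fun x => τ ≤ f x) hy, mul_zero]; exact sq_nonneg _
        nlinarith [mul_le_mul_of_nonneg_left b1 (ha J (by omega)).1,
          mul_le_mul_of_nonneg_left q2 (sq_nonneg τ)])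
      (le_trans (c.isP.mean_mono (ind_mono fun x hx => hx.trans_le (min_le_left _ _))) hs)
    have e2 := ih (fun j hj => ha j (by omega)) (fun j hj => hL j (by omega)) u
      (fun x => le_max_right _ _)
      (le_trans (c.isP.mean_mono (ind_mono fun x hx => by
        rcases lt_max_iff.1 hx with h | h
        · linarith
        · exact absurd h (lt_irrefl _))) q1)
    have e3 : c.D g g + c.D u u ≤ c.D f f := D_split fun x y => min_max_sq _ _ _
    have hfg : ∀ x, f x = g x + u x := fun x => by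
      simp only [hg, hu]
      rcases le_total (f x) τ with h | h
      · rw [min_eq_left h, max_eq_right (by linarith), add_zero]
      · rw [min_eq_right h, max_eq_left (by linarith)]; ring
    have e4 : mean c.π (fun x => f x ^ 2 * ψ x) = mean c.π (fun x => g x ^ 2 * ψ x) +
        2 * mean c.π (fun x => g x * u x * ψ x) + mean c.π (fun x => u x ^ 2 * ψ x) := by
      rw [← mean_const_mul, ← mean_add', ← mean_add']
      exact mean_congr fun x => by rw [hfg x]; ring
    have e5 : mean c.π (fun x => g x * u x * ψ x) ^ 2 ≤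
        mean c.π (fun x => g x ^ 2 * ψ x) * mean c.π (fun x => u x ^ 2 * ψ x) := by
      have := c.isP.ip_sq_le (fun x => g x * Real.sqrt (ψ x)) (fun x => u x * Real.sqrt (ψ x))
      have k : ∀ v w : Ω → ℝ, ip c.π (fun x => v x * Real.sqrt (ψ x)) (fun x => w x * Real.sqrt (ψ x))
          = mean c.π fun x => v x * w x * ψ x := fun v w => mean_congr fun x => by
        have := Real.mul_self_sqrt (hψ x)
        calc v x * Real.sqrt (ψ x) * (w x * Real.sqrt (ψ x)) =
            v x * w x * (Real.sqrt (ψ x) * Real.sqrt (ψ x)) := by ring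
          _ = _ := by rw [this]
      simpa only [k, ← sq] using this
    have p1 := c.D_nonneg g
    have p2 := c.D_nonneg u
    have p3 : 0 ≤ mean c.π (fun x => u x ^ 2 * ψ x) :=
      c.isP.mean_nonneg fun x => mul_nonneg (sq_nonneg _) (hψ x)
    have hJ : (0 : ℝ) ≤ J := Nat.cast_nonneg J
    have e6 : mean c.π (fun x => g x * u x * ψ x) ≤ K * (J * c.D g g + c.D u u) / 2 := by
      refine (abs_le_of_sq_le_sq' (e5.trans ?_) (by positivity)).2
      refine (mul_le_mul e1 e2 p3 (by positivity)).trans ?_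
      nlinarith [sq_nonneg (K * (J * c.D g g - c.D u u))]
    push_cast
    nlinarith [mul_le_mul_of_nonneg_left e3 (by positivity : 0 ≤ ((J : ℝ) + 1) * K)]

/-- **Reduction to entropy levels.** Levels `a 0 < π_min`, `a j ≤ 1/2`, `a J = 1/2`. -/
theorem LSI.of_levels {a : ℕ → ℝ} {J : ℕ} {K : ℝ} (hK : 0 ≤ K) (h0 : ∀ x, a 0 < c.π x)
    (ha : ∀ j ≤ J, 0 ≤ a j ∧ a j ≤ 1 / 2) (hJ : a J = 1 / 2)
    (hL : ∀ j < J, Lev c (a j) (a (j + 1)) K 0) : LSI c (10 * J * K) 0 := by
  intro f
  obtain ⟨ψ, ψ0, ψ1, ψ2, ψ3⟩ := exists_weight c.isP (F := fun x => (f x - mean c.π f) ^ 2)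
    fun x => sq_nonneg _
  have key := levels_aux (a := a) (K := 5 * K) (by positivity) (ψ := fun x => ψ x + 2)
    (fun x => by linarith [ψ0 x]) h0 J
    (fun j hj => ⟨(ha j hj.le).1, by linarith [(ha j hj.le).2]⟩) fun j hj g hg h1 h2 => by
      have e1 := hL j hj g hg h1 h2
      have e2 := ent_ge_of_supp c.isP (fun x => sq_nonneg (g x)) (supp_sq hg)
        (h2.trans (ha (j + 1) hj).2)
      have e3 := c.isP.mean_mul_le_ent (fun x => sq_nonneg (g x)) ψ
      have e4 := mul_le_mul_of_nonneg_left (Real.log_le_log (mean_exp_pos c.isP ψ) ψ2)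
        (c.isP.mean_nonneg fun x => sq_nonneg (g x))
      have e5 : mean c.π (fun x => g x ^ 2 * (ψ x + 2)) =
          ip c.π (fun x => g x ^ 2) ψ + 2 * mean c.π fun x => g x ^ 2 := by
        rw [ip_eq_mean, ← mean_const_mul, ← mean_add']; exact mean_congr fun x => by ring
      have e6 := Real.log_two_gt_d9
      have e7 : 0 ≤ mean c.π fun x => g x ^ 2 := c.isP.mean_nonneg fun x => sq_nonneg _
      rw [one_div_one_div] at e2
      nlinarith
  obtain ⟨x₀, q1, q2⟩ := exists_quantile c.isP f (a := 1 / 2) (by norm_num) (by norm_num)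
  set τ := f x₀ with hτ
  have k1 := key (fun x => max (f x - τ) 0) (fun x => le_max_right _ _) (by
    rw [hJ]
    refine le_trans (c.isP.mean_mono (ind_mono fun x hx => ?_)) q1
    rcases lt_max_iff.1 hx with h | h
    · linarith
    · exact absurd h (lt_irrefl _))
  have k2 := key (fun x => τ - min (f x) τ) (fun x => sub_nonneg.2 (min_le_right _ _)) (by
    rw [hJ]
    have := mean_ind_not c.isP fun x => τ ≤ f x
    refine le_trans (c.isP.mean_mono (ind_mono (q := fun x => ¬ τ ≤ f x) fun x hx h => ?_))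
      (by linarith)
    rw [min_eq_right h, sub_self] at hx; exact lt_irrefl _ hx)
  have k3 : c.D (fun x => τ - min (f x) τ) (fun x => τ - min (f x) τ) +
      c.D (fun x => max (f x - τ) 0) (fun x => max (f x - τ) 0) ≤ c.D f f :=
    D_split fun x y => by nlinarith [min_max_sq (f x) (f y) τ]
  have k4 : mean c.π (fun x => (f x - τ) ^ 2 * (ψ x + 2)) =
      mean c.π (fun x => max (f x - τ) 0 ^ 2 * (ψ x + 2)) +
      mean c.π (fun x => (τ - min (f x) τ) ^ 2 * (ψ x + 2)) := by
    rw [← mean_add']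
    refine mean_congr fun x => ?_
    rcases le_total (f x) τ with h | h
    · rw [min_eq_left h, max_eq_right (by linarith)]; ring
    · rw [min_eq_right h, max_eq_left (by linarith)]; ring
  have k5 := rothaus c.isP f
  have k6 : var c.π f ≤ mean c.π fun x => (f x - τ) ^ 2 := c.isP.var_le_sq f τ
  have k7 : (mean c.π f - τ) ^ 2 ≤ mean c.π fun x => (f x - τ) ^ 2 := by
    have := c.isP.mean_sq_le fun x => f x - τ
    rw [mean_sub', c.isP.mean_const] at this
    exact this.trans (le_of_eq (mean_congr fun x => (sq _).symm))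
  have k8 : mean c.π (fun x => (f x - mean c.π f) ^ 2 * ψ x) ≤
      2 * mean c.π (fun x => (f x - τ) ^ 2 * ψ x) + 2 * (mean c.π f - τ) ^ 2 * mean c.π ψ := by
    rw [← mean_const_mul, ← mean_const_mul, ← mean_add']
    refine c.isP.mean_mono fun x => ?_
    nlinarith [mul_nonneg (sq_nonneg (f x - τ + (mean c.π f - τ))) (ψ0 x)]
  have k9 : mean c.π (fun x => (f x - τ) ^ 2 * (ψ x + 2)) =
      mean c.π (fun x => (f x - τ) ^ 2 * ψ x) + 2 * mean c.π fun x => (f x - τ) ^ 2 := by
    rw [← mean_const_mul, ← mean_add']; exact mean_congr fun x => by ring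
  have k10 := mul_le_mul_of_nonneg_left ψ3 (sq_nonneg (mean c.π f - τ))
  have k11 := mul_le_mul_of_nonneg_left k3 (by positivity : 0 ≤ (J : ℝ) * (5 * K))
  linarith


end levels

end Crest.Agent.T157.Ent
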