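import Crest.Agent.T157.TrB_64
import Crest.Agent.T157.EntD_34
import Crest.Agent.T157.ChainDec_22

-- ▼ part T157/Q1B_63
section

/-!
# Row 157, part C (helper63): entropy production along stochastic localisation at one level

Early times by the two-replica exponential moment; the window by the submartingale
`√(u² + c(r)² |v|²)`, `u = μ_r f`, `v = Cov_r (f, φ)`.
-/

set_option autoImplicit false
set_option linter.unusedSectionVars false

noncomputable section

namespace Crest.Agent.T157.Q1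

open MeasureTheory ProbabilityTheory Filter Topology Set Real Matrix
open Crest.Agent.T157.SL Crest.Agent.T157.E Crest.Agent.T157.Tr

variable {Ω : Type*} [Fintype Ω] {ι : Type} [Fintype ι] [DecidableEq ι] {φ : Ω → ι → ℝ}
  {v w f g : Ω → ℝ} {I : Set ℝ} {s t T : ℝ}

/-! ### early times -/

/-- exponential moment of the overlap of two replicas -/
def XX (φ : Ω → ι → ℝ) (v : Ω → ℝ) (θ : ℝ) : ℝ :=
  mean v fun x => mean v fun x' => exp (θ * (φ x ⬝ᵥ φ x'))

/-- half the entropy production -/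
def J2 (φ : Ω → ι → ℝ) (w f : Ω → ℝ) : ℝ → ℝ := ex φ w fun p =>
  covV (pw φ w p) f φ ⬝ᵥ covV (pw φ w p) f φ / (2 * mean (pw φ w p) f)

theorem exp_mean_le (hv : Wt v) (K : ℝ) : exp (K * (meanV v φ ⬝ᵥ meanV v φ)) ≤ XX φ v K := by
  set b := K * (meanV v φ ⬝ᵥ meanV v φ) with hb
  have e : mean v (fun x => mean v fun x' => exp b * (1 - b) + exp b * K * (φ x ⬝ᵥ φ x')) =
      exp b := by
    simp only [mean_add, hv.mean_const, mean_const_mul, ← meanV_dot]
    simp only [dotProduct_comm _ (meanV v φ), ← meanV_dot]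
    rw [mul_assoc, ← hb]; ring
  rw [← e]
  refine hv.mean_mono fun x => hv.mean_mono fun x' => ?_
  have := mul_le_mul_of_nonneg_left (add_one_le_exp (K * (φ x ⬝ᵥ φ x') - b)) (exp_pos b).le
  rw [← exp_add, add_sub_cancel] at this
  linarith

theorem eg_exp_md (hw : Wt w) (K : ℝ) :
    EG I fun p => exp (K * ∑ i, md φ w i p ^ 2) := by
  refine EG.exp (EG.const_mul K (EG.sum _ fun i _ => (eg_md hw i).pow 2)).cont
    (|K| * ∑ i, (∑ x, |φ x i|) ^ 2) 0 fun p _ => ?_
  rw [zero_mul, add_zero]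
  refine mul_le_mul (le_abs_self K) (Finset.sum_le_sum fun i _ => ?_)
    (Finset.sum_nonneg fun _ _ => sq_nonneg _) (abs_nonneg K)
  exact sq_le_sq' (abs_le.1 ((hw.post φ p.1 p.2).abs_mean_le fun x => Finset.single_le_sum
    (f := fun x => |φ x i|) (fun _ _ => abs_nonneg _) (Finset.mem_univ x))).1
    (abs_le.1 ((hw.post φ p.1 p.2).abs_mean_le fun x => Finset.single_le_sum
    (f := fun x => |φ x i|) (fun _ _ => abs_nonneg _) (Finset.mem_univ x))).2

theorem mg_post (v : Ω → ℝ) (s : ℝ) (x : Ω) : MG fun z : ι → ℝ => post φ v s (√s • z) x := by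
  simpa using ((eg_pw (φ := φ) (Metric.isBounded_Icc s s) v x).mg (left_mem_Icc.2 le_rfl)).affine 0 √s

theorem int_post_post (hs : 0 ≤ s) (x x' : Ω) :
    ∫ z, post φ v s (√s • z) x * post φ v s (√s • z) x' ∂Gs ι =
      v x * v x' * exp (s * (φ x ⬝ᵥ φ x')) := by
  have := cm (√s • φ x + √s • φ x') fun _ => (1 : ℝ)
  simp only [integral_const, probReal_univ, smul_eq_mul, mul_one] at this
  rw [← mul_one (v x * v x' * _), this, ← integral_const_mul]
  congr 1; ext z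
  rw [post_sqrt hs, post_sqrt hs, mul_mul_mul_comm, mul_assoc (v x * v x'), ← exp_add, ← exp_add]
  congr 2
  simp only [add_dotProduct, dotProduct_add, smul_dotProduct, dotProduct_smul, smul_eq_mul,
    dotProduct_comm (φ x') (φ x)]
  ring_nf
  simp only [sq_sqrt hs]
  ring

/-- Jensen's inequality for the posterior mean (helper87's argument) -/
theorem ex_exp_md (hv : Wt v) (hs : 0 ≤ s) (K : ℝ) :
    ex φ v (fun p => exp (K / 2 * ∑ i, md φ v i p ^ 2)) s ≤ (1 + XX φ v (s + K)) / 2 := by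
  have hV := hv.pos
  have m := (eg_exp_md (φ := φ) (I := univ) hv (K / 2)).mg (mem_univ s)
  have i2 : ∀ x x', Integrable (fun z => post φ v s (√s • z) x * post φ v s (√s • z) x' *
      exp (K * (φ x ⬝ᵥ φ x'))) (Gs ι) := fun x x' =>
    ((mg_post v s x).mul (mg_post v s x')).int.mul_const _
  have i3 : Integrable (fun z => ∑ x, ∑ x', post φ v s (√s • z) x * post φ v s (√s • z) x' *
      exp (K * (φ x ⬝ᵥ φ x'))) (Gs ι) :=
    integrable_finsetSum _ fun x _ => integrable_finsetSum _ fun x' _ => i2 x x'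
  have e0 : ∀ (u : Ω → ℝ) (θ : ℝ), Wt u → XX φ u θ * ((∑ x, u x) * ∑ x, u x) =
      ∑ x, ∑ x', u x * u x' * exp (θ * (φ x ⬝ᵥ φ x')) := fun u θ hu => by
    have := hu.pos.ne'
    simp only [XX, mean_eq_div, ← mul_div_assoc, ← Finset.sum_div, mul_assoc, ← Finset.mul_sum]
    field_simp
  have e1 : (∑ x, v x) * ((1 + XX φ v (s + K)) / 2) = ∫ z, ((∑ x, v x) / 2 + (2 * ∑ x, v x)⁻¹ *
      ∑ x, ∑ x', post φ v s (√s • z) x * post φ v s (√s • z) x' * exp (K * (φ x ⬝ᵥ φ x'))) ∂Gs ι := by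
    rw [integral_add (integrable_const _) (i3.const_mul _), integral_const_mul,
      integral_finsetSum _ fun x _ => integrable_finsetSum _ fun x' _ => i2 x x',
      Finset.sum_congr rfl fun x _ => integral_finsetSum _ fun x' _ => i2 x x']
    simp only [integral_mul_const, int_post_post hs, integral_const, probReal_univ, one_smul,
      mul_assoc (v _ * v _), ← exp_add, ← add_mul, ← e0 v _ hv]
    field_simp
  rw [ex, slE_eq_ref' hs (.of_mg fun _ => m), div_le_iff₀' hV, e1]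
  refine integral_mono (integrable_finsetSum _ fun x _ => (SInt.of_mg fun _ => m).post hs v x)
    ((integrable_const _).add (i3.const_mul _)) fun z => ?_
  have hu := hv.post φ s (√s • z)
  have h1 := mul_le_mul_of_nonneg_right (exp_mean_le (φ := φ) hu K) (mul_pos hu.pos hu.pos).le
  simp only [← Finset.sum_mul, ← e0 _ _ hu]
  set Z := ∑ x, post φ v s (√s • z) x
  set F := exp (K / 2 * ∑ i, md φ v i (s, √s • z) ^ 2) with hF
  have e2 : F * F = exp (K * (meanV (post φ v s (√s • z)) φ ⬝ᵥ meanV (post φ v s (√s • z)) φ)) := by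
    rw [hF, ← exp_add, ← add_mul, add_halves]
    simp only [md, sq, dotProduct]
  rw [← e2] at h1
  refine le_trans ?_ (add_le_add le_rfl (mul_le_mul_of_nonneg_left h1 (by positivity)))
  rw [← sub_nonneg]
  have : (∑ x, v x) / 2 + (2 * ∑ x, v x)⁻¹ * (F * F * (Z * Z)) - Z * F =
      (2 * ∑ x, v x)⁻¹ * ((∑ x, v x) - Z * F) ^ 2 := by field_simp; ring
  rw [this]; positivity

theorem ex_le_of_exp (hv : Wt v) {G : Pt ι → ℝ} (h : MG fun y => G (t, y))
    (h' : MG fun y => exp (G (t, y))) {a : ℝ} (ha : ex φ v (fun p => exp (G p)) t ≤ exp a) :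
    ex φ v G t ≤ a := by
  have := ex_mono (φ := φ) (G := G) (H := fun p => (a - 1) + exp (-a) * exp (G p)) hv h
    ((MG.const _).add (h'.const_mul _)) fun y => by
      rw [← exp_add]; linarith [add_one_le_exp (-a + G (t, y))]
  rw [ex_add (G := fun _ => a - 1) (MG.const _) (h'.const_mul _), ex_const hv, ex_const_mul] at this
  have h2 := mul_le_mul_of_nonneg_left ha (exp_pos (-a)).le
  rw [← exp_add, neg_add_cancel, exp_zero] at h2
  linarith

/-- the entropy production at early times -/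
theorem early (hw : Wt w) (hf : ∀ x, 0 ≤ f x) (h1 : mean w f = 1) {A L θ : ℝ} (hA : 0 ≤ A)
    (hL : 0 ≤ L) (hM : ∀ x, f x ≤ exp A) (hX : XX φ w θ ≤ exp L) (hs : 0 ≤ s) (hθ : s < θ) :
    J2 φ w f s ≤ 2 * (3 * A + 2 * L) / (θ - s) := by
  have h0 : 0 < mean w f := h1 ▸ one_pos
  have hv := hw.mul hf h0
  set v := fun x => w x * f x with hvd
  have hK : 0 < θ - s := sub_pos.2 hθ
  have sq : ∀ {u : Ω → ℝ}, Wt u → EG univ fun p : Pt ι => (θ - s) / 2 * ∑ i, md φ u i p ^ 2 :=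
    fun hu => (EG.sum _ fun i _ => (eg_md hu i).pow 2).const_mul _
  have one : ∀ a : ℝ, 0 ≤ a → ∀ X ≤ exp a, (1 + X) / 2 ≤ exp a := fun a ha X hX => by
    linarith [one_le_exp ha]
  have x1 : XX φ v θ ≤ exp (2 * A + L) := by
    simp only [XX, hvd, mean_mul_weight _ _ _ hw.pos.ne', h1, div_one]
    refine le_trans (hw.mean_mono (g := fun x => exp A * exp A * mean w fun x' =>
      exp (θ * (φ x ⬝ᵥ φ x'))) fun x => ?_) ?_
    · rw [mul_assoc, ← mean_const_mul _ _ (exp A)]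
      exact mul_le_mul (hM x) (hw.mean_mono fun x' => mul_le_mul_of_nonneg_right (hM x')
        (exp_pos _).le) (hw.mean_nonneg fun x' => mul_nonneg (hf x') (exp_pos _).le) (exp_pos _).le
    · rw [mean_const_mul, two_mul, exp_add, exp_add]
      exact mul_le_mul_of_nonneg_left hX (by positivity)
  have a1 := ex_le_of_exp (φ := φ) hv ((sq hv).mg (mem_univ s))
    ((eg_exp_md (I := univ) hv _).mg (mem_univ s)) (a := 2 * A + L)
    ((ex_exp_md hv hs _).trans (one _ (by linarith) _ (by rwa [add_sub_cancel])))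
  have m := (eg_exp_md (φ := φ) (I := univ) hw ((θ - s) / 2)).mg (mem_univ s)
  have a2 := ex_le_of_exp (φ := φ) hv ((sq hw).mg (mem_univ s)) m (a := A + L) (by
    rw [hvd, ex_mul_weight (G := fun p => exp ((θ - s) / 2 * ∑ i, md φ w i p ^ 2)) hw hs f m, h1,
      div_one, exp_add]
    refine le_trans (ex_mono (H := fun p => exp A * exp ((θ - s) / 2 * ∑ i, md φ w i p ^ 2)) hw
      (((eg_mean hw f).mg (mem_univ s)).mul m) (m.const_mul _) fun y =>
        mul_le_mul_of_nonneg_right ((hw.post _ _ _).mean_le hM) (exp_pos _).le) ?_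
    rw [ex_const_mul]
    exact mul_le_mul_of_nonneg_left ((ex_exp_md hw hs _).trans
      (one _ hL _ (by rwa [add_sub_cancel]))) (exp_pos _).le)
  have e := ex_md_sq (φ := φ) hw hf h0 hvd hs
  rw [h1, div_one] at e
  rw [J2, ← e, le_div_iff₀' hK, ← ex_const_mul]
  refine le_trans (ex_mono (H := fun p => 2 * ((θ - s) / 2 * ∑ i, md φ v i p ^ 2) +
    2 * ((θ - s) / 2 * ∑ i, md φ w i p ^ 2)) hv ((((EG.sum _ fun i _ => ((eg_md hv i).sub
      (eg_md hw i)).pow 2).div_const 2).const_mul _).mg (mem_univ s))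
    ((((sq hv).const_mul 2).add ((sq hw).const_mul 2)).mg (mem_univ s)) fun y => ?_) ?_
  · have : ∑ i, (md φ v i (s, y) - md φ w i (s, y)) ^ 2 ≤
        2 * ∑ i, md φ v i (s, y) ^ 2 + 2 * ∑ i, md φ w i (s, y) ^ 2 := by
      rw [Finset.mul_sum, Finset.mul_sum, ← Finset.sum_add_distrib]
      exact Finset.sum_le_sum fun i _ => by nlinarith [sq_nonneg (md φ v i (s, y) + md φ w i (s, y))]
    nlinarith
  · rw [ex_add (((sq hv).const_mul 2).mg (mem_univ s)) (((sq hw).const_mul 2).mg (mem_univ s)),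
      ex_const_mul 2, ex_const_mul 2]
    linarith

/-! ### the norm of a vector of Itô processes -/

theorem ito_norm {κ : Type*} [Fintype κ] {d : ι → Pt ι → ℝ} {Z a : κ → Pt ι → ℝ}
    {b : κ → ι → Pt ι → ℝ} (h : ∀ k, Ito d I (Z k) (a k) (b k))
    (h0 : ∀ p : Pt ι, p.1 ∈ I → 0 < ∑ k, Z k p * Z k p)
    (e : EG I fun p => (√(∑ k, Z k p * Z k p))⁻¹) :
    ∃ A B, Ito d I (fun p => √(∑ k, Z k p * Z k p)) A B ∧
      ∀ p : Pt ι, p.1 ∈ I → (∑ k, Z k p * a k p) / √(∑ k, Z k p * Z k p) ≤ A p := by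
  have hG := Ito.sum Finset.univ fun k _ => (h k).mul (h k)
  refine ⟨_, _, hG.comp (φ := fun x => √x) (φ' := fun x => (√x)⁻¹ / 2)
    (φ'' := fun x => -(√x)⁻¹ ^ 3 / 4) (fun p hp => ?_) (fun p hp => ?_) ?_ (e.div_const 2)
    ((e.pow 3).neg.div_const 4), fun p hp => ?_⟩
  · exact (hasDerivAt_sqrt (h0 p hp).ne').congr_deriv (by ring)
  · have := (sqrt_pos.2 (h0 p hp)).ne'
    exact (((hasDerivAt_sqrt (h0 p hp).ne').inv this).div_const 2).congr_deriv (by field_simp; ring)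
  · refine ((EG.const 1).add hG.eg).of_le hG.eg.cont.sqrt fun p hp => ?_
    have := h0 p hp
    rw [abs_of_nonneg (sqrt_nonneg _), abs_of_nonneg (by positivity), sqrt_le_left (by positivity)]
    nlinarith
  · have h1 := h0 p hp
    have h2 := sqrt_pos.2 h1
    have h3 := mul_self_sqrt h1.le
    have cs : ∑ i, (∑ k, (b k i p * Z k p + Z k p * b k i p)) ^ 2 ≤
        4 * ((∑ k, Z k p * Z k p) * ∑ k, ∑ i, b k i p * b k i p) := by
      rw [Finset.sum_comm, Finset.mul_sum, Finset.mul_sum]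
      refine Finset.sum_le_sum fun i _ => ?_
      have := Finset.sum_mul_sq_le_sq_mul_sq Finset.univ (fun k => Z k p) fun k => b k i p
      simp only [mul_comm (b _ i p) (Z _ p), Finset.sum_add_distrib, ← sq] at this ⊢
      nlinarith
    simp only [Finset.sum_add_distrib, mul_comm (a _ p) (Z _ p)] at cs ⊢
    set S := √(∑ k, Z k p * Z k p)
    rw [← h3] at cs
    have h4 := mul_le_mul_of_nonneg_left cs (by positivity : 0 ≤ S⁻¹ ^ 3 / 8)
    have h5 : S⁻¹ ^ 3 / 8 * (4 * (S * S * ∑ k, ∑ i, b k i p * b k i p)) =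
        S⁻¹ / 2 * ∑ k, ∑ i, b k i p * b k i p := by field_simp; ring
    rw [h5] at h4
    rw [div_eq_inv_mul]
    linarith

theorem eg_time {a b : ℝ} {k : ℝ → ℝ} (hk : ContinuousOn k (Icc a b)) :
    EG (Icc a b) fun p : Pt ι => k p.1 := by
  obtain ⟨C, hC⟩ := isCompact_Icc.exists_bound_of_continuousOn hk
  exact EG.time hk C hC

/-- the functional `√(u² + c² |v|²)` -/
def Nf (φ : Ω → ι → ℝ) (w f : Ω → ℝ) (c : ℝ) (p : Pt ι) : ℝ :=
  √(mean (pw φ w p) f ^ 2 + c ^ 2 * (vv φ w f p ⬝ᵥ vv φ w f p))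

theorem mean_le_Nf (c : ℝ) (p : Pt ι) : mean (pw φ w p) f ≤ Nf φ w f c p :=
  le_sqrt_of_sq_le (le_add_of_nonneg_right (mul_nonneg (sq_nonneg c) (dot_self_nonneg _)))

theorem eg_Nf (hw : Wt w) {c : ℝ → ℝ} (hc : EG I fun p : Pt ι => c p.1) :
    EG I fun p => Nf φ w f (c p.1) p := by
  have e := ((eg_mean (φ := φ) (I := I) hw f).pow 2).add ((hc.pow 2).mul
    (eg_covV_dot (φ := φ) hw f f))
  refine ((EG.const 1).add e).of_le e.cont.sqrt fun p _ => ?_
  have : 0 ≤ mean (pw φ w p) f ^ 2 + c p.1 ^ 2 * (vv φ w f p ⬝ᵥ vv φ w f p) :=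
    add_nonneg (sq_nonneg _) (mul_nonneg (sq_nonneg _) (dot_self_nonneg _))
  rw [Nf, abs_of_nonneg (sqrt_nonneg _)]
  refine le_trans ?_ (le_abs_self _)
  rw [sqrt_le_left (by unfold vv at this; linarith)]
  unfold vv at this ⊢
  nlinarith

/-- **the submartingale**; `k r` bounds the covariance off the bad event `A r` -/
theorem transport (hw : Wt w) (hf : ∀ x, 0 ≤ f x) (h0 : 0 < mean w f) (hs : 0 ≤ s) (hst : s ≤ T)
    {c k ε : ℝ → ℝ} (hc : ContinuousOn c (Icc s T)) (hk : ContinuousOn k (Icc s T))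
    (hε : ContinuousOn ε (Icc s T)) (dc : ∀ r ∈ Ioo s T, HasDerivAt c (k r * c r) r)
    (k0 : ∀ r ∈ Icc s T, 0 ≤ k r) (ε0 : ∀ r ∈ Icc s T, 0 ≤ ε r) {χ : Pt ι → ℝ}
    (hχ : ∀ r, MG fun y => χ (r, y)) (χ0 : ∀ p, 0 ≤ χ p)
    (good : ∀ p : Pt ι, p.1 ∈ Ioo s T → χ p < 1 → ∀ u,
      u ⬝ᵥ covMat (pw φ w p) φ *ᵥ u ≤ k p.1 * (u ⬝ᵥ u))
    (bad : ∀ r ∈ Ioo s T, c r ^ 2 * ex φ w (fun p => χ p * (vv φ w f p ⬝ᵥ
      covMat (pw φ w p) φ *ᵥ vv φ w f p / mean (pw φ w p) f)) r ≤ ε r) :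
    ex φ w (Nf φ w f (c s)) s ≤ ex φ w (Nf φ w f (c T)) T + ∫ r in s..T, ε r := by
  have pos := fun p : Pt ι => hw.mean_post_pos hf h0 φ p.1 p.2
  have ic : Ito (md φ w) (Ioo s T) (fun p => c p.1) (fun p => k p.1 * c p.1) fun _ _ => 0 :=
    Ito.time (f' := fun r => k r * c r) dc ((eg_time hc).mono Ioo_subset_Icc_self)
      ((eg_time (hk.mul hc)).mono Ioo_subset_Icc_self)
  have e0 : ∀ p : Pt ι, ∑ o : Option ι, (o.elim (mean (pw φ w p) f) fun j => c p.1 * vv φ w f p j) *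
      (o.elim (mean (pw φ w p) f) fun j => c p.1 * vv φ w f p j) =
      mean (pw φ w p) f ^ 2 + c p.1 ^ 2 * (vv φ w f p ⬝ᵥ vv φ w f p) := fun p => by
    simp only [Fintype.sum_option, Option.elim, dotProduct, Finset.mul_sum, sq]
    exact congrArg _ (Finset.sum_congr rfl fun j _ => by ring)
  have ei := eg_inv_mean (φ := φ) (Metric.isBounded_Ioo s T) hw hf h0
  have en := eg_Nf (φ := φ) (f := f) hw (eg_time (ι := ι) hc)
  obtain ⟨A, B, hI, hA⟩ := ito_norm (d := md φ w) (I := Ioo s T) (κ := Option ι)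
    (Z := fun o p => o.elim (mean (pw φ w p) f) fun j => c p.1 * vv φ w f p j)
    (a := fun o p => o.elim 0 fun j => k p.1 * c p.1 * vv φ w f p j -
      c p.1 * (covMat (pw φ w p) φ *ᵥ vv φ w f p) j)
    (b := fun o i p => o.elim (vv φ w f p i) fun j =>
      c p.1 * cum3 (pw φ w p) f (fun x => φ x j) fun x => φ x i)
    (fun o => by
      cases o with
      | none => exact ito_mean hw f
      | some j =>
        refine (ic.mul (ito_cov hw f fun x => φ x j)).congr (fun p _ => ?_) fun i p _ => by simp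
        simp only [Option.elim, zero_mul, Finset.sum_const_zero, add_zero, vv, mulVec,
          dotProduct_comm (covV (pw φ w p) f φ)]
        exact (sub_eq_add_neg _ _).trans (by rw [mul_neg]; rfl))
    (fun p _ => by
      rw [e0]; exact add_pos_of_pos_of_nonneg (pow_pos (pos p) 2)
        (mul_nonneg (sq_nonneg _) (dot_self_nonneg _)))
    (by
      simp only [e0]
      refine ei.of_le ((en.mono Ioo_subset_Icc_self).cont.inv₀ fun p _ =>
        ((pos p).trans_le (mean_le_Nf _ p)).ne') fun p _ => ?_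
      rw [abs_of_nonneg (inv_nonneg.2 (sqrt_nonneg _)), abs_of_pos (inv_pos.2 (pos p))]
      exact inv_anti₀ (pos p) (mean_le_Nf _ p))
  simp only [e0] at hI hA
  have := hI.ex_lower (φ := φ) hw hs hst en (κ := fun _ => 0) continuousOn_const hε
    (fun _ _ => le_rfl) ε0 fun r hr => by
      rw [zero_mul, neg_zero, zero_sub]
      refine le_trans (neg_le_neg (bad r hr)) ?_
      rw [← ex_const_mul, ← ex_neg]
      refine ex_mono hw (((hχ r).mul ?_).const_mul _).neg ((hI.eg_a fun i => eg_md hw i).mg hr)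
        fun y => le_trans ?_ (hA (r, y) hr)
      · exact ((eg_dot (fun j => eg_vv hw f j) fun j => eg_dot (fun l => eg_cov hw _ _)
          fun l => eg_vv hw f l).mul ei).mg hr
      · have q0 := (hw.post φ r y).covMat_quad_nonneg φ (vv φ w f (r, y))
        have e1 : ∑ o : Option ι, (o.elim (mean (pw φ w (r, y)) f) fun j => c r * vv φ w f (r, y) j) *
            (o.elim 0 fun j => k r * c r * vv φ w f (r, y) j -
              c r * (covMat (pw φ w (r, y)) φ *ᵥ vv φ w f (r, y)) j) =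
            c r ^ 2 * (k r * (vv φ w f (r, y) ⬝ᵥ vv φ w f (r, y)) -
              vv φ w f (r, y) ⬝ᵥ covMat (pw φ w (r, y)) φ *ᵥ vv φ w f (r, y)) := by
          simp only [Fintype.sum_option, Option.elim, mul_zero, zero_add, dotProduct, Finset.mul_sum,
            ← Finset.sum_sub_distrib]
          exact Finset.sum_congr rfl fun j _ => by ring
        rw [e1]
        have u0 := pos (r, y)
        have n0 := u0.trans_le (mean_le_Nf (c r) (r, y))
        rcases lt_or_ge (χ (r, y)) 1 with h | h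
        · exact le_trans (neg_nonpos.2 (mul_nonneg (sq_nonneg _) (mul_nonneg (χ0 _)
            (div_nonneg q0 u0.le)))) (div_nonneg (mul_nonneg (sq_nonneg _)
            (sub_nonneg.2 (good (r, y) hr h _))) (sqrt_nonneg _))
        · rw [mul_div_assoc, ← mul_neg]
          refine mul_le_mul_of_nonneg_left ?_ (sq_nonneg _)
          rw [sub_div]
          have b1 := div_nonneg (mul_nonneg (k0 r (Ioo_subset_Icc_self hr))
            (dot_self_nonneg (vv φ w f (r, y)))) n0.le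
          have b2 := div_le_div_of_nonneg_left q0 u0 (mean_le_Nf (c r) (r, y))
          have b3 := le_mul_of_one_le_left (div_nonneg q0 u0.le) h
          unfold Nf at b1 b2
          linarith
  simp only [intervalIntegral.integral_zero, exp_zero, one_mul] at this
  exact this

end Crest.Agent.T157.Q1

end
end

-- ▼ part T157/Q1A_63
section

/-!
# Row 157, part C (helper63): from entropy levels to the spectral profile and to kernel bounds
-/

set_option autoImplicit false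
set_option linter.unusedSectionVars false

namespace Crest.Agent.T157.Q1

open Finset Matrix Chain22 Crest.Agent.T157.Ent Real

variable {Ω : Type*} [Fintype Ω] (c : RC Ω)

/-- small-set Poincaré inequality at the level `H` -/
def SPc (H lam : ℝ) : Prop := ∀ g : Ω → ℝ, (∀ x, 0 ≤ g x) →
  (∀ x, g x ^ 2 ≤ exp (2 * H) * mean c.π fun x => g x ^ 2) →
  mean c.π (ind fun x => 0 < g x) ≤ exp (-H) → lam * mean c.π (fun x => g x ^ 2) ≤ c.D g g

/-- spectral profile -/
def Prof (H S : ℝ) : Prop := ∀ g : Ω → ℝ, (∀ x, 0 ≤ g x) →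
  mean c.π (ind fun x => 0 < g x) ≤ exp (-H) → mean c.π (fun x => g x ^ 2) ≤ S * c.D g g

variable {c} {H S lam : ℝ}

theorem prof_triv (h : ∀ x, exp (-H) < c.π x) (hS : 0 ≤ S) : Prof c H S := fun f hf hs => by
  have hz : ∀ x, f x = 0 := fun x => by
    by_contra hx
    have h1 : c.π x * ind (fun x => 0 < f x) x ≤ mean c.π (ind fun x => 0 < f x) :=
      single_le_sum (f := fun y => c.π y * ind (fun x => 0 < f x) y)
        (fun y _ => mul_nonneg (c.pos y).le (ind_nonneg _ _)) (mem_univ x)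
    rw [ind_pos (p := fun x => 0 < f x) (lt_of_le_of_ne (hf x) (Ne.symm hx)), mul_one] at h1
    linarith [h x]
  have := mul_nonneg hS (c.D_nonneg f)
  simpa [hz, c.isP.mean_const] using this

theorem prof_step (h1 : SPc c H lam) (hl : 0 < lam) (h2 : Prof c (2 * H) S) (hS : 0 ≤ S)
    (hH : 0 ≤ H) : Prof c H (lam⁻¹ + S) := fun f hf hs => by
  obtain ⟨x₀, q1, q2⟩ := exists_quantile c.isP f (exp_pos (-(2 * H))).le
    (exp_le_one_iff.2 (by linarith))
  set τ := f x₀ with hτ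
  have hτ0 : 0 ≤ τ := hf x₀
  set g : Ω → ℝ := fun x => min (f x) τ with hg
  set u : Ω → ℝ := fun x => max (f x - τ) 0 with hu
  have g0 : ∀ x, 0 ≤ g x := fun x => le_min (hf x) hτ0
  have e1 := h1 g g0 (fun x => by
      have b1 : g x ^ 2 ≤ τ ^ 2 := pow_le_pow_left₀ (g0 x) (min_le_right _ _) 2
      have b2 : τ ^ 2 * mean c.π (ind fun x => τ ≤ f x) ≤ mean c.π fun x => g x ^ 2 := by
        rw [← mean_const_mul]
        refine c.isP.mean_mono fun y => ?_
        by_cases hy : τ ≤ f y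
        · rw [ind_pos (p := fun x => τ ≤ f x) hy, mul_one, hg]; simp only [min_eq_right hy, le_refl]
        · rw [ind_neg (p := fun x => τ ≤ f x) hy, mul_zero]; exact sq_nonneg _
      have b3 := mul_le_mul_of_nonneg_left ((mul_le_mul_of_nonneg_left q2 (sq_nonneg τ)).trans b2)
        (exp_pos (2 * H)).le
      rw [mul_left_comm, ← exp_add, add_neg_cancel, exp_zero, mul_one] at b3
      exact b1.trans b3)
    (le_trans (c.isP.mean_mono (ind_mono fun x hx => hx.trans_le (min_le_left _ _))) hs)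
  have e2 := h2 u (fun x => le_max_right _ _)
    (le_trans (c.isP.mean_mono (ind_mono fun x hx => by
      rcases lt_max_iff.1 hx with h | h
      · linarith
      · exact absurd h (lt_irrefl _))) q1)
  have e3 : c.D g g + c.D u u ≤ c.D f f := D_split fun x y => min_max_sq _ _ _
  have hfg : ∀ x, f x = g x + u x := fun x => by
    simp only [hg, hu]
    rcases le_total (f x) τ with h | h
    · rw [min_eq_left h, max_eq_right (by linarith), add_zero]
    · rw [min_eq_right h, max_eq_left (by linarith)]; ring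
  have e4 : mean c.π (fun x => f x ^ 2) = mean c.π (fun x => g x ^ 2) +
      2 * ip c.π g u + mean c.π (fun x => u x ^ 2) := by
    rw [ip_eq_mean, ← mean_const_mul, ← mean_add', ← mean_add']
    exact mean_congr fun x => by rw [hfg x]; ring
  have e5 : ip c.π g u ^ 2 ≤ mean c.π (fun x => g x ^ 2) * mean c.π (fun x => u x ^ 2) := by
    simpa only [ip_eq_mean c.π g g, ip_eq_mean c.π u u, ← sq] using c.isP.ip_sq_le g u
  have p1 := c.D_nonneg g
  have p2 := c.D_nonneg u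
  have p3 : 0 ≤ mean c.π (fun x => u x ^ 2) := c.isP.mean_nonneg fun x => sq_nonneg _
  have p4 := inv_pos.2 hl
  have e0 : mean c.π (fun x => g x ^ 2) ≤ lam⁻¹ * c.D g g := by rwa [le_inv_mul_iff₀ hl]
  have e6 : ip c.π g u ≤ (lam⁻¹ * c.D u u + S * c.D g g) / 2 := by
    refine (abs_le_of_sq_le_sq' (e5.trans ?_) (by positivity)).2
    refine (mul_le_mul e0 e2 p3 (by positivity)).trans ?_
    nlinarith [sq_nonneg (lam⁻¹ * c.D u u - S * c.D g g)]
  nlinarith [mul_le_mul_of_nonneg_left e3 (by positivity : 0 ≤ lam⁻¹ + S)]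

theorem exists_level (c : RC Ω) : ∃ J : ℕ, ∀ x, exp (-(2 : ℝ) ^ J) < c.π x := by
  have h : ∀ x, ∀ᶠ J : ℕ in Filter.atTop, exp (-(2 : ℝ) ^ J) < c.π x := fun x =>
    (tendsto_exp_neg_atTop_nhds_zero.comp (tendsto_pow_atTop_atTop_of_one_lt one_lt_two)).eventually
      (gt_mem_nhds (c.pos x))
  exact (Filter.eventually_all.2 h).exists

theorem prof_of_levels {lam S : ℕ → ℝ} {j₀ : ℕ} (h : ∀ j, j₀ ≤ j → SPc c (2 ^ j) (lam j))
    (hl : ∀ j, 0 < lam j) (hS0 : ∀ j, 0 ≤ S j) (hS : ∀ j, (lam j)⁻¹ + S (j + 1) ≤ S j) :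
    ∀ j, j₀ ≤ j → Prof c (2 ^ j) (S j) := by
  obtain ⟨J, hJ⟩ := exists_level c
  have key : ∀ k j, j₀ ≤ j → J ≤ j + k → Prof c (2 ^ j) (S j) := fun k => by
    induction k with
    | zero => exact fun j _ h2 => prof_triv (fun x => lt_of_le_of_lt (exp_le_exp.2
        (neg_le_neg (pow_le_pow_right₀ one_le_two h2))) (hJ x)) (hS0 j)
    | succ k ih =>
      intro j h1 h2 g hg hs
      have := prof_step (h j h1) (hl j) (by
        rw [← pow_succ']; exact ih (j + 1) (by omega) (by omega)) (hS0 (j + 1)) (by positivity) g hg hs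
      exact this.trans (mul_le_mul_of_nonneg_right (hS j) (c.D_nonneg g))
  exact fun j hj => key J j hj (by omega)

/-- the Goel–Montenegro–Tetali truncation -/
theorem Prof.gmt (h : Prof c H S) (hS : 0 ≤ S) {f : Ω → ℝ} (hf : ∀ x, 0 ≤ f x)
    (h1 : mean c.π f ≤ 1) (hb : 4 * exp H ≤ ip c.π f f) : ip c.π f f ≤ 2 * S * c.D f f := by
  have hτ := exp_pos H
  have e1 := h (fun x => max (f x - exp H) 0) (fun x => le_max_right _ _) (by
    refine (c.isP.mean_mono (g := fun x => exp (-H) * f x) fun x => ?_).trans ?_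
    · by_cases hx : 0 < max (f x - exp H) 0
      · rw [ind_pos (p := fun x => 0 < max (f x - exp H) 0) hx, exp_neg, le_inv_mul_iff₀ hτ]
        rcases lt_max_iff.1 hx with h | h
        · linarith
        · exact absurd h (lt_irrefl _)
      · rw [ind_neg (p := fun x => 0 < max (f x - exp H) 0) hx]
        exact mul_nonneg (exp_pos _).le (hf x)
    · rw [mean_const_mul]; exact mul_le_of_le_one_right (exp_pos _).le h1)
  have e2 := c.D_le_of_abs (f := fun x => max (f x - exp H) 0) (g := f) fun x y => by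
    simpa using abs_max_sub_max_le_abs (f x - exp H) (f y - exp H) 0
  have e3 : ip c.π f f - 2 * exp H * mean c.π f ≤ mean c.π fun x => max (f x - exp H) 0 ^ 2 := by
    rw [ip_eq_mean, ← mean_const_mul, ← mean_sub']
    refine c.isP.mean_mono fun x => ?_
    rcases le_total (f x) (exp H) with h | h
    · rw [max_eq_right (by linarith)]; nlinarith [hf x]
    · rw [max_eq_left (by linarith)]; nlinarith
  nlinarith [mul_le_mul_of_nonneg_left e2 hS, mul_le_mul_of_nonneg_left h1 hτ.le]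

variable [DecidableEq Ω]

theorem hasDerivAt_sq (c : RC Ω) (f : Ω → ℝ) (s : ℝ) :
    HasDerivAt (fun s => ip c.π (c.H s *ᵥ f) (c.H s *ᵥ f))
      (-(2 * c.D (c.H s *ᵥ f) (c.H s *ᵥ f))) s := by
  have e0 : (fun s => ip c.π (c.H s *ᵥ f) (c.H s *ᵥ f)) = fun s => ip c.π f (c.H (2 * s) *ᵥ f) := by
    funext s
    rw [two_mul, c.H_add, ← mulVec_mulVec, c.ip_H_symm s f]
  rw [e0]
  refine HasDerivAt.congr_deriv ((c.hasDerivAt_ip_H f f (2 * s)).comp s
    ((hasDerivAt_id s).const_mul 2)) ?_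
  have e1 := c.D_H_spec 0 (2 * s) f f
  rw [c.H_zero, one_mulVec, zero_add] at e1
  rw [e1, c.D_H_spec, two_mul s]; ring

theorem sq_anti (c : RC Ω) (f : Ω → ℝ) : Antitone fun s => ip c.π (c.H s *ᵥ f) (c.H s *ᵥ f) :=
  antitone_of_deriv_nonpos (fun s => (hasDerivAt_sq c f s).differentiableAt) fun s => by
    rw [(hasDerivAt_sq c f s).deriv]; linarith [c.D_nonneg (c.H s *ᵥ f)]

theorem Prof.decay (h : Prof c H S) (hS : 0 < S) {f : Ω → ℝ} (hf : ∀ x, 0 ≤ f x)
    (h1 : mean c.π f ≤ 1) {t : ℝ} (ht : 0 ≤ t) : ip c.π (c.H t *ᵥ f) (c.H t *ᵥ f) ≤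
      max (4 * exp H) (exp (-(t / S)) * ip c.π f f) := by
  rcases le_total (ip c.π (c.H t *ᵥ f) (c.H t *ᵥ f)) (4 * exp H) with hc | hc
  · exact hc.trans (le_max_left _ _)
  refine le_trans ?_ (le_max_right _ _)
  have hd := fun s => ((hasDerivAt_id' s).div_const S).exp.mul (hasDerivAt_sq c f s)
  have anti := antitoneOn_of_hasDerivWithinAt_nonpos (convex_Icc 0 t)
    (fun s _ => (hd s).continuousAt.continuousWithinAt) (fun s _ => (hd s).hasDerivWithinAt)
    (fun s hs => by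
      have hs' := interior_subset hs
      have e := h.gmt hS.le (c.H_nonneg hs'.1 hf) (by rwa [c.mean_H]) (hc.trans (sq_anti c f hs'.2))
      have e2 : 1 / S * ip c.π (c.H s *ᵥ f) (c.H s *ᵥ f) ≤ 2 * c.D (c.H s *ᵥ f) (c.H s *ᵥ f) := by
        rw [one_div, inv_mul_le_iff₀ hS]; linarith
      nlinarith [mul_le_mul_of_nonneg_left e2 (exp_pos (s / S)).le])
    (Set.left_mem_Icc.2 ht) (Set.right_mem_Icc.2 ht) ht
  simp only [Pi.mul_apply, zero_div, exp_zero, one_mul, c.H_zero, one_mulVec] at anti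
  rwa [exp_neg, le_inv_mul_iff₀ (exp_pos _)]

theorem four_le (H : ℝ) : 4 * exp H ≤ exp (H + 2) := by
  rw [exp_add, mul_comm, show (2 : ℝ) = 1 + 1 by norm_num, exp_add]
  refine mul_le_mul_of_nonneg_left ?_ (exp_pos _).le
  nlinarith [add_one_le_exp (1 : ℝ)]

theorem down_aux {S U : ℕ → ℝ} {j₀ : ℕ} (h : ∀ j, j₀ ≤ j → Prof c (2 ^ j) (S j))
    (hS : ∀ j, 0 < S j) (hU0 : ∀ j, 0 ≤ U j) (hU : ∀ j, 2 ^ j * S j + U (j + 1) ≤ U j)
    {f : Ω → ℝ} (hf : ∀ x, 0 ≤ f x) (h1 : mean c.π f ≤ 1) (k : ℕ) : ∀ j, j₀ ≤ j →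
      ip c.π f f ≤ exp (2 ^ (j + k) + 2) →
      ip c.π (c.H (U j) *ᵥ f) (c.H (U j) *ᵥ f) ≤ exp (2 ^ j + 2) := by
  induction k with
  | zero =>
    intro j _ h2
    have := sq_anti c f (hU0 j)
    simp only [c.H_zero, one_mulVec] at this
    exact this.trans h2
  | succ k ih =>
    intro j hj h2
    have e1 := ih (j + 1) (by omega) (by rwa [add_right_comm, add_assoc])
    have p1 : 0 ≤ 2 ^ j * S j := mul_nonneg (by positivity) (hS j).le
    have e2 := (h j hj).decay (hS j) (c.H_nonneg (hU0 (j + 1)) hf) (by rwa [c.mean_H]) p1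
    rw [mulVec_mulVec, ← c.H_add] at e2
    refine ((sq_anti c f (hU j)).trans e2).trans (max_le (four_le _) ?_)
    refine (mul_le_mul_of_nonneg_left e1 (exp_pos _).le).trans (le_of_eq ?_)
    rw [← exp_add, mul_div_assoc, div_self (hS j).ne', pow_succ]
    congr 1; ring

/-- **every start reaches the level `2^j` at time `U j`** -/
theorem down_sq {S U : ℕ → ℝ} {j₀ : ℕ} (h : ∀ j, j₀ ≤ j → Prof c (2 ^ j) (S j))
    (hS : ∀ j, 0 < S j) (hU0 : ∀ j, 0 ≤ U j) (hU : ∀ j, 2 ^ j * S j + U (j + 1) ≤ U j)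
    {f : Ω → ℝ} (hf : ∀ x, 0 ≤ f x) (h1 : mean c.π f ≤ 1) {j : ℕ} (hj : j₀ ≤ j) {t : ℝ}
    (ht : U j ≤ t) : ip c.π (c.H t *ᵥ f) (c.H t *ᵥ f) ≤ exp (2 ^ j + 2) := by
  obtain ⟨k, hk⟩ := pow_unbounded_of_one_lt (ip c.π f f) (one_lt_two (α := ℝ))
  refine (sq_anti c f ht).trans (down_aux h hS hU0 hU hf h1 k j hj ?_)
  have : (2 : ℝ) ^ k ≤ 2 ^ (j + k) := pow_le_pow_right₀ one_le_two (by omega)
  linarith [add_one_le_exp ((2 : ℝ) ^ (j + k) + 2)]

theorem down_ker {S U : ℕ → ℝ} {j₀ : ℕ} (h : ∀ j, j₀ ≤ j → Prof c (2 ^ j) (S j))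
    (hS : ∀ j, 0 < S j) (hU0 : ∀ j, 0 ≤ U j) (hU : ∀ j, 2 ^ j * S j + U (j + 1) ≤ U j)
    {j : ℕ} (hj : j₀ ≤ j) {t : ℝ} (ht : 2 * U j ≤ t) (x y : Ω) :
    c.H t x y ≤ exp (2 ^ j + 2) * c.π y := by
  have e := fun z => down_sq h hS hU0 hU (c.del_nonneg z) (c.mean_del z).le hj (t := t / 2)
    (by linarith)
  have e1 : ip c.π (c.H (t / 2) *ᵥ c.del y) (c.H (t / 2) *ᵥ c.del x) = c.H t x y / c.π y := by
    rw [c.ip_H_symm, mulVec_mulVec, ← c.H_add, add_halves, c.ip_del]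
    simp [mulVec, dotProduct, RC.del, div_eq_mul_inv]
  have e2 := (c.isP.ip_sq_le (c.H (t / 2) *ᵥ c.del y) (c.H (t / 2) *ᵥ c.del x)).trans
    (mul_le_mul (e y) (e x) (c.isP.ip_self_nonneg _) (exp_pos _).le)
  rw [e1, ← sq] at e2
  rw [← div_le_iff₀ (c.pos y)]
  exact (abs_le_of_sq_le_sq' e2 (exp_pos _).le).2

/-- power-law levels -/
theorem down_pow {a β : ℝ} (ha : 0 < a) (hβ : 0 < β) {j₀ : ℕ}
    (h : ∀ j, j₀ ≤ j → SPc c (2 ^ j) (((2 : ℝ) ^ j) ^ (1 + a) / β)) {H t : ℝ}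
    (hH : 2 ^ (j₀ + 2) ≤ H) (ht : 4 * 4 ^ a / (1 - 2 ^ (-a)) * β * H ^ (-a) ≤ t) (x y : Ω) :
    c.H t x y ≤ exp H * c.π y := by
  have q1 : (2 : ℝ) ^ (-a) < 1 := rpow_lt_one_of_one_lt_of_neg one_lt_two (by linarith)
  have q0 : (0 : ℝ) < 2 ^ (-a) := by positivity
  have p2 : ∀ j : ℕ, (0 : ℝ) < 2 ^ j := fun j => by positivity
  have s1 : ∀ j : ℕ, ((2 : ℝ) ^ (j + 1)) ^ (-a) = 2 ^ (-a) * ((2 : ℝ) ^ j) ^ (-a) := fun j => by
    rw [pow_succ', mul_rpow two_pos.le (p2 j).le]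
  have s2 : ∀ j : ℕ, (((2 : ℝ) ^ j) ^ (1 + a) / β)⁻¹ = β * ((2 : ℝ) ^ j) ^ (-a) / 2 ^ j := fun j => by
    rw [rpow_add (p2 j), rpow_one, rpow_neg (p2 j).le]
    have := rpow_pos_of_pos (p2 j) a
    field_simp
  have P := prof_of_levels (S := fun j => 2 * (β * ((2 : ℝ) ^ j) ^ (-a) / 2 ^ j)) h
    (fun j => by positivity) (fun j => by positivity) fun j => by
      rw [s2, s1, pow_succ']
      have : 0 < β * ((2 : ℝ) ^ j) ^ (-a) / 2 ^ j := by positivity
      calc _ = (1 + 2 ^ (-a)) * (β * ((2 : ℝ) ^ j) ^ (-a) / 2 ^ j) := by field_simp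
        _ ≤ _ := by nlinarith
  have hH0 : 0 < H := (p2 _).trans_le hH
  obtain ⟨m, hm1, hm2⟩ := exists_nat_pow_near (x := H) (y := 2)
    ((one_le_pow₀ one_le_two).trans hH) one_lt_two
  have hm : j₀ + 2 ≤ m := by
    by_contra hc
    have : (2 : ℝ) ^ (m + 1) ≤ 2 ^ (j₀ + 2) := pow_le_pow_right₀ one_le_two (by omega)
    linarith
  obtain ⟨j, rfl⟩ : ∃ j, m = j + 1 := ⟨m - 1, by omega⟩
  have d0 : 0 < 1 - (2 : ℝ) ^ (-a) := by linarith
  refine (down_ker (U := fun j => 2 * β * ((2 : ℝ) ^ j) ^ (-a) / (1 - 2 ^ (-a))) P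
    (fun j => by positivity) (fun j => by positivity) (fun j => le_of_eq ?_) (j := j) (by omega)
    (le_trans ?_ ht) x y).trans (mul_le_mul_of_nonneg_right (exp_le_exp.2 ?_) (c.pos y).le)
  · rw [s1]; field_simp; ring
  · have e1 : ((2 : ℝ) ^ j) ^ (-a) ≤ (H / 4) ^ (-a) :=
      rpow_le_rpow_of_nonpos (by positivity) (by rw [pow_succ, pow_succ] at hm2; linarith)
        (by linarith)
    rw [div_rpow hH0.le (by norm_num), rpow_neg (by norm_num : (0 : ℝ) ≤ 4), div_inv_eq_mul] at e1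
    calc _ = 4 / (1 - 2 ^ (-a)) * β * ((2 : ℝ) ^ j) ^ (-a) := by ring
      _ ≤ 4 / (1 - 2 ^ (-a)) * β * (H ^ (-a) * 4 ^ a) := by gcongr
      _ = _ := by ring
  · have : (2 : ℝ) ^ 1 ≤ 2 ^ j := pow_le_pow_right₀ one_le_two (by omega)
    rw [pow_succ] at hm1
    linarith

/-- a pointwise bound of the density bounds the relative entropy -/
theorem kl_le_of_le {ν μ : Ω → ℝ} (hν : IsP ν) (hμ : ∀ x, 0 < μ x) {H : ℝ}
    (h : ∀ x, ν x ≤ exp H * μ x) : kl ν μ ≤ H := by
  rw [← hν.mean_const H]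
  refine sum_le_sum fun x _ => ?_
  rcases (hν.nn x).eq_or_lt with e | e
  · rw [← e]; simp
  · refine mul_le_mul_of_nonneg_left ?_ e.le
    rw [log_le_iff_le_exp (div_pos e (hμ x)), div_le_iff₀ (hμ x)]
    exact h x

end Crest.Agent.T157.Q1
end

-- ▼ part T157/Q1C_63

/-!
# Row 157, part C (helper63): one entropy level
-/

set_option autoImplicit false
set_option linter.unusedSectionVars false

noncomputable section

namespace Crest.Agent.T157.Q1

open MeasureTheory ProbabilityTheory Filter Topology Set Real Matrix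
open Crest.Agent.T157.SL Crest.Agent.T157.E Crest.Agent.T157.Tr

variable {Ω : Type*} [Fintype Ω] {ι : Type} [Fintype ι] [DecidableEq ι] {φ : Ω → ι → ℝ}
  {u w f g : Ω → ℝ} {I : Set ℝ} {s t T : ℝ}

/-! ### static inequalities -/

theorem dot_le_of_unit {b : ι → ℝ} {Q : ℝ} (h : ∀ z, z ⬝ᵥ z ≤ 1 → z ⬝ᵥ b ≤ Q) : b ⬝ᵥ b ≤ Q ^ 2 := by
  rcases (dot_self_nonneg b).eq_or_lt with e | e
  · rw [← e]; exact sq_nonneg Q
  have h1 := sqrt_pos.2 e
  have h2 := mul_self_sqrt e.le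
  have := h ((√(b ⬝ᵥ b))⁻¹ • b) (by
    rw [smul_dotProduct, dotProduct_smul, smul_eq_mul, smul_eq_mul, ← mul_assoc, ← mul_inv, h2,
      inv_mul_cancel₀ e.ne'])
  rw [smul_dotProduct, smul_eq_mul, inv_mul_le_iff₀ h1] at this
  nlinarith [sq_nonneg (√(b ⬝ᵥ b) - Q)]

theorem dot_le_of_sq {a b : ι → ℝ} {A B : ℝ} (hA : 0 ≤ A) (hB : 0 ≤ B) (ha : a ⬝ᵥ a ≤ A ^ 2)
    (hb : b ⬝ᵥ b ≤ B ^ 2) : a ⬝ᵥ b ≤ A * B := by
  have := Finset.sum_mul_sq_le_sq_mul_sq Finset.univ a b
  simp only [sq (a _), sq (b _)] at this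
  refine (abs_le_of_sq_le_sq' (this.trans ?_) (mul_nonneg hA hB)).2
  rw [mul_pow]
  exact mul_le_mul ha hb (dot_self_nonneg b) (sq_nonneg A)

theorem covV_le_diam (hu : Wt u) {R : ℝ} (hR : 0 ≤ R)
    (hD : ∀ x x', (φ x - φ x') ⬝ᵥ (φ x - φ x') ≤ R ^ 2) (hf : ∀ x, 0 ≤ f x) :
    covV u f φ ⬝ᵥ covV u f φ ≤ (R * mean u f) ^ 2 := by
  refine dot_le_of_unit fun z hz => ?_
  rw [covV_dot, hu.cov_eq', mul_comm R, ← mean_mul_const]
  refine hu.mean_mono fun x => mul_le_mul_of_nonneg_left ?_ (hf x)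
  rw [sub_le_comm]
  refine hu.le_mean fun x' => ?_
  rw [sub_le_comm, ← dotProduct_sub]
  simpa using dot_le_of_sq zero_le_one hR (by simpa using hz) (hD x x')

/-- exponential moment of the unit linear forms -/
def SubE (φ : Ω → ι → ℝ) (u : Ω → ℝ) (G : ℝ) : Prop := ∀ z : ι → ℝ, z ⬝ᵥ z ≤ 1 →
  mean u (fun x => exp (z ⬝ᵥ (φ x - meanV u φ))) ≤ exp G

theorem SubE.cov_le {G : ℝ} (h : SubE φ u G) (hu : Wt u) (g : Ω → ℝ) :
    covV u g φ ⬝ᵥ covV u g φ ≤ 4 * exp G * var u g := by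
  have p := hu.var_nonneg g
  rw [← sq_sqrt (by positivity : 0 ≤ 4 * exp G * var u g)]
  refine dot_le_of_unit fun z hz => le_sqrt_of_sq_le ?_
  rw [covV_dot, mul_comm]
  refine (hu.cov_sq_le _ _).trans (mul_le_mul_of_nonneg_left ?_ p)
  have h1 := h z hz
  have h2 := h (-z) (by simpa using hz)
  refine le_trans (hu.mean_mono (g := fun x => 2 * exp (z ⬝ᵥ (φ x - meanV u φ)) +
    2 * exp (-z ⬝ᵥ (φ x - meanV u φ))) fun x => ?_) (by
      rw [mean_add, mean_const_mul, mean_const_mul]; linarith)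
  rw [← meanV_dot, ← dotProduct_sub, neg_dotProduct]
  set l := z ⬝ᵥ (φ x - meanV u φ)
  rcases le_total 0 l with hl | hl
  · linarith [quadratic_le_exp_of_nonneg hl, exp_pos (-l)]
  · nlinarith [quadratic_le_exp_of_nonneg (neg_nonneg.2 hl), exp_pos l]

theorem SubE.cov_le' {G M : ℝ} (h : SubE φ u G) (hu : Wt u) (hf : ∀ x, 0 ≤ f x)
    (hM : ∀ x, f x ≤ M) (R : ℝ) :
    covV u f φ ⬝ᵥ covV u f φ ≤ (R * mean u f + M * exp (G - R)) ^ 2 := by
  refine dot_le_of_unit fun z hz => ?_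
  obtain ⟨x, -⟩ := hu.exists_pos
  have M0 := (hf x).trans (hM x)
  rw [covV_dot, hu.cov_eq']
  refine le_trans (hu.mean_mono (g := fun x => R * f x + M * exp (-R) *
    exp (z ⬝ᵥ (φ x - meanV u φ))) fun x => ?_) ?_
  · rw [← meanV_dot, ← dotProduct_sub, mul_assoc, ← exp_add]
    set l := z ⬝ᵥ (φ x - meanV u φ)
    nlinarith [mul_le_mul_of_nonneg_left (add_one_le_exp (-R + l)) (hf x), hf x,
      mul_le_mul_of_nonneg_right (hM x) (exp_pos (-R + l)).le]
  · rw [mean_add, mean_const_mul, mean_const_mul, sub_eq_neg_add, exp_add, mul_assoc]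
    exact add_le_add le_rfl (mul_le_mul_of_nonneg_left (mul_le_mul_of_nonneg_left (h z hz)
      (exp_pos _).le) M0)

theorem centred_le (hu : Wt u) {M : ℝ} (hM : ∀ x, g x ^ 2 ≤ M) (x : Ω) :
    (g x - mean u g) ^ 2 ≤ 4 * M := by
  have h1 : mean u g ^ 2 ≤ M := (hu.isP.mean_sq_le g).trans
    (hu.mean_le (f := fun x => g x * g x) fun x => by simpa only [sq] using hM x)
  nlinarith [hM x, sq_nonneg (g x + mean u g)]

/-- the functional at the terminal time -/
theorem SubE.nf_le {G M c R : ℝ} (h : SubE φ u G) (hu : Wt u) (hM : ∀ x, g x ^ 2 ≤ M)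
    (hc : 0 ≤ c) (hR : 0 ≤ R) :
    √(mean u (fun x => g x ^ 2) ^ 2 + c ^ 2 * (covV u (fun x => g x ^ 2) φ ⬝ᵥ
      covV u (fun x => g x ^ 2) φ)) ≤ mean u (fun x => g x ^ 2) + 8 * exp G * c ^ 2 * var u g +
        c * (R * var u g + 4 * M * exp (G - R)) := by
  obtain ⟨x, -⟩ := hu.exists_pos
  have M0 := (sq_nonneg _).trans (hM x)
  have e : covV u (fun x => g x ^ 2) φ = (2 * mean u g) • covV u g φ +
      covV u (fun x => (g x - mean u g) ^ 2) φ := by
    funext i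
    simp only [covV, hu.cov_eq', Pi.add_apply, Pi.smul_apply, smul_eq_mul]
    have : mean u (fun x => mean u g ^ 2 * (φ x i - mean u fun x => φ x i)) = 0 := by
      rw [mean_const_mul, mean_sub, hu.mean_const, sub_self, mul_zero]
    rw [← mean_const_mul _ _ (2 * mean u g), ← mean_add, ← add_zero (mean u _), ← this, ← mean_add]
    congr 1; funext x; ring
  have b1 := h.cov_le hu g
  have b2 := h.cov_le' hu (f := fun x => (g x - mean u g) ^ 2) (fun x => sq_nonneg _)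
    (centred_le hu hM) R
  change _ ≤ (R * var u g + _) ^ 2 at b2
  have b3 : mean u g ^ 2 ≤ mean u fun x => g x ^ 2 := by
    simp only [sq (g _)]; exact hu.isP.mean_sq_le g
  have p := hu.var_nonneg g
  set m := mean u fun x => g x ^ 2
  set P := 8 * exp G * c ^ 2 * var u g with hP
  set Q := R * var u g + 4 * M * exp (G - R) with hQ
  set a := (2 * mean u g) • covV u g φ with ha
  set b := covV u (fun x => (g x - mean u g) ^ 2) φ
  have m0 : 0 ≤ m := (sq_nonneg _).trans b3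
  have P0 : 0 ≤ P := by positivity
  have Q0 : 0 ≤ Q := by positivity
  have a1 : c ^ 2 * (a ⬝ᵥ a) ≤ 2 * m * P := by
    rw [ha, smul_dotProduct, dotProduct_smul, smul_eq_mul, smul_eq_mul]
    have := mul_le_mul_of_nonneg_left (mul_le_mul b3 b1 (dot_self_nonneg _) m0) (sq_nonneg c)
    nlinarith
  have a2 : (c • a) ⬝ᵥ b ≤ (m + P) * Q := dot_le_of_sq (by positivity) Q0 (by
    rw [smul_dotProduct, dotProduct_smul, smul_eq_mul, smul_eq_mul]; nlinarith) b2
  rw [smul_dotProduct, smul_eq_mul] at a2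
  rw [sqrt_le_left (by positivity), e, add_dotProduct, dotProduct_add, dotProduct_add,
    dotProduct_comm b a]
  nlinarith [mul_le_mul_of_nonneg_left a2 hc, mul_le_mul_of_nonneg_left b2 (sq_nonneg c),
    sq_nonneg P]

theorem ent_sq_le (hu : Wt u) {A : ℝ} (hM : ∀ x, g x ^ 2 ≤ exp A) :
    ent u (fun x => g x ^ 2) ≤ (A + 3) * var u g + 1 := by
  have h1 : ent u (fun x => g x ^ 2) ≤ ent u (fun x => (g x - mean u g) ^ 2) + 2 * var u g :=
    Ent.rothaus hu.isP g
  have h2 : mean u (fun x => (g x - mean u g) ^ 2 * log ((g x - mean u g) ^ 2)) ≤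
      var u g * (A + 2) := by
    change _ ≤ mean u (fun x => (g x - mean u g) ^ 2) * _
    rw [← mean_mul_const]
    refine hu.mean_mono fun x => ?_
    rcases (sq_nonneg (g x - mean u g)).eq_or_lt with e | e
    · rw [← e]; simp
    · exact mul_le_mul_of_nonneg_left ((log_le_iff_le_exp e).2
        ((centred_le hu hM x).trans (four_le A))) e.le
  have h3 : var u g - 1 ≤ var u g * log (var u g) := self_sub_one_le_mul_log (hu.var_nonneg g)
  have h4 : ent u (fun x => (g x - mean u g) ^ 2) = mean u (fun x => (g x - mean u g) ^ 2 *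
    log ((g x - mean u g) ^ 2)) - var u g * log (var u g) := rfl
  linarith

/-! ### the window -/

theorem Nf_mono {c c' : ℝ} (h : c ^ 2 ≤ c' ^ 2) (p : Pt ι) : Nf φ w f c p ≤ Nf φ w f c' p :=
  sqrt_le_sqrt (add_le_add le_rfl (mul_le_mul_of_nonneg_right h (dot_self_nonneg _)))

theorem mg_Nf (hw : Wt w) (c t : ℝ) : MG fun y => Nf φ w f c (t, y) :=
  (eg_Nf (I := univ) (c := fun _ => c) hw (EG.const c)).mg (mem_univ t)

theorem transport_HA (hw : Wt w) (hf : ∀ x, 0 ≤ f x) (h0 : 0 < mean w f) {e p : ℝ → ℝ} {ρ M E : ℝ}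
    (h : HA φ w e p s T ρ) (hst : s ≤ T) (hM : ∀ x, f x ≤ M)
    (hE : exp (∫ r in s..T, e r / r) ≤ E) (c : ℝ) :
    ex φ w (Nf φ w f c) s ≤ ex φ w (Nf φ w f (c * (T / s) * E)) T +
      c ^ 2 * E ^ 2 * M / s ^ 2 * ρ ^ 2 := by
  have s0 := h.pos
  obtain ⟨x, -⟩ := hw.exists_pos
  have M0 := (hf x).trans (hM x)
  have pr := prim hst h.c2
  have cE : ∀ r ∈ Icc s T, (c * (r / s) * exp (∫ q in s..r, e q / q)) ^ 2 ≤
      (c * (r / s) * E) ^ 2 := fun r hr => by
    rw [mul_pow, mul_pow _ E]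
    exact mul_le_mul_of_nonneg_left (pow_le_pow_left₀ (exp_pos _).le
      ((exp_le_exp.2 (h.eps_le le_rfl le_rfl hr.1 hr.2 le_rfl)).trans hE) 2) (sq_nonneg _)
  have mχ : ∀ r, MG fun y => 1 - ig φ w e (r, y) := fun r => (MG.const 1).sub (mg_ig hw e r)
  have := transport (φ := φ) hw hf h0 s0.le hst
    (c := fun r => c * (r / s) * exp (∫ q in s..r, e q / q)) (k := fun r => (1 + e r) / r)
    (ε := fun r => c ^ 2 * E ^ 2 * M / s ^ 2 * p r) (χ := fun q => 1 - ig φ w e q)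
    ((continuousOn_const.mul (continuousOn_id.div_const s)).mul pr.1.rexp)
    ((continuousOn_const.add h.cε).div continuousOn_id fun r hr => (s0.trans_le hr.1).ne')
    (continuousOn_const.mul h.cp)
    (fun r hr => ((((hasDerivAt_id' r).div_const s).const_mul c).mul (pr.2 r hr).exp).congr_deriv (by
      have := (s0.trans hr.1).ne'
      field_simp))
    (fun r hr => div_nonneg (by linarith [h.ε0 r hr]) (s0.le.trans hr.1))
    (fun r hr => mul_nonneg (by positivity) (h.p0 hw hr)) mχ (fun q => sub_nonneg.2 (ig_le_one q))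
    (fun q hq hχ z => by
      have q0 := s0.trans hq.1
      rcases ig_cases (φ := φ) (w := w) (ε := e) q with h1 | h1
      · have := (quad_X_le (φ := φ) (w := w) (p := q) z).trans
          (mul_le_mul_of_nonneg_right h1.1 (dot_self_nonneg z))
        rw [Xp, smul_mulVec, dotProduct_smul, smul_eq_mul] at this
        rwa [div_mul_eq_mul_div, le_div_iff₀' q0]
      · rw [h1.2, sub_zero] at hχ; exact absurd hχ (lt_irrefl _))
    fun r hr => by
      have r0 := s0.trans hr.1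
      have hr' := Ioo_subset_Icc_self hr
      have q0 : ∀ y, 0 ≤ (1 - ig φ w e (r, y)) * (vv φ w f (r, y) ⬝ᵥ covMat (pw φ w (r, y)) φ *ᵥ
          vv φ w f (r, y) / mean (pw φ w (r, y)) f) := fun y => mul_nonneg (sub_nonneg.2 (ig_le_one _))
        (div_nonneg ((hw.post φ r y).covMat_quad_nonneg φ _) ((hw.post φ r y).mean_nonneg hf))
      refine (mul_le_mul_of_nonneg_right (cE r hr') (ex_nonneg hw q0)).trans ?_
      rw [show (c * (r / s) * E) ^ 2 = c ^ 2 * E ^ 2 / s ^ 2 * r ^ 2 by ring, mul_assoc,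
        show c ^ 2 * E ^ 2 * M / s ^ 2 * p r = c ^ 2 * E ^ 2 / s ^ 2 * (M * p r) by ring]
      refine mul_le_mul_of_nonneg_left (le_trans ?_ (mul_le_mul_of_nonneg_left (h.le r hr') M0))
        (by positivity)
      rw [pb, ← ex_const_mul, ← ex_const_mul]
      refine ex_mono hw (((mχ r).mul (((eg_dot (fun j => eg_vv hw f j) fun j =>
        eg_dot (fun l => eg_cov hw _ _) fun l => eg_vv hw f l).mul (eg_inv_mean (φ := φ)
          (Metric.isBounded_Icc r r) hw hf h0)).mg (left_mem_Icc.2 le_rfl))).const_mul _)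
        (((mχ r).mul ((((EG.const 1).add (eg_nx (a := r) (b := r) hw)).pow 3).mg
          (left_mem_Icc.2 le_rfl))).const_mul _) fun y => ?_
      rw [mul_left_comm, mul_left_comm M]
      refine mul_le_mul_of_nonneg_left ?_ (sub_nonneg.2 (ig_le_one _))
      have u0 := hw.mean_post_pos hf h0 φ r y
      have b1 := quad_X_le (φ := φ) (w := w) (p := (r, y)) (vv φ w f (r, y))
      rw [Xp, smul_mulVec, dotProduct_smul, smul_eq_mul] at b1
      have b2 := vv_sq_le (φ := φ) (p := (r, y)) hw r0 f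
      have b3 : var (pw φ w (r, y)) f ≤ M * mean (pw φ w (r, y)) f := by
        rw [← mean_const_mul]
        exact ((hw.post φ r y).var_le_mean f 0).trans ((hw.post φ r y).mean_mono fun x => by
          nlinarith [hf x, hM x])
      have n0 := nx_nonneg (φ := φ) (w := w) (r, y)
      rw [← mul_div_assoc, div_le_iff₀ u0]
      have b4 := mul_le_mul_of_nonneg_left b1 r0.le
      have b5 := mul_le_mul_of_nonneg_left (b2.trans (mul_le_mul_of_nonneg_left b3 n0)) n0
      have b6 : nx φ w (r, y) * nx φ w (r, y) ≤ (1 + nx φ w (r, y)) ^ 3 := by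
        nlinarith [mul_nonneg n0 (mul_nonneg n0 n0)]
      simp only at b4 b5
      nlinarith [mul_le_mul_of_nonneg_left b6 (mul_nonneg M0 u0.le)]
  simp only [intervalIntegral.integral_same, exp_zero, div_self s0.ne', mul_one,
    intervalIntegral.integral_const_mul] at this
  refine this.trans (add_le_add (ex_mono hw (mg_Nf hw _ T) (mg_Nf hw _ T) fun y =>
    Nf_mono (cE T (right_mem_Icc.2 hst)) _) (mul_le_mul_of_nonneg_left (h.int_p_le hw hst)
      (by positivity)))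

theorem start_le (hw : Wt w) (hf : ∀ x, 0 ≤ f x) (h0 : 0 < mean w f) {R : ℝ} (hR : 0 < R)
    (hD : ∀ x x', (φ x - φ x') ⬝ᵥ (φ x - φ x') ≤ R ^ 2) (hs : 0 ≤ s) :
    mean w f + 2 / 3 * R⁻¹ ^ 2 * J2 φ w f s ≤ ex φ w (Nf φ w f R⁻¹) s := by
  have m := (eg_entD (φ := φ) (Metric.isBounded_Icc s s) hw hf h0).mg (left_mem_Icc.2 le_rfl)
  rw [← ex_mean (φ := φ) hw hs f, J2, ← ex_const_mul, ← ex_add ((eg_mean hw f).mg (mem_univ s))
    (m.const_mul _)]
  refine ex_mono hw (((eg_mean hw f).mg (mem_univ s)).add (m.const_mul _)) (mg_Nf hw _ s)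
    fun y => le_sqrt_of_sq_le ?_
  have u0 := hw.mean_post_pos hf h0 φ s y
  have h1 := covV_le_diam (hw.post φ s y) hR.le hD hf
  have h2 := dot_self_nonneg (covV (post φ w s y) f φ)
  unfold vv
  simp only [pw] at u0 h1 ⊢
  set m := mean (post φ w s y) f
  set q := covV (post φ w s y) f φ ⬝ᵥ covV (post φ w s y) f φ
  have e : ∃ z, 0 ≤ z ∧ z ≤ m ∧ R⁻¹ ^ 2 * q = z * m := ⟨R⁻¹ ^ 2 * q / m, by positivity, by
    rw [div_le_iff₀ u0, inv_pow, inv_mul_le_iff₀ (by positivity)]; nlinarith, by field_simp⟩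
  obtain ⟨z, z0, z1, z2⟩ := e
  have : 2 / 3 * R⁻¹ ^ 2 * (q / (2 * m)) = z / 3 := by
    rw [show 2 / 3 * R⁻¹ ^ 2 * (q / (2 * m)) = R⁻¹ ^ 2 * q / (3 * m) by ring, z2]; field_simp
  rw [this, z2]
  nlinarith

theorem end_le (hw : Wt w) (hT : 0 ≤ T) {R₀ M G δ V c R : ℝ} (hR₀ : 0 ≤ R₀)
    (hD : ∀ x x', (φ x - φ x') ⬝ᵥ (φ x - φ x') ≤ R₀ ^ 2) (hM : ∀ x, g x ^ 2 ≤ M)
    (hV : ex φ w (fun p => var (pw φ w p) g) T ≤ V) {A : Set (ι → ℝ)} (hA : MeasurableSet A)
    (hδ : (law φ w T).real A ≤ δ) (hs : ∀ y ∉ A, SubE φ (post φ w T y) G) (hc : 0 ≤ c)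
    (hR : 0 ≤ R) : ex φ w (Nf φ w (fun x => g x ^ 2) c) T ≤ mean w (fun x => g x ^ 2) +
      8 * exp G * c ^ 2 * V + c * (R * V + 4 * M * exp (G - R) + R₀ * M * δ) := by
  obtain ⟨x, -⟩ := hw.exists_pos
  have M0 := (sq_nonneg _).trans (hM x)
  have m1 := (eg_mean (φ := φ) hw fun x => g x ^ 2).mg (mem_univ T)
  have m2 := ((eg_var (φ := φ) hw g).const_mul (8 * exp G * c ^ 2 + c * R)).mg (mem_univ T)
  have m3 := (MG.const (c * (R₀ * M))).indicator hA
  have := ex_mono (φ := φ) (G := Nf φ w (fun x => g x ^ 2) c) (H := fun p =>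
    mean (pw φ w p) (fun x => g x ^ 2) + (8 * exp G * c ^ 2 + c * R) * var (pw φ w p) g +
      c * (4 * M * exp (G - R)) + A.indicator (fun _ => c * (R₀ * M)) p.2) hw (mg_Nf hw c T)
    (((m1.add m2).add (.const _)).add m3) fun y => by
      have hu := hw.post φ T y
      by_cases hy : y ∈ A
      · have h1 := covV_le_diam hu hR₀ hD (f := fun x => g x ^ 2) fun x => sq_nonneg _
        have h2 := hu.mean_nonneg (f := fun x => g x ^ 2) fun x => sq_nonneg _
        have h3 := hu.mean_le hM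
        have h4 := hu.var_nonneg g
        have : Nf φ w (fun x => g x ^ 2) c (T, y) ≤
            mean (post φ w T y) (fun x => g x ^ 2) + c * (R₀ * M) := by
          rw [Nf, sqrt_le_left (by positivity)]
          have h5 := h1.trans (pow_le_pow_left₀ (by positivity)
            (mul_le_mul_of_nonneg_left h3 hR₀) 2)
          have h6 : 0 ≤ mean (post φ w T y) (fun x => g x ^ 2) * (c * (R₀ * M)) := by positivity
          unfold vv
          nlinarith [mul_le_mul_of_nonneg_left h5 (sq_nonneg c)]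
        simp only [indicator_of_mem hy]
        have p1 : 0 ≤ (8 * exp G * c ^ 2 + c * R) * var (post φ w T y) g := by positivity
        have p2 : 0 ≤ c * (4 * M * exp (G - R)) := by positivity
        linarith
      · simp only [indicator_of_notMem hy]
        exact ((hs y hy).nf_le hu hM hc hR).trans (le_of_eq (by ring))
  rw [ex_add ((m1.add m2).add (.const _)) m3, ex_add (m1.add m2) (.const _), ex_add m1 m2,
    ex_const hw, ex_const_mul, ex_mean hw hT] at this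
  have e : ex φ w (fun p => A.indicator (fun _ => c * (R₀ * M)) p.2) T =
      c * (R₀ * M) * (law φ w T).real A := by
    rw [law_real hw hA, ← mean_const_mul]; exact slE_indicator hA fun _ => c * (R₀ * M)
  rw [e] at this
  nlinarith [mul_le_mul_of_nonneg_left hV (by positivity : 0 ≤ 8 * exp G * c ^ 2 + c * R),
    mul_le_mul_of_nonneg_left hδ (by positivity : 0 ≤ c * (R₀ * M))]

theorem ent_drop (hw : Wt w) (hf : ∀ x, 0 ≤ f x) (h0 : 0 < mean w f) (hs : 0 ≤ s) (hst : s ≤ t)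
    {Ψ ψ : ℝ → ℝ} (hΨ : ContinuousOn Ψ (Icc s t)) (dΨ : ∀ r ∈ Ioo s t, HasDerivAt Ψ (ψ r) r)
    (h : ∀ r ∈ Ioo s t, J2 φ w f r ≤ ψ r) :
    ex φ w (fun p => ent (pw φ w p) f) s + Ψ s ≤ ex φ w (fun p => ent (pw φ w p) f) t + Ψ t := by
  simpa using gron0 (K := fun _ => 0) (κ := fun _ => 0) hst (eg_ent (φ := φ) hw f).continuousOn_ex
    continuousOn_const hΨ (fun r hr => hasDerivAt_ex_ent hw hf h0 (hs.trans_lt hr.1))
    (fun r _ => hasDerivAt_const r _) dΨ fun r hr => by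
      have := h r hr
      unfold J2 at this
      simp only [exp_zero, zero_mul, add_zero, one_mul]
      linarith

/-- transport of the functional from `s` to `T` with a loss `E` and an error `η` -/
def Tp (φ : Ω → ι → ℝ) (w f : Ω → ℝ) (s T E η : ℝ) : Prop := ∀ c : ℝ,
  ex φ w (Nf φ w f c) s ≤ ex φ w (Nf φ w f (c * (T / s) * E)) T + c ^ 2 * η / s ^ 2

theorem Tp.trans {r E E' η η' : ℝ} (h : Tp φ w f s r E η) (h' : Tp φ w f r T E' η') (hr : r ≠ 0) :
    Tp φ w f s T (E * E') (η + E ^ 2 * η') := fun c => by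
  have h1 := h c
  have h2 := h' (c * (r / s) * E)
  rw [show c * (r / s) * E * (T / r) * E' = c * (T / s) * (E * E') by field_simp,
    show (c * (r / s) * E) ^ 2 * η' / r ^ 2 = c ^ 2 * (E ^ 2 * η') / s ^ 2 by field_simp] at h2
  rw [mul_add, add_div]
  linarith

theorem Tp.mono (hw : Wt w) {E E' η η' : ℝ} (h : Tp φ w f s T E η) (hE : E ^ 2 ≤ E' ^ 2)
    (hη : η ≤ η') : Tp φ w f s T E' η' := fun c =>
  (h c).trans (add_le_add (ex_mono hw (mg_Nf hw _ T) (mg_Nf hw _ T) fun y => Nf_mono (by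
    rw [mul_pow, mul_pow _ E']; exact mul_le_mul_of_nonneg_left hE (sq_nonneg _)) _) (by gcongr))

theorem tp_of_HA (hw : Wt w) (hf : ∀ x, 0 ≤ f x) (h0 : 0 < mean w f) {e p : ℝ → ℝ} {ρ M E r : ℝ}
    (h : HA φ w e p s T ρ) (hM : ∀ x, f x ≤ M) (hE : exp (∫ r in s..T, e r / r) ≤ E)
    (hr : r ∈ Icc s T) : Tp φ w f r T E (E ^ 2 * M * ρ ^ 2) := fun c =>
  (transport_HA hw hf h0 (h.mono hr.1 hr.2 le_rfl) hr.2 hM
    ((exp_le_exp.2 (h.eps_le le_rfl hr.1 hr.2 le_rfl le_rfl)).trans hE) c).trans_eq (by ring)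



theorem early_ent (hw : Wt w) (hf : ∀ x, 0 ≤ f x) (h1 : mean w f = 1) {H : ℝ} (hH : 0 ≤ H)
    (hM : ∀ x, f x ≤ exp (2 * H)) (t0 : 0 < t) (hX : XX φ w (65 * t) ≤ exp H) :
    ent w f ≤ ex φ w (fun p => ent (pw φ w p) f) t + H / 4 := by
  have a1 := ent_drop (φ := φ) hw hf (h1 ▸ one_pos) le_rfl t0.le (Ψ := fun r => H / (4 * t) * r)
    (ψ := fun _ => H / (4 * t)) (by fun_prop)
    (fun r _ => ((hasDerivAt_id' r).const_mul _).congr_deriv (mul_one _)) fun r hr => by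
      refine (early hw hf h1 (by linarith) hH hM hX hr.1.le (by linarith [hr.2])).trans ?_
      rw [div_le_div_iff₀ (by linarith [hr.2]) (by positivity)]
      nlinarith [mul_le_mul_of_nonneg_left hr.2.le hH]
  rw [ex_pw_zero hw fun u => ent u f] at a1
  have e1 : H / (4 * t) * t = H / 4 := by field_simp
  linarith

/-- **the window, generic form** -/
theorem window (hw : Wt w) (hf : ∀ x, 0 ≤ f x) (h0 : 0 < mean w f) {R₀ E η P Q L : ℝ} (hR₀ : 0 < R₀)
    (hD : ∀ x x', (φ x - φ x') ⬝ᵥ (φ x - φ x') ≤ R₀ ^ 2) (t0 : 0 < t) (htT : t ≤ T) (E0 : 0 ≤ E)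
    (η0 : 0 ≤ η) (P0 : 0 ≤ P) (Q0 : 0 ≤ Q) (h : ∀ r ∈ Ioo t T, Tp φ w f r T E η)
    (hend : ∀ c, 0 ≤ c → ex φ w (Nf φ w f c) T ≤ mean w f + P * c ^ 2 + c * Q)
    (hL : log (T / t) ≤ L) : ex φ w (fun p => ent (pw φ w p) f) t ≤
      ex φ w (fun p => ent (pw φ w p) f) T + 3 / 2 * (E ^ 2 * T ^ 2 * P + η) / t +
        3 / 2 * R₀ * T * E * Q * L := by
  have T0 := t0.trans_le htT
  set α := 3 / 2 * (E ^ 2 * T ^ 2 * P + η) with hα
  set β := 3 / 2 * R₀ * T * E * Q with hβ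
  have a2 := ent_drop (φ := φ) hw hf h0 t0.le htT (Ψ := fun r => β * log r - α * r⁻¹)
    (ψ := fun r => β * r⁻¹ + α * r⁻¹ ^ 2)
    ((continuousOn_const.mul (continuousOn_id.log fun r hr => (t0.trans_le hr.1).ne')).sub
      (continuousOn_const.mul (continuousOn_id.inv₀ fun r hr => (t0.trans_le hr.1).ne')))
    (fun r hr => (((hasDerivAt_log (t0.trans hr.1).ne').const_mul β).sub
      ((hasDerivAt_inv (t0.trans hr.1).ne').const_mul α)).congr_deriv (by ring)) fun r hr => by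
      have r0 := t0.trans hr.1
      have b1 := start_le hw hf h0 hR₀ hD r0.le
      have b2 := h r hr R₀⁻¹
      have b3 := hend (R₀⁻¹ * (T / r) * E) (by positivity)
      have b4 : 2 / 3 * R₀⁻¹ ^ 2 * J2 φ w f r ≤ 2 / 3 * R₀⁻¹ ^ 2 * (β * r⁻¹ + α * r⁻¹ ^ 2) := by
        refine le_trans (b := P * (R₀⁻¹ * (T / r) * E) ^ 2 + R₀⁻¹ * (T / r) * E * Q +
          R₀⁻¹ ^ 2 * η / r ^ 2) (by linarith) (le_of_eq ?_)
        rw [hα, hβ]; field_simp; ring
      exact le_of_mul_le_mul_left b4 (by positivity)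
  rw [log_div T0.ne' t0.ne'] at hL
  have b1 := mul_le_mul_of_nonneg_left hL (by positivity : 0 ≤ β)
  have b2 : 0 ≤ α * T⁻¹ := by positivity
  rw [div_eq_mul_inv α]
  linarith

/-- **one level** -/
theorem level (hw : Wt w) {R₀ H G δ V R E L ρ : ℝ} {e p : ℝ → ℝ} (hR₀ : 0 < R₀)
    (hD : ∀ x x', (φ x - φ x') ⬝ᵥ (φ x - φ x') ≤ R₀ ^ 2) (hH : 0 ≤ H)
    (g1 : mean w (fun x => g x ^ 2) = 1) (hM : ∀ x, g x ^ 2 ≤ exp (2 * H))
    (hent : H ≤ ent w fun x => g x ^ 2) (hX : XX φ w (65 * t) ≤ exp H)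
    (h : HA φ w e p t T ρ) (htT : t ≤ T) (hE : exp (∫ r in t..T, e r / r) ≤ E)
    (hV : ex φ w (fun p => var (pw φ w p) g) T ≤ V) {A : Set (ι → ℝ)} (hA : MeasurableSet A)
    (hδ : (law φ w T).real A ≤ δ) (hs : ∀ y ∉ A, SubE φ (post φ w T y) G) (hR : 0 ≤ R)
    (hL : log (T / t) ≤ L) :
    3 / 4 * H ≤ 1 + (2 * H + 3) * V + 3 / 2 * E ^ 2 * (8 * exp G * T ^ 2 * V + exp (2 * H) * ρ ^ 2) / t +
      3 / 2 * R₀ * T * E * (R * V + 4 * exp (2 * H) * exp (G - R) + R₀ * exp (2 * H) * δ) * L := by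
  have t0 := h.pos
  have T0 := t0.trans_le htT
  have f0 : ∀ x, 0 ≤ g x ^ 2 := fun x => sq_nonneg _
  have h0 : 0 < mean w fun x => g x ^ 2 := g1 ▸ one_pos
  have V0 : 0 ≤ V := (ex_nonneg hw fun y => (hw.post φ T y).var_nonneg g).trans hV
  have δ0 : 0 ≤ δ := measureReal_nonneg.trans hδ
  have E0 : 0 < E := (exp_pos _).trans_le hE
  have a1 := early_ent hw f0 g1 hH hM t0 hX
  have a2 := window hw f0 h0 hR₀ hD t0 htT E0.le (by positivity) (P := 8 * exp G * V)
    (Q := R * V + 4 * exp (2 * H) * exp (G - R) + R₀ * exp (2 * H) * δ) (by positivity)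
    (by positivity) (fun r hr => tp_of_HA hw f0 h0 h hM hE (Ioo_subset_Icc_self hr))
    (fun c hc => (end_le hw T0.le hR₀.le hD hM hV hA hδ hs hc hR).trans_eq (by ring)) hL
  have a3 : ex φ w (fun p => ent (pw φ w p) fun x => g x ^ 2) T ≤ (2 * H + 3) * V + 1 := by
    have m := ((eg_var (φ := φ) hw g).const_mul (2 * H + 3)).mg (mem_univ T)
    refine (ex_mono (H := fun p => (2 * H + 3) * var (pw φ w p) g + 1) hw
      ((eg_ent hw _).mg (mem_univ T)) (m.add (.const 1)) fun y => ent_sq_le (hw.post φ T y) hM).trans ?_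
    rw [ex_add m (.const 1), ex_const hw, ex_const_mul]
    exact add_le_add (mul_le_mul_of_nonneg_left hV (by linarith)) le_rfl
  rw [show 3 / 2 * E ^ 2 * (8 * exp G * T ^ 2 * V + exp (2 * H) * ρ ^ 2) =
    3 / 2 * (E ^ 2 * T ^ 2 * (8 * exp G * V) + E ^ 2 * exp (2 * H) * ρ ^ 2) by ring]
  linarith

end Crest.Agent.T157.Q1

end
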