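import Crest.Agent.T157.CqDef_72
import Crest.Agent.T157.CqKillA_31
import Crest.Agent.T157.CqTopA_72
import Crest.Agent.T157.UnD_81
import Crest.Agent.T157.Q1_63
import Mathlib
import Crest.Agent.T157.SpGap_15
import Crest.Agent.T157.EdAll_88

-- ▼ part T157/CqKill_31
section

/-!
# Row 157, part C (helper31): KILL-TV
-/

set_option autoImplicit false

noncomputable section

namespace Crest.Agent.T157.Cq

open Matrix Finset Real
open Crest.Agent.T157.E Crest.Agent.T157.Ed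

theorem killStmt : KillStmt := by
  refine ⟨π, fun n ε θ W W' V V' hn h0 h1 hθ hd hs hV hV' hb => ?_⟩
  have n0 : (0 : ℝ) < n := by exact_mod_cast hn
  have t0 : 0 < tau n := rpow_pos_of_pos n0 _
  have hN : 0 < n * tau n := mul_pos n0 t0
  have key := fun x => Kill31.U_sub hn hN hθ (T := π / 2) (by positivity) hd hs
    (V := V + V') (fun x => add_nonneg (hV x) (hV' x)) (fun s h x => by
      have h2 := (hb s h x).trans (mul_le_mul_of_nonneg_left
        (by have := hV' x; simp only [Pi.add_apply]; linarith : V x + 1 ≤ (V + V') x + 1) hθ)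
      rw [← add_div, ← mul_div_assoc, le_div_iff₀ hN]
      refine le_of_eq_of_le ?_ h2
      field_simp) (m := Mst n ε) (by
      rw [div_le_iff₀ hN]
      exact (Nat.floor_le (by positivity)).trans (by nlinarith)) x
  have hu := (Soft.isP_unif (n := n))
  unfold kap um
  rw [sub_sub_sub_cancel_left, ← sum_sub_distrib]
  refine (abs_sum_le_sum_abs _ _).trans ?_
  calc _ ≤ ∑ x, Soft.unif n x * (π * √θ) := sum_le_sum fun x _ => by
        rw [← mul_sub, abs_mul, abs_of_nonneg (hu.1 x), abs_sub_comm]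
        exact mul_le_mul_of_nonneg_left ((key x).trans_eq (by ring)) (hu.1 x)
    _ = π * √θ := by rw [← sum_mul, hu.2, one_mul]

end Crest.Agent.T157.Cq

end
end

-- ▼ part T157/CqTopB_72
section

/-!
# Row 157, part C: transfer between the laws, Cauchy argument, merging step (helper72)
-/

set_option autoImplicit false

noncomputable section

namespace Crest.Agent.T157.Cq.Top72

open MeasureTheory Matrix Finset Real Filter Topology
open Crest.ProbabilityR.SpinGlassDynamics Crest.Agent.T157.E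
open Crest.Agent.T157.St (muG hat dm)
open Crest.Agent.T157.Tr (Off Om PM)
open Crest.Agent.T157.Soft (IsCyl Pn unif ch ABn IAB)
open Crest.Agent.T157.Q1 (Down DownStmt)

/-- **a property of finitely many scalars passes, with a slack, to the other law** -/
theorem transfer (hm : ScMeas) (hu : UtStmt) (s : Finset IS) (A : Set (IS → ℝ)) {δ ε : ℝ}
    (hδ : 0 < δ) (hε : 0 < ε) (h : Off (PB false) ε fun n p => sc n p ∈ A) (b : Bool) :
    Off (PB b) (2 * ε) fun n p => ∃ y ∈ A, ∀ i ∈ s, |sc n p i - y i| ≤ δ := by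
  cases b
  · exact (h.imp fun n p hp => ⟨_, hp, fun i _ => by simpa using hδ.le⟩).le (by linarith)
  rcases A.eq_empty_or_nonempty with rfl | hA
  · obtain ⟨n, hn⟩ := h.exists
    simp only [Set.mem_empty_iff_false, not_false_eq_true, Set.ofPred_true, measure_univ] at hn
    exact .of_forall fun n => prob_le_one.trans (hn.trans (ENNReal.ofReal_le_ofReal (by linarith)))
  let res : (IS → ℝ) → s → ℝ := fun x i => x i
  let φ : (IS → ℝ) → ℝ := fun x => min 1 (Metric.infDist (res x) (res '' A) / δ)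
  have φ0 : ∀ x, 0 ≤ φ x := fun x => le_min zero_le_one (div_nonneg Metric.infDist_nonneg hδ.le)
  have φ1 : ∀ x, φ x ≤ 1 := fun x => min_le_left _ _
  have hφ : IsCyl φ := by
    refine ⟨s, max 1 δ⁻¹, by positivity, fun x => ?_, fun x y => ?_⟩
    · rw [abs_of_nonneg (φ0 x)]; exact (φ1 x).trans (le_max_left _ _)
    · refine (abs_min_sub_min_le_max _ _ _ _).trans ?_
      have d1 : dist (res x) (res y) ≤ ∑ i ∈ s, |x i - y i| :=
        (dist_pi_le_iff (by positivity)).2 fun i =>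
          single_le_sum (f := fun i => |x i - y i|) (fun _ _ => abs_nonneg _) i.2
      have d2 := (Metric.lipschitz_infDist_pt (res '' A)).dist_le_mul (res x) (res y)
      rw [Real.dist_eq, NNReal.coe_one, one_mul] at d2
      rw [sub_self, abs_zero, max_eq_right (abs_nonneg _), ← sub_div, abs_div, abs_of_pos hδ,
        div_eq_inv_mul]
      exact mul_le_mul (le_max_right _ _) (d2.trans d1) (abs_nonneg _) (by positivity)
  have mφ : ∀ n, Measurable fun p => φ (sc n p) := fun n =>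
    hφ.measurable.comp (measurable_pi_lambda _ (hm n))
  have iφ : ∀ b n, Integrable (fun p => φ (sc n p)) (PB b n) := fun b n =>
    (integrable_const (1 : ℝ)).mono' (mφ n).aestronglyMeasurable (.of_forall fun p => by
      rw [Real.norm_eq_abs, abs_of_nonneg (φ0 _)]; exact φ1 _)
  filter_upwards [h, (hu φ hφ).eventually (gt_mem_nhds hε)] with n h1 h2
  have S : MeasurableSet {p | 0 < φ (sc n p)} := measurableSet_lt measurable_const (mφ n)
  have k1 : ∫ p, φ (sc n p) ∂PB false n ≤ ε := by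
    have a1 : ∫ p, φ (sc n p) ∂PB false n ≤
        ∫ p, Set.indicator {p | 0 < φ (sc n p)} (fun _ => (1 : ℝ)) p ∂PB false n :=
      integral_mono (iφ _ n) ((integrable_const _).indicator S) fun p => by
        by_cases hp : 0 < φ (sc n p)
        · rw [Set.indicator_of_mem (by exact hp)]; exact φ1 _
        · rw [Set.indicator_of_notMem (by exact hp)]; exact not_lt.1 hp
    rw [integral_indicator S, setIntegral_const, smul_eq_mul, mul_one] at a1
    refine a1.trans (ENNReal.toReal_le_of_le_ofReal hε.le (le_trans (measure_mono ?_) h1))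
    intro p hp hp'
    have : φ (sc n p) = 0 := by
      simp only [φ, Metric.infDist_zero_of_mem (Set.mem_image_of_mem res hp'), zero_div]
      exact min_eq_right zero_le_one
    exact (ne_of_gt hp) this
  have k2 := mul_meas_ge_le_integral_of_nonneg (μ := PB true n) (.of_forall fun p => φ0 (sc n p))
    (iφ true n) 1
  rw [one_mul] at k2
  refine le_trans (measure_mono (t := {p | 1 ≤ φ (sc n p)}) fun p hp => ?_) ?_
  · refine le_min le_rfl ((one_le_div hδ).2 (not_lt.1 fun hlt => hp ?_))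
    obtain ⟨_, ⟨y, hy, rfl⟩, hd⟩ := (Metric.infDist_lt_iff (hA.image res)).1 hlt
    exact ⟨y, hy, fun i hi => ((dist_le_pi_dist (res (sc n p)) (res y) ⟨i, hi⟩).trans hd.le)⟩
  · rw [← ENNReal.ofReal_toReal (measure_ne_top (PB true n) _)]
    exact ENNReal.ofReal_le_ofReal (k2.trans (by linarith))

/-- Lipschitz functions of finitely many coordinates -/
def LipC {I : Type*} (Ψ : (I → ℝ) → ℝ) : Prop :=
  ∃ (s : Finset I) (K : ℝ), 0 ≤ K ∧ ∀ x y, |Ψ x - Ψ y| ≤ K * ∑ i ∈ s, |x i - y i|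

lemma cyl_comp {I J : Type*} {ψ : (I → ℝ) → ℝ} (hψ : IsCyl ψ) {Ψ : I → (J → ℝ) → ℝ}
    (h : ∀ i, LipC (Ψ i)) : IsCyl fun x => ψ fun i => Ψ i x := by
  classical
  obtain ⟨u, K, hK, hb, hl⟩ := hψ
  choose t L hL h using h
  set W : ℝ := ∑ i ∈ u, L i with hW
  have hW0 : 0 ≤ W := sum_nonneg fun i _ => hL i
  refine ⟨u.biUnion t, K * (1 + W), by positivity, fun x => (hb _).trans ?_,
    fun x y => (hl _ _).trans ?_⟩
  · exact le_mul_of_one_le_right hK (le_add_of_nonneg_right hW0)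
  set S := ∑ α ∈ u.biUnion t, |x α - y α| with hS
  have hS0 : 0 ≤ S := by positivity
  have key : ∑ i ∈ u, |Ψ i x - Ψ i y| ≤ W * S := by
    rw [hW, sum_mul]
    refine sum_le_sum fun i hi => (h i x y).trans (mul_le_mul_of_nonneg_left ?_ (hL i))
    exact sum_le_sum_of_subset_of_nonneg (subset_biUnion_of_mem t hi) fun _ _ _ => abs_nonneg _
  rw [mul_assoc]
  refine mul_le_mul_of_nonneg_left (key.trans ?_) hK
  nlinarith

lemma LipC.meas {I : Type*} {Ψ : (I → ℝ) → ℝ} (h : LipC Ψ) : Measurable Ψ := by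
  have key : ∀ N : ℕ, Measurable fun x => max (-(N : ℝ)) (min N (Ψ x)) := fun N => by
    obtain ⟨s, K, hK, h⟩ := h
    refine IsCyl.measurable ⟨s, max K N, by positivity, fun x => ?_, fun x y => ?_⟩
    · refine le_trans (abs_le.2 ⟨le_max_left _ _, max_le ?_ (min_le_left _ _)⟩) (le_max_right _ _)
      linarith [(N.cast_nonneg : (0 : ℝ) ≤ N)]
    · refine (abs_max_sub_max_le_max _ _ _ _).trans ?_
      rw [sub_self, abs_zero, max_eq_right (abs_nonneg _)]
      refine (abs_min_sub_min_le_max _ _ _ _).trans ?_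
      rw [sub_self, abs_zero, max_eq_right (abs_nonneg _)]
      exact (h x y).trans (mul_le_mul_of_nonneg_right (le_max_left _ _) (by positivity))
  refine measurable_of_tendsto_metrizable key (tendsto_pi_nhds.2 fun x => ?_)
  refine tendsto_const_nhds.congr' ?_
  filter_upwards [tendsto_natCast_atTop_atTop.eventually_ge_atTop |Ψ x|] with N hN
  rw [min_eq_right (abs_le.1 hN).2, max_eq_right (abs_le.1 hN).1]

/-- **the Cauchy argument** -/
theorem conv_of_lip (hm : ScMeas) (hc : CvStmt) (hu : UtStmt)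
    (h : ∀ (i : IAB) (ε : ℝ), 0 < ε → ∃ Ψ : (IS → ℝ) → ℝ, LipC Ψ ∧
      ∀ b, Off (PB b) ε fun n p => |ABn n p.1 i - Ψ (sc n p)| ≤ ε) : Soft.ABFddStmt := by
  intro φ hφ
  have key := Soft.cyl_conv_of_approx (Ω := Om) PB (fun n p => ABn n p.1)
    (fun n i => (Soft.measurable_ABn n i).comp measurable_fst) (fun s ε hε => ?_) φ hφ
  · obtain ⟨L, hL⟩ := key
    refine ⟨L, fun b => (hL b).congr fun n => ?_⟩
    have m : Measurable fun g => φ (ABn n g) :=
      hφ.measurable.comp (measurable_pi_lambda _ (Soft.measurable_ABn n))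
    rw [← integral_map measurable_fst.aemeasurable m.aestronglyMeasurable,
      (measurePreserving_fst (μ := couplingLaw b n) (ν := gv (Fin n))).map_eq]
  set η : ℝ := ε / (s.card + 1) with hη
  have hη0 : 0 < η := by positivity
  have hηε : η ≤ ε := div_le_self hε.le (by linarith [(Nat.cast_nonneg s.card : (0 : ℝ) ≤ _)])
  choose Ψ hΨ hP using fun i => h i η hη0
  refine ⟨fun _ n p i => Ψ i (sc n p),
    fun _ n i => (hΨ i).meas.comp (measurable_pi_lambda _ (hm n)), fun b => ?_, fun ψ hψ => ?_⟩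
  · filter_upwards [(eventually_all_finset s).2 fun i _ => hP i b] with n hn
    calc PB b n {p | ∃ i ∈ s, ε < |ABn n p.1 i - Ψ i (sc n p)|}
        ≤ PB b n (⋃ i ∈ s, {p | ¬ |ABn n p.1 i - Ψ i (sc n p)| ≤ η}) := by
          refine measure_mono fun p ⟨i, hi, h⟩ => ?_
          exact Set.mem_biUnion hi (not_le.2 (hηε.trans_lt h))
      _ ≤ ∑ i ∈ s, PB b n {p | ¬ |ABn n p.1 i - Ψ i (sc n p)| ≤ η} := measure_biUnion_finset_le _ _
      _ ≤ ∑ _i ∈ s, ENNReal.ofReal η := sum_le_sum hn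
      _ = ENNReal.ofReal (s.card * η) := by
          rw [sum_const, nsmul_eq_mul, ENNReal.ofReal_mul (Nat.cast_nonneg _),
            ENNReal.ofReal_natCast]
      _ ≤ ENNReal.ofReal ε := by
          refine ENNReal.ofReal_le_ofReal ?_
          rw [hη, mul_div_assoc', div_le_iff₀ (by positivity)]
          nlinarith
  · obtain ⟨L, hL⟩ := hc _ (cyl_comp hψ hΨ)
    refine ⟨L, fun b => ?_⟩
    cases b
    · exact hL
    · simpa using (hu _ (cyl_comp hψ hΨ)).add hL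

/-- the clipped ratio -/
def rat (m u v : ℝ) : ℝ := max (-1) (min 1 u) / max v m

lemma lipC_rat {I : Type*} {m : ℝ} (hm : 0 < m) (L : ℝ) (i j : I) :
    LipC fun x : I → ℝ => L * rat m (x i) (x j) := by
  classical
  refine ⟨{i, j}, |L| * (1 / m + 1 / m ^ 2), by positivity, fun x y => ?_⟩
  rw [← mul_sub, abs_mul, mul_assoc]
  refine mul_le_mul_of_nonneg_left ?_ (abs_nonneg L)
  set S := ∑ k ∈ ({i, j} : Finset I), |x k - y k|
  have h1 : |x i - y i| ≤ S :=
    single_le_sum (f := fun k => |x k - y k|) (fun _ _ => abs_nonneg _) (by simp)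
  have h2 : |x j - y j| ≤ S :=
    single_le_sum (f := fun k => |x k - y k|) (fun _ _ => abs_nonneg _) (by simp)
  unfold rat
  have a1 : |max (-1) (min 1 (x i)) - max (-1) (min 1 (y i))| ≤ S := by
    refine (abs_max_sub_max_le_max _ _ _ _).trans ?_
    rw [sub_self, abs_zero, max_eq_right (abs_nonneg _)]
    refine (abs_min_sub_min_le_max _ _ _ _).trans ?_
    rwa [sub_self, abs_zero, max_eq_right (abs_nonneg _)]
  have a2 : |max (y j) m - max (x j) m| ≤ S := by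
    refine (abs_max_sub_max_le_max _ _ _ _).trans ?_
    rwa [sub_self, abs_zero, max_eq_left (abs_nonneg _), abs_sub_comm]
  have a3 : |max (-1 : ℝ) (min 1 (y i))| ≤ 1 :=
    abs_le.2 ⟨le_max_left _ _, max_le (by norm_num) (min_le_left _ _)⟩
  have p1 : m ≤ max (x j) m := le_max_right _ _
  have p2 : m ≤ max (y j) m := le_max_right _ _
  generalize max (-1) (min 1 (x i)) = a at *
  generalize max (-1) (min 1 (y i)) = a' at *
  generalize max (x j) m = c at *
  generalize max (y j) m = c' at *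
  have c0 : 0 < c := hm.trans_le p1
  have c1 : 0 < c' := hm.trans_le p2
  have S0 : 0 ≤ S := (abs_nonneg _).trans a1
  have e : a / c - a' / c' = (a - a') / c + a' * ((c' - c) / (c * c')) := by field_simp; ring
  rw [e, add_mul]
  refine (abs_add_le _ _).trans (add_le_add ?_ ?_)
  · rw [abs_div, abs_of_pos c0, one_div_mul_eq_div]; gcongr
  · rw [abs_mul, abs_div, abs_of_pos (mul_pos c0 c1), one_div_mul_eq_div, sq]
    refine (mul_le_of_le_one_left (by positivity) a3).trans ?_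
    gcongr

lemma rat_close {m u v z η : ℝ} (hm : 0 < m) (hv : m ≤ v) (hu : |u| ≤ 1) (h : |u - z * v| ≤ η * v) :
    |z - rat m u v| ≤ η := by
  have v0 : 0 < v := hm.trans_le hv
  rw [rat, min_eq_right (abs_le.1 hu).2, max_eq_right (abs_le.1 hu).1, max_eq_left hv,
    abs_sub_comm, div_sub' v0.ne', abs_div, abs_of_pos v0, div_le_iff₀ v0, mul_comm v z]
  exact h

/-! ### coming down from infinity -/

/-- the level reached at time `t` -/
def hf (a β H₀ t : ℝ) : ℝ := max H₀ ((β / t) ^ (1 / a))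

lemma down_mono {n : ℕ} {g : Pair n → ℝ} {a β β' H₀ H₀' : ℝ} (h : Down n g a β H₀) (h0 : 0 < H₀')
    (h1 : β ≤ β') (h2 : H₀ ≤ H₀') : Down n g a β' H₀' := fun H t hH ht =>
  h H t (h2.trans hH) (le_trans (mul_le_mul_of_nonneg_right h1
    (rpow_nonneg (h0.le.trans hH) _)) ht)

lemma down_both {a ε : ℝ} (h : ∀ b, DownStmt b a) (hε : 0 < ε) : ∃ β H₀ : ℝ, 0 < β ∧ 0 < H₀ ∧
    ∀ b, Off (couplingLaw b) ε fun n g => Down n g a β H₀ := by
  choose β H₀ h1 h2 h3 using fun b => h b ε hε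
  have p : 0 < max (H₀ false) (H₀ true) := lt_max_of_lt_left (h2 _)
  refine ⟨max (β false) (β true), _, lt_max_of_lt_left (h1 _), p, fun b =>
    Off.imp (h3 b) fun n g hg => down_mono hg p ?_ ?_⟩ <;> cases b <;> simp

lemma down_dom {n : ℕ} (hn : 0 < n) {g : Pair n → ℝ} {a β H₀ t t' : ℝ} (ha : 0 < a) (hβ : 0 < β)
    (h : Down n g a β H₀) (ht : 0 < t) (htt : t ≤ t') (y : Cube n) :
    (unif n ᵥ* (ch hn g).H (Soft.tau n t')) y ≤ exp (hf a β H₀ t) * (ch hn g).π y := by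
  have h1 : β * hf a β H₀ t ^ (-a) ≤ t' := by
    have q : 0 < β / t := div_pos hβ ht
    have k : hf a β H₀ t ^ (-a) ≤ ((β / t) ^ (1 / a)) ^ (-a) :=
      rpow_le_rpow_of_nonpos (rpow_pos_of_pos q _) (le_max_right _ _) (by linarith)
    rw [← rpow_mul q.le, show 1 / a * -a = -1 by field_simp, rpow_neg_one, inv_div] at k
    refine le_trans (mul_le_mul_of_nonneg_left k hβ.le) (le_trans (le_of_eq ?_) htt)
    field_simp
  have h2 := fun x => h _ _ (le_max_left _ _) h1 x y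
  rw [Soft.ctKernel_eq_H hn] at h2
  have := Soft.isP_unif.mean_mono (f := fun x => (ch hn g).H (Soft.tau n t') x y) h2
  rwa [Soft.isP_unif.mean_const] at this

lemma small_time {a γ c A B : ℝ} (ha : 0 < a) (hγ : 1 / (3 * a) < γ) (hc : 0 < c) :
    ∀ᶠ ω in 𝓝[>] (0 : ℝ), ∀ H : ℝ, 0 < H → H ≤ A + B * ω ^ (-(1 / a)) →
      2 * ω ^ γ ≤ c * H ^ (-(1 / 3) : ℝ) := by
  have g1 : 0 < 3 * γ - 1 / a := by
    have : 1 / a = 3 * (1 / (3 * a)) := by field_simp
    linarith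
  have g0 : 0 < 3 * γ := by linarith [one_div_pos.2 ha]
  have t : ∀ e : ℝ, 0 < e → Tendsto (fun ω : ℝ => ω ^ e) (𝓝[>] 0) (𝓝 0) := fun e he => by
    have := (continuousAt_rpow_const 0 e (.inr he.le)).tendsto
    rw [zero_rpow he.ne'] at this
    exact this.mono_left nhdsWithin_le_nhds
  have t2 : Tendsto (fun ω : ℝ => 8 / c ^ 3 * (A * ω ^ (3 * γ) + B * ω ^ (3 * γ - 1 / a))) (𝓝[>] 0)
      (𝓝 0) := by
    simpa using (((t _ g0).const_mul A).add ((t _ g1).const_mul B)).const_mul (8 / c ^ 3)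
  filter_upwards [t2.eventually (gt_mem_nhds one_pos), self_mem_nhdsWithin] with ω h1 h0 H H0 hH
  have h0 : 0 < ω := h0
  have e1 : ω ^ (3 * γ) = (ω ^ γ) ^ 3 := by rw [mul_comm, rpow_mul h0.le]; norm_cast
  have e2 : ω ^ (3 * γ - 1 / a) = (ω ^ γ) ^ 3 * ω ^ (-(1 / a)) := by
    rw [sub_eq_add_neg, rpow_add h0, e1]
  have x0 : 0 < ω ^ γ := rpow_pos_of_pos h0 γ
  rw [e1, e2] at h1
  have k : (2 * ω ^ γ / c) ^ 3 ≤ H⁻¹ := by
    rw [← one_div, le_div_iff₀ H0]
    have : (2 * ω ^ γ / c) ^ 3 * H ≤ (2 * ω ^ γ / c) ^ 3 * (A + B * ω ^ (-(1 / a))) := by gcongr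
    refine this.trans (le_trans (le_of_eq ?_) h1.le)
    ring
  have k2 := rpow_le_rpow (by positivity) k (show (0 : ℝ) ≤ 1 / 3 by norm_num)
  rw [← rpow_natCast, ← rpow_mul (by positivity), inv_rpow H0.le, ← rpow_neg H0.le] at k2
  norm_num at k2
  rw [div_le_iff₀ hc, mul_comm _ c] at k2
  convert k2 using 3

end Crest.Agent.T157.Cq.Top72

end
end

-- ▼ part T157/CqTopC_72
section

/-!
# Row 157, part C: the merging step for both laws (helper72)
-/

set_option autoImplicit false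

noncomputable section

namespace Crest.Agent.T157.Cq.Top72

open MeasureTheory Matrix Finset Real Filter Topology
open Crest.ProbabilityR.SpinGlassDynamics Crest.Agent.T157.E
open Crest.Agent.T157.St (muG hat dm Tk)
open Crest.Agent.T157.St.Lnk10 (integral_muG)
open Crest.Agent.T157.Tr (Off Om PM)
open Crest.Agent.T157.Soft (IsCyl Pn unif ch ABn IAB)
open Crest.Agent.T157.Q1 (Down DownStmt)

lemma cut_nonneg (u : ℝ) : 0 ≤ cut u := smoothTransition.nonneg _
lemma cut_le_one (u : ℝ) : cut u ≤ 1 := smoothTransition.le_one _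
lemma cut_one {u : ℝ} (h : u ≤ 1) : cut u = 1 := smoothTransition.one_of_one_le (by linarith)
lemma cut_zero {u : ℝ} (h : 2 ≤ u) : cut u = 0 := smoothTransition.zero_of_nonpos (by linarith)

/-- powers -/
def pw (e : SE) : ℕ → SE
  | 0 => .const 1
  | j + 1 => .mul (pw e j) e

lemma pw_adm {e : SE} (h : e.Adm) : ∀ j, (pw e j).Adm
  | 0 => trivial
  | j + 1 => ⟨pw_adm h j, h⟩

lemma pw_ev {ι : Type*} [Fintype ι] (μ : Measure (ι → ℝ)) (v : (ι → ℝ) → ℝ) (e : SE) (x : ι → ℝ) :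
    ∀ j, (pw e j).ev μ v x = e.ev μ v x ^ j
  | 0 => (pow_zero _).symm
  | j + 1 => by rw [pow_succ, ← pw_ev μ v e x j]; rfl

variable {n : ℕ}

lemma isP_w (g : Pair n → ℝ) : Chain22.IsP (prob (gibbsWeight n 1 g)) :=
  ⟨(SL.Wt.of_pos (gibbsWeight_pos 1 g)).prob_nonneg, (SL.Wt.of_pos (gibbsWeight_pos 1 g)).sum_prob⟩

lemma mk_eq (g : Pair n → ℝ) (M : Matrix (Fin n) (Fin n) ℝ) (l : ℝ) (f : (Fin n → ℝ) → ℝ) :
    mk (muG n g) M l f =
      Chain22.mean (prob (gibbsWeight n 1 g)) fun x => cut (l * qf M x) * f (hat n x) :=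
  integral_muG g _

lemma real_muG (g : Pair n → ℝ) {S : Set (Fin n → ℝ)} (hS : MeasurableSet S) :
    (muG n g).real S = Chain22.mean (prob (gibbsWeight n 1 g)) (Ent.ind fun x => hat n x ∈ S) := by
  rw [← integral_indicator_one hS, integral_muG]
  refine sum_congr rfl fun x _ => ?_
  simp only [Set.indicator, Ent.ind, Pi.one_apply]

lemma abs_mk_le (g : Pair n → ℝ) (M : Matrix (Fin n) (Fin n) ℝ) (l : ℝ) {f : (Fin n → ℝ) → ℝ} (h : ∀ x, |f x| ≤ 1) :
    |mk (muG n g) M l f| ≤ mk (muG n g) M l 1 ∧ mk (muG n g) M l 1 ≤ 1 := by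
  simp only [mk_eq]
  refine ⟨abs_le.2 ⟨?_, (isP_w g).mean_mono fun x =>
    mul_le_mul_of_nonneg_left (abs_le.1 (h _)).2 (cut_nonneg _)⟩,
    ((isP_w g).mean_mono fun x => ?_).trans_eq ((isP_w g).mean_const 1)⟩
  · rw [neg_le_iff_add_nonneg, ← Chain22.mean_add]
    refine (isP_w g).mean_nonneg fun x => ?_
    simp only [Pi.add_apply, Pi.one_apply]
    nlinarith [cut_nonneg (l * qf M x), (abs_le.1 (h (hat n x))).1]
  · simpa using cut_le_one _

/-- upper bound of the marked moment -/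
lemma mk_pow_le (g : Pair n → ℝ) (M : Matrix (Fin n) (Fin n) ℝ) {x₀ x₁ η c z m : ℝ} {u : (Fin n → ℝ) → ℝ} (p : ℕ)
    (hu : B1 u) (hz : |z| ≤ 1) (hx : 0 < x₀) (hx' : 2 * x₀ ≤ x₁) (hη : 0 ≤ η) (hc : |c - z| ≤ η)
    (h : (muG n g).real {x | x ⬝ᵥ M *ᵥ x ≤ x₁ ∧ η < |u x - c|} ≤ m) :
    mk (muG n g) M x₀⁻¹ (fun x => (u x + -z) ^ (2 * p)) ≤ (2 * η) ^ (2 * p) + 2 ^ (2 * p) * m := by
  have hS : MeasurableSet {x : Fin n → ℝ | x ⬝ᵥ M *ᵥ x ≤ x₁ ∧ η < |u x - c|} :=
    (measurableSet_le (f := fun x : Fin n → ℝ => x ⬝ᵥ M *ᵥ x) (by fun_prop) measurable_const).inter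
      (measurableSet_lt measurable_const (hu.1.sub_const c).abs)
  rw [real_muG g hS] at h
  rw [mk_eq]
  refine le_trans ((isP_w g).mean_mono (g := (fun _ => (2 * η) ^ (2 * p)) + (2 : ℝ) ^ (2 * p) •
    Ent.ind fun x => hat n x ∈ {x | x ⬝ᵥ M *ᵥ x ≤ x₁ ∧ η < |u x - c|}) fun x => ?_) ?_
  · have e : (u (hat n x) + -z) ^ (2 * p) = |u (hat n x) - z| ^ (2 * p) := by
      rw [pow_mul, pow_mul, sq_abs, sub_eq_add_neg]
    have k := mul_le_of_le_one_left (pow_nonneg (abs_nonneg (u (hat n x) - z)) (2 * p))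
      (cut_le_one (x₀⁻¹ * qf M x))
    simp only [Pi.add_apply, Pi.smul_apply, smul_eq_mul, Ent.ind, e, Set.mem_ofPred_eq]
    split_ifs with hx2
    · have : |u (hat n x) - z| ≤ 2 := by linarith [abs_sub (u (hat n x)) z, hu.2 (hat n x)]
      have := pow_le_pow_left₀ (abs_nonneg _) this (2 * p)
      linarith [pow_nonneg (show 0 ≤ 2 * η by linarith) (2 * p)]
    · rw [mul_zero, add_zero]
      rcases not_and_or.1 hx2 with h1 | h1
      · rw [cut_zero, zero_mul]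
        · positivity
        · rw [le_inv_mul_iff₀ hx]; unfold qf; linarith [not_le.1 h1]
      · refine k.trans (pow_le_pow_left₀ (abs_nonneg _) ?_ _)
        linarith [abs_sub_le (u (hat n x)) c z, not_lt.1 h1]
  · rw [Chain22.mean_add, Chain22.mean_smul, (isP_w g).mean_const]
    gcongr

/-- Chebyshev -/
lemma ind_le_mk (g : Pair n → ℝ) (M : Matrix (Fin n) (Fin n) ℝ) {x₀ η z : ℝ} (u : (Fin n → ℝ) → ℝ) (p : ℕ)
    (hx : 0 < x₀) (hη : 0 ≤ η) :
    η ^ (2 * p) * Chain22.mean (prob (gibbsWeight n 1 g))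
      (Ent.ind fun y => ¬ x₀ < qf M y ∧ η < |u (hat n y) - z|) ≤
      mk (muG n g) M x₀⁻¹ fun x => (u x + -z) ^ (2 * p) := by
  rw [mk_eq, ← Chain22.mean_smul]
  refine (isP_w g).mean_mono fun x => ?_
  have e : (u (hat n x) + -z) ^ (2 * p) = |u (hat n x) - z| ^ (2 * p) := by
    rw [pow_mul, pow_mul, sq_abs, sub_eq_add_neg]
  simp only [Pi.smul_apply, smul_eq_mul, Ent.ind, e]
  split_ifs with h
  · rw [cut_one, one_mul, mul_one]
    · exact pow_le_pow_left₀ hη h.2.le _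
    · rw [inv_mul_le_iff₀ hx]; linarith [not_lt.1 h.1]
  · rw [mul_zero]; exact mul_nonneg (cut_nonneg _) (by positivity)

/-- the smoothed observable -/
def vE (k K K₁ r : ℝ) (e : SE) : SE := .T K₁ (.Q K (k * K * r) e)
/-- its static flow -/
def uE (k K K₁ r τ : ℝ) (e : SE) : SE := .Q K (k * K * τ) (vE k K K₁ r e)

lemma hf_le {a β H₀ ω : ℝ} (hβ : 0 < β) (hH : 0 < H₀) (hω : 0 < ω) :
    hf a β H₀ (ω / 2) ≤ H₀ + (2 * β) ^ (1 / a) * ω ^ (-(1 / a)) := by
  have e : (β / (ω / 2)) ^ (1 / a) = (2 * β) ^ (1 / a) * ω ^ (-(1 / a)) := by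
    rw [rpow_neg hω.le, ← div_eq_mul_inv, ← div_rpow (by positivity) hω.le]
    congr 1; field_simp
  rw [hf, e]
  exact max_le (le_add_of_nonneg_right (by positivity)) (le_add_of_nonneg_left hH.le)

lemma slack {η m δ z u v u' v' : ℝ} (hη : 0 < η) (hη1 : η ≤ 1 / 4) (hm : 0 < m)
    (hδ : δ ≤ η * m / 6) (hz : |z| ≤ 1) (h1 : m ≤ v') (h2 : |u' - z * v'| ≤ η * v')
    (h3 : |v - v'| ≤ δ) (h4 : |u - u'| ≤ δ) : m / 2 ≤ v ∧ |u - z * v| ≤ 2 * η * v := by
  have a1 : |z * (v - v')| ≤ δ := by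
    rw [abs_mul]; exact (mul_le_of_le_one_left (abs_nonneg _) hz).trans h3
  have δ0 := (abs_nonneg _).trans h3
  rw [abs_le] at *
  have hv : m / 2 ≤ v := by nlinarith [h3.1]
  have a4 : η * v' ≤ η * v + δ := by nlinarith [h3.1]
  have a5 : η * (m / 2) ≤ η * v := by gcongr
  exact ⟨hv, by nlinarith [a1.1, a1.2, h4.1, h2.1], by nlinarith [a1.1, a1.2, h4.2, h2.2]⟩

set_option maxHeartbeats 1000000 in
/-- **the quenched mean of a static observable is close to a marked ratio** -/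
theorem merge {k a s η ε : ℝ} (hk : 0 < k) (ha : 0 < a) (bd : BdStmt) (hm : ScMeas) (hu : UtStmt)
    (sg : ∀ b, SgStmt b k) (ts : TsStmt k) (mg : MgG k) (dn : ∀ b, DownStmt b a)
    (q3 : ∀ b, Q3Stmt b a) (hs : 0 < s) (hη : 0 < η) (hη1 : η ≤ 1 / 4) (hε : 0 < ε) (e : ℝ → SE)
    (he : ∀ K, 0 < K → (e K).Adm ∧ (e K).bd ≤ 1) :
    ∃ τ K₁ l₁ m₁ : ℝ, 0 < τ ∧ τ ≤ s / 2 ∧ 0 < K₁ ∧ 0 < l₁ ∧ 0 < m₁ ∧ ∀ᶠ K in atTop, ∀ b,
      Off (PB b) (7 * ε) fun n p =>
        |um (Pn n p.1 s fun x => (e K).ev (muG n p.1) 0 (hat n x)) -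
          rat m₁ (mk (muG n p.1) (fl n 1 (Wp p)) l₁ ((uE k K K₁ (s - τ) τ (e K)).ev (muG n p.1) 0))
            (mk (muG n p.1) (fl n 1 (Wp p)) l₁ 1)| ≤ 18 * η := by
  classical
  obtain ⟨β, H₀, hβ, hH₀, hdn⟩ := down_both dn hε
  obtain ⟨τ₀, hτ₀, hmg⟩ := mg η ε hη hε
  set τ := min τ₀ (s / 2) with hτ
  have τ0 : 0 < τ := lt_min hτ₀ (by positivity)
  have τs : τ ≤ s / 2 := min_le_right _ _
  have Ege : ∀ t, 1 ≤ exp (hf a β H₀ t) := fun t => one_le_exp (hH₀.le.trans (le_max_left _ _))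
  set E₀ := exp (hf a β H₀ (s / 2))
  set E₁ := exp (hf a β H₀ τ) with hE₁
  have E10 : 0 < E₁ := exp_pos _
  set δ₁ := η / E₁ with hδ₁
  have δ10 : 0 < δ₁ := by positivity
  obtain ⟨K₁, Ka, hK₁, hKa, hts⟩ := ts (s / 2) (δ₁ ^ 2 / 2) ε (by positivity) (by positivity) hε
  obtain ⟨l₁, m₁, c, hl₁, hm₁, hc, hmg⟩ := hmg τ τ0 (min_le_left _ _) K₁ hK₁
  choose γ hγ hq3 using q3
  set lam := -Real.log η with hlam
  have lam1 : 1 ≤ lam := by
    rw [hlam, le_neg, log_le_iff_le_exp hη]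
    refine hη1.trans ?_
    rw [exp_neg, one_div]
    exact inv_anti₀ (exp_pos 1) (by linarith [exp_one_lt_d9])
  have eη : exp (-lam) = η := by rw [hlam, neg_neg, exp_log hη]
  set γ' := min (γ false) (γ true)
  have γ1 : ∀ b, γ' ≤ γ b := fun b => by cases b <;> simp [γ']
  have t1 : Tendsto (fun ω : ℝ => ω / (s / 2) * (2 * E₀ ^ 2)) (𝓝[>] 0) (𝓝 0) := by
    have : Continuous fun ω : ℝ => ω / (s / 2) * (2 * E₀ ^ 2) := by fun_prop
    simpa using (this.tendsto 0).mono_left (nhdsWithin_le_nhds (s := Set.Ioi 0))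
  obtain ⟨ω, ⟨⟨⟨hq, hω1⟩, hω2⟩, hω3⟩, ω0⟩ := (((((eventually_all.2 fun b =>
    hq3 b (min η ε) (lt_min hη hε)).and (t1.eventually (gt_mem_nhds hη))).and
    (small_time (A := 2 * lam * (H₀ + lam + 1)) (B := 2 * lam * (2 * β) ^ (1 / a)) ha
      (lt_min (hγ false) (hγ true)) hc)).and
    ((eventually_lt_nhds one_pos).filter_mono nhdsWithin_le_nhds)).and
      self_mem_nhdsWithin).exists
  have ω0 : 0 < ω := ω0
  set h₂ := hf a β H₀ (ω / 2) with hh₂
  have h20 : 0 < h₂ := hH₀.trans_le (le_max_left _ _)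
  set E₂ := exp h₂ with hE₂
  have E20 : 0 < E₂ := exp_pos _
  set p := ⌈h₂ + lam⌉₊ with hp
  have p1 : h₂ + lam ≤ p := Nat.le_ceil _
  have p2 : (p : ℝ) < h₂ + lam + 1 := Nat.ceil_lt_add_one (by positivity)
  set H := 2 * lam * p with hH
  have H1 : 1 ≤ H := by nlinarith
  set x₀ := ω ^ γ' with hx₀
  have x0 : 0 < x₀ := rpow_pos_of_pos ω0 _
  have x1 : 2 * x₀ ≤ c * H ^ (-(1 / 3) : ℝ) := hω2 H (by linarith) (by
    have := hf_le (a := a) hβ hH₀ ω0
    rw [mul_assoc (2 * lam), ← mul_add]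
    exact mul_le_mul_of_nonneg_left (by linarith) (by positivity))
  have eH : exp (-H) = η ^ (2 * p) := by
    rw [← eη, ← exp_nat_mul]; congr 1; push_cast; ring
  have ep : (2 * η) ^ (2 * p) * E₂ ≤ (4 * η) ^ (2 * p) * η := by
    have a1 : exp (p : ℝ) ≤ 2 ^ (2 * p) := by
      rw [pow_mul, ← mul_one (p : ℝ), exp_nat_mul]
      exact pow_le_pow_left₀ (exp_pos 1).le (by linarith [exp_one_lt_d9]) p
    have a2 : E₂ ≤ exp (p : ℝ) * η := by
      rw [← eη, ← exp_add]; exact exp_le_exp.2 (by linarith)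
    rw [show 4 * η = 2 * η * 2 by ring, mul_pow (2 * η), mul_assoc]
    exact mul_le_mul_of_nonneg_left (a2.trans (mul_le_mul_of_nonneg_right a1 hη.le)) (by positivity)
  obtain ⟨Kb, hKb, hmg⟩ := hmg H H1
  set δ₃ := η / E₂ with hδ₃
  have δ30 : 0 < δ₃ := by positivity
  choose Kc hKc hsg using fun b => sg b τ s 1 1 (min (δ₁ ^ 2) (δ₃ ^ 2)) ε τ0 one_pos
    (by positivity) hε
  obtain ⟨Z, hZ1, hZ2, hZ3⟩ := finite_cover_balls_of_compact (isCompact_Icc (a := (-1 : ℝ)) (b := 1)) hη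
  refine ⟨τ, K₁, l₁, m₁ / 2, τ0, τs, hK₁, hl₁, by positivity, ?_⟩
  filter_upwards [eventually_ge_atTop Ka, eventually_ge_atTop Kb,
    eventually_all.2 fun b => eventually_ge_atTop (Kc b)] with K k1 k2 k3 b
  have K0 : 0 < K := hKa.trans_le k1
  obtain ⟨ea, eb⟩ := he K K0
  have sτ : s / 2 ≤ s - τ := by linarith
  have fa : (SE.Q K (k * K * (s - τ)) (e K)).Adm :=
    ⟨K0, mul_nonneg (by positivity) (by linarith), ea⟩
  have va : (vE k K K₁ (s - τ) (e K)).Adm := ⟨hK₁, fa⟩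
  have ua : (uE k K K₁ (s - τ) τ (e K)).Adm := ⟨K0, by positivity, va⟩
  have b1 : ∀ {n : ℕ} (g : Pair n → ℝ) (e' : SE), e'.Adm → e'.bd ≤ 1 → B1 (e'.ev (muG n g) 0) :=
    fun {n} g e' h1 h2 => by
      have := (bd (Fin n) (muG n g) (St.Lnk10.isProb_dm (gibbsWeight_pos 1 g) _)).2 0
        ⟨measurable_const, fun _ => by simp⟩ e' h1
      exact ⟨this.1, fun x => (this.2 x).trans h2⟩
  set fE := SE.Q K (k * K * (s - τ)) (e K)
  set v := vE k K K₁ (s - τ) (e K)
  set u := uE k K K₁ (s - τ) τ (e K)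
  let iD : IS := (⟨0, le_rfl⟩, ⟨pw (.add fE (.mul (.const (-1)) v)) 2, pw_adm (e := .add _ (.mul (.const _) _)) ⟨fa, trivial, va⟩ _⟩)
  let i1 : IS := (⟨l₁, hl₁.le⟩, ⟨.const 1, trivial⟩)
  let iU : IS := (⟨l₁, hl₁.le⟩, ⟨u, ua⟩)
  let iZ : ℝ → IS := fun z => (⟨x₀⁻¹, by positivity⟩,
    ⟨pw (.add u (.const (-z))) (2 * p), pw_adm (e := .add _ (.const _)) ⟨ua, trivial⟩ _⟩)
  have eD : ∀ {n : ℕ} (q : Om n), sc n q iD =
      ∫ x, (fE.ev (muG n q.1) 0 x - v.ev (muG n q.1) 0 x) ^ 2 ∂muG n q.1 := fun q => by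
    simp only [sc, iD, mk, zero_mul, cut_one zero_le_one, one_mul, pw_ev, SE.ev]
    congr 1; funext x; ring
  have eZ : ∀ {n : ℕ} (q : Om n) z, sc n q (iZ z) = mk (muG n q.1) (fl n 1 (Wp q)) x₀⁻¹
      fun x => (u.ev (muG n q.1) 0 x + -z) ^ (2 * p) := fun q z => by
    simp only [sc, iZ]
    congr 1; funext x; rw [pw_ev]; rfl
  let A : Set (IS → ℝ) := {y | y iD ≤ δ₁ ^ 2 / 2 ∧ m₁ ≤ y i1 ∧ ∃ z ∈ Z,
    |y iU - z * y i1| ≤ η * y i1 ∧ y (iZ z) ≤ 2 * (2 * η) ^ (2 * p)}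
  have hA : Off (PB false) (ε + ε) fun n q => sc n q ∈ A := by
    refine ((Off.fst (ν := fun n => gv (Fin n)) (hts K k1)).and (hmg K k2) hε.le hε.le).imp ?_
    rintro n q ⟨h1, h2, h3⟩
    refine ⟨?_, h2, ?_⟩
    · rw [eD]
      exact h1 _ (b1 _ _ ea eb) _ (mul_le_mul_of_nonneg_left sτ (by positivity))
    · have h4 := h3 _ (b1 q.1 fE fa eb) τ ⟨by linarith, le_rfl⟩ _ rfl
      have ub := b1 q.1 u ua eb
      have h5 := (abs_mk_le q.1 (fl n 1 (Wp q)) l₁ ub.2).1
      have y0 : 0 < mk (muG n q.1) (fl n 1 (Wp q)) l₁ 1 := hm₁.trans_le h2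
      obtain ⟨z, hz, hz'⟩ := Set.mem_iUnion₂.1 (hZ3 (show mk (muG n q.1) (fl n 1 (Wp q)) l₁
        (u.ev (muG n q.1) 0) / mk (muG n q.1) (fl n 1 (Wp q)) l₁ 1 ∈ Set.Icc (-1 : ℝ) 1 from
          abs_le.1 (by rw [abs_div, abs_of_pos y0, div_le_one y0]; exact h5)))
      rw [Metric.mem_ball, Real.dist_eq] at hz'
      refine ⟨z, hz, ?_, ?_⟩
      · rw [div_sub' y0.ne', abs_div, abs_of_pos y0, div_lt_iff₀ y0, mul_comm _ z] at hz'
        exact hz'.le
      · rw [eZ]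
        refine (mk_pow_le q.1 _ p ub (abs_le.2 (hZ1 hz)) x0 x1 hη.le hz'.le h4).trans ?_
        rw [eH, ← mul_pow]; linarith
  set δ := min (min (δ₁ ^ 2 / 2) (η * m₁ / 6)) ((2 * η) ^ (2 * p)) with hδ
  have δa : δ ≤ δ₁ ^ 2 / 2 := (min_le_left _ _).trans (min_le_left _ _)
  have δb : δ ≤ η * m₁ / 6 := (min_le_left _ _).trans (min_le_right _ _)
  have δc : δ ≤ (2 * η) ^ (2 * p) := min_le_right _ _
  have δ0 : 0 < δ := by positivity
  have hT := transfer hm hu (insert iD (insert i1 (insert iU (hZ2.toFinset.image iZ)))) A δ0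
    (by positivity) hA b
  have hS := hsg b K (k3 b) [e K, v] (by
    intro e' he'
    simp only [List.mem_cons, List.not_mem_nil, or_false] at he'
    rcases he' with rfl | rfl
    exacts [⟨ea, eb⟩, ⟨va, eb⟩])
  have all := ((Off.fst (ν := fun n => gv (Fin n)) ((hdn b).and hS hε.le hε.le)).and
    ((hq b).le (min_le_right _ _)) (by positivity) hε.le).and hT (by positivity) (by positivity)
  refine (all.le (by linarith)).mono ((eventually_gt_atTop 0).mono fun n hn q => ?_)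
  rintro ⟨⟨⟨d, hs1⟩, r, ⟨r1, r2⟩, hr⟩, y, ⟨y1, y2, z, hz, y3, y4⟩, hy⟩
  have c1 := abs_le.1 (hy iD (by simp))
  have c2 := abs_le.1 (hy i1 (by simp))
  have c3 := abs_le.1 (hy iU (by simp))
  have c4 := abs_le.1 (hy (iZ z) (by
    simp only [mem_insert, mem_image, Set.Finite.mem_toFinset]
    exact .inr (.inr (.inr ⟨z, hz, rfl⟩))))
  have z1 := abs_le.2 (hZ1 hz)
  have ub := b1 q.1 u ua eb
  have r0 : 0 < r := by linarith
  have tt : ∀ x y : ℝ, Soft.tau n (x + y) = Soft.tau n x + Soft.tau n y := fun x y => by ring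
  have ts' : Soft.tau n (s - τ) = Soft.tau n s - Soft.tau n τ := by ring
  have key := core (c := ch hn q.1) Soft.isP_unif (b := Soft.tau n (s / 2)) (s := Soft.tau n s)
    (τ := Soft.tau n τ) (r := Soft.tau n r) (E₀ := E₀) (E₁ := E₁) (E₂ := E₂) (δ₁ := δ₁) (δ₂ := δ₁)
    (δ₃ := δ₃) (η := 4 * η) (z := z) (q := η) (m := 3 * η / E₂)
    (e := fun x => (e K).ev (muG n q.1) 0 (hat n x)) (f := fun x => fE.ev (muG n q.1) 0 (hat n x))
    (v := fun x => v.ev (muG n q.1) 0 (hat n x)) (u := fun x => u.ev (muG n q.1) 0 (hat n x))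
    (A := fun x => x₀ < qf (fl n 1 (Wp q)) x) (Soft.tau_pos hn (by positivity))
    (le_of_eq (by ring)) (Soft.tau_pos hn τ0).le (Soft.tau_pos hn r0).le (Ege _) E10.le E20.le
    δ10.le δ10.le δ30.le (by positivity) (down_dom hn ha hβ d (by positivity) le_rfl)
    (fun y => by rw [← tt]; exact down_dom hn ha hβ d τ0 (by linarith) y)
    (down_dom hn ha hβ d (by positivity) r1) (fun x => (b1 q.1 _ ea eb).2 _) (fun x => ub.2 _) z1
    (by
      have := ((hs1 (s - τ) ⟨by linarith, by linarith⟩).1 (e K) (by simp)).trans (min_le_left _ _)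
      rw [Sg1, Soft.Pn_eq hn, ts'] at this
      exact this)
    (by
      have := eD q
      rw [integral_muG] at this
      exact this.symm.le.trans (by linarith [c1.2]))
    (by
      have := ((hs1 τ ⟨le_rfl, by linarith⟩).1 v (by simp)).trans (min_le_right _ _)
      rw [Sg1, Soft.Pn_eq hn] at this
      exact this)
    (by
      rw [Sg.mean_vecMul]
      rw [Soft.Pn_eq hn] at hr
      refine le_trans (Soft.isP_unif.mean_mono fun x => (Soft.isP_H (c := ch hn q.1)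
        (Soft.tau_pos hn r0).le x).mean_mono fun y => ?_) (hr.trans (min_le_left _ _))
      have := rpow_le_rpow_of_exponent_ge ω0 hω3.le (γ1 b)
      simp only [Ent.ind]
      split_ifs with h1 h2
      · exact le_rfl
      · exact absurd (this.trans_lt h1) h2
      · exact zero_le_one
      · exact le_rfl)
    (by
      have a1 := ind_le_mk q.1 (fl n 1 (Wp q)) (z := z) (u.ev (muG n q.1) 0) p x0
        (show 0 ≤ 4 * η by positivity)
      rw [← eZ] at a1
      have a0 : 0 < (4 * η) ^ (2 * p) := by positivity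
      rw [le_div_iff₀ E20]
      refine le_of_mul_le_mul_left ?_ a0
      have a2 := mul_le_mul_of_nonneg_right (a1.trans (show sc n q (iZ z) ≤ 3 * (2 * η) ^ (2 * p) by
        linarith [c4.2])) E20.le
      rw [← mul_assoc]
      exact a2.trans (by linarith))
  have e1 : Soft.tau n r / Soft.tau n (s / 2) = r / (s / 2) := by
    have := Soft.N23_pos hn
    have : (0 : ℝ) < n := by exact_mod_cast hn
    field_simp
  have e2 : r / (s / 2) * (2 * E₀ ^ 2) ≤ ω / (s / 2) * (2 * E₀ ^ 2) := by gcongr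
  have e3 : E₁ * δ₁ = η := by rw [hδ₁]; field_simp
  have e4 : E₂ * δ₃ = η := by rw [hδ₃]; field_simp
  have e5 : E₂ * (3 * η / E₂) = 3 * η := by field_simp
  rw [e1, e3, e4, e5, Sg.mean_vecMul, ← Soft.Pn_eq hn] at key
  have m1 := abs_mk_le q.1 (fl n 1 (Wp q)) l₁ ub.2
  obtain ⟨hv, hw⟩ := slack hη hη1 hm₁ δb z1 y2 y3 (abs_le.2 c2) (abs_le.2 c3)
  have k2 := rat_close (by positivity) hv (m1.1.trans m1.2) hw
  exact (abs_sub_le _ z _).trans ((add_le_add key k2).trans (by linarith))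

end Crest.Agent.T157.Cq.Top72

end
end

-- ▼ part T157/CqRed_87
section

/-!
# Row 157, part C: reduction of `A_n`, `B_n` to the bounded static function `psiS` (helper87)
-/

set_option autoImplicit false
set_option linter.unusedSectionVars false

noncomputable section

namespace Crest.Agent.T157.Cq.Red

open MeasureTheory Matrix Filter Topology Finset Real
open Crest.ProbabilityR.SpinGlassDynamics Crest.Agent.T157.E
open Crest.Agent.T157.St Crest.Agent.T157.Ed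
open Crest.Agent.T157.Tr (Off)
open Crest.Agent.T157.Soft (Pn unif ch An Bn rr Gt AA BB XX EC an N23)
open Crest.Agent.T157.Q1 (Down DownStmt LdB)
open Crest.Agent.T157.Chain22 (RC ip IsP)
open Crest.Agent.T157.Sg (stRC ft nv ipV HV MgC mB)

section fin
variable {Ω ι : Type*} [Fintype Ω] [Nonempty Ω] [DecidableEq Ω] [Fintype ι] [DecidableEq ι]
  {φ : Ω → ι → ℝ} {w : Ω → ℝ} (hw : ∀ x, 0 < w x) {K : ℝ} (hK : 0 ≤ K)

lemma Tk_fun (f : (ι → ℝ) → ℝ) :
    (fun x => Tk K (dm w φ) f (φ x)) = (stRC φ hw hK).P *ᵥ fun x => f (φ x) :=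
  funext fun x => Sg.Tk_dm hw hK f x

lemma iter_fun (f : (ι → ℝ) → ℝ) (j : ℕ) :
    (fun x => (Tk K (dm w φ))^[j] f (φ x)) = (stRC φ hw hK).P ^ j *ᵥ fun x => f (φ x) := by
  induction j with
  | zero => simp
  | succ j ih => rw [Function.iterate_succ_apply', Tk_fun hw hK, ih, pow_succ', mulVec_mulVec]

/-- the Poissonised static chain is the heat flow of `stRC` -/
lemma Qs_fun (c : ℝ) (f : (ι → ℝ) → ℝ) :
    (fun x => Qs K c (dm w φ) f (φ x)) = (stRC φ hw hK).H c *ᵥ fun x => f (φ x) := by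
  funext x
  rw [← ((stRC φ hw hK).hasSum_H_mulVec c _ x).tsum_eq, Qs]
  exact tsum_congr fun j => by rw [← iter_fun hw hK]

end fin

section lam
variable {Ω ι : Type*} [Fintype Ω] [DecidableEq Ω] [Fintype ι]

/-- diagonal of a smoothed kernel -/
def Lm (d d' : RC Ω) (c : ℝ) (F : Ω → Ω → ℝ) (x : Ω) : ℝ :=
  ∑ a, d'.P x a * (d.H c *ᵥ (d'.P *ᵥ F a)) x

variable (d d' : RC Ω) {c : ℝ}

lemma Lm_eq (F : Ω → Ω → ℝ) (x : Ω) :
    Lm d d' c F x = ∑ a, ∑ y, ∑ a', d'.P x a * d.H c x y * d'.P y a' * F a a' := by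
  simp only [Lm, mulVec, dotProduct, mul_sum, mul_assoc]

lemma Lm_rr (f : ι → Ω → ℝ) : Lm d d' c (rr f) = Gt d (fun i => d'.P *ᵥ f i) c := by
  funext x
  rw [Lm_eq, Gt, sum_comm]
  refine sum_congr rfl fun y _ => ?_
  rw [Sg.rr_mulVec, Fintype.sum_prod_type, mul_sum]
  refine sum_congr rfl fun a _ => ?_
  rw [mul_sum]
  exact sum_congr rfl fun a' _ => by ring

lemma abs_Lm_sub (hc : 0 ≤ c) {F G E : Ω → Ω → ℝ} {r : ℝ} (h : ∀ a a', |F a a' - G a a'| ≤ r * E a a')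
    (x : Ω) : |Lm d d' c F x - Lm d d' c G x| ≤ r * Lm d d' c E x := by
  simp only [Lm_eq, ← sum_sub_distrib, ← mul_sub, mul_sum]
  refine (abs_sum_le_sum_abs _ _).trans (sum_le_sum fun a _ => (abs_sum_le_sum_abs _ _).trans
    (sum_le_sum fun y _ => (abs_sum_le_sum_abs _ _).trans (sum_le_sum fun a' _ => ?_)))
  have h0 : 0 ≤ d'.P x a * d.H c x y * d'.P y a' :=
    mul_nonneg (mul_nonneg (d'.nn _ _) (d.H_nn hc _ _)) (d'.nn _ _)
  rw [abs_mul, abs_of_nonneg h0, mul_left_comm]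
  exact mul_le_mul_of_nonneg_left (h a a') h0

lemma mean_Lm_rr (hπ : d'.π = d.π) (hp : d'.PSD) (hc : 0 ≤ c) (f : ι → Ω → ℝ) :
    Chain22.mean d.π (Lm d d' c (rr f)) ≤ ∑ i, ip d.π (f i) (d'.P *ᵥ f i) := by
  rw [Lm_rr, ← Soft.AA_eq]
  refine sum_le_sum fun i _ => (Soft.ip_H_le_self _ hc).trans ?_
  rw [← hπ]
  exact hp.ip_P_P_le _

omit [Fintype Ω] [DecidableEq Ω] in
lemma rr_sq (a : ι → Ω → ℝ) (x y : Ω) :
    rr (fun (p : ι × ι) x => a p.1 x * a p.2 x) x y = rr a x y ^ 2 := by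
  simp only [rr, sq, sum_mul_sum, Fintype.sum_prod_type]
  exact sum_congr rfl fun i _ => sum_congr rfl fun j _ => by ring

end lam

lemma abs_sub_sin (v : ℝ) : |v - sin v| ≤ 2 * v ^ 2 := by
  wlog hv : 0 ≤ v generalizing v
  · have := this (-v) (by linarith)
    rwa [sin_neg, neg_sub_neg, abs_sub_comm, neg_sq] at this
  rw [abs_of_nonneg (sub_nonneg.2 (sin_le hv))]
  rcases hv.eq_or_lt with rfl | h0
  · simp
  rcases le_total v 1 with h1 | h1
  · nlinarith [sin_gt_sub_cube h0, mul_nonneg (sq_nonneg v) (sub_nonneg.2 h1)]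
  · nlinarith [neg_one_le_sin v]

lemma abs_sub_Lsin {L : ℝ} (hL : 0 < L) (u : ℝ) : |u - L * sin (u / L)| ≤ 2 / L * u ^ 2 := by
  have e : u - L * sin (u / L) = L * (u / L - sin (u / L)) := by field_simp
  rw [e, abs_mul, abs_of_pos hL]
  refine (mul_le_mul_of_nonneg_left (abs_sub_sin _) hL.le).trans (le_of_eq ?_)
  field_simp

variable {n : ℕ}

/-- the static chain of the cube in hatted units -/
abbrev dK (g : Pair n → ℝ) {K : ℝ} (hK : 0 ≤ K) : RC (Cube n) :=
  stRC (hat n) (gibbsWeight_pos 1 g) hK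

lemma an_eq_ft (n : ℕ) : an n = ft (hat n) := by
  funext i x
  simp only [an, ft, hat, sx_pow, Pi.smul_apply, smul_eq_mul, sv]
  norm_num


lemma psi_fun (g : Pair n → ℝ) {K K' : ℝ} (hK : 0 ≤ K) (hK' : 0 ≤ K') (L c : ℝ) :
    (fun x => psiS (muG n g) L K' K c (hat n x)) =
      Lm (dK g hK) (dK g hK') c fun a a' => L * sin (rr (ft (hat n)) a a' / L) := by
  funext x
  rw [psiS, muG, Sg.Tk_dm (gibbsWeight_pos 1 g) hK']
  refine sum_congr rfl fun a _ => ?_
  have h1 := congrFun (Qs_fun (φ := hat n) (gibbsWeight_pos 1 g) hK c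
    (Tk K' (dm (gibbsWeight n 1 g) (hat n)) fun a' => L * sin (hat n a ⬝ᵥ a' / L))) x
  rw [Tk_fun (gibbsWeight_pos 1 g) hK'] at h1
  exact congrArg (fun u => (dK g hK').P x a * u) h1

lemma sum_ip_sq_le (hn : 0 < n) (g : Pair n → ℝ) {K' : ℝ} (hK' : 0 ≤ K') :
    ∑ p : Fin n × Fin n, ip (prob (gibbsWeight n 1 g)) (fun x => hat n x p.1 * hat n x p.2)
      ((dK g hK').P *ᵥ fun x => hat n x p.1 * hat n x p.2) ≤
      1 + 24 * XX (ch hn g) (ft (hat n)) (K' + 1) := by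
  have hw := gibbsWeight_pos (n := n) 1 g
  have hW := SL.Wt.of_pos hw
  have h1 := Un.mean_E2_le (φ := hat n) hw hK' fun x y => rr (ft (hat n)) x y ^ 2
  have e1 : mean (gibbsWeight n 1 g) (Un.E2 (hat n) K' (gibbsWeight n 1 g)
      fun x y => rr (ft (hat n)) x y ^ 2) = slE (hat n) (gibbsWeight n 1 g) K' fun _ y =>
        Un.m2 (post (hat n) (gibbsWeight n 1 g) K' y) fun x y => rr (ft (hat n)) x y ^ 2 := rfl
  simp only [Sg.ip_stRC hw hK']
  rw [← SL.slE_sum _ fun p _ => .of_mg fun _ => (Rec.mg_pm hW K' _).mul (Rec.mg_pm hW K' _)]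
  simp only [← sq, Un.sum_mean_sq]
  refine le_trans (le_of_eq ?_) ((e1 ▸ h1).trans (add_le_add le_rfl ?_))
  · congr 1
    funext _ y
    congr 1
    funext x x'
    exact rr_sq (ft (hat n)) x x'
  rw [XX, mul_sum]
  refine sum_le_sum fun x _ => ?_
  rw [mul_sum]
  refine sum_le_sum fun y _ => ?_
  rw [mul_left_comm (24 : ℝ)]
  refine mul_le_mul_of_nonneg_left ?_ (mul_nonneg (hW.prob_nonneg x) (hW.prob_nonneg y))
  have h2 := Real.pow_div_factorial_le_exp _ (abs_nonneg (rr (ft (hat n)) x y)) 4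
  rw [show (4 : ℕ) = 2 * 2 from rfl, pow_mul, sq_abs] at h2
  norm_num [Nat.factorial] at h2
  rw [add_mul, one_mul, exp_add, mul_comm (exp _), ← mul_assoc]
  refine mul_le_mul (by linarith) (exp_le_exp.2 (mul_le_mul_of_nonneg_left (le_abs_self _) hK'))
    (exp_pos _).le (by positivity)

/-- `L¹` distance of `b · Q b` and of its bounded version -/
lemma l1_le (hn : 0 < n) (g : Pair n → ℝ) {K K' L c : ℝ} (hK : 0 ≤ K) (hK' : 0 ≤ K') (hL : 0 < L)
    (hc : 0 ≤ c) : Chain22.mean (ch hn g).π (fun x =>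
      |Gt (dK g hK) (fun i => (dK g hK').P *ᵥ ft (hat n) i) c x -
        psiS (muG n g) L K' K c (hat n x)|) ≤
      2 / L * (1 + 24 * XX (ch hn g) (ft (hat n)) (K' + 1)) := by
  have h1 := mean_Lm_rr (dK g hK) (dK g hK') rfl (Sg.stRC_psd _ hK') hc
    fun (p : Fin n × Fin n) x => ft (hat n) p.1 x * ft (hat n) p.2 x
  refine le_trans ?_ (mul_le_mul_of_nonneg_left (h1.trans (sum_ip_sq_le hn g hK')) (by positivity))
  rw [← Ent.mean_const_mul]
  refine (ch hn g).isP.mean_mono fun x => ?_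
  rw [← Lm_rr, congrFun (psi_fun g hK hK' L c) x]
  exact abs_Lm_sub _ _ hc (fun a a' => by rw [rr_sq]; exact abs_sub_Lsin hL _) x

lemma sg1_eq (hn : 0 < n) (g : Pair n → ℝ) {K : ℝ} (hK : 0 ≤ K) (c r : ℝ) (f : (Fin n → ℝ) → ℝ) :
    Sg1 n g K c r f = ip (ch hn g).π
      ((ch hn g).H (Soft.tau n r) *ᵥ (fun x => f (hat n x)) - (dK g hK).H c *ᵥ fun x => f (hat n x))
      ((ch hn g).H (Soft.tau n r) *ᵥ (fun x => f (hat n x)) -
        (dK g hK).H c *ᵥ fun x => f (hat n x)) := by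
  rw [Sg1, Soft.Pn_eq hn, ← Qs_fun (gibbsWeight_pos 1 g) hK]
  simp only [sq]
  rfl

lemma mgc_of (hn : 0 < n) {g : Pair n → ℝ} {B : ℝ}
    (h : ¬ ∃ θ : ℝ, 0 ≤ θ ∧ B * exp (B * θ ^ (3 / 2 : ℝ)) < Soft.Xth n g θ) :
    MgC (ch hn g) (ft (hat n)) (2 * |B| + 1) := fun θ hθ => by
  have h1 := not_lt.1 fun h' => h ⟨θ, hθ, h'⟩
  have h2 := Soft.XX_le hn g θ
  rw [an_eq_ft] at h2
  have h3 : B * exp (B * θ ^ (3 / 2 : ℝ)) ≤ |B| * exp ((2 * |B| + 1) * θ ^ (3 / 2 : ℝ)) :=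
    mul_le_mul (le_abs_self B) (exp_le_exp.2 (mul_le_mul_of_nonneg_right
      (by linarith [le_abs_self B, abs_nonneg B]) (by positivity))) (exp_pos _).le (abs_nonneg B)
  nlinarith [exp_pos ((2 * |B| + 1) * θ ^ (3 / 2 : ℝ))]

lemma um_Pn (hn : 0 < n) (g : Pair n → ℝ) (s : ℝ) (f : Cube n → ℝ) :
    um (Pn n g s f) = Chain22.mean (unif n ᵥ* (ch hn g).H (Soft.tau n s)) f := by
  rw [Sg.mean_vecMul, Soft.Pn_eq hn]; rfl

/-- the law at time `s` is dominated -/
lemma down_le (hn : 0 < n) {g : Pair n → ℝ} {a β H₀ H s : ℝ} (h : Down n g a β H₀) (hH : H₀ ≤ H)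
    (hs : β * H ^ (-a) ≤ s) {ν : Cube n → ℝ} (hν : IsP ν) (y : Cube n) :
    (ν ᵥ* (ch hn g).H (Soft.tau n s)) y ≤ exp H * (ch hn g).π y := by
  have := hν.mean_mono (f := fun x => (ch hn g).H (Soft.tau n s) x y)
    (g := fun _ => exp H * (ch hn g).π y) fun x => by
      rw [← Soft.ctKernel_eq_H hn]; exact h H s hH hs x y
  rwa [hν.mean_const] at this

lemma mean_le_of_dom {Ω : Type*} [Fintype Ω] {ν p f : Ω → ℝ} {M : ℝ} (hν : IsP ν)
    (h : ∀ y, ν y ≤ M * p y) : |Chain22.mean ν f| ≤ M * Chain22.mean p fun x => |f x| := by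
  rw [Chain22.mean, Chain22.mean, mul_sum]
  refine (abs_sum_le_sum_abs _ _).trans (sum_le_sum fun x _ => ?_)
  rw [abs_mul, abs_of_nonneg (hν.nn x), ← mul_assoc]
  exact mul_le_mul_of_nonneg_right (h x) (abs_nonneg _)

/-- **reduction to a bounded static function** -/
theorem red {b : Bool} {k a : ℝ} (hk : 0 < k) (ha : 0 < a) (h1 : SgStmt b k) (h2 : DownStmt b a)
    (h3 : LdB b) {s t η ε : ℝ} (hs : 0 < s) (ht : 0 < t) (hη : 0 < η) (hε : 0 < ε) :
    ∀ᶠ K' in atTop, ∀ᶠ L in atTop, ∀ᶠ K in atTop, Off (couplingLaw b) ε fun n g =>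
      |An n g t - ∫ x, psiS (muG n g) L K' K (k * K * t) x ∂muG n g| ≤ η ∧
      |Bn n g s t - um (Pn n g s fun x => psiS (muG n g) L K' K (k * K * t) (hat n x))| ≤ η := by
  have e3 : 0 < ε / 3 := by positivity
  obtain ⟨β, H₀, hβ, hH₀, hD⟩ := h2 _ e3
  obtain ⟨B, hB⟩ := h3 _ e3
  have m0 : 0 < min s t := lt_min hs ht
  obtain ⟨H, H1, H2⟩ := ((eventually_ge_atTop H₀).and (((tendsto_rpow_neg_atTop ha).const_mul
    β).eventually (ge_mem_nhds (show β * 0 < min s t by simpa using m0)))).exists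
  have B0 : 0 < 2 * |B| + 1 := by positivity
  filter_upwards [Sg.master H B0 (half_pos hη), eventually_gt_atTop 0] with K' ⟨δ, M, δ0, hM⟩ K0
  have tL : Tendsto (fun L : ℝ => exp H * (2 / L * (1 + 24 * mB (2 * |B| + 1) (K' + 1)))) atTop
      (𝓝 0) := by
    simpa using ((tendsto_id.const_div_atTop (2 : ℝ)).mul_const
      (1 + 24 * mB (2 * |B| + 1) (K' + 1))).const_mul (exp H)
  filter_upwards [tL.eventually (ge_mem_nhds (half_pos hη)), eventually_gt_atTop 0] with L hL L0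
  obtain ⟨K₀, K₀0, hS⟩ := h1 t t 0 K' (δ ^ 2) (ε / 3) ht K0 (by positivity) e3
  filter_upwards [eventually_ge_atTop K₀] with K hK
  have hK0 : 0 ≤ K := K₀0.le.trans hK
  have o1 : Off (couplingLaw b) (ε / 3) fun n g => Down n g a β H₀ := hD
  have o2 : Off (couplingLaw b) (ε / 3) fun n g =>
      ¬ ∃ θ : ℝ, 0 ≤ θ ∧ B * exp (B * θ ^ (3 / 2 : ℝ)) < Soft.Xth n g θ := by
    simpa only [Off, not_not] using hB
  refine (((o1.and o2 e3.le e3.le).and (hS K hK [] (by simp)) (by positivity) e3.le).le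
    (le_of_eq (by ring))).mono ?_
  filter_upwards [eventually_gt_atTop 0] with n hn g ⟨⟨g1, g2⟩, g3⟩
  have c0 : 0 ≤ k * K * t := by positivity
  have hX := mgc_of hn g2
  have hEC : EC (ch hn g) (Soft.tau n (min s t)) H :=
    Soft.ec_of hn (not_exists.2 fun x => not_lt.2 (Q1.Down.kl hn g1 H1 H2 m0.le x))
  have hnv : nv (ch hn g).π (HV (ch hn g) (Soft.tau n t) (fun i => (dK g K0.le).P *ᵥ ft (hat n) i) -
      HV (dK g hK0) (k * K * t) fun i => (dK g K0.le).P *ᵥ ft (hat n) i) ≤ δ := by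
    refine Sg.nv_le_of_sq δ0.le (le_trans (le_of_eq ?_) (g3 t ⟨le_rfl, le_rfl⟩).2)
    refine sum_congr rfl fun i _ => ?_
    rw [sg1_eq hn g hK0, muG, Tk_fun (gibbsWeight_pos 1 g) K0.le]
    rfl
  obtain ⟨a1, a2⟩ := (((hM _ _ (hat n) _ (gibbsWeight_pos 1 g) K0.le (ch hn g) (dK g hK0) rfl rfl hX _
    rfl).2 _ c0).2 _ _ (Soft.tau_pos hn m0).le (Soft.tau_le hn (min_le_right _ _)) hEC hnv)
  have a3 := a2 (unif n) _ _ 0 Soft.isP_unif (Soft.tau_le hn (min_le_left _ _)) le_rfl le_rfl (by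
    simp [sub_self, HV, RC.H_zero, nv, ipV, ip, δ0.le])
  have l1 := (l1_le hn g hK0 K0.le L0 c0).trans (mul_le_mul_of_nonneg_left (add_le_add le_rfl
    (mul_le_mul_of_nonneg_left (hX (K' + 1) (by positivity)) (by norm_num))) (by positivity))
  have H0 : 1 ≤ exp H := one_le_exp (hH₀.le.trans H1)
  have b1 := mean_le_of_dom (f := Gt (dK g hK0) (fun i => (dK g K0.le).P *ᵥ ft (hat n) i) (k * K * t) -
    fun x => psiS (muG n g) L K' K (k * K * t) (hat n x)) (ch hn g).isP (p := (ch hn g).π) (M := exp H)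
    fun y => le_mul_of_one_le_left ((ch hn g).pos y).le H0
  have b2 := mean_le_of_dom (f := Gt (dK g hK0) (fun i => (dK g K0.le).P *ᵥ ft (hat n) i) (k * K * t) -
    fun x => psiS (muG n g) L K' K (k * K * t) (hat n x))
    (Soft.isP_vecMul (c := ch hn g) Soft.isP_unif (Soft.tau_pos hn hs).le)
    (down_le hn g1 H1 (H2.trans (min_le_left _ _)) Soft.isP_unif)
  have b3 := (mul_le_mul_of_nonneg_left l1 (exp_pos H).le).trans hL
  rw [Chain22.mean_sub] at b1 b2
  rw [Soft.AA_eq (c := dK g hK0)] at a1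
  rw [RC.H_zero, one_mulVec] at a3
  rw [Soft.An_eq_AA hn, Soft.Bn_eq_BB hn, an_eq_ft, Lnk10.integral_muG, um_Pn hn]
  exact ⟨(abs_sub_le _ _ _).trans ((add_le_add a1 (b1.trans b3)).trans_eq (add_halves η)),
    (abs_sub_le _ _ _).trans ((add_le_add a3 (b2.trans b3)).trans_eq (add_halves η))⟩

end Crest.Agent.T157.Cq.Red

end
end

-- ▼ part T157/CqTop_72
section

/-!
# Row 157, part C: `TopGlue` (helper72)
-/

set_option autoImplicit false

noncomputable section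

namespace Crest.Agent.T157.Cq

open MeasureTheory Matrix Finset Real Filter Topology
open Crest.ProbabilityR.SpinGlassDynamics Crest.Agent.T157.E
open Crest.Agent.T157.St (muG hat)
open Crest.Agent.T157.Tr (Off Om PM)
open Crest.Agent.T157.Soft (Pn unif ABn)
open Top72

theorem topGlue : TopGlue := by
  intro k a hk ha bd hm hc hu sg ts mg dn ld q3
  refine conv_of_lip hm hc hu fun i ε hε => ?_
  have par : ∀ s t : ℝ, 0 < s → 0 < t → ∃ K' L : ℝ, 0 < K' ∧ 1 ≤ L ∧ ∀ᶠ K in atTop, ∀ b,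
      Off (couplingLaw b) (ε / 2) fun n g =>
        |Soft.An n g t - ∫ x, psiS (muG n g) L K' K (k * K * t) x ∂muG n g| ≤ ε / 2 ∧
        |Soft.Bn n g s t - um (Pn n g s fun x => psiS (muG n g) L K' K (k * K * t) (hat n x))| ≤
          ε / 2 := fun s t hs ht => by
    obtain ⟨K', h1, h2⟩ := ((eventually_gt_atTop 0).and (eventually_all.2 fun b =>
      Red.red hk ha (sg b) (dn b) (ld b) hs ht (half_pos hε) (half_pos hε))).exists
    obtain ⟨L, h3, h4⟩ := ((eventually_ge_atTop 1).and (eventually_all.2 h2)).exists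
    exact ⟨K', L, h1, h3, eventually_all.2 h4⟩
  rcases i with t | ⟨s, t⟩
  · obtain ⟨K', L, h1, h2, h3⟩ := par 1 t one_pos t.2
    obtain ⟨K, K0, h4⟩ := ((eventually_gt_atTop 0).and h3).exists
    have t0 : (0 : ℝ) < t := t.2
    refine ⟨fun x => x (⟨0, le_rfl⟩, ⟨.psi L K' K (k * K * t), h2, h1, K0, by positivity⟩),
      ⟨{_}, 1, zero_le_one, fun x y => by rw [sum_singleton, one_mul]⟩, fun b => ?_⟩
    refine ((Off.fst (ν := fun n => gv (Fin n)) (h4 b)).le (by linarith)).imp fun n p hp => ?_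
    simp only [sc, mk, zero_mul, cut_one zero_le_one, one_mul, SE.ev]
    exact hp.1.trans (by linarith)
  · have s0 : (0 : ℝ) < s := s.2
    have t0 : (0 : ℝ) < t := t.2
    obtain ⟨K', L, h1, h2, h3⟩ := par s t s0 t0
    have L0 : 0 < L := by linarith
    set η := min (1 / 4) (ε / (36 * L)) with hη
    have η0 : 0 < η := by positivity
    have η1 : 18 * η * L ≤ ε / 2 := by
      have := (le_div_iff₀ (by positivity)).1 (min_le_right (1 / 4) (ε / (36 * L)))
      linarith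
    have ad : ∀ K, 0 < K → (SE.mul (.const L⁻¹) (.psi L K' K (k * K * t))).Adm ∧
        (SE.mul (.const L⁻¹) (.psi L K' K (k * K * t))).bd ≤ 1 := fun K K0 =>
      ⟨⟨trivial, h2, h1, K0, by positivity⟩, by
        simp only [SE.bd]; rw [abs_of_pos (inv_pos.2 L0), inv_mul_cancel₀ L0.ne']⟩
    obtain ⟨τ, K₁, l₁, m₁, τ0, τs, hK₁, hl₁, hm₁, h5⟩ := merge (ε := ε / 14) hk ha bd hm hu sg ts mg
      dn q3 s0 η0 (min_le_left _ _) (by positivity) _ ad
    obtain ⟨K, ⟨K0, h4⟩, h6⟩ := (((eventually_gt_atTop 0).and h3).and h5).exists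
    have ua : (uE k K K₁ (s - τ) τ (.mul (.const L⁻¹) (.psi L K' K (k * K * t)))).Adm :=
      ⟨K0, by positivity, hK₁, K0, mul_nonneg (by positivity) (by linarith), (ad K K0).1⟩
    refine ⟨_, lipC_rat hm₁ L (⟨l₁, hl₁.le⟩, ⟨_, ua⟩) (⟨l₁, hl₁.le⟩, ⟨.const 1, trivial⟩),
      fun b => ?_⟩
    refine (((Off.fst (ν := fun n => gv (Fin n)) (h4 b)).and (h6 b) (by positivity)
      (by positivity)).le (by linarith)).imp fun n p hp => ?_
    obtain ⟨⟨-, a1⟩, a2⟩ := hp
    have e : um (Pn n p.1 s fun x => psiS (muG n p.1) L K' K (k * K * t) (hat n x)) =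
        L * um (Pn n p.1 s fun x => (SE.mul (.const L⁻¹) (.psi L K' K (k * K * t))).ev
          (muG n p.1) 0 (hat n x)) := by
      simp only [um, Pn, SE.ev, mul_sum]
      refine sum_congr rfl fun x _ => sum_congr rfl fun y _ => ?_
      field_simp
    have a3 := mul_le_mul_of_nonneg_left a2 L0.le
    rw [← abs_of_pos L0, ← abs_mul, abs_of_pos L0, mul_sub, ← e] at a3
    exact (abs_sub_le _ _ _).trans ((add_le_add a1 a3).trans (by linarith))

end Crest.Agent.T157.Cq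

end
end

-- ▼ part T157/KernA_16
section

/-!
# Row 157, kernel estimates, part A (helper16)

Decreasing convex sequences, their convolutions, and renewal sequences with exponential memory.
-/

set_option autoImplicit false

noncomputable section

namespace Crest.Agent.T157.Cq.Kern16

open Finset Real

/-- nonnegative, decreasing, convex -/
structure CM (a : ℕ → ℝ) : Prop where
  nn : ∀ j, 0 ≤ a j
  dec : ∀ j, a (j + 1) ≤ a j
  cvx : ∀ j, a (j + 1) - a (j + 2) ≤ a j - a (j + 1)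

theorem CM.anti {a : ℕ → ℝ} (h : CM a) : Antitone a := antitone_nat_of_succ_le h.dec

theorem CM.danti {a : ℕ → ℝ} (h : CM a) : Antitone fun j => a j - a (j + 1) :=
  antitone_nat_of_succ_le h.cvx

theorem CM.avg {a : ℕ → ℝ} (h : CM a) (j : ℕ) : (j + 1) * a j ≤ ∑ i ∈ range (j + 1), a i := by
  have := card_nsmul_le_sum (range (j + 1)) a (a j) fun i hi =>
    h.anti (Nat.lt_succ_iff.1 (mem_range.1 hi))
  simpa using this

theorem CM.dle {a : ℕ → ℝ} (h : CM a) (j : ℕ) :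
    (j + 1) * (j + 2) / 2 * (a j - a (j + 1)) ≤ ∑ i ∈ range (j + 1), a i := by
  have key : ∀ j : ℕ, (j + 1) * (j + 2) / 2 * (a j - a (j + 1)) + (j + 1) * a (j + 1) ≤
      ∑ i ∈ range (j + 1), a i := by
    intro j
    induction j with
    | zero => simp
    | succ j ih =>
      rw [sum_range_succ]
      have h1 := h.cvx j
      have h2 : (0 : ℝ) ≤ (j + 1) * (j + 2) / 2 := by positivity
      have h3 := mul_le_mul_of_nonneg_left h1 h2
      push_cast
      nlinarith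
  have h1 := key j
  have h2 : (0 : ℝ) ≤ (j + 1) * a (j + 1) := mul_nonneg (by positivity) (h.nn _)
  linarith

theorem cm_geom {p : ℝ} (h0 : 0 ≤ p) (h1 : p ≤ 1) : CM fun j => p ^ j := by
  refine ⟨fun j => by positivity, fun j => pow_le_pow_of_le_one h0 h1 (by omega), fun j => ?_⟩
  have : 0 ≤ p ^ j * (1 - p) ^ 2 := by positivity
  simp only [pow_succ] at this ⊢
  nlinarith

theorem cheb {a b : ℕ → ℝ} (ha : Antitone a) (hb : Antitone b) (M : ℕ) :
    (∑ i ∈ range M, a i) * ∑ i ∈ range M, b i ≤ M * ∑ i ∈ range M, a i * b i := by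
  have := ((ha.monovary hb).monovaryOn (range M : Finset ℕ)).sum_mul_sum_le_card_mul_sum
  simpa using this

theorem conv_le {a b : ℕ → ℝ} (ha : Antitone a) (hb : Antitone b) (m : ℕ) :
    ∑ i ∈ range (m + 1), a (m - i) * b i ≤ ∑ i ∈ range (m + 1), a i * b i := by
  have h1 : 0 ≤ ∑ i ∈ range (m + 1), (a i - a (m - i)) * (b i - b (m - i)) := by
    refine sum_nonneg fun i _ => ?_
    rcases le_total i (m - i) with h | h
    · exact mul_nonneg (sub_nonneg.2 (ha h)) (sub_nonneg.2 (hb h))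
    · exact mul_nonneg_of_nonpos_of_nonpos (sub_nonpos.2 (ha h)) (sub_nonpos.2 (hb h))
  have h2 : ∑ i ∈ range (m + 1), a (m - i) * b (m - i) = ∑ i ∈ range (m + 1), a i * b i :=
    sum_flip fun i => a i * b i
  have h3 : ∑ i ∈ range (m + 1), a i * b (m - i) = ∑ i ∈ range (m + 1), a (m - i) * b i := by
    rw [← sum_flip fun i => a i * b (m - i)]
    refine sum_congr rfl fun i hi => ?_
    have : m - (m - i) = i := by have := mem_range.1 hi; omega
    rw [this]
  have h4 : ∑ i ∈ range (m + 1), (a i - a (m - i)) * (b i - b (m - i)) =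
      ∑ i ∈ range (m + 1), a i * b i - ∑ i ∈ range (m + 1), a i * b (m - i) -
        ∑ i ∈ range (m + 1), a (m - i) * b i + ∑ i ∈ range (m + 1), a (m - i) * b (m - i) := by
    rw [← sum_sub_distrib, ← sum_sub_distrib, ← sum_add_distrib]
    exact sum_congr rfl fun i _ => by ring
  linarith

theorem d_mul_sum {a b : ℕ → ℝ} {G : ℝ} (ha : CM a) (hb : CM b)
    (hG : ∀ M, ∑ i ∈ range M, a i * b i ≤ G) {s r : ℕ} (hr : r ≤ s + 1) :
    (s + 2) * ((a s - a (s + 1)) * ∑ i ∈ range r, b i) ≤ 2 * G := by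
  have h1 : ∑ i ∈ range r, b i ≤ ∑ i ∈ range (s + 1), b i :=
    sum_le_sum_of_subset_of_nonneg (range_subset_range.2 hr) fun i _ _ => hb.nn i
  have h0 : 0 ≤ ∑ i ∈ range r, b i := sum_nonneg fun i _ => hb.nn i
  have h2 := ha.dle s
  have h3 := cheb ha.anti hb.anti (s + 1)
  have h4 := hG (s + 1)
  have h5 : 0 ≤ ∑ i ∈ range (s + 1), a i := sum_nonneg fun i _ => ha.nn i
  have h6 := mul_le_mul h2 h1 h0 h5
  have h7 : (0 : ℝ) < s + 1 := by positivity
  push_cast at h3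
  have h8 := mul_le_mul_of_nonneg_left h4 h7.le
  refine le_of_mul_le_mul_left ?_ h7
  nlinarith

theorem conv_step {a b : ℕ → ℝ} {G : ℝ} (ha : CM a) (hb : CM b)
    (hG : ∀ M, ∑ i ∈ range M, a i * b i ≤ G) (m : ℕ) :
    m * |∑ i ∈ range (m + 1 + 1), a (m + 1 - i) * b i - ∑ i ∈ range (m + 1), a (m - i) * b i| ≤
      8 * G := by
  obtain ⟨p, s, hm, hps, hsp⟩ : ∃ p s : ℕ, m = p + s ∧ p ≤ s ∧ s ≤ p + 1 :=
    ⟨m / 2, m - m / 2, by omega, by omega, by omega⟩
  have G0 : 0 ≤ G := by simpa using hG 0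
  have e1 : ∑ i ∈ range (m + 1 + 1), a (m + 1 - i) * b i =
      ∑ i ∈ range (p + 1), a (m - i + 1) * b i + (∑ i ∈ range s, a (s - 1 - i) * b (p + 1 + i + 1) +
        a s * b (p + 1)) := by
    rw [show m + 1 + 1 = (p + 1) + (s + 1) by omega, sum_range_add, sum_range_succ' _ s]
    congr 1
    · refine sum_congr rfl fun i hi => ?_
      have : m + 1 - i = m - i + 1 := by have := mem_range.1 hi; omega
      rw [this]
    · congr 1
      · refine sum_congr rfl fun i hi => ?_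
        have : m + 1 - (p + 1 + (i + 1)) = s - 1 - i := by omega
        rw [this, add_assoc (p + 1)]
      · have : m + 1 - (p + 1 + 0) = s := by omega
        rw [this]
  have e2 : ∑ i ∈ range (m + 1), a (m - i) * b i =
      ∑ i ∈ range (p + 1), a (m - i) * b i + ∑ i ∈ range s, a (s - 1 - i) * b (p + 1 + i) := by
    rw [show m + 1 = (p + 1) + s by omega, sum_range_add]
    congr 1
    refine sum_congr rfl fun i hi => ?_
    have : m - (p + 1 + i) = s - 1 - i := by omega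
    rw [this]
  set T1 := ∑ i ∈ range (p + 1), (a (m - i) - a (m - i + 1)) * b i with hT1
  set T3 := ∑ i ∈ range s, a (s - 1 - i) * (b (p + 1 + i) - b (p + 1 + i + 1)) with hT3
  have e3 : ∑ i ∈ range (m + 1 + 1), a (m + 1 - i) * b i - ∑ i ∈ range (m + 1), a (m - i) * b i =
      a s * b (p + 1) - T1 - T3 := by
    rw [e1, e2, hT1, hT3]
    simp only [sub_mul, mul_sub, sum_sub_distrib]
    ring
  have t10 : 0 ≤ T1 := sum_nonneg fun i _ => mul_nonneg (sub_nonneg.2 (ha.dec _)) (hb.nn _)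
  have t30 : 0 ≤ T3 := sum_nonneg fun i _ => mul_nonneg (ha.nn _) (sub_nonneg.2 (hb.dec _))
  have t20 : 0 ≤ a s * b (p + 1) := mul_nonneg (ha.nn _) (hb.nn _)
  have t1 : T1 ≤ (a s - a (s + 1)) * ∑ i ∈ range (p + 1), b i := by
    rw [mul_sum]
    refine sum_le_sum fun i hi => mul_le_mul_of_nonneg_right ?_ (hb.nn i)
    exact ha.danti (show s ≤ m - i by have := mem_range.1 hi; omega)
  have t3 : T3 ≤ (b (p + 1) - b (p + 1 + 1)) * ∑ i ∈ range s, a i := by
    rw [← sum_range_reflect a s, mul_sum]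
    refine sum_le_sum fun i _ => ?_
    rw [mul_comm]
    exact mul_le_mul_of_nonneg_right (hb.danti (show p + 1 ≤ p + 1 + i by omega)) (ha.nn _)
  have t1' := d_mul_sum ha hb hG (show p + 1 ≤ s + 1 by omega)
  have t3' := d_mul_sum hb ha (fun M => by simpa only [mul_comm] using hG M)
    (show s ≤ p + 1 + 1 by omega)
  have t2 : (p + 1) * (a s * b (p + 1)) ≤ G := by
    refine le_trans ?_ (hG (p + 1))
    have := card_nsmul_le_sum (range (p + 1)) (fun i => a i * b i) (a s * b (p + 1)) fun i hi =>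
      mul_le_mul (ha.anti (by have := mem_range.1 hi; omega))
        (hb.anti (by have := mem_range.1 hi; omega)) (hb.nn _) (ha.nn _)
    simpa using this
  have m1 : (m : ℝ) ≤ 2 * (s + 2) := by
    have : m ≤ 2 * (s + 2) := by omega
    exact_mod_cast this
  have m2 : (m : ℝ) ≤ 2 * (p + 1) := by
    have : m ≤ 2 * (p + 1) := by omega
    exact_mod_cast this
  have m0 : (0 : ℝ) ≤ m := by positivity
  push_cast at t3'
  have u1 : m * T1 ≤ 4 * G := by
    have := mul_le_mul m1 t1 t10 (by positivity)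
    linarith
  have u3 : m * T3 ≤ 4 * G := by
    have := mul_le_mul (show (m : ℝ) ≤ 2 * (p + 1 + 2) by linarith) t3 t30 (by positivity)
    linarith
  have u2 : m * (a s * b (p + 1)) ≤ 2 * G := by
    have := mul_le_mul_of_nonneg_right m2 t20
    linarith
  rw [e3, ← abs_of_nonneg m0, ← abs_mul, abs_le]
  have := mul_nonneg m0 t10
  have := mul_nonneg m0 t30
  have := mul_nonneg m0 t20
  constructor <;> nlinarith

theorem tele (f : ℕ → ℝ) (a l : ℕ) (δ : ℝ) (h : ∀ j, a ≤ j → j < a + l → |f (j + 1) - f j| ≤ δ) :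
    |f (a + l) - f a| ≤ l * δ := by
  induction l with
  | zero => simp
  | succ l ih =>
    have h1 := ih fun j hj hj' => h j hj (by omega)
    have h2 := h (a + l) (by omega) (by omega)
    have h3 := abs_sub_le (f (a + l + 1)) (f (a + l)) (f a)
    rw [← add_assoc]
    push_cast
    linarith

theorem geom_le {p : ℝ} (h0 : 0 ≤ p) (h1 : p < 1) (M : ℕ) :
    ∑ i ∈ range M, p ^ i ≤ (1 - p)⁻¹ := by
  rw [← tsum_geometric_of_lt_one h0 h1]
  exact (summable_geometric_of_lt_one h0 h1).sum_le_tsum _ fun i _ => by positivity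

theorem geom_ge {δ : ℝ} (h0 : 0 ≤ δ) (h1 : δ ≤ 1) (M : ℕ) :
    (M : ℝ) ≤ (∑ i ∈ range M, (1 - δ) ^ i) * (1 + M * δ) := by
  have h2 := geom_sum_mul_neg (1 - δ) M
  have h3 := card_nsmul_le_sum (range M) (fun i => (1 - δ) ^ i) ((1 - δ) ^ M) fun i hi =>
    pow_le_pow_of_le_one (by linarith) (by linarith) (mem_range.1 hi).le
  simp only [card_range, nsmul_eq_mul, sub_sub_cancel] at h2 h3
  have : (∑ i ∈ range M, (1 - δ) ^ i) * (M * δ) = M * (1 - (1 - δ) ^ M) := by rw [← h2]; ring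
  nlinarith

theorem pow_le_exp {x y : ℝ} (hx : 0 ≤ x) {m : ℕ} (h : m * x ≤ y) : (1 + x) ^ m ≤ exp y := by
  have h1 : 1 + x ≤ exp x := by linarith [add_one_le_exp x]
  calc (1 + x) ^ m ≤ exp x ^ m := pow_le_pow_left₀ (by linarith) h1 m
    _ = exp (m * x) := (exp_nat_mul x m).symm
    _ ≤ exp y := exp_le_exp.2 h

theorem exp_half_le : exp (1 / 2) ≤ 2 := by
  have h : exp (1 / 2) ^ 2 ≤ 2 ^ 2 := by
    rw [← exp_nat_mul]
    have := exp_one_lt_d9
    norm_num
    linarith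
  exact (pow_le_pow_iff_left₀ (exp_pos _).le (by norm_num) two_ne_zero).1 h

theorem exp_two_le : exp 2 ≤ 8 := by
  have h : exp 2 = exp 1 ^ 2 := by rw [← exp_nat_mul]; norm_num
  have := exp_one_lt_d9
  have := exp_pos 1
  rw [h]; nlinarith

/-! ### moments of a contraction -/

section op
variable {V : Type*} [AddCommGroup V] (ip : V → V → ℝ) (B : V → V)

theorem cm_of_op (hs : ∀ x y, ip x y = ip y x) (hsub : ∀ x y z, ip x (y - z) = ip x y - ip x z)
    (hB : ∀ x y, B (x - y) = B x - B y) (hsym : ∀ x y, ip x (B y) = ip (B x) y)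
    (h0 : ∀ x, 0 ≤ ip x (B x)) (h1 : ∀ x, ip x (B x) ≤ ip x x) (e : V) :
    CM fun m => ip e (B^[m] e) := by
  have hsub' : ∀ x y z, ip (y - z) x = ip y x - ip z x := fun x y z => by
    rw [hs, hsub, hs x, hs x]
  have two : ∀ m e, ip e (B^[m + 2] e) = ip (B e) (B^[m] (B e)) := fun m e => by
    rw [Function.iterate_succ_apply', hsym, Function.iterate_succ_apply]
  have hit : ∀ m x y, B^[m] (x - y) = B^[m] x - B^[m] y := fun m => by
    induction m with
    | zero => simp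
    | succ m ih => intro x y; simp only [Function.iterate_succ_apply', ih, hB]
  have N : ∀ m e, 0 ≤ ip e (B^[m] e) := fun m => by
    induction m using Nat.twoStepInduction with
    | zero => exact fun e => (h0 e).trans (h1 e)
    | one => exact h0
    | more m ih _ => intro e; rw [two]; exact ih _
  have D : ∀ m e, ip e (B^[m + 1] e) ≤ ip e (B^[m] e) := fun m => by
    induction m using Nat.twoStepInduction with
    | zero => exact h1
    | one =>
      intro e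
      have a1 := h1 (B e)
      have a2 := h0 (e - B e)
      rw [hB, hsub, hsub', hsub'] at a2
      have a3 := hsym e (B e)
      change ip e (B (B e)) ≤ ip e (B e)
      linarith
    | more m ih _ => intro e; rw [show m + 2 + 1 = m + 1 + 2 by ring, two, two]; exact ih _
  refine ⟨fun m => N m e, fun m => D m e, fun m => ?_⟩
  have a1 := N m (e - B e)
  rw [hit, hsub, hsub', hsub', ← two, ← hsym, ← Function.iterate_succ_apply,
    ← Function.iterate_succ_apply' B] at a1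
  simp only [Nat.succ_eq_add_one] at a1
  linarith

end op

/-! ### renewal sequences -/

section ren
variable {ι : Type*} [Fintype ι]

/-- hidden state -/
def hid (p : ℝ) (ρ : ℕ → ℝ) : ℕ → ℝ
  | 0 => 0
  | j + 1 => p * hid p ρ j + ρ j

theorem hid_succ (p : ℝ) (ρ : ℕ → ℝ) (j : ℕ) :
    hid p ρ (j + 1) = ∑ i ∈ range (j + 1), p ^ (j - i) * ρ i := by
  induction j with
  | zero => simp [hid]
  | succ j ih =>
    rw [hid, ih, sum_range_succ _ (j + 1), mul_sum]
    congr 1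
    · refine sum_congr rfl fun i hi => ?_
      have : j + 1 - i = j - i + 1 := by have := mem_range.1 hi; omega
      rw [this, pow_succ]; ring
    · simp

theorem hid_nonneg {p : ℝ} {ρ : ℕ → ℝ} (hp : 0 ≤ p) (hρ : ∀ j, 0 ≤ ρ j) (j : ℕ) :
    0 ≤ hid p ρ j := by
  induction j with
  | zero => simp [hid]
  | succ j ih => exact add_nonneg (mul_nonneg hp ih) (hρ j)

/-- the renewal equation -/
def Ren (q : ι → ℝ) (c σ κ : ℝ) (ρ : ℕ → ℝ) : Prop :=
  ρ 0 = κ ∧ ∀ j, ρ (j + 1) = c * ρ j + σ * ∑ k, (q k * hid (q k) ρ j + ρ j)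

theorem ren_of {q : ι → ℝ} {c σ κ : ℝ} {ρ : ℕ → ℝ} (h0 : ρ 0 = κ) (h : ∀ j, ρ (j + 1) =
    c * ρ j + σ * ∑ i ∈ range (j + 1), (∑ k, q k ^ (j - i)) * ρ i) : Ren q c σ κ ρ := by
  refine ⟨h0, fun j => ?_⟩
  rw [h]
  congr 2
  simp only [sum_mul]
  rw [sum_comm]
  exact sum_congr rfl fun k _ => (hid_succ (q k) ρ j).symm

theorem Ren.cm {q : ι → ℝ} {c σ κ Y : ℝ} {ρ : ℕ → ℝ} (h : Ren q c σ κ ρ) (hq : ∀ k, 0 ≤ q k)
    (hqY : ∀ k, q k < Y) (hY : 0 < Y) (hc : 0 ≤ c) (hσ : 0 ≤ σ) (hκ : 0 < κ)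
    (hg : c + σ * ∑ k, Y / (Y - q k) ≤ Y) : CM fun j => ρ j / Y ^ j := by
  let ip : ℝ × (ι → ℝ) → ℝ × (ι → ℝ) → ℝ := fun x y => x.1 * y.1 + σ * ∑ k, q k * x.2 k * y.2 k
  let B : ℝ × (ι → ℝ) → ℝ × (ι → ℝ) := fun x =>
    ((c * x.1 + σ * ∑ k, (q k * x.2 k + x.1)) / Y, fun k => (q k * x.2 k + x.1) / Y)
  have form : ∀ x y, ip x (B y) =
      (c * x.1 * y.1 + σ * ∑ k, (q k * x.2 k + x.1) * (q k * y.2 k + y.1)) / Y := fun x y => by
    have : ∑ k, (q k * x.2 k + x.1) * (q k * y.2 k + y.1) = x.1 * ∑ k, (q k * y.2 k + y.1) +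
        Y * ∑ k, q k * x.2 k * ((q k * y.2 k + y.1) / Y) := by
      rw [mul_sum, mul_sum, ← sum_add_distrib]
      exact sum_congr rfl fun k _ => by field_simp; ring
    simp only [ip, B]
    rw [this]
    field_simp
    ring
  have hs : ∀ x y, ip x y = ip y x := fun x y => by
    simp only [ip]
    rw [mul_comm x.1]
    congr 2
    exact sum_congr rfl fun k _ => by ring
  have key := cm_of_op ip B hs (fun x y z => by
      simp only [ip, Prod.fst_sub, Prod.snd_sub, Pi.sub_apply, mul_sub, sum_sub_distrib]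
      ring) (fun x y => by
      have : ∑ k, (q k * (x.2 k - y.2 k) + (x.1 - y.1)) =
          ∑ k, (q k * x.2 k + x.1) - ∑ k, (q k * y.2 k + y.1) := by
        rw [← sum_sub_distrib]
        exact sum_congr rfl fun k _ => by ring
      ext
      · simp only [B, Prod.fst_sub, Prod.snd_sub, Pi.sub_apply, this]
        ring
      · simp only [B, Prod.fst_sub, Prod.snd_sub, Pi.sub_apply]
        ring) (fun x y => by
      rw [hs (B x), form, form]
      congr 2
      · ring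
      · congr 1
        exact sum_congr rfl fun k _ => by ring) (fun x => by
      rw [form]
      refine div_nonneg (add_nonneg ?_ (mul_nonneg hσ (sum_nonneg fun k _ => mul_self_nonneg _)))
        hY.le
      rw [mul_assoc]
      exact mul_nonneg hc (mul_self_nonneg _)) (fun x => by
      rw [form, div_le_iff₀ hY]
      have h1 : ∑ k, (q k * x.2 k + x.1) * (q k * x.2 k + x.1) ≤
          x.1 ^ 2 * ∑ k, Y / (Y - q k) + Y * ∑ k, q k * x.2 k * x.2 k := by
        rw [mul_sum, mul_sum, ← sum_add_distrib]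
        refine sum_le_sum fun k _ => ?_
        have h2 : 0 < Y - q k := sub_pos.2 (hqY k)
        have h3 : 0 ≤ q k / (Y - q k) * (x.1 - (Y - q k) * x.2 k) ^ 2 :=
          mul_nonneg (div_nonneg (hq k) h2.le) (sq_nonneg _)
        have h4 : x.1 ^ 2 * (Y / (Y - q k)) + Y * (q k * x.2 k * x.2 k) -
            (q k * x.2 k + x.1) * (q k * x.2 k + x.1) =
            q k / (Y - q k) * (x.1 - (Y - q k) * x.2 k) ^ 2 := by
          field_simp
          ring
        linarith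
      have h2 := mul_le_mul_of_nonneg_left h1 hσ
      have h3 := mul_le_mul_of_nonneg_left hg (sq_nonneg x.1)
      simp only [ip]
      nlinarith) (κ, 0)
  have st : ∀ j, B^[j] (κ, 0) = (ρ j / Y ^ j, fun k => hid (q k) ρ j / Y ^ j) := fun j => by
    induction j with
    | zero => ext <;> simp [h.1, hid]
    | succ j ih =>
      rw [Function.iterate_succ_apply', ih]
      have : ∑ k, (q k * (hid (q k) ρ j / Y ^ j) + ρ j / Y ^ j) =
          (∑ k, (q k * hid (q k) ρ j + ρ j)) / Y ^ j := by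
        rw [sum_div]
        exact sum_congr rfl fun k _ => by ring
      ext
      · simp only [B, this, h.2 j, pow_succ]
        field_simp
      · simp only [B, hid, pow_succ]
        field_simp
  have ev : ∀ j, ip (κ, 0) (B^[j] (κ, 0)) = κ * (ρ j / Y ^ j) := fun j => by
    rw [st]; simp [ip]
  simp only [ev] at key
  refine ⟨fun j => nonneg_of_mul_nonneg_right ?_ hκ, fun j => le_of_mul_le_mul_left (key.dec j) hκ,
    fun j => le_of_mul_le_mul_left ?_ hκ⟩
  · exact key.nn j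
  · have := key.cvx j
    linarith

/-- the conserved functional -/
def phi (q : ι → ℝ) (σ Y : ℝ) (ρ : ℕ → ℝ) (j : ℕ) : ℝ :=
  ρ j + σ * ∑ k, q k / (Y - q k) * hid (q k) ρ j

theorem Ren.gen {q : ι → ℝ} {c σ κ Y : ℝ} {ρ : ℕ → ℝ} (h : Ren q c σ κ ρ) (hqY : ∀ k, q k < Y)
    (hY : 0 < Y) (M : ℕ) : κ = (1 - (c + σ * ∑ k, Y / (Y - q k)) / Y) *
      ∑ j ∈ range M, ρ j / Y ^ j + phi q σ Y ρ M / Y ^ M := by
  induction M with
  | zero => simp [phi, hid, h.1]
  | succ M ih =>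
    have h1 : ∑ k, (q k * hid (q k) ρ M + ρ M) + ∑ k, q k / (Y - q k) * hid (q k) ρ (M + 1) =
        (∑ k, Y / (Y - q k)) * ρ M + Y * ∑ k, q k / (Y - q k) * hid (q k) ρ M := by
      rw [sum_mul, mul_sum, ← sum_add_distrib, ← sum_add_distrib]
      refine sum_congr rfl fun k _ => ?_
      have h2 : Y - q k ≠ 0 := (sub_pos.2 (hqY k)).ne'
      rw [hid]
      field_simp
      ring
    have h2 : phi q σ Y ρ (M + 1) = (c + σ * ∑ k, Y / (Y - q k)) * ρ M +
        Y * (phi q σ Y ρ M - ρ M) := by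
      simp only [phi]
      rw [h.2 M]
      linear_combination σ * h1
    rw [sum_range_succ, h2, ih, pow_succ]
    field_simp
    ring

theorem phi_nonneg {q : ι → ℝ} {σ Y : ℝ} {ρ : ℕ → ℝ} (hq : ∀ k, 0 ≤ q k) (hqY : ∀ k, q k < Y)
    (hσ : 0 ≤ σ) (hρ : ∀ j, 0 ≤ ρ j) (j : ℕ) : 0 ≤ phi q σ Y ρ j :=
  add_nonneg (hρ j) (mul_nonneg hσ (sum_nonneg fun k _ =>
    mul_nonneg (div_nonneg (hq k) (sub_pos.2 (hqY k)).le) (hid_nonneg (hq k) hρ j)))

theorem phi_mono {q : ι → ℝ} {σ X Y : ℝ} {ρ : ℕ → ℝ} (hq : ∀ k, 0 ≤ q k) (hqX : ∀ k, q k < X)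
    (hXY : X ≤ Y) (hσ : 0 ≤ σ) (hρ : ∀ j, 0 ≤ ρ j) (j : ℕ) : phi q σ Y ρ j ≤ phi q σ X ρ j := by
  refine add_le_add_right (mul_le_mul_of_nonneg_left (sum_le_sum fun k _ => ?_) hσ) _
  refine mul_le_mul_of_nonneg_right ?_ (hid_nonneg (hq k) hρ j)
  exact div_le_div_of_nonneg_left (hq k) (sub_pos.2 (hqX k)) (by linarith)

end ren

end Crest.Agent.T157.Cq.Kern16

end
private theorem rz_40938410b4 : type_of% @_root_.Crest.Agent.T157.Cq.Kern16.hid.eq_def := @_root_.Crest.Agent.T157.Cq.Kern16.hid.eq_def -- L274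
private theorem rz_a372c2a6b1 : type_of% @_root_.Crest.Agent.T157.Cq.Kern16.hid.eq_1 := @_root_.Crest.Agent.T157.Cq.Kern16.hid.eq_1 -- L274
end

-- ▼ part T157/KernB_16
section

/-!
# Row 157, kernel estimates, part B (helper16)

The renewal sequence of a good spectrum: transform and pointwise bounds.
-/

set_option autoImplicit false

noncomputable section

namespace Crest.Agent.T157.Cq.Kern16

open Finset Real
open Crest.Agent.T157.St Crest.Agent.T157.Ed

theorem Sr_sub {n : ℕ} {η : ℕ → ℝ} {w v : ℝ} (t : ℝ) (hw : ∀ k, k < n → 0 < w + η k)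
    (hv : w ≤ v) :
    Sr n η t w - Sr n η t v = (v - w) * ∑ k ∈ range n, 1 / ((w + η k) * (v + η k)) := by
  unfold Sr
  rw [mul_sum, sub_sub_sub_cancel_right, ← sum_sub_distrib]
  refine sum_congr rfl fun k hk => ?_
  have h1 := hw k (mem_range.1 hk)
  have h2 : 0 < v + η k := by linarith
  field_simp
  ring

theorem eta_lo {n : ℕ} {η : ℕ → ℝ} {t L w C : ℝ} (h : Gd n η t L w C) (hw : 2 * L + 1 ≤ w) (k : ℕ)
    (hk : k < n) : -(w / 2) ≤ η k := by
  have h1 := h.lo k hk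
  have : 0 ≤ ((k : ℝ) + 1) ^ (2 / 3 : ℝ) / 256 := by positivity
  linarith

/-- the lower bound of `-S` -/
theorem Sr_lo {n : ℕ} {η : ℕ → ℝ} {t L w C : ℝ} (h : Gd n η t L w C) (ht : t ^ 3 = n)
    (ht0 : 0 ≤ t) (hL : 0 ≤ L) (hw : 2 * L + 1 ≤ w) (v : ℝ) (h1 : w ≤ v) (h2 : v ≤ 16 * t ^ 2) :
    1 / 1024000 * √v ≤ -Sr n η t v := by
  have w1 : 1 ≤ w := by linarith
  have hp : ∀ k, k < n → 0 < w + η k := fun k hk => by linarith [eta_lo h hw k hk]
  have e := Sr_sub t hp h1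
  have up := h.up
  have s0 : 0 ≤ ∑ k ∈ range n, 1 / ((w + η k) * (v + η k)) := sum_nonneg fun k hk => by
    have := hp k (mem_range.1 hk)
    have : 0 < v + η k := by linarith
    positivity
  have sw := sqrt_nonneg w
  rcases le_total v (2 * w + 1600) with hv | hv
  · have : √v ≤ 41 * √w := by
      rw [sqrt_le_left (by positivity), mul_pow, sq_sqrt (by linarith)]
      linarith
    have := mul_nonneg (sub_nonneg.2 h1) s0
    linarith
  · have v0 : 0 < v := by linarith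
    have r2 : √v ^ 2 = v := sq_sqrt v0.le
    have r40 : 40 ≤ √v := le_sqrt_of_sq_le (by linarith)
    have r4 : √v ≤ 4 * t := by
      rw [sqrt_le_left (by positivity)]; linarith
    have key := Sp.Gap15.low (s := √v / 40) h ht (by linarith) (by linarith)
      (fun k => 1 / ((w + η k) * (v + η k))) (fun k => by
        have := hp k k.2
        have : 0 < v + η k := by linarith
        positivity) (1 / (4 * v ^ 2)) (by positivity) fun k hk => by
        have a1 := hp k k.2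
        have a2 : 0 < v + η k := by linarith
        have a3 : η k ≤ v := by rw [div_pow, r2] at hk; linarith
        refine one_div_le_one_div_of_le (by positivity) ?_
        calc (w + η k) * (v + η k) ≤ (2 * v) * (2 * v) :=
              mul_le_mul (by linarith) (by linarith) a2.le (by linarith)
          _ = 4 * v ^ 2 := by ring
    rw [Fin.sum_univ_eq_sum_range (fun k => 1 / ((w + η k) * (v + η k))) n] at key
    have k2 := mul_le_mul (show v / 2 ≤ v - w by linarith) key (by positivity) (by linarith)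
    have k3 : v / 2 * ((√v / 40) ^ 3 / 2 * (1 / (4 * v ^ 2))) = 1 / 1024000 * √v := by
      have : (√v / 40) ^ 3 = v * √v / 64000 := by
        rw [div_pow, pow_succ, r2]; norm_num
      rw [this]
      field_simp
      norm_num
    linarith

/-- standing hypotheses -/
structure Hy (n : ℕ) (η : ℕ → ℝ) (t κ h w C c V : ℝ) (ρ : ℕ → ℝ) : Prop where
  h0 : 0 < h
  κ0 : 0 < κ
  w1 : 1 ≤ w
  t0 : 0 ≤ t
  c0 : 0 < c
  C0 : 0 ≤ C
  wV : w ≤ V
  Vκ : 4 * V ≤ κ ^ 2
  q0 : ∀ k, k < n → 2 * η k * h ≤ 1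
  ht : h * κ * t ≤ 1
  ηl : ∀ k, k < n → -(w / 2) ≤ η k
  lo : ∀ v, w ≤ v → v ≤ V → c * √v ≤ -Sr n η t v
  dn : ∀ v, w ≤ v → -Sr n η t v ≤ C * √v
  ren : Ren (fun k : Fin n => 1 - 2 * η k * h) (1 - h * κ * t) (2 * h ^ 2 * κ) κ ρ

namespace Hy

variable {n : ℕ} {η : ℕ → ℝ} {t κ h w C c V : ℝ} {ρ : ℕ → ℝ} (H : Hy n η t κ h w C c V ρ)
include H

theorem pos {v : ℝ} (hv : w ≤ v) {k : ℕ} (hk : k < n) : 0 < v + η k := by
  linarith [H.ηl k hk, H.w1]

theorem Y1 {v : ℝ} (hv : w ≤ v) : 1 ≤ 1 + 2 * h * v := by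
  have := mul_pos H.h0 (show 0 < v by linarith [H.w1])
  linarith

theorem qlt {v : ℝ} (hv : w ≤ v) (k : Fin n) : 1 - 2 * η k * h < 1 + 2 * h * v := by
  have := mul_pos H.h0 (H.pos hv k.2)
  linarith

theorem gam {v : ℝ} (hv : w ≤ v) :
    1 - (1 - h * κ * t + 2 * h ^ 2 * κ * ∑ k : Fin n, (1 + 2 * h * v) /
      (1 + 2 * h * v - (1 - 2 * η k * h))) / (1 + 2 * h * v) =
      h * κ * -Sr n η t v + (1 - h * κ * t) * (2 * h * v) / (1 + 2 * h * v) := by
  have h0 := H.h0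
  have Y := H.Y1 hv
  have : ∑ k : Fin n, (1 + 2 * h * v) / (1 + 2 * h * v - (1 - 2 * η k * h)) =
      (1 + 2 * h * v) / (2 * h) * ∑ k ∈ range n, 1 / (v + η k) := by
    rw [← Fin.sum_univ_eq_sum_range (fun k => 1 / (v + η k)) n, mul_sum]
    refine sum_congr rfl fun k _ => ?_
    have := H.pos hv k.2
    rw [show 1 + 2 * h * v - (1 - 2 * η k * h) = 2 * h * (v + η k) by ring]
    field_simp
  rw [this, Sr]
  generalize ∑ k ∈ range n, 1 / (v + η k) = S
  obtain ⟨y, hy⟩ : ∃ y, y = 1 + 2 * h * v := ⟨_, rfl⟩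
  have y0 : y ≠ 0 := by linarith
  rw [← hy, show 2 * h * v = y - 1 by linarith]
  field_simp
  ring

theorem gam_lo {v : ℝ} (hv : w ≤ v) (hV : v ≤ V) : h * κ * (c * √v) ≤
    h * κ * -Sr n η t v + (1 - h * κ * t) * (2 * h * v) / (1 + 2 * h * v) := by
  have h1 := mul_le_mul_of_nonneg_left (H.lo v hv hV) (mul_pos H.h0 H.κ0).le
  have Y := H.Y1 hv
  have : 0 ≤ (1 - h * κ * t) * (2 * h * v) / (1 + 2 * h * v) :=
    div_nonneg (mul_nonneg (by linarith [H.ht]) (by linarith)) (by linarith)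
  linarith

theorem cm {v : ℝ} (hv : w ≤ v) (hV : v ≤ V) : CM fun j => ρ j / (1 + 2 * h * v) ^ j := by
  have Y := H.Y1 hv
  have h0 := H.h0
  have κ0 := H.κ0
  have c0 := H.c0
  refine H.ren.cm (fun k => by linarith [H.q0 k k.2]) (H.qlt hv) (by linarith)
    (by linarith [H.ht]) (by positivity) κ0 ?_
  have h1 := H.gam_lo hv hV
  rw [← H.gam hv] at h1
  have h2 : 0 ≤ h * κ * (c * √v) := by positivity
  rw [← div_le_one (by linarith)]
  linarith

theorem nn (j : ℕ) : 0 ≤ ρ j := by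
  have h1 := (H.cm le_rfl H.wV).nn j
  have Y := H.Y1 le_rfl
  have : 0 < (1 + 2 * h * w) ^ j := by positivity
  exact (div_nonneg_iff.1 h1).elim (fun h => h.1) fun h => absurd h.2 (not_le.2 this)

theorem snn {v : ℝ} (hv : w ≤ v) (M : ℕ) : 0 ≤ ∑ j ∈ range M, ρ j / (1 + 2 * h * v) ^ j :=
  sum_nonneg fun j _ => div_nonneg (H.nn j) (pow_nonneg (by linarith [H.Y1 hv]) _)

theorem phn {v : ℝ} (hv : w ≤ v) (M : ℕ) : 0 ≤ phi (fun k : Fin n => 1 - 2 * η k * h)
    (2 * h ^ 2 * κ) (1 + 2 * h * v) ρ M :=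
  phi_nonneg (fun k => by linarith [H.q0 k k.2]) (H.qlt hv) (by have := H.κ0; positivity) H.nn M

/-- upper bound of the transform -/
theorem up {v : ℝ} (hv : w ≤ v) (hV : v ≤ V) (M : ℕ) :
    c * √v * (h * ∑ j ∈ range M, ρ j / (1 + 2 * h * v) ^ j) ≤ 1 := by
  have Y := H.Y1 hv
  have h1 := H.ren.gen (H.qlt hv) (by linarith) M
  rw [H.gam hv] at h1
  have h2 := mul_le_mul_of_nonneg_right (H.gam_lo hv hV) (H.snn hv M)
  have h3 := div_nonneg (H.phn hv M) (pow_nonneg (by linarith : 0 ≤ 1 + 2 * h * v) M)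
  refine le_of_mul_le_mul_left ?_ H.κ0
  linarith

/-- lower bound of the transform -/
theorem low {v : ℝ} (hv : w ≤ v) (M : ℕ) : 1 - ((1 + 2 * h * w) / (1 + 2 * h * v)) ^ M ≤
    (C * √v + 2 * v / κ) * (h * ∑ j ∈ range M, ρ j / (1 + 2 * h * v) ^ j) := by
  have Y := H.Y1 hv
  have X := H.Y1 le_rfl
  have h0 := H.h0
  have κ0 := H.κ0
  have c0 := H.c0
  have h1 := H.ren.gen (H.qlt hv) (by linarith) M
  have g1 := H.ren.gen (H.qlt le_rfl) (by linarith) M
  rw [H.gam hv] at h1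
  rw [H.gam le_rfl] at g1
  have g2 := mul_nonneg ((by positivity : 0 ≤ h * κ * (c * √w)).trans (H.gam_lo le_rfl H.wV))
    (H.snn le_rfl M)
  have g3 := phi_mono (σ := 2 * h ^ 2 * κ) (fun k : Fin n => by linarith [H.q0 k k.2])
    (H.qlt le_rfl) (show 1 + 2 * h * w ≤ 1 + 2 * h * v by nlinarith) (by positivity) H.nn M
  have g4 : phi (fun k : Fin n => 1 - 2 * η k * h) (2 * h ^ 2 * κ) (1 + 2 * h * w) ρ M ≤
      κ * (1 + 2 * h * w) ^ M := by
    rw [← div_le_iff₀ (by positivity)]; linarith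
  have g5 : phi (fun k : Fin n => 1 - 2 * η k * h) (2 * h ^ 2 * κ) (1 + 2 * h * v) ρ M /
      (1 + 2 * h * v) ^ M ≤ κ * ((1 + 2 * h * w) / (1 + 2 * h * v)) ^ M := by
    rw [div_pow, ← mul_div_assoc]
    exact div_le_div_of_nonneg_right (g3.trans g4) (by positivity)
  have g6 : h * κ * -Sr n η t v + (1 - h * κ * t) * (2 * h * v) / (1 + 2 * h * v) ≤
      κ * ((C * √v + 2 * v / κ) * h) := by
    have a1 := mul_le_mul_of_nonneg_left (H.dn v hv) (mul_pos h0 κ0).le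
    have a2 : (1 - h * κ * t) * (2 * h * v) / (1 + 2 * h * v) ≤ 2 * h * v := by
      rw [div_le_iff₀ (by linarith)]
      have := mul_nonneg (mul_pos h0 κ0).le H.t0
      nlinarith
    have a3 : κ * ((C * √v + 2 * v / κ) * h) = h * κ * (C * √v) + 2 * h * v := by
      field_simp
    linarith
  have g7 := mul_le_mul_of_nonneg_right g6 (H.snn hv M)
  refine le_of_mul_le_mul_left ?_ κ0
  linarith

theorem Xle {m : ℕ} (hm : 4 * w * (m * h) ≤ 1) : (1 + 2 * h * w) ^ m ≤ 2 :=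
  (pow_le_exp (by linarith [H.Y1 le_rfl]) (by linarith)).trans exp_half_le

theorem a1 {m : ℕ} (hm : 4 * w * (m * h) ≤ 1) : ρ m ≤ 2 * κ := by
  have h1 := (H.cm le_rfl H.wV).anti (Nat.zero_le m)
  have X := H.Y1 le_rfl
  simp only [pow_zero, div_one, H.ren.1] at h1
  rw [div_le_iff₀ (by positivity)] at h1
  have := mul_le_mul_of_nonneg_left (H.Xle hm) H.κ0.le
  linarith

theorem a2 {m : ℕ} {z : ℝ} (hz : 0 < z) (hm : m * h ≤ z) (hw : w * z ≤ 1) (hV : 1 ≤ V * z) :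
    h * ∑ i ∈ range (m + 1), ρ i ≤ 8 / c * √z := by
  have h0 := H.h0
  have c0 := H.c0
  have v1 : w ≤ z⁻¹ := by rw [inv_eq_one_div, le_div_iff₀ hz]; exact hw
  have v2 : z⁻¹ ≤ V := by rw [inv_le_iff_one_le_mul₀ hz]; exact hV
  have Y := H.Y1 v1
  have h1 := H.up v1 v2 (m + 1)
  have h2 : ∑ i ∈ range (m + 1), ρ i ≤ 8 * ∑ j ∈ range (m + 1), ρ j / (1 + 2 * h * z⁻¹) ^ j := by
    rw [mul_sum]
    refine sum_le_sum fun i hi => ?_
    have a1 : (1 + 2 * h * z⁻¹) ^ i ≤ 8 := by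
      refine (pow_le_exp (by linarith) ?_).trans exp_two_le
      have : (i : ℝ) ≤ m := by exact_mod_cast Nat.lt_succ_iff.1 (mem_range.1 hi)
      have a2 : i * h ≤ z := le_trans (by gcongr) hm
      rw [show (i : ℝ) * (2 * h * z⁻¹) = 2 * (i * h) / z by ring, div_le_iff₀ hz]
      linarith
    rw [← mul_div_assoc, le_div_iff₀ (by positivity)]
    have := mul_le_mul_of_nonneg_left a1 (H.nn i)
    linarith
  have s0 : 0 < √z := sqrt_pos.2 hz
  have := mul_le_mul_of_nonneg_left h2 h0.le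
  generalize ∑ j ∈ range (m + 1), ρ j / (1 + 2 * h * z⁻¹) ^ j = S at h1 this
  rw [sqrt_inv, show c * (√z)⁻¹ * (h * S) = h * S / (√z / c) by field_simp,
    div_le_one (by positivity)] at h1
  rw [show 8 / c * √z = 8 * (√z / c) by ring]
  linarith

theorem tl {M : ℕ} : ∑ i ∈ range M, ρ i / (1 + 2 * h * w) ^ i ≤ ∑ i ∈ range M, ρ i :=
  sum_le_sum fun i _ => div_le_self (H.nn i) (one_le_pow₀ (H.Y1 le_rfl))

theorem a3 {m : ℕ} (hm : 4 * w * (m * h) ≤ 1) :
    (m + 1) * ρ m ≤ 2 * ∑ i ∈ range (m + 1), ρ i := by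
  have h1 := ((H.cm le_rfl H.wV).avg m).trans H.tl
  have X := H.Y1 le_rfl
  rw [← mul_div_assoc, div_le_iff₀ (by positivity)] at h1
  have := mul_le_mul_of_nonneg_left (H.Xle hm) (sum_nonneg (s := range (m + 1)) fun i _ => H.nn i)
  linarith

theorem a4 {m : ℕ} {e : ℝ} (he : 0 < e) (he1 : e ≤ 1 / 2) (heC : (C + 1) * (8 / c) * e ≤ 1 / 4)
    (hm0 : 0 < m) (hm : 2 * w * (m * h) ≤ e ^ 2) (hV : 1 ≤ V * (m * h)) :
    e / (8 * (C + 1)) * (√(m * h))⁻¹ ≤ ρ m := by
  have h0 := H.h0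
  have c0 := H.c0
  have C0 := H.C0
  have κ0 := H.κ0
  have w1 := H.w1
  have m1 : (1 : ℝ) ≤ m := by exact_mod_cast hm0
  have u0 : 0 < m * h := by positivity
  have A2 := H.a2 u0 le_rfl (by nlinarith) hV
  obtain ⟨s, hs, s0⟩ : ∃ s, √(m * h) = s ∧ 0 < s := ⟨_, rfl, sqrt_pos.2 u0⟩
  have s2 : m * h = s ^ 2 := by rw [← hs, sq_sqrt u0.le]
  rw [hs] at A2 ⊢
  rw [s2] at hm hV
  obtain ⟨v, hv⟩ : ∃ v, v = (e / s) ^ 2 := ⟨_, rfl⟩
  have vs : v * s ^ 2 = e ^ 2 := by rw [hv]; field_simp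
  have v0 : 0 < v := by rw [hv]; positivity
  have v2 : 2 * w ≤ v := le_of_mul_le_mul_right (by rw [vs]; exact hm) (by positivity : 0 < s ^ 2)
  have vw : w ≤ v := by linarith
  have hv1 : 2 * h * v ≤ 1 := by
    have : h * v ≤ v * s ^ 2 := by rw [← s2]; nlinarith [mul_pos h0 v0]
    nlinarith
  have sv : √v = e / s := by rw [hv, sqrt_sq (by positivity)]
  have X := H.Y1 le_rfl
  have Y := H.Y1 vw
  set r := (1 + 2 * h * w) / (1 + 2 * h * v) with hr
  have r0 : 0 ≤ r := by positivity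
  have r1 : h * v / 2 ≤ 1 - r := by
    rw [hr, one_sub_div (by linarith), le_div_iff₀ (by linarith)]
    nlinarith [mul_pos h0 v0]
  have hv0 := mul_pos h0 v0
  obtain ⟨N, hN⟩ := exists_pow_lt_of_lt_one (by norm_num : (0 : ℝ) < 1 / 2) (show r < 1 by linarith)
  have L := H.low vw (m + 1 + N)
  have rN : r ^ (m + 1 + N) ≤ r ^ N := pow_le_pow_of_le_one r0 (by linarith) (by omega)
  have cmw := H.cm le_rfl H.wV
  set ρt := ρ m / (1 + 2 * h * w) ^ m with hρ
  have ρ0 : 0 ≤ ρt := cmw.nn m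
  have t1 : ∑ j ∈ range (m + 1), ρ j / (1 + 2 * h * v) ^ j ≤ ∑ j ∈ range (m + 1), ρ j :=
    sum_le_sum fun i _ => div_le_self (H.nn i) (one_le_pow₀ Y)
  have t2 : ∑ j ∈ range N, ρ (m + 1 + j) / (1 + 2 * h * v) ^ (m + 1 + j) ≤ ρt * (2 / (h * v)) := by
    have b1 : ∑ j ∈ range N, r ^ j ≤ 2 / (h * v) := by
      refine (geom_le r0 (by linarith) N).trans ?_
      rw [← inv_div]
      exact inv_anti₀ (by positivity) r1
    refine le_trans ?_ (mul_le_mul_of_nonneg_left b1 ρ0)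
    rw [mul_sum]
    refine sum_le_sum fun j _ => ?_
    have b2 : ρ (m + 1 + j) / (1 + 2 * h * v) ^ (m + 1 + j) =
        ρ (m + 1 + j) / (1 + 2 * h * w) ^ (m + 1 + j) * r ^ (m + 1 + j) := by
      rw [hr, div_pow]; field_simp
    rw [b2]
    exact mul_le_mul (cmw.anti (by omega)) (pow_le_pow_of_le_one r0 (by linarith) (by omega))
      (by positivity) ρ0
  have t3 : h * ∑ j ∈ range (m + 1 + N), ρ j / (1 + 2 * h * v) ^ j ≤ 8 / c * s + 2 * ρt / v := by
    rw [sum_range_add, mul_add]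
    have b1 := mul_le_mul_of_nonneg_left t1 h0.le
    have b2 := mul_le_mul_of_nonneg_left t2 h0.le
    have b3 : h * (ρt * (2 / (h * v))) = 2 * ρt / v := by field_simp
    linarith
  have t4 : C * √v + 2 * v / κ ≤ (C + 1) * (e / s) := by
    have b1 : 2 ≤ κ * s := by
      have := mul_le_mul_of_nonneg_right H.Vκ (sq_nonneg s)
      refine (pow_le_pow_iff_left₀ (by norm_num) (by positivity) two_ne_zero).1 ?_
      nlinarith
    have b2 : 2 * v / κ ≤ e / s := by
      rw [hv, div_le_iff₀ κ0, sq, ← mul_assoc, mul_comm (e / s) κ]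
      refine mul_le_mul_of_nonneg_right ?_ (by positivity)
      rw [← mul_div_assoc, div_le_iff₀ s0]
      linarith
    rw [sv]; linarith
  have t5 := mul_le_mul t4 t3 (mul_nonneg h0.le (H.snn vw _)) (by positivity)
  have t6 : (C + 1) * (e / s) * (8 / c * s + 2 * ρt / v) =
      (C + 1) * (8 / c) * e + 2 * (C + 1) * s / e * ρt := by
    rw [hv]; field_simp
  have t7 : 1 / 4 ≤ 2 * (C + 1) * s / e * ρt := by linarith
  have t8 : ρt ≤ ρ m := div_le_self (H.nn m) (one_le_pow₀ X)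
  refine le_trans ?_ t8
  have t9 : e / (8 * (C + 1)) * s⁻¹ = 1 / 4 / (2 * (C + 1) * s / e) := by field_simp; norm_num
  rw [t9, div_le_iff₀' (by positivity)]
  exact t7

theorem a5 {m l : ℕ} (hm0 : 0 < m) (hm : 4 * w * (m * h) ≤ 1) (hl : 2 * l ≤ m) :
    |ρ m - ρ (m - l)| ≤ l * (18 * (∑ i ∈ range (m + 1), ρ i) / m ^ 2) := by
  have h0 := H.h0
  have w1 := H.w1
  have X := H.Y1 le_rfl
  have cmw := H.cm le_rfl H.wV
  have m0 : (0 : ℝ) < m := by exact_mod_cast hm0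
  have key := tele ρ (m - l) l (18 * (∑ i ∈ range (m + 1), ρ i) / m ^ 2) fun j h1 h2 => by
    have j1 : (m : ℝ) ≤ 2 * j := by exact_mod_cast (show m ≤ 2 * j by omega)
    have j2 : (j : ℝ) ≤ m := by exact_mod_cast (show j ≤ m by omega)
    have b0 : ∑ i ∈ range (j + 1), ρ i / (1 + 2 * h * w) ^ i ≤ ∑ i ∈ range (m + 1), ρ i :=
      H.tl.trans (sum_le_sum_of_subset_of_nonneg (range_subset_range.2 (by omega))
        fun i _ _ => H.nn i)
    have b1 := (cmw.dle j).trans b0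
    have b2 := (cmw.avg j).trans b0
    have b3 := cmw.dec j
    have b4 := cmw.nn (j + 1)
    have b5 : (1 + 2 * h * w) ^ j ≤ 2 := H.Xle (le_trans (by gcongr) hm)
    have b6 : 0 < (1 + 2 * h * w) ^ j := by positivity
    generalize ∑ i ∈ range (m + 1), ρ i = S at *
    obtain ⟨x, hx⟩ : ∃ x, x = ρ j / (1 + 2 * h * w) ^ j := ⟨_, rfl⟩
    obtain ⟨y, hy⟩ : ∃ y, y = ρ (j + 1) / (1 + 2 * h * w) ^ (j + 1) := ⟨_, rfl⟩
    have e1 : ρ (j + 1) - ρ j = (1 + 2 * h * w) ^ j * (2 * h * w * y - (x - y)) := by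
      rw [hx, hy, pow_succ]; field_simp; ring
    rw [← hx, ← hy] at b1 b3
    rw [← hx] at b2
    rw [← hy] at b4
    have c1 : m ^ 2 * (x - y) ≤ 8 * S := by
      have : (m : ℝ) ^ 2 ≤ 8 * ((j + 1) * (j + 2) / 2) := by nlinarith
      have := mul_le_mul_of_nonneg_right this (sub_nonneg.2 b3)
      linarith
    have c2 : m * y ≤ 2 * S := by nlinarith
    have c3 : m ^ 2 * (2 * h * w * y) ≤ S := by
      have := mul_le_mul hm c2 (by positivity) (by norm_num)
      nlinarith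
    have c4 : 0 ≤ 2 * h * w * y := by positivity
    have c5 : |2 * h * w * y - (x - y)| ≤ 9 * S / m ^ 2 := by
      rw [le_div_iff₀ (by positivity), ← abs_of_pos (by positivity : (0 : ℝ) < m ^ 2), ← abs_mul,
        abs_le]
      have := mul_nonneg (sq_nonneg (m : ℝ)) c4
      have := mul_nonneg (sq_nonneg (m : ℝ)) (sub_nonneg.2 b3)
      constructor <;> nlinarith
    rw [e1, abs_mul, abs_of_pos b6]
    have := mul_le_mul b5 c5 (abs_nonneg _) (by norm_num)
    rw [show 18 * S / m ^ 2 = 2 * (9 * S / m ^ 2) by ring]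
    exact this
  rwa [show m - l + l = m by omega] at key

end Hy

end Crest.Agent.T157.Cq.Kern16

end
end

-- ▼ part T157/Kern_16
section

/-!
# Row 157: `Cq.KernStmt` (helper16)
-/

set_option autoImplicit false

noncomputable section

namespace Crest.Agent.T157.Cq

open Finset Real Filter Topology
open Crest.Agent.T157.St Crest.Agent.T157.Ed

namespace Kern16.Hy

variable {n : ℕ} {η : ℕ → ℝ} {t κ h w C c V : ℝ} {ρ : ℕ → ℝ} (H : Hy n η t κ h w C c V ρ)

theorem Wt_eq {T : ℝ} (hT : 0 < T) (k : ℕ) : Wt η T k = (T⁻¹ + max (η k) 0)⁻¹ := by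
  have := le_max_right (η k) 0
  unfold Wt
  field_simp

theorem Wt_pos {T : ℝ} (hT : 0 < T) (k : ℕ) : 0 < Wt η T k := by
  have := le_max_right (η k) 0
  unfold Wt
  positivity

include H

theorem b1 {T : ℝ} {m : ℕ} (hT : 4 * w * T ≤ 1) (hh : h ≤ T) (hm : m * h ≤ T) :
    h * ∑ i ∈ range (m + 1), ∑ k : Fin n, Wt η T k * (1 - 2 * η k * h) ^ i ≤
      24 * C * √((m + 1) * h) := by
  have h0 := H.h0
  have w1 := H.w1
  have C0 := H.C0
  have T0 : 0 < T := by linarith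
  have m0 : (0 : ℝ) ≤ m := by positivity
  obtain ⟨b, hb⟩ : ∃ b, b = (m + 1) * h := ⟨_, rfl⟩
  rw [← hb]
  have b0 : 0 < b := by rw [hb]; positivity
  have b2 : 2 * w ≤ b⁻¹ := by
    rw [inv_eq_one_div, le_div_iff₀ b0]
    have : b ≤ 2 * T := by rw [hb]; linarith
    nlinarith
  have vw : w ≤ b⁻¹ := by linarith
  have Y := H.Y1 vw
  have hb1 : h * b⁻¹ ≤ 1 := by
    rw [← div_eq_mul_inv, div_le_one b0, hb]; nlinarith
  have Tw : w ≤ T⁻¹ := by rw [inv_eq_one_div, le_div_iff₀ T0]; nlinarith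
  have one : ∀ k, k < n → h * ∑ i ∈ range (m + 1), Wt η T k * (1 - 2 * η k * h) ^ i ≤
      12 * (1 / ((w + η k) * (b⁻¹ + η k))) := fun k hk => by
    have p1 := H.pos le_rfl hk
    have p2 := H.pos vw hk
    have q0 : 0 ≤ 1 - 2 * η k * h := by linarith [H.q0 k hk]
    have q1 := H.qlt vw ⟨k, hk⟩
    have a1 : Wt η T k ≤ (w + η k)⁻¹ := by
      rw [Wt_eq T0]
      exact inv_anti₀ p1 (add_le_add Tw (le_max_left _ _))
    have a2 : ∑ i ∈ range (m + 1), (1 - 2 * η k * h) ^ i ≤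
        8 * ∑ i ∈ range (m + 1), ((1 - 2 * η k * h) / (1 + 2 * h * b⁻¹)) ^ i := by
      rw [mul_sum]
      refine sum_le_sum fun i hi => ?_
      have a1 : (1 + 2 * h * b⁻¹) ^ i ≤ 8 := by
        refine (pow_le_exp (by linarith) ?_).trans exp_two_le
        have : (i : ℝ) ≤ m + 1 := by exact_mod_cast (mem_range.1 hi).le
        have a2 : i * h ≤ b := by rw [hb]; gcongr
        rw [show (i : ℝ) * (2 * h * b⁻¹) = 2 * (i * h) / b by ring, div_le_iff₀ b0]
        linarith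
      rw [div_pow, ← mul_div_assoc, le_div_iff₀ (by positivity)]
      have := mul_le_mul_of_nonneg_left a1 (pow_nonneg q0 i)
      linarith
    have a3 := geom_le (div_nonneg q0 (by linarith : 0 ≤ 1 + 2 * h * b⁻¹))
      ((div_lt_one (by linarith)).2 q1) (m + 1)
    have a4 : (1 - (1 - 2 * η k * h) / (1 + 2 * h * b⁻¹))⁻¹ ≤ 3 / (2 * h * (b⁻¹ + η k)) := by
      rw [one_sub_div (by linarith), inv_div,
        show 1 + 2 * h * b⁻¹ - (1 - 2 * η k * h) = 2 * h * (b⁻¹ + η k) by ring]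
      exact div_le_div_of_nonneg_right (by linarith) (by positivity)
    have a5 : ∑ i ∈ range (m + 1), (1 - 2 * η k * h) ^ i ≤ 8 * (3 / (2 * h * (b⁻¹ + η k))) := by
      linarith
    have a6 := mul_le_mul a1 a5 (sum_nonneg fun i _ => pow_nonneg q0 i) (by positivity)
    rw [← mul_sum]
    refine (mul_le_mul_of_nonneg_left a6 h0.le).trans (le_of_eq ?_)
    generalize b⁻¹ = v at *
    field_simp
    norm_num
  have e := Sr_sub t (fun k hk => H.pos le_rfl hk) vw
  have s0 : 0 ≤ ∑ k ∈ range n, 1 / ((w + η k) * (b⁻¹ + η k)) := sum_nonneg fun k hk => by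
    have p1 := H.pos le_rfl (mem_range.1 hk)
    have p2 := H.pos vw (mem_range.1 hk)
    positivity
  have e1 := H.lo w le_rfl H.wV
  have e2 := H.dn _ vw
  have e3 : 0 ≤ c * √w := by have := H.c0; positivity
  have e4 := mul_le_mul_of_nonneg_right (show b⁻¹ / 2 ≤ b⁻¹ - w by linarith) s0
  have e5 : ∑ k ∈ range n, 1 / ((w + η k) * (b⁻¹ + η k)) ≤ 2 * C * √b := by
    have r0 : 0 < √b := sqrt_pos.2 b0
    have r2 : C * √b⁻¹ = b⁻¹ / 2 * (2 * C * √b) := by
      have : b = √b ^ 2 := (sq_sqrt b0.le).symm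
      rw [sqrt_inv]
      generalize √b = r at *
      rw [this]
      field_simp
    exact le_of_mul_le_mul_left (a := b⁻¹ / 2) (by linarith) (by positivity)
  rw [sum_comm, mul_sum, Fin.sum_univ_eq_sum_range
    (fun k => h * ∑ i ∈ range (m + 1), Wt η T k * (1 - 2 * η k * h) ^ i) n]
  have := sum_le_sum fun k (hk : k ∈ range n) => one k (mem_range.1 hk)
  rw [← mul_sum (a := 12)] at this
  linarith

theorem b2 {T : ℝ} {k : ℕ} (hk : k < n) (T0 : 0 < T) (hT : w * T ≤ 1)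
    (hV : T⁻¹ + max (η k) 0 ≤ V) :
    (∀ m : ℕ, m * h ≤ T → 0 ≤ Kk η h ρ k m ∧ Kk η h ρ k m ≤ 8 / c * √(Wt η T k)) ∧
    ∀ m : ℕ, m * h ≤ T → m * |Kk η h ρ k (m + 1) - Kk η h ρ k m| ≤ 80 / c * √(Wt η T k) := by
  have h0 := H.h0
  have c0 := H.c0
  have w1 := H.w1
  have Tw : w ≤ T⁻¹ := by rw [inv_eq_one_div, le_div_iff₀ T0]; exact hT
  have η0 := le_max_right (η k) 0
  have Y := H.Y1 Tw
  have vw : w ≤ T⁻¹ + max (η k) 0 := by linarith
  have Z := H.Y1 vw
  have q0 : 0 ≤ 1 - 2 * η k * h := by linarith [H.q0 k hk]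
  have q1 : 1 - 2 * η k * h < 1 + 2 * h * T⁻¹ := H.qlt Tw ⟨k, hk⟩
  have ha := H.cm Tw (by linarith)
  have hb := cm_geom (div_nonneg q0 (by linarith : 0 ≤ 1 + 2 * h * T⁻¹))
    ((div_le_one (by linarith)).2 q1.le)
  have qZ : (1 - 2 * η k * h) * (1 + 2 * h * (T⁻¹ + max (η k) 0)) ≤
      (1 + 2 * h * T⁻¹) * (1 + 2 * h * T⁻¹) := by
    rcases le_total (η k) 0 with e | e
    · rw [max_eq_right e, add_zero]
      exact mul_le_mul_of_nonneg_right q1.le (by linarith)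
    · rw [max_eq_left e]
      have := mul_nonneg h0.le e
      nlinarith
  have W0 := Wt_pos (η := η) T0 k
  have r0 : 0 < √(Wt η T k) := sqrt_pos.2 W0
  have hG : ∀ M, ∑ i ∈ range M, ρ i / (1 + 2 * h * T⁻¹) ^ i *
      ((1 - 2 * η k * h) / (1 + 2 * h * T⁻¹)) ^ i ≤ √(Wt η T k) / (c * h) := fun M => by
    have u := H.up vw hV M
    have u1 : ∑ i ∈ range M, ρ i / (1 + 2 * h * T⁻¹) ^ i *
        ((1 - 2 * η k * h) / (1 + 2 * h * T⁻¹)) ^ i ≤
        ∑ j ∈ range M, ρ j / (1 + 2 * h * (T⁻¹ + max (η k) 0)) ^ j := by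
      refine sum_le_sum fun i _ => ?_
      rw [div_pow, div_mul_div_comm, div_le_div_iff₀ (by positivity) (by positivity), mul_assoc,
        ← mul_pow, ← mul_pow]
      exact mul_le_mul_of_nonneg_left (pow_le_pow_left₀ (by positivity) qZ i) (H.nn i)
    refine u1.trans ?_
    have u2 : √(T⁻¹ + max (η k) 0) = (√(Wt η T k))⁻¹ := by rw [Wt_eq T0, sqrt_inv, inv_inv]
    rw [u2] at u
    generalize ∑ j ∈ range M, ρ j / (1 + 2 * h * (T⁻¹ + max (η k) 0)) ^ j = S at u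
    rw [show c * (√(Wt η T k))⁻¹ * (h * S) = S / (√(Wt η T k) / (c * h)) by field_simp,
      div_le_one (by positivity)] at u
    exact u
  have eK : ∀ m, Kk η h ρ k m = h * (1 + 2 * h * T⁻¹) ^ m * ∑ i ∈ range (m + 1),
      ρ (m - i) / (1 + 2 * h * T⁻¹) ^ (m - i) * ((1 - 2 * η k * h) / (1 + 2 * h * T⁻¹)) ^ i := by
    intro m
    rw [Kk, mul_assoc h, mul_sum _ _ (_ ^ m)]
    congr 1
    refine sum_congr rfl fun i hi => ?_
    obtain ⟨j, rfl⟩ : ∃ j, m = j + i := ⟨m - i, by have := mem_range.1 hi; omega⟩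
    rw [Nat.add_sub_cancel, div_pow, pow_add]
    field_simp
  have Y8 : ∀ m : ℕ, m * h ≤ T → (1 + 2 * h * T⁻¹) ^ m ≤ 8 := fun m hm => by
    refine (pow_le_exp (by linarith) ?_).trans exp_two_le
    rw [show (m : ℝ) * (2 * h * T⁻¹) = 2 * (m * h) / T by ring, div_le_iff₀ T0]
    linarith
  have c1 := fun m => (conv_le ha.anti hb.anti m).trans (hG (m + 1))
  have c2 := conv_step ha hb hG
  have c3 : ∀ m, 0 ≤ ∑ i ∈ range (m + 1), ρ (m - i) / (1 + 2 * h * T⁻¹) ^ (m - i) *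
      ((1 - 2 * η k * h) / (1 + 2 * h * T⁻¹)) ^ i :=
    fun m => sum_nonneg fun i _ => mul_nonneg (ha.nn _) (hb.nn _)
  have eG : 8 / c * √(Wt η T k) = h * 8 * (√(Wt η T k) / (c * h)) := by field_simp
  refine ⟨fun m hm => ?_, fun m hm => ?_⟩
  · rw [eK, eG]
    exact ⟨mul_nonneg (by positivity) (c3 m), mul_le_mul
      (mul_le_mul_of_nonneg_left (Y8 m hm) h0.le) (c1 m) (c3 m) (by positivity)⟩
  · rw [eK, eK, show 80 / c * √(Wt η T k) = 10 * (8 / c * √(Wt η T k)) by ring, eG]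
    have d1 := c1 (m + 1)
    have d2 := c2 m
    have d3 := c3 (m + 1)
    have d4 := Y8 m hm
    have d5 : 0 < (1 + 2 * h * T⁻¹) ^ m := by positivity
    have d6 : m * (2 * h * T⁻¹) ≤ 2 := by
      rw [show (m : ℝ) * (2 * h * T⁻¹) = 2 * (m * h) / T by ring, div_le_iff₀ T0]
      linarith
    generalize ∑ i ∈ range (m + 1 + 1), ρ (m + 1 - i) / (1 + 2 * h * T⁻¹) ^ (m + 1 - i) *
      ((1 - 2 * η k * h) / (1 + 2 * h * T⁻¹)) ^ i = x at *
    generalize ∑ i ∈ range (m + 1), ρ (m - i) / (1 + 2 * h * T⁻¹) ^ (m - i) *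
      ((1 - 2 * η k * h) / (1 + 2 * h * T⁻¹)) ^ i = y at *
    generalize √(Wt η T k) / (c * h) = G at *
    have d7 : 0 ≤ 2 * h * T⁻¹ * x := by positivity
    have d8 : m * |2 * h * T⁻¹ * x + (x - y)| ≤ 10 * G := by
      have a1 := abs_add_le (2 * h * T⁻¹ * x) (x - y)
      rw [abs_of_nonneg d7] at a1
      have a2 := mul_le_mul_of_nonneg_left a1 (Nat.cast_nonneg (α := ℝ) m)
      have a3 := mul_le_mul d6 d1 d3 (by norm_num)
      linarith
    rw [show h * (1 + 2 * h * T⁻¹) ^ (m + 1) * x - h * (1 + 2 * h * T⁻¹) ^ m * y =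
      h * (1 + 2 * h * T⁻¹) ^ m * (2 * h * T⁻¹ * x + (x - y)) by rw [pow_succ]; ring, abs_mul,
      abs_of_pos (mul_pos h0 d5)]
    have := mul_le_mul (mul_le_mul_of_nonneg_left d4 h0.le) d8 (by positivity) (by positivity)
    linarith

theorem b3 {T a : ℝ} {k m : ℕ} (hk : k < n) (a0 : 0 ≤ a) (hh : 2 * h ≤ T) (h1 : T / 2 ≤ m * h)
    (h2 : m * h ≤ T) (hρ : ∀ j : ℕ, T / 4 ≤ j * h → j * h ≤ T → a ≤ ρ j) :
    a * Wt η T k / 8 ≤ Kk η h ρ k m := by
  have h0 := H.h0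
  have T0 : 0 < T := by linarith
  have η0 := le_max_right (η k) 0
  have q0 : 0 ≤ 1 - 2 * η k * h := by linarith [H.q0 k hk]
  have δ0 : 0 ≤ 2 * max (η k) 0 * h := by positivity
  have δ1 : 2 * max (η k) 0 * h ≤ 1 := by
    rcases le_total (η k) 0 with e | e
    · rw [max_eq_right e]; norm_num
    · rw [max_eq_left e]; exact H.q0 k hk
  have δ2 : 1 - 2 * max (η k) 0 * h ≤ 1 - 2 * η k * h := by
    have := mul_le_mul_of_nonneg_right (le_max_left (η k) 0) h0.le
    linarith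
  obtain ⟨p, p1, p2⟩ : ∃ p : ℕ, 2 * p ≤ m ∧ m ≤ 2 * p + 1 := ⟨m / 2, by omega, by omega⟩
  have p1' : 2 * (p : ℝ) ≤ m := by exact_mod_cast p1
  have p2' : (m : ℝ) ≤ 2 * p + 1 := by exact_mod_cast p2
  have g := geom_ge δ0 δ1 (p + 1)
  have s1 : a * ∑ i ∈ range (p + 1), (1 - 2 * max (η k) 0 * h) ^ i ≤
      ∑ i ∈ range (m + 1), ρ (m - i) * (1 - 2 * η k * h) ^ i := by
    refine le_trans ?_ (sum_le_sum_of_subset_of_nonneg
      (range_subset_range.2 (show p + 1 ≤ m + 1 by omega))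
      fun i _ _ => mul_nonneg (H.nn _) (pow_nonneg q0 _))
    rw [mul_sum]
    refine sum_le_sum fun i hi => ?_
    have i1 : i ≤ p := Nat.lt_succ_iff.1 (mem_range.1 hi)
    have i2 : (m : ℝ) ≤ 2 * ((m - i : ℕ) : ℝ) := by exact_mod_cast (show m ≤ 2 * (m - i) by omega)
    have i3 : ((m - i : ℕ) : ℝ) ≤ m := by exact_mod_cast Nat.sub_le m i
    exact mul_le_mul (hρ _ (by nlinarith) (by nlinarith)) (pow_le_pow_left₀ (by linarith) δ2 i)
      (pow_nonneg (by linarith) _) (H.nn _)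
  have s0 : 0 ≤ ∑ i ∈ range (p + 1), (1 - 2 * max (η k) 0 * h) ^ i :=
    sum_nonneg fun i _ => pow_nonneg (by linarith) _
  generalize ∑ i ∈ range (p + 1), (1 - 2 * max (η k) 0 * h) ^ i = S at *
  push_cast at g
  have s2 : Wt η T k / 8 ≤ h * S := by
    rw [Wt, div_div, div_le_iff₀ (by positivity)]
    have b1 : T / 4 ≤ (p + 1) * h := by nlinarith
    have b2 : (p + 1) * h ≤ T := by nlinarith
    have b3 := mul_le_mul_of_nonneg_left g h0.le
    have b4 := mul_le_mul_of_nonneg_right b2 η0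
    have b5 := mul_le_mul_of_nonneg_left b4 (mul_nonneg h0.le s0)
    have b6 := mul_nonneg h0.le s0
    nlinarith
  have s3 := mul_le_mul_of_nonneg_left s2 a0
  have s4 := mul_le_mul_of_nonneg_left s1 h0.le
  rw [Kk]
  linarith

end Kern16.Hy

open Kern16

set_option maxHeartbeats 1000000 in
theorem kernStmt : KernStmt := by
  intro L C w hL hw
  have w1 : 1 ≤ w := by linarith
  obtain ⟨c, hc⟩ : ∃ c : ℝ, c = 1 / 1024000 := ⟨_, rfl⟩
  have c0 : 0 < c := by rw [hc]; norm_num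
  obtain ⟨A, hA⟩ : ∃ A, A = 8 / c := ⟨_, rfl⟩
  have A0 : 0 < A := by rw [hA]; positivity
  have C0 := abs_nonneg C
  obtain ⟨e, e0, e1, e2⟩ : ∃ e : ℝ, 0 < e ∧ e ≤ 1 / 2 ∧ (|C| + 1) * A * e ≤ 1 / 4 :=
    ⟨min (1 / 2) (1 / 4 / ((|C| + 1) * A)), by positivity, min_le_left _ _, by
      rw [← le_div_iff₀' (by positivity)]; exact min_le_right _ _⟩
  obtain ⟨D, D1, D2, D3⟩ : ∃ D, 18 * A ≤ D ∧ 24 * |C| ≤ D ∧ (10 * A) ^ 2 ≤ D :=
    ⟨18 * A + 24 * |C| + (10 * A) ^ 2, by nlinarith, by nlinarith, by linarith⟩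
  refine ⟨e / (8 * (|C| + 1)) / 8, D, e ^ 2 / (2 * w), by positivity, by positivity,
    fun u₁ u0 => ?_⟩
  have hu : ∀ u, u ≤ e ^ 2 / (2 * w) → 2 * w * u ≤ e ^ 2 ∧ 4 * w * u ≤ 1 := fun u hu => by
    rw [le_div_iff₀' (by positivity)] at hu
    exact ⟨hu, by nlinarith⟩
  filter_upwards [tendsto_natCast_atTop_atTop.eventually_ge_atTop ((10 + w + u₁⁻¹) ^ 3)]
    with n hn η hη
  have t3 := Sp.Gap15.sx_cube n
  have tt : tau n = (sx n ^ 2) ^ 2 := by
    unfold tau sx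
    rw [← pow_mul, ← Real.rpow_natCast, ← Real.rpow_mul (Nat.cast_nonneg n)]
    norm_num
  have t0 : 0 ≤ sx n ^ 2 := by positivity
  obtain ⟨hG, hτ⟩ := hη
  rw [tt] at hτ
  generalize sx n ^ 2 = t at *
  have ui : 0 < u₁⁻¹ := by positivity
  have tM : 10 + w + u₁⁻¹ ≤ t := by
    rw [← t3] at hn
    exact (pow_le_pow_iff_left₀ (by positivity) t0 three_ne_zero).1 hn
  have t10 : 10 ≤ t := by linarith
  have tw : w ≤ t ^ 2 := by nlinarith
  have tu : u₁⁻¹ ≤ t ^ 2 := by nlinarith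
  have tu' : 1 ≤ t ^ 2 * u₁ := by rwa [inv_le_iff_one_le_mul₀ u0] at tu
  have n0 : (0 : ℝ) < n := by rw [← t3]; positivity
  have ev : ∀ a : ℝ, 0 < a → ∀ᶠ h in 𝓝[>] (0 : ℝ), h * a ≤ 1 := fun a ha => by
    filter_upwards [Ioc_mem_nhdsGT (inv_pos.2 ha)] with h hh
    rw [← le_div_iff₀ ha, one_div]; exact hh.2
  filter_upwards [self_mem_nhdsWithin, ev (20 * t ^ 2) (by positivity),
    ev ((n : ℝ) ^ 2 * t) (by positivity), ev (2 * u₁⁻¹) (by positivity)] with h h0 h1 h2 h3 ρ hρ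
  replace h0 : 0 < h := h0
  have h4 : 2 * h ≤ u₁ := by
    rw [← mul_assoc, ← div_eq_mul_inv, div_le_one u0] at h3; linarith
  have H : Hy n η t ((n : ℝ) ^ 2) h w |C| c (16 * t ^ 2) ρ :=
    { h0 := h0
      κ0 := by positivity
      w1 := w1
      t0 := t0
      c0 := c0
      C0 := C0
      wV := by nlinarith
      Vκ := by
        rw [← t3, show ((t ^ 3) ^ 2) ^ 2 = t ^ 10 * t ^ 2 by ring]
        have : (10 : ℝ) ^ 10 ≤ t ^ 10 := pow_le_pow_left₀ (by norm_num) t10 10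
        nlinarith
      q0 := fun k hk => by
        have := mul_le_mul_of_nonneg_right (hτ k hk) h0.le
        linarith
      ht := by linarith
      ηl := eta_lo hG hw
      lo := fun v a b => hc ▸ Sr_lo hG t3 t0 hL hw v a b
      dn := fun v hv => by
        have := hG.dn v hv
        have := mul_le_mul_of_nonneg_right (le_abs_self C) (sqrt_nonneg v)
        linarith
      ren := ren_of hρ.1 hρ.2 }
  have A4 : ∀ m : ℕ, u₁ / 4 ≤ m * h → m * h ≤ e ^ 2 / (2 * w) →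
      e / (8 * (|C| + 1)) * (√(m * h))⁻¹ ≤ ρ m := fun m a b =>
    H.a4 e0 e1 (hA ▸ e2) (Nat.pos_of_ne_zero (by rintro rfl; simp at a; linarith)) (hu _ b).1
      (by nlinarith)
  refine ⟨fun m hm => ?_, fun T T1 T2 m hm => ?_⟩
  · have m4 := (hu _ hm).2
    have m0 : 0 ≤ m * h := by positivity
    have A2 : h * ∑ i ∈ range (m + 1), ρ i ≤ A * (√(m * h) + t⁻¹) := by
      have ti : t ^ 2 * t⁻¹ ^ 2 = 1 := by field_simp
      have := H.a2 (m := m) (z := max (m * h) (t⁻¹ ^ 2)) (by positivity) (le_max_left _ _) (by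
        rw [mul_max_of_nonneg _ _ (by positivity)]
        refine max_le (by nlinarith) ?_
        have := mul_le_mul_of_nonneg_right tw (sq_nonneg t⁻¹)
        linarith) (by
        have := mul_le_mul_of_nonneg_left (le_max_right (m * h) (t⁻¹ ^ 2)) (sq_nonneg t)
        linarith)
      rw [← hA] at this
      refine this.trans (mul_le_mul_of_nonneg_left ?_ A0.le)
      have := sqrt_nonneg (m * h)
      have : 0 ≤ t⁻¹ := by positivity
      rcases le_total (m * h) (t⁻¹ ^ 2) with e | e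
      · rw [max_eq_right e, sqrt_sq this]; linarith
      · rw [max_eq_left e]; linarith
    refine ⟨H.nn m, H.a1 m4, A2.trans (mul_le_mul_of_nonneg_right (by linarith) (by positivity)),
      fun mp => ?_, fun mu => ⟨?_, fun l hl => ?_⟩⟩
    · have m1 : (0 : ℝ) < m := by exact_mod_cast mp
      have up : 0 < m * h := by positivity
      have b1 := mul_le_mul_of_nonneg_left (H.a3 m4) h0.le
      have b2 := mul_nonneg h0.le (H.nn m)
      have b3 : ρ m ≤ 2 * A * (√(m * h) + t⁻¹) / (m * h) := by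
        rw [le_div_iff₀ up]; linarith
      refine b3.trans ?_
      rw [mul_div_assoc]
      refine mul_le_mul (by linarith) (le_of_eq ?_) (by positivity) (by linarith)
      have r0 := sqrt_pos.2 up
      have r2 := (sq_sqrt up.le).symm
      generalize √(m * h) = r at *
      rw [r2]
      field_simp
    · refine le_trans (mul_le_mul_of_nonneg_right ?_ (by positivity)) (A4 m (by linarith) hm)
      have : 0 < e / (8 * (|C| + 1)) := by positivity
      linarith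
    · have up : 0 < m * h := by linarith
      have mp : 0 < m := Nat.pos_of_ne_zero (by rintro rfl; simp at up)
      have m1 : (0 : ℝ) < m := by exact_mod_cast mp
      have b1 := H.a2 up le_rfl (by linarith) (by nlinarith)
      rw [← hA] at b1
      refine (H.a5 mp m4 hl).trans ?_
      generalize ∑ i ∈ range (m + 1), ρ i = S at *
      have r0 := sqrt_pos.2 up
      have r2 := (sq_sqrt up.le).symm
      have r3 : (m * h) ^ (-(3 / 2) : ℝ) = √(m * h) / (m * h) ^ 2 := by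
        rw [sqrt_eq_rpow, ← rpow_natCast, ← rpow_sub up]
        norm_num
      rw [r3, show l * (18 * S / m ^ 2) = 18 * (h * S) * (l * h / (m * h) ^ 2) by field_simp,
        show D * (l * h) * (√(m * h) / (m * h) ^ 2) = D * √(m * h) * (l * h / (m * h) ^ 2) by ring]
      refine mul_le_mul_of_nonneg_right ?_ (by positivity)
      have := mul_le_mul_of_nonneg_right D1 r0.le
      linarith
  · have T0 : 0 < T := by linarith
    have T4 := (hu _ T2).2
    refine ⟨(H.b1 T4 (by linarith) hm).trans (mul_le_mul_of_nonneg_right D2 (sqrt_nonneg _)),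
      fun k hk => ?_⟩
    obtain ⟨B2, B4⟩ := H.b2 hk T0 (by nlinarith) (by
      have := inv_anti₀ u0 T1
      have := max_le (hτ k hk) (by positivity : 0 ≤ 10 * t ^ 2)
      nlinarith)
    rw [show 80 / c = 10 * A by rw [hA]; ring] at B4
    rw [← hA] at B2
    have W0 := Hy.Wt_pos (η := η) T0 k
    have r0 := sqrt_pos.2 W0
    have r2 : ∀ a, (a * √(Wt η T k)) ^ 2 = a ^ 2 * Wt η T k := fun a => by
      rw [mul_pow, sq_sqrt W0.le]
    have AD : A ^ 2 * Wt η T k ≤ D * Wt η T k :=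
      mul_le_mul_of_nonneg_right (by nlinarith) W0.le
    refine ⟨?_, fun hm2 => ?_, fun l hl mp => ?_⟩
    · have := pow_le_pow_left₀ (B2 m hm).1 (B2 m hm).2 2
      rw [r2] at this
      linarith
    · refine le_trans (le_of_eq ?_) (H.b3 (a := e / (8 * (|C| + 1)) * (√T)⁻¹) hk (by positivity)
        (by linarith) hm2 hm fun j j1 j2 => le_trans ?_ (A4 j (by linarith) (j2.trans T2)))
      · ring
      · refine mul_le_mul_of_nonneg_left (inv_anti₀ (sqrt_pos.2 (by linarith)) (sqrt_le_sqrt j2))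
          (by positivity)
    · have m1 : (0 : ℝ) < m := by exact_mod_cast mp
      rcases le_total ((l : ℝ) / m) 1 with b | b
      · rw [min_eq_right b]
        have key := tele (Kk η h ρ k) m l (10 * A * √(Wt η T k) / m) fun j j1 j2 => by
          have j1' : (m : ℝ) ≤ j := by exact_mod_cast j1
          have j2' : (j : ℝ) ≤ m + l := by exact_mod_cast j2.le
          rw [le_div_iff₀' m1]
          exact (mul_le_mul_of_nonneg_right j1' (abs_nonneg _)).trans
            (B4 j (le_trans (by gcongr) hl))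
        have k2 := pow_le_pow_left₀ (abs_nonneg _) key 2
        rw [sq_abs, show l * (10 * A * √(Wt η T k) / m) = 10 * A * (l / m) * √(Wt η T k) by ring,
          r2] at k2
        refine k2.trans (mul_le_mul_of_nonneg_right ?_ W0.le)
        have b0 : 0 ≤ (l : ℝ) / m := by positivity
        rw [mul_pow, sq ((l : ℝ) / m), ← mul_assoc]
        refine mul_le_mul_of_nonneg_right ?_ b0
        have := mul_le_mul_of_nonneg_left b (sq_nonneg (10 * A))
        linarith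
      · rw [min_eq_left b, mul_one]
        have a1 := B2 m hm
        have a2 := B2 (m + l) (by push_cast; exact hl)
        have := sq_le_sq' (a := Kk η h ρ k (m + l) - Kk η h ρ k m) (b := A * √(Wt η T k))
          (by linarith [a1.2, a2.1]) (by linarith [a1.1, a2.2])
        rw [r2] at this
        linarith

end Crest.Agent.T157.Cq

end
end

-- ▼ part T157/CqSpA_39
section

/-!
# Row 157, part C: the edge of `Wmat` (couplings of either law, Gaussian diagonal) (helper39)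

`swapM`, `univM` (any matched dominated laws), `headW` (two-sided rough rigidity of the first `K`
eigenvalues with a constant independent of `K`), `tailW` (lower bound of all the others).
-/

set_option autoImplicit false

noncomputable section

namespace Crest.Agent.T157.Sp39

open MeasureTheory ProbabilityTheory Matrix Filter Topology Finset
open Crest.ProbabilityR.SpinGlassDynamics Crest.Agent.T157.E Crest.Agent.T157.Eig
open Crest.Agent.T157.Cond Crest.Agent.T157.Ed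

open Sw50 in
/-- Lindeberg replacement for the power sums, any dominated entry laws with matched moments
(the proof is that of `Ed.swapGlue`) -/
theorem swapM (μ : ∀ n, Ix n → Measure ℝ) [∀ n p, IsProbabilityMeasure (μ n p)]
    (hd : ∀ n p, Dom (μ n p))
    (hm : ∀ n p i, i < kk p → ∫ t, t ^ i ∂μ n p = ∫ t, t ^ i ∂gaussianReal 0 1)
    (r : ℕ) (G : (Fin r → ℝ) → ℝ) (C : ℝ) (hG : ContDiff ℝ 4 G)
    (hC : ∀ i, i ≤ 4 → ∀ y, ‖iteratedFDeriv ℝ i G y‖ ≤ C) :
    Tendsto (fun n => ∫ y, G (ptr n r (Wy n y)) ∂Measure.pi (μ n) - ∫ W, G (ptr n r W) ∂GOE n)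
      atTop (𝓝 0) := by
  obtain ⟨hL1, -, hL3, -⟩ := linkStmt
  have hMb := All.mbStmt
  have hDer := derStmt
  have hLind := EdLind.lindStmt
  obtain ⟨Cm, hCm, hMb⟩ := hMb 8 (4 * (r + 1))
  obtain ⟨Cd, hCd, hDer⟩ := hDer
  obtain ⟨Cl, hCl, hLind⟩ := hLind
  have hC0 : 0 ≤ C := (norm_nonneg _).trans (hC 0 (by norm_num) 0)
  set K : ℝ := 24 * (C + 1) * (Cd + 1) ^ 4 with hK
  have hK0 : 0 < K := by positivity
  set S : ℝ := Real.sqrt (1 + 4 * Cm ^ 8) with hS
  have hS0 : 0 < S := Real.sqrt_pos.2 (by positivity)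
  have hlim : Tendsto (fun n => Cl * (K * S * (2 * ww n))) atTop (𝓝 0) := by
    have := ((tendsto_ww.const_mul 2).const_mul (K * S)).const_mul Cl
    simpa using this
  refine squeeze_zero_norm' ?_ hlim
  filter_upwards [hMb, Ed.tendsto_tau.eventually_ge_atTop 1, eventually_ge_atTop 1] with n hM hτ hn
  have hn0 : (0 : ℝ) < n := by exact_mod_cast hn
  set N : ℕ := 2 * ⌈tau n⌉₊ with hN
  have hN1 : 1 ≤ N := by
    have : 0 < ⌈tau n⌉₊ := Nat.ceil_pos.2 (by linarith)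
    omega
  have hN1' : (1 : ℝ) ≤ N := by exact_mod_cast hN1
  have hN4 : (N : ℝ) ≤ 4 * tau n := by
    have := (Nat.ceil_lt_add_one (by linarith : 0 ≤ tau n)).le
    rw [hN]; push_cast; linarith
  have hw0 : 0 < ww n := Real.rpow_pos_of_pos (by rw [← hN]; linarith) _
  have hw1 : ww n ≤ 1 := Real.rpow_le_one_of_one_le_of_nonpos (by rw [← hN]; exact hN1')
    (by norm_num)
  have hw4 : ww n ^ 4 = (N : ℝ) ^ (-(1 / 4) : ℝ) := by
    unfold ww
    rw [← hN, ← Real.rpow_natCast, ← Real.rpow_mul (by linarith)]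
    norm_num
  set Mx : ℕ := (r + 1) * N with hMx
  have hMxT : (Mx : ℝ) ≤ 4 * (r + 1) * tau n := by
    rw [hMx]; push_cast
    have : (0 : ℝ) ≤ r + 1 := by positivity
    nlinarith
  set e : ℝ := 1 / Real.sqrt n with he
  have he0 : 0 < e := by have := Real.sqrt_pos.2 hn0; positivity
  have hcG : Continuous fun W : Mat n => G (ptr n r W) := hG.continuous.comp (continuous_ptr r)
  have hcF : Continuous fun y : Ix n → ℝ => G (ptr n r (Wy n y)) := hcG.comp continuous_Wy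
  have e2 : ∫ W, G (ptr n r W) ∂GOE n =
      ∫ y, G (ptr n r (Wy n y)) ∂Measure.pi fun _ : Ix n => gaussianReal 0 1 := by
    rw [← hL1, integral_map continuous_Wy.measurable.aemeasurable hcG.aestronglyMeasurable]
  have hk : ∀ p : Ix n, 1 ≤ kk p ∧ kk p ≤ 4 := by
    rintro (p | p) <;> simp [kk]
  have hshift : ∀ (p : Ix n) (y : Ix n → ℝ),
      (fun t => G (ptr n r (Wy n (Function.update y p t)))) =
      fun t => (fun s : ℝ => G fun j : Fin r =>
        ((Ym 1 (Wy n y) + s • Ed p) ^ (((j : ℕ) + 2) * N)).trace) (t - y p) := by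
    intro p y
    funext t
    show G _ = G _
    congr 1
    funext j
    simp only [ptr, Ym_update, hN]
  have hcd : ∀ (p : Ix n) (y : Ix n → ℝ), ContDiff ℝ 4 fun s : ℝ => G fun j : Fin r =>
      ((Ym 1 (Wy n y) + s • Ed p) ^ (((j : ℕ) + 2) * N)).trace := fun p y =>
    hG.comp (contDiff_pi.2 fun j => contDiff_trace _ _ _)
  have main := hLind (Ix n) (μ n) (fun _ => gaussianReal 0 1) (hd n) (fun _ => hL3)
    (fun y => G (ptr n r (Wy n y))) C kk
    (fun p y => K * (e * ww n) ^ kk p * Real.sqrt (Z8 Mx p y))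
    (fun p => K * S * (e * ww n) ^ kk p) hcF.measurable
    (fun y => by simpa using hC 0 (by norm_num) (ptr n r (Wy n y))) hk ?_ ?_ ?_ ?_ ?_ ?_
  · rw [e2, Real.norm_eq_abs]
    refine main.trans (mul_le_mul_of_nonneg_left ?_ hCl)
    rw [← mul_sum]
    exact mul_le_mul_of_nonneg_left (sum_pow_kk hn hw0.le hw1) (by positivity)
  · exact hm n
  · intro p y
    rw [hshift]
    exact (hcd p y).comp (contDiff_id.sub contDiff_const)
  · intro p
    exact (continuous_const.mul (continuous_Z8 Mx p).sqrt).measurable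
  · intro p y
    have hsh := congrFun (iteratedDeriv_comp_sub_const (n := kk p) (f := fun s : ℝ => G fun j : Fin r =>
        ((Ym 1 (Wy n y) + s • Ed p) ^ (((j : ℕ) + 2) * N)).trace) (s := y p)) (y p)
    rw [sub_self] at hsh
    rw [hshift, hsh]
    have hZ1 := one_le_Zr Mx p y
    have hb := comp_bound hG hC (fun (j : Fin r) (s : ℝ) =>
        ((Ym 1 (Wy n y) + s • Ed p) ^ (((j : ℕ) + 2) * N)).trace)
      (fun j => contDiff_trace _ _ _) (D := Cd * e * Zr Mx p y * ww n) (by positivity)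
      (fun j i hi1 hi4 => by
        have hM1 : N ≤ ((j : ℕ) + 2) * N := Nat.le_mul_of_pos_left _ (by omega)
        have hM2 : ((j : ℕ) + 2) * N ≤ Mx := Nat.mul_le_mul_right _ (by omega)
        have h := hDer n (Ym 1 (Wy n y)) (Ed p) (iA p) (iB p) e (Zr Mx p y) (((j : ℕ) + 2) * N) i
          (Ym_symm y) (Ed_supp p) (Ed_le p) (hN1.trans hM1) hi1 hi4
          (fun b hb c hc => diag_le Mx p y (hb.trans hM2) hc)
        refine h.trans ?_
        rw [mul_pow _ (ww n)]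
        refine mul_le_mul_of_nonneg_left ?_ (by positivity)
        calc ((((j : ℕ) + 2) * N : ℕ) : ℝ) ^ (-(1 / 4) : ℝ) ≤ (N : ℝ) ^ (-(1 / 4) : ℝ) :=
              Real.rpow_le_rpow_of_nonpos (by linarith) (by exact_mod_cast hM1) (by norm_num)
          _ = ww n ^ 4 := hw4.symm
          _ ≤ ww n ^ i := pow_le_pow_of_le_one hw0.le hw1 hi4) (kk p) (hk p).2
    refine hb.trans ?_
    have h1 : Cd ^ kk p ≤ (Cd + 1) ^ 4 :=
      (pow_le_pow_left₀ hCd (by linarith) _).trans (pow_le_pow_right₀ (by linarith) (hk p).2)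
    have h2 := Zr_pow_le Mx p y (hk p).2
    calc 24 * C * (Cd * e * Zr Mx p y * ww n) ^ kk p
        = 24 * C * Cd ^ kk p * (e * ww n) ^ kk p * Zr Mx p y ^ kk p := by
          simp only [mul_pow]; ring
      _ ≤ 24 * (C + 1) * (Cd + 1) ^ 4 * (e * ww n) ^ kk p * Real.sqrt (Z8 Mx p y) := by
          gcongr
          linarith
  · intro p; positivity
  · intro p ξ _ hξ
    obtain ⟨hi, hle⟩ := integral_Z8_le Mx p (Measure.pi ξ) Cm (fun a ha c => by
      have h := (hM ξ hξ 1 (by simp) a (le_trans (by exact_mod_cast ha) hMxT)).1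
        (Pi.single c 1) (by simp)
      simpa [mulVec_single_one, single_one_dotProduct] using h)
    have hZ0 : ∀ y, 0 ≤ Z8 Mx p y := fun y => by linarith [one_le_Z8 Mx p y]
    have e3 : ∀ y, (K * (e * ww n) ^ kk p * Real.sqrt (Z8 Mx p y)) ^ 2 =
        (K * (e * ww n) ^ kk p) ^ 2 * Z8 Mx p y := fun y => by
      rw [mul_pow, Real.sq_sqrt (hZ0 y)]
    simp only [e3]
    rw [← ofReal_integral_eq_lintegral_ofReal (hi.const_mul _)
      (Eventually.of_forall fun y => mul_nonneg (sq_nonneg _) (hZ0 y)), integral_const_mul]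
    refine ENNReal.ofReal_le_ofReal ?_
    have e4 : (K * S * (e * ww n) ^ kk p) ^ 2 = (K * (e * ww n) ^ kk p) ^ 2 * (1 + 4 * Cm ^ 8) := by
      rw [← Real.sq_sqrt (by positivity : 0 ≤ 1 + 4 * Cm ^ 8), ← hS]; ring
    rw [e4]
    exact mul_le_mul_of_nonneg_left hle (sq_nonneg _)

/-- universality of the edge for all matched dominated laws -/
theorem univM (μ : ∀ n, Ix n → Measure ℝ) [∀ n p, IsProbabilityMeasure (μ n p)]
    (hd : ∀ n p, Dom (μ n p))
    (hm : ∀ n p i, i < Sw50.kk p → ∫ t, t ^ i ∂μ n p = ∫ t, t ^ i ∂gaussianReal 0 1)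
    (K : ℕ) (F : (Fin K → ℝ) → ℝ) (hF : Continuous F) (hc : HasCompactSupport F) :
    Tendsto (fun n => ∫ W, F (LamV n K W) ∂(Measure.pi (μ n)).map (Wy n) -
      ∫ W, F (LamV n K W) ∂GOE n) atTop (𝓝 0) := by
  obtain ⟨l1, -, l3, -⟩ := linkStmt
  rw [Metric.tendsto_nhds]
  intro ε hε
  obtain ⟨r, G, C, hG, hC, hap⟩ :=
    EdUniv.prob_approx All.mbStmt swStmt hF hc (ε := ε / 4) (by positivity)
  filter_upwards [hap, Metric.tendsto_nhds.1 (swapM μ hd hm r G C hG hC) (ε / 4) (by positivity)]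
    with n h1 h2
  have m2 : Measurable fun W : Mat n => G (ptr n r W) :=
    (hG.continuous.comp (EdUniv.continuous_ptr n r)).measurable
  have a1 := h1 (μ n) (hd n)
  have a2 := h1 (fun _ => gaussianReal 0 1) fun _ => l3
  rw [integral_map (f := fun W : Mat n => G (ptr n r W)) (EdUniv.measurable_Wy n).aemeasurable
    m2.aestronglyMeasurable] at a1
  rw [l1 n] at a2
  rw [Real.dist_eq, sub_zero] at h2 ⊢
  rw [abs_le] at a1 a2
  rw [abs_lt] at h2 ⊢
  constructor <;> linarith [a1.1, a1.2, a2.1, a2.2, h2.1, h2.2]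

/-- entry laws of `Wmat` -/
def lawW (b : Bool) (n : ℕ) : Ix n → Measure ℝ :=
  Sum.elim (fun _ => entryLaw b) fun _ => gaussianReal 0 1

instance (b : Bool) (n : ℕ) (p : Ix n) : IsProbabilityMeasure (lawW b n p) := by
  cases p <;> simp only [lawW, Sum.elim_inl, Sum.elim_inr] <;> infer_instance

/-- couplings of either law and a Gaussian diagonal -/
abbrev PW (b : Bool) (n : ℕ) : Measure ((Pair n → ℝ) × (Fin n → ℝ)) :=
  (couplingLaw b n).prod (gv (Fin n))

/-- the law of the matrix -/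
abbrev LW (b : Bool) (n : ℕ) : Measure (Mat n) := (PW b n).map fun p => Wmat n p.1 p.2

lemma map_lawW (b : Bool) (n : ℕ) : (Measure.pi (lawW b n)).map (Wy n) = LW b n := by
  rw [Mba36.map_Wy n (lawW b n)]
  simp only [lawW, Sum.elim_inl, Sum.elim_inr]
  rw [← couplingLaw_eq]

lemma dom_lawW (b : Bool) (n : ℕ) (p : Ix n) : Dom (lawW b n p) := by
  cases p
  · exact Mba36.dom_entry b
  · exact Mba36.dom_gauss

lemma match_lawW (b : Bool) (n : ℕ) (p : Ix n) (i : ℕ) (hi : i < Sw50.kk p) :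
    ∫ t, t ^ i ∂lawW b n p = ∫ t, t ^ i ∂gaussianReal 0 1 := by
  cases p
  · exact Mba36.entry_match b hi
  · rfl

instance (b : Bool) (n : ℕ) : IsProbabilityMeasure (LW b n) :=
  Measure.isProbabilityMeasure_map measurable_Wmat.aemeasurable

/-- **universality of the edge of `Wmat`** -/
theorem univW (b : Bool) (K : ℕ) (F : (Fin K → ℝ) → ℝ) (hF : Continuous F)
    (hc : HasCompactSupport F) :
    Tendsto (fun n => ∫ W, F (LamV n K W) ∂LW b n - ∫ W, F (LamV n K W) ∂GOE n) atTop (𝓝 0) := by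
  simpa only [map_lawW] using univM (lawW b) (dom_lawW b) (match_lawW b) K F hF hc

lemma pre_le (b : Bool) (n : ℕ) (s : Set (Mat n)) :
    PW b n {p | Wmat n p.1 p.2 ∈ s} ≤ LW b n s :=
  Measure.le_map_apply measurable_Wmat.aemeasurable s

lemma real_le_one_sub {X : Type*} [MeasurableSpace X] (μ : Measure X) [IsProbabilityMeasure μ]
    {f : X → ℝ} (hf : Measurable f) (h : ∀ x, f x ∈ Set.Icc (0 : ℝ) 1) {A : Set X}
    (hA : MeasurableSet A) :
    ((∀ x ∈ A, f x = 0) → μ.real A ≤ 1 - ∫ x, f x ∂μ) ∧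
      ((∀ x, x ∉ A → f x = 1) → 1 - ∫ x, f x ∂μ ≤ μ.real A) := by
  have hi : Integrable f μ := Integrable.of_bound hf.aestronglyMeasurable 1
    (.of_forall fun x => by rw [Real.norm_eq_abs, abs_of_nonneg (h x).1]; exact (h x).2)
  have e : 1 - ∫ x, f x ∂μ = ∫ x, (1 - f x) ∂μ := by
    rw [integral_sub (integrable_const _) hi]; simp
  have hj : Integrable (A.indicator (1 : X → ℝ)) μ := (integrable_const (1 : ℝ)).indicator hA
  rw [e, ← integral_indicator_one hA]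
  refine ⟨fun h0 => integral_mono hj ((integrable_const _).sub hi) fun x => ?_,
    fun h1 => integral_mono ((integrable_const _).sub hi) hj fun x => ?_⟩
  · by_cases hx : x ∈ A
    · simp [hx, h0 x hx]
    · simpa [hx] using (h x).2
  · by_cases hx : x ∈ A
    · simpa [hx] using (h x).1
    · simp [hx, h1 x hx]

/-- two-sided rough rigidity of the first `K` eigenvalues -/
def Head (n K : ℕ) (L : ℝ) (W : Mat n) : Prop := ∀ k : ℕ, k < K →
  ((k : ℝ) + 1) ^ (2 / 3 : ℝ) / 256 - L ≤ Lam n W k ∧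
    Lam n W k ≤ 60 * ((k : ℝ) + 1) ^ (2 / 3 : ℝ) + L

lemma head_of_kap {n K : ℕ} (hn : 8 * K ≤ n) {W : Mat n} {L : ℝ} (h : kapL n (lam W) ≤ L) :
    Head n K L W := fun k hk => by
  have h1 := (le_ciSup (f := fun k : Fin n =>
    max ((((k : ℕ) : ℝ) + 1) ^ (2 / 3 : ℝ) / 256 - tau n * (2 - lam W k))
    (if 8 * ((k : ℕ) + 1) ≤ n then tau n * (2 - lam W k) - 60 * (((k : ℕ) : ℝ) + 1) ^ (2 / 3 : ℝ)
      else 0)) (Finite.bddAbove_range _) ⟨k, by omega⟩).trans h
  rw [max_le_iff, if_pos (by simp only; omega)] at h1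
  obtain ⟨h2, h3⟩ := h1
  simp only at h2 h3
  rw [Lam]
  constructor <;> linarith

/-- **rough rigidity of the first `K` eigenvalues, constant independent of `K`** -/
theorem headW (b : Bool) {ε : ℝ} (hε : 0 < ε) : ∃ L : ℝ, 0 ≤ L ∧ ∀ K : ℕ, ∀ᶠ n in atTop,
    PW b n {p | ¬ Head n K L (Wmat n p.1 p.2)} ≤ ENNReal.ofReal ε := by
  obtain ⟨C, hC⟩ := All.edgeTStmt 1 zero_le_one
  obtain ⟨L, hL, h⟩ := top_markov (fun n => GOE n) (fun n W => kapL n (lam W))
    (fun n => (measurable_kapL n).comp Ed.measurable_lam) hC (half_pos hε)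
  refine ⟨L + 1, by positivity, fun K => ?_⟩
  set a : Fin K → ℝ := fun k => (((k : ℕ) : ℝ) + 1) ^ (2 / 3 : ℝ) / 256 - L with ha
  set c : Fin K → ℝ := fun k => 60 * (((k : ℕ) : ℝ) + 1) ^ (2 / 3 : ℝ) + L with hc
  set U : Set (Fin K → ℝ) := Set.univ.pi fun k => Set.Ioo (a k - 1) (c k + 1) with hU
  have hUo : IsOpen U := isOpen_set_pi Set.finite_univ fun _ _ => isOpen_Ioo
  obtain ⟨F, F1, F0, Fc, F01⟩ := exists_continuous_one_zero_of_isCompact
    (isCompact_Icc (a := a) (b := c)) hUo.isClosed_compl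
    (Set.disjoint_left.2 fun y hy hy' => hy' fun k _ =>
      ⟨by linarith [hy.1 k], by linarith [hy.2 k]⟩)
  filter_upwards [h, Metric.tendsto_nhds.1 (univW b K F F.continuous Fc) (ε / 2) (half_pos hε),
    eventually_ge_atTop (8 * K)] with n h1 h2 h8
  have mF : Measurable fun W : Mat n => F (LamV n K W) :=
    F.continuous.measurable.comp (measurable_LamV n K)
  have k1 := (real_le_one_sub (LW b n) mF (fun W => F01 _)
    ((measurable_LamV n K) hUo.isClosed_compl.measurableSet)).1 fun W hW => F0 hW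
  have k2 := (real_le_one_sub (GOE n) mF (fun W => F01 _)
    (A := {W | L < kapL n (lam W)})
    (measurableSet_lt measurable_const ((measurable_kapL n).comp Ed.measurable_lam))).2
    fun W hW => F1 ⟨fun k => (head_of_kap h8 (not_lt.1 hW) k k.2).1,
      fun k => (head_of_kap h8 (not_lt.1 hW) k k.2).2⟩
  have k3 : (GOE n).real {W | L < kapL n (lam W)} ≤ ε / 2 :=
    ENNReal.toReal_le_of_le_ofReal (half_pos hε).le h1
  rw [Real.dist_eq, sub_zero, abs_lt] at h2
  refine le_trans (measure_mono fun p hp => ?_) ((pre_le b n (LamV n K ⁻¹' Uᶜ)).trans ?_)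
  · intro hu
    refine hp fun k hk => ?_
    have := hu ⟨k, hk⟩ (Set.mem_univ _)
    simp only [ha, hc, LamV, Set.mem_Ioo] at this
    constructor <;> linarith [this.1, this.2]
  · rw [← ofReal_measureReal]
    exact ENNReal.ofReal_le_ofReal (by linarith [h2.1])

/-- one eigenvalue is rarely too low -/
lemma low_one (b : Bool) : ∃ C : ℝ, 0 ≤ C ∧ ∀ᶠ n in atTop, ∀ k : ℕ, k < n →
    (PW b n).real {p | Lam n (Wmat n p.1 p.2) k < ((k : ℝ) + 1) ^ (3 / 5 : ℝ)} ≤
      C * (((k : ℝ) + 1) ^ 2)⁻¹ := by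
  obtain ⟨C, c0, hC⟩ := All.mbStmt 20 1
  refine ⟨(2 * C) ^ 20, by positivity, ?_⟩
  filter_upwards [hC, eventually_ge_atTop 1] with n hC hn k hk
  have t0 := tau_pos hn
  have n0 : (0 : ℝ) < n := by exact_mod_cast hn
  have k1 : (1 : ℝ) ≤ (k : ℝ) + 1 := by linarith [(Nat.cast_nonneg k : (0 : ℝ) ≤ k)]
  have k0 : (0 : ℝ) < (k : ℝ) + 1 := by linarith
  set x : ℝ := ((k : ℝ) + 1) ^ (3 / 5 : ℝ) with hx
  have x1 : 1 ≤ x := Real.one_le_rpow k1 (by norm_num)
  have x0 : 0 < x := by linarith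
  have xt : x ≤ tau n := by
    have h1 : (k : ℝ) + 1 ≤ n := by exact_mod_cast hk
    exact (Real.rpow_le_rpow k0.le h1 (by norm_num)).trans
      (Real.rpow_le_rpow_of_exponent_le (k1.trans h1) (by norm_num))
  obtain ⟨h1, h2⟩ := (hC (lawW b n) (dom_lawW b n) 1 (by simp) ⌊tau n / x⌋₊
    ((Nat.floor_le (by positivity)).trans (by rw [one_mul]; exact div_le_self t0.le x1))).2
  set T : Mat n → ℝ := fun W => (Ym 1 W ^ (2 * ⌊tau n / x⌋₊)).trace ^ 20 with hT
  have mT : Measurable T := ((EdUniv.continuous_trace_Ym n 1 _).pow 20).measurable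
  have h3 := mul_meas_ge_le_integral_of_nonneg
    (ae_of_all _ fun y => (by decide : Even 20).pow_nonneg _) h1 ((((k : ℝ) + 1) / 2) ^ 20)
  have h4 : (PW b n).real {p | Lam n (Wmat n p.1 p.2) k < x} ≤
      (Measure.pi (lawW b n)).real {y | (((k : ℝ) + 1) / 2) ^ 20 ≤ T (Wy n y)} := by
    have e : (Measure.pi (lawW b n)).real {y | (((k : ℝ) + 1) / 2) ^ 20 ≤ T (Wy n y)} =
        (PW b n).real {p | (((k : ℝ) + 1) / 2) ^ 20 ≤ T (Wmat n p.1 p.2)} := by
      have ms : MeasurableSet {W : Mat n | (((k : ℝ) + 1) / 2) ^ 20 ≤ T W} :=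
        measurableSet_le measurable_const mT
      have e1 := Measure.map_apply (μ := Measure.pi (lawW b n)) (EdUniv.measurable_Wy n) ms
      have e2 := Measure.map_apply (μ := PW b n) measurable_Wmat ms
      rw [map_lawW, e2] at e1
      exact (congrArg ENNReal.toReal e1).symm
    rw [e]
    refine measureReal_mono fun p hp => ?_
    have hW := Wmat_isHermitian p.1 p.2
    have h5 : k < cnt (Wmat n p.1 p.2) (2 - x / tau n) := by
      refine (lt_cnt_iff hW).2 ⟨by simpa using hk, ?_⟩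
      have hp' : tau n * (2 - lam (Wmat n p.1 p.2) k) < x := hp
      have : 2 - lam (Wmat n p.1 p.2) k ≤ x / tau n := by rw [le_div_iff₀ t0]; linarith
      linarith
    have h6 := EdMbc.cnt_le_trace hW hn x0 xt
    have h7 : (k : ℝ) + 1 ≤ cnt (Wmat n p.1 p.2) (2 - x / tau n) := by exact_mod_cast h5
    show (((k : ℝ) + 1) / 2) ^ 20 ≤ (Ym 1 (Wmat n p.1 p.2) ^ (2 * ⌊tau n / x⌋₊)).trace ^ 20
    exact pow_le_pow_left₀ (by positivity) (by linarith) 20
  have h5 : C * n * (1 + (⌊tau n / x⌋₊ : ℝ)) ^ (-(3 / 2) : ℝ) ≤ C * x ^ (3 / 2 : ℝ) := by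
    have h3 := Real.rpow_le_rpow_of_nonpos (z := -(3 / 2)) (by positivity)
      ((Nat.lt_floor_add_one (tau n / x)).le.trans_eq (add_comm _ _)) (by norm_num)
    rw [Real.div_rpow t0.le x0.le, EdMbc.tau_rpow, Real.rpow_neg x0.le, div_inv_eq_mul,
      le_inv_mul_iff₀ n0] at h3
    nlinarith [mul_le_mul_of_nonneg_left h3 c0]
  have h6 : (x ^ (3 / 2 : ℝ)) ^ 20 = ((k : ℝ) + 1) ^ 18 := by
    rw [hx, ← Real.rpow_mul k0.le, ← Real.rpow_natCast, ← Real.rpow_mul k0.le,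
      ← Real.rpow_natCast]
    norm_num
  have h7 := (mul_le_mul_of_nonneg_left h4 (by positivity : 0 ≤ (((k : ℝ) + 1) / 2) ^ 20)).trans
    (h3.trans (h2.trans (pow_le_pow_left₀ (by have := EdMbc.rho_pos ⌊tau n / x⌋₊; positivity)
      h5 20)))
  rw [mul_pow, h6] at h7
  refine le_of_mul_le_mul_left (h7.trans (le_of_eq ?_))
    (by positivity : 0 < (((k : ℝ) + 1) / 2) ^ 20)
  field_simp

/-- lower bound of the eigenvalues beyond `K` -/
def Tail (n K : ℕ) (W : Mat n) : Prop := ∀ k : ℕ, K < k → k < n →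
  ((k : ℝ) + 1) ^ (3 / 5 : ℝ) ≤ Lam n W k

theorem tailW (b : Bool) {ε : ℝ} (hε : 0 < ε) : ∃ K : ℕ, ∀ᶠ n in atTop,
    PW b n {p | ¬ Tail n K (Wmat n p.1 p.2)} ≤ ENNReal.ofReal ε := by
  obtain ⟨C, c0, hC⟩ := low_one b
  obtain ⟨K, hK⟩ := exists_nat_ge (2 * C / ε)
  refine ⟨K, hC.mono fun n hn => ?_⟩
  have h1 : {p : (Pair n → ℝ) × (Fin n → ℝ) | ¬ Tail n K (Wmat n p.1 p.2)} ⊆
      ⋃ k ∈ Ioo K n, {p | Lam n (Wmat n p.1 p.2) k < ((k : ℝ) + 1) ^ (3 / 5 : ℝ)} := by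
    intro p hp
    simp only [Tail, Set.mem_ofPred_eq, not_forall, not_le] at hp
    obtain ⟨k, h1, h2, h3⟩ := hp
    exact Set.mem_biUnion (Finset.mem_coe.2 (mem_Ioo.2 ⟨h1, h2⟩)) h3
  rw [← ofReal_measureReal]
  refine ENNReal.ofReal_le_ofReal ((measureReal_mono h1 (measure_ne_top _ _)).trans
    ((measureReal_biUnion_finset_le _ _).trans ?_))
  have h2 : ∀ k ∈ Ioo K n, (PW b n).real
      {p | Lam n (Wmat n p.1 p.2) k < ((k : ℝ) + 1) ^ (3 / 5 : ℝ)} ≤ C * ((k : ℝ) ^ 2)⁻¹ := by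
    intro k hk
    have k0 : (0 : ℝ) < k := by exact_mod_cast (Nat.zero_le K).trans_lt (mem_Ioo.1 hk).1
    refine (hn k (mem_Ioo.1 hk).2).trans ?_
    gcongr
    linarith
  refine (sum_le_sum h2).trans ?_
  rw [← mul_sum]
  refine (mul_le_mul_of_nonneg_left (sum_Ioo_inv_sq_le K n) c0).trans ?_
  rw [div_le_iff₀ hε] at hK
  rw [← mul_div_assoc, div_le_iff₀ (by positivity)]
  nlinarith

end Crest.Agent.T157.Sp39

end
end

-- ▼ part T157/CqSpec_39

/-!
# Row 157, part C: the spectral mass of the windows, both laws (helper39)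

`Cq.specStmt b : SpecStmt b`.
-/

set_option autoImplicit false

noncomputable section

namespace Crest.Agent.T157.Sp39

open MeasureTheory ProbabilityTheory Matrix Filter Topology Finset Real
open Crest.ProbabilityR.SpinGlassDynamics Crest.Agent.T157.E Crest.Agent.T157.Eig
open Crest.Agent.T157.Ed
open Crest.Agent.T157.Tr (Off)

/-- the summable profile -/
def zz (j : ℕ) : ℝ := 1 / (1 + ((j : ℝ) ^ (2 / 3 : ℝ)) ^ 2)

lemma zz_nonneg (j : ℕ) : 0 ≤ zz j := by unfold zz; positivity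

lemma zz_summable : Summable zz := by
  have h := (Real.summable_nat_rpow_inv (p := 4 / 3)).2 (by norm_num)
  refine (summable_nat_add_iff 1).1 (Summable.of_nonneg_of_le (fun j => zz_nonneg _)
    (fun j => ?_) ((summable_nat_add_iff 1).2 h))
  have j0 : (0 : ℝ) < ((j + 1 : ℕ) : ℝ) := by positivity
  have e : (((j + 1 : ℕ) : ℝ) ^ (2 / 3 : ℝ)) ^ 2 = ((j + 1 : ℕ) : ℝ) ^ (4 / 3 : ℝ) := by
    rw [← Real.rpow_natCast, ← Real.rpow_mul j0.le]; norm_num
  rw [zz, e, one_div]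
  exact inv_anti₀ (by positivity) (by linarith)

/-- one term of the trace -/
lemma term_le {l L η u : ℝ} (hl : 1 ≤ l) (_hL : 0 ≤ L) (hu : 0 ≤ u) (h : u * l / 256 - L ≤ η) :
    l ^ 2 / (η ^ 2 + l ^ 2) ≤ 512 ^ 2 * (1 + L ^ 2) * (1 / (1 + u ^ 2)) := by
  have l0 : 0 < l := by linarith
  rw [mul_one_div, div_le_div_iff₀ (by positivity) (by positivity)]
  rcases le_total u (512 * L) with h1 | h1
  · have h2 : u ^ 2 ≤ (512 * L) ^ 2 := pow_le_pow_left₀ hu h1 2
    have h3 : 1 + u ^ 2 ≤ 512 ^ 2 * (1 + L ^ 2) := by nlinarith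
    calc l ^ 2 * (1 + u ^ 2) ≤ l ^ 2 * (512 ^ 2 * (1 + L ^ 2)) := by gcongr
      _ ≤ (η ^ 2 + l ^ 2) * (512 ^ 2 * (1 + L ^ 2)) := by gcongr; nlinarith [sq_nonneg η]
      _ = _ := by ring
  · have h2 : u * l ≤ 512 * η := by nlinarith [mul_le_mul_of_nonneg_left hl hu]
    have h3 : (u * l) ^ 2 ≤ (512 * η) ^ 2 := pow_le_pow_left₀ (by positivity) h2 2
    have h4 : l ^ 2 * (1 + u ^ 2) ≤ 512 ^ 2 * (η ^ 2 + l ^ 2) := by nlinarith [sq_nonneg l]
    refine h4.trans ?_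
    have : 0 ≤ 512 ^ 2 * L ^ 2 * (η ^ 2 + l ^ 2) := by positivity
    nlinarith

lemma rpow_back {l : ℝ} (hl : 0 ≤ l) : (l ^ (3 / 2 : ℝ)) ^ (2 / 3 : ℝ) = l := by
  rw [← Real.rpow_mul hl]; norm_num

/-- the head of the trace -/
lemma head_le {l L : ℝ} (hl : 1 ≤ l) (hL : 0 ≤ L) (K : ℕ) (η : ℕ → ℝ)
    (h : ∀ k, k < K → ((k : ℝ) + 1) ^ (2 / 3 : ℝ) / 256 - L ≤ η k) :
    ∑ k ∈ range K, l ^ 2 / (η k ^ 2 + l ^ 2) ≤
      512 ^ 2 * (1 + L ^ 2) * (2 * ∑' j, zz j) * l ^ (3 / 2 : ℝ) := by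
  have l0 : 0 < l := by linarith
  have m1 : 1 ≤ l ^ (3 / 2 : ℝ) := Real.one_le_rpow hl (by norm_num)
  set M := ⌈l ^ (3 / 2 : ℝ)⌉₊ with hM
  have M1 : l ^ (3 / 2 : ℝ) ≤ M := Nat.le_ceil _
  have M2 : (M : ℝ) ≤ 2 * l ^ (3 / 2 : ℝ) := by
    linarith [Nat.ceil_lt_add_one (a := l ^ (3 / 2 : ℝ)) (by linarith)]
  have M0 : 0 < M := Nat.ceil_pos.2 (by linarith)
  have h1 : ∀ k ∈ range K, l ^ 2 / (η k ^ 2 + l ^ 2) ≤ 512 ^ 2 * (1 + L ^ 2) * zz (k / M) := by
    intro k hk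
    refine term_le hl hL (by positivity) (le_trans ?_ (h k (mem_range.1 hk)))
    have h2 : ((k / M : ℕ) : ℝ) * l ^ (3 / 2 : ℝ) ≤ (k : ℝ) + 1 := by
      have h3 : ((k / M : ℕ) : ℝ) * M ≤ k := by exact_mod_cast Nat.div_mul_le_self k M
      nlinarith [mul_le_mul_of_nonneg_left M1 (Nat.cast_nonneg (α := ℝ) (k / M))]
    have h4 := Real.rpow_le_rpow (by positivity) h2 (by norm_num : (0 : ℝ) ≤ 2 / 3)
    rw [Real.mul_rpow (by positivity) (by positivity), rpow_back l0.le] at h4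
    linarith
  refine (sum_le_sum h1).trans ?_
  rw [← mul_sum, mul_assoc (512 ^ 2 * (1 + L ^ 2))]
  refine mul_le_mul_of_nonneg_left ?_ (by positivity)
  have h5 : ∑ k ∈ range K, zz (k / M) ≤ M * ∑ j ∈ range K, zz j := by
    rw [← sum_fiberwise_of_maps_to (s := range K) (t := range K) (g := fun k => k / M)
      (fun k hk => mem_range.2 ((Nat.div_le_self k M).trans_lt (mem_range.1 hk))), mul_sum]
    refine sum_le_sum fun j _ => ?_
    rw [sum_congr rfl (g := fun _ => zz j) fun k hk => by rw [(mem_filter.1 hk).2], sum_const,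
      nsmul_eq_mul]
    refine mul_le_mul_of_nonneg_right ?_ (zz_nonneg j)
    have h6 : (range K).filter (fun k => k / M = j) ⊆ Ico (j * M) (j * M + M) := by
      intro k hk
      have h7 := (mem_filter.1 hk).2
      rw [mem_Ico, ← h7]
      exact ⟨Nat.div_mul_le_self k M, Nat.lt_div_mul_add M0⟩
    have h8 := card_le_card h6
    rw [Nat.card_Ico, Nat.add_sub_cancel_left] at h8
    exact_mod_cast h8
  have h9 := zz_summable.sum_le_tsum (range K) fun j _ => zz_nonneg j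
  have h10 : 0 ≤ ∑ j ∈ range K, zz j := sum_nonneg fun j _ => zz_nonneg j
  calc ∑ k ∈ range K, zz (k / M) ≤ M * ∑ j ∈ range K, zz j := h5
    _ ≤ 2 * l ^ (3 / 2 : ℝ) * ∑' j, zz j := by gcongr
    _ = _ := by ring

/-- the tail of the trace -/
lemma tail_small (l₁ : ℝ) : ∀ᶠ K : ℕ in atTop, ∀ (n : ℕ) (l : ℝ) (η : ℕ → ℝ), 1 ≤ l → l ≤ l₁ →
    (∀ k, K ≤ k → k < n → ((k : ℝ) + 1) ^ (3 / 5 : ℝ) ≤ η k) →
    ∑ k ∈ Ico K n, l ^ 2 / (η k ^ 2 + l ^ 2) ≤ 1 := by
  set f : ℕ → ℝ := fun k => (((k : ℝ) + 1) ^ (6 / 5 : ℝ))⁻¹ with hf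
  have hs : Summable f := by
    have h := (Real.summable_nat_rpow_inv (p := 6 / 5)).2 (by norm_num)
    simpa using (summable_nat_add_iff 1).2 h
  have ht := (tendsto_sum_nat_add f).const_mul (l₁ ^ 2)
  rw [mul_zero] at ht
  filter_upwards [ht.eventually (ge_mem_nhds one_pos)] with K hK n l η hl hl₁ h
  refine le_trans ?_ hK
  have h1 : ∀ k ∈ Ico K n, l ^ 2 / (η k ^ 2 + l ^ 2) ≤ l₁ ^ 2 * f k := by
    intro k hk
    have k0 : (0 : ℝ) < (k : ℝ) + 1 := by positivity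
    have h2 := pow_le_pow_left₀ (by positivity) (h k (mem_Ico.1 hk).1 (mem_Ico.1 hk).2) 2
    rw [← Real.rpow_natCast, ← Real.rpow_mul k0.le,
      show (3 / 5 : ℝ) * ((2 : ℕ) : ℝ) = 6 / 5 by norm_num] at h2
    rw [hf, ← div_eq_mul_inv]
    exact div_le_div₀ (by positivity) (pow_le_pow_left₀ (by linarith) hl₁ 2) (by positivity)
      (by nlinarith)
  refine (sum_le_sum h1).trans ?_
  rw [← mul_sum, sum_Ico_eq_sum_range]
  refine mul_le_mul_of_nonneg_left ?_ (sq_nonneg _)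
  simp only [add_comm K]
  exact ((summable_nat_add_iff K).2 hs).sum_le_tsum _ fun k _ => by rw [hf]; positivity

/-- the lower bound -/
lemma low_le {l L : ℝ} (hl : 1 ≤ l) (hL : 0 ≤ L) {K n : ℕ} (hK : l ^ (3 / 2 : ℝ) ≤ K) (hn : K ≤ n)
    (η : ℕ → ℝ) (h : ∀ k, k < K → ((k : ℝ) + 1) ^ (2 / 3 : ℝ) / 256 - L ≤ η k ∧
      η k ≤ 60 * ((k : ℝ) + 1) ^ (2 / 3 : ℝ) + L) :
    (1 / ((60 + L) ^ 2 + 1)) ^ 2 / 2 * l ^ (3 / 2 : ℝ) ≤
      ∑ k ∈ range n, l ^ 2 / (η k ^ 2 + l ^ 2) * (l ^ 2 / (η k ^ 2 + l ^ 2)) := by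
  have l0 : 0 < l := by linarith
  have m1 : 1 ≤ l ^ (3 / 2 : ℝ) := Real.one_le_rpow hl (by norm_num)
  set m := ⌊l ^ (3 / 2 : ℝ)⌋₊ with hm
  have a1 : (m : ℝ) ≤ l ^ (3 / 2 : ℝ) := Nat.floor_le (by linarith)
  have a2 : l ^ (3 / 2 : ℝ) < m + 1 := Nat.lt_floor_add_one _
  have a3 : (1 : ℝ) ≤ m := by exact_mod_cast Nat.le_floor (by simpa using m1)
  have a4 : m ≤ K := by exact_mod_cast a1.trans hK
  have h1 : ∀ k ∈ range m, (1 / ((60 + L) ^ 2 + 1)) ^ 2 ≤
      l ^ 2 / (η k ^ 2 + l ^ 2) * (l ^ 2 / (η k ^ 2 + l ^ 2)) := by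
    intro k hk
    have hk' : (k : ℝ) + 1 ≤ m := by exact_mod_cast mem_range.1 hk
    have h2 := Real.rpow_le_rpow (by positivity) (hk'.trans a1) (by norm_num : (0 : ℝ) ≤ 2 / 3)
    rw [rpow_back l0.le] at h2
    obtain ⟨h3, h4⟩ := h k ((mem_range.1 hk).trans_le a4)
    have h5 : 0 ≤ ((k : ℝ) + 1) ^ (2 / 3 : ℝ) := by positivity
    have h6 : L ≤ L * l := le_mul_of_one_le_right hL hl
    have h7 : η k ^ 2 ≤ ((60 + L) * l) ^ 2 := sq_le_sq' (by nlinarith) (by nlinarith)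
    rw [← sq]
    refine pow_le_pow_left₀ (by positivity) ?_ 2
    rw [div_le_div_iff₀ (by positivity) (by positivity)]
    nlinarith
  refine le_trans ?_ (sum_le_sum_of_subset_of_nonneg (range_subset_range.2 (a4.trans hn))
    fun k _ _ => mul_self_nonneg _)
  refine le_trans ?_ (sum_le_sum h1)
  rw [sum_const, card_range, nsmul_eq_mul]
  have : 0 ≤ (1 / ((60 + L) ^ 2 + 1)) ^ 2 := by positivity
  nlinarith

lemma trace_fl {n : ℕ} {W : Mat n} (hW : W.IsHermitian) (l : ℝ) :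
    (Cq.fl n l W).trace = ∑ k ∈ range n, l ^ 2 / (Lam n W k ^ 2 + l ^ 2) := by
  rw [Cq.fl, trace_fnK hW, Fintype.card_fin]; rfl

lemma trace_fl_sq {n : ℕ} {W : Mat n} (hW : W.IsHermitian) (l : ℝ) :
    (Cq.fl n l W * Cq.fl n l W).trace =
      ∑ k ∈ range n, l ^ 2 / (Lam n W k ^ 2 + l ^ 2) * (l ^ 2 / (Lam n W k ^ 2 + l ^ 2)) := by
  rw [Cq.fl, fnK_mul hW, trace_fnK hW, Fintype.card_fin]; rfl

end Crest.Agent.T157.Sp39

namespace Crest.Agent.T157.Cq

open MeasureTheory Filter Finset Crest.Agent.T157.E Crest.Agent.T157.Ed Crest.Agent.T157.Sp39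

/-- **the spectral mass of the windows** -/
theorem specStmt (b : Bool) : SpecStmt b := fun ε hε => by
  obtain ⟨L, hL, hH⟩ := headW b (half_pos hε)
  obtain ⟨K₀, hT⟩ := tailW b (half_pos hε)
  refine ⟨(1 / ((60 + L) ^ 2 + 1)) ^ 2 / 2, 512 ^ 2 * (1 + L ^ 2) * (2 * ∑' j, zz j) + 1,
    by positivity, fun l₁ => ?_⟩
  obtain ⟨K, hK1, hK2, hK3⟩ := ((tail_small l₁).and ((eventually_gt_atTop K₀).and
    (tendsto_natCast_atTop_atTop.eventually_ge_atTop (l₁ ^ (3 / 2 : ℝ))))).exists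
  have h := Tr.Off.and (μ := PB b) (P := fun n p => Head n K L (Wp p))
    (Q := fun n p => Tail n K₀ (Wp p)) (hH K) hT (half_pos hε).le (half_pos hε).le
  rw [add_halves] at h
  refine h.mono ((eventually_ge_atTop K).mono fun n hn p hp l hl => ?_)
  have hW : (Wp p).IsHermitian := Wmat_isHermitian p.1 p.2
  have m1 : 1 ≤ l ^ (3 / 2 : ℝ) := Real.one_le_rpow hl.1 (by norm_num)
  rw [trace_fl_sq hW, trace_fl hW]
  refine ⟨low_le hl.1 hL ((Real.rpow_le_rpow (by linarith [hl.1]) hl.2 (by norm_num)).trans hK3)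
    hn _ hp.1, ?_⟩
  rw [← sum_range_add_sum_Ico _ hn, add_mul, one_mul]
  exact add_le_add (head_le hl.1 hL K _ fun k hk => (hp.1 k hk).1)
    ((hK1 n l _ hl.1 hl.2 fun k hk hk' => hp.2 k (hK2.trans_le hk) hk').trans m1)

end Crest.Agent.T157.Cq

end
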