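import Crest.Agent.T157.CqDef_72
import Crest.Agent.T157.RecA_77
import Crest.Agent.T157.ChainPoi_22
import Crest.Agent.T157.StB_87
import Crest.Agent.T157.CqSoftA_44
import Crest.Agent.T157.StAll_87
import Crest.Agent.T157.SpDom_15
import Crest.Agent.T157.SpLow_15

-- ▼ part T157/CqPi_58
section

/-!
# Row 157, part C (helper58): merging on the soft sphere, `PiGlue`
-/

set_option autoImplicit false
set_option linter.unusedSectionVars false

noncomputable section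

namespace Crest.Agent.T157.Cq

open MeasureTheory ProbabilityTheory Matrix Filter Topology Finset Real
open Crest.Agent.T157.E Crest.Agent.T157.St Crest.Agent.T157.Ed
open Crest.Agent.T157.Sp (piD)
open Crest.Agent.T157.Chain22 (poi poi_nonneg hasSum_poi hasSum_poi_var)

namespace Pi58

section gauss
variable {ι : Type*} [Fintype ι] [DecidableEq ι]

lemma abs_int_le {X : Type*} [MeasurableSpace X] (μ : Measure X) [IsProbabilityMeasure μ]
    {F : X → ℝ} (h : ∀ x, |F x| ≤ 1) : |∫ z, F z ∂μ| ≤ 1 := by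
  simpa using norm_integral_le_of_norm_le_const (μ := μ) (f := F) (C := 1) (.of_forall h)

lemma shift_le {F : (ι → ℝ) → ℝ} (hF : B1 F) (h : ι → ℝ) :
    |∫ z, F (h + z) ∂gv ι - ∫ z, F z ∂gv ι| ≤ 2 * ∑ i, |h i| := by
  set s := ∑ i, |h i| with hs
  have s0 : 0 ≤ s := by positivity
  rcases le_total 1 s with h1 | h1
  · have a := abs_int_le (gv ι) (F := fun z => F (h + z)) fun z => hF.2 _
    have b := abs_int_le (gv ι) hF.2
    exact (abs_sub _ _).trans (by linarith)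
  have hh : h ⬝ᵥ h ≤ s ^ 2 := by
    rw [sq, hs, Finset.sum_mul]
    refine Finset.sum_le_sum fun i _ => ?_
    rw [← abs_mul_abs_self]
    exact mul_le_mul_of_nonneg_left
      (Finset.single_le_sum (f := fun i => |h i|) (fun _ _ => abs_nonneg _) (mem_univ i))
      (abs_nonneg _)
  have h0 : 0 ≤ h ⬝ᵥ h := Finset.sum_nonneg fun i _ => mul_self_nonneg _
  have mF : SL.MG F := .of_bdd hF.1 1 hF.2
  have me := Rec.mg_eh h
  have e1 : ∫ z, F (h + z) ∂gv ι - ∫ z, F z ∂gv ι = ∫ z, F z * (Rec.eh h z - 1) ∂gv ι := by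
    rw [Rec.int_shift, ← integral_sub (mF.mul me).int mF.int]
    simp only [mul_sub, mul_one]
  have e2 : ∫ z, (Rec.eh h z - 1) ^ 2 ∂gv ι = exp (h ⬝ᵥ h) - 1 := by
    have : ∀ z, (Rec.eh h z - 1) ^ 2 = Rec.eh h z * Rec.eh h z - 2 * Rec.eh h z + 1 := fun z => by
      ring
    simp only [this]
    rw [integral_add ((me.mul me).sub (me.const_mul 2)).int (integrable_const _),
      integral_sub (me.mul me).int (me.const_mul 2).int, integral_const_mul, Rec.int_eh_mul,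
      Rec.int_eh]
    simp
    ring
  have e3 : ∫ z, F z ^ 2 ∂gv ι ≤ 1 := (le_abs_self _).trans (abs_int_le _ fun z => by
    rw [abs_pow]; exact pow_le_one₀ (abs_nonneg _) (hF.2 z))
  have e4 := Rec.int_mul_sq_le mF (me.sub (.const 1))
  have e5 := Real.abs_exp_sub_one_le (x := h ⬝ᵥ h) (by rw [abs_of_nonneg h0]; nlinarith)
  rw [abs_of_nonneg h0] at e5
  have e6 := (le_abs_self _).trans e5
  have e7 : 0 ≤ exp (h ⬝ᵥ h) - 1 := by linarith [Real.add_one_le_exp (h ⬝ᵥ h)]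
  rw [e1]
  refine abs_le_of_sq_le_sq' ?_ (by positivity) |> abs_le.2
  refine e4.trans ?_
  rw [e2]
  nlinarith [Rec.int_sq_nonneg F]

lemma sm_lip {K : ℝ} (hK : 0 < K) {φ : (ι → ℝ) → ℝ} (hφ : B1 φ) (s : Finset ι)
    (hs : ∀ y, φ y = φ (keep s y)) (x y : ι → ℝ) :
    |Sm K φ x - Sm K φ y| ≤ 2 * √K * ∑ k ∈ s, |x k - y k| := by
  have h1 := shift_le (F := fun z => φ (K • y + √K • z)) ⟨hφ.1.comp (by fun_prop), fun z => hφ.2 _⟩
    (keep s (√K • (x - y)))
  have e : ∀ z, φ (K • y + √K • (keep s (√K • (x - y)) + z)) = φ (K • x + √K • z) := fun z => by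
    rw [hs, hs (K • x + √K • z)]
    congr 1
    funext k
    by_cases hk : k ∈ s
    · simp only [keep, hk, if_true, Pi.add_apply, Pi.smul_apply, Pi.sub_apply, smul_eq_mul]
      linear_combination (x k - y k) * Real.mul_self_sqrt hK.le
    · simp [keep, hk]
  simp only [e] at h1
  refine h1.trans (le_of_eq ?_)
  rw [mul_assoc, Finset.mul_sum s, ← Finset.sum_subset (Finset.subset_univ s)
    (fun k _ hk => by simp [keep, hk])]
  congr 1
  refine Finset.sum_congr rfl fun k hk => ?_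
  simp [keep, hk, abs_mul, abs_of_nonneg (Real.sqrt_nonneg K)]

end gauss

lemma b1_Us {n : ℕ} (η : ℕ → ℝ) (t κ h : ℝ) {v : (Fin n → ℝ) → ℝ} (hv : B1 v) :
    B1 (Us n η t κ h v) := by
  refine ⟨(StronglyMeasurable.integral_prod_right
    (f := fun x ξ => v (Fs n η t κ h x + √(2 * h) • ξ)) (hv.1.comp ?_).stronglyMeasurable).measurable,
    fun x => abs_int_le _ fun ξ => hv.2 _⟩
  unfold Fs
  fun_prop

lemma b1_iter {ι : Type*} [Fintype ι] {U : ((ι → ℝ) → ℝ) → (ι → ℝ) → ℝ}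
    (hU : ∀ v, B1 v → B1 (U v)) {v : (ι → ℝ) → ℝ} (hv : B1 v) (j : ℕ) : B1 (U^[j] v) := by
  induction j with
  | zero => exact hv
  | succ j ih => rw [Function.iterate_succ_apply']; exact hU _ ih

lemma B1.int_sub {ι : Type*} [Fintype ι] {u v : (ι → ℝ) → ℝ} (hu : B1 u) (hv : B1 v)
    (μ : Measure (ι → ℝ)) [IsFiniteMeasure μ] : Integrable (fun x => |u x - v x|) μ :=
  (integrable_const (2 : ℝ)).mono' (hu.1.sub hv.1).abs.aestronglyMeasurable (.of_forall fun x => by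
    rw [Real.norm_eq_abs, abs_abs]
    exact (abs_sub _ _).trans (by linarith [hu.2 x, hv.2 x]))

section cond
variable {X : Type*} [MeasurableSpace X] {μ : Measure X} [IsProbabilityMeasure μ] {A : Set X}
  {p : ℝ}

lemma half_le (hA : MeasurableSet A) (h : μ.real Aᶜ ≤ p) : 1 - p ≤ μ.real A := by
  rw [probReal_compl_eq_one_sub hA] at h; linarith

lemma cond_prob (hA : MeasurableSet A) (h : μ.real Aᶜ ≤ p) (hp : p ≤ 1 / 2) :
    IsProbabilityMeasure μ[|A] := cond_isProbabilityMeasure fun e => by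
  have := half_le hA h
  rw [Measure.real, e] at this
  simp at this
  linarith

lemma cond_real (hA : MeasurableSet A) (S : Set X) :
    (μ[|A]).real S = (μ.real A)⁻¹ * μ.real (A ∩ S) := by
  simp only [Measure.real, cond_apply hA, ENNReal.toReal_mul, ENNReal.toReal_inv]

lemma cond_le (hA : MeasurableSet A) (h : μ.real Aᶜ ≤ p) (hp : p ≤ 1 / 2) (S : Set X) :
    (μ[|A]).real S ≤ 2 * μ.real S := by
  rw [cond_real hA]
  refine mul_le_mul ?_ (measureReal_mono Set.inter_subset_right) measureReal_nonneg zero_le_two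
  have := half_le hA h
  rw [inv_le_comm₀ (by linarith) two_pos]
  linarith

lemma le_cond (hA : MeasurableSet A) (h : μ.real Aᶜ ≤ p) (hp : p ≤ 1 / 2) (S : Set X) :
    μ.real S - p ≤ (μ[|A]).real S := by
  rw [cond_real hA]
  have h1 := half_le hA h
  have h2 : μ.real S ≤ μ.real (A ∩ S) + μ.real Aᶜ :=
    (measureReal_mono fun x hx => by by_cases hx' : x ∈ A <;> simp [hx, hx']).trans
      (measureReal_union_le _ _)
  have h3 : 1 ≤ (μ.real A)⁻¹ := (one_le_inv₀ (by linarith)).2 measureReal_le_one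
  nlinarith [measureReal_nonneg (μ := μ) (s := A ∩ S)]

lemma int_cond_le (hA : MeasurableSet A) (h : μ.real Aᶜ ≤ p) (hp : p ≤ 1 / 2) {g : X → ℝ}
    (h0 : ∀ x, 0 ≤ g x) (hg : Integrable g μ) : ∫ x, g x ∂μ[|A] ≤ 2 * ∫ x, g x ∂μ := by
  rw [ProbabilityTheory.cond, integral_smul_measure, smul_eq_mul, ENNReal.toReal_inv]
  refine mul_le_mul ?_ (setIntegral_le_integral hg (.of_forall h0))
    (integral_nonneg h0) zero_le_two
  have := half_le hA h
  change (μ.real A)⁻¹ ≤ 2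
  rw [inv_le_comm₀ (by linarith) two_pos]
  linarith

lemma markov {g u : X → ℝ} (h0 : ∀ x, 0 ≤ g x) (hg : Integrable g μ) {z ε : ℝ} (hε : 0 < ε)
    {S B : X → Prop} (hS : ∀ᵐ x ∂μ, S x → ¬ B x → |u x - z| ≤ g x + ε / 2) :
    μ.real {x | S x ∧ ε < |u x - z|} ≤ μ.real {x | B x} + 2 / ε * ∫ x, g x ∂μ := by
  have h1 := mul_meas_ge_le_integral_of_nonneg (.of_forall h0) hg (ε / 2)
  have h2 : μ.real {x | S x ∧ ε < |u x - z|} ≤ μ.real ({x | B x} ∪ {x | ε / 2 ≤ g x}) := by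
    refine ENNReal.toReal_mono (measure_ne_top _ _) (measure_mono_ae ?_)
    filter_upwards [hS] with x hx hx'
    by_cases hb : B x
    · exact Or.inl hb
    · exact Or.inr (show ε / 2 ≤ g x by linarith [hx hx'.1 hb, hx'.2])
  refine h2.trans ((measureReal_union_le _ _).trans (add_le_add le_rfl ?_))
  rw [div_mul_eq_mul_div, le_div_iff₀ hε]
  linarith

end cond

/-- the typical values of a Poisson variable -/
def Fl (l : ℝ) : Finset ℕ := (range (⌈2 * l⌉₊ + 1)).filter fun j => |(j : ℝ) - l| ≤ l / 2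

lemma mem_Fl {l : ℝ} {j : ℕ} : j ∈ Fl l ↔ |(j : ℝ) - l| ≤ l / 2 := by
  rw [Fl, mem_filter, mem_range, and_iff_right_iff_imp]
  intro h
  have h1 := abs_le.1 h
  have h2 := abs_nonneg ((j : ℝ) - l)
  have : (j : ℝ) ≤ ⌈2 * l⌉₊ := le_trans (by linarith) (Nat.le_ceil _)
  exact Nat.lt_succ_of_le (by exact_mod_cast this)

lemma mix_le {l : ℝ} (hl : 0 ≤ l) {b : ℕ → ℝ} (hb : ∀ j, |b j| ≤ 1) : |∑' j, poi l j * b j| ≤ 1 :=
  tsum_of_norm_bounded (f := fun j => poi l j * b j) (hasSum_poi l) fun j => by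
    rw [Real.norm_eq_abs, abs_mul, abs_of_nonneg (poi_nonneg hl j)]
    exact mul_le_of_le_one_right (poi_nonneg hl j) (hb j)

lemma mix_sum {l : ℝ} (hl : 0 ≤ l) {b : ℕ → ℝ} (hb : ∀ j, |b j| ≤ 1) :
    Summable fun j => poi l j * b j :=
  (hasSum_poi l).summable.of_norm_bounded fun j => by
    rw [Real.norm_eq_abs, abs_mul, abs_of_nonneg (poi_nonneg hl j)]
    exact mul_le_of_le_one_right (poi_nonneg hl j) (hb j)

lemma mix_sub {l e : ℝ} (hl : 0 < l) (he : 0 ≤ e) {a b d : ℕ → ℝ} (ha : ∀ j, |a j| ≤ 1)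
    (hb : ∀ j, |b j| ≤ 1) (h : ∀ j ∈ Fl l, |a j - b j| ≤ d j + e) :
    |∑' j, poi l j * a j - ∑' j, poi l j * b j| ≤ ∑ j ∈ Fl l, poi l j * d j + e + 8 / l := by
  rw [← (mix_sum hl.le ha).tsum_sub (mix_sum hl.le hb)]
  have h1 : HasSum (fun j => if j ∈ Fl l then poi l j * d j else 0) (∑ j ∈ Fl l, poi l j * d j) := by
    have := hasSum_sum_of_ne_finset_zero (L := SummationFilter.unconditional ℕ) (s := Fl l)
      (f := fun j => if j ∈ Fl l then poi l j * d j else 0) fun j hj => if_neg hj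
    rwa [Finset.sum_congr rfl fun j hj => if_pos hj] at this
  have h2 := (h1.add ((hasSum_poi l).mul_right e)).add ((hasSum_poi_var l).mul_left (8 / l ^ 2))
  rw [one_mul, show 8 / l ^ 2 * l = 8 / l by field_simp] at h2
  refine tsum_of_norm_bounded (f := fun j => poi l j * a j - poi l j * b j) h2 fun j => ?_
  have p0 := poi_nonneg hl.le j
  rw [Real.norm_eq_abs, ← mul_sub, abs_mul, abs_of_nonneg p0]
  split_ifs with hj
  · have := mul_le_mul_of_nonneg_left (h j hj) p0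
    have : 0 ≤ 8 / l ^ 2 * (poi l j * ((j : ℝ) - l) ^ 2) := by positivity
    linarith
  · rw [mem_Fl, not_le] at hj
    have h3 : (l / 2) ^ 2 ≤ ((j : ℝ) - l) ^ 2 := by
      rw [← sq_abs ((j : ℝ) - l)]; exact pow_le_pow_left₀ (by positivity) hj.le 2
    have h4 : |a j - b j| ≤ 8 / l ^ 2 * ((j : ℝ) - l) ^ 2 := by
      refine ((abs_sub _ _).trans (by linarith [ha j, hb j] : _ ≤ (2 : ℝ))).trans ?_
      rw [div_mul_eq_mul_div, le_div_iff₀ (by positivity)]
      nlinarith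
    have := mul_le_mul_of_nonneg_left h4 p0
    have : 0 ≤ poi l j * e := by positivity
    nlinarith

lemma sum_Fl_le {l e : ℝ} (hl : 0 ≤ l) (he : 0 ≤ e) {d : ℕ → ℝ} (h : ∀ j ∈ Fl l, d j ≤ e) :
    ∑ j ∈ Fl l, poi l j * d j ≤ e := by
  have h1 : ∑ j ∈ Fl l, poi l j ≤ 1 := sum_le_hasSum _ (fun j _ => poi_nonneg hl j) (hasSum_poi l)
  refine (Finset.sum_le_sum fun j hj => mul_le_mul_of_nonneg_left (h j hj) (poi_nonneg hl j)).trans ?_
  rw [← Finset.sum_mul]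
  exact mul_le_of_le_one_left he h1

lemma rp1 {s : ℝ} (hs : 0 < s) : ((s ^ 2)⁻¹) ^ (-(3 / 2) : ℝ) = s ^ 3 := by
  rw [Real.inv_rpow (by positivity), Real.rpow_neg (by positivity), inv_inv, ← Real.rpow_natCast,
    ← Real.rpow_mul hs.le, ← Real.rpow_natCast]
  norm_num

lemma rp2 {E s : ℝ} (hE : 0 ≤ E) (hs : 0 < s) :
    (s ^ 3 * E) ^ (-(1 / 3) : ℝ) = s⁻¹ * E ^ (-(1 / 3) : ℝ) := by
  rw [Real.mul_rpow (by positivity) hE, ← Real.rpow_natCast, ← Real.rpow_mul hs.le,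
    ← Real.rpow_neg_one]
  norm_num

end Pi58

set_option maxHeartbeats 1000000 in
open Pi58 in
/-- **merging on the soft sphere** -/
theorem piGlue : PiGlue := by
  intro hBd hTv hSt hDi hKl hOs L C hL
  obtain ⟨w1, h1⟩ := hSt L C hL
  obtain ⟨w2, h2⟩ := hDi L C hL
  refine ⟨max (max w1 w2) (2 * L + 1), fun w hw ε hε => ?_⟩
  obtain ⟨D, s1, s2, s3⟩ := h1 w ((le_max_left _ _).trans ((le_max_left _ _).trans hw))
  replace h2 := h2 w ((le_max_right _ _).trans ((le_max_left _ _).trans hw))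
  obtain ⟨τ₀, hτ₀, h3⟩ := hOs L C w (ε / 4) hL ((le_max_right _ _).trans hw) (by positivity)
  refine ⟨τ₀, hτ₀, fun τ hτ hττ m K₁ hK₁ => ?_⟩
  obtain ⟨ρ, δ, hρ, hδ, h4⟩ := h3 τ hτ hττ m (2 * √K₁)
  obtain ⟨c₀, hc₀, s1⟩ := s1 ρ hρ
  set E : ℝ := |D| + (1 + |log (8 / ε)|) with hE
  have E1 : 1 ≤ E := by have := abs_nonneg D; have := abs_nonneg (log (8 / ε)); linarith
  set E' : ℝ := E ^ (-(1 / 3) : ℝ) with hE'
  have E0 : 0 < E' := Real.rpow_pos_of_pos (by linarith) _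
  set s : ℝ := max 1 (2 / (δ * c₀ * E')) with hs
  have hs1 : 1 ≤ s := le_max_left _ _
  have hs0 : 0 < s := by linarith
  have hs2 : 2 ≤ s * (δ * c₀ * E') := (div_le_iff₀ (by positivity)).1 (le_max_right _ _)
  have hs3 : 1 ≤ s ^ 3 := one_le_pow₀ hs1
  set m₁ : ℝ := exp (-(|D| * s ^ 3)) / 2 with hm₁
  have m0 : 0 < m₁ := by positivity
  have hH₁ : 2 * exp (-(s ^ 3 * E)) ≤ ε * m₁ / 2 := by
    have a1 : exp (-(s ^ 3 * E)) ≤ exp (-(|D| * s ^ 3)) * exp (-log (8 / ε)) := by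
      rw [← exp_add, exp_le_exp, hE]
      nlinarith [le_abs_self (log (8 / ε)), abs_nonneg (log (8 / ε))]
    rw [exp_neg (log _), exp_log (by positivity), inv_div] at a1
    rw [hm₁]
    linarith
  refine ⟨s ^ 2, m₁, δ * c₀ / 2, by positivity, m0, by positivity, fun H hH => ?_⟩
  have hH₂ : 2 * exp (-(2 ^ 3 * H)) ≤ exp (-H) / 2 := by
    have a1 : exp (-(2 ^ 3 * H)) = exp (-H) * (exp (7 * H))⁻¹ := by
      rw [← exp_neg, ← exp_add]; congr 1; ring
    have a2 : (exp (7 * H))⁻¹ ≤ 4⁻¹ :=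
      inv_anti₀ (by norm_num) (by linarith [Real.add_one_le_exp (7 * H)])
    nlinarith [exp_pos (-H)]
  set θ : ℝ := min (ε * m₁ / 2) (exp (-H) / 2) with hθ
  have θ0 : 0 < θ := lt_min (by positivity) (by positivity)
  set γ : ℝ := ε * θ / 12 with hγ
  have γ0 : 0 < γ := by positivity
  obtain ⟨K₀, hK₀, h2⟩ := h2 (τ / 2) τ γ (by positivity) γ0
  refine ⟨K₀, hK₀, fun K hK => ?_⟩
  have K0 : 0 < K := hK₀.trans_le hK
  set p : ℝ := min (γ / (4 * K * τ)) (min m₁ (1 / 2)) with hp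
  have p0 : 0 < p := lt_min (by positivity) (lt_min m0 one_half_pos)
  have p1 : p * (4 * K * τ) ≤ γ := (le_div_iff₀ (by positivity)).1 (min_le_left _ _)
  have p2 : p ≤ m₁ := (min_le_right _ _).trans (min_le_left _ _)
  have p3 : p ≤ 1 / 2 := (min_le_right _ _).trans (min_le_right _ _)
  set a₁ : ℝ := c₀ * (s ^ 3 * E) ^ (-(1 / 3) : ℝ) with ha₁
  set a₂ : ℝ := c₀ * (2 ^ 3 * H) ^ (-(1 / 3) : ℝ) with ha₂
  have a10 : 0 < a₁ := mul_pos hc₀ (Real.rpow_pos_of_pos (by positivity) _)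
  have a20 : 0 < a₂ := mul_pos hc₀ (Real.rpow_pos_of_pos (by positivity) _)
  filter_upwards [h2 K hK, s1 (s ^ 3 * E) (by nlinarith), s1 (2 ^ 3 * H) (by linarith),
    s2 (s ^ 2)⁻¹ (by positivity) (inv_le_one_of_one_le₀ (one_le_pow₀ hs1)), s3 p p0,
    h4 (min a₁ a₂) (lt_min a10 a20), eventually_ge_atTop 1]
    with n d1 t1 t2 t3 t4 o1 hn η hη
  obtain ⟨hP, t4⟩ := t4 η hη
  have hn0 : (0 : ℝ) < n := by exact_mod_cast hn
  have hA : MeasurableSet {x : Fin n → ℝ | x ⬝ᵥ x ≤ 2 * sx n ^ 2} :=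
    measurableSet_le (by unfold dotProduct; fun_prop) measurable_const
  have hPB : IsProbabilityMeasure (piB n η) := cond_prob hA t4 p3
  refine ⟨?_, fun φ hφ hcyl r hr => ?_⟩
  · have b1 := le_cond hA t4 p3 {x | s ^ 2 * Xd n η x ≤ 1}
    have b2 := t3 η hη
    rw [rp1 hs0] at b2
    have b3 : {x | Xd n η x ≤ (s ^ 2)⁻¹} = {x | s ^ 2 * Xd n η x ≤ 1} := by
      ext x
      simp only [Set.mem_ofPred_eq]
      rw [← one_div, le_div_iff₀ (by positivity), mul_comm]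
    have b4 : exp (-(|D| * s ^ 3)) ≤ exp (-(D * s ^ 3)) :=
      exp_le_exp.2 (by nlinarith [le_abs_self D])
    rw [b3] at b2
    refine le_trans ?_ b1
    linarith
  have r0 : 0 < r := by linarith [hr.1]
  obtain ⟨K', ⟨⟨d2, k1⟩, o2⟩, K1⟩ := ((((d1 η hη).and (hKl n η (sx n ^ 2) ((n : ℝ) ^ 2) (2 * τ) γ
    (by unfold sx; positivity) (by positivity) γ0)).and
    (tendsto_inv_atTop_nhdsGT_zero.eventually (o1 η hη))).and
    (eventually_ge_atTop (64 / (τ * ε)))).exists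
  have K'0 : 0 < K' := lt_of_lt_of_le (by positivity) K1
  set v := Sm K₁ φ with hv
  have bv : B1 v := (hBd _ _ hP).1 K₁ φ hK₁ hφ
  have cv : Cyl m (2 * √K₁) v := ⟨bv, sm_lip hK₁ hφ _ hcyl⟩
  have bT : ∀ j, B1 ((Tk K' (piS n η))^[j] v) :=
    b1_iter (fun u hu => (hBd _ _ hP).2 u hu (.T K' .var) ⟨K'0, trivial⟩) bv
  have bU : ∀ j, B1 ((Us n η (sx n ^ 2) ((n : ℝ) ^ 2) K'⁻¹)^[j] v) :=
    b1_iter (fun u hu => b1_Us _ _ _ _ hu) bv
  have bS : B1 (Qs K (K * r) (piS n η) v) :=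
    (hBd _ _ hP).2 v bv (.Q K (K * r) .var) ⟨K0, by positivity, trivial⟩
  have bS' : B1 (Qs K' (K' * r) (piS n η) v) :=
    (hBd _ _ hP).2 v bv (.Q K' (K' * r) .var) ⟨K'0, by positivity, trivial⟩
  have bB : B1 (Qs K (K * r) (piB n η) v) :=
    (hBd _ _ hPB).2 v bv (.Q K (K * r) .var) ⟨K0, by positivity, trivial⟩
  have l0 : 0 < K' * r := by positivity
  have hF : ∀ j ∈ Fl (K' * r), τ / 4 ≤ j * K'⁻¹ ∧ j * K'⁻¹ ≤ 2 * τ := fun j hj => by
    have := abs_le.1 (mem_Fl.1 hj)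
    rw [← div_eq_mul_inv, le_div_iff₀ K'0, div_le_iff₀ K'0]
    constructor <;> nlinarith [hr.1, hr.2]
  let g3 : (Fin n → ℝ) → ℝ := fun x => ∑ j ∈ Fl (K' * r), poi (K' * r) j *
    |(Tk K' (piS n η))^[j] v x - (Us n η (sx n ^ 2) ((n : ℝ) ^ 2) K'⁻¹)^[j] v x|
  have i3 : ∀ (μ : Measure (Fin n → ℝ)) [IsFiniteMeasure μ], Integrable g3 μ := fun μ _ =>
    integrable_finsetSum _ fun j _ => (B1.int_sub (bT j) (bU j) μ).const_mul _
  have n3 : ∀ x, 0 ≤ g3 x := fun x =>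
    Finset.sum_nonneg fun j _ => mul_nonneg (poi_nonneg l0.le j) (abs_nonneg _)
  have j3 : ∫ x, g3 x ∂piS n η ≤ γ := by
    rw [integral_finsetSum _ fun j _ => (B1.int_sub (bT j) (bU j) _).const_mul _]
    simp only [integral_const_mul]
    refine sum_Fl_le l0.le γ0.le fun j hj => k1 j ?_ v bv
    have := (hF j hj).2
    rwa [← div_eq_mul_inv, div_le_iff₀ K'0] at this
  obtain ⟨z, hz1, hz⟩ : ∃ z : ℝ, |z| ≤ 1 ∧ ∀ x, Nice n η ρ δ (min a₁ a₂) x →
      |Qs K' (K' * r) (piS n η) v x - z| ≤ g3 x + ε / 2 := by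
    by_cases hex : ∃ y, Nice n η ρ δ (min a₁ a₂) y
    · obtain ⟨y, hy⟩ := hex
      refine ⟨_, mix_le l0.le fun j => (bU j).2 y, fun x hx => ?_⟩
      refine (mix_sub (e := ε / 4) l0 (by positivity) (fun j => (bT j).2 x) (fun j => (bU j).2 y)
        fun j hj => (abs_sub_le _ _ _).trans (add_le_add le_rfl
          (o2 v cv x y hx hy j (hF j hj).1 (hF j hj).2))).trans ?_
      have : 8 / (K' * r) ≤ ε / 4 := by
        rw [div_le_iff₀ (by positivity)] at K1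
        rw [div_le_iff₀ l0]
        nlinarith [mul_le_mul_of_nonneg_left hr.1 (mul_pos K'0 hε).le]
      linarith
    · exact ⟨0, by simp, fun x hx => absurd ⟨x, hx⟩ hex⟩
  let g : (Fin n → ℝ) → ℝ := fun x =>
    |Qs K (K * r) (piS n η) v x - Qs K (K * r) (piB n η) v x| +
      (|Qs K (K * r) (piS n η) v x - Qs K' (K' * r) (piS n η) v x| + g3 x)
  have ig : Integrable g (piB n η) := (B1.int_sub bS bB _).add ((B1.int_sub bS bS' _).add (i3 _))
  have ng : ∀ x, 0 ≤ g x := fun x => add_nonneg (abs_nonneg _) (add_nonneg (abs_nonneg _) (n3 x))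
  have jg : 2 / ε * ∫ x, g x ∂piB n η ≤ θ := by
    have b1 := hTv _ _ _ p K (K * r) hP hA t4 p3 K0 (by positivity) v bv
    have b2 := int_cond_le hA t4 p3 (fun x => abs_nonneg _) (B1.int_sub bS bS' (piS n η))
    have b3 := int_cond_le hA t4 p3 n3 (i3 _)
    have b4 := d2 K₁ φ hK₁ hφ r hr
    have b5 : 8 * (K * r) * p ≤ 2 * γ := by
      nlinarith [mul_le_mul_of_nonneg_left hr.2 (mul_pos K0 p0).le]
    have b6 : ∫ x, g x ∂piB n η ≤ 6 * γ := by
      have e1 := integral_add (B1.int_sub bS bB (piB n η)) ((B1.int_sub bS bS' (piB n η)).add (i3 _))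
      have e2 := integral_add (B1.int_sub bS bS' (piB n η)) (i3 _)
      refine (e1.trans (congrArg (_ + ·) e2)).trans_le ?_
      refine (add_le_add (b1.trans b5) (add_le_add (b2.trans (mul_le_mul_of_nonneg_left b4
        zero_le_two)) (b3.trans (mul_le_mul_of_nonneg_left j3 zero_le_two)))).trans_eq (by ring)
    rw [div_mul_eq_mul_div, div_le_iff₀ hε]
    rw [hγ] at b6
    linarith
  have key : ∀ (S : (Fin n → ℝ) → Prop) (a : ℝ), min a₁ a₂ ≤ a → (∀ x, S x → Xd n η x ≤ δ * a) →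
      (piB n η).real {x | S x ∧ ε < |Qs K (K * r) (piB n η) v x - z|} ≤
        2 * (piS n η).real {x | Aq n η ρ x < a} + θ := fun S a ha hS => by
    refine (markov (B := fun x => Aq n η ρ x < a) ng ig hε ?_).trans
      (add_le_add (cond_le hA t4 p3 _) jg)
    filter_upwards [ae_cond_mem (μ := piS n η) hA] with x hx hx1 hx2
    rw [not_lt] at hx2
    have b1 := hz x ⟨(hS x hx1).trans (mul_le_mul_of_nonneg_left hx2 hδ.le), ha.trans hx2, hx⟩
    have b2 := abs_sub_le (Qs K (K * r) (piB n η) v x) (Qs K (K * r) (piS n η) v x) z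
    have b3 := abs_sub_le (Qs K (K * r) (piS n η) v x) (Qs K' (K' * r) (piS n η) v x) z
    rw [abs_sub_comm (Qs K (K * r) (piB n η) v x) (Qs K (K * r) (piS n η) v x)] at b2
    simp only [g]
    linarith
  refine ⟨z, hz1, (key _ a₁ (min_le_left _ _) fun x hx => ?_).trans ?_,
    (key _ a₂ (min_le_right _ _) fun x hx => ?_).trans ?_⟩
  · rw [ha₁, rp2 (by linarith) hs0, ← hE']
    have b1 : s ^ 2 * Xd n η x ≤ s ^ 2 * (δ * (c₀ * (s⁻¹ * E'))) :=
      hx.trans (hs2.trans (le_of_eq (by field_simp)))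
    exact le_of_mul_le_mul_left b1 (by positivity)
  · have b1 : (piS n η).real {x | Aq n η ρ x < a₁} ≤ exp (-(s ^ 3 * E)) := t1 η hη
    have b2 : θ ≤ ε * m₁ / 2 := min_le_left _ _
    exact (add_le_add ((mul_le_mul_of_nonneg_left b1 zero_le_two).trans hH₁) b2).trans_eq
      (add_halves _)
  · rw [ha₂, rp2 (by linarith) two_pos]
    exact hx.trans (le_of_eq (by ring))
  · have b1 : (piS n η).real {x | Aq n η ρ x < a₂} ≤ exp (-(2 ^ 3 * H)) := t2 η hη
    have b2 : θ ≤ exp (-H) / 2 := min_le_right _ _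
    exact (add_le_add ((mul_le_mul_of_nonneg_left b1 zero_le_two).trans hH₂) b2).trans_eq
      (add_halves _)

end Crest.Agent.T157.Cq
end
end

-- ▼ part T157/CqScA_80
section

/-!
# Row 157, part C: continuity of the scalars, first file (helper80)

Markov operators `MK`, the class `Cl` of smoothed observables, the defect `Df` of two operators.
-/

set_option autoImplicit false
set_option linter.unusedSectionVars false

noncomputable section

namespace Crest.Agent.T157.Cq.S80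

open MeasureTheory ProbabilityTheory Matrix Filter Topology Finset Real
open Crest.Agent.T157.E Crest.Agent.T157.Cond Crest.Agent.T157.SL Crest.Agent.T157.Rec
open Crest.Agent.T157.St Crest.Agent.T157.St.A87

/-- operators on functions -/
abbrev Op (ι : Type*) := ((ι → ℝ) → ℝ) → (ι → ℝ) → ℝ

variable {ι : Type*} [Fintype ι] [DecidableEq ι] {μ ν : Measure (ι → ℝ)} {K K' k k' c B B' C : ℝ}
  {f g h : (ι → ℝ) → ℝ} {T U : Op ι}

/-- measurable and bounded by `C` -/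
structure Bd (C : ℝ) (f : (ι → ℝ) → ℝ) : Prop where
  meas : Measurable f
  le : ∀ x, |f x| ≤ C

lemma Bd.bm (h : Bd C f) : Bm f := ⟨h.meas, C, h.le⟩
lemma Bd.nonneg (h : Bd C f) : 0 ≤ C := (abs_nonneg _).trans (h.le 0)
lemma Bd.mono (h : Bd C f) (e : C ≤ B) : Bd B f := ⟨h.meas, fun x => (h.le x).trans e⟩
lemma Bd.const (a : ℝ) : Bd |a| fun _ : ι → ℝ => a := ⟨measurable_const, fun _ => le_rfl⟩
lemma Bd.add (a : Bd B f) (b : Bd C g) : Bd (B + C) fun x => f x + g x :=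
  ⟨a.meas.add b.meas, fun x => (abs_add_le _ _).trans (add_le_add (a.le x) (b.le x))⟩
lemma Bd.mul (a : Bd B f) (b : Bd C g) : Bd (B * C) fun x => f x * g x :=
  ⟨a.meas.mul b.meas, fun x => by
    rw [abs_mul]; exact mul_le_mul (a.le x) (b.le x) (abs_nonneg _) a.nonneg⟩

lemma bm_abs (a : Bm f) : Bm fun x => |f x| :=
  a.bd.elim fun C hC => ⟨a.meas.abs, C, fun x => (abs_abs _).trans_le (hC x)⟩

lemma int_bd {α : Type*} [MeasurableSpace α] {F : α → ℝ} (hm : Measurable F) (hb : ∀ a, |F a| ≤ C)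
    (ρ : Measure α) [IsFiniteMeasure ρ] : Integrable F ρ :=
  Integrable.of_bound hm.aestronglyMeasurable C (.of_forall hb)

lemma int_bm (a : Bm f) (ρ : Measure (ι → ℝ)) [IsFiniteMeasure ρ] : Integrable f ρ :=
  a.bd.elim fun _ hC => int_bd a.meas hC ρ

lemma abs_int_le {α : Type*} [MeasurableSpace α] {F : α → ℝ} (hb : ∀ a, |F a| ≤ C)
    (ρ : Measure α) [IsProbabilityMeasure ρ] : |∫ a, F a ∂ρ| ≤ C := by
  simpa using norm_integral_le_of_norm_le_const (μ := ρ) (f := F) (C := C) (.of_forall hb)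

/-- given by a Markov kernel on bounded functions -/
def MK (T : Op ι) : Prop := ∃ κ : Kernel (ι → ℝ) (ι → ℝ), IsMarkovKernel κ ∧
  ∀ f, Bm f → ∀ x, T f x = ∫ y, f y ∂κ x

namespace MK

lemma bd (hT : MK T) (a : Bd C f) : Bd C (T f) := by
  obtain ⟨κ, _, e⟩ := hT
  rw [funext (e f a.bm)]
  exact ⟨a.meas.stronglyMeasurable.integral_kernel.measurable, fun x => abs_int_le a.le _⟩

lemma bm (hT : MK T) (a : Bm f) : Bm (T f) := a.bd.elim fun _ hC => (hT.bd ⟨a.meas, hC⟩).bm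

lemma meas2 (hT : MK T) {α : Type*} [MeasurableSpace α] {F : α → (ι → ℝ) → ℝ}
    (hF : Measurable fun p : α × (ι → ℝ) => F p.1 p.2) (hb : ∀ a x, |F a x| ≤ C) :
    Measurable fun p : α × (ι → ℝ) => T (F p.1) p.2 := by
  obtain ⟨κ, _, e⟩ := hT
  have : (fun p : α × (ι → ℝ) => T (F p.1) p.2) = fun p => ∫ y, F p.1 y ∂(κ.prodMkLeft α) p :=
    funext fun p => e _ ⟨hF.comp (measurable_const.prodMk measurable_id), C, hb _⟩ _
  rw [this]
  exact (StronglyMeasurable.integral_kernel_prod_right (κ := κ.prodMkLeft α)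
    (f := fun p y => F p.1 y)
    (hF.comp (measurable_fst.fst.prodMk measurable_snd)).stronglyMeasurable).measurable

lemma comp (hT : MK T) (hU : MK U) : MK fun f => T (U f) := by
  have hU' := hU
  obtain ⟨κ, _, e⟩ := hT
  obtain ⟨η, _, e'⟩ := hU
  refine ⟨η ∘ₖ κ, inferInstance, fun f a x => ?_⟩
  beta_reduce
  rw [e _ (hU'.bm a), Kernel.integral_comp (int_bm a _)]
  simp only [e' f a]

lemma id : MK fun f : (ι → ℝ) → ℝ => f :=
  ⟨Kernel.id, inferInstance, fun f a x => by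
    rw [Kernel.id_apply, integral_dirac' _ _ a.meas.stronglyMeasurable]⟩

lemma iter (hT : MK T) (j : ℕ) : MK T^[j] := by
  induction j with
  | zero => exact id
  | succ j ih => rw [Function.iterate_succ']; exact hT.comp ih

lemma swap (hT : MK T) (hU : MK U) {F : (ι → ℝ) → (ι → ℝ) → ℝ}
    (hF : Measurable fun p : (ι → ℝ) × (ι → ℝ) => F p.1 p.2) (hb : ∀ a x, |F a x| ≤ C)
    (x y : ι → ℝ) : U (fun a => T (F a) x) y = T (fun b => U (fun a => F a b) y) x := by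
  have m1 : Measurable fun a => T (F a) x :=
    (hT.meas2 hF hb).comp (measurable_id.prodMk measurable_const)
  have m2 : Measurable fun b => U (fun a => F a b) y :=
    (hU.meas2 (F := fun b a => F a b) (hF.comp measurable_swap) fun b a => hb a b).comp
      (measurable_id.prodMk measurable_const)
  have b1 : ∀ a, Bd C (F a) := fun a => ⟨hF.comp (measurable_const.prodMk measurable_id), hb a⟩
  have b2 : ∀ b, Bd C fun a => F a b := fun b =>
    ⟨hF.comp (measurable_id.prodMk measurable_const), fun a => hb a b⟩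
  have c1 : Bm fun a => T (F a) x := ⟨m1, C, fun a => (hT.bd (b1 a)).le x⟩
  have c2 : Bm fun b => U (fun a => F a b) y := ⟨m2, C, fun b => (hU.bd (b2 b)).le y⟩
  obtain ⟨κ, _, e⟩ := hT
  obtain ⟨η, _, e'⟩ := hU
  rw [e' _ c1, e _ c2]
  simp only [fun a => e _ (b1 a).bm, fun b => e' _ (b2 b).bm]
  exact integral_integral_swap (int_bd hF (fun p => hb p.1 p.2) _)

lemma abs_sub_le (hT : MK T) (a : Bm f) (b : Bm g) (d : Bm h) (e : ∀ x, |f x - g x| ≤ h x)
    (x : ι → ℝ) : |T f x - T g x| ≤ T h x := by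
  obtain ⟨κ, _, e'⟩ := hT
  rw [e' f a, e' g b, e' h d, ← integral_sub (int_bm a _) (int_bm b _)]
  exact norm_integral_le_of_norm_le (f := fun y => f y - g y) (int_bm d _) (.of_forall e)

lemma add (hT : MK T) (a : Bm f) (b : Bm g) (x : ι → ℝ) :
    T (fun y => f y + g y) x = T f x + T g x := by
  obtain ⟨κ, _, e'⟩ := hT
  rw [e' _ (a.add b), e' f a, e' g b, integral_add (int_bm a _) (int_bm b _)]

lemma const_mul (hT : MK T) (a : Bm f) (c : ℝ) (x : ι → ℝ) :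
    T (fun y => c * f y) x = c * T f x := by
  obtain ⟨κ, _, e'⟩ := hT
  rw [e' _ (a.const_mul c), e' f a, integral_const_mul]

lemma const (hT : MK T) (c : ℝ) (x : ι → ℝ) : T (fun _ => c) x = c := by
  obtain ⟨κ, _, e'⟩ := hT
  rw [e' _ (.const c)]; simp

lemma nonneg (hT : MK T) (a : Bm f) (e : ∀ x, 0 ≤ f x) (x : ι → ℝ) : 0 ≤ T f x := by
  obtain ⟨κ, _, e'⟩ := hT
  rw [e' f a]; exact integral_nonneg e

/-- mixtures -/
lemma mix {α : Type*} [MeasurableSpace α] (ρ : Measure α) [IsProbabilityMeasure ρ]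
    (η : Kernel ((ι → ℝ) × α) (ι → ℝ)) [IsMarkovKernel η]
    (e : ∀ f, Bm f → ∀ x, T f x = ∫ a, ∫ y, f y ∂η (x, a) ∂ρ) : MK T := by
  refine ⟨η ∘ₖ (Kernel.id ×ₖ Kernel.const _ ρ), inferInstance, fun f a x => ?_⟩
  rw [e f a, Kernel.integral_comp (int_bm a _), Kernel.prod_apply, Kernel.id_apply,
    Kernel.const_apply, Measure.dirac_prod, integral_map (by fun_prop)
      a.meas.stronglyMeasurable.integral_kernel.aestronglyMeasurable]

end MK

lemma mkA (K : ℝ) : MK (Ay K : Op ι) :=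
  MK.mix (gv ι) (Kernel.deterministic (fun p : (ι → ℝ) × (ι → ℝ) => K • p.1 + √K • p.2)
    (by fun_prop)) fun f a x => by
      simp only [Kernel.integral_deterministic' _ a.meas.stronglyMeasurable]; rfl

lemma mkP (hμ : Cp μ) (hK : 0 ≤ K) : MK (pm K μ : Op ι) := by
  have := hμ.prob
  have m : Measurable (Function.uncurry fun y x : ι → ℝ => (ew K y x / Mf K μ y).toNNReal) :=
    ((measurable_ew K measurable_fst measurable_snd).div
      ((measurable_Mf hμ).comp measurable_fst)).real_toNNReal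
  have e : ∀ (f : (ι → ℝ) → ℝ) y, ∫ x, f x ∂(Kernel.const _ μ).withDensity
      (fun y x : ι → ℝ => ((ew K y x / Mf K μ y).toNNReal : ENNReal)) y = pm K μ f y := fun f y => by
    rw [Kernel.integral_withDensity m, Kernel.const_apply, pm, ← integral_div]
    refine integral_congr_ae (.of_forall fun x => ?_)
    simp only [NNReal.smul_def, smul_eq_mul]
    rw [Real.coe_toNNReal _ (div_pos (ew_pos _ _ _) (Mf_pos hμ hK y)).le]
    ring
  refine ⟨_, ⟨fun y => ⟨?_⟩⟩, fun f _ y => (e f y).symm⟩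
  have h1 := e (fun _ => 1) y
  rw [pm_const hμ hK, integral_const, smul_eq_mul, mul_one, measureReal_def] at h1
  exact (ENNReal.toReal_eq_one_iff _).1 h1

lemma mkT (hμ : Cp μ) (hK : 0 ≤ K) : MK (Tk K μ : Op ι) := (mkA K).comp (mkP hμ hK)

/-- the Poisson law -/
abbrev Pc (c : ℝ) : Measure ℕ := poissonMeasure c.toNNReal

lemma int_Pc (hc : 0 ≤ c) (a : ℕ → ℝ) : ∫ j, a j ∂Pc c = ∑' j, Chain22.poi c j * a j := by
  rw [integral_poissonMeasure, Real.coe_toNNReal _ hc]; rfl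

lemma Qs_eq (hc : 0 ≤ c) (x : ι → ℝ) : Qs K c μ f x = ∫ j, (Tk K μ)^[j] f x ∂Pc c :=
  (int_Pc hc _).symm

lemma int_cast (hc : 0 ≤ c) : Integrable (fun j : ℕ => (j : ℝ)) (Pc c) := by
  rw [integrable_poissonMeasure_iff, Real.coe_toNNReal _ hc]
  simpa only [Real.norm_natCast, Chain22.poi] using (Chain22.hasSum_poi_id c).summable

lemma mean_Pc (hc : 0 ≤ c) : ∫ j, (j : ℝ) ∂Pc c = c := by
  rw [int_Pc hc]; exact (Chain22.hasSum_poi_id c).tsum_eq

lemma mkQ (hμ : Cp μ) (hK : 0 ≤ K) (hc : 0 ≤ c) : MK (Qs K c μ : Op ι) := by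
  choose κ h1 h2 using fun j => (mkT hμ hK).iter j
  let η : Kernel ((ι → ℝ) × ℕ) (ι → ℝ) :=
    ⟨fun p => κ p.2 p.1, measurable_from_prod_countable_left fun j => (κ j).measurable⟩
  have : IsMarkovKernel η := ⟨fun p => (h1 p.2).1 p.1⟩
  exact MK.mix (Pc c) η fun f a x => by
    rw [Qs_eq hc]; simp only [h2 _ f a]; rfl

/-! ### stationarity -/

/-- `ν` is stationary -/
def Sta (ν : Measure (ι → ℝ)) (T : Op ι) : Prop := ∀ f, Bm f → ∫ x, T f x ∂ν = ∫ x, f x ∂ν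

lemma int_Ay (hν : Cp ν) (hK : 0 ≤ K) (a : MG h) :
    ∫ x, Ay K h x ∂ν = IK K fun y => Mf K ν y * h y := by
  have := bayes hν hK (.const 1) a
  simpa only [one_mul, ← Mf_eq, Ay] using this

lemma staT (hν : Cp ν) (hK : 0 ≤ K) : Sta ν (Tk K ν) := fun f a => by
  rw [Tk_eq, int_Ay hν hK (mg_pm hν hK a.bs), ← IK_Un hν hK a.bs]
  exact IK_congr fun y => (Un_eq hν hK y).symm

lemma Sta.iter (hT : MK T) (s : Sta ν T) (j : ℕ) : Sta ν T^[j] := fun f a => by
  induction j with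
  | zero => rfl
  | succ j ih => rw [Function.iterate_succ_apply', s _ ((hT.iter j).bm a), ih]

lemma meas_nat {F : ℕ → (ι → ℝ) → ℝ} (a : ∀ j, Measurable (F j)) :
    Measurable fun p : (ι → ℝ) × ℕ => F p.2 p.1 := measurable_from_prod_countable_left a

lemma staQ (hν : Cp ν) (hK : 0 ≤ K) (hc : 0 ≤ c) : Sta ν (Qs K c ν) := fun f a => by
  have := hν.prob
  obtain ⟨C, hC⟩ := a.bd
  have b := fun j => ((mkT hν hK).iter j).bd ⟨a.meas, hC⟩
  simp only [Qs_eq hc]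
  rw [integral_integral_swap (int_bd (meas_nat fun j => (b j).meas) (fun p => (b p.2).le p.1) _)]
  simp only [(staT hν hK).iter (mkT hν hK) _ f a]
  simp

/-! ### the class -/

/-- pointwise distance of the unnormalised posterior means -/
def dd (μ ν : Measure (ι → ℝ)) (K : ℝ) (g g' : (ι → ℝ) → ℝ) (w : ι → ℝ) : ℝ :=
  |Un K μ g w - Un K ν g' w|

lemma mg_dd (hμ : Cp μ) (hν : Cp ν) (hK : 0 ≤ K) (a : Bm g) (b : Bm h) : MG (dd μ ν K g h) :=
  ((mg_Un hμ hK a.bs).sub (mg_Un hν hK b.bs)).abs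

/-- observables which behave like a smoothing of level `k` of a function bounded by `B` -/
structure Cl (μ ν : Measure (ι → ℝ)) (k B : ℝ) (f : (ι → ℝ) → ℝ) : Prop where
  bd : Bd B f
  le : ∀ K, 0 ≤ K → ∀ g g', Bm g → Bm g' → ∀ w,
    dd μ ν K (fun x => f x * g x) (fun x => f x * g' x) w ≤
      B * IK k fun y => dd μ ν (K + k) g g' (w + y)

namespace Cl

lemma const (a : ℝ) : Cl μ ν 0 |a| fun _ => a :=
  ⟨.const a, fun K _ g g' _ _ w => by
    simp only [dd, Un_const_mul, IK_zero, add_zero, ← mul_sub, abs_mul, le_refl]⟩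

lemma monoB (a : Cl μ ν k B f) (e : B ≤ B') : Cl μ ν k B' f :=
  ⟨a.bd.mono e, fun K hK g g' b b' w => (a.le K hK g g' b b' w).trans
    (mul_le_mul_of_nonneg_right e (IK_nonneg fun _ => abs_nonneg _))⟩

lemma add (hμ : Cp μ) (hν : Cp ν) (a : Cl μ ν k B f) (b : Cl μ ν k B' h) :
    Cl μ ν k (B + B') fun x => f x + h x :=
  ⟨a.bd.add b.bd, fun K hK g g' d d' w => by
    rw [add_mul]
    refine le_trans ?_ (add_le_add (a.le K hK g g' d d' w) (b.le K hK g g' d d' w))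
    simp only [dd, add_mul, Un_add hμ hK (a.bd.bm.mul d).bs (b.bd.bm.mul d).bs,
      Un_add hν hK (a.bd.bm.mul d').bs (b.bd.bm.mul d').bs, add_sub_add_comm]
    exact abs_add_le _ _⟩

lemma IK2 (hμ : Cp μ) (hν : Cp ν) (hK : 0 ≤ K) (hk : 0 ≤ k) (hk' : 0 ≤ k') {g' : (ι → ℝ) → ℝ}
    (d : Bm g) (d' : Bm g') (w : ι → ℝ) :
    (MG fun y => IK k' fun y' => dd μ ν (K + k + k') g g' (w + y + y')) ∧
    IK k (fun y => IK k' fun y' => dd μ ν (K + k + k') g g' (w + y + y')) =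
      IK (k + k') fun y => dd μ ν (K + (k + k')) g g' (w + y) := by
  have m := mg_shift (mg_dd hμ hν (by positivity : 0 ≤ K + (k + k')) d d') w
  simp only [add_assoc]
  exact ⟨mg_IK m k', IK_IK hk hk' m⟩

lemma mul (hμ : Cp μ) (hν : Cp ν) (hk : 0 ≤ k) (hk' : 0 ≤ k') (a : Cl μ ν k B f)
    (b : Cl μ ν k' B' h) : Cl μ ν (k + k') (B * B') fun x => f x * h x :=
  ⟨a.bd.mul b.bd, fun K hK g g' d d' w => by
    obtain ⟨m, e⟩ := IK2 hμ hν hK hk hk' d d' w
    simp only [mul_assoc]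
    refine (a.le K hK _ _ (b.bd.bm.mul d) (b.bd.bm.mul d') w).trans
      (mul_le_mul_of_nonneg_left ?_ a.bd.nonneg)
    rw [← e, ← IK_const_mul]
    exact IK_mono (mg_shift (mg_dd hμ hν (add_nonneg hK hk) (b.bd.bm.mul d) (b.bd.bm.mul d')) w)
      (m.const_mul _) fun y => b.le _ (add_nonneg hK hk) g g' d d' _⟩

lemma un_diag (hμ : Cp μ) (hK : 0 ≤ K) (hK' : 0 ≤ K') {Ψ : (ι → ℝ) → (ι → ℝ) → ℝ}
    (hΨ : Measurable fun p : (ι → ℝ) × (ι → ℝ) => Ψ p.1 p.2) (hb : ∀ y x, |Ψ y x| ≤ B)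
    (d : Bm g) (w : ι → ℝ) :
    (MG fun y => Un (K + K') μ (fun x => Ψ y x * g x) (w + y)) ∧
    Un K μ (fun x => Ay K' (fun y => Ψ y x) x * g x) w =
      IK K' fun y => Un (K + K') μ (fun x => Ψ y x * g x) (w + y) := by
  have := hμ.prob
  have hs := add_nonneg hK hK'
  obtain ⟨C, hC⟩ := d.bd
  have hB : 0 ≤ B := (abs_nonneg _).trans (hb 0 0)
  have b : ∀ y x, |Ψ y x * g x| ≤ B * C := fun y x => by
    rw [abs_mul]; exact mul_le_mul (hb y x) (hC x) (abs_nonneg _) hB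
  constructor
  · refine ((mg_shift (mg_Mf hμ hs) w).const_mul (B * C)).of_le ?_ fun y =>
      (abs_Un_le hμ hs (.of_forall (b y)) _).trans (le_abs_self _)
    exact (StronglyMeasurable.integral_prod_right
      (f := fun y x => Ψ y x * g x * ew (K + K') (w + y) x)
      ((hΨ.mul (d.meas.comp measurable_snd)).mul (measurable_ew _ (by fun_prop)
        measurable_snd)).stronglyMeasurable).measurable
  · have hi : Integrable (fun p : (ι → ℝ) × (ι → ℝ) =>
        Ψ (√K' • p.2) p.1 * g p.1 * ew (K + K') (w + √K' • p.2) p.1) (μ.prod (gv ι)) := by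
      refine ((int_prod hμ hs (.const (B * C)) (.const 1) w √K')).mono'
        (((hΨ.comp (by fun_prop : Measurable fun p : (ι → ℝ) × (ι → ℝ) => (√K' • p.2, p.1))).mul
          (d.meas.comp measurable_fst)).mul (measurable_ew _ (by fun_prop)
          measurable_fst)).aestronglyMeasurable (.of_forall fun p => ?_)
      rw [Real.norm_eq_abs, abs_mul, abs_of_pos (ew_pos _ _ _), mul_one]
      exact mul_le_mul_of_nonneg_right (b _ _) (ew_pos _ _ _).le
    have := integral_integral_swap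
      (f := fun x z => Ψ (√K' • z) x * g x * ew (K + K') (w + √K' • z) x) hi
    refine Eq.trans ?_ this
    refine integral_congr_ae (.of_forall fun x => ?_)
    have e1 : Ay K' (fun y => Ψ y x) x = _ := (cmK hK' x fun y => Ψ y x).symm
    simp only [e1, IK, ew_add, ← integral_mul_const]
    exact integral_congr_ae (.of_forall fun z => by simp only; ring)

/-- a parameter is fed with an output of the channel -/
lemma diag (hμ : Cp μ) (hν : Cp ν) (hK' : 0 ≤ K') (hk : 0 ≤ k) {Ψ : (ι → ℝ) → (ι → ℝ) → ℝ}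
    (hΨ : Measurable fun p : (ι → ℝ) × (ι → ℝ) => Ψ p.1 p.2) (a : ∀ y, Cl μ ν k B (Ψ y)) :
    Cl μ ν (K' + k) B fun x => Ay K' (fun y => Ψ y x) x := by
  have hb : ∀ y x, |Ψ y x| ≤ B := fun y => (a y).bd.le
  refine ⟨⟨((mkA K').meas2 (F := fun x y => Ψ y x) (hΨ.comp measurable_swap)
    fun x y => hb y x).comp (measurable_id.prodMk measurable_id),
    fun x => abs_Ay_le (fun y => hb y x) x⟩, fun K hK g g' d d' w => ?_⟩
  obtain ⟨m1, e1⟩ := un_diag hμ hK hK' hΨ hb d w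
  obtain ⟨m2, e2⟩ := un_diag hν hK hK' hΨ hb d' w
  obtain ⟨m, e⟩ := IK2 hμ hν hK hK' hk d d' w
  rw [dd, e1, e2, ← IK_sub m1 m2, ← e, ← IK_const_mul]
  exact abs_IK_le (m.const_mul _) fun y => (a y).le _ (add_nonneg hK hK') g g' d d' _

lemma mono (hμ : Cp μ) (hν : Cp ν) (hk : 0 ≤ k) (a : Cl μ ν k B f) (e : k ≤ k') :
    Cl μ ν k' B f := by
  have := diag hμ hν (sub_nonneg.2 e) hk (Ψ := fun _ => f) (a.bd.meas.comp measurable_snd)
    fun _ => a
  simpa only [sub_add_cancel, Ay_const] using this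

lemma ay (hμ : Cp μ) (hν : Cp ν) (hK : 0 ≤ K) (a : Bd B f) : Cl μ ν K B (Ay K f) := by
  have := diag hμ hν hK le_rfl (Ψ := fun y _ => f y) (a.meas.comp measurable_fst)
    fun y => (const (f y)).monoB (a.le y)
  simpa only [add_zero] using this

lemma iter (hμ : Cp μ) (hν : Cp ν) (hK : 0 ≤ K) (e : K ≤ k) (a : Cl μ ν k B f) (j : ℕ) :
    Cl μ ν k B ((Tk K μ)^[j] f) := by
  cases j with
  | zero => exact a
  | succ j =>
    rw [Function.iterate_succ_apply']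
    exact (ay hμ hν hK ((mkP hμ hK).bd (((mkT hμ hK).iter j).bd a.bd))).mono hμ hν hK e

lemma un_mix (hμ : Cp μ) (hK : 0 ≤ K) {F : ℕ → (ι → ℝ) → ℝ} (a : ∀ j, Bd B (F j)) (d : Bm g)
    (ρ : Measure ℕ) [IsProbabilityMeasure ρ] (w : ι → ℝ) :
    Integrable (fun j => Un K μ (fun x => F j x * g x) w) ρ ∧
    Un K μ (fun x => (∫ j, F j x ∂ρ) * g x) w = ∫ j, Un K μ (fun x => F j x * g x) w ∂ρ := by
  have := hμ.prob
  have hi : Integrable (fun p : (ι → ℝ) × ℕ => F p.2 p.1 * (g p.1 * ew K w p.1)) (μ.prod ρ) :=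
    (((d.bs.mul (Bs.ew hμ hK w)).int hμ).comp_fst ρ).bdd_mul (c := B)
      (meas_nat fun j => (a j).meas).aestronglyMeasurable (.of_forall fun p => (a p.2).le p.1)
  simp only [Un, mul_assoc, ← integral_mul_const]
  exact ⟨hi.integral_prod_right, integral_integral_swap hi⟩

lemma qs (hμ : Cp μ) (hν : Cp ν) (hK : 0 ≤ K) (hc : 0 ≤ c) (e : K ≤ k) (a : Cl μ ν k B f) :
    Cl μ ν k B (Qs K c μ f) := by
  refine ⟨(mkQ hμ hK hc).bd a.bd, fun K₀ h0 g g' d d' w => ?_⟩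
  have b := a.iter hμ hν hK e
  obtain ⟨m1, e1⟩ := un_mix hμ h0 (fun j => (b j).bd) d (Pc c) w
  obtain ⟨m2, e2⟩ := un_mix hν h0 (fun j => (b j).bd) d' (Pc c) w
  simp only [Qs_eq hc]
  rw [dd, e1, e2, ← integral_sub m1 m2]
  exact abs_int_le (fun j => (b j).le K₀ h0 g g' d d' w) _

end Cl

lemma IK_dd_one (hμ : Cp μ) (hν : Cp ν) (hK : 0 ≤ K) :
    IK K (dd μ ν K (fun _ => 1) fun _ => 1) ≤ √(D2 K μ ν) := by
  rw [D2_eq hμ hν hK]
  have := IK_abs_le_sqrt (K := K) ((mg_Mf hμ hK).sub (mg_Mf hν hK))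
  simp only [Mf_eq] at this ⊢
  exact this

lemma Cl.int_le (hμ : Cp μ) (hν : Cp ν) (hk : 0 ≤ k) (a : Cl μ ν k B f) :
    |∫ x, f x ∂μ - ∫ x, f x ∂ν| ≤ B * √(D2 k μ ν) := by
  have := a.le 0 le_rfl _ _ (.const 1) (.const 1) 0
  simp only [dd, Un_zero, mul_one, zero_add] at this
  exact this.trans (mul_le_mul_of_nonneg_left (IK_dd_one hμ hν hk) a.bd.nonneg)

/-! ### the defect -/

/-- the two operators are close on the class, uniformly -/
def Df (μ ν : Measure (ι → ℝ)) (T U : Op ι) (k η : ℝ) : Prop :=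
  ∃ δ, Bd 2 δ ∧ ∫ x, δ x ∂ν ≤ η ∧ ∀ B f, Cl μ ν k B f → ∀ x, |T f x - U f x| ≤ B * δ x

lemma bd_min (hm : Measurable f) (h0 : ∀ x, 0 ≤ f x) : Bd 2 fun x => min 2 (f x) :=
  ⟨measurable_const.min hm, fun x => by
    rw [abs_of_nonneg (le_min zero_le_two (h0 x))]; exact min_le_left _ _⟩

lemma le_mul_min {a b d t : ℝ} (ha : |a| ≤ B) (hb : |b| ≤ B) (h : |a - b| ≤ B * d) (ht : d ≤ t) :
    |a - b| ≤ B * min 2 t := by
  have hB : 0 ≤ B := (abs_nonneg _).trans ha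
  rw [mul_min_of_nonneg _ _ hB]
  exact le_min ((abs_sub _ _).trans (by linarith)) (h.trans (mul_le_mul_of_nonneg_left ht hB))

lemma dfT (hμ : Cp μ) (hν : Cp ν) (hK : 0 ≤ K) (hk : 0 ≤ k) :
    Df μ ν (Tk K μ) (Tk K ν) k (2 * √(D2 (K + k) μ ν)) := by
  have hs := add_nonneg hK hk
  have m0 := mg_dd hμ hν hK (.const 1) (.const 1)
  have m1 := mg_dd hμ hν hs (.const 1) (.const 1)
  have m2 := m0.add (mg_IK m1 k)
  set W : (ι → ℝ) → ℝ := fun y => dd μ ν K (fun _ => 1) (fun _ => 1) y +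
    IK k fun y' => dd μ ν (K + k) (fun _ => 1) (fun _ => 1) (y + y') with hW
  have W0 : ∀ y, 0 ≤ W y := fun y => add_nonneg (abs_nonneg _) (IK_nonneg fun _ => abs_nonneg _)
  have b : Bd 2 fun y => min 2 (W y / Mf K ν y) :=
    bd_min (m2.meas.div (measurable_Mf hν)) fun y => div_nonneg (W0 y) (Mf_pos hν hK y).le
  refine ⟨_, (mkA K).bd b, ?_, fun B f a x => ?_⟩
  · rw [int_Ay hν hK b.bm.mg]
    refine (IK_mono ((mg_Mf hν hK).mul b.bm.mg) m2 fun y => ?_).trans ?_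
    · refine (mul_le_mul_of_nonneg_left (min_le_right _ _) (Mf_pos hν hK y).le).trans_eq ?_
      rw [mul_div_cancel₀ _ (Mf_pos hν hK y).ne']
    · rw [IK_add m0 (mg_IK m1 k), IK_IK hK hk m1, two_mul]
      exact add_le_add ((IK_dd_one hμ hν hK).trans (Real.sqrt_le_sqrt
        (D2_mono hμ hν hK (le_add_of_nonneg_right hk)))) (IK_dd_one hμ hν hs)
  · rw [← (mkA K).const_mul b.bm]
    have p1 := (mkP hμ hK).bd a.bd
    have p2 := (mkP hν hK).bd a.bd
    refine (mkA K).abs_sub_le p1.bm p2.bm (b.bm.const_mul B) (fun y => ?_) x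
    refine le_mul_min (p1.le y) (p2.le y) ?_ le_rfl
    have h1 := a.le K hK _ _ (.const 1) (.const 1) y
    have M0 := Mf_pos hν hK y
    rw [← mul_div_assoc, le_div_iff₀ M0, hW, mul_add]
    refine le_trans ?_ (add_le_add le_rfl h1)
    simp only [dd, mul_one, Un_eq hμ hK, Un_eq hν hK, pm_const hμ hK, pm_const hν hK]
    have e : (pm K μ f y - pm K ν f y) * Mf K ν y = -(pm K μ f y * (Mf K μ y - Mf K ν y)) +
        (Mf K μ y * pm K μ f y - Mf K ν y * pm K ν f y) := by ring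
    rw [← abs_of_pos M0, ← abs_mul, abs_of_pos M0, e]
    refine (abs_add_le _ _).trans (add_le_add ?_ le_rfl)
    rw [abs_neg, abs_mul]
    exact mul_le_mul_of_nonneg_right (p1.le y) (abs_nonneg _)

lemma Df.mono {η η' : ℝ} (a : Df μ ν T U k η) (e : η ≤ η') : Df μ ν T U k η' :=
  a.imp fun _ h => ⟨h.1, h.2.1.trans e, h.2.2⟩

lemma dfI (hμ : Cp μ) (hν : Cp ν) (hK : 0 ≤ K) (e : K ≤ k) {η : ℝ}
    (a : Df μ ν (Tk K μ) (Tk K ν) k η) (j : ℕ) :
    Df μ ν (Tk K μ)^[j] (Tk K ν)^[j] k (j * η) := by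
  have := hν.prob
  obtain ⟨δ, d1, d2, d3⟩ := a
  induction j with
  | zero => exact ⟨fun _ => 0, (Bd.const 0).mono (by simp), by simp, fun B f _ x => by simp⟩
  | succ j ih =>
    obtain ⟨γ, g1, g2, g3⟩ := ih
    have t := mkT hν hK
    have b1 := bm_abs d1.bm
    have b2 := t.bm (bm_abs g1.bm)
    have nn : ∀ {T U : Op ι} {δ : (ι → ℝ) → ℝ},
        (∀ B f, Cl μ ν k B f → ∀ x, |T f x - U f x| ≤ B * δ x) → ∀ x, 0 ≤ δ x :=
      fun {T U δ} h x => by
        have := (abs_nonneg _).trans (h _ _ ((Cl.const 1).mono hμ hν le_rfl (hK.trans e)) x)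
        simpa using this
    have b : Bd 2 fun x => min 2 (δ x + Tk K ν γ x) :=
      bd_min (d1.meas.add (t.bd g1).meas) fun x => add_nonneg (nn d3 x) (t.nonneg g1.bm (nn g3) x)
    refine ⟨_, b, ?_, fun B f a x => ?_⟩
    · refine (integral_mono (int_bm b.bm _) (int_bm (d1.bm.add (t.bm g1.bm)) _)
        fun x => min_le_right _ _).trans ?_
      rw [integral_add (int_bm d1.bm _) (int_bm (t.bm g1.bm) _), staT hν hK _ g1.bm]
      push_cast; linarith
    · refine le_mul_min ((((mkT hμ hK).iter _).bd a.bd).le x) (((t.iter _).bd a.bd).le x) ?_ le_rfl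
      rw [Function.iterate_succ_apply', Function.iterate_succ_apply', mul_add,
        ← t.const_mul g1.bm]
      exact (abs_sub_le _ _ _).trans (add_le_add (d3 B _ (a.iter hμ hν hK e j) x)
        (t.abs_sub_le (((mkT hμ hK).iter _).bm a.bd.bm) ((t.iter _).bm a.bd.bm)
          (g1.bm.const_mul B) (g3 B f a) x))

lemma dfQ (hμ : Cp μ) (hν : Cp ν) (hK : 0 ≤ K) (hc : 0 ≤ c) (e : K ≤ k) :
    Df μ ν (Qs K c μ) (Qs K c ν) k (c * (2 * √(D2 (K + k) μ ν))) := by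
  have := hν.prob
  choose δ d1 d2 d3 using dfI hμ hν hK e (dfT hμ hν hK (hK.trans e))
  have m := meas_nat fun j => (d1 j).meas
  have hi := int_bd m (fun p => (d1 p.2).le p.1) (ν.prod (Pc c))
  refine ⟨fun x => ∫ j, δ j x ∂Pc c, ⟨(StronglyMeasurable.integral_prod_right
    (f := fun x j => δ j x) m.stronglyMeasurable).measurable,
    fun x => abs_int_le (fun j => (d1 j).le x) _⟩, ?_, fun B f a x => ?_⟩
  · rw [integral_integral_swap hi]
    refine (integral_mono hi.integral_prod_right ((int_cast hc).mul_const _) d2).trans_eq ?_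
    rw [integral_mul_const, mean_Pc hc]
  · have i1 := int_bd (.of_discrete) (fun j => (((mkT hμ hK).iter j).bd a.bd).le x) (Pc c)
    have i2 := int_bd (.of_discrete) (fun j => (((mkT hν hK).iter j).bd a.bd).le x) (Pc c)
    rw [Qs_eq hc, Qs_eq hc, ← integral_sub i1 i2, ← integral_const_mul]
    exact norm_integral_le_of_norm_le (f := fun j => (Tk K μ)^[j] f x - (Tk K ν)^[j] f x)
      ((int_bd (.of_discrete) (fun j => (d1 j).le x) _).const_mul B)
      (.of_forall fun j => d3 j B f a x)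

/-- `L¹(ν)` distance -/
def Rel (ν : Measure (ι → ℝ)) (f g : (ι → ℝ) → ℝ) : ℝ := ∫ x, |f x - g x| ∂ν

lemma Df.rel (hν : Cp ν) {η : ℝ} (d : Df μ ν T U k η) (hT : MK T) (hU : MK U) (s : Sta ν U)
    (a : Cl μ ν k B f) (b : Bm g) : Rel ν (T f) (U g) ≤ B * η + Rel ν f g := by
  have := hν.prob
  obtain ⟨δ, d1, d2, d3⟩ := d
  have b1 := bm_abs (a.bd.bm.sub b)
  refine (integral_mono (int_bm (bm_abs ((hT.bm a.bd.bm).sub (hU.bm b))) _)
    (int_bm ((d1.bm.const_mul B).add (hU.bm b1)) _) fun x => (abs_sub_le _ _ _).trans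
      (add_le_add (d3 B f a x) (hU.abs_sub_le a.bd.bm b b1 (fun _ => le_rfl) x))).trans ?_
  rw [integral_add (int_bm (d1.bm.const_mul B) _) (int_bm (hU.bm b1) _), s _ b1, integral_const_mul]
  exact add_le_add (mul_le_mul_of_nonneg_left d2 a.bd.nonneg) le_rfl

end Crest.Agent.T157.Cq.S80

end
end

-- ▼ part T157/CqScB_80
section

/-!
# Row 157, part C: continuity of the scalars, second file (helper80): the observable `psiS`
-/

set_option autoImplicit false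
set_option linter.unusedSectionVars false

noncomputable section

namespace Crest.Agent.T157.Cq.S80

open MeasureTheory ProbabilityTheory Matrix Filter Topology Finset Real
open Crest.Agent.T157.E Crest.Agent.T157.Cond Crest.Agent.T157.SL Crest.Agent.T157.Rec
open Crest.Agent.T157.St Crest.Agent.T157.St.A87

variable {ι : Type*} [Fintype ι] [DecidableEq ι] {μ ν ρ : Measure (ι → ℝ)} {K K' s c L R C : ℝ}
  {f g h : (ι → ℝ) → ℝ}

lemma int_cexp (a : ι → ℝ) :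
    Integrable (fun z : ι → ℝ => Complex.exp ((a ⬝ᵥ z : ℝ) * Complex.I)) (gv ι) :=
  Integrable.of_bound (Continuous.aestronglyMeasurable (by unfold dotProduct; fun_prop)) 1
    (.of_forall fun z => (Complex.norm_exp_ofReal_mul_I _).le)

lemma int_cos (a : ι → ℝ) : ∫ z, cos (a ⬝ᵥ z) ∂gv ι = exp (-(a ⬝ᵥ a) / 2) := by
  have h := congrArg Complex.re (CF_gv a)
  have e := integral_re (𝕜 := ℂ) (int_cexp a)
  simp only [RCLike.re_to_complex, Complex.exp_ofReal_mul_I_re] at e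
  rw [e]
  refine h.trans ?_
  rw [← Complex.exp_ofReal_re]; push_cast; rfl

lemma int_sin (a : ι → ℝ) : ∫ z, sin (a ⬝ᵥ z) ∂gv ι = 0 := by
  have h := congrArg Complex.im (CF_gv a)
  have e := integral_im (𝕜 := ℂ) (int_cexp a)
  simp only [RCLike.im_to_complex, Complex.exp_ofReal_mul_I_im] at e
  rw [e]
  refine h.trans ?_
  rw [← Complex.exp_ofReal_im (-(a ⬝ᵥ a) / 2)]; push_cast; rfl

lemma icos (a : ι → ℝ) : Integrable (fun z : ι → ℝ => cos (a ⬝ᵥ z)) (gv ι) :=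
  int_bd (by unfold dotProduct; fun_prop) (fun _ => abs_cos_le_one _) _

lemma isin (a : ι → ℝ) : Integrable (fun z : ι → ℝ => sin (a ⬝ᵥ z)) (gv ι) :=
  int_bd (by unfold dotProduct; fun_prop) (fun _ => abs_sin_le_one _) _

lemma int_sin_shift (hs : 0 ≤ s) (a a' : ι → ℝ) :
    ∫ z, sin ((s • a + √s • z) ⬝ᵥ a') ∂gv ι = sin (s * (a ⬝ᵥ a')) * exp (-(s / 2 * (a' ⬝ᵥ a'))) := by
  have e : ∀ z : ι → ℝ, sin ((s • a + √s • z) ⬝ᵥ a') = sin (s * (a ⬝ᵥ a')) * cos ((√s • a') ⬝ᵥ z) +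
      cos (s * (a ⬝ᵥ a')) * sin ((√s • a') ⬝ᵥ z) := fun z => by
    rw [add_dotProduct, sin_add]
    simp only [smul_dotProduct, smul_eq_mul, dotProduct_comm z]
  simp only [e]
  rw [integral_add ((icos _).const_mul _) ((isin _).const_mul _), integral_const_mul,
    integral_const_mul, int_cos, int_sin, dot_sqrt hs, mul_zero, add_zero]
  congr 2; ring

lemma int_sin_sin (hs : 0 ≤ s) (a a' : ι → ℝ) :
    ∫ z, sin ((√s • z) ⬝ᵥ a') * sin ((√s • z) ⬝ᵥ a) ∂gv ι ≤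
      exp (s * (a ⬝ᵥ a') - s / 2 * (a ⬝ᵥ a) - s / 2 * (a' ⬝ᵥ a')) := by
  have e : ∀ z : ι → ℝ, sin ((√s • z) ⬝ᵥ a') * sin ((√s • z) ⬝ᵥ a) =
      1 / 2 * (cos ((√s • (a - a')) ⬝ᵥ z) - cos ((√s • (a + a')) ⬝ᵥ z)) := fun z => by
    simp only [smul_dotProduct, smul_eq_mul, dotProduct_comm z, sub_dotProduct, add_dotProduct,
      mul_sub, mul_add, cos_sub, cos_add]
    ring
  simp only [e]
  rw [integral_const_mul, integral_sub (icos _) (icos _), int_cos, int_cos, dot_sqrt hs,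
    dot_sqrt hs]
  have e2 : -(s * ((a - a') ⬝ᵥ (a - a'))) / 2 =
      s * (a ⬝ᵥ a') - s / 2 * (a ⬝ᵥ a) - s / 2 * (a' ⬝ᵥ a') := by
    rw [sub_dotProduct, dotProduct_sub, dotProduct_sub, dotProduct_comm a' a]; ring
  rw [e2]
  linarith [exp_pos (-(s * ((a + a') ⬝ᵥ (a + a'))) / 2),
    exp_pos (s * (a ⬝ᵥ a') - s / 2 * (a ⬝ᵥ a) - s / 2 * (a' ⬝ᵥ a'))]

lemma swapS (hρ : Cp ρ) (hg : Bs ρ g) {Φ : (ι → ℝ) → (ι → ℝ) → ℝ}
    (hΦ : Measurable fun p : (ι → ℝ) × (ι → ℝ) => Φ p.1 p.2) (hb : ∀ z a, |Φ z a| ≤ C) :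
    ∫ z, ∫ a, g a * Φ z a ∂ρ ∂gv ι = ∫ a, g a * ∫ z, Φ z a ∂gv ι ∂ρ := by
  have := hρ.prob
  simp only [← integral_const_mul]
  exact integral_integral_swap (((hg.int hρ).comp_snd (gv ι)).mul_bdd (c := C)
    hΦ.aestronglyMeasurable (.of_forall fun p => hb _ _))

lemma bs_expsq (hρ : Cp ρ) (hs : 0 ≤ s) : Bs ρ fun a => exp (s / 2 * (a ⬝ᵥ a)) := by
  obtain ⟨r, hr⟩ := hρ.bdd
  refine ⟨by unfold dotProduct; fun_prop, exp (s / 2 * r), (exp_pos _).le, hr.mono fun a ha => ?_⟩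
  rw [abs_of_pos (exp_pos _)]; gcongr

/-- dual features -/
def Ga (ρ : Measure (ι → ℝ)) (g : (ι → ℝ) → ℝ) (y : ι → ℝ) : ℝ := ∫ a, g a * sin (y ⬝ᵥ a) ∂ρ

lemma bm_Ga (hρ : Cp ρ) (hg : Bs ρ g) : Bm (Ga ρ g) := by
  have := hρ.prob
  refine ⟨(StronglyMeasurable.integral_prod_right (f := fun y a => g a * sin (y ⬝ᵥ a))
    ((hg.meas.comp measurable_snd).mul (by unfold dotProduct; fun_prop)).stronglyMeasurable
    ).measurable, ∫ a, |g a| ∂ρ, fun y => ?_⟩
  refine norm_integral_le_of_norm_le (f := fun a => g a * sin (y ⬝ᵥ a)) (hg.int hρ).abs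
    (.of_forall fun a => ?_)
  rw [Real.norm_eq_abs, abs_mul]
  exact mul_le_of_le_one_right (abs_nonneg _) (abs_sin_le_one _)

lemma Ay_Ga (hρ : Cp ρ) (hs : 0 ≤ s) (hh : Bs ρ h) (a : ι → ℝ) :
    Ay s (Ga ρ fun a => h a * exp (s / 2 * (a ⬝ᵥ a))) a = ∫ a', sin (s * (a ⬝ᵥ a')) * h a' ∂ρ := by
  have := swapS hρ (hh.mul (bs_expsq hρ hs)) (Φ := fun z a' => sin ((s • a + √s • z) ⬝ᵥ a'))
    (by unfold dotProduct; fun_prop) fun _ _ => abs_sin_le_one _
  refine this.trans (integral_congr_ae (.of_forall fun a' => ?_))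
  simp only [int_sin_shift hs]
  rw [exp_neg]; field_simp

lemma IK_Ga_sq (hρ : Cp ρ) (hs : 0 ≤ s) (hh : Bs ρ h) (h0 : ∀ a, 0 ≤ h a) :
    IK s (fun y => Ga ρ (fun a => h a * exp (s / 2 * (a ⬝ᵥ a))) y ^ 2) ≤
      IK s fun y => Un s ρ h y ^ 2 := by
  have := hρ.prob
  have hg := hh.mul (bs_expsq hρ hs)
  set g : (ι → ℝ) → ℝ := fun a => h a * exp (s / 2 * (a ⬝ᵥ a)) with eg
  have g0 : ∀ a, 0 ≤ g a := fun a => mul_nonneg (h0 a) (exp_pos _).le
  obtain ⟨m, C, hC⟩ := bm_Ga hρ hg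
  have m1 : Measurable fun p : (ι → ℝ) × (ι → ℝ) => sin ((√s • p.1) ⬝ᵥ p.2) * Ga ρ g (√s • p.1) :=
    Measurable.mul (by unfold dotProduct; fun_prop) (m.comp (by fun_prop))
  have b1 : ∀ z a : ι → ℝ, |sin ((√s • z) ⬝ᵥ a) * Ga ρ g (√s • z)| ≤ C := fun z a => by
    rw [abs_mul]
    exact (mul_le_of_le_one_left (abs_nonneg _) (abs_sin_le_one _)).trans (hC _)
  have e1 := swapS hρ hg (Φ := fun z a => sin ((√s • z) ⬝ᵥ a) * Ga ρ g (√s • z)) m1 b1
  have e2 : IK s (fun y => Ga ρ g y ^ 2) =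
      ∫ z, ∫ a, g a * (sin ((√s • z) ⬝ᵥ a) * Ga ρ g (√s • z)) ∂ρ ∂gv ι := by
    simp only [IK, sq, ← mul_assoc, integral_mul_const]; rfl
  simp only [sq (Un s ρ h _)]
  rw [e2, e1, IK_Un_Un hρ hρ hs hh hh]
  have i1 : Bs ρ fun a => ∫ z, sin ((√s • z) ⬝ᵥ a) * Ga ρ g (√s • z) ∂gv ι :=
    Bs.of_bdd (StronglyMeasurable.integral_prod_left (f := fun z a =>
      sin ((√s • z) ⬝ᵥ a) * Ga ρ g (√s • z)) m1.stronglyMeasurable).measurable
      fun a => abs_int_le (fun z => b1 z a) _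
  have i2 : Bs ρ fun a => ∫ a', h a' * exp (s * (a ⬝ᵥ a')) ∂ρ := by
    have := Bs.of_mg hρ (mg_smul (mg_Un (K := 0) hρ le_rfl hh) s)
    simpa only [Un, ew, zero_div, zero_mul, sub_zero, smul_dotProduct, smul_eq_mul] using this
  refine integral_mono ((hg.mul i1).int hρ) ((hh.mul i2).int hρ) fun a => ?_
  have e3 := swapS hρ hg (Φ := fun z a' => sin ((√s • z) ⬝ᵥ a') * sin ((√s • z) ⬝ᵥ a)) (C := 1)
    (by unfold dotProduct; fun_prop) fun z a' => by
      rw [abs_mul]; exact mul_le_one₀ (abs_sin_le_one _) (abs_nonneg _) (abs_sin_le_one _)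
  have e4 : ∫ z, sin ((√s • z) ⬝ᵥ a) * Ga ρ g (√s • z) ∂gv ι =
      ∫ z, ∫ a', g a' * (sin ((√s • z) ⬝ᵥ a') * sin ((√s • z) ⬝ᵥ a)) ∂ρ ∂gv ι := by
    simp only [← mul_assoc, integral_mul_const, mul_comm (sin ((√s • _) ⬝ᵥ a))]; rfl
  have i3 : Bs ρ fun a' => ∫ z, sin ((√s • z) ⬝ᵥ a') * sin ((√s • z) ⬝ᵥ a) ∂gv ι :=
    Bs.of_bdd (C := 1) (StronglyMeasurable.integral_prod_left (f := fun z a' =>
      sin ((√s • z) ⬝ᵥ a') * sin ((√s • z) ⬝ᵥ a))
      (Measurable.stronglyMeasurable (by unfold Function.uncurry dotProduct; fun_prop))).measurable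
      fun a' => abs_int_le (fun z => by
        rw [abs_mul]; exact mul_le_one₀ (abs_sin_le_one _) (abs_nonneg _) (abs_sin_le_one _)) _
  have i4 := hh.mul (Bs.of_mg hρ (mg_exp_dot s a))
  simp only
  rw [e4, e3, ← integral_const_mul, ← integral_const_mul]
  refine integral_mono (((hg.mul i3).int hρ).const_mul _) ((i4.int hρ).const_mul _) fun a' => ?_
  refine (mul_le_mul_of_nonneg_left (mul_le_mul_of_nonneg_left (int_sin_sin hs a a') (g0 a'))
    (g0 a)).trans_eq ?_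
  simp only [eg, exp_sub]; field_simp

/-- bilinear estimate of the sine -/
lemma sin_le (hμ : Cp μ) (hν : Cp ν) (hρ : Cp ρ) (hs : 0 ≤ s) (hf : Bs μ f) (hg : Bs ν g)
    (hh : Bs ρ h) (h0 : ∀ a, 0 ≤ h a) :
    |∫ a, f a * ∫ a', sin (s * (a ⬝ᵥ a')) * h a' ∂ρ ∂μ -
        ∫ a, g a * ∫ a', sin (s * (a ⬝ᵥ a')) * h a' ∂ρ ∂ν| ≤
      √(IK s fun y => (Un s μ f y - Un s ν g y) ^ 2) * √(IK s fun y => Un s ρ h y ^ 2) := by
  have m := (bm_Ga hρ (hh.mul (bs_expsq hρ hs))).mg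
  have m1 := mg_Un hμ hs hf
  have m2 := mg_Un hν hs hg
  simp only [← Ay_Ga hρ hs hh, Ay]
  rw [bayes hμ hs hf m, bayes hν hs hg m, ← IK_sub (m1.mul m) (m2.mul m),
    ← Real.sqrt_mul (IK_nonneg fun _ => sq_nonneg _)]
  simp only [← sub_mul]
  exact Real.abs_le_sqrt ((IK_cs (m1.sub m2) m).trans (mul_le_mul_of_nonneg_left
    (IK_Ga_sq hρ hs hh h0) (IK_nonneg fun _ => sq_nonneg _)))

/-- the sine averaged over two posteriors -/
def Sg (K s : ℝ) (μ ρ : Measure (ι → ℝ)) (y b : ι → ℝ) : ℝ :=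
  pm K μ (fun a => pm K ρ (fun a' => sin (s * (a ⬝ᵥ a'))) b) y

lemma meas_sin (s : ℝ) : Measurable fun p : (ι → ℝ) × (ι → ℝ) => sin (s * (p.1 ⬝ᵥ p.2)) := by
  unfold dotProduct; fun_prop

lemma meas_in (hρ : Cp ρ) (hK : 0 ≤ K) : Measurable fun p : (ι → ℝ) × (ι → ℝ) =>
    pm K ρ (fun a' => sin (s * (p.1 ⬝ᵥ a'))) p.2 :=
  (mkP hρ hK).meas2 (F := fun a a' => sin (s * (a ⬝ᵥ a'))) (meas_sin s) fun _ _ => abs_sin_le_one _

lemma in_le (hρ : Cp ρ) (hK : 0 ≤ K) (a b : ι → ℝ) :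
    |pm K ρ (fun a' => sin (s * (a ⬝ᵥ a'))) b| ≤ 1 :=
  abs_pm_le hρ hK (.of_forall fun _ => abs_sin_le_one _) b

lemma mswap {α β : Type*} [MeasurableSpace α] [MeasurableSpace β] (F : α → β → ℝ)
    (h : Measurable fun p : α × β => F p.1 p.2) : Measurable fun p : β × α => F p.2 p.1 :=
  h.comp measurable_swap

lemma mfst {α β : Type*} [MeasurableSpace α] [MeasurableSpace β] (F : α → β → ℝ)
    (h : Measurable fun p : α × β => F p.1 p.2) (b : β) : Measurable fun a => F a b :=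
  h.comp (measurable_id.prodMk measurable_const)

lemma msnd {α β : Type*} [MeasurableSpace α] [MeasurableSpace β] (F : α → β → ℝ)
    (h : Measurable fun p : α × β => F p.1 p.2) (a : α) : Measurable fun b => F a b :=
  h.comp (measurable_const.prodMk measurable_id)

lemma meas_Sg (hμ : Cp μ) (hρ : Cp ρ) (hK : 0 ≤ K) :
    Measurable fun p : (ι → ℝ) × (ι → ℝ) => Sg K s μ ρ p.1 p.2 :=
  mswap (fun b y => Sg K s μ ρ y b)
    ((mkP hμ hK).meas2 (F := fun b a => pm K ρ (fun a' => sin (s * (a ⬝ᵥ a'))) b)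
      (mswap (fun a b => pm K ρ (fun a' => sin (s * (a ⬝ᵥ a'))) b) (meas_in hρ hK))
      fun b a => in_le hρ hK a b)

lemma Sg_le (hμ : Cp μ) (hρ : Cp ρ) (hK : 0 ≤ K) (y b : ι → ℝ) : |Sg K s μ ρ y b| ≤ 1 :=
  abs_pm_le hμ hK (.of_forall fun a => in_le hρ hK a b) y

lemma Sg_comm (hμ : Cp μ) (hρ : Cp ρ) (hK : 0 ≤ K) (y b : ι → ℝ) :
    Sg K s μ ρ y b = Sg K s ρ μ b y := by
  rw [Sg, (mkP hρ hK).swap (mkP hμ hK) (F := fun a a' => sin (s * (a ⬝ᵥ a'))) (meas_sin s)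
    (fun _ _ => abs_sin_le_one _) b y, Sg]
  simp only [dotProduct_comm]

lemma Un_ew (y y' : ι → ℝ) : Un s μ (ew K y) y' = Mf (K + s) μ (y + y') := by
  simp only [Un, Mf, ew_add]

/-- norm of the unnormalised posterior -/
def Nn (K s : ℝ) (μ : Measure (ι → ℝ)) (y : ι → ℝ) : ℝ :=
  √(IK s fun y' => Mf (K + s) μ (y + y') ^ 2)

/-- distance of the unnormalised posteriors -/
def En (K s : ℝ) (μ ν : Measure (ι → ℝ)) (y : ι → ℝ) : ℝ :=
  √(IK s fun y' => (Mf (K + s) μ (y + y') - Mf (K + s) ν (y + y')) ^ 2)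

lemma Sg_sub (hμ : Cp μ) (hν : Cp ν) (hρ : Cp ρ) (hK : 0 ≤ K) (hs : 0 ≤ s) (y b : ι → ℝ) :
    |Sg K s μ ρ y b - Sg K s ν ρ y b| ≤
      (|Mf K μ y - Mf K ν y| + En K s μ ν y * (Nn K s ρ b / Mf K ρ b)) / Mf K ν y := by
  have h := sin_le hμ hν hρ hs (Bs.ew hμ hK y) (Bs.ew hν hK y) (Bs.ew hρ hK b)
    fun _ => (ew_pos _ _ _).le
  simp only [Un_ew] at h
  have M0 := Mf_pos hν hK y
  have M1 := Mf_pos hρ hK b
  have e : ∀ {μ : Measure (ι → ℝ)}, Cp μ → ∫ a, ew K y a * ∫ a', sin (s * (a ⬝ᵥ a')) * ew K b a' ∂ρ ∂μ =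
      Mf K μ y * Sg K s μ ρ y b * Mf K ρ b := fun {μ} hμ => by
    rw [Sg, ← Un_eq hμ hK, Un, ← integral_mul_const]
    refine integral_congr_ae (.of_forall fun a => ?_)
    simp only [pm]; field_simp
  rw [e hμ, e hν, ← sub_mul, abs_mul, abs_of_pos M1, ← le_div_iff₀ M1, mul_div_assoc] at h
  rw [le_div_iff₀ M0]
  refine le_trans ?_ (add_le_add le_rfl h)
  have e2 : (Sg K s μ ρ y b - Sg K s ν ρ y b) * Mf K ν y = -(Sg K s μ ρ y b *
      (Mf K μ y - Mf K ν y)) + (Mf K μ y * Sg K s μ ρ y b - Mf K ν y * Sg K s ν ρ y b) := by ring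
  rw [← abs_of_pos M0, ← abs_mul, abs_of_pos M0, e2]
  refine (abs_add_le _ _).trans (add_le_add ?_ le_rfl)
  rw [abs_neg, abs_mul]
  exact mul_le_of_le_one_left (abs_nonneg _) (Sg_le hμ hρ hK y b)

/-- the majorant -/
def Wm (K s R : ℝ) (μ ν : Measure (ι → ℝ)) (y : ι → ℝ) : ℝ :=
  R * En K s μ ν y + 4 * |Mf K μ y - Mf K ν y| + 4 / R * Nn K s μ y + 2 / R * Nn K s ν y

lemma Wm_nonneg (hR : 0 < R) (y : ι → ℝ) : 0 ≤ Wm K s R μ ν y := by
  unfold Wm En Nn; positivity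

lemma Sg_diff (hμ : Cp μ) (hν : Cp ν) (hK : 0 ≤ K) (hs : 0 ≤ s) (hR : 0 < R) (y b : ι → ℝ) :
    |Sg K s μ μ y b - Sg K s ν ν y b| ≤
      min 2 (Wm K s R μ ν y / Mf K ν y) + min 2 (Wm K s R μ ν b / Mf K ν b) := by
  have M0 := Mf_pos hν hK
  have M1 := Mf_pos hμ hK
  have p : ∀ y, 0 ≤ min 2 (Wm K s R μ ν y / Mf K ν y) := fun y =>
    le_min zero_le_two (div_nonneg (Wm_nonneg hR y) (M0 y).le)
  have t : |Sg K s μ μ y b - Sg K s ν ν y b| ≤ 2 :=
    (abs_sub _ _).trans (by linarith [Sg_le (s := s) hμ hμ hK y b, Sg_le (s := s) hν hν hK y b])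
  rcases le_total 2 (Wm K s R μ ν y / Mf K ν y) with h1 | h1
  · rw [min_eq_left h1]; linarith [p b]
  rcases le_total 2 (Wm K s R μ ν b / Mf K ν b) with h2 | h2
  · rw [min_eq_left h2]; linarith [p y]
  rw [min_eq_right h1, min_eq_right h2]
  have key : ∀ y, Wm K s R μ ν y / Mf K ν y ≤ 2 →
      Nn K s μ y / Mf K μ y ≤ R ∧ Nn K s ν y / Mf K ν y ≤ R := fun y h => by
    rw [div_le_iff₀ (M0 y), Wm] at h
    have a1 : 0 ≤ R * En K s μ ν y := by unfold En; positivity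
    have a2 : 0 ≤ 4 / R * Nn K s μ y := by unfold Nn; positivity
    have a3 : 0 ≤ 2 / R * Nn K s ν y := by unfold Nn; positivity
    have a4 := abs_nonneg (Mf K μ y - Mf K ν y)
    have a5 := neg_abs_le (Mf K μ y - Mf K ν y)
    have b1 : 4 / R * Nn K s μ y ≤ 4 * Mf K μ y := by linarith
    have b2 : 2 / R * Nn K s ν y ≤ 2 * Mf K ν y := by linarith
    rw [div_mul_eq_mul_div, div_le_iff₀ hR] at b1 b2
    rw [div_le_iff₀ (M1 y), div_le_iff₀ (M0 y)]
    constructor <;> linarith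
  have fin : ∀ y r, r ≤ R → (|Mf K μ y - Mf K ν y| + En K s μ ν y * r) / Mf K ν y ≤
      Wm K s R μ ν y / Mf K ν y := fun y r h => by
    refine div_le_div_of_nonneg_right ?_ (M0 y).le
    have a1 : En K s μ ν y * r ≤ En K s μ ν y * R := mul_le_mul_of_nonneg_left h (sqrt_nonneg _)
    have a2 : 0 ≤ 4 / R * Nn K s μ y := by unfold Nn; positivity
    have a3 : 0 ≤ 2 / R * Nn K s ν y := by unfold Nn; positivity
    have a4 := abs_nonneg (Mf K μ y - Mf K ν y)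
    rw [Wm]; linarith
  refine (abs_sub_le _ (Sg K s ν μ y b) _).trans (add_le_add
    ((Sg_sub hμ hν hμ hK hs y b).trans (fin _ _ (key b h2).1)) ?_)
  rw [Sg_comm hν hμ hK, Sg_comm hν hν hK]
  exact (Sg_sub hμ hν hν hK hs b y).trans (fin _ _ (key y h1).2)

lemma mg_root {F : (ι → ℝ) → ℝ} (m : MG F) (hK : 0 ≤ K) (hs : 0 ≤ s) :
    (MG fun y => √(IK s fun y' => F (y + y') ^ 2)) ∧
      IK K (fun y => √(IK s fun y' => F (y + y') ^ 2)) ≤ √(IK (K + s) fun y => F y ^ 2) := by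
  have m1 := mg_IK (mg_sq m) s
  have n : ∀ y, 0 ≤ IK s fun y' => F (y + y') ^ 2 := fun y => IK_nonneg fun _ => sq_nonneg _
  have m2 : MG fun y => √(IK s fun y' => F (y + y') ^ 2) := by
    refine ((MG.const 1).add m1).of_le m1.meas.sqrt fun y => ?_
    rw [abs_of_nonneg (sqrt_nonneg _)]
    refine le_trans ?_ (le_abs_self _)
    have := n y
    exact Real.sqrt_le_iff.2 ⟨by positivity, by nlinarith⟩
  refine ⟨m2, Real.le_sqrt_of_sq_le ((IK_sq_le m2).trans_eq ?_)⟩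
  simp only [sq_sqrt (n _)]
  exact IK_IK hK hs (mg_sq m)

lemma Wm_int (hμ : Cp μ) (hν : Cp ν) (hK : 0 ≤ K) (hs : 0 ≤ s) (hR : 0 < R) {D X : ℝ}
    (hD : √(D2 (K + s) μ ν) ≤ D) (x1 : √(Xk (K + s) μ μ) ≤ X) (x2 : √(Xk (K + s) ν ν) ≤ X) :
    MG (Wm K s R μ ν) ∧ IK K (Wm K s R μ ν) ≤ (R + 4) * D + 6 / R * X := by
  have hs' := add_nonneg hK hs
  obtain ⟨m1, e1⟩ := mg_root ((mg_Mf hμ hs').sub (mg_Mf hν hs')) hK hs
  obtain ⟨m2, e2⟩ := mg_root (mg_Mf hμ hs') hK hs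
  obtain ⟨m3, e3⟩ := mg_root (mg_Mf hν hs') hK hs
  have m4 := ((mg_Mf hμ hK).sub (mg_Mf hν hK)).abs
  have e4 := IK_abs_le_sqrt (K := K) ((mg_Mf hμ hK).sub (mg_Mf hν hK))
  rw [← D2_eq hμ hν hs'] at e1
  rw [← Xk_eq hμ hs'] at e2
  rw [← Xk_eq hν hs'] at e3
  rw [← D2_eq hμ hν hK] at e4
  have e5 := Real.sqrt_le_sqrt (D2_mono hμ hν hK (le_add_of_nonneg_right hs))
  refine ⟨(((m1.const_mul R).add (m4.const_mul 4)).add (m2.const_mul _)).add (m3.const_mul _), ?_⟩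
  unfold Wm En Nn
  rw [IK_add (((m1.const_mul R).add (m4.const_mul 4)).add (m2.const_mul _)) (m3.const_mul _),
    IK_add ((m1.const_mul R).add (m4.const_mul 4)) (m2.const_mul _),
    IK_add (m1.const_mul R) (m4.const_mul 4), IK_const_mul, IK_const_mul, IK_const_mul,
    IK_const_mul]
  have f1 := mul_le_mul_of_nonneg_left (e1.trans hD) hR.le
  have f2 := mul_le_mul_of_nonneg_left (e2.trans x1) (by positivity : 0 ≤ 4 / R)
  have f3 := mul_le_mul_of_nonneg_left (e3.trans x2) (by positivity : 0 ≤ 2 / R)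
  have f4 : 6 / R * X = 4 / R * X + 2 / R * X := by ring
  linarith

/-! ### the observable -/

/-- the observable with the first output as a parameter -/
def Ps (μ : Measure (ι → ℝ)) (L K' K c : ℝ) (y : ι → ℝ) : (ι → ℝ) → ℝ :=
  Qs K c μ (Ay K' fun b => L * Sg K' L⁻¹ μ μ y b)

lemma bd_LS (hμ : Cp μ) (hK' : 0 ≤ K') (hL : 0 ≤ L) (y : ι → ℝ) :
    Bd L fun b => L * Sg K' s μ μ y b :=
  ⟨(msnd (Sg K' s μ μ) (meas_Sg hμ hμ hK') y).const_mul L, fun b => by
    rw [abs_mul, abs_of_nonneg hL]; exact mul_le_of_le_one_right hL (Sg_le hμ hμ hK' y b)⟩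

lemma psi_eq (hμ : Cp μ) (hL : 0 ≤ L) (hK' : 0 ≤ K') (hK : 0 ≤ K) (hc : 0 ≤ c) :
    psiS μ L K' K c = fun x => Ay K' (fun y => Ps μ L K' K c y x) x := by
  funext x
  rw [psiS, Tk_eq]
  congr 1
  funext y
  have := ((mkQ hμ hK hc).comp (mkA K')).swap (mkP hμ hK') (C := L)
    (F := fun a b => L * pm K' μ (fun a' => sin (L⁻¹ * (a ⬝ᵥ a'))) b)
    ((meas_in hμ hK').const_mul L) (fun a b => by
      rw [abs_mul, abs_of_nonneg hL]; exact mul_le_of_le_one_right hL (in_le hμ hK' a b)) x y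
  simp only [pm_const_mul] at this
  refine Eq.trans ?_ this
  simp only [Tk_eq, div_eq_inv_mul, funext (pm_const_mul L)]

lemma meas_Ps (hμ : Cp μ) (hL : 0 ≤ L) (hK' : 0 ≤ K') (hK : 0 ≤ K) (hc : 0 ≤ c) :
    Measurable fun p : (ι → ℝ) × (ι → ℝ) => Ps μ L K' K c p.1 p.2 :=
  ((mkQ hμ hK hc).comp (mkA K')).meas2 (F := fun y b => L * Sg K' L⁻¹ μ μ y b)
    ((meas_Sg hμ hμ hK').const_mul L) fun y => (bd_LS hμ hK' hL y).le

lemma cl_in (hμ : Cp μ) (hν : Cp ν) (hL : 0 ≤ L) (hK' : 0 ≤ K') (hK : 0 ≤ K) (y : ι → ℝ) :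
    Cl μ ν (K' + K) L (Ay K' fun b => L * Sg K' s μ μ y b) :=
  (Cl.ay hμ hν hK' (bd_LS hμ hK' hL y)).mono hμ hν hK' (le_add_of_nonneg_right hK)

lemma cl_psi (hμ : Cp μ) (hν : Cp ν) (hL : 0 ≤ L) (hK' : 0 ≤ K') (hK : 0 ≤ K) (hc : 0 ≤ c) :
    Cl μ ν (K' + (K' + K)) L (psiS μ L K' K c) := by
  rw [psi_eq hμ hL hK' hK hc]
  exact Cl.diag hμ hν hK' (add_nonneg hK' hK) (meas_Ps hμ hL hK' hK hc) fun y =>
    (cl_in hμ hν hL hK' hK y).qs hμ hν hK hc (le_add_of_nonneg_left hK')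

lemma rel_psi (hμ : Cp μ) (hν : Cp ν) (hL : 0 ≤ L) (hK' : 0 ≤ K') (hK : 0 ≤ K) (hc : 0 ≤ c)
    (hR : 0 < R) {D X : ℝ} (hD : √(D2 (K' + L⁻¹) μ ν) ≤ D) (hD' : √(D2 (K + (K' + K)) μ ν) ≤ D)
    (x1 : √(Xk (K' + L⁻¹) μ μ) ≤ X) (x2 : √(Xk (K' + L⁻¹) ν ν) ≤ X) :
    Rel ν (psiS μ L K' K c) (psiS ν L K' K c) ≤
      L * (c * (2 * D) + 2 * ((R + 4) * D + 6 / R * X)) := by
  have := hν.prob
  have hs : 0 ≤ L⁻¹ := inv_nonneg.2 hL
  obtain ⟨m, e⟩ := Wm_int hμ hν hK' hs hR hD x1 x2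
  obtain ⟨δ, d1, d2, d3⟩ := dfQ hμ hν hK hc (le_add_of_nonneg_left hK' : K ≤ K' + K)
  have b := (bd_min (f := fun y => Wm K' L⁻¹ R μ ν y / Mf K' ν y) (m.meas.div (measurable_Mf hν))
    fun y => div_nonneg (Wm_nonneg hR y) (Mf_pos hν hK' y).le).bm.const_mul L
  set u : (ι → ℝ) → ℝ := fun y => L * min 2 (Wm K' L⁻¹ R μ ν y / Mf K' ν y) with hu
  have t := (mkQ hν hK hc).comp (mkA K')
  have iu : ∫ x, Ay K' u x ∂ν ≤ L * ((R + 4) * D + 6 / R * X) := by
    rw [int_Ay hν hK' b.mg]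
    refine le_trans ?_ (mul_le_mul_of_nonneg_left e hL)
    rw [← IK_const_mul]
    refine IK_mono ((mg_Mf hν hK').mul b.mg) (m.const_mul L) fun y => ?_
    rw [hu, mul_left_comm]
    refine mul_le_mul_of_nonneg_left ((mul_le_mul_of_nonneg_left (min_le_right _ _)
      (Mf_pos hν hK' y).le).trans_eq ?_) hL
    rw [mul_div_cancel₀ _ (Mf_pos hν hK' y).ne']
  have bP : ∀ {μ : Measure (ι → ℝ)}, Cp μ → ∀ x, Bm fun y => Ps μ L K' K c y x := fun {μ} hμ x =>
    ⟨mfst (Ps μ L K' K c) (meas_Ps hμ hL hK' hK hc) x, L, fun y =>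
      (((mkQ hμ hK hc).comp (mkA K')).bd (bd_LS hμ hK' hL y)).le x⟩
  have key : ∀ x, |psiS μ L K' K c x - psiS ν L K' K c x| ≤
      L * δ x + Qs K c ν (Ay K' u) x + Ay K' u x := fun x => by
    rw [psi_eq hμ hL hK' hK hc, psi_eq hν hL hK' hK hc]
    refine ((mkA K').abs_sub_le (bP hμ x) (bP hν x)
      ((Bm.const (L * δ x + Qs K c ν (Ay K' u) x)).add b) (fun y => ?_) x).trans_eq ?_
    · refine (abs_sub_le _ _ _).trans ((add_le_add (d3 L _ (cl_in hμ hν hL hK' hK y) x)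
        (t.abs_sub_le (bd_LS hμ hK' hL y).bm (bd_LS hν hK' hL y).bm ((Bm.const (u y)).add b)
          (fun a => ?_) x)).trans_eq ?_)
      · rw [← mul_sub, abs_mul, abs_of_nonneg hL, hu, ← mul_add]
        exact mul_le_mul_of_nonneg_left (Sg_diff hμ hν hK' hs hR y a) hL
      · have e1 := t.add (Bm.const (u y)) b x
        have e2 := t.const (u y) x
        rw [e1, e2]; ring
    · rw [(mkA K').add (.const _) b, (mkA K').const]
  have i1 := int_bm (d1.bm.const_mul L) ν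
  have i2 := int_bm ((mkQ hν hK hc).bm (bm_Ay (K := K') b)) ν
  have i3 := int_bm (bm_Ay (K := K') b) ν
  refine (integral_mono (int_bm (bm_abs ((cl_psi hμ hν hL hK' hK hc).bd.bm.sub
    (cl_psi hν hν hL hK' hK hc).bd.bm)) ν) ((i1.add i2).add i3) key).trans ?_
  have i12 : Integrable (fun x => L * δ x + Qs K c ν (Ay K' u) x) ν := i1.add i2
  simp only [Pi.add_apply]
  rw [integral_add i12 i3, integral_add i1 i2, staQ hν hK hc _ (bm_Ay b), integral_const_mul]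
  have := mul_le_mul_of_nonneg_left (d2.trans (mul_le_mul_of_nonneg_left
    (mul_le_mul_of_nonneg_left hD' zero_le_two) hc)) hL
  linarith

end Crest.Agent.T157.Cq.S80

end
end

-- ▼ part T157/CqScl_80
section

/-!
# Row 157, part C: continuity of the scalars in the kernel discrepancy (helper80): `sclGlue`
-/

set_option autoImplicit false
set_option linter.unusedSectionVars false

noncomputable section

namespace Crest.Agent.T157.Cq.S80

open MeasureTheory ProbabilityTheory Matrix Filter Topology Finset Real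
open Crest.Agent.T157.E Crest.Agent.T157.Cond Crest.Agent.T157.SL Crest.Agent.T157.Rec
open Crest.Agent.T157.St Crest.Agent.T157.St.A87

variable {ι : Type*} [Fintype ι] [DecidableEq ι] {μ ν : Measure (ι → ℝ)} {P Y D X R η B C : ℝ}
  {f g v : (ι → ℝ) → ℝ}

/-! ### the mark -/

lemma cont_cut : Continuous cut := by unfold cut; fun_prop

lemma abs_cut (u : ℝ) : |cut u| ≤ 1 := by
  rw [cut, abs_of_nonneg (smoothTransition.nonneg _)]; exact smoothTransition.le_one _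

lemma cut_sub (u w : ℝ) : |cut u - cut w| ≤ 1 := by
  have := smoothTransition.nonneg (2 - u)
  have := smoothTransition.nonneg (2 - w)
  have := smoothTransition.le_one (2 - u)
  have := smoothTransition.le_one (2 - w)
  unfold cut
  exact abs_le.2 ⟨by linarith, by linarith⟩

lemma cut_zero {u : ℝ} (h : 2 ≤ u) : cut u = 0 := smoothTransition.zero_of_nonpos (by linarith)

lemma cut_near {ε : ℝ} (hε : 0 < ε) : ∃ C, 0 ≤ C ∧ ∀ a s r : ℝ, 0 ≤ a → 0 ≤ r →
    (∀ t, 0 ≤ t ^ 2 * a + t * s + r) → |cut a - cut (a + s + r)| ≤ ε + C * r := by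
  obtain ⟨δ, d0, hδ⟩ := Metric.uniformContinuousOn_iff.1
    ((isCompact_Icc (a := (0 : ℝ)) (b := 6)).uniformContinuousOn_of_continuous
      cont_cut.continuousOn) ε hε
  obtain ⟨u, u0, u1, u2⟩ : ∃ u : ℝ, 0 < u ∧ 10 * u ≤ δ ∧ 10 * u ≤ 1 :=
    ⟨min δ 1 / 10, by positivity, by linarith [min_le_left δ 1], by linarith [min_le_right δ 1]⟩
  refine ⟨(1 + u⁻¹) / u, by positivity, fun a s r ha hr h => ?_⟩
  rcases le_or_gt 1 ((1 + u⁻¹) / u * r) with h1 | h1
  · linarith [cut_sub a (a + s + r)]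
  refine le_trans ?_ (le_add_of_nonneg_right (by positivity))
  rw [div_mul_eq_mul_div, div_lt_one u0, add_mul, one_mul] at h1
  have e : r = u * (u⁻¹ * r) := by field_simp
  have p0 : 0 ≤ u⁻¹ * r := by positivity
  generalize u⁻¹ * r = p at *
  have b0 := h 1
  have b1 : 0 ≤ u * a + s + p := le_of_mul_le_mul_left (by have := h u; nlinarith) u0
  have b2 : 0 ≤ u * a - s + p := le_of_mul_le_mul_left (by have := h (-u); nlinarith) u0
  have b3 : u * a ≤ a / 10 := by nlinarith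
  rcases le_or_gt a 5 with h5 | h5
  · have b4 : u * a ≤ 5 * u := by nlinarith
    refine (hδ a ⟨ha, by linarith⟩ _ ⟨by linarith, by linarith⟩ ?_).le
    rw [Real.dist_eq, abs_lt]
    constructor <;> linarith
  · rw [cut_zero (by linarith), cut_zero (by linarith), sub_zero, abs_zero]; exact hε.le

lemma mg_q (M : Matrix ι ι ℝ) : MG fun z : ι → ℝ => z ⬝ᵥ M *ᵥ z :=
  MG.sum _ fun i _ => (mg_coord i).mul (MG.sum _ fun j _ => (mg_coord j).const_mul _)

lemma int_q (M : Matrix ι ι ℝ) : ∫ z, z ⬝ᵥ M *ᵥ z ∂gv ι = M.trace := by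
  have e : ∀ z : ι → ℝ, z ⬝ᵥ M *ᵥ z = ∑ i, ∑ j, M i j * (z i * z j) := fun z => by
    simp only [mulVec, dotProduct, mul_sum, mul_left_comm]
  have m := fun i j : ι => ((mg_coord i).mul (mg_coord j)).const_mul (M i j)
  simp only [e]
  rw [integral_finsetSum _ fun i _ => (MG.sum _ fun j _ => m i j).int]
  refine sum_congr rfl fun i _ => ?_
  rw [integral_finsetSum _ fun j _ => (m i j).int]
  simp only [integral_const_mul, int_coord_mul]
  simp

lemma bd_cut (M : Matrix ι ι ℝ) (l t : ℝ) :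
    Bd 1 fun y : ι → ℝ => cut (l * ((t • y) ⬝ᵥ M *ᵥ (t • y))) :=
  ⟨(cont_cut.comp (by unfold mulVec dotProduct; fun_prop)).measurable, fun _ => abs_cut _⟩

lemma mark (Z : ℝ) {ε : ℝ} (hε : 0 < ε) : ∃ K, 0 < K ∧
    ∀ (ι : Type) [Fintype ι] [DecidableEq ι] (M : Matrix ι ι ℝ) (l : ℝ), M.PosSemidef →
      M.trace ≤ Z → 0 ≤ l → l ≤ Z → ∃ ψ, Bd 1 ψ ∧
        ∀ x : ι → ℝ, |cut (l * (x ⬝ᵥ M *ᵥ x)) - Ay K ψ x| ≤ ε := by
  obtain ⟨C, C0, hC⟩ := cut_near (half_pos hε)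
  obtain ⟨K, K0, hK⟩ : ∃ K : ℝ, 0 < K ∧ C * (K⁻¹ * Z ^ 2) ≤ ε / 2 := by
    refine ⟨C * Z ^ 2 / (ε / 2) + 1, by positivity, ?_⟩
    rw [mul_left_comm, inv_mul_le_iff₀ (by positivity), add_mul, div_mul_cancel₀ _ (by positivity)]
    linarith
  refine ⟨K, K0, fun ι _ _ M l hM ht l0 l1 => ⟨_, bd_cut M l K⁻¹, fun x => ?_⟩⟩
  have q0 : ∀ y : ι → ℝ, 0 ≤ l * (y ⬝ᵥ M *ᵥ y) := fun y =>
    mul_nonneg l0 (by simpa using hM.dotProduct_mulVec_nonneg y)
  have key : ∀ z : ι → ℝ, |cut (l * (x ⬝ᵥ M *ᵥ x)) - cut (l * ((K⁻¹ • (K • x + √K • z)) ⬝ᵥ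
      M *ᵥ (K⁻¹ • (K • x + √K • z))))| ≤ ε / 2 + C * (K⁻¹ * l) * (z ⬝ᵥ M *ᵥ z) := fun z => by
    have e : K⁻¹ • (K • x + √K • z) = x + (K⁻¹ * √K) • z := by
      rw [smul_add, smul_smul, smul_smul, inv_mul_cancel₀ K0.ne', one_smul]
    have e2 : K⁻¹ * √K * (K⁻¹ * √K) = K⁻¹ := by
      rw [mul_mul_mul_comm, mul_self_sqrt K0.le, mul_assoc, inv_mul_cancel₀ K0.ne', mul_one]
    rw [e]
    set w := (K⁻¹ * √K) • z with hw
    have := hC _ (l * (x ⬝ᵥ M *ᵥ w + w ⬝ᵥ M *ᵥ x)) _ (q0 x) (q0 w) fun t =>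
      (q0 (t • x + w)).trans_eq (by
        simp only [mulVec_add, mulVec_smul, add_dotProduct, dotProduct_add, smul_dotProduct,
          dotProduct_smul, smul_eq_mul]; ring)
    convert this using 2
    · simp only [mulVec_add, add_dotProduct, dotProduct_add]; ring_nf
    · rw [hw, mulVec_smul, smul_dotProduct, dotProduct_smul, smul_eq_mul, smul_eq_mul,
        ← mul_assoc (K⁻¹ * √K), e2]; ring
  have i1 : Integrable (fun z : ι → ℝ => cut (l * ((K⁻¹ • (K • x + √K • z)) ⬝ᵥ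
      M *ᵥ (K⁻¹ • (K • x + √K • z))))) (gv ι) := int_bd ((bd_cut M l K⁻¹).meas.comp
    (by fun_prop : Measurable fun z : ι → ℝ => K • x + √K • z)) (fun _ => abs_cut _) (gv ι)
  have i2 := (mg_q M).int.const_mul (C * (K⁻¹ * l))
  have e0 : cut (l * (x ⬝ᵥ M *ᵥ x)) = ∫ _, cut (l * (x ⬝ᵥ M *ᵥ x)) ∂gv ι := by simp
  rw [e0, Ay, ← integral_sub (integrable_const _) i1]
  refine (abs_integral_le_integral_abs.trans (integral_mono ((integrable_const _).sub i1).abs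
    ((integrable_const (ε / 2)).add i2) key)).trans ?_
  simp only [Pi.add_apply]
  rw [integral_add (integrable_const _) i2, integral_const_mul, int_q]
  have h1 : l * M.trace ≤ Z ^ 2 := by nlinarith
  have h2 := mul_le_mul_of_nonneg_left (mul_le_mul_of_nonneg_left h1 (inv_nonneg.2 K0.le)) C0
  simp only [integral_const, probReal_univ, smul_eq_mul, one_mul, mul_assoc]
  linarith

/-! ### expressions -/

lemma one_le_sz : ∀ e : SE, e.Adm → 1 ≤ e.sz
  | .var, _ => le_rfl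
  | .psi _ _ _ _, h => by obtain ⟨a, b, c, d⟩ := h; simp only [SE.sz]; linarith
  | .const a, _ => le_add_of_nonneg_left (abs_nonneg a)
  | .add e e', h => by simp only [SE.sz]; linarith [one_le_sz e h.1, one_le_sz e' h.2]
  | .mul e e', h => by simp only [SE.sz]; linarith [one_le_sz e h.1, one_le_sz e' h.2]
  | .T K e, h => by simp only [SE.sz]; linarith [one_le_sz e h.2, h.1]
  | .Q K c e, h => by simp only [SE.sz]; linarith [one_le_sz e h.2.2, h.1, h.2.1]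

lemma two_exp {a b s : ℝ} (ha : a + 1 ≤ s) (hb : b + 1 ≤ s) : exp a + exp b ≤ exp s := by
  have h1 := exp_le_exp.2 (le_sub_iff_add_le.2 ha)
  have h2 := exp_le_exp.2 (le_sub_iff_add_le.2 hb)
  have h3 := mul_le_mul_of_nonneg_right (add_one_le_exp 1) (exp_pos (s - 1)).le
  rw [← exp_add, add_sub_cancel] at h3
  linarith

lemma le_exp {a s : ℝ} (h : a ≤ s) : a ≤ exp s := by linarith [add_one_le_exp s]

lemma mul_le_exp {a b s t : ℝ} (ha : a ≤ exp s) (hb : b ≤ exp t) (h0 : 0 ≤ b) :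
    a * b ≤ exp (s + t) := (mul_le_mul ha hb h0 (exp_pos _).le).trans_eq (exp_add _ _).symm

lemma ev_cl (hμ : Cp μ) (hν : Cp ν) (hP : 2 ≤ P) (hv : Cl μ ν P 1 v) :
    ∀ e : SE, e.Adm → Cl μ ν (P * e.sz) (exp e.sz) (e.ev μ v)
  | .var, _ => by simpa only [SE.sz, SE.ev, mul_one] using hv.monoB (le_exp le_rfl)
  | .psi L K' K c, h => by
    obtain ⟨a, b, c, d⟩ := h
    exact ((cl_psi hμ hν (by linarith) b.le c.le d).mono hμ hν (by positivity)
      (by simp only [SE.sz]; nlinarith)).monoB (le_exp (by simp only [SE.sz]; linarith))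
  | .const a, _ => ((Cl.const a).mono hμ hν le_rfl (by simp only [SE.sz]; positivity)).monoB
      (le_exp (le_add_of_nonneg_right zero_le_one))
  | .add e e', h => by
    have a := one_le_sz e h.1
    have b := one_le_sz e' h.2
    exact (((ev_cl hμ hν hP hv e h.1).mono hμ hν (by positivity)
      (by simp only [SE.sz]; nlinarith)).add hμ hν ((ev_cl hμ hν hP hv e' h.2).mono hμ hν
      (by positivity) (by simp only [SE.sz]; nlinarith))).monoB
      (two_exp (by simp only [SE.sz]; linarith) (by simp only [SE.sz]; linarith))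
  | .mul e e', h => by
    have a := one_le_sz e h.1
    have b := one_le_sz e' h.2
    exact (((ev_cl hμ hν hP hv e h.1).mul hμ hν (by positivity) (by positivity)
      (ev_cl hμ hν hP hv e' h.2)).mono hμ hν (by positivity)
      (by simp only [SE.sz]; nlinarith)).monoB ((exp_add _ _).ge.trans
      (exp_le_exp.2 (le_add_of_nonneg_right zero_le_one)))
  | .T K e, h => by
    have a := one_le_sz e h.2
    have b := h.1
    exact ((Cl.ay hμ hν b.le ((mkP hμ b.le).bd (ev_cl hμ hν hP hv e h.2).bd)).mono hμ hν b.le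
      (by simp only [SE.sz]; nlinarith)).monoB (exp_le_exp.2 (by simp only [SE.sz]; linarith))
  | .Q K c e, h => by
    have a := one_le_sz e h.2.2
    have b := h.1
    have d := h.2.1
    exact (((ev_cl hμ hν hP hv e h.2.2).mono hμ hν (by positivity)
      (by simp only [SE.sz]; nlinarith)).qs hμ hν b.le d
      (by simp only [SE.sz]; nlinarith)).monoB (exp_le_exp.2 (by simp only [SE.sz]; linarith))

lemma rel_self : Rel ν f f = 0 := by simp [Rel]

lemma rel_le (hν : Cp ν) {f' g' h h' : (ι → ℝ) → ℝ} (a : Bm f) (a' : Bm f') (b : Bm g) (b' : Bm g')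
    (d : Bm h) (d' : Bm h') (e : ∀ x, |h x - h' x| ≤ B * |f x - f' x| + C * |g x - g' x|) :
    Rel ν h h' ≤ B * Rel ν f f' + C * Rel ν g g' := by
  have := hν.prob
  have i1 := (int_bm (bm_abs (a.sub a')) ν).const_mul B
  have i2 := (int_bm (bm_abs (b.sub b')) ν).const_mul C
  refine (integral_mono (int_bm (bm_abs (d.sub d')) ν) (i1.add i2) e).trans_eq ?_
  simp only [Pi.add_apply]
  rw [integral_add i1 i2, integral_const_mul, integral_const_mul]; rfl

lemma ev_rel (hμ : Cp μ) (hν : Cp ν) (hP : 2 ≤ P) (hv : Cl μ ν P 1 v) (hv' : Cl ν ν P 1 v)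
    (hR : 0 < R) (hD : ∀ t, 0 ≤ t → t ≤ P * Y + Y + 1 → √(D2 t μ ν) ≤ D)
    (x1 : ∀ t, 0 ≤ t → t ≤ Y + 1 → √(Xk t μ μ) ≤ X) (x2 : ∀ t, 0 ≤ t → t ≤ Y + 1 → √(Xk t ν ν) ≤ X)
    (h0 : 0 ≤ η) (h1 : D ≤ η) (h2 : 2 * ((R + 4) * D + 6 / R * X) ≤ η) :
    ∀ e : SE, e.Adm → e.sz ≤ Y → Rel ν (e.ev μ v) (e.ev ν v) ≤ exp (3 * e.sz) * η
  | .var, _, _ => rel_self.trans_le (by positivity)
  | .const a, _, _ => rel_self.trans_le (by positivity)
  | .psi L K' K c, h, s => by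
    obtain ⟨a, b, c', d⟩ := h
    simp only [SE.sz] at s ⊢
    have l0 : 0 ≤ L := by linarith
    have l1 := inv_le_one_of_one_le₀ a
    have l2 := add_nonneg b.le (inv_nonneg.2 l0)
    have y0 : 2 * Y ≤ P * Y := by nlinarith
    refine (rel_psi hμ hν l0 b.le c'.le d hR (hD _ l2 (by linarith))
      (hD _ (by positivity) (by linarith)) (x1 _ l2 (by linarith)) (x2 _ l2 (by linarith))).trans ?_
    have e1 : c * (2 * D) ≤ c * (2 * η) := by gcongr
    have e2 := (mul_le_exp (le_exp (le_refl L)) (add_one_le_exp (2 * c)) (by positivity)).trans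
      (exp_le_exp.2 (by linarith : L + 2 * c ≤ 3 * (L + K' + K + c + 1)))
    refine le_trans ?_ (mul_le_mul_of_nonneg_right e2 h0)
    rw [mul_assoc]
    exact mul_le_mul_of_nonneg_left (by linarith) l0
  | .add e e', h, s => by
    have a := one_le_sz e h.1
    have b := one_le_sz e' h.2
    simp only [SE.sz] at s ⊢
    have r1 := ev_rel hμ hν hP hv hv' hR hD x1 x2 h0 h1 h2 e h.1 (by linarith)
    have r2 := ev_rel hμ hν hP hv hv' hR hD x1 x2 h0 h1 h2 e' h.2 (by linarith)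
    have c1 := (ev_cl hμ hν hP hv e h.1).bd.bm
    have c2 := (ev_cl hμ hν hP hv e' h.2).bd.bm
    have c3 := (ev_cl hν hν hP hv' e h.1).bd.bm
    have c4 := (ev_cl hν hν hP hv' e' h.2).bd.bm
    refine (rel_le hν (B := 1) (C := 1) c1 c3 c2 c4 (c1.add c2) (c3.add c4) fun x => ?_).trans ?_
    · rw [one_mul, one_mul, add_sub_add_comm]; exact abs_add_le _ _
    · have := mul_le_mul_of_nonneg_right (two_exp (s := 3 * (e.sz + e'.sz + 1))
        (a := 3 * e.sz) (b := 3 * e'.sz) (by linarith) (by linarith)) h0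
      linarith
  | .mul e e', h, s => by
    have a := one_le_sz e h.1
    have b := one_le_sz e' h.2
    simp only [SE.sz] at s ⊢
    have r1 := ev_rel hμ hν hP hv hv' hR hD x1 x2 h0 h1 h2 e h.1 (by linarith)
    have r2 := ev_rel hμ hν hP hv hv' hR hD x1 x2 h0 h1 h2 e' h.2 (by linarith)
    have c1 := (ev_cl hμ hν hP hv e h.1).bd
    have c2 := (ev_cl hμ hν hP hv e' h.2).bd
    have c3 := (ev_cl hν hν hP hv' e h.1).bd
    have c4 := (ev_cl hν hν hP hv' e' h.2).bd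
    refine (rel_le hν (B := exp e'.sz) (C := exp e.sz) c1.bm c3.bm c2.bm c4.bm (c1.bm.mul c2.bm)
      (c3.bm.mul c4.bm) fun x => ?_).trans ?_
    · have : e.ev μ v x * e'.ev μ v x - e.ev ν v x * e'.ev ν v x = e'.ev μ v x *
          (e.ev μ v x - e.ev ν v x) + e.ev ν v x * (e'.ev μ v x - e'.ev ν v x) := by ring
      rw [this]
      refine (abs_add_le _ _).trans ?_
      rw [abs_mul, abs_mul]
      exact add_le_add (mul_le_mul_of_nonneg_right (c2.le x) (abs_nonneg _))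
        (mul_le_mul_of_nonneg_right (c3.le x) (abs_nonneg _))
    · have := mul_le_mul_of_nonneg_right (two_exp (s := 3 * (e.sz + e'.sz + 1))
        (a := e'.sz + 3 * e.sz) (b := e.sz + 3 * e'.sz) (by linarith) (by linarith)) h0
      have t1 := mul_le_mul_of_nonneg_left r1 (exp_pos e'.sz).le
      have t2 := mul_le_mul_of_nonneg_left r2 (exp_pos e.sz).le
      rw [exp_add, exp_add] at this
      linarith
  | .T K e, h, s => by
    have a := one_le_sz e h.2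
    have b := h.1
    simp only [SE.sz] at s ⊢
    have r1 := ev_rel hμ hν hP hv hv' hR hD x1 x2 h0 h1 h2 e h.2 (by linarith)
    have k0 : 0 ≤ P * e.sz := by positivity
    have d := (hD (K + P * e.sz) (by positivity) (by nlinarith)).trans h1
    refine (((dfT hμ hν b.le k0).mono (mul_le_mul_of_nonneg_left d zero_le_two)).rel hν
      (mkT hμ b.le) (mkT hν b.le) (staT hν b.le) (ev_cl hμ hν hP hv e h.2)
      (ev_cl hν hν hP hv' e h.2).bd.bm).trans ?_
    have := mul_le_mul_of_nonneg_right (two_exp (s := 3 * (K + e.sz + 1))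
      (a := e.sz + 2) (b := 3 * e.sz) (by linarith) (by linarith)) h0
    have t1 := mul_le_mul_of_nonneg_right (mul_le_exp (le_refl (exp e.sz)) (le_exp (le_refl 2))
      zero_le_two) h0
    linarith
  | .Q K c e, h, s => by
    have a := one_le_sz e h.2.2
    have b := h.1
    have c0 := h.2.1
    simp only [SE.sz] at s ⊢
    have r1 := ev_rel hμ hν hP hv hv' hR hD x1 x2 h0 h1 h2 e h.2.2 (by linarith)
    have d := (hD (K + P * (K + e.sz)) (by positivity) (by nlinarith)).trans h1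
    refine (((dfQ hμ hν b.le c0 (k := P * (K + e.sz)) (by nlinarith)).mono
      (mul_le_mul_of_nonneg_left (mul_le_mul_of_nonneg_left d zero_le_two) c0)).rel hν
      (mkQ hμ b.le c0) (mkQ hν b.le c0) (staQ hν b.le c0) ((ev_cl hμ hν hP hv e h.2.2).mono hμ hν
      (by positivity) (by nlinarith)) (ev_cl hν hν hP hv' e h.2.2).bd.bm).trans ?_
    have := mul_le_mul_of_nonneg_right (two_exp (s := 3 * (K + c + e.sz + 1))
      (a := e.sz + 2 * c) (b := 3 * e.sz) (by linarith) (by linarith)) h0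
    have t1 := mul_le_mul_of_nonneg_right (mul_le_exp (le_refl (exp e.sz))
      (le_exp (le_refl (2 * c))) (by positivity)) h0
    linarith

lemma int_near {m a : (ι → ℝ) → ℝ} (hν : Cp ν) (bm : Bm m) (ba : Bm a) (bf : Bd C f)
    (h : ∀ x, |m x - a x| ≤ η) : |∫ x, m x * f x ∂ν - ∫ x, a x * f x ∂ν| ≤ C * η := by
  have := hν.prob
  rw [← integral_sub (int_bm (bm.mul bf.bm) _) (int_bm (ba.mul bf.bm) _)]
  refine abs_int_le (fun x => ?_) _
  rw [← sub_mul, abs_mul, mul_comm]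
  exact mul_le_mul (bf.le x) (h x) (abs_nonneg _) bf.nonneg

lemma int_rel {m : (ι → ℝ) → ℝ} (hν : Cp ν) (bm : Bd 1 m) (bf : Bm f) (bg : Bm g) :
    |∫ x, m x * f x ∂ν - ∫ x, m x * g x ∂ν| ≤ Rel ν f g := by
  have := hν.prob
  rw [← integral_sub (int_bm (bm.bm.mul bf) _) (int_bm (bm.bm.mul bg) _)]
  refine norm_integral_le_of_norm_le (f := fun x => m x * f x - m x * g x)
    (int_bm (bm_abs (bf.sub bg)) ν) (.of_forall fun x => ?_)
  rw [Real.norm_eq_abs, ← mul_sub, abs_mul]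
  exact mul_le_of_le_one_left (abs_nonneg _) (bm.le x)

theorem scl : SclStmt := by
  intro Z ε hε
  classical
  obtain ⟨η, h0, hη⟩ : ∃ η : ℝ, 0 < η ∧ exp (3 * |Z|) * η = ε / 4 :=
    ⟨ε / 4 / exp (3 * |Z|), by positivity, by field_simp⟩
  obtain ⟨K, K0, hK⟩ := mark Z h0
  have z0 := abs_nonneg Z
  have z1 := le_abs_self Z
  set Y := |Z|
  refine ⟨K + ((Y + 2) * Y + Y + 1), by positivity, fun B => ?_⟩
  set R := 24 * √B / η + 1 with hR
  have R0 : 0 < R := by positivity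
  set D := η / (4 * (R + 4)) with hD
  have D0 : 0 < D := by positivity
  have d1 : (R + 4) * D = η / 4 := by rw [hD]; field_simp
  have d2 : 6 / R * √B ≤ η / 4 := by
    rw [div_mul_eq_mul_div, div_le_iff₀ R0, hR, mul_add, div_mul_div_comm, mul_comm 4,
      mul_div_mul_left _ _ h0.ne']
    linarith
  have d3 : D ≤ η := by nlinarith
  refine ⟨D ^ 2, by positivity, fun ι _ μ ν hμ hν x1 x2 hd M l K₁ φ e hM ht l0 l1 k0 k1 hφ he s => ?_⟩
  obtain ⟨ψ, b, hψ⟩ := hK ι M l hM ht l0 l1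
  have hP : 2 ≤ Y + 2 := by linarith
  have yy : 0 ≤ (Y + 2) * Y := by positivity
  have hv : ∀ {μ : Measure (ι → ℝ)}, Cp μ → Cl μ ν (Y + 2) 1 (Sm K₁ φ) := fun hμ =>
    (Cl.ay hμ hν k0.le ⟨hφ.1, hφ.2⟩).mono hμ hν k0.le (by linarith)
  have hD' : ∀ t, 0 ≤ t → t ≤ K + ((Y + 2) * Y + Y + 1) → √(D2 t μ ν) ≤ D := fun t t0 t1 =>
    sqrt_le_iff.2 ⟨D0.le, (D2_mono hμ hν t0 t1).trans hd⟩
  have r := ev_rel hμ hν hP (hv hμ) (hv hν) R0 (Y := Y) (fun t t0 t1 => hD' t t0 (by linarith))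
    (fun t t0 t1 => sqrt_le_sqrt ((Xk_mono hμ t0 (by linarith)).trans x1))
    (fun t t0 t1 => sqrt_le_sqrt ((Xk_mono hν t0 (by linarith)).trans x2)) h0.le d3 (by linarith)
    e he (s.trans z1)
  have s1 := one_le_sz e he
  have c1 := ev_cl hμ hν hP (hv hμ) e he
  have c2 := ev_cl hν hν hP (hv hν) e he
  have bc : Bd 1 fun x : ι → ℝ => cut (l * (x ⬝ᵥ M *ᵥ x)) := by
    simpa only [one_smul] using bd_cut M l 1
  have ba := ((mkA K).bd b).bm
  have t1 := int_near hμ bc.bm ba c1.bd hψ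
  have t2 := ((Cl.ay hμ hν K0.le b).mul hμ hν K0.le (by positivity) c1).int_le hμ hν
    (by positivity)
  have t3 := int_near hν bc.bm ba c1.bd hψ
  have t4 := int_rel hν bc c1.bd.bm c2.bd.bm
  have u1 := mul_le_mul_of_nonneg_left ((hD' (K + (Y + 2) * e.sz) (by positivity)
    (by nlinarith)).trans d3) (exp_pos e.sz).le
  have u2 := mul_le_mul_of_nonneg_right (exp_le_exp.2 (by linarith : e.sz ≤ 3 * Y)) h0.le
  have u3 := mul_le_mul_of_nonneg_right (exp_le_exp.2 (by linarith : 3 * e.sz ≤ 3 * Y)) h0.le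
  rw [abs_le] at t1 t2 t3 t4 ⊢
  unfold mk
  constructor <;> linarith [t1.1, t1.2, t2.1, t2.2, t3.1, t3.2, t4.1, t4.2]

end Crest.Agent.T157.Cq.S80

namespace Crest.Agent.T157.Cq


theorem sclGlue : SclGlue := fun _ => S80.scl

end Crest.Agent.T157.Cq

end
end

-- ▼ part T157/CqSoft_44
section

/-!
# Row 157, part C (helper44): `Cq.SoftGlue`
-/

set_option autoImplicit false

noncomputable section

namespace Crest.Agent.T157.Cq

open MeasureTheory ProbabilityTheory Matrix Filter Topology Finset Real Set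
open scoped ENNReal
open Crest.Agent.T157.E Crest.Agent.T157.Cond Crest.Agent.T157.St Crest.Agent.T157.St.Sph38
open Crest.Agent.T157.Ed
open Crest.Agent.T157.Sp (piD)

namespace Soft44

variable {ι : Type} [Fintype ι]

lemma D2_le {θ t δ γ p B : ℝ} (hθ : 0 ≤ θ) (ht : 0 ≤ t) (hδ : 0 ≤ δ) (hγ : 0 ≤ γ) (hp : 0 ≤ p)
    (hu : θ * δ + 2 * γ ≤ 1) {ϖ ν : Measure (ι → ℝ)} [IsProbabilityMeasure ϖ]
    [IsProbabilityMeasure ν] (hν : ∀ᵐ x ∂ν, x ⬝ᵥ x = t) (hϖ : ∀ᵐ x ∂ϖ, x ⬝ᵥ x ≤ 2 * t)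
    (hB : Xk θ ν ν ≤ B) (h0 : ϖ (Wn t δ)ᶜ ≤ ENNReal.ofReal p)
    (h : ∀ G : (ι → ℝ) → ℝ≥0∞, Measurable G →
      ∫⁻ x in Wn t δ, G (sp t x) ∂ϖ ≤ ENNReal.ofReal (exp γ) * ∫⁻ x, G x ∂ν ∧
      ENNReal.ofReal (exp (-γ)) * ϖ (Wn t δ) * ∫⁻ x, G x ∂ν ≤ ∫⁻ x in Wn t δ, G (sp t x) ∂ϖ) :
    D2 θ ν ϖ ≤ B * (4 * (θ * δ + 2 * γ) + 2 * p) + 2 * p * exp (θ * (2 * t)) := by
  have hν' : ∀ᵐ x ∂ν, x ⬝ᵥ x ≤ 2 * t := hν.mono fun x hx => by linarith
  obtain ⟨a1, a2⟩ := XL_le hθ hν' hν'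
  obtain ⟨b1, b2⟩ := XL_le hθ hν' hϖ
  obtain ⟨-, c2⟩ := XL_le hθ hϖ hϖ
  have u := ker_up hθ ht hϖ fun G hG => (h G hG).1
  have l := ker_lo hθ ht hδ hν fun G hG => (h G hG).2
  have q0 : ϖ.real (Wn t δ)ᶜ ≤ p := ENNReal.toReal_le_of_le_ofReal hp h0
  have q1 : 1 - p ≤ ϖ.real (Wn t δ) := by
    rw [probReal_compl_eq_one_sub (meas_Wn t δ)] at q0; linarith
  have u' := ENNReal.toReal_mono (by finiteness) u
  have l' := ENNReal.toReal_mono b1 l
  rw [ENNReal.toReal_add (by finiteness) (by finiteness)] at u'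
  simp only [ENNReal.toReal_mul, ENNReal.toReal_ofReal (exp_pos _).le, ENNReal.toReal_ofNat] at u' l'
  rw [← measureReal_def] at u' l'
  rw [D2, b2, c2]
  rw [← a2] at u' l'
  set X := Xk θ ν ν
  have X0 : 0 ≤ X := by rw [a2]; exact ENNReal.toReal_nonneg
  set v := θ * δ + 2 * γ with hv
  have v0 : 0 ≤ v := by positivity
  have e1 : exp (θ * δ) * exp γ * exp γ ≤ 1 + 2 * v := by
    rw [← exp_add, ← exp_add, show θ * δ + γ + γ = v by rw [hv]; ring]
    have := abs_le.1 (abs_exp_sub_one_le (x := v) (by rwa [abs_of_nonneg v0]))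
    rw [abs_of_nonneg v0] at this
    linarith [this.2]
  have e2 : 1 - v - p ≤ exp (-(θ * δ)) * (exp (-γ) * ϖ.real (Wn t δ)) := by
    rw [← mul_assoc, ← exp_add]
    have f1 := add_one_le_exp (-(θ * δ) + -γ)
    have f2 : (1 - v) * (1 - p) ≤ (1 - v) * ϖ.real (Wn t δ) := by gcongr
    have f3 : (1 - v) * ϖ.real (Wn t δ) ≤ exp (-(θ * δ) + -γ) * ϖ.real (Wn t δ) :=
      mul_le_mul_of_nonneg_right (by linarith) measureReal_nonneg
    nlinarith [mul_nonneg v0 hp]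
  have e3 := mul_le_mul_of_nonneg_right e1 X0
  have e4 := mul_le_mul_of_nonneg_right e2 X0
  have e5 := mul_le_mul_of_nonneg_right q0 (exp_pos (θ * (2 * t))).le
  have e6 : X * (4 * v + 2 * p) ≤ B * (4 * v + 2 * p) := by gcongr
  linarith

lemma rep_pi (n : ℕ) (η : ℕ → ℝ) : ∃ a : ℝ≥0∞, ∀ F : (Fin n → ℝ) → ℝ≥0∞, Measurable F →
    ∫⁻ x, F x ∂piB n η = a * ∫⁻ x in {x : Fin n → ℝ | x ⬝ᵥ x ≤ 2 * sx n ^ 2},
      hp ((n : ℝ) ^ 2) (sx n ^ 2) (x ⬝ᵥ x) * ENNReal.ofReal (exp (Q (fun k : Fin n => η k) x)) * F x := by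
  set z := ∫ x : Fin n → ℝ, exp (-(1 / 2) * ∑ k : Fin n, η k * x k ^ 2 -
    (n : ℝ) ^ 2 / 8 * (x ⬝ᵥ x - sx n ^ 2) ^ 2) with hz
  have z0 : 0 ≤ z⁻¹ := inv_nonneg.2 (integral_nonneg fun _ => (exp_pos _).le)
  refine ⟨(piS n η {x | x ⬝ᵥ x ≤ 2 * sx n ^ 2})⁻¹ * ENNReal.ofReal z⁻¹, fun F hF => ?_⟩
  rw [piB, ProbabilityTheory.cond, lintegral_smul_measure, smul_eq_mul, mul_assoc]
  congr 1
  rw [piS, piD, setLIntegral_tilted, ← lintegral_const_mul _ (by fun_prop)]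
  refine lintegral_congr fun x => ?_
  rw [← hz, ← mul_assoc, hp, ← ENNReal.ofReal_mul (exp_pos _).le, ← ENNReal.ofReal_mul z0,
    ← exp_add, div_eq_inv_mul, Q]
  congr 4
  ring

lemma rep_nu (n : ℕ) (η : ℕ → ℝ) (t : ℝ) : ∃ b : ℝ≥0∞, ∀ G : (Fin n → ℝ) → ℝ≥0∞, Measurable G →
    ∫⁻ x, G x ∂nuD n η t =
      b * ∫⁻ x, ENNReal.ofReal (exp (Q (fun k : Fin n => η k) x)) * G x ∂sphR (Fin n) √t := by
  set z := ∫ x, exp (-(1 / 2) * ∑ k : Fin n, η k * x k ^ 2) ∂sphR (Fin n) √t with hz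
  have z0 : 0 ≤ z⁻¹ := inv_nonneg.2 (integral_nonneg fun _ => (exp_pos _).le)
  refine ⟨ENNReal.ofReal z⁻¹, fun G hG => ?_⟩
  rw [nuD, lintegral_tilted, ← lintegral_const_mul _ (by fun_prop)]
  refine lintegral_congr fun x => ?_
  rw [← hz, ← mul_assoc, ← ENNReal.ofReal_mul z0, div_eq_inv_mul, Q]

lemma tail (a c : ℝ) (ha : 0 < a) :
    Tendsto (fun s : ℝ => s ^ 8 * exp (-(a * s ^ 4) + c * s ^ 2)) atTop (𝓝 0) := by
  refine squeeze_zero' ((eventually_ge_atTop 0).mono fun s hs => by positivity) ?_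
    (tendsto_pow_mul_exp_neg_atTop_nhds_zero 8)
  filter_upwards [eventually_ge_atTop 1, eventually_ge_atTop ((|c| + 1) / a)] with s h1 h2
  have h3 : |c| + 1 ≤ a * s ^ 2 := by
    rw [div_le_iff₀ ha] at h2
    nlinarith [mul_nonneg ha.le (mul_nonneg (zero_le_one.trans h1) (sub_nonneg.2 h1))]
  have h4 := mul_le_mul_of_nonneg_right h3 (sq_nonneg s)
  have h5 := mul_le_mul_of_nonneg_right (le_abs_self c) (sq_nonneg s)
  gcongr
  nlinarith

end Soft44

open Soft44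

set_option maxHeartbeats 1600000 in
theorem softGlue : SoftGlue := by
  intro hS L C hL
  obtain ⟨w₁, H1⟩ := hS L C hL
  obtain ⟨w₂, H2⟩ := All.mgfStmt L C hL
  refine ⟨max w₁ w₂, fun w hw θ ε hθ hε => ?_⟩
  obtain ⟨D, -, -, H1⟩ := H1 w (le_of_max_le_left hw)
  obtain ⟨B₀, H2⟩ := H2 w (le_of_max_le_right hw)
  set B := max (B₀ * exp (B₀ * |θ| ^ (3 / 2 : ℝ))) 1 with hB
  have B1 : 1 ≤ B := le_max_right _ _
  set a := min 1 (ε / (8 * B)) / (θ + 22) with ha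
  have m0 : 0 < min 1 (ε / (8 * B)) := lt_min one_pos (by positivity)
  have a0 : 0 < a := by positivity
  have a1 : (θ + 22) * a = min 1 (ε / (8 * B)) := by rw [ha]; field_simp
  have a2 : (θ + 22) * a ≤ 1 := a1.trans_le (min_le_left _ _)
  have a3 : B * (4 * ((θ + 22) * a)) ≤ ε / 2 := by
    have : (θ + 22) * a ≤ ε / (8 * B) := a1.trans_le (min_le_right _ _)
    rw [le_div_iff₀ (by positivity)] at this
    linarith
  have T := ((tail (a ^ 2 / 16) (2 * θ) (by positivity)).const_mul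
    (4 * B * (6 * exp 1 * exp 1))).comp tendsto_sx
  rw [mul_zero] at T
  filter_upwards [H1 (1 / 2) (by norm_num), H2, eventually_ge_atTop 1,
    T.eventually_le_const (half_pos hε), tendsto_sx.eventually_ge_atTop (L + 96 / a)]
    with n h1 h2 hn h3 h4 η G
  have : Nonempty (Fin n) := ⟨⟨0, hn⟩⟩
  obtain ⟨_, h1⟩ := h1 η G
  set s := sx n with hs
  have s1 : 1 ≤ s := one_le_sx hn
  have s0 : 0 < s := by linarith
  have s6 : s ^ 6 = n := sx_pow_six n
  have t0 : 0 < s ^ 2 := by positivity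
  have s2 : s ≤ s ^ 2 := by nlinarith
  have s4 : s ^ 2 ≤ s ^ 4 := pow_le_pow_right₀ s1 (by norm_num)
  have as : 96 ≤ a * s := by
    have : 96 / a ≤ s := by linarith
    rwa [div_le_iff₀' a0] at this
  have sL : L ≤ s := by have : 0 < 96 / a := by positivity
                        linarith
  have mB : MeasurableSet {x : Fin n → ℝ | x ⬝ᵥ x ≤ 2 * s ^ 2} :=
    measurableSet_le (by fun_prop) measurable_const
  have hP : IsProbabilityMeasure (piB n η) := cond_isProbabilityMeasure fun h0 => by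
    rw [probReal_compl_eq_one_sub mB, measureReal_def, h0] at h1
    norm_num at h1
  have hae : ∀ᵐ x ∂piB n η, x ⬝ᵥ x ≤ 2 * s ^ 2 := ae_cond_mem mB
  refine ⟨⟨hP, _, hae⟩, ?_⟩
  have hν := ((All.lnkStmt n hn).2.1 η (s ^ 2) t0).1.prob
  have hν2 : ∀ᵐ x ∂nuD n η (s ^ 2), x ⬝ᵥ x = s ^ 2 := by
    have := sphR_ae (ι := Fin n) √(s ^ 2)
    rw [sq_sqrt t0.le] at this
    exact (tilted_absolutelyContinuous _ _).ae_le this
  obtain ⟨a', ha'⟩ := rep_pi n η
  obtain ⟨b', hb'⟩ := rep_nu n η (s ^ 2)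
  set δ := a / s ^ 4 with hδ
  have δ0 : 0 < δ := by positivity
  have δa : δ ≤ a := div_le_self a0.le (one_le_pow₀ s1)
  have aa : a ≤ 1 / 22 := by nlinarith [mul_nonneg hθ a0.le]
  have hM : ∀ k : Fin n, |η k| ≤ 11 * s ^ 4 := fun k => by
    have g1 := G.1.lo k k.2
    have g2 := G.2 k k.2
    have g3 : 0 ≤ ((k : ℕ) + 1 : ℝ) ^ (2 / 3 : ℝ) / 256 := by positivity
    rw [tau_eq] at g2
    rw [abs_le]; constructor <;> nlinarith
  have Mδ : 11 * s ^ 4 * δ = 11 * a := by rw [hδ]; field_simp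
  have c1 := cT_le (ι := Fin n) (κ := (n : ℝ) ^ 2) (M := 11 * s ^ 4) s0 (by positivity) δ0.le (by
    rw [Fintype.card_fin, ← s6, hδ]
    have e1 : (11 * s ^ 4 + s ^ 6 / s ^ 2) / 2 = 6 * s ^ 4 := by field_simp; ring
    have e2 : (s ^ 6) ^ 2 * (a / s ^ 4) / 16 = a * s ^ 4 * s ^ 4 / 16 := by field_simp
    have e3 : a * s ≤ a * s ^ 4 := by gcongr; linarith
    rw [e1, e2]
    nlinarith [mul_le_mul_of_nonneg_right (as.trans e3) (pow_pos s0 4).le])
  have l3 : 3 * s * (1 / (3 * s ^ 7)) = 1 / s ^ 6 := by field_simp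
  have c2 := cW_ge (ι := Fin n) (κ := (n : ℝ) ^ 2) (δ := δ) (l := 1 / (3 * s ^ 7)) s0
    (by positivity) (by positivity)
    ((div_le_one (by positivity)).2 (by nlinarith [one_le_pow₀ (n := 7) s1]) |>.trans s1)
    (by
      rw [l3, hδ, div_le_div_iff₀ (by positivity) (by positivity)]
      have : 1 ≤ a * s ^ 2 := by nlinarith
      nlinarith [mul_le_mul_of_nonneg_right this (pow_pos s0 4).le])
    (by rw [l3, ← s6]; field_simp; norm_num)
  set p := 6 * exp 1 * (s ^ 8 * exp (-(a ^ 2 / 16 * s ^ 4))) with hp'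
  have p0 : 0 ≤ p := by positivity
  have c3 : cH (Fin n) (HT ((n : ℝ) ^ 2) (s ^ 2) δ (11 * s ^ 4)) ≤
      ENNReal.ofReal p * cH (Fin n) (HW ((n : ℝ) ^ 2) (s ^ 2) δ) := by
    refine c1.trans (le_trans (le_of_eq ?_) (mul_le_mul_right c2 _))
    rw [mul_left_comm (ENNReal.ofReal p), ← ENNReal.ofReal_mul p0]
    congr 2
    rw [hp', ← s6, hδ, exp_neg 1, show (s ^ 6) ^ 2 * (a / s ^ 4) ^ 2 / 16 = a ^ 2 / 16 * s ^ 4 by
      field_simp]
    field_simp
    ring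
  obtain ⟨d1, d2⟩ := cmp (η := fun k : Fin n => η k) (by positivity) hM t0.le
    (by nlinarith) ha' hb' c3
  rw [Mδ] at d2
  have d3 : piB n η (Wn (s ^ 2) δ)ᶜ ≤ ENNReal.ofReal (p * exp 1) := by
    refine d1.trans ?_
    rw [ENNReal.ofReal_mul p0]
    gcongr
    linarith
  have θδ : θ * δ ≤ θ * a := by gcongr
  have key := D2_le (γ := 11 * a) (B := B) hθ t0.le δ0.le (by positivity) (by positivity)
    (by linarith) hν2 hae ((h2 η _ t0 G.1 θ).trans (le_max_left _ _)) d3 d2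
  set E := exp (θ * (2 * s ^ 2)) with hE
  have E1 : 1 ≤ E := one_le_exp (by positivity)
  have h5 : 4 * B * (p * exp 1 * E) ≤ ε / 2 := by
    refine le_trans (le_of_eq ?_) h3
    simp only [Function.comp, ← hs]
    rw [exp_add, hp', hE, show θ * (2 * s ^ 2) = 2 * θ * s ^ 2 by ring]
    ring
  have q0 : 0 ≤ p * exp 1 := by positivity
  have h6 : B * (p * exp 1) ≤ B * (p * exp 1 * E) :=
    mul_le_mul_of_nonneg_left (le_mul_of_one_le_right q0 E1) (by linarith)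
  have h7 : p * exp 1 * E ≤ B * (p * exp 1 * E) := le_mul_of_one_le_left (by positivity) B1
  have h8 : B * (θ * δ) ≤ B * (θ * a) := by gcongr
  linarith

end Crest.Agent.T157.Cq

end
end

-- ▼ part T157/CqStat_62

/-!
# Row 157, part C: statics of the soft sphere, `Cq.StatGlue` (helper62)
-/

set_option autoImplicit false

noncomputable section

namespace Crest.Agent.T157.Cq

open MeasureTheory ProbabilityTheory Matrix Filter Topology Finset Real
open scoped ENNReal NNReal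
open Crest.Agent.T157.E Crest.Agent.T157.St Crest.Agent.T157.St.Mgf32 Crest.Agent.T157.Ed
open Crest.Agent.T157.St.Den90
open Crest.Agent.T157.Sp (piD DomM DomStmt)
open Crest.Agent.T157.Sp.Dom15 Crest.Agent.T157.Sp.Low15

namespace Stat62

section gen
variable {ι : Type} [Fintype ι] [DecidableEq ι]

/-- lower tail of a block of Gaussian coordinates -/
theorem low_tail {c : ι → ℝ} (S : Finset ι) {b : ℝ} (hb : 0 < b) (hc : ∀ k ∈ S, b ≤ c k) :
    (gs 0 c).real {x | ∑ k ∈ S, x k ^ 2 ≤ S.card * b / 8} ≤ exp (-(S.card / 2 : ℝ)) := by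
  let H : (ι → ℝ) → ℝ := fun y => ∏ k ∈ S, exp (-(4 / b * y k ^ 2))
  have hb4 : 0 ≤ 4 / b := by positivity
  have hHc : Continuous H := by fun_prop
  have hH0 : ∀ y, 0 ≤ H y := fun y => prod_nonneg fun k _ => (exp_pos _).le
  have hH1 : ∀ y, ‖H y‖ ≤ 1 := fun y => by
    rw [Real.norm_of_nonneg (hH0 y)]
    exact prod_le_one (fun k _ => (exp_pos _).le) fun k _ => (le_abs_self _).trans (ex_le hb4 _)
  have hHi : Integrable H (gs 0 c) :=
    Integrable.of_bound hHc.aestronglyMeasurable 1 (ae_of_all _ hH1)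
  have hA : MeasurableSet {x : ι → ℝ | ∑ k ∈ S, x k ^ 2 ≤ S.card * b / 8} :=
    measurableSet_le (by fun_prop) measurable_const
  have h4 : (gs 0 c).real {x | ∑ k ∈ S, x k ^ 2 ≤ S.card * b / 8} ≤
      ∫ y, exp (S.card / 2) * H y ∂gs 0 c := by
    rw [← integral_indicator_one hA]
    refine integral_mono ((integrable_const 1).indicator hA) (hHi.const_mul _) fun y => ?_
    by_cases hy : y ∈ {x : ι → ℝ | ∑ k ∈ S, x k ^ 2 ≤ S.card * b / 8}
    · rw [Set.indicator_of_mem hy]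
      simp only [H, Pi.one_apply]
      rw [← exp_sum, ← exp_add, one_le_exp_iff, sum_neg_distrib, ← mul_sum]
      have h1 := mul_le_mul_of_nonneg_left (show ∑ k ∈ S, y k ^ 2 ≤ S.card * b / 8 from hy) hb4
      have h2 : 4 / b * (S.card * b / 8) = S.card / 2 := by field_simp; ring
      linarith
    · rw [Set.indicator_of_notMem hy]
      exact mul_nonneg (exp_pos _).le (hH0 y)
  have h5 : ∫ y, H y ∂gs 0 c ≤ exp (-(S.card : ℝ)) := by
    rw [gs, int_prod _ S fun _ y => exp (-(4 / b * y ^ 2))]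
    calc ∏ k ∈ S, ∫ a, exp (-(4 / b * a ^ 2)) ∂gaussianReal ((0 : ι → ℝ) k) (c k).toNNReal
        ≤ ∏ _k ∈ S, exp (-1) := by
          refine prod_le_prod (fun k _ => integral_nonneg fun a => (exp_pos _).le) fun k hk => ?_
          rw [Pi.zero_apply, lap (hb.le.trans (hc k hk)) hb4, Real.exp_neg]
          refine inv_anti₀ (exp_pos _) (Real.le_sqrt_of_sq_le ?_)
          have h1 : 4 ≤ 4 / b * c k := by
            rw [div_mul_eq_mul_div, le_div_iff₀ hb]; linarith [hc k hk]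
          have h2 := exp_one_lt_three
          nlinarith [exp_pos 1]
      _ = _ := by rw [prod_const, ← exp_nat_mul]; congr 1; ring
  rw [integral_const_mul] at h4
  refine h4.trans ((mul_le_mul_of_nonneg_left h5 (exp_pos _).le).trans_eq ?_)
  rw [← exp_add]; congr 1; ring

omit [DecidableEq ι] in
/-- Markov's inequality for a diagonal quadratic form -/
theorem markov {c d : ι → ℝ} (hc : ∀ k, 0 < c k) (hd : ∀ k, 0 ≤ d k) (S : Finset ι) {r : ℝ}
    (hr : 0 < r) : (gs 0 c).real {x | r ≤ ∑ k ∈ S, d k * x k ^ 2} ≤ (∑ k, d k * c k) / r := by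
  have hmp : ∀ l, MeasurePreserving (fun x : ι → ℝ => x l) (gs 0 c)
      (gaussianReal ((0 : ι → ℝ) l) (c l).toNNReal) := fun l => measurePreserving_eval _ l
  have hi : ∀ l, Integrable (fun x : ι → ℝ => d l * x l ^ 2) (gs 0 c) := fun l =>
    (((memLp_sq _).comp_measurePreserving (hmp l)).integrable (by simp)).const_mul _
  have hE : ∫ x, ∑ l ∈ S, d l * x l ^ 2 ∂gs 0 c = ∑ l ∈ S, d l * c l := by
    rw [integral_finsetSum _ fun l _ => hi l]
    refine Finset.sum_congr rfl fun l _ => ?_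
    have := (hmp l).hasLaw.integral_comp (f := fun x : ℝ => x ^ 2) (by fun_prop)
    simp only [Function.comp_def] at this
    rw [integral_const_mul, this, Pi.zero_apply, int_sq, Real.coe_toNNReal _ (hc l).le]
  have h := mul_meas_ge_le_integral_of_nonneg (μ := gs 0 c)
    (f := fun x => ∑ l ∈ S, d l * x l ^ 2)
    (ae_of_all _ fun x => sum_nonneg fun l _ => mul_nonneg (hd l) (sq_nonneg _))
    (integrable_finsetSum _ fun l _ => hi l) r
  rw [hE] at h
  rw [le_div_iff₀ hr, mul_comm]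
  exact h.trans (sum_le_sum_of_subset_of_nonneg (subset_univ _) fun k _ _ =>
    mul_nonneg (hd k) (hc k).le)

omit [DecidableEq ι] in
theorem int_exp (c : ι → ℝ) {κ : ℝ} (hκ : 0 ≤ κ) (s : ℝ) :
    Integrable (fun x : ι → ℝ => exp (-(κ / 8) * (x ⬝ᵥ x - s) ^ 2)) (gs 0 c) := by
  have := Sph38.continuous_dot (ι := ι)
  refine Integrable.of_bound (Continuous.aestronglyMeasurable (by fun_prop)) 1
    (ae_of_all _ fun x => ?_)
  rw [Real.norm_of_nonneg (exp_pos _).le]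
  exact exp_le_one_iff.2
    (mul_nonpos_of_nonpos_of_nonneg (neg_nonpos.2 (by positivity)) (sq_nonneg _))

/-- upper bound of the normalisation -/
theorem Z_le {a : ι → ℝ} (ha : ∀ k, 0 < a k) {i j : ι} (hij : i ≠ j) {ε : ℝ} (hε : 0 < ε) (s : ℝ) :
    ∫ x, exp (-((ε ^ 2)⁻¹ / 8) * (x ⬝ᵥ x - s) ^ 2) ∂gs 0 (fun k => 1 / a k) ≤
      (∑' m, wt m) * √(a i * a j) * ε := by
  have h := num_le ha hij le_rfl hε s (G := fun _ => 1) measurable_const fun _ _ _ => rfl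
  simp only [mul_one, lintegral_const, measure_univ] at h
  have hZ0 : 0 ≤ ∑' m, wt m := tsum_nonneg wt_nonneg
  rw [← ofReal_integral_eq_lintegral_ofReal (int_exp _ (by positivity) s)
    (ae_of_all _ fun x => (exp_pos _).le)] at h
  exact (ENNReal.ofReal_le_ofReal_iff (by positivity)).1 h

/-- lower bound of the numerator -/
theorem N_ge {a : ι → ℝ} (ha : ∀ k, 0 < a k) {i j : ι} (hij : i ≠ j) {ε s M b : ℝ} (hε : 0 < ε)
    (hε1 : ε ≤ 1) (hM : 0 ≤ M) (hi : a i ≤ b) (hj : a j ≤ b) {F E : Set (ι → ℝ)}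
    (hF : MeasurableSet F) (hE : MeasurableSet E)
    (hinv : ∀ x u v, Function.update (Function.update x i u) j v ∈ F ↔ x ∈ F)
    (hF2 : ∀ x ∈ F, s - M ≤ x ⬝ᵥ x - x i ^ 2 - x j ^ 2 ∧ x ⬝ᵥ x - x i ^ 2 - x j ^ 2 ≤ s)
    (hp : 1 / 2 ≤ (gs 0 fun k => 1 / a k).real F) (hFE : F ∩ shell s ε ⊆ E) :
    exp (-(1 / 8)) / 4 * exp (-((M + 1) * b / 2)) * √(a i * a j) * ε ≤
      ∫ x in E, exp (-((ε ^ 2)⁻¹ / 8) * (x ⬝ᵥ x - s) ^ 2) ∂gs 0 (fun k => 1 / a k) := by
  have hb : 0 < b := (ha i).trans_le hi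
  have h := (twoStmt ι 0 (fun k => 1 / a k) (fun k => one_div_pos.2 (ha k)) i j hij
    (F.indicator 1) (measurable_one.indicator hF) (fun x u v => by
      by_cases hx : x ∈ F
      · rw [Set.indicator_of_mem hx, Set.indicator_of_mem ((hinv x u v).2 hx)]; rfl
      · rw [Set.indicator_of_notMem hx, Set.indicator_of_notMem fun h => hx ((hinv x u v).1 h)])
    s ε hε.le).2 rfl rfl M
  rw [lintegral_indicator_one hF, lintegral_indicator_one hF, Measure.restrict_apply hF,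
    Measure.restrict_apply hF, Set.inter_eq_left.2 (show F ⊆ {x | s - M ≤ x ⬝ᵥ x - x i ^ 2 - x j ^ 2 ∧
      x ⬝ᵥ x - x i ^ 2 - x j ^ 2 ≤ s} from hF2), two_c (ha i) (ha j)] at h
  have h1 : √(a i * a j) / 2 * ε * exp (-((M + 1) * b / 2)) * (1 / 2) ≤
      (gs 0 fun k => 1 / a k).real (F ∩ shell s ε) := by
    have h2 : (M + ε) / (2 * min (1 / a i) (1 / a j)) ≤ (M + 1) * b / 2 := by
      have h3 : 1 / b ≤ min (1 / a i) (1 / a j) :=
        le_min (one_div_le_one_div_of_le (ha i) hi) (one_div_le_one_div_of_le (ha j) hj)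
      calc _ ≤ (M + 1) / (2 * (1 / b)) := by gcongr
        _ = _ := by field_simp
    refine (ENNReal.ofReal_le_iff_le_toReal (measure_ne_top _ _)).1 (le_trans ?_ h)
    rw [ENNReal.ofReal_mul (by positivity)]
    refine mul_le_mul' (ENNReal.ofReal_le_ofReal (by gcongr)) ?_
    exact (ENNReal.ofReal_le_iff_le_toReal (measure_ne_top _ _)).2 hp
  have hint := int_exp (fun k => 1 / a k) (κ := (ε ^ 2)⁻¹) (by positivity) s
  have hm : MeasurableSet (F ∩ shell s ε) := hF.inter (meas_shell _ _)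
  calc _ = exp (-(1 / 8)) * (√(a i * a j) / 2 * ε * exp (-((M + 1) * b / 2)) * (1 / 2)) := by ring
    _ ≤ exp (-(1 / 8)) * (gs 0 fun k => 1 / a k).real (F ∩ shell s ε) := by gcongr
    _ = ∫ _x in F ∩ shell s ε, exp (-(1 / 8)) ∂gs 0 (fun k => 1 / a k) := by
        rw [setIntegral_const, smul_eq_mul, mul_comm]
    _ ≤ ∫ x in F ∩ shell s ε, exp (-((ε ^ 2)⁻¹ / 8) * (x ⬝ᵥ x - s) ^ 2)
          ∂gs 0 (fun k => 1 / a k) := by
        refine setIntegral_mono_on (integrable_const _).integrableOn hint.integrableOn hm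
          fun x hx => exp_le_exp.2 ?_
        obtain ⟨-, h3, h4⟩ := hx
        have h5 : (x ⬝ᵥ x - s) ^ 2 ≤ ε ^ 2 := sq_le_sq' (by linarith) (by linarith)
        have h6 : (ε ^ 2)⁻¹ * (x ⬝ᵥ x - s) ^ 2 ≤ 1 := by
          rw [inv_mul_le_iff₀ (by positivity)]; linarith
        linarith
    _ ≤ _ := setIntegral_mono_set hint.integrableOn (ae_of_all _ fun x => (exp_pos _).le)
        hFE.eventuallyLE

end gen

/-- the soft sphere as a tilted Gaussian law -/
theorem piD_real {n : ℕ} {η : ℕ → ℝ} (t : ℝ) {κ u : ℝ} (hκ : 0 < κ) (ha : ∀ k : Fin n, 0 < u + η k)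
    {E : Set (Fin n → ℝ)} (hE : MeasurableSet E) :
    (piD n η t κ).real E =
      (∫ x in E, exp (-(κ / 8) * (x ⬝ᵥ x - (t + 2 * u / κ)) ^ 2) ∂gs 0 (cw n η u)) /
        ∫ x, exp (-(κ / 8) * (x ⬝ᵥ x - (t + 2 * u / κ)) ^ 2) ∂gs 0 (cw n η u) := by
  obtain ⟨hint, hgs⟩ := gs_tilted (c := cw n η u) fun k => one_div_pos.2 (ha k)
  have hpi : piD n η t κ =
      (gs 0 (cw n η u)).tilted fun x => -(κ / 8) * (x ⬝ᵥ x - (t + 2 * u / κ)) ^ 2 := by
    rw [hgs, tilted_tilted hint, piD, ← tilted_add_const _ _ (-(u * t / 2 + u ^ 2 / (2 * κ)))]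
    congr 1
    funext x
    have h1 : ∑ k, x k ^ 2 / cw n η u k = u * (x ⬝ᵥ x) + ∑ k : Fin n, η k * x k ^ 2 := by
      rw [dotProduct, mul_sum, ← sum_add_distrib]
      refine sum_congr rfl fun k _ => ?_
      rw [cw, div_div_eq_mul_div, div_one]; ring
    simp only [Pi.add_apply]
    rw [h1]
    field_simp
    ring
  rw [hpi, measureReal_def, tilted_apply_eq_ofReal_integral' _ hE, integral_div,
    ENNReal.toReal_ofReal (div_nonneg (integral_nonneg fun x => (exp_pos _).le)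
      (integral_nonneg fun x => (exp_pos _).le))]

/-- the sum of the squared lower bounds -/
def S0 : ℝ := ∑' k : ℕ, (256 / ((k : ℝ) + 1) ^ (2 / 3 : ℝ)) ^ 2

theorem sum_le_S0 (n : ℕ) : ∑ l : Fin n, (256 / ((l : ℝ) + 1) ^ (2 / 3 : ℝ)) ^ 2 ≤ S0 :=
  (Fin.sum_univ_eq_sum_range (fun k : ℕ => (256 / ((k : ℝ) + 1) ^ (2 / 3 : ℝ)) ^ 2) n).trans_le
    (summ.sum_le_tsum _ fun _ _ => sq_nonneg _)

theorem S0_nonneg : 0 ≤ S0 := tsum_nonneg fun _ => sq_nonneg _

theorem Xd_eq (n : ℕ) (η : ℕ → ℝ) (x : Fin n → ℝ) :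
    Xd n η x = ∑ k : Fin n, 1 / (η k ^ 2 + 1) * x k ^ 2 := by
  simp only [Xd, fd, dotProduct, mulVec_diagonal]
  exact sum_congr rfl fun k _ => by ring

theorem sum_d {n : ℕ} {η : ℕ → ℝ} {t L w C : ℝ} (G : Gd n η t L w C) (hL : 0 ≤ L) :
    ∑ k : Fin n, 1 / (η k ^ 2 + 1) ≤ 2 * (L + 1) ^ 2 * S0 := by
  refine le_trans ?_ (mul_le_mul_of_nonneg_left (sum_le_S0 n) (by positivity))
  rw [mul_sum]
  refine sum_le_sum fun k _ => ?_
  have h1 := G.lo k k.2
  set y := ((k : ℝ) + 1) ^ (2 / 3 : ℝ) with hy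
  have hy0 : 0 < y := by positivity
  have h2 : y / 256 ≤ (L + 1) * (|η k| + 1) := by
    nlinarith [le_abs_self (η k), abs_nonneg (η k), mul_nonneg hL (abs_nonneg (η k))]
  have h3 : (y / 256) ^ 2 ≤ (L + 1) ^ 2 * (2 * (η k ^ 2 + 1)) := by
    refine (pow_le_pow_left₀ (by positivity) h2 2).trans ?_
    rw [mul_pow]
    refine mul_le_mul_of_nonneg_left ?_ (sq_nonneg _)
    nlinarith [sq_abs (η k), sq_nonneg (|η k| - 1)]
  rw [div_le_iff₀ (by positivity)]
  calc (1 : ℝ) = (y / 256) ^ 2 * (256 / y) ^ 2 := by field_simp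
    _ ≤ (L + 1) ^ 2 * (2 * (η k ^ 2 + 1)) * (256 / y) ^ 2 := by gcongr
    _ = _ := by ring

/-- two modes at height `u` -/
theorem modes {L u : ℝ} (hL : 0 ≤ L) (hu : 2 * L + 1 ≤ u) : ∃ m : ℕ, ∀ k : ℕ, m ≤ k → k ≤ m + 1 →
    u ≤ ((k : ℝ) + 1) ^ (2 / 3 : ℝ) / 256 - L ∧
      u + (60 * ((k : ℝ) + 1) ^ (2 / 3 : ℝ) + L) ≤ 10 ^ 5 * u := by
  set y := 256 * (u + L) with hy
  have hy1 : 1 ≤ y := by linarith
  have hP : 1 ≤ y ^ (3 / 2 : ℝ) := one_le_rpow hy1 (by norm_num)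
  have e : (y ^ (3 / 2 : ℝ)) ^ (2 / 3 : ℝ) = y := by
    rw [← rpow_mul (by linarith)]; norm_num
  refine ⟨⌈y ^ (3 / 2 : ℝ)⌉₊, fun k h1 h2 => ⟨?_, ?_⟩⟩
  · have h3 : y ^ (3 / 2 : ℝ) ≤ (k : ℝ) + 1 := by
      have : ((⌈y ^ (3 / 2 : ℝ)⌉₊ : ℕ) : ℝ) ≤ k := by exact_mod_cast h1
      linarith [Nat.le_ceil (y ^ (3 / 2 : ℝ))]
    have h4 := rpow_le_rpow (by linarith) h3 (show (0 : ℝ) ≤ 2 / 3 by norm_num)
    rw [e] at h4
    linarith
  · have h3 : (k : ℝ) + 1 ≤ 4 * y ^ (3 / 2 : ℝ) := by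
      have : (k : ℝ) ≤ (⌈y ^ (3 / 2 : ℝ)⌉₊ : ℕ) + 1 := by exact_mod_cast h2
      linarith [Nat.ceil_lt_add_one (show 0 ≤ y ^ (3 / 2 : ℝ) by linarith)]
    have h4 := rpow_le_rpow (by positivity) h3 (show (0 : ℝ) ≤ 2 / 3 by norm_num)
    rw [mul_rpow (by norm_num) (by linarith), e] at h4
    have h5 : (4 : ℝ) ^ (2 / 3 : ℝ) ≤ 4 := by
      have := rpow_le_rpow_of_exponent_le (x := 4) (by norm_num) (show (2 / 3 : ℝ) ≤ 1 by norm_num)
      rwa [rpow_one] at this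
    have h6 : (4 : ℝ) ^ (2 / 3 : ℝ) * y ≤ 4 * y := by gcongr
    linarith

theorem rpow32 {a : ℝ} (ha : 0 < a) : a ^ (-(3 / 2) : ℝ) = (a * √a)⁻¹ := by
  rw [rpow_neg ha.le, show (3 / 2 : ℝ) = 1 + 1 / 2 by norm_num, rpow_add ha, rpow_one,
    sqrt_eq_rpow]

set_option maxHeartbeats 1600000 in
/-- the change of measure -/
theorem key {L C w : ℝ} (hL : 0 ≤ L) (w1 : 2 * L + 1 ≤ w) (w3 : 64 * k4 * S0 ≤ w) :
    ∃ A D : ℝ, 0 < A ∧ 0 ≤ D ∧ ∀ a : ℝ, 0 < a → a ≤ 1 → ∀ᶠ n : ℕ in atTop, ∀ (η : ℕ → ℝ) (t : ℝ),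
      Gd n η t L w C → ∃ R : ℝ, 1 ≤ R ∧ (∀ k : Fin n, 0 < A / a + η k) ∧
        exp (-(D * a ^ (-(3 / 2) : ℝ))) * R * (n : ℝ)⁻¹ ≤ ∫ x in {x | Xd n η x ≤ a},
          exp (-((n : ℝ) ^ 2 / 8) * (x ⬝ᵥ x - (t + 2 * (A / a) / (n : ℝ) ^ 2)) ^ 2)
            ∂gs 0 (cw n η (A / a)) ∧
        ∫ x, exp (-((n : ℝ) ^ 2 / 8) * (x ⬝ᵥ x - (t + 2 * (A / a) / (n : ℝ) ^ 2)) ^ 2)
            ∂gs 0 (cw n η (A / a)) ≤ (∑' m, wt m) * R * (n : ℝ)⁻¹ := by
  have hS := S0_nonneg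
  have w0 : 0 < w := by linarith
  set A := w + 16 * (2 * (L + 1) ^ 2 * S0) + 2 * (|C| + 5) with hA
  have hZ0 : 0 ≤ 2 * (L + 1) ^ 2 * S0 := by positivity
  have hC0 : 0 ≤ |C| := abs_nonneg C
  have hA0 : 0 < A := by linarith
  refine ⟨A, (|C| + 5) * 10 ^ 5 / 2 * (A * √A) + 4, hA0, by positivity, fun a ha ha1 => ?_⟩
  set u := A / a with hu
  have huA : A ≤ u := by rw [hu, le_div_iff₀ ha]; nlinarith
  have hua : u * a = A := by rw [hu]; field_simp
  have huw : w ≤ u := by linarith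
  have hu1 : 1 ≤ u := by linarith
  have hu0 : 0 < u := by linarith
  obtain ⟨m, hm⟩ := modes hL (w1.trans huw)
  filter_upwards [eventually_ge_atTop (8 * (m + 2)),
    (tendsto_natCast_atTop_atTop (R := ℝ)).eventually_ge_atTop (2 * u)] with n hn hnu η t G
  have hn1 : (1 : ℝ) ≤ n := by linarith
  have hn0 : (0 : ℝ) < n := by linarith
  let i : Fin n := ⟨m, by omega⟩
  let j : Fin n := ⟨m + 1, by omega⟩
  have hij : i ≠ j := by simp [i, j, Fin.ext_iff]
  have hp : ∀ l : Fin n, 0 < ((l : ℝ) + 1) ^ (2 / 3 : ℝ) / 256 := fun l => by positivity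
  have hlo : ∀ l : Fin n, ((l : ℝ) + 1) ^ (2 / 3 : ℝ) / 256 - L ≤ η l := fun l => G.lo l l.2
  have hpos : ∀ l : Fin n, 0 < u + η l := fun l => by linarith [hp l, hlo l]
  have hposw : ∀ l : Fin n, 0 < w + η l := fun l => by linarith [hp l, hlo l]
  have hi1 : u ≤ η i := (hm m le_rfl (by omega)).1.trans (hlo i)
  have hj1 : u ≤ η j := (hm (m + 1) (by omega) le_rfl).1.trans (hlo j)
  have hi2 : u + η i ≤ 10 ^ 5 * u :=
    le_trans (by linarith [G.hi m (by omega)]) (hm m le_rfl (by omega)).2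
  have hj2 : u + η j ≤ 10 ^ 5 * u :=
    le_trans (by linarith [G.hi (m + 1) (by omega)]) (hm (m + 1) (by omega) le_rfl).2
  have hε : (0 : ℝ) < (n : ℝ)⁻¹ := by positivity
  have hε1 : (n : ℝ)⁻¹ ≤ 1 := inv_le_one_of_one_le₀ hn1
  have hε2 : (((n : ℝ)⁻¹) ^ 2)⁻¹ = (n : ℝ) ^ 2 := by rw [inv_pow, inv_inv]
  set s := t + 2 * u / (n : ℝ) ^ 2 with hs
  have hs0 : t ≤ s := le_add_of_nonneg_right (by positivity)
  have hs1 : s ≤ t + 1 := by
    have : 2 * u / (n : ℝ) ^ 2 ≤ 1 := by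
      rw [div_le_one (by positivity), sq]; exact hnu.trans (le_mul_of_one_le_left hn0.le hn1)
    linarith
  refine ⟨√((u + η i) * (u + η j)), one_le_sqrt.2 (one_le_mul_of_one_le_of_one_le (by linarith) (by linarith)), hpos, ?_, ?_⟩
  swap
  · have h := Z_le (a := fun k : Fin n => u + η k) hpos hij hε s
    rw [hε2] at h
    exact h
  set c := cw n η u with hc
  have hc0 : ∀ l, 0 < c l := fun l => one_div_pos.2 (hpos l)
  set S := ((univ : Finset (Fin n)).erase i).erase j with hSd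
  have split : ∀ f : Fin n → ℝ, ∑ l, f l = f i + f j + ∑ l ∈ S, f l := fun f => by
    rw [← Finset.add_sum_erase _ _ (mem_univ i),
      ← Finset.add_sum_erase (univ.erase i) _ (a := j) (by simp [hij.symm]), add_assoc]
  set d : Fin n → ℝ := fun k => 1 / (η k ^ 2 + 1) with hd
  have hd0 : ∀ k, 0 ≤ d k := fun k => by positivity
  have hsw : 0 < √w := sqrt_pos.2 w0
  have hsu : 1 ≤ √u := one_le_sqrt.2 hu1
  have hswu : √w ≤ √u := sqrt_le_sqrt huw
  have hsuu : √u ≤ u := sqrt_le_iff.2 ⟨hu0.le, by rw [sq]; exact le_mul_of_one_le_left hu0.le hu1⟩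
  set F1 : Set (Fin n → ℝ) := {x | a / 2 ≤ ∑ k ∈ S, d k * x k ^ 2} with hF1
  set F2 : Set (Fin n → ℝ) := {x | √w / 4 ≤ |∑ l ∈ S, x l ^ 2 - ∑ l ∈ S, c l|} with hF2
  have m1 : MeasurableSet F1 := measurableSet_le measurable_const (by fun_prop)
  have m2 : MeasurableSet F2 := measurableSet_le measurable_const (by fun_prop)
  have p1 : (gs 0 c).real F1 ≤ 1 / 4 := by
    refine (markov hc0 hd0 S (half_pos ha)).trans ?_
    have h1 : ∑ k, d k * c k ≤ 2 * (L + 1) ^ 2 * S0 * (2 / u) := by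
      refine le_trans ?_ (mul_le_mul_of_nonneg_right (sum_d G hL) (by positivity))
      rw [sum_mul]
      refine sum_le_sum fun k _ => mul_le_mul_of_nonneg_left ?_ (hd0 k)
      rw [hc, cw, div_le_div_iff₀ (hpos k) hu0]
      linarith [hp k, hlo k]
    rw [div_le_iff₀ (half_pos ha)]
    refine h1.trans ?_
    rw [← mul_div_assoc, div_le_iff₀ hu0, show 1 / 4 * (a / 2) * u = u * a / 8 by ring, hua]
    linarith
  have p2 : (gs 0 c).real F2 ≤ 1 / 4 := by
    have hsq : ∑ l, c l ^ 2 ≤ S0 := by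
      refine le_trans (sum_le_sum fun l _ => pow_le_pow_left₀ (hc0 l).le ?_ 2) (sum_le_S0 n)
      rw [← one_div_div]
      exact one_div_le_one_div_of_le (hp l) (by linarith [hlo l])
    refine ENNReal.toReal_le_of_le_ofReal (by norm_num)
      ((cheb c hc0 S (r := √w / 4) (by positivity)).trans (ENNReal.ofReal_le_ofReal ?_))
    rw [div_pow, Real.sq_sqrt w0.le, div_le_iff₀ (by positivity)]
    have := mul_le_mul_of_nonneg_left hsq k4_nonneg
    linarith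
  have p3 : 1 / 2 ≤ (gs 0 c).real (F1 ∪ F2)ᶜ := by
    rw [probReal_compl_eq_one_sub (m1.union m2)]
    linarith [measureReal_union_le (μ := gs 0 c) F1 F2]
  have hsumc : ∑ l, c l = Sr n η t u + t := by
    rw [Sr, sub_add_cancel]
    exact Fin.sum_univ_eq_sum_range (fun k => 1 / (u + η k)) n
  have hup : ∑ l, c l ≤ t - √w / 2 := by
    have h1 : ∑ l, c l ≤ ∑ l : Fin n, 1 / (w + η l) :=
      sum_le_sum fun l _ => one_div_le_one_div_of_le (hposw l) (by linarith)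
    have h2 := G.up
    rw [Sr, ← Fin.sum_univ_eq_sum_range (fun k => 1 / (w + η k)) n] at h2
    linarith
  have hdn : t - |C| * √u ≤ ∑ l, c l := by
    have h1 := G.dn u huw
    have h2 : C * √u ≤ |C| * √u := mul_le_mul_of_nonneg_right (le_abs_self C) (by linarith)
    linarith
  have ci : c i ≤ 1 := (div_le_one (hpos i)).2 (by linarith)
  have cj : c j ≤ 1 := (div_le_one (hpos j)).2 (by linarith)
  have dot : ∀ x : Fin n → ℝ, x ⬝ᵥ x = x i ^ 2 + x j ^ 2 + ∑ l ∈ S, x l ^ 2 := fun x => by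
    rw [← split fun l => x l ^ 2]
    exact Finset.sum_congr rfl fun l _ => (sq _).symm
  have hF : ∀ x ∈ (F1 ∪ F2)ᶜ, s - (|C| + 4) * √u ≤ x ⬝ᵥ x - x i ^ 2 - x j ^ 2 ∧
      x ⬝ᵥ x - x i ^ 2 - x j ^ 2 ≤ s := fun x hx => by
    have h1 : x ∉ F2 := fun h => hx (Or.inr h)
    simp only [hF2, Set.mem_ofPred_eq, not_le] at h1
    obtain ⟨y1, y2⟩ := abs_lt.1 h1
    have e := split c
    rw [dot x]
    constructor
    · linarith
    · linarith [hc0 i, hc0 j]
  have hE : MeasurableSet {x : Fin n → ℝ | Xd n η x ≤ a} := by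
    simp only [Xd_eq]
    exact measurableSet_le (by fun_prop) measurable_const
  have h := N_ge (a := fun k : Fin n => u + η k) hpos hij (s := s) (M := (|C| + 4) * √u) hε hε1
    (by positivity) hi2 hj2 (m1.union m2).compl hE (fun x v v' => by
      have e : ∀ l ∈ S, Function.update (Function.update x i v) j v' l = x l := fun l hl => by
        rw [Function.update_of_ne (mem_erase.1 hl).1,
          Function.update_of_ne (mem_erase.1 (mem_erase.1 hl).2).1]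
      have e1 : ∑ l ∈ S, d l * Function.update (Function.update x i v) j v' l ^ 2 =
        ∑ l ∈ S, d l * x l ^ 2 := sum_congr rfl fun l hl => by rw [e l hl]
      have e2 : ∑ l ∈ S, Function.update (Function.update x i v) j v' l ^ 2 =
        ∑ l ∈ S, x l ^ 2 := sum_congr rfl fun l hl => by rw [e l hl]
      simp only [hF1, hF2, Set.mem_compl_iff, Set.mem_union, Set.mem_ofPred_eq, e1, e2])
    hF p3 (by
      rintro x ⟨hx, -, h2⟩
      have h1 : x ∉ F1 := fun h => hx (Or.inl h)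
      simp only [hF1, Set.mem_ofPred_eq, not_le] at h1
      have h3 := (hF x hx).1
      have h4 : x i ^ 2 + x j ^ 2 ≤ (|C| + 5) * u := by
        have := mul_le_mul_of_nonneg_left hsuu (show 0 ≤ |C| + 4 by positivity)
        linarith
      have h5 : ∀ k : Fin n, u ≤ η k → d k ≤ 1 / u ^ 2 := fun k hk =>
        one_div_le_one_div_of_le (by positivity)
          ((pow_le_pow_left₀ hu0.le hk 2).trans (le_add_of_nonneg_right zero_le_one))
      have h6 : d i * x i ^ 2 + d j * x j ^ 2 ≤ 1 / u ^ 2 * ((|C| + 5) * u) := by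
        have a1 := mul_le_mul_of_nonneg_right (h5 i hi1) (sq_nonneg (x i))
        have a2 := mul_le_mul_of_nonneg_right (h5 j hj1) (sq_nonneg (x j))
        have a3 := mul_le_mul_of_nonneg_left h4 (show 0 ≤ 1 / u ^ 2 by positivity)
        linarith
      have h7 : 1 / u ^ 2 * ((|C| + 5) * u) ≤ a / 2 := by
        rw [show 1 / u ^ 2 * ((|C| + 5) * u) = (|C| + 5) / u by field_simp, div_le_iff₀ hu0]
        linarith
      show Xd n η x ≤ a
      rw [Xd_eq, split fun k => 1 / (η k ^ 2 + 1) * x k ^ 2]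
      simp only [hd] at h1 h6
      linarith)
  rw [hε2] at h
  refine le_trans ?_ h
  have hr : u * √u = A * √A * a ^ (-(3 / 2) : ℝ) := by
    have := sqrt_pos.2 ha
    rw [rpow32 ha, hu, sqrt_div hA0.le]
    field_simp
  have hr1 : 1 ≤ a ^ (-(3 / 2) : ℝ) := one_le_rpow_of_pos_of_le_one_of_nonpos ha ha1 (by norm_num)
  have h8 : exp (-4) ≤ exp (-(1 / 8)) / 4 := by
    rw [le_div_iff₀ (by norm_num), show (-(1 / 8) : ℝ) = -4 + 31 / 8 by norm_num, exp_add]
    exact mul_le_mul_of_nonneg_left (by linarith [add_one_le_exp (31 / 8 : ℝ)]) (exp_pos _).le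
  gcongr
  refine le_trans ?_ (mul_le_mul_of_nonneg_right h8 (exp_pos _).le)
  rw [← exp_add, exp_le_exp]
  have h9 : ((|C| + 4) * √u + 1) * (10 ^ 5 * u) / 2 ≤ (|C| + 5) * 10 ^ 5 / 2 * (u * √u) := by
    have : (|C| + 4) * √u + 1 ≤ (|C| + 5) * √u := by linarith
    calc _ ≤ (|C| + 5) * √u * (10 ^ 5 * u) / 2 := by gcongr
      _ = _ := by ring
  rw [hr] at h9
  linarith

end Stat62

open Stat62

theorem statGlue : StatGlue := by
  intro hD L C hL
  obtain ⟨w₂, hw₂, H⟩ := hD L C hL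
  refine ⟨max w₂ (64 * k4 * S0), fun w hw => ?_⟩
  have w1 : 2 * L + 1 ≤ w := hw₂.trans ((le_max_left _ _).trans hw)
  have w0 : 0 < w := by linarith
  obtain ⟨B, hB, H⟩ := H w ((le_max_left _ _).trans hw)
  obtain ⟨A, D, hA, hD0, K⟩ := key (C := C) hL w1 ((le_max_right _ _).trans hw)
  have hZ0 : 0 ≤ ∑' m, wt m := tsum_nonneg wt_nonneg
  refine ⟨D + ∑' m, wt m, fun ρ hρ => ?_, fun a ha ha1 => ?_, fun ε hε => ?_⟩
  · set A1 := w + 60 + L with hA1
    set A2 := ρ⁻¹ + 60 + L with hA2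
    set Kc := 2 * |log B| + 5 with hK
    have hρ' : 0 < ρ⁻¹ := by positivity
    have hlB := abs_nonneg (log B)
    have a1 : 0 < A1 := by linarith
    have a2 : 0 < A2 := by linarith
    have k1 : 1 ≤ Kc := by linarith
    refine ⟨1 / (16 * A1 * A2 * Kc), by positivity, fun Hh hH => ?_⟩
    set m := ⌈2 * Hh + 2 * |log B|⌉₊ with hm
    have m1 : 2 * Hh + 2 * |log B| ≤ m := Nat.le_ceil _
    have m2 : (m : ℝ) < 2 * Hh + 2 * |log B| + 1 := Nat.ceil_lt_add_one (by linarith)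
    have m3 : (m : ℝ) + 2 ≤ Kc * Hh := by rw [hK]; nlinarith
    have m4 : (2 : ℝ) ≤ m := by linarith
    filter_upwards [H, eventually_ge_atTop (8 * (m + 2))] with n H hn η G
    have hn0 : 0 < n := by omega
    have ht : 0 < sx n ^ 2 := pow_pos (sx_pos hn0) 2
    have hn1 : (1 : ℝ) ≤ (n : ℝ) ^ 2 := one_le_pow₀ (by exact_mod_cast hn0)
    obtain ⟨hP, hM, -⟩ := (H η _ ht G.1 ⟨0, by omega⟩ ⟨1, by omega⟩ rfl rfl).2 _ hn1
    set S : Finset (Fin n) := (Ico 2 (m + 2)).attachFin fun k hk => by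
      have := (mem_Ico.1 hk).2; omega with hS
    have hcard : S.card = m := by rw [hS, card_attachFin, Nat.card_Ico]; omega
    have hmem : ∀ k ∈ S, 2 ≤ (k : ℕ) ∧ (k : ℕ) < m + 2 := fun k hk =>
      mem_Ico.1 ((mem_attachFin _).1 hk)
    set y := ((m : ℝ) + 2) ^ (2 / 3 : ℝ) with hy
    have y1 : 1 ≤ y := one_le_rpow (by linarith) (by norm_num)
    have hη : ∀ k ∈ S, |η k| ≤ 60 * y + L := fun k hk => by
      have h1 := G.1.lo k k.2
      have h2 := G.1.hi k (by have := (hmem k hk).2; omega)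
      have h3 : ((k : ℕ) : ℝ) + 1 ≤ m + 2 := by exact_mod_cast (hmem k hk).2
      have h4 := rpow_le_rpow (by positivity) h3 (show (0 : ℝ) ≤ 2 / 3 by norm_num)
      have h5 : 0 < (((k : ℕ) : ℝ) + 1) ^ (2 / 3 : ℝ) / 256 := by positivity
      exact abs_le.2 ⟨by linarith, by linarith⟩
    have hb : 0 < 1 / (A1 * y) := by positivity
    have hT := low_tail (c := cw n η w) S hb fun k hk => by
      refine one_div_le_one_div_of_le (a_pos G.1 hL w1 le_rfl k) ?_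
      have := (abs_le.1 (hη k hk)).2
      rw [hA1]; nlinarith
    rw [hcard] at hT
    set T : Set (Fin n → ℝ) := {x | ∑ k ∈ S, x k ^ 2 ≤ m * (1 / (A1 * y)) / 8} with hTd
    have hTm : MeasurableSet T := measurableSet_le (by fun_prop) measurable_const
    have h1 := hM (T.indicator 1) (measurable_one.indicator hTm) fun x u v => by
      have e : ∑ k ∈ S, Function.update (Function.update x ⟨0, by omega⟩ u) ⟨1, by omega⟩ v k ^ 2 =
          ∑ k ∈ S, x k ^ 2 := sum_congr rfl fun k hk => by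
        have := (hmem k hk).1
        rw [Function.update_of_ne (by simp only [ne_eq, Fin.ext_iff]; omega),
          Function.update_of_ne (by simp only [ne_eq, Fin.ext_iff]; omega)]
      simp only [Set.indicator, hTd, Set.mem_ofPred_eq, e, Pi.one_apply]
    rw [lintegral_indicator_one hTm, lintegral_indicator_one hTm, ← ofReal_measureReal,
      ← ofReal_measureReal (μ := gs 0 (cw n η w)), ← ENNReal.ofReal_mul hB.le,
      ENNReal.ofReal_le_ofReal_iff (by positivity)] at h1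
    have hsub : {x | Aq n η ρ x < 1 / (16 * A1 * A2 * Kc) * Hh ^ (-(1 / 3) : ℝ)} ⊆ T := by
      intro x hx
      have h2 : (∑ k ∈ S, x k ^ 2) / (A2 * y) ≤ Aq n η ρ x := by
        rw [sum_div]
        refine le_trans (sum_le_sum fun k hk => ?_) (sum_le_sum_of_subset_of_nonneg
          (subset_univ S) fun k _ _ => by positivity)
        refine div_le_div_of_nonneg_left (sq_nonneg _) (by positivity) ?_
        have := hη k hk
        rw [hA2]; nlinarith
      have z0 : 0 < Hh ^ (1 / 3 : ℝ) := by positivity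
      have h3 : y * y ≤ 2 * m * (Kc * Hh ^ (1 / 3 : ℝ)) := by
        have e : y * y = ((m : ℝ) + 2) * ((m : ℝ) + 2) ^ (1 / 3 : ℝ) := by
          rw [hy, ← rpow_add (by linarith), show (2 / 3 + 2 / 3 : ℝ) = 1 + 1 / 3 by norm_num,
            rpow_add (by linarith), rpow_one]
        have h4 := rpow_le_rpow (by positivity) m3 (show (0 : ℝ) ≤ 1 / 3 by norm_num)
        rw [mul_rpow (by linarith) (by linarith)] at h4
        have h5 : Kc ^ (1 / 3 : ℝ) ≤ Kc := by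
          have := rpow_le_rpow_of_exponent_le k1 (show (1 / 3 : ℝ) ≤ 1 by norm_num)
          rwa [rpow_one] at this
        rw [e]
        exact mul_le_mul (by linarith) (h4.trans (by gcongr)) (by positivity) (by positivity)
      have h6 := h2.trans (le_of_lt hx)
      rw [rpow_neg (by linarith), div_le_iff₀ (by positivity)] at h6
      refine h6.trans ?_
      rw [show 1 / (16 * A1 * A2 * Kc) * (Hh ^ (1 / 3 : ℝ))⁻¹ * (A2 * y) =
          y * y / (16 * (A1 * y) * (Kc * Hh ^ (1 / 3 : ℝ))) by field_simp,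
        div_le_iff₀ (by positivity)]
      refine h3.trans (le_of_eq ?_)
      field_simp
      norm_num
    refine (measureReal_mono hsub).trans (h1.trans ?_)
    refine (mul_le_mul_of_nonneg_left hT hB.le).trans ?_
    rw [← exp_log hB, ← exp_add, exp_le_exp]
    linarith [le_abs_self (log B)]
  · filter_upwards [K a ha ha1, eventually_gt_atTop 0] with n K hn η G
    obtain ⟨R, hR, hp, h1, h2⟩ := K η _ G.1
    have hn0 : (0 : ℝ) < n := by exact_mod_cast hn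
    have hE : MeasurableSet {x : Fin n → ℝ | Xd n η x ≤ a} := by
      simp only [Xd_eq]
      exact measurableSet_le (by fun_prop) measurable_const
    have h3 := h1.trans (setIntegral_le_integral (int_exp _ (by positivity) _)
      (ae_of_all _ fun x => (exp_pos _).le))
    have h0 : 0 < exp (-(D * a ^ (-(3 / 2) : ℝ))) * R * (n : ℝ)⁻¹ := by positivity
    rw [piS, piD_real _ (by positivity) hp hE, le_div_iff₀ (h0.trans_le h3)]
    refine le_trans ?_ h1
    refine (mul_le_mul_of_nonneg_left h2 (exp_pos _).le).trans ?_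
    have hr1 : 1 ≤ a ^ (-(3 / 2) : ℝ) :=
      one_le_rpow_of_pos_of_le_one_of_nonpos ha ha1 (by norm_num)
    have h4 : ∑' m, wt m ≤ exp ((∑' m, wt m) * a ^ (-(3 / 2) : ℝ)) := by
      nlinarith [add_one_le_exp ((∑' m, wt m) * a ^ (-(3 / 2) : ℝ))]
    rw [← mul_assoc, ← mul_assoc]
    gcongr
    refine (mul_le_mul_of_nonneg_left h4 (exp_pos _).le).trans_eq ?_
    rw [← exp_add]; congr 1; ring
  · filter_upwards [H, K 1 one_pos le_rfl, eventually_ge_atTop 2,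
      (tendsto_natCast_atTop_atTop (R := ℝ)).eventually_ge_atTop (2 * A),
      (tendsto_natCast_atTop_atTop (R := ℝ)).eventually_ge_atTop (8 * exp D / ε),
      ((tendsto_pow_atTop two_ne_zero).comp tendsto_sx).eventually_ge_atTop 2]
      with n H K hn hnA hnε hnt η G
    have hn0 : 0 < n := by omega
    have ht : 0 < sx n ^ 2 := pow_pos (sx_pos hn0) 2
    have hn1 : (1 : ℝ) ≤ n := by exact_mod_cast hn0
    refine ⟨((H η _ ht G.1 ⟨0, by omega⟩ ⟨1, by omega⟩ rfl rfl).2 _ (one_le_pow₀ hn1)).1, ?_⟩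
    obtain ⟨R, hR, hp, h1, -⟩ := K η _ G.1
    have hE : MeasurableSet {x : Fin n → ℝ | x ⬝ᵥ x ≤ 2 * sx n ^ 2}ᶜ :=
      (measurableSet_le (Sph38.continuous_dot (ι := Fin n)).measurable measurable_const).compl
    have hint := int_exp (cw n η (A / 1)) (κ := (n : ℝ) ^ 2) (by positivity)
      (sx n ^ 2 + 2 * (A / 1) / (n : ℝ) ^ 2)
    have h3 := h1.trans (setIntegral_le_integral hint (ae_of_all _ fun x => (exp_pos _).le))
    rw [one_rpow, mul_one] at h3
    have h0 : 0 < exp (-D) * R * (n : ℝ)⁻¹ := by positivity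
    rw [piS, piD_real _ (by positivity) hp hE, div_le_iff₀ (h0.trans_le h3)]
    refine le_trans ?_ (mul_le_mul_of_nonneg_left h3 hε.le)
    calc _ ≤ ∫ _x in {x : Fin n → ℝ | x ⬝ᵥ x ≤ 2 * sx n ^ 2}ᶜ, 8 / (n : ℝ) ^ 2
            ∂gs 0 (cw n η (A / 1)) := by
          refine setIntegral_mono_on hint.integrableOn (integrable_const _).integrableOn hE
            fun x hx => ?_
          simp only [Set.mem_compl_iff, Set.mem_ofPred_eq, not_le] at hx
          have h4 : 2 * (A / 1) / (n : ℝ) ^ 2 ≤ 1 := by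
            rw [div_le_one (by positivity)]; nlinarith
          have h5 : (2 : ℝ) ≤ sx n ^ 2 := hnt
          have h6 : 1 ≤ (x ⬝ᵥ x - (sx n ^ 2 + 2 * (A / 1) / (n : ℝ) ^ 2)) ^ 2 :=
            one_le_pow₀ (by linarith)
          have h7 : 0 < (n : ℝ) ^ 2 / 8 := by positivity
          calc _ ≤ exp (-((n : ℝ) ^ 2 / 8)) := exp_le_exp.2 (by nlinarith)
            _ ≤ ((n : ℝ) ^ 2 / 8)⁻¹ := by
                rw [Real.exp_neg]
                exact inv_anti₀ h7 (by linarith [add_one_le_exp ((n : ℝ) ^ 2 / 8)])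
            _ = _ := by rw [inv_div]
      _ ≤ 8 / (n : ℝ) ^ 2 := by
          rw [setIntegral_const, smul_eq_mul]
          exact mul_le_of_le_one_left (by positivity) measureReal_le_one
      _ ≤ ε * (exp (-D) * 1 * (n : ℝ)⁻¹) := by
          rw [div_le_iff₀ hε] at hnε
          rw [Real.exp_neg, div_le_iff₀ (by positivity),
            show ε * ((exp D)⁻¹ * 1 * (n : ℝ)⁻¹) * (n : ℝ) ^ 2 = n * ε / exp D by field_simp,
            le_div_iff₀ (exp_pos _)]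
          exact hnε
      _ ≤ _ := by gcongr


end Crest.Agent.T157.Cq

end
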