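import Crest.Agent.T157.UnE_81
import Crest.Agent.T157.StAll_87
import Crest.Agent.T157.Q1Def_63

/-!
# Row 157, part C: universality through a complex entry, F (helper81)

Sequence level: the overlap moments for both coupling laws (`ldB`, `ld2`), the pointwise class `Pc`
and the mean-square class `Lc`.
-/

set_option autoImplicit false
set_option linter.unusedSectionVars false

noncomputable section

namespace Crest.Agent.T157.Un

open MeasureTheory Metric Finset Matrix Filter Topology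
open Crest.ProbabilityR.SpinGlassDynamics Crest.Agent.T157.E Crest.Agent.T157.SL
open Crest.Agent.T157.Sg (sq2 ipV nv)
open Crest.Agent.T157.Soft (N23)

section meas
variable {n : ℕ}

lemma meas_gw (x : Cube n) : Measurable fun g => gw n g x := by
  simp only [gw, gibbsWeight]; fun_prop

lemma meas_prob (x : Cube n) : Measurable fun g => prob (gw n g) x :=
  (meas_gw x).div (measurable_sum _ fun y _ => meas_gw y)

lemma meas_mean {f : (Pair n → ℝ) → Cube n → ℝ} (hf : ∀ x, Measurable fun g => f g x) :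
    Measurable fun g => mean (gw n g) (f g) := measurable_sum _ fun x _ => (meas_prob x).mul (hf x)

lemma meas_m2 (k : Cube n → Cube n → ℝ) : Measurable fun g => m2 (gw n g) k :=
  measurable_sum _ fun x _ => measurable_sum _ fun y _ =>
    ((meas_prob x).mul (meas_prob y)).mul_const _

lemma meas_k0 {κ : Type*} [Fintype κ] [DecidableEq κ] (φ : Cube n → κ → ℝ) (s : ℝ) (x y : Cube n) :
    Measurable fun g => k0 φ s (gw n g) x y := by
  have h : ∀ y, Measurable fun p : (Pair n → ℝ) × (κ → ℝ) => po φ s (gw n p.1) x p.2 y := fun y => by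
    simp only [po, post, dotProduct, gw, gibbsWeight]; fun_prop
  simp only [k0_eq]
  exact (((h y).div (measurable_sum _ fun y _ => h y)).stronglyMeasurable.integral_prod_right'
    (ν := gv κ)).measurable

lemma meas_RV (hn : 0 < n) {τ : ℝ} (hτ : 0 ≤ τ) {ι : Type*} [Fintype ι]
    {u : (Pair n → ℝ) → ι → Cube n → ℝ} (hu : ∀ i x, Measurable fun g => u g i x) (i : ι)
    (x : Cube n) : Measurable fun g => Sg.RV (Soft.ch hn g) (n * τ) (u g) i x := by
  have hnτ : 0 ≤ n * τ := by positivity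
  have e : ∀ g, Sg.RV (Soft.ch hn g) (n * τ) (u g) i x =
      (resC 1 τ (fun y => (gw n g y : ℂ)) (fun y => (u g i y : ℂ)) x).re := fun g => by
    have e1 : (fun y => (u g i y : ℂ)) = opL 1 τ (fun y => (gw n g y : ℂ))
        fun y => (Sg.RV (Soft.ch hn g) (n * τ) (u g) i y : ℂ) := by
      funext y
      rw [opL_real, Chain22.gen_eq hn (gw_pos g), ← Sg.resV_strong (Soft.ch hn g) one_pos hnτ (u g i) y]
      congr 1
      change _ = _ - τ * (n * (((Soft.ch hn g).P *ᵥ _) y - _))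
      simp only [Sg.RV]; ring
    rw [e1, resC_opL (gw_pos g) (fun y => by simpa using (gw_pos g y).le) (fun y => by
      rw [Complex.norm_real, Real.norm_of_nonneg (gw_pos g y).le]; linarith [gw_pos g y]) one_pos hτ,
      Complex.ofReal_re]
  simp only [e]
  exact Complex.measurable_re.comp (meas_resC (fun y => Complex.measurable_ofReal.comp (meas_gw y))
    (fun y => Complex.measurable_ofReal.comp (hu i y)) x)

end meas

/-! ### overlap moments -/

lemma Rh_comm (n : ℕ) (x y : Cube n) : Rh n x y = Rh n y x := by rw [Rh, Rh, dotProduct_comm]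

lemma Xth_eq (n : ℕ) (g : Pair n → ℝ) (θ : ℝ) :
    Soft.Xth n g θ = m2 (gw n g) fun x y => Real.exp (θ * Rh n x y) := rfl

/-- exponential moment of the absolute overlap -/
def XA (θ : ℝ) : Fam := fun n g => m2 (gw n g) fun x y => Real.exp (θ * |Rh n x y|)

lemma XA_le (θ : ℝ) (n : ℕ) (g : Pair n → ℝ) : XA θ n g ≤ 2 * Soft.Xth n g θ := by
  rw [two_mul]
  nth_rewrite 2 [← Soft.Xth_neg]
  rw [Xth_eq, Xth_eq, ← m2_add]
  refine m2_mono (gw_pos g) fun x y => ?_
  rcases abs_choice (Rh n x y) with h | h <;> rw [h]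
  · exact le_add_of_nonneg_right (Real.exp_pos _).le
  · rw [mul_neg, neg_mul]; exact le_add_of_nonneg_left (Real.exp_pos _).le

lemma pm_m2 {k : ∀ n, Cube n → Cube n → ℝ} (h0 : ∀ n x y, 0 ≤ k n x y)
    (hs : ∀ n x y, k n x y = k n y x) :
    ∀ᶠ n : ℕ in atTop, Pm (1 / 4) √(n : ℝ) 9 fun g => m2 (gw n g) (k n) :=
  (eventually_gt_atTop 0).mono fun n hn => (anS_m2 hn (h0 n) (hs n)).pm

lemma tt_XA (θ : ℝ) : Tt (XA θ) :=
  ⟨⟨fun _ => meas_m2 _, fun _ g => m2_nonneg (gw_pos g) fun _ _ => (Real.exp_pos _).le, _, _,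
    by norm_num, by norm_num, pm_m2 (k := fun n x y => Real.exp (θ * |Rh n x y|))
      (fun _ _ _ => (Real.exp_pos _).le) fun n x y => by rw [Rh_comm]⟩,
    (((Tight.const 2).mul (St.All.ld2_gauss θ) (fun _ _ => zero_le_two) fun n g =>
      m2_nonneg (gw_pos g) fun _ _ => (Real.exp_pos _).le).mono
        (.of_forall fun n g => XA_le θ n g))⟩

lemma R4_exp (x : ℝ) : x ^ 4 ≤ 24 * Real.exp (1 * |x|) := by
  have := Real.pow_div_factorial_le_exp |x| (abs_nonneg x) 4
  rw [div_le_iff₀ (by positivity), show |x| ^ 4 = x ^ 4 by rw [← abs_pow, abs_of_nonneg (by positivity)]]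
    at this
  norm_num [Nat.factorial] at this ⊢
  linarith

lemma R4_le (n : ℕ) (g : Pair n → ℝ) : m2 (gw n g) (fun x y => Rh n x y ^ 4) ≤ 24 * XA 1 n g := by
  rw [XA, ← m2_const_mul]; exact m2_mono (gw_pos g) fun x y => R4_exp _

lemma tendsto_N23 : Tendsto (fun n : ℕ => (N23 n)⁻¹) atTop (𝓝 0) :=
  ((tendsto_rpow_atTop (by norm_num)).comp tendsto_natCast_atTop_atTop).inv_tendsto_atTop

lemma Tt.small {S : Fam} (h : Tt S) {a : ℕ → ℝ} (h0 : ∀ n, 0 ≤ a n) (ha : Tendsto a atTop (𝓝 0)) :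
    Nl fun n g => a n * S n g := by
  have e : (fun n g => a n * S n g : Fam) = fun n g => S n g * a n := by funext n g; ring
  rw [e]; exact h.mul_nl (.of_tendsto h0 ha)

lemma Tt.inv {S : Fam} (h : Tt S) : Nl fun n g => (N23 n)⁻¹ * S n g :=
  h.small (fun _ => by positivity) tendsto_N23

lemma Tt.const_mul {S : Fam} (h : Tt S) {a : ℝ} (ha : 0 ≤ a) : Tt fun n g => a * S n g :=
  (Tt.const ha).mul h

lemma nz_XA (θ : ℝ) : Nz (XA θ) := by
  refine ⟨(tt_XA θ).po.meas, (tt_XA θ).po.nn, (tt_XA θ).ti, 1 / 4, 9, _, by norm_num, by norm_num,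
    (((tt_XA (4 * θ)).const_mul (a := 32) (by norm_num)).add
      ((tt_XA 1).const_mul (a := 32 * 24) (by norm_num))).inv, ?_⟩
  filter_upwards [eventually_gt_atTop 0] with n hn
  refine (anS_m2 hn (k := fun x y => Real.exp (θ * |Rh n x y|)) (fun _ _ => (Real.exp_pos _).le)
    fun x y => by rw [Rh_comm]).mono le_rfl (fun _ => le_rfl) fun g => ?_
  have e : (fun x y => Real.exp (θ * |Rh n x y|) ^ 4) = fun x y => Real.exp (4 * θ * |Rh n x y|) := by
    funext x y; rw [← Real.exp_nat_mul, mul_assoc]; rfl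
  rw [e]
  refine mul_le_mul_of_nonneg_left ?_ (by positivity)
  have := R4_le n g
  unfold XA at this ⊢
  linarith

/-- transfer of a tail bound, uniformly in the functional -/
lemma tight_unif {r c : ℝ} (h1 : 0 < r) (h2 : 0 ≤ c) {ε : ℝ} (hε : 0 < ε) : ∃ ε' : ℝ, 0 < ε' ∧
    ∀ X : Fam, (∀ n, Measurable (X n)) → (∀ n g, 0 ≤ X n g) →
      (∀ᶠ n : ℕ in atTop, Pm r √(n : ℝ) c (X n)) → ∀ M : ℝ,
      (∀ᶠ n : ℕ in atTop, couplingLaw false n {g | M < X n g} ≤ ENNReal.ofReal ε') → ∀ b,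
      ∃ L : ℝ, 0 < L ∧ ∀ᶠ n : ℕ in atTop, couplingLaw b n {g | L < X n g} ≤ ENNReal.ofReal ε := by
  have hr : 0 < r / (2 * (c + 1)) := by positivity
  set C := Real.exp (512 * 3 * (3 + 1) * m8 / (r / (2 * (c + 1))) ^ 4) with hCd
  have hC : 0 < C := Real.exp_pos _
  have hd : 0 < ε / (8 * C) := by positivity
  refine ⟨_, hd, fun X hm h0 h3 M hM b => ?_⟩
  have h : Po X := ⟨hm, h0, r, c, h1, h2, h3⟩
  set L := (|M| + 1) / (ε / (8 * C)) with hL
  have hL0 : 0 < L := by positivity
  refine ⟨L, hL0, ?_⟩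
  filter_upwards [h3, tendsto_sqrt.eventually_ge_atTop (2 / (r / (2 * (c + 1)))),
    tendsto_sqrt.eventually_gt_atTop 0,
    (tendsto_err (512 * 1 * m8) (r / (2 * (c + 1)))).eventually (gt_mem_nhds hd), hM]
    with n a1 a2 a3 a4 a5
  have h4 := lin_le hr a3 ((div_le_iff₀ hr).1 a2) (by norm_num) (card_pair n) (h.meas_ratio L n)
    (fun g => by have := h.nn n g; positivity) (fun g => (le_abs_self _).trans (h.abs_ratio hL0 n g))
    (a1.ratio h2 (h.nn n) h1 hL0) fun _ => b
  rw [hyb_const, hyb_const] at h4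
  have h5 := int_le_of_meas (h.meas_ratio L n) (h.abs_ratio hL0 n) hd.le hd.le a5 (fun g hg => by
    have p := h.nn n g
    have q0 : X n g ≤ M := not_lt.1 hg
    have q : X n g ≤ |M| + 1 := by linarith [le_abs_self M]
    rw [abs_of_nonneg (by positivity)]
    calc _ ≤ (|M| + 1) / L := by gcongr; linarith
      _ = _ := by rw [hL]; field_simp) zero_le_one
  refine meas_le_of_int (a := 1 / 2) (int_bdd (h.meas_ratio L n) (h.abs_ratio hL0 n))
    (fun g => by have := h.nn n g; positivity) (by norm_num) (fun g hg => ?_) (h4.trans ?_)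
  · have hg' : L < X n g := hg
    rw [div_le_div_iff₀ (by positivity) (by linarith)]; linarith
  · calc _ ≤ C * ((ε / (8 * C) + 2 * 1 * (ε / (8 * C))) + ε / (8 * C)) := by gcongr
      _ = _ := by field_simp; norm_num

lemma abs_Rh_le {n : ℕ} (hn : 0 < n) (x y : Cube n) : |Rh n x y| ≤ √(n : ℝ) := by
  have hn' : (1 : ℝ) ≤ n := by exact_mod_cast hn
  have h1 : |sv x ⬝ᵥ sv y| ≤ n := by
    refine (abs_sum_le_sum_abs _ _).trans (le_of_eq ?_)
    have : ∀ i, |sv x i * sv y i| = 1 := fun i => by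
      simp only [sv, spin]; split_ifs <;> norm_num
    simp [this]
  have h2 : √(n : ℝ) ≤ N23 n := by
    rw [Real.sqrt_eq_rpow]; exact Real.rpow_le_rpow_of_exponent_le hn' (by norm_num)
  have h3 : 0 < √(n : ℝ) := Real.sqrt_pos.2 (by linarith)
  rw [Rh, abs_mul, abs_of_pos (inv_pos.2 (Soft.N23_pos hn)), inv_mul_le_iff₀ (Soft.N23_pos hn)]
  nlinarith [Real.mul_self_sqrt (Nat.cast_nonneg n : (0 : ℝ) ≤ n)]

lemma rpow32 {θ : ℝ} (h : 0 ≤ θ) : θ ^ (3 / 2 : ℝ) = θ * √θ := by
  rw [Real.sqrt_eq_rpow, show (3 / 2 : ℝ) = 1 + 1 / 2 by norm_num, Real.rpow_add' h (by norm_num),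
    Real.rpow_one]

/-- **stretched exponential moments of the overlap, both laws** -/
theorem ldB (b : Bool) : Q1.LdB b := fun ε hε => by
  obtain ⟨ε', h', H⟩ := tight_unif (r := 1 / 4) (c := 9) (by norm_num) (by norm_num) hε
  obtain ⟨B₀, hB⟩ := St.All.ldG ε' h'
  set B := |B₀| + 1 with hBd
  have B1 : 1 ≤ B := by linarith [abs_nonneg B₀]
  have BB : B₀ ≤ B := by linarith [le_abs_self B₀]
  let a : ℕ → ℝ := fun j => Real.exp (-(2 * B * (j * √(j : ℝ))))
  let k : ∀ n, Cube n → Cube n → ℝ := fun n x y => ∑ j ∈ range (n + 1), a j * Real.exp (j * Rh n x y)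
  have k0 : ∀ n x y, 0 ≤ k n x y := fun n x y => sum_nonneg fun j _ => by positivity
  have ke : ∀ n g, m2 (gw n g) (k n) = ∑ j ∈ range (n + 1), a j * Soft.Xth n g j := fun n g => by
    simp only [Xth_eq, m2, k, mul_sum]
    conv_rhs => rw [sum_comm]
    refine sum_congr rfl fun x _ => ?_
    rw [sum_comm]
    exact sum_congr rfl fun j _ => sum_congr rfl fun y _ => by ring
  obtain ⟨L, L0, hL⟩ := H (fun n g => m2 (gw n g) (k n)) (fun _ => meas_m2 _)
    (fun n g => m2_nonneg (gw_pos g) (k0 n)) (pm_m2 k0 fun n x y => by simp only [k, Rh_comm n x y])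
    (2 * B) (hB.mono fun n hn => by
      refine le_trans (measure_mono ?_) hn
      intro g hg h
      refine not_le.2 (show 2 * B < m2 (gw n g) (k n) from hg) ?_
      rw [ke]
      refine (sum_le_sum (g := fun j => B * (1 / 2) ^ j) fun j _ => ?_).trans ?_
      · have h1 := h j
        have j0 : (0 : ℝ) ≤ j := Nat.cast_nonneg j
        rw [← St.All.Xth_eq, abs_of_nonneg j0, rpow32 j0] at h1
        have h2 : (j : ℝ) ≤ j * √(j : ℝ) := by
          rcases Nat.eq_zero_or_pos j with rfl | hj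
          · simp
          · exact le_mul_of_one_le_right j0 (Real.one_le_sqrt.2 (by exact_mod_cast hj))
        have h3 : Real.exp (-1) ≤ 1 / 2 := by
          rw [Real.exp_neg, one_div]
          exact inv_anti₀ two_pos (by linarith [Real.add_one_le_exp (1 : ℝ)])
        have h4 : Soft.Xth n g j ≤ B * Real.exp (B * (j * √(j : ℝ))) := h1.trans
          ((mul_le_mul_of_nonneg_right BB (Real.exp_pos _).le).trans (by gcongr))
        calc _ ≤ a j * (B * Real.exp (B * (j * √(j : ℝ)))) := by gcongr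
          _ = B * Real.exp (-(B * (j * √(j : ℝ)))) := by
              rw [mul_left_comm, ← Real.exp_add]; congr 2; ring
          _ ≤ B * Real.exp (j * (-1)) := by gcongr; nlinarith
          _ ≤ _ := by rw [Real.exp_nat_mul]; gcongr
      · rw [← mul_sum, mul_comm]
        gcongr
        exact sum_geometric_two_le _) b
  refine ⟨(1 + L) * Real.exp (8 * B) + 8 * B, ?_⟩
  filter_upwards [hL, eventually_gt_atTop 0] with n hn n0
  refine le_trans (measure_mono ?_) hn
  rintro g ⟨θ, θ0, hθ⟩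
  by_contra hh
  have h1 : m2 (gw n g) (k n) ≤ L := not_lt.1 hh
  refine not_le.2 hθ ?_
  rw [rpow32 θ0]
  have e1 : 1 ≤ Real.exp (8 * B) := Real.one_le_exp (by positivity)
  have s0 : 0 ≤ θ * √θ := by positivity
  have D1 : 1 ≤ (1 + L) * Real.exp (8 * B) := by nlinarith
  rcases le_total θ n with h2 | h2
  · have j1 : ⌈θ⌉₊ ∈ range (n + 1) := mem_range_succ_iff.2 (Nat.ceil_le.2 h2)
    have j2 := Nat.le_ceil θ
    have j3 := (Nat.ceil_lt_add_one θ0).le
    set j := ⌈θ⌉₊
    have h3 : a j * Soft.Xth n g j ≤ L := by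
      refine le_trans ?_ h1
      rw [ke]
      exact single_le_sum (f := fun j : ℕ => a j * Soft.Xth n g j) (fun i _ => mul_nonneg
        (Real.exp_pos _).le (m2_nonneg (gw_pos g) fun _ _ => (Real.exp_pos _).le)) j1
    have h4 : Soft.Xth n g θ ≤ 1 + Soft.Xth n g j := by
      rw [Xth_eq, Xth_eq, ← m2_const (gw_pos g) 1, ← m2_add]
      refine m2_mono (gw_pos g) fun x y => ?_
      rcases le_total 0 (Rh n x y) with h | h
      · exact le_add_of_nonneg_of_le zero_le_one (by gcongr)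
      · exact le_add_of_le_of_nonneg (Real.exp_le_one_iff.2 (mul_nonpos_of_nonneg_of_nonpos θ0 h))
          (Real.exp_pos _).le
    have h5 : (j : ℝ) * √(j : ℝ) ≤ 4 + 4 * (θ * √θ) := by
      have t1 : √(j : ℝ) ≤ √θ + 1 := Real.sqrt_le_iff.2 ⟨by positivity, by
        nlinarith [Real.sq_sqrt θ0, Real.sqrt_nonneg θ]⟩
      have t2 : (j : ℝ) * √(j : ℝ) ≤ (θ + 1) * (√θ + 1) := by gcongr
      have t3 := Real.sq_sqrt θ0
      have t4 := Real.sqrt_nonneg θ
      set s := √θ
      rw [← t3] at t2 ⊢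
      nlinarith [mul_nonneg t4 (sq_nonneg (s - 1)), sq_nonneg (s - 1), mul_nonneg t4 (sq_nonneg s)]
    have h6 : Soft.Xth n g j ≤ L * Real.exp (8 * B + 8 * B * (θ * √θ)) := by
      have : Soft.Xth n g j = a j * Soft.Xth n g j * Real.exp (2 * B * (j * √(j : ℝ))) := by
        rw [mul_right_comm, ← Real.exp_add]; simp
      rw [this]
      gcongr
      nlinarith
    have h7 : 1 ≤ Real.exp (8 * B + 8 * B * (θ * √θ)) := Real.one_le_exp (by positivity)
    calc _ ≤ (1 + L) * Real.exp (8 * B + 8 * B * (θ * √θ)) := by linarith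
      _ = (1 + L) * Real.exp (8 * B) * Real.exp (8 * B * (θ * √θ)) := by rw [Real.exp_add, ← mul_assoc]
      _ ≤ _ := by gcongr <;> linarith
  · calc _ ≤ Real.exp (θ * √θ) := by
          rw [Xth_eq, ← m2_const (gw_pos g) (Real.exp _)]
          refine m2_mono (gw_pos g) fun x y => ?_
          gcongr
          exact ((le_abs_self _).trans (abs_Rh_le n0 x y)).trans (Real.sqrt_le_sqrt h2)
      _ ≤ 1 * Real.exp (1 * (θ * √θ)) := by simp
      _ ≤ _ := by gcongr <;> linarith


end Crest.Agent.T157.Un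

end
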