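import Crest.Agent.T157.CqDef_72
import Crest.Agent.T157.UnE_81
import Crest.Agent.T157.StAll_87
import Crest.Agent.T157.UnF_81

-- ▼ part T157/CqUtA_75
section

/-!
# Row 157, part C: universality of the scalars, A (helper75)

Bounded functionals which are holomorphic in each coupling on a disc whose radius may depend on
the sample (`AnR`), and the class `Cl` of static observables; every admissible `SE.ev` is in `Cl`.
-/

set_option autoImplicit false
set_option linter.unusedSectionVars false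

noncomputable section

namespace Crest.Agent.T157.Cq.Ut75

open MeasureTheory Metric Finset Matrix Filter Topology
open Crest.ProbabilityR.SpinGlassDynamics Crest.Agent.T157.E Crest.Agent.T157.SL
open Crest.Agent.T157.Un Crest.Agent.T157.St
open Crest.Agent.T157.Soft (N23)
open Crest.Agent.T157.Chain22 (poi)

/-- holomorphic extension with a bound and an oscillation bound -/
def Lo (r : ℝ) (q : ℝ → ℝ) (B K : ℝ) : Prop :=
  ∃ F, Ex r q F ∧ ∀ z ∈ ball (0 : ℂ) r, ‖F z‖ ≤ B ∧ ‖F z - F 0‖ ≤ K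

namespace Lo
variable {r r' B B' K K' : ℝ} {q q' : ℝ → ℝ}

lemma mono (h : Lo r q B K) (hr : r' ≤ r) (hB : B ≤ B') (hK : K ≤ K') : Lo r' q B' K' := by
  obtain ⟨F, h1, h2⟩ := h
  exact ⟨F, h1.mono hr, fun z hz => ⟨(h2 z (ball_subset_ball hr hz)).1.trans hB,
    (h2 z (ball_subset_ball hr hz)).2.trans hK⟩⟩

lemma const (r a : ℝ) : Lo r (fun _ => a) |a| 0 := ⟨_, Ex.const r a, fun _ _ => by simp⟩

lemma add (h : Lo r q B K) (h' : Lo r q' B' K') : Lo r (fun t => q t + q' t) (B + B') (K + K') := by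
  obtain ⟨F, h1, h2⟩ := h
  obtain ⟨F', h1', h2'⟩ := h'
  refine ⟨_, h1.add h1', fun z hz =>
    ⟨(norm_add_le _ _).trans (add_le_add (h2 z hz).1 (h2' z hz).1), ?_⟩⟩
  rw [add_sub_add_comm]
  exact (norm_add_le _ _).trans (add_le_add (h2 z hz).2 (h2' z hz).2)

lemma mul (h : Lo r q B K) (h' : Lo r q' B' K') :
    Lo r (fun t => q t * q' t) (B * B') (K * B' + B * K') := by
  obtain ⟨F, h1, h2⟩ := h
  obtain ⟨F', h1', h2'⟩ := h'
  refine ⟨_, h1.mul h1', fun z hz => ?_⟩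
  have z0 : (0 : ℂ) ∈ ball (0 : ℂ) r := mem_ball_self (pos_of_mem_ball hz)
  have p := (norm_nonneg _).trans (h2 z hz).1
  refine ⟨by rw [norm_mul]; exact mul_le_mul (h2 z hz).1 (h2' z hz).1 (norm_nonneg _) p, ?_⟩
  rw [show F z * F' z - F 0 * F' 0 = (F z - F 0) * F' z + F 0 * (F' z - F' 0) by ring]
  refine (norm_add_le _ _).trans ?_
  rw [norm_mul, norm_mul]
  exact add_le_add (mul_le_mul (h2 z hz).2 (h2' z hz).1 (norm_nonneg _)
    ((norm_nonneg _).trans (h2 z hz).2)) (mul_le_mul (h2 0 z0).1 (h2' z hz).2 (norm_nonneg _) p)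

/-- averaging with a holomorphic kernel -/
lemma ker {Ω : Type*} [Fintype Ω] [Nonempty Ω] {p : ℝ → Ω → ℝ} {p0 : Ω → ℝ} {k : ℂ → Ω → ℂ}
    {q : Ω → ℝ → ℝ} {K : Ω → ℝ} {c : ℝ} (h0 : ∀ a, 0 ≤ p0 a) (h1 : ∑ a, p0 a = 1)
    (hk : ∀ a, Ex r (fun t => p t a) fun z => k z a)
    (hn : ∀ z ∈ ball (0 : ℂ) r, ∀ a, ‖k z a‖ ≤ 3 * p0 a)
    (hc : ∀ z ∈ ball (0 : ℂ) r, ‖∑ a, k z a * q a 0 - ∑ a, k 0 a * q a 0‖ ^ 2 ≤ c)
    (h : ∀ a, Lo r (q a) B (K a)) :
    Lo r (fun t => ∑ a, p t a * q a t) (3 * B) √(18 * ∑ a, p0 a * K a ^ 2 + 2 * c) := by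
  choose F hF hb using h
  refine ⟨_, Ex.sum _ fun a _ => (hk a).mul (hF a), fun z hz => ⟨?_, ?_⟩⟩
  · refine (norm_sum_le _ _).trans ?_
    calc _ ≤ ∑ a, 3 * p0 a * B := sum_le_sum fun a _ => by
          rw [norm_mul]
          exact mul_le_mul (hn z hz a) (hb a z hz).1 (norm_nonneg _) (by have := h0 a; positivity)
      _ = _ := by rw [← sum_mul, ← mul_sum, h1, mul_one]
  · refine Real.le_sqrt_of_sq_le ?_
    have hr := pos_of_mem_ball hz
    have e : ∑ a, k z a * F a z - ∑ a, k 0 a * F a 0 =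
        ∑ a, k z a * (F a z - F a 0) + (∑ a, k z a * q a 0 - ∑ a, k 0 a * q a 0) := by
      simp only [(hF _).zero hr, mul_sub, sum_sub_distrib]; ring
    have a1 := norm_sum_sq_le h0 h1 (hn z hz) fun a => F a z - F a 0
    have a2 : ∑ a, p0 a * ‖F a z - F a 0‖ ^ 2 ≤ ∑ a, p0 a * K a ^ 2 := sum_le_sum fun a _ =>
      mul_le_mul_of_nonneg_left (pow_le_pow_left₀ (norm_nonneg _) (hb a z hz).2 2) (h0 a)
    have a3 := hc z hz
    rw [e]
    set A := ∑ a, k z a * (F a z - F a 0)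
    set C := ∑ a, k z a * q a 0 - ∑ a, k 0 a * q a 0
    have a4 := pow_le_pow_left₀ (norm_nonneg _) (norm_add_le A C) 2
    nlinarith [sq_nonneg (‖A‖ - ‖C‖)]

/-- convex series -/
lemma tsum {p : ℕ → ℝ} {q : ℕ → ℝ → ℝ} {B K : ℕ → ℝ} {b k : ℝ} (h0 : ∀ j, 0 ≤ p j)
    (h1 : HasSum p 1) (hB : HasSum (fun j => p j * B j) b)
    (hK : HasSum (fun j => p j * K j ^ 2) k) (h : ∀ j, Lo r (q j) (B j) (K j)) :
    Lo r (fun t => ∑' j, p j * q j t) b √k := by
  choose F hF hb using h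
  have nb : ∀ j, ∀ z ∈ ball (0 : ℂ) r, ‖(p j : ℂ) * F j z‖ ≤ p j * B j := fun j z hz => by
    rw [norm_mul, Complex.norm_real, Real.norm_of_nonneg (h0 j)]
    exact mul_le_mul_of_nonneg_left (hb j z hz).1 (h0 j)
  have sm : ∀ z ∈ ball (0 : ℂ) r, Summable fun j => (p j : ℂ) * F j z := fun z hz =>
    .of_norm_bounded hB.summable fun j => nb j z hz
  refine ⟨fun z => ∑' j, (p j : ℂ) * F j z, ⟨Complex.differentiableOn_tsum_of_summable_norm
    hB.summable (fun j => (hF j).diff.const_mul _) isOpen_ball nb, fun t ht => ?_⟩,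
    fun z hz => ⟨tsum_of_norm_bounded hB fun j => nb j z hz, ?_⟩⟩
  · simp only [(hF _).eq t ht, Complex.ofReal_tsum, Complex.ofReal_mul]
  · have z0 : (0 : ℂ) ∈ ball (0 : ℂ) r := mem_ball_self (pos_of_mem_ball hz)
    have s1 : Summable fun j => p j * ‖F j z - F j 0‖ :=
      .of_nonneg_of_le (fun j => mul_nonneg (h0 j) (norm_nonneg _)) (fun j => by
        have := norm_sub_le (F j z) (F j 0)
        nlinarith [(hb j z hz).1, (hb j 0 z0).1, h0 j]) (hB.summable.mul_left 2)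
    beta_reduce
    rw [← (sm z hz).tsum_sub (sm 0 z0)]
    refine (tsum_of_norm_bounded s1.hasSum fun j => ?_).trans (Real.le_sqrt_of_sq_le ?_)
    · rw [← mul_sub, norm_mul, Complex.norm_real, Real.norm_of_nonneg (h0 j)]
    set m := ∑' j, p j * ‖F j z - F j 0‖
    have := hasSum_le (fun j => ?_) ((s1.hasSum.mul_left (2 * m)).sub (h1.mul_left (m ^ 2))) hK
    · linarith
    have a := pow_le_pow_left₀ (norm_nonneg _) (hb j z hz).2 2
    nlinarith [mul_nonneg (h0 j) (sq_nonneg (‖F j z - F j 0‖ - m)),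
      mul_le_mul_of_nonneg_left a (h0 j)]

end Lo

section fixed
variable {ι : Type*} [Fintype ι] [DecidableEq ι]

/-- bounded, holomorphic in each entry on a disc of variable radius, small mean oscillation -/
def AnR (ρ : (ι → ℝ) → ι → ℝ) (s : ℝ) (Q : (ι → ℝ) → ℝ) (B : ℝ) (G : (ι → ℝ) → ℝ) : Prop :=
  ∀ g, |Q g| ≤ B ∧ ∃ K : ι → ℝ, ∑ e, K e ^ 2 ≤ s ^ 4 * G g ∧
    ∀ e, Lo (ρ g e) (fun t => Q (sh s g e t)) B (K e)

variable {ρ ρ' : (ι → ℝ) → ι → ℝ} {s B B' : ℝ} {Q Q' G G' : (ι → ℝ) → ℝ}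

lemma anR_iff {r : ℝ} : AnR (fun _ _ => r) s Q B G ↔ AnS r s Q (fun _ => B) G := Iff.rfl

namespace AnR

lemma bnn (h : AnR ρ s Q B G) : 0 ≤ B := (abs_nonneg _).trans (h 0).1


lemma mono (h : AnR ρ s Q B G) (hρ : ∀ g e, ρ' g e ≤ ρ g e) (hB : B ≤ B') (hG : ∀ g, G g ≤ G' g) :
    AnR ρ' s Q B' G' := fun g => by
  obtain ⟨h0, K, hK, hF⟩ := h g
  exact ⟨h0.trans hB, K, hK.trans (by gcongr; exact hG g),
    fun e => (hF e).mono (hρ g e) hB le_rfl⟩

lemma const (ρ : (ι → ℝ) → ι → ℝ) (s a : ℝ) : AnR ρ s (fun _ => a) |a| fun _ => 0 := fun _ =>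
  ⟨le_rfl, 0, by simp, fun _ => Lo.const _ a⟩

lemma add (h : AnR ρ s Q B G) (h' : AnR ρ s Q' B' G') :
    AnR ρ s (fun g => Q g + Q' g) (B + B') fun g => 2 * G g + 2 * G' g := fun g => by
  obtain ⟨h0, K, hK, hF⟩ := h g
  obtain ⟨h0', K', hK', hF'⟩ := h' g
  refine ⟨(abs_add_le _ _).trans (add_le_add h0 h0'), fun e => K e + K' e, ?_,
    fun e => (hF e).add (hF' e)⟩
  calc _ ≤ ∑ e, (2 * K e ^ 2 + 2 * K' e ^ 2) :=
        sum_le_sum fun e _ => by nlinarith [sq_nonneg (K e - K' e)]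
    _ ≤ _ := by rw [sum_add_distrib, ← mul_sum, ← mul_sum]; linarith

lemma mul (h : AnR ρ s Q B G) (h' : AnR ρ s Q' B' G') :
    AnR ρ s (fun g => Q g * Q' g) (B * B') fun g => 2 * B' ^ 2 * G g + 2 * B ^ 2 * G' g := fun g => by
  obtain ⟨h0, K, hK, hF⟩ := h g
  obtain ⟨h0', K', hK', hF'⟩ := h' g
  refine ⟨by rw [abs_mul]; exact mul_le_mul h0 h0' (abs_nonneg _) h.bnn,
    fun e => K e * B' + B * K' e, ?_, fun e => (hF e).mul (hF' e)⟩
  calc _ ≤ ∑ e, (2 * B' ^ 2 * K e ^ 2 + 2 * B ^ 2 * K' e ^ 2) :=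
        sum_le_sum fun e _ => by nlinarith [sq_nonneg (K e * B' - B * K' e)]
    _ ≤ 2 * B' ^ 2 * (s ^ 4 * G g) + 2 * B ^ 2 * (s ^ 4 * G' g) := by
        rw [sum_add_distrib, ← mul_sum, ← mul_sum]; gcongr
    _ = _ := by ring

lemma tsum {p : ℕ → ℝ} {Q G : ℕ → (ι → ℝ) → ℝ} {B : ℕ → ℝ} {b : ℝ} (h0 : ∀ j, 0 ≤ p j)
    (h1 : HasSum p 1) (hB : HasSum (fun j => p j * B j) b)
    (hG : ∀ g, HasSum (fun j => p j * G j g) (G' g)) (h : ∀ j, AnR ρ s (Q j) (B j) (G j)) :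
    AnR ρ s (fun g => ∑' j, p j * Q j g) b G' := fun g => by
  choose a0 K hK hF using fun j => h j g
  have sK : ∀ e, Summable fun j => p j * K j e ^ 2 := fun e =>
    .of_nonneg_of_le (fun j => mul_nonneg (h0 j) (sq_nonneg _)) (fun j => by
      have := (single_le_sum (f := fun e => K j e ^ 2) (fun _ _ => sq_nonneg _) (mem_univ e)).trans
        (hK j)
      nlinarith [mul_le_mul_of_nonneg_left this (h0 j)]) ((hG g).summable.mul_left (s ^ 4))
  refine ⟨tsum_of_norm_bounded (f := fun j => p j * Q j g) hB fun j => ?_,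
    fun e => √(∑' j, p j * K j e ^ 2), ?_, fun e => Lo.tsum h0 h1 hB (sK e).hasSum fun j => hF j e⟩
  · rw [norm_mul, Real.norm_of_nonneg (h0 j)]
    exact mul_le_mul_of_nonneg_left (a0 j) (h0 j)
  · have e1 : ∀ e, √(∑' j, p j * K j e ^ 2) ^ 2 = ∑' j, p j * K j e ^ 2 := fun e =>
      Real.sq_sqrt (tsum_nonneg fun j => mul_nonneg (h0 j) (sq_nonneg _))
    simp only [e1]
    refine hasSum_le (fun j => ?_) (hasSum_sum fun e (_ : e ∈ univ) => (sK e).hasSum)
      ((hG g).mul_left (s ^ 4))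
    rw [← mul_sum]
    nlinarith [mul_le_mul_of_nonneg_left (hK j) (h0 j)]

end AnR

end fixed

variable {n : ℕ} {ρ : (Pair n → ℝ) → Pair n → ℝ} {B : ℝ}

lemma abs_ker_le {Ω : Type*} [Fintype Ω] {p f : Ω → ℝ} (h0 : ∀ a, 0 ≤ p a) (h1 : ∑ a, p a = 1)
    (hf : ∀ a, |f a| ≤ B) : |∑ a, p a * f a| ≤ B := (⟨h0, h1⟩ : Chain22.IsP p).abs_mean_le hf

lemma sum_ker_le {ι Ω : Type*} [Fintype ι] [Fintype Ω] {p G : Ω → ℝ} {K : Ω → ι → ℝ} {c : ι → ℝ}
    {S D : ℝ} (h0 : ∀ a, 0 ≤ p a) (hc0 : ∀ e, 0 ≤ c e) (hK : ∀ a, ∑ e, K a e ^ 2 ≤ S * G a)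
    (hc : ∑ e, c e ≤ S * D) :
    ∑ e, √(18 * ∑ a, p a * K a e ^ 2 + 2 * c e) ^ 2 ≤ S * (18 * ∑ a, p a * G a + 2 * D) := by
  have e1 : ∀ e, √(18 * ∑ a, p a * K a e ^ 2 + 2 * c e) ^ 2 =
      18 * ∑ a, p a * K a e ^ 2 + 2 * c e := fun e => Real.sq_sqrt (by
    have := hc0 e
    have := sum_nonneg fun a (_ : a ∈ univ) => mul_nonneg (h0 a) (sq_nonneg (K a e))
    positivity)
  have a1 : ∑ e, ∑ a, p a * K a e ^ 2 ≤ S * ∑ a, p a * G a := by
    rw [sum_comm, mul_sum]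
    refine sum_le_sum fun a _ => ?_
    rw [← mul_sum]
    nlinarith [mul_le_mul_of_nonneg_left (hK a) (h0 a)]
  simp only [e1, sum_add_distrib, ← mul_sum]
  nlinarith

lemma abs_unit_le {u : Cube n → ℝ} (hu : ∀ a, |u a| ≤ B) (x y : Cube n) :
    |∑ _i : Unit, u x * u y| ≤ B ^ 2 := by
  rw [univ_unique, sum_singleton, abs_mul, sq]
  exact mul_le_mul (hu x) (hu y) (abs_nonneg _) ((abs_nonneg _).trans (hu x))

/-- Gibbs means -/
lemma AnR.mean (hn : 0 < n) (hρ : ∀ g e, ρ g e ≤ 1 / 4) {F G : Cube n → (Pair n → ℝ) → ℝ}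
    (h : ∀ a, AnR ρ √(n : ℝ) (F a) B (G a)) :
    AnR ρ √(n : ℝ) (fun g => mean (gw n g) fun a => F a g) (3 * B) fun g =>
      18 * mean (gw n g) (fun a => G a g) +
        2 * ((2 * B ^ 4 + 2 * m2 (gw n g) fun x y => Rh n x y ^ 4) * (N23 n)⁻¹) := fun g => by
  choose a0 K hK hF using fun a => h a g
  have hB := (h fun _ => true).bnn
  refine ⟨(abs_ker_le (prob_nn (gw_pos g)) (sum_prob (gw_pos g)) a0).trans (by linarith),
    fun e => √(18 * ∑ a, prob (gw n g) a * K a e ^ 2 +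
      2 * tl (gw n g) (chi e) (fun a => F a g) ^ 2),
    sum_ker_le (prob_nn (gw_pos g)) (fun _ => sq_nonneg _) hK ?_, fun e => ?_⟩
  · have a1 := sum_tl_le (ι := Unit) (gw_pos g) (fun _ a => F a g) (abs_unit_le a0)
      (pow_pos (Soft.N23_pos hn) 2)
    simp only [lam_eq hn, m2_const_mul, m2_add, m2_const (gw_pos g), univ_unique,
      sum_singleton] at a1
    rw [mul_comm _ (N23 n)⁻¹, ← mul_assoc, ← N_sq hn]
    linarith
  · have := Lo.ker (p := fun t => prob (rw (gw n g) (chi e) t))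
      (k := fun z => pc (Un.cw (gw n g) (chi e) z)) (prob_nn (gw_pos g)) (sum_prob (gw_pos g))
      (fun a => (ex_pc (gw_pos g) (sgn_chi e) a).mono (hρ g e))
      (fun z hz => norm_pc (gw_pos g) (sgn_chi e) (ball_subset_ball (hρ g e) hz))
      (c := tl (gw n g) (chi e) (fun a => F a g) ^ 2) (fun z hz => ?_) fun a => hF a e
    · simpa only [E.mean, gw, gibbs_sh hn] using this
    refine pow_le_pow_left₀ (norm_nonneg _) (le_of_eq_of_le ?_ (tilt_le (gw_pos g) (sgn_chi e)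
      (ball_subset_ball (hρ g e) hz) fun a => F a g)) 2
    simp [pc_zero, E.mean, sh_zero]

/-- one step of the static chain -/
lemma AnR.step (hn : 0 < n) (hρ : ∀ g e, ρ g e ≤ 1 / 4) (K : ℝ) (x : Cube n)
    {F G : Cube n → (Pair n → ℝ) → ℝ} (h : ∀ a, AnR ρ √(n : ℝ) (F a) B (G a)) :
    AnR ρ √(n : ℝ) (fun g => ∑ a, k0 (hat n) K (gw n g) x a * F a g) (3 * B) fun g =>
      18 * ∑ a, k0 (hat n) K (gw n g) x a * G a g + 2 * ((2 * B ^ 4 +
        2 * E2 (hat n) K (gw n g) (fun y y' => Rh n y y' ^ 4) x) * (N23 n)⁻¹) := fun g => by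
  choose a0 L hL hF using fun a => h a g
  have hB := (h fun _ => true).bnn
  refine ⟨(abs_ker_le (k0_nn (gw_pos g) x) (k0_row (gw_pos g) x) a0).trans (by linarith),
    fun e => √(18 * ∑ a, k0 (hat n) K (gw n g) x a * L a e ^ 2 +
      2 * cv (hat n) K (gw n g) (chi e) (fun (_ : Unit) a => F a g) x),
    sum_ker_le (k0_nn (gw_pos g) x) (fun _ => sum_nonneg fun _ _ =>
      integral_nonneg fun _ => sq_nonneg _) hL ?_, fun e => ?_⟩
  · have a1 := sum_cv_le' (φ := hat n) (s := K) hn (gw_pos g) (fun (_ : Unit) a => F a g)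
      (abs_unit_le a0) x
    have a2 : E2 (hat n) K (gw n g) (fun _ _ => (B ^ 2) ^ 2) x = B ^ 4 := by
      simp only [E2, fun ζ => m2_const (po_pos (φ := hat n) (s := K) (gw_pos g) x ζ)]
      simp; ring
    rw [a2] at a1
    rwa [mul_comm _ (N23 n)⁻¹, ← mul_assoc, ← N_sq hn]
  · have := Lo.ker (p := fun t => k0 (hat n) K (rw (gw n g) (chi e) t) x)
      (k := fun z => kc (hat n) K (gw n g) (chi e) z x) (k0_nn (gw_pos g) x) (k0_row (gw_pos g) x)
      (fun a => (ex_kc (gw_pos g) (sgn_chi e) x a).mono (hρ g e))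
      (fun z hz => norm_kc (gw_pos g) (sgn_chi e) (ball_subset_ball (hρ g e) hz) x)
      (c := cv (hat n) K (gw n g) (chi e) (fun (_ : Unit) a => F a g) x) (fun z hz => ?_)
      fun a => hF a e
    · simpa only [gw, gibbs_sh hn] using this
    simpa only [sh_zero, univ_unique, sum_singleton] using kc_tilt (φ := hat n) (s := K) (gw_pos g)
      (sgn_chi e) (ball_subset_ball (hρ g e) hz) x fun (_ : Unit) a => F a g

/-! ### static observables at a fixed size -/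

lemma Tk_hat {K : ℝ} (hK : 0 ≤ K) (g : Pair n → ℝ) (f : (Fin n → ℝ) → ℝ) (x : Cube n) :
    Tk K (muG n g) f (hat n x) = ∑ a, k0 (hat n) K (gw n g) x a * f (hat n a) :=
  Sg.Tk_dm (gw_pos g) hK f x

/-- families of static observables -/
def ClF (n : ℕ) {A : Type} (f : A → (Pair n → ℝ) → (Fin n → ℝ) → ℝ) (B : ℝ)
    (Γ : (Pair n → ℝ) → ℝ) : Prop := ∃ G : (Pair n → ℝ) → Cube n → ℝ, (∀ g x, 0 ≤ G g x) ∧
  (∀ g, mean (gw n g) (G g) ≤ Γ g) ∧
  ∀ a x, AnR (fun _ _ => 1 / 4) √(n : ℝ) (fun g => f a g (hat n x)) B fun g => G g x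

/-- the exponential moment of the overlap -/
def XT (θ : ℝ) : Fam := fun n g => m2 (gw n g) fun x y => Real.exp (θ * Rh n x y)
/-- a majorant of the overlap terms -/
def YT (K : ℝ) : Fam := fun n g => 1 + 40320 * (XT (K + 1) n g + XT (-(K + 1)) n g)

lemma XT_nn (θ : ℝ) (g : Pair n → ℝ) : 0 ≤ XT θ n g :=
  m2_nonneg (gw_pos g) fun _ _ => (Real.exp_pos _).le

lemma YT_nn (K : ℝ) (g : Pair n → ℝ) : 0 ≤ YT K n g := by
  have := XT_nn (K + 1) g
  have := XT_nn (-(K + 1)) g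
  unfold YT; positivity

lemma pow8_le {K : ℝ} (hK : 0 ≤ K) (R : ℝ) : (R ^ 4) ^ 2 * Real.exp (K * R) ≤
    40320 * (Real.exp ((K + 1) * R) + Real.exp (-(K + 1) * R)) := by
  have h1 := Real.pow_div_factorial_le_exp |R| (abs_nonneg R) 8
  rw [div_le_iff₀ (by positivity), ← abs_pow, abs_of_nonneg (by positivity)] at h1
  have h2 : Real.exp (K * R) ≤ Real.exp (K * |R|) := by gcongr; exact le_abs_self R
  have h3 : Real.exp |R| * Real.exp (K * |R|) ≤
      Real.exp ((K + 1) * R) + Real.exp (-(K + 1) * R) := by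
    rw [← Real.exp_add]
    rcases abs_cases R with h | h <;> rw [h.1]
    · exact le_add_of_le_of_nonneg (le_of_eq (by ring_nf)) (Real.exp_pos _).le
    · exact le_add_of_nonneg_of_le (Real.exp_pos _).le (le_of_eq (by ring_nf))
  calc _ ≤ (Real.exp |R| * 40320) * Real.exp (K * |R|) := by
        rw [← pow_mul]; gcongr; exact h1.trans_eq (by norm_num [Nat.factorial])
    _ ≤ _ := by nlinarith

lemma mean_E2_Rh {K : ℝ} (hK : 0 ≤ K) (g : Pair n → ℝ) :
    mean (gw n g) (E2 (hat n) K (gw n g) fun y y' => Rh n y y' ^ 4) ≤ YT K n g := by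
  refine (mean_E2_le (gw_pos g) hK _).trans ?_
  simp only [YT, XT, ← m2_add, ← m2_const_mul, St.All.hat_dot_hat]
  exact add_le_add le_rfl (m2_mono (gw_pos g) fun x y => pow8_le hK _)

lemma m2_Rh_le (g : Pair n → ℝ) : (m2 (gw n g) fun x y => Rh n x y ^ 4) ≤ YT 0 n g := by
  have := m2_mono (gw_pos g) (F := fun x y => Rh n x y ^ 4) (G := fun x y => 1 + 40320 *
    (Real.exp ((0 + 1) * Rh n x y) + Real.exp (-(0 + 1) * Rh n x y))) fun x y => by
    have := pow8_le le_rfl (Rh n x y)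
    rw [zero_mul, Real.exp_zero] at this
    nlinarith [sq_nonneg (Rh n x y ^ 4 - 1)]
  rwa [m2_add, m2_const (gw_pos g), m2_const_mul, m2_add] at this

/-- the error of one step -/
def DT (K B : ℝ) : Fam := fun n g => (4 * B ^ 4 + 4 * YT K n g) * (N23 n)⁻¹

lemma DT_nn (K B : ℝ) (g : Pair n → ℝ) : 0 ≤ DT K B n g := by
  have := YT_nn K g
  have : 0 ≤ N23 n := by positivity
  unfold DT; positivity

namespace ClF
variable {A : Type} {f f' : A → (Pair n → ℝ) → (Fin n → ℝ) → ℝ} {B' : ℝ} {Γ Γ' : (Pair n → ℝ) → ℝ}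

lemma nn (h : ClF n f B Γ) (g : Pair n → ℝ) : 0 ≤ Γ g := by
  obtain ⟨G, h0, h1, -⟩ := h
  exact ((gwt g).mean_nonneg (h0 g)).trans (h1 g)

lemma mono (h : ClF n f B Γ) (hΓ : ∀ g, Γ g ≤ Γ' g) : ClF n f B Γ' := by
  obtain ⟨G, h0, h1, h2⟩ := h
  exact ⟨G, h0, fun g => (h1 g).trans (hΓ g), h2⟩

lemma const (v : A → (Fin n → ℝ) → ℝ) (hv : ∀ a x, |v a x| ≤ B) :
    ClF n (fun a _ => v a) B fun _ => 0 :=
  ⟨0, fun _ _ => le_rfl, fun _ => by simp [E.mean], fun a x =>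
    (AnR.const _ _ _).mono (fun _ _ => le_rfl) (hv a _) fun _ => le_rfl⟩

lemma add (h : ClF n f B Γ) (h' : ClF n f' B' Γ') :
    ClF n (fun a g x => f a g x + f' a g x) (B + B') fun g => 2 * Γ g + 2 * Γ' g := by
  obtain ⟨G, h0, h1, h2⟩ := h
  obtain ⟨G', h0', h1', h2'⟩ := h'
  refine ⟨_, fun g x => ?_, fun g => ?_, fun a x => (h2 a x).add (h2' a x)⟩
  · have := h0 g x; have := h0' g x; positivity
  · rw [mean_add, mean_const_mul, mean_const_mul]; linarith [h1 g, h1' g]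

lemma mul (h : ClF n f B Γ) (h' : ClF n f' B' Γ') : ClF n (fun a g x => f a g x * f' a g x) (B * B')
    fun g => 2 * B' ^ 2 * Γ g + 2 * B ^ 2 * Γ' g := by
  obtain ⟨G, h0, h1, h2⟩ := h
  obtain ⟨G', h0', h1', h2'⟩ := h'
  refine ⟨_, fun g x => ?_, fun g => ?_, fun a x => (h2 a x).mul (h2' a x)⟩
  · have := h0 g x; have := h0' g x; positivity
  · rw [mean_add, mean_const_mul, mean_const_mul]
    exact add_le_add (mul_le_mul_of_nonneg_left (h1 g) (by positivity))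
      (mul_le_mul_of_nonneg_left (h1' g) (by positivity))

lemma aux (hn : 0 < n) {K : ℝ} (hK : 0 ≤ K) (g : Pair n → ℝ) {u : Cube n → ℝ} {γ : ℝ}
    (h0 : ∀ x, 0 ≤ u x) (h : mean (gw n g) u ≤ γ) :
    (∀ x, 0 ≤ 18 * u x + 2 * ((2 * B ^ 4 +
        2 * E2 (hat n) K (gw n g) (fun y y' => Rh n y y' ^ 4) x) * (N23 n)⁻¹)) ∧
    mean (gw n g) (fun x => 18 * u x + 2 * ((2 * B ^ 4 +
        2 * E2 (hat n) K (gw n g) (fun y y' => Rh n y y' ^ 4) x) * (N23 n)⁻¹)) ≤
      18 * γ + DT K B n g := by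
  have hN := Soft.N23_pos hn
  refine ⟨fun x => ?_, ?_⟩
  · have := h0 x
    have := E2_nonneg (φ := hat n) (s := K) (gw_pos g) (F := fun y y' => Rh n y y' ^ 4)
      (fun _ _ => by positivity) x
    positivity
  · simp only [mul_comm _ (N23 n)⁻¹, mean_add, mean_const_mul, (gwt g).mean_const, DT]
    have := mul_le_mul_of_nonneg_left (mean_E2_Rh hK g) (inv_pos.2 hN).le
    linarith

lemma T (hn : 0 < n) {K : ℝ} (hK : 0 ≤ K) (h : ClF n f B Γ) :
    ClF n (fun a g => Tk K (muG n g) (f a g)) (3 * B) fun g => 18 * Γ g + DT K B n g := by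
  obtain ⟨G, h0, h1, h2⟩ := h
  have key := fun g => aux (B := B) hn hK g (k0_nonneg (φ := hat n) (s := K) (gw_pos g) (h0 g))
    ((mean_k0 (gw_pos g) hK (G g)).trans_le (h1 g))
  refine ⟨_, fun g => (key g).1, fun g => (key g).2, fun a x => ?_⟩
  simp only [Tk_hat hK]
  exact AnR.step hn (fun _ _ => le_rfl) K x (h2 a)

/-- the two-point step -/
lemma diag (hn : 0 < n) {K : ℝ} (hK : 0 ≤ K) {F : (Fin n → ℝ) → (Pair n → ℝ) → (Fin n → ℝ) → ℝ}
    (h : ClF n F B Γ) : ClF n (fun (_ : A) g x => Tk K (muG n g) (fun a => F a g x) x) (3 * B)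
      fun g => 18 * Γ g + DT K B n g := by
  obtain ⟨G, h0, h1, h2⟩ := h
  have key := fun g => aux (B := B) hn hK g (h0 g) (h1 g)
  refine ⟨_, fun g => (key g).1, fun g => (key g).2, fun a x => ?_⟩
  simpa only [Tk_hat hK, ← sum_mul, k0_row (gw_pos _), one_mul] using
    AnR.step hn (fun _ _ => le_rfl) K x fun b => h2 (hat n b) x

lemma iter (hn : 0 < n) {K : ℝ} (hK : 0 ≤ K) (h : ClF n f B Γ) (j : ℕ) :
    ClF n (fun a g => (Tk K (muG n g))^[j] (f a g)) (3 ^ j * B)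
      fun g => 81 ^ j * (Γ g + DT K B n g) := by
  induction j with
  | zero => simpa using h.mono fun g => le_add_of_nonneg_right (DT_nn K B g)
  | succ j ih =>
    have := (ih.T hn hK).mono (Γ' := fun g => 81 ^ (j + 1) * (Γ g + DT K B n g)) fun g => by
      have a1 : DT K (3 ^ j * B) n g ≤ 81 ^ j * DT K B n g := by
        have := YT_nn K g
        have := Soft.N23_pos hn
        have p : (1 : ℝ) ≤ 81 ^ j := one_le_pow₀ (by norm_num)
        have e : ((3 : ℝ) ^ j * B) ^ 4 = 81 ^ j * B ^ 4 := by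
          rw [mul_pow, ← pow_mul, mul_comm j, pow_mul]; norm_num
        rw [DT, DT, e, ← mul_assoc ((81 : ℝ) ^ j) (_ + _)]
        gcongr
        nlinarith
      have a2 := mul_nonneg (by positivity : (0 : ℝ) ≤ 81 ^ j) (h.nn g)
      have a3 := mul_nonneg (by positivity : (0 : ℝ) ≤ 81 ^ j) (DT_nn K B g)
      rw [pow_succ]; nlinarith
    simpa only [Function.iterate_succ_apply', pow_succ', mul_assoc] using this

lemma Q (hn : 0 < n) {K c : ℝ} (hK : 0 ≤ K) (hc : 0 ≤ c) (h : ClF n f B Γ) :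
    ClF n (fun a g => Qs K c (muG n g) (f a g)) (Real.exp (2 * c) * B)
      fun g => Real.exp (80 * c) * (Γ g + DT K B n g) := by
  choose G h0 h1 h2 using h.iter hn hK
  have p0 := Chain22.poi_nonneg hc
  have s1 : ∀ g, HasSum (fun j => poi c j * (81 ^ j * (Γ g + DT K B n g)))
      (Real.exp (80 * c) * (Γ g + DT K B n g)) := fun g => by
    have := (Chain22.hasSum_poi_pow c 81).mul_right (Γ g + DT K B n g)
    simpa only [mul_assoc, show -(c * (1 - 81)) = 80 * c by ring] using this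
  have s2 : ∀ g x, Summable fun j => poi c j * G j g x := fun g x => by
    have pp := Chain22.prob_pos' (gw_pos g) x
    refine .of_nonneg_of_le (fun j => mul_nonneg (p0 j) (h0 j g x)) (fun j => ?_)
      ((s1 g).summable.mul_left (prob (gw n g) x)⁻¹)
    have := (single_le_sum (f := fun x => prob (gw n g) x * G j g x)
      (fun y _ => mul_nonneg (prob_nn (gw_pos g) y) (h0 j g y)) (mem_univ x)).trans (h1 j g)
    rw [le_inv_mul_iff₀ pp, mul_left_comm]
    exact mul_le_mul_of_nonneg_left this (p0 j)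
  refine ⟨fun g x => ∑' j, poi c j * G j g x,
    fun g x => tsum_nonneg fun j => mul_nonneg (p0 j) (h0 j g x), fun g => ?_, fun a x =>
    AnR.tsum p0 (Chain22.hasSum_poi c) ?_ (fun g => (s2 g x).hasSum) fun j => h2 j a x⟩
  · refine hasSum_le (fun j => ?_) (hasSum_sum fun x (_ : x ∈ univ) =>
      (s2 g x).hasSum.mul_left (prob (gw n g) x)) (s1 g)
    simp only [mul_left_comm _ (poi c j), ← mul_sum]
    exact mul_le_mul_of_nonneg_left (h1 j g) (p0 j)
  · have := (Chain22.hasSum_poi_pow c 3).mul_right B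
    simpa only [mul_assoc, show -(c * (1 - 3)) = 2 * c by ring] using this

end ClF

/-! ### sequences -/

lemma meas_gw (x : Cube n) : Measurable fun g => gw n g x := by
  unfold gw gibbsWeight; fun_prop

lemma meas_prob (x : Cube n) : Measurable fun g => prob (gw n g) x :=
  (meas_gw x).div (measurable_sum _ fun y _ => meas_gw y)

lemma tt_XT (θ : ℝ) : Tt (XT θ) := by
  refine ⟨⟨fun n => measurable_sum _ fun x _ => measurable_sum _ fun y _ =>
    ((meas_prob x).mul (meas_prob y)).mul_const _, fun _ => XT_nn θ, 1 / 4, 9, by norm_num,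
    by norm_num, (eventually_gt_atTop 0).mono fun n hn => (anS_m2 hn
      (fun _ _ => (Real.exp_pos _).le) fun x y => ?_).pm⟩, St.All.ld2_gauss θ⟩
  rw [Rh, Rh, dotProduct_comm]

lemma tt_YT (K : ℝ) : Tt (YT K) :=
  (Tt.const zero_le_one).add ((Tt.const (by norm_num)).mul ((tt_XT _).add (tt_XT _)))

lemma nl_invN : Nl fun n _ => (N23 n)⁻¹ :=
  .of_tendsto (fun n => by positivity) (tendsto_inv_atTop_zero.comp
    ((tendsto_rpow_atTop (by norm_num)).comp tendsto_natCast_atTop_atTop))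

lemma nl_DT (K B : ℝ) : Nl (DT K B) :=
  ((Tt.const (by positivity)).add ((Tt.const (by norm_num)).mul (tt_YT K))).mul_nl nl_invN

/-- **the class of static observables** -/
def Cl {A : ℕ → Type} (f : ∀ n, A n → (Pair n → ℝ) → (Fin n → ℝ) → ℝ) : Prop :=
  ∃ (B : ℝ) (Γ : Fam), Nl Γ ∧ ∀ᶠ n : ℕ in atTop, ClF n (f n) B (Γ n)

namespace Cl
variable {A : ℕ → Type} {f f' : ∀ n, A n → (Pair n → ℝ) → (Fin n → ℝ) → ℝ}

lemma const (v : ∀ n, A n → (Fin n → ℝ) → ℝ) {B : ℝ} (hv : ∀ n a x, |v n a x| ≤ B) :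
    Cl fun n a _ => v n a := ⟨B, _, .zero, .of_forall fun n => .const _ (hv n)⟩

lemma add (h : Cl f) (h' : Cl f') : Cl fun n a g x => f n a g x + f' n a g x := by
  obtain ⟨B, Γ, h1, h2⟩ := h
  obtain ⟨B', Γ', h1', h2'⟩ := h'
  exact ⟨_, _, (h1.const_mul zero_le_two).add (h1'.const_mul zero_le_two),
    (h2.and h2').mono fun n a => a.1.add a.2⟩

lemma mul (h : Cl f) (h' : Cl f') : Cl fun n a g x => f n a g x * f' n a g x := by
  obtain ⟨B, Γ, h1, h2⟩ := h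
  obtain ⟨B', Γ', h1', h2'⟩ := h'
  exact ⟨_, _, (h1.const_mul (by positivity)).add (h1'.const_mul (by positivity)),
    (h2.and h2').mono fun n a => a.1.mul a.2⟩

lemma T {K : ℝ} (hK : 0 ≤ K) (h : Cl f) : Cl fun n a g => Tk K (muG n g) (f n a g) := by
  obtain ⟨B, Γ, h1, h2⟩ := h
  exact ⟨_, _, (h1.const_mul (by norm_num)).add (nl_DT K B),
    (h2.and (eventually_gt_atTop 0)).mono fun n a => a.1.T a.2 hK⟩

lemma diag {K : ℝ} (hK : 0 ≤ K) {F : ∀ n, (Fin n → ℝ) → (Pair n → ℝ) → (Fin n → ℝ) → ℝ} (h : Cl F) :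
    Cl fun n (_ : A n) g x => Tk K (muG n g) (fun a => F n a g x) x := by
  obtain ⟨B, Γ, h1, h2⟩ := h
  exact ⟨_, _, (h1.const_mul (by norm_num)).add (nl_DT K B),
    (h2.and (eventually_gt_atTop 0)).mono fun n a => a.1.diag a.2 hK⟩

lemma Q {K c : ℝ} (hK : 0 ≤ K) (hc : 0 ≤ c) (h : Cl f) :
    Cl fun n a g => Qs K c (muG n g) (f n a g) := by
  obtain ⟨B, Γ, h1, h2⟩ := h
  exact ⟨_, _, (h1.add (nl_DT K B)).const_mul (Real.exp_pos _).le,
    (h2.and (eventually_gt_atTop 0)).mono fun n a => a.1.Q a.2 hK hc⟩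

lemma psi {L K' K c : ℝ} (hK' : 0 ≤ K') (hK : 0 ≤ K) (hc : 0 ≤ c) :
    Cl fun n (_ : A n) g => psiS (muG n g) L K' K c :=
  diag hK' (((const (fun n (a : Fin n → ℝ) a' => L * Real.sin (a ⬝ᵥ a' / L)) (B := |L|)
    fun _ _ _ => by
      rw [abs_mul]; exact mul_le_of_le_one_right (abs_nonneg _) (Real.abs_sin_le_one _)).T hK').Q
        hK hc)

end Cl

/-- **admissible expressions are in the class** -/
theorem cl_ev {A : ℕ → Type} {v : ∀ n, A n → (Pair n → ℝ) → (Fin n → ℝ) → ℝ} (hv : Cl v) :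
    ∀ e : SE, e.Adm → Cl fun n a g => e.ev (muG n g) (v n a g)
  | .var, _ => hv
  | .psi _ _ _ _, h => Cl.psi h.2.1.le h.2.2.1.le h.2.2.2
  | .const a, _ => Cl.const (fun _ _ _ => a) fun _ _ _ => le_rfl
  | .add e e', h => (cl_ev hv e h.1).add (cl_ev hv e' h.2)
  | .mul e e', h => (cl_ev hv e h.1).mul (cl_ev hv e' h.2)
  | .T _ e, h => (cl_ev hv e h.2).T h.1.le
  | .Q _ _ e, h => (cl_ev hv e h.2.2).Q h.1.le h.2.1

/-- the form used for the coins -/
theorem ev_anS (e : SE) (he : e.Adm) : ∃ (B : ℝ) (Γ : Fam), Nl Γ ∧ ∀ᶠ n : ℕ in atTop,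
    ∃ G : (Pair n → ℝ) → Cube n → ℝ, (∀ g x, 0 ≤ G g x) ∧ (∀ g, mean (gw n g) (G g) ≤ Γ n g) ∧
      ∀ x, AnS (1 / 4) √(n : ℝ) (fun g => e.ev (muG n g) 0 (hat n x)) (fun _ => B)
        fun g => G g x := by
  obtain ⟨B, Γ, h1, h2⟩ := cl_ev (A := fun _ => Unit)
    (Cl.const (fun _ _ => 0) (B := 0) fun _ _ _ => by simp) e he
  exact ⟨B, Γ, h1, h2.mono fun n ⟨G, a, b, c⟩ => ⟨G, a, b, c ()⟩⟩

end Crest.Agent.T157.Cq.Ut75

end
end

-- ▼ part T157/CqUtB_75
section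

/-!
# Row 157, part C: universality of the scalars, B (helper75)

The mark `1 / (1 + x · ((N (2 - W))² + 1)⁻¹ x)` under a complex change of one entry of `W`.
-/

set_option autoImplicit false
set_option linter.unusedSectionVars false

noncomputable section

namespace Crest.Agent.T157.Cq.Ut75

open Metric Finset Matrix
open Crest.Agent.T157.Eig Crest.Agent.T157.Un

/-- the scalar resolvent -/
def rc (N σ x : ℝ) : ℂ := ((N * (2 - x) : ℝ) + σ * Complex.I)⁻¹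
/-- its modulus -/
def hh (N x : ℝ) : ℝ := (√((N * (2 - x)) ^ 2 + 1))⁻¹
/-- its squared modulus -/
def ff (N x : ℝ) : ℝ := ((N * (2 - x)) ^ 2 + 1)⁻¹

lemma hh_nn (N x : ℝ) : 0 ≤ hh N x := by unfold hh; positivity
lemma ff_nn (N x : ℝ) : 0 ≤ ff N x := by unfold ff; positivity
lemma hh_sq (N x : ℝ) : hh N x ^ 2 = ff N x := by
  rw [hh, inv_pow, Real.sq_sqrt (by positivity), ff]

lemma den_ne {σ : ℝ} (hσ : σ ^ 2 = 1) (u : ℝ) : (u : ℂ) + σ * Complex.I ≠ 0 := fun h => by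
  have := congrArg Complex.im h
  simp only [Complex.add_im, Complex.ofReal_im, Complex.mul_im, Complex.ofReal_re, Complex.I_im,
    Complex.I_re, mul_one, mul_zero, add_zero, zero_add, Complex.zero_im] at this
  simp [this] at hσ

lemma norm_rc {σ : ℝ} (hσ : σ ^ 2 = 1) (N x : ℝ) : ‖rc N σ x‖ = hh N x := by
  rw [rc, norm_inv, Complex.norm_add_mul_I, hσ, hh]

lemma rc_mul (N x : ℝ) : rc N 1 x * rc N (-1) x = ff N x := by
  rw [rc, rc, ← mul_inv, ff]
  push_cast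
  congr 1
  linear_combination (-1 : ℂ) * Complex.I_sq

/-- the `2 × 2` system -/
lemma two_le {p q q' u v : ℂ} {m : ℝ} (hp : ‖p‖ ≤ 1 / 8) (hq : ‖q‖ ≤ 1 / 8) (hq' : ‖q'‖ ≤ 1 / 8)
    (hu : ‖u‖ ≤ m) (hv : ‖v‖ ≤ m) :
    (1 - p) ^ 2 - q * q' ≠ 0 ∧ ‖((1 - p) * u + q * v) / ((1 - p) ^ 2 - q * q')‖ ≤ 2 * m := by
  have hm := (norm_nonneg _).trans hu
  have a1 : 7 / 8 ≤ ‖1 - p‖ := by have := norm_sub_norm_le 1 p; rw [norm_one] at this; linarith
  have a2 : ‖1 - p‖ ≤ 9 / 8 := by have := norm_sub_le 1 p; rw [norm_one] at this; linarith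
  have a3 : 3 / 4 ≤ ‖(1 - p) ^ 2 - q * q'‖ := by
    have := norm_sub_norm_le ((1 - p) ^ 2) (q * q')
    rw [norm_pow, norm_mul] at this
    nlinarith [mul_le_mul hq hq' (norm_nonneg _) (by norm_num)]
  refine ⟨norm_pos_iff.1 (by linarith), ?_⟩
  rw [norm_div, div_le_iff₀ (by linarith)]
  have := norm_add_le ((1 - p) * u) (q * v)
  rw [norm_mul, norm_mul] at this
  nlinarith [mul_le_mul a2 hu (norm_nonneg _) (by norm_num),
    mul_le_mul hq hv (norm_nonneg _) (by norm_num)]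

/-- the inverse of `1 + X` under a small relative perturbation -/
lemma inv_le {X δ : ℝ} {Y : ℂ} (hX : 0 ≤ X) (hδ0 : 0 ≤ δ) (hδ : δ ≤ 1 / 4)
    (h : ‖Y - X‖ ≤ 2 * δ * (1 + X)) :
    1 + Y ≠ 0 ∧ ‖1 / (1 + Y)‖ ≤ 2 ∧ ‖1 / (1 + Y) - 1 / (1 + X)‖ ≤ 4 * δ := by
  have a0 : ‖(1 : ℂ) + X‖ = 1 + X := by
    rw [← Complex.ofReal_one, ← Complex.ofReal_add, Complex.norm_real,
      Real.norm_of_nonneg (by positivity)]
  have a1 : (1 + X) / 2 ≤ ‖1 + Y‖ := by
    have := norm_sub_norm_le ((1 : ℂ) + X) (1 + Y)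
    rw [a0, add_sub_add_left_eq_sub, norm_sub_rev] at this
    nlinarith
  have a2 : 0 < ‖1 + Y‖ := lt_of_lt_of_le (by positivity) a1
  have n1 : 1 + Y ≠ 0 := norm_pos_iff.1 a2
  have n0 : (1 : ℂ) + X ≠ 0 := norm_pos_iff.1 (by rw [a0]; positivity)
  refine ⟨n1, ?_, ?_⟩
  · rw [norm_div, norm_one, div_le_iff₀ a2]; linarith
  · rw [div_sub_div _ _ n1 n0, norm_div, norm_mul, a0, div_le_iff₀ (by positivity),
      show 1 * ((1 : ℂ) + X) - (1 + Y) * 1 = -(Y - X) by ring, norm_neg]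
    refine h.trans ?_
    nlinarith [mul_nonneg (mul_nonneg hδ0 (by positivity : 0 ≤ 1 + X))
      (by linarith : 0 ≤ 2 * ‖1 + Y‖ - 1)]

variable {ι : Type*} [Fintype ι] [DecidableEq ι] {W : Matrix ι ι ℝ}

/-- a real vector as a complex one -/
def cv' (u : ι → ℝ) : ι → ℂ := fun i => u i

lemma cv'_single (i : ι) : cv' (Pi.single i 1) = Pi.single i 1 := by
  funext c; by_cases h : c = i <;> simp [cv', h]

lemma bil_cs (r : ℝ → ℂ) (A : Matrix ι ι ℝ) (p q : ι → ℝ) :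
    ‖cv' p ⬝ᵥ fnK r A *ᵥ cv' q‖ ^ 2 ≤
      (p ⬝ᵥ fnK (fun x => ‖r x‖) A *ᵥ p) * (q ⬝ᵥ fnK (fun x => ‖r x‖) A *ᵥ q) := by
  unfold cv'
  rw [quad_fnK, quad_fnK]
  erw [bil_fnK]
  refine (pow_le_pow_left₀ (norm_nonneg _) (norm_sum_le _ _) 2).trans
    (sum_sq_le_sum_mul_sum_of_sq_le_mul _ (fun _ _ => mul_nonneg (norm_nonneg _) (mul_self_nonneg _))
      (fun _ _ => mul_nonneg (norm_nonneg _) (mul_self_nonneg _)) fun k _ => le_of_eq ?_)
  rw [norm_mul, mul_pow, RCLike.norm_ofReal, sq_abs]; ring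

lemma quad_nn {f : ℝ → ℝ} (hf : ∀ x, 0 ≤ f x) (A : Matrix ι ι ℝ) (p : ι → ℝ) :
    0 ≤ p ⬝ᵥ fnK f A *ᵥ p := by
  rw [quad_fnK]; exact sum_nonneg fun _ _ => mul_nonneg (hf _) (mul_self_nonneg _)


lemma quad_cs {f : ℝ → ℝ} (hf : ∀ x, 0 ≤ f x) (A : Matrix ι ι ℝ) (p q : ι → ℝ) :
    (p ⬝ᵥ fnK f A *ᵥ q) ^ 2 ≤ (p ⬝ᵥ fnK f A *ᵥ p) * (q ⬝ᵥ fnK f A *ᵥ q) := by
  simp only [quad_fnK]
  exact sum_sq_le_sum_mul_sum_of_sq_le_mul _ (fun _ _ => mul_nonneg (hf _) (mul_self_nonneg _))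
    (fun _ _ => mul_nonneg (hf _) (mul_self_nonneg _)) fun k _ => le_of_eq (by ring)

lemma quad_hh (hW : W.IsHermitian) (N : ℝ) (x : ι → ℝ) :
    (x ⬝ᵥ fnK (hh N) W *ᵥ x) ^ 2 ≤ (x ⬝ᵥ x) * (x ⬝ᵥ fnK (ff N) W *ᵥ x) := by
  rw [quad_fnK, quad_fnK, dot_eq hW x x]
  exact sum_sq_le_sum_mul_sum_of_sq_le_mul _ (fun _ _ => mul_self_nonneg _)
    (fun _ _ => mul_nonneg (ff_nn _ _) (mul_self_nonneg _)) fun k _ =>
      le_of_eq (by rw [← hh_sq]; ring)

lemma quad_single {K : Type*} [CommRing K] (M : Matrix ι ι K) (a b : ι) :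
    Pi.single a 1 ⬝ᵥ M *ᵥ Pi.single b 1 = M a b := by simp

lemma bil_real (f : ℝ → ℝ) (A : Matrix ι ι ℝ) (p q : ι → ℝ) :
    cv' p ⬝ᵥ fnK (fun x => (f x : ℂ)) A *ᵥ cv' q = (p ⬝ᵥ fnK f A *ᵥ q : ℝ) := by
  unfold cv'
  rw [quad_fnK]
  erw [bil_fnK]
  push_cast; rfl

lemma dot_rc (hW : W.IsHermitian) (N : ℝ) (p q : ι → ℂ) :
    (fnK (rc N 1) W *ᵥ p) ⬝ᵥ (fnK (rc N (-1)) W *ᵥ q) =
      p ⬝ᵥ fnK (fun x => (ff N x : ℂ)) W *ᵥ q := by
  have : (fnK (rc N 1) W)ᵀ = fnK (rc N 1) W := by ext a b; exact fnK_symm _ _ _ _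
  rw [← this, mulVec_transpose, ← dotProduct_mulVec, mulVec_mulVec, fnK_mul hW]
  simp only [rc_mul]

/-- solution of the `2 × 2` system -/
def al (R : Matrix ι ι ℂ) (u : ι → ℂ) (i j : ι) (ζ : ℂ) : ℂ :=
  ((1 - ζ * R i j) * u i + ζ * R i i * u j) / ((1 - ζ * R i j) ^ 2 - ζ * R i i * (ζ * R j j))

/-- the symmetric elementary matrix -/
def Eij (i j : ι) : Matrix ι ι ℝ := single i j 1 + single j i 1

lemma Eij_herm (i j : ι) : (Eij i j).IsHermitian := by
  rw [herm_iff]; simp [Eij, add_comm]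

lemma H_eq {A : Matrix ι ι ℝ} (hA : A.IsHermitian) (N σ : ℝ) :
    fnK (fun x => ((N * (2 - x) : ℝ) : ℂ) + σ * Complex.I) A =
      (2 * N + σ * Complex.I : ℂ) • (1 : Matrix ι ι ℂ) - (N : ℂ) • A.map fun x => (x : ℂ) := by
  have := fnK_id (K := ℂ) hA
  erw [← fnK_const hA, ← this, ← fnK_smul, ← fnK_sub]
  congr 1; funext x; push_cast
  change _ = _ - (N : ℂ) * (x : ℂ)
  ring

lemma solve (hW : W.IsHermitian) {σ : ℝ} (hσ : σ ^ 2 = 1) (N t : ℝ) (i j : ι) (x : ι → ℂ)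
    {R : Matrix ι ι ℂ} (hR : R = fnK (rc N σ) W) {ζ : ℂ} (hζ : ζ = t * N)
    (hD : (1 - ζ * R i j) ^ 2 - ζ * R i i * (ζ * R j j) ≠ 0) :
    fnK (rc N σ) (W + t • Eij i j) *ᵥ x = R *ᵥ (x + (ζ * al R (R *ᵥ x) j i ζ) • Pi.single i 1 +
      (ζ * al R (R *ᵥ x) i j ζ) • Pi.single j 1) := by
  have hW' : (W + t • Eij i j).IsHermitian := hW.add (herm_smul (Eij_herm i j) t)
  have inv : ∀ {A : Matrix ι ι ℝ}, A.IsHermitian →
      fnK (rc N σ) A * fnK (fun x => ((N * (2 - x) : ℝ) : ℂ) + σ * Complex.I) A = 1 := fun hA => by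
    rw [fnK_mul hA, ← fnK_one hA]
    exact fnK_congr fun k _ => inv_mul_cancel₀ (den_ne hσ _)
  have sy : R j i = R i j := by rw [hR]; exact fnK_symm _ _ _ _
  have two : ∀ p q q' u v : ℂ, (1 - p) ^ 2 - q * q' ≠ 0 →
      u + q * (((1 - p) * v + q' * u) / ((1 - p) ^ 2 - q' * q)) +
        p * (((1 - p) * u + q * v) / ((1 - p) ^ 2 - q * q')) =
      ((1 - p) * u + q * v) / ((1 - p) ^ 2 - q * q') := fun p q q' u v h => by
    rw [mul_comm q' q]; field_simp; ring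
  set a := R *ᵥ (x + (ζ * al R (R *ᵥ x) j i ζ) • Pi.single i 1 +
      (ζ * al R (R *ᵥ x) i j ζ) • Pi.single j 1) with ha
  have ac : ∀ c, a c = (R *ᵥ x) c + ζ * al R (R *ᵥ x) j i ζ * R c i +
      ζ * al R (R *ᵥ x) i j ζ * R c j := fun c => by
    simp [ha, mulVec_add, mulVec_smul]
  have ai : a i = al R (R *ᵥ x) i j ζ := by
    rw [ac, al, al, sy]; linear_combination two _ _ _ ((R *ᵥ x) i) ((R *ᵥ x) j) hD
  have aj : a j = al R (R *ᵥ x) j i ζ := by
    rw [ac, al, al, sy]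
    linear_combination two _ _ _ ((R *ᵥ x) j) ((R *ᵥ x) i) (by rwa [mul_comm (ζ * R i i)] at hD)
  have e1 : fnK (fun x => ((N * (2 - x) : ℝ) : ℂ) + σ * Complex.I) (W + t • Eij i j) =
      fnK (fun x => ((N * (2 - x) : ℝ) : ℂ) + σ * Complex.I) W -
        ζ • (single i j 1 + single j i 1) := by
    rw [H_eq hW', H_eq hW, hζ]
    ext a b
    simp only [Eij, Matrix.sub_apply, Matrix.smul_apply, map_apply, Matrix.add_apply, smul_eq_mul,
      single_apply]
    push_cast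
    split_ifs <;> simp <;> ring
  have e2 : fnK (fun x => ((N * (2 - x) : ℝ) : ℂ) + σ * Complex.I) (W + t • Eij i j) *ᵥ a = x := by
    rw [e1, sub_mulVec, smul_mulVec, add_mulVec, single_mulVec, single_mulVec, ai, aj, ha,
      mulVec_mulVec, hR, mul_eq_one_comm.1 (inv hW), one_mulVec]
    funext c
    simp only [Pi.sub_apply, Pi.add_apply, Pi.smul_apply, smul_eq_mul, Pi.single_apply,
      Function.update_apply, Pi.zero_apply]
    split_ifs <;> ring
  rw [← e2, mulVec_mulVec, inv hW', one_mulVec]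

/-- the perturbed quadratic form -/
def Xz (F : Matrix ι ι ℝ) (x : ι → ℝ) (i j : ι) (a b a' b' : ℂ) : ℂ :=
  (x ⬝ᵥ F *ᵥ x : ℝ) + (b + b') * ((F *ᵥ x) i : ℝ) + (a + a') * ((F *ᵥ x) j : ℝ) +
    b * b' * F i i + (b * a' + a * b') * F i j + a * a' * F j j

lemma Xz_eq (f : ℝ → ℝ) (x : ι → ℝ) (i j : ι) (a b a' b' : ℂ) :
    (cv' x + b • Pi.single i 1 + a • Pi.single j 1) ⬝ᵥ fnK (fun y => (f y : ℂ)) W *ᵥ
      (cv' x + b' • Pi.single i 1 + a' • Pi.single j 1) = Xz (fnK f W) x i j a b a' b' := by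
  have sy : ∀ c, x ⬝ᵥ fnK f W *ᵥ Pi.single c 1 = (fnK f W *ᵥ x) c := fun c => by
    rw [← single_one_dotProduct c (fnK f W *ᵥ x), quad_fnK, quad_fnK]
    simp only [mul_comm (vec W _ ⬝ᵥ x)]
  simp only [← cv'_single, add_dotProduct, mulVec_add, dotProduct_add, smul_dotProduct, mulVec_smul,
    dotProduct_smul, bil_real, smul_eq_mul, sy, quad_single]
  simp only [single_one_dotProduct, Xz, fnK_symm f W j i]
  ring

lemma Xz_le {F : Matrix ι ι ℝ} {x : ι → ℝ} {i j : ι} {a b a' b' : ℂ} {μ ψ ξ : ℝ} (ha : ‖a‖ ≤ μ)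
    (hb : ‖b‖ ≤ μ) (ha' : ‖a'‖ ≤ μ) (hb' : ‖b'‖ ≤ μ) (h1 : |(F *ᵥ x) i| ≤ ψ * ξ)
    (h2 : |(F *ᵥ x) j| ≤ ψ * ξ) (h3 : |F i i| ≤ ψ ^ 2) (h4 : |F i j| ≤ ψ ^ 2) (h5 : |F j j| ≤ ψ ^ 2) :
    ‖Xz F x i j a b a' b' - (x ⬝ᵥ F *ᵥ x : ℝ)‖ ≤ 2 * (2 * μ * ψ) * ξ + (2 * μ * ψ) ^ 2 := by
  have hμ := (norm_nonneg _).trans ha
  have k1 : ∀ {u : ℂ} {y A B : ℝ}, ‖u‖ ≤ A → |y| ≤ B → ‖u * y‖ ≤ A * B := fun h h' => by
    rw [norm_mul, Complex.norm_real, Real.norm_eq_abs]
    exact mul_le_mul h h' (abs_nonneg _) ((norm_nonneg _).trans h)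
  have k2 : ∀ {u v : ℂ}, ‖u‖ ≤ μ → ‖v‖ ≤ μ → ‖u * v‖ ≤ μ * μ := fun h h' => by
    rw [norm_mul]; exact mul_le_mul h h' (norm_nonneg _) hμ
  rw [Xz, show ∀ X A B C D E : ℂ, X + A + B + C + D + E - X = A + B + C + D + E by intros; ring]
  refine (norm_add_le_of_le (norm_add_le_of_le (norm_add_le_of_le (norm_add_le_of_le
    (k1 (norm_add_le_of_le hb hb') h1) (k1 (norm_add_le_of_le ha ha') h2)) (k1 (k2 hb hb') h3))
    (k1 (norm_add_le_of_le (k2 hb ha') (k2 ha hb')) h4)) (k1 (k2 ha ha') h5)).trans (le_of_eq ?_)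
  ring

lemma Xz_diff {F : Matrix ι ι ℝ} {x : ι → ℝ} {i j : ι} {a b a' b' : ℂ → ℂ} {S : Set ℂ}
    (ha : DifferentiableOn ℂ a S) (hb : DifferentiableOn ℂ b S) (ha' : DifferentiableOn ℂ a' S)
    (hb' : DifferentiableOn ℂ b' S) :
    DifferentiableOn ℂ (fun z => Xz F x i j (a z) (b z) (a' z) (b' z)) S := by
  unfold Xz; fun_prop

/-- **the mark** -/
theorem lo_mark (hW : W.IsHermitian) {N s Z P δ : ℝ} (hN : 0 < N) (hs : 0 ≤ s) (hZ : 0 < Z)
    (hP : 0 ≤ P) (hδ0 : 0 < δ) (hδ : δ ≤ 1 / 4) (hδ' : s * P ≤ 4 * N * δ ^ 2) (i j : ι) {x : ι → ℝ}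
    (hx : x ⬝ᵥ x ≤ s ^ 2) (h1 : ∀ c, c = i ∨ c = j → N * fnK (hh N) W c c ≤ Z)
    (h2 : ∀ c, c = i ∨ c = j → N ^ 2 * fnK (ff N) W c c ≤ Z * P) :
    Lo (1 / (8 * Z)) (fun t => 1 / (1 + x ⬝ᵥ fnK (ff N) (W + t • Eij i j) *ᵥ x)) 2 (4 * δ) := by
  set X := x ⬝ᵥ fnK (ff N) W *ᵥ x with hX
  have X0 : 0 ≤ X := quad_nn (ff_nn N) W x
  set ξ := √X
  have ξ0 : 0 ≤ ξ := Real.sqrt_nonneg _
  have ξ2 : ξ ^ 2 = X := Real.sq_sqrt X0
  set m := √(Z / N * (s * ξ))
  have m2 : m ^ 2 = Z / N * (s * ξ) := Real.sq_sqrt (by positivity)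
  set ψ := √(Z * P / N ^ 2)
  have ψ2 : ψ ^ 2 = Z * P / N ^ 2 := Real.sq_sqrt (by positivity)
  have d0 : ∀ {f : ℝ → ℝ}, (∀ y, 0 ≤ f y) → ∀ c, 0 ≤ fnK f W c c := fun hf c => by
    simpa using quad_nn hf W (Pi.single c 1)
  have g1 : ∀ c, c = i ∨ c = j → fnK (hh N) W c c ≤ Z / N := fun c hc => by
    rw [le_div_iff₀' hN]; exact h1 c hc
  have g2 : ∀ c, c = i ∨ c = j → fnK (ff N) W c c ≤ ψ ^ 2 := fun c hc => by
    rw [ψ2, le_div_iff₀' (by positivity)]; exact h2 c hc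
  have g3 : x ⬝ᵥ fnK (hh N) W *ᵥ x ≤ s * ξ := le_of_pow_le_pow_left₀ two_ne_zero
    (by positivity) ((quad_hh hW N x).trans (by rw [mul_pow, ξ2]; gcongr))
  have r1 : ∀ {σ : ℝ}, σ ^ 2 = 1 → ∀ c d, c = i ∨ c = j → d = i ∨ d = j →
      ∀ z ∈ ball (0 : ℂ) (1 / (8 * Z)), ‖z * N * fnK (rc N σ) W c d‖ ≤ 1 / 8 := by
    intro σ hσ c d hc hd z hz
    have a := bil_cs (rc N σ) W (Pi.single c 1) (Pi.single d 1)
    simp only [cv'_single, quad_single, norm_rc hσ] at a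
    have b : ‖fnK (rc N σ) W c d‖ ≤ Z / N := le_of_pow_le_pow_left₀ two_ne_zero (by positivity)
      (a.trans (by rw [sq]; exact mul_le_mul (g1 c hc) (g1 d hd) (d0 (hh_nn N) d) (by positivity)))
    rw [norm_mul, norm_mul, Complex.norm_real, Real.norm_of_nonneg hN.le]
    calc _ ≤ 1 / (8 * Z) * N * (Z / N) := by gcongr; exact (mem_ball_zero_iff.1 hz).le
      _ = _ := by field_simp
  have r2 : ∀ {σ : ℝ}, σ ^ 2 = 1 → ∀ c, c = i ∨ c = j → ‖(fnK (rc N σ) W *ᵥ cv' x) c‖ ≤ m := by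
    intro σ hσ c hc
    have a := bil_cs (rc N σ) W (Pi.single c 1) x
    simp only [cv'_single, norm_rc hσ, single_one_dotProduct, mulVec_single_one, col_apply] at a
    exact Real.le_sqrt_of_sq_le (a.trans (mul_le_mul (g1 c hc) g3 (quad_nn (hh_nn N) W x)
      (by positivity)))
  have r3 : ∀ {σ : ℝ}, σ ^ 2 = 1 → ∀ c d, c = i ∨ c = j → d = i ∨ d = j →
      ∀ z ∈ ball (0 : ℂ) (1 / (8 * Z)), (1 - z * N * fnK (rc N σ) W c d) ^ 2 -
        z * N * fnK (rc N σ) W c c * (z * N * fnK (rc N σ) W d d) ≠ 0 ∧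
        ‖al (fnK (rc N σ) W) (fnK (rc N σ) W *ᵥ cv' x) c d (z * N)‖ ≤ 2 * m :=
    fun hσ c d hc hd z hz => two_le (r1 hσ c d hc hd z hz) (r1 hσ c c hc hc z hz)
      (r1 hσ d d hd hd z hz) (r2 hσ c hc) (r2 hσ d hd)
  let A : ℝ → ι → ι → ℂ → ℂ := fun σ c d z =>
    z * N * al (fnK (rc N σ) W) (fnK (rc N σ) W *ᵥ cv' x) c d (z * N)
  have hA : ∀ {σ : ℝ}, σ ^ 2 = 1 → ∀ c d, c = i ∨ c = j → d = i ∨ d = j →
      DifferentiableOn ℂ (A σ c d) (ball 0 (1 / (8 * Z))) ∧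
      ∀ z ∈ ball (0 : ℂ) (1 / (8 * Z)), ‖A σ c d z‖ ≤ 1 / (8 * Z) * N * (2 * m) := by
    intro σ hσ c d hc hd
    refine ⟨DifferentiableOn.mul (by fun_prop) (DifferentiableOn.div (by fun_prop) (by fun_prop)
      fun z hz => (r3 hσ c d hc hd z hz).1), fun z hz => ?_⟩
    rw [norm_mul, norm_mul, Complex.norm_real, Real.norm_of_nonneg hN.le]
    gcongr
    exacts [(mem_ball_zero_iff.1 hz).le, (r3 hσ c d hc hd z hz).2]
  have p1 : (1 : ℝ) ^ 2 = 1 := by norm_num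
  have p2 : (-1 : ℝ) ^ 2 = 1 := by norm_num
  have li : i = i ∨ i = j := .inl rfl
  have lj : j = i ∨ j = j := .inr rfl
  let Y : ℂ → ℂ := fun z =>
    Xz (fnK (ff N) W) x i j (A 1 i j z) (A 1 j i z) (A (-1) i j z) (A (-1) j i z)
  have f1 : ∀ c, c = i ∨ c = j → |(fnK (ff N) W *ᵥ x) c| ≤ ψ * ξ := fun c hc => by
    have a := quad_cs (ff_nn N) W (Pi.single c 1) x
    simp only [single_one_dotProduct, mulVec_single_one, col_apply] at a
    exact abs_le_of_sq_le_sq' (a.trans (by rw [mul_pow, ξ2]; gcongr; exact g2 c hc))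
      (by positivity) |> abs_le.2
  have f2 : ∀ c d, c = i ∨ c = j → d = i ∨ d = j → |fnK (ff N) W c d| ≤ ψ ^ 2 := fun c d hc hd => by
    have a := quad_cs (ff_nn N) W (Pi.single c 1) (Pi.single d 1)
    simp only [quad_single] at a
    exact abs_le_of_sq_le_sq' (a.trans (by
      rw [sq (ψ ^ 2)]; exact mul_le_mul (g2 c hc) (g2 d hd) (d0 (ff_nn N) d) (by positivity)))
      (by positivity) |> abs_le.2
  have key : ∀ z ∈ ball (0 : ℂ) (1 / (8 * Z)), ‖Y z - X‖ ≤ 2 * δ * (1 + X) := fun z hz => by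
    refine (Xz_le ((hA p1 i j li lj).2 z hz) ((hA p1 j i lj li).2 z hz) ((hA p2 i j li lj).2 z hz)
      ((hA p2 j i lj li).2 z hz) (f1 i li) (f1 j lj) (f2 i i li li) (f2 i j li lj)
      (f2 j j lj lj)).trans ?_
    set y := 2 * (1 / (8 * Z) * N * (2 * m)) * ψ with hy
    have y2 : y ^ 2 ≤ δ ^ 2 * ξ := by
      have : y ^ 2 = s * P / (4 * N) * ξ := by
        simp only [hy, mul_pow, m2, ψ2]; field_simp; ring
      rw [this]; gcongr
      rw [div_le_iff₀ (by positivity)]; linarith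
    have y3 : δ * (2 * y * ξ) ≤ δ * (δ * ξ + δ * ξ ^ 2) := by nlinarith [sq_nonneg (y - δ * ξ)]
    have y4 := le_of_mul_le_mul_left y3 hδ0
    have y5 : δ ^ 2 * ξ ≤ δ * ξ := by nlinarith [mul_nonneg hδ0.le ξ0]
    nlinarith [mul_nonneg hδ0.le (sq_nonneg (ξ - 1))]
  have Y0 : Y 0 = X := by simp [Y, Xz, A, hX]
  refine ⟨fun z => 1 / (1 + Y z), ⟨(differentiableOn_const _).div ((differentiableOn_const _).add ?_)
    fun z hz => (inv_le X0 hδ0.le hδ (key z hz)).1, fun t ht => ?_⟩, fun z hz => ?_⟩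
  · exact Xz_diff (hA p1 i j li lj).1 (hA p1 j i lj li).1 (hA p2 i j li lj).1 (hA p2 j i lj li).1
  · have hz := mem_ball_real ht
    have hW' : (W + t • Eij i j).IsHermitian := hW.add (herm_smul (Eij_herm i j) t)
    have e := dot_rc hW' N (cv' x) (cv' x)
    rw [bil_real, solve hW p1 N t i j _ rfl rfl (r3 p1 i j li lj _ hz).1,
      solve hW p2 N t i j _ rfl rfl (r3 p2 i j li lj _ hz).1, dot_rc hW, Xz_eq] at e
    push_cast
    rw [← e]
  · beta_reduce; rw [Y0]; exact (inv_le X0 hδ0.le hδ (key z hz)).2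

/-! ### domination by powers of `(2 + W) / 4` -/

lemma geom_ge {q η : ℝ} (hq : 0 ≤ q) (hη : 0 ≤ η) (h : 1 - η ≤ q) (k : ℕ) :
    k / (1 + k * η) ≤ ∑ a ∈ range k, q ^ a := by
  induction k with
  | zero => simp
  | succ k ih =>
    rw [geom_sum_succ]
    have p : 0 < 1 + k * η := by positivity
    have a1 := mul_le_mul_of_nonneg_left ih hq
    have a2 := mul_le_mul_of_nonneg_right h (by positivity : 0 ≤ k / (1 + k * η))
    have a3 : (1 - η) * (k / (1 + k * η)) + 1 = (k + 1) / (1 + k * η) := by field_simp; ring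
    have a4 : ((k : ℝ) + 1) / (1 + (k + 1) * η) ≤ (k + 1) / (1 + k * η) := by gcongr; linarith
    push_cast
    linarith

lemma hh_le {N : ℝ} {k : ℕ} (hN : 0 < N) (hk : N ≤ k) (x : ℝ) :
    N * hh N x ≤ 2 * ∑ a ∈ range k, ((2 + x) / 4) ^ (2 * a) := by
  have a0 := abs_nonneg (2 - x)
  have a1 := geom_ge (q := ((2 + x) / 4) ^ 2) (η := |2 - x| / 2) (sq_nonneg _) (by positivity)
    (by nlinarith [le_abs_self (2 - x), sq_nonneg (2 - x)]) k
  simp only [← pow_mul] at a1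
  have a2 : N / (1 + N * |2 - x|) ≤ k / (1 + k * (|2 - x| / 2)) := by
    rw [div_le_div_iff₀ (by positivity) (by positivity)]
    nlinarith [mul_nonneg (mul_nonneg hN.le (Nat.cast_nonneg (α := ℝ) k)) a0]
  have a3 : (1 + N * |2 - x|) / 2 ≤ √((N * (2 - x)) ^ 2 + 1) := Real.le_sqrt_of_sq_le (by
    rw [mul_pow, ← sq_abs (2 - x), ← mul_pow]; nlinarith [sq_nonneg (N * |2 - x| - 1)])
  calc N * hh N x ≤ N / ((1 + N * |2 - x|) / 2) := by rw [hh, ← div_eq_mul_inv]; gcongr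
    _ = 2 * (N / (1 + N * |2 - x|)) := by field_simp
    _ ≤ _ := by linarith

lemma ff_le {N : ℝ} {k : ℕ} (hN : 0 < N) (hk : N ≤ k) (x : ℝ) :
    N ^ 2 * ff N x ≤ 4 * ∑ a ∈ range k, ∑ b ∈ range k, ((2 + x) / 4) ^ (2 * (a + b)) := by
  have := pow_le_pow_left₀ (mul_nonneg hN.le (hh_nn N x)) (hh_le hN hk x) 2
  rw [mul_pow, hh_sq, mul_pow, sq (∑ a ∈ _, _), sum_mul_sum] at this
  simpa only [mul_add, pow_add, show (2 : ℝ) ^ 2 = 4 by norm_num] using this

open Ed in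
lemma fnK_Ym {n : ℕ} {W : Mat n} (hW : W.IsHermitian) (p : ℕ) :
    fnK (fun x => ((2 + x) / 4) ^ p) W = Ym 1 W ^ p := by
  induction p with
  | zero => simpa using fnK_one (K := ℝ) hW
  | succ p ih =>
    have : fnK (fun x => (2 + x) / 4) W = Ym 1 W := by
      have e := fnK_smul (A := W) (1 / 4 : ℝ) fun x : ℝ => 2 + x
      rw [fnK_add, fnK_const hW, fnK_id_real hW] at e
      rw [Ym, one_smul, ← e]
      congr 1; funext x; ring
    rw [pow_succ, ← ih, ← this, fnK_mul hW]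
    simp only [pow_succ]

lemma diag_le {f : ℝ → ℝ} {a b : ℝ} {κ : Type*} {s : Finset κ} {g : κ → ℝ → ℝ}
    (h : ∀ x, a * f x ≤ b * ∑ k ∈ s, g k x) (c : ι) :
    a * fnK f W c c ≤ b * ∑ k ∈ s, fnK (g k) W c c := by
  simp only [fnK_apply, mul_sum]
  rw [sum_comm]
  refine sum_le_sum fun l _ => ?_
  simp only [← mul_assoc, ← sum_mul]
  rw [← mul_sum]
  exact mul_le_mul_of_nonneg_right (h _) (mul_self_nonneg _)

end Crest.Agent.T157.Cq.Ut75

end
end

-- ▼ part T157/CqUtC_75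
section

/-!
# Row 157, part C: universality of the scalars, C (helper75)

The comparison theorem with a random radius, the radius of the mark and its moments.
-/

set_option autoImplicit false
set_option linter.unusedSectionVars false

noncomputable section

namespace Crest.Agent.T157.Cq.Ut75

open MeasureTheory ProbabilityTheory Metric Finset Matrix Filter Topology
open Crest.ProbabilityR.SpinGlassDynamics Crest.Agent.T157.E Crest.Agent.T157.Eig
open Crest.Agent.T157.Un Crest.Agent.T157.St Crest.Agent.T157.Ed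
open Crest.Agent.T157.Tr (Om)

section cmp
variable {ι κ : Type*} [Fintype ι] [DecidableEq ι] [Fintype κ] [DecidableEq κ]

/-- the oscillation of a bounded functional may be capped -/
lemma AnR.cap {ρ : (ι → ℝ) → ι → ℝ} {s M : ℝ} {Q G : (ι → ℝ) → ℝ} (h : AnR ρ s Q M G)
    (hc : (Fintype.card ι : ℝ) ≤ s ^ 4) (hG : ∀ g, 0 ≤ G g) :
    AnR ρ s Q M fun g => (1 + 4 * M ^ 2) * (G g / (1 + G g)) := fun g => by
  obtain ⟨h0, K, hK, hF⟩ := h g
  have hM := (abs_nonneg _).trans h0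
  have hg := hG g
  refine ⟨h0, fun e => min |K e| (2 * M), ?_, fun e => ?_⟩
  · have m0 : ∀ e, 0 ≤ min |K e| (2 * M) := fun e => le_min (abs_nonneg _) (by positivity)
    have h1 : ∑ e, min |K e| (2 * M) ^ 2 ≤ s ^ 4 * G g :=
      (sum_le_sum fun e _ => by
        rw [← sq_abs (K e)]; exact pow_le_pow_left₀ (m0 e) (min_le_left _ _) 2).trans hK
    have h2 : ∑ e, min |K e| (2 * M) ^ 2 ≤ s ^ 4 * (4 * M ^ 2) := by
      refine (sum_le_sum fun e _ => pow_le_pow_left₀ (m0 e) (min_le_right _ _) 2).trans ?_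
      rw [sum_const, card_univ, nsmul_eq_mul, mul_pow]
      norm_num
      gcongr
    beta_reduce
    rw [← mul_div_assoc, ← mul_div_assoc, le_div_iff₀ (by positivity)]
    nlinarith [mul_le_mul_of_nonneg_right h2 hg]
  obtain ⟨F, h1, h2⟩ := hF e
  refine ⟨F, h1, fun z hz => ⟨(h2 z hz).1, le_min ((h2 z hz).2.trans (le_abs_self _)) ?_⟩⟩
  linarith [norm_sub_le (F z) (F 0), (h2 z hz).1, (h2 0 (mem_ball_self (pos_of_mem_ball hz))).1]

/-- hybrid law with additional Gaussian entries -/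
abbrev hy (κ : Type*) [Fintype κ] (σ : ι → Bool) : Measure (ι ⊕ κ → ℝ) :=
  hyb (Sum.elim σ fun _ => false)

/-- **universality with a random radius** -/
theorem univ_rad {Q G : (ι ⊕ κ → ℝ) → ℝ} {Z V : ι → (ι ⊕ κ → ℝ) → ℝ} {r s M η C : ℝ} (hr : 0 < r)
    (hs : 0 < s) (hη : 0 < η) (hC : 0 ≤ C) (hc : (Fintype.card ι : ℝ) ≤ s ^ 4) (hQ : Measurable Q)
    (hM : ∀ y, |Q y| ≤ M) (hZ : ∀ e y, 1 ≤ Z e y ∧ |y (.inl e)| ≤ Z e y ∧ Z e y ^ 16 ≤ V e y)
    (h : ∀ y, ∃ K : ι → ℝ, ∑ e, K e ^ 2 ≤ s ^ 4 * G y ∧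
      ∀ e, Lo (r / Z e y) (fun t => Q (sh s y (.inl e) t)) M (K e))
    (hG : ∀ σ, Integrable G (hy κ σ) ∧ ∫ y, G y ∂hy κ σ ≤ η ^ 2)
    (hV : ∀ σ e, Integrable (V e) (hy κ σ) ∧ ∫ y, V e y ∂hy κ σ ≤ C) :
    |∫ y, Q y ∂hy κ (fun _ => true) - ∫ y, Q y ∂hy κ fun _ => false| ≤
      64 * (1 + 9 * m8 ^ 2 * C) / r ^ 4 * η + 1024 * M * m8 * C / (s ^ 4 * r ^ 8) := by
  have hM0 : 0 ≤ M := (abs_nonneg _).trans (hM 0)
  have h8 := one_le_m8
  have hsr : 0 < s * r := mul_pos hs hr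
  let Δ : ι → (ι ⊕ κ → ℝ) → ℝ := fun e y =>
    |∫ x, Q (Function.update y (.inl e) x) ∂entryLaw true -
      ∫ x, Q (Function.update y (.inl e) x) ∂entryLaw false|
  have hΔ : ∀ σ e, Integrable (Δ e) (hy κ σ) := fun σ e =>
    ((hyb_update hQ hM _ (.inl e) true).2.sub (hyb_update hQ hM _ (.inl e) false).2).abs
  refine mix_le (fun σ => ∫ y, Q y ∂hy κ σ) (fun σ e => ∫ y, Δ e y ∂hy κ σ) (fun σ e => ?_)
    fun σ => ?_
  · simp only [hy, ← Sum.update_elim_inl]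
    rw [(hyb_update hQ hM _ (.inl e) true).1, (hyb_update hQ hM _ (.inl e) false).1,
      ← integral_sub (hyb_update hQ hM _ (.inl e) true).2 (hyb_update hQ hM _ (.inl e) false).2]
    exact abs_integral_le_integral_abs
  set A := 64 * η * (9 * m8 ^ 2) / (s * r) ^ 4 + 1024 * M * m8 / (s * r) ^ 8 with hA
  have hA0 : 0 ≤ A := by positivity
  have i1 : ∀ e, Integrable (fun y => A * V e y) (hy κ σ) := fun e => (hV σ e).1.const_mul _
  have key : ∀ y, ∑ e, Δ e y ≤ 64 / (r ^ 4 * η) * G y + ∑ e, A * V e y := fun y => by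
    obtain ⟨K, hK, hF⟩ := h y
    have h1 : ∀ e, Δ e y ≤ 64 / ((s * r) ^ 4 * η) * K e ^ 2 + A * V e y := fun e => by
      obtain ⟨F, hF, hz⟩ := hF e
      obtain ⟨z1, z2, z3⟩ := hZ e y
      set z := Z e y
      have z0 : 0 < z := by linarith
      have hρ : 0 < r / z := by positivity
      have K0 : 0 ≤ K e := (norm_nonneg _).trans (hz 0 (mem_ball_self hρ)).2
      refine (one_entry (φ := fun x => Q (Function.update y (.inl e) x)) (x₀ := y (.inl e))
        (hQ.comp (measurable_update y)) (fun _ => hM _) hρ hs hF fun w hw => (hz w hw).2).trans ?_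
      have p4 : 1 ≤ z ^ 4 := one_le_pow₀ z1
      have p8 : 1 ≤ z ^ 8 := one_le_pow₀ z1
      have a4 : y (.inl e) ^ 4 ≤ z ^ 4 := by
        rw [← Even.pow_abs (by decide)]; exact pow_le_pow_left₀ (abs_nonneg _) z2 4
      have a8 : y (.inl e) ^ 8 ≤ z ^ 8 := by
        rw [← Even.pow_abs (by decide)]; exact pow_le_pow_left₀ (abs_nonneg _) z2 8
      have b4 : 2 * m8 + y (.inl e) ^ 4 ≤ 3 * m8 * z ^ 4 := by nlinarith
      have b8 : m8 + y (.inl e) ^ 8 ≤ 2 * m8 * z ^ 8 := by nlinarith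
      have h2 : 2 * (K e * (3 * m8 * z ^ 8)) ≤ K e ^ 2 / η + η * (9 * m8 ^ 2 * z ^ 16) := by
        have h3 : 0 ≤ (K e - η * (3 * m8 * z ^ 8)) ^ 2 / η := by positivity
        have h4 : (K e - η * (3 * m8 * z ^ 8)) ^ 2 / η = K e ^ 2 / η -
            2 * (K e * (3 * m8 * z ^ 8)) + η * (9 * m8 ^ 2 * z ^ 16) := by field_simp; ring
        linarith
      calc _ ≤ 128 * K e * (3 * m8 * z ^ 4) / (s * (r / z)) ^ 4 +
            512 * M * (2 * m8 * z ^ 8) / (s * (r / z)) ^ 8 := by gcongr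
        _ = 64 / (s * r) ^ 4 * (2 * (K e * (3 * m8 * z ^ 8))) +
            1024 * M * m8 / (s * r) ^ 8 * z ^ 16 := by field_simp; ring
        _ ≤ 64 / (s * r) ^ 4 * (K e ^ 2 / η + η * (9 * m8 ^ 2 * z ^ 16)) +
            1024 * M * m8 / (s * r) ^ 8 * z ^ 16 := by gcongr
        _ = 64 / ((s * r) ^ 4 * η) * K e ^ 2 + A * z ^ 16 := by rw [hA]; field_simp; ring
        _ ≤ _ := by gcongr
    refine (sum_le_sum fun e _ => h1 e).trans ?_
    rw [sum_add_distrib, ← mul_sum]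
    gcongr ?_ + _
    calc _ ≤ 64 / ((s * r) ^ 4 * η) * (s ^ 4 * G y) := by gcongr
      _ = _ := by field_simp
  rw [← integral_finsetSum _ fun e _ => hΔ σ e]
  refine (integral_mono (integrable_finsetSum _ fun e _ => hΔ σ e)
    (((hG σ).1.const_mul _).add (integrable_finsetSum _ fun e _ => i1 e)) key).trans ?_
  rw [integral_add' ((hG σ).1.const_mul _) (integrable_finsetSum _ fun e _ => i1 e),
    integral_const_mul, integral_finsetSum _ fun e _ => i1 e]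
  have h3 : ∑ e : ι, ∫ y, A * V e y ∂hy κ σ ≤ s ^ 4 * (A * C) := by
    refine (sum_le_sum fun e _ => (integral_const_mul _ _).trans_le
      (mul_le_mul_of_nonneg_left (hV σ e).2 hA0)).trans ?_
    rw [sum_const, card_univ, nsmul_eq_mul]
    gcongr
  have h4 : s ^ 4 * (A * C) = 64 * (9 * m8 ^ 2 * C) / r ^ 4 * η +
      1024 * M * m8 * C / (s ^ 4 * r ^ 8) := by rw [hA]; field_simp
  have h5 : 64 / (r ^ 4 * η) * ∫ y, G y ∂hy κ σ ≤ 64 / r ^ 4 * η :=
    (mul_le_mul_of_nonneg_left (hG σ).2 (by positivity)).trans_eq (by field_simp)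
  have h7 : 64 * (1 + 9 * m8 ^ 2 * C) / r ^ 4 * η =
      64 / r ^ 4 * η + 64 * (9 * m8 ^ 2 * C) / r ^ 4 * η := by ring
  linarith

/-- splitting of an entry array -/
def spl (y : ι ⊕ κ → ℝ) : (ι → ℝ) × (κ → ℝ) := (fun p => y (.inl p), fun i => y (.inr i))

lemma mp_spl (σ : ι → Bool) : MeasurePreserving spl (hy κ σ) ((hyb σ).prod (gv κ)) :=
  measurePreserving_sumPiEquivProdPi (X := fun _ : ι ⊕ κ => ℝ)
    fun p => entryLaw (Sum.elim σ (fun _ => false) p)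

lemma spl_sh (s : ℝ) (y : ι ⊕ κ → ℝ) (e : ι) (t : ℝ) :
    spl (sh s y (.inl e) t) = (sh s (spl y).1 e t, (spl y).2) := by
  refine Prod.ext (funext fun p => ?_) (funext fun i => ?_)
  · by_cases h : p = e <;> simp [spl, sh, h]
  · simp [spl, sh]

end cmp

/-! ### the radius of the mark -/

variable {n : ℕ}

/-- the number of powers -/
def kn (n : ℕ) : ℕ := ⌈tau n⌉₊
/-- weighted diagonal entries -/
def Vm (W : Mat n) (c : Fin n) : ℝ := ∑ b ∈ range (2 * kn n),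
  ((1 + (b : ℝ)) ^ (11 / 8 : ℝ) * (Ym 1 W ^ (2 * b)) c c) ^ 16
/-- the sixteenth power of the inverse radius -/
def Vr (e : Pair n) (p : Om n) : ℝ := 1 + p.1 e ^ 16 + Vm (Wp p) e.1.1 + Vm (Wp p) e.1.2
/-- the inverse radius -/
def Zr (e : Pair n) (p : Om n) : ℝ := Vr e p ^ (1 / 16 : ℝ)

lemma Vm_nn (W : Mat n) (c : Fin n) : 0 ≤ Vm W c := sum_nonneg fun _ _ => by positivity

lemma le_Zr (e : Pair n) (p : Om n) {a : ℝ} (h : a ^ 16 ≤ Vr e p) : |a| ≤ Zr e p := by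
  have : |a| = (a ^ 16) ^ (1 / 16 : ℝ) := by
    rw [← Even.pow_abs (by decide), one_div, show (16 : ℝ) = (16 : ℕ) by norm_num,
      Real.pow_rpow_inv_natCast (abs_nonneg a) (by norm_num)]
  rw [this]
  exact Real.rpow_le_rpow (by positivity) h (by norm_num)

lemma Zr_spec (e : Pair n) (p : Om n) : 1 ≤ Zr e p ∧ |p.1 e| ≤ Zr e p ∧ Zr e p ^ 16 ≤ Vr e p := by
  have a := Vm_nn (Wp p) e.1.1
  have b := Vm_nn (Wp p) e.1.2
  have c : 0 ≤ p.1 e ^ 16 := by positivity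
  refine ⟨by simpa using le_Zr e p (a := 1) (by unfold Vr; linarith),
    le_Zr e p (by unfold Vr; linarith), le_of_eq ?_⟩
  rw [Zr, one_div, show (16 : ℝ) = (16 : ℕ) by norm_num,
    Real.rpow_inv_natCast_pow (by unfold Vr; linarith) (by norm_num)]

lemma diag_Zr (e : Pair n) (p : Om n) {c : Fin n} (hc : c = e.1.1 ∨ c = e.1.2) {b : ℕ}
    (hb : b < 2 * kn n) : (Ym 1 (Wp p) ^ (2 * b)) c c ≤ Zr e p * (1 + (b : ℝ)) ^ (-(11 / 8) : ℝ) := by
  have b0 : (0 : ℝ) < 1 + b := by positivity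
  have h1 := single_le_sum (f := fun b : ℕ =>
    ((1 + (b : ℝ)) ^ (11 / 8 : ℝ) * (Ym 1 (Wp p) ^ (2 * b)) c c) ^ 16)
    (fun _ _ => by positivity) (mem_range.2 hb)
  have h2 : Vm (Wp p) c ≤ Vr e p := by
    have a := Vm_nn (Wp p) e.1.1
    have b := Vm_nn (Wp p) e.1.2
    have c : 0 ≤ p.1 e ^ 16 := by positivity
    unfold Vr
    rcases hc with rfl | rfl <;> linarith
  rw [Real.rpow_neg b0.le, ← div_eq_mul_inv, le_div_iff₀' (Real.rpow_pos_of_pos b0 _)]
  exact (le_abs_self _).trans (le_Zr e p (h1.trans h2))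

/-- the summable weights -/
def ws (b : ℕ) : ℝ := (1 + (b : ℝ)) ^ (-(33 / 32) : ℝ)
/-- their sum -/
def S0 : ℝ := 1 + ∑' b, ws b

lemma ws_nn (b : ℕ) : 0 ≤ ws b := by unfold ws; positivity

lemma one_le_S0 : 1 ≤ S0 := le_add_of_nonneg_right (tsum_nonneg ws_nn)

lemma sum_ws (k : ℕ) : ∑ b ∈ range k, ws b ≤ S0 := by
  have h : Summable ws := ((summable_nat_add_iff 1).2 (Real.summable_nat_rpow.2
    (by norm_num : (-(33 / 32) : ℝ) < -1))).congr fun b => by simp [ws, add_comm]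
  exact (h.sum_le_tsum _ fun b _ => ws_nn b).trans (le_add_of_nonneg_left zero_le_one)

lemma w_le (b : ℕ) : (1 + (b : ℝ)) ^ (-(11 / 8) : ℝ) ≤ ws b :=
  Real.rpow_le_rpow_of_exponent_le (by simp) (by norm_num)

lemma w_le2 {a b m : ℕ} (h : a + b < m) :
    (1 + ((a + b : ℕ) : ℝ)) ^ (-(11 / 8) : ℝ) ≤ (m : ℝ) ^ (11 / 16 : ℝ) * (ws a * ws b) := by
  have p : (0 : ℝ) < 1 + (a + b : ℕ) := by positivity
  have e : (-(11 / 8) : ℝ) = 11 / 16 + (-(33 / 32) + -(33 / 32)) := by norm_num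
  have q : ∀ c : ℕ, c ≤ a + b → (1 + ((a + b : ℕ) : ℝ)) ^ (-(33 / 32) : ℝ) ≤ ws c := fun c hc =>
    Real.rpow_le_rpow_of_nonpos (by positivity) (by exact_mod_cast Nat.add_le_add_left hc 1)
      (by norm_num)
  rw [e, Real.rpow_add p, Real.rpow_add p]
  refine mul_le_mul (Real.rpow_le_rpow p.le ?_ (by norm_num)) (mul_le_mul (q a (by omega))
    (q b (by omega)) (by positivity) (ws_nn a)) (by positivity) (by positivity)
  exact_mod_cast (by omega : 1 + (a + b) ≤ m)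

/-- the mark -/
def wm (n : ℕ) (x : Cube n) (p : Om n) : ℝ := 1 / (1 + hat n x ⬝ᵥ fl n 1 (Wp p) *ᵥ hat n x)
/-- the deterministic part of the radius -/
def r0 : ℝ := 1 / (32 * S0 ^ 2)
/-- the radius -/
def rho (n : ℕ) (d : Fin n → ℝ) (g : Pair n → ℝ) (e : Pair n) : ℝ := r0 / Zr e (g, d)
/-- the size of the oscillation of the mark -/
def dl (n : ℕ) : ℝ := sx n ^ (-(1 / 8) : ℝ)

lemma r0_pos : 0 < r0 := by have := one_le_S0; unfold r0; positivity

lemma rho_le (d : Fin n → ℝ) (g : Pair n → ℝ) (e : Pair n) : rho n d g e ≤ 1 / 4 := by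
  refine (div_le_self r0_pos.le (Zr_spec e _).1).trans ?_
  have := one_le_S0
  rw [r0]; gcongr; nlinarith

lemma tendsto_dl : Tendsto dl atTop (𝓝 0) := (tendsto_rpow_neg_atTop (by norm_num)).comp tendsto_sx

lemma fl_one (W : Mat n) : fl n 1 W = fnK (ff (tau n)) W := by
  unfold fl ff; simp

lemma Wmat_sh (hn : 0 < n) (g : Pair n → ℝ) (d : Fin n → ℝ) (e : Pair n) (t : ℝ) :
    Wmat n (sh √(n : ℝ) g e t) d = Wmat n g d + t • Eij e.1.1 e.1.2 := by
  have hs : √(n : ℝ) ≠ 0 := (Real.sqrt_pos.2 (by exact_mod_cast hn)).ne'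
  obtain ⟨⟨i, j⟩, hij⟩ := e
  have key : ∀ a b (h : a < b), sh √(n : ℝ) g ⟨(i, j), hij⟩ t ⟨(a, b), h⟩ / √(n : ℝ) =
      g ⟨(a, b), h⟩ / √(n : ℝ) + t * if i = a ∧ j = b then 1 else 0 := fun a b h => by
    split_ifs with h'
    · obtain ⟨rfl, rfl⟩ := h'
      simp only [sh, Function.update_self]; field_simp
    · rw [sh, Function.update_of_ne (fun e => h' (by
        simp only [Subtype.mk.injEq, Prod.mk.injEq] at e; exact ⟨e.1.symm, e.2.symm⟩))]
      simp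
  ext a b
  simp only [Wmat, Jmat, Eij, Matrix.add_apply, Matrix.smul_apply, single_apply, smul_eq_mul]
  dsimp only at hij
  rcases lt_trichotomy a b with h | h | h
  · rw [dif_pos h, dif_pos h, key, if_neg (c := j = a ∧ i = b) (by omega)]; ring
  · subst h
    rw [dif_neg (lt_irrefl _), dif_neg (lt_irrefl _), dif_neg (lt_irrefl _), dif_neg (lt_irrefl _),
      if_neg (by omega), if_neg (by omega)]; ring
  · rw [dif_neg h.not_gt, dif_pos h, dif_neg h.not_gt, dif_pos h, key,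
      if_neg (c := i = a ∧ j = b) (by omega)]
    simp only [and_comm (a := j = a)]; ring

lemma kn_le (hn : 1 ≤ n) : (kn n : ℝ) ≤ 2 * tau n := by
  linarith [Nat.ceil_lt_add_one (tau_nonneg n), one_le_tau hn, show (kn n : ℝ) = ⌈tau n⌉₊ from rfl]

lemma wm_mem (x : Cube n) (p : Om n) : wm n x p ∈ Set.Ioc (0 : ℝ) 1 := by
  have := quad_nn (ff_nn (tau n)) (Wp p) (hat n x)
  rw [wm, fl_one]
  exact ⟨by positivity, (div_le_one (by positivity)).2 (by linarith)⟩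

theorem anR_mark (hn : 1 ≤ n) (hδ : dl n ≤ 1 / 4) (d : Fin n → ℝ) (x : Cube n) :
    AnR (rho n d) √(n : ℝ) (fun g => wm n x (g, d)) 2 fun _ => 16 * dl n ^ 2 := fun g => by
  have hs := sx_pos hn
  have hτ := tau_pos hn
  have hS := one_le_S0
  refine ⟨by rw [abs_of_pos (wm_mem x _).1]; linarith [(wm_mem x (g, d)).2], fun _ => 4 * dl n, ?_,
    fun e => ?_⟩
  · rw [sum_const, card_univ, nsmul_eq_mul, mul_pow]
    norm_num
    gcongr
    exact card_pair n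
  have hZ := (Zr_spec e (g, d)).1
  have hW : (Wp (g, d)).IsHermitian := Wmat_isHermitian _ _
  have := lo_mark hW (Z := 4 * S0 ^ 2 * Zr e (g, d)) (P := ((2 * kn n : ℕ) : ℝ) ^ (11 / 16 : ℝ)) hτ
    hs.le (by positivity) (by positivity) (Real.rpow_pos_of_pos hs _) hδ ?_ e.1.1 e.1.2
    (St.Z43.hat_dot hn x).le (fun c hc => ?_) fun c hc => ?_
  · rw [show rho n d g e = 1 / (8 * (4 * S0 ^ 2 * Zr e (g, d))) by
      rw [rho, r0]; field_simp; norm_num]
    simpa only [wm, fl_one, Wp, Wmat_sh hn, dl] using this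
  · have a1 : ((2 * kn n : ℕ) : ℝ) ^ (11 / 16 : ℝ) ≤ 4 * sx n ^ (11 / 4 : ℝ) := by
      refine (Real.rpow_le_rpow (by positivity) (z := 11 / 16) (y := 4 * sx n ^ 4) (by
        push_cast; linarith [kn_le hn, tau_eq n]) (by norm_num)).trans ?_
      rw [Real.mul_rpow (by norm_num) (by positivity), ← Real.rpow_natCast, ← Real.rpow_mul hs.le]
      norm_num
      gcongr
      exact Real.rpow_le_self_of_one_le (by norm_num) (by norm_num)
    have a2 : tau n * (sx n ^ (-(1 / 8) : ℝ)) ^ 2 = sx n * sx n ^ (11 / 4 : ℝ) := by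
      rw [tau_eq, ← Real.rpow_natCast, ← Real.rpow_natCast, ← Real.rpow_mul hs.le,
        ← Real.rpow_add hs, mul_comm (sx n), ← Real.rpow_add_one hs.ne']
      norm_num
    nlinarith [mul_le_mul_of_nonneg_left a1 hs.le]
  · refine (diag_le (hh_le hτ (Nat.le_ceil _)) c).trans ?_
    simp only [fnK_Ym hW]
    have a := sum_le_sum fun a (ha : a ∈ range (kn n)) =>
      (diag_Zr e (g, d) hc (b := a) (by have := mem_range.1 ha; omega)).trans
        (mul_le_mul_of_nonneg_left (w_le a) (by linarith))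
    rw [← mul_sum] at a
    have b := mul_le_mul_of_nonneg_left (sum_ws (kn n)) (by linarith : 0 ≤ Zr e (g, d))
    change 2 * ∑ a ∈ range (kn n), _ ≤ _
    nlinarith [mul_nonneg (by linarith : 0 ≤ Zr e (g, d)) (by nlinarith : 0 ≤ 2 * S0 ^ 2 - S0)]
  · have a0 := diag_le (W := Wp (g, d)) (s := range (kn n) ×ˢ range (kn n))
      (g := fun q x => ((2 + x) / 4) ^ (2 * (q.1 + q.2)))
      (fun x => by simpa only [sum_product] using ff_le (k := kn n) hτ (Nat.le_ceil _) x) c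
    refine a0.trans ?_
    simp only [fnK_Ym hW]
    have a := sum_le_sum fun q (hq : q ∈ range (kn n) ×ˢ range (kn n)) => by
      have h : q.1 + q.2 < 2 * kn n := by
        simp only [mem_product, mem_range] at hq; omega
      exact (diag_Zr e (g, d) hc h).trans (mul_le_mul_of_nonneg_left (w_le2 h) (by linarith))
    rw [← mul_sum, ← mul_sum, sum_product (f := fun q => ws q.1 * ws q.2), ← sum_mul_sum] at a
    have b := mul_self_le_mul_self (sum_nonneg fun b _ => ws_nn b) (sum_ws (kn n))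
    have c := mul_le_mul_of_nonneg_left b (by positivity :
      0 ≤ Zr e (g, d) * ((2 * kn n : ℕ) : ℝ) ^ (11 / 16 : ℝ))
    nlinarith

/-- **moments of the inverse radius** -/
theorem int_Vr : ∃ C : ℝ, 0 ≤ C ∧ ∀ᶠ n : ℕ in atTop, ∀ (σ : Pair n → Bool) (e : Pair n),
    Integrable (fun y => Vr e (spl y)) (hy (Fin n) σ) ∧ ∫ y, Vr e (spl y) ∂hy (Fin n) σ ≤ C := by
  obtain ⟨C, hC, h⟩ := Ed.All.mbStmt 16 4
  set m := ∫ t : ℝ, t ^ 16 ∂gaussianReal 0 1
  have m0 : 0 ≤ m := integral_nonneg fun _ => by positivity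
  refine ⟨1 + m + 2 * C ^ 16 + 2 * C ^ 16, by positivity, ?_⟩
  filter_upwards [h, eventually_ge_atTop 1] with n h hn σ e
  have h1 : ∀ c : Fin n, Integrable (fun y => Vm (Wp (spl y)) c) (hy (Fin n) σ) ∧
      ∫ y, Vm (Wp (spl y)) c ∂hy (Fin n) σ ≤ 2 * C ^ 16 := fun c => by
    have a : ∀ b ∈ range (2 * kn n), Integrable (fun y => ((1 + (b : ℝ)) ^ (11 / 8 : ℝ) *
        (Ym 1 (Wp (spl y)) ^ (2 * b)) c c) ^ 16) (hy (Fin n) σ) ∧ ∫ y, ((1 + (b : ℝ)) ^ (11 / 8 : ℝ) *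
        (Ym 1 (Wp (spl y)) ^ (2 * b)) c c) ^ 16 ∂hy (Fin n) σ ≤ C ^ 16 * ((1 + (b : ℝ)) ^ 2)⁻¹ := by
      intro b hb
      have b0 : (0 : ℝ) < 1 + b := by positivity
      have hb' : (b : ℝ) ≤ 2 * kn n := by exact_mod_cast (mem_range.1 hb).le
      have a1 := (h (fun p => entryLaw (Sum.elim σ (fun _ => false) p))
        (fun _ => Mba36.dom_entry _) 1 (by simp) b (by linarith [kn_le hn])).1 (Pi.single c 1)
        (by simp)
      simp only [quad_single] at a1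
      simp only [mul_pow, integral_const_mul]
      refine ⟨a1.1.const_mul _, (mul_le_mul_of_nonneg_left a1.2 (by positivity)).trans_eq ?_⟩
      rw [mul_pow, ← Real.rpow_natCast, ← Real.rpow_natCast ((1 + (b : ℝ)) ^ (-(3 / 2) : ℝ)),
        ← Real.rpow_mul b0.le, ← Real.rpow_mul b0.le, mul_left_comm, ← Real.rpow_add b0,
        ← Real.rpow_natCast (1 + (b : ℝ)) 2, ← Real.rpow_neg b0.le]
      norm_num
    refine ⟨integrable_finsetSum _ fun b hb => (a b hb).1, ?_⟩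
    simp only [Vm]
    rw [integral_finsetSum _ fun b hb => (a b hb).1]
    refine (sum_le_sum fun b hb => (a b hb).2).trans ?_
    rw [← mul_sum, mul_comm (2 : ℝ)]
    gcongr
    exact (Sw50.sum_inv_sq_le _).trans (sub_le_self _ (by positivity))
  have mp := measurePreserving_eval (fun p => entryLaw (Sum.elim σ (fun _ : Fin n => false) p))
    (.inl e)
  have h2 : Integrable (fun y : Ix n → ℝ => y (.inl e) ^ 16) (hy (Fin n) σ) :=
    mp.integrable_comp_of_integrable (int_pow _ 16)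
  have h3 : ∫ y : Ix n → ℝ, y (.inl e) ^ 16 ∂hy (Fin n) σ ≤ m := by
    refine le_of_eq_of_le ?_ ((le_abs_self _).trans ((Mba36.dom_entry (σ e)).le 16))
    have := mp.map_eq
    simp only [Sum.elim_inl] at this
    rw [← this, integral_map (measurable_pi_apply _).aemeasurable (by fun_prop)]
    rfl
  have i1 : Integrable (fun y : Ix n → ℝ => 1 + y (.inl e) ^ 16) (hy (Fin n) σ) :=
    (integrable_const _).add h2
  have i2 : Integrable (fun y : Ix n → ℝ => 1 + y (.inl e) ^ 16 + Vm (Wp (spl y)) e.1.1)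
      (hy (Fin n) σ) := i1.add (h1 e.1.1).1
  refine ⟨i2.add (h1 e.1.2).1, ?_⟩
  change ∫ y, ((1 + y (.inl e) ^ 16) + Vm (Wp (spl y)) e.1.1 + Vm (Wp (spl y)) e.1.2) ∂_ ≤ _
  rw [integral_add i2 (h1 e.1.2).1, integral_add i1 (h1 e.1.1).1,
    integral_add (integrable_const _) h2]
  simp only [integral_const, probReal_univ, smul_eq_mul, one_mul]
  linarith [(h1 e.1.1).2, (h1 e.1.2).2]

end Crest.Agent.T157.Cq.Ut75

end
end

-- ▼ part T157/CqUt_75

/-!
# Row 157, part C: universality of the marked scalars (helper75)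

`Cq.utGlue : UtGlue`.
-/

set_option autoImplicit false
set_option linter.unusedSectionVars false

noncomputable section

namespace Crest.Agent.T157.Cq

open MeasureTheory ProbabilityTheory Metric Finset Matrix Filter Topology
open Crest.ProbabilityR.SpinGlassDynamics Crest.Agent.T157.E Crest.Agent.T157.Eig
open Crest.Agent.T157.Un Crest.Agent.T157.St Crest.Agent.T157.Ed
open Crest.Agent.T157.Tr (Om)
open Crest.Agent.T157.Soft (IsCyl)

namespace Ut75

/-- bounded functionals of the couplings and the diagonal, holomorphic on the random disc -/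
structure Bz (Q : ∀ n, Om n → ℝ) : Prop where
  meas : ∀ n, Measurable (Q n)
  ex : ∃ (B : ℝ) (Γ : Fam), Nl Γ ∧
    ∀ᶠ n : ℕ in atTop, ∀ d, AnR (rho n d) √(n : ℝ) (fun g => Q n (g, d)) B (Γ n)

namespace Bz
variable {Q Q' : ∀ n, Om n → ℝ}

lemma const (a : ℝ) : Bz fun _ _ => a :=
  ⟨fun _ => measurable_const, _, _, .zero, .of_forall fun _ _ => AnR.const _ _ a⟩

lemma mul (h : Bz Q) (h' : Bz Q') : Bz fun n p => Q n p * Q' n p := by
  obtain ⟨B, Γ, h1, h2⟩ := h.ex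
  obtain ⟨B', Γ', h1', h2'⟩ := h'.ex
  exact ⟨fun n => (h.meas n).mul (h'.meas n), _, _,
    (h1.const_mul (by positivity)).add (h1'.const_mul (by positivity)),
    (h2.and h2').mono fun n a d => (a.1 d).mul (a.2 d)⟩

/-- **universality** -/
theorem univ (h : Bz Q) :
    Tendsto (fun n => ∫ p, Q n p ∂PB true n - ∫ p, Q n p ∂PB false n) atTop (𝓝 0) := by
  obtain ⟨M, Γ, hG, h2⟩ := h.ex
  obtain ⟨C, hC, hV⟩ := int_Vr
  rw [Metric.tendsto_nhds]
  intro ε hε
  have hr := r0_pos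
  set D := 64 * (1 + 9 * m8 ^ 2 * C) / r0 ^ 4 with hD
  have hD0 : 0 < D := by positivity
  have hη : 0 < ε / (2 * D) := by positivity
  have hM : 0 < 1 + 4 * M ^ 2 := by positivity
  filter_upwards [h2, hV, hG.po.null_hyb hG.nu (div_pos (pow_pos hη 2) hM),
    tendsto_sqrt.eventually_gt_atTop 0,
    (tendsto_err (1024 * M * m8 * C) r0).eventually (gt_mem_nhds (half_pos hε))]
    with n a1 a5 a2 a3 a4
  have mG : Measurable fun p : Om n => (1 + 4 * M ^ 2) * (Γ n p.1 / (1 + Γ n p.1)) :=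
    ((hG.po.meas_ratio 1 n).comp measurable_fst).const_mul _
  have tr : ∀ (σ : Pair n → Bool) {F : Om n → ℝ}, Measurable F →
      ∫ y, F (spl y) ∂hy (Fin n) σ = ∫ p, F p ∂(hyb σ).prod (gv (Fin n)) := fun σ F hF => by
    rw [← (mp_spl σ).map_eq, integral_map (mp_spl σ).measurable.aemeasurable
      hF.aestronglyMeasurable]
  have := univ_rad (Q := fun y => Q n (spl y)) (Z := fun e y => Zr e (spl y))
    (V := fun e y => Vr e (spl y))
    (G := fun y => (1 + 4 * M ^ 2) * (Γ n (spl y).1 / (1 + Γ n (spl y).1))) hr a3 hη hC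
    (card_pair n) ((h.meas n).comp (mp_spl fun _ => true).measurable)
    (fun y => (a1 (spl y).2 (spl y).1).1) (fun e y => Zr_spec e (spl y)) (fun y => by
      obtain ⟨-, K, k1, k2⟩ := (a1 (spl y).2).cap (card_pair n) (hG.po.nn n) (spl y).1
      exact ⟨K, k1, fun e => by simp only [spl_sh]; exact k2 e⟩) (fun σ => ⟨?_, ?_⟩) a5
  · rw [tr _ (h.meas n), tr _ (h.meas n), hyb_const, hyb_const, ← hD,
      show D * (ε / (2 * D)) = ε / 2 by field_simp] at this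
    rw [Real.dist_eq, sub_zero]
    linarith
  · exact (int_bdd ((hG.po.meas_ratio 1 n).comp (measurable_fst.comp (mp_spl σ).measurable))
      fun y => hG.po.abs_ratio one_pos n _).const_mul _
  · rw [tr σ mG, integral_fun_fst fun g => (1 + 4 * M ^ 2) * (Γ n g / (1 + Γ n g)),
      integral_const_mul, probReal_univ, one_smul, ← le_div_iff₀' hM]
    exact a2 σ

lemma prod {I : Type*} {Y : ∀ n, Om n → I → ℝ} (h : ∀ i, Bz fun n p => Y n p i) (l : List I) :
    Bz fun n p => (l.map fun i => 1 / 4 * Y n p i).prod := by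
  induction l with
  | nil => simpa using const 1
  | cons i l ih => simpa only [List.map_cons, List.prod_cons] using ((const _).mul (h i)).mul ih

/-- **universality of cylinder functionals** -/
theorem cyl {I : Type*} {Y : ∀ n, Om n → I → ℝ} (h : ∀ i, Bz fun n p => Y n p i)
    (φ : (I → ℝ) → ℝ) (hφ : IsCyl φ) :
    Tendsto (fun n => ∫ p, φ (Y n p) ∂PB true n - ∫ p, φ (Y n p) ∂PB false n) atTop (𝓝 0) := by
  choose B Γ _ hB using fun i => (h i).ex
  have B0 : ∀ i, 0 < |B i| + 1 := fun i => by positivity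
  have hX : ∀ i, Bz fun n p => (|B i| + 1)⁻¹ * Y n p i := fun i => (const _).mul (h i)
  have zb : ∀ i, ∀ᶠ n : ℕ in atTop, ∀ p, |(|B i| + 1)⁻¹ * Y n p i| ≤ 2 := fun i =>
    (hB i).mono fun n a p => by
      rw [abs_mul, abs_of_pos (inv_pos.2 (B0 i)), inv_mul_le_iff₀ (B0 i)]
      linarith [(a p.2 p.1).1, le_abs_self (B i), abs_nonneg (B i)]
  let q : ℝ → ℝ := fun x => x / (2 + max |x| 2)
  have qp : ∀ x : ℝ, 0 < 2 + max |x| 2 := fun x => by positivity
  have hq : Continuous q := continuous_id.div (by fun_prop) fun x => (qp x).ne'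
  have hqb : ∀ x, |q x| ≤ 1 := fun x => by
    rw [abs_div, abs_of_pos (qp x), div_le_one (qp x)]; linarith [le_max_left |x| 2]
  have hinj : Function.Injective q := by
    refine StrictMono.injective fun x y hxy => ?_
    rw [div_lt_div_iff₀ (qp x) (qp y)]
    rcases le_total |x| 2 with a | a <;> rcases le_total |y| 2 with b | b <;>
      simp only [max_eq_right, max_eq_left, a, b] <;>
      rcases abs_cases x with c | c <;> rcases abs_cases y with d | d <;>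
      nlinarith [c.1, c.2, d.1, d.2]
  have := Soft.cyl_diff_of_mon (P := PB) (X := fun n p i => (|B i| + 1)⁻¹ * Y n p i) hq hinj hqb
    (fun n i => (hX i).meas n) (fun b i ε _ => ⟨2, ?_⟩) true false (fun l => ?_)
    (fun z => φ fun i => (|B i| + 1) * z i) ?_
  · simpa only [mul_inv_cancel_left₀ (B0 _).ne'] using this
  · filter_upwards [zb i] with n a
    simp only [(a _).not_gt, Set.ofPred_false, measure_empty, zero_le]
  · refine (prod hX l).univ.congr' ?_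
    filter_upwards [(eventually_all_finite l.finite_toSet).2 fun i _ => zb i] with n a
    have e : ∀ p, (l.map fun i => 1 / 4 * ((|B i| + 1)⁻¹ * Y n p i)).prod =
        Soft.mon q l fun i => (|B i| + 1)⁻¹ * Y n p i := fun p => by
      unfold Soft.mon
      congr 1
      refine List.map_congr_left fun i hi => ?_
      simp only [q, max_eq_right (a i hi p)]; ring
    simp only [e]
  · obtain ⟨s, K, h0, h1, h2⟩ := hφ
    have S0 : 0 ≤ ∑ i ∈ s, (|B i| + 1) := sum_nonneg fun i _ => (B0 i).le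
    refine ⟨s, K * (1 + ∑ i ∈ s, (|B i| + 1)), by positivity, fun x => (h1 _).trans (by nlinarith),
      fun x y => (h2 _ _).trans ?_⟩
    rw [mul_assoc, mul_sum s _ (1 + _)]
    refine mul_le_mul_of_nonneg_left (sum_le_sum fun i hi => ?_) h0
    rw [← mul_sub, abs_mul, abs_of_pos (B0 i)]
    refine mul_le_mul_of_nonneg_right ?_ (abs_nonneg _)
    linarith [single_le_sum (f := fun i => |B i| + 1) (fun i _ => (B0 i).le) hi]

end Bz

lemma anR_poly (p : Polynomial ℝ) : ∃ B c : ℝ, 0 ≤ c ∧ ∀ (n : ℕ) (ρ : (Pair n → ℝ) → Pair n → ℝ)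
    (s : ℝ) (Q : (Pair n → ℝ) → ℝ) (γ : ℝ), 0 ≤ γ → AnR ρ s Q 2 (fun _ => γ) →
      AnR ρ s (fun g => p.eval (Q g)) B fun _ => c * γ := by
  induction p using Polynomial.induction_on with
  | C a => exact ⟨|a|, 0, le_rfl, fun n ρ s Q γ _ _ => by simpa using AnR.const ρ s a⟩
  | add p q hp hq =>
    obtain ⟨B, c, h0, h⟩ := hp
    obtain ⟨B', c', h0', h'⟩ := hq
    exact ⟨B + B', 2 * c + 2 * c', by positivity, fun n ρ s Q γ a b => by
      simpa only [Polynomial.eval_add, add_mul, mul_assoc] using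
        (h n ρ s Q γ a b).add (h' n ρ s Q γ a b)⟩
  | monomial k a ih =>
    obtain ⟨B, c, h0, h⟩ := ih
    exact ⟨B * 2, 2 * 2 ^ 2 * c + 2 * B ^ 2, by positivity, fun n ρ s Q γ a b => by
      simpa only [pow_succ Polynomial.X, ← mul_assoc, Polynomial.eval_mul, Polynomial.eval_X,
        add_mul] using (h n ρ s Q γ a b).mul b⟩

/-! ### measurability -/

variable {n : ℕ}

lemma ms_T {K : ℝ} (hK : 0 ≤ K) {f : (Pair n → ℝ) → (Fin n → ℝ) → ℝ}
    (h : ∀ x, Measurable fun g => f g (hat n x)) (x : Cube n) :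
    Measurable fun g => Tk K (muG n g) (f g) (hat n x) := by
  simp only [Tk_hat hK]
  exact measurable_sum _ fun a _ => (meas_k0 _ K x a).mul (h a)

lemma ms_Q {K : ℝ} (hK : 0 ≤ K) (c : ℝ) {f : (Pair n → ℝ) → (Fin n → ℝ) → ℝ}
    (h : ∀ x, Measurable fun g => f g (hat n x)) (x : Cube n) :
    Measurable fun g => Qs K c (muG n g) (f g) (hat n x) := by
  have key : ∀ (j : ℕ) x, Measurable fun g => (Tk K (muG n g))^[j] (f g) (hat n x) := fun j => by
    induction j with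
    | zero => exact h
    | succ j ih => simpa only [Function.iterate_succ_apply'] using ms_T hK ih
  exact Measurable.tsum fun j => (key j x).const_mul _

lemma ms_psi (L : ℝ) {K' K : ℝ} (h' : 0 ≤ K') (h : 0 ≤ K) (c : ℝ) (x : Cube n) :
    Measurable fun g => psiS (muG n g) L K' K c (hat n x) :=
  ms_T h' (f := fun g a => Qs K c (muG n g) (Tk K' (muG n g) fun a' => L * Real.sin (a ⬝ᵥ a' / L))
    (hat n x)) (fun y => ms_Q h c (f := fun g => Tk K' (muG n g) fun a' =>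
      L * Real.sin (hat n y ⬝ᵥ a' / L)) (ms_T h' (f := fun _ a' => L * Real.sin (hat n y ⬝ᵥ a' / L))
        fun _ => measurable_const) x) x

lemma ms_ev (e : SE) : e.Adm → ∀ x, Measurable fun g => e.ev (muG n g) 0 (hat n x) := by
  induction e with
  | var => exact fun _ _ => measurable_const
  | psi L K' K c => exact fun h => ms_psi L h.2.1.le h.2.2.1.le c
  | const a => exact fun _ _ => measurable_const
  | add e e' a b => exact fun h x => (a h.1 x).add (b h.2 x)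
  | mul e e' a b => exact fun h x => (a h.1 x).mul (b h.2 x)
  | T K e a => exact fun h => ms_T h.1.le (f := fun g => e.ev (muG n g) 0) (a h.2)
  | Q K c e a => exact fun h => ms_Q h.1.le c (f := fun g => e.ev (muG n g) 0) (a h.2.2)

lemma ff_inv {W : Mat n} (hW : W.IsHermitian) (N : ℝ) :
    fnK (ff N) W = ((N • ((2 : ℝ) • 1 - W)) * (N • ((2 : ℝ) • 1 - W)) + 1)⁻¹ := by
  have e := fnK_smul (A := W) N fun x : ℝ => 2 - x
  rw [fnK_sub, fnK_const hW, fnK_id_real hW] at e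
  rw [← e, fnK_mul hW, ← fnK_one hW, ← fnK_add, fnK_inv hW fun _ _ =>
    (add_pos_of_nonneg_of_pos (mul_self_nonneg _) one_pos).ne']
  simp only [← sq]; rfl

lemma ms_wm (x : Cube n) : Measurable (wm n x) := by
  have c1 : Continuous fun p : Om n => (tau n • ((2 : ℝ) • 1 - Wp p)) *
      (tau n • ((2 : ℝ) • 1 - Wp p)) + (1 : Mat n) := by
    have : Continuous fun p : Om n => Wp p :=
      (continuous_Wy n).comp (f := fun p : Om n => Sum.elim p.1 p.2)
        (continuous_pi fun i => by cases i <;> simp only [Sum.elim_inl, Sum.elim_inr] <;> fun_prop)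
    fun_prop
  have c2 := c1.matrix_det.measurable.inv
  have c3 : Measurable fun p : Om n => hat n x ⬝ᵥ ((tau n • ((2 : ℝ) • 1 - Wp p)) *
      (tau n • ((2 : ℝ) • 1 - Wp p)) + (1 : Mat n)).adjugate *ᵥ hat n x :=
    (continuous_const.dotProduct (c1.matrix_adjugate.matrix_mulVec continuous_const)).measurable
  have := measurable_const (a := (1 : ℝ)).div ((c2.mul c3).const_add 1)
  convert this using 1
  funext p
  rw [wm, fl_one, ff_inv (Wmat_isHermitian _ _), Matrix.inv_def, smul_mulVec, dotProduct_smul,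
    Ring.inverse_eq_inv', smul_eq_mul]
  rfl

/-- scalars with a polynomial mark -/
def sp (q : Polynomial ℝ) (e : SE) (n : ℕ) (p : Om n) : ℝ :=
  mean (gw n p.1) fun x => q.eval (wm n x p) * e.ev (muG n p.1) 0 (hat n x)

theorem bz_sp (q : Polynomial ℝ) (e : SE) (he : e.Adm) : Bz (sp q e) := by
  obtain ⟨B, Γ, h1, h2⟩ := ev_anS e he
  obtain ⟨B', c, c0, hq⟩ := anR_poly q
  have nd : Nl fun n _ => c * (16 * dl n ^ 2) := .of_tendsto (fun _ => by positivity)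
    (by simpa using ((tendsto_dl.pow 2).const_mul 16).const_mul c)
  refine ⟨fun n => measurable_sum _ fun x _ => ((meas_prob x).comp measurable_fst).mul
    ((q.continuous.measurable.comp (ms_wm x)).mul ((ms_ev e he x).comp measurable_fst)),
    3 * (B' * B), _, (((nd.const_mul (a := 2 * B ^ 2) (by positivity)).add
      (h1.const_mul (a := 2 * B' ^ 2) (by positivity))).const_mul (a := 18) (by norm_num)).add
      (nl_DT 0 (B' * B)), ?_⟩
  filter_upwards [h2, eventually_ge_atTop 1, tendsto_dl.eventually (ge_mem_nhds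
    (by norm_num : (0 : ℝ) < 1 / 4))] with n ⟨G, g0, g1, g2⟩ hn hδ d
  refine (AnR.mean hn (rho_le d) fun x => (hq n _ _ _ _ (by positivity) (anR_mark hn hδ d x)).mul
    ((anR_iff.2 (g2 x)).mono (rho_le d) le_rfl fun _ => le_rfl)).mono (fun _ _ => le_rfl) le_rfl
    fun g => ?_
  rw [SL.mean_add, (gwt g).mean_const, SL.mean_const_mul, DT]
  have a1 := mul_le_mul_of_nonneg_left (g1 g) (by positivity : 0 ≤ 2 * B' ^ 2)
  have a2 := mul_le_mul_of_nonneg_right (m2_Rh_le g) (by positivity : 0 ≤ (Soft.N23 n)⁻¹)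
  linarith

/-- the cutoff is a continuous function of `1 / (1 + u)` -/
lemma exists_poly {l ε : ℝ} (hl : 0 ≤ l) (hε : 0 < ε) : ∃ q : Polynomial ℝ, ∀ u : ℝ, 0 ≤ u →
    |cut (l * u) - q.eval (1 / (1 + u))| ≤ ε := by
  have p : 0 < l / (l + 2) ∨ l = 0 := hl.eq_or_lt.symm.imp (fun h => by positivity) Eq.symm
  rcases p with p | rfl
  · have hc : Continuous fun w : ℝ => cut (l * (1 / max w (l / (l + 2)) - 1)) := by
      have : Continuous fun w : ℝ => 1 / max w (l / (l + 2)) :=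
        continuous_const.div (by fun_prop) fun w => (p.trans_le (le_max_right _ _)).ne'
      exact Real.smoothTransition.continuous.comp (by fun_prop)
    obtain ⟨q, hq⟩ := exists_polynomial_near_of_continuousOn 0 1 _ hc.continuousOn ε hε
    refine ⟨q, fun u hu => ?_⟩
    have := hq (1 / (1 + u)) ⟨by positivity, (div_le_one (by positivity)).2 (by linarith)⟩
    rw [abs_sub_comm]
    refine le_of_eq_of_le ?_ this.le
    congr 2
    have l0 : 0 < l := by
      by_contra h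
      rw [le_antisymm (not_lt.1 h) hl] at p; simp at p
    rcases le_total (l / (l + 2)) (1 / (1 + u)) with h | h
    · rw [max_eq_left h]; congr 2; field_simp; ring
    · rw [max_eq_right h, div_le_div_iff₀ (by positivity) (by positivity)] at *
      rw [cut, cut, Real.smoothTransition.zero_of_nonpos (by nlinarith),
        Real.smoothTransition.zero_of_nonpos (le_of_eq (by field_simp; ring))]
  · exact ⟨1, fun u _ => by simp [cut, Real.smoothTransition.one_of_one_le, hε.le]⟩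

end Ut75

open Ut75 in
/-- **universality of the scalars** -/
theorem utGlue : UtGlue := fun hB hS φ hφ => by
  rw [Metric.tendsto_nhds]
  intro ε hε
  have mφ := hφ.measurable
  obtain ⟨s, K, h0, h1, h2⟩ := id hφ
  set L := ∑ i ∈ s, |i.2.1.bd|
  have L0 : 0 ≤ L := sum_nonneg fun _ _ => abs_nonneg _
  have hd : 0 < ε / (4 * (K * L + 1)) := by positivity
  choose q hq using fun i : IS => exists_poly i.1.2 hd
  have hY := fun i : IS => bz_sp (q i) i.2.1 i.2.2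
  have key : ∀ b n, |∫ p, φ (sc n p) ∂PB b n - ∫ p, φ (fun i => sp (q i) i.2.1 n p) ∂PB b n| ≤
      ε / 4 + 2 * K * 0 := fun b n => by
    refine Soft.abs_integral_sub_le _
      (mφ.comp (measurable_pi_lambda _ (hS n))).aestronglyMeasurable
      (mφ.comp (measurable_pi_lambda _ fun i => (hY i).meas n)).aestronglyMeasurable h0
      (by positivity) le_rfl (fun _ => h1 _) (fun _ => h1 _) (S := ∅) (by simp)
      fun p _ => (h2 _ _).trans ?_
    have a : ∀ i : IS, |sc n p i - sp (q i) i.2.1 n p| ≤ ε / (4 * (K * L + 1)) * |i.2.1.bd| := by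
      intro i
      have := Lnk10.isProb_dm (gw_pos p.1) (hat n)
      have b := (hB _ (muG n p.1) this).2 0 ⟨measurable_const, by simp⟩ i.2.1 i.2.2
      rw [sc, mk, muG, Lnk10.integral_dm fun x => (gw_pos p.1 x).le, sp, ← SL.mean_sub]
      refine abs_ker_le (prob_nn (gw_pos p.1)) (sum_prob (gw_pos p.1)) fun x => ?_
      rw [muG, ← sub_mul, abs_mul]
      refine mul_le_mul (hq i _ ?_) ((b.2 _).trans (le_abs_self _)) (abs_nonneg _) hd.le
      rw [fl_one]; exact quad_nn (ff_nn _) _ _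
    refine (mul_le_mul_of_nonneg_left (sum_le_sum fun i _ => a i) h0).trans ?_
    rw [← mul_sum, mul_left_comm, div_mul_eq_mul_div, div_le_div_iff₀ (by positivity) (by norm_num)]
    nlinarith
  filter_upwards [Metric.tendsto_nhds.1 (Bz.cyl (Y := fun n p i => sp (q i) i.2.1 n p) hY φ hφ)
    (ε / 2) (half_pos hε)] with n hn
  have k0 := abs_le.1 (key false n)
  have k1 := abs_le.1 (key true n)
  rw [Real.dist_eq, sub_zero, abs_lt] at hn ⊢
  constructor <;> linarith [k0.1, k0.2, k1.1, k1.2, hn.1, hn.2]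

end Crest.Agent.T157.Cq

end
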