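import Crest.Agent.T157.DqC_9

-- ▼ part T157/DqD_9
section

/-!
# Row 157, part A (helper9): two-sided bounds of `log det (M - l - W)` and the edge of `M - W`

* `GoodI`, `GoodD` : events of probability `≥ 1 - e^{-y}` (`prob_goodI`, `prob_goodD`);
* `GoodI.low`, `GoodD.up` : lower / upper bound of the log-determinant;
* `edge_gain`, `edge_tail` : `P(λ_min(M - W) ≤ φ(z) - x)` at large deviation level, every `M`.
-/

set_option autoImplicit false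

noncomputable section

namespace Crest.Agent.T157.Dq

open Matrix Finset MeasureTheory ProbabilityTheory
open scoped ENNReal NNReal
open Crest.Agent.T157.E Crest.Agent.T157.Cond
open Crest.Agent.T157.Conc (ex ex_add ex_mono ex_zero)

variable {ι : Type*} [Fintype ι] [DecidableEq ι]

/-- `s² ∑ (m_i - w)^{-k}` -/
def Sk (k : ℕ) (s : ℝ) (m : ι → ℝ) (w : ℝ) : ℝ := s ^ 2 * ∑ i, ((m i - w) ^ k)⁻¹

/-- the free-convolution potential -/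
def psi (s : ℝ) (m : ι → ℝ) (z l : ℝ) : ℝ := ∑ i, Real.log (m i - z) + (z - l) ^ 2 / (2 * s ^ 2)

/-- the quartic integral is not much larger than its mean -/
def GoodI (s : ℝ) (M : Matrix ι ι ℝ) (m : ι → ℝ) (z y : ℝ) (W : Matrix ι ι ℝ) : Prop :=
  II s (M - z • (1 : Matrix ι ι ℝ) - W) ≤ ENNReal.ofReal (Real.exp y * ∏ i, (√(m i - z))⁻¹)

/-- the squared determinant is not much larger than its mean -/
def GoodD (s : ℝ) (M : Matrix ι ι ℝ) (m : ι → ℝ) (l w y : ℝ) (W : Matrix ι ι ℝ) : Prop :=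
  (M - l • (1 : Matrix ι ι ℝ) - W).det ^ 2 ≤ Real.exp y * (Real.exp ((w - l) ^ 2 / s ^ 2) *
    (∏ i, (m i - w) ^ 2) * ((1 - Sk 2 s m w) ^ 3)⁻¹)

variable {s : ℝ} {M W : Matrix ι ι ℝ} {m a : ι → ℝ}


theorem prob_goodD (hs : s ≠ 0) (hM : Dg M m) {w : ℝ} (hw : ∀ i, m i ≠ w) (hS : Sk 2 s m w < 1)
    (l y : ℝ) : (goe ι s).real {W | ¬ GoodD s M m l w y W} ≤ Real.exp (-y) := by
  have e : ∀ i, m i - l - (w - l) = m i - w := fun i => by ring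
  have h := det_sq_le hs (hM.sub l) (χ := w - l)
    (fun i h => hw i (by linarith)) (by simp only [e]; exact hS)
  simp only [e] at h
  set B := Real.exp ((w - l) ^ 2 / s ^ 2) * (∏ i, (m i - w) ^ 2) * ((1 - Sk 2 s m w) ^ 3)⁻¹ with hB
  have hB0 : 0 < B := by
    have h1 : 0 < ∏ i, (m i - w) ^ 2 :=
      prod_pos fun i _ => sq_pos_of_ne_zero (sub_ne_zero.2 (hw i))
    have h2 : 0 < 1 - Sk 2 s m w := sub_pos.2 hS
    positivity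
  have h1 := mul_meas_ge_le_integral_of_nonneg (μ := goe ι s)
    (ae_of_all _ fun W => sq_nonneg (M - l • (1 : Matrix ι ι ℝ) - W).det)
    (integrable_det_sq s _) (Real.exp y * B)
  have h2 := h1.trans h
  change _ ≤ B at h2
  rw [mul_right_comm, mul_le_iff_le_one_left hB0] at h2
  rw [← le_div_iff₀' (Real.exp_pos y), one_div, ← Real.exp_neg] at h2
  exact (measureReal_mono (fun W (hW : ¬ _ ≤ _) => (not_le.1 hW).le)).trans h2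

omit [DecidableEq ι] in
lemma log_prod_sqrt {b : ι → ℝ} (hb : ∀ i, 0 < b i) :
    Real.log (∏ i, (√(b i))⁻¹) = -(∑ i, Real.log (b i)) / 2 := by
  rw [Real.log_prod fun i _ => (inv_pos.2 (Real.sqrt_pos.2 (hb i))).ne', ← sum_neg_distrib, sum_div]
  exact sum_congr rfl fun i _ => by rw [Real.log_inv, Real.log_sqrt (hb i).le]; ring

/-- **lower bound of the log-determinant** at a point below the spectrum -/
theorem GoodI.low [Nonempty ι] {z y α Λ : ℝ} (h : GoodI s M m z y W) (hz : ∀ i, z < m i)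
    (hA : Dg (M - W) a) (hs : 0 < s) (hα : 0 ≤ α) (ha : ∀ i, z - α ≤ a i)
    (hΛ : α + s * (1 + √(2 * Fintype.card ι)) ≤ Λ) :
    ∃ l, (∀ i, l < a i) ∧ z - Λ ≤ l ∧ l ≤ z + s ∧
      psi s m z l - 2 * y - 2 * Real.log (256 * Fintype.card ι * Λ / s) ≤
        ∑ i, Real.log (a i - l) := by
  obtain ⟨l, h1, h2, h3, h4⟩ := II_lower (hA.sub z) hs hα (fun i => by linarith [ha i]) hΛ
  have hΛ0 : 0 < Λ := by nlinarith [Real.sqrt_nonneg (2 * (Fintype.card ι : ℝ))]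
  have hn : (0 : ℝ) < Fintype.card ι := by exact_mod_cast Fintype.card_pos
  refine ⟨z + l, fun i => by linarith [h1 i], by linarith, by linarith, ?_⟩
  rw [sub_right_comm] at h4
  have hb : ∀ i, 0 < m i - z := fun i => sub_pos.2 (hz i)
  have hc : ∀ i, 0 < a i - z - l := fun i => sub_pos.2 (h1 i)
  have p1 : 0 < ∏ i, (√(m i - z))⁻¹ := prod_pos fun i _ => inv_pos.2 (Real.sqrt_pos.2 (hb i))
  have p2 : 0 < ∏ i, (√(a i - z - l))⁻¹ := prod_pos fun i _ => inv_pos.2 (Real.sqrt_pos.2 (hc i))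
  have h5 := (ENNReal.ofReal_le_ofReal_iff (by positivity)).1 (h4.trans h)
  have h6 := Real.log_le_log (by positivity) h5
  rw [Real.log_mul (by positivity) p2.ne', Real.log_mul (by positivity) (by positivity),
    Real.log_mul (by positivity) p1.ne', Real.log_exp, Real.log_exp, log_prod_sqrt hb,
    log_prod_sqrt hc, ← inv_div, Real.log_inv] at h6
  simp only [psi, ← sub_sub]
  have e : (z - z - l) ^ 2 / (2 * s ^ 2) = 2 * (l ^ 2 / (4 * s ^ 2)) := by ring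
  linarith

/-- **upper bound of the log-determinant** -/
theorem GoodD.up {l w y : ℝ} (h : GoodD s M m l w y W) (hw : ∀ i, w < m i) (hS : Sk 2 s m w < 1)
    (hA : Dg (M - W) a) (hl : ∀ i, l < a i) :
    ∑ i, Real.log (a i - l) ≤ psi s m w l + y / 2 - 3 / 2 * Real.log (1 - Sk 2 s m w) := by
  have hb : ∀ i, 0 < m i - w := fun i => sub_pos.2 (hw i)
  have hc : ∀ i, 0 < a i - l := fun i => sub_pos.2 (hl i)
  have h2 : 0 < 1 - Sk 2 s m w := sub_pos.2 hS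
  have p1 : 0 < ∏ i, (m i - w) ^ 2 := prod_pos fun i _ => pow_pos (hb i) 2
  rw [GoodD, sub_right_comm, (hA.sub l).det] at h
  have h3 := Real.log_le_log (pow_pos (prod_pos fun i _ => hc i) 2) h
  rw [Real.log_pow, Real.log_prod fun i _ => (hc i).ne', Real.log_mul (by positivity)
    (by positivity), Real.log_mul (by positivity) (by positivity), Real.log_mul (by positivity)
    p1.ne', Real.log_exp, Real.log_exp, Real.log_inv, Real.log_pow,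
    Real.log_prod fun i _ => (pow_pos (hb i) 2).ne'] at h3
  simp only [Real.log_pow, ← mul_sum] at h3
  have e : (w - l) ^ 2 / (2 * s ^ 2) = (w - l) ^ 2 / s ^ 2 / 2 := by ring
  simp only [psi]
  push_cast at h3
  linarith

lemma log_one_add_le {u : ℝ} (hu : 0 ≤ u) : Real.log (1 + u) ≤ u - u ^ 2 / 2 + u ^ 3 / 3 := by
  have hd : ∀ x : ℝ, 0 ≤ x → HasDerivAt (fun x => x - x ^ 2 / 2 + x ^ 3 / 3 - Real.log (1 + x))
      (x ^ 3 / (1 + x)) x := fun x hx => by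
    have h1 := ((((hasDerivAt_id' x).sub ((hasDerivAt_pow 2 x).div_const 2)).add
      ((hasDerivAt_pow 3 x).div_const 3))).sub
      (((hasDerivAt_id' x).const_add 1).log (by linarith))
    refine h1.congr_deriv ?_
    have : 1 + x ≠ 0 := by linarith
    field_simp
    norm_num
    ring
  have hm : MonotoneOn (fun x => x - x ^ 2 / 2 + x ^ 3 / 3 - Real.log (1 + x)) (Set.Ici 0) := by
    refine monotoneOn_of_deriv_nonneg (convex_Ici 0)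
      (fun x hx => (hd x hx).continuousAt.continuousWithinAt)
      (fun x hx => (hd x (interior_subset hx)).differentiableAt.differentiableWithinAt)
      fun x hx => ?_
    have hx0 : (0 : ℝ) ≤ x := interior_subset hx
    rw [(hd x hx0).deriv]; positivity
  have := hm (Set.mem_Ici.2 le_rfl) hu hu
  simp only at this
  norm_num at this
  linarith



/-- `M - W` has an eigenvalue `≤ x₀` and all eigenvalues `≥ x₁` -/
def Bad (M : Matrix ι ι ℝ) (x₀ x₁ : ℝ) : Set (Matrix ι ι ℝ) :=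
  {W | ∃ a, Dg (M - W) a ∧ (∀ i, x₁ ≤ a i) ∧ ∃ i, a i ≤ x₀}


end Crest.Agent.T157.Dq

end
end

-- ▼ part T157/QeDef_24

/-!
# Row 157, part A2 (helper24): the quenched edge (3q), definitions and exact leaves

Paper proof: `docs/T157_W24.md`, section 5 (constants as in this file).
`PtStmt`: under the planted tilt, conditionally on `W p`, on a rigid spectrum the matrix
`2 + diag D - β e e' - W` is nonnegative off probability `exp(C log n + E - ε⁹ q² n / 64)`.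
-/

set_option autoImplicit false

noncomputable section

namespace Crest.Agent.T157.Qe

open Matrix Finset MeasureTheory Set
open scoped ENNReal
open Crest.Agent.T157.E Crest.Agent.T157.Cond Crest.Agent.T157.Dq
open Crest.Agent.T157.Conc (ex)

abbrev V (n : ℕ) : Type := Fin n → ℝ
abbrev Mx (n : ℕ) : Type := Matrix (Fin n) (Fin n) ℝ
/-- the same measure as `Tap.GOE` -/
abbrev GOE (n : ℕ) : Measure (Mx n) := goe (Fin n) (1 / Real.sqrt n)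

variable {n : ℕ}

/-- order of quadratic forms -/
def Le (A B : Mx n) : Prop := ∀ u : V n, u ⬝ᵥ A *ᵥ u ≤ u ⬝ᵥ B *ᵥ u
/-- Gaussian integral (`det^{-1/2}`) -/
def Gi (N : Mx n) : ℝ≥0∞ := ∫⁻ x, ex ((x ⬝ᵥ x - x ⬝ᵥ N *ᵥ x) / 2) ∂gv (Fin n)
def zz (g : ℝ) : ℝ := g + 1 / g
/-- logarithmic potential of the semicircle at `zz g` -/
def ell (g : ℝ) : ℝ := g ^ 2 / 2 - Real.log g
/-- the spherical integral exponent, cut at `zz g0` -/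
def Jb (g0 u : ℝ) : ℝ := zz (min u g0) * u / 2 - ell (min u g0) / 2 - Real.log u / 2 - 1 / 2
/-- spectral data used by (QS) -/
def Sp (g0 E : ℝ) (W : Mx n) : Prop := ∃ a, Dg W a ∧ (∀ i, -4 ≤ a i ∧ a i < zz g0) ∧
  ∀ g ∈ Icc (1 / 64 : ℝ) g0, n * ell g - E ≤ ∑ i, Real.log (zz g - a i)
/-- invariance under the orthogonal group of the range of `P` -/
def Inv (P : Mx n) (ν : Measure (Mx n)) (Φ : Mx n → Mx n) : Prop :=
  ∀ O : Mx n, O * Oᵀ = 1 → O * (1 - P) = 1 - P → ∀ ξ : V n,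
    ∫⁻ W, ex ((O *ᵥ ξ) ⬝ᵥ Φ W *ᵥ (O *ᵥ ξ) / 2) ∂ν = ∫⁻ W, ex (ξ ⬝ᵥ Φ W *ᵥ ξ / 2) ∂ν

/-- the data of (QS): the random matrix is `Φ W`, `W ∼ ν` -/
structure QD (P S : Mx n) (ν : Measure (Mx n)) (Φ : Mx n → Mx n) (g0 E : ℝ) : Prop where
  proj : IsProj P
  tr : (n : ℝ) - 3 ≤ P.trace
  fin : IsFiniteMeasure ν
  meas : Measurable Φ
  inv : Inv P ν Φ
  symm : Sᵀ = S
  zero : S * P = 0
  nonneg : Le 0 S
  ae : ∀ᵐ W ∂ν, Sp g0 E (Φ W) ∧ Le (Φ W + S) (zz g0 • (1 : Mx n))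

/-- **(QS)** quenched spherical integral -/
def QsStmt : Prop := ∃ C : ℕ, ∀ (n : ℕ) (P S : Mx n) (ν : Measure (Mx n)) (Φ : Mx n → Mx n)
    (g0 E : ℝ) (ξ : V n), 8 ≤ n → QD P S ν Φ g0 E → g0 ∈ Icc (1 / 2 : ℝ) 1 →
  (P *ᵥ ξ) ⬝ᵥ (P *ᵥ ξ) / n ∈ Icc (1 / 64 : ℝ) 10 →
  ∫⁻ W, ex (ξ ⬝ᵥ Φ W *ᵥ ξ / 2) ∂ν ≤ ν univ * ex (C * Real.log n +
    (ξ - P *ᵥ ξ) ⬝ᵥ (zz g0 • (1 : Mx n) - S) *ᵥ (ξ - P *ᵥ ξ) / 2 +
    n * Jb g0 ((P *ᵥ ξ) ⬝ᵥ (P *ᵥ ξ) / n) + E / 2)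

/-- parameters -/
structure Par (n : ℕ) (ε q : ℝ) : Prop where
  n8 : 8 ≤ n
  e0 : 0 < ε
  e1 : ε ≤ 1 / 100
  q0 : 0 < q
  q1 : q ≤ ε ^ 3 / 10 ^ 6
  nq : 1 ≤ n * ε * q

/-- the diagonal and its free edge gap -/
structure Dv (ε q : ℝ) (D : V n) : Prop where
  lo : ∀ i, -(3 * q) ≤ D i
  hi : ∀ i, D i ≤ 3
  m1 : ∑ i, D i ≤ 4 * q ^ 2 * n
  m2 : ∑ i, D i ^ 2 ≤ 4 * q ^ 2 * n
  gap : ε * q ^ 2 * n ≤ ∑ i, D i - ∑ i, D i ^ 2

def uu (ε : ℝ) : ℝ := 1 + ε / 16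
def gg (ε q : ℝ) : ℝ := 1 - ε ^ 2 * q
def GG (D : V n) (a : ℝ) : ℝ := (∑ i, Real.log (1 + a * D i)) / 2

/-- **upper bound** of the quartic integral on the invariant event -/
def UpStmt : Prop := ∃ C : ℕ, ∀ (n : ℕ) (ε q E : ℝ) (P S B : Mx n) (ν : Measure (Mx n))
    (Φ : Mx n → Mx n) (D : V n),
  Par n ε q → 0 ≤ E → QD P S ν Φ (gg ε q) E → Dv ε q D → Bᵀ = B →
  P * B * P = P * diagonal D * P →
  Le ((ε * q ^ 2) • (1 - P)) (B + S + (uu ε)⁻¹ • P) →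
  ∫⁻ W, II (1 / Real.sqrt n) (B + (2 - uu ε) • (1 : Mx n) - Φ W) ∂ν ≤ ν univ *
    ex (C * Real.log n + E / 2 + n * (uu ε ^ 2 / 4 - 1 / 4) - GG D 1 - ε ^ 2 * q ^ 2 * n / 256)

def UpGlue : Prop := QsStmt → UpStmt

/-- **lower bound** of the quartic integral when `2 + B - W` is not nonnegative -/
def LoStmt : Prop := ∃ C : ℕ, ∀ (n : ℕ) (ε q y : ℝ) (P B : Mx n) (D : V n),
  Par n ε q → 0 ≤ y → y ≤ n → IsProj P → (n : ℝ) - 3 ≤ P.trace → Dv ε q D → Bᵀ = B →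
  P * B * P = P * diagonal D * P → Le ((-2 : ℝ) • (1 : Mx n)) B → Le B ((4 : ℝ) • (1 : Mx n)) →
  ∃ G : Set (Mx n), GOE n Gᶜ ≤ ex (C * Real.log n - y) ∧ ∀ W' ∈ G, ∀ W : Mx n,
    P * W * P = P * W' * P → (∃ a, Dg W a ∧ ∀ i, -4 ≤ a i ∧ a i ≤ 3) →
    ¬ Le W (B + (2 : ℝ) • (1 : Mx n)) →
    ex (n * (uu ε ^ 2 / 4 - 1 / 4) - GG D 1 - 200 * q ^ 3 * n - y / 4 - C * Real.log n) ≤
      II (1 / Real.sqrt n) (B + (2 - uu ε) • (1 : Mx n) - W)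

/-- projector on the complement of the unit vector `e` -/
def R1 (e : V n) : Mx n := 1 - vecMulVec e e
def P2 (e c : V n) : Mx n := nextR (R1 e) c
def P3 (e c τ : V n) : Mx n := nextR (P2 e c) τ
def bv (e c : V n) : V n := R1 e *ᵥ c
/-- the planted matrix given its column `W e = c` -/
def Wm (e c τ : V n) (W : Mx n) : Mx n :=
  glue (rk2 c e) (R1 e) (W + (1 / (n : ℝ)) • vecMulVec τ τ)
def Sg (z : ℝ) (e c : V n) : Mx n := (z - e ⬝ᵥ c)⁻¹ • vecMulVec (z • e - c) (z • e - c)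
def Tm (ε q : ℝ) (τ : V n) : Mx n := (q ^ 2 / ε / (τ ⬝ᵥ τ)) • vecMulVec τ τ
def Mm (D : V n) (β : ℝ) (e : V n) : Mx n :=
  diagonal D - β • vecMulVec e e + (2 : ℝ) • (1 : Mx n)

/-- an invariant event of rigid spectra -/
structure WS (ε q E Cw : ℝ) (S : Set (Mx n)) : Prop where
  meas : MeasurableSet S
  inv : ∀ O W : Mx n, O * Oᵀ = 1 → W ∈ S → O * W * Oᵀ ∈ S
  sp : ∀ W ∈ S, ∃ a, Dg W a ∧ (∀ i, -4 ≤ a i ∧ a i ≤ 2 + ε ^ 4 * q ^ 2 / 2) ∧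
    (∀ g ∈ Icc (1 / 64 : ℝ) (gg ε q), n * ell g - E ≤ ∑ i, Real.log (zz g - a i)) ∧
    ∑ i, ((zz (gg ε q) - a i) ^ 2)⁻¹ ≤ Cw * n / (ε ^ 2 * q)

/-- the statistics used by the tilt bound -/
structure FS (ε q : ℝ) (e c τ : V n) : Prop where
  unit : e ⬝ᵥ e = 1
  orth : e ⬝ᵥ τ = 0
  t1 : (n : ℝ) / 2 ≤ τ ⬝ᵥ τ
  t2 : τ ⬝ᵥ τ ≤ n
  pos : 0 < zz (gg ε q) - e ⬝ᵥ c
  w1 : (unitv (bv e c) ⬝ᵥ τ) ^ 2 ≤ n / 4
  w2 : (unitv (bv e c) ⬝ᵥ τ) ^ 2 * (zz (gg ε (2 * q)) -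
    bv e c ⬝ᵥ bv e c / (zz (gg ε q) - e ⬝ᵥ c) - (τ ⬝ᵥ τ - (unitv (bv e c) ⬝ᵥ τ) ^ 2) / n) ≤
      ε ^ 9 * q ^ 2 * n / 64

/-- **tilt bound**: the planted direction does not sit in the soft modes -/
def TiStmt : Prop := ∃ C : ℕ, ∀ (n : ℕ) (ε q E Cw : ℝ) (e c τ : V n) (S : Set (Mx n)),
  Par n ε q → 0 ≤ Cw → 1100 * (1 + Cw) * q ≤ ε ^ 3 → WS ε q E Cw S → FS ε q e c τ →
  GOE n {W | Wm e c τ W ∈ S ∧ ¬ Le (Wm e c τ W + Tm ε q τ) (zz (gg ε q) • (1 : Mx n))} ≤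
    ex (C * Real.log n + E / 2 - ε ^ 9 * q ^ 2 * n / 64)

def TiGlue : Prop := QsStmt → TiStmt

/-- the scalar statistics of `(x, s, W p)` -/
structure St (C δ q : ℝ) (D : V n) (β : ℝ) (e c τ : V n) : Prop where
  unit : e ⬝ᵥ e = 1
  orth : e ⬝ᵥ τ = 0
  t1 : (1 - δ) * n ≤ τ ⬝ᵥ τ
  t2 : τ ⬝ᵥ τ ≤ n
  b0 : 0 ≤ β
  b1 : β ≤ 1
  s1 : q / C ≤ 2 - e ⬝ᵥ c
  s2 : 2 - e ⬝ᵥ c ≤ C * q
  s3 : |bv e c ⬝ᵥ bv e c - (2 - e ⬝ᵥ c)| ≤ δ * (2 - e ⬝ᵥ c)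
  e1 : 2 * q ^ 2 ≤ e ⬝ᵥ diagonal D *ᵥ e - β + 2 * (e ⬝ᵥ diagonal D *ᵥ bv e c) -
    bv e (diagonal D *ᵥ e) ⬝ᵥ bv e (diagonal D *ᵥ e)
  e2 : bv e (diagonal D *ᵥ e) ⬝ᵥ bv e (diagonal D *ᵥ e) ≤ C * q ^ 2
  e3 : |e ⬝ᵥ diagonal D *ᵥ bv e c| ≤ C * q ^ 2
  v1 : -(δ * q ^ 2) ≤ bv e c ⬝ᵥ diagonal D *ᵥ bv e c
  v2 : (diagonal D *ᵥ bv e c) ⬝ᵥ (diagonal D *ᵥ bv e c) ≤ δ * q ^ 2
  u1 : (diagonal D *ᵥ τ) ⬝ᵥ (diagonal D *ᵥ τ) ≤ C * q ^ 2 * n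
  u2 : -(C * q ^ 2 * n) ≤ τ ⬝ᵥ diagonal D *ᵥ τ
  u3 : (e ⬝ᵥ diagonal D *ᵥ τ) ^ 2 ≤ C * q ^ 4 * n
  u4 : (bv e c ⬝ᵥ diagonal D *ᵥ τ) ^ 2 ≤ C * q ^ 4 * n
  u5 : (bv e c ⬝ᵥ τ) ^ 2 ≤ C * q ^ 3 * n

/-- **the 3 x 3 criterion** -/
def NumStmt : Prop := ∀ C ≥ (1 : ℝ), ∃ ε0 > (0 : ℝ), ∀ ε ∈ Ioc 0 ε0, ∃ δ > (0 : ℝ), ∃ q1 > (0 : ℝ),
  ∀ (n : ℕ) (q β : ℝ) (D e c τ : V n), 0 < n → q ∈ Ioc 0 q1 → (∀ i, -(3 * q) ≤ D i) →
  St C δ q D β e c τ → FS ε q e c τ ∧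
    Le ((ε * q ^ 2) • (1 - P3 e c τ)) (diagonal D - β • vecMulVec e e +
      (Sg (zz (gg ε q)) e c + Tm ε q τ) + (uu ε)⁻¹ • P3 e c τ)






end Crest.Agent.T157.Qe

end
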