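import Crest.Agent.T157.UnC_81
import Crest.Agent.T157.QeDef_24
import Crest.Agent.T157.CnDef_63

/-!
# Row 157, part C (helper8): coin windows, I. The comparison engine (definitions, exact leaves)

Paper proof: `docs/T157_coin.md`, sections 1-3.
`EngStmt`: the planted weight times a penalty times a soft indicator of a large covariance has a
coin mean at most `exp A` times its Gaussian mean.
`WW` is the spectral event on which part A2 delivers joint planted rates.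
-/

set_option autoImplicit false

noncomputable section

namespace Crest.Agent.T157.Cw

open MeasureTheory ProbabilityTheory Matrix Set Function Metric
open scoped ENNReal
open Crest.ProbabilityR.SpinGlassDynamics
open Crest.Agent.T157.E Crest.Agent.T157.Un Crest.Agent.T157.Crit
open Crest.Agent.T157.Qe (V Mx Le zz ell)
open Crest.Agent.T157.Conc (ex)

variable {n : ℕ}

/-! ### the spectral event -/

/-- **WW**: what the covariance windows at the times `≥ t` may use about `W` (monotone in `t`) -/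
def WW (t e κ : ℝ) (W : Mx n) : Prop := ∃ a, Dq.Dg W a ∧ (∀ i, -3 ≤ a i ∧ a i ≤ 2 + e * t) ∧
  ∀ g ∈ Ico (1 / 64 : ℝ) 1, 2 * e * t ≤ zz g - 2 →
    |∑ i, (zz g - a i)⁻¹ - n * g| ≤ min (e * n * √(max (zz g - 2) t))
      (min ((n : ℝ) ^ κ * √(n / (zz g - 2))) (e * √n / (zz g - 2) ^ (3 / 4 : ℝ))) ∧
    |∑ i, Real.log (zz g - a i) - n * ell g| ≤
      min (e * n * max (zz g - 2) t ^ (3 / 2 : ℝ)) ((n : ℝ) ^ κ * √(n * t))

/-! ### one entry, all entries -/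

/-- `j`-th derivative -/
abbrev dv (j : ℕ) (f : ℝ → ℝ) (x : ℝ) : ℝ := iteratedDeriv j f x



/-! ### the Schatten norm along a perturbation -/


/-- Schatten norm of a nonnegative matrix -/
def sch (k : ℕ) (M : Mx n) : ℝ := (M ^ k).trace ^ (k : ℝ)⁻¹

/-- the mean of `A M⁻¹` in the state `M^k / tr M^k` -/
def av (k : ℕ) (M A : Mx n) : ℝ := (M ^ (k - 1) * A).trace / (M ^ k).trace

/-- **L4** expansion of the Schatten norm; the second order term controls its own size -/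
def SchStmt : Prop := ∃ C c : ℝ, 1 ≤ C ∧ 0 < c ∧ c ≤ 1 ∧
  ∀ (n k : ℕ) (M A B : Mx n) (δ Λ : ℝ), 1 ≤ n → 2 ≤ k → 0 < δ → Mᵀ = M → Aᵀ = A → Bᵀ = B →
  Le (δ • 1) M → Le M (Λ • 1) → Le ((-2 : ℝ) • M) A → Le A ((2 : ℝ) • M) → Le 0 B → Le B M →
  ∃ (v : ℝ) (q : ℝ → ℝ) (G : ℂ → ℂ), |av k M A| ≤ 2 ∧ 0 ≤ v ∧ av k M A ^ 2 + v ≤ 4 ∧
    av k M A ^ 2 + v = av k M (A * M⁻¹ * A) ∧ 0 ≤ av k M B ∧ av k M B ≤ 1 ∧
    Ex (c / k) q G ∧ (∀ z ∈ ball (0 : ℂ) (c / k), ‖G z‖ ≤ C * k * (v + av k M B)) ∧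
    δ / (4 * Λ) * v - av k M B ≤ q 0 ∧
    ∀ u : ℝ, |u| < c / k →
      sch k (M + u • A - u ^ 2 • B) = sch k M * (1 + av k M A * u + u ^ 2 * q u)


/-! ### one coupling of the Ising measure -/

/-- third moments with a sign function -/
def K3 (w τ : Cube n → ℝ) : Mx n := fun i j =>
  mean w fun x => (sv x i - mag w i) * (sv x j - mag w j) * (τ x - mean w τ)

/-- **L5** the covariance under the tilt by a sign function; Bessel for the couplings -/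
structure TiltStmt : Prop where
  tilt : ∀ (n : ℕ) (w τ : Cube n → ℝ) (x : ℝ), (∀ σ, 0 < w σ) → Sgn τ →
    covM (rw w τ x) = covM w + (Real.tanh x / (1 + mean w τ * Real.tanh x)) • K3 w τ -
      (Real.tanh x / (1 + mean w τ * Real.tanh x)) ^ 2 • vecMulVec (covV w τ sv) (covV w τ sv)
  bd : ∀ (n : ℕ) (w τ : Cube n → ℝ), (∀ σ, 0 < w σ) → Sgn τ → |mean w τ| ≤ 1 ∧
    (covM w)ᵀ = covM w ∧ (K3 w τ)ᵀ = K3 w τ ∧ Le 0 (covM w) ∧ Le ((-2 : ℝ) • covM w) (K3 w τ) ∧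
    Le (K3 w τ) ((2 : ℝ) • covM w) ∧ Le (vecMulVec (covV w τ sv) (covV w τ sv)) (covM w)
  upd : ∀ (n : ℕ) (g : Pair n → ℝ) (dd y : V n) (e : Pair n) (x : ℝ),
    ising (Wmat n (update g e x) dd) y = rw (ising (Wmat n g dd) y) (chi e) ((x - g e) / √n)
  sum : ∀ (n : ℕ) (w : Cube n → ℝ) (K : ℝ), (∀ σ, 0 < w σ) → CovLe w K →
    Le (∑ e : Pair n, vecMulVec (covV w (chi e) sv) (covV w (chi e) sv)) ((2 * n * K) • covM w)

/-- regularised covariance -/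
def Mr (ε s : ℝ) (W : Mx n) (y : V n) : Mx n := ε • 1 + s • covM (ising W y)

/-- its Schatten norm -/
def lm (k : ℕ) (ε s : ℝ) (W : Mx n) (y : V n) : ℝ := sch k (Mr ε s W y)

/-- the concave part of the second derivative in the coupling `e` -/
def bb (k : ℕ) (ε s : ℝ) (W : Mx n) (y : V n) (e : Pair n) : ℝ :=
  av k (Mr ε s W y) (s • vecMulVec (covV (ising W y) (chi e) sv) (covV (ising W y) (chi e) sv))

/-- jet condition: almost convex, higher derivatives dominated by the first two -/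
structure Jt (L : ℝ → ℝ) (x R β : ℝ) : Prop where
  cd : ContDiff ℝ 4 L
  h2 : -(R * |dv 1 L x| + β) ≤ dv 2 L x
  h3 : |dv 3 L x| ≤ R * (|dv 2 L x| + R * |dv 1 L x| + β)
  h4 : |dv 4 L x| ≤ R ^ 2 * (|dv 2 L x| + R * |dv 1 L x| + β)

/-- **L6** the jets of `lm` in one coupling (sharp and crude form) -/
def JetStmt : Prop := ∃ C : ℝ, 1 ≤ C ∧ ∀ (n k : ℕ) (ε s : ℝ) (g : Pair n → ℝ) (dd y : V n)
    (e : Pair n), 2 ≤ k → 0 < ε → 0 ≤ s →
  Jt (fun x => lm k ε s (Wmat n (update g e x) dd) y) (g e)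
    (C * k ^ 2 * lm k ε s (Wmat n g dd) y / (ε * √n))
    (C * bb k ε s (Wmat n g dd) y e * lm k ε s (Wmat n g dd) y / n) ∧
  Jt (fun x => lm k ε s (Wmat n (update g e x) dd) y) (g e) (C * k / √n)
    (C * k * lm k ε s (Wmat n g dd) y / n)

def JetGlue : Prop := SchStmt → TiltStmt → JetStmt

/-- **L6'** elementary facts about `lm` and `bb` -/
structure LmStmt : Prop where
  meas : ∀ (n k : ℕ) (ε s : ℝ), Measurable fun p : Mx n × V n => lm k ε s p.1 p.2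
  measb : ∀ (n k : ℕ) (ε s : ℝ) (e : Pair n), Measurable fun p : Mx n × V n => bb k ε s p.1 p.2 e
  lo : ∀ (n k : ℕ) (ε s : ℝ) (W : Mx n) (y : V n), 1 ≤ n → 1 ≤ k → 0 < ε → 0 ≤ s →
    ε ≤ lm k ε s W y ∧ ∀ K : ℝ, lm k ε s W y ≤ ε + s * K → 0 < s → CovLe (ising W y) K
  hi : ∀ (n k : ℕ) (ε s K : ℝ) (W : Mx n) (y : V n), 1 ≤ k → 0 < ε → 0 ≤ s → 0 ≤ K →
    CovLe (ising W y) K → lm k ε s W y ≤ (n : ℝ) ^ (k : ℝ)⁻¹ * (ε + s * K)
  crude : ∀ (n : ℕ) (W : Mx n) (y : V n), CovLe (ising W y) n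
  b01 : ∀ (n k : ℕ) (ε s : ℝ) (W : Mx n) (y : V n) (e : Pair n), 1 ≤ k → 0 < ε → 0 ≤ s →
    0 ≤ bb k ε s W y e ∧ bb k ε s W y e ≤ 1
  bsum : ∀ (n k : ℕ) (ε s : ℝ) (W : Mx n) (y : V n), 1 ≤ k → 0 < ε → 0 < s →
    s * ∑ e, bb k ε s W y e ≤ 2 * n * lm k ε s W y

def LmGlue : Prop := TiltStmt → LmStmt

/-- exponential, continued by its Taylor polynomial -/
def fE (u : ℝ) : ℝ := if u ≤ 0 then Real.exp u else 1 + u + u ^ 2 / 2 + u ^ 3 / 6 + u ^ 4 / 24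

/-- derivatives of order `1..4` of size `ω^j a` -/
def Dm (f : ℝ → ℝ) (x ω a : ℝ) : Prop := ∀ j ∈ Icc 1 4, |dv j f x| ≤ ω ^ j * a

/-- **L7** the fourth derivative is almost nonnegative -/
def AlgStmt : Prop := ∃ C : ℝ, 0 < C ∧ ContDiff ℝ 4 fE ∧ Monotone fE ∧ (∀ u, 0 < fE u) ∧
  (∀ u, fE u ≤ (1 + max u 0) ^ 4) ∧
  ∀ (F B : ℝ → ℝ) (x ω R β : ℝ), ContDiff ℝ 4 F → 0 ≤ ω → 0 ≤ R → 0 ≤ β → 0 ≤ F x →
    Dm F x ω (F x) → Jt B x R β →
    -(C * (R ^ 4 + (β / (1 + max (B x) 0)) ^ 2 + ω ^ 4) * (F x * fE (B x))) ≤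
      dv 4 (fun t => F t * fE (B t)) x

/-! ### light functions of the couplings -/

section lt
variable {ι : Type} [Fintype ι] [DecidableEq ι]

/-- entrywise derivatives up to order four with `∑ ω⁴ ≤ B` -/
def LT (B : ℝ) (Y : (ι → ℝ) → ℝ) : Prop := Measurable Y ∧ ∃ ω : ι → (ι → ℝ) → ℝ,
  (∀ e, Measurable (ω e)) ∧ (∀ e g, 0 ≤ ω e g) ∧ (∀ g, ∑ e, ω e g ^ 4 ≤ B) ∧
  ∀ e g, ContDiff ℝ 4 (fun x => Y (update g e x)) ∧ Dm (fun x => Y (update g e x)) (g e) (ω e g) 1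

end lt

/-- **L9** calculus of light functions -/
structure LtStmt (C : ℝ) : Prop where
  one : 1 ≤ C
  expo : ∀ (f : ℝ → ℝ) (x ω : ℝ), ContDiff ℝ 4 f → 0 ≤ ω → Dm f x ω 1 →
    Dm (fun t => Real.exp (f t)) x (2 * ω) (Real.exp (f x))
  mono : ∀ (ι : Type) [Fintype ι] [DecidableEq ι] (B B' : ℝ) (Y : (ι → ℝ) → ℝ), B ≤ B' →
    LT B Y → LT B' Y
  const : ∀ (ι : Type) [Fintype ι] [DecidableEq ι] (a : ℝ), LT 0 fun _ : ι → ℝ => a
  add : ∀ (ι : Type) [Fintype ι] [DecidableEq ι] (B B' : ℝ) (Y Y' : (ι → ℝ) → ℝ), LT B Y →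
    LT B' Y' → LT (8 * (B + B')) fun g => Y g + Y' g
  smul : ∀ (ι : Type) [Fintype ι] [DecidableEq ι] (B a : ℝ) (Y : (ι → ℝ) → ℝ), LT B Y →
    LT (max |a| 1 ^ 4 * B) fun g => a * Y g
  /-- soft maximum, no dependence on the number of terms -/
  lse : ∀ (ι κ : Type) [Fintype ι] [DecidableEq ι] (S : Finset κ) (B : ℝ) (u : κ → (ι → ℝ) → ℝ),
    0 ≤ B → (∀ i ∈ S, LT B (u i)) → LT (C * B) fun g => Real.log (1 + ∑ i ∈ S, Real.exp (u i g))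
  /-- free energies -/
  det : ∀ (ι X : Type) [Fintype ι] [DecidableEq ι] [MeasurableSpace X] (ν : Measure X)
    [IsFiniteMeasure ν] (c : ι → X → ℝ) (B : ℝ), ν ≠ 0 → (∀ e, Measurable (c e)) →
    (∀ᵐ x ∂ν, ∑ e, c e x ^ 4 ≤ B) →
    LT (C * B) fun g => Real.log (∫ x, Real.exp (∑ e, g e * c e x) ∂ν)

/-! ### the engine -/

/-- planted weight, penalty, soft indicator -/
def Psi (k : ℕ) (ε s p l0 : ℝ) (Y : Mx n → ℝ) (σ : Cube n) (y : V n) (W : Mx n) : ℝ :=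
  ising W 0 σ * Real.exp (Y W) * fE (p * (lm k ε s W y - l0))

/-- the exponent of the engine -/
def Aeng (n k : ℕ) (ε s p l0 B : ℝ) : ℝ :=
  (1 + Real.log n) * ((k ^ 2 * l0 / ε) ^ 4 + p ^ 2 * l0 ^ 3 / (n * s) + B)

/-- **L8, ENGINE** -/
def EngStmt : Prop := ∃ C : ℝ, 0 < C ∧ ∀ (n k : ℕ) (ε s p l0 B : ℝ) (Y : Mx n → ℝ) (σ : Cube n)
    (y dd : V n), 1 ≤ n → 2 ≤ k → 0 < ε → ε ≤ l0 → 0 < s → 0 ≤ p →
  LT B (fun g => Y (Wmat n g dd)) →
  ∫⁻ g, ENNReal.ofReal (Psi k ε s p l0 Y σ y (Wmat n g dd)) ∂couplingLaw true n ≤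
    ex (C * Aeng n k ε s p l0 B) *
      ∫⁻ g, ENNReal.ofReal (Psi k ε s p l0 Y σ y (Wmat n g dd)) ∂couplingLaw false n



end Crest.Agent.T157.Cw

end
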