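import Crest.Agent.T157.UnA_81
import Mathlib.NumberTheory.Harmonic.Bounds
import Crest.Agent.T157.CwDef_8
import Crest.Agent.T157.UnB_81

-- ▼ part T157/CwA_63
section

/-!
# Row 157, coin windows (helper63): coins against Gaussians in the 4-convex order

* `sg0`: one entry, `E_coin φ ≤ E_G φ + 16 E_G w` when `φ'''' ≥ -w`;
* `engine`, `engine'`: all entries, in a greedy order.
-/

set_option autoImplicit false

noncomputable section

namespace Crest.Agent.T157.Cw63

open MeasureTheory ProbabilityTheory Set Filter Real Function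
open scoped ENNReal
open Crest.Agent.T157.E Crest.Agent.T157.Un

lemma up {f f' : ℝ → ℝ} (hf : ∀ x, HasDerivAt f (f' x) x) {a b : ℝ} (hab : a ≤ b)
    (h : ∀ x, a ≤ x → x ≤ b → 0 ≤ f' x) : f a ≤ f b :=
  monotoneOn_of_hasDerivWithinAt_nonneg (convex_Icc a b)
    (fun x _ => (hf x).continuousAt.continuousWithinAt) (fun x _ => (hf x).hasDerivWithinAt)
    (fun x hx => h x (interior_subset hx).1 (interior_subset hx).2)
    (left_mem_Icc.2 hab) (right_mem_Icc.2 hab) hab

lemma down {f f' : ℝ → ℝ} (hf : ∀ x, HasDerivAt f (f' x) x) {a b : ℝ} (hab : a ≤ b)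
    (h : ∀ x, a ≤ x → x ≤ b → f' x ≤ 0) : f b ≤ f a :=
  neg_le_neg_iff.1 (up (f := fun x => -f x) (fun x => (hf x).neg) hab fun x h1 h2 =>
    neg_nonneg.2 (h x h1 h2))

/-- a function with a nonnegative third derivative lies above a parabola -/
lemma parab {T T1 T2 T3 : ℝ → ℝ} (h0 : ∀ x, HasDerivAt T (T1 x) x)
    (h1 : ∀ x, HasDerivAt T1 (T2 x) x) (h2 : ∀ x, HasDerivAt T2 (T3 x) x) (z : T1 0 = 0)
    (h3 : ∀ x, 0 ≤ x → 0 ≤ T3 x) {x : ℝ} (hx : 0 ≤ x) : T 1 + T1 1 / 2 * (x ^ 2 - 1) ≤ T x := by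
  have d0 : ∀ x, HasDerivAt (fun x => T x - T1 1 / 2 * x ^ 2) (T1 x - T1 1 * x) x := fun x => by
    refine ((h0 x).fun_sub ((hasDerivAt_pow 2 x).const_mul (T1 1 / 2))).congr_deriv ?_
    norm_num; ring
  have d1 : ∀ x, HasDerivAt (fun x => T1 x - T1 1 * x) (T2 x - T1 1) x := fun x => by
    simpa using (h1 x).fun_sub ((hasDerivAt_id' x).const_mul (T1 1))
  obtain ⟨c, hc, e⟩ := exists_hasDerivAt_eq_zero (f := fun x => T1 x - T1 1 * x) one_pos
    (fun x _ => (d1 x).continuousAt.continuousWithinAt) (by simp [z]) fun x _ => d1 x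
  have m1 : ∀ y, 0 ≤ y → y ≤ c → T2 y - T1 1 ≤ 0 := fun y y0 hy => by
    have := up h2 hy fun u hu _ => h3 u (y0.trans hu); linarith
  have m2 : ∀ y, c ≤ y → 0 ≤ T2 y - T1 1 := fun y hy => by
    have := up h2 hy fun u hu _ => h3 u (hc.1.le.trans hu); linarith
  rcases le_total x 1 with hx1 | hx1
  · have := down d0 hx1 fun y hy hy1 => by
      rcases le_total y c with h | h
      · simpa [z] using down d1 (hx.trans hy) fun u hu hu' => m1 u hu (hu'.trans h)
      · simpa using up d1 hy1 fun u hu _ => m2 u (h.trans hu)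
    linarith
  · have := up d0 hx1 fun y hy _ => by
      simpa using up d1 hy fun u hu _ => m2 u (hc.2.le.trans hu)
    linarith

/-- primitive vanishing at `0` -/
def pr (f : ℝ → ℝ) (x : ℝ) : ℝ := ∫ t in (0 : ℝ)..x, f t

lemma pr_d {f : ℝ → ℝ} (hf : Continuous f) (x : ℝ) : HasDerivAt (pr f) (f x) x :=
  (hf.integral_hasStrictDerivAt 0 x).hasDerivAt

lemma pr_c {f : ℝ → ℝ} (hf : Continuous f) : Continuous (pr f) :=
  continuous_iff_continuousAt.2 fun x => (pr_d hf x).continuousAt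

lemma pr_zero (f : ℝ → ℝ) : pr f 0 = 0 := by simp [pr]

lemma pr_nn {f : ℝ → ℝ} (h : ∀ x, 0 ≤ x → 0 ≤ f x) (x : ℝ) (hx : 0 ≤ x) : 0 ≤ pr f x :=
  intervalIntegral.integral_nonneg hx fun u hu => h u hu.1

abbrev ρ : ℝ → ℝ := gaussianPDFReal 0 1

lemma ρ_d (x : ℝ) : HasDerivAt ρ (-x * ρ x) x := by
  have : ρ = fun x => (√(2 * π))⁻¹ * exp (-(x ^ 2) / 2) := by
    funext x; simp [ρ, gaussianPDFReal]
  rw [this]
  refine ((((hasDerivAt_pow 2 x).fun_neg.div_const 2).exp).const_mul (√(2 * π))⁻¹).congr_deriv ?_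
  norm_num; ring

lemma ρ_c : Continuous ρ := continuous_iff_continuousAt.2 fun x => (ρ_d x).continuousAt

lemma ρ_nn (x : ℝ) : 0 ≤ ρ x := gaussianPDFReal_nonneg 0 1 x

/-- four integrations cost a factor `16` -/
lemma four {w : ℝ → ℝ} (hw : Continuous w) (w0 : ∀ x, 0 ≤ x → 0 ≤ w x) {R : ℝ} (hR : 0 ≤ R) :
    pr (fun x => ρ x * pr (pr (pr (pr w))) x) R ≤ pr (fun x => ρ x * (16 * w x)) R := by
  have c3 := pr_c hw
  have c2 := pr_c c3
  have c1 := pr_c c2
  have c0 := pr_c c1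
  have n3 := pr_nn w0
  have n2 := pr_nn n3
  have n1 := pr_nn n2
  have n0 := pr_nn n1
  have dK : ∀ x, HasDerivAt (fun x => ρ x * (1 + exp (-x)))
      (-x * ρ x * (1 + exp (-x)) + ρ x * (exp (-x) * -1)) x := fun x =>
    (ρ_d x).fun_mul ((hasDerivAt_neg' x).exp.const_add 1)
  have := up (fun x => ((pr_d (ρ_c.mul (hw.const_mul 16)) x).fun_sub
    (pr_d (ρ_c.mul c0) x)).fun_sub ((((pr_d c1 x).fun_add ((pr_d c2 x).const_mul 2)).fun_add
      ((pr_d c3 x).const_mul 4)).fun_add ((pr_d hw x).const_mul 8) |>.fun_mul (dK x))) hR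
    fun x hx _ => by
      have e1 : exp (-x) ≤ 1 := exp_le_one_iff.2 (by linarith)
      have e2 := add_one_le_exp (-x)
      have e3 := mul_nonneg hx (exp_pos (-x)).le
      have a1 : 0 ≤ ρ x * (1 - exp (-x)) * (pr (pr (pr w)) x + 2 * pr (pr w) x + 4 * pr w x +
          8 * w x) := by
        have := n1 x hx; have := n2 x hx; have := n3 x hx; have := w0 x hx; have := ρ_nn x
        have := sub_nonneg.2 e1; positivity
      have a2 : 0 ≤ ρ x * (x * (1 + exp (-x)) + exp (-x) - 1) * (pr (pr (pr (pr w))) x +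
          2 * pr (pr (pr w)) x + 4 * pr (pr w) x + 8 * pr w x) := by
        have := n0 x hx; have := n1 x hx; have := n2 x hx; have := n3 x hx; have := ρ_nn x
        have : 0 ≤ x * (1 + exp (-x)) + exp (-x) - 1 := by nlinarith
        positivity
      simp only [Pi.mul_apply]
      nlinarith
  simp only [pr_zero] at this
  have b : 0 ≤ (pr (pr (pr (pr w))) R + 2 * pr (pr (pr w)) R + 4 * pr (pr w) R + 8 * pr w R) *
      (ρ R * (1 + exp (-R))) := by
    have := n0 R hR; have := n1 R hR; have := n2 R hR; have := n3 R hR; have := ρ_nn R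
    positivity
  change pr (ρ * _) R ≤ pr (ρ * _) R
  linarith

abbrev γ : Measure ℝ := gaussianReal 0 1

lemma half_eq {a : ℝ → ℝ} (ha : Continuous a) (a0 : ∀ x, 0 ≤ x → 0 ≤ a x) {R : ℝ} (hR : 0 ≤ R) :
    ∫⁻ x in Iic R, ENNReal.ofReal (a x) ∂γ.restrict (Ioi 0) =
      ENNReal.ofReal (pr (fun x => ρ x * a x) R) := by
  rw [Measure.restrict_restrict measurableSet_Iic, Iic_inter_Ioi, pr,
    intervalIntegral.integral_of_le hR,
    ofReal_integral_eq_lintegral_ofReal (f := fun x => ρ x * a x)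
      ((ρ_c.mul ha).integrableOn_Icc.mono_set Ioc_subset_Icc_self)
      ((ae_restrict_iff' measurableSet_Ioc).2 (.of_forall fun x hx =>
        mul_nonneg (ρ_nn x) (a0 x hx.1.le))), γ, gaussianReal_of_var_ne_zero _ one_ne_zero,
    setLIntegral_withDensity_eq_setLIntegral_mul _ (measurable_gaussianPDF 0 1)
      ha.measurable.ennreal_ofReal measurableSet_Ioc]
  refine lintegral_congr fun x => ?_
  rw [ENNReal.ofReal_mul (ρ_nn x)]; rfl

lemma half_le {a b : ℝ → ℝ} (ha : Continuous a) (hb : Continuous b) (a0 : ∀ x, 0 ≤ x → 0 ≤ a x)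
    (b0 : ∀ x, 0 ≤ x → 0 ≤ b x)
    (h : ∀ R, 0 ≤ R → pr (fun x => ρ x * a x) R ≤ pr (fun x => ρ x * b x) R) :
    ∫⁻ x in Ioi 0, ENNReal.ofReal (a x) ∂γ ≤ ∫⁻ x in Ioi 0, ENNReal.ofReal (b x) ∂γ := by
  refine le_of_tendsto ((aecover_Iic (μ := γ.restrict (Ioi 0)) (l := atTop) (b := fun R : ℝ => R)
    tendsto_id).lintegral_tendsto_of_countably_generated
      ha.measurable.ennreal_ofReal.aemeasurable) ?_
  filter_upwards [eventually_ge_atTop 0] with R hR
  rw [half_eq ha a0 hR]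
  refine (ENNReal.ofReal_le_ofReal (h R hR)).trans ?_
  rw [← half_eq hb b0 hR]
  exact setLIntegral_le_lintegral _ _

lemma fold {F : ℝ → ℝ≥0∞} (hF : Measurable F) :
    ∫⁻ x, F x ∂γ = ∫⁻ x in Ioi 0, F x + F (-x) ∂γ := by
  have e : γ.map (fun x => -x) = γ := by simpa using gaussianReal_map_neg (μ := 0) (v := 1)
  have := nullSingletonClass_gaussianReal (μ := 0) (v := 1) one_ne_zero
  rw [lintegral_add_left hF, ← lintegral_add_compl F (measurableSet_Ioi (a := (0 : ℝ))), compl_Ioi,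
    ← setLIntegral_congr (Iio_ae_eq_Iic (μ := γ) (a := 0))]
  congr 1
  conv_lhs => rw [← e]
  rw [setLIntegral_map measurableSet_Iio hF measurable_neg]
  congr 2
  ext x; simp

/-- the jets of order four of `φ` -/
structure Jet (φ φ1 φ2 φ3 φ4 : ℝ → ℝ) : Prop where
  d0 : ∀ x, HasDerivAt φ (φ1 x) x
  d1 : ∀ x, HasDerivAt φ1 (φ2 x) x
  d2 : ∀ x, HasDerivAt φ2 (φ3 x) x
  d3 : ∀ x, HasDerivAt φ3 (φ4 x) x

/-- **one entry** -/
theorem sg0 {φ φ1 φ2 φ3 φ4 w : ℝ → ℝ} (h : Jet φ φ1 φ2 φ3 φ4) (p0 : ∀ x, 0 ≤ φ x)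
    (hw : Continuous w) (w0 : ∀ x, 0 ≤ w x) (h4 : ∀ x, -w x ≤ φ4 x) :
    ∫⁻ x, ENNReal.ofReal (φ x) ∂coin ≤
      ∫⁻ x, ENNReal.ofReal (φ x) ∂γ + 16 * ∫⁻ x, ENNReal.ofReal (w x) ∂γ := by
  set v : ℝ → ℝ := fun x => w x + w (-x) with hv
  have cv : Continuous v := by fun_prop
  have v0 : ∀ x, 0 ≤ x → 0 ≤ v x := fun x _ => add_nonneg (w0 _) (w0 _)
  have c3 := pr_c cv
  have c2 := pr_c c3
  have c1 := pr_c c2
  have c0 := pr_c c1
  have n0 := pr_nn (pr_nn (pr_nn (pr_nn v0)))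
  have cφ : Continuous φ := continuous_iff_continuousAt.2 fun x => (h.d0 x).continuousAt
  have ng : ∀ {f f' : ℝ → ℝ}, (∀ x, HasDerivAt f (f' x) x) → ∀ x,
      HasDerivAt (fun x => f (-x)) (-f' (-x)) x := fun hf x =>
    ((hf (-x)).comp x (hasDerivAt_neg' x)).congr_deriv (by ring)
  have d3 := fun x => ((h.d3 x).fun_sub (ng h.d3 x)).fun_add (pr_d cv x)
  have key := fun x (hx : 0 ≤ x) => parab
    (fun x => ((h.d0 x).fun_add (ng h.d0 x)).fun_add (pr_d c1 x))
    (fun x => ((h.d1 x).fun_add (ng h.d1 x).fun_neg).fun_add (pr_d c2 x))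
    (fun x => ((h.d2 x).fun_add (ng h.d2 x).fun_neg.fun_neg).fun_add (pr_d c3 x))
    (by simp [pr_zero]) (fun x hx => by
      have := up d3 hx fun u _ _ => by have := h4 u; have := h4 (-u); simp only [hv]; linarith
      simp only [pr_zero] at this
      simp only [neg_zero, sub_self] at this
      linarith) hx
  set c := (φ1 1 + -φ1 (-1) + pr (pr (pr v)) 1) / 2 with hc
  have a1 : ∫⁻ x, ENNReal.ofReal (φ x) ∂coin = ENNReal.ofReal ((φ 1 + φ (-1)) / 2) := by
    rw [lintegral_add_measure, lintegral_smul_measure, lintegral_smul_measure, lintegral_dirac,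
      lintegral_dirac, ← smul_add, ← ENNReal.ofReal_add (p0 _) (p0 _), smul_eq_mul,
      ENNReal.ofReal_div_of_pos two_pos, ENNReal.div_eq_inv_mul, ENNReal.div_eq_inv_mul]
    simp
  have a2 : ENNReal.ofReal ((φ 1 + φ (-1)) / 2) ≤ ∫⁻ x, ENNReal.ofReal
      ((φ 1 + φ (-1)) / 2 - c / 2 + 0 * x ^ 1 + c / 2 * x ^ 2 + 0 * x ^ 3) ∂γ := by
    have := integral_cubic false ((φ 1 + φ (-1)) / 2 - c / 2) 0 (c / 2) 0
    rw [sub_add_cancel] at this
    conv_lhs => rw [← this, integral_eq_lintegral_pos_part_sub_lintegral_neg_part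
      (int_cubic false _ _ _ _)]
    exact (ENNReal.ofReal_le_ofReal (sub_le_self _ ENNReal.toReal_nonneg)).trans
      ENNReal.ofReal_toReal_le
  rw [a1, fold cφ.measurable.ennreal_ofReal, fold hw.measurable.ennreal_ofReal,
    ← lintegral_const_mul' _ _ (by norm_num)]
  refine a2.trans ?_
  rw [fold (by fun_prop)]
  refine le_trans (setLIntegral_mono' (g := fun x => (ENNReal.ofReal (φ x) +
    ENNReal.ofReal (φ (-x))) + ENNReal.ofReal (pr (pr (pr (pr v))) x)) measurableSet_Ioi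
    fun x hx => ?_) ?_
  · have k := key x (le_of_lt hx)
    have := n0 1 zero_le_one
    have := n0 x (le_of_lt hx)
    have := p0 x
    have := p0 (-x)
    rw [← ENNReal.ofReal_add (p0 _) (p0 _), ← ENNReal.ofReal_add (p := φ x + φ (-x))
      (by positivity) (by positivity), ← add_halves (φ x + φ (-x) + _),
      ENNReal.ofReal_add (p := (φ x + φ (-x) + _) / 2) (by positivity) (by positivity)]
    gcongr <;> nlinarith
  rw [lintegral_add_right _ c0.measurable.ennreal_ofReal]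
  refine add_le_add_right ((half_le c0 (cv.const_mul 16) n0
    (fun x hx => by have := v0 x hx; positivity) fun R hR => four cv v0 hR).trans
      (lintegral_mono fun x => le_of_eq ?_)) _
  rw [ENNReal.ofReal_mul (by norm_num), hv, ENNReal.ofReal_add (w0 _) (w0 _)]
  simp

section all
variable {ι : Type*} [Fintype ι] [DecidableEq ι]

lemma lint_update {Q : (ι → ℝ) → ℝ≥0∞} (hQ : Measurable Q) (σ : ι → Bool) (e : ι) (b : Bool) :
    ∫⁻ g, Q g ∂hyb (update σ e b) = ∫⁻ g, (∫⁻ x, Q (update g e x) ∂entryLaw b) ∂hyb σ := by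
  have e1 : hyb (update σ e b) =
      Measure.pi (update (fun e => entryLaw (σ e)) e (entryLaw b)) := by
    unfold hyb; congr 1; funext j
    rcases eq_or_ne j e with rfl | hj
    · simp
    · simp [update_of_ne hj]
  have hm := R146L878.measurable_updateMap e
  rw [e1, ← R146L878.map_update_prod, lintegral_map hQ hm]
  exact lintegral_prod _ (hQ.comp hm).aemeasurable

/-- the hypotheses of the comparison -/
structure Four (Ψ : (ι → ℝ) → ℝ) (w : ι → (ι → ℝ) → ℝ) (B : ℝ) : Prop where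
  meas : Measurable Ψ
  pos : ∀ g, 0 ≤ Ψ g
  wm : ∀ e, Measurable (w e)
  cont : ∀ e g, Continuous fun x => w e (update g e x)
  wpos : ∀ e g, 0 ≤ w e g
  jet : ∀ g e, ∃ φ1 φ2 φ3 φ4, Jet (fun x => Ψ (update g e x)) φ1 φ2 φ3 φ4 ∧
    ∀ x, -w e (update g e x) ≤ φ4 x
  sum : ∀ g, ∑ e, w e g ≤ B * Ψ g

variable {Ψ : (ι → ℝ) → ℝ} {w : ι → (ι → ℝ) → ℝ} {B : ℝ}

lemma Four.step (h : Four Ψ w B) {σ : ι → Bool} {e : ι} (he : σ e = false) :
    ∫⁻ g, ENNReal.ofReal (Ψ g) ∂hyb (update σ e true) ≤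
      ∫⁻ g, ENNReal.ofReal (Ψ g) ∂hyb σ + 16 * ∫⁻ g, ENNReal.ofReal (w e g) ∂hyb σ := by
  have e1 : σ = update σ e false := by rw [← he]; simp
  have m1 := h.meas.ennreal_ofReal
  have m2 := (h.wm e).ennreal_ofReal
  conv_rhs => rw [e1]
  rw [lint_update m1, lint_update m1, lint_update m2, ← lintegral_const_mul' _ _ (by norm_num),
    ← lintegral_add_left (f := fun g => ∫⁻ x, ENNReal.ofReal (Ψ (update g e x)) ∂entryLaw false)
      (m1.comp (R146L878.measurable_updateMap e)).lintegral_prod_right']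
  refine lintegral_mono fun g => ?_
  obtain ⟨φ1, φ2, φ3, φ4, hj, h4⟩ := h.jet g e
  exact sg0 hj (fun _ => h.pos _) (h.cont e g) (fun _ => h.wpos _ _) h4

lemma Four.greedy (h : Four Ψ w B) (hB : 0 ≤ B) (m : ℕ) : ∀ σ : ι → Bool,
    (Finset.univ.filter fun e => σ e = false).card = m →
    ∫⁻ g, ENNReal.ofReal (Ψ g) ∂hyb (fun _ => true) ≤
      ENNReal.ofReal (exp (16 * B * harmonic m)) * ∫⁻ g, ENNReal.ofReal (Ψ g) ∂hyb σ := by
  induction m with
  | zero =>
    intro σ hσ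
    have : σ = fun _ => true := funext fun e => by
      simpa using Finset.filter_eq_empty_iff.1 (Finset.card_eq_zero.1 hσ) (Finset.mem_univ e)
    simp [this]
  | succ m ih =>
    intro σ hσ
    set G := Finset.univ.filter fun e => σ e = false with hG
    obtain ⟨e, he, hmin⟩ := G.exists_min_image (fun e => ∫⁻ g, ENNReal.ofReal (w e g) ∂hyb σ)
      (Finset.card_pos.1 (by omega))
    have he' : σ e = false := (Finset.mem_filter.1 he).2
    have c1 : (Finset.univ.filter fun j => update σ e true j = false) = G.erase e := by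
      ext j
      rcases eq_or_ne j e with rfl | hj
      · simp
      · simp [hj, hG]
    refine (ih _ (by rw [c1, Finset.card_erase_of_mem he, hσ]; rfl)).trans ?_
    have s1 := Finset.card_nsmul_le_sum G _ _ hmin
    have s2 : ∑ j ∈ G, ∫⁻ g, ENNReal.ofReal (w j g) ∂hyb σ ≤
        ENNReal.ofReal B * ∫⁻ g, ENNReal.ofReal (Ψ g) ∂hyb σ := by
      rw [← lintegral_finsetSum _ fun j _ => (h.wm j).ennreal_ofReal,
        ← lintegral_const_mul' _ _ ENNReal.ofReal_ne_top]
      refine lintegral_mono fun g => ?_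
      rw [← ENNReal.ofReal_sum_of_nonneg fun j _ => h.wpos j g, ← ENNReal.ofReal_mul hB]
      exact ENNReal.ofReal_le_ofReal ((Finset.sum_le_sum_of_subset_of_nonneg (Finset.subset_univ _)
        fun j _ _ => h.wpos j g).trans (h.sum g))
    have m0 : (0 : ℝ) < (m + 1 : ℕ) := by positivity
    have s3 : ∫⁻ g, ENNReal.ofReal (w e g) ∂hyb σ ≤
        ENNReal.ofReal (B * ((m + 1 : ℕ) : ℝ)⁻¹) * ∫⁻ g, ENNReal.ofReal (Ψ g) ∂hyb σ := by
      rw [mul_comm B, ENNReal.ofReal_mul (inv_pos.2 m0).le, ENNReal.ofReal_inv_of_pos m0,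
        ENNReal.ofReal_natCast, mul_assoc,
        ← ENNReal.div_eq_inv_mul, ENNReal.le_div_iff_mul_le (by simp) (by simp), mul_comm,
        ← nsmul_eq_mul, ← hσ]
      exact s1.trans s2
    calc _ ≤ ENNReal.ofReal (exp (16 * B * harmonic m)) *
          ((1 + 16 * ENNReal.ofReal (B * ((m + 1 : ℕ) : ℝ)⁻¹)) *
            ∫⁻ g, ENNReal.ofReal (Ψ g) ∂hyb σ) := by
          gcongr
          rw [add_mul, one_mul, mul_assoc]
          exact (h.step he').trans (by gcongr)
      _ ≤ _ := by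
          rw [← mul_assoc]
          gcongr
          rw [harmonic_succ, Rat.cast_add, mul_add (16 * B), exp_add, ENNReal.ofReal_mul (exp_pos _).le]
          gcongr
          rw [show (16 : ℝ≥0∞) = ENNReal.ofReal 16 by simp, ← ENNReal.ofReal_mul (by norm_num),
            ← ENNReal.ofReal_one, ← ENNReal.ofReal_add zero_le_one (by positivity)]
          refine ENNReal.ofReal_le_ofReal ?_
          have := add_one_le_exp (16 * B * (((m + 1 : ℕ) : ℚ)⁻¹ : ℚ))
          push_cast at this ⊢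
          linarith

/-- **all entries** -/
theorem engine (h : Four Ψ w B) (hB : 0 ≤ B) :
    ∫⁻ g, ENNReal.ofReal (Ψ g) ∂hyb (fun _ => true) ≤
      ENNReal.ofReal (exp (16 * B * (1 + log (Fintype.card ι)))) *
        ∫⁻ g, ENNReal.ofReal (Ψ g) ∂hyb fun _ => false := by
  refine (h.greedy hB (Fintype.card ι) (fun _ => false) (by simp)).trans ?_
  gcongr
  exact harmonic_le_one_add_log _






lemma jet_of {φ : ℝ → ℝ} (h : ContDiff ℝ 4 φ) : Jet φ (iteratedDeriv 1 φ) (iteratedDeriv 2 φ)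
    (iteratedDeriv 3 φ) (iteratedDeriv 4 φ) := by
  have d : ∀ j : ℕ, j < 4 → ∀ x, HasDerivAt (iteratedDeriv j φ) (iteratedDeriv (j + 1) φ x) x :=
    fun j hj x => by
      rw [iteratedDeriv_succ]
      exact (h.differentiable_iteratedDeriv j (by exact_mod_cast hj) x).hasDerivAt
  exact ⟨by simpa using d 0 (by norm_num), d 1 (by norm_num), d 2 (by norm_num), d 3 (by norm_num)⟩

lemma meas_deriv (hm : Measurable Ψ) (e : ι)
    (hd : ∀ g, DifferentiableAt ℝ (fun x => Ψ (update g e x)) (g e)) :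
    Measurable fun g : ι → ℝ => deriv (fun x => Ψ (update g e x)) (g e) := by
  have hu : ∀ a : ℝ, Measurable fun g : ι → ℝ => Ψ (update g e (g e + a)) := fun a =>
    hm.comp ((R146L878.measurable_updateMap e).comp (f := fun g : ι → ℝ => (g, g e + a))
      (by fun_prop))
  refine measurable_of_tendsto_metrizable (f := fun (m : ℕ) g => (1 / ((m : ℝ) + 1))⁻¹ •
    (Ψ (update g e (g e + 1 / ((m : ℝ) + 1))) - Ψ (update g e (g e))))
    (fun m => ((hu _).sub (g := fun g => Ψ (update g e (g e))) (by simpa using hm)).const_mul _)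
    (tendsto_pi_nhds.2 fun g => ?_)
  exact (hd g).hasDerivAt.tendsto_slope_zero.comp (tendsto_nhdsWithin_iff.2
    ⟨tendsto_one_div_add_atTop_nhds_zero_nat, .of_forall fun m => ne_of_gt (by positivity)⟩)

lemma meas_iter (hm : Measurable Ψ) (e : ι) (hc : ∀ g, ContDiff ℝ 4 fun x => Ψ (update g e x))
    (j : ℕ) (hj : j ≤ 4) :
    Measurable fun g : ι → ℝ => iteratedDeriv j (fun x => Ψ (update g e x)) (g e) := by
  induction j with
  | zero => simpa using hm
  | succ j ih =>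
    have := meas_deriv (ih (by omega)) e fun g => by
      simpa using (hc g).differentiable_iteratedDeriv j (by exact_mod_cast hj) (g e)
    simpa [iteratedDeriv_succ] using this

/-- **all entries**, for measurable functionals which are `C⁴` in each entry -/
theorem engine'' (hm : Measurable Ψ) (h0 : ∀ g, 0 ≤ Ψ g) (hB : 0 ≤ B)
    (hc : ∀ e g, ContDiff ℝ 4 fun x => Ψ (update g e x))
    (h : ∀ g, ∃ β : ι → ℝ, (∀ e, 0 ≤ β e) ∧ ∑ e, β e ≤ B * Ψ g ∧
      ∀ e, -β e ≤ iteratedDeriv 4 (fun x => Ψ (update g e x)) (g e)) :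
    ∫⁻ g, ENNReal.ofReal (Ψ g) ∂hyb (fun _ => true) ≤
      ENNReal.ofReal (exp (16 * B * (1 + log (Fintype.card ι)))) *
        ∫⁻ g, ENNReal.ofReal (Ψ g) ∂hyb fun _ => false := by
  refine engine (w := fun e g => max 0 (-iteratedDeriv 4 (fun x => Ψ (update g e x)) (g e)))
    ⟨hm, h0, fun e => measurable_const.max (meas_iter hm e (hc e) 4 le_rfl).neg, fun e g => ?_,
    fun _ _ => le_max_left _ _, fun g e => ⟨_, _, _, _, jet_of (hc e g), fun x => ?_⟩,
    fun g => ?_⟩ hB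
  · simpa using continuous_const.max ((hc e g).continuous_iteratedDeriv 4 le_rfl).neg
  · simp only [update_idem, update_self]
    exact neg_le.1 (le_max_right _ _)
  · obtain ⟨β, b0, b1, b2⟩ := h g
    exact le_trans (Finset.sum_le_sum fun e _ => max_le (b0 e) (neg_le.1 (b2 e))) b1

end all

end Crest.Agent.T157.Cw63

end
namespace Crest.Agent.T157.Cw63.Jet
end Crest.Agent.T157.Cw63.Jet
end

-- ▼ part T157/CwEng_63

/-!
# Row 157, coin windows (helper63): the engine
-/

set_option autoImplicit false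

noncomputable section

namespace Crest.Agent.T157.Cw

open MeasureTheory Matrix Set Function Real
open Crest.ProbabilityR.SpinGlassDynamics
open Crest.Agent.T157.E Crest.Agent.T157.Un Crest.Agent.T157.Crit
open Crest.Agent.T157.Qe (V Mx)

namespace Eng63

lemma Jt.aff {L : ℝ → ℝ} {x R β p : ℝ} (h : Jt L x R β) (hp : 0 ≤ p) (l0 : ℝ) :
    Jt (fun t => p * (L t - l0)) x R (p * β) := by
  have e : ∀ j, 0 < j → dv j (fun t => p * (L t - l0)) x = p * dv j L x := fun j hj => by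
    rw [dv, iteratedDeriv_const_mul_field]
    simp only [sub_eq_neg_add, iteratedDeriv_const_add hj]
  refine ⟨contDiff_const.mul (h.cd.sub contDiff_const), ?_, ?_, ?_⟩ <;>
    simp only [e 1 one_pos, e 2 two_pos, e 3 three_pos, e 4 four_pos, abs_mul, abs_of_nonneg hp]
  · nlinarith [mul_le_mul_of_nonneg_left h.h2 hp]
  · nlinarith [mul_le_mul_of_nonneg_left h.h3 hp]
  · nlinarith [mul_le_mul_of_nonneg_left h.h4 hp]

lemma Dm.aff {f : ℝ → ℝ} {x ω b c : ℝ} (hf : ContDiff ℝ 4 f) (h : Dm f x ω 1) (hω : 0 ≤ ω)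
    (hb : |b| ≤ c) (a : ℝ) : Dm (fun t => a + (b * t + f t)) x (ω + c) 1 := fun j hj => by
  have c0 : 0 ≤ c := (abs_nonneg _).trans hb
  have := h j hj
  rw [dv, iteratedDeriv_const_add hj.1, iteratedDeriv_fun_add (by fun_prop)
    (hf.of_le (by exact_mod_cast hj.2)).contDiffAt, iteratedDeriv_const_mul_field,
    iteratedDeriv_fun_id, if_neg (by have := hj.1; omega)]
  split_ifs with h1
  · subst h1
    refine (abs_add_le _ _).trans ?_
    simp only [mul_one, pow_one] at this ⊢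
    linarith
  · simp only [mul_zero, zero_add, mul_one] at this ⊢
    exact this.trans (pow_le_pow_left₀ hω (by linarith) _)

lemma card_le (n : ℕ) : (Fintype.card (Pair n) : ℝ) ≤ (n : ℝ) ^ 2 := by
  simpa only [sqrt_pow4] using card_pair n

lemma log_card {n : ℕ} (hn : 1 ≤ n) : 1 + log (Fintype.card (Pair n)) ≤ 2 * (1 + log n) := by
  have n1 : (1 : ℝ) ≤ n := by exact_mod_cast hn
  have l0 := log_nonneg n1
  rcases Nat.eq_zero_or_pos (Fintype.card (Pair n)) with h | h
  · simp only [h, Nat.cast_zero, log_zero]; linarith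
  · have := log_le_log (by exact_mod_cast h) (card_le n)
    rw [log_pow] at this
    push_cast at this
    linarith

end Eng63

open Eng63

/-- **the engine** -/
theorem eng63 {C9 : ℝ} (h5 : TiltStmt) (h6 : JetStmt) (h6' : LmStmt) (h7 : AlgStmt)
    (h9 : LtStmt C9) : EngStmt := by
  obtain ⟨CJ, J1, hJ⟩ := h6
  obtain ⟨CA, A0, cf, -, f0, -, hA⟩ := h7
  refine ⟨32 * (CA * (16 * CJ ^ 4 + 16 * CJ ^ 2 + 128)), by positivity,
    fun n k ε s p l0 B Y σ y dd hn hk hε hl hs hp ⟨mY, ω, _, ω0, ωB, hω⟩ => ?_⟩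
  have n0 : (0 : ℝ) < n := by exact_mod_cast hn
  have sq0 : 0 < √(n : ℝ) := sqrt_pos.2 n0
  have k1 : (1 : ℝ) ≤ k := by exact_mod_cast (by omega : 1 ≤ k)
  have B0 : 0 ≤ B := (Finset.sum_nonneg fun e _ => by have := ω0 e 0; positivity).trans (ωB 0)
  have l0p : 0 < l0 := hε.trans_le hl
  set Q := (k : ℝ) ^ 2 * l0 / ε with hQ
  have kQ : (k : ℝ) ^ 2 ≤ Q := by rw [hQ, le_div_iff₀ hε]; gcongr
  have kQ' : (k : ℝ) ≤ Q := by nlinarith
  have Q1 : 1 ≤ Q := k1.trans kQ'
  set P := p ^ 2 * l0 ^ 3 / (n * s) with hP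
  have P0 : 0 ≤ P := by positivity
  have mW : Measurable fun g : Pair n → ℝ => Wmat n g dd :=
    Cond.measurable_Wmat.comp (f := fun g : Pair n → ℝ => (g, dd)) (by fun_prop)
  have ip : ∀ W : Mx n, 0 < ising W 0 σ := fun _ => exp_pos _
  have key : ∀ (g : Pair n → ℝ) (e : Pair n), (fun x => Psi k ε s p l0 Y σ y
      (Wmat n (update g e x) dd)) = fun x => exp ((log (ising (Wmat n g dd) 0 σ) -
        g e / √n * chi e σ) + (chi e σ / √n * x + Y (Wmat n (update g e x) dd))) *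
          fE (p * (lm k ε s (Wmat n (update g e x) dd) y - l0)) := fun g e => funext fun x => by
    rw [Psi, h5.upd, rw, ← exp_log (ip (Wmat n g dd)), ← exp_add, ← exp_add, log_exp]
    congr 2; ring
  have cF : ∀ (g : Pair n → ℝ) (e : Pair n), ContDiff ℝ 4 fun x => (log (ising (Wmat n g dd) 0 σ) -
      g e / √n * chi e σ) + (chi e σ / √n * x + Y (Wmat n (update g e x) dd)) := fun g e =>
    contDiff_const.add ((contDiff_const.mul contDiff_id).add (hω e g).1)
  have P0' : ∀ W, 0 ≤ Psi k ε s p l0 Y σ y W := fun W =>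
    mul_nonneg (mul_nonneg (ip W).le (exp_pos _).le) (f0 _).le
  rw [← hyb_const, ← hyb_const]
  refine (Cw63.engine'' (B := CA * (16 * CJ ^ 4 + 16 * CJ ^ 2 + 128) * (Q ^ 4 + P + B))
    (Ψ := fun g => Psi k ε s p l0 Y σ y (Wmat n g dd)) ?_ (fun _ => P0' _) (by positivity)
    (fun e g => ?_) fun g => ?_).trans ?_
  · refine Measurable.mul (Measurable.mul ?_ mY.exp) (cf.continuous.measurable.comp
      ((((h6'.meas n k ε s).comp (f := fun g : Pair n → ℝ => (Wmat n g dd, y))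
        (mW.prodMk measurable_const)).sub_const l0).const_mul p))
    have c : Continuous fun W : Mx n => ising W 0 σ := by unfold ising; fun_prop
    exact c.measurable.comp mW
  · rw [key]
    exact (cF g e).exp.mul (cf.comp (Jt.aff (hJ n k ε s g dd y e hk hε hs.le).1 hp l0).cd)
  rotate_left
  · unfold Conc.ex Aeng
    refine mul_le_mul_left (ENNReal.ofReal_le_ofReal (exp_le_exp.2 ?_)) _
    have := log_card hn
    rw [← hQ, ← hP]
    calc _ ≤ 16 * (CA * (16 * CJ ^ 4 + 16 * CJ ^ 2 + 128) * (Q ^ 4 + P + B)) *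
        (2 * (1 + log n)) := by gcongr
      _ = _ := by ring
  set L := lm k ε s (Wmat n g dd) y with hL
  have L0 : 0 < L := hε.trans_le (h6'.lo n k ε s _ y hn (by omega) hε hs.le).1
  have b0 := fun e => (h6'.b01 n k ε s (Wmat n g dd) y e (by omega) hε hs.le).1
  have b1 := fun e => (h6'.b01 n k ε s (Wmat n g dd) y e (by omega) hε hs.le).2
  have alg : ∀ (e : Pair n) (R β : ℝ), 0 ≤ R → 0 ≤ β →
      Jt (fun x => lm k ε s (Wmat n (update g e x) dd) y) (g e) R β →
      -(CA * (R ^ 4 + (p * β / (1 + max (p * (L - l0)) 0)) ^ 2 + (2 * (ω e g + 1 / √n)) ^ 4) *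
        Psi k ε s p l0 Y σ y (Wmat n g dd)) ≤ iteratedDeriv 4 (fun x => Psi k ε s p l0 Y σ y
          (Wmat n (update g e x) dd)) (g e) := fun e R β hR hβ hj => by
    have o0 : 0 ≤ ω e g + 1 / √n := by have := ω0 e g; positivity
    have := hA _ _ (g e) _ R (p * β) (cF g e).exp (by positivity) hR (by positivity)
      (exp_pos _).le (h9.expo _ _ _ (cF g e) o0 (Dm.aff (hω e g).1 (hω e g).2 (ω0 e g)
        (by rw [abs_div, (sgn_chi e).abs, abs_of_pos sq0]) _)) (Jt.aff hj hp l0)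
    have e1 := congrFun (key g e) (g e)
    simp only [update_eq_self] at this e1
    rw [key, e1]
    exact this
  have so : ∑ e : Pair n, (2 * (ω e g + 1 / √n)) ^ 4 ≤ 128 * (B + 1) := by
    have : ∀ e : Pair n, (2 * (ω e g + 1 / √n)) ^ 4 ≤ 128 * (ω e g ^ 4 + 1 / (n : ℝ) ^ 2) :=
      fun e => by
        have := sub_pow4 (ω e g) (-(1 / √n))
        rw [sub_neg_eq_add, Even.neg_pow (by decide), div_pow, one_pow, sqrt_pow4] at this
        rw [mul_pow]; linarith
    refine (Finset.sum_le_sum fun e _ => this e).trans ?_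
    rw [← Finset.mul_sum, Finset.sum_add_distrib, Finset.sum_const, Finset.card_univ, nsmul_eq_mul]
    gcongr
    · exact ωB g
    · rw [mul_one_div, div_le_one (by positivity)]; exact card_le n
  have sc : ∀ a : ℝ, 0 ≤ a → ∑ _e : Pair n, a / (n : ℝ) ^ 2 ≤ a := fun a ha => by
    rw [Finset.sum_const, Finset.card_univ, nsmul_eq_mul, mul_div_assoc',
      div_le_iff₀ (by positivity), mul_comm]
    gcongr; exact card_le n
  have Q4 : 1 ≤ Q ^ 4 := one_le_pow₀ Q1
  have fin : ∀ (R : ℝ) (β : Pair n → ℝ), 0 ≤ R → (∀ e, 0 ≤ β e) → (∀ e,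
      Jt (fun x => lm k ε s (Wmat n (update g e x) dd) y) (g e) R (β e)) →
      R ^ 4 ≤ 16 * CJ ^ 4 * Q ^ 4 / (n : ℝ) ^ 2 →
      ∑ e, (p * β e / (1 + max (p * (L - l0)) 0)) ^ 2 ≤ 16 * CJ ^ 2 * (Q ^ 4 + P) →
      ∃ β : Pair n → ℝ, (∀ e, 0 ≤ β e) ∧ ∑ e, β e ≤ CA * (16 * CJ ^ 4 + 16 * CJ ^ 2 + 128) *
        (Q ^ 4 + P + B) * Psi k ε s p l0 Y σ y (Wmat n g dd) ∧ ∀ e, -β e ≤ iteratedDeriv 4
          (fun x => Psi k ε s p l0 Y σ y (Wmat n (update g e x) dd)) (g e) :=
    fun R β hR hβ hj h1 h2 => by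
      refine ⟨_, fun e => ?_, ?_, fun e => alg e R (β e) hR (hβ e) (hj e)⟩
      · have := P0' (Wmat n g dd); positivity
      rw [← Finset.sum_mul, ← Finset.mul_sum, Finset.sum_add_distrib, Finset.sum_add_distrib,
        mul_assoc CA (16 * CJ ^ 4 + _ + _)]
      have h3 := (Finset.sum_le_sum fun (e : Pair n) (_ : e ∈ Finset.univ) => h1).trans
        (sc _ (by positivity))
      refine mul_le_mul_of_nonneg_right (mul_le_mul_of_nonneg_left ?_ A0.le) (P0' _)
      have : 0 ≤ CJ ^ 4 * (P + B) := by positivity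
      have : 0 ≤ CJ ^ 2 * B := by positivity
      nlinarith
  rcases le_total L (2 * l0) with h | h
  · refine fin _ _ (by positivity) (fun e => by have := b0 e; positivity)
      (fun e => (hJ n k ε s g dd y e hk hε hs.le).1) ?_ ?_
    · rw [← sqrt_pow4 n, show 16 * CJ ^ 4 * Q ^ 4 / √n ^ 4 = (CJ * k ^ 2 * (2 * l0) / (ε * √n)) ^ 4 by
        rw [hQ]; field_simp; norm_num]
      gcongr
    · have : ∀ e, (p * (CJ * bb k ε s (Wmat n g dd) y e * L / n) / (1 + max (p * (L - l0)) 0)) ^ 2 ≤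
          (p * CJ * (2 * l0) / n) ^ 2 * bb k ε s (Wmat n g dd) y e := fun e => by
        have b0 := b0 e
        have b1 := b1 e
        have m := le_max_right (p * (L - l0)) 0
        calc _ ≤ (p * (CJ * bb k ε s (Wmat n g dd) y e * (2 * l0) / n) / 1) ^ 2 := by
              gcongr; linarith
          _ = (p * CJ * (2 * l0) / n) ^ 2 * (bb k ε s (Wmat n g dd) y e * bb k ε s (Wmat n g dd) y e) := by
              ring
          _ ≤ _ := by gcongr; exact mul_le_of_le_one_right b0 b1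
      refine (Finset.sum_le_sum fun e _ => this e).trans ?_
      have hb : ∑ e, bb k ε s (Wmat n g dd) y e ≤ 2 * n * (2 * l0) / s := by
        rw [le_div_iff₀' hs]
        exact (h6'.bsum n k ε s _ y (by omega) hε hs).trans (by gcongr)
      rw [← Finset.mul_sum]
      calc _ ≤ (p * CJ * (2 * l0) / n) ^ 2 * (2 * n * (2 * l0) / s) := by gcongr
        _ = 16 * CJ ^ 2 * P := by rw [hP]; field_simp; norm_num
        _ ≤ _ := by gcongr; linarith
  · refine fin _ (fun _ => CJ * k * L / n) (by positivity) (fun e => by positivity)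
      (fun e => (hJ n k ε s g dd y e hk hε hs.le).2) ?_ ?_
    · rw [div_pow, sqrt_pow4, mul_pow]
      gcongr
      have : 0 ≤ CJ ^ 4 := by positivity
      linarith
    · have : (p * (CJ * k * L / n) / (1 + max (p * (L - l0)) 0)) ^ 2 ≤
          4 * CJ ^ 2 * k ^ 2 / (n : ℝ) ^ 2 := by
        have m := le_max_right (p * (L - l0)) 0
        have m' := le_max_left (p * (L - l0)) 0
        rw [show 4 * CJ ^ 2 * k ^ 2 / (n : ℝ) ^ 2 = (2 * (CJ * k / n)) ^ 2 by ring]
        gcongr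
        rw [div_le_iff₀ (by linarith), show p * (CJ * k * L / n) = CJ * k / n * (p * L) by ring,
          mul_comm 2, mul_assoc]
        refine mul_le_mul_of_nonneg_left ?_ (by positivity)
        nlinarith
      refine ((Finset.sum_le_sum fun e _ => this).trans (sc _ (by positivity))).trans ?_
      have : Q ≤ Q ^ 4 := le_self_pow₀ Q1 (by norm_num)
      have : 0 ≤ CJ ^ 2 := by positivity
      nlinarith

end Crest.Agent.T157.Cw

end
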