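import Crest.Agent.T157.CwDef_8

-- ▼ part T157/CwLtD_64
section

/-!
# Row 157, part C (helper64): free energies are light functions of the couplings
-/

set_option autoImplicit false

noncomputable section

namespace Crest.Agent.T157.Cw

open MeasureTheory ProbabilityTheory Set Function Filter Topology Real

namespace Lt64

lemma hd {N : ℝ → ℝ} (hN : ContDiff ℝ 4 N) {j : ℕ} (hj : j < 4) (t : ℝ) :
    HasDerivAt (dv j N) (dv (j + 1) N t) t := by
  rw [dv, iteratedDeriv_succ]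
  exact (hN.differentiable_iteratedDeriv j (by exact_mod_cast hj) t).hasDerivAt

/-- logarithmic derivatives -/
lemma dm_log {N : ℝ → ℝ} (hN : ContDiff ℝ 4 N) (h0 : ∀ t, 0 < N t) {x p : ℝ} (hp : 0 ≤ p)
    (h : Dm N x p (N x)) : Dm (fun t => log (N t)) x (3 * p) 1 := by
  set r : ℕ → ℝ → ℝ := fun j t => dv j N t / N t with hr
  have d0 : ∀ t, HasDerivAt N (dv 1 N t) t := fun t => hd hN (j := 0) (by omega) t
  have d : ∀ j < 4, ∀ t, HasDerivAt (r j) (r (j + 1) t - r 1 t * r j t) t := fun j hj t => by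
    refine ((hd hN hj t).fun_div (d0 t) (h0 t).ne').congr_deriv ?_
    have := (h0 t).ne'
    simp only [hr]
    field_simp
  have e1 : iteratedDeriv 1 (fun t => log (N t)) = r 1 := funext fun t => by
    rw [iteratedDeriv_one]; exact ((d0 t).log (h0 t).ne').deriv
  have e2 : iteratedDeriv 2 (fun t => log (N t)) = fun t => r 2 t - r 1 t ^ 2 := funext fun t => by
    rw [iteratedDeriv_succ, e1, (d 1 (by omega) t).deriv, sq]
  have e3 : iteratedDeriv 3 (fun t => log (N t)) = fun t => r 3 t - 3 * (r 1 t * r 2 t) + 2 * r 1 t ^ 3 :=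
    funext fun t => by
      rw [iteratedDeriv_succ, e2]
      refine ((d 2 (by omega) t).fun_sub ((d 1 (by omega) t).fun_pow 2)).deriv.trans ?_
      norm_num; ring
  have e4 : iteratedDeriv 4 (fun t => log (N t)) x = r 4 x - 4 * (r 1 x * r 3 x) - 3 * r 2 x ^ 2 +
      12 * (r 1 x ^ 2 * r 2 x) - 6 * r 1 x ^ 4 := by
    rw [iteratedDeriv_succ, e3]
    refine (((d 3 (by omega) x).fun_sub (((d 1 (by omega) x).fun_mul
      (d 2 (by omega) x)).const_mul 3)).fun_add
      (((d 1 (by omega) x).fun_pow 3).const_mul 2)).deriv.trans ?_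
    norm_num; ring
  have b : ∀ j ∈ Icc 1 4, |r j x| ≤ p ^ j := fun j hj => by
    simp only [hr]
    rw [abs_div, abs_of_pos (h0 x), div_le_iff₀ (h0 x)]
    exact h j hj
  have b1 := b 1 (by simp)
  have b2 := b 2 (by simp)
  have b3 := b 3 (by simp)
  have b4 := b 4 (by simp)
  rw [pow_one] at b1
  have m : ∀ {a c A C : ℝ}, |a| ≤ A → |c| ≤ C → |a * c| ≤ A * C := fun h1 h2 => by
    rw [abs_mul]; exact mul_le_mul h1 h2 (abs_nonneg _) ((abs_nonneg _).trans h1)
  have q : ∀ {a A : ℝ} (k : ℕ), |a| ≤ A → |a ^ k| ≤ A ^ k := fun k h1 => by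
    rw [abs_pow]; exact pow_le_pow_left₀ (abs_nonneg _) h1 k
  intro j hj
  obtain ⟨j1, j4⟩ := hj
  interval_cases j
  · rw [dv, e1]; linarith
  · rw [dv, e2]
    have := abs_le.1 (q 2 b1)
    have := abs_le.1 b2
    have := pow_nonneg hp 2
    refine abs_le.2 ⟨?_, ?_⟩ <;> nlinarith
  · rw [dv, e3]
    have := abs_le.1 (q 3 b1)
    have := abs_le.1 (m b1 b2)
    have := abs_le.1 b3
    have := pow_nonneg hp 3
    refine abs_le.2 ⟨?_, ?_⟩ <;> nlinarith
  · rw [dv, e4]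
    have := abs_le.1 (q 4 b1)
    have := abs_le.1 (m b1 b3)
    have := abs_le.1 (q 2 b2)
    have := abs_le.1 (m (q 2 b1) b2)
    have := abs_le.1 b4
    have := pow_nonneg hp 4
    refine abs_le.2 ⟨?_, ?_⟩ <;> nlinarith

lemma young {a δ : ℝ} (ha : 0 ≤ a) (hδ : 0 < δ) {j : ℕ} (hj : j ∈ Icc 1 4) :
    a ^ j ≤ δ ^ j * (1 - j / 4 + j / 4 * (a ^ 4 / δ ^ 4)) := by
  obtain ⟨u, rfl⟩ : ∃ u, a = δ * u := ⟨a / δ, by field_simp⟩
  have u0 : 0 ≤ u := nonneg_of_mul_nonneg_right ha hδ |> fun h => by nlinarith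
  rw [mul_pow, mul_pow, mul_div_cancel_left₀ _ (by positivity)]
  refine mul_le_mul_of_nonneg_left ?_ (by positivity)
  obtain ⟨j1, j4⟩ := hj
  interval_cases j <;> push_cast
  · nlinarith [sq_nonneg (u ^ 2 - 1), sq_nonneg (u - 1)]
  · nlinarith [sq_nonneg (u ^ 2 - 1)]
  · nlinarith [mul_nonneg (sq_nonneg (u - 1)) (by positivity : 0 ≤ 3 * u ^ 2 + 2 * u + 1)]
  · linarith

lemma le_pow_of {a p : ℝ} {j : ℕ} (h : ∀ δ > p, a ≤ δ ^ j) : a ≤ p ^ j :=
  ge_of_tendsto (x := 𝓝[>] p) (((continuous_pow j).tendsto p).mono_left nhdsWithin_le_nhds)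
    (eventually_nhdsWithin_of_forall h)

lemma rt4 {a : ℝ} (ha : 0 ≤ a) : √(√a) ^ 4 = a := by
  rw [show 4 = 2 * 2 from rfl, pow_mul, sq_sqrt (sqrt_nonneg _), sq_sqrt ha]

variable {X : Type} [MeasurableSpace X]

lemma mom_le (P : Measure X) [IsProbabilityMeasure P] {c : X → ℝ} (hc : Measurable c) {B : ℝ}
    (hB : ∀ᵐ x ∂P, |c x| ≤ B) {j : ℕ} (hj : j ∈ Icc 1 4) :
    |∫ x, c x ^ j ∂P| ≤ √(√(∫ x, c x ^ 4 ∂P)) ^ j := by
  have i : ∀ k : ℕ, Integrable (fun x => c x ^ k) P := fun k =>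
    .of_bound (hc.pow_const k).aestronglyMeasurable (B ^ k) (hB.mono fun x h => by
      rw [Real.norm_eq_abs, abs_pow]; exact pow_le_pow_left₀ (abs_nonneg _) h k)
  refine le_pow_of fun δ hδ => ?_
  have δ0 : 0 < δ := (sqrt_nonneg _).trans_lt hδ
  have h4 : ∫ x, c x ^ 4 ∂P ≤ δ ^ 4 := by
    rw [← rt4 (integral_nonneg fun x => (by positivity : 0 ≤ c x ^ 4))]
    exact pow_le_pow_left₀ (sqrt_nonneg _) hδ.le 4
  calc _ ≤ ∫ x, |c x ^ j| ∂P := abs_integral_le_integral_abs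
    _ ≤ ∫ x, δ ^ j * (1 - j / 4 + j / 4 * (c x ^ 4 / δ ^ 4)) ∂P := by
        refine integral_mono (i j).abs (((integrable_const _).add
          (((i 4).div_const _).const_mul _)).const_mul _) fun x => ?_
        have := young (abs_nonneg (c x)) δ0 hj
        rwa [← abs_pow, Even.pow_abs (by decide : Even 4)] at this
    _ = δ ^ j * (1 - j / 4 + j / 4 * ((∫ x, c x ^ 4 ∂P) / δ ^ 4)) := by
        rw [integral_const_mul, integral_add (integrable_const _) (((i 4).div_const _).const_mul _),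
          integral_const_mul, integral_div]
        simp
    _ ≤ δ ^ j := by
        refine mul_le_of_le_one_right (by positivity) ?_
        have : (∫ x, c x ^ 4 ∂P) / δ ^ 4 ≤ 1 := (div_le_one (by positivity)).2 h4
        nlinarith [(Nat.cast_nonneg j : (0 : ℝ) ≤ j)]

lemma cgf_dm (P : Measure X) [IsProbabilityMeasure P] {c : X → ℝ} (hc : Measurable c) {B : ℝ}
    (hB : ∀ᵐ x ∂P, |c x| ≤ B) : ContDiff ℝ 4 (fun t => log (mgf c P t)) ∧
      Dm (fun t => log (mgf c P t)) 0 (3 * √(√(∫ x, c x ^ 4 ∂P))) 1 := by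
  have i : ∀ t, Integrable (fun x => exp (t * c x)) P := fun t =>
    .of_bound (by fun_prop) (exp (|t| * B)) (hB.mono fun x h => by
      rw [Real.norm_eq_abs, abs_exp, exp_le_exp]
      exact (le_abs_self _).trans ((abs_mul _ _).trans_le
        (mul_le_mul_of_nonneg_left h (abs_nonneg _))))
  have hI : ∀ t, t ∈ interior (integrableExpSet c P) := fun t => by
    rw [show integrableExpSet c P = univ from eq_univ_of_forall i, interior_univ]; trivial
  have cd : ContDiff ℝ 4 (mgf c P) :=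
    contDiff_iff_contDiffAt.2 fun t => (analyticAt_mgf (hI t)).contDiffAt
  have h0 : ∀ t, 0 < mgf c P t := fun t => mgf_pos (i t)
  refine ⟨cd.log fun t => (h0 t).ne', dm_log cd h0 (sqrt_nonneg _) fun j hj => ?_⟩
  rw [dv, iteratedDeriv_mgf_zero (hI 0), mgf_zero, mul_one]
  exact mom_le P hc hB hj

end Lt64

open Lt64 in
/-- the field `det` of `LtStmt` -/
theorem lt_det {C : ℝ} (hC : 81 ≤ C) (ι X : Type) [Fintype ι] [DecidableEq ι] [MeasurableSpace X]
    (ν : Measure X) [IsFiniteMeasure ν] (c : ι → X → ℝ) (B : ℝ) (hν : ν ≠ 0)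
    (hc : ∀ e, Measurable (c e)) (hB : ∀ᵐ x ∂ν, ∑ e, c e x ^ 4 ≤ B) :
    LT (C * B) fun g => Real.log (∫ x, Real.exp (∑ e, g e * c e x) ∂ν) := by
  have : NeZero ν := ⟨hν⟩
  have B0 : 0 ≤ B := by
    obtain ⟨x, hx⟩ := hB.exists
    exact (Finset.sum_nonneg fun e _ => by positivity).trans hx
  have hb : ∀ᵐ x ∂ν, ∀ e, |c e x| ≤ 1 + B := hB.mono fun x hx e => by
    have h1 : c e x ^ 4 ≤ B := (Finset.single_le_sum (f := fun e => c e x ^ 4)
      (fun e _ => by positivity) (Finset.mem_univ e)).trans hx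
    refine abs_le.2 ⟨?_, ?_⟩ <;> nlinarith [sq_nonneg (c e x ^ 2 - 1), sq_nonneg (c e x - 1),
      sq_nonneg (c e x + 1)]
  set S : (ι → ℝ) → X → ℝ := fun g x => ∑ e, g e * c e x with hS
  have mS : Measurable fun p : (ι → ℝ) × X => S p.1 p.2 := by simp only [hS]; fun_prop
  have iS : ∀ g, Integrable (fun x => exp (S g x)) ν := fun g =>
    .of_bound (mS.comp measurable_prodMk_left).exp.aestronglyMeasurable
      (exp (∑ e, |g e| * (1 + B))) (hb.mono fun x h => by
      rw [Real.norm_eq_abs, abs_exp, exp_le_exp]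
      exact Finset.sum_le_sum fun e _ => (le_abs_self _).trans ((abs_mul _ _).trans_le
        (mul_le_mul_of_nonneg_left (h e) (abs_nonneg _))))
  have mZ : Measurable fun g => ∫ x, exp (S g x) ∂ν :=
    (mS.exp.stronglyMeasurable.integral_prod_right' (ν := ν)).measurable
  have hP : ∀ g, IsProbabilityMeasure (ν.tilted (S g)) := fun g => isProbabilityMeasure_tilted (iS g)
  have ac : ∀ g, ν.tilted (S g) ≪ ν := fun g => tilted_absolutelyContinuous _ _
  refine ⟨mZ.log, fun e g => 3 * √(√(∫ x, c e x ^ 4 ∂ν.tilted (S g))), fun e => ?_,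
    fun e g => by positivity, fun g => ?_, fun e g => ?_⟩
  · simp only [integral_tilted]
    have : Measurable fun p : (ι → ℝ) × X =>
        (exp (S p.1 p.2) / ∫ x, exp (S p.1 x) ∂ν) • c e p.2 ^ 4 :=
      (mS.exp.div (mZ.comp measurable_fst)).mul (((hc e).comp measurable_snd).pow_const 4)
    exact (this.stronglyMeasurable.integral_prod_right' (ν := ν)).measurable.sqrt.sqrt.const_mul 3
  · have := hP g
    have i : ∀ e, Integrable (fun x => c e x ^ 4) (ν.tilted (S g)) := fun e =>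
      .of_bound ((hc e).pow_const 4).aestronglyMeasurable ((1 + B) ^ 4)
        ((ac g).ae_le (hb.mono fun x h => by
          rw [Real.norm_eq_abs, abs_pow]; exact pow_le_pow_left₀ (abs_nonneg _) (h e) 4))
    have r4 := fun e => rt4 (a := ∫ x, c e x ^ 4 ∂ν.tilted (S g))
      (integral_nonneg fun x => by positivity)
    simp only [mul_pow, r4]
    rw [← Finset.mul_sum, ← integral_finsetSum _ fun e _ => i e]
    have h1 : ∫ x, ∑ e, c e x ^ 4 ∂ν.tilted (S g) ≤ B := by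
      refine (integral_mono_ae (integrable_finsetSum _ fun e _ => i e) (integrable_const B)
        ((ac g).ae_le hB)).trans_eq (by simp)
    nlinarith
  · have := hP g
    obtain ⟨h1, h2⟩ := cgf_dm (ν.tilted (S g)) (hc e) ((ac g).ae_le (hb.mono fun x h => h e))
    have e0 : (fun x => log (∫ y, exp (S (update g e x) y) ∂ν)) =
        fun x => log (∫ y, exp (S g y) ∂ν) + log (mgf (c e) (ν.tilted (S g)) (x - g e)) := by
      funext x
      have : S g + (fun y => (x - g e) * c e y) = S (update g e x) := funext fun y => by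
        have : ∀ i, update g e x i * c i y =
            g i * c i y + if i = e then (x - g e) * c e y else 0 := fun i => by
          by_cases hi : i = e
          · subst hi; simp; ring
          · simp [hi]
        simp [hS, this, Finset.sum_add_distrib]
      rw [mgf, integral_exp_tilted, this, log_div (integral_exp_pos (iS _)).ne'
        (integral_exp_pos (iS _)).ne']
      ring
    show ContDiff ℝ 4 (fun x => log (∫ y, exp (S (update g e x) y) ∂ν)) ∧
      Dm (fun x => log (∫ y, exp (S (update g e x) y) ∂ν)) _ _ _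
    rw [e0]
    refine ⟨contDiff_const.add (h1.comp (contDiff_id.sub contDiff_const)), fun j hj => ?_⟩
    rw [dv, iteratedDeriv_const_add (by have := hj.1; omega),
      iteratedDeriv_comp_sub_const (f := fun t => log (mgf (c e) (ν.tilted (S g)) t))]
    simpa only [sub_self] using h2 j hj

end Crest.Agent.T157.Cw

end
end

-- ▼ part T157/CwLtA_15

/-!
# Row 157, coin windows: calculus of light functions, part 1 (helper15)
-/

set_option autoImplicit false

noncomputable section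

namespace Crest.Agent.T157.Cw

open Set Function

namespace Lt15

theorem jet {f : ℝ → ℝ} (hf : ContDiff ℝ 4 f) {j : ℕ} (hj : j < 4) (x : ℝ) :
    HasDerivAt (dv j f) (dv (j + 1) f x) x := by
  have h := (hf.differentiable_iteratedDeriv j (by exact_mod_cast hj) x).hasDerivAt
  rw [dv, iteratedDeriv_succ]
  exact h

theorem jet0 {f : ℝ → ℝ} (hf : ContDiff ℝ 4 f) (x : ℝ) : HasDerivAt f (dv 1 f x) x := by
  have h := (hf.differentiable (by norm_num) x).hasDerivAt
  rw [dv, iteratedDeriv_one]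
  exact h

theorem dv_of {F g1 g2 g3 g4 : ℝ → ℝ} (h1 : ∀ x, HasDerivAt F (g1 x) x)
    (h2 : ∀ x, HasDerivAt g1 (g2 x) x) (h3 : ∀ x, HasDerivAt g2 (g3 x) x)
    (h4 : ∀ x, HasDerivAt g3 (g4 x) x) :
    dv 1 F = g1 ∧ dv 2 F = g2 ∧ dv 3 F = g3 ∧ dv 4 F = g4 := by
  have e1 : iteratedDeriv 1 F = g1 := by
    rw [iteratedDeriv_one]; exact funext fun x => (h1 x).deriv
  have e2 : iteratedDeriv 2 F = g2 := by
    rw [iteratedDeriv_succ, e1]; exact funext fun x => (h2 x).deriv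
  have e3 : iteratedDeriv 3 F = g3 := by
    rw [iteratedDeriv_succ, e2]; exact funext fun x => (h3 x).deriv
  have e4 : iteratedDeriv 4 F = g4 := by
    rw [iteratedDeriv_succ, e3]; exact funext fun x => (h4 x).deriv
  exact ⟨e1, e2, e3, e4⟩

theorem dm_of {F : ℝ → ℝ} {x ω a : ℝ} (h1 : |dv 1 F x| ≤ ω ^ 1 * a) (h2 : |dv 2 F x| ≤ ω ^ 2 * a)
    (h3 : |dv 3 F x| ≤ ω ^ 3 * a) (h4 : |dv 4 F x| ≤ ω ^ 4 * a) : Dm F x ω a := by
  intro j hj
  obtain ⟨hj1, hj4⟩ := hj
  interval_cases j <;> assumption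

theorem mul_bd {a b A B : ℝ} (ha : |a| ≤ A) (hb : |b| ≤ B) : |a * b| ≤ A * B := by
  rw [abs_mul]; exact mul_le_mul ha hb (abs_nonneg _) ((abs_nonneg _).trans ha)

/-- all monomials of weight at most four -/
theorem monos {a1 a2 a3 a4 p : ℝ} (h1 : |a1| ≤ p) (h2 : |a2| ≤ p ^ 2) (h3 : |a3| ≤ p ^ 3) :
    |a1 * a1| ≤ p ^ 2 ∧ |a1 * a2| ≤ p ^ 3 ∧ |a1 * a1 * a1| ≤ p ^ 3 ∧ |a1 * a3| ≤ p ^ 4 ∧
      |a2 * a2| ≤ p ^ 4 ∧ |a1 * a1 * a2| ≤ p ^ 4 ∧ |a1 * a1 * a1 * a1| ≤ p ^ 4 ∧ a4 = a4 :=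
  ⟨(mul_bd h1 h1).trans_eq (by ring), (mul_bd h1 h2).trans_eq (by ring),
    (mul_bd (mul_bd h1 h1) h1).trans_eq (by ring), (mul_bd h1 h3).trans_eq (by ring),
    (mul_bd h2 h2).trans_eq (by ring), (mul_bd (mul_bd h1 h1) h2).trans_eq (by ring),
    (mul_bd (mul_bd (mul_bd h1 h1) h1) h1).trans_eq (by ring), rfl⟩

/-- Young's inequality for the exponent four -/
theorem young {x p : ℝ} (hx : 0 ≤ x) (hp : 0 ≤ p) {j : ℕ} (hj : j ∈ Icc 1 4) :
    4 * (x ^ j * p ^ (4 - j)) ≤ j * x ^ 4 + (4 - j) * p ^ 4 := by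
  obtain ⟨hj1, hj4⟩ := hj
  interval_cases j <;> norm_num
  · nlinarith [mul_nonneg (sq_nonneg (x - p)) (by positivity : 0 ≤ x ^ 2 + 2 * x * p + 3 * p ^ 2)]
  · nlinarith [sq_nonneg (x ^ 2 - p ^ 2)]
  · nlinarith [mul_nonneg (sq_nonneg (x - p)) (by positivity : 0 ≤ 3 * x ^ 2 + 2 * x * p + p ^ 2)]

theorem sqrt4 {q : ℝ} (hq : 0 ≤ q) : √(√q) ^ 4 = q := by
  rw [show (4 : ℕ) = 2 * 2 from rfl, pow_mul, Real.sq_sqrt (Real.sqrt_nonneg _), Real.sq_sqrt hq]

/-- power means -/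
theorem pmean {κ : Type} (S : Finset κ) (π x : κ → ℝ) (hπ : ∀ i ∈ S, 0 < π i)
    (hs : ∑ i ∈ S, π i ≤ 1) (hx : ∀ i ∈ S, 0 ≤ x i) {p : ℝ} (hp : 0 ≤ p)
    (h4 : p ^ 4 = ∑ i ∈ S, π i * x i ^ 4) {j : ℕ} (hj : j ∈ Icc 1 4) :
    ∑ i ∈ S, π i * x i ^ j ≤ p ^ j := by
  rcases hp.eq_or_lt with rfl | hp0
  · have h0 := (Finset.sum_eq_zero_iff_of_nonneg fun i hi =>
      mul_nonneg (hπ i hi).le (pow_nonneg (hx i hi) 4)).1 (h4.symm.trans (by norm_num))
    refine (Finset.sum_eq_zero fun i hi => ?_).trans_le (by positivity)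
    have h1 : x i = 0 := pow_eq_zero_iff (n := 4) (by norm_num) |>.1
      ((mul_eq_zero.1 (h0 i hi)).resolve_left (hπ i hi).ne')
    rw [h1, zero_pow (by have := hj.1; omega), mul_zero]
  have hj4 : (j : ℝ) ≤ 4 := by exact_mod_cast hj.2
  have h1 : 4 * ((∑ i ∈ S, π i * x i ^ j) * p ^ (4 - j)) ≤
      j * p ^ 4 + (4 - j) * p ^ 4 * ∑ i ∈ S, π i := by
    rw [Finset.sum_mul, Finset.mul_sum, Finset.mul_sum]
    nth_rewrite 1 [h4]
    rw [Finset.mul_sum, ← Finset.sum_add_distrib]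
    refine Finset.sum_le_sum fun i hi => ?_
    have := mul_le_mul_of_nonneg_left (young (hx i hi) hp hj) (hπ i hi).le
    linarith
  have h2 : (4 - j) * p ^ 4 * ∑ i ∈ S, π i ≤ (4 - j) * p ^ 4 :=
    mul_le_of_le_one_right (mul_nonneg (by linarith) (by positivity)) hs
  have h3 : p ^ 4 = p ^ j * p ^ (4 - j) := by rw [← pow_add, Nat.add_sub_cancel' hj.2]
  refine le_of_mul_le_mul_right ?_ (pow_pos hp0 (4 - j))
  rw [← h3]; linarith

end Lt15

open Lt15

theorem lt_expo (f : ℝ → ℝ) (x ω : ℝ) (hf : ContDiff ℝ 4 f) (hω : 0 ≤ ω) (h : Dm f x ω 1) :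
    Dm (fun t => Real.exp (f t)) x (2 * ω) (Real.exp (f x)) := by
  have j0 := jet0 hf
  have j1 := jet hf (j := 1) (by norm_num)
  have j2 := jet hf (j := 2) (by norm_num)
  have j3 := jet hf (j := 3) (by norm_num)
  obtain ⟨e1, e2, e3, e4⟩ := dv_of (F := fun t => Real.exp (f t))
    (g1 := fun t => dv 1 f t * Real.exp (f t))
    (g2 := fun t => (dv 2 f t + dv 1 f t * dv 1 f t) * Real.exp (f t))
    (g3 := fun t => (dv 3 f t + 3 * (dv 1 f t * dv 2 f t) + dv 1 f t * dv 1 f t * dv 1 f t) *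
      Real.exp (f t))
    (g4 := fun t => (dv 4 f t + 4 * (dv 1 f t * dv 3 f t) + 3 * (dv 2 f t * dv 2 f t) +
      6 * (dv 1 f t * dv 1 f t * dv 2 f t) + dv 1 f t * dv 1 f t * dv 1 f t * dv 1 f t) *
      Real.exp (f t))
    (fun t => (j0 t).exp.congr_deriv (by ring))
    (fun t => ((j1 t).fun_mul (j0 t).exp).congr_deriv (by ring))
    (fun t => (((j2 t).fun_add ((j1 t).fun_mul (j1 t))).fun_mul (j0 t).exp).congr_deriv (by ring))
    (fun t => ((((j3 t).fun_add (((j1 t).fun_mul (j2 t)).const_mul 3)).fun_add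
      (((j1 t).fun_mul (j1 t)).fun_mul (j1 t))).fun_mul (j0 t).exp).congr_deriv (by ring))
  have h1 := h 1 (by simp)
  have h2 := h 2 (by simp)
  have h3 := h 3 (by simp)
  have h4 := h 4 (by simp)
  rw [mul_one] at h1 h2 h3 h4
  rw [pow_one] at h1
  obtain ⟨m1, m2, m3, m4, m5, m6, m7, -⟩ := monos (a4 := 0) h1 h2 h3
  have hE : |Real.exp (f x)| ≤ Real.exp (f x) := (abs_of_pos (Real.exp_pos _)).le
  have p2 := pow_nonneg hω 2
  have p3 := pow_nonneg hω 3
  have p4 := pow_nonneg hω 4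
  rw [abs_le] at h1 h2 h3 h4 m1 m2 m3 m4 m5 m6 m7
  refine dm_of ?_ ?_ ?_ ?_
  · rw [e1]; exact mul_bd (abs_le.2 ⟨by linarith, by linarith⟩) hE
  · rw [e2]; exact mul_bd (abs_le.2 ⟨by nlinarith, by nlinarith⟩) hE
  · rw [e3]; exact mul_bd (abs_le.2 ⟨by nlinarith, by nlinarith⟩) hE
  · rw [e4]; exact mul_bd (abs_le.2 ⟨by nlinarith, by nlinarith⟩) hE

theorem dm_log {N : ℝ → ℝ} {x p : ℝ} (hN : ContDiff ℝ 4 N) (hpos : ∀ t, 0 < N t) (hp : 0 ≤ p)
    (h : Dm N x p (N x)) : Dm (fun t => Real.log (N t)) x (3 * p) 1 := by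
  have j0 := jet0 hN
  let a : ℕ → ℝ → ℝ := fun j t => dv j N t / N t
  have ha : ∀ j, j < 4 → ∀ t, HasDerivAt (a j) (a (j + 1) t - a j t * a 1 t) t := fun j hj t => by
    refine ((jet hN hj t).fun_div (j0 t) (hpos t).ne').congr_deriv ?_
    have := (hpos t).ne'
    simp only [a]; field_simp
  have j1 := ha 1 (by norm_num)
  have j2 := ha 2 (by norm_num)
  have j3 := ha 3 (by norm_num)
  obtain ⟨e1, e2, e3, e4⟩ := dv_of (F := fun t => Real.log (N t)) (g1 := a 1)
    (g2 := fun t => a 2 t - a 1 t * a 1 t)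
    (g3 := fun t => a 3 t - 3 * (a 1 t * a 2 t) + 2 * (a 1 t * a 1 t * a 1 t))
    (g4 := fun t => a 4 t - 4 * (a 1 t * a 3 t) - 3 * (a 2 t * a 2 t) +
      12 * (a 1 t * a 1 t * a 2 t) - 6 * (a 1 t * a 1 t * a 1 t * a 1 t))
    (fun t => (j0 t).log (hpos t).ne') j1
    (fun t => ((j2 t).fun_sub ((j1 t).fun_mul (j1 t))).congr_deriv (by ring))
    (fun t => (((j3 t).fun_sub (((j1 t).fun_mul (j2 t)).const_mul 3)).fun_add
      ((((j1 t).fun_mul (j1 t)).fun_mul (j1 t)).const_mul 2)).congr_deriv (by ring))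
  have hb : ∀ j ∈ Icc 1 4, |a j x| ≤ p ^ j := fun j hj => by
    simp only [a]
    rw [abs_div, abs_of_pos (hpos x), div_le_iff₀ (hpos x)]
    exact h j hj
  have h1 := hb 1 (by simp)
  have h2 := hb 2 (by simp)
  have h3 := hb 3 (by simp)
  have h4 := hb 4 (by simp)
  rw [pow_one] at h1
  obtain ⟨m1, m2, m3, m4, m5, m6, m7, -⟩ := monos (a4 := 0) h1 h2 h3
  have p2 := pow_nonneg hp 2
  have p3 := pow_nonneg hp 3
  have p4 := pow_nonneg hp 4
  rw [abs_le] at h1 h2 h3 h4 m1 m2 m3 m4 m5 m6 m7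
  refine dm_of ?_ ?_ ?_ ?_
  · rw [e1]; exact abs_le.2 ⟨by linarith, by linarith⟩
  · rw [e2]; exact abs_le.2 ⟨by nlinarith, by nlinarith⟩
  · rw [e3]; exact abs_le.2 ⟨by nlinarith, by nlinarith⟩
  · rw [e4]; exact abs_le.2 ⟨by nlinarith, by nlinarith⟩

theorem lt_mono (ι : Type) [Fintype ι] [DecidableEq ι] (B B' : ℝ) (Y : (ι → ℝ) → ℝ) (hB : B ≤ B')
    (h : LT B Y) : LT B' Y := by
  obtain ⟨hm, ω, h1, h2, h3, h4⟩ := h
  exact ⟨hm, ω, h1, h2, fun g => (h3 g).trans hB, h4⟩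

theorem lt_const (ι : Type) [Fintype ι] [DecidableEq ι] (a : ℝ) : LT 0 fun _ : ι → ℝ => a := by
  refine ⟨measurable_const, fun _ _ => 0, fun _ => measurable_const, fun _ _ => le_rfl,
    fun _ => by simp, fun e g => ⟨contDiff_const, fun j hj => ?_⟩⟩
  have : j ≠ 0 := by have := hj.1; omega
  simp [dv, iteratedDeriv_const, this]

theorem lt_add (ι : Type) [Fintype ι] [DecidableEq ι] (B B' : ℝ) (Y Y' : (ι → ℝ) → ℝ) (h : LT B Y)
    (h' : LT B' Y') : LT (8 * (B + B')) fun g => Y g + Y' g := by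
  obtain ⟨hm, ω, h1, h2, h3, h4⟩ := h
  obtain ⟨hm', ω', h1', h2', h3', h4'⟩ := h'
  refine ⟨hm.add hm', fun e g => ω e g + ω' e g, fun e => (h1 e).add (h1' e),
    fun e g => add_nonneg (h2 e g) (h2' e g), fun g => ?_,
    fun e g => ⟨(h4 e g).1.add (h4' e g).1, fun j hj => ?_⟩⟩
  · calc _ ≤ ∑ e, 8 * (ω e g ^ 4 + ω' e g ^ 4) := Finset.sum_le_sum fun e _ =>
          (add_pow_le (h2 e g) (h2' e g) 4).trans_eq (by norm_num)
      _ ≤ _ := by
          rw [← Finset.mul_sum, Finset.sum_add_distrib]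
          linarith [h3 g, h3' g]
  · have hj4 : (j : WithTop ℕ∞) ≤ 4 := by exact_mod_cast hj.2
    have e1 := iteratedDeriv_fun_add (n := j) (x := g e) ((h4 e g).1.of_le hj4).contDiffAt
      ((h4' e g).1.of_le hj4).contDiffAt
    have a1 := (h4 e g).2 j hj
    have a2 := (h4' e g).2 j hj
    have a3 := pow_add_pow_le (h2 e g) (h2' e g) (n := j) (by have := hj.1; omega)
    rw [dv, e1]
    refine (abs_add_le _ _).trans ?_
    simp only [dv] at a1 a2
    linarith

theorem lt_smul (ι : Type) [Fintype ι] [DecidableEq ι] (B a : ℝ) (Y : (ι → ℝ) → ℝ) (h : LT B Y) :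
    LT (max |a| 1 ^ 4 * B) fun g => a * Y g := by
  obtain ⟨hm, ω, h1, h2, h3, h4⟩ := h
  have hM : 1 ≤ max |a| 1 := le_max_right _ _
  refine ⟨hm.const_mul a, fun e g => max |a| 1 * ω e g, fun e => (h1 e).const_mul _,
    fun e g => mul_nonneg (by linarith) (h2 e g), fun g => ?_,
    fun e g => ⟨contDiff_const.mul (h4 e g).1, fun j hj => ?_⟩⟩
  · simp only [mul_pow]
    rw [← Finset.mul_sum]
    exact mul_le_mul_of_nonneg_left (h3 g) (by positivity)
  · rw [dv, iteratedDeriv_const_mul_field, mul_pow, mul_assoc]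
    exact mul_bd ((le_max_left _ _).trans (le_self_pow₀ hM (by have := hj.1; omega)))
      ((h4 e g).2 j hj)

theorem lt_lse (ι κ : Type) [Fintype ι] [DecidableEq ι] (S : Finset κ) (B : ℝ)
    (u : κ → (ι → ℝ) → ℝ) (hB : 0 ≤ B) (h : ∀ i ∈ S, LT B (u i)) :
    LT (1296 * B) fun g => Real.log (1 + ∑ i ∈ S, Real.exp (u i g)) := by
  have hm : ∀ i ∈ S, Measurable (u i) := fun i hi => (h i hi).1
  have h' := fun i hi => (h i hi).2
  choose! ω h1 h2 h3 h4 using h'
  let N : (ι → ℝ) → ℝ := fun g => 1 + ∑ i ∈ S, Real.exp (u i g)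
  have hs0 : ∀ g, 0 ≤ ∑ i ∈ S, Real.exp (u i g) := fun g =>
    Finset.sum_nonneg fun i _ => (Real.exp_pos _).le
  have hN : ∀ g, 0 < N g := fun g => by have := hs0 g; simp only [N]; linarith
  have hNm : Measurable N :=
    (Finset.measurable_sum _ fun i hi => (hm i hi).exp).const_add _
  let π : κ → (ι → ℝ) → ℝ := fun i g => Real.exp (u i g) / N g
  have hπ : ∀ i g, 0 < π i g := fun i g => div_pos (Real.exp_pos _) (hN g)
  have hπs : ∀ g, ∑ i ∈ S, π i g ≤ 1 := fun g => by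
    simp only [π]
    rw [← Finset.sum_div, div_le_one (hN g)]
    simp only [N]; linarith
  let q : ι → (ι → ℝ) → ℝ := fun e g => ∑ i ∈ S, π i g * (2 * ω i e g) ^ 4
  have hq : ∀ e g, 0 ≤ q e g := fun e g =>
    Finset.sum_nonneg fun i _ => mul_nonneg (hπ i g).le (by positivity)
  refine ⟨hNm.log, fun e g => 3 * √(√(q e g)), fun e => ?_, fun e g => by positivity, fun g => ?_,
    fun e g => ?_⟩
  · refine (Measurable.sqrt (Measurable.sqrt ?_)).const_mul _
    exact Finset.measurable_sum _ fun i hi =>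
      ((hm i hi).exp.div hNm).mul (((h1 i hi e).const_mul _).pow_const _)
  · calc ∑ e, (3 * √(√(q e g))) ^ 4 = ∑ i ∈ S, π i g * (1296 * ∑ e, ω i e g ^ 4) := by
          have : ∀ e, (3 * √(√(q e g))) ^ 4 = 81 * q e g := fun e => by
            rw [mul_pow, sqrt4 (hq e g)]; norm_num
          simp only [this]
          simp only [q, Finset.mul_sum]
          rw [Finset.sum_comm]
          exact Finset.sum_congr rfl fun i _ => Finset.sum_congr rfl fun e _ => by ring
      _ ≤ ∑ i ∈ S, π i g * (1296 * B) := Finset.sum_le_sum fun i hi =>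
          mul_le_mul_of_nonneg_left (by linarith [h3 i hi g]) (hπ i g).le
      _ ≤ _ := by
          rw [← Finset.sum_mul]
          exact mul_le_of_le_one_left (by positivity) (hπs g)
  · have hc : ∀ i ∈ S, ContDiff ℝ 4 fun t => Real.exp (u i (update g e t)) :=
      fun i hi => (h4 i hi e g).1.exp
    have hC : ContDiff ℝ 4 fun t => N (update g e t) := contDiff_const.add (ContDiff.sum hc)
    refine ⟨hC.log fun t => (hN _).ne', dm_log hC (fun t => hN _) (by positivity) fun j hj => ?_⟩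
    have hj4 : (j : WithTop ℕ∞) ≤ 4 := by exact_mod_cast hj.2
    have e1 : dv j (fun t => N (update g e t)) (g e) =
        ∑ i ∈ S, dv j (fun t => Real.exp (u i (update g e t))) (g e) := by
      simp only [N, dv]
      rw [iteratedDeriv_const_add (by have := hj.1; omega),
        iteratedDeriv_fun_sum fun i hi => ((hc i hi).of_le hj4).contDiffAt]
    rw [e1, update_eq_self]
    refine (Finset.abs_sum_le_sum_abs _ _).trans ?_
    calc _ ≤ ∑ i ∈ S, π i g * (2 * ω i e g) ^ j * N g := Finset.sum_le_sum fun i hi => by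
          have := lt_expo _ _ _ (h4 i hi e g).1 (h2 i hi e g) (h4 i hi e g).2 j hj
          rw [update_eq_self] at this
          refine this.trans_eq ?_
          have := (hN g).ne'
          simp only [π]; field_simp
      _ ≤ _ := by
          rw [← Finset.sum_mul]
          exact mul_le_mul_of_nonneg_right (pmean S (fun i => π i g) (fun i => 2 * ω i e g)
            (fun i _ => hπ i g) (hπs g) (fun i hi => by have := h2 i hi e g; positivity)
            (by positivity) (sqrt4 (hq e g)) hj) (hN g).le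

theorem ltStmt : LtStmt 1296 where
  one := by norm_num
  expo := lt_expo
  mono := lt_mono
  const := lt_const
  add := lt_add
  smul := lt_smul
  lse := lt_lse
  det := lt_det (by norm_num)

end Crest.Agent.T157.Cw

end
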