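import Crest.Agent.T157.KsE_5
import Crest.Agent.T157.TrF_64

/-!
# Row 157: inheritance of future events, terminal bounds on the cube (helper5)
-/

set_option linter.unusedSectionVars false

noncomputable section

namespace Crest.Agent.T157.Ks

open MeasureTheory ProbabilityTheory Filter Topology Set Real Matrix
open Crest.Agent.T157.E Crest.Agent.T157.SL
open Crest.ProbabilityR.SpinGlassDynamics (spin)

section
variable {Ω ι J L : Type*} [Fintype Ω] [Fintype ι] [DecidableEq ι] [Fintype J] [Fintype L]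
  {φ : Ω → ι → ℝ} {w : Ω → ℝ} {s τ δ δ' R : ℝ} {P Q : (Ω → ℝ) → Prop}

/-- the posterior at time `τ` has the property `P`, up to probability `δ` -/
def Fut (φ : Ω → ι → ℝ) (τ δ : ℝ) (P : (Ω → ℝ) → Prop) (w : Ω → ℝ) : Prop :=
  (law φ w τ).real {y | ¬ P (post φ w τ y)} ≤ δ


theorem Fut.mono (hw : Wt w) (h : Fut φ τ δ P w) (e : ∀ v, Wt v → P v → Q v) : Fut φ τ δ Q w :=
  haveI := isProb_law (φ := φ) (s := τ) hw
  (measureReal_mono (s₁ := {y | ¬ Q (post φ w τ y)}) (s₂ := {y | ¬ P (post φ w τ y)}) fun _ hy hp =>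
    hy (e _ (hw.post _ _ _) hp)).trans h

theorem Fut.le (h : Fut φ τ δ P w) (e : δ ≤ δ') : Fut φ τ δ' P w := h.trans e

theorem Fut.nonneg (h : Fut φ τ δ P w) : 0 ≤ δ := measureReal_nonneg.trans h

theorem Fut.and (h : Fut φ τ δ P w) (h' : Fut φ τ δ' Q w) : Fut φ τ (δ + δ') (fun v => P v ∧ Q v) w := by
  refine le_trans ?_ ((measureReal_union_le _ _).trans (add_le_add h h'))
  exact le_of_eq (congrArg _ (by ext y; simp only [mem_ofPred_eq, mem_union, not_and_or]))

theorem Fut.all {K : Type*} (hw : Wt w) (S : Finset K) {P : K → (Ω → ℝ) → Prop}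
    (h : ∀ k ∈ S, Fut φ τ δ (P k) w) : Fut φ τ (S.card * δ) (fun v => ∀ k ∈ S, P k v) w := by
  have := isProb_law (φ := φ) (s := τ) hw
  refine le_trans ?_ ((measureReal_biUnion_finset_le S _).trans
    ((Finset.sum_le_sum h).trans_eq (by simp)))
  exact le_of_eq (congrArg _ (by ext y; simp))

theorem AP.le (h : AP φ w τ δ P) (e : δ ≤ δ') : AP φ w τ δ' P := fun u hu => (h u hu).trans e

theorem AP.and (h : AP φ w τ δ P) (h' : AP φ w τ δ' Q) : AP φ w τ (δ + δ') fun v => P v ∧ Q v :=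
  fun u hu => Fut.and (h u hu) (h' u hu)


/-- **inheritance**: conditional failure probabilities, by Markov's inequality -/
theorem Fut.inherit (hw : Wt w) (hs : 0 ≤ s) (hτ : 0 ≤ τ) (h : Fut φ (s + τ) δ P w) (h0 : 0 < δ') :
    Fut φ s (δ / δ') (Fut φ τ δ' P) w := by
  obtain ⟨B, hB, sB, eB⟩ := exists_meas φ w (s + τ) {y | ¬ P (post φ w (s + τ) y)}
  have m : MG fun y => pr φ w (s + τ) B s y := by simpa using mg_pr (φ := φ) (τ := s + τ) hw hB s 0
  have mA : MeasurableSet {y | δ' < pr φ w (s + τ) B s y} := measurableSet_lt measurable_const m.meas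
  have := isProb_law (φ := φ) (s := s) hw
  refine (measureReal_mono (s₂ := {y | δ' < pr φ w (s + τ) B s y}) fun y hy => ?_).trans ?_
  · have hq := hw.post φ s y
    have := isProb_law (φ := φ) (s := τ) hq
    have hB' : MeasurableSet {z | y + z ∈ B} := hB.preimage (by fun_prop)
    refine (not_le.1 hy).trans_le ((measureReal_mono (s₂ := {z | y + z ∈ B}) fun z hz =>
      sB (by simpa only [post_post, mem_ofPred_eq] using hz)).trans_eq ?_)
    rw [← ex_ind hq hB', pr, add_sub_cancel_left]; rfl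
  · rw [← ex_ind hw mA, le_div_iff₀' h0, ← ex_const_mul]
    have e := pr_markov (φ := φ) (r := 0) hw hB hs (by linarith : 0 + s ≤ s + τ) 0
    simp only [post_zero, zero_add, pr_zero hw hB, eB] at e
    refine (ex_mono (H := fun p => pr φ w (s + τ) B s p.2) hw
      (((MG.const 1).indicator mA).const_mul _) m fun y => ?_).trans (e.trans_le h)
    by_cases hy : δ' < pr φ w (s + τ) B s y
    · simpa [hy] using hy.le
    · simpa [hy] using pr_nonneg hw s y

/-- what follows from the future at every intermediate time holds along the way -/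
theorem Fut.ap (hw : Wt w) (h : Fut φ τ δ P w) (h0 : 0 < δ') {h' : ℝ} (hh : h' ≤ τ)
    (e : ∀ v, Wt v → ∀ τ' ∈ Icc (τ - h') τ, Fut φ τ' δ' P v → Q v) : AP φ w h' (δ / δ') Q :=
  fun u hu => (Fut.inherit hw hu.1 (sub_nonneg.2 (hu.2.trans hh)) (by rwa [add_sub_cancel]) h0).mono hw
    fun v hv => e v hv _ ⟨by linarith [hu.2], by linarith [hu.1]⟩

/-- the constant of the cap -/
def capK (a L' R τ δ : ℝ) : ℝ := a / (1 - a * τ) + 2 * R ^ 3 * exp ((a / (1 - a * τ) + (a + L') + 1) * τ) * δ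


theorem Fut.cap (hw : Wt w) (hτ : 0 ≤ τ) (R1 : 1 ≤ R) (hR : Bd φ R) {a L' : ℝ} (ha : 0 ≤ a)
    (haτ : a * τ < 1) (L0 : 0 ≤ L') (h : Fut φ τ δ (fun v => CB v φ a ∧ ∑ i, meanV v φ i ^ 2 ≤ L') w) :
    CB w φ (capK a L' R τ δ) := Ks.cap hw hτ R1 hR ha haτ L0 h fun _ hy => not_not.1 hy


theorem qf_lin (w : Ω → ℝ) (A : Matrix J ι ℝ) (B : Matrix L ι ℝ) (U : Matrix J L ℝ) :
    qf w (fun x => A *ᵥ φ x) (fun x => B *ᵥ φ x) U = qf w φ φ (Aᵀ * U * B) := by
  have e1 : meanV w (fun x => A *ᵥ φ x) = A *ᵥ meanV w φ := funext fun j => (meanV_dot w φ (A j)).symm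
  have e2 : meanV w (fun x => B *ᵥ φ x) = B *ᵥ meanV w φ := funext fun j => (meanV_dot w φ (B j)).symm
  ext x
  rw [qf, qf, e1, e2, ← mulVec_sub, ← mulVec_sub, ← mulVec_mulVec, ← mulVec_mulVec,
    dotProduct_mulVec _ Aᵀ, vecMul_transpose]

end

/-! ### the cube -/

variable {n : ℕ} {w : Cube n → ℝ} {K γ : ℝ}

theorem bd_sv : Bd (sv (n := n)) n := fun x => by
  simpa only [dotProduct, sq] using (sv_dot_self x).le

theorem abs_sv (x : Cube n) (i : Fin n) : |sv x i| = 1 := by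
  rw [sv]; cases x i <;> simp [spin]

theorem dir_qf_le (hw : ∀ x, 0 < w x) (hC : CB w sv K) (U : Matrix (Fin n) (Fin n) ℝ) :
    dir w (qf w sv sv U) ≤ (8 * K + 18) * fr U := by
  have hW := Wt.of_pos hw
  set m := meanV w sv with hm
  have m1 : ∀ i, |m i| ≤ 1 := fun i => hW.abs_mean_le fun x => (abs_sv x i).le
  have h1 : ∀ i, Ent.dirS w (qf w sv sv U) i ≤
      2 * var w (fun x => (U + Uᵀ) i ⬝ᵥ sv x) + 18 * U i i ^ 2 := fun i => by
    set z : Cube n → Fin n → ℝ := fun x => Function.update (sv x) i 0 - m with hz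
    refine (Ent.dirS_le_sq hw _ i (g := fun x => z x ⬝ᵥ U *ᵥ z x) fun x b => ?_).trans ?_
    · have : Function.update (sv (Function.update x i b)) i 0 = Function.update (sv x) i 0 := by
        ext j; rcases eq_or_ne j i with rfl | hj <;> simp [sv, *]
      simp only [hz, this]
    rw [var_eq_cov, cov_eq_mean, ← mean_const_mul, ← hW.mean_const (18 * U i i ^ 2), ← mean_add]
    refine hW.mean_mono fun x => ?_
    have e : z x = sv x - m - sv x i • Pi.single i 1 := by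
      ext j; rcases eq_or_ne j i with rfl | hj <;> simp [*]
    have s2 : sv x i * sv x i = 1 := by rw [← abs_mul_abs_self, abs_sv, one_mul]
    have e2 : qf w sv sv U x - z x ⬝ᵥ U *ᵥ z x =
        sv x i * ((U + Uᵀ) i ⬝ᵥ (sv x - m)) - U i i := by
      have : (Pi.single i 1 : Fin n → ℝ) ⬝ᵥ U *ᵥ (sv x - m) + (sv x - m) ⬝ᵥ U *ᵥ Pi.single i 1 =
          (U + Uᵀ) i ⬝ᵥ (sv x - m) := by
        simp [dotProduct, mulVec, add_mul, Finset.sum_add_distrib, Pi.single_apply, mul_comm]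
      rw [qf, ← hm, e, ← this]
      generalize sv x - m = a
      simp only [mulVec_sub, mulVec_smul, sub_dotProduct, dotProduct_sub, smul_dotProduct,
        dotProduct_smul, smul_eq_mul, single_dotProduct, mulVec_single_one, col_apply, one_mul]
      linear_combination (-U i i) * s2
    rw [e2, ← meanV_dot, ← hm, ← dotProduct_sub]
    nlinarith [sq_nonneg (sv x i * ((U + Uᵀ) i ⬝ᵥ (sv x - m)) + U i i), sq_nonneg (U i i)]
  have h2 : ∑ i, U i i ^ 2 ≤ fr U := Finset.sum_le_sum fun i _ =>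
    Finset.single_le_sum (f := fun l => U i l ^ 2) (fun _ _ => sq_nonneg _) (Finset.mem_univ i)
  have h3 : ∑ i, (U + Uᵀ) i ⬝ᵥ (U + Uᵀ) i ≤ 4 * fr U := by
    have := sum_sub_sq_le (fun j l => U j l) fun j l => -Uᵀ j l
    simp only [neg_sq, sub_neg_eq_add] at this
    change _ ≤ 2 * fr U + 2 * fr Uᵀ at this
    rw [fr_transpose] at this
    simpa only [dotProduct, ← sq, Matrix.add_apply] using this.trans_eq (by ring)
  rcases isEmpty_or_nonempty (Fin n) with hn | ⟨⟨i⟩⟩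
  · simp [dir, fr]
  have K0 : 0 ≤ K := by simpa using (hW.var_nonneg _).trans (hC.var_le (Pi.single i 1))
  rw [Ent.dir_eq_sum]
  refine (Finset.sum_le_sum fun i _ => (h1 i).trans (add_le_add (mul_le_mul_of_nonneg_left
    (hC.var_le _) zero_le_two) le_rfl)).trans ?_
  simp only [Finset.sum_add_distrib, ← Finset.mul_sum]
  nlinarith [mul_le_mul_of_nonneg_left h3 K0]

/-- terminal bound for (N), (N'), (S5) from a Poincaré inequality -/
theorem NV_term {J L : Type*} [Fintype J] [Fintype L] (hw : ∀ x, 0 < w x) (hC : CB w sv K) (γ0 : 0 ≤ γ)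
    (hP : Top.Poin w γ) (A : Matrix J (Fin n) ℝ) (B : Matrix L (Fin n) ℝ) (U : Matrix J L ℝ) :
    NV (fun x => A *ᵥ sv x) (fun x => B *ᵥ sv x) U w ≤ γ * (8 * K + 18) * fr (Aᵀ * U * B) := by
  rw [NV, qf_lin, mul_assoc]
  exact (hP _).trans (mul_le_mul_of_nonneg_left (dir_qf_le hw hC _) γ0)

/-- `|Aᵀ U B|_F² ≤ ‖A‖² ‖B‖² |U|_F²` -/
theorem fr_mul_le {J L I I' : Type*} [Fintype J] [Fintype L] [Fintype I] [Fintype I'] {A : Matrix J I ℝ}
    {B : Matrix L I' ℝ} {a b : ℝ} (a0 : 0 ≤ a) (hA : ∀ v, Aᵀ *ᵥ v ⬝ᵥ Aᵀ *ᵥ v ≤ a * (v ⬝ᵥ v))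
    (hB : ∀ v, Bᵀ *ᵥ v ⬝ᵥ Bᵀ *ᵥ v ≤ b * (v ⬝ᵥ v)) (U : Matrix J L ℝ) :
    fr (Aᵀ * U * B) ≤ a * b * fr U := by
  have h1 : fr (Aᵀ * (U * B)) ≤ a * fr (U * B) := by
    rw [← fr_transpose, ← fr_transpose (U := U * B), fr, fr, Finset.mul_sum]
    exact Finset.sum_le_sum fun l _ => by
      simpa only [dotProduct, ← sq, mulVec, transpose_apply, mul_apply] using hA fun j => (U * B) j l
  have h2 : fr (U * B) ≤ b * fr U := by
    rw [fr, fr, Finset.mul_sum]
    exact Finset.sum_le_sum fun j _ => by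
      simpa only [dotProduct, ← sq, mulVec, transpose_apply, mul_apply, mul_comm] using hB (U j)
  rw [Matrix.mul_assoc, mul_assoc]
  exact h1.trans (mul_le_mul_of_nonneg_left h2 a0)

/-- pointwise Poincaré inequality in the frozen regime -/
theorem poin_of_fro {J : Matrix (Fin n) (Fin n) ℝ} (hJ : Jᵀ = J) (hJ3 : Eig.opn J ≤ 3) {M : ℝ} (hM : 0 ≤ M)
    {y : Fin n → ℝ} (hy : Glue.Fro J M (24 * √n) y) (hn : exp (6 * M + 2) * (288 * n * exp (-(n / 2))) ≤ 1) :
    Top.Poin (ising J y) (6 * exp (6 * M + 2)) := fun f => by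
  have hp : ∀ x, 0 < ising J y x := fun _ => exp_pos _
  have hW := Wt.of_pos hp
  have ht : Glue.Tail (ising J y) 0 (exp (6 * M + 2)) (exp (6 * M + 2) * (48 * n * exp (-(n / 2)))) :=
    fun F hF => by
      rw [ex_pw_zero hW fun u => ent u F]
      refine (Glue.hs_ent hJ hJ3 hF (Glue.maj_maj hp hF) hM y (.inl ⟨hy, le_rfl⟩)
        (mean (ising J y) fun x => √(F x))).trans_eq ?_
      rw [Glue.mean_maj hp]
      change _ * (_ + _ * var _ _) = _
      ring
  have := Tr.tail_var hp ht (exp_pos _).le (by positivity) f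
  rw [ex_pw_zero hW fun u => var u f] at this
  nlinarith [mul_le_mul_of_nonneg_right hn (hW.var_nonneg f)]

end Crest.Agent.T157.Ks
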