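import Crest.Agent.T157.St0C_5
import Crest.Agent.T157.LpAll_17
import Crest.Agent.T157.KsF_5
import Crest.Agent.T157.O0Def_21
import Crest.Agent.T157.KbE_24

-- ▼ part T157/St0D_5
section

/-!
# Row 157: the start of the induction, in the planted model with explicit levels (helper5)
-/

set_option autoImplicit false

noncomputable section

namespace Crest.Agent.T157.Ks.St0

open MeasureTheory ProbabilityTheory Matrix Filter Set Topology
open Crest.Agent.T157.E Crest.Agent.T157.Eig Crest.Agent.T157.Cond Crest.Agent.T157.Tap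
open Crest.Agent.T157.SL Crest.Agent.T157.Tap.Cov15

section
variable {X : ℕ → Type*} [∀ n, MeasurableSpace (X n)] {μ : ∀ n, Measure (X n)} {e e' : ℝ}
  {P Q : ∀ n, X n → Prop}

/-- every level below `e` -/
def Lo (μ : ∀ n, Measure (X n)) (e : ℝ) (P : ∀ n, X n → Prop) : Prop := ∀ e' < e, Lv μ e' P

theorem Lv.lo (h : Lv μ e P) (he : e' ≤ e) : Lo μ e' P := fun _ h1 => h.le (h1.le.trans he)

theorem Lo.and (h : Lo μ e P) (h' : Lo μ e Q) : Lo μ e fun n W => P n W ∧ Q n W := fun e' he =>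
  (h ((e + e') / 2) (by linarith)).and (h' _ (by linarith)) (by linarith)

theorem Lo.fin {ι : Type*} [Fintype ι] {R : ι → ∀ n, X n → Prop} (h : ∀ j, Lo μ e (R j)) :
    Lo μ e fun n W => ∀ j, R j n W := fun e' he =>
  Lv.fin (fun j => h j ((e + e') / 2) (by linarith)) (by linarith)

end

theorem Lv.loP {e e' : ℝ} {P : ∀ n, Mx n → Prop} (h : Lv GOE e P) (he : e' ≤ e / 2) : Lo PW e' P :=
  fun _ h1 => h.toP (h1.trans_le he)

variable {n : ℕ}

/-- covariance bound and accuracy of the good TAP solutions at all times of `I` -/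
def Out (W : Mx n) (I : Set ℝ) (c r K M ρ δ : ℝ) : Prop := ∀ s ∈ I,
  (law sv (ising W 0) s).real {y | ¬ CovOK (ising W 0) K (ρ * √n) y} ≤ δ ∧
  (law sv (ising W 0) s).real {y | ¬ Acc1 W 1 c (r * √n) M y} ≤ δ

theorem meas_bad (c r : ℝ) : MeasurableSet {z : Mx n × V n | BadY 1 c r z.1 z.2} :=
  (TapFrz.measStmt n 1 c r 0 0).2.1

theorem stageW {c r : ℝ} (KU : ℝ) (hc : 0 < c) (hr : 0 < r) : ∃ K' > (0 : ℝ), ∃ h0 > (0 : ℝ),
    ∀ (n : ℕ) (W : Mx n) (ρ α M h δ D t M' : ℝ) (Γ : V n → ℝ) (N : ℕ), 0 < n → Wᵀ = W → opn W ≤ 3 →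
    UF W 1 c KU → 1 ≤ ρ * √n → 0 < ρ → 2 * ρ ≤ c * α → α ≤ r / 16 →
    Acc W 1 (2 * ρ * √n) (α * √n) M Γ → MG Γ → (∀ y, 0 ≤ Γ y) → 0 ≤ M → h ∈ Icc 0 h0 →
    Real.exp (-(n / 2)) ≤ δ → 0 ≤ t →
    (slE sv (ising W 0) (t + (N + 1) * h) fun _ y => Γ y) ≤ 4 * n * δ →
    (∀ j : ℕ, j ≤ N → (law sv (ising W 0) (t + j * h)).real {y | BadY 1 c (r * √n) W y} ≤ δ) →
    (N + 2) * (Real.exp K' * Real.exp (4 * ρ * n)) ^ (N + 1) * δ ≤ D →
    Real.exp K' ^ (N + 1) * (M + 2 * K' * (N + 1)) ≤ M' →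
    (∃ Γ' : V n → ℝ, MG Γ' ∧ (∀ y, 0 ≤ Γ' y) ∧ Acc W 1 (2 * ρ * √n) (α * √n) M' Γ' ∧
      (slE sv (ising W 0) t fun _ y => Γ' y) ≤ 4 * n * D) ∧
    Out W (Icc t (t + (N + 1) * h)) c r (KK K' M' c) (Real.exp K' * (M' + 1 + 2 * K')) ρ
      (2 * δ + Real.exp (4 * ρ * n) * (4 * n * D)) := by
  have hR0 : 0 < c * r / 8 := by positivity
  obtain ⟨K', hK', hW⟩ := win_of (winStmt exStmt) errStmt KU hc hR0
  refine ⟨K', hK', min 1 ((c * r / 8 / 10) ^ 2), lt_min one_pos (by positivity),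
    fun n W ρ α M h δ D t M' Γ N hn hS hop hU hρn hρ a1 a2 hA hΓ h0' hM hh hδ ht hend hlaw hD hM' => ?_⟩
  have hn' : (0 : ℝ) < n := by exact_mod_cast hn
  have hs : (0 : ℝ) < √n := Real.sqrt_pos.2 hn'
  have ee : 2 * (2 * ρ * √n) * √n = 4 * ρ * n := by
    rw [show 2 * (2 * ρ * √n) * √n = 4 * ρ * (√n * √n) by ring, Real.mul_self_sqrt hn'.le]
  have hW' := hW n W 1 (r / 2 * √n) hn hS ⟨zero_le_one, le_rfl⟩ hop hU
  rw [one_smul, one_pow] at hW'
  have b1 := mul_le_mul_of_nonneg_right a1 hs.le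
  have b2 := mul_le_mul_of_nonneg_right (mul_le_mul_of_nonneg_left a2 hc.le) hs.le
  have b3 := mul_le_mul_of_nonneg_right a2 hs.le
  have b4 := mul_pos hr hs
  have b5 := mul_pos hc b4
  have := stage lipCovStmt hn (exStmt n W 1 hS) hW' hA hΓ h0' hM hK'.le hc (by positivity)
    (by linarith) (by linarith) (by linarith) hR0 hh (measurable_prodMk_left (meas_bad c (r * √n)))
    (fun x hx => by_contra fun hg => hx ⟨x, by rw [one_smul, one_pow], fun h' => hg (by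
      rw [one_smul, one_pow] at h'; exact goodB_mono h' (by linarith))⟩) hδ ht N hend hlaw
    (D := D) (by rwa [ee]) hM' (ρ' := ρ * √n) (r' := r * √n) (by linarith) (by linarith)
  rw [ee] at this
  refine ⟨this.1, fun s hs => ⟨(this.2 s hs).1, (this.2 s hs).2.trans ?_⟩⟩
  linarith [Real.exp_pos (-((n : ℝ) / 2))]

/-- `KRStmt` for the joint planted law -/
theorem kr_JP {t0 : ℝ} (ht0 : 0 < t0) (T : ℝ) : ∃ c > (0 : ℝ), ∃ r > (0 : ℝ), ∀ s ∈ Icc t0 T,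
    ∃ κ > (0 : ℝ), Lv (JP s) κ fun n z => ¬ BadY 1 c (r * √n) z.1 z.2 := by
  obtain ⟨c, hc, r, hr, h⟩ := LpAll.krStmt 1 ⟨one_pos, le_rfl⟩ t0 ht0 T
  refine ⟨c, hc, r, hr, fun s hs => ?_⟩
  obtain ⟨c', hc', ε, hε, κ, hκ, h⟩ := h s hs
  have h1 : Lv (JP s) κ fun n z => ¬ (opn z.1 ≤ 3 ∧ DET z.1 1 c' ε ∧ BadY 1 c (r * √n) z.1 z.2) := by
    filter_upwards [h] with n hn
    simp only [not_not]
    refine (JP_gauge ((measurableSet_le (Nrm.measurable_opn'.comp measurable_fst) measurable_const).inter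
      (((TapFrz.measStmt n 1 c r c' ε).2.2.preimage measurable_fst).inter (meas_bad c _)))
      (B := {z | opn z.1 ≤ 3 ∧ DET z.1 1 c' ε ∧ BadY 1 c (r * √n) z.1 z.2})
      fun σ hσ z ⟨h1, h2, h3⟩ => ⟨?_, ?_, ?_⟩).trans (by rwa [neg_mul] at hn)
    · exact (TapPl.opn_cj hσ z.1).symm.trans_le h1
    · simpa only [TapPl.cj_cj hσ] using TapPl.DET_cj hσ h2
    · simpa only [TapPl.cj_cj hσ, hσ.mul_self] using TapPl.BadY_cj hσ h3
  have h2 := ((lv_opn.loP (e' := 1 / 128) (by norm_num)).and ((lv_det hc' hε).loP (by norm_num))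
    (1 / 200) (by norm_num)).fst s
  have h3 : 0 < min κ (1 / 200) := lt_min hκ (by norm_num)
  exact ⟨min κ (1 / 200) / 2, half_pos h3, ((h1.le (min_le_left _ _)).and (h2.le (min_le_right _ _))
    (half_lt_self h3)).imp fun n z hz hb => hz.1 ⟨hz.2.1, hz.2.2, hb⟩⟩

/-- **start of the induction** -/
def StartStmt : Prop := ∃ T0 γ : ℝ, 0 < γ ∧ ∀ T ≥ T0, ∀ t0 ∈ Ioc 0 T,
  ∃ κ0 > (0 : ℝ), ∃ c1 > (0 : ℝ), ∃ r1 > (0 : ℝ), ∃ K1 M1 : ℝ,
  ∀ WW : ∀ n, Mx n → Prop, (∀ n, MeasurableSet {W | WW n W}) → ∀ e ∈ Ioc 0 κ0, ∀ t2 ∈ Ioc 0 t0,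
  ∀ c > (0 : ℝ), ∀ r > (0 : ℝ),
    (∀ s ∈ Icc t2 t0, Lv (JP s) e fun n z => WW n z.1 → ¬ BadY 1 c (r * √n) z.1 z.2) →
    ∃ K M : ℝ, ∃ ρ > (0 : ℝ), Lv PW (e / 4) fun n W =>
      (law sv (ising W 0) T).real {y | ¬ Top.Poin (ising W y) γ} ≤ Real.exp (-(n / 2)) ∧
      Out W (Icc t0 (T + 1)) c1 r1 K1 M1 ρ (Real.exp (-(e / 8 * n))) ∧
      (WW n W → Out W (Icc t2 t0) c r K M ρ (Real.exp (-(e / 8 * n))))

theorem Out.le {W : Mx n} {I : Set ℝ} {c r K M ρ δ δ' : ℝ} (h : Out W I c r K M ρ δ) (e : δ ≤ δ') :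
    Out W I c r K M ρ δ' := fun s hs => ⟨(h s hs).1.trans e, (h s hs).2.trans e⟩

theorem num {N1 N2 : ℕ} {K1 K2 ρ e δ Λ D1 D2 : ℝ} (hK1 : 0 < K1) (hK2 : 0 < K2) (ρ0 : 0 < ρ) (e1 : e ≤ 1)
    (p4 : ρ * (16 * (N1 + N2 + 3)) ≤ e) (hδ : δ = Real.exp (-(e / 2 * n)))
    (hΛ : Λ = Real.exp (4 * ρ * n)) (hD1 : D1 = (N1 + 2) * (Real.exp K1 * Λ) ^ (N1 + 1) * δ)
    (hD2 : D2 = (N2 + 2) * (Real.exp K2 * Λ) ^ (N2 + 1) * D1)
    (n1 : (4 * ((N1 + 2) * Real.exp K1 ^ (N1 + 1) * ((N2 + 2) * Real.exp K2 ^ (N2 + 1))) * n +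
      4 * ((N1 + 2) * Real.exp K1 ^ (N1 + 1) * ((N2 + 2) * Real.exp K2 ^ (N2 + 1)))) *
        Real.exp (-(e / 4 * n)) ≤ Real.exp (-(e / 8 * n))) :
    Real.exp (-((n : ℝ) / 2)) ≤ δ ∧ δ ≤ D1 ∧ 2 * δ + Λ * (4 * n * D1) ≤ Real.exp (-(e / 8 * n)) ∧
      2 * D1 + Λ * (4 * n * D2) ≤ Real.exp (-(e / 8 * n)) := by
  have hn' : (0 : ℝ) ≤ n := n.cast_nonneg
  set A := (N1 + 2) * Real.exp K1 ^ (N1 + 1) * ((N2 + 2) * Real.exp K2 ^ (N2 + 1)) with hA
  have δ0 : 0 < δ := hδ ▸ Real.exp_pos _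
  have Λ1 : 1 ≤ Λ := hΛ ▸ Real.one_le_exp (by positivity)
  have big : ∀ (N : ℕ) {k : ℝ}, 0 < k → 1 ≤ (N + 2) * (Real.exp k * Λ) ^ (N + 1) := fun N _ hk =>
    one_le_mul_of_one_le_of_one_le (by linarith [N.cast_nonneg (α := ℝ)])
      (one_le_pow₀ (one_le_mul_of_one_le_of_one_le (Real.one_le_exp hk.le) Λ1))
  have d1 : δ ≤ D1 := hD1 ▸ le_mul_of_one_le_left δ0.le (big N1 hK1)
  have d2 : D1 ≤ D2 := hD2 ▸ le_mul_of_one_le_left (δ0.le.trans d1) (big N2 hK2)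
  have d3 : Λ * D2 ≤ A * Real.exp (-(e / 4 * n)) := by
    have : Λ * D2 = A * (Λ ^ (N1 + N2 + 3) * δ) := by rw [hD2, hD1, hA]; ring
    rw [this, hΛ, hδ, ← Real.exp_nat_mul, ← Real.exp_add]
    refine mul_le_mul_of_nonneg_left (Real.exp_le_exp.2 ?_) (by positivity)
    push_cast
    linarith [mul_le_mul_of_nonneg_right p4 hn']
  have d4 : 2 * D1 + Λ * (4 * n * D2) ≤ Real.exp (-(e / 8 * n)) := by
    have := le_mul_of_one_le_left (δ0.le.trans (d1.trans d2)) Λ1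
    have h5 : 0 ≤ A * Real.exp (-(e / 4 * n)) := by positivity
    linarith [mul_le_mul_of_nonneg_left d3 hn']
  refine ⟨hδ ▸ Real.exp_le_exp.2 (by linarith [mul_le_mul_of_nonneg_right e1 hn']), d1,
    le_trans ?_ d4, d4⟩
  gcongr

theorem poin_tail {W : Mx n} (hS : Wᵀ = W) (hop : opn W ≤ 3) {M η T : ℝ} (M0 : 0 ≤ M) (hη : 0 < η)
    (s2 : 16 / η ^ 2 ≤ T) (s3 : 48 / η ≤ T) (s4 : 1 ≤ T)
    (n2 : (Real.exp (6 * M + 2) * 288 * n + Real.exp (6 * M + 2) * 288) * Real.exp (-(1 / 2 * n)) ≤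
      Real.exp (-(0 * n)))
    (hF : ∀ θ ∈ Icc (0 : ℝ) 1, ∀ (σ : Cube n) (y : V n), nrm (y - T • sv σ) ≤ η * T * √n →
      ∀ u : V n, u ⬝ᵥ covM (ising (θ • W) y) *ᵥ u ≤ M * (u ⬝ᵥ u)) :
    (law sv (ising W 0) T).real {y | ¬ Top.Poin (ising W y) (6 * Real.exp (6 * M + 2))} ≤
      Real.exp (-(n / 2)) := by
  have hs : (0 : ℝ) ≤ √n := Real.sqrt_nonneg _
  have T0' : 0 < T := by linarith
  have q0 : 0 < √T := Real.sqrt_pos.2 T0'
  have mA : MeasurableSet {y : V n | ∀ σ : Cube n, √T * (2 * √n) ≤ nrm (y - T • sv σ)} := by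
    simp only [ofPred_forall]
    exact .iInter fun σ => measurableSet_le measurable_const
      (continuous_nrm.comp (by fun_prop)).measurable
  have := isProb_law (φ := sv) (s := T) (wt_ising W 0)
  refine le_trans (measureReal_mono fun y hy => ?_)
    (law_tail (wt_ising W 0) T mA fun σ g hg hc' => ?_)
  · refine fun σ => not_lt.1 fun hσ => (show ¬ _ from hy) ?_
    refine poin_of_fro hS hop M0 (fun t ht z hz => hF (1 - t) ⟨by linarith [ht.2],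
      by linarith [ht.1]⟩ σ z ?_) ?_
    · have q1 := nrm_add_le (z - y) (y - T • sv σ)
      rw [sub_add_sub_cancel] at q1
      have q2 : 4 / η ≤ √T := Real.le_sqrt_of_sq_le (by rw [div_pow]; linarith)
      rw [div_le_iff₀ hη] at q2 s3
      have q3 := Real.mul_self_sqrt T0'.le
      have q4 : 24 + √T * 2 ≤ η * T := by nlinarith
      linarith [mul_le_mul_of_nonneg_right q4 hs]
    · rw [zero_mul, neg_zero, Real.exp_zero, one_div_mul_eq_div] at n2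
      linarith [mul_pos (Real.exp_pos (6 * M + 2)) (Real.exp_pos (-((n : ℝ) / 2)))]
  · have := hc' σ
    rw [add_sub_cancel_left, nrm_smul, abs_of_pos q0] at this
    exact absurd (mul_lt_mul_of_pos_left hg q0) (not_lt.2 this)

theorem startStmt : StartStmt := by
  obtain ⟨εF, hεF, wF⟩ := lv_frz
  obtain ⟨KF, wUF⟩ := lv_uf one_half_pos
  obtain ⟨η, hη, T0, MF, hF⟩ := LpAll.frozStmt εF hεF KF
  have M0 : 0 ≤ max MF 0 := le_max_right _ _
  refine ⟨max (max T0 (16 / η ^ 2)) (max (48 / η) 1), 6 * Real.exp (6 * max MF 0 + 2), by positivity,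
    fun T hT t0 ht0 => ?_⟩
  obtain ⟨⟨s1, s2⟩, s3, s4⟩ : (T0 ≤ T ∧ 16 / η ^ 2 ≤ T) ∧ 48 / η ≤ T ∧ 1 ≤ T := by
    simpa only [ge_iff_le, max_le_iff] using hT
  obtain ⟨c1, hc1, r1, hr1, hK⟩ := kr_JP ht0.1 (T + 1)
  obtain ⟨KU1, wU1⟩ := lv_uf hc1
  obtain ⟨K1, hK1, h1, h10, S1⟩ := stageW KU1 hc1 hr1
  obtain ⟨N1, g1, hg1, e1⟩ := exists_mesh (l := T + 1 - t0) (by linarith [ht0.2]) h10
  have mem : ∀ {t u g : ℝ} {N : ℕ}, 0 ≤ g → (N + 1) * g = u - t → ∀ j : Fin (N + 1),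
      t + j * g ∈ Icc t u := fun hg e j => ⟨le_add_of_nonneg_right (by positivity), by
    have : ((j : ℕ) : ℝ) ≤ _ := Nat.cast_le.2 j.2.le
    push_cast at this
    linarith [mul_le_mul_of_nonneg_right this hg]⟩
  choose κf hκf wG using fun j => hK _ (mem hg1.1 e1 j)
  obtain ⟨κ, hκ, -, hκj⟩ := exists_min κf hκf
  set M1 := Real.exp K1 ^ (N1 + 1) * (max MF 0 + 2 * K1 * (N1 + 1)) with hM1
  refine ⟨min κ (1 / 8192), lt_min hκ (by norm_num), c1, hc1, r1, hr1, KK K1 M1 c1,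
    Real.exp K1 * (M1 + 1 + 2 * K1), fun WW mW e he t2 ht2 c hc r hr hAG => ?_⟩
  obtain ⟨k1, k2⟩ := le_min_iff.1 he.2
  have e0 := he.1
  obtain ⟨KU2, wU2⟩ := lv_uf hc
  obtain ⟨K2, hK2, h2, h20, S2⟩ := stageW KU2 hc hr
  obtain ⟨N2, g2, hg2, e2⟩ := exists_mesh (l := t0 - t2) (by linarith [ht2.2]) h20
  set α := min r1 r / 16 with hα
  have α0 : 0 < α := by have := lt_min hr1 hr; positivity
  set ρ := min (min (c1 * α / 2) (c * α / 2)) (min (η / 4) (e / (16 * (N1 + N2 + 3)))) with hρ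
  have ρ0 : 0 < ρ := by positivity
  obtain ⟨⟨p1, p2⟩, p3, p4⟩ : (ρ ≤ c1 * α / 2 ∧ ρ ≤ c * α / 2) ∧ ρ ≤ η / 4 ∧
      ρ ≤ e / (16 * (N1 + N2 + 3)) := by simpa only [le_min_iff] using hρ.le
  rw [le_div_iff₀ (by positivity)] at p4
  set M2 := Real.exp K2 ^ (N2 + 1) * (M1 + 2 * K2 * (N2 + 1)) with hM2
  refine ⟨KK K2 M2 c, Real.exp K2 * (M2 + 1 + 2 * K2), ρ, ρ0, ?_⟩
  have v1 := fun j => ((wG j).markov (fun n => by simpa only [not_not] using meas_bad c1 _) (e / 2)).lo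
    (e' := e / 2) (by linarith [hκj j])
  have v2 := fun j => ((hAG _ (mem hg2.1 e2 j)).markov (fun n => by
    simp only [Classical.not_imp, not_not]; exact (measurable_fst (mW n)).inter (meas_bad c _))
      (e / 2)).lo (e' := e / 2) (by linarith)
  refine (((((lv_symm 1).loP (e' := e / 2) (by linarith)).and (lv_opn.loP (by linarith))).and
    ((wF.loP (by linarith)).and (wUF.loP (by linarith)))).and (((wU1.loP (by linarith)).and
      (wU2.loP (by linarith))).and ((Lo.fin v1).and (Lo.fin v2))) (e / 4) (by linarith)).mono ?_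
  filter_upwards [ev_sqrt ρ0, ev_poly (4 * ((N1 + 2) * Real.exp K1 ^ (N1 + 1) *
    ((N2 + 2) * Real.exp K2 ^ (N2 + 1)))) (show e / 8 < e / 4 by linarith),
    ev_poly (Real.exp (6 * max MF 0 + 2) * 288) (show (0 : ℝ) < 1 / 2 by norm_num)] with n ⟨hn, hρn⟩ n1 n2 W
    ⟨⟨⟨hS, hop⟩, hFz, hU0⟩, ⟨hU1, hU2⟩, hB1, hB2⟩
  have hn' : (0 : ℝ) < n := by exact_mod_cast hn
  have hs : (0 : ℝ) < √n := Real.sqrt_pos.2 hn'
  have hβ : (1 : ℝ) ∈ Icc (0 : ℝ) 1 := ⟨zero_le_one, le_rfl⟩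
  have hF' := hF n W 1 hn hS hβ hop hFz hU0
  set δ := Real.exp (-(e / 2 * n)) with hδ
  set Λ := Real.exp (4 * ρ * n) with hΛ
  set D1 := (N1 + 2) * (Real.exp K1 * Λ) ^ (N1 + 1) * δ with hD1
  set D2 := (N2 + 2) * (Real.exp K2 * Λ) ^ (N2 + 1) * D1 with hD2
  obtain ⟨d0, d1, d3, d4⟩ := num hK1 hK2 ρ0 (by linarith) p4 hδ hΛ hD1 hD2 n1
  obtain ⟨Γe, m1, m2, m3, m4⟩ := acc_end (J := W) (b := 1) (T := T + 1) (η := η) (M := max MF 0)
    (ρ := 2 * ρ * √n) (α * √n) hn hη (by linarith) (by linarith)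
    (by linarith [mul_le_mul_of_nonneg_right p3 hs.le]) M0 fun σ y hy x hx => by
      have := (hF' _ (by linarith : T0 ≤ T + 1) 1 hβ σ y hy).1 x (by rwa [one_smul, one_pow])
      rw [one_smul] at this
      exact this.trans (le_max_left _ _)
  have f1 : t0 + (N1 + 1) * g1 = T + 1 := by linarith
  have f2 : t2 + (N2 + 1) * g2 = t0 := by linarith
  obtain ⟨⟨Γ1, o1, o2, o3, o4⟩, O1⟩ := S1 n W ρ α _ g1 δ D1 t0 M1 Γe N1 hn hS hop hU1 hρn ρ0 (by linarith)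
    (div_le_div_of_nonneg_right (min_le_left _ _) (by norm_num)) m3 m1 m2 M0 hg1 d0 ht0.1.le
    (by rw [f1]; exact m4.trans (by gcongr))
    (fun j hj => by simpa only [not_not] using hB1 ⟨j, Nat.lt_succ_of_le hj⟩) le_rfl le_rfl
  rw [f1] at O1
  refine ⟨?_, O1.le d3, fun hW => ?_⟩
  · exact poin_tail hS hop M0 hη s2 s3 s4 n2 fun θ hθ σ y hy u =>
      ((hF' T s1 θ hθ σ y hy).2 u).trans (mul_le_mul_of_nonneg_right (le_max_left _ _)
        (Cond.dot_self_nonneg u))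
  · have O2 := (S2 n W ρ α M1 g2 D1 D2 t2 M2 Γ1 N2 hn hS hop hU2 hρn ρ0 (by linarith)
      (div_le_div_of_nonneg_right (min_le_right _ _) (by norm_num)) o3 o1 o2 (by positivity) hg2
      (d0.trans d1) ht2.1.le (by rwa [f2]) (fun j hj => le_trans (by
        simpa only [hW, true_implies, not_not] using hB2 ⟨j, Nat.lt_succ_of_le hj⟩) d1) le_rfl le_rfl).2
    rw [f2] at O2
    exact O2.le d4

/-- uniform-in-time joint form of a two-level statement -/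
theorem JP_unif {e e' : ℝ} {I : Set ℝ} {WW : ∀ n, Mx n → Prop} (mW : ∀ n, MeasurableSet {W | WW n W})
    {Q : ∀ n, Mx n × V n → Prop} (mQ : ∀ n, MeasurableSet {z | ¬ Q n z})
    (h : Lv PW e fun n W => WW n W → ∀ s ∈ I,
      (law sv (ising W 0) s).real {y | ¬ Q n (W, y)} ≤ Real.exp (-(e * n))) (he : e' < e) :
    ∀ᶠ n : ℕ in atTop, ∀ s ∈ I,
      JP s n {z | WW n z.1 ∧ ¬ Q n z} ≤ ENNReal.ofReal (Real.exp (-(e' * n))) := by
  filter_upwards [h, ev_const 2 he] with n h1 h2 s hs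
  refine (JP_two ((measurable_fst (mW n)).inter (mQ n)) (Real.exp (-(e * n)))).trans
    ((add_le_add (le_trans (measure_mono fun W hW => ?_) h1) le_rfl).trans ?_)
  · refine fun hp => (show ¬ _ from hW) ?_
    by_cases hw : WW n W
    · simpa [hw] using hp hw s hs
    · simpa [hw] using (Real.exp_pos _).le
  · rw [← ENNReal.ofReal_add (Real.exp_pos _).le (Real.exp_pos _).le, ← two_mul]
    exact ENNReal.ofReal_le_ofReal h2

end Crest.Agent.T157.Ks.St0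
end
end

-- ▼ part T157/O0S_5

/-!
# Row 157, block A2 (helper5): the start `O0.Start`
-/

set_option autoImplicit false

noncomputable section

namespace Crest.Agent.T157.O0.S5

open MeasureTheory Matrix Filter Topology Set
open Crest.Agent.T157.E Crest.Agent.T157.SL Crest.Agent.T157.Ks Crest.Agent.T157.Eig
open Crest.Agent.T157.Tap Crest.Agent.T157.Tap.Cov15 Crest.Agent.T157.Ks.St0
open Crest.Agent.T157.Oa (fld Az fld_ising)

/-- level `e`, uniformly in the time `s ∈ I` -/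
def Lu (I : Set ℝ) (e : ℝ) (Q : ℝ → ∀ n, Mx n × V n → Prop) : Prop :=
  ∀ᶠ n : ℕ in atTop, ∀ s ∈ I, JP s n {z | ¬ Q s n z} ≤ ENNReal.ofReal (Real.exp (-(e * n)))

section
variable {I I' : Set ℝ} {e e' a b b' : ℝ} {P Q : ℝ → ∀ n, Mx n × V n → Prop}

theorem Lu.imp (h : Lu I e P) (hI : I' ⊆ I) (he : e' ≤ e)
    (hPQ : ∀ s ∈ I', ∀ n z, P s n z → Q s n z) : Lu I' e' Q :=
  Filter.Eventually.mono h fun n hn s hs => le_trans (measure_mono fun z (hz : ¬ Q s n z) hp =>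
    hz (hPQ s hs n z hp)) ((hn s (hI hs)).trans (ENNReal.ofReal_le_ofReal (exp_anti he n)))

theorem Lu.and (h : Lu I e P) (h' : Lu I e Q) (he : e' < e) :
    Lu I e' fun s n z => P s n z ∧ Q s n z := by
  filter_upwards [h, h', ev_const 2 he] with n h1 h2 h3 s hs
  refine le_trans (measure_mono (t := {z | ¬ P s n z} ∪ {z | ¬ Q s n z}) fun z hz =>
    not_and_or.1 hz) ((measure_union_le _ _).trans ((add_le_add (h1 s hs) (h2 s hs)).trans ?_))
  rw [← ENNReal.ofReal_add (Real.exp_pos _).le (Real.exp_pos _).le, ← two_mul]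
  exact ENNReal.ofReal_le_ofReal h3

theorem Lu.ext (h : Lu (Icc a b) e P) (b' : ℝ) :
    Lu (Icc a b') e fun s n z => s ≤ b → P s n z :=
  Filter.Eventually.mono h fun n hn s hs => by
    by_cases hb : s ≤ b
    · simpa only [hb, true_implies] using hn s ⟨hs.1, hb⟩
    · simp [hb]

theorem Lu.lv (h : Lu I e P) {s : ℝ} (hs : s ∈ I) : Lv (JP s) e (P s) :=
  Filter.Eventually.mono h fun _ hn => hn s hs

theorem lu_of {WW : ∀ n, Mx n → Prop} (mW : ∀ n, MeasurableSet {W | WW n W})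
    {Q : ∀ n, Mx n × V n → Prop} (mQ : ∀ n, MeasurableSet {z | ¬ Q n z})
    (h : Lv PW e fun n W => WW n W → ∀ s ∈ I,
      (law sv (ising W 0) s).real {y | ¬ Q n (W, y)} ≤ Real.exp (-(e * n))) (he : e' < e) :
    Lu I e' fun _ n z => WW n z.1 → Q n z := by
  simpa only [Lu, Classical.not_imp] using JP_unif mW mQ h he

end

variable {n : ℕ}

theorem meas_poin (γ : ℝ) : MeasurableSet {z : Mx n × V n | ¬ Top.Poin (ising z.1 z.2) γ} := by
  refine (IsClosed.measurableSet (s := {z : Mx n × V n | Top.Poin (ising z.1 z.2) γ}) ?_).compl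
  simp only [Top.Poin, ofPred_forall]
  have h1 : ∀ σ, Continuous fun z : Mx n × V n => ising z.1 z.2 σ := fun σ => by
    unfold ising; fun_prop
  have h2 : ∀ σ, Continuous fun z : Mx n × V n => prob (ising z.1 z.2) σ := fun σ =>
    (h1 σ).div (continuous_finsetSum _ fun τ _ => h1 τ) fun z => (wt_ising z.1 z.2).pos.ne'
  refine isClosed_iInter fun f => isClosed_le ?_ (continuous_const.mul ?_)
  · have h3 : Continuous fun z : Mx n × V n => mean (ising z.1 z.2) f :=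
      cont_mean continuous_fst continuous_snd fun _ => continuous_const
    exact continuous_finsetSum _ fun σ _ => (h2 σ).mul ((continuous_const.sub h3).pow 2)
  · have h3 : ∀ i σ, Continuous fun z : Mx n × V n => siteM (ising z.1 z.2) f i σ := fun i σ =>
      (((h1 _).mul continuous_const).add ((h1 _).mul continuous_const)).div ((h1 _).add (h1 _))
        fun z => (add_pos (ising_pos _ _ _) (ising_pos _ _ _)).ne'
    exact continuous_finsetSum _ fun i _ => continuous_finsetSum _ fun σ _ =>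
      (h2 σ).mul ((continuous_const.sub (h3 i σ)).pow 2)

theorem poin_mono {w : Cube n → ℝ} (hw : Wt w) {γ γ' : ℝ} (h : Top.Poin w γ) (e : γ ≤ γ') :
    Top.Poin w γ' := fun f => (h f).trans (mul_le_mul_of_nonneg_right e (Finset.sum_nonneg fun _ _ =>
  Finset.sum_nonneg fun x _ => mul_nonneg (hw.prob_nonneg x) (sq_nonneg _)))

theorem acc_mono {W : Mx n} {v : Cube n → ℝ} {M M' : ℝ} (h : Acc M W v) (e : M ≤ M') : Acc M' W v :=
  fun x hx => (h x hx).trans e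

theorem acc_of {W : Mx n} {y : V n} {c r M : ℝ} (h : Acc1 W 1 c r M y) (hb : ¬ BadY 1 c r W y) :
    Acc M W (ising W y) := fun x hx => by
  rw [fld_ising] at hx
  rw [← nrm_sq]
  refine h.good hx (by_contra fun hg => hb ⟨x, by rwa [one_smul, one_pow], by rwa [one_smul, one_pow]⟩)

theorem cb_of {W : Mx n} {y : V n} {K ρ : ℝ} (h : CovOK (ising W 0) K ρ y) (hρ : 0 ≤ ρ) :
    CB (ising W y) sv K := by
  have := h 0 (by rwa [nrm_zero])
  rwa [add_zero, tilt0] at this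

theorem cov_le {W : Mx n} {K K' ρ s : ℝ} (h : K ≤ K') :
    (law sv (ising W 0) s).real {y | ¬ CovOK (ising W 0) K' ρ y} ≤
      (law sv (ising W 0) s).real {y | ¬ CovOK (ising W 0) K ρ y} := by
  have := isProb_law (φ := sv) (s := s) (wt_ising W 0)
  exact measureReal_mono fun y hy hp => hy (CovOK.mono hp h)

/-- `startStmt` in joint words, for all TAP solutions -/
theorem core : ∃ T0 : ℝ, ∀ T ≥ T0, ∀ t0 ∈ Ioc 0 T, ∃ κ0 > (0 : ℝ),
    ∀ WW : ∀ n, Mx n → Prop, (∀ n, MeasurableSet {W | WW n W}) → ∀ e ∈ Ioc 0 κ0, ∀ t2 ∈ Ioc 0 t0,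
    ∀ c > (0 : ℝ), ∀ r > (0 : ℝ),
    (Lu (Icc t2 t0) e fun _ n z => WW n z.1 → ¬ BadY 1 c (r * √n) z.1 z.2) → ∃ K : ℝ,
      (Lu (Icc t2 (T + 1)) (e / 16) fun s n z => WW n z.1 →
        CB (ising z.1 z.2) sv K ∧ (s ≤ t0 → Acc K z.1 (ising z.1 z.2))) ∧
      Lu {T} (e / 16) fun _ _ z => Top.Poin (ising z.1 z.2) K := by
  obtain ⟨T0, γ, -, h⟩ := startStmt
  refine ⟨T0, fun T hT t0 ht0 => ?_⟩
  obtain ⟨κ0, hκ, c1, -, r1, -, K1, M1, h⟩ := h T hT t0 ht0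
  refine ⟨min κ0 1, lt_min hκ one_pos, fun WW mW e he t2 ht2 c hc r hr hB => ?_⟩
  obtain ⟨k1, k2⟩ := le_min_iff.1 he.2
  have e0 := he.1
  obtain ⟨K, M, ρ, ρ0, H⟩ := h WW mW e ⟨e0, k1⟩ t2 ht2 c hc r hr fun s hs => hB.lv hs
  replace H := H.le (show e / 8 ≤ e / 4 by linarith)
  have a1 := lu_of (I := Icc t2 (T + 1)) mW (fun n => meas_cov (max K1 K) (ρ * √n))
    (H.imp fun n W hW hw s hs => by
      rcases le_total s t0 with h1 | h1
      · exact (cov_le (le_max_right _ _)).trans (hW.2.2 hw s ⟨hs.1, h1⟩).1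
      · exact (cov_le (le_max_left _ _)).trans (hW.2.1 s ⟨h1, hs.2⟩).1)
    (show e / 10 < e / 8 by linarith)
  have a2 := lu_of (I := Icc t2 t0) mW (fun n => meas_acc 1 c (r * √n) M)
    (H.imp fun n W hW hw s hs => (hW.2.2 hw s hs).2) (show e / 10 < e / 8 by linarith)
  have a3 := lu_of (I := {T}) (WW := fun _ _ => True) (fun _ => .univ) (fun _ => meas_poin γ)
    (H.imp fun n W hW _ s hs => by
      rw [hs]
      exact hW.1.trans (Real.exp_le_exp.2 (by nlinarith [Nat.cast_nonneg (α := ℝ) n])))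
    (show e / 16 < e / 8 by linarith)
  refine ⟨max (max K1 K) (max M γ), ((a1.imp subset_rfl (show e / 12 ≤ _ by linarith)
    fun _ _ _ _ h => h).and ((a2.and (hB.imp subset_rfl (by linarith) fun _ _ _ _ h => h)
      (show e / 12 < _ by linarith)).ext (T + 1)) (show e / 16 < _ by linarith)).imp subset_rfl le_rfl
    fun s _ n z hz hw => ⟨(cb_of (hz.1 hw) (by positivity)).mono (le_max_left _ _), fun hs =>
      acc_mono (acc_of ((hz.2 hs).1 hw) ((hz.2 hs).2 hw)) (le_max_of_le_right (le_max_left _ _))⟩,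
    a3.imp subset_rfl le_rfl fun _ _ _ _ h => poin_mono (wt_ising _ _) (h trivial)
      (le_max_of_le_right (le_max_right _ _))⟩

/-- the residual -/
def Res (K : ℝ) (W : Mx n) (v : Cube n → ℝ) : Prop :=
  (Az 2 W *ᵥ meanV v sv - fld v) ⬝ᵥ (Az 2 W *ᵥ meanV v sv - fld v) ≤ K * n

theorem lu_res {T : ℝ} (hT : 1 ≤ T) :
    Lu (Icc 0 T) (1 / 64) fun _ _ z => Res ((5 + 3 * T) ^ 2) z.1 (ising z.1 z.2) := by
  have mQ : ∀ n, MeasurableSet {z : Mx n × V n | ¬ Res ((5 + 3 * T) ^ 2) z.1 (ising z.1 z.2)} :=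
    fun n => by
      simp only [Res, fld_ising]
      refine (IsClosed.measurableSet ?_).compl
      have : Continuous fun z : Mx n × V n => Az 2 z.1 *ᵥ meanV (ising z.1 z.2) sv - z.2 :=
        ((continuous_const.sub continuous_fst).matrix_mulVec
          (cont_mag continuous_fst continuous_snd)).sub continuous_snd
      exact isClosed_le (this.dotProduct this) continuous_const
  refine (lu_of (WW := fun _ _ => True) (fun _ => .univ) mQ ((lv_opn.toP (e' := 1 / 32)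
    (by norm_num)).imp fun n W hW _ s hs => ?_) (by norm_num)).imp subset_rfl le_rfl
      fun _ _ _ _ h => h trivial
  refine (law_tail (wt_ising W 0) s (measurable_prodMk_left (mQ n)) fun σ g hg hc => hc ?_).trans
    (Real.exp_le_exp.2 (by linarith [Nat.cast_nonneg (α := ℝ) n]))
  simp only [Res, fld_ising]
  set y := s • sv σ + √s • g
  set m := meanV (ising W y) sv
  have q0 := Real.sqrt_nonneg (n : ℝ)
  have qn := Real.sq_sqrt (Nat.cast_nonneg (α := ℝ) n)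
  have h1 : nrm m ≤ √n := Real.sqrt_le_sqrt (by
    simpa only [dotProduct, sq] using Ks.bd_sv.meanV_le (wt_ising W y))
  have h2 : nrm y ≤ 3 * T * √n := by
    have a1 := nrm_add_le (s • sv σ) (√s • g)
    rw [nrm_smul, nrm_smul, abs_of_nonneg hs.1, abs_of_nonneg (Real.sqrt_nonneg s),
      show nrm (sv σ) = √n by rw [nrm, sv_dot_self]] at a1
    have a2 : √s ≤ T := Real.sqrt_le_iff.2 ⟨by linarith, by nlinarith [hs.2]⟩
    have a3 := mul_le_mul a2 hg.le (nrm_nonneg g) (by linarith)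
    nlinarith [mul_le_mul_of_nonneg_right hs.2 q0]
  have h3 : nrm (Az 2 W *ᵥ m - y) ≤ (5 + 3 * T) * √n := by
    have a1 := nrm_sub_le (Az 2 W *ᵥ m) y
    have a2 := nrm_sub_le ((2 : ℝ) • m) (W *ᵥ m)
    have a3 := (nrm_mulVec_le W m).trans (mul_le_mul hW h1 (nrm_nonneg m) (by norm_num))
    rw [nrm_smul, abs_two] at a2
    rw [sub_mulVec, smul_mulVec, one_mulVec] at a1 ⊢
    linarith
  rw [← nrm_sq, ← qn, ← mul_pow]
  exact pow_le_pow_left₀ (nrm_nonneg _) h3 2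

/-- the bridge from `Cw.WW` to `Qe.WS` -/
def WsBr : Prop := ∃ C0 ≥ (0 : ℝ), ∀ (n : ℕ) (κ e t ε q E : ℝ), 0 < e → e ≤ 1 → 0 < t → 0 < ε →
  0 < q → ε ^ 2 * q ≤ 1 / 4 → 8 * e * t ≤ ε ^ 4 * q ^ 2 → (n : ℝ) ^ κ * √(n * t) ≤ E →
  Qe.WS ε q E C0 {W : Mx n | Cw.WW t e κ W}

theorem ev_rp {κ a τ : ℝ} (hκ : κ < 1 / 2) (ha : 0 < a) (hτ : 0 < τ) :
    ∀ᶠ n : ℕ in atTop, (n : ℝ) ^ κ * √(n * τ) ≤ a * n * τ := by
  have s0 := Real.sqrt_pos.2 hτ
  filter_upwards [((tendsto_rpow_neg_atTop (sub_pos.2 hκ)).comp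
    tendsto_natCast_atTop_atTop).eventually_le_const (mul_pos ha s0), eventually_gt_atTop 0] with n h hn
  have n0 : (0 : ℝ) < n := by exact_mod_cast hn
  have e : (n : ℝ) ^ κ * √n = (n : ℝ) ^ (-(1 / 2 - κ)) * n := by
    rw [Real.sqrt_eq_rpow, ← Real.rpow_add n0, ← Real.rpow_add_one n0.ne']; congr 1; ring
  rw [Real.sqrt_mul n0.le, ← mul_assoc, e]
  calc _ ≤ a * √τ * n * √τ := by gcongr; exact h
    _ = a * n * (√τ * √τ) := by ring
    _ = _ := by rw [Real.mul_self_sqrt hτ.le]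

/-- all TAP solutions are good, joint form -/
theorem bad (hG : Kb.GoodU) (hB : WsBr) {L : ℝ} (hL : 0 < L) : ∃ e0 > (0 : ℝ), ∃ t1 > (0 : ℝ),
    ∀ e ∈ Ioc 0 e0, ∀ κ < (1 / 2 : ℝ), ∀ τ > (0 : ℝ), (∀ n, MeasurableSet {W : Mx n | Cw.WW τ e κ W}) →
    ∃ c > (0 : ℝ), ∃ r > (0 : ℝ), Lu (Icc τ t1) (L * (τ * √τ)) fun _ n z =>
      Cw.WW τ e κ z.1 → ¬ BadY 1 c (r * √n) z.1 z.2 := by
  obtain ⟨C0, hC, hB⟩ := hB
  obtain ⟨K, hK, ε, hε, e', he', t1, ht1, h⟩ := hG L hL C0 hC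
  have K0 : 0 < K := by linarith
  refine ⟨min 1 (ε ^ 4 / (8 * K)), by positivity, min t1 (1 / (16 * K * ε ^ 4)), by positivity,
    fun e he κ hκ τ hτ mW => ?_⟩
  obtain ⟨c, hc, r, hr, h⟩ := h τ hτ
  obtain ⟨k1, k2⟩ := le_min_iff.1 he.2
  rw [le_div_iff₀ (by positivity)] at k2
  refine ⟨c, hc, r, hr, ?_⟩
  filter_upwards [h, ev_rp hκ he' hτ] with n hn h1 s hs
  obtain ⟨s1, s2⟩ := le_min_iff.1 hs.2
  rw [le_div_iff₀ (by positivity)] at s2
  have s0 : 0 < s := hτ.trans_le hs.1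
  have ws : ∀ q > (0 : ℝ), s ≤ K * q ^ 2 → q ^ 2 ≤ K * s →
      Qe.WS ε q (e' * n * s) C0 {W : Mx n | Cw.WW τ e κ W} := fun q hq a1 a2 =>
    hB n κ e τ ε q _ he.1 k1 hτ hε hq (abs_le_of_sq_le_sq' (by
      nlinarith [mul_le_mul_of_nonneg_left a2 (pow_pos hε 4).le]) (by norm_num)).2
      (by nlinarith [mul_le_mul_of_nonneg_left (hs.1.trans a1) he.1.le,
        mul_le_mul_of_nonneg_right k2 (sq_nonneg q)])
      (h1.trans (mul_le_mul_of_nonneg_left hs.1 (by positivity)))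
  have inv := (ws (√s) (Real.sqrt_pos.2 s0) (by rw [Real.sq_sqrt s0.le]; nlinarith)
    (by rw [Real.sq_sqrt s0.le]; nlinarith)).inv
  simp only [Classical.not_imp, not_not]
  refine (JP_gauge ((measurable_fst (mW n)).inter (meas_bad c _))
    (B := {z | z.1 ∈ {W : Mx n | Cw.WW τ e κ W} ∧ BadY 1 c (r * √n) z.1 z.2})
    fun σ hσ z ⟨b1, b2⟩ => ⟨?_, ?_⟩).trans ((hn s ⟨hs.1, s1⟩ _ ws).trans
      (ENNReal.ofReal_le_ofReal (Real.exp_le_exp.2 (neg_le_neg ?_))))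
  all_goals first
    | (rw [mul_right_comm]; have := hs.1; gcongr)
    | simpa only [TapPl.cj_cj hσ, hσ.mul_self] using TapPl.BadY_cj hσ b2
    | (have := inv (Matrix.diagonal σ) _ (by rw [diagonal_transpose, TapPl.diag_mul_self hσ]) b1
       rwa [diagonal_transpose, ← TapPl.cj, TapPl.cj_cj hσ] at this)

theorem t2_spec {x : ℝ} (hx : 0 < x) : x ^ (2 / 3 : ℝ) * √(x ^ (2 / 3 : ℝ)) = x := by
  rw [Real.sqrt_eq_rpow, ← Real.rpow_mul hx.le, ← Real.rpow_add hx]; norm_num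

theorem le_of_cube {a b : ℝ} (hb : 0 < b) (h : a * √a ≤ b * √b) : a ≤ b := not_lt.1 fun h' =>
  absurd h (not_le.2 (mul_lt_mul h' (Real.sqrt_le_sqrt h'.le) (Real.sqrt_pos.2 hb) (hb.trans h').le))

theorem Lu.lev {I : Set ℝ} {e : ℝ} {Q : ℝ → ∀ n, Mx n × V n → Prop} {WW : ∀ n, Mx n → Prop}
    (h : Lu I e fun s n z => WW n z.1 → Q s n z) : ∀ᶠ n : ℕ in atTop, ∀ s ∈ I,
      JP s n {z | WW n z.1 ∧ ¬ Q s n z} ≤ ENNReal.ofReal (Real.exp (-(e * n))) := by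
  simpa only [Lu, Classical.not_imp] using h

/-- **the start** -/
theorem start (hG : Kb.GoodU) (hW : WStmt) (hB : WsBr) : Start := by
  obtain ⟨T0, hc⟩ := core
  refine ev_iff.2 ?_
  filter_upwards [eventually_gt_atTop 0] with L hL
  obtain ⟨e0, he0, t1, ht1, hb⟩ := bad hG hB (L := 200 * L) (by positivity)
  filter_upwards [ev_ge T0, ev_ge 1] with T hT hT1
  refine .of_forall fun C => .of_forall fun K => ?_
  filter_upwards [eventually_ge_atTop 1] with A hA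
  refine .of_forall fun ch => .of_forall fun d => .of_forall fun k4 => .of_forall fun k2 => ?_
  filter_upwards [Ioo_mem_nhdsGT one_half_pos] with k3 h3
  filter_upwards [Ioc_mem_nhdsGT (lt_min he0 one_pos)] with e1 h1
  refine .of_forall fun Lp => .of_forall fun cv => .of_forall fun B => ?_
  filter_upwards [Ioc_mem_nhdsGT (lt_min ht1 one_pos)] with t0 h0
  obtain ⟨a1, a2⟩ := le_min_iff.1 h1.2
  obtain ⟨b1, b2⟩ := le_min_iff.1 h0.2
  have eA : e1 ^ A ∈ Ioc 0 e0 := ⟨pow_pos h1.1 A, (pow_le_of_le_one h1.1.le a2 (by omega)).trans a1⟩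
  have t0' := half_pos h0.1
  obtain ⟨κ0, hκ, hc⟩ := hc T hT t0 ⟨h0.1, b2.trans hT1⟩
  have key : ∀ τ ∈ Ioc 0 t0, ∀ e ∈ Ioc 0 κ0, e ≤ 200 * L * (τ * √τ) → ∃ K : ℝ, _ := fun τ hτ e he h => by
    have mW := fun n => (hW n k3 _ τ eA.1 hτ.1).1
    obtain ⟨c, c0, r, r0, h2⟩ := hb _ eA k3 h3.2 τ hτ.1 mW
    exact hc _ mW e he τ hτ c c0 r r0 (h2.imp (Icc_subset_Icc_right b1) h fun _ _ _ _ h => h)
  set e := min κ0 (200 * L * (t0 / 2 * √(t0 / 2))) with he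
  have e0' : 0 < e := by positivity
  obtain ⟨K1, s1, s2⟩ := key (t0 / 2) ⟨t0', half_le_self h0.1.le⟩ e ⟨e0', min_le_left _ _⟩
    (min_le_right _ _)
  filter_upwards [ev_ge K1, ev_ge ((5 + 3 * (T + 1)) ^ 2)] with K0 k1 k2
  refine .of_forall fun B0 => ?_
  filter_upwards [Ioc_mem_nhdsGT (show 0 < min (e / 100) (1 / 256) by positivity)] with ef hf
  obtain ⟨f1, f2⟩ := le_min_iff.1 hf.2
  have f0 := hf.1
  have x0 : 0 < ef / (2 * L) := by positivity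
  set τ := (ef / (2 * L)) ^ (2 / 3 : ℝ) with hτ
  have τ0 : 0 < τ := Real.rpow_pos_of_pos x0 _
  have τ1 : 200 * L * (τ * √τ) = 100 * ef := by rw [t2_spec x0]; field_simp; norm_num
  have τ2 : τ ≤ t0 / 2 := le_of_cube t0' (le_of_mul_le_mul_left (a := 200 * L)
    (by linarith [min_le_right κ0 (200 * L * (t0 / 2 * √(t0 / 2)))]) (by positivity))
  obtain ⟨K2, s3, -⟩ := key τ ⟨τ0, by linarith⟩ (100 * ef)
    ⟨by positivity, by linarith [min_le_left κ0 (200 * L * (t0 / 2 * √(t0 / 2)))]⟩ τ1.ge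
  filter_upwards [ev_ge K2] with B2 k3'
  refine .of_forall fun Cn => ?_
  have r1 := ((s1.imp subset_rfl (show 4 * ef ≤ _ by linarith) fun _ _ _ _ h => h).and
    ((lu_res (T := T + 1) (by linarith)).imp (Icc_subset_Icc_left t0'.le) (by linarith)
      fun _ _ _ _ h => h) (show 3 * ef < _ by linarith)).imp (Q := fun s n z =>
        Cw.WW τ (e1 ^ A) k3 z.1 → CB (ising z.1 z.2) sv K0 ∧ (s ≤ t0 → Acc K0 z.1 (ising z.1 z.2)) ∧
          Res K0 z.1 (ising z.1 z.2)) subset_rfl le_rfl fun s _ n z hz hw => by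
    have := hz.1 ((hW n k3 _ τ eA.1 τ0).2.2 _ _ le_rfl τ2 _ hw)
    exact ⟨this.1.mono k1, fun h => acc_mono (this.2 h) k1,
      le_trans hz.2 (mul_le_mul_of_nonneg_right k2 n.cast_nonneg)⟩
  have r2 := s2.imp (Q := fun _ n z => Cw.WW τ (e1 ^ A) k3 z.1 → Top.Poin (ising z.1 z.2) K0)
    subset_rfl (show 3 * ef ≤ _ by linarith) fun _ _ _ _ h _ => poin_mono (wt_ising _ _) h k1
  have r3 := s3.imp (I' := Icc τ t0) (Q := fun _ n z => Cw.WW τ (e1 ^ A) k3 z.1 →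
    CB (ising z.1 z.2) sv B2 ∧ Acc B2 z.1 (ising z.1 z.2)) (Icc_subset_Icc_right (by linarith))
    (show 3 * ef ≤ _ by linarith) fun s hs _ _ h hw =>
      ⟨(h hw).1.mono k3', acc_mono ((h hw).2 hs.2) k3'⟩
  filter_upwards [r1.lev, r2.lev, r3.lev] with n n1 n2 n3
  simp only [Pm.Lev, Pm.Wt, min_self]
  exact ⟨n1, n2 T rfl, n3⟩

end Crest.Agent.T157.O0.S5

end
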