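import Crest.Agent.T157.O0I_21
import Crest.Agent.T157.O0W_44
import Crest.Agent.T157.O0S_5

-- ▼ part T157/O0JW_21
section

/-!
# Row 157, block A2 (helper21): the joint planted theorem in explicit words (for the coin windows)
-/

set_option autoImplicit false

noncomputable section

namespace Crest.Agent.T157.O0

open MeasureTheory Matrix Filter Topology Set
open Crest.Agent.T157.E Crest.Agent.T157.SL Crest.Agent.T157.Ks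
open Crest.Agent.T157.Tap (Mx V)
open Crest.Agent.T157.Ks.St0 (JP)

/-- `‖C‖ ≤ k` at time `t` on `WW (τ, e, κ)`, joint planted level `H` -/
def JL (n : ℕ) (t τ e κ k H : ℝ) : Prop :=
  JP t n {z | Cw.WW τ e κ z.1 ∧ ¬ CB (ising z.1 z.2) sv k} ≤ ENNReal.ofReal (Real.exp (-H))

def JW0 : Prop := ∀ L : ℝ, ∃ K : ℝ, ∀ d > (0 : ℝ), ∃ e ∈ Ioc (0 : ℝ) (1 / 4), ∃ κ > (0 : ℝ),
  ∃ t2 ∈ Ioc (0 : ℝ) 1, ∃ t0 ∈ Ioc (0 : ℝ) 1, ∃ e0 > (0 : ℝ), ∀ᶠ n : ℕ in atTop,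
  ∀ t ∈ Icc ((n : ℝ) ^ d / (n : ℝ) ^ (2 / 3 : ℝ)) t0,
    JL n t (min t t2) e κ (K / t) (min (L * (n * t ^ (3 / 2 : ℝ))) (e0 * n))

def JW1 : Prop := ∀ ε > (0 : ℝ), ∀ d > (0 : ℝ), ∃ c0 > (0 : ℝ), ∃ e ∈ Ioc (0 : ℝ) (1 / 4),
  ∃ κ > (0 : ℝ), ∃ t2 ∈ Ioc (0 : ℝ) 1, ∃ t0 ∈ Ioc (0 : ℝ) 1, ∃ e0 > (0 : ℝ), ∀ᶠ n : ℕ in atTop,
  ∀ t ∈ Icc ((n : ℝ) ^ d / (n : ℝ) ^ (2 / 3 : ℝ)) t0,
    JL n t (min t t2) e κ ((1 + ε) / t) (min (c0 * (n * t ^ (3 / 2 : ℝ))) (e0 * n))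

def JW2 : Prop := ∀ d > (0 : ℝ), ∃ κ > (0 : ℝ), ∃ d1 > (0 : ℝ), ∀ ζ > (0 : ℝ), ∃ c > (0 : ℝ),
  ∃ t2 ∈ Ioc (0 : ℝ) 1, ∃ t0 ∈ Ioc (0 : ℝ) 1, ∀ᶠ n : ℕ in atTop,
  ∀ t ∈ Icc ((n : ℝ) ^ d / (n : ℝ) ^ (2 / 3 : ℝ)) t0,
    JL n t (min t t2) ((n : ℝ) ^ (-ζ)) κ ((1 + t ^ c + (n : ℝ) ^ (-c)) / t) ((n : ℝ) ^ d1)


theorem JL.le {n : ℕ} {t τ e κ k k' H H' : ℝ} (h : JL n t τ e κ k H) (hk : k ≤ k') (hH : H' ≤ H) :
    JL n t τ e κ k' H' :=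
  le_trans (measure_mono fun _ hz => And.intro hz.1 fun hc => hz.2 (hc.mono hk))
    (le_trans h (ENNReal.ofReal_le_ofReal (Real.exp_le_exp.2 (neg_le_neg hH))))

namespace Pm

variable {p : Pm} {t d : ℝ}

theorem Big.mem (b : p.Big) (hd : p.d ≤ d) {t0 : ℝ} (h0 : t0 ≤ p.t0)
    (ht : t ∈ Icc ((p.n : ℝ) ^ d / (p.n : ℝ) ^ (2 / 3 : ℝ)) t0) : t ∈ Icc p.lo p.t0 :=
  ⟨le_trans (div_le_div_of_nonneg_right (Real.rpow_le_rpow_of_exponent_le b.n1 hd) (by positivity))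
    ht.1, ht.2.trans h0⟩

theorem Ok.ef_le (h : p.Ok) (ht : 0 ≤ t) : p.ef * p.n ≤ p.ef * p.n * (1 + t) := by
  nlinarith [h.efn]

theorem Ok.eA (h : p.Ok) {e : ℝ} (h0 : 0 < e) (h1 : e ≤ p.e1) : e ^ p.A ∈ Ioc (0 : ℝ) (1 / 4) :=
  ⟨pow_pos h0 _, (pow_le_of_le_one h0.le (by linarith [h.e1_1]) (by have := h.A; omega)).trans
    (by linarith [h.e1_1])⟩

end Pm

theorem jw0 (h : Thm) : JW0 := fun L0 => by
  have h1 := ev_iff.1 ((h.and ev_ok).and ev_big)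
  unfold Ev at h1
  obtain ⟨L, h1, hL⟩ := (h1.and (ev_ge L0)).exists
  obtain ⟨T, h1⟩ := h1.exists
  obtain ⟨C, h1⟩ := h1.exists
  obtain ⟨K, h1⟩ := h1.exists
  refine ⟨K, fun d0 hd => ?_⟩
  iterate 2 obtain ⟨_, h1⟩ := h1.exists
  obtain ⟨d, h1, hd'⟩ := (h1.and (ev_sm d0)).exists
  iterate 13 obtain ⟨_, h1⟩ := h1.exists
  obtain ⟨_, ⟨-, ok⟩, -⟩ := h1.exists
  refine ⟨_, ok.eA ok.e1.1 le_rfl, _, ok.k3.1, _, ⟨ok.t2_pos, by linarith [ok.t2_1]⟩, _,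
    ⟨ok.t0.1, by linarith [ok.t0.2]⟩, _, ok.ef, h1.mono fun n ⟨⟨h2, ok⟩, b⟩ t ht => ?_⟩
  have ht' := b.mem (hd'.2 hd) le_rfl ht
  have t0 := (b.lo_pos.trans_le ht'.1).le
  exact le_trans (measure_mono fun z hz => And.intro hz.1 fun hc => hz.2 hc.g1)
    ((h2 t ht').2.1.le Subset.rfl (min_le_min
      (mul_le_mul_of_nonneg_right hL (by positivity)) (ok.ef_le t0)))

theorem jw1 (h : Thm) : JW1 := fun ε hε d0 hd => by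
  have h1 := ev_iff.1 ((h.and ev_ok).and ev_big)
  unfold Ev at h1
  iterate 6 obtain ⟨_, h1⟩ := h1.exists
  obtain ⟨d, h1, hd'⟩ := (h1.and (ev_sm d0)).exists
  iterate 3 obtain ⟨_, h1⟩ := h1.exists
  obtain ⟨e1, h1, he⟩ := (h1.and (ev_sm ε)).exists
  iterate 9 obtain ⟨_, h1⟩ := h1.exists
  obtain ⟨_, ⟨-, ok⟩, -⟩ := h1.exists
  refine ⟨_, (ok.eA ok.e1.1 le_rfl).1, _, ok.eA ok.e1.1 le_rfl, _, ok.k3.1, _,
    ⟨ok.t2_pos, by linarith [ok.t2_1]⟩, _, ⟨ok.t0.1, by linarith [ok.t0.2]⟩, _, ok.ef,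
    h1.mono fun n ⟨⟨h2, ok⟩, b⟩ t ht => ?_⟩
  have ht' := b.mem (hd'.2 hd) le_rfl ht
  have t0 := (b.lo_pos.trans_le ht'.1).le
  exact JL.le ((h2 t ht').2.2 e1 (b.er ok ht'))
    (div_le_div_of_nonneg_right (by linarith [he.2 hε]) t0) (min_le_min le_rfl (ok.ef_le t0))

theorem jw2 (h : Thm) : JW2 := fun d0 hd => by
  have h1 := ev_iff.1 ((h.and ev_ok).and ev_big)
  unfold Ev at h1
  iterate 4 obtain ⟨_, h1⟩ := h1.exists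
  obtain ⟨A, h1, hA⟩ := (h1.and (eventually_ge_atTop 1)).exists
  obtain ⟨_, h1⟩ := h1.exists
  obtain ⟨d, h1, hd'⟩ := (h1.and (ev_sm d0)).exists
  iterate 2 obtain ⟨_, h1⟩ := h1.exists
  obtain ⟨k3, h1, h3⟩ := (h1.and (ev_sm 1)).exists
  iterate 2 obtain ⟨_, h1⟩ := h1.exists
  have A0 : (0 : ℝ) < A := by exact_mod_cast hA
  refine ⟨k3, h3.1, d, hd'.1, fun ζ hζ => ?_⟩
  obtain ⟨c, h1, hc⟩ := (h1.and (ev_sm (ζ / A))).exists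
  iterate 7 obtain ⟨_, h1⟩ := h1.exists
  obtain ⟨_, ⟨-, ok⟩, -⟩ := h1.exists
  refine ⟨c, hc.1, _, ⟨ok.t2_pos, by linarith [ok.t2_1]⟩, _, ⟨ok.t0.1, by linarith [ok.t0.2]⟩,
    h1.mono fun n ⟨⟨h2, ok⟩, b⟩ t ht => ?_⟩
  have ht' := b.mem (hd'.2 hd) le_rfl ht
  have t0 := b.lo_pos.trans_le ht'.1
  have n1 : (1 : ℝ) ≤ n := b.n1
  have a1 : 0 < t ^ c := Real.rpow_pos_of_pos t0 _
  have a2 : 0 < (n : ℝ) ^ (-c) := by positivity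
  have er := b.er ok ht'
  have he := And.intro (lt_max_of_lt_left a1 : 0 < max (t ^ c) ((n : ℝ) ^ (-c)))
    (And.intro (max_le er.2.2.1 er.2.2.2) (And.intro (le_max_left (t ^ c) ((n : ℝ) ^ (-c)))
      (le_max_right (t ^ c) ((n : ℝ) ^ (-c)))))
  have hζ' : (n : ℝ) ^ (-ζ) ≤ max (t ^ c) ((n : ℝ) ^ (-c)) ^ A := by
    refine le_trans ?_ (pow_le_pow_left₀ a2.le (le_max_right _ _) A)
    rw [← Real.rpow_natCast, ← Real.rpow_mul (by linarith)]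
    exact Real.rpow_le_rpow_of_exponent_le n1
      (by linarith [(le_div_iff₀ A0).1 (hc.2 (by positivity))])
  refine le_trans (measure_mono fun z hz => And.intro ((wStmt n k3 _ _ (by positivity)
    (lt_min t0 ok.t2_pos)).2.2 _ _ hζ' le_rfl _ hz.1) hz.2) (JL.le ((h2 t ht').2.2 _ he)
      (div_le_div_of_nonneg_right ?_ t0.le) (b.Hs_ge ok ht'.1 he))
  linarith [max_le_add_of_nonneg a1.le a2.le]

end Crest.Agent.T157.O0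

end
end

-- ▼ part T157/O0S4_5

/-!
# Row 157, block A2 (helper5): covariance bound at constant times, no spectral event
-/

set_option autoImplicit false

namespace Crest.Agent.T157.O0.S5

open MeasureTheory Matrix Filter Topology Set
open Crest.Agent.T157.E Crest.Agent.T157.SL Crest.Agent.T157.Ks Crest.Agent.T157.Eig
open Crest.Agent.T157.Tap Crest.Agent.T157.Tap.Cov15 Crest.Agent.T157.Ks.St0

/-- **J4** with a ball of fields -/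
theorem jw4' {s : ℝ} (hs : 0 < s) (T : ℝ) : ∃ K : ℝ, ∃ ρ > (0 : ℝ), ∃ e0 > (0 : ℝ),
    Lu (Icc s T) e0 fun _ n z => CovOK (ising z.1 0) K (ρ * √n) z.2 := by
  obtain ⟨T0, γ, -, h⟩ := startStmt
  obtain ⟨κ0, hκ, c1, -, r1, -, K1, M1, h⟩ := h (max (max T0 T) s) (le_max_of_le_left (le_max_left _ _))
    s ⟨hs, le_max_right _ _⟩
  obtain ⟨K, M, ρ, ρ0, H⟩ := h (fun _ _ => False) (fun _ => .const _) κ0 ⟨hκ, le_rfl⟩ s ⟨hs, le_rfl⟩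
    1 one_pos 1 one_pos fun _ _ => .of_forall fun n => by simp
  refine ⟨K1, ρ, ρ0, κ0 / 10, by positivity, (lu_of (I := Icc s T) (WW := fun _ _ => True)
    (fun _ => .univ) (fun n => meas_cov K1 (ρ * √n)) ((H.le (show κ0 / 8 ≤ κ0 / 4 by linarith)).imp
      fun n W hW _ u hu => (hW.2.1 u ⟨hu.1, ?_⟩).1) (by linarith)).imp subset_rfl le_rfl
        fun _ _ _ _ h => h trivial⟩
  linarith [hu.2, le_max_right T0 T, le_max_left (max T0 T) s]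

/-- **J4**: at all constant times the covariance is bounded, off planted probability `exp (-e0 n)` -/
theorem jw4 {s : ℝ} (hs : 0 < s) (T : ℝ) : ∃ K : ℝ, ∃ e0 > (0 : ℝ), ∀ᶠ n : ℕ in atTop, ∀ t ∈ Icc s T,
    JP t n {z | ¬ CB (ising z.1 z.2) sv K} ≤ ENNReal.ofReal (Real.exp (-(e0 * n))) := by
  obtain ⟨K, ρ, ρ0, e0, h0, h⟩ := jw4' hs T
  exact ⟨K, e0, h0, h.imp subset_rfl le_rfl fun _ _ _ _ h => cb_of h (by positivity)⟩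

end Crest.Agent.T157.O0.S5
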