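import Mathlib
import Crest.Agent.Lib.OrthPoinc.Moment

-- ▼ part T157/OcA_9
section

set_option autoImplicit false

/-!
Row 157, A2 tools (helper9).  Calculus along the rotations of `SO(n)` (class `R1`, `RD`),
the heat flow on polynomials, the maximum principle and the logarithmic Sobolev inequality
(Bakry-Emery) for positive polynomials.
-/

namespace Crest.Agent.T157.Oc

open MvPolynomial MeasureTheory Crest.Agent.Lib.OrthPoinc Filter Topology Set

variable {n : ℕ}

/-- `SO(n)` as a set of arrays. -/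
def SO (n : ℕ) : Set (Mat n) := {U | Matrix.of U ∈ Matrix.specialOrthogonalGroup (Fin n) ℝ}

theorem mem_SO_iff (U : Mat n) : U ∈ SO n ↔
    (∀ a b, ∑ k, U a k * U b k = if a = b then 1 else 0) ∧ (Matrix.of U).det = 1 := by
  unfold SO
  rw [Set.mem_ofPred_eq, Matrix.mem_specialOrthogonalGroup_iff, Matrix.mem_orthogonalGroup_iff]
  constructor
  · rintro ⟨h1, h2⟩
    refine ⟨fun a b => ?_, h2⟩
    have := congrFun (congrFun h1 a) b
    simpa [Matrix.mul_apply, Matrix.one_apply] using this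
  · rintro ⟨h1, h2⟩
    refine ⟨?_, h2⟩
    ext a b
    simpa [Matrix.mul_apply, Matrix.one_apply] using h1 a b

theorem isClosed_SO : IsClosed (SO n) := by
  have : SO n = (⋂ a, ⋂ b, {U : Mat n | ∑ k, U a k * U b k = if a = b then 1 else 0}) ∩
      {U : Mat n | (Matrix.of U).det = 1} := by
    ext U
    rw [mem_SO_iff]
    simp
  rw [this]
  refine IsClosed.inter (isClosed_iInter fun a => isClosed_iInter fun b => ?_) ?_
  · exact isClosed_eq (by fun_prop) continuous_const
  · refine isClosed_eq ?_ continuous_const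
    exact Continuous.matrix_det (A := fun U : Mat n => Matrix.of U) continuous_id

theorem isCompact_SO : IsCompact (SO n) := by
  have hcomp : IsCompact (Set.univ.pi fun _ : Fin n => Set.univ.pi fun _ : Fin n =>
      Set.Icc (-1 : ℝ) 1) := isCompact_univ_pi fun _ => isCompact_univ_pi fun _ => isCompact_Icc
  refine hcomp.of_isClosed_subset isClosed_SO ?_
  intro U hU a _ b _
  exact abs_le.mp (abs_le_one_of_so hU a b)

theorem rmul_mem_SO {V : Matrix (Fin n) (Fin n) ℝ}
    (hV : V ∈ Matrix.specialOrthogonalGroup (Fin n) ℝ) {U : Mat n} (hU : U ∈ SO n) :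
    rmul V U ∈ SO n := by
  have : Matrix.of (rmul V U) = Matrix.of U * V := by ext; rfl
  unfold SO
  rw [Set.mem_ofPred_eq, this]
  exact Submonoid.mul_mem _ hU hV

/-- The rotation in the direction `a = (i,j)` (the identity when `i = j`). -/
noncomputable def ro (a : Fin n × Fin n) (t : ℝ) (U : Mat n) : Mat n :=
  if a.1 = a.2 then U else rot a.1 a.2 t U

theorem ro_zero (a : Fin n × Fin n) (U : Mat n) : ro a 0 U = U := by
  unfold ro; split_ifs
  · rfl
  · exact rot_zero _ _ _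

theorem ro_ro (a : Fin n × Fin n) (s t : ℝ) (U : Mat n) : ro a s (ro a t U) = ro a (s + t) U := by
  unfold ro; split_ifs with h
  · rfl
  · exact rot_rot _ _ h s t U

theorem exists_ro_eq (a : Fin n × Fin n) (t : ℝ) :
    ∃ V ∈ Matrix.specialOrthogonalGroup (Fin n) ℝ, ∀ U, ro a t U = rmul V U := by
  unfold ro; split_ifs with h
  · exact ⟨1, Submonoid.one_mem _, fun U => (rmul_one U).symm⟩
  · exact ⟨_, Rm_mem_so _ _ h t, fun U => rot_eq_rmul _ _ t U⟩

theorem ro_mem (a : Fin n × Fin n) (t : ℝ) {U : Mat n} (hU : U ∈ SO n) : ro a t U ∈ SO n := by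
  obtain ⟨V, hV, h⟩ := exists_ro_eq a t
  rw [h]; exact rmul_mem_SO hV hU

theorem continuous_ro (a : Fin n × Fin n) : Continuous fun z : ℝ × Mat n => ro a z.1 z.2 := by
  unfold ro; split_ifs
  · exact continuous_snd
  · exact continuous_rot_joint _ _

theorem hasDerivAt_ev_ro (a : Fin n × Fin n) (p : PolyM n) (U : Mat n) (t : ℝ) :
    HasDerivAt (fun t => ev p (ro a t U)) (ev (Xd a.1 a.2 p) (ro a t U)) t := by
  unfold ro; split_ifs with h
  · rw [← h, Xd_self]
    simpa [ev_zero] using hasDerivAt_const t (ev p U)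
  · exact hasDerivAt_ev_rot _ _ h p U t

variable {μ : Measure (Mat n)} [IsProbabilityMeasure μ]

omit [IsProbabilityMeasure μ] in
theorem aesm_of (hμ : SOInv μ) {f : Mat n → ℝ} (hf : ContinuousOn f (SO n)) :
    AEStronglyMeasurable f μ := by
  have h1 : μ.restrict (SO n) = μ := Measure.restrict_eq_self_of_ae_mem hμ.mem
  rw [← h1]
  exact hf.aestronglyMeasurable isClosed_SO.measurableSet

theorem integrable_of (hμ : SOInv μ) {f : Mat n → ℝ} (hf : ContinuousOn f (SO n)) :
    Integrable f μ := by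
  obtain ⟨K, hK⟩ := isCompact_SO.exists_bound_of_continuousOn hf
  refine Integrable.of_bound (aesm_of hμ hf) K ?_
  filter_upwards [hμ.mem] with U hU using hK U hU

/-- differentiation under the integral sign -/
theorem hasDerivAt_int (hμ : SOInv μ) {I : Set ℝ} (hI : IsOpen I) {F F' : ℝ → Mat n → ℝ}
    (hF : ∀ t ∈ I, ContinuousOn (F t) (SO n))
    (hF' : ContinuousOn (fun z : ℝ × Mat n => F' z.1 z.2) (I ×ˢ SO n))
    (hd : ∀ t ∈ I, ∀ U ∈ SO n, HasDerivAt (fun s => F s U) (F' t U) t) {t : ℝ} (ht : t ∈ I) :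
    HasDerivAt (fun s => ∫ U, F s U ∂μ) (∫ U, F' t U ∂μ) t := by
  obtain ⟨ε, hε, hball⟩ := Metric.isOpen_iff.mp hI t ht
  have hsub : Metric.closedBall t (ε / 2) ⊆ I :=
    (Metric.closedBall_subset_ball (by linarith)).trans hball
  have hc : IsCompact (Metric.closedBall t (ε / 2) ×ˢ SO n) :=
    (isCompact_closedBall t (ε / 2)).prod isCompact_SO
  obtain ⟨K, hK⟩ := hc.exists_bound_of_continuousOn (hF'.mono (Set.prod_mono hsub subset_rfl))
  have hF't : ContinuousOn (F' t) (SO n) :=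
    hF'.comp (f := fun U => (t, U)) (by fun_prop) fun U hU => ⟨ht, hU⟩
  refine (hasDerivAt_integral_of_dominated_loc_of_deriv_le (μ := μ) (𝕜 := ℝ) (F := F) (F' := F')
    (x₀ := t) (bound := fun _ => K) (s := Metric.closedBall t (ε / 2))
    (Metric.closedBall_mem_nhds t (by linarith)) ?_ (integrable_of hμ (hF t ht))
    (aesm_of hμ hF't) ?_ (integrable_const K) ?_).2
  · filter_upwards [hI.mem_nhds ht] with s hs using aesm_of hμ (hF s hs)
  · filter_upwards [hμ.mem] with U hU s hs using hK (s, U) ⟨hs, hU⟩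
  · filter_upwards [hμ.mem] with U hU s hs using hd s (hsub hs) U hU

/-- `f'` is the derivative of `f` along the rotation `a`; both are continuous on `SO(n)`. -/
structure R1 (a : Fin n × Fin n) (f f' : Mat n → ℝ) : Prop where
  c : ContinuousOn f (SO n)
  c' : ContinuousOn f' (SO n)
  d : ∀ U ∈ SO n, HasDerivAt (fun t => f (ro a t U)) (f' U) 0

namespace R1

variable {a : Fin n × Fin n} {f f' g g' : Mat n → ℝ}

theorem poly (a : Fin n × Fin n) (p : PolyM n) : R1 a (ev p) (ev (Xd a.1 a.2 p)) :=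
  ⟨(continuous_ev p).continuousOn, (continuous_ev _).continuousOn, fun U _ => by
    simpa [ro_zero] using hasDerivAt_ev_ro a p U 0⟩

theorem const (a : Fin n × Fin n) (c : ℝ) : R1 a (fun _ => c) (fun _ => 0) :=
  ⟨continuousOn_const, continuousOn_const, fun _ _ => hasDerivAt_const _ _⟩

theorem add (hf : R1 a f f') (hg : R1 a g g') :
    R1 a (fun U => f U + g U) (fun U => f' U + g' U) :=
  ⟨hf.c.add hg.c, hf.c'.add hg.c', fun U hU => (hf.d U hU).add (hg.d U hU)⟩

theorem sub (hf : R1 a f f') (hg : R1 a g g') :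
    R1 a (fun U => f U - g U) (fun U => f' U - g' U) :=
  ⟨hf.c.sub hg.c, hf.c'.sub hg.c', fun U hU => (hf.d U hU).sub (hg.d U hU)⟩

theorem mul (hf : R1 a f f') (hg : R1 a g g') :
    R1 a (fun U => f U * g U) (fun U => f' U * g U + f U * g' U) :=
  ⟨hf.c.mul hg.c, (hf.c'.mul hg.c).add (hf.c.mul hg.c'), fun U hU => by
    simpa [ro_zero] using (hf.d U hU).fun_mul (hg.d U hU)⟩

theorem congr (hf : R1 a f f') (h1 : ∀ U ∈ SO n, f U = g U) (h2 : ∀ U ∈ SO n, f' U = g' U) :
    R1 a g g' :=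
  ⟨hf.c.congr fun U hU => (h1 U hU).symm, hf.c'.congr fun U hU => (h2 U hU).symm, fun U hU => by
    have := hf.d U hU
    rw [h2 U hU] at this
    exact this.congr_of_eventuallyEq (Eventually.of_forall fun t => (h1 _ (ro_mem a t hU)).symm)⟩

theorem sum {ι : Type*} (s : Finset ι) {f f' : ι → Mat n → ℝ} (h : ∀ k ∈ s, R1 a (f k) (f' k)) :
    R1 a (fun U => ∑ k ∈ s, f k U) (fun U => ∑ k ∈ s, f' k U) :=
  ⟨continuousOn_finsetSum s fun k hk => (h k hk).c,
    continuousOn_finsetSum s fun k hk => (h k hk).c',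
    fun U hU => HasDerivAt.fun_sum fun k hk => (h k hk).d U hU⟩

/-- chain rule; `φ` is `C^1` on a set `S` that contains the values of `f` on `SO(n)`. -/
theorem comp (hf : R1 a f f') {S : Set ℝ} (hS : ∀ U ∈ SO n, f U ∈ S) {φ φ' : ℝ → ℝ}
    (hφ : ∀ x ∈ S, HasDerivAt φ (φ' x) x) (hφ' : ContinuousOn φ' S) :
    R1 a (fun U => φ (f U)) (fun U => φ' (f U) * f' U) :=
  ⟨ContinuousOn.comp (g := φ) (fun x hx => (hφ x hx).continuousAt.continuousWithinAt) hf.c hS,
    (ContinuousOn.comp (g := φ') hφ' hf.c hS).mul hf.c', fun U hU => by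
      have h1 : HasDerivAt φ (φ' (f U)) (f (ro a 0 U)) := by rw [ro_zero]; exact hφ _ (hS U hU)
      exact h1.comp (0 : ℝ) (hf.d U hU)⟩

theorem inv (hf : R1 a f f') (h0 : ∀ U ∈ SO n, 0 < f U) :
    R1 a (fun U => (f U)⁻¹) (fun U => -(f U)⁻¹ ^ 2 * f' U) := by
  refine hf.comp (S := Ioi 0) h0 (φ := fun x => x⁻¹) (φ' := fun x => -(x⁻¹) ^ 2) ?_ ?_
  · intro x hx
    simpa using hasDerivAt_inv (ne_of_gt hx)
  · exact ((continuousOn_inv₀.mono fun x hx => ne_of_gt hx).pow 2).neg

theorem log (hf : R1 a f f') (h0 : ∀ U ∈ SO n, 0 < f U) :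
    R1 a (fun U => Real.log (f U)) (fun U => (f U)⁻¹ * f' U) :=
  hf.comp (S := Ioi 0) h0 (φ := Real.log) (φ' := fun x => x⁻¹)
    (fun _ hx => Real.hasDerivAt_log (ne_of_gt hx)) (continuousOn_inv₀.mono fun _ hx => ne_of_gt hx)

theorem exp (hf : R1 a f f') : R1 a (fun U => Real.exp (f U)) (fun U => Real.exp (f U) * f' U) :=
  hf.comp (S := univ) (fun _ _ => trivial) (fun x _ => Real.hasDerivAt_exp x)
    Real.continuous_exp.continuousOn

theorem d_at (hf : R1 a f f') {U : Mat n} (hU : U ∈ SO n) (t : ℝ) :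
    HasDerivAt (fun s => f (ro a s U)) (f' (ro a t U)) t := by
  have h1 := hf.d _ (ro_mem a t hU)
  have h2 : HasDerivAt (fun s => s - t) 1 t := by simpa using (hasDerivAt_id t).sub_const t
  have h3 : HasDerivAt (fun s => f (ro a s (ro a t U))) (f' (ro a t U)) (t - t) := by
    rw [sub_self]; exact h1
  have h4 := HasDerivAt.scomp (h := fun s => s - t) t h3 h2
  simp only [one_smul] at h4
  refine h4.congr_of_eventuallyEq (Eventually.of_forall fun s => ?_)
  simp [ro_ro]

/-- integration by parts: the integral of a derivative vanishes -/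
theorem integral_eq_zero (hμ : SOInv μ) (hf : R1 a f f') : ∫ U, f' U ∂μ = 0 := by
  have hro : ∀ t, Continuous (ro a t) := fun t =>
    (continuous_ro a).comp (f := fun U => (t, U)) (by fun_prop)
  have hd := hasDerivAt_int hμ isOpen_univ (F := fun t U => f (ro a t U))
    (F' := fun t U => f' (ro a t U))
    (fun t _ => hf.c.comp (hro t).continuousOn fun U hU => ro_mem a t hU)
    (hf.c'.comp (continuous_ro a).continuousOn fun z hz => ro_mem a z.1 hz.2)
    (fun t _ U hU => hf.d_at hU t) (mem_univ 0)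
  have hc : (fun t => ∫ U, f (ro a t U) ∂μ) = fun _ => ∫ U, f U ∂μ := by
    funext t
    obtain ⟨V, hV, h⟩ := exists_ro_eq a t
    simp only [h]
    have h2 := integral_map (μ := μ) (φ := rmul V) (f := f)
      (continuous_rmul V).measurable.aemeasurable (by rw [hμ.inv V hV]; exact aesm_of hμ hf.c)
    rw [← h2, hμ.inv V hV]
  rw [hc] at hd
  have h0 := hd.unique (hasDerivAt_const (0 : ℝ) (∫ U, f U ∂μ))
  simpa [ro_zero] using h0

end R1

/-! ### The heat flow on polynomials -/

/-- A solution of the heat equation in the polynomials. -/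
structure Flow (P : ℝ → PolyM n) : Prop where
  der : ∀ (L : PolyM n →ₗ[ℝ] PolyM n) (U : Mat n) (t : ℝ),
    HasDerivAt (fun s => ev (L (P s)) U) (ev (L (Cas (P t))) U) t
  cont : ∀ L : PolyM n →ₗ[ℝ] PolyM n, Continuous fun z : ℝ × Mat n => ev (L (P z.1)) z.2

theorem exists_flow (p : PolyM n) : ∃ P : ℝ → PolyM n, P 0 = p ∧ Flow P := by
  classical
  set d := p.totalDegree with hd
  set V := restrictTotalDegree (Fin n × Fin n) ℝ d with hV
  have hmemV : ∀ q : PolyM n, q ∈ V ↔ q.totalDegree ≤ d := fun q => mem_restrictTotalDegree _ _ _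
  have hCasV : ∀ q ∈ V, (Cas (n := n)) q ∈ V := by
    intro q hq
    rw [Cas_apply]
    refine V.sum_mem fun i _ => V.sum_mem fun j _ => ?_
    rw [hmemV] at hq ⊢
    exact Xd_totalDegree_le i j _ d (Xd_totalDegree_le i j q d hq)
  set T : V →ₗ[ℝ] V := (Cas (n := n)).restrict hCasV with hTdef
  set b := Module.finBasis ℝ V with hb
  set e := b.equivFun with he
  set A : (Fin (Module.finrank ℝ V) → ℝ) →L[ℝ] (Fin (Module.finrank ℝ V) → ℝ) :=
    LinearMap.toContinuousLinearMap (e.toLinearMap ∘ₗ T ∘ₗ e.symm.toLinearMap) with hA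
  set c0 := e ⟨p, by rw [hmemV]⟩ with hc0
  set c : ℝ → Fin (Module.finrank ℝ V) → ℝ := fun t => NormedSpace.exp (t • A) c0 with hc
  have hcd : ∀ t, HasDerivAt c (A (c t)) t := by
    intro t
    have h1 := hasDerivAt_exp_smul_const' (𝕂 := ℝ) A t
    have h2 := h1.clm_apply (hasDerivAt_const t c0)
    simpa [hc] using h2
  have hexp : ∀ (L : PolyM n →ₗ[ℝ] PolyM n) (U : Mat n) (x : Fin (Module.finrank ℝ V) → ℝ),
      ev (L ((e.symm x : V) : PolyM n)) U = ∑ k, x k * ev (L (b k : V)) U := by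
    intro L U x
    rw [he, Module.Basis.equivFun_symm_apply, Submodule.coe_sum, map_sum, ev_sum]
    refine Finset.sum_congr rfl fun k _ => ?_
    rw [Submodule.coe_smul, map_smul, ev_smul]
  refine ⟨fun t => ((e.symm (c t) : V) : PolyM n), ?_, ?_, ?_⟩
  · simp [hc, hc0]
  · intro L U t
    have h1 : Cas ((e.symm (c t) : V) : PolyM n) = ((e.symm (A (c t)) : V) : PolyM n) := by
      simp [hA, hTdef]
    simp only [h1, hexp]
    refine HasDerivAt.fun_sum fun k _ => ?_
    exact ((hasDerivAt_pi.mp (hcd t)) k).mul_const _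
  · intro L
    simp only [hexp]
    refine continuous_finsetSum _ fun k _ => ?_
    have h1 : Continuous c := continuous_iff_continuousAt.mpr fun t => (hcd t).continuousAt
    exact (((continuous_apply k).comp h1).comp continuous_fst).mul
      ((continuous_ev _).comp continuous_snd)

theorem Flow.neg {P : ℝ → PolyM n} (h : Flow P) : Flow fun t => -P t :=
  ⟨fun L U t => by
    have := h.der (-L) U t
    simpa using this, fun L => by
    have := h.cont (-L)
    simpa using this⟩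

theorem second_deriv_nonneg {g g' : ℝ → ℝ} {c : ℝ} (hg : ∀ t, HasDerivAt g (g' t) t)
    (hg' : HasDerivAt g' c 0) (hmin : ∀ t, g 0 ≤ g t) : 0 ≤ c := by
  by_contra hc
  push Not at hc
  have h0 : g' 0 = 0 := IsLocalMin.hasDerivAt_eq_zero (Eventually.of_forall hmin) (hg 0)
  have h1 : ∀ᶠ t in 𝓝[>] (0 : ℝ), g' t < 0 := by
    have h2 := hg'.tendsto_slope_zero_right
    have h3 := h2.eventually (gt_mem_nhds hc)
    filter_upwards [h3, self_mem_nhdsWithin] with t ht ht0
    simp only [zero_add, h0, sub_zero, smul_eq_mul] at ht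
    have : 0 < t⁻¹ := inv_pos.mpr ht0
    by_contra hh
    push Not at hh
    nlinarith [mul_nonneg this.le hh]
  obtain ⟨u, hu, hsub⟩ := mem_nhdsGT_iff_exists_Ioo_subset.mp h1
  have hu0 : (0 : ℝ) < u := hu
  obtain ⟨ξ, hξ, hξ'⟩ := exists_hasDerivAt_eq_slope g g' (a := 0) (b := u / 2) (by linarith)
    (fun t _ => (hg t).continuousAt.continuousWithinAt) (fun t _ => hg t)
  have h4 : g' ξ < 0 := hsub ⟨hξ.1, by linarith [hξ.2]⟩
  rw [hξ'] at h4
  have h5 : 0 ≤ (g (u / 2) - g 0) / (u / 2 - 0) :=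
    div_nonneg (by linarith [hmin (u / 2)]) (by linarith)
  linarith

theorem Cas_nonneg_at_min (p : PolyM n) {U : Mat n} (hU : U ∈ SO n)
    (hmin : ∀ W ∈ SO n, ev p U ≤ ev p W) : 0 ≤ ev (Cas p) U := by
  rw [Cas_apply, ev_sum]
  refine Finset.sum_nonneg fun i _ => ?_
  rw [ev_sum]
  refine Finset.sum_nonneg fun j _ => ?_
  refine second_deriv_nonneg (g := fun t => ev p (ro (i, j) t U))
    (g' := fun t => ev (Xd i j p) (ro (i, j) t U)) (fun t => hasDerivAt_ev_ro (i, j) p U t) ?_ ?_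
  · simpa [ro_zero] using hasDerivAt_ev_ro (i, j) (Xd i j p) U 0
  · intro t
    simp only [ro_zero]
    exact hmin _ (ro_mem _ t hU)

/-- **maximum principle** -/
theorem Flow.lower {P : ℝ → PolyM n} (h : Flow P) {m : ℝ} (hm : ∀ U ∈ SO n, m ≤ ev (P 0) U)
    {t : ℝ} (ht : 0 ≤ t) {U : Mat n} (hU : U ∈ SO n) : m ≤ ev (P t) U := by
  have key : ∀ ε : ℝ, 0 < ε → m - ε * (1 + t) ≤ ev (P t) U := by
    intro ε hε
    by_contra hneg
    push Not at hneg
    have hq : Continuous fun z : ℝ × Mat n => ev (P z.1) z.2 - m + ε * (1 + z.1) := by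
      have := h.cont LinearMap.id
      simp only [LinearMap.id_apply] at this
      fun_prop
    set K : Set (ℝ × Mat n) := (Icc 0 t ×ˢ SO n) ∩
      {z | ev (P z.1) z.2 - m + ε * (1 + z.1) ≤ 0} with hK
    have hKc : IsCompact K :=
      (isCompact_Icc.prod isCompact_SO).inter_right (isClosed_le hq continuous_const)
    have hKn : K.Nonempty := ⟨(t, U), ⟨⟨ht, le_rfl⟩, hU⟩, by
      simp only [Set.mem_ofPred_eq]; linarith⟩
    obtain ⟨⟨s, W⟩, ⟨⟨hs, hW⟩, hsW⟩, hmin⟩ := hKc.exists_isMinOn hKn continuous_fst.continuousOn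
    simp only [Set.mem_ofPred_eq] at hsW hs hW
    have hs0 : 0 < s := by
      rcases hs.1.eq_or_lt with h0 | h0
      · exfalso
        rw [← h0] at hsW
        have := hm W hW
        linarith
      · exact h0
    -- before `s` everything is positive
    have hpos : ∀ r, 0 ≤ r → r < s → ∀ Y ∈ SO n, 0 < ev (P r) Y - m + ε * (1 + r) := by
      intro r hr0 hrs Y hY
      by_contra hh
      push Not at hh
      have : s ≤ r := hmin (a := (r, Y)) ⟨⟨⟨hr0, hrs.le.trans hs.2⟩, hY⟩, hh⟩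
      linarith
    have hnn : ∀ Y ∈ SO n, 0 ≤ ev (P s) Y - m + ε * (1 + s) := by
      intro Y hY
      have hc : ContinuousAt (fun r => ev (P r) Y - m + ε * (1 + r)) s :=
        (hq.comp (f := fun r => (r, Y)) (by fun_prop)).continuousAt
      refine ge_of_tendsto (hc.tendsto.mono_left (nhdsWithin_le_nhds (s := Iio s))) ?_
      filter_upwards [Ioo_mem_nhdsLT hs0] with r hr using (hpos r hr.1.le hr.2 Y hY).le
    have hCas : 0 ≤ ev (Cas (P s)) W := Cas_nonneg_at_min _ hW fun Y hY => by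
      have := hnn Y hY
      linarith
    have hd : HasDerivAt (fun r => ev (P r) W - m + ε * (1 + r)) (ev (Cas (P s)) W + ε) s := by
      have h1 := h.der LinearMap.id W s
      simp only [LinearMap.id_apply] at h1
      have h2 : HasDerivAt (fun r => ε * (1 + r)) ε s := by
        simpa using ((hasDerivAt_id s).const_add 1).const_mul ε
      exact (h1.sub_const m).add h2
    have h3 := hd.tendsto_slope_zero_left
    have h4 : ev (Cas (P s)) W + ε ≤ 0 := by
      refine le_of_tendsto h3 ?_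
      have : Ioo (-s) 0 ∈ 𝓝[<] (0 : ℝ) := Ioo_mem_nhdsLT (by linarith)
      filter_upwards [this] with r hr
      have h5 := hpos (s + r) (by linarith [hr.1]) (by linarith [hr.2]) W hW
      have h6 : r⁻¹ < 0 := inv_lt_zero.mpr hr.2
      rw [smul_eq_mul]
      exact mul_nonpos_of_nonpos_of_nonneg h6.le (by linarith)
    linarith
  refine le_of_forall_pos_le_add fun δ hδ => ?_
  have := key (δ / (1 + t)) (by positivity)
  rw [div_mul_cancel₀ _ (by linarith : (1 + t) ≠ 0)] at this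
  linarith

theorem Flow.upper {P : ℝ → PolyM n} (h : Flow P) {M : ℝ} (hm : ∀ U ∈ SO n, ev (P 0) U ≤ M)
    {t : ℝ} (ht : 0 ≤ t) {U : Mat n} (hU : U ∈ SO n) : ev (P t) U ≤ M := by
  have := h.neg.lower (m := -M) (fun W hW => by rw [ev_neg]; linarith [hm W hW]) ht hU
  rw [ev_neg] at this
  linarith

/-! ### Bakry-Emery -/

/-- the derivation in direction `a` as a linear map -/
noncomputable abbrev XL (a : Fin n × Fin n) : PolyM n →ₗ[ℝ] PolyM n := (Xd a.1 a.2 : PolyM n →ₗ[ℝ] PolyM n)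

theorem Gam_eq (p : PolyM n) (U : Mat n) : Gam p U = ∑ a : Fin n × Fin n, ev (XL a p) U ^ 2 := by
  unfold Gam; rw [Fintype.sum_prod_type]; rfl

theorem Cas_eq (p : PolyM n) (U : Mat n) :
    ev (Cas p) U = ∑ a : Fin n × Fin n, ev (XL a (XL a p)) U := by
  rw [Cas_apply, Fintype.sum_prod_type, ev_sum]
  refine Finset.sum_congr rfl fun i _ => ?_
  rw [ev_sum]; rfl

theorem comm_sum' (p : PolyM n) (U : Mat n) :
    ∑ a : Fin n × Fin n, ∑ b : Fin n × Fin n,
      (ev (XL a (XL b p)) U - ev (XL b (XL a p)) U) ^ 2 = 4 * ((n : ℝ) - 2) * Gam p U := by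
  rw [← comm_sum p U, Fintype.sum_prod_type]
  refine Finset.sum_congr rfl fun i _ => Finset.sum_congr rfl fun j _ => ?_
  rw [Fintype.sum_prod_type]; rfl

theorem R1.polyL (a : Fin n × Fin n) (p : PolyM n) : R1 a (ev p) (ev (XL a p)) := R1.poly a p

theorem continuous_Gam (p : PolyM n) : Continuous (Gam p) := by
  have : Gam p = fun U => ∑ a : Fin n × Fin n, ev (XL a p) U ^ 2 := funext (Gam_eq p)
  rw [this]
  exact continuous_finsetSum _ fun a _ => (continuous_ev _).pow 2

theorem Gam_nonneg (p : PolyM n) (U : Mat n) : 0 ≤ Gam p U := by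
  rw [Gam_eq]; positivity

theorem integral_Cas (hμ : SOInv μ) (p : PolyM n) : ∫ U, ev (Cas p) U ∂μ = 0 := by
  simp only [Cas_eq]
  rw [integral_finsetSum _ fun a _ => integrable_of hμ (continuous_ev _).continuousOn]
  exact Finset.sum_eq_zero fun a _ => (R1.polyL a _).integral_eq_zero hμ

/-- derivative of the entropy -/
theorem int_log_Cas (hμ : SOInv μ) (p : PolyM n) (hp : ∀ U ∈ SO n, 0 < ev p U) :
    ∫ U, (Real.log (ev p U) + 1) * ev (Cas p) U ∂μ = - ∫ U, Gam p U / ev p U ∂μ := by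
  have h1 : ∀ a : Fin n × Fin n, R1 a (fun U => (Real.log (ev p U) + 1) * ev (XL a p) U)
      (fun U => ((ev p U)⁻¹ * ev (XL a p) U + 0) * ev (XL a p) U +
        (Real.log (ev p U) + 1) * ev (XL a (XL a p)) U) := fun a =>
    (((R1.polyL a p).log hp).add (R1.const a 1)).mul (R1.polyL a _)
  have h2 : ∫ U, ∑ a : Fin n × Fin n, (((ev p U)⁻¹ * ev (XL a p) U + 0) * ev (XL a p) U +
        (Real.log (ev p U) + 1) * ev (XL a (XL a p)) U) ∂μ = 0 := by
    rw [integral_finsetSum _ fun a _ => integrable_of hμ (h1 a).c']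
    exact Finset.sum_eq_zero fun a _ => (h1 a).integral_eq_zero hμ
  have h3 : ∀ U, ∑ a : Fin n × Fin n, (((ev p U)⁻¹ * ev (XL a p) U + 0) * ev (XL a p) U +
        (Real.log (ev p U) + 1) * ev (XL a (XL a p)) U) =
      Gam p U / ev p U + (Real.log (ev p U) + 1) * ev (Cas p) U := by
    intro U
    rw [Gam_eq, Cas_eq, Finset.sum_add_distrib, Finset.mul_sum, Finset.sum_div]
    congr 1
    refine Finset.sum_congr rfl fun a _ => ?_
    rw [div_eq_mul_inv]; ring
  simp only [h3] at h2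
  have hne : ∀ U ∈ SO n, ev p U ≠ 0 := fun U hU => (hp U hU).ne'
  have i1 : Integrable (fun U => Gam p U / ev p U) μ := integrable_of hμ
    ((continuous_Gam p).continuousOn.div (continuous_ev p).continuousOn hne)
  have i2 : Integrable (fun U => (Real.log (ev p U) + 1) * ev (Cas p) U) μ := integrable_of hμ
    ((((continuous_ev p).continuousOn.log hne).add continuousOn_const).mul
      (continuous_ev _).continuousOn)
  rw [integral_add i1 i2] at h2
  linarith

theorem sum_sq_ge {ι : Type*} [Fintype ι] (H : ι → ι → ℝ) (S : ι → ι → ℝ)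
    (hS : ∀ a b, S a b = S b a) :
    (1 / 4) * ∑ a, ∑ b, (H a b - H b a) ^ 2 ≤ ∑ a, ∑ b, (H a b - S a b) ^ 2 := by
  have h1 : ∑ a, ∑ b, (H a b - S a b) ^ 2 = ∑ a, ∑ b, (H b a - S a b) ^ 2 := by
    rw [Finset.sum_comm]
    exact Finset.sum_congr rfl fun a _ => Finset.sum_congr rfl fun b _ => by rw [hS]
  have h2 : ∑ a, ∑ b, (H a b - H b a) ^ 2 ≤
      ∑ a, ∑ b, (2 * (H a b - S a b) ^ 2 + 2 * (H b a - S a b) ^ 2) :=
    Finset.sum_le_sum fun a _ => Finset.sum_le_sum fun b _ => by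
      nlinarith [sq_nonneg (H a b + H b a - 2 * S a b)]
  simp only [Finset.sum_add_distrib, ← Finset.mul_sum] at h2
  linarith

/-- derivative of the Fisher information along the flow -/
noncomputable def dI (p : PolyM n) (U : Mat n) : ℝ :=
  (∑ a : Fin n × Fin n, 2 * ev (XL a p) U * ev (XL a (Cas p)) U) * (ev p U)⁻¹
    - Gam p U * ((ev p U)⁻¹ ^ 2 * ev (Cas p) U)

theorem int_dI_le (hμ : SOInv μ) (p : PolyM n) (hp : ∀ U ∈ SO n, 0 < ev p U) :
    ∫ U, dI p U ∂μ ≤ -(2 * ((n : ℝ) - 2)) * ∫ U, Gam p U / ev p U ∂μ := by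
  have hne : ∀ U ∈ SO n, ev p U ≠ 0 := fun U hU => (hp U hU).ne'
  -- the field `W b = X_b (Γ/p)` and its derivative
  set W' : Fin n × Fin n → Mat n → ℝ := fun b U =>
    ((∑ a : Fin n × Fin n, (2 * ev (XL b (XL a p)) U * ev (XL b (XL a p)) U +
        2 * ev (XL a p) U * ev (XL b (XL b (XL a p))) U)) * (ev p U)⁻¹ +
      (∑ a : Fin n × Fin n, 2 * ev (XL a p) U * ev (XL b (XL a p)) U) *
        (-(ev p U)⁻¹ ^ 2 * ev (XL b p) U)) -
    ((∑ a : Fin n × Fin n, 2 * ev (XL a p) U * ev (XL b (XL a p)) U) *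
        ((ev p U)⁻¹ * (ev p U)⁻¹ * ev (XL b p) U) +
      (∑ a : Fin n × Fin n, ev (XL a p) U ^ 2) *
        ((-(ev p U)⁻¹ ^ 2 * ev (XL b p) U * (ev p U)⁻¹ + (ev p U)⁻¹ * (-(ev p U)⁻¹ ^ 2 * ev (XL b p) U))
          * ev (XL b p) U + (ev p U)⁻¹ * (ev p U)⁻¹ * ev (XL b (XL b p)) U)) with hW'
  have h1 : ∀ b : Fin n × Fin n, R1 b (fun U =>
      (∑ a : Fin n × Fin n, 2 * ev (XL a p) U * ev (XL b (XL a p)) U) * (ev p U)⁻¹ -
        (∑ a : Fin n × Fin n, ev (XL a p) U ^ 2) * ((ev p U)⁻¹ * (ev p U)⁻¹ * ev (XL b p) U))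
      (W' b) := by
    intro b
    have hi := (R1.polyL b p).inv hp
    have ha : R1 b (fun U => ∑ a : Fin n × Fin n, 2 * ev (XL a p) U * ev (XL b (XL a p)) U)
        (fun U => ∑ a : Fin n × Fin n, (2 * ev (XL b (XL a p)) U * ev (XL b (XL a p)) U +
          2 * ev (XL a p) U * ev (XL b (XL b (XL a p))) U)) := by
      refine R1.sum _ fun a _ => ?_
      refine (((R1.const b 2).mul (R1.polyL b (XL a p))).mul (R1.polyL b _)).congr
        (fun _ _ => rfl) fun U _ => by ring
    have hb : R1 b (fun U => ∑ a : Fin n × Fin n, ev (XL a p) U ^ 2)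
        (fun U => ∑ a : Fin n × Fin n, 2 * ev (XL a p) U * ev (XL b (XL a p)) U) := by
      refine R1.sum _ fun a _ => ?_
      exact ((R1.polyL b (XL a p)).mul (R1.polyL b (XL a p))).congr
        (fun _ _ => by ring) fun U _ => by ring
    exact (ha.mul hi).sub (hb.mul ((hi.mul hi).mul (R1.polyL b _)))
  have h2 : ∫ U, ∑ b, W' b U ∂μ = 0 := by
    rw [integral_finsetSum _ fun b _ => integrable_of hμ (h1 b).c']
    exact Finset.sum_eq_zero fun b _ => (h1 b).integral_eq_zero hμ
  have h3 : ∀ U ∈ SO n, ∑ b, W' b U = dI p U + 2 * (ev p U)⁻¹ *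
      ∑ b : Fin n × Fin n, ∑ a : Fin n × Fin n,
        (ev (XL b (XL a p)) U - ev (XL b p) U * ev (XL a p) U * (ev p U)⁻¹) ^ 2 := by
    intro U hU
    have hc : ∀ a : Fin n × Fin n, ev (XL a (Cas p)) U =
        ∑ b : Fin n × Fin n, ev (XL b (XL b (XL a p))) U := by
      intro a
      rw [← Cas_eq]
      congr 1
      exact (Cas_comm a.1 a.2 p).symm
    unfold dI
    simp only [hc, Gam_eq, Cas_eq, hW']
    have e1 : ∑ a : Fin n × Fin n, 2 * ev (XL a p) U * ∑ b : Fin n × Fin n,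
        ev (XL b (XL b (XL a p))) U =
        ∑ b : Fin n × Fin n, ∑ a : Fin n × Fin n, 2 * ev (XL a p) U * ev (XL b (XL b (XL a p))) U := by
      rw [Finset.sum_comm]
      exact Finset.sum_congr rfl fun a _ => by rw [Finset.mul_sum]
    rw [e1, Finset.sum_mul, Finset.mul_sum, Finset.mul_sum, Finset.mul_sum,
      ← Finset.sum_sub_distrib, ← Finset.sum_add_distrib]
    refine Finset.sum_congr rfl fun b _ => ?_
    simp only [Finset.sum_mul, Finset.mul_sum, ← Finset.sum_add_distrib, ← Finset.sum_sub_distrib]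
    refine Finset.sum_congr rfl fun a _ => ?_
    ring
  have h4 : ∀ U ∈ SO n, dI p U + 2 * ((n : ℝ) - 2) * (Gam p U / ev p U) ≤ ∑ b, W' b U := by
    intro U hU
    rw [h3 U hU]
    have h5 := sum_sq_ge (fun b a : Fin n × Fin n => ev (XL b (XL a p)) U)
      (fun b a => ev (XL b p) U * ev (XL a p) U * (ev p U)⁻¹) (fun a b => by ring)
    rw [comm_sum'] at h5
    have h6 : 0 < (ev p U)⁻¹ := inv_pos.mpr (hp U hU)
    rw [div_eq_mul_inv]
    nlinarith
  have hcI : ContinuousOn (fun U => Gam p U / ev p U) (SO n) :=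
    (continuous_Gam p).continuousOn.div (continuous_ev p).continuousOn hne
  have hcd : ContinuousOn (dI p) (SO n) := by
    have hi : ContinuousOn (fun U => (ev p U)⁻¹) (SO n) := (continuous_ev p).continuousOn.inv₀ hne
    unfold dI
    refine ((continuousOn_finsetSum _ fun a _ => ?_).mul hi).sub
      ((continuous_Gam p).continuousOn.mul ((hi.pow 2).mul (continuous_ev _).continuousOn))
    exact ((continuous_const.mul (continuous_ev _)).mul (continuous_ev _)).continuousOn
  have h7 : ∫ U, (dI p U + 2 * ((n : ℝ) - 2) * (Gam p U / ev p U)) ∂μ ≤ ∫ U, ∑ b, W' b U ∂μ := by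
    refine integral_mono_ae (integrable_of hμ (hcd.add (continuousOn_const.mul hcI)))
      (integrable_of hμ (continuousOn_finsetSum _ fun b _ => (h1 b).c')) ?_
    filter_upwards [hμ.mem] with U hU using h4 U hU
  rw [h2, integral_add (integrable_of hμ hcd) ((integrable_of hμ hcI).const_mul _),
    integral_const_mul] at h7
  linarith

theorem ent_le_var (hμ : SOInv μ) {f : Mat n → ℝ} (hf : ContinuousOn f (SO n))
    (hp : ∀ U ∈ SO n, 0 < f U) {m : ℝ} (hm0 : 0 < m) (hm : ∫ U, f U ∂μ = m) :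
    ∫ U, f U * Real.log (f U) ∂μ ≤ m * Real.log m + (∫ U, (f U - m) ^ 2 ∂μ) / m := by
  have hne : ∀ U ∈ SO n, f U ≠ 0 := fun U hU => (hp U hU).ne'
  have h1 : ∫ U, f U * Real.log (f U) ∂μ ≤
      ∫ U, ((Real.log m + 1) * f U + (-m + m⁻¹ * (f U - m) ^ 2)) ∂μ := by
    refine integral_mono_ae (integrable_of hμ (hf.mul (hf.log hne)))
      (integrable_of hμ ((continuousOn_const.mul hf).add (continuousOn_const.add
        (continuousOn_const.mul ((hf.sub continuousOn_const).pow 2))))) ?_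
    filter_upwards [hμ.mem] with U hU
    have h0 := hp U hU
    have h2 : Real.log (f U / m) ≤ f U / m - 1 := Real.log_le_sub_one_of_pos (div_pos h0 hm0)
    rw [Real.log_div h0.ne' hm0.ne'] at h2
    have h3 : f U * (Real.log (f U) - Real.log m) ≤ f U * (f U / m - 1) :=
      mul_le_mul_of_nonneg_left h2 h0.le
    have h4 : f U * (f U / m - 1) = f U + (-m + m⁻¹ * (f U - m) ^ 2) := by
      field_simp; ring
    nlinarith
  have i1 : Integrable (fun U => m⁻¹ * (f U - m) ^ 2) μ := integrable_of hμ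
    (continuousOn_const.mul ((hf.sub continuousOn_const).pow 2))
  have i2 : Integrable (fun U => -m + m⁻¹ * (f U - m) ^ 2) μ := (integrable_const _).add i1
  rw [integral_add ((integrable_of hμ hf).const_mul _) i2,
    integral_add (integrable_const _) i1, integral_const_mul, integral_const_mul, hm] at h1
  simp only [integral_const, probReal_univ, smul_eq_mul, one_mul] at h1
  rw [div_eq_inv_mul]
  linarith

/-- **Logarithmic Sobolev inequality** on `SO(n)` for positive polynomials. -/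
theorem poly_lsi (hμ : SOInv μ) (hn : 2 < n) (p : PolyM n) (hp : ∀ U ∈ SO n, 0 < ev p U) :
    ∫ U, ev p U * Real.log (ev p U) ∂μ - (∫ U, ev p U ∂μ) * Real.log (∫ U, ev p U ∂μ) ≤
      (2 * ((n : ℝ) - 2))⁻¹ * ∫ U, Gam p U / ev p U ∂μ := by
  set ρ : ℝ := (n : ℝ) - 2 with hρ
  have hρ0 : 0 < ρ := by
    have : (2 : ℝ) < n := by exact_mod_cast hn
    linarith
  have hSne : (SO n).Nonempty := ⟨fun a b => if a = b then 1 else 0, by
    have : Matrix.of (fun a b : Fin n => if a = b then (1 : ℝ) else 0) = 1 := by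
      ext a b; simp [Matrix.one_apply]
    unfold SO
    rw [Set.mem_ofPred_eq, this]; exact Submonoid.one_mem _⟩
  obtain ⟨U0, hU0, hmin⟩ := isCompact_SO.exists_isMinOn hSne (continuous_ev p).continuousOn
  obtain ⟨U1, hU1, hmax⟩ := isCompact_SO.exists_isMaxOn hSne (continuous_ev p).continuousOn
  set m0 := ev p U0 with hm0
  set M0 := ev p U1 with hM0
  have hm0p : 0 < m0 := hp U0 hU0
  obtain ⟨P, hP0, hP⟩ := exists_flow p
  have hlow : ∀ t, 0 ≤ t → ∀ U ∈ SO n, m0 ≤ ev (P t) U := fun t ht U hU =>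
    hP.lower (fun W hW => by rw [hP0]; exact hmin hW) ht hU
  have hup : ∀ t, 0 ≤ t → ∀ U ∈ SO n, ev (P t) U ≤ M0 := fun t ht U hU =>
    hP.upper (fun W hW => by rw [hP0]; exact hmax hW) ht hU
  have hc0 : Continuous fun z : ℝ × Mat n => ev (P z.1) z.2 := hP.cont LinearMap.id
  have hcC : Continuous fun z : ℝ × Mat n => ev (Cas (P z.1)) z.2 := hP.cont Cas
  have hcX : ∀ a, Continuous fun z : ℝ × Mat n => ev (XL a (P z.1)) z.2 := fun a => hP.cont (XL a)
  have hcXC : ∀ a, Continuous fun z : ℝ × Mat n => ev (XL a (Cas (P z.1))) z.2 := fun a =>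
    hP.cont (XL a ∘ₗ Cas)
  have hcG : Continuous fun z : ℝ × Mat n => Gam (P z.1) z.2 := by
    simp only [Gam_eq]
    exact continuous_finsetSum _ fun a _ => (hcX a).pow 2
  set I : Set ℝ := {t | ∀ U ∈ SO n, 0 < ev (P t) U} with hI
  have hIo : IsOpen I := by
    rw [isOpen_iff_mem_nhds]
    intro t ht
    refine isCompact_SO.eventually_forall_of_forall_eventually
      (P := fun t U => 0 < ev (P t) U) fun U hU => ?_
    exact hc0.continuousAt.eventually (lt_mem_nhds (ht U hU))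
  have hIs : ∀ t, 0 ≤ t → t ∈ I := fun t ht U hU => hm0p.trans_le (hlow t ht U hU)
  have hne : ∀ z ∈ I ×ˢ SO n, ev (P z.1) z.2 ≠ 0 := fun z hz => (hz.1 z.2 hz.2).ne'
  have hd0 : ∀ U t, HasDerivAt (fun s => ev (P s) U) (ev (Cas (P t)) U) t := fun U t =>
    hP.der LinearMap.id U t
  -- mean
  have hmean : ∀ t, ∫ U, ev (P t) U ∂μ = ∫ U, ev p U ∂μ := by
    have hd : ∀ t, HasDerivAt (fun s => ∫ U, ev (P s) U ∂μ) 0 t := by
      intro t
      have := hasDerivAt_int hμ isOpen_univ (F := fun s U => ev (P s) U)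
        (F' := fun s U => ev (Cas (P s)) U) (fun t _ => (continuous_ev _).continuousOn)
        hcC.continuousOn (fun t _ U _ => hd0 U t) (mem_univ t)
      rwa [integral_Cas hμ] at this
    intro t
    rw [← hP0]
    exact is_const_of_deriv_eq_zero (fun s => (hd s).differentiableAt) (fun s => (hd s).deriv) t 0
  set m := ∫ U, ev p U ∂μ with hm
  have hmpos : 0 < m := by
    have : ∫ _U : Mat n, m0 ∂μ ≤ m := by
      refine integral_mono_ae (integrable_const _) (integrable_of hμ (continuous_ev p).continuousOn) ?_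
      filter_upwards [hμ.mem] with U hU using hmin hU
    simp only [integral_const, probReal_univ, smul_eq_mul, one_mul] at this
    linarith
  set A : ℝ → ℝ := fun t => ∫ U, ev (P t) U * Real.log (ev (P t) U) ∂μ with hA
  set J : ℝ → ℝ := fun t => ∫ U, Gam (P t) U / ev (P t) U ∂μ with hJ
  have hAd : ∀ t ∈ I, HasDerivAt A (-J t) t := by
    intro t ht
    have := hasDerivAt_int hμ hIo (F := fun s U => ev (P s) U * Real.log (ev (P s) U))
      (F' := fun s U => (Real.log (ev (P s) U) + 1) * ev (Cas (P s)) U)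
      (fun s hs => (continuous_ev _).continuousOn.mul
        ((continuous_ev _).continuousOn.log fun U hU => (hs U hU).ne'))
      (((hc0.continuousOn.log hne).add continuousOn_const).mul hcC.continuousOn)
      (fun s hs U hU => by
        have h1 := (hd0 U s).fun_mul ((hd0 U s).log (hs U hU).ne')
        refine h1.congr_deriv ?_
        have := (hs U hU).ne'
        field_simp) ht
    rwa [int_log_Cas hμ _ ht] at this
  have hJd : ∀ t ∈ I, ∃ j, HasDerivAt J j t ∧ j ≤ -(2 * ρ) * J t := by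
    intro t ht
    refine ⟨_, ?_, int_dI_le hμ _ ht⟩
    refine hasDerivAt_int hμ hIo (F := fun s U => Gam (P s) U / ev (P s) U)
      (F' := fun s U => dI (P s) U)
      (fun s hs => (continuous_Gam _).continuousOn.div (continuous_ev _).continuousOn
        fun U hU => (hs U hU).ne') ?_ ?_ ht
    · have hi : ContinuousOn (fun z : ℝ × Mat n => (ev (P z.1) z.2)⁻¹) (I ×ˢ SO n) :=
        hc0.continuousOn.inv₀ hne
      unfold dI
      refine ((continuousOn_finsetSum _ fun a _ => ?_).mul hi).sub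
        (hcG.continuousOn.mul ((hi.pow 2).mul hcC.continuousOn))
      exact ((continuous_const.mul (hcX a)).mul (hcXC a)).continuousOn
    · intro s hs U hU
      have h1 : HasDerivAt (fun r => Gam (P r) U)
          (∑ a : Fin n × Fin n, 2 * ev (XL a (P s)) U * ev (XL a (Cas (P s))) U) s := by
        simp only [Gam_eq]
        refine HasDerivAt.fun_sum fun a _ => ?_
        simpa using (hP.der (XL a) U s).fun_pow 2
      have h2 := h1.fun_div (hd0 U s) (hs U hU).ne'
      refine h2.congr_deriv ?_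
      have := (hs U hU).ne'
      unfold dI
      field_simp
  choose! j hj hjle using hJd
  have hJ0 : ∀ t, 0 ≤ t → 0 ≤ J t := fun t ht => by
    refine integral_nonneg_of_ae ?_
    filter_upwards [hμ.mem] with U hU using div_nonneg (Gam_nonneg _ _) (hIs t ht U hU).le
  have hmono : MonotoneOn (fun t => A t - (2 * ρ)⁻¹ * J t) (Ici 0) := by
    have hd : ∀ t, 0 ≤ t → HasDerivAt (fun t => A t - (2 * ρ)⁻¹ * J t)
        (-J t - (2 * ρ)⁻¹ * j t) t := fun t ht =>
      (hAd t (hIs t ht)).sub ((hj t (hIs t ht)).const_mul _)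
    refine monotoneOn_of_hasDerivWithinAt_nonneg (convex_Ici 0)
      (fun t ht => (hd t ht).continuousAt.continuousWithinAt)
      (fun t ht => (hd t (interior_subset ht)).hasDerivWithinAt) fun t ht => ?_
    have h1 := hjle t (hIs t (interior_subset ht))
    have h2 : (2 * ρ)⁻¹ * j t ≤ (2 * ρ)⁻¹ * (-(2 * ρ) * J t) :=
      mul_le_mul_of_nonneg_left h1 (by positivity)
    have h3 : (2 * ρ)⁻¹ * (-(2 * ρ) * J t) = -J t := by field_simp
    linarith
  have hanti : AntitoneOn (fun t => J t * (1 + 2 * ρ * t)) (Ici 0) := by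
    have hd : ∀ t, 0 ≤ t → HasDerivAt (fun t => J t * (1 + 2 * ρ * t))
        (j t * (1 + 2 * ρ * t) + J t * (2 * ρ)) t := fun t ht => by
      have h1 : HasDerivAt (fun t => 1 + 2 * ρ * t) (2 * ρ) t := by
        simpa using ((hasDerivAt_id t).const_mul (2 * ρ)).const_add 1
      exact (hj t (hIs t ht)).fun_mul h1
    refine antitoneOn_of_hasDerivWithinAt_nonpos (convex_Ici 0)
      (fun t ht => (hd t ht).continuousAt.continuousWithinAt)
      (fun t ht => (hd t (interior_subset ht)).hasDerivWithinAt) fun t ht => ?_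
    have ht0 : 0 ≤ t := interior_subset ht
    have h1 := hjle t (hIs t ht0)
    have h2 := hJ0 t ht0
    have h3 : 0 ≤ 2 * ρ * t := by positivity
    have h4 : j t * (1 + 2 * ρ * t) ≤ -(2 * ρ) * J t * (1 + 2 * ρ * t) :=
      mul_le_mul_of_nonneg_right h1 (by linarith)
    have h5 : 0 ≤ 2 * ρ * J t * (2 * ρ * t) := by positivity
    nlinarith
  have hend : ∀ T, 0 ≤ T → A 0 - (2 * ρ)⁻¹ * J 0 ≤
      m * Real.log m + (M0 * J 0 / (ρ * m)) / (1 + 2 * ρ * T) := by
    intro T hT
    have h1 := hmono (mem_Ici.mpr le_rfl) (mem_Ici.mpr hT) hT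
    have h2 := hanti (mem_Ici.mpr le_rfl) (mem_Ici.mpr hT) hT
    simp only [mul_zero, add_zero, mul_one] at h1 h2
    have h3 := ent_le_var hμ (continuous_ev (P T)).continuousOn (hIs T hT) hmpos (hmean T)
    have h4 := poly_poincare hμ hn (P T)
    rw [hmean T] at h4
    have h5 : ∫ U, Gam (P T) U ∂μ ≤ M0 * J T := by
      rw [hJ, ← integral_const_mul]
      refine integral_mono_ae (integrable_of hμ (continuous_Gam _).continuousOn)
        (integrable_of hμ (continuousOn_const.mul ((continuous_Gam _).continuousOn.div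
          (continuous_ev _).continuousOn fun U hU => (hIs T hT U hU).ne'))) ?_
      filter_upwards [hμ.mem] with U hU
      have h6 := hIs T hT U hU
      have h7 := hup T hT U hU
      have h8 := Gam_nonneg (P T) U
      rw [mul_div_assoc', le_div_iff₀ h6]
      nlinarith
    have hM0 : 0 ≤ M0 := (hp U1 hU1).le
    have hT1 : 0 < 1 + 2 * ρ * T := by positivity
    have h6 : (∫ U, (ev (P T) U - m) ^ 2 ∂μ) / m ≤ (M0 * J 0 / (ρ * m)) / (1 + 2 * ρ * T) := by
      rw [div_div, div_le_div_iff₀ hmpos (by positivity)]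
      have h7 : ρ * (∫ U, (ev (P T) U - m) ^ 2 ∂μ) * (1 + 2 * ρ * T) ≤ M0 * J T * (1 + 2 * ρ * T) :=
        mul_le_mul_of_nonneg_right (h4.trans h5) hT1.le
      have h8 : M0 * (J T * (1 + 2 * ρ * T)) ≤ M0 * J 0 := mul_le_mul_of_nonneg_left h2 hM0
      nlinarith
    have h9 : 0 ≤ (2 * ρ)⁻¹ * J T := mul_nonneg (by positivity) (hJ0 T hT)
    have h10 : A T = ∫ U, ev (P T) U * Real.log (ev (P T) U) ∂μ := rfl
    linarith
  have hlim : Tendsto (fun T : ℝ => m * Real.log m + (M0 * J 0 / (ρ * m)) / (1 + 2 * ρ * T)) atTop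
      (𝓝 (m * Real.log m + 0)) := by
    refine tendsto_const_nhds.add (tendsto_const_nhds.div_atTop ?_)
    exact tendsto_atTop_add_const_left _ _ (tendsto_id.const_mul_atTop (by positivity))
  have hfin := ge_of_tendsto hlim ((eventually_ge_atTop 0).mono hend)
  simp only [hA, hJ, hP0] at hfin
  linarith

end Crest.Agent.T157.Oc
end

-- ▼ part T157/OcB_9

set_option autoImplicit false

/-!
Row 157, A2 tools (helper9).  Polynomial mollifier on `SO(n)`; the class `RD` of `C^1` functions on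
`SO(n)`; logarithmic Sobolev and Poincare inequalities for it; gradient bound of Lipschitz
polynomials.
-/

namespace Crest.Agent.T157.Oc

open MvPolynomial MeasureTheory Crest.Agent.Lib.OrthPoinc Filter Topology Set

variable {n : ℕ}

/-- `f` is `C^1` on `SO(n)`, `D a` its derivative along the rotation `a`. -/
structure RD (f : Mat n → ℝ) (D : Fin n × Fin n → Mat n → ℝ) : Prop where
  c : ContinuousOn f (SO n)
  r : ∀ a, R1 a f (D a)

/-- squared gradient -/
noncomputable def sqD (D : Fin n × Fin n → Mat n → ℝ) (U : Mat n) : ℝ := ∑ a, D a U ^ 2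

theorem sqD_nonneg (D : Fin n × Fin n → Mat n → ℝ) (U : Mat n) : 0 ≤ sqD D U := by
  unfold sqD; positivity

namespace RD

variable {f g : Mat n → ℝ} {D E : Fin n × Fin n → Mat n → ℝ}


theorem poly (p : PolyM n) : RD (ev p) (fun a => ev (XL a p)) :=
  ⟨(continuous_ev p).continuousOn, fun a => R1.polyL a p⟩

theorem const (c : ℝ) : RD (n := n) (fun _ => c) (fun _ _ => 0) :=
  ⟨continuousOn_const, fun a => R1.const a c⟩

theorem add (hf : RD f D) (hg : RD g E) : RD (fun U => f U + g U) (fun a U => D a U + E a U) :=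
  ⟨hf.c.add hg.c, fun a => (hf.r a).add (hg.r a)⟩

theorem sub (hf : RD f D) (hg : RD g E) : RD (fun U => f U - g U) (fun a U => D a U - E a U) :=
  ⟨hf.c.sub hg.c, fun a => (hf.r a).sub (hg.r a)⟩

theorem mul (hf : RD f D) (hg : RD g E) :
    RD (fun U => f U * g U) (fun a U => D a U * g U + f U * E a U) :=
  ⟨hf.c.mul hg.c, fun a => (hf.r a).mul (hg.r a)⟩

theorem congr (hf : RD f D) (h1 : ∀ U ∈ SO n, f U = g U) (h2 : ∀ a, ∀ U ∈ SO n, D a U = E a U) :
    RD g E :=
  ⟨hf.c.congr fun U hU => (h1 U hU).symm, fun a => (hf.r a).congr h1 (h2 a)⟩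

theorem const_mul (hf : RD f D) (c : ℝ) : RD (fun U => c * f U) (fun a U => c * D a U) :=
  ((const c).mul hf).congr (fun _ _ => rfl) fun _ _ _ => by ring

theorem sum {ι : Type*} (s : Finset ι) {f : ι → Mat n → ℝ} {D : ι → Fin n × Fin n → Mat n → ℝ}
    (h : ∀ k ∈ s, RD (f k) (D k)) :
    RD (fun U => ∑ k ∈ s, f k U) (fun a U => ∑ k ∈ s, D k a U) :=
  ⟨continuousOn_finsetSum s fun k hk => (h k hk).c, fun a => R1.sum s fun k hk => (h k hk).r a⟩

theorem comp (hf : RD f D) {S : Set ℝ} (hS : ∀ U ∈ SO n, f U ∈ S) {φ φ' : ℝ → ℝ}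
    (hφ : ∀ x ∈ S, HasDerivAt φ (φ' x) x) (hφ' : ContinuousOn φ' S) :
    RD (fun U => φ (f U)) (fun a U => φ' (f U) * D a U) :=
  ⟨ContinuousOn.comp (g := φ) (fun x hx => (hφ x hx).continuousAt.continuousWithinAt) hf.c hS,
    fun a => (hf.r a).comp hS hφ hφ'⟩

theorem exp (hf : RD f D) : RD (fun U => Real.exp (f U)) (fun a U => Real.exp (f U) * D a U) :=
  ⟨Real.continuous_exp.comp_continuousOn hf.c, fun a => (hf.r a).exp⟩

theorem log (hf : RD f D) (h0 : ∀ U ∈ SO n, 0 < f U) :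
    RD (fun U => Real.log (f U)) (fun a U => (f U)⁻¹ * D a U) :=
  ⟨hf.c.log fun U hU => (h0 U hU).ne', fun a => (hf.r a).log h0⟩

theorem cD (hf : RD f D) : ContinuousOn (sqD D) (SO n) :=
  continuousOn_finsetSum _ fun a _ => (hf.r a).c'.pow 2

end RD

/-! ### products, traces, Frobenius distance -/

/-- the product `V U` -/
noncomputable def mm (V U : Mat n) : Mat n := rmul (Matrix.of U) V

theorem mm_apply (V U : Mat n) (a b : Fin n) : mm V U a b = ∑ k, V a k * U k b := by
  simp [mm, rmul_apply]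

theorem mm_mem {V U : Mat n} (hV : V ∈ SO n) (hU : U ∈ SO n) : mm V U ∈ SO n := rmul_mem_SO hU hV

theorem continuous_mm (U : Mat n) : Continuous fun V => mm V U := continuous_rmul _

theorem ro_mm (a : Fin n × Fin n) (t : ℝ) (V U : Mat n) : ro a t (mm V U) = mm V (ro a t U) := by
  obtain ⟨R, -, h⟩ := exists_ro_eq a t
  rw [h, h, mm, mm, rmul_rmul]
  rfl

theorem so_cols {V : Mat n} (hV : V ∈ SO n) (i j : Fin n) :
    ∑ a, V a i * V a j = if i = j then 1 else 0 := by
  simpa using so_rows (transpose_mem_so hV) i j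

theorem so_rows' {V : Mat n} (hV : V ∈ SO n) (a b : Fin n) :
    ∑ k, V a k * V b k = if a = b then 1 else 0 := ((mem_SO_iff V).mp hV).1 a b

theorem frob_mul {V : Mat n} (hV : V ∈ SO n) (Y : Mat n) :
    ∑ a, ∑ b, (∑ i, V a i * Y i b) ^ 2 = ∑ i, ∑ b, Y i b ^ 2 := by
  rw [Finset.sum_comm, Finset.sum_comm (f := fun i b => Y i b ^ 2)]
  refine Finset.sum_congr rfl fun b _ => ?_
  have h : ∀ a, (∑ i, V a i * Y i b) ^ 2 = ∑ i, ∑ j, (V a i * V a j) * (Y i b * Y j b) := by
    intro a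
    rw [sq, Finset.sum_mul_sum]
    exact Finset.sum_congr rfl fun i _ => Finset.sum_congr rfl fun j _ => by ring
  simp only [h]
  rw [Finset.sum_comm]
  refine Finset.sum_congr rfl fun i _ => ?_
  rw [Finset.sum_comm]
  simp only [← Finset.sum_mul, so_cols hV]
  simp [sq]

/-- squared Frobenius distance -/
noncomputable def fd (U W : Mat n) : ℝ := ∑ a, ∑ b, (U a b - W a b) ^ 2


theorem fd_mm {V : Mat n} (hV : V ∈ SO n) (U W : Mat n) : fd (mm V U) (mm V W) = fd U W := by
  unfold fd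
  rw [← frob_mul hV (fun i b => U i b - W i b)]
  refine Finset.sum_congr rfl fun a _ => Finset.sum_congr rfl fun b _ => ?_
  rw [mm_apply, mm_apply, ← Finset.sum_sub_distrib]
  congr 1
  exact Finset.sum_congr rfl fun k _ => by ring

/-- trace -/
noncomputable def tr (V : Mat n) : ℝ := ∑ a, V a a

theorem continuous_tr : Continuous (tr (n := n)) := by unfold tr; fun_prop

theorem ip_mm {U : Mat n} (hU : U ∈ SO n) (V : Mat n) :
    ∑ a, ∑ b, mm V U a b * U a b = tr V := by
  unfold tr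
  refine Finset.sum_congr rfl fun a _ => ?_
  simp only [mm_apply, Finset.sum_mul]
  rw [Finset.sum_comm]
  have : ∀ k, ∑ b, V a k * U k b * U a b = V a k * if k = a then 1 else 0 := by
    intro k
    rw [← so_rows' hU k a, Finset.mul_sum]
    exact Finset.sum_congr rfl fun b _ => by ring
  simp [this]

theorem frob_so {U : Mat n} (hU : U ∈ SO n) : ∑ a, ∑ b, U a b ^ 2 = n := by
  have : ∀ a, ∑ b, U a b ^ 2 = 1 := fun a => by simpa [sq] using so_rows' hU a a
  simp [this]

theorem fd_mm_self {V U : Mat n} (hV : V ∈ SO n) (hU : U ∈ SO n) :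
    fd (mm V U) U = 2 * n - 2 * tr V := by
  have h1 := frob_so (mm_mem hV hU)
  have h2 := frob_so hU
  have h3 := ip_mm hU V
  have : fd (mm V U) U = ∑ a, ∑ b, mm V U a b ^ 2 + ∑ a, ∑ b, U a b ^ 2 -
      2 * ∑ a, ∑ b, mm V U a b * U a b := by
    unfold fd
    simp only [Finset.mul_sum, ← Finset.sum_add_distrib, ← Finset.sum_sub_distrib]
    exact Finset.sum_congr rfl fun a _ => Finset.sum_congr rfl fun b _ => by ring
  rw [this, h1, h2, h3]; ring

theorem sq_le_fd (U W : Mat n) (a b : Fin n) : (U a b - W a b) ^ 2 ≤ fd U W := by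
  unfold fd
  calc (U a b - W a b) ^ 2 ≤ ∑ b, (U a b - W a b) ^ 2 :=
        Finset.single_le_sum (f := fun b => (U a b - W a b) ^ 2) (fun _ _ => sq_nonneg _)
          (Finset.mem_univ b)
    _ ≤ _ := Finset.single_le_sum (f := fun a => ∑ b, (U a b - W a b) ^ 2)
          (fun _ _ => by positivity) (Finset.mem_univ a)

theorem neg_le_tr {V : Mat n} (hV : V ∈ SO n) : 0 ≤ n + tr V := by
  have : ∑ _a : Fin n, (-1 : ℝ) ≤ tr V :=
    Finset.sum_le_sum fun a _ => (abs_le.mp (abs_le_one_of_so hV a a)).1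
  simp at this
  linarith

variable {μ : Measure (Mat n)} [IsProbabilityMeasure μ]

theorem meas_nbhd_pos (hμ : SOInv μ) {δ : ℝ} (hδ : 0 < δ) : 0 < μ.real {V | n - δ < tr V} := by
  have hN : IsOpen {V : Mat n | n - δ < tr V} := isOpen_lt continuous_const continuous_tr
  rw [measureReal_def, ENNReal.toReal_pos_iff]
  refine ⟨pos_iff_ne_zero.mpr fun h0 => ?_, measure_lt_top _ _⟩
  have h1 : μ (SO n) = 0 := by
    refine isCompact_SO.measure_zero_of_nhdsWithin fun U hU => ?_
    refine ⟨rmul (Matrix.of U).transpose ⁻¹' {V | n - δ < tr V}, mem_nhdsWithin_of_mem_nhds ?_, ?_⟩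
    · refine (hN.preimage (continuous_rmul _)).mem_nhds ?_
      have : tr (rmul (Matrix.of U).transpose U) = n := by
        unfold tr
        have : ∀ a, rmul (Matrix.of U).transpose U a a = 1 := fun a => by
          simpa [rmul_apply] using so_rows' hU a a
        simp [this]
      simp only [mem_preimage, Set.mem_ofPred_eq, this]
      linarith
    · rw [(hμ.mp (V := (Matrix.of U).transpose) (transpose_mem_so hU)).measure_preimage hN.measurableSet.nullMeasurableSet, h0]
  have h2 : μ (SO n)ᶜ = 0 := hμ.mem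
  have h3 := measure_add_measure_compl (μ := μ) (isClosed_SO (n := n)).measurableSet
  rw [h1, h2] at h3
  simp at h3

/-- the kernel -/
noncomputable def ker (m : ℕ) (V : Mat n) : ℝ := (n + tr V) ^ m

theorem continuous_ker (m : ℕ) : Continuous (ker (n := n) m) :=
  (continuous_const.add continuous_tr).pow m

theorem ker_nonneg (m : ℕ) {V : Mat n} (hV : V ∈ SO n) : 0 ≤ ker m V := pow_nonneg (neg_le_tr hV) m

theorem ker_lower (hμ : SOInv μ) {δ : ℝ} (hδn : δ ≤ 2 * n) (m : ℕ) :
    (2 * n - δ) ^ m * μ.real {V | n - δ < tr V} ≤ ∫ V, ker m V ∂μ := by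
  refine le_trans ?_ (mul_meas_ge_le_integral_of_nonneg ?_
    (integrable_of hμ (continuous_ker m).continuousOn) ((2 * n - δ) ^ m))
  · refine mul_le_mul_of_nonneg_left (measureReal_mono fun V hV => ?_) (pow_nonneg (by linarith) m)
    simp only [Set.mem_ofPred_eq] at hV ⊢
    exact pow_le_pow_left₀ (by linarith) (by linarith) m
  · filter_upwards [hμ.mem] with V hV using ker_nonneg m hV

theorem ker_pos (hμ : SOInv μ) (hn : 0 < n) (m : ℕ) : 0 < ∫ V, ker m V ∂μ := by
  have h1 : (1 : ℝ) ≤ n := by exact_mod_cast hn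
  refine lt_of_lt_of_le ?_ (ker_lower hμ (δ := 1) (by linarith) m)
  exact mul_pos (pow_pos (by linarith) m) (meas_nbhd_pos hμ one_pos)

/-- the mollified function -/
noncomputable def mol (μ : Measure (Mat n)) (m : ℕ) (g : Mat n → ℝ) (U : Mat n) : ℝ :=
  (∫ V, ker m V ∂μ)⁻¹ * ∫ V, g (mm V U) * ker m V ∂μ

theorem contOn_mm {g : Mat n → ℝ} (hg : ContinuousOn g (SO n)) {U : Mat n} (hU : U ∈ SO n) :
    ContinuousOn (fun V => g (mm V U)) (SO n) :=
  hg.comp (continuous_mm U).continuousOn fun _ hV => mm_mem hV hU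

theorem exists_poly_aux (hμ : SOInv μ) (m : ℕ) : ∀ g : Mat n → ℝ, ContinuousOn g (SO n) →
    ∃ p : PolyM n, ∀ U, ev p U = ∫ W, g W * (n + ∑ a, ∑ b, W a b * U a b) ^ m ∂μ := by
  induction m with
  | zero => exact fun g _ => ⟨C (∫ W, g W ∂μ), fun U => by simp [ev_C]⟩
  | succ m ih =>
    intro g hg
    obtain ⟨p, hp⟩ := ih g hg
    have hc : ∀ a b : Fin n, ContinuousOn (fun W : Mat n => g W * W a b) (SO n) := fun a b =>
      hg.mul (by fun_prop : Continuous fun W : Mat n => W a b).continuousOn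
    choose q hq using fun a b : Fin n => ih (fun W => g W * W a b) (hc a b)
    refine ⟨C (n : ℝ) * p + ∑ a, ∑ b, X (a, b) * q a b, fun U => ?_⟩
    have hk : Continuous fun W : Mat n => ((n : ℝ) + ∑ a, ∑ b, W a b * U a b) ^ m := by fun_prop
    have i1 : Integrable (fun W => (n : ℝ) * (g W * (n + ∑ a, ∑ b, W a b * U a b) ^ m)) μ :=
      (integrable_of hμ (hg.mul hk.continuousOn)).const_mul _
    have i2 : ∀ a b, Integrable (fun W => U a b *
        (g W * W a b * (n + ∑ a, ∑ b, W a b * U a b) ^ m)) μ := fun a b =>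
      (integrable_of hμ ((hc a b).mul hk.continuousOn)).const_mul _
    simp only [ev_add, ev_mul, ev_C, ev_sum, ev_X, hp, hq, ← integral_const_mul]
    have e : ∀ a, ∑ b, ∫ W, U a b * (g W * W a b * (n + ∑ a, ∑ b, W a b * U a b) ^ m) ∂μ =
        ∫ W, ∑ b, U a b * (g W * W a b * (n + ∑ a, ∑ b, W a b * U a b) ^ m) ∂μ := fun a =>
      (integral_finsetSum _ fun b _ => i2 a b).symm
    simp only [e]
    rw [← integral_finsetSum _ fun a _ => integrable_finsetSum _ fun b _ => i2 a b,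
      ← integral_add i1 (integrable_finsetSum _ fun a _ => integrable_finsetSum _ fun b _ => i2 a b)]
    congr 1
    funext W
    set Y := ((n : ℝ) + ∑ a, ∑ b, W a b * U a b) ^ m with hY
    rw [pow_succ, ← hY, mul_add, mul_add, Finset.mul_sum, Finset.mul_sum]
    congr 1
    · ring
    · refine Finset.sum_congr rfl fun a _ => ?_
      rw [Finset.mul_sum, Finset.mul_sum]
      exact Finset.sum_congr rfl fun b _ => by ring

theorem exists_poly_mol (hμ : SOInv μ) (m : ℕ) {g : Mat n → ℝ} (hg : ContinuousOn g (SO n)) :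
    ∃ p : PolyM n, ∀ U ∈ SO n, ev p U = mol μ m g U := by
  obtain ⟨p, hp⟩ := exists_poly_aux hμ m g hg
  refine ⟨(∫ V, ker m V ∂μ)⁻¹ • p, fun U hU => ?_⟩
  rw [ev_smul, hp, mol]
  congr 1
  have hk : Continuous fun W : Mat n => ((n : ℝ) + ∑ a, ∑ b, W a b * U a b) ^ m := by fun_prop
  have h2 := integral_map (μ := μ) (φ := rmul (Matrix.of U))
    (f := fun W => g W * (n + ∑ a, ∑ b, W a b * U a b) ^ m)
    (continuous_rmul _).measurable.aemeasurable
    (by rw [hμ.inv (Matrix.of U) hU]; exact aesm_of hμ (hg.mul hk.continuousOn))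
  rw [hμ.inv (Matrix.of U) hU] at h2
  rw [h2]
  congr 1
  funext V
  have := ip_mm hU V
  unfold mm at this
  rw [this]; rfl

theorem hasDerivAt_mol (hμ : SOInv μ) (m : ℕ) {a : Fin n × Fin n} {f f' : Mat n → ℝ}
    (hf : R1 a f f') {U : Mat n} (hU : U ∈ SO n) :
    HasDerivAt (fun t => mol μ m f (ro a t U)) (mol μ m f' U) 0 := by
  unfold mol
  refine HasDerivAt.const_mul _ ?_
  have hj : Continuous fun z : ℝ × Mat n => ro a z.1 (mm z.2 U) :=
    (continuous_ro a).comp (f := fun z : ℝ × Mat n => (z.1, mm z.2 U))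
      (continuous_fst.prodMk ((continuous_mm U).comp continuous_snd))
  have := hasDerivAt_int hμ isOpen_univ (F := fun t V => f (ro a t (mm V U)) * ker m V)
    (F' := fun t V => f' (ro a t (mm V U)) * ker m V)
    (fun t _ => by
      simp only [ro_mm]
      exact (contOn_mm hf.c (ro_mem a t hU)).mul (continuous_ker m).continuousOn)
    ((hf.c'.comp hj.continuousOn fun z hz => ro_mem a z.1 (mm_mem hz.2 hU)).mul
      ((continuous_ker m).comp continuous_snd).continuousOn)
    (fun t _ V hV => (hf.d_at (mm_mem hV hU) t).mul_const _) (mem_univ 0)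
  simpa only [ro_mm, ro_zero] using this

theorem mol_sub_le (hμ : SOInv μ) (hn : 0 < n) (m : ℕ) {h : Mat n → ℝ}
    {ε B : ℝ} (hb : ∀ V ∈ SO n, |h V * ker m V| ≤ ε * ker m V + B) :
    |(∫ V, ker m V ∂μ)⁻¹ * ∫ V, h V * ker m V ∂μ| ≤ ε + B / ∫ V, ker m V ∂μ := by
  have hZ := ker_pos hμ hn m
  have ik := integrable_of hμ (continuous_ker (n := n) m).continuousOn
  have h1 : |∫ V, h V * ker m V ∂μ| ≤ ∫ V, (ε * ker m V + B) ∂μ := by
    rw [← Real.norm_eq_abs]
    refine norm_integral_le_of_norm_le ((ik.const_mul ε).add (integrable_const B)) ?_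
    filter_upwards [hμ.mem] with V hV using hb V hV
  rw [integral_add (ik.const_mul ε) (integrable_const B), integral_const_mul] at h1
  simp only [integral_const, probReal_univ, smul_eq_mul, one_mul] at h1
  rw [abs_mul, abs_of_pos (inv_pos.mpr hZ)]
  calc _ ≤ (∫ V, ker m V ∂μ)⁻¹ * (ε * ∫ V, ker m V ∂μ + B) :=
        mul_le_mul_of_nonneg_left h1 (inv_pos.mpr hZ).le
    _ = _ := by field_simp

theorem mol_sub_eq (hμ : SOInv μ) (hn : 0 < n) (m : ℕ) {g : Mat n → ℝ} (hg : ContinuousOn g (SO n))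
    {U : Mat n} (hU : U ∈ SO n) (c : ℝ) :
    mol μ m g U - c = (∫ V, ker m V ∂μ)⁻¹ * ∫ V, (g (mm V U) - c) * ker m V ∂μ := by
  have hZ := ker_pos hμ hn m
  have ik := integrable_of hμ (continuous_ker (n := n) m).continuousOn
  have i1 : Integrable (fun V => g (mm V U) * ker m V) μ :=
    integrable_of hμ ((contOn_mm hg hU).mul (continuous_ker m).continuousOn)
  simp only [sub_mul]
  rw [integral_sub i1 (ik.const_mul c), integral_const_mul, mol]
  field_simp

theorem mol_approx (hμ : SOInv μ) (hn : 0 < n) {g : Mat n → ℝ} (hg : ContinuousOn g (SO n))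
    {ε : ℝ} (hε : 0 < ε) : ∀ᶠ m in atTop, ∀ U ∈ SO n, |mol μ m g U - g U| ≤ ε := by
  have h1n : (1 : ℝ) ≤ n := by exact_mod_cast hn
  obtain ⟨K, hK⟩ := isCompact_SO.exists_bound_of_continuousOn hg
  obtain ⟨η, hη, hu⟩ := Metric.uniformContinuousOn_iff.mp
    (isCompact_SO.uniformContinuousOn_of_continuous hg) (ε / 2) (by linarith)
  set δ := min 1 (η ^ 2 / 4) with hδ
  have hδ0 : 0 < δ := lt_min one_pos (by positivity)
  have hδ1 : δ ≤ 1 := min_le_left _ _
  have hδ2 : δ ≤ η ^ 2 / 4 := min_le_right _ _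
  set c := μ.real {V | n - δ / 2 < tr V} with hc
  have hc0 : 0 < c := meas_nbhd_pos hμ (by linarith)
  have hr : Tendsto (fun m : ℕ => 2 * |K| / c * ((2 * n - δ) / (2 * n - δ / 2)) ^ m) atTop
      (𝓝 (2 * |K| / c * 0)) :=
    (tendsto_pow_atTop_nhds_zero_of_lt_one (div_nonneg (by linarith) (by linarith))
      ((div_lt_one (by linarith)).mpr (by linarith))).const_mul _
  rw [mul_zero] at hr
  filter_upwards [hr.eventually (ge_mem_nhds (by linarith : 0 < ε / 2))] with m hm U hU
  rw [mol_sub_eq hμ hn m hg hU]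
  have hp : 0 ≤ (2 * (n : ℝ) - δ) ^ m := pow_nonneg (by linarith) m
  refine (mol_sub_le hμ hn m (h := fun V => g (mm V U) - g U) (ε := ε / 2)
    (B := 2 * |K| * (2 * n - δ) ^ m) fun V hV => ?_).trans ?_
  · have hk := ker_nonneg m hV
    rw [abs_mul, abs_of_nonneg hk]
    by_cases hV1 : n - δ < tr V
    · have hd : dist (mm V U) U < η := by
        rw [dist_pi_lt_iff hη]
        intro a
        rw [dist_pi_lt_iff hη]
        intro b
        have h3 := sq_le_fd (mm V U) U a b
        rw [fd_mm_self hV hU] at h3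
        rw [Real.dist_eq]
        refine abs_lt_of_sq_lt_sq ?_ hη.le
        nlinarith
      have h4 := hu _ (mm_mem hV hU) _ hU hd
      rw [Real.dist_eq] at h4
      have h5 : 0 ≤ 2 * |K| * (2 * (n : ℝ) - δ) ^ m := by positivity
      have h6 := mul_le_mul_of_nonneg_right h4.le hk
      linarith
    · push Not at hV1
      have h3 : ker m V ≤ (2 * (n : ℝ) - δ) ^ m := pow_le_pow_left₀ (neg_le_tr hV) (by linarith) m
      have h4 : |g (mm V U) - g U| ≤ 2 * |K| := by
        have a1 := hK _ (mm_mem hV hU)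
        have a2 := hK _ hU
        rw [Real.norm_eq_abs] at a1 a2
        have a3 := le_abs_self K
        have := abs_sub (g (mm V U)) (g U)
        linarith
      have h5 : |g (mm V U) - g U| * ker m V ≤ 2 * |K| * (2 * (n : ℝ) - δ) ^ m :=
        mul_le_mul h4 h3 hk (by positivity)
      have h6 : 0 ≤ ε / 2 * ker m V := by positivity
      linarith
  · have h3 := ker_lower hμ (δ := δ / 2) (by linarith) m
    have h4 : 0 < (2 * (n : ℝ) - δ / 2) ^ m := pow_pos (by linarith) m
    have h5 : 2 * |K| * (2 * n - δ) ^ m / ∫ V, ker m V ∂μ ≤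
        2 * |K| * (2 * n - δ) ^ m / ((2 * (n : ℝ) - δ / 2) ^ m * c) :=
      div_le_div_of_nonneg_left (by positivity) (by positivity) h3
    have h6 : 2 * |K| * (2 * n - δ) ^ m / ((2 * (n : ℝ) - δ / 2) ^ m * c) =
        2 * |K| / c * ((2 * n - δ) / (2 * n - δ / 2)) ^ m := by
      rw [div_pow]; field_simp
    linarith

theorem ev_XL_of_mol (hμ : SOInv μ) {m : ℕ} {a : Fin n × Fin n} {f f' : Mat n → ℝ}
    (hf : R1 a f f') {p : PolyM n} (hp : ∀ U ∈ SO n, ev p U = mol μ m f U) {U : Mat n}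
    (hU : U ∈ SO n) : ev (XL a p) U = mol μ m f' U := by
  have h1 := (R1.polyL a p).d U hU
  have h2 := hasDerivAt_mol hμ m hf hU
  refine h1.unique (h2.congr_of_eventuallyEq (Eventually.of_forall fun t => hp _ (ro_mem a t hU)))

/-- `C^1` approximation by polynomials on `SO(n)`. -/
theorem RD.approx (hμ : SOInv μ) (hn : 0 < n) {f : Mat n → ℝ} {D : Fin n × Fin n → Mat n → ℝ}
    (hf : RD f D) {ε : ℝ} (hε : 0 < ε) :
    ∃ p : PolyM n, ∀ U ∈ SO n, |ev p U - f U| ≤ ε ∧ ∀ a, |ev (XL a p) U - D a U| ≤ ε := by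
  obtain ⟨m, h1, h2⟩ := ((mol_approx hμ hn hf.c hε).and
    (eventually_all.mpr fun a => mol_approx hμ hn (hf.r a).c' hε)).exists
  obtain ⟨p, hp⟩ := exists_poly_mol hμ m hf.c
  refine ⟨p, fun U hU => ⟨by rw [hp U hU]; exact h1 U hU, fun a => ?_⟩⟩
  rw [ev_XL_of_mol hμ (hf.r a) hp hU]
  exact h2 a U hU

theorem tendsto_int (hμ : SOInv μ) {G : ℕ → Mat n → ℝ} {g : Mat n → ℝ}
    (hG : ∀ k, ContinuousOn (G k) (SO n)) (K : ℝ) (hK : ∀ k, ∀ U ∈ SO n, |G k U| ≤ K)
    (hl : ∀ U ∈ SO n, Tendsto (fun k => G k U) atTop (𝓝 (g U))) :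
    Tendsto (fun k => ∫ U, G k U ∂μ) atTop (𝓝 (∫ U, g U ∂μ)) := by
  refine tendsto_integral_of_dominated_convergence (fun _ => K) (fun k => aesm_of hμ (hG k))
    (integrable_const _) (fun k => ?_) ?_
  · filter_upwards [hμ.mem] with U hU using hK k U hU
  · filter_upwards [hμ.mem] with U hU using hl U hU

theorem RD.seq (hμ : SOInv μ) (hn : 0 < n) {f : Mat n → ℝ} {D : Fin n × Fin n → Mat n → ℝ}
    (hf : RD f D) {ε : ℝ} (hε : 0 < ε) :
    ∃ (p : ℕ → PolyM n) (K : ℝ), (∀ k, ∀ U ∈ SO n, |ev (p k) U - f U| ≤ ε) ∧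
      (∀ k, ∀ U ∈ SO n, |ev (p k) U| ≤ K) ∧ (∀ k, ∀ U ∈ SO n, Gam (p k) U ≤ K) ∧
      (∀ U ∈ SO n, Tendsto (fun k => ev (p k) U) atTop (𝓝 (f U))) ∧
      (∀ U ∈ SO n, Tendsto (fun k => Gam (p k) U) atTop (𝓝 (sqD D U))) := by
  choose p hp using fun k : ℕ => hf.approx hμ hn (ε := ε * (1 / ((k : ℝ) + 1))) (by positivity)
  have hε0 : Tendsto (fun k : ℕ => ε * (1 / ((k : ℝ) + 1))) atTop (𝓝 0) := by
    simpa using (tendsto_one_div_add_atTop_nhds_zero_nat (𝕜 := ℝ)).const_mul ε
  have hε1 : ∀ k : ℕ, ε * (1 / ((k : ℝ) + 1)) ≤ ε := by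
    intro k
    refine mul_le_of_le_one_right hε.le ?_
    rw [div_le_one (by positivity)]
    have : (0 : ℝ) ≤ k := Nat.cast_nonneg k
    linarith
  obtain ⟨K0, hK0⟩ := isCompact_SO.exists_bound_of_continuousOn hf.c
  obtain ⟨K1, hK1⟩ := isCompact_SO.exists_bound_of_continuousOn hf.cD
  refine ⟨p, max (K0 + ε) (2 * K1 + 2 * ∑ _a : Fin n × Fin n, ε ^ 2), fun k U hU =>
    (hp k U hU).1.trans (hε1 k), fun k U hU => le_trans ?_ (le_max_left _ _),
    fun k U hU => le_trans ?_ (le_max_right _ _), fun U hU => ?_, fun U hU => ?_⟩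
  · have h1 := (hp k U hU).1.trans (hε1 k)
    have h2 := hK0 U hU
    rw [Real.norm_eq_abs] at h2
    have h3 := abs_sub_abs_le_abs_sub (ev (p k) U) (f U)
    linarith
  · have h2 := (le_abs_self _).trans (hK1 U hU)
    have h3 : Gam (p k) U ≤ ∑ a, (2 * D a U ^ 2 + 2 * ε ^ 2) := by
      rw [Gam_eq]
      refine Finset.sum_le_sum fun a _ => ?_
      have h4 := abs_le.mp (((hp k U hU).2 a).trans (hε1 k))
      nlinarith [sq_nonneg (ev (XL a (p k)) U - 2 * D a U)]
    rw [Finset.sum_add_distrib, ← Finset.mul_sum, ← Finset.mul_sum] at h3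
    unfold sqD at h2
    linarith
  · rw [tendsto_iff_dist_tendsto_zero]
    exact squeeze_zero (fun _ => dist_nonneg) (fun k => (hp k U hU).1) hε0
  · simp only [Gam_eq]
    refine tendsto_finsetSum _ fun a _ => Tendsto.pow ?_ 2
    rw [tendsto_iff_dist_tendsto_zero]
    exact squeeze_zero (fun _ => dist_nonneg) (fun k => (hp k U hU).2 a) hε0

theorem SO_nonempty : (SO n).Nonempty := ⟨fun a b => if a = b then 1 else 0, by
  have : Matrix.of (fun a b : Fin n => if a = b then (1 : ℝ) else 0) = 1 := by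
    ext a b; simp [Matrix.one_apply]
  unfold SO
  rw [Set.mem_ofPred_eq, this]; exact Submonoid.one_mem _⟩

/-- **LSI**, positive form. -/
theorem RD.lsi_pos (hμ : SOInv μ) (hn : 2 < n) {f : Mat n → ℝ} {D : Fin n × Fin n → Mat n → ℝ}
    (hf : RD f D) (h0 : ∀ U ∈ SO n, 0 < f U) :
    ∫ U, f U * Real.log (f U) ∂μ - (∫ U, f U ∂μ) * Real.log (∫ U, f U ∂μ) ≤
      (2 * ((n : ℝ) - 2))⁻¹ * ∫ U, sqD D U / f U ∂μ := by
  obtain ⟨U0, hU0, hmin⟩ := isCompact_SO.exists_isMinOn SO_nonempty hf.c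
  set m0 := f U0 with hm0
  have hm0p : 0 < m0 := h0 U0 hU0
  obtain ⟨p, K, h1, h2, h3, h4, h5⟩ := hf.seq hμ (by omega) (ε := m0 / 2) (by linarith)
  have hlow : ∀ k, ∀ U ∈ SO n, m0 / 2 ≤ ev (p k) U := fun k U hU => by
    have a1 := (abs_le.mp (h1 k U hU)).1
    have a2 : m0 ≤ f U := hmin hU
    linarith
  have hpos : ∀ k, ∀ U ∈ SO n, 0 < ev (p k) U := fun k U hU => by linarith [hlow k U hU]
  obtain ⟨K1, hK1⟩ := (isCompact_Icc (a := -K) (b := K)).exists_bound_of_continuousOn
    Real.continuous_mul_log.continuousOn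
  have t1 := tendsto_int hμ (G := fun k U => ev (p k) U * Real.log (ev (p k) U))
    (g := fun U => f U * Real.log (f U))
    (fun k => Real.continuous_mul_log.comp_continuousOn (continuous_ev _).continuousOn) K1
    (fun k U hU => hK1 _ (abs_le.mp (h2 k U hU)))
    (fun U hU => (Real.continuous_mul_log.tendsto _).comp (h4 U hU))
  have t2 := tendsto_int hμ (G := fun k U => ev (p k) U) (g := f)
    (fun k => (continuous_ev _).continuousOn) K h2 h4
  have t3 := tendsto_int hμ (G := fun k U => Gam (p k) U / ev (p k) U)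
    (g := fun U => sqD D U / f U)
    (fun k => (continuous_Gam _).continuousOn.div (continuous_ev _).continuousOn
      fun U hU => (hpos k U hU).ne') (K / (m0 / 2))
    (fun k U hU => by
      rw [abs_of_nonneg (div_nonneg (Gam_nonneg _ _) (hpos k U hU).le)]
      exact div_le_div₀ ((Gam_nonneg _ _).trans (h3 k U hU)) (h3 k U hU) (by linarith)
        (hlow k U hU))
    (fun U hU => (h5 U hU).div (h4 U hU) (h0 U hU).ne')
  exact le_of_tendsto_of_tendsto' (t1.sub ((Real.continuous_mul_log.tendsto _).comp t2))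
    (t3.const_mul _) fun k => poly_lsi hμ hn (p k) (hpos k)

/-- **LSI on `SO(n)`**: `Ent(e^g) ≤ (2(n-2))⁻¹ E[|Dg|² e^g]`. -/
theorem RD.lsi (hμ : SOInv μ) (hn : 2 < n) {g : Mat n → ℝ} {D : Fin n × Fin n → Mat n → ℝ}
    (hg : RD g D) :
    ∫ U, g U * Real.exp (g U) ∂μ - (∫ U, Real.exp (g U) ∂μ) * Real.log (∫ U, Real.exp (g U) ∂μ) ≤
      (2 * ((n : ℝ) - 2))⁻¹ * ∫ U, sqD D U * Real.exp (g U) ∂μ := by
  have h := hg.exp.lsi_pos hμ hn fun U _ => Real.exp_pos _
  have e1 : ∀ U, Real.exp (g U) * Real.log (Real.exp (g U)) = g U * Real.exp (g U) := fun U => by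
    rw [Real.log_exp, mul_comm]
  have e2 : ∀ U, sqD (fun a U => Real.exp (g U) * D a U) U / Real.exp (g U) =
      sqD D U * Real.exp (g U) := fun U => by
    unfold sqD
    rw [div_eq_iff (Real.exp_pos _).ne', Finset.sum_mul, Finset.sum_mul]
    exact Finset.sum_congr rfl fun a _ => by ring
  simpa only [e1, e2] using h

/-- **Poincare inequality on `SO(n)`** for `C^1` functions. -/
theorem RD.poincare (hμ : SOInv μ) (hn : 2 < n) {f : Mat n → ℝ} {D : Fin n × Fin n → Mat n → ℝ}
    (hf : RD f D) :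
    ∫ U, (f U - ∫ V, f V ∂μ) ^ 2 ∂μ ≤ ((n : ℝ) - 2)⁻¹ * ∫ U, sqD D U ∂μ := by
  have hρ0 : (0 : ℝ) < (n : ℝ) - 2 := by
    have : (2 : ℝ) < n := by exact_mod_cast hn
    linarith
  obtain ⟨p, K, -, h2, h3, h4, h5⟩ := hf.seq hμ (by omega) one_pos
  have t2 := tendsto_int hμ (G := fun k U => ev (p k) U) (g := f)
    (fun k => (continuous_ev _).continuousOn) K h2 h4
  have hm : ∀ k, |∫ V, ev (p k) V ∂μ| ≤ K := fun k => by
    have : ‖∫ V, ev (p k) V ∂μ‖ ≤ K * μ.real univ := norm_integral_le_of_norm_le_const (by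
      filter_upwards [hμ.mem] with U hU using h2 k U hU)
    simpa using this
  have t1 := tendsto_int hμ (G := fun k U => (ev (p k) U - ∫ V, ev (p k) V ∂μ) ^ 2)
    (g := fun U => (f U - ∫ V, f V ∂μ) ^ 2)
    (fun k => (((continuous_ev _).sub continuous_const).pow 2).continuousOn) ((2 * K) ^ 2)
    (fun k U hU => by
      rw [abs_of_nonneg (sq_nonneg _)]
      have a1 := abs_le.mp (h2 k U hU)
      have a2 := abs_le.mp (hm k)
      exact sq_le_sq' (by linarith [a1.1, a2.2]) (by linarith [a1.2, a2.1]))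
    (fun U hU => ((h4 U hU).sub t2).pow 2)
  have t3 := tendsto_int hμ (G := fun k U => Gam (p k) U) (g := sqD D)
    (fun k => (continuous_Gam _).continuousOn) K
    (fun k U hU => by rw [abs_of_nonneg (Gam_nonneg _ _)]; exact h3 k U hU) h5
  have := le_of_tendsto_of_tendsto' (t1.const_mul _) t3 fun k => poly_poincare hμ hn (p k)
  rw [inv_mul_eq_div, le_div_iff₀ hρ0]
  linarith

/-! ### Lipschitz functions -/

theorem exists_curve (c : Fin n × Fin n → ℝ) {U : Mat n} (hU : U ∈ SO n)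
    (s : Finset (Fin n × Fin n)) : ∃ γ : ℝ → Mat n, (∀ t, γ t ∈ SO n) ∧ γ 0 = U ∧
      ∀ a b, HasDerivAt (fun t => γ t a b) (∑ e ∈ s, c e * ev (XL e (X (a, b))) U) 0 := by
  classical
  induction s using Finset.induction_on with
  | empty => exact ⟨fun _ => U, fun _ => hU, rfl, fun a b => by simpa using hasDerivAt_const _ _⟩
  | insert e s he ih =>
    obtain ⟨γ, h1, h2, h3⟩ := ih
    refine ⟨fun t => ro e (c e * t) (γ t), fun t => ro_mem _ _ (h1 t), by simp [ro_zero, h2],
      fun a b => ?_⟩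
    rw [Finset.sum_insert he]
    have hX : ev (XL e (X (a, b))) U = (if b = e.2 then U a e.1 else 0) -
        (if b = e.1 then U a e.2 else 0) := by
      have : XL e (X (a, b)) = Xd e.1 e.2 (X (a, b)) := rfl
      rw [this, Xd_X, ev_sub]
      congr 1 <;> split_ifs <;> simp [ev_X, ev_zero]
    rw [hX]
    have hl : HasDerivAt (fun t => c e * t) (c e) 0 := by simpa using (hasDerivAt_id (0 : ℝ)).const_mul (c e)
    have hcos := hl.cos
    have hsin := hl.sin
    simp only [mul_zero, Real.sin_zero, neg_zero, zero_mul, Real.cos_zero, one_mul] at hcos hsin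
    unfold ro
    by_cases h : e.1 = e.2
    · simp only [h, if_true, sub_self, mul_zero, zero_add]
      exact h3 a b
    · simp only [h, if_false]
      unfold rot
      by_cases hb : b = e.2
      · have hb' : ¬ b = e.1 := fun h' => h (h'.symm.trans hb)
        simp only [hb, if_true, Ne.symm h, if_false]
        refine ((hcos.fun_mul (h3 a e.2)).add (hsin.fun_mul (h3 a e.1))).congr_deriv ?_
        simp [h2]; ring
      · by_cases hb' : b = e.1
        · simp only [hb', if_true, h, if_false]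
          refine ((hcos.fun_mul (h3 a e.1)).sub (hsin.fun_mul (h3 a e.2))).congr_deriv ?_
          simp [h2]; ring
        · simp only [hb, hb', if_false, sub_self, mul_zero, zero_add]
          exact h3 a b

theorem hasDerivAt_ev_curve (c : Fin n × Fin n → ℝ) {U : Mat n} {γ : ℝ → Mat n} (h2 : γ 0 = U)
    (h3 : ∀ a b, HasDerivAt (fun t => γ t a b) (∑ e, c e * ev (XL e (X (a, b))) U) 0)
    (p : PolyM n) : HasDerivAt (fun t => ev p (γ t)) (∑ e, c e * ev (XL e p) U) 0 := by
  induction p using MvPolynomial.induction_on with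
  | C r =>
    have h : ∀ e : Fin n × Fin n, XL e (C r : PolyM n) = 0 := fun e =>
      MvPolynomial.derivation_C (Xd e.1 e.2) r
    simp only [ev_C, h, ev_zero, mul_zero, Finset.sum_const_zero]
    exact hasDerivAt_const _ _
  | add p q hp hq =>
    simp only [ev_add, map_add, mul_add, Finset.sum_add_distrib]
    exact hp.add hq
  | mul_X p ab hp =>
    obtain ⟨a, b⟩ := ab
    simp only [ev_mul, ev_X]
    refine (hp.fun_mul (h3 a b)).congr_deriv ?_
    rw [h2, Finset.sum_mul, Finset.mul_sum, ← Finset.sum_add_distrib]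
    refine Finset.sum_congr rfl fun e _ => ?_
    have : XL e (p * X (a, b)) = p * XL e (X (a, b)) + X (a, b) * XL e p := by
      have := (Xd e.1 e.2).leibniz p (X (a, b))
      rw [smul_eq_mul, smul_eq_mul] at this
      exact this
    rw [this, ev_add, ev_mul, ev_mul, ev_X]; ring

/-- A polynomial which is `L`-Lipschitz on `SO(n)` for the Frobenius distance has `Γ ≤ 4 L²`. -/
theorem Gam_le_of_lip (p : PolyM n) {L : ℝ}
    (hL : ∀ U ∈ SO n, ∀ W ∈ SO n, |ev p U - ev p W| ≤ L * √(fd U W)) {U : Mat n} (hU : U ∈ SO n) :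
    Gam p U ≤ 4 * L ^ 2 := by
  set y : Fin n × Fin n → ℝ := fun e => ev (XL e p) U with hy
  obtain ⟨γ, h1, h2, h3⟩ := exists_curve y hU Finset.univ
  have h4 := hasDerivAt_ev_curve y h2 h3 p
  have hG : ∑ e, y e * ev (XL e p) U = Gam p U := by
    rw [Gam_eq]; exact Finset.sum_congr rfl fun e _ => by rw [hy, sq]
  rw [hG] at h4
  have hv : ∀ a b, ∑ e, y e * ev (XL e (X (a, b))) U = ∑ i, U a i * (2 * y (i, b)) := by
    intro a b
    have hX : ∀ e : Fin n × Fin n, ev (XL e (X (a, b))) U = (if b = e.2 then U a e.1 else 0) -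
        (if b = e.1 then U a e.2 else 0) := by
      intro e
      have : XL e (X (a, b)) = Xd e.1 e.2 (X (a, b)) := rfl
      rw [this, Xd_X, ev_sub]
      congr 1 <;> split_ifs <;> simp [ev_X, ev_zero]
    have hsk : ∀ j, y (b, j) = - y (j, b) := fun j => by
      have : XL (b, j) p = - XL (j, b) p := Xd_swap_apply j b p
      simp only [hy, this, ev_neg]
    simp only [hX, mul_sub, Finset.sum_sub_distrib, Fintype.sum_prod_type, mul_ite, mul_zero,
      Finset.sum_ite_eq, Finset.mem_univ, if_true]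
    rw [Finset.sum_comm]
    simp only [Finset.sum_ite_eq, Finset.mem_univ, if_true, hsk, ← Finset.sum_sub_distrib]
    exact Finset.sum_congr rfl fun i _ => by ring
  have hs : ∑ a, ∑ b, (∑ e, y e * ev (XL e (X (a, b))) U) ^ 2 = 4 * Gam p U := by
    simp only [hv]
    rw [frob_mul hU (fun i b => 2 * y (i, b)), Gam_eq, Fintype.sum_prod_type, Finset.mul_sum]
    refine Finset.sum_congr rfl fun i _ => ?_
    rw [Finset.mul_sum]
    exact Finset.sum_congr rfl fun b _ => by ring
  have t1 := h4.tendsto_slope_zero_right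
  have t2 : Tendsto (fun t : ℝ => L * √(∑ a, ∑ b, (t⁻¹ • (γ (0 + t) a b - γ 0 a b)) ^ 2)) (𝓝[>] 0)
      (𝓝 (L * √(4 * Gam p U))) := by
    rw [← hs]
    refine Tendsto.const_mul _ (Tendsto.sqrt ?_)
    exact tendsto_finsetSum _ fun a _ => tendsto_finsetSum _ fun b _ =>
      (h3 a b).tendsto_slope_zero_right.pow 2
  have h5 : Gam p U ≤ L * √(4 * Gam p U) := by
    refine le_of_tendsto_of_tendsto t1 t2 ?_
    filter_upwards [self_mem_nhdsWithin] with t ht
    have ht0 : 0 < t⁻¹ := inv_pos.mpr ht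
    have h6 := (le_abs_self _).trans (hL _ (h1 (0 + t)) _ (h1 0))
    have h7 : √(∑ a, ∑ b, (t⁻¹ • (γ (0 + t) a b - γ 0 a b)) ^ 2) = t⁻¹ * √(fd (γ (0 + t)) (γ 0)) := by
      simp only [smul_eq_mul, mul_pow, ← Finset.mul_sum]
      rw [Real.sqrt_mul (sq_nonneg _), Real.sqrt_sq ht0.le]; rfl
    change t⁻¹ • (ev p (γ (0 + t)) - ev p (γ 0)) ≤
      L * √(∑ a, ∑ b, (t⁻¹ • (γ (0 + t) a b - γ 0 a b)) ^ 2)
    rw [h7, smul_eq_mul]
    nlinarith
  have h6 := Gam_nonneg p U
  have h7 : √(4 * Gam p U) ^ 2 = 4 * Gam p U := Real.sq_sqrt (by linarith)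
  nlinarith [sq_nonneg (√(4 * Gam p U) - 4 * L)]

theorem contOn_of_lip {f : Mat n → ℝ} {L : ℝ}
    (hL : ∀ U ∈ SO n, ∀ W ∈ SO n, |f U - f W| ≤ L * √(fd U W)) : ContinuousOn f (SO n) := by
  intro W hW
  rw [ContinuousWithinAt, tendsto_iff_dist_tendsto_zero]
  have hc : Continuous fun U : Mat n => L * √(fd U W) := by unfold fd; fun_prop
  have h0 : L * √(fd W W) = 0 := by simp [fd]
  refine squeeze_zero' (Eventually.of_forall fun _ => dist_nonneg) ?_
    (h0 ▸ (hc.tendsto W).mono_left nhdsWithin_le_nhds)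
  filter_upwards [self_mem_nhdsWithin] with U hU using hL U hU W hW

/-- approximation of Lipschitz functions by polynomials with `Γ ≤ 4 L²` -/
theorem lip_approx (hμ : SOInv μ) (hn : 0 < n) {f : Mat n → ℝ} {L : ℝ}
    (hL : ∀ U ∈ SO n, ∀ W ∈ SO n, |f U - f W| ≤ L * √(fd U W)) {ε : ℝ} (hε : 0 < ε) :
    ∃ p : PolyM n, ∀ U ∈ SO n, |ev p U - f U| ≤ ε ∧ Gam p U ≤ 4 * L ^ 2 := by
  have hf := contOn_of_lip hL
  obtain ⟨m, h1⟩ := (mol_approx hμ hn hf hε).exists
  obtain ⟨p, hp⟩ := exists_poly_mol hμ m hf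
  refine ⟨p, fun U hU => ⟨by rw [hp U hU]; exact h1 U hU, Gam_le_of_lip p ?_ hU⟩⟩
  intro U hU W hW
  rw [hp U hU, hp W hW]
  have i1 : ∀ Y ∈ SO n, Integrable (fun V => f (mm V Y) * ker m V) μ := fun Y hY =>
    integrable_of hμ ((contOn_mm hf hY).mul (continuous_ker m).continuousOn)
  have e : mol μ m f U - mol μ m f W =
      (∫ V, ker m V ∂μ)⁻¹ * ∫ V, (f (mm V U) - f (mm V W)) * ker m V ∂μ := by
    simp only [sub_mul]
    rw [integral_sub (i1 U hU) (i1 W hW), mol, mol]; ring
  rw [e]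
  have := mol_sub_le hμ hn m (h := fun V => f (mm V U) - f (mm V W)) (ε := L * √(fd U W)) (B := 0)
    fun V hV => by
      have hk := ker_nonneg m hV
      have h2 := hL _ (mm_mem hV hU) _ (mm_mem hV hW)
      rw [fd_mm hV] at h2
      rw [abs_mul, abs_of_nonneg hk, add_zero]
      exact mul_le_mul_of_nonneg_right h2 hk
  simpa using this

end Crest.Agent.T157.Oc
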