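import Crest.Agent.T157.CtOne_63
import Crest.Agent.T157.EtTime_90
import Crest.Agent.T157.CpDef_72
import Crest.Agent.T157.LlInst_18
import Crest.Agent.T157.O7G_13
import Crest.Agent.T157.CwDef_8
import Crest.Agent.T157.SwDerA_91
import Crest.Agent.T157.OcD_9
import Crest.Agent.T157.CwTr_72
import Crest.Agent.T157.CwEng_63
import Crest.Agent.T157.CwLtA_15
import Crest.Agent.T157.CpNear_56
import Crest.Agent.T157.O0S4_5_Mg
import Crest.Agent.T157.O7W_22
import Crest.Agent.T157.CnDef_63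

-- ▼ part T157/CtAll_63
section

/-!
# Row 157, coin windows (helper63): transfer at all times
-/

set_option autoImplicit false

noncomputable section

namespace Crest.Agent.T157.Cw

open MeasureTheory Matrix Set Function Real Filter Topology
open scoped ENNReal
open Crest.ProbabilityR.SpinGlassDynamics
open Crest.Agent.T157.E Crest.Agent.T157.Crit Crest.Agent.T157.SL
open Crest.Agent.T157.Qe (V Mx)
open Crest.Agent.T157.Top (Whp)
open Crest.Agent.T157.Ks.St0 (JP PW)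

/-- coins with a Gaussian diagonal -/
abbrev CG (n : ℕ) : Measure ((Pair n → ℝ) × V n) := (couplingLaw true n).prod (gv (Fin n))

namespace All63

lemma markov_log {α : Type*} [MeasurableSpace α] {μ : Measure α} [IsProbabilityMeasure μ]
    {Y : α → ℝ} (h0 : ∀ x, 0 < Y x) (h1 : Integrable Y μ) (h2 : Integrable (fun x => log (Y x)) μ)
    (h3 : ∫ x, Y x ∂μ ≤ 1) {A D : ℝ} (hA : 1 < A) (h4 : -∫ x, log (Y x) ∂μ ≤ D) :
    μ.real {x | ¬ exp (-A) ≤ Y x} ≤ D / (A - 1) := by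
  have i1 : Integrable (fun x => Y x - 1) μ := h1.sub (integrable_const 1)
  have h := mul_meas_ge_le_integral_of_nonneg (f := fun x => Y x - 1 - log (Y x)) (.of_forall fun g =>
    sub_nonneg.2 (log_le_sub_one_of_pos (h0 g))) (i1.sub h2) (A - 1)
  rw [integral_sub i1 h2, integral_sub h1 (integrable_const 1)] at h
  rw [le_div_iff₀' (by linarith)]
  refine le_trans (mul_le_mul_of_nonneg_left (measureReal_mono fun g hg => ?_) (by linarith))
    (h.trans (by simp only [integral_const, probReal_univ, smul_eq_mul, mul_one]; linarith))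
  have := (log_lt_iff_lt_exp (h0 g)).2 (not_le.1 hg)
  have := h0 g
  simp only [mem_ofPred_eq]
  linarith

lemma lim_log {c a : ℝ} (hc : 0 < c) (ha : 0 < a) : ∃ u : ℕ → ℝ, Tendsto u atTop (𝓝 0) ∧
    ∀ᶠ n : ℕ in atTop, 1 < a * (n : ℝ) ^ c ∧ 1 / (a * (n : ℝ) ^ c - 1) ≤ u n ∧
      (log (2 * n) ^ 2 / 4 + 3 / 4) / (a * (n : ℝ) ^ c - 1) ≤ u n := by
  have hA := (Pl.tendsto_rpow_div_log_sq hc).const_mul_atTop ha
  refine ⟨_, hA.inv_tendsto_atTop.const_mul 4 |>.trans_eq (by simp), ?_⟩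
  filter_upwards [hA.eventually_ge_atTop 2, eventually_ge_atTop 3] with n h2 h3
  have hn : (3 : ℝ) ≤ n := by exact_mod_cast h3
  have hl : 1 ≤ log (n : ℝ) := by
    rw [le_log_iff_exp_le (by linarith)]; linarith [exp_one_lt_d9]
  have hl2 : 1 ≤ log (n : ℝ) ^ 2 := one_le_pow₀ hl
  rw [← mul_div_assoc, le_div_iff₀ (by positivity)] at h2
  have h4 : log (2 * n : ℝ) ≤ 2 * log n := by
    rw [log_mul two_ne_zero (by linarith)]; linarith [log_le_log two_pos (by linarith : (2 : ℝ) ≤ n)]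
  have h5 : log (2 * n : ℝ) ^ 2 ≤ (2 * log n) ^ 2 :=
    pow_le_pow_left₀ (log_nonneg (by linarith)) h4 2
  refine ⟨by linarith, ?_, ?_⟩ <;>
    rw [Pi.inv_apply, ← mul_div_assoc, inv_div, ← mul_div_assoc,
      div_le_div_iff₀ (by linarith) (by linarith)] <;> nlinarith

/-- lower tail of the partition function for coins -/
lemma lrC {c a : ℝ} (hc : 0 < c) (ha : 0 < a) :
    Whp CG fun n q => exp (-(a * (n : ℝ) ^ c)) ≤ Pl.LRW n 1 (Wmat n q.1 q.2) := by
  obtain ⟨u, u0, hu⟩ := lim_log hc (half_pos ha)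
  have h1 : Whp (couplingLaw true) fun n g => exp (-(a / 2 * (n : ℝ) ^ c)) ≤ Pl.LR false n 1 g := by
    refine Top.whp_of_real_le u0 (hu.mono fun n hn => le_trans ?_ hn.2.2)
    have e : Pl.LR false n 1 = fun g => Pl.LR true n 1 g * (Pl.EZ true n 1 / Pl.EZ false n 1) := by
      funext g
      have := Pl.EZ_pos true n 1
      simp only [Pl.LR]; field_simp
    refine markov_log (Pl.LR_pos false 1) (e ▸ (Pl.integrable_LR true 1).mul_const _) ?_ ?_ hn.1 ?_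
    · simp only [Pl.log_LR]; exact (Pl.integrable_log_Z' true 1).sub (integrable_const _)
    · rw [e, integral_mul_const, Pl.integral_LR, one_mul, div_le_one (Pl.EZ_pos _ _ _)]
      exact Pl.EZ_le _ _ _
    · have a1 := Pl.DD_false_le_crit n zero_le_one le_rfl
      have a2 := Pl.integral_log_Z_false_le (n := n) (β := 1) (by norm_num)
      rw [Pl.DD_eq] at a1
      simp only [Pl.log_LR]
      rw [integral_sub (Pl.integrable_log_Z' true 1) (integrable_const _)]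
      simp only [integral_const, probReal_univ, smul_eq_mul, one_mul]
      linarith
  have h2 : Whp (fun n => gv (Fin n)) fun n d => exp (-(a / 2 * (n : ℝ) ^ c)) ≤
      exp (d ⬝ᵥ fun _ => 1 / 2 * (√2 / √n)) / exp (1 ^ 2 / 4) := by
    refine Top.whp_of_real_le u0 ?_
    filter_upwards [hu, eventually_gt_atTop 0] with n hn n0
    have hn' : (0 : ℝ) < n := Nat.cast_pos.2 n0
    have i0 := integrable_finsetSum (μ := gv (Fin n)) Finset.univ fun i _ =>
      (R339.Guerra.integrable_coord i).mul_const (1 / 2 * (√2 / √(n : ℝ)))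
    refine le_trans (markov_log (μ := gv (Fin n)) (fun _ => by positivity)
      ((Pl.integrable_exp_dot false _).div_const _) ?_ (le_of_eq ?_) hn.1 ?_) hn.2.1
    · simp only [← exp_sub, log_exp]; exact i0.sub (integrable_const _)
    · rw [integral_div]
      erw [Pl.integral_exp_dot false]
      simp only [Pl.MM_false, dotProduct, Finset.sum_const, Finset.card_univ, Fintype.card_fin,
        nsmul_eq_mul]
      rw [mul_mul_mul_comm, div_mul_div_comm √2, mul_self_sqrt zero_le_two, mul_self_sqrt hn'.le,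
        ← exp_sub, exp_eq_one_iff]
      field_simp
      ring
    · simp only [← exp_sub, log_exp, dotProduct]
      rw [integral_sub i0 (integrable_const _), integral_finsetSum _ fun i _ =>
        (R339.Guerra.integrable_coord i).mul_const _]
      simp only [integral_mul_const, R339.Guerra.integral_coord]
      norm_num
  refine ((h1.comp fun _ => measurePreserving_fst).and (h2.comp fun _ => measurePreserving_snd)).mono ?_
  filter_upwards [eventually_gt_atTop 0] with n n0 q ⟨q1, q2⟩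
  rw [Pl.LRW_Wmat n0.ne', show -(a * (n : ℝ) ^ c) = -(a / 2 * n ^ c) + -(a / 2 * n ^ c) by ring,
    exp_add]
  exact mul_le_mul q1 q2 (exp_pos _).le (Pl.LR_pos _ _ _).le

lemma lim (A : ℝ) (m : ℕ) {c : ℝ} (hc : 0 < c) :
    Tendsto (fun n : ℕ => A * (n : ℝ) ^ m * exp (-(1 / 8 * (n : ℝ) ^ c))) atTop (𝓝 0) := by
  have h1 := ((tendsto_rpow_mul_exp_neg_mul_atTop_nhds_zero (m / c) (1 / 8) (by norm_num)).comp
    ((tendsto_rpow_atTop hc).comp tendsto_natCast_atTop_atTop)).const_mul A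
  rw [mul_zero] at h1
  refine h1.congr fun n => ?_
  simp only [Function.comp]
  rw [← rpow_mul (Nat.cast_nonneg n), mul_div_cancel₀ _ hc.ne', rpow_natCast, neg_mul, mul_assoc]

/-- the exponent of the engine is small -/
lemma aeng_le {C u H κ η t : ℝ} {n k : ℕ} (C0 : 0 < C) (u1 : 1 ≤ u) (uC : 24 * 112 ^ 4 * C ≤ u)
    (hl : 1 + log n ≤ u) (hH : u ^ 100 ≤ H) (η0 : u⁻¹ ≤ η) (η1 : η ≤ 1)
    (κ1 : 1 ≤ κ) (hκ : κ * H * u ^ 100 ≤ n * t) (hk : (k : ℝ) ≤ 4 * u ^ 2) :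
    C * Aeng n k (η * κ) t (H / (η * κ)) ((1 + 6 * η) * κ) (u ^ 50) ≤ H / 8 := by
  have u0 : 0 < u := by linarith
  have e0 : 0 < η := (inv_pos.2 u0).trans_le η0
  have e1 : η⁻¹ ≤ u := inv_le_of_inv_le₀ u0 η0
  have H0 : 0 < H := lt_of_lt_of_le (by positivity) hH
  have t0 : 0 < n * t := lt_of_lt_of_le (by positivity) hκ
  have a1 : (k : ℝ) ^ 2 * ((1 + 6 * η) * κ) / (η * κ) ≤ 112 * u ^ 5 := by
    calc _ = (k : ℝ) ^ 2 * (1 + 6 * η) * η⁻¹ := by field_simp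
      _ ≤ (4 * u ^ 2) ^ 2 * 7 * u := by gcongr; linarith
      _ = _ := by ring
  have a2 : (H / (η * κ)) ^ 2 * ((1 + 6 * η) * κ) ^ 3 / (n * t) ≤ 343 * H / u ^ 98 := by
    calc _ = η⁻¹ ^ 2 * (1 + 6 * η) ^ 3 * H * (κ * H * u ^ 100 / (n * t)) / u ^ 100 := by field_simp
      _ ≤ u ^ 2 * 7 ^ 3 * H * 1 / u ^ 100 := by
          gcongr
          · linarith
          · exact (div_le_one t0).2 hκ
      _ = _ := by field_simp; norm_num
  have p : ∀ {i j : ℕ}, i ≤ j → u ^ i ≤ u ^ j := fun h => pow_le_pow_right₀ u1 h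
  have b1 : C * (u * (112 * u ^ 5) ^ 4) ≤ H / 24 := by
    calc _ = 24 * 112 ^ 4 * C * u ^ 21 / 24 := by ring
      _ ≤ u * u ^ 21 / 24 := by gcongr
      _ ≤ _ := by rw [← pow_succ']; gcongr; exact (p (by norm_num)).trans hH
  have b2 : C * (u * (343 * H / u ^ 98)) ≤ H / 24 := by
    calc _ = 24 * 343 * C / u ^ 97 * (H / 24) := by field_simp
      _ ≤ 1 * (H / 24) := by
          gcongr
          rw [div_le_one (by positivity)]
          have := p (show 1 ≤ 97 by norm_num)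
          nlinarith
      _ = _ := one_mul _
  have b3 : C * (u * u ^ 50) ≤ H / 24 := by
    calc _ = 24 * C * u ^ 51 / 24 := by ring
      _ ≤ u * u ^ 51 / 24 := by gcongr; nlinarith
      _ ≤ _ := by rw [← pow_succ']; gcongr; exact (p (by norm_num)).trans hH
  calc _ ≤ C * (u * ((112 * u ^ 5) ^ 4 + 343 * H / u ^ 98 + u ^ 50)) := by
        unfold Aeng; gcongr
    _ ≤ _ := by rw [mul_add, mul_add, mul_add, mul_add]; linarith

lemma poly_le {u n t β H κ η : ℝ} (n1 : 1 ≤ n) (u1 : 1 ≤ u) (un : u ≤ n) (β1 : 1 ≤ β) (t0 : 0 < t)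
    (tβ : t ≤ β) (hH : u ^ 100 ≤ H) (η0 : u⁻¹ ≤ η) (η1 : η ≤ 1) (κ1 : 1 ≤ κ)
    (hκ : κ * H * u ^ 100 ≤ n * t) :
    (1 + H / (η * κ) * (n * (η * κ + t * n))) ^ 4 ≤ 81 * β ^ 8 * n ^ 16 := by
  have e0 : 0 < η := (inv_pos.2 (by linarith)).trans_le η0
  have e1 : η⁻¹ ≤ n := (inv_le_of_inv_le₀ (by linarith) η0).trans un
  have U1 : 1 ≤ u ^ 100 := one_le_pow₀ u1
  have H1 : 1 ≤ H := U1.trans hH
  have nt : n * t ≤ n * β := by gcongr
  have a0 : κ * H ≤ n * β := (le_mul_of_one_le_right (by positivity) U1).trans (hκ.trans nt)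
  have Hn : H ≤ n * β := (le_mul_of_one_le_left (by linarith) κ1).trans a0
  have κn : κ ≤ n * β := (le_mul_of_one_le_right (by linarith) H1).trans a0
  have a1 : H / (η * κ) ≤ n * β * n := by
    calc _ ≤ H / (η * 1) := by gcongr
      _ = H * η⁻¹ := by rw [mul_one, div_eq_mul_inv]
      _ ≤ _ := by gcongr
  have a2 : η * κ + t * n ≤ 2 * (n * β) := by
    have := mul_le_of_le_one_left (show 0 ≤ κ by linarith) η1
    linarith
  have a3 : 1 ≤ β ^ 2 * n ^ 4 := one_le_mul_of_one_le_of_one_le (one_le_pow₀ β1) (one_le_pow₀ n1)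
  calc _ ≤ (β ^ 2 * n ^ 4 + n * β * n * (n * (2 * (n * β)))) ^ 4 := by gcongr
    _ = _ := by ring

lemma one_le (h1 : EngStmt) (h2 : LmStmt) (h3 : AlgStmt) : ∃ C : ℝ,
    ∀ (n : ℕ) (u t β H κ η : ℝ) (Y : Mx n → ℝ) (S : Set (Mx n)), 1 ≤ n → 1 + log n ≤ u → C ≤ u →
    u ≤ n → 1 ≤ β → 0 < t → t ≤ β → u ^ 100 ≤ H → u⁻¹ ≤ η → η ≤ 1 → 1 ≤ κ →
    κ * H * u ^ 100 ≤ n * t → Measurable Y → (∀ W, Y W ≤ 0) →
    (∀ d, LT (u ^ 50) fun g => Y (Wmat n g d)) →
    JP t n {z | z.1 ∈ S ∧ ¬ CovLe (ising z.1 z.2) (κ / t)} ≤ ENNReal.ofReal (exp (-H)) →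
    PW n {W | W ∉ S ∧ -H ≤ Y W} ≤ ENNReal.ofReal (exp (-H)) →
    CG n {q | exp (-(H / 8)) ≤ Pl.LRW n 1 (Wmat n q.1 q.2) ∧ -(H / 8) ≤ Y (Wmat n q.1 q.2) ∧
        ¬ CovAt (gibbsWeight n 1 q.1) t ((1 + 5 * η) * κ / t) (exp (-(H / 2)))} ≤
      ENNReal.ofReal (324 * β ^ 8 * (n : ℝ) ^ 16 * exp (-(1 / 8 * u ^ 100))) := by
  obtain ⟨C, C0, hC⟩ := one63 h1 h2 h3
  refine ⟨24 * 112 ^ 4 * C, fun n u t β H κ η Y S n1 l1 uC un β1 t0 tβ q1 p2 p3 p4 p5 p6 p7 p8 p9
    p10 => ?_⟩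
  have n1' : (1 : ℝ) ≤ n := by exact_mod_cast n1
  have n0 : (0 : ℝ) < n := by linarith
  have l0 := log_nonneg n1'
  have u1 : 1 ≤ u := by linarith
  have e0 : 0 < η := (inv_pos.2 (by linarith)).trans_le p2
  have e1 : η⁻¹ ≤ u := inv_le_of_inv_le₀ (by linarith) p2
  have H0 : 0 < H := lt_of_lt_of_le (by positivity) q1
  have κ0 : 0 < κ := by linarith
  set k := ⌈2 * log n / η⌉₊ + 2 with hk
  have k1 : 2 * log n / η ≤ k := (Nat.le_ceil _).trans (by rw [hk]; push_cast; linarith)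
  have k0 : (0 : ℝ) < k := by positivity
  have k2 : (k : ℝ) ≤ 4 * u ^ 2 := by
    have a1 := (Nat.ceil_lt_add_one (show 0 ≤ 2 * log n / η by positivity)).le
    have a2 : 2 * log n / η ≤ 2 * (u - 1) * u := by rw [div_eq_mul_inv]; gcongr; linarith
    rw [hk]; push_cast; nlinarith
  have k3 : (n : ℝ) ^ (k : ℝ)⁻¹ ≤ 1 + 2 * (η / 2) := by
    rw [rpow_def_of_pos n0]
    refine le_trans (exp_le_exp.2 ?_) (Tr.exp_le_one_add (by positivity) (by linarith))
    rw [div_le_iff₀ e0] at k1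
    rw [← div_eq_mul_inv, div_le_iff₀ k0]; linarith
  have hA := aeng_le C0 u1 uC l1 q1 p2 p3 p4 p5 k2
  have hF := poly_le n1' u1 un β1 t0 tβ q1 p2 p3 p4 p5
  refine (hC n k (η * κ) t (H / (η * κ)) ((1 + 6 * η) * κ) ((1 + 5 * η) * κ) (u ^ 50)
    H (κ / t) _ _ _ _ _ _ _ _ n1 (by omega) (by positivity) (by gcongr; linarith) t0
    (by positivity) (by positivity) (exp_pos _) p6 p7 p8 ?_ (by gcongr; norm_num)
    (le_of_eq (by field_simp; ring)) p9 p10).trans ?_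
  · rw [mul_div_cancel₀ _ t0.ne']
    calc _ ≤ (1 + 2 * (η / 2)) * (η * κ + κ) := by gcongr
      _ = (1 + 2 * η + η * η) * κ := by ring
      _ ≤ _ := mul_le_mul_of_nonneg_right (by nlinarith) κ0.le
  have a3 : 1 ≤ β ^ 8 * (n : ℝ) ^ 16 := one_le_mul_of_one_le_of_one_le (one_le_pow₀ β1)
      (one_le_pow₀ n1')
  rw [show H / (η * κ) * ((1 + 6 * η) * κ - (1 + 5 * η) * κ) = H by field_simp; ring,
    ← ENNReal.ofReal_add (exp_pos _).le (exp_pos _).le,
    ← ENNReal.ofReal_add (by positivity) (exp_pos _).le, ← ENNReal.ofReal_mul (by positivity),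
    ← ENNReal.ofReal_add (exp_pos _).le (by positivity), ← ENNReal.ofReal_mul (by positivity)]
  refine ENNReal.ofReal_le_ofReal ?_
  calc _ ≤ exp (H / 8 + H / 8 + H / 8) / exp (-(H / 2)) * (β ^ 8 * (n : ℝ) ^ 16 * exp (-H) +
        81 * β ^ 8 * (n : ℝ) ^ 16 * (exp (-H) + exp (-H) + exp (-H))) := by
        gcongr
        exact le_mul_of_one_le_left (exp_pos _).le a3
    _ = 244 * β ^ 8 * (n : ℝ) ^ 16 * (exp (H / 8 + H / 8 + H / 8) / exp (-(H / 2)) *
        exp (-H)) := by ring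
    _ ≤ _ := by
        rw [← exp_sub, ← exp_add]
        gcongr
        · norm_num
        · linarith

end All63

open All63

/-- **transfer at all times** -/
theorem all63 (h1 : EngStmt) (h2 : LmStmt) (h3 : AlgStmt) (a : ℕ → ℝ) (b c : ℝ)
    (H κ η : ℕ → ℝ → ℝ) (Y : ∀ n, ℝ → Mx n → ℝ) (S : ∀ n, ℝ → Set (Mx n)) (hc : 0 < c) (c1 : c ≤ 1)
    (hp : ∀ᶠ n : ℕ in atTop, 0 < a n ∧ ∀ t ∈ Icc (a n) b, (n : ℝ) ^ c ≤ H n t ∧
      (n : ℝ) ^ (-(c / 100)) ≤ η n t ∧ η n t ≤ 1 ∧ 1 ≤ κ n t ∧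
      κ n t * H n t * (n : ℝ) ^ c ≤ n * t ∧ Measurable (Y n t) ∧ (∀ W, Y n t W ≤ 0) ∧
      (∀ d, LT ((n : ℝ) ^ (c / 2)) fun g => Y n t (Wmat n g d)) ∧
      JP t n {z | z.1 ∈ S n t ∧ ¬ CovLe (ising z.1 z.2) (κ n t / t)} ≤
        ENNReal.ofReal (exp (-H n t)) ∧
      PW n {W | W ∉ S n t ∧ -H n t ≤ Y n t W} ≤ ENNReal.ofReal (exp (-H n t)))
    (hY : Whp CG fun n q => ∀ t ∈ Icc (a n) b, -(H n t / 8) ≤ Y n t (Wmat n q.1 q.2)) :
    Whp (couplingLaw true) fun n g => ∀ r ∈ Icc (a n) b, ∃ t ∈ Icc r b,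
      t ≤ r + ((n : ℝ) ^ 8)⁻¹ ∧ CovAt (gibbsWeight n 1 g) r ((1 + 7 * η n t) * κ n t / t)
        (exp (-(H n t / 2)) + exp (-(n : ℝ))) := by
  obtain ⟨C, hC⟩ := one_le h1 h2 h3
  set β := max b 1 with hβ
  have β1 : 1 ≤ β := le_max_right _ _
  set τ : ℕ → ℕ → ℝ := fun n j => b - j * ((n : ℝ) ^ 8)⁻¹ with hτ
  have ut : Tendsto (fun n : ℕ => (n : ℝ) ^ (c / 100)) atTop atTop :=
    (tendsto_rpow_atTop (by positivity)).comp tendsto_natCast_atTop_atTop
  have ul : ∀ᶠ n : ℕ in atTop, 1 + log n ≤ (n : ℝ) ^ (c / 100) := by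
    filter_upwards [ut.eventually_ge_atTop 2, tendsto_natCast_atTop_atTop.eventually
      ((isLittleO_log_rpow_atTop (show 0 < c / 100 by positivity)).bound one_half_pos)] with n a1 a2
    rw [Real.norm_eq_abs, Real.norm_of_nonneg (by positivity)] at a2
    linarith [le_abs_self (log (n : ℝ))]
  have h4 : Whp CG fun n q => ∀ j : ℕ, τ n j ∈ Icc (a n) b →
      exp (-(H n (τ n j) / 8)) ≤ Pl.LRW n 1 (Wmat n q.1 q.2) →
      -(H n (τ n j) / 8) ≤ Y n (τ n j) (Wmat n q.1 q.2) → CovAt (gibbsWeight n 1 q.1) (τ n j)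
        ((1 + 5 * η n (τ n j)) * κ n (τ n j) / τ n j) (exp (-(H n (τ n j) / 2))) := by
    refine Top.whp_iff.2 fun ε hε => ?_
    filter_upwards [hp, eventually_ge_atTop 1, ul, ut.eventually_ge_atTop C,
      (lim (648 * β ^ 9) 24 hc).eventually (ge_mem_nhds hε)] with n hn n1 l1 uC hlim
    have n1' : (1 : ℝ) ≤ n := by exact_mod_cast n1
    have n0 : (0 : ℝ) < n := by linarith
    set u := (n : ℝ) ^ (c / 100) with hu
    have un : u ≤ n := by simpa using rpow_le_rpow_of_exponent_le n1' (show c / 100 ≤ 1 by linarith)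
    have e100 : (n : ℝ) ^ c = u ^ 100 := by
      rw [hu, ← rpow_natCast, ← rpow_mul n0.le]; congr 1; push_cast; ring
    have e50 : (n : ℝ) ^ (c / 2) = u ^ 50 := by
      rw [hu, ← rpow_natCast, ← rpow_mul n0.le]; congr 1; push_cast; ring
    have one : ∀ t ∈ Icc (a n) b, CG n {q | exp (-(H n t / 8)) ≤ Pl.LRW n 1 (Wmat n q.1 q.2) ∧
        -(H n t / 8) ≤ Y n t (Wmat n q.1 q.2) ∧ ¬ CovAt (gibbsWeight n 1 q.1) t
          ((1 + 5 * η n t) * κ n t / t) (exp (-(H n t / 2)))} ≤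
        ENNReal.ofReal (324 * β ^ 8 * (n : ℝ) ^ 16 * exp (-(1 / 8 * (n : ℝ) ^ c))) := fun t ht => by
      obtain ⟨p1, p2, p3, p4, p5, p6, p7, p8, p9, p10⟩ := hn.2 t ht
      rw [rpow_neg n0.le, ← hu] at p2
      rw [e50] at p8
      rw [e100] at p1 p5 ⊢
      exact hC n u t β _ _ _ _ _ n1 l1 uC un β1 (hn.1.trans_le ht.1) (ht.2.trans (le_max_left _ _))
        p1 p2 p3 p4 p5 p6 p7 p8 p9 p10
    refine le_trans (measure_mono (t := ⋃ j ∈ Finset.range (⌊β * (n : ℝ) ^ 8⌋₊ + 1),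
      {q | τ n j ∈ Icc (a n) b ∧ exp (-(H n (τ n j) / 8)) ≤ Pl.LRW n 1 (Wmat n q.1 q.2) ∧
        -(H n (τ n j) / 8) ≤ Y n (τ n j) (Wmat n q.1 q.2) ∧ ¬ CovAt (gibbsWeight n 1 q.1) (τ n j)
          ((1 + 5 * η n (τ n j)) * κ n (τ n j) / τ n j) (exp (-(H n (τ n j) / 2)))})
      fun q hq => ?_) ?_
    · simp only [mem_ofPred_eq, not_forall] at hq
      obtain ⟨j, hj, q1, q2, q3⟩ := hq
      refine mem_iUnion₂.2 ⟨j, Finset.mem_range.2 (Nat.lt_succ_of_le (Nat.le_floor ?_)),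
        hj, q1, q2, q3⟩
      have := hn.1.le.trans hj.1
      simp only [hτ, sub_nonneg] at this
      rw [← div_eq_mul_inv, div_le_iff₀ (by positivity)] at this
      exact this.trans (mul_le_mul_of_nonneg_right (le_max_left _ _) (by positivity))
    refine (measure_biUnion_finset_le _ _).trans ((Finset.sum_le_card_nsmul _ _ (ENNReal.ofReal
      (324 * β ^ 8 * (n : ℝ) ^ 16 * exp (-(1 / 8 * (n : ℝ) ^ c)))) fun j _ => ?_).trans ?_)
    · by_cases hj : τ n j ∈ Icc (a n) b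
      · simpa only [hj, true_and] using one _ hj
      · simp [hj]
    · rw [Finset.card_range, nsmul_eq_mul, ← ENNReal.ofReal_natCast,
        ← ENNReal.ofReal_mul (Nat.cast_nonneg _)]
      refine ENNReal.ofReal_le_ofReal (le_trans ?_ hlim)
      have a1 := Nat.floor_le (a := β * (n : ℝ) ^ 8) (by positivity)
      have a2 : 1 ≤ β * (n : ℝ) ^ 8 := one_le_mul_of_one_le_of_one_le β1 (one_le_pow₀ n1')
      calc _ ≤ (2 * (β * (n : ℝ) ^ 8)) * (324 * β ^ 8 * (n : ℝ) ^ 16 *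
            exp (-(1 / 8 * (n : ℝ) ^ c))) := by gcongr; push_cast; linarith
        _ = _ := by ring
  refine Whp.of_prod_fst (ν := fun n => gv (Fin n))
    (((h4.and hY).and (lrC hc (show (0 : ℝ) < 1 / 8 by norm_num))).mono ?_)
  filter_upwards [hp, Et.timeStmt, eventually_ge_atTop 9] with n hn hT n9 q ⟨⟨q1, q2⟩, q3⟩ r hr
  have n9' : (9 : ℝ) ≤ n := by exact_mod_cast n9
  have n0 : (0 : ℝ) < n := by linarith
  have p4 : (0 : ℝ) < (n : ℝ) ^ 8 := by positivity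
  set j := ⌊(b - r) * (n : ℝ) ^ 8⌋₊
  have j1 : (j : ℝ) * ((n : ℝ) ^ 8)⁻¹ ≤ b - r := by
    rw [← div_eq_mul_inv, div_le_iff₀ p4]
    exact Nat.floor_le (mul_nonneg (sub_nonneg.2 hr.2) p4.le)
  have j2 : b - r ≤ (j + 1 : ℝ) * ((n : ℝ) ^ 8)⁻¹ := by
    rw [← div_eq_mul_inv, le_div_iff₀ p4]
    exact (Nat.lt_floor_add_one _).le
  have j3 : 0 ≤ (j : ℝ) * ((n : ℝ) ^ 8)⁻¹ := by positivity
  have m1 : τ n j ∈ Icc r b := ⟨by simp only [hτ]; linarith, by simp only [hτ]; linarith⟩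
  have m2 : τ n j ∈ Icc (a n) b := ⟨hr.1.trans m1.1, m1.2⟩
  have m3 : τ n j ≤ r + ((n : ℝ) ^ 8)⁻¹ := by simp only [hτ]; linarith
  obtain ⟨p1, p2, p3, p5, -⟩ := hn.2 _ m2
  have r0 := hn.1.trans_le hr.1
  have t0 := r0.trans_le m1.1
  refine ⟨τ n j, m1, m3, Q1.covAt_mono (.of_pos (gibbsWeight_pos 1 q.1)) (hT _
    (gibbsWeight_pos 1 q.1) r _ _ _ r0.le t0.le (abs_le.2 ⟨by linarith, by linarith [m1.1]⟩)
    (q1 j m2 (le_trans (exp_le_exp.2 (by linarith)) q3) (q2 _ m2))) ?_⟩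
  have a1 : 3 * (n : ℝ)⁻¹ ≤ η n (τ n j) := by
    refine le_trans ?_ ((rpow_le_rpow_of_exponent_le (by linarith)
      (show -(1 / 2 : ℝ) ≤ -(c / 100) by linarith)).trans p2)
    rw [rpow_neg n0.le, ← sqrt_eq_rpow, ← div_eq_mul_inv, div_le_iff₀ n0, inv_mul_eq_div,
      div_sqrt, le_sqrt' (by norm_num)]
    linarith
  have a2 : 0 ≤ (n : ℝ)⁻¹ := by positivity
  rw [mul_div_assoc, mul_div_assoc, ← mul_assoc]
  gcongr
  nlinarith

end Crest.Agent.T157.Cw

end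
end

-- ▼ part T157/CtPen_63
section

/-!
# Row 157, coin windows (helper63): the quenched windows for coins above the edge
-/

set_option autoImplicit false

noncomputable section

namespace Crest.Agent.T157.Cw

open MeasureTheory Matrix Set Function Real Filter Topology
open scoped ENNReal
open Crest.ProbabilityR.SpinGlassDynamics
open Crest.Agent.T157.E Crest.Agent.T157.Crit Crest.Agent.T157.SL
open Crest.Agent.T157.Qe (V Mx)
open Crest.Agent.T157.Top (Whp)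
open Crest.Agent.T157.Ks.St0 (JP PW PW_le)
open Crest.Agent.T157.O7 (Mt lo QW)
open Crest.Agent.T157.O7.G13

namespace Pen63

lemma ev_mul {a c : ℝ} (ha : 0 < a) (hc : 0 < c) (A : ℝ) :
    ∀ᶠ n : ℕ in atTop, A ≤ a * (n : ℝ) ^ c :=
  (((tendsto_rpow_atTop hc).comp tendsto_natCast_atTop_atTop).const_mul_atTop
    ha).eventually_ge_atTop A

lemma ev_lt {x y : ℝ} (h : x < y) {a : ℝ} (ha : 0 < a) (A : ℝ) :
    ∀ᶠ n : ℕ in atTop, A * (n : ℝ) ^ x ≤ a * (n : ℝ) ^ y := by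
  filter_upwards [ev_mul ha (sub_pos.2 h) A, eventually_gt_atTop 0] with n h1 hn
  have n0 : (0 : ℝ) < n := by exact_mod_cast hn
  calc _ ≤ a * (n : ℝ) ^ (y - x) * (n : ℝ) ^ x := by gcongr
    _ = _ := by rw [mul_assoc, ← rpow_add n0, sub_add_cancel]

lemma ev_log {c : ℝ} (hc : 0 < c) {a : ℝ} (ha : 0 < a) :
    ∀ᶠ n : ℕ in atTop, log n ≤ a * (n : ℝ) ^ c := by
  filter_upwards [tendsto_natCast_atTop_atTop.eventually ((isLittleO_log_rpow_atTop hc).bound ha)]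
    with n h
  rw [Real.norm_eq_abs, Real.norm_of_nonneg (by positivity)] at h
  exact (le_abs_self _).trans h

lemma ev_lo {d τ : ℝ} (hd : d < 2 / 3) (hτ : 0 < τ) : ∀ᶠ n : ℕ in atTop, lo d n ≤ τ := by
  filter_upwards [ev_lt hd hτ 1, eventually_gt_atTop 0] with n h hn
  rw [lo, div_le_iff₀ (Soft.N23_pos hn), N_eq]; linarith

lemma Mt_nn (n : ℕ) {t : ℝ} (ht : 0 ≤ t) : 0 ≤ Mt n t := mul_nonneg n.cast_nonneg (rpow_nonneg ht _)

lemma lt_zero {ι : Type} [Fintype ι] [DecidableEq ι] {B : ℝ} (hB : 0 ≤ B) :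
    LT B fun _ : ι → ℝ => 0 :=
  ⟨measurable_const, fun _ _ => 0, fun _ => measurable_const, fun _ _ => le_rfl,
    fun _ => by simpa using hB, fun _ _ => ⟨contDiff_const, fun j hj => by
      simp [dv, zero_pow (show j ≠ 0 by have := hj.1; omega)]⟩⟩

end Pen63

open Pen63

variable (h1 : EngStmt) (h2 : LmStmt) (h3 : AlgStmt) (hP : Cp.PenStmt) (hF : Cp.FineStmt)
include h1 h2 h3

include hP hF in
/-- transfer on the spectral event -/
theorem pen63 {κ d c : ℝ} (hκ : 0 < κ) (hd : 0 < d) (d1 : d < 2 / 3) (hc : 0 < c) (c1 : c ≤ 1) :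
    ∃ ζ > (0 : ℝ), ∀ (b τ L : ℝ) (e : ℕ → ℝ) (H k η : ℕ → ℝ → ℝ), 0 < τ → τ ≤ 1 →
    (∀ᶠ n : ℕ in atTop, (n : ℝ) ^ (-ζ) ≤ e n ∧ e n ≤ 1 / 4 ∧ ∀ t ∈ Icc (lo d n) b,
      (n : ℝ) ^ c ≤ H n t ∧ (n : ℝ) ^ (-(c / 100)) ≤ η n t ∧ η n t ≤ 1 ∧ 1 ≤ k n t ∧
      k n t * H n t * (n : ℝ) ^ c ≤ n * min t τ ∧ H n t ≤ L * Mt n (min t τ) ∧
      JP t n {z | WW (min t τ) (e n) κ z.1 ∧ ¬ CovLe (ising z.1 z.2) (k n t / t)} ≤
        ENNReal.ofReal (exp (-H n t))) →
    Whp (couplingLaw true) fun n g => ∀ r ∈ Icc (lo d n) b, ∃ t ∈ Icc r b,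
      t ≤ r + ((n : ℝ) ^ 8)⁻¹ ∧ CovAt (gibbsWeight n 1 g) r ((1 + 7 * η n t) * k n t / t)
        (exp (-(H n t / 2)) + exp (-(n : ℝ))) := by
  obtain ⟨ζ, ζ0, a, a0, hP⟩ := hP κ hκ d hd (c / 2) (half_pos hc)
  refine ⟨min ζ (c / 4), by positivity, fun b τ L e H k η τ0 τ1 h => ?_⟩
  let R : ∀ n : ℕ, ℝ → (Mx n → ℝ) → Prop := fun n t Y => Measurable Y ∧ (∀ W, Y W ≤ 0) ∧
    (∀ dd, LT ((n : ℝ) ^ (c / 2)) fun g => Y (Wmat n g dd)) ∧
    (∀ W, Cp.Fine ζ W → -(3 * log n) ≤ Y W) ∧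
    Qe.GOE n {W | ¬ WW (min t τ) (e n) κ W ∧ -(3 * H n t) ≤ Y W} ≤ Conc.ex (-(3 * H n t))
  have hR : ∀ᶠ n : ℕ in atTop, ∀ t ∈ Icc (lo d n) b, R n t (Classical.epsilon (R n t)) := by
    filter_upwards [hP, h, ev_lo d1 τ0, ev_mul a0 (show 0 < c / 4 by positivity) 3,
      ev_pow ζ0 (3 * L), eventually_gt_atTop 0] with n p1 ⟨e1, e2, p2⟩ p3 p4 p5 hn t ht
    obtain ⟨q1, -, -, q4, q5, q6, -⟩ := p2 t ht
    have n1 : (1 : ℝ) ≤ n := by exact_mod_cast hn
    have n0 : (0 : ℝ) < n := by linarith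
    have s1 : lo d n ≤ min t τ := le_min ht.1 p3
    have s0 := (lo_pos d hn).le.trans s1
    have H0 : 0 ≤ H n t := (rpow_nonneg n0.le _).trans q1
    refine Classical.epsilon_spec (p1 _ _ _ s1 ((min_le_right _ _).trans τ1)
      ((rpow_le_rpow_of_exponent_le n1 (neg_le_neg (min_le_left _ _))).trans e1) e2
      (by positivity) ?_ ?_)
    · have b1 : (n : ℝ) ^ (-(c / 4)) ≤ e n :=
        (rpow_le_rpow_of_exponent_le n1 (neg_le_neg (min_le_right _ _))).trans e1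
      have b2 : H n t * (n : ℝ) ^ c ≤ n * min t τ := by
        refine le_trans ?_ q5
        rw [mul_assoc]
        exact le_mul_of_one_le_left (by positivity) q4
      have b3 : 0 ≤ e n := (rpow_nonneg n0.le _).trans b1
      calc 3 * H n t ≤ a * (n : ℝ) ^ (c / 4) * H n t := by gcongr
        _ = a * ((n : ℝ) ^ (-(c / 4))) ^ 3 * (H n t * (n : ℝ) ^ c) := by
            rw [← rpow_natCast, ← rpow_mul n0.le, mul_comm (H n t), ← mul_assoc, mul_assoc a _ (_ ^ c),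
              ← rpow_add n0]
            congr 3; push_cast; ring
        _ ≤ a * e n ^ 3 * (n * min t τ) := by gcongr
        _ = _ := by ring
    · calc 3 * H n t ≤ 3 * L * Mt n (min t τ) := by linarith
        _ ≤ _ := mul_le_mul_of_nonneg_right p5 (Mt_nn n s0)
  refine all63 h1 h2 h3 (lo d) b c H k η (fun n t => Classical.epsilon (R n t))
    (fun n t => {W | WW (min t τ) (e n) κ W}) hc c1 ?_ ?_
  · filter_upwards [hR, h, eventually_ge_atTop 2, ev_log hc (show (0 : ℝ) < 1 / 4 by norm_num)]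
      with n p1 ⟨_, _, p2⟩ hn p3
    have n2 : (2 : ℝ) ≤ n := by exact_mod_cast hn
    refine ⟨lo_pos d (by omega), fun t ht => ?_⟩
    obtain ⟨q1, q2, q3, q4, q5, -, q7⟩ := p2 t ht
    obtain ⟨r1, r2, r3, -, r5⟩ := p1 t ht
    have H0 : 0 ≤ H n t := (rpow_nonneg n.cast_nonneg _).trans q1
    refine ⟨q1, q2, q3, q4, q5.trans (by gcongr; exact min_le_left _ _), r1, r2, r3, q7,
      le_trans (measure_mono fun W hW => ?_) ((PW_le _ (exp_pos (3 * H n t / 2))).trans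
        ((add_le_add (mul_le_mul_right r5 _) le_rfl).trans ?_))⟩
    · exact ⟨hW.1, le_trans (by linarith) hW.2⟩
    rw [Conc.ex, ← ENNReal.ofReal_mul (exp_pos _).le, ← ENNReal.ofReal_add (by positivity)
      (by positivity), ← exp_add, div_eq_mul_inv (_ + 1), ← Real.exp_neg,
      show 3 * H n t / 2 + -(3 * H n t) = -(3 * H n t / 2) by ring, ← one_add_mul,
      show -H n t = H n t / 2 + -(3 * H n t / 2) by ring, exp_add]
    refine ENNReal.ofReal_le_ofReal (mul_le_mul_of_nonneg_right ?_ (exp_pos _).le)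
    calc 1 + ((n : ℝ) + 1) ≤ (n : ℝ) ^ 2 := by nlinarith
      _ = exp (2 * log n) := by rw [two_mul, exp_add, exp_log (by linarith), sq]
      _ ≤ _ := exp_le_exp.2 (by linarith)
  · obtain ⟨x, x0, hx⟩ := (hF ζ ζ0).wmat
    have : Whp CG fun n q => Cp.Fine ζ (Wmat n q.1 q.2) := Top.whp_iff.2 fun ε hε => by
      filter_upwards [hx, (tendsto_exp_neg_atTop_nhds_zero.comp ((tendsto_rpow_atTop x0).comp
        tendsto_natCast_atTop_atTop)).eventually (ge_mem_nhds hε)] with n p1 p2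
      exact (p1 true ()).trans (ENNReal.ofReal_le_ofReal p2)
    refine this.mono ?_
    filter_upwards [hR, h, ev_log hc (show (0 : ℝ) < 1 / 24 by norm_num)] with n p1 ⟨_, _, p2⟩ p3
      q hq t ht
    have := (p1 t ht).2.2.2.1 _ hq
    have := (p2 t ht).1
    linarith

omit h1 h2 h3 in
lemma Pen63.prb {L d d' : ℝ} (hL : 0 < L) (hd : 0 < d) (hd' : 0 < d') (d1 : d' < 1) :
    ∀ᶠ n : ℕ in atTop, ∀ r t, lo d n ≤ r → r ≤ t →
      exp (-(min (L * Mt n t) (4 * (n : ℝ) ^ (1 - d')) / 2)) + exp (-(n : ℝ)) ≤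
        exp (-min (L / 4 * Mt n r) ((n : ℝ) ^ (1 - d'))) := by
  filter_upwards [eventually_gt_atTop 0, ev_mul (show 0 < L / 4 by positivity)
    (show 0 < 3 * d / 2 by positivity) 1, ev_lt (show 1 - d' < 1 by linarith) one_pos 2]
    with n hn p1 p2 r t hr ht
  have n1 : (1 : ℝ) ≤ n := by exact_mod_cast hn
  have a1 := Mt_lo hn hr
  have a2 : Mt n r ≤ Mt n t := Mt_mono ((lo_pos d hn).le.trans hr) ht
  have a3 : 1 ≤ L / 4 * Mt n r := p1.trans (by gcongr)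
  have a4 : L * Mt n r ≤ L * Mt n t := by gcongr
  have a5 : 1 ≤ (n : ℝ) ^ (1 - d') := one_le_rpow n1 (by linarith)
  have m1 := min_le_left (L / 4 * Mt n r) ((n : ℝ) ^ (1 - d'))
  have m2 := min_le_right (L / 4 * Mt n r) ((n : ℝ) ^ (1 - d'))
  rw [rpow_one] at p2
  refine two_exp ?_ (by linarith)
  rw [le_div_iff₀ two_pos]
  exact le_min (by linarith) (by linarith)

include hP hF in
/-- constant tolerance, constant bound -/
theorem qc63 {κ d d' e τ b L K η e0 : ℝ} (hκ : 0 < κ) (hd : 0 < d) (d1 : d < 2 / 3) (hd' : 0 < d')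
    (d2 : d' < 1) (he : 0 < e) (e1 : e ≤ 1 / 4) (τ0 : 0 < τ) (τ1 : τ ≤ 1) (hL : 0 < L) (K1 : 1 ≤ K)
    (η0 : 0 < η) (η1 : η ≤ 1) (he0 : 0 < e0)
    (h : ∀ᶠ n : ℕ in atTop, ∀ t ∈ Icc (lo d n) b,
      JP t n {z | WW (min t τ) e κ z.1 ∧ ¬ CovLe (ising z.1 z.2) (K / t)} ≤
        ENNReal.ofReal (exp (-min (L * Mt n t) (e0 * n)))) :
    Whp (couplingLaw true) fun n g => QW (gibbsWeight n 1 g) (lo d n) b (fun _ => (1 + 7 * η) * K)
      fun r => min (L / 4 * Mt n r) ((n : ℝ) ^ (1 - d')) := by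
  obtain ⟨c, c0, c1, c2, c3⟩ : ∃ c > (0 : ℝ), c ≤ d ∧ c ≤ d' / 4 ∧ c ≤ 1 - d' :=
    ⟨min d (min (d' / 4) (1 - d')), lt_min hd (lt_min (by positivity) (by linarith)),
      min_le_left _ _, (min_le_right _ _).trans (min_le_left _ _),
      (min_le_right _ _).trans (min_le_right _ _)⟩
  obtain ⟨ζ, ζ0, hζ⟩ := pen63 h1 h2 h3 hP hF hκ hd d1 c0 (by linarith)
  have L1 := le_max_right L 1
  refine (hζ b τ (max L 1) (fun _ => e) (fun n t => min (L * Mt n t) (4 * (n : ℝ) ^ (1 - d')))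
    (fun _ _ => K) (fun _ _ => η) τ0 τ1 ?_).mono ?_
  · filter_upwards [h, eventually_gt_atTop 0, ev_lt (neg_lt_zero.2 ζ0) he 1,
      ev_lt (show -(c / 100) < 0 by linarith) η0 1, ev_lt (show c < 3 * d / 2 by linarith) hL 1,
      ev_lt (show 1 - d' < 1 by linarith) he0 4,
      ev_lt (show 1 - d' < 1 by linarith) (rpow_pos_of_pos τ0 (3 / 2)) 4,
      ev_lt (show 3 * c + (1 - d') < 1 by linarith) one_pos (4 * K ^ 3 * max L 1 ^ 2)]
      with n p0 hn p1 p2 p3 p4 p5 p6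
    have n1 : (1 : ℝ) ≤ n := by exact_mod_cast hn
    have n0 : (0 : ℝ) < n := by linarith
    simp only [rpow_zero, rpow_one, one_mul, mul_one] at p1 p2 p3 p4 p5 p6
    refine ⟨p1, e1, fun t ht => ?_⟩
    have t0 := (lo_pos d hn).trans_le ht.1
    have s0 := lt_min t0 τ0
    have m1 := min_le_left (L * Mt n t) (4 * (n : ℝ) ^ (1 - d'))
    have m2 := min_le_right (L * Mt n t) (4 * (n : ℝ) ^ (1 - d'))
    have a0 : (n : ℝ) ^ c ≤ min (L * Mt n t) (4 * (n : ℝ) ^ (1 - d')) := by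
      refine le_min (p3.trans (by gcongr; exact Mt_lo hn ht.1)) ?_
      have := rpow_le_rpow_of_exponent_le n1 c3
      have : 0 ≤ (n : ℝ) ^ (1 - d') := by positivity
      linarith
    set H := min (L * Mt n t) (4 * (n : ℝ) ^ (1 - d'))
    have H0 : 0 ≤ H := (rpow_nonneg n0.le _).trans a0
    have a1 : H ≤ max L 1 * Mt n (min t τ) := by
      rcases le_total t τ with h | h
      · rw [min_eq_left h]
        exact m1.trans (mul_le_mul_of_nonneg_right (le_max_left _ _) (Mt_nn n t0.le))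
      · rw [min_eq_right h]
        exact (m2.trans (p5.trans_eq (mul_comm _ _))).trans
          (le_mul_of_one_le_left (Mt_nn n τ0.le) L1)
    refine ⟨a0, p2, η1, K1, le_of_pow_le_pow_left₀ three_ne_zero (by positivity) ?_, a1,
      (p0 t ht).trans (ENNReal.ofReal_le_ofReal (exp_le_exp.2 (neg_le_neg
        (min_le_min le_rfl p4))))⟩
    have a2 : Mt n (min t τ) ^ 2 = (n : ℝ) ^ 2 * min t τ ^ 3 := by
      rw [Mt, mul_pow, ← rpow_natCast (_ ^ _), ← rpow_mul s0.le, ← rpow_natCast _ 3]; norm_num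
    calc (K * H * (n : ℝ) ^ c) ^ 3 = K ^ 3 * (H ^ 2 * H) * ((n : ℝ) ^ c) ^ 3 := by ring
      _ ≤ K ^ 3 * ((max L 1 * Mt n (min t τ)) ^ 2 * (4 * (n : ℝ) ^ (1 - d'))) *
          ((n : ℝ) ^ c) ^ 3 := by gcongr
      _ = 4 * K ^ 3 * max L 1 ^ 2 * (n : ℝ) ^ (3 * c + (1 - d')) * ((n : ℝ) ^ 2 * min t τ ^ 3) := by
          have : (n : ℝ) ^ (3 * c + (1 - d')) = ((n : ℝ) ^ c) ^ 3 * (n : ℝ) ^ (1 - d') := by
            rw [rpow_add n0, mul_comm 3 c, rpow_mul n0.le, rpow_ofNat]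
          rw [mul_pow, a2, this]; ring
      _ ≤ n * ((n : ℝ) ^ 2 * min t τ ^ 3) := by gcongr
      _ = _ := by ring
  · filter_upwards [prb hL hd hd' d2, eventually_gt_atTop 0] with n p hn g hg r hr
    obtain ⟨t, ht, -, h⟩ := hg r hr
    exact covAt_mono (gibbsWeight_pos 1 g) h (div_le_div_of_nonneg_left (by positivity)
      ((lo_pos d hn).trans_le hr.1) ht.1) (p r t hr.1 ht.1)

/-- macroscopic times -/
theorem q463 {s T K e0 d' : ℝ} (hs : 0 < s) (he0 : 0 < e0) (hd' : 0 < d') (d2 : d' < 1)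
    (h : ∀ᶠ n : ℕ in atTop, ∀ t ∈ Icc s T,
      JP t n {z | ¬ CovLe (ising z.1 z.2) K} ≤ ENNReal.ofReal (exp (-(e0 * n)))) :
    Whp (couplingLaw true) fun n g => QW (gibbsWeight n 1 g) s T
      (fun _ => 8 * max (|K| * |T|) 1) fun _ => (n : ℝ) ^ (1 - d') := by
  obtain ⟨c, c0, c2, c3⟩ : ∃ c > (0 : ℝ), c ≤ d' / 4 ∧ c ≤ 1 - d' :=
    ⟨min (d' / 4) (1 - d'), lt_min (by positivity) (by linarith), min_le_left _ _, min_le_right _ _⟩
  have K1 := le_max_right (|K| * |T|) 1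
  refine (all63 h1 h2 h3 (fun _ => s) T c (fun n _ => 4 * (n : ℝ) ^ (1 - d'))
    (fun _ _ => max (|K| * |T|) 1) (fun _ _ => 1) (fun _ _ _ => 0) (fun _ _ => univ) c0
    (by linarith) ?_ (Top.whp_of_eventually (.of_forall fun n _ _ _ => neg_nonpos.2
      (by positivity)))).mono ?_
  · filter_upwards [h, eventually_gt_atTop 0, ev_lt (show 1 - d' < 1 by linarith) he0 4,
      ev_lt (show 1 - d' + c < 1 by linarith) hs (max (|K| * |T|) 1 * 4)] with n p0 hn p1 p2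
    have n1 : (1 : ℝ) ≤ n := by exact_mod_cast hn
    have n0 : (0 : ℝ) < n := by linarith
    rw [rpow_one] at p1 p2
    refine ⟨hs, fun t ht => ⟨?_, rpow_le_one_of_one_le_of_nonpos n1 (by linarith), le_rfl, K1, ?_,
      measurable_const, fun _ => le_rfl, fun _ => lt_zero (by positivity),
      le_trans (measure_mono fun z hz hc => hz.2 (covLe_mono hc ?_)) ((p0 t ht).trans
        (ENNReal.ofReal_le_ofReal (exp_le_exp.2 (neg_le_neg p1)))), by simp⟩⟩
    · have := rpow_le_rpow_of_exponent_le n1 c3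
      have : 0 ≤ (n : ℝ) ^ (1 - d') := by positivity
      linarith
    · rw [rpow_add n0] at p2
      calc _ ≤ s * n := by linarith
        _ ≤ _ := by rw [mul_comm]; gcongr; exact ht.1
    · rw [le_div_iff₀ (hs.trans_le ht.1)]
      refine le_trans ?_ (le_max_left _ _)
      exact mul_le_mul (le_abs_self _) (ht.2.trans (le_abs_self _)) (hs.le.trans ht.1) (abs_nonneg _)
  · filter_upwards [eventually_gt_atTop 0, ev_lt (show 1 - d' < 1 by linarith) one_pos 2]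
      with n hn p g hg r hr
    have n1 : (1 : ℝ) ≤ n := by exact_mod_cast hn
    have a5 : 1 ≤ (n : ℝ) ^ (1 - d') := one_le_rpow n1 (by linarith)
    rw [rpow_one] at p
    obtain ⟨t, ht, -, h⟩ := hg r hr
    refine covAt_mono (gibbsWeight_pos 1 g) h ?_ (two_exp (by linarith) (by linarith))
    rw [show (1 + 7 * 1 : ℝ) = 8 by norm_num]
    exact div_le_div_of_nonneg_left (by positivity) (hs.trans_le hr.1) ht.1

include hP hF in
/-- power errors -/
theorem q263 {κ d d1 : ℝ} (hκ : 0 < κ) (hd : 0 < d) (d2 : d < 2 / 3) (hd1 : 0 < d1)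
    (h : ∀ ζ > (0 : ℝ), ∃ c > (0 : ℝ), ∃ τ ∈ Ioc (0 : ℝ) 1, ∃ t0 > (0 : ℝ), ∀ᶠ n : ℕ in atTop,
      ∀ t ∈ Icc (lo d n) t0, JP t n {z | WW (min t τ) ((n : ℝ) ^ (-ζ)) κ z.1 ∧
        ¬ CovLe (ising z.1 z.2) ((1 + t ^ c + (n : ℝ) ^ (-c)) / t)} ≤
          ENNReal.ofReal (exp (-(n : ℝ) ^ d1))) :
    ∃ c ∈ Ioc (0 : ℝ) 1, ∃ t0 ∈ Ioc (0 : ℝ) 1, Whp (couplingLaw true) fun n g =>
      QW (gibbsWeight n 1 g) (lo d n) t0 (fun r => 1 + 22 * (r ^ c + (n : ℝ) ^ (-c)))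
        fun _ => (n : ℝ) ^ c := by
  obtain ⟨c, c0, c1, c2, c3⟩ : ∃ c > (0 : ℝ), c ≤ d ∧ c ≤ d1 ∧ c ≤ 1 / 10 :=
    ⟨min d (min d1 (1 / 10)), by positivity, min_le_left _ _,
      (min_le_right _ _).trans (min_le_left _ _), (min_le_right _ _).trans (min_le_right _ _)⟩
  obtain ⟨ζ, ζ0, hζ⟩ := pen63 h1 h2 h3 hP hF hκ hd d2 c0 (by linarith)
  obtain ⟨x, x0, τ, ⟨τ0, τ1⟩, t0, t00, h⟩ := h ζ ζ0
  obtain ⟨y, y0, y1, y2⟩ : ∃ y > (0 : ℝ), y ≤ x ∧ y ≤ c / 100 :=
    ⟨min x (c / 100), by positivity, min_le_left _ _, min_le_right _ _⟩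
  refine ⟨y, ⟨y0, by linarith⟩, min t0 1, ⟨by positivity, min_le_right _ _⟩,
    (hζ (min t0 1) τ 1 (fun n => (n : ℝ) ^ (-ζ)) (fun n _ => (n : ℝ) ^ c)
      (fun n t => 1 + t ^ y + (n : ℝ) ^ (-y)) (fun n _ => (n : ℝ) ^ (-(c / 100))) τ0 τ1 ?_).mono ?_⟩
  · filter_upwards [h, eventually_gt_atTop 0, ev_lt (neg_lt_zero.2 ζ0) (show (0 : ℝ) < 1 / 4 by norm_num) 1,
      ev_lo d2 τ0, ev_lt (show c + c < 1 + (d - 2 / 3) by linarith) one_pos 3] with n p0 hn p1 p2 p3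
    have n1 : (1 : ℝ) ≤ n := by exact_mod_cast hn
    have n0 : (0 : ℝ) < n := by linarith
    refine ⟨le_rfl, by simpa using p1, fun t ht => ?_⟩
    have t0' := (lo_pos d hn).trans_le ht.1
    have t1 := ht.2.trans (min_le_right _ _)
    have s1 : lo d n ≤ min t τ := le_min ht.1 p2
    have a1 : t ^ y ≤ 1 := rpow_le_one t0'.le t1 y0.le
    have a2 : (n : ℝ) ^ (-y) ≤ 1 := rpow_le_one_of_one_le_of_nonpos n1 (by linarith)
    have a3 : 0 ≤ t ^ y := by positivity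
    have a4 : 0 ≤ (n : ℝ) ^ (-y) := by positivity
    refine ⟨le_rfl, le_rfl, rpow_le_one_of_one_le_of_nonpos n1 (by linarith), by linarith, ?_, ?_,
      le_trans (measure_mono ?_)
        ((p0 t ⟨ht.1, ht.2.trans (min_le_left _ _)⟩).trans (ENNReal.ofReal_le_ofReal
          (exp_le_exp.2 (neg_le_neg (rpow_le_rpow_of_exponent_le n1 c2)))))⟩
    · rw [rpow_add n0, rpow_add n0, rpow_one, rpow_sub n0, one_mul] at p3
      calc _ ≤ 3 * (n : ℝ) ^ c * (n : ℝ) ^ c := by gcongr; linarith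
        _ ≤ n * lo d n := by rw [mul_assoc]; exact p3
        _ ≤ _ := by gcongr
    · rw [one_mul]
      exact (rpow_le_rpow_of_exponent_le n1 (by linarith)).trans (Mt_lo hn s1)
    · intro z hz
      refine ⟨hz.1, fun hc => hz.2 (covLe_mono hc ?_)⟩
      have := rpow_le_rpow_of_exponent_ge t0' t1 y1
      have := rpow_le_rpow_of_exponent_le n1 (neg_le_neg y1)
      exact div_le_div_of_nonneg_right (by linarith) t0'.le
  · filter_upwards [eventually_gt_atTop 0, ev_lt (show y < c by linarith) one_pos 4]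
      with n hn p g hg r hr
    have n1 : (1 : ℝ) ≤ n := by exact_mod_cast hn
    have n0 : (0 : ℝ) < n := by linarith
    obtain ⟨t, ht, h8, h⟩ := hg r hr
    have r0 := (lo_pos d hn).trans_le hr.1
    have t1 := ht.2.trans (min_le_right _ _)
    have b0 : 1 ≤ (n : ℝ) ^ y := one_le_rpow n1 y0.le
    have b1 : (n : ℝ) ^ c ≤ n := (rpow_le_rpow_of_exponent_le n1 (by linarith)).trans (rpow_one _).le
    refine covAt_mono (gibbsWeight_pos 1 g) h ((div_le_div_of_nonneg_right ?_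
      (r0.le.trans ht.1)).trans (div_le_div_of_nonneg_left (by positivity) r0 ht.1))
      (two_exp (by linarith) (by linarith))
    have a0 : ((n : ℝ) ^ 8)⁻¹ ≤ r := by
      refine le_trans ?_ hr.1
      rw [lo, N_eq, ← rpow_sub n0, ← rpow_natCast, ← rpow_neg n0.le]
      exact rpow_le_rpow_of_exponent_le n1 (by push_cast; linarith)
    have a1 : t ^ y ≤ 2 * r ^ y := by
      calc t ^ y ≤ (2 * r) ^ y := rpow_le_rpow (r0.le.trans ht.1) (by linarith) y0.le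
        _ = 2 ^ y * r ^ y := mul_rpow (by norm_num) r0.le
        _ ≤ _ := by
            gcongr
            exact (rpow_le_rpow_of_exponent_le one_le_two (by linarith)).trans (rpow_one _).le
    have a2 : t ^ y ≤ 1 := rpow_le_one (r0.le.trans ht.1) t1 y0.le
    have a3 : (n : ℝ) ^ (-y) ≤ 1 := rpow_le_one_of_one_le_of_nonpos n1 (by linarith)
    have a4 : (n : ℝ) ^ (-(c / 100)) ≤ (n : ℝ) ^ (-y) := rpow_le_rpow_of_exponent_le n1 (by linarith)
    have a5 : 0 ≤ (n : ℝ) ^ (-(c / 100)) := by positivity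
    have a6 : 0 ≤ r ^ y := by positivity
    nlinarith

end Crest.Agent.T157.Cw

end
end

-- ▼ part T157/CwAlg_66
section

/-!
# Row 157, part C (helper66): `Cw.AlgStmt`
-/

set_option autoImplicit false

noncomputable section

namespace Crest.Agent.T157.Cw

open Set Filter Topology Real

namespace Alg66

/-- a function with its first four derivatives -/
structure Ch (f0 f1 f2 f3 f4 : ℝ → ℝ) : Prop where
  d0 : ∀ t, HasDerivAt f0 (f1 t) t
  d1 : ∀ t, HasDerivAt f1 (f2 t) t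
  d2 : ∀ t, HasDerivAt f2 (f3 t) t
  d3 : ∀ t, HasDerivAt f3 (f4 t) t

variable {f0 f1 f2 f3 f4 g0 g1 g2 g3 g4 : ℝ → ℝ}

lemma Ch.dv4 (h : Ch f0 f1 f2 f3 f4) : iteratedDeriv 4 f0 = f4 := by
  rw [iteratedDeriv_succ, iteratedDeriv_succ, iteratedDeriv_succ, iteratedDeriv_one,
    funext fun t => (h.d0 t).deriv, funext fun t => (h.d1 t).deriv,
    funext fun t => (h.d2 t).deriv, funext fun t => (h.d3 t).deriv]

lemma Ch.contDiff (h : Ch f0 f1 f2 f3 f4) (hc : Continuous f4) : ContDiff ℝ 4 f0 := by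
  have step : ∀ (k : ℕ) (f f' : ℝ → ℝ), (∀ t, HasDerivAt f (f' t) t) → ContDiff ℝ k f' →
      ContDiff ℝ (k + 1 : ℕ) f := fun k f f' h1 h2 => by
    rw [Nat.cast_succ, contDiff_succ_iff_deriv]
    exact ⟨fun t => (h1 t).differentiableAt, by simp, by rwa [funext fun t => (h1 t).deriv]⟩
  exact step 3 _ _ h.d0 (step 2 _ _ h.d1 (step 1 _ _ h.d2 (step 0 _ _ h.d3 (by simpa using hc))))

lemma ch_of {f : ℝ → ℝ} (h : ContDiff ℝ 4 f) : Ch f (dv 1 f) (dv 2 f) (dv 3 f) (dv 4 f) := by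
  have d : ∀ j : ℕ, j < 4 → ∀ t, HasDerivAt (iteratedDeriv j f) (iteratedDeriv (j + 1) f t) t :=
    fun j hj t => by
      rw [iteratedDeriv_succ]
      exact (h.differentiable_iteratedDeriv j (by exact_mod_cast hj) t).hasDerivAt
  exact ⟨by simpa only [iteratedDeriv_zero] using d 0 (by norm_num), d 1 (by norm_num),
    d 2 (by norm_num), d 3 (by norm_num)⟩

lemma Ch.mul (h : Ch f0 f1 f2 f3 f4) (k : Ch g0 g1 g2 g3 g4) :
    Ch (fun t => f0 t * g0 t) (fun t => f1 t * g0 t + f0 t * g1 t)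
      (fun t => f2 t * g0 t + 2 * (f1 t * g1 t) + f0 t * g2 t)
      (fun t => f3 t * g0 t + 3 * (f2 t * g1 t) + 3 * (f1 t * g2 t) + f0 t * g3 t)
      (fun t => f4 t * g0 t + 4 * (f3 t * g1 t) + 6 * (f2 t * g2 t) + 4 * (f1 t * g3 t) +
        f0 t * g4 t) :=
  ⟨fun t => (h.d0 t).mul (k.d0 t),
    fun t => (((h.d1 t).mul (k.d0 t)).add ((h.d0 t).mul (k.d1 t))).congr_deriv (by ring),
    fun t => ((((h.d2 t).mul (k.d0 t)).add (((h.d1 t).mul (k.d1 t)).const_mul 2)).add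
      ((h.d0 t).mul (k.d2 t))).congr_deriv (by ring),
    fun t => (((((h.d3 t).mul (k.d0 t)).add (((h.d2 t).mul (k.d1 t)).const_mul 3)).add
      (((h.d1 t).mul (k.d2 t)).const_mul 3)).add ((h.d0 t).mul (k.d3 t))).congr_deriv (by ring)⟩

lemma Ch.comp (h : Ch f0 f1 f2 f3 f4) (k : Ch g0 g1 g2 g3 g4) :
    Ch (fun t => f0 (g0 t)) (fun t => f1 (g0 t) * g1 t)
      (fun t => f2 (g0 t) * (g1 t * g1 t) + f1 (g0 t) * g2 t)
      (fun t => f3 (g0 t) * (g1 t * g1 t * g1 t) + 3 * (f2 (g0 t) * (g1 t * g2 t)) +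
        f1 (g0 t) * g3 t)
      (fun t => f4 (g0 t) * g1 t ^ 4 + 6 * (f3 (g0 t) * (g1 t ^ 2 * g2 t)) +
        3 * (f2 (g0 t) * g2 t ^ 2) + 4 * (f2 (g0 t) * (g1 t * g3 t)) + f1 (g0 t) * g4 t) := by
  have c0 := fun t => (h.d0 (g0 t)).comp t (k.d0 t)
  have c1 : ∀ t, HasDerivAt (fun t => f1 (g0 t)) (f2 (g0 t) * g1 t) t :=
    fun t => (h.d1 (g0 t)).comp t (k.d0 t)
  have c2 : ∀ t, HasDerivAt (fun t => f2 (g0 t)) (f3 (g0 t) * g1 t) t :=
    fun t => (h.d2 (g0 t)).comp t (k.d0 t)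
  have c3 : ∀ t, HasDerivAt (fun t => f3 (g0 t)) (f4 (g0 t) * g1 t) t :=
    fun t => (h.d3 (g0 t)).comp t (k.d0 t)
  refine ⟨c0, fun t => ((c1 t).fun_mul (k.d1 t)).congr_deriv (by ring),
    fun t => (((c2 t).fun_mul ((k.d1 t).fun_mul (k.d1 t))).fun_add
      ((c1 t).fun_mul (k.d2 t))).congr_deriv (by ring),
    fun t => ((((c3 t).fun_mul (((k.d1 t).fun_mul (k.d1 t)).fun_mul (k.d1 t))).fun_add
      (((c2 t).fun_mul ((k.d1 t).fun_mul (k.d2 t))).const_mul 3)).fun_add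
      ((c1 t).fun_mul (k.d3 t))).congr_deriv (by ring)⟩

/-- the exponential continued by `g` -/
def pc (g : ℝ → ℝ) (u : ℝ) : ℝ := if u ≤ 0 then exp u else g u

lemma pc_deriv {g g' : ℝ → ℝ} (hg : ∀ u, HasDerivAt g (g' u) u) (h0 : g 0 = 1) (h1 : g' 0 = 1)
    (u : ℝ) : HasDerivAt (pc g) (pc g' u) u := by
  rcases lt_trichotomy u 0 with h | rfl | h
  · rw [pc, if_pos h.le]
    refine (hasDerivAt_exp u).congr_of_eventuallyEq ?_
    filter_upwards [Iio_mem_nhds h] with v hv using if_pos (le_of_lt hv)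
  · rw [pc, if_pos le_rfl, exp_zero, ← hasDerivWithinAt_univ, ← Iic_union_Ici (a := (0 : ℝ))]
    refine HasDerivWithinAt.union ?_ ?_
    · have := (hasDerivAt_exp 0).hasDerivWithinAt (s := Iic 0)
      rw [exp_zero] at this
      exact this.congr (fun v hv => if_pos hv) (if_pos le_rfl)
    · have := (hg 0).hasDerivWithinAt (s := Ici 0)
      rw [h1] at this
      have e : ∀ v ∈ Ici (0 : ℝ), pc g v = g v := fun v hv => by
        rcases (mem_Ici.1 hv).eq_or_lt with rfl | h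
        · rw [pc, if_pos le_rfl, exp_zero, h0]
        · exact if_neg (not_le.2 h)
      exact this.congr e (e 0 self_mem_Ici)
  · rw [pc, if_neg (not_le.2 h)]
    refine (hg u).congr_of_eventuallyEq ?_
    filter_upwards [Ioi_mem_nhds h] with v hv using if_neg (not_le.2 hv)

def T3 (u : ℝ) : ℝ := 1 + u + u ^ 2 / 2 + u ^ 3 / 6
def T2 (u : ℝ) : ℝ := 1 + u + u ^ 2 / 2
def T1 (u : ℝ) : ℝ := 1 + u

lemma ch_fE : Ch fE (pc T3) (pc T2) (pc T1) (pc fun _ => 1) := by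
  have p : ∀ (k : ℕ) (c u : ℝ), HasDerivAt (fun u : ℝ => u ^ k / c) (k * u ^ (k - 1) / c) u :=
    fun k c u => (hasDerivAt_pow k u).div_const c
  have a1 : ∀ u : ℝ, HasDerivAt (fun u : ℝ => 1 + u) 1 u := fun u => (hasDerivAt_id u).const_add 1
  refine ⟨pc_deriv (g := fun u => 1 + u + u ^ 2 / 2 + u ^ 3 / 6 + u ^ 4 / 24) (fun u => ?_)
    (by norm_num) (by norm_num [T3]), pc_deriv (fun u => ?_) (by norm_num [T3]) (by norm_num [T2]),
    pc_deriv (fun u => ?_) (by norm_num [T2]) (by norm_num [T1]),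
    pc_deriv a1 (by norm_num [T1]) rfl⟩
  · exact ((((a1 u).fun_add (p 2 2 u)).fun_add (p 3 6 u)).fun_add (p 4 24 u)).congr_deriv
      (by norm_num [T3]; ring)
  · exact (((a1 u).fun_add (p 2 2 u)).fun_add (p 3 6 u)).congr_deriv (by norm_num [T2]; ring)
  · exact ((a1 u).fun_add (p 2 2 u)).congr_deriv (by norm_num [T1])

lemma cont_pc : Continuous (pc fun _ => 1) :=
  Continuous.if_le continuous_exp continuous_const continuous_id continuous_const fun _ h => by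
    rw [show _ = (0 : ℝ) from h, exp_zero]

lemma fE_pos (u : ℝ) : 0 < fE u := by
  unfold fE
  split_ifs with h
  · exact exp_pos u
  · have := not_le.1 h; positivity

/-- the derivatives against the scale `1 + u₊` -/
lemma ratios (u : ℝ) : ∃ c1 c2 c3 c4 : ℝ, c1 ∈ Icc (1 : ℝ) 24 ∧ c2 ∈ Icc (1 : ℝ) 24 ∧
    c3 ∈ Icc (1 : ℝ) 24 ∧ c4 ∈ Icc (1 : ℝ) 24 ∧ pc T3 u = fE u * c1 * (1 + max u 0)⁻¹ ∧
    pc T2 u = fE u * c2 * (1 + max u 0)⁻¹ ^ 2 ∧ pc T1 u = fE u * c3 * (1 + max u 0)⁻¹ ^ 3 ∧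
    pc (fun _ => 1) u = fE u * c4 * (1 + max u 0)⁻¹ ^ 4 := by
  by_cases h : u ≤ 0
  · refine ⟨1, 1, 1, 1, by norm_num, by norm_num, by norm_num, by norm_num, ?_⟩
    simp [pc, fE, h]
  have h0 := not_le.1 h
  have hE := fE_pos u
  have e : fE u = 1 + u + u ^ 2 / 2 + u ^ 3 / 6 + u ^ 4 / 24 := if_neg h
  have h2 := pow_pos h0 2
  have h3 := pow_pos h0 3
  have h4 := pow_pos h0 4
  have b : ∀ y : ℝ, fE u ≤ y → y ≤ 24 * fE u → y / fE u ∈ Icc (1 : ℝ) 24 := fun y a b =>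
    ⟨(one_le_div hE).2 a, (div_le_iff₀ hE).2 b⟩
  refine ⟨T3 u * (1 + u) / fE u, T2 u * (1 + u) ^ 2 / fE u, T1 u * (1 + u) ^ 3 / fE u,
    (1 + u) ^ 4 / fE u, b _ ?_ ?_, b _ ?_ ?_, b _ ?_ ?_, b _ ?_ ?_, ?_⟩
  any_goals (simp only [e, T1, T2, T3]; nlinarith)
  simp only [pc, if_neg h, max_eq_left h0.le]
  refine ⟨?_, ?_, ?_, ?_⟩ <;> field_simp

lemma young {a b m : ℝ} (ha : 0 ≤ a) (hm : 0 ≤ m) :
    240 * (a ^ 3 * m) + 384 * (a ^ 2 * m ^ 2) + 384 * (a * m * b) + 312 * (a * m ^ 3) +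
      264 * (m ^ 2 * b) + 121 * m ^ 4 ≤ a ^ 4 + 3 * b ^ 2 + 10 ^ 12 * m ^ 4 := by
  have h1 : 240 * (a ^ 3 * m) + 37248 * (a ^ 2 * m ^ 2) + 312 * (a * m ^ 3) ≤
      a ^ 4 + 3 * 10 ^ 11 * m ^ 4 := by
    rcases le_total a (1000 * m) with h | h
    · have e3 := mul_le_mul_of_nonneg_right (pow_le_pow_left₀ ha h 3) hm
      have e2 := mul_le_mul_of_nonneg_right (pow_le_pow_left₀ ha h 2) (pow_nonneg hm 2)
      have e1 := mul_le_mul_of_nonneg_right h (pow_nonneg hm 3)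
      nlinarith [pow_nonneg ha 4, pow_nonneg hm 4]
    · have e3 := mul_le_mul_of_nonneg_left h (pow_nonneg ha 3)
      have e2 := mul_le_mul_of_nonneg_left (pow_le_pow_left₀ (by positivity) h 2) (pow_nonneg ha 2)
      have e1 := mul_le_mul_of_nonneg_left (pow_le_pow_left₀ (by positivity) h 3) ha
      nlinarith [pow_nonneg ha 4, pow_nonneg hm 4]
  nlinarith [sq_nonneg (b - 192 * (a * m)), sq_nonneg (b - 132 * m ^ 2), sq_nonneg b,
    pow_nonneg hm 4]

lemma abs_c {c y z : ℝ} (hc : c ∈ Icc (1 : ℝ) 24) (h : |y| ≤ z) : |c * y| ≤ 24 * z := by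
  rw [abs_mul, abs_of_nonneg (by linarith [hc.1])]
  exact mul_le_mul hc.2 h (abs_nonneg _) (by norm_num)

lemma low {F1 G φ γ : ℝ} (h1 : |F1| ≤ φ) (h2 : |G| ≤ γ) : -(φ * γ) ≤ F1 * G :=
  neg_le_of_abs_le (by rw [abs_mul]; exact mul_le_mul h1 h2 (abs_nonneg _) ((abs_nonneg _).trans h1))

/-- the normalised inequality -/
lemma key {a b2 b3 b4 c1 c2 c3 c4 F F1 F2 F3 F4 m : ℝ} (h1 : c1 ∈ Icc (1 : ℝ) 24)
    (h2 : c2 ∈ Icc (1 : ℝ) 24) (h3 : c3 ∈ Icc (1 : ℝ) 24) (h4 : c4 ∈ Icc (1 : ℝ) 24) (hm : 0 ≤ m)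
    (hF : 0 ≤ F) (f1 : |F1| ≤ m * F) (f2 : |F2| ≤ m ^ 2 * F) (f3 : |F3| ≤ m ^ 3 * F)
    (f4 : |F4| ≤ m ^ 4 * F) (j2 : -(m * |a| + m ^ 2) ≤ b2)
    (j3 : |b3| ≤ m * (|b2| + m * |a| + m ^ 2)) (j4 : |b4| ≤ m ^ 2 * (|b2| + m * |a| + m ^ 2)) :
    -(10 ^ 12 * m ^ 4 * F) ≤ F4 + 4 * (F3 * (c1 * a)) + 6 * (F2 * (c2 * (a * a) + c1 * b2)) +
      4 * (F1 * (c3 * (a * a * a) + 3 * (c2 * (a * b2)) + c1 * b3)) +
      F * (c4 * a ^ 4 + 6 * (c3 * (a ^ 2 * b2)) + 3 * (c2 * b2 ^ 2) + 4 * (c2 * (a * b3)) +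
        c1 * b4) := by
  have ha := abs_nonneg a
  have y := young (b := |b2|) ha hm
  have g1 := low f3 (abs_c h1 (le_refl |a|))
  have g2 := low f2 ((abs_add_le _ _).trans (add_le_add
    (abs_c h2 (abs_mul a a).le) (abs_c h1 (le_refl |b2|))))
  have g3 := low f1 ((abs_add_le _ _).trans (add_le_add ((abs_add_le _ _).trans (add_le_add
    (abs_c h3 (show |a * a * a| ≤ |a| * |a| * |a| by rw [abs_mul, abs_mul]))
    (show |3 * (c2 * (a * b2))| ≤ 3 * (24 * (|a| * |b2|)) by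
      rw [abs_mul, abs_of_pos three_pos]
      exact mul_le_mul_of_nonneg_left (abs_c h2 (abs_mul a b2).le) three_pos.le))) (abs_c h1 j3)))
  have k1 : |a| ^ 4 ≤ c4 * a ^ 4 := by
    rw [show |a| ^ 4 = a ^ 4 by rw [show 4 = 2 * 2 from rfl, pow_mul, pow_mul, sq_abs]]
    exact le_mul_of_one_le_left (by positivity) h4.1
  have k2 : -(24 * (|a| ^ 2 * (m * |a| + m ^ 2))) ≤ c3 * (a ^ 2 * b2) := by
    rw [sq_abs]
    have p1 := mul_le_mul_of_nonneg_left j2 (sq_nonneg a)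
    have p2 : 0 ≤ a ^ 2 * (m * |a| + m ^ 2) := by positivity
    nlinarith [mul_le_mul_of_nonneg_left p1 (show 0 ≤ c3 by linarith [h3.1]),
      mul_le_mul_of_nonneg_right h3.2 p2]
  have k3 : |b2| ^ 2 ≤ c2 * b2 ^ 2 := by
    rw [sq_abs]; exact le_mul_of_one_le_left (sq_nonneg _) h2.1
  have k4 := neg_le_of_abs_le (abs_c h2 (show |a * b3| ≤ |a| * (m * (|b2| + m * |a| + m ^ 2)) by
    rw [abs_mul]; exact mul_le_mul_of_nonneg_left j3 ha))
  have k5 := neg_le_of_abs_le (abs_c h1 j4)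
  have k := mul_le_mul_of_nonneg_left (add_le_add (add_le_add (add_le_add (add_le_add k1
    (mul_le_mul_of_nonneg_left k2 (show (0 : ℝ) ≤ 6 by norm_num)))
    (mul_le_mul_of_nonneg_left k3 (show (0 : ℝ) ≤ 3 by norm_num)))
    (mul_le_mul_of_nonneg_left k4 (show (0 : ℝ) ≤ 4 by norm_num))) k5) hF
  have y' := mul_le_mul_of_nonneg_left y hF
  have g0 := neg_le_of_abs_le f4
  linarith

end Alg66

open Alg66 in
/-- **task 813** -/
theorem algStmt : AlgStmt := by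
  refine ⟨10 ^ 12, by positivity, ch_fE.contDiff cont_pc, ?_, fE_pos, fun u => ?_, ?_⟩
  · refine monotone_of_deriv_nonneg (fun u => (ch_fE.d0 u).differentiableAt) fun u => ?_
    obtain ⟨c1, -, -, -, h1, -, -, -, e, -⟩ := ratios u
    have := fE_pos u
    have := h1.1
    rw [(ch_fE.d0 u).deriv, e]
    positivity
  · unfold fE
    split_ifs with h
    · rw [max_eq_right h]; simpa using h
    · have h0 := not_le.1 h
      rw [max_eq_left h0.le]
      nlinarith [pow_pos h0 2, pow_pos h0 3, pow_pos h0 4]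
  intro F B x ω R β hF hω hR hβ hF0 hD hJ
  have e := congrFun ((ch_of hF).mul (ch_fE.comp (ch_of hJ.cd))).dv4 x
  obtain ⟨c1, c2, c3, c4, h1, h2, h3, h4, e1, e2, e3, e4⟩ := ratios (B x)
  have hE := fE_pos (B x)
  set θ := (1 + max (B x) 0)⁻¹ with hθ
  have θ0 : 0 < θ := by positivity
  set γ := θ * β with hγ
  have γ0 : 0 ≤ γ := by positivity
  set m := max (max R ω) √γ with hm
  have m1 : R ≤ m := (le_max_left _ _).trans (le_max_left _ _)
  have m2 : ω ≤ m := (le_max_right _ _).trans (le_max_left _ _)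
  have m0 : 0 ≤ m := hR.trans m1
  have m3 : γ ≤ m ^ 2 := by
    rw [← sq_sqrt γ0]; exact pow_le_pow_left₀ (sqrt_nonneg _) (le_max_right _ _) 2
  have m4 : m ^ 4 ≤ R ^ 4 + γ ^ 2 + ω ^ 4 := by
    have a1 := pow_nonneg hR 4
    have a2 := pow_nonneg hω 4
    have a3 := sq_nonneg γ
    rcases max_cases (max R ω) √γ with h | h
    · rcases max_cases R ω with h' | h' <;> rw [hm, h.1, h'.1] <;> linarith
    · rw [hm, h.1, show √γ ^ 4 = (√γ ^ 2) ^ 2 by ring, sq_sqrt γ0]; linarith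
  have f : ∀ j ∈ Icc 1 4, |dv j F x| ≤ m ^ j * F x := fun j hj =>
    (hD j hj).trans (mul_le_mul_of_nonneg_right (pow_le_pow_left₀ hω m2 j) hF0)
  have ab : ∀ y, |θ * y| = θ * |y| := fun y => by rw [abs_mul, abs_of_pos θ0]
  have s : θ * (|dv 2 B x| + R * |dv 1 B x| + β) ≤ |θ * dv 2 B x| + m * |θ * dv 1 B x| + m ^ 2 := by
    rw [ab, ab]
    nlinarith [mul_le_mul_of_nonneg_right m1 (mul_nonneg θ0.le (abs_nonneg (dv 1 B x)))]
  have s0 : 0 ≤ θ * (|dv 2 B x| + R * |dv 1 B x| + β) := by positivity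
  have k := key (a := θ * dv 1 B x) (b2 := θ * dv 2 B x) (b3 := θ * dv 3 B x)
    (b4 := θ * dv 4 B x) h1 h2 h3 h4 m0 hF0 (by simpa using f 1 (by simp)) (f 2 (by simp))
    (f 3 (by simp)) (f 4 (by simp))
    (by rw [ab]
        nlinarith [mul_le_mul_of_nonneg_left hJ.h2 θ0.le,
          mul_le_mul_of_nonneg_right m1 (mul_nonneg θ0.le (abs_nonneg (dv 1 B x)))])
    (by rw [ab]
        refine (mul_le_mul_of_nonneg_left hJ.h3 θ0.le).trans ?_
        rw [mul_left_comm]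
        exact mul_le_mul m1 s s0 m0)
    (by rw [ab]
        refine (mul_le_mul_of_nonneg_left hJ.h4 θ0.le).trans ?_
        rw [mul_left_comm]
        exact mul_le_mul (pow_le_pow_left₀ hR m1 2) s s0 (by positivity))
  have k' := mul_le_mul_of_nonneg_left k hE.le
  have k2 := mul_le_mul_of_nonneg_right m4 (mul_nonneg hF0 hE.le)
  rw [dv, e, e1, e2, e3, e4, div_eq_inv_mul, ← hθ, ← hγ]
  linarith

end Crest.Agent.T157.Cw

end
end

-- ▼ part T157/CwJet_90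
section

/-!
# Row 157, coin windows (helper90): the jets of the Schatten norm in one coupling
-/

set_option autoImplicit false

noncomputable section

namespace Crest.Agent.T157.Cw

open Matrix Set Function Metric Filter Topology
open Crest.ProbabilityR.SpinGlassDynamics
open Crest.Agent.T157.E Crest.Agent.T157.Un
open Crest.Agent.T157.Qe (V Mx Le)

namespace Jet90

/-- the real tilt parameter -/
def uu (t θ : ℝ) : ℝ := Real.tanh θ / (1 + t * Real.tanh θ)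

/-- its continuation -/
def UU (t : ℝ) (ζ : ℂ) : ℂ := Complex.sinh ζ / (Complex.cosh ζ + t * Complex.sinh ζ)

lemma uu_eq (t θ : ℝ) : uu t θ = Real.sinh θ / (Real.cosh θ + t * Real.sinh θ) := by
  have hc := (Real.cosh_pos θ).ne'
  rw [uu, Real.tanh_eq_sinh_div_cosh, show 1 + t * (Real.sinh θ / Real.cosh θ) =
    (Real.cosh θ + t * Real.sinh θ) / Real.cosh θ by field_simp, div_div_div_cancel_right₀ hc]

lemma UU_real (t θ : ℝ) : UU t θ = uu t θ := by
  rw [uu_eq, UU]; push_cast; rfl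

lemma contDiff_uu {t : ℝ} (ht : |t| ≤ 1) : ContDiff ℝ 4 (uu t) := by
  rw [show uu t = fun θ => Real.sinh θ / (Real.cosh θ + t * Real.sinh θ) from funext (uu_eq t)]
  refine Real.contDiff_sinh.div (Real.contDiff_cosh.add (contDiff_const.mul Real.contDiff_sinh))
    fun θ => ne_of_gt ?_
  have h1 : |t * Real.sinh θ| ≤ |Real.sinh θ| := by
    rw [abs_mul]; exact mul_le_of_le_one_left (abs_nonneg _) ht
  have h2 : |Real.sinh θ| < Real.cosh θ := by
    rw [Real.abs_sinh, ← Real.cosh_abs]; exact Real.sinh_lt_cosh _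
  linarith [neg_abs_le (t * Real.sinh θ)]

lemma den {t : ℝ} (ht : |t| ≤ 1) {ζ : ℂ} (hζ : ‖ζ‖ ≤ 1 / 4) :
    ‖Complex.sinh ζ‖ ≤ 5 / 4 * ‖ζ‖ ∧ 5 / 8 ≤ ‖Complex.cosh ζ + t * Complex.sinh ζ‖ := by
  have a := Complex.norm_exp_sub_one_sub_id_le (x := ζ) (by linarith)
  have b := Complex.norm_exp_sub_one_sub_id_le (x := -ζ) (by rw [norm_neg]; linarith)
  rw [norm_neg] at b
  have z0 := norm_nonneg ζ
  have s : ‖Complex.sinh ζ‖ ≤ 5 / 4 * ‖ζ‖ := by
    have e : Complex.sinh ζ = ζ + ((Complex.exp ζ - 1 - ζ) - (Complex.exp (-ζ) - 1 - -ζ)) / 2 := by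
      rw [Complex.sinh]; ring
    rw [e]
    refine (norm_add_le _ _).trans ?_
    rw [norm_div, Complex.norm_two]
    nlinarith [norm_sub_le (Complex.exp ζ - 1 - ζ) (Complex.exp (-ζ) - 1 - -ζ)]
  refine ⟨s, ?_⟩
  have e : (1 : ℂ) = (Complex.cosh ζ + t * Complex.sinh ζ) - t * Complex.sinh ζ -
      ((Complex.exp ζ - 1 - ζ) + (Complex.exp (-ζ) - 1 - -ζ)) / 2 := by
    rw [Complex.cosh]; ring
  have h1 := congrArg norm e
  rw [norm_one] at h1
  have h2 := norm_sub_le ((Complex.cosh ζ + t * Complex.sinh ζ) - t * Complex.sinh ζ)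
    (((Complex.exp ζ - 1 - ζ) + (Complex.exp (-ζ) - 1 - -ζ)) / 2)
  have h3 := norm_sub_le (Complex.cosh ζ + t * Complex.sinh ζ) (t * Complex.sinh ζ)
  have h4 : ‖(t : ℂ) * Complex.sinh ζ‖ ≤ ‖Complex.sinh ζ‖ := by
    rw [norm_mul, Complex.norm_real, Real.norm_eq_abs]
    exact mul_le_of_le_one_left (norm_nonneg _) ht
  rw [norm_div, Complex.norm_two] at h2
  nlinarith [norm_add_le (Complex.exp ζ - 1 - ζ) (Complex.exp (-ζ) - 1 - -ζ)]

lemma norm_UU {t : ℝ} (ht : |t| ≤ 1) {ζ : ℂ} (hζ : ‖ζ‖ ≤ 1 / 4) : ‖UU t ζ‖ ≤ 2 * ‖ζ‖ := by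
  obtain ⟨h1, h2⟩ := den ht hζ
  rw [UU, norm_div, div_le_iff₀ (by linarith)]
  nlinarith [norm_nonneg ζ]

lemma diff_UU {t : ℝ} (ht : |t| ≤ 1) {ζ : ℂ} (hζ : ‖ζ‖ ≤ 1 / 4) : DifferentiableAt ℂ (UU t) ζ := by
  refine Complex.differentiableAt_sinh.div (Complex.differentiableAt_cosh.add
    (Complex.differentiableAt_sinh.const_mul _)) fun h => ?_
  have := (den ht hζ).2
  rw [h, norm_zero] at this
  linarith

lemma deriv_UU (t : ℝ) : HasDerivAt (UU t) 1 0 := by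
  have := (Complex.hasDerivAt_sinh 0).div ((Complex.hasDerivAt_cosh 0).add
    ((Complex.hasDerivAt_sinh 0).const_mul (t : ℂ))) (by simp)
  refine this.congr_deriv ?_
  simp

lemma cauchy {F : ℂ → ℂ} {c : ℂ} {ρ A : ℝ} (hρ : 0 < ρ) (hF : DifferentiableOn ℂ F (ball c (2 * ρ)))
    (hA : ∀ z, ‖z - c‖ = ρ → ‖F z‖ ≤ A) (m : ℕ) :
    |(iteratedDeriv m F c).re| ≤ m.factorial * A / ρ ^ m :=
  (Complex.abs_re_le_norm _).trans (Complex.norm_iteratedDeriv_le_of_forall_mem_sphere_norm_le m hρ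
    (hF.diffContOnCl_ball (closedBall_subset_ball (by linarith))) fun z hz =>
      hA z (mem_sphere_iff_norm.1 hz))

lemma jets {L q : ℝ → ℝ} {G : ℂ → ℂ} {x0 h t r l a M : ℝ} (hh : 0 < h) (ht : |t| ≤ 1) (r0 : 0 < r)
    (r1 : r ≤ 1 / 2) (hG : Ex r q G) (hM : ∀ z ∈ ball (0 : ℂ) r, ‖G z‖ ≤ M) (l0 : 0 ≤ l)
    (hL : ∀ x, |uu t ((x - x0) * h)| < r → L x =
      l * (1 + a * uu t ((x - x0) * h) + uu t ((x - x0) * h) ^ 2 * q (uu t ((x - x0) * h)))) :
    dv 1 L x0 = l * a * h ∧ l * h ^ 2 * (2 * q 0 - 32 * |a|) ≤ dv 2 L x0 ∧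
    |dv 3 L x0| ≤ l * h ^ 3 * (24576 * |a| + 96 * M / r) ∧
    |dv 4 L x0| ≤ l * h ^ 4 * (24576 * |a| + 1536 * M / r ^ 2) := by
  set U : ℂ → ℂ := fun z => UU t ((z - x0) * h) with hU
  have nz : ∀ z : ℂ, ‖(z - x0) * h‖ = ‖z - x0‖ * h := fun z => by
    rw [norm_mul, Complex.norm_real, Real.norm_eq_abs, abs_of_pos hh]
  have b1 : ∀ z ∈ ball (x0 : ℂ) (2 * (1 / (8 * h))), ‖(z - x0) * h‖ ≤ 1 / 4 := fun z hz => by
    rw [mem_ball_iff_norm] at hz
    rw [nz]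
    refine (mul_le_mul_of_nonneg_right hz.le hh.le).trans_eq ?_
    field_simp; norm_num
  have dU : DifferentiableOn ℂ U (ball (x0 : ℂ) (2 * (1 / (8 * h)))) := fun z hz =>
    (DifferentiableAt.comp (g := UU t) (f := fun z : ℂ => (z - x0) * h) z (diff_UU ht (b1 z hz))
      (by fun_prop)).differentiableWithinAt
  have sub : ball (x0 : ℂ) (2 * (r / (4 * h))) ⊆ ball (x0 : ℂ) (2 * (1 / (8 * h))) :=
    ball_subset_ball (by
      rw [mul_le_mul_iff_right₀ two_pos, div_le_div_iff₀ (by positivity) (by positivity)]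
      nlinarith)
  have mp : ∀ z ∈ ball (x0 : ℂ) (2 * (r / (4 * h))), U z ∈ ball (0 : ℂ) r := fun z hz => by
    rw [mem_ball_zero_iff]
    refine (norm_UU ht (b1 z (sub hz))).trans_lt ?_
    rw [mem_ball_iff_norm] at hz
    rw [nz]
    refine (mul_lt_mul_of_pos_left (mul_lt_mul_of_pos_right hz hh) two_pos).trans_eq ?_
    field_simp; norm_num
  have dW : DifferentiableOn ℂ (fun z => G (U z)) (ball (x0 : ℂ) (2 * (r / (4 * h)))) :=
    hG.diff.comp (dU.mono sub) mp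
  have dH : DifferentiableOn ℂ (fun z => U z * (U z * G (U z)))
      (ball (x0 : ℂ) (2 * (r / (4 * h)))) := (dU.mono sub).mul ((dU.mono sub).mul dW)
  have m0 : (x0 : ℂ) ∈ ball (x0 : ℂ) (2 * (r / (4 * h))) := mem_ball_self (by positivity)
  have nb := isOpen_ball.mem_nhds m0
  have cU : ∀ j : ℕ, ContDiffAt ℂ j U x0 := fun j =>
    ((dU.mono sub).contDiffOn isOpen_ball).contDiffAt nb
  have cW : ∀ j : ℕ, ContDiffAt ℂ j (fun z => G (U z)) x0 := fun j =>
    (dW.contDiffOn isOpen_ball).contDiffAt nb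
  have key : ∀ j : ℕ, 0 < j → dv j L x0 = l * (a * (iteratedDeriv j U x0).re +
      (iteratedDeriv j (fun z => U z * (U z * G (U z))) x0).re) := fun j hj => by
    have ev : L =ᶠ[𝓝 x0] fun x : ℝ =>
        ((l : ℂ) * (1 + ((a : ℂ) * U x + U x * (U x * G (U x))))).re := by
      filter_upwards [Complex.continuous_ofReal.continuousAt.preimage_mem_nhds nb] with x hx
      have e : U x = uu t ((x - x0) * h) := by rw [← UU_real, hU]; push_cast; rfl
      have h1 := mp x hx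
      rw [e, mem_ball_zero_iff, Complex.norm_real, Real.norm_eq_abs] at h1
      rw [hL x h1, e, hG.eq _ h1]
      norm_cast
      ring
    rw [dv, ev.iteratedDeriv_eq, Sw14.Der91.iter_re isOpen_ball j (F := fun z =>
      (l : ℂ) * (1 + ((a : ℂ) * U z + U z * (U z * G (U z)))))
      ((((dU.mono sub).const_mul _).add dH).const_add _ |>.const_mul _) x0 m0,
      iteratedDeriv_const_mul_field, iteratedDeriv_const_add hj,
      iteratedDeriv_fun_add (contDiffAt_const.mul (cU j)) ((cU j).mul ((cU j).mul (cW j))),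
      iteratedDeriv_const_mul_field]
    simp
  have U0 : U x0 = 0 := by simp [hU, UU]
  have U1 : deriv U x0 = h := by
    have h1 : HasDerivAt (fun z : ℂ => (z - x0) * h) h x0 := by
      simpa using ((hasDerivAt_id' (x0 : ℂ)).sub_const (x0 : ℂ)).mul_const (h : ℂ)
    have h2 := (show HasDerivAt (UU t) 1 (((x0 : ℂ) - x0) * h) by
      rw [sub_self, zero_mul]; exact deriv_UU t).comp (x0 : ℂ) h1
    rw [one_mul] at h2
    exact h2.deriv
  have G0 : G 0 = q 0 := by simpa using hG.eq 0 (by simpa using r0)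
  have V1 : iteratedDeriv 1 (fun z => U z * G (U z)) x0 = h * q 0 := by
    rw [iteratedDeriv_fun_mul (cU 1) (cW 1)]
    simp [Finset.sum_range_succ, U0, U1, G0]
  have H1 : iteratedDeriv 1 (fun z => U z * (U z * G (U z))) x0 = 0 := by
    rw [iteratedDeriv_fun_mul (cU 1) ((cU 1).mul (cW 1))]
    simp [Finset.sum_range_succ, U0]
  have H2 : iteratedDeriv 2 (fun z => U z * (U z * G (U z))) x0 = 2 * h * (h * q 0) := by
    rw [iteratedDeriv_fun_mul (cU 2) ((cU 2).mul (cW 2))]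
    simp only [Finset.sum_range_succ, Finset.range_zero, Finset.sum_empty, V1]
    simp [U0, U1]
  have bU := cauchy (A := 1 / 4) (by positivity) dU fun z hz => by
    have h1 : ‖(z - x0) * h‖ = 1 / 8 := by rw [nz, hz]; field_simp
    refine (norm_UU ht (by rw [h1]; norm_num)).trans ?_
    rw [h1]; norm_num
  have bH := cauchy (A := r / 2 * (r / 2 * M)) (by positivity) dH fun z hz => by
    have h1 : ‖(z - x0) * h‖ = r / 4 := by rw [nz, hz]; field_simp
    have h2 : ‖U z‖ ≤ r / 2 := (norm_UU ht (by rw [h1]; linarith)).trans (by rw [h1]; linarith)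
    have h3 := hM (U z) (mem_ball_zero_iff.2 (by linarith))
    rw [norm_mul, norm_mul]
    exact mul_le_mul h2 (mul_le_mul h2 h3 (norm_nonneg _) (by positivity)) (by positivity)
      (by positivity)
  have tri : ∀ {x y X Y : ℝ}, |x| ≤ X → |y| ≤ Y → |l * (a * x + y)| ≤ l * (|a| * X + Y) :=
    fun {x y X Y} hx hy => by
      rw [abs_mul, abs_of_nonneg l0]
      refine mul_le_mul_of_nonneg_left ((abs_add_le _ _).trans (add_le_add ?_ hy)) l0
      rw [abs_mul]; exact mul_le_mul_of_nonneg_left hx (abs_nonneg a)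
  refine ⟨?_, ?_, ?_, ?_⟩
  · rw [key 1 one_pos, H1, iteratedDeriv_one, U1]; simp [mul_assoc]
  · have h1 := bU 2
    rw [show ((2 : ℕ).factorial : ℝ) * (1 / 4) / (1 / (8 * h)) ^ 2 = 32 * h ^ 2 by
      simp only [Nat.factorial]; field_simp; norm_num] at h1
    have h2 : |a * (iteratedDeriv 2 U x0).re| ≤ |a| * (32 * h ^ 2) := by
      rw [abs_mul]; exact mul_le_mul_of_nonneg_left h1 (abs_nonneg a)
    rw [key 2 two_pos, H2, mul_assoc l]
    refine mul_le_mul_of_nonneg_left ?_ l0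
    have e : (2 * (h : ℂ) * (h * (q 0 : ℝ))).re = 2 * h * (h * q 0) := by norm_cast
    rw [e]
    linarith [neg_abs_le (a * (iteratedDeriv 2 U x0).re)]
  · rw [key 3 (by norm_num)]
    refine (tri (bU 3) (bH 3)).trans ?_
    rw [mul_assoc l]
    refine mul_le_mul_of_nonneg_left ?_ l0
    rw [show ((3 : ℕ).factorial : ℝ) * (1 / 4) / (1 / (8 * h)) ^ 3 = 768 * h ^ 3 by
      simp only [Nat.factorial]; field_simp; norm_num,
      show ((3 : ℕ).factorial : ℝ) * (r / 2 * (r / 2 * M)) / (r / (4 * h)) ^ 3 =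
        h ^ 3 * (96 * M / r) by simp only [Nat.factorial]; field_simp; norm_num; ring]
    nlinarith [mul_nonneg (abs_nonneg a) (pow_pos hh 3).le]
  · rw [key 4 (by norm_num)]
    refine (tri (bU 4) (bH 4)).trans (le_of_eq ?_)
    simp only [Nat.factorial]; field_simp; norm_num; ring

variable {n : ℕ}

lemma le_sch {M : Mx n} {ε : ℝ} {k : ℕ} (hn : 1 ≤ n) (hk : 1 ≤ k) (hε : 0 < ε) (hM : Mᵀ = M)
    (h : Le (ε • 1) M) : 0 < (M ^ k).trace ∧ Le M (sch k M • 1) ∧ ε ≤ sch k M := by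
  obtain ⟨Q, l, h1, h2, h3⟩ := Oc.exists_spec hM
  have e : ∀ (u : V n) (j : ℕ), u ⬝ᵥ (M ^ j) *ᵥ u = ∑ a, (Qᵀ *ᵥ u) a ^ 2 * l a ^ j := by
    intro u j
    rw [h3, ← mulVec_mulVec, ← mulVec_mulVec, dotProduct_mulVec, ← mulVec_transpose]
    simp only [dotProduct, mulVec_diagonal]
    exact Finset.sum_congr rfl fun a _ => by ring
  have e2 : (M ^ k).trace = ∑ i, l i ^ k := by
    rw [← Oc.trace_conj h1, h3, Oc.conj_back h2, trace_diagonal]
  have lo : ∀ i, ε ≤ l i := fun i => by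
    have a := h (Q *ᵥ Pi.single i 1)
    have b := e (Q *ᵥ Pi.single i 1)
    rw [mulVec_mulVec, h2, one_mulVec] at b
    have b0 := b 0
    have b1 := b 1
    rw [pow_zero, one_mulVec] at b0
    rw [pow_one] at b1
    rw [smul_mulVec, one_mulVec, dotProduct_smul, b0, b1] at a
    simpa [Pi.single_apply] using a
  have l0 : ∀ i, 0 ≤ l i := fun i => hε.le.trans (lo i)
  have up : ∀ i, l i ≤ sch k M := fun i => by
    rw [sch, e2, ← Real.pow_rpow_inv_natCast (l0 i) (show k ≠ 0 by omega)]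
    exact Real.rpow_le_rpow (pow_nonneg (l0 i) k) (Finset.single_le_sum
      (f := fun i => l i ^ k) (fun i _ => pow_nonneg (l0 i) k) (Finset.mem_univ i)) (by positivity)
  refine ⟨?_, fun u => ?_, (lo ⟨0, hn⟩).trans (up _)⟩
  · rw [e2]
    exact Finset.sum_pos (fun i _ => pow_pos (hε.trans_le (lo i)) k) ⟨⟨0, hn⟩, Finset.mem_univ _⟩
  · have b0 := e u 0
    have b1 := e u 1
    rw [pow_zero, one_mulVec] at b0
    rw [pow_one] at b1
    rw [smul_mulVec, one_mulVec, dotProduct_smul, b0, b1, smul_eq_mul, Finset.mul_sum]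
    refine Finset.sum_le_sum fun a _ => ?_
    rw [pow_one, pow_zero, mul_one, mul_comm (sch k M)]
    exact mul_le_mul_of_nonneg_left (up a) (sq_nonneg _)

lemma contDiff_pow {N : ℝ → Mx n} (h : ∀ i j, ContDiff ℝ 4 fun x => N x i j) (k : ℕ) :
    ∀ i j, ContDiff ℝ 4 fun x => (N x ^ k) i j := by
  induction k with
  | zero => intro i j; simpa only [pow_zero] using contDiff_const
  | succ k ih =>
    intro i j
    simp only [pow_succ, Matrix.mul_apply]
    exact ContDiff.sum fun m _ => (ih i m).mul (h m j)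

lemma alg {L1 L2 L3 L4 l h ε v b a k D : ℝ} (hh : 0 < h) (hε : 0 < ε) (hl : ε ≤ l) (hv : 0 ≤ v)
    (hv4 : v ≤ 4) (hb : 0 ≤ b) (hb1 : b ≤ 1) (ha : |a| ≤ 2) (hk : 1 ≤ k) (hD : 1 ≤ D)
    (h1 : L1 = l * a * h) (h2 : l * h ^ 2 * (2 * (ε / (4 * l) * v - b) - 32 * |a|) ≤ L2)
    (h3 : |L3| ≤ l * h ^ 3 * (24576 * |a| + D * k ^ 2 * (v + b)))
    (h4 : |L4| ≤ l * h ^ 4 * (24576 * |a| + D * k ^ 3 * (v + b))) :
    (∀ R β, R = 80000 * D * (k ^ 2 * (l / ε) * h) → β = 80000 * D * (b * l * h ^ 2) →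
      -(R * |L1| + β) ≤ L2 ∧ |L3| ≤ R * (|L2| + R * |L1| + β) ∧
        |L4| ≤ R ^ 2 * (|L2| + R * |L1| + β)) ∧
    ∀ R β, R = 80000 * D * (k * h) → β = 80000 * D * (k * l * h ^ 2) →
      -(R * |L1| + β) ≤ L2 ∧ |L3| ≤ R * (|L2| + R * |L1| + β) ∧
        |L4| ≤ R ^ 2 * (|L2| + R * |L1| + β) := by
  have l0 : 0 < l := hε.trans_le hl
  have eP : |L1| = l * |a| * h := by rw [h1, abs_mul, abs_mul, abs_of_pos l0, abs_of_pos hh]
  have P0 := abs_nonneg L1
  have Q0 := abs_nonneg L2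
  have e2 : l * h ^ 2 * (2 * (ε / (4 * l) * v - b) - 32 * |a|) =
      ε / 2 * (v * h ^ 2) - 2 * (b * l * h ^ 2) - 32 * (h * |L1|) := by
    rw [eP]; field_simp; ring
  rw [e2] at h2
  have y0 : 0 ≤ ε / 2 * (v * h ^ 2) := by positivity
  have B0 : 0 ≤ b * l * h ^ 2 := by positivity
  set K := 80000 * D with hK
  have K1 : 80000 ≤ K := by linarith
  have lam : 1 ≤ l / ε := (one_le_div hε).2 hl
  have k2 : k ≤ k ^ 2 := by nlinarith
  refine ⟨?_, ?_⟩
  · rintro R β rfl rfl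
    set ω := k ^ 2 * (l / ε) * h with hω
    set B := b * l * h ^ 2
    have w1 : k * h ≤ ω :=
      mul_le_mul_of_nonneg_right (k2.trans (le_mul_of_one_le_right (by positivity) lam)) hh.le
    have w2 : h ≤ ω := le_trans (le_mul_of_one_le_left hh.le hk) w1
    have w3 : k ^ 2 * h ≤ ω :=
      mul_le_mul_of_nonneg_right (le_mul_of_one_le_right (by positivity) lam) hh.le
    have w0 : 0 ≤ ω := hh.le.trans w2
    have p1 : h * |L1| ≤ ω * |L1| := mul_le_mul_of_nonneg_right w2 P0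
    have p0 : 0 ≤ ω * |L1| := by positivity
    have y1 : k ^ 2 * h * (l * h ^ 2 * (v + b)) ≤ ω * (2 * |L2| + 64 * (ω * |L1|) + 5 * B) := by
      have e : k ^ 2 * h * (l * h ^ 2 * (v + b)) = ω * (2 * (ε / 2 * (v * h ^ 2))) + k ^ 2 * h * B := by
        simp only [hω, B]; field_simp
      have a1 : 2 * (ε / 2 * (v * h ^ 2)) ≤ 2 * |L2| + 64 * (ω * |L1|) + 4 * B := by
        linarith [le_abs_self L2]
      rw [e]
      nlinarith [mul_le_mul_of_nonneg_left a1 w0, mul_le_mul_of_nonneg_right w3 B0]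
    have S : 24576 * (ω * |L1|) + D * (2 * |L2| + 64 * (ω * |L1|) + 5 * B) ≤
        K * (|L2| + K * ω * |L1| + K * B) := by
      have a1 : K * (ω * |L1|) ≤ K * (K * (ω * |L1|)) :=
        mul_le_mul_of_nonneg_left (le_mul_of_one_le_left p0 (by linarith)) (by linarith)
      have a2 : K * B ≤ K * (K * B) :=
        mul_le_mul_of_nonneg_left (le_mul_of_one_le_left B0 (by linarith)) (by linarith)
      have a3 : ω * |L1| ≤ D * (ω * |L1|) := le_mul_of_one_le_left p0 hD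
      have a4 : 0 ≤ D * |L2| := by positivity
      have a5 : 0 ≤ D * B := by positivity
      have e : K * (|L2| + K * ω * |L1| + K * B) = K * |L2| + K * (K * (ω * |L1|)) + K * (K * B) := by
        ring
      rw [e]
      simp only [hK] at a1 a2 ⊢
      nlinarith
    have S0 : 0 ≤ |L2| + K * ω * |L1| + K * B := by positivity
    refine ⟨by nlinarith [mul_le_mul_of_nonneg_right K1 p0, mul_le_mul_of_nonneg_right K1 B0], ?_, ?_⟩
    · refine h3.trans ?_
      have e : l * h ^ 3 * (24576 * |a| + D * k ^ 2 * (v + b)) =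
          24576 * (h * (h * |L1|)) + D * (k ^ 2 * h * (l * h ^ 2 * (v + b))) := by rw [eP]; ring
      have a1 : h * (h * |L1|) ≤ ω * (ω * |L1|) := mul_le_mul w2 p1 (by positivity) w0
      rw [e]
      nlinarith [mul_le_mul_of_nonneg_left y1 (show 0 ≤ D by linarith),
        mul_le_mul_of_nonneg_left S w0]
    · refine h4.trans ?_
      have e : l * h ^ 4 * (24576 * |a| + D * k ^ 3 * (v + b)) = 24576 * (h * (h * (h * |L1|))) +
          D * (k * h * (k ^ 2 * h * (l * h ^ 2 * (v + b)))) := by rw [eP]; ring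
      have a1 : h * (h * (h * |L1|)) ≤ ω * (ω * (ω * |L1|)) :=
        mul_le_mul w2 (mul_le_mul w2 p1 (by positivity) w0) (by positivity) w0
      have a2 := mul_le_mul w1 y1 (by positivity) w0
      have a3 : ω * ω * (K * (|L2| + K * ω * |L1| + K * B)) ≤
          (K * ω) ^ 2 * (|L2| + K * ω * |L1| + K * B) := by
        rw [← mul_assoc]
        refine mul_le_mul_of_nonneg_right ?_ S0
        nlinarith [mul_nonneg (mul_nonneg w0 w0) (show 0 ≤ K * (K - 1) by nlinarith)]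
      rw [e]
      nlinarith [mul_le_mul_of_nonneg_left a2 (show 0 ≤ D by linarith),
        mul_le_mul_of_nonneg_left S (mul_nonneg w0 w0)]
  · rintro R β rfl rfl
    have z0 : 0 < l * h ^ 2 := by positivity
    have R0 : 0 ≤ K * (k * h) := by positivity
    have p0 : 0 ≤ h * |L1| := by positivity
    have S : K * (k * l * h ^ 2) ≤ |L2| + K * (k * h) * |L1| + K * (k * l * h ^ 2) := by
      have := mul_nonneg R0 P0
      linarith
    have T : ∀ m : ℝ, 1 ≤ m → 24576 * |a| + D * m * (v + b) ≤ K * m := fun m hm => by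
      have a1 : D * m * (v + b) ≤ D * m * 5 := mul_le_mul_of_nonneg_left (by linarith) (by positivity)
      have a2 : 1 ≤ D * m := one_le_mul_of_one_le_of_one_le hD hm
      simp only [hK]
      nlinarith
    have KK : K ≤ K * K := le_mul_of_one_le_left (by linarith) (by linarith)
    refine ⟨?_, h3.trans (le_trans ?_ (mul_le_mul_of_nonneg_left S R0)),
      h4.trans (le_trans ?_ (mul_le_mul_of_nonneg_left S (sq_nonneg _)))⟩
    · have a1 : 32 * (h * |L1|) ≤ K * k * (h * |L1|) :=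
        mul_le_mul_of_nonneg_right (by nlinarith) p0
      have a2 : 2 * b * (l * h ^ 2) ≤ K * k * (l * h ^ 2) :=
        mul_le_mul_of_nonneg_right (by nlinarith) z0.le
      nlinarith
    · refine (mul_le_mul_of_nonneg_left (T _ (one_le_pow₀ hk)) (by positivity)).trans ?_
      nlinarith [mul_le_mul_of_nonneg_right KK (show 0 ≤ l * h ^ 3 * k ^ 2 by positivity)]
    · refine (mul_le_mul_of_nonneg_left (T _ (one_le_pow₀ hk)) (by positivity)).trans ?_
      have : K ≤ K * K * K := KK.trans (le_mul_of_one_le_right (by positivity) (by linarith))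
      nlinarith [mul_le_mul_of_nonneg_right this (show 0 ≤ l * h ^ 4 * k ^ 3 by positivity)]

end Jet90

open Jet90 in
theorem jetGlue : JetGlue := by
  rintro ⟨C, c, hC, c0, c1, H⟩ T
  have D1 : 1 ≤ 1536 * C / c ^ 2 := by
    rw [le_div_iff₀ (by positivity)]; nlinarith
  refine ⟨80000 * (1536 * C / c ^ 2), by linarith, fun n k ε s g dd y e hk hε hs => ?_⟩
  have hn : 1 ≤ n := e.1.1.pos
  have n0 : (0 : ℝ) < n := by exact_mod_cast hn
  have s0 : 0 < √(n : ℝ) := Real.sqrt_pos.2 n0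
  have k2 : (2 : ℝ) ≤ k := by exact_mod_cast hk
  have pos : ∀ (W : Mx n) σ, 0 < ising W y σ := fun W σ => Real.exp_pos _
  have base : ∀ W : Mx n, (Mr ε s W y)ᵀ = Mr ε s W y ∧ Le (ε • 1) (Mr ε s W y) := fun W => by
    obtain ⟨-, a, -, b, -⟩ := T.bd n _ _ (pos W) (sgn_chi e)
    refine ⟨by rw [Mr, transpose_add, transpose_smul, transpose_smul, transpose_one, a], fun u => ?_⟩
    have := b u
    rw [zero_mulVec, dotProduct_zero] at this
    rw [Mr, add_mulVec, dotProduct_add, smul_mulVec s, dotProduct_smul, smul_eq_mul]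
    linarith [mul_nonneg hs this]
  set w := ising (Wmat n g dd) y with hw
  set M := Mr ε s (Wmat n g dd) y with hM
  set A := s • K3 w (chi e) with hA
  set B := s • vecMulVec (covV w (chi e) sv) (covV w (chi e) sv) with hB
  obtain ⟨ht, sC, sK, pC, lK, uK, uB⟩ := T.bd n w _ (pos _) (sgn_chi e)
  have eM : ∀ x, Mr ε s (Wmat n (update g e x) dd) y =
      M + uu (mean w (chi e)) ((x - g e) * (√n)⁻¹) • A -
        uu (mean w (chi e)) ((x - g e) * (√n)⁻¹) ^ 2 • B := fun x => by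
    rw [Mr, T.upd, T.tilt n _ _ _ (pos _) (sgn_chi e), div_eq_mul_inv (x - g e), hM, Mr, hA, hB, uu]
    module
  obtain ⟨-, hΛ, hl⟩ := le_sch (k := k) hn (by omega) hε (base (Wmat n g dd)).1 (base _).2
  have qM : ∀ u : V n, u ⬝ᵥ M *ᵥ u = ε * (u ⬝ᵥ u) + s * (u ⬝ᵥ covM w *ᵥ u) := fun u => by
    simp only [hM, Mr, add_mulVec, dotProduct_add, smul_mulVec, dotProduct_smul, smul_eq_mul,
      one_mulVec, hw]
  have uu0 : ∀ u : V n, 0 ≤ ε * (u ⬝ᵥ u) := fun u =>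
    mul_nonneg hε.le (Finset.sum_nonneg fun i _ => mul_self_nonneg _)
  obtain ⟨v, q, G, ha, hv, hv4, -, hb, hb1, hG, hGM, hq, hs'⟩ := H n k M A B ε (sch k M) hn hk hε
    (base _).1 (by rw [hA, transpose_smul, sK]) (by rw [hB, transpose_smul, transpose_vecMulVec])
    (base _).2 hΛ
    (fun u => by
      have := mul_le_mul_of_nonneg_left (lK u) hs
      simp only [hA, smul_mulVec, dotProduct_smul, smul_eq_mul, qM] at this ⊢
      linarith [uu0 u])
    (fun u => by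
      have := mul_le_mul_of_nonneg_left (uK u) hs
      simp only [hA, smul_mulVec, dotProduct_smul, smul_eq_mul, qM] at this ⊢
      linarith [uu0 u])
    (fun u => by
      rw [zero_mulVec, dotProduct_zero, hB, smul_mulVec, dotProduct_smul, vecMulVec_mulVec,
        op_smul_eq_smul, dotProduct_smul, dotProduct_comm u]
      exact mul_nonneg hs (mul_self_nonneg _))
    (fun u => by
      have := mul_le_mul_of_nonneg_left (uB u) hs
      simp only [hB, smul_mulVec, dotProduct_smul, smul_eq_mul, qM] at this ⊢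
      linarith [uu0 u])
  replace hl : ε ≤ sch k M := hl
  have l0 : 0 < sch k M := hε.trans_le hl
  obtain ⟨j1, j2, j3, j4⟩ := jets (L := fun x => lm k ε s (Wmat n (update g e x) dd) y) (x0 := g e)
    (a := av k M A) (inv_pos.2 s0) ht (by positivity) (by rw [div_le_iff₀ (by linarith)]; linarith)
    hG hGM l0.le fun x hx => by rw [lm, eM, hs' _ hx]
  have cd : ContDiff ℝ 4 fun x => lm k ε s (Wmat n (update g e x) dd) y := by
    have u : ContDiff ℝ 4 fun x : ℝ => uu (mean w (chi e)) ((x - g e) * (√n)⁻¹) :=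
      (contDiff_uu ht).comp ((contDiff_id.sub contDiff_const).mul contDiff_const)
    refine ContDiff.rpow_const_of_ne (ContDiff.sum fun i _ => contDiff_pow (fun i j => ?_) k i i)
      fun x => (le_sch (k := k) hn (by omega) hε (base _).1 (base _).2).1.ne'
    simp only [eM, Matrix.sub_apply, Matrix.add_apply, Matrix.smul_apply, smul_eq_mul]
    exact (contDiff_const.add (u.mul contDiff_const)).sub ((u.pow 2).mul contDiff_const)
  have vb : 0 ≤ v + av k M B := by linarith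
  obtain ⟨r1, r2⟩ := alg (k := k) (inv_pos.2 s0) hε hl hv (by linarith [sq_nonneg (av k M A)]) hb hb1
    ha (by linarith) D1 j1
    (le_trans (mul_le_mul_of_nonneg_left (by linarith) (by positivity)) j2)
    (j3.trans (mul_le_mul_of_nonneg_left (add_le_add le_rfl (by
      rw [show 96 * (C * k * (v + av k M B)) / (c / k) = 96 * C * c / c ^ 2 * k ^ 2 * (v + av k M B) by
        field_simp]
      exact mul_le_mul_of_nonneg_right (mul_le_mul_of_nonneg_right (div_le_div_of_nonneg_right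
        (by nlinarith) (by positivity)) (by positivity)) vb)) (by positivity)))
    (j4.trans_eq (by field_simp))
  have e2 : ((√(n : ℝ))⁻¹) ^ 2 = (n : ℝ)⁻¹ := by rw [inv_pow, Real.sq_sqrt n0.le]
  obtain ⟨a2, a3, a4⟩ := r1 (80000 * (1536 * C / c ^ 2) * k ^ 2 * sch k M / (ε * √n))
    (80000 * (1536 * C / c ^ 2) * av k M B * sch k M / n) (by field_simp) (by rw [e2]; ring)
  obtain ⟨b2, b3, b4⟩ := r2 (80000 * (1536 * C / c ^ 2) * k / √n)
    (80000 * (1536 * C / c ^ 2) * k * sch k M / n) (by ring) (by rw [e2]; ring)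
  exact ⟨⟨cd, a2, a3, a4⟩, ⟨cd, b2, b3, b4⟩⟩

end Crest.Agent.T157.Cw

end
end

-- ▼ part T157/CwLm_80
section

/-!
# Row 157, part C (helper80): elementary facts about the Schatten norm of the regularised
covariance (`Cw.LmGlue`)
-/

set_option autoImplicit false

noncomputable section

namespace Crest.Agent.T157.Cw

open Matrix Function MeasureTheory
open Crest.ProbabilityR.SpinGlassDynamics
open Crest.Agent.T157.E Crest.Agent.T157.Un Crest.Agent.T157.Crit Crest.Agent.T157.SL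
open Crest.Agent.T157.Qe (V Mx Le)

namespace Lm80

variable {n : ℕ}

/-- orthonormal eigenbasis: rows of `P` -/
structure Eb (M P : Mx n) (μ : V n) : Prop where
  o : Pᵀ * P = 1
  e : M = Pᵀ * diagonal μ * P

theorem exists_eb {M : Mx n} (h : Mᵀ = M) : ∃ P μ, Eb M P μ := by
  obtain ⟨O, hO, e⟩ := Dq.dg_herm
    (show M.IsHermitian by rwa [IsHermitian, conjTranspose_eq_transpose_of_trivial])
  exact ⟨Oᵀ, _, by simpa using hO, by simpa using e⟩

namespace Eb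
variable {M P : Mx n} {μ : V n}

theorem o' (h : Eb M P μ) : P * Pᵀ = 1 := mul_eq_one_comm.1 h.o

theorem pow (h : Eb M P μ) (k : ℕ) : M ^ k = Pᵀ * diagonal (fun i => μ i ^ k) * P := by
  induction k with
  | zero => simp [h.o]
  | succ k ih =>
    rw [pow_succ, ih]
    conv_lhs => rw [h.e]
    simp only [Matrix.mul_assoc]
    rw [← Matrix.mul_assoc P, h.o', Matrix.one_mul, ← Matrix.mul_assoc (diagonal _),
      diagonal_mul_diagonal]
    simp only [pow_succ]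

theorem conj_diag (P B : Mx n) (i : Fin n) : (P * B * Pᵀ) i i = P i ⬝ᵥ B *ᵥ P i := by
  simp only [mul_apply, transpose_apply, dotProduct, mulVec, Finset.sum_mul, Finset.mul_sum]
  rw [Finset.sum_comm]
  exact Finset.sum_congr rfl fun a _ => Finset.sum_congr rfl fun b _ => by ring

theorem tr (h : Eb M P μ) (k : ℕ) (B : Mx n) :
    (M ^ k * B).trace = ∑ i, μ i ^ k * (P i ⬝ᵥ B *ᵥ P i) := by
  rw [h.pow, Matrix.mul_assoc, Matrix.mul_assoc, trace_mul_comm, Matrix.mul_assoc]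
  simp only [trace, Matrix.diag_apply, diagonal_mul, conj_diag]

theorem unit (h : Eb M P μ) (i : Fin n) : P i ⬝ᵥ P i = 1 := by
  have := conj_diag P 1 i
  rw [Matrix.mul_one, h.o', one_mulVec] at this
  simpa using this.symm

theorem eig (h : Eb M P μ) (i : Fin n) : P i ⬝ᵥ M *ᵥ P i = μ i := by
  rw [← conj_diag, h.e]
  simp only [Matrix.mul_assoc]
  rw [h.o', Matrix.mul_one, ← Matrix.mul_assoc, h.o', Matrix.one_mul, diagonal_apply_eq]

theorem tr1 (h : Eb M P μ) (k : ℕ) : (M ^ k).trace = ∑ i, μ i ^ k := by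
  have := h.tr k 1
  simpa only [Matrix.mul_one, one_mulVec, h.unit, mul_one] using this

theorem form_le (h : Eb M P μ) {l : ℝ} (hl : ∀ i, μ i ≤ l) (u : V n) :
    u ⬝ᵥ M *ᵥ u ≤ l * (u ⬝ᵥ u) := by
  have e1 : u ⬝ᵥ M *ᵥ u = ∑ i, μ i * (P *ᵥ u) i ^ 2 := by
    rw [h.e, ← mulVec_mulVec, ← mulVec_mulVec, dotProduct_mulVec, vecMul_transpose]
    simp only [dotProduct, mulVec_diagonal]
    exact Finset.sum_congr rfl fun i _ => by ring
  have e2 : u ⬝ᵥ u = ∑ i, (P *ᵥ u) i ^ 2 := by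
    rw [show u ⬝ᵥ u = u ⬝ᵥ (Pᵀ * P) *ᵥ u by rw [h.o, one_mulVec], ← mulVec_mulVec,
      dotProduct_mulVec, vecMul_transpose]
    simp only [dotProduct, sq]
  rw [e1, e2, Finset.mul_sum]
  exact Finset.sum_le_sum fun i _ => mul_le_mul_of_nonneg_right (hl i) (sq_nonneg _)

theorem le_sch (h : Eb M P μ) (h0 : ∀ i, 0 ≤ μ i) {k : ℕ} (hk : 1 ≤ k) (i : Fin n) :
    μ i ≤ sch k M := by
  rw [sch, h.tr1, ← Real.pow_rpow_inv_natCast (h0 i) (by omega : k ≠ 0)]
  exact Real.rpow_le_rpow (pow_nonneg (h0 i) _)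
    (Finset.single_le_sum (fun j _ => pow_nonneg (h0 j) k) (Finset.mem_univ i)) (by positivity)

theorem sch_nonneg (h : Eb M P μ) (h0 : ∀ i, 0 ≤ μ i) (k : ℕ) : 0 ≤ sch k M := by
  rw [sch, h.tr1]
  exact Real.rpow_nonneg (Finset.sum_nonneg fun j _ => pow_nonneg (h0 j) k) _

theorem sch_le (h : Eb M P μ) (h0 : ∀ i, 0 ≤ μ i) {k : ℕ} (hk : 1 ≤ k) {l : ℝ} (hl0 : 0 ≤ l)
    (hl : ∀ i, μ i ≤ l) : sch k M ≤ (n : ℝ) ^ (k : ℝ)⁻¹ * l := by
  rw [sch, h.tr1]
  conv_rhs => rw [← Real.pow_rpow_inv_natCast hl0 (by omega : k ≠ 0)]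
  rw [← Real.mul_rpow (by positivity) (by positivity)]
  refine Real.rpow_le_rpow (Finset.sum_nonneg fun j _ => pow_nonneg (h0 j) k) ?_ (by positivity)
  simpa using Finset.sum_le_card_nsmul Finset.univ (fun i => μ i ^ k) (l ^ k)
    fun i _ => pow_le_pow_left₀ (h0 i) (hl i) k

theorem av_nonneg (h : Eb M P μ) (h0 : ∀ i, 0 ≤ μ i) (k : ℕ) {B : Mx n}
    (hB : ∀ u, 0 ≤ u ⬝ᵥ B *ᵥ u) : 0 ≤ av k M B := by
  rw [av, h.tr, h.tr1]
  exact div_nonneg (Finset.sum_nonneg fun i _ => mul_nonneg (pow_nonneg (h0 i) _) (hB _))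
    (Finset.sum_nonneg fun j _ => pow_nonneg (h0 j) k)

theorem av_le (h : Eb M P μ) (h0 : ∀ i, 0 ≤ μ i) {k : ℕ} (hk : 1 ≤ k) {B : Mx n} {c : ℝ}
    (hc : 0 ≤ c) (hB : ∀ u, u ⬝ᵥ B *ᵥ u ≤ c * (u ⬝ᵥ M *ᵥ u)) : av k M B ≤ c := by
  rw [av, h.tr, h.tr1]
  refine div_le_of_le_mul₀ (Finset.sum_nonneg fun j _ => pow_nonneg (h0 j) k) hc ?_
  rw [Finset.mul_sum]
  refine Finset.sum_le_sum fun i _ => ?_
  have h1 := hB (P i)
  rw [h.eig] at h1
  obtain ⟨k, rfl⟩ : ∃ j, k = j + 1 := ⟨k - 1, by omega⟩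
  rw [Nat.add_sub_cancel, pow_succ]
  nlinarith [mul_le_mul_of_nonneg_left h1 (pow_nonneg (h0 i) k)]

end Eb

theorem av_sum {κ : Type*} (S : Finset κ) (k : ℕ) (M : Mx n) (B : κ → Mx n) :
    ∑ e ∈ S, av k M (B e) = av k M (∑ e ∈ S, B e) := by
  simp only [av, Matrix.mul_sum, trace_sum, Finset.sum_div]

theorem av_smul (k : ℕ) (M B : Mx n) (c : ℝ) : av k M (c • B) = c * av k M B := by
  simp only [av, Matrix.mul_smul, trace_smul, smul_eq_mul, mul_div_assoc]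

theorem ipos (W : Mx n) (y : V n) (x : Cube n) : 0 < ising W y x := Real.exp_pos _

theorem wt (W : Mx n) (y : V n) : Wt (ising W y) := Wt.of_pos (ipos W y)

theorem Mr_form (ε s : ℝ) (W : Mx n) (y u : V n) :
    u ⬝ᵥ Mr ε s W y *ᵥ u = ε * (u ⬝ᵥ u) + s * (u ⬝ᵥ covM (ising W y) *ᵥ u) := by
  simp only [Mr, add_mulVec, smul_mulVec, one_mulVec, dotProduct_add, dotProduct_smul, smul_eq_mul]

theorem Mr_symm (ε s : ℝ) (W : Mx n) (y : V n) : (Mr ε s W y)ᵀ = Mr ε s W y := by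
  simp only [Mr, transpose_add, transpose_smul, transpose_one, covM, covMat_transpose]

theorem cov_nn (W : Mx n) (y u : V n) : 0 ≤ u ⬝ᵥ covM (ising W y) *ᵥ u :=
  (wt W y).covMat_quad_nonneg sv u

theorem eig_ge {ε s : ℝ} {W P : Mx n} {y μ : V n} (h : Eb (Mr ε s W y) P μ) (hs : 0 ≤ s)
    (i : Fin n) : ε ≤ μ i := by
  rw [← h.eig i, Mr_form, h.unit]
  nlinarith [cov_nn W y (P i)]

theorem covLe_of {k : ℕ} {ε s K : ℝ} {W : Mx n} {y : V n} (hk : 1 ≤ k) (hε : 0 < ε) (hs : 0 < s)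
    (hK : lm k ε s W y ≤ ε + s * K) : CovLe (ising W y) K := fun u => by
  obtain ⟨P, μ, h⟩ := exists_eb (Mr_symm ε s W y)
  have h0 : ∀ i, 0 ≤ μ i := fun i => hε.le.trans (eig_ge h hs.le i)
  have h1 := h.form_le (l := ε + s * K) (fun i => (h.le_sch h0 hk i).trans hK) u
  rw [Mr_form] at h1
  refine le_of_mul_le_mul_left ?_ hs
  linarith

theorem vmv_quad (c u : V n) : u ⬝ᵥ vecMulVec c c *ᵥ u = (u ⬝ᵥ c) ^ 2 := by
  rw [vecMulVec_mulVec, dotProduct_smul, dotProduct_comm c u, sq]; simp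

theorem dnn (u : V n) : 0 ≤ u ⬝ᵥ u := Finset.sum_nonneg fun _ _ => mul_self_nonneg _

theorem c_mean {f : Mx n × V n → Cube n → ℝ} (hf : ∀ σ, Continuous fun p => f p σ) :
    Continuous fun p : Mx n × V n => mean (ising p.1 p.2) (f p) := by
  have h1 : ∀ σ, Continuous fun p : Mx n × V n => ising p.1 p.2 σ := fun σ => by
    unfold ising; fun_prop
  exact continuous_finsetSum _ fun σ _ => ((h1 σ).div (continuous_finsetSum _ fun τ _ => h1 τ)
    fun p => (wt p.1 p.2).pos.ne').mul (hf σ)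

theorem c_cov (f g : Cube n → ℝ) : Continuous fun p : Mx n × V n => cov (ising p.1 p.2) f g :=
  c_mean fun _ => (continuous_const.sub (c_mean (f := fun _ => f) fun _ => continuous_const)).mul
    (continuous_const.sub (c_mean (f := fun _ => g) fun _ => continuous_const))

theorem c_Mr (ε s : ℝ) : Continuous fun p : Mx n × V n => Mr ε s p.1 p.2 :=
  continuous_const.add ((continuous_pi fun _ => continuous_pi fun _ => c_cov _ _ :
    Continuous fun p : Mx n × V n => covM (ising p.1 p.2)).const_smul s)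

end Lm80

open Lm80

theorem lmGlue : LmGlue := fun hT => by
  refine ⟨fun n k ε s => ?_, fun n k ε s e => ?_, fun n k ε s W y hn hk hε hs => ⟨?_, ?_⟩,
    fun n k ε s K W y hk hε hs hK hC => ?_, fun n W y u => ?_, fun n k ε s W y e hk hε hs => ?_,
    fun n k ε s W y hk hε hs => ?_⟩
  · exact ((c_Mr ε s).pow k).matrix_trace.measurable.pow_const _
  · have hc : Continuous fun p : Mx n × V n => covV (ising p.1 p.2) (chi e) sv :=
      continuous_pi fun _ => c_cov _ _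
    exact (((c_Mr ε s).pow (k - 1)).matrix_mul
      ((hc.matrix_vecMulVec hc).const_smul s)).matrix_trace.measurable.div
      ((c_Mr ε s).pow k).matrix_trace.measurable
  · obtain ⟨P, μ, h⟩ := exists_eb (Mr_symm ε s W y)
    exact (eig_ge h hs ⟨0, hn⟩).trans (h.le_sch (fun i => hε.le.trans (eig_ge h hs i)) hk _)
  · exact fun K hK hs' => covLe_of hk hε hs' hK
  · obtain ⟨P, μ, h⟩ := exists_eb (Mr_symm ε s W y)
    refine h.sch_le (fun i => hε.le.trans (eig_ge h hs i)) hk (by positivity) fun i => ?_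
    have h1 := hC (P i)
    rw [← h.eig i, Mr_form, h.unit] at *
    nlinarith
  · rw [covM, covMat_quad, (wt W y).cov_eq]
    have h1 := (wt W y).mean_le (f := fun x => u ⬝ᵥ sv x * (u ⬝ᵥ sv x)) (c := n * (u ⬝ᵥ u))
      fun x => by
        have := Eig.dot_sq_le u (sv x)
        rw [sv_dot_self] at this
        nlinarith
    nlinarith [mul_self_nonneg (mean (ising W y) fun x => u ⬝ᵥ sv x)]
  · obtain ⟨P, μ, h⟩ := exists_eb (Mr_symm ε s W y)
    have h0 : ∀ i, 0 ≤ μ i := fun i => hε.le.trans (eig_ge h hs i)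
    refine ⟨h.av_nonneg h0 k fun u => ?_, h.av_le h0 hk zero_le_one fun u => ?_⟩
    · rw [smul_mulVec, dotProduct_smul, vmv_quad, smul_eq_mul]; positivity
    · have h1 := (hT.bd n _ _ (ipos W y) (sgn_chi e)).2.2.2.2.2.2 u
      rw [smul_mulVec, dotProduct_smul, smul_eq_mul, Mr_form]
      nlinarith [mul_le_mul_of_nonneg_left h1 hs, dnn u]
  · obtain ⟨P, μ, h⟩ := exists_eb (Mr_symm ε s W y)
    have h0 : ∀ i, 0 ≤ μ i := fun i => hε.le.trans (eig_ge h hs.le i)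
    have hl : 0 ≤ lm k ε s W y := h.sch_nonneg h0 k
    have hC : CovLe (ising W y) (lm k ε s W y / s) :=
      covLe_of hk hε hs (by rw [mul_div_cancel₀ _ hs.ne']; linarith)
    simp only [bb]
    rw [av_sum, ← av_smul, ← Finset.smul_sum]
    refine h.av_le h0 hk (by positivity) fun u => ?_
    have h1 := hT.sum n _ _ (ipos W y) hC u
    simp only [smul_mulVec, dotProduct_smul, smul_eq_mul] at h1 ⊢
    rw [Mr_form]
    have h2 := mul_le_mul_of_nonneg_left h1 (mul_pos hs hs).le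
    have e : s * s * (2 * n * (lm k ε s W y / s) * (u ⬝ᵥ covM (ising W y) *ᵥ u)) =
        2 * n * lm k ε s W y * (s * (u ⬝ᵥ covM (ising W y) *ᵥ u)) := by field_simp
    have h3 : 0 ≤ 2 * n * lm k ε s W y * (ε * (u ⬝ᵥ u)) := by have := dnn u; positivity
    rw [e] at h2
    linarith

end Crest.Agent.T157.Cw

end
end

-- ▼ part T157/CwSchA_72
section

/-!
# Row 157, coin windows: tools for the Schatten expansion (helper72)
-/

set_option autoImplicit false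

noncomputable section

namespace Crest.Agent.T157.CwSch

open Matrix Finset Metric Filter Topology Crest.Agent.T157.CwTr
open scoped Matrix.Norms.L2Operator

variable {ι : Type*} [Fintype ι] [DecidableEq ι]

/-- quadratic form bounded by `r` -/
def Qb (Y : Matrix ι ι ℝ) (r : ℝ) : Prop := Yᵀ = Y ∧ ∀ x : ι → ℝ, |x ⬝ᵥ Y *ᵥ x| ≤ r * (x ⬝ᵥ x)

/-- complexification -/
abbrev cx (Y : Matrix ι ι ℝ) : Matrix ι ι ℂ := Y.map ((↑) : ℝ → ℂ)

omit [DecidableEq ι] in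
lemma Qb.sq_le {Y : Matrix ι ι ℝ} {r : ℝ} (h : Qb Y r) (hr : 0 < r) (w : ι → ℝ) :
    (Y *ᵥ w) ⬝ᵥ (Y *ᵥ w) ≤ r ^ 2 * (w ⬝ᵥ w) := by
  have sy : ∀ u v : ι → ℝ, u ⬝ᵥ Y *ᵥ v = v ⬝ᵥ Y *ᵥ u := fun u v => by
    rw [dotProduct_mulVec, ← mulVec_transpose, h.1, dotProduct_comm]
  have h1 := (abs_le.1 (h.2 (Y *ᵥ w + r • w))).2
  have h2 := (abs_le.1 (h.2 (Y *ᵥ w - r • w))).1
  simp only [mulVec_add, mulVec_sub, mulVec_smul, add_dotProduct, dotProduct_add, sub_dotProduct,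
    dotProduct_sub, smul_dotProduct, dotProduct_smul, smul_eq_mul] at h1 h2
  rw [sy w (Y *ᵥ w)] at h1 h2
  nlinarith

lemma Qb.row {Y : Matrix ι ι ℝ} {r : ℝ} (h : Qb Y r) (hr : 0 < r) (i : ι) :
    ∑ j, Y i j ^ 2 ≤ r ^ 2 := by
  have := h.sq_le hr (Pi.single i 1)
  simp only [mulVec_single_one, dotProduct_single, Pi.single_eq_same, mul_one] at this
  refine le_trans (le_of_eq (sum_congr rfl fun j _ => ?_)) this
  have : Y i j = Y j i := by rw [← h.1, transpose_apply, h.1]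
  simp [this, sq]

lemma Qb.diag {Y : Matrix ι ι ℝ} {r : ℝ} (h : Qb Y r) (i : ι) : |Y i i| ≤ r := by
  simpa using h.2 (Pi.single i 1)

lemma Qb.cnorm {Y : Matrix ι ι ℝ} {r : ℝ} (h : Qb Y r) (hr : 0 < r) : ‖cx Y‖ ≤ r := by
  rw [l2_opNorm_def]
  refine ContinuousLinearMap.opNorm_le_bound _ hr.le fun x => ?_
  refine (abs_le_of_sq_le_sq' ?_ (by positivity)).2
  rw [mul_pow, EuclideanSpace.norm_sq_eq, EuclideanSpace.norm_sq_eq]
  have h1 := h.sq_le hr fun j => (x j).re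
  have h2 := h.sq_le hr fun j => (x j).im
  have e : ∀ i, ‖∑ j, (Y i j : ℂ) * x j‖ ^ 2 = (Y *ᵥ fun j => (x j).re) i * (Y *ᵥ fun j => (x j).re) i +
      (Y *ᵥ fun j => (x j).im) i * (Y *ᵥ fun j => (x j).im) i := fun i => by
    rw [Complex.sq_norm, Complex.normSq_apply]
    simp [mulVec, dotProduct]
  have e2 : ∑ i, ‖x i‖ ^ 2 = (fun j => (x j).re) ⬝ᵥ (fun j => (x j).re) +
      (fun j => (x j).im) ⬝ᵥ fun j => (x j).im := by
    simp only [dotProduct, ← sum_add_distrib, Complex.sq_norm, Complex.normSq_apply]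
  rw [e2]
  refine le_trans (le_of_eq ?_) ((add_le_add h1 h2).trans (le_of_eq (by ring)))
  simp only [dotProduct, ← sum_add_distrib]
  exact sum_congr rfl fun i _ => e i

lemma Qb.sub {Y : Matrix ι ι ℝ} {r a s : ℝ} (h : Qb Y r) (ha : |a| ≤ s) :
    Qb (Y - a • (1 : Matrix ι ι ℝ)) (r + s) := by
  refine ⟨by simp [h.1], fun x => ?_⟩
  have h0 : 0 ≤ x ⬝ᵥ x := sum_nonneg fun i _ => mul_self_nonneg _
  rw [sub_mulVec, smul_mulVec, one_mulVec, dotProduct_sub, dotProduct_smul, smul_eq_mul]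
  refine (abs_sub _ _).trans ?_
  rw [abs_mul, abs_of_nonneg h0, add_mul]
  exact add_le_add (h.2 x) (mul_le_mul_of_nonneg_right ha h0)

/-- division by `z²` -/
lemma exists_G {H : ℂ → ℂ} {r K : ℝ} (hr : 0 < r) (hd : DifferentiableOn ℂ H (ball 0 r))
    (hb : ∀ z ∈ ball (0 : ℂ) r, ‖H z‖ ≤ K * ‖z‖ ^ 2) :
    ∃ G : ℂ → ℂ, DifferentiableOn ℂ G (ball 0 r) ∧ (∀ z ∈ ball (0 : ℂ) r, ‖G z‖ ≤ K) ∧
      ∀ z ∈ ball (0 : ℂ) r, H z = z ^ 2 * G z := by
  have hn := ball_mem_nhds (0 : ℂ) hr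
  have one : ∀ (H : ℂ → ℂ), DifferentiableOn ℂ H (ball 0 r) → H 0 = 0 →
      DifferentiableOn ℂ (dslope H 0) (ball 0 r) ∧ ∀ z, H z = z * dslope H 0 z := fun H hd h0 =>
    ⟨(Complex.differentiableOn_dslope hn).2 hd, fun z => by
      have := sub_smul_dslope H 0 z
      rw [sub_zero, h0, sub_zero, smul_eq_mul] at this
      exact this.symm⟩
  have lim : ∀ (G : ℂ → ℂ) (f : ℂ → ℝ), DifferentiableOn ℂ G (ball 0 r) → Continuous f →
      (∀ z ∈ ball (0 : ℂ) r, z ≠ 0 → ‖G z‖ ≤ f z) → ‖G 0‖ ≤ f 0 := fun G f hG hf h =>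
    le_of_tendsto_of_tendsto (b := 𝓝[≠] (0 : ℂ))
      ((hG.continuousOn.continuousAt hn).norm.tendsto.mono_left nhdsWithin_le_nhds)
      (hf.continuousAt.tendsto.mono_left nhdsWithin_le_nhds)
      (by filter_upwards [mem_nhdsWithin_of_mem_nhds hn, self_mem_nhdsWithin] with z h1 h2
          exact h z h1 h2)
  have h0 : H 0 = 0 := by simpa using hb 0 (mem_ball_self hr)
  obtain ⟨d1, e1⟩ := one H hd h0
  have b1 : ∀ z ∈ ball (0 : ℂ) r, z ≠ 0 → ‖dslope H 0 z‖ ≤ K * ‖z‖ := fun z hz h => by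
    have := hb z hz
    rw [e1 z, norm_mul] at this
    exact le_of_mul_le_mul_left (this.trans (le_of_eq (by ring))) (norm_pos_iff.2 h)
  have h1 : dslope H 0 0 = 0 := by
    simpa using lim _ (fun z => K * ‖z‖) d1 (by fun_prop) b1
  obtain ⟨d2, e2⟩ := one _ d1 h1
  have b2 : ∀ z ∈ ball (0 : ℂ) r, z ≠ 0 → ‖dslope (dslope H 0) 0 z‖ ≤ K := fun z hz h => by
    have := b1 z hz h
    rw [e2 z, norm_mul] at this
    exact le_of_mul_le_mul_left (this.trans (le_of_eq (by ring))) (norm_pos_iff.2 h)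
  refine ⟨_, d2, fun z hz => ?_, fun z _ => by rw [e1 z, e2 z]; ring⟩
  by_cases h : z = 0
  · subst h; exact lim _ (fun _ => K) d2 continuous_const b2
  · exact b2 z hz h

/-- the normalised perturbation -/
def Yt (Y B : Matrix ι ι ℝ) (a : ℝ) (z : ℂ) : Matrix ι ι ℂ :=
  (z / (1 + a * z)) • (cx (Y - a • 1) - z • cx B)

/-- the normalised matrix -/
def Nz (μ : ι → ℝ) (Y B : Matrix ι ι ℝ) (a : ℝ) (z : ℂ) : Matrix ι ι ℂ :=
  dg μ + dg (fun i => √(μ i)) * Yt Y B a z * dg fun i => √(μ i)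

lemma den {a : ℝ} (ha : |a| ≤ 2) {z : ℂ} (hz : ‖z‖ ≤ 1 / 4) :
    1 / 2 ≤ ‖1 + a * z‖ ∧ ‖1 + a * z‖ ≤ 3 / 2 := by
  have h : ‖(a : ℂ) * z‖ ≤ 1 / 2 := by
    rw [norm_mul, Complex.norm_real, Real.norm_eq_abs]
    nlinarith [abs_nonneg a, norm_nonneg z]
  have h1 := norm_add_le (1 : ℂ) (a * z)
  have h2 := norm_sub_le (1 + (a : ℂ) * z) (a * z)
  simp only [norm_one, add_sub_cancel_right] at h1 h2
  constructor <;> linarith

lemma frac {a : ℝ} (ha : |a| ≤ 2) {z : ℂ} (hz : ‖z‖ ≤ 1 / 4) : ‖z / (1 + a * z)‖ ≤ 2 * ‖z‖ := by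
  have h := (den ha hz).1
  rw [norm_div, div_le_iff₀ (by linarith)]
  nlinarith [norm_nonneg z]

lemma sand (μ : ι → ℝ) (X : Matrix ι ι ℂ) (i j : ι) :
    (dg (fun i => √(μ i)) * X * dg fun i => √(μ i)) i j = (√(μ i) * √(μ j) : ℝ) * X i j := by
  rw [dg, mul_diagonal, diagonal_mul]; push_cast; ring

/-- the bound of the relative change of the trace -/
lemma dev_le {μ : ι → ℝ} (hμ : ∀ i, 0 ≤ μ i) {Y B : Matrix ι ι ℝ} {a T v b : ℝ} (k : ℕ)
    (hY : Qb Y 2) (hB : Qb B 1) (hB2 : ∀ i, ∑ j, B i j ^ 2 ≤ B i i) (ha : |a| ≤ 2)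
    (hT : T = ∑ i, μ i ^ (k + 2)) (haT : a * T = ∑ i, μ i ^ (k + 2) * Y i i)
    (hb : b * T = ∑ i, μ i ^ (k + 2) * B i i)
    (hv : v * T = ∑ i, μ i ^ (k + 2) * ∑ j, (Y - a • (1 : Matrix ι ι ℝ)) i j ^ 2)
    {z : ℂ} (hz : ‖z‖ ≤ 1 / 25 / (k + 2)) :
    ‖(Nz μ Y B a z ^ (k + 2)).trace - T‖ ≤ 50 * (k + 2) ^ 2 * ‖z‖ ^ 2 * (v * T + b * T) := by
  have k0 : (0 : ℝ) ≤ k := Nat.cast_nonneg k
  have z0 := norm_nonneg z
  have hz' : ‖z‖ * (k + 2) ≤ 1 / 25 := (le_div_iff₀ (by positivity)).1 hz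
  have z1 : ‖z‖ ≤ 1 / 4 := by nlinarith
  have hf := frac ha z1
  have hX := hY.sub ha
  set X := Y - a • (1 : Matrix ι ι ℝ) with hXd
  have nY : ‖Yt Y B a z‖ ≤ 10 * ‖z‖ := by
    rw [Yt, norm_smul]
    have h1 : ‖cx X - z • cx B‖ ≤ 5 := by
      refine (norm_sub_le _ _).trans ?_
      rw [norm_smul]
      have := hX.cnorm (by norm_num)
      have := hB.cnorm one_pos
      nlinarith [norm_nonneg (cx B)]
    exact (mul_le_mul hf h1 (norm_nonneg _) (by positivity)).trans (le_of_eq (by ring))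
  have h2 := tr_second hμ (by positivity) (rel (μ := μ) nY) k
  set Z := dg (fun i => √(μ i)) * Yt Y B a z * dg fun i => √(μ i) with hZ
  have ent : ∀ i j, Yt Y B a z i j = z / (1 + a * z) * (X i j - z * B i j) := fun i j => by
    simp [Yt, hXd]
  have nent : ∀ i j, ‖Yt Y B a z i j‖ ^ 2 ≤ 8 * ‖z‖ ^ 2 * (X i j ^ 2 + B i j ^ 2) := fun i j => by
    rw [ent, norm_mul, mul_pow]
    have h1 : ‖(X i j : ℂ) - z * B i j‖ ≤ |X i j| + |B i j| := by
      refine (norm_sub_le _ _).trans ?_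
      rw [norm_mul, Complex.norm_real, Complex.norm_real, Real.norm_eq_abs, Real.norm_eq_abs]
      nlinarith [abs_nonneg (B i j)]
    have h3 : ‖(X i j : ℂ) - z * B i j‖ ^ 2 ≤ 2 * (X i j ^ 2 + B i j ^ 2) := by
      refine (pow_le_pow_left₀ (norm_nonneg _) h1 2).trans ?_
      nlinarith [sq_abs (X i j), sq_abs (B i j), sq_nonneg (|X i j| - |B i j|)]
    exact (mul_le_mul (pow_le_pow_left₀ (norm_nonneg _) hf 2) h3 (by positivity)
      (by positivity)).trans (le_of_eq (by ring))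
  have sX : ∀ i j, X j i = X i j := fun i j => by rw [← hX.1, transpose_apply, hX.1]
  have sB : ∀ i j, B j i = B i j := fun i j => by rw [← hB.1, transpose_apply, hB.1]
  have hlo : ∀ i, lo μ Z i ≤ μ i ^ 2 * (16 * ‖z‖ ^ 2 * (∑ j, X i j ^ 2 + B i i)) := fun i => by
    have : ∀ j ∈ univ.filter fun j => μ j ≤ μ i, ‖Z i j‖ ^ 2 + ‖Z j i‖ ^ 2 ≤
        μ i ^ 2 * (16 * ‖z‖ ^ 2 * (X i j ^ 2 + B i j ^ 2)) := fun j hj => by
      have hj' := (mem_filter.1 hj).2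
      rw [hZ, sand, sand, norm_mul, norm_mul, mul_pow, mul_pow, Complex.norm_real, Complex.norm_real,
        Real.norm_eq_abs, Real.norm_eq_abs, sq_abs, sq_abs, mul_pow, mul_pow, Real.sq_sqrt (hμ i),
        Real.sq_sqrt (hμ j)]
      have a1 := nent i j
      have a2 := nent j i
      rw [sX, sB] at a2
      have a3 : μ i * μ j ≤ μ i ^ 2 := by nlinarith [hμ i]
      have a4 := mul_le_mul a3 (add_le_add a1 a2) (by positivity) (by positivity)
      nlinarith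
    refine (sum_le_sum this).trans ((sum_le_univ_sum_of_nonneg fun j => by positivity).trans ?_)
    rw [← mul_sum, ← mul_sum, sum_add_distrib]
    gcongr
    exact hB2 i
  have hs : ∑ i, μ i ^ k * lo μ Z i ≤ 16 * ‖z‖ ^ 2 * (v * T + b * T) := by
    rw [hv, hb, ← sum_add_distrib, mul_sum]
    exact sum_le_sum fun i _ => (mul_le_mul_of_nonneg_left (hlo i) (pow_nonneg (hμ i) k)).trans
      (le_of_eq (by ring))
  have vT : 0 ≤ v * T := hv ▸ sum_nonneg fun i _ => mul_nonneg (pow_nonneg (hμ i) _) (by positivity)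
  have bT : 0 ≤ b * T := hb ▸ sum_nonneg fun i _ => mul_nonneg (pow_nonneg (hμ i) _)
    (le_trans (by positivity) (hB2 i))
  have h3 : (1 + 10 * ‖z‖) ^ k ≤ 3 := by
    refine (pow_le_pow_left₀ (by positivity) (by simpa [add_comm] using Real.add_one_le_exp (10 * ‖z‖))
      k).trans ?_
    rw [← Real.exp_nat_mul]
    exact (Real.exp_le_exp.2 (by nlinarith : _ ≤ (1 : ℝ))).trans
      (Real.exp_one_lt_d9.le.trans (by norm_num))
  have h4 : ∑ i, (μ i : ℂ) ^ (k + 1) * Z i i = -(z / (1 + a * z) * z * (b * T : ℝ)) := by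
    have e : ∀ i, (μ i : ℂ) ^ (k + 1) * Z i i = z / (1 + a * z) * ((μ i ^ (k + 2) * Y i i : ℝ) -
        a * (μ i ^ (k + 2) : ℝ) - z * (μ i ^ (k + 2) * B i i : ℝ)) := fun i => by
      rw [hZ, sand, Real.mul_self_sqrt (hμ i), ent]
      simp only [hXd, Matrix.sub_apply, Matrix.smul_apply, one_apply_eq, smul_eq_mul, mul_one]
      push_cast; ring
    rw [sum_congr rfl fun i _ => e i, ← mul_sum, sum_sub_distrib, sum_sub_distrib, ← mul_sum,
      ← mul_sum, ← Complex.ofReal_sum, ← Complex.ofReal_sum, ← Complex.ofReal_sum, ← haT, ← hb, ← hT]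
    push_cast; ring
  have h5 : (T : ℂ) = ∑ i, (μ i : ℂ) ^ (k + 2) := by rw [hT]; push_cast; rfl
  rw [h4, ← h5] at h2
  have h6 : ‖((k : ℂ) + 2) * -(z / (1 + a * z) * z * (b * T : ℝ))‖ ≤
      (k + 2) * (2 * ‖z‖ * ‖z‖ * (b * T)) := by
    rw [norm_mul, norm_neg, norm_mul, norm_mul, Complex.norm_real, Real.norm_of_nonneg bT]
    have : ‖(k : ℂ) + 2‖ = k + 2 := by exact_mod_cast Complex.norm_natCast (k + 2)
    rw [this]
    gcongr
  have h7 := (norm_add_le _ _).trans (add_le_add h2 h6)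
  rw [sub_add_cancel] at h7
  refine h7.trans ?_
  have h8 : (k + 2 : ℝ) ^ 2 * (1 + 10 * ‖z‖) ^ k * ∑ i, μ i ^ k * lo μ Z i ≤
      (k + 2) ^ 2 * 3 * (16 * ‖z‖ ^ 2 * (v * T + b * T)) :=
    mul_le_mul (by gcongr) hs (sum_nonneg fun i _ => mul_nonneg (pow_nonneg (hμ i) _)
      (sum_nonneg fun j _ => by positivity)) (by positivity)
  have h9 : (k + 2 : ℝ) * (‖z‖ ^ 2 * (b * T)) ≤ (k + 2) ^ 2 * (‖z‖ ^ 2 * (v * T + b * T)) :=
    mul_le_mul (by nlinarith) (by gcongr; linarith) (by positivity) (by positivity)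
  nlinarith

end Crest.Agent.T157.CwSch

end
end

-- ▼ part T157/CwSchB_72
section

/-!
# Row 157, coin windows: the Schatten expansion in the eigenbasis (helper72)
-/

set_option autoImplicit false

noncomputable section

namespace Crest.Agent.T157.CwSch

open Matrix Finset Metric Filter Topology Crest.Agent.T157.CwTr
open scoped Matrix.Norms.L2Operator

variable {ι : Type*} [Fintype ι] [DecidableEq ι]

/-- square root of the diagonal matrix -/
def Sq (μ : ι → ℝ) : Matrix ι ι ℝ := diagonal fun i => √(μ i)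

/-- real normalised perturbation over `t` -/
def Wr (Y B : Matrix ι ι ℝ) (a t : ℝ) : Matrix ι ι ℝ := (1 + a * t)⁻¹ • (Y - a • 1 - t • B)

/-- real normalised matrix -/
def Nr (μ : ι → ℝ) (Y B : Matrix ι ι ℝ) (a t : ℝ) : Matrix ι ι ℝ :=
  diagonal μ + Sq μ * (t • Wr Y B a t) * Sq μ

lemma sandr (μ : ι → ℝ) (X : Matrix ι ι ℝ) (i j : ι) :
    (Sq μ * X * Sq μ) i j = √(μ i) * √(μ j) * X i j := by
  rw [Sq, mul_diagonal, diagonal_mul]; ring

lemma Nz_real (μ : ι → ℝ) (Y B : Matrix ι ι ℝ) (a t : ℝ) (k : ℕ) :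
    (Nz μ Y B a t ^ k).trace = ((Nr μ Y B a t ^ k).trace : ℝ) := by
  have : Nz μ Y B a t = Complex.ofRealHom.mapMatrix (Nr μ Y B a t) := by
    ext i j
    rw [Nz, Nr, RingHom.mapMatrix_apply, map_apply, Matrix.add_apply, Matrix.add_apply, sand, sandr]
    simp only [dg, diagonal_apply, Yt, Wr, Matrix.smul_apply, Matrix.sub_apply, map_apply, smul_eq_mul,
      Complex.ofRealHom_eq_coe]
    split_ifs <;> push_cast <;> ring
  rw [this, ← map_pow, RingHom.mapMatrix_apply]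
  simp [trace]

lemma diff_tr (μ : ι → ℝ) (Y B : Matrix ι ι ℝ) (a : ℝ) (k : ℕ) {s : Set ℂ}
    (hs : ∀ z ∈ s, 1 + a * z ≠ 0) : DifferentiableOn ℂ (fun z => (Nz μ Y B a z ^ k).trace) s := by
  have h1 : ∀ i j, DifferentiableOn ℂ (fun z => Nz μ Y B a z i j) s := fun i j => by
    simp only [Nz, Matrix.add_apply, sand, Yt, Matrix.smul_apply, Matrix.sub_apply, smul_eq_mul]
    fun_prop (disch := assumption)
  have h2 : ∀ k i j, DifferentiableOn ℂ (fun z => (Nz μ Y B a z ^ k) i j) s := fun k => by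
    induction k with
    | zero => intro i j; simp only [pow_zero]; fun_prop
    | succ k ih =>
      intro i j
      simp only [pow_succ, mul_apply]
      exact DifferentiableOn.fun_sum fun l _ => (ih i l).mul (h1 l j)
  exact DifferentiableOn.fun_sum fun i _ => h2 k i i

lemma Sq_sq {μ : ι → ℝ} (hμ : ∀ i, 0 ≤ μ i) : Sq μ * Sq μ = diagonal μ := by
  rw [Sq, diagonal_mul_diagonal]
  exact congrArg _ (funext fun i => Real.mul_self_sqrt (hμ i))

lemma scale {μ : ι → ℝ} (hμ : ∀ i, 0 ≤ μ i) (Y B : Matrix ι ι ℝ) {a t : ℝ} (h : 1 + a * t ≠ 0) :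
    Sq μ * (1 + t • Y - t ^ 2 • B) * Sq μ = (1 + a * t) • Nr μ Y B a t := by
  rw [Nr, ← Sq_sq hμ]
  have : (1 + t • Y - t ^ 2 • B) = (1 + a * t) • (1 + t • Wr Y B a t) := by
    rw [Wr, smul_add, smul_comm t, smul_smul, mul_inv_cancel₀ h, one_smul]
    module
  rw [this, mul_smul_comm, smul_mul_assoc, mul_add, add_mul, mul_one]

lemma Nr_psd {μ : ι → ℝ} (hμ : ∀ i, 0 ≤ μ i) {Y B : Matrix ι ι ℝ} {a t : ℝ} (hY : Qb Y 2)
    (hB : Qb B 1) (ha : |a| ≤ 2) (ht : |t| ≤ 1 / 4) : (Nr μ Y B a t).PosSemidef := by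
  have h1 : 1 / 2 ≤ 1 + a * t := by
    have : |a * t| ≤ 1 / 2 := by rw [abs_mul]; nlinarith [abs_nonneg a, abs_nonneg t]
    linarith [(abs_le.1 this).1]
  have h2 : (1 + t • Y - t ^ 2 • B).PosSemidef := by
    refine posSemidef_iff_dotProduct_mulVec.2 ⟨?_, fun x => ?_⟩
    · simp [IsHermitian, hY.1, hB.1]
    · have h0 : 0 ≤ x ⬝ᵥ x := sum_nonneg fun i _ => mul_self_nonneg _
      have a1 := hY.2 x
      have a2 := (abs_le.1 (hB.2 x)).2
      have a3 : |t * (x ⬝ᵥ Y *ᵥ x)| ≤ 1 / 4 * (2 * (x ⬝ᵥ x)) := by rw [abs_mul]; gcongr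
      have a4 : t ^ 2 ≤ 1 / 16 := by nlinarith [abs_nonneg t, sq_abs t]
      simp only [star_trivial, sub_mulVec, add_mulVec, smul_mulVec, one_mulVec, dotProduct_sub,
        dotProduct_add, dotProduct_smul, smul_eq_mul]
      nlinarith [(abs_le.1 a3).1, sq_nonneg t]
  have h3 := h2.conjTranspose_mul_mul_same (Sq μ)
  have h4 : (Sq μ)ᴴ = Sq μ := by simp [Sq]
  rw [h4, scale hμ Y B (a := a) (by linarith)] at h3
  have := h3.smul (inv_nonneg.2 (by linarith : 0 ≤ 1 + a * t))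
  rwa [smul_smul, inv_mul_cancel₀ (by linarith), one_smul] at this

set_option maxHeartbeats 800000 in
/-- the expansion in the eigenbasis -/
theorem core {μ : ι → ℝ} (hμ : ∀ i, 0 ≤ μ i) {Y B : Matrix ι ι ℝ} {a T v b ρ : ℝ} (k : ℕ)
    (hY : Qb Y 2) (hB : Qb B 1) (hB2 : ∀ i, ∑ j, B i j ^ 2 ≤ B i i) (ha : |a| ≤ 2)
    (hT : T = ∑ i, μ i ^ (k + 2)) (T0 : 0 < T) (haT : a * T = ∑ i, μ i ^ (k + 2) * Y i i)
    (hb : b * T = ∑ i, μ i ^ (k + 2) * B i i)
    (hv : v * T = ∑ i, μ i ^ (k + 2) * ∑ j, (Y - a • (1 : Matrix ι ι ℝ)) i j ^ 2)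
    (v0 : 0 ≤ v) (b0 : 0 ≤ b) (hvb : v + b ≤ 5) (hρ : ∀ i j, ρ * μ i ≤ μ j) (ρ0 : 0 ≤ ρ) :
    ∃ (q : ℝ → ℝ) (G : ℂ → ℂ), DifferentiableOn ℂ G (ball 0 (1 / 25 / (k + 2))) ∧
      (∀ t : ℝ, |t| < 1 / 25 / (k + 2) → G t = q t) ∧
      (∀ z ∈ ball (0 : ℂ) (1 / 25 / (k + 2)), ‖G z‖ ≤ 300 * (k + 2) * (v + b)) ∧
      ρ / 2 * v - b ≤ q 0 ∧ ∀ u : ℝ, |u| < 1 / 25 / (k + 2) →
        ((Sq μ * (1 + u • Y - u ^ 2 • B) * Sq μ) ^ (k + 2)).trace ^ ((k : ℝ) + 2)⁻¹ =
          T ^ ((k : ℝ) + 2)⁻¹ * (1 + a * u + u ^ 2 * q u) := by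
  have k0 : (0 : ℝ) ≤ k := Nat.cast_nonneg k
  set r : ℝ := 1 / 25 / (k + 2) with hr
  have r0 : 0 < r := by positivity
  have r1 : r ≤ 1 / 4 := by rw [hr, div_le_iff₀ (by positivity)]; nlinarith
  set K := 50 * (k + 2 : ℝ) ^ 2 * (v + b) with hK
  set D : ℂ → ℂ := fun z => (Nz μ Y B a z ^ (k + 2)).trace / T - 1 with hD
  have zb : ∀ z ∈ ball (0 : ℂ) r, ‖z‖ ≤ r := fun z hz => (mem_ball_zero_iff.1 hz).le
  have Db : ∀ z ∈ ball (0 : ℂ) r, ‖D z‖ ≤ K * ‖z‖ ^ 2 := fun z hz => by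
    have h := dev_le hμ k hY hB hB2 ha hT haT hb hv (zb z hz)
    have T0' : (T : ℂ) ≠ 0 := by exact_mod_cast T0.ne'
    rw [hD]
    simp only
    rw [div_sub_one T0', norm_div, Complex.norm_real, Real.norm_of_nonneg T0.le, div_le_iff₀ T0]
    exact h.trans (le_of_eq (by rw [hK]; ring))
  have Dh : ∀ z ∈ ball (0 : ℂ) r, ‖D z‖ ≤ 1 / 2 := fun z hz => by
    refine (Db z hz).trans ?_
    have h1 : ‖z‖ * (k + 2) ≤ 1 / 25 := (le_div_iff₀ (by positivity)).1 (zb z hz)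
    have h2 := pow_le_pow_left₀ (by positivity) h1 2
    have h3 := mul_le_mul h2 hvb (by positivity) (by positivity)
    rw [hK]; nlinarith
  have dn := fun z hz => den ha ((zb z hz).trans r1)
  have dD : DifferentiableOn ℂ D (ball 0 r) := ((diff_tr μ Y B a (k + 2) fun z hz h => by
    have := (dn z hz).1; rw [h, norm_zero] at this; linarith).div_const _).sub_const _
  set H : ℂ → ℂ := fun z => (1 + a * z) * (Complex.exp (Complex.log (1 + D z) / (k + 2)) - 1) with hH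
  have dH : DifferentiableOn ℂ H (ball 0 r) := by
    refine DifferentiableOn.mul (by fun_prop) (DifferentiableOn.sub_const
      (DifferentiableOn.cexp (DifferentiableOn.div_const
        ((dD.const_add 1).clog fun z hz => ?_) _)) _)
    exact Complex.mem_slitPlane_of_norm_lt_one ((Dh z hz).trans_lt (by norm_num))
  have nk : ‖(k : ℂ) + 2‖ = k + 2 := by exact_mod_cast Complex.norm_natCast (k + 2)
  have Hb : ∀ z ∈ ball (0 : ℂ) r, ‖H z‖ ≤ 300 * (k + 2) * (v + b) * ‖z‖ ^ 2 := fun z hz => by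
    have h1 := Complex.norm_log_one_add_half_le_self (Dh z hz)
    have h2 : ‖Complex.log (1 + D z) / (k + 2)‖ ≤ 3 / 2 * ‖D z‖ / (k + 2) := by
      rw [norm_div, nk]; gcongr
    have h3 := Complex.norm_exp_sub_one_le (h2.trans (by
      rw [div_le_one (by positivity)]; linarith [Dh z hz]))
    have h4 : 3 / 2 * ‖D z‖ / (k + 2) ≤ 75 * (k + 2) * (v + b) * ‖z‖ ^ 2 := by
      rw [div_le_iff₀ (by positivity)]
      have := Db z hz
      rw [hK] at this
      nlinarith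
    rw [hH]
    simp only [norm_mul]
    refine (mul_le_mul (dn z hz).2 (h3.trans (mul_le_mul_of_nonneg_left (h2.trans h4) zero_le_two))
      (norm_nonneg _) (by norm_num)).trans ?_
    have : 0 ≤ (k + 2 : ℝ) * (v + b) * ‖z‖ ^ 2 := by positivity
    nlinarith
  obtain ⟨G, dG, Gb, GH⟩ := exists_G r0 dH Hb
  -- real points
  set d : ℝ → ℝ := fun t => (Nr μ Y B a t ^ (k + 2)).trace / T - 1 with hd
  have mb : ∀ t : ℝ, |t| < r → (t : ℂ) ∈ ball (0 : ℂ) r := fun t ht => by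
    simpa [mem_ball_zero_iff] using ht
  have Dd : ∀ t : ℝ, D t = d t := fun t => by rw [hD, hd]; simp only [Nz_real]; push_cast; rfl
  have dh : ∀ t : ℝ, |t| < r → |d t| ≤ 1 / 2 ∧ |d t| ≤ K * t ^ 2 := fun t ht => by
    have h1 := Dh _ (mb t ht)
    have h2 := Db _ (mb t ht)
    rw [Dd, Complex.norm_real, Real.norm_eq_abs] at h1 h2
    rw [Complex.norm_real, Real.norm_eq_abs, sq_abs] at h2
    exact ⟨h1, h2⟩
  set h : ℝ → ℝ := fun t => (1 + a * t) * (Real.exp (Real.log (1 + d t) / (k + 2)) - 1) with hh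
  have Hh : ∀ t : ℝ, |t| < r → H t = h t := fun t ht => by
    have : 0 ≤ 1 + d t := by linarith [(abs_le.1 (dh t ht).1).1]
    rw [hH, hh]
    simp only [Dd]
    push_cast
    rw [Complex.ofReal_log this]
    push_cast; rfl
  have hq : ∀ t : ℝ, |t| < r → h t = t ^ 2 * (G t).re ∧ 0 = t ^ 2 * (G t).im := fun t ht => by
    have := GH _ (mb t ht)
    rw [Hh t ht, ← Complex.ofReal_pow] at this
    have a1 := congrArg Complex.re this
    have a2 := congrArg Complex.im this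
    rw [Complex.re_ofReal_mul, Complex.ofReal_re] at a1
    rw [Complex.im_ofReal_mul, Complex.ofReal_im] at a2
    exact ⟨a1, a2⟩
  have cG : ContinuousAt (fun t : ℝ => G t) 0 :=
    ContinuousAt.comp (by simpa using dG.continuousOn.continuousAt (ball_mem_nhds _ r0))
      Complex.continuous_ofReal.continuousAt
  have ev : ∀ᶠ t : ℝ in 𝓝[≠] 0, |t| < r ∧ t ≠ 0 := by
    filter_upwards [mem_nhdsWithin_of_mem_nhds (ball_mem_nhds (0 : ℝ) r0), self_mem_nhdsWithin]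
      with t h1 h2
    exact ⟨by simpa [mem_ball_zero_iff] using h1, h2⟩
  have den1 : ∀ t : ℝ, |t| < r → 1 / 2 ≤ 1 + a * t := fun t ht => by
    have : |a * t| ≤ 1 / 2 := by rw [abs_mul]; nlinarith [abs_nonneg a, abs_nonneg t]
    linarith [(abs_le.1 this).1]
  refine ⟨fun t => (G t).re, G, dG, fun t ht => ?_, Gb, ?_, fun u hu => ?_⟩
  · refine Complex.ext rfl ?_
    have im0 : ∀ t : ℝ, |t| < r → t ≠ 0 → (G t).im = 0 := fun t ht h0 =>
      (mul_eq_zero.1 (hq t ht).2.symm).resolve_left (pow_ne_zero 2 h0)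
    by_cases h0 : t = 0
    · subst h0
      refine tendsto_nhds_unique (l := 𝓝[≠] (0 : ℝ))
        ((Complex.continuous_im.continuousAt.comp cG).tendsto.mono_left nhdsWithin_le_nhds)
        (tendsto_const_nhds.congr' ?_)
      filter_upwards [ev] with t ht
      exact (im0 t ht.1 ht.2).symm
    · exact im0 t ht h0
  · set φ : ℝ → ℝ := fun t => (1 + a * t) * ((-((k + 2) * ((1 + a * t)⁻¹ * b)) +
      (k + 1) * (∑ i, μ i ^ k * ∑ j, μ i * μ j * Wr Y B a t i j ^ 2) / T - 2 * K ^ 2 * t ^ 2) / (k + 2))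
      with hφ
    have cφ : ContinuousAt φ 0 := by
      simp only [hφ, Wr, Matrix.smul_apply, Matrix.sub_apply, smul_eq_mul]
      fun_prop (disch := simp)
    have le : φ 0 ≤ (G (0 : ℝ)).re := by
      refine le_of_tendsto_of_tendsto (b := 𝓝[≠] (0 : ℝ)) (cφ.tendsto.mono_left nhdsWithin_le_nhds)
        ((Complex.continuous_re.continuousAt.comp cG).tendsto.mono_left nhdsWithin_le_nhds) ?_
      filter_upwards [ev] with t ht
      have t2 : 0 < t ^ 2 := by have := ht.2; positivity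
      refine le_of_mul_le_mul_left ?_ t2
      rw [Function.comp_apply, ← (hq t ht.1).1, hh, hφ]
      have d1 := den1 t ht.1
      have low := tr_low hμ (Nr_psd hμ hY hB ha (ht.1.le.trans r1)) k
      have e1 : ∑ i, μ i ^ (k + 1) * (Sq μ * (t • Wr Y B a t) * Sq μ) i i =
          -(t ^ 2 * ((1 + a * t)⁻¹ * (b * T))) := by
        have e : ∀ i, μ i ^ (k + 1) * (Sq μ * (t • Wr Y B a t) * Sq μ) i i = t * (1 + a * t)⁻¹ *
            (μ i ^ (k + 2) * Y i i - a * μ i ^ (k + 2) - t * (μ i ^ (k + 2) * B i i)) := fun i => by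
          rw [sandr, Real.mul_self_sqrt (hμ i)]
          simp only [Wr, Matrix.sub_apply, Matrix.smul_apply, one_apply_eq, smul_eq_mul]
          ring
        rw [sum_congr rfl fun i _ => e i, ← mul_sum, sum_sub_distrib, sum_sub_distrib, ← mul_sum,
          ← mul_sum, ← haT, ← hb, ← hT]
        ring
      have e2 : ∑ i, μ i ^ k * ∑ j, (Sq μ * (t • Wr Y B a t) * Sq μ) i j ^ 2 =
          t ^ 2 * ∑ i, μ i ^ k * ∑ j, μ i * μ j * Wr Y B a t i j ^ 2 := by
        rw [mul_sum]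
        refine sum_congr rfl fun i _ => ?_
        rw [mul_left_comm, mul_sum _ _ (t ^ 2)]
        refine congrArg _ (sum_congr rfl fun j _ => ?_)
        rw [sandr, mul_pow, mul_pow, Real.sq_sqrt (hμ i), Real.sq_sqrt (hμ j), Matrix.smul_apply,
          smul_eq_mul]
        ring
      rw [e1, e2, ← hT] at low
      set S := ∑ i, μ i ^ k * ∑ j, μ i * μ j * Wr Y B a t i j ^ 2
      have l1 : t ^ 2 * (-((k + 2) * ((1 + a * t)⁻¹ * b)) + (k + 1) * S / T) ≤ d t := by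
        rw [hd]
        simp only
        rw [le_sub_iff_add_le, le_div_iff₀ T0]
        refine le_trans (le_of_eq ?_) low
        field_simp
        ring
      obtain ⟨g1, g2⟩ := dh t ht.1
      have p1 : 0 < 1 + d t := by linarith [(abs_le.1 g1).1]
      have l2 := Real.one_sub_inv_le_log_of_pos p1
      have l3 : d t - 2 * d t ^ 2 ≤ 1 - (1 + d t)⁻¹ := by
        have : (1 + d t)⁻¹ ≤ 1 - d t + 2 * d t ^ 2 := by
          rw [inv_le_iff_one_le_mul₀ p1]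
          nlinarith [(abs_le.1 g1).1, sq_nonneg (d t)]
        linarith
      have l4 : d t ^ 2 ≤ (K * t ^ 2) ^ 2 := by
        rw [← sq_abs]; exact pow_le_pow_left₀ (abs_nonneg _) g2 2
      have l5 := Real.add_one_le_exp (Real.log (1 + d t) / (k + 2))
      simp only
      rw [mul_left_comm]
      refine mul_le_mul_of_nonneg_left (le_trans ?_ (le_sub_iff_add_le.2 l5)) (by linarith)
      rw [← mul_div_assoc]
      refine div_le_div_of_nonneg_right ?_ (by positivity)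
      have l6 : t ^ 2 * (-((k + 2) * ((1 + a * t)⁻¹ * b)) + (k + 1) * S / T - 2 * K ^ 2 * t ^ 2) =
          t ^ 2 * (-((k + 2) * ((1 + a * t)⁻¹ * b)) + (k + 1) * S / T) - 2 * (K * t ^ 2) ^ 2 := by ring
      rw [l6]
      linarith
    refine le_trans ?_ le
    have s1 : ρ * (v * T) ≤ ∑ i, μ i ^ k * ∑ j, μ i * μ j * Wr Y B a 0 i j ^ 2 := by
      rw [hv, mul_sum]
      refine sum_le_sum fun i _ => ?_
      simp only [mul_sum, Wr, mul_zero, add_zero, inv_one, one_smul, zero_smul, sub_zero]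
      refine sum_le_sum fun j _ => ?_
      have := mul_le_mul_of_nonneg_right (hρ i j) (mul_nonneg (pow_nonneg (hμ i) (k + 1))
        (sq_nonneg ((Y - a • (1 : Matrix ι ι ℝ)) i j)))
      exact le_trans (le_of_eq (by ring)) (this.trans (le_of_eq (by ring)))
    have s2 : ρ * v ≤ (∑ i, μ i ^ k * ∑ j, μ i * μ j * Wr Y B a 0 i j ^ 2) / T := by
      rw [le_div_iff₀ T0]; linarith
    simp only [hφ, mul_zero, add_zero, inv_one, one_mul, mul_div_assoc]
    rw [le_div_iff₀ (by positivity)]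
    nlinarith [mul_nonneg ρ0 v0]
  · have d1 := den1 u hu
    have p1 : 0 < 1 + d u := by linarith [(abs_le.1 (dh u hu).1).1]
    have e1 : (Nr μ Y B a u ^ (k + 2)).trace = T * (1 + d u) := by rw [hd]; field_simp; ring
    rw [scale hμ Y B (a := a) (by linarith), smul_pow, trace_smul, smul_eq_mul, e1, ← (hq u hu).1, hh,
      Real.mul_rpow (by positivity) (by positivity), Real.mul_rpow T0.le p1.le,
      Real.rpow_def_of_pos p1, ← Real.rpow_natCast, ← Real.rpow_mul (by linarith)]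
    push_cast
    rw [mul_inv_cancel₀ (by positivity), Real.rpow_one, div_eq_mul_inv]
    ring

end Crest.Agent.T157.CwSch

end
end

-- ▼ part T157/CwSch_72
section

/-!
# Row 157, coin windows: `Cw.SchStmt` (helper72)
-/

set_option autoImplicit false

noncomputable section

namespace Crest.Agent.T157.Cw

open Matrix Finset Metric Crest.Agent.T157.CwSch
open Crest.Agent.T157.Qe (V Mx Le)

namespace Sch72

variable {n : ℕ}

lemma pow_conj {O : Mx n} (h : Oᵀ * O = 1) (N : Mx n) (j : ℕ) :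
    (O * N * Oᵀ) ^ (j + 1) = O * N ^ (j + 1) * Oᵀ := by
  induction j with
  | zero => simp
  | succ j ih =>
    rw [pow_succ, ih, pow_succ N (j + 1)]
    simp only [mul_assoc]
    rw [← mul_assoc Oᵀ, h, one_mul]

lemma tr_conj {O : Mx n} (h : Oᵀ * O = 1) (N : Mx n) : (O * N * Oᵀ).trace = N.trace := by
  rw [trace_mul_comm, ← mul_assoc, h, one_mul]

lemma quad (P A : Mx n) (x : V n) : x ⬝ᵥ (P * A * Pᵀ) *ᵥ x = (Pᵀ *ᵥ x) ⬝ᵥ A *ᵥ (Pᵀ *ᵥ x) := by
  rw [← mulVec_mulVec, ← mulVec_mulVec, dotProduct_mulVec, mulVec_transpose]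

end Sch72

open Sch72

theorem schStmt : SchStmt := by
  refine ⟨300, 1 / 25, by norm_num, by norm_num, by norm_num, ?_⟩
  intro n k M A B δ Λ hn hk hδ hM hA hB hlo hhi hA1 hA2 hB0 hB1
  obtain ⟨k, rfl⟩ := Nat.exists_eq_add_of_le' hk
  have hH : M.IsHermitian := by simpa [IsHermitian] using hM
  obtain ⟨O, o1, hMO⟩ := Dq.dg_herm hH
  generalize hH.eigenvalues = μ at hMO
  have o2 : Oᵀ * O = 1 := mul_eq_one_comm.1 o1
  have hD : Oᵀ * M * Oᵀᵀ = diagonal μ := by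
    rw [hMO, transpose_transpose]
    simp only [mul_assoc]
    rw [o2, mul_one, ← mul_assoc, o2, one_mul]
  have hμ : ∀ i, δ ≤ μ i ∧ μ i ≤ Λ := fun i => by
    have e : ∀ c : ℝ, (Oᵀᵀ *ᵥ Pi.single i 1) ⬝ᵥ (c • (1 : Mx n)) *ᵥ (Oᵀᵀ *ᵥ Pi.single i 1) = c :=
      fun c => by rw [← quad, transpose_transpose, mul_smul_comm, mul_one, smul_mul_assoc, o2]; simp
    have e2 : (Oᵀᵀ *ᵥ Pi.single i 1) ⬝ᵥ M *ᵥ (Oᵀᵀ *ᵥ Pi.single i 1) = μ i := by
      rw [← quad, hD]; simp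
    exact ⟨by rw [← e δ, ← e2]; exact hlo _, by rw [← e Λ, ← e2]; exact hhi _⟩
  have μp : ∀ i, 0 < μ i := fun i => hδ.trans_le (hμ i).1
  have μ0 : ∀ i, 0 ≤ μ i := fun i => (μp i).le
  have : Nonempty (Fin n) := ⟨⟨0, hn⟩⟩
  have Λ0 : 0 < Λ := (μp (Classical.arbitrary _)).trans_le (hμ _).2
  set R := O * Sq μ with hR
  set P : Mx n := diagonal (fun i => (√(μ i))⁻¹) * Oᵀ with hP
  have sT : (Sq μ)ᵀ = Sq μ := by simp [Sq]
  have PR : P * R = 1 := by
    rw [hP, hR, mul_assoc, ← mul_assoc Oᵀ, o2, one_mul, Sq, diagonal_mul_diagonal, ← diagonal_one]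
    exact congrArg _ (funext fun i => inv_mul_cancel₀ (Real.sqrt_pos.2 (μp i)).ne')
  have RP : R * P = 1 := mul_eq_one_comm.1 PR
  have PR' : Rᵀ * Pᵀ = 1 := by rw [← transpose_mul, PR, transpose_one]
  have RP' : Pᵀ * Rᵀ = 1 := by rw [← transpose_mul, RP, transpose_one]
  have MR : M = R * Rᵀ := by
    rw [hR, transpose_mul, sT, mul_assoc, ← mul_assoc (Sq μ), Sq_sq μ0, ← mul_assoc, ← hMO]
  have back : ∀ X : Mx n, X = R * (P * X * Pᵀ) * Rᵀ := fun X => by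
    simp only [← mul_assoc]; rw [RP, one_mul, mul_assoc, RP', mul_one]
  have PM : P * M * Pᵀ = 1 := by rw [MR, ← mul_assoc, PR, one_mul, PR']
  have qM : ∀ x : V n, (Pᵀ *ᵥ x) ⬝ᵥ M *ᵥ (Pᵀ *ᵥ x) = x ⬝ᵥ x := fun x => by
    rw [← quad, PM, one_mulVec]
  have sy : ∀ X : Mx n, Xᵀ = X → (P * X * Pᵀ)ᵀ = P * X * Pᵀ := fun X h => by
    rw [transpose_mul (P * X), transpose_mul P X, transpose_transpose, h, mul_assoc P X]
  have x0 : ∀ x : V n, 0 ≤ x ⬝ᵥ x := fun x => sum_nonneg fun i _ => mul_self_nonneg _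
  have hY : Qb (P * A * Pᵀ) 2 := ⟨sy A hA, fun x => by
    have h1 := hA1 (Pᵀ *ᵥ x)
    have h2 := hA2 (Pᵀ *ᵥ x)
    rw [smul_mulVec, dotProduct_smul, qM, smul_eq_mul] at h1 h2
    rw [quad, abs_le]; constructor <;> linarith⟩
  have hB' : ∀ x : V n, 0 ≤ x ⬝ᵥ (P * B * Pᵀ) *ᵥ x ∧ x ⬝ᵥ (P * B * Pᵀ) *ᵥ x ≤ x ⬝ᵥ x := fun x => by
    have h1 := hB0 (Pᵀ *ᵥ x)
    have h2 := hB1 (Pᵀ *ᵥ x)
    rw [qM] at h2
    rw [zero_mulVec, dotProduct_zero] at h1
    rw [quad]; exact ⟨h1, h2⟩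
  have eA := back A
  have eB := back B
  have sB := sy B hB
  generalize P * A * Pᵀ = Y at hY eA
  generalize P * B * Pᵀ = E at hB' eB sB
  have hE : Qb E 1 := ⟨sB, fun x => by rw [abs_of_nonneg (hB' x).1, one_mul]; exact (hB' x).2⟩
  have sqs : ∀ (X : Mx n) (c : ℝ) i, ∑ j, (X - c • (1 : Mx n)) i j ^ 2 =
      ∑ j, X i j ^ 2 - 2 * c * X i i + c ^ 2 := fun X c i => by
    have : ∀ j, (X - c • (1 : Mx n)) i j ^ 2 =
        X i j ^ 2 + if i = j then c ^ 2 - 2 * c * X i i else 0 := fun j => by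
      rw [Matrix.sub_apply, Matrix.smul_apply, one_apply]
      split_ifs with h
      · subst h; simp; ring
      · simp
    simp only [this, sum_add_distrib, sum_ite_eq, mem_univ, if_true]; ring
  have hE2 : ∀ i, ∑ j, E i j ^ 2 ≤ E i i := fun i => by
    have h : Qb (E - (1 / 2 : ℝ) • (1 : Mx n)) (1 / 2) := ⟨by simp [sB], fun x => by
      rw [sub_mulVec, smul_mulVec, one_mulVec, dotProduct_sub, dotProduct_smul, smul_eq_mul, abs_le]
      constructor <;> linarith [(hB' x).1, (hB' x).2]⟩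
    have := h.row (by norm_num) i
    rw [sqs] at this
    linarith
  have cj : ∀ X : Mx n, R * X * Rᵀ = O * (Sq μ * X * Sq μ) * Oᵀ := fun X => by
    rw [hR, transpose_mul, sT]; simp only [mul_assoc]
  set T := ∑ i, μ i ^ (k + 2) with hT
  have T0 : 0 < T := sum_pos (fun i _ => pow_pos (μp i) _) univ_nonempty
  have trM : (M ^ (k + 2)).trace = T := by
    rw [hMO, pow_conj o2, tr_conj o2, diagonal_pow, trace_diagonal]; rfl
  have avX : ∀ X : Mx n, av (k + 2) M (R * X * Rᵀ) * T = ∑ i, μ i ^ (k + 2) * X i i := fun X => by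
    rw [av, trM, div_mul_cancel₀ _ T0.ne', cj, show k + 2 - 1 = k + 1 from rfl]
    conv_lhs => rw [hMO]
    rw [pow_conj o2, show O * diagonal μ ^ (k + 1) * Oᵀ * (O * (Sq μ * X * Sq μ) * Oᵀ) =
      O * (diagonal μ ^ (k + 1) * (Sq μ * X * Sq μ)) * Oᵀ by
        simp only [mul_assoc]; rw [← mul_assoc Oᵀ, o2, one_mul], tr_conj o2, diagonal_pow, trace]
    refine sum_congr rfl fun i _ => ?_
    rw [diag_apply, diagonal_mul, sandr, Real.mul_self_sqrt (μ0 i), Pi.pow_apply]; ring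
  have Mi : M⁻¹ = Pᵀ * P := inv_eq_right_inv (by
    rw [MR, mul_assoc, ← mul_assoc Rᵀ, PR', one_mul, RP])
  have eAA : A * M⁻¹ * A = R * (Y * Y) * Rᵀ := by
    rw [eA, Mi]
    simp only [mul_assoc]
    rw [← mul_assoc Rᵀ, PR', one_mul, ← mul_assoc P, PR, one_mul]
  have ha := avX Y
  have hb := avX E
  have hm := avX (Y * Y)
  rw [← eA] at ha
  rw [← eB] at hb
  rw [← eAA] at hm
  have YY : ∀ i, (Y * Y) i i = ∑ j, Y i j ^ 2 := fun i => by
    rw [mul_apply]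
    exact sum_congr rfl fun j _ => by rw [sq, ← transpose_apply Y i j, hY.1]
  simp only [YY] at hm
  have eS : sch (k + 2) M = T ^ ((k : ℝ) + 2)⁻¹ := by rw [sch, trM]; push_cast; rfl
  have eU : ∀ u : ℝ, sch (k + 2) (M + u • A - u ^ 2 • B) =
      ((Sq μ * (1 + u • Y - u ^ 2 • E) * Sq μ) ^ (k + 2)).trace ^ ((k : ℝ) + 2)⁻¹ := fun u => by
    have : M + u • A - u ^ 2 • B = R * (1 + u • Y - u ^ 2 • E) * Rᵀ := by
      rw [mul_sub, mul_add, sub_mul, add_mul, mul_one, mul_smul_comm, mul_smul_comm, smul_mul_assoc,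
        smul_mul_assoc, ← eA, ← eB, ← MR]
    rw [sch, this, cj, pow_conj o2, tr_conj o2]; push_cast; rfl
  generalize av (k + 2) M A = a at *
  generalize av (k + 2) M B = b at *
  generalize av (k + 2) M (A * M⁻¹ * A) = m at *
  have wt : ∀ (f : Fin n → ℝ) (x c : ℝ), x * T = ∑ i, μ i ^ (k + 2) * f i →
      ((∀ i, f i ≤ c) → x ≤ c) ∧ ((∀ i, c ≤ f i) → c ≤ x) := fun f x c h =>
    ⟨fun hf => le_of_mul_le_mul_right (by
      rw [h, hT, mul_sum]
      exact sum_le_sum fun i _ => by nlinarith [hf i, pow_pos (μp i) (k + 2)]) T0,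
    fun hf => le_of_mul_le_mul_right (by
      rw [h, hT, mul_sum]
      exact sum_le_sum fun i _ => by nlinarith [hf i, pow_pos (μp i) (k + 2)]) T0⟩
  have a2 : |a| ≤ 2 := abs_le.2 ⟨(wt _ _ _ ha).2 fun i => (abs_le.1 (hY.diag i)).1,
    (wt _ _ _ ha).1 fun i => (abs_le.1 (hY.diag i)).2⟩
  have b0 : 0 ≤ b := (wt _ _ _ hb).2 fun i => le_trans (by positivity) (hE2 i)
  have b1 : b ≤ 1 := (wt _ _ _ hb).1 fun i => (abs_le.1 (hE.diag i)).2
  have m4 : m ≤ 2 ^ 2 := (wt _ _ _ hm).1 fun i => hY.row two_pos i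
  have hv : (m - a ^ 2) * T = ∑ i, μ i ^ (k + 2) * ∑ j, (Y - a • (1 : Mx n)) i j ^ 2 := by
    simp only [sqs, mul_add, mul_sub, sum_add_distrib, sum_sub_distrib, mul_left_comm _ (2 * a)]
    rw [← mul_sum, ← sum_mul, ← hm, ← ha, ← hT]; ring
  have v0 : 0 ≤ m - a ^ 2 := (wt _ _ _ hv).2 fun i => by positivity
  obtain ⟨q, G, h1, h2, h3, h4, h5⟩ := core μ0 k hY hE hE2 a2 hT T0 ha hb hv v0 b0
    (by nlinarith [sq_nonneg a]) (ρ := δ / Λ) (fun i j => by
      rw [div_mul_eq_mul_div, div_le_iff₀ Λ0]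
      exact mul_le_mul (hμ j).1 (hμ i).2 (μ0 i) (μ0 j)) (by positivity)
  push_cast
  refine ⟨m - a ^ 2, q, G, a2, v0, by linarith, by ring, b0, b1, ⟨h1, h2⟩, h3, le_trans ?_ h4,
    fun u hu => by rw [eU, eS, h5 u hu]⟩
  have : δ / (4 * Λ) ≤ δ / Λ / 2 := by
    rw [div_div]; exact div_le_div_of_nonneg_left hδ.le (by positivity) (by linarith)
  nlinarith


end Crest.Agent.T157.Cw

end
end

-- ▼ part T157/CwTilt_54
section

/-!
# Row 157, part C (helper54): the covariance under the tilt by a sign function (`Cw.TiltStmt`)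
-/

set_option autoImplicit false

noncomputable section

namespace Crest.Agent.T157.Cw

open Matrix Function
open Crest.ProbabilityR.SpinGlassDynamics
open Crest.Agent.T157.E Crest.Agent.T157.Un Crest.Agent.T157.Crit Crest.Agent.T157.SL
open Crest.Agent.T157.Qe (V Mx Le)

namespace Tilt54

variable {n : ℕ} {w τ : Cube n → ℝ}

lemma mean_rw (hw : Wt w) (hτ : Sgn τ) (x : ℝ) (g : Cube n → ℝ) : mean (rw w τ x) g =
    mean w g + Real.tanh x / (1 + mean w τ * Real.tanh x) * cov w g τ := by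
  have hc := (Real.cosh_pos x).ne'
  have e : ∀ σ, Real.exp (x * τ σ) = Real.cosh x * (1 + Real.tanh x * τ σ) := fun σ => by
    rw [Real.tanh_eq_sinh_div_cosh]
    rcases hτ σ with h | h <;> rw [h] <;> field_simp
    · simp
    · rw [← sub_eq_add_neg, Real.cosh_sub_sinh]
  have h1 : |mean w τ * Real.tanh x| < 1 := by
    rw [abs_mul]
    exact mul_lt_one_of_nonneg_of_lt_one_right (hw.abs_mean_le fun σ => (hτ.abs σ).le)
      (abs_nonneg _) (Real.abs_tanh_lt_one x)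
  have h2 : 1 + mean w τ * Real.tanh x ≠ 0 := by linarith [(abs_lt.1 h1).1]
  have h3 : ∀ σ, Real.cosh x * (1 + Real.tanh x * τ σ) * g σ =
      Real.cosh x * (g σ + Real.tanh x * (g σ * τ σ)) := fun σ => by ring
  rw [show rw w τ x = fun σ => w σ * Real.exp (x * τ σ) from rfl, mean_mul_weight _ _ _ hw.pos.ne',
    hw.cov_eq]
  simp only [e, h3, mean_const_mul, mean_add, hw.mean_const]
  rw [mul_comm (Real.tanh x) (mean w τ), mul_div_mul_left _ _ hc, div_mul_eq_mul_div,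
    add_div' _ _ _ h2]
  congr 1
  ring

lemma quad (w c : Cube n → ℝ) (a : Cube n → V n) (u : V n) :
    u ⬝ᵥ (fun i j => mean w fun x => a x i * a x j * c x : Mx n) *ᵥ u =
      mean w fun x => (u ⬝ᵥ a x) ^ 2 * c x := by
  simp only [dotProduct, mulVec, ← mean_mul_const, ← mean_const_mul, ← mean_sum]
  congr 1
  funext x
  simp only [sq, Finset.sum_mul, Finset.mul_sum]
  exact Finset.sum_congr rfl fun i _ => Finset.sum_congr rfl fun j _ => by ring

lemma cov_quad (w : Cube n → ℝ) (u : V n) :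
    u ⬝ᵥ covM w *ᵥ u = mean w fun x => (u ⬝ᵥ (sv x - mag w)) ^ 2 := by
  simp only [covM, covMat_quad, cov_eq_mean, dotProduct_sub, mag, meanV_dot, sq]

lemma vmv_quad (c u : V n) : u ⬝ᵥ vecMulVec c c *ᵥ u = (u ⬝ᵥ c) ^ 2 := by
  rw [vecMulVec_mulVec, dotProduct_smul, dotProduct_comm c u, sq]; simp

lemma var_le (hw : Wt w) (f : Cube n → ℝ) (c : ℝ) : var w f ≤ mean w fun x => (f x - c) ^ 2 := by
  have e : ∀ x, (f x - c) ^ 2 = f x * f x - 2 * c * f x + c ^ 2 := fun x => by ring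
  simp only [var_eq_cov, hw.cov_eq, e, mean_add, mean_sub, mean_const_mul, hw.mean_const]
  nlinarith [sq_nonneg (mean w f - c)]

/-- variance of a quadratic form -/
lemma var_quad (hw : Wt w) {K : ℝ} (hK : CovLe w K) {A : Mx n} (hA : Aᵀ = A) :
    var w (fun x => sv x ⬝ᵥ A *ᵥ sv x) ≤ 4 * n * (K * ∑ i, A i ⬝ᵥ A i) := by
  refine (var_le hw _ (mag w ⬝ᵥ A *ᵥ mag w)).trans ?_
  have h1 : ∀ x, (sv x ⬝ᵥ A *ᵥ sv x - mag w ⬝ᵥ A *ᵥ mag w) ^ 2 ≤
      4 * n * ∑ i, (A i ⬝ᵥ (sv x - mag w)) ^ 2 := fun x => by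
    have e : sv x ⬝ᵥ A *ᵥ sv x - mag w ⬝ᵥ A *ᵥ mag w = (sv x + mag w) ⬝ᵥ A *ᵥ (sv x - mag w) := by
      have : mag w ⬝ᵥ A *ᵥ sv x = sv x ⬝ᵥ A *ᵥ mag w := by
        rw [dotProduct_mulVec, ← mulVec_transpose, hA, dotProduct_comm]
      rw [mulVec_sub, dotProduct_sub, add_dotProduct, add_dotProduct, this]; ring
    rw [e]
    refine (Eig.dot_sq_le _ _).trans (mul_le_mul ?_ (le_of_eq ?_)
      (Finset.sum_nonneg fun _ _ => mul_self_nonneg _) (by positivity))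
    · refine (Finset.sum_le_card_nsmul _ _ 4 fun i _ => ?_).trans (by simp [mul_comm])
      have h2 : ∀ y : Cube n, |sv y i| ≤ 1 := fun y => by
        unfold sv; cases y i <;> simp [spin]
      have h3 := abs_le.1 (h2 x)
      have h4 : -1 ≤ mag w i ∧ mag w i ≤ 1 := abs_le.1 (hw.abs_mean_le h2)
      simp only [Pi.add_apply]
      nlinarith
    · simp only [sq]; rfl
  refine (hw.mean_mono h1).trans ?_
  rw [mean_const_mul, mean_sum, Finset.mul_sum _ _ K]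
  refine mul_le_mul_of_nonneg_left (Finset.sum_le_sum fun i _ => ?_) (by positivity)
  rw [← cov_quad]
  exact hK _

end Tilt54

open Tilt54

theorem tiltStmt : TiltStmt := by
  refine ⟨fun n w τ x h hτ => ?_, fun n w τ h hτ => ?_, fun n g dd y e x => ?_,
    fun n w K h hK v => ?_⟩
  · have hw := Wt.of_pos h
    ext i j
    have h1 : K3 w τ i j = cum3 w (fun x => sv x i) (fun x => sv x j) τ := rfl
    simp only [Matrix.sub_apply, Matrix.add_apply, Matrix.smul_apply, smul_eq_mul, vecMulVec_apply,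
      h1, hw.cum3_eq, covM, covMat, covV, (Wt.of_pos (rw_pos h x)).cov_eq, mean_rw hw hτ,
      cov_comm w τ]
    rw [hw.cov_eq (fun x => sv x i) fun x => sv x j]
    ring
  · have hw := Wt.of_pos h
    have h1 := hw.abs_mean_le fun σ => (hτ.abs σ).le
    have h2 : ∀ σ, -2 ≤ τ σ - mean w τ ∧ τ σ - mean w τ ≤ 2 := fun σ => by
      have := abs_le.1 h1
      have := abs_le.1 (hτ.abs σ).le
      constructor <;> linarith
    have h3 : ∀ u : V n, u ⬝ᵥ K3 w τ *ᵥ u =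
        mean w fun x => (u ⬝ᵥ (sv x - mag w)) ^ 2 * (τ x - mean w τ) := fun u =>
      quad w (fun x => τ x - mean w τ) (fun x => sv x - mag w) u
    refine ⟨h1, covMat_transpose _ _, ?_, fun u => ?_, fun u => ?_, fun u => ?_, fun u => ?_⟩
    · ext i j
      simp only [transpose_apply, K3, mul_comm (sv _ i - mag w i)]
    · simpa [covM] using hw.covMat_quad_nonneg sv u
    · rw [h3, smul_mulVec, dotProduct_smul, cov_quad, smul_eq_mul, ← mean_const_mul]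
      exact hw.mean_mono fun x => by nlinarith [(h2 x).1, sq_nonneg (u ⬝ᵥ (sv x - mag w))]
    · rw [h3, smul_mulVec, dotProduct_smul, cov_quad, smul_eq_mul, ← mean_const_mul]
      exact hw.mean_mono fun x => by nlinarith [(h2 x).2, sq_nonneg (u ⬝ᵥ (sv x - mag w))]
    · rw [vmv_quad]
      refine (hw.dot_covV_sq_le τ sv u).trans (mul_le_of_le_one_left (hw.covMat_quad_nonneg sv u)
        ((var_le hw τ 0).trans (hw.mean_le fun x => ?_)))
      rw [sub_zero, ← sq_abs, hτ.abs, one_pow]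
  · funext σ
    have : ∀ p : Pair n, update g e x p / √n * sv σ p.1.1 * sv σ p.1.2 =
        g p / √n * sv σ p.1.1 * sv σ p.1.2 + if p = e then (x - g e) / √n * chi e σ else 0 := by
      intro p
      rcases eq_or_ne p e with rfl | hp
      · simp only [update_self, if_true, chi, sv]; ring
      · simp [hp]
    simp only [Un.rw, ising, Wmat, add_mulVec, dotProduct_add, dot_Jmat, this, ← Real.exp_add,
      Finset.sum_add_distrib, Finset.sum_ite_eq', Finset.mem_univ, if_true]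
    congr 1
    ring
  · have hw := Wt.of_pos h
    rcases Nat.eq_zero_or_pos n with rfl | hn
    · simp [dotProduct]
    have hr : (0 : ℝ) < √n := Real.sqrt_pos.2 (by exact_mod_cast hn)
    have hr2 : √(n : ℝ) ^ 2 = n := Real.sq_sqrt (Nat.cast_nonneg n)
    set U : Pair n → ℝ := fun e => v ⬝ᵥ covV w (chi e) sv with hU
    have h0 := hw.covMat_quad_nonneg sv v
    rw [sum_mulVec, dotProduct_sum, smul_mulVec, dotProduct_smul, smul_eq_mul]
    simp only [vmv_quad]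
    change ∑ e, U e ^ 2 ≤ _
    set S := ∑ e, U e ^ 2 with hS
    have h1 : ∑ i, Jmat n U i ⬝ᵥ Jmat n U i = 2 * S / √n ^ 2 := by
      simp only [dotProduct]
      rw [sum_sum_eq_two_mul_pair (fun i j => Jmat n U i j * Jmat n U i j)
        (fun i j => by rw [Jmat_symm]) fun i => by simp [Jmat_diag], mul_div_assoc, hS,
        Finset.sum_div]
      congr 1
      exact Finset.sum_congr rfl fun p _ => by rw [Jmat_apply_lt U p.2]; ring
    have h2 : v ⬝ᵥ covV w (fun x => sv x ⬝ᵥ Jmat n U *ᵥ sv x) sv = 2 * S / √n := by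
      rw [covV_dot, cov_comm, mul_div_assoc, hS, Finset.sum_div]
      simp only [dot_Jmat, cov_const_mul, cov_sum, mul_assoc]
      congr 1
      refine Finset.sum_congr rfl fun p _ => ?_
      rw [cov_comm, ← covV_dot, sq, div_mul_eq_mul_div]
      rfl
    have h3 := (hw.dot_covV_sq_le _ sv v).trans
      (mul_le_mul_of_nonneg_right (var_quad hw hK (Jmat_transpose U)) h0)
    rw [h1, h2, ← hr2] at h3
    change _ ≤ _ * (v ⬝ᵥ covM w *ᵥ v) at h3
    change 0 ≤ v ⬝ᵥ covM w *ᵥ v at h0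
    have hS1 : 0 ≤ S := Finset.sum_nonneg fun e _ => sq_nonneg (U e)
    rcases hS1.eq_or_lt with hS0 | hS0
    · rw [← hS0, mul_assoc]
      refine mul_nonneg (by positivity) ?_
      rcases le_total 0 K with hK0 | hK0
      · exact mul_nonneg hK0 h0
      · rw [le_antisymm ((hK v).trans (mul_nonpos_of_nonpos_of_nonneg hK0
          (Finset.sum_nonneg fun _ _ => mul_self_nonneg _))) h0, mul_zero]
    · rw [← hr2]
      simp only [Real.sqrt_sq hr.le] at h3 ⊢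
      field_simp at h3
      nlinarith

end Crest.Agent.T157.Cw

end
end

-- ▼ part T157/CwAll_15
section

/-!
# Row 157, coin windows: the comparison engine, unconditional (helper15)
-/

namespace Crest.Agent.T157.Cw

theorem jetStmt : JetStmt := jetGlue schStmt tiltStmt

theorem lmStmt : LmStmt := lmGlue tiltStmt

theorem engStmt : EngStmt := eng63 tiltStmt jetStmt lmStmt algStmt ltStmt

end Crest.Agent.T157.Cw
end

-- ▼ part T157/CtWin_63

/-!
# Row 157, coin windows (helper63): `G0`-`G3` and `WinC` for coins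
-/

set_option autoImplicit false

noncomputable section

namespace Crest.Agent.T157.Cw

open MeasureTheory Set Real Filter Topology
open Crest.ProbabilityR.SpinGlassDynamics
open Crest.Agent.T157.E Crest.Agent.T157.Crit
open Crest.Agent.T157.Top (Whp)
open Crest.Agent.T157.Tr (Off)
open Crest.Agent.T157.O7 (Mt lo QW)
open Crest.Agent.T157.O7.G13 Pen63

/-! ### above the edge -/

def U0 : Prop := ∀ L > (0 : ℝ), ∃ K : ℝ, ∀ d ∈ Ioo (0 : ℝ) (2 / 3), ∀ d' ∈ Ioo (0 : ℝ) 1,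
  ∃ t0 > (0 : ℝ), Whp (couplingLaw true) fun n g => QW (gibbsWeight n 1 g) (lo d n) t0 (fun _ => K)
    fun r => min (L * Mt n r) ((n : ℝ) ^ (1 - d'))

def U1 : Prop := ∀ e > (0 : ℝ), ∀ d ∈ Ioo (0 : ℝ) (2 / 3), ∀ d' ∈ Ioo (0 : ℝ) 1, ∃ c0 > (0 : ℝ),
  ∃ t0 > (0 : ℝ), Whp (couplingLaw true) fun n g => QW (gibbsWeight n 1 g) (lo d n) t0
    (fun _ => 1 + e) fun r => min (c0 * Mt n r) ((n : ℝ) ^ (1 - d'))

def U2 : Prop := ∀ d ∈ Ioo (0 : ℝ) (2 / 3), ∃ c ∈ Ioc (0 : ℝ) 1, ∃ t0 ∈ Ioc (0 : ℝ) 1,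
  Whp (couplingLaw true) fun n g => QW (gibbsWeight n 1 g) (lo d n) t0
    (fun r => 1 + 22 * (r ^ c + (n : ℝ) ^ (-c))) fun _ => (n : ℝ) ^ c

def U4 : Prop := ∀ T : ℝ, ∀ s > (0 : ℝ), ∀ d' ∈ Ioo (0 : ℝ) 1, ∃ K : ℝ,
  Whp (couplingLaw true) fun n g => QW (gibbsWeight n 1 g) s T (fun _ => K)
    fun _ => (n : ℝ) ^ (1 - d')

/-! ### the edge -/

def X0 : Prop := ∀ ε > (0 : ℝ), ∀ L : ℝ, ∃ K s0 : ℝ, Off (couplingLaw true) ε fun n g =>
  QW (gibbsWeight n 1 g) (s0 / Soft.N23 n) (lo (1 / 400) n) (fun _ => K)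
    fun r => min (L * Mt n r) √n

def X1 : Prop := ∀ ε > (0 : ℝ), ∀ e > (0 : ℝ), ∃ c0 > (0 : ℝ), ∃ s0 : ℝ,
  Off (couplingLaw true) ε fun n g => QW (gibbsWeight n 1 g) (s0 / Soft.N23 n) (lo (1 / 400) n)
    (fun _ => 1 + e) fun r => min (c0 * Mt n r) √n

def X2 : Prop := ∀ ε > (0 : ℝ), ∃ c > (0 : ℝ), ∃ C s0 : ℝ, Off (couplingLaw true) ε fun n g =>
  QW (gibbsWeight n 1 g) (s0 / Soft.N23 n) (lo (1 / 400) n)
    (fun r => 1 + C * (r ^ c + (Soft.N23 n * r) ^ (-c))) fun r => (Soft.N23 n * r) ^ c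

namespace Win63

lemma qw_mono {n : ℕ} {w : Cube n → ℝ} (hw : ∀ x, 0 < w x) {a b r k' H' : ℝ} {k H : ℝ → ℝ}
    (h : QW w a b k H) (hr : r ∈ Icc a b) (r0 : 0 ≤ r) (hk : k r ≤ k') (hH : H' ≤ H r) :
    CovAt w r (k' / r) (exp (-H')) :=
  covAt_mono hw (h r hr) (div_le_div_of_nonneg_right hk r0) (exp_le_exp.2 (neg_le_neg hH))

lemma glue {ε s0 t0 t1 : ℝ} {m : ℕ → ℝ} {k k' kk H H' HH : ℕ → ℝ → ℝ} (hε : 0 < ε)
    (hE : Off (couplingLaw true) (ε / 2) fun n g =>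
      QW (gibbsWeight n 1 g) (s0 / Soft.N23 n) (m n) (k n) (H n))
    (hJ : Whp (couplingLaw true) fun n g => QW (gibbsWeight n 1 g) (m n) t0 (kk n) (HH n))
    (ht : t1 ≤ t0) (h : ∀ n : ℕ, 0 < n → ∀ r, 0 < r → 1 ≤ Soft.N23 n * r → r ≤ t1 →
      k n r ≤ k' n r ∧ H' n r ≤ H n r ∧ kk n r ≤ k' n r ∧ H' n r ≤ HH n r) :
    Off (couplingLaw true) ε fun n g =>
      QW (gibbsWeight n 1 g) (max s0 1 / Soft.N23 n) t1 (k' n) (H' n) := by
  have h1 := hE.and (Tr.off_of_whp hJ (half_pos hε)) (half_pos hε).le (half_pos hε).le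
  rw [add_halves] at h1
  refine h1.mono ((eventually_gt_atTop 0).mono fun n hn g hg r hr => ?_)
  have r0 := (a_le s0 hn).2.trans_le hr.1
  obtain ⟨a1, a2, a3, a4⟩ := h n hn r r0
    ((le_max_right _ _).trans ((div_le_iff₀' (Soft.N23_pos hn)).1 hr.1)) hr.2
  rcases le_total r (m n) with h7 | h7
  · exact qw_mono (gibbsWeight_pos 1 g) hg.1 ⟨(a_le s0 hn).1.trans hr.1, h7⟩ r0.le a1 a2
  · exact qw_mono (gibbsWeight_pos 1 g) hg.2 ⟨h7, hr.2.trans ht⟩ r0.le a3 a4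

lemma sq_eq (n : ℕ) : √(n : ℝ) = (n : ℝ) ^ (1 - 1 / 2 : ℝ) := by rw [sqrt_eq_rpow]; norm_num

lemma m400 : (1 / 400 : ℝ) ∈ Ioo (0 : ℝ) (2 / 3) := ⟨by norm_num, by norm_num⟩

lemma m2 : (1 / 2 : ℝ) ∈ Ioo (0 : ℝ) 1 := ⟨by norm_num, by norm_num⟩

end Win63

open Win63

theorem u0 (hP : Cp.PenStmt) (j : O0.JW0) : U0 := fun L hL => by
  obtain ⟨K, hK⟩ := j (4 * L)
  refine ⟨(1 + 7 * 1) * max K 1, fun d hd d' hd' => ?_⟩
  obtain ⟨e, he, κ, hκ, τ, hτ, t0, ht0, e0, he0, h⟩ := hK d hd.1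
  have := qc63 engStmt lmStmt algStmt hP Cp.fineStmt (b := t0) hκ hd.1 hd.2 hd'.1 hd'.2 he.1 he.2
    hτ.1 hτ.2 (show 0 < 4 * L by positivity) (le_max_right K 1) one_pos le_rfl he0 ?_
  · exact ⟨t0, ht0.1, by simpa only [mul_div_cancel_left₀ L (four_ne_zero' ℝ)] using this⟩
  filter_upwards [h, eventually_gt_atTop 0] with n h hn t ht
  exact (h t ht).le (div_le_div_of_nonneg_right (le_max_left _ _)
    ((lo_pos d hn).le.trans ht.1)) le_rfl

theorem u1 (hP : Cp.PenStmt) (j : O0.JW1) : U1 := fun ε hε d hd d' hd' => by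
  obtain ⟨x, x0, x1, x2⟩ : ∃ x > (0 : ℝ), x ≤ ε / 15 ∧ x ≤ 1 :=
    ⟨min (ε / 15) 1, by positivity, min_le_left _ _, min_le_right _ _⟩
  obtain ⟨c0, c00, e, he, κ, hκ, τ, hτ, t0, ht0, e0, he0, h⟩ := j x x0 d hd.1
  refine ⟨c0 / 4, by positivity, t0, ht0.1, (qc63 engStmt lmStmt algStmt hP Cp.fineStmt (b := t0) hκ
    hd.1 hd.2 hd'.1 hd'.2 he.1 he.2 hτ.1 hτ.2 c00 (show 1 ≤ 1 + x by linarith) x0 x2 he0 h).mono ?_⟩
  filter_upwards [eventually_gt_atTop 0] with n hn g hg r hr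
  exact qw_mono (gibbsWeight_pos 1 g) hg hr ((lo_pos d hn).le.trans hr.1) (by nlinarith) le_rfl

theorem u2 (hP : Cp.PenStmt) (j : O0.JW2) : U2 := fun d hd => by
  obtain ⟨κ, hκ, d1, hd1, h⟩ := j d hd.1
  refine q263 engStmt lmStmt algStmt hP Cp.fineStmt hκ hd.1 hd.2 hd1 fun ζ hζ => ?_
  obtain ⟨c, hc, τ, hτ, t0, ht0, h⟩ := h ζ hζ
  exact ⟨c, hc, τ, hτ, t0, ht0.1, h⟩

theorem u4 : U4 := fun T s hs d' hd' => by
  obtain ⟨K, e0, he0, h⟩ := O0.S5.jw4 hs T
  exact ⟨_, q463 engStmt lmStmt algStmt hs he0 hd'.1 hd'.2 h⟩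

theorem g0C (u : U0) (x : X0) : O7.G0 (couplingLaw true) := fun ε hε L => by
  obtain ⟨KE, s0, hE⟩ := x (ε / 2) (half_pos hε) L
  obtain ⟨K, hK⟩ := u (max L 1) (lt_max_of_lt_right one_pos)
  obtain ⟨t0, ht0, hJ⟩ := hK _ m400 _ m2
  exact ⟨max KE K, _, t0, ht0, glue (k := fun _ _ => KE) (kk := fun _ _ => K) hε hE hJ le_rfl
    fun n _ r r0 _ _ => ⟨le_max_left _ _, le_rfl, le_max_right _ _, min_le_min
      (mul_le_mul_of_nonneg_right (le_max_left _ _) (Mt_nn n r0.le)) (sq_eq n).le⟩⟩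

theorem g1C (u : U1) (x : X1) : O7.G1 (couplingLaw true) := fun ε hε e he => by
  obtain ⟨cE, hcE, s0, hE⟩ := x (ε / 2) (half_pos hε) e he
  obtain ⟨c0, hc0, t0, ht0, hJ⟩ := u e he _ m400 _ m2
  exact ⟨min cE c0, lt_min hcE hc0, _, t0, ht0, glue (k := fun _ _ => 1 + e) (kk := fun _ _ => 1 + e)
    hε hE hJ le_rfl fun n _ r r0 _ _ => ⟨le_rfl, min_le_min (mul_le_mul_of_nonneg_right
      (min_le_left _ _) (Mt_nn n r0.le)) le_rfl, le_rfl, min_le_min
      (mul_le_mul_of_nonneg_right (min_le_right _ _) (Mt_nn n r0.le)) (sq_eq n).le⟩⟩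

theorem g2C (u : U2) (x : X2) : O7.G2 (couplingLaw true) := fun ε hε => by
  obtain ⟨cE, hcE, CE, s0, hE⟩ := x (ε / 2) (half_pos hε)
  obtain ⟨c, hc, t0, ht0, hJ⟩ := u _ m400
  have c1 := min_le_left cE c
  have c2 := min_le_right cE c
  have c0 := lt_min hcE hc.1
  refine ⟨min cE c, c0, |CE| + 22, _, t0, ht0.1, glue hε hE hJ le_rfl fun n hn r r0 x1 r1 => ?_⟩
  have n1 : (1 : ℝ) ≤ n := by exact_mod_cast hn
  replace r1 := r1.trans ht0.2
  have x0 : 0 < Soft.N23 n * r := by linarith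
  have x2 : Soft.N23 n * r ≤ n := (mul_le_of_le_one_right (Soft.N23_pos hn).le r1).trans
    ((rpow_le_rpow_of_exponent_le n1 (by norm_num)).trans (rpow_one _).le)
  have A0 : 0 ≤ r ^ min cE c + (Soft.N23 n * r) ^ (-min cE c) := by positivity
  have aE := abs_nonneg CE
  refine ⟨?_, rpow_le_rpow_of_exponent_le x1 c1, ?_,
    (rpow_le_rpow x0.le x2 c0.le).trans (rpow_le_rpow_of_exponent_le n1 c2)⟩
  · have b1 := add_le_add (rpow_le_rpow_of_exponent_ge r0 r1 c1)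
      (rpow_le_rpow_of_exponent_le x1 (neg_le_neg c1))
    have := (mul_le_mul_of_nonneg_right (le_abs_self CE) (by positivity)).trans
      (mul_le_mul_of_nonneg_left b1 aE)
    nlinarith
  · have b1 := add_le_add (rpow_le_rpow_of_exponent_ge r0 r1 c2)
      ((rpow_le_rpow_of_exponent_le n1 (neg_le_neg c2)).trans
        (rpow_le_rpow_of_nonpos x0 x2 (neg_nonpos.2 c0.le)))
    nlinarith [mul_nonneg aE A0]

theorem g3C (T : ℝ) : O7.G3 (couplingLaw true) T := fun t0 ht0 => by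
  obtain ⟨K, h⟩ := u4 T t0 ht0 _ m2
  exact ⟨K, by simpa only [sq_eq] using h⟩

theorem winC (v0 : U0) (v1 : U1) (T : ℝ) : Cn.WinC T := by
  intro d hd c hc
  obtain ⟨d', d0, d1⟩ : ∃ d' ∈ Ioo (0 : ℝ) 1, d' ≤ d / 2 :=
    ⟨min (d / 2) (1 / 2), ⟨by positivity, (min_le_right _ _).trans_lt (by norm_num)⟩,
      min_le_left _ _⟩
  have c0 : 0 < c ^ (3 / 2 : ℝ) := rpow_pos_of_pos hc _
  obtain ⟨K, hK⟩ := v0 (3 / c ^ (3 / 2 : ℝ)) (by positivity)
  obtain ⟨t1, t10, h1⟩ := hK (1 / 3) ⟨by norm_num, by norm_num⟩ d' d0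
  obtain ⟨K4, h4⟩ := u4 T t1 t10 d' d0
  refine ⟨max K K4, fun δ hδ => ?_⟩
  obtain ⟨x, x0, x1, x2⟩ : ∃ x > (0 : ℝ), x ≤ δ ∧ x ≤ 1 :=
    ⟨min δ 1, by positivity, min_le_left _ _, min_le_right _ _⟩
  have x3 : x / 3 ∈ Ioo (0 : ℝ) (2 / 3) := ⟨by positivity, by linarith⟩
  obtain ⟨t2, t20, h2⟩ := hK _ x3 d' d0
  obtain ⟨c1, c10, t3, t30, h3⟩ := v1 δ hδ _ x3 d' d0
  obtain ⟨K5, h5⟩ := u4 T t3 t30 d' d0
  refine ⟨t3, t30, K5, (((h1.and h4).and h2).and (h3.and h5)).mono ?_⟩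
  filter_upwards [eventually_gt_atTop 0, ev_mul hc x3.1 1, ev_mul c10 hδ 3,
    ev_lo (show (1 / 3 : ℝ) < 2 / 3 by norm_num) t20,
    ev_lt (show 1 - d < 1 - d' by linarith) one_pos 3] with n hn p1 p2 p3 p4 g hg H hH1 hH2 r hr
  obtain ⟨⟨⟨g1, g4⟩, g2⟩, g3, g5⟩ := hg
  have n1 : (1 : ℝ) ≤ n := by exact_mod_cast hn
  have n0 : (0 : ℝ) < n := by linarith
  have q1 : ∀ x : ℝ, 0 ≤ x → 1 ≤ (n : ℝ) ^ x := fun x hx => one_le_rpow n1 hx
  have H1 : 1 ≤ H := (q1 δ hδ.le).trans hH1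
  have H2 := (rpow_le_rpow_of_exponent_le n1 x1).trans hH1
  have H3 : 3 * H ≤ (n : ℝ) ^ (1 - d') := by linarith
  have s0 : 0 ≤ sH n H := rpow_nonneg (by positivity) _
  have w0 := gibbsWeight_pos (n := n) 1 g
  refine ⟨fun hr1 _ => ?_, fun hr1 hr2 => ?_, fun hr1 =>
    qw_mono w0 g5 ⟨hr1, hr⟩ (t30.le.trans hr1) le_rfl H3⟩
  · have r0 : 0 ≤ r := le_trans (by positivity) hr1
    have a : 3 * H ≤ min (3 / c ^ (3 / 2 : ℝ) * Mt n r) ((n : ℝ) ^ (1 - d')) := by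
      refine le_min (le_trans (le_of_eq ?_) (mul_le_mul_of_nonneg_left
        (Mt_mono (by positivity) hr1) (by positivity))) H3
      rw [O7.W22.Mt_sH n0 hc.le (by linarith)]
      field_simp
    rcases le_total t1 r with b1 | b1
    · exact qw_mono w0 g4 ⟨b1, hr⟩ r0 (le_max_right _ _) H3
    rcases le_total (lo (1 / 3) n) r with b2 | b2
    · exact qw_mono w0 g1 ⟨b2, b1⟩ r0 (le_max_left _ _) a
    · exact qw_mono w0 g2 ⟨(O7.W22.lo_le n1 p1 H2).trans hr1, b2.trans p3⟩ r0 (le_max_left _ _) a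
  · refine qw_mono w0 g3 ⟨(O7.W22.lo_le n1 (one_le_mul_of_one_le_of_one_le (q1 δ hδ.le)
      (q1 _ x3.1.le)) H2).trans hr1, hr2⟩ (le_trans (by positivity) hr1) le_rfl (le_min ?_ H3)
    refine le_trans ?_ (mul_le_mul_of_nonneg_left (Mt_mono (by positivity) hr1) c10.le)
    rw [O7.W22.Mt_sH n0 (by positivity) (by linarith), ← mul_assoc]
    refine mul_le_mul_of_nonneg_right (p2.trans (mul_le_mul_of_nonneg_left ?_ c10.le)) (by linarith)
    exact self_le_rpow_of_one_le (q1 δ hδ.le) (by norm_num)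

end Crest.Agent.T157.Cw

end
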