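import Crest.Agent.T157.TapCell_53

/-!
# Row 157, part A2 (helper59): the signed area formula (DEG)

For `Y = id + bounded` with a bounded Jacobian `D`:
`∫ det⁺(D x) h(Y x) dx = ∫ h + ∫ det⁻(D x) h(Y x) dx` for every measurable `h ≥ 0`.
Proof: `λ ↦ ∫ det(1 + λ (D - 1)) G(x + λ (Y x - x)) dx` is entire for `G = e^{i L y - |y|²}` and
constant for small `λ ≥ 0` (change of variables); characteristic functions separate finite measures.
-/

set_option autoImplicit false
set_option linter.unusedSectionVars false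

noncomputable section

namespace Crest.Agent.T157.Deg

open MeasureTheory Matrix Set Filter Topology
open Crest.Agent.T157.Kr
open scoped ENNReal

/-- holomorphic parametric integrals -/
theorem diff_int {α : Type*} [MeasurableSpace α] (μ : Measure α) {F : ℂ → α → ℂ}
    (hm : ∀ z, AEStronglyMeasurable (F z) μ) (hd : ∀ a, Differentiable ℂ fun z => F z a)
    (hb : ∀ R : ℝ, ∃ b : α → ℝ, Integrable b μ ∧ ∀ z a, ‖z‖ ≤ R → ‖F z a‖ ≤ b a) :
    Differentiable ℂ fun z => ∫ a, F z a ∂μ := by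
  intro z0
  obtain ⟨b, hbi, hbb⟩ := hb (‖z0‖ + 2)
  have hlim : Tendsto (fun k : ℕ => ((1 : ℂ) / ((k : ℂ) + 1))) atTop (𝓝[≠] 0) := by
    refine tendsto_nhdsWithin_iff.2 ⟨?_, Eventually.of_forall fun k => ?_⟩
    · have h := (Complex.continuous_ofReal.tendsto 0).comp
        (tendsto_one_div_add_atTop_nhds_zero_nat (𝕜 := ℝ))
      simp only [Complex.ofReal_zero] at h
      refine h.congr fun k => ?_
      simp
    · exact one_div_ne_zero (Nat.cast_add_one_ne_zero k)
  have hm' : AEStronglyMeasurable (fun a => deriv (fun z => F z a) z0) μ := by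
    refine aestronglyMeasurable_of_tendsto_ae atTop
      (f := fun (k : ℕ) a => ((1 : ℂ) / ((k : ℂ) + 1))⁻¹ • (F (z0 + 1 / ((k : ℂ) + 1)) a - F z0 a))
      (fun k => ((hm (z0 + 1 / ((k : ℂ) + 1))).sub (hm z0)).const_smul
        ((1 : ℂ) / ((k : ℂ) + 1))⁻¹) (Eventually.of_forall fun a => ?_)
    exact ((hd a z0).hasDerivAt.tendsto_slope_zero).comp hlim
  refine (hasDerivAt_integral_of_dominated_loc_of_deriv_le (μ := μ) (F := F) (bound := b)
    (F' := fun z a => deriv (fun z => F z a) z) (Metric.ball_mem_nhds z0 one_pos)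
    (Eventually.of_forall hm) (hbi.mono' (hm z0) (Eventually.of_forall fun a =>
      hbb z0 a (by linarith))) hm' (Eventually.of_forall fun a z hz => ?_) hbi
    (Eventually.of_forall fun a z _ => (hd a z).hasDerivAt)).2.differentiableAt
  have h := Complex.norm_deriv_le_of_forall_mem_sphere_norm_le (c := z) (R := 1) (C := b a)
    (f := fun z => F z a) one_pos (hd a).diffContOnCl (fun w hw => hbb w a (by
      have h1 : ‖w - z‖ = 1 := by simpa [dist_eq_norm] using hw
      have h2 : ‖z - z0‖ < 1 := by simpa [dist_eq_norm] using hz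
      have h3 : w = (w - z) + (z - z0) + z0 := by ring
      have h4 := norm_add₃_le (a := w - z) (b := z - z0) (c := z0)
      rw [← h3] at h4
      linarith))
  simpa using h

variable {ι : Type*} [Fintype ι] [DecidableEq ι]

/-- a bounded perturbation `Ψ` with bounded Jacobian `M` -/
structure Dat (Ψ : (ι → ℝ) → ι → ℝ) (M : (ι → ℝ) → Matrix ι ι ℝ) (C : ℝ) : Prop where
  der : ∀ x, HasJac Ψ (M x) x
  bd : ∀ x i, |Ψ x i| ≤ C
  bdM : ∀ x i j, |M x i j| ≤ C
  pos : 0 ≤ C

lemma norm_mulVec_le {M : Matrix ι ι ℝ} {C : ℝ} (hC : 0 ≤ C) (h : ∀ i j, |M i j| ≤ C)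
    (v : ι → ℝ) : ‖M *ᵥ v‖ ≤ Fintype.card ι * C * ‖v‖ := by
  refine (pi_norm_le_iff_of_nonneg (by positivity)).2 fun i => ?_
  rw [Real.norm_eq_abs, mulVec, dotProduct]
  refine (Finset.abs_sum_le_sum_abs _ _).trans ?_
  calc ∑ j, |M i j * v j| ≤ ∑ _j : ι, C * ‖v‖ := Finset.sum_le_sum fun j _ => by
        rw [abs_mul]
        exact mul_le_mul (h i j) (norm_le_pi_norm v j) (abs_nonneg _) hC
    _ = _ := by simp [mul_assoc]

lemma measurable_jac {Y : (ι → ℝ) → ι → ℝ} {D : (ι → ℝ) → Matrix ι ι ℝ}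
    (h : ∀ x, HasJac Y (D x) x) (i j : ι) : Measurable fun x => D x i j := by
  have e : (fun x => D x i j) = fun x => fderiv ℝ Y x (Pi.single j 1) i := by
    funext x
    rw [(h x).fderiv]
    simp
  rw [e]
  exact (measurable_pi_apply i).comp (measurable_fderiv_apply_const ℝ Y _)

lemma measurable_det {α R : Type*} [MeasurableSpace α] [CommRing R] [MeasurableSpace R]
    [MeasurableAdd₂ R] [MeasurableMul₂ R] {D : α → Matrix ι ι R}
    (h : ∀ i j, Measurable fun x => D x i j) : Measurable fun x => (D x).det := by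
  simp only [Matrix.det_apply']
  exact Finset.measurable_sum _ fun σ _ =>
    (Finset.measurable_prod _ fun i _ => h _ _).const_mul _

namespace Dat

variable {Ψ : (ι → ℝ) → ι → ℝ} {M : (ι → ℝ) → Matrix ι ι ℝ} {C : ℝ}

lemma cont (h : Dat Ψ M C) : Continuous Ψ :=
  continuous_iff_continuousAt.2 fun x => (h.der x).continuousAt

lemma lip (h : Dat Ψ M C) (x y : ι → ℝ) : ‖Ψ y - Ψ x‖ ≤ Fintype.card ι * C * ‖y - x‖ :=
  convex_univ.norm_image_sub_le_of_norm_hasFDerivWithin_le (𝕜 := ℝ) (f' := fun x => mclm (M x))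
    (fun x _ => (h.der x).hasFDerivWithinAt)
    (fun x _ => ContinuousLinearMap.opNorm_le_bound _ (by have := h.pos; positivity) fun v =>
      norm_mulVec_le h.pos (h.bdM x) v) (mem_univ x) (mem_univ y)

/-- change of variables for small `l ≥ 0` -/
lemma small (h : Dat Ψ M C) {l : ℝ} (hl : 0 ≤ l) (hl' : l * (Fintype.card ι * C) ≤ 1 / 2)
    (g : (ι → ℝ) → ℂ) :
    ∫ x, (((1 + l • M x).det : ℝ) : ℂ) * g (x + l • Ψ x) = ∫ y, g y := by
  have hC := h.pos
  have hK : 0 ≤ (Fintype.card ι : ℝ) * C := by positivity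
  have hlip : ∀ x y, ‖l • Ψ y - l • Ψ x‖ ≤ 1 / 2 * ‖y - x‖ := fun x y => by
    rw [← smul_sub, norm_smul, Real.norm_of_nonneg hl]
    calc l * ‖Ψ y - Ψ x‖ ≤ l * (Fintype.card ι * C * ‖y - x‖) := by gcongr; exact h.lip x y
      _ = l * (Fintype.card ι * C) * ‖y - x‖ := by ring
      _ ≤ _ := by gcongr
  have hinj : Function.Injective fun x => x + l • Ψ x := fun x y hxy => by
    have e : y - x = -(l • Ψ y - l • Ψ x) := by
      have : x + l • Ψ x = y + l • Ψ y := hxy
      linear_combination (exp := 1) -this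
    have h1 := hlip x y
    rw [← norm_neg, ← e] at h1
    have : ‖y - x‖ = 0 := by linarith [norm_nonneg (y - x)]
    exact (sub_eq_zero.1 (norm_eq_zero.1 this)).symm
  have hsurj : Function.Surjective fun x => x + l • Ψ x := fun y => by
    have hc : ContractingWith (1 / 2) fun x => y - l • Ψ x := by
      refine ⟨by norm_num, LipschitzWith.of_dist_le_mul fun a b => ?_⟩
      rw [dist_eq_norm, dist_eq_norm]
      have e : y - l • Ψ a - (y - l • Ψ b) = -(l • Ψ a - l • Ψ b) := by abel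
      rw [e, norm_neg]
      simpa using hlip b a
    refine ⟨hc.fixedPoint _, ?_⟩
    have := hc.fixedPoint_isFixedPt
    rw [Function.IsFixedPt] at this
    exact eq_sub_iff_add_eq.1 this.symm
  have hpos : ∀ x, 0 < (1 + l • M x).det := fun x => by
    by_contra hn
    have hcont : Continuous fun m : ℝ => (1 + m • M x).det := by fun_prop
    obtain ⟨m, hm, hm0⟩ : (0 : ℝ) ∈ (fun m : ℝ => (1 + m • M x).det) '' Icc 0 l :=
      intermediate_value_Icc' hl hcont.continuousOn ⟨not_lt.1 hn, by simp⟩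
    obtain ⟨v, hv, hv0⟩ := Matrix.exists_mulVec_eq_zero_iff.2 hm0
    rw [add_mulVec, one_mulVec, smul_mulVec] at hv0
    have e : v = -(m • M x *ᵥ v) := eq_neg_of_add_eq_zero_left hv0
    have h1 : ‖v‖ ≤ 1 / 2 * ‖v‖ := by
      calc ‖v‖ = m * ‖M x *ᵥ v‖ := by
            conv_lhs => rw [e]
            rw [norm_neg, norm_smul, Real.norm_of_nonneg hm.1]
        _ ≤ l * (Fintype.card ι * C * ‖v‖) :=
            mul_le_mul hm.2 (norm_mulVec_le hC (h.bdM x) v) (norm_nonneg _) hl
        _ = l * (Fintype.card ι * C) * ‖v‖ := by ring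
        _ ≤ _ := by gcongr
    exact hv (norm_eq_zero.1 (by linarith [norm_nonneg v]))
  have hj : ∀ x, HasJac (fun x => x + l • Ψ x) (1 + l • M x) x := fun x =>
    hasJac_id.add ((h.der x).const_smul l)
  have key := integral_image_eq_integral_abs_det_fderiv_smul volume MeasurableSet.univ
    (f := fun x => x + l • Ψ x) (f' := fun x => mclm (1 + l • M x))
    (fun x _ => (hj x).hasFDerivWithinAt) hinj.injOn g
  rw [image_univ, hsurj.range_eq, Measure.restrict_univ] at key
  rw [key]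
  refine integral_congr_ae (Eventually.of_forall fun x => ?_)
  simp only [det_mclm, abs_of_pos (hpos x), Complex.real_smul]

/-- the complexified integrand -/
def FF (Ψ : (ι → ℝ) → ι → ℝ) (M : (ι → ℝ) → Matrix ι ι ℝ) (L : (ι → ℝ) →L[ℝ] ℝ) (z : ℂ)
    (x : ι → ℝ) : ℂ :=
  (1 + z • (M x).map ((↑) : ℝ → ℂ)).det *
    Complex.exp (((L x : ℝ) + z * (L (Ψ x) : ℝ)) * Complex.I - ∑ j, ((x j : ℝ) + z * (Ψ x j : ℝ)) ^ 2)

/-- the test function -/
def GG (L : (ι → ℝ) →L[ℝ] ℝ) (y : ι → ℝ) : ℂ :=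
  (Real.exp (-∑ j, y j ^ 2) : ℝ) * Complex.exp ((L y : ℝ) * Complex.I)

lemma FF_real (L : (ι → ℝ) →L[ℝ] ℝ) (l : ℝ) (x : ι → ℝ) :
    FF Ψ M L l x = (((1 + l • M x).det : ℝ) : ℂ) * GG L (x + l • Ψ x) := by
  unfold FF GG
  congr 1
  · have := RingHom.map_det Complex.ofRealHom (1 + l • M x)
    rw [Complex.ofRealHom_eq_coe] at this
    rw [this]
    congr 1
    ext i j
    simp [Matrix.one_apply, apply_ite]
  · rw [Complex.ofReal_exp, ← Complex.exp_add]
    congr 1
    simp only [map_add, map_smul, smul_eq_mul, Pi.add_apply, Pi.smul_apply]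
    push_cast
    ring

lemma integrable_gauss : Integrable fun x : ι → ℝ => Real.exp (-(1 / 2) * ∑ j, x j ^ 2) := by
  have h := Integrable.fintype_prod (f := fun (_ : ι) (t : ℝ) => Real.exp (-(1 / 2) * t ^ 2))
    (μ := fun _ => volume) fun _ => integrable_exp_neg_mul_sq (by norm_num)
  refine (volume_pi (α := fun _ : ι => ℝ)) ▸ h.congr (Eventually.of_forall fun x => ?_)
  simp only [Finset.mul_sum, Real.exp_sum]

lemma FF_le (h : Dat Ψ M C) (L : (ι → ℝ) →L[ℝ] ℝ) (R : ℝ) : ∃ K : ℝ, ∀ z x, ‖z‖ ≤ R →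
    ‖FF Ψ M L z x‖ ≤ K * Real.exp (-(1 / 2) * ∑ j, x j ^ 2) := by
  have hC := h.pos
  refine ⟨(Fintype.card ι).factorial * (1 + R * C) ^ Fintype.card ι *
    Real.exp (R * (‖L‖ * C) + Fintype.card ι * (R * C) ^ 2), fun z x hz => ?_⟩
  have hR : 0 ≤ R := (norm_nonneg _).trans hz
  have h1 : ‖(1 + z • (M x).map ((↑) : ℝ → ℂ)).det‖ ≤
      (Fintype.card ι).factorial * (1 + R * C) ^ Fintype.card ι := by
    have := Matrix.det_le (A := 1 + z • (M x).map ((↑) : ℝ → ℂ))
      (abv := IsAbsoluteValue.toAbsoluteValue (norm : ℂ → ℝ)) (x := 1 + R * C) fun i j => by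
        change ‖(1 + z • (M x).map ((↑) : ℝ → ℂ)) i j‖ ≤ _
        rw [Matrix.add_apply]
        refine (norm_add_le _ _).trans (add_le_add ?_ ?_)
        · rw [Matrix.one_apply]; split_ifs <;> simp
        · simp only [Matrix.smul_apply, Matrix.map_apply, smul_eq_mul, norm_mul, Complex.norm_real,
            Real.norm_eq_abs]
          exact mul_le_mul hz (h.bdM x i j) (abs_nonneg _) hR
    simpa using this
  have hΨ : ‖Ψ x‖ ≤ C := (pi_norm_le_iff_of_nonneg hC).2 (h.bd x)
  have h2 : ((((L x : ℝ) : ℂ) + z * (L (Ψ x) : ℝ)) * Complex.I).re ≤ R * (‖L‖ * C) := by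
    have e : ((((L x : ℝ) : ℂ) + z * (L (Ψ x) : ℝ)) * Complex.I).re = -(z.im * L (Ψ x)) := by simp
    rw [e]
    refine (neg_le_abs _).trans ?_
    rw [abs_mul]
    refine mul_le_mul ((Complex.abs_im_le_norm z).trans hz) ?_ (abs_nonneg _) hR
    exact (L.le_opNorm _).trans (mul_le_mul_of_nonneg_left hΨ (norm_nonneg _))
  have h3 : ∀ j, 1 / 2 * x j ^ 2 - (R * C) ^ 2 ≤ ((((x j : ℝ) : ℂ) + z * (Ψ x j : ℝ)) ^ 2).re := by
    intro j
    set w : ℂ := z * (Ψ x j : ℝ) with hw
    have hwn : ‖w‖ ≤ R * C := by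
      rw [hw, norm_mul, Complex.norm_real, Real.norm_eq_abs]
      exact mul_le_mul hz (h.bd x j) (abs_nonneg _) hR
    have hw2 : w.re ^ 2 + w.im ^ 2 ≤ (R * C) ^ 2 := by
      have := Complex.sq_norm w
      rw [Complex.normSq_apply] at this
      nlinarith [norm_nonneg w]
    have e : ((((x j : ℝ) : ℂ) + w) ^ 2).re = (x j + w.re) ^ 2 - w.im ^ 2 := by
      simp [sq]
    rw [e]
    nlinarith [sq_nonneg (x j + 2 * w.re)]
  rw [FF, norm_mul, Complex.norm_exp, mul_assoc _ (Real.exp _), ← Real.exp_add]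
  refine mul_le_mul h1 (Real.exp_le_exp.2 ?_) (Real.exp_nonneg _) (by positivity)
  rw [Complex.sub_re, Complex.re_sum]
  have h4 := Finset.sum_le_sum fun j (_ : j ∈ Finset.univ) => h3 j
  rw [Finset.sum_sub_distrib, ← Finset.mul_sum, Finset.sum_const, Finset.card_univ,
    nsmul_eq_mul] at h4
  linarith

lemma measurable_FF (h : Dat Ψ M C) (L : (ι → ℝ) →L[ℝ] ℝ) (z : ℂ) : Measurable (FF Ψ M L z) := by
  have hc := h.cont
  refine (measurable_det fun i j => ?_).mul (Continuous.measurable (by fun_prop))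
  simp only [Matrix.add_apply, Matrix.smul_apply, Matrix.map_apply, smul_eq_mul]
  exact ((Complex.measurable_ofReal.comp (measurable_jac h.der i j)).const_mul z).const_add _

lemma integrable_FF (h : Dat Ψ M C) (L : (ι → ℝ) →L[ℝ] ℝ) (z : ℂ) : Integrable (FF Ψ M L z) := by
  obtain ⟨K, hK⟩ := h.FF_le L ‖z‖
  exact (integrable_gauss.const_mul K).mono' (h.measurable_FF L z).aestronglyMeasurable
    (Eventually.of_forall fun x => hK z x le_rfl)

/-- (DEG) for the test functions -/
lemma test (h : Dat Ψ M C) (L : (ι → ℝ) →L[ℝ] ℝ) :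
    ∫ x, (((1 + M x).det : ℝ) : ℂ) * GG L (x + Ψ x) = ∫ y, GG L y := by
  have hd : Differentiable ℂ fun z => ∫ x, FF Ψ M L z x := by
    refine diff_int volume (fun z => (h.measurable_FF L z).aestronglyMeasurable) (fun x => ?_)
      fun R => ?_
    · unfold FF
      simp only [Matrix.det_apply', Matrix.add_apply, Matrix.smul_apply, smul_eq_mul]
      fun_prop
    · obtain ⟨K, hK⟩ := h.FF_le L R
      exact ⟨_, integrable_gauss.const_mul K, hK⟩
  have hK : 0 ≤ (Fintype.card ι : ℝ) * C := by have := h.pos; positivity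
  have hfr : ∃ᶠ z in 𝓝[≠] (0 : ℂ), (fun z => ∫ x, FF Ψ M L z x) z = (fun _ => ∫ y, GG L y) z := by
    have hlim : Tendsto (fun l : ℝ => (l : ℂ)) (𝓝[>] 0) (𝓝[≠] 0) := by
      refine tendsto_nhdsWithin_iff.2 ⟨?_, ?_⟩
      · simpa using (Complex.continuous_ofReal.tendsto 0).mono_left nhdsWithin_le_nhds
      · filter_upwards [self_mem_nhdsWithin] with l hl
        exact Complex.ofReal_ne_zero.2 (ne_of_gt hl)
    refine hlim.frequently (Eventually.frequently ?_)
    have hp : 0 < 1 / (2 * (Fintype.card ι * C + 1)) := by positivity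
    filter_upwards [Ioo_mem_nhdsGT hp] with l hl
    simp only [FF_real]
    refine h.small hl.1.le ?_ _
    have := (lt_div_iff₀ (by positivity)).1 hl.2
    nlinarith [hl.1]
  have := congrFun ((hd.differentiableOn.analyticOnNhd isOpen_univ).eq_of_frequently_eq
    analyticOnNhd_const hfr) ((1 : ℝ) : ℂ)
  simpa only [FF_real, one_smul] using this

end Dat

/-- `Y = id + bounded`, with bounded Jacobian `D` -/
structure Prp (Y : (ι → ℝ) → ι → ℝ) (D : (ι → ℝ) → Matrix ι ι ℝ) : Prop where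
  der : ∀ x, HasJac Y (D x) x
  bd : ∃ C, ∀ x i, |Y x i - x i| ≤ C
  bdD : ∃ C, ∀ x i j, |D x i j| ≤ C

namespace Prp

variable {Y : (ι → ℝ) → ι → ℝ} {D : (ι → ℝ) → Matrix ι ι ℝ}

lemma dat (h : Prp Y D) : ∃ C, Dat (fun x => Y x - x) (fun x => D x - 1) C := by
  obtain ⟨C1, h1⟩ := h.bd
  obtain ⟨C2, h2⟩ := h.bdD
  refine ⟨|C1| + |C2| + 1, fun x => (h.der x).sub hasJac_id, fun x i => ?_, fun x i j => ?_,
    by positivity⟩
  · have := h1 x i
    have := le_abs_self C1
    have := abs_nonneg C2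
    simp only [Pi.sub_apply]
    linarith
  · have := h2 x i j
    have := le_abs_self C2
    have := abs_nonneg C1
    have h3 : |(1 : Matrix ι ι ℝ) i j| ≤ 1 := by rw [Matrix.one_apply]; split_ifs <;> simp
    have := abs_sub (D x i j) ((1 : Matrix ι ι ℝ) i j)
    simp only [Matrix.sub_apply]
    linarith

lemma cont (h : Prp Y D) : Continuous Y :=
  continuous_iff_continuousAt.2 fun x => (h.der x).continuousAt

lemma meas (h : Prp Y D) : Measurable Y := h.cont.measurable

lemma meas_det (h : Prp Y D) : Measurable fun x => (D x).det :=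
  measurable_det (measurable_jac h.der)

lemma meas_neg (h : Prp Y D) : Measurable fun x => -(D x).det := h.meas_det.neg

lemma test (h : Prp Y D) (L : (ι → ℝ) →L[ℝ] ℝ) :
    Integrable (fun x => (((D x).det : ℝ) : ℂ) * Dat.GG L (Y x)) ∧
    ∫ x, (((D x).det : ℝ) : ℂ) * Dat.GG L (Y x) = ∫ y, Dat.GG L y := by
  obtain ⟨C, hC⟩ := h.dat
  have h1 := hC.integrable_FF L ((1 : ℝ) : ℂ)
  have h2 := hC.test L
  have e : Dat.FF (fun x => Y x - x) (fun x => D x - 1) L ((1 : ℝ) : ℂ) =
      fun x => (((D x).det : ℝ) : ℂ) * Dat.GG L (Y x) := by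
    funext x
    rw [Dat.FF_real]
    simp
  rw [e] at h1
  exact ⟨h1, by simpa using h2⟩

lemma id_prp : Prp (fun x : ι → ℝ => x) fun _ => 1 :=
  ⟨fun _ => hasJac_id, ⟨0, by simp⟩, 1, fun _ i j => by
    rw [Matrix.one_apply]; split_ifs <;> simp⟩

/-- the Gaussian weight -/
def gam (y : ι → ℝ) : ℝ := Real.exp (-∑ j, y j ^ 2)

lemma cont_gam : Continuous (gam : (ι → ℝ) → ℝ) := by unfold gam; fun_prop

/-- push-forward of `d⁺(x) γ(Y x) dx` -/
def mu (Y : (ι → ℝ) → ι → ℝ) (d : (ι → ℝ) → ℝ) : Measure (ι → ℝ) :=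
  (volume.withDensity fun x => ENNReal.ofReal (d x * gam (Y x))).map Y

lemma mu_fin {d : (ι → ℝ) → ℝ} (hi : Integrable fun x => d x * gam (Y x)) :
    IsFiniteMeasure (mu Y d) := by
  have := isFiniteMeasure_withDensity_ofReal hi.hasFiniteIntegral
  unfold mu
  infer_instance

lemma char_mu (hY : Measurable Y) {d : (ι → ℝ) → ℝ} (hd : Measurable d)
    (L : (ι → ℝ) →L[ℝ] ℝ) :
    charFunDual (mu Y d) L = ∫ x, ((max (d x) 0 : ℝ) : ℂ) * Dat.GG L (Y x) := by
  have hm : Measurable fun x => d x * gam (Y x) := hd.mul (cont_gam.measurable.comp hY)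
  rw [charFunDual_apply, mu, integral_map hY.aemeasurable
    (Continuous.aestronglyMeasurable (by fun_prop)),
    integral_withDensity_eq_integral_toReal_smul hm.ennreal_ofReal
      (Eventually.of_forall fun _ => ENNReal.ofReal_lt_top)]
  refine integral_congr_ae (Eventually.of_forall fun x => ?_)
  have hg : 0 ≤ gam (Y x) := Real.exp_nonneg _
  have e : (ENNReal.ofReal (d x * gam (Y x))).toReal = max (d x) 0 * gam (Y x) := by
    rw [ENNReal.toReal_ofReal', max_mul_of_nonneg _ _ hg, zero_mul]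
  simp only [e, Complex.real_smul]
  unfold Dat.GG gam
  rw [Complex.ofReal_mul, mul_assoc]

lemma lint_mu (hY : Measurable Y) {d : (ι → ℝ) → ℝ} (hd : Measurable d)
    {f : (ι → ℝ) → ℝ≥0∞} (hf : Measurable f) :
    ∫⁻ y, ENNReal.ofReal (gam y)⁻¹ * f y ∂(mu Y d) = ∫⁻ x, ENNReal.ofReal (d x) * f (Y x) := by
  have hm : Measurable fun x => d x * gam (Y x) := hd.mul (cont_gam.measurable.comp hY)
  have hf' : Measurable fun y => ENNReal.ofReal (gam y)⁻¹ * f y :=
    cont_gam.measurable.inv.ennreal_ofReal.mul hf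
  rw [mu, lintegral_map hf' hY, lintegral_withDensity_eq_lintegral_mul _ hm.ennreal_ofReal
    (g := fun a => ENNReal.ofReal (gam (Y a))⁻¹ * f (Y a)) (hf'.comp hY)]
  refine lintegral_congr fun x => ?_
  have hg : 0 < gam (Y x) := Real.exp_pos _
  simp only [Pi.mul_apply]
  rw [← mul_assoc, ← ENNReal.ofReal_mul' (inv_nonneg.2 hg.le), mul_assoc,
    mul_inv_cancel₀ hg.ne', mul_one]

lemma norm_GG (L : (ι → ℝ) →L[ℝ] ℝ) (y : ι → ℝ) : ‖Dat.GG L y‖ = gam y := by
  rw [Dat.GG, norm_mul, Complex.norm_exp_ofReal_mul_I, mul_one, Complex.norm_real,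
    Real.norm_of_nonneg (Real.exp_nonneg _), gam]

lemma int_gam (h : Prp Y D) : Integrable fun x => (D x).det * gam (Y x) := by
  refine (h.test 0).1.norm.mono' (h.meas_det.mul
    (cont_gam.measurable.comp h.meas)).aestronglyMeasurable (Eventually.of_forall fun x => ?_)
  have hg : 0 ≤ gam (Y x) := Real.exp_nonneg _
  rw [norm_mul, norm_mul, norm_GG, Complex.norm_real, Real.norm_of_nonneg hg]

lemma int_max (h : Prp Y D) (L : (ι → ℝ) →L[ℝ] ℝ) {d : (ι → ℝ) → ℝ} (hd : Measurable d)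
    (hle : ∀ x, |d x| ≤ |(D x).det|) : Integrable fun x => ((d x : ℝ) : ℂ) * Dat.GG L (Y x) := by
  have hG : Continuous (Dat.GG L) := by unfold Dat.GG; fun_prop
  refine (h.test L).1.norm.mono' ((Complex.measurable_ofReal.comp hd).mul
    (hG.measurable.comp h.meas)).aestronglyMeasurable (Eventually.of_forall fun x => ?_)
  rw [norm_mul, norm_mul, Complex.norm_real, Complex.norm_real]
  exact mul_le_mul_of_nonneg_right (hle x) (norm_nonneg _)

lemma mu_eq (h : Prp Y D) :
    mu Y (fun x => (D x).det) = mu (fun x => x) (fun _ => 1) + mu Y fun x => -(D x).det := by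
  have := mu_fin h.int_gam
  have : IsFiniteMeasure (mu Y fun x => -(D x).det) :=
    mu_fin (h.int_gam.neg.congr (Eventually.of_forall fun x => (neg_mul _ _).symm))
  have : IsFiniteMeasure (mu (fun x : ι → ℝ => x) fun _ => 1) :=
    mu_fin (by simpa only [det_one] using (id_prp (ι := ι)).int_gam)
  refine Measure.ext_of_charFunDual (funext fun L => ?_)
  have ha : charFunDual (mu (fun x => x) (fun _ => 1) + mu Y fun x => -(D x).det) L =
      charFunDual (mu (fun x : ι → ℝ => x) (fun _ => 1)) L +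
        charFunDual (mu Y fun x => -(D x).det) L := by
    have hi : ∀ (ν : Measure (ι → ℝ)) [IsFiniteMeasure ν],
        Integrable (fun v => Complex.exp (L v * Complex.I)) ν := fun ν _ =>
      (integrable_const (1 : ℝ)).mono' (Continuous.aestronglyMeasurable (by fun_prop))
        (Eventually.of_forall fun v => (Complex.norm_exp_ofReal_mul_I _).le)
    simp only [charFunDual_apply]
    exact integral_add_measure (hi _) (hi _)
  have i1 := h.int_max L (h.meas_det.max measurable_const) (d := fun x => max (D x).det 0)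
    fun x => by rw [abs_of_nonneg (le_max_right _ _)]; exact max_le (le_abs_self _) (abs_nonneg _)
  have i2 := h.int_max L (h.meas_det.neg.max measurable_const) (d := fun x => max (-(D x).det) 0)
    fun x => by rw [abs_of_nonneg (le_max_right _ _)]; exact max_le (neg_le_abs _) (abs_nonneg _)
  rw [ha, char_mu h.meas h.meas_det, char_mu h.meas h.meas_neg,
    char_mu measurable_id' measurable_const, ← sub_eq_iff_eq_add, ← integral_sub i1 i2]
  simp only [zero_le_one, sup_of_le_left, Complex.ofReal_one, one_mul]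
  rw [← (h.test L).2]
  refine integral_congr_ae (Eventually.of_forall fun x => ?_)
  have e : (D x).det = max (D x).det 0 - max (-(D x).det) 0 := (max_zero_sub_max_neg_zero_eq_self _).symm
  simp only
  conv_rhs => rw [e]
  push_cast
  ring

/-- **(DEG)** the signed area formula -/
theorem deg (h : Prp Y D) {f : (ι → ℝ) → ℝ≥0∞} (hf : Measurable f) :
    ∫⁻ x, ENNReal.ofReal (D x).det * f (Y x) =
      (∫⁻ y, f y) + ∫⁻ x, ENNReal.ofReal (-(D x).det) * f (Y x) := by
  rw [← lint_mu h.meas h.meas_det hf, ← lint_mu h.meas h.meas_neg hf, h.mu_eq,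
    lintegral_add_measure, lint_mu measurable_id' measurable_const hf]
  simp

/-- `KR = P + 2 KR(det < 0)` -/
theorem kr_eq (h : Prp Y D) {f : (ι → ℝ) → ℝ≥0∞} (hf : Measurable f) :
    ∫⁻ x, ENNReal.ofReal |(D x).det| * f (Y x) =
      (∫⁻ y, f y) + 2 * ∫⁻ x, ENNReal.ofReal (-(D x).det) * f (Y x) := by
  have e : ∀ x, ENNReal.ofReal |(D x).det| * f (Y x) =
      ENNReal.ofReal (D x).det * f (Y x) + ENNReal.ofReal (-(D x).det) * f (Y x) := fun x => by
    rw [← add_mul]
    congr 1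
    rcases le_total 0 (D x).det with h0 | h0
    · rw [abs_of_nonneg h0, ENNReal.ofReal_of_nonpos (neg_nonpos.2 h0), add_zero]
    · rw [abs_of_nonpos h0, ENNReal.ofReal_of_nonpos h0, zero_add]
  simp only [e]
  have hm : Measurable fun x => ENNReal.ofReal (D x).det * f (Y x) :=
    h.meas_det.ennreal_ofReal.mul (hf.comp h.meas)
  rw [lintegral_add_left hm, h.deg hf, two_mul, add_assoc]

/-- `P ≤ KR` -/
theorem le_kr (h : Prp Y D) {f : (ι → ℝ) → ℝ≥0∞} (hf : Measurable f) :
    ∫⁻ y, f y ≤ ∫⁻ x, ENNReal.ofReal |(D x).det| * f (Y x) := by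
  rw [h.kr_eq hf]
  exact le_self_add (α := ℝ≥0∞)


/-- `KR ≤ P + 2 KR(S)` for every set `S` containing the points of negative Jacobian -/
theorem kr_le (h : Prp Y D) {f : (ι → ℝ) → ℝ≥0∞} (hf : Measurable f) {S : Set (ι → ℝ)}
    (hS : ∀ x, (D x).det < 0 → x ∈ S) :
    ∫⁻ x, ENNReal.ofReal |(D x).det| * f (Y x) ≤
      (∫⁻ y, f y) + 2 * ∫⁻ x, S.indicator (fun x => ENNReal.ofReal |(D x).det| * f (Y x)) x := by
  rw [h.kr_eq hf]
  gcongr with x
  rcases lt_or_ge (D x).det 0 with h0 | h0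
  · rw [indicator_of_mem (hS x h0), abs_of_neg h0]
  · rw [ENNReal.ofReal_of_nonpos (neg_nonpos.2 h0), zero_mul]
    exact zero_le

end Prp

section tap
open Crest.Agent.T157.Tap Crest.Agent.T157.Tap.Cell

variable {n : ℕ}

/-- the Jacobian of the TAP map -/
def DY (J : Mx n) (b : ℝ) (x : V n) : Mx n := 1 - B1 J b (th x) * diagonal (DD (th x))

lemma det_DY (J : Mx n) (b : ℝ) (x : V n) :
    (DY J b x).det = (NN (B1 J b (th x)) (dd (th x))).det := det_jac _ (abs_th_le x)

lemma bdd_of_cube {X : Type*} [Finite X] {f : V n → X → ℝ} (hf : ∀ a, Continuous fun p => f p a) :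
    ∃ C, ∀ x a, |f (th x) a| ≤ C := by
  have h1 : ∀ a, ∃ C, ∀ x, |f (th x) a| ≤ C := fun a => by
    obtain ⟨C, hC⟩ := (isCompact_closedBall (0 : V n) 1).exists_bound_of_continuousOn
      (hf a).continuousOn
    exact ⟨C, fun x => hC _ (mem_closedBall_zero_iff.2
      ((pi_norm_le_iff_of_nonneg zero_le_one).2 (abs_th_le x)))⟩
  choose C hC using h1
  obtain ⟨K, hK⟩ := (Set.finite_range C).bddAbove
  exact ⟨K, fun x a => (hC a x).trans (hK ⟨a, rfl⟩)⟩

/-- the TAP map is a bounded perturbation of the identity: (DEG) applies, for every `J`, `b` -/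
theorem prp_Ymap (J : Mx n) (b : ℝ) : Prp (Ymap J b) (DY J b) := by
  refine ⟨hasJac_Ymap J b, ?_, ?_⟩
  · obtain ⟨C, hC⟩ := bdd_of_cube (f := fun p i => (-(J *ᵥ p) + (b * avg (DD p)) • p) i)
      fun i => by fun_prop
    refine ⟨C, fun x i => ?_⟩
    convert hC x i using 2
    simp only [Ymap, Pi.add_apply, Pi.sub_apply, Pi.neg_apply]
    ring
  · obtain ⟨C, hC⟩ := bdd_of_cube
      (f := fun p (a : Fin n × Fin n) => (1 - B1 J b p * diagonal (DD p)) a.1 a.2)
      fun a => by fun_prop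
    exact ⟨C, fun x i j => hC x (i, j)⟩

end tap

end Crest.Agent.T157.Deg
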