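import Crest.Agent.R089.GUE4
import Crest.Agent.T157.CondA_53
import Crest.Agent.T157.KrM_53
import Crest.Agent.T157.ConcG_16

-- ▼ part T157/DqA_9
section

/-!
# Row 157, part A (helper9): the second moment of `det (M - W)`, algebra

* `der_det`, `der2_det` : first and second derivative of a determinant along a derivation;
* `lap_eq` : the two Laplacians of `det (A² + ρ)` agree;
* `mean_value` : Gaussian form of Asgeirsson's mean value theorem for polynomials.
-/

set_option autoImplicit false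

noncomputable section

namespace Crest.Agent.T157.Dq

open Matrix Finset

section der

variable {R : Type*} [CommRing R] [Algebra ℂ R] {ι : Type*} [Fintype ι] [DecidableEq ι]

/-- entrywise derivative -/
def dm (D : Derivation ℂ R R) (B : Matrix ι ι R) : Matrix ι ι R := Matrix.of fun i j => D (B i j)

lemma der_prod (D : Derivation ℂ R R) {κ : Type*} [DecidableEq κ] (s : Finset κ) (f : κ → R) :
    D (∏ i ∈ s, f i) = ∑ i ∈ s, (∏ j ∈ s.erase i, f j) * D (f i) := by
  induction s using Finset.induction_on with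
  | empty => simp
  | insert a s ha ih =>
    rw [prod_insert ha, sum_insert ha, Derivation.leibniz, ih, erase_insert ha, smul_eq_mul,
      smul_eq_mul, add_comm, mul_sum]
    congr 1
    refine sum_congr rfl fun i hi => ?_
    have hai : a ≠ i := fun h => ha (h ▸ hi)
    rw [erase_insert_of_ne hai, prod_insert (fun h => ha (mem_of_mem_erase h)), mul_assoc]

lemma der_det (D : Derivation ℂ R R) (B : Matrix ι ι R) :
    D B.det = (B.adjugate * dm D B).trace := by
  have h1 : (B.adjugate * dm D B).trace = ∑ i, (B.updateCol i fun k => D (B k i)).det := by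
    refine sum_congr rfl fun i _ => ?_
    rw [← cramer_apply, cramer_eq_adjugate_mulVec]
    rfl
  rw [h1]
  simp only [det_apply', map_sum]
  rw [sum_comm]
  refine sum_congr rfl fun σ _ => ?_
  rw [Derivation.leibniz, der_prod, Derivation.map_intCast, smul_zero, add_zero, smul_eq_mul,
    mul_sum]
  refine sum_congr rfl fun i _ => ?_
  congr 1
  rw [← mul_prod_erase _ _ (mem_univ i), updateCol_self, mul_comm]
  congr 1
  refine prod_congr rfl fun j hj => ?_
  rw [updateCol_ne (mem_erase.1 hj).1]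

omit [DecidableEq ι] in
lemma dm_mul (D : Derivation ℂ R R) (A B : Matrix ι ι R) :
    dm D (A * B) = dm D A * B + A * dm D B := by
  ext i j
  simp only [dm, of_apply, mul_apply, map_sum, Derivation.leibniz, smul_eq_mul, Matrix.add_apply,
    ← sum_add_distrib]
  exact sum_congr rfl fun k _ => by ring

omit [Fintype ι] [DecidableEq ι] in
lemma dm_add (D : Derivation ℂ R R) (A B : Matrix ι ι R) : dm D (A + B) = dm D A + dm D B := by
  ext i j; simp [dm]

omit [Fintype ι] in
lemma dm_smul_one (D : Derivation ℂ R R) (r : R) :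
    dm D (r • (1 : Matrix ι ι R)) = D r • (1 : Matrix ι ι R) := by
  ext i j
  by_cases h : i = j <;> simp [dm, one_apply, h]

omit [DecidableEq ι] in
lemma der_trace (D : Derivation ℂ R R) (A : Matrix ι ι R) : D A.trace = (dm D A).trace := by
  simp [trace, dm]

lemma der2_det (D : Derivation ℂ R R) (B : Matrix ι ι R) :
    B.det * D (D B.det) = (B.adjugate * dm D B).trace ^ 2 -
      (B.adjugate * dm D B * (B.adjugate * dm D B)).trace +
      B.det * (B.adjugate * dm D (dm D B)).trace := by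
  have h1 : dm D B.adjugate * B + B.adjugate * dm D B = D B.det • (1 : Matrix ι ι R) := by
    rw [← dm_mul, adjugate_mul, dm_smul_one]
  have h2 : B.det • dm D B.adjugate =
      D B.det • B.adjugate - B.adjugate * dm D B * B.adjugate := by
    have := congrArg (· * B.adjugate) h1
    simp only [add_mul, Matrix.mul_assoc, mul_adjugate, Matrix.mul_smul, Matrix.mul_one,
      Matrix.smul_mul, Matrix.one_mul] at this
    rw [← this, Matrix.mul_assoc]; abel
  have h3 : D (D B.det) =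
      (dm D B.adjugate * dm D B).trace + (B.adjugate * dm D (dm D B)).trace := by
    conv_lhs => rw [der_det D B, der_trace, dm_mul, trace_add]
  rw [h3, mul_add, ← smul_eq_mul B.det (trace _), ← trace_smul, ← Matrix.smul_mul, h2,
    Matrix.sub_mul, trace_sub, Matrix.smul_mul, trace_smul, der_det, smul_eq_mul, sq]
  simp only [Matrix.mul_assoc]

/-- the quantity `det · D² det` for `B = A² + ρ` in terms of `J = adj B`, `δ = det B` -/
def FF (J A E : Matrix ι ι R) (δ r1 r2 : R) : R :=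
  (J * (E * A + A * E + r1 • (1 : Matrix ι ι R))).trace ^ 2 -
    (J * (E * A + A * E + r1 • (1 : Matrix ι ι R)) *
      (J * (E * A + A * E + r1 • (1 : Matrix ι ι R)))).trace +
    δ * (J * (E * E + E * E + r2 • (1 : Matrix ι ι R))).trace

/-- `A² + ρ` -/
def BB (A : Matrix ι ι R) (ρ : R) : Matrix ι ι R := A * A + ρ • (1 : Matrix ι ι R)

lemma der2_BB (D : Derivation ℂ R R) {A E : Matrix ι ι R} {ρ r1 r2 : R} (hA : dm D A = E)
    (hE : dm D E = 0) (h1 : D ρ = r1) (h2 : D r1 = r2) :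
    (BB A ρ).det * D (D (BB A ρ).det) = FF (BB A ρ).adjugate A E (BB A ρ).det r1 r2 := by
  have e1 : dm D (BB A ρ) = E * A + A * E + r1 • (1 : Matrix ι ι R) := by
    rw [BB, dm_add, dm_mul, dm_smul_one, hA, h1]
  have e2 : dm D (dm D (BB A ρ)) = E * E + E * E + r2 • (1 : Matrix ι ι R) := by
    rw [e1, dm_add, dm_add, dm_mul, dm_mul, dm_smul_one, hA, hE, h2]
    simp
  rw [der2_det, e2, e1, FF]

/-- the GOE direction of the coordinate `p` -/
def UU (R : Type*) [CommRing R] (p : ι × ι) : Matrix ι ι R :=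
  single p.1 p.2 1 + single p.2 p.1 1

omit [Algebra ℂ R] in
lemma trace_mul_UU (X : Matrix ι ι R) (p : ι × ι) :
    (X * UU R p).trace = X p.2 p.1 + X p.1 p.2 := by
  rw [UU, Matrix.mul_add, trace_add, trace_mul_single, trace_mul_single]
  simp

omit [Algebra ℂ R] in
lemma trace_single_single (X Y : Matrix ι ι R) (i j k l : ι) :
    (X * single i j 1 * (Y * single k l (1 : R))).trace = X l i * Y j k := by
  rw [← Matrix.mul_assoc, trace_mul_single, Matrix.mul_assoc, mul_apply]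
  rw [sum_eq_single i]
  · simp
  · intro b _ hb
    simp [hb]
  · simp

omit [Algebra ℂ R] in
lemma sum_tr_tr (X : Matrix ι ι R) (hX : Xᵀ = X) :
    ∑ p : ι × ι, (X * UU R p).trace ^ 2 = 4 * (X * X).trace := by
  have hs : ∀ i j, X j i = X i j := fun i j => by rw [← transpose_apply X i j, hX]
  simp only [trace_mul_UU]
  simp only [Fintype.sum_prod_type, trace, diag_apply, mul_apply, mul_sum]
  refine sum_congr rfl fun i _ => sum_congr rfl fun j _ => ?_
  rw [hs i j]; ring

omit [Algebra ℂ R] in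
lemma sum_tr_sand (X Y : Matrix ι ι R) (hY : Yᵀ = Y) :
    ∑ p : ι × ι, (X * UU R p * (Y * UU R p)).trace =
      2 * (X * Y).trace + 2 * (X.trace * Y.trace) := by
  have hs : ∀ i j, Y j i = Y i j := fun i j => by rw [← transpose_apply Y i j, hY]
  have e : ∀ p : ι × ι, (X * UU R p * (Y * UU R p)).trace =
      X p.2 p.1 * Y p.1 p.2 + X p.1 p.2 * Y p.2 p.1 + X p.1 p.1 * Y p.2 p.2 +
        X p.2 p.2 * Y p.1 p.1 := fun p => by
    simp only [UU, Matrix.mul_add, Matrix.add_mul, trace_add, trace_single_single]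
    rw [hs p.1 p.2]; ring
  simp only [e, sum_add_distrib, Fintype.sum_prod_type]
  have a1 : ∑ i, ∑ j, X j i * Y i j = (X * Y).trace := by
    rw [sum_comm]; simp [trace, mul_apply]
  have a2 : ∑ i, ∑ j, X i j * Y j i = (X * Y).trace := by simp [trace, mul_apply]
  have a3 : ∑ i, ∑ j, X i i * Y j j = X.trace * Y.trace := by
    simp [trace, sum_mul_sum]
  have a4 : ∑ i, ∑ j, X j j * Y i i = X.trace * Y.trace := by
    rw [sum_comm]; exact a3
  rw [a1, a2, a3, a4]; ring

omit [Algebra ℂ R] in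
/-- the algebraic identity behind the duality -/
lemma FF_sum {J A : Matrix ι ι R} {δ ρ k I : R} {w : Fin 5 → R} (hJ : Jᵀ = J) (hA : Aᵀ = A)
    (hc : J * A = A * J) (hB : J * (A * A) = δ • (1 : Matrix ι ι R) - ρ • J)
    (hI : I * I = -1) (hw : ∑ a, w a ^ 2 = ρ) :
    ∑ p : ι × ι, FF J A ((-k) • UU R p) δ 0 0 =
      FF J A ((I * k) • (1 : Matrix ι ι R)) δ 0 0 + ∑ a, FF J A 0 δ (2 * k * w a) (2 * k ^ 2) := by
  set P := J * A with hP
  have hPs : Pᵀ = P := by rw [hP, transpose_mul, hJ, hA, ← hc]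
  have hAJA : A * J * A = δ • (1 : Matrix ι ι R) - ρ • J := by
    rw [← hc, hP, Matrix.mul_assoc, hB]
  have hPP : (P * P).trace = δ * J.trace - ρ * (J * J).trace := by
    have : P * P = J * (A * J * A) := by simp only [hP, Matrix.mul_assoc]
    rw [this, hAJA, Matrix.mul_sub, trace_sub]
    simp
  have e1 : ∀ p : ι × ι, FF J A ((-k) • UU R p) δ 0 0 =
      k ^ 2 * (4 * (P * UU R p).trace ^ 2 - 2 * (P * UU R p * (P * UU R p)).trace -
        2 * (A * J * A * UU R p * (J * UU R p)).trace +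
        2 * δ * (J * UU R p * (1 * UU R p)).trace) := fun p => by
    set U := UU R p
    have t1 : (J * (U * A)).trace = (P * U).trace := by
      rw [← Matrix.mul_assoc, trace_mul_comm, ← Matrix.mul_assoc, ← hc]
    have t2 : (J * (A * U)).trace = (P * U).trace := by rw [← Matrix.mul_assoc]
    have t3 : (J * (U * (A * (J * (U * A))))).trace = (P * U * (P * U)).trace := by
      have : J * (U * (A * (J * (U * A)))) = J * U * (A * J) * U * A := by
        simp only [Matrix.mul_assoc]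
      rw [this, trace_mul_comm, ← hc]
      simp only [← Matrix.mul_assoc]
      rw [← hc]
    have t4 : (J * (A * (U * (J * (A * U))))).trace = (P * U * (P * U)).trace := by
      simp only [hP, Matrix.mul_assoc]
    have t5 : (J * (U * (A * (J * (A * U))))).trace = (A * J * A * U * (J * U)).trace := by
      have : J * (U * (A * (J * (A * U)))) = (J * U) * (A * J * A * U) := by
        simp only [Matrix.mul_assoc]
      rw [this, trace_mul_comm]
    have t6 : (J * (A * (U * (J * (U * A))))).trace = (A * J * A * U * (J * U)).trace := by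
      have : J * (A * (U * (J * (U * A)))) = (J * A * U * (J * U)) * A := by
        simp only [Matrix.mul_assoc]
      rw [this, trace_mul_comm]
      simp only [Matrix.mul_assoc]
    simp only [FF, zero_smul, add_zero, Matrix.smul_mul, Matrix.mul_smul, Matrix.mul_add,
      Matrix.add_mul, trace_add, trace_smul, smul_eq_mul, Matrix.mul_assoc, Matrix.one_mul]
    rw [t1, t2, t3, t4, t5, t6]
    simp only [Matrix.mul_assoc]
    ring
  have e2 : FF J A ((I * k) • (1 : Matrix ι ι R)) δ 0 0 =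
      -k ^ 2 * (4 * P.trace ^ 2 - 4 * (P * P).trace + 2 * δ * J.trace) := by
    simp only [FF, zero_smul, add_zero, Matrix.smul_mul, Matrix.mul_smul, Matrix.mul_add,
      Matrix.add_mul, trace_add, trace_smul, smul_eq_mul, Matrix.one_mul, Matrix.mul_one, ← hP]
    linear_combination (k ^ 2 * (4 * P.trace ^ 2 - 4 * (P * P).trace + 2 * δ * J.trace)) * hI
  have e3 : ∀ a, FF J A 0 δ (2 * k * w a) (2 * k ^ 2) =
      4 * k ^ 2 * (J.trace ^ 2 - (J * J).trace) * w a ^ 2 + 2 * k ^ 2 * δ * J.trace := fun a => by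
    simp only [FF, Matrix.zero_mul, Matrix.mul_zero, zero_add, add_zero, Matrix.smul_mul,
      Matrix.mul_smul, trace_smul, smul_eq_mul, Matrix.mul_one]
    ring
  simp only [e1, e2, e3]
  rw [← mul_sum, sum_add_distrib, sum_sub_distrib, sum_sub_distrib, ← mul_sum, ← mul_sum,
    ← mul_sum, ← mul_sum, sum_tr_tr P hPs, sum_tr_sand P P hPs, sum_tr_sand _ J hJ,
    sum_tr_sand J 1 transpose_one, sum_add_distrib, ← mul_sum, hw, hAJA, Matrix.sub_mul, trace_sub,
    trace_sub, hPP]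
  simp only [Matrix.smul_mul, Matrix.one_mul, Matrix.mul_one, trace_smul, smul_eq_mul, trace_one,
    sum_const, card_univ, Fintype.card_fin, nsmul_eq_mul]
  push_cast
  ring

/-- **the two Laplacians of `det (A² + ρ)` agree** -/
theorem lap_eq [IsDomain R] {A : Matrix ι ι R} {ρ k I : R} {w : Fin 5 → R}
    (D1 : ι × ι → Derivation ℂ R R) (D0 : Derivation ℂ R R) (D2 : Fin 5 → Derivation ℂ R R)
    (hA : Aᵀ = A) (hδ : (BB A ρ).det ≠ 0) (hI : I * I = -1) (hw : ∑ a, w a ^ 2 = ρ)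
    (h1 : ∀ p, dm (D1 p) A = (-k) • UU R p ∧ dm (D1 p) ((-k) • UU R p) = 0 ∧ D1 p ρ = 0)
    (h0 : dm D0 A = (I * k) • (1 : Matrix ι ι R) ∧ D0 (I * k) = 0 ∧ D0 ρ = 0)
    (h2 : ∀ a, dm (D2 a) A = 0 ∧ D2 a ρ = 2 * k * w a ∧ D2 a (2 * k * w a) = 2 * k ^ 2) :
    ∑ p, D1 p (D1 p (BB A ρ).det) = D0 (D0 (BB A ρ).det) + ∑ a, D2 a (D2 a (BB A ρ).det) := by
  set B := BB A ρ with hB
  have hBs : Bᵀ = B := by simp [hB, BB, transpose_mul, hA]
  have hJ : B.adjugateᵀ = B.adjugate := by rw [adjugate_transpose, hBs]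
  have hAB : A * B = B * A := by
    simp [hB, BB, Matrix.mul_add, Matrix.add_mul, Matrix.mul_assoc]
  have hc : B.adjugate * A = A * B.adjugate := by
    have e1 : B.adjugate * (A * B) * B.adjugate = B.det • (B.adjugate * A) := by
      rw [Matrix.mul_assoc, Matrix.mul_assoc, mul_adjugate]; simp
    have e2 : B.adjugate * (B * A) * B.adjugate = B.det • (A * B.adjugate) := by
      rw [← Matrix.mul_assoc, adjugate_mul]; simp
    rw [hAB, e2] at e1
    ext i j
    have : (B.det • (A * B.adjugate)) i j = (B.det • (B.adjugate * A)) i j := by rw [e1]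
    simp only [Matrix.smul_apply, smul_eq_mul] at this
    exact (mul_left_cancel₀ hδ this).symm
  have hq : B.adjugate * (A * A) = B.det • (1 : Matrix ι ι R) - ρ • B.adjugate := by
    rw [← adjugate_mul B]
    conv_rhs => enter [1, 2]; rw [hB, BB]
    simp [Matrix.mul_add]
  refine mul_left_cancel₀ hδ ?_
  rw [mul_add, mul_sum, mul_sum]
  have z : ∀ D : Derivation ℂ R R, dm D (0 : Matrix ι ι R) = 0 := fun D => by
    ext i j; simp [dm]
  rw [sum_congr rfl fun p _ => der2_BB (D1 p) (h1 p).1 (h1 p).2.1 (h1 p).2.2 (map_zero _),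
    der2_BB D0 h0.1 (by rw [dm_smul_one, h0.2.1, zero_smul]) h0.2.2 (map_zero _),
    sum_congr rfl fun a _ => der2_BB (D2 a) (h2 a).1 (z _) (h2 a).2.1 (h2 a).2.2]
  exact FF_sum hJ hA hc hq hI hw

end der

section mean

open MvPolynomial

variable {σ : Type*} [Fintype σ] [DecidableEq σ]

/-- partial Laplacian -/
def lap (S : Finset σ) (p : MvPolynomial σ ℂ) : MvPolynomial σ ℂ :=
  ∑ i ∈ S, pderiv i (pderiv i p)

omit [Fintype σ] [DecidableEq σ] in
lemma pderiv_hc (i : σ) (n : ℕ) (p : MvPolynomial σ ℂ) :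
    pderiv i (homogeneousComponent (n + 1) p) = homogeneousComponent n (pderiv i p) := by
  ext m
  rw [coeff_pderiv, coeff_homogeneousComponent, coeff_homogeneousComponent, coeff_pderiv]
  simp only [map_add, Finsupp.degree_single, add_left_inj]
  split_ifs <;> simp

omit [Fintype σ] [DecidableEq σ] in
lemma lap_hc (S : Finset σ) (n : ℕ) (p : MvPolynomial σ ℂ) :
    lap S (homogeneousComponent (n + 2) p) = homogeneousComponent n (lap S p) := by
  simp only [lap, map_sum, pderiv_hc]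

omit [Fintype σ] [DecidableEq σ] in
lemma lap_hc_small (S : Finset σ) {n : ℕ} (hn : n < 2) (p : MvPolynomial σ ℂ) :
    lap S (homogeneousComponent n p) = 0 := by
  interval_cases n
  · simp [lap, homogeneousComponent_zero]
  · simp only [lap]
    refine sum_eq_zero fun i _ => ?_
    rw [show (1 : ℕ) = 0 + 1 from rfl, pderiv_hc, homogeneousComponent_zero, pderiv_C]

omit [Fintype σ] [DecidableEq σ] in
lemma lap_lap (S T : Finset σ) (p : MvPolynomial σ ℂ) : lap S (lap T p) = lap T (lap S p) := by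
  classical
  have c : ∀ (i j : σ) (q : MvPolynomial σ ℂ), pderiv i (pderiv j q) = pderiv j (pderiv i q) := by
    intro i j q
    ext m
    simp only [coeff_pderiv]
    rw [add_right_comm]
    by_cases h : i = j
    · subst h; rfl
    · simp [h, Ne.symm h]; ring
  simp only [lap, map_sum]
  rw [sum_comm]
  refine sum_congr rfl fun i _ => sum_congr rfl fun j _ => ?_
  rw [c j i (pderiv i p), c j i p, c j i (pderiv i (pderiv j p)), c j i (pderiv j p)]

/-- a functional of Gaussian type in the variables of `S`, of Dirac type in the others -/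
def IsG (S : Finset σ) (l : MvPolynomial σ ℂ →ₗ[ℂ] ℂ) : Prop :=
  l 1 = 1 ∧ ∀ i p, l (X i * p) = if i ∈ S then l (pderiv i p) else 0

lemma IsG.euler {S : Finset σ} {l : MvPolynomial σ ℂ →ₗ[ℂ] ℂ} (h : IsG S l) {n : ℕ}
    {p : MvPolynomial σ ℂ} (hp : p.IsHomogeneous n) : (n : ℂ) * l p = l (lap S p) := by
  have := congrArg l hp.sum_X_mul_pderiv
  rw [map_sum, map_nsmul, nsmul_eq_mul] at this
  rw [← this, lap, map_sum]
  simp only [h.2]
  rw [sum_ite_mem, univ_inter]

/-- **Asgeirsson's mean value theorem**, Gaussian form -/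
theorem mean_value {S T : Finset σ} {l1 l2 : MvPolynomial σ ℂ →ₗ[ℂ] ℂ} (h1 : IsG S l1)
    (h2 : IsG T l2) {p : MvPolynomial σ ℂ} (hp : lap S p = lap T p) : l1 p = l2 p := by
  have key : ∀ n : ℕ, ∀ q : MvPolynomial σ ℂ, q.IsHomogeneous n → lap S q = lap T q →
      l1 q = l2 q := by
    intro n
    induction n using Nat.strong_induction_on with
    | _ n ih =>
      intro q hq he
      rcases Nat.eq_zero_or_pos n with rfl | hn
      · have : q = (coeff 0 q) • (1 : MvPolynomial σ ℂ) := by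
          rw [← homogeneousComponent_eq_self hq, homogeneousComponent_zero, smul_eq_C_mul, mul_one]
          simp
        rw [this, map_smul, map_smul, h1.1, h2.1]
      · have hl : (lap S q).IsHomogeneous (n - 1 - 1) :=
          IsHomogeneous.sum _ _ _ fun i _ => hq.pderiv.pderiv
        have e := ih _ (by omega) _ hl (by rw [lap_lap T S, he])
        refine mul_left_cancel₀ (a := (n : ℂ)) (by exact_mod_cast hn.ne') ?_
        rw [h1.euler hq, h2.euler hq, e, he]
  rw [← sum_homogeneousComponent p, map_sum, map_sum]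
  refine sum_congr rfl fun n _ => key n _ (homogeneousComponent_isHomogeneous n p) ?_
  rcases lt_or_ge n 2 with h | h
  · rw [lap_hc_small _ h, lap_hc_small _ h]
  · obtain ⟨m, rfl⟩ := Nat.exists_eq_add_of_le' h
    rw [lap_hc, lap_hc, hp]

end mean

end Crest.Agent.T157.Dq

end
end

-- ▼ part T157/DqB_9
section

/-!
# Row 157, part A (helper9): the second moment of `det (M - W)` for the GOE

* `det_dual` : `E det ((M - W)² + ∑ z_a²) = E det ((M + i g₀)² + ∑ (g_a + z_a)²)`,
  `g₀, …, g₅` independent `N(0, s²/2)`, for every complex symmetric `M`;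
* `gexp_shift` : shift of the contour for polynomials;
* `det_sq_le` : `E det (M - W)² ≤ exp(χ²/s²) ∏ (m_i - χ)² (1 - s² ∑ (m_i - χ)⁻²)⁻³` for every `χ`.
-/

set_option autoImplicit false

noncomputable section

namespace Crest.Agent.T157.Dq

open Matrix Finset MeasureTheory ProbabilityTheory MvPolynomial
open Crest.Agent.R089.GUE Crest.Agent.T157.E Crest.Agent.T157.Cond

section sub

variable {α β : Type*}

/-- kill the second group of variables -/
def kl : MvPolynomial (α ⊕ β) ℂ →ₐ[ℂ] MvPolynomial α ℂ := aeval (Sum.elim X fun _ => 0)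

/-- kill the first group of variables -/
def kr : MvPolynomial (α ⊕ β) ℂ →ₐ[ℂ] MvPolynomial β ℂ := aeval (Sum.elim (fun _ => 0) X)

lemma pderiv_kl (a : α) (p : MvPolynomial (α ⊕ β) ℂ) :
    pderiv a (kl p) = kl (pderiv (Sum.inl a) p) := by
  classical
  induction p using MvPolynomial.induction_on with
  | C c => simp [kl]
  | add p q hp hq => simp only [map_add, hp, hq]
  | mul_X p i hp =>
    simp only [map_mul, Derivation.leibniz, smul_eq_mul, map_add, hp]
    rcases i with i | i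
    · by_cases h : i = a
      · subst h; simp [kl]
      · simp [kl, pderiv_X, h]
    · simp [kl, pderiv_X]

lemma pderiv_kr (b : β) (p : MvPolynomial (α ⊕ β) ℂ) :
    pderiv b (kr p) = kr (pderiv (Sum.inr b) p) := by
  classical
  induction p using MvPolynomial.induction_on with
  | C c => simp [kr]
  | add p q hp hq => simp only [map_add, hp, hq]
  | mul_X p i hp =>
    simp only [map_mul, Derivation.leibniz, smul_eq_mul, map_add, hp]
    rcases i with i | i
    · simp [kr, pderiv_X]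
    · by_cases h : i = b
      · subst h; simp [kr]
      · simp [kr, pderiv_X, h]

variable [Fintype α] [Fintype β] [DecidableEq α] [DecidableEq β]

omit [Fintype β] in
lemma isG_kl : IsG (univ.map (Function.Embedding.inl : α ↪ α ⊕ β))
    ((gexp 1).comp (kl : MvPolynomial (α ⊕ β) ℂ →ₐ[ℂ] _).toLinearMap) := by
  refine ⟨by simp [gexp_one], fun i p => ?_⟩
  rcases i with i | i
  · rw [if_pos (by simp)]
    simp only [LinearMap.comp_apply, AlgHom.toLinearMap_apply, map_mul]
    rw [← pderiv_kl, show kl (X (Sum.inl i) : MvPolynomial (α ⊕ β) ℂ) = X i by simp [kl],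
      gexp_ibp one_ne_zero]
    simp
  · rw [if_neg (by simp)]
    simp [kl]

omit [Fintype α] in
lemma isG_kr : IsG (univ.map (Function.Embedding.inr : β ↪ α ⊕ β))
    ((gexp 1).comp (kr : MvPolynomial (α ⊕ β) ℂ →ₐ[ℂ] _).toLinearMap) := by
  refine ⟨by simp [gexp_one], fun i p => ?_⟩
  rcases i with i | i
  · rw [if_neg (by simp)]
    simp [kr]
  · rw [if_pos (by simp)]
    simp only [LinearMap.comp_apply, AlgHom.toLinearMap_apply, map_mul]
    rw [← pderiv_kr, show kr (X (Sum.inr i) : MvPolynomial (α ⊕ β) ℂ) = X i by simp [kr],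
      gexp_ibp one_ne_zero]
    simp

/-- two groups of Gaussian variables with equal Laplacians -/
theorem gexp_kl_kr {p : MvPolynomial (α ⊕ β) ℂ}
    (h : ∑ a, pderiv (Sum.inl a) (pderiv (Sum.inl a) p) =
      ∑ b, pderiv (Sum.inr b) (pderiv (Sum.inr b) p)) : gexp 1 (kl p) = gexp 1 (kr p) :=
  mean_value isG_kl isG_kr (by simpa [lap, sum_map] using h)

end sub

variable {ι : Type*} [Fintype ι] [DecidableEq ι]

lemma map_det_BB {R S : Type*} [CommRing R] [CommRing S] (f : R →+* S) (A : Matrix ι ι R)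
    (ρ : R) : f (BB A ρ).det = (BB (A.map f) (f ρ)).det := by
  rw [RingHom.map_det]
  congr 1
  ext i j
  by_cases h : i = j <;> simp [BB, mul_apply, one_apply, h]

/-- the polynomial ring of the duality -/
abbrev RR (ι : Type*) : Type _ := MvPolynomial ((ι × ι) ⊕ Fin 6) ℂ

/-- the generic matrix `M - W + i g₀` -/
def AX (k : ℂ) (M : Matrix ι ι ℂ) : Matrix ι ι (RR ι) := Matrix.of fun i j =>
  C (M i j) - C k * (X (Sum.inl (i, j)) + X (Sum.inl (j, i))) +
    if i = j then C Complex.I * C k * X (Sum.inr 0) else 0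

/-- the generic vector `g_a + z_a` -/
def wX (ι : Type*) (k : ℂ) (z : Fin 5 → ℂ) (a : Fin 5) : RR ι :=
  C k * X (Sum.inr a.succ) + C (z a)

lemma lap_AX (k : ℂ) {M : Matrix ι ι ℂ} (hM : Mᵀ = M) (z : Fin 5 → ℂ) :
    ∑ p, pderiv (Sum.inl p) (pderiv (Sum.inl p) (BB (AX k M) (∑ a, wX ι k z a ^ 2)).det) =
      ∑ b, pderiv (Sum.inr b) (pderiv (Sum.inr b) (BB (AX k M) (∑ a, wX ι k z a ^ 2)).det) := by
  by_cases hδ : (BB (AX k M) (∑ a, wX ι k z a ^ 2)).det = 0
  · simp [hδ]
  rw [Fin.sum_univ_succ (n := 5)]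
  have hs : ∀ i j, M j i = M i j := fun i j => by rw [← transpose_apply M i j, hM]
  have hw : ∀ a b : Fin 5, pderiv (Sum.inr a.succ) (wX ι k z b) = if b = a then C k else 0 := by
    intro a b
    by_cases h : b = a <;> simp [wX, pderiv_X, h]
  refine lap_eq (k := C k) (I := C Complex.I) (w := wX ι k z) (fun p => pderiv (Sum.inl p))
    (pderiv (Sum.inr 0)) (fun a => pderiv (Sum.inr a.succ)) ?_ hδ ?_ rfl (fun p => ⟨?_, ?_, ?_⟩)
    ⟨?_, ?_, ?_⟩ (fun a => ⟨?_, ?_, ?_⟩)
  · ext1 i j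
    simp only [AX, transpose_apply, of_apply, hs i j, add_comm, eq_comm]
  · rw [← C_mul]; simp
  · ext1 i j
    obtain ⟨a, b⟩ := p
    have e : ∀ i j : ι, pderiv (Sum.inl (a, b)) (X (Sum.inl (i, j)) : RR ι) =
        if a = i ∧ b = j then 1 else 0 := fun i j => by
      simp [pderiv_X, Pi.single_apply, eq_comm]
    simp only [dm, AX, of_apply, map_add, map_sub, pderiv_C, Derivation.leibniz, smul_eq_mul, e,
      UU, Matrix.smul_apply, Matrix.add_apply, single_apply, apply_ite (pderiv (Sum.inl (a, b)))]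
    simp [pderiv_X, and_comm]
  · ext1 i j
    simp only [dm, UU, of_apply, Matrix.smul_apply, Matrix.add_apply, single_apply, smul_eq_mul,
      Matrix.zero_apply]
    split_ifs <;> simp
  · simp [wX, pderiv_X]
  · ext1 i j
    by_cases h : i = j <;> simp [dm, AX, pderiv_X, one_apply, h]
  · simp
  · simp [wX, pderiv_X, Fin.succ_ne_zero]
  · ext1 i j
    by_cases h : i = j <;> simp [dm, AX, pderiv_X, h, (Fin.succ_ne_zero _).symm]
  · simp only [map_sum, sq, Derivation.leibniz, smul_eq_mul, hw]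
    rw [sum_eq_single a (fun b _ hb => by simp [hb]) (by simp)]
    simp only [if_true]; ring
  · simp only [Derivation.leibniz, smul_eq_mul, hw, pderiv_C, if_true]
    rw [show (2 : RR ι) = C 2 from rfl, pderiv_C]
    ring

/-- complexification -/
abbrev cx (W : Matrix ι ι ℝ) : Matrix ι ι ℂ := W.map fun x => (x : ℂ)

/-- the polynomial on the dual side -/
def dualP (k : ℂ) (M : Matrix ι ι ℂ) (z : Fin 5 → ℂ) : MvPolynomial (Fin 6) ℂ :=
  kr (BB (AX k M) (∑ a, wX ι k z a ^ 2)).det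

lemma eval_dualP (k : ℂ) (M : Matrix ι ι ℂ) (z : Fin 5 → ℂ) (y : Fin 6 → ℂ) :
    eval y (dualP k M z) = (BB (M + (Complex.I * k * y 0) • (1 : Matrix ι ι ℂ))
      (∑ a : Fin 5, (k * y a.succ + z a) ^ 2)).det := by
  have := map_det_BB ((eval y).comp (kr : RR ι →ₐ[ℂ] _).toRingHom) (AX k M)
    (∑ a, wX ι k z a ^ 2)
  refine this.trans ?_
  congr 2
  · ext i j
    by_cases h : i = j <;> simp [AX, kr, one_apply, h]
  · simp [wX, kr]

lemma eval_kl (s : ℝ) (M : Matrix ι ι ℂ) (z : Fin 5 → ℂ) (x : ι × ι → ℝ) :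
    eval (fun p => (x p : ℂ))
      (kl (BB (AX ((s / √2 : ℝ) : ℂ) M) (∑ a, wX ι ((s / √2 : ℝ) : ℂ) z a ^ 2)).det) =
      (BB (M - cx (symG s x)) (∑ a, z a ^ 2)).det := by
  have := map_det_BB ((eval fun p => (x p : ℂ)).comp (kl : RR ι →ₐ[ℂ] _).toRingHom)
    (AX ((s / √2 : ℝ) : ℂ) M) (∑ a, wX ι ((s / √2 : ℝ) : ℂ) z a ^ 2)
  refine this.trans ?_
  congr 2
  · ext i j
    by_cases h : i = j <;> simp [AX, kl, symG, h]
  · simp [wX, kl]

lemma integrable_BB (s : ℝ) (M : Matrix ι ι ℂ) (z : Fin 5 → ℂ) :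
    Integrable (fun x => (BB (M - cx (symG s x)) (∑ a, z a ^ 2)).det) (gv (ι × ι)) := by
  simp only [← eval_kl]
  exact integrable_eval 1 _

/-- **the duality formula** -/
theorem det_dual (s : ℝ) {M : Matrix ι ι ℂ} (hM : Mᵀ = M) (z : Fin 5 → ℂ) :
    ∫ x, (BB (M - cx (symG s x)) (∑ a, z a ^ 2)).det ∂gv (ι × ι) =
      gexp 1 (dualP ((s / √2 : ℝ) : ℂ) M z) := by
  simp only [← eval_kl]
  exact gexp_kl_kr (lap_AX _ hM z)

/-! ### shifting the contour -/

lemma stein1C {f f' : ℝ → ℂ} (hf : ∀ x, HasDerivAt f (f' x) x)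
    (h1 : Integrable f (gaussianReal 0 1)) (h2 : Integrable f' (gaussianReal 0 1))
    (h3 : Integrable (fun x : ℝ => (x : ℂ) * f x) (gaussianReal 0 1)) :
    ∫ x, (x : ℂ) * f x ∂gaussianReal 0 1 = ∫ x, f' x ∂gaussianReal 0 1 := by
  have hi : ∀ {g : ℝ → ℂ}, Integrable g (gaussianReal 0 1) →
      Integrable fun x => g x * (gaussianPDFReal 0 1 x : ℂ) := fun {g} hg => by
    rw [gaussianReal_of_var_ne_zero _ one_ne_zero, integrable_withDensity_iff_integrable_smul'
      (measurable_gaussianPDF _ _) (ae_of_all _ fun _ => gaussianPDF_lt_top)] at hg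
    simpa [mul_comm] using hg
  rw [integral_gaussianReal_eq_integral_smul one_ne_zero,
    integral_gaussianReal_eq_integral_smul one_ne_zero]
  have h := integral_mul_deriv_eq_deriv_mul_of_integrable (A := ℂ) (u := f)
    (v := fun x => (gaussianPDFReal 0 1 x : ℂ)) (u' := f')
    (v' := fun x => ((-(x / (1 : NNReal)) * gaussianPDFReal 0 1 x : ℝ) : ℂ))
    (fun x _ => hf x) (fun x _ => (hasDerivAt_gaussianPDFReal one_ne_zero x).ofReal_comp)
    ((hi h3).neg.congr (ae_of_all _ fun x => by simp; ring)) (hi h2) (hi h1)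
  have e : ∫ x, gaussianPDFReal 0 1 x • ((x : ℂ) * f x) =
      -∫ x, f x * ((-(x / (1 : NNReal)) * gaussianPDFReal 0 1 x : ℝ) : ℂ) := by
    rw [← integral_neg]; congr 1; ext x; simp; ring
  rw [e, h, neg_neg]
  simp [mul_comm]

/-- the complex Cameron-Martin factor -/
def cm (τ x : ℝ) : ℂ := Complex.exp (τ ^ 2 / 2 - τ * x * Complex.I)

lemma norm_cm (τ x : ℝ) : ‖cm τ x‖ = Real.exp (τ ^ 2 / 2) := by
  rw [cm, Complex.norm_exp]
  congr 1
  rw [show ((τ : ℂ) ^ 2 / 2 - τ * x * Complex.I) = ((τ ^ 2 / 2 : ℝ) : ℂ) +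
    ((-(τ * x) : ℝ) : ℂ) * Complex.I by push_cast; ring]
  simp only [Complex.add_re, Complex.ofReal_re, Complex.mul_I_re, Complex.ofReal_im, neg_zero,
    add_zero]

lemma integrable_sh (τ : ℝ) (j k : ℕ) : Integrable
    (fun x : ℝ => (x : ℂ) ^ j * (((x : ℂ) + τ * Complex.I) ^ k * cm τ x)) (gaussianReal 0 1) := by
  have h : Integrable (fun x : ℝ => (x : ℂ) ^ j * ((x : ℂ) + τ * Complex.I) ^ k)
      (gaussianReal 0 1) := by
    simp only [add_pow, mul_sum]
    refine integrable_finsetSum _ fun m _ => ?_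
    have := ((integrable_pow_gaussianReal 1 (j + m)).ofReal (𝕜 := ℂ)).mul_const
      ((τ * Complex.I) ^ (k - m) * (k.choose m : ℂ))
    refine this.congr (ae_of_all _ fun x => ?_)
    simp; ring
  simp only [← mul_assoc]
  refine h.mul_bdd (c := Real.exp (τ ^ 2 / 2)) ?_ (ae_of_all _ fun x => (norm_cm τ x).le)
  exact (by unfold cm; fun_prop : Continuous (cm τ)).aestronglyMeasurable

lemma mom_shift (τ : ℝ) (k : ℕ) :
    ∫ x : ℝ, ((x : ℂ) + τ * Complex.I) ^ k * cm τ x ∂gaussianReal 0 1 = mom 1 k := by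
  induction k using Nat.strong_induction_on with
  | _ k ih =>
    rcases k with _ | k
    · have h := charFun_gaussianReal (μ := 0) (v := 1) (-τ)
      rw [charFun_apply_real] at h
      have e : ∀ x : ℝ, cm τ x = Complex.exp (τ ^ 2 / 2) *
          Complex.exp (((-τ : ℝ) : ℂ) * x * Complex.I) := fun x => by
        rw [cm, ← Complex.exp_add]; congr 1; push_cast; ring
      simp only [pow_zero, one_mul, e]
      rw [integral_const_mul, h, ← Complex.exp_add, mom_zero]
      simp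
    · have hd : ∀ x : ℝ, HasDerivAt (fun x : ℝ => ((x : ℂ) + τ * Complex.I) ^ k * cm τ x)
          (k * (((x : ℂ) + τ * Complex.I) ^ (k - 1) * cm τ x) -
            τ * Complex.I * (((x : ℂ) + τ * Complex.I) ^ k * cm τ x)) x := fun x => by
        have h0 : HasDerivAt (fun x : ℝ => (x : ℂ)) 1 x := Complex.ofRealCLM.hasDerivAt
        have h1 := ((h0.add_const (τ * Complex.I)).pow k).mul
          ((((h0.const_mul (τ : ℂ)).mul_const Complex.I).const_sub ((τ : ℂ) ^ 2 / 2)).cexp)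
        refine h1.congr_deriv ?_
        simp only [cm, Pi.pow_apply]
        ring
      have i0 : ∀ m, Integrable (fun x : ℝ => ((x : ℂ) + τ * Complex.I) ^ m * cm τ x)
          (gaussianReal 0 1) := fun m => by simpa using integrable_sh τ 0 m
      have i1 : Integrable (fun x : ℝ => (x : ℂ) * (((x : ℂ) + τ * Complex.I) ^ k * cm τ x))
          (gaussianReal 0 1) := by simpa using integrable_sh τ 1 k
      have hs := stein1C hd (i0 k) (((i0 (k - 1)).const_mul _).sub ((i0 k).const_mul _)) i1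
      rw [integral_sub ((i0 (k - 1)).const_mul _) ((i0 k).const_mul _), integral_const_mul,
        integral_const_mul, ih (k - 1) (by omega)] at hs
      have e : ∀ x : ℝ, ((x : ℂ) + τ * Complex.I) ^ (k + 1) * cm τ x =
          (x : ℂ) * (((x : ℂ) + τ * Complex.I) ^ k * cm τ x) +
            τ * Complex.I * (((x : ℂ) + τ * Complex.I) ^ k * cm τ x) := fun x => by ring
      simp only [e]
      rw [integral_add i1 ((i0 k).const_mul _), hs, integral_const_mul, mom_succ one_ne_zero]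
      simp

/-- **shift of the contour** -/
theorem gexp_shift {α : Type*} [Fintype α] (τ : α → ℝ) (p : MvPolynomial α ℂ) :
    Integrable (fun y : α → ℝ => eval (fun i => (y i : ℂ) + τ i * Complex.I) p *
      ∏ i, cm (τ i) (y i)) (gv α) ∧
    gexp 1 p = ∫ y, eval (fun i => (y i : ℂ) + τ i * Complex.I) p * ∏ i, cm (τ i) (y i) ∂gv α := by
  induction p using MvPolynomial.induction_on' with
  | monomial m c =>
    simp only [eval_monomial, Finsupp.prod_pow, mul_assoc, ← prod_mul_distrib]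
    refine ⟨Integrable.const_mul ?_ c, ?_⟩
    · exact Integrable.fintype_prod
        (f := fun i (x : ℝ) => ((x : ℂ) + τ i * Complex.I) ^ m i * cm (τ i) x)
        fun i => by simpa using integrable_sh (τ i) 0 (m i)
    · rw [gexp_monomial, integral_const_mul, integral_fintype_prod_eq_prod
        (f := fun i (x : ℝ) => ((x : ℂ) + τ i * Complex.I) ^ m i * cm (τ i) x)]
      simp only [mom_shift]
  | add p q hp hq =>
    simp only [map_add, add_mul]
    exact ⟨hp.1.add hq.1, by rw [integral_add hp.1 hq.1, hp.2, hq.2]⟩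

/-! ### the bound -/

/-- `M` is symmetric with eigenvalues `m` -/
def Dg (M : Matrix ι ι ℝ) (m : ι → ℝ) : Prop :=
  ∃ O : Matrix ι ι ℝ, O * Oᵀ = 1 ∧ M = O * diagonal m * Oᵀ

lemma dg_diagonal (m : ι → ℝ) : Dg (diagonal m) m := ⟨1, by simp, by simp⟩

lemma dg_herm {M : Matrix ι ι ℝ} (h : M.IsHermitian) : Dg M h.eigenvalues := by
  refine ⟨h.eigenvectorUnitary, ?_, ?_⟩
  · have := (h.eigenvectorUnitary).2.2
    rwa [star_eq_conjTranspose, conjTranspose_eq_transpose_of_trivial] at this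
  · have := h.spectral_theorem
    simp only [Unitary.conjStarAlgAut_apply, star_eq_conjTranspose,
      conjTranspose_eq_transpose_of_trivial] at this
    simpa using this

lemma Dg.symm {M : Matrix ι ι ℝ} {m : ι → ℝ} (h : Dg M m) : Mᵀ = M := by
  obtain ⟨O, -, rfl⟩ := h
  simp [transpose_mul, Matrix.mul_assoc]

lemma Dg.sub {M : Matrix ι ι ℝ} {m : ι → ℝ} (h : Dg M m) (l : ℝ) :
    Dg (M - l • (1 : Matrix ι ι ℝ)) fun i => m i - l := by
  obtain ⟨O, hO, rfl⟩ := h
  refine ⟨O, hO, ?_⟩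
  rw [← diagonal_sub, show (diagonal fun _ : ι => l) = l • (1 : Matrix ι ι ℝ) from
    (smul_one_eq_diagonal l).symm, Matrix.mul_sub, Matrix.sub_mul, Matrix.mul_smul,
    Matrix.smul_mul, Matrix.mul_one, hO]

lemma Dg.det {M : Matrix ι ι ℝ} {m : ι → ℝ} (h : Dg M m) : M.det = ∏ i, m i := by
  obtain ⟨O, hO, rfl⟩ := h
  rw [det_mul, det_mul, mul_right_comm, ← det_mul, hO, det_one, one_mul, det_diagonal]

lemma Dg.det_BB {M : Matrix ι ι ℝ} {m : ι → ℝ} (h : Dg M m) (c ρ : ℂ) :
    (BB (cx M + c • (1 : Matrix ι ι ℂ)) ρ).det = ∏ i, (((m i : ℂ) + c) ^ 2 + ρ) := by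
  obtain ⟨O, hO, rfl⟩ := h
  have mul : ∀ A B : Matrix ι ι ℝ, cx (A * B) = cx A * cx B := fun A B => by
    ext i j; simp [mul_apply]
  have h1 : cx O * cx Oᵀ = 1 := by
    rw [← mul, hO]; ext i j; by_cases h : i = j <;> simp [one_apply, h]
  have h2 : cx Oᵀ * cx O = 1 := mul_eq_one_comm.1 h1
  have e1 : cx (O * diagonal m * Oᵀ) + c • (1 : Matrix ι ι ℂ) =
      cx O * diagonal (fun i => (m i : ℂ) + c) * cx Oᵀ := by
    rw [mul, mul, ← diagonal_add, ← smul_one_eq_diagonal, Matrix.mul_add, Matrix.add_mul,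
      Matrix.mul_smul, Matrix.smul_mul, Matrix.mul_one, h1]
    congr 3
    exact diagonal_map (by simp)
  have e2 : BB (cx O * diagonal (fun i => (m i : ℂ) + c) * cx Oᵀ) ρ =
      cx O * diagonal (fun i => ((m i : ℂ) + c) ^ 2 + ρ) * cx Oᵀ := by
    rw [BB, ← diagonal_add (fun i => ((m i : ℂ) + c) ^ 2), ← smul_one_eq_diagonal, Matrix.mul_add,
      Matrix.add_mul, Matrix.mul_smul, Matrix.smul_mul, Matrix.mul_one, h1]
    congr 1
    simp only [Matrix.mul_assoc]
    rw [← Matrix.mul_assoc (cx Oᵀ), h2, Matrix.one_mul, ← Matrix.mul_assoc (diagonal _),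
      diagonal_mul_diagonal]
    simp only [sq]
  rw [e1, e2, det_mul, det_mul, mul_right_comm, ← det_mul, h1, det_one, one_mul, det_diagonal]

lemma integral_exp_sq {a : ℝ} (ha : a < 1) :
    Integrable (fun h : ℝ => Real.exp (a * h ^ 2 / 2)) (gaussianReal 0 1) ∧
      ∫ h, Real.exp (a * h ^ 2 / 2) ∂gaussianReal 0 1 = (√(1 - a))⁻¹ := by
  have hb : 0 < (1 - a) / 2 := by linarith
  have e : ∀ h : ℝ, gaussianPDFReal 0 1 h * Real.exp (a * h ^ 2 / 2) =
      (√(2 * Real.pi))⁻¹ * Real.exp (-((1 - a) / 2) * h ^ 2) := fun h => by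
    simp only [gaussianPDFReal, NNReal.coe_one, mul_one, sub_zero, mul_assoc, ← Real.exp_add]
    congr 2; ring
  constructor
  · rw [gaussianReal_of_var_ne_zero _ one_ne_zero, integrable_withDensity_iff_integrable_smul'
      (by fun_prop) (by simp [gaussianPDF])]
    simp only [toReal_gaussianPDF, smul_eq_mul, e]
    exact (integrable_exp_neg_mul_sq hb).const_mul _
  · rw [integral_gaussianReal_eq_integral_smul one_ne_zero]
    simp only [smul_eq_mul, e]
    rw [integral_const_mul, integral_gaussian, show Real.pi / ((1 - a) / 2) =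
      2 * Real.pi / (1 - a) by field_simp, Real.sqrt_div (by positivity)]
    have : 0 < √(2 * Real.pi) := by positivity
    field_simp

lemma norm_factor {a g ρ : ℝ} (ha : a ≠ 0) (hρ : 0 ≤ ρ) :
    ‖((a : ℂ) + g * Complex.I) ^ 2 + ρ‖ ≤ a ^ 2 * Real.exp ((a ^ 2)⁻¹ * (g ^ 2 + ρ)) := by
  have h1 : ‖((a : ℂ) + g * Complex.I) ^ 2‖ = a ^ 2 + g ^ 2 := by
    rw [norm_pow, Complex.sq_norm, Complex.normSq_add_mul_I]
  have ha2 : 0 < a ^ 2 := by positivity
  refine (norm_add_le _ _).trans ?_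
  rw [h1, Complex.norm_real, Real.norm_of_nonneg hρ]
  have := Real.add_one_le_exp ((a ^ 2)⁻¹ * (g ^ 2 + ρ))
  calc a ^ 2 + g ^ 2 + ρ = a ^ 2 * ((a ^ 2)⁻¹ * (g ^ 2 + ρ) + 1) := by field_simp; ring
    _ ≤ _ := by gcongr

lemma cx_det_sq (M W : Matrix ι ι ℝ) :
    (BB (cx M - cx W) (∑ a : Fin 5, (0 : Fin 5 → ℂ) a ^ 2)).det = (((M - W).det ^ 2 : ℝ) : ℂ) := by
  have e : cx M - cx W = cx (M - W) := by ext i j; simp
  have := (Complex.ofRealHom.map_det (M - W)).symm
  simp only [BB, e, Pi.zero_apply, ne_eq, OfNat.ofNat_ne_zero, not_false_eq_true, zero_pow,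
    sum_const_zero, zero_smul, add_zero, det_mul]
  rw [show (cx (M - W)).det = (((M - W).det : ℝ) : ℂ) from this]
  push_cast; ring

lemma continuous_det_sub (M : Matrix ι ι ℝ) : Continuous fun W : Matrix ι ι ℝ => (M - W).det :=
  (continuous_const.sub continuous_id).matrix_det

lemma continuous_det_sq (M : Matrix ι ι ℝ) :
    Continuous fun W : Matrix ι ι ℝ => (M - W).det ^ 2 := (continuous_det_sub M).pow 2

lemma integrable_det_sq (s : ℝ) (M : Matrix ι ι ℝ) :
    Integrable (fun W => (M - W).det ^ 2) (goe ι s) := by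
  rw [goe, integrable_map_measure (continuous_det_sq M).aestronglyMeasurable
    (measurable_symG s).aemeasurable]
  have h := (integrable_BB s (cx M) 0).re
  simp only [cx_det_sq, RCLike.re_to_complex, Complex.ofReal_re] at h
  exact h

/-- **exact second moment** -/
theorem det_sq_eq (s : ℝ) {M : Matrix ι ι ℝ} (hM : Mᵀ = M) :
    ((∫ W, (M - W).det ^ 2 ∂goe ι s : ℝ) : ℂ) = gexp 1 (dualP ((s / √2 : ℝ) : ℂ) (cx M) 0) := by
  rw [← det_dual s (by rw [← transpose_map, hM]) 0, goe, integral_map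
    (measurable_symG s).aemeasurable (continuous_det_sq M).aestronglyMeasurable,
    ← integral_complex_ofReal]
  simp only [cx_det_sq]

/-- **the second moment of the determinant**, every `χ` -/
theorem det_sq_le {s : ℝ} (hs : s ≠ 0) {M : Matrix ι ι ℝ} {m : ι → ℝ} (hM : Dg M m) {χ : ℝ}
    (h0 : ∀ i, m i ≠ χ) (hS : s ^ 2 * ∑ i, ((m i - χ) ^ 2)⁻¹ < 1) :
    ∫ W, (M - W).det ^ 2 ∂goe ι s ≤ Real.exp (χ ^ 2 / s ^ 2) * (∏ i, (m i - χ) ^ 2) *
      ((1 - s ^ 2 * ∑ i, ((m i - χ) ^ 2)⁻¹) ^ 3)⁻¹ := by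
  set S := s ^ 2 * ∑ i, ((m i - χ) ^ 2)⁻¹ with hSd
  set k : ℝ := s / √2 with hk
  have hk2 : k ^ 2 = s ^ 2 / 2 := by rw [hk, div_pow, Real.sq_sqrt (by norm_num)]
  have hk0 : k ≠ 0 := div_ne_zero hs (by positivity)
  set τ : Fin 6 → ℝ := Pi.single 0 (χ / k) with hτ
  have h1 := det_sq_eq s hM.symm
  rw [← hk, (gexp_shift τ _).2] at h1
  refine (le_abs_self _).trans ?_
  rw [← Real.norm_eq_abs, ← Complex.norm_real, h1]
  have hi : Integrable (fun y : Fin 6 → ℝ => ∏ b, Real.exp (S * y b ^ 2 / 2)) (gv (Fin 6)) :=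
    Integrable.fintype_prod (f := fun _ (x : ℝ) => Real.exp (S * x ^ 2 / 2))
      fun _ => (integral_exp_sq hS).1
  refine (norm_integral_le_of_norm_le (hi.const_mul
    (Real.exp (χ ^ 2 / s ^ 2) * ∏ i, (m i - χ) ^ 2)) (ae_of_all _ fun y => ?_)).trans ?_
  · rw [eval_dualP, hM.det_BB, norm_mul, norm_prod, norm_prod]
    have e1 : ∏ b, ‖cm (τ b) (y b)‖ = Real.exp (χ ^ 2 / s ^ 2) := by
      simp only [norm_cm, ← Real.exp_sum, Fin.sum_univ_succ, hτ]
      simp [div_pow, hk2]
      field_simp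
    have e2 : ∀ i, ((m i : ℂ) + Complex.I * (k : ℂ) * ((y 0 : ℂ) + τ 0 * Complex.I)) ^ 2 +
        ∑ a : Fin 5, ((k : ℂ) * ((y a.succ : ℂ) + τ a.succ * Complex.I) +
          (0 : Fin 5 → ℂ) a) ^ 2 = (((m i - χ : ℝ) : ℂ) + (k * y 0 : ℝ) * Complex.I) ^ 2 +
            ((∑ a : Fin 5, (k * y a.succ) ^ 2 : ℝ) : ℂ) := fun i => by
      have hk0' : (k : ℂ) ≠ 0 := by exact_mod_cast hk0
      congr 1
      · congr 1
        simp only [hτ, Pi.single_eq_same]
        push_cast
        field_simp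
        linear_combination (χ : ℂ) * Complex.I_mul_I
      · simp [hτ, Fin.succ_ne_zero]
    simp only [e2]
    rw [e1, mul_comm, mul_assoc]
    refine mul_le_mul_of_nonneg_left ?_ (Real.exp_pos _).le
    refine (prod_le_prod (fun _ _ => norm_nonneg _) fun i _ => norm_factor
      (sub_ne_zero.2 (h0 i)) (by positivity)).trans (le_of_eq ?_)
    rw [prod_mul_distrib, ← Real.exp_sum, ← Real.exp_sum, ← sum_mul]
    congr 2
    rw [Fin.sum_univ_succ (fun b => S * y b ^ 2 / 2)]
    rw [hSd, mul_add, mul_sum univ (fun a : Fin 5 => (k * y a.succ) ^ 2)]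
    simp only [mul_pow, hk2]
    congr 1
    · ring
    · exact sum_congr rfl fun a _ => by ring
  · rw [integral_const_mul, integral_fintype_prod_eq_prod
      (f := fun _ (x : ℝ) => Real.exp (S * x ^ 2 / 2))]
    simp only [(integral_exp_sq hS).2, prod_const, card_univ, Fintype.card_fin]
    refine le_of_eq ?_
    congr 1
    rw [inv_pow, show (6 : ℕ) = 2 * 3 from rfl, pow_mul, Real.sq_sqrt (by linarith)]

end Crest.Agent.T157.Dq

end
end

-- ▼ part T157/DqC_9

/-!
# Row 157, part A (helper9): the quartic Gaussian integral `II`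

`II s A = E exp((x·x - x·A x)/2 - s² (x·x)²/4)`.
* `lint_II`  : `E_W II s (N - W) = ∏ n_i^{-1/2}`;
* `small_ball` : a shell around the median of `∑ g_i²/b_i` has polynomially small mass at least;
* `II_lower` : there is `l < λ_min(A)` with `II s A ≥ poly⁻¹ exp(l²/4s²) det(A - l)^{-1/2}`.
-/

set_option autoImplicit false

noncomputable section

namespace Crest.Agent.T157.Dq

open Matrix Finset MeasureTheory ProbabilityTheory Set
open scoped ENNReal NNReal
open Crest.Agent.T157.E Crest.Agent.T157.Cond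
open Crest.Agent.T157.Conc (ex ex_add ex_mono ex_zero)

variable {ι : Type*} [Fintype ι] [DecidableEq ι]

/-- weighted sum of squares -/
def Rq (b g : ι → ℝ) : ℝ := ∑ i, g i ^ 2 / b i

omit [DecidableEq ι] in
lemma measurable_Rq (b : ι → ℝ) : Measurable (Rq b) := by unfold Rq; fun_prop

/-- Gaussian change of variables -/
lemma gauss_cv {B : Matrix ι ι ℝ} {b : ι → ℝ} (hB : Dg B b) (hb : ∀ i, 0 < b i) {G : ℝ → ℝ≥0∞}
    (hG : Measurable G) : ∫⁻ x, ex ((x ⬝ᵥ x - x ⬝ᵥ B *ᵥ x) / 2) * G (x ⬝ᵥ x) ∂gv ι =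
      ENNReal.ofReal (∏ i, (√(b i))⁻¹) * ∫⁻ g, G (Rq b g) ∂gv ι := by
  obtain ⟨O, hO, rfl⟩ := hB
  have hO' : Oᵀ * O = 1 := mul_eq_one_comm.1 hO
  set d : ι → ℝ := fun i => (√(b i))⁻¹ with hd
  have hd0 : ∀ i, 0 < d i := fun i => inv_pos.2 (Real.sqrt_pos.2 (hb i))
  have hd2 : ∀ i, d i ^ 2 = (b i)⁻¹ := fun i => by rw [hd, inv_pow, Real.sq_sqrt (hb i).le]
  have hP : 0 < ∏ i, d i := prod_pos fun i _ => hd0 i
  have hdet : |(O * diagonal d).det| = ∏ i, d i := by
    have : |O.det| = 1 := by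
      have h := congrArg det hO
      rw [det_mul, det_transpose, det_one] at h
      exact (abs_eq_abs.2 (mul_self_eq_one_iff.1 h |>.imp id fun h => by simpa using h)).trans
        abs_one
    rw [det_mul, abs_mul, this, one_mul, det_diagonal, abs_of_pos hP]
  have hdet0 : (O * diagonal d).det ≠ 0 := by
    intro h; rw [h, abs_zero] at hdet; exact hP.ne hdet
  have e0 : ∀ g : ι → ℝ, Oᵀ *ᵥ (O * diagonal d) *ᵥ g = fun i => d i * g i := fun g => by
    rw [mulVec_mulVec, ← Matrix.mul_assoc, hO', Matrix.one_mul]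
    ext i; rw [mulVec_diagonal]
  have e1 : ∀ g : ι → ℝ, (O * diagonal d) *ᵥ g ⬝ᵥ (O * diagonal d) *ᵥ g = Rq b g := fun g => by
    conv_lhs => enter [1]; rw [← mulVec_mulVec]
    rw [dotProduct_comm, dotProduct_mulVec, ← mulVec_transpose, e0]
    refine sum_congr rfl fun i _ => ?_
    rw [mulVec_diagonal, div_eq_mul_inv, ← hd2]; ring
  have e2 : ∀ g : ι → ℝ, (O * diagonal d) *ᵥ g ⬝ᵥ (O * diagonal b * Oᵀ) *ᵥ (O * diagonal d) *ᵥ g
      = g ⬝ᵥ g := fun g => by
    rw [← mulVec_mulVec _ (O * diagonal b) Oᵀ, e0, ← mulVec_mulVec _ O (diagonal b),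
      dotProduct_mulVec, ← mulVec_transpose, e0]
    refine sum_congr rfl fun i _ => ?_
    rw [mulVec_diagonal]
    have := hd2 i
    have h2 := (hb i).ne'
    field_simp at this ⊢
    linear_combination (g i ^ 2) * this
  have hm : Measurable fun x : ι → ℝ =>
      ex ((x ⬝ᵥ x - x ⬝ᵥ (O * diagonal b * Oᵀ) *ᵥ x) / 2) * G (x ⬝ᵥ x) := by fun_prop
  have h := Kr.lintegral_affine hdet0 0 (G := fun y => ENNReal.ofReal (Kr.phi 1 y) *
    (ex ((y ⬝ᵥ y - y ⬝ᵥ (O * diagonal b * Oᵀ) *ᵥ y) / 2) * G (y ⬝ᵥ y))) (by fun_prop)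
  rw [Kr.lintegral_gv hm, Kr.lintegral_gv (G := fun g => G (Rq b g))
    (hG.comp (measurable_Rq b))]
  simp only [zero_add, e1, e2] at h
  have e3 : ∀ g : ι → ℝ, ENNReal.ofReal (Kr.phi 1 ((O * diagonal d) *ᵥ g)) *
      (ex ((Rq b g - g ⬝ᵥ g) / 2) * G (Rq b g)) = ENNReal.ofReal (Kr.phi 1 g) * G (Rq b g) := by
    intro g
    rw [← mul_assoc, ex, ← ENNReal.ofReal_mul (Kr.phi_nonneg _ _)]
    congr 2
    simp only [Kr.phi, e1, mul_assoc, ← Real.exp_add]
    congr 2; ring
  simp only [e3] at h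
  rw [h, ← mul_assoc, ← ENNReal.ofReal_mul hP.le, abs_inv, hdet, mul_inv_cancel₀ hP.ne',
    ENNReal.ofReal_one, one_mul]

/-- the quartic Gaussian integral -/
def II (s : ℝ) (A : Matrix ι ι ℝ) : ℝ≥0∞ :=
  ∫⁻ x, ex ((x ⬝ᵥ x - x ⬝ᵥ A *ᵥ x) / 2 - s ^ 2 * (x ⬝ᵥ x) ^ 2 / 4) ∂gv ι

omit [DecidableEq ι] in
lemma measurable_II (s : ℝ) (N : Matrix ι ι ℝ) : Measurable fun W => II s (N - W) :=
  Measurable.lintegral_prod_right' (f := fun p : Matrix ι ι ℝ × (ι → ℝ) =>
    ex ((p.2 ⬝ᵥ p.2 - p.2 ⬝ᵥ (N - p.1) *ᵥ p.2) / 2 - s ^ 2 * (p.2 ⬝ᵥ p.2) ^ 2 / 4)) (by fun_prop)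



/-! ### small balls -/

omit [DecidableEq ι] in
lemma card_nsmul_le_sum_aux {f : ι → ℝ} {c : ℝ} (h : ∀ i, f i ≤ c) :
    ∑ i, f i ≤ Fintype.card ι * c := by
  simpa using sum_le_card_nsmul univ f c fun i _ => h i

lemma gauss_sq_le {u : ℝ} (hu : 0 ≤ u) : (gaussianReal 0 1).real {x | x ^ 2 ≤ u} ≤ √u := by
  have hs : {x : ℝ | x ^ 2 ≤ u} = Icc (-√u) (√u) := by
    ext x; rw [Set.mem_Icc, ← abs_le, Real.le_sqrt (abs_nonneg x) hu, sq_abs]; rfl
  rw [hs, measureReal_def, gaussianReal_apply_eq_integral _ one_ne_zero,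
    ENNReal.toReal_ofReal (integral_nonneg fun x => gaussianPDFReal_nonneg _ _ x)]
  have hb : ∀ x, gaussianPDFReal 0 1 x ≤ 1 / 2 := fun x => by
    simp only [gaussianPDFReal, NNReal.coe_one, mul_one, sub_zero]
    have h1 : Real.exp (-x ^ 2 / 2) ≤ 1 := Real.exp_le_one_iff.2 (by nlinarith [sq_nonneg x])
    have h2 : (2 : ℝ) ≤ √(2 * Real.pi) := Real.le_sqrt_of_sq_le (by nlinarith [Real.pi_gt_three])
    calc (√(2 * Real.pi))⁻¹ * Real.exp (-x ^ 2 / 2) ≤ (2 : ℝ)⁻¹ * 1 := by gcongr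
      _ = 1 / 2 := by norm_num
  calc ∫ x in Icc (-√u) (√u), gaussianPDFReal 0 1 x ≤ ∫ _ in Icc (-√u) (√u), (1 / 2 : ℝ) :=
        setIntegral_mono (integrable_gaussianPDFReal 0 1).integrableOn (by simp) hb
    _ = √u := by
        rw [setIntegral_const, Real.volume_real_Icc_of_le (by linarith [Real.sqrt_nonneg u])]
        simp; ring

/-- distribution function of `Rq b` -/
def FR (b : ι → ℝ) (ρ : ℝ) : ℝ := (gv ι).real {g | Rq b g ≤ ρ}

omit [DecidableEq ι] in
lemma FR_le_sqrt {b : ι → ℝ} (hb : ∀ i, 0 < b i) (i : ι) {ρ : ℝ} (hρ : 0 ≤ ρ) :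
    FR b ρ ≤ √(b i * ρ) := by
  have hmp := measurePreserving_eval (fun _ : ι => gaussianReal 0 1) i
  refine le_trans ?_ (gauss_sq_le (mul_nonneg (hb i).le hρ))
  rw [← hmp.measureReal_preimage (measurableSet_le (by fun_prop) measurable_const).nullMeasurableSet]
  refine measureReal_mono (fun g hg => ?_)
  have h1 : g i ^ 2 / b i ≤ Rq b g :=
    single_le_sum (f := fun j => g j ^ 2 / b j) (fun j _ => div_nonneg (sq_nonneg _) (hb j).le)
      (mem_univ i)
  have h2 := (div_le_iff₀ (hb i)).1 (h1.trans hg)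
  simpa [mul_comm] using h2

omit [DecidableEq ι] in
lemma FR_neg {b : ι → ℝ} (hb : ∀ i, 0 < b i) {ρ : ℝ} (hρ : ρ < 0) : FR b ρ = 0 := by
  have : {g | Rq b g ≤ ρ} = ∅ := eq_empty_of_forall_notMem fun g hg =>
    absurd (le_trans (sum_nonneg fun j _ => div_nonneg (sq_nonneg _) (hb j).le) hg) (not_le.2 hρ)
  simp [FR, this]

omit [DecidableEq ι] in
lemma FR_markov {b : ι → ℝ} (hb : ∀ i, 0 < b i) {ρ : ℝ} (hρ : 0 < ρ) :
    1 - (∑ i, (b i)⁻¹) / ρ ≤ FR b ρ := by
  have i1 : ∀ i, Integrable (fun g : ι → ℝ => g i ^ 2) (gv ι) := fun i =>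
    (measurePreserving_eval (fun _ : ι => gaussianReal 0 1) i).integrable_comp_of_integrable
      (R089.GUE.integrable_pow_gaussianReal 1 2)
  have v1 : ∀ i, ∫ g : ι → ℝ, g i ^ 2 ∂gv ι = 1 := fun i => by
    have h := (measurePreserving_eval (fun _ : ι => gaussianReal 0 1) i).map_eq
    have := integral_map (μ := gv ι) (φ := Function.eval i) (f := fun x : ℝ => x ^ 2)
      (measurable_pi_apply i).aemeasurable (by fun_prop)
    rw [h, R089.GUE.integral_pow_succ_gaussianReal one_ne_zero] at this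
    simpa using this.symm
  have i2 : Integrable (Rq b) (gv ι) := integrable_finsetSum _ fun i _ => (i1 i).div_const _
  have v2 : ∫ g, Rq b g ∂gv ι = ∑ i, (b i)⁻¹ := by
    unfold Rq
    rw [integral_finsetSum _ fun i _ => (i1 i).div_const _]
    exact sum_congr rfl fun i _ => by rw [integral_div, v1, one_div]
  have h := mul_meas_ge_le_integral_of_nonneg (μ := gv ι) (f := Rq b)
    (ae_of_all _ fun g => sum_nonneg fun j _ => div_nonneg (sq_nonneg _) (hb j).le) i2 ρ
  rw [v2] at h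
  have h2 : (gv ι).real {g | Rq b g ≤ ρ}ᶜ ≤ (gv ι).real {g | ρ ≤ Rq b g} :=
    measureReal_mono fun g (hg : ¬ Rq b g ≤ ρ) => (not_le.1 hg).le
  rw [measureReal_compl (measurableSet_le (measurable_Rq b) measurable_const), probReal_univ] at h2
  have h3 : (gv ι).real {g | ρ ≤ Rq b g} ≤ (∑ i, (b i)⁻¹) / ρ := by
    rw [le_div_iff₀ hρ, mul_comm]; exact h
  unfold FR; linarith

omit [DecidableEq ι] in
/-- log-concavity of the distribution function -/
lemma FR_lc {b : ι → ℝ} (hb : ∀ i, 0 < b i) (ρ0 ρ2 : ℝ) {t : ℝ} (h0 : 0 < t) (h1 : t < 1) :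
    FR b ρ0 ^ (1 - t) * FR b ρ2 ^ t ≤ FR b ((1 - t) * ρ0 + t * ρ2) := by
  have hm : ∀ ρ, MeasurableSet {g | Rq b g ≤ ρ} := fun ρ =>
    measurableSet_le (measurable_Rq b) measurable_const
  have h := Conc.gpl_gv (ι := ι) t h0 h1 ({g | Rq b g ≤ ρ0}.indicator 1)
    ({g | Rq b g ≤ ρ2}.indicator 1) ({g | Rq b g ≤ (1 - t) * ρ0 + t * ρ2}.indicator 1)
    (measurable_one.indicator (hm _)) (measurable_one.indicator (hm _))
    (measurable_one.indicator (hm _)) fun x y => ?_
  · rw [lintegral_indicator_one (hm _), lintegral_indicator_one (hm _),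
      lintegral_indicator_one (hm _)] at h
    have := ENNReal.toReal_mono (measure_ne_top _ _) h
    rwa [ENNReal.toReal_mul, ← ENNReal.toReal_rpow, ← ENNReal.toReal_rpow] at this
  · by_cases hx : x ∈ {g | Rq b g ≤ ρ0}
    · by_cases hy : y ∈ {g | Rq b g ≤ ρ2}
      · have hz : (1 - t) • x + t • y ∈ {g | Rq b g ≤ (1 - t) * ρ0 + t * ρ2} := by
          refine le_trans ?_ (add_le_add (mul_le_mul_of_nonneg_left hx (by linarith))
            (mul_le_mul_of_nonneg_left hy h0.le))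
          simp only [Rq, mul_sum, ← sum_add_distrib]
          refine sum_le_sum fun i _ => ?_
          rw [← mul_div_assoc, ← mul_div_assoc, ← add_div]
          refine div_le_div_of_nonneg_right ?_ (hb i).le
          simp only [Pi.add_apply, Pi.smul_apply, smul_eq_mul]
          nlinarith [mul_nonneg (mul_nonneg h0.le (sub_nonneg.2 h1.le)) (sq_nonneg (x i - y i))]
        rw [indicator_of_mem hx, indicator_of_mem hy, indicator_of_mem hz]
        simp only [Pi.one_apply, ENNReal.one_rpow, one_mul]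
        rw [← ex_zero]
        exact ex_mono (mul_nonneg (mul_nonneg h0.le (by linarith)) (by positivity))
      · rw [indicator_of_notMem hy, ENNReal.zero_rpow_of_pos h0]; simp
    · rw [indicator_of_notMem hx, ENNReal.zero_rpow_of_pos (by linarith)]; simp

omit [DecidableEq ι] in
/-- a shell around a median -/
theorem small_ball [Nonempty ι] {b : ι → ℝ} (hb : ∀ i, 0 < b i) {ρ δ P : ℝ} (hδ : 0 < δ)
    (hP : ρ + δ ≤ P) (hδP : δ ≤ P) (hl : FR b (ρ - δ) ≤ 1 / 2) (hu : 1 / 2 ≤ FR b (ρ + δ)) :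
    δ / (96 * Fintype.card ι * P) ≤ FR b (ρ + δ) - FR b (ρ - δ) := by
  have hn : (1 : ℝ) ≤ Fintype.card ι := by exact_mod_cast Fintype.card_pos
  have hP0 : 0 < P := hδ.trans_le hδP
  by_cases h4 : FR b (ρ - δ) ≤ 1 / 4
  · have : δ / (96 * Fintype.card ι * P) ≤ 1 / 4 := by
      rw [div_le_iff₀ (by positivity)]; nlinarith
    linarith
  push Not at h4
  have hρ0 : 0 ≤ ρ - δ := by
    by_contra h; rw [FR_neg hb (not_le.1 h)] at h4; norm_num at h4
  have hρ1 : 0 < ρ + δ := by linarith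
  have hbi : ∀ i, (b i)⁻¹ ≤ 4 * (ρ + δ) := fun i => by
    have h := hu.trans (FR_le_sqrt hb i hρ1.le)
    have h2 : (1 / 2 : ℝ) ^ 2 ≤ b i * (ρ + δ) := by
      rwa [Real.le_sqrt (by norm_num) (mul_nonneg (hb i).le hρ1.le)] at h
    rw [inv_le_iff_one_le_mul₀ (hb i)]; nlinarith
  set ρ2 := 16 * Fintype.card ι * (ρ + δ) with hρ2
  have h12 : ρ + δ < ρ2 := by nlinarith
  have h34 : 3 / 4 ≤ FR b ρ2 := by
    refine le_trans ?_ (FR_markov hb (by positivity))
    have : ∑ i, (b i)⁻¹ ≤ Fintype.card ι * (4 * (ρ + δ)) := by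
      exact card_nsmul_le_sum_aux hbi
    have : (∑ i, (b i)⁻¹) / ρ2 ≤ 1 / 4 := by
      rw [div_le_iff₀ (by positivity)]; nlinarith
    linarith
  set t := 2 * δ / (ρ2 - (ρ - δ)) with ht
  have hd : 0 < ρ2 - (ρ - δ) := by linarith
  have t0 : 0 < t := by positivity
  have t1 : t < 1 := by rw [ht, div_lt_one hd]; linarith
  have h := FR_lc hb (ρ - δ) ρ2 t0 t1
  rw [show (1 - t) * (ρ - δ) + t * ρ2 = ρ + δ by rw [ht]; field_simp; ring] at h
  set F := FR b (ρ - δ) with hF
  have hF0 : 0 < F := by linarith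
  have h2 : F * (1 + t / 3) ≤ F ^ (1 - t) * FR b ρ2 ^ t := by
    have a1 : (3 / 2 * F) ^ t ≤ FR b ρ2 ^ t := Real.rpow_le_rpow (by positivity) (by linarith) t0.le
    have a2 : 1 + t / 3 ≤ (3 / 2 : ℝ) ^ t := by
      rw [Real.rpow_def_of_pos (by norm_num)]
      have a3 : 1 / 3 ≤ Real.log (3 / 2) := by
        have := Real.one_sub_inv_le_log_of_pos (show (0 : ℝ) < 3 / 2 by norm_num)
        norm_num at this ⊢; exact this
      nlinarith [Real.add_one_le_exp (Real.log (3 / 2) * t)]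
    calc F * (1 + t / 3) ≤ F * (3 / 2 : ℝ) ^ t := by gcongr
      _ = F ^ (1 - t) * (3 / 2 * F) ^ t := by
          rw [Real.mul_rpow (by norm_num) hF0.le, mul_left_comm, ← Real.rpow_add hF0]
          simp [mul_comm]
      _ ≤ _ := by gcongr
  have h3 : δ / (8 * Fintype.card ι * P) ≤ t := by
    rw [ht, div_le_div_iff₀ (by positivity) hd]
    have : ρ2 ≤ 16 * Fintype.card ι * P := by rw [hρ2]; gcongr
    nlinarith
  have h5 : δ / (96 * Fintype.card ι * P) = δ / (8 * Fintype.card ι * P) / 12 := by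
    field_simp; norm_num
  nlinarith

/-- the cutoff used to locate the median -/
def cut (u : ℝ) : ℝ := max 0 (min 1 ((1 - u) / 2))

lemma cut_nonneg (u : ℝ) : 0 ≤ cut u := le_max_left _ _

lemma cut_le_one (u : ℝ) : cut u ≤ 1 := max_le zero_le_one (min_le_left _ _)

omit [DecidableEq ι] in
lemma cut_sandwich (b : ι → ℝ) {s : ℝ} (hs : 0 < s) (ρ : ℝ) :
    FR b (ρ - s⁻¹) ≤ ∫ g, cut (s * (Rq b g - ρ)) ∂gv ι ∧
      ∫ g, cut (s * (Rq b g - ρ)) ∂gv ι ≤ FR b (ρ + s⁻¹) := by
  have hm : ∀ ρ, MeasurableSet {g | Rq b g ≤ ρ} := fun ρ =>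
    measurableSet_le (measurable_Rq b) measurable_const
  have hi : Integrable (fun g => cut (s * (Rq b g - ρ))) (gv ι) := by
    have := measurable_Rq b
    refine (integrable_const (1 : ℝ)).mono' (by unfold cut; fun_prop) (ae_of_all _ fun g => ?_)
    rw [Real.norm_of_nonneg (cut_nonneg _)]; exact cut_le_one _
  have h1 : s * s⁻¹ = 1 := mul_inv_cancel₀ hs.ne'
  constructor
  · rw [FR, ← integral_indicator_one (hm _)]
    refine integral_mono ((integrable_const 1).indicator (hm _)) hi fun g => ?_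
    by_cases hg : g ∈ {g | Rq b g ≤ ρ - s⁻¹}
    · rw [indicator_of_mem hg]
      have : s * (Rq b g - ρ) ≤ s * (-s⁻¹) := mul_le_mul_of_nonneg_left
        (by have : Rq b g ≤ ρ - s⁻¹ := hg; linarith) hs.le
      exact le_max_of_le_right (le_min le_rfl (show (1 : ℝ) ≤ _ by linarith))
    · rw [indicator_of_notMem hg]; exact cut_nonneg _
  · rw [FR, ← integral_indicator_one (hm _)]
    refine integral_mono hi ((integrable_const 1).indicator (hm _)) fun g => ?_
    by_cases hg : g ∈ {g | Rq b g ≤ ρ + s⁻¹}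
    · rw [indicator_of_mem hg]; exact cut_le_one _
    · rw [indicator_of_notMem hg]
      have : s * s⁻¹ ≤ s * (Rq b g - ρ) := mul_le_mul_of_nonneg_left
        (by have : ρ + s⁻¹ < Rq b g := not_le.1 hg; linarith) hs.le
      exact max_le le_rfl (min_le_of_right_le (by linarith))

omit [DecidableEq ι] in
/-- location of the median -/
lemma exists_median [Nonempty ι] {a : ι → ℝ} {s α : ℝ} (hs : 0 < s) (hα : 0 ≤ α)
    (ha : ∀ i, -α ≤ a i) : ∃ l, (∀ i, l < a i) ∧ -(α + s * (1 + √(2 * Fintype.card ι))) ≤ l ∧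
      FR (fun i => a i - l) (-l / s ^ 2 - s⁻¹) ≤ 1 / 2 ∧
      1 / 2 ≤ FR (fun i => a i - l) (-l / s ^ 2 + s⁻¹) := by
  obtain ⟨i0, -, hi0⟩ := exists_min_image univ a univ_nonempty
  have hn : (1 : ℝ) ≤ Fintype.card ι := by exact_mod_cast Fintype.card_pos
  set r := √(2 * (Fintype.card ι : ℝ)) with hr
  have hr2 : r ^ 2 = 2 * Fintype.card ι := Real.sq_sqrt (by positivity)
  have hr0 : 0 < r := Real.sqrt_pos.2 (by positivity)
  set la := -(α + s * (1 + r)) with hla
  set ε := min s (s ^ 2 / (4 * (α + 2 * s))) with hε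
  have hε0 : 0 < ε := lt_min hs (by positivity)
  set lb := a i0 - ε with hlb
  have hab : la ≤ lb := by
    have := ha i0; have := min_le_left s (s ^ 2 / (4 * (α + 2 * s))); nlinarith [mul_pos hs hr0]
  have hlt : ∀ l ≤ lb, ∀ i, l < a i := fun l hl i => by
    have := hi0 i (mem_univ i); linarith
  set ψ : ℝ → ℝ := fun l => ∫ g, cut (s * (Rq (fun i => a i - l) g - -l / s ^ 2)) ∂gv ι with hψ
  have hc : ContinuousOn ψ (Icc la lb) := by
    refine continuousOn_of_dominated (bound := fun _ => 1) (fun l _ => ?_)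
      (fun l _ => ae_of_all _ fun g => ?_) (integrable_const _) (ae_of_all _ fun g => ?_)
    · have := measurable_Rq fun i => a i - l
      unfold cut; fun_prop
    · rw [Real.norm_of_nonneg (cut_nonneg _)]; exact cut_le_one _
    · have h1 : ContinuousOn (fun l => Rq (fun i => a i - l) g) (Icc la lb) :=
        continuousOn_finsetSum _ fun i _ => continuousOn_const.div (by fun_prop)
          fun l hl => (sub_pos.2 (hlt l hl.2 i)).ne'
      have h2 : Continuous cut := by unfold cut; fun_prop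
      exact h2.comp_continuousOn (continuousOn_const.mul (h1.sub (by fun_prop)))
  have h1 : 1 / 2 ≤ ψ la := by
    refine le_trans ?_ (cut_sandwich _ hs _).1
    have e : -la / s ^ 2 - s⁻¹ = (α + s * r) / s ^ 2 := by rw [hla]; field_simp; ring
    rw [e]
    refine le_trans ?_ (FR_markov (fun i => sub_pos.2 (hlt la hab i)) (by positivity))
    have h2 : ∑ i, (a i - la)⁻¹ ≤ Fintype.card ι * (s * r)⁻¹ := by
      have : ∀ i, (a i - la)⁻¹ ≤ (s * r)⁻¹ := fun i =>
        inv_anti₀ (by positivity) (by have := ha i; rw [hla]; linarith)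
      exact card_nsmul_le_sum_aux this
    have h3 : (∑ i, (a i - la)⁻¹) / ((α + s * r) / s ^ 2) ≤ 1 / 2 := by
      rw [div_le_iff₀ (by positivity)]
      refine h2.trans ?_
      rw [show (Fintype.card ι : ℝ) = r ^ 2 / 2 by linarith]
      have : r ^ 2 / 2 * (s * r)⁻¹ = 1 / 2 * ((s * r) / s ^ 2) := by field_simp
      rw [this]; gcongr; linarith
    linarith
  have h2 : ψ lb ≤ 1 / 2 := by
    refine (cut_sandwich _ hs _).2.trans ?_
    rcases lt_or_ge (-lb / s ^ 2 + s⁻¹) 0 with h | h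
    · rw [FR_neg (fun i => sub_pos.2 (hlt lb le_rfl i)) h]; norm_num
    · refine (FR_le_sqrt (fun i => sub_pos.2 (hlt lb le_rfl i)) i0 h).trans ?_
      rw [Real.sqrt_le_iff]
      refine ⟨by norm_num, ?_⟩
      have e1 : a i0 - lb = ε := by rw [hlb]; ring
      have e2 : -lb / s ^ 2 + s⁻¹ ≤ (α + 2 * s) / s ^ 2 := by
        rw [show s⁻¹ = s / s ^ 2 by field_simp, ← add_div]
        refine div_le_div_of_nonneg_right ?_ (by positivity)
        have := ha i0; have := min_le_left s (s ^ 2 / (4 * (α + 2 * s))); linarith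
      simp only [e1]
      calc ε * (-lb / s ^ 2 + s⁻¹) ≤ s ^ 2 / (4 * (α + 2 * s)) * ((α + 2 * s) / s ^ 2) := by
            gcongr; exact min_le_right _ _
        _ = (1 / 2) ^ 2 := by field_simp; norm_num
  obtain ⟨l, hl, hψl⟩ := intermediate_value_Icc' hab hc ⟨h2, h1⟩
  exact ⟨l, hlt l hl.2, hl.1, hψl ▸ (cut_sandwich _ hs _).1, hψl ▸ (cut_sandwich _ hs _).2⟩

/-- **lower bound of the quartic integral** -/
theorem II_lower [Nonempty ι] {A : Matrix ι ι ℝ} {a : ι → ℝ} (hA : Dg A a) {s α Λ : ℝ}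
    (hs : 0 < s) (hα : 0 ≤ α) (ha : ∀ i, -α ≤ a i)
    (hΛ : α + s * (1 + √(2 * Fintype.card ι)) ≤ Λ) :
    ∃ l, (∀ i, l < a i) ∧ -Λ ≤ l ∧ l ≤ s ∧ ENNReal.ofReal (s / (256 * Fintype.card ι * Λ) *
      Real.exp (l ^ 2 / (4 * s ^ 2)) * ∏ i, (√(a i - l))⁻¹) ≤ II s A := by
  obtain ⟨l, hl, hl2, h1, h2⟩ := exists_median hs hα ha
  have hb : ∀ i, 0 < a i - l := fun i => sub_pos.2 (hl i)
  have hsΛ : s ≤ Λ := by nlinarith [Real.sqrt_nonneg (2 * (Fintype.card ι : ℝ))]
  have hΛ0 : 0 < Λ := hs.trans_le hsΛ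
  have hn : (1 : ℝ) ≤ Fintype.card ι := by exact_mod_cast Fintype.card_pos
  have hls : l ≤ s := by
    by_contra h
    rw [FR_neg hb (by
      rw [show s⁻¹ = s / s ^ 2 by field_simp, ← add_div]
      exact div_neg_of_neg_of_pos (by linarith [not_le.1 h]) (by positivity))] at h2
    norm_num at h2
  refine ⟨l, hl, by linarith, hls, ?_⟩
  have hsb := small_ball hb (P := 2 * Λ / s ^ 2) (inv_pos.2 hs) (by
    rw [show s⁻¹ = s / s ^ 2 by field_simp, ← add_div]; gcongr; linarith) (by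
    rw [show s⁻¹ = s / s ^ 2 by field_simp]; gcongr; linarith) h1 h2
  set ρ := -l / s ^ 2 with hρ
  set S := {g | Rq (fun i => a i - l) g ≤ ρ + s⁻¹} \ {g | Rq (fun i => a i - l) g ≤ ρ - s⁻¹}
  have hm : ∀ ρ, MeasurableSet {g | Rq (fun i => a i - l) g ≤ ρ} := fun ρ =>
    measurableSet_le (measurable_Rq _) measurable_const
  have hS : s / (192 * Fintype.card ι * Λ) ≤ (gv ι).real S := by
    have hsub : {g | Rq (fun i => a i - l) g ≤ ρ - s⁻¹} ⊆ {g | Rq (fun i => a i - l) g ≤ ρ + s⁻¹} :=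
      fun g (hg : Rq _ g ≤ _) => show Rq _ g ≤ _ by linarith [inv_pos.2 hs]
    rw [measureReal_sdiff hsub (hm _)]
    refine le_trans (le_of_eq ?_) hsb
    field_simp; norm_num
  have h := gauss_cv (hA.sub l) hb (G := fun R => ex (-(l * R) / 2 - s ^ 2 * R ^ 2 / 4))
    (by fun_prop)
  have e : II s A = ∫⁻ x, ex ((x ⬝ᵥ x - x ⬝ᵥ (A - l • (1 : Matrix ι ι ℝ)) *ᵥ x) / 2) *
      ex (-(l * (x ⬝ᵥ x)) / 2 - s ^ 2 * (x ⬝ᵥ x) ^ 2 / 4) ∂gv ι := by
    refine lintegral_congr fun x => ?_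
    rw [← ex_add, sub_mulVec, smul_mulVec, one_mulVec, dotProduct_sub, dotProduct_smul,
      smul_eq_mul]
    congr 1; ring
  rw [e, h, mul_comm _ (∏ i, _), ENNReal.ofReal_mul (prod_nonneg fun i _ => by positivity)]
  gcongr
  have h3 : ∫⁻ g, S.indicator (fun _ => ex (l ^ 2 / (4 * s ^ 2) - 1 / 4)) g ∂gv ι ≤
      ∫⁻ g, ex (-(l * Rq (fun i => a i - l) g) / 2 -
        s ^ 2 * Rq (fun i => a i - l) g ^ 2 / 4) ∂gv ι := by
    refine lintegral_mono fun g => ?_
    by_cases hg : g ∈ S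
    · rw [indicator_of_mem hg]
      refine ex_mono ?_
      set R := Rq (fun i => a i - l) g
      have g1 : R ≤ ρ + s⁻¹ := hg.1
      have g2 : ρ - s⁻¹ < R := not_le.1 hg.2
      have g3 : (R - ρ) ^ 2 ≤ s⁻¹ ^ 2 := sq_le_sq' (by linarith) (by linarith)
      have g4 : s ^ 2 * (R - ρ) ^ 2 ≤ 1 := by
        calc s ^ 2 * (R - ρ) ^ 2 ≤ s ^ 2 * s⁻¹ ^ 2 := by gcongr
          _ = 1 := by field_simp
      have g5 : -(l * R) / 2 - s ^ 2 * R ^ 2 / 4 =
          l ^ 2 / (4 * s ^ 2) - s ^ 2 * (R - ρ) ^ 2 / 4 := by rw [hρ]; field_simp; ring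
      linarith
    · rw [indicator_of_notMem hg]; exact zero_le
  refine le_trans ?_ h3
  rw [lintegral_indicator_const ((hm _).diff (hm _)), ← ofReal_measureReal, ex,
    ← ENNReal.ofReal_mul (Real.exp_pos _).le]
  refine ENNReal.ofReal_le_ofReal ?_
  have h4 : 3 / 4 ≤ Real.exp (-(1 / 4)) := by linarith [Real.add_one_le_exp (-(1 / 4))]
  rw [sub_eq_add_neg, Real.exp_add]
  calc s / (256 * Fintype.card ι * Λ) * Real.exp (l ^ 2 / (4 * s ^ 2))
      = Real.exp (l ^ 2 / (4 * s ^ 2)) * (3 / 4) * (s / (192 * Fintype.card ι * Λ)) := by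
        field_simp; norm_num
    _ ≤ _ := by gcongr

end Crest.Agent.T157.Dq

end
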