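import Crest.Agent.T157.Chain_22

/-!
Row 157, part E (helper34): finite entropy toolbox, static part.
Variational formulas, Holley–Stroock, convexity, mixtures (chain rule), relative entropy `kl`,
data processing, bounds for events (entropy and Rényi), Rothaus, defective ⇒ tight.
-/

set_option autoImplicit false
set_option linter.unusedSectionVars false

namespace Crest.Agent.T157.Ent

open Finset Matrix Chain22

variable {Ω : Type*} [Fintype Ω] {π : Ω → ℝ}

theorem mean_congr {f g : Ω → ℝ} (h : ∀ x, f x = g x) : mean π f = mean π g :=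
  sum_congr rfl fun x _ => by rw [h x]

theorem mean_add' (f g : Ω → ℝ) : mean π (fun x => f x + g x) = mean π f + mean π g :=
  mean_add π f g

theorem mean_sub' (f g : Ω → ℝ) : mean π (fun x => f x - g x) = mean π f - mean π g :=
  mean_sub π f g

theorem mean_const_mul (a : ℝ) (f : Ω → ℝ) : mean π (fun x => a * f x) = a * mean π f :=
  mean_smul π a f

theorem mean_mul_const (a : ℝ) (f : Ω → ℝ) : mean π (fun x => f x * a) = mean π f * a := by
  rw [mul_comm, ← mean_const_mul]; exact mean_congr fun x => mul_comm _ _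

theorem mean_sum' {ι : Type*} (s : Finset ι) (f : ι → Ω → ℝ) :
    mean π (fun x => ∑ i ∈ s, f i x) = ∑ i ∈ s, mean π (f i) := by
  simp only [mean, mul_sum]; exact sum_comm

theorem ent_eq (f : Ω → ℝ) :
    ent π f = mean π (fun x => f x * Real.log (f x)) - mean π f * Real.log (mean π f) := rfl

theorem mean_pos (h : IsP π) {f : Ω → ℝ} (hf : ∀ x, 0 < f x) : 0 < mean π f := by
  by_contra hn
  have hZ1 : mean π f = 0 := le_antisymm (not_lt.1 hn) (h.mean_nonneg fun x => (hf x).le)
  have hz := h.eq_zero_of_mean (fun x => (hf x).le) hZ1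
  have : ∀ x, π x = 0 := fun x => (mul_eq_zero.1 (hz x)).resolve_right (hf x).ne'
  have h1 := h.sum1
  simp [this] at h1

theorem mean_exp_pos (h : IsP π) (g : Ω → ℝ) : 0 < mean π (fun x => Real.exp (g x)) :=
  mean_pos h fun _ => Real.exp_pos _

/-- the Bregman divergence of `u log u` -/
noncomputable def brg (u a : ℝ) : ℝ := u * Real.log u - u * Real.log a - u + a

theorem brg_nonneg {u a : ℝ} (hu : 0 ≤ u) (ha : 0 < a) : 0 ≤ brg u a := by
  rcases eq_or_lt_of_le hu with h | h
  · simp [brg, ← h, ha.le]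
  have h1 : Real.log (a / u) ≤ a / u - 1 := Real.log_le_sub_one_of_pos (by positivity)
  rw [Real.log_div ha.ne' h.ne'] at h1
  have h2 := mul_le_mul_of_nonneg_left h1 hu
  have h3 : u * (a / u - 1) = a - u := by field_simp
  unfold brg; nlinarith

theorem mean_brg (h : IsP π) (f : Ω → ℝ) (a : ℝ) :
    mean π (fun x => brg (f x) a) = ent π f + brg (mean π f) a := by
  have : mean π (fun x => brg (f x) a) = mean π (fun x => f x * Real.log (f x)) -
      mean π f * Real.log a - mean π f + a := by
    unfold brg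
    rw [mean_add', mean_sub', mean_sub', mean_mul_const, h.mean_const]
  rw [this, ent_eq]; unfold brg; ring

/-- `Ent f = inf_a E brg (f, a)`: the upper half. -/
theorem ent_le_brg (h : IsP π) {f : Ω → ℝ} (hf : ∀ x, 0 ≤ f x) {a : ℝ} (ha : 0 < a) :
    ent π f ≤ mean π (fun x => brg (f x) a) := by
  rw [mean_brg h]; linarith [brg_nonneg (h.mean_nonneg hf) ha]

theorem ent_eq_brg (h : IsP π) (f : Ω → ℝ) :
    ent π f = mean π (fun x => brg (f x) (mean π f)) := by
  rw [mean_brg h]; simp [brg]

theorem ent_eq_zero_of_mean (h : IsP π) {f : Ω → ℝ} (hf : ∀ x, 0 ≤ f x) (h0 : mean π f = 0) :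
    ent π f = 0 := by
  have hz := h.eq_zero_of_mean hf h0
  have e1 : ∑ x, π x * (f x * Real.log (f x)) = 0 :=
    sum_eq_zero fun x _ => by rw [← mul_assoc, hz x, zero_mul]
  simp [ent, e1, h0]

/-- Holley–Stroock, entropy side. -/
theorem ent_le_of_le {π' : Ω → ℝ} (h : IsP π) (h' : IsP π') {A : ℝ} (hA : ∀ x, π' x ≤ A * π x)
    {f : Ω → ℝ} (hf : ∀ x, 0 ≤ f x) : ent π' f ≤ A * ent π f := by
  rcases eq_or_lt_of_le (h.mean_nonneg hf) with h0 | h0
  · have hz := h.eq_zero_of_mean hf h0.symm
    have h0' : mean π' f = 0 := by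
      refine le_antisymm ?_ (h'.mean_nonneg hf)
      calc mean π' f ≤ ∑ x, A * (π x * f x) := sum_le_sum fun x _ => by
            rw [← mul_assoc]; exact mul_le_mul_of_nonneg_right (hA x) (hf x)
        _ = 0 := by simp [hz]
    rw [ent_eq_zero_of_mean h' hf h0', ent_eq_zero_of_mean h hf h0.symm, mul_zero]
  calc ent π' f ≤ mean π' (fun x => brg (f x) (mean π f)) := ent_le_brg h' hf h0
    _ ≤ ∑ x, A * (π x * brg (f x) (mean π f)) := sum_le_sum fun x _ => by
        rw [← mul_assoc]; exact mul_le_mul_of_nonneg_right (hA x) (brg_nonneg (hf x) h0)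
    _ = A * ent π f := by rw [← mul_sum, ent_eq_brg h]; rfl

/-- Holley–Stroock, variance side. -/
theorem var_le_of_le {π' : Ω → ℝ} (h' : IsP π') {A : ℝ} (hA : ∀ x, π' x ≤ A * π x)
    (f : Ω → ℝ) : var π' f ≤ A * var π f := by
  refine (h'.var_le_sq f (mean π f)).trans ?_
  rw [var, mul_sum]
  exact sum_le_sum fun x _ => by
    rw [← mul_assoc]; exact mul_le_mul_of_nonneg_right (hA x) (sq_nonneg _)


/-- The entropy inequality with a density `g` that may vanish off the support of `f π`. -/
theorem mean_mul_log_le (h : IsP π) {f g : Ω → ℝ} (hf : ∀ x, 0 ≤ f x) (hg : ∀ x, 0 ≤ g x)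
    (hfg : ∀ x, π x * f x ≠ 0 → g x ≠ 0) :
    mean π (fun x => f x * Real.log (g x)) ≤ ent π f + mean π f * Real.log (mean π g) := by
  rcases eq_or_lt_of_le (h.mean_nonneg hf) with h0 | h0
  · have hz := h.eq_zero_of_mean hf h0.symm
    have e2 : mean π (fun x => f x * Real.log (g x)) = 0 :=
      sum_eq_zero fun x _ => by rw [← mul_assoc, hz x, zero_mul]
    rw [e2, ent_eq_zero_of_mean h hf h0.symm, ← h0]; simp
  set m := mean π f with hm
  set Z := mean π g with hZ
  have hZ0 : 0 < Z := by
    by_contra hn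
    have hZ1 : Z = 0 := le_antisymm (not_lt.1 hn) (h.mean_nonneg hg)
    have hz := h.eq_zero_of_mean hg hZ1
    have : ∀ x, π x * f x = 0 := fun x => by
      by_contra hx
      rcases mul_eq_zero.1 (hz x) with h1 | h1
      · exact hx (by rw [h1, zero_mul])
      · exact hfg x hx h1
    have : m = 0 := sum_eq_zero fun x _ => this x
    exact h0.ne' this
  have pt : ∀ x, π x * (f x * Real.log (g x)) ≤ π x * (f x * Real.log (f x) - f x * Real.log m
      + f x * Real.log Z + (m / Z * g x - f x)) := by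
    intro x
    by_cases hx : π x * f x = 0
    · have h1 : 0 ≤ π x * (m / Z * g x) := mul_nonneg (h.nn x) (mul_nonneg (by positivity) (hg x))
      have e : ∀ u, π x * (f x * u) = 0 := fun u => by rw [← mul_assoc, hx, zero_mul]
      simp only [mul_add, mul_sub, e, hx]; linarith
    refine mul_le_mul_of_nonneg_left ?_ (h.nn x)
    have hgx : 0 < g x := lt_of_le_of_ne (hg x) (hfg x hx).symm
    have h1 := brg_nonneg (hf x) (a := m / Z * g x) (by positivity)
    unfold brg at h1
    rw [Real.log_mul (by positivity) hgx.ne', Real.log_div h0.ne' hZ0.ne'] at h1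
    nlinarith
  refine (sum_le_sum fun x _ => pt x).trans (le_of_eq ?_)
  change mean π (fun x => f x * Real.log (f x) - f x * Real.log m + f x * Real.log Z +
    (m / Z * g x - f x)) = _
  rw [mean_add', mean_add', mean_sub', mean_sub', mean_mul_const, mean_mul_const, mean_const_mul,
    ent_eq, ← hm, ← hZ, div_mul_cancel₀ _ hZ0.ne']
  ring

/-- the entropy inequality with a parameter -/
theorem mean_mul_le_theta (h : IsP π) {f : Ω → ℝ} (hf : ∀ x, 0 ≤ f x) (g : Ω → ℝ) {θ : ℝ}
    (hθ : 0 < θ) : mean π (fun x => f x * g x) ≤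
      (ent π f + mean π f * Real.log (mean π fun x => Real.exp (θ * g x))) / θ := by
  have := h.mean_mul_le_ent hf fun x => θ * g x
  rw [le_div_iff₀ hθ, ← mean_mul_const]
  refine le_trans (le_of_eq ?_) this
  exact mean_congr fun x => by ring

/-- `Ent f ≤ Cov (f, log f)`: the modified log-Sobolev inequality of the complete graph. -/
theorem ent_le_cov (h : IsP π) {f : Ω → ℝ} (hf : ∀ x, 0 < f x) :
    ent π f ≤ mean π (fun x => f x * Real.log (f x)) -
      mean π f * mean π (fun x => Real.log (f x)) := by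
  have h1 := mean_mul_log_le h (f := fun _ => 1) (g := f) (fun _ => zero_le_one)
    (fun x => (hf x).le) fun x _ => (hf x).ne'
  have h2 : ent π (fun _ => 1) = 0 := by simp [ent, h.mean_const]
  rw [h2, h.mean_const] at h1
  simp only [one_mul, zero_add] at h1
  rw [ent_eq]
  nlinarith [mean_pos h hf]

/-- Jensen for `log`. -/
theorem mean_log_le (h : IsP π) {f : Ω → ℝ} (hf : ∀ x, 0 < f x) :
    mean π (fun x => Real.log (f x)) ≤ Real.log (mean π f) := by
  have h1 := mean_mul_log_le h (f := fun _ => 1) (g := f) (fun _ => zero_le_one)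
    (fun x => (hf x).le) fun x _ => (hf x).ne'
  have h2 : ent π (fun _ => 1) = 0 := by simp [ent, h.mean_const]
  rw [h2, h.mean_const] at h1
  simpa using h1

/-- Jensen for `exp`. -/
theorem mean_le_log_mean_exp (h : IsP π) (g : Ω → ℝ) :
    mean π g ≤ Real.log (mean π fun x => Real.exp (g x)) := by
  simpa using mean_log_le h (f := fun x => Real.exp (g x)) fun x => Real.exp_pos _


/-- `Ent f ≤ log M · E f` if `f ≤ M E f`. -/
theorem ent_le_of_bdd (h : IsP π) {f : Ω → ℝ} (hf : ∀ x, 0 ≤ f x) {M : ℝ}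
    (hM : ∀ x, π x ≠ 0 → f x ≤ M * mean π f) : ent π f ≤ Real.log M * mean π f := by
  rcases eq_or_lt_of_le (h.mean_nonneg hf) with h0 | h0
  · rw [ent_eq_zero_of_mean h hf h0.symm, ← h0, mul_zero]
  have : mean π (fun x => f x * Real.log (f x)) ≤
      mean π (fun x => f x * (Real.log M + Real.log (mean π f))) := by
    refine sum_le_sum fun x _ => ?_
    by_cases hx : π x = 0
    · simp [hx]
    refine mul_le_mul_of_nonneg_left ?_ (h.nn x)
    rcases eq_or_lt_of_le (hf x) with hfx | hfx
    · simp [← hfx]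
    refine mul_le_mul_of_nonneg_left ?_ (hf x)
    have hM0 : 0 < M := by
      by_contra hn
      have := mul_nonpos_of_nonpos_of_nonneg (not_lt.1 hn) h0.le
      linarith [hM x hx]
    rw [← Real.log_mul hM0.ne' h0.ne']
    exact Real.log_le_log hfx (hM x hx)
  rw [mean_mul_const] at this
  rw [ent_eq]; nlinarith

/-- `Ent f ≤ log (1 / π_min) · E f`. -/
theorem ent_le_of_min (h : IsP π) {f : Ω → ℝ} (hf : ∀ x, 0 ≤ f x) {a : ℝ} (ha : 0 < a)
    (hπ : ∀ x, π x ≠ 0 → a ≤ π x) : ent π f ≤ Real.log (1 / a) * mean π f := by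
  refine ent_le_of_bdd h hf fun x hx => ?_
  have h1 : π x * f x ≤ mean π f :=
    single_le_sum (f := fun y => π y * f y) (fun y _ => mul_nonneg (h.nn y) (hf y)) (mem_univ x)
  rw [one_div, le_inv_mul_iff₀ ha]
  exact (mul_le_mul_of_nonneg_right (hπ x hx) (hf x)).trans h1

/-! ### Convexity and mixtures -/

section mix

variable {A : Type*} [Fintype A] {ρ : A → ℝ}

/-- `f ↦ Ent f` is convex (even sub-additive: only `ρ ≥ 0` is used). -/
theorem ent_mix_le (h : IsP π) (hρ : ∀ a, 0 ≤ ρ a) {F : A → Ω → ℝ} (hF : ∀ a x, 0 ≤ F a x) :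
    ent π (fun x => mean ρ fun a => F a x) ≤ mean ρ fun a => ent π (F a) := by
  set G : Ω → ℝ := fun x => mean ρ fun a => F a x with hG
  have hG0 : ∀ x, 0 ≤ G x := fun x => sum_nonneg fun a _ => mul_nonneg (hρ a) (hF a x)
  have e1 : mean π (fun x => G x * Real.log (G x)) =
      mean ρ fun a => mean π fun x => F a x * Real.log (G x) := by
    simp only [hG, mean, mul_sum, sum_mul]
    rw [sum_comm]
    exact sum_congr rfl fun a _ => sum_congr rfl fun x _ => by ring
  have e2 : mean π G = mean ρ fun a => mean π (F a) := by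
    simp only [hG, mean, mul_sum]
    rw [sum_comm]
    exact sum_congr rfl fun a _ => sum_congr rfl fun x _ => by ring
  have e3 : mean π G * Real.log (mean π G) =
      mean ρ fun a => mean π (F a) * Real.log (mean π G) := by
    rw [mean_mul_const, ← e2]
  rw [ent_eq, e1, e3, ← mean_sub']
  refine sum_le_sum fun a _ => ?_
  rcases eq_or_lt_of_le (hρ a) with ha | ha
  · simp [← ha]
  refine mul_le_mul_of_nonneg_left ?_ (hρ a)
  have := mean_mul_log_le h (hF a) hG0 fun x hx h0 => by
    have h1 := (sum_eq_zero_iff_of_nonneg fun b _ => mul_nonneg (hρ b) (hF b x)).1 h0 a (mem_univ a)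
    rcases mul_eq_zero.1 h1 with h2 | h2
    · exact ha.ne' h2
    · exact hx (by rw [h2, mul_zero])
  linarith


/-- the mixture of the laws `K a` with weights `ρ a` (push-forward of `ρ` by the kernel `K`) -/
def mix (ρ : A → ℝ) (K : A → Ω → ℝ) : Ω → ℝ := fun x => ∑ a, ρ a * K a x


theorem mean_mix (K : A → Ω → ℝ) (f : Ω → ℝ) :
    mean (mix ρ K) f = mean ρ fun a => mean (K a) f := by
  simp only [mix, mean, mul_sum, sum_mul]
  rw [sum_comm]
  exact sum_congr rfl fun a _ => sum_congr rfl fun x _ => by ring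

theorem isP_mix (hρ : IsP ρ) {K : A → Ω → ℝ} (hK : ∀ a, IsP (K a)) : IsP (mix ρ K) where
  nn x := sum_nonneg fun a _ => mul_nonneg (hρ.nn a) ((hK a).nn x)
  sum1 := by
    simp only [mix]
    rw [sum_comm]
    simp only [← mul_sum, (hK _).sum1, mul_one, hρ.sum1]





end mix

/-! ### Events -/

/-- indicator -/
noncomputable def ind (p : Ω → Prop) : Ω → ℝ := fun x => by classical exact if p x then 1 else 0

theorem ind_nonneg (p : Ω → Prop) (x : Ω) : 0 ≤ ind p x := by unfold ind; split_ifs <;> norm_num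

theorem ind_le_one (p : Ω → Prop) (x : Ω) : ind p x ≤ 1 := by unfold ind; split_ifs <;> norm_num

theorem ind_pos {p : Ω → Prop} {x : Ω} (h : p x) : ind p x = 1 := by unfold ind; rw [if_pos h]

theorem ind_neg {p : Ω → Prop} {x : Ω} (h : ¬ p x) : ind p x = 0 := by unfold ind; rw [if_neg h]





/-- `L²` bound for events. -/
theorem event_sq_le (h : IsP π) (f : Ω → ℝ) (p : Ω → Prop) :
    mean π (fun x => f x * ind p x) ^ 2 ≤ ip π f f * mean π (ind p) := by
  have h1 := h.ip_sq_le f (ind p)
  have e : ip π (ind p) (ind p) = mean π (ind p) := mean_congr fun x => by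
    by_cases hx : p x
    · rw [ind_pos hx, one_mul]
    · rw [ind_neg hx, zero_mul]
  rwa [e] at h1

/-- Chernoff. -/
theorem chernoff (h : IsP π) (F : Ω → ℝ) (a : ℝ) {t : ℝ} (ht : 0 ≤ t) :
    mean π (ind fun x => a ≤ F x) ≤ Real.exp (-(t * a)) * mean π fun x => Real.exp (t * F x) := by
  rw [← mean_const_mul]
  refine h.mean_mono fun x => ?_
  by_cases hx : a ≤ F x
  · rw [ind_pos (p := fun x => a ≤ F x) hx, ← Real.exp_add]
    exact Real.one_le_exp (by nlinarith)
  · rw [ind_neg (p := fun x => a ≤ F x) hx]; positivity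

end Crest.Agent.T157.Ent
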