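import Crest.Agent.T157.NrmG_84

/-!
# Row 157, part E: the free edge of `W - diag a`, Ky Fan sums (helper84)

* `fe_mean`, `fe_mean_goe`, `fe_mean_J`: `E λ_max (W - diag a) ≤ -τ + s² ∑ 1 / (a_i - τ)`;
* `fe_tail_goe`, `fe_tail_J`: Gaussian tails above this bound;
* `f3_goe`, `f3_n`, `f3_J`: `1 - d (W - m) d ⪰ c₁² / 80` when `s² ∑ d⁴ ≤ 1 - c₁`;
* `ky`, `kyfan`, `abs_ky_sub_le`, `ky_tail_goe`, `ky_tail_J`.
-/

set_option autoImplicit false
set_option linter.unusedSectionVars false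

noncomputable section

namespace Crest.Agent.T157.Fe

open Matrix Finset MeasureTheory ProbabilityTheory
open Crest.ProbabilityR.SpinGlassDynamics Crest.Agent.T157.E Crest.Agent.T157.Eig
open Crest.Agent.T157.Cond Crest.Agent.T157.Nrm
open Crest.Agent.T157.Conc (en ELip)

variable {ι : Type*} [Fintype ι] [DecidableEq ι] {n : ℕ}

lemma herm_diag (a : ι → ℝ) : (diagonal a).IsHermitian := herm_iff.2 (diagonal_transpose a)

lemma quad_diag (a u : ι → ℝ) : u ⬝ᵥ diagonal a *ᵥ u = ∑ i, a i * u i ^ 2 :=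
  sum_congr rfl fun i _ => by rw [mulVec_diagonal]; ring

lemma measurable_lam_add (D : Matrix ι ι ℝ) (k : ℕ) :
    Measurable fun W : Matrix ι ι ℝ => lam (D + W) k :=
  (measurable_lam' k).comp (measurable_const.t157_add measurable_id)


lemma mp_smul (s c : ℝ) : MeasurePreserving (fun W => c • W) (goe ι s) (goe ι (c * s)) :=
  ⟨measurable_const.t157_smul measurable_id, goe_smul s c⟩

/-- the free edge bound -/
def fe (s : ℝ) (a : ι → ℝ) (τ : ℝ) : ℝ := -τ + s ^ 2 * ∑ i, 1 / (a i - τ)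

/-- **free edge**, mean bound -/
theorem fe_mean [Nonempty ι] (s : ℝ) {a : ι → ℝ} {τ : ℝ} (h : ∀ i, τ < a i) :
    ∫ x, lam (-diagonal a + symG s x) 0 ∂(gv (ι × ι)) ≤ fe s a τ := by
  have hi : ∀ i ∈ univ, Integrable (fun g : ι → ℝ => 1 / (a i - τ) * (g i * g i)) (gv ι) :=
    fun i _ => (integrable_sq_coord i).const_mul _
  have hi2 := (integrable_finsetSum _ hi).const_mul (s ^ 2)
  refine (goe_sf (herm_diag a).neg s
    (φ := fun g => -τ + s ^ 2 * ∑ i, 1 / (a i - τ) * (g i * g i))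
    ((integrable_const _).add hi2) fun g u hu => ?_).trans (le_of_eq ?_)
  · have e : τ = ∑ i, τ * u i ^ 2 := by
      rw [← mul_sum, show ∑ i, u i ^ 2 = u ⬝ᵥ u from sum_congr rfl fun i _ => sq _, hu, mul_one]
    rw [neg_mulVec, dotProduct_neg, quad_diag, dotProduct, mul_sum, mul_sum]
    have : ∑ i, (τ * u i ^ 2 - a i * u i ^ 2 + 2 * s * (u i * g i)) ≤
        ∑ i, s ^ 2 * (1 / (a i - τ) * (g i * g i)) := by
      refine sum_le_sum fun i _ => ?_
      have hp := sub_pos.2 (h i)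
      rw [one_div, inv_mul_eq_div, ← mul_div_assoc, le_div_iff₀ hp]
      nlinarith [sq_nonneg ((a i - τ) * u i - s * g i)]
    rw [sum_add_distrib, sum_sub_distrib, ← e] at this
    linarith
  · rw [integral_add (integrable_const _) hi2, integral_const_mul, integral_finsetSum _ hi]
    simp only [integral_const_mul, integral_sq_coord, mul_one, integral_const, probReal_univ,
      one_smul, fe]



/-- tail of an eigenvalue of `D + W` above a bound of its mean -/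
theorem goe_lam_tail' {D : Matrix ι ι ℝ} (hD : D.IsHermitian) (s : ℝ) (k : ℕ) {M t : ℝ}
    (hM : ∫ x, lam (D + symG s x) k ∂(gv (ι × ι)) ≤ M) (ht : 0 ≤ t) :
    (goe ι s).real {W | M + t ≤ lam (D + W) k} ≤ Real.exp (-t ^ 2 / (4 * s ^ 2)) := by
  rw [goe, map_measureReal_apply (measurable_symG s)
    (measurableSet_le measurable_const (measurable_lam_add D k))]
  exact symG_lam_tail hD s k hM ht

theorem fe_tail_goe [Nonempty ι] (s : ℝ) {a : ι → ℝ} {τ t : ℝ} (h : ∀ i, τ < a i) (ht : 0 ≤ t) :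
    (goe ι s).real {W | fe s a τ + t ≤ lam (W - diagonal a) 0} ≤
      Real.exp (-t ^ 2 / (4 * s ^ 2)) := by
  simp only [sub_eq_neg_add]
  exact goe_lam_tail' (herm_diag a).neg s 0 (fe_mean s h) ht



/-! ### the form `1 - d (W - m) d ⪰ c` -/






lemma sq_param (θ : ℝ) : (θ * (1 / √(n : ℝ))) ^ 2 = θ ^ 2 / n := by
  rw [mul_pow, div_pow, Real.sq_sqrt (Nat.cast_nonneg n)]; ring






/-! ### Ky Fan sums -/


lemma bessel {σ : Type*} [Fintype σ] [DecidableEq σ] {u : σ → ι → ℝ}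
    (hu : ∀ a b, u a ⬝ᵥ u b = if a = b then 1 else 0) (v : ι → ℝ) :
    ∑ a, (v ⬝ᵥ u a) ^ 2 ≤ v ⬝ᵥ v := by
  have h := dot_self_nonneg (v - ∑ a, (v ⬝ᵥ u a) • u a)
  have e1 : v ⬝ᵥ ∑ a, (v ⬝ᵥ u a) • u a = ∑ a, (v ⬝ᵥ u a) ^ 2 := by
    rw [dotProduct_sum]; exact sum_congr rfl fun a _ => by rw [dotProduct_smul, smul_eq_mul, sq]
  have e2 : (∑ a, (v ⬝ᵥ u a) • u a) ⬝ᵥ ∑ a, (v ⬝ᵥ u a) • u a = ∑ a, (v ⬝ᵥ u a) ^ 2 := by
    rw [sum_dotProduct]
    refine sum_congr rfl fun a _ => ?_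
    simp [dotProduct_sum, hu, sq]
  rw [sub_dotProduct, dotProduct_sub, dotProduct_sub, e2, dotProduct_comm (∑ a, (v ⬝ᵥ u a) • u a) v,
    e1] at h
  linarith











end Crest.Agent.T157.Fe

end
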