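import Crest.Agent.T157.CqDef_72
import Crest.Agent.T157.EdMba_36
import Crest.Agent.T157.EdClt_80

-- ▼ part T157/OscDef_27
section

/-!
# Row 157, part C: the oscillation lemma.  Definitions and leaves (helper27)

`Cq.OscGlue` follows from `L2Stmt TailStmt UsStmt ChStmt DuStmt KStmt` through
`StopGlue ConGlue FinGlue` (`oscGlue_of`).
-/

set_option autoImplicit false

noncomputable section

namespace Crest.Agent.T157.Cq.Osc

open MeasureTheory ProbabilityTheory Matrix Filter Topology Finset Real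
open Crest.Agent.T157.E Crest.Agent.T157.St Crest.Agent.T157.Ed

/-- noise sequences -/
abbrev Nz (n : ℕ) : Type := ℕ → Fin n → ℝ
/-- law of the noise -/
abbrev PP (n : ℕ) : Measure (Nz n) := Measure.infinitePi fun _ : ℕ => gv (Fin n)

variable {n : ℕ}

/-- depends only on the noise before time `i` -/
def Ad {α : Type*} (i : ℕ) (F : Nz n → α) : Prop :=
  ∀ ω ω' : Nz n, (∀ l, l < i → ω l = ω' l) → F ω = F ω'
/-- `E F ≤ c` -/
def EB (F : Nz n → ℝ) (c : ℝ) : Prop :=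
  ∫⁻ ω, ENNReal.ofReal (F ω) ∂PP n ≤ ENNReal.ofReal c
/-- martingale increment -/
def inc (a c ξ : Fin n → ℝ) : ℝ := ∑ k, (a k * ξ k + c k * (ξ k ^ 2 - 1))
/-- its variance -/
def vr (a c : Fin n → ℝ) : ℝ := ∑ k, (a k ^ 2 + 2 * c k ^ 2)
/-- martingale -/
def Ms (a c : ℕ → Nz n → Fin n → ℝ) (j : ℕ) (ω : Nz n) : ℝ :=
  ∑ i ∈ range j, inc (a i ω) (c i ω) (ω i)
/-- predictable coefficients -/
structure Co (a c : ℕ → Nz n → Fin n → ℝ) : Prop where
  ma : ∀ i, Measurable (a i)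
  mc : ∀ i, Measurable (c i)
  aa : ∀ i, Ad i (a i)
  ac : ∀ i, Ad i (c i)

/-- second moment -/
def L2Stmt : Prop := ∀ (n : ℕ) (a c : ℕ → Nz n → Fin n → ℝ), Co a c →
  ∀ (x₀ : ℝ) (w : ℕ → ℝ) (j : ℕ),
    (∀ i, i < j → 0 ≤ w i ∧ EB (fun ω => vr (a i ω) (c i ω)) (w i)) →
    EB (fun ω => (x₀ + Ms a c j ω) ^ 2) (x₀ ^ 2 + ∑ i ∈ range j, w i)

/-- tail (exponential supermartingale, `λ = x / (2 W)`) -/
def TailStmt : Prop := ∀ (n : ℕ) (a c : ℕ → Nz n → Fin n → ℝ), Co a c →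
  ∀ (w : ℕ → ℝ) (j : ℕ) (W c₀ x : ℝ), 0 < W → 0 < x →
    (∀ i, i < j → ∀ ω, vr (a i ω) (c i ω) ≤ w i) → ∑ i ∈ range j, w i ≤ W →
    (∀ i, i < j → ∀ ω k, |c i ω k| ≤ c₀) → 2 * x * c₀ ≤ W →
    (PP n).real {ω | x < |Ms a c j ω|} ≤ 2 * exp (-(x ^ 2 / (4 * W)))

/-- the scheme, driven by the noise -/
def XS (n : ℕ) (η : ℕ → ℝ) (t κ h : ℝ) (x : Fin n → ℝ) : ℕ → Nz n → Fin n → ℝ
  | 0, _ => x
  | j + 1, ω => Fs n η t κ h (XS n η t κ h x j ω) + √(2 * h) • ω j

def UsStmt : Prop := ∀ (n : ℕ) (η : ℕ → ℝ) (t κ h : ℝ) (x : Fin n → ℝ) (j : ℕ),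
  Measurable (XS n η t κ h x j) ∧
    ∀ v, B1 v → (Us n η t κ h)^[j] v x = ∫ ω, v (XS n η t κ h x j ω) ∂PP n

/-- dyadic chaining -/
def ChStmt : Prop := ∃ D : ℝ, 0 ≤ D ∧ ∀ (n : ℕ) (ν : ℕ → Nz n → ℝ) (M : ℕ) (B : ℝ), 0 ≤ B →
  (∀ ω, ν 0 ω = 0) →
  (∀ (j l : ℕ) (x : ℝ), 0 < l → j + l ≤ M → 0 < x → x ≤ 1 →
    (PP n).real {ω | x < |ν (j + l) ω - ν j ω|} ≤ B * (l : ℝ) ^ 2 / x ^ 8) →
  (PP n).real {ω | ∃ j, j ≤ M ∧ 1 < |ν j ω|} ≤ D * B * (M : ℝ) ^ 2

/-- the parameters of the scheme -/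
structure Sy (n : ℕ) : Type where
  η : ℕ → ℝ
  t : ℝ
  κ : ℝ
  h : ℝ
  ρ : ℕ → ℝ

namespace Sy
variable (S : Sy n)

/-- `1 - 2 η_k h` -/
def q (k : Fin n) : ℝ := 1 - 2 * S.η k * S.h
/-- response kernel -/
def K (k : Fin n) (m : ℕ) : ℝ := Kk S.η S.h S.ρ k m
/-- the linearised state `(γ_j, β_j)` -/
def st (p : ℝ × (Fin n → ℝ)) : ℕ → Nz n → ℝ × (Fin n → ℝ)
  | 0, _ => p
  | j + 1, ω =>
    ((1 - S.h * S.κ * S.t) * (st p j ω).1 + S.h * S.κ * ∑ k, (st p j ω).2 k ^ 2,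
      fun k => √(S.q k) * (st p j ω).2 k + √(2 * S.h * ((1 - S.h * S.κ * S.t) * (st p j ω).1 +
        S.h * S.κ * ∑ k, (st p j ω).2 k ^ 2)) * ω j k)
/-- `β_j` -/
def be (p : ℝ × (Fin n → ℝ)) (j : ℕ) (ω : Nz n) : Fin n → ℝ := (S.st p j ω).2
/-- `γ_j` -/
def ga (p : ℝ × (Fin n → ℝ)) (j : ℕ) (ω : Nz n) : ℝ := (S.st p j ω).1
/-- `g_j = γ_{j+1}` (predictable) -/
def g (p : ℝ × (Fin n → ℝ)) (j : ℕ) (ω : Nz n) : ℝ := (S.st p (j + 1) ω).1
/-- the mean of `g_j` -/
def gb (p : ℝ × (Fin n → ℝ)) (j : ℕ) : ℝ :=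
  (1 - S.h * S.κ * S.t) * S.ρ j / S.κ * p.1 + ∑ k, S.K k j * p.2 k ^ 2
/-- linear coefficient of the noise of `β_{j,k}²` -/
def ca (p : ℝ × (Fin n → ℝ)) (j : ℕ) (ω : Nz n) (k : Fin n) : ℝ :=
  2 * √(S.q k) * S.be p j ω k * √(2 * S.h * S.g p j ω)
/-- quadratic coefficient -/
def cc (p : ℝ × (Fin n → ℝ)) (j : ℕ) (ω : Nz n) : ℝ := 2 * S.h * S.g p j ω
/-- weighted mass -/
def V (T : ℝ) (b : Fin n → ℝ) : ℝ := ∑ k : Fin n, Wt S.η T k * b k ^ 2
/-- good times -/
def Good (T Z : ℝ) (p : ℝ × (Fin n → ℝ)) (i : ℕ) (ω : Nz n) : Prop :=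
  S.V T (S.be p i ω) ≤ Z ∧ |S.g p i ω - S.gb p i| ≤ 1
/-- all times before `j` are good for both runs -/
def Ok (T Z : ℝ) (p p' : ℝ × (Fin n → ℝ)) (j : ℕ) : Set (Nz n) :=
  {ω | ∀ i, i < j → S.Good T Z p i ω ∧ S.Good T Z p' i ω}

/-- basic admissibility -/
structure Bas : Prop where
  h0 : 0 < S.h
  k0 : 0 < S.κ
  t1 : S.h * S.κ * S.t < 1
  q0 : ∀ k, 0 ≤ S.q k
  rho : IsRho n S.η S.t S.κ S.h S.ρ

/-- the kernel estimates on `[0, T]`, `M = ⌊T / h⌋` -/
structure Par (c D C₁ T : ℝ) (M : ℕ) : Prop extends S.Bas where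
  T0 : 0 < T
  T1 : T ≤ 1
  hT : S.h ≤ T
  Mu : M * S.h ≤ T
  Ml : T ≤ (M + 1) * S.h
  sm : C₁ * √S.h * n ≤ 1
  q2 : ∀ k i, i ≤ M + 1 → S.q k ^ i ≤ 2
  r0 : ∀ m, m ≤ M → 0 ≤ S.ρ m
  ka : S.h * ∑ i ∈ range (M + 1), ∑ k : Fin n, Wt S.η T k * S.q k ^ i ≤ 2 * D * √T
  Ku : ∀ (k : Fin n) (m : ℕ), m ≤ M → S.K k m ^ 2 ≤ D * Wt S.η T k
  Kl : ∀ (k : Fin n) (m : ℕ), m ≤ M → T / 2 ≤ m * S.h → c * Wt S.η T k / √T ≤ S.K k m
  Kd : ∀ (k : Fin n) (m l : ℕ), m + l ≤ M → 0 < m →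
    (S.K k (m + l) - S.K k m) ^ 2 ≤ D * min 1 ((l : ℝ) / m) * Wt S.η T k

/-- admissible starts -/
structure Ini (C₁ σ : ℝ) (M : ℕ) (p : ℝ × (Fin n → ℝ)) : Prop where
  g0 : 0 < p.1
  up : ∀ j, j ≤ M → S.gb p j + 1 ≤ C₁ / √((j + 1) * S.h)
  cl : ∀ j, j ≤ M → σ ^ 4 ≤ j * S.h → |S.gb p j - S.ρ j| ≤ σ
  lo : ∀ j, j ≤ M → σ ^ 4 ≤ j * S.h → 2 ≤ S.gb p j
  de : ∀ i, i ≤ M → σ ^ 2 ≤ i * S.h → ∑ k, S.q k ^ i * p.2 k ^ 2 ≤ σ ^ 2

end Sy

/-- **linearisation and Duhamel formula** (deterministic) -/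
def DuStmt : Prop := ∀ (n : ℕ) (S : Sy n) (p : ℝ × (Fin n → ℝ)), S.Bas → 0 < p.1 →
  (∀ j, Measurable (S.st p j) ∧ Ad j (S.st p j) ∧ Ad j (S.g p j)) ∧
  (∀ j ω, 0 < S.ga p j ω ∧
    XS n S.η S.t S.κ S.h (fun k => p.2 k / √p.1) j ω = fun k => S.be p j ω k / √(S.ga p j ω)) ∧
  (∀ i j ω, i ≤ j →
    (1 - S.h * S.κ * S.t) * S.ρ (j - i) / S.κ * S.ga p i ω + ∑ k, S.K k (j - i) * S.be p i ω k ^ 2 =
      S.gb p j + ∑ l ∈ range i, inc (fun k => S.K k (j - 1 - l) * S.ca p l ω k)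
        (fun k => S.K k (j - 1 - l) * S.cc p l ω) (ω l)) ∧
  ∀ j ω, S.g p j ω = S.gb p j + ∑ l ∈ range j, inc (fun k => S.K k (j - 1 - l) * S.ca p l ω k)
    (fun k => S.K k (j - 1 - l) * S.cc p l ω) (ω l)

/-- **the means** (deterministic; `A = h ∑_{i < ⌊ρ₁ / h⌋} ∑_k q_k^i x_k²`) -/
def KStmt : Prop := ∀ L D : ℝ, 0 ≤ L → 0 ≤ D → ∃ C₁ : ℝ, 1 ≤ C₁ ∧ ∀ σ : ℝ, 0 < σ → σ ≤ 1 →
  ∃ ρ₁ δ : ℝ, 0 < ρ₁ ∧ 0 < δ ∧ ∀ a : ℝ, 0 < a → ∀ᶠ n in atTop, ∀ η : ℕ → ℝ,
    (∀ k, k < n → -L ≤ η k ∧ η k ≤ 10 * tau n) → ∀ᶠ h : ℝ in 𝓝[>] (0 : ℝ),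
      ∀ (ρ : ℕ → ℝ) (M : ℕ), (M : ℝ) * h ≤ 1 →
      (∀ m : ℕ, m ≤ M → 0 ≤ ρ m ∧ ρ m ≤ 2 * (n : ℝ) ^ 2 ∧
        h * ∑ i ∈ range (m + 1), ρ i ≤ D * (√(m * h) + (sx n ^ 2)⁻¹) ∧
        (0 < m → ρ m ≤ D * ((√(m * h))⁻¹ + (sx n ^ 2 * (m * h))⁻¹)) ∧
        (σ ^ 4 ≤ m * h → 3 ≤ ρ m ∧ ∀ l : ℕ, 2 * l ≤ m →
          |ρ m - ρ (m - l)| ≤ D * (l * h) * (m * h) ^ (-(3 / 2) : ℝ))) →
      ∀ x, Nice n η ρ₁ δ a x → ∃ A : ℝ, 0 < A ∧
        (⟨η, sx n ^ 2, (n : ℝ) ^ 2, h, ρ⟩ : Sy n).Ini C₁ σ M (A⁻¹, fun k => x k / √A)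

/-- **the stop is unlikely** -/
def StopStmt : Prop := ∀ c D C₁ : ℝ, 0 < c → 0 ≤ D → 1 ≤ C₁ → ∃ D' : ℝ,
  ∀ (n : ℕ) (S : Sy n) (T σ : ℝ) (M N : ℕ) (p : ℝ × (Fin n → ℝ)), S.Par c D C₁ T M →
    S.Ini C₁ σ M p → N ≤ M → T / 2 + N * S.h ≤ M * S.h →
    (PP n).real {ω | ∃ i, i < N ∧ ¬ S.Good T (C₁ / c) p i ω} ≤ D' * T ^ 2

/-- **contraction** -/
def ConStmt : Prop := ∀ c D C₁ Z : ℝ, 0 ≤ D → 1 ≤ C₁ → 0 ≤ Z → ∃ D' T₀ : ℝ, 0 ≤ D' ∧ 0 < T₀ ∧
  ∀ (n : ℕ) (S : Sy n) (T σ : ℝ) (M : ℕ) (p p' : ℝ × (Fin n → ℝ)), S.Par c D C₁ T M →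
    T ≤ T₀ → 0 < σ → σ ≤ 1 → S.h ≤ σ ^ 4 → S.Ini C₁ σ M p → S.Ini C₁ σ M p' → ∀ j, j ≤ M →
      EB ((S.Ok T Z p p' j).indicator fun ω =>
        ((S.g p j ω - S.gb p j) - (S.g p' j ω - S.gb p' j)) ^ 2) (D' * σ) ∧
      (σ ^ 2 ≤ j * S.h → ∀ k, EB ((S.Ok T Z p p' j).indicator fun ω =>
        (S.be p j ω k - S.be p' j ω k) ^ 2) (D' * σ))

def StopGlue : Prop := TailStmt → ChStmt → DuStmt → StopStmt
def ConGlue : Prop := L2Stmt → DuStmt → ConStmt
def FinGlue : Prop := UsStmt → DuStmt → KStmt → StopStmt → ConStmt → OscGlue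

theorem oscGlue_of (l : L2Stmt) (t : TailStmt) (u : UsStmt) (c : ChStmt) (d : DuStmt) (k : KStmt)
    (s : StopGlue) (o : ConGlue) (f : FinGlue) : OscGlue := f u d k (s t c d) (o l d)

/-! ### tools -/

/-- resampling one coordinate -/
theorem mp_update (i : ℕ) : MeasurePreserving
    (fun q : Nz n × (Fin n → ℝ) => Function.update q.1 i q.2) ((PP n).prod (gv (Fin n))) (PP n) := by
  have hm : Measurable fun q : Nz n × (Fin n → ℝ) => Function.update q.1 i q.2 :=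
    measurable_update'
  refine ⟨hm, Measure.eq_infinitePi _ fun s t ht => ?_⟩
  rw [Measure.map_apply hm (MeasurableSet.pi s.countable_toSet fun l _ => ht l)]
  by_cases hi : i ∈ s
  · have : (fun q : Nz n × (Fin n → ℝ) => Function.update q.1 i q.2) ⁻¹' Set.pi (↑s) t =
        (Set.pi (↑(s.erase i)) t) ×ˢ t i := by
      ext q
      simp only [Set.mem_preimage, Set.mem_pi, Finset.mem_coe, Set.mem_prod, Finset.mem_erase]
      constructor
      · intro H
        exact ⟨fun l hl => by simpa [Function.update_of_ne hl.1] using H l hl.2,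
          by simpa using H i hi⟩
      · intro H l hl
        by_cases e : l = i
        · subst e; simpa using H.2
        · simpa [Function.update_of_ne e] using H.1 l ⟨e, hl⟩
    rw [this, Measure.prod_prod, Measure.infinitePi_pi _ fun l _ => ht l,
      Finset.prod_erase_mul _ _ hi]
  · have : (fun q : Nz n × (Fin n → ℝ) => Function.update q.1 i q.2) ⁻¹' Set.pi (↑s) t =
        (Set.pi (↑s) t) ×ˢ Set.univ := by
      ext q
      simp only [Set.mem_preimage, Set.mem_pi, Finset.mem_coe, Set.mem_prod, Set.mem_univ,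
        and_true]
      refine forall₂_congr fun l hl => ?_
      rw [Function.update_of_ne (by rintro rfl; exact hi hl)]
    rw [this, Measure.prod_prod, Measure.infinitePi_pi _ fun l _ => ht l, measure_univ, mul_one]

theorem lint_update (i : ℕ) {F : Nz n → ENNReal} (hF : Measurable F) :
    ∫⁻ ω, F ω ∂PP n = ∫⁻ ω, ∫⁻ ξ, F (Function.update ω i ξ) ∂gv (Fin n) ∂PP n := by
  rw [← (mp_update i).lintegral_comp hF]
  exact lintegral_prod _ (hF.comp (mp_update i).measurable).aemeasurable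

theorem Ad.update {α : Type*} {i : ℕ} {F : Nz n → α} (h : Ad i F) {l : ℕ} (hl : i ≤ l) (ω : Nz n)
    (ξ : Fin n → ℝ) : F (Function.update ω l ξ) = F ω :=
  h _ _ fun m hm => Function.update_of_ne (by omega) _ _

theorem Ad.mono {α : Type*} {i j : ℕ} {F : Nz n → α} (h : Ad i F) (hij : i ≤ j) : Ad j F :=
  fun ω ω' H => h ω ω' fun l hl => H l (by omega)

theorem EB.mono {F G : Nz n → ℝ} {c d : ℝ} (h : EB G c) (hF : ∀ ω, F ω ≤ G ω) (hc : c ≤ d) :
    EB F d :=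
  ((lintegral_mono fun ω => ENNReal.ofReal_le_ofReal (hF ω)).trans h).trans
    (ENNReal.ofReal_le_ofReal hc)

theorem EB.const (c : ℝ) : EB (fun _ : Nz n => c) c := by
  simp [EB]

theorem EB.add {F G : Nz n → ℝ} {c d : ℝ} (hF : EB F c) (hG : EB G d) (mF : Measurable F)
    (hc : 0 ≤ c) (hd : 0 ≤ d) : EB (fun ω => F ω + G ω) (c + d) := by
  refine (lintegral_mono fun ω => ENNReal.ofReal_add_le).trans ?_
  rw [lintegral_add_left mF.ennreal_ofReal, ENNReal.ofReal_add hc hd]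
  exact add_le_add hF hG

theorem EB.smul {F : Nz n → ℝ} {c s : ℝ} (hF : EB F c) (hs : 0 ≤ s) :
    EB (fun ω => s * F ω) (s * c) := by
  unfold EB
  simp_rw [ENNReal.ofReal_mul hs]
  rw [lintegral_const_mul' _ _ ENNReal.ofReal_ne_top]
  exact mul_le_mul_right hF _

theorem EB.sum {ι : Type*} (s : Finset ι) {F : ι → Nz n → ℝ} {c : ι → ℝ}
    (h : ∀ i ∈ s, EB (F i) (c i)) (m : ∀ i ∈ s, Measurable (F i)) (hc : ∀ i ∈ s, 0 ≤ c i) :
    EB (fun ω => ∑ i ∈ s, F i ω) (∑ i ∈ s, c i) := by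
  classical
  induction s using Finset.induction_on with
  | empty => simpa using EB.const (n := n) 0
  | insert a s ha ih =>
    simp_rw [Finset.sum_insert ha]
    exact (h a (mem_insert_self _ _)).add
      (ih (fun i hi => h i (mem_insert_of_mem hi)) (fun i hi => m i (mem_insert_of_mem hi))
        fun i hi => hc i (mem_insert_of_mem hi)) (m a (mem_insert_self _ _))
      (hc a (mem_insert_self _ _)) (sum_nonneg fun i hi => hc i (mem_insert_of_mem hi))

/-- `∑_{i<m} (i+1)^{-1/2} ≤ 2 √m` -/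
theorem sum_isqrt (m : ℕ) : ∑ i ∈ range m, (√((i : ℝ) + 1))⁻¹ ≤ 2 * √(m : ℝ) := by
  induction m with
  | zero => simp
  | succ m ih =>
    rw [sum_range_succ]
    push_cast
    have h1 : 0 < √((m : ℝ) + 1) := sqrt_pos.2 (by positivity)
    have h2 : √((m : ℝ) + 1) ^ 2 = m + 1 := sq_sqrt (by positivity)
    have h3 : √(m : ℝ) ^ 2 = m := sq_sqrt (by positivity)
    have h4 : 0 ≤ √(m : ℝ) := sqrt_nonneg _
    have : (√((m : ℝ) + 1))⁻¹ ≤ 2 * √((m : ℝ) + 1) - 2 * √(m : ℝ) := by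
      rw [inv_le_iff_one_le_mul₀ h1]
      nlinarith [sq_nonneg (√((m : ℝ) + 1) - √(m : ℝ))]
    linarith

end Crest.Agent.T157.Cq.Osc

end
private theorem rz_105ca0f5d6 : type_of% @_root_.Crest.Agent.T157.Cq.Osc.Sy.st.eq_def := @_root_.Crest.Agent.T157.Cq.Osc.Sy.st.eq_def -- L91
private theorem rz_8036e6adf8 : type_of% @_root_.Crest.Agent.T157.Cq.Osc.Sy.st.eq_1 := @_root_.Crest.Agent.T157.Cq.Osc.Sy.st.eq_1 -- L91
private theorem rz_4010b131cb : type_of% @_root_.Crest.Agent.T157.Cq.Osc.XS.eq_def := @_root_.Crest.Agent.T157.Cq.Osc.XS.eq_def -- L60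
private theorem rz_6c7f153f31 : type_of% @_root_.Crest.Agent.T157.Cq.Osc.XS.eq_1 := @_root_.Crest.Agent.T157.Cq.Osc.XS.eq_1 -- L60
end

-- ▼ part T157/OscC_27
section

/-! # The contraction step of the oscillation lemma (helper27) -/

set_option autoImplicit false

noncomputable section

namespace Crest.Agent.T157.Cq.Osc

open MeasureTheory ProbabilityTheory Matrix Filter Topology Finset Real
open Crest.Agent.T157.E Crest.Agent.T157.St Crest.Agent.T157.Ed

namespace Con27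

variable {n : ℕ}

theorem conv_le (f e : ℕ → ℝ) (hf : ∀ m, 0 ≤ f m) (he : ∀ m, 0 ≤ e m) (j : ℕ) :
    ∑ l ∈ range j, ∑ r ∈ range l, f (l - 1 - r) * e r ≤
      (∑ m ∈ range j, f m) * ∑ r ∈ range j, e r := by
  rw [sum_comm' (s' := fun r => Ico (r + 1) j) (t' := range j)
    (by intro l r; simp only [mem_range, mem_Ico]; omega), mul_sum]
  refine sum_le_sum fun r _ => ?_
  rw [← sum_mul, sum_Ico_eq_sum_range]
  refine mul_le_mul_of_nonneg_right ?_ (he r)
  have : ∀ m, r + 1 + m - 1 - r = m := fun m => by omega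
  simp_rw [this]
  exact sum_le_sum_of_subset_of_nonneg (range_subset_range.2 (by omega)) fun m _ _ => hf m

theorem sum_gu {h C : ℝ} (h0 : 0 < h) (hC : 0 ≤ C) (m : ℕ) :
    h * ∑ l ∈ range m, C / √((l + 1) * h) ≤ 2 * C * √(m * h) := by
  have s0 : 0 < √h := sqrt_pos.2 h0
  have e : ∀ l : ℕ, C / √((l + 1) * h) = C / √h * (√((l : ℝ) + 1))⁻¹ := fun l => by
    rw [sqrt_mul (by positivity)]; field_simp
  simp_rw [e]
  rw [← mul_sum, sqrt_mul (by positivity)]
  calc h * (C / √h * ∑ l ∈ range m, (√((l : ℝ) + 1))⁻¹) ≤ h * (C / √h * (2 * √(m : ℝ))) := by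
        gcongr; exact sum_isqrt m
    _ = 2 * C * (√(m : ℝ) * (h / √h)) := by ring
    _ = _ := by rw [div_sqrt]

theorem sum_early {h C s : ℝ} (h0 : 0 < h) (hC : 0 ≤ C) (hs : 0 ≤ s) (hh : h ≤ s ^ 2) (j : ℕ) :
    h * ∑ l ∈ range j, (if (l : ℝ) * h < s ^ 2 then C / √((l + 1) * h) else 0) ≤ 3 * C * s := by
  rw [← sum_filter]
  have h1 : ∑ l ∈ (range j).filter (fun l : ℕ => (l : ℝ) * h < s ^ 2), C / √((l + 1) * h) ≤
      ∑ l ∈ range ⌈s ^ 2 / h⌉₊, C / √((l + 1) * h) :=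
    sum_le_sum_of_subset_of_nonneg (fun l hl => mem_range.2 (Nat.lt_ceil.2
      ((lt_div_iff₀ h0).2 (mem_filter.1 hl).2))) fun _ _ _ => by positivity
  refine (mul_le_mul_of_nonneg_left h1 h0.le).trans ((sum_gu h0 hC _).trans ?_)
  have h2 : (⌈s ^ 2 / h⌉₊ : ℝ) * h ≤ s ^ 2 + h := by
    have := (Nat.ceil_lt_add_one (show 0 ≤ s ^ 2 / h by positivity)).le
    calc _ ≤ (s ^ 2 / h + 1) * h := by gcongr
      _ = _ := by field_simp
  have h3 : √((⌈s ^ 2 / h⌉₊ : ℝ) * h) ≤ 3 / 2 * s :=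
    sqrt_le_iff.2 ⟨by positivity, by nlinarith [sq_nonneg s]⟩
  nlinarith

theorem wt_nn {η : ℕ → ℝ} {T : ℝ} (hT : 0 < T) (k : ℕ) : 0 ≤ Wt η T k := by
  unfold Wt
  have := le_max_right (η k) 0
  positivity

theorem wt_le {η : ℕ → ℝ} {T : ℝ} (hT : 0 < T) (k : ℕ) : Wt η T k ≤ T := by
  unfold Wt
  have := le_max_right (η k) 0
  exact div_le_self hT.le (by nlinarith)

theorem inc_sub (a c a' c' ξ : Fin n → ℝ) :
    inc a c ξ - inc a' c' ξ = inc (fun k => a k - a' k) (fun k => c k - c' k) ξ := by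
  unfold inc
  rw [← sum_sub_distrib]
  exact sum_congr rfl fun k _ => by ring

variable (S : Sy n) (T Z : ℝ) (p p' : ℝ × (Fin n → ℝ))

/-- not yet stopped -/
def I (i : ℕ) (ω : Nz n) : ℝ := (S.Ok T Z p p' (i + 1)).indicator 1 ω
/-- difference of the amplitudes -/
def dd (i : ℕ) (ω : Nz n) : ℝ := √(S.g p i ω) - √(S.g p' i ω)
/-- difference of the modes -/
def zz (i : ℕ) (ω : Nz n) (k : Fin n) : ℝ := S.be p i ω k - S.be p' i ω k
/-- difference of the noises -/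
def ee (j : ℕ) (ω : Nz n) : ℝ := (S.g p j ω - S.gb p j) - (S.g p' j ω - S.gb p' j)

variable {S T Z p p'}

theorem I_one {i : ℕ} {ω : Nz n} (h : ω ∈ S.Ok T Z p p' (i + 1)) : I S T Z p p' i ω = 1 :=
  Set.indicator_of_mem h _
theorem I_zero {i : ℕ} {ω : Nz n} (h : ω ∉ S.Ok T Z p p' (i + 1)) : I S T Z p p' i ω = 0 :=
  Set.indicator_of_notMem h _
theorem ok_mono {i j : ℕ} (hij : i ≤ j) {ω : Nz n} (h : ω ∈ S.Ok T Z p p' j) :
    ω ∈ S.Ok T Z p p' i := fun l hl => h l (by omega)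

/-- what is used of a run -/
structure Rn (S : Sy n) (p : ℝ × (Fin n → ℝ)) : Prop where
  m : ∀ j, Measurable (S.st p j)
  a : ∀ j, Ad j (S.st p j)
  ag : ∀ j, Ad j (S.g p j)
  pos : ∀ j ω, 0 < S.g p j ω
  du : ∀ j ω, S.g p j ω = S.gb p j + ∑ l ∈ range j,
    inc (fun k => S.K k (j - 1 - l) * S.ca p l ω k) (fun k => S.K k (j - 1 - l) * S.cc p l ω) (ω l)

theorem rn_of (H : DuStmt) (hS : S.Bas) (hp : 0 < p.1) : Rn S p := by
  obtain ⟨h1, h2, -, h4⟩ := H n S p hS hp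
  exact ⟨fun j => (h1 j).1, fun j => (h1 j).2.1, fun j => (h1 j).2.2,
    fun j ω => (h2 (j + 1) ω).1, h4⟩

theorem Rn.mg (R : Rn S p) (j : ℕ) : Measurable (S.g p j) := (R.m (j + 1)).fst
theorem Rn.mb (R : Rn S p) (j : ℕ) (k : Fin n) : Measurable fun ω => S.be p j ω k :=
  (measurable_pi_apply k).comp (R.m j).snd
theorem Rn.ab (R : Rn S p) (j : ℕ) : Ad j (S.be p j) := fun ω ω' H => by
  unfold Sy.be; rw [R.a j ω ω' H]

theorem Rn.mgood (R : Rn S p) (i : ℕ) : MeasurableSet {ω | S.Good T Z p i ω} := by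
  change MeasurableSet ({ω | S.V T (S.be p i ω) ≤ Z} ∩ {ω | |S.g p i ω - S.gb p i| ≤ 1})
  refine MeasurableSet.inter (measurableSet_le ?_ measurable_const)
    (measurableSet_le ((R.mg i).sub measurable_const).abs measurable_const)
  exact Finset.measurable_sum _ fun k _ => ((R.mb i k).pow_const 2).const_mul _

theorem m_ok (R : Rn S p) (R' : Rn S p') (j : ℕ) : MeasurableSet (S.Ok T Z p p' j) := by
  have : S.Ok T Z p p' j = ⋂ i ∈ range j, {ω | S.Good T Z p i ω} ∩ {ω | S.Good T Z p' i ω} := by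
    ext ω; simp [Sy.Ok]
  rw [this]
  exact Finset.measurableSet_biInter _ fun i _ => (R.mgood i).inter (R'.mgood i)

theorem m_I (R : Rn S p) (R' : Rn S p') (i : ℕ) : Measurable (I S T Z p p' i) :=
  measurable_const.indicator (m_ok R R' _)

theorem ad_I (R : Rn S p) (R' : Rn S p') (i : ℕ) : Ad i (I S T Z p p' i) := fun ω ω' H => by
  have : ω ∈ S.Ok T Z p p' (i + 1) ↔ ω' ∈ S.Ok T Z p p' (i + 1) := by
    refine forall₂_congr fun l hl => ?_
    have H' : ∀ m, m < l → ω m = ω' m := fun m hm => H m (by omega)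
    unfold Sy.Good
    rw [R.ab l ω ω' H', R'.ab l ω ω' H', R.ag l ω ω' H', R'.ag l ω ω' H']
  by_cases h : ω ∈ S.Ok T Z p p' (i + 1)
  · rw [I_one h, I_one (this.1 h)]
  · rw [I_zero h, I_zero fun h' => h (this.2 h')]

theorem m_dd (R : Rn S p) (R' : Rn S p') (i : ℕ) : Measurable (dd S p p' i) :=
  (R.mg i).sqrt.sub (R'.mg i).sqrt

theorem I_sq (i : ℕ) (ω : Nz n) : I S T Z p p' i ω ^ 2 = I S T Z p p' i ω := by
  by_cases h : ω ∈ S.Ok T Z p p' (i + 1)
  · rw [I_one h]; norm_num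
  · rw [I_zero h]; norm_num

theorem zz_eq (h0 : 0 < S.h) (i : ℕ) (ω : Nz n) (k : Fin n) :
    zz S p p' i ω k = √(S.q k) ^ i * (p.2 k - p'.2 k) +
      ∑ l ∈ range i, √(S.q k) ^ (i - 1 - l) * √(2 * S.h) * dd S p p' l ω * ω l k := by
  induction i with
  | zero => simp [zz, Sy.be, Sy.st]
  | succ i ih =>
    have e : zz S p p' (i + 1) ω k = √(S.q k) * zz S p p' i ω k +
        √(2 * S.h) * dd S p p' i ω * ω i k := by
      have e1 : ∀ r : ℝ × (Fin n → ℝ), S.be r (i + 1) ω k =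
          √(S.q k) * S.be r i ω k + √(2 * S.h * S.g r i ω) * ω i k := fun r => rfl
      unfold zz dd
      rw [e1, e1, sqrt_mul (x := 2 * S.h) (by positivity), sqrt_mul (x := 2 * S.h) (by positivity)]
      ring
    rw [e, ih, sum_range_succ, mul_add, mul_sum]
    have : ∑ l ∈ range i, √(S.q k) * (√(S.q k) ^ (i - 1 - l) * √(2 * S.h) * dd S p p' l ω * ω l k) =
        ∑ l ∈ range i, √(S.q k) ^ (i + 1 - 1 - l) * √(2 * S.h) * dd S p p' l ω * ω l k :=
      sum_congr rfl fun l hl => by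
        have : i + 1 - 1 - l = (i - 1 - l) + 1 := by have := mem_range.1 hl; omega
        rw [this, pow_succ]; ring
    rw [this]
    simp only [Nat.add_sub_cancel, Nat.sub_self, pow_zero, pow_succ]
    ring

/-- second moment of the difference of a mode -/
theorem zb (L : L2Stmt) (hS : S.Bas) (R : Rn S p) (R' : Rn S p') (δ : ℕ → ℝ) (i : ℕ)
    (hδ : ∀ l, l < i → 0 ≤ δ l ∧ EB (fun ω => I S T Z p p' l ω * dd S p p' l ω ^ 2) (δ l))
    (k : Fin n) : EB ((S.Ok T Z p p' i).indicator fun ω => zz S p p' i ω k ^ 2)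
      (S.q k ^ i * (p.2 k - p'.2 k) ^ 2 + 2 * S.h * ∑ l ∈ range i, S.q k ^ (i - 1 - l) * δ l) := by
  classical
  have h0 := hS.h0
  have hq := hS.q0 k
  have sq : ∀ m : ℕ, (√(S.q k) ^ m) ^ 2 = S.q k ^ m := fun m => by
    rw [← pow_mul, mul_comm, pow_mul, sq_sqrt hq]
  set a : ℕ → Nz n → Fin n → ℝ := fun l ω k' => if k' = k then
    I S T Z p p' l ω * (√(S.q k) ^ (i - 1 - l) * √(2 * S.h) * dd S p p' l ω) else 0 with ha
  have co : Co a (fun _ _ _ => 0) := by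
    refine ⟨fun l => measurable_pi_lambda _ fun k' => ?_, fun _ => measurable_const,
      fun l ω ω' H => ?_, fun _ _ _ _ => rfl⟩
    · by_cases e : k' = k
      · simp only [ha, e, if_true]
        exact (m_I R R' l).mul ((m_dd R R' l).const_mul _)
      · simp only [ha, e, if_false]; exact measurable_const
    · funext k'
      simp only [ha, dd]
      rw [ad_I R R' l ω ω' H, R.ag l ω ω' H, R'.ag l ω ω' H]
  have := L n a _ co (√(S.q k) ^ i * (p.2 k - p'.2 k)) (fun l => 2 * S.h * S.q k ^ (i - 1 - l) * δ l)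
    i fun l hl => ⟨by have := (hδ l hl).1; positivity, by
      refine ((hδ l hl).2.smul (s := 2 * S.h * S.q k ^ (i - 1 - l)) (by positivity)).mono
        (fun ω => le_of_eq ?_) le_rfl
      simp only [vr, ha, ite_pow, ne_eq, OfNat.ofNat_ne_zero, not_false_eq_true, zero_pow, mul_zero,
        add_zero, sum_ite_eq', mem_univ, if_true]
      rw [mul_pow, mul_pow, mul_pow, I_sq, sq, sq_sqrt (by positivity)]
      ring⟩
  refine this.mono (fun ω => ?_) (le_of_eq ?_)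
  · by_cases h : ω ∈ S.Ok T Z p p' i
    · rw [Set.indicator_of_mem h, zz_eq h0]
      refine le_of_eq ?_
      congr 2
      refine sum_congr rfl fun l hl => ?_
      simp only [inc, ha, ite_mul, zero_mul, add_zero, sum_ite_eq', mem_univ, if_true]
      rw [I_one (ok_mono (mem_range.1 hl) h), one_mul]
    · rw [Set.indicator_of_notMem h]; positivity
  · rw [mul_pow, sq, mul_sum]
    congr 1
    exact sum_congr rfl fun l _ => by ring

variable {c D C₁ σ : ℝ} {M : ℕ}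

theorem m_ee (R : Rn S p) (R' : Rn S p') (j : ℕ) : Measurable (ee S p p' j) :=
  ((R.mg j).sub measurable_const).sub ((R'.mg j).sub measurable_const)

theorem dsq_le {a b u : ℝ} (ha : 0 < a) (hb : 0 < b) (hau : a ≤ u) (hbu : b ≤ u) :
    (√a - √b) ^ 2 ≤ u ∧ (a - b) ^ 2 ≤ 4 * u * (√a - √b) ^ 2 := by
  have h1 := sq_sqrt ha.le
  have h2 := sq_sqrt hb.le
  have h3 := sqrt_nonneg a
  have h4 := sqrt_nonneg b
  constructor
  · rcases le_total √a √b with h | h <;> nlinarith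
  · have : a - b = (√a + √b) * (√a - √b) := by nlinarith
    rw [this, mul_pow]
    exact mul_le_mul_of_nonneg_right (by nlinarith [sq_nonneg (√a - √b)]) (sq_nonneg _)

theorem dsq_late {a b : ℝ} (ha : 1 ≤ a) (hb : 1 ≤ b) : (√a - √b) ^ 2 ≤ (a - b) ^ 2 / 4 := by
  have h1 := sq_sqrt (show 0 ≤ a by linarith)
  have h2 := sq_sqrt (show 0 ≤ b by linarith)
  have h3 : 1 ≤ √a := one_le_sqrt.2 ha
  have h4 : 1 ≤ √b := one_le_sqrt.2 hb
  have : a - b = (√a + √b) * (√a - √b) := by nlinarith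
  rw [this, mul_pow]
  have : 4 ≤ (√a + √b) ^ 2 := by nlinarith
  nlinarith [sq_nonneg (√a - √b)]

theorem g_le (hI : S.Ini C₁ σ M p) {i : ℕ} (hi : i ≤ M) {ω : Nz n} (h : S.Good T Z p i ω) :
    S.g p i ω ≤ C₁ / √((i + 1) * S.h) := by
  have := hI.up i hi
  have := (abs_le.1 h.2).2
  linarith

/-- the amplitudes -/
theorem db (R : Rn S p) (R' : Rn S p') (hI : S.Ini C₁ σ M p) (hI' : S.Ini C₁ σ M p')
    (hσ : 0 < σ) (hσ1 : σ ≤ 1) (hC : 0 ≤ C₁) {D₀ : ℝ} (hD : 0 ≤ D₀) {i : ℕ} (hi : i ≤ M)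
    (he : EB ((S.Ok T Z p p' i).indicator fun ω => ee S p p' i ω ^ 2) D₀) :
    EB (fun ω => I S T Z p p' i ω * dd S p p' i ω ^ 2)
      (D₀ + 2 * σ + if (i : ℝ) * S.h < (σ ^ 2) ^ 2 then C₁ / √((i + 1) * S.h) else 0) := by
  split_ifs with hl
  · refine (EB.const (C₁ / √((i + 1) * S.h))).mono (fun ω => ?_) (by linarith)
    by_cases h : ω ∈ S.Ok T Z p p' (i + 1)
    · rw [I_one h, one_mul]
      exact (dsq_le (R.pos i ω) (R'.pos i ω) (g_le hI hi (h i (by omega)).1)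
        (g_le hI' hi (h i (by omega)).2)).1
    · rw [I_zero h, zero_mul]; positivity
  · have hl' : σ ^ 4 ≤ i * S.h := by
      have : (σ ^ 2) ^ 2 = σ ^ 4 := by ring
      linarith [not_lt.1 hl]
    refine (he.add (EB.const (2 * σ)) (((m_ee R R' i).pow_const 2).indicator (m_ok R R' i)) hD
      (by positivity)).mono (fun ω => ?_) (by linarith)
    by_cases h : ω ∈ S.Ok T Z p p' (i + 1)
    · rw [I_one h, one_mul, Set.indicator_of_mem (ok_mono (by omega) h)]
      have a1 := abs_le.1 (h i (by omega)).1.2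
      have a2 := abs_le.1 (h i (by omega)).2.2
      have b1 := hI.lo i hi hl'
      have b2 := hI'.lo i hi hl'
      have c1 := abs_le.1 (hI.cl i hi hl')
      have c2 := abs_le.1 (hI'.cl i hi hl')
      refine (dsq_late (by linarith) (by linarith)).trans ?_
      have e : S.g p i ω - S.g p' i ω = ee S p p' i ω + (S.gb p i - S.gb p' i) := by
        unfold ee; ring
      have f : (S.gb p i - S.gb p' i) ^ 2 ≤ (2 * σ) ^ 2 :=
        sq_le_sq' (by linarith) (by linarith)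
      rw [e]
      nlinarith [sq_nonneg (ee S p p' i ω - (S.gb p i - S.gb p' i)), sq_nonneg (ee S p p' i ω)]
    · rw [I_zero h, zero_mul]
      have : 0 ≤ (S.Ok T Z p p' i).indicator (fun ω => ee S p p' i ω ^ 2) ω :=
        Set.indicator_nonneg (fun _ _ => sq_nonneg _) _
      positivity

theorem ini_le (hP : S.Par c D C₁ T M) (hI : S.Ini C₁ σ M p) (hI' : S.Ini C₁ σ M p') {i : ℕ}
    (hi : i ≤ M) (hl : σ ^ 2 ≤ i * S.h) : ∑ k, S.q k ^ i * (p.2 k - p'.2 k) ^ 2 ≤ 4 * σ ^ 2 := by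
  have h1 := hI.de i hi hl
  have h2 := hI'.de i hi hl
  calc _ ≤ ∑ k, (2 * (S.q k ^ i * p.2 k ^ 2) + 2 * (S.q k ^ i * p'.2 k ^ 2)) :=
        sum_le_sum fun k _ => by
          have := pow_nonneg (hP.q0 k) i
          nlinarith [mul_nonneg this (sq_nonneg (p.2 k + p'.2 k))]
    _ ≤ _ := by rw [sum_add_distrib, ← mul_sum, ← mul_sum]; linarith

/-- weighted mass of the difference -/
theorem vb (L : L2Stmt) (hP : S.Par c D C₁ T M) (R : Rn S p) (R' : Rn S p')
    (hI : S.Ini C₁ σ M p) (hI' : S.Ini C₁ σ M p') (hZ : 0 ≤ Z) (δ : ℕ → ℝ) {i : ℕ} (hi : i ≤ M)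
    (hδ : ∀ l, l < i → 0 ≤ δ l ∧ EB (fun ω => I S T Z p p' l ω * dd S p p' l ω ^ 2) (δ l)) :
    EB (fun ω => I S T Z p p' i ω * S.V T (zz S p p' i ω))
      (if (i : ℝ) * S.h < σ ^ 2 then 4 * Z else 4 * σ ^ 2 + 2 * S.h * ∑ l ∈ range i,
        (∑ k : Fin n, Wt S.η T k * S.q k ^ (i - 1 - l)) * δ l) := by
  have hW := fun k : Fin n => wt_nn (η := S.η) hP.T0 k
  have h0 := hP.h0
  split_ifs with hl
  · refine (EB.const (4 * Z)).mono (fun ω => ?_) le_rfl
    by_cases h : ω ∈ S.Ok T Z p p' (i + 1)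
    · rw [I_one h, one_mul]
      have a1 := (h i (by omega)).1.1
      have a2 := (h i (by omega)).2.1
      unfold Sy.V at a1 a2 ⊢
      calc _ ≤ ∑ k : Fin n, (2 * (Wt S.η T k * S.be p i ω k ^ 2) +
            2 * (Wt S.η T k * S.be p' i ω k ^ 2)) := sum_le_sum fun k _ => by
            unfold zz
            nlinarith [mul_nonneg (hW k) (sq_nonneg (S.be p i ω k + S.be p' i ω k))]
        _ ≤ _ := by rw [sum_add_distrib, ← mul_sum, ← mul_sum]; linarith
    · rw [I_zero h, zero_mul]; positivity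
  · refine (EB.sum univ (fun k _ => (zb L hP.toBas R R' δ i hδ k).smul (hW k))
      (fun k _ => ((((R.mb i k).sub (R'.mb i k)).pow_const 2).indicator (m_ok R R' i)).const_mul _)
      (fun k _ => ?_)).mono (fun ω => ?_) ?_
    · have := hP.q0 k
      have : 0 ≤ ∑ l ∈ range i, S.q k ^ (i - 1 - l) * δ l :=
        sum_nonneg fun l hl => mul_nonneg (pow_nonneg this _) (hδ l (mem_range.1 hl)).1
      have := hW k
      positivity
    · by_cases h : ω ∈ S.Ok T Z p p' (i + 1)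
      · rw [I_one h, one_mul]
        simp_rw [Set.indicator_of_mem (ok_mono (Nat.le_succ i) h)]
        exact le_rfl
      · rw [I_zero h, zero_mul]
        exact sum_nonneg fun k _ =>
          mul_nonneg (hW k) (Set.indicator_nonneg (fun _ _ => sq_nonneg _) _)
    · simp_rw [mul_add]
      rw [sum_add_distrib]
      refine add_le_add ((sum_le_sum fun k _ => ?_).trans (ini_le hP hI hI' hi (not_lt.1 hl)))
        (le_of_eq ?_)
      · exact mul_le_of_le_one_left (mul_nonneg (pow_nonneg (hP.q0 k) _) (sq_nonneg _))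
          ((wt_le hP.T0 k).trans hP.T1)
      · simp_rw [sum_mul, mul_sum]
        rw [sum_comm]
        exact sum_congr rfl fun l _ => sum_congr rfl fun k _ => by ring

/-- second moment of the difference of the noises -/
theorem eb (L : L2Stmt) (hP : S.Par c D C₁ T M) (R : Rn S p) (R' : Rn S p')
    (hI : S.Ini C₁ σ M p) (hI' : S.Ini C₁ σ M p') (hD : 0 ≤ D) (hC : 0 ≤ C₁) (hZ : 0 ≤ Z)
    (δ o : ℕ → ℝ) {j : ℕ} (hj : j ≤ M)
    (hδ : ∀ l, l < j → 0 ≤ δ l ∧ EB (fun ω => I S T Z p p' l ω * dd S p p' l ω ^ 2) (δ l))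
    (ho : ∀ l, l < j → 0 ≤ o l ∧ EB (fun ω => I S T Z p p' l ω * S.V T (zz S p p' l ω)) (o l)) :
    EB ((S.Ok T Z p p' j).indicator fun ω => ee S p p' j ω ^ 2)
      (∑ l ∈ range j, 32 * D * S.h * (C₁ / √((l + 1) * S.h) * o l + (Z + 1) * δ l)) := by
  have h0 := hP.h0
  have hW := fun k : Fin n => wt_nn (η := S.η) hP.T0 k
  set a : ℕ → Nz n → Fin n → ℝ := fun l ω k =>
    I S T Z p p' l ω * (S.K k (j - 1 - l) * (S.ca p l ω k - S.ca p' l ω k)) with ha
  set b : ℕ → Nz n → Fin n → ℝ := fun l ω k =>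
    I S T Z p p' l ω * (S.K k (j - 1 - l) * (S.cc p l ω - S.cc p' l ω)) with hb
  have mca : ∀ {r}, Rn S r → ∀ l k, Measurable fun ω => S.ca r l ω k := fun R l k =>
    ((R.mb l k).const_mul _).mul ((R.mg l).const_mul _).sqrt
  have mcc : ∀ {r}, Rn S r → ∀ l, Measurable (S.cc r l) := fun R l => (R.mg l).const_mul _
  have co : Co a b := by
    refine ⟨fun l => measurable_pi_lambda _ fun k =>
      (m_I R R' l).mul (((mca R l k).sub (mca R' l k)).const_mul _),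
      fun l => measurable_pi_lambda _ fun k =>
      (m_I R R' l).mul (((mcc R l).sub (mcc R' l)).const_mul _), fun l ω ω' H => ?_,
      fun l ω ω' H => ?_⟩
    · funext k
      simp only [ha, Sy.ca]
      rw [ad_I R R' l ω ω' H, R.ag l ω ω' H, R'.ag l ω ω' H, R.ab l ω ω' H, R'.ab l ω ω' H]
    · funext k
      simp only [hb, Sy.cc]
      rw [ad_I R R' l ω ω' H, R.ag l ω ω' H, R'.ag l ω ω' H]
  have := L n a b co 0 (fun l => 32 * D * S.h * (C₁ / √((l + 1) * S.h) * o l + (Z + 1) * δ l)) j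
    fun l hl => ⟨by have := (hδ l hl).1; have := (ho l hl).1; positivity, by
      have o0 := (ho l hl).1
      have d0 := (hδ l hl).1
      refine ((((ho l hl).2.smul (s := C₁ / √((l + 1) * S.h)) (by positivity)).add
        ((hδ l hl).2.smul (s := Z + 1) (by positivity)) (((m_I R R' l).mul
          (Finset.measurable_sum _ fun k _ =>
            (((R.mb l k).sub (R'.mb l k)).pow_const 2).const_mul _)).const_mul _) (by positivity)
        (by positivity)).smul (s := 32 * D * S.h) (by positivity)).mono (fun ω => ?_) le_rfl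
      by_cases h : ω ∈ S.Ok T Z p p' (l + 1)
      swap
      · simp [vr, ha, hb, I_zero h]
      set u := C₁ / √((l + 1) * S.h) with hu
      have u0 : 0 ≤ u := by positivity
      have g1 : S.g p l ω ≤ u := g_le hI (by omega) (h l (by omega)).1
      have g2 : S.g p' l ω ≤ u := g_le hI' (by omega) (h l (by omega)).2
      have v2 := (h l (by omega)).2.1
      have p1 := R.pos l ω
      have p2 := R'.pos l ω
      obtain ⟨-, ds⟩ := dsq_le p1 p2 g1 g2
      have hun : S.h * u * n ≤ 1 := by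
        refine le_trans ?_ hP.sm
        have s0 : 0 < √S.h := sqrt_pos.2 h0
        have : u ≤ C₁ / √S.h := by
          rw [hu]; gcongr; nlinarith [(Nat.cast_nonneg l : (0 : ℝ) ≤ l)]
        calc S.h * u * n ≤ S.h * (C₁ / √S.h) * n := by gcongr
          _ = C₁ * (S.h / √S.h) * n := by ring
          _ = _ := by rw [div_sqrt]
      set d := dd S p p' l ω with hd
      have key : ∀ k : Fin n, a l ω k ^ 2 + 2 * b l ω k ^ 2 ≤ 32 * D * S.h *
          (u * (Wt S.η T k * zz S p p' l ω k ^ 2) + Wt S.η T k * S.be p' l ω k ^ 2 * d ^ 2 +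
            S.h * u * d ^ 2) := fun k => by
        have hK := hP.Ku k (j - 1 - l) (by omega)
        have q2 : S.q k ≤ 2 := by simpa using hP.q2 k 1 (by omega)
        have q0 := hP.q0 k
        have w0 := hW k
        have w1 : Wt S.η T k ≤ 1 := (wt_le hP.T0 k).trans hP.T1
        have e1 : (S.ca p l ω k - S.ca p' l ω k) ^ 2 = 8 * S.h * S.q k *
            (zz S p p' l ω k * √(S.g p l ω) + S.be p' l ω k * d) ^ 2 := by
          have : S.ca p l ω k - S.ca p' l ω k = 2 * √(S.q k) * √(2 * S.h) *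
              (zz S p p' l ω k * √(S.g p l ω) + S.be p' l ω k * d) := by
            simp only [Sy.ca, hd, dd, zz]
            rw [sqrt_mul (x := 2 * S.h) (by positivity), sqrt_mul (x := 2 * S.h) (by positivity)]
            ring
          rw [this, mul_pow, mul_pow, mul_pow, sq_sqrt q0, sq_sqrt (by positivity)]
          ring
        have e2 : (zz S p p' l ω k * √(S.g p l ω) + S.be p' l ω k * d) ^ 2 ≤
            2 * (u * zz S p p' l ω k ^ 2 + S.be p' l ω k ^ 2 * d ^ 2) := by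
          have : (zz S p p' l ω k * √(S.g p l ω)) ^ 2 ≤ u * zz S p p' l ω k ^ 2 := by
            rw [mul_pow, sq_sqrt p1.le, mul_comm]; gcongr
          nlinarith [sq_nonneg (zz S p p' l ω k * √(S.g p l ω) - S.be p' l ω k * d)]
        have e3 : (S.ca p l ω k - S.ca p' l ω k) ^ 2 ≤
            32 * S.h * (u * zz S p p' l ω k ^ 2 + S.be p' l ω k ^ 2 * d ^ 2) := by
          rw [e1]
          calc _ ≤ 8 * S.h * 2 * (2 * (u * zz S p p' l ω k ^ 2 + S.be p' l ω k ^ 2 * d ^ 2)) := by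
                gcongr
            _ = _ := by ring
        have e4 : 2 * (S.cc p l ω - S.cc p' l ω) ^ 2 ≤ 32 * S.h * (S.h * u * d ^ 2) := by
          have : (S.cc p l ω - S.cc p' l ω) ^ 2 = 4 * S.h ^ 2 * (S.g p l ω - S.g p' l ω) ^ 2 := by
            simp only [Sy.cc]; ring
          rw [this]
          calc _ ≤ 2 * (4 * S.h ^ 2 * (4 * u * d ^ 2)) := by gcongr; exact ds
            _ = _ := by ring
        simp only [ha, hb, I_one h, one_mul, mul_pow]
        calc _ = S.K k (j - 1 - l) ^ 2 * (S.ca p l ω k - S.ca p' l ω k) ^ 2 +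
              S.K k (j - 1 - l) ^ 2 * (2 * (S.cc p l ω - S.cc p' l ω) ^ 2) := by ring
          _ ≤ D * Wt S.η T k * (32 * S.h * (u * zz S p p' l ω k ^ 2 + S.be p' l ω k ^ 2 * d ^ 2)) +
              D * 1 * (32 * S.h * (S.h * u * d ^ 2)) := by
              gcongr
              exact hK.trans (by gcongr)
          _ = _ := by ring
      refine (sum_le_sum fun k _ => key k).trans ?_
      rw [← mul_sum, I_one h, one_mul, one_mul]
      refine mul_le_mul_of_nonneg_left ?_ (by positivity)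
      rw [sum_add_distrib, sum_add_distrib, ← mul_sum, ← sum_mul, sum_const, card_univ,
        Fintype.card_fin, nsmul_eq_mul]
      unfold Sy.V at v2 ⊢
      nlinarith [mul_le_mul_of_nonneg_right v2 (sq_nonneg d),
        mul_le_mul_of_nonneg_right hun (sq_nonneg d)]⟩
  refine this.mono (fun ω => ?_) (by simp)
  by_cases h : ω ∈ S.Ok T Z p p' j
  · rw [Set.indicator_of_mem h, zero_add]
    refine le_of_eq ?_
    congr 1
    unfold ee Ms
    rw [R.du j ω, R'.du j ω, add_sub_cancel_left, add_sub_cancel_left, ← sum_sub_distrib]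
    refine sum_congr rfl fun l hl => ?_
    rw [inc_sub]
    congr 1 <;> funext k <;>
      simp only [ha, hb, I_one (ok_mono (mem_range.1 hl) h), one_mul, mul_sub]
  · rw [Set.indicator_of_notMem h]; positivity

/-- the deterministic sums -/
theorem sums {h B : ℝ} {ka : ℕ → ℝ} (h0 : 0 < h) (hD : 0 ≤ D) (hC : 1 ≤ C₁) (hZ : 0 ≤ Z)
    (hB : 0 ≤ B) (T0 : 0 < T) (T1 : T ≤ 1) (hσ : 0 < σ) (hσ1 : σ ≤ 1) (hh : h ≤ σ ^ 4)
    (Mu : M * h ≤ T) (k0 : ∀ m, 0 ≤ ka m) (k1 : h * ∑ i ∈ range (M + 1), ka i ≤ 2 * D * √T)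
    {j : ℕ} (hj : j ≤ M) :
    h * ∑ l ∈ range j, (B + if (l : ℝ) * h < (σ ^ 2) ^ 2 then C₁ / √((l + 1) * h) else 0) ≤
      T * B + 3 * C₁ * σ ∧
    h * ∑ l ∈ range j, C₁ / √((l + 1) * h) * (if (l : ℝ) * h < σ ^ 2 then 4 * Z else
      4 * σ ^ 2 + 2 * h * ∑ r ∈ range l, ka (l - 1 - r) *
        (B + if (r : ℝ) * h < (σ ^ 2) ^ 2 then C₁ / √((r + 1) * h) else 0)) ≤
      (12 * Z * C₁ + 8 * C₁ + 12 * C₁ ^ 2 * D) * σ + 8 * C₁ * D * T * B := by
  have C0 : 0 ≤ C₁ := by linarith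
  have s21 : σ ^ 2 ≤ σ := by nlinarith
  have jT : (j : ℝ) * h ≤ T := le_trans (by gcongr) Mu
  set e : ℕ → ℝ := fun r => if (r : ℝ) * h < (σ ^ 2) ^ 2 then C₁ / √((r + 1) * h) else 0 with he
  have e0 : ∀ r, 0 ≤ e r := fun r => by simp only [he]; split_ifs <;> positivity
  have e1 : h * ∑ r ∈ range j, e r ≤ 3 * C₁ * σ ^ 2 :=
    sum_early h0 C0 (by positivity) (by nlinarith) j
  have kk : ∀ l, l ≤ M + 1 → h * ∑ i ∈ range l, ka i ≤ 2 * D * √T := fun l hl =>
    le_trans (mul_le_mul_of_nonneg_left (sum_le_sum_of_subset_of_nonneg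
      (range_subset_range.2 hl) fun i _ _ => k0 i) h0.le) k1
  have sT : √T ≤ 1 := sqrt_le_one.2 T1
  have sT0 : 0 ≤ √T := sqrt_nonneg T
  constructor
  · rw [sum_add_distrib, sum_const, card_range, nsmul_eq_mul, mul_add]
    have : h * (j * B) ≤ T * B := by nlinarith
    have : 3 * C₁ * σ ^ 2 ≤ 3 * C₁ * σ := by gcongr
    linarith
  · have pt : ∀ l ∈ range j, C₁ / √((l + 1) * h) * (if (l : ℝ) * h < σ ^ 2 then 4 * Z else
        4 * σ ^ 2 + 2 * h * ∑ r ∈ range l, ka (l - 1 - r) * (B + e r)) ≤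
        4 * Z * (if (l : ℝ) * h < σ ^ 2 then C₁ / √((l + 1) * h) else 0) +
          (4 * σ ^ 2 + 4 * D * √T * B) * (C₁ / √((l + 1) * h)) +
          2 * h * (C₁ / σ) * ∑ r ∈ range l, ka (l - 1 - r) * e r := fun l hl => by
      have c0 : 0 ≤ ∑ r ∈ range l, ka (l - 1 - r) * e r :=
        sum_nonneg fun r _ => mul_nonneg (k0 _) (e0 _)
      have u0 : 0 ≤ C₁ / √((l + 1) * h) := by positivity
      split_ifs with hl'
      · have : 0 ≤ (4 * σ ^ 2 + 4 * D * √T * B) * (C₁ / √((l + 1) * h)) := by positivity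
        have : 0 ≤ 2 * h * (C₁ / σ) * ∑ r ∈ range l, ka (l - 1 - r) * e r := by positivity
        linarith
      · have u1 : C₁ / √((l + 1) * h) ≤ C₁ / σ := by
          gcongr
          exact le_sqrt_of_sq_le (by nlinarith [not_lt.1 hl'])
        have k2 : h * ∑ r ∈ range l, ka (l - 1 - r) ≤ 2 * D * √T := by
          rw [sum_range_reflect]; exact kk l (by have := mem_range.1 hl; omega)
        simp_rw [mul_add (ka _)]
        rw [sum_add_distrib, ← sum_mul]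
        set X := ∑ r ∈ range l, ka (l - 1 - r) * e r
        set Y := ∑ r ∈ range l, ka (l - 1 - r)
        set u := C₁ / √((l + 1) * h)
        have a1 : u * (2 * h * X) ≤ C₁ / σ * (2 * h * X) := by gcongr
        have a2 : u * (2 * (h * Y) * B) ≤ u * (2 * (2 * D * √T) * B) := by gcongr
        nlinarith
    refine (mul_le_mul_of_nonneg_left (sum_le_sum pt) h0.le).trans ?_
    rw [sum_add_distrib, sum_add_distrib, ← mul_sum, ← mul_sum, ← mul_sum]
    have b1 := sum_early h0 C0 hσ.le (show h ≤ σ ^ 2 by nlinarith [sq_nonneg σ]) j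
    have b2 : h * ∑ l ∈ range j, C₁ / √((l + 1) * h) ≤ 2 * C₁ * √T :=
      (sum_gu h0 C0 j).trans (by gcongr)
    have b3 : h * (h * ∑ l ∈ range j, ∑ r ∈ range l, ka (l - 1 - r) * e r) ≤
        (2 * D * √T) * (3 * C₁ * σ ^ 2) := by
      calc _ ≤ h * (h * ((∑ m ∈ range j, ka m) * ∑ r ∈ range j, e r)) := by
            gcongr; exact conv_le ka e k0 e0 j
        _ = (h * ∑ m ∈ range j, ka m) * (h * ∑ r ∈ range j, e r) := by ring
        _ ≤ _ := mul_le_mul (kk j (by omega)) e1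
            (mul_nonneg h0.le (sum_nonneg fun r _ => e0 r)) (by positivity)
    set X := ∑ l ∈ range j, (if (l : ℝ) * h < σ ^ 2 then C₁ / √((l + 1) * h) else 0)
    set Y := ∑ l ∈ range j, C₁ / √((l + 1) * h)
    set W := ∑ l ∈ range j, ∑ r ∈ range l, ka (l - 1 - r) * e r
    have c1 : 4 * Z * (h * X) ≤ 4 * Z * (3 * C₁ * σ) := by gcongr
    have c2 : (4 * σ ^ 2 + 4 * D * √T * B) * (h * Y) ≤
        (4 * σ ^ 2 + 4 * D * √T * B) * (2 * C₁ * √T) := by gcongr
    have c3 : 2 * (C₁ / σ) * (h * (h * W)) ≤ 2 * (C₁ / σ) * ((2 * D * √T) * (3 * C₁ * σ ^ 2)) := by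
      gcongr
    have c4 : 2 * (C₁ / σ) * ((2 * D * √T) * (3 * C₁ * σ ^ 2)) = 12 * C₁ ^ 2 * D * σ * √T := by
      field_simp; ring
    have c5 : 12 * C₁ ^ 2 * D * σ * √T ≤ 12 * C₁ ^ 2 * D * σ :=
      mul_le_of_le_one_right (by positivity) sT
    have c6 : (4 * σ ^ 2 + 4 * D * √T * B) * (2 * C₁ * √T) =
        8 * C₁ * (σ ^ 2 * √T) + 8 * C₁ * D * (√T ^ 2) * B := by ring
    have c7 : 8 * C₁ * (σ ^ 2 * √T) ≤ 8 * C₁ * σ := by
      gcongr; exact (mul_le_of_le_one_right (by positivity) sT).trans s21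
    rw [sq_sqrt T0.le] at c6
    nlinarith

end Con27

open Con27 in
theorem conGlue : ConGlue := by
  intro L H c D C₁ Z hD hC hZ
  set E₁ : ℝ := 32 * D * (12 * Z * C₁ + 8 * C₁ + 12 * C₁ ^ 2 * D + (Z + 1) * (3 * C₁)) with hE₁
  set E₂ : ℝ := 32 * D * (8 * C₁ * D + (Z + 1)) with hE₂
  have C0 : 0 ≤ C₁ := by linarith
  have E10 : 0 ≤ E₁ := by positivity
  have E20 : 0 ≤ E₂ := by positivity
  refine ⟨4 + 4 * (2 * (E₁ + 1) + 2 + 3 * C₁), 1 / (2 * (E₂ + 1)), by positivity, by positivity,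
    fun n S T σ M p p' hP hT hσ hσ1 hh hI hI' => ?_⟩
  have R := rn_of H hP.toBas hI.g0
  have R' := rn_of H hP.toBas hI'.g0
  have h0 := hP.h0
  have T0 := hP.T0
  have ET : E₂ * T ≤ 1 / 2 := by
    rw [le_div_iff₀ (by positivity)] at hT
    nlinarith
  set D₀ : ℝ := 2 * (E₁ + 1) * σ with hD₀
  have D0 : 0 ≤ D₀ := by positivity
  set δ : ℕ → ℝ := fun l => D₀ + 2 * σ +
    if (l : ℝ) * S.h < (σ ^ 2) ^ 2 then C₁ / √((l + 1) * S.h) else 0 with hδ
  have δ0 : ∀ l, 0 ≤ δ l := fun l => by simp only [hδ]; split_ifs <;> positivity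
  set ka : ℕ → ℝ := fun m => ∑ k : Fin n, Wt S.η T k * S.q k ^ m with hka
  have k0 : ∀ m, 0 ≤ ka m := fun m =>
    sum_nonneg fun k _ => mul_nonneg (wt_nn T0 k) (pow_nonneg (hP.q0 k) _)
  have sm := fun j (hj : j ≤ M) => sums (Z := Z) (B := D₀ + 2 * σ) (ka := ka) h0 hD hC hZ
    (by positivity) T0 hP.T1 hσ hσ1 hh hP.Mu k0 hP.ka hj
  have A : ∀ j, j ≤ M → EB ((S.Ok T Z p p' j).indicator fun ω => ee S p p' j ω ^ 2) D₀ := by
    intro j
    induction j using Nat.strong_induction_on with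
    | _ j ih =>
      intro hj
      have hd : ∀ l, l < j → 0 ≤ δ l ∧
          EB (fun ω => I S T Z p p' l ω * dd S p p' l ω ^ 2) (δ l) := fun l hl =>
        ⟨δ0 l, db R R' hI hI' hσ hσ1 C0 D0 (by omega) (ih l hl (by omega))⟩
      refine (eb L hP R R' hI hI' hD C0 hZ δ (fun l => if (l : ℝ) * S.h < σ ^ 2 then 4 * Z else
        4 * σ ^ 2 + 2 * S.h * ∑ r ∈ range l, ka (l - 1 - r) * δ r) hj hd fun l hl =>
        ⟨?_, vb L hP R R' hI hI' hZ δ (by omega) fun r hr => hd r (by omega)⟩).mono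
        (fun _ => le_rfl) ?_
      · have : 0 ≤ ∑ r ∈ range l, ka (l - 1 - r) * δ r :=
          sum_nonneg fun r _ => mul_nonneg (k0 _) (δ0 _)
        split_ifs <;> positivity
      · obtain ⟨s1, s2⟩ := sm j hj
        rw [← mul_sum, sum_add_distrib, ← mul_sum]
        set X := ∑ l ∈ range j, δ l
        set Y := ∑ l ∈ range j, C₁ / √((l + 1) * S.h) * (if (l : ℝ) * S.h < σ ^ 2 then 4 * Z else
          4 * σ ^ 2 + 2 * S.h * ∑ r ∈ range l, ka (l - 1 - r) * δ r)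
        calc 32 * D * S.h * (Y + (Z + 1) * X) = 32 * D * (S.h * Y + (Z + 1) * (S.h * X)) := by ring
          _ ≤ 32 * D * ((12 * Z * C₁ + 8 * C₁ + 12 * C₁ ^ 2 * D) * σ +
              8 * C₁ * D * T * (D₀ + 2 * σ) + (Z + 1) * (T * (D₀ + 2 * σ) + 3 * C₁ * σ)) := by
              gcongr
          _ = E₁ * σ + E₂ * T * (D₀ + 2 * σ) := by rw [hE₁, hE₂]; ring
          _ ≤ E₁ * σ + 1 / 2 * (D₀ + 2 * σ) := by gcongr
          _ ≤ D₀ := by rw [hD₀]; nlinarith
  intro j hj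
  refine ⟨(A j hj).mono (fun _ => le_rfl) (by rw [hD₀]; nlinarith), fun hl k => ?_⟩
  refine (zb L hP.toBas R R' δ j (fun l hl =>
    ⟨δ0 l, db R R' hI hI' hσ hσ1 C0 D0 (by omega) (A l (by omega))⟩) k).mono (fun _ => le_rfl) ?_
  have a1 : S.q k ^ j * (p.2 k - p'.2 k) ^ 2 ≤ 4 * σ ^ 2 :=
    le_trans (single_le_sum (f := fun k => S.q k ^ j * (p.2 k - p'.2 k) ^ 2)
      (fun k _ => mul_nonneg (pow_nonneg (hP.q0 k) _) (sq_nonneg _)) (mem_univ k))
      (ini_le hP hI hI' hj hl)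
  have a2 : ∑ l ∈ range j, S.q k ^ (j - 1 - l) * δ l ≤ 2 * ∑ l ∈ range j, δ l := by
    rw [mul_sum]
    exact sum_le_sum fun l _ => mul_le_mul_of_nonneg_right (hP.q2 k _ (by omega)) (δ0 l)
  have a3 : S.h * ∑ l ∈ range j, δ l ≤ T * (D₀ + 2 * σ) + 3 * C₁ * σ := (sm j hj).1
  have a4 : T * (D₀ + 2 * σ) ≤ D₀ + 2 * σ := mul_le_of_le_one_left (by positivity) hP.T1
  have a5 : 2 * S.h * ∑ l ∈ range j, S.q k ^ (j - 1 - l) * δ l ≤
      2 * S.h * (2 * ∑ l ∈ range j, δ l) := by gcongr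
  have a6 : σ ^ 2 ≤ σ := by nlinarith
  nlinarith

end Crest.Agent.T157.Cq.Osc

end
end

-- ▼ part T157/OscD_49
section

/-!
# Row 157, part C: linearisation and Duhamel formula of the scheme (helper49)
-/

set_option autoImplicit false

noncomputable section

namespace Crest.Agent.T157.Cq.Osc

open MeasureTheory ProbabilityTheory Matrix Filter Topology Finset Real
open Crest.Agent.T157.E Crest.Agent.T157.St Crest.Agent.T157.Ed

namespace Du49

variable {n : ℕ} (S : Sy n) (p : ℝ × (Fin n → ℝ))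

lemma ga_zero (ω : Nz n) : S.ga p 0 ω = p.1 := rfl
lemma be_zero (ω : Nz n) : S.be p 0 ω = p.2 := rfl
lemma g_eq (j : ℕ) (ω : Nz n) : S.g p j ω = S.ga p (j + 1) ω := rfl
lemma ga_succ (j : ℕ) (ω : Nz n) : S.ga p (j + 1) ω =
    (1 - S.h * S.κ * S.t) * S.ga p j ω + S.h * S.κ * ∑ k, S.be p j ω k ^ 2 := rfl
lemma be_succ (j : ℕ) (ω : Nz n) (k : Fin n) : S.be p (j + 1) ω k =
    √(S.q k) * S.be p j ω k + √(2 * S.h * S.g p j ω) * ω j k := rfl

lemma meas_st (j : ℕ) : Measurable (S.st p j) := by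
  induction j with
  | zero => exact measurable_const
  | succ j ih =>
    have h1 : Measurable fun ω => (S.st p j ω).1 := ih.fst
    have h2 : ∀ k, Measurable fun ω => (S.st p j ω).2 k := fun k =>
      (measurable_pi_apply k).comp ih.snd
    have h3 : Measurable fun ω => (1 - S.h * S.κ * S.t) * (S.st p j ω).1 +
        S.h * S.κ * ∑ k, (S.st p j ω).2 k ^ 2 :=
      (h1.const_mul _).add ((Finset.measurable_sum _ fun k _ => (h2 k).pow_const 2).const_mul _)
    refine h3.prodMk (measurable_pi_lambda _ fun k => ((h2 k).const_mul _).add ?_)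
    exact (h3.const_mul _).sqrt.mul ((measurable_pi_apply k).comp (measurable_pi_apply j))

lemma ad_st (j : ℕ) : Ad j (S.st p j) := by
  induction j with
  | zero => exact fun _ _ _ => rfl
  | succ j ih =>
    intro ω ω' h
    have h1 := ih ω ω' fun l hl => h l (by omega)
    have h2 := h j (by omega)
    simp only [Sy.st, h1, h2]

lemma ad_g (j : ℕ) : Ad j (S.g p j) := by
  intro ω ω' h
  have h1 := ad_st S p j ω ω' h
  simp only [Sy.g, Sy.st, h1]

variable {S p}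

lemma ga_pos (hS : S.Bas) (hp : 0 < p.1) (j : ℕ) (ω : Nz n) : 0 < S.ga p j ω := by
  induction j with
  | zero => exact hp
  | succ j ih =>
    rw [ga_succ]
    have h1 := hS.h0
    have h2 := hS.k0
    have h3 : 0 < 1 - S.h * S.κ * S.t := sub_pos.2 hS.t1
    positivity

lemma xs_eq (hS : S.Bas) (hp : 0 < p.1) (j : ℕ) (ω : Nz n) :
    XS n S.η S.t S.κ S.h (fun k => p.2 k / √p.1) j ω =
      fun k => S.be p j ω k / √(S.ga p j ω) := by
  induction j with
  | zero => rfl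
  | succ j ih =>
    have g0 := ga_pos hS hp j ω
    have g1 := ga_pos hS hp (j + 1) ω
    have s0 := sqrt_pos.2 g0
    have s1 := sqrt_pos.2 g1
    have e : 1 + S.h * S.κ * ((fun k => S.be p j ω k / √(S.ga p j ω)) ⬝ᵥ
        (fun k => S.be p j ω k / √(S.ga p j ω)) - S.t) = S.ga p (j + 1) ω / S.ga p j ω := by
      have : (fun k => S.be p j ω k / √(S.ga p j ω)) ⬝ᵥ (fun k => S.be p j ω k / √(S.ga p j ω)) =
          (∑ k, S.be p j ω k ^ 2) / S.ga p j ω := by
        rw [dotProduct, sum_div]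
        refine sum_congr rfl fun k _ => ?_
        rw [div_mul_div_comm, mul_self_sqrt g0.le, sq]
      rw [this, ga_succ]
      field_simp
      ring
    funext k
    rw [XS, ih, Pi.add_apply, Pi.smul_apply, smul_eq_mul, Fs, e, be_succ, g_eq,
      sqrt_div g1.le, sqrt_mul' (2 * S.h) g1.le, Sy.q]
    field_simp

lemma K_zero (hS : S.Bas) (k : Fin n) : S.K k 0 = S.h * S.κ := by
  simp [Sy.K, Kk, hS.rho.1]

lemma K_succ (S : Sy n) (k : Fin n) (m : ℕ) :
    S.K k (m + 1) = S.h * S.ρ (m + 1) + S.q k * S.K k m := by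
  simp only [Sy.K, Kk, Sy.q]
  rw [sum_range_succ' _ (m + 1)]
  simp only [Nat.add_sub_add_right, Nat.sub_zero, pow_zero, mul_one, pow_succ, mul_add, mul_sum]
  rw [add_comm]
  congr 1
  exact sum_congr rfl fun i _ => by ring

lemma rho_succ (hS : S.Bas) (m : ℕ) :
    S.ρ (m + 1) = (1 - S.h * S.κ * S.t) * S.ρ m + 2 * S.h * S.κ * ∑ k, S.K k m := by
  rw [hS.rho.2 m]
  congr 1
  have : ∑ k, S.K k m = S.h * ∑ i ∈ range (m + 1), fm n S.η S.h (m - i) * S.ρ i := by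
    simp only [Sy.K, Kk, fm, ← mul_sum]
    congr 1
    rw [sum_comm, ← sum_range_reflect]
    refine sum_congr rfl fun i hi => ?_
    have hi' := mem_range.1 hi
    rw [← mul_sum, mul_comm, show m + 1 - 1 - i = m - i by omega, show m - (m - i) = i by omega]
  rw [this]
  ring

lemma be_sq (hS : S.Bas) (hp : 0 < p.1) (j : ℕ) (ω : Nz n) (k : Fin n) :
    S.be p (j + 1) ω k ^ 2 = S.q k * S.be p j ω k ^ 2 + 2 * S.h * S.g p j ω +
      (S.ca p j ω k * ω j k + S.cc p j ω * (ω j k ^ 2 - 1)) := by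
  have g1 : 0 ≤ 2 * S.h * S.g p j ω := by
    have := ga_pos hS hp (j + 1) ω
    have := hS.h0
    rw [g_eq]; positivity
  have a := sq_sqrt g1
  have b := sq_sqrt (hS.q0 k)
  rw [be_succ, Sy.ca, Sy.cc]
  linear_combination S.be p j ω k ^ 2 * b + ω j k ^ 2 * a

lemma duh (hS : S.Bas) (hp : 0 < p.1) (j : ℕ) (ω : Nz n) (i : ℕ) (hi : i ≤ j) :
    (1 - S.h * S.κ * S.t) * S.ρ (j - i) / S.κ * S.ga p i ω + ∑ k, S.K k (j - i) * S.be p i ω k ^ 2 =
      S.gb p j + ∑ l ∈ range i, inc (fun k => S.K k (j - 1 - l) * S.ca p l ω k)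
        (fun k => S.K k (j - 1 - l) * S.cc p l ω) (ω l) := by
  induction i with
  | zero => simp [Sy.gb, ga_zero, be_zero]
  | succ i ih =>
    obtain ⟨m, rfl⟩ : ∃ m, j = i + 1 + m := ⟨j - (i + 1), by omega⟩
    have k0 := hS.k0
    rw [sum_range_succ, ← add_assoc, ← ih (by omega), show i + 1 + m - (i + 1) = m by omega,
      show i + 1 + m - i = m + 1 by omega, show i + 1 + m - 1 - i = m by omega]
    have e1 : ∑ k, S.K k m * S.be p (i + 1) ω k ^ 2 =
        ∑ k, S.q k * S.K k m * S.be p i ω k ^ 2 + 2 * S.h * S.g p i ω * ∑ k, S.K k m +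
          inc (fun k => S.K k m * S.ca p i ω k) (fun k => S.K k m * S.cc p i ω) (ω i) := by
      rw [inc, mul_sum, ← sum_add_distrib, ← sum_add_distrib]
      exact sum_congr rfl fun k _ => by rw [be_sq hS hp]; ring
    have e2 : ∑ k, S.K k (m + 1) * S.be p i ω k ^ 2 =
        S.h * S.ρ (m + 1) * ∑ k, S.be p i ω k ^ 2 + ∑ k, S.q k * S.K k m * S.be p i ω k ^ 2 := by
      rw [mul_sum, ← sum_add_distrib]
      exact sum_congr rfl fun k _ => by rw [K_succ]; ring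
    have e3 : (1 - S.h * S.κ * S.t) * S.ρ m / S.κ + 2 * S.h * ∑ k, S.K k m = S.ρ (m + 1) / S.κ := by
      rw [rho_succ hS]; field_simp
    have e4 : S.ρ (m + 1) / S.κ * S.ga p (i + 1) ω =
        (1 - S.h * S.κ * S.t) * S.ρ (m + 1) / S.κ * S.ga p i ω +
          S.h * S.ρ (m + 1) * ∑ k, S.be p i ω k ^ 2 := by
      rw [ga_succ]; field_simp
    rw [e1, e2, g_eq]
    linear_combination S.ga p (i + 1) ω * e3 + e4

end Du49

theorem duStmt : DuStmt := by
  intro n S p hS hp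
  refine ⟨fun j => ⟨Du49.meas_st S p j, Du49.ad_st S p j, Du49.ad_g S p j⟩,
    fun j ω => ⟨Du49.ga_pos hS hp j ω, Du49.xs_eq hS hp j ω⟩,
    fun i j ω h => Du49.duh hS hp j ω i h, fun j ω => ?_⟩
  rw [← Du49.duh hS hp j ω j le_rfl, Nat.sub_self, Du49.g_eq, Du49.ga_succ, hS.rho.1,
    mul_div_assoc, div_self hS.k0.ne', mul_one, mul_sum]
  simp only [Du49.K_zero hS]

end Crest.Agent.T157.Cq.Osc

end
end

-- ▼ part T157/OscF_22
section

/-!
# Row 157, part C (helper22): the oscillation lemma, final glue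
-/

set_option autoImplicit false

noncomputable section

namespace Crest.Agent.T157.Cq.Osc

open MeasureTheory ProbabilityTheory Matrix Filter Topology Finset Real
open Crest.Agent.T157.E Crest.Agent.T157.St Crest.Agent.T157.Ed

variable {n : ℕ}

namespace F22

/-- the renewal sequence -/
def rho (a b κ : ℝ) (f : ℕ → ℝ) : ℕ → ℝ
  | 0 => κ
  | j + 1 => a * rho a b κ f j + b * ∑ i : Fin (j + 1), f (j - i) * rho a b κ f i
decreasing_by all_goals omega

theorem exists_rho (n : ℕ) (η : ℕ → ℝ) (t κ h : ℝ) : ∃ ρ, IsRho n η t κ h ρ := by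
  refine ⟨rho (1 - h * κ * t) (2 * h ^ 2 * κ) κ (fm n η h), by rw [rho], fun j => ?_⟩
  rw [rho, Fin.sum_univ_eq_sum_range
    (fun i => fm n η h (j - i) * rho (1 - h * κ * t) (2 * h ^ 2 * κ) κ (fm n η h) i)]

theorem int_le {F : Nz n → ℝ} {c : ℝ} (hF : EB F c) (h0 : ∀ ω, 0 ≤ F ω) (hm : Measurable F)
    (hc : 0 ≤ c) : ∫ ω, F ω ∂PP n ≤ c := by
  rw [integral_eq_lintegral_of_nonneg_ae (ae_of_all _ h0) hm.aestronglyMeasurable]
  exact ENNReal.toReal_le_of_le_ofReal hc hF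

theorem eb_ind {B : Set (Nz n)} (hB : MeasurableSet B) {c : ℝ} (h : (PP n).real B ≤ c) :
    EB (B.indicator fun _ => (1 : ℝ)) c := by
  have : (fun ω => ENNReal.ofReal (B.indicator (fun _ => (1 : ℝ)) ω)) = B.indicator 1 := by
    ext ω; by_cases hω : ω ∈ B <;> simp [hω]
  rw [EB, this, lintegral_indicator_one hB, ← ENNReal.ofReal_toReal (measure_ne_top (PP n) B)]
  exact ENNReal.ofReal_le_ofReal h

theorem abs_le_th {u θ : ℝ} (hθ : 0 < θ) : |u| ≤ θ + θ⁻¹ * u ^ 2 := by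
  rw [← sq_abs, ← mul_le_mul_iff_right₀ hθ, mul_add, mul_inv_cancel_left₀ hθ.ne']
  nlinarith [sq_nonneg (|u| - θ), abs_nonneg u]

theorem abs_div_sub {b b' g g' R : ℝ} (hg : 1 ≤ g) (hg' : 1 ≤ g') (hR : |b'| ≤ R) :
    |b / √g - b' / √g'| ≤ |b - b'| + R * |g - g'| := by
  have s : 1 ≤ √g := one_le_sqrt.2 hg
  have s' : 1 ≤ √g' := one_le_sqrt.2 hg'
  have e : b / √g - b' / √g' = (b - b') / √g + b' * ((g' - g) / (√g * √g' * (√g + √g'))) := by
    have h1 : g = √g ^ 2 := (sq_sqrt (by linarith)).symm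
    have h2 : g' = √g' ^ 2 := (sq_sqrt (by linarith)).symm
    generalize √g = x at *
    generalize √g' = y at *
    rw [h1, h2]; field_simp; ring
  rw [e]
  refine (abs_add_le _ _).trans (add_le_add ?_ ?_)
  · rw [abs_div, abs_of_pos (by linarith : 0 < √g)]; exact div_le_self (abs_nonneg _) s
  · rw [abs_mul, abs_div, abs_sub_comm g']
    refine mul_le_mul hR (div_le_self (abs_nonneg _) ?_) (by positivity) ((abs_nonneg _).trans hR)
    exact le_trans (by nlinarith [one_le_mul_of_one_le_of_one_le s s']) (le_abs_self _)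

section meas

variable {S : Sy n} {p p' : ℝ × (Fin n → ℝ)} (hp : ∀ j, Measurable (S.st p j))
include hp

theorem m_be (j : ℕ) (k : Fin n) : Measurable fun ω => S.be p j ω k :=
  (measurable_pi_apply k).comp (measurable_snd.comp (hp j))

theorem m_g (j : ℕ) : Measurable (S.g p j) := measurable_fst.comp (hp (j + 1))

theorem m_good (T Z : ℝ) (i : ℕ) : MeasurableSet {ω | S.Good T Z p i ω} :=
  (measurableSet_le (Finset.measurable_sum _ fun k _ => ((m_be hp i k).pow_const 2).const_mul _)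
    measurable_const).inter (measurableSet_le ((m_g hp i).sub_const _).abs measurable_const)

theorem m_bad (T Z : ℝ) (N : ℕ) : MeasurableSet {ω | ∃ i, i < N ∧ ¬ S.Good T Z p i ω} := by
  rw [Set.setOf_exists]
  exact MeasurableSet.iUnion fun i => (MeasurableSet.const _).inter (m_good hp T Z i).compl

theorem m_ok (hp' : ∀ j, Measurable (S.st p' j)) (T Z : ℝ) (N : ℕ) :
    MeasurableSet (S.Ok T Z p p' N) := by
  rw [Sy.Ok, Set.setOf_forall]
  exact MeasurableSet.iInter fun i =>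
    (MeasurableSet.const _).imp ((m_good hp T Z i).inter (m_good hp' T Z i))

end meas

/-- the coupling bound at one time -/
theorem main (hU : UsStmt) (hD : DuStmt) {S : Sy n} (hS : S.Bas) {C₁ σ T Z R A B Λ θ : ℝ}
    {M j m : ℕ} {p p' : ℝ × (Fin n → ℝ)} (hp : S.Ini C₁ σ M p) (hp' : S.Ini C₁ σ M p')
    (hT : 0 < T) (hσ : 0 ≤ σ) (hθ : 0 < θ) (hΛ : 0 ≤ Λ) (hA : 0 ≤ A) (hB : 0 ≤ B) (hR : 0 ≤ R)
    (hj : j ≤ M) (hσj : σ ^ 4 ≤ j * S.h)
    (hW : ∀ k : Fin n, (k : ℕ) < m → Z ≤ R ^ 2 * Wt S.η T k)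
    (b1 : (PP n).real {ω | ∃ i, i < j + 2 ∧ ¬ S.Good T Z p i ω} ≤ B)
    (b2 : (PP n).real {ω | ∃ i, i < j + 2 ∧ ¬ S.Good T Z p' i ω} ≤ B)
    (c1 : EB ((S.Ok T Z p p' j).indicator fun ω =>
      ((S.g p j ω - S.gb p j) - (S.g p' j ω - S.gb p' j)) ^ 2) A)
    (c2 : ∀ k, EB ((S.Ok T Z p p' (j + 1)).indicator fun ω =>
      (S.be p (j + 1) ω k - S.be p' (j + 1) ω k) ^ 2) A)
    {v : (Fin n → ℝ) → ℝ} (hv : Cyl m Λ v) :
    |(Us n S.η S.t S.κ S.h)^[j + 1] v (fun k => p.2 k / √p.1) -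
      (Us n S.η S.t S.κ S.h)^[j + 1] v (fun k => p'.2 k / √p'.1)| ≤
      4 * B + Λ * (m * (θ + R * (θ + 2 * σ) + (θ⁻¹ * A + R * θ⁻¹ * A))) := by
  obtain ⟨m1, d1, -⟩ := hD n S p hS hp.g0
  obtain ⟨m2, d2, -⟩ := hD n S p' hS hp'.g0
  have m1 : ∀ j, Measurable (S.st p j) := fun j => (m1 j).1
  have m2 : ∀ j, Measurable (S.st p' j) := fun j => (m2 j).1
  obtain ⟨x1, u1⟩ := hU n S.η S.t S.κ S.h (fun k => p.2 k / √p.1) (j + 1)
  obtain ⟨x2, u2⟩ := hU n S.η S.t S.κ S.h (fun k => p'.2 k / √p'.1) (j + 1)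
  have mv1 := hv.1.1.comp x1
  have mv2 := hv.1.1.comp x2
  have bd : ∀ {X : Nz n → Fin n → ℝ}, Measurable (v ∘ X) → Integrable (fun ω => v (X ω)) (PP n) :=
    fun hX => Integrable.of_bound hX.aestronglyMeasurable 1 (ae_of_all _ fun ω => hv.1.2 _)
  rw [u1 v hv.1, u2 v hv.1, ← integral_sub (bd mv1) (bd mv2)]
  have i0 := inv_pos.2 hθ
  refine (abs_integral_le_integral_abs).trans (int_le ?_ (fun _ => abs_nonneg _) (mv1.sub mv2).abs
    (by positivity))
  set s := univ.filter fun k : Fin n => (k : ℕ) < m with hs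
  have hsm : (s.card : ℝ) ≤ m := by
    have : s.card ≤ (range m).card := card_le_card_of_injOn (fun k => (k : ℕ))
      (fun k hk => by simpa [hs] using hk) fun a _ b _ e => Fin.ext e
    exact_mod_cast this.trans_eq (card_range m)
  have mo := m_ok m1 m2 T Z
  have ma : ∀ k, Measurable ((S.Ok T Z p p' (j + 1)).indicator fun ω =>
      (S.be p (j + 1) ω k - S.be p' (j + 1) ω k) ^ 2) := fun k =>
    (((m_be m1 _ k).sub (m_be m2 _ k)).pow_const 2).indicator (mo _)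
  have mb : Measurable ((S.Ok T Z p p' j).indicator fun ω =>
      ((S.g p j ω - S.gb p j) - (S.g p' j ω - S.gb p' j)) ^ 2) :=
    ((((m_g m1 j).sub_const _).sub ((m_g m2 j).sub_const _)).pow_const 2).indicator (mo _)
  have e1 := ((eb_ind (m_bad m1 T Z _) b1).add (eb_ind (m_bad m2 T Z _) b2)
    (measurable_const.indicator (m_bad m1 T Z _)) hB hB).smul zero_le_two
  have e2 := (EB.sum s (fun k _ => (EB.const (θ + R * (θ + 2 * σ))).add
    (((c2 k).smul i0.le).add (c1.smul (mul_nonneg hR i0.le)) ((ma k).const_mul _) (by positivity)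
      (by positivity)) measurable_const (by positivity) (by positivity))
    (fun k _ => (((ma k).const_mul _).add (mb.const_mul _)).const_add _)
    (fun k _ => by positivity)).smul hΛ
  refine (e1.add e2 (((measurable_const.indicator (m_bad m1 T Z _)).add
    (measurable_const.indicator (m_bad m2 T Z _))).const_mul _) (by positivity)
    (mul_nonneg hΛ (sum_nonneg fun _ _ => by positivity))).mono (fun ω => ?_) ?_
  · have n1 : ∀ (Q : Set (Nz n)) (f : Nz n → ℝ), 0 ≤ Q.indicator (fun ω => f ω ^ 2) ω :=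
      fun Q f => Set.indicator_nonneg (fun _ _ => sq_nonneg _) _
    have n2 : ∀ Q : Set (Nz n), 0 ≤ Q.indicator (fun _ => (1 : ℝ)) ω :=
      fun Q => Set.indicator_nonneg (fun _ _ => zero_le_one) _
    by_cases hω : ω ∈ S.Ok T Z p p' (j + 2)
    · refine le_add_of_nonneg_of_le (mul_nonneg zero_le_two (add_nonneg (n2 _) (n2 _)))
        ((hv.2 _ _).trans (mul_le_mul_of_nonneg_left (sum_le_sum fun k hk => ?_) hΛ))
      rw [(d1 _ ω).2, (d2 _ ω).2,
        Set.indicator_of_mem (show ω ∈ S.Ok T Z p p' (j + 1) from fun i hi => hω i (by omega)),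
        Set.indicator_of_mem (show ω ∈ S.Ok T Z p p' j from fun i hi => hω i (by omega))]
      obtain ⟨⟨-, g1⟩, -, g2⟩ := hω j (by omega)
      obtain ⟨-, g3, -⟩ := hω (j + 1) (by omega)
      have l1 := hp.lo j hj hσj
      have l2 := hp'.lo j hj hσj
      have w0 : ∀ k : Fin n, 0 < Wt S.η T k := fun k =>
        div_pos hT (by have := le_max_right (S.η k) 0; positivity)
      have hb : |S.be p' (j + 1) ω k| ≤ R := by
        refine abs_le_of_sq_le_sq' ?_ hR |> abs_le.2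
        have := (single_le_sum (f := fun k : Fin n => Wt S.η T k * S.be p' (j + 1) ω k ^ 2)
          (fun k _ => mul_nonneg (w0 k).le (sq_nonneg _)) (mem_univ k)).trans g3
        have h2 := hW k (mem_filter.1 hk).2
        exact le_of_mul_le_mul_left (by linarith) (w0 k)
      refine (abs_div_sub (g := S.g p j ω) (g' := S.g p' j ω) (by linarith [(abs_le.1 g1).1])
        (by linarith [(abs_le.1 g2).1]) hb).trans ?_
      have a1 := abs_le_th (u := S.be p (j + 1) ω k - S.be p' (j + 1) ω k) hθ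
      have a2 := abs_le_th (u := (S.g p j ω - S.gb p j) - (S.g p' j ω - S.gb p' j)) hθ
      have a3 : |S.g p j ω - S.g p' j ω| ≤
          |(S.g p j ω - S.gb p j) - (S.g p' j ω - S.gb p' j)| + 2 * σ := by
        have k1 := abs_le.1 (hp.cl j hj hσj)
        have k2 := abs_le.1 (hp'.cl j hj hσj)
        have k3 := le_abs_self ((S.g p j ω - S.gb p j) - (S.g p' j ω - S.gb p' j))
        have k4 := neg_abs_le ((S.g p j ω - S.gb p j) - (S.g p' j ω - S.gb p' j))
        exact abs_le.2 ⟨by linarith [k1.1, k2.2], by linarith [k1.2, k2.1]⟩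
      nlinarith [mul_le_mul_of_nonneg_left (a3.trans (add_le_add_left a2 _)) hR]
    · refine le_add_of_le_of_nonneg ?_ (mul_nonneg hΛ (sum_nonneg fun k _ => by
        have := n1 (S.Ok T Z p p' (j + 1)) fun ω => S.be p (j + 1) ω k - S.be p' (j + 1) ω k
        have := n1 (S.Ok T Z p p' j) fun ω => (S.g p j ω - S.gb p j) - (S.g p' j ω - S.gb p' j)
        positivity))
      have h2 : ∀ x y, |v x - v y| ≤ 2 * 1 := fun x y =>
        (abs_sub _ _).trans (by linarith [hv.1.2 x, hv.1.2 y])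
      refine (h2 _ _).trans (mul_le_mul_of_nonneg_left ?_ zero_le_two)
      simp only [Sy.Ok, Set.mem_setOf_eq, not_forall, not_and_or] at hω
      obtain ⟨i, hi, h | h⟩ := hω
      · rw [Set.indicator_of_mem (show ω ∈ {ω | ∃ i, i < j + 2 ∧ ¬ S.Good T Z p i ω} from
          ⟨i, hi, h⟩)]
        exact le_add_of_nonneg_right (n2 _)
      · rw [Set.indicator_of_mem (show ω ∈ {ω | ∃ i, i < j + 2 ∧ ¬ S.Good T Z p' i ω} from
          ⟨i, hi, h⟩)]
        exact le_add_of_nonneg_left (n2 _)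
  · rw [sum_const, nsmul_eq_mul]
    have : 0 ≤ θ + R * (θ + 2 * σ) + (θ⁻¹ * A + R * θ⁻¹ * A) := by positivity
    nlinarith [mul_le_mul_of_nonneg_left (mul_le_mul_of_nonneg_right hsm this) hΛ]

theorem pow_le_two {L h T : ℝ} {q : ℝ} {i : ℕ} (hq : 0 ≤ q) (h1 : q ≤ 1 + 2 * L * h) (hL : 0 ≤ L)
    (hi : i * h ≤ 2 * T) (hT : 8 * L * T ≤ 1) : q ^ i ≤ 2 := by
  have h2 : q ^ i ≤ exp (2 * L * h) ^ i :=
    pow_le_pow_left₀ hq (h1.trans (by linarith [add_one_le_exp (2 * L * h)])) i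
  rw [← exp_nat_mul] at h2
  have h3 : exp (i * (2 * L * h)) ≤ exp (1 / 2) := exp_le_exp.2 (by nlinarith)
  have h4 : exp (1 / 2) ≤ 2 := by
    have : exp (1 / 2) ^ 2 ≤ 2 ^ 2 := by
      rw [← exp_nat_mul]; norm_num; linarith [exp_one_lt_d9]
    exact (pow_le_pow_iff_left₀ (exp_pos _).le zero_le_two two_ne_zero).1 this
  linarith

theorem ev_small {f : ℝ → ℝ} (hf : Continuous f) (h0 : f 0 = 0) {c : ℝ} (hc : 0 < c) :
    ∀ᶠ h in 𝓝[>] (0 : ℝ), f h < c :=
  nhdsWithin_le_nhds ((hf.tendsto' 0 0 h0).eventually_lt_const hc)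

end F22

open F22

set_option maxHeartbeats 1000000 in
theorem finGlue : FinGlue := by
  intro hU hD hK hS hC hKern L C w ε hL hw hε
  obtain ⟨c, D₀, u₀, hc, hu₀, hKe⟩ := hKern L C w hL hw
  obtain ⟨D, hD0, hDD⟩ : ∃ D, 0 ≤ D ∧ D₀ ≤ D := ⟨max D₀ 0, le_max_right _ _, le_max_left _ _⟩
  have up : ∀ {x y : ℝ}, x ≤ D₀ * y → 0 ≤ y → x ≤ D * y := fun h hy =>
    h.trans (mul_le_mul_of_nonneg_right hDD hy)
  obtain ⟨C₁, hC₁, hK⟩ := hK L D hL hD0
  obtain ⟨D₁, hS⟩ := hS c D C₁ hc hD0 hC₁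
  have hZ : 0 ≤ C₁ / c := by positivity
  obtain ⟨D₂, T₀, hD₂, hT₀, hC⟩ := hC c D C₁ (C₁ / c) hD0 hC₁ hZ
  obtain ⟨T₁, hT₁, t1, t2, t3, t4, t5, t6⟩ : ∃ T₁ : ℝ, 0 < T₁ ∧ T₁ ≤ u₀ ∧ T₁ ≤ 1 ∧ T₁ ≤ T₀ ∧
      T₁ ≤ (c / 3) ^ 2 ∧ 8 * L * T₁ ≤ 1 ∧ 8 * |D₁| * T₁ ≤ ε := by
    have e1 := ev_small (f := fun x => 8 * L * x) (by fun_prop) (by simp) one_pos
    have e2 := ev_small (f := fun x => 8 * |D₁| * x) (by fun_prop) (by simp) hε
    have e3 := fun {c : ℝ} (hc : 0 < c) => ev_small continuous_id rfl hc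
    obtain ⟨x, h0, h1, h2, h3, h4, h5, h6⟩ := (eventually_mem_nhdsWithin.and ((e3 hu₀).and
      ((e3 one_pos).and ((e3 hT₀).and ((e3 (by positivity : 0 < (c / 3) ^ 2)).and
      (e1.and e2)))))).exists
    exact ⟨x, h0, h1.le, h2.le, h3.le, h4.le, h5.le, h6.le⟩
  refine ⟨T₁ / 6, by positivity, fun τ hτ hτ1 m Λ₀ => ?_⟩
  obtain ⟨T, hT⟩ : ∃ T, T = 6 * τ := ⟨_, rfl⟩
  have T0 : 0 < T := by linarith
  have TT : T ≤ T₁ := by linarith
  obtain ⟨Λ, hΛ, hΛΛ⟩ : ∃ Λ, 0 ≤ Λ ∧ Λ₀ ≤ Λ := ⟨max Λ₀ 0, le_max_right _ _, le_max_left _ _⟩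
  obtain ⟨E, hE⟩ : ∃ E : ℝ, E = 60 * ((m : ℝ) + 1) ^ (2 / 3 : ℝ) + L := ⟨_, rfl⟩
  have E0 : 0 ≤ E := by rw [hE]; positivity
  obtain ⟨R, hR⟩ : ∃ R : ℝ, R = √(C₁ / c * ((1 + T * E) / T)) := ⟨_, rfl⟩
  have R0 : 0 ≤ R := hR ▸ sqrt_nonneg _
  obtain ⟨θ, hθ, θ1, θ2, θ3⟩ : ∃ θ : ℝ, 0 < θ ∧ θ < 1 ∧ θ < τ / 8 ∧
      Λ * (m * (θ + R * (θ + 2 * θ ^ 2) + (D₂ * θ + R * (D₂ * θ)))) < ε / 2 := by
    have e1 := ev_small (f := fun θ => Λ * (m * (θ + R * (θ + 2 * θ ^ 2) + (D₂ * θ + R * (D₂ * θ)))))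
      (by fun_prop) (by simp) (half_pos hε)
    have e3 := fun {c : ℝ} (hc : 0 < c) => ev_small continuous_id rfl hc
    exact (eventually_mem_nhdsWithin.and ((e3 one_pos).and ((e3 (by positivity : 0 < τ / 8)).and
      e1))).exists
  obtain ⟨σ, hσ⟩ : ∃ σ, σ = θ ^ 2 := ⟨_, rfl⟩
  have σ0 : 0 < σ := by rw [hσ]; positivity
  have σθ : σ ≤ θ := by rw [hσ]; nlinarith
  have σ1 : σ ≤ 1 := by linarith
  have σ2 : σ ^ 2 ≤ τ / 8 := by nlinarith
  have σ4 : σ ^ 4 ≤ τ / 8 := (pow_le_pow_of_le_one σ0.le σ1 (by norm_num)).trans σ2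
  obtain ⟨ρ₁, δ, hρ₁, hδ, hK⟩ := hK σ σ0 σ1
  refine ⟨ρ₁, δ, hρ₁, hδ, fun a ha => ?_⟩
  filter_upwards [hK a ha, hKe (σ ^ 4) (by positivity), eventually_ge_atTop (8 * (m + 1))]
    with n hK hKe hn η hη
  have n0 : (0 : ℝ) < n := by exact_mod_cast (by omega : 0 < n)
  have lo : ∀ k, k < n → -L ≤ η k := fun k hk => by
    have := hη.1.lo k hk
    have : 0 ≤ ((k : ℝ) + 1) ^ (2 / 3 : ℝ) / 256 := by positivity
    linarith
  filter_upwards [hK η fun k hk => ⟨lo k hk, hη.2 k hk⟩, hKe η hη, self_mem_nhdsWithin,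
    ev_small (f := fun h => h * (n : ℝ) ^ 2 * sx n ^ 2) (by fun_prop) (by simp) one_pos,
    ev_small (f := fun h => 2 * (10 * tau n) * h) (by fun_prop) (by simp) one_pos,
    ev_small (f := fun h => C₁ * √h * n) (by fun_prop) (by simp) one_pos,
    ev_small continuous_id rfl (by positivity : 0 < σ ^ 4)] with h hK hKe h0 h1 h2 h3 h4
  intro v hv x y hx hy j hj1 hj2
  replace h0 : 0 < h := h0
  replace h4 : h < σ ^ 4 := h4
  obtain ⟨ρ, hρ⟩ := exists_rho n η (sx n ^ 2) ((n : ℝ) ^ 2) h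
  obtain ⟨k1, k2⟩ := hKe ρ hρ
  replace k2 := k2 T (by linarith) (by linarith)
  obtain ⟨M, hM⟩ : ∃ M, M = ⌊T / h⌋₊ := ⟨_, rfl⟩
  have Mu : (M : ℝ) * h ≤ T := (le_div_iff₀ h0).1 (hM ▸ Nat.floor_le (by positivity))
  have Ml : T ≤ (M + 1) * h := (div_le_iff₀ h0).1 (hM ▸ (Nat.lt_floor_add_one _).le)
  have mh : ∀ i : ℕ, i ≤ M → (i : ℝ) * h ≤ T := fun i hi =>
    (mul_le_mul_of_nonneg_right (Nat.cast_le.2 hi) h0.le).trans Mu
  have w0 : ∀ k : ℕ, 0 < Wt η T k := fun k =>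
    div_pos T0 (by have := le_max_right (η k) 0; positivity)
  set S : Sy n := ⟨η, sx n ^ 2, (n : ℝ) ^ 2, h, ρ⟩ with hSd
  have q0 : ∀ k, 0 ≤ S.q k := fun k => by
    have := mul_le_mul_of_nonneg_right (hη.2 k k.2) h0.le
    change 0 ≤ 1 - 2 * η k * h
    linarith
  have bas : S.Bas := ⟨h0, by positivity, h1, q0, hρ⟩
  have par : S.Par c D C₁ T M :=
    { toBas := bas
      T0 := T0
      T1 := by linarith
      hT := by change h ≤ T; linarith
      Mu := Mu
      Ml := Ml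
      sm := h3.le
      q2 := fun k i hi => pow_le_two (L := L) (h := h) (T := T) (q0 k) (by
          have := mul_le_mul_of_nonneg_right (lo k k.2) h0.le
          change 1 - 2 * η k * h ≤ _
          linarith) hL (by
          have : (i : ℝ) ≤ M + 1 := by exact_mod_cast hi
          nlinarith) (by nlinarith)
      r0 := fun i hi => (k1 i (by linarith [mh i hi])).1
      ka := by
        refine (up (k2 M Mu).1 (sqrt_nonneg _)).trans ?_
        have : √((M + 1) * h) ≤ 2 * √T := by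
          rw [sqrt_le_left (by positivity), mul_pow, sq_sqrt T0.le]; linarith
        nlinarith
      Ku := fun k i hi => up ((k2 i (mh i hi)).2 k k.2).1 (w0 k).le
      Kl := fun k i hi => ((k2 i (mh i hi)).2 k k.2).2.1
      Kd := fun k i l hi h0' => by
        have := ((k2 i (mh i (by omega))).2 k k.2).2.2 l (by exact_mod_cast mh _ hi) h0'
        rw [mul_assoc] at this ⊢
        exact up this (mul_nonneg (le_min zero_le_one (by positivity)) (w0 k).le) }
  have ini := hK ρ M (by linarith) fun i hi => by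
    obtain ⟨a1, a2, a3, a4, a5⟩ := k1 i (by linarith [mh i hi])
    refine ⟨a1, a2, up a3 (by positivity), fun h' => up (a4 h') (by positivity), fun h' => ?_⟩
    obtain ⟨a6, a7⟩ := a5 h'
    have i0 : 0 < (i : ℝ) * h := lt_of_lt_of_le (by positivity) h'
    refine ⟨le_trans ?_ a6, fun l hl => ?_⟩
    · rw [← div_eq_mul_inv, le_div_iff₀ (sqrt_pos.2 i0)]
      have : √(i * h) ≤ c / 3 := sqrt_le_left (by positivity) |>.2 (by linarith [mh i hi])
      linarith
    · have := a7 l hl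
      rw [mul_assoc] at this ⊢
      exact up this (by positivity)
  obtain ⟨A, hA, ip⟩ := ini x hx
  obtain ⟨A', hA', ip'⟩ := ini y hy
  obtain ⟨j, rfl⟩ : ∃ i, j = i + 1 := by
    refine Nat.exists_eq_add_one_of_ne_zero ?_
    rintro rfl
    simp at hj1; linarith
  push_cast at hj1 hj2
  have jM : T / 2 + (j + 2 : ℕ) * h ≤ M * h := by push_cast; linarith
  have jM' : j + 2 ≤ M := by
    have : ((j + 2 : ℕ) : ℝ) * h ≤ M * h := by linarith
    exact_mod_cast le_of_mul_le_mul_right this h0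
  have hb : D₁ * T ^ 2 ≤ ε / 8 := by
    have : D₁ * T ^ 2 ≤ |D₁| * T₁ := mul_le_mul (le_abs_self _) (by nlinarith) (by positivity)
      (abs_nonneg _)
    linarith
  have hc := hC n S T σ M _ _ par (by linarith) σ0 σ1 h4.le ip ip'
  have key := main (θ := θ) (R := R) (B := ε / 8) (m := m) hU hD bas ip ip' T0 σ0.le hθ hΛ
    (by positivity : 0 ≤ D₂ * σ) (by positivity) R0 (by omega : j ≤ M)
    (by change _ ≤ j * h; linarith) (fun k hk => by
      have e1 : η k ≤ E := by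
        refine (hη.1.hi k (by omega)).trans ?_
        rw [hE]
        have : (k : ℝ) ≤ m := by exact_mod_cast hk.le
        gcongr
      rw [hR, sq_sqrt (by positivity), mul_assoc]
      refine le_mul_of_one_le_right hZ ?_
      have e2 := le_max_right (η k) 0
      change 1 ≤ (1 + T * E) / T * (T / (1 + T * max (η k) 0))
      rw [div_mul_div_cancel₀ T0.ne', one_le_div (by positivity)]
      gcongr
      exact max_le e1 E0)
    ((hS n S T σ M _ _ par ip jM' jM).trans hb) ((hS n S T σ M _ _ par ip' jM' jM).trans hb)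
    (hc j (by omega)).1 ((hc (j + 1) (by omega)).2 (by push_cast; change _ ≤ (j + 1) * h; linarith))
    (v := v) ⟨hv.1, fun x y => (hv.2 x y).trans
      (mul_le_mul_of_nonneg_right hΛΛ (sum_nonneg fun _ _ => abs_nonneg _))⟩
  have ex : ∀ {A : ℝ} (x : Fin n → ℝ), 0 < A → (fun k => x k / √A / √A⁻¹) = x := fun x hA => by
    ext k; rw [sqrt_inv]; have := sqrt_pos.2 hA; field_simp
  simp only [ex x hA, ex y hA'] at key
  refine key.trans ?_
  have e : θ⁻¹ * (D₂ * σ) = D₂ * θ := by rw [hσ]; field_simp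
  rw [mul_assoc R, e, hσ]
  linarith

end Crest.Agent.T157.Cq.Osc

end
private theorem rz_ee004647d4 : type_of% @_root_.Crest.Agent.T157.Cq.Osc.F22.rho.eq_1 := @_root_.Crest.Agent.T157.Cq.Osc.F22.rho.eq_1 -- L21
end

-- ▼ part T157/OscK_41
section

/-!
# Row 157, part C: the oscillation lemma, the means `KStmt` (helper41)
-/

set_option autoImplicit false

noncomputable section

namespace Crest.Agent.T157.Cq.Osc

open MeasureTheory ProbabilityTheory Matrix Filter Topology Finset Real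
open Crest.Agent.T157.E Crest.Agent.T157.St Crest.Agent.T157.Ed

namespace K41

/-! ### sequences -/

section seq
variable {S ρ : ℕ → ℝ} {h A E D t e : ℝ} {i₁ j : ℕ}

lemma psum (h0 : 0 < h) (S0 : ∀ i, 0 ≤ S i) (hA : A = h * ∑ i ∈ range i₁, S i) (he : 0 ≤ e)
    (tl : ∀ i, i₁ ≤ i → i ≤ j → S i ≤ e * A) (hj : (j + 1) * h ≤ 2) (e1 : 2 * e ≤ 1) :
    h * ∑ i ∈ range (j + 1), S i ≤ 2 * A := by
  have A0 : 0 ≤ A := hA ▸ mul_nonneg h0.le (sum_nonneg fun i _ => S0 i)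
  have h1 : ∑ i ∈ range (j + 1), S i ≤ ∑ i ∈ range i₁, S i + (j + 1) * (e * A) := by
    rw [← sum_filter_add_sum_filter_not (range (j + 1)) (· < i₁)]
    refine add_le_add (sum_le_sum_of_subset_of_nonneg
      (fun i hi => mem_range.2 (mem_filter.1 hi).2) fun i _ _ => S0 i) ?_
    refine (sum_le_card_nsmul _ _ (e * A) fun i hi => tl i (not_lt.1 (mem_filter.1 hi).2)
      (Nat.lt_succ_iff.1 (mem_range.1 (mem_filter.1 hi).1))).trans ?_
    rw [nsmul_eq_mul]
    refine mul_le_mul_of_nonneg_right ?_ (mul_nonneg he A0)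
    exact_mod_cast (card_filter_le _ _).trans (card_range _).le
  have h2 := mul_le_mul_of_nonneg_left h1 h0.le
  have h3 := mul_le_mul_of_nonneg_right hj (mul_nonneg he A0)
  have h4 := mul_le_mul_of_nonneg_right e1 A0
  nlinarith

lemma conv_le (h0 : 0 < h) {a b : ℝ} (hb : 0 ≤ b) (ha : 0 ≤ a) {P R : ℝ}
    (H : ∀ i, i ≤ j → ρ (j - i) * S i ≤ a * S i + ρ (j - i) * b)
    (hP : h * ∑ i ∈ range (j + 1), S i ≤ P) (hR : h * ∑ i ∈ range (j + 1), ρ i ≤ R) :
    h * ∑ i ∈ range (j + 1), ρ (j - i) * S i ≤ a * P + R * b := by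
  have h1 := sum_le_sum (s := range (j + 1)) fun i hi => H i (Nat.lt_succ_iff.1 (mem_range.1 hi))
  rw [sum_add_distrib, ← mul_sum, ← sum_mul, sum_flip ρ] at h1
  have h2 := mul_le_mul_of_nonneg_left h1 h0.le
  have h3 := mul_le_mul_of_nonneg_left hP ha
  have h4 := mul_le_mul_of_nonneg_right hR hb
  nlinarith

lemma up (h0 : 0 < h) (S0 : ∀ i, 0 ≤ S i) (A0 : 0 < A) (E0 : 0 ≤ E) (D0 : 0 ≤ D) (t0 : 0 < t)
    (ht : h * t ^ 2 ≤ 1) (dec : ∀ i i', i ≤ i' → i' ≤ j → S i' ≤ E * S i)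
    (s0 : S 0 ≤ 22 * t ^ 2 * A) (ps : ∀ i, i ≤ j → h * ∑ l ∈ range (i + 1), S l ≤ 2 * A)
    (r0 : ∀ m, m ≤ j → 0 ≤ ρ m) (r1 : h * ∑ i ∈ range (j + 1), ρ i ≤ D * (√(j * h) + t⁻¹))
    (r2 : ∀ m, m ≤ j → 0 < m → ρ m ≤ D * ((√(m * h))⁻¹ + (t * (m * h))⁻¹)) :
    h * (∑ i ∈ range (j + 1), ρ (j - i) * S i) / A ≤ (132 * E + 8) * D / √((j + 1) * h) := by
  have j0 : (0 : ℝ) ≤ j := Nat.cast_nonneg j
  set s := √((j + 1) * h) with hs
  have s0' : 0 < s := sqrt_pos.2 (by positivity)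
  have s2 : s ^ 2 = (j + 1) * h := sq_sqrt (by positivity)
  have r1' : h * ∑ i ∈ range (j + 1), ρ i ≤ D * (s + t⁻¹) :=
    r1.trans (by gcongr; exact sqrt_le_sqrt (by nlinarith))
  rw [div_le_iff₀ A0]
  rcases le_total (t * s) 2 with c | c
  · refine (conv_le (a := 0) (b := E * (22 * t ^ 2 * A)) h0 (by positivity) le_rfl
      (fun i hi => ?_) le_rfl r1').trans ?_
    · rw [zero_mul, zero_add]
      exact mul_le_mul_of_nonneg_left ((dec 0 i (Nat.zero_le i) hi).trans (by gcongr))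
        (r0 _ (Nat.sub_le j i))
    · have e1 : D * (s + t⁻¹) * (E * (22 * t ^ 2 * A)) =
          22 * E * D * A / s * (t * s * (t * s + 1)) := by field_simp
      have e2 : t * s * (t * s + 1) ≤ 6 := by nlinarith [mul_pos t0 s0']
      have e3 : 0 ≤ 8 * D * A / s := by positivity
      have e4 := mul_le_mul_of_nonneg_left e2 (show 0 ≤ 22 * E * D * A / s by positivity)
      have e5 : (132 * E + 8) * D / s * A = 22 * E * D * A / s * 6 + 8 * D * A / s := by ring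
      rw [zero_mul, zero_add, e1, e5]
      linarith
  · have c1 : 4 * h ≤ s ^ 2 := by
      have : 2 ^ 2 ≤ (t * s) ^ 2 := pow_le_pow_left₀ zero_le_two c 2
      nlinarith [mul_le_mul_of_nonneg_left this h0.le, mul_le_mul_of_nonneg_right ht (sq_nonneg s)]
    have c2 : t⁻¹ ≤ s := by rw [inv_le_iff_one_le_mul₀' t0]; linarith
    refine (conv_le (a := 4 * D / s) (b := 4 * E * A / s ^ 2) h0 (by positivity) (by positivity)
      (fun i hi => ?_) (ps j le_rfl) (r1'.trans (by nlinarith : _ ≤ 2 * D * s))).trans ?_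
    · have p0 := r0 _ (Nat.sub_le j i)
      rcases le_or_gt (2 * i) j with d | d
      · refine le_add_of_le_of_nonneg (mul_le_mul_of_nonneg_right ?_ (S0 i)) (by positivity)
        have d1 : (j : ℝ) ≤ 2 * (j - i : ℕ) := by exact_mod_cast (by omega : j ≤ 2 * (j - i))
        have d2 : (s / 2) ^ 2 ≤ (j - i : ℕ) * h := by nlinarith
        have d3 : 0 < j - i := by
          by_contra d4
          rw [Nat.eq_zero_of_not_pos d4, Nat.cast_zero, zero_mul] at d2
          exact absurd d2 (not_le.2 (by positivity))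
        have d4 : s / 2 ≤ √((j - i : ℕ) * h) := le_sqrt_of_sq_le d2
        have d5 : s / 2 ≤ t * ((j - i : ℕ) * h) := by
          nlinarith [mul_le_mul_of_nonneg_left d2 t0.le, mul_le_mul_of_nonneg_right c s0'.le]
        refine (r2 _ (Nat.sub_le j i) d3).trans ((mul_le_mul_of_nonneg_left (add_le_add
          (inv_anti₀ (by positivity) d4) (inv_anti₀ (by positivity) d5)) D0).trans (le_of_eq ?_))
        field_simp; ring
      · refine le_add_of_nonneg_of_le (by have := S0 i; positivity)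
          (mul_le_mul_of_nonneg_left ?_ p0)
        have d1 : (j : ℝ) + 1 ≤ 2 * (i + 1) := by exact_mod_cast (by omega : j + 1 ≤ 2 * (i + 1))
        have d2 : ((i : ℝ) + 1) * S i ≤ E * ∑ l ∈ range (i + 1), S l := by
          have := sum_le_sum (s := range (i + 1)) fun l hl =>
            dec l i (Nat.lt_succ_iff.1 (mem_range.1 hl)) hi
          rwa [sum_const, card_range, nsmul_eq_mul, ← mul_sum, Nat.cast_succ] at this
        rw [le_div_iff₀ (by positivity), s2]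
        nlinarith [mul_le_mul_of_nonneg_left d2 h0.le, mul_le_mul_of_nonneg_left (ps i hi) E0,
          mul_le_mul_of_nonneg_right d1 (mul_nonneg h0.le (S0 i))]
    · have e1 : 4 * D / s * (2 * A) + 2 * D * s * (4 * E * A / s ^ 2) =
          (8 * E + 8) * D / s * A := by field_simp; ring
      rw [e1]
      gcongr
      norm_num

lemma cl (h0 : 0 < h) (S0 : ∀ i, 0 ≤ S i) (A0 : 0 < A) (hA : A = h * ∑ i ∈ range i₁, S i)
    (he : 0 ≤ e) (hi : i₁ ≤ j + 1) (tl : ∀ i, i₁ ≤ i → i ≤ j → S i ≤ e * A)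
    (r0 : ∀ m, m ≤ j → 0 ≤ ρ m) {R z : ℝ} (r1 : h * ∑ i ∈ range (j + 1), ρ i ≤ R)
    (r3 : ∀ l, l < i₁ → |ρ j - ρ (j - l)| ≤ z) :
    |h * (∑ i ∈ range (j + 1), ρ (j - i) * S i) / A - ρ j| ≤ z + R * e := by
  have a1 : |h * ∑ i ∈ range i₁, ρ (j - i) * S i - ρ j * A| ≤ z * A := by
    have e1 : h * ∑ i ∈ range i₁, ρ (j - i) * S i - ρ j * A =
        h * ∑ i ∈ range i₁, (ρ (j - i) - ρ j) * S i := by
      simp only [hA, sub_mul, sum_sub_distrib, ← mul_sum]; ring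
    rw [e1, abs_mul, abs_of_pos h0, hA, mul_left_comm, mul_sum _ _ z]
    refine mul_le_mul_of_nonneg_left ((abs_sum_le_sum_abs _ _).trans (sum_le_sum fun i hi => ?_))
      h0.le
    rw [abs_mul, abs_of_nonneg (S0 i), abs_sub_comm]
    exact mul_le_mul_of_nonneg_right (r3 i (mem_range.1 hi)) (S0 i)
  have a2 : 0 ≤ ∑ i ∈ Ico i₁ (j + 1), ρ (j - i) * S i :=
    sum_nonneg fun i _ => mul_nonneg (r0 _ (Nat.sub_le j i)) (S0 i)
  have a3 : ∑ i ∈ Ico i₁ (j + 1), ρ (j - i) * S i ≤ (∑ i ∈ range (j + 1), ρ i) * (e * A) := by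
    rw [← sum_flip ρ, sum_mul]
    refine (sum_le_sum fun i hi => mul_le_mul_of_nonneg_left (tl i (mem_Ico.1 hi).1
      (Nat.lt_succ_iff.1 (mem_Ico.1 hi).2)) (r0 _ (Nat.sub_le j i))).trans
      (sum_le_sum_of_subset_of_nonneg (fun i hi => mem_range.2 (mem_Ico.1 hi).2)
        fun i _ _ => mul_nonneg (r0 _ (Nat.sub_le j i)) (by positivity))
  have a4 := mul_le_mul_of_nonneg_right r1 (show 0 ≤ e * A by positivity)
  have a5 := mul_le_mul_of_nonneg_left a3 h0.le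
  have a6 := mul_nonneg h0.le a2
  rw [← sum_range_add_sum_Ico _ hi, div_sub' A0.ne', abs_div, abs_of_pos A0, div_le_iff₀ A0]
  rw [abs_le] at a1 ⊢
  constructor <;> nlinarith [a1.1, a1.2]

end seq

/-! ### one mode -/

section mode
variable {η h L r : ℝ}

lemma pow_le_exp (q0 : 0 ≤ 1 - 2 * η * h) (i : ℕ) :
    (1 - 2 * η * h) ^ i ≤ exp (-(2 * η * (i * h))) := by
  refine (pow_le_pow_left₀ q0 (one_sub_le_exp_neg _) i).trans (le_of_eq ?_)
  rw [← exp_nat_mul]; congr 1; ring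

lemma pow_le (q0 : 0 ≤ 1 - 2 * η * h) (h0 : 0 < h) (L0 : 0 ≤ L) (hL : -L ≤ η) {i : ℕ}
    (hi : i * h ≤ 1) : (1 - 2 * η * h) ^ i ≤ exp (2 * L) := by
  refine (pow_le_exp q0 i).trans (exp_le_exp.2 ?_)
  have : (0 : ℝ) ≤ i * h := by positivity
  nlinarith

lemma pow_decay (q0 : 0 ≤ 1 - 2 * η * h) (h0 : 0 < h) (L0 : 0 ≤ L) (hL : -L ≤ η) (r0 : 0 < r)
    {i : ℕ} (hi : i * h ≤ 1) (hr : r ≤ i * h) :
    (1 - 2 * η * h) ^ i ≤ exp (2 * L) * (L ^ 2 + 1 + (r ^ 2)⁻¹) * (1 / (η ^ 2 + 1)) := by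
  rw [mul_one_div, le_div_iff₀ (by positivity)]
  have p1 := pow_le q0 h0 L0 hL hi
  have p0 := pow_nonneg q0 i
  have r2 : 0 < (r ^ 2)⁻¹ := by positivity
  rcases le_total η 0 with c | c
  · exact mul_le_mul p1 (by nlinarith) (by positivity) (exp_pos _).le
  · have e1 : 1 ≤ exp (2 * L) := one_le_exp (by positivity)
    have e2 := quadratic_le_exp_of_nonneg (show 0 ≤ 2 * η * r by positivity)
    have e3 : (1 - 2 * η * h) ^ i * exp (2 * η * r) ≤ 1 := by
      refine (mul_le_mul_of_nonneg_right (pow_le_exp q0 i) (exp_pos _).le).trans ?_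
      rw [← exp_add, exp_le_one_iff]
      nlinarith
    have e4 : (1 - 2 * η * h) ^ i * η ^ 2 ≤ (r ^ 2)⁻¹ := by
      rw [← one_div, le_div_iff₀ (by positivity)]
      nlinarith [mul_le_mul_of_nonneg_left e2 p0, mul_nonneg p0 (mul_nonneg c r0.le),
        mul_nonneg p0 (sq_nonneg (η * r))]
    nlinarith [mul_le_mul_of_nonneg_right e1 r2.le, mul_nonneg (exp_pos (2 * L)).le (sq_nonneg L)]

lemma geom_ge (q0 : 0 ≤ 1 - 2 * η * h) (h0 : 0 < h) (r0 : 0 < r) {i : ℕ} (hr : r ≤ i * h) :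
    1 / (r⁻¹ + |η|) ≤ 2 * (h * ∑ l ∈ range i, (1 - 2 * η * h) ^ l) := by
  rw [div_le_iff₀ (by positivity)]
  have s0 : 0 ≤ ∑ l ∈ range i, (1 - 2 * η * h) ^ l := sum_nonneg fun l _ => pow_nonneg q0 l
  have key : ∀ Q : ℝ, 0 ≤ Q → (∀ l, l < i → Q ≤ (1 - 2 * η * h) ^ l) →
      Q ≤ h * (∑ l ∈ range i, (1 - 2 * η * h) ^ l) * r⁻¹ := fun Q Q0 hQ => by
    have := card_nsmul_le_sum (range i) _ Q fun l hl => hQ l (mem_range.1 hl)
    rw [card_range, nsmul_eq_mul] at this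
    rw [← div_eq_mul_inv, le_div_iff₀ r0]
    nlinarith [mul_le_mul_of_nonneg_left this h0.le, mul_le_mul_of_nonneg_left hr Q0]
  rcases le_total η 0 with c | c
  · have := key 1 zero_le_one fun l _ => one_le_pow₀ (by nlinarith)
    nlinarith [mul_nonneg (mul_nonneg h0.le s0) (abs_nonneg η)]
  · have := key _ (pow_nonneg q0 i) fun l hl =>
      pow_le_pow_of_le_one q0 (by nlinarith) hl.le
    have g := geom_sum_mul_neg (1 - 2 * η * h) i
    rw [abs_of_nonneg c]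
    nlinarith [pow_nonneg q0 i]

end mode

lemma ev_mul (c b : ℝ) (hb : 0 < b) : ∀ᶠ h : ℝ in 𝓝[>] (0 : ℝ), h * c ≤ b := by
  have : Tendsto (fun h : ℝ => h * c) (𝓝 0) (𝓝 (0 * c)) := tendsto_id.mul_const c
  rw [zero_mul] at this
  exact (this.eventually (eventually_le_nhds hb)).filter_mono nhdsWithin_le_nhds

end K41

open K41

set_option maxHeartbeats 800000 in
theorem kStmt : KStmt := by
  intro L D L0 D0
  set E := exp (2 * L) with hE
  have E0 : 0 < E := exp_pos _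
  refine ⟨(132 * E + 8) * D + 4, by nlinarith [mul_nonneg E0.le D0], fun σ σ0 σ1 => ?_⟩
  set G := (σ ^ 4) ^ (-(3 / 2) : ℝ) with hG
  have G0 : 0 < G := rpow_pos_of_pos (by positivity) _
  set r := min (σ ^ 4 / 4) (σ / (6 * (D + 1) * G)) with hr
  have r0 : 0 < r := by positivity
  have r1 : r ≤ σ ^ 4 / 4 := min_le_left _ _
  have r2 : r * (6 * (D + 1) * G) ≤ σ := (le_div_iff₀ (by positivity)).1 (min_le_right _ _)
  set e := σ ^ 2 / (6 * (D + 1)) with he
  have e0 : 0 < e := by positivity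
  have e1 : e * (6 * (D + 1)) = σ ^ 2 := div_mul_cancel₀ _ (by positivity)
  have σ2 : σ ^ 2 ≤ σ := by nlinarith
  have σ4 : σ ^ 4 ≤ σ ^ 2 := pow_le_pow_of_le_one σ0.le σ1 (by norm_num)
  set Cr := E * (L ^ 2 + 1 + (r ^ 2)⁻¹) with hCr
  have Cr0 : 0 < Cr := by positivity
  refine ⟨r, e / (2 * Cr), r0, by positivity, fun a a0 => ?_⟩
  set b := min (a ^ 2 / 8) (σ ^ 4) with hb
  have b0 : 0 < b := by positivity
  set R := D * ((√b)⁻¹ + b⁻¹) with hR
  have T1 : Tendsto tau atTop atTop :=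
    (tendsto_rpow_atTop (by norm_num)).comp tendsto_natCast_atTop_atTop
  have T2 : Tendsto (fun n : ℕ => (n : ℝ) ^ 2) atTop atTop :=
    (tendsto_pow_atTop two_ne_zero).comp tendsto_natCast_atTop_atTop
  filter_upwards [T1.eventually_ge_atTop r⁻¹, T1.eventually_ge_atTop L, eventually_ge_atTop 1,
    T2.eventually_ge_atTop (6 * R / (a * σ))] with n n1 n2 n3 n4 η hη
  have n0 : (1 : ℝ) ≤ n := by exact_mod_cast n3
  have t1 : 1 ≤ sx n ^ 2 := one_le_pow₀ (one_le_rpow n0 (by norm_num))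
  have tt : tau n = (sx n ^ 2) ^ 2 := by
    rw [tau, sx, ← rpow_natCast, ← rpow_natCast, ← rpow_mul (by positivity),
      ← rpow_mul (by positivity)]
    norm_num
  rw [tt] at n1 n2 hη
  set t := sx n ^ 2 with ht
  set κ := (n : ℝ) ^ 2 with hκ
  have t0 : 0 < t := by linarith
  have κ0 : 0 < κ := by positivity
  filter_upwards [self_mem_nhdsWithin, ev_mul 1 r r0, ev_mul (20 * t ^ 2) 1 one_pos,
    ev_mul (κ * t) 1 one_pos, ev_mul 1 (a ^ 2 / 8) (by positivity)]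
    with h h0 h1 h2 h3 h4 ρ M hM hρ x hx
  have h0 : 0 < h := h0
  rw [mul_one] at h1 h4
  have h5 : h ≤ 1 := by linarith only [h1, r1, σ4, σ2, σ1]
  have q0 : ∀ k : Fin n, 0 ≤ 1 - 2 * η k * h := fun k => by
    nlinarith only [(hη k k.2).2, h0, h2]
  have jh : ∀ j : ℕ, j ≤ M → (j : ℝ) * h ≤ 1 := fun j hj =>
    (mul_le_mul_of_nonneg_right (by exact_mod_cast hj) h0.le).trans hM
  set i₁ := ⌈r / h⌉₊ with hi₁
  have i1 : r ≤ i₁ * h := (div_le_iff₀ h0).1 (Nat.le_ceil _)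
  have i2 : i₁ * h ≤ 2 * r := by
    have := (Nat.ceil_lt_add_one (show 0 ≤ r / h by positivity)).le
    have := mul_le_mul_of_nonneg_right this h0.le
    rw [add_mul, div_mul_cancel₀ _ h0.ne'] at this
    linarith only [this, h1]
  set S : ℕ → ℝ := fun i => ∑ k : Fin n, (1 - 2 * η k * h) ^ i * x k ^ 2 with hS
  have S0 : ∀ i, 0 ≤ S i := fun i =>
    sum_nonneg fun k _ => mul_nonneg (pow_nonneg (q0 k) i) (sq_nonneg _)
  set A := h * ∑ i ∈ range i₁, S i with hA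
  have aq : Aq n η r x ≤ 2 * A := by
    have : A = ∑ k : Fin n, (h * ∑ l ∈ range i₁, (1 - 2 * η k * h) ^ l) * x k ^ 2 := by
      simp only [hA, hS, mul_sum, sum_mul, mul_assoc]; rw [sum_comm]
    rw [this, mul_sum, Aq]
    refine sum_le_sum fun k _ => ?_
    rw [div_eq_mul_one_div, mul_comm, ← mul_assoc]
    exact mul_le_mul_of_nonneg_right (geom_ge (q0 k) h0 r0 i1) (sq_nonneg _)
  have aA : a ≤ 2 * A := hx.2.1.trans aq
  have A0 : 0 < A := by linarith only [aA, a0]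
  have tl : ∀ i : ℕ, r ≤ i * h → i ≤ M → S i ≤ e * A := fun i hi hiM => by
    have a1 : S i ≤ Cr * Xd n η x := by
      rw [Xd, dotProduct, mul_sum]
      refine sum_le_sum fun k _ => ?_
      rw [fd, mulVec_diagonal]
      refine (mul_le_mul_of_nonneg_right (pow_decay (q0 k) h0 L0 (hη k k.2).1 r0 (jh i hiM) hi)
        (sq_nonneg _)).trans (le_of_eq ?_)
      ring
    refine a1.trans ((mul_le_mul_of_nonneg_left (hx.1.trans
      (mul_le_mul_of_nonneg_left aq (by positivity))) Cr0.le).trans (le_of_eq ?_))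
    field_simp
  have tl' : ∀ j, j ≤ M → ∀ i, i₁ ≤ i → i ≤ j → S i ≤ e * A := fun j hj i hi hij =>
    tl i (i1.trans (mul_le_mul_of_nonneg_right (by exact_mod_cast hi) h0.le)) (hij.trans hj)
  have dec : ∀ i i', i ≤ i' → i' ≤ M → S i' ≤ E * S i := fun i i' hi hi' => by
    rw [hS, mul_sum]
    refine sum_le_sum fun k _ => ?_
    rw [← mul_assoc, ← Nat.sub_add_cancel hi, pow_add]
    exact mul_le_mul_of_nonneg_right (mul_le_mul_of_nonneg_right
      (pow_le (q0 k) h0 L0 (hη k k.2).1 (jh _ ((Nat.sub_le _ _).trans hi'))) (pow_nonneg (q0 k) i))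
      (sq_nonneg _)
  have s0 : S 0 ≤ 22 * t ^ 2 * A := by
    have : S 0 ≤ 11 * t ^ 2 * Aq n η r x := by
      rw [Aq, mul_sum]
      refine sum_le_sum fun k _ => ?_
      have k1 : |η k| ≤ 10 * t ^ 2 := abs_le.2 ⟨by nlinarith only [(hη k k.2).1, n2, sq_nonneg t],
        (hη k k.2).2⟩
      rw [pow_zero, one_mul, mul_div_assoc', le_div_iff₀ (by positivity), mul_comm]
      exact mul_le_mul_of_nonneg_right (by linarith only [k1, n1]) (sq_nonneg _)
    linarith only [this, mul_le_mul_of_nonneg_left aq (sq_nonneg t)]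
  set f : ℕ → ℝ := fun j => (1 - h * κ * t) * ρ j / κ * A⁻¹ with hf
  have hgb : ∀ j, (⟨η, t, κ, h, ρ⟩ : Sy n).gb (A⁻¹, fun k => x k / √A) j =
      f j + h * (∑ i ∈ range (j + 1), ρ (j - i) * S i) / A := fun j => by
    simp only [Sy.gb, Sy.K, Kk, div_pow, sq_sqrt A0.le, hf, hS, mul_sum, sum_mul, sum_div]
    rw [sum_comm]
    exact congrArg _ (sum_congr rfl fun i _ => sum_congr rfl fun k _ => by ring)
  have f0 : ∀ j, j ≤ M → 0 ≤ f j ∧ f j ≤ 2 * ρ j / (κ * a) := fun j hj => by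
    have p0 := (hρ j hj).1
    have p1 : 0 ≤ 1 - h * κ * t := by linarith only [h3]
    refine ⟨by simp only [hf]; positivity, ?_⟩
    have p2 : (1 - h * κ * t) * ρ j ≤ ρ j :=
      mul_le_of_le_one_left p0 (by linarith only [mul_pos (mul_pos h0 κ0) t0])
    have p3 : A⁻¹ ≤ (a / 2)⁻¹ := inv_anti₀ (by positivity) (by linarith only [aA])
    refine le_trans (by simp only [hf]; gcongr : _ ≤ ρ j / κ * (a / 2)⁻¹) (le_of_eq ?_)
    field_simp
  have f1 : ∀ j, j ≤ M → b ≤ j * h → f j ≤ σ / 3 := fun j hj hb' => by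
    have j0 : 0 < j := by
      by_contra d
      rw [Nat.eq_zero_of_not_pos d, Nat.cast_zero, zero_mul] at hb'
      linarith only [hb', b0]
    have p1 : ρ j ≤ R := ((hρ j hj).2.2.2.1 j0).trans (mul_le_mul_of_nonneg_left (add_le_add
      (inv_anti₀ (sqrt_pos.2 b0) (sqrt_le_sqrt hb')) (inv_anti₀ b0 (by nlinarith only [hb', b0, t1]))) D0)
    refine (f0 j hj).2.trans ?_
    rw [div_le_iff₀ (by positivity)] at n4 ⊢
    linarith only [n4, p1]
  have hcl : ∀ j, j ≤ M → σ ^ 4 ≤ j * h →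
      |(⟨η, t, κ, h, ρ⟩ : Sy n).gb (A⁻¹, fun k => x k / √A) j - ρ j| ≤ σ := fun j hj hσ => by
    have c1 : 2 * i₁ ≤ j := by
      have : ((2 * i₁ : ℕ) : ℝ) * h ≤ j * h := by
        push_cast; linarith only [i2, r1, hσ, pow_pos σ0 4]
      exact_mod_cast le_of_mul_le_mul_right this h0
    have c2 : h * ∑ i ∈ range (j + 1), ρ i ≤ D * (1 + 1) := (hρ j hj).2.2.1.trans
      (mul_le_mul_of_nonneg_left (add_le_add (sqrt_le_one.2 (jh j hj)) (inv_le_one_of_one_le₀ t1)) D0)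
    have c3 := cl (z := D * (2 * r) * G) h0 S0 A0 hA e0.le (by omega) (tl' j hj)
      (fun m hm => (hρ m (hm.trans hj)).1) c2 fun l hl => by
        refine (((hρ j hj).2.2.2.2 hσ).2 l (by omega)).trans ?_
        refine mul_le_mul (mul_le_mul_of_nonneg_left (le_trans ?_ i2) D0)
          (rpow_le_rpow_of_nonpos (by positivity) hσ (by norm_num)) (by positivity) (by positivity)
        exact mul_le_mul_of_nonneg_right (by exact_mod_cast hl.le) h0.le
    have c4 := f1 j hj ((min_le_right _ _).trans hσ)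
    have c5 := (f0 j hj).1
    have c6 := mul_pos r0 G0
    rw [hgb]
    rw [abs_le] at c3 ⊢
    constructor <;> linarith only [c3.1, c3.2, c4, c5, c6, r2, e1, e0, σ2]
  refine ⟨A, A0, inv_pos.2 A0, fun j hj => ?_, hcl, fun j hj hσ => ?_, fun i hi hσ => ?_⟩
  · have j0 : (0 : ℝ) ≤ j := Nat.cast_nonneg j
    have c1 := up (j := j) h0 S0 A0 E0.le D0 t0 (by linarith only [h2, mul_pos h0 (pow_pos t0 2)])
      (fun i i' a b => dec i i' a (b.trans hj)) s0
      (fun i hi => psum h0 S0 hA e0.le (tl' i (hi.trans hj))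
        (by linarith only [jh i (hi.trans hj), h5])
        (by linarith only [mul_nonneg e0.le D0, e1, σ2, σ1, e0]))
      (fun m hm => (hρ m (hm.trans hj)).1) (hρ j hj).2.2.1
      fun m hm => (hρ m (hm.trans hj)).2.2.2.1
    have s1 : 0 < √((j + 1) * h) := sqrt_pos.2 (by positivity)
    have s2 : 1 ≤ 2 / √((j + 1) * h) := by
      rw [le_div_iff₀ s1, one_mul]
      exact sqrt_le_iff.2 ⟨zero_le_two, by linarith only [jh j hj, h5]⟩
    have s3 : f j ≤ 2 / √((j + 1) * h) := by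
      rcases le_total ((j + 1) * h) ((a / 2) ^ 2) with c | c
      · have d1 : √((j + 1) * h) ≤ a / 2 := sqrt_le_iff.2 ⟨by positivity, c⟩
        have d2 := (hρ j hj).2.1
        refine (f0 j hj).2.trans (le_trans ?_ (div_le_div_of_nonneg_left zero_le_two s1 d1))
        rw [div_le_div_iff₀ (by positivity) (by positivity)]
        linarith only [mul_le_mul_of_nonneg_right d2 a0.le]
      · have := f1 j hj ((min_le_left _ _).trans (by linarith only [c, h4]))
        linarith only [this, s2, σ1]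
    change _ ≤ _ / √((j + 1) * h)
    rw [hgb, add_div, show 4 / √((j + 1) * h) = 2 / √((j + 1) * h) + 2 / √((j + 1) * h) by ring]
    linarith only [c1, s2, s3]
  · have c1 := (abs_le.1 (hcl j hj hσ)).1
    have c2 := ((hρ j hj).2.2.2.2 hσ).1
    linarith only [c1, c2, σ1]
  · have c1 := tl i (by change _ ≤ (i : ℝ) * h at hσ; linarith only [pow_pos σ0 4, hσ, r1, σ4]) hi
    have c2 : ∑ k, (⟨η, t, κ, h, ρ⟩ : Sy n).q k ^ i * (x k / √A) ^ 2 = S i / A := by
      simp only [Sy.q, div_pow, sq_sqrt A0.le, hS, sum_div, mul_div_assoc]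
    refine c2.trans_le ((div_le_iff₀ A0).2 (c1.trans (mul_le_mul_of_nonneg_right ?_ A0.le)))
    linarith only [mul_nonneg e0.le D0, e1, e0]

end Crest.Agent.T157.Cq.Osc

end
end

-- ▼ part T157/OscM_46
section

/-!
# Row 157, part C: `Osc.L2Stmt` and `Osc.TailStmt` (helper46)
-/

set_option autoImplicit false
set_option linter.all false

noncomputable section

namespace Crest.Agent.T157.Cq.Osc

open MeasureTheory ProbabilityTheory Matrix Filter Topology Finset Real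
open Crest.Agent.T157.E Crest.Agent.T157.St Crest.Agent.T157.Ed

namespace M46

variable {n : ℕ}

/-! ### one dimension -/

theorem exp_neg_le {y : ℝ} (hy : |y| ≤ 1 / 2) : exp (-(y + y ^ 2)) ≤ 1 - y := by
  obtain ⟨h1, h2⟩ := abs_le.1 hy
  rw [exp_neg, inv_le_iff_one_le_mul₀ (exp_pos _)]
  rcases le_total y 0 with h | h
  · have := mul_le_mul_of_nonneg_left (add_one_le_exp (y + y ^ 2)) (show 0 ≤ 1 - y by linarith)
    nlinarith [mul_nonneg (neg_nonneg.2 h) (sq_nonneg y)]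
  · have := mul_le_mul_of_nonneg_left (quadratic_le_exp_of_nonneg (x := y + y ^ 2) (by positivity))
      (show 0 ≤ 1 - y by linarith)
    have h3 : 2 * y ≤ (1 - y) * (1 + y) ^ 2 := by
      nlinarith [mul_nonneg h (show 0 ≤ 1 - y - y ^ 2 by nlinarith)]
    nlinarith [mul_le_mul_of_nonneg_left h3 (sq_nonneg y)]

theorem one_exp (a : ℝ) {c : ℝ} (hc : |c| ≤ 1 / 4) :
    Integrable (fun x : ℝ => exp (a * x + c * (x ^ 2 - 1))) (gaussianReal 0 1) ∧
      ∫ x, exp (a * x + c * (x ^ 2 - 1)) ∂gaussianReal 0 1 ≤ exp (a ^ 2 + 2 * c ^ 2) := by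
  obtain ⟨h1, h2⟩ := abs_le.1 hc
  set s : ℝ := 1 - 2 * c with hs
  have s0 : 0 < s := by linarith
  set K : ℝ := (√s)⁻¹ * exp (a ^ 2 / (2 * s) - c) with hK
  have K0 : 0 ≤ K := by positivity
  have hv : (s⁻¹).toNNReal ≠ 0 := by simpa using s0
  have e : ∀ x : ℝ, gaussianPDFReal 0 1 x * exp (a * x + c * (x ^ 2 - 1)) =
      K * gaussianPDFReal (a / s) (s⁻¹).toNNReal x := fun x => by
    simp only [gaussianPDFReal, NNReal.coe_one, Real.coe_toNNReal _ (inv_pos.2 s0).le, mul_one,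
      sub_zero, hK]
    have e1 : √(2 * π) = √s * √(2 * π * s⁻¹) := by
      rw [← sqrt_mul s0.le]; congr 1; field_simp
    rw [e1, mul_inv, mul_assoc, ← exp_add, mul_mul_mul_comm, ← exp_add]
    congr 2
    have : c = (1 - s) / 2 := by rw [hs]; ring
    rw [this]
    field_simp
    ring
  have hl : ∫⁻ x, ENNReal.ofReal (exp (a * x + c * (x ^ 2 - 1))) ∂gaussianReal 0 1 =
      ENNReal.ofReal K := by
    rw [gaussianReal_of_var_ne_zero _ one_ne_zero,
      lintegral_withDensity_eq_lintegral_mul _ (measurable_gaussianPDF _ _) (by fun_prop)]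
    simp only [Pi.mul_apply, gaussianPDF]
    simp_rw [← ENNReal.ofReal_mul (gaussianPDFReal_nonneg _ _ _), e, ENNReal.ofReal_mul K0]
    rw [lintegral_const_mul' _ _ ENNReal.ofReal_ne_top, lintegral_gaussianPDFReal_eq_one _ hv,
      mul_one]
  have hi : Integrable (fun x : ℝ => exp (a * x + c * (x ^ 2 - 1))) (gaussianReal 0 1) :=
    ⟨by fun_prop, by
      rw [hasFiniteIntegral_iff_ofReal (ae_of_all _ fun x => (exp_pos _).le), hl]
      exact ENNReal.ofReal_lt_top⟩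
  refine ⟨hi, ?_⟩
  rw [integral_eq_lintegral_of_nonneg_ae (ae_of_all _ fun x => (exp_pos _).le) hi.1, hl,
    ENNReal.toReal_ofReal K0]
  have h3 : (√s)⁻¹ ≤ exp (c + 2 * c ^ 2) := by
    rw [inv_le_comm₀ (sqrt_pos.2 s0) (exp_pos _), ← Real.exp_neg]
    refine le_sqrt_of_sq_le ?_
    have := exp_neg_le (y := 2 * c) (abs_le.2 ⟨by linarith, by linarith⟩)
    rw [sq, ← exp_add]
    refine le_trans (le_of_eq ?_) this
    congr 1; ring
  have h4 : a ^ 2 / (2 * s) ≤ a ^ 2 := div_le_self (sq_nonneg _) (by linarith)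
  refine (mul_le_mul_of_nonneg_right h3 (exp_pos _).le).trans ?_
  rw [← exp_add]
  exact exp_le_exp.2 (by linarith)

theorem memLp_one (a c : ℝ) :
    MemLp (fun x : ℝ => a * x + c * (x ^ 2 - 1)) 2 (gaussianReal 0 1) :=
  ((memLp_id_gaussianReal 2).const_mul a).add ((Clt80.memLp_sq.sub (memLp_const 1)).const_mul c)

theorem int_one (a c : ℝ) : ∫ x : ℝ, (a * x + c * (x ^ 2 - 1)) ∂gaussianReal 0 1 = 0 := by
  have i1 : Integrable (fun x : ℝ => x) (gaussianReal 0 1) := by simpa using Mba36.int_pow_gauss 1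
  have i2 : Integrable (fun x : ℝ => x ^ 2 - 1) (gaussianReal 0 1) :=
    (Mba36.int_pow_gauss 2).sub (integrable_const _)
  rw [integral_add (i1.const_mul a) (i2.const_mul c), integral_const_mul, integral_const_mul,
    integral_sub (Mba36.int_pow_gauss 2) (integrable_const _), Mba36.gauss_two]
  simp

theorem var_one (a c : ℝ) :
    Var[fun x : ℝ => a * x + c * (x ^ 2 - 1); gaussianReal 0 1] = a ^ 2 + 2 * c ^ 2 := by
  rw [variance_of_integral_eq_zero (by fun_prop) (int_one a c)]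
  have e : ∀ x : ℝ, (a * x + c * (x ^ 2 - 1)) ^ 2 =
      ∑ k : Fin 5, ![c ^ 2, -(2 * a * c), a ^ 2 - 2 * c ^ 2, 2 * a * c, c ^ 2] k * x ^ (k : ℕ) := by
    intro x
    simp [Fin.sum_univ_five]
    ring
  simp only [e]
  rw [integral_finsetSum _ fun (k : Fin 5) _ => (Mba36.int_pow_gauss (k : ℕ)).const_mul _]
  simp only [integral_const_mul, Fin.sum_univ_five]
  have h3 := Mba36.gauss_odd (k := 3) (by decide)
  have h2 := Mba36.gauss_two
  have h4 := Clt80.int_x4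
  simp [h2, h3, h4]
  ring

/-! ### one step -/


theorem step_sq (M : ℝ) (a c : Fin n → ℝ) :
    ∫⁻ ξ, ENNReal.ofReal ((M + inc a c ξ) ^ 2) ∂gv (Fin n) = ENNReal.ofReal (M ^ 2 + vr a c) := by
  have e : (∑ k, fun ξ : Fin n → ℝ => a k * ξ k + c k * (ξ k ^ 2 - 1)) = inc a c := by
    funext ξ; simp [inc]
  have hm : MemLp (inc a c) 2 (gv (Fin n)) := by
    rw [← e]
    exact memLp_finsetSum' _ fun k _ => (memLp_one (a k) (c k)).comp_measurePreserving
      (measurePreserving_eval (fun _ : Fin n => gaussianReal 0 1) k)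
  have h0 : ∫ ξ, inc a c ξ ∂gv (Fin n) = 0 := by
    unfold inc
    rw [integral_finsetSum _ fun k _ => integrable_comp_eval (μ := fun _ : Fin n => gaussianReal 0 1)
      (i := k) ((memLp_one (a k) (c k)).integrable one_le_two)]
    refine sum_eq_zero fun k _ => ?_
    rw [integral_comp_eval (μ := fun _ : Fin n => gaussianReal 0 1)
      (f := fun x : ℝ => a k * x + c k * (x ^ 2 - 1)) (by fun_prop), int_one]
  have hv := variance_sum_pi (μ := fun _ : Fin n => gaussianReal 0 1)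
    (X := fun k x => a k * x + c k * (x ^ 2 - 1)) fun k => memLp_one (a k) (c k)
  rw [e, variance_of_integral_eq_zero hm.aemeasurable h0] at hv
  simp only [var_one] at hv
  have i1 := hm.integrable one_le_two
  have i2 := hm.integrable_sq
  have e2 : ∀ ξ, (M + inc a c ξ) ^ 2 = M ^ 2 + (2 * M * inc a c ξ + inc a c ξ ^ 2) := fun ξ => by ring
  have i3 : Integrable (fun ξ => 2 * M * inc a c ξ + inc a c ξ ^ 2) (gv (Fin n)) :=
    (i1.const_mul _).add i2
  rw [← ofReal_integral_eq_lintegral_ofReal (by simp only [e2]; exact (integrable_const _).add i3)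
    (ae_of_all _ fun ξ => sq_nonneg _)]
  simp only [e2]
  rw [integral_add (integrable_const _) i3, integral_add (i1.const_mul _) i2, integral_const_mul, h0,
    hv]
  simp [vr]

theorem step_exp (l : ℝ) {a c : Fin n → ℝ} (hc : ∀ k, |l * c k| ≤ 1 / 4) :
    ∫⁻ ξ, ENNReal.ofReal (exp (l * inc a c ξ)) ∂gv (Fin n) ≤ ENNReal.ofReal (exp (l ^ 2 * vr a c)) := by
  have e : ∀ ξ : Fin n → ℝ, exp (l * inc a c ξ) =
      ∏ k, exp (l * a k * ξ k + l * c k * (ξ k ^ 2 - 1)) := fun ξ => by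
    rw [← exp_sum, inc, mul_sum]
    congr 1
    exact sum_congr rfl fun k _ => by ring
  simp only [e]
  rw [← ofReal_integral_eq_lintegral_ofReal
    (Integrable.fintype_prod (f := fun k (x : ℝ) => exp (l * a k * x + l * c k * (x ^ 2 - 1)))
      fun k => (one_exp _ (hc k)).1) (ae_of_all _ fun ξ => prod_nonneg fun k _ => (exp_pos _).le),
    integral_fintype_prod_eq_prod (f := fun k (x : ℝ) => exp (l * a k * x + l * c k * (x ^ 2 - 1)))]
  refine ENNReal.ofReal_le_ofReal ((prod_le_prod (fun k _ => integral_nonneg fun x => (exp_pos _).le)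
    fun k _ => (one_exp _ (hc k)).2).trans (le_of_eq ?_))
  rw [← exp_sum, vr, mul_sum]
  congr 1
  exact sum_congr rfl fun k _ => by ring

/-! ### the martingale -/

variable {a c : ℕ → Nz n → Fin n → ℝ}

theorem meas_inc (h : Co a c) (i : ℕ) : Measurable fun ω : Nz n => inc (a i ω) (c i ω) (ω i) := by
  have := h.ma i; have := h.mc i
  unfold inc; fun_prop


theorem meas_Ms (h : Co a c) (j : ℕ) : Measurable (Ms a c j) :=
  Finset.measurable_sum _ fun i _ => meas_inc h i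

theorem ad_Ms (h : Co a c) (j : ℕ) : Ad j (Ms a c j) := fun ω ω' H =>
  sum_congr rfl fun i hi => by
    have hi := mem_range.1 hi
    rw [h.aa i ω ω' fun l hl => H l (by omega), h.ac i ω ω' fun l hl => H l (by omega), H i hi]

theorem Ms_update (h : Co a c) (j : ℕ) (ω : Nz n) (ξ : Fin n → ℝ) :
    Ms a c (j + 1) (Function.update ω j ξ) = Ms a c j ω + inc (a j ω) (c j ω) ξ := by
  rw [← (ad_Ms h j).update le_rfl ω ξ, Ms, sum_range_succ, (h.aa j).update le_rfl,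
    (h.ac j).update le_rfl, Function.update_self]
  rfl

theorem mgf (h : Co a c) (l : ℝ) (w : ℕ → ℝ) (j : ℕ)
    (hw : ∀ i, i < j → ∀ ω, vr (a i ω) (c i ω) ≤ w i)
    (hc : ∀ i, i < j → ∀ ω k, |l * c i ω k| ≤ 1 / 4) :
    EB (fun ω => exp (l * Ms a c j ω)) (exp (l ^ 2 * ∑ i ∈ range j, w i)) := by
  induction j with
  | zero => simpa [Ms] using EB.const (n := n) 1
  | succ j ih =>
    have ih := (ih (fun i hi => hw i (by omega)) fun i hi => hc i (by omega)).smul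
      (exp_pos (l ^ 2 * w j)).le
    have m := meas_Ms h (j + 1)
    unfold EB at ih ⊢
    rw [lint_update j (by fun_prop), sum_range_succ, mul_add, exp_add, mul_comm (exp _)]
    refine le_trans (lintegral_mono fun ω => ?_) ih
    simp only [Ms_update h, mul_add, exp_add, ENNReal.ofReal_mul (exp_pos _).le]
    rw [lintegral_const_mul' _ _ ENNReal.ofReal_ne_top, mul_comm]
    refine mul_le_mul_left ((step_exp l (hc j (by omega) ω)).trans (ENNReal.ofReal_le_ofReal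
      (exp_le_exp.2 (mul_le_mul_of_nonneg_left (hw j (by omega) ω) (sq_nonneg l))))) _

theorem markov {F : Nz n → ℝ} {b t : ℝ} (h : EB F b) (hF : Measurable F) (hb : 0 ≤ b) (ht : 0 < t) :
    (PP n).real {ω | t ≤ F ω} ≤ b / t := by
  have h1 := (mul_meas_ge_le_lintegral (μ := PP n) hF.ennreal_ofReal (ENNReal.ofReal t)).trans h
  have h2 : {ω | t ≤ F ω} ⊆ {ω | ENNReal.ofReal t ≤ ENNReal.ofReal (F ω)} := fun ω hω =>
    ENNReal.ofReal_le_ofReal hω
  have h3 := (mul_le_mul_right (measure_mono (μ := PP n) h2) (ENNReal.ofReal t)).trans h1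
  have h4 := ENNReal.toReal_mono ENNReal.ofReal_ne_top h3
  rw [ENNReal.toReal_mul, ENNReal.toReal_ofReal ht.le, ENNReal.toReal_ofReal hb] at h4
  rw [le_div_iff₀ ht, mul_comm]
  exact h4

end M46

open M46

theorem l2Stmt : L2Stmt := by
  intro n a c h x₀ w j hw
  induction j with
  | zero => simpa [Ms] using EB.const (n := n) (x₀ ^ 2)
  | succ j ih =>
    have ih := ih fun i hi => hw i (by omega)
    have m := meas_Ms h (j + 1)
    have m' := meas_Ms h j
    have h1 := ih.add (hw j (by omega)).2 (by fun_prop)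
      (add_nonneg (sq_nonneg _) (sum_nonneg fun i hi => (hw i (by
        have := mem_range.1 hi; omega)).1)) (hw j (by omega)).1
    unfold EB at h1 ⊢
    rw [lint_update j (by fun_prop), sum_range_succ, ← add_assoc]
    refine le_trans (le_of_eq (lintegral_congr fun ω => ?_)) h1
    simp only [Ms_update h, ← add_assoc]
    exact step_sq _ _ _

theorem tailStmt : TailStmt := by
  intro n a c h w j W c₀ x hW hx hw hs hc hx'
  have m := meas_Ms h j
  have key : ∀ l : ℝ, |l| = x / (2 * W) →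
      (PP n).real {ω | exp (x ^ 2 / (2 * W)) ≤ exp (l * Ms a c j ω)} ≤ exp (-(x ^ 2 / (4 * W))) := by
    intro l hl
    have h1 := mgf h l w j hw fun i hi ω k => by
      rw [abs_mul, hl]
      refine (mul_le_mul_of_nonneg_left (hc i hi ω k) (by positivity)).trans ?_
      rw [div_mul_eq_mul_div, div_le_div_iff₀ (by positivity) (by norm_num)]
      linarith
    refine (markov h1 (by fun_prop) (exp_pos _).le (exp_pos _)).trans ?_
    rw [← exp_sub]
    refine exp_le_exp.2 ?_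
    have h2 : l ^ 2 = (x / (2 * W)) ^ 2 := by rw [← hl, sq_abs]
    have h3 := mul_le_mul_of_nonneg_left hs (sq_nonneg l)
    have h4 : l ^ 2 * W - x ^ 2 / (2 * W) = -(x ^ 2 / (4 * W)) := by rw [h2]; field_simp; ring
    linarith
  have hp : 0 < x / (2 * W) := by positivity
  have e : x ^ 2 / (2 * W) = x / (2 * W) * x := by ring
  have sub : {ω | x < |Ms a c j ω|} ⊆
      {ω | exp (x ^ 2 / (2 * W)) ≤ exp (x / (2 * W) * Ms a c j ω)} ∪
        {ω | exp (x ^ 2 / (2 * W)) ≤ exp (-(x / (2 * W)) * Ms a c j ω)} := fun ω hω => by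
    rcases lt_abs.1 (show x < |Ms a c j ω| from hω) with h1 | h1
    · exact Or.inl (exp_le_exp.2 (e ▸ mul_le_mul_of_nonneg_left h1.le hp.le))
    · refine Or.inr (exp_le_exp.2 ?_)
      rw [e, neg_mul, ← mul_neg]
      exact mul_le_mul_of_nonneg_left h1.le hp.le
  refine (measureReal_mono sub).trans ((measureReal_union_le _ _).trans ?_)
  rw [two_mul (exp _)]
  exact add_le_add (key _ (abs_of_pos hp)) (key _ (by rw [abs_neg, abs_of_pos hp]))

end Crest.Agent.T157.Cq.Osc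

end
end

-- ▼ part T157/OscS_73
section

/-!
# Row 157, part C: the oscillation lemma, the stop is unlikely (helper73)

`stopGlue : StopGlue`: one chaining of the stopped noise.
-/

set_option autoImplicit false

noncomputable section

namespace Crest.Agent.T157.Cq.Osc

open MeasureTheory ProbabilityTheory Matrix Filter Topology Finset Real
open Crest.Agent.T157.E Crest.Agent.T157.St Crest.Agent.T157.Ed

namespace S73

variable {n : ℕ}

/-- all times up to `i` are good -/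
def Gs (S : Sy n) (T Z : ℝ) (p : ℝ × (Fin n → ℝ)) (i : ℕ) : Set (Nz n) :=
  {ω | ∀ i', i' ≤ i → S.Good T Z p i' ω}

/-- its indicator -/
def ind (S : Sy n) (T Z : ℝ) (p : ℝ × (Fin n → ℝ)) (i : ℕ) (ω : Nz n) : ℝ :=
  (Gs S T Z p i).indicator (fun _ => (1 : ℝ)) ω

/-- stopped linear coefficients -/
def aa (S : Sy n) (T Z : ℝ) (p : ℝ × (Fin n → ℝ)) (d : ℕ → Fin n → ℝ) (i : ℕ) (ω : Nz n) :
    Fin n → ℝ := fun k => ind S T Z p i ω * (d i k * S.ca p i ω k)

/-- stopped quadratic coefficients -/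
def cq (S : Sy n) (T Z : ℝ) (p : ℝ × (Fin n → ℝ)) (d : ℕ → Fin n → ℝ) (i : ℕ) (ω : Nz n) :
    Fin n → ℝ := fun k => ind S T Z p i ω * (d i k * S.cc p i ω)

/-- the stopped noise -/
def nu (S : Sy n) (T Z : ℝ) (p : ℝ × (Fin n → ℝ)) (j : ℕ) (ω : Nz n) : ℝ :=
  Ms (aa S T Z p fun i k => S.K k (j - 1 - i)) (cq S T Z p fun i k => S.K k (j - 1 - i)) j ω

/-- kernel increments -/
def dK (S : Sy n) (j l i : ℕ) (k : Fin n) : ℝ :=
  S.K k (j + l - 1 - i) - if i < j then S.K k (j - 1 - i) else 0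

/-- the weights -/
def ph (j l i : ℕ) : ℝ := if i < j then √(l : ℝ) / √((j - i : ℕ) : ℝ) else 1

variable {S : Sy n} {T Z : ℝ} {p : ℝ × (Fin n → ℝ)}

theorem ind_of_mem {i : ℕ} {ω : Nz n} (h : ω ∈ Gs S T Z p i) : ind S T Z p i ω = 1 :=
  Set.indicator_of_mem h _

theorem ind_of_notMem {i : ℕ} {ω : Nz n} (h : ω ∉ Gs S T Z p i) : ind S T Z p i ω = 0 :=
  Set.indicator_of_notMem h _

theorem co (H : ∀ j, Measurable (S.st p j) ∧ Ad j (S.st p j) ∧ Ad j (S.g p j))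
    (d : ℕ → Fin n → ℝ) : Co (aa S T Z p d) (cq S T Z p d) := by
  have mb : ∀ j k, Measurable fun ω => S.be p j ω k := fun j k =>
    (measurable_pi_apply k).comp (H j).1.snd
  have mg : ∀ j, Measurable fun ω => S.g p j ω := fun j => (H (j + 1)).1.fst
  have mG : ∀ i, MeasurableSet (Gs S T Z p i) := fun i => by
    have : Gs S T Z p i = ⋂ i' : ℕ, ⋂ (_ : i' ≤ i),
        ({ω | S.V T (S.be p i' ω) ≤ Z} ∩ {ω | |S.g p i' ω - S.gb p i'| ≤ 1}) := by
      ext ω
      simp only [Gs, Sy.Good, Set.mem_ofPred_eq, Set.mem_iInter, Set.mem_inter_iff]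
    rw [this]
    refine MeasurableSet.iInter fun i' => MeasurableSet.iInter fun _ => MeasurableSet.inter ?_ ?_
    · refine measurableSet_le ?_ measurable_const
      exact Finset.measurable_sum _ fun k _ => ((mb i' k).pow_const 2).const_mul _
    · exact measurableSet_le ((mg i').sub_const _).abs measurable_const
  have mI : ∀ i, Measurable (ind S T Z p i) := fun i => measurable_const.indicator (mG i)
  have eb : ∀ {i : ℕ} {ω ω' : Nz n}, (∀ l, l < i → ω l = ω' l) → ∀ i', i' ≤ i →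
      S.be p i' ω = S.be p i' ω' ∧ S.g p i' ω = S.g p i' ω' := fun h i' hi =>
    ⟨congrArg Prod.snd (((H i').2.1.mono hi) _ _ h), ((H i').2.2.mono hi) _ _ h⟩
  have aI : ∀ i, Ad i (ind S T Z p i) := fun i ω ω' h => by
    have : ω ∈ Gs S T Z p i ↔ ω' ∈ Gs S T Z p i := by
      refine forall₂_congr fun i' hi => ?_
      simp only [Sy.Good, (eb h i' hi).1, (eb h i' hi).2]
    by_cases hω : ω ∈ Gs S T Z p i
    · rw [ind_of_mem hω, ind_of_mem (this.1 hω)]
    · rw [ind_of_notMem hω, ind_of_notMem fun h' => hω (this.2 h')]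
  refine ⟨fun i => measurable_pi_lambda _ fun k => (mI i).mul (Measurable.const_mul ?_ _),
    fun i => measurable_pi_lambda _ fun k => (mI i).mul (Measurable.const_mul ?_ _),
    fun i ω ω' h => ?_, fun i ω ω' h => ?_⟩
  · exact ((mb i k).const_mul _).mul ((mg i).const_mul _).sqrt
  · exact (mg i).const_mul _
  · funext k
    simp only [aa, Sy.ca, aI i ω ω' h, (eb h i le_rfl).1, (eb h i le_rfl).2]
  · funext k
    simp only [cq, Sy.cc, aI i ω ω' h, (eb h i le_rfl).2]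

theorem nu_sub (j l : ℕ) (ω : Nz n) : nu S T Z p (j + l) ω - nu S T Z p j ω =
    Ms (aa S T Z p (dK S j l)) (cq S T Z p (dK S j l)) (j + l) ω := by
  have h1 : nu S T Z p j ω = ∑ i ∈ range (j + l), if i < j then
      inc (aa S T Z p (fun i k => S.K k (j - 1 - i)) i ω)
        (cq S T Z p (fun i k => S.K k (j - 1 - i)) i ω) (ω i) else 0 := by
    rw [← Finset.sum_filter]
    have : (range (j + l)).filter (fun i => i < j) = range j := by
      ext i; simp only [mem_filter, mem_range]; omega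
    rw [this]; rfl
  rw [h1]
  unfold nu Ms
  rw [← Finset.sum_sub_distrib]
  refine Finset.sum_congr rfl fun i _ => ?_
  by_cases hi : i < j
  · simp only [hi, if_true, inc, aa, cq, dK, ← Finset.sum_sub_distrib]
    exact Finset.sum_congr rfl fun k _ => by ring
  · simp only [hi, if_false, inc, aa, cq, dK, sub_zero]

theorem wt_pos {η : ℕ → ℝ} (hT : 0 < T) (k : ℕ) : 0 < Wt η T k := by
  unfold Wt
  have : 0 ≤ T * max (η k) 0 := mul_nonneg hT.le (le_max_right _ _)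
  positivity

theorem wt_le {η : ℕ → ℝ} (hT : 0 < T) (h1 : T ≤ 1) (k : ℕ) : Wt η T k ≤ 1 := by
  unfold Wt
  have : 0 ≤ T * max (η k) 0 := mul_nonneg hT.le (le_max_right _ _)
  rw [div_le_one (by positivity)]
  linarith

theorem ph_nonneg (j l i : ℕ) : 0 ≤ ph j l i := by
  unfold ph; split_ifs <;> positivity

theorem min_le_sqrt {l m : ℝ} (hl : 0 ≤ l) (hm : 1 ≤ m) : min 1 (l / m) ≤ 4 * (√l / √(m + 1)) := by
  have h0 : 0 ≤ l / m := by positivity
  have h1 : min 1 (l / m) ≤ √(l / m) := by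
    rcases le_total 1 (l / m) with h | h
    · rw [min_eq_left h]; exact one_le_sqrt.2 h
    · rw [min_eq_right h]
      exact le_sqrt_of_sq_le (by nlinarith)
  have h2 : √(l / m) ≤ 4 * (√l / √(m + 1)) := by
    rw [← sqrt_div hl]
    refine sqrt_le_iff.2 ⟨by positivity, ?_⟩
    rw [mul_pow, sq_sqrt (by positivity), ← mul_div_assoc,
      div_le_div_iff₀ (by positivity) (by positivity)]
    nlinarith
  exact h1.trans h2

theorem dK_sq {c D C₁ : ℝ} {M : ℕ} (P : S.Par c D C₁ T M) (hD : 0 ≤ D) {j l i : ℕ} (hl : 0 < l)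
    (hM : j + l ≤ M) (k : Fin n) :
    dK S j l i k ^ 2 ≤ 4 * D ∧ dK S j l i k ^ 2 ≤ 4 * D * Wt S.η T k * ph j l i := by
  have w0 := wt_pos (η := S.η) P.T0 k
  have w1 := wt_le (η := S.η) P.T0 P.T1 k
  have hDW : 0 ≤ D * Wt S.η T k := by positivity
  have hDW1 : D * Wt S.η T k ≤ D := by nlinarith
  have u1 := P.Ku k (j + l - 1 - i) (by omega)
  unfold dK ph
  by_cases hi : i < j
  · simp only [hi, if_true]
    have u2 := P.Ku k (j - 1 - i) (by omega)
    have h4 : (S.K k (j + l - 1 - i) - S.K k (j - 1 - i)) ^ 2 ≤ 4 * (D * Wt S.η T k) := by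
      nlinarith [sq_nonneg (S.K k (j + l - 1 - i) + S.K k (j - 1 - i))]
    refine ⟨by linarith, ?_⟩
    by_cases hm : j - 1 - i = 0
    · have e : j - i = 1 := by omega
      have h1 : (1 : ℝ) ≤ √(l : ℝ) := one_le_sqrt.2 (by exact_mod_cast hl)
      rw [e]
      simp only [Nat.cast_one, sqrt_one, div_one]
      nlinarith
    · obtain ⟨m, hm'⟩ : ∃ m, j - 1 - i = m := ⟨_, rfl⟩
      have e1 : j + l - 1 - i = m + l := by omega
      have e2 : j - i = m + 1 := by omega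
      have h5 := P.Kd k m l (by omega) (by omega)
      have h6 := min_le_sqrt (l := l) (m := m) (Nat.cast_nonneg _)
        (by exact_mod_cast (by omega : 1 ≤ m))
      rw [e1, e2, hm']
      push_cast
      calc _ ≤ D * min 1 ((l : ℝ) / m) * Wt S.η T k := h5
        _ = D * Wt S.η T k * min 1 ((l : ℝ) / m) := by ring
        _ ≤ D * Wt S.η T k * (4 * (√(l : ℝ) / √((m : ℝ) + 1))) :=
          mul_le_mul_of_nonneg_left h6 hDW
        _ = _ := by ring
  · simp only [hi, if_false, sub_zero]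
    exact ⟨by linarith, by linarith⟩

theorem sum_ph (j l : ℕ) :
    ∑ i ∈ range (j + l), ph j l i * (√((i : ℝ) + 1))⁻¹ ≤ 6 * √(l : ℝ) := by
  rw [Finset.sum_range_add]
  have hj : 0 < √((j : ℝ) + 1) := sqrt_pos.2 (by positivity)
  have h1 : ∑ i ∈ range j, ph j l i * (√((i : ℝ) + 1))⁻¹ ≤ 4 * √(l : ℝ) := by
    have h2 : ∀ i ∈ range j, ph j l i * (√((i : ℝ) + 1))⁻¹ ≤ √(l : ℝ) / √((j : ℝ) + 1) *
        ((√(((j - 1 - i : ℕ) : ℝ) + 1))⁻¹ + (√((i : ℝ) + 1))⁻¹) := fun i hi => by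
      have hi' := mem_range.1 hi
      obtain ⟨m, hm⟩ : ∃ m, j - 1 - i = m := ⟨_, rfl⟩
      have e2 : j - i = m + 1 := by omega
      have e3 : (j : ℝ) + 1 = ((m : ℝ) + 1) + ((i : ℝ) + 1) := by
        have : j = m + 1 + i := by omega
        rw [this]; push_cast; ring
      simp only [ph, hi', if_true]
      rw [e2, hm]
      push_cast
      have ha : 0 < √((m : ℝ) + 1) := sqrt_pos.2 (by positivity)
      have hb : 0 < √((i : ℝ) + 1) := sqrt_pos.2 (by positivity)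
      have hs : √((j : ℝ) + 1) ≤ √((m : ℝ) + 1) + √((i : ℝ) + 1) := by
        rw [e3]
        refine sqrt_le_iff.2 ⟨by positivity, ?_⟩
        nlinarith [sq_sqrt (by positivity : (0 : ℝ) ≤ (m : ℝ) + 1),
          sq_sqrt (by positivity : (0 : ℝ) ≤ (i : ℝ) + 1), mul_pos ha hb]
      have hl : 0 ≤ √(l : ℝ) := sqrt_nonneg _
      have : (√((m : ℝ) + 1))⁻¹ * (√((i : ℝ) + 1))⁻¹ ≤ (√((j : ℝ) + 1))⁻¹ *
          ((√((m : ℝ) + 1))⁻¹ + (√((i : ℝ) + 1))⁻¹) := by
        rw [← sub_nonneg]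
        have : (√((j : ℝ) + 1))⁻¹ * ((√((m : ℝ) + 1))⁻¹ + (√((i : ℝ) + 1))⁻¹) -
            (√((m : ℝ) + 1))⁻¹ * (√((i : ℝ) + 1))⁻¹ =
            (√((m : ℝ) + 1) + √((i : ℝ) + 1) - √((j : ℝ) + 1)) /
              (√((j : ℝ) + 1) * √((m : ℝ) + 1) * √((i : ℝ) + 1)) := by
          field_simp
          ring
        rw [this]
        exact div_nonneg (by linarith) (by positivity)
      calc _ = √(l : ℝ) * ((√((m : ℝ) + 1))⁻¹ * (√((i : ℝ) + 1))⁻¹) := by ring
        _ ≤ √(l : ℝ) * ((√((j : ℝ) + 1))⁻¹ *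
          ((√((m : ℝ) + 1))⁻¹ + (√((i : ℝ) + 1))⁻¹)) := mul_le_mul_of_nonneg_left this hl
        _ = _ := by ring
    refine (Finset.sum_le_sum h2).trans ?_
    rw [← Finset.mul_sum, Finset.sum_add_distrib,
      Finset.sum_range_reflect (fun i => (√((i : ℝ) + 1))⁻¹) j]
    have h3 := sum_isqrt j
    have h4 : √(j : ℝ) ≤ √((j : ℝ) + 1) := sqrt_le_sqrt (by linarith)
    calc _ ≤ √(l : ℝ) / √((j : ℝ) + 1) * (4 * √((j : ℝ) + 1)) :=
        mul_le_mul_of_nonneg_left (by linarith) (by positivity)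
      _ = _ := by field_simp
  have h2 : ∑ i ∈ range l, ph j l (j + i) * (√(((j + i : ℕ) : ℝ) + 1))⁻¹ ≤ 2 * √(l : ℝ) := by
    refine le_trans (Finset.sum_le_sum fun i _ => ?_) (sum_isqrt l)
    have : ¬ j + i < j := by omega
    simp only [ph, this, if_false, one_mul]
    refine inv_anti₀ (sqrt_pos.2 (by positivity)) (sqrt_le_sqrt ?_)
    push_cast
    linarith [(Nat.cast_nonneg j : (0 : ℝ) ≤ j)]
  linarith

/-- size of `h g_i` at a good time -/
theorem hg_le {c D C₁ σ : ℝ} {M : ℕ} (P : S.Par c D C₁ T M) (I : S.Ini C₁ σ M p) {i : ℕ}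
    (hi : i ≤ M) {ω : Nz n} (G : S.Good T Z p i ω) :
    S.h * S.g p i ω ≤ C₁ * √S.h * (√((i : ℝ) + 1))⁻¹ := by
  have h0 := P.h0
  have h1 := I.up i hi
  have h2 := (abs_le.1 G.2).2
  have hs : 0 < √S.h := sqrt_pos.2 h0
  have hb : 0 < √((i : ℝ) + 1) := sqrt_pos.2 (by positivity)
  rw [sqrt_mul (by positivity)] at h1
  calc _ ≤ S.h * (C₁ / (√((i : ℝ) + 1) * √S.h)) := mul_le_mul_of_nonneg_left (by linarith) h0.le
    _ = (√S.h * √S.h) * (C₁ / (√((i : ℝ) + 1) * √S.h)) := by rw [mul_self_sqrt h0.le]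
    _ = _ := by field_simp

theorem coef {c D C₁ σ : ℝ} {M : ℕ} (P : S.Par c D C₁ T M) (I : S.Ini C₁ σ M p) (hD : 0 ≤ D)
    (hC : 1 ≤ C₁) (hZ : 0 ≤ Z) (g0 : ∀ j ω, 0 < S.g p j ω) {j l i : ℕ} (hl : 0 < l)
    (hM : j + l ≤ M) (hi : i < j + l) (ω : Nz n) :
    vr (aa S T Z p (dK S j l) i ω) (cq S T Z p (dK S j l) i ω) ≤
      4 * D * (16 * Z + 8) * C₁ * √S.h * (ph j l i * (√((i : ℝ) + 1))⁻¹) ∧
    ∀ k, |cq S T Z p (dK S j l) i ω k| ≤ 4 * C₁ * √D * √S.h := by
  have h0 := P.h0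
  have hp := ph_nonneg j l i
  by_cases hω : ω ∈ Gs S T Z p i
  swap
  · simp only [vr, aa, cq, ind_of_notMem hω, zero_mul, abs_zero]
    refine ⟨?_, fun _ => by positivity⟩
    simp only [ne_eq, OfNat.ofNat_ne_zero, not_false_eq_true, zero_pow, mul_zero, add_zero,
      sum_const_zero]
    positivity
  have G := hω i le_rfl
  have h1 := hg_le P I (by omega : i ≤ M) G
  have hg := g0 i ω
  have hb : 1 ≤ √((i : ℝ) + 1) := one_le_sqrt.2 (by linarith [(Nat.cast_nonneg i : (0 : ℝ) ≤ i)])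
  have hb' : (√((i : ℝ) + 1))⁻¹ ≤ 1 := inv_le_one_of_one_le₀ hb
  have hCs : 0 ≤ C₁ * √S.h := by positivity
  have h2 : S.h * S.g p i ω ≤ C₁ * √S.h := h1.trans (mul_le_of_le_one_right hCs hb')
  set y := S.h * S.g p i ω with hy
  have y0 : 0 < y := mul_pos h0 hg
  have hyn : y * n ≤ 1 := (mul_le_mul_of_nonneg_right h2 (Nat.cast_nonneg _)).trans P.sm
  simp only [vr, aa, cq, ind_of_mem hω, one_mul]
  constructor
  · have h3 : ∀ k ∈ (univ : Finset (Fin n)), (dK S j l i k * S.ca p i ω k) ^ 2 +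
        2 * (dK S j l i k * S.cc p i ω) ^ 2 ≤
        4 * D * ph j l i * (16 * y * (Wt S.η T k * S.be p i ω k ^ 2) + 8 * y * y) := fun k _ => by
      have d2 := (dK_sq P hD (i := i) hl hM k).2
      have w0 := wt_pos (η := S.η) P.T0 k
      have w1 := wt_le (η := S.η) P.T0 P.T1 k
      have q0 := P.q0 k
      have q2 : S.q k ≤ 2 := by simpa using P.q2 k 1 (by omega)
      have e1 : S.ca p i ω k ^ 2 = 8 * S.q k * S.be p i ω k ^ 2 * y := by
        unfold Sy.ca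
        rw [mul_pow, mul_pow, mul_pow, sq_sqrt q0, sq_sqrt (by positivity), hy]; ring
      have e2 : S.cc p i ω ^ 2 = 4 * y * y := by unfold Sy.cc; rw [hy]; ring
      have b1 : S.ca p i ω k ^ 2 ≤ 16 * y * S.be p i ω k ^ 2 := by
        rw [e1]
        nlinarith [mul_nonneg (sq_nonneg (S.be p i ω k)) y0.le]
      have hyy : 0 ≤ y * y := by positivity
      calc _ = dK S j l i k ^ 2 * (S.ca p i ω k ^ 2 + 2 * S.cc p i ω ^ 2) := by ring
        _ ≤ (4 * D * Wt S.η T k * ph j l i) * (16 * y * S.be p i ω k ^ 2 + 8 * y * y) :=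
          mul_le_mul d2 (by rw [e2]; linarith) (by positivity) (by positivity)
        _ = 4 * D * ph j l i * (16 * y * (Wt S.η T k * S.be p i ω k ^ 2) +
          8 * y * y * Wt S.η T k) := by ring
        _ ≤ _ := mul_le_mul_of_nonneg_left (by nlinarith) (by positivity)
    refine (Finset.sum_le_sum h3).trans ?_
    rw [← Finset.mul_sum, Finset.sum_add_distrib, ← Finset.mul_sum]
    simp only [sum_const, card_univ, Fintype.card_fin, nsmul_eq_mul]
    have hV : ∑ k : Fin n, Wt S.η T k * S.be p i ω k ^ 2 ≤ Z := G.1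
    have h4 : 16 * y * ∑ k : Fin n, Wt S.η T k * S.be p i ω k ^ 2 + n * (8 * y * y) ≤
        (16 * Z + 8) * y := by nlinarith
    calc _ ≤ 4 * D * ph j l i * ((16 * Z + 8) * y) :=
        mul_le_mul_of_nonneg_left h4 (by positivity)
      _ ≤ 4 * D * ph j l i * ((16 * Z + 8) * (C₁ * √S.h * (√((i : ℝ) + 1))⁻¹)) := by gcongr
      _ = _ := by ring
  · intro k
    have d1 := (dK_sq P hD (i := i) hl hM k).1
    have d3 : |dK S j l i k| ≤ 2 * √D := by
      refine abs_le_of_sq_le_sq' ?_ (by positivity) |> abs_le.2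
      rw [mul_pow, sq_sqrt hD]; linarith
    have e2 : S.cc p i ω = 2 * y := by unfold Sy.cc; rw [hy]; ring
    rw [abs_mul, e2, abs_of_pos (by positivity : 0 < 2 * y)]
    calc _ ≤ 2 * √D * (2 * (C₁ * √S.h)) := by gcongr
      _ = _ := by ring

theorem exp_neg_le {y : ℝ} (hy : 0 < y) : exp (-y) ≤ 24 / y ^ 4 := by
  have h := Real.pow_div_factorial_le_exp y hy.le 4
  have e : ((Nat.factorial 4 : ℕ) : ℝ) = 24 := by norm_num [Nat.factorial]
  rw [e] at h
  rw [exp_neg, inv_eq_one_div, div_le_div_iff₀ (exp_pos _) (by positivity)]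
  linarith

theorem tail (hT : TailStmt) {c D C₁ σ : ℝ} {M : ℕ} (P : S.Par c D C₁ T M) (I : S.Ini C₁ σ M p)
    (hD : 0 ≤ D) (hC : 1 ≤ C₁) (hZ : 0 ≤ Z)
    (H : ∀ j, Measurable (S.st p j) ∧ Ad j (S.st p j) ∧ Ad j (S.g p j))
    (g0 : ∀ j ω, 0 < S.g p j ω) (j l : ℕ) (x : ℝ) (hl : 0 < l) (hM : j + l ≤ M) (hx : 0 < x)
    (hx1 : x ≤ 1) :
    (PP n).real {ω | x < |nu S T Z p (j + l) ω - nu S T Z p j ω|} ≤
      12288 * (24 * D * (16 * Z + 8) * C₁ + 8 * C₁ * √D + 1) ^ 4 * S.h ^ 2 * (l : ℝ) ^ 2 / x ^ 8 := by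
  have h0 := P.h0
  have hs : 0 < √S.h := sqrt_pos.2 h0
  have hl1 : (1 : ℝ) ≤ √(l : ℝ) := one_le_sqrt.2 (by exact_mod_cast hl)
  have hA : 0 ≤ 24 * D * (16 * Z + 8) * C₁ := by positivity
  have hB : 0 ≤ 8 * C₁ * √D := by positivity
  set C₃ := 24 * D * (16 * Z + 8) * C₁ + 8 * C₁ * √D + 1 with hC₃
  have c0 : 0 < C₃ := by positivity
  simp only [nu_sub]
  have hW : 0 < C₃ * √S.h * √(l : ℝ) := by positivity
  have key := hT n _ _ (co (T := T) (Z := Z) H (dK S j l))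
    (fun i => 4 * D * (16 * Z + 8) * C₁ * √S.h * (ph j l i * (√((i : ℝ) + 1))⁻¹)) (j + l)
    (C₃ * √S.h * √(l : ℝ)) (4 * C₁ * √D * √S.h) x hW hx
    (fun i hi ω => (coef P I hD hC hZ g0 hl hM hi ω).1) ?_
    (fun i hi ω k => (coef P I hD hC hZ g0 hl hM hi ω).2 k) ?_
  · refine key.trans ?_
    have h1 := exp_neg_le (y := x ^ 2 / (4 * (C₃ * √S.h * √(l : ℝ)))) (by positivity)
    have e1 : √S.h ^ 4 = S.h ^ 2 := by
      rw [show 4 = 2 * 2 from rfl, pow_mul, sq_sqrt h0.le]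
    have e2 : √(l : ℝ) ^ 4 = (l : ℝ) ^ 2 := by
      rw [show 4 = 2 * 2 from rfl, pow_mul, sq_sqrt (Nat.cast_nonneg _)]
    calc _ ≤ 2 * (24 / (x ^ 2 / (4 * (C₃ * √S.h * √(l : ℝ)))) ^ 4) := by linarith
      _ = 12288 * C₃ ^ 4 * √S.h ^ 4 * √(l : ℝ) ^ 4 / x ^ 8 := by field_simp; norm_num
      _ = _ := by rw [e1, e2]
  · rw [← Finset.mul_sum]
    calc _ ≤ 4 * D * (16 * Z + 8) * C₁ * √S.h * (6 * √(l : ℝ)) :=
        mul_le_mul_of_nonneg_left (sum_ph j l) (by positivity)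
      _ = 24 * D * (16 * Z + 8) * C₁ * √S.h * √(l : ℝ) := by ring
      _ ≤ _ := by gcongr; linarith
  · calc _ ≤ 2 * 1 * (4 * C₁ * √D * √S.h) := by gcongr
      _ = 8 * C₁ * √D * √S.h * 1 := by ring
      _ ≤ _ := by gcongr; linarith

/-- before the first bad time the stopped noise is the noise -/
theorem nu_eq {i j : ℕ} (hij : i ≤ j) {ω : Nz n} (h1 : ∀ l, l < i → S.Good T Z p l ω)
    (h2 : ¬ S.Good T Z p i ω) : nu S T Z p j ω =
      ∑ l ∈ range i, inc (fun k => S.K k (j - 1 - l) * S.ca p l ω k)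
        (fun k => S.K k (j - 1 - l) * S.cc p l ω) (ω l) := by
  unfold nu Ms
  rw [← Finset.sum_subset (range_subset_range.2 hij)]
  · refine Finset.sum_congr rfl fun l hl => ?_
    have : ω ∈ Gs S T Z p l := fun l' hl' => h1 l' (by have := mem_range.1 hl; omega)
    simp only [inc, aa, cq, ind_of_mem this, one_mul]
  · intro l _ hl
    have : ω ∉ Gs S T Z p l := fun h => h2 (h i (by simpa using hl))
    simp [inc, aa, cq, ind_of_notMem this]

theorem main : StopGlue := by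
  rintro hT ⟨D₀, hD₀, hCh⟩ hDu c D C₁ hc hD hC
  have hZ : 0 ≤ C₁ / c := by positivity
  set C₃ := 24 * D * (16 * (C₁ / c) + 8) * C₁ + 8 * C₁ * √D + 1 with hC₃
  refine ⟨D₀ * (12288 * C₃ ^ 4), fun n S T σ M N p P I hN hTN => ?_⟩
  obtain ⟨H, H2, H3, H4⟩ := hDu n S p P.toBas I.g0
  have h0 := P.h0
  have g0 : ∀ j ω, 0 < S.g p j ω := fun j ω => (H2 (j + 1) ω).1
  have key := hCh n (nu S T (C₁ / c) p) M (12288 * C₃ ^ 4 * S.h ^ 2) (by positivity)
    (fun ω => by simp [nu, Ms]) fun j l x hl hM hx hx1 =>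
      tail hT P I hD hC hZ H g0 j l x hl hM hx hx1
  have hsub : {ω | ∃ i, i < N ∧ ¬ S.Good T (C₁ / c) p i ω} ⊆
      {ω | ∃ j, j ≤ M ∧ 1 < |nu S T (C₁ / c) p j ω|} := by
    classical
    intro ω hω
    obtain ⟨hi, hb⟩ := Nat.find_spec hω
    set i := Nat.find hω with hi'
    have hg : ∀ l, l < i → S.Good T (C₁ / c) p l ω := fun l hl => by
      by_contra h
      exact Nat.find_min hω hl ⟨by omega, h⟩
    by_cases h1 : |S.g p i ω - S.gb p i| ≤ 1
    · have hV : C₁ / c < S.V T (S.be p i ω) := by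
        by_contra h
        exact hb ⟨not_lt.1 h, h1⟩
      refine ⟨M, le_rfl, lt_of_lt_of_le ?_ (le_abs_self _)⟩
      have e := H3 i M ω (by omega)
      rw [← nu_eq (by omega) hg hb] at e
      have hs : 0 < √T := sqrt_pos.2 P.T0
      have a1 : 0 ≤ (1 - S.h * S.κ * S.t) * S.ρ (M - i) / S.κ * S.ga p i ω := by
        have := P.t1
        have := P.r0 (M - i) (by omega)
        have := P.k0
        have := (H2 i ω).1
        have : 0 ≤ 1 - S.h * S.κ * S.t := by linarith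
        positivity
      have a2 : c / √T * S.V T (S.be p i ω) ≤ ∑ k, S.K k (M - i) * S.be p i ω k ^ 2 := by
        unfold Sy.V
        rw [Finset.mul_sum]
        refine Finset.sum_le_sum fun k _ => ?_
        have hk := P.Kl k (M - i) (by omega) (by
          rw [Nat.cast_sub (by omega)]
          have : (i : ℝ) ≤ N := by exact_mod_cast hi.le
          nlinarith)
        calc _ = c * Wt S.η T k / √T * S.be p i ω k ^ 2 := by ring
          _ ≤ _ := mul_le_mul_of_nonneg_right hk (sq_nonneg _)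
      have a3 : C₁ / √T < c / √T * S.V T (S.be p i ω) := by
        calc _ = c / √T * (C₁ / c) := by field_simp
          _ < _ := mul_lt_mul_of_pos_left hV (by positivity)
      have a4 : S.gb p M + 1 ≤ C₁ / √T :=
        (I.up M le_rfl).trans (div_le_div_of_nonneg_left (by linarith) hs (sqrt_le_sqrt P.Ml))
      linarith
    · refine ⟨i, by omega, ?_⟩
      have e := H4 i ω
      rw [← nu_eq le_rfl hg hb] at e
      rw [e, add_sub_cancel_left] at h1
      exact not_le.1 h1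
  refine ((measureReal_mono hsub).trans key).trans ?_
  have hM : ((M : ℝ) * S.h) ^ 2 ≤ T ^ 2 := pow_le_pow_left₀ (by positivity) P.Mu 2
  calc _ = D₀ * (12288 * C₃ ^ 4) * ((M : ℝ) * S.h) ^ 2 := by ring
    _ ≤ _ := mul_le_mul_of_nonneg_left hM (by positivity)

end S73

theorem stopGlue : StopGlue := S73.main

end Crest.Agent.T157.Cq.Osc

end
end

-- ▼ part T157/OscU_59

/-!
# Row 157, part C (helper59): `Osc.UsStmt` and `Osc.ChStmt`
-/

set_option autoImplicit false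

noncomputable section

namespace Crest.Agent.T157.Cq.Osc

open MeasureTheory ProbabilityTheory Matrix Filter Topology Finset Real
open Crest.Agent.T157.E Crest.Agent.T157.St Crest.Agent.T157.Ed

namespace U59

variable {n : ℕ} (η : ℕ → ℝ) (t κ h : ℝ)

lemma meas_Fs : Measurable (Fs n η t κ h) := by
  refine measurable_pi_lambda _ fun k => ?_
  simp only [Fs, dotProduct]
  fun_prop

lemma meas_XS (x : Fin n → ℝ) (j : ℕ) : Measurable (XS n η t κ h x j) := by
  induction j with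
  | zero => exact measurable_const
  | succ j ih =>
    exact ((meas_Fs η t κ h).comp ih).add ((measurable_pi_apply j).const_smul √(2 * h))

lemma ad_XS (x : Fin n → ℝ) (j : ℕ) : Ad j (XS n η t κ h x j) := by
  induction j with
  | zero => exact fun _ _ _ => rfl
  | succ j ih =>
    intro ω ω' H
    simp only [XS]
    rw [ih ω ω' fun l hl => H l (by omega), H j (by omega)]

lemma b1_Us {v : (Fin n → ℝ) → ℝ} (hv : B1 v) : B1 (Us n η t κ h v) := by
  have hm : Measurable fun q : (Fin n → ℝ) × (Fin n → ℝ) =>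
      v (Fs n η t κ h q.1 + √(2 * h) • q.2) :=
    hv.1.comp (((meas_Fs η t κ h).comp measurable_fst).add (measurable_snd.const_smul √(2 * h)))
  refine ⟨hm.stronglyMeasurable.integral_prod_right'.measurable, fun x => ?_⟩
  have := norm_integral_le_of_norm_le_const (μ := gv (Fin n)) (C := 1)
    (f := fun ξ => v (Fs n η t κ h x + √(2 * h) • ξ)) (ae_of_all _ fun ξ => hv.2 _)
  rwa [probReal_univ, mul_one] at this

end U59

open U59

theorem usStmt : UsStmt := by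
  intro n η t κ h x j
  refine ⟨meas_XS η t κ h x j, ?_⟩
  induction j with
  | zero => intro v _; simp [XS]
  | succ j ih =>
    intro v hv
    rw [Function.iterate_succ_apply, ih _ (b1_Us η t κ h hv)]
    have hm : Measurable fun ω => v (XS n η t κ h x (j + 1) ω) := hv.1.comp (meas_XS η t κ h x _)
    have hp := mp_update (n := n) j
    have hi : Integrable (fun q : Nz n × (Fin n → ℝ) =>
        v (XS n η t κ h x (j + 1) (Function.update q.1 j q.2))) ((PP n).prod (gv (Fin n))) :=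
      (integrable_const (1 : ℝ)).mono' (hm.comp hp.measurable).aestronglyMeasurable
        (ae_of_all _ fun q => hv.2 _)
    conv_rhs => rw [← hp.map_eq]
    rw [integral_map hp.measurable.aemeasurable hm.aestronglyMeasurable, integral_prod _ hi]
    refine integral_congr_ae (ae_of_all _ fun ω => ?_)
    simp only [Us, XS, Function.update_self, (ad_XS η t κ h x j).update le_rfl]

namespace U59

lemma chain {ν : ℕ → ℝ} (h0 : ν 0 = 0) {M L : ℕ} (hM : M < 2 ^ (L + 1))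
    (h : ∀ r, r ≤ L → ∀ i, i < M / 2 ^ (L - r) →
      |ν (i * 2 ^ (L - r) + 2 ^ (L - r)) - ν (i * 2 ^ (L - r))| ≤ 1 / 16 * (15 / 16) ^ r)
    {j : ℕ} (hj : j ≤ M) : |ν j| ≤ 1 := by
  have key : ∀ r, r ≤ L + 1 →
      |ν (j / 2 ^ (L + 1 - r) * 2 ^ (L + 1 - r))| ≤ 1 - (15 / 16) ^ r := by
    intro r
    induction r with
    | zero => intro _; simp [Nat.div_eq_of_lt (lt_of_le_of_lt hj hM), h0]
    | succ r ih =>
      intro hr
      have h1 := ih (by omega)
      have e1 : L + 1 - r = (L - r) + 1 := by omega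
      have e2 : L + 1 - (r + 1) = L - r := by omega
      rw [e1, pow_succ, ← Nat.div_div_eq_div_mul] at h1
      rw [e2]
      have hp : (0 : ℝ) < (15 / 16) ^ r := by positivity
      have hle : j / 2 ^ (L - r) ≤ M / 2 ^ (L - r) := Nat.div_le_div_right hj
      have h2 := h r (by omega)
      generalize j / 2 ^ (L - r) = a at h1 hle ⊢
      generalize 2 ^ (L - r) = l at h1 h2 hle ⊢
      rcases Nat.even_or_odd' a with ⟨b, rfl | rfl⟩
      · have e : 2 * b / 2 * (l * 2) = 2 * b * l := by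
          rw [Nat.mul_div_cancel_left _ two_pos]; ring
        rw [e] at h1
        rw [pow_succ]
        linarith
      · have e : (2 * b + 1) / 2 * (l * 2) = 2 * b * l := by
          rw [show (2 * b + 1) / 2 = b by omega]; ring
        rw [e] at h1
        have h3 := h2 (2 * b) (by omega)
        rw [pow_succ, add_mul, one_mul]
        have := abs_sub_abs_le_abs_sub (ν (2 * b * l + l)) (ν (2 * b * l))
        linarith
  have := key (L + 1) le_rfl
  simp only [Nat.sub_self, pow_zero, Nat.div_one, mul_one] at this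
  linarith [pow_pos (by norm_num : (0 : ℝ) < 15 / 16) (L + 1)]

end U59

theorem chStmt : ChStmt := by
  have hq0 : (0 : ℝ) ≤ (16 / 15) ^ 8 / 2 := by positivity
  have hq1 : ((16 / 15) ^ 8 / 2 : ℝ) < 1 := by norm_num
  refine ⟨16 ^ 8 * (1 - (16 / 15) ^ 8 / 2)⁻¹, by norm_num, fun n ν M B hB h0 h => ?_⟩
  rcases eq_or_ne M 0 with rfl | hM
  · have : {ω | ∃ j, j ≤ 0 ∧ 1 < |ν j ω|} = ∅ := by
      ext ω; simp [h0]
    rw [this]; simp
  set L := Nat.log 2 M with hL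
  have hsub : {ω | ∃ j, j ≤ M ∧ 1 < |ν j ω|} ⊆ ⋃ r ∈ range (L + 1),
      ⋃ i ∈ range (M / 2 ^ (L - r)), {ω | 1 / 16 * (15 / 16) ^ r <
        |ν (i * 2 ^ (L - r) + 2 ^ (L - r)) ω - ν (i * 2 ^ (L - r)) ω|} := by
    rintro ω ⟨j, hj, h1⟩
    by_contra hn
    simp only [Set.mem_iUnion, mem_range, Set.mem_ofPred_eq, not_exists, not_lt] at hn
    exact absurd (chain (ν := fun j => ν j ω) (h0 ω) (Nat.lt_pow_succ_log_self one_lt_two M)
      (fun r hr i hi => hn r (by omega) i hi) hj) (not_le.2 h1)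
  refine (measureReal_mono hsub (measure_ne_top _ _)).trans ((measureReal_biUnion_finset_le _ _).trans ?_)
  have hM0 : (0 : ℝ) ≤ M := Nat.cast_nonneg M
  have key : ∀ r ∈ range (L + 1), (PP n).real (⋃ i ∈ range (M / 2 ^ (L - r)),
      {ω | 1 / 16 * (15 / 16) ^ r <
        |ν (i * 2 ^ (L - r) + 2 ^ (L - r)) ω - ν (i * 2 ^ (L - r)) ω|}) ≤
      16 ^ 8 * B * (M : ℝ) ^ 2 * ((16 / 15) ^ 8 / 2) ^ r := by
    intro r hr
    have hr' : r ≤ L := Nat.lt_succ_iff.1 (mem_range.1 hr)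
    have hl : 2 ^ (L - r) * 2 ^ r ≤ M := by
      rw [← pow_add, Nat.sub_add_cancel hr']
      exact Nat.pow_log_le_self 2 hM
    have hl0 : 0 < 2 ^ (L - r) := by positivity
    generalize 2 ^ (L - r) = l at hl hl0 ⊢
    have hx : (0 : ℝ) < 1 / 16 * (15 / 16) ^ r := by positivity
    have hx1 : (1 / 16 * (15 / 16) ^ r : ℝ) ≤ 1 :=
      mul_le_one₀ (by norm_num) (by positivity) (pow_le_one₀ (by norm_num) (by norm_num))
    have h1 : ((M / l : ℕ) : ℝ) * l ≤ M := by exact_mod_cast Nat.div_mul_le_self M l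
    have h2 : (l : ℝ) ≤ M / 2 ^ r := by
      rw [le_div_iff₀ (by positivity)]; exact_mod_cast hl
    refine (measureReal_biUnion_finset_le _ _).trans ((sum_le_card_nsmul _ _ _ fun i hi =>
      h (i * l) l _ hl0 ?_ hx hx1).trans ?_)
    · calc i * l + l = (i + 1) * l := by ring
        _ ≤ M / l * l := Nat.mul_le_mul_right _ (mem_range.1 hi)
        _ ≤ M := Nat.div_mul_le_self M l
    · rw [card_range, nsmul_eq_mul]
      calc ((M / l : ℕ) : ℝ) * (B * (l : ℝ) ^ 2 / (1 / 16 * (15 / 16) ^ r) ^ 8)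
          = ((M / l : ℕ) : ℝ) * l * l * (B / (1 / 16 * (15 / 16) ^ r) ^ 8) := by ring
        _ ≤ M * (M / 2 ^ r) * (B / (1 / 16 * (15 / 16) ^ r) ^ 8) := by gcongr
        _ = _ := by
          rw [mul_pow, ← pow_mul, mul_comm r 8, pow_mul, div_pow ((16 / 15 : ℝ) ^ 8),
            show ((16 / 15 : ℝ) ^ 8) = ((15 / 16) ^ 8)⁻¹ by norm_num, inv_pow]
          field_simp
  refine (sum_le_sum key).trans ?_
  rw [← mul_sum]
  have := (summable_geometric_of_lt_one hq0 hq1).sum_le_tsum (range (L + 1))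
    fun i _ => pow_nonneg hq0 i
  rw [tsum_geometric_of_lt_one hq0 hq1] at this
  calc 16 ^ 8 * B * (M : ℝ) ^ 2 * ∑ r ∈ range (L + 1), ((16 / 15 : ℝ) ^ 8 / 2) ^ r
      ≤ 16 ^ 8 * B * (M : ℝ) ^ 2 * (1 - (16 / 15) ^ 8 / 2)⁻¹ := by gcongr
    _ = _ := by ring

end Crest.Agent.T157.Cq.Osc
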