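import Crest.Agent.T157.CqI12_6
import Crest.Agent.T157.CqMgB_4
import Crest.Agent.T157.StAll_87
import Crest.Agent.T157.OscU_59_Mg
import Crest.Agent.T157.CqRdB_7
import Crest.Agent.T157.CqWin_59
import Crest.Agent.T157.CqDiscDef_34
import Crest.Agent.T157.CqTopA_72
import Crest.Agent.T157.TrF_64
import Crest.Agent.T157.RecB_77
import Crest.Agent.T157.SpTrf_85
import Crest.Agent.T157.StLnk_10
import Crest.Agent.T157.SpDom_15
import Crest.Agent.T157.O7Def_64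
import Crest.Agent.T157.GoeT_48

-- ▼ part T157/CqSg_6
section

/-!
# Row 157, part C: (SG) for Gaussian couplings (helper6)

`Q1.LdB false` is `Q1.ldB_gauss` (file `Q1G_63`).
-/

set_option autoImplicit false

namespace Crest.Agent.T157.Cq

theorem sgGlue_of (h : Q1.LdB false) : SgGlue := fun _ hk hB hI => Sg6.sg_of hk hB h hI

end Crest.Agent.T157.Cq
end

-- ▼ part T157/CqMg_4
section

/-!
# Row 157, part C: `MgGlue` (helper4)
-/

set_option autoImplicit false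

namespace Crest.Agent.T157.Cq

open Crest.Agent.T157.St

/-- **merging on the cube from merging on the soft sphere** -/
theorem mgGlue : MgGlue :=
  Mg4.mg_of All.goodStmt All.mgfStmt All.coordStmt All.closeStmt All.lnkStmt isomStmt mmdStmt

end Crest.Agent.T157.Cq
end

-- ▼ part T157/OscAll_27
section

/-! # The oscillation lemma (assembly, helper27) -/

set_option autoImplicit false

namespace Crest.Agent.T157.Cq

theorem oscGlue : OscGlue :=
  Osc.oscGlue_of Osc.l2Stmt Osc.tailStmt Osc.usStmt Osc.chStmt Osc.duStmt Osc.kStmt Osc.stopGlue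
    Osc.conGlue Osc.finGlue

end Crest.Agent.T157.Cq
end

-- ▼ part T157/CqRd_7
section

/-!
# Row 157, part C: the round (helper7)

`Cq.roundGlue : RoundGlue`.
-/

set_option autoImplicit false

noncomputable section

namespace Crest.Agent.T157.Cq

open MeasureTheory ProbabilityTheory Matrix Filter Topology Finset Real
open Crest.Agent.T157.E Crest.Agent.T157.Eig Crest.Agent.T157.St Crest.Agent.T157.Ed
open Crest.Agent.T157.Cond (unitv measurable_Wmat)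
open Crest.Agent.T157.Tr (Om)
open Crest.Agent.T157.Q1 (DownStmt LdB)
open Win59

namespace Rd7

variable {n : ℕ}

/-! ### spectral calculus -/

lemma fl_tr (l : ℝ) (W : Mat n) : (fl n l W)ᵀ = fl n l W := by
  unfold fl; ext i j; rw [transpose_apply, fnK_symm]

lemma Hm_eq {W : Mat n} (hW : W.IsHermitian) : Hm n W = fnK (fun x => tau n * (2 - x)) W := by
  have h : fnK (fun x : ℝ => x) W = W := by simpa using fnK_id (K := ℝ) hW
  rw [fnK_smul, fnK_sub, fnK_const hW, h, Hm]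

lemma sq_le {W : Mat n} (hW : W.IsHermitian) {φ : ℝ → ℝ} {k l : ℝ}
    (h : ∀ x, φ x * φ x ≤ k * fw l (tau n * (2 - x))) :
    (∀ x, qf (fnK φ W * (fnK φ W)ᵀ) x ≤ k * qf (fl n l W) x) ∧
      (fnK φ W * (fnK φ W)ᵀ).trace ≤ k * (fl n l W).trace := by
  have e : (fnK φ W)ᵀ = fnK φ W := by ext i j; exact fnK_symm (K := ℝ) _ W j i
  rw [e, fnK_mul hW, fl_eq, trace_fnK hW, trace_fnK hW, mul_sum]
  refine ⟨fun x => ?_, sum_le_sum fun _ _ => h _⟩
  simp only [qf, quad_fnK, mul_sum, ← mul_assoc k]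
  exact sum_le_sum fun _ _ => mul_le_mul_of_nonneg_right (h _) (mul_self_nonneg _)

lemma fl_le {W : Mat n} (hW : W.IsHermitian) (l : ℝ) (x : Cube n) :
    qf (fl n l W * (fl n l W)ᵀ) x ≤ qf (fl n l W) x := by
  simpa only [one_mul] using! (sq_le hW (k := 1) (l := l) fun x =>
    (mul_le_of_le_one_right (fw_nonneg l _) (fw_le_one l _)).trans_eq (one_mul _).symm).1 x

lemma Hfl_le {W : Mat n} (hW : W.IsHermitian) {l : ℝ} (hl : 0 < l) :
    (∀ x, qf (Hm n W * fl n l W * (Hm n W * fl n l W)ᵀ) x ≤ l ^ 2 * qf (fl n l W) x) ∧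
      (Hm n W * fl n l W * (Hm n W * fl n l W)ᵀ).trace ≤ l ^ 2 * (fl n l W).trace := by
  have e : Hm n W * fl n l W = fnK (fun x => tau n * (2 - x) * fw l (tau n * (2 - x))) W := by
    rw [Hm_eq hW, fl_eq, fnK_mul hW]
  rw [e]
  refine sq_le hW fun x => ?_
  set t := tau n * (2 - x)
  have : t ^ 2 * fw l t ≤ l ^ 2 := by
    rw [fw, ← mul_div_assoc, div_le_iff₀ (by positivity)]
    nlinarith [sq_nonneg (l ^ 2)]
  nlinarith [mul_le_mul_of_nonneg_right this (fw_nonneg l t)]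

lemma fl_vec {W : Mat n} (hW : W.IsHermitian) (l : ℝ) (a : Fin n → ℝ) :
    (fl n l W *ᵥ a) ⬝ᵥ (fl n l W *ᵥ a) ≤ a ⬝ᵥ a := by
  rw [← dot_symm (fl_tr l W), mulVec_mulVec]
  have := (one_sub_fl_sq_psd hW l).dotProduct_mulVec_nonneg a
  rw [star_trivial, sub_mulVec, one_mulVec, dotProduct_sub] at this
  linarith

/-! ### measurability and Fubini -/

lemma meas_k (hm : MsStmt) {α : Type*} [MeasurableSpace α] {W : α → Mat n} {v : α → Fin n → ℝ}
    (hW : Measurable W) (hv : Measurable v) (ε c : ℝ) :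
    Measurable fun q => kap (W q) ε fun x => c * sl (v q) x :=
  (hm n ε 1).2.measurable.comp (f := fun q => (W q, fun x => c * sl (v q) x))
    (hW.prodMk (measurable_pi_lambda _ fun x => by unfold sl; fun_prop))

lemma meas_swp (hm : MsStmt) {α : Type*} [MeasurableSpace α] {W : α → Mat n}
    {a b : α → Fin n → ℝ} (hW : Measurable W) (ha : Measurable a) (hb : Measurable b) (ε s : ℝ) :
    Measurable fun q => swp ε s (W q) (a q) (b q) := by
  have h1 : Measurable fun q => prp (a q) (b q) := by unfold prp; fun_prop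
  have h2 : Measurable fun q => rot (unitv (a q)) (prp (a q) (b q)) (π / 2) := by
    unfold rot; fun_prop
  exact (meas_k hm hW (by fun_prop) ε s).sub (meas_k hm (by fun_prop) h1 ε s)

lemma meas_H : Measurable fun p : Om n => Hm n (Wp p) := by
  have := measurable_Wmat (n := n)
  unfold Hm; fun_prop

section fub
variable (hk : KapStmt) (hm : MsStmt) (hn : 1 ≤ n) (b : Bool) {ε : ℝ} (hε : 0 < ε)
  {pr : (Fin n → ℝ) × (Fin n → ℝ) → Fin n → ℝ}
  (hpr : MeasurePreserving pr ((gv (Fin n)).prod (gv (Fin n))) (gv (Fin n)))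
  {F : Om n → Mat n} (hF : Measurable F) {c : ℝ} (hc : 0 ≤ c)
include hk hm hn hε hpr hF hc

lemma fub : Integrable (fun q : QS n => kap (Wp q.1) ε fun x => c * sl (F q.1 *ᵥ pr q.2) x) (QQ b n) ∧
    Integrable (fun p => ∫ ξ, kap (Wp p) ε (fun x => c * sl (F p *ᵥ ξ) x) ∂gv (Fin n)) (PB b n) ∧
    ∫ q, kap (Wp q.1) ε (fun x => c * sl (F q.1 *ᵥ pr q.2) x) ∂QQ b n =
      ∫ p, ∫ ξ, kap (Wp p) ε (fun x => c * sl (F p *ᵥ ξ) x) ∂gv (Fin n) ∂PB b n := by
  have h := (MeasurePreserving.id (PB b n)).prod hpr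
  have m : Measurable fun q : Om n × (Fin n → ℝ) =>
      kap (Wp q.1) ε fun x => c * sl (F q.1 *ᵥ q.2) x :=
    meas_k hm (measurable_Wmat.comp measurable_fst) (by fun_prop) ε c
  have I : Integrable _ ((PB b n).prod (gv (Fin n))) := .of_bound m.aestronglyMeasurable 1
    (ae_of_all _ fun q => by
      rw [norm_of_nonneg (k0 hk hn hε _ (csl hc _))]; exact k1 hk hn hε _ (csl hc _))
  refine ⟨h.integrable_comp_of_integrable I, I.integral_prod_left, ?_⟩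
  rw [← integral_prod _ I, ← h.map_eq, integral_map h.measurable.aemeasurable m.aestronglyMeasurable]
  rfl

lemma term {c' l z : ℝ} (hc' : 0 ≤ c')
    (h : ∀ p x, c * qf (F p * (F p)ᵀ) x ≤ c' * qf (fl n l (Wp p)) x)
    (hz : ∫ p, kap (Wp p) ε (fun x => c' * qf (fl n l (Wp p)) x) ∂PB b n ≤ z) :
    ∫ q, kap (Wp q.1) ε (fun x => c * sl (F q.1 *ᵥ pr q.2) x) ∂QQ b n ≤ z := by
  obtain ⟨-, I, e⟩ := fub hk hm hn b hε hpr hF hc
  rw [e]
  refine (integral_mono I (int_kap hk hm hn b hε hc' (meas_fl hm l) fun p => fl_psd l _)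
    fun p => ?_).trans hz
  refine (((hk n _ ε hn hε).2.1 (F p) c hc).1).trans (kmono hk hn hε _ (fun x => ?_) (h p))
  refine mul_nonneg hc (qf_nonneg ?_ x)
  simpa using posSemidef_self_mul_conjTranspose (F p)

end fub

/-! ### the round for fixed parameters -/

/-- spectral part of the good event -/
def Sp (c D₁ l' l P' P : ℝ) (W : Mat n) : Prop :=
  (c * P' ≤ (fl n l' W * fl n l' W).trace ∧ (fl n l' W).trace ≤ D₁ * P') ∧
    c * P ≤ (fl n l W * fl n l W).trace ∧ (fl n l W).trace ≤ D₁ * P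

/-- upper tail -/
def Up (z : ℝ) (F : Mat n) (x : Fin n → ℝ) : Prop := (F *ᵥ x) ⬝ᵥ (F *ᵥ x) ≤ z⁻¹ * (F * Fᵀ).trace
/-- lower tail -/
def Lo (z : ℝ) (F : Mat n) (x : Fin n → ℝ) : Prop :=
  z ^ 2 / 36 * (F * Fᵀ).trace ≤ (F *ᵥ x) ⬝ᵥ (F *ᵥ x)
/-- the cross term -/
def Cx (z : ℝ) (a a' : Fin n → ℝ) : Prop := (a ⬝ᵥ a') ^ 2 ≤ z⁻¹ * (a ⬝ᵥ a)

lemma up_le (b : Bool) {z : ℝ} (hz : 0 < z) {F : Om n → Mat n} (hF : Measurable F) :
    QQ b n {q | ¬ Up z (F q.1) q.2.1} ≤ ENNReal.ofReal z ∧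
      QQ b n {q | ¬ Up z (F q.1) q.2.2} ≤ ENNReal.ofReal z := by
  have zz : ENNReal.ofReal z⁻¹⁻¹ = ENNReal.ofReal z := by rw [inv_inv]
  simp only [Up, not_le]
  have h := fun p => (markov_vec (F p) (inv_pos.2 hz)).trans_eq zz
  exact ⟨bad_fst (measurableSet_lt (by fun_prop) (by fun_prop)) fun p _ => h p,
    bad_snd (measurableSet_lt (by fun_prop) (by fun_prop)) fun p _ => h p⟩

lemma lo_le (b : Bool) {z : ℝ} (hz : 0 < z) {F : Om n → Mat n} (hF : Measurable F) :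
    QQ b n {q | ¬ Lo z (F q.1) q.2.1} ≤ ENNReal.ofReal z ∧
      QQ b n {q | ¬ Lo z (F q.1) q.2.2} ≤ ENNReal.ofReal z := by
  simp only [Lo, not_le]
  exact ⟨bad_fst (measurableSet_lt (by fun_prop) (by fun_prop)) fun p _ => small_ball hz (F p),
    bad_snd (measurableSet_lt (by fun_prop) (by fun_prop)) fun p _ => small_ball hz (F p)⟩

lemma cx_le (b : Bool) {z : ℝ} (hz : 0 < z) {F F' : Om n → Mat n} (hF : Measurable F)
    (hF' : Measurable F') (h1 : ∀ p, (F' p)ᵀ = F' p)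
    (h2 : ∀ p a, (F' p *ᵥ a) ⬝ᵥ (F' p *ᵥ a) ≤ a ⬝ᵥ a) :
    QQ b n {q | ¬ Cx z (F q.1 *ᵥ q.2.1) (F' q.1 *ᵥ q.2.2)} ≤ ENNReal.ofReal z := by
  have zz : ENNReal.ofReal z⁻¹⁻¹ = ENNReal.ofReal z := by rw [inv_inv]
  simp only [Cx, not_le]
  refine bad_snd (measurableSet_lt (by fun_prop) (by fun_prop)) fun p x => ?_
  simp only [Set.mem_ofPred_eq, dot_symm (h1 p)]
  exact (markov_dot _ (h2 p _) (inv_pos.2 hz)).trans_eq zz

/-- the good event -/
def Good (z c D₁ l' l P' P : ℝ) (W : Mat n) (x y : Fin n → ℝ) : Prop :=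
  Sp c D₁ l' l P' P W ∧ Up z (fl n l' W) x ∧ Lo z (fl n l' W) x ∧ Up z (Hm n W * fl n l' W) x ∧
    Up z (fl n l W) y ∧ Lo z (fl n l W) y ∧ Up z (Hm n W * fl n l W) y ∧
    Cx z (fl n l' W *ᵥ x) (fl n l W *ᵥ y)

lemma bad_set (hm : MsStmt) (b : Bool) {z c D₁ l' l P' P : ℝ} (hz : 0 < z)
    (hS : PB b n {p | ¬ Sp c D₁ l' l P' P (Wp p)} ≤ ENNReal.ofReal z) :
    ∃ S : Set (QS n), MeasurableSet S ∧ (QQ b n).real S ≤ 8 * z ∧
      ∀ q ∉ S, Good z c D₁ l' l P' P (Wp q.1) q.2.1 q.2.2 := by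
  have f1 := meas_fl (n := n) hm l'
  have f2 := meas_fl (n := n) hm l
  have f3 := (meas_H (n := n)).t157_mul f1
  have f4 := (meas_H (n := n)).t157_mul f2
  have b0 : QQ b n {q | ¬ Sp c D₁ l' l P' P (Wp q.1)} ≤ ENNReal.ofReal z :=
    ((measurePreserving_fst (μ := PB b n)).measure_preimage_le _).trans hS
  have ad : ∀ {s t : QS n → Prop} {x y : ENNReal}, QQ b n {q | ¬ s q} ≤ x →
      QQ b n {q | ¬ t q} ≤ y → QQ b n {q | ¬ (s q ∧ t q)} ≤ x + y := fun h h' =>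
    (measure_mono fun q hq => not_and_or.1 hq).trans
      ((measure_union_le _ _).trans (add_le_add h h'))
  have h := ad b0 (ad (up_le b hz f1).1 (ad (lo_le b hz f1).1 (ad (up_le b hz f3).1
    (ad (up_le b hz f2).2 (ad (lo_le b hz f2).2 (ad (up_le b hz f4).2
      (cx_le b hz f1 f2 (fun _ => fl_tr _ _) fun _ => fl_vec (Wmat_isHermitian _ _) l)))))))
  refine ⟨toMeasurable (QQ b n) {q | ¬ Good z c D₁ l' l P' P (Wp q.1) q.2.1 q.2.2},
    measurableSet_toMeasurable _ _, ?_, fun q hq => ?_⟩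
  · rw [Measure.real, measure_toMeasurable]
    refine ENNReal.toReal_le_of_le_ofReal (by positivity) (h.trans (le_of_eq ?_))
    rw [ENNReal.ofReal_mul (by norm_num), ENNReal.ofReal_ofNat]; ring
  · by_contra h'
    exact hq (subset_toMeasurable _ _ h')

lemma ptw (hk : KapStmt) {D : ℝ} (hK : Kill D) (hn : 1 ≤ n)
    {ε θ s z c D₁ l' l P' P A B Λ s₁ : ℝ} (hε : 0 < ε) (hε1 : ε ≤ 1) (hθ : 0 < θ) (hs : 0 ≤ s)
    (hz : 0 < z) (hc : 0 < c) (hD₁ : 0 ≤ D₁) (hl' : 0 < l') (hl : l' ≤ l) (hP' : 0 < P')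
    (hP : 0 < P) (hA : A = z ^ 2 / 36 * c * P') (hB : B = z ^ 2 / 36 * c * P / 2)
    (hΛ : Λ = 2 * z⁻¹ * D₁ / (z ^ 2 / 36 * c) * l ^ 2) (hs₁ : s₁ = s * (z⁻¹ * (D₁ * P')))
    (hMB : z⁻¹ ≤ B) (hτ : 440 * Λ ≤ θ * tau n) (hD : D * √θ ≤ z) {ω : (Fin 3 → ℝ) → ℝ}
    (ω2 : ∀ u v w : ℝ, A ≤ u → u ≤ z⁻¹ * (D₁ * P') → 2 * z⁻¹ ≤ v → v ≤ z⁻¹ * (D₁ * P) →
      w ^ 2 ≤ z⁻¹ * u → ω ![u, v, w] = 1) {W : Mat n} (hW : W.IsHermitian) {x y : Fin n → ℝ}
    (h : Good z c D₁ l' l P' P W x y) :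
    kap W ε (fun σ => s * sl (fl n l' W *ᵥ x) σ) ≤
      ω ![(fl n l' W *ᵥ x) ⬝ᵥ (fl n l' W *ᵥ x), (fl n l W *ᵥ y) ⬝ᵥ (fl n l W *ᵥ y),
        (fl n l' W *ᵥ x) ⬝ᵥ (fl n l W *ᵥ y)] * swp ε s₁ W (fl n l' W *ᵥ x) (fl n l W *ᵥ y) + z +
      (kap W ε (fun σ => 24 / (θ * A) * sl ((Hm n W * fl n l' W) *ᵥ x) σ) +
      kap W ε (fun σ => 16 / (θ * B) * sl ((Hm n W * fl n l W) *ᵥ y) σ) +
      kap W ε (fun σ => 600 * Λ / (θ * A) * sl (fl n l' W *ᵥ x) σ) +
      kap W ε (fun σ => 400 * Λ / (θ * B) * sl (fl n l W *ᵥ y) σ) +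
      (kap W ε (fun σ => 2 * s₁ * z⁻¹ / (A * B) * sl (fl n l' W *ᵥ x) σ) +
        kap W ε fun σ => 2 * s₁ / B * sl (fl n l W *ᵥ y) σ)) := by
  have l0 : 0 < l := hl'.trans_le hl
  have A0 : 0 < A := by rw [hA]; positivity
  have Λ0 : 0 ≤ Λ := by rw [hΛ]; positivity
  have s10 : 0 ≤ s₁ := by rw [hs₁]; positivity
  have M0 : 0 < z⁻¹ := inv_pos.2 hz
  obtain ⟨⟨⟨g1, g2⟩, g3, g4⟩, q1, q2, q3, q4, q5, q6, q7⟩ := h
  unfold Up at q1 q3 q4 q6
  unfold Lo at q2 q5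
  rw [fl_tr] at q1 q2 q4 q5
  have r1 := q1.trans (mul_le_mul_of_nonneg_left ((trace_fl_sq_le hW _).trans g2) M0.le)
  have r4 := q4.trans (mul_le_mul_of_nonneg_left ((trace_fl_sq_le hW _).trans g4) M0.le)
  have r2 : A ≤ _ := (hA.trans (mul_assoc _ _ _)).le.trans
    ((mul_le_mul_of_nonneg_left g1 (by positivity)).trans q2)
  have r5 : 2 * B ≤ _ := (show 2 * B = z ^ 2 / 36 * (c * P) by rw [hB]; ring).le.trans
    ((mul_le_mul_of_nonneg_left g3 (by positivity)).trans q5)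
  have r3 := q3.trans (mul_le_mul_of_nonneg_left ((Hfl_le hW hl').2.trans
    (mul_le_mul (pow_le_pow_left₀ hl'.le hl 2) g2 (fl_psd _ _).trace_nonneg (sq_nonneg _))) M0.le)
  have r6 := q6.trans (mul_le_mul_of_nonneg_left ((Hfl_le hW l0).2.trans
    (mul_le_mul_of_nonneg_left g4 (sq_nonneg _))) M0.le)
  have h := core hk hK hn hε hε1 hθ s10 Λ0 A0 M0 hMB hW r2 r5 q7
    (by
      rw [mulVec_mulVec]
      refine r3.trans ?_
      have : Λ * A = 2 * (z⁻¹ * (l ^ 2 * (D₁ * P'))) := by rw [hΛ, hA]; field_simp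
      have h0 : 0 ≤ z⁻¹ * (l ^ 2 * (D₁ * P')) := by positivity
      linarith)
    (by
      rw [mulVec_mulVec]
      exact r6.trans (le_of_eq (by rw [hΛ, hB]; field_simp))) hτ
  have h2 := kmono hk hn hε W (csl hs (fl n l' W *ᵥ x))
    (V' := fun σ => s₁ * sl (unitv (fl n l' W *ᵥ x)) σ) fun σ => by
      rw [sl, dot_sq_eq, hs₁, mul_assoc]
      exact mul_le_mul_of_nonneg_left (mul_le_mul_of_nonneg_right r1 (sq_nonneg _)) hs
  rw [ω2 _ _ _ r2 r1 (by linarith) r4 q7, one_mul]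
  simp only [mulVec_mulVec] at h
  linarith

lemma int_sum {α : Type*} [MeasurableSpace α] {μ : Measure α} [IsProbabilityMeasure μ]
    {f G f1 f2 f3 f4 f5 f6 : α → ℝ} {z : ℝ} {S : Set α} (hz : 0 ≤ z) (hS : MeasurableSet S)
    (hSz : μ.real S ≤ 8 * z) (I0 : Integrable f μ) (IG : Integrable G μ) (I1 : Integrable f1 μ)
    (I2 : Integrable f2 μ) (I3 : Integrable f3 μ) (I4 : Integrable f4 μ) (I5 : Integrable f5 μ)
    (I6 : Integrable f6 μ) (b0 : ∀ q, f q ≤ 1) (bG : ∀ q, |G q| ≤ 1) (b1 : ∀ q, 0 ≤ f1 q)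
    (b2 : ∀ q, 0 ≤ f2 q) (b3 : ∀ q, 0 ≤ f3 q) (b4 : ∀ q, 0 ≤ f4 q) (b5 : ∀ q, 0 ≤ f5 q)
    (b6 : ∀ q, 0 ≤ f6 q) (UG : ∫ q, G q ∂μ ≤ z) (U1 : ∫ q, f1 q ∂μ ≤ z) (U2 : ∫ q, f2 q ∂μ ≤ z)
    (U3 : ∫ q, f3 q ∂μ ≤ z) (U4 : ∫ q, f4 q ∂μ ≤ z) (U5 : ∫ q, f5 q ∂μ ≤ z) (U6 : ∫ q, f6 q ∂μ ≤ z)
    (h : ∀ q ∉ S, f q ≤ G q + z + (f1 q + f2 q + f3 q + f4 q + (f5 q + f6 q))) :
    ∫ q, f q ∂μ ≤ 24 * z := by
  have IS : Integrable (S.indicator fun _ => (2 : ℝ)) μ := (integrable_const _).indicator hS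
  have pt := integral_mono I0 (((IG.add (integrable_const z)).add
    ((((I1.add I2).add I3).add I4).add (I5.add I6))).add IS) fun q => by
    simp only [Pi.add_apply]
    by_cases hq : q ∈ S
    · rw [Set.indicator_of_mem hq]
      linarith [b0 q, (abs_le.1 (bG q)).1, b1 q, b2 q, b3 q, b4 q, b5 q, b6 q]
    · rw [Set.indicator_of_notMem hq, add_zero]; exact h q hq
  rw [integral_add' _ IS, integral_add', integral_add' IG (integrable_const z), integral_add',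
    integral_add' _ I4, integral_add' _ I3, integral_add' I1 I2, integral_add' I5 I6,
    integral_indicator_const _ hS, integral_const, probReal_univ] at pt
  · simp only [smul_eq_mul] at pt
    linarith
  · exact I1.add I2
  · exact (I1.add I2).add I3
  · exact ((I1.add I2).add I3).add I4
  · exact I5.add I6
  · exact IG.add (integrable_const z)
  · exact (((I1.add I2).add I3).add I4).add (I5.add I6)
  · exact (IG.add (integrable_const z)).add ((((I1.add I2).add I3).add I4).add (I5.add I6))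

lemma swp_le (hk : KapStmt) (hn : 1 ≤ n) {ε s : ℝ} (hε : 0 < ε) (hs : 0 ≤ s) (W : Mat n)
    (a a' : Fin n → ℝ) : |swp ε s W a a'| ≤ 1 := by
  rw [swp, abs_le]
  constructor <;> linarith [k0 hk hn hε W (csl hs (unitv a)), k1 hk hn hε W (csl hs (unitv a)),
    k0 hk hn hε (rot (unitv a) (prp a a') (π / 2) * W * (rot (unitv a) (prp a a') (π / 2))ᵀ)
      (csl hs (prp a a')),
    k1 hk hn hε (rot (unitv a) (prp a a') (π / 2) * W * (rot (unitv a) (prp a a') (π / 2))ᵀ)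
      (csl hs (prp a a'))]

lemma meas_G (hm : MsStmt) {ω : (Fin 3 → ℝ) → ℝ} (ω0 : Continuous ω) {F F' : Om n → Mat n}
    (hF : Measurable F) (hF' : Measurable F') (ε s : ℝ) :
    Measurable fun q : QS n => ω ![(F q.1 *ᵥ q.2.1) ⬝ᵥ (F q.1 *ᵥ q.2.1),
      (F' q.1 *ᵥ q.2.2) ⬝ᵥ (F' q.1 *ᵥ q.2.2), (F q.1 *ᵥ q.2.1) ⬝ᵥ (F' q.1 *ᵥ q.2.2)] *
        swp ε s (Wp q.1) (F q.1 *ᵥ q.2.1) (F' q.1 *ᵥ q.2.2) := by
  refine (ω0.measurable.comp (measurable_pi_lambda _ fun i => ?_)).mul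
    (meas_swp hm (measurable_Wmat.comp measurable_fst) (by fun_prop) (by fun_prop) ε s)
  fin_cases i <;> simp only [Fin.zero_eta, Fin.mk_one, Fin.reduceFinMk, cons_val_zero,
    cons_val_one, Matrix.cons_val] <;> fun_prop

theorem fixed (hk : KapStmt) (hm : MsStmt) {D : ℝ} (hK : Kill D) (hn : 1 ≤ n) (b : Bool)
    {ε θ s z c D₁ l' l P' P A B Λ s₁ : ℝ} (hε : 0 < ε) (hε1 : ε ≤ 1) (hθ : 0 < θ) (hs : 0 ≤ s)
    (hz : 0 < z) (hc : 0 < c) (hD₁ : 0 ≤ D₁) (hl' : 0 < l') (hl : l' ≤ l) (hP' : 0 < P')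
    (hP : 0 < P) (hA : A = z ^ 2 / 36 * c * P') (hB : B = z ^ 2 / 36 * c * P / 2)
    (hΛ : Λ = 2 * z⁻¹ * D₁ / (z ^ 2 / 36 * c) * l ^ 2) (hs₁ : s₁ = s * (z⁻¹ * (D₁ * P')))
    (hMB : z⁻¹ ≤ B) (hτ : 440 * Λ ≤ θ * tau n) (hD : D * √θ ≤ z)
    (hS : PB b n {p | ¬ Sp c D₁ l' l P' P (Wp p)} ≤ ENNReal.ofReal z)
    {ω : (Fin 3 → ℝ) → ℝ} (ω0 : Continuous ω) (ω1 : ∀ q, |ω q| ≤ 1)
    (ω2 : ∀ u v w : ℝ, A ≤ u → u ≤ z⁻¹ * (D₁ * P') → 2 * z⁻¹ ≤ v → v ≤ z⁻¹ * (D₁ * P) →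
      w ^ 2 ≤ z⁻¹ * u → ω ![u, v, w] = 1)
    (hsw : ∫ q : QS n, ω ![(fl n l' (Wp q.1) *ᵥ q.2.1) ⬝ᵥ (fl n l' (Wp q.1) *ᵥ q.2.1),
          (fl n l (Wp q.1) *ᵥ q.2.2) ⬝ᵥ (fl n l (Wp q.1) *ᵥ q.2.2),
          (fl n l' (Wp q.1) *ᵥ q.2.1) ⬝ᵥ (fl n l (Wp q.1) *ᵥ q.2.2)] *
        swp ε s₁ (Wp q.1) (fl n l' (Wp q.1) *ᵥ q.2.1) (fl n l (Wp q.1) *ᵥ q.2.2) ∂QQ b n ≤ z)
    (T1 : ∫ p, kap (Wp p) ε (fun x => 24 / (θ * A) * l' ^ 2 * qf (fl n l' (Wp p)) x) ∂PB b n ≤ z)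
    (T2 : ∫ p, kap (Wp p) ε (fun x => 16 / (θ * B) * l ^ 2 * qf (fl n l (Wp p)) x) ∂PB b n ≤ z)
    (T3 : ∫ p, kap (Wp p) ε (fun x => 600 * Λ / (θ * A) * qf (fl n l' (Wp p)) x) ∂PB b n ≤ z)
    (T4 : ∫ p, kap (Wp p) ε (fun x => 400 * Λ / (θ * B) * qf (fl n l (Wp p)) x) ∂PB b n ≤ z)
    (T5 : ∫ p, kap (Wp p) ε (fun x => 2 * s₁ * z⁻¹ / (A * B) * qf (fl n l' (Wp p)) x) ∂PB b n ≤ z)
    (T6 : ∫ p, kap (Wp p) ε (fun x => 2 * s₁ / B * qf (fl n l (Wp p)) x) ∂PB b n ≤ z) :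
    ∫ p, kap (Wp p) ε (fun x => z * s * qf (fl n l' (Wp p) * fl n l' (Wp p)) x) ∂PB b n ≤
      52 * z := by
  have l0 : 0 < l := hl'.trans_le hl
  have A0 : 0 < A := by rw [hA]; positivity
  have B0 : 0 < B := by rw [hB]; positivity
  have Λ0 : 0 ≤ Λ := by rw [hΛ]; positivity
  have s10 : 0 ≤ s₁ := by rw [hs₁]; positivity
  have hW : ∀ p : Om n, (Wp p).IsHermitian := fun p => Wmat_isHermitian _ _
  have p1 : MeasurePreserving Prod.fst ((gv (Fin n)).prod (gv (Fin n))) (gv (Fin n)) :=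
    measurePreserving_fst
  have p2 : MeasurePreserving Prod.snd ((gv (Fin n)).prod (gv (Fin n))) (gv (Fin n)) :=
    measurePreserving_snd
  have f1 := meas_fl (n := n) hm l'
  have f2 := meas_fl (n := n) hm l
  have f3 := (meas_H (n := n)).t157_mul f1
  have f4 := (meas_H (n := n)).t157_mul f2
  have c1 : 0 ≤ 24 / (θ * A) := by positivity
  have c2 : 0 ≤ 16 / (θ * B) := by positivity
  have c3 : 0 ≤ 600 * Λ / (θ * A) := by positivity
  have c4 : 0 ≤ 400 * Λ / (θ * B) := by positivity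
  have c5 : 0 ≤ 2 * s₁ * z⁻¹ / (A * B) := by positivity
  have c6 : 0 ≤ 2 * s₁ / B := by positivity
  have U1 := term hk hm hn b hε p1 f3 c1 (mul_nonneg c1 (sq_nonneg _)) (fun p x =>
    (mul_le_mul_of_nonneg_left ((Hfl_le (hW p) hl').1 x) c1).trans_eq (mul_assoc _ _ _).symm) T1
  have U2 := term hk hm hn b hε p2 f4 c2 (mul_nonneg c2 (sq_nonneg _)) (fun p x =>
    (mul_le_mul_of_nonneg_left ((Hfl_le (hW p) l0).1 x) c2).trans_eq (mul_assoc _ _ _).symm) T2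
  have U3 := term hk hm hn b hε p1 f1 c3 c3
    (fun p x => mul_le_mul_of_nonneg_left (fl_le (hW p) _ x) c3) T3
  have U4 := term hk hm hn b hε p2 f2 c4 c4
    (fun p x => mul_le_mul_of_nonneg_left (fl_le (hW p) _ x) c4) T4
  have U5 := term hk hm hn b hε p1 f1 c5 c5
    (fun p x => mul_le_mul_of_nonneg_left (fl_le (hW p) _ x) c5) T5
  have U6 := term hk hm hn b hε p2 f2 c6 c6
    (fun p x => mul_le_mul_of_nonneg_left (fl_le (hW p) _ x) c6) T6
  obtain ⟨I0, J0, e0⟩ := fub hk hm hn b hε p1 f1 hs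
  obtain ⟨S, hSm, hSz, hSg⟩ := bad_set hm b hz hS
  have G1 := fun (q : QS n) r a a' => (abs_mul (ω r) _).le.trans
    (mul_le_one₀ (ω1 _) (abs_nonneg _) (swp_le hk hn hε s10 (Wp q.1) a a'))
  have pt := int_sum hz.le hSm hSz I0
    (.of_bound (meas_G hm ω0 f1 f2 ε s₁).aestronglyMeasurable 1 (ae_of_all _ fun q => G1 q _ _ _))
    (fub hk hm hn b hε p1 f3 c1).1 (fub hk hm hn b hε p2 f4 c2).1 (fub hk hm hn b hε p1 f1 c3).1
    (fub hk hm hn b hε p2 f2 c4).1 (fub hk hm hn b hε p1 f1 c5).1 (fub hk hm hn b hε p2 f2 c6).1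
    (fun q => k1 hk hn hε _ (csl hs _)) (fun q => G1 q _ _ _) (fun q => k0 hk hn hε _ (csl c1 _))
    (fun q => k0 hk hn hε _ (csl c2 _)) (fun q => k0 hk hn hε _ (csl c3 _))
    (fun q => k0 hk hn hε _ (csl c4 _)) (fun q => k0 hk hn hε _ (csl c5 _))
    (fun q => k0 hk hn hε _ (csl c6 _)) hsw U1 U2 U3 U4 U5 U6 fun q hq =>
      ptw hk hK hn hε hε1 hθ hs hz hc hD₁ hl' hl hP' hP hA hB hΛ hs₁ hMB hτ hD ω2 (hW q.1) (hSg q hq)
  rw [e0] at pt
  have h := integral_mono (μ := PB b n) (int_kap hk hm hn b hε (mul_nonneg hz.le hs)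
    (meas_fl_sq hm l') fun p => fl_sq_psd (hW p) l') ((integrable_const (4 * z)).add
      (J0.const_mul 2)) fun p => by
    simpa only [fl_tr] using! ((hk n _ ε hn hε).2.1 (fl n l' (Wp p)) s hs).2 z hz.le
  rw [integral_add' (integrable_const _) (J0.const_mul 2), integral_const, probReal_univ,
    integral_const_mul, smul_eq_mul] at h
  linarith

/-! ### levels -/

/-- the window `ε^{-γ}` is invisible at the killing rate `ε^σ` -/
def SU (b : Bool) (γ σ : ℝ) : Prop := ∀ c z : ℝ, 0 ≤ c → 0 < z → ∀ᶠ ε in 𝓝[>] (0 : ℝ),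
  ∀ᶠ n in atTop, ∫ p, kap (Wp p) ε (fun x => c * ε ^ σ * qf (fl n (ε ^ (-γ)) (Wp p)) x) ∂PB b n ≤ z

section su
variable {b : Bool} {a β γ σ : ℝ} (ha : 1 / 3 < a) (hk : KapStmt) (hm : MsStmt) (hc : CrStmt)
  (hs : SpecStmt b) (hd : DownStmt b a) (hl : LdB b) (h0 : 0 ≤ γ) (h1 : γ ≤ 2 * (1 / (3 * a)))
include ha hk hm hc hs hd hl h0 h1

lemma su_cr (h : 1 / (3 * a) - 1 < σ) : SU b γ σ := fun _ _ hc0 hz =>
  crude_int ha hk hm hc hs hd hl h0 hc0 hz (by linarith) (by linarith)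
    (fun _ _ => meas_fl hm _) fun _ _ _ =>
      ⟨fl_psd _ _, one_sub_fl_psd (Wmat_isHermitian _ _) _, le_rfl⟩

lemma su_win (hβ : β ≤ 2 / (3 * a)) (hp : PStmt b a β)
    (h : 1 / (3 * a) - 1 - 3 / 2 * (β - γ) < σ) : SU b γ σ := by
  rcases le_total β γ with h2 | h2
  · exact su_cr ha hk hm hc hs hd hl h0 h1 (by linarith)
  intro c z hc0 hz
  set g := (σ - (1 / (3 * a) - 1 - 3 / 2 * (β - γ))) / 2 with hg
  have g0 : 0 < g := by rw [hg]; linarith
  filter_upwards [uwin ha hβ hk hm hc hs hd hl hp γ g z h0 h2 g0 hz, ev_Ioc,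
    ev_pow (C := c) g0 one_pos] with ε h3 hε h4
  filter_upwards [h3, eventually_ge_atTop 1] with n h5 hn
  have e0 := fun t => rpow_nonneg hε.1.le t
  have p0 := fun (p : Om n) x => qf_nonneg (fl_psd (ε ^ (-γ)) (Wp p)) x
  refine (integral_mono (int_kap hk hm hn b hε.1 (mul_nonneg hc0 (e0 _)) (meas_fl hm _)
    fun p => fl_psd _ _) (int_kap hk hm hn b hε.1 (e0 _) (meas_fl hm _) fun p => fl_psd _ _)
    fun p => kmono hk hn hε.1 _ (fun x => mul_nonneg (mul_nonneg hc0 (e0 _)) (p0 p x))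
      fun x => mul_le_mul_of_nonneg_right ?_ (p0 p x)).trans h5
  rw [show σ = g + (g - 1 + 1 / (3 * a) - 3 / 2 * (β - γ)) by rw [hg]; ring, rpow_add hε.1,
    ← mul_assoc]
  exact mul_le_of_le_one_left (e0 _) h4

end su

lemma ediv {ε r s t u : ℝ} (hε : 0 < ε) (h : r + t + u = s) : ε ^ r = ε ^ s / (ε ^ t * ε ^ u) := by
  rw [← h, rpow_add hε, rpow_add hε]; field_simp

end Rd7

open Rd7

theorem roundGlue : RoundGlue := by
  intro b a β β' ha h0 hβ hβ' hlt hk hm hc ⟨D, hK⟩ hs hsw hd hl hp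
  rcases hβ.eq_or_lt with rfl | hβ1
  · exact hp
  intro γ g z' hγ hγβ hg hz'
  have e2 : 2 / (3 * a) = 2 * (1 / (3 * a)) := by ring
  have hβ2 := hβ.trans hβ'
  rw [e2] at hβ'
  set u := 1 / (3 * a) with hu
  set z := z' / 52 with hz''
  have hz : 0 < z := by positivity
  set m := (1 - u + 3 / 2 * β - 2 * β') / 2 with hm'
  have m0 : 0 < m := by rw [hm']; linarith
  have β0 : 0 < β' := h0.trans_lt hβ1
  obtain ⟨c, D₀, c0, hS⟩ := hs z hz
  set D₁ := |D₀|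
  have D0 : 0 ≤ D₁ := abs_nonneg _
  set d := z ^ 2 / 36 * c with hd'
  have d0 : 0 < d := by positivity
  have W1 := fun σ => su_win (σ := σ) ha hk hm hc hs hd hl hγ (hγβ.trans hβ') hβ2 hp
  have W2 := fun σ => su_win (σ := σ) ha hk hm hc hs hd hl β0.le hβ' hβ2 hp
  filter_upwards [ev_Ioc, ev_pow (C := D) (half_pos m0) hz,
    ev_pow (C := z⁻¹) (s := 3 / 2 * β') (by positivity) (half_pos d0),
    W1 (-m - γ / 2) (by rw [hm']; linarith) (24 / d) z (by positivity) hz,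
    W2 (-m - β' / 2) (by rw [hm']; linarith) (32 / d) z (by positivity) hz,
    W1 (-m - 2 * β' + 3 / 2 * γ) (by rw [hm']; linarith) (600 * (2 * z⁻¹ * D₁ / d) / d) z
      (by positivity) hz,
    W2 (-m - β' / 2) (by rw [hm']; linarith) (800 * (2 * z⁻¹ * D₁ / d) / d) z (by positivity) hz,
    su_cr (σ := g - 1 + u + 3 / 2 * γ) ha hk hm hc hs hd hl hγ (hγβ.trans hβ') (by linarith)
      (4 * z⁻¹ ^ 3 * D₁ / d ^ 2) z (by positivity) hz,
    su_cr (σ := g - 1 + u) ha hk hm hc hs hd hl β0.le hβ' (by linarith)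
      (4 * z⁻¹ ^ 2 * D₁ / d) z (by positivity) hz] with ε ⟨hε, hε1⟩ k1 k2 T1 T2 T3 T4 T5 T6
  have E0 := fun t => rpow_pos_of_pos hε t
  have l1 : 1 ≤ ε ^ (-γ) := one_le_rpow_of_pos_of_le_one_of_nonpos hε hε1 (by linarith)
  have l2 : ε ^ (-γ) ≤ ε ^ (-β') := rpow_le_rpow_of_exponent_ge hε hε1 (by linarith)
  have q1 : ∀ t : ℝ, (ε ^ (-t)) ^ (3 / 2 : ℝ) = ε ^ (-(3 / 2 * t)) := fun t => by
    rw [← rpow_mul hε.le]; congr 1; ring
  have q2 : ∀ t : ℝ, (ε ^ (-t)) ^ 2 = ε ^ (-(2 * t)) := fun t => by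
    rw [← rpow_natCast, ← rpow_mul hε.le]; congr 1; push_cast; ring
  set s := ε ^ (g - 1 + u - 3 / 2 * (β' - γ)) with hs'
  obtain ⟨ω, o1, o2, o3, o4, o5⟩ := exists_om (x₀ := d * ε ^ (-(3 / 2 * γ)))
    (x₁ := z⁻¹ * (D₁ * ε ^ (-(3 / 2 * γ)))) (y₁ := z⁻¹ * (D₁ * ε ^ (-(3 / 2 * β'))))
    (mul_pos d0 (E0 _)) (inv_pos.2 hz)
  have t0 : Tendsto tau atTop atTop :=
    (tendsto_rpow_atTop (by norm_num)).comp tendsto_natCast_atTop_atTop
  have s0 : 0 < s := E0 _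
  have hsw' := (hsw ε (s / z * (z⁻¹ * (D₁ * ε ^ (-(3 / 2 * γ))))) _ _ hε hε1
    (by have := E0 (-(3 / 2 * γ)); positivity) (l1.trans l2) l1 ω o1 o2 o3).eventually
      (ge_mem_nhds hz)
  filter_upwards [T1, T2, T3, T4, T5, T6, hS (ε ^ (-β')), hsw', eventually_ge_atTop 1,
    (t0.const_mul_atTop (E0 m)).eventually_ge_atTop
      (440 * (2 * z⁻¹ * D₁ / d * (ε ^ (-β')) ^ 2))] with n T1 T2 T3 T4 T5 T6 hS hsw hn hτ
  have key := fixed hk hm hK hn b (θ := ε ^ m) (s := s / z) hε hε1 (E0 _) (by positivity) hz c0 D0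
    (E0 _) l2 (E0 (-(3 / 2 * γ))) (E0 (-(3 / 2 * β'))) rfl rfl rfl rfl ?_ hτ ?_
    (bad_mono hS fun p h => ?_) o1.continuous o4 o5 hsw ?_ ?_ ?_ ?_ ?_ ?_
  · rw [mul_div_cancel₀ _ hz.ne'] at key
    exact key.trans (le_of_eq (by rw [hz'']; ring))
  · rw [rpow_neg hε.le, ← hd', mul_div_right_comm, le_mul_inv_iff₀ (E0 _)]
    exact k2
  · rwa [sqrt_eq_rpow, ← rpow_mul hε.le, mul_one_div]
  · have h1 := h _ ⟨l1, l2⟩
    have h2 := h _ ⟨l1.trans l2, le_rfl⟩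
    rw [q1] at h1 h2
    exact ⟨⟨h1.1, h1.2.trans (mul_le_mul_of_nonneg_right (le_abs_self _) (E0 _).le)⟩, h2.1,
      h2.2.trans (mul_le_mul_of_nonneg_right (le_abs_self _) (E0 _).le)⟩
  · convert T1 using 5
    rw [q2, ediv (r := -m - γ / 2) (s := -(2 * γ)) (t := m) (u := -(3 / 2 * γ)) hε (by ring), ← hd']
    field_simp
  · convert T2 using 5
    rw [q2, ediv (r := -m - β' / 2) (s := -(2 * β')) (t := m) (u := -(3 / 2 * β')) hε (by ring),
      ← hd']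
    field_simp
    ring
  · convert T3 using 5
    rw [q2, ediv (r := -m - 2 * β' + 3 / 2 * γ) (s := -(2 * β')) (t := m) (u := -(3 / 2 * γ)) hε
      (by ring), ← hd']
    field_simp
  · convert T4 using 5
    rw [q2, ediv (r := -m - β' / 2) (s := -(2 * β')) (t := m) (u := -(3 / 2 * β')) hε (by ring),
      ← hd']
    field_simp
    ring
  · convert T5 using 5
    rw [ediv (r := g - 1 + u + 3 / 2 * γ) (s := g - 1 + u - 3 / 2 * (β' - γ)) (t := 0)
      (u := -(3 / 2 * β')) hε (by ring), ← hd', ← hs', rpow_zero]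
    have := E0 (-(3 / 2 * γ))
    have := E0 (-(3 / 2 * β'))
    field_simp
    ring
  · convert T6 using 5
    rw [ediv (r := g - 1 + u) (s := g - 1 + u - 3 / 2 * (β' - γ)) (t := 3 / 2 * γ)
      (u := -(3 / 2 * β')) hε (by ring), ← hd', ← hs', rpow_neg hε.le (3 / 2 * γ)]
    have := E0 (3 / 2 * γ)
    have := E0 (-(3 / 2 * β'))
    field_simp
    ring

end Crest.Agent.T157.Cq

end
end

-- ▼ part T157/CqDiscCore_59
section

/-!
# Row 157, part C (helper59): two static chains of a finite law (`Dc.CoreGlue`)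
-/

set_option autoImplicit false

noncomputable section

namespace Crest.Agent.T157.Cq.Dc

open MeasureTheory Matrix Filter Topology Finset Real
open Crest.Agent.T157.St
open Crest.Agent.T157.Tr (pb psi HA)

namespace Core59

variable {Ω ι : Type} [Fintype Ω] [Fintype ι] [DecidableEq ι] {w : Ω → ℝ} {φ : Ω → ι → ℝ}
  {ε p : ℝ → ℝ} {K K' η D c : ℝ}

lemma ha_of (hD : 0 < D) (hK : 0 < K) (hKK : K ≤ K') (hη : 2 * √D * K ^ (-(1 / 2) : ℝ) ≤ η)
    (h : ∀ r ∈ Set.Icc K K', pb φ w (fun u => D * u ^ (-c)) 3 r ≤ D * r ^ (-2 : ℝ)) :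
    HA φ w (fun u => D * u ^ (-c)) (fun u => D * u ^ (-2 : ℝ)) K K' η := by
  have p0 : ∀ u ∈ Set.Icc K K', 0 < u := fun u hu => hK.trans_le hu.1
  have hc : ∀ γ : ℝ, ContinuousOn (fun u : ℝ => D * u ^ γ) (Set.Icc K K') := fun γ =>
    continuousOn_const.mul (continuousOn_id.rpow_const fun u hu => .inl (p0 u hu).ne')
  have h0 : 0 ≤ 2 * √D * K ^ (-(1 / 2) : ℝ) := by positivity
  refine ⟨hK, hc _, fun r hr => by have := p0 r hr; positivity, hc _, h, h0.trans hη,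
    fun r hr => ?_, le_trans ?_ hη⟩
  · have hr0 := p0 r hr
    refine le_trans ?_ (pow_le_pow_left₀ h0 hη 2)
    have e1 : r * (D * r ^ (-2 : ℝ)) = D / r := by
      rw [rpow_neg hr0.le, rpow_two]; field_simp
    have e2 : (2 * √D * K ^ (-(1 / 2) : ℝ)) ^ 2 = 4 * (D / K) := by
      rw [mul_pow, mul_pow, sq_sqrt hD.le, ← rpow_natCast (K ^ _), ← rpow_mul hK.le]
      norm_num [rpow_neg_one]; ring
    have : D / r ≤ D / K := div_le_div_of_nonneg_left hD.le hK hr.1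
    have : 0 ≤ D / K := by positivity
    rw [e1, e2]; linarith
  · have e : ∫ u in K..K', √(D * u ^ (-2 : ℝ) / u) =
        ∫ u in K..K', √D * ((1 * u) ^ (-(1 / 2) : ℝ) / u) := by
      refine intervalIntegral.integral_congr fun u hu => ?_
      rw [Set.uIcc_of_le hKK] at hu
      have hu0 := p0 u hu
      refine (sqrt_eq_iff_mul_self_eq (by positivity) (by positivity)).2 ?_
      rw [mul_mul_mul_comm, mul_self_sqrt hD.le, one_mul, div_mul_div_comm, ← rpow_add hu0,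
        rpow_neg hu0.le 2, rpow_two]
      norm_num [rpow_neg_one]; field_simp
    have := Tr.int_rpow_neg (N := 1) one_pos hK hKK (γ := 1 / 2) (by norm_num)
    rw [e, intervalIntegral.integral_const_mul]
    refine (mul_le_mul_of_nonneg_left this (sqrt_nonneg D)).trans_eq ?_
    rw [one_mul]; ring

lemma sq_psi_le (hw : SL.Wt w) (h : HA φ w ε p K K' η) {u b : ℝ} (hu : u ∈ Set.Icc K K')
    (hε : ε u ≤ η) {g : Unit → Ω → ℝ} (hb : ∀ x, ∑ a, g a x ^ 2 ≤ b ^ 2) :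
    u ^ 2 * psi φ w g u ≤ (1 + η) * (u * Tr.Ph φ w g u) + b ^ 2 * η ^ 2 := by
  have hu0 : 0 < u := h.pos.trans_le hu.1
  have f2 := mul_le_mul_of_nonneg_left (Tr.psi_le_Ph (φ := φ) hw hu0 (h.ε0 u hu) hb) hu0.le
  have f3 := mul_le_mul_of_nonneg_left
    ((mul_le_mul_of_nonneg_left (h.le u hu) hu0.le).trans (h.sup u hu)) (sq_nonneg b)
  have f4 := mul_le_mul_of_nonneg_right hε (mul_nonneg hu0.le (Tr.Ph_nonneg (φ := φ) (g := g) hw u))
  nlinarith

lemma i1 (hw : SL.Wt w) (h : HA φ w ε p K K' η) (hKK : K ≤ K') (hη : 0 < η) (hη1 : η ≤ 1)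
    (hε : ε K' ≤ η) (hi : ∫ u in K..K', ε u / u ≤ η) (hK : K ≤ η * K') {b : ℝ} (hb0 : 0 ≤ b)
    {g : Unit → Ω → ℝ} (hb : ∀ x, ∑ a, g a x ^ 2 ≤ b ^ 2) :
    K * Tr.Ph φ w g K ≤ (1 + 36 * η) * (K' * Tr.Ph φ w g K') + 50 * η * b ^ 2 := by
  have P0 := Tr.Ph_nonneg (φ := φ) (g := g) hw K'
  have A0 : 0 ≤ K' * Tr.Ph φ w g K' := mul_nonneg (h.pos.le.trans hKK) P0
  have f1 := sq_psi_le hw h ⟨hKK, le_rfl⟩ hε hb
  have f2 := Tr.int_psi_le (φ := φ) (g := g) hw h.pos hKK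
    (B := (1 + 35 * η) * (K' * Tr.Ph φ w g K') + 50 * η * b ^ 2) fun u hu => by
      have k1 := (h.mono hu.1 hu.2 le_rfl).crude hw hu.2 hb0 hb
      have k2 : exp (∫ u in u..K', ε u / u) ≤ 1 + 2 * η := by
        refine (exp_le_exp.2 ((h.eps_le le_rfl hu.1 hu.2 le_rfl le_rfl).trans hi)).trans ?_
        have := abs_le.1 (Real.abs_exp_sub_one_sub_id_le (x := η) (by rwa [abs_of_pos hη]))
        nlinarith
      have X0 := sqrt_nonneg (K' ^ 2 * psi φ w g K')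
      have X2 := sq_sqrt (mul_nonneg (sq_nonneg K') (Tr.psi_nonneg (φ := φ) (g := g) hw K'))
      rw [← X2] at f1
      generalize √(K' ^ 2 * psi φ w g K') = X at k1 f1 X0
      generalize K' * Tr.Ph φ w g K' = A at f1 A0
      have bη : 0 ≤ b * η := by positivity
      have k3 : √(u ^ 2 * psi φ w g u) ≤ (1 + 2 * η) * X + 4 * (b * η) := by
        nlinarith [mul_le_mul_of_nonneg_right k2 (add_nonneg X0 bη), mul_le_mul_of_nonneg_left hη1 bη]
      refine (sqrt_le_iff.1 k3).2.trans ?_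
      have k4 : ((1 + 2 * η) * X + 4 * (b * η)) ^ 2 ≤
          (1 + η) * (1 + 2 * η) ^ 2 * X ^ 2 + 16 * (η + η ^ 2) * b ^ 2 := by
        nlinarith [mul_nonneg hη.le (sq_nonneg ((1 + 2 * η) * X - 4 * b))]
      have k5 := mul_le_mul_of_nonneg_left f1 (show 0 ≤ (1 + η) * (1 + 2 * η) ^ 2 by positivity)
      have η2 : η ^ 2 ≤ η := by nlinarith
      have η3 : η ^ 3 ≤ η := by nlinarith
      have η4 : η ^ 4 ≤ η := by nlinarith
      have η5 : η ^ 5 ≤ η := by nlinarith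
      have k6 : (1 + η) * (1 + 2 * η) ^ 2 * (1 + η) ≤ 1 + 35 * η := by nlinarith
      have k7 : (1 + η) * (1 + 2 * η) ^ 2 * η ^ 2 + 16 * (η + η ^ 2) ≤ 50 * η := by nlinarith
      nlinarith [mul_le_mul_of_nonneg_right k6 A0, mul_le_mul_of_nonneg_right k7 (sq_nonneg b)]
  rw [Tr.Ph_sub hw h.pos.le hKK]
  nlinarith [mul_le_mul_of_nonneg_right hK P0]

variable [Nonempty Ω] [DecidableEq Ω]

lemma sub_sq_le (hw : ∀ x, 0 < w x) (hK : 0 ≤ K) (g : Unit → Ω → ℝ) :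
    Sg.ipV (E.prob w) ((fun a => (Sg.stRC φ hw hK).P *ᵥ g a) - g)
      ((fun a => (Sg.stRC φ hw hK).P *ᵥ g a) - g) ≤ Tr.Ph φ w g K := by
  refine sum_le_sum fun a _ => ?_
  have := (Rec.mean_Pm_sub_sq_le (φ := φ) (t := K) (SL.Wt.of_pos hw)
    (fun _ => Rec.mg_pm (SL.Wt.of_pos hw) K (g a)) (g a)).trans_eq (Rec.slE_var (SL.Wt.of_pos hw) hK (g a))
  refine le_trans (le_of_eq ?_) this
  simp only [Chain22.ip, E.mean, Pi.sub_apply, Sg.stRC_mulVec, sq]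

lemma num {e : ℝ} (h0 : 0 ≤ η) (h1 : η ≤ 1) (h : 50 * η ≤ e) :
    (1 + η) * (1 + η) ≤ 1 + e ∧ (1 + η) * η ^ 2 + η ≤ e := by
  have η2 : η ^ 2 ≤ η := by nlinarith
  have η3 : η ^ 3 ≤ η := by nlinarith
  constructor <;> nlinarith

end Core59

open Core59

theorem coreGlue : CoreGlue := by
  intro hS r₁ r₂ δ D c h₁ hδ hD hc
  obtain ⟨e, he, H⟩ := Sg.s2.{0, 0} (t₂ := r₂) h₁ (sqrt_pos.2 hδ)
  set η := min 1 (e / 50) with hη
  have η0 : 0 < η := by positivity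
  have η1 : η ≤ 1 := min_le_left _ _
  have ηe : 50 * η ≤ e := by linarith [min_le_right 1 (e / 50)]
  have t : ∀ A γ : ℝ, 0 < γ → ∀ᶠ K : ℝ in atTop, A * K ^ (-γ) ≤ η := fun A γ hγ =>
    (by simpa using (tendsto_rpow_neg_atTop hγ).const_mul A :
      Tendsto (fun K : ℝ => A * K ^ (-γ)) atTop (𝓝 0)).eventually (ge_mem_nhds η0)
  obtain ⟨K₀, hK₀⟩ := eventually_atTop.1 (((t (2 * √D) (1 / 2) (by norm_num)).and
    ((t (D / c) c hc).and (t D c hc))).and (eventually_ge_atTop η⁻¹))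
  refine ⟨max 1 K₀, le_max_left _ _, fun K hK m => ?_⟩
  have K0 : 0 < K := one_pos.trans_le ((le_max_left _ _).trans hK)
  obtain ⟨⟨a1, a2, a3⟩, a4⟩ := hK₀ K ((le_max_right _ _).trans hK)
  filter_upwards [eventually_ge_atTop K, eventually_ge_atTop (K / η),
    eventually_ge_atTop (100 * (5 + η⁻¹) * (m : ℝ) ^ 2 * K ^ 2 / η)] with K' b1 b2 b3
    Ω ι _ _ _ _ _ w φ hw hm hp f hf r hr
  have K'0 : 0 < K' := K0.trans_le b1
  have hW := SL.Wt.of_pos hw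
  have ha := ha_of hD K0 b1 a1 hp
  have hi : ∫ u in K..K', D * u ^ (-c) / u ≤ η := by
    have := mul_le_mul_of_nonneg_left (Tr.int_rpow_neg (N := 1) one_pos K0 b1 hc) hD.le
    simp only [one_mul, ← intervalIntegral.integral_const_mul, ← mul_div_assoc] at this
    refine this.trans (le_trans (le_of_eq ?_) a2)
    ring
  have hε : D * K' ^ (-c) ≤ η :=
    (mul_le_mul_of_nonneg_left (rpow_le_rpow_of_nonpos K0 b1 (by linarith)) hD.le).trans a3
  have dv : ∀ {s : ℝ} (hs : 0 ≤ s) (g : Unit → Ω → ℝ), Sg.DV (Sg.stRC φ hw hs) g = Tr.Ph φ w g s :=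
    fun hs g => Sg.DV_stRC hw hs g
  have sq : ∀ (g : Unit → Ω → ℝ) (B : ℝ), Sg.Sup g B → ∃ b, 0 ≤ b ∧ B = b ^ 2 := fun g B h =>
    ⟨√B, sqrt_nonneg _, (sq_sqrt (h.nonneg (Sg.stRC φ hw K0.le).isP)).symm⟩
  have key := H Ω Unit (Sg.stRC φ hw K'0.le) (Sg.stRC φ hw K0.le) rfl K' K K'0.le K0.le
    (fun g B hB => ?_) (fun g B hB => ?_) r hr.1 hr.2 (fun _ x => f (φ x)) 1
    fun x => by simpa using hf _
  · rw [sqrt_one, mul_one, Sg.nv_sub_comm, Sg.nv, sqrt_le_sqrt_iff hδ.le] at key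
    rw [St.Lnk10.integral_dm (fun x => (hw x).le)]
    refine le_trans (le_of_eq ?_) key
    simp only [Top72.Qs_dm hw K0.le, Top72.Qs_dm hw K'0.le, Sg.ipV, Chain22.ip, E.mean,
      Pi.sub_apply, Sg.HV, Sg.stRC_π, univ_unique, sum_singleton, _root_.sq]
  · obtain ⟨b, b0, rfl⟩ := sq g B hB
    rw [dv, dv]
    have := i1 hW ha b1 η0 η1 hε hi (by rwa [div_le_iff₀' η0] at b2) b0 hB
    have A0 := mul_nonneg K'0.le (Tr.Ph_nonneg (φ := φ) (g := g) hW K')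
    nlinarith [mul_le_mul_of_nonneg_right (show 36 * η ≤ e by linarith) A0,
      mul_le_mul_of_nonneg_right ηe (sq_nonneg b)]
  · obtain ⟨b, b0, rfl⟩ := sq g B hB
    have P0 := Tr.Ph_nonneg (φ := φ) (g := g) hW K
    have A0 := mul_nonneg K0.le P0
    refine ⟨fun a => (Sg.stRC φ hw K0.le).P *ᵥ g a, (sub_sq_le hw K0.le g).trans ?_, ?_⟩
    · rw [dv]
      have : 1 ≤ η * K := by rwa [inv_le_iff_one_le_mul₀' η0] at a4
      nlinarith [mul_le_mul_of_nonneg_right this P0, mul_nonneg he.le (sq_nonneg b),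
        mul_le_mul_of_nonneg_right (show η ≤ e by linarith) A0]
    · rw [dv, dv]
      have c1 := hS Ω ι w φ hw K K' η b K0.le K'0 η0 g hB
      have c2 := mul_le_mul_of_nonneg_left (sq_psi_le hW ha ⟨le_rfl, b1⟩ a3 hB)
        (show 0 ≤ 1 + η by positivity)
      have c3 : 100 * (5 + η⁻¹) * (Fintype.card ι : ℝ) ^ 2 * (K ^ 2 / K') ≤ η := by
        have : (Fintype.card ι : ℝ) ≤ m := by exact_mod_cast hm
        rw [div_le_iff₀' η0] at b3
        rw [← mul_div_assoc, div_le_iff₀ K'0]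
        exact le_trans (by gcongr) b3
      have c4 := mul_le_mul_of_nonneg_right c3 (sq_nonneg b)
      have c5 := mul_le_mul_of_nonneg_right (num η0.le η1 ηe).1 A0
      have c6 := mul_le_mul_of_nonneg_right (num η0.le η1 ηe).2 (sq_nonneg b)
      linarith

end Crest.Agent.T157.Cq.Dc

end
end

-- ▼ part T157/CqDiscFin_34
section

/-!
# Row 157, part C: `Dc.finGlue`, the assembly of `Cq.DiscGlue` (helper34)
-/

set_option autoImplicit false
set_option linter.unusedSectionVars false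

noncomputable section

namespace Crest.Agent.T157.Cq.Dc

open MeasureTheory ProbabilityTheory Matrix Filter Topology Finset Real
open Crest.Agent.T157.St Crest.Agent.T157.Ed
open Crest.Agent.T157.Tr (pb)

namespace Fin34

variable {ι : Type} [Fintype ι] {μ : Measure (ι → ℝ)}

lemma Hy.mono {r a a' p p' : ℝ} (h : Hy μ r a p) (ha : a ≤ a') (hp : p ≤ p') : Hy μ r a' p' := by
  obtain ⟨A, h1, h2, h3⟩ := h
  exact ⟨A, h1, h2.trans (ENNReal.ofReal_le_ofReal hp), fun y hy v => ⟨(h3 y hy v).1,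
    (h3 y hy v).2.trans (mul_le_mul_of_nonneg_right ha (Finset.sum_nonneg fun i _ => mul_self_nonneg (v i)))⟩⟩

lemma meas_Bl (ϱ : ℝ) : MeasurableSet (Bl ι ϱ) := measurableSet_le (by fun_prop) measurable_const

/-- the tail beats a cubic factor -/
lemma tail [IsProbabilityMeasure μ] (h : Integrable (fun x => (x ⬝ᵥ x) ^ 4) μ) {A η : ℝ}
    (hA : 0 ≤ A) (hη : 0 < η) :
    ∃ ϱ : ℝ, 1 ≤ ϱ ∧ (1 + A * (ϱ + 1)) ^ 3 * μ.real (Bl ι ϱ)ᶜ ≤ η := by
  set M := ∫ x, (x ⬝ᵥ x) ^ 4 ∂μ with hM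
  have M0 : 0 ≤ M := integral_nonneg fun x => by positivity
  set ϱ := 1 + (1 + 2 * A) ^ 3 * M / η with hϱ
  have h1 : 1 ≤ ϱ := le_add_of_nonneg_right (by positivity)
  have h2 : ϱ ^ 4 * μ.real (Bl ι ϱ)ᶜ ≤ M := by
    refine le_trans (mul_le_mul_of_nonneg_left (measureReal_mono fun x hx => ?_) (by positivity))
      (mul_meas_ge_le_integral_of_nonneg (.of_forall fun x => by positivity) h (ϱ ^ 4))
    exact pow_le_pow_left₀ (zero_le_one.trans h1) (le_of_lt (not_le.1 fun h => hx h)) 4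
  refine ⟨ϱ, h1, ?_⟩
  have h3 : (1 + A * (ϱ + 1)) ^ 3 ≤ ((1 + 2 * A) * ϱ) ^ 3 :=
    pow_le_pow_left₀ (by positivity) (by nlinarith) 3
  have h4 : (1 + 2 * A) ^ 3 * M ≤ η * ϱ := by
    rw [hϱ, mul_add, mul_div_cancel₀ _ hη.ne']; linarith
  refine (mul_le_mul_of_nonneg_right h3 measureReal_nonneg).trans
    (le_of_mul_le_mul_right ?_ (show 0 < ϱ by positivity))
  calc _ = (1 + 2 * A) ^ 3 * (ϱ ^ 4 * μ.real (Bl ι ϱ)ᶜ) := by ring
    _ ≤ (1 + 2 * A) ^ 3 * M := by gcongr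
    _ ≤ _ := h4

/-- powers on `[1, K']` -/
lemma pows {r K' : ℝ} (h1 : 1 ≤ r) (h2 : r ≤ K') :
    K' ^ (-14 : ℝ) ≤ r ^ (-14 : ℝ) ∧ r ^ (-14 : ℝ) ≤ r ^ (-2 : ℝ) ∧
    r ^ (-14 : ℝ) * r ≤ r ^ (-(1 / 36) : ℝ) ∧ K' ^ (-(1 / 36) : ℝ) ≤ r ^ (-(1 / 36) : ℝ) ∧
    r ^ (-(1 / 36) : ℝ) ≤ 1 ∧ r ^ 5 * √(r ^ (-14 : ℝ)) = r ^ (-2 : ℝ) := by
  have h0 : 0 < r := by linarith
  refine ⟨rpow_le_rpow_of_nonpos h0 h2 (by norm_num),
    rpow_le_rpow_of_exponent_le h1 (by norm_num), ?_,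
    rpow_le_rpow_of_nonpos h0 h2 (by norm_num), rpow_le_one_of_one_le_of_nonpos h1 (by norm_num), ?_⟩
  · rw [← rpow_add_one h0.ne']
    exact rpow_le_rpow_of_exponent_le h1 (by norm_num)
  · rw [sqrt_eq_rpow, ← rpow_mul h0.le, ← rpow_natCast, ← rpow_add h0]
    norm_num

/-- the finite approximant -/
lemma apx [DecidableEq ι] (hC : CondL) (hG : GridL) {B₁ B₂ D₀ N K K' q₀ : ℝ} (b1 : 1 ≤ B₁)
    (b2 : 1 ≤ B₂) (d0 : 1 ≤ D₀)
    (hP : ∀ (Ω : Type) [Fintype Ω] [Nonempty Ω] (w : Ω → ℝ)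
      (φ : Ω → ι → ℝ) (ε : ℝ → ℝ) (r p : ℝ), (∀ x, 0 < w x) → 1 ≤ r → 0 ≤ p → 0 ≤ ε r →
      Hy (dm w φ) r ((1 + ε r) / r) p →
      (∀ ϱ, (∀ x, φ x ⬝ᵥ φ x ≤ ϱ) → pb φ w ε 3 r ≤ (1 + r * ϱ) ^ 3 * p) ∧
      ((∀ θ : ℝ, |θ| ≤ 3 * r →
        Xk θ (dm w φ) (dm w φ) ≤ 8 * B₁ * exp (8 * B₁ * |θ| ^ (3 / 2 : ℝ))) →
        pb φ w ε 3 r ≤ D₀ * r ^ 5 * √p))
    [IsProbabilityMeasure μ] (h4 : Integrable (fun x => (x ⬝ᵥ x) ^ 4) μ)
    (hM : ∀ θ : ℝ, |θ| ≤ 3 * N → Xl θ μ ≤ ENNReal.ofReal (B₁ * exp (B₁ * |θ| ^ (3 / 2 : ℝ))))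
    (hH : ∀ r, K ≤ r → Hy μ r ((1 + B₂ * r ^ (-(1 / 36) : ℝ)) / r)
      (if r ≤ N then B₂ * r ^ (-14 : ℝ) else 0)) (k1 : 1 ≤ K) (k2 : K ≤ K') (hq : 0 < q₀) :
    ∃ ϱ : ℝ, μ.real (Bl ι ϱ)ᶜ ≤ q₀ ∧ μ.real (Bl ι ϱ)ᶜ ≤ 1 / 2 ∧ Cp (μ[|Bl ι ϱ]) ∧
      ∀ θ s₀ : ℝ, 0 ≤ θ → 0 < s₀ → ∃ (m : ℕ) (w : Fin (m + 1) → ℝ) (φ : Fin (m + 1) → ι → ℝ),
        (∀ x, 0 < w x) ∧ Xk θ (dm w φ) (dm w φ) ≤ 2 * Xk θ (μ[|Bl ι ϱ]) (μ[|Bl ι ϱ]) ∧
        D2 θ (μ[|Bl ι ϱ]) (dm w φ) ≤ s₀ ∧ ∀ r ∈ Set.Icc K K',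
          pb φ w (fun u => 5 * B₂ * D₀ * u ^ (-(1 / 36) : ℝ)) 3 r ≤
            5 * B₂ * D₀ * r ^ (-2 : ℝ) := by
  have k0 : 0 < K' := by linarith
  set τ := K' ^ (-(1 / 36) : ℝ) / 2 with hτ
  set κ := K' ^ (-14 : ℝ) with hκ
  have τ0 : 0 < τ := by positivity
  have κ0 : 0 < κ := by positivity
  have τ1 : τ ≤ 1 / 2 := by
    have := (pows (k1.trans k2) le_rfl).2.2.2.2.1
    linarith
  obtain ⟨ϱ, ϱ1, hϱ⟩ := tail h4 k0.le (show 0 < min (τ * κ / 8) (min q₀ (1 / 2)) by positivity)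
  set P := (1 + K' * (ϱ + 1)) ^ 3 with hPd
  set q := μ.real (Bl ι ϱ)ᶜ with hqd
  have P1 : 1 ≤ P := one_le_pow₀ (le_add_of_nonneg_right (by positivity))
  have q0 : 0 ≤ q := measureReal_nonneg
  have q1 : q ≤ min q₀ (1 / 2) :=
    (le_mul_of_one_le_left q0 P1).trans (hϱ.trans (min_le_right _ _))
  have q2 : P * q ≤ τ * κ / 8 := hϱ.trans (min_le_left _ _)
  obtain ⟨c1, c2, c3, c4⟩ := hC ι μ ϱ q inferInstance le_rfl (q1.trans (min_le_right _ _))
  refine ⟨ϱ, q1.trans (min_le_left _ _), q1.trans (min_le_right _ _), ⟨c1, ϱ, c2⟩,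
    fun θ s₀ θ0 s0 => ?_⟩
  set s := min s₀ (κ / (2 * P)) with hs
  have s1 : 0 < s := by positivity
  have s2 : P * s ≤ κ / 2 := (mul_le_mul_of_nonneg_left (min_le_right _ _) (by positivity)).trans_eq
    (by field_simp)
  obtain ⟨m, w, φ, hw, g1, g2, g3⟩ := hG ι _ ϱ (θ + 3 * K' + 2 * (1 + B₂)) s c1 c2 (by positivity) s1
  have g4 := g2 θ (by rw [abs_of_nonneg θ0]; linarith)
  refine ⟨m, w, φ, hw, g4.1, g4.2.trans (min_le_left _ _), fun r hr => ?_⟩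
  have r1 : 1 ≤ r := k1.trans hr.1
  have r0 : 0 < r := by linarith
  obtain ⟨p1, p2, p3, p4, p5, p6⟩ := pows r1 hr.2
  set ρ := r ^ (-(1 / 36) : ℝ) with hρ
  set p := if r ≤ N then B₂ * r ^ (-14 : ℝ) else 0 with hp
  have ρ0 : 0 < ρ := by positivity
  have p0 : 0 ≤ p := by rw [hp]; split_ifs <;> positivity
  have a0 : 0 ≤ (1 + B₂ * ρ) / r := by positivity
  have a2 : 1 + B₂ * ρ ≤ 1 + B₂ := add_le_add le_rfl (mul_le_of_le_one_right (by positivity) p5)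
  have a1 : (1 + B₂ * ρ) / r ≤ 1 + B₂ := (div_le_self (by positivity) r1).trans a2
  have σ1 : P * (4 * q / τ + s) ≤ κ := by
    have : P * (4 * q / τ) ≤ κ / 2 := by
      rw [← mul_div_assoc, div_le_iff₀ τ0]; linarith
    linarith
  have σ0 : 0 ≤ 4 * q / τ + s := by positivity
  have σ2 : 4 * q / τ + s ≤ κ := (le_mul_of_one_le_left σ0 P1).trans σ1
  have bd : B₂ ≤ B₂ * D₀ := le_mul_of_one_le_right (by linarith) d0
  have h1 := g3 r _ _ r0 (by linarith [hr.2]) (by positivity)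
    ((mul_le_mul (show 1 + 2 * τ ≤ 2 by linarith) a1 a0 zero_le_two).trans (by linarith))
    (by positivity)
    (c4 r _ _ τ r0 a0 p0 τ0 τ1 (hH r hr.1))
  have h2 : Hy (dm w φ) r ((1 + 5 * B₂ * D₀ * ρ) / r) (4 * p + (4 * q / τ + s)) := by
    refine Hy.mono h1 ?_ (le_of_eq (by ring))
    rw [← mul_div_assoc, div_add' _ _ _ r0.ne']
    refine div_le_div_of_nonneg_right ?_ r0.le
    have e1 : s * r ≤ ρ := by
      refine le_trans (mul_le_mul_of_nonneg_right ?_ r0.le) p3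
      have : 0 ≤ 4 * q / τ := by positivity
      linarith
    have e2 : 2 * τ * (1 + B₂ * ρ) ≤ ρ * (1 + B₂) :=
      mul_le_mul (by linarith) a2 (by positivity) ρ0.le
    have e3 : (2 * B₂ + 2) * ρ ≤ 5 * B₂ * D₀ * ρ :=
      mul_le_mul_of_nonneg_right (by linarith) ρ0.le
    linarith
  obtain ⟨h3, h5⟩ := hP _ w φ (fun u => 5 * B₂ * D₀ * u ^ (-(1 / 36) : ℝ)) r _ hw r1 (by positivity)
    (by positivity) h2
  have r2 : 0 ≤ r ^ (-2 : ℝ) := by positivity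
  by_cases hN : r ≤ N
  · refine (h5 fun θ' h' => ?_).trans ?_
    · have h6 := c3 θ' _ (by positivity) (hM θ' (by linarith))
      have h7 : exp (B₁ * |θ'| ^ (3 / 2 : ℝ)) ≤ exp (8 * B₁ * |θ'| ^ (3 / 2 : ℝ)) := by
        gcongr; linarith
      refine ((g2 θ' (by linarith [hr.2])).1.trans (by linarith)).trans
        (mul_le_mul_of_nonneg_left h7 (by positivity))
    · have h6 : √(4 * p + (4 * q / τ + s)) ≤ 5 * B₂ * √(r ^ (-14 : ℝ)) := by
        have : 0 ≤ r ^ (-14 : ℝ) := by positivity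
        refine sqrt_le_iff.2 ⟨by positivity, ?_⟩
        rw [mul_pow, sq_sqrt this, hp, if_pos hN]
        have e : 4 * B₂ + 1 ≤ (5 * B₂) ^ 2 :=
          (show 4 * B₂ + 1 ≤ 5 * B₂ by linarith).trans (le_self_pow₀ (by linarith) two_ne_zero)
        linarith [mul_le_mul_of_nonneg_right e this]
      calc _ ≤ D₀ * r ^ 5 * (5 * B₂ * √(r ^ (-14 : ℝ))) := by gcongr
        _ = _ := by rw [← p6]; ring
  · refine (h3 _ g1).trans ?_
    rw [hp, if_neg hN, mul_zero, zero_add]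
    calc _ ≤ P * (4 * q / τ + s) := by rw [hPd]; gcongr; exact hr.2
      _ ≤ r ^ (-2 : ℝ) := σ1.trans (p1.trans p2)
      _ ≤ _ := le_mul_of_one_le_left r2 (by linarith)

lemma int_le_cond [IsProbabilityMeasure μ] {A : Set (ι → ℝ)} (hA : MeasurableSet A)
    (h : μ.real Aᶜ ≤ 1 / 2) {G : (ι → ℝ) → ℝ} (hG : Measurable G) (h0 : ∀ x, 0 ≤ G x)
    (h2 : ∀ x, G x ≤ 2) : ∫ x, G x ∂μ ≤ ∫ x, G x ∂μ[|A] + 2 * μ.real Aᶜ := by
  have i : Integrable G μ := (integrable_const (2 : ℝ)).mono' hG.aestronglyMeasurable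
    (.of_forall fun x => by rw [Real.norm_of_nonneg (h0 x)]; exact h2 x)
  have h3 : 1 / 2 ≤ μ.real A := by
    rw [measureReal_compl hA, probReal_univ] at h; linarith
  rw [← integral_add_compl hA i, ProbabilityTheory.cond, integral_smul_measure, ENNReal.toReal_inv, smul_eq_mul]
  refine add_le_add (le_mul_of_one_le_left (integral_nonneg h0) ?_) ?_
  · exact (one_le_inv₀ (lt_of_lt_of_le (by norm_num) h3)).2 measureReal_le_one
  · refine (setIntegral_mono i.integrableOn (integrable_const (2 : ℝ)).integrableOn h2).trans_eq ?_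
    simp [mul_comm]

/-- the squared difference as a static expression -/
def sE (K c K' c' : ℝ) : SE :=
  .mul (.add (.Q K c .var) (.mul (.const (-1)) (.Q K' c' .var)))
    (.add (.Q K c .var) (.mul (.const (-1)) (.Q K' c' .var)))

lemma mk_sE (ν : Measure (ι → ℝ)) (v : (ι → ℝ) → ℝ) (K c K' c' : ℝ) :
    mk ν 0 0 ((sE K c K' c').ev ν v) = ∫ x, (Qs K c ν v x - Qs K' c' ν v x) ^ 2 ∂ν := by
  refine integral_congr_ae (.of_forall fun x => ?_)
  simp only [cut, zero_mul, sub_zero, smoothTransition.one_of_one_le one_le_two, sE, SE.ev]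
  ring

lemma b1_Qs (hB : BdStmt) (ν : Measure (ι → ℝ)) [IsProbabilityMeasure ν] {v : (ι → ℝ) → ℝ}
    (hv : B1 v) {K c : ℝ} (hK : 0 < K) (hc : 0 ≤ c) : B1 (Qs K c ν v) :=
  (hB ι ν inferInstance).2 v hv (.Q K c .var) ⟨hK, hc, trivial⟩

lemma B1.int {ν : Measure (ι → ℝ)} [IsProbabilityMeasure ν] {u v : (ι → ℝ) → ℝ} (hu : B1 u)
    (hv : B1 v) : Integrable (fun x => |u x - v x|) ν :=
  (integrable_const (2 : ℝ)).mono' (hu.1.sub hv.1).abs.aestronglyMeasurable (.of_forall fun x => by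
    rw [Real.norm_of_nonneg (abs_nonneg _)]
    linarith [abs_sub (u x) (v x), hu.2 x, hv.2 x])

lemma l1_le {ν : Measure (ι → ℝ)} [IsProbabilityMeasure ν] {u v : (ι → ℝ) → ℝ} (hu : B1 u)
    (hv : B1 v) {a : ℝ} (ha : 0 < a) (h : ∫ x, (u x - v x) ^ 2 ∂ν ≤ a ^ 2) :
    ∫ x, |u x - v x| ∂ν ≤ a := by
  have i : Integrable (fun x => (u x - v x) ^ 2) ν :=
    (integrable_const (4 : ℝ)).mono' ((hu.1.sub hv.1).pow_const 2).aestronglyMeasurable
      (.of_forall fun x => by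
        rw [Real.norm_of_nonneg (sq_nonneg _), ← sq_abs]
        nlinarith [abs_sub (u x) (v x), hu.2 x, hv.2 x, abs_nonneg (u x - v x)])
  have h1 : ∫ x, |u x - v x| ∂ν ≤ ∫ x, (a / 2 + (2 * a)⁻¹ * (u x - v x) ^ 2) ∂ν :=
    integral_mono (B1.int hu hv) ((integrable_const _).add (i.const_mul _)) fun x => by
      have e : a / 2 + (2 * a)⁻¹ * (u x - v x) ^ 2 - |u x - v x| =
          (2 * a)⁻¹ * (|u x - v x| - a) ^ 2 := by rw [← sq_abs (u x - v x)]; field_simp; ring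
      have : 0 ≤ (2 * a)⁻¹ * (|u x - v x| - a) ^ 2 := by positivity
      show |u x - v x| ≤ _
      linarith
  rw [integral_add (integrable_const _) (i.const_mul _), integral_const_mul] at h1
  have h2 : (2 * a)⁻¹ * ∫ x, (u x - v x) ^ 2 ∂ν ≤ a / 2 :=
    (mul_le_mul_of_nonneg_left h (by positivity)).trans_eq (by field_simp)
  simp only [integral_const, probReal_univ, smul_eq_mul, one_mul] at h1
  linarith

lemma fin_le [IsProbabilityMeasure μ] {A : Set (ι → ℝ)} [IsProbabilityMeasure (μ[|A])]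
    (hA : MeasurableSet A) (h : μ.real Aᶜ ≤ 1 / 2) {u u' v v' : (ι → ℝ) → ℝ} (a1 : B1 u)
    (a2 : B1 u') (a3 : B1 v) (a4 : B1 v') {a c c' : ℝ} (ha : 0 < a) (c0 : 0 ≤ c) (c0' : 0 ≤ c')
    (h1 : ∫ x, (v x - v' x) ^ 2 ∂μ[|A] ≤ a ^ 2)
    (h4 : ∫ x, |u x - v x| ∂μ[|A] ≤ 8 * c * μ.real Aᶜ)
    (h5 : ∫ x, |u' x - v' x| ∂μ[|A] ≤ 8 * c' * μ.real Aᶜ)
    (q1 : μ.real Aᶜ ≤ a / (8 * c + 8 * c' + 2)) : ∫ x, |u x - u' x| ∂μ ≤ 2 * a := by
  have h3 := l1_le a3 a4 ha h1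
  have h6 := int_le_cond hA h (G := fun x => |u x - u' x|) (a1.1.sub a2.1).abs
    (fun x => abs_nonneg _) fun x => by linarith [abs_sub (u x) (u' x), a1.2 x, a2.2 x]
  have h7 : ∫ x, |u x - u' x| ∂μ[|A] ≤ ∫ x, (|u x - v x| + |v x - v' x| + |u' x - v' x|) ∂μ[|A] :=
    integral_mono (B1.int a1 a2) (((B1.int a1 a3).add (B1.int a3 a4)).add (B1.int a2 a4)) fun x => by
      have e1 := abs_sub_le (u x) (v x) (u' x)
      have e2 := abs_sub_le (v x) (v' x) (u' x)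
      rw [abs_sub_comm (v' x)] at e2
      show _ ≤ _ + _ + _
      linarith
  rw [integral_add (f := fun x => |u x - v x| + |v x - v' x|) ((B1.int a1 a3).add (B1.int a3 a4))
    (B1.int a2 a4), integral_add (B1.int a1 a3) (B1.int a3 a4)] at h7
  rw [le_div_iff₀ (by positivity)] at q1
  linarith

end Fin34

open Fin34

theorem finGlue : FinGlue := by
  intro hM hP hC hG hPb hCo hB hS hT hW hL L C L0
  obtain ⟨w₁, hM⟩ := hM L C L0
  obtain ⟨w₂, hP⟩ := hP hW hL L C L0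
  refine ⟨max w₁ w₂, fun w hw r₁ r₂ δ r0 δ0 => ?_⟩
  obtain ⟨B₁, b1, hM⟩ := hM w ((le_max_left _ _).trans hw)
  obtain ⟨B₂, K₂, b2, k2, hP⟩ := hP w ((le_max_right _ _).trans hw)
  obtain ⟨D₀, d0, hPb⟩ := hPb (8 * B₁) (by linarith)
  obtain ⟨K₀, k0, hCo⟩ := hCo r₁ r₂ ((δ / 2) ^ 2 / 2) (5 * B₂ * D₀) (1 / 36) r0 (by positivity)
    (by positivity) (by norm_num)
  refine ⟨max K₀ K₂, by positivity, fun K hK => ?_⟩
  have k1 : 1 ≤ K := k0.trans ((le_max_left _ _).trans hK)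
  filter_upwards [hM, hP, eventually_ge_atTop 3] with n hM hP hn η hη
  obtain ⟨m1, m2, m3⟩ := hM η hη.1
  filter_upwards [hCo K ((le_max_left _ _).trans hK) n, eventually_ge_atTop K] with K' hCo hK' K₁ φ
    K1 hφ r hr
  have K0 : 0 < K := by linarith
  have K0' : 0 < K' := by linarith
  have r1 : 0 < r := r0.trans_le hr.1
  have c0 : 0 ≤ K * r := by positivity
  have c0' : 0 ≤ K' * r := by positivity
  have n3 : (3 : ℝ) ≤ n := by exact_mod_cast hn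
  obtain ⟨ϱ, q1, q2, cp, H⟩ := apx (N := (n : ℝ) ^ 3) hC hG b1 b2 d0 (fun Ω _ _ => hPb Ω (Fin n)) m2
    (fun θ h => m3 θ (h.trans (by rw [pow_succ' _ 3]; gcongr)))
    (fun r h => hP η hη.1 r (((le_max_right _ _).trans hK).trans h)) k1 hK'
    (show 0 < δ / 2 / (8 * (K * r) + 8 * (K' * r) + 2) by positivity)
  set ν := (piS n η)[|Bl (Fin n) ϱ] with hν
  have := cp.prob
  have hv := (hB (Fin n) ν inferInstance).1 K₁ φ K1 hφ
  set v := Sm K₁ φ with hvd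
  obtain ⟨θ, θ0, hS⟩ := hS (max (sE K (K * r) K' (K' * r)).sz K₁) ((δ / 2) ^ 2 / 2) (by positivity)
  obtain ⟨s₀, s0, hS⟩ := hS (2 * |Xk θ ν ν|)
  obtain ⟨m, u, ψ, hu, x1, x2, x3⟩ := H θ s₀ θ0 s0
  have z0 : (0 : ℝ) ≤ max (sE K (K * r) K' (K' * r)).sz K₁ := K1.le.trans (le_max_right _ _)
  have h1 := hS (Fin n) ν (dm u ψ) cp (Lnk10.cp_dm hu ψ)
    ((le_abs_self _).trans (le_mul_of_one_le_left (abs_nonneg _) one_le_two))
    (x1.trans (mul_le_mul_of_nonneg_left (le_abs_self _) zero_le_two)) x2 0 0 K₁ φ (sE K (K * r) K' (K' * r)) PosSemidef.zero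
    (by rwa [trace_zero]) le_rfl z0 K1 (le_max_right _ _) hφ
    ⟨⟨⟨K0, c0, trivial⟩, trivial, K0', c0', trivial⟩, ⟨K0, c0, trivial⟩, trivial, K0', c0', trivial⟩
    (le_max_left _ _)
  rw [mk_sE, mk_sE] at h1
  have h2 := hCo _ (Fin n) u ψ hu (Fintype.card_fin n).le x3 v hv.2 r hr
  rw [← mul_div_cancel₀ δ two_ne_zero]
  exact fin_le (meas_Bl ϱ) q2 (b1_Qs hB (piS n η) hv K0 c0) (b1_Qs hB (piS n η) hv K0' c0')
    (b1_Qs hB ν hv K0 c0) (b1_Qs hB ν hv K0' c0') (half_pos δ0) c0 c0'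
    ((sub_le_iff_le_add.1 (le_of_abs_le h1)).trans ((add_le_add le_rfl h2).trans_eq (add_halves _)))
    (hT (Fin n) (piS n η) _ _ K _ m1 (meas_Bl ϱ) le_rfl q2 K0 c0 v hv)
    (hT (Fin n) (piS n η) _ _ K' _ m1 (meas_Bl ϱ) le_rfl q2 K0' c0' v hv) q1

end Crest.Agent.T157.Cq.Dc

end
end

-- ▼ part T157/CqDiscGrid_49
section

/-!
# Row 157, part C: rounding a compactly supported law to a grid (helper49)
-/

set_option autoImplicit false
set_option linter.unusedSectionVars false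

noncomputable section

namespace Crest.Agent.T157.Cq.Dc

open MeasureTheory ProbabilityTheory Matrix Filter Topology Finset Real
open Crest.Agent.T157.E Crest.Agent.T157.St Crest.Agent.T157.St.A87 Crest.Agent.T157.SL
open Crest.Agent.T157.Rec
open Crest.Agent.T157.Sp (OffY pst lawY CovB)
open Crest.Agent.T157.Sp.Trf85
open Crest.Agent.T157.Eig (nrm nrm_nonneg nrm_sq nrm_add_le nrm_sub_le nrm_le_iff)

namespace Grid49

variable {ι : Type} [Fintype ι] [DecidableEq ι] {μ : Measure (ι → ℝ)} {e ρ : ℝ}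
  {Φ Ψ Φ' Ψ' : (ι → ℝ) → ι → ℝ}

/-- a law with finite support is a `dm` -/
lemma fin_supp (ν : Measure (ι → ℝ)) [IsProbabilityMeasure ν] (F : Finset (ι → ℝ))
    (hF : ∀ᵐ x ∂ν, x ∈ F) : ∃ (N : ℕ) (w : Fin (N + 1) → ℝ) (φ : Fin (N + 1) → ι → ℝ),
      (∀ i, 0 < w i) ∧ (∀ i, ν {φ i} ≠ 0) ∧ dm w φ = ν := by
  classical
  set S := F.filter fun a => ν {a} ≠ 0 with hS
  have h1 : ν = ∑ a ∈ S, ν {a} • Measure.dirac a := by
    refine (Measure.ae_mem_finset_iff.1 hF).trans (sum_subset (filter_subset _ _) ?_).symm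
    intro a ha h
    have h0 : ν {a} = 0 := by
      by_contra h0
      exact h (mem_filter.2 ⟨ha, h0⟩)
    rw [h0, zero_smul]
  have hne : S.card ≠ 0 := fun h => by
    rw [card_eq_zero.1 h, sum_empty] at h1
    exact IsProbabilityMeasure.ne_zero ν h1
  obtain ⟨N, hN⟩ := Nat.exists_eq_succ_of_ne_zero hne
  let q : S ≃ Fin (N + 1) := S.equivFinOfCardEq hN
  have hq : ∀ i, ν {(q.symm i : ι → ℝ)} ≠ 0 := fun i => (mem_filter.1 (q.symm i).2).2
  have h2 : ν = ∑ i, ν {(q.symm i : ι → ℝ)} • Measure.dirac (q.symm i : ι → ℝ) := by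
    rw [Equiv.sum_comp q.symm fun a : S => ν {(a : ι → ℝ)} • Measure.dirac (a : ι → ℝ),
      sum_coe_sort S fun a => ν {a} • Measure.dirac a]
    exact h1
  have h3 : ∑ i, ν.real {(q.symm i : ι → ℝ)} = 1 := by
    have := congrArg (fun m : Measure (ι → ℝ) => (m Set.univ).toReal) h2
    simp only [measure_univ, ENNReal.toReal_one, Measure.coe_finsetSum, Finset.sum_apply,
      Measure.smul_apply, smul_eq_mul, mul_one] at this
    rw [ENNReal.toReal_sum fun i _ => measure_ne_top _ _] at this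
    exact this.symm
  refine ⟨N, fun i => ν.real {(q.symm i : ι → ℝ)}, fun i => q.symm i,
    fun i => ENNReal.toReal_pos (hq i) (measure_ne_top _ _), hq, ?_⟩
  refine Eq.trans ?_ h2.symm
  refine sum_congr rfl fun i _ => ?_
  rw [prob, h3, div_one, ofReal_measureReal]

/-- measurable maps close to the identity -/
structure Cl (e : ℝ) (Φ : (ι → ℝ) → ι → ℝ) : Prop where
  meas : Measurable Φ
  cl : ∀ x, nrm (Φ x - x) ≤ e

lemma cl_id (he : 0 ≤ e) : Cl e (id : (ι → ℝ) → ι → ℝ) :=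
  ⟨measurable_id, fun x => by simpa [nrm] using he⟩

lemma exists_grid (he : 0 < e) (ρ : ℝ) : ∃ (Φ : (ι → ℝ) → ι → ℝ) (F : Finset (ι → ℝ)),
    Cl e Φ ∧ ∀ x, nrm x ≤ ρ → Φ x ∈ F := by
  classical
  set h : ℝ := e / (Fintype.card ι + 1) with hh
  have h0 : 0 < h := by positivity
  refine ⟨fun x k => h * ⌊x k / h⌋,
    (Fintype.piFinset fun _ : ι => Icc ⌊-ρ / h⌋ ⌊ρ / h⌋).image fun z k => h * z k,
    ⟨measurable_pi_lambda _ fun k => ?_, fun x => ?_⟩, fun x hx => ?_⟩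
  · have hm : Measurable fun x : ι → ℝ => x k / h := by fun_prop
    exact (measurable_of_countable (fun z : ℤ => h * (z : ℝ))).comp hm.floor
  · rw [nrm_le_iff he.le]
    have h1 : ∀ k, (h * ⌊x k / h⌋ - x k) * (h * ⌊x k / h⌋ - x k) ≤ h ^ 2 := fun k => by
      have a := Int.floor_le (x k / h)
      have b := Int.lt_floor_add_one (x k / h)
      rw [le_div_iff₀ h0] at a
      rw [div_lt_iff₀ h0] at b
      nlinarith
    refine (sum_le_sum fun k _ => h1 k).trans ?_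
    rw [sum_const, card_univ, nsmul_eq_mul, hh, div_pow, ← mul_div_assoc,
      div_le_iff₀ (by positivity)]
    have : (0 : ℝ) ≤ Fintype.card ι := Nat.cast_nonneg _
    nlinarith [sq_nonneg e, mul_nonneg this (sq_nonneg e), mul_nonneg (mul_nonneg this this) (sq_nonneg e)]
  · refine mem_image.2 ⟨fun k => ⌊x k / h⌋, Fintype.mem_piFinset.2 fun k => ?_, rfl⟩
    have := abs_le.1 ((Eig.abs_apply_le_nrm x k).trans hx)
    exact mem_Icc.2 ⟨Int.floor_mono (div_le_div_of_nonneg_right this.1 h0.le),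
      Int.floor_mono (div_le_div_of_nonneg_right this.2 h0.le)⟩

lemma Cl.nrm_le (h : Cl e Φ) {x : ι → ℝ} (hx : nrm x ≤ ρ) : nrm (Φ x) ≤ ρ + e := by
  have := nrm_add_le x (Φ x - x)
  rw [add_sub_cancel] at this
  linarith [h.cl x]

lemma Cl.sub_le (h : Cl e Φ) (h' : Cl e Ψ) (x : ι → ℝ) : nrm (Φ x - Ψ x) ≤ 2 * e := by
  have := nrm_sub_le (Φ x - x) (Ψ x - x)
  rw [sub_sub_sub_cancel_right] at this
  linarith [h.cl x, h'.cl x]

lemma Cl.ae (h : Cl e Φ) (hr : ∀ᵐ x ∂μ, nrm x ≤ ρ) : ∀ᵐ y ∂μ.map Φ, nrm y ≤ ρ + e :=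
  (ae_map_iff h.meas.aemeasurable
    (measurableSet_le Eig.continuous_nrm.measurable measurable_const)).2
    (hr.mono fun _ hx => h.nrm_le hx)

lemma cp_of [IsProbabilityMeasure μ] (hr : ∀ᵐ x ∂μ, nrm x ≤ ρ) : Cp μ :=
  ⟨inferInstance, ρ ^ 2, hr.mono fun x hx => (nrm_le_iff ((nrm_nonneg x).trans hx)).1 hx⟩

lemma Cl.cp [IsProbabilityMeasure μ] (h : Cl e Φ) (hr : ∀ᵐ x ∂μ, nrm x ≤ ρ) : Cp (μ.map Φ) :=
  have := Measure.isProbabilityMeasure_map (μ := μ) h.meas.aemeasurable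
  cp_of (h.ae hr)

lemma ae_prod [SFinite μ] (hr : ∀ᵐ x ∂μ, nrm x ≤ ρ) :
    ∀ᵐ p ∂μ.prod μ, nrm p.1 ≤ ρ ∧ nrm p.2 ≤ ρ :=
  (Measure.quasiMeasurePreserving_fst.ae hr).and (Measure.quasiMeasurePreserving_snd.ae hr)

lemma int_xk [IsProbabilityMeasure μ] (hr : ∀ᵐ x ∂μ, nrm x ≤ ρ) (h : Cl e Φ) (h' : Cl e Ψ) (θ : ℝ) :
    Integrable (fun p : (ι → ℝ) × (ι → ℝ) => exp (θ * (Φ p.1 ⬝ᵥ Ψ p.2))) (μ.prod μ) := by
  have hm : Measurable fun p : (ι → ℝ) × (ι → ℝ) => exp (θ * (Φ p.1 ⬝ᵥ Ψ p.2)) :=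
    (show Continuous fun p : (ι → ℝ) × (ι → ℝ) => exp (θ * (p.1 ⬝ᵥ p.2)) by fun_prop).measurable.comp
      ((h.meas.comp measurable_fst).prodMk (h'.meas.comp measurable_snd))
  refine Integrable.of_bound hm.aestronglyMeasurable (exp (|θ| * ((ρ + e) * (ρ + e))))
    ((ae_prod hr).mono fun p hp => ?_)
  rw [Real.norm_eq_abs, abs_of_pos (exp_pos _), exp_le_exp]
  refine (le_abs_self _).trans ?_
  rw [abs_mul]
  have a := h.nrm_le hp.1
  exact mul_le_mul_of_nonneg_left ((Eig.abs_dot_le _ _).trans (mul_le_mul a (h'.nrm_le hp.2)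
    (nrm_nonneg _) ((nrm_nonneg _).trans a))) (abs_nonneg _)

lemma xk_map [IsProbabilityMeasure μ] (hr : ∀ᵐ x ∂μ, nrm x ≤ ρ) (h : Cl e Φ) (h' : Cl e Ψ) (θ : ℝ) :
    Xk θ (μ.map Φ) (μ.map Ψ) = ∫ p, exp (θ * (Φ p.1 ⬝ᵥ Ψ p.2)) ∂μ.prod μ := by
  have hc : Continuous fun y : ι → ℝ => ∫ x', exp (θ * (y ⬝ᵥ x')) ∂μ.map Ψ :=
    Lnk10.continuous_cp (h'.cp hr) (by unfold Function.uncurry; fun_prop)
  rw [integral_prod _ (int_xk hr h h' θ), Xk,
    integral_map h.meas.aemeasurable hc.aestronglyMeasurable]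
  refine integral_congr_ae (.of_forall fun x => ?_)
  exact integral_map h'.meas.aemeasurable
    (show Continuous fun x' : ι → ℝ => exp (θ * (Φ x ⬝ᵥ x')) by fun_prop).aestronglyMeasurable

lemma xk_le [IsProbabilityMeasure μ] (hr : ∀ᵐ x ∂μ, nrm x ≤ ρ) (he : e ≤ 1) (h : Cl e Φ)
    (h' : Cl e Ψ) (k : Cl e Φ') (k' : Cl e Ψ') {θ T Λ : ℝ} (hθ : |θ| ≤ T)
    (hΛ : T * (4 * (ρ + 1) * e) ≤ Λ) :
    Xk θ (μ.map Φ) (μ.map Ψ) ≤ exp Λ * Xk θ (μ.map Φ') (μ.map Ψ') := by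
  rw [xk_map hr h h', xk_map hr k k', ← integral_const_mul]
  refine integral_mono_ae (int_xk hr h h' θ) ((int_xk hr k k' θ).const_mul _)
    ((ae_prod hr).mono fun p hp => ?_)
  simp only
  rw [← exp_add, exp_le_exp]
  have e0 : 0 ≤ e := (nrm_nonneg _).trans (h.cl 0)
  have r0 : 0 ≤ ρ := (nrm_nonneg _).trans hp.1
  have e1 : Φ p.1 ⬝ᵥ Ψ p.2 - Φ' p.1 ⬝ᵥ Ψ' p.2 =
      (Φ p.1 - Φ' p.1) ⬝ᵥ Ψ p.2 + Φ' p.1 ⬝ᵥ (Ψ p.2 - Ψ' p.2) := by
    rw [sub_dotProduct, dotProduct_sub]; ring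
  have b1 : |(Φ p.1 - Φ' p.1) ⬝ᵥ Ψ p.2| ≤ 2 * e * (ρ + 1) := (Eig.abs_dot_le _ _).trans
    (mul_le_mul (h.sub_le k _) ((h'.nrm_le hp.2).trans (by linarith)) (nrm_nonneg _) (by positivity))
  have b2 : |Φ' p.1 ⬝ᵥ (Ψ p.2 - Ψ' p.2)| ≤ (ρ + 1) * (2 * e) := (Eig.abs_dot_le _ _).trans
    (mul_le_mul ((k.nrm_le hp.1).trans (by linarith)) (h'.sub_le k' _) (nrm_nonneg _) (by positivity))
  have b3 : |Φ p.1 ⬝ᵥ Ψ p.2 - Φ' p.1 ⬝ᵥ Ψ' p.2| ≤ 4 * (ρ + 1) * e := by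
    rw [e1]; exact (abs_add_le _ _).trans (by linarith)
  have b4 : θ * (Φ p.1 ⬝ᵥ Ψ p.2 - Φ' p.1 ⬝ᵥ Ψ' p.2) ≤ T * (4 * (ρ + 1) * e) := by
    refine (le_abs_self _).trans ?_
    rw [abs_mul]
    exact mul_le_mul hθ b3 (abs_nonneg _) ((abs_nonneg _).trans hθ)
  linarith

lemma xk_bd [IsProbabilityMeasure μ] (hr : ∀ᵐ x ∂μ, nrm x ≤ ρ) {θ T : ℝ} (hθ : |θ| ≤ T) :
    0 ≤ Xk θ μ μ ∧ Xk θ μ μ ≤ exp (T * ρ ^ 2) := by
  have h := xk_map hr (cl_id le_rfl) (cl_id le_rfl) θ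
  rw [Measure.map_id] at h
  rw [h]
  refine ⟨integral_nonneg fun _ => (exp_pos _).le, ?_⟩
  have := integral_mono_ae (int_xk hr (cl_id le_rfl) (cl_id le_rfl) θ)
    (integrable_const (exp (T * ρ ^ 2))) ((ae_prod hr).mono fun p hp => ?_)
  · simpa using this
  simp only [id]
  rw [exp_le_exp]
  refine (le_abs_self _).trans ?_
  rw [abs_mul, sq]
  exact mul_le_mul hθ ((Eig.abs_dot_le _ _).trans (mul_le_mul hp.1 hp.2 (nrm_nonneg _)
    ((nrm_nonneg _).trans hp.1))) (abs_nonneg _) ((abs_nonneg _).trans hθ)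

/-- the likelihood changes little -/
lemma ew_cl (h : Cl e Φ) (he : e ≤ 1) {r T Y Λ : ℝ} (hr0 : 0 ≤ r) (hrT : r ≤ T) {x y : ι → ℝ}
    (hx : nrm x ≤ ρ) (hy : nrm y ≤ Y) (hΛ : (Y + T * (ρ + 1)) * e ≤ Λ) :
    ew r y (Φ x) ≤ exp Λ * ew r y x ∧ ew r y x ≤ exp Λ * ew r y (Φ x) := by
  have e0 : 0 ≤ e := (nrm_nonneg _).trans (h.cl 0)
  have r0 : 0 ≤ ρ := (nrm_nonneg _).trans hx
  have b1 : |y ⬝ᵥ Φ x - y ⬝ᵥ x| ≤ Y * e := by
    rw [← dotProduct_sub]
    exact (Eig.abs_dot_le _ _).trans (mul_le_mul hy (h.cl x) (nrm_nonneg _) ((nrm_nonneg _).trans hy))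
  have b2 : |Φ x ⬝ᵥ Φ x - x ⬝ᵥ x| ≤ e * (2 * (ρ + 1)) := by
    have : Φ x ⬝ᵥ Φ x - x ⬝ᵥ x = (Φ x - x) ⬝ᵥ (Φ x + x) := by
      rw [sub_dotProduct, dotProduct_add, dotProduct_add, dotProduct_comm x (Φ x)]; ring
    rw [this]
    refine (Eig.abs_dot_le _ _).trans (mul_le_mul (h.cl x) ((nrm_add_le _ _).trans ?_) (nrm_nonneg _) e0)
    linarith [h.nrm_le hx]
  have b3 : |r / 2 * (Φ x ⬝ᵥ Φ x - x ⬝ᵥ x)| ≤ T / 2 * (e * (2 * (ρ + 1))) := by
    rw [abs_mul, abs_of_nonneg (by positivity)]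
    exact mul_le_mul (by linarith) b2 (abs_nonneg _) (by linarith)
  rw [abs_le] at b1 b3
  simp only [ew, ← exp_add, exp_le_exp]
  constructor <;> nlinarith [b1.1, b1.2, b3.1, b3.2]

lemma int_map [IsProbabilityMeasure μ] (hr : ∀ᵐ x ∂μ, nrm x ≤ ρ) (h : Cl e Φ) {F : (ι → ℝ) → ℝ}
    (hF : Continuous F) : Integrable (fun x => F (Φ x)) μ ∧ ∫ y, F y ∂μ.map Φ = ∫ x, F (Φ x) ∂μ :=
  ⟨(integrable_map_measure hF.aestronglyMeasurable h.meas.aemeasurable).1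
    (Lnk10.integrable_cp (h.cp hr) hF), integral_map h.meas.aemeasurable hF.aestronglyMeasurable⟩

lemma cont_ew (r : ℝ) (y : ι → ℝ) : Continuous (ew r y) := by unfold ew; fun_prop

lemma Mf_cl [IsProbabilityMeasure μ] (hr : ∀ᵐ x ∂μ, nrm x ≤ ρ) (h : Cl e Φ) (he : e ≤ 1)
    {r T Y Λ : ℝ} (hr0 : 0 ≤ r) (hrT : r ≤ T) {y : ι → ℝ} (hy : nrm y ≤ Y)
    (hΛ : (Y + T * (ρ + 1)) * e ≤ Λ) :
    Mf r (μ.map Φ) y ≤ exp Λ * Mf r μ y ∧ Mf r μ y ≤ exp Λ * Mf r (μ.map Φ) y := by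
  obtain ⟨i1, e1⟩ := int_map hr h (cont_ew r y)
  have i2 := Lnk10.integrable_cp (cp_of hr) (cont_ew r y)
  simp only [Mf]
  rw [e1, ← integral_const_mul, ← integral_const_mul]
  exact ⟨integral_mono_ae i1 (i2.const_mul _) (hr.mono fun x hx => (ew_cl h he hr0 hrT hx hy hΛ).1),
    integral_mono_ae i2 (i1.const_mul _) (hr.mono fun x hx => (ew_cl h he hr0 hrT hx hy hΛ).2)⟩

lemma cov_cl [IsProbabilityMeasure μ] (hr : ∀ᵐ x ∂μ, nrm x ≤ ρ) (h : Cl e Φ) (he0 : 0 < e)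
    (he : e ≤ 1) {r T Y Λ a : ℝ} (hr0 : 0 ≤ r) (hrT : r ≤ T) {y : ι → ℝ} (hy : nrm y ≤ Y)
    (hΛ : (Y + T * (ρ + 1)) * e ≤ Λ) (hC : CovB (pst r μ y) a) :
    CovB (pst r (μ.map Φ) y) (exp Λ * exp Λ * ((1 + e) * a + 2 * e)) := by
  intro v
  have c1 := cp_of hr
  have c2 := h.cp hr
  have p1 := (cp_pst c1 hr0 y).prob
  have p2 := (cp_pst c2 hr0 y).prob
  have hb := Bs.of_mg (cp_pst c2 hr0 y) (mg_dot v)
  obtain ⟨C, -, hC'⟩ := hb.bd
  refine ⟨MemLp.of_bound hb.meas.aestronglyMeasurable C hC', ?_⟩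
  set m : ℝ := ∫ x, v ⬝ᵥ x ∂pst r μ y with hm
  have h1 : Var[fun x => v ⬝ᵥ x; pst r (μ.map Φ) y] ≤ ∫ x, (v ⬝ᵥ x - m) ^ 2 ∂pst r (μ.map Φ) y := by
    rw [← variance_sub_const hb.meas.aestronglyMeasurable m]
    exact variance_le_expectation_sq (hb.meas.sub_const _).aestronglyMeasurable
  have h2 : ∫ x, (v ⬝ᵥ x - m) ^ 2 ∂pst r μ y ≤ a * (v ⬝ᵥ v) := by
    rw [← variance_eq_integral hb.meas.aemeasurable]
    exact (hC v).2
  have M1 := Mf_pos c1 hr0 y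
  have M2 := Mf_pos c2 hr0 y
  have hv := Eig.dot_self_nonneg v
  rw [int_pst, div_le_iff₀ M1] at h2
  refine h1.trans ?_
  have cF : Continuous fun x : ι → ℝ => (v ⬝ᵥ x - m) ^ 2 * ew r y x :=
    (show Continuous fun x : ι → ℝ => (v ⬝ᵥ x - m) ^ 2 by fun_prop).mul (cont_ew r y)
  obtain ⟨i1, e1⟩ := int_map hr h cF
  have i2 := Lnk10.integrable_cp c1 cF
  have i3 := Lnk10.integrable_cp c1 (cont_ew r y)
  rw [int_pst, div_le_iff₀ M2, e1]
  have h3 : ∫ x, (v ⬝ᵥ Φ x - m) ^ 2 * ew r y (Φ x) ∂μ ≤ ∫ x, exp Λ * ((1 + e) *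
      ((v ⬝ᵥ x - m) ^ 2 * ew r y x) + 2 * e * (v ⬝ᵥ v) * ew r y x) ∂μ := by
    refine integral_mono_ae i1 (((i2.const_mul _).add (i3.const_mul _)).const_mul _)
      (hr.mono fun x hx => ?_)
    have a1 := (ew_cl h he hr0 hrT hx hy hΛ).1
    have a2 : (v ⬝ᵥ (Φ x - x)) ^ 2 ≤ e ^ 2 * (v ⬝ᵥ v) := by
      refine (Eig.dot_sq_le _ _).trans ?_
      rw [mul_comm]
      exact mul_le_mul_of_nonneg_right ((nrm_le_iff he0.le).1 (h.cl x)) hv
    have a3 : (v ⬝ᵥ Φ x - m) ^ 2 ≤ (1 + e) * (v ⬝ᵥ x - m) ^ 2 + 2 * e * (v ⬝ᵥ v) := by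
      have e2 : v ⬝ᵥ Φ x - m = (v ⬝ᵥ x - m) + v ⬝ᵥ (Φ x - x) := by rw [dotProduct_sub]; ring
      rw [e2]
      refine le_of_mul_le_mul_left ?_ he0
      set A := v ⬝ᵥ x - m
      set B := v ⬝ᵥ (Φ x - x)
      have a4 : (1 + e) * B ^ 2 ≤ 2 * (e ^ 2 * (v ⬝ᵥ v)) :=
        mul_le_mul (by linarith) a2 (sq_nonneg _) (by norm_num)
      nlinarith [sq_nonneg (e * A - B)]
    have a5 := ew_pos r y x
    calc (v ⬝ᵥ Φ x - m) ^ 2 * ew r y (Φ x)
        ≤ ((1 + e) * (v ⬝ᵥ x - m) ^ 2 + 2 * e * (v ⬝ᵥ v)) * (exp Λ * ew r y x) :=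
          mul_le_mul a3 a1 (ew_pos _ _ _).le (by positivity)
      _ = _ := by ring
  refine h3.trans ?_
  rw [integral_const_mul, integral_add (i2.const_mul _) (i3.const_mul _), integral_const_mul,
    integral_const_mul]
  have h4 := (Mf_cl hr h he hr0 hrT hy hΛ).2
  have a0 : 0 ≤ a * (v ⬝ᵥ v) := (variance_nonneg _ _).trans (hC v).2
  have h5 : (1 + e) * ∫ x, (v ⬝ᵥ x - m) ^ 2 * ew r y x ∂μ + 2 * e * (v ⬝ᵥ v) * Mf r μ y ≤
      ((1 + e) * (a * (v ⬝ᵥ v)) + 2 * e * (v ⬝ᵥ v)) * (exp Λ * Mf r (μ.map Φ) y) := by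
    refine le_trans ?_ (mul_le_mul_of_nonneg_left h4 (by positivity))
    have := mul_le_mul_of_nonneg_left h2 (show 0 ≤ 1 + e by linarith)
    linarith
  refine (mul_le_mul_of_nonneg_left h5 (exp_pos Λ).le).trans (le_of_eq ?_)
  ring

/-- second moment of the output -/
lemma out_sq {ν : Measure (ι → ℝ)} (hν : Cp ν) {R r : ℝ} (hR : ∀ᵐ x ∂ν, x ⬝ᵥ x ≤ R) (hr : 0 ≤ r) :
    MG (fun y => Mf r ν y * (y ⬝ᵥ y)) ∧
      IK r (fun y => Mf r ν y * (y ⬝ᵥ y)) ≤ r ^ 2 * R + r * Fintype.card ι := by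
  have := hν.prob
  have g : ∀ i ∈ (univ : Finset ι), MG fun y : ι → ℝ =>
      Mf r ν y * (Pi.single i 1 ⬝ᵥ y - r * (Pi.single i 1 ⬝ᵥ (0 : ι → ℝ))) ^ 2 := fun i _ =>
    (mg_Mf hν hr).mul (mg_sq (mg_f r _ _))
  have e : (fun y => Mf r ν y * (y ⬝ᵥ y)) = fun y => ∑ i,
      Mf r ν y * (Pi.single i 1 ⬝ᵥ y - r * (Pi.single i 1 ⬝ᵥ (0 : ι → ℝ))) ^ 2 := by
    funext y
    simp only [single_dotProduct, one_mul, dotProduct_zero, mul_zero, sub_zero]
    rw [dotProduct, mul_sum]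
    simp only [sq]
  rw [e]
  refine ⟨MG.sum univ g, ?_⟩
  rw [IK_sum _ g]
  simp only [out2 hν hr]
  simp only [single_dotProduct, one_mul, sub_zero, Pi.single_eq_same, mul_one,
    sum_add_distrib, sum_const, card_univ, nsmul_eq_mul, ← mul_sum]
  rw [← integral_finsetSum _ fun i _ => Lnk10.integrable_cp hν (by fun_prop), mul_comm _ r]
  refine add_le_add (mul_le_mul_of_nonneg_left ?_ (sq_nonneg r)) le_rfl
  have := integral_mono_ae (Lnk10.integrable_cp hν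
    (show Continuous fun x : ι → ℝ => ∑ i, x i ^ 2 by fun_prop)) (integrable_const R)
    (hR.mono fun x hx => by simpa only [dotProduct, sq] using hx)
  simpa using this

lemma law_cl [IsProbabilityMeasure μ] (hr : ∀ᵐ x ∂μ, nrm x ≤ ρ) (h : Cl e Φ) (he : e ≤ 1)
    {r T Y Λ p R : ℝ} (hr0 : 0 ≤ r) (hrT : r ≤ T) (hY : 0 < Y) (hΛ : (Y + T * (ρ + 1)) * e ≤ Λ)
    (hR : ∀ᵐ x ∂μ.map Φ, x ⬝ᵥ x ≤ R) (hp : 0 ≤ p) {A : Set (ι → ℝ)} (hA : MeasurableSet A)
    (hB : MeasurableSet {y : ι → ℝ | Y < nrm y}) (hAp : lawY r μ A ≤ ENNReal.ofReal p) :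
    lawY r (μ.map Φ) (A ∪ {y | Y < nrm y}) ≤
      ENNReal.ofReal (exp Λ * p + (Y ^ 2)⁻¹ * (r ^ 2 * R + r * Fintype.card ι)) := by
  have c1 := cp_of hr
  have c2 := h.cp hr
  rw [lawY_eq c1 hr0 hA, ENNReal.ofReal_le_ofReal_iff hp] at hAp
  rw [lawY_eq c2 hr0 (hA.union hB)]
  refine ENNReal.ofReal_le_ofReal ?_
  obtain ⟨g2, b2⟩ := out_sq c2 hR hr0
  have g1 := ((mg_Mf c1 hr0).mul (mg_ind hA)).const_mul (exp Λ)
  have h1 : PY r (μ.map Φ) (A ∪ {y | Y < nrm y}) ≤ IK r fun y =>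
      exp Λ * (Mf r μ y * A.indicator (fun _ => (1 : ℝ)) y) +
        (Y ^ 2)⁻¹ * (Mf r (μ.map Φ) y * (y ⬝ᵥ y)) := by
    refine IK_mono ((mg_Mf c2 hr0).mul (mg_ind (hA.union hB))) (g1.add (g2.const_mul _)) fun y => ?_
    have p1 := Mf_pos c1 hr0 y
    have p2 := Mf_pos c2 hr0 y
    have q0 := Eig.dot_self_nonneg y
    have q1 : 0 ≤ exp Λ * (Mf r μ y * A.indicator (fun _ => (1 : ℝ)) y) :=
      mul_nonneg (exp_pos _).le (mul_nonneg p1.le (Set.indicator_nonneg (fun _ _ => zero_le_one) _))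
    have q2 : 0 ≤ (Y ^ 2)⁻¹ * (Mf r (μ.map Φ) y * (y ⬝ᵥ y)) := by positivity
    by_cases hyB : Y < nrm y
    · rw [Set.indicator_of_mem (show y ∈ A ∪ {y | Y < nrm y} from Or.inr hyB), mul_one]
      have : Y ^ 2 ≤ y ⬝ᵥ y := by rw [← nrm_sq]; exact pow_le_pow_left₀ hY.le hyB.le 2
      have : Mf r (μ.map Φ) y ≤ (Y ^ 2)⁻¹ * (Mf r (μ.map Φ) y * (y ⬝ᵥ y)) := by
        rw [← div_eq_inv_mul, le_div_iff₀ (by positivity)]
        exact mul_le_mul_of_nonneg_left this p2.le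
      linarith
    by_cases hyA : y ∈ A
    · rw [Set.indicator_of_mem (Set.mem_union_left _ hyA), Set.indicator_of_mem hyA, mul_one,
        mul_one]
      linarith [(Mf_cl hr h he hr0 hrT (not_lt.1 hyB) hΛ).1]
    · rw [Set.indicator_of_notMem (fun h => h.elim hyA hyB), mul_zero]
      linarith
  rw [IK_add g1 (g2.const_mul _), IK_const_mul, IK_const_mul] at h1
  exact h1.trans (add_le_add (mul_le_mul_of_nonneg_left hAp (exp_pos _).le)
    (mul_le_mul_of_nonneg_left b2 (by positivity)))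

end Grid49

open Grid49

theorem gridL : GridL := by
  intro ι _ μ ϱ T s hμ hϱ hT hs
  classical
  have ϱ0 : 0 ≤ ϱ := by
    obtain ⟨x, hx⟩ := hϱ.exists
    exact (Eig.dot_self_nonneg x).trans hx
  set ρ : ℝ := √ϱ with hρ
  have ρ0 : 0 ≤ ρ := sqrt_nonneg _
  have ρ2 : ρ ^ 2 = ϱ := sq_sqrt ϱ0
  have hr : ∀ᵐ x ∂μ, nrm x ≤ ρ := hϱ.mono fun x hx => sqrt_le_sqrt hx
  set Q : ℝ := T ^ 2 * (ϱ + 1) + T * Fintype.card ι with hQ
  have Q0 : 0 ≤ Q := by positivity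
  set Y : ℝ := Q / s + 1 with hY
  have Y1 : 1 ≤ Y := le_add_of_nonneg_left (by positivity)
  set c : ℝ := T * (4 * (ρ + 1)) + (Y + T * (ρ + 1)) with hc
  have lim : ∀ {f : ℝ → ℝ} {b : ℝ}, Continuous f → f 0 < b → ∀ᶠ e in 𝓝[>] (0 : ℝ), f e < b :=
    fun hf hb => (hf.continuousAt.eventually_lt continuousAt_const hb).filter_mono nhdsWithin_le_nhds
  obtain ⟨e, ⟨⟨⟨e1, e2⟩, e3⟩, e4⟩, e0⟩ := ((((lim (f := fun e => 2 * ρ * e + e ^ 2 + e) (b := 1)
    (by fun_prop) (by simp)).and (lim (f := fun e => exp (c * e)) (b := 2) (by fun_prop)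
    (by simp))).and (lim (f := fun e => 3 * (exp (c * e) - 1) * exp (T * ρ ^ 2)) (b := s)
    (by fun_prop) (by simpa using hs))).and (lim (f := fun e => (exp (c * e) * exp (c * e) *
      (1 + e) - 1) * T + exp (c * e) * exp (c * e) * (2 * e)) (b := s) (by fun_prop)
    (by simpa using hs))).and self_mem_nhdsWithin |>.exists
  have e0' : 0 < e := e0
  have he : e ≤ 1 := by nlinarith [mul_nonneg ρ0 e0'.le]
  have hΛ1 : T * (4 * (ρ + 1) * e) ≤ c * e := by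
    have : 0 ≤ (Y + T * (ρ + 1)) * e := by positivity
    rw [hc]; linarith
  have hΛ2 : (Y + T * (ρ + 1)) * e ≤ c * e := by
    have : 0 ≤ T * (4 * (ρ + 1)) * e := by positivity
    rw [hc]; linarith
  have E1 : 1 ≤ exp (c * e) := one_le_exp (by positivity)
  obtain ⟨Φ, F, hΦ, hF⟩ := exists_grid (ι := ι) e0' ρ
  have := Measure.isProbabilityMeasure_map (μ := μ) hΦ.meas.aemeasurable
  obtain ⟨N, w, φ, hw, hφ, hd⟩ := fin_supp (μ.map Φ) F
    ((ae_map_iff hΦ.meas.aemeasurable F.measurableSet).2 (hr.mono hF))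
  have hR : ∀ᵐ x ∂μ.map Φ, x ⬝ᵥ x ≤ ϱ + 1 := (hΦ.ae hr).mono fun x hx => by
    have := (nrm_le_iff (by positivity)).1 hx
    nlinarith
  refine ⟨N, w, φ, hw, fun i => ?_, fun θ hθ => ?_, fun r a p hr0 hrT ha haT hp ⟨A, hA, hAp, hAc⟩ => ?_⟩
  · by_contra hcon
    refine hφ i (measure_mono_null ?_ (ae_iff.1 hR))
    rintro _ rfl
    exact hcon
  · rw [hd]
    have i0 := cl_id (ι := ι) e0'.le
    have x1 := xk_le hr he hΦ hΦ i0 i0 hθ hΛ1
    have x2 := xk_le hr he i0 i0 i0 hΦ hθ hΛ1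
    rw [Measure.map_id] at x1 x2
    obtain ⟨x3, x4⟩ := xk_bd hr hθ
    refine ⟨x1.trans (mul_le_mul_of_nonneg_right e2.le x3), ?_⟩
    have x5 : (2 - exp (c * e)) * Xk θ μ μ ≤ Xk θ μ (μ.map Φ) := by
      refine le_of_mul_le_mul_left (le_trans ?_ x2) (exp_pos (c * e))
      nlinarith [mul_nonneg x3 (sq_nonneg (exp (c * e) - 1))]
    have x6 := mul_le_mul_of_nonneg_left x4 (show 0 ≤ 3 * (exp (c * e) - 1) by linarith)
    rw [D2]
    linarith
  · rw [hd]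
    have hB : MeasurableSet {y : ι → ℝ | Y < nrm y} :=
      measurableSet_lt measurable_const Eig.continuous_nrm.measurable
    refine ⟨A ∪ {y | Y < nrm y}, hA.union hB, ?_, fun y hy v => ?_⟩
    · refine (law_cl hr hΦ he hr0.le hrT (by linarith) hΛ2 hR hp hA hB hAp).trans
        (ENNReal.ofReal_le_ofReal (add_le_add (mul_le_mul_of_nonneg_right e2.le hp) ?_))
      have q1 : r ^ 2 * (ϱ + 1) + r * Fintype.card ι ≤ Q := by rw [hQ]; gcongr
      rw [← div_eq_inv_mul, div_le_iff₀ (by positivity)]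
      have q2 : s * Y = Q + s := by rw [hY]; field_simp
      nlinarith [mul_le_mul_of_nonneg_left Y1 (show 0 ≤ s * Y by positivity)]
    · obtain ⟨m, hv⟩ := cov_cl hr hΦ e0' he hr0.le hrT (not_lt.1 fun h => hy (Or.inr h)) hΛ2
        (hAc y fun h => hy (Or.inl h)) v
      refine ⟨m, hv.trans (mul_le_mul_of_nonneg_right ?_ (Eig.dot_self_nonneg v))⟩
      have q1 : 1 ≤ exp (c * e) * exp (c * e) * (1 + e) :=
        one_le_mul_of_one_le_of_one_le (one_le_mul_of_one_le_of_one_le E1 E1) (by linarith)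
      have q2 := mul_le_mul_of_nonneg_left haT (sub_nonneg.2 q1)
      linarith

end Crest.Agent.T157.Cq.Dc

end
end

-- ▼ part T157/CqDiscMgf_31
section

/-!
# Row 157, part C (helper31): exponential moments of the overlap of the soft sphere
-/

set_option autoImplicit false

noncomputable section

namespace Crest.Agent.T157.Cq.Dc

open MeasureTheory ProbabilityTheory Matrix Filter Topology Finset Real
open scoped ENNReal
open Crest.Agent.T157.E Crest.Agent.T157.St Crest.Agent.T157.St.Mgf32 Crest.Agent.T157.Ed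
open Crest.Agent.T157.Sp (piD)
open Crest.Agent.T157.Sp.Dom15

namespace Mgf31

section gen
variable {ι : Type} [Fintype ι]

/-- the normalising constant -/
def Nc (a : ι → ℝ) : ℝ := (√(2 * π))⁻¹ ^ Fintype.card ι * ∏ k, √(a k)

theorem Nc_pos {a : ι → ℝ} (ha : ∀ k, 0 < a k) : 0 < Nc a :=
  mul_pos (by positivity) (prod_pos fun k _ => sqrt_pos.2 (ha k))

theorem den_eq {a : ι → ℝ} (ha : ∀ k, 0 < a k) (b x : ι → ℝ) :
    exp (-(1 / 2) * ∑ k, a k * x k ^ 2 + b ⬝ᵥ x) =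
      exp ((∑ k, 1 / a k * b k ^ 2) / 2) / Nc a *
        Sph38.den (fun k => 1 / a k) (x - fun k => b k / a k) := by
  have h0 := (Nc_pos ha).ne'
  have e : Sph38.den (fun k => 1 / a k) (x - fun k => b k / a k) =
      Nc a * exp (-(1 / 2) * ∑ k, (x k - b k / a k) ^ 2 / (1 / a k)) := by
    simp only [Sph38.den, Nc, one_div, sqrt_inv, inv_inv, Pi.sub_apply]
  rw [e, ← mul_assoc, div_mul_cancel₀ _ h0, ← exp_add]
  congr 1
  rw [dotProduct, mul_sum, mul_sum, sum_div, ← sum_add_distrib, ← sum_add_distrib]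
  refine sum_congr rfl fun k _ => ?_
  have := (ha k).ne'
  field_simp
  ring

/-- the soft shell -/
def bump (κ s : ℝ) (x : ι → ℝ) : ℝ := exp (-(κ / 8) * (x ⬝ᵥ x - s) ^ 2)

theorem cont_bump (κ s : ℝ) : Continuous (bump κ s : (ι → ℝ) → ℝ) := by
  have := Sph38.continuous_dot (ι := ι)
  unfold bump
  fun_prop

theorem bump_le_one {κ : ℝ} (hκ : 0 ≤ κ) (s : ℝ) (x : ι → ℝ) : bump κ s x ≤ 1 :=
  exp_le_one_iff.2 (mul_nonpos_of_nonpos_of_nonneg (neg_nonpos.2 (by positivity)) (sq_nonneg _))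

theorem shift (η : ι → ℝ) (t v : ℝ) {κ : ℝ} (hκ : κ ≠ 0) (x : ι → ℝ) :
    exp (-(1 / 2) * ∑ k, η k * x k ^ 2 - κ / 8 * (x ⬝ᵥ x - t) ^ 2) =
      exp (v * t / 2 + v ^ 2 / (2 * κ)) *
        (exp (-(1 / 2) * ∑ k, (v + η k) * x k ^ 2) * bump κ (t + 2 * v / κ) x) := by
  have h1 : ∑ k, (v + η k) * x k ^ 2 = v * (x ⬝ᵥ x) + ∑ k, η k * x k ^ 2 := by
    rw [dotProduct, mul_sum, ← sum_add_distrib]
    exact sum_congr rfl fun k _ => by ring
  rw [bump, ← exp_add, ← exp_add, h1]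
  congr 1
  field_simp
  ring

variable [DecidableEq ι]

theorem bump_gs (m : ι → ℝ) {a : ι → ℝ} (ha : ∀ k, 0 < a k) {i j : ι} (hij : i ≠ j) {M : ℝ}
    (hM : √(a i * a j) ≤ M) {ε : ℝ} (hε : 0 < ε) (s : ℝ) :
    ∫⁻ x, ENNReal.ofReal (bump (ε ^ 2)⁻¹ s x) ∂gs m (fun k => 1 / a k) ≤
      ENNReal.ofReal ((∑' m, wt m) * M * ε) := by
  have hM0 : 0 ≤ M := (sqrt_nonneg _).trans hM
  calc _ ≤ ∫⁻ x, ∑' l : ℕ, ENNReal.ofReal (exp 2 * exp (-1) ^ l) *
          (shell (s - (l + 1) * ε) (2 * (l + 1) * ε)).indicator 1 x ∂gs m fun k => 1 / a k :=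
        lintegral_mono fun x => (mul_one _).symm.trans_le (bump_le hε s x 1)
    _ = ∑' l : ℕ, ENNReal.ofReal (exp 2 * exp (-1) ^ l) *
          gs m (fun k => 1 / a k) (shell (s - (l + 1) * ε) (2 * (l + 1) * ε)) := by
        rw [lintegral_tsum fun l =>
          ((measurable_one.indicator (meas_shell _ _)).const_mul _).aemeasurable]
        refine tsum_congr fun l => ?_
        rw [lintegral_const_mul _ (measurable_one.indicator (meas_shell _ _)),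
          lintegral_indicator_one (meas_shell _ _)]
    _ ≤ ∑' l : ℕ, ENNReal.ofReal (wt l * M * ε) := by
        refine ENNReal.tsum_le_tsum fun l => ?_
        have h := shell_le twoStmt m ha hij (s - (l + 1) * ε) (ε := 2 * (l + 1) * ε)
          (by positivity)
        rw [← ENNReal.ofReal_toReal (measure_ne_top (gs m fun k => 1 / a k) _),
          ← ENNReal.ofReal_mul (by positivity)]
        refine ENNReal.ofReal_le_ofReal ((mul_le_mul_of_nonneg_left h (by positivity)).trans ?_)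
        calc exp 2 * exp (-1) ^ l * (√(a i * a j) / 2 * (2 * (l + 1) * ε))
            = wt l * √(a i * a j) * ε := by unfold wt; ring
          _ ≤ _ := by have := wt_nonneg l; gcongr
    _ = _ := by
        rw [← ENNReal.ofReal_tsum_of_nonneg (fun m => by have := wt_nonneg m; positivity)
          ((wt_summable.mul_right M).mul_right ε), tsum_mul_right, tsum_mul_right]

theorem I_le {a : ι → ℝ} (ha : ∀ k, 0 < a k) (b : ι → ℝ) {i j : ι} (hij : i ≠ j) {M : ℝ}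
    (hM : √(a i * a j) ≤ M) {ε : ℝ} (hε : 0 < ε) (s : ℝ) {c : ℝ} (hc : 0 ≤ c) :
    ∫⁻ x, ENNReal.ofReal (c * (exp (-(1 / 2) * ∑ k, a k * x k ^ 2 + b ⬝ᵥ x) *
      bump (ε ^ 2)⁻¹ s x)) ≤ ENNReal.ofReal (c * (exp ((∑ k, 1 / a k * b k ^ 2) / 2) / Nc a) *
        ((∑' m, wt m) * M * ε)) := by
  have h0 := Nc_pos ha
  have h := bump_gs (fun k => b k / a k) ha hij hM hε s
  have hd : Measurable fun x : ι → ℝ =>
      ENNReal.ofReal (Sph38.den (fun k => 1 / a k) (x - fun k => b k / a k)) :=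
    ((Sph38.continuous_den _).comp (continuous_id.sub continuous_const)).measurable.ennreal_ofReal
  rw [Sph38.gs_eq' _ fun k => one_div_pos.2 (ha k), lintegral_withDensity_eq_lintegral_mul _ hd
    (cont_bump _ _).measurable.ennreal_ofReal] at h
  rw [ENNReal.ofReal_mul (by positivity)]
  refine le_trans (le_of_eq ?_) (mul_le_mul_right h _)
  rw [← lintegral_const_mul' _ _ ENNReal.ofReal_ne_top]
  refine lintegral_congr fun x => ?_
  simp only [Pi.mul_apply]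
  rw [← ENNReal.ofReal_mul (Sph38.den_nonneg _ _), ← ENNReal.ofReal_mul (by positivity),
    den_eq ha]
  congr 1
  ring

end gen

theorem prod_le {n : ℕ} {η : ℕ → ℝ} {w u : ℝ} (h0 : ∀ k : Fin n, 0 < w + η k)
    (h1 : ∀ k : Fin n, 0 < w + u + η k) (h2 : ∀ k : Fin n, 0 < w + 2 * u + η k) :
    Nc (fun k : Fin n => w + η k) / Nc (fun k : Fin n => w + u + η k) *
      (Nc (fun k : Fin n => w + η k) /
        Nc fun k : Fin n => (w + η k) * (w + 2 * u + η k) / (w + u + η k)) ≤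
      exp (-(u * ∑ k ∈ range n, 1 / (w + 2 * u + η k))) := by
  have hK : (√(2 * π))⁻¹ ^ Fintype.card (Fin n) ≠ 0 := by positivity
  rw [Nc, Nc, Nc, mul_div_mul_left _ _ hK, mul_div_mul_left _ _ hK, ← prod_div_distrib,
    ← prod_div_distrib, ← prod_mul_distrib,
    ← Fin.sum_univ_eq_sum_range (fun k => 1 / (w + 2 * u + η k)), mul_sum, ← sum_neg_distrib,
    exp_sum]
  refine prod_le_prod (fun k _ => by positivity) fun k _ => ?_
  refine (sq_le_sq₀ (by positivity) (exp_pos _).le).1 ?_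
  have k0 := h0 k
  have k1 := h1 k
  have k2 := h2 k
  rw [mul_pow, div_pow, div_pow, sq_sqrt k0.le, sq_sqrt k1.le, sq_sqrt (by positivity),
    ← exp_nat_mul]
  refine le_trans (le_of_eq ?_) (add_one_le_exp _)
  push_cast
  generalize η k = y at k0 k1 k2
  obtain ⟨z, rfl⟩ : ∃ z, y = z - (w + 2 * u) := ⟨y + (w + 2 * u), by ring⟩
  have k3 : z ≠ 0 := by linarith [k2.ne']
  have e1 : w + (z - (w + 2 * u)) = z - 2 * u := by ring
  have e2 : w + u + (z - (w + 2 * u)) = z - u := by ring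
  have e3 : w + 2 * u + (z - (w + 2 * u)) = z := by ring
  rw [e1] at k0; rw [e2] at k1
  rw [e1, e2, e3]
  have := k0.ne'
  have := k1.ne'
  field_simp; ring

theorem extra {w u κ : ℝ} (hw : 0 ≤ w) (hu : 0 ≤ u) (hκ : 1 ≤ κ) (h : u ≤ κ ^ 2) :
    (2 * w * u + u ^ 2) / κ ≤ 2 * w + (2 * w + 1) * u ^ (3 / 2 : ℝ) := by
  have hs := sqrt_nonneg u
  have hss := mul_self_sqrt hu
  have hp' : u ^ (3 / 2 : ℝ) = u * √u := by
    rw [show (3 / 2 : ℝ) = 1 + 1 / 2 by norm_num, rpow_add' hu (by norm_num), rpow_one,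
      sqrt_eq_rpow]
  have h1 : u ≤ 1 + u * √u := by
    rcases le_total u 1 with h | h
    · nlinarith [mul_nonneg hu hs]
    · nlinarith [one_le_sqrt.2 h]
  have h2 : √u ≤ κ := sqrt_le_iff.2 ⟨by linarith, h⟩
  have h3 : u ^ 2 / κ ≤ u * √u := by
    rw [div_le_iff₀ (by linarith)]
    calc u ^ 2 = u * √u * √u := by rw [mul_assoc, hss, sq]
      _ ≤ _ := by gcongr
  have h4 : 2 * w * u / κ ≤ 2 * w * (1 + u * √u) :=
    (div_le_self (by positivity) hκ).trans (by gcongr)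
  rw [add_div, hp']
  linarith

end Mgf31

open Mgf31

theorem mgfL : MgfL := by
  intro L C hL
  obtain ⟨w₂, hw₂, H⟩ := denStmt L C 0 0 hL
  refine ⟨w₂, fun w hw => ?_⟩
  obtain ⟨δ, hδ, H⟩ := H w hw
  set M := w + (180 + L) with hMd
  have hw0 : 0 < w := by linarith
  have hM : 0 < M := by linarith
  set Z := ∑' m, wt m with hZ
  have hZ0 : 0 ≤ Z := tsum_nonneg wt_nonneg
  set e0 := exp (-((1 + 2 * w) ^ 2 / 8)) with he0
  have he0' : 0 < e0 := exp_pos _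
  set δ' := e0 * δ / (2 * (Z + 1)) with hδ'
  have hδ0 : 0 < δ' := by positivity
  set A := (M + 2) ^ 2 / (4 * δ' ^ 2) * exp (2 + |C| * √w + 2 * |C|) + (2 + |C| * √w + 2 * |C|)
    with hA
  have hA0 : 0 ≤ A := by positivity
  have hA1 : 0 ≤ A * exp (2 * w) := by positivity
  refine ⟨A * exp (2 * w) + A + 2 * w + 1, by linarith, ?_⟩
  filter_upwards [H, eventually_ge_atTop 24] with n H hn η G
  set t := sx n ^ 2 with ht
  set κ := (n : ℝ) ^ 2 with hκd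
  have n1 : (1 : ℝ) ≤ n := by exact_mod_cast (by omega : 1 ≤ n)
  have hκ : 1 ≤ κ := one_le_pow₀ n1
  have hκ0 : 0 < κ := by linarith
  set ε := (n : ℝ)⁻¹ with hεd
  have hε : 0 < ε := by positivity
  have hε1 : ε ≤ 1 := inv_le_one_of_one_le₀ n1
  have hε2 : (ε ^ 2)⁻¹ = κ := by rw [hεd, inv_pow, inv_inv]
  have hw' := hw₂.trans hw
  have h0 := a_pos G hL hw' le_rfl
  have hc : ∀ k, 0 < cw n η w k := fun k => one_div_pos.2 (h0 k)
  let f : (Fin n → ℝ) → ℝ := fun x =>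
    -(1 / 2) * ∑ k : Fin n, η k * x k ^ 2 - κ / 8 * (x ⬝ᵥ x - t) ^ 2
  have hdot := Sph38.continuous_dot (ι := Fin n)
  have hf : Continuous f := by fun_prop
  have hg0 : Integrable fun x : Fin n → ℝ => exp (-(1 / 2) * ∑ k : Fin n, (w + η k) * x k ^ 2) := by
    refine (gs_tilted hc).1.congr (ae_of_all _ fun x => ?_)
    simp only [cw, div_div_eq_mul_div, div_one, mul_comm (x _ ^ 2)]
  have hfi : Integrable fun x => exp (f x) := by
    refine (hg0.const_mul (exp (w * t / 2 + w ^ 2 / (2 * κ)))).mono' (by fun_prop)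
      (ae_of_all _ fun x => ?_)
    rw [Real.norm_of_nonneg (exp_pos _).le, shift (fun k : Fin n => η k) t w hκ0.ne']
    exact mul_le_mul_of_nonneg_left (mul_le_of_le_one_right (exp_pos _).le
      (bump_le_one hκ0.le _ _)) (exp_pos _).le
  have hpi : piS n η = volume.tilted f := rfl
  refine ⟨isProbabilityMeasure_tilted hfi, ?_, fun θ hθ => ?_⟩
  · rw [hpi, integrable_tilted_iff hfi]
    refine (hg0.const_mul (24 * exp ((w + 2) * t / 2 + (w + 2) ^ 2 / (2 * κ)))).mono'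
      (by fun_prop) (ae_of_all _ fun x => ?_)
    have q0 : 0 ≤ x ⬝ᵥ x := sum_nonneg fun k _ => mul_self_nonneg _
    have h1 := pow_div_factorial_le_exp _ q0 4
    have h2 : exp (-(1 / 2) * ∑ k : Fin n, (w + 2 + η k) * x k ^ 2) * exp (x ⬝ᵥ x) =
        exp (-(1 / 2) * ∑ k : Fin n, (w + η k) * x k ^ 2) := by
      rw [← exp_add, dotProduct, mul_sum, mul_sum, ← sum_add_distrib]
      exact congrArg _ (sum_congr rfl fun k _ => by ring)
    rw [smul_eq_mul, Real.norm_of_nonneg (by positivity),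
      shift (fun k : Fin n => η k) t (w + 2) hκ0.ne', ← h2]
    have h3 : (x ⬝ᵥ x) ^ 4 ≤ 24 * exp (x ⬝ᵥ x) := by
      rw [div_le_iff₀ (by positivity)] at h1
      norm_num [Nat.factorial] at h1
      linarith
    have h4 := bump_le_one hκ0.le (t + 2 * (w + 2) / κ) x
    calc _ ≤ exp ((w + 2) * t / 2 + (w + 2) ^ 2 / (2 * κ)) *
          (exp (-(1 / 2) * ∑ k : Fin n, (w + 2 + η k) * x k ^ 2) * 1) * (24 * exp (x ⬝ᵥ x)) := by
          gcongr
      _ = _ := by ring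
  set u := |θ| with hu
  have hu0 : 0 ≤ u := abs_nonneg θ
  have h1 := a_pos G hL hw' (v := w + u) (by linarith)
  have h2 := a_pos G hL hw' (v := w + 2 * u) (by linarith)
  obtain ⟨i, j, hij, -, -, hi2, hj2⟩ := exists_two hn ⟨0, by omega⟩
  let a' : Fin n → ℝ := fun k => (w + η k) * (w + 2 * u + η k) / (w + u + η k)
  have h3 : ∀ k, 0 < a' k := fun k => div_pos (mul_pos (h0 k) (h2 k)) (h1 k)
  have hi := eta_le G hn hi2
  have hj := eta_le G hn hj2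
  have b1 : ∀ k : Fin n, η k ≤ 180 + L → a' k ≤ M + 2 * u := fun k hk => by
    refine (div_le_iff₀ (h1 k)).2 ?_
    rw [mul_comm]
    exact mul_le_mul (by linarith) (by linarith) (h0 k).le (by linarith)
  have c1 := sqrt_mul_le (M := M + 2 * u) (a := w + u + η i) (h1 j).le (by linarith) (by linarith)
  have c2 := sqrt_mul_le (h3 j).le (b1 i hi) (b1 j hj)
  set P0 := Nc fun k : Fin n => w + η k with hP0
  set P1 := Nc fun k : Fin n => w + u + η k with hP1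
  set P' := Nc a' with hP'
  have p0 : 0 < P0 := Nc_pos h0
  have p1 : 0 < P1 := Nc_pos h1
  have p' : 0 < P' := Nc_pos h3
  set Ew := exp (w * t / 2 + w ^ 2 / (2 * κ)) with hEw
  set Ev := exp ((w + u) * t / 2 + (w + u) ^ 2 / (2 * κ)) with hEv
  have ew : 0 < Ew := exp_pos _
  have ev : 0 < Ev := exp_pos _
  have hbi : Integrable (bump κ (t + 2 * w / κ)) (gs 0 (cw n η w)) :=
    Integrable.of_bound (cont_bump _ _).aestronglyMeasurable 1 (ae_of_all _ fun x =>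
      (Real.norm_of_nonneg (exp_pos _).le).trans_le (bump_le_one hκ0.le _ x))
  have hZl : e0 * δ * ε ≤ ∫ x, bump κ (t + 2 * w / κ) x ∂gs 0 (cw n η w) := by
    calc e0 * δ * ε ≤ e0 * (gs 0 (cw n η w)).real (shell t ε) := by
          rw [mul_assoc]; exact mul_le_mul_of_nonneg_left (H η t G ε hε hε1).1 he0'.le
      _ = ∫ _x in shell t ε, e0 ∂gs 0 (cw n η w) := by
          rw [setIntegral_const, smul_eq_mul, mul_comm]
      _ ≤ ∫ x in shell t ε, bump κ (t + 2 * w / κ) x ∂gs 0 (cw n η w) := by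
          refine setIntegral_mono_on (integrable_const _).integrableOn hbi.integrableOn
            (meas_shell _ _) fun x hx => exp_le_exp.2 ?_
          obtain ⟨h1, h2⟩ := hx
          have h3 : 2 * w / κ ≤ 2 * w * ε := by
            rw [← hε2, div_inv_eq_mul]
            exact mul_le_mul_of_nonneg_left (by nlinarith) (by positivity)
          have h4 : 0 ≤ 2 * w / κ := by positivity
          have h5 : (x ⬝ᵥ x - (t + 2 * w / κ)) ^ 2 ≤ ((1 + 2 * w) * ε) ^ 2 := by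
            apply sq_le_sq'
            · nlinarith
            · nlinarith [mul_pos hw0 hε]
          have h6 : κ * ((1 + 2 * w) * ε) ^ 2 = (1 + 2 * w) ^ 2 := by
            rw [← hε2]; field_simp
          have h7 := mul_le_mul_of_nonneg_left h5 hκ0.le
          linarith
      _ ≤ _ := setIntegral_le_integral hbi (ae_of_all _ fun x => (exp_pos _).le)
  set N := ∫ x, exp (f x) with hN
  have hNl : Ew / P0 * (e0 * δ * ε) ≤ N := by
    refine (mul_le_mul_of_nonneg_left hZl (by positivity)).trans (le_of_eq ?_)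
    rw [Sph38.integral_gs hc, ← integral_const_mul]
    refine integral_congr_ae (ae_of_all _ fun x => ?_)
    have e := den_eq h0 0 x
    simp only [zero_dotProduct, add_zero, Pi.zero_apply, zero_div] at e
    have e' : (x - fun _ => 0) = x := sub_zero x
    rw [e'] at e
    simp only [f]
    rw [shift (fun k : Fin n => η k) t w hκ0.ne', e]
    simp only [ne_eq, OfNat.ofNat_ne_zero, not_false_eq_true, zero_pow, mul_zero, sum_const_zero,
      zero_div, Real.exp_zero]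
    change _ * (Sph38.den (fun k : Fin n => 1 / (w + η k)) x * _) = _
    ring
  have N0 : 0 < N := lt_of_lt_of_le (by positivity) hNl
  set S := Z * (M + 2 * u) * ε with hS
  have S0 : 0 ≤ S := by positivity
  let g : (Fin n → ℝ) → ℝ := fun x => exp ((∑ k : Fin n, 1 / (w + u + η k) * (θ * x k) ^ 2) / 2)
  have inner : ∀ x, ∫⁻ x', ENNReal.ofReal (exp (θ * (x ⬝ᵥ x'))) ∂piS n η ≤
      ENNReal.ofReal (Ev / N * (g x / P1) * S) := fun x => by
    have h4 := I_le h1 (θ • x) hij c1 hε (t + 2 * (w + u) / κ) (c := Ev / N) (by positivity)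
    rw [hε2] at h4
    rw [hpi, lintegral_tilted]
    refine le_trans (le_of_eq (lintegral_congr fun x' => ?_)) h4
    rw [← ENNReal.ofReal_mul (by positivity), ← hN]
    simp only [f]
    rw [shift (fun k : Fin n => η k) t (w + u) hκ0.ne', exp_add _ ((θ • x) ⬝ᵥ x'),
      smul_dotProduct, smul_eq_mul]
    congr 1
    ring
  have outer : ∫⁻ x, ENNReal.ofReal (Ev / N * (g x / P1) * S) ∂piS n η ≤
      ENNReal.ofReal (Ev / N * (S / P1) * (Ev / N) * (1 / P') * S) := by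
    have h4 := I_le h3 0 hij c2 hε (t + 2 * (w + u) / κ) (c := Ev / N * (S / P1) * (Ev / N))
      (by positivity)
    rw [hε2] at h4
    simp only [zero_dotProduct, add_zero, Pi.zero_apply, ne_eq, OfNat.ofNat_ne_zero,
      not_false_eq_true, zero_pow, mul_zero, sum_const_zero, zero_div, Real.exp_zero] at h4
    rw [hpi, lintegral_tilted]
    refine le_trans (le_of_eq (lintegral_congr fun x => ?_)) h4
    rw [← ENNReal.ofReal_mul (by positivity), ← hN]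
    simp only [f]
    have h5 : exp (-(1 / 2) * ∑ k : Fin n, (w + u + η k) * x k ^ 2) * g x =
        exp (-(1 / 2) * ∑ k, a' k * x k ^ 2) := by
      simp only [g]
      rw [← exp_add, sum_div, mul_sum, mul_sum, ← sum_add_distrib]
      refine congrArg exp (sum_congr rfl fun k _ => ?_)
      have := (h1 k).ne'
      simp only [a']
      rw [mul_pow, ← sq_abs θ, ← hu]
      field_simp; ring
    rw [shift (fun k : Fin n => η k) t (w + u) hκ0.ne', ← h5]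
    congr 1
    ring
  refine ((lintegral_mono inner).trans outer).trans (ENNReal.ofReal_le_ofReal ?_)
  have hPP : P0 / P1 * (P0 / P') ≤ _ := prod_le h0 h1 h2
  have hdn := G.dn (w + 2 * u) (by linarith)
  have hex := extra hw0.le hu0 hκ (hθ.trans_eq (by rw [hκd]; ring))
  have hfin : _ ≤ A * exp (A * u ^ (3 / 2 : ℝ)) := final_bd (C := C) hM.le hδ0 hw0.le hu0
  have hE : (Ev / Ew) ^ 2 = exp (u * t) * exp ((2 * w * u + u ^ 2) / κ) := by
    rw [hEv, hEw, ← exp_sub, ← exp_nat_mul, ← exp_add]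
    congr 1
    push_cast
    field_simp
    ring
  have hS1 : S / (e0 * δ * ε) ≤ (M + 2 * u) / (2 * δ') := by
    have e : (M + 2 * u) / (2 * δ') = (Z + 1) * (M + 2 * u) * ε / (e0 * δ * ε) := by
      rw [hδ']; field_simp
    rw [e, hS]
    gcongr
    linarith
  have p0' : 0 ≤ u ^ (3 / 2 : ℝ) := by positivity
  calc Ev / N * (S / P1) * (Ev / N) * (1 / P') * S
      ≤ Ev / (Ew / P0 * (e0 * δ * ε)) * (S / P1) * (Ev / (Ew / P0 * (e0 * δ * ε))) * (1 / P') *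
        S := by gcongr
    _ = (S / (e0 * δ * ε)) ^ 2 * ((Ev / Ew) ^ 2 * (P0 / P1 * (P0 / P'))) := by field_simp
    _ ≤ ((M + 2 * u) / (2 * δ')) ^ 2 * (exp (u * t) * exp ((2 * w * u + u ^ 2) / κ) *
          exp (-(u * ∑ k ∈ range n, 1 / (w + 2 * u + η k)))) := by rw [hE]; gcongr
    _ = (M + 2 * u) ^ 2 / (4 * δ' ^ 2) *
          exp (u * t + -(u * ∑ k ∈ range n, 1 / (w + 2 * u + η k))) *
          exp ((2 * w * u + u ^ 2) / κ) := by rw [exp_add]; ring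
    _ ≤ (M + 2 * u) ^ 2 / (4 * δ' ^ 2) * exp (u * (C * √(w + 2 * u))) *
          exp (2 * w + (2 * w + 1) * u ^ (3 / 2 : ℝ)) := by
        gcongr
        unfold Sr at hdn
        nlinarith [mul_le_mul_of_nonneg_left hdn hu0]
    _ ≤ A * exp (A * u ^ (3 / 2 : ℝ)) * exp (2 * w + (2 * w + 1) * u ^ (3 / 2 : ℝ)) := by gcongr
    _ = A * exp (2 * w) * exp ((A + 2 * w + 1) * u ^ (3 / 2 : ℝ)) := by
        rw [mul_assoc, mul_assoc, ← exp_add, ← exp_add]; congr 2; ring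
    _ ≤ _ := by gcongr <;> linarith

end Crest.Agent.T157.Cq.Dc

end
end

-- ▼ part T157/CqDiscPi_67
section

/-!
# Row 157, part C (helper67): `Dc.PiL` and `Dc.CondL`
-/

set_option autoImplicit false
set_option linter.unusedSectionVars false

noncomputable section

namespace Crest.Agent.T157.Cq.Dc

open MeasureTheory ProbabilityTheory Matrix Filter Topology Finset Real
open Crest.Agent.T157.E Crest.Agent.T157.St Crest.Agent.T157.Ed Crest.Agent.T157.St.A87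
open Crest.Agent.T157.Sp (OffY pst lawY CovB Mom)

namespace Pi67

section abs
variable {ι : Type} [Fintype ι] [DecidableEq ι] {μ : Measure (ι → ℝ)}

theorem covB_of_mom {a : ℝ} (h : Mom μ a) : CovB μ a := by
  obtain ⟨_, m, h⟩ := h
  intro v
  obtain ⟨h4, h2, -⟩ := h v
  have hc : Continuous fun x : ι → ℝ => v ⬝ᵥ (x - m) := by fun_prop
  have hl : MemLp (fun x : ι → ℝ => v ⬝ᵥ (x - m)) 2 μ := by
    rw [memLp_two_iff_integrable_sq hc.aestronglyMeasurable]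
    refine ((integrable_const 1).add h4).mono' (hc.pow 2).aestronglyMeasurable
      (.of_forall fun x => ?_)
    rw [Real.norm_eq_abs, abs_of_nonneg (sq_nonneg _), Pi.add_apply]
    nlinarith [sq_nonneg ((v ⬝ᵥ (x - m)) ^ 2 - 1), sq_nonneg (v ⬝ᵥ (x - m))]
  have e : (fun x : ι → ℝ => v ⬝ᵥ x) = fun x => v ⬝ᵥ (x - m) + v ⬝ᵥ m := by
    funext x; rw [dotProduct_sub]; ring
  rw [e, variance_add_const hc.aestronglyMeasurable]
  exact ⟨hl.add (memLp_const _), (variance_le_expectation_sq hc.aestronglyMeasurable).trans h2⟩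

theorem covB_mono {a b : ℝ} (h : CovB μ a) (hab : a ≤ b) : CovB μ b := fun v =>
  ⟨(h v).1, (h v).2.trans (mul_le_mul_of_nonneg_right hab
    (sum_nonneg fun _ _ => mul_self_nonneg _))⟩

theorem ofr_le {α : Type*} [MeasurableSpace α] (ν : Measure α) {f : α → ℝ} (hf : ∀ x, 0 ≤ f x) :
    ENNReal.ofReal (∫ x, f x ∂ν) ≤ ∫⁻ x, ENNReal.ofReal (f x) ∂ν := by
  by_cases h : Integrable f ν
  · exact (ofReal_integral_eq_lintegral_ofReal h (.of_forall hf)).le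
  · rw [integral_undef h]; simp

theorem meas_Bl (ϱ : ℝ) : MeasurableSet (Bl ι ϱ) :=
  measurableSet_le (by fun_prop) measurable_const

theorem ew_bd {r : ℝ} (hr : 0 < r) (y x : ι → ℝ) : ew r y x ≤ exp (y ⬝ᵥ y / (2 * r)) := by
  rw [ew, exp_le_exp, le_div_iff₀ (by positivity)]
  have h := Eig.dot_self_nonneg (y - r • x)
  simp only [sub_dotProduct, dotProduct_sub, smul_dotProduct, dotProduct_smul, smul_eq_mul,
    dotProduct_comm x y] at h
  nlinarith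

theorem int_ew [IsFiniteMeasure μ] {r : ℝ} (hr : 0 < r) (y : ι → ℝ) : Integrable (ew r y) μ :=
  Integrable.of_bound (measurable_ew r measurable_const measurable_id).aestronglyMeasurable _
    (.of_forall fun x => by rw [Real.norm_eq_abs, abs_of_pos (ew_pos _ _ _)]; exact ew_bd hr y x)

theorem meas_Mf [SFinite μ] (r : ℝ) : Measurable (Mf r μ) :=
  (StronglyMeasurable.integral_prod_right (f := fun y x => ew r y x)
    (continuous_ew r).stronglyMeasurable).measurable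

/-- the output density has total mass `μ univ` -/
theorem tot_Mf [IsFiniteMeasure μ] {r : ℝ} (hr : 0 < r) :
    Integrable (fun z => Mf r μ (√r • z)) (gv ι) ∧ IK r (Mf r μ) = μ.real Set.univ := by
  have hi : Integrable (fun p : (ι → ℝ) × (ι → ℝ) => ew r (√r • p.1) p.2) ((gv ι).prod μ) := by
    rw [integrable_prod_iff' (measurable_ew r (by fun_prop) measurable_snd).aestronglyMeasurable]
    refine ⟨.of_forall fun x => intK (mg_ew hr.le x) r, ?_⟩
    have : ∀ x : ι → ℝ, ∫ z, ‖ew r (√r • z) x‖ ∂gv ι = 1 := fun x => by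
      simp only [Real.norm_eq_abs, abs_of_pos (ew_pos _ _ _)]
      exact IK_ew hr.le x
    simp only [this]
    exact integrable_const 1
  refine ⟨hi.integral_prod_left, ?_⟩
  have h := integral_integral_swap (f := fun z x => ew r (√r • z) x) hi
  have e : ∀ x : ι → ℝ, ∫ z, ew r (√r • z) x ∂gv ι = 1 := IK_ew hr.le
  simp only [e, integral_const, smul_eq_mul, mul_one] at h
  exact h

theorem lawY_le {ν : Measure (ι → ℝ)} (h : ν ≤ (2 : ENNReal) • μ) (r : ℝ) {A : Set (ι → ℝ)}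
    (hA : MeasurableSet A) : lawY r ν A ≤ 2 * lawY r μ A := by
  have hm : Measurable fun p : (ι → ℝ) × (ι → ℝ) => r • p.1 + √r • p.2 := by fun_prop
  rw [lawY, lawY, Measure.map_apply hm hA, Measure.map_apply hm hA, Measure.prod_apply (hm hA),
    Measure.prod_apply (hm hA)]
  refine (lintegral_mono' h le_rfl).trans (le_of_eq ?_)
  rw [lintegral_smul_measure, smul_eq_mul]

theorem int_cond (S : Set (ι → ℝ)) (f : (ι → ℝ) → ℝ) :
    ∫ x, f x ∂μ[|S] = (μ.real S)⁻¹ * ∫ x in S, f x ∂μ := by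
  rw [ProbabilityTheory.cond, integral_smul_measure, ENNReal.toReal_inv, smul_eq_mul]; rfl

end abs

theorem exp_le {c : ℝ} (hc : 0 < c) (k : ℕ) : ∃ D : ℝ, 0 < D ∧ ∀ u : ℝ, 0 < u →
    exp (-(c * u)) ≤ D * (u ^ k)⁻¹ := by
  refine ⟨(Nat.factorial k : ℝ) / c ^ k, by positivity, fun u hu => ?_⟩
  have h := pow_div_factorial_le_exp (x := c * u) (by positivity) k
  rw [exp_neg, inv_le_comm₀ (exp_pos _) (by positivity)]
  refine le_trans (le_of_eq ?_) h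
  rw [mul_pow]; field_simp

end Pi67

open Pi67

theorem piL : PiL := by
  intro hS hL L C L0
  obtain ⟨w₂, hS⟩ := hS L C L0
  refine ⟨w₂, fun w hw => ?_⟩
  obtain ⟨B, K, c, hB, hK, hc, hS⟩ := hS w hw
  obtain ⟨D, D0, hD⟩ := exp_le hc 504
  refine ⟨1 + B + B * D, max K ((L + 2) ^ 36), by nlinarith [mul_pos hB D0], le_max_of_le_left hK,
    ?_⟩
  filter_upwards [hS, eventually_ge_atTop 1] with n hS hn η hη r hr
  have n1 : (1 : ℝ) ≤ n := by exact_mod_cast hn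
  have r1 : 1 ≤ r := hK.trans ((le_max_left _ _).trans hr)
  have r0 : 0 < r := by linarith
  have BD : 0 < B * D := mul_pos hB D0
  set u : ℝ := r ^ (1 / 36 : ℝ) with hu
  have hp : ∀ k : ℕ, u ^ k = r ^ ((k : ℝ) / 36) := fun k => by
    rw [hu, ← rpow_natCast, ← rpow_mul r0.le]; congr 1; ring
  have u1 : 1 ≤ u := one_le_rpow r1 (by norm_num)
  have u0 : 0 < u := by linarith
  have e36 : u ^ 36 = r := by rw [hp]; norm_num
  have e1 : r ^ (-(1 / 36) : ℝ) = u⁻¹ := rpow_neg r0.le _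
  have s0 : 0 < sx n := rpow_pos_of_pos (by linarith) _
  have s6 : sx n ^ 6 = n := by
    rw [sx, ← rpow_natCast, ← rpow_mul (by linarith)]; norm_num
  have s18 : sx n ^ 18 = (n : ℝ) ^ 3 := by rw [← s6]; ring
  rw [e1]
  split_ifs with h3
  · obtain ⟨A, hA, h1, h2⟩ := (hS η hη r ((le_max_left _ _).trans hr)).2 ((n : ℝ) ^ 2)
      (one_le_pow₀ n1)
    have su : u ^ 2 ≤ sx n := by
      refine (pow_le_pow_iff_left₀ (by positivity) s0.le (n := 18) (by norm_num)).1 ?_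
      rw [s18, ← pow_mul]; exact e36.trans_le h3
    have uu : u ≤ u ^ 2 := by nlinarith
    refine ⟨A, hA, h1.trans (ENNReal.ofReal_le_ofReal ?_), fun y hy =>
      covB_mono (covB_of_mom (h2 y hy)) ?_⟩
    · have e14 : r ^ (-14 : ℝ) = (u ^ 504)⁻¹ := by rw [hp, ← rpow_neg r0.le]; norm_num
      have m1 : u ≤ min √r (sx n ^ 2) := by
        refine le_min (le_sqrt_of_sq_le ?_) (by nlinarith)
        rw [← e36]; exact pow_le_pow_right₀ u1 (by norm_num)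
      have h4 : exp (-(c * min √r (sx n ^ 2))) ≤ D * (u ^ 504)⁻¹ :=
        (exp_le_exp.2 (neg_le_neg (mul_le_mul_of_nonneg_left m1 hc.le))).trans (hD u u0)
      rw [e14]
      refine (mul_le_mul_of_nonneg_left h4 hB.le).trans ?_
      rw [← mul_assoc]
      exact mul_le_mul_of_nonneg_right (by linarith) (by positivity)
    · refine div_le_div_of_nonneg_right (add_le_add_right ?_ 1) r0.le
      refine mul_le_mul (by linarith) (max_le ?_ (inv_anti₀ u0 (uu.trans su))) (by positivity)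
        (by positivity)
      rw [← e1]
      exact rpow_le_rpow_of_exponent_le r1 (by norm_num)
  · have su : sx n ≤ u ^ 2 := by
      refine (pow_le_pow_iff_left₀ s0.le (by positivity) (n := 18) (by norm_num)).1 ?_
      rw [s18, ← pow_mul]; exact (not_le.1 h3).le.trans e36.ge
    have uL : L + 2 ≤ u := by
      refine (pow_le_pow_iff_left₀ (by positivity) u0.le (n := 36) (by norm_num)).1 ?_
      rw [e36]; exact (le_max_right _ _).trans hr
    refine ⟨∅, MeasurableSet.empty, by simp, fun y _ => ?_⟩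
    refine covB_mono (hL n η (sx n ^ 2) ((n : ℝ) ^ 2) r (r / (1 + u⁻¹)) y (by positivity)
      (by positivity) fun k => ?_).2 ?_
    · have h1 := hη.lo k k.2
      have h2 : 0 ≤ ((k : ℝ) + 1) ^ (2 / 3 : ℝ) / 256 := by positivity
      have h4 : (n : ℝ) ^ 2 * sx n ^ 2 ≤ u ^ 28 := by
        rw [← s6, show (sx n ^ 6) ^ 2 * sx n ^ 2 = sx n ^ 14 by ring, show u ^ 28 = (u ^ 2) ^ 14 by
          ring]
        exact pow_le_pow_left₀ s0.le su 14
      have h5 : r / (1 + u⁻¹) ≤ r - u ^ 35 / 2 := by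
        rw [div_le_iff₀ (by positivity), ← e36]
        have : (u ^ 36 - u ^ 35 / 2) * (1 + u⁻¹) = u ^ 36 + u ^ 34 * (u - 1) / 2 := by
          field_simp; ring
        rw [this]
        have : 0 ≤ u ^ 34 * (u - 1) := mul_nonneg (by positivity) (by linarith)
        linarith
      have h6 : u ^ 2 ≤ u ^ 7 := pow_le_pow_right₀ u1 (by norm_num)
      have h7 : 1 ≤ u ^ 28 := one_le_pow₀ u1
      have h8 : 2 * L ≤ u ^ 7 - 1 := by nlinarith
      have h9 : u ^ 35 = u ^ 28 * u ^ 7 := by ring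
      nlinarith
    · rw [one_div_div]
      refine div_le_div_of_nonneg_right (add_le_add_right ?_ 1) r0.le
      exact le_mul_of_one_le_left (by positivity) (by linarith)

theorem condL : CondL := by
  intro ι _ μ ϱ q hμ hq q2
  classical
  set S := Bl ι ϱ with hS
  have mS : MeasurableSet S := meas_Bl ϱ
  have m2 : 1 / 2 ≤ μ.real S := by
    have := probReal_compl_eq_one_sub (μ := μ) mS
    linarith
  have m0 : 0 < μ.real S := by linarith
  have mi : (μ.real S)⁻¹ ≤ 2 := by rw [inv_le_comm₀ m0 two_pos]; linarith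
  have S0 : μ S ≠ 0 := fun h => by simp [Measure.real, h] at m0
  have hν : IsProbabilityMeasure μ[|S] := cond_isProbabilityMeasure S0
  have hae : ∀ᵐ x ∂μ[|S], x ⬝ᵥ x ≤ ϱ := ae_cond_mem mS
  have hle : μ[|S] ≤ (2 : ENNReal) • μ := by
    intro A
    rw [ProbabilityTheory.cond, Measure.smul_apply, Measure.smul_apply, smul_eq_mul, smul_eq_mul]
    refine mul_le_mul' ?_ (Measure.restrict_le_self A)
    rw [← ofReal_measureReal (μ := μ) (s := S), ← ENNReal.ofReal_inv_of_pos m0,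
      ← ENNReal.ofReal_ofNat 2]
    exact ENNReal.ofReal_le_ofReal mi
  have cp : Cp μ[|S] := ⟨hν, ϱ, hae⟩
  refine ⟨hν, hae, fun θ X X0 hX => ?_, fun r a p τ r0 a0 p0 τ0 τ2 ⟨A, hA, h1, h2⟩ => ?_⟩
  · rw [← ENNReal.ofReal_le_ofReal_iff (by positivity), Xk]
    refine (ofr_le _ fun x => integral_nonneg fun _ => (exp_pos _).le).trans ?_
    have k : ∀ x : ι → ℝ, ENNReal.ofReal (∫ x', exp (θ * (x ⬝ᵥ x')) ∂μ[|S]) ≤
        2 * ∫⁻ x', ENNReal.ofReal (exp (θ * (x ⬝ᵥ x'))) ∂μ := fun x => by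
      refine (ofr_le _ fun _ => (exp_pos _).le).trans ((lintegral_mono' hle le_rfl).trans ?_)
      rw [lintegral_smul_measure, smul_eq_mul]
    refine (lintegral_mono' hle k).trans ?_
    rw [lintegral_smul_measure, smul_eq_mul, lintegral_const_mul' _ _ (by simp),
      show 4 * X = 2 * (2 * X) by ring, ENNReal.ofReal_mul zero_le_two,
      ENNReal.ofReal_mul zero_le_two, ENNReal.ofReal_ofNat]
    gcongr
    exact hX
  · have q0 : 0 ≤ q := measureReal_nonneg.trans hq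
    have sp : ∀ y, Mf r (μ.restrict S) y + Mf r (μ.restrict Sᶜ) y = Mf r μ y := fun y =>
      integral_add_compl mS (int_ew r0 y)
    have Mν : ∀ y, Mf r μ[|S] y = (μ.real S)⁻¹ * Mf r (μ.restrict S) y := fun y => int_cond S _
    have M0 : ∀ (ν : Measure (ι → ℝ)) y, 0 ≤ Mf r ν y := fun ν y =>
      integral_nonneg fun x => (ew_pos _ _ _).le
    have Mp : ∀ y, 0 < Mf r μ y := fun y => integral_exp_pos (int_ew r0 y)
    set A' : Set (ι → ℝ) := {y | τ * Mf r μ y < Mf r (μ.restrict Sᶜ) y} with hA'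
    have mA' : MeasurableSet A' := measurableSet_lt ((meas_Mf r).const_mul τ) (meas_Mf r)
    refine ⟨A ∪ A', hA.union mA', (measure_union_le _ _).trans ?_, fun y hy v => ?_⟩
    · rw [ENNReal.ofReal_add (by positivity) (by positivity)]
      refine add_le_add ((lawY_le hle r hA).trans ?_) ?_
      · rw [ENNReal.ofReal_mul zero_le_two, ENNReal.ofReal_ofNat]; gcongr
      · rw [Sp.Trf85.lawY_eq cp r0.le mA']
        refine ENNReal.ofReal_le_ofReal ?_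
        have t := tot_Mf (μ := μ.restrict Sᶜ) r0
        rw [measureReal_restrict_apply_univ] at t
        have k : Sp.Trf85.PY r μ[|S] A' ≤ IK r fun y => 2 / τ * Mf r (μ.restrict Sᶜ) y := by
          refine integral_mono_of_nonneg (.of_forall fun z => mul_nonneg (M0 _ _)
            (Set.indicator_nonneg (fun _ _ => zero_le_one) _)) (t.1.const_mul _)
            (.of_forall fun z => ?_)
          dsimp only
          by_cases hz : √r • z ∈ A'
          · rw [Set.indicator_of_mem hz, mul_one, Mν, div_mul_eq_mul_div, le_div_iff₀ τ0]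
            have k1 : τ * Mf r μ (√r • z) < Mf r (μ.restrict Sᶜ) (√r • z) := hz
            have k2 := sp (√r • z)
            have k3 := M0 (μ.restrict Sᶜ) (√r • z)
            have k4 := M0 (μ.restrict S) (√r • z)
            have k5 := mul_le_mul_of_nonneg_right mi k4
            nlinarith
          · rw [Set.indicator_of_notMem hz, mul_zero]
            exact mul_nonneg (by positivity) (M0 _ _)
        rw [IK_const_mul, t.2] at k
        refine k.trans ?_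
        rw [div_mul_eq_mul_div]; gcongr
    · rw [Set.mem_union, not_or] at hy
      obtain ⟨l2, hv⟩ := h2 y hy.1 v
      have k1 : Mf r (μ.restrict Sᶜ) y ≤ τ * Mf r μ y := not_lt.1 hy.2
      have cp' := Sp.Trf85.cp_pst cp r0.le y
      have := cp'.prob
      have hc : Continuous fun x : ι → ℝ => v ⬝ᵥ x := by fun_prop
      obtain ⟨C, -, hC⟩ := (Bs.of_mg cp' (Sp.Trf85.mg_dot v)).bd
      refine ⟨MemLp.of_bound hc.aestronglyMeasurable C hC, ?_⟩
      have hp : IsProbabilityMeasure (pst r μ y) := isProbabilityMeasure_tilted (int_ew r0 y)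
      set c := ∫ x, v ⬝ᵥ x ∂pst r μ y with hc'
      rw [variance_eq_integral hc.aemeasurable, ← hc', Sp.Trf85.int_pst, div_le_iff₀ (Mp y)] at hv
      have i1 : Integrable (fun x => (v ⬝ᵥ x - c) ^ 2 * ew r y x) μ := by
        have := (integrable_tilted_iff (int_ew r0 y) _).1 (l2.sub (memLp_const c)).integrable_sq
        exact this.congr (.of_forall fun x => mul_comm _ _)
      have k2 : ∫ x in S, (v ⬝ᵥ x - c) ^ 2 * ew r y x ∂μ ≤ a * (v ⬝ᵥ v) * Mf r μ y :=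
        (setIntegral_le_integral i1 (.of_forall fun x =>
          mul_nonneg (sq_nonneg _) (ew_pos _ _ _).le)).trans hv
      have k3 := sp y
      have k4 := Mp y
      have k5 : 0 < Mf r (μ.restrict S) y := by nlinarith
      have v0 : 0 ≤ a * (v ⬝ᵥ v) := mul_nonneg a0 (Eig.dot_self_nonneg v)
      rw [← variance_sub_const hc.aestronglyMeasurable c]
      refine (variance_le_expectation_sq (hc.sub continuous_const).aestronglyMeasurable).trans ?_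
      simp only [Pi.pow_apply]
      rw [Sp.Trf85.int_pst, Mν, int_cond, mul_div_mul_left _ _ (inv_ne_zero m0.ne'),
        div_le_iff₀ k5]
      refine k2.trans ?_
      have k6 : Mf r μ y ≤ (1 + 2 * τ) * Mf r (μ.restrict S) y := by
        have : (1 - τ) * Mf r μ y ≤ Mf r (μ.restrict S) y := by linarith
        have k7 : 1 ≤ (1 + 2 * τ) * (1 - τ) := by nlinarith
        nlinarith
      nlinarith [mul_le_mul_of_nonneg_left k6 v0]

end Crest.Agent.T157.Cq.Dc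

end
end

-- ▼ part T157/CqDiscSm_34
section

/-!
# Row 157, part C: `Dc.smL`, the form of a fine channel on a smoothed function (helper34)
-/

set_option autoImplicit false
set_option linter.unusedSectionVars false

noncomputable section

namespace Crest.Agent.T157.Cq.Dc

open MeasureTheory Matrix Finset Real Set
open Crest.Agent.T157.E Crest.Agent.T157.SL Crest.Agent.T157.Rec

namespace Sm34

variable {ι : Type*} [Fintype ι] [DecidableEq ι] {F : (ι → ℝ) → ℝ} {b e : ℝ}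

lemma mg_dot (v : ι → ℝ) : MG fun z : ι → ℝ => z ⬝ᵥ v := by
  have : (fun z : ι → ℝ => z ⬝ᵥ v) = fun z => ∑ i, v i * z i := by
    funext z; rw [dotProduct_comm]; rfl
  rw [this]
  exact .sum _ fun i _ => (mg_coord i).const_mul _

lemma int_mul_dot (hF : MG F) (v : ι → ℝ) :
    ∫ z, F z * (z ⬝ᵥ v) ∂Gs ι = v ⬝ᵥ fun i => ∫ z, z i * F z ∂Gs ι := by
  simp only [dotProduct, mul_sum]
  rw [integral_finsetSum _ fun i _ => (hF.mul (by
    simpa only [mul_comm] using (mg_coord i).const_mul (v i))).int]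
  refine sum_congr rfl fun i _ => ?_
  rw [← integral_const_mul]
  exact integral_congr_ae (.of_forall fun z => by ring)

lemma int_dot (v : ι → ℝ) : ∫ z, z ⬝ᵥ v ∂Gs ι = 0 := by
  have := int_mul_dot (MG.const (ι := ι) 1) v
  simpa [int_coord] using this

lemma int_dot_sq (v : ι → ℝ) : ∫ z, (z ⬝ᵥ v) ^ 2 ∂Gs ι = v ⬝ᵥ v := by
  simp only [sq]
  rw [int_mul_dot (mg_dot v)]
  congr 1
  funext i
  rw [int_mul_dot (mg_coord i)]
  simp [int_coord_mul, dotProduct]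

lemma int_rem (a : ι → ℝ) :
    ∫ z, (eh a z - 1 - z ⬝ᵥ a) ^ 2 ∂Gs ι = exp (a ⬝ᵥ a) - 1 - a ⬝ᵥ a := by
  have m1 := mg_eh a
  have m2 := mg_dot a
  have h1 : ∫ z, eh a z * (z ⬝ᵥ a) ∂Gs ι = a ⬝ᵥ a := by
    rw [int_mul_dot m1]; simp only [int_coord_eh]
  have : ∀ z, (eh a z - 1 - z ⬝ᵥ a) ^ 2 = (1 - eh a z) * (1 - eh a z) + (z ⬝ᵥ a) ^ 2 +
      2 * (z ⬝ᵥ a) - 2 * (eh a z * (z ⬝ᵥ a)) := fun z => by ring
  simp only [this]
  have m3 := ((MG.const 1).sub m1).mul ((MG.const 1).sub m1)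
  rw [integral_sub ((m3.add (mg_sq m2)).add (m2.const_mul 2)).int ((m1.mul m2).const_mul 2).int,
    integral_add (m3.add (mg_sq m2)).int (m2.const_mul 2).int, integral_add m3.int (mg_sq m2).int,
    integral_const_mul, integral_const_mul, int_one_sub_eh, int_dot_sq, int_dot, h1]
  ring

/-- first-order expansion of a Gaussian shift -/
lemma shift_sq (hF : MG F) (hb : ∀ z, F z ^ 2 ≤ b ^ 2) (he : 0 < e) (a : ι → ℝ) :
    (∫ z, F (a + z) ∂Gs ι - ∫ z, F z ∂Gs ι) ^ 2 ≤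
      (1 + e) * (a ⬝ᵥ fun i => ∫ z, z i * F z ∂Gs ι) ^ 2 + (5 + e⁻¹) * b ^ 2 * (a ⬝ᵥ a) ^ 2 := by
  have s0 : 0 ≤ a ⬝ᵥ a := dot_self_nonneg a
  have i0 : 0 < e⁻¹ := inv_pos.2 he
  have hG : ∀ G : (ι → ℝ) → ℝ, MG G → (∀ z, G z ^ 2 ≤ b ^ 2) → ∫ z, G z ^ 2 ∂Gs ι ≤ b ^ 2 :=
    fun G hG h => by simpa using integral_mono (mg_sq hG).int (integrable_const (b ^ 2)) h
  set W := a ⬝ᵥ fun i => ∫ z, z i * F z ∂Gs ι with hW
  rcases le_total (a ⬝ᵥ a) 1 with h | h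
  · have m1 := mg_eh a
    have m2 := mg_dot a
    have e1 : ∫ z, F (a + z) ∂Gs ι - ∫ z, F z ∂Gs ι =
        W + ∫ z, F z * (eh a z - 1 - z ⬝ᵥ a) ∂Gs ι := by
      simp only [mul_sub, mul_one]
      rw [integral_sub ((hF.mul m1).sub hF).int (hF.mul m2).int, integral_sub (hF.mul m1).int hF.int,
        int_mul_dot hF, int_shift]
      ring
    have e2 := int_mul_sq_le hF ((m1.sub (.const 1)).sub m2)
    rw [int_rem] at e2
    have e3 : exp (a ⬝ᵥ a) - 1 - a ⬝ᵥ a ≤ (a ⬝ᵥ a) ^ 2 :=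
      (le_abs_self _).trans (abs_exp_sub_one_sub_id_le (by rwa [abs_of_nonneg s0]))
    have e4 : 0 ≤ exp (a ⬝ᵥ a) - 1 - a ⬝ᵥ a := by linarith [add_one_le_exp (a ⬝ᵥ a)]
    have e5 := e2.trans (mul_le_mul (hG F hF hb) e3 e4 (sq_nonneg b))
    rw [e1]
    refine (add_sq_le he _ _).trans (add_le_add le_rfl ?_)
    rw [mul_assoc]
    exact mul_le_mul (by linarith) e5 (sq_nonneg _) (by positivity)
  · have m : MG fun z => F (a + z) := by simpa using hF.affine a 1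
    have h1 := (int_sq_le m).trans (hG _ m fun z => hb _)
    have h2 := (int_sq_le hF).trans (hG _ hF hb)
    have h3 : b ^ 2 ≤ b ^ 2 * (a ⬝ᵥ a) ^ 2 := le_mul_of_one_le_right (sq_nonneg b) (one_le_pow₀ h)
    have h4 : 0 ≤ (1 + e) * W ^ 2 := by positivity
    have h5 : 0 ≤ e⁻¹ * (b ^ 2 * (a ⬝ᵥ a) ^ 2) := by positivity
    nlinarith [sq_nonneg (∫ z, F (a + z) ∂Gs ι + ∫ z, F z ∂Gs ι), sq_nonneg b]

lemma mg_four (i : ι) : MG fun z : ι → ℝ => z i ^ 4 :=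
  ((EG.coord (I := univ) i).pow 4).mg (mem_univ 0)

lemma int_four (i : ι) : ∫ z, z i ^ 4 ∂Gs ι = 3 := by
  have := stein (I := univ) (G := fun p : Pt ι => p.2 i ^ 3) (H := fun p => 3 * p.2 i ^ 2)
    ((EG.coord i).pow 3) (((EG.coord i).pow 2).const_mul 3) (mem_univ 0) i fun y => by
      simpa using hasDerivAt_pow 3 (y i)
  have h2 := int_coord_mul i i
  simp only [← sq, if_true] at h2
  simp only [← pow_succ'] at this
  rw [this, integral_const_mul, h2, mul_one]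

lemma mg_self : MG fun z : ι → ℝ => z ⬝ᵥ z := .sum _ fun i _ => (mg_coord i).mul (mg_coord i)

lemma int_self_sq : ∫ z, (z ⬝ᵥ z) ^ 2 ∂Gs ι ≤ 100 * (Fintype.card ι) ^ 2 := by
  have h : ∀ z : ι → ℝ, (z ⬝ᵥ z) ^ 2 ≤ Fintype.card ι * ∑ i, z i ^ 4 := fun z => by
    have := sq_sum_le_card_mul_sum_sq (s := Finset.univ) (f := fun i => z i * z i)
    refine this.trans_eq ?_
    rw [card_univ]
    congr 1
    exact sum_congr rfl fun i _ => by ring
  refine (integral_mono (mg_sq mg_self).int ((MG.sum _ fun i _ => mg_four i).const_mul _).int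
    h).trans ?_
  rw [integral_const_mul, integral_finsetSum _ fun i _ => (mg_four i).int]
  simp only [int_four, sum_const, card_univ, nsmul_eq_mul]
  nlinarith [sq_nonneg (Fintype.card ι : ℝ)]

/-- the averaged expansion -/
lemma shift_int (hF : MG F) (hb : ∀ z, F z ^ 2 ≤ b ^ 2) (he : 0 < e) (c : ℝ) :
    ∫ z', (∫ z, F (c • z' + z) ∂Gs ι - ∫ z, F z ∂Gs ι) ^ 2 ∂Gs ι ≤
      (1 + e) * (c ^ 2 * ∑ i, (∫ z, z i * F z ∂Gs ι) ^ 2) +
        100 * (5 + e⁻¹) * (Fintype.card ι) ^ 2 * c ^ 4 * b ^ 2 := by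
  set W : ι → ℝ := fun i => ∫ z, z i * F z ∂Gs ι with hW
  have i1 := ((mg_sq (mg_dot W)).const_mul ((1 + e) * c ^ 2)).int
  have i2 := ((mg_sq (mg_self (ι := ι))).const_mul ((5 + e⁻¹) * b ^ 2 * c ^ 4)).int
  refine (integral_mono_of_nonneg (.of_forall fun _ => sq_nonneg _) (i1.add i2)
    (.of_forall fun z' => (shift_sq hF hb he _).trans_eq ?_)).trans ?_
  · simp only [Pi.add_apply, smul_dotProduct, dotProduct_smul, smul_eq_mul]; ring
  · simp only [Pi.add_apply]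
    rw [integral_add i1 i2, integral_const_mul, integral_const_mul, int_dot_sq]
    have h1 : W ⬝ᵥ W = ∑ i, W i ^ 2 := by simp only [dotProduct, sq]
    have h2 := mul_le_mul_of_nonneg_left (int_self_sq (ι := ι))
      (show 0 ≤ (5 + e⁻¹) * b ^ 2 * c ^ 4 by positivity)
    rw [h1]
    nlinarith

end Sm34

open Sm34

theorem smL : SmL := by
  intro Ω ι _ _ _ _ _ w φ hw K K' e b hK hK' he g hb
  have hW := Wt.of_pos hw
  set g0 := g () with hg0
  have hb0 : ∀ x, g0 x ^ 2 ≤ b ^ 2 := fun x => by simpa using hb x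
  let ψ : (ι → ℝ) → ℝ := fun y => mean (post φ w K y) g0
  have mψ : MG ψ := mg_pm hW K g0
  have bψ : ∀ y, ψ y ^ 2 ≤ b ^ 2 := fun y => by
    rw [← sq_abs b]
    exact sq_le_sq' (neg_le_of_abs_le ((hW.post φ K y).abs_mean_le fun x => sq_le_sq.1 (hb0 x)))
      (le_of_abs_le ((hW.post φ K y).abs_mean_le fun x => sq_le_sq.1 (hb0 x)))
  let G : (ι → ℝ) → ℝ := fun y => ∫ z, ψ ((K / K') • y + √K • z) ∂Gs ι
  have mG : MG G := by
    have := ((mψ.conv 0 √K).affine 0 (K / K'))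
    simpa using this
  set f : Ω → ℝ := (Sg.stRC φ hw hK).P *ᵥ g0 with hf
  have ef : ∀ x, f x = ∫ z, ψ (K • φ x + √K • z) ∂Gs ι := fun x => by
    rw [hf, Sg.stRC_mulVec]; rfl
  have h1 : Tr.Ph φ w (fun a => (Sg.stRC φ hw hK).P *ᵥ g a) K' ≤
      slE φ w K' fun x y => (f x - G y) ^ 2 := by
    have m : ∀ x, MG fun y => (f x - G y) ^ 2 := fun x => mg_sq ((MG.const _).sub mG)
    rw [bayes hW hK'.le (.of_mg m), Tr.Ph, Fintype.sum_unique]
    exact slE_mono hW (.of_mg fun _ => mg_pvar hW K' f) (.of_mg fun _ => mg_mean hW K' m)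
      fun _ y => (hW.post φ K' y).var_le_mean f _
  set c := √K / √K' with hc
  have s0 : 0 < √K' := sqrt_pos.2 hK'
  have c2 : c ^ 2 = K / K' := by rw [hc, div_pow, sq_sqrt hK, sq_sqrt hK'.le]
  have h2 : ∀ x, ∫ z', (f x - G (K' • φ x + √K' • z')) ^ 2 ∂Gs ι ≤
      (1 + e) * (c ^ 2 * K) * Pm φ K (fun _ y => ∑ i, covV (post φ w K y) g0 φ i ^ 2) x +
        100 * (5 + e⁻¹) * (Fintype.card ι) ^ 2 * c ^ 4 * b ^ 2 := fun x => by
    have h3 := shift_int (mψ.affine (K • φ x) √K) (fun z => bψ _) he c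
    have e1 : ∀ z', (f x - G (K' • φ x + √K' • z')) ^ 2 =
        (∫ z, ψ (K • φ x + √K • (c • z' + z)) ∂Gs ι - ∫ z, ψ (K • φ x + √K • z) ∂Gs ι) ^ 2 :=
      fun z' => by
        rw [sub_sq_comm, ef]
        congr 2
        refine integral_congr_ae (.of_forall fun z => congrArg ψ ?_)
        rw [smul_add, smul_add, smul_smul, smul_smul, smul_smul, add_assoc,
          div_mul_cancel₀ _ hK'.ne']
        congr 3
        rw [hc, ← mul_div_assoc, mul_self_sqrt hK, div_mul_eq_mul_div, div_eq_div_iff hK'.ne' s0.ne',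
          mul_assoc, mul_self_sqrt hK'.le]
    simp only [e1]
    refine h3.trans (add_le_add ?_ le_rfl)
    have m : ∀ i, MG fun y => covV (post φ w K y) g0 φ i := fun i => mg_pcov hW K _ _
    rw [mul_assoc, mul_assoc, Pm_sum _ fun i _ _ => mg_sq (m i), mul_sum _ _ K]
    refine mul_le_mul_of_nonneg_left (mul_le_mul_of_nonneg_left (sum_le_sum fun i _ => ?_)
      (sq_nonneg c)) (by positivity)
    rw [stein_post hW, mul_pow, sq_sqrt hK]
    exact mul_le_mul_of_nonneg_left (Pm_sq_le (φ := φ) (t := K) (fun _ => m i) x) hK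
  have h3 : Tr.psi φ w g K = mean w (Pm φ K fun _ y => ∑ i, covV (post φ w K y) g0 φ i ^ 2) := by
    rw [← slE_eq_Pm, Tr.psi, ex]
    simp only [Tr.dd, Fintype.sum_unique, Tr.Vg, Tr.vv, dotProduct, sq]
    rfl
  have h4 := h1.trans ((slE_eq_mean _).trans_le (hW.mean_mono h2))
  rw [mean_add, mean_const_mul, hW.mean_const, ← h3] at h4
  refine (mul_le_mul_of_nonneg_left h4 hK'.le).trans_eq ?_
  rw [show c ^ 4 = (c ^ 2) ^ 2 by ring, c2]
  field_simp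

end Crest.Agent.T157.Cq.Dc

end
end

-- ▼ part T157/O7Aw_67
section

/-!
# Row 157, block A2, section 7 (helper67): `AwGlue`
-/

set_option autoImplicit false

noncomputable section

namespace Crest.Agent.T157.O7

open MeasureTheory Filter Set Matrix Real Topology
open Crest.ProbabilityR.SpinGlassDynamics
open Crest.Agent.T157.E Crest.Agent.T157.SL Crest.Agent.T157.Eig Crest.Agent.T157.Tr
open Crest.Agent.T157.Tap (Mx V GOE)
open Crest.Agent.T157.Top (Whp)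
open Crest.Agent.T157.Crit (CovLe)

namespace Aw67

variable {n : ℕ}

theorem JB_mono {lo : ℕ → ℝ} {hi : ℝ} {H : ℕ → ℝ → ℝ} {G G' : ∀ n, ℝ → Mx n → V n → Prop}
    (h : JB lo hi H G) (hG : ∀ n t W y, G n t W y → G' n t W y) : JB lo hi H G' := by
  obtain ⟨WW, h1, h2⟩ := h
  refine ⟨WW, h1, h2.mono fun n hn t ht => le_trans (measure_mono ?_) (hn t ht)⟩
  exact fun z hz => ⟨hz.1, fun h => hz.2 (hG _ _ _ _ h)⟩

theorem factor {W : Mx n} (hW : W.IsHermitian) {η : ℝ} (hη : 0 < η) : ∃ F : Mx n, opn F ≤ η⁻¹ ∧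
    1 - Pw W η = ((2 : ℝ) • (1 : Mx n) - W) * F := by
  refine ⟨fnK (fun x => if |2 - x| ≤ η then (0 : ℝ) else (2 - x)⁻¹) W,
    opn_fnK_le hW (by positivity) fun k _ => ?_, ?_⟩
  · split_ifs with h
    · simpa using hη.le
    · rw [abs_inv]; exact inv_anti₀ hη (not_le.1 h).le
  · have e : (2 : ℝ) • (1 : Mx n) - W = fnK (fun x => 2 - x) W := by
      rw [fnK_sub, fnK_const hW, fnK_id_real hW]
    rw [one_sub_Pw hW, e, fnK_mul hW]
    refine fnK_congr fun k _ => ?_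
    split_ifs with h
    · simp
    · refine (mul_inv_cancel₀ fun h0 => h ?_).symm
      rw [h0, abs_zero]; exact hη.le

theorem key {w : Cube n → ℝ} (hw : Wt w) {W : Mx n} (hW : W.IsHermitian) {η θ u k₁ k₂ : ℝ}
    (hη : 0 < η) (hθ : 0 < θ) (k1 : 0 ≤ k₁) (k2 : 0 ≤ k₂) (h1 : CvB w 1 k₁)
    (h2 : CvB w ((2 : ℝ) • (1 : Mx n) - W) k₂) (h : u ^ 2 * k₁ * k₂ ≤ θ ^ 2 * η ^ 2) :
    opn ((1 - Pw W η) * (u • covM w)) ≤ θ := by
  obtain ⟨F, hF, e⟩ := factor hW hη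
  refine opn_le_of_bil hθ.le fun a b => ?_
  have t : (1 - Pw W η)ᵀ = 1 - Pw W η := by rw [transpose_sub, transpose_one, Pw_transpose]
  rw [← mulVec_mulVec, dotProduct_mulVec, ← mulVec_transpose, t, e, ← mulVec_mulVec, smul_mulVec,
    dotProduct_smul, smul_eq_mul]
  set x := ((2 : ℝ) • (1 : Mx n) - W) *ᵥ F *ᵥ a with hx
  have c1 : (x ⬝ᵥ covM w *ᵥ b) ^ 2 ≤ (b ⬝ᵥ covM w *ᵥ b) * (x ⬝ᵥ covM w *ᵥ x) := by
    simp only [covM, covMat_quad, ← var_eq_cov]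
    exact hw.cov_sq_le _ _
  have c2 := h1 b
  rw [one_mulVec, ← nrm_sq] at c2
  have c3 := h2 (F *ᵥ a)
  rw [← hx, ← nrm_sq] at c3
  have c4 : nrm (F *ᵥ a) ≤ η⁻¹ * nrm a :=
    (nrm_mulVec_le F a).trans (mul_le_mul_of_nonneg_right hF (nrm_nonneg a))
  have c5 := c3.trans (mul_le_mul_of_nonneg_left (pow_le_pow_left₀ (nrm_nonneg _) c4 2) k2)
  have c6 := c1.trans (mul_le_mul c2 c5 (hw.covMat_quad_nonneg sv x) (by positivity))
  refine le_of_abs_le (abs_le_of_sq_le_sq' ?_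
    (mul_nonneg hθ.le (mul_nonneg (nrm_nonneg a) (nrm_nonneg b))) |> abs_le.2)
  have c7 : u ^ 2 * k₁ * k₂ * η⁻¹ ^ 2 ≤ θ ^ 2 := by
    rw [inv_pow, ← div_eq_mul_inv, div_le_iff₀ (by positivity)]; exact h
  calc (u * (x ⬝ᵥ covM w *ᵥ b)) ^ 2 = u ^ 2 * (x ⬝ᵥ covM w *ᵥ b) ^ 2 := by ring
    _ ≤ u ^ 2 * (k₁ * nrm b ^ 2 * (k₂ * (η⁻¹ * nrm a) ^ 2)) :=
        mul_le_mul_of_nonneg_left c6 (sq_nonneg u)
    _ = u ^ 2 * k₁ * k₂ * η⁻¹ ^ 2 * (nrm a * nrm b) ^ 2 := by ring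
    _ ≤ θ ^ 2 * (nrm a * nrm b) ^ 2 := mul_le_mul_of_nonneg_right c7 (sq_nonneg _)
    _ = _ := by ring

theorem CvB_mono {w : Cube n → ℝ} {B : Mx n} {k k' : ℝ} (h : CvB w B k) (hk : k ≤ k') :
    CvB w B k' := fun v => (h v).trans (mul_le_mul_of_nonneg_right hk (Eig.dot_self_nonneg v))

theorem cov_post (g : Pair n → ℝ) (d : Fin n → ℝ) (r : ℝ) (y : Fin n → ℝ) :
    covMat (post sv (gibbsWeight n 1 g) r y) sv = covM (ising (Wmat n g d) y) := by
  have h1 := GoeT.prob_ising_Wmat 1 g d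
  rw [one_smul] at h1
  have h2 : prob (post sv (gibbsWeight n 1 g) r y) = prob (ising (Wmat n g d) y) := by
    rw [prob_post_sv, ← zero_add y, ← tilt_ising, zero_add]
    exact GoeT.prob_mul_congr (GoeT.sum_gibbs_ne 1 g) (GoeT.sum_ising_ne _ _) h1.symm _
  exact GoeT.covMat_congr_prob h2 sv

end Aw67

open Aw67

theorem awGlue : AwGlue := by
  rintro qu ⟨K, K₂, t0, t00, hJ⟩ η θ o hη hθ ho
  have K0 := abs_nonneg K
  have K20 := abs_nonneg K₂
  refine ⟨min t0 (θ ^ 2 * η ^ 2 / (4 * (|K| + 1) * (|K₂| + 1))), by positivity, fun s hs => ?_⟩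
  obtain ⟨c, c0, hJ⟩ := hJ s hs
  have ev : ∀ᶠ n : ℕ in atTop, 0 ≤ s ∧ ∀ t ∈ Icc s t0, (n : ℝ) ^ c ≤ (n : ℝ) ^ c :=
    .of_forall fun _ => ⟨hs.le, fun _ _ => le_rfl⟩
  have q1 := qu (fun _ => s) t0 c (fun n _ => (n : ℝ) ^ c) (fun _ t => K / t) (fun _ _ => 1) c0 ev
    (JB_mono hJ fun n t W y h v => by simpa only [one_mulVec] using h.1 v)
  have q2 := qu (fun _ => s) t0 c (fun n _ => (n : ℝ) ^ c) (fun _ _ => K₂)
    (fun n W => (2 : ℝ) • (1 : Mx n) - W) c0 ev (JB_mono hJ fun n t W y h => h.2)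
  refine ((q1.and q2).comp (ν := PM) (T := fun n p => Wmat n p.1 p.2)
    fun n => Cond.mp_Wmat).mono ?_
  have l1 : Tendsto (fun n : ℕ => exp (-((n : ℝ) ^ c / 2)) + exp (-((n : ℝ) / 2))) atTop (𝓝 0) := by
    simpa using (tendsto_exp_neg_atTop_nhds_zero.comp (((tendsto_rpow_atTop c0).comp
      tendsto_natCast_atTop_atTop).atTop_div_const two_pos)).add
      (tendsto_exp_neg_atTop_nhds_zero.comp (tendsto_natCast_atTop_atTop.atTop_div_const two_pos))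
  filter_upwards [l1.eventually (ge_mem_nhds (half_pos ho)), eventually_ge_atTop 12] with
    n hn n12 p hp u hu
  have hu' : u ∈ Icc s t0 := ⟨hu.1, hu.2.trans (min_le_left _ _)⟩
  have u0 : 0 < u := hs.trans_le hu.1
  obtain ⟨t, ht, -, h1⟩ := hp.1 u hu'
  obtain ⟨-, -, -, h2⟩ := hp.2 u hu'
  have e1 := GoeT.prob_ising_Wmat 1 p.1 p.2
  rw [one_smul] at e1
  have n1 : (12 : ℝ) ≤ n := by exact_mod_cast n12
  have a0 : (0 : ℝ) ≤ 1 + 12 / n := by positivity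
  have a2 : (1 + 12 / n : ℝ) ≤ 2 := by
    have : (12 / n : ℝ) ≤ 1 := (div_le_one (by linarith)).2 n1
    linarith
  rw [← GoeT.law_congr_prob e1]
  have := isProb_law (φ := sv) (s := u) (v := ising (Wmat n p.1 p.2) 0) (.of_pos fun _ => exp_pos _)
  refine le_trans (measureReal_mono fun y hy => ?_ ) ((measureReal_union_le _ _).trans
    ((add_le_add (h1.trans hn) (h2.trans hn)).trans_eq (add_halves o)))
  by_contra hc
  simp only [mem_union, mem_ofPred_eq, not_or, not_not] at hc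
  change θ < opn (_ * (u • covMat (post sv (gibbsWeight n 1 p.1) u y) sv)) at hy
  refine not_le.2 hy ?_
  rw [cov_post p.1 p.2]
  refine key (k₁ := 2 * (|K| / u)) (k₂ := 2 * |K₂|) (.of_pos fun _ => exp_pos _) (Wmat_isHermitian _ _) hη hθ
    (by positivity) (by positivity) (CvB_mono hc.1 ?_) (CvB_mono hc.2 ?_) ?_
  · have t0' : 0 < t := u0.trans_le ht.1
    refine (mul_le_mul_of_nonneg_left (div_le_div_of_nonneg_right (le_abs_self K) t0'.le) a0).trans ?_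
    exact mul_le_mul a2 (div_le_div_of_nonneg_left K0 u0 ht.1) (by positivity) zero_le_two
  · exact (mul_le_mul_of_nonneg_left (le_abs_self K₂) a0).trans (mul_le_mul_of_nonneg_right a2 K20)
  · have h3 := (le_div_iff₀ (by positivity)).1 (hu.2.trans (min_le_right _ _))
    refine le_trans ?_ h3
    rw [show u ^ 2 * (2 * (|K| / u)) * (2 * |K₂|) = u * (4 * |K| * |K₂|) by field_simp; ring]
    gcongr <;> linarith

end Crest.Agent.T157.O7

end
end

-- ▼ part T157/O7St_64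

/-!
# Row 157, block A2, section 7 (helper64): the covariance windows at the levels `2 ^ j`
-/

set_option autoImplicit false

noncomputable section

namespace Crest.Agent.T157.O7

open MeasureTheory Filter Set Matrix Real Topology
open Crest.ProbabilityR.SpinGlassDynamics
open Crest.Agent.T157.E Crest.Agent.T157.SL
open Crest.Agent.T157.Tr (Off pb HA)
open Crest.Agent.T157.Crit (CovAt)
open Crest.Agent.T157.Soft (N23 Xth)

namespace St64

lemma ha_gen {Ω : Type*} [Fintype Ω] {ι : Type} [Fintype ι] [DecidableEq ι] {φ : Ω → ι → ℝ}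
    {w : Ω → ℝ} {e : ℝ → ℝ} {s T q : ℝ} (hs : 0 < s) (hT : s ≤ T) (hq : 0 ≤ q)
    (he : ContinuousOn e (Icc s T)) (e0 : ∀ r ∈ Icc s T, 0 ≤ e r)
    (h : ∀ r ∈ Icc s T, pb φ w e 3 r ≤ q * (s / r) ^ 2 / 4) :
    HA φ w e (fun u => q * (s / u) ^ 2 / 4) s T √(q * s) := by
  have p0 : ∀ u ∈ Icc s T, 0 < u := fun u hu => hs.trans_le hu.1
  refine ⟨hs, he, e0, ((continuousOn_const.mul ((continuousOn_const.div continuousOn_id
    fun u hu => (p0 u hu).ne').pow 2)).div_const 4), h, sqrt_nonneg _, fun r hr => ?_, ?_⟩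
  · have r0 := p0 r hr
    rw [sq_sqrt (by positivity),
      show r * (q * (s / r) ^ 2 / 4) = q * s * (s / r / 4) by field_simp]
    refine mul_le_of_le_one_right (by positivity) ?_
    have : s / r ≤ 1 := (div_le_one r0).2 hr.1
    linarith
  · have e1 : ∫ u in s..T, √(q * (s / u) ^ 2 / 4 / u) =
        ∫ u in s..T, √q * s / 2 * ((1 * u) ^ (-(1 / 2) : ℝ) / u) := by
      refine intervalIntegral.integral_congr fun u hu => ?_
      rw [uIcc_of_le hT] at hu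
      have u0 := p0 u hu
      refine (sqrt_eq_iff_mul_self_eq (by positivity) (by positivity)).2 ?_
      have e2 : u ^ (-(1 / 2) : ℝ) * u ^ (-(1 / 2) : ℝ) = u⁻¹ := by
        rw [← rpow_add u0, ← rpow_neg_one]; norm_num
      rw [one_mul, show ∀ x : ℝ, √q * s / 2 * (x / u) * (√q * s / 2 * (x / u)) =
        √q * √q * (x * x) * (s / u) ^ 2 / 4 from fun x => by ring, e2, mul_self_sqrt hq]
      ring
    rw [e1, intervalIntegral.integral_const_mul]
    refine (mul_le_mul_of_nonneg_left (Tr.int_rpow_neg (N := 1) one_pos hs hT (γ := 1 / 2)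
      (by norm_num)) (by positivity)).trans_eq ?_
    rw [one_mul, sqrt_mul hq, rpow_neg hs.le, ← sqrt_eq_rpow]
    have := sqrt_pos.2 hs
    field_simp
    rw [sq_sqrt hs.le]

lemma ev_pow (D : ℝ) {l γ : ℝ} (hl : 0 < l) (hγ : 0 < γ) :
    ∀ᶠ x : ℝ in atTop, D * x ^ 7 ≤ exp (l * x ^ γ / 4) := by
  have h1 := ((tendsto_rpow_mul_exp_neg_mul_atTop_nhds_zero (7 / γ) (l / 4) (by positivity)).comp
    (tendsto_rpow_atTop hγ)).const_mul D
  rw [mul_zero] at h1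
  filter_upwards [h1.eventually (ge_mem_nhds one_pos), eventually_ge_atTop 0] with x hx x0
  simp only [Function.comp] at hx
  rw [← rpow_mul x0, mul_div_cancel₀ _ hγ.ne', show (7 : ℝ) = (7 : ℕ) by norm_num, rpow_natCast,
    neg_mul, exp_neg, ← mul_assoc, ← div_eq_mul_inv, div_le_one (exp_pos _)] at hx
  exact hx.trans_eq (by congr 1; ring)

lemma Mt_eq (n : ℕ) {r : ℝ} (hr : 0 ≤ r) : Mt n r = (N23 n * r) ^ (3 / 2 : ℝ) := by
  rw [Mt, N23, mul_rpow (by positivity) hr, ← rpow_mul (Nat.cast_nonneg n)]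
  norm_num

/-- the profile -/
def pr (N a₀ a₁ γ C c u : ℝ) : ℝ :=
  a₀ * (N * u) ^ (-(3 / 2) : ℝ) + a₁ * (N * u) ^ (-γ) + C * (u ^ c + (N * u) ^ (-c))

variable {N a₀ a₁ γ C c s T : ℝ}

lemma cont_pow (hN : 0 < N) (hs : 0 < s) (γ : ℝ) :
    ContinuousOn (fun u : ℝ => (N * u) ^ γ) (Icc s T) :=
  (continuousOn_const.mul continuousOn_id).rpow_const fun _ hu =>
    .inl (mul_pos hN (hs.trans_le hu.1)).ne'

lemma pr_cont (hN : 0 < N) (hs : 0 < s) : ContinuousOn (pr N a₀ a₁ γ C c) (Icc s T) :=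
  ((continuousOn_const.mul (cont_pow hN hs _)).add (continuousOn_const.mul (cont_pow hN hs _))).add
    (continuousOn_const.mul ((continuousOn_id.rpow_const fun _ hu =>
      .inl (hs.trans_le hu.1).ne').add (cont_pow hN hs _)))

lemma pr_int (hN : 0 < N) (hs : 0 < s) (hT : s ≤ T) (h1 : 1 ≤ N * s) (h₀ : 0 ≤ a₀) (h₁ : 0 ≤ a₁)
    (hγ : 0 < γ) (hC : 0 ≤ C) (hc : 0 < c) : ∫ u in s..T, pr N a₀ a₁ γ C c u / u ≤
      a₀ * (N * s) ^ (-(3 / 2) : ℝ) + a₁ / γ + C * (T ^ c + 1) / c := by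
  have p : ∀ u ∈ Icc s T, u ≠ 0 := fun u hu => (hs.trans_le hu.1).ne'
  have i : ∀ a γ : ℝ, IntervalIntegrable (fun u => a * ((N * u) ^ γ / u)) volume s T := fun a γ =>
    ContinuousOn.intervalIntegrable_of_Icc hT
      (continuousOn_const.mul ((cont_pow hN hs γ).div continuousOn_id p))
  have i2 : IntervalIntegrable (fun u => C * (u ^ c + (N * u) ^ (-c)) / u) volume s T :=
    ContinuousOn.intervalIntegrable_of_Icc hT ((continuousOn_const.mul ((continuousOn_id.rpow_const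
      fun u hu => .inl (p u hu)).add (cont_pow hN hs _))).div continuousOn_id p)
  have e : ∀ u, pr N a₀ a₁ γ C c u / u = a₀ * ((N * u) ^ (-(3 / 2) : ℝ) / u) +
      a₁ * ((N * u) ^ (-γ) / u) + C * (u ^ c + (N * u) ^ (-c)) / u := fun u => by rw [pr]; ring
  simp only [e]
  rw [intervalIntegral.integral_add ((i _ _).add (i _ _)) i2,
    intervalIntegral.integral_add (i _ _) (i _ _), intervalIntegral.integral_const_mul,
    intervalIntegral.integral_const_mul]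
  have b0 := Tr.int_rpow_neg hN hs hT (γ := 3 / 2) (by norm_num)
  have b1 := Tr.int_rpow_neg hN hs hT hγ
  have b2 := Tr.int_eps_le hN hs hT hc hC
  have c0 : 0 ≤ (N * s) ^ (-(3 / 2) : ℝ) := by positivity
  have c1 : ∀ γ : ℝ, 0 < γ → (N * s) ^ (-γ) ≤ 1 := fun γ h =>
    rpow_le_one_of_one_le_of_nonpos h1 (by linarith)
  refine add_le_add (add_le_add (mul_le_mul_of_nonneg_left (b0.trans (by linarith)) h₀) ?_)
    (b2.trans (by gcongr; exact c1 c hc))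
  rw [div_eq_mul_one_div a₁]
  exact mul_le_mul_of_nonneg_left (b1.trans (by gcongr; exact c1 γ hγ)) h₁

lemma num {B x Λ H x0 : ℝ} (h0 : 1 ≤ x0) (hx : 0 < x) (h1 : 12 * H ≤ Λ)
    (h2 : 4 * 10 ^ 4 * B ^ 3 * x ^ 7 ≤ exp (Λ / 4)) :
    10 ^ 4 * B ^ 3 * x ^ 5 * √(exp (-Λ)) ≤ exp (-(3 * H)) * (x0 / x) ^ 2 / 4 := by
  have e1 : √(exp (-Λ)) = exp (-(Λ / 2)) := by
    rw [sqrt_eq_iff_mul_self_eq (exp_pos _).le (exp_pos _).le, ← exp_add]; congr 1; ring
  have e2 : exp (Λ / 4) * exp (-(Λ / 2)) ≤ exp (-(3 * H)) := by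
    rw [← exp_add]; exact exp_le_exp.2 (by linarith)
  rw [e1, div_pow, le_div_iff₀ four_pos, ← mul_div_assoc, le_div_iff₀ (by positivity)]
  calc _ = 4 * 10 ^ 4 * B ^ 3 * x ^ 7 * exp (-(Λ / 2)) := by ring
    _ ≤ exp (-(3 * H)) := (mul_le_mul_of_nonneg_right h2 (exp_pos _).le).trans e2
    _ ≤ _ := le_mul_of_one_le_right (exp_pos _).le (one_le_pow₀ h0)

lemma exp_min {y a b : ℝ} (ha : y ≤ exp (a / 4)) (hb : y ≤ exp (b / 4)) :
    y ≤ exp (min a b / 4) := by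
  rcases min_choice a b with h | h <;> rwa [h]

end St64

open St64 in
theorem starGlue : StarGlue := by
  intro hpb b a κ T ha hκ hT hL h0 h1 h2 h3 c ε hc hε
  have ε5 : 0 < ε / 5 := by positivity
  obtain ⟨B0, hB0⟩ := hL _ ε5
  obtain ⟨c2, hc2, C2, s2, t2, ht2, h2⟩ := h2 _ ε5
  set ε0 := c2 * (2 / 3 - a) / (2 * exp 1) with hε0
  have ε0p : 0 < ε0 := by have := sub_pos.2 ha; positivity
  obtain ⟨c1, hc1, s1, t1, ht1, h1⟩ := h1 _ ε5 _ ε0p
  have c32 : 0 < c ^ (3 / 2 : ℝ) := by positivity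
  obtain ⟨K0, s0, t0, ht0, h0⟩ := h0 _ ε5 (12 / c ^ (3 / 2 : ℝ))
  set tm := min t0 (min t1 t2)
  have htm : 0 < tm := by positivity
  obtain ⟨K3, h3⟩ := h3 tm htm
  set B := max B0 1
  have hB : 1 ≤ B := le_max_right _ _
  set D := 4 * 10 ^ 4 * B ^ 3
  set C' := |C2| + |K3| / tm ^ c2
  have C'0 : 0 ≤ C' := by positivity
  obtain ⟨S, hS⟩ := eventually_atTop.1 ((ev_pow D (l := 12 / c ^ (3 / 2 : ℝ)) (γ := 3 / 2)
    (by positivity) (by norm_num)).and ((ev_pow D hc1 (γ := 3 / 2) (by norm_num)).and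
      ((ev_pow D one_pos hc2).and ((eventually_ge_atTop s0).and ((eventually_ge_atTop s1).and
        ((eventually_ge_atTop s2).and (eventually_ge_atTop 1)))))))
  obtain ⟨j0, hj0⟩ := eventually_atTop.1 ((((tendsto_rpow_atTop (y := 2 / 3) (by norm_num)).comp
    (tendsto_pow_atTop_atTop_of_one_lt (one_lt_two (α := ℝ)))).const_mul_atTop hc).eventually_ge_atTop S)
  refine ⟨exp (2 * (|K0| * 12 / c1 / c ^ (3 / 2 : ℝ) + C' * (T ^ c2 + 1) / c2)) *
    12 ^ (2 / 3 - a), j0, ?_⟩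
  have hB1 : Off (couplingLaw b) (ε / 5) fun n g =>
      ∀ θ, 0 ≤ θ → Xth n g θ ≤ B * exp (B * θ ^ (3 / 2 : ℝ)) := by
    refine hB0.mono fun n hn => le_trans (measure_mono fun g hg => ?_) hn
    simp only [mem_ofPred_eq, not_forall, not_le] at hg
    obtain ⟨θ, θ0, hθ⟩ := hg
    refine ⟨θ, θ0, lt_of_le_of_lt ?_ hθ⟩
    have : B0 ≤ B := le_max_left _ _
    exact (mul_le_mul_of_nonneg_right this (exp_pos _).le).trans (by gcongr)
  have hall := ((((hB1.and h0 ε5.le ε5.le).and h1 (by positivity) ε5.le).and h2 (by positivity)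
    ε5.le).and (Tr.off_of_whp h3 ε5) (by positivity) ε5.le).le (ε' := ε) (by linarith)
  have tn := tendsto_natCast_atTop_atTop (R := ℝ)
  filter_upwards [hall, tn.eventually (ev_pow (D * T ^ 7) one_pos (γ := 1 / 2) (by norm_num)),
    ((tendsto_rpow_atTop (y := 1 / 2 - κ) (by linarith)).comp tn).eventually_ge_atTop 12,
    ((tendsto_rpow_atTop (y := 1 / 3) (by norm_num)).comp tn).eventually_ge_atTop (c / T),
    eventually_ge_atTop 1] with n hn n1 n2 n3 n4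
  refine le_trans (measure_mono fun g hg => ?_) hn
  obtain ⟨j, hj, hjn, hW⟩ := hg
  rintro ⟨⟨⟨⟨gB, g0⟩, g1⟩, g2⟩, g3⟩
  refine hW ?_
  have n1' : (1 : ℝ) ≤ n := by exact_mod_cast n4
  have n0 : (0 : ℝ) < n := by linarith
  have hj1 := hj0 j hj
  simp only [Function.comp] at hj1 n2 n3
  have H1 : (1 : ℝ) ≤ 2 ^ j := one_le_pow₀ one_le_two
  generalize (2 : ℝ) ^ j = H at hj1 hjn H1 ⊢
  have H0 : 0 < H := by linarith
  set N := N23 n with hN
  have N0 : 0 < N := rpow_pos_of_pos n0 _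
  have Nn : N ≤ n := by
    simpa using rpow_le_rpow_of_exponent_le n1' (show (2 / 3 : ℝ) ≤ 1 by norm_num)
  have Hn : 12 * H ≤ √n := by
    rw [sqrt_eq_rpow, show (1 / 2 : ℝ) = 1 / 2 - κ + κ by ring, rpow_add n0]
    exact mul_le_mul n2 hjn H0.le (by positivity)
  set x0 := c * H ^ (2 / 3 : ℝ) with hx0
  have x1 : 1 ≤ x0 := (hS _ hj1).2.2.2.2.2.2
  have x32 : x0 ^ (3 / 2 : ℝ) = c ^ (3 / 2 : ℝ) * H := by
    rw [hx0, mul_rpow hc.le (by positivity), ← rpow_mul H0.le]; norm_num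
  have ets : Q1.ts n c H = x0 / N := rfl
  have s0' : 0 < x0 / N := by positivity
  have Ns : N * (x0 / N) = x0 := by field_simp
  have sT : x0 / N ≤ T := by
    have a1 : H ^ (2 / 3 : ℝ) ≤ (n : ℝ) ^ (1 / 3 : ℝ) := by
      refine (rpow_le_rpow H0.le (by linarith : H ≤ √n) (by norm_num)).trans_eq ?_
      rw [sqrt_eq_rpow, ← rpow_mul n0.le]; norm_num
    have a2 : N = (n : ℝ) ^ (1 / 3 : ℝ) * (n : ℝ) ^ (1 / 3 : ℝ) := by
      rw [← rpow_add n0, hN, N23]; norm_num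
    rw [div_le_iff₀ hT] at n3
    rw [div_le_iff₀ N0, a2, hx0, ← mul_assoc, mul_comm T]
    exact mul_le_mul n3 a1 (by positivity) (by positivity)
  have l0 : 0 < log (12 * H) := log_pos (by linarith)
  set e := pr N (|K0| * 12 / c1 * H) (ε0 * exp 1) (c2 / log (12 * H)) C' c2 with he
  have e0 : ∀ r, 0 < r → 0 ≤ |K0| * 12 / c1 * H * (N * r) ^ (-(3 / 2) : ℝ) ∧
      0 ≤ ε0 * exp 1 * (N * r) ^ (-(c2 / log (12 * H))) ∧
      0 ≤ C' * (r ^ c2 + (N * r) ^ (-c2)) := fun r _ => ⟨by positivity, by positivity, by positivity⟩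
  rw [Q1.Win, ets]
  refine ⟨e, _, _, ha_gen s0' sT (exp_pos (-(3 * H))).le (pr_cont N0 s0') (fun r hr => ?_)
    fun r hr => ?_, (sq_sqrt (by positivity)).le, ?_⟩
  · obtain ⟨a1, a2, a3⟩ := e0 r (s0'.trans_le hr.1)
    exact add_nonneg (add_nonneg a1 a2) a3
  · have r0 := s0'.trans_le hr.1
    obtain ⟨a1, a2, a3⟩ := e0 r r0
    have hx : x0 ≤ N * r := by rw [mul_comm]; exact (div_le_iff₀ N0).1 hr.1
    have x0' : 0 < N * r := by positivity
    obtain ⟨b0, b1, b2, b3, b4, b5, b6⟩ := hS _ (hj1.trans hx)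
    have b7 : D * (N * r) ^ 7 ≤ exp (√n / 4) := by
      rw [one_mul, ← sqrt_eq_rpow] at n1
      refine le_trans ?_ n1
      rw [mul_assoc D, ← mul_pow]
      refine mul_le_mul_of_nonneg_left (pow_le_pow_left₀ x0'.le ?_ 7) (by positivity)
      rw [mul_comm]
      exact mul_le_mul hr.2 Nn N0.le hT.le
    have lo : ∀ s, s ≤ N * r → s / N ≤ r := fun s hs => by rw [div_le_iff₀ N0, mul_comm]; exact hs
    have fin : ∀ k Λ, k ≤ 1 + e r → CovAt (gibbsWeight n 1 g) r (k / r) (exp (-Λ)) → 12 * H ≤ Λ →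
        D * (N * r) ^ 7 ≤ exp (Λ / 4) →
        pb sv (gibbsWeight n 1 g) e 3 r ≤ exp (-(3 * H)) * (x0 / N / r) ^ 2 / 4 :=
      fun k Λ d1 d2 d3 d4 => (hpb n g B r k _ e hB gB b6 d1 d2).trans
        ((num x1 x0' d3 d4).trans_eq (by rw [div_div]))
    have er : e r = |K0| * 12 / c1 * H * (N * r) ^ (-(3 / 2) : ℝ) +
      ε0 * exp 1 * (N * r) ^ (-(c2 / log (12 * H))) + C' * (r ^ c2 + (N * r) ^ (-c2)) := rfl
    have M0 : 0 < (N * r) ^ (3 / 2 : ℝ) := by positivity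
    rcases le_total r tm with hm | hm
    swap
    · refine fin K3 _ ?_ (g3 r ⟨hm, hr.2⟩) Hn b7
      have f1 : |K3| / tm ^ c2 * tm ^ c2 ≤ C' * (r ^ c2 + (N * r) ^ (-c2)) :=
        mul_le_mul (le_add_of_nonneg_left (abs_nonneg _)) ((rpow_le_rpow htm.le hm hc2.le).trans
          (le_add_of_nonneg_right (by positivity))) (by positivity) C'0
      rw [div_mul_cancel₀ _ (by positivity)] at f1
      linarith [le_abs_self K3]
    rcases le_total (12 * H) ((N * r) ^ c2) with h2 | h2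
    · refine fin _ _ ?_ (g2 r ⟨lo _ b5, hm.trans ((min_le_right _ _).trans (min_le_right _ _))⟩) h2
        (by simpa using b2)
      have : C2 * (r ^ c2 + (N * r) ^ (-c2)) ≤ C' * (r ^ c2 + (N * r) ^ (-c2)) :=
        mul_le_mul_of_nonneg_right ((le_abs_self _).trans (le_add_of_nonneg_right (by positivity)))
          (by positivity)
      linarith
    rcases le_total (12 * H) (c1 * (N * r) ^ (3 / 2 : ℝ)) with h1 | h1
    · refine fin _ _ ?_ (g1 r ⟨lo _ b4, hm.trans ((min_le_right _ _).trans (min_le_left _ _))⟩)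
        (le_min (Mt_eq n r0.le ▸ h1) Hn) (exp_min (Mt_eq n r0.le ▸ b1) b7)
      have f1 : (N * r) ^ (c2 / log (12 * H)) ≤ exp 1 := by
        rw [div_eq_mul_inv, rpow_mul x0'.le]
        refine (rpow_le_rpow (by positivity) h2 (by positivity)).trans_eq ?_
        rw [rpow_def_of_pos (by positivity), mul_inv_cancel₀ l0.ne']
      have f2 : ε0 * 1 ≤ ε0 * (exp 1 * (N * r) ^ (-(c2 / log (12 * H)))) := by
        rw [rpow_neg x0'.le, ← div_eq_mul_inv]
        exact mul_le_mul_of_nonneg_left ((one_le_div (by positivity)).2 f1) ε0p.le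
      rw [← mul_assoc] at f2
      linarith
    · have f0 : 12 * H ≤ 12 / c ^ (3 / 2 : ℝ) * (N * r) ^ (3 / 2 : ℝ) := by
        have := rpow_le_rpow (by positivity) hx (show (0 : ℝ) ≤ 3 / 2 by norm_num)
        rw [x32] at this
        rw [div_mul_eq_mul_div, le_div_iff₀ c32]
        linarith
      refine fin K0 _ ?_ (g0 r ⟨lo _ b3, hm.trans (min_le_left _ _)⟩)
        (le_min (Mt_eq n r0.le ▸ f0) Hn) (exp_min (Mt_eq n r0.le ▸ b0) b7)
      have f2 : |K0| * 1 ≤ |K0| * (12 * H / (c1 * (N * r) ^ (3 / 2 : ℝ))) :=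
        mul_le_mul_of_nonneg_left ((one_le_div (by positivity)).2 h1) (abs_nonneg _)
      have f3 : |K0| * (12 * H / (c1 * (N * r) ^ (3 / 2 : ℝ))) =
          |K0| * 12 / c1 * H * (N * r) ^ (-(3 / 2) : ℝ) := by
        rw [rpow_neg x0'.le]; field_simp
      linarith [le_abs_self K0]
  · have := pr_int (a₀ := |K0| * 12 / c1 * H) (a₁ := ε0 * exp 1) (γ := c2 / log (12 * H)) N0 s0' sT
      (Ns.symm ▸ x1) (by positivity) (by positivity) (by positivity) C'0 hc2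
    rw [Ns, rpow_neg (by positivity), x32] at this
    rw [mul_assoc, ← mul_rpow (by norm_num) H0.le,
      rpow_def_of_pos (show 0 < 12 * H by positivity), ← exp_add]
    refine exp_le_exp.2 ((mul_le_mul_of_nonneg_left this zero_le_two).trans_eq ?_)
    rw [hε0]
    field_simp
    ring

end Crest.Agent.T157.O7

end
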