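import Crest.Agent.T157.CnLev_56_Mg
import Crest.Agent.T157.CnBoch_64
import Crest.Agent.T157.CqMass_67_Mg
import Crest.Agent.T157.CqI12_6
import Crest.Agent.T157.O7St_64_Mg
import Crest.Agent.T157.CqKap_46
import Crest.Agent.T157.CqSpec_39_Mg
import Crest.Agent.T157.CqStat_62_Mg
import Crest.Agent.T157.CqWin_59
import Crest.Agent.T157.CqSwap_44
import Crest.Agent.T157.CqBd_43
import Crest.Agent.T157.CqUt_75
import Crest.Agent.T157.CqDiscPb_66

-- ▼ part T157/FinC_88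
section

/-!
# Row 157: the closed leaves of `CnDef_63` and `CqDef_72` (helper88)
-/

set_option autoImplicit false

namespace Crest.Agent.T157.TopZ

theorem cnL : CnL :=
  ⟨Cn.bochStmt, Cn.froGlue, Cn.frzC, Cn.opnC, Cn.fldC, Cn.topGlue, Cn.termGlue, Cn.levGlue⟩

/-- the leaves of `CqDef_72` which are proved elsewhere -/
structure CqR : Prop where
  bd : Cq.BdStmt
  iso : Cq.IsoStmt
  scm : Cq.ScMeas
  ms : Cq.MsStmt
  ut : Cq.UtGlue
  disc : Cq.DiscGlue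
  swap : Cq.SwapStmt true
  round : Cq.RoundGlue

theorem cqL_of (R : CqR) : CqL where
  bd := R.bd
  iso := R.iso
  scm := R.scm
  ms := R.ms
  scl := Cq.sclGlue
  cv := Cq.cvGlue
  ut := R.ut
  i12 := Cq.i12Glue
  sg := Cq.sgGlue_of (Un.ldB false)
  sgc := Cq.sgCoin_of (Cq.sgGlue_of (Un.ldB false))
  ts := Cq.tsGlue
  cyl := Cq.cylStmt
  tv := Cq.tvStmt
  soft := Cq.softGlue
  stat := Cq.statGlue
  disc := R.disc
  kl := Cq.klStmt
  kern := Cq.kernStmt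
  osc := Cq.oscGlue
  pi := Cq.piGlue
  mg := Cq.mgGlue
  kap := Cq.kapStmt
  mass := Cq.massStmt
  cr := Cq.crGlue
  kill := Cq.killStmt
  spec := Cq.specStmt
  swap := fun b => match b with
    | false => Cq.swapG_of Cq.kapStmt R.ms
    | true => R.swap
  p0 := Cq.p0Glue
  round := R.round
  q3 := Cq.q3Glue
  top := Cq.topGlue

end Crest.Agent.T157.TopZ
end

-- ▼ part T157/FinD_88

/-!
# Row 157: block C up to the swap for coins (helper88)
-/

set_option autoImplicit false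

namespace Crest.Agent.T157.TopZ

theorem disc : Cq.DiscGlue := Cq.Dc.finGlue Cq.Dc.mgfL Cq.Dc.piL Cq.Dc.condL Cq.Dc.gridL Cq.Dc.pbL
  (Cq.Dc.coreGlue Cq.Dc.smL)

theorem cqL (h : Cq.SwapStmt true) : CqL := cqL_of
  ⟨Cq.bdStmt, Cq.isoStmt, Cq.scMeas, Cq.msStmt, Cq.utGlue, disc, h, Cq.roundGlue⟩

variable {a κ T : ℝ}

theorem r33' (ha : 5 / 9 < a) (ha' : a < 2 / 3) (hκ : 0 < κ) (hκ' : κ ≤ 1 / 30) (hT : 0 < T)
    (A : AOut a κ T) (K : KOut a κ) (h : Cq.SwapStmt true) : Top.R33 :=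
  r33 ha ha' hκ hκ' hT A K cnL (cqL h)

theorem r32' (ha : 5 / 9 < a) (ha' : a < 2 / 3) (hκ : 0 < κ) (hκ' : κ ≤ 1 / 30) (hT : 0 < T)
    (A : AOut a κ T) (K : KOut a κ) (h : Cq.SwapStmt true) : Top.R32 :=
  r32 ha ha' hκ hκ' hT A K cnL (cqL h)

end Crest.Agent.T157.TopZ
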