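import Crest.Agent.T157.LpUfE_14
import Crest.Agent.T157.TapFrz_25
import Crest.Agent.T157.TapCov_15
import Crest.Agent.T157.TapPl_37

-- ▼ part T157/St0A_5
section

/-!
# Row 157: exponential levels of the static events (helper5)
-/

set_option autoImplicit false

noncomputable section

namespace Crest.Agent.T157.Ks.St0

open MeasureTheory ProbabilityTheory Matrix Filter Set Topology
open Crest.Agent.T157.E Crest.Agent.T157.Eig Crest.Agent.T157.Cond Crest.Agent.T157.Tap
open Crest.Agent.T157.Kr (fro fro_nonneg FLip)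
open Crest.Agent.T157.Tap.Uf14

section
variable {X : ℕ → Type*} [∀ n, MeasurableSpace (X n)] {μ : ∀ n, Measure (X n)} {e e' : ℝ}
  {P Q : ∀ n, X n → Prop}

/-- `P` fails with probability at most `exp (-e n)` -/
def Lv (μ : ∀ n, Measure (X n)) (e : ℝ) (P : ∀ n, X n → Prop) : Prop :=
  ∀ᶠ n : ℕ in atTop, μ n {W | ¬ P n W} ≤ ENNReal.ofReal (Real.exp (-(e * n)))

theorem ev_poly (A : ℝ) (h : e' < e) :
    ∀ᶠ n : ℕ in atTop, (A * n + A) * Real.exp (-(e * n)) ≤ Real.exp (-(e' * n)) := by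
  have hk : 0 < e - e' := sub_pos.2 h
  filter_upwards [tendsto_natCast_atTop_atTop.eventually_ge_atTop (4 * |A| / (e - e') ^ 2),
    eventually_ge_atTop 1] with n hn hn1
  have h1 : (1 : ℝ) ≤ n := by exact_mod_cast hn1
  rw [div_le_iff₀ (by positivity)] at hn
  have h2 := Real.quadratic_le_exp_of_nonneg (x := (e - e') * n) (by positivity)
  have h3 : A * n + A ≤ Real.exp ((e - e') * n) := by
    have a1 : A * n ≤ |A| * n := mul_le_mul_of_nonneg_right (le_abs_self A) (by linarith)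
    have a2 : 0 ≤ (e - e') * n := by positivity
    nlinarith [mul_le_mul_of_nonneg_right hn (show (0 : ℝ) ≤ n by linarith), le_abs_self A,
      mul_le_mul_of_nonneg_left h1 (abs_nonneg A)]
  calc _ ≤ Real.exp ((e - e') * n) * Real.exp (-(e * n)) := by gcongr
    _ = _ := by rw [← Real.exp_add]; congr 1; ring

theorem ev_const (A : ℝ) (h : e' < e) :
    ∀ᶠ n : ℕ in atTop, A * Real.exp (-(e * n)) ≤ Real.exp (-(e' * n)) := by
  filter_upwards [ev_poly |A| h] with n hn
  refine le_trans (mul_le_mul_of_nonneg_right ?_ (Real.exp_pos _).le) hn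
  linarith [le_abs_self A, mul_nonneg (abs_nonneg A) (Nat.cast_nonneg (α := ℝ) n)]

theorem Lv.mono (h : Lv μ e P) (hPQ : ∀ᶠ n in atTop, ∀ W, P n W → Q n W) : Lv μ e Q := by
  filter_upwards [h, hPQ] with n h1 h2
  exact le_trans (measure_mono fun W (hW : ¬ Q n W) hp => hW (h2 W hp)) h1

theorem Lv.imp (h : Lv μ e P) (hPQ : ∀ n W, P n W → Q n W) : Lv μ e Q := h.mono (.of_forall hPQ)

theorem exp_anti (h : e' ≤ e) (n : ℕ) : Real.exp (-(e * n)) ≤ Real.exp (-(e' * n)) :=
  Real.exp_le_exp.2 (neg_le_neg (mul_le_mul_of_nonneg_right h n.cast_nonneg))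

theorem Lv.le (h : Lv μ e P) (he : e' ≤ e) : Lv μ e' P :=
  Filter.Eventually.mono h fun n hn => hn.trans (ENNReal.ofReal_le_ofReal (exp_anti he n))

theorem Lv.fin {ι : Type*} [Fintype ι] {R : ι → ∀ n, X n → Prop} (h : ∀ j, Lv μ e (R j))
    (he : e' < e) : Lv μ e' fun n W => ∀ j, R j n W := by
  filter_upwards [eventually_all.2 h, ev_const (Fintype.card ι) he] with n h1 h2
  have : {W | ¬ ∀ j, R j n W} = ⋃ j, {W | ¬ R j n W} := by ext W; simp
  rw [this]
  refine (measure_iUnion_fintype_le _ _).trans ((Finset.sum_le_sum fun j _ => h1 j).trans ?_)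
  rw [← ENNReal.ofReal_sum_of_nonneg fun _ _ => (Real.exp_pos _).le]
  exact ENNReal.ofReal_le_ofReal (by simpa using h2)

theorem Lv.and (h : Lv μ e P) (h' : Lv μ e Q) (he : e' < e) : Lv μ e' fun n W => P n W ∧ Q n W :=
  (Lv.fin (ι := Bool) (R := fun b => if b then P else Q) (fun b => by cases b; exacts [h', h])
    he).imp fun _ _ hW => ⟨hW true, hW false⟩

theorem Lv.of_real [∀ n, IsFiniteMeasure (μ n)] {A : ℝ} (he : e' < e)
    (h : ∀ᶠ n : ℕ in atTop, (μ n).real {W | ¬ P n W} ≤ A * Real.exp (-(e * n))) : Lv μ e' P := by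
  filter_upwards [h, ev_const A he] with n h1 h2
  rw [← ofReal_measureReal]
  exact ENNReal.ofReal_le_ofReal (h1.trans h2)

theorem Lv.real (h : Lv μ e P) :
    ∀ᶠ n : ℕ in atTop, (μ n).real {W | ¬ P n W} ≤ Real.exp (-(e * n)) :=
  Filter.Eventually.mono h fun _ hn => ENNReal.toReal_le_of_le_ofReal (Real.exp_pos _).le hn


end

variable {n : ℕ} {P : ∀ n, Mx n → Prop}

/-- a property that holds near every point of a likely set fails with exponentially small probability -/
theorem boost (h : Top.Whp GOE fun n W => ∀ X, fro (X - W) ≤ 1 → P n X) : Lv GOE (1 / 16) P := by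
  have h2 : Tendsto (fun n : ℕ => Real.exp (-(1 / 16 * n))) atTop (𝓝 0) :=
    Real.tendsto_exp_neg_atTop_nhds_zero.comp
      (tendsto_natCast_atTop_atTop.const_mul_atTop (by norm_num))
  filter_upwards [h.real.eventually (gt_mem_nhds one_half_pos),
    h2.eventually (gt_mem_nhds one_half_pos), eventually_gt_atTop 0] with n h3 h4 hn
  rcases isEmpty_or_nonempty {X : Mx n | ¬ P n X} with hE | hE
  · rw [Set.isEmpty_coe_sort.1 hE, measure_empty]; exact zero_le
  have hn' : (0 : ℝ) < n := by exact_mod_cast hn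
  set Λ : Mx n → ℝ := fun W => ⨅ X : {X : Mx n | ¬ P n X}, fro (X.1 - W) with hΛ
  have bd : ∀ W : Mx n, BddBelow (range fun X : {X : Mx n | ¬ P n X} => fro (X.1 - W)) := fun W =>
    ⟨0, by rintro _ ⟨X, rfl⟩; exact fro_nonneg _⟩
  have l1 : ∀ W W' : Mx n, Λ W - fro (W - W') ≤ Λ W' := fun W W' => le_ciInf fun X => by
    have h5 := fro_add_le (X.1 - W') (W' - W)
    rw [sub_add_sub_cancel, fro_sub_comm W'] at h5
    linarith [ciInf_le (bd W) X]
  have l2 : ∀ W W' : Mx n, |Λ W - Λ W'| ≤ 1 * fro (W - W') := fun W W' => by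
    have := l1 W' W
    rw [fro_sub_comm] at this
    rw [abs_le]; constructor <;> linarith [l1 W W']
  have lc : Continuous Λ := continuous_iff_continuousAt.2 fun W => by
    refine tendsto_iff_dist_tendsto_zero.2 (squeeze_zero (fun _ => dist_nonneg)
      (fun W' => (l2 W' W).trans_eq (one_mul _)) ?_)
    exact Continuous.tendsto' (f := fun W' : Mx n => fro (W' - W)) ((continuous_fro (n := n)).comp
      (continuous_id.sub continuous_const)) W 0 (by simp [fro_zero])
  have he : -(1 / 2 : ℝ) ^ 2 / (4 * (1 / √(n : ℝ)) ^ 2 * 1 ^ 2) = -(1 / 16 * n) := by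
    rw [div_pow (1 : ℝ) √n, Real.sq_sqrt hn'.le]; field_simp; norm_num
  have t1 := Kr.goe_tail zero_le_one (fun W W' _ _ => l2 W W') lc.measurable (1 / √n) one_half_pos.le
  have t2 := Kr.goe_tail_lower zero_le_one (fun W W' _ _ => l2 W W') lc.measurable (1 / √n)
    one_half_pos.le
  rw [he] at t1 t2
  rw [← ofReal_measureReal]
  refine ENNReal.ofReal_le_ofReal (le_trans (measureReal_mono fun W hW => ?_) t2)
  have h0 : Λ W ≤ 0 := (ciInf_le (bd W) ⟨W, hW⟩).trans_eq (by rw [sub_self, fro_zero])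
  by_contra hc
  have hm : ∫ W', Λ W' ∂GOE n < 1 / 2 := by
    simp only [mem_ofPred_eq, not_le] at hc
    linarith
  have h5 := measureReal_mono (μ := GOE n) (s₁ := univ)
    (s₂ := {W | ¬ ∀ X, fro (X - W) ≤ 1 → P n X} ∪ {W | 1 / 2 ≤ Λ W - ∫ W', Λ W' ∂GOE n})
    fun W _ => by
      by_cases hW : ∀ X, fro (X - W) ≤ 1 → P n X
      · have : 1 ≤ Λ W := le_ciInf fun X => (not_le.1 fun hX => X.2 (hW _ hX)).le
        exact .inr (by simp only [mem_ofPred_eq]; linarith)
      · exact .inl hW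
  rw [probReal_univ] at h5
  linarith [measureReal_union_le (μ := GOE n) {W | ¬ ∀ X, fro (X - W) ≤ 1 → P n X}
    {W | 1 / 2 ≤ Λ W - ∫ W', Λ W' ∂GOE n}]

theorem lv_symm (e : ℝ) : Lv GOE e fun _ W => Wᵀ = W :=
  .of_forall fun _ => (ae_iff.1 (goe_ae_symm _)).trans_le zero_le

theorem lv_opn : Lv GOE (1 / 8) fun _ W => opn W ≤ 3 :=
  .of_real (e := 1 / 4) (A := 2) (by norm_num) (.of_forall fun n => by rw [mul_comm (1 / 4)]; exact opn_tail)

theorem lv_ufr {c : ℝ} (hc : 0 < c) (ρ : ℝ) :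
    ∃ K : ℝ, 0 ≤ K ∧ Lv GOE (1 / 16) fun _ W => UFR W ρ c K := by
  obtain ⟨K, hK, h⟩ := ufR hc (ρ + 1)
  refine ⟨K, hK, boost (h.imp fun n W hW X hX Y hY => hW Y ?_)⟩
  have := fro_add_le (Y - X) (X - W)
  rw [sub_add_sub_cancel] at this
  linarith

theorem lv_uf {c : ℝ} (hc : 0 < c) : ∃ K : ℝ, Lv GOE (1 / 16) fun _ W => UF W 1 c K := by
  obtain ⟨K, -, h⟩ := lv_ufr hc 0
  refine ⟨K, h.imp fun n W hW θ hθ d hd h1 h2 => ?_⟩
  obtain ⟨a, b, -⟩ := hW W (by rw [sub_self, fro_zero]) θ hθ d hd h1 h2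
  exact ⟨a, b⟩

open TapFrz in
theorem quad_tail : ∃ ε > (0 : ℝ), ∀ n : ℕ, 0 < n → (GOE n).real {W | ¬
    ∀ d u : V n, Ub d → avg (fun i => d i ^ 2) ≤ ε → u ⬝ᵥ u ≤ 1 →
      (d * u) ⬝ᵥ W *ᵥ (d * u) ≤ 1 / 8} ≤ 1 * Real.exp (-(1 / 4096 * n)) := by
  have hm := m4_nonneg
  set a : ℝ := 1 / (2048 * (m4 + 1)) with ha
  have ha0 : 0 < a := by positivity
  refine ⟨a / 512, by positivity, fun n hn => ?_⟩
  have hn0 : (0 : ℝ) < n := by exact_mod_cast hn
  have hi : Integrable (fun ξ : V n => ∑ i, ξ i ^ 4) (gv (Fin n)) :=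
    integrable_finsetSum _ fun i _ => integrable_four_coord i
  have h := Kr.sf_goe_tail (T := TS n (a / 512)) (1 / Real.sqrt n)
    (u := fun t => t.1.1 * t.1.2) (f := fun _ => 0)
    ((continuous_fst.comp continuous_subtype_val).mul (continuous_snd.comp continuous_subtype_val))
    continuous_const (ρ := 1) (fun t => (mul_dot_le t.2.1).trans t.2.2.2)
    (Γ := fun ξ => 1 / 32 + 32 * (a * ((∑ i, ξ i ^ 4) / n) + a / 512 / (4 * a)))
    ((integrable_const _).add ((((hi.div_const _).const_mul _).add (integrable_const _)).const_mul _))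
    (fun ξ t => gam_bound hn ha0 t.2.1 t.2.2.1 t.2.2.2 ξ) (r := 1 / 32) (by norm_num)
  have hE : ∫ ξ : V n, (1 / 32 + 32 * (a * ((∑ i, ξ i ^ 4) / n) + a / 512 / (4 * a))) ∂gv (Fin n) =
      1 / 32 + 32 * (a * m4 + 1 / 2048) := by
    have i1 : Integrable (fun ξ : V n => a * ((∑ i, ξ i ^ 4) / n)) (gv (Fin n)) :=
      (hi.div_const _).const_mul _
    have i2 : Integrable (fun ξ : V n => 32 * (a * ((∑ i, ξ i ^ 4) / n) + a / 512 / (4 * a)))
        (gv (Fin n)) := (i1.add (integrable_const _)).const_mul _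
    rw [integral_add (integrable_const _) i2, integral_const_mul,
      integral_add i1 (integrable_const _), integral_const_mul, integral_div (n : ℝ),
      integral_finsetSum _ fun i _ => integrable_four_coord i]
    simp only [integral_four_coord, integral_const, probReal_univ, smul_eq_mul, one_mul,
      Finset.sum_const, Finset.card_univ, Fintype.card_fin, nsmul_eq_mul]
    field_simp
    ring
  rw [hE] at h
  have ham : a * m4 ≤ 1 / 2048 := by
    rw [ha, div_mul_eq_mul_div, div_le_div_iff₀ (by positivity) (by norm_num)]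
    linarith
  have he : -(1 / 32 : ℝ) ^ 2 / (4 * (1 / Real.sqrt n) ^ 2 * 1 ^ 2) = -(1 / 4096 * n) := by
    rw [div_pow (1 : ℝ) (Real.sqrt n), Real.sq_sqrt hn0.le]
    field_simp
    norm_num
  rw [he] at h
  rw [one_mul]
  refine le_trans (measureReal_mono (fun W hW => ?_) (measure_ne_top _ _)) h
  simp only [mem_ofPred_eq] at hW ⊢
  push Not at hW
  obtain ⟨d, u, h1, h2, h3, h4⟩ := hW
  exact ⟨⟨(d, u), h1, h2, h3⟩, by dsimp only; linarith⟩

theorem Lv.neg {e : ℝ} (h : Lv GOE e P) : Lv GOE e fun n W => P n (-W) :=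
  Filter.Eventually.mono h fun n hn => le_trans
    ((⟨measurable_neg, goe_neg _⟩ : MeasurePreserving (fun W : Mx n => -W) (GOE n)
      (GOE n)).measure_preimage_le {W | ¬ P n W}) hn

theorem lv_frz : ∃ ε > (0 : ℝ), Lv GOE (1 / 8192) fun _ W => Frz W ε := by
  obtain ⟨ε, hε, h0⟩ := quad_tail
  have h := Lv.of_real (μ := GOE) (e' := 1 / 5000) (by norm_num) ((eventually_gt_atTop 0).mono h0)
  refine ⟨ε, hε, ((h.and h.neg (e' := 1 / 6000) (by norm_num)).and (lv_symm _) (by norm_num)).imp ?_⟩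
  rintro n W ⟨⟨h1, h2⟩, h3⟩ d hd hav
  have hA : (diagonal d * W * diagonal d).IsHermitian := by
    have := herm_compress (herm_iff.2 h3) (diagonal d)
    rwa [diagonal_transpose] at this
  refine opn_le_of_lam hA (by norm_num) fun k hk => ?_
  rw [← quad_vec hA hk, TapFrz.quad_diag, abs_le]
  have h4 := h1 d _ hd hav (vec_dot_self hA hk).le
  have h5 := h2 d _ hd hav (vec_dot_self hA hk).le
  rw [neg_mulVec, dotProduct_neg] at h5
  constructor <;> linarith

open Lp Lp.E14 in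
theorem lv_det {c ε : ℝ} (hc : 0 < c) (hε : 0 < ε) : Lv GOE (1 / 64) fun _ W => DET W 1 c ε := by
  have hβ : (1 : ℝ) ∈ Ioc (0 : ℝ) 1 := ⟨one_pos, le_rfl⟩
  obtain ⟨c', hc', L, hL, r, ρ, hρ, hcκ, hU⟩ := U2.u2_tail hc
  have hU' := Lv.of_real (μ := GOE) (P := fun _ W => U2.Ev W 1 c c' L ρ r) (e := 1 / 4) (e' := 1 / 16)
    (A := 3) (by norm_num) ((eventually_gt_atTop 0).mono fun n hn => by
      rw [one_div_mul_eq_div]; exact hU 1 ⟨zero_le_one, le_rfl⟩ n hn)
  obtain ⟨K, hK, h⟩ := lv_ufr hc' ((2 + L * r) / 1)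
  set κ := 3 + (2 + L * r) / 1 with hκ
  have hκ0 : 0 ≤ κ := by positivity
  obtain ⟨m, hm⟩ := exists_nat_gt ((κ + 2) / (ε / 4))
  have hm0 : (0 : ℝ) < m := lt_of_le_of_lt (by positivity) hm
  refine (((hU'.and h (e' := 1 / 20) (by norm_num)).and (lv_symm _) (e' := 1 / 30) (by norm_num)).and
    (lv_opn.le (by norm_num)) (by norm_num)).mono ?_
  filter_upwards [ev_sqrt (2 * K * m) (show 0 < ε / 4 by positivity),
    (tendsto_natCast_atTop_atTop.atTop_mul_const (half_pos hε)).eventually_ge_atTop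
      ((r.factorial : ℝ) * (1 + L / c') ^ r)] with n h1 hn W ⟨⟨⟨hW, hF⟩, hS⟩, h3⟩ p hp ha
  have a1 : avg (fun i => DD p i ^ 2) ≤ avg (DD p) :=
    div_le_div_of_nonneg_right (Finset.sum_le_sum fun i _ => by
      rw [sq]; exact mul_le_of_le_one_right (U2.DD_nonneg hp i) (U2.DD_le_one p i)) (Nat.cast_nonneg n)
  obtain ⟨U, hU, a2⟩ := hW p hp (by rw [one_pow, one_mul]; exact a1.trans ha)
  have hE := hU.pen L
  have hpos := (a2 p hp (by rw [sub_self, nrm_eq_zero.2 rfl]; positivity)).2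
  refine (det_remove ub_dd hc' hL hE hpos).trans ((mul_le_mul (b := Real.exp (n * ((1 : ℝ) ^ 2 *
    avg (DD p) ^ 2 / 2 + ε / 2))) ?_ (hn.trans ((le_add_of_nonneg_right zero_le_one).trans
      (Real.add_one_le_exp _))) (by positivity) (Real.exp_pos _).le).trans ?_)
  swap
  · rw [← Real.exp_add, Real.exp_le_exp]; linarith
  obtain ⟨X, hX, hs, e⟩ := pert hβ hL W hp hE
  have ha' : (1 : ℝ) ^ 2 * avg (DD p) ≤ 1 - c' := by rw [one_pow, one_mul]; linarith
  rw [e] at hpos ⊢
  rw [← avg_dd hp] at ha' ⊢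
  have hop : opn X ≤ κ := by
    have h4 := opn_add_le (X - W) W
    rw [sub_add_cancel] at h4
    linarith [opn_le_sqrt_frob (X - W), show √(∑ i, ∑ j, (X - W) i j ^ 2) ≤ _ from hX]
  have key := det_path (hs hS) ub_dd hc' hβ hop hpos ha' (K := K * √n)
    (fun θ hθ h2 h3 => (hF X hX θ hθ _ ub_dd h2 h3).2.2) (m := m) (by exact_mod_cast hm0)
  refine (abs_of_nonneg (psd hc' (Nt_symm (hs hS) _ 1) hpos).det_nonneg).trans_le
    (key.trans (Real.exp_le_exp.2 ?_))
  have h2 : (κ + 2) / m ≤ ε / 4 := by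
    rw [div_lt_iff₀ (by positivity)] at hm
    rw [div_le_iff₀ hm0]
    linarith
  have h3 := mul_le_mul_of_nonneg_right h1 (Real.sqrt_nonneg (n : ℝ))
  rw [mul_assoc (ε / 4), Real.mul_self_sqrt (Nat.cast_nonneg n)] at h3
  have h4 := mul_le_mul_of_nonneg_left h2 (Nat.cast_nonneg (α := ℝ) n)
  linarith

end Crest.Agent.T157.Ks.St0
end
end

-- ▼ part T157/St0B_5

/-!
# Row 157: the planted laws of the matrix and of the pair (matrix, field) (helper5)
-/

set_option autoImplicit false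

noncomputable section

namespace Crest.Agent.T157.Ks.St0

open MeasureTheory ProbabilityTheory Matrix Filter Set Topology
open Crest.Agent.T157.E Crest.Agent.T157.Eig Crest.Agent.T157.Cond Crest.Agent.T157.Tap
open Crest.Agent.T157.SL (law Wt isProb_law)
open scoped ENNReal

variable {n : ℕ}

/-- planted law of the matrix -/
def PW (n : ℕ) : Measure (Mx n) := (GOE n).withDensity fun W => ENNReal.ofReal (Pl.LRW n 1 W)

/-- the planted pair for the configuration `σ` -/
def pl (s : ℝ) (σ : Cube n) (z : Mx n × V n) : Mx n × V n :=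
  (plW 1 z.1 (sv σ), s • sv σ + √s • z.2)

/-- planted law of the pair (matrix, field at time `s`) -/
def JP (s : ℝ) (n : ℕ) : Measure (Mx n × V n) :=
  (2 ^ n : ℝ≥0∞)⁻¹ • ∑ σ : Cube n, ((GOE n).prod (gv (Fin n))).map (pl s σ)

theorem meas_plW (σ : V n) : Measurable fun W : Mx n => plW 1 W σ := by unfold plW; fun_prop

theorem meas_pl (s : ℝ) (σ : Cube n) : Measurable (pl s σ) := by unfold pl plW; fun_prop

theorem meas_ising (σ : Cube n) : Measurable fun W : Mx n => ising W 0 σ :=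
  Pl.measurable_ising measurable_id measurable_const σ

theorem meas_prob (σ : Cube n) : Measurable fun W : Mx n => prob (ising W 0) σ :=
  (meas_ising σ).div (Finset.measurable_sum _ fun τ _ => meas_ising τ)

theorem meas_LR : Measurable fun W : Mx n => ENNReal.ofReal (Pl.LRW n 1 W) :=
  (Pl.measurable_LRW 1).ennreal_ofReal

theorem lint_pl (σ : Cube n) {G : Mx n → ℝ≥0∞} (hG : Measurable G) :
    ∫⁻ W, ENNReal.ofReal (ising W 0 σ) * G W ∂GOE n =
      ENNReal.ofReal (Real.exp (n / 4)) * ∫⁻ W, G (plW 1 W (sv σ)) ∂GOE n := by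
  have h := Pl.lintegral_exp_mul false (Pl.aW n 1 σ) fun x => G (symG (1 / √n) x)
  rw [Pl.MM_aW, one_pow, one_mul, ← (Pl.mp_shift _).lintegral_comp
    (f := fun x => G (symG (1 / √n) x)) (hG.comp (measurable_symG _))] at h
  simp only [Pl.symG_add_aW] at h
  rw [← (Pl.mp_symG n).lintegral_comp ((meas_ising σ).ennreal_ofReal.fun_mul hG),
    ← (Pl.mp_symG n).lintegral_comp (f := fun W => G (plW 1 W (sv σ))) (hG.comp (meas_plW _))]
  refine Eq.trans (lintegral_congr fun x => ?_) h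
  have := congrFun (Pl.ising_symG 1 x 0) σ
  rw [one_smul] at this
  rw [this, Pl.rwt, zero_dotProduct, Real.exp_zero, one_mul]

theorem LR_prob (W : Mx n) (σ : Cube n) :
    ENNReal.ofReal (Pl.LRW n 1 W) * ENNReal.ofReal (prob (ising W 0) σ) =
      (2 ^ n : ℝ≥0∞)⁻¹ * (ENNReal.ofReal (Real.exp (n / 4)))⁻¹ * ENNReal.ofReal (ising W 0 σ) := by
  have hZ := (Pl.wt_ising W 0).pos
  rw [← ENNReal.ofReal_mul (Pl.LRW_pos 1 W).le, ← ENNReal.ofReal_inv_of_pos (Real.exp_pos _),
    show (2 ^ n : ℝ≥0∞) = ENNReal.ofReal (2 ^ n) by simp,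
    ← ENNReal.ofReal_inv_of_pos (by positivity), ← ENNReal.ofReal_mul (by positivity),
    ← ENNReal.ofReal_mul (by positivity), Pl.LRW, one_smul, one_pow, one_mul, prob]
  congr 1
  unfold Zw at hZ ⊢
  field_simp

/-- **the planted identity** -/
theorem planted {F : Cube n → Mx n → ℝ≥0∞} (hF : ∀ σ, Measurable (F σ)) :
    ∫⁻ W, ∑ σ, ENNReal.ofReal (prob (ising W 0) σ) * F σ W ∂PW n =
      (2 ^ n : ℝ≥0∞)⁻¹ * ∑ σ, ∫⁻ W, F σ (plW 1 W (sv σ)) ∂GOE n := by
  have m := fun σ : Cube n => (meas_ising σ).ennreal_ofReal.fun_mul (hF σ)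
  rw [PW, lintegral_withDensity_eq_lintegral_mul _ meas_LR (Finset.measurable_sum _ fun σ _ =>
    (meas_prob σ).ennreal_ofReal.fun_mul (hF σ))]
  simp only [Pi.mul_apply, Finset.mul_sum, ← mul_assoc, LR_prob]
  simp only [mul_assoc]
  rw [lintegral_finsetSum _ fun σ _ => ((m σ).const_mul _).const_mul _]
  refine Finset.sum_congr rfl fun σ _ => ?_
  rw [lintegral_const_mul _ ((m σ).const_mul _), lintegral_const_mul _ (m σ), lint_pl σ (hF σ),
    ← mul_assoc (ENNReal.ofReal _)⁻¹, ENNReal.inv_mul_cancel (by simp [Real.exp_pos]) ENNReal.ofReal_ne_top, one_mul]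

theorem sum_prob (W : Mx n) : ∑ σ, ENNReal.ofReal (prob (ising W 0) σ) = 1 := by
  rw [← ENNReal.ofReal_sum_of_nonneg fun x _ => (Pl.wt_ising W 0).prob_nonneg x,
    (Pl.wt_ising W 0).sum_prob, ENNReal.ofReal_one]

theorem avg_le {f : Cube n → ℝ≥0∞} {δ : ℝ≥0∞} (h : ∀ σ, f σ ≤ δ) :
    (2 ^ n : ℝ≥0∞)⁻¹ * ∑ σ, f σ ≤ δ := by
  refine (mul_le_mul_right (Finset.sum_le_sum fun σ _ => h σ) _).trans_eq ?_
  rw [Finset.sum_const, nsmul_eq_mul, ← mul_assoc]
  simp [ENNReal.inv_mul_cancel]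

theorem avg_const (δ : ℝ≥0∞) : (2 ^ n : ℝ≥0∞)⁻¹ * ∑ _σ : Cube n, δ = δ := by
  rw [Finset.sum_const, nsmul_eq_mul, ← mul_assoc]
  simp [ENNReal.inv_mul_cancel]

theorem lint_PW {G : Mx n → ℝ≥0∞} (hG : Measurable G) :
    ∫⁻ W, G W ∂PW n = (2 ^ n : ℝ≥0∞)⁻¹ * ∑ σ : Cube n, ∫⁻ W, G (plW 1 W (sv σ)) ∂GOE n := by
  rw [← planted fun _ => hG]
  simp only [← Finset.sum_mul, sum_prob, one_mul]

instance : IsProbabilityMeasure (PW n) := ⟨by
  rw [← lintegral_one, lint_PW measurable_const]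
  simp only [lintegral_one, measure_univ, avg_const]⟩


theorem ising_plW (W : Mx n) (σ τ : Cube n) :
    ising (plW 1 W (sv σ)) 0 τ = ising W 0 τ * Real.exp (1 / n * (sv σ ⬝ᵥ sv τ) ^ 2 / 2) := by
  rw [ising, ising, ← Real.exp_add, plW, add_mulVec, smul_mulVec, vecMulVec_mulVec, dotProduct_add,
    dotProduct_smul, op_smul_eq_smul, dotProduct_smul, dotProduct_comm (sv τ) (sv σ)]
  simp only [smul_eq_mul]
  congr 1; ring

/-- second moment of the likelihood ratio -/
theorem lint_LR : ∫⁻ W, ENNReal.ofReal (Pl.LRW n 1 W) ∂PW n ≤ ENNReal.ofReal (n + 1) := by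
  rw [lint_PW meas_LR]
  refine avg_le fun σ => le_trans (le_of_eq ?_) (ENNReal.ofReal_le_ofReal (Pl.U_le_succ n le_rfl))
  have e : ∀ W : Mx n, ENNReal.ofReal (Pl.LRW n 1 (plW 1 W (sv σ))) = ∑ τ, ENNReal.ofReal (ising W 0 τ) *
      ENNReal.ofReal (Real.exp (1 / n * (sv σ ⬝ᵥ sv τ) ^ 2 / 2) / (2 ^ n * Real.exp (n / 4))) :=
    fun W => by
      rw [Pl.LRW, one_smul, one_pow, one_mul, Zw, Finset.sum_div,
        ENNReal.ofReal_sum_of_nonneg fun τ _ => div_nonneg (Cov15.ising_pos _ _ _).le (by positivity)]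
      refine Finset.sum_congr rfl fun τ _ => ?_
      rw [ising_plW, mul_div_assoc, ENNReal.ofReal_mul (Cov15.ising_pos _ _ _).le]
  simp only [e]
  rw [lintegral_finsetSum _ fun τ _ => (meas_ising τ).ennreal_ofReal.mul_const _, Pl.U,
    ← Pl.sum_overlap (fun x => Real.exp (1 / n * x ^ 2 / 2)) σ, Finset.sum_div,
    ENNReal.ofReal_sum_of_nonneg fun τ _ => by positivity]
  refine Finset.sum_congr rfl fun τ _ => ?_
  rw [lint_pl τ measurable_const, lintegral_const, measure_univ, mul_one,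
    ← ENNReal.ofReal_mul (Real.exp_pos _).le]
  congr 1
  field_simp

/-- null probabilities control planted probabilities -/
theorem PW_le (E : Set (Mx n)) {l : ℝ} (hl : 0 < l) :
    PW n E ≤ ENNReal.ofReal l * GOE n E + ENNReal.ofReal ((n + 1) / l) := by
  set S := {W : Mx n | ENNReal.ofReal l ≤ ENNReal.ofReal (Pl.LRW n 1 W)} with hS
  have mS : MeasurableSet S := measurableSet_le measurable_const meas_LR
  have h1 := meas_ge_le_lintegral_div (μ := PW n) meas_LR.aemeasurable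
    (ENNReal.ofReal_pos.2 hl).ne' ENNReal.ofReal_ne_top
  rw [ENNReal.ofReal_div_of_pos hl]
  refine le_trans (measure_mono (t := toMeasurable (GOE n) E \ S ∪ S) fun W hW => ?_)
    ((measure_union_le _ _).trans (add_le_add ?_ (h1.trans (ENNReal.div_le_div_right lint_LR _))))
  · by_cases h : ENNReal.ofReal l ≤ ENNReal.ofReal (Pl.LRW n 1 W)
    · exact .inr h
    · exact .inl ⟨subset_toMeasurable _ _ hW, h⟩
  · rw [PW, withDensity_apply _ ((measurableSet_toMeasurable _ _).diff mS)]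
    refine (setLIntegral_mono' ((measurableSet_toMeasurable _ _).diff mS) (g := fun _ => ENNReal.ofReal l)
      fun W hW => (not_le.1 hW.2).le).trans ?_
    rw [setLIntegral_const, ← measure_toMeasurable E]
    exact mul_le_mul_right (measure_mono sdiff_subset) _

theorem Lv.toP {e : ℝ} {P : ∀ n, Mx n → Prop} (h : Lv GOE e P) {e' : ℝ} (he : e' < e / 2) :
    Lv PW e' P := by
  filter_upwards [h, ev_poly 2 he] with n h1 h2
  refine (PW_le _ (Real.exp_pos (e / 2 * n))).trans ((add_le_add (mul_le_mul_right h1 _) le_rfl).trans ?_)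
  rw [← ENNReal.ofReal_mul (Real.exp_pos _).le, ← ENNReal.ofReal_add (by positivity) (by positivity),
    ← Real.exp_add, div_eq_mul_inv (_ + 1), ← Real.exp_neg, show e / 2 * n + -(e * n) = -(e / 2 * n) by ring]
  refine ENNReal.ofReal_le_ofReal (le_trans ?_ h2)
  nlinarith [Real.exp_pos (-(e / 2 * n)), mul_nonneg n.cast_nonneg (Real.exp_pos (-(e / 2 * n))).le]

/-! ### the pair -/

variable {s : ℝ} {A : Set (Mx n × V n)}

theorem JP_eq (hA : MeasurableSet A) : JP s n A =
    (2 ^ n : ℝ≥0∞)⁻¹ * ∑ σ : Cube n, ((GOE n).prod (gv (Fin n))) {z | pl s σ z ∈ A} := by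
  simp only [JP, Measure.smul_apply, Measure.coe_finsetSum, Finset.sum_apply, smul_eq_mul,
    Measure.map_apply (meas_pl s _) hA]
  rfl

instance : IsProbabilityMeasure (JP s n) := ⟨by
  rw [JP_eq .univ]; simp only [mem_univ, ofPred_true, measure_univ, avg_const]⟩

theorem JP_le (hA : MeasurableSet A) {δ : ℝ≥0∞}
    (h : ∀ σ : Cube n, ((GOE n).prod (gv (Fin n))) {z | pl s σ z ∈ A} ≤ δ) : JP s n A ≤ δ :=
  (JP_eq hA).trans_le (avg_le h)

theorem law_eq (W : Mx n) (B : Set (V n)) : law sv (ising W 0) s B =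
    ∑ σ, ENNReal.ofReal (prob (ising W 0) σ) * ((gv (Fin n)).map fun z => s • sv σ + √s • z) B := by
  simp only [law, Measure.coe_finsetSum, Finset.sum_apply, Measure.smul_apply, smul_eq_mul]

theorem meas_sec (hA : MeasurableSet A) (σ : Cube n) : Measurable fun W : Mx n =>
    ((gv (Fin n)).map fun z => s • sv σ + √s • z) {y | (W, y) ∈ A} :=
  haveI := SL.isProb_path (s • sv σ) √s
  measurable_measure_prodMk_left hA

theorem meas_law (hA : MeasurableSet A) :
    Measurable fun W : Mx n => law sv (ising W 0) s {y | (W, y) ∈ A} := by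
  simp only [law_eq]
  exact Finset.measurable_sum _ fun σ _ => (meas_prob σ).ennreal_ofReal.fun_mul (meas_sec hA σ)

/-- given the matrix, the field is the localisation of the Gibbs measure -/
theorem JP_apply (hA : MeasurableSet A) :
    JP s n A = ∫⁻ W, law sv (ising W 0) s {y | (W, y) ∈ A} ∂PW n := by
  simp only [law_eq]
  rw [planted (meas_sec hA), JP_eq hA]
  congr 1
  refine Finset.sum_congr rfl fun σ _ => ?_
  rw [Measure.prod_apply (show MeasurableSet {z | pl s σ z ∈ A} from meas_pl s σ hA)]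
  refine lintegral_congr fun W => ?_
  rw [Measure.map_apply (by fun_prop) (show MeasurableSet {y | (plW 1 W (sv σ), y) ∈ A} from
    measurable_prodMk_left hA)]
  rfl

theorem JP_fst (E : Set (Mx n)) : JP s n {z | z.1 ∈ E} ≤ PW n E := by
  have hm := measurableSet_toMeasurable (PW n) E
  refine (measure_mono (t := {z : Mx n × V n | z.1 ∈ toMeasurable (PW n) E}) fun z hz =>
    subset_toMeasurable _ _ hz).trans ?_
  rw [JP_apply (A := {z : Mx n × V n | z.1 ∈ toMeasurable (PW n) E}) (measurable_fst hm), ← measure_toMeasurable E, ← lintegral_indicator_one hm]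
  refine lintegral_mono fun W => ?_
  have := isProb_law (φ := sv) (s := s) (Pl.wt_ising W 0)
  by_cases h : W ∈ toMeasurable (PW n) E
  · rw [indicator_of_mem h]; exact prob_le_one
  · simp [h]

/-- joint bound to two-level bound -/
theorem JP_markov (hA : MeasurableSet A) {ε δ : ℝ} (hε : 0 < ε) (h : JP s n A ≤ ENNReal.ofReal δ) :
    PW n {W | ¬ (law sv (ising W 0) s).real {y | (W, y) ∈ A} ≤ ε} ≤ ENNReal.ofReal (δ / ε) := by
  have h1 := meas_ge_le_lintegral_div (μ := PW n) (meas_law (s := s) hA).aemeasurable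
    (ENNReal.ofReal_pos.2 hε).ne' ENNReal.ofReal_ne_top
  rw [← JP_apply hA] at h1
  rw [ENNReal.ofReal_div_of_pos hε]
  refine le_trans (measure_mono fun W hW => ?_) (h1.trans (ENNReal.div_le_div_right h _))
  exact ENNReal.ofReal_le_of_le_toReal (not_le.1 hW).le

/-- two-level bound to joint bound -/
theorem JP_two (hA : MeasurableSet A) (ε : ℝ) : JP s n A ≤
    PW n {W | ¬ (law sv (ising W 0) s).real {y | (W, y) ∈ A} ≤ ε} + ENNReal.ofReal ε := by
  set E := {W | ¬ (law sv (ising W 0) s).real {y | (W, y) ∈ A} ≤ ε}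
  have hm := measurableSet_toMeasurable (PW n) E
  rw [JP_apply hA, ← measure_toMeasurable E, ← lintegral_indicator_one hm,
    ← mul_one (ENNReal.ofReal ε), ← measure_univ (μ := PW n), ← lintegral_const,
    ← lintegral_add_right _ measurable_const]
  refine lintegral_mono fun W => ?_
  have := isProb_law (φ := sv) (s := s) (Pl.wt_ising W 0)
  by_cases h : W ∈ toMeasurable (PW n) E
  · rw [indicator_of_mem h]; exact prob_le_one.trans le_self_add
  · rw [indicator_of_notMem h, zero_add, ← ofReal_measureReal]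
    exact ENNReal.ofReal_le_ofReal (not_not.1 fun h' => h (subset_toMeasurable _ _ h'))

/-- gauge fixing -/
theorem JP_gauge (hA : MeasurableSet A) {B : Set (Mx n × V n)}
    (h : ∀ σ : V n, Pl.IsSign σ → ∀ z : Mx n × V n, (TapPl.cj σ z.1, σ * z.2) ∈ A → z ∈ B) :
    JP s n A ≤ ((GOE n).prod (gv (Fin n))) {z | (plW 1 z.1 1, s • (1 : V n) + √s • z.2) ∈ B} :=
  JP_le hA fun σ => (TapPl.planted_gauge 1 s hA σ).trans_le
    (measure_mono fun _ hz => h _ (Pl.isSign_sv σ) (_, _) hz)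

section
variable {e e' : ℝ} {P : ∀ n, Mx n → Prop} {Q : ∀ n, Mx n × V n → Prop}

theorem Lv.fst (h : Lv PW e P) (s : ℝ) : Lv (JP s) e fun n z => P n z.1 :=
  Filter.Eventually.mono h fun _ hn => (JP_fst _).trans hn

theorem Lv.markov (h : Lv (JP s) e Q) (hQ : ∀ n, MeasurableSet {z | ¬ Q n z}) (e' : ℝ) :
    Lv PW (e - e') fun n W =>
      (law sv (ising W 0) s).real {y | ¬ Q n (W, y)} ≤ Real.exp (-(e' * n)) :=
  Filter.Eventually.mono h fun n hn => (JP_markov (hQ n) (Real.exp_pos _) hn).trans_eq (by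
    rw [← Real.exp_sub]; congr 2; ring)

theorem Lv.two (hQ : ∀ n, MeasurableSet {z | ¬ Q n z}) (h : Lv PW e fun n W =>
    (law sv (ising W 0) s).real {y | ¬ Q n (W, y)} ≤ Real.exp (-(e * n))) (he : e' < e) :
    Lv (JP s) e' Q := by
  filter_upwards [h, ev_const 2 he] with n h1 h2
  refine (JP_two (hQ n) _).trans ((add_le_add h1 le_rfl).trans ?_)
  rw [← ENNReal.ofReal_add (Real.exp_pos _).le (Real.exp_pos _).le, ← two_mul]
  exact ENNReal.ofReal_le_ofReal h2

end

end Crest.Agent.T157.Ks.St0
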